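import Crest.Agent.R017.NSb6_986

/-!
# Row 17, section B, leaf L3b in general form: definitions

* `AS` : smooth squarefree amplifier piece, `NSumS` : the natural sum with the extra factor `c₀`
* `DOUTW 𝒲` : D-OUT for a class `𝒲` of weights in `k` (signed sums; the absolute form is the class
  of all weights of modulus `≤ 1` supported in a ball), two versions (`D0`, `D1`)
* `NatNPW 𝒲` : the natural bound for the class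
* `TkPow` : explicit values of `tk k b 1`, `b` powerful; `NSExp2` : pointwise expansion of `NSumS`
-/

set_option autoImplicit false

noncomputable section

open scoped ComplexConjugate

namespace Crest.Agent.R017.Asm986

open Crest.Agent.R012 Crest.Agent.R012.Eis Crest.Agent.R012.PSer47 Crest.Agent.R012.Div277
open Crest.Agent.R017.End699 Crest.Agent.R017.Sx545 Crest.Agent.R017.B770

open Classical in
/-- `1[T ∣ k] ((k/T)/D)_3` -/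
def DS (T D k : Eis) : ℂ := if T ∣ k then sy (k / T) D else 0

open Classical in
/-- explicit values of `tk k b 1` for powerful `b`. -/
def TkPow : Prop :=
  ∃ (S D : Eis → Eis) (E : Eis → Finset Eis) (κ : Eis → Eis → ℂ) (ω : Eis → ℝ),
    (∀ b, 0 ≤ ω b) ∧
    (∀ b, Sm 2 b → Pf b → IsPrim (S b) ∧ IsPrim (D b) ∧ (nm (S b) : ℝ) ≤ nm b ∧
      (nm (D b) : ℝ) ≤ (nm b : ℝ) ^ 2 ∧ (∀ e ∈ E b, IsPrim e ∧ (nm e : ℝ) ≤ nm b) ∧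
      (∀ x, IsCoprime b x → IsCoprime (S b) x ∧ IsCoprime (D b) x ∧ ∀ e ∈ E b, IsCoprime e x) ∧
      (∀ k, tk k b 1 = ∑ e ∈ E b, κ b e * DS (S b * e) (D b) k) ∧
      ∑ e ∈ E b, ‖κ b e‖ ≤ (nm (S b) : ℝ) * ω b) ∧
    Summable (fun b => if Sm 2 b ∧ Pf b then ω b * (nm b : ℝ) ^ (-(1 / 2) : ℝ) else 0) ∧
    ∀ σ : ℝ, 7 / 8 < σ → Summable (fun b => if Sm 2 b ∧ Pf b then
      (nm (S b) : ℝ) ^ (5 / 6 : ℝ) * ω b * (nm b : ℝ) ^ (-σ) else 0)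

open Classical in
/-- squarefree primary elements of norm `≤ e^{κ+1}` -/
def sqB (κ : ℝ) : Finset Eis := (primBall ⌊Real.exp (κ + 1)⌋₊).filter Squarefree

open Classical in
/-- squarefree primary elements of norm `≤ e^{κ+1}` prime to `M` -/
def sqS (M : Eis) (κ : ℝ) : Finset Eis := (sqB κ).filter (fun c => IsCoprime c M)

/-- smooth squarefree piece of the amplifier -/
def AS (h : ℝ → ℂ) (κ : ℝ) (f : Eis → ℂ) : ℂ :=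
  ∑ c ∈ sqB κ, f c * h (Real.log (nm c) - κ)

open Classical in
/-- the natural double sum with the extra smooth squarefree factor `c₀` -/
def NSumS (h₀ h : ℝ → ℂ) (r : ℕ) (y Q₀ κ₀ : ℝ) (J : Finset (Fin r)) (M : Eis) (f g : Eis → ℂ)
    (V : ℝ → ℂ) (Q : ℝ) (k : Eis) : ℂ :=
  ∑ c₀ ∈ sqS M κ₀, h₀ (Real.log (nm c₀) - κ₀) * ∑ p ∈ tup r y Q₀ J,
    (∏ i : J, h (Real.log (nm (p i)) - kap r y Q₀ i)) * g (c₀ * ∏ i : J, p i) *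
      ∑' b : Eis, if Sm M b then f b * tk k b (c₀ * ∏ i : J, p i) * V (nm b / Q) else 0

open Classical in
/-- `∏_{p ∣ d} (1 - N p 1[p² ∣ k])` for `d` squarefree -/
def uwd (k d : Eis) : ℂ := ∑ a ∈ dvs d, if a ^ 2 ∣ k then (muE a : ℂ) * nm a else 0

open Classical in
/-- pointwise expansion of `NSumS` -/
def NSExp2 : Prop :=
  ∀ h₀ h : ℝ → ℂ, HW h₀ → HW h → ∀ V : ℝ → ℂ, SW V → ∀ (M : Eis) (f g : Eis → ℂ),
    (2 : Eis) ∣ M → (3 : Eis) ∣ M → M ≠ 0 → IsChar f → IsChar g →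
    ∀ (r : ℕ) (y Q₀ κ₀ Q : ℝ), 0 < r → 0 < y → 1 ≤ Q₀ → 0 ≤ κ₀ → 0 < Q →
    (nm M : ℝ) * Real.exp κ₀ * 9 < Q₀ ^ (y / r) →
    ∀ (J : Finset (Fin r)) (k : Eis), k ≠ 0 →
      NSumS h₀ h r y Q₀ κ₀ J M f g V Q k =
        ∑ d ∈ sqS M κ₀, (f d * g d) * uwd k d * ∑ J' ∈ J.powerset, ∑ p ∈ tup r y Q₀ J',
          (∏ i : J', h (Real.log (nm (p i)) - kap r y Q₀ i) * (f (p i) * g (p i)) * uw k (p i)) *
          ∑' b : Eis, if Sm M b ∧ Pf b ∧ IsCoprime b (d * ∏ i : J', p i) then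
            f b * tk k b 1 *
              (AS h₀ (κ₀ - Real.log (nm d))
                (fun q => g q * prin0 (M * (d * b)) q * conj (sy k q)) *
              Amp h r y Q₀ (J \ J') (fun q => g q * prin0 b q * conj (sy k q)) *
              MV V (Q / (nm b * (nm d * nm (∏ i : J', p i))))
                (fun q => f q * prin0 (M * (b * (d * ∏ i : J', p i))) q * sy k q))
            else 0

/-- the target, with separate gains in the two terms; `y₀` = total exponent of the amplifier,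
`Cc` = length of the sub-amplifier. -/
def TgA (θ η₁ η₂ y₀ Q₀ Q H Cc : ℝ) : ℝ :=
  Q₀ ^ ((1 / 2 + y₀) / 3 + y₀ + θ) *
    (Q₀ ^ (-η₁) * (H / Q₀ ^ (1 / 2 + y₀) * (Q / Q₀) ^ (1 / 2 : ℝ) * (Cc / Q₀ ^ y₀) ^ (1 / 2 : ℝ)) +
      Q₀ ^ (-η₂) * ((H / Q₀ ^ (1 / 2 + y₀)) ^ (1 / 6 : ℝ) * (Q / Q₀) ^ θ * (Cc / Q₀ ^ y₀) ^ θ))

open Classical in
/-- the nonprincipal `k`-sum against a weight `wt` -/
def kSum (n : Eis) (φ : Eis → ℂ) (l : ℤ) (wt F : Eis → ℂ) : ℂ :=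
  ∑' k : Eis, if k ≠ 0 ∧ NPk n φ l k then wt k * F k else 0

/-- a class of weights in `k`: `𝒲 H s wt`, `H` = length, `s ≥ 1` = size of the parameters. -/
structure KClass (𝒲 : ℝ → ℝ → (Eis → ℂ) → Prop) : Prop where
  fin : ∃ c : ℝ, 0 < c ∧ ∀ H s wt, 𝒲 H s wt → ∀ k, wt k ≠ 0 → (nm k : ℝ) ≤ c * H
  dil : ∀ H s wt (T : Eis), 𝒲 H s wt → IsPrim T → 𝒲 (H / nm T) s (fun k => wt (T * k))

/-- **D-OUT for a class of weights**, with squarefree smooth piece of length `e^κ` (total length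
`Q₀^δ` at most). `D0` : `η₂ = 0`, `B = 0`, `κm = -1`; `D1` : `η₂ = η`, `B` large,
`κm Q₀ = (δ/2) log Q₀`. The last hypothesis on `Q` : a factor of the amplifier is lost only
together with the same length of `b`. -/
def DOUTW (𝒲 : ℝ → ℝ → (Eis → ℂ) → Prop) (θ : ℝ) (r : ℕ) (y δ η η₂ B : ℝ)
    (κm : ℝ → ℝ) : Prop :=
  ∀ h₀ h : ℝ → ℂ, HW h₀ → HW h → ∀ V : ℝ → ℂ, SW V → ∀ l₁ l₂ : ℤ, ∀ ε C₁ : ℝ, 0 < ε → 0 < C₁ →
    ∃ C A : ℝ, 0 ≤ C ∧ 0 ≤ A ∧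
    ∀ (n₁ n₂ : Eis) (φ ψ : Eis → ℂ), HC n₁ φ → HC n₂ ψ → ∀ D : Eis, IsPrim D →
    ∀ (Q₀ Q : ℝ), 1 ≤ Q → Q ≤ Q₀ → ∀ κ : ℝ, κm Q₀ ≤ κ → κ ≤ δ * Real.log Q₀ →
    ∀ (J : Finset (Fin r)) (H s : ℝ) (wt : Eis → ℂ), 0 < H → 1 ≤ s → 𝒲 H s wt →
      H ≤ Q₀ ^ (1 / 2 + (y + δ) + η) →
      Q ≤ C₁ * Q₀ * (CJ r y Q₀ J * Real.exp κ / Q₀ ^ (y + δ)) → ∀ t₁ t₂ : ℝ,
      ‖kSum n₁ φ l₁ wt (fun k => sy k D * (AS h₀ κ (fun p => twt φ l₁ t₁ p * conj (sy k p)) *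
        Amp h r y Q₀ J (fun p => twt φ l₁ t₁ p * conj (sy k p)) *
          MV V Q (fun b => twt ψ l₂ t₂ b * sy k b)))‖ ≤
        C * ((nm n₁ : ℝ) * nm n₂ * nm D * Q₀) ^ ε * ((nm n₁ : ℝ) * nm n₂ * nm D) ^ B *
          (s * (1 + |t₁| + |t₂|)) ^ A *
          TgA θ η η₂ (y + δ) Q₀ Q H (CJ r y Q₀ J * Real.exp κ)

/-- **the natural bound for a class of weights** (`κ₀ = δ log Q₀`). -/
def NatNPW (𝒲 : ℝ → ℝ → (Eis → ℂ) → Prop) (θ : ℝ) (r : ℕ) (y δ η η' : ℝ) : Prop :=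
  ∀ h₀ h : ℝ → ℂ, HW h₀ → HW h → ∀ V : ℝ → ℂ, SW V → ∀ l₁ l₂ : ℤ, ∀ ε C₁ : ℝ, 0 < ε → 0 < C₁ →
    ∃ C A B : ℝ, 0 ≤ C ∧ 0 ≤ A ∧ 0 ≤ B ∧
    ∀ (M : Eis) (φ ψ : Eis → ℂ), (2 : Eis) ∣ M → HC M φ → HC M ψ →
    ∀ (Q₀ Q : ℝ), 1 ≤ Q → Q ≤ Q₀ → (nm M : ℝ) * Q₀ ^ δ * 9 < Q₀ ^ (y / r) →
    ∀ (J : Finset (Fin r)) (H s : ℝ) (wt : Eis → ℂ), 0 < H → 1 ≤ s → 𝒲 H s wt →
      H ≤ Q₀ ^ (1 / 2 + (y + δ) + η) → Q ≤ C₁ * Q₀ * (CJ r y Q₀ J / Q₀ ^ y) → ∀ t₁ t₂ : ℝ,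
      ‖kSum M φ l₁ wt (fun k => NSumS h₀ h r y Q₀ (δ * Real.log Q₀) J M (twt ψ l₂ t₂)
        (twt φ l₁ t₁) V Q k)‖ ≤
        C * (nm M : ℝ) ^ B * Q₀ ^ ε * (s * (1 + |t₁| + |t₂|)) ^ A *
          TgA θ η' η' (y + δ) Q₀ Q H (CJ r y Q₀ J * Q₀ ^ δ)

end Crest.Agent.R017.Asm986
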