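import Crest.Agent.R017.EndP_699

/-!
# Row 17, end block (Q): complex conjugation; the step without one angular frequency
-/

set_option autoImplicit false

noncomputable section

open Set Filter Topology

namespace Crest.Agent.R017.End699

open Crest.Agent.R012 Crest.Agent.R012.Eis Crest.Agent.R012.PSer47
open scoped ComplexConjugate

lemma ang_neg_conj (l : ℤ) {b : Eis} (hb : b ≠ 0) : ang (-l) b = conj (ang l b) := by
  have h1 : toC b ≠ 0 := by
    intro h0
    exact hb (toC_eq_zero.mp h0)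
  have h2 : ‖toC b / (‖toC b‖ : ℂ)‖ = 1 := by
    rw [norm_div, Complex.norm_real, norm_norm]
    exact div_self (norm_ne_zero_iff.mpr h1)
  unfold ang
  rw [zpow_neg, map_zpow₀, ← Complex.inv_eq_conj h2, inv_zpow]

/-- the conjugate function -/
def cj (χ : Eis → ℂ) (b : Eis) : ℂ := conj (χ b)

lemma HC.cj {q : Eis} {χ : Eis → ℂ} (h : HC q χ) : HC q (cj χ) := h.conj

lemma cj_cj (χ : Eis → ℂ) : cj (cj χ) = χ := by
  funext b; unfold cj; rw [Complex.conj_conj]

lemma tw_cj (χ : Eis → ℂ) (l : ℤ) {b : Eis} (hb : b ≠ 0) :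
    tw (cj χ) (-l) b = conj (tw χ l b) := by
  unfold tw cj
  rw [ang_neg_conj l hb, map_mul]

lemma push_cj (χ : Eis → ℂ) (l : ℤ) (n : ℕ) :
    push (tw (cj χ) (-l)) n = conj (push (tw χ l) n) := by
  unfold push
  rw [map_sum]
  apply Finset.sum_congr rfl
  intro b hb
  exact tw_cj χ l (mem_fib.mp hb).2.ne_zero

lemma LSeries_conj (a : ℕ → ℂ) (s : ℂ) :
    LSeries (fun n => conj (a n)) (conj s) = conj (LSeries a s) := by
  unfold LSeries
  rw [Complex.conj_tsum]
  apply tsum_congr
  intro n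
  rcases eq_or_ne n 0 with rfl | hn
  · simp
  · rw [LSeries.term_of_ne_zero hn, LSeries.term_of_ne_zero hn, map_div₀]
    congr 1
    rw [Complex.cpow_conj _ _ (by rw [Complex.natCast_arg]; exact Real.pi_pos.ne),
      Complex.conj_natCast]

section

variable {q : Eis} {χ : Eis → ℂ}

lemma NP.cj {l : ℤ} (h : NP q χ l) : NP q (cj χ) (-l) := by
  rcases h with h | ⟨a, h1, h2, h3⟩
  · left; simpa using h
  · right
    refine ⟨a, h1, h2, ?_⟩
    intro h4
    apply h3
    unfold End699.cj at h4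
    have h5 := congrArg conj h4
    rwa [Complex.conj_conj, map_one] at h5

lemma np_cj_iff {l : ℤ} : NP q (cj χ) (-l) ↔ NP q χ l := by
  constructor
  · intro h
    have h1 := h.cj
    rwa [cj_cj, neg_neg] at h1
  · exact NP.cj

/-- the functional equation under complex conjugation -/
theorem LH_conj (h : HC q χ) (l : ℤ) {s : ℂ} (hs : 1 / 2 < s.re) (h1 : NP q χ l ∨ s ≠ 1) :
    LH q (cj χ) (-l) (conj s) = conj (LH q χ l s) := by
  have h' := h.cj
  set G : ℂ → ℂ := fun z => conj (LH q (cj χ) (-l) (conj z)) with hG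
  have hbig : ∀ z : ℂ, 1 < z.re → G z = LH q χ l z := by
    intro z hz
    simp only [hG]
    rw [h'.LH_eq (-l) (by simpa using hz), h.LH_eq l hz]
    have e : push (tw (cj χ) (-l)) = fun n => conj (push (tw χ l) n) :=
      funext fun n => push_cj χ l n
    rw [e, LSeries_conj, Complex.conj_conj]
  have hGd : ∀ z : ℂ, DifferentiableAt ℂ (LH q (cj χ) (-l)) (conj z) → DifferentiableAt ℂ G z := by
    intro z hz
    exact differentiableAt_conj_conj_iff.mpr hz
  have main : ∀ U : Set ℂ, IsOpen U → IsPreconnected U → (2 : ℂ) ∈ U →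
      (∀ z ∈ U, DifferentiableAt ℂ (LH q (cj χ) (-l)) (conj z)) →
      (∀ z ∈ U, DifferentiableAt ℂ (LH q χ l) z) → s ∈ U → G s = LH q χ l s := by
    intro U hU hUc h2 hd1 hd2 hsU
    have h3 : AnalyticOnNhd ℂ G U :=
      DifferentiableOn.analyticOnNhd (fun z hz => (hGd z (hd1 z hz)).differentiableWithinAt) hU
    have h4 : AnalyticOnNhd ℂ (LH q χ l) U :=
      DifferentiableOn.analyticOnNhd (fun z hz => (hd2 z hz).differentiableWithinAt) hU
    refine h3.eqOn_of_preconnected_of_eventuallyEq h4 hUc h2 ?_ hsU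
    have h5 : {z : ℂ | 1 < z.re} ∈ 𝓝 (2 : ℂ) :=
      (isOpen_lt continuous_const Complex.continuous_re).mem_nhds (by norm_num)
    filter_upwards [h5] with z hz
    exact hbig z hz
  have key : G s = LH q χ l s := by
    by_cases hs1 : s = 1
    · have hnp : NP q χ l := h1.resolve_right (fun h2 => h2 hs1)
      refine main {z : ℂ | 1 / 2 < z.re} (isOpen_lt continuous_const Complex.continuous_re)
        (convex_halfSpace_re_gt _).isPreconnected (by norm_num) ?_ ?_ hs
      · intro z hz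
        have hz' : 1 / 2 < z.re := hz
        exact h'.differentiableAt_LH' (-l) (hnp.cj.cc_eq_zero h') (by simpa using hz')
      · intro z hz
        exact h.differentiableAt_LH' l (hnp.cc_eq_zero h) hz
    · refine main {z : ℂ | 1 / 2 < z.re ∧ z ≠ 1} (isOpen_regionθ _)
        (isPreconnected_regionθ (by norm_num)) ⟨by norm_num, by norm_num⟩ ?_ ?_ ⟨hs, hs1⟩
      · intro z hz
        have hz' : 1 / 2 < z.re := hz.1
        refine h'.differentiableAt_LH (-l) (by simpa using hz') ?_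
        intro h2
        apply hz.2
        have := congrArg conj h2
        rwa [Complex.conj_conj, map_one] at this
      · intro z hz
        exact h.differentiableAt_LH l hz.1 hz.2
  rw [← key]
  simp only [hG]
  rw [Complex.conj_conj]

/-- zero-freeness under complex conjugation -/
theorem LH_ne_zero_of_conj (h : HC q χ) (l : ℤ) {s : ℂ} (hs : 1 / 2 < s.re)
    (h1 : NP q χ l ∨ s ≠ 1) (h0 : LH q (cj χ) (-l) (conj s) ≠ 0) : LH q χ l s ≠ 0 := by
  rw [LH_conj h l hs h1] at h0
  exact (map_ne_zero _).mp h0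

end

/-- **S0023 from the step without the angular frequency `-1`** -/
theorem s23_of_step' (step : ∀ θ : ℝ, 7 / 8 < θ → θ ≤ 1 → PF Set.univ θ →
    ∃ δ > 0, ∀ (l : ℤ) (q : Eis) (χ : Eis → ℂ), l ≠ -1 → HC q χ → ∀ ρ : ℂ, θ - δ < ρ.re →
      ρ.re ≤ θ → (NP q χ l ∨ ρ ≠ 1) →
      ∃ q', q' ≠ 0 ∧ q ∣ q' ∧ LH q' (fun b => χ b * prin0 q' b) l ρ ≠ 0) :
    S23 := by
  apply s23_of_step
  intro θ hθ hθ1 hPF
  obtain ⟨δ, hδ, hstep⟩ := step θ hθ hθ1 hPF
  refine ⟨min δ (θ - 7 / 8), lt_min hδ (by linarith), ?_⟩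
  have hmin1 := min_le_left δ (θ - 7 / 8)
  have hmin2 := min_le_right δ (θ - 7 / 8)
  intro l q χ h ρ hρ1 hρ2 h1
  by_cases hl : l = -1
  · obtain ⟨q', h3, h4, h5⟩ := hstep (-l) q (cj χ) (by rw [hl]; decide) h.cj (conj ρ)
      (by rw [Complex.conj_re]; linarith) (by rw [Complex.conj_re]; exact hρ2) (by
        rcases h1 with h1 | h1
        · exact Or.inl h1.cj
        · right
          intro h2
          apply h1
          have := congrArg conj h2
          rwa [Complex.conj_conj, map_one] at this)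
    have h6 : LH q (cj χ) (-l) (conj ρ) ≠ 0 := by
      refine LH_ne_zero_of_changeMod h.cj h3 h4 (-l) (by rw [Complex.conj_re]; linarith) ?_ h5
      rcases h1 with h1 | h1
      · exact Or.inl h1.cj
      · right
        intro h2
        apply h1
        have := congrArg conj h2
        rwa [Complex.conj_conj, map_one] at this
    have h7 : LH q χ l ρ ≠ 0 := LH_ne_zero_of_conj h l (by linarith) h1 h6
    exact ⟨q, h.q0, dvd_rfl, LH_changeMod_ne_zero h h.q0 dvd_rfl l (by linarith) h1 h7⟩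
  · exact hstep l q χ hl h ρ (by linarith) hρ2 h1

/-- **S0022 from the step without the angular frequency `-1`** -/
theorem s22_of_step' (step : ∀ θ : ℝ, 7 / 8 < θ → θ ≤ 1 → PF Set.univ θ →
    ∃ δ > 0, ∀ (l : ℤ) (q : Eis) (χ : Eis → ℂ), l ≠ -1 → HC q χ → ∀ ρ : ℂ, θ - δ < ρ.re →
      ρ.re ≤ θ → (NP q χ l ∨ ρ ≠ 1) →
      ∃ q', q' ≠ 0 ∧ q ∣ q' ∧ LH q' (fun b => χ b * prin0 q' b) l ρ ≠ 0) :
    S22 := s22_of_s23 (s23_of_step' step)

end Crest.Agent.R017.End699
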