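import Crest.Agent.R017.BDefs_770
import Crest.Agent.R017.EndQ_699

/-!
# Row 17, section B, leaf L8 (END): the objects of B2 §4–§7 and the interfaces L5, L6, L7, PLOW
(helper699)
-/

set_option autoImplicit false

noncomputable section

open MeasureTheory Complex Set
open scoped ComplexConjugate ContDiff

namespace Crest.Agent.R017.BEnd699

open Crest.Agent.R012 Crest.Agent.R012.Eis Crest.Agent.R012.Mob705 Crest.Agent.R012.Gauss880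
open Crest.Agent.R017.End699 Crest.Agent.R017.Sx440 Crest.Agent.R017.Sx545 Crest.Agent.R017.B770

/-- the product of the primary primes dividing `M` -/
def m0 (M : Eis) : Eis := ∏ p ∈ pp M, p

/-- `χ₀(a) = (a/m₀)_3` -/
def chi0 (M a : Eis) : ℂ := sy a (m0 M)

/-- `FU(|ξ|²)` is the Fourier transform of `z ↦ U(|z|²)` -/
def FU (U : ℝ → ℂ) (t : ℝ) : ℂ := Po581.fC (fun z : ℂ => U (‖z‖ ^ 2)) (Real.sqrt t : ℂ)

/-- the weight `W_{a,c}(y) = y^{-1/2} V(y) FU(X N(a) / (N(c) y))` -/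
def Wac (U V : ℝ → ℂ) (X : ℝ) (a c : Eis) (y : ℝ) : ℂ :=
  ((y ^ (-(1 / 2 : ℝ)) : ℝ) : ℂ) * V y * FU U (X * nm a / (nm c * y))

/-- the parameters `h, r, y, U, V, M, ξ, ψ, l` -/
structure Dat where
  h : ℝ → ℂ
  r : ℕ
  y : ℝ
  U : ℝ → ℂ
  V : ℝ → ℂ
  M : Eis
  xi : Eis → ℂ
  psi : Eis → ℂ
  l : ℤ

namespace Dat

variable (D : Dat)

/-- the dual side of the identity (B2 §4) -/
def DL (K Q : ℝ) : ℂ :=
  ∑ p ∈ tup D.r D.y Q Finset.univ,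
    (∏ i : (Finset.univ : Finset (Fin D.r)), D.h (Real.log (nm (p i)) - kap D.r D.y Q i)) *
    (sy (m0 D.M) (∏ i, p i) * (((nm (∏ i, p i) : ℝ) ^ (-(1 / 2 : ℝ)) : ℝ) : ℂ) *
      conj (G (∏ i, p i))) *
    ∑' a : Eis, ext (chi0 D.M) a * sy a (∏ i, p i) *
      Psi D.M D.xi (tw D.psi D.l) a
        (Wac D.U D.V (K / (27 * nm (m0 D.M) * Q)) a (∏ i, p i)) Q

open Classical in
/-- the `k`-sum at fixed `e`, restricted to `k` with `P k` -/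
def LK (K Q : ℝ) (P : Eis → Prop) (e : Eis) : ℂ :=
  ∑' k : Eis, if P k then FE47.DM (3 * m0 D.M) (chi0 D.M) k * D.U (nm k * (nm e : ℝ) ^ 6 / K) *
    NSum D.h D.r D.y Q Finset.univ D.M (tw D.psi D.l) (fun _ => 1) D.V (Q / (nm e : ℝ) ^ 6) k
    else 0

open Classical in
/-- the primal side of the identity, restricted to `k` with `P k` -/
def LS (K Q : ℝ) (P : Eis → Prop) : ℂ :=
  ∑' e : Eis, if Sm D.M e then D.xi e * (nm e : ℂ) ^ 5 * D.LK K Q P e else 0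

/-- principal `k` -/
def Prn (k : Eis) : Prop := ¬ NPk D.M (prin0 D.M) 0 k

/-- the sum over pairs which is to be bounded -/
def SQ (e : Eis → ℂ) (Q : ℝ) : ℂ :=
  ∑' p, ip2 (fun d b => e d * gb D.psi D.l 0 b * D.V ((nm d * nm b : ℕ) / Q)) p

/-- the conditions on the parameters -/
structure OK : Prop where
  hh : HW D.h
  hU : SW D.U
  hU12 : tsupport D.U ⊆ Ioo 1 2
  hUr : ∀ y, 0 ≤ (D.U y).re ∧ (D.U y).im = 0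
  hU0 : ∃ y, D.U y ≠ 0
  hV : SW D.V
  hV1 : tsupport D.V ⊆ Ioo (1 / 2) 1
  hM : (36 : Eis) ∣ D.M
  hpsi : HC D.M D.psi
  hxi : ∀ e, ‖D.xi e‖ ≤ 1
  hxi1 : D.xi 1 = 1
  hl : D.l ≠ -1

end Dat

/-- **L6** (106): the exact identity -/
def PropL6 : Prop := ∀ D : Dat, D.OK → ∀ K Q : ℝ, 0 < K → 1 ≤ Q →
  D.DL K Q = ((Real.sqrt 3 / 2 * (Q ^ (1 / 2 : ℝ) / K) : ℝ) : ℂ) * D.LS K Q (fun _ => True)

/-- **L5** (868): the principal part, `K = Q^{1/2+y+d}` -/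
def PropL5 (θ : ℝ) (r : ℕ) (y d : ℝ) : Prop :=
  ∃ (P₀ : ℕ) (d₀ : ℝ), 0 < d₀ ∧ ∀ D : Dat, D.r = r → D.y = y → D.OK →
    (∀ p : Eis, Prime p → nm p ≤ P₀ → p ∣ D.M) →
    ∃ (e : Eis → ℂ) (κ : ℂ) (C Q₁ : ℝ), κ ≠ 0 ∧ AC e (5 / 6) ∧
      (∑' b, ‖ip (fun b => if b = 1 then 0 else e b) b‖ * (nm b : ℝ) ^ (-(5 / 6) : ℝ) < ‖e 1‖) ∧
      ∀ Q : ℝ, Q₁ ≤ Q →
        ‖D.LS (Q ^ (1 / 2 + y + d)) Q D.Prn -
          κ * (((Q ^ (1 / 2 + y + d)) ^ (1 / 3 : ℝ) : ℝ) : ℂ) *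
            Amp D.h r y Q Finset.univ (fun _ => 1) * D.SQ e Q‖ ≤
          C * (Q ^ (1 / 2 + y + d)) ^ (1 / 3 : ℝ) * Q ^ (y + θ - d₀)

/-- **L7** (47): the bound for the dual side, `K = Q^{1/2+y+d}`; `ξ` is the function of `F2nat` -/
def PropL7 (θ : ℝ) (r : ℕ) (y d : ℝ) : Prop :=
  ∃ d₀ : ℝ, 0 < d₀ ∧ ∀ (M : Eis), (36 : Eis) ∣ M → F2nat M → ∀ (l : ℤ), l ≠ -1 →
    ∀ ψ : Eis → ℂ, HC M ψ → ∃ ξ : Eis → ℂ, (∀ e, ‖ξ e‖ ≤ 1) ∧ ξ 1 = 1 ∧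
      ∀ D : Dat, D.r = r → D.y = y → D.M = M → D.psi = ψ → D.l = l → D.xi = ξ → D.OK →
        ∃ C Q₁ : ℝ, ∀ Q : ℝ, Q₁ ≤ Q →
          ‖D.DL (Q ^ (1 / 2 + y + d)) Q‖ * (Q ^ (1 / 2 + y + d) / Q ^ (1 / 2 : ℝ)) ≤
            C * (Q ^ (1 / 2 + y + d)) ^ (1 / 3 : ℝ) * Q ^ (y + θ - d₀)

/-- **PLOW** (271): lower bound for the amplifier -/
def PropPLOW (r : ℕ) (y : ℝ) : Prop :=
  ∃ h : ℝ → ℂ, HW h ∧ ∃ c Q₁ : ℝ, 0 < c ∧ ∀ Q : ℝ, Q₁ ≤ Q →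
    c * Q ^ y * (Real.log Q ^ r)⁻¹ ≤ ‖Amp h r y Q Finset.univ (fun _ => 1)‖

end Crest.Agent.R017.BEnd699
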