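import Crest.Agent.R017.PSup2_271

/-!
# Row 17, (PSUP) part 3 (helper271): sup rule for von Mangoldt and prime pieces
-/

set_option autoImplicit false

noncomputable section

namespace Crest.Agent.R017.PSup271

open Crest.Agent.R012 Crest.Agent.R012.Eis Crest.Agent.R012.PSer47
open Crest.Agent.R017.End699 Crest.Agent.R017.Z2590
open scoped ContDiff

/-- **uniform bound for smooth von Mangoldt sums**, log weights (nonprincipal characters) -/
theorem lam_bound (l : ℤ) {Θ ε : ℝ} (hΘ : 1 / 2 < Θ) (hΘ1 : Θ < 1) (hε : 0 < ε)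
    (hε1 : ε ≤ 1) : ∃ C : ℝ, 1 ≤ C ∧ ∀ (q : Eis) (χ : Eis → ℂ), HC q χ → NP q χ l →
      Free q χ l Θ → ∀ (τ : ℝ) (w : ℝ → ℂ) (K : ℝ), Z2590.WB w 3 K →
      ∀ Q : ℝ, 1 ≤ Q → ∀ M : ℕ, (∀ n : ℕ, M < n → w (Real.log (n / Q)) = 0) →
      ‖∑ b ∈ primBall M, ((Lam b : ℂ) * tw χ l b) * ((nm b : ℂ) ^ (-(τ * Complex.I : ℂ)) *
        w (Real.log (nm b / Q)))‖ ≤
        C * K * ((nm q : ℝ) * (1 + |τ|)) ^ ε * Q ^ (Θ + ε) := by
  obtain ⟨A, hA, hzf⟩ := zf_Lr l hΘ
  obtain ⟨C, hC1, hC⟩ := Z2D (ι := ℕ) (Θ := Θ) (A := A) (B := 9 * B0) (ε := ε) (by linarith) hΘ1 hA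
    (by have := one_le_B0; linarith) hε hε1
  refine ⟨C, hC1, fun q χ h hnp hfree τ w K hw Q hQ M hM => ?_⟩
  have hq : (1 : ℝ) ≤ (nm q : ℝ) := by exact_mod_cast nm_pos.mpr h.q0
  have hψ : IsChar (tw χ l) := h.isChar_tw l
  set f : Eis → ℂ := LamPsi (tw χ l) with hf
  have hfle : ∀ b, IsPrim b → ‖tw χ l b‖ ≤ 1 := fun b hb => hψ.norm_le hb
  have key := hC (Lr q χ l) τ (nm q) hq (fun T hT => hzf q χ h τ T (fun z hz _ => hfree z hz))
    (push f) nn nn_pos ?_ ?_ w K hw Q hQ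
  · refine le_trans (le_of_eq ?_) key
    congr 1
    have h1 : ∑' n : ℕ, push f n * (nn n : ℂ) ^ (-(τ * Complex.I : ℂ)) *
        w (Real.log (nn n / Q)) = ∑ n ∈ Finset.range (M + 1), push f n *
          ((n : ℂ) ^ (-(τ * Complex.I : ℂ)) * w (Real.log (n / Q))) := by
      rw [tsum_eq_sum (s := Finset.range (M + 1))]
      · apply Finset.sum_congr rfl
        intro n _
        rcases eq_or_ne n 0 with rfl | hn
        · simp
        · rw [nn_of_ne hn, mul_assoc]
          push_cast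
          rfl
      · intro n hn
        rw [Finset.mem_range, not_lt] at hn
        have hn0 : n ≠ 0 := by omega
        rw [nn_of_ne hn0, hM n (by omega), mul_zero]
    rw [h1]
    exact (sum_push_weight f
      (fun n => (n : ℂ) ^ (-(τ * Complex.I : ℂ)) * w (Real.log (n / Q))) M).symm
  · have h2 := (LSer47.summable_Lam hfle (s := 2) (by norm_num)).norm
    refine h2.congr fun n => ?_
    rcases eq_or_ne n 0 with rfl | hn
    · simp
    · rw [LSeries.term_of_ne_zero hn, norm_div,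
        Complex.norm_natCast_cpow_of_pos (Nat.pos_of_ne_zero hn), nn_of_ne hn,
        Real.rpow_neg (by positivity), div_eq_mul_inv]
      norm_num
      exact Or.inl rfl
  · intro t
    set z : ℂ := 2 + t * Complex.I with hz
    have hzre : z.re = 2 := by simp [hz]
    have hz1 : 1 < z.re := by rw [hzre]; norm_num
    have hc := hnp.cc_eq_zero h
    have e0 : ∀ s : ℂ, 1 < s.re → Lr q χ l s = LSeries (push (tw χ l)) s := by
      intro s hs
      have e1 : Lr q χ l s = LH q χ l s := by unfold Lr; rw [if_pos hc]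
      rw [e1, h.LH_eq l hs]
    have e1 : Lr q χ l =ᶠ[nhds z] LSeries (push (tw χ l)) := by
      have hopen : IsOpen {s : ℂ | 1 < s.re} := isOpen_lt continuous_const Complex.continuous_re
      filter_upwards [hopen.mem_nhds hz1] with s hs
      exact e0 s hs
    rw [e1.deriv_eq, e0 z hz1]
    rw [← LSer47.LSeries_Lam_eq hψ hz1]
    unfold LSeries
    apply tsum_congr
    intro n
    rcases eq_or_ne n 0 with rfl | hn
    · simp
    · rw [LSeries.term_of_ne_zero hn, nn_of_ne hn, Complex.cpow_neg, div_eq_mul_inv]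
      push_cast
      rfl

/-- extension of the summation range -/
lemma sum_primBall_eq {F : Eis → ℂ} {N M : ℕ} (hNM : N ≤ M) (hF : ∀ b, IsPrim b → N < nm b → F b = 0) :
    ∑ b ∈ primBall M, F b = ∑ b ∈ primBall N, F b := by
  classical
  symm
  apply Finset.sum_subset
  · intro b hb
    rw [mem_primBall] at hb ⊢
    exact ⟨hb.1.trans hNM, hb.2⟩
  · intro b hb hb'
    rw [mem_primBall] at hb hb'
    refine hF b hb.2 ?_
    by_contra hlt
    exact hb' ⟨not_lt.mp hlt, hb.2⟩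

/-- extension of the summation range, primes -/
lemma sum_primes_eq {F : Eis → ℂ} {N M : ℕ} (hNM : N ≤ M) (hF : ∀ b, IsPrim b → N < nm b → F b = 0) :
    ∑ b ∈ PLog255.primes M, F b = ∑ b ∈ PLog255.primes N, F b := by
  classical
  symm
  apply Finset.sum_subset
  · intro b hb
    rw [PLog255.mem_primes] at hb ⊢
    exact ⟨hb.1.trans hNM, hb.2⟩
  · intro b hb hb'
    rw [PLog255.mem_primes] at hb hb'
    refine hF b hb.2.1 ?_
    by_contra hlt
    exact hb' ⟨not_lt.mp hlt, hb.2⟩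

/-- polynomial factors are absorbed by exponentials -/
lemma poly_le_exp {δ : ℝ} (hδ : 0 < δ) : ∃ C : ℝ, 0 ≤ C ∧ ∀ x : ℝ, 0 ≤ x →
    (x + 1) ^ 2 ≤ C * Real.exp (δ * x) := by
  refine ⟨(1 + 2 / δ) ^ 2, by positivity, fun x hx => ?_⟩
  have h1 : 1 + δ / 2 * x ≤ Real.exp (δ / 2 * x) := by
    have := Real.add_one_le_exp (δ / 2 * x); linarith
  have h2 : x + 1 ≤ (1 + 2 / δ) * Real.exp (δ / 2 * x) := by
    have h3 : 0 < 2 / δ := by positivity
    have h4 : (1 + 2 / δ) * (1 + δ / 2 * x) = 1 + x + (2 / δ + δ / 2 * x) := by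
      field_simp
      ring
    have h5 : (1 + 2 / δ) * (1 + δ / 2 * x) ≤ (1 + 2 / δ) * Real.exp (δ / 2 * x) := by gcongr
    have h6 : 0 ≤ δ / 2 * x := by positivity
    linarith
  calc (x + 1) ^ 2 ≤ ((1 + 2 / δ) * Real.exp (δ / 2 * x)) ^ 2 := by gcongr
    _ = (1 + 2 / δ) ^ 2 * Real.exp (δ * x) := by
        rw [mul_pow, ← Real.exp_nat_mul]
        congr 2
        push_cast; ring

/-- trivial bound for von Mangoldt pieces with a triple weight -/
theorem trivial_lam {h σ ρ : ℝ → ℂ} (hh : HW h) (hσ : SG σ) (hρ : SG ρ) : ∃ C : ℝ, 0 ≤ C ∧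
    ∀ f : Eis → ℂ, (∀ b, IsPrim b → ‖f b‖ ≤ 1) → ∀ t ζ η κ : ℝ, 0 ≤ κ → ∀ M : ℕ,
      Real.exp (κ + 1) < M + 1 →
      ‖∑ b ∈ primBall M, ((Lam b : ℂ) * f b) * ((nm b : ℂ) ^ ((t * Complex.I : ℂ)) *
        ((h (Real.log (nm b) - κ) * σ (Real.log (nm b) - ζ)) * ρ (Real.log (nm b) - η)))‖ ≤
        C * ((κ + 1) * Real.exp κ) := by
  classical
  obtain ⟨D, hD⟩ := iter_bound2 0 hh hσ hρ
  have hD0 : 0 ≤ D := (norm_nonneg _).trans (hD 0 0 0)
  refine ⟨18 * D * Real.exp 1, by positivity, fun f hf t ζ η κ hκ M hM => ?_⟩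
  set N : ℕ := ⌊Real.exp (κ + 1)⌋₊ with hN
  have hNM : N ≤ M := by
    have h1 : (N : ℝ) ≤ Real.exp (κ + 1) := Nat.floor_le (Real.exp_pos _).le
    have h2 : (N : ℝ) < M + 1 := by linarith
    exact_mod_cast Nat.lt_succ_iff.mp (by exact_mod_cast h2)
  have hzero : ∀ b, IsPrim b → N < nm b → h (Real.log (nm b) - κ) = 0 := by
    intro b hb hlt
    have h1 := out_of_range hh (κ := κ) (M := N) (n := nm b) (Nat.lt_floor_add_one _) hlt
    rwa [log_div_exp (nm_pos.mpr hb.ne_zero).ne'] at h1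
  rw [sum_primBall_eq hNM (fun b hb hlt => by rw [hzero b hb hlt]; ring)]
  have hw : ∀ b ∈ primBall N, ‖((Lam b : ℂ) * f b) * ((nm b : ℂ) ^ ((t * Complex.I : ℂ)) *
        ((h (Real.log (nm b) - κ) * σ (Real.log (nm b) - ζ)) * ρ (Real.log (nm b) - η)))‖ ≤
        (κ + 1) * D := by
    intro b hb
    rw [mem_primBall] at hb
    have hb0 := nm_pos.mpr hb.2.ne_zero
    have h1 : ‖(nm b : ℂ) ^ ((t * Complex.I : ℂ))‖ = 1 := by
      rw [Complex.norm_natCast_cpow_of_pos hb0]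
      simp
    have h2 := hD (κ - ζ) (κ - η) (Real.log (nm b) - κ)
    have e1 : Real.log (nm b) - κ + (κ - ζ) = Real.log (nm b) - ζ := by ring
    have e2 : Real.log (nm b) - κ + (κ - η) = Real.log (nm b) - η := by ring
    simp only [Function.iterate_zero, id_eq, e1, e2] at h2
    have h3 : Lam b ≤ κ + 1 := by
      refine (PLog255.Lam_le hb.2.ne_zero).trans ?_
      have h4 : (nm b : ℝ) ≤ Real.exp (κ + 1) := by
        have : (nm b : ℝ) ≤ N := by exact_mod_cast hb.1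
        exact this.trans (Nat.floor_le (Real.exp_pos _).le)
      rw [← Real.log_exp (κ + 1)]
      exact Real.log_le_log (by exact_mod_cast hb0) h4
    have h5 := Lam_nonneg b
    rw [norm_mul, norm_mul, norm_mul, h1, one_mul, Complex.norm_real, Real.norm_of_nonneg h5]
    have h6 := hf b hb.2
    calc Lam b * ‖f b‖ * ‖(h (Real.log (nm b) - κ) * σ (Real.log (nm b) - ζ)) *
          ρ (Real.log (nm b) - η)‖ ≤ (κ + 1) * 1 * D := by gcongr
      _ = _ := by ring
  refine (norm_sum_le_of_le _ hw).trans ?_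
  rw [Finset.sum_const, nsmul_eq_mul]
  have hcard : ((primBall N).card : ℝ) ≤ 18 * Real.exp (κ + 1) := by
    calc ((primBall N).card : ℝ) ≤ ((18 * N : ℕ) : ℝ) := by exact_mod_cast card_primBall_le' _
      _ = 18 * (N : ℝ) := by push_cast; ring
      _ ≤ 18 * Real.exp (κ + 1) := by
          gcongr
          exact Nat.floor_le (Real.exp_pos _).le
  calc ((primBall N).card : ℝ) * ((κ + 1) * D) ≤ 18 * Real.exp (κ + 1) * ((κ + 1) * D) := by
        gcongr
    _ = 18 * D * Real.exp 1 * ((κ + 1) * Real.exp κ) := by rw [Real.exp_add]; ring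

/-- **sup rule, von Mangoldt pieces** (nonprincipal characters), three factors in the weight -/
theorem pf_PL {S : Set ℤ} {θ ε : ℝ} (hθ : 1 / 2 < θ) (hθ1 : θ ≤ 1) (hPF : PF S θ)
    (hε : 0 < ε) (hε1 : ε ≤ 1) {l : ℤ} (hl : l ∈ S) {h σ ρ : ℝ → ℂ} (hh : HW h) (hσ : SG σ)
    (hρ : SG ρ) :
    ∃ C : ℝ, 0 ≤ C ∧ ∀ (q : Eis) (χ : Eis → ℂ), HC q χ → NP q χ l →
      ∀ t ζ η κ : ℝ, 0 ≤ κ → ∀ M : ℕ, Real.exp (κ + 1) < M + 1 →
      ‖∑ b ∈ primBall M, ((Lam b : ℂ) * tw χ l b) * ((nm b : ℂ) ^ ((t * Complex.I : ℂ)) *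
        ((h (Real.log (nm b) - κ) * σ (Real.log (nm b) - ζ)) * ρ (Real.log (nm b) - η)))‖ ≤
        C * ((nm q : ℝ) * (1 + |t|)) ^ ε * Real.exp ((θ + ε) * κ) := by
  rcases lt_or_eq_of_le hθ1 with hlt | heq
  · obtain ⟨C, hC1, hC⟩ := lam_bound l hθ hlt hε hε1
    obtain ⟨K, hK0, hK⟩ := uniform_WB2 3 hh hσ hρ
    refine ⟨C * K, by positivity, fun q χ hc hnp t ζ η κ hκ M hM => ?_⟩
    set Q : ℝ := Real.exp κ with hQ
    have hQ1 : 1 ≤ Q := Real.one_le_exp hκ
    have key := hC q χ hc hnp (hPF l hl q χ hc) (-t)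
      (fun u => (h u * σ (u + (κ - ζ))) * ρ (u + (κ - η))) K (hK (κ - ζ) (κ - η)) Q hQ1 M (by
        intro n hn
        have := out_of_range hh hM hn
        rw [hQ, this, zero_mul, zero_mul])
    rw [abs_neg] at key
    have h6 : Q ^ (θ + ε) = Real.exp ((θ + ε) * κ) := by
      rw [hQ, ← Real.exp_mul]; congr 1; ring
    rw [h6] at key
    refine le_trans (le_of_eq ?_) key
    congr 1
    apply Finset.sum_congr rfl
    intro b hb
    have hb0 := nm_pos.mpr (mem_primBall.mp hb).2.ne_zero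
    rw [hQ, log_div_exp hb0.ne']
    have e2 : Real.log (nm b) - κ + (κ - ζ) = Real.log (nm b) - ζ := by ring
    have e3 : Real.log (nm b) - κ + (κ - η) = Real.log (nm b) - η := by ring
    simp only [e2, e3]
    push_cast
    ring_nf
  · subst heq
    obtain ⟨C, hC0, hC⟩ := trivial_lam hh hσ hρ
    obtain ⟨C2, hC20, hC2⟩ := poly_le_exp hε
    refine ⟨C * C2, by positivity, fun q χ hc _ t ζ η κ hκ M hM => ?_⟩
    refine (hC (tw χ l) (fun b hb => (hc.isChar_tw l).norm_le hb) t ζ η κ hκ M hM).trans ?_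
    have hq : (1 : ℝ) ≤ (nm q : ℝ) := by exact_mod_cast nm_pos.mpr hc.q0
    have hτ := abs_nonneg t
    have h4 : 1 ≤ ((nm q : ℝ) * (1 + |t|)) ^ ε := Real.one_le_rpow (by nlinarith) hε.le
    have h5 : κ + 1 ≤ C2 * Real.exp (ε * κ) := by
      refine le_trans ?_ (hC2 κ hκ)
      nlinarith
    calc C * ((κ + 1) * Real.exp κ) ≤ C * ((C2 * Real.exp (ε * κ)) * Real.exp κ) := by gcongr
      _ = C * C2 * Real.exp ((1 + ε) * κ) := by
          rw [add_mul, one_mul, Real.exp_add]; ring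
      _ ≤ C * C2 * ((nm q : ℝ) * (1 + |t|)) ^ ε * Real.exp ((1 + ε) * κ) := by
          exact mul_le_mul_of_nonneg_right (le_mul_of_one_le_right (by positivity) h4)
            (by positivity)

/-- **sup rule, prime pieces** (nonprincipal characters) -/
theorem pf_PP {S : Set ℤ} {θ ε : ℝ} (hθ : 1 / 2 < θ) (hθ1 : θ ≤ 1) (hPF : PF S θ)
    (hε : 0 < ε) (hε1 : ε ≤ 1) {l : ℤ} (hl : l ∈ S) {h σ : ℝ → ℂ} (hh : HW h) (hσ : SG σ) :
    ∃ C : ℝ, 0 ≤ C ∧ ∀ (q : Eis) (χ : Eis → ℂ), HC q χ → NP q χ l →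
      ∀ t ζ κ : ℝ, 0 ≤ κ → ∀ M : ℕ, Real.exp (κ + 1) < M + 1 →
      ‖∑ p ∈ PLog255.primes M, tw χ l p * ((nm p : ℂ) ^ ((t * Complex.I : ℂ)) *
        (h (Real.log (nm p) - κ) * σ (Real.log (nm p) - ζ)))‖ ≤
        C * ((nm q : ℝ) * (1 + |t|)) ^ ε * Real.exp ((θ + ε) * κ) := by
  classical
  obtain ⟨C1, hC10, hC1⟩ := pf_PL hθ hθ1 hPF hε hε1 hl hh hσ sg_rinv
  obtain ⟨D, hD⟩ := iter_bound2 0 hh hσ sg_rinv
  obtain ⟨C3, hC30, hC3⟩ := poly_le_exp (δ := θ - 1 / 2) (by linarith)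
  obtain ⟨C4, hC40, hC4⟩ := trivial_piece hh hσ
  have hD0 : 0 ≤ D := (norm_nonneg _).trans (hD 0 0 0)
  refine ⟨C1 + (D + 1) * 36 * Real.exp (1 / 2) * C3 + C4 * Real.exp 2, by positivity,
    fun q χ hc hnp t ζ κ hκ M hM => ?_⟩
  have hq : (1 : ℝ) ≤ (nm q : ℝ) := by exact_mod_cast nm_pos.mpr hc.q0
  have hτ := abs_nonneg t
  have h4 : 1 ≤ ((nm q : ℝ) * (1 + |t|)) ^ ε := Real.one_le_rpow (by nlinarith) hε.le
  have hE : Real.exp (θ * κ) ≤ Real.exp ((θ + ε) * κ) := by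
    apply Real.exp_le_exp.mpr
    nlinarith
  rcases lt_or_ge κ 2 with hκ2 | hκ2
  · -- trivial bound
    set f : Eis → ℂ := fun b => if Prime b then tw χ l b else 0 with hf
    have h5 := hC4 f (fun b hb => by
      rw [hf]
      simp only
      split_ifs
      · exact (hc.isChar_tw l).norm_le hb
      · simp) t ζ κ M
    have e : ∑ p ∈ PLog255.primes M, tw χ l p * ((nm p : ℂ) ^ ((t * Complex.I : ℂ)) *
        (h (Real.log (nm p) - κ) * σ (Real.log (nm p) - ζ))) =
        ∑ b ∈ primBall M, f b * ((nm b : ℂ) ^ ((t * Complex.I : ℂ)) *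
        (h (Real.log (nm b) - κ) * σ (Real.log (nm b) - ζ))) := by
      unfold PLog255.primes
      rw [Finset.sum_filter]
      apply Finset.sum_congr rfl
      intro b _
      rw [hf]
      simp only
      split_ifs
      · rfl
      · simp
    rw [e]
    refine h5.trans ?_
    have h6 : Real.exp κ ≤ Real.exp 2 * (((nm q : ℝ) * (1 + |t|)) ^ ε * Real.exp ((θ + ε) * κ)) := by
      have h7 : Real.exp κ ≤ Real.exp 2 := Real.exp_le_exp.mpr hκ2.le
      have h8 : 1 ≤ Real.exp ((θ + ε) * κ) := Real.one_le_exp (by positivity)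
      have h9 : 1 ≤ ((nm q : ℝ) * (1 + |t|)) ^ ε * Real.exp ((θ + ε) * κ) := by nlinarith
      have h10 : 0 < Real.exp 2 := Real.exp_pos _
      nlinarith
    have h11 : 0 ≤ ((nm q : ℝ) * (1 + |t|)) ^ ε * Real.exp ((θ + ε) * κ) := by positivity
    calc C4 * Real.exp κ ≤
        C4 * (Real.exp 2 * (((nm q : ℝ) * (1 + |t|)) ^ ε * Real.exp ((θ + ε) * κ))) := by gcongr
      _ = 0 + C4 * Real.exp 2 * (((nm q : ℝ) * (1 + |t|)) ^ ε * Real.exp ((θ + ε) * κ)) := by ring
      _ ≤ (C1 + (D + 1) * 36 * Real.exp (1 / 2) * C3) *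
            (((nm q : ℝ) * (1 + |t|)) ^ ε * Real.exp ((θ + ε) * κ)) +
          C4 * Real.exp 2 * (((nm q : ℝ) * (1 + |t|)) ^ ε * Real.exp ((θ + ε) * κ)) := by
          gcongr
          positivity
      _ = _ := by ring
  · set N : ℕ := ⌊Real.exp (κ + 1)⌋₊ with hN
    have hNle : (N : ℝ) ≤ Real.exp (κ + 1) := Nat.floor_le (Real.exp_pos _).le
    have hNM : N ≤ M := by
      have h2 : (N : ℝ) < M + 1 := by linarith
      exact_mod_cast Nat.lt_succ_iff.mp (by exact_mod_cast h2)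
    have hN1 : 1 ≤ N := by
      rw [hN, Nat.one_le_floor_iff]
      exact Real.one_le_exp (by linarith)
    have hzero : ∀ b, IsPrim b → N < nm b → h (Real.log (nm b) - κ) = 0 := by
      intro b hb hlt
      have h1 := out_of_range hh (κ := κ) (M := N) (n := nm b) (Nat.lt_floor_add_one _) hlt
      rwa [log_div_exp (nm_pos.mpr hb.ne_zero).ne'] at h1
    rw [sum_primes_eq hNM (fun b hb hlt => by rw [hzero b hb hlt]; ring)]
    have key := hC1 q χ hc hnp t ζ 0 κ hκ N (Nat.lt_floor_add_one _)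
    set W : Eis → ℂ := fun b => tw χ l b * ((nm b : ℂ) ^ ((t * Complex.I : ℂ)) *
        ((h (Real.log (nm b) - κ) * σ (Real.log (nm b) - ζ)) * rinv (Real.log (nm b)))) with hW
    have hWb : ∀ b, IsPrim b → ‖((D + 1 : ℝ) : ℂ)⁻¹ * W b‖ ≤ 1 := by
      intro b hb
      have hb0 := nm_pos.mpr hb.ne_zero
      have h1 : ‖(nm b : ℂ) ^ ((t * Complex.I : ℂ))‖ = 1 := by
        rw [Complex.norm_natCast_cpow_of_pos hb0]
        simp
      have h2 := hD (κ - ζ) κ (Real.log (nm b) - κ)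
      have e1 : Real.log (nm b) - κ + (κ - ζ) = Real.log (nm b) - ζ := by ring
      have e2 : Real.log (nm b) - κ + κ = Real.log (nm b) := by ring
      simp only [Function.iterate_zero, id_eq, e1, e2] at h2
      have h3 : ‖W b‖ ≤ D := by
        rw [hW]
        simp only
        rw [norm_mul, norm_mul, h1, one_mul]
        calc _ ≤ 1 * D := by
              gcongr
              exact (hc.isChar_tw l).norm_le hb
          _ = D := one_mul _
      rw [norm_mul, norm_inv, Complex.norm_real, Real.norm_of_nonneg (by linarith)]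
      rw [inv_mul_le_iff₀ (by linarith), mul_one]
      linarith
    have hpp := PLog255.pp_sum (fun b => ((D + 1 : ℝ) : ℂ)⁻¹ * W b) hWb N hN1
    have hD1 : ((D + 1 : ℝ) : ℂ) ≠ 0 := by
      have : (0 : ℝ) < D + 1 := by linarith
      exact_mod_cast this.ne'
    -- multiply by `D + 1`
    have hpp2 : ‖∑ b ∈ primBall N, (Lam b : ℂ) * W b -
        ∑ p ∈ PLog255.primes N, (Real.log (nm p) : ℂ) * W p‖ ≤
        (D + 1) * (36 * Real.sqrt N * Real.log N ^ 2) := by
      have e : ∑ b ∈ primBall N, (Lam b : ℂ) * W b -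
          ∑ p ∈ PLog255.primes N, (Real.log (nm p) : ℂ) * W p =
          ((D + 1 : ℝ) : ℂ) * (∑ b ∈ primBall N, (Lam b : ℂ) * (((D + 1 : ℝ) : ℂ)⁻¹ * W b) -
          ∑ p ∈ PLog255.primes N, (Real.log (nm p) : ℂ) * (((D + 1 : ℝ) : ℂ)⁻¹ * W p)) := by
        rw [mul_sub, Finset.mul_sum, Finset.mul_sum]
        congr 1
        · apply Finset.sum_congr rfl
          intro b _
          field_simp
        · apply Finset.sum_congr rfl
          intro b _
          field_simp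
      rw [e, norm_mul, Complex.norm_real, Real.norm_of_nonneg (by linarith)]
      gcongr
    have e3 : ∑ p ∈ PLog255.primes N, (Real.log (nm p) : ℂ) * W p =
        ∑ p ∈ PLog255.primes N, tw χ l p * ((nm p : ℂ) ^ ((t * Complex.I : ℂ)) *
        (h (Real.log (nm p) - κ) * σ (Real.log (nm p) - ζ))) := by
      apply Finset.sum_congr rfl
      intro p hp
      rw [PLog255.mem_primes] at hp
      by_cases h0 : h (Real.log (nm p) - κ) = 0
      · rw [hW]; simp only; rw [h0]; ring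
      · have h1 := (abs_le.mp (hh.supp _ h0)).1
        have h2 : 1 ≤ Real.log (nm p) := by linarith
        have h3 : (Real.log (nm p) : ℂ) ≠ 0 := by
          exact_mod_cast (by linarith : (0 : ℝ) < Real.log (nm p)).ne'
        rw [hW]
        simp only
        rw [rinv_eq h2]
        field_simp
    have e4 : ∑ b ∈ primBall N, (Lam b : ℂ) * W b =
        ∑ b ∈ primBall N, ((Lam b : ℂ) * tw χ l b) * ((nm b : ℂ) ^ ((t * Complex.I : ℂ)) *
        ((h (Real.log (nm b) - κ) * σ (Real.log (nm b) - ζ)) * rinv (Real.log (nm b) - 0))) := by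
      apply Finset.sum_congr rfl
      intro b _
      rw [hW]
      simp only [sub_zero]
      ring
    rw [e3, e4] at hpp2
    rw [← e4] at key hpp2
    have h12 := norm_sub_norm_le
      (∑ p ∈ PLog255.primes N, tw χ l p * ((nm p : ℂ) ^ ((t * Complex.I : ℂ)) *
        (h (Real.log (nm p) - κ) * σ (Real.log (nm p) - ζ))))
      (∑ b ∈ primBall N, (Lam b : ℂ) * W b)
    rw [norm_sub_rev] at h12
    have h13 : 36 * Real.sqrt N * Real.log N ^ 2 ≤ 36 * Real.exp (1 / 2) * C3 * Real.exp (θ * κ) := by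
      have h14 : Real.sqrt N ≤ Real.exp (1 / 2) * Real.exp (κ / 2) := by
        calc Real.sqrt N ≤ Real.sqrt (Real.exp (κ + 1)) := Real.sqrt_le_sqrt hNle
          _ = Real.exp ((κ + 1) / 2) := by rw [Real.exp_half]
          _ = _ := by rw [← Real.exp_add]; congr 1; ring
      have h15 : Real.log N ≤ κ + 1 := by
        rw [← Real.log_exp (κ + 1)]
        exact Real.log_le_log (by exact_mod_cast hN1) hNle
      have h16 : 0 ≤ Real.log N := Real.log_natCast_nonneg N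
      calc 36 * Real.sqrt N * Real.log N ^ 2 ≤
          36 * (Real.exp (1 / 2) * Real.exp (κ / 2)) * (κ + 1) ^ 2 := by gcongr
        _ ≤ 36 * (Real.exp (1 / 2) * Real.exp (κ / 2)) * (C3 * Real.exp ((θ - 1 / 2) * κ)) := by
            gcongr
            exact hC3 κ hκ
        _ = 36 * Real.exp (1 / 2) * C3 * (Real.exp (κ / 2) * Real.exp ((θ - 1 / 2) * κ)) := by ring
        _ = _ := by rw [← Real.exp_add]; congr 2; ring
    set Z : ℝ := ((nm q : ℝ) * (1 + |t|)) ^ ε * Real.exp ((θ + ε) * κ) with hZ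
    have hZ1 : Real.exp (θ * κ) ≤ Z := by
      rw [hZ]
      have h17 : 0 < Real.exp ((θ + ε) * κ) := Real.exp_pos _
      nlinarith
    have hZ0 : 0 ≤ Z := by positivity
    have key' : ‖∑ b ∈ primBall N, (Lam b : ℂ) * W b‖ ≤ C1 * Z := by
      refine key.trans (le_of_eq ?_)
      rw [hZ]; ring
    have h18 : (D + 1) * (36 * Real.sqrt N * Real.log N ^ 2) ≤
        (D + 1) * 36 * Real.exp (1 / 2) * C3 * Z := by
      calc (D + 1) * (36 * Real.sqrt N * Real.log N ^ 2) ≤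
          (D + 1) * (36 * Real.exp (1 / 2) * C3 * Real.exp (θ * κ)) := by gcongr
        _ ≤ (D + 1) * (36 * Real.exp (1 / 2) * C3 * Z) := by gcongr
        _ = _ := by ring
    have h19 : 0 ≤ C4 * Real.exp 2 * Z := by positivity
    have h20 : (C1 + (D + 1) * 36 * Real.exp (1 / 2) * C3 + C4 * Real.exp 2) *
        ((nm q : ℝ) * (1 + |t|)) ^ ε * Real.exp ((θ + ε) * κ) =
        C1 * Z + (D + 1) * 36 * Real.exp (1 / 2) * C3 * Z + C4 * Real.exp 2 * Z := by
      rw [hZ]; ring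
    rw [h20]
    linarith

end Crest.Agent.R017.PSup271
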