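import Crest.Agent.R017.PLow1_271
import Crest.Agent.R017.BEnd0_699
import Crest.Agent.R017.PSup3_271

/-!
# Row 17, leaf L9 (helper271): the amplifier.

* `AP_lower`, `Amp_lower`, `propPLOW` : lower bounds (PLOW)
* `psup_AP`, `psup_Amp` : sup rule (PSUP) in the language of `BDefs_770`
-/

set_option autoImplicit false

noncomputable section

open Filter Topology Complex

namespace Crest.Agent.R017.PLow271

open Crest.Agent.R012 Crest.Agent.R012.Eis Crest.Agent.R012.PSer47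
open Crest.Agent.R017.End699 Crest.Agent.R017.B770 Crest.Agent.R017.PSup271

lemma prS_eq (κ : ℝ) : prS κ = PLog255.primes ⌊Real.exp (κ + 1)⌋₊ := by
  classical
  unfold prS PLog255.primes
  congr

lemma mem_prS {κ : ℝ} {p : Eis} :
    p ∈ prS κ ↔ (nm p : ℝ) ≤ Real.exp (κ + 1) ∧ IsPrim p ∧ Prime p := by
  rw [prS_eq, PLog255.mem_primes, Nat.le_floor_iff (Real.exp_pos _).le]

lemma prime_prS {κ : ℝ} {p : Eis} (hp : p ∈ prS κ) : Prime p := (mem_prS.mp hp).2.2
lemma isPrim_prS {κ : ℝ} {p : Eis} (hp : p ∈ prS κ) : IsPrim p := (mem_prS.mp hp).2.1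

/-- the weight vanishes unless `e^{κ-1} ≤ nm p` -/
lemma weight_ne_zero {h : ℝ → ℂ} (hh : HW h) {κ : ℝ} {p : Eis} (hp : p ≠ 0)
    (h0 : h (Real.log (nm p) - κ) ≠ 0) :
    Real.exp (κ - 1) ≤ nm p ∧ (nm p : ℝ) ≤ Real.exp (κ + 1) := by
  have h1 := abs_le.mp (hh.supp _ h0)
  have h2 : (0 : ℝ) < nm p := by exact_mod_cast nm_pos.mpr hp
  constructor
  · rw [← Real.exp_log h2]
    apply Real.exp_le_exp.mpr
    linarith
  · rw [← Real.exp_log h2]
    apply Real.exp_le_exp.mpr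
    linarith

/-- only primes of norm `≥ e^{κ-1}` matter -/
lemma AP_congr {h : ℝ → ℂ} (hh : HW h) {κ : ℝ} {f g : Eis → ℂ}
    (hfg : ∀ p, Prime p → IsPrim p → Real.exp (κ - 1) ≤ nm p → f p = g p) :
    AP h κ f = AP h κ g := by
  unfold AP
  apply Finset.sum_congr rfl
  intro p hp
  by_cases h0 : h (Real.log (nm p) - κ) = 0
  · rw [h0, mul_zero, mul_zero]
  · rw [hfg p (prime_prS hp) (isPrim_prS hp) (weight_ne_zero hh (prime_prS hp).ne_zero h0).1]

/-- a continuous nonnegative function which is not identically zero is bounded below on an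
interval -/
lemma exists_interval {h : ℝ → ℂ} (hh : HW h) (hr : ∀ u, 0 ≤ (h u).re ∧ (h u).im = 0)
    (hne : ∃ u, h u ≠ 0) : ∃ a b m : ℝ, a < b ∧ 0 < m ∧ b ≤ 1 ∧ ∀ u, a < u → u ≤ b → m ≤ (h u).re := by
  obtain ⟨u₀, hu₀⟩ := hne
  have hpos : 0 < (h u₀).re := by
    rcases (hr u₀).1.lt_or_eq with h1 | h1
    · exact h1
    · exact absurd (Complex.ext h1.symm (hr u₀).2) hu₀
  have hc : Continuous fun u => (h u).re := Complex.continuous_re.comp hh.cd.continuous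
  have h1 : ∀ᶠ u in 𝓝 u₀, (h u₀).re / 2 < (h u).re := by
    have := hc.continuousAt (x := u₀)
    exact this.eventually_const_lt (by linarith)
  obtain ⟨δ, hδ, hball⟩ := Metric.eventually_nhds_iff.mp h1
  refine ⟨u₀ - δ / 2, u₀ + δ / 2, (h u₀).re / 2, by linarith, by positivity, ?_, ?_⟩
  · have h2 := hball (y := u₀ + δ / 2) (by
      rw [Real.dist_eq]; rw [show u₀ + δ / 2 - u₀ = δ / 2 by ring, abs_of_pos (by positivity)]
      linarith)
    have h3 : h (u₀ + δ / 2) ≠ 0 := by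
      intro h0
      rw [h0, Complex.zero_re] at h2
      linarith
    exact (abs_le.mp (hh.supp _ h3)).2
  · intro u hu1 hu2
    refine (hball ?_).le
    rw [Real.dist_eq, abs_lt]
    constructor <;> linarith

/-- **lower bound for a prime piece** -/
theorem AP_lower {h : ℝ → ℂ} (hh : HW h) (hr : ∀ u, 0 ≤ (h u).re ∧ (h u).im = 0)
    (hne : ∃ u, h u ≠ 0) : ∃ c : ℝ, 0 < c ∧ ∃ κ₀ : ℝ, 1 ≤ κ₀ ∧ ∀ κ : ℝ, κ₀ ≤ κ →
    c * (Real.exp κ / κ) ≤ (AP h κ fun _ => 1).re := by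
  obtain ⟨a, b, m, hab, hm, hb1, hlow⟩ := exists_interval hh hr hne
  obtain ⟨c, hc, κ₀, hκ₀, hcard⟩ := card_shortP hab
  refine ⟨m * c, by positivity, κ₀, hκ₀, fun κ hκ => ?_⟩
  have h1 : shortP a b κ ⊆ prS κ := by
    intro p hp
    rw [mem_shortP] at hp
    rw [mem_prS]
    exact ⟨hp.2.2.trans (Real.exp_le_exp.mpr (by linarith)), hp.1.2, hp.1.1⟩
  have h2 : (AP h κ fun _ => 1).re = ∑ p ∈ prS κ, (h (Real.log (nm p) - κ)).re := by
    unfold AP
    rw [Complex.re_sum]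
    apply Finset.sum_congr rfl
    intro p _
    rw [one_mul]
  rw [h2]
  calc m * c * (Real.exp κ / κ) = m * (c * (Real.exp κ / κ)) := by ring
    _ ≤ m * (shortP a b κ).card := by
        gcongr
        exact hcard κ hκ
    _ = ∑ _p ∈ shortP a b κ, m := by rw [Finset.sum_const, nsmul_eq_mul]; ring
    _ ≤ ∑ p ∈ shortP a b κ, (h (Real.log (nm p) - κ)).re := by
        refine Finset.sum_le_sum fun p hp => ?_
        rw [mem_shortP] at hp
        have h3 : (0 : ℝ) < nm p := by exact_mod_cast nm_pos.mpr hp.1.1.ne_zero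
        apply hlow
        · have := Real.log_lt_log (Real.exp_pos _) hp.2.1
          rw [Real.log_exp] at this
          linarith
        · have := Real.log_le_log h3 hp.2.2
          rw [Real.log_exp] at this
          linarith
    _ ≤ ∑ p ∈ prS κ, (h (Real.log (nm p) - κ)).re :=
        Finset.sum_le_sum_of_subset_of_nonneg h1 fun p _ _ => (hr _).1

lemma AP_im {h : ℝ → ℂ} (hr : ∀ u, 0 ≤ (h u).re ∧ (h u).im = 0) (κ : ℝ) :
    (AP h κ fun _ => 1).im = 0 := by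
  unfold AP
  rw [Complex.im_sum]
  apply Finset.sum_eq_zero
  intro p _
  rw [one_mul]
  exact (hr _).2

/-- **lower bound for the amplifier** (sub-amplifiers too) -/
theorem Amp_lower {h : ℝ → ℂ} (hh : HW h) (hr : ∀ u, 0 ≤ (h u).re ∧ (h u).im = 0)
    (hne : ∃ u, h u ≠ 0) (r : ℕ) {y : ℝ} (hy : 0 < y) :
    ∃ c Q₁ : ℝ, 0 < c ∧ 1 < Q₁ ∧ ∀ Q : ℝ, Q₁ ≤ Q → ∀ J : Finset (Fin r),
      c * CJ r y Q J * (Real.log Q ^ J.card)⁻¹ ≤ ‖Amp h r y Q J (fun _ => 1)‖ := by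
  obtain ⟨c, hc, κ₀, hκ₀, hlow⟩ := AP_lower hh hr hne
  rcases Nat.eq_zero_or_pos r with rfl | hr0
  · refine ⟨1, 2, one_pos, by norm_num, fun Q _ J => ?_⟩
    have : J = ∅ := Finset.eq_empty_of_isEmpty J
    subst this
    simp [Amp, CJ]
  have hr1 : (0 : ℝ) < r := by exact_mod_cast hr0
  set g : ℝ := y / r with hg
  have hg0 : 0 < g := by positivity
  -- threshold
  set Q₁ : ℝ := Real.exp (max (κ₀ / g) 1 + 1) with hQ₁
  have hA : ∀ Q : ℝ, Q₁ ≤ Q → κ₀ ≤ g * Real.log Q ∧ 1 ≤ Real.log Q := by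
    intro Q hQ
    have h1 : max (κ₀ / g) 1 + 1 ≤ Real.log Q := by
      rw [← Real.log_exp (max (κ₀ / g) 1 + 1)]
      exact Real.log_le_log (Real.exp_pos _) hQ
    constructor
    · have h2 : κ₀ / g ≤ Real.log Q := by
        have := le_max_left (κ₀ / g) 1
        linarith
      rw [div_le_iff₀ hg0] at h2
      linarith
    · have := le_max_right (κ₀ / g) 1
      linarith
  set c' : ℝ := c / (g + 3 * r) with hc'
  have hden : 0 < g + 3 * r := by positivity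
  have hc'0 : 0 < c' := by positivity
  refine ⟨min (c' ^ r) 1, Q₁, by positivity, ?_, ?_⟩
  · rw [hQ₁]
    apply Real.one_lt_exp_iff.mpr
    have := le_max_right (κ₀ / g) 1
    linarith
  intro Q hQ J
  obtain ⟨hQa, hQb⟩ := hA Q hQ
  have hQ0 : 0 < Q := (Real.exp_pos _).trans_le hQ
  have hlog0 : 0 < Real.log Q := by linarith
  -- each factor
  have hfac : ∀ i : Fin r, c' * (Q ^ g * (Real.log Q)⁻¹) ≤ ‖AP h (kap r y Q i) (fun _ => 1)‖ := by
    intro i
    have hi : (0 : ℝ) ≤ (i : ℕ) := Nat.cast_nonneg _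
    have hi2 : ((i : ℕ) : ℝ) ≤ r := by exact_mod_cast i.2.le
    have hk0 : κ₀ ≤ kap r y Q i := by
      unfold kap
      rw [← hg]
      linarith
    have h1 := hlow _ hk0
    have hk1 : kap r y Q i ≤ (g + 3 * r) * Real.log Q := by
      unfold kap
      rw [← hg]
      have h3 : 3 * ((i : ℕ) : ℝ) ≤ 3 * r * Real.log Q := by nlinarith
      linarith
    have hkpos : 0 < kap r y Q i := by linarith
    have h2 : Q ^ g ≤ Real.exp (kap r y Q i) := by
      rw [Real.rpow_def_of_pos hQ0]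
      apply Real.exp_le_exp.mpr
      unfold kap
      rw [← hg]
      linarith
    have h4 : 0 < Q ^ g := Real.rpow_pos_of_pos hQ0 _
    have h5 : c' * (Q ^ g * (Real.log Q)⁻¹) ≤ c * (Real.exp (kap r y Q i) / kap r y Q i) := by
      have h6 : Q ^ g / ((g + 3 * r) * Real.log Q) ≤ Real.exp (kap r y Q i) / kap r y Q i := by
        gcongr
      have e : c' * (Q ^ g * (Real.log Q)⁻¹) = c * (Q ^ g / ((g + 3 * r) * Real.log Q)) := by
        rw [hc']
        field_simp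
      rw [e]
      gcongr
    calc _ ≤ _ := h5
      _ ≤ (AP h (kap r y Q i) fun _ => 1).re := h1
      _ ≤ ‖AP h (kap r y Q i) fun _ => 1‖ := Complex.re_le_norm _
  have hprod : (c' * (Q ^ g * (Real.log Q)⁻¹)) ^ J.card ≤ ‖Amp h r y Q J (fun _ => 1)‖ := by
    unfold Amp
    rw [norm_prod, ← Finset.prod_const]
    apply Finset.prod_le_prod
    · intro i _
      positivity
    · intro i _
      exact hfac i
  refine le_trans ?_ hprod
  have hCJ : CJ r y Q J = (Q ^ g) ^ J.card := by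
    unfold CJ
    rw [← hg, Real.rpow_mul hQ0.le, Real.rpow_natCast]
  rw [hCJ, mul_pow, mul_pow, inv_pow]
  have hJ : J.card ≤ r := by
    have := Finset.card_le_univ J
    simpa using this
  have hmin : min (c' ^ r) 1 ≤ c' ^ J.card := by
    rcases le_or_gt c' 1 with h1 | h1
    · exact (min_le_left _ _).trans (pow_le_pow_of_le_one hc'0.le h1 hJ)
    · exact (min_le_right _ _).trans (one_le_pow₀ h1.le)
  calc min (c' ^ r) 1 * (Q ^ g) ^ J.card * (Real.log Q ^ J.card)⁻¹ ≤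
      c' ^ J.card * (Q ^ g) ^ J.card * (Real.log Q ^ J.card)⁻¹ := by gcongr
    _ = _ := by ring

/-- a concrete weight -/
def h00 (u : ℝ) : ℂ := ((Real.smoothTransition (1 - 2 * u) * Real.smoothTransition (1 + 2 * u) : ℝ) : ℂ)

lemma hw_h00 : HW h00 where
  cd := by
    unfold h00
    refine Complex.ofRealCLM.contDiff.comp (ContDiff.mul ?_ ?_)
    · exact Real.smoothTransition.contDiff.comp (by fun_prop)
    · exact Real.smoothTransition.contDiff.comp (by fun_prop)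
  supp u hu := by
    by_contra hlt
    push Not at hlt
    apply hu
    unfold h00
    rcases lt_abs.mp hlt with h1 | h1
    · rw [Real.smoothTransition.zero_of_nonpos (x := 1 - 2 * u) (by linarith)]
      simp
    · rw [Real.smoothTransition.zero_of_nonpos (x := 1 + 2 * u) (by linarith)]
      simp

lemma h00_real (u : ℝ) : 0 ≤ (h00 u).re ∧ (h00 u).im = 0 := by
  unfold h00
  rw [Complex.ofReal_re, Complex.ofReal_im]
  exact ⟨mul_nonneg (Real.smoothTransition.nonneg _) (Real.smoothTransition.nonneg _), rfl⟩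

lemma h00_ne : ∃ u, h00 u ≠ 0 := by
  refine ⟨0, ?_⟩
  unfold h00
  rw [Real.smoothTransition.one_of_one_le (by norm_num),
    Real.smoothTransition.one_of_one_le (by norm_num)]
  simp

/-- **PLOW** in 699's form -/
theorem propPLOW {r : ℕ} (hr : 0 < r) {y : ℝ} (hy : 0 < y) : BEnd699.PropPLOW r y := by
  obtain ⟨c, Q₁, hc, _, hlow⟩ := Amp_lower hw_h00 h00_real h00_ne r hy
  refine ⟨h00, hw_h00, c, Q₁, hc, fun Q hQ => ?_⟩
  have h1 := hlow Q hQ Finset.univ
  have hr1 : (r : ℝ) ≠ 0 := by exact_mod_cast hr.ne'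
  have e : CJ r y Q Finset.univ = Q ^ y := by
    unfold CJ
    rw [Finset.card_univ, Fintype.card_fin, div_mul_cancel₀ _ hr1]
  rw [e, Finset.card_univ, Fintype.card_fin] at h1
  exact h1

/-! ### PSUP in the language of `BDefs` -/

/-- **sup rule for a prime piece** -/
theorem psup_AP {θ ε : ℝ} (hθ : 1 / 2 < θ) (hθ1 : θ ≤ 1) (hPF : PF Set.univ θ)
    (hε : 0 < ε) (hε1 : ε ≤ 1) (l : ℤ) {h : ℝ → ℂ} (hh : HW h) :
    ∃ C : ℝ, 0 ≤ C ∧ ∀ (n : Eis) (φ : Eis → ℂ), HC n φ → NP n φ l →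
      ∀ t κ : ℝ, 0 ≤ κ →
      ‖AP h κ (twt φ l t)‖ ≤ C * ((nm n : ℝ) * (1 + |t|)) ^ ε * Real.exp ((θ + ε) * κ) := by
  obtain ⟨C, hC0, hC⟩ := pf_PP hθ hθ1 hPF hε hε1 (Set.mem_univ l) hh sg_one
  refine ⟨C, hC0, fun n φ hφ hnp t κ hκ => ?_⟩
  have h1 := hC n φ hφ hnp t 0 κ hκ ⌊Real.exp (κ + 1)⌋₊ (Nat.lt_floor_add_one _)
  refine le_trans (le_of_eq ?_) h1
  congr 1
  unfold AP
  rw [prS_eq]
  apply Finset.sum_congr rfl
  intro p _
  unfold twt
  rw [mul_comm I (t : ℂ), mul_one]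
  ring

/-- `φ(b) · conj (k/b)` as an `HC` character, `k ≠ 0` -/
lemma HC.conj_sy {q : Eis} {χ : Eis → ℂ} (hc : HC q χ) {k : Eis} (h0 : k ≠ 0) :
    HC (q * (9 * k)) (fun b => χ b * (starRingEnd ℂ) (sy k b)) :=
  hc.mul (hc_sy h0).conj

/-- **sup rule for a twisted prime piece**, as it occurs in `DOUT` -/
theorem psup_APk {θ ε : ℝ} (hθ : 1 / 2 < θ) (hθ1 : θ ≤ 1) (hPF : PF Set.univ θ)
    (hε : 0 < ε) (hε1 : ε ≤ 1) (l : ℤ) {h : ℝ → ℂ} (hh : HW h) :
    ∃ C : ℝ, 0 ≤ C ∧ ∀ (n : Eis) (φ : Eis → ℂ), HC n φ → ∀ k : Eis, k ≠ 0 → NPk n φ l k →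
      ∀ t κ : ℝ, 0 ≤ κ →
      ‖AP h κ (fun p => twt φ l t p * (starRingEnd ℂ) (sy k p))‖ ≤
        C * ((nm n : ℝ) * nm k * (1 + |t|)) ^ ε * Real.exp ((θ + ε) * κ) := by
  obtain ⟨C, hC0, hC⟩ := psup_AP hθ hθ1 hPF hε hε1 l hh
  refine ⟨C * 81 ^ ε, by positivity, fun n φ hφ k hk hnp t κ hκ => ?_⟩
  have h1 := hC _ _ (HC.conj_sy hφ hk) hnp t κ hκ
  have e : AP h κ (twt (fun b => φ b * (starRingEnd ℂ) (sy k b)) l t) =
      AP h κ (fun p => twt φ l t p * (starRingEnd ℂ) (sy k p)) := by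
    unfold AP
    apply Finset.sum_congr rfl
    intro p _
    unfold twt tw
    ring
  rw [e, nm_q9h] at h1
  refine h1.trans (le_of_eq ?_)
  push_cast
  rw [show (81 * (nm n : ℝ) * nm k * (1 + |t|)) = 81 * ((nm n : ℝ) * nm k * (1 + |t|)) by ring,
    Real.mul_rpow (by norm_num) (by positivity)]
  ring

/-- **sup rule for sub-amplifiers**, as they occur in `DOUT` -/
theorem psup_Amp {θ ε : ℝ} (hθ : 1 / 2 < θ) (hθ1 : θ ≤ 1) (hPF : PF Set.univ θ)
    (hε : 0 < ε) (hε1 : ε ≤ 1) (l : ℤ) {h : ℝ → ℂ} (hh : HW h) (r : ℕ) {y : ℝ} (hy : 0 ≤ y) :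
    ∃ C : ℝ, 0 ≤ C ∧ ∀ (n : Eis) (φ : Eis → ℂ), HC n φ → ∀ k : Eis, k ≠ 0 → NPk n φ l k →
      ∀ t Q : ℝ, 1 ≤ Q → ∀ J : Finset (Fin r),
      ‖Amp h r y Q J (fun p => twt φ l t p * (starRingEnd ℂ) (sy k p))‖ ≤
        C * ((nm n : ℝ) * nm k * (1 + |t|)) ^ ε * CJ r y Q J ^ (θ + ε) := by
  obtain ⟨C, hC0, hC⟩ := psup_APk (ε := ε / (r + 1)) hθ hθ1 hPF (by positivity)
    (by
      rw [div_le_one (by positivity)]
      have : (0 : ℝ) ≤ r := Nat.cast_nonneg _
      linarith) l hh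
  have hr0 : (0 : ℝ) ≤ r := Nat.cast_nonneg _
  refine ⟨((C + 1) * Real.exp ((θ + 1) * (3 * r))) ^ r, by positivity,
    fun n φ hφ k hk hnp t Q hQ J => ?_⟩
  have hQ0 : 0 < Q := by linarith
  have hlog : 0 ≤ Real.log Q := Real.log_nonneg hQ
  have hεr : ε / (r + 1) ≤ ε := by
    rw [div_le_iff₀ (by positivity)]
    nlinarith
  have hεr0 : 0 < ε / (r + 1) := by positivity
  have hn1 : (1 : ℝ) ≤ (nm n : ℝ) := by exact_mod_cast nm_pos.mpr hφ.q0
  have hk1 : (1 : ℝ) ≤ (nm k : ℝ) := by exact_mod_cast nm_pos.mpr hk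
  have ht := abs_nonneg t
  set Z : ℝ := (nm n : ℝ) * nm k * (1 + |t|) with hZ
  have hZ1 : 1 ≤ Z := by
    rw [hZ]
    have : 1 ≤ (nm n : ℝ) * nm k := by nlinarith
    nlinarith
  set E : ℝ := (C + 1) * Real.exp ((θ + 1) * (3 * r)) with hE
  have hE1 : 1 ≤ E := by
    rw [hE]
    have h1 : 1 ≤ Real.exp ((θ + 1) * (3 * r)) := Real.one_le_exp (by positivity)
    nlinarith
  have hfac : ∀ i : Fin r, ‖AP h (kap r y Q i) (fun p => twt φ l t p * (starRingEnd ℂ) (sy k p))‖ ≤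
      E * Z ^ (ε / (r + 1)) * (Q ^ (y / r)) ^ (θ + ε) := by
    intro i
    have hi : (0 : ℝ) ≤ (i : ℕ) := Nat.cast_nonneg _
    have hi2 : ((i : ℕ) : ℝ) ≤ r := by exact_mod_cast i.2.le
    have hkap : 0 ≤ kap r y Q i := by
      unfold kap
      have : 0 ≤ y / r := by positivity
      positivity
    have h1 := hC n φ hφ k hk hnp t (kap r y Q i) hkap
    refine h1.trans ?_
    have h2 : Real.exp ((θ + ε / (r + 1)) * kap r y Q i) ≤
        Real.exp ((θ + 1) * (3 * r)) * (Q ^ (y / r)) ^ (θ + ε) := by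
      rw [← Real.rpow_mul hQ0.le, Real.rpow_def_of_pos hQ0, ← Real.exp_add]
      apply Real.exp_le_exp.mpr
      have e1 : kap r y Q i = y / r * Real.log Q + 3 * (i : ℕ) := rfl
      calc (θ + ε / (r + 1)) * kap r y Q i ≤ (θ + ε) * kap r y Q i := by gcongr
        _ = (θ + ε) * (3 * (i : ℕ)) + Real.log Q * (y / r * (θ + ε)) := by rw [e1]; ring
        _ ≤ (θ + 1) * (3 * r) + Real.log Q * (y / r * (θ + ε)) := by gcongr
    calc C * Z ^ (ε / (r + 1)) * Real.exp ((θ + ε / (r + 1)) * kap r y Q i) ≤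
        (C + 1) * Z ^ (ε / (r + 1)) *
          (Real.exp ((θ + 1) * (3 * r)) * (Q ^ (y / r)) ^ (θ + ε)) := by
          gcongr
          linarith
      _ = _ := by rw [hE]; ring
  unfold Amp
  rw [norm_prod]
  calc ∏ i ∈ J, ‖AP h (kap r y Q i) (fun p => twt φ l t p * (starRingEnd ℂ) (sy k p))‖ ≤
      ∏ _i ∈ J, (E * Z ^ (ε / (r + 1)) * (Q ^ (y / r)) ^ (θ + ε)) :=
        Finset.prod_le_prod (fun i _ => norm_nonneg _) (fun i _ => hfac i)
    _ = E ^ J.card * (Z ^ (ε / (r + 1))) ^ J.card * ((Q ^ (y / r)) ^ (θ + ε)) ^ J.card := by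
        rw [Finset.prod_const, mul_pow, mul_pow]
    _ ≤ E ^ r * Z ^ ε * CJ r y Q J ^ (θ + ε) := by
        have hJ : J.card ≤ r := by
          have := Finset.card_le_univ J
          simpa using this
        have h3 : E ^ J.card ≤ E ^ r := pow_le_pow_right₀ hE1 hJ
        have h4 : (Z ^ (ε / (r + 1))) ^ J.card ≤ Z ^ ε := by
          rw [← Real.rpow_natCast, ← Real.rpow_mul (by linarith)]
          apply Real.rpow_le_rpow_of_exponent_le hZ1
          rw [div_mul_eq_mul_div, div_le_iff₀ (by positivity)]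
          have : (J.card : ℝ) ≤ r := by exact_mod_cast hJ
          nlinarith
        have h5 : ((Q ^ (y / r)) ^ (θ + ε)) ^ J.card = CJ r y Q J ^ (θ + ε) := by
          unfold CJ
          rw [← Real.rpow_natCast, ← Real.rpow_mul (by positivity), ← Real.rpow_mul hQ0.le,
            ← Real.rpow_mul hQ0.le]
          congr 1
          ring
        rw [h5]
        have h6 : 0 ≤ CJ r y Q J ^ (θ + ε) := by
          unfold CJ; positivity
        gcongr
    _ = _ := by rw [hE, hZ]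

end Crest.Agent.R017.PLow271
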