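import Crest.Agent.R017.HBS2_271
import Crest.Agent.R017.PLow2_271
import Crest.Agent.R017.NWDefs_986

/-!
# Row 17: the sup rules for all pieces, in the language of boxes (helper271)

`psup_PS`, `psup_PM` : the pieces of Heath-Brown's identity (`HB645.PS`, `HB645.PM`) against
`PF univ θ`; `psup_PSk`, `psup_PMk` : the same for the family `ψ χ_k`.
`psup_AS`, `psup_ASk` : the smooth squarefree piece `Asm986.AS`.
-/

set_option autoImplicit false

noncomputable section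

open MeasureTheory Complex Set
open scoped ComplexConjugate ContDiff

namespace Crest.Agent.R017.Sup271

open Crest.Agent.R012 Crest.Agent.R012.Eis Crest.Agent.R012.PSer47 Crest.Agent.R012.Weight600
open Crest.Agent.R017.End699 Crest.Agent.R017.B770 Crest.Agent.R017.HBS271
open Crest.Agent.R017.HB645 (sg hh PS PM cM contDiff_sg contDiff_hh hh_left hh_right sg_of_le
  sg_of_ge)

/-! ### cut-offs -/

lemma iter_cpt {σ : ℝ → ℂ} (h1 : ContDiff ℝ ∞ σ) (h2 : HasCompactSupport σ) (k : ℕ) :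
    ContDiff ℝ ∞ (deriv^[k] σ) ∧ HasCompactSupport (deriv^[k] σ) := by
  induction k with
  | zero => exact ⟨h1, h2⟩
  | succ k ih =>
    rw [Function.iterate_succ_apply']
    exact ⟨(contDiff_infty_iff_deriv.mp ih.1).2, ih.2.deriv⟩

/-- a smooth function which is constant on both sides of a bounded interval -/
lemma sg_of_const {σ : ℝ → ℂ} (hσ : ContDiff ℝ ∞ σ) {a b : ℝ} {c₁ c₂ : ℂ}
    (h1 : ∀ u ≤ a, σ u = c₁) (h2 : ∀ u, b ≤ u → σ u = c₂) : SG σ where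
  cd := hσ
  bd := by
    intro k
    cases k with
    | zero =>
      obtain ⟨B, hB⟩ := (isCompact_Icc (a := a) (b := b)).exists_bound_of_continuousOn
        hσ.continuous.continuousOn
      refine ⟨max B (max ‖c₁‖ ‖c₂‖), fun u => ?_⟩
      simp only [Function.iterate_zero, id_eq]
      rcases le_total u a with hu | hu
      · rw [h1 u hu]; exact (le_max_left _ _).trans (le_max_right _ _)
      · rcases le_total b u with hu2 | hu2
        · rw [h2 u hu2]; exact (le_max_right _ _).trans (le_max_right _ _)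
        · exact (hB u ⟨hu, hu2⟩).trans (le_max_left _ _)
    | succ k =>
      have hd : ContDiff ℝ ∞ (deriv σ) := (contDiff_infty_iff_deriv.mp hσ).2
      have hc : HasCompactSupport (deriv σ) := by
        refine HasCompactSupport.intro (isCompact_Icc (a := a) (b := b)) fun u hu => ?_
        rw [Set.mem_Icc, not_and_or, not_le, not_le] at hu
        rcases hu with hu | hu
        · have : σ =ᶠ[nhds u] fun _ => c₁ := by
            filter_upwards [Iio_mem_nhds hu] with v hv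
            exact h1 v (le_of_lt hv)
          rw [this.deriv_eq, deriv_const]
        · have : σ =ᶠ[nhds u] fun _ => c₂ := by
            filter_upwards [Ioi_mem_nhds hu] with v hv
            exact h2 v (le_of_lt hv)
          rw [this.deriv_eq, deriv_const]
      obtain ⟨h3, h4⟩ := iter_cpt hd hc k
      obtain ⟨B, hB⟩ := h3.continuous.bounded_above_of_compact_support h4
      exact ⟨B, fun u => by rw [Function.iterate_succ_apply]; exact hB u⟩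

lemma sg_cut : SG (fun u => ((1 - sg u : ℝ) : ℂ)) := by
  refine sg_of_const (a := 0) (b := 1) (c₁ := 1) (c₂ := 0) ?_ ?_ ?_
  · exact Complex.ofRealCLM.contDiff.comp (contDiff_const.sub contDiff_sg)
  · intro u hu
    rw [sg_of_le hu]; simp
  · intro u hu
    rw [sg_of_ge hu]; simp

lemma hw_hh : HW (fun u => (hh u : ℂ)) where
  cd := Complex.ofRealCLM.contDiff.comp contDiff_hh
  supp := by
    intro u hu
    have h1 : hh u ≠ 0 := by
      intro h0; apply hu; simp [h0]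
    exact (HB645.abs_lt_of_hh h1).le

lemma pw_eq_cpow {t : ℝ} {n : ℕ} (hn : n ≠ 0) : Weight600.pw t n = (n : ℂ) ^ ((t * Complex.I : ℂ)) := by
  unfold Weight600.pw osc
  rw [Complex.cpow_def_of_ne_zero (by exact_mod_cast hn), ← Complex.natCast_log]
  congr 1
  push_cast
  ring

lemma nm_ne_zero_of_prim {b : Eis} (hb : IsPrim b) : nm b ≠ 0 := (nm_pos.mpr hb.ne_zero).ne'

/-! ### sup rules for the Heath-Brown pieces -/

/-- **sup rule, smooth piece** -/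
theorem psup_PS {θ ε : ℝ} (hθ : 1 / 2 < θ) (hθ1 : θ ≤ 1) (hPF : PF Set.univ θ)
    (hε : 0 < ε) (hε1 : ε ≤ 1) (l : ℤ) :
    ∃ C : ℝ, 0 ≤ C ∧ ∀ (q : Eis) (χ : Eis → ℂ), HC q χ → NP q χ l →
      ∀ (t₀ t : ℝ) (κ : ℕ), ‖PS (twt χ l t₀) κ t‖ ≤
        C * ((nm q : ℝ) * (1 + |t₀ + t|)) ^ ε * Real.exp ((θ + ε) * κ) := by
  obtain ⟨C, hC0, hC⟩ := pf_PS hθ hθ1 hPF hε hε1 (Set.mem_univ l) hw_hh sg_one
  refine ⟨C, hC0, fun q χ hq hnp t₀ t κ => ?_⟩
  have h1 := hC q χ hq hnp (t₀ + t) 0 κ (Nat.cast_nonneg κ) ⌊Real.exp (κ + 1)⌋₊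
    (Nat.lt_floor_add_one _)
  refine le_trans (le_of_eq ?_) h1
  congr 1
  unfold PS
  refine Finset.sum_congr rfl fun b hb => ?_
  have hb0 := nm_ne_zero_of_prim (mem_primBall.mp hb).2
  have hb1 : (nm b : ℂ) ≠ 0 := by exact_mod_cast hb0
  unfold twt
  rw [pw_eq_cpow hb0, mul_one, ofReal_add, add_mul, Complex.cpow_add _ _ hb1, mul_comm I (t₀ : ℂ)]
  ring

/-- **sup rule, Möbius piece** -/
theorem psup_PM {θ ε : ℝ} (hθ : 1 / 2 < θ) (hθ1 : θ ≤ 1) (hPF : PF Set.univ θ)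
    (hε : 0 < ε) (hε1 : ε ≤ 1) (l : ℤ) :
    ∃ C : ℝ, 0 ≤ C ∧ ∀ (q : Eis) (χ : Eis → ℂ), HC q χ →
      ∀ (t₀ t z : ℝ) (κ : ℕ), ‖PM (twt χ l t₀) z κ t‖ ≤
        C * ((nm q : ℝ) * (1 + |t₀ + t|)) ^ ε * Real.exp ((θ + ε) * κ) := by
  obtain ⟨C, hC0, hC⟩ := pf_PM hθ hθ1 hPF hε hε1 (Set.mem_univ l) hw_hh sg_cut
  refine ⟨C, hC0, fun q χ hq t₀ t z κ => ?_⟩
  have h1 := hC q χ hq (t₀ + t) (Real.log z) κ (Nat.cast_nonneg κ) ⌊Real.exp (κ + 1)⌋₊
    (Nat.lt_floor_add_one _)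
  refine le_trans (le_of_eq ?_) h1
  congr 1
  unfold PM
  refine Finset.sum_congr rfl fun b hb => ?_
  have hb0 := nm_ne_zero_of_prim (mem_primBall.mp hb).2
  have hb1 : (nm b : ℂ) ≠ 0 := by exact_mod_cast hb0
  unfold twt cM
  rw [pw_eq_cpow hb0, ofReal_add, add_mul, Complex.cpow_add _ _ hb1, mul_comm I (t₀ : ℂ)]
  ring

/-- `φ(b) (k/b)` as an `HC` character, `k ≠ 0` -/
lemma HC.mul_sy {q : Eis} {χ : Eis → ℂ} (hc : HC q χ) {k : Eis} (h0 : k ≠ 0) :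
    HC (q * (9 * k)) (fun b => χ b * sy k b) := hc.mul (hc_sy h0)

/-- `ψ χ_k ang^l` is nonprincipal -/
def NPm (n : Eis) (ψ : Eis → ℂ) (l : ℤ) (k : Eis) : Prop :=
  NP (n * (9 * k)) (fun b => ψ b * sy k b) l

lemma rpow81 {ε : ℝ} (a b c : ℝ) (ha : 0 ≤ a) (hb : 0 ≤ b) (hc : 0 ≤ c) :
    (81 * a * b * c) ^ ε = 81 ^ ε * (a * b * c) ^ ε := by
  rw [show 81 * a * b * c = 81 * (a * b * c) by ring, Real.mul_rpow (by norm_num) (by positivity)]

/-- **sup rule, smooth piece, family form** -/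
theorem psup_PSk {θ ε : ℝ} (hθ : 1 / 2 < θ) (hθ1 : θ ≤ 1) (hPF : PF Set.univ θ)
    (hε : 0 < ε) (hε1 : ε ≤ 1) (l : ℤ) :
    ∃ C : ℝ, 0 ≤ C ∧ ∀ (n : Eis) (ψ : Eis → ℂ), HC n ψ → ∀ k : Eis, k ≠ 0 → NPm n ψ l k →
      ∀ (t₀ t : ℝ) (κ : ℕ), ‖PS (fun b => twt ψ l t₀ b * sy k b) κ t‖ ≤
        C * ((nm n : ℝ) * nm k * (1 + |t₀ + t|)) ^ ε * Real.exp ((θ + ε) * κ) := by
  obtain ⟨C, hC0, hC⟩ := psup_PS hθ hθ1 hPF hε hε1 l
  refine ⟨C * 81 ^ ε, by positivity, fun n ψ hψ k hk hnp t₀ t κ => ?_⟩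
  have h1 := hC _ _ (HC.mul_sy hψ hk) hnp t₀ t κ
  have e : twt (fun b => ψ b * sy k b) l t₀ = fun b => twt ψ l t₀ b * sy k b := by
    funext b; unfold twt tw; ring
  rw [e, nm_q9h] at h1
  refine h1.trans (le_of_eq ?_)
  push_cast
  rw [rpow81 _ _ _ (by positivity) (by positivity) (by positivity)]
  ring

/-- **sup rule, Möbius piece, family form** -/
theorem psup_PMk {θ ε : ℝ} (hθ : 1 / 2 < θ) (hθ1 : θ ≤ 1) (hPF : PF Set.univ θ)
    (hε : 0 < ε) (hε1 : ε ≤ 1) (l : ℤ) :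
    ∃ C : ℝ, 0 ≤ C ∧ ∀ (n : Eis) (ψ : Eis → ℂ), HC n ψ → ∀ k : Eis, k ≠ 0 →
      ∀ (t₀ t z : ℝ) (κ : ℕ), ‖PM (fun b => twt ψ l t₀ b * sy k b) z κ t‖ ≤
        C * ((nm n : ℝ) * nm k * (1 + |t₀ + t|)) ^ ε * Real.exp ((θ + ε) * κ) := by
  obtain ⟨C, hC0, hC⟩ := psup_PM hθ hθ1 hPF hε hε1 l
  refine ⟨C * 81 ^ ε, by positivity, fun n ψ hψ k hk t₀ t z κ => ?_⟩
  have h1 := hC _ _ (HC.mul_sy hψ hk) t₀ t z κ
  have e : twt (fun b => ψ b * sy k b) l t₀ = fun b => twt ψ l t₀ b * sy k b := by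
    funext b; unfold twt tw; ring
  rw [e, nm_q9h] at h1
  refine h1.trans (le_of_eq ?_)
  push_cast
  rw [rpow81 _ _ _ (by positivity) (by positivity) (by positivity)]
  ring

/-- **sup rule for the whole Möbius sum, family form** (no condition on principality) -/
theorem psup_MVk {θ ε : ℝ} (hθ : 1 / 2 < θ) (hθ1 : θ ≤ 1) (hPF : PF Set.univ θ)
    (hε : 0 < ε) (hε1 : ε ≤ 1) (l : ℤ) {V : ℝ → ℂ} (hV : SW V) :
    ∃ C : ℝ, 0 ≤ C ∧ ∀ (n : Eis) (ψ : Eis → ℂ), HC n ψ → ∀ k : Eis, k ≠ 0 →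
      ∀ (t₀ Q : ℝ), 1 ≤ Q → ‖MV V Q (fun b => twt ψ l t₀ b * sy k b)‖ ≤
        C * ((nm n : ℝ) * nm k * (1 + |t₀|)) ^ ε * Q ^ (θ + ε) := by
  obtain ⟨β, hβ1, hβ⟩ := Asm986.sw_bound hV
  have hβ0 : 0 ≤ β := by linarith
  have hβ' : ∀ y, β < y → V y = 0 := by
    intro y hy
    by_contra h
    exact absurd (hβ y h).2 (not_le.mpr hy)
  obtain ⟨C, hC0, hC⟩ := pf_moebius hθ hθ1 hPF hε hε1 (Set.mem_univ l) hV.smooth hV.cpt hV.supp
    hβ0 hβ'
  refine ⟨C * 81 ^ ε, by positivity, fun n ψ hψ k hk t₀ Q hQ => ?_⟩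
  have h1 := hC _ _ (HC.mul_sy hψ hk) (-t₀) Q hQ
  have hQ0 : 0 < Q := by linarith
  have e1 : MV V Q (fun b => twt ψ l t₀ b * sy k b) =
      ∑ b ∈ primBall ⌊β * Q⌋₊, (muE b : ℂ) * tw (fun b => ψ b * sy k b) l b *
        ((nm b : ℂ) ^ (-(((-t₀ : ℝ) : ℂ) * Complex.I : ℂ)) * V (nm b / Q)) := by
    classical
    unfold MV
    rw [tsum_eq_sum (s := primBall ⌊β * Q⌋₊)]
    · refine Finset.sum_congr rfl fun b hb => ?_
      rw [if_pos (mem_primBall.mp hb).2]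
      unfold twt tw
      have e2 : (-(((-t₀ : ℝ) : ℂ) * Complex.I) : ℂ) = I * t₀ := by push_cast; ring
      rw [e2]
      ring
    · intro b hb
      split_ifs with h
      · by_contra h0
        apply hb
        rw [mem_primBall]
        have h1 := (hβ _ (right_ne_zero_of_mul h0)).2
        rw [div_le_iff₀ hQ0] at h1
        exact ⟨Nat.le_floor h1, h⟩
      · rfl
  rw [e1]
  refine h1.trans (le_of_eq ?_)
  rw [nm_q9h, abs_neg]
  push_cast
  rw [rpow81 _ _ _ (by positivity) (by positivity) (by positivity)]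
  ring

end Crest.Agent.R017.Sup271
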