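import Crest.Agent.R017.BDefs3_770
import Crest.Agent.R017.Sup_271

/-!
# Row 17, D.box: the box form of D-OUT (helper271)

* `DPar.bx` : the signed sum over the `k` for which both `φ conj χ_k` and `ψ χ_k` are nonprincipal,
  of (weight) × (amplifier) × (product of the pieces of one Heath-Brown box)
* `BOX3i θ r y δ η L` : the box inequality (boxes of Heath-Brown's identity with `L` variables)
* `BOX3 θ`
`Box_271.lean` : `BOX3 θ → PF univ θ → DOUT3 θ`.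
-/

set_option autoImplicit false

noncomputable section

open MeasureTheory Complex Set
open scoped ComplexConjugate ContDiff

namespace Crest.Agent.R017.B770

open Crest.Agent.R012 Crest.Agent.R012.Eis Crest.Agent.R012.Mob705 Crest.Agent.R012.Gauss880
open Crest.Agent.R017.End699 Crest.Agent.R017.Sx440 Crest.Agent.R017.Sx545
open Crest.Agent.R017.Asm986 Crest.Agent.R017.HBS271 Crest.Agent.R017.Sup271

/-- the characters of the Möbius sum : `b ↦ ψ(b) ang^{l₂}(b) nm(b)^{i t₂} 1_{(b,d₂)=1} (k/b)_3` -/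
def DPar.ch (P : DPar) (d₂ : Eis) (t₂ : ℝ) (k b : Eis) : ℂ :=
  twt P.ψ P.l₂ t₂ b * prin0 d₂ b * sy k b

/-- the condition on `k` in the boxes: neither the amplifier character nor the character of the
Möbius sum is principal -/
def DPar.NP2 (P : DPar) (k : Eis) : Prop := NPk P.n P.φ P.l₁ k ∧ NPm P.n P.ψ P.l₂ k

/-- **the signed box sum**. `c : Fin (j-1) ⊕ Fin j → ℕ` are the logarithmic scales of the pieces
(the left ones smooth, the right ones Möbius pieces with cut-off `z`). -/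
def DPar.bx (P : DPar) (r : ℕ) (y Q₀ κ : ℝ) (J : Finset (Fin r)) (H : ℝ)
    (d₁ d₂ d₃ e : Eis) (t₁ t₂ τ z : ℝ) {j : ℕ} (c : Fin (j - 1) ⊕ Fin j → ℕ) (q : Eis) : ℂ := by
  classical
  exact ∑' k : Eis, if k ≠ 0 ∧ q ^ 2 ∣ k ∧ P.NP2 k then
    P.wk τ H k * (prin0 d₃ k * sy k e) *
      (P.am r y Q₀ κ J d₁ t₁ k * GC (P.ch d₂ t₂ k) z c 0) else 0

/-- **the box inequality** : same quantifiers as `DOUT3i`, the Möbius sum replaced by the product of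
the pieces of one box: `|Σ scales - log Q| ≤ C₁`, Möbius scales and `log z` at most
`(log Q) / L + C₁`. -/
def BOX3i (θ : ℝ) (r : ℕ) (y δ η : ℝ) (L : ℕ) : Prop :=
  ∀ P : DPar, P.OK → ∀ ε C₁ : ℝ, 0 < ε → 0 < C₁ → ∃ C A : ℝ, 0 ≤ C ∧ 0 ≤ A ∧
    ∀ (Q₀ Q : ℝ), 1 ≤ Q → Q ≤ Q₀ → ∀ κ : ℝ, -1 ≤ κ → κ ≤ δ * Real.log Q₀ →
    ∀ (J : Finset (Fin r)) (H : ℝ), 0 < H → H ≤ Q₀ ^ (1 / 2 + (y + δ) + η) →
    ∀ d₁ d₂ d₃ e : Eis, d₁ ≠ 0 → d₂ ≠ 0 → d₃ ≠ 0 → Sm P.n e →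
      (∀ p : Eis, Prime p → p ∣ e → p ^ 5 ∣ e) →
      Q * nm e ≤ C₁ * Q₀ * (CJ r y Q₀ J * Real.exp κ / Q₀ ^ (y + δ)) →
    ∀ (t₁ t₂ τ : ℝ) (𝒟 : Finset Eis), (∀ q ∈ 𝒟, Sm P.n q ∧ Squarefree q) →
    ∀ u : Eis → ℝ, (∀ q, 0 ≤ u q ∧ u q ≤ C₁) →
    ∀ z : ℕ, 1 ≤ z → Real.log z ≤ Real.log Q / L + C₁ →
    ∀ j : ℕ, 1 ≤ j → j ≤ L → ∀ c : Fin (j - 1) ⊕ Fin j → ℕ,
      |∑ i, (c (Sum.inl i) : ℝ) + ∑ i, (c (Sum.inr i) : ℝ) - Real.log Q| ≤ C₁ →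
      (∀ i : Fin j, (c (Sum.inr i) : ℝ) ≤ Real.log Q / L + C₁) →
      ∑ q ∈ 𝒟, ‖P.bx r y Q₀ (κ - u q) J H d₁ d₂ d₃ e t₁ t₂ τ z c q‖ ≤
        C * ((nm d₁ : ℝ) * nm d₂ * nm d₃ * nm e * Q₀) ^ ε * (1 + |t₁| + |t₂| + |τ|) ^ A *
          TgB θ η (if δ / 2 * Real.log Q₀ ≤ κ then η else -η) (y + δ) Q₀ Q H
            (CJ r y Q₀ J * Real.exp κ)

/-- **BOX**: target of the box analysis (with `PF univ θ` as input). -/
def BOX3 (θ : ℝ) : Prop :=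
  ∃ (r : ℕ) (y δ η : ℝ) (L : ℕ), 0 < r ∧ 0 < y ∧ 0 < δ ∧ y + δ < 1 ∧ δ ≤ 1 / 1000 ∧
    10 * δ ≤ y / r ∧ 0 < η ∧ η ≤ δ / 16 ∧ 1 ≤ L ∧ BOX3i θ r y δ η L

end Crest.Agent.R017.B770
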