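import Crest.Agent.R012.LS2Spec_381
import Crest.Agent.R012.GaussInst_880
import Crest.Agent.R012.Div_277
import Crest.Agent.R012.Sym6_645

/-!
# Row 17, section C: elementary rules for arbitrary sequences (helper106)

Sequences `α : Eis → ℂ` with finite support on primary elements (`FS α`).
* `CS α l = ∑' m, α m * sy l m`, `TG α l = ∑' m, α m * (G m * conj (sy l m))`
* `merge` : merging a divisor into the family (cost `tau`)
* `ruleC` : rule (C) on the Gauss side, `TG2_split`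
* `TG_split`, `CS_split`, `monoG`, `monoC` : monotonicity by prime cubes
-/

set_option autoImplicit false

noncomputable section

open Complex
open scoped ComplexConjugate

namespace Crest.Agent.R017.CM106

open Crest.Agent.R012 Crest.Agent.R012.Eis Crest.Agent.R012.LS2 Crest.Agent.R012.Gauss880
open Crest.Agent.R012.Div277 (tau dvs mem_dvs tau_le_rpow)

/-- finitely supported sequence on primary elements -/
structure FS (α : Eis → ℂ) : Prop where
  fin : (Function.support α).Finite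
  prim : ∀ m, α m ≠ 0 → IsPrim m

/-- the character side -/
def CS (α : Eis → ℂ) (l : Eis) : ℂ := ∑' m : Eis, α m * sy l m

/-- the Gauss side -/
def TG (α : Eis → ℂ) (l : Eis) : ℂ := ∑' m : Eis, α m * (G m * conj (sy l m))

/-- the subsequence of the multiples of `g` -/
def sub (α : Eis → ℂ) (g : Eis) : Eis → ℂ := fun m => α (g * m)

lemma FS.sub {α : Eis → ℂ} (h : FS α) {g : Eis} (hg : IsPrim g) : FS (sub α g) where
  fin := by
    refine Set.Finite.subset (h.fin.preimage (f := fun m => g * m) ?_) ?_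
    · intro x _ y _ hxy
      exact mul_left_cancel₀ hg.ne_zero hxy
    · intro m hm
      exact hm
  prim := fun m hm => (h.prim _ hm).of_mul_left hg

lemma FS.summable {α : Eis → ℂ} (h : FS α) (f : Eis → ℂ) : Summable (fun m => α m * f m) := by
  refine summable_of_hasFiniteSupport (h.fin.subset ?_)
  intro m hm h0
  apply hm
  have h0' : α m = 0 := h0
  simp [h0']

/-! ### merging -/

/-- **merging lemma** -/
theorem merge {B L : ℝ} (hB : 0 ≤ B) (hL : 0 ≤ L) {Bs : Finset Eis}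
    (hBs : ∀ b ∈ Bs, IsPrim b ∧ (nm b : ℝ) ≤ B) (F : Eis → ℝ) (hF : ∀ r, 0 ≤ F r) :
    ∑ b ∈ Bs, ∑ l ∈ bl L, F (l * b) ≤ ∑ r ∈ bl (L * B), (tau r : ℝ) * F r := by
  classical
  rw [← Finset.sum_product' Bs (bl L) (fun b l => F (l * b))]
  have hmaps : ∀ x ∈ Bs ×ˢ bl L, x.2 * x.1 ∈ bl (L * B) := by
    intro x hx
    rw [Finset.mem_product, mem_bl hL] at hx
    rw [mem_bl (mul_nonneg hL hB)]
    refine ⟨mul_ne_zero hx.2.1 (hBs _ hx.1).1.ne_zero, ?_⟩
    rw [nm_mul]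
    push_cast
    exact mul_le_mul hx.2.2 (hBs _ hx.1).2 (Nat.cast_nonneg _) hL
  rw [← Finset.sum_fiberwise_of_maps_to hmaps]
  refine Finset.sum_le_sum fun r hr => ?_
  have hr0 : r ≠ 0 := ((mem_bl (mul_nonneg hL hB)).mp hr).1
  rw [Finset.sum_congr rfl (g := fun _ => F r) (fun x hx => by
    rw [(Finset.mem_filter.mp hx).2]), Finset.sum_const, nsmul_eq_mul]
  refine mul_le_mul_of_nonneg_right ?_ (hF r)
  unfold tau
  norm_cast
  refine Finset.card_le_card_of_injOn (fun x => x.1) ?_ ?_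
  · intro x hx
    have hx' := Finset.mem_filter.mp (Finset.mem_coe.mp hx)
    rw [Finset.mem_coe, mem_dvs hr0]
    refine ⟨(hBs _ (Finset.mem_product.mp hx'.1).1).1, ?_⟩
    exact ⟨x.2, by rw [← hx'.2, mul_comm]⟩
  · intro x hx y hy hxy
    have hx' := Finset.mem_filter.mp (Finset.mem_coe.mp hx)
    have hy' := Finset.mem_filter.mp (Finset.mem_coe.mp hy)
    have hxy' : x.1 = y.1 := hxy
    have h0 : x.1 ≠ 0 := (hBs _ (Finset.mem_product.mp hx'.1).1).1.ne_zero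
    have h2 : x.2 = y.2 := by
      apply mul_right_cancel₀ h0
      rw [hx'.2, hxy', hy'.2]
    exact Prod.ext hxy' h2

/-- the divisor function is harmless -/
theorem sum_tau_le {ε : ℝ} (hε : 0 < ε) : ∃ C : ℝ, 1 ≤ C ∧ ∀ (R : ℝ), 0 ≤ R → ∀ F : Eis → ℝ,
    (∀ r, 0 ≤ F r) → ∑ r ∈ bl R, (tau r : ℝ) * F r ≤ C * R ^ ε * ∑ r ∈ bl R, F r := by
  obtain ⟨C, hC1, hC⟩ := tau_le_rpow hε
  refine ⟨C, hC1, fun R hR F hF => ?_⟩
  rw [Finset.mul_sum]
  refine Finset.sum_le_sum fun r hr => ?_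
  have hr' := (mem_bl hR).mp hr
  refine mul_le_mul_of_nonneg_right ((hC r hr'.1).trans ?_) (hF r)
  exact mul_le_mul_of_nonneg_left
    (Real.rpow_le_rpow (Nat.cast_nonneg _) hr'.2 hε.le) (by linarith)

/-! ### rule (C) -/

/-- the product sum on the Gauss side -/
def TG2 (Bs : Finset Eis) (β α : Eis → ℂ) (l : Eis) : ℂ :=
  ∑ b ∈ Bs, β b * ∑' m : Eis, α m * (G (b * m) * conj (sy l (b * m)))

lemma TG_term {b m l : Eis} (hb : IsPrim b) (hm : IsPrim m) :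
    G (b * m) * conj (sy l (b * m)) =
      (G b * conj (sy l b)) * (G m * conj (sy (l * b) m)) := by
  rw [G_mul_all syG hb hm, Sym645.sy_mul_right l hb.ne_zero hm.ne_zero,
    Sym645.sy_mul_left (Sym645.prim_nm_mod hm), map_mul, map_mul]
  ring

lemma TG_inner {α : Eis → ℂ} (h : FS α) {b : Eis} (hb : IsPrim b) (l : Eis) :
    ∑' m : Eis, α m * (G (b * m) * conj (sy l (b * m))) =
      (G b * conj (sy l b)) * TG α (l * b) := by
  unfold TG
  rw [← tsum_mul_left]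
  refine tsum_congr fun m => ?_
  by_cases hm : α m = 0
  · rw [hm]; ring
  · rw [TG_term hb (h.prim m hm)]; ring

/-- **the split** behind rule (C) -/
theorem TG2_split {Bs : Finset Eis} (hBs : ∀ b ∈ Bs, IsPrim b) {α : Eis → ℂ} (h : FS α)
    (β : Eis → ℂ) (l : Eis) :
    TG2 Bs β α l = ∑ b ∈ Bs, (β b * (G b * conj (sy l b))) * TG α (l * b) := by
  unfold TG2
  refine Finset.sum_congr rfl fun b hb => ?_
  rw [TG_inner h (hBs b hb)]; ring

lemma norm_sy_le' {k b : Eis} (hb : IsPrim b) : ‖sy k b‖ ≤ 1 :=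
  Sym645.norm_sy_le_one (Sym645.prim_nm_mod hb) k

lemma norm_Gsy_le {l b : Eis} (hb : IsPrim b) : ‖G b * conj (sy l b)‖ ≤ 1 := by
  rw [norm_mul, RCLike.norm_conj]
  calc ‖G b‖ * ‖sy l b‖ ≤ 1 * 1 :=
        mul_le_mul (norm_G_le syG hb) (norm_sy_le' hb) (norm_nonneg _) zero_le_one
    _ = 1 := one_mul _

/-- Cauchy's inequality in the form used here -/
lemma cauchy {ι : Type*} (s : Finset ι) (x y : ι → ℂ) :
    ‖∑ i ∈ s, x i * y i‖ ^ 2 ≤ (∑ i ∈ s, ‖x i‖ ^ 2) * ∑ i ∈ s, ‖y i‖ ^ 2 := by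
  calc ‖∑ i ∈ s, x i * y i‖ ^ 2 ≤ (∑ i ∈ s, ‖x i‖ * ‖y i‖) ^ 2 := by
        refine pow_le_pow_left₀ (norm_nonneg _) ?_ 2
        refine (norm_sum_le _ _).trans (le_of_eq ?_)
        exact Finset.sum_congr rfl fun i _ => norm_mul _ _
    _ ≤ _ := Finset.sum_mul_sq_le_sq_mul_sq s _ _

/-- **rule (C)** (Gauss side, arbitrary sequences) -/
theorem ruleC {B L : ℝ} (hB : 0 ≤ B) (hL : 0 ≤ L) {Bs : Finset Eis}
    (hBs : ∀ b ∈ Bs, IsPrim b ∧ (nm b : ℝ) ≤ B) (β : Eis → ℂ) {α : Eis → ℂ} (h : FS α) :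
    ∑ l ∈ bl L, ‖TG2 Bs β α l‖ ^ 2 ≤
      (∑ b ∈ Bs, ‖β b‖ ^ 2) * ∑ r ∈ bl (L * B), (tau r : ℝ) * ‖TG α r‖ ^ 2 := by
  calc ∑ l ∈ bl L, ‖TG2 Bs β α l‖ ^ 2
      ≤ ∑ l ∈ bl L, (∑ b ∈ Bs, ‖β b‖ ^ 2) * ∑ b ∈ Bs, ‖TG α (l * b)‖ ^ 2 := by
        refine Finset.sum_le_sum fun l _ => ?_
        rw [TG2_split (fun b hb => (hBs b hb).1) h]
        refine (cauchy Bs _ _).trans ?_
        refine mul_le_mul_of_nonneg_right ?_ (Finset.sum_nonneg fun _ _ => by positivity)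
        refine Finset.sum_le_sum fun b hb => ?_
        refine pow_le_pow_left₀ (norm_nonneg _) ?_ 2
        rw [norm_mul]
        exact mul_le_of_le_one_right (norm_nonneg _) (norm_Gsy_le (hBs b hb).1)
    _ = (∑ b ∈ Bs, ‖β b‖ ^ 2) * ∑ b ∈ Bs, ∑ l ∈ bl L, ‖TG α (l * b)‖ ^ 2 := by
        rw [← Finset.mul_sum, Finset.sum_comm]
    _ ≤ _ := by
        refine mul_le_mul_of_nonneg_left ?_ (Finset.sum_nonneg fun _ _ => by positivity)
        exact merge hB hL hBs (fun r => ‖TG α r‖ ^ 2) fun r => by positivity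

/-- rule (C) with `b`-dependent inner sequences (no merging) -/
theorem ruleC' {L : ℝ} {Bs : Finset Eis} (hBs : ∀ b ∈ Bs, IsPrim b) (β : Eis → ℂ)
    {α : Eis → Eis → ℂ} (h : ∀ b ∈ Bs, FS (α b)) :
    ∑ l ∈ bl L, ‖∑ b ∈ Bs, β b * ∑' m : Eis, α b m * (G (b * m) * conj (sy l (b * m)))‖ ^ 2 ≤
      (∑ b ∈ Bs, ‖β b‖ ^ 2) * ∑ b ∈ Bs, ∑ l ∈ bl L, ‖TG (α b) (l * b)‖ ^ 2 := by
  calc ∑ l ∈ bl L, ‖∑ b ∈ Bs, β b * ∑' m : Eis, α b m * (G (b * m) * conj (sy l (b * m)))‖ ^ 2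
      ≤ ∑ l ∈ bl L, (∑ b ∈ Bs, ‖β b‖ ^ 2) * ∑ b ∈ Bs, ‖TG (α b) (l * b)‖ ^ 2 := by
        refine Finset.sum_le_sum fun l _ => ?_
        have e : ∑ b ∈ Bs, β b * ∑' m : Eis, α b m * (G (b * m) * conj (sy l (b * m))) =
            ∑ b ∈ Bs, (β b * (G b * conj (sy l b))) * TG (α b) (l * b) := by
          refine Finset.sum_congr rfl fun b hb => ?_
          rw [TG_inner (h b hb) (hBs b hb)]; ring
        rw [e]
        refine (cauchy Bs _ _).trans ?_
        refine mul_le_mul_of_nonneg_right ?_ (Finset.sum_nonneg fun _ _ => by positivity)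
        refine Finset.sum_le_sum fun b hb => ?_
        refine pow_le_pow_left₀ (norm_nonneg _) ?_ 2
        rw [norm_mul]
        exact mul_le_of_le_one_right (norm_nonneg _) (norm_Gsy_le (hBs b hb))
    _ = _ := by rw [← Finset.mul_sum, Finset.sum_comm]

/-! ### monotonicity by prime cubes -/

lemma tsum_mult {p : Eis} (hp : p ≠ 0) (f : Eis → ℂ) :
    ∑' m : Eis, f (p * m) = ∑' m : Eis, (open Classical in if p ∣ m then f m else 0) := by
  classical
  have hinj : Function.Injective (fun m : Eis => p * m) := fun x y hxy => mul_left_cancel₀ hp hxy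
  have hsupp : Function.support (fun m : Eis => if p ∣ m then f m else 0) ⊆
      Set.range (fun m : Eis => p * m) := by
    intro m hm
    by_contra hnot
    apply hm
    have : ¬ p ∣ m := fun ⟨c, hc⟩ => hnot ⟨c, hc.symm⟩
    simp only [if_neg this]
  have h := hinj.tsum_eq hsupp
  rw [← h]
  refine tsum_congr fun m => ?_
  rw [if_pos (dvd_mul_right p m)]

lemma sy_mul_cube {l p m : Eis} (hpp : Prime p) (hm : IsPrim m) :
    sy (l * p ^ 3) m = (open Classical in if p ∣ m then 0 else sy l m) := by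
  classical
  have hn := Sym645.prim_nm_mod hm
  rw [Sym645.sy_mul_left hn, Sym645.sy_pow_left hn]
  by_cases hd : p ∣ m
  · rw [if_pos hd]
    have h0 : sy p m = 0 := by
      rw [Sym645.sy_eq_zero_iff hn]
      intro hc
      exact hpp.not_isUnit (hc.isUnit_of_dvd' dvd_rfl hd)
    rw [h0]; simp
  · rw [if_neg hd]
    have hc : IsCoprime p m := (hpp.irreducible.coprime_iff_not_dvd).mpr hd
    rw [Sym645.sy_cube hn hc, mul_one]

/-- **the split** behind monotonicity, Gauss side -/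
theorem TG_split {α : Eis → ℂ} (h : FS α) {p : Eis} (hp : IsPrim p) (hpp : Prime p) (l : Eis) :
    TG α l = TG α (l * p ^ 3) + (G p * conj (sy l p)) * TG (sub α p) (l * p) := by
  classical
  have h1 : (G p * conj (sy l p)) * TG (sub α p) (l * p) =
      ∑' m : Eis, (if p ∣ m then α m * (G m * conj (sy l m)) else 0) := by
    rw [← tsum_mult hpp.ne_zero (fun m => α m * (G m * conj (sy l m))),
      ← TG_inner (h.sub hp) hp l]
    rfl
  rw [h1]
  unfold TG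
  rw [← Summable.tsum_add (h.summable _)]
  · refine tsum_congr fun m => ?_
    by_cases hm : α m = 0
    · rw [hm]; simp
    · rw [sy_mul_cube hpp (h.prim m hm)]
      split_ifs with hd
      · simp
      · simp
  · refine summable_of_hasFiniteSupport (h.fin.subset ?_)
    intro m hm h0
    apply hm
    have h0' : α m = 0 := h0
    simp [h0']

/-- the split behind monotonicity, character side -/
theorem CS_split {α : Eis → ℂ} (h : FS α) {p : Eis} (hp : IsPrim p) (hpp : Prime p) (l : Eis) :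
    CS α l = CS α (l * p ^ 3) + sy l p * CS (sub α p) l := by
  classical
  have h1 : sy l p * CS (sub α p) l =
      ∑' m : Eis, (if p ∣ m then α m * sy l m else 0) := by
    rw [← tsum_mult hpp.ne_zero (fun m => α m * sy l m)]
    unfold CS
    rw [← tsum_mul_left]
    refine tsum_congr fun m => ?_
    unfold sub
    by_cases hm : α (p * m) = 0
    · rw [hm]; ring
    · have hm' : IsPrim m := (h.prim _ hm).of_mul_left hp
      rw [Sym645.sy_mul_right l hp.ne_zero hm'.ne_zero]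
      ring
  rw [h1]
  unfold CS
  rw [← Summable.tsum_add (h.summable _)]
  · refine tsum_congr fun m => ?_
    by_cases hm : α m = 0
    · rw [hm]; simp
    · rw [sy_mul_cube hpp (h.prim m hm)]
      split_ifs with hd
      · simp
      · simp
  · refine summable_of_hasFiniteSupport (h.fin.subset ?_)
    intro m hm h0
    apply hm
    have h0' : α m = 0 := h0
    simp [h0']

lemma sq_add_le (x y : ℂ) : ‖x + y‖ ^ 2 ≤ 2 * ‖x‖ ^ 2 + 2 * ‖y‖ ^ 2 := by
  have h1 : ‖x + y‖ ^ 2 ≤ (‖x‖ + ‖y‖) ^ 2 :=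
    pow_le_pow_left₀ (norm_nonneg _) (norm_add_le x y) 2
  nlinarith [sq_nonneg (‖x‖ - ‖y‖)]

/-- merging of prime cubes -/
theorem merge_cube {P L : ℝ} (hP : 0 ≤ P) (hL : 0 ≤ L) {Ps : Finset Eis}
    (hPs : ∀ p ∈ Ps, IsPrim p ∧ (nm p : ℝ) ≤ P) (F : Eis → ℝ) (hF : ∀ r, 0 ≤ F r) :
    ∑ p ∈ Ps, ∑ l ∈ bl L, F (l * p ^ 3) ≤ ∑ r ∈ bl (L * P ^ 3), (tau r : ℝ) * F r := by
  classical
  rw [← Finset.sum_product' Ps (bl L) (fun p l => F (l * p ^ 3))]
  have hLP : 0 ≤ L * P ^ 3 := by positivity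
  have hmaps : ∀ x ∈ Ps ×ˢ bl L, x.2 * x.1 ^ 3 ∈ bl (L * P ^ 3) := by
    intro x hx
    rw [Finset.mem_product, mem_bl hL] at hx
    rw [mem_bl hLP]
    refine ⟨mul_ne_zero hx.2.1 (pow_ne_zero 3 (hPs _ hx.1).1.ne_zero), ?_⟩
    rw [nm_mul, nm_pow]
    push_cast
    exact mul_le_mul hx.2.2 (pow_le_pow_left₀ (Nat.cast_nonneg _) (hPs _ hx.1).2 3)
      (by positivity) hL
  rw [← Finset.sum_fiberwise_of_maps_to hmaps]
  refine Finset.sum_le_sum fun r hr => ?_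
  have hr0 : r ≠ 0 := ((mem_bl hLP).mp hr).1
  rw [Finset.sum_congr rfl (g := fun _ => F r) (fun x hx => by
    rw [(Finset.mem_filter.mp hx).2]), Finset.sum_const, nsmul_eq_mul]
  refine mul_le_mul_of_nonneg_right ?_ (hF r)
  unfold tau
  norm_cast
  refine Finset.card_le_card_of_injOn (fun x => x.1) ?_ ?_
  · intro x hx
    have hx' := Finset.mem_filter.mp (Finset.mem_coe.mp hx)
    rw [Finset.mem_coe, mem_dvs hr0]
    refine ⟨(hPs _ (Finset.mem_product.mp hx'.1).1).1, ?_⟩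
    refine dvd_trans (dvd_pow_self x.1 (by norm_num : (3 : ℕ) ≠ 0)) ⟨x.2, ?_⟩
    rw [← hx'.2, mul_comm]
  · intro x hx y hy hxy
    have hx' := Finset.mem_filter.mp (Finset.mem_coe.mp hx)
    have hy' := Finset.mem_filter.mp (Finset.mem_coe.mp hy)
    have hxy' : x.1 = y.1 := hxy
    have h0 : x.1 ^ 3 ≠ 0 := pow_ne_zero 3 (hPs _ (Finset.mem_product.mp hx'.1).1).1.ne_zero
    have h2 : x.2 = y.2 := by
      apply mul_right_cancel₀ h0
      rw [hx'.2, hxy', hy'.2]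
    exact Prod.ext hxy' h2

/-- **monotonicity, Gauss side** -/
theorem monoG {P L : ℝ} (hP : 0 ≤ P) (hL : 0 ≤ L) {Ps : Finset Eis}
    (hPs : ∀ p ∈ Ps, IsPrim p ∧ (nm p : ℝ) ≤ P) (hpr : ∀ p ∈ Ps, Prime p)
    {α : Eis → ℂ} (h : FS α) :
    (Ps.card : ℝ) * ∑ l ∈ bl L, ‖TG α l‖ ^ 2 ≤
      2 * ∑ r ∈ bl (L * P ^ 3), (tau r : ℝ) * ‖TG α r‖ ^ 2 +
      2 * ∑ p ∈ Ps, ∑ l ∈ bl L, ‖TG (sub α p) (l * p)‖ ^ 2 := by
  calc (Ps.card : ℝ) * ∑ l ∈ bl L, ‖TG α l‖ ^ 2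
      = ∑ p ∈ Ps, ∑ l ∈ bl L, ‖TG α l‖ ^ 2 := by rw [Finset.sum_const, nsmul_eq_mul]
    _ ≤ ∑ p ∈ Ps, ∑ l ∈ bl L, (2 * ‖TG α (l * p ^ 3)‖ ^ 2 +
        2 * ‖TG (sub α p) (l * p)‖ ^ 2) := by
        refine Finset.sum_le_sum fun p hp => Finset.sum_le_sum fun l _ => ?_
        rw [TG_split h (hPs p hp).1 (hpr p hp) l]
        refine (sq_add_le _ _).trans ?_
        have h1 : ‖G p * conj (sy l p) * TG (sub α p) (l * p)‖ ^ 2 ≤
            ‖TG (sub α p) (l * p)‖ ^ 2 := by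
          refine pow_le_pow_left₀ (norm_nonneg _) ?_ 2
          rw [norm_mul]
          exact mul_le_of_le_one_left (norm_nonneg _) (norm_Gsy_le (hPs p hp).1)
        linarith
    _ = 2 * ∑ p ∈ Ps, ∑ l ∈ bl L, ‖TG α (l * p ^ 3)‖ ^ 2 +
        2 * ∑ p ∈ Ps, ∑ l ∈ bl L, ‖TG (sub α p) (l * p)‖ ^ 2 := by
        simp only [Finset.sum_add_distrib, Finset.mul_sum]
    _ ≤ _ := by
        have := merge_cube hP hL hPs (fun r => ‖TG α r‖ ^ 2) (fun r => by positivity)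
        linarith

/-- **monotonicity, character side** -/
theorem monoC {P L : ℝ} (hP : 0 ≤ P) (hL : 0 ≤ L) {Ps : Finset Eis}
    (hPs : ∀ p ∈ Ps, IsPrim p ∧ (nm p : ℝ) ≤ P) (hpr : ∀ p ∈ Ps, Prime p)
    {α : Eis → ℂ} (h : FS α) :
    (Ps.card : ℝ) * ∑ l ∈ bl L, ‖CS α l‖ ^ 2 ≤
      2 * ∑ r ∈ bl (L * P ^ 3), (tau r : ℝ) * ‖CS α r‖ ^ 2 +
      2 * ∑ p ∈ Ps, ∑ l ∈ bl L, ‖CS (sub α p) l‖ ^ 2 := by
  calc (Ps.card : ℝ) * ∑ l ∈ bl L, ‖CS α l‖ ^ 2
      = ∑ p ∈ Ps, ∑ l ∈ bl L, ‖CS α l‖ ^ 2 := by rw [Finset.sum_const, nsmul_eq_mul]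
    _ ≤ ∑ p ∈ Ps, ∑ l ∈ bl L, (2 * ‖CS α (l * p ^ 3)‖ ^ 2 +
        2 * ‖CS (sub α p) l‖ ^ 2) := by
        refine Finset.sum_le_sum fun p hp => Finset.sum_le_sum fun l _ => ?_
        rw [CS_split h (hPs p hp).1 (hpr p hp) l]
        refine (sq_add_le _ _).trans ?_
        have h1 : ‖sy l p * CS (sub α p) l‖ ^ 2 ≤ ‖CS (sub α p) l‖ ^ 2 := by
          refine pow_le_pow_left₀ (norm_nonneg _) ?_ 2
          rw [norm_mul]
          exact mul_le_of_le_one_left (norm_nonneg _) (norm_sy_le' (hPs p hp).1)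
        linarith
    _ = 2 * ∑ p ∈ Ps, ∑ l ∈ bl L, ‖CS α (l * p ^ 3)‖ ^ 2 +
        2 * ∑ p ∈ Ps, ∑ l ∈ bl L, ‖CS (sub α p) l‖ ^ 2 := by
        simp only [Finset.sum_add_distrib, Finset.mul_sum]
    _ ≤ _ := by
        have := merge_cube hP hL hPs (fun r => ‖CS α r‖ ^ 2) (fun r => by positivity)
        linarith

end Crest.Agent.R017.CM106
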