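import Crest.Agent.R017.Two7_939
import Crest.Agent.R017.CM1_106

/-!
# Row 17, side-level rule (P): definitions (helper320)

* `conv a b` : Dirichlet convolution over the primary elements
* `sq q w`   : restriction to the squarefree primary elements prime to `q`
* `w2 h χ l Z1 Z2 t1 t2` : the two-piece sequence
* `VC K α = ∑ k ∈ bl K, ‖CS α k‖ ^ 2`, `VG L α = ∑ k ∈ bl L, ‖TG α k‖ ^ 2`
-/

set_option autoImplicit false

noncomputable section

open Complex
open scoped ComplexConjugate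

namespace Crest.Agent.R017.TP320

open Crest.Agent.R012 Crest.Agent.R012.Eis Crest.Agent.R012.LS2 Crest.Agent.R012.Gauss880
open Crest.Agent.R012.Div277
open Crest.Agent.R017.Two939 (cfa)
open Crest.Agent.R017.CM106 (CS TG FS)

/-- Dirichlet convolution over the primary elements -/
def conv (a b : Eis → ℂ) (n : Eis) : ℂ := ∑ d ∈ dvs n, a d * b (n / d)

open Classical in
/-- squarefree primary elements prime to `q` -/
def sq (q : Eis) (w : Eis → ℂ) (n : Eis) : ℂ :=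
  if IsPrim n ∧ Squarefree n ∧ IsCoprime n q then w n else 0

/-- the two-piece sequence -/
def w2 (h : ℝ → ℝ) (χ : Eis → ℂ) (l : ℤ) (Z1 Z2 t1 t2 : ℝ) : Eis → ℂ :=
  conv (cfa h χ l Z1 t1) (cfa h χ l Z2 t2)

/-- second moment on the character side -/
def VC (K : ℝ) (α : Eis → ℂ) : ℝ := ∑ k ∈ bl K, ‖CS α k‖ ^ 2

/-- second moment on the Gauss side -/
def VG (L : ℝ) (α : Eis → ℂ) : ℝ := ∑ k ∈ bl L, ‖TG α k‖ ^ 2

lemma VC_nonneg (K : ℝ) (α : Eis → ℂ) : 0 ≤ VC K α := Finset.sum_nonneg fun _ _ => by positivity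

lemma VG_nonneg (K : ℝ) (α : Eis → ℂ) : 0 ≤ VG K α := Finset.sum_nonneg fun _ _ => by positivity

lemma bl_mono {K L : ℝ} (hK : 0 ≤ K) (h : K ≤ L) : bl K ⊆ bl L := by
  intro k hk
  rw [mem_bl hK] at hk
  rw [mem_bl (hK.trans h)]
  exact ⟨hk.1, hk.2.trans h⟩

lemma VC_mono {K L : ℝ} (hK : 0 ≤ K) (h : K ≤ L) (α : Eis → ℂ) : VC K α ≤ VC L α :=
  Finset.sum_le_sum_of_subset_of_nonneg (bl_mono hK h) fun _ _ _ => by positivity

lemma VG_mono {K L : ℝ} (hK : 0 ≤ K) (h : K ≤ L) (α : Eis → ℂ) : VG K α ≤ VG L α :=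
  Finset.sum_le_sum_of_subset_of_nonneg (bl_mono hK h) fun _ _ _ => by positivity

/-- primary quotient -/
lemma mul_div_of_mem {n d : Eis} (hd : d ∈ dvs n) : d * (n / d) = n :=
  EuclideanDomain.mul_div_cancel' (isPrim_of_mem_dvs hd).ne_zero (dvd_of_mem_dvs hd)

lemma mul_div_left' {d m : Eis} (hd : d ≠ 0) : d * m / d = m :=
  mul_div_cancel_left₀ m hd

/-- the convolution as a sum over pairs -/
lemma conv_eq {a b : Eis → ℂ} (ha : ∀ x, a x ≠ 0 → IsPrim x)
    {A B : Finset Eis} (hA : ∀ x, a x ≠ 0 → x ∈ A) (hB : ∀ x, b x ≠ 0 → x ∈ B) {n : Eis}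
    (hn : n ≠ 0) [DecidablePred fun p : Eis × Eis => p.1 * p.2 = n] :
    conv a b n = ∑ p ∈ (A ×ˢ B).filter (fun p => p.1 * p.2 = n), a p.1 * b p.2 := by
  classical
  have e1 : ∑ p ∈ (A ×ˢ B).filter (fun p => p.1 * p.2 = n), a p.1 * b p.2 =
      ∑ p ∈ ((A ×ˢ B).filter (fun p => p.1 * p.2 = n)).filter (fun p => IsPrim p.1),
        a p.1 * b p.2 := by
    symm
    apply Finset.sum_filter_of_ne
    intro p _ h
    exact ha _ (left_ne_zero_of_mul h)
  rw [e1]
  unfold conv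
  symm
  apply Finset.sum_of_injOn (fun p => p.1)
  · intro p hp q hq hpq
    simp only [Finset.coe_filter, Finset.mem_filter, Set.mem_setOf_eq] at hp hq
    have h1 : p.1 = q.1 := hpq
    have h2 : p.2 = q.2 := by
      apply mul_left_cancel₀ hp.2.ne_zero
      rw [hp.1.2, h1, hq.1.2]
    exact Prod.ext h1 h2
  · intro p hp
    simp only [Finset.coe_filter, Finset.mem_filter, Set.mem_setOf_eq] at hp
    rw [Finset.mem_coe, mem_dvs hn]
    exact ⟨hp.2, ⟨p.2, hp.1.2.symm⟩⟩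
  · intro d hd hd'
    by_contra h0
    apply hd'
    have h1 := left_ne_zero_of_mul h0
    have h2 := right_ne_zero_of_mul h0
    refine ⟨(d, n / d), ?_, rfl⟩
    simp only [Finset.coe_filter, Finset.mem_filter, Set.mem_setOf_eq, Finset.mem_product]
    exact ⟨⟨⟨hA _ h1, hB _ h2⟩, mul_div_of_mem hd⟩, ha _ h1⟩
  · intro p hp
    simp only [Finset.mem_filter] at hp
    rw [← hp.1.2, mul_div_left' hp.2.ne_zero]

/-- sums against a convolution -/
lemma sum_conv {E : Type*} [AddCommGroup E] [Module ℂ E] {a b : Eis → ℂ}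
    (ha : ∀ x, a x ≠ 0 → IsPrim x) (hb : ∀ x, b x ≠ 0 → IsPrim x)
    {A B N : Finset Eis} (hA : ∀ x, a x ≠ 0 → x ∈ A) (hB : ∀ x, b x ≠ 0 → x ∈ B)
    (hN : ∀ x ∈ A, ∀ y ∈ B, a x ≠ 0 → b y ≠ 0 → x * y ∈ N) (f : Eis → E) :
    ∑ n ∈ N, conv a b n • f n = ∑ p ∈ A ×ˢ B, (a p.1 * b p.2) • f (p.1 * p.2) := by
  classical
  have e1 : ∀ n ∈ N, conv a b n • f n =
      ∑ p ∈ (A ×ˢ B).filter (fun p => p.1 * p.2 = n), (a p.1 * b p.2) • f (p.1 * p.2) := by
    intro n _
    by_cases hn : n = 0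
    · subst hn
      unfold conv
      rw [dvs_zero, Finset.sum_empty, zero_smul]
      symm
      apply Finset.sum_eq_zero
      intro p hp
      rw [Finset.mem_filter] at hp
      by_cases h0 : a p.1 * b p.2 = 0
      · rw [h0, zero_smul]
      · exfalso
        have h1 := (ha _ (left_ne_zero_of_mul h0)).ne_zero
        have h2 := (hb _ (right_ne_zero_of_mul h0)).ne_zero
        exact mul_ne_zero h1 h2 hp.2
    · rw [conv_eq ha hA hB hn, Finset.sum_smul]
      refine Finset.sum_congr rfl fun p hp => ?_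
      rw [(Finset.mem_filter.1 hp).2]
  rw [Finset.sum_congr rfl e1]
  have e2 : ∑ p ∈ A ×ˢ B, (a p.1 * b p.2) • f (p.1 * p.2) =
      ∑ p ∈ (A ×ˢ B).filter (fun p => p.1 * p.2 ∈ N), (a p.1 * b p.2) • f (p.1 * p.2) := by
    symm
    apply Finset.sum_filter_of_ne
    intro p hp h0
    have h1 : a p.1 * b p.2 ≠ 0 := fun h => h0 (by rw [h, zero_smul])
    rw [Finset.mem_product] at hp
    exact hN _ hp.1 _ hp.2 (left_ne_zero_of_mul h1) (right_ne_zero_of_mul h1)
  rw [e2]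
  have e3 : ∑ p ∈ (A ×ˢ B).filter (fun p => p.1 * p.2 ∈ N), (a p.1 * b p.2) • f (p.1 * p.2) =
      ∑ n ∈ N, ∑ p ∈ ((A ×ˢ B).filter (fun p => p.1 * p.2 ∈ N)).filter (fun p => p.1 * p.2 = n),
        (a p.1 * b p.2) • f (p.1 * p.2) := by
    symm
    apply Finset.sum_fiberwise_of_maps_to
    intro p hp
    exact (Finset.mem_filter.1 hp).2
  rw [e3]
  refine Finset.sum_congr rfl fun n hn => ?_
  apply Finset.sum_congr _ fun _ _ => rfl
  ext p
  simp only [Finset.mem_filter]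
  constructor
  · rintro ⟨h1, h2⟩
    exact ⟨⟨h1, by rw [h2]; exact hn⟩, h2⟩
  · rintro ⟨⟨h1, _⟩, h2⟩
    exact ⟨h1, h2⟩

/-- sums against a convolution, `tsum` form -/
lemma tsum_conv {a b : Eis → ℂ} (ha : FS a) (hb : FS b) (f : Eis → ℂ) :
    ∑' n, conv a b n * f n = ∑' p : Eis × Eis, a p.1 * b p.2 * f (p.1 * p.2) := by
  classical
  set A := ha.fin.toFinset
  set B := hb.fin.toFinset
  have hA : ∀ x, a x ≠ 0 → x ∈ A := fun x hx => ha.fin.mem_toFinset.2 hx
  have hB : ∀ x, b x ≠ 0 → x ∈ B := fun x hx => hb.fin.mem_toFinset.2 hx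
  set N := (A ×ˢ B).image (fun p => p.1 * p.2)
  have h1 : ∑' n, conv a b n * f n = ∑ n ∈ N, conv a b n * f n := by
    apply tsum_eq_sum
    intro n hn
    by_cases hn0 : n = 0
    · subst hn0
      unfold conv
      rw [dvs_zero, Finset.sum_empty, zero_mul]
    · rw [conv_eq ha.prim hA hB hn0]
      have : (A ×ˢ B).filter (fun p => p.1 * p.2 = n) = ∅ := by
        rw [Finset.filter_eq_empty_iff]
        intro p hp hpn
        exact hn (Finset.mem_image.2 ⟨p, hp, hpn⟩)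
      rw [this, Finset.sum_empty, zero_mul]
  have h2 : ∑' p : Eis × Eis, a p.1 * b p.2 * f (p.1 * p.2) =
      ∑ p ∈ A ×ˢ B, a p.1 * b p.2 * f (p.1 * p.2) := by
    apply tsum_eq_sum
    intro p hp
    by_contra h0
    apply hp
    rw [Finset.mem_product]
    have h3 := left_ne_zero_of_mul h0
    exact ⟨hA _ (left_ne_zero_of_mul h3), hB _ (right_ne_zero_of_mul h3)⟩
  rw [h1, h2]
  have := sum_conv (E := ℂ) ha.prim hb.prim hA hB (N := N)
    (fun x hx y hy _ _ => Finset.mem_image.2 ⟨(x, y), Finset.mem_product.2 ⟨hx, hy⟩, rfl⟩) f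
  simpa only [smul_eq_mul] using this

end Crest.Agent.R017.TP320
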