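import Crest.Agent.R017.HP3_842
import Crest.Agent.R017.TPDefs_320

/-!
# Row 17, sides: sides given by lists of pieces (helper842)

* `alL h ps` : iterated Dirichlet convolution of the pieces of a list
* `CS_alL` : `CS (alL h ps) k = ∏ CS (pc h p) k`
* `alL_perm`
* `alL_eq` : `alL h ps = al h (fun i => ps.get i)`
-/

set_option autoImplicit false
set_option linter.unusedSectionVars false
set_option linter.unusedVariables false
set_option maxHeartbeats 400000

noncomputable section

open Complex
open scoped ComplexConjugate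

namespace Crest.Agent.R017.HP842

open Crest.Agent.R012 Crest.Agent.R012.Eis Crest.Agent.R012.LS2 Crest.Agent.R012.Gauss880
open Crest.Agent.R012.Mob705
open Crest.Agent.R012.PSer47 (padiv mem_padiv IsChar)
open Crest.Agent.R012.Div277 (tau dvs mem_dvs tau_le_rpow)
open Crest.Agent.R017.CM106
open Crest.Agent.R017.TP320 (conv conv_eq tsum_conv mul_div_of_mem mul_div_left')

/-- the unit sequence -/
def dl (n : Eis) : ℂ := by
  classical exact if n = 1 then 1 else 0

/-- iterated convolution of a list of sequences -/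
def cvL : List (Eis → ℂ) → Eis → ℂ
  | [] => dl
  | f :: fs => conv f (cvL fs)

/-- the sequence of a side given by a list of pieces -/
def alL (h : ℝ → ℝ) (ps : List Pc) : Eis → ℂ := cvL (ps.map (pc h))

@[simp] lemma alL_nil (h : ℝ → ℝ) : alL h [] = dl := rfl

lemma alL_cons (h : ℝ → ℝ) (p : Pc) (ps : List Pc) : alL h (p :: ps) = conv (pc h p) (alL h ps) :=
  rfl

lemma dl_one : dl 1 = 1 := by unfold dl; rw [if_pos rfl]

lemma dl_ne {n : Eis} (h : n ≠ 1) : dl n = 0 := by unfold dl; rw [if_neg h]

lemma FS_dl : FS dl where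
  fin := (Set.finite_singleton (1 : Eis)).subset fun n hn => by
    by_contra h
    exact hn (dl_ne h)
  prim := fun m hm => by
    by_cases h : m = 1
    · rw [h]; exact isPrim_one
    · exact absurd (dl_ne h) hm

lemma FS_conv {a b : Eis → ℂ} (ha : FS a) (hb : FS b) : FS (conv a b) where
  fin := by
    classical
    refine (Set.Finite.image2 (fun x y => x * y) ha.fin hb.fin).subset ?_
    intro n hn
    have hn' : conv a b n ≠ 0 := hn
    unfold TP320.conv at hn'
    obtain ⟨d, hd, h0⟩ := Finset.exists_ne_zero_of_sum_ne_zero hn'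
    exact ⟨d, left_ne_zero_of_mul h0, n / d, right_ne_zero_of_mul h0, mul_div_of_mem hd⟩
  prim := fun n hn => by
    unfold TP320.conv at hn
    obtain ⟨d, hd, h0⟩ := Finset.exists_ne_zero_of_sum_ne_zero hn
    rw [← mul_div_of_mem hd]
    exact (ha.prim _ (left_ne_zero_of_mul h0)).mul (hb.prim _ (right_ne_zero_of_mul h0))

lemma FS_cvL {fs : List (Eis → ℂ)} (h : ∀ f ∈ fs, FS f) : FS (cvL fs) := by
  induction fs with
  | nil => exact FS_dl
  | cons f fs ih =>
    exact FS_conv (h f List.mem_cons_self) (ih fun g hg => h g (List.mem_cons_of_mem _ hg))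

/-- sums of completely multiplicative functions over a convolution -/
lemma tsum_conv_mul {a b : Eis → ℂ} (ha : FS a) (hb : FS b) {F : Eis → ℂ}
    (hF : ∀ x y, IsPrim x → IsPrim y → F (x * y) = F x * F y) :
    ∑' n, conv a b n * F n = (∑' n, a n * F n) * ∑' n, b n * F n := by
  classical
  rw [tsum_conv ha hb]
  have e1 : ∑' p : Eis × Eis, a p.1 * b p.2 * F (p.1 * p.2) =
      ∑ p ∈ ha.fin.toFinset ×ˢ hb.fin.toFinset, (a p.1 * F p.1) * (b p.2 * F p.2) := by
    have h1 : ∀ p : Eis × Eis, p ∉ ha.fin.toFinset ×ˢ hb.fin.toFinset →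
        a p.1 * b p.2 * F (p.1 * p.2) = 0 := by
      intro p hp
      rw [Finset.mem_product, not_and_or] at hp
      rcases hp with hp | hp
      · have : a p.1 = 0 := by
          by_contra h0
          exact hp (ha.fin.mem_toFinset.2 h0)
        rw [this]; ring
      · have : b p.2 = 0 := by
          by_contra h0
          exact hp (hb.fin.mem_toFinset.2 h0)
        rw [this]; ring
    rw [tsum_eq_sum (s := ha.fin.toFinset ×ˢ hb.fin.toFinset) fun p hp => h1 p hp]
    refine Finset.sum_congr rfl fun p hp => ?_
    by_cases h0 : a p.1 * b p.2 = 0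
    · rw [h0, zero_mul]
      rcases mul_eq_zero.1 h0 with h | h <;> rw [h] <;> ring
    · rw [hF _ _ (ha.prim _ (left_ne_zero_of_mul h0)) (hb.prim _ (right_ne_zero_of_mul h0))]
      ring
  rw [e1, Finset.sum_product, tsum_eq_sum (s := ha.fin.toFinset), tsum_eq_sum (s := hb.fin.toFinset),
    Finset.sum_mul_sum]
  · intro n hn
    have : b n = 0 := by
      by_contra h0
      exact hn (hb.fin.mem_toFinset.2 h0)
    rw [this, zero_mul]
  · intro n hn
    have : a n = 0 := by
      by_contra h0
      exact hn (ha.fin.mem_toFinset.2 h0)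
    rw [this, zero_mul]

lemma CS_conv {a b : Eis → ℂ} (ha : FS a) (hb : FS b) (k : Eis) :
    CS (conv a b) k = CS a k * CS b k := by
  unfold CS
  exact tsum_conv_mul ha hb fun x y hx hy => Sym645.syFacts.mul_right _ _ _ hx hy

lemma CS_dl (k : Eis) : CS dl k = 1 := by
  unfold CS
  rw [tsum_eq_single 1 fun n hn => by rw [dl_ne hn, zero_mul], dl_one, Sym645.sy_one_right, mul_one]

lemma CS_cvL {fs : List (Eis → ℂ)} (h : ∀ f ∈ fs, FS f) (k : Eis) :
    CS (cvL fs) k = (fs.map fun f => CS f k).prod := by
  induction fs with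
  | nil => exact CS_dl k
  | cons f fs ih =>
    have h2 := fun g hg => h g (List.mem_cons_of_mem _ hg)
    rw [List.map_cons, List.prod_cons, ← ih h2]
    exact CS_conv (h f List.mem_cons_self) (FS_cvL h2) k

/-- `cv` of a family and of the list of its members -/
lemma conv_cv {n : ℕ} (f : Fin (n + 1) → Eis → ℂ) :
    cv f = conv (f 0) (cv fun i : Fin n => f i.succ) := by
  classical
  funext b
  by_cases hb : IsPrim b
  · unfold cv TP320.conv
    have e1 : ∀ d ∈ dvs b, f 0 d * ∑ x ∈ Tu (Fin n) (b / d), ∏ i, f i.succ (x i) =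
        ∑ x ∈ (Tu (Fin (n + 1)) b).filter (fun x => x 0 = d), ∏ i, f i (x i) := by
      intro d hd
      have hdp := Div277.isPrim_of_mem_dvs hd
      have hdb := mul_div_of_mem hd
      rw [Finset.mul_sum]
      refine Finset.sum_bij (fun x _ => Fin.cons d x) ?_ ?_ ?_ ?_
      · intro x hx
        rw [mem_Tu] at hx
        rw [Finset.mem_filter, mem_Tu]
        refine ⟨⟨fun i => ?_, ?_⟩, by simp⟩
        · refine Fin.cases ?_ (fun j => ?_) i
          · simpa using hdp
          · simpa using hx.1 j
        · rw [Fin.prod_univ_succ]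
          simp only [Fin.cons_zero, Fin.cons_succ]
          rw [hx.2, hdb]
      · intro x _ y _ e
        funext i
        have := congrFun e i.succ
        simpa using this
      · intro y hy
        rw [Finset.mem_filter, mem_Tu] at hy
        refine ⟨fun i => y i.succ, ?_, ?_⟩
        · rw [mem_Tu]
          refine ⟨fun i => hy.1.1 _, ?_⟩
          have h1 := hy.1.2
          rw [Fin.prod_univ_succ, hy.2] at h1
          rw [← h1, mul_div_left' hdp.ne_zero]
        · funext i
          refine Fin.cases ?_ (fun j => ?_) i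
          · simp [hy.2]
          · simp
      · intro x _
        rw [Fin.prod_univ_succ]
        simp only [Fin.cons_zero, Fin.cons_succ]
    rw [Finset.sum_congr rfl e1]
    symm
    apply Finset.sum_fiberwise_of_maps_to
    intro x hx
    rw [mem_Tu] at hx
    rw [mem_dvs hb.ne_zero]
    refine ⟨hx.1 0, ?_⟩
    rw [← hx.2]
    exact Finset.dvd_prod_of_mem _ (Finset.mem_univ 0)
  · rw [cv_not_prim hb]
    unfold TP320.conv
    symm
    refine Finset.sum_eq_zero fun d hd => ?_
    rw [cv_not_prim, mul_zero]
    intro h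
    apply hb
    rw [← mul_div_of_mem hd]
    exact (Div277.isPrim_of_mem_dvs hd).mul h

lemma cv_zero (f : Fin 0 → Eis → ℂ) : cv f = dl := by
  classical
  funext b
  by_cases hb : b = 1
  · subst hb
    rw [dl_one]
    unfold cv
    have : Tu (Fin 0) 1 = {fun i => i.elim0} := by
      ext x
      rw [mem_Tu, Finset.mem_singleton]
      constructor
      · intro _
        funext i
        exact i.elim0
      · intro _
        exact ⟨fun i => i.elim0, by simp⟩
    rw [this]
    simp
  · rw [dl_ne hb]
    unfold cv
    refine Finset.sum_eq_zero fun x hx => ?_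
    rw [mem_Tu] at hx
    exfalso
    apply hb
    rw [← hx.2]
    simp

/-- **families and lists** -/
theorem cv_eq_cvL : ∀ {n : ℕ} (f : Fin n → Eis → ℂ), cv f = cvL (List.ofFn f) := by
  intro n
  induction n with
  | zero => intro f; rw [cv_zero]; rfl
  | succ n ih =>
    intro f
    rw [conv_cv, ih, List.ofFn_succ]
    rfl

/-- the list form is the family form -/
theorem alL_eq (h : ℝ → ℝ) (ps : List Pc) : alL h ps = al h (fun i : Fin ps.length => ps.get i) := by
  unfold alL al
  rw [cv_eq_cvL]
  congr 1
  conv_lhs => rw [← List.ofFn_get ps]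
  rw [List.map_ofFn]
  rfl

theorem al_eq (h : ℝ → ℝ) {n : ℕ} (s : Fin n → Pc) : al h s = alL h (List.ofFn s) := by
  unfold alL al
  rw [cv_eq_cvL, List.map_ofFn]
  rfl

end Crest.Agent.R017.HP842
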