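import Crest.Agent.R017.Prov_71
import Crest.Agent.R017.HPL_842
import Crest.Agent.R017.BoxDefs_271

/-!
# Row 17, provider: the literal instance (helper71)

* `Pq` : pieces of the provider, `Pq.pc P` : the typed piece of helper842, `Dq : Pcs Pq Kd`
* `CS_alL`, `alL_perm`
* `RQ Q h l ps`, `BQ Q h l ps`, `SK K h l ps` : the functionals (lists of typed pieces)
* `CubeFree k`
-/

set_option autoImplicit false

noncomputable section

open Complex
open scoped ComplexConjugate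

namespace Crest.Agent.R017.Prov71

open Crest.Agent.R012 Crest.Agent.R012.Eis Crest.Agent.R012.LS2 Crest.Agent.R012.Gauss880
open Crest.Agent.R012.PSer47 (IsChar ang_isChar)
open Crest.Agent.R012.Div277
open Crest.Agent.R017.CM106 Crest.Agent.R017.FE47 Crest.Agent.R017.End699
open Crest.Agent.R017.XG702 (Pcs BG)
open Crest.Agent.R017.ER911
open Crest.Agent.R017.B770
open Crest.Agent.R017.HP842 (UT Pc pc KS sqc Kg uv alL alL_nil alL_cons cvL dl)
open Crest.Agent.R017.TP320 (conv)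

/-- cube-free -/
def CubeFree (k : Eis) : Prop := k ≠ 0 ∧ ∀ p : Eis, Prime p → ¬ p ^ 3 ∣ k

/-- **pieces of the provider** -/
structure Pq where
  kd : Kd
  u : UT
  d : Eis
  d0 : d ≠ 0
  z : ℝ
  t : ℝ

/-- the character of a kind -/
def chK (P : DPar) : Kd → Eis → ℂ
  | .mo => fun b => P.ψ b * ang P.l₂ b
  | .am => fun b => conj (P.φ b * ang P.l₁ b)

/-- the typed piece -/
def Pq.pc (P : DPar) (p : Pq) : Pc := ⟨p.u, fun b => chK P p.kd b * prin0 p.d b, Real.exp p.z, p.t⟩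

@[simp] lemma Pq.pc_u (P : DPar) (p : Pq) : (p.pc P).u = p.u := rfl
@[simp] lemma Pq.pc_Y (P : DPar) (p : Pq) : (p.pc P).Y = Real.exp p.z := rfl
@[simp] lemma Pq.pc_t (P : DPar) (p : Pq) : (p.pc P).t = p.t := rfl
@[simp] lemma Pq.pc_ψ (P : DPar) (p : Pq) :
    (p.pc P).ψ = fun b => chK P p.kd b * prin0 p.d b := rfl

/-- **the piece data** -/
def Dq : Pcs Pq Kd where
  len p := p.z
  kind p := p.kd
  lump p := p.kd = .mo ∧ p.u = .one
  s1 p := 1 + |p.t|
  s2 p := nm p.d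

@[simp] lemma Dq_len (p : Pq) : Dq.len p = p.z := rfl
@[simp] lemma Dq_kind (p : Pq) : Dq.kind p = p.kd := rfl
@[simp] lemma Dq_lump (p : Pq) : Dq.lump p ↔ p.kd = .mo ∧ p.u = .one := Iff.rfl
@[simp] lemma Dq_s1 (p : Pq) : Dq.s1 p = 1 + |p.t| := rfl
@[simp] lemma Dq_s2 (p : Pq) : Dq.s2 p = nm p.d := rfl

/-! ### characters -/

lemma isChar_chK {P : DPar} (hP : P.OK) (k : Kd) : IsChar (chK P k) := by
  cases k with
  | mo => exact hP.ψ.char.mul' (ang_isChar P.l₂)
  | am => exact (hP.φ.char.mul' (ang_isChar P.l₁)).conj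

lemma Pq.ok {P : DPar} (hP : P.OK) (p : Pq) : (p.pc P).OK where
  ch := (isChar_chK hP p.kd).mul' (HP842.prin0_isChar p.d)
  Y0 := Real.exp_pos _

/-! ### the sequence of a list -/

/-- the standard hypothesis on the bump -/
def Bump (h : ℝ → ℝ) : Prop := ∃ R : ℝ, ∀ u, cx h u ≠ 0 → |u| ≤ R

lemma bump_of_cs {h : ℝ → ℝ} (hh : HasCompactSupport h) : Bump h := by
  obtain ⟨R, hR⟩ := hh.isCompact.isBounded.subset_closedBall 0
  refine ⟨R, fun u hu => ?_⟩
  have h1 : h u ≠ 0 := by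
    intro h0
    apply hu
    unfold cx
    rw [h0]; simp
  have h2 := hR (subset_tsupport _ h1)
  rw [Metric.mem_closedBall, dist_zero_right] at h2
  exact h2

lemma fs_pc {h : ℝ → ℝ} (hh : Bump h) {p : Pc} (hp : p.OK) : FS (pc h p) := by
  obtain ⟨R, hR⟩ := hh
  exact HP842.FS_pc hR hp

lemma fs_alL {h : ℝ → ℝ} (hh : Bump h) {ps : List Pc} (hp : ∀ p ∈ ps, p.OK) :
    FS (alL h ps) := by
  refine HP842.FS_cvL fun f hf => ?_
  obtain ⟨p, hp', rfl⟩ := List.mem_map.1 hf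
  exact fs_pc hh (hp p hp')

/-- **the character side is the product** -/
theorem CS_alL {h : ℝ → ℝ} (hh : Bump h) {ps : List Pc} (hp : ∀ p ∈ ps, p.OK) (k : Eis) :
    CS (alL h ps) k = (ps.map fun p => CS (pc h p) k).prod := by
  unfold HP842.alL
  rw [HP842.CS_cvL, List.map_map]
  · rfl
  · intro f hf
    obtain ⟨p, hp', rfl⟩ := List.mem_map.1 hf
    exact fs_pc hh (hp p hp')

/-- the convolution is left-commutative -/
lemma conv_left_comm (a b c : Eis → ℂ) : conv a (conv b c) = conv b (conv a c) := by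
  classical
  funext n
  by_cases hn : n = 0
  · subst hn; unfold conv; rw [dvs_zero, Finset.sum_empty, Finset.sum_empty]
  unfold conv
  have e : ∀ (a b : Eis → ℂ), ∑ d ∈ dvs n, a d * ∑ e ∈ dvs (n / d), b e * c (n / d / e) =
      ∑ d ∈ dvs n, ∑ e ∈ dvs (n / d), a d * b e * c (n / (d * e)) := by
    intro a b
    refine Finset.sum_congr rfl fun d hd => ?_
    rw [Finset.mul_sum]
    refine Finset.sum_congr rfl fun e he => ?_
    have hd0 := (isPrim_of_mem_dvs hd).ne_zero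
    have he0 := (isPrim_of_mem_dvs he).ne_zero
    have h1 := TP320.mul_div_of_mem hd
    have h2 := TP320.mul_div_of_mem he
    have h3 : n / (d * e) = n / d / e := by
      conv_lhs => rw [← h1, ← h2, ← mul_assoc]
      exact TP320.mul_div_left' (mul_ne_zero hd0 he0)
    rw [h3]; ring
  rw [e a b, e b a]
  rw [Finset.sum_comm' (s' := fun e => dvs (n / e)) (t' := dvs n)]
  · refine Finset.sum_congr rfl fun d _ => Finset.sum_congr rfl fun e _ => ?_
    rw [mul_comm e d]; ring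
  · intro d e
    constructor
    · rintro ⟨hd, he⟩
      have h1 := TP320.mul_div_of_mem hd
      have h2 := TP320.mul_div_of_mem he
      have pd := isPrim_of_mem_dvs hd
      have pe := isPrim_of_mem_dvs he
      have hn' : n = e * (d * (n / d / e)) := by
        conv_lhs => rw [← h1, ← h2]
        ring
      have h4 : n / e = d * (n / d / e) := by
        conv_lhs => rw [hn']
        exact TP320.mul_div_left' pe.ne_zero
      refine ⟨?_, ?_⟩
      · rw [mem_dvs (by rw [h4]; intro h0; rw [h0, mul_zero] at hn'; exact hn hn'), h4]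
        exact ⟨pd, dvd_mul_right _ _⟩
      · rw [mem_dvs hn]
        exact ⟨pe, Dvd.intro _ hn'.symm⟩
    · rintro ⟨hd, he⟩
      have h1 := TP320.mul_div_of_mem he
      have h2 := TP320.mul_div_of_mem hd
      have pd := isPrim_of_mem_dvs hd
      have pe := isPrim_of_mem_dvs he
      have hn' : n = d * (e * (n / e / d)) := by
        conv_lhs => rw [← h1, ← h2]
        ring
      have h4 : n / d = e * (n / e / d) := by
        conv_lhs => rw [hn']
        exact TP320.mul_div_left' pd.ne_zero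
      refine ⟨?_, ?_⟩
      · rw [mem_dvs hn]
        exact ⟨pd, Dvd.intro _ hn'.symm⟩
      · rw [mem_dvs (by rw [h4]; intro h0; rw [h0, mul_zero] at hn'; exact hn hn'), h4]
        exact ⟨pe, dvd_mul_right _ _⟩

/-- **permutation invariance** -/
theorem alL_perm (h : ℝ → ℝ) {ps qs : List Pc} (hp : ps.Perm qs) : alL h ps = alL h qs := by
  induction hp with
  | nil => rfl
  | cons p _ ih => rw [alL_cons, alL_cons, ih]
  | swap p q l => exact conv_left_comm _ _ _
  | trans _ _ ih1 ih2 => exact ih1.trans ih2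

/-! ### the functionals -/

open Classical in
/-- **second moment on the character side** over the `k` with `Q k` -/
def RQ (Q : Eis → Prop) (h : ℝ → ℝ) (l : ℝ) (ps : List Pc) : ℝ :=
  ∑ k ∈ (bl (Real.exp l)).filter Q, (ps.map fun p => ‖CS (pc h p) k‖ ^ 2).prod

open Classical in
/-- **first moment on the character side** over the `k` with `Q k` -/
def BQ (Q : Eis → Prop) (h : ℝ → ℝ) (l : ℝ) (ps : List Pc) : ℝ :=
  ∑ k ∈ (bl (Real.exp l)).filter Q, (ps.map fun p => ‖CS (pc h p) k‖).prod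

/-- **second moment on the Gauss side**, kernel `K` -/
def SK (K : Eis → Eis → ℂ) (h : ℝ → ℝ) (l : ℝ) (ps : List Pc) : ℝ :=
  ∑ x ∈ bl (Real.exp l), ‖KS K (sqc 1 (alL h ps)) x‖ ^ 2

lemma RQ_nonneg (Q : Eis → Prop) (h : ℝ → ℝ) (l : ℝ) (ps : List Pc) : 0 ≤ RQ Q h l ps := by
  classical
  refine Finset.sum_nonneg fun k _ => List.prod_nonneg ?_
  intro a ha
  obtain ⟨p, _, rfl⟩ := List.mem_map.1 ha
  positivity

lemma BQ_nonneg (Q : Eis → Prop) (h : ℝ → ℝ) (l : ℝ) (ps : List Pc) : 0 ≤ BQ Q h l ps := by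
  classical
  refine Finset.sum_nonneg fun k _ => List.prod_nonneg ?_
  intro a ha
  obtain ⟨p, _, rfl⟩ := List.mem_map.1 ha
  positivity

lemma SK_nonneg (K : Eis → Eis → ℂ) (h : ℝ → ℝ) (l : ℝ) (ps : List Pc) : 0 ≤ SK K h l ps :=
  Finset.sum_nonneg fun _ _ => by positivity

lemma RQ_eq {Q : Eis → Prop} {h : ℝ → ℝ} (hh : Bump h) (l : ℝ) {ps : List Pc}
    (hp : ∀ p ∈ ps, p.OK) [DecidablePred Q] :
    RQ Q h l ps = ∑ k ∈ (bl (Real.exp l)).filter Q, ‖CS (alL h ps) k‖ ^ 2 := by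
  classical
  unfold RQ
  refine Finset.sum_congr (by congr) fun k _ => ?_
  rw [CS_alL hh hp]
  clear hp
  induction ps with
  | nil => simp
  | cons p ps ih =>
    rw [List.map_cons, List.prod_cons, List.map_cons, List.prod_cons, norm_mul, mul_pow, ih]

lemma RQ_mono_set {Q Q' : Eis → Prop} (hQ : ∀ k, Q k → Q' k) (h : ℝ → ℝ) (l : ℝ) (ps : List Pc) :
    RQ Q h l ps ≤ RQ Q' h l ps := by
  classical
  unfold RQ
  refine Finset.sum_le_sum_of_subset_of_nonneg ?_ fun k _ _ => List.prod_nonneg ?_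
  · intro k hk
    rw [Finset.mem_filter] at hk ⊢
    exact ⟨hk.1, hQ k hk.2⟩
  · intro a ha
    obtain ⟨p, _, rfl⟩ := List.mem_map.1 ha
    positivity

lemma RQ_perm (Q : Eis → Prop) (h : ℝ → ℝ) (l : ℝ) {ps qs : List Pc} (hp : ps.Perm qs) :
    RQ Q h l ps = RQ Q h l qs := by
  classical
  unfold RQ
  exact Finset.sum_congr rfl fun k _ => (hp.map _).prod_eq

lemma BQ_perm (Q : Eis → Prop) (h : ℝ → ℝ) (l : ℝ) {ps qs : List Pc} (hp : ps.Perm qs) :
    BQ Q h l ps = BQ Q h l qs := by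
  classical
  unfold BQ
  exact Finset.sum_congr rfl fun k _ => (hp.map _).prod_eq

lemma SK_perm (K : Eis → Eis → ℂ) (h : ℝ → ℝ) (l : ℝ) {ps qs : List Pc} (hp : ps.Perm qs) :
    SK K h l ps = SK K h l qs := by
  unfold SK
  rw [alL_perm h hp]

/-- **Cauchy-Schwarz for a partition** -/
lemma BQ_cauchy (Q : Eis → Prop) (h : ℝ → ℝ) (l : ℝ) {ps p₁ p₂ : List Pc}
    (hp : ps.Perm (p₁ ++ p₂)) :
    BQ Q h l ps ≤ Real.sqrt (RQ Q h l p₁) * Real.sqrt (RQ Q h l p₂) := by
  classical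
  rw [BQ_perm Q h l hp]
  unfold BQ RQ
  have e : ∀ (qs : List Pc) (k : Eis), (qs.map fun p => ‖CS (pc h p) k‖ ^ 2).prod =
      ((qs.map fun p => ‖CS (pc h p) k‖).prod) ^ 2 := by
    intro qs k
    induction qs with
    | nil => simp
    | cons p ps ih => rw [List.map_cons, List.prod_cons, ih, List.map_cons, List.prod_cons, mul_pow]
  simp only [e, List.map_append, List.prod_append]
  rw [← Real.sqrt_mul (Finset.sum_nonneg fun _ _ => sq_nonneg _)]
  refine Real.le_sqrt_of_sq_le ?_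
  exact Finset.sum_mul_sq_le_sq_mul_sq _ _ _

/-! ### the provider functionals -/

/-- admissible `k` of the provider -/
def Qp (P : DPar) (k : Eis) : Prop := P.NP2 k ∧ CubeFree k

/-- the character side of the provider -/
def Rp (P : DPar) (h : ℝ → ℝ) (l : ℝ) (ps : List Pq) : ℝ := RQ (Qp P) h l (ps.map (Pq.pc P))

/-- the complete character side of the provider -/
def Rc (P : DPar) (h : ℝ → ℝ) (l : ℝ) (ps : List Pq) : ℝ := RQ P.NP2 h l (ps.map (Pq.pc P))

/-- the box functional of the provider (cube-free family) -/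
def Bp (P : DPar) (h : ℝ → ℝ) (l : ℝ) (ps : List Pq) : ℝ := BQ (Qp P) h l (ps.map (Pq.pc P))

/-- the Gauss side of the provider -/
def Sp (P : DPar) (h : ℝ → ℝ) (l : ℝ) (ps : List Pq) : ℝ := SK Kg h l (ps.map (Pq.pc P))

lemma pinv_Rp {Lam : Type*} (π : Lam → DPar) (h : ℝ → ℝ) : Pinv (fun lam => Rp (π lam) h) :=
  fun _ l _ _ hp => RQ_perm _ h l (hp.map _)
lemma pinv_Rc {Lam : Type*} (π : Lam → DPar) (h : ℝ → ℝ) : Pinv (fun lam => Rc (π lam) h) :=
  fun _ l _ _ hp => RQ_perm _ h l (hp.map _)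
lemma pinv_Bp {Lam : Type*} (π : Lam → DPar) (h : ℝ → ℝ) : Pinv (fun lam => Bp (π lam) h) :=
  fun _ l _ _ hp => BQ_perm _ h l (hp.map _)
lemma pinv_Sp {Lam : Type*} (π : Lam → DPar) (h : ℝ → ℝ) : Pinv (fun lam => Sp (π lam) h) :=
  fun _ l _ _ hp => SK_perm _ h l (hp.map _)

/-- non-exceptional parameters -/
abbrev LamN := {P : DPar // P.OK ∧ ∀ k : Eis, k ≠ 0 → Sup271.NPm P.n P.ψ P.l₂ k}

lemma Rp_nonneg (P : DPar) (h : ℝ → ℝ) (l : ℝ) (ps : List Pq) : 0 ≤ Rp P h l ps :=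
  RQ_nonneg _ _ _ _
lemma Rc_nonneg (P : DPar) (h : ℝ → ℝ) (l : ℝ) (ps : List Pq) : 0 ≤ Rc P h l ps :=
  RQ_nonneg _ _ _ _
lemma Bp_nonneg (P : DPar) (h : ℝ → ℝ) (l : ℝ) (ps : List Pq) : 0 ≤ Bp P h l ps :=
  BQ_nonneg _ _ _ _
lemma Sp_nonneg (P : DPar) (h : ℝ → ℝ) (l : ℝ) (ps : List Pq) : 0 ≤ Sp P h l ps :=
  SK_nonneg _ _ _ _

lemma Rp_le_Rc (P : DPar) (h : ℝ → ℝ) (l : ℝ) (ps : List Pq) : Rp P h l ps ≤ Rc P h l ps :=
  RQ_mono_set (fun _ hk => hk.1) h l _

end Crest.Agent.R017.Prov71
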