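import Crest.Agent.R017.Rough_381
import Crest.Agent.R017.ProvI_71

/-!
# Row 17, RG3 (helper381): smooth / rough splitting of the Gauss side, part 2

* `merge_tuple` : counting `j = l ∏ x` over cube-free `j`
* `VF L w = ∑_{j ∈ bl L, CubeFree j} ‖TG w j‖²`
* `cell_bound` : one cell (dyadic sizes of the smooth parts, types), lengths separated
* `rough_split` : **the smooth part goes to the family without loss**
-/

set_option autoImplicit false
set_option linter.unusedSectionVars false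
set_option linter.unusedVariables false

noncomputable section

open Complex
open scoped ComplexConjugate

namespace Crest.Agent.R017.Rough381

open Crest.Agent.R012 Crest.Agent.R012.Eis Crest.Agent.R012.LS2 Crest.Agent.R012.Gauss880
open Crest.Agent.R012.Mob705
open Crest.Agent.R012.PSer47 (IsChar)
open Crest.Agent.R012.Weight600 (osc norm_osc ker)
open Crest.Agent.R012.Div277 (tau dvs mem_dvs tau_le_rpow)
open Crest.Agent.R017.CM106 Crest.Agent.R017.HP842 Crest.Agent.R017.FE47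
open Crest.Agent.R017.End699 Crest.Agent.R017.XC858
open Crest.Agent.R017.HSep813 (gw norm_gw_le MF sep_list)
open Crest.Agent.R017.Prov71 (CubeFree)

variable {ι : Type} [Fintype ι] [DecidableEq ι]

lemma nm_prodI (x : ι → Eis) : nm (∏ i, x i) = ∏ i, nm (x i) := by
  classical
  have : ∀ S : Finset ι, nm (∏ i ∈ S, x i) = ∏ i ∈ S, nm (x i) := by
    intro S
    induction S using Finset.induction_on with
    | empty => simp
    | insert a S ha ih => rw [Finset.prod_insert ha, Finset.prod_insert ha, nm_mul, ih]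
  exact this _

lemma cubeFree_mul {l s : Eis} (hl : CubeFree l) (hs : Squarefree s) (hs0 : s ≠ 0)
    (hc : IsCoprime l s) : CubeFree (l * s) := by
  refine ⟨mul_ne_zero hl.1 hs0, fun p hp hd => ?_⟩
  by_cases h1 : p ∣ s
  · have h2 : ¬ p ∣ l := fun h => hp.not_isUnit (hc.isUnit_of_dvd' h h1)
    have h3 : IsCoprime (p ^ 3) l := by
      apply IsCoprime.pow_left
      exact (hp.coprime_iff_not_dvd.2 h2)
    have h4 : p ^ 3 ∣ s := h3.dvd_of_dvd_mul_left hd
    have h5 : p * p ∣ s := (by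
      have : p * p ∣ p ^ 3 := ⟨p, by ring⟩
      exact this.trans h4)
    exact hp.not_isUnit (hs p h5)
  · have h3 : IsCoprime (p ^ 3) s := by
      apply IsCoprime.pow_left
      exact (hp.coprime_iff_not_dvd.2 h1)
    exact hl.2 p hp (h3.dvd_of_dvd_mul_right hd)

open Classical in
/-- **counting** -/
theorem merge_tuple {L B : ℝ} (hL : 0 ≤ L) (hB : 0 ≤ B) (K : Finset (Eis × (ι → Eis)))
    (hK : ∀ p ∈ K, p.1 ∈ bl L ∧ (∀ i, IsPrim (p.2 i)) ∧ (nm (∏ i, p.2 i) : ℝ) ≤ B ∧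
      CubeFree (p.1 * ∏ i, p.2 i)) (F : Eis → ℝ) (hF : ∀ r, 0 ≤ F r) :
    ∑ p ∈ K, F (p.1 * ∏ i, p.2 i) ≤
      ∑ j ∈ (bl (L * B)).filter CubeFree, (tau j : ℝ) ^ Fintype.card ι * F j := by
  have hmaps : ∀ p ∈ K, p.1 * ∏ i, p.2 i ∈ (bl (L * B)).filter CubeFree := by
    intro p hp
    obtain ⟨h1, h2, h3, h4⟩ := hK p hp
    rw [mem_bl hL] at h1
    rw [Finset.mem_filter, mem_bl (mul_nonneg hL hB)]
    refine ⟨⟨h4.1, ?_⟩, h4⟩
    rw [nm_mul]
    push_cast
    exact mul_le_mul h1.2 h3 (Nat.cast_nonneg _) hL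
  rw [← Finset.sum_fiberwise_of_maps_to hmaps]
  refine Finset.sum_le_sum fun j hj => ?_
  have hj0 : j ≠ 0 := (Finset.mem_filter.1 hj).2.1
  rw [Finset.sum_congr rfl (g := fun _ => F j) (fun x hx => by
    rw [(Finset.mem_filter.mp hx).2]), Finset.sum_const, nsmul_eq_mul]
  refine mul_le_mul_of_nonneg_right ?_ (hF j)
  have hcard : (K.filter fun p => p.1 * ∏ i, p.2 i = j).card ≤
      (Fintype.piFinset fun _ : ι => dvs j).card := by
    refine Finset.card_le_card_of_injOn (fun p => p.2) ?_ ?_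
    · intro p hp
      have hp' := Finset.mem_filter.mp (Finset.mem_coe.mp hp)
      rw [Finset.mem_coe, Fintype.mem_piFinset]
      intro i
      rw [mem_dvs hj0]
      refine ⟨(hK p hp'.1).2.1 i, ?_⟩
      rw [← hp'.2]
      exact (Finset.dvd_prod_of_mem _ (Finset.mem_univ i)).mul_left _
    · intro p hp p' hp' e
      have h1 := Finset.mem_filter.mp (Finset.mem_coe.mp hp)
      have h2 := Finset.mem_filter.mp (Finset.mem_coe.mp hp')
      have e' : p.2 = p'.2 := e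
      have h0 : ∏ i, p.2 i ≠ 0 := (isPrim_prod (hK p h1.1).2.1).ne_zero
      refine Prod.ext ?_ e'
      apply mul_right_cancel₀ h0
      rw [h1.2, e', h2.2]
  calc ((K.filter fun p => p.1 * ∏ i, p.2 i = j).card : ℝ)
      ≤ ((Fintype.piFinset fun _ : ι => dvs j).card : ℝ) := by exact_mod_cast hcard
    _ = (tau j : ℝ) ^ Fintype.card ι := by
        rw [Fintype.card_piFinset]
        simp [tau]

open Classical in
/-- the second moment over a cube-free family -/
def VF (L : ℝ) (w : Eis → ℂ) : ℝ := ∑ j ∈ (bl L).filter CubeFree, ‖TG w j‖ ^ 2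

lemma VF_nonneg (L : ℝ) (w : Eis → ℂ) : 0 ≤ VF L w := Finset.sum_nonneg fun _ _ => by positivity

lemma VF_mono {L L' : ℝ} (h0 : 0 ≤ L) (h : L ≤ L') (w : Eis → ℂ) : VF L w ≤ VF L' w := by
  classical
  unfold VF
  refine Finset.sum_le_sum_of_subset_of_nonneg ?_ fun _ _ _ => by positivity
  refine Finset.filter_subset_filter _ fun j hj => ?_
  rw [mem_bl h0] at hj
  rw [mem_bl (h0.trans h)]
  exact ⟨hj.1, hj.2.trans h⟩

/-- the pieces of a cell: types `v`, lengths `Y`, heights `t` -/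
def cellP (s : ι → Pc) (v : ι → UT) (Y t : ι → ℝ) : ι → Pc := fun i => ⟨v i, (s i).ψ, Y i, t i⟩

open Classical in
/-- the arithmetical coefficient of the rough sequence -/
def phr (z : ℝ) (s : ι → Pc) (v : ι → UT) (q j : Eis) (b : ι → Eis) : ℂ :=
  (∏ i, if IsPrim (b i) ∧ Rg z (b i) then uv (v i) (b i) * (s i).ψ (b i) else 0) *
    (Th q (∏ i, b i) * (G (∏ i, b i) * conj (sy j (∏ i, b i))))

lemma MF_phr {h : ℝ → ℝ} {R : ℝ} (hR : ∀ u, cx h u ≠ 0 → |u| ≤ R) (z : ℝ) (s : ι → Pc)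
    (v : ι → UT) (q j : Eis) {X : ℕ} {Y : ι → ℝ} (hY0 : ∀ i, 0 < Y i)
    (hY : ∀ i, Y i * Real.exp R ≤ X) (t : ι → ℝ) :
    MF h (Fintype.piFinset fun _ : ι => primBall X) (phr z s v q j) Y t =
      TG (sqc q (alr z h (cellP s v Y t))) j := by
  classical
  have hbd : Bd X (fun i => rgh z (pc h (cellP s v Y t i))) := by
    intro i b hb
    have hb' : pc h (cellP s v Y t i) b ≠ 0 := by
      intro h0
      apply hb
      show rgh z (pc h (cellP s v Y t i)) b = 0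
      unfold rgh
      rw [h0]; simp
    exact Bd_pc hR (hY0 i) (hY i) hb'
  unfold alr
  rw [TG_sqc_eq, sum_cv hbd (fun n => Th q n * (G n * conj (sy j n)))]
  unfold MF phr
  refine Finset.sum_congr rfl fun b hb => ?_
  have e : ∀ i, (if IsPrim (b i) ∧ Rg z (b i) then uv (v i) (b i) * (s i).ψ (b i) else 0) *
      gw h (Y i) (t i) (b i) = rgh z (pc h (cellP s v Y t i)) (b i) := by
    intro i
    unfold rgh pc cellP
    by_cases h1 : IsPrim (b i)
    · by_cases h2 : Rg z (b i)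
      · rw [if_pos ⟨h1, h2⟩, if_pos h2, if_pos h1]
      · rw [if_neg (fun h => h2 h.2), if_neg h2, zero_mul]
    · rw [if_neg (fun h => h1 h.1), zero_mul, if_neg h1]
      split_ifs <;> rfl
  rw [← Finset.prod_congr rfl fun i _ => e i, Finset.prod_mul_distrib]
  ring

/-- **one cell**: separation of the lengths and counting -/
theorem cell_bound {h : ℝ → ℝ} {c : ℝ} (hpu : PU h c) {R : ℝ} (hR0 : 0 ≤ R)
    (hR : ∀ u, cx h u ≠ 0 → |u| ≤ R) (M : ℝ) : ∃ C : ℝ, 0 ≤ C ∧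
    ∀ (ι : Type) [Fintype ι] [DecidableEq ι] (s : ι → Pc), (∀ i, (s i).OK) →
    ∀ (z : ℝ) (q : Eis) (L : ℝ), 0 ≤ L → ∀ (v : ι → UT) (n : ι → ℕ) (K : Finset (Eis × (ι → Eis))),
    (∀ p ∈ K, p.1 ∈ bl L ∧ CubeFree p.1 ∧ (∀ i, IsPrim (p.2 i)) ∧ Squarefree (∏ i, p.2 i) ∧
      IsCoprime p.1 (∏ i, p.2 i) ∧ ∀ i, |Real.log (nm (p.2 i)) - n i| ≤ 1) →
    ∀ B D : ℝ, 0 ≤ B → 0 ≤ D →
    (∀ j : Eis, j ≠ 0 → (nm j : ℝ) ≤ L * Real.exp (∑ i, ((n i : ℝ) + 1)) →
      (tau j : ℝ) ^ Fintype.card ι ≤ D) →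
    (∀ Y t : ι → ℝ, (∀ i, 1 ≤ Y i ∧ |Real.log (Y i) - (Real.log (s i).Y - n i)| ≤ 2 * R + 1) →
      VF (L * Real.exp (∑ i, ((n i : ℝ) + 1))) (sqc q (alr z h (cellP s v Y t))) ≤
        B * ∏ i, (1 + |t i - (s i).t|) ^ M) →
    ∑ p ∈ K, ‖TG (sqc q (alr z h (cellP s v (fun i => (s i).Y / nm (p.2 i))
      (fun i => (s i).t)))) (p.1 * ∏ i, p.2 i)‖ ^ 2 ≤ C ^ Fintype.card ι * (D * B) := by
  classical
  obtain ⟨C, hC, H⟩ := sep_list hpu hR0 hR (ρ := 1) zero_le_one M
  refine ⟨C, hC, ?_⟩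
  intro ι _ _ s hs z q L hL v n K hK B D hB hD hτ hyp
  set Λ := L * Real.exp (∑ i, ((n i : ℝ) + 1)) with hΛ
  have hΛ0 : 0 ≤ Λ := mul_nonneg hL (Real.exp_pos _).le
  -- a common support
  obtain ⟨X, hX⟩ : ∃ X : ℕ, ∀ i, (s i).Y * Real.exp (2 * R + 1) * Real.exp R ≤ X := by
    refine ⟨⌈∑ i, (s i).Y * Real.exp (2 * R + 1) * Real.exp R⌉₊, fun i => ?_⟩
    refine le_trans ?_ (Nat.le_ceil _)
    exact Finset.single_le_sum (f := fun i => (s i).Y * Real.exp (2 * R + 1) * Real.exp R)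
      (fun i _ => by have := (hs i).Y0; positivity) (Finset.mem_univ i)
  have h1R : (1 : ℝ) ≤ Real.exp (2 * R + 1) := Real.one_le_exp (by linarith)
  have hT : ∀ b ∈ Fintype.piFinset (fun _ : ι => primBall X), ∀ i, b i ≠ 0 := by
    intro b hb i
    rw [Fintype.mem_piFinset] at hb
    exact (mem_primBall.1 (hb i)).2.ne_zero
  -- lengths on the grid
  have hYX : ∀ (Y : ι → ℝ), (∀ i, 0 < Y i ∧
      |Real.log (Y i) - (Real.log (s i).Y - n i)| ≤ 2 * R + 1) →
      ∀ i, Y i * Real.exp R ≤ X := by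
    intro Y hY i
    refine le_trans ?_ (hX i)
    refine mul_le_mul_of_nonneg_right ?_ (Real.exp_pos _).le
    obtain ⟨h1, h2⟩ := hY i
    have h3 := (abs_le.1 h2).2
    have h4 : (0 : ℝ) ≤ n i := Nat.cast_nonneg _
    calc Y i = Real.exp (Real.log (Y i)) := (Real.exp_log h1).symm
      _ ≤ Real.exp (Real.log (s i).Y + (2 * R + 1)) := Real.exp_le_exp.2 (by linarith)
      _ = (s i).Y * Real.exp (2 * R + 1) := by rw [Real.exp_add, Real.exp_log (hs i).Y0]
  have key := H ι (Eis × (ι → Eis)) K (Fintype.piFinset fun _ : ι => primBall X) hT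
    (fun p => phr z s v q (p.1 * ∏ i, p.2 i)) (fun p i => (s i).Y / nm (p.2 i))
    (fun i => Real.log (s i).Y - n i) (fun i => (s i).t) (D * B) (mul_nonneg hD hB)
    (by
      intro p hp i
      obtain ⟨_, _, h3, _, _, h6⟩ := hK p hp
      have h7 : (0 : ℝ) < nm (p.2 i) := by exact_mod_cast nm_pos.2 (h3 i).ne_zero
      show |Real.log ((s i).Y / nm (p.2 i)) - (Real.log (s i).Y - n i)| ≤ 1
      rw [Real.log_div (hs i).Y0.ne' h7.ne']
      have h8 := h6 i
      have h9 : Real.log (s i).Y - Real.log (nm (p.2 i)) - (Real.log (s i).Y - n i) =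
          -(Real.log (nm (p.2 i)) - n i) := by ring
      rw [h9, abs_neg]
      exact h8)
    (by
      intro m τ hm
      have hY : ∀ i, 0 < Real.exp (c * m i) ∧
          |Real.log (Real.exp (c * m i)) - (Real.log (s i).Y - n i)| ≤ 2 * R + 1 := by
        intro i
        refine ⟨Real.exp_pos _, ?_⟩
        rw [Real.log_exp]
        exact hm i
      have e1 : ∀ p ∈ K, ‖MF h (Fintype.piFinset fun _ : ι => primBall X)
          (phr z s v q (p.1 * ∏ i, p.2 i)) (fun i => Real.exp (c * m i))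
          (fun i => (s i).t + τ i)‖ ^ 2 =
          ‖TG (sqc q (alr z h (cellP s v (fun i => Real.exp (c * m i))
            (fun i => (s i).t + τ i)))) (p.1 * ∏ i, p.2 i)‖ ^ 2 := by
        intro p _
        rw [MF_phr hR z s v q _ (fun i => (hY i).1) (hYX _ hY)]
      rw [Finset.sum_congr rfl e1]
      set w := sqc q (alr z h (cellP s v (fun i => Real.exp (c * m i))
        (fun i => (s i).t + τ i))) with hw
      refine (merge_tuple hL (Real.exp_pos (∑ i, ((n i : ℝ) + 1))).le K ?_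
        (fun j => ‖TG w j‖ ^ 2) (fun _ => by positivity)).trans ?_
      · intro p hp
        obtain ⟨h1, h2, h3, h4, h5, h6⟩ := hK p hp
        refine ⟨h1, h3, ?_, cubeFree_mul h2 h4 (isPrim_prod h3).ne_zero h5⟩
        rw [nm_prodI, Real.exp_sum]
        push_cast
        refine Finset.prod_le_prod (fun _ _ => Nat.cast_nonneg _) fun i _ => ?_
        have h7 : (0 : ℝ) < nm (p.2 i) := by exact_mod_cast nm_pos.2 (h3 i).ne_zero
        have h8 := (abs_le.1 (h6 i)).2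
        calc (nm (p.2 i) : ℝ) = Real.exp (Real.log (nm (p.2 i))) := (Real.exp_log h7).symm
          _ ≤ _ := Real.exp_le_exp.2 (by linarith)
      · have h7 : ∑ j ∈ (bl Λ).filter CubeFree, (tau j : ℝ) ^ Fintype.card ι * ‖TG w j‖ ^ 2 ≤
            D * VF Λ w := by
          unfold VF
          rw [Finset.mul_sum]
          refine Finset.sum_le_sum fun j hj => ?_
          have hj' := Finset.mem_filter.1 hj
          have hj2 := (mem_bl hΛ0).1 hj'.1
          exact mul_le_mul_of_nonneg_right (hτ j hj2.1 hj2.2) (by positivity)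
        refine h7.trans ?_
        have h8 := hyp (fun i => Real.exp (c * m i)) (fun i => (s i).t + τ i)
          (fun i => ⟨Real.one_le_exp (mul_nonneg hpu.cpos.le (Nat.cast_nonneg _)), (hY i).2⟩)
        have h9 : ∏ i, (1 + |(s i).t + τ i - (s i).t|) ^ M = ∏ i, (1 + |τ i|) ^ M := by
          refine Finset.prod_congr rfl fun i _ => ?_
          rw [add_sub_cancel_left]
        rw [h9] at h8
        calc D * VF Λ w ≤ D * (B * ∏ i, (1 + |τ i|) ^ M) := mul_le_mul_of_nonneg_left h8 hD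
          _ = D * B * ∏ i, (1 + |τ i|) ^ M := by ring)
  refine le_trans (le_of_eq ?_) key
  refine Finset.sum_congr rfl fun p hp => ?_
  obtain ⟨_, _, h3, _, _, h6⟩ := hK p hp
  rw [MF_phr hR z s v q _ ?_ ?_]
  · intro i
    have h7 : (0 : ℝ) < nm (p.2 i) := by exact_mod_cast nm_pos.2 (h3 i).ne_zero
    exact div_pos (hs i).Y0 h7
  · intro i
    have h7 : (1 : ℝ) ≤ nm (p.2 i) := by exact_mod_cast nm_pos.2 (h3 i).ne_zero
    have hYi := (hs i).Y0
    refine le_trans ?_ (hX i)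
    refine mul_le_mul_of_nonneg_right ?_ (Real.exp_pos _).le
    calc (s i).Y / nm (p.2 i) ≤ (s i).Y := div_le_self hYi.le h7
      _ = (s i).Y * 1 := (mul_one _).symm
      _ ≤ _ := mul_le_mul_of_nonneg_left h1R hYi.le

lemma norm_coef_le {q l : Eis} {s : ι → Pc} (hs : ∀ i, (s i).OK) {x : ι → Eis}
    (hx : ∀ i, IsPrim (x i)) :
    ‖Th q (∏ i, x i) * (G (∏ i, x i) * conj (sy l (∏ i, x i))) * scS s x‖ ≤ 1 := by
  rw [norm_mul, norm_mul]
  calc ‖Th q (∏ i, x i)‖ * ‖G (∏ i, x i) * conj (sy l (∏ i, x i))‖ * ‖scS s x‖ ≤ 1 * 1 * 1 :=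
        mul_le_mul (mul_le_mul (norm_Th_le _ _) (norm_Gsy_le (isPrim_prod hx)) (norm_nonneg _)
          zero_le_one) (norm_scS_le hs hx) (norm_nonneg _) (by norm_num)
    _ = 1 := by norm_num

lemma coef_zero {q l : Eis} {s : ι → Pc} {x : ι → Eis} (hx : ∀ i, IsPrim (x i))
    (h : ¬ (Squarefree (∏ i, x i) ∧ IsCoprime l (∏ i, x i))) :
    Th q (∏ i, x i) * (G (∏ i, x i) * conj (sy l (∏ i, x i))) * scS s x = 0 := by
  by_cases h1 : Squarefree (∏ i, x i)
  · have h2 : ¬ IsCoprime l (∏ i, x i) := fun h2 => h ⟨h1, h2⟩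
    have h3 : sy l (∏ i, x i) = 0 := (syG.eq_zero l _ (isPrim_prod hx)).2 h2
    rw [h3]; simp
  · have h3 : Th q (∏ i, x i) = 0 := by
      unfold Th
      rw [if_neg (fun h2 => h1 h2.1)]
    rw [h3]; simp

open Classical in
/-- the key of a tuple: which entries are `1`, and the logarithmic sizes -/
def key (x : ι → Eis) : (ι → Bool) × (ι → ℕ) :=
  (fun i => decide (x i = 1), fun i => ⌊Real.log (nm (x i))⌋₊)

/-- the types of a cell -/
def vk (s : ι → Pc) (b : ι → Bool) : ι → UT := fun i =>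
  if (s i).u = .pr ∧ b i = false then .del else (s i).u

lemma vk_key (s : ι → Pc) (x : ι → Eis) (i : ι) : (s i).u.sub (x i) = vk s (key x).1 i := by
  classical
  unfold UT.sub vk key
  by_cases h1 : x i = 1
  · simp [h1]
  · simp [h1]

lemma shS_eq (s : ι → Pc) (x : ι → Eis) :
    shS s x = cellP s (vk s (key x).1) (fun i => (s i).Y / nm (x i)) (fun i => (s i).t) := by
  funext i
  unfold shS sh cellP
  rw [vk_key]

open Classical in
/-- **the smooth part goes to the family, without loss** -/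
theorem rough_split {h : ℝ → ℝ} {c : ℝ} (hpu : PU h c) {R : ℝ} (hR0 : 0 ≤ R)
    (hR : ∀ u, cx h u ≠ 0 → |u| ≤ R) (M : ℝ) : ∃ C : ℝ, 1 ≤ C ∧
    ∀ (ι : Type) [Fintype ι] [DecidableEq ι] (s : ι → Pc), (∀ i, (s i).OK) →
    ∀ (X : ℕ), 1 ≤ X → (∀ i, (s i).Y * Real.exp R ≤ X) →
    ∀ (z : ℝ) (q : Eis) (L : ℝ), 0 ≤ L → ∀ B D : ℝ, 0 ≤ B → 0 ≤ D →
    (∀ j : Eis, j ≠ 0 → (nm j : ℝ) ≤ L * (Real.exp 1 * X) ^ Fintype.card ι →
      (tau j : ℝ) ^ Fintype.card ι ≤ D) →
    (∀ (b : ι → Bool) (n : ι → ℕ) (Y t : ι → ℝ), (∀ i, (n i : ℝ) ≤ Real.log X) →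
      (∀ i, 1 ≤ Y i ∧ |Real.log (Y i) - (Real.log (s i).Y - n i)| ≤ 2 * R + 1) →
      VF (L * Real.exp (∑ i, ((n i : ℝ) + 1))) (sqc q (alr z h (cellP s (vk s b) Y t))) ≤
        B * Real.exp (-∑ i, ((n i : ℝ) + 1)) * ∏ i, (1 + |t i - (s i).t|) ^ M) →
    VF L (sqc q (cv fun i => pc h (s i))) ≤
      (C * (Real.log X + 1) ^ 2) ^ Fintype.card ι * (D * B) := by
  obtain ⟨C, hC, H⟩ := cell_bound hpu hR0 hR M
  refine ⟨400 * (C + 1), by linarith, ?_⟩
  intro ι _ _ s hs X hX1 hX z q L hL B D hB hD hτ hyp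
  have hX1' : (1 : ℝ) ≤ X := by exact_mod_cast hX1
  have hlog0 : 0 ≤ Real.log X := Real.log_nonneg hX1'
  set k := Fintype.card ι with hk
  set N := ⌊Real.log X⌋₊ with hN
  have hNle : (N : ℝ) ≤ Real.log X := Nat.floor_le hlog0
  -- cells
  set Cs : Finset ((ι → Bool) × (ι → ℕ)) :=
    Finset.univ ×ˢ Fintype.piFinset (fun _ : ι => Finset.range (N + 1)) with hCs
  have hcard : (Cs.card : ℝ) ≤ (2 * (Real.log X + 1)) ^ k := by
    rw [hCs, Finset.card_product, Finset.card_univ, Fintype.card_piFinset]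
    simp only [Fintype.card_fun, Fintype.card_bool, Finset.card_range, Finset.prod_const,
      Finset.card_univ]
    push_cast
    rw [← hk, ← mul_pow]
    gcongr
  have hmaps : ∀ x ∈ smT ι X z, key x ∈ Cs := by
    intro x hx
    rw [mem_smT] at hx
    rw [hCs, Finset.mem_product, Fintype.mem_piFinset]
    refine ⟨Finset.mem_univ _, fun i => ?_⟩
    rw [Finset.mem_range, Nat.lt_succ_iff]
    show ⌊Real.log (nm (x i))⌋₊ ≤ N
    refine Nat.floor_le_floor (Real.log_le_log ?_ ?_)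
    · exact_mod_cast nm_pos.2 (hx i).1.2.ne_zero
    · exact_mod_cast (hx i).1.1
  set a : Eis → (ι → Eis) → ℂ := fun l x =>
    Th q (∏ i, x i) * (G (∏ i, x i) * conj (sy l (∏ i, x i))) * scS s x with ha
  set g : Eis → (ι → Eis) → ℂ := fun l x =>
    TG (sqc q (alr z h (shS s x))) (l * ∏ i, x i) with hg
  set S : (ι → Bool) × (ι → ℕ) → Finset (ι → Eis) := fun c =>
    (smT ι X z).filter (fun x => key x = c) with hS
  have hSm : ∀ c x, x ∈ S c ↔ x ∈ smT ι X z ∧ key x = c := fun c x => Finset.mem_filter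
  have hT : ∀ l, TG (sqc q (cv fun i => pc h (s i))) l = ∑ c ∈ Cs, ∑ x ∈ S c, a l x * g l x := by
    intro l
    rw [TG_rough hR hs hX z q l, ← Finset.sum_fiberwise_of_maps_to hmaps]
  -- the number of tuples in a cell
  have hSc : ∀ c ∈ Cs, ((S c).card : ℝ) ≤ 100 ^ k * Real.exp (∑ i, ((c.2 i : ℝ) + 1)) := by
    intro c hc
    have hsub : S c ⊆ Fintype.piFinset (fun i => primBall ⌊Real.exp ((c.2 i : ℝ) + 1)⌋₊) := by
      intro x hx
      rw [hS, Finset.mem_filter, mem_smT] at hx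
      rw [Fintype.mem_piFinset]
      intro i
      rw [mem_primBall]
      refine ⟨?_, (hx.1 i).1.2⟩
      have h1 : c.2 i = ⌊Real.log (nm (x i))⌋₊ := by rw [← hx.2]; rfl
      have h7 : (0 : ℝ) < nm (x i) := by exact_mod_cast nm_pos.2 (hx.1 i).1.2.ne_zero
      rw [Nat.le_floor_iff (Real.exp_pos _).le]
      have h2 := Nat.lt_floor_add_one (Real.log (nm (x i)))
      rw [← h1] at h2
      calc (nm (x i) : ℝ) = Real.exp (Real.log (nm (x i))) := (Real.exp_log h7).symm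
        _ ≤ _ := Real.exp_le_exp.2 h2.le
    calc ((S c).card : ℝ) ≤ ((Fintype.piFinset
          (fun i => primBall ⌊Real.exp ((c.2 i : ℝ) + 1)⌋₊)).card : ℝ) := by
          exact_mod_cast Finset.card_le_card hsub
      _ = ∏ i, ((primBall ⌊Real.exp ((c.2 i : ℝ) + 1)⌋₊).card : ℝ) := by
          rw [Fintype.card_piFinset]; push_cast; rfl
      _ ≤ ∏ i, (100 * Real.exp ((c.2 i : ℝ) + 1)) := by
          refine Finset.prod_le_prod (fun _ _ => Nat.cast_nonneg _) fun i _ => ?_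
          refine (Lat277.card_primBall_le _).trans ?_
          have := Nat.floor_le (Real.exp_pos ((c.2 i : ℝ) + 1)).le
          linarith
      _ = 100 ^ k * Real.exp (∑ i, ((c.2 i : ℝ) + 1)) := by
          rw [Finset.prod_mul_distrib, Finset.prod_const, Finset.card_univ, Real.exp_sum]
  -- the family of a cell
  set K : (ι → Bool) × (ι → ℕ) → Finset (Eis × (ι → Eis)) := fun c =>
    (((bl L).filter CubeFree) ×ˢ S c).filter
      (fun p => Squarefree (∏ i, p.2 i) ∧ IsCoprime p.1 (∏ i, p.2 i)) with hKd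
  have hcell : ∀ c ∈ Cs, ∑ l ∈ (bl L).filter CubeFree, ∑ x ∈ S c, ‖a l x‖ ^ 2 * ‖g l x‖ ^ 2 ≤
      C ^ k * (D * (B * Real.exp (-∑ i, ((c.2 i : ℝ) + 1)))) := by
    intro c hc
    have hc2 : ∀ i, (c.2 i : ℝ) ≤ Real.log X := by
      intro i
      rw [hCs, Finset.mem_product, Fintype.mem_piFinset] at hc
      have h1 := Finset.mem_range.1 (hc.2 i)
      have h2 : (c.2 i : ℝ) ≤ N := by exact_mod_cast Nat.lt_succ_iff.1 h1
      linarith
    have hmem : ∀ p ∈ K c, p.1 ∈ bl L ∧ CubeFree p.1 ∧ (∀ i, IsPrim (p.2 i)) ∧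
        Squarefree (∏ i, p.2 i) ∧ IsCoprime p.1 (∏ i, p.2 i) ∧
        (∀ i, |Real.log (nm (p.2 i)) - c.2 i| ≤ 1) ∧ key p.2 = c := by
      intro p hp
      rw [hKd, Finset.mem_filter, Finset.mem_product, Finset.mem_filter, hSm, mem_smT] at hp
      refine ⟨hp.1.1.1, hp.1.1.2, fun i => (hp.1.2.1 i).1.2, hp.2.1, hp.2.2, fun i => ?_,
        hp.1.2.2⟩
      have h1 : c.2 i = ⌊Real.log (nm (p.2 i))⌋₊ := by rw [← hp.1.2.2]; rfl
      have h7 : (1 : ℝ) ≤ nm (p.2 i) := by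
        exact_mod_cast nm_pos.2 (hp.1.2.1 i).1.2.ne_zero
      have h8 := Nat.lt_floor_add_one (Real.log (nm (p.2 i)))
      have h9 := Nat.floor_le (Real.log_nonneg h7)
      rw [← h1] at h8 h9
      rw [abs_le]
      constructor <;> linarith
    have e1 : ∑ l ∈ (bl L).filter CubeFree, ∑ x ∈ S c, ‖a l x‖ ^ 2 * ‖g l x‖ ^ 2 ≤
        ∑ p ∈ K c, ‖g p.1 p.2‖ ^ 2 := by
      rw [← Finset.sum_product' ((bl L).filter CubeFree) (S c)
        (fun l x => ‖a l x‖ ^ 2 * ‖g l x‖ ^ 2), hKd, Finset.sum_filter]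
      refine Finset.sum_le_sum fun p hp => ?_
      rw [Finset.mem_product, hSm, mem_smT] at hp
      have hxp : ∀ i, IsPrim (p.2 i) := fun i => (hp.2.1 i).1.2
      split_ifs with hc'
      · refine mul_le_of_le_one_left (by positivity) ?_
        exact pow_le_one₀ (norm_nonneg _) (norm_coef_le hs hxp)
      · have : a p.1 p.2 = 0 := coef_zero hxp hc'
        rw [this]; simp
    refine e1.trans ?_
    have e2 : ∑ p ∈ K c, ‖g p.1 p.2‖ ^ 2 =
        ∑ p ∈ K c, ‖TG (sqc q (alr z h (cellP s (vk s c.1) (fun i => (s i).Y / nm (p.2 i))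
          (fun i => (s i).t)))) (p.1 * ∏ i, p.2 i)‖ ^ 2 := by
      refine Finset.sum_congr rfl fun p hp => ?_
      have h1 := (hmem p hp).2.2.2.2.2.2
      rw [hg]
      show ‖TG (sqc q (alr z h (shS s p.2))) (p.1 * ∏ i, p.2 i)‖ ^ 2 = _
      rw [shS_eq, h1]
    rw [e2]
    refine H ι s hs z q L hL (vk s c.1) c.2 (K c) (fun p hp => ?_)
      (B * Real.exp (-∑ i, ((c.2 i : ℝ) + 1))) D (mul_nonneg hB (Real.exp_pos _).le) hD ?_ ?_
    · obtain ⟨h1, h2, h3, h4, h5, h6, _⟩ := hmem p hp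
      exact ⟨h1, h2, h3, h4, h5, h6⟩
    · intro j hj0 hj
      refine hτ j hj0 (hj.trans ?_)
      refine mul_le_mul_of_nonneg_left ?_ hL
      rw [Real.exp_sum]
      have : ∀ i ∈ (Finset.univ : Finset ι), Real.exp ((c.2 i : ℝ) + 1) ≤ Real.exp 1 * X := by
        intro i _
        rw [Real.exp_add, mul_comm]
        refine mul_le_mul_of_nonneg_left ?_ (Real.exp_pos _).le
        calc Real.exp (c.2 i : ℝ) ≤ Real.exp (Real.log X) := Real.exp_le_exp.2 (hc2 i)
          _ = X := Real.exp_log (by linarith)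
      calc ∏ i, Real.exp ((c.2 i : ℝ) + 1) ≤ ∏ _i : ι, (Real.exp 1 * X) :=
            Finset.prod_le_prod (fun _ _ => (Real.exp_pos _).le) this
        _ = (Real.exp 1 * X) ^ k := by rw [Finset.prod_const, Finset.card_univ]
    · intro Y t hY
      exact hyp c.1 c.2 Y t hc2 hY
  -- assembly
  have hmain : ∀ l, ‖TG (sqc q (cv fun i => pc h (s i))) l‖ ^ 2 ≤
      (Cs.card : ℝ) * ∑ c ∈ Cs, ((S c).card : ℝ) * ∑ x ∈ S c, ‖a l x‖ ^ 2 * ‖g l x‖ ^ 2 := by
    intro l
    rw [hT l]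
    refine (CR2.norm_sum_sq_le_card Cs _).trans ?_
    refine mul_le_mul_of_nonneg_left ?_ (Nat.cast_nonneg _)
    refine Finset.sum_le_sum fun c _ => ?_
    refine (CR2.norm_sum_sq_le_card (S c) _).trans (le_of_eq ?_)
    congr 1
    refine Finset.sum_congr rfl fun x _ => ?_
    rw [norm_mul, mul_pow]
  have hCk : C ^ k ≤ (C + 1) ^ k := pow_le_pow_left₀ hC (by linarith) k
  have hDB : 0 ≤ D * B := mul_nonneg hD hB
  calc VF L (sqc q (cv fun i => pc h (s i)))
      ≤ ∑ l ∈ (bl L).filter CubeFree, (Cs.card : ℝ) *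
          ∑ c ∈ Cs, ((S c).card : ℝ) * ∑ x ∈ S c, ‖a l x‖ ^ 2 * ‖g l x‖ ^ 2 :=
        Finset.sum_le_sum fun l _ => hmain l
    _ = (Cs.card : ℝ) * ∑ c ∈ Cs, ((S c).card : ℝ) *
          ∑ l ∈ (bl L).filter CubeFree, ∑ x ∈ S c, ‖a l x‖ ^ 2 * ‖g l x‖ ^ 2 := by
        rw [← Finset.mul_sum, Finset.sum_comm]
        congr 1
        refine Finset.sum_congr rfl fun c _ => ?_
        rw [Finset.mul_sum]
    _ ≤ (Cs.card : ℝ) * ∑ c ∈ Cs, (100 * (C + 1)) ^ k * (D * B) := by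
        refine mul_le_mul_of_nonneg_left ?_ (Nat.cast_nonneg _)
        refine Finset.sum_le_sum fun c hc => ?_
        have h1 := hSc c hc
        have h2 := hcell c hc
        have h3 : 0 ≤ ∑ l ∈ (bl L).filter CubeFree, ∑ x ∈ S c, ‖a l x‖ ^ 2 * ‖g l x‖ ^ 2 :=
          Finset.sum_nonneg fun _ _ => Finset.sum_nonneg fun _ _ => by positivity
        calc ((S c).card : ℝ) * _ ≤ (100 ^ k * Real.exp (∑ i, ((c.2 i : ℝ) + 1))) *
              (C ^ k * (D * (B * Real.exp (-∑ i, ((c.2 i : ℝ) + 1))))) :=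
              mul_le_mul h1 h2 h3 (by positivity)
          _ = 100 ^ k * C ^ k * (D * B) * (Real.exp (∑ i, ((c.2 i : ℝ) + 1)) *
              Real.exp (-∑ i, ((c.2 i : ℝ) + 1))) := by ring
          _ = 100 ^ k * C ^ k * (D * B) := by
              rw [← Real.exp_add, add_neg_cancel, Real.exp_zero, mul_one]
          _ ≤ 100 ^ k * (C + 1) ^ k * (D * B) := by gcongr
          _ = _ := by rw [mul_pow]
    _ = (Cs.card : ℝ) * (Cs.card : ℝ) * ((100 * (C + 1)) ^ k * (D * B)) := by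
        rw [Finset.sum_const, nsmul_eq_mul]; ring
    _ ≤ (2 * (Real.log X + 1)) ^ k * (2 * (Real.log X + 1)) ^ k *
          ((100 * (C + 1)) ^ k * (D * B)) := by
        have h5 : (0 : ℝ) ≤ (100 * (C + 1)) ^ k * (D * B) := by positivity
        refine mul_le_mul_of_nonneg_right ?_ h5
        exact mul_le_mul hcard hcard (Nat.cast_nonneg _) (by positivity)
    _ = (400 * (C + 1) * (Real.log X + 1) ^ 2) ^ k * (D * B) := by
        rw [← mul_pow, ← mul_assoc, ← mul_pow]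
        congr 2
        ring

end Crest.Agent.R017.Rough381
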