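import Crest.Agent.R017.E1u_551
import Crest.Agent.R017.Rough2_381

/-!
# Row 17, block C70 (exact square), leaf E1, part w (helper551): the moments `FW`, `Lo`, `Mo` from
the cube-free second moments `VF`
-/

set_option autoImplicit false

noncomputable section

open Complex MeasureTheory
open scoped ComplexConjugate Classical

namespace Crest.Agent.R017.E1551

open Crest.Agent.R012 Crest.Agent.R012.Eis Crest.Agent.R012.MC
open Crest.Agent.R012.LS2 (S mem_S bl)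
open Crest.Agent.R012.Weight600 (pw)
open Crest.Agent.R017.CM106 (CS TG)
open Crest.Agent.R017.Rough381 (VF)

/-- the twisted sequence -/
def tws (β : Eis → ℂ) (t : ℝ) : Eis → ℂ := fun m => β m * pw t (nm m)

lemma sum_BF_Vt (V : ℝ) (β : Eis → ℂ) (t : ℝ) :
    ∑ r ∈ BF V, ‖Vt β r t‖ ^ 2 = VF V (tws β t) := by
  unfold VF
  have e : BF V = (bl V).filter Prov71.CubeFree := by
    ext r
    unfold BF bl
    rw [Finset.mem_filter, Finset.mem_filter, Finset.mem_erase]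
    constructor
    · rintro ⟨h1, h2⟩; exact ⟨⟨h2.1, h1⟩, h2⟩
    · rintro ⟨h1, h2⟩; exact ⟨h1.2, h2⟩
  rw [e]
  rfl

/-- dyadic summation -/
lemma dyad {Z : ℝ} (hZ : 1 ≤ Z) {f ω : Eis → ℝ} (hf : ∀ r, 0 ≤ f r) {Ω : ℝ → ℝ}
    (hω : ∀ r ∈ BF Z, ∀ V, (nm r : ℝ) ≤ V → V < 2 * nm r → ω r ≤ Ω V)
    (hΩ : ∀ V, 0 < V → 0 ≤ Ω V) {B : ℝ} (hB : 0 ≤ B)
    (h : ∀ V, 1 ≤ V → V ≤ Z → Ω V * ∑ r ∈ BF V, f r ≤ B) :
    ∑ r ∈ BF Z, ω r * f r ≤ (1 + 2 * Real.log Z) * B := by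
  have hlog := Real.log_nonneg hZ
  have hZ0 : 0 < Z := by linarith
  set N : ℕ := ⌊Real.log Z / Real.log 2⌋₊ + 1 with hN
  have hl2 : 0 < Real.log 2 := Real.log_pos (by norm_num)
  -- pointwise
  have h1 : ∀ r ∈ BF Z, ω r * f r ≤ ∑ i ∈ Finset.range N,
      if r ∈ BF (Z / 2 ^ i) then Ω (Z / 2 ^ i) * f r else 0 := by
    intro r hr
    obtain ⟨hcf, hrZ⟩ := mem_BF.mp hr
    have hr0 := nmpos hcf.1
    have hr1 := nm_ge_one hcf.1
    obtain ⟨n, hn1, hn2⟩ := exists_nat_pow_near (x := Z / nm r) (y := 2)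
      ((one_le_div hr0).mpr hrZ) (by norm_num)
    have h2n : (0 : ℝ) < 2 ^ n := by positivity
    have hV1 : (nm r : ℝ) ≤ Z / 2 ^ n := by
      rw [le_div_iff₀ h2n]
      rw [le_div_iff₀ hr0] at hn1
      linarith
    have hV2 : Z / 2 ^ n < 2 * nm r := by
      rw [div_lt_iff₀ h2n]
      rw [div_lt_iff₀ hr0, pow_succ] at hn2
      linarith
    have hnN : n ∈ Finset.range N := by
      rw [Finset.mem_range, hN]
      apply Nat.lt_succ_of_le
      apply Nat.le_floor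
      rw [le_div_iff₀ hl2]
      have h3 : (2 : ℝ) ^ n ≤ Z := by
        refine hn1.trans (div_le_self hZ0.le hr1)
      have h4 := Real.log_le_log h2n h3
      rwa [Real.log_pow] at h4
    have hmem : r ∈ BF (Z / 2 ^ n) := mem_BF.mpr ⟨hcf, hV1⟩
    refine le_trans ?_ (Finset.single_le_sum (f := fun i =>
      if r ∈ BF (Z / 2 ^ i) then Ω (Z / 2 ^ i) * f r else 0) (fun i _ => ?_) hnN)
    · simp only [if_pos hmem]
      exact mul_le_mul_of_nonneg_right (hω r hr _ hV1 hV2) (hf r)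
    · split_ifs
      · exact mul_nonneg (hΩ _ (by positivity)) (hf r)
      · exact le_rfl
  refine (Finset.sum_le_sum h1).trans ?_
  rw [Finset.sum_comm]
  have h2 : ∀ i ∈ Finset.range N, (∑ r ∈ BF Z,
      if r ∈ BF (Z / 2 ^ i) then Ω (Z / 2 ^ i) * f r else 0) ≤ B := by
    intro i _
    have h2i : (1 : ℝ) ≤ 2 ^ i := one_le_pow₀ (by norm_num)
    have hle : Z / 2 ^ i ≤ Z := div_le_self hZ0.le h2i
    by_cases h3 : 1 ≤ Z / 2 ^ i
    · refine le_trans (le_of_eq ?_) (h _ h3 hle)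
      rw [← Finset.sum_filter, Finset.mul_sum]
      refine Finset.sum_congr ?_ fun _ _ => rfl
      ext r
      rw [Finset.mem_filter]
      exact ⟨fun h => h.2, fun h => ⟨BF_mono hle h, h⟩⟩
    · refine le_trans (le_of_eq ?_) hB
      refine Finset.sum_eq_zero fun r _ => if_neg fun h4 => h3 ?_
      obtain ⟨h5, h6⟩ := mem_BF.mp h4
      exact (nm_ge_one h5.1).trans h6
  refine (Finset.sum_le_sum h2).trans ?_
  rw [Finset.sum_const, Finset.card_range, nsmul_eq_mul]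
  refine mul_le_mul_of_nonneg_right ?_ hB
  rw [hN]
  push_cast
  have h5 : (⌊Real.log Z / Real.log 2⌋₊ : ℝ) ≤ Real.log Z / Real.log 2 :=
    Nat.floor_le (by positivity)
  have h6 : Real.log Z / Real.log 2 ≤ 2 * Real.log Z := by
    rw [div_le_iff₀ hl2]
    have := Real.log_two_gt_d9
    nlinarith
  linarith

/-- the size parameter in a dyadic block -/
lemma lm_dyad {K X' V : ℝ} (hK : 0 < K) (hX : 0 < X') {r : Eis} (hr : r ≠ 0)
    (h1 : (nm r : ℝ) ≤ V) (h2 : V < 2 * nm r) :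
    lm K X' 1 r ≤ 4 * (V * K / X' ^ 2) ^ (-(1 / 3) : ℝ) := by
  have hr0 := nmpos hr
  have hV : 0 < V := hr0.trans_le h1
  unfold lm
  rw [nm_one]
  push_cast
  rw [div_one]
  have e1 : X' ^ (2 / 3 : ℝ) * (K * nm r) ^ (-(1 / 3) : ℝ) =
      (nm r * K / X' ^ 2) ^ (-(1 / 3) : ℝ) := by
    have e0 : (X' ^ 2) ^ (-(1 / 3) : ℝ) = (X' ^ (2 / 3 : ℝ))⁻¹ := by
      rw [← Real.rpow_natCast X' 2, ← Real.rpow_mul hX.le, ← Real.rpow_neg hX.le]
      congr 1; push_cast; ring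
    rw [Real.div_rpow (by positivity) (by positivity), e0, mul_comm K]
    field_simp
  rw [e1]
  have e2 : (nm r * K / X' ^ 2) ^ (-(1 / 3) : ℝ) ≤ (V * K / X' ^ 2 / 2) ^ (-(1 / 3) : ℝ) := by
    apply Real.rpow_le_rpow_of_nonpos (by positivity)
    · have : V * K / X' ^ 2 / 2 = (V / 2) * K / X' ^ 2 := by ring
      rw [this]
      have h3 : V / 2 ≤ nm r := by linarith
      gcongr
    · norm_num
  have e3 : (V * K / X' ^ 2 / 2) ^ (-(1 / 3) : ℝ) = (V * K / X' ^ 2) ^ (-(1 / 3) : ℝ) *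
      (2 : ℝ) ^ (1 / 3 : ℝ) := by
    rw [Real.div_rpow (by positivity) (by norm_num), div_eq_mul_inv, ← Real.rpow_neg (by norm_num)]
    norm_num
  have e4 : (2 : ℝ) ^ (1 / 3 : ℝ) ≤ 4 / 3 := by
    have h5 : ((4 / 3 : ℝ) ^ 3) ^ (1 / 3 : ℝ) = 4 / 3 := by
      rw [← Real.rpow_natCast, ← Real.rpow_mul (by norm_num)]; norm_num
    rw [← h5]
    exact Real.rpow_le_rpow (by norm_num) (by norm_num) (by norm_num)
  have h6 : 0 ≤ (V * K / X' ^ 2) ^ (-(1 / 3) : ℝ) := by positivity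
  calc 3 * (nm r * K / X' ^ 2) ^ (-(1 / 3) : ℝ) ≤ 3 * ((V * K / X' ^ 2) ^ (-(1 / 3) : ℝ) *
        (2 : ℝ) ^ (1 / 3 : ℝ)) := by rw [← e3]; linarith
    _ ≤ 3 * ((V * K / X' ^ 2) ^ (-(1 / 3) : ℝ) * (4 / 3)) := by gcongr
    _ = _ := by ring

/-- the averaged moment -/
lemma sum_Wb_le {A J : ℝ} (hA : J + 1 < A) (hJ : 0 ≤ J) {Y : ℝ} (hY : 0 ≤ Y) {β : Eis → ℂ}
    (hβ : ∀ n, β n ≠ 0 → n ∈ S Y) {V Q : ℝ}
    (h : ∀ t, VF V (tws β t) ≤ Q * (1 + |t|) ^ J) :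
    ∑ r ∈ BF V, Wb A β r ≤ Q * ∫ t, jb (A - J) t := by
  have hint : ∀ r ∈ BF V, Integrable fun t => jb A t * ‖Vt β r t‖ ^ 2 := fun r _ => by
    have := integrable_Vt (A := A) (by linarith) hY hβ r 1
    simpa using this
  unfold Wb
  rw [← integral_finsetSum _ hint, ← integral_const_mul]
  refine integral_mono (integrable_finsetSum _ hint)
    ((integrable_jb (by linarith : 1 < A - J)).const_mul Q) fun t => ?_
  show ∑ r ∈ BF V, jb A t * ‖Vt β r t‖ ^ 2 ≤ Q * jb (A - J) t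
  rw [← Finset.mul_sum, sum_BF_Vt]
  have h1 := mul_le_mul_of_nonneg_left (h t) (jb_pos A t).le
  refine h1.trans (le_of_eq ?_)
  unfold jb
  have h2 : (0 : ℝ) < 1 + |t| := by positivity
  rw [show -(A - J) = -A + J by ring, Real.rpow_add h2]
  ring

/-- **`FW` from the cube-free moments** -/
theorem FW_le_VF {A J : ℝ} (hA : J + 1 < A) (hJ : 0 ≤ J) {Y : ℝ} (hY : 0 ≤ Y) {β : Eis → ℂ}
    (hβ : ∀ n, β n ≠ 0 → n ∈ S Y) {K X' Z M : ℝ} (hK : 0 < K) (hX : 0 < X') (hZ : 1 ≤ Z)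
    (hM : 0 ≤ M) (h : ∀ V, 1 ≤ V → V ≤ Z → ∀ t, VF V (tws β t) ≤
      M * max 1 ((V * K / X' ^ 2) ^ (1 / 3 : ℝ)) * (1 + |t|) ^ J) :
    FW A K X' (BF Z) β ≤ 4 * (∫ t, jb (A - J) t) * (1 + 2 * Real.log Z) * M := by
  have hI : 0 ≤ ∫ t, jb (A - J) t := integral_nonneg fun t => (jb_pos _ t).le
  have h1 := dyad hZ (f := fun r => Wb A β r) (ω := fun r => min 1 (lm K X' 1 r))
    (Ω := fun V => min 1 (4 * (V * K / X' ^ 2) ^ (-(1 / 3) : ℝ))) (B := 4 * M *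
      ∫ t, jb (A - J) t)
    (fun r => Wb_nonneg _ _ _)
    (fun r hr V h1 h2 => min_le_min le_rfl (lm_dyad hK hX (mem_BF.mp hr).1.1 h1 h2))
    (fun V hV => le_min zero_le_one (by positivity)) (by positivity)
    (fun V hV1 hVZ => by
      have h2 := sum_Wb_le hA hJ hY hβ (V := V) (h V hV1 hVZ)
      set y := (V * K / X' ^ 2) ^ (1 / 3 : ℝ) with hy
      have hV0 : 0 < V := by linarith
      have hy0 : 0 < y := by rw [hy]; positivity
      have e1 : (V * K / X' ^ 2) ^ (-(1 / 3) : ℝ) = y⁻¹ := by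
        rw [hy, Real.rpow_neg (by positivity)]
      rw [e1]
      have h3 : min 1 (4 * y⁻¹) * max 1 y ≤ 4 := by
        rcases le_total 1 y with h4 | h4
        · rw [max_eq_right h4]
          calc min 1 (4 * y⁻¹) * y ≤ (4 * y⁻¹) * y :=
                mul_le_mul_of_nonneg_right (min_le_right _ _) hy0.le
            _ = 4 := by field_simp
        · rw [max_eq_left h4, mul_one]
          exact (min_le_left _ _).trans (by norm_num)
      have h5 : 0 ≤ min 1 (4 * y⁻¹) := le_min zero_le_one (by positivity)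
      calc min 1 (4 * y⁻¹) * ∑ r ∈ BF V, Wb A β r
          ≤ min 1 (4 * y⁻¹) * (M * max 1 y * ∫ t, jb (A - J) t) :=
            mul_le_mul_of_nonneg_left h2 h5
        _ = (min 1 (4 * y⁻¹) * max 1 y) * (M * ∫ t, jb (A - J) t) := by ring
        _ ≤ 4 * (M * ∫ t, jb (A - J) t) := mul_le_mul_of_nonneg_right h3 (by positivity)
        _ = _ := by ring)
  unfold FW
  refine h1.trans (le_of_eq ?_)
  ring

/-- **`Lo` from the cube-free moments** -/
theorem Lo_le_VF {A J : ℝ} (hA : J + 1 < A) (hJ : 0 ≤ J) {Y : ℝ} (hY : 0 ≤ Y) {β : Eis → ℂ}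
    (hβ : ∀ n, β n ≠ 0 → n ∈ S Y) {K X' Z M : ℝ} (hK : 0 < K) (hX : 0 < X') (hZ : 1 ≤ Z)
    (hM : 0 ≤ M) (h : ∀ V, 1 ≤ V → V ≤ Z → ∀ t, VF V (tws β t) ≤
      M * (V * K / X' ^ 2) ^ (1 / 3 : ℝ) * (1 + |t|) ^ J) :
    Lo A K X' Z β ≤ 4 * (∫ t, jb (A - J) t) * (1 + 2 * Real.log Z) * M := by
  have hI : 0 ≤ ∫ t, jb (A - J) t := integral_nonneg fun t => (jb_pos _ t).le
  have h1 := dyad hZ (f := fun r => Wb A β r) (ω := fun r => lm K X' 1 r)
    (Ω := fun V => 4 * (V * K / X' ^ 2) ^ (-(1 / 3) : ℝ)) (B := 4 * M *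
      ∫ t, jb (A - J) t)
    (fun r => Wb_nonneg _ _ _)
    (fun r hr V h1 h2 => lm_dyad hK hX (mem_BF.mp hr).1.1 h1 h2)
    (fun V hV => by positivity) (by positivity)
    (fun V hV1 hVZ => by
      have h2 := sum_Wb_le hA hJ hY hβ (V := V) (h V hV1 hVZ)
      set y := (V * K / X' ^ 2) ^ (1 / 3 : ℝ) with hy
      have hV0 : 0 < V := by linarith
      have hy0 : 0 < y := by rw [hy]; positivity
      have e1 : (V * K / X' ^ 2) ^ (-(1 / 3) : ℝ) = y⁻¹ := by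
        rw [hy, Real.rpow_neg (by positivity)]
      rw [e1]
      calc 4 * y⁻¹ * ∑ r ∈ BF V, Wb A β r
          ≤ 4 * y⁻¹ * (M * y * ∫ t, jb (A - J) t) :=
            mul_le_mul_of_nonneg_left h2 (by positivity)
        _ = _ := by field_simp)
  unfold Lo
  refine h1.trans (le_of_eq ?_)
  ring

end Crest.Agent.R017.E1551
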