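import Crest.Agent.R017.E1zb_551
import Crest.Agent.R017.E1w_551
import Crest.Agent.R012.CR3a_436

/-!
# Row 17, block C70 (exact square), leaf E1, part zc (helper551): the errors as one number

* `small_le` : the pairs `(h, U)` with `N(h U) ≤ G₀`: fixed `g = h U`
* `large_le` : the pairs with `N(h U) > G₀`: `h` fixed, joint sum over `U` and `κ`
* `EU_le` : both
-/

set_option autoImplicit false

noncomputable section

open Complex MeasureTheory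
open scoped ComplexConjugate Classical

namespace Crest.Agent.R017.E1551

open Crest.Agent.R012 Crest.Agent.R012.Eis Crest.Agent.R012.MC
open Crest.Agent.R012.LS2 (S mem_S bl)
open Crest.Agent.R012.Weight600 (pw pw_mul norm_pw)
open Crest.Agent.R017.CM106 (CS TG)
open Crest.Agent.R017.Dual2813 (S_of_dvd)
open Crest.Agent.R017.Rough381 (VF)

/-- twisting before or after passing to the sub-sequence -/
lemma norm_TG_tws_sg {Y : ℝ} (hY : 0 ≤ Y) {α : Eis → ℂ} (hα : ∀ n, α n ≠ 0 → n ∈ S Y)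
    {g : Eis} (hg : g ≠ 0) (t : ℝ) (r : Eis) :
    ‖TG (tws (sg α g) t) r‖ = ‖TG (sg (tws α t) g) r‖ := by
  have h1 : TG (sg (tws α t) g) r = pw t (nm g) * TG (tws (sg α g) t) r := by
    unfold TG
    rw [← tsum_mul_left]
    refine tsum_congr fun m => ?_
    show α (g * m) * pw t (nm (g * m)) * (G m * conj (sy r m)) =
      pw t (nm g) * (α (g * m) * pw t (nm m) * (G m * conj (sy r m)))
    by_cases h : α (g * m) = 0
    · rw [h]; ring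
    · have h2 := ((mem_S hY).1 (hα _ h)).2.1.ne_zero
      have hm : m ≠ 0 := right_ne_zero_of_mul h2
      rw [nm_mul]
      push_cast
      rw [pw_mul (nmpos hg).ne' (nmpos hm).ne']
      ring
  rw [h1, norm_mul, norm_pw, one_mul]

/-! ### dyadic blocks -/

lemma dyad1 {ι : Type*} {T : Finset ι} {n f : ι → ℝ} {Z D : ℝ} (hZ : 1 ≤ Z) (hD : 0 ≤ D)
    (hf : ∀ x ∈ T, 0 ≤ f x) (hn : ∀ x ∈ T, 1 ≤ n x ∧ n x ≤ Z)
    (h : ∀ B, 1 ≤ B → B ≤ Z → ∑ x ∈ T.filter (fun x => B / 2 < n x ∧ n x ≤ B), f x ≤ D) :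
    ∑ x ∈ T, f x ≤ (1 + 2 * Real.log Z) * D := by
  have hlog := Real.log_nonneg hZ
  have hZ0 : 0 < Z := by linarith
  set N : ℕ := ⌊Real.log Z / Real.log 2⌋₊ + 1 with hN
  have hl2 : 0 < Real.log 2 := Real.log_pos (by norm_num)
  have hidx : ∀ x ∈ T, ∃ i : ℕ, i ∈ Finset.range N ∧ n x ≤ Z / 2 ^ i ∧ Z / 2 ^ i / 2 < n x := by
    intro x hx
    obtain ⟨h1, h2⟩ := hn x hx
    have hx0 : 0 < n x := by linarith
    obtain ⟨i, hi1, hi2⟩ := exists_nat_pow_near (x := Z / n x) (y := 2)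
      ((one_le_div hx0).mpr h2) (by norm_num)
    have h2i : (0 : ℝ) < 2 ^ i := by positivity
    refine ⟨i, ?_, ?_, ?_⟩
    · rw [Finset.mem_range, hN]
      apply Nat.lt_succ_of_le
      apply Nat.le_floor
      rw [le_div_iff₀ hl2]
      have h3 : (2 : ℝ) ^ i ≤ Z := hi1.trans (div_le_self hZ0.le h1)
      have h4 := Real.log_le_log h2i h3
      rwa [Real.log_pow] at h4
    · rw [le_div_iff₀ h2i]
      rw [le_div_iff₀ hx0] at hi1
      linarith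
    · rw [div_div, div_lt_iff₀ (by positivity)]
      rw [div_lt_iff₀ hx0, pow_succ] at hi2
      linarith
  have h1 : ∀ x ∈ T, f x ≤ ∑ i ∈ Finset.range N,
      if Z / 2 ^ i / 2 < n x ∧ n x ≤ Z / 2 ^ i then f x else 0 := by
    intro x hx
    obtain ⟨i, hi, hi1, hi2⟩ := hidx x hx
    refine le_trans ?_ (Finset.single_le_sum (f := fun i =>
      if Z / 2 ^ i / 2 < n x ∧ n x ≤ Z / 2 ^ i then f x else 0) (fun j _ => ?_) hi)
    · simp only [if_pos (And.intro hi2 hi1)]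
      exact le_rfl
    · split_ifs
      · exact hf x hx
      · exact le_rfl
  refine (Finset.sum_le_sum h1).trans ?_
  rw [Finset.sum_comm]
  have h2 : ∀ i ∈ Finset.range N, (∑ x ∈ T,
      if Z / 2 ^ i / 2 < n x ∧ n x ≤ Z / 2 ^ i then f x else 0) ≤ D := by
    intro i _
    have h2i : (1 : ℝ) ≤ 2 ^ i := one_le_pow₀ (by norm_num)
    have hle : Z / 2 ^ i ≤ Z := div_le_self hZ0.le h2i
    rw [← Finset.sum_filter]
    by_cases h3 : 1 ≤ Z / 2 ^ i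
    · exact h _ h3 hle
    · refine le_trans (le_of_eq ?_) hD
      refine Finset.sum_eq_zero fun x hx => ?_
      obtain ⟨hx1, -, hx2⟩ := Finset.mem_filter.mp hx
      exact absurd ((hn x hx1).1.trans hx2) h3
  refine (Finset.sum_le_sum h2).trans ?_
  rw [Finset.sum_const, Finset.card_range, nsmul_eq_mul]
  refine mul_le_mul_of_nonneg_right ?_ hD
  rw [hN]
  push_cast
  have h5 : (⌊Real.log Z / Real.log 2⌋₊ : ℝ) ≤ Real.log Z / Real.log 2 :=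
    Nat.floor_le (by positivity)
  have h6 : Real.log Z / Real.log 2 ≤ 2 * Real.log Z := by
    rw [div_le_iff₀ hl2]
    have := Real.log_two_gt_d9
    nlinarith
  linarith

lemma dyad2 {ι : Type*} {T : Finset ι} {n₁ n₂ ω f : ι → ℝ} {Z₁ Z₂ D : ℝ} (hZ₁ : 1 ≤ Z₁)
    (hZ₂ : 1 ≤ Z₂) (hD : 0 ≤ D) (hf : ∀ x ∈ T, 0 ≤ f x) (hω0 : ∀ x ∈ T, 0 ≤ ω x)
    (hn₁ : ∀ x ∈ T, 1 ≤ n₁ x ∧ n₁ x ≤ Z₁) (hn₂ : ∀ x ∈ T, 1 ≤ n₂ x ∧ n₂ x ≤ Z₂)
    {Ω : ℝ → ℝ → ℝ} (hΩ : ∀ B V, 0 < B → 0 < V → 0 ≤ Ω B V)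
    (hω : ∀ x ∈ T, ∀ B V, n₁ x ≤ B → B < 2 * n₁ x → n₂ x ≤ V → V < 2 * n₂ x → ω x ≤ Ω B V)
    (h : ∀ B V, 1 ≤ B → B ≤ Z₁ → 1 ≤ V → V ≤ Z₂ → Ω B V *
      ∑ x ∈ T.filter (fun x => B / 2 < n₁ x ∧ n₁ x ≤ B ∧ n₂ x ≤ V), f x ≤ D) :
    ∑ x ∈ T, ω x * f x ≤ (1 + 2 * Real.log Z₁) * ((1 + 2 * Real.log Z₂) * D) := by
  have hl2 := Real.log_nonneg hZ₂
  refine dyad1 hZ₁ (by positivity) (fun x hx => mul_nonneg (hω0 x hx) (hf x hx)) hn₁
    fun B hB1 hB2 => ?_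
  have hB0 : 0 < B := by linarith
  refine dyad1 hZ₂ hD (fun x hx => ?_) (fun x hx => hn₂ x (Finset.mem_filter.mp hx).1)
    fun V hV1 hV2 => ?_
  · have hx1 := (Finset.mem_filter.mp hx).1
    exact mul_nonneg (hω0 x hx1) (hf x hx1)
  have hV0 : 0 < V := by linarith
  refine le_trans ?_ (h B V hB1 hB2 hV1 hV2)
  rw [Finset.filter_filter, Finset.mul_sum]
  have e1 : ∀ x ∈ T.filter (fun x => (B / 2 < n₁ x ∧ n₁ x ≤ B) ∧ V / 2 < n₂ x ∧ n₂ x ≤ V),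
      ω x * f x ≤ Ω B V * f x := by
    intro x hx
    obtain ⟨hx1, ⟨h1, h2⟩, h3, h4⟩ := Finset.mem_filter.mp hx
    refine mul_le_mul_of_nonneg_right ?_ (hf x hx1)
    exact hω x hx1 B V h2 (by linarith) h4 (by linarith)
  refine (Finset.sum_le_sum e1).trans ?_
  refine Finset.sum_le_sum_of_subset_of_nonneg ?_ fun x hx _ =>
    mul_nonneg (hΩ B V hB0 hV0) (hf x (Finset.mem_filter.mp hx).1)
  intro x hx
  obtain ⟨hx1, ⟨h1, h2⟩, h3, h4⟩ := Finset.mem_filter.mp hx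
  exact Finset.mem_filter.mpr ⟨hx1, h1, h2, h4⟩

/-! ### the size parameter -/

lemma nmU_lm {K X : ℝ} (hK : 0 < K) (hX : 0 < X) {h U κ : Eis} (hh : h ≠ 0) (hU : U ≠ 0)
    (hκ : κ ≠ 0) : nm U * lm K (X / nm (h * U)) 1 (κ * U) = lm K X h κ := by
  have a0 := nmpos hU
  have d0 := nmpos hh
  have j0 := nmpos hκ
  unfold lm
  rw [nm_mul, nm_mul, nm_one]
  push_cast
  rw [div_one]
  generalize (nm U : ℝ) = a at *
  generalize (nm h : ℝ) = v at *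
  generalize (nm κ : ℝ) = u at *
  rw [Real.rpow_def_of_pos (show 0 < X / (v * a) by positivity),
    Real.rpow_def_of_pos (show 0 < K * (u * a) by positivity),
    Real.rpow_def_of_pos (show 0 < X / v by positivity),
    Real.rpow_def_of_pos (show 0 < K * u by positivity)]
  have l1 : Real.log (X / (v * a)) = Real.log (X / v) - Real.log a := by
    rw [Real.log_div hX.ne' (by positivity), Real.log_mul d0.ne' a0.ne',
      Real.log_div hX.ne' d0.ne']; ring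
  have l2 : Real.log (K * (u * a)) = Real.log (K * u) + Real.log a := by
    rw [Real.log_mul hK.ne' (by positivity), Real.log_mul j0.ne' a0.ne',
      Real.log_mul hK.ne' j0.ne']; ring
  rw [l1, l2]
  have e6 : a = Real.exp (Real.log a) := (Real.exp_log a0).symm
  have e7 : Real.exp (Real.log a) * (Real.exp ((Real.log (X / v) - Real.log a) * (2 / 3)) *
      Real.exp ((Real.log (K * u) + Real.log a) * (-(1 / 3)))) =
      Real.exp (Real.log (X / v) * (2 / 3)) * Real.exp (Real.log (K * u) * (-(1 / 3))) := by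
    rw [← Real.exp_add, ← Real.exp_add, ← Real.exp_add]
    congr 1; ring
  rw [← e7, ← e6]
  ring

/-- the size parameter of a block -/
def yv (K X : ℝ) (h : Eis) (V : ℝ) : ℝ := (K * V) ^ (1 / 3 : ℝ) * (X / nm h) ^ (-(2 / 3) : ℝ)

lemma yv_pos {K X V : ℝ} (hK : 0 < K) (hX : 0 < X) (hV : 0 < V) {h : Eis} (hh : h ≠ 0) :
    0 < yv K X h V := by
  have := nmpos hh
  unfold yv
  positivity

lemma lm_block {K X V : ℝ} (hK : 0 < K) (hX : 0 < X) {h κ : Eis} (hh : h ≠ 0) (hκ : κ ≠ 0)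
    (h1 : (nm κ : ℝ) ≤ V) (h2 : V < 2 * nm κ) : lm K X h κ ≤ 4 * (yv K X h V)⁻¹ := by
  have hr0 := nmpos hκ
  have hh0 := nmpos hh
  have hV : 0 < V := hr0.trans_le h1
  unfold lm yv
  rw [mul_inv, ← Real.rpow_neg (by positivity), ← Real.rpow_neg (by positivity), neg_neg]
  have e2 : (K * nm κ) ^ (-(1 / 3) : ℝ) ≤ (K * V / 2) ^ (-(1 / 3) : ℝ) := by
    apply Real.rpow_le_rpow_of_nonpos (by positivity)
    · rw [mul_div_assoc]
      exact mul_le_mul_of_nonneg_left (by linarith) hK.le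
    · norm_num
  have e3 : (K * V / 2) ^ (-(1 / 3) : ℝ) = (K * V) ^ (-(1 / 3) : ℝ) * (2 : ℝ) ^ (1 / 3 : ℝ) := by
    rw [Real.div_rpow (by positivity) (by norm_num), div_eq_mul_inv, ← Real.rpow_neg (by norm_num)]
    norm_num
  have e4 : (2 : ℝ) ^ (1 / 3 : ℝ) ≤ 4 / 3 := by
    have h5 : ((4 / 3 : ℝ) ^ 3) ^ (1 / 3 : ℝ) = 4 / 3 := by
      rw [← Real.rpow_natCast, ← Real.rpow_mul (by norm_num)]; norm_num
    rw [← h5]
    exact Real.rpow_le_rpow (by norm_num) (by norm_num) (by norm_num)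
  have h6 : 0 ≤ (K * V) ^ (-(1 / 3) : ℝ) := by positivity
  have h7 : 0 ≤ (X / nm h) ^ (2 / 3 : ℝ) := by positivity
  have h8 : (K * nm κ) ^ (-(1 / 3) : ℝ) ≤ (K * V) ^ (-(1 / 3) : ℝ) * (4 / 3) := by
    rw [e3] at e2
    exact e2.trans (mul_le_mul_of_nonneg_left e4 h6)
  calc 3 * ((X / nm h) ^ (2 / 3 : ℝ) * (K * nm κ) ^ (-(1 / 3) : ℝ))
      ≤ 3 * ((X / nm h) ^ (2 / 3 : ℝ) * ((K * V) ^ (-(1 / 3) : ℝ) * (4 / 3))) := by gcongr
    _ = _ := by ring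

/-! ### `h` fixed -/

/-- the joint block `(h; B, V)` at the twist `t` -/
def JB (Y : ℝ) (α : Eis → ℂ) (Q : Eis → Prop) (h : Eis) (B V t : ℝ) : ℝ :=
  ∑ U ∈ (S Y).filter (fun U => B / 2 < nm U ∧ nm U ≤ B ∧ Q U),
    ∑ κ ∈ BU V U, ‖TG (tws (sg α (h * U)) t) (κ * U)‖ ^ 2

/-- the index set for `h` fixed -/
def TH (Y Z : ℝ) (Q : Eis → Prop) : Finset (Eis × Eis) :=
  (((S Y).filter Q) ×ˢ BF Z).filter (fun x => CF (x.2 * x.1))

lemma sum_TH (Y Z : ℝ) (Q : Eis → Prop) (F : Eis → Eis → ℝ) :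
    ∑ x ∈ TH Y Z Q, F x.1 x.2 = ∑ U ∈ (S Y).filter Q, ∑ κ ∈ BU Z U, F U κ := by
  unfold TH BU
  rw [Finset.sum_filter, Finset.sum_product]
  refine Finset.sum_congr rfl fun U _ => ?_
  rw [Finset.sum_filter]

lemma TH_filter {Y Z B V : ℝ} (hV : V ≤ Z) (Q : Eis → Prop) :
    (TH Y Z Q).filter (fun x => B / 2 < (nm x.1 : ℝ) ∧ (nm x.1 : ℝ) ≤ B ∧ (nm x.2 : ℝ) ≤ V) =
      TH Y V (fun U => B / 2 < (nm U : ℝ) ∧ (nm U : ℝ) ≤ B ∧ Q U) := by
  ext x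
  unfold TH
  simp only [Finset.mem_filter, Finset.mem_product, mem_BF]
  constructor
  · rintro ⟨⟨⟨⟨h1, h2⟩, h3, -⟩, h4⟩, h5, h6, h7⟩
    exact ⟨⟨⟨h1, h5, h6, h2⟩, h3, h7⟩, h4⟩
  · rintro ⟨⟨⟨h1, h5, h6, h2⟩, h3, h7⟩, h4⟩
    exact ⟨⟨⟨⟨h1, h2⟩, h3, h7.trans hV⟩, h4⟩, h5, h6, h7⟩

/-- integration over the twists -/
lemma sum_Wb_TH {A J : ℝ} (hA : J + 1 < A) (hJ : 0 ≤ J) {Y : ℝ} (hY : 0 ≤ Y) {α : Eis → ℂ}
    (hα : ∀ n, α n ≠ 0 → n ∈ S Y) {h : Eis} (hh : IsPrim h) {V Q₀ : ℝ} {Q : Eis → Prop}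
    (hyp : ∀ t, ∑ U ∈ (S Y).filter Q, ∑ κ ∈ BU V U, ‖TG (tws (sg α (h * U)) t) (κ * U)‖ ^ 2 ≤
      Q₀ * (1 + |t|) ^ J) :
    ∑ x ∈ TH Y V Q, Wb A (sg α (h * x.1)) (x.2 * x.1) ≤ Q₀ * ∫ t, jb (A - J) t := by
  have hβ : ∀ x ∈ TH Y V Q, ∀ n, sg α (h * x.1) n ≠ 0 → n ∈ S Y := by
    intro x hx n hn
    obtain ⟨h1, -⟩ := Finset.mem_filter.mp hx
    have h2 := (mem_S hY).1 (Finset.mem_filter.mp (Finset.mem_product.mp h1).1).1
    have h3 := hα _ hn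
    have h4 := (mem_S hY).1 h3
    exact S_of_dvd hY h3 (IsPrim.of_mul_left h4.2.1 (hh.mul h2.2.1)) (dvd_mul_left _ _)
  have hint : ∀ x ∈ TH Y V Q,
      Integrable fun t => jb A t * ‖Vt (sg α (h * x.1)) (x.2 * x.1) t‖ ^ 2 := fun x hx => by
    have := integrable_Vt (A := A) (by linarith) hY (hβ x hx) (x.2 * x.1) 1
    simpa using this
  unfold Wb
  rw [← integral_finsetSum _ hint, ← integral_const_mul]
  refine integral_mono (integrable_finsetSum _ hint)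
    ((integrable_jb (by linarith : 1 < A - J)).const_mul Q₀) fun t => ?_
  show ∑ x ∈ TH Y V Q, jb A t * ‖Vt (sg α (h * x.1)) (x.2 * x.1) t‖ ^ 2 ≤ Q₀ * jb (A - J) t
  rw [← Finset.mul_sum]
  have e0 := sum_TH Y V Q (fun U κ => ‖Vt (sg α (h * U)) (κ * U) t‖ ^ 2)
  have h1 : ∑ x ∈ TH Y V Q, ‖Vt (sg α (h * x.1)) (x.2 * x.1) t‖ ^ 2 ≤ Q₀ * (1 + |t|) ^ J := by
    rw [e0]
    exact hyp t
  have h2 := mul_le_mul_of_nonneg_left h1 (jb_pos A t).le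
  refine h2.trans (le_of_eq ?_)
  unfold jb
  have h3 : (0 : ℝ) < 1 + |t| := by positivity
  rw [show -(A - J) = -A + J by ring, Real.rpow_add h3]
  ring

/-- **`h` fixed, main range** -/
theorem large_h {A J : ℝ} (hA : J + 1 < A) (hJ : 0 ≤ J) {K X Y Z M : ℝ} (hK : 0 < K)
    (hX : 0 < X) (hY : 1 ≤ Y) (hM : 0 ≤ M) {α : Eis → ℂ} (hα : ∀ n, α n ≠ 0 → n ∈ S Y)
    {h : Eis} (hh : IsPrim h) {Q : Eis → Prop}
    (hyp : ∀ B V, 1 ≤ B → B ≤ Y → 1 ≤ V → V ≤ Z / (nm h : ℝ) ^ 2 → ∀ t,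
      JB Y α Q h B V t ≤ M * max B⁻¹ (yv K X h V) * (1 + |t|) ^ J) :
    ∑ U ∈ (S Y).filter Q, nm U * UJ A K X Z α h U ≤
      4 * (∫ t, jb (A - J) t) * (1 + 2 * Real.log Y) *
        (1 + 2 * Real.log (max 1 (Z / (nm h : ℝ) ^ 2))) * M := by
  have hY0 : 0 ≤ Y := by linarith
  have hh0 := hh.ne_zero
  have hI : 0 ≤ ∫ t, jb (A - J) t := integral_nonneg fun t => (jb_pos _ t).le
  have hlY := Real.log_nonneg hY
  have hlZ := Real.log_nonneg (le_max_left 1 (Z / (nm h : ℝ) ^ 2))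
  set Z' := Z / (nm h : ℝ) ^ 2 with hZ'
  by_cases hZ1 : 1 ≤ Z'
  swap
  · have hz : ∀ U, UJ A K X Z α h U = 0 := by
      intro U
      unfold UJ
      rw [← hZ']
      have : BU Z' U = ∅ := by
        rw [Finset.eq_empty_iff_forall_notMem]
        intro κ hκ
        obtain ⟨⟨h1, h2⟩, -⟩ := mem_BU.mp hκ
        exact hZ1 ((nm_ge_one h1.1).trans h2)
      rw [this, Finset.sum_empty]
    simp only [hz, mul_zero, Finset.sum_const_zero]
    positivity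
  rw [max_eq_right hZ1]
  have hUp : ∀ x ∈ TH Y Z' Q, x.1 ∈ S Y ∧ CF x.2 ∧ (nm x.2 : ℝ) ≤ Z' := by
    intro x hx
    obtain ⟨h1, -⟩ := Finset.mem_filter.mp hx
    have h2 := Finset.mem_product.mp h1
    exact ⟨(Finset.mem_filter.mp h2.1).1, mem_BF.mp h2.2⟩
  have e1 : ∑ U ∈ (S Y).filter Q, nm U * UJ A K X Z α h U = ∑ x ∈ TH Y Z' Q,
      (nm x.1 * min 1 (lm K (X / nm (h * x.1)) 1 (x.2 * x.1))) *
        Wb A (sg α (h * x.1)) (x.2 * x.1) := by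
    rw [sum_TH Y Z' Q (fun U κ => (nm U * min 1 (lm K (X / nm (h * U)) 1 (κ * U))) *
        Wb A (sg α (h * U)) (κ * U))]
    refine Finset.sum_congr rfl fun U _ => ?_
    unfold UJ
    rw [Finset.mul_sum]
    exact Finset.sum_congr rfl fun κ _ => by ring
  rw [e1]
  have h1 := dyad2 (T := TH Y Z' Q) (n₁ := fun x => (nm x.1 : ℝ)) (n₂ := fun x => (nm x.2 : ℝ))
    (ω := fun x => nm x.1 * min 1 (lm K (X / nm (h * x.1)) 1 (x.2 * x.1)))
    (f := fun x => Wb A (sg α (h * x.1)) (x.2 * x.1)) (Z₁ := Y) (Z₂ := Z')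
    (D := 4 * M * ∫ t, jb (A - J) t) hY hZ1 (by positivity) (fun x _ => Wb_nonneg _ _ _)
    (fun x _ => mul_nonneg (Nat.cast_nonneg _) (le_min zero_le_one
      (lm_nonneg hK.le (div_nonneg hX.le (Nat.cast_nonneg _)) _ _)))
    (fun x hx => by
      have := (mem_S hY0).1 (hUp x hx).1
      exact ⟨nm_ge_one this.2.1.ne_zero, this.1⟩)
    (fun x hx => ⟨nm_ge_one (hUp x hx).2.1.1, (hUp x hx).2.2⟩)
    (Ω := fun B V => min B (4 * (yv K X h V)⁻¹))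
    (fun B V hB hV => le_min hB.le (by have := yv_pos hK hX hV hh0; positivity))
    (fun x hx B V h1 h2 h3 h4 => by
      obtain ⟨hx1, hx2, -⟩ := hUp x hx
      have hU0 := ((mem_S hY0).1 hx1).2.1.ne_zero
      have hU1 := nmpos hU0
      show nm x.1 * min 1 (lm K (X / nm (h * x.1)) 1 (x.2 * x.1)) ≤ _
      rw [mul_min_of_nonneg _ _ hU1.le, mul_one, nmU_lm hK hX hh0 hU0 hx2.1]
      exact min_le_min h1 (lm_block hK hX hh0 hx2.1 h3 h4))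
    (fun B V hB1 hB2 hV1 hV2 => by
      have hB0 : 0 < B := by linarith
      have hV0 : 0 < V := by linarith
      have hy := yv_pos hK hX hV0 hh0
      rw [TH_filter hV2]
      have h5 := sum_Wb_TH hA hJ hY0 hα hh (V := V) (Q₀ := M * max B⁻¹ (yv K X h V))
        (Q := fun U => B / 2 < (nm U : ℝ) ∧ (nm U : ℝ) ≤ B ∧ Q U)
        (fun t => by
          have h0 := hyp B V hB1 hB2 hV1 hV2 t
          unfold JB at h0
          convert h0)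
      set y := yv K X h V
      have h3 : min B (4 * y⁻¹) * max B⁻¹ y ≤ 4 := by
        rcases le_total B⁻¹ y with h4 | h4
        · rw [max_eq_right h4]
          calc min B (4 * y⁻¹) * y ≤ (4 * y⁻¹) * y :=
                mul_le_mul_of_nonneg_right (min_le_right _ _) hy.le
            _ = 4 := by field_simp
        · rw [max_eq_left h4]
          calc min B (4 * y⁻¹) * B⁻¹ ≤ B * B⁻¹ :=
                mul_le_mul_of_nonneg_right (min_le_left _ _) (by positivity)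
            _ = 1 := by field_simp
            _ ≤ 4 := by norm_num
      have h6 : 0 ≤ min B (4 * y⁻¹) := le_min hB0.le (by positivity)
      calc min B (4 * y⁻¹) * _ ≤ min B (4 * y⁻¹) * (M * max B⁻¹ y * ∫ t, jb (A - J) t) :=
            mul_le_mul_of_nonneg_left h5 h6
        _ = (min B (4 * y⁻¹) * max B⁻¹ y) * (M * ∫ t, jb (A - J) t) := by ring
        _ ≤ 4 * (M * ∫ t, jb (A - J) t) := mul_le_mul_of_nonneg_right h3 (by positivity)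
        _ = _ := by ring)
  refine h1.trans (le_of_eq ?_)
  ring

/-- **`h` fixed, low tail** -/
theorem large_h0 {A J : ℝ} (hA : J + 1 < A) (hJ : 0 ≤ J) {K X Y Z M : ℝ} (hK : 0 < K)
    (hX : 0 < X) (hY : 1 ≤ Y) (hM : 0 ≤ M) {α : Eis → ℂ} (hα : ∀ n, α n ≠ 0 → n ∈ S Y)
    {h : Eis} (hh : IsPrim h) {Q : Eis → Prop}
    (hyp : ∀ B V, 1 ≤ B → B ≤ Y → 1 ≤ V → V ≤ Z / (nm h : ℝ) ^ 2 → ∀ t,
      JB Y α Q h B V t ≤ M * yv K X h V * (1 + |t|) ^ J) :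
    ∑ U ∈ (S Y).filter Q, nm U * UL A K X Z α h U ≤
      4 * (∫ t, jb (A - J) t) * (1 + 2 * Real.log Y) *
        (1 + 2 * Real.log (max 1 (Z / (nm h : ℝ) ^ 2))) * M := by
  have hY0 : 0 ≤ Y := by linarith
  have hh0 := hh.ne_zero
  have hI : 0 ≤ ∫ t, jb (A - J) t := integral_nonneg fun t => (jb_pos _ t).le
  have hlY := Real.log_nonneg hY
  have hlZ := Real.log_nonneg (le_max_left 1 (Z / (nm h : ℝ) ^ 2))
  set Z' := Z / (nm h : ℝ) ^ 2 with hZ'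
  by_cases hZ1 : 1 ≤ Z'
  swap
  · have hz : ∀ U, UL A K X Z α h U = 0 := by
      intro U
      unfold UL
      rw [← hZ']
      have : BU Z' U = ∅ := by
        rw [Finset.eq_empty_iff_forall_notMem]
        intro κ hκ
        obtain ⟨⟨h1, h2⟩, -⟩ := mem_BU.mp hκ
        exact hZ1 ((nm_ge_one h1.1).trans h2)
      rw [this, Finset.sum_empty]
    simp only [hz, mul_zero, Finset.sum_const_zero]
    positivity
  rw [max_eq_right hZ1]
  have hUp : ∀ x ∈ TH Y Z' Q, x.1 ∈ S Y ∧ CF x.2 ∧ (nm x.2 : ℝ) ≤ Z' := by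
    intro x hx
    obtain ⟨h1, -⟩ := Finset.mem_filter.mp hx
    have h2 := Finset.mem_product.mp h1
    exact ⟨(Finset.mem_filter.mp h2.1).1, mem_BF.mp h2.2⟩
  have e1 : ∑ U ∈ (S Y).filter Q, nm U * UL A K X Z α h U = ∑ x ∈ TH Y Z' Q,
      (nm x.1 * lm K (X / nm (h * x.1)) 1 (x.2 * x.1)) *
        Wb A (sg α (h * x.1)) (x.2 * x.1) := by
    rw [sum_TH Y Z' Q (fun U κ => (nm U * lm K (X / nm (h * U)) 1 (κ * U)) *
        Wb A (sg α (h * U)) (κ * U))]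
    refine Finset.sum_congr rfl fun U _ => ?_
    unfold UL
    rw [Finset.mul_sum]
    exact Finset.sum_congr rfl fun κ _ => by ring
  rw [e1]
  have h1 := dyad2 (T := TH Y Z' Q) (n₁ := fun x => (nm x.1 : ℝ)) (n₂ := fun x => (nm x.2 : ℝ))
    (ω := fun x => nm x.1 * lm K (X / nm (h * x.1)) 1 (x.2 * x.1))
    (f := fun x => Wb A (sg α (h * x.1)) (x.2 * x.1)) (Z₁ := Y) (Z₂ := Z')
    (D := 4 * M * ∫ t, jb (A - J) t) hY hZ1 (by positivity) (fun x _ => Wb_nonneg _ _ _)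
    (fun x _ => mul_nonneg (Nat.cast_nonneg _)
      (lm_nonneg hK.le (div_nonneg hX.le (Nat.cast_nonneg _)) _ _))
    (fun x hx => by
      have := (mem_S hY0).1 (hUp x hx).1
      exact ⟨nm_ge_one this.2.1.ne_zero, this.1⟩)
    (fun x hx => ⟨nm_ge_one (hUp x hx).2.1.1, (hUp x hx).2.2⟩)
    (Ω := fun _ V => 4 * (yv K X h V)⁻¹)
    (fun B V hB hV => by have := yv_pos hK hX hV hh0; positivity)
    (fun x hx B V h1 h2 h3 h4 => by
      obtain ⟨hx1, hx2, -⟩ := hUp x hx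
      have hU0 := ((mem_S hY0).1 hx1).2.1.ne_zero
      have hU1 := nmpos hU0
      show nm x.1 * lm K (X / nm (h * x.1)) 1 (x.2 * x.1) ≤ _
      rw [nmU_lm hK hX hh0 hU0 hx2.1]
      exact lm_block hK hX hh0 hx2.1 h3 h4)
    (fun B V hB1 hB2 hV1 hV2 => by
      have hB0 : 0 < B := by linarith
      have hV0 : 0 < V := by linarith
      have hy := yv_pos hK hX hV0 hh0
      rw [TH_filter hV2]
      have h5 := sum_Wb_TH hA hJ hY0 hα hh (V := V) (Q₀ := M * yv K X h V)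
        (Q := fun U => B / 2 < (nm U : ℝ) ∧ (nm U : ℝ) ≤ B ∧ Q U)
        (fun t => by
          have h0 := hyp B V hB1 hB2 hV1 hV2 t
          unfold JB at h0
          convert h0)
      set y := yv K X h V
      calc 4 * y⁻¹ * _ ≤ 4 * y⁻¹ * (M * y * ∫ t, jb (A - J) t) :=
            mul_le_mul_of_nonneg_left h5 (by positivity)
        _ = 4 * M * (∫ t, jb (A - J) t) * (y⁻¹ * y) := by ring
        _ = _ := by rw [inv_mul_cancel₀ hy.ne', mul_one])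
  refine h1.trans (le_of_eq ?_)
  ring

/-! ### `g = h U` fixed -/

lemma sum_BU_le {Z Z' : ℝ} {U : Eis} (hU : U ≠ 0) (hZ : Z * nm U ≤ Z') {F : Eis → ℝ}
    (hF : ∀ r, 0 ≤ F r) : ∑ κ ∈ BU Z U, F (κ * U) ≤ ∑ r ∈ BF Z', F r := by
  have hinj : Set.InjOn (fun κ => κ * U) (BU Z U : Set Eis) := by
    intro κ _ κ' _ h
    exact mul_right_cancel₀ hU h
  rw [← Finset.sum_image (f := F) (g := fun κ => κ * U) hinj]
  refine Finset.sum_le_sum_of_subset_of_nonneg ?_ fun r _ _ => hF r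
  intro r hr
  obtain ⟨κ, hκ, rfl⟩ := Finset.mem_image.mp hr
  obtain ⟨⟨h1, h2⟩, h3⟩ := mem_BU.mp hκ
  refine mem_BF.mpr ⟨h3, ?_⟩
  show (nm (κ * U) : ℝ) ≤ Z'
  rw [nm_mul]
  push_cast
  exact (mul_le_mul_of_nonneg_right h2 (Nat.cast_nonneg _)).trans hZ

lemma win_le {Z : ℝ} (hZ : 0 ≤ Z) {h U : Eis} (hh : h ≠ 0) :
    Z / (nm h : ℝ) ^ 2 * nm U ≤ Z * nm (h * U) := by
  have h1 := nm_ge_one hh
  rw [nm_mul]
  push_cast
  have h2 : Z / (nm h : ℝ) ^ 2 ≤ Z := div_le_self hZ (one_le_pow₀ h1)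
  have hU : (0 : ℝ) ≤ nm U := Nat.cast_nonneg _
  calc Z / (nm h : ℝ) ^ 2 * nm U ≤ Z * nm U := mul_le_mul_of_nonneg_right h2 hU
    _ = Z * (1 * nm U) := by ring
    _ ≤ Z * (nm h * nm U) := by gcongr

lemma UJ_UL_le_Mo {A K X Y₀ Y₁ : ℝ} (hK : 0 ≤ K) (hX : 0 ≤ X) (hY₀ : 0 ≤ Y₀) (hY₁ : 0 ≤ Y₁)
    (α : Eis → ℂ) {h U : Eis} (hh : h ≠ 0) (hU : U ≠ 0) :
    UJ A K X Y₁ α h U + UL A K X Y₀ α h U ≤ Mo A K X Y₀ Y₁ α (h * U) := by
  have hX' : 0 ≤ X / nm (h * U) := by positivity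
  unfold Mo FW Lo UJ UL
  refine add_le_add ?_ ?_
  · exact sum_BU_le (F := fun r => min 1 (lm K (X / nm (h * U)) 1 r) * Wb A (sg α (h * U)) r) hU
      (win_le hY₁ hh) fun r => mul_nonneg (le_min zero_le_one (lm_nonneg hK hX' _ _))
        (Wb_nonneg _ _ _)
  · exact sum_BU_le (F := fun r => lm K (X / nm (h * U)) 1 r * Wb A (sg α (h * U)) r) hU
      (win_le hY₀ hh) fun r => mul_nonneg (lm_nonneg hK hX' _ _) (Wb_nonneg _ _ _)

/-- the errors over a set of pairs -/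
def EUp (A K X Y Y₀ Y₁ : ℝ) (α : Eis → ℂ) (P : Eis × Eis → Prop) : ℝ :=
  ∑ p ∈ ((S Y ×ˢ S Y).erase (1, 1)).filter P,
    ((Div277.tau p.1 : ℝ) ^ 7 * (Div277.tau p.2 : ℝ) ^ 4) * ((nm p.1 * nm p.2) *
      (UJ A K X Y₁ α p.1 p.2 + UL A K X Y₀ α p.1 p.2))

lemma EU_split (A K X Y Y₀ Y₁ : ℝ) (α : Eis → ℂ) (P : Eis × Eis → Prop) :
    EU A K X Y Y₀ Y₁ α = EUp A K X Y Y₀ Y₁ α P + EUp A K X Y Y₀ Y₁ α (fun p => ¬ P p) := by
  unfold EU EUp
  convert (Finset.sum_filter_add_sum_filter_not _ P _).symm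

/-- **small part, fixed `g`** -/
theorem EUs_le_Mo {A K X Y Y₀ Y₁ G₀ : ℝ} (hK : 0 ≤ K) (hX : 0 ≤ X) (hY : 0 ≤ Y) (hY₀ : 0 ≤ Y₀)
    (hY₁ : 0 ≤ Y₁) {α : Eis → ℂ} (hα : ∀ n, α n ≠ 0 → n ∈ S Y) :
    EUp A K X Y Y₀ Y₁ α (fun p => (nm (p.1 * p.2) : ℝ) ≤ G₀) ≤
      ∑ g ∈ ((S Y).erase 1).filter (fun g => (nm g : ℝ) ≤ G₀),
        nm g * (Div277.tau g : ℝ) ^ 12 * Mo A K X Y₀ Y₁ α g := by
  have h1 := sum_dL_le (Y := Y) hY hα
    (M := fun g => if (nm g : ℝ) ≤ G₀ then (Div277.tau g : ℝ) ^ 8 * Mo A K X Y₀ Y₁ α g else 0)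
    (fun g => by
      show 0 ≤ (if (nm g : ℝ) ≤ G₀ then (Div277.tau g : ℝ) ^ 8 * Mo A K X Y₀ Y₁ α g else 0)
      split_ifs
      · exact mul_nonneg (by positivity) (Mo_nonneg hK hX α g)
      · exact le_rfl)
    (fun g hg => by
      show (if (nm g : ℝ) ≤ G₀ then (Div277.tau g : ℝ) ^ 8 * Mo A K X Y₀ Y₁ α g else 0) = 0
      split_ifs
      · rw [Mo_zero hg, mul_zero]
      · rfl)
  have e2 : ∑ g ∈ ((S Y).erase 1).filter (fun g => (nm g : ℝ) ≤ G₀),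
        nm g * (Div277.tau g : ℝ) ^ 12 * Mo A K X Y₀ Y₁ α g =
      ∑ g ∈ (S Y).erase 1, nm g * (Div277.tau g : ℝ) ^ 4 *
        (if (nm g : ℝ) ≤ G₀ then (Div277.tau g : ℝ) ^ 8 * Mo A K X Y₀ Y₁ α g else 0) := by
    rw [Finset.sum_filter]
    refine Finset.sum_congr rfl fun g _ => ?_
    split_ifs <;> ring
  rw [e2]
  refine le_trans ?_ h1
  unfold EUp
  rw [Finset.sum_filter]
  refine Finset.sum_le_sum fun p hp => ?_
  have hp1 := Finset.mem_erase.mp hp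
  have hp2 := Finset.mem_product.mp hp1.2
  have d1 := ((mem_S hY).1 hp2.1).2.1.ne_zero
  have d2 := ((mem_S hY).1 hp2.2).2.1.ne_zero
  have hg0 : p.1 * p.2 ≠ 0 := mul_ne_zero d1 d2
  split_ifs with h
  · have t1 : (Div277.tau p.1 : ℝ) ≤ Div277.tau (p.1 * p.2) := by
      exact_mod_cast Div277.tau_le_of_dvd hg0 (dvd_mul_right _ _)
    have t2 : (Div277.tau p.2 : ℝ) ≤ Div277.tau (p.1 * p.2) := by
      exact_mod_cast Div277.tau_le_of_dvd hg0 (dvd_mul_left _ _)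
    have t3 : (0 : ℝ) ≤ Div277.tau p.1 := Nat.cast_nonneg _
    have t4 : (0 : ℝ) ≤ Div277.tau p.2 := Nat.cast_nonneg _
    have h3 := UJ_UL_le_Mo (A := A) hK hX hY₀ hY₁ α d1 d2
    have h4 := Mo_nonneg (A := A) (Y₀ := Y₀) (Y₁ := Y₁) hK hX α (p.1 * p.2)
    have n1 : (0 : ℝ) ≤ nm p.1 := Nat.cast_nonneg _
    have n2 : (0 : ℝ) ≤ nm p.2 := Nat.cast_nonneg _
    generalize (Div277.tau (p.1 * p.2) : ℝ) = tg at *
    generalize (Div277.tau p.1 : ℝ) = ta at *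
    generalize (Div277.tau p.2 : ℝ) = tb at *
    generalize Mo A K X Y₀ Y₁ α (p.1 * p.2) = MM at *
    generalize UJ A K X Y₁ α p.1 p.2 + UL A K X Y₀ α p.1 p.2 = UU at *
    have h5 : ta ^ 7 * tb ^ 4 ≤ (ta * tb ^ 2) * tg ^ 8 := by
      calc ta ^ 7 * tb ^ 4 = (ta * tb ^ 2) * (ta ^ 6 * tb ^ 2) := by ring
        _ ≤ (ta * tb ^ 2) * (tg ^ 6 * tg ^ 2) := by gcongr
        _ = _ := by ring
    calc (ta ^ 7 * tb ^ 4) * ((nm p.1 * nm p.2) * UU)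
        ≤ (ta ^ 7 * tb ^ 4) * ((nm p.1 * nm p.2) * MM) := by gcongr
      _ ≤ ((ta * tb ^ 2) * tg ^ 8) * ((nm p.1 * nm p.2) * MM) := by gcongr
      _ = _ := by ring
  · rw [mul_zero]

/-! ### one number -/

lemma Mo_le_VF {A J : ℝ} (hA : J + 1 < A) (hJ : 0 ≤ J) {K X Y Y₀ Y₁ P M : ℝ} (hK : 0 < K)
    (hX : 0 < X) (hY : 0 ≤ Y) (hP : 1 ≤ P) (hYP : Y ≤ P) (h0P : Y₀ ≤ P) (h1P : Y₁ ≤ P)
    (hM : 0 ≤ M) {α : Eis → ℂ} (hα : ∀ n, α n ≠ 0 → n ∈ S Y) {g : Eis} (hg : g ∈ S Y)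
    (h1 : ∀ V, 1 ≤ V → V ≤ Y₁ * nm g → ∀ t, VF V (tws (sg α g) t) ≤
      M * max 1 ((V * K / (X / nm g) ^ 2) ^ (1 / 3 : ℝ)) * (1 + |t|) ^ J)
    (h0 : ∀ V, 1 ≤ V → V ≤ Y₀ * nm g → ∀ t, VF V (tws (sg α g) t) ≤
      M * (V * K / (X / nm g) ^ 2) ^ (1 / 3 : ℝ) * (1 + |t|) ^ J) :
    Mo A K X Y₀ Y₁ α g ≤ 8 * (∫ t, jb (A - J) t) * (1 + 4 * Real.log P) * M := by
  have hgS := (mem_S hY).1 hg
  have hg0 := nmpos hgS.2.1.ne_zero
  have hI : 0 ≤ ∫ t, jb (A - J) t := integral_nonneg fun t => (jb_pos _ t).le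
  have hlP := Real.log_nonneg hP
  have hX' : 0 < X / nm g := by positivity
  have hβ : ∀ n, sg α g n ≠ 0 → n ∈ S Y := by
    intro n hn
    have h3 := hα _ hn
    exact S_of_dvd hY h3 (IsPrim.of_mul_left ((mem_S hY).1 h3).2.1 hgS.2.1) (dvd_mul_left _ _)
  have hlog : ∀ Z, Z ≤ P → 1 ≤ Z * nm g → 1 + 2 * Real.log (Z * nm g) ≤ 1 + 4 * Real.log P := by
    intro Z hZ hZ1
    have h3 : Z * nm g ≤ P ^ 2 := by
      have hgP : (nm g : ℝ) ≤ P := hgS.1.trans hYP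
      calc Z * nm g ≤ P * nm g := mul_le_mul_of_nonneg_right hZ hg0.le
        _ ≤ P * P := mul_le_mul_of_nonneg_left hgP (by linarith)
        _ = P ^ 2 := by ring
    have h4 := Real.log_le_log (by linarith) h3
    rw [Real.log_pow] at h4
    push_cast at h4
    linarith
  have hempty : ∀ Z : ℝ, ¬ 1 ≤ Z → BF Z = ∅ := by
    intro Z hZ
    rw [Finset.eq_empty_iff_forall_notMem]
    intro κ hκ
    obtain ⟨h1, h2⟩ := mem_BF.mp hκ
    exact hZ ((nm_ge_one h1.1).trans h2)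
  have hF : FW A K (X / nm g) (BF (Y₁ * nm g)) (sg α g) ≤
      4 * (∫ t, jb (A - J) t) * (1 + 4 * Real.log P) * M := by
    by_cases hZ : 1 ≤ Y₁ * nm g
    · refine (FW_le_VF hA hJ hY hβ hK hX' hZ hM h1).trans ?_
      have := hlog Y₁ h1P hZ
      gcongr
    · unfold FW
      rw [hempty _ hZ, Finset.sum_empty]
      positivity
  have hL : Lo A K (X / nm g) (Y₀ * nm g) (sg α g) ≤
      4 * (∫ t, jb (A - J) t) * (1 + 4 * Real.log P) * M := by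
    by_cases hZ : 1 ≤ Y₀ * nm g
    · refine (Lo_le_VF hA hJ hY hβ hK hX' hZ hM h0).trans ?_
      have := hlog Y₀ h0P hZ
      gcongr
    · unfold Lo
      rw [hempty _ hZ, Finset.sum_empty]
      positivity
  unfold Mo
  linarith

/-- **all errors as one number** -/
theorem EU_le {A J ε : ℝ} (hA : J + 1 < A) (hJ : 0 ≤ J) (hε : 0 < ε) : ∃ C : ℝ, 0 ≤ C ∧
    ∀ (P K X Y Y₀ Y₁ G₀ Ms Ml : ℝ) (α : Eis → ℂ), 1 ≤ P → 0 < K → 0 < X → 1 ≤ Y → Y ≤ P →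
      0 ≤ Y₀ → Y₀ ≤ P → 0 ≤ Y₁ → Y₁ ≤ P → 0 ≤ Ms → 0 ≤ Ml → (∀ n, α n ≠ 0 → n ∈ S Y) →
      (∀ g ∈ S Y, g ≠ 1 → (nm g : ℝ) ≤ G₀ → ∀ V, 1 ≤ V → V ≤ Y₁ * nm g → ∀ t,
        VF V (tws (sg α g) t) ≤ Ms / (nm g : ℝ) ^ 2 *
          max 1 ((V * K / (X / nm g) ^ 2) ^ (1 / 3 : ℝ)) * (1 + |t|) ^ J) →
      (∀ g ∈ S Y, g ≠ 1 → (nm g : ℝ) ≤ G₀ → ∀ V, 1 ≤ V → V ≤ Y₀ * nm g → ∀ t,
        VF V (tws (sg α g) t) ≤ Ms / (nm g : ℝ) ^ 2 *
          (V * K / (X / nm g) ^ 2) ^ (1 / 3 : ℝ) * (1 + |t|) ^ J) →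
      (∀ h ∈ S Y, ∀ B V, 1 ≤ B → B ≤ Y → 1 ≤ V → V ≤ Y₁ / (nm h : ℝ) ^ 2 → ∀ t,
        JB Y α (fun U => G₀ < nm (h * U)) h B V t ≤
          Ml / (nm h : ℝ) ^ 2 * max B⁻¹ (yv K X h V) * (1 + |t|) ^ J) →
      (∀ h ∈ S Y, ∀ B V, 1 ≤ B → B ≤ Y → 1 ≤ V → V ≤ Y₀ / (nm h : ℝ) ^ 2 → ∀ t,
        JB Y α (fun U => G₀ < nm (h * U)) h B V t ≤
          Ml / (nm h : ℝ) ^ 2 * yv K X h V * (1 + |t|) ^ J) →
      EU A K X Y Y₀ Y₁ α ≤ C * P ^ ε * (Ms + Ml) := by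
  obtain ⟨C₁, hC₁, hτ⟩ := CR3436.tau_pow_le 12 (ε := ε / 2) (by positivity)
  obtain ⟨C₂, hC₂, hτ7⟩ := CR3436.tau_pow_le 7 (ε := ε / 4) (by positivity)
  obtain ⟨C₃, hC₃, hτ4⟩ := CR3436.tau_pow_le 4 (ε := ε / 4) (by positivity)
  obtain ⟨C₄, hC₄, hlg⟩ := PInv255.one_add_log_pow_le 4 (ε / 2) (by positivity)
  set I := ∫ t, jb (A - J) t with hIdef
  have hI : 0 ≤ I := integral_nonneg fun t => (jb_pos _ t).le
  refine ⟨3200 * I * C₁ * C₄ + 3200 * I * (C₂ * C₃) * C₄, by positivity,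
    fun P K X Y Y₀ Y₁ G₀ Ms Ml α hP hK hX hY hYP h0 h0P h1 h1P hMs hMl hα hS hS0 hL hL0 => ?_⟩
  have hY0 : 0 ≤ Y := by linarith
  have hP0 : 0 < P := by linarith
  have hlP := Real.log_nonneg hP
  have hlYP : Real.log Y ≤ Real.log P := Real.log_le_log (by linarith) hYP
  have hsum : ∑ g ∈ S Y, 1 / (nm g : ℝ) ≤ 100 * (1 + Real.log P) :=
    (sum_inv_S551 hY).trans (by linarith)
  have hl4 := hlg P hP
  have hPe : P ^ (ε / 2) * P ^ (ε / 2) = P ^ ε := by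
    rw [← Real.rpow_add hP0]; congr 1; ring
  have hPe4 : P ^ (ε / 4) * P ^ (ε / 4) = P ^ (ε / 2) := by
    rw [← Real.rpow_add hP0]; congr 1; ring
  set l := Real.log P with hl
  have hPp : 0 < P ^ (ε / 2) := by positivity
  have hl24 : (1 + l) ^ 2 ≤ (1 + l) ^ 4 := pow_le_pow_right₀ (by linarith) (by norm_num)
  have hl34 : (1 + l) ^ 3 ≤ (1 + l) ^ 4 := pow_le_pow_right₀ (by linarith) (by norm_num)
  rw [EU_split A K X Y Y₀ Y₁ α (fun p => (nm (p.1 * p.2) : ℝ) ≤ G₀)]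
  -- small part
  have hs : EUp A K X Y Y₀ Y₁ α (fun p => (nm (p.1 * p.2) : ℝ) ≤ G₀) ≤
      3200 * I * C₁ * C₄ * P ^ ε * Ms := by
    refine (EUs_le_Mo hK.le hX.le hY0 h0 h1 hα).trans ?_
    have h2 : ∀ g ∈ ((S Y).erase 1).filter (fun g => (nm g : ℝ) ≤ G₀),
        nm g * (Div277.tau g : ℝ) ^ 12 * Mo A K X Y₀ Y₁ α g ≤
          (C₁ * P ^ (ε / 2) * (8 * I * (1 + 4 * l) * Ms)) * (1 / (nm g : ℝ)) := by
      intro g hg
      obtain ⟨hg1, hg2⟩ := Finset.mem_filter.mp hg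
      obtain ⟨hg3, hg4⟩ := Finset.mem_erase.mp hg1
      have hgS := (mem_S hY0).1 hg4
      have hg0 := nmpos hgS.2.1.ne_zero
      have a1 := hτ P g hgS.2.1 (hgS.1.trans hYP)
      have a2 := Mo_le_VF (M := Ms / (nm g : ℝ) ^ 2) hA hJ hK hX hY0 hP hYP h0P h1P
        (by positivity) hα hg4 (hS g hg4 hg3 hg2) (hS0 g hg4 hg3 hg2)
      rw [← hIdef, ← hl] at a2
      have a3 := Mo_nonneg (A := A) (Y₀ := Y₀) (Y₁ := Y₁) hK.le hX.le α g
      calc nm g * (Div277.tau g : ℝ) ^ 12 * Mo A K X Y₀ Y₁ α g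
          ≤ nm g * (C₁ * P ^ (ε / 2)) * (8 * I * (1 + 4 * l) * (Ms / (nm g : ℝ) ^ 2)) :=
            mul_le_mul (mul_le_mul_of_nonneg_left a1 hg0.le) a2 a3 (by positivity)
        _ = _ := by field_simp
    refine (Finset.sum_le_sum h2).trans ?_
    rw [← Finset.mul_sum]
    have h3 : ∑ g ∈ ((S Y).erase 1).filter (fun g => (nm g : ℝ) ≤ G₀), 1 / (nm g : ℝ) ≤
        100 * (1 + l) := by
      refine (Finset.sum_le_sum_of_subset_of_nonneg ?_ fun _ _ _ => by positivity).trans hsum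
      exact (Finset.filter_subset _ _).trans (Finset.erase_subset _ _)
    calc (C₁ * P ^ (ε / 2) * (8 * I * (1 + 4 * l) * Ms)) *
          ∑ g ∈ ((S Y).erase 1).filter (fun g => (nm g : ℝ) ≤ G₀), 1 / (nm g : ℝ)
        ≤ (C₁ * P ^ (ε / 2) * (8 * I * (4 * (1 + l)) * Ms)) * (100 * (1 + l)) := by
          have : 1 + 4 * l ≤ 4 * (1 + l) := by linarith
          gcongr
      _ = 3200 * I * C₁ * P ^ (ε / 2) * Ms * (1 + l) ^ 2 := by ring
      _ ≤ 3200 * I * C₁ * P ^ (ε / 2) * Ms * (C₄ * P ^ (ε / 2)) := by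
          have := hl24.trans hl4
          gcongr
      _ = 3200 * I * C₁ * C₄ * (P ^ (ε / 2) * P ^ (ε / 2)) * Ms := by ring
      _ = _ := by rw [hPe]
  -- large part
  have hlg2 : ∀ Pn : Eis × Eis → Prop, (∀ p, Pn p → G₀ < (nm (p.1 * p.2) : ℝ)) →
      EUp A K X Y Y₀ Y₁ α Pn ≤ 3200 * I * (C₂ * C₃) * C₄ * P ^ ε * Ml := by
    intro Pn hPn
    set N : Eis → Eis → ℝ := fun h U => UJ A K X Y₁ α h U + UL A K X Y₀ α h U with hN
    have hN0 : ∀ h U, 0 ≤ N h U := fun h U =>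
      add_nonneg (UJ_nonneg hK.le hX.le α h U) (UL_nonneg hK.le hX.le α h U)
    have h2 : EUp A K X Y Y₀ Y₁ α Pn ≤
        ∑ h ∈ S Y, (C₂ * C₃ * P ^ (ε / 2)) * (nm h * ∑ U ∈ (S Y).filter
          (fun U => G₀ < (nm (h * U) : ℝ)), nm U * N h U) := by
      have e1 : ∑ h ∈ S Y, (C₂ * C₃ * P ^ (ε / 2)) * (nm h * ∑ U ∈ (S Y).filter
          (fun U => G₀ < (nm (h * U) : ℝ)), nm U * N h U) =
          ∑ p ∈ (S Y ×ˢ S Y).filter (fun p => G₀ < (nm (p.1 * p.2) : ℝ)),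
            (C₂ * C₃ * P ^ (ε / 2)) * ((nm p.1 * nm p.2) * N p.1 p.2) := by
        rw [Finset.sum_filter, Finset.sum_product]
        refine Finset.sum_congr rfl fun h _ => ?_
        rw [Finset.sum_filter, Finset.mul_sum, Finset.mul_sum]
        refine Finset.sum_congr rfl fun U _ => ?_
        split_ifs <;> ring
      rw [e1]
      unfold EUp
      have h3 : ((S Y ×ˢ S Y).erase (1, 1)).filter Pn ⊆
          (S Y ×ˢ S Y).filter (fun p => G₀ < (nm (p.1 * p.2) : ℝ)) := by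
        intro p hp
        obtain ⟨hp1, hp2⟩ := Finset.mem_filter.mp hp
        exact Finset.mem_filter.mpr ⟨Finset.mem_of_mem_erase hp1, hPn p hp2⟩
      refine (Finset.sum_le_sum fun p hp => ?_).trans
        (Finset.sum_le_sum_of_subset_of_nonneg h3 fun p _ _ => by
          have := hN0 p.1 p.2
          positivity)
      obtain ⟨hp1, -⟩ := Finset.mem_filter.mp hp
      have hp2 := Finset.mem_product.mp (Finset.mem_of_mem_erase hp1)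
      have d1 := (mem_S hY0).1 hp2.1
      have d2 := (mem_S hY0).1 hp2.2
      have a1 := hτ7 P p.1 d1.2.1 (d1.1.trans hYP)
      have a2 := hτ4 P p.2 d2.2.1 (d2.1.trans hYP)
      have h4 := hN0 p.1 p.2
      show ((Div277.tau p.1 : ℝ) ^ 7 * (Div277.tau p.2 : ℝ) ^ 4) * ((nm p.1 * nm p.2) *
        N p.1 p.2) ≤ _
      refine mul_le_mul_of_nonneg_right ?_ (by positivity)
      calc (Div277.tau p.1 : ℝ) ^ 7 * (Div277.tau p.2 : ℝ) ^ 4
          ≤ (C₂ * P ^ (ε / 4)) * (C₃ * P ^ (ε / 4)) := by gcongr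
        _ = C₂ * C₃ * (P ^ (ε / 4) * P ^ (ε / 4)) := by ring
        _ = _ := by rw [hPe4]
    refine h2.trans ?_
    have h3 : ∀ h ∈ S Y, (C₂ * C₃ * P ^ (ε / 2)) * (nm h * ∑ U ∈ (S Y).filter
          (fun U => G₀ < (nm (h * U) : ℝ)), nm U * N h U) ≤
        (C₂ * C₃ * P ^ (ε / 2) * (8 * I * (1 + 2 * l) ^ 2 * Ml)) * (1 / (nm h : ℝ)) := by
      intro h hh
      have hhS := (mem_S hY0).1 hh
      have hh0 := nmpos hhS.2.1.ne_zero
      have hh1 := nm_ge_one hhS.2.1.ne_zero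
      have b1 := large_h (M := Ml / (nm h : ℝ) ^ 2) (Q := fun U => G₀ < (nm (h * U) : ℝ))
        hA hJ hK hX hY (by positivity) hα hhS.2.1 (fun B V => hL h hh B V)
      have b2 := large_h0 (M := Ml / (nm h : ℝ) ^ 2) (Q := fun U => G₀ < (nm (h * U) : ℝ))
        hA hJ hK hX hY (by positivity) hα hhS.2.1 (fun B V => hL0 h hh B V)
      rw [← hIdef] at b1 b2
      have hmx : ∀ Z, Z ≤ P → Real.log (max 1 (Z / (nm h : ℝ) ^ 2)) ≤ l := by
        intro Z hZ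
        refine Real.log_le_log (by positivity) (max_le hP ?_)
        rcases le_total 0 Z with h5 | h5
        · exact (div_le_self h5 (one_le_pow₀ hh1)).trans hZ
        · exact (div_nonpos_of_nonpos_of_nonneg h5 (by positivity)).trans hP0.le
      have c1 := hmx Y₁ h1P
      have c2 := hmx Y₀ h0P
      have c3 := Real.log_nonneg (le_max_left 1 (Y₁ / (nm h : ℝ) ^ 2))
      have c4 := Real.log_nonneg (le_max_left 1 (Y₀ / (nm h : ℝ) ^ 2))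
      have hlY := Real.log_nonneg hY
      have b3 : ∀ x, 0 ≤ x → x ≤ l → 4 * I * (1 + 2 * Real.log Y) * (1 + 2 * x) *
          (Ml / (nm h : ℝ) ^ 2) ≤ 4 * I * (1 + 2 * l) * (1 + 2 * l) * (Ml / (nm h : ℝ) ^ 2) := by
        intro x hx hxl
        gcongr
      have b4 := b1.trans (b3 _ c3 c1)
      have b5 := b2.trans (b3 _ c4 c2)
      have e2 : ∑ U ∈ (S Y).filter (fun U => G₀ < (nm (h * U) : ℝ)), nm U * N h U =
          (∑ U ∈ (S Y).filter (fun U => G₀ < (nm (h * U) : ℝ)), nm U * UJ A K X Y₁ α h U) +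
          ∑ U ∈ (S Y).filter (fun U => G₀ < (nm (h * U) : ℝ)), nm U * UL A K X Y₀ α h U := by
        rw [← Finset.sum_add_distrib]
        exact Finset.sum_congr rfl fun U _ => by simp only [hN]; ring
      rw [e2]
      calc (C₂ * C₃ * P ^ (ε / 2)) * (nm h *
            ((∑ U ∈ (S Y).filter (fun U => G₀ < (nm (h * U) : ℝ)), nm U * UJ A K X Y₁ α h U) +
          ∑ U ∈ (S Y).filter (fun U => G₀ < (nm (h * U) : ℝ)), nm U * UL A K X Y₀ α h U))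
          ≤ (C₂ * C₃ * P ^ (ε / 2)) * (nm h *
            (4 * I * (1 + 2 * l) * (1 + 2 * l) * (Ml / (nm h : ℝ) ^ 2) +
              4 * I * (1 + 2 * l) * (1 + 2 * l) * (Ml / (nm h : ℝ) ^ 2))) := by
            gcongr
        _ = _ := by field_simp; ring
    refine (Finset.sum_le_sum h3).trans ?_
    rw [← Finset.mul_sum]
    calc (C₂ * C₃ * P ^ (ε / 2) * (8 * I * (1 + 2 * l) ^ 2 * Ml)) * ∑ h ∈ S Y, 1 / (nm h : ℝ)
        ≤ (C₂ * C₃ * P ^ (ε / 2) * (8 * I * (2 * (1 + l)) ^ 2 * Ml)) * (100 * (1 + l)) := by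
          have : 1 + 2 * l ≤ 2 * (1 + l) := by linarith
          gcongr
      _ = 3200 * I * (C₂ * C₃) * P ^ (ε / 2) * Ml * (1 + l) ^ 3 := by ring
      _ ≤ 3200 * I * (C₂ * C₃) * P ^ (ε / 2) * Ml * (C₄ * P ^ (ε / 2)) := by
          have := hl34.trans hl4
          gcongr
      _ = 3200 * I * (C₂ * C₃) * C₄ * (P ^ (ε / 2) * P ^ (ε / 2)) * Ml := by ring
      _ = _ := by rw [hPe]
  have hp1 : 0 ≤ 3200 * I * C₁ * C₄ * P ^ ε * Ml := by positivity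
  have hp2 : 0 ≤ 3200 * I * (C₂ * C₃) * C₄ * P ^ ε * Ms := by positivity
  calc _ ≤ 3200 * I * C₁ * C₄ * P ^ ε * Ms + 3200 * I * (C₂ * C₃) * C₄ * P ^ ε * Ml :=
        add_le_add hs (hlg2 _ fun p hp => not_le.mp hp)
    _ ≤ _ := by nlinarith

end Crest.Agent.R017.E1551
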