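import Crest.Agent.R017.RGwK_813
import Crest.Agent.R017.E1zc_551

/-!
# Row 17, C.REMg (RG by positivity), part L (helper813): `rg_absorb3`, the only inputs are the
lower bound (LB) and the two numbers (S), (L) of 551
-/

set_option autoImplicit false

noncomputable section

open Complex MeasureTheory Filter Topology
open scoped ComplexConjugate Classical

namespace Crest.Agent.R017.RGw813

open Crest.Agent.R012 Crest.Agent.R012.Eis Crest.Agent.R012.MC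
open Crest.Agent.R012.LS2 (S mem_S bl)
open Crest.Agent.R012.Weight600 (osc pw)
open Crest.Agent.R017.CM106 (CS TG FS)
open Crest.Agent.R017.C70 (JW)
open Crest.Agent.R017.E1551
open Crest.Agent.R017.Rough381 (VF)
open Crest.Agent.R017.Win813

lemma norm_TG_shift {Y : ℝ} (hY : 0 ≤ Y) {α : Eis → ℂ} (hα : ∀ n, α n ≠ 0 → n ∈ S Y)
    {g : Eis} (hg : g ≠ 0) (t s : ℝ) (r : Eis) :
    ‖TG (tws (sg (fun n => α n * pw t (nm n)) g) s) r‖ = ‖TG (tws (sg α g) (t + s)) r‖ := by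
  rw [norm_TG_tws_sg hY (α := fun n => α n * pw t (nm n))
    (fun n hn => hα n (left_ne_zero_of_mul hn)) hg, norm_TG_tws_sg hY hα hg]
  congr 2
  funext m
  show α (g * m) * pw t (nm (g * m)) * pw s (nm (g * m)) = α (g * m) * pw (t + s) (nm (g * m))
  rw [Weight600.pw_add_left]
  ring

lemma VF_shift {Y : ℝ} (hY : 0 ≤ Y) {α : Eis → ℂ} (hα : ∀ n, α n ≠ 0 → n ∈ S Y)
    {g : Eis} (hg : g ≠ 0) (t s V : ℝ) :
    VF V (tws (sg (fun n => α n * pw t (nm n)) g) s) = VF V (tws (sg α g) (t + s)) := by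
  unfold VF
  exact Finset.sum_congr rfl fun j _ => by rw [norm_TG_shift hY hα hg]

lemma JB_shift {Y : ℝ} (hY : 0 ≤ Y) {α : Eis → ℂ} (hα : ∀ n, α n ≠ 0 → n ∈ S Y)
    {h : Eis} (hh : h ∈ S Y) (Q : Eis → Prop) (t s B V : ℝ) :
    E1551.JB Y (fun n => α n * pw t (nm n)) Q h B V s = E1551.JB Y α Q h B V (t + s) := by
  unfold E1551.JB
  refine Finset.sum_congr rfl fun U hU => Finset.sum_congr rfl fun κ _ => ?_
  have hU' := (mem_S hY).1 (Finset.mem_filter.1 hU).1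
  rw [norm_TG_shift hY hα (mul_ne_zero ((mem_S hY).1 hh).2.1.ne_zero hU'.2.1.ne_zero)]

lemma BF_empty {Z : ℝ} (hZ : Z < 1) : BF Z = ∅ := by
  rw [Finset.eq_empty_iff_forall_notMem]
  intro κ hκ
  have h := mem_BF.1 hκ
  have h1 := nm_ge_one h.1.1
  linarith [h.2]

lemma BU_empty {Z : ℝ} (hZ : Z < 1) (U : Eis) : BU Z U = ∅ := by
  unfold BU
  rw [BF_empty hZ, Finset.filter_empty]

lemma EU_zero (A K X Y Y₁ : ℝ) {Y₀ : ℝ} (hY : 0 ≤ Y) (h0 : 0 ≤ Y₀) (h1 : Y₀ < 1) (α : Eis → ℂ) :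
    EU A K X Y Y₀ Y₁ α = EU A K X Y 0 Y₁ α := by
  unfold EU
  refine Finset.sum_congr rfl fun p hp => ?_
  have hp1 := nm_ge_one ((mem_S hY).1 (Finset.mem_product.1
    (Finset.mem_of_mem_erase hp)).1).2.1.ne_zero
  have h2 : UL A K X Y₀ α p.1 p.2 = 0 := by
    unfold UL
    rw [BU_empty, Finset.sum_empty]
    refine lt_of_le_of_lt ?_ h1
    exact div_le_self h0 (one_le_pow₀ hp1)
  have h3 : UL A K X 0 α p.1 p.2 = 0 := by
    unfold UL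
    rw [BU_empty, Finset.sum_empty]
    rw [zero_div]; exact one_pos
  rw [h2, h3]

/-- **RG, absorbed inequality.** `Y₀ = 1/10`; the only inputs are (LB), (S) and (L). -/
theorem rg_absorb3 : ∃ w : ℝ → ℝ, Wgt w ∧ (∀ x, 0 ≤ w x) ∧
    ∀ (J Aw : ℕ) (R a e₃ ε : ℝ), J + 2 ≤ Aw → 0 ≤ R → 0 ≤ a → 0 < e₃ → 0 < ε →
    ∃ Cw C η₀ : ℝ, 0 ≤ Cw ∧ 0 ≤ C ∧ 0 < η₀ ∧ η₀ ≤ 1 ∧
    ∀ (K X Y η D G₀ : ℝ) (N₀ N₁ : ℕ) (ρ : ℕ → ℝ), Y ^ (-a) ≤ K → 0 < X → X ≤ Y ^ a → 1 ≤ Y →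
      0 < η → η ≤ η₀ → 1 ≤ D → 1 ≤ N₀ → N₀ ≤ N₁ → (N₁ : ℝ) ≤ Y ^ a →
      ((N₁ : ℝ) ≤ D ^ 2 ∨ Y ≤ D) → Antitone ρ →
      (∀ n ≤ N₀, ρ n = 1) → (∀ n, N₁ < n → ρ n = 0) → X ^ 2 * Y ^ e₃ ≤ K * N₀ →
      ∀ α : Eis → ℂ, (∀ n, α n ≠ 0 → n ∈ S Y) →
      (∀ n, α n ≠ 0 → |Real.log (nm n) - Real.log X| ≤ R) → ∑ n ∈ S Y, ‖α n‖ ≤ Y ^ a →
      ∀ E Ms Ml : ℝ, 0 ≤ E → 0 ≤ Ms → 0 ≤ Ml →
      (∀ p ∈ T9, ∀ (t X' : ℝ) (φ : ℝ → ℝ), 0 < X' → |Real.log X' - Real.log X| ≤ R + 1 →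
        WK Cw η Aw φ → (∀ u, φ u ≠ 0 → |u - Real.log X'| ≤ η / 2) →
        Dg w K Y (fun n => bt φ α p n * pw t (nm n)) + 2 * cP w * K ^ (2 / 3 : ℝ) *
          (XJw ρ (JW D (1 / 10) N₁) (fun n => bt φ α p n * pw t (nm n))).re -
        SqP w K (fun n => bt φ α p n * pw t (nm n)) ≤ (K / X) * (E * (1 + |t|) ^ J)) →
      (∀ g ∈ S Y, g ≠ 1 → (nm g : ℝ) ≤ G₀ → ∀ V : ℝ, 1 ≤ V → V ≤ 9 * N₁ * nm g → ∀ t : ℝ,
        VF V (tws (sg α g) t) ≤ Ms / (nm g : ℝ) ^ 2 *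
          max 1 ((V * K / (X / nm g) ^ 2) ^ (1 / 3 : ℝ)) * (1 + |t|) ^ J) →
      (∀ h ∈ S Y, ∀ B V : ℝ, 1 ≤ B → B ≤ Y → 1 ≤ V → V ≤ 9 * N₁ / (nm h : ℝ) ^ 2 → ∀ t : ℝ,
        E1551.JB Y α (fun U => G₀ < nm (h * U)) h B V t ≤
          Ml / (nm h : ℝ) ^ 2 * max B⁻¹ (yv K X h V) * (1 + |t|) ^ J) →
      ∑ κ ∈ Wn (1 / 10) N₁, ρ (nm κ) * (min 1 (lm K X 1 κ) * ‖TG α κ‖ ^ 2) ≤
        C * (η⁻¹) ^ (2 * J + 2) * Y ^ ε * (E + Ms + Ml + 1) := by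
  obtain ⟨w, hw, hw0, h1⟩ := rg_absorb2
  refine ⟨w, hw, hw0, fun J Aw R a e₃ ε hJA hR ha he₃ hε => ?_⟩
  obtain ⟨Cw, C, η₀, hCw, hC, hη₀, hη₀1, h2⟩ := h1 J Aw R a e₃ hJA hR ha he₃
  obtain ⟨C₁, hC₁, h3⟩ := EU_le (A := ((J + 2 : ℕ) : ℝ)) (J := J) (ε := ε / (2 * (a + 1)))
    (by push_cast; linarith) (Nat.cast_nonneg J) (by positivity)
  obtain ⟨C₂, hC₂, hlg⟩ := PInv255.one_add_log_pow_le 2 (ε / 2) (by positivity)
  set ε' : ℝ := ε / (2 * (a + 1)) with hε'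
  have hε'0 : 0 < ε' := by rw [hε']; positivity
  have h9 : (1 : ℝ) ≤ 9 ^ ε' := Real.one_le_rpow (by norm_num) hε'0.le
  refine ⟨Cw, C * C₂ * (1 + C₁ * 9 ^ ε'), η₀, hCw, by positivity, hη₀, hη₀1, ?_⟩
  intro K X Y η D G₀ N₀ N₁ ρ hK hX hXa hY hη hη₀' hD hN₀ hN hNa hND hρ hρ1 hρ0 hKN α hα hαR hαa
    E Ms Ml hE hMs hMl hLB hS hL
  have hY0 : 0 < Y := by linarith
  have hK0 : 0 < K := lt_of_lt_of_le (by positivity) hK
  have hYa : 1 ≤ Y ^ a := Real.one_le_rpow hY ha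
  set P : ℝ := 9 * Y ^ (a + 1) with hP
  have hYa1 : Y ^ (a + 1) = Y ^ a * Y := by rw [Real.rpow_add hY0, Real.rpow_one]
  have hP1 : 1 ≤ P := by
    rw [hP, hYa1]; nlinarith [one_le_mul_of_one_le_of_one_le hYa hY]
  have hYP : Y ≤ P := by rw [hP, hYa1]; nlinarith [mul_le_mul_of_nonneg_right hYa hY0.le]
  have hNP : 9 * (N₁ : ℝ) ≤ P := by
    rw [hP, hYa1]
    nlinarith [mul_le_mul_of_nonneg_left hY (by positivity : 0 ≤ Y ^ a)]
  have hPe : P ^ ε' = 9 ^ ε' * Y ^ (ε / 2) := by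
    rw [hP, Real.mul_rpow (by norm_num) (by positivity), ← Real.rpow_mul hY0.le]
    congr 2
    rw [hε']; field_simp
  set E' : ℝ := E + C₁ * P ^ ε' * (Ms + Ml) with hE'
  have hP0 : 0 < P := by linarith
  have hE'0 : 0 ≤ E' := by rw [hE']; positivity
  have hEE : E ≤ E' := by rw [hE']; linarith [(by positivity : 0 ≤ C₁ * P ^ ε' * (Ms + Ml))]
  have hη1 : 0 < η⁻¹ := inv_pos.mpr hη
  have mono : ∀ t : ℝ, E * (1 + |t|) ^ J ≤ E' * (1 + |t|) ^ J := fun t => by gcongr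
  have hJr : ∀ x : ℝ, 0 ≤ x → x ^ ((J : ℕ) : ℝ) = x ^ J := fun x _ => Real.rpow_natCast x J
  have hEU : ∀ t : ℝ, EU ((J + 2 : ℕ) : ℝ) K X Y (9 * (1 / 10)) (9 * N₁)
      (fun n => α n * pw t (nm n)) ≤ E' * (1 + |t|) ^ J := by
    intro t
    rw [EU_zero _ _ _ _ _ hY0.le (by norm_num) (by norm_num)]
    have ht1 : (1 : ℝ) ≤ (1 + |t|) ^ J := one_le_pow₀ (by linarith [abs_nonneg t])
    have ht0 : (0 : ℝ) ≤ (1 + |t|) ^ J := by positivity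
    have h4 := h3 P K X Y 0 (9 * N₁) G₀ (Ms * (1 + |t|) ^ J) (Ml * (1 + |t|) ^ J)
      (fun n => α n * pw t (nm n)) hP1 hK0 hX hY hYP le_rfl (by linarith) (by positivity) hNP
      (by positivity) (by positivity) (fun n hn => hα n (left_ne_zero_of_mul hn))
      (fun g hg hg1 hgG V hV1 hV s => by
        rw [VF_shift hY0.le hα ((mem_S hY0.le).1 hg).2.1.ne_zero, hJr _ (by positivity)]
        have h5 := hS g hg hg1 hgG V hV1 hV (t + s)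
        refine h5.trans ?_
        have h6 := one_add_le (t := t) (s := s) J
        have hq : 0 ≤ Ms / (nm g : ℝ) ^ 2 *
            max 1 ((V * K / (X / nm g) ^ 2) ^ (1 / 3 : ℝ)) :=
          mul_nonneg (by positivity) (le_trans zero_le_one (le_max_left _ _))
        calc Ms / (nm g : ℝ) ^ 2 * max 1 ((V * K / (X / nm g) ^ 2) ^ (1 / 3 : ℝ)) *
              (1 + |t + s|) ^ J ≤ Ms / (nm g : ℝ) ^ 2 *
              max 1 ((V * K / (X / nm g) ^ 2) ^ (1 / 3 : ℝ)) *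
              ((1 + |t|) ^ J * (1 + |s|) ^ J) := mul_le_mul_of_nonneg_left h6 hq
          _ = _ := by ring)
      (fun g hg hg1 hgG V hV1 hV s => by
        exfalso; rw [zero_mul] at hV; linarith)
      (fun h hh B V hB1 hBY hV1 hV s => by
        rw [JB_shift hY0.le hα hh, hJr _ (by positivity)]
        have h5 := hL h hh B V hB1 hBY hV1 hV (t + s)
        refine h5.trans ?_
        have h6 := one_add_le (t := t) (s := s) J
        have hB0 : 0 < B := by linarith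
        have hq : 0 ≤ Ml / (nm h : ℝ) ^ 2 * max B⁻¹ (yv K X h V) :=
          mul_nonneg (by positivity) (le_trans (by positivity) (le_max_left _ _))
        calc Ml / (nm h : ℝ) ^ 2 * max B⁻¹ (yv K X h V) * (1 + |t + s|) ^ J ≤
              Ml / (nm h : ℝ) ^ 2 * max B⁻¹ (yv K X h V) *
              ((1 + |t|) ^ J * (1 + |s|) ^ J) := mul_le_mul_of_nonneg_left h6 hq
          _ = _ := by ring)
      (fun h hh B V hB1 hBY hV1 hV s => by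
        exfalso; rw [zero_div] at hV; linarith)
    refine h4.trans ?_
    rw [hE']
    have : C₁ * P ^ ε' * (Ms * (1 + |t|) ^ J + Ml * (1 + |t|) ^ J) =
      (C₁ * P ^ ε' * (Ms + Ml)) * (1 + |t|) ^ J := by ring
    rw [this]
    exact mul_le_mul_of_nonneg_right (by linarith) ht0
  have h5 := h2 K X Y η D (1 / 10) N₀ N₁ ρ hK hX hXa hY hη hη₀' hD hN₀ hN hND hρ hρ1 hρ0 hKN α
    hα hαR hαa E' hE'0
    (fun p hp t X' φ a1 a2 a3 a4 => (hLB p hp t X' φ a1 a2 a3 a4).trans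
      (mul_le_mul_of_nonneg_left (mono t) (by positivity)))
    (fun t => by
      rw [BF_empty (by norm_num), Finset.sum_empty]
      positivity)
    hEU
  refine h5.trans ?_
  have hYe : 1 ≤ Y ^ (ε / 2) := Real.one_le_rpow hY (by positivity)
  have h6 : E' + 1 ≤ (1 + C₁ * 9 ^ ε') * Y ^ (ε / 2) * (E + Ms + Ml + 1) := by
    have h7 : E + 1 ≤ Y ^ (ε / 2) * (E + Ms + Ml + 1) := by
      calc E + 1 = 1 * (E + 1) := by ring
        _ ≤ Y ^ (ε / 2) * (E + Ms + Ml + 1) := by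
          apply mul_le_mul hYe (by linarith) (by positivity) (by positivity)
    have h8 : C₁ * P ^ ε' * (Ms + Ml) ≤ C₁ * 9 ^ ε' * (Y ^ (ε / 2) * (E + Ms + Ml + 1)) := by
      rw [hPe]
      calc C₁ * (9 ^ ε' * Y ^ (ε / 2)) * (Ms + Ml) =
            C₁ * 9 ^ ε' * (Y ^ (ε / 2) * (Ms + Ml)) := by ring
        _ ≤ _ := by
          refine mul_le_mul_of_nonneg_left ?_ (by positivity)
          exact mul_le_mul_of_nonneg_left (by linarith) (by positivity)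
    rw [hE']
    calc E + C₁ * P ^ ε' * (Ms + Ml) + 1 = (E + 1) + C₁ * P ^ ε' * (Ms + Ml) := by ring
      _ ≤ Y ^ (ε / 2) * (E + Ms + Ml + 1) +
          C₁ * 9 ^ ε' * (Y ^ (ε / 2) * (E + Ms + Ml + 1)) := add_le_add h7 h8
      _ = _ := by ring
  have h10 := hlg Y hY
  have hlog := Real.log_nonneg hY
  have hYY : Y ^ (ε / 2) * Y ^ (ε / 2) = Y ^ ε := by
    rw [← Real.rpow_add hY0]; congr 1; ring
  calc C * (η⁻¹) ^ (2 * J + 2) * (1 + Real.log Y) ^ 2 * (E' + 1) ≤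
        C * (η⁻¹) ^ (2 * J + 2) * (C₂ * Y ^ (ε / 2)) *
          ((1 + C₁ * 9 ^ ε') * Y ^ (ε / 2) * (E + Ms + Ml + 1)) := by gcongr
    _ = C * C₂ * (1 + C₁ * 9 ^ ε') * (η⁻¹) ^ (2 * J + 2) * (Y ^ (ε / 2) * Y ^ (ε / 2)) *
          (E + Ms + Ml + 1) := by ring
    _ = _ := by rw [hYY]

end Crest.Agent.R017.RGw813
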