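import Crest.Agent.R017.RGc_64
import Crest.Agent.R017.RGwL_813

/-!
# Row 17, C.REMg (RG by positivity) (helper813): the sequence of a flagged list satisfies the size
hypotheses of `rg_absorb`

* `alF_supp` : support of `alF`
* `norm_alF_le` : bound of `alF` by divisor functions
* `al_mem_S`, `al_log`, `sum_al_le` : the hypotheses of `rg_absorb` for `sqc q (alF z D0 P h ps)`
-/

set_option autoImplicit false

noncomputable section

open Complex MeasureTheory Filter Topology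
open scoped ComplexConjugate Classical

namespace Crest.Agent.R017.AL813

open Crest.Agent.R012 Crest.Agent.R012.Eis
open Crest.Agent.R012.LS2 (S mem_S)
open Crest.Agent.R012.Div277 (tau dvs mem_dvs isPrim_of_mem_dvs dvs_zero tau_le_rpow tau_le_of_dvd)
open Crest.Agent.R012.PSer47 (IsChar)
open Crest.Agent.R017.CM106 Crest.Agent.R017.HP842 Crest.Agent.R017.FE47
open Crest.Agent.R017.B770
open Crest.Agent.R017.TP320 (conv mul_div_of_mem)
open Crest.Agent.R017.Prov71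
open Crest.Agent.R017.Leg381
open Crest.Agent.R017.HSep813 (gw norm_gw_le)

/-! ### support -/

lemma fpc_supp {h : ℝ → ℝ} {R : ℝ} (hR : ∀ u, cx h u ≠ 0 → |u| ≤ R) (z D0 : ℝ) (P : DPar)
    (p : Pf) {n : Eis} (hn : fpc z D0 h (p.1.pc P) p.2 n ≠ 0) :
    IsPrim n ∧ |Real.log (nm n) - p.1.z| ≤ R := by
  have h1 : pc h (p.1.pc P) n ≠ 0 := left_ne_zero_of_mul hn
  unfold pc at h1
  split_ifs at h1 with hp
  · refine ⟨hp, ?_⟩
    have h2 : gw h (p.1.pc P).Y (p.1.pc P).t n ≠ 0 := right_ne_zero_of_mul h1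
    unfold gw at h2
    have h3 := hR _ (right_ne_zero_of_mul h2)
    rw [Pq.pc_Y, Real.log_exp] at h3
    exact h3
  · exact absurd rfl h1

/-- **support of the sequence of a flagged list** -/
theorem alF_supp {h : ℝ → ℝ} {R : ℝ} (hR : ∀ u, cx h u ≠ 0 → |u| ≤ R) (z D0 : ℝ) (P : DPar)
    (ps : List Pf) {n : Eis} (hn : alF z D0 P h ps n ≠ 0) :
    IsPrim n ∧ |Real.log (nm n) - LF ps| ≤ ps.length * R := by
  induction ps generalizing n with
  | nil =>
    have h1 : n = 1 := by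
      by_contra h0
      exact hn (dl_ne h0)
    subst h1
    refine ⟨isPrim_one, ?_⟩
    rw [nm_one]
    simp [LF]
  | cons p ps ih =>
    have e : alF z D0 P h (p :: ps) n =
        ∑ d ∈ dvs n, fpc z D0 h (p.1.pc P) p.2 d * alF z D0 P h ps (n / d) := rfl
    rw [e] at hn
    obtain ⟨d, hd, h1⟩ := Finset.exists_ne_zero_of_sum_ne_zero hn
    obtain ⟨h2, h3⟩ := fpc_supp hR z D0 P p (left_ne_zero_of_mul h1)
    obtain ⟨h4, h5⟩ := ih (right_ne_zero_of_mul h1)
    have h6 := mul_div_of_mem hd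
    have hd0 : (nm d : ℝ) ≠ 0 := by
      have := nm_pos.2 h2.ne_zero
      exact_mod_cast this.ne'
    have hq0 : (nm (n / d) : ℝ) ≠ 0 := by
      have := nm_pos.2 h4.ne_zero
      exact_mod_cast this.ne'
    constructor
    · rw [← h6]; exact h2.mul h4
    · have h7 : Real.log (nm n) = Real.log (nm d) + Real.log (nm (n / d)) := by
        conv_lhs => rw [← h6, nm_mul]
        push_cast
        rw [Real.log_mul hd0 hq0]
      have h8 : LF (p :: ps) = p.1.z + LF ps := by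
        unfold LF
        rw [List.map_cons, List.sum_cons]
      rw [h7, h8, List.length_cons]
      push_cast
      have e2 : Real.log (nm d) + Real.log (nm (n / d)) - (p.1.z + LF ps) =
          (Real.log (nm d) - p.1.z) + (Real.log (nm (n / d)) - LF ps) := by ring
      rw [e2]
      refine (abs_add_le _ _).trans ?_
      linarith

/-! ### size -/

lemma norm_uv_le (u : UT) (b : Eis) : ‖uv u b‖ ≤ 1 := by
  cases u with
  | one => simp [uv]
  | mu => exact Leg381.norm_muE_le b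
  | sq => unfold uv; dsimp only; split_ifs <;> simp
  | pr => unfold uv; dsimp only; split_ifs <;> simp
  | del => unfold uv; dsimp only; split_ifs <;> simp

lemma norm_fpc_le {h : ℝ → ℝ} {A : ℝ} (hA : ∀ u, ‖cx h u‖ ≤ A) (z D0 : ℝ) {P : DPar}
    (hP : P.OK) (p : Pf) {n : Eis} (hn : n ≠ 0) :
    ‖fpc z D0 h (p.1.pc P) p.2 n‖ ≤ A * tau n := by
  have hA0 : 0 ≤ A := (norm_nonneg _).trans (hA 0)
  have ht : (1 : ℝ) ≤ tau n := Leg381.one_le_tau hn
  have h1 : ‖pc h (p.1.pc P) n‖ ≤ A := by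
    unfold pc
    split_ifs with hp
    · rw [norm_mul, norm_mul]
      have h2 := norm_uv_le (p.1.pc P).u n
      have h3 : ‖(p.1.pc P).ψ n‖ ≤ 1 := by
        rcases (Pq.ok hP p.1).ch.norm n hp with h0 | h0
        · rw [h0, norm_zero]; exact zero_le_one
        · rw [h0]
      have h4 := norm_gw_le hA (p.1.pc P).Y (p.1.pc P).t n
      calc ‖uv (p.1.pc P).u n‖ * ‖(p.1.pc P).ψ n‖ * ‖gw h (p.1.pc P).Y (p.1.pc P).t n‖ ≤
            1 * 1 * A := by gcongr
        _ = A := by ring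
    · rw [norm_zero]; exact hA0
  have h2 : ‖fw z D0 p.2 n‖ ≤ tau n := by
    unfold fw
    split_ifs
    · exact norm_natw_le z D0 n
    · rw [norm_one]; exact ht
  unfold fpc
  rw [norm_mul]
  exact mul_le_mul h1 h2 (norm_nonneg _) hA0

/-- **size of the sequence of a flagged list** -/
theorem norm_alF_le {h : ℝ → ℝ} {A : ℝ} (hA : ∀ u, ‖cx h u‖ ≤ A) (z D0 : ℝ) {P : DPar}
    (hP : P.OK) (ps : List Pf) (n : Eis) :
    ‖alF z D0 P h ps n‖ ≤ A ^ ps.length * (tau n : ℝ) ^ (2 * ps.length) := by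
  have hA0 : 0 ≤ A := (norm_nonneg _).trans (hA 0)
  induction ps generalizing n with
  | nil =>
    show ‖dl n‖ ≤ _
    unfold dl
    split_ifs <;> simp
  | cons p ps ih =>
    by_cases hn : n = 0
    · have e : alF z D0 P h (p :: ps) n =
        ∑ d ∈ dvs n, fpc z D0 h (p.1.pc P) p.2 d * alF z D0 P h ps (n / d) := rfl
      rw [e, hn, dvs_zero, Finset.sum_empty, norm_zero]
      positivity
    have e : alF z D0 P h (p :: ps) n =
        ∑ d ∈ dvs n, fpc z D0 h (p.1.pc P) p.2 d * alF z D0 P h ps (n / d) := rfl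
    rw [e]
    have ht : (1 : ℝ) ≤ tau n := Leg381.one_le_tau hn
    calc ‖∑ d ∈ dvs n, fpc z D0 h (p.1.pc P) p.2 d * alF z D0 P h ps (n / d)‖ ≤
          ∑ d ∈ dvs n, (A * tau n) * (A ^ ps.length * (tau n : ℝ) ^ (2 * ps.length)) := by
          refine (norm_sum_le _ _).trans (Finset.sum_le_sum fun d hd => ?_)
          have h6 := mul_div_of_mem hd
          have hd0 := (isPrim_of_mem_dvs hd).ne_zero
          rw [norm_mul]
          have h7 : (tau d : ℝ) ≤ tau n := by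
            exact_mod_cast tau_le_of_dvd hn (Dvd.intro _ h6)
          have h8 : (tau (n / d) : ℝ) ≤ tau n := by
            exact_mod_cast tau_le_of_dvd hn (Dvd.intro_left _ h6)
          have h9 := norm_fpc_le hA z D0 hP p hd0
          have h10 := ih (n / d)
          calc ‖fpc z D0 h (p.1.pc P) p.2 d‖ * ‖alF z D0 P h ps (n / d)‖ ≤
                (A * tau d) * (A ^ ps.length * (tau (n / d) : ℝ) ^ (2 * ps.length)) :=
                mul_le_mul h9 h10 (norm_nonneg _) (by positivity)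
            _ ≤ _ := by gcongr
      _ = (tau n : ℝ) * ((A * tau n) * (A ^ ps.length * (tau n : ℝ) ^ (2 * ps.length))) := by
          rw [Finset.sum_const, nsmul_eq_mul]
          rfl
      _ = _ := by
          rw [List.length_cons]
          ring

/-! ### the hypotheses of `rg_absorb` -/

variable {h : ℝ → ℝ} {c : ℝ}

/-- `sqc q (alF ..)` is supported on squarefree primary elements of the right size -/
theorem al_supp {R : ℝ} (hR : ∀ u, cx h u ≠ 0 → |u| ≤ R) (z D0 : ℝ) (P : DPar) (q : Eis)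
    (ps : List Pf) {n : Eis} (hn : sqc q (alF z D0 P h ps) n ≠ 0) :
    IsPrim n ∧ Squarefree n ∧ IsCoprime n q ∧
      |Real.log (nm n) - LF ps| ≤ ps.length * R := by
  have h1 : Th q n ≠ 0 := left_ne_zero_of_mul hn
  unfold Th at h1
  split_ifs at h1 with h2
  · obtain ⟨h3, h4⟩ := alF_supp hR z D0 P ps (right_ne_zero_of_mul hn)
    exact ⟨h3, h2.1, h2.2, h4⟩
  · exact absurd rfl h1

/-- the hypothesis `n ∈ S Y` -/
theorem al_mem_S {R : ℝ} (hR : ∀ u, cx h u ≠ 0 → |u| ≤ R) (z D0 : ℝ) (P : DPar) (q : Eis)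
    (ps : List Pf) {Y : ℝ} (hY : Real.exp (LF ps + ps.length * R) ≤ Y) {n : Eis}
    (hn : sqc q (alF z D0 P h ps) n ≠ 0) : n ∈ S Y := by
  obtain ⟨h1, h2, -, h3⟩ := al_supp hR z D0 P q ps hn
  have hY0 : 0 ≤ Y := (Real.exp_pos _).le.trans hY
  have hn0 : (0 : ℝ) < nm n := by exact_mod_cast nm_pos.2 h1.ne_zero
  rw [mem_S hY0]
  refine ⟨?_, h1, h2⟩
  rw [← Real.exp_log hn0]
  refine le_trans (Real.exp_le_exp.2 ?_) hY
  have := (abs_le.1 h3).2
  linarith

lemma norm_sqc_le (q : Eis) (α : Eis → ℂ) (n : Eis) : ‖sqc q α n‖ ≤ ‖α n‖ := by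
  unfold sqc
  rw [norm_mul]
  exact mul_le_of_le_one_left (norm_nonneg _) (RG64.norm_Th_le q n)

/-- the bump is bounded -/
lemma cx_bdd (hpu : PU h c) : ∃ A : ℝ, 1 ≤ A ∧ ∀ u, ‖cx h u‖ ≤ A := by
  obtain ⟨A, hA⟩ := hpu.cs.exists_bound_of_continuous hpu.cd.continuous
  refine ⟨max A 1, le_max_right _ _, fun u => ?_⟩
  have : ‖cx h u‖ = ‖h u‖ := by
    unfold cx
    rw [Complex.norm_real]
  rw [this]
  exact (hA u).trans (le_max_left _ _)

/-- the total mass -/
theorem sum_alF_le (hpu : PU h c) (N : ℕ) : ∃ C : ℝ, 1 ≤ C ∧ ∀ (z D0 : ℝ) (P : DPar), P.OK →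
    ∀ (q : Eis) (ps : List Pf), ps.length ≤ N → ∀ Y : ℝ, 1 ≤ Y →
      ∑ n ∈ S Y, ‖sqc q (alF z D0 P h ps) n‖ ≤ C * Y ^ 2 := by
  obtain ⟨A, hA1, hA⟩ := cx_bdd hpu
  set ε : ℝ := 1 / (2 * N + 1) with hε
  have hN0 : (0 : ℝ) ≤ N := Nat.cast_nonneg _
  have hε0 : 0 < ε := by positivity
  obtain ⟨C, hC, hτ⟩ := tau_le_rpow hε0
  refine ⟨16 * (A ^ N * C ^ (2 * N)), ?_, ?_⟩
  · have h1 : 1 ≤ A ^ N := one_le_pow₀ hA1
    have h2 : 1 ≤ C ^ (2 * N) := one_le_pow₀ hC
    nlinarith [one_le_mul_of_one_le_of_one_le h1 h2]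
  intro z D0 P hP q ps hN Y hY
  have hY0 : 0 < Y := by linarith
  have hb : ∀ n ∈ S Y, ‖sqc q (alF z D0 P h ps) n‖ ≤ A ^ N * C ^ (2 * N) * Y := by
    intro n hn
    obtain ⟨h1, h2, -⟩ := (mem_S hY0.le).1 hn
    have hn0 := h2.ne_zero
    have hnp : (0 : ℝ) < nm n := by exact_mod_cast nm_pos.2 hn0
    have ht : (1 : ℝ) ≤ tau n := Leg381.one_le_tau hn0
    refine ((norm_sqc_le q _ n).trans (norm_alF_le hA z D0 hP ps n)).trans ?_
    have h3 : A ^ ps.length ≤ A ^ N := pow_le_pow_right₀ hA1 hN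
    have h4 : (tau n : ℝ) ^ (2 * ps.length) ≤ (tau n : ℝ) ^ (2 * N) :=
      pow_le_pow_right₀ ht (by omega)
    have h5 : (tau n : ℝ) ≤ C * Y ^ ε :=
      (hτ n hn0).trans (mul_le_mul_of_nonneg_left (Real.rpow_le_rpow hnp.le h1 hε0.le)
        (by linarith))
    have h6 : (tau n : ℝ) ^ (2 * N) ≤ C ^ (2 * N) * Y := by
      calc (tau n : ℝ) ^ (2 * N) ≤ (C * Y ^ ε) ^ (2 * N) :=
            pow_le_pow_left₀ (by linarith) h5 _
        _ = C ^ (2 * N) * (Y ^ ε) ^ (2 * N) := by rw [mul_pow]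
        _ ≤ C ^ (2 * N) * Y := by
            refine mul_le_mul_of_nonneg_left ?_ (by positivity)
            rw [← Real.rpow_natCast, ← Real.rpow_mul hY0.le]
            calc Y ^ (ε * ((2 * N : ℕ) : ℝ)) ≤ Y ^ (1 : ℝ) := by
                  refine Real.rpow_le_rpow_of_exponent_le hY ?_
                  rw [hε]
                  push_cast
                  rw [one_div, inv_mul_le_iff₀ (by positivity)]
                  linarith
              _ = Y := Real.rpow_one Y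
    have hA0 : 0 ≤ A ^ N := by positivity
    calc A ^ ps.length * (tau n : ℝ) ^ (2 * ps.length) ≤ A ^ N * (C ^ (2 * N) * Y) :=
          mul_le_mul h3 (h4.trans h6) (by positivity) hA0
      _ = _ := by ring
  calc ∑ n ∈ S Y, ‖sqc q (alF z D0 P h ps) n‖ ≤ ∑ n ∈ S Y, A ^ N * C ^ (2 * N) * Y :=
        Finset.sum_le_sum hb
    _ = ((S Y).card : ℝ) * (A ^ N * C ^ (2 * N) * Y) := by
        rw [Finset.sum_const, nsmul_eq_mul]
    _ ≤ 16 * Y * (A ^ N * C ^ (2 * N) * Y) := by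
        have hc := GLS106.card_S_le hY
        exact mul_le_mul_of_nonneg_right hc (by positivity)
    _ = _ := by ring

/-- **all size hypotheses of `rg_absorb`** for `sqc q (alF z D0 P h ps)`, `X = exp (LF ps)` -/
theorem al_hyps (hpu : PU h c) (N : ℕ) : ∃ R C : ℝ, 0 ≤ R ∧ 1 ≤ C ∧ ∀ (z D0 : ℝ) (P : DPar),
    P.OK → ∀ (q : Eis) (ps : List Pf), ps.length ≤ N → ∀ Y : ℝ, C ≤ Y →
      Real.exp R * Real.exp (LF ps) ≤ Y →
      (∀ n, sqc q (alF z D0 P h ps) n ≠ 0 → n ∈ S Y) ∧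
      (∀ n, sqc q (alF z D0 P h ps) n ≠ 0 →
        |Real.log (nm n) - Real.log (Real.exp (LF ps))| ≤ R) ∧
      (∀ a : ℝ, 3 ≤ a → ∑ n ∈ S Y, ‖sqc q (alF z D0 P h ps) n‖ ≤ Y ^ a) ∧
      FS (sqc q (alF z D0 P h ps)) := by
  obtain ⟨R₀, hR₀⟩ := bump_of_cs hpu.cs
  set R := max R₀ 0 with hRd
  have hR0 : 0 ≤ R := le_max_right _ _
  have hR : ∀ u, cx h u ≠ 0 → |u| ≤ R := fun u hu => (hR₀ u hu).trans (le_max_left _ _)
  obtain ⟨C, hC, H⟩ := sum_alF_le hpu N
  have hN0 : (0 : ℝ) ≤ N := Nat.cast_nonneg _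
  refine ⟨N * R, C, by positivity, hC, fun z D0 P hP q ps hN Y hCY hY => ?_⟩
  have hY1 : 1 ≤ Y := hC.trans hCY
  have hY0 : 0 < Y := by linarith
  have hNN : (ps.length : ℝ) * R ≤ N * R :=
    mul_le_mul_of_nonneg_right (by exact_mod_cast hN) hR0
  refine ⟨fun n hn => al_mem_S hR z D0 P q ps ?_ hn, fun n hn => ?_, fun a ha => ?_,
    HP842.FS.sqc (RG64.FS_alF ⟨R, hR⟩ hP z D0 ps) q⟩
  · refine le_trans ?_ hY
    rw [← Real.exp_add]
    exact Real.exp_le_exp.2 (by linarith)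
  · rw [Real.log_exp]
    exact (al_supp hR z D0 P q ps hn).2.2.2.trans hNN
  · refine (H z D0 P hP q ps hN Y hY1).trans ?_
    calc C * Y ^ 2 ≤ Y * Y ^ 2 := mul_le_mul_of_nonneg_right hCY (by positivity)
      _ = Y ^ (3 : ℝ) := by
          rw [show (3 : ℝ) = ((3 : ℕ) : ℝ) by norm_num, Real.rpow_natCast]; ring
      _ ≤ Y ^ a := Real.rpow_le_rpow_of_exponent_le hY1 ha

end Crest.Agent.R017.AL813
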