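import Crest.Agent.R017.BDefs2_770

/-!
# Row 17, section A: the functional equation at all primary frequencies (interface, helper590)

* `HN ν b` : the natural coefficient at frequency `ν` (`hN a b = HN (a^4) b`)
* `PsiE`, `PsiF` : the left and right series at frequency `ν`
* `Dt ι L` : data of a functional equation, `Dt.OK`, `FEn`
* `Pure M ψ` : `ψ_p^6 ≠ 1` for all primes `p ∣ M`, `p ∤ 6`
* `StepPure` : the functional equations for pure characters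
-/

set_option autoImplicit false

noncomputable section

open MeasureTheory Complex Set
open scoped ComplexConjugate ContDiff

namespace Crest.Agent.R017.A590

open Crest.Agent.R012 Crest.Agent.R012.Eis Crest.Agent.R012.Mob705 Crest.Agent.R012.Gauss880
open Crest.Agent.R017.End699 Crest.Agent.R017.Sx440 Crest.Agent.R017.Sx545 Crest.Agent.R017.B770

/-- natural sextic coefficient at frequency `ν`, normalised. -/
def HN (ν b : Eis) : ℂ :=
  ang 1 b * conj (sy 2 b) * LS848.eps2 b * conj (gs6 ν b) / (Real.sqrt (nm b) : ℂ)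

lemma hN_eq (a b : Eis) : hN a b = HN (a ^ 4) b := rfl

/-- the explicit character of the `e`-sum -/
def xiE (ψ : Eis → ℂ) (l : ℤ) (e : Eis) : ℂ := (End699.tw ψ (l + 1) e) ^ 6

/-- the natural series at frequency `ν` with the `e`-sum -/
def PsiE (M : Eis) (ξ f : Eis → ℂ) (ν : Eis) (V : ℝ → ℂ) (Q : ℝ) : ℂ := by
  classical
  exact ∑' e : Eis, if Sm M e then ξ e * (nm e : ℂ) ^ 2 *
    ∑' b : Eis, (if Sm M b then f b * HN ν b * V (nm b * (nm e : ℝ) ^ 6 / Q) else 0) else 0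

/-- the natural series at frequency `ν` without `e`-sum -/
def PsiF (M : Eis) (f : Eis → ℂ) (ν : Eis) (V : ℝ → ℂ) (Q : ℝ) : ℂ := by
  classical
  exact ∑' b : Eis, if Sm M b then f b * HN ν b * V (nm b / Q) else 0

/-- data of a functional equation (arbitrary finite index types) -/
structure Dt (ι L : Type) where
  M' : Eis
  κ : ι → ℂ
  η : ι → Eis → ℂ
  ψ' : ι → Eis → ℂ
  j : ℤ
  l' : ℤ
  ρ : ι → ℝ
  cL : L → ℂ
  qL : L → ℝ

/-- well-formedness -/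
structure Dt.OK {ι L : Type} [Fintype L] (D : Dt ι L) (M : Eis) : Prop where
  ne : D.M' ≠ 0
  dvd : M ∣ D.M'
  rad : ∀ p : Eis, Prime p → p ∣ D.M' → p ∣ M
  η : ∀ i, HC D.M' (D.η i)
  ψ' : ∀ i, HC D.M' (D.ψ' i)
  ρ : ∀ i, 0 < D.ρ i
  qL : ∀ i, 1 ≤ D.qL i
  nz : ∀ s : ℂ, 5 / 6 < s.re → ∑ i, D.cL i * (D.qL i : ℂ) ^ (1 / 6 - s) ≠ 0
  /-- `j = l + 1` -/
  j0 : D.j ≠ 0
  /-- `l' + 4 j = 3 l + 2` -/
  lj : D.l' + 4 * D.j ≠ 0
  /-- `l' = -(l + 2)` -/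
  rel : D.l' + D.j = -1

/-- **the functional equation at all primary frequencies prime to `M`** -/
def FEn {ι L : Type} [Fintype ι] [Fintype L] (M : Eis) (ψ : Eis → ℂ) (l : ℤ) (D : Dt ι L) : Prop :=
  ∀ V : ℝ → ℂ, SW V → ∃ W : ι → ℝ → ℝ → ℂ, (∀ i, RD (W i)) ∧
    ∀ (ν : Eis), Sm M ν → ∀ Q : ℝ, 0 < Q → ∀ τ : ℝ,
      ∑ j, D.cL j * PsiE M (xiE ψ l) (End699.tw ψ l) ν (fun y => (y : ℂ) ^ (I * τ) * V y)
          (Q / D.qL j) =
        ((Q / Real.sqrt (nm ν) : ℝ) : ℂ) * ∑ i, D.κ i * End699.tw (D.η i) D.j ν *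
          PsiF M (End699.tw (D.ψ' i) D.l') ν (W i τ) (D.ρ i * nm ν / Q)

/-- existence of a functional equation for `(ψ, l)` on `Sm M` -/
def HasFE (M : Eis) (ψ : Eis → ℂ) (l : ℤ) : Prop :=
  ∃ (ι L : Type) (_ : Fintype ι) (_ : Fintype L) (D : Dt ι L), D.OK M ∧ FEn M ψ l D

/-- `ψ` is pure at `p` (prime, `p ∤ 6`): `ψ_p^6 ≠ 1`. -/
def PureAt (M : Eis) (ψ : Eis → ℂ) (p : Eis) : Prop :=
  ∀ (v : ℕ) (M₁ : Eis), M = p ^ v * M₁ → ¬ p ∣ M₁ →
    ∃ b : Eis, IsPrim b ∧ M₁ ∣ b - 1 ∧ ¬ p ∣ b ∧ ψ b ^ 6 ≠ 1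

/-- `ψ` is pure at all primes `p ∣ M`, `p ∤ 6` -/
def Pure (M : Eis) (ψ : Eis → ℂ) : Prop :=
  ∀ p : Eis, Prime p → p ∣ M → ¬ p ∣ 6 → PureAt M ψ p

/-- **the analytic/arithmetic input**: functional equations for pure characters -/
def StepPure : Prop :=
  ∀ M : Eis, (36 : Eis) ∣ M → ∀ ψ : Eis → ℂ, HC M ψ → Pure M ψ → ∀ l : ℤ, l ≠ -1 → HasFE M ψ l

end Crest.Agent.R017.A590
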