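import Crest.Agent.R017.AS4_590

/-!
# Row 17, section A: a character of order dividing `6` at `p` is a power of `sy6 · p` (helper960)

* `exists_theta`
-/

set_option autoImplicit false

noncomputable section

open Complex
open scoped ComplexConjugate

namespace Crest.Agent.R017.A590

open Crest.Agent.R012 Crest.Agent.R012.Eis Crest.Agent.R012.Mob705 Crest.Agent.R012.Gauss880
open Crest.Agent.R017.End699 Crest.Agent.R017.Sx440 Crest.Agent.R017.Sx545 Crest.Agent.R017.B770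
open Crest.Agent.R017.QS411

section th960

variable {M M₁ p : Eis} {v : ℕ} {ψ : Eis → ℂ}

lemma th_step {x y : Eis} {q k : ℕ} (hq : p ∣ (q : Eis)) (hp : p ∣ x - 1) (h : p ^ k ∣ x - 1)
    (hy : y = x ^ q) : p ^ (k + 1) ∣ y - 1 := by
  subst hy
  have h1 : x ^ q - 1 = (∑ i ∈ Finset.range q, x ^ i) * (x - 1) := (geom_sum_mul x q).symm
  rw [h1, pow_succ, mul_comm (p ^ k) p]
  refine mul_dvd_mul ?_ h
  have h2 : (∑ i ∈ Finset.range q, x ^ i) = (∑ i ∈ Finset.range q, (x ^ i - 1)) + (q : Eis) := by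
    rw [Finset.sum_sub_distrib]; simp
  rw [h2]
  refine dvd_add (Finset.dvd_sum fun i _ => ?_) hq
  exact hp.trans (by simpa using sub_dvd_pow_sub_pow x 1 i)

lemma th_iter {x : Eis} {q : ℕ} (hq : p ∣ (q : Eis)) (hp : p ∣ x - 1) (k : ℕ) :
    p ^ (k + 1) ∣ x ^ (q ^ k) - 1 := by
  induction k with
  | zero => simpa using hp
  | succ k ih =>
    refine th_step (x := x ^ (q ^ k)) hq ?_ ih ?_
    · exact (dvd_pow_self p (Nat.succ_ne_zero k)).trans ih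
    · rw [← pow_mul, pow_succ]

lemma th_prim (h36 : (36 : Eis) ∣ M₁) {b : Eis} (hb : M₁ ∣ b - 1) : IsPrim b :=
  (Dvd.dvd.trans ⟨12, by norm_num⟩ h36).trans hb

lemma th_copM1 {b : Eis} (hb : M₁ ∣ b - 1) : IsCoprime b M₁ := by
  obtain ⟨t, ht⟩ := hb
  exact ⟨1, -t, by linear_combination ht⟩

lemma th_sm (hp : Prime p) (h36 : (36 : Eis) ∣ M₁) (hM : M = p ^ v * M₁) {b : Eis}
    (hb : M₁ ∣ b - 1) (hpb : ¬ p ∣ b) : Sm M b := by
  refine ⟨th_prim h36 hb, ?_⟩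
  rw [hM]
  exact (isCoprime_of_not_dvd hp hpb).pow_right.mul_right (th_copM1 hb)

lemma Uni.pow_arg (h : Uni M ψ) {b : Eis} (hb : Sm M b) (n : ℕ) : ψ (b ^ n) = ψ b ^ n := by
  induction n with
  | zero => simp [h.one]
  | succ n ih => rw [pow_succ, h.mul _ _ (hb.pow n) hb, ih, pow_succ]

lemma nm_coprime_six (hsp : Sm M₁ p) (h36 : (36 : Eis) ∣ M₁) :
    Nat.Coprime (nm p) 6 := by
  have h2 : (2 : Eis) ∣ M₁ := Dvd.dvd.trans ⟨18, by norm_num⟩ h36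
  have hod : Od p := hsp.od h2
  have h3 : nm p % 3 = 1 := nm_mod_three_of_not_dvd hsp.not_lam_dvd
  have h4 := hod.nm_odd
  have h5 : Nat.Coprime (nm p) 2 := by
    rw [Nat.coprime_comm]
    refine (Nat.Prime.coprime_iff_not_dvd (by norm_num)).mpr ?_
    omega
  have h6 : Nat.Coprime (nm p) 3 := by
    rw [Nat.coprime_comm]
    refine (Nat.Prime.coprime_iff_not_dvd (by norm_num)).mpr ?_
    omega
  exact Nat.Coprime.mul_right h5 h6

/-- step (1) -/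
lemma th_one (hp : Prime p) (hsp : Sm M₁ p) (h36 : (36 : Eis) ∣ M₁) (hM : M = p ^ v * M₁)
    (h : Uni M ψ)
    (h6 : ∀ b, IsPrim b → M₁ ∣ b - 1 → ¬ p ∣ b → ψ b ^ 6 = 1) {b : Eis}
    (hb : M₁ ∣ b - 1) (hpb : p ∣ b - 1) : ψ b = 1 := by
  have hnb : ¬ p ∣ b := by
    intro h1
    have h2 := dvd_sub h1 hpb
    rw [sub_sub_cancel] at h2
    exact hp.not_isUnit (isUnit_of_dvd_one h2)
  have hsm := th_sm (v := v) hp h36 hM hb hnb
  have hq : p ∣ ((nm p : ℕ) : Eis) := ⟨Eis.conj p, (Eis.mul_conj p).symm⟩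
  have h1 : M ∣ b ^ (nm p ^ v) - 1 := by
    rw [hM]
    refine IsCoprime.mul_dvd hsp.2.pow_left ?_ ?_
    · exact (pow_dvd_pow p (Nat.le_succ v)).trans (th_iter hq hpb v)
    · exact hb.trans (by simpa using sub_dvd_pow_sub_pow b 1 (nm p ^ v))
  have h2 : ψ b ^ (nm p ^ v) = 1 := by
    rw [← h.pow_arg hsm, h.per _ 1 (hsm.pow _) (Sm.one M) h1, h.one]
  have h3 := h6 b (th_prim h36 hb) hb hnb
  have h4 : Nat.Coprime (nm p ^ v) 6 := (nm_coprime_six hsp h36).pow_left v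
  have h5 : orderOf (ψ b) ∣ 1 := by
    rw [← h4]
    exact Nat.dvd_gcd (orderOf_dvd_of_pow_eq_one h2) (orderOf_dvd_of_pow_eq_one h3)
  exact orderOf_eq_one_iff.mp (Nat.dvd_one.mp h5)

/-- step (2): a generator modulo `p` in the class `1` modulo `M₁` -/
lemma th_gen (hp : Prime p) (hsp : Sm M₁ p) : ∃ g : Eis, M₁ ∣ g - 1 ∧ ¬ p ∣ g ∧
    ∀ b : Eis, ¬ p ∣ b → ∃ k : ℕ, p ∣ b * g ^ k - 1 := by
  let _ : Field (QE p) := @Ideal.Quotient.field _ _ _ (isField_QE hp)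
  have hfin : Finite (QE p) := finite_QE hp.ne_zero
  let _ : Fintype (QE p) := Fintype.ofFinite _
  classical
  obtain ⟨u, hu⟩ := IsCyclic.exists_generator (α := (QE p)ˣ)
  obtain ⟨z, hz⟩ := mkQ_surjective p (u : QE p)
  obtain ⟨s, t, hst⟩ := hsp.2
  -- g ≡ z mod p, ≡ 1 mod M₁
  have hg1 : M₁ ∣ (s * p + z * (t * M₁)) - 1 := ⟨(z - 1) * t, by linear_combination hst⟩
  have hg2 : mkQ p (s * p + z * (t * M₁)) = u := by
    rw [← hz, mkQ_eq_iff]
    exact ⟨s - z * s, by linear_combination z * hst⟩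
  refine ⟨s * p + z * (t * M₁), hg1, ?_, ?_⟩
  · intro hd
    have h1 : mkQ p (s * p + z * (t * M₁)) = 0 := by
      rw [← map_zero (mkQ p), mkQ_eq_iff, sub_zero]; exact hd
    rw [hg2] at h1
    exact u.ne_zero h1
  · intro b hb
    have hb0 : mkQ p b ≠ 0 := by
      intro h
      rw [← map_zero (mkQ p), mkQ_eq_iff, sub_zero] at h
      exact hb h
    obtain ⟨n, hn⟩ := hu ((Units.mk0 _ hb0)⁻¹)
    have hpos : 0 < orderOf u := orderOf_pos u
    refine ⟨(n % (orderOf u : ℤ)).toNat, ?_⟩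
    rw [← mkQ_eq_iff, map_mul, map_pow, map_one, hg2]
    have h1 : u ^ (n % (orderOf u : ℤ)).toNat = (Units.mk0 _ hb0)⁻¹ := by
      rw [← hn]
      show u ^ (n % (orderOf u : ℤ)).toNat = u ^ n
      rw [← zpow_natCast, Int.toNat_of_nonneg (Int.emod_nonneg _ (by positivity)),
        zpow_mod_orderOf]
    rw [← Units.val_pow_eq_pow_val, h1]
    simp [hb0]

/-- **a character of order dividing `6` at `p`** -/
theorem exists_theta (hp : Prime p) (hsp : Sm M₁ p)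
    (h36 : (36 : Eis) ∣ M₁) (hM : M = p ^ v * M₁) (_hv : v ≠ 0) (h : Uni M ψ)
    (h6 : ∀ b, IsPrim b → M₁ ∣ b - 1 → ¬ p ∣ b → ψ b ^ 6 = 1) :
    ∃ i ≤ 5, ∀ b, IsPrim b → M₁ ∣ b - 1 → ¬ p ∣ b → ψ b = sy6 b p ^ i := by
  obtain ⟨g, hg1, hg2, hg⟩ := th_gen hp hsp
  have h2 : (2 : Eis) ∣ M₁ := Dvd.dvd.trans ⟨18, by norm_num⟩ h36
  have hsp2 : Sm 2 p := hsp.mono h2
  set ζ := sy6 g p with hζ
  have key : ∀ b : Eis, ¬ p ∣ b → ∀ k : ℕ, p ∣ b * g ^ k - 1 → sy6 b p * ζ ^ k = 1 := by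
    intro b hb k hk
    have h3 := res_sy6.congr _ _ p hsp2 hk
    rw [res_sy6.one_left hsp2, res_sy6.mul_left _ _ p hsp2] at h3
    rw [← h3, hζ]
    rw [sy6_pow_left hsp2.1 (hsp2.od (dvd_refl _))]
  have hord : ∀ j : ℕ, ζ ^ j = 1 → 6 ∣ j := by
    intro j hj
    refine res_sy6.order p hsp2 hp j fun x hx => ?_
    obtain ⟨k, hk⟩ := hg x (not_dvd_of_isCoprime hp hx)
    have h3 := key x (not_dvd_of_isCoprime hp hx) k hk
    have h4 : (sy6 x p * ζ ^ k) ^ j = 1 := by rw [h3, one_pow]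
    rw [mul_pow, ← pow_mul, mul_comm k j, pow_mul, hj, one_pow, mul_one] at h4
    exact h4
  have hcop : IsCoprime g p := isCoprime_of_not_dvd hp hg2
  have hζ6 : ζ ^ 6 = 1 := res_sy6.pow_eq g p hsp2 hcop
  have hprim : IsPrimitiveRoot ζ 6 := ⟨hζ6, hord⟩
  have hgp : IsPrim g := th_prim h36 hg1
  obtain ⟨i, hi, hi2⟩ := hprim.eq_pow_of_pow_eq_one (h6 g hgp hg1 hg2)
  refine ⟨i, by omega, fun b hb hb1 hpb => ?_⟩
  obtain ⟨k, hk⟩ := hg b hpb
  have h3 := key b hpb k hk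
  have hsb := th_sm (v := v) hp h36 hM hb1 hpb
  have hsg := th_sm (v := v) hp h36 hM hg1 hg2
  have hM1 : M₁ ∣ b * g ^ k - 1 := by
    have h4 : M₁ ∣ g ^ k - 1 := hg1.trans (by simpa using sub_dvd_pow_sub_pow g 1 k)
    obtain ⟨t, ht⟩ := h4
    obtain ⟨r, hr⟩ := hb1
    exact ⟨r * g ^ k + t, by linear_combination hr * g ^ k + ht⟩
  have h4 := th_one hp hsp h36 hM h h6 hM1 hk
  rw [h.mul _ _ hsb (hsg.pow k), h.pow_arg hsg, ← hi2] at h4
  have hz0 : ζ ≠ 0 := hprim.ne_zero (by norm_num)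
  have h5 : (sy6 b p * ζ ^ k) ^ i = 1 := by rw [h3, one_pow]
  have h6' : sy6 b p ^ i * (ζ ^ i) ^ k = 1 := by
    rw [← h5]; ring
  have h7 : (ζ ^ i) ^ k ≠ 0 := pow_ne_zero _ (pow_ne_zero _ hz0)
  exact mul_right_cancel₀ h7 (h4.trans h6'.symm)

end th960

end Crest.Agent.R017.A590

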