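import Crest.Agent.R017.AS9_590
import Crest.Agent.R017.AS8t_960

/-!
# Row 17, section A: `F2x` from `StepPure` (helper590)
-/

set_option autoImplicit false

namespace Crest.Agent.R017.A590

open Crest.Agent.R012 Crest.Agent.R012.Eis Crest.Agent.R017.Sx545 Crest.Agent.R017.B770

theorem thetaP : ThetaP := fun hp hsp h36 hM hv _ h h6 => exists_theta hp hsp h36 hM hv h h6

/-- **section A from pure characters** -/
theorem f2x (H : StepPure) : ∀ M : Eis, (36 : Eis) ∣ M → F2x M := f2x_of_stepPure thetaP H

end Crest.Agent.R017.A590
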