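import Crest.Agent.R017.EndI_699

/-!
# Row 17, end block (J): sup rule for the pieces of Heath-Brown's identity
-/

set_option autoImplicit false

noncomputable section

namespace Crest.Agent.R017.End699

section weights

open Set MeasureTheory Filter Topology
open scoped ContDiff
open Crest.Agent.R017.Z2590

/-- the log-weight `h` of the smooth partition: smooth, supported in `[-1, 1]` -/
structure HW (h : ℝ → ℂ) : Prop where
  cd : ContDiff ℝ ∞ h
  supp : ∀ u, h u ≠ 0 → |u| ≤ 1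

/-- a smooth cut-off with bounded derivatives -/
structure SG (σ : ℝ → ℂ) : Prop where
  cd : ContDiff ℝ ∞ σ
  bd : ∀ k : ℕ, ∃ B : ℝ, ∀ u, ‖deriv^[k] σ u‖ ≤ B

lemma HW.deriv {h : ℝ → ℂ} (hh : HW h) : HW (deriv h) where
  cd := (contDiff_infty_iff_deriv.mp hh.cd).2
  supp := deriv_supp hh.supp

lemma SG.deriv {σ : ℝ → ℂ} (hσ : SG σ) : SG (deriv σ) where
  cd := (contDiff_infty_iff_deriv.mp hσ.cd).2
  bd k := hσ.bd (k + 1)

lemma sg_one : SG (fun _ => 1) where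
  cd := contDiff_const
  bd k := by
    refine ⟨1, fun u => ?_⟩
    rcases k with _ | k
    · simp
    · rw [Function.iterate_succ_apply]
      have h1 : deriv (fun _ : ℝ => (1 : ℂ)) = fun _ => 0 := by
        funext x; simp
      rw [h1]
      have h2 : ∀ k : ℕ, deriv^[k] (fun _ : ℝ => (0 : ℂ)) = fun _ => 0 := by
        intro k
        induction k with
        | zero => rfl
        | succ k ih =>
          rw [Function.iterate_succ_apply]
          have : deriv (fun _ : ℝ => (0 : ℂ)) = fun _ => 0 := by funext x; simp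
          rw [this, ih]
      rw [h2]; simp

lemma HW.bounded {h : ℝ → ℂ} (hh : HW h) : ∃ B : ℝ, ∀ u, ‖h u‖ ≤ B := by
  have hcs : HasCompactSupport h := by
    refine HasCompactSupport.intro (isCompact_Icc (a := -1) (b := 1)) fun u hu => ?_
    by_contra hne
    exact hu (abs_le.mp (hh.supp u hne))
  exact hh.cd.continuous.bounded_above_of_compact_support hcs

lemma iter_deriv_add {A B : ℝ → ℂ} (hA : ContDiff ℝ ∞ A) (hB : ContDiff ℝ ∞ B) (k : ℕ) :
    deriv^[k] (fun u => A u + B u) = fun u => deriv^[k] A u + deriv^[k] B u := by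
  induction k generalizing A B with
  | zero => rfl
  | succ k ih =>
    have h1 : deriv (fun u => A u + B u) = fun u => deriv A u + deriv B u := by
      funext u
      exact deriv_fun_add ((contDiff_infty_iff_deriv.mp hA).1 u)
        ((contDiff_infty_iff_deriv.mp hB).1 u)
    rw [Function.iterate_succ_apply, h1, ih (contDiff_infty_iff_deriv.mp hA).2
      (contDiff_infty_iff_deriv.mp hB).2]
    rfl

lemma contDiff_shift {σ : ℝ → ℂ} (hσ : ContDiff ℝ ∞ σ) (δ : ℝ) :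
    ContDiff ℝ ∞ (fun u => σ (u + δ)) :=
  hσ.comp (contDiff_id.add contDiff_const)

lemma deriv_prod {h σ : ℝ → ℂ} (hh : ContDiff ℝ ∞ h) (hσ : ContDiff ℝ ∞ σ) (δ : ℝ) :
    deriv (fun u => h u * σ (u + δ)) =
      fun u => deriv h u * σ (u + δ) + h u * deriv σ (u + δ) := by
  funext u
  have h1 : HasDerivAt h (deriv h u) u := ((contDiff_infty_iff_deriv.mp hh).1 u).hasDerivAt
  have h2 : HasDerivAt σ (deriv σ (u + δ)) (u + δ) :=
    ((contDiff_infty_iff_deriv.mp hσ).1 (u + δ)).hasDerivAt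
  have h3 : HasDerivAt (fun u => σ (u + δ)) (deriv σ (u + δ)) u := by
    simpa using h2.comp_add_const u δ
  exact (h1.mul h3).deriv

lemma iter_bound (k : ℕ) {h σ : ℝ → ℂ} (hh : HW h) (hσ : SG σ) :
    ∃ D : ℝ, ∀ δ u : ℝ, ‖deriv^[k] (fun u => h u * σ (u + δ)) u‖ ≤ D := by
  induction k generalizing h σ with
  | zero =>
    obtain ⟨B1, h1⟩ := hh.bounded
    obtain ⟨B2, h2⟩ := hσ.bd 0
    refine ⟨B1 * B2, fun δ u => ?_⟩
    have hB2 : 0 ≤ B1 := (norm_nonneg _).trans (h1 u)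
    simp only [Function.iterate_zero, id_eq, norm_mul]
    exact mul_le_mul (h1 u) (h2 _) (norm_nonneg _) hB2
  | succ k ih =>
    obtain ⟨D1, h1⟩ := ih hh.deriv hσ
    obtain ⟨D2, h2⟩ := ih hh hσ.deriv
    refine ⟨D1 + D2, fun δ u => ?_⟩
    rw [Function.iterate_succ_apply, deriv_prod hh.cd hσ.cd δ, iter_deriv_add
      (hh.deriv.cd.mul (contDiff_shift hσ.cd δ)) (hh.cd.mul (contDiff_shift hσ.deriv.cd δ))]
    exact (norm_add_le _ _).trans (add_le_add (h1 δ u) (h2 δ u))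

lemma prod_supp {h σ : ℝ → ℂ} (hh : HW h) (δ : ℝ) :
    ∀ u, h u * σ (u + δ) ≠ 0 → |u| ≤ 1 := by
  intro u hu
  exact hh.supp u (left_ne_zero_of_mul hu)

lemma integral_bound {w : ℝ → ℂ} {D : ℝ} (hb : ∀ u, ‖w u‖ ≤ D) (hs : ∀ u, w u ≠ 0 → |u| ≤ 1) :
    ∫ u, ‖w u‖ ≤ 2 * D := by
  have h1 : ∫ u, ‖w u‖ = ∫ u in Icc (-1 : ℝ) 1, ‖w u‖ := by
    rw [setIntegral_eq_integral_of_forall_compl_eq_zero]
    intro u hu
    rw [norm_eq_zero]
    by_contra hne
    exact hu (abs_le.mp (hs u hne))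
  rw [h1]
  have h2 : ‖∫ u in Icc (-1 : ℝ) 1, ‖w u‖‖ ≤ D * (volume : Measure ℝ).real (Icc (-1 : ℝ) 1) := by
    apply norm_setIntegral_le_of_norm_le_const
    · simp
    · intro u _
      rw [norm_norm]; exact hb u
  have h3 : (volume : Measure ℝ).real (Icc (-1 : ℝ) 1) = 2 := by
    simp; norm_num
  rw [h3] at h2
  refine (le_abs_self _).trans ?_
  rw [← Real.norm_eq_abs]
  linarith

lemma WB.mono {w : ℝ → ℂ} {k : ℕ} {K K' : ℝ} (h : WB w k K) (hK : K ≤ K') : WB w k K' :=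
  ⟨h.cd, h.cs, h.nn.trans hK, fun s h0 h2 => (h.bd s h0 h2).trans hK⟩

/-- the product weights are uniformly bounded in the sense of helper590 -/
theorem uniform_WB (k : ℕ) {h σ : ℝ → ℂ} (hh : HW h) (hσ : SG σ) :
    ∃ K : ℝ, 0 ≤ K ∧ ∀ δ : ℝ, WB (fun u => h u * σ (u + δ)) k K := by
  obtain ⟨D0, h0⟩ := iter_bound 0 hh hσ
  obtain ⟨Dk, hk⟩ := iter_bound k hh hσ
  have hD0 : 0 ≤ D0 := (norm_nonneg _).trans (h0 0 0)
  have hDk : 0 ≤ Dk := (norm_nonneg _).trans (hk 0 0)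
  refine ⟨2 ^ k * Real.exp (2 * 1) * (2 * D0 + 2 * Dk), by positivity, fun δ => ?_⟩
  refine WB.mono (WB_of (b := 1) (hh.cd.mul (contDiff_shift hσ.cd δ)) (by norm_num)
    (prod_supp hh δ) k) ?_
  have e1 : ∫ u, ‖h u * σ (u + δ)‖ ≤ 2 * D0 := by
    apply integral_bound (w := fun u => h u * σ (u + δ))
    · intro u
      exact h0 δ u
    · exact prod_supp hh δ
  have e2 : ∫ u, ‖deriv^[k] (fun u => h u * σ (u + δ)) u‖ ≤ 2 * Dk := by
    apply integral_bound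
    · intro u
      exact hk δ u
    · exact deriv_iter_supp (prod_supp hh δ) k
  gcongr

end weights

open Crest.Agent.R012 Crest.Agent.R012.Eis Crest.Agent.R012.PSer47

/-- trivial bound for the pieces -/
theorem trivial_piece {h σ : ℝ → ℂ} (hh : HW h) (hσ : SG σ) : ∃ C : ℝ, 0 ≤ C ∧
    ∀ f : Eis → ℂ, (∀ b, IsPrim b → ‖f b‖ ≤ 1) → ∀ t ζ κ : ℝ, ∀ M : ℕ,
      ‖∑ b ∈ primBall M, f b * ((nm b : ℂ) ^ ((t * Complex.I : ℂ)) *
        (h (Real.log (nm b) - κ) * σ (Real.log (nm b) - ζ)))‖ ≤ C * Real.exp κ := by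
  classical
  obtain ⟨D, hD⟩ := iter_bound 0 hh hσ
  have hD0 : 0 ≤ D := (norm_nonneg _).trans (hD 0 0)
  refine ⟨18 * D * Real.exp 1, by positivity, fun f hf t ζ κ M => ?_⟩
  have hw : ∀ b, IsPrim b → ‖f b * ((nm b : ℂ) ^ ((t * Complex.I : ℂ)) *
      (h (Real.log (nm b) - κ) * σ (Real.log (nm b) - ζ)))‖ ≤ D := by
    intro b hb
    have h1 : ‖(nm b : ℂ) ^ ((t * Complex.I : ℂ))‖ = 1 := by
      rw [Complex.norm_natCast_cpow_of_pos (nm_pos.mpr hb.ne_zero)]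
      simp
    have h2 := hD (κ - ζ) (Real.log (nm b) - κ)
    have e : Real.log (nm b) - κ + (κ - ζ) = Real.log (nm b) - ζ := by ring
    simp only [Function.iterate_zero, id_eq, e] at h2
    rw [norm_mul, norm_mul, h1, one_mul]
    calc ‖f b‖ * ‖h (Real.log (nm b) - κ) * σ (Real.log (nm b) - ζ)‖ ≤ 1 * D := by
          gcongr
          exact hf b hb
      _ = D := one_mul _
  have hsub : ∑ b ∈ primBall M, f b * ((nm b : ℂ) ^ ((t * Complex.I : ℂ)) *
        (h (Real.log (nm b) - κ) * σ (Real.log (nm b) - ζ))) =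
      ∑ b ∈ (primBall M).filter (fun b => nm b ≤ ⌊Real.exp (κ + 1)⌋₊),
        f b * ((nm b : ℂ) ^ ((t * Complex.I : ℂ)) *
        (h (Real.log (nm b) - κ) * σ (Real.log (nm b) - ζ))) := by
    rw [Finset.sum_filter_of_ne]
    intro b hb hne
    rw [mem_primBall] at hb
    have h3 : h (Real.log (nm b) - κ) ≠ 0 := by
      intro h0
      apply hne
      rw [h0]; ring
    have h4 := (abs_le.mp (hh.supp _ h3)).2
    apply Nat.le_floor
    have hb0 : (0 : ℝ) < (nm b : ℝ) := by exact_mod_cast nm_pos.mpr hb.2.ne_zero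
    rw [← Real.exp_log hb0]
    apply Real.exp_le_exp.mpr
    linarith
  rw [hsub]
  have hcard : (((primBall M).filter (fun b => nm b ≤ ⌊Real.exp (κ + 1)⌋₊)).card : ℝ) ≤
      18 * Real.exp (κ + 1) := by
    have h5 : (primBall M).filter (fun b => nm b ≤ ⌊Real.exp (κ + 1)⌋₊) ⊆
        primBall ⌊Real.exp (κ + 1)⌋₊ := by
      intro b hb
      rw [Finset.mem_filter, mem_primBall] at hb
      rw [mem_primBall]
      exact ⟨hb.2, hb.1.2⟩
    calc _ ≤ ((primBall ⌊Real.exp (κ + 1)⌋₊).card : ℝ) := by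
          exact_mod_cast Finset.card_le_card h5
      _ ≤ ((18 * ⌊Real.exp (κ + 1)⌋₊ : ℕ) : ℝ) := by exact_mod_cast card_primBall_le' _
      _ = 18 * (⌊Real.exp (κ + 1)⌋₊ : ℝ) := by push_cast; ring
      _ ≤ 18 * Real.exp (κ + 1) := by
          gcongr
          exact Nat.floor_le (Real.exp_pos _).le
  refine (norm_sum_le_of_le _ (fun b hb => hw b
    ((mem_primBall.mp (Finset.mem_filter.mp hb).1).2))).trans ?_
  rw [Finset.sum_const, nsmul_eq_mul]
  calc _ ≤ 18 * Real.exp (κ + 1) * D := by gcongr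
    _ = 18 * D * Real.exp 1 * Real.exp κ := by rw [Real.exp_add]; ring

lemma log_div_exp {n : ℕ} (hn : n ≠ 0) (κ : ℝ) :
    Real.log ((n : ℝ) / Real.exp κ) = Real.log n - κ := by
  rw [Real.log_div (by exact_mod_cast hn) (Real.exp_pos κ).ne', Real.log_exp]

lemma out_of_range {h : ℝ → ℂ} (hh : HW h) {κ : ℝ} {M n : ℕ} (hM : Real.exp (κ + 1) < M + 1)
    (hn : M < n) : h (Real.log ((n : ℝ) / Real.exp κ)) = 0 := by
  have hn0 : n ≠ 0 := by omega
  have hnR : (0 : ℝ) < n := by exact_mod_cast Nat.pos_of_ne_zero hn0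
  rw [log_div_exp hn0]
  by_contra hne
  have h1 := (abs_le.mp (hh.supp _ hne)).2
  have h2 : (n : ℝ) ≤ Real.exp (κ + 1) := by
    rw [← Real.exp_log hnR]
    apply Real.exp_le_exp.mpr
    linarith
  have h3 : (M : ℝ) + 1 ≤ n := by exact_mod_cast hn
  linarith

/-- **sup rule, Möbius pieces** : uniform in the character, the height, the cut-off and the
scale; any finite range `M` containing the support -/
theorem pf_PM {S : Set ℤ} {θ ε : ℝ} (hθ : 1 / 2 < θ) (hθ1 : θ ≤ 1) (hPF : PF S θ)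
    (hε : 0 < ε) (hε1 : ε ≤ 1) {l : ℤ} (hl : l ∈ S) {h σ : ℝ → ℂ} (hh : HW h) (hσ : SG σ) :
    ∃ C : ℝ, 0 ≤ C ∧ ∀ (q : Eis) (χ : Eis → ℂ), HC q χ → ∀ t ζ κ : ℝ, 0 ≤ κ → ∀ M : ℕ,
      Real.exp (κ + 1) < M + 1 →
      ‖∑ b ∈ primBall M, (muE b : ℂ) * tw χ l b * ((nm b : ℂ) ^ ((t * Complex.I : ℂ)) *
        (h (Real.log (nm b) - κ) * σ (Real.log (nm b) - ζ)))‖ ≤
        C * ((nm q : ℝ) * (1 + |t|)) ^ ε * Real.exp ((θ + ε) * κ) := by
  rcases lt_or_eq_of_le hθ1 with hlt | heq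
  · obtain ⟨C, hC1, hC⟩ := moebius_bound l hθ hlt hε hε1
    obtain ⟨K, hK0, hK⟩ := uniform_WB 3 hh hσ
    refine ⟨2 * C * K, by positivity, fun q χ hc t ζ κ hκ M hM => ?_⟩
    set Q : ℝ := Real.exp κ with hQ
    have hQ1 : 1 ≤ Q := Real.one_le_exp hκ
    have hQ2 : (1 : ℝ) ≤ Q ^ 2 := one_le_pow₀ hQ1
    have hfree := hPF l hl q χ hc
    have key := hC q χ hc (-t) (Q ^ 2) hQ2 (fun z hz _ => hfree z hz) 0
      (fun u => h u * σ (u + (κ - ζ))) K (hK (κ - ζ)) Q hQ1 M (by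
        intro n hn
        have := out_of_range hh hM hn
        rw [hQ, this, zero_mul])
    have e : Q ^ 2 * ((Q ^ 2) ^ (0 + 1))⁻¹ = 1 := by
      rw [zero_add, pow_one]
      exact mul_inv_cancel₀ (by positivity)
    rw [e, abs_neg] at key
    have h4 : (1 : ℝ) ≤ Q ^ (θ + ε) := Real.one_le_rpow hQ1 (by linarith)
    have hq : (1 : ℝ) ≤ (nm q : ℝ) := by exact_mod_cast nm_pos.mpr hc.q0
    have hτ := abs_nonneg t
    have h5 : 0 ≤ C * K * ((nm q : ℝ) * (1 + |t|)) ^ ε := by positivity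
    have h6 : Q ^ (θ + ε) = Real.exp ((θ + ε) * κ) := by
      rw [hQ, ← Real.exp_mul]; congr 1; ring
    have h7 : ∑ b ∈ primBall M, (muE b : ℂ) * tw χ l b * ((nm b : ℂ) ^ ((t * Complex.I : ℂ)) *
        (h (Real.log (nm b) - κ) * σ (Real.log (nm b) - ζ))) =
        ∑ b ∈ primBall M, (muE b : ℂ) * tw χ l b *
          ((nm b : ℂ) ^ (-(((-t : ℝ) : ℂ) * Complex.I)) *
          (h (Real.log (nm b / Q)) * σ (Real.log (nm b / Q) + (κ - ζ)))) := by
      apply Finset.sum_congr rfl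
      intro b hb
      have hb0 := nm_pos.mpr (mem_primBall.mp hb).2.ne_zero
      rw [hQ, log_div_exp hb0.ne']
      have e2 : Real.log (nm b) - κ + (κ - ζ) = Real.log (nm b) - ζ := by ring
      rw [e2]
      push_cast
      ring_nf
    rw [h7]
    calc _ ≤ C * K * ((nm q : ℝ) * (1 + |t|)) ^ ε * (Q ^ (θ + ε) + 1) := key
      _ ≤ C * K * ((nm q : ℝ) * (1 + |t|)) ^ ε * (Q ^ (θ + ε) + Q ^ (θ + ε)) := by gcongr
      _ = _ := by rw [h6]; ring
  · subst heq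
    obtain ⟨C, hC0, hC⟩ := trivial_piece hh hσ
    refine ⟨C, hC0, fun q χ hc t ζ κ hκ M _ => ?_⟩
    refine (hC (fun b => (muE b : ℂ) * tw χ l b)
      (fun b hb => norm_muE_mul_le (hc.isChar_tw l) hb) t ζ κ M).trans ?_
    have hq : (1 : ℝ) ≤ (nm q : ℝ) := by exact_mod_cast nm_pos.mpr hc.q0
    have hτ := abs_nonneg t
    have h4 : 1 ≤ ((nm q : ℝ) * (1 + |t|)) ^ ε := Real.one_le_rpow (by nlinarith) hε.le
    calc C * Real.exp κ ≤ C * Real.exp ((1 + ε) * κ) := by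
          gcongr
          nlinarith
      _ ≤ C * ((nm q : ℝ) * (1 + |t|)) ^ ε * Real.exp ((1 + ε) * κ) := by
          exact mul_le_mul_of_nonneg_right (le_mul_of_one_le_right hC0 h4) (by positivity)

/-- **sup rule, smooth pieces** (nonprincipal characters) -/
theorem pf_PS {S : Set ℤ} {θ ε : ℝ} (hθ : 1 / 2 < θ) (hθ1 : θ ≤ 1) (hPF : PF S θ)
    (hε : 0 < ε) (hε1 : ε ≤ 1) {l : ℤ} (hl : l ∈ S) {h σ : ℝ → ℂ} (hh : HW h) (hσ : SG σ) :
    ∃ C : ℝ, 0 ≤ C ∧ ∀ (q : Eis) (χ : Eis → ℂ), HC q χ → NP q χ l →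
      ∀ t ζ κ : ℝ, 0 ≤ κ → ∀ M : ℕ, Real.exp (κ + 1) < M + 1 →
      ‖∑ b ∈ primBall M, tw χ l b * ((nm b : ℂ) ^ ((t * Complex.I : ℂ)) *
        (h (Real.log (nm b) - κ) * σ (Real.log (nm b) - ζ)))‖ ≤
        C * ((nm q : ℝ) * (1 + |t|)) ^ ε * Real.exp ((θ + ε) * κ) := by
  rcases lt_or_eq_of_le hθ1 with hlt | heq
  · obtain ⟨C, hC1, hC⟩ := smooth_bound l hθ hlt hε hε1
    obtain ⟨K, hK0, hK⟩ := uniform_WB 3 hh hσ
    refine ⟨2 * C * K, by positivity, fun q χ hc hnp t ζ κ hκ M hM => ?_⟩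
    set Q : ℝ := Real.exp κ with hQ
    have hQ1 : 1 ≤ Q := Real.one_le_exp hκ
    have hQ2 : (1 : ℝ) ≤ Q ^ 2 := one_le_pow₀ hQ1
    have hfree := hPF l hl q χ hc
    have key := hC q χ hc hnp (-t) (Q ^ 2) hQ2 (fun z hz _ => hfree z hz) 0
      (fun u => h u * σ (u + (κ - ζ))) K (hK (κ - ζ)) Q hQ1 M (by
        intro n hn
        have := out_of_range hh hM hn
        rw [hQ, this, zero_mul])
    have e : Q ^ 2 * ((Q ^ 2) ^ (0 + 1))⁻¹ = 1 := by
      rw [zero_add, pow_one]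
      exact mul_inv_cancel₀ (by positivity)
    rw [e, abs_neg] at key
    have h4 : (1 : ℝ) ≤ Q ^ (θ + ε) := Real.one_le_rpow hQ1 (by linarith)
    have hq : (1 : ℝ) ≤ (nm q : ℝ) := by exact_mod_cast nm_pos.mpr hc.q0
    have hτ := abs_nonneg t
    have h5 : 0 ≤ C * K * ((nm q : ℝ) * (1 + |t|)) ^ ε := by positivity
    have h6 : Q ^ (θ + ε) = Real.exp ((θ + ε) * κ) := by
      rw [hQ, ← Real.exp_mul]; congr 1; ring
    have h7 : ∑ b ∈ primBall M, tw χ l b * ((nm b : ℂ) ^ ((t * Complex.I : ℂ)) *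
        (h (Real.log (nm b) - κ) * σ (Real.log (nm b) - ζ))) =
        ∑ b ∈ primBall M, tw χ l b *
          ((nm b : ℂ) ^ (-(((-t : ℝ) : ℂ) * Complex.I)) *
          (h (Real.log (nm b / Q)) * σ (Real.log (nm b / Q) + (κ - ζ)))) := by
      apply Finset.sum_congr rfl
      intro b hb
      have hb0 := nm_pos.mpr (mem_primBall.mp hb).2.ne_zero
      rw [hQ, log_div_exp hb0.ne']
      have e2 : Real.log (nm b) - κ + (κ - ζ) = Real.log (nm b) - ζ := by ring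
      rw [e2]
      push_cast
      ring_nf
    rw [h7]
    calc _ ≤ C * K * ((nm q : ℝ) * (1 + |t|)) ^ ε * (Q ^ (θ + ε) + 1) := key
      _ ≤ C * K * ((nm q : ℝ) * (1 + |t|)) ^ ε * (Q ^ (θ + ε) + Q ^ (θ + ε)) := by gcongr
      _ = _ := by rw [h6]; ring
  · subst heq
    obtain ⟨C, hC0, hC⟩ := trivial_piece hh hσ
    refine ⟨C, hC0, fun q χ hc _ t ζ κ hκ M _ => ?_⟩
    refine (hC (tw χ l) (fun b hb => (hc.isChar_tw l).norm_le hb) t ζ κ M).trans ?_
    have hq : (1 : ℝ) ≤ (nm q : ℝ) := by exact_mod_cast nm_pos.mpr hc.q0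
    have hτ := abs_nonneg t
    have h4 : 1 ≤ ((nm q : ℝ) * (1 + |t|)) ^ ε := Real.one_le_rpow (by nlinarith) hε.le
    calc C * Real.exp κ ≤ C * Real.exp ((1 + ε) * κ) := by
          gcongr
          nlinarith
      _ ≤ C * ((nm q : ℝ) * (1 + |t|)) ^ ε * Real.exp ((1 + ε) * κ) := by
          exact mul_le_mul_of_nonneg_right (le_mul_of_one_le_right hC0 h4) (by positivity)

end Crest.Agent.R017.End699
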