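import Crest.Agent.R017.EndE_699
import Crest.Agent.R012.LSer_47

/-!
# Row 17, end block (E2): analytic properties of `LH q χ l`
-/

set_option autoImplicit false

noncomputable section

namespace Crest.Agent.R017.End699

open Crest.Agent.R012 Crest.Agent.R012.Eis Crest.Agent.R012.PSer47
open Crest.Agent.R001.SW (Sm E)
open scoped LSeries.notation

/-! ### The series over all primary elements -/

lemma Sm_qc (N : ℕ) : Sm (fun n => (qc n : ℂ)) N = if N % 3 = 1 then 1 else 0 := by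
  induction N with
  | zero => simp [Crest.Agent.R001.SW.Sm_zero]
  | succ N ih =>
    rw [Crest.Agent.R001.SW.Sm_succ, ih]
    have h3 : N % 3 = 0 ∨ N % 3 = 1 ∨ N % 3 = 2 := by omega
    rcases h3 with h | h | h
    · rw [qc_one (by omega : (N + 1) % 3 = 1), if_neg (by omega), if_pos (by omega)]; simp
    · rw [qc_two (by omega : (N + 1) % 3 = 2), if_pos (by omega), if_neg (by omega)]; simp
    · rw [qc_zero (by omega : (N + 1) % 3 = 0), if_neg (by omega), if_neg (by omega)]; simp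

lemma norm_Sm_qc (N : ℕ) : ‖Sm (fun n => (qc n : ℂ)) N‖ ≤ 1 := by
  rw [Sm_qc]; split_ifs <;> simp

lemma norm_qc_le (n : ℕ) : ‖(qc n : ℂ)‖ ≤ 1 := by
  have h3 : n % 3 = 0 ∨ n % 3 = 1 ∨ n % 3 = 2 := by omega
  rcases h3 with h | h | h
  · rw [qc_zero h]; simp
  · rw [qc_one h]; simp
  · rw [qc_two h]; simp

lemma summable_qc {s : ℂ} (hs : 1 < s.re) : LSeriesSummable (fun n => (qc n : ℂ)) s :=
  LSeriesSummable_of_bounded_of_one_lt_re (m := 1) (fun n _ => norm_qc_le n) hs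

lemma push_one_conv {n : ℕ} (hn : n ≠ 0) : push (fun _ => 1) n =
    ((fun k : ℕ => (1 : DirichletCharacter ℂ 3) (k : ZMod 3)) ⍟ (fun k : ℕ => (qc k : ℂ))) n := by
  rw [LSeries.convolution_def]
  have hc : push (fun _ => 1) n = ((fib n).card : ℂ) := by simp [push]
  rw [hc]
  by_cases h3 : 3 ∣ n
  · have h0 : (fib n) = ∅ := by
      ext b
      simp only [mem_fib, Finset.notMem_empty, iff_false]
      rintro ⟨h1, h2⟩
      have := h2.nm_mod
      omega
    rw [h0]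
    symm
    simp only [Finset.card_empty, Nat.cast_zero]
    apply Finset.sum_eq_zero
    intro p hp
    have hp' := (Nat.mem_divisorsAntidiagonal.mp hp).1
    by_cases h4 : 3 ∣ p.1
    · have : ((p.1 : ℕ) : ZMod 3) = 0 := (ZMod.natCast_eq_zero_iff _ _).mpr h4
      rw [this, MulChar.map_zero, zero_mul]
    · have h5 : 3 ∣ p.2 := by
        rw [← hp'] at h3
        exact (Nat.prime_three.dvd_mul.mp h3).resolve_left h4
      rw [qc_zero (by omega)]; simp
  · have h1 : (((fib n).card : ℕ) : ℂ) = (rr n : ℂ) := by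
      have h5 : (((fib n).card : ℕ) : ℤ) = rr n := cnt_eq_rr hn h3
      rw [← h5]; simp
    rw [h1]
    have h2 : ∀ p ∈ n.divisorsAntidiagonal, (1 : DirichletCharacter ℂ 3) ((p.1 : ℕ) : ZMod 3) *
        (qc p.2 : ℂ) = (qc p.2 : ℂ) := by
      intro p hp
      have hp' := (Nat.mem_divisorsAntidiagonal.mp hp).1
      have h4 : ¬ 3 ∣ p.1 := fun h => h3 (hp' ▸ h.mul_right _)
      have hu : IsUnit ((p.1 : ℕ) : ZMod 3) := by
        rw [ZMod.isUnit_iff_coprime, Nat.coprime_comm]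
        exact (Nat.Prime.coprime_iff_not_dvd Nat.prime_three).mpr h4
      rw [MulChar.one_apply hu, one_mul]
    beta_reduce
    rw [Finset.sum_congr rfl h2, Nat.sum_divisorsAntidiagonal' (fun _ b => (qc b : ℂ))]
    unfold rr
    push_cast
    rfl

lemma LSeries_push_one {s : ℂ} (hs : 1 < s.re) : LSeries (push fun _ => 1) s = Lc s := by
  have hs1 : s ≠ 1 := by rintro rfl; simp at hs
  have h1 : LSeries (push fun _ => 1) s =
      LSeries ((fun k : ℕ => (1 : DirichletCharacter ℂ 3) (k : ZMod 3)) ⍟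
        (fun k : ℕ => (qc k : ℂ))) s :=
    LSeries_congr (fun {n} hn => push_one_conv hn) s
  rw [h1, LSeries_convolution' (DirichletCharacter.LSeriesSummable_of_one_lt_re _ hs)
    (summable_qc hs), ← DirichletCharacter.LFunction_eq_LSeries _ hs,
    ← Crest.Agent.R001.SW.E_eq_LSeries norm_Sm_qc (by linarith) (summable_qc hs)]
  have h2 := DirichletCharacter.LFunctionTrivChar_eq_mul_riemannZeta (N := 3) hs1
  have h3 : Nat.primeFactors 3 = {3} := Nat.Prime.primeFactors Nat.prime_three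
  rw [h3, Finset.prod_singleton] at h2
  unfold DirichletCharacter.LFunctionTrivChar at h2
  rw [h2, riemannZeta_eq_inv_sub_mul hs1]
  unfold Lc
  push_cast
  ring

/-- the regularised product `(s - 1) Lc s` -/
def Lc1 (s : ℂ) : ℂ := (1 - (3 : ℂ) ^ (-s)) * riemannZeta₁ s * E (fun n => (qc n : ℂ)) s

lemma Lc1_eq {s : ℂ} (hs : s ≠ 1) : (s - 1) * Lc s = Lc1 s := by
  unfold Lc Lc1
  have : s - 1 ≠ 0 := sub_ne_zero.mpr hs
  field_simp

lemma differentiableAt_E_qc {s : ℂ} (hs : 0 < s.re) :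
    DifferentiableAt ℂ (E (fun n => (qc n : ℂ))) s :=
  (Crest.Agent.R001.SW.differentiableOn_E norm_Sm_qc).differentiableAt
    ((isOpen_lt continuous_const Complex.continuous_re).mem_nhds hs)

lemma differentiableAt_Lc1 {s : ℂ} (hs : 0 < s.re) : DifferentiableAt ℂ Lc1 s := by
  unfold Lc1
  refine ((DifferentiableAt.sub (differentiableAt_const _) ?_).mul
    (differentiable_riemannZeta₁ s)).mul (differentiableAt_E_qc hs)
  exact differentiableAt_id.neg.const_cpow (Or.inl (by norm_num))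

lemma differentiableAt_Lc {s : ℂ} (hs : 0 < s.re) (hs1 : s ≠ 1) : DifferentiableAt ℂ Lc s := by
  unfold Lc
  refine ((DifferentiableAt.sub (differentiableAt_const _) ?_).mul
    ((differentiable_riemannZeta₁ s).div (differentiableAt_id.sub_const 1)
      (sub_ne_zero.mpr hs1))).mul (differentiableAt_E_qc hs)
  exact differentiableAt_id.neg.const_cpow (Or.inl (by norm_num))

lemma norm_three_cpow_le {s : ℂ} (hs : 0 < s.re) : ‖(3 : ℂ) ^ (-s)‖ ≤ 1 := by
  have h : ((3 : ℕ) : ℂ) = 3 := by norm_num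
  rw [← h, Complex.norm_natCast_cpow_of_pos (by norm_num), Complex.neg_re]
  exact Real.rpow_le_one_of_one_le_of_nonpos (by norm_num) (by linarith)

lemma norm_Lc1_le {s : ℂ} (hs : 1 / 2 < s.re) : ‖Lc1 s‖ ≤ 24 * (‖s‖ + 1) ^ 3 := by
  unfold Lc1
  have hs0 : 0 < s.re := by linarith
  have h1 := Crest.Agent.R001.SW.norm_E_le norm_Sm_qc hs0
  have h2 := Crest.Agent.R001.SW.norm_zeta1_le hs0
  have h3 : ‖1 - (3 : ℂ) ^ (-s)‖ ≤ 2 := by
    refine (norm_sub_le _ _).trans ?_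
    have := norm_three_cpow_le hs0
    rw [norm_one]; linarith
  have h4 : 1 + 1 / s.re ≤ 3 := by
    have : 1 / s.re ≤ 2 := by
      rw [div_le_iff₀ hs0]; linarith
    linarith
  have hn := norm_nonneg s
  have h5 : ‖s - 1‖ ≤ ‖s‖ + 1 := by
    refine (norm_sub_le _ _).trans ?_
    rw [norm_one]
  have h6 : ‖riemannZeta₁ s‖ ≤ 4 * (‖s‖ + 1) ^ 2 := by
    refine h2.trans ?_
    have : ‖s - 1‖ * ‖s‖ * (1 + 1 / s.re) ≤ (‖s‖ + 1) * ‖s‖ * 3 := by
      gcongr
    nlinarith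
  have h7 : ‖E (fun n => (qc n : ℂ)) s‖ ≤ 3 * (‖s‖ + 1) := by
    refine h1.trans ?_
    have : 1 * ‖s‖ * (1 + 1 / s.re) ≤ 1 * ‖s‖ * 3 := by gcongr
    nlinarith
  rw [norm_mul, norm_mul]
  calc ‖1 - (3 : ℂ) ^ (-s)‖ * ‖riemannZeta₁ s‖ * ‖E (fun n => (qc n : ℂ)) s‖
      ≤ 2 * (4 * (‖s‖ + 1) ^ 2) * (3 * (‖s‖ + 1)) := by gcongr
    _ = 24 * (‖s‖ + 1) ^ 3 := by ring

/-! ### `LH` -/

/-- the twisted character `χ ang^l` -/
def tw (χ : Eis → ℂ) (l : ℤ) (b : Eis) : ℂ := χ b * ang l b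

namespace HC

variable {q : Eis} {χ : Eis → ℂ} (h : HC q χ)

include h

lemma isChar_tw (l : ℤ) : IsChar (tw χ l) := h.char.mul' (ang_isChar l)

lemma summable_tw (l : ℤ) {s : ℂ} (hs : 1 < s.re) : LSeriesSummable (push (tw χ l)) s :=
  LSer47.summable_push (fun _ hb => (h.isChar_tw l).norm_le hb) hs

lemma summable_cf (l : ℤ) {s : ℂ} (hs : 1 < s.re) : LSeriesSummable (cf q χ l) s := by
  have h1 := h.summable_tw l hs
  have h2 := (LSer47.summable_push (f := fun _ => (1 : ℂ)) (fun _ _ => by simp) hs).smul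
    (cc q χ l)
  exact h1.sub h2

/-- (T2) `LH` continues the `L`-series -/
theorem LH_eq (l : ℤ) {s : ℂ} (hs : 1 < s.re) : LH q χ l s = LSeries (push (tw χ l)) s := by
  obtain ⟨C, hC, hb⟩ := cf_bound l
  have h1 := PA1766.E_eq_LSeries (Q := C * Real.sqrt (nm q)) (by positivity)
    (fun n => hb q χ h n) (by linarith : 1 / 2 < s.re) (h.summable_cf l hs)
  unfold LH
  rw [h1, ← LSeries_push_one hs]
  have h3 := h.summable_tw l hs
  have h4 := (LSer47.summable_push (f := fun _ => (1 : ℂ)) (fun _ _ => by simp) hs)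
  have h5 : LSeries (cf q χ l) s = LSeries (push (tw χ l)) s -
      cc q χ l * LSeries (push fun _ => 1) s := by
    have h6 := LSeries_sub h3 (h4.smul (cc q χ l))
    rw [LSeries_smul] at h6
    exact h6
  rw [h5]; ring

lemma differentiableAt_E_cf (l : ℤ) {s : ℂ} (hs : 1 / 2 < s.re) :
    DifferentiableAt ℂ (E (cf q χ l)) s := by
  obtain ⟨C, hC, hb⟩ := cf_bound l
  exact (PA1766.differentiableOn_E (Q := C * Real.sqrt (nm q)) (by positivity)
    (fun n => hb q χ h n)).differentiableAt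
      ((isOpen_lt continuous_const Complex.continuous_re).mem_nhds hs)

/-- (T1) analyticity -/
theorem differentiableAt_LH (l : ℤ) {s : ℂ} (hs : 1 / 2 < s.re) (hs1 : s ≠ 1) :
    DifferentiableAt ℂ (LH q χ l) s :=
  (h.differentiableAt_E_cf l hs).add
    ((differentiableAt_Lc (by linarith) hs1).const_mul _)

/-- (T1') analyticity everywhere in the nonprincipal case -/
theorem differentiableAt_LH' (l : ℤ) (hc : cc q χ l = 0) {s : ℂ} (hs : 1 / 2 < s.re) :
    DifferentiableAt ℂ (LH q χ l) s := by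
  have : LH q χ l = E (cf q χ l) := by
    funext z; unfold LH; rw [hc]; ring
  rw [this]
  exact h.differentiableAt_E_cf l hs

end HC

/-- the regularised `L`-function `(s - 1) L(s)` -/
def LH1 (q : Eis) (χ : Eis → ℂ) (l : ℤ) (s : ℂ) : ℂ := (s - 1) * E (cf q χ l) s + cc q χ l * Lc1 s

lemma LH1_eq {q : Eis} {χ : Eis → ℂ} {l : ℤ} {s : ℂ} (hs : s ≠ 1) :
    (s - 1) * LH q χ l s = LH1 q χ l s := by
  unfold LH LH1
  rw [← Lc1_eq hs]; ring

lemma HC.differentiableAt_LH1 {q : Eis} {χ : Eis → ℂ} (h : HC q χ) (l : ℤ) {s : ℂ}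
    (hs : 1 / 2 < s.re) : DifferentiableAt ℂ (LH1 q χ l) s :=
  ((differentiableAt_id.sub_const 1).mul (h.differentiableAt_E_cf l hs)).add
    ((differentiableAt_Lc1 (by linarith)).const_mul _)

/-- (T3) growth of the entire part -/
theorem norm_E_cf_le (l : ℤ) : ∃ C : ℝ, 1 ≤ C ∧ ∀ (q : Eis) (χ : Eis → ℂ), HC q χ → ∀ s : ℂ,
    1 / 2 < s.re →
    ‖E (cf q χ l) s‖ ≤ C * Real.sqrt (nm q) * (‖s‖ + 1) * (1 + 1 / (s.re - 1 / 2)) := by
  obtain ⟨C, hC, hb⟩ := cf_bound l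
  refine ⟨C + 2, by linarith, fun q χ h s hs => ?_⟩
  have hq1 : (1 : ℝ) ≤ Real.sqrt (nm q) := by
    rw [Real.one_le_sqrt]; exact_mod_cast nm_pos.mpr h.q0
  have hσ : 0 < s.re - 1 / 2 := by linarith
  have h1 := PA1766.norm_E_le_trunc (Q := C * Real.sqrt (nm q)) (by positivity)
    (fun n => hb q χ h n) hs (N := 1) le_rfl
  simp only [Finset.Icc_self, Finset.sum_singleton, Nat.cast_one, Real.one_rpow, mul_one] at h1
  have h2 : ‖cf q χ l 1‖ ≤ 2 := by
    unfold cf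
    rw [push_one, push_one]
    refine (norm_sub_le _ _).trans ?_
    have h3 : ‖χ 1 * ang l 1‖ ≤ 1 := (h.isChar_tw l).norm_le isPrim_one
    have h4 := h.norm_cc_le l
    rw [mul_one]
    linarith
  have hn := norm_nonneg s
  set M := Real.sqrt (nm q) with hM
  have h5 : 0 < 1 / (s.re - 1 / 2) := by positivity
  calc ‖E (cf q χ l) s‖ ≤ ‖cf q χ l 1‖ + C * M + C * M * ‖s‖ * (1 / (s.re - 1 / 2)) := h1
    _ ≤ 2 + C * M + C * M * ‖s‖ * (1 / (s.re - 1 / 2)) := by linarith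
    _ ≤ (C + 2) * M * (‖s‖ + 1) * (1 + 1 / (s.re - 1 / 2)) := by
        set T := 1 / (s.re - 1 / 2) with hT
        have e : (C + 2) * M * (‖s‖ + 1) * (1 + T) = (2 * M + C * M + C * M * ‖s‖ * T) +
          (2 * M * (‖s‖ + T + ‖s‖ * T) + C * M * (‖s‖ + T)) := by ring
        rw [e]
        have : 0 ≤ 2 * M * (‖s‖ + T + ‖s‖ * T) + C * M * (‖s‖ + T) := by positivity
        nlinarith

/-- (T3) growth of the regularised `L`-function, uniformly in the modulus -/
theorem norm_LH1_le (l : ℤ) : ∃ C : ℝ, 1 ≤ C ∧ ∀ (q : Eis) (χ : Eis → ℂ), HC q χ → ∀ s : ℂ,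
    1 / 2 < s.re →
    ‖LH1 q χ l s‖ ≤ C * Real.sqrt (nm q) * (‖s‖ + 1) ^ 3 * (1 + 1 / (s.re - 1 / 2)) := by
  obtain ⟨C, hC, hb⟩ := norm_E_cf_le l
  refine ⟨C + 24, by linarith, fun q χ h s hs => ?_⟩
  have hq1 : (1 : ℝ) ≤ Real.sqrt (nm q) := by
    rw [Real.one_le_sqrt]; exact_mod_cast nm_pos.mpr h.q0
  have hσ : 0 < s.re - 1 / 2 := by linarith
  have hn := norm_nonneg s
  have h1 := hb q χ h s hs
  have h2 := norm_Lc1_le hs
  have h3 := h.norm_cc_le l
  set M := Real.sqrt (nm q) with hM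
  set T := 1 / (s.re - 1 / 2) with hT
  have hT0 : 0 < T := by positivity
  have h4 : ‖s - 1‖ ≤ ‖s‖ + 1 := by
    refine (norm_sub_le _ _).trans ?_
    rw [norm_one]
  unfold LH1
  calc ‖(s - 1) * E (cf q χ l) s + cc q χ l * Lc1 s‖
      ≤ ‖s - 1‖ * ‖E (cf q χ l) s‖ + ‖cc q χ l‖ * ‖Lc1 s‖ := by
        refine (norm_add_le _ _).trans ?_
        rw [norm_mul, norm_mul]
    _ ≤ (‖s‖ + 1) * (C * M * (‖s‖ + 1) * (1 + T)) + 1 * (24 * (‖s‖ + 1) ^ 3) := by gcongr
    _ ≤ (‖s‖ + 1) ^ 3 * (C * M * (1 + T)) + (‖s‖ + 1) ^ 3 * (24 * M * (1 + T)) := by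
        have h5 : (‖s‖ + 1) * (C * M * (‖s‖ + 1) * (1 + T)) = (‖s‖ + 1) ^ 2 * (C * M * (1 + T)) := by
          ring
        have h6 : (‖s‖ + 1) ^ 2 ≤ (‖s‖ + 1) ^ 3 := pow_le_pow_right₀ (by linarith) (by norm_num)
        have h7 : (‖s‖ + 1) ^ 2 * (C * M * (1 + T)) ≤ (‖s‖ + 1) ^ 3 * (C * M * (1 + T)) := by
          gcongr
        have h8 : (1 : ℝ) ≤ M * (1 + T) := by nlinarith
        have h9 : 1 * (24 * (‖s‖ + 1) ^ 3) ≤ (‖s‖ + 1) ^ 3 * (24 * M * (1 + T)) := by
          have : 0 < (‖s‖ + 1) ^ 3 := by positivity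
          nlinarith
        linarith
    _ = (C + 24) * M * (‖s‖ + 1) ^ 3 * (1 + T) := by ring

/-! ### The inverse -/

/-- `∑_{padiv b} μ(p.1) = [b = 1]` -/
lemma sum_padiv_muE {b : Eis} (hb : IsPrim b) :
    ∑ p ∈ padiv b, (muE p.1 : ℂ) = if b = 1 then 1 else 0 := by
  have h1 := sum_padiv hb (fun c => (muE c : ℝ))
  have h2 : ∑ c ∈ pdiv b, (muE c : ℝ) = if b = 1 then 1 else 0 := by
    have h3 := Mob705.sum_dvs_muE_one hb
    have h4 : pdiv b = Div277.dvs b := rfl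
    rw [h4]
    have h5 := congrArg (Int.cast : ℤ → ℝ) h3
    push_cast at h5
    rw [h5]
  rw [h2] at h1
  have h6 := congrArg (Complex.ofReal) h1
  push_cast at h6
  rw [h6]
  split_ifs <;> simp

/-- (T4) the inverse of the `L`-series of a completely multiplicative function -/
theorem LSeries_mu_mul {ψ : Eis → ℂ} (h : IsChar ψ) {s : ℂ} (hs : 1 < s.re) :
    LSeries (push fun b => (muE b : ℂ) * ψ b) s * LSeries (push ψ) s = 1 := by
  have hb1 : ∀ b, IsPrim b → ‖ψ b‖ ≤ 1 := fun b hb => h.norm_le hb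
  have hb2 : ∀ b, IsPrim b → ‖(muE b : ℂ) * ψ b‖ ≤ 1 := by
    intro b hb
    rw [norm_mul]
    refine mul_le_one₀ ?_ (norm_nonneg _) (hb1 b hb)
    have h1 := Mob705.abs_muE b
    have h2 : ‖((muE b : ℤ) : ℂ)‖ = ((|muE b| : ℤ) : ℝ) := by
      rw [Complex.norm_intCast]; push_cast; rfl
    rw [h2, h1]
    split_ifs <;> simp
  rw [← LSeries_convolution' (LSer47.summable_push hb2 hs) (LSer47.summable_push hb1 hs)]
  have hconv : ∀ {n : ℕ}, n ≠ 0 →
      ((push fun b => (muE b : ℂ) * ψ b) ⍟ push ψ) n = LSeries.delta n := by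
    intro n hn
    rw [push_conv _ _ hn]
    have e1 : push (fun b => ∑ p ∈ padiv b, (muE p.1 : ℂ) * ψ p.1 * ψ p.2) n =
        push (fun b => if b = 1 then 1 else 0) n := by
      unfold push
      apply Finset.sum_congr rfl
      intro b hb
      have hbp := (mem_fib.mp hb).2
      have e2 : ∑ p ∈ padiv b, (muE p.1 : ℂ) * ψ p.1 * ψ p.2 =
          ∑ p ∈ padiv b, (muE p.1 : ℂ) * ψ b := by
        apply Finset.sum_congr rfl
        intro p hp
        rw [mem_padiv] at hp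
        rw [← hp.1, h.mul _ _ hp.2.1 hp.2.2]; ring
      beta_reduce
      rw [e2, ← Finset.sum_mul, sum_padiv_muE hbp]
      split_ifs with h1
      · rw [h1, h.one, one_mul]
      · rw [zero_mul]
    rw [e1]
    unfold push LSeries.delta
    by_cases hn1 : n = 1
    · subst hn1
      rw [fib_one]; simp
    · rw [if_neg hn1]
      apply Finset.sum_eq_zero
      intro b hb
      have := (mem_fib.mp hb).1
      rw [if_neg]
      rintro rfl
      rw [nm_one] at this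
      exact hn1 this.symm
  rw [LSeries_congr hconv s, LSeries_delta]
  rfl

/-- (T4') the inverse of `LH` -/
theorem HC.LSeries_mu_mul_LH {q : Eis} {χ : Eis → ℂ} (h : HC q χ) (l : ℤ) {s : ℂ}
    (hs : 1 < s.re) : LSeries (push fun b => (muE b : ℂ) * tw χ l b) s * LH q χ l s = 1 := by
  rw [h.LH_eq l hs]
  exact LSeries_mu_mul (h.isChar_tw l) hs

lemma norm_muE_mul_le {ψ : Eis → ℂ} (h : IsChar ψ) {b : Eis} (hb : IsPrim b) :
    ‖(muE b : ℂ) * ψ b‖ ≤ 1 := by
  rw [norm_mul]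
  refine mul_le_one₀ ?_ (norm_nonneg _) (h.norm_le hb)
  have h1 := Mob705.abs_muE b
  have h2 : ‖((muE b : ℤ) : ℂ)‖ = ((|muE b| : ℤ) : ℝ) := by
    rw [Complex.norm_intCast]; push_cast; rfl
  rw [h2, h1]
  split_ifs <;> simp

end Crest.Agent.R017.End699
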