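import Crest.Agent.R017.EndC_699
import Crest.Agent.R017.EndE2_699

/-!
# Row 17, end block (F): S0023 from zero-freeness of the functions `LH q χ 0`
-/

set_option autoImplicit false

noncomputable section

namespace Crest.Agent.R017.End699

open Crest.Agent.R012 Crest.Agent.R012.Eis Crest.Agent.R012.PSer47 Crest.Agent.R012.Bridge
open Crest.NumberTheoryR.EisensteinField Crest.NumberTheoryR.CubicGauss
open scoped LSeries.notation

/-! ### from ray class characters to characters on primary elements -/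

/-- the function on `ℤ[ω]` attached to a ray class character -/
def fR {m : Ideal O3} (ψ : RayClassChar m) (b : Eis) : ℂ := ψ.toFun (sp b)

lemma mem_sp {x g : Eis} : phi x ∈ sp g ↔ g ∣ x := by
  unfold sp
  rw [Ideal.mem_span_singleton, map_dvd_iff]

lemma sup_sp {x g : Eis} : sp x ⊔ sp g = ⊤ ↔ IsCoprime x g := by
  unfold sp
  rw [← Ideal.isCoprime_iff_sup_eq, Ideal.isCoprime_span_singleton_iff]
  constructor
  · rintro ⟨a, b, hab⟩
    obtain ⟨a, rfl⟩ := phi.surjective a
    obtain ⟨b, rfl⟩ := phi.surjective b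
    refine ⟨a, b, phi.injective ?_⟩
    rw [map_add, map_mul, map_mul, map_one]
    exact hab
  · rintro ⟨a, b, hab⟩
    refine ⟨phi a, phi b, ?_⟩
    rw [← map_mul, ← map_mul, ← map_add, hab, map_one]

section

variable {g : Eis} (ψ : RayClassChar (sp g))

lemma fR_mul (x y : Eis) : fR ψ (x * y) = fR ψ x * fR ψ y := by
  unfold fR
  rw [sp_mul, ψ.map_mul]

lemma fR_eq_one {x : Eis} (h : g ∣ x - 1) : fR ψ x = 1 := by
  apply ψ.map_span_of_sub_one_mem
  rw [← map_one phi, ← map_sub]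
  exact mem_sp.mpr h

lemma fR_one : fR ψ 1 = 1 := fR_eq_one ψ (by simp)

lemma fR_pow (x : Eis) (k : ℕ) : fR ψ (x ^ k) = fR ψ x ^ k := by
  induction k with
  | zero => simp [fR_one]
  | succ k ih => rw [pow_succ, fR_mul, ih, pow_succ]

lemma fR_eq_zero {x : Eis} (h : ¬ IsCoprime x g) : fR ψ x = 0 :=
  ψ.eq_zero_of_not_coprime _ (fun h' => h (sup_sp.mp h'))

lemma isCoprime_of_dvd_sub {x y : Eis} (hd : g ∣ x - y) (h : IsCoprime x g) : IsCoprime y g := by
  obtain ⟨t, ht⟩ := hd
  have e : y = x + g * (-t) := by linear_combination -ht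
  rw [e]
  exact h.add_mul_left_left (-t)

lemma fR_per {x y : Eis} (h : g ∣ x - y) : fR ψ x = fR ψ y := by
  by_cases hx : IsCoprime x g
  · obtain ⟨c, v, hcv⟩ := hx
    have h1 : fR ψ (c * x) = 1 := fR_eq_one ψ ⟨-v, by linear_combination hcv⟩
    have h2 : fR ψ (c * y) = 1 := by
      apply fR_eq_one
      obtain ⟨t, ht⟩ := h
      exact ⟨-v - c * t, by linear_combination hcv - c * ht⟩
    rw [fR_mul] at h1 h2
    have h3 : fR ψ c ≠ 0 := by
      intro h0
      rw [h0, zero_mul] at h1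
      exact zero_ne_one h1
    exact mul_left_cancel₀ h3 (h1.trans h2.symm)
  · have hy : ¬ IsCoprime y g := fun h' => hx (isCoprime_of_dvd_sub
      (by have := (dvd_neg.mpr h); simpa using this) h')
    rw [fR_eq_zero ψ hx, fR_eq_zero ψ hy]

lemma fR_norm (hg : g ≠ 0) (x : Eis) : fR ψ x = 0 ∨ ‖fR ψ x‖ = 1 := by
  by_cases hx : IsCoprime x g
  · right
    obtain ⟨c, v, hcv⟩ := hx
    have hfin : Finite (QE g) := finite_QE hg
    have hu : IsUnit (mkQ g x) := by
      refine IsUnit.of_mul_eq_one (mkQ g c) ?_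
      rw [← map_mul, ← map_one (mkQ g), mkQ_eq_iff]
      exact ⟨-v, by linear_combination hcv⟩
    obtain ⟨u, hu⟩ := hu
    have h1 := pow_orderOf_eq_one u
    have h2 : 0 < orderOf u := orderOf_pos u
    have h3 : mkQ g (x ^ orderOf u) = mkQ g 1 := by
      rw [map_pow, ← hu, ← Units.val_pow_eq_pow_val, h1, map_one, Units.val_one]
    have h4 := fR_eq_one ψ (mkQ_eq_iff.mp h3)
    rw [fR_pow] at h4
    exact Complex.norm_eq_one_of_pow_eq_one h4 h2.ne'
  · left
    exact fR_eq_zero ψ hx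

lemma nine_ne_zero : (9 : Eis) ≠ 0 := by
  intro h9
  have h := congrArg QuadraticAlgebra.re h9
  have : (9 : Eis) = ((9 : ℕ) : Eis) := by norm_num
  rw [this, QuadraticAlgebra.re_natCast] at h
  simp at h

lemma isCoprime_nine_mul {a g : Eis} (ha : IsPrim a) : IsCoprime a (9 * g) ↔ IsCoprime a g := by
  constructor
  · intro h
    exact h.of_mul_right_right
  · intro h
    have h3 := ha.isCoprime_three
    have e : (9 : Eis) = 3 * 3 := by norm_num
    rw [e]
    exact (h3.mul_right h3).mul_right h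

/-- the character on the primary elements attached to a ray class character -/
lemma hc_fR (hg : g ≠ 0) : HC (9 * g) (fR ψ) where
  q0 := mul_ne_zero nine_ne_zero hg
  three := ⟨3 * g, by ring⟩
  char :=
    { one := fR_one ψ
      mul := fun a b _ _ => fR_mul ψ a b
      norm := fun a _ => fR_norm ψ hg a }
  per a b _ _ h := fR_per ψ ((Dvd.intro_left _ rfl).trans h)
  van a ha h := fR_eq_zero ψ (fun h' => h ((isCoprime_nine_mul ha).mpr h'))

lemma associated_lam_sq : Associated (lam ^ 2) (3 : Eis) :=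
  associated_of_dvd_dvd lam_sq_dvd_three three_dvd_lam_sq

/-- a nonprincipal ray class character is nontrivial on the primary elements -/
lemma exists_fR_ne_one (hψ : ¬ IsPrincipalChar ψ) :
    ∃ a, IsPrim a ∧ IsCoprime a (9 * g) ∧ fR ψ a ≠ 1 := by
  unfold IsPrincipalChar at hψ
  push Not at hψ
  obtain ⟨I, hI, hne⟩ := hψ
  obtain ⟨z, rfl⟩ := exists_sp I
  rw [sup_sp] at hI
  change fR ψ z ≠ 1 at hne
  have hz : z ≠ 0 := by
    rintro rfl
    have h0 : fR ψ 0 ≠ 0 := by
      apply ψ.ne_zero_of_coprime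
      exact sup_sp.mpr hI
    have h1 := fR_mul ψ 0 0
    rw [mul_zero] at h1
    exact hne (mul_left_cancel₀ h0 (by rw [mul_one]; exact h1.symm))
  obtain ⟨j, b, hb, hzb⟩ := exists_lam_decomp hz
  have hzb' : fR ψ z = fR ψ lam ^ j * fR ψ b := by
    rw [← fR_pow, ← fR_mul]
    unfold fR
    rw [sp_eq_iff.mpr hzb]
  have hcop : IsCoprime (lam ^ j * b) g := by
    obtain ⟨u, hu⟩ := hzb
    rw [← hu]
    exact (isCoprime_mul_unit_right_left u.isUnit _ _).mpr hI
  have hcb : IsCoprime b g := hcop.of_mul_left_right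
  by_cases h1 : fR ψ b = 1
  · have hj : j ≠ 0 := by
      rintro rfl
      rw [pow_zero, one_mul, h1] at hzb'
      exact hne hzb'
    have hlg : IsCoprime lam g := by
      have := hcop.of_mul_left_left
      exact (IsCoprime.pow_left_iff (Nat.pos_of_ne_zero hj)).mp this
    have hlne : fR ψ lam ≠ 1 := by
      intro h2
      rw [h1, h2, one_pow, mul_one] at hzb'
      exact hne hzb'
    have h3g : IsCoprime (3 : Eis) g :=
      IsCoprime.of_isCoprime_of_dvd_left (hlg.pow_left (m := 2)) three_dvd_lam_sq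
    obtain ⟨u, v, huv⟩ := h3g
    refine ⟨lam * (u * 3) + v * g, ?_, ?_, ?_⟩
    · exact ⟨u * (lam - 1), by linear_combination huv⟩
    · have hp : IsPrim (lam * (u * 3) + v * g) := ⟨u * (lam - 1), by linear_combination huv⟩
      rw [isCoprime_nine_mul hp]
      refine isCoprime_of_dvd_sub (x := lam) ?_ hlg
      exact ⟨v * (lam - 1), by linear_combination (-lam) * huv⟩
    · have : fR ψ (lam * (u * 3) + v * g) = fR ψ lam := by
        apply fR_per
        exact ⟨v * (1 - lam), by linear_combination (lam) * huv⟩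
      rw [this]; exact hlne
  · exact ⟨b, hb, (isCoprime_nine_mul hb).mpr hcb, h1⟩

/-! ### the Euler factor at `λ` -/

open Classical in
/-- coefficients of `(1 - u 3^{-s})⁻¹` -/
def pw (u : ℂ) (n : ℕ) : ℂ := if ∃ j : ℕ, n = 3 ^ j then u ^ (Nat.log 3 n) else 0

lemma pw_pow (u : ℂ) (j : ℕ) : pw u (3 ^ j) = u ^ j := by
  unfold pw
  rw [if_pos ⟨j, rfl⟩, Nat.log_pow (by norm_num)]

lemma pw_of_not (u : ℂ) {n : ℕ} (h : ¬ ∃ j : ℕ, n = 3 ^ j) : pw u n = 0 := by
  unfold pw
  rw [if_neg h]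

lemma norm_u_lt {u : ℂ} (hu : ‖u‖ ≤ 1) {s : ℂ} (hs : 0 < s.re) : ‖u * (3 : ℂ) ^ (-s)‖ < 1 := by
  have h : ((3 : ℕ) : ℂ) = 3 := by norm_num
  rw [norm_mul, ← h, Complex.norm_natCast_cpow_of_pos (by norm_num), Complex.neg_re]
  have h1 : ((3 : ℕ) : ℝ) ^ (-s.re) < 1 :=
    Real.rpow_lt_one_of_one_lt_of_neg (by norm_num) (by linarith)
  have h2 : (0 : ℝ) ≤ ((3 : ℕ) : ℝ) ^ (-s.re) := by positivity
  calc ‖u‖ * ((3 : ℕ) : ℝ) ^ (-s.re) ≤ 1 * ((3 : ℕ) : ℝ) ^ (-s.re) := by gcongr
    _ < 1 := by linarith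

lemma hasSum_pw {u : ℂ} (hu : ‖u‖ ≤ 1) {s : ℂ} (hs : 0 < s.re) :
    LSeriesHasSum (pw u) s (1 - u * (3 : ℂ) ^ (-s))⁻¹ := by
  have hinj : Function.Injective (fun j : ℕ => 3 ^ j) := Nat.pow_right_injective (by norm_num)
  unfold LSeriesHasSum
  rw [← hinj.hasSum_iff]
  · have h1 : (LSeries.term (pw u) s ∘ fun j : ℕ => 3 ^ j) = fun j : ℕ => (u * (3 : ℂ) ^ (-s)) ^ j := by
      funext j
      simp only [Function.comp]
      rw [LSeries.term_of_ne_zero (by positivity), pw_pow, mul_pow, Complex.cpow_neg, inv_pow,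
        div_eq_mul_inv]
      congr 2
      rw [← Complex.cpow_nat_mul]
      have h2 := Complex.natCast_cpow_natCast_mul 3 j s
      have h3 : ((3 : ℕ) : ℂ) = 3 := by norm_num
      rw [h3] at h2
      rw [h2]
      push_cast
      rfl
    rw [h1]
    exact hasSum_geometric_of_norm_lt_one (norm_u_lt hu hs)
  · intro n hn
    rcases eq_or_ne n 0 with rfl | hn0
    · simp
    rw [LSeries.term_of_ne_zero hn0, pw_of_not, zero_div]
    rintro ⟨j, rfl⟩
    exact hn ⟨j, rfl⟩

lemma coeff_eq_conv (n : ℕ) (hn : n ≠ 0) :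
    coeff ψ n = (pw (fR ψ lam) ⍟ push (fR ψ)) n := by
  obtain ⟨j, m, hjm, h3⟩ := exists_three_decomp hn
  unfold coeff
  rw [finsum_ideal (fun I => ψ.toFun I) hn hjm h3, LSeries.convolution_def]
  beta_reduce
  rw [Finset.sum_eq_single (3 ^ j, m)]
  · rw [pw_pow]
    unfold push
    rw [Finset.mul_sum]
    apply Finset.sum_congr rfl
    intro b _
    change fR ψ (lam ^ j * b) = _
    rw [fR_mul, fR_pow]
  · rintro ⟨d, e⟩ hde hne
    rw [Nat.mem_divisorsAntidiagonal] at hde
    simp only at hde ⊢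
    by_cases h1 : ∃ i : ℕ, d = 3 ^ i
    · obtain ⟨i, rfl⟩ := h1
      by_cases h2 : 3 ∣ e
      · have h0 : fib e = ∅ := by
          ext b
          simp only [mem_fib, Finset.notMem_empty, iff_false]
          rintro ⟨h4, h5⟩
          have := h5.nm_mod
          omega
        unfold push
        rw [h0]; simp
      · exfalso
        apply hne
        have h5 : 3 ^ i * e = 3 ^ j * m := by rw [hde.1, hjm]
        have hij : i = j := by
          have e1 := congrArg (fun x => x.factorization 3) h5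
          have hb0 : e ≠ 0 := fun h0 => h2 (h0 ▸ dvd_zero 3)
          have hm0 : m ≠ 0 := fun h0 => h3 (h0 ▸ dvd_zero 3)
          rw [Nat.factorization_mul (by positivity) hb0, Nat.factorization_mul (by positivity) hm0,
            Nat.Prime.factorization_pow Nat.prime_three,
            Nat.Prime.factorization_pow Nat.prime_three] at e1
          simpa [Nat.factorization_eq_zero_of_not_dvd h2, Nat.factorization_eq_zero_of_not_dvd h3]
            using e1
        subst hij
        rw [Nat.eq_of_mul_eq_mul_left (by positivity) h5]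
    · rw [pw_of_not _ h1, zero_mul]
  · intro h
    exfalso
    apply h
    rw [Nat.mem_divisorsAntidiagonal]
    exact ⟨hjm.symm, hn⟩

lemma norm_fR_lam_le (hg : g ≠ 0) : ‖fR ψ lam‖ ≤ 1 := by
  rcases fR_norm ψ hg lam with h | h
  · rw [h]; simp
  · exact h.le

/-- the continued Hecke `L`-function -/
def GG (s : ℂ) : ℂ := (1 - fR ψ lam * (3 : ℂ) ^ (-s))⁻¹ * LH (9 * g) (fR ψ) 0 s

lemma tw_zero (χ : Eis → ℂ) : tw χ 0 = χ := by
  funext b
  simp [tw, ang_zero']

lemma GG_eq (hg : g ≠ 0) {s : ℂ} (hs : 1 < s.re) : GG ψ s = LSeries (coeff ψ) s := by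
  have h := hc_fR ψ hg
  have h1 := hasSum_pw (norm_fR_lam_le ψ hg) (s := s) (by linarith)
  unfold GG
  rw [h.LH_eq 0 hs, tw_zero, ← h1.LSeries_eq,
    LSeries_congr (fun {n} hn => coeff_eq_conv ψ n hn) s]
  symm
  refine LSeries_convolution' h1.LSeriesSummable ?_
  have := h.summable_tw 0 hs
  rwa [tw_zero] at this

lemma factor_ne_zero (hg : g ≠ 0) {s : ℂ} (hs : 0 < s.re) :
    1 - fR ψ lam * (3 : ℂ) ^ (-s) ≠ 0 := by
  intro h0
  have h1 := norm_u_lt (norm_fR_lam_le ψ hg) hs
  have h2 : fR ψ lam * (3 : ℂ) ^ (-s) = 1 := (sub_eq_zero.mp h0).symm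
  rw [h2] at h1
  simp at h1

lemma GG_diff (hg : g ≠ 0) {s : ℂ} (hs : 0 < s.re)
    (hL : DifferentiableAt ℂ (LH (9 * g) (fR ψ) 0) s) : DifferentiableAt ℂ (GG ψ) s := by
  unfold GG
  refine DifferentiableAt.mul (DifferentiableAt.inv ?_ (factor_ne_zero ψ hg hs)) hL
  refine DifferentiableAt.sub (differentiableAt_const _) (DifferentiableAt.const_mul ?_ _)
  exact differentiableAt_id.neg.const_cpow (Or.inl (by norm_num))

end

/-- nontriviality of `χ ang^l` -/
def NP (q : Eis) (χ : Eis → ℂ) (l : ℤ) : Prop :=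
  l ≠ 0 ∨ ∃ a, IsPrim a ∧ IsCoprime a q ∧ χ a ≠ 1

lemma NP.cc_eq_zero {q : Eis} {χ : Eis → ℂ} {l : ℤ} (hnp : NP q χ l) (h : HC q χ) :
    cc q χ l = 0 := by
  unfold cc
  split_ifs with hl
  · rcases hnp with h1 | ⟨a, ha, hcop, hne⟩
    · exact absurd hl h1
    · exact h.mden_eq_zero ha hcop hne
  · rfl

/-- zero-freeness of the `L`-functions of characters of finite order -/
def NZ : Prop := ∀ (q : Eis) (χ : Eis → ℂ), HC q χ → (9 : Eis) ∣ q → ∀ s : ℂ, 7 / 8 < s.re →
  (NP q χ 0 ∨ s ≠ 1) → LH q χ 0 s ≠ 0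

/-- **S0023 from zero-freeness** -/
theorem s23_of_nz (hnz : NZ) : S23 := by
  intro m hm ψ
  obtain ⟨g, rfl⟩ := exists_sp m
  have hg : g ≠ 0 := by
    rintro rfl
    apply hm
    unfold sp
    rw [map_zero, Ideal.span_singleton_eq_bot]
  have h := hc_fR ψ hg
  refine ⟨GG ψ, fun s hs => GG_eq ψ hg hs, fun s hs hor => ?_⟩
  have hor' : NP (9 * g) (fR ψ) 0 ∨ s ≠ 1 := by
    rcases hor with h1 | h1
    · left; right
      exact exists_fR_ne_one ψ h1
    · right; exact h1
  constructor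
  · apply GG_diff ψ hg (by linarith)
    rcases hor' with h1 | h1
    · exact h.differentiableAt_LH' 0 (h1.cc_eq_zero h) (by linarith)
    · exact h.differentiableAt_LH 0 (by linarith) h1
  · unfold GG
    exact mul_ne_zero (inv_ne_zero (factor_ne_zero ψ hg (by linarith)))
      (hnz _ _ h (Dvd.intro _ rfl) s hs hor')

end Crest.Agent.R017.End699
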