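import Crest.Agent.R017.EndE2_699
import Crest.Agent.R012.Sym6_645
import Crest.Agent.R017.EndF_699

/-!
# Row 17, end block (E3): closure properties of the class of characters `HC`
-/

set_option autoImplicit false

noncomputable section

namespace Crest.Agent.R017.End699

open Crest.Agent.R012 Crest.Agent.R012.Eis Crest.Agent.R012.PSer47

namespace HC

variable {q q₁ q₂ : Eis} {χ χ₁ χ₂ : Eis → ℂ}

/-- products -/
theorem mul (h₁ : HC q₁ χ₁) (h₂ : HC q₂ χ₂) : HC (q₁ * q₂) (fun b => χ₁ b * χ₂ b) where
  q0 := mul_ne_zero h₁.q0 h₂.q0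
  three := h₁.three.mul_right _
  char := h₁.char.mul' h₂.char
  per a b ha hb h := by
    rw [h₁.per a b ha hb ((Dvd.intro _ rfl).trans h),
      h₂.per a b ha hb ((Dvd.intro_left _ rfl).trans h)]
  van a ha h := by
    by_cases h1 : IsCoprime a q₁
    · have h2 : ¬ IsCoprime a q₂ := fun h2 => h (h1.mul_right h2)
      simp only [h₂.van a ha h2, mul_zero]
    · simp only [h₁.van a ha h1, zero_mul]

/-- products with the same modulus -/
theorem mul_same (h₁ : HC q χ₁) (h₂ : HC q χ₂) : HC q (fun b => χ₁ b * χ₂ b) where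
  q0 := h₁.q0
  three := h₁.three
  char := h₁.char.mul' h₂.char
  per a b ha hb h := by rw [h₁.per a b ha hb h, h₂.per a b ha hb h]
  van a ha h := by simp only [h₁.van a ha h, zero_mul]

/-- complex conjugate -/
theorem conj (h : HC q χ) : HC q (fun b => (starRingEnd ℂ) (χ b)) where
  q0 := h.q0
  three := h.three
  char := h.char.conj
  per a b ha hb hd := by rw [h.per a b ha hb hd]
  van a ha hc := by simp only [h.van a ha hc, map_zero]

/-- powers -/
theorem pow (h : HC q χ) (k : ℕ) (hk : 1 ≤ k) : HC q (fun b => χ b ^ k) where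
  q0 := h.q0
  three := h.three
  char := h.char.pow k hk
  per a b ha hb hd := by simp only [h.per a b ha hb hd]
  van a ha hc := by
    simp only [h.van a ha hc]
    exact zero_pow (by omega)

/-- finite order: the values are `0` or of absolute value one, and `χ a ≠ 0` iff `a` is coprime
to `q` -/
theorem ne_zero (h : HC q χ) {a : Eis} (ha : IsPrim a) (hc : IsCoprime a q) : χ a ≠ 0 := by
  obtain ⟨c, v, hcv⟩ := hc
  have hfin : Finite (QE q) := finite_QE h.q0
  have hu : IsUnit (mkQ q a) := by
    refine IsUnit.of_mul_eq_one (mkQ q c) ?_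
    rw [← map_mul, ← map_one (mkQ q), mkQ_eq_iff]
    exact ⟨-v, by linear_combination hcv⟩
  obtain ⟨u, hu⟩ := hu
  have h1 := pow_orderOf_eq_one u
  have h3 : mkQ q (a ^ orderOf u) = mkQ q 1 := by
    rw [map_pow, ← hu, ← Units.val_pow_eq_pow_val, h1, map_one, Units.val_one]
  have h4 := h.per _ _ (ha.pow (orderOf u)) isPrim_one (mkQ_eq_iff.mp h3)
  rw [h.char.map_pow ha, h.char.one] at h4
  intro h0
  rw [h0, zero_pow (orderOf_pos u).ne'] at h4
  exact zero_ne_one h4

theorem norm_eq_one (h : HC q χ) {a : Eis} (ha : IsPrim a) (hc : IsCoprime a q) : ‖χ a‖ = 1 := by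
  rcases h.char.norm a ha with h1 | h1
  · exact absurd h1 (h.ne_zero ha hc)
  · exact h1

end HC

open Classical in
/-- the principal character modulo `q` -/
def prin0 (q : Eis) (b : Eis) : ℂ := if IsCoprime b q then 1 else 0

/-- the principal character modulo `q` -/
theorem hc_prin0 {q : Eis} (hq : q ≠ 0) (h3 : (3 : Eis) ∣ q) : HC q (prin0 q) where
  q0 := hq
  three := h3
  char :=
    { one := by unfold prin0; rw [if_pos isCoprime_one_left]
      mul := by
        intro a b _ _
        unfold prin0
        by_cases ha : IsCoprime a q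
        · by_cases hb : IsCoprime b q
          · rw [if_pos ha, if_pos hb, if_pos (ha.mul_left hb), mul_one]
          · rw [if_neg hb, if_neg (fun h => hb h.of_mul_left_right), mul_zero]
        · rw [if_neg ha, if_neg (fun h => ha h.of_mul_left_left), zero_mul]
      norm := by
        intro a _
        unfold prin0
        split_ifs
        · right; simp
        · left; rfl }
  per a b _ _ hd := by
    unfold prin0
    by_cases ha : IsCoprime a q
    · rw [if_pos ha, if_pos (isCoprime_of_dvd_sub hd ha)]
    · rw [if_neg ha, if_neg]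
      intro hb
      exact ha (isCoprime_of_dvd_sub (by have := (dvd_neg.mpr hd); simpa using this) hb)
  van a _ h := by unfold prin0; rw [if_neg h]

/-- change of modulus -/
theorem HC.changeMod {q q' : Eis} {χ : Eis → ℂ} (h : HC q χ) (hq' : q' ≠ 0) (hd : q ∣ q') :
    HC q' (fun b => χ b * prin0 q' b) := by
  have h' := hc_prin0 hq' (h.three.trans hd)
  exact
    { q0 := hq'
      three := h.three.trans hd
      char := h.char.mul' h'.char
      per := fun a b ha hb hab => by rw [h.per a b ha hb (hd.trans hab), h'.per a b ha hb hab]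
      van := fun a ha hc => by simp only [h'.van a ha hc, mul_zero] }

/-- the cubic symbol `b ↦ (h/b)` is a character modulo `9 h` -/
theorem hc_sy {h : Eis} (h0 : h ≠ 0) : HC (9 * h) (fun b => sy h b) where
  q0 := mul_ne_zero nine_ne_zero h0
  three := ⟨3 * h, by ring⟩
  char :=
    { one := Sym645.sy_one_right h
      mul := fun a b ha hb => Sym645.sy_mul_right h ha.ne_zero hb.ne_zero
      norm := fun a ha => by
        by_cases hc : IsCoprime h a
        · right; exact Sym645.norm_sy_of_isCoprime (Sym645.prim_nm_mod ha) hc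
        · left; exact (Sym645.sy_eq_zero_iff (Sym645.prim_nm_mod ha)).mpr hc }
  per a b ha hb hd := Sym645.sy_periodic h0 ha hb hd
  van a ha hc := by
    apply (Sym645.sy_eq_zero_iff (Sym645.prim_nm_mod ha)).mpr
    intro hc'
    exact hc ((isCoprime_nine_mul ha).mpr hc'.symm)

/-- nontriviality of `(h/·)` for a noncube `h` -/
theorem np_sy {h : Eis} (h0 : h ≠ 0) (hh : ¬ ∃ e, h = e ^ 3) (l : ℤ) :
    NP (9 * h) (fun b => sy h b) l := by
  right
  obtain ⟨b, hb, hcop, hne⟩ := Sym645.exists_sy_ne_one h0 hh
  exact ⟨b, hb, (isCoprime_nine_mul hb).mpr hcop.symm, hne⟩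

/-- the cube of a primary element gives the principal character -/
theorem sy_cube_left {h : Eis} {b : Eis} (hb : IsPrim b) (hc : IsCoprime h b) :
    sy (h ^ 3) b = 1 := by
  rw [Sym645.sy_pow_left (Sym645.prim_nm_mod hb)]
  exact Sym645.sy_cube (Sym645.prim_nm_mod hb) hc

end Crest.Agent.R017.End699
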