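import Crest.Agent.R017.FE1_47
import Crest.Agent.R012.Base_666
import Crest.Agent.R017.EndE3_699

/-!
# Row 17: functional equation of the smooth family sums (2): the decomposition `k = e b`

`SM M` : nonzero elements all of whose prime factors divide `M`; `BM M` : primary elements prime to
`M`. For `3 ∣ M` every `k ≠ 0` is uniquely `e * b`.
`poisson_hc` : Poisson summation for `χ κ`, `χ` a character modulo `M` on the primary elements;
the dual side is a sum over `e ∈ SM M` of sums over the primary elements of the conjugate character.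
-/

set_option autoImplicit false

noncomputable section

open Complex
open scoped SchwartzMap

namespace Crest.Agent.R017.FE47

open Crest.Agent.R012 Crest.Agent.R012.Eis Crest.Agent.R012.Gauss880 Crest.Agent.R012.Po581
open Crest.Agent.R017.End699

/-- nonzero elements all of whose prime factors divide `M` -/
def SM (M : Eis) : Set Eis := {e | e ≠ 0 ∧ ∀ p, Prime p → p ∣ e → p ∣ M}

/-- primary elements prime to `M` -/
def BM (M : Eis) : Set Eis := {b | IsPrim b ∧ IsCoprime b M}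

lemma SM.coprime {M e x : Eis} (he : e ∈ SM M) (hx : IsCoprime x M) : IsCoprime x e := by
  rw [isCoprime_comm]
  refine isCoprime_of_prime_dvd (fun h => he.1 h.1) ?_
  intro p hp hpe hpx
  have h1 := he.2 p hp hpe
  exact hp.not_unit (hx.isUnit_of_dvd' hpx h1)

lemma SM.mul {M e e' : Eis} (he : e ∈ SM M) (he' : e' ∈ SM M) : e * e' ∈ SM M :=
  ⟨mul_ne_zero he.1 he'.1, fun p hp h => (hp.dvd_or_dvd h).elim (he.2 p hp) (he'.2 p hp)⟩

lemma SM.unit {M : Eis} {u : Eis} (hu : IsUnit u) : u ∈ SM M :=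
  ⟨hu.ne_zero, fun _ hp h => absurd (isUnit_of_dvd_unit h hu) hp.not_unit⟩

lemma one_mem_BM (M : Eis) : (1 : Eis) ∈ BM M := ⟨isPrim_one, isCoprime_one_left⟩

lemma lam_dvd_of_three {M : Eis} (h3 : (3 : Eis) ∣ M) : lam ∣ M := by
  exact lam_dvd_three.trans h3

theorem exists_decomp {M : Eis} (h3 : (3 : Eis) ∣ M) {k : Eis} (hk : k ≠ 0) :
    ∃ e ∈ SM M, ∃ b ∈ BM M, k = e * b := by
  induction k using UniqueFactorizationMonoid.induction_on_prime with
  | h₁ => exact absurd rfl hk
  | h₂ u hu => exact ⟨u, SM.unit hu, 1, one_mem_BM M, by rw [mul_one]⟩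
  | h₃ a p ha hp ih =>
    obtain ⟨e, he, b, hb, hab⟩ := ih ha
    by_cases hpM : p ∣ M
    · refine ⟨p * e, ⟨mul_ne_zero hp.ne_zero he.1, fun q hq h => ?_⟩, b, hb, by rw [hab]; ring⟩
      rcases hq.dvd_or_dvd h with h1 | h1
      · have h2 : Associated q p := (hq.dvd_prime_iff_associated hp).mp h1
        exact h2.dvd.trans hpM
      · exact he.2 q hq h1
    · have hl : ¬ lam ∣ p := by
        intro h
        have h2 : Associated lam p := (prime_lam.dvd_prime_iff_associated hp).mp h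
        exact hpM (h2.symm.dvd.trans (lam_dvd_of_three h3))
      obtain ⟨y, hy, u, hu⟩ := exists_isPrim_associated hl
      have hyM : IsCoprime y M := by
        have hyp : Prime y := (Associated.prime ⟨u, hu⟩ hp)
        refine (hyp.irreducible.coprime_iff_not_dvd).mpr fun h => hpM ?_
        exact (Associated.dvd ⟨u, hu⟩).trans h
      refine ⟨((u⁻¹ : Eisˣ) : Eis) * e, SM.mul (SM.unit (Units.isUnit _)) he, y * b,
        ⟨hy.mul hb.1, hyM.mul_left hb.2⟩, ?_⟩
      rw [hab, ← hu]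
      have : ((u⁻¹ : Eisˣ) : Eis) * (u : Eis) = 1 := Units.inv_mul u
      linear_combination (-(p * e * b)) * this

theorem decomp_unique {M : Eis} {e e' b b' : Eis} (he : e ∈ SM M) (he' : e' ∈ SM M)
    (hb : b ∈ BM M) (hb' : b' ∈ BM M) (h : e * b = e' * b') : e = e' ∧ b = b' := by
  have h1 : b ∣ b' := (SM.coprime he' hb.2).dvd_of_dvd_mul_left (h ▸ Dvd.intro_left e rfl)
  have h2 : b' ∣ b := (SM.coprime he hb'.2).dvd_of_dvd_mul_left (h.symm ▸ Dvd.intro_left e' rfl)
  have h3 : b = b' := hb.1.eq_of_associated hb'.1 (associated_of_dvd_dvd h1 h2)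
  refine ⟨?_, h3⟩
  rw [h3] at h
  exact mul_right_cancel₀ hb'.1.ne_zero h

/-- the bijection `(e, b) ↦ e b` onto the nonzero elements. -/
def decEquiv {M : Eis} (h3 : (3 : Eis) ∣ M) : SM M × BM M ≃ {k : Eis // k ≠ 0} :=
  Equiv.ofBijective (fun p => ⟨p.1.1 * p.2.1, mul_ne_zero p.1.2.1 p.2.2.1.ne_zero⟩) <| by
    constructor
    · rintro ⟨⟨e, he⟩, ⟨b, hb⟩⟩ ⟨⟨e', he'⟩, ⟨b', hb'⟩⟩ h
      have h := decomp_unique he he' hb hb' (Subtype.ext_iff.mp h)
      obtain ⟨rfl, rfl⟩ := h
      rfl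
    · rintro ⟨k, hk⟩
      obtain ⟨e, he, b, hb, rfl⟩ := exists_decomp h3 hk
      exact ⟨(⟨e, he⟩, ⟨b, hb⟩), rfl⟩

lemma decEquiv_apply {M : Eis} (h3 : (3 : Eis) ∣ M) (p : SM M × BM M) :
    ((decEquiv h3 p : {k : Eis // k ≠ 0}) : Eis) = p.1.1 * p.2.1 := rfl

/-- a sum over the elements `k`, `F 0 = 0`, as a double sum -/
theorem tsum_decomp {M : Eis} (h3 : (3 : Eis) ∣ M) {F : Eis → ℂ} (h0 : F 0 = 0)
    (hF : Summable F) :
    ∑' k, F k = ∑' e : SM M, ∑' b : BM M, F (e.1 * b.1) := by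
  have h1 : ∑' k, F k = ∑' k : {k : Eis // k ≠ 0}, F k := by
    symm
    refine tsum_subtype_eq_of_support_subset (s := {k : Eis | k ≠ 0}) ?_
    intro k hk h
    rw [h] at hk
    exact hk h0
  have hs : Summable (fun p : SM M × BM M => F (p.1.1 * p.2.1)) := by
    have h2 : Summable (fun k : {k : Eis // k ≠ 0} => F k) := hF.subtype _
    exact (decEquiv h3).summable_iff.mpr h2
  rw [h1, ← (decEquiv h3).tsum_eq]
  exact hs.tsum_prod

/-- The dual sum of `χ` modulo `M`. -/
def DM (M : Eis) (χ : Eis → ℂ) (e : Eis) : ℂ := dualSum M (End699.ext χ) e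

lemma ext_mul {M : Eis} {χ : Eis → ℂ} (h : HC M χ) {b : Eis} (hb : IsPrim b) (a : Eis) :
    End699.ext χ (b * a) = χ b * End699.ext χ a := by
  simp only [End699.ext]
  by_cases ha : IsPrim a
  · rw [if_pos ha, if_pos ((P355.isPrim_mul_iff hb).mpr ha), h.char.mul b a hb ha]
  · rw [if_neg ha, if_neg (fun h => ha ((P355.isPrim_mul_iff hb).mp h)), mul_zero]

lemma dualSum_mul_left {M : Eis} (c : ℂ) (hM : M ≠ 0) (f : Eis → ℂ) (k : Eis) :
    dualSum M (fun a => c * f a) k = c * dualSum M f k := by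
  unfold dualSum
  rw [← sumMod_mul_left hM]
  exact sumMod_congr fun a => by ring

lemma DM_mul {M : Eis} {χ : Eis → ℂ} (h : HC M χ) {e b : Eis} (hb : b ∈ BM M) :
    DM M χ (e * b) = (starRingEnd ℂ) (χ b) * DM M χ e := by
  have hn : χ b * (starRingEnd ℂ) (χ b) = 1 := by
    rw [Complex.mul_conj, Complex.normSq_eq_norm_sq, h.norm_eq_one hb.1 hb.2]; simp
  have h1 : χ b * DM M χ (e * b) = DM M χ e := by
    unfold DM dualSum
    have hP : PMod M (fun a => End699.ext χ a * eC (dl e / toC M * toC a)) := h.pmod.mul (pmod_eC_dl h.q0 e)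
    rw [← sumMod_mul_left h.q0, ← sumMod_mul_coprime h.q0 hP hb.2]
    refine sumMod_congr fun a => ?_
    rw [ext_mul h hb.1, mul_assoc]
    congr 3
    unfold dl
    rw [map_mul, map_mul]
    ring
  calc DM M χ (e * b) = (χ b * (starRingEnd ℂ) (χ b)) * DM M χ (e * b) := by rw [hn, one_mul]
    _ = (starRingEnd ℂ) (χ b) * (χ b * DM M χ (e * b)) := by ring
    _ = _ := by rw [h1]

lemma norm_DM_le {M : Eis} {χ : Eis → ℂ} (h : HC M χ) (e : Eis) : ‖DM M χ e‖ ≤ nm M := by
  unfold DM dualSum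
  refine (norm_sumMod_le h.q0 (B := 1) (fun x => ?_)).trans (by rw [mul_one])
  rw [norm_mul, eC_norm, mul_one]
  simp only [End699.ext]
  split_ifs with hx
  · exact h.char.norm_le hx
  · simp

/-- **Exact functional equation (Poisson form)**: `χ` a character mod `M` on primary elements,
`κ` a primitive character modulo `c` (not a unit), `f` a Schwartz function. -/
theorem poisson_hc (f : 𝓢(ℂ, ℂ)) {M c : Eis} {χ κ : Eis → ℂ} (h : HC M χ) (hc : IsPrim c)
    (hcop : IsCoprime c M) (hκ : IsCh c κ) (hp : Primitive c κ) (hc1 : κ 0 = 0) :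
    ∑' x : Eis, End699.ext χ x * κ x * f (toC x) =
      ((2 / (Real.sqrt 3 * nm (M * c)) : ℝ) : ℂ) * (χ c * κ M * κ Po581.sq3 * gsum κ 1 c) *
        ∑' e : SM M, DM M χ e.1 * (starRingEnd ℂ) (κ e.1) *
          ∑' b : BM M, (starRingEnd ℂ) (χ b.1 * κ b.1) *
            fC f (dl (e.1 * b.1) / toC (M * c)) := by
  have hsq : IsCoprime Po581.sq3 c := by
    have h1 : Associated lam Po581.sq3 := associated_lam_sq3
    have h2 : IsCoprime lam c := (prime_lam.irreducible.coprime_iff_not_dvd).mpr hc.not_lam_dvd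
    obtain ⟨u, hu⟩ := h1
    rw [← hu]
    exact (isCoprime_mul_unit_right_left u.isUnit _ _).mpr h2
  have hmul : ∀ k, dualSum M (fun a => End699.ext χ (c * a)) k = χ c * DM M χ k := by
    intro k
    have e1 : (fun a => End699.ext χ (c * a)) = fun a => χ c * End699.ext χ a := by
      funext a; exact ext_mul h hc a
    rw [e1, dualSum_mul_left _ h.q0]
    rfl
  rw [poisson_char f h.q0 hc.ne_zero hcop.symm hsq h.pmod hκ hp]
  have hS : Summable (fun k : Eis => dualSum M (fun a => End699.ext χ (c * a)) k *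
      (starRingEnd ℂ) (κ k) * fC f (dl k / toC (M * c))) := by
    refine summable_mul_bdd (B := nm M) (fun k => ?_)
      (fC_summable f (Po581.toC_ne_zero (mul_ne_zero h.q0 hc.ne_zero)))
    rw [hmul, norm_mul, norm_mul, RCLike.norm_conj]
    have a1 := h.char.norm_le hc
    have a2 := norm_DM_le h k
    have a3 := hκ.norm_le_one hc.ne_zero k
    have a4 : (0:ℝ) ≤ nm M := by positivity
    calc ‖χ c‖ * ‖DM M χ k‖ * ‖κ k‖ ≤ 1 * nm M * 1 := by gcongr
      _ = nm M := by ring
  rw [tsum_decomp h.three (by rw [hc1]; simp) hS]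
  have e4 : ∀ e : SM M, ∑' b : BM M, dualSum M (fun a => End699.ext χ (c * a)) (e.1 * b.1) *
      (starRingEnd ℂ) (κ (e.1 * b.1)) * fC f (dl (e.1 * b.1) / toC (M * c)) =
      χ c * (DM M χ e.1 * (starRingEnd ℂ) (κ e.1) * ∑' b : BM M, (starRingEnd ℂ) (χ b.1 * κ b.1) *
            fC f (dl (e.1 * b.1) / toC (M * c))) := by
    intro e
    rw [← tsum_mul_left, ← tsum_mul_left]
    refine tsum_congr fun b => ?_
    rw [hmul, DM_mul h b.2, hκ.mul, map_mul (starRingEnd ℂ) (κ e.1),
      map_mul (starRingEnd ℂ) (χ b.1)]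
    ring
  rw [tsum_congr e4, tsum_mul_left]
  ring

end Crest.Agent.R017.FE47
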