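import Crest.Agent.R012.GaussInst_880
import Crest.Agent.R012.Char_766
import Crest.Agent.R012.Prime_666

/-!
# Row 17, sextic route (73's #8283): the quadratic and sextic residue symbols on `Eis`

* `sy20 x p` : quadratic residue symbol modulo a prime `p` (not dividing `2`), values `0, 1, -1` in `ℂ`
* `sy2 x c = (x/c)_2` : product over the prime factors of `c`
* `sy6 x c = (x/c)_6 := sy2 x c * conj (sy x c)` : `sy6 ^ 3 = sy2`, `sy6 ^ 2 = sy` (on coprime arguments)

Everything about `sy2` only needs `¬ 2 ∣ c`; for `sy6` we ask `IsPrim c` and `¬ 2 ∣ c`.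
-/

set_option autoImplicit false
set_option linter.unusedSimpArgs false
set_option linter.unusedVariables false
set_option linter.unusedSectionVars false

noncomputable section

namespace Crest.Agent.R017.Sx440

open Crest.Agent.R012 Crest.Agent.R012.Eis Crest.Agent.R012.Gauss880

open Classical in
/-- The quadratic residue symbol modulo a prime `p`. -/
def sy20 (x p : Eis) : ℂ :=
  if p ∣ x then 0 else if p ∣ x ^ ((nm p - 1) / 2) - 1 then 1 else -1

/-- The quadratic residue symbol `(x/c)_2`. -/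
def sy2 (x c : Eis) : ℂ :=
  ((UniqueFactorizationMonoid.factors c).map (fun p => sy20 x p)).prod

/-- The sextic residue symbol `(x/c)_6`, `(x/c)_6^3 = (x/c)_2`, `(x/c)_6^2 = (x/c)_3`. -/
def sy6 (x c : Eis) : ℂ := sy2 x c * (starRingEnd ℂ) (sy x c)

/-! ### the prime `2` -/

lemma nm_two : nm (2 : Eis) = 4 := by
  have h := nm_cast (2 : Eis)
  have h1 : (2 : Eis).re = 2 := rfl
  have h2 : (2 : Eis).im = 0 := rfl
  rw [h1, h2] at h
  norm_num at h
  exact_mod_cast h

lemma two_ne_zero' : (2 : Eis) ≠ 0 := by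
  intro h
  have := congrArg nm h
  rw [nm_two] at this
  simp at this

lemma prime_two : Prime (2 : Eis) := by
  rw [← irreducible_iff_prime]
  refine ⟨?_, ?_⟩
  · rw [isUnit_iff, nm_two]; norm_num
  · intro a b hab
    have h := congrArg nm hab
    rw [nm_two, nm_mul] at h
    have ha := Sym645.nm_mod_three a
    have hb := Sym645.nm_mod_three b
    have hd : nm a ∣ 4 := ⟨nm b, h⟩
    have hle : nm a ≤ 4 := Nat.le_of_dvd (by norm_num) hd
    rw [isUnit_iff, isUnit_iff]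
    interval_cases hh : nm a
    · omega
    · exact Or.inl rfl
    · omega
    · omega
    · right; omega

/-- `c` is odd : not divisible by the prime `2`. -/
def Od (c : Eis) : Prop := ¬ (2 : Eis) ∣ c

lemma Od.ne_zero {c : Eis} (h : Od c) : c ≠ 0 := by
  rintro rfl; exact h (dvd_zero _)

lemma od_one : Od 1 := fun h => prime_two.not_isUnit (isUnit_of_dvd_one h)

lemma od_of_isUnit {u : Eis} (hu : IsUnit u) : Od u :=
  fun h => prime_two.not_isUnit (isUnit_of_dvd_unit h hu)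

lemma Od.mul {a b : Eis} (ha : Od a) (hb : Od b) : Od (a * b) := fun h =>
  (prime_two.dvd_or_dvd h).elim ha hb

lemma Od.left {a b : Eis} (h : Od (a * b)) : Od a := fun h' => h (h'.mul_right b)

lemma Od.right {a b : Eis} (h : Od (a * b)) : Od b := fun h' => h (h'.mul_left a)

lemma Od.of_dvd {a b : Eis} (h : Od b) (hd : a ∣ b) : Od a := fun h' => h (h'.trans hd)

lemma Od.isCoprime {c : Eis} (h : Od c) : IsCoprime 2 c :=
  (prime_two.irreducible.coprime_iff_not_dvd).mpr h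

lemma od_iff {c : Eis} : Od c ↔ IsCoprime 2 c :=
  (prime_two.irreducible.coprime_iff_not_dvd).symm

lemma two_dvd_nm_iff {c : Eis} : 2 ∣ nm c ↔ (2 : Eis) ∣ c := by
  constructor
  · intro h
    have h1 : (2 : Eis) ∣ ((nm c : ℕ) : Eis) := by
      obtain ⟨k, hk⟩ := h
      rw [hk]; push_cast; exact dvd_mul_right _ _
    rw [← Eis.mul_conj] at h1
    rcases prime_two.dvd_or_dvd h1 with h2 | h2
    · exact h2
    · have h3 := conj_dvd_conj h2
      rw [Eis.conj_conj] at h3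
      have h4 : Eis.conj 2 = 2 := by
        have : (2 : Eis) = 1 + 1 := by norm_num
        rw [this, conj_add, conj_one]
      rwa [h4] at h3
  · rintro ⟨t, rfl⟩
    rw [nm_mul, nm_two]
    exact ⟨2 * nm t, by ring⟩

lemma Od.nm_odd {c : Eis} (h : Od c) : nm c % 2 = 1 := by
  have := two_dvd_nm_iff (c := c)
  have h2 : ¬ 2 ∣ nm c := fun h' => h (this.mp h')
  omega

lemma Od.two_mul_div {c : Eis} (h : Od c) : 2 * ((nm c - 1) / 2) = nm c - 1 := by
  have := h.nm_odd
  omega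

lemma Od.pow {a : Eis} (ha : Od a) (n : ℕ) : Od (a ^ n) := by
  induction n with
  | zero => rw [pow_zero]; exact od_one
  | succ n ih => rw [pow_succ]; exact ih.mul ha

lemma Od.conj {a : Eis} (ha : Od a) : Od (Eis.conj a) := by
  intro h
  have h2 := two_dvd_nm_iff.mpr h
  rw [nm_conj] at h2
  exact ha (two_dvd_nm_iff.mp h2)

/-! ### the symbol at a prime -/

lemma sy20_of_dvd {x p : Eis} (h : p ∣ x) : sy20 x p = 0 := by
  unfold sy20; rw [if_pos h]

lemma sy20_cases {x p : Eis} (h : ¬ p ∣ x) : sy20 x p = 1 ∨ sy20 x p = -1 := by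
  unfold sy20; rw [if_neg h]; split_ifs <;> simp

lemma sign_unique {p : Eis} (hp : Prime p) (h2 : Od p) {u v : ℤ} (hu : u = 1 ∨ u = -1)
    (hv : v = 1 ∨ v = -1) {y : Eis} (h : p ∣ y - (u : Eis)) (h' : p ∣ y - (v : Eis)) : u = v := by
  have hd : p ∣ (v : Eis) - (u : Eis) := by
    have := dvd_sub h h'
    rwa [sub_sub_sub_cancel_left] at this
  have key : ¬ p ∣ (2 : Eis) := by
    intro h3
    have := (hp.dvd_prime_iff_associated prime_two).mp h3
    exact h2 this.symm.dvd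
  rcases hu with rfl | rfl <;> rcases hv with rfl | rfl
  · rfl
  · exfalso; apply key
    push_cast at hd
    have e : (-1 : Eis) - 1 = -2 := by norm_num
    rw [e, dvd_neg] at hd; exact hd
  · exfalso; apply key
    push_cast at hd
    have e : (1 : Eis) - (-1) = 2 := by norm_num
    rwa [e] at hd
  · rfl

lemma exists_sign {p x : Eis} (hp : Prime p) (h2 : Od p) (hx : ¬ p ∣ x) :
    ∃ u : ℤ, (u = 1 ∨ u = -1) ∧ p ∣ x ^ ((nm p - 1) / 2) - (u : Eis) ∧ sy20 x p = (u : ℂ) := by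
  have h := Crest.Agent.R012.pow_nm_sub_one hp hx
  rw [← h2.two_mul_div, mul_comm, pow_mul] at h
  have e : (x ^ ((nm p - 1) / 2)) ^ 2 - 1
      = (x ^ ((nm p - 1) / 2) - 1) * (x ^ ((nm p - 1) / 2) - (-1)) := by ring
  rw [e] at h
  unfold sy20
  rw [if_neg hx]
  by_cases h1 : p ∣ x ^ ((nm p - 1) / 2) - 1
  · rw [if_pos h1]
    exact ⟨1, Or.inl rfl, by simpa using h1, by simp⟩
  · rw [if_neg h1]
    refine ⟨-1, Or.inr rfl, ?_, by simp⟩
    rcases hp.dvd_or_dvd h with h3 | h3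
    · exact absurd h3 h1
    · simpa using h3

lemma sy20_eq {p x : Eis} (hp : Prime p) (h2 : Od p) {u : ℤ} (hu : u = 1 ∨ u = -1)
    (h : p ∣ x ^ ((nm p - 1) / 2) - (u : Eis)) : sy20 x p = (u : ℂ) := by
  have hx : ¬ p ∣ x := by
    intro hx
    have hk : (nm p - 1) / 2 ≠ 0 := by
      have h3 := h2.nm_odd
      have h4 := one_lt_nm_of_prime hp
      omega
    have h1 : p ∣ x ^ ((nm p - 1) / 2) := dvd_pow hx hk
    have h3 : p ∣ (u : Eis) := by
      have := dvd_sub h1 h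
      rwa [sub_sub_cancel] at this
    have h4 : IsUnit (u : Eis) := by
      rcases hu with rfl | rfl
      · simp
      · push_cast; exact isUnit_one.neg
    exact hp.not_isUnit (isUnit_of_dvd_unit h3 h4)
  obtain ⟨v, hv, h3, h4⟩ := exists_sign hp h2 hx
  rw [h4, sign_unique hp h2 hv hu h3 h]

lemma sy20_mul {p : Eis} (hp : Prime p) (h2 : Od p) (x y : Eis) :
    sy20 (x * y) p = sy20 x p * sy20 y p := by
  by_cases hx : p ∣ x
  · rw [sy20_of_dvd hx, sy20_of_dvd (hx.mul_right y), zero_mul]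
  by_cases hy : p ∣ y
  · rw [sy20_of_dvd hy, sy20_of_dvd (hy.mul_left x), mul_zero]
  obtain ⟨u, hu, h1, e1⟩ := exists_sign hp h2 hx
  obtain ⟨v, hv, h3, e3⟩ := exists_sign hp h2 hy
  have huv : u * v = 1 ∨ u * v = -1 := by
    rcases hu with rfl | rfl <;> rcases hv with rfl | rfl <;> simp
  have : p ∣ (x * y) ^ ((nm p - 1) / 2) - ((u * v : ℤ) : Eis) := by
    rw [mul_pow]
    push_cast
    have e : x ^ ((nm p - 1) / 2) * y ^ ((nm p - 1) / 2) - (u : Eis) * (v : Eis)
      = (x ^ ((nm p - 1) / 2) - (u : Eis)) * y ^ ((nm p - 1) / 2)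
        + (u : Eis) * (y ^ ((nm p - 1) / 2) - (v : Eis)) := by ring
    rw [e]
    exact dvd_add (h1.mul_right _) (h3.mul_left _)
  rw [sy20_eq hp h2 huv this, e1, e3]
  push_cast; ring

lemma sy20_one {p : Eis} (hp : Prime p) (h2 : Od p) : sy20 1 p = 1 := by
  have := sy20_eq (x := 1) hp h2 (Or.inl rfl) (by simp)
  simpa using this

lemma sy20_congr {x y p : Eis} (hp : Prime p) (h2 : Od p) (h : p ∣ x - y) :
    sy20 x p = sy20 y p := by
  by_cases hy : p ∣ y
  · have hx : p ∣ x := by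
      have := dvd_add h hy
      rwa [sub_add_cancel] at this
    rw [sy20_of_dvd hx, sy20_of_dvd hy]
  · obtain ⟨v, hv, h3, e3⟩ := exists_sign hp h2 hy
    rw [e3]
    refine sy20_eq hp h2 hv ?_
    have h4 : p ∣ x ^ ((nm p - 1) / 2) - y ^ ((nm p - 1) / 2) :=
      h.trans (sub_dvd_pow_sub_pow _ _ _)
    have := dvd_add h4 h3
    rwa [sub_add_sub_cancel] at this

lemma sy20_assoc {x p q : Eis} (h : Associated p q) : sy20 x p = sy20 x q := by
  have hd : ∀ z, (p ∣ z) = (q ∣ z) := fun z => propext h.dvd_iff_dvd_left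
  have hn := nm_eq_of_associated h
  classical
  unfold sy20
  simp only [hd, hn]

/-- **Euler's criterion** : `(x/p)_2 = 1` iff `x` is a square modulo `p`. -/
lemma sy20_eq_one_iff {p x : Eis} (hp : Prime p) (h2 : Od p) (hx : ¬ p ∣ x) :
    sy20 x p = 1 ↔ ∃ y, p ∣ x - y ^ 2 := by
  let _ : Field (QE p) := @Ideal.Quotient.field _ _ _ (isField_QE hp)
  have hfin : Finite (QE p) := finite_QE hp.ne_zero
  let _ : Fintype (QE p) := Fintype.ofFinite _
  have hcard : Fintype.card (QE p) = nm p := by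
    rw [← Nat.card_eq_fintype_card, card_QE]
  have hchar : ringChar (QE p) ≠ 2 := by
    intro h
    have h3 : ((2 : ℕ) : QE p) = 0 := by
      rw [← h]; exact ringChar.Nat.cast_ringChar
    have h4 : mkQ p 2 = mkQ p 0 := by
      rw [map_zero]
      have : mkQ p (2 : Eis) = ((2 : ℕ) : QE p) := by
        rw [← map_natCast (mkQ p)]; norm_num
      rw [this, h3]
    rw [mkQ_eq_iff, sub_zero] at h4
    exact h2 ((hp.dvd_prime_iff_associated prime_two).mp h4).symm.dvd
  have h0 : mkQ p x ≠ 0 := by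
    intro h
    rw [← map_zero (mkQ p), mkQ_eq_iff, sub_zero] at h
    exact hx h
  have key := FiniteField.isSquare_iff hchar h0
  have e1 : sy20 x p = 1 ↔ p ∣ x ^ ((nm p - 1) / 2) - 1 := by
    constructor
    · intro h
      obtain ⟨v, hv, h3, e3⟩ := exists_sign hp h2 hx
      rw [h] at e3
      have : v = 1 := by exact_mod_cast e3.symm
      rw [this] at h3; simpa using h3
    · intro h
      have := sy20_eq hp h2 (Or.inl rfl) (u := 1) (x := x) (by simpa using h)
      simpa using this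
  rw [e1, ← mkQ_eq_iff, map_pow, map_one]
  have h5 : (nm p - 1) / 2 = Fintype.card (QE p) / 2 := by
    rw [hcard]; have := h2.nm_odd; omega
  rw [h5, ← key]
  constructor
  · rintro ⟨y, hy⟩
    obtain ⟨z, rfl⟩ := mkQ_surjective p y
    refine ⟨z, ?_⟩
    rw [← mkQ_eq_iff, hy, map_pow, pow_two]
  · rintro ⟨y, hy⟩
    rw [← mkQ_eq_iff, map_pow] at hy
    exact ⟨mkQ p y, by rw [hy, pow_two]⟩

/-- a nonresidue exists. -/
lemma exists_sy20_eq_neg_one {p : Eis} (hp : Prime p) (h2 : Od p) : ∃ x, sy20 x p = -1 := by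
  let _ : Field (QE p) := @Ideal.Quotient.field _ _ _ (isField_QE hp)
  have hfin : Finite (QE p) := finite_QE hp.ne_zero
  let _ : Fintype (QE p) := Fintype.ofFinite _
  have hchar : ringChar (QE p) ≠ 2 := by
    intro h
    have h3 : ((2 : ℕ) : QE p) = 0 := by
      rw [← h]; exact ringChar.Nat.cast_ringChar
    have h4 : mkQ p 2 = mkQ p 0 := by
      rw [map_zero]
      have : mkQ p (2 : Eis) = ((2 : ℕ) : QE p) := by
        rw [← map_natCast (mkQ p)]; norm_num
      rw [this, h3]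
    rw [mkQ_eq_iff, sub_zero] at h4
    exact h2 ((hp.dvd_prime_iff_associated prime_two).mp h4).symm.dvd
  obtain ⟨a, ha⟩ := FiniteField.exists_nonsquare hchar
  obtain ⟨x, rfl⟩ := mkQ_surjective p a
  have hx : ¬ p ∣ x := by
    intro hd
    apply ha
    have : mkQ p x = 0 := by rw [← map_zero (mkQ p), mkQ_eq_iff, sub_zero]; exact hd
    rw [this]; exact ⟨0, by simp⟩
  refine ⟨x, ?_⟩
  rcases sy20_cases hx with h | h
  · exfalso
    rw [sy20_eq_one_iff hp h2 hx] at h
    obtain ⟨y, hy⟩ := h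
    rw [← mkQ_eq_iff, map_pow] at hy
    exact ha ⟨mkQ p y, by rw [hy, pow_two]⟩
  · exact h

/-! ### the composite symbol -/

lemma prod_rel20 {x : Eis} {s t : Multiset Eis} (h : Multiset.Rel Associated s t) :
    (s.map (fun p => sy20 x p)).prod = (t.map (fun p => sy20 x p)).prod := by
  induction h with
  | zero => rfl
  | cons hab _ ih =>
    rw [Multiset.map_cons, Multiset.map_cons, Multiset.prod_cons, Multiset.prod_cons, ih,
      sy20_assoc hab]

lemma sy2_mul_right (x : Eis) {a b : Eis} (ha : a ≠ 0) (hb : b ≠ 0) :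
    sy2 x (a * b) = sy2 x a * sy2 x b := by
  unfold sy2
  rw [prod_rel20 (UniqueFactorizationMonoid.factors_mul ha hb), Multiset.map_add,
    Multiset.prod_add]

lemma sy2_assoc_right (x : Eis) {a b : Eis} (h : Associated a b) : sy2 x a = sy2 x b := by
  by_cases ha : a = 0
  · subst ha
    rw [(associated_zero_iff_eq_zero b).1 h.symm]
  unfold sy2
  have hb : b ≠ 0 := by
    rintro rfl
    exact ha ((associated_zero_iff_eq_zero a).1 h)
  refine prod_rel20 (UniqueFactorizationMonoid.factors_unique ?_ ?_ ?_)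
  · exact fun _ => UniqueFactorizationMonoid.irreducible_of_factor _
  · exact fun _ => UniqueFactorizationMonoid.irreducible_of_factor _
  · exact ((UniqueFactorizationMonoid.factors_prod ha).trans h).trans
      (UniqueFactorizationMonoid.factors_prod hb).symm

@[simp] lemma sy2_one_right (x : Eis) : sy2 x 1 = 1 := by
  unfold sy2
  rw [UniqueFactorizationMonoid.factors_one]
  simp

lemma sy2_unit_right (x : Eis) {u : Eis} (hu : IsUnit u) : sy2 x u = 1 := by
  rw [sy2_assoc_right x (associated_one_iff_isUnit.2 hu), sy2_one_right]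

lemma sy2_prime (x : Eis) {p : Eis} (hp : Prime p) : sy2 x p = sy20 x p := by
  have h : Multiset.Rel Associated (UniqueFactorizationMonoid.factors p) {p} := by
    refine UniqueFactorizationMonoid.factors_unique ?_ ?_ ?_
    · exact fun _ => UniqueFactorizationMonoid.irreducible_of_factor _
    · intro q hq
      rw [Multiset.mem_singleton.1 hq]; exact hp.irreducible
    · rw [Multiset.prod_singleton]
      exact UniqueFactorizationMonoid.factors_prod hp.ne_zero
  unfold sy2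
  rw [prod_rel20 h]
  simp

/-- Induction on odd elements. -/
lemma od_induction {P : Eis → Prop} (h1 : ∀ u, IsUnit u → P u)
    (h2 : ∀ p b, Prime p → Od p → Od b → P b → P (p * b)) {c : Eis} (hc : Od c) : P c := by
  revert hc
  refine UniqueFactorizationMonoid.induction_on_prime c (fun h => absurd rfl h.ne_zero)
    (fun u hu _ => h1 u hu) (fun b p hb hp ih h => ?_)
  exact h2 p b hp h.left h.right (ih h.right)

lemma sy2_mul_left {c : Eis} (hc : Od c) (x y : Eis) :
    sy2 (x * y) c = sy2 x c * sy2 y c := by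
  refine od_induction (P := fun c => sy2 (x * y) c = sy2 x c * sy2 y c) ?_ ?_ hc
  · intro u hu
    rw [sy2_unit_right _ hu, sy2_unit_right _ hu, sy2_unit_right _ hu, one_mul]
  · intro p b hp h2 hb h
    rw [sy2_mul_right _ hp.ne_zero hb.ne_zero, sy2_mul_right _ hp.ne_zero hb.ne_zero,
      sy2_mul_right _ hp.ne_zero hb.ne_zero, h, sy2_prime _ hp, sy2_prime _ hp, sy2_prime _ hp,
      sy20_mul hp h2]
    ring

lemma sy2_congr {c x y : Eis} (hc : Od c) (h : c ∣ x - y) : sy2 x c = sy2 y c := by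
  revert h
  refine od_induction (P := fun c => c ∣ x - y → sy2 x c = sy2 y c) ?_ ?_ hc
  · intro u hu _
    rw [sy2_unit_right _ hu, sy2_unit_right _ hu]
  · intro p b hp h2 hb h hd
    rw [sy2_mul_right _ hp.ne_zero hb.ne_zero, sy2_mul_right _ hp.ne_zero hb.ne_zero,
      h ((dvd_mul_left b p).trans hd), sy2_prime _ hp, sy2_prime _ hp,
      sy20_congr hp h2 ((dvd_mul_right p b).trans hd)]

@[simp] lemma sy2_one_left {c : Eis} (hc : Od c) : sy2 1 c = 1 := by
  refine od_induction (P := fun c => sy2 1 c = 1) ?_ ?_ hc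
  · intro u hu
    rw [sy2_unit_right _ hu]
  · intro p b hp h2 hb h
    rw [sy2_mul_right _ hp.ne_zero hb.ne_zero, h, sy2_prime _ hp, sy20_one hp h2, one_mul]

lemma sy2_pow_left {c : Eis} (hc : Od c) (x : Eis) (n : ℕ) : sy2 (x ^ n) c = sy2 x c ^ n := by
  induction n with
  | zero => simp [sy2_one_left hc]
  | succ n ih => rw [pow_succ, sy2_mul_left hc, ih, pow_succ]

lemma sy2_pow_right (x : Eis) {c : Eis} (hc : c ≠ 0) (n : ℕ) : sy2 x (c ^ n) = sy2 x c ^ n := by
  induction n with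
  | zero => simp
  | succ n ih => rw [pow_succ, sy2_mul_right x (pow_ne_zero n hc) hc, ih, pow_succ]

lemma isCoprime_of_not_dvd {p x : Eis} (hp : Prime p) (h : ¬ p ∣ x) : IsCoprime x p :=
  ((hp.irreducible.coprime_iff_not_dvd).2 h).symm

lemma not_dvd_of_isCoprime {p x : Eis} (hp : Prime p) (h : IsCoprime x p) : ¬ p ∣ x :=
  (hp.irreducible.coprime_iff_not_dvd).1 h.symm

lemma sy2_cases {c x : Eis} (hc : Od c) (hx : IsCoprime x c) : sy2 x c = 1 ∨ sy2 x c = -1 := by
  revert hx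
  refine od_induction (P := fun c => IsCoprime x c → (sy2 x c = 1 ∨ sy2 x c = -1)) ?_ ?_ hc
  · intro u hu _
    left; exact sy2_unit_right _ hu
  · intro p b hp h2 hb h hx
    rw [sy2_mul_right _ hp.ne_zero hb.ne_zero, sy2_prime _ hp]
    have h3 := not_dvd_of_isCoprime hp hx.of_mul_right_left
    rcases sy20_cases h3 with e1 | e1 <;> rcases h hx.of_mul_right_right with e2 | e2 <;>
      rw [e1, e2] <;> simp

lemma sy2_eq_zero {c x : Eis} (hc : Od c) (hx : ¬ IsCoprime x c) : sy2 x c = 0 := by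
  revert hx
  refine od_induction (P := fun c => ¬ IsCoprime x c → sy2 x c = 0) ?_ ?_ hc
  · intro u hu h
    exact absurd (isCoprime_of_isUnit hu x).symm h
  · intro p b hp h2 hb h hx
    rw [sy2_mul_right _ hp.ne_zero hb.ne_zero, sy2_prime _ hp]
    by_cases hpx : p ∣ x
    · rw [sy20_of_dvd hpx, zero_mul]
    · have h1 : IsCoprime x p := isCoprime_of_not_dvd hp hpx
      rw [h (fun h3 => hx (h1.mul_right h3)), mul_zero]

lemma sy2_ne_zero {c x : Eis} (hc : Od c) (hx : IsCoprime x c) : sy2 x c ≠ 0 := by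
  rcases sy2_cases hc hx with h | h <;> rw [h] <;> norm_num

lemma sy2_eq_zero_iff {c x : Eis} (hc : Od c) : sy2 x c = 0 ↔ ¬ IsCoprime x c :=
  ⟨fun h h' => sy2_ne_zero hc h' h, sy2_eq_zero hc⟩

lemma sy2_sq {c x : Eis} (hc : Od c) (hx : IsCoprime x c) : sy2 x c ^ 2 = 1 := by
  rcases sy2_cases hc hx with h | h <;> rw [h] <;> norm_num

lemma conj_sy2 {c : Eis} (hc : Od c) (x : Eis) : (starRingEnd ℂ) (sy2 x c) = sy2 x c := by
  by_cases hx : IsCoprime x c
  · rcases sy2_cases hc hx with h | h <;> rw [h] <;> simp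
  · rw [sy2_eq_zero hc hx, map_zero]

lemma norm_sy2 {c x : Eis} (hc : Od c) (hx : IsCoprime x c) : ‖sy2 x c‖ = 1 := by
  rcases sy2_cases hc hx with h | h <;> rw [h] <;> simp

lemma norm_sy2_le {c : Eis} (hc : Od c) (x : Eis) : ‖sy2 x c‖ ≤ 1 := by
  by_cases hx : IsCoprime x c
  · exact (norm_sy2 hc hx).le
  · rw [sy2_eq_zero hc hx]; simp

/-- `(x²/c)_2 = 1`. -/
lemma sy2_sq_left {c x : Eis} (hc : Od c) (hx : IsCoprime x c) : sy2 (x ^ 2) c = 1 := by
  rw [sy2_pow_left hc, sy2_sq hc hx]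

theorem isCh_sy2 {c : Eis} (hc : Od c) : IsCh c (fun x => sy2 x c) where
  one := sy2_one_left hc
  mul x y := sy2_mul_left hc x y
  per x t := sy2_congr hc (by simp)
  zero x hx := sy2_eq_zero hc hx

/-! ### the sextic symbol -/

lemma sy6_mul_left {c : Eis} (hc : IsPrim c) (h2 : Od c) (x y : Eis) :
    sy6 (x * y) c = sy6 x c * sy6 y c := by
  unfold sy6
  rw [sy2_mul_left h2, Char766.sy_mul_left hc, map_mul]; ring

lemma sy6_mul_right (x : Eis) {c d : Eis} (hc : c ≠ 0) (hd : d ≠ 0) :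
    sy6 x (c * d) = sy6 x c * sy6 x d := by
  unfold sy6
  rw [sy2_mul_right x hc hd, Sym645.sy_mul_right x hc hd, map_mul]; ring

lemma sy6_congr {c x y : Eis} (hc : IsPrim c) (h2 : Od c) (h : c ∣ x - y) :
    sy6 x c = sy6 y c := by
  unfold sy6
  rw [sy2_congr h2 h, Char766.sy_congr hc h]

theorem isCh_sy6 {c : Eis} (hc : IsPrim c) (h2 : Od c) : IsCh c (fun x => sy6 x c) :=
  (isCh_sy2 h2).mul_same (isCh_sy syG hc).conj

@[simp] lemma sy6_one_right (x : Eis) : sy6 x 1 = 1 := by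
  unfold sy6; rw [sy2_one_right, Sym645.sy_one_right]; simp

lemma sy6_one_left {c : Eis} (hc : IsPrim c) (h2 : Od c) : sy6 1 c = 1 := (isCh_sy6 hc h2).one

lemma sy6_pow_left {c : Eis} (hc : IsPrim c) (h2 : Od c) (x : Eis) (n : ℕ) :
    sy6 (x ^ n) c = sy6 x c ^ n := (isCh_sy6 hc h2).pow x n

lemma sy6_pow_right (x : Eis) {c : Eis} (hc : c ≠ 0) (n : ℕ) : sy6 x (c ^ n) = sy6 x c ^ n := by
  induction n with
  | zero => simp
  | succ n ih => rw [pow_succ, sy6_mul_right x (pow_ne_zero n hc) hc, ih, pow_succ]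

/-- `(x/c)_6^2 = (x/c)_3`. -/
lemma sy6_sq {c : Eis} (hc : IsPrim c) (h2 : Od c) (x : Eis) : sy6 x c ^ 2 = sy x c := by
  by_cases hx : IsCoprime x c
  · unfold sy6
    rw [mul_pow, sy2_sq h2 hx, one_mul, Char766.conj_sy hc, ← pow_mul]
    have := Char766.sy_cube hc hx
    calc sy x c ^ (2 * 2) = sy x c ^ 3 * sy x c := by ring
      _ = _ := by rw [this, one_mul]
  · unfold sy6
    rw [sy2_eq_zero h2 hx, Char766.sy_eq_zero hc hx]; simp

/-- `(x/c)_6^3 = (x/c)_2`. -/
lemma sy6_cube {c : Eis} (hc : IsPrim c) (h2 : Od c) (x : Eis) : sy6 x c ^ 3 = sy2 x c := by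
  by_cases hx : IsCoprime x c
  · unfold sy6
    rw [mul_pow, ← map_pow, Char766.sy_cube hc hx, map_one, mul_one]
    calc sy2 x c ^ 3 = sy2 x c ^ 2 * sy2 x c := by ring
      _ = _ := by rw [sy2_sq h2 hx, one_mul]
  · unfold sy6
    rw [sy2_eq_zero h2 hx]; simp

lemma sy6_pow_six {c x : Eis} (hc : IsPrim c) (h2 : Od c) (hx : IsCoprime x c) :
    sy6 x c ^ 6 = 1 := by
  calc sy6 x c ^ 6 = (sy6 x c ^ 3) ^ 2 := by ring
    _ = 1 := by rw [sy6_cube hc h2, sy2_sq h2 hx]

/-- `(x/c)_6^4 = conj (x/c)_3`. -/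
lemma sy6_pow_four {c : Eis} (hc : IsPrim c) (h2 : Od c) (x : Eis) :
    sy6 x c ^ 4 = (starRingEnd ℂ) (sy x c) := by
  calc sy6 x c ^ 4 = (sy6 x c ^ 2) ^ 2 := by ring
    _ = _ := by rw [sy6_sq hc h2, Char766.conj_sy hc]

/-- `(x^4/c)_6 = conj (x/c)_3` : the frequency `a^4` of the sextic series. -/
lemma sy6_pow_four_left {c : Eis} (hc : IsPrim c) (h2 : Od c) (x : Eis) :
    sy6 (x ^ 4) c = (starRingEnd ℂ) (sy x c) := by
  rw [sy6_pow_left hc h2, sy6_pow_four hc h2]

lemma norm_sy6 {c x : Eis} (hc : IsPrim c) (h2 : Od c) (hx : IsCoprime x c) :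
    ‖sy6 x c‖ = 1 := (isCh_sy6 hc h2).norm_eq_one hc.ne_zero hx

lemma norm_sy6_le {c : Eis} (hc : IsPrim c) (h2 : Od c) (x : Eis) : ‖sy6 x c‖ ≤ 1 :=
  (isCh_sy6 hc h2).norm_le_one hc.ne_zero x

lemma sy6_eq_zero {c x : Eis} (hc : IsPrim c) (h2 : Od c) (hx : ¬ IsCoprime x c) :
    sy6 x c = 0 := (isCh_sy6 hc h2).zero x hx

lemma sy6_ne_zero {c x : Eis} (hc : IsPrim c) (h2 : Od c) (hx : IsCoprime x c) :
    sy6 x c ≠ 0 := (isCh_sy6 hc h2).ne_zero hc.ne_zero hx

lemma sy6_eq_zero_iff {c x : Eis} (hc : IsPrim c) (h2 : Od c) :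
    sy6 x c = 0 ↔ ¬ IsCoprime x c :=
  ⟨fun h h' => sy6_ne_zero hc h2 h' h, sy6_eq_zero hc h2⟩

/-- The conjugate sextic symbol is `sy2 * sy`. -/
lemma conj_sy6 {c : Eis} (h2 : Od c) (x : Eis) :
    (starRingEnd ℂ) (sy6 x c) = sy2 x c * sy x c := by
  unfold sy6
  rw [map_mul, conj_sy2 h2, Complex.conj_conj]

/-- `sy2 = sy6 * sy`. -/
lemma sy2_eq {c : Eis} (hc : IsPrim c) (h2 : Od c) (x : Eis) : sy2 x c = sy6 x c * sy x c := by
  calc sy2 x c = sy6 x c ^ 3 := (sy6_cube hc h2 x).symm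
    _ = sy6 x c * sy6 x c ^ 2 := by ring
    _ = _ := by rw [sy6_sq hc h2]

/-! ### primitivity -/

/-- for an odd primary prime there is `x` with `(x/p)_6 ≠ 1` (even `(x/p)_2 = -1, (x/p)_3 = 1`). -/
lemma exists_sy2_neg {p : Eis} (hp : Prime p) (hpp : IsPrim p) (h2 : Od p) :
    ∃ x, IsCoprime x p ∧ sy2 x p = -1 ∧ sy x p = 1 := by
  obtain ⟨x, hx⟩ := exists_sy20_eq_neg_one hp h2
  have hxp : ¬ p ∣ x := by
    intro h; rw [sy20_of_dvd h] at hx; norm_num at hx
  have hc := isCoprime_of_not_dvd hp hxp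
  refine ⟨x ^ 3, hc.pow_left, ?_, ?_⟩
  · rw [sy2_pow_left h2, sy2_prime x hp, hx]; norm_num
  · exact Char766.sy_cube_left hpp hc

lemma Primitive.of_factor {χ : Eis → Eis → ℂ}
    (hch : ∀ c, IsPrim c → Od c → IsCh c (fun x => χ x c))
    (hmul : ∀ x c d, IsPrim c → IsPrim d → χ x (c * d) = χ x c * χ x d)
    (hpr : ∀ p, Prime p → IsPrim p → Od p → ∃ x, IsCoprime x p ∧ χ x p ≠ 1)
    {c : Eis} (hc : IsPrim c) (h2 : Od c) (hsf : Squarefree c) :
    Primitive c (fun x => χ x c) := by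
  intro r hr
  have hex : ∃ p, Prime p ∧ p ∣ r ∧ p ∣ c := by
    by_contra hcon
    push Not at hcon
    apply hr
    refine isCoprime_of_prime_dvd (fun h => hc.ne_zero h.2) (fun p hp hpr hpc => ?_)
    exact hcon p hp hpr hpc
  obtain ⟨q, hq, hqr, hqc⟩ := hex
  have hql : ¬ lam ∣ q := fun h => hc.not_lam_dvd (h.trans hqc)
  have ha := prim_associated q
  have hp : Prime (prim q) := ha.prime_iff.mp hq
  have hpp := prim_isPrim hql
  have hpr' : prim q ∣ r := ha.symm.dvd.trans hqr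
  obtain ⟨e, he⟩ := ha.symm.dvd.trans hqc
  have hpe : IsPrim e := by rw [he] at hc; exact hc.of_mul_left hpp
  have hop : Od (prim q) := by rw [he] at h2; exact h2.left
  have hoe : Od e := by rw [he] at h2; exact h2.right
  have hcop : IsCoprime (prim q) e := by
    rw [hp.irreducible.coprime_iff_not_dvd]
    intro hd
    have : prim q * prim q ∣ c := by rw [he]; exact mul_dvd_mul_left _ hd
    exact hp.not_isUnit (hsf _ this)
  have e1 : gsum (fun x => χ x c) r c
      = gsum (fun x => χ x (prim q) * χ x e) r (prim q * e) := by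
    rw [he]
    unfold gsum
    exact sumMod_congr fun x => by beta_reduce; rw [hmul x _ _ hpp hpe]
  rw [e1, gsum_crt hpp.ne_zero hpe.ne_zero hcop (hch _ hpp hop) (hch _ hpe hoe)]
  obtain ⟨x, hx, hx1⟩ := hpr _ hp hpp hop
  have : gsum (fun x => χ x (prim q)) r (prim q) = 0 :=
    primitive_of_prime hp (hch _ hpp hop) hx hx1 r (fun h => by
      have h2 : IsCoprime (prim q) (prim q) := (IsCoprime.of_isCoprime_of_dvd_left h hpr')
      rw [isCoprime_self] at h2
      exact hp.not_isUnit h2)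
  rw [this]; ring

theorem primitive_sy2 {c : Eis} (hc : IsPrim c) (h2 : Od c) (hsf : Squarefree c) :
    Primitive c (fun x => sy2 x c) := by
  refine Primitive.of_factor (χ := sy2) (fun c _ h => isCh_sy2 h)
    (fun x c d hc hd => sy2_mul_right x hc.ne_zero hd.ne_zero) (fun p hp hpp h2 => ?_) hc h2 hsf
  obtain ⟨x, hx, h, -⟩ := exists_sy2_neg hp hpp h2
  exact ⟨x, hx, by rw [h]; norm_num⟩

theorem primitive_sy6 {c : Eis} (hc : IsPrim c) (h2 : Od c) (hsf : Squarefree c) :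
    Primitive c (fun x => sy6 x c) := by
  refine Primitive.of_factor (χ := sy6) (fun c hc h => isCh_sy6 hc h)
    (fun x c d hc hd => sy6_mul_right x hc.ne_zero hd.ne_zero) (fun p hp hpp h2 => ?_) hc h2 hsf
  obtain ⟨x, hx, h, h'⟩ := exists_sy2_neg hp hpp h2
  refine ⟨x, hx, ?_⟩
  unfold sy6
  rw [h, h']
  simp
  norm_num

/-! ### the normalised Gauss sums -/

/-- The quadratic Gauss sum `Σ_{x mod c} (x/c)_2 e(r x / c)`. -/
def gs2 (r c : Eis) : ℂ := gsum (fun x => sy2 x c) r c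

/-- The sextic Gauss sum `Σ_{x mod c} (x/c)_6 e(r x / c)`. -/
def gs6 (r c : Eis) : ℂ := gsum (fun x => sy6 x c) r c

/-- `G2 c = gs2 1 c / √N(c)`. -/
def G2 (c : Eis) : ℂ := gs2 1 c / (Real.sqrt (nm c) : ℂ)

/-- `G6 c = gs6 1 c / √N(c)`. -/
def G6 (c : Eis) : ℂ := gs6 1 c / (Real.sqrt (nm c) : ℂ)

theorem gs2_crt {c d : Eis} (hc : Od c) (hd : Od d) (hcd : IsCoprime c d) (r : Eis) :
    gs2 r (c * d) = sy2 d c * sy2 c d * (gs2 r c * gs2 r d) := by
  have h := gsum_crt hc.ne_zero hd.ne_zero hcd (isCh_sy2 hc) (isCh_sy2 hd) r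
  unfold gs2
  rw [← h]
  unfold gsum
  exact sumMod_congr fun x => by beta_reduce; rw [sy2_mul_right x hc.ne_zero hd.ne_zero]

theorem gs6_crt {c d : Eis} (hc : IsPrim c) (h2 : Od c) (hd : IsPrim d) (hd2 : Od d)
    (hcd : IsCoprime c d) (r : Eis) :
    gs6 r (c * d) = sy6 d c * sy6 c d * (gs6 r c * gs6 r d) := by
  have h := gsum_crt hc.ne_zero hd.ne_zero hcd (isCh_sy6 hc h2) (isCh_sy6 hd hd2) r
  unfold gs6
  rw [← h]
  unfold gsum
  exact sumMod_congr fun x => by beta_reduce; rw [sy6_mul_right x hc.ne_zero hd.ne_zero]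

theorem gs2_mul_of_coprime {c : Eis} (hc : Od c) (r : Eis) {u : Eis} (hu : IsCoprime u c) :
    gs2 (r * u) c = sy2 u c * gs2 r c := by
  have := gsum_mul_of_coprime hc.ne_zero (isCh_sy2 hc) r hu
  rwa [conj_sy2 hc] at this

theorem gs6_mul_of_coprime {c : Eis} (hc : IsPrim c) (h2 : Od c) (r : Eis) {u : Eis}
    (hu : IsCoprime u c) : gs6 (r * u) c = (starRingEnd ℂ) (sy6 u c) * gs6 r c :=
  gsum_mul_of_coprime hc.ne_zero (isCh_sy6 hc h2) r hu

/-- on squarefree `c` for all `r`. -/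
theorem gs6_squarefree {c : Eis} (hc : IsPrim c) (h2 : Od c) (hsf : Squarefree c) (r : Eis) :
    gs6 r c = (starRingEnd ℂ) (sy6 r c) * gs6 1 c :=
  gsum_primitive hc.ne_zero (isCh_sy6 hc h2) (primitive_sy6 hc h2 hsf) r

theorem gs2_squarefree {c : Eis} (hc : IsPrim c) (h2 : Od c) (hsf : Squarefree c) (r : Eis) :
    gs2 r c = sy2 r c * gs2 1 c := by
  have := gsum_primitive hc.ne_zero (isCh_sy2 h2) (primitive_sy2 hc h2 hsf) r
  rwa [conj_sy2 h2] at this

lemma sqrt_nm_ne {c : Eis} (hc : c ≠ 0) : ((Real.sqrt (nm c) : ℝ) : ℂ) ≠ 0 :=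
  sqrt_nm_ne_zero hc

theorem G2_mul {a b : Eis} (ha : Od a) (hb : Od b) (hab : IsCoprime a b) :
    G2 (a * b) = sy2 b a * sy2 a b * (G2 a * G2 b) := by
  unfold G2
  rw [gs2_crt ha hb hab, nm_mul, Nat.cast_mul, Real.sqrt_mul (by positivity)]
  have h1 := sqrt_nm_ne ha.ne_zero
  have h2 := sqrt_nm_ne hb.ne_zero
  push_cast
  field_simp

theorem G6_mul {a b : Eis} (ha : IsPrim a) (ha2 : Od a) (hb : IsPrim b) (hb2 : Od b)
    (hab : IsCoprime a b) :
    G6 (a * b) = sy6 b a * sy6 a b * (G6 a * G6 b) := by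
  unfold G6
  rw [gs6_crt ha ha2 hb hb2 hab, nm_mul, Nat.cast_mul, Real.sqrt_mul (by positivity)]
  have h1 := sqrt_nm_ne ha.ne_zero
  have h2 := sqrt_nm_ne hb.ne_zero
  push_cast
  field_simp

theorem norm_G2 {c : Eis} (hc : IsPrim c) (h2 : Od c) (hsf : Squarefree c) : ‖G2 c‖ = 1 := by
  have h := norm_gsum_sq hc.not_lam_dvd (isCh_sy2 h2) (primitive_sy2 hc h2 hsf)
    (r := 1) isCoprime_one_left
  have h0 : (0 : ℝ) < nm c := by exact_mod_cast nm_pos.mpr hc.ne_zero
  have h3 : ‖gs2 1 c‖ = Real.sqrt (nm c) := by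
    unfold gs2
    rw [← h, Real.sqrt_sq (norm_nonneg _)]
  unfold G2
  rw [norm_div, h3, Complex.norm_real, Real.norm_eq_abs, abs_of_nonneg (Real.sqrt_nonneg _)]
  exact div_self (Real.sqrt_pos.mpr h0).ne'

theorem norm_G6 {c : Eis} (hc : IsPrim c) (h2 : Od c) (hsf : Squarefree c) : ‖G6 c‖ = 1 := by
  have h := norm_gsum_sq hc.not_lam_dvd (isCh_sy6 hc h2) (primitive_sy6 hc h2 hsf)
    (r := 1) isCoprime_one_left
  have h0 : (0 : ℝ) < nm c := by exact_mod_cast nm_pos.mpr hc.ne_zero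
  have h3 : ‖gs6 1 c‖ = Real.sqrt (nm c) := by
    unfold gs6
    rw [← h, Real.sqrt_sq (norm_nonneg _)]
  unfold G6
  rw [norm_div, h3, Complex.norm_real, Real.norm_eq_abs, abs_of_nonneg (Real.sqrt_nonneg _)]
  exact div_self (Real.sqrt_pos.mpr h0).ne'

theorem G6_mul_conj {c : Eis} (hc : IsPrim c) (h2 : Od c) (hsf : Squarefree c) :
    G6 c * (starRingEnd ℂ) (G6 c) = 1 := by
  rw [Complex.mul_conj, Complex.normSq_eq_norm_sq, norm_G6 hc h2 hsf]; simp

theorem G2_mul_conj {c : Eis} (hc : IsPrim c) (h2 : Od c) (hsf : Squarefree c) :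
    G2 c * (starRingEnd ℂ) (G2 c) = 1 := by
  rw [Complex.mul_conj, Complex.normSq_eq_norm_sq, norm_G2 hc h2 hsf]; simp

end Crest.Agent.R017.Sx440
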