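import Crest.Agent.R017.LSb_848
import Crest.Agent.R017.Sx1_440

/-!
# Row 17: quadratic Gauss sums over the Eisenstein integers as sums of squares; their sign

* `sqsum_eq_gs2` : `Σ_x e(r x²/c) = gs2 r c` for odd squarefree `c` prime to `3 r`
* `eps2 c` : `(√3/18) Σ_{l mod 6} e(c l²/12)`, periodic mod `12`
* `G2_eq_eps2` : `G2 c = eps2 c`.
-/

set_option autoImplicit false

noncomputable section

open Complex

namespace Crest.Agent.R017.LS848

open Crest.Agent.R012 Crest.Agent.R012.Eis Crest.Agent.R012.Gauss880 Crest.Agent.R017.Sx440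

/-! ### sums of squares -/

/-- `Σ_{x mod p} f(x²) = Σ_{y mod p} (1 + (y/p)) f(y)` -/
lemma sumMod_sq {p : Eis} (hp : Prime p) (h2 : Od p) {f : Eis → ℂ} (hf : PMod p f) :
    sumMod p (fun x => f (x ^ 2)) = sumMod p (fun y => (1 + sy2 y p) * f y) := by
  classical
  let _ : Field (QE p) := @Ideal.Quotient.field _ _ _ (isField_QE hp)
  have hfin : Finite (QE p) := finite_QE hp.ne_zero
  let _ : Fintype (QE p) := Fintype.ofFinite _
  have hchar : ringChar (QE p) ≠ 2 := by
    intro h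
    have h3 : ((2 : ℕ) : QE p) = 0 := by
      rw [← h]; exact ringChar.Nat.cast_ringChar
    have h4 : mkQ p 2 = mkQ p 0 := by
      rw [map_zero]
      have : mkQ p (2 : Eis) = ((2 : ℕ) : QE p) := by
        rw [← map_natCast (mkQ p)]; norm_num
      rw [this, h3]
    rw [mkQ_eq_iff, sub_zero] at h4
    exact h2 ((hp.dvd_prime_iff_associated prime_two).mp h4).symm.dvd
  -- the two functions on the residue field
  set F : QE p → ℂ := fun q => f (Quotient.out q) with hF
  have hFmk : ∀ x : Eis, F (mkQ p x) = f x := by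
    intro x
    rw [hF]
    apply hf.congr
    rw [← mkQ_eq_iff, mkQ_out]
  have hχ : ∀ x : Eis, ((quadraticChar (QE p) (mkQ p x) : ℤ) : ℂ) = sy2 x p := by
    intro x
    rw [sy2_prime _ hp]
    by_cases hx : p ∣ x
    · have : mkQ p x = 0 := by rw [← map_zero (mkQ p), mkQ_eq_iff, sub_zero]; exact hx
      rw [this, sy20_of_dvd hx, quadraticChar_zero]
      simp
    · have h0 : mkQ p x ≠ 0 := by
        intro h
        rw [← map_zero (mkQ p), mkQ_eq_iff, sub_zero] at h
        exact hx h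
      have hsq : IsSquare (mkQ p x) ↔ sy20 x p = 1 := by
        rw [sy20_eq_one_iff hp h2 hx]
        constructor
        · rintro ⟨y, hy⟩
          obtain ⟨z, rfl⟩ := mkQ_surjective p y
          refine ⟨z, ?_⟩
          rw [← mkQ_eq_iff, hy, map_pow, pow_two]
        · rintro ⟨y, hy⟩
          rw [← mkQ_eq_iff, map_pow] at hy
          exact ⟨mkQ p y, by rw [hy, pow_two]⟩
      by_cases hs : IsSquare (mkQ p x)
      · rw [(quadraticChar_one_iff_isSquare h0).mpr hs, hsq.mp hs]; simp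
      · rw [quadraticChar_neg_one_iff_not_isSquare.mpr hs]
        rcases sy20_cases hx with h | h
        · exact absurd (hsq.mpr h) hs
        · rw [h]; simp
  have e1 : sumMod p (fun x => f (x ^ 2)) = ∑ q : QE p, F (q ^ 2) := by
    unfold sumMod
    rw [finsum_eq_sum_of_fintype]
    refine Finset.sum_congr rfl fun q _ => ?_
    have : q ^ 2 = mkQ p ((Quotient.out q) ^ 2) := by rw [map_pow, mkQ_out]
    rw [this, hFmk]
  have e2 : sumMod p (fun y => (1 + sy2 y p) * f y) =
      ∑ q : QE p, (1 + ((quadraticChar (QE p) q : ℤ) : ℂ)) * F q := by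
    unfold sumMod
    rw [finsum_eq_sum_of_fintype]
    refine Finset.sum_congr rfl fun q _ => ?_
    beta_reduce
    rw [← hχ, mkQ_out]
  rw [e1, e2, ← Finset.sum_fiberwise (s := Finset.univ) (g := fun q : QE p => q ^ 2)]
  refine Finset.sum_congr rfl fun a _ => ?_
  rw [Finset.sum_congr rfl (g := fun _ => F a) (fun x hx => by
    rw [(Finset.mem_filter.mp hx).2]), Finset.sum_const, nsmul_eq_mul]
  congr 1
  have hcard := quadraticChar_card_sqrts hchar a
  have h3 : (Finset.filter (fun x : QE p => x ^ 2 = a) Finset.univ).card =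
      ({x : QE p | x ^ 2 = a}.toFinset).card := by
    congr 1
    ext x
    simp
  rw [h3]
  have h4 : ((({x : QE p | x ^ 2 = a}.toFinset).card : ℤ) : ℂ) =
      ((quadraticChar (QE p) a + 1 : ℤ) : ℂ) := by rw [hcard]
  push_cast at h4
  rw [h4]
  ring

/-- the quadratic exponential sum -/
def qs (r c : Eis) : ℂ := sumMod c (fun x => eC (toC r * toC x ^ 2 / toC c))

lemma pmod_qs {r c : Eis} : PMod c (fun x => eC (toC r * toC x ^ 2 / toC c)) := by
  intro x t
  have h1 := (pmod_eC r c).congr (x := (x + c * t) ^ 2) (y := x ^ 2)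
    ⟨t * (2 * x + c * t), by ring⟩
  simpa only [map_pow] using h1

lemma qs_prime {p : Eis} (hp : Prime p) (h2 : Od p) (hl : ¬ lam ∣ p) {r : Eis} (hr : ¬ p ∣ r) :
    qs r p = gs2 r p := by
  unfold qs
  have h1 := sumMod_sq hp h2 (pmod_eC r p)
  simp only [map_pow] at h1
  rw [h1]
  have h3 : ∀ y, (1 + sy2 y p) * eC (toC r * toC y / toC p) =
      eC (toC r * toC y / toC p) + sy2 y p * eC (toC r * toC y / toC p) := fun y => by ring
  rw [sumMod_congr h3, sumMod_add hp.ne_zero, sumMod_eC_of_not_lam_dvd hl, if_neg hr, zero_add]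
  rfl

lemma qs_crt {a b : Eis} (ha : a ≠ 0) (hb : b ≠ 0) (hab : IsCoprime a b) (r : Eis) :
    qs r (a * b) = qs (r * b) a * qs (r * a) b := by
  unfold qs
  refine sumMod_crt_mul ha hb _ hab pmod_qs (fun x y => ?_)
  have haC : toC a ≠ 0 := by rwa [Ne, toC_eq_zero]
  have hbC : toC b ≠ 0 := by rwa [Ne, toC_eq_zero]
  have e1 : toC r * toC (b * x + a * y) ^ 2 / toC (a * b) =
      toC (r * b) * toC x ^ 2 / toC a + toC (r * a) * toC y ^ 2 / toC b + toC (2 * r * x * y) := by
    simp only [map_add, map_mul, map_ofNat]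
    field_simp
    ring
  rw [e1, Poisson381.eC_add, Poisson381.eC_add, Poisson381.eC_toC, mul_one]

/-- **Quadratic Gauss sums are sums of squares.** -/
theorem qs_eq_gs2 {c : Eis} (h2 : Od c) (hl : ¬ lam ∣ c) (hsf : Squarefree c) {r : Eis}
    (hr : IsCoprime r c) : qs r c = gs2 r c := by
  revert hl hsf r
  refine od_induction (P := fun c => ¬ lam ∣ c → Squarefree c → ∀ {r : Eis}, IsCoprime r c →
    qs r c = gs2 r c) ?_ ?_ h2
  · intro u hu _ _ r _
    unfold qs gs2 gsum
    have h3 : ∀ x : Eis, eC (toC r * toC x ^ 2 / toC u) = 1 := by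
      intro x
      have h4 := (pmod_eC r u).congr (x := x ^ 2) (y := 0) (hu.dvd)
      simp only [map_pow, map_zero, mul_zero, zero_div, Poisson381.eC_zero] at h4
      exact h4
    have h5 : ∀ x : Eis, sy2 x u * eC (toC r * toC x / toC u) = 1 := by
      intro x
      have h4 := (pmod_eC r u).congr (x := x) (y := 0) (hu.dvd)
      simp only [map_zero, mul_zero, zero_div, Poisson381.eC_zero] at h4
      rw [h4, sy2_unit_right _ hu, one_mul]
    rw [sumMod_congr h3, sumMod_congr h5]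
  · intro p b hp hpo hbo ih hl hsf r hr
    have hcop : IsCoprime p b := by
      rw [hp.irreducible.coprime_iff_not_dvd]
      intro hd
      exact hp.not_isUnit (hsf p (mul_dvd_mul_left p hd))
    have hlp : ¬ lam ∣ p := fun h => hl (h.mul_right b)
    have hlb : ¬ lam ∣ b := fun h => hl (h.mul_left p)
    have hrp : IsCoprime r p := hr.of_mul_right_left
    have hrb : IsCoprime r b := hr.of_mul_right_right
    rw [qs_crt hp.ne_zero hbo.ne_zero hcop, gs2_crt hpo hbo hcop]
    rw [ih hlb (hsf.squarefree_of_dvd (dvd_mul_left b p)) (hrb.mul_left hcop)]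
    have h3 : IsCoprime (r * b) p := hrp.mul_left hcop.symm
    have h4 : ¬ p ∣ r * b := by
      intro hd
      exact hp.not_isUnit (h3.isUnit_of_dvd' hd dvd_rfl)
    rw [qs_prime hp hpo hlp h4, gs2_mul_of_coprime hpo r hcop.symm,
      gs2_mul_of_coprime hbo r hcop]
    ring

/-! ### the sign -/

/-- `eps2 c = (√3/18) Σ_{l mod 6} e(c l²/12)` -/
def eps2 (c : Eis) : ℂ := ((Real.sqrt 3 / 18 : ℝ) : ℂ) *
  sumMod 6 (fun l => eC (toC c * toC l ^ 2 / 12))

lemma pmod_six (c : Eis) : PMod 6 (fun l => eC (toC c * toC l ^ 2 / 12)) := by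
  intro x t
  have e1 : toC c * toC (x + 6 * t) ^ 2 / 12 = toC c * toC x ^ 2 / 12 +
      toC (c * x * t + 3 * c * t ^ 2) := by
    simp only [map_add, map_mul, map_ofNat, map_pow]
    ring
  beta_reduce
  rw [e1, Poisson381.eC_add, Poisson381.eC_toC, mul_one]

/-- `eps2` is periodic modulo `12`. -/
theorem pmod_eps2 : PMod 12 eps2 := by
  intro c t
  unfold eps2
  congr 1
  apply sumMod_congr
  intro l
  have e1 : toC (c + 12 * t) * toC l ^ 2 / 12 = toC c * toC l ^ 2 / 12 + toC (t * l ^ 2) := by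
    simp only [map_add, map_mul, map_ofNat, map_pow]
    ring
  rw [e1, Poisson381.eC_add, Poisson381.eC_toC, mul_one]

lemma nm_six : nm (6 : Eis) = 36 := by
  have h := nm_cast (6 : Eis)
  have h1 : (6 : Eis).re = 6 := rfl
  have h2 : (6 : Eis).im = 0 := rfl
  rw [h1, h2] at h
  norm_num at h
  exact_mod_cast h

lemma six_ne_zero' : (6 : Eis) ≠ 0 := by
  intro h
  have := nm_six
  rw [h, nm_zero] at this; omega

/-- **Landsberg–Schaar for `a = 1`.** -/
theorem qs_one {c : Eis} (hc : c ≠ 0) : qs 1 c = (Real.sqrt (nm c) : ℂ) * eps2 c := by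
  have hcC : toC c ≠ 0 := by rwa [Ne, toC_eq_zero]
  have hz : (toC c)⁻¹ ≠ 0 := inv_ne_zero hcC
  have h12 : ∀ l : Eis, eC ((12 * (toC c)⁻¹)⁻¹ * toC l ^ 2) = eC (toC c * toC l ^ 2 / 12) := by
    intro l
    congr 1
    field_simp
  have h1c : ∀ x : Eis, eC ((toC c)⁻¹ * toC x ^ 2) = eC (toC 1 * toC x ^ 2 / toC c) := by
    intro l
    congr 1
    rw [map_one]
    field_simp
  have hf1 : PMod c (fun m => eC ((toC c)⁻¹ * toC m ^ 2)) := by
    simp_rw [h1c]
    exact pmod_qs
  have hf2 : PMod 6 (fun m => eC ((12 * (toC c)⁻¹)⁻¹ * toC m ^ 2)) := by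
    simp_rw [h12]
    exact pmod_six c
  have h := landsberg_schaar hz hc six_ne_zero' hf1 hf2
  rw [sumMod_congr h12, sumMod_congr h1c, nm_six] at h
  have hn : ‖(toC c)⁻¹‖ = (Real.sqrt (nm c))⁻¹ := by rw [norm_inv, norm_toC]
  rw [hn] at h
  unfold eps2 qs
  have hnpos : (0 : ℝ) < nm c := by exact_mod_cast nm_pos.mpr hc
  have hsq : Real.sqrt (nm c) * Real.sqrt (nm c) = nm c := Real.mul_self_sqrt hnpos.le
  have hs0 : (Real.sqrt (nm c) : ℂ) ≠ 0 := by
    exact_mod_cast (Real.sqrt_pos.mpr hnpos).ne'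
  have hn0 : (nm c : ℂ) ≠ 0 := by exact_mod_cast hnpos.ne'
  have hsqC : (Real.sqrt (nm c) : ℂ) * (Real.sqrt (nm c) : ℂ) = nm c := by
    rw [← Complex.ofReal_mul, hsq]; simp
  rw [div_eq_iff hn0] at h
  rw [h]
  generalize sumMod 6 (fun l => eC (toC c * toC l ^ 2 / 12)) = X
  rw [← hsqC]
  push_cast
  field_simp
  ring

/-- **The sign of the quadratic Gauss sum over `ℤ[ω]`.** -/
theorem G2_eq_eps2 {c : Eis} (h2 : Od c) (hl : ¬ lam ∣ c) (hsf : Squarefree c) :
    G2 c = eps2 c := by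
  unfold G2
  rw [← qs_eq_gs2 h2 hl hsf isCoprime_one_left, qs_one h2.ne_zero]
  have h0 := sqrt_nm_ne h2.ne_zero
  field_simp

end Crest.Agent.R017.LS848
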