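import Crest.Agent.R017.Sx1_440
import Crest.Agent.R012.Mob_705
import Crest.Agent.R012.PC_355
import Mathlib.NumberTheory.JacobiSum.Basic
import Mathlib.NumberTheory.LegendreSymbol.QuadraticChar.Basic

/-!
# Row 17, sextic route: the Hasse–Davenport relation for `n = 2` over `Eis`

For squarefree primary odd `c`

* `G6_eq : G6 c = conj (sy 2 c) * G2 c * G c ^ 2`
* `G_cube : G c ^ 3 = muE c * ang 1 c`
* `mu_G_eq : muE c * G c = ang 1 c * conj (sy 2 c) * G2 c * conj (G6 c)`
-/

set_option autoImplicit false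
set_option linter.unusedSimpArgs false
set_option linter.unusedVariables false
set_option linter.unusedSectionVars false

noncomputable section

namespace Crest.Agent.R017.Sx440

open Crest.Agent.R012 Crest.Agent.R012.Eis Crest.Agent.R012.Gauss880

/-! ### finite fields -/

section field

variable {F : Type} [Field F] [Fintype F]

open Classical in
/-- The quadratic character of `F` with values in `ℂ`. -/
def rho (F : Type) [Field F] [Fintype F] : MulChar F ℂ :=
  (quadraticChar F).ringHomComp (Int.castRingHom ℂ)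

open Classical in
lemma rho_apply (x : F) : rho F x = ((quadraticChar F x : ℤ) : ℂ) := rfl

lemma rho_sq (hF : ringChar F ≠ 2) : rho F ^ 2 = 1 := by
  classical
  refine MulChar.ext fun a => ?_
  rw [MulChar.pow_apply' _ (by norm_num), MulChar.one_apply a.isUnit, rho_apply]
  have := quadraticChar_sq_one (F := F) (a := (a : F)) a.ne_zero
  exact_mod_cast this

/-- `Σ_y f(y²) = Σ_u (1 + ρ(u)) f(u)`. -/
lemma sum_sq (hF : ringChar F ≠ 2) (f : F → ℂ) :
    ∑ y : F, f (y ^ 2) = ∑ u : F, (rho F u + 1) * f u := by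
  classical
  rw [← Finset.sum_fiberwise (s := Finset.univ) (g := fun y : F => y ^ 2) (f := fun y => f (y ^ 2))]
  refine Finset.sum_congr rfl fun u _ => ?_
  rw [Finset.sum_congr rfl (g := fun _ => f u) (fun y hy => by
    rw [(Finset.mem_filter.mp hy).2]), Finset.sum_const, nsmul_eq_mul]
  congr 1
  have h := quadraticChar_card_sqrts hF u
  rw [rho_apply]
  have h2 : (Finset.univ.filter (fun y : F => y ^ 2 = u)) = {x : F | x ^ 2 = u}.toFinset := by
    ext y; simp
  rw [h2]
  have h3 := congrArg (fun z : ℤ => (z : ℂ)) h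
  push_cast at h3
  exact_mod_cast h3

lemma two_ne_zero_of_char (hF : ringChar F ≠ 2) : (2 : F) ≠ 0 := Ring.two_ne_zero hF

/-- `χ(4) J(χ,χ) = J(χ,ρ)`. -/
theorem jacobi_rel (hF : ringChar F ≠ 2) (χ : MulChar F ℂ) (hχ : χ ≠ 1) :
    χ 4 * jacobiSum χ χ = jacobiSum χ (rho F) := by
  classical
  have h2 := two_ne_zero_of_char hF
  have hb : Function.Bijective (fun x : F => 1 - 2 * x) := by
    constructor
    · intro x y h
      have : 2 * x = 2 * y := by
        have h' : 1 - 2 * x = 1 - 2 * y := h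
        linear_combination -h'
      exact mul_left_cancel₀ h2 this
    · intro y
      refine ⟨(1 - y) / 2, ?_⟩
      beta_reduce
      field_simp
      ring
  have e1 : χ 4 * jacobiSum χ χ = ∑ x : F, χ (1 - (1 - 2 * x) ^ 2) := by
    unfold jacobiSum
    rw [Finset.mul_sum]
    refine Finset.sum_congr rfl fun x _ => ?_
    rw [← map_mul, ← map_mul]
    congr 1
    ring
  rw [e1, hb.sum_comp (fun y : F => χ (1 - y ^ 2)), sum_sq hF (fun u => χ (1 - u))]
  have e2 : ∀ u : F, (rho F u + 1) * χ (1 - u) = rho F u * χ (1 - u) + χ (1 - u) := fun u => by ring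
  rw [Finset.sum_congr rfl (fun u _ => e2 u), Finset.sum_add_distrib]
  have e3 : ∑ u : F, χ (1 - u) = 0 := by
    have hb2 : Function.Bijective (fun x : F => 1 - x) := by
      constructor
      · intro x y h
        have h' : 1 - x = 1 - y := h
        linear_combination -h'
      · intro y
        exact ⟨1 - y, by simp⟩
    rw [hb2.sum_comp (fun y : F => χ y)]
    exact MulChar.sum_eq_zero_of_ne_one hχ
  rw [e3, add_zero, jacobiSum_comm]
  rfl

/-- **Hasse–Davenport for `n = 2`.** -/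
theorem hd_field (hF : ringChar F ≠ 2) (χ : MulChar F ℂ) (hχ : χ * χ ≠ 1) (ψ : AddChar F ℂ)
    (h1 : gaussSum χ ψ ≠ 0) (h2 : gaussSum (rho F) ψ ≠ 0) :
    χ 4 * (gaussSum χ ψ * gaussSum (χ * rho F) ψ) =
      gaussSum (rho F) ψ * gaussSum (χ * χ) ψ := by
  have hχ1 : χ ≠ 1 := by
    rintro rfl; exact hχ (one_mul 1)
  have hχρ : χ * rho F ≠ 1 := by
    intro h
    apply hχ
    have hr := rho_sq hF
    have : χ = rho F := by
      calc χ = χ * rho F * rho F := by rw [mul_assoc, ← pow_two, hr, mul_one]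
        _ = rho F := by rw [h, one_mul]
    rw [this, ← pow_two, hr]
  have e1 := jacobiSum_mul_nontrivial hχ ψ
  have e2 := jacobiSum_mul_nontrivial hχρ ψ
  have e3 := jacobi_rel hF χ hχ1
  have hJ : jacobiSum χ (rho F) ≠ 0 := by
    intro h
    rw [h, mul_zero] at e2
    exact mul_ne_zero h1 h2 e2.symm
  apply mul_right_cancel₀ hJ
  calc χ 4 * (gaussSum χ ψ * gaussSum (χ * rho F) ψ) * jacobiSum χ (rho F)
      = χ 4 * gaussSum χ ψ * (gaussSum (χ * rho F) ψ * jacobiSum χ (rho F)) := by ring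
    _ = χ 4 * (gaussSum χ ψ * gaussSum χ ψ) * gaussSum (rho F) ψ := by rw [e2]; ring
    _ = (χ 4 * jacobiSum χ χ) * (gaussSum (χ * χ) ψ * gaussSum (rho F) ψ) := by rw [← e1]; ring
    _ = _ := by rw [e3]; ring

end field

/-! ### the bridge -/

section bridge

variable {p : Eis}

lemma out_congr {f : Eis → ℂ} (hf : PMod p f) (x : Eis) :
    f (Quotient.out (Sym645.rq p x)) = f x := by
  apply hf.congr
  rw [← Sym645.rq_eq]
  exact Quotient.out_eq _

/-- The multiplicative character of the residue field. -/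
def mc [hp : Fact (Prime p)] {χ : Eis → ℂ} (h : IsCh p χ) : MulChar (Sym645.Rq p) ℂ where
  toFun q := χ (Quotient.out q)
  map_one' := by
    have := out_congr h.per (1 : Eis)
    rw [h.one] at this
    exact this
  map_mul' a b := by
    obtain ⟨x, rfl⟩ := Ideal.Quotient.mk_surjective a
    obtain ⟨y, rfl⟩ := Ideal.Quotient.mk_surjective b
    have h1 := out_congr h.per x
    have h2 := out_congr h.per y
    have h3 := out_congr h.per (x * y)
    rw [h.mul, ← h1, ← h2] at h3
    exact h3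
  map_nonunit' a ha := by
    obtain ⟨x, rfl⟩ := Ideal.Quotient.mk_surjective a
    have h1 := out_congr h.per x
    refine h1.trans (h.zero x ?_)
    intro hc
    apply ha
    rw [isUnit_iff_ne_zero, Ne, Sym645.rq_eq_zero]
    exact not_dvd_of_isCoprime hp.out hc

lemma mc_apply [hp : Fact (Prime p)] {χ : Eis → ℂ} (h : IsCh p χ) (x : Eis) :
    mc h (Sym645.rq p x) = χ x := out_congr h.per x

lemma mc_mul [hp : Fact (Prime p)] {χ ψ : Eis → ℂ} (h : IsCh p χ) (h' : IsCh p ψ) :
    mc h * mc h' = mc (h.mul_same h') := by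
  refine MulChar.ext fun a => ?_
  rw [MulChar.mul_apply]
  rfl

/-- The additive character. -/
def ac (p : Eis) [hp : Fact (Prime p)] : AddChar (Sym645.Rq p) ℂ where
  toFun q := eC (toC 1 * toC (Quotient.out q) / toC p)
  map_zero_eq_one' := by
    have := out_congr (pmod_eC 1 p) (0 : Eis)
    beta_reduce at this
    rw [map_zero, mul_zero, zero_div, eC_zero] at this
    exact this
  map_add_eq_mul' a b := by
    obtain ⟨x, rfl⟩ := Ideal.Quotient.mk_surjective a
    obtain ⟨y, rfl⟩ := Ideal.Quotient.mk_surjective b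
    have h1 := out_congr (pmod_eC 1 p) x
    have h2 := out_congr (pmod_eC 1 p) y
    have h3 := out_congr (pmod_eC 1 p) (x + y)
    beta_reduce at h1 h2 h3
    have h4 : toC 1 * toC (x + y) / toC p = toC 1 * toC x / toC p + toC 1 * toC y / toC p := by
      rw [map_add]; ring
    rw [h4, eC_add, ← h1, ← h2] at h3
    exact h3

lemma gaussSum_eq [hp : Fact (Prime p)] {χ : Eis → ℂ} (h : IsCh p χ) :
    gaussSum (mc h) (ac p) = gsum χ 1 p := by
  unfold gaussSum gsum sumMod
  rw [finsum_eq_sum_of_fintype]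
  rfl

lemma ringChar_ne_two [hp : Fact (Prime p)] (h2 : Od p) : ringChar (Sym645.Rq p) ≠ 2 := by
  intro h
  have h3 : ((2 : ℕ) : Sym645.Rq p) = 0 := by
    rw [← h]; exact ringChar.Nat.cast_ringChar
  have h4 : Sym645.rq p (2 : Eis) = 0 := by
    have : Sym645.rq p (2 : Eis) = ((2 : ℕ) : Sym645.Rq p) := by
      have := map_natCast (Ideal.Quotient.mk (Ideal.span ({p} : Set Eis))) 2
      rw [← this]; norm_num
    rw [this, h3]
  rw [Sym645.rq_eq_zero] at h4
  exact h2 ((hp.out.dvd_prime_iff_associated prime_two).mp h4).symm.dvd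

lemma mc_sy2 [hp : Fact (Prime p)] (h2 : Od p) : mc (isCh_sy2 h2) = rho (Sym645.Rq p) := by
  classical
  refine MulChar.ext fun a => ?_
  obtain ⟨x, hx⟩ := Ideal.Quotient.mk_surjective (a : Sym645.Rq p)
  have ha : (a : Sym645.Rq p) = Sym645.rq p x := hx.symm
  rw [ha, mc_apply, rho_apply, sy2_prime x hp.out]
  have hne : Sym645.rq p x ≠ 0 := by rw [← ha]; exact a.ne_zero
  have hxp : ¬ p ∣ x := by rw [← Sym645.rq_eq_zero]; exact hne
  have hiff : sy20 x p = 1 ↔ quadraticChar (Sym645.Rq p) (Sym645.rq p x) = 1 := by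
    rw [sy20_eq_one_iff hp.out h2 hxp, quadraticChar_one_iff_isSquare hne]
    constructor
    · rintro ⟨y, hy⟩
      refine ⟨Sym645.rq p y, ?_⟩
      rw [← map_mul, ← pow_two]
      exact Sym645.rq_eq.mpr hy
    · rintro ⟨y, hy⟩
      obtain ⟨z, rfl⟩ := Ideal.Quotient.mk_surjective y
      refine ⟨z, ?_⟩
      rw [← Sym645.rq_eq, hy, pow_two]
      exact (map_mul _ _ _).symm
  rcases quadraticChar_dichotomy hne with h | h
  · rw [h, hiff.mpr h]; simp
  · rw [h]
    rcases sy20_cases hxp with h' | h'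
    · rw [hiff.mp h'] at h; norm_num at h
    · rw [h']; simp

end bridge

/-! ### prime level -/

lemma sy_conj_four {c : Eis} (hc : IsPrim c) :
    (starRingEnd ℂ) (sy 4 c) = sy 2 c := by
  have h4 : (4 : Eis) = 2 * 2 := by norm_num
  rw [h4, Char766.sy_mul_left hc, map_mul, Char766.conj_sy hc]
  by_cases h : IsCoprime 2 c
  · have := Char766.sy_cube hc h
    calc sy 2 c ^ 2 * sy 2 c ^ 2 = sy 2 c ^ 3 * sy 2 c := by ring
      _ = _ := by rw [this, one_mul]
  · rw [Char766.sy_eq_zero hc h]; simp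

/-- `Σ conj(x/c) e(x/c) = conj Σ (x/c) e(x/c)`. -/
lemma gsum_conj_sy {c : Eis} (hc : IsPrim c) :
    gsum (fun x => (starRingEnd ℂ) (sy x c)) 1 c = (starRingEnd ℂ) (gs 1 c) := by
  have h := conj_gsum (χ := fun x => sy x c) hc.ne_zero (-1)
  rw [neg_neg] at h
  rw [← h, ← gs_eq_gsum, gs_neg syG hc]

/-- Hasse–Davenport at a prime. -/
theorem hd_prime {p : Eis} (hp : Prime p) (hpp : IsPrim p) (h2 : Od p) :
    sy 2 p * ((starRingEnd ℂ) (gs 1 p) * gs6 1 p) = gs2 1 p * gs 1 p := by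
  have : Fact (Prime p) := ⟨hp⟩
  have hsy := isCh_sy syG hpp
  have hcs := hsy.conj
  have h2s := isCh_sy2 h2
  have hF := ringChar_ne_two (p := p) h2
  -- `χ = conj sy`, `χ² = sy`
  have hsq : mc hcs * mc hcs = mc hsy := by
    refine MulChar.ext fun a => ?_
    obtain ⟨x, hx⟩ := Ideal.Quotient.mk_surjective (a : Sym645.Rq p)
    have ha : (a : Sym645.Rq p) = Sym645.rq p x := hx.symm
    have hne : Sym645.rq p x ≠ 0 := by rw [← ha]; exact a.ne_zero
    have hxp : ¬ p ∣ x := by rw [← Sym645.rq_eq_zero]; exact hne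
    have hc := isCoprime_of_not_dvd hp hxp
    rw [MulChar.mul_apply, ha, mc_apply, mc_apply, Char766.conj_sy hpp]
    calc sy x p ^ 2 * sy x p ^ 2 = sy x p ^ 3 * sy x p := by ring
      _ = _ := by rw [Char766.sy_cube hpp hc, one_mul]
  have hne1 : mc hsy ≠ 1 := by
    intro h
    obtain ⟨x, hx, hx1⟩ := syG.nontriv p hpp hp
    have h3 := congrArg (fun χ : MulChar (Sym645.Rq p) ℂ => χ (Sym645.rq p x)) h
    beta_reduce at h3
    rw [mc_apply, MulChar.one_apply] at h3
    · exact hx1 h3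
    · rw [isUnit_iff_ne_zero, Ne, Sym645.rq_eq_zero]
      exact not_dvd_of_isCoprime hp hx
  have hsf : Squarefree p := hp.squarefree
  have hg1 : gaussSum (mc hcs) (ac p) ≠ 0 := by
    rw [gaussSum_eq, gsum_conj_sy hpp]
    intro h
    have h3 := norm_gs syG hpp hsf (r := 1) isCoprime_one_left
    have h4 : gs 1 p = 0 := by
      have := congrArg (starRingEnd ℂ) h
      rwa [Complex.conj_conj, map_zero] at this
    rw [h4, norm_zero] at h3
    have h0 : (0 : ℝ) < nm p := by exact_mod_cast nm_pos.mpr hp.ne_zero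
    exact (Real.sqrt_pos.mpr h0).ne h3
  have hg2 : gaussSum (rho (Sym645.Rq p)) (ac p) ≠ 0 := by
    rw [← mc_sy2 h2, gaussSum_eq]
    intro h
    have h3 := norm_G2 hpp h2 hsf
    unfold G2 gs2 at h3
    rw [h] at h3
    simp at h3
  have key := hd_field hF (mc hcs) (by rw [hsq]; exact hne1) (ac p) hg1 hg2
  rw [← mc_sy2 h2, mc_mul, hsq, gaussSum_eq, gaussSum_eq, gaussSum_eq, gaussSum_eq,
    gsum_conj_sy hpp] at key
  have e4 : mc hcs (4 : Sym645.Rq p) = sy 2 p := by
    have : (4 : Sym645.Rq p) = Sym645.rq p 4 := by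
      have := map_natCast (Ideal.Quotient.mk (Ideal.span ({p} : Set Eis))) 4
      push_cast at this
      exact this.symm
    rw [this, mc_apply]
    exact sy_conj_four hpp
  rw [e4] at key
  have e5 : gsum (fun x => (starRingEnd ℂ) (sy x p) * sy2 x p) 1 p = gs6 1 p := by
    unfold gs6 gsum sy6
    exact sumMod_congr fun x => by ring
  rw [e5, ← gs_eq_gsum] at key
  exact key

lemma sqrt_mul_self_C {c : Eis} (hc : c ≠ 0) :
    ((Real.sqrt (nm c) : ℝ) : ℂ) * ((Real.sqrt (nm c) : ℝ) : ℂ) = (nm c : ℂ) := by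
  rw [← Complex.ofReal_mul, Real.mul_self_sqrt (by positivity)]; simp

theorem G6_prime {p : Eis} (hp : Prime p) (hpp : IsPrim p) (h2 : Od p) :
    G6 p = (starRingEnd ℂ) (sy 2 p) * G2 p * G p ^ 2 := by
  have h := hd_prime hp hpp h2
  have hsf : Squarefree p := hp.squarefree
  have hs := sqrt_nm_ne hp.ne_zero
  have h1 : gs 1 p = ((Real.sqrt (nm p) : ℝ) : ℂ) * G p := gs_one_eq hpp
  have h3 : gs6 1 p = ((Real.sqrt (nm p) : ℝ) : ℂ) * G6 p := by unfold G6; field_simp
  have h4 : gs2 1 p = ((Real.sqrt (nm p) : ℝ) : ℂ) * G2 p := by unfold G2; field_simp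
  rw [h1, h3, h4, map_mul, Complex.conj_ofReal] at h
  set s : ℂ := ((Real.sqrt (nm p) : ℝ) : ℂ) with hsdef
  have h5 : sy 2 p * ((starRingEnd ℂ) (G p) * G6 p) = G2 p * G p := by
    have h6 : s * s ≠ 0 := mul_ne_zero hs hs
    apply mul_left_cancel₀ h6
    linear_combination h
  have hG := G_mul_conj syG hpp hsf
  have hsy : sy 2 p * (starRingEnd ℂ) (sy 2 p) = 1 := by
    refine sy_conj_mul_self syG hpp ?_
    exact isCoprime_of_not_dvd hp (fun hd =>
      h2 ((hp.dvd_prime_iff_associated prime_two).mp hd).symm.dvd)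
  linear_combination (starRingEnd ℂ (sy 2 p)) * G p * h5 - (G6 p * G p * starRingEnd ℂ (G p)) * hsy
    - G6 p * hG

lemma gsum_one {χ : Eis → ℂ} (h : IsCh 1 χ) (r : Eis) : gsum χ r 1 = 1 := by
  have hS : IsCRS 1 ({0} : Finset Eis) := fun x =>
    ⟨0, ⟨Finset.mem_singleton_self 0, one_dvd _⟩, fun y hy => Finset.mem_singleton.mp hy.1⟩
  unfold gsum
  rw [sumMod_eq_sum hS (per_gsum h r), Finset.sum_singleton]
  have h0 : χ 0 = 1 := by
    have := h.per 0 1
    rw [zero_add, one_mul, h.one] at this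
    exact this.symm
  rw [h0]; simp

lemma nm_one' : nm (1 : Eis) = 1 := isUnit_iff.mp isUnit_one

lemma G6_one : G6 1 = 1 := by
  unfold G6 gs6
  rw [gsum_one (isCh_sy6 isPrim_one od_one), nm_one']; simp

lemma G2_one : G2 1 = 1 := by
  unfold G2 gs2
  rw [gsum_one (isCh_sy2 od_one), nm_one']; simp

lemma G_one : G 1 = 1 := by
  unfold G
  rw [gs_eq_gsum, gsum_one (isCh_sy syG isPrim_one), nm_one']; simp

/-- **Hasse–Davenport**, composite form. -/
theorem G6_eq {c : Eis} (hc : IsPrim c) (h2 : Od c) (hsf : Squarefree c) :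
    G6 c = (starRingEnd ℂ) (sy 2 c) * G2 c * G c ^ 2 := by
  revert h2 hsf
  refine Sym645.prim_induction (P := fun c => Od c → Squarefree c →
    G6 c = (starRingEnd ℂ) (sy 2 c) * G2 c * G c ^ 2) ?_ ?_ hc
  · intro _ _
    rw [G6_one, G2_one, G_one, Sym645.sy_one_right]; simp
  · intro p b hp hpp hb ih h2 hsf
    have hp2 := h2.left
    have hb2 := h2.right
    have hbsf : Squarefree b := hsf.squarefree_of_dvd (dvd_mul_left b p)
    have hcop : IsCoprime p b := by
      rw [hp.irreducible.coprime_iff_not_dvd]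
      intro hd
      exact hp.not_isUnit (hsf p (mul_dvd_mul_left _ hd))
    rw [G6_mul hpp hp2 hb hb2 hcop, G6_prime hp hpp hp2, ih hb2 hbsf, G2_mul hp2 hb2 hcop,
      G_mul syG hpp hb hcop, Char766.sy_mul_right hpp hb, map_mul]
    unfold sy6
    rw [Sym645.sy_reciprocity hb hpp]
    have e : (starRingEnd ℂ (sy p b)) ^ 2 = starRingEnd ℂ (sy p b) * starRingEnd ℂ (sy p b) :=
      pow_two _
    ring

/-! ### the cube of the cubic Gauss sum -/

/-- `G p ^ 3 = - ang 1 p` at a primary prime. -/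
theorem G_cube_prime {p : Eis} (hp : Prime p) (hpp : IsPrim p) : G p ^ 3 = - ang 1 p := by
  have : Fact (Prime p) := ⟨hp⟩
  have hp3 := hpp.nm_mod
  have hsy := isCh_sy syG hpp
  have hsf : Squarefree p := hp.squarefree
  have hms : mc hsy = (Sym645.chiP p hp3).ringHomComp toC := by
    refine MulChar.ext fun a => ?_
    obtain ⟨x, hx⟩ := Ideal.Quotient.mk_surjective (a : Sym645.Rq p)
    have ha : (a : Sym645.Rq p) = Sym645.rq p x := hx.symm
    rw [ha, mc_apply, MulChar.ringHomComp_apply, Sym645.chiP_rq, Sym645.sy_prime_cu x hp]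
  have hJ : jacobiSum (mc hsy) (mc hsy) = -toC p := by
    rw [hms, jacobiSum_ringHomComp]
    have := Sym645.Jac_eq (p := p) hp3 hpp
    unfold Sym645.Jac at this
    rw [this, map_neg]
  have hne1 : mc hsy ≠ 1 := by
    intro h
    obtain ⟨x, hx, hx1⟩ := syG.nontriv p hpp hp
    have h3 := congrArg (fun χ : MulChar (Sym645.Rq p) ℂ => χ (Sym645.rq p x)) h
    beta_reduce at h3
    rw [mc_apply, MulChar.one_apply] at h3
    · exact hx1 h3
    · rw [isUnit_iff_ne_zero, Ne, Sym645.rq_eq_zero]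
      exact not_dvd_of_isCoprime hp hx
  have hcs := hsy.conj
  have hsq : mc hsy * mc hsy = mc hcs := by
    refine MulChar.ext fun a => ?_
    obtain ⟨x, hx⟩ := Ideal.Quotient.mk_surjective (a : Sym645.Rq p)
    have ha : (a : Sym645.Rq p) = Sym645.rq p x := hx.symm
    rw [MulChar.mul_apply, ha, mc_apply, mc_apply, Char766.conj_sy hpp, pow_two]
  have hsq1 : mc hsy * mc hsy ≠ 1 := by
    intro h
    apply hne1
    have h3 : mc hsy * (mc hsy * mc hsy) = 1 := by
      refine MulChar.ext fun a => ?_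
      obtain ⟨x, hx⟩ := Ideal.Quotient.mk_surjective (a : Sym645.Rq p)
      have ha : (a : Sym645.Rq p) = Sym645.rq p x := hx.symm
      have hne : Sym645.rq p x ≠ 0 := by rw [← ha]; exact a.ne_zero
      have hxp : ¬ p ∣ x := by rw [← Sym645.rq_eq_zero]; exact hne
      rw [MulChar.mul_apply, MulChar.mul_apply, MulChar.one_apply a.isUnit, ha, mc_apply]
      rw [← Char766.sy_cube hpp (isCoprime_of_not_dvd hp hxp)]; ring
    rw [h, mul_one] at h3
    exact h3
  have e1 := jacobiSum_mul_nontrivial hsq1 (ac p)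
  rw [hJ, hsq, gaussSum_eq, gaussSum_eq, gsum_conj_sy hpp, ← gs_eq_gsum] at e1
  have h1 : gs 1 p = ((Real.sqrt (nm p) : ℝ) : ℂ) * G p := gs_one_eq hpp
  rw [h1, map_mul, Complex.conj_ofReal] at e1
  have hs := sqrt_nm_ne hp.ne_zero
  have hang : ang 1 p = toC p / ((Real.sqrt (nm p) : ℝ) : ℂ) := by
    unfold ang; rw [zpow_one, norm_toC]
  have htoC : toC p = ((Real.sqrt (nm p) : ℝ) : ℂ) * ang 1 p := by
    rw [hang]; field_simp
  rw [htoC] at e1
  set s : ℂ := ((Real.sqrt (nm p) : ℝ) : ℂ) with hsdef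
  have e2 : (starRingEnd ℂ) (G p) * (- ang 1 p) = G p * G p := by
    apply mul_left_cancel₀ (mul_ne_zero hs hs)
    linear_combination e1
  have hG := G_mul_conj syG hpp hsf
  linear_combination (-G p) * e2 - (ang 1 p) * hG

/-- `G c ^ 3 = μ(c) c/|c|` for squarefree primary `c`. -/
theorem G_cube {c : Eis} (hc : IsPrim c) (hsf : Squarefree c) :
    G c ^ 3 = (muE c : ℂ) * ang 1 c := by
  revert hsf
  refine Sym645.prim_induction (P := fun c => Squarefree c →
    G c ^ 3 = (muE c : ℂ) * ang 1 c) ?_ ?_ hc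
  · intro _
    rw [G_one, Mob705.muE_one, P355.ang_one]; simp
  · intro p b hp hpp hb ih hsf
    have hbsf : Squarefree b := hsf.squarefree_of_dvd (dvd_mul_left b p)
    have hcop : IsCoprime p b := by
      rw [hp.irreducible.coprime_iff_not_dvd]
      intro hd
      exact hp.not_isUnit (hsf p (mul_dvd_mul_left _ hd))
    rw [G_mul syG hpp hb hcop, mul_pow, mul_pow, G_cube_prime hp hpp, ih hbsf, ← map_pow,
      Char766.sy_cube hb hcop, map_one, P355.ang_mul,
      Mob705.muE_mul hp.ne_zero hb.ne_zero hcop, Mob705.muE_prime hp]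
    push_cast; ring

/-- **The sextic form of the twisted cubic Gauss sum** (73's #8283):
`μ(c) G(c) = (c/|c|) conj (2/c)_3 G2(c) conj G6(c)` for squarefree odd primary `c`. -/
theorem mu_G_eq {c : Eis} (hc : IsPrim c) (h2 : Od c) (hsf : Squarefree c) :
    (muE c : ℂ) * G c =
      ang 1 c * (starRingEnd ℂ) (sy 2 c) * G2 c * (starRingEnd ℂ) (G6 c) := by
  have h6 := G6_eq hc h2 hsf
  have h3 := G_cube hc hsf
  have hG := G_mul_conj syG hc hsf
  have hG2 := G2_mul_conj hc h2 hsf
  have hmu : (muE c : ℂ) ^ 2 = 1 := by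
    have := Mob705.muE_sq c
    rw [if_pos hsf] at this
    exact_mod_cast this
  have hs : sy 2 c * (starRingEnd ℂ) (sy 2 c) = 1 := sy_conj_mul_self syG hc h2.isCoprime
  rw [h6, map_mul, map_mul, map_pow, Complex.conj_conj]
  -- `μ G = μ · G³ · conj G² = μ² ang conj G²`
  have e1 : (muE c : ℂ) * G c = ang 1 c * (starRingEnd ℂ) (G c) ^ 2 := by
    have e2 : G c = G c ^ 3 * (starRingEnd ℂ) (G c) ^ 2 := by
      have : G c ^ 3 * (starRingEnd ℂ) (G c) ^ 2
        = G c * (G c * (starRingEnd ℂ) (G c)) ^ 2 := by ring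
      rw [this, hG]; ring
    calc (muE c : ℂ) * G c = (muE c : ℂ) * (G c ^ 3 * (starRingEnd ℂ) (G c) ^ 2) := by rw [← e2]
      _ = (muE c : ℂ) ^ 2 * ang 1 c * (starRingEnd ℂ) (G c) ^ 2 := by rw [h3]; ring
      _ = _ := by rw [hmu, one_mul]
  rw [e1]
  calc ang 1 c * (starRingEnd ℂ) (G c) ^ 2
      = ang 1 c * (sy 2 c * (starRingEnd ℂ) (sy 2 c)) * (G2 c * (starRingEnd ℂ) (G2 c)) *
        (starRingEnd ℂ) (G c) ^ 2 := by rw [hs, hG2]; ring
    _ = _ := by ring

/-- Frequency form: `μ(c) G(c) conj (a/c)_3 = (c/|c|) conj (2/c)_3 G2(c) conj (conj ((a^4/c)_6)... )`: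
`conj (gs6 (a^4) c / √N c) = conj (G6 c) * (a^4/c)_6 = conj (G6 c) * conj (a/c)_3`. -/
theorem mu_G_twist {c : Eis} (hc : IsPrim c) (h2 : Od c) (hsf : Squarefree c) (a : Eis) :
    (muE c : ℂ) * G c * (starRingEnd ℂ) (sy a c) =
      ang 1 c * (starRingEnd ℂ) (sy 2 c) * G2 c *
        (starRingEnd ℂ) (gs6 (a ^ 4) c / (Real.sqrt (nm c) : ℂ)) := by
  rw [mu_G_eq hc h2 hsf, gs6_squarefree hc h2 hsf, sy6_pow_four_left hc h2, Complex.conj_conj]
  have : sy a c * gs6 1 c / (Real.sqrt (nm c) : ℂ) = sy a c * G6 c := by unfold G6; ring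
  rw [this, map_mul]
  ring

end Crest.Agent.R017.Sx440
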