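import Crest.Agent.R017.Sx3i_545
import Crest.Agent.R017.Sx2_440

/-!
# Row 17: the sextic symbol as an instance of `Res`, natural sextic Gauss sums, expansion at `a^4`

* `res_sy2 : Res 2 2 sy2`, `res_sy6 : Res 6 2 sy6`, `gR_sy6 : gR sy6 = gs6`
* `eps a b = (b/a)_2 (a/b)_2`
* `twE_sy6` : the twist of the local expansion in terms of the cubic symbol
* `expand6` : **local expansion** of `Σ_{a,c} gs6(r a^4, c) Φ(a,c)` (all `a`, all `c`)
* `G6_eq_muG` : `G6 c = μ(c) conj (G c) (c/|c|) conj (2/c)_3 G2(c)` (also for non squarefree `c`)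
-/

set_option autoImplicit false

noncomputable section

namespace Crest.Agent.R017.Sx545

open Crest.Agent.R012 Crest.Agent.R012.Eis Crest.Agent.R012.Gauss880 Crest.Agent.R017.Sx440

lemma Sm.od {m c : Eis} (h : Sm m c) (h2 : (2 : Eis) ∣ m) : Od c :=
  od_iff.mpr (h.2.of_isCoprime_of_dvd_right h2).symm

lemma sm_two_iff {c : Eis} : Sm 2 c ↔ IsPrim c ∧ Od c := by
  unfold Sm
  rw [od_iff, isCoprime_comm]

theorem res_sy2 : Res 2 2 sy2 where
  npos := by norm_num
  mul_left x y c hc := sy2_mul_left (hc.od dvd_rfl) x y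
  mul_right x c d hc hd := sy2_mul_right x hc.ne_zero hd.ne_zero
  congr x y c hc h := sy2_congr (hc.od dvd_rfl) h
  eq_zero x c hc := sy2_eq_zero_iff (hc.od dvd_rfl)
  pow_eq x c hc hx := sy2_sq (hc.od dvd_rfl) hx
  order p hp hpp j h := by
    obtain ⟨x, hx, h1, -⟩ := exists_sy2_neg hpp hp.prim (hp.od dvd_rfl)
    have h2 := h x hx
    rw [h1] at h2
    by_contra hcon
    have h3 : Odd j := by rwa [← Nat.not_even_iff_odd, even_iff_two_dvd]
    rw [h3.neg_one_pow] at h2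
    norm_num at h2

theorem res_sy6 : Res 6 2 sy6 := Res.six res_sy2 (res_sy.mono (one_dvd 2))

/-- the sextic symbol on the primary elements prime to `m`, `2 ∣ m`. -/
theorem res_sy6' {m : Eis} (h2 : (2 : Eis) ∣ m) : Res 6 m sy6 := res_sy6.mono h2

lemma gR_sy6 (r c : Eis) : gR sy6 r c = gs6 r c := rfl

/-- the reciprocity sign -/
def eps (a b : Eis) : ℂ := sy2 b a * sy2 a b

variable {m : Eis}

lemma eps_sq {a b : Eis} (h2 : (2 : Eis) ∣ m) (ha : Sm m a) (hb : Sm m b)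
    (hab : IsCoprime a b) : eps a b ^ 2 = 1 := by
  unfold eps
  rw [mul_pow, sy2_sq (ha.od h2) hab.symm, sy2_sq (hb.od h2) hab, one_mul]

lemma sy6_mul_sy6 {e b : Eis} (h2 : (2 : Eis) ∣ m) (he : Sm m e) (hb : Sm m b) :
    sy6 b e * sy6 e b = eps e b * sy e b := by
  unfold sy6 eps
  rw [Sym645.sy_reciprocity hb.prim he.prim]
  have h1 : (starRingEnd ℂ) (sy e b) * (starRingEnd ℂ) (sy e b) = sy e b := by
    by_cases h : IsCoprime e b
    · have h3 := Char766.sy_cube hb.prim h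
      rw [Char766.conj_sy hb.prim]
      calc sy e b ^ 2 * sy e b ^ 2 = sy e b ^ 3 * sy e b := by ring
        _ = _ := by rw [h3, one_mul]
    · rw [Char766.sy_eq_zero hb.prim h]; simp
  calc sy2 b e * (starRingEnd ℂ) (sy e b) * (sy2 e b * (starRingEnd ℂ) (sy e b))
      = sy2 b e * sy2 e b * ((starRingEnd ℂ) (sy e b) * (starRingEnd ℂ) (sy e b)) := by ring
    _ = _ := by rw [h1]

lemma conj_sy6_pow_four {c : Eis} (h2 : (2 : Eis) ∣ m) (hc : Sm m c) (x : Eis) :
    (starRingEnd ℂ) (sy6 x c) ^ 4 = sy x c := by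
  rw [← map_pow, sy6_pow_four hc.prim (hc.od h2), Complex.conj_conj]

/-- the twist of the expansion, sextic case at `a^4`. -/
theorem twE_sy6 (h2 : (2 : Eis) ∣ m) {t e a' b : Eis} (he : Sm m e) (hb : Sm m b) :
    twE sy6 4 t e a' b = sy a' e * eps e b * (sy (e * t) b * sy a' b) := by
  unfold twE
  rw [conj_sy6_pow_four h2 he, conj_sy6_pow_four h2 hb, conj_sy6_pow_four h2 hb,
    sy6_mul_sy6 h2 he hb, Char766.sy_mul_left hb.prim]
  ring

open Classical in
/-- **local expansion**, sextic case at the frequencies `r a^4`. -/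
theorem expand6 (h2 : (2 : Eis) ∣ m) (r : Eis) (Φ : Eis → Eis → ℂ)
    (hs : Summable fun x : Eis × Eis =>
      if x ∈ SS m then gs6 (r * x.1 ^ 4) x.2 * Φ x.1 x.2 else 0) :
    ∑' x : Eis × Eis, (if x ∈ SS m then gs6 (r * x.1 ^ 4) x.2 * Φ x.1 x.2 else 0) =
      ∑' te : Eis × Eis, if te ∈ RR m then gs6 (r * te.1 ^ 4) te.2 *
        (∑' ab : Eis × Eis, if ab ∈ SS m then
          sy ab.1 te.2 * eps te.2 ab.2 * (sy (te.2 * te.1) ab.2 * sy ab.1 ab.2) *
            gs6 r ab.2 * Φ (te.1 * ab.1) (te.2 * ab.2) else 0)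
        else 0 := by
  have h := (res_sy6' h2).expand r (q := 4) (by norm_num) Φ hs
  refine h.trans ?_
  refine tsum_congr fun te => ?_
  by_cases h1 : te ∈ RR m
  · simp only [if_pos h1]
    congr 1
    refine tsum_congr fun ab => ?_
    by_cases h3 : ab ∈ SS m
    · simp only [if_pos h3]
      rw [twE_sy6 h2 h1.2.1 h3.2]
      rfl
    · simp only [if_neg h3]
  · simp only [if_neg h1]

/-- `G6 c` vanishes unless `c` is squarefree. -/
lemma G6_eq_zero {c : Eis} (hc : IsPrim c) (h2 : Od c) (hsf : ¬ Squarefree c) : G6 c = 0 := by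
  have : gs6 1 c = 0 := res_sy6.gR_one_eq_zero (sm_two_iff.mpr ⟨hc, h2⟩) hsf
  unfold G6; rw [this, zero_div]

/-- `G6 c = μ(c) conj(G c) (c/|c|) conj (2/c)_3 G2(c)`, for ALL odd primary `c`. -/
theorem G6_eq_muG {c : Eis} (hc : IsPrim c) (h2 : Od c) :
    G6 c = (muE c : ℂ) * (starRingEnd ℂ) (G c) * ang 1 c * (starRingEnd ℂ) (sy 2 c) * G2 c := by
  by_cases hsf : Squarefree c
  · have h := G6_eq hc h2 hsf
    have h3 := G_cube hc hsf
    have hG := G_mul_conj syG hc hsf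
    rw [h]
    have e1 : G c ^ 2 = (muE c : ℂ) * (starRingEnd ℂ) (G c) * ang 1 c := by
      calc G c ^ 2 = G c ^ 2 * (G c * (starRingEnd ℂ) (G c)) := by rw [hG, mul_one]
        _ = G c ^ 3 * (starRingEnd ℂ) (G c) := by ring
        _ = _ := by rw [h3]; ring
    rw [e1]; ring
  · rw [G6_eq_zero hc h2 hsf]
    have : (muE c : ℂ) = 0 := by
      have h4 := Mob705.muE_sq c
      rw [if_neg hsf] at h4
      have h5 : (muE c : ℂ) ^ 2 = 0 := by exact_mod_cast h4
      exact pow_eq_zero_iff (two_ne_zero) |>.mp h5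
    rw [this]; ring

/-- `gs6 1 c = √N(c) G6 c`. -/
lemma gs6_one_eq {c : Eis} (hc : c ≠ 0) : gs6 1 c = ((Real.sqrt (nm c) : ℝ) : ℂ) * G6 c := by
  unfold G6
  have := sqrt_nm_ne hc
  field_simp

end Crest.Agent.R017.Sx545
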