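import Crest.Agent.R017.EndK_699
import Crest.Agent.R017.EndJ_699
import Crest.Agent.R017.LSc_848
import Crest.Agent.R017.Sx3j_545
import Crest.Agent.R017.FE2_47

/-!
# Row 17, section B (version B2): objects and interfaces (helper770)

* `hN a b` : natural sextic coefficient at frequency `a⁴` (`= μ(b) G(b) conj (a/b)_3` for `b` squarefree)
* `tk k b c` : its Poisson transform in `a` against `(a/c)_3`
* `AP` : prime pieces of the amplifier, `Amp`, `MV`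
* `DOUT θ` : what sections C/D deliver
* `F2nat M` : what section A delivers
-/

set_option autoImplicit false

noncomputable section

open MeasureTheory Complex Set
open scoped ComplexConjugate ContDiff

namespace Crest.Agent.R017.B770

open Crest.Agent.R012 Crest.Agent.R012.Eis Crest.Agent.R012.Mob705 Crest.Agent.R012.Gauss880
open Crest.Agent.R017.End699 Crest.Agent.R017.Sx440 Crest.Agent.R017.Sx545

/-- natural sextic coefficient at frequency `a⁴`, normalised. -/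
def hN (a b : Eis) : ℂ :=
  ang 1 b * conj (sy 2 b) * LS848.eps2 b * conj (gs6 (a ^ 4) b) / (Real.sqrt (nm b) : ℂ)

/-- Poisson transform of `a ↦ hN a b * (a/c)_3`. -/
def tk (k b c : Eis) : ℂ :=
  conj (G c) / (Real.sqrt (nm b * nm c) : ℂ) *
    sumMod (b * c) (fun a => hN a b * sy a c * eC (-(toC a * toC k / (toC b * toC c))))

/-- exponent `s(j)` : `tk k (p^j) 1` is supported on `p^{s(j)} ∣ k`. -/
def sE (j : ℕ) : ℕ := if j % 4 = 1 then 3 * (j / 4) else j - (j + 3) / 4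

open Classical in
/-- all the algebra of `tk` (leaf L1). -/
structure TkAlg : Prop where
  mul : ∀ k b₁ b₂ c₁ c₂ : Eis, Sm 2 b₁ → Sm 2 b₂ → Sm 2 c₁ → Sm 2 c₂ →
    IsCoprime (b₁ * c₁) (b₂ * c₂) → tk k (b₁ * b₂) (c₁ * c₂) = tk k b₁ c₁ * tk k b₂ c₂
  one : ∀ k : Eis, tk k 1 1 = 1
  b1 : ∀ k b : Eis, Sm 2 b → Squarefree b → tk k b 1 = (muE b : ℂ) * sy k b
  c1 : ∀ k c : Eis, Sm 2 c → Squarefree c → tk k 1 c = conj (sy k c)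
  pp : ∀ k p : Eis, Sm 2 p → Prime p →
    tk k p p = (if p ∣ k then 1 else 0) - (nm p : ℂ) * (if p ^ 2 ∣ k then 1 else 0)
  pow0 : ∀ (k p : Eis) (j : ℕ), Sm 2 p → Prime p → 2 ≤ j → j % 4 ≠ 1 → j % 6 ≠ 0 →
    tk k (p ^ j) 1 = 0
  pow1 : ∀ (k p : Eis) (j : ℕ), Sm 2 p → Prime p → 2 ≤ j → ¬ p ^ sE j ∣ k → tk k (p ^ j) 1 = 0
  pow2 : ∀ (k p : Eis) (j : ℕ), Sm 2 p → Prime p → 2 ≤ j →
    ‖tk k (p ^ j) 1‖ ≤ (nm p : ℝ) ^ ((sE j : ℝ) + 1 / 2)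
  powc : ∀ (k p : Eis) (j : ℕ), Sm 2 p → Prime p → 2 ≤ j → tk k (p ^ j) p = 0

/-- Poisson summation (leaf L2). `kp b c x = (x/c) conj (x/b)`. -/
def PoissonTk : Prop :=
  ∀ (M : Eis) (χ : Eis → ℂ), HC M χ → (2 : Eis) ∣ M → ∀ b c : Eis, Sm M b → Sm M c → Squarefree c →
    ∀ f : SchwartzMap ℂ ℂ,
    conj (G c) * ∑' a : Eis, ext χ a * (hN a b * sy a c) * f (toC a) =
      ((2 / (Real.sqrt 3 * nm M) : ℝ) : ℂ) * ((((Real.sqrt (nm b * nm c))⁻¹ : ℝ) : ℂ) *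
        (χ (b * c) * (sy (M * Po581.sq3) c * conj (sy (M * Po581.sq3) b)))) *
        ∑' k : Eis, FE47.DM M χ k * tk k b c * Po581.fC f (Po581.dl k / toC (M * (b * c)))

/-! ### the amplifier and the Möbius sum -/

/-- smooth compactly supported weights on `(0,∞)` -/
structure SW (V : ℝ → ℂ) : Prop where
  smooth : ContDiff ℝ ∞ V
  cpt : HasCompactSupport V
  supp : tsupport V ⊆ Set.Ioi 0

/-- primary primes of norm `≤ e^{κ+1}` -/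
def prS (κ : ℝ) : Finset Eis := by
  classical
  exact (primBall ⌊Real.exp (κ + 1)⌋₊).filter Prime

/-- a prime piece of the amplifier -/
def AP (h : ℝ → ℂ) (κ : ℝ) (f : Eis → ℂ) : ℂ :=
  ∑ p ∈ prS κ, f p * h (Real.log (nm p) - κ)

/-- positions of the pieces, `e^{κ_i} = 64^i Q₀^{y/r}` -/
def kap (r : ℕ) (y Q₀ : ℝ) (i : Fin r) : ℝ := y / r * Real.log Q₀ + 3 * i

/-- `∏_{i ∈ J} A_i` -/
def Amp (h : ℝ → ℂ) (r : ℕ) (y Q₀ : ℝ) (J : Finset (Fin r)) (f : Eis → ℂ) : ℂ :=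
  ∏ i ∈ J, AP h (kap r y Q₀ i) f

/-- length of the sub-amplifier `J` (up to the constants `64^i`) -/
def CJ (r : ℕ) (y Q₀ : ℝ) (J : Finset (Fin r)) : ℝ := Q₀ ^ (y / r * J.card)

/-- smooth Möbius sum -/
def MV (V : ℝ → ℂ) (Q : ℝ) (f : Eis → ℂ) : ℂ := by
  classical
  exact ∑' b : Eis, if IsPrim b then (muE b : ℂ) * f b * V (nm b / Q) else 0

/-- the multiplicative twist `φ ang^l N^{it}` -/
def twt (φ : Eis → ℂ) (l : ℤ) (t : ℝ) (b : Eis) : ℂ := tw φ l b * (nm b : ℂ) ^ (I * t)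

/-- the target of D-OUT and of the natural bound; `K₀ = Q₀^{1/2+y}`. -/
def Tgt (θ η : ℝ) (r : ℕ) (y Q₀ Q H : ℝ) (J : Finset (Fin r)) : ℝ :=
  Q₀ ^ ((1 / 2 + y) / 3 + y + θ - η) *
    (H / Q₀ ^ (1 / 2 + y) * (Q / Q₀) ^ (1 / 2 : ℝ) * (CJ r y Q₀ J / Q₀ ^ y) ^ (1 / 2 : ℝ) +
      (H / Q₀ ^ (1 / 2 + y)) ^ (1 / 6 : ℝ) * (Q / Q₀) ^ θ * (CJ r y Q₀ J / Q₀ ^ y) ^ θ)

/-- nonprincipality of `φ conj χ_k ang^l` -/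
def NPk (n : Eis) (φ : Eis → ℂ) (l : ℤ) (k : Eis) : Prop :=
  NP (n * (9 * k)) (fun b => φ b * conj (sy k b)) l

/-- **D-OUT**: output of sections C/D (with `PF univ θ` as input). -/
def DOUT (θ : ℝ) : Prop := by
  classical
  exact ∃ (r : ℕ) (y η : ℝ), 0 < r ∧ 0 < y ∧ y < 1 ∧ 0 < η ∧
    ∀ h : ℝ → ℂ, HW h → ∀ V : ℝ → ℂ, SW V → ∀ l₁ l₂ : ℤ, ∀ ε : ℝ, 0 < ε → ∃ C A : ℝ, 0 ≤ C ∧
    ∀ (n₁ n₂ : Eis) (φ ψ : Eis → ℂ), HC n₁ φ → HC n₂ ψ →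
    ∀ (Q₀ Q : ℝ), 1 ≤ Q → Q ≤ Q₀ → ∀ (J : Finset (Fin r)) (H : ℕ), 1 ≤ H →
      (H : ℝ) ≤ Q₀ ^ (1 / 2 + y + η) → ∀ t₁ t₂ : ℝ,
      ∑ k ∈ (ball H).filter (fun k => k ≠ 0 ∧ NPk n₁ φ l₁ k),
        ‖Amp h r y Q₀ J (fun p => twt φ l₁ t₁ p * conj (sy k p))‖ *
          ‖MV V Q (fun b => twt ψ l₂ t₂ b * sy k b)‖ ≤
        C * ((nm n₁ : ℝ) * nm n₂ * Q₀) ^ ε * (1 + |t₁| + |t₂|) ^ A * Tgt θ η r y Q₀ Q H J

/-! ### the natural sums -/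

/-- tuples of amplifier primes -/
def tup (r : ℕ) (y Q₀ : ℝ) (J : Finset (Fin r)) : Finset (∀ _ : J, Eis) :=
  Fintype.piFinset (fun i : J => prS (kap r y Q₀ i))

/-- the natural double sum at `k` :
`Σ_c α(c) g(c) Σ_{b ∈ S} f(b) tk(k;b,c) V(N b/Q)`. -/
def NSum (h : ℝ → ℂ) (r : ℕ) (y Q₀ : ℝ) (J : Finset (Fin r)) (M : Eis) (f g : Eis → ℂ)
    (V : ℝ → ℂ) (Q : ℝ) (k : Eis) : ℂ := by
  classical
  exact ∑ p ∈ tup r y Q₀ J, (∏ i : J, h (Real.log (nm (p i)) - kap r y Q₀ i)) *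
    g (∏ i : J, p i) *
      ∑' b : Eis, if Sm M b then f b * tk k b (∏ i : J, p i) * V (nm b / Q) else 0

/-- **L3** (natural bound, nonprincipal `k`), to be deduced from `DOUT θ` and `TkAlg`. -/
def NatNP (θ : ℝ) (r : ℕ) (y η : ℝ) : Prop := by
  classical
  exact ∀ h : ℝ → ℂ, HW h → ∀ V : ℝ → ℂ, SW V → ∀ l₁ l₂ : ℤ, ∀ ε : ℝ, 0 < ε →
    ∃ C A : ℝ, 0 ≤ C ∧
    ∀ (M : Eis) (φ ψ : Eis → ℂ), (2 : Eis) ∣ M → HC M φ → HC M ψ →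
    ∀ (Q₀ Q : ℝ), 1 ≤ Q → Q ≤ Q₀ → (nm M : ℝ) < Q₀ ^ (y / r) / 9 →
      ∀ (J : Finset (Fin r)) (H : ℕ), 1 ≤ H → (H : ℝ) ≤ Q₀ ^ (1 / 2 + y + η) → ∀ t₁ t₂ : ℝ,
      ∑ k ∈ (ball H).filter (fun k => k ≠ 0 ∧ NPk M φ l₁ k),
        ‖NSum h r y Q₀ J M (twt ψ l₂ t₂) (twt φ l₁ t₁) V Q k‖ ≤
        C * ((nm M : ℝ) * Q₀) ^ ε * (1 + |t₁| + |t₂|) ^ A * Tgt θ η r y Q₀ Q H J

/-- **L4** (principal `k`), from `PF univ θ` and `TkAlg`. -/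
def NatP (θ : ℝ) (r : ℕ) (y : ℝ) : Prop := by
  classical
  exact ∀ h : ℝ → ℂ, HW h → ∀ V : ℝ → ℂ, SW V → ∀ l₁ l₂ : ℤ, ∀ ε : ℝ, 0 < ε →
    ∃ C A : ℝ, 0 ≤ C ∧
    ∀ (M : Eis) (φ ψ : Eis → ℂ), (2 : Eis) ∣ M → HC M φ → HC M ψ →
    ∀ (Q₀ Q : ℝ), 1 ≤ Q → Q ≤ Q₀ → (nm M : ℝ) < Q₀ ^ (y / r) / 9 →
      ∀ (J : Finset (Fin r)) (H : ℕ), 1 ≤ H → ∀ t₁ t₂ : ℝ,
      ∑ k ∈ (ball H).filter (fun k => k ≠ 0 ∧ ¬ NPk M φ l₁ k),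
        ‖NSum h r y Q₀ J M (twt ψ l₂ t₂) (twt φ l₁ t₁) V Q k‖ ≤
        C * ((nm M : ℝ) * Q₀ * H) ^ ε * (1 + |t₁| + |t₂|) ^ A *
          ((H : ℝ) ^ (1 / 3 : ℝ) * CJ r y Q₀ J * Q ^ θ)

/-- **L4'** (`k = 0`). -/
def NatZ (r : ℕ) (y : ℝ) : Prop :=
  ∀ h : ℝ → ℂ, HW h → ∀ V : ℝ → ℂ, SW V → ∀ ε : ℝ, 0 < ε → ∃ C : ℝ, 0 ≤ C ∧
    ∀ (M : Eis) (f g : Eis → ℂ), (2 : Eis) ∣ M → (∀ b, ‖f b‖ ≤ 1) → (∀ b, ‖g b‖ ≤ 1) →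
    ∀ (Q₀ Q : ℝ), 1 ≤ Q → Q ≤ Q₀ → (nm M : ℝ) < Q₀ ^ (y / r) / 9 →
      ∀ (J : Finset (Fin r)),
      ‖NSum h r y Q₀ J M f g V Q 0‖ ≤
        C * Q₀ ^ ε * (CJ r y Q₀ J ^ 2 * (Q / CJ r y Q₀ J) ^ (19 / 20 : ℝ))

/-! ### the functional equation -/

/-- the natural series at frequency `a⁴` -/
def Psi (M : Eis) (ξ f : Eis → ℂ) (a : Eis) (V : ℝ → ℂ) (Q : ℝ) : ℂ := by
  classical
  exact ∑' e : Eis, if Sm M e then ξ e * (nm e : ℂ) ^ 2 *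
    ∑' b : Eis, (if Sm M b then f b * hN a b * V (nm b * (nm e : ℝ) ^ 6 / Q) else 0) else 0

/-- the dual side: no `e`-sum, two-sided rapidly decreasing weight -/
def Psi' (M : Eis) (f : Eis → ℂ) (a : Eis) (V : ℝ → ℂ) (Q : ℝ) : ℂ := by
  classical
  exact ∑' b : Eis, if Sm M b then f b * hN a b * V (nm b / Q) else 0

/-- **F2**: functional equation of the natural sextic series at every frequency `a⁴`
(`l ≠ -1`: no poles). `V_τ(y) = y^{iτ} V(y)`; the dual weights are smooth, and rapidly decreasing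
at `0` and at `∞` with all logarithmic derivatives, polynomially in `τ`. -/
def F2nat (M : Eis) : Prop :=
  ∀ (l : ℤ), l ≠ -1 → ∀ ψ : Eis → ℂ, HC M ψ →
    ∃ (ξ : Eis → ℂ) (M' : Eis) (n : ℕ) (κ : Fin n → ℂ) (η ψ' : Fin n → Eis → ℂ) (j l' : ℤ)
      (ρ : Fin n → ℝ),
      (∀ e, ‖ξ e‖ ≤ 1) ∧ ξ 1 = 1 ∧ M ∣ M' ∧ (∀ p : Eis, Prime p → p ∣ M' → p ∣ M) ∧
      (∀ i, HC M' (η i)) ∧ (∀ i, HC M' (ψ' i)) ∧ (∀ i, 0 < ρ i) ∧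
      ∀ V : ℝ → ℂ, SW V → ∃ W : Fin n → ℝ → ℝ → ℂ,
        (∀ i τ, ContDiffOn ℝ ∞ (W i τ) (Set.Ioi 0)) ∧
        (∀ m N : ℕ, ∃ C A : ℝ, 0 ≤ C ∧ ∀ i τ y, 0 < y →
          ‖iteratedDeriv m (fun x => W i τ (Real.exp x)) (Real.log y)‖ ≤
            C * (1 + |τ|) ^ A * min (y ^ N) ((y ^ N)⁻¹)) ∧
        ∀ (a : Eis), Sm M a → ∀ Q : ℝ, 0 < Q → ∀ τ : ℝ,
          Psi M ξ (tw ψ l) a (fun y => (y : ℂ) ^ (I * τ) * V y) Q =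
            ((Q / (nm a : ℝ) ^ 2 : ℝ) : ℂ) * ∑ i, κ i * tw (η i) j a *
              Psi' M (tw (ψ' i) l') a (W i τ) (ρ i * (nm a : ℝ) ^ 4 / Q)

/-- **target of section B**: the contraction step. -/
def StepB : Prop :=
  (∀ M : Eis, (36 : Eis) ∣ M → F2nat M) →
    ∀ θ : ℝ, 7 / 8 < θ → θ ≤ 1 → PF Set.univ θ → DOUT θ → ∃ δ > 0, PF Set.univ (θ - δ)

end Crest.Agent.R017.B770
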