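import Crest.Agent.R017.QSk_411

/-!
# Row 17: the quadratic Gauss sums over `ℤ[ω]` (3)

* `kap4 c ∈ {1, i, -1, -i}` depends only on `c` modulo `4`
* `G2_eq : G2 c = kap4 c` for squarefree odd primary `c`
-/

set_option autoImplicit false

noncomputable section

open Complex
open Crest.Agent.R012 Crest.Agent.R012.Eis Crest.Agent.R012.Sym645

open scoped Real NumberTheorySymbols

namespace Crest.Agent.R017.QS411

open Crest.Agent.R017.Sx440

/-- `(v / N(u + v ω))` for primitive pairs. -/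
@[reducible] def hh (u v : ℤ) : ℤ :=
  if v % 2 = 1 then (if v % 4 = 3 ∧ nf u v % 4 = 3 then -1 else 1)
  else if v % 4 = 2 then (if u % 4 = 1 then -1 else 1) else 1

lemma fin_check5 : ∀ u v : Fin 8, nf (u : ℕ) (v : ℕ) % 2 = 1 →
    gg (v : ℕ) (nf (u : ℕ) (v : ℕ)) = hh (u : ℕ) (v : ℕ) := by
  decide +kernel

lemma hh_congr {u u' v v' : ℤ} (h1 : u ≡ u' [ZMOD 4]) (h2 : v ≡ v' [ZMOD 4]) :
    hh u v = hh u' v' := by
  have e1 : u % 4 = u' % 4 := h1
  have e2 : v % 4 = v' % 4 := h2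
  have e3 : v % 2 = v' % 2 := mod2_of_mod4 h2
  have e4 : nf u v % 4 = nf u' v' % 4 := nf_modEq h1 h2
  unfold hh
  rw [e1, e2, e3, e4]

lemma gg_eq_hh {u v : ℤ} (h : nf u v % 2 = 1) : gg v (nf u v) = hh u v := by
  obtain ⟨a, ha⟩ := fin8 u
  obtain ⟨b, hb⟩ := fin8 v
  have k : nf (a : ℕ) (b : ℕ) % 2 = 1 := Eq.trans (nf_modEq (mod2_of_mod8 ha) (mod2_of_mod8 hb)) h
  rw [← hh_congr (mod4_of_mod8 ha) (mod4_of_mod8 hb), ← fin_check5 a b k]
  exact (gg_congr hb (nf_modEq ha hb)).symm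

/-- The exponent. -/
@[reducible] def kx (u v : ℤ) : ℕ :=
  (if e4 1 2 u v = -1 then 2 else 0) + (if nf u v % 4 = 3 then 3 else 0) +
    (if hh u v = -1 then 2 else 0)

lemma kx_congr {u u' v v' : ℤ} (h1 : u ≡ u' [ZMOD 4]) (h2 : v ≡ v' [ZMOD 4]) :
    kx u v = kx u' v' := by
  have e4' : nf u v % 4 = nf u' v' % 4 := nf_modEq h1 h2
  unfold kx
  rw [hh_congr h1 h2, e4', e4_congr (Int.ModEq.refl 1) (Int.ModEq.refl 2) h1 h2]

lemma fin_check6 : ∀ x y u v : Fin 4,
    nf (x : ℕ) (y : ℕ) % 2 = 1 → nf (u : ℕ) (v : ℕ) % 2 = 1 →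
    kx (((x : ℕ) : ℤ) * (u : ℕ) - (y : ℕ) * (v : ℕ))
      (((x : ℕ) : ℤ) * (v : ℕ) + (y : ℕ) * (u : ℕ) - (y : ℕ) * (v : ℕ)) % 4 =
    (kx (x : ℕ) (y : ℕ) + kx (u : ℕ) (v : ℕ) +
      (if e4 (x : ℕ) (y : ℕ) (u : ℕ) (v : ℕ) = -1 then 2 else 0)) % 4 := by
  decide +kernel

/-- The value of the normalised quadratic Gauss sum. -/
def kap4 (c : Eis) : ℂ := I ^ kx c.re c.im

lemma kap4_congr {c c' : Eis} (h : (4 : Eis) ∣ c - c') : kap4 c = kap4 c' := by
  rw [four_dvd_iff, QuadraticAlgebra.re_sub, QuadraticAlgebra.im_sub] at h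
  unfold kap4
  rw [kx_congr (u := c.re) (u' := c'.re) (v := c.im) (v' := c'.im)]
  · rw [Int.modEq_iff_dvd]; have := h.1; omega
  · rw [Int.modEq_iff_dvd]; have := h.2; omega

lemma I_pow_mod {a b : ℕ} (h : a % 4 = b % 4) : (I : ℂ) ^ a = I ^ b := by
  rw [I_pow_eq_pow_mod a, I_pow_eq_pow_mod b, h]

lemma kap4_mul {a b : Eis} (ha : nm a % 2 = 1) (hb : nm b % 2 = 1) :
    kap4 (a * b) = (eps4 a b : ℂ) * (kap4 a * kap4 b) := by
  obtain ⟨x, hx⟩ := fin4 a.re
  obtain ⟨y, hy⟩ := fin4 a.im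
  obtain ⟨u, hu⟩ := fin4 b.re
  obtain ⟨v, hv⟩ := fin4 b.im
  have k1 : nf (x : ℕ) (y : ℕ) % 2 = 1 :=
    Eq.trans (nf_modEq (mod2_of_mod4 hx) (mod2_of_mod4 hy)) (odd_nf a ha)
  have k2 : nf (u : ℕ) (v : ℕ) % 2 = 1 :=
    Eq.trans (nf_modEq (mod2_of_mod4 hu) (mod2_of_mod4 hv)) (odd_nf b hb)
  have h := fin_check6 x y u v k1 k2
  rw [kx_congr ((hx.mul hu).sub (hy.mul hv)) (((hx.mul hv).add (hy.mul hu)).sub (hy.mul hv)),
    kx_congr hx hy, kx_congr hu hv, e4_congr hx hy hu hv] at h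
  unfold kap4
  rw [re_mul', im_mul', I_pow_mod h, pow_add, pow_add]
  have he : ((eps4 a b : ℤ) : ℂ) = I ^ (if e4 a.re a.im b.re b.im = -1 then 2 else 0) := by
    unfold eps4
    rcases e4_cases a.re a.im b.re b.im with h1 | h1
    · rw [h1]; norm_num
    · rw [h1]; simp
  rw [he]
  ring

lemma J3 {l : ℕ} (hl2 : l % 2 = 1) : (l % 3 = 1 → J(3 | l) = if l % 4 = 3 then -1 else 1) ∧
    (l % 3 = 2 → J(3 | l) = if l % 4 = 3 then 1 else -1) := by
  have h1 := jacobiSym.quadratic_reciprocity_if (a := 3) (b := l) (by norm_num) hl2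
  constructor
  · intro h
    have h2 : J((l : ℤ) | 3) = 1 := by
      rw [jacobiSym.mod_left' (b := 3) (show (l : ℤ) % 3 = 1 % 3 by omega)]
      exact jacobiSym.one_left 3
    rw [h2] at h1
    have h3 : J(((3 : ℕ) : ℤ) | l) = J(3 | l) := rfl
    rw [h3] at h1
    rw [← h1]
    simp
  · intro h
    have h2 : J((l : ℤ) | 3) = -1 := by
      rw [jacobiSym.mod_left' (b := 3) (show (l : ℤ) % 3 = (-1 : ℤ) % 3 by omega)]
      rw [jac_neg_one (by norm_num)]
      norm_num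
    rw [h2] at h1
    have h3 : J(((3 : ℕ) : ℤ) | l) = J(3 | l) := rfl
    rw [h3] at h1
    rw [← h1]
    simp

lemma G2_split {u v : ℤ} {l : ℕ} (hl : l.Prime) (hl2 : l % 2 = 1)
    (hnm : nm (⟨u, v⟩ : Eis) = l) (hprim : IsPrim (⟨u, v⟩ : Eis)) :
    G2 ⟨u, v⟩ = kap4 ⟨u, v⟩ := by
  have hl3 : l % 3 = 1 := by rw [← hnm]; exact prim_nm_mod hprim
  have hodd : nm (⟨u, v⟩ : Eis) % 2 = 1 := by rw [hnm]; exact hl2
  have hN : (l : ℤ) = nf u v := by rw [← hnm]; exact nm_eq_nf u v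
  have hs0 : ((Real.sqrt l : ℝ) : ℂ) ≠ 0 := by
    exact_mod_cast (Real.sqrt_pos.2 (by exact_mod_cast hl.pos)).ne'
  have hcop : IsCoprime u v := by
    rw [Int.isCoprime_iff_gcd_eq_one]
    by_contra hne
    obtain ⟨q, hq, hqd⟩ := Nat.exists_prime_and_dvd hne
    have h1 : (q : ℤ) ∣ u := (Int.natCast_dvd_natCast.2 hqd).trans (Int.gcd_dvd_left ..)
    have h2 : (q : ℤ) ∣ v := (Int.natCast_dvd_natCast.2 hqd).trans (Int.gcd_dvd_right ..)
    obtain ⟨a, ha⟩ := h1
    obtain ⟨b, hb⟩ := h2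
    have h3 : (l : ℤ) = (q : ℤ) * q * nf a b := by
      rw [hN]; simp only [nf]; rw [ha, hb]; ring
    have h4 : q * q ∣ l := by
      have : ((q * q : ℕ) : ℤ) ∣ (l : ℤ) := ⟨nf a b, by push_cast; exact h3⟩
      exact_mod_cast this
    have h5 : q = l := (Nat.prime_dvd_prime_iff_eq hq hl).1 ((dvd_mul_right q q).trans h4)
    rw [h5] at h4
    have h6 := Nat.le_of_dvd hl.pos h4
    have h7 := hl.two_le
    nlinarith
  have hJv : J(v | l) = hh u v := by
    have h1 := jac_v hodd hcop 1 (Or.inl rfl)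
    rw [one_mul, hnm] at h1
    rw [h1, gg_eq_hh (odd_nf_iff u v hodd)]
  have hJ3 := (J3 hl2).1 hl3
  unfold G2
  rw [gs2_split hl hl2 hl3 hnm hprim, hnm, jacobiSym.mul_left, hJ3, hJv]
  unfold kap4 kx eps4
  have e1 : s3.re = 1 := rfl
  have e2 : s3.im = 2 := rfl
  rw [e1, e2]
  have hI3 : (I : ℂ) ^ 3 = -I := by
    have : (I : ℂ) ^ 3 = I ^ 2 * I := by ring
    rw [this, I_sq]; ring
  have f1 : ((e4 1 2 u v : ℤ) : ℂ) = I ^ (if e4 1 2 u v = -1 then 2 else 0) := by
    rcases e4_cases 1 2 u v with h1 | h1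
    · rw [h1]; norm_num
    · rw [h1]; simp
  have hhc : hh u v = 1 ∨ hh u v = -1 := by
    unfold hh; split_ifs <;> simp
  have f2 : ((hh u v : ℤ) : ℂ) = I ^ (if hh u v = -1 then 2 else 0) := by
    rcases hhc with h1 | h1
    · rw [h1]; norm_num
    · rw [h1]; simp
  have f3 : (((if l % 4 = 3 then -1 else 1 : ℤ)) : ℂ) * eta4 l =
      I ^ (if nf u v % 4 = 3 then 3 else 0) := by
    unfold eta4
    have h4 : (nf u v % 4 = 3) ↔ (l % 4 = 3) := by rw [← hN]; omega
    rw [if_congr h4 rfl rfl]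
    split_ifs
    · rw [hI3]; push_cast; ring
    · simp
  rw [pow_add, pow_add, ← f1, ← f2, ← f3]
  push_cast
  field_simp

lemma G2_one : G2 1 = 1 := by
  have h1 := G2_mul od_one od_one isCoprime_one_left
  have h2 : sy2 1 1 = 1 := by
    rw [sy2_eq_qy, qy_one_right]; norm_num
  rw [mul_one, h2, one_mul, one_mul] at h1
  have h3 : G2 1 ≠ 0 := by
    intro h
    have := norm_G2 (c := 1) prim_one od_one squarefree_one
    rw [h] at this
    simp at this
  have h4 : G2 1 * G2 1 = 1 * G2 1 := by rw [one_mul]; exact h1.symm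
  exact mul_right_cancel₀ h3 h4

lemma kap4_one : kap4 1 = 1 := by
  have h1 : kx (1 : Eis).re (1 : Eis).im = 0 := by
    show kx 1 0 = 0
    decide
  unfold kap4
  rw [h1, pow_zero]

/-- Classification of primes. -/
lemma prime_cases {p : Eis} (hp : Prime p) :
    ∃ l : ℕ, l.Prime ∧ (nm p = l ∨ Associated p ((l : ℕ) : Eis)) := by
  obtain ⟨l, hl, hlp⟩ := Nat.exists_prime_and_dvd (nm_ne_one_of_prime hp)
  refine ⟨l, hl, ?_⟩
  have hd : ((l : ℕ) : Eis) ∣ p * Eis.conj p := by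
    rw [Eis.mul_conj]; exact_mod_cast Nat.cast_dvd_cast hlp
  have hlu : ¬ IsUnit ((l : ℕ) : Eis) := by
    rw [isUnit_iff, nm_natCast]
    have := hl.one_lt
    intro h; nlinarith
  obtain ⟨s, hs, hsl⟩ := WfDvdMonoid.exists_irreducible_factor hlu
    (by exact_mod_cast hl.ne_zero : ((l : ℕ) : Eis) ≠ 0)
  have hpl : p ∣ ((l : ℕ) : Eis) := by
    rcases hs.prime.dvd_or_dvd (hsl.trans hd) with h5 | h5
    · exact (((hs.associated_of_dvd hp.irreducible h5).symm).dvd).trans hsl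
    · have h7 : Eis.conj p ∣ ((l : ℕ) : Eis) :=
        (((hs.associated_of_dvd (conj_prime hp).irreducible h5).symm).dvd).trans hsl
      have h8 := conj_dvd_conj h7
      rw [conj_conj] at h8
      have h9 : Eis.conj ((l : ℕ) : Eis) = ((l : ℕ) : Eis) := by
        apply ext' <;> simp
      rwa [h9] at h8
  obtain ⟨t, ht⟩ := hpl
  have h1 : nm p * nm t = l ^ 2 := by rw [← nm_mul, ← ht, nm_natCast]
  have h2 : nm p ∣ l ^ 2 := ⟨nm t, h1.symm⟩
  obtain ⟨k, hk, hk2⟩ := (Nat.dvd_prime_pow hl).1 h2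
  interval_cases k
  · exact absurd hk2 (nm_ne_one_of_prime hp)
  · left; rw [hk2, pow_one]
  · right
    have h3 : nm t = 1 := by
      rw [hk2] at h1
      exact Nat.eq_of_mul_eq_mul_left (pow_pos hl.pos 2) (by rw [h1, mul_one])
    rw [ht]
    exact associated_mul_unit_right p t (isUnit_iff.2 h3)

lemma G2_prime {p : Eis} (hp : Prime p) (hpp : IsPrim p) (h2 : Od p) : G2 p = kap4 p := by
  obtain ⟨l, hl, h | h⟩ := prime_cases hp
  · have hl2 : l % 2 = 1 := by rw [← h]; exact odd_of_od h2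
    exact G2_split (u := p.re) (v := p.im) hl hl2 h hpp
  · -- inert
    obtain ⟨t, ht⟩ := h
    have hlP : Prime ((l : ℕ) : Eis) := by rw [← ht]; exact (associated_mul_unit_right p t t.isUnit).prime_iff.1 hp
    have hnp : nm p = l ^ 2 := by
      have := congrArg nm ht
      rw [nm_mul, isUnit_iff.1 t.isUnit, mul_one, nm_natCast] at this
      exact this
    have hpm := prim_nm_mod hpp
    have hpo := odd_of_od h2
    have hl2 : l % 2 = 1 := by
      rw [hnp] at hpo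
      have h2 : Odd (l ^ 2) := Nat.odd_iff.2 hpo
      rw [Nat.odd_pow_iff (by norm_num)] at h2
      exact Nat.odd_iff.1 h2
    have hl3 : l % 3 = 1 ∨ l % 3 = 2 := by
      rw [hnp] at hpm
      by_contra hcon
      have : l % 3 = 0 := by omega
      rw [pow_two, Nat.mul_mod, this] at hpm
      norm_num at hpm
    have hne3 : l ≠ 3 := by omega
    have hgs := gs2_inert hl hl2 hne3 hlP
    have hlC : (l : ℂ) ≠ 0 := by exact_mod_cast hl.ne_zero
    have hsq : ((Real.sqrt (nm p : ℕ) : ℝ) : ℂ) = l := by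
      rw [hnp]; push_cast
      rw [Real.sqrt_sq (by positivity)]; push_cast; rfl
    obtain ⟨s, hs⟩ := t.isUnit.exists_right_inv
    have hpl : p = ((l : ℕ) : Eis) * s := by rw [← ht, mul_assoc, hs, mul_one]
    have hsu : IsUnit s := IsUnit.of_mul_eq_one _ (by rw [mul_comm]; exact hs)
    have hre : (((l : ℕ) : Eis)).re = l := by simp
    have him : (((l : ℕ) : Eis)).im = 0 := by simp
    rcases hl3 with hl3 | hl3
    · have hprl : IsPrim ((l : ℕ) : Eis) := by
        rw [Sym645.isPrim_iff, hre, him]; omega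
      have hs1 : s = 1 := prim_unit_eq_one hsu (prim_of_mul_left hprl (hpl ▸ hpp))
      have hp1 : p = ((l : ℕ) : Eis) := by rw [hpl, hs1, mul_one]
      unfold G2
      rw [hsq, hp1, hgs, (J3 hl2).1 hl3, mul_div_cancel_right₀ _ hlC]
      unfold kap4
      rw [hre, him]
      have hk : kx (l : ℤ) 0 = if l % 4 = 3 then 2 else 0 := by
        have e0 : e4 1 2 (l : ℤ) 0 = if (l : ℤ) % 4 = 3 ∧ nf 1 2 % 4 = 3 then -1 else 1 := by
          rw [e4_symm, e4_rat (by omega) (by decide)]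
        have e1 : nf (l : ℤ) 0 % 4 = 1 := by
          have : (l : ℤ) % 4 = 1 ∨ (l : ℤ) % 4 = 3 := by omega
          rcases this with h | h
          · exact (nf_modEq (show (l : ℤ) ≡ 1 [ZMOD 4] from h) (Int.ModEq.refl 0)).trans (show nf _ 0 ≡ 1 [ZMOD 4] by decide)
          · exact (nf_modEq (show (l : ℤ) ≡ 3 [ZMOD 4] from h) (Int.ModEq.refl 0)).trans (show nf _ 0 ≡ 1 [ZMOD 4] by decide)
        have e2 : hh (l : ℤ) 0 = 1 := by unfold hh; norm_num
        unfold kx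
        rw [e0, e1, e2]
        have e5 : nf 1 2 % 4 = 3 := by decide
        rw [e5]
        rcases (by omega : l % 4 = 1 ∨ l % 4 = 3) with h | h
        · have : (l : ℤ) % 4 = 1 := by omega
          simp [this, h]
        · have : (l : ℤ) % 4 = 3 := by omega
          simp [this, h]
      rw [hk]
      split_ifs <;> simp
    · have hprl : IsPrim (-((l : ℕ) : Eis)) := by
        rw [Sym645.isPrim_iff, QuadraticAlgebra.re_neg, QuadraticAlgebra.im_neg, hre, him]; omega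
      have hpl' : p = (-((l : ℕ) : Eis)) * (-s) := by rw [hpl]; ring
      have hs1 : -s = 1 := prim_unit_eq_one hsu.neg (prim_of_mul_left hprl (hpl' ▸ hpp))
      have hp1 : p = -((l : ℕ) : Eis) := by rw [hpl', hs1, mul_one]
      have hOdl : Od ((l : ℕ) : Eis) := od_natCast hl2
      have hgs' : gs2 1 p = gs2 1 ((l : ℕ) : Eis) := by
        have hm1 : sy2 (-1) ((l : ℕ) : Eis) = 1 := by
          rw [sy2_eq_qy, qy_neg_one (odd_of_od hOdl), if_neg]
          · norm_num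
          · rw [nm_natCast, pow_two, Nat.mul_mod]
            rcases (by omega : l % 4 = 1 ∨ l % 4 = 3) with h | h <;> rw [h] <;> norm_num
        have h1 : gs2 (1 * (-1)) ((l : ℕ) : Eis) = gs2 1 ((l : ℕ) : Eis) := by
          rw [gs2_mul_of_coprime hOdl 1 (isCoprime_of_isUnit (isUnit_one.neg) _), hm1, one_mul]
        rw [← h1]
        unfold gs2 Gauss880.gsum
        have hass : Associated p ((l : ℕ) : Eis) := ⟨t, ht⟩
        rw [sumMod_associated hp.ne_zero hass (pmod_term h2)]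
        refine sumMod_congr fun x => ?_
        have h3 : sy2 x p = sy2 x ((l : ℕ) : Eis) := by
          rw [sy2_eq_qy, sy2_eq_qy, qy_assoc_right x hass]
        rw [h3, hp1]
        congr 2
        rw [map_neg, one_mul, map_neg]
        ring
      unfold G2
      rw [hsq, hgs', hgs, (J3 hl2).2 hl3, mul_div_cancel_right₀ _ hlC, hp1]
      unfold kap4
      rw [QuadraticAlgebra.re_neg, QuadraticAlgebra.im_neg, hre, him]
      have hk : kx (-(l : ℤ)) (-0) = if l % 4 = 3 then 0 else 2 := by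
        have e0 : e4 1 2 (-(l : ℤ)) (-0) = if (-(l : ℤ)) % 4 = 3 ∧ nf 1 2 % 4 = 3 then -1 else 1 := by
          rw [neg_zero, e4_symm, e4_rat (by omega) (by decide)]
        have e1 : nf (-(l : ℤ)) (-0) % 4 = 1 := by
          have : (-(l : ℤ)) % 4 = 1 ∨ (-(l : ℤ)) % 4 = 3 := by omega
          rcases this with h | h
          · exact (nf_modEq (show (-(l : ℤ)) ≡ 1 [ZMOD 4] from h) (Int.ModEq.refl (-0))).trans (show nf _ (-0) ≡ 1 [ZMOD 4] by decide)
          · exact (nf_modEq (show (-(l : ℤ)) ≡ 3 [ZMOD 4] from h) (Int.ModEq.refl (-0))).trans (show nf _ (-0) ≡ 1 [ZMOD 4] by decide)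
        have e2 : hh (-(l : ℤ)) (-0) = 1 := by unfold hh; norm_num
        unfold kx
        rw [e0, e1, e2]
        have e5 : nf 1 2 % 4 = 3 := by decide
        rw [e5]
        rcases (by omega : l % 4 = 1 ∨ l % 4 = 3) with h | h
        · have : (-(l : ℤ)) % 4 = 3 := by omega
          simp [this, h]
        · have : (-(l : ℤ)) % 4 = 1 := by omega
          simp [this, h]
      rw [hk]
      split_ifs <;> simp

/-- **The normalised quadratic Gauss sum.** -/
theorem G2_eq {c : Eis} (hc : IsPrim c) (h2 : Od c) (hsf : Squarefree c) : G2 c = kap4 c := by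
  revert h2 hsf
  refine prim_induction ?_ ?_ hc
  · intro _ _
    rw [G2_one, kap4_one]
  · intro p b hp hpp hb ih h2 hsf
    have hop := h2.left
    have hob := h2.right
    have hcop : IsCoprime p b := by
      rw [hp.irreducible.coprime_iff_not_dvd]
      intro hd
      exact hp.not_isUnit (hsf p (mul_dvd_mul_left _ hd))
    have hsb : Squarefree b := hsf.squarefree_of_dvd (dvd_mul_left _ _)
    rw [G2_mul hop hob hcop, G2_prime hp hpp hop, ih hob hsb,
      kap4_mul (odd_of_od hop) (odd_of_od hob), sy2_reciprocity hop hob]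
    have hsq : sy2 b p * sy2 b p = 1 := by
      rw [sy2_eq_qy, ← Int.cast_mul, ← pow_two, qy_sq (odd_of_od hop) hcop.symm]
      norm_num
    linear_combination ((eps4 p b : ℤ) : ℂ) * (kap4 p * kap4 b) * hsq

end Crest.Agent.R017.QS411
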