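import Crest.Agent.R017.LSd_848
import Crest.Agent.R017.QSl_411

/-!
# Row 17: `eps2 = kap4` on odd primary elements, and the cocycle formula (G3)

* `eps2_eq_kap4 : IsPrim c → Od c → eps2 c = kap4 c`
* `eps2_mul : eps2 (a * b) = sy2 a b * sy2 b a * (eps2 a * eps2 b)` for coprime odd primary `a, b`
-/

set_option autoImplicit false
set_option linter.unusedSimpArgs false

noncomputable section

open Complex

namespace Crest.Agent.R017.LS848

open Crest.Agent.R012 Crest.Agent.R012.Eis Crest.Agent.R012.Gauss880 Crest.Agent.R017.Sx440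
open Crest.Agent.R017.QS411

lemma kx_table : ∀ u v : Fin 4, kx (u : ℕ) (v : ℕ) % 4 =
    if u = 0 ∧ v = 1 then 0 else if u = 0 ∧ v = 3 then 2 else
    if u = 1 ∧ v = 0 then 0 else if u = 1 ∧ v = 1 then 2 else if u = 1 ∧ v = 2 then 3 else
    if u = 1 ∧ v = 3 then 3 else if u = 2 ∧ v = 1 then 3 else if u = 2 ∧ v = 3 then 3 else
    if u = 3 ∧ v = 0 then 2 else if u = 3 ∧ v = 1 then 3 else if u = 3 ∧ v = 2 then 3 else
    if u = 3 ∧ v = 3 then 0 else kx (u : ℕ) (v : ℕ) % 4 := by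
  decide +kernel

/-- `eps2` and `kap4` agree on odd primary elements. -/
theorem eps2_eq_kap4 {c : Eis} (hc : IsPrim c) (h2 : Od c) : eps2 c = kap4 c := by
  rw [eps2_eq hc]
  have hodd : ¬ (c.re % 2 = 0 ∧ c.im % 2 = 0) := by
    rintro ⟨h3, h4⟩
    apply h2
    have : ((2 : ℤ) : Eis) ∣ c := by
      rw [intCast_dvd_iff]
      exact ⟨Int.dvd_of_emod_eq_zero h3, Int.dvd_of_emod_eq_zero h4⟩
    exact_mod_cast this
  unfold kap4
  set u := c.re with hu
  set v := c.im with hv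
  have hu4 : u % 4 = 0 ∨ u % 4 = 1 ∨ u % 4 = 2 ∨ u % 4 = 3 := by omega
  have hv4 : v % 4 = 0 ∨ v % 4 = 1 ∨ v % 4 = 2 ∨ v % 4 = 3 := by omega
  have z0 : (-I : ℂ) ^ (0 : ℤ) = 1 := zpow_zero _
  have z1 : (-I : ℂ) ^ (1 : ℤ) = -I := zpow_one _
  have z2 : (-I : ℂ) ^ (2 : ℤ) = -1 := by
    have h : (-I : ℂ) ^ (2 : ℤ) = (-I) ^ 2 := by norm_cast
    rw [h, neg_sq, Complex.I_sq]
  have z3 : (-I : ℂ) ^ (3 : ℤ) = I := by
    have h : (-I : ℂ) ^ (3 : ℤ) = (-I) ^ 3 := by norm_cast
    rw [h]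
    linear_combination (-I) * Complex.I_sq
  have hn : ∀ a b c' : ℤ, (2 * u - v) % 4 = a % 4 → (-u - v) % 4 = b % 4 →
      (2 * v - u) % 4 = c' % 4 →
      (1 + (-I) ^ (2 * u - v) + (-I) ^ (-u - v) + (-I) ^ (2 * v - u) : ℂ) =
      (1 + (-I) ^ a + (-I) ^ b + (-I) ^ c' : ℂ) := by
    intro a b c' ha hb hc'
    rw [negI_zpow_congr ha, negI_zpow_congr hb, negI_zpow_congr hc']
  -- the value of `kx`
  have hk : ∀ (x y : Fin 4) (k : ℕ), u % 4 = ((x : ℕ) : ℤ) → v % 4 = ((y : ℕ) : ℤ) →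
      kx (x : ℕ) (y : ℕ) % 4 = k % 4 → (I : ℂ) ^ kx u v = I ^ k := by
    intro x y k hx hy hxy
    have h1 : u ≡ ((x : ℕ) : ℤ) [ZMOD 4] := by
      have : ((x : ℕ) : ℤ) < 4 := by exact_mod_cast x.2
      unfold Int.ModEq; omega
    have h2 : v ≡ ((y : ℕ) : ℤ) [ZMOD 4] := by
      have : ((y : ℕ) : ℤ) < 4 := by exact_mod_cast y.2
      unfold Int.ModEq; omega
    rw [kx_congr h1 h2]
    exact I_pow_mod hxy
  have hI3 : (I : ℂ) ^ 3 = -I := by
    have : (I : ℂ) ^ 3 = I ^ 2 * I := by ring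
    rw [this, I_sq]; ring
  rcases hu4 with h | h | h | h <;> rcases hv4 with h' | h' | h' | h'
  · exfalso; apply hodd; omega
  · rw [hn 3 3 2 (by omega) (by omega) (by omega), z3, z2,
      hk 0 1 0 (by simpa using h) (by simpa using h') (by rw [kx_table]; decide)]
    rw [pow_zero]
    linear_combination (-1 : ℂ) * Complex.I_sq
  · exfalso; apply hodd; omega
  · rw [hn 1 1 2 (by omega) (by omega) (by omega), z1, z2,
      hk 0 3 2 (by simpa using h) (by simpa using h') (by rw [kx_table]; decide)]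
    rw [I_sq]
    linear_combination (1 : ℂ) * Complex.I_sq
  · rw [hn 2 3 3 (by omega) (by omega) (by omega), z3, z2,
      hk 1 0 0 (by simpa using h) (by simpa using h') (by rw [kx_table]; decide)]
    rw [pow_zero]
    linear_combination (-1 : ℂ) * Complex.I_sq
  · rw [hn 1 2 1 (by omega) (by omega) (by omega), z1, z2,
      hk 1 1 2 (by simpa using h) (by simpa using h') (by rw [kx_table]; decide)]
    rw [I_sq]
    linear_combination (1 : ℂ) * Complex.I_sq
  · rw [hn 0 1 3 (by omega) (by omega) (by omega), z0, z1, z3,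
      hk 1 2 3 (by simpa using h) (by simpa using h') (by rw [kx_table]; decide)]
    rw [hI3]; ring
  · rw [hn 3 0 1 (by omega) (by omega) (by omega), z0, z1, z3,
      hk 1 3 3 (by simpa using h) (by simpa using h') (by rw [kx_table]; decide)]
    rw [hI3]; ring
  · exfalso; apply hodd; omega
  · rw [hn 3 1 0 (by omega) (by omega) (by omega), z0, z1, z3,
      hk 2 1 3 (by simpa using h) (by simpa using h') (by rw [kx_table]; decide)]
    rw [hI3]; ring
  · exfalso; apply hodd; omega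
  · rw [hn 1 3 0 (by omega) (by omega) (by omega), z0, z1, z3,
      hk 2 3 3 (by simpa using h) (by simpa using h') (by rw [kx_table]; decide)]
    rw [hI3]; ring
  · rw [hn 2 1 1 (by omega) (by omega) (by omega), z1, z2,
      hk 3 0 2 (by simpa using h) (by simpa using h') (by rw [kx_table]; decide)]
    rw [I_sq]
    linear_combination (1 : ℂ) * Complex.I_sq
  · rw [hn 1 0 3 (by omega) (by omega) (by omega), z0, z1, z3,
      hk 3 1 3 (by simpa using h) (by simpa using h') (by rw [kx_table]; decide)]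
    rw [hI3]; ring
  · rw [hn 0 3 1 (by omega) (by omega) (by omega), z0, z1, z3,
      hk 3 2 3 (by simpa using h) (by simpa using h') (by rw [kx_table]; decide)]
    rw [hI3]; ring
  · rw [hn 3 2 3 (by omega) (by omega) (by omega), z3, z2,
      hk 3 3 0 (by simpa using h) (by simpa using h') (by rw [kx_table]; decide)]
    rw [pow_zero]
    linear_combination (-1 : ℂ) * Complex.I_sq

lemma Od_mul {a b : Eis} (ha : Od a) (hb : Od b) : Od (a * b) := by
  apply od_of_odd
  rw [nm_mul, Nat.mul_mod, odd_of_od ha, odd_of_od hb]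

/-- `sy2 a b * sy2 b a = (-1)^(...)` only depends on `a, b` modulo `4`. -/
theorem sy2_mul_sy2 {a b : Eis} (ha : Od a) (hb : Od b) (hab : IsCoprime a b) :
    sy2 a b * sy2 b a = (eps4 a b : ℂ) := by
  rw [sy2_reciprocity ha hb, mul_assoc, ← pow_two, sy2_sq ha hab.symm, mul_one]

/-- **(G3)**: the cocycle formula for `eps2`. -/
theorem eps2_mul {a b : Eis} (ha : IsPrim a) (hb : IsPrim b) (h2a : Od a) (h2b : Od b)
    (hab : IsCoprime a b) :
    eps2 (a * b) = sy2 a b * sy2 b a * (eps2 a * eps2 b) := by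
  rw [eps2_eq_kap4 (ha.mul hb) (Od_mul h2a h2b), eps2_eq_kap4 ha h2a, eps2_eq_kap4 hb h2b,
    sy2_mul_sy2 h2a h2b hab, kap4_mul (odd_of_od h2a) (odd_of_od h2b)]

/-- the same, without coprimality, in terms of the sign `eps4`. -/
theorem eps2_mul' {a b : Eis} (ha : IsPrim a) (hb : IsPrim b) (h2a : Od a) (h2b : Od b) :
    eps2 (a * b) = (eps4 a b : ℂ) * (eps2 a * eps2 b) := by
  rw [eps2_eq_kap4 (ha.mul hb) (Od_mul h2a h2b), eps2_eq_kap4 ha h2a, eps2_eq_kap4 hb h2b,
    kap4_mul (odd_of_od h2a) (odd_of_od h2b)]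

end Crest.Agent.R017.LS848
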