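import Crest.Agent.R017.Rw1_266
import Crest.Agent.R017.LSe_848
import Crest.Agent.R017.BDefs_770

/-!
# Row 17, sextic F2: the instance `γ = kap4` (and its conjugate) of 266's `Gm`

* `rho2_eq_eps4 : ρ₂(a, b) = eps4 a b` on odd elements
* `gm_kap4`, `gm_conj_kap4 : Gm N kap4`, `Gm N (conj kap4)` for every admissible level
* `mu_G_twist_kap4`, `conj_mu_G_twist_kap4` : 440's identity with `kap4`
* `hN_eq_kap4`, `conj_hN_eq` : 770's natural coefficient with `kap4`
* `hN_squarefree : hN a b = μ(b) G(b) conj (a/b)_3`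
-/

set_option autoImplicit false

noncomputable section

open Complex
open scoped ComplexConjugate

namespace Crest.Agent.R017.GmK411

open Crest.Agent.R012 Crest.Agent.R012.Eis Crest.Agent.R012.Gauss880 Crest.Agent.R017.Sx440
open Crest.Agent.R017.Kub664 Crest.Agent.R017.Rw266 Crest.Agent.R017.QS411

lemma isCoprime_four {a : Eis} (ha : Od a) : IsCoprime a 4 := by
  have h2 : IsCoprime (2 : Eis) a := ha.isCoprime
  have h : (4 : Eis) = 2 * 2 := by norm_num
  rw [h]
  exact (h2.mul_left h2).symm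

/-- every odd class modulo `4` contains an element prime to a given odd `a`. -/
lemma exists_coprime_class {a : Eis} (ha : Od a) (b : Eis) :
    ∃ b' : Eis, (4 : Eis) ∣ b - b' ∧ IsCoprime a b' := by
  obtain ⟨r, s, hrs⟩ := isCoprime_four ha
  refine ⟨b + 4 * (s * (1 - b)), ⟨-(s * (1 - b)), by ring⟩, (1 - b) * r, 1, ?_⟩
  linear_combination (1 - b) * hrs

theorem rho2_eq_eps4 {a b : Eis} (ha : Od a) (hb : Od b) : rho2 a b = ((eps4 a b : ℤ) : ℂ) := by
  obtain ⟨b', h4, hcop⟩ := exists_coprime_class ha b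
  have hb' : Od b' := od_congr' ((show (2 : Eis) ∣ 4 from ⟨2, by norm_num⟩).trans h4) hb
  rw [rho2_congr_right ha hb h4, eps4_congr_right a h4]
  have h1 := recF2.rel a b' ha hb'
  have h2 := sy2_reciprocity ha hb'
  have h3 : sy2 b' a ≠ 0 := sy2_ne_zero ha hcop.symm
  apply mul_right_cancel₀ h3
  rw [← h2]
  linear_combination -h1

lemma norm_kap4 (c : Eis) : ‖kap4 c‖ = 1 := by
  unfold kap4; rw [norm_pow, Complex.norm_I, one_pow]

lemma kap4_pmod {N : Eis} (hN : (4 : Eis) ∣ N) : PMod N kap4 := by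
  intro c t
  apply kap4_congr
  have : c + N * t - c = N * t := by ring
  rw [this]
  exact hN.mul_right t

theorem gm_kap4 {N : Eis} (hN : (4 : Eis) ∣ N) : Gm N kap4 where
  per := kap4_pmod hN
  mul a b ha hb := by
    rw [kap4_mul (odd_of_od ha) (odd_of_od hb), rho2_eq_eps4 ha hb]; ring
  norm a _ := norm_kap4 a

theorem gm_conj_kap4 {N : Eis} (hN : (4 : Eis) ∣ N) : Gm N (fun c => conj (kap4 c)) where
  per := fun c t => by
    show conj (kap4 (c + N * t)) = conj (kap4 c)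
    rw [kap4_pmod hN c t]
  mul a b ha hb := by
    show conj (kap4 (a * b)) = conj (kap4 a) * conj (kap4 b) * rho2 a b
    rw [kap4_mul (odd_of_od ha) (odd_of_od hb), rho2_eq_eps4 ha hb, map_mul, map_mul,
      map_intCast]
    ring
  norm a _ := by
    show ‖conj (kap4 a)‖ = 1
    rw [Complex.norm_conj, norm_kap4]

lemma norm_ang' (l : ℤ) {c : Eis} (hc : c ≠ 0) : ‖ang l c‖ = 1 := by
  have h : toC c ≠ 0 := fun h => hc (toC_injective (by rw [h, map_zero]))
  unfold ang
  rw [norm_zpow, norm_div, Complex.norm_real, norm_norm, div_self (norm_ne_zero_iff.2 h), one_zpow]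

theorem gm_kap4' {N : Eis} (hN : Lev N) : Gm N kap4 := gm_kap4 (four_dvd_72.trans hN.d72)

theorem gm_conj_kap4' {N : Eis} (hN : Lev N) : Gm N (fun c => conj (kap4 c)) :=
  gm_conj_kap4 (four_dvd_72.trans hN.d72)

/-- `μ(c) G(c) conj (a/c)_3 = (c/|c|) conj (2/c)_3 kap4(c) conj (gs6 (a⁴) c / √N c)`. -/
theorem mu_G_twist_kap4 {c : Eis} (hc : Gd c) (hsf : Squarefree c) (a : Eis) :
    (muE c : ℂ) * G c * conj (sy a c) =
      ang 1 c * conj (sy 2 c) * kap4 c * conj (gs6 (a ^ 4) c / (Real.sqrt (nm c) : ℂ)) := by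
  rw [mu_G_twist hc.1 hc.2 hsf a, G2_eq hc.1 hc.2 hsf]

/-- The conjugate identity: the coefficient `conj (kap4 c) gs6 (a⁴) c`, i.e. `γ = conj kap4`. -/
theorem conj_mu_G_twist_kap4 {c : Eis} (hc : Gd c) (hsf : Squarefree c) (a : Eis) :
    (muE c : ℂ) * conj (G c) * sy a c =
      conj (ang 1 c) * sy 2 c * (conj (kap4 c) * (gs6 (a ^ 4) c / (Real.sqrt (nm c) : ℂ))) := by
  have h := congrArg conj (mu_G_twist_kap4 hc hsf a)
  simp only [map_mul, Complex.conj_conj] at h
  have hmu : conj ((muE c : ℤ) : ℂ) = ((muE c : ℤ) : ℂ) := map_intCast _ _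
  rw [hmu] at h
  rw [h]; ring

/-- solved for the Gauss sum. -/
theorem conj_kap4_gs6 {c : Eis} (hc : Gd c) (hsf : Squarefree c) (a : Eis) :
    conj (kap4 c) * (gs6 (a ^ 4) c / (Real.sqrt (nm c) : ℂ)) =
      ang 1 c * conj (sy 2 c) * ((muE c : ℂ) * conj (G c) * sy a c) := by
  have h := conj_mu_G_twist_kap4 hc hsf a
  have h1 : ang 1 c * conj (ang 1 c) = 1 := by
    rw [Complex.mul_conj, Complex.normSq_eq_norm_sq, norm_ang' 1 hc.ne]; simp
  have h2 : sy 2 c * conj (sy 2 c) = 1 := sy_conj_mul_self syG hc.1 hc.2.isCoprime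
  rw [h]
  linear_combination (-(conj (kap4 c) * (gs6 (a ^ 4) c / (Real.sqrt (nm c) : ℂ)))) *
      ((sy 2 c * conj (sy 2 c)) * h1 + h2)

/-- 770's natural coefficient through `kap4`. -/
theorem hN_eq_kap4 {b : Eis} (hb : Gd b) (a : Eis) :
    B770.hN a b = ang 1 b * conj (sy 2 b) * kap4 b * conj (gs6 (a ^ 4) b) /
      (Real.sqrt (nm b) : ℂ) := by
  unfold B770.hN
  rw [LS848.eps2_eq_kap4 hb.1 hb.2]

theorem conj_hN_eq {b : Eis} (hb : Gd b) (a : Eis) :
    conj (B770.hN a b) = conj (ang 1 b) * sy 2 b * (conj (kap4 b) * gs6 (a ^ 4) b) /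
      (Real.sqrt (nm b) : ℂ) := by
  rw [hN_eq_kap4 hb a, map_div₀, map_mul, map_mul, map_mul, Complex.conj_conj, Complex.conj_conj,
    Complex.conj_ofReal]
  ring

theorem hN_squarefree {b : Eis} (hb : Gd b) (hsf : Squarefree b) (a : Eis) :
    B770.hN a b = (muE b : ℂ) * G b * conj (sy a b) := by
  rw [hN_eq_kap4 hb a, mu_G_twist_kap4 hb hsf a, map_div₀, Complex.conj_ofReal]
  ring

end Crest.Agent.R017.GmK411
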