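import Crest.Agent.R017.PoissonTk_858
import Crest.Agent.R017.GmK_411

/-!
# Row 17, section B: leaf L1, fields `mul`, `one`, `c1` of `TkAlg`
-/

set_option autoImplicit false

noncomputable section

open Complex
open scoped ComplexConjugate

namespace Crest.Agent.R017.TkM858

open Crest.Agent.R012 Crest.Agent.R012.Eis Crest.Agent.R012.Mob705 Crest.Agent.R012.Gauss880
open Crest.Agent.R012.Po581
open Crest.Agent.R017.Sx440 Crest.Agent.R017.Sx545 Crest.Agent.R017.B770 Crest.Agent.R017.PT858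

variable {a b c : Eis}

lemma Sm.two_od {c : Eis} (h : Sm 2 c) : Od c := h.od (dvd_refl 2)

/-- multiplicativity of `hN` in the modulus. -/
theorem hN_mul_right {b₁ b₂ : Eis} (h₁ : Sm 2 b₁) (h₂ : Sm 2 b₂) (hc : IsCoprime b₁ b₂)
    (a : Eis) : hN a (b₁ * b₂) = conj (sy b₁ b₂) * hN a b₁ * hN a b₂ := by
  have p₁ := h₁.1
  have p₂ := h₂.1
  have o₁ := Sm.two_od h₁
  have o₂ := Sm.two_od h₂
  have n₁ := sqrt_nm_ne_zero p₁.ne_zero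
  have n₂ := sqrt_nm_ne_zero p₂.ne_zero
  unfold hN
  rw [P355.ang_mul, Sym645.sy_mul_right 2 p₁.ne_zero p₂.ne_zero, LS848.eps2_mul p₁ p₂ o₁ o₂ hc,
    gs6_crt p₁ o₁ p₂ o₂ hc, nm_mul, Nat.cast_mul, Real.sqrt_mul (by positivity)]
  rw [map_mul (starRingEnd ℂ) (sy6 b₂ b₁ * sy6 b₁ b₂), map_mul (starRingEnd ℂ) (sy6 b₂ b₁),
    conj_sy6 o₁, conj_sy6 o₂, map_mul (starRingEnd ℂ) (gs6 (a ^ 4) b₁),
    map_mul (starRingEnd ℂ) (sy 2 b₁)]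
  have e1 : sy2 b₁ b₂ * sy2 b₁ b₂ = 1 := by rw [← sq]; exact sy2_sq o₂ hc
  have e2 : sy2 b₂ b₁ * sy2 b₂ b₁ = 1 := by rw [← sq]; exact sy2_sq o₁ hc.symm
  have e3 : sy b₂ b₁ * sy b₁ b₂ = conj (sy b₁ b₂) := by
    rw [← sy_sq_eq_conj syG p₂, sq, syG.recip b₂ b₁ p₂ p₁]
  rw [← e3]
  push_cast
  field_simp
  linear_combination (e1 * sy2 b₂ b₁ ^ 2 + e2) * (ang 1 b₁ * ang 1 b₂ * conj (sy 2 b₁) *
    conj (sy 2 b₂) * LS848.eps2 b₁ * LS848.eps2 b₂ * sy b₂ b₁ * sy b₁ b₂ *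
    conj (gs6 (a ^ 4) b₁) * conj (gs6 (a ^ 4) b₂))

/-- the exponential sum in `tk`. -/
def TS (k b c : Eis) : ℂ :=
  sumMod (b * c) (fun a => FF b c a * eC (-(toC a * toC k / (toC b * toC c))))

lemma tk_eq (k b c : Eis) :
    tk k b c = conj (G c) / (Real.sqrt (nm b * nm c) : ℂ) * TS k b c := rfl

lemma pmod_exp {q : Eis} (hq : q ≠ 0) (k : Eis) :
    PMod q (fun a => eC (-(toC a * toC k / toC q))) := by
  intro x t
  have hq' := Po581.toC_ne_zero hq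
  have h1 : -(toC (x + q * t) * toC k / toC q) = -(toC x * toC k / toC q) +
      dl Po581.sq3 * toC (-(t * k)) := by
    rw [show dl Po581.sq3 = 1 by unfold dl; rw [toC_sq3, div_self iS3_ne_zero], one_mul, map_add,
      map_neg, map_mul, map_mul]
    field_simp
    ring
  simp only
  rw [h1, Po581.eC_add', eC_dl_mul, mul_one]

/-- **Multiplicativity of the exponential sum.** -/
theorem TS_mul {k b₁ b₂ c₁ c₂ : Eis} (hb₁ : Sm 2 b₁) (hb₂ : Sm 2 b₂) (hc₁ : Sm 2 c₁)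
    (hc₂ : Sm 2 c₂) (h : IsCoprime (b₁ * c₁) (b₂ * c₂)) :
    TS k (b₁ * b₂) (c₁ * c₂) = conj (sy c₁ c₂) * TS k b₁ c₁ * TS k b₂ c₂ := by
  have pb₁ := hb₁.1
  have pb₂ := hb₂.1
  have pc₁ := hc₁.1
  have pc₂ := hc₂.1
  have ob₁ := Sm.two_od hb₁
  have ob₂ := Sm.two_od hb₂
  have q₁ : b₁ * c₁ ≠ 0 := mul_ne_zero pb₁.ne_zero pc₁.ne_zero
  have q₂ : b₂ * c₂ ≠ 0 := mul_ne_zero pb₂.ne_zero pc₂.ne_zero
  have hbb : IsCoprime b₁ b₂ := h.of_mul_left_left.of_mul_right_left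
  have hbc : IsCoprime b₁ c₂ := h.of_mul_left_left.of_mul_right_right
  have hcb : IsCoprime c₁ b₂ := h.of_mul_left_right.of_mul_right_left
  have hcc : IsCoprime c₁ c₂ := h.of_mul_left_right.of_mul_right_right
  have hq : b₁ * b₂ * (c₁ * c₂) = (b₁ * c₁) * (b₂ * c₂) := by ring
  have tb₁ := Po581.toC_ne_zero pb₁.ne_zero
  have tb₂ := Po581.toC_ne_zero pb₂.ne_zero
  have tc₁ := Po581.toC_ne_zero pc₁.ne_zero
  have tc₂ := Po581.toC_ne_zero pc₂.ne_zero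
  have hFF : ∀ x, FF (b₁ * b₂) (c₁ * c₂) x = conj (sy b₁ b₂) * (FF b₁ c₁ x * FF b₂ c₂ x) := by
    intro x
    unfold FF
    rw [hN_mul_right hb₁ hb₂ hbb, Sym645.sy_mul_right x pc₁.ne_zero pc₂.ne_zero]
    ring
  have hE : ∀ x, eC (-(toC x * toC k / (toC (b₁ * b₂) * toC (c₁ * c₂)))) =
      eC (-(toC x * toC k / toC ((b₁ * c₁) * (b₂ * c₂)))) := by
    intro x
    rw [← hq, map_mul toC (b₁ * b₂)]
  have hP1 : PMod ((b₁ * c₁) * (b₂ * c₂)) (FF b₁ c₁) := (pmod_FF pc₁).mono (dvd_mul_right _ _)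
  have hP2 : PMod ((b₁ * c₁) * (b₂ * c₂)) (FF b₂ c₂) := (pmod_FF pc₂).mono (dvd_mul_left _ _)
  have hP : PMod ((b₁ * c₁) * (b₂ * c₂)) (fun x => (FF b₁ c₁ x * FF b₂ c₂ x) *
      eC (-(toC x * toC k / toC ((b₁ * c₁) * (b₂ * c₂))))) :=
    (hP1.mul hP2).mul (pmod_exp (mul_ne_zero q₁ q₂) k)
  -- the cross factors
  set κ₁ : ℂ := sy (b₂ * c₂) c₁ * conj (sy (b₂ * c₂) b₁) with hκ₁
  set κ₂ : ℂ := sy (b₁ * c₁) c₂ * conj (sy (b₁ * c₁) b₂) with hκ₂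
  have hu₁ : IsCoprime (b₂ * c₂) b₁ := (hbb.mul_right hbc).symm
  have hu₂ : IsCoprime (b₁ * c₁) b₂ := hbb.mul_left hcb
  have key := sumMod_crt_mul
    (f := fun x => κ₁ * (FF b₁ c₁ x * eC (-(toC x * toC k / (toC b₁ * toC c₁)))))
    (g := fun x => κ₂ * (FF b₂ c₂ x * eC (-(toC x * toC k / (toC b₂ * toC c₂)))))
    q₁ q₂ _ h hP (fun x y => ?_)
  · have e : TS k (b₁ * b₂) (c₁ * c₂) = conj (sy b₁ b₂) *
        sumMod ((b₁ * c₁) * (b₂ * c₂)) (fun x => (FF b₁ c₁ x * FF b₂ c₂ x) *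
          eC (-(toC x * toC k / toC ((b₁ * c₁) * (b₂ * c₂))))) := by
      unfold TS
      rw [← sumMod_mul_left (mul_ne_zero q₁ q₂), hq]
      refine sumMod_congr fun x => ?_
      rw [hFF, hE]
      ring
    rw [e, key, sumMod_mul_left q₁, sumMod_mul_left q₂]
    have e1 : sumMod (b₁ * c₁) (fun x => FF b₁ c₁ x * eC (-(toC x * toC k / (toC b₁ * toC c₁)))) =
      TS k b₁ c₁ := rfl
    have e2 : sumMod (b₂ * c₂) (fun x => FF b₂ c₂ x * eC (-(toC x * toC k / (toC b₂ * toC c₂)))) =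
      TS k b₂ c₂ := rfl
    rw [e1, e2]
    have hκ : conj (sy b₁ b₂) * (κ₁ * κ₂) = conj (sy c₁ c₂) := by
      rw [hκ₁, hκ₂, (isCh_sy syG pc₁).mul, (isCh_sy syG pb₁).mul, (isCh_sy syG pc₂).mul,
        (isCh_sy syG pb₂).mul, map_mul (starRingEnd ℂ), map_mul (starRingEnd ℂ),
        syG.recip b₂ b₁ pb₂ pb₁, syG.recip b₂ c₁ pb₂ pc₁, syG.recip c₂ b₁ pc₂ pb₁,
        syG.recip c₂ c₁ pc₂ pc₁]
      have f1 : sy b₁ b₂ * conj (sy b₁ b₂) = 1 :=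
        (isCh_sy syG pb₂).mul_conj_self pb₂.ne_zero hbb
      have f2 : sy b₁ c₂ * conj (sy b₁ c₂) = 1 :=
        (isCh_sy syG pc₂).mul_conj_self pc₂.ne_zero hbc
      have f3 : sy c₁ b₂ * conj (sy c₁ b₂) = 1 :=
        (isCh_sy syG pb₂).mul_conj_self pb₂.ne_zero hcb
      have f4 : sy c₁ c₂ * conj (sy c₁ c₂) = 1 :=
        (isCh_sy syG pc₂).mul_conj_self pc₂.ne_zero hcc
      have g1 : conj (sy b₁ b₂) * conj (sy b₁ b₂) = sy b₁ b₂ := by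
        rw [← sq, ← map_pow, sy_sq_eq_conj syG pb₂, Complex.conj_conj]
      have g4 : sy c₁ c₂ * sy c₁ c₂ = conj (sy c₁ c₂) := by
        rw [← sq, sy_sq_eq_conj syG pc₂]
      calc conj (sy b₁ b₂) * (sy c₁ b₂ * sy c₁ c₂ * (conj (sy b₁ b₂) * conj (sy b₁ c₂)) *
            (sy b₁ c₂ * sy c₁ c₂ * (conj (sy b₁ b₂) * conj (sy c₁ b₂))))
          = ((conj (sy b₁ b₂) * conj (sy b₁ b₂)) * conj (sy b₁ b₂)) *
            (sy c₁ b₂ * conj (sy c₁ b₂)) * (sy b₁ c₂ * conj (sy b₁ c₂)) *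
              (sy c₁ c₂ * sy c₁ c₂) := by ring
        _ = _ := by rw [g1, f1, f2, f3, g4]; ring
    calc conj (sy b₁ b₂) * (κ₁ * TS k b₁ c₁ * (κ₂ * TS k b₂ c₂))
        = (conj (sy b₁ b₂) * (κ₁ * κ₂)) * TS k b₁ c₁ * TS k b₂ c₂ := by ring
      _ = _ := by rw [hκ]
  · have h1 : FF b₁ c₁ (b₂ * c₂ * x + b₁ * c₁ * y) = κ₁ * FF b₁ c₁ x := by
      rw [pmod_FF pc₁, FF_mul pb₁ ob₁ pc₁ hu₁]
    have h2 : FF b₂ c₂ (b₂ * c₂ * x + b₁ * c₁ * y) = κ₂ * FF b₂ c₂ y := by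
      rw [add_comm, pmod_FF pc₂, FF_mul pb₂ ob₂ pc₂ hu₂]
    have h3 : -(toC (b₂ * c₂ * x + b₁ * c₁ * y) * toC k / toC (b₁ * c₁ * (b₂ * c₂))) =
        -(toC x * toC k / (toC b₁ * toC c₁)) + -(toC y * toC k / (toC b₂ * toC c₂)) := by
      simp only [map_add, map_mul]
      field_simp
      ring
    rw [h1, h2, h3, Po581.eC_add']
    ring

/-- **`TkAlg.mul`** -/
theorem tk_mul (k b₁ b₂ c₁ c₂ : Eis) (hb₁ : Sm 2 b₁) (hb₂ : Sm 2 b₂) (hc₁ : Sm 2 c₁)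
    (hc₂ : Sm 2 c₂) (h : IsCoprime (b₁ * c₁) (b₂ * c₂)) :
    tk k (b₁ * b₂) (c₁ * c₂) = tk k b₁ c₁ * tk k b₂ c₂ := by
  have hcc : IsCoprime c₁ c₂ := h.of_mul_left_right.of_mul_right_right
  have hs : Real.sqrt ((nm (b₁ * b₂) : ℝ) * nm (c₁ * c₂)) =
      Real.sqrt (nm b₁ * nm c₁) * Real.sqrt (nm b₂ * nm c₂) := by
    rw [← Real.sqrt_mul (by positivity), nm_mul, nm_mul]
    push_cast
    congr 1
    ring
  have f4 : sy c₁ c₂ * conj (sy c₁ c₂) = 1 :=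
    (isCh_sy syG hc₂.1).mul_conj_self hc₂.1.ne_zero hcc
  rw [tk_eq, tk_eq, tk_eq, TS_mul hb₁ hb₂ hc₁ hc₂ h, hs, G_mul syG hc₁.1 hc₂.1 hcc, map_mul, map_mul,
    Complex.conj_conj, Complex.ofReal_mul]
  have n₁ : (Real.sqrt ((nm b₁ : ℝ) * nm c₁) : ℂ) ≠ 0 := by
    have h1 : (0 : ℝ) < nm b₁ := by exact_mod_cast nm_pos.mpr hb₁.1.ne_zero
    have h2 : (0 : ℝ) < nm c₁ := by exact_mod_cast nm_pos.mpr hc₁.1.ne_zero
    exact_mod_cast (Real.sqrt_pos.mpr (mul_pos h1 h2)).ne'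
  have n₂ : (Real.sqrt ((nm b₂ : ℝ) * nm c₂) : ℂ) ≠ 0 := by
    have h1 : (0 : ℝ) < nm b₂ := by exact_mod_cast nm_pos.mpr hb₂.1.ne_zero
    have h2 : (0 : ℝ) < nm c₂ := by exact_mod_cast nm_pos.mpr hc₂.1.ne_zero
    exact_mod_cast (Real.sqrt_pos.mpr (mul_pos h1 h2)).ne'
  field_simp
  linear_combination (conj (G c₁) * conj (G c₂) * TS k b₁ c₁ * TS k b₂ c₂) * f4

lemma G_one : G (1 : Eis) = 1 := by
  have h3 := G_mul_conj syG isPrim_one squarefree_one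
  have h4 := G_mul syG isPrim_one isPrim_one isCoprime_one_left
  rw [mul_one, Sym645.sy_one_right, map_one, mul_one] at h4
  have h5 : G (1 : Eis) ≠ 0 := left_ne_zero_of_mul_eq_one h3
  exact (mul_right_cancel₀ h5 (by rw [one_mul]; exact h4)).symm

lemma hN_one (a : Eis) : hN a 1 = 1 := by
  have h1 : Rw266.Gd 1 := ⟨isPrim_one, od_one⟩
  rw [GmK411.hN_squarefree h1 squarefree_one, G_one, Sym645.sy_one_right, map_one, muE_one]
  simp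

/-- **`TkAlg.c1`** -/
theorem tk_c1 (k c : Eis) (hc : Sm 2 c) (hsf : Squarefree c) : tk k 1 c = conj (sy k c) := by
  have hp := hc.1
  have hn := sqrt_nm_ne_zero hp.ne_zero
  have h1 : TS k 1 c = gs (-k) c := by
    unfold TS FF gs
    rw [one_mul]
    refine sumMod_congr fun x => ?_
    rw [hN_one, one_mul, map_one, one_mul, map_neg]
    congr 2
    ring
  rw [tk_eq, h1, gs_neg syG hp, gs_eq_G syG hp hsf, nm_one, Nat.cast_one, one_mul]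
  have h2 := G_mul_conj syG hp hsf
  field_simp
  linear_combination (conj (sy k c)) * h2

/-- **`TkAlg.one`** -/
theorem tk_one (k : Eis) : tk k 1 1 = 1 := by
  rw [tk_c1 k 1 ⟨isPrim_one, isCoprime_one_left⟩ squarefree_one, Sym645.sy_one_right, map_one]

end Crest.Agent.R017.TkM858
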