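import Crest.Agent.R017.AS0_590
import Crest.Agent.R017.GmK_411
import Crest.Agent.R017.TkM_858

/-!
# Row 17, section A: local algebra of `HN` at a prime (helper590)

* `HN_mul`, `HN_unit` : multiplicativity, `HN (u ν) b = sy6 u b * HN ν b`
* `HN_pow_eq_zero`, `HN_pow` : the table at `p^m ν'`, `m ≤ 5`
* `KK_mul`, `KK_five` : the products of the local constants
-/

set_option autoImplicit false

noncomputable section

open Complex
open scoped ComplexConjugate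

namespace Crest.Agent.R017.A590

open Crest.Agent.R012 Crest.Agent.R012.Eis Crest.Agent.R012.Mob705 Crest.Agent.R012.Gauss880
open Crest.Agent.R017.Sx440 Crest.Agent.R017.Sx545 Crest.Agent.R017.B770 Crest.Agent.R017.QS411

variable {b c p ν u : Eis}

lemma Sm.two_od' {c : Eis} (h : Sm 2 c) : Od c := h.od (dvd_refl 2)

/-- multiplicativity of `HN` in the modulus. -/
theorem HN_mul {b₁ b₂ : Eis} (h₁ : Sm 2 b₁) (h₂ : Sm 2 b₂) (hc : IsCoprime b₁ b₂)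
    (ν : Eis) : HN ν (b₁ * b₂) = conj (sy b₁ b₂) * HN ν b₁ * HN ν b₂ := by
  have p₁ := h₁.1
  have p₂ := h₂.1
  have o₁ := Sm.two_od' h₁
  have o₂ := Sm.two_od' h₂
  have n₁ := sqrt_nm_ne_zero p₁.ne_zero
  have n₂ := sqrt_nm_ne_zero p₂.ne_zero
  unfold HN
  rw [P355.ang_mul, Sym645.sy_mul_right 2 p₁.ne_zero p₂.ne_zero, LS848.eps2_mul p₁ p₂ o₁ o₂ hc,
    gs6_crt p₁ o₁ p₂ o₂ hc, nm_mul, Nat.cast_mul, Real.sqrt_mul (by positivity)]
  rw [map_mul (starRingEnd ℂ) (sy6 b₂ b₁ * sy6 b₁ b₂), map_mul (starRingEnd ℂ) (sy6 b₂ b₁),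
    conj_sy6 o₁, conj_sy6 o₂, map_mul (starRingEnd ℂ) (gs6 ν b₁),
    map_mul (starRingEnd ℂ) (sy 2 b₁)]
  have e1 : sy2 b₁ b₂ * sy2 b₁ b₂ = 1 := by rw [← sq]; exact sy2_sq o₂ hc
  have e2 : sy2 b₂ b₁ * sy2 b₂ b₁ = 1 := by rw [← sq]; exact sy2_sq o₁ hc.symm
  have e3 : sy b₂ b₁ * sy b₁ b₂ = conj (sy b₁ b₂) := by
    rw [← sy_sq_eq_conj syG p₂, sq, syG.recip b₂ b₁ p₂ p₁]
  rw [← e3]
  push_cast
  field_simp
  linear_combination (e1 * sy2 b₂ b₁ ^ 2 + e2) * (ang 1 b₁ * ang 1 b₂ * conj (sy 2 b₁) *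
    conj (sy 2 b₂) * LS848.eps2 b₁ * LS848.eps2 b₂ * sy b₂ b₁ * sy b₁ b₂ *
    conj (gs6 ν b₁) * conj (gs6 ν b₂))

/-- change of the frequency by an element prime to `b`. -/
theorem HN_unit (hb : Sm 2 b) (hu : IsCoprime u b) (ν : Eis) :
    HN (u * ν) b = sy6 u b * HN ν b := by
  unfold HN
  have h := res_sy6.gR_mul_left hb ν hu
  rw [gR_sy6, gR_sy6] at h
  rw [mul_comm u ν, h, map_mul, Complex.conj_conj]
  ring

lemma HN_eq_zero {ν b : Eis} (h : gs6 ν b = 0) : HN ν b = 0 := by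
  unfold HN
  rw [h, map_zero, mul_zero, zero_div]

/-- the table: zero for `1 ≤ j`, `j ≠ m + 1`. -/
theorem HN_pow_eq_zero (hp : Sm 2 p) (hpp : Prime p) {m j : ℕ} (hm : m ≤ 5) (hj : 1 ≤ j)
    (hjm : j ≠ m + 1) (hν : ¬ p ∣ ν) : HN (p ^ m * ν) (p ^ j) = 0 := by
  apply HN_eq_zero
  rw [mul_comm (p ^ m) ν, ← gR_sy6]
  rcases lt_or_ge j (m + 1) with h | h
  · rw [res_sy6.gR_table_le hp hpp hj (by omega), if_neg]
    intro h6
    have := Nat.le_of_dvd (by omega) h6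
    omega
  · exact res_sy6.gR_table_ge hp hν (by omega)

/-- the local constant -/
def KK (p : Eis) (m : ℕ) : ℂ := HN (p ^ m) (p ^ (m + 1))

theorem HN_pow (hp : Sm 2 p) (hpp : Prime p) (m : ℕ) (hν : ¬ p ∣ ν) :
    HN (p ^ m * ν) (p ^ (m + 1)) = KK p m * sy6 ν p ^ (m + 1) := by
  have hcop : IsCoprime ν (p ^ (m + 1)) :=
    ((Res.isCoprime_iff_not_dvd hpp ν).mpr hν).pow_right
  unfold KK
  rw [mul_comm (p ^ m) ν, HN_unit (hp.pow _) hcop, res_sy6.pow_right ν hp]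
  ring

/-! ### the constants -/

lemma fin_check_self : ∀ x y : Fin 4, nf (x : ℕ) (y : ℕ) % 2 = 1 →
    e4 (x : ℕ) (y : ℕ) (x : ℕ) (y : ℕ) = if nf (x : ℕ) (y : ℕ) % 4 = 3 then -1 else 1 := by
  decide +kernel

lemma eps4_self {c : Eis} (hc : nm c % 2 = 1) : (eps4 c c : ℂ) = sy2 (-1) c := by
  rw [sy2_eq_qy, qy_neg_one hc]
  norm_cast
  unfold eps4
  obtain ⟨a, ha⟩ := fin4 c.re
  obtain ⟨b, hb⟩ := fin4 c.im
  have h0 : nf c.re c.im % 2 = 1 := odd_nf c hc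
  have k : nf (a : ℕ) (b : ℕ) % 2 = 1 :=
    Eq.trans (nf_modEq (mod2_of_mod4 ha) (mod2_of_mod4 hb)) h0
  have h1 := fin_check_self a b k
  rw [e4_congr ha hb ha hb] at h1
  rw [h1]
  have h2 : nf (a : ℕ) (b : ℕ) % 4 = nf c.re c.im % 4 := nf_modEq ha hb
  have h3 : (nm c : ℤ) = nf c.re c.im := nm_eq_nf c.re c.im
  rw [h2]
  by_cases h : nm c % 4 = 3
  · rw [if_pos h, if_pos (by omega)]; rfl
  · rw [if_neg h, if_neg (by omega)]

lemma four_dvd_pow_six {c : Eis} (hc : nm c % 2 = 1) : (4 : Eis) ∣ c ^ 6 - 1 := by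
  obtain ⟨i, hi⟩ := Sx146.exists_unit_un hc
  rw [Sx146.un_iff] at hi
  obtain ⟨t, ht⟩ := hi
  have h1 : w ^ i * c = 1 + 2 * t := by linear_combination ht
  have h2 : (w ^ i) ^ 6 = 1 := by
    rw [← pow_mul, mul_comm i 6, pow_mul]
    have : w ^ 6 = 1 := by
      have := w_cube
      calc w ^ 6 = (w ^ 3) ^ 2 := by ring
        _ = 1 := by rw [this, one_pow]
    rw [this, one_pow]
  have h3 : c ^ 6 = (1 + 2 * t) ^ 6 := by
    rw [← h1, mul_pow, h2, one_mul]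
  rw [h3]
  exact ⟨3 * t + 15 * t ^ 2 + 40 * t ^ 3 + 60 * t ^ 4 + 48 * t ^ 5 + 16 * t ^ 6, by ring⟩

lemma kap4_pow_six {c : Eis} (hc : nm c % 2 = 1) : kap4 (c ^ 6) = 1 := by
  rw [kap4_congr (four_dvd_pow_six hc), kap4_one]

lemma odd_pow {c : Eis} (hc : nm c % 2 = 1) (k : ℕ) : nm (c ^ k) % 2 = 1 := by
  rw [nm_pow]
  exact Nat.odd_iff.mp ((Nat.odd_iff.mpr hc).pow)

lemma eps4_pow_right {a c : Eis} (ha : nm a % 2 = 1) (hc : nm c % 2 = 1) (j : ℕ) :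
    eps4 a (c ^ j) = eps4 a c ^ j := by
  induction j with
  | zero => rw [pow_zero, pow_zero, eps4_symm, eps4_one_left]
  | succ j ih => rw [pow_succ, eps4_mul_right ha (odd_pow hc j) hc, ih, pow_succ]

lemma eps4_pow_left {a c : Eis} (ha : nm a % 2 = 1) (hc : nm c % 2 = 1) (j : ℕ) :
    eps4 (a ^ j) c = eps4 a c ^ j := by
  rw [eps4_symm, eps4_pow_right hc ha, eps4_symm]

lemma sy6_neg_one (hp : Sm 2 p) : sy6 (-1) p = (eps4 p p : ℂ) := by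
  rw [eps4_self (odd_of_od (Sm.two_od' hp))]
  unfold sy6
  rw [Crest.Agent.R012.Gauss880.sy_neg_one syG hp.1, map_one, mul_one]

/-- the sign -/
lemma sign_eq (hp : Sm 2 p) {i j : ℕ} (hij : i + j = 6) :
    LS848.eps2 (p ^ i) * LS848.eps2 (p ^ j) * sy6 (-1) p ^ j = 1 := by
  have ho := odd_of_od (Sm.two_od' hp)
  have hi := hp.pow i
  have hj := hp.pow j
  rw [LS848.eps2_eq_kap4 hi.1 (Sm.two_od' hi), LS848.eps2_eq_kap4 hj.1 (Sm.two_od' hj),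
    sy6_neg_one hp]
  have h1 := kap4_mul (odd_pow ho i) (odd_pow ho j)
  rw [← pow_add, hij, kap4_pow_six ho, eps4_pow_left ho (odd_pow ho j), eps4_pow_right ho ho] at h1
  have h2 : (eps4 p p : ℂ) * (eps4 p p : ℂ) = 1 := by exact_mod_cast eps4_mul_self p p
  push_cast at h1
  have h3 : kap4 (p ^ i) * kap4 (p ^ j) = ((eps4 p p : ℂ) ^ j) ^ i := by
    have h4 : ((eps4 p p : ℂ) ^ j) ^ i * ((eps4 p p : ℂ) ^ j) ^ i = 1 := by
      rw [← mul_pow, ← mul_pow, h2, one_pow, one_pow]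
    calc kap4 (p ^ i) * kap4 (p ^ j)
        = (((eps4 p p : ℂ) ^ j) ^ i * ((eps4 p p : ℂ) ^ j) ^ i) * (kap4 (p ^ i) * kap4 (p ^ j)) := by
          rw [h4, one_mul]
      _ = ((eps4 p p : ℂ) ^ j) ^ i * (((eps4 p p : ℂ) ^ j) ^ i * (kap4 (p ^ i) * kap4 (p ^ j))) := by
          ring
      _ = _ := by rw [← h1, mul_one]
  rw [h3, ← pow_mul, ← pow_add]
  have h5 : j * i + j = 2 * ((j * i + j) / 2) := by
    have : i ≤ 6 := by omega
    have hj' : j = 6 - i := by omega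
    subst hj'
    interval_cases i <;> rfl
  rw [h5, pow_mul, pow_two, h2, one_pow]

lemma ang_def (l : ℤ) (z : Eis) : ang l z = (toC z / (‖toC z‖ : ℂ)) ^ l := rfl

lemma ang_pow_right (l : ℤ) (z : Eis) (k : ℕ) : ang l (z ^ k) = ang l z ^ k := by
  rw [ang_def, ang_def, map_pow, norm_pow]
  push_cast
  rw [← div_pow, ← zpow_natCast, ← zpow_natCast, ← zpow_mul, ← zpow_mul, mul_comm]

lemma ang_add {z : Eis} (hz : z ≠ 0) (k l : ℤ) : ang (k + l) z = ang k z * ang l z := by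
  rw [ang_def, ang_def, ang_def]
  have h := Po581.toC_ne_zero hz
  have h1 : ((‖toC z‖ : ℝ) : ℂ) ≠ 0 := by exact_mod_cast norm_ne_zero_iff.mpr h
  exact zpow_add₀ (div_ne_zero h h1) k l

lemma ang_pow (l : ℤ) (z : Eis) (k : ℕ) : ang l z ^ k = ang (k * l) z := by
  rw [ang_def, ang_def, ← zpow_natCast, ← zpow_mul, mul_comm]

lemma KK_eq (hp : Sm 2 p) (m : ℕ) : KK p m = ang 1 p ^ (m + 1) * conj (sy 2 p) ^ (m + 1) *
    LS848.eps2 (p ^ (m + 1)) * ((nm p : ℂ) ^ m * conj (Sx545.tw sy6 (m + 1) 1 p)) /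
      (Real.sqrt (nm (p ^ (m + 1))) : ℂ) := by
  unfold KK HN
  have h1 := res_sy6.gR_pow 1 hp m
  rw [one_mul, gR_sy6] at h1
  rw [h1, ang_pow_right, res_sy.pow_right 2 (m := 1) ⟨hp.1, isCoprime_one_right⟩, map_pow, map_mul,
    map_pow, Complex.conj_natCast]

/-- **the product of the local constants** -/
theorem KK_mul (hp : Sm 2 p) (hpp : Prime p) {m m' : ℕ} (hm : m + m' = 4) :
    KK p m * KK p m' = ang 1 p ^ 6 * (nm p : ℂ) ^ 2 := by
  have ho := Sm.two_od' hp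
  have hq0 : (nm p : ℝ) ≠ 0 := by exact_mod_cast (nm_pos.mpr hp.ne_zero).ne'
  have hqC : (nm p : ℂ) ≠ 0 := by exact_mod_cast (nm_pos.mpr hp.ne_zero).ne'
  rw [KK_eq hp, KK_eq hp]
  -- Gauss sums
  have h1 : conj (Sx545.tw sy6 (m + 1) 1 p) * conj (Sx545.tw sy6 (m' + 1) 1 p) =
      sy6 (-1) p ^ (m' + 1) * (nm p : ℂ) := by
    have e1 := res_sy6.conj_tw hp (i := m + 1) (j := m' + 1) (by omega) (by omega)
      (by omega) 1
    have hcop : IsCoprime (-1 : Eis) p := isCoprime_one_left.neg_left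
    have e2 := res_sy6.tw_mul_left hp (j := m' + 1) (by omega) 1 hcop
    rw [one_mul] at e2
    have e3 := res_sy6.norm_tw_sq hp hpp (j := m' + 1) (by
      intro h6; have := Nat.le_of_dvd (by omega) h6; omega) (s := 1)
      (fun h => hpp.not_isUnit (isUnit_of_dvd_one h))
    have e4 : conj (sy6 (-1) p) = sy6 (-1) p := by
      rw [sy6_neg_one hp]; simp
    rw [e1, e2, e4]
    have e5 : Sx545.tw sy6 (m' + 1) 1 p * conj (Sx545.tw sy6 (m' + 1) 1 p) = (nm p : ℂ) := by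
      rw [Complex.mul_conj, Complex.normSq_eq_norm_sq, e3]; simp
    rw [mul_assoc, e5]
  have h2 := sign_eq hp (i := m + 1) (j := m' + 1) (by omega)
  have h3 : conj (sy 2 p) ^ (m + 1) * conj (sy 2 p) ^ (m' + 1) = 1 := by
    rw [← pow_add, show m + 1 + (m' + 1) = 6 by omega, ← map_pow]
    have hcop : IsCoprime (2 : Eis) p := hp.2.symm
    have h4 := res_sy.pow_eq 2 p ⟨hp.1, isCoprime_one_right⟩ hcop
    rw [show (6 : ℕ) = 3 * 2 by norm_num, pow_mul, h4, one_pow, map_one]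
  have h5 : (Real.sqrt (nm (p ^ (m + 1))) : ℂ) * (Real.sqrt (nm (p ^ (m' + 1))) : ℂ) =
      (nm p : ℂ) ^ 3 := by
    rw [← Complex.ofReal_mul, ← Real.sqrt_mul (by positivity)]
    have : ((nm (p ^ (m + 1)) : ℝ)) * (nm (p ^ (m' + 1)) : ℝ) = ((nm p : ℝ) ^ 3) ^ 2 := by
      rw [nm_pow, nm_pow]
      push_cast
      rw [← pow_add, ← pow_mul]
      congr 1
      omega
    rw [this, Real.sqrt_sq (by positivity)]
    push_cast
    rfl
  have h6 : (nm p : ℂ) ^ m * (nm p : ℂ) ^ m' = (nm p : ℂ) ^ 4 := by rw [← pow_add, hm]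
  have h7 : ang 1 p ^ (m + 1) * ang 1 p ^ (m' + 1) = ang 1 p ^ 6 := by
    rw [← pow_add]; congr 1; omega
  rw [div_mul_div_comm, h5]
  have h8 : (nm p : ℂ) ^ 3 ≠ 0 := pow_ne_zero _ hqC
  rw [div_eq_iff h8]
  calc ang 1 p ^ (m + 1) * conj (sy 2 p) ^ (m + 1) * LS848.eps2 (p ^ (m + 1)) *
        ((nm p : ℂ) ^ m * conj (Sx545.tw sy6 (m + 1) 1 p)) *
      (ang 1 p ^ (m' + 1) * conj (sy 2 p) ^ (m' + 1) * LS848.eps2 (p ^ (m' + 1)) *
        ((nm p : ℂ) ^ m' * conj (Sx545.tw sy6 (m' + 1) 1 p)))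
      = (ang 1 p ^ (m + 1) * ang 1 p ^ (m' + 1)) *
          (conj (sy 2 p) ^ (m + 1) * conj (sy 2 p) ^ (m' + 1)) *
          (LS848.eps2 (p ^ (m + 1)) * LS848.eps2 (p ^ (m' + 1))) *
          ((nm p : ℂ) ^ m * (nm p : ℂ) ^ m') *
          (conj (Sx545.tw sy6 (m + 1) 1 p) * conj (Sx545.tw sy6 (m' + 1) 1 p)) := by ring
    _ = ang 1 p ^ 6 * (LS848.eps2 (p ^ (m + 1)) * LS848.eps2 (p ^ (m' + 1)) *
          sy6 (-1) p ^ (m' + 1)) * ((nm p : ℂ) ^ 4 * nm p) := by rw [h7, h3, h6, h1]; ring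
    _ = ang 1 p ^ 6 * (nm p : ℂ) ^ 2 * (nm p : ℂ) ^ 3 := by rw [h2]; ring

theorem KK_five (hp : Sm 2 p) (hpp : Prime p) : KK p 5 = -(ang 1 p ^ 6 * (nm p : ℂ) ^ 2) := by
  have ho := odd_of_od (Sm.two_od' hp)
  have hqC : (nm p : ℂ) ≠ 0 := by exact_mod_cast (nm_pos.mpr hp.ne_zero).ne'
  have h0 := hp.pow 6
  rw [KK_eq hp, LS848.eps2_eq_kap4 h0.1 (Sm.two_od' h0), kap4_pow_six ho]
  have h1 : Sx545.tw sy6 (5 + 1) 1 p = -1 := by
    classical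
    rw [res_sy6.tw_of_dvd_exp hp hpp (by norm_num) (by norm_num), if_neg
      (fun h => hpp.not_isUnit (isUnit_of_dvd_one h))]
    ring
  have h3 : conj (sy 2 p) ^ (5 + 1) = 1 := by
    rw [← map_pow]
    have hcop : IsCoprime (2 : Eis) p := hp.2.symm
    have h4 := res_sy.pow_eq 2 p ⟨hp.1, isCoprime_one_right⟩ hcop
    rw [show (5 + 1 : ℕ) = 3 * 2 by norm_num, pow_mul, h4, one_pow, map_one]
  have h5 : (Real.sqrt (nm (p ^ (5 + 1))) : ℂ) = (nm p : ℂ) ^ 3 := by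
    have : ((nm (p ^ (5 + 1)) : ℝ)) = ((nm p : ℝ) ^ 3) ^ 2 := by
      rw [nm_pow]
      push_cast
      ring
    rw [this, Real.sqrt_sq (by positivity)]
    push_cast
    rfl
  rw [h1, h3, h5, map_neg, map_one, div_eq_iff (pow_ne_zero _ hqC)]
  ring

end Crest.Agent.R017.A590
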