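import Crest.Agent.R017.AS1_590

/-!
# Row 17, section A: splitting the natural series at a prime (helper590)

* `natSplit` : `PsiF M₁ f (p^m ν) V Q = Φ_m(Q) + C_m Φ_{m'}(Q/q^(m+1))`
* `sum_e_split` : removing `p` from the `e`-sum
* `left_id`, `left_id5` : the left side of the functional equation on `Sm M`
-/

set_option autoImplicit false

noncomputable section

open Complex
open scoped ComplexConjugate

namespace Crest.Agent.R017.A590

open Crest.Agent.R012 Crest.Agent.R012.Eis Crest.Agent.R012.Mob705 Crest.Agent.R012.Gauss880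
open Crest.Agent.R017.Sx440 Crest.Agent.R017.Sx545 Crest.Agent.R017.B770

variable {M M₁ p ν : Eis} {f : Eis → ℂ} {V : ℝ → ℂ} {Q : ℝ}

/-- the setting: `M = p^v M₁` -/
structure Ext (M M₁ p : Eis) : Prop where
  two : (2 : Eis) ∣ M₁
  pr : Prime p
  sp : Sm M₁ p
  iff : ∀ b, Sm M b ↔ Sm M₁ b ∧ ¬ p ∣ b

lemma Ext.sm2 (_h : Ext M M₁ p) {b : Eis} (hb : Sm M₁ b) : Sm 2 b := hb.mono _h.two
lemma Ext.p2 (h : Ext M M₁ p) : Sm 2 p := h.sp.mono h.two
lemma Ext.low (h : Ext M M₁ p) {b : Eis} (hb : Sm M b) : Sm M₁ b := ((h.iff b).mp hb).1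
lemma Ext.ndvd (h : Ext M M₁ p) {b : Eis} (hb : Sm M b) : ¬ p ∣ b := ((h.iff b).mp hb).2
lemma Ext.cop (h : Ext M M₁ p) {b : Eis} (hb : Sm M b) : IsCoprime p b :=
  ((Res.isCoprime_iff_not_dvd h.pr b).mpr (h.ndvd hb)).symm
lemma Ext.cop' (h : Ext M M₁ p) {b : Eis} (hb : Sm M b) : IsCoprime b p := (h.cop hb).symm

lemma Ext.q_pos (h : Ext M M₁ p) : (0 : ℝ) < nm p := by
  exact_mod_cast nm_pos.mpr h.sp.ne_zero

lemma Ext.qC (h : Ext M M₁ p) : (nm p : ℂ) ≠ 0 := by exact_mod_cast h.q_pos.ne'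

lemma indic_summable {G : Eis → ℂ} (hG : Summable G) (P : Eis → Prop) [DecidablePred P] :
    Summable fun e => if P e then G e else 0 := by
  have := hG.indicator {e | P e}
  refine this.congr fun e => ?_
  by_cases h : P e
  · rw [if_pos h, Set.indicator_of_mem (show e ∈ {e | P e} from h)]
  · rw [if_neg h, Set.indicator_of_notMem (show e ∉ {e | P e} from h)]

/-- value at `b` prime to `p` -/
lemma HN_low (h : Ext M M₁ p) {b : Eis} (hb : Sm M b) (m : ℕ) (ν : Eis) :
    HN (p ^ m * ν) b = sy6 p b ^ m * HN ν b := by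
  rw [HN_unit (h.sm2 (h.low hb)) ((h.cop hb).pow_left) ν,
    res_sy6.pow_left p (h.sm2 (h.low hb))]

/-- value at `p^(m+1) b` -/
lemma HN_high (h : Ext M M₁ p) {b : Eis} (hb : Sm M b) {m m' : ℕ} (hm' : (m + 2 + m') % 6 = 0)
    (hν : ¬ p ∣ ν) :
    HN (p ^ m * ν) (p ^ (m + 1) * b) =
      (KK p m * sy6 ν p ^ (m + 1)) * (sy6 p b ^ m' * HN ν b) := by
  have hb2 := h.sm2 (h.low hb)
  have hcop : IsCoprime (p ^ (m + 1)) b := (h.cop hb).pow_left
  rw [HN_mul (h.p2.pow _) hb2 hcop, HN_pow h.p2 h.pr m hν, HN_low h hb,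
    res_sy.pow_left p (m := 1) (hb2.mono (one_dvd 2)), map_pow]
  have h1 : sy6 p b ^ 2 = sy p b := sy6_sq hb2.1 (Sm.two_od' hb2) p
  have h2 : sy6 p b ^ (m + 2 + m') = 1 := by
    have h3 := res_sy6.pow_eq p b hb2 (h.cop hb)
    obtain ⟨t, ht⟩ := Nat.dvd_of_mod_eq_zero hm'
    rw [ht, pow_mul, h3, one_pow]
  have h4 : conj (sy p b) * sy p b = 1 := by
    have := res_sy.conj_mul (m := 1) (x := p) (hb2.mono (one_dvd 2)) (h.cop hb)
    exact this
  have h5 : conj (sy p b) ^ (m + 1) * sy6 p b ^ m = sy6 p b ^ m' := by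
    calc conj (sy p b) ^ (m + 1) * sy6 p b ^ m
        = conj (sy p b) ^ (m + 1) * sy6 p b ^ m * sy6 p b ^ (m + 2 + m') := by rw [h2, mul_one]
      _ = sy6 p b ^ m' * (conj (sy p b) * sy6 p b ^ 2) ^ (m + 1) := by
          rw [mul_pow, ← pow_mul, show m + 2 + m' = (2 * (m + 1) + m') - m by omega]
          have : sy6 p b ^ m * sy6 p b ^ (2 * (m + 1) + m' - m) = sy6 p b ^ (2 * (m + 1) + m') := by
            rw [← pow_add]; congr 1; omega
          calc conj (sy p b) ^ (m + 1) * sy6 p b ^ m * sy6 p b ^ (2 * (m + 1) + m' - m)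
              = conj (sy p b) ^ (m + 1) * (sy6 p b ^ m * sy6 p b ^ (2 * (m + 1) + m' - m)) := by ring
            _ = _ := by rw [this, pow_add]; ring
      _ = sy6 p b ^ m' := by rw [h1, h4, one_pow, mul_one]
  rw [← h5]
  ring

/-- the other values vanish -/
lemma HN_other (h : Ext M M₁ p) {b : Eis} (hb : Sm M₁ b) (hpb : p ∣ b) {m : ℕ} (hm : m ≤ 5)
    (hν : ¬ p ∣ ν) (hn : ∀ b', Sm M b' → b ≠ p ^ (m + 1) * b') : HN (p ^ m * ν) b = 0 := by
  obtain ⟨k, b', rfl, hpb', hb'⟩ := Res.exists_split h.sp h.pr hb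
  have hk : 1 ≤ k := by
    by_contra hcon
    have : k = 0 := by omega
    subst this
    rw [pow_zero, one_mul] at hpb
    exact hpb' hpb
  have hkm : k ≠ m + 1 := by
    rintro rfl
    exact hn b' ((h.iff b').mpr ⟨hb', hpb'⟩) rfl
  have hcop : IsCoprime (p ^ k) b' := Res.coprime_pow h.pr hpb' k
  rw [HN_mul (h.p2.pow _) (h.sm2 hb') hcop, HN_pow_eq_zero h.p2 h.pr hm hk hkm hν]
  ring

lemma Ext.mul_iff (h : Ext M M₁ p) (k : ℕ) (b : Eis) : Sm M₁ (p ^ k * b) ↔ Sm M₁ b :=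
  Sm.mul_iff (h.sp.pow k)

/-- the local constant at `p` -/
def Cp (f : Eis → ℂ) (p ν : Eis) (m : ℕ) : ℂ := f p ^ (m + 1) * (KK p m * sy6 ν p ^ (m + 1))

lemma f_pow (hf1 : f 1 = 1) (hf : ∀ a b, Sm M₁ a → Sm M₁ b → f (a * b) = f a * f b)
    (hp : Sm M₁ p) (k : ℕ) : f (p ^ k) = f p ^ k := by
  induction k with
  | zero => rw [pow_zero, pow_zero, hf1]
  | succ k ih => rw [pow_succ, hf _ _ (hp.pow k) hp, ih, pow_succ]

open Classical in
/-- **splitting of the natural series at `p`** -/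
theorem natSplit (h : Ext M M₁ p) {m m' : ℕ} (hm : m ≤ 5) (hm' : (m + 2 + m') % 6 = 0)
    (hν : ¬ p ∣ ν) (hf1 : f 1 = 1) (hf : ∀ a b, Sm M₁ a → Sm M₁ b → f (a * b) = f a * f b)
    (hs : Summable fun b => if Sm M₁ b then f b * HN (p ^ m * ν) b * V (nm b / Q) else 0) :
    PsiF M₁ f (p ^ m * ν) V Q =
      PsiF M (fun b => f b * sy6 p b ^ m) ν V Q +
        Cp f p ν m * PsiF M (fun b => f b * sy6 p b ^ m') ν V (Q / (nm p : ℝ) ^ (m + 1)) := by
  unfold PsiF
  set F : Eis → ℂ := fun b => if Sm M₁ b then f b * HN (p ^ m * ν) b * V (nm b / Q) else 0 with hF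
  have h1 : ∀ b, F b = (if Sm M b then F b else 0) + (if p ∣ b then F b else 0) := by
    intro b
    by_cases hb : Sm M₁ b
    · by_cases hpb : p ∣ b
      · rw [if_neg (fun h' => h.ndvd h' hpb), if_pos hpb, zero_add]
      · rw [if_pos ((h.iff b).mpr ⟨hb, hpb⟩), if_neg hpb, add_zero]
    · have : F b = 0 := by rw [hF]; exact if_neg hb
      rw [this]; simp
  have hs1 := indic_summable hs (fun b => Sm M b)
  have hs2 := indic_summable hs (fun b => p ∣ b)
  rw [tsum_congr h1, hs1.tsum_add hs2]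
  congr 1
  · refine tsum_congr fun b => ?_
    by_cases hb : Sm M b
    · rw [if_pos hb, if_pos hb]
      simp only [hF]
      rw [if_pos (h.low hb), HN_low h hb]
      ring
    · rw [if_neg hb, if_neg hb]
  · have hp0 : p ^ (m + 1) ≠ 0 := pow_ne_zero _ h.sp.ne_zero
    have hinj : Function.Injective (fun b : Eis => p ^ (m + 1) * b) :=
      fun x y hxy => mul_left_cancel₀ hp0 hxy
    rw [← hinj.tsum_eq, ← tsum_mul_left]
    · refine tsum_congr fun b => ?_
      have hpd : p ∣ p ^ (m + 1) * b := (dvd_pow_self p (Nat.succ_ne_zero m)).mul_right b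
      rw [if_pos hpd]
      by_cases hb : Sm M b
      · rw [if_pos hb]
        simp only [hF]
        rw [if_pos ((h.mul_iff _ b).mpr (h.low hb)), HN_high h hb hm' hν,
          hf _ _ (h.sp.pow _) (h.low hb), f_pow hf1 hf h.sp]
        have hn : ((nm (p ^ (m + 1) * b) : ℝ)) / Q = nm b / (Q / (nm p : ℝ) ^ (m + 1)) := by
          rw [nm_mul, nm_pow]
          push_cast
          have := h.q_pos.ne'
          rw [div_div_eq_mul_div]
          ring
        rw [hn]
        unfold Cp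
        ring
      · rw [if_neg hb, mul_zero]
        simp only [hF]
        by_cases hb1 : Sm M₁ (p ^ (m + 1) * b)
        · rw [if_pos hb1, HN_other h hb1 hpd hm hν]
          · ring
          · intro b' hb' heq
            have : b = b' := mul_left_cancel₀ hp0 heq
            exact hb (this ▸ hb')
        · rw [if_neg hb1]
    · intro b hb
      rw [Function.mem_support] at hb
      by_contra hcon
      apply hb
      by_cases hpb : p ∣ b
      · rw [if_pos hpb]
        simp only [hF]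
        by_cases hb1 : Sm M₁ b
        · rw [if_pos hb1, HN_other h hb1 hpb hm hν]
          · ring
          · intro b' _ heq
            exact hcon ⟨b', heq.symm⟩
        · rw [if_neg hb1]
      · rw [if_neg hpb]

open Classical in
/-- **removing `p` from the `e`-sum** -/
theorem sum_e_split (h : Ext M M₁ p) {ξ : Eis → ℂ}
    (hξ : ∀ a b, Sm M₁ a → Sm M₁ b → ξ (a * b) = ξ a * ξ b) {Φ : ℝ → ℂ}
    (hs : Summable fun e => if Sm M₁ e then ξ e * (nm e : ℂ) ^ 2 * Φ (Q / (nm e : ℝ) ^ 6) else 0) :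
    (∑' e, if Sm M e then ξ e * (nm e : ℂ) ^ 2 * Φ (Q / (nm e : ℝ) ^ 6) else 0) =
      (∑' e, if Sm M₁ e then ξ e * (nm e : ℂ) ^ 2 * Φ (Q / (nm e : ℝ) ^ 6) else 0) -
      ξ p * (nm p : ℂ) ^ 2 * ∑' e, if Sm M₁ e then
        ξ e * (nm e : ℂ) ^ 2 * Φ ((Q / (nm p : ℝ) ^ 6) / (nm e : ℝ) ^ 6) else 0 := by
  set F : Eis → ℂ := fun e => if Sm M₁ e then
    ξ e * (nm e : ℂ) ^ 2 * Φ (Q / (nm e : ℝ) ^ 6) else 0 with hF
  have h1 : ∀ e, F e = (if Sm M e then ξ e * (nm e : ℂ) ^ 2 * Φ (Q / (nm e : ℝ) ^ 6) else 0) +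
      (if p ∣ e then F e else 0) := by
    intro e
    by_cases he : Sm M₁ e
    · by_cases hpe : p ∣ e
      · rw [if_neg (fun h' => h.ndvd h' hpe), if_pos hpe, zero_add]
      · rw [if_pos ((h.iff e).mpr ⟨he, hpe⟩), if_neg hpe, add_zero]
        simp only [hF]
        rw [if_pos he]
    · have : F e = 0 := by rw [hF]; exact if_neg he
      rw [this, if_neg (fun h' => he (h.low h'))]; simp
  have hs2 := indic_summable hs (fun b => p ∣ b)
  have hs1 : Summable fun e => if Sm M e then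
      ξ e * (nm e : ℂ) ^ 2 * Φ (Q / (nm e : ℝ) ^ 6) else 0 := by
    refine (indic_summable hs (fun b => Sm M b)).congr fun e => ?_
    by_cases he : Sm M e
    · rw [if_pos he, if_pos he]
      simp only [hF]
      rw [if_pos (h.low he)]
    · rw [if_neg he, if_neg he]
  have h2 : (∑' e, F e) = (∑' e, if Sm M e then
      ξ e * (nm e : ℂ) ^ 2 * Φ (Q / (nm e : ℝ) ^ 6) else 0) +
      ∑' e, (if p ∣ e then F e else 0) := by
    rw [← hs1.tsum_add hs2]
    exact tsum_congr h1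
  have h3 : (∑' e, (if p ∣ e then F e else 0)) = ξ p * (nm p : ℂ) ^ 2 * ∑' e, if Sm M₁ e then
        ξ e * (nm e : ℂ) ^ 2 * Φ ((Q / (nm p : ℝ) ^ 6) / (nm e : ℝ) ^ 6) else 0 := by
    have hinj : Function.Injective (fun b : Eis => p * b) :=
      fun x y hxy => mul_left_cancel₀ h.sp.ne_zero hxy
    rw [← hinj.tsum_eq, ← tsum_mul_left]
    · refine tsum_congr fun e => ?_
      rw [if_pos (dvd_mul_right p e)]
      simp only [hF]
      have hiff : Sm M₁ (p * e) ↔ Sm M₁ e := Sm.mul_iff h.sp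
      by_cases he : Sm M₁ e
      · rw [if_pos he, if_pos (hiff.mpr he), hξ _ _ h.sp he]
        have hn : Q / (nm (p * e) : ℝ) ^ 6 = Q / (nm p : ℝ) ^ 6 / (nm e : ℝ) ^ 6 := by
          rw [nm_mul]
          push_cast
          rw [mul_pow, div_div]
        rw [hn, nm_mul]
        push_cast
        ring
      · rw [if_neg he, if_neg (fun h' => he (hiff.mp h')), mul_zero]
    · intro e he
      rw [Function.mem_support] at he
      by_cases hpe : p ∣ e
      · obtain ⟨t, rfl⟩ := hpe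
        exact ⟨t, rfl⟩
      · rw [if_neg hpe] at he
        exact absurd rfl he
  rw [← h3, h2]
  ring

end Crest.Agent.R017.A590
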