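import Crest.Agent.R017.AS2_590

/-!
# Row 17, section A: the left side (helper590)

`left_id`, `left_id5` : `PsiE M ξ (f sy6(p,·)^m) ν = PsiE M₁ ξ f (p^m ν) - C_m PsiE M₁ ξ f (p^m' ν)(·/q^(m+1))`.
-/

set_option autoImplicit false

noncomputable section

open Complex
open scoped ComplexConjugate

namespace Crest.Agent.R017.A590

open Crest.Agent.R012 Crest.Agent.R012.Eis Crest.Agent.R012.Mob705 Crest.Agent.R012.Gauss880
open Crest.Agent.R017.Sx440 Crest.Agent.R017.Sx545 Crest.Agent.R017.B770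

variable {M M₁ p ν : Eis} {f : Eis → ℂ} {V : ℝ → ℂ} {Q : ℝ}

open Classical in
lemma psiE_eq (M : Eis) (ξ f : Eis → ℂ) (ν : Eis) (V : ℝ → ℂ) (Q : ℝ) :
    PsiE M ξ f ν V Q = ∑' e, if Sm M e then
      ξ e * (nm e : ℂ) ^ 2 * PsiF M f ν V (Q / (nm e : ℝ) ^ 6) else 0 := by
  unfold PsiE PsiF
  refine tsum_congr fun e => ?_
  by_cases he : Sm M e
  · rw [if_pos he, if_pos he]
    congr 1
    refine tsum_congr fun b => ?_
    rw [div_div_eq_mul_div]
  · rw [if_neg he, if_neg he]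

lemma finite_nm (X : ℝ) : {b : Eis | (nm b : ℝ) ≤ X}.Finite := by
  refine (Finset.finite_toSet (ball ⌊X⌋₊)).subset fun b hb => ?_
  simp only [Finset.mem_coe, mem_ball]
  exact Nat.le_floor hb

open Classical in
lemma summable_b {R : ℝ} (hV : ∀ x, R < x → V x = 0) (hQ : 0 < Q) (P : Eis → Prop)
    (F : Eis → ℂ) : Summable fun b : Eis => if P b then F b * V (nm b / Q) else 0 := by
  refine summable_of_hasFiniteSupport ((finite_nm (R * Q)).subset fun b hb => ?_)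
  rw [Function.mem_support] at hb
  by_contra hcon
  apply hb
  rw [Set.mem_setOf_eq, not_le] at hcon
  rw [hV _ (by rwa [lt_div_iff₀ hQ]), mul_zero, ite_self]

open Classical in
lemma psiF_zero {R : ℝ} (hV : ∀ x, R < x → V x = 0) (hQ : 0 < Q) (hRQ : R * Q < 1) :
    PsiF M f ν V Q = 0 := by
  unfold PsiF
  have : ∀ b : Eis, (if Sm M b then f b * HN ν b * V (nm b / Q) else 0) = 0 := by
    intro b
    by_cases hb : Sm M b
    · rw [if_pos hb, hV, mul_zero]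
      rw [lt_div_iff₀ hQ]
      have h1 : 1 ≤ nm b := nm_pos.mpr hb.ne_zero
      have h2 : (1 : ℝ) ≤ nm b := by exact_mod_cast h1
      linarith
    · rw [if_neg hb]
  simp_rw [this]
  exact tsum_zero

open Classical in
lemma summable_e {R : ℝ} (hR : 0 < R) {Φ : ℝ → ℂ} (hΦ : ∀ x, 0 < x → R * x < 1 → Φ x = 0)
    (hQ : 0 < Q) (ξ : Eis → ℂ) :
    Summable fun e : Eis => if Sm M e then ξ e * (nm e : ℂ) ^ 2 * Φ (Q / (nm e : ℝ) ^ 6) else 0 := by
  refine summable_of_hasFiniteSupport ((finite_nm (R * Q)).subset fun e he => ?_)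
  rw [Function.mem_support] at he
  by_contra hcon
  apply he
  rw [Set.mem_setOf_eq, not_le] at hcon
  by_cases hm : Sm M e
  · have h1 : 1 ≤ nm e := nm_pos.mpr hm.ne_zero
    have h2 : (1 : ℝ) ≤ nm e := by exact_mod_cast h1
    have h3 : (nm e : ℝ) ≤ (nm e : ℝ) ^ 6 := by
      calc (nm e : ℝ) = (nm e : ℝ) ^ 1 := (pow_one _).symm
        _ ≤ (nm e : ℝ) ^ 6 := pow_le_pow_right₀ h2 (by norm_num)
    rw [if_pos hm, hΦ _ (by positivity), mul_zero]
    rw [mul_div_assoc', div_lt_one (by positivity)]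
    linarith
  · rw [if_neg hm]

/-- multiplicative functions on `Sm M₁` -/
structure Mult (M₁ : Eis) (f : Eis → ℂ) : Prop where
  one : f 1 = 1
  mul : ∀ a b, Sm M₁ a → Sm M₁ b → f (a * b) = f a * f b

lemma psiF_congr {g : Eis → ℂ} (h : ∀ b, Sm M b → f b = g b) (ν : Eis) (V : ℝ → ℂ) (Q : ℝ) :
    PsiF M f ν V Q = PsiF M g ν V Q := by
  classical
  unfold PsiF
  refine tsum_congr fun b => ?_
  by_cases hb : Sm M b
  · rw [if_pos hb, if_pos hb, h b hb]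
  · rw [if_neg hb, if_neg hb]

lemma psiE_congr {f g ξ ξ' : Eis → ℂ} (h : ∀ b, Sm M b → f b = g b)
    (hξ : ∀ b, Sm M b → ξ b = ξ' b) (ν : Eis) (V : ℝ → ℂ) (Q : ℝ) :
    PsiE M ξ f ν V Q = PsiE M ξ' g ν V Q := by
  classical
  rw [psiE_eq, psiE_eq]
  refine tsum_congr fun e => ?_
  by_cases he : Sm M e
  · rw [if_pos he, if_pos he, hξ e he, psiF_congr h]
  · rw [if_neg he, if_neg he]

/-- the natural split with the bounded weight -/
lemma natSplit' (h : Ext M M₁ p) {m m' : ℕ} (hm : m ≤ 5) (hm' : (m + 2 + m') % 6 = 0)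
    (hν : ¬ p ∣ ν) (hf : Mult M₁ f) {R : ℝ} (hV : ∀ x, R < x → V x = 0) (hQ : 0 < Q) :
    PsiF M₁ f (p ^ m * ν) V Q =
      PsiF M (fun b => f b * sy6 p b ^ m) ν V Q +
        Cp f p ν m * PsiF M (fun b => f b * sy6 p b ^ m') ν V (Q / (nm p : ℝ) ^ (m + 1)) := by
  classical
  refine natSplit h hm hm' hν hf.one hf.mul ?_
  exact summable_b hV hQ (fun b => Sm M₁ b) (fun b => f b * HN (p ^ m * ν) b)

/-- the `e`-sum of the natural split -/
lemma psiE_split (h : Ext M M₁ p) {m m' : ℕ} (hm : m ≤ 5) (hm' : (m + 2 + m') % 6 = 0)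
    (hν : ¬ p ∣ ν) (hf : Mult M₁ f) {R : ℝ} (hR : 0 < R) (hV : ∀ x, R < x → V x = 0)
    (hQ : 0 < Q) (ξ : Eis → ℂ) :
    PsiE M₁ ξ f (p ^ m * ν) V Q =
      (∑' e, (open Classical in if Sm M₁ e then ξ e * (nm e : ℂ) ^ 2 *
        PsiF M (fun b => f b * sy6 p b ^ m) ν V (Q / (nm e : ℝ) ^ 6) else 0)) +
      Cp f p ν m * ∑' e, (open Classical in if Sm M₁ e then ξ e * (nm e : ℂ) ^ 2 *
        PsiF M (fun b => f b * sy6 p b ^ m') ν V
          ((Q / (nm p : ℝ) ^ (m + 1)) / (nm e : ℝ) ^ 6) else 0) := by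
  classical
  have hq := h.q_pos
  have hq1 : (1 : ℝ) ≤ nm p := by exact_mod_cast nm_pos.mpr h.sp.ne_zero
  rw [psiE_eq]
  have s1 := summable_e (M := M₁) hR (Φ := fun x => PsiF M (fun b => f b * sy6 p b ^ m) ν V x)
    (fun x hx hRx => psiF_zero hV hx hRx) hQ ξ
  have hQ' : 0 < Q / (nm p : ℝ) ^ (m + 1) := by positivity
  have s2 := summable_e (M := M₁) hR (Φ := fun x => PsiF M (fun b => f b * sy6 p b ^ m') ν V x)
    (fun x hx hRx => psiF_zero hV hx hRx) hQ' ξ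
  rw [← tsum_mul_left, ← s1.tsum_add (s2.mul_left _)]
  refine tsum_congr fun e => ?_
  by_cases he : Sm M₁ e
  · rw [if_pos he, if_pos he, if_pos he]
    have h1 : (1 : ℝ) ≤ nm e := by exact_mod_cast nm_pos.mpr he.ne_zero
    rw [natSplit' h hm hm' hν hf hV (by positivity)]
    have e1 : Q / (nm e : ℝ) ^ 6 / (nm p : ℝ) ^ (m + 1) = Q / (nm p : ℝ) ^ (m + 1) / (nm e : ℝ) ^ 6 := by
      rw [div_right_comm]
    rw [e1]
    ring
  · rw [if_neg he, if_neg he, if_neg he]; ring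

/-- **left identity**, `m ≤ 4` -/
theorem left_id (h : Ext M M₁ p) {m m' : ℕ} (hm : m + m' = 4) (hν : ¬ p ∣ ν) (hf : Mult M₁ f)
    {ξ : Eis → ℂ} (hξ : ∀ a b, Sm M₁ a → Sm M₁ b → ξ (a * b) = ξ a * ξ b)
    (hξp : ξ p = (f p * ang 1 p) ^ 6)
    {R : ℝ} (hR : 0 < R) (hV : ∀ x, R < x → V x = 0) (hQ : 0 < Q) :
    PsiE M ξ (fun b => f b * sy6 p b ^ m) ν V Q =
      PsiE M₁ ξ f (p ^ m * ν) V Q -
        Cp f p ν m * PsiE M₁ ξ f (p ^ m' * ν) V (Q / (nm p : ℝ) ^ (m + 1)) := by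
  classical
  have hq := h.q_pos
  have hQ' : 0 < Q / (nm p : ℝ) ^ (m + 1) := by positivity
  rw [psiE_split h (by omega : m ≤ 5) (by omega : (m + 2 + m') % 6 = 0) hν hf hR hV hQ,
    psiE_split h (by omega : m' ≤ 5) (by omega : (m' + 2 + m) % 6 = 0) hν hf hR hV hQ']
  have s1 := summable_e (M := M₁) hR (Φ := fun x => PsiF M (fun b => f b * sy6 p b ^ m) ν V x)
    (fun x hx hRx => psiF_zero hV hx hRx) hQ ξ
  have key := sum_e_split h hξ s1
  rw [psiE_eq, key]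
  have e1 : Q / (nm p : ℝ) ^ (m + 1) / (nm p : ℝ) ^ (m' + 1) = Q / (nm p : ℝ) ^ 6 := by
    rw [div_div, ← pow_add, show m + 1 + (m' + 1) = 6 by omega]
  rw [e1]
  have e2 : Cp f p ν m * Cp f p ν m' = ξ p * (nm p : ℂ) ^ 2 := by
    unfold Cp
    have h1 := KK_mul h.p2 h.pr hm
    have h2 : sy6 ν p ^ 6 = 1 :=
      res_sy6.pow_eq ν p h.p2 ((Res.isCoprime_iff_not_dvd h.pr ν).mpr hν)
    calc f p ^ (m + 1) * (KK p m * sy6 ν p ^ (m + 1)) *
          (f p ^ (m' + 1) * (KK p m' * sy6 ν p ^ (m' + 1)))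
        = f p ^ (m + 1 + (m' + 1)) * (KK p m * KK p m') * sy6 ν p ^ (m + 1 + (m' + 1)) := by
          rw [pow_add, pow_add]; ring
      _ = _ := by
          rw [h1, show m + 1 + (m' + 1) = 6 by omega, h2, hξp]; ring
  rw [← e2]
  ring

/-- **left identity**, `m = 5` -/
theorem left_id5 (h : Ext M M₁ p) (hν : ¬ p ∣ ν) (hf : Mult M₁ f)
    {ξ : Eis → ℂ} (hξ : ∀ a b, Sm M₁ a → Sm M₁ b → ξ (a * b) = ξ a * ξ b)
    (hξp : ξ p = (f p * ang 1 p) ^ 6)
    {R : ℝ} (hR : 0 < R) (hV : ∀ x, R < x → V x = 0) (hQ : 0 < Q) :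
    PsiE M ξ (fun b => f b * sy6 p b ^ 5) ν V Q = PsiE M₁ ξ f (p ^ 5 * ν) V Q := by
  classical
  rw [psiE_split h (le_refl 5) (by norm_num : (5 + 2 + 5) % 6 = 0) hν hf hR hV hQ]
  have s1 := summable_e (M := M₁) hR (Φ := fun x => PsiF M (fun b => f b * sy6 p b ^ 5) ν V x)
    (fun x hx hRx => psiF_zero hV hx hRx) hQ ξ
  have key := sum_e_split h hξ s1
  rw [psiE_eq, key]
  have e2 : Cp f p ν 5 = -(ξ p * (nm p : ℂ) ^ 2) := by
    unfold Cp
    have h1 := KK_five h.p2 h.pr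
    have h2 : sy6 ν p ^ (5 + 1) = 1 :=
      res_sy6.pow_eq ν p h.p2 ((Res.isCoprime_iff_not_dvd h.pr ν).mpr hν)
    rw [h1, h2, hξp]; ring
  rw [e2]
  ring

end Crest.Agent.R017.A590
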