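import Crest.Agent.R017.F1Cln_180

/-!
# Row 17, section F, part 11 (helper180): the clean functional equation, final form
-/

set_option autoImplicit false

noncomputable section

open MeasureTheory Complex Set

namespace Crest.Agent.R017.F1

open Crest.Agent.R012 Crest.Agent.R012.Eis Crest.Agent.R012.Sym645
open Crest.Agent.R012.K695 (det2 n2 Vec EC rowv)
open Crest.Agent.R012.Parseval499 (par covol frq s3 measurableSet_par
  continuous_eC covol_pos toC_s3_ne)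
open Crest.Agent.R012.Four813 (phat)
open Crest.Agent.R017.FE47 (SM BM)
open scoped ComplexConjugate

/-- `C(u; φ) = Σ_{d ≡ 1 (3)} conj (gs u d) φ(d)`. -/
def Cg (u : Eis) (φ : ℂ → ℂ) : ℂ := by
  classical
  exact ∑' d : Eis, if IsPrim d then conj (gs u d) * φ (toC d) else 0

/-- decay of order six. -/
def Dc (φ : ℂ → ℂ) : Prop := ∃ C : ℝ, ∀ x : ℂ, 1 ≤ ‖x‖ → ‖φ x‖ ≤ C * (‖x‖ ^ 6)⁻¹

lemma Dc.add {φ ψ : ℂ → ℂ} (h : Dc φ) (h' : Dc ψ) : Dc (fun x => φ x + ψ x) := by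
  obtain ⟨C, hC⟩ := h
  obtain ⟨C', hC'⟩ := h'
  exact ⟨C + C', fun x hx => (norm_add_le _ _).trans (by rw [add_mul]; exact add_le_add (hC x hx) (hC' x hx))⟩

lemma Dc.const_mul {φ : ℂ → ℂ} (h : Dc φ) (a : ℂ) : Dc (fun x => a * φ x) := by
  obtain ⟨C, hC⟩ := h
  refine ⟨‖a‖ * C, fun x hx => ?_⟩
  rw [norm_mul, mul_assoc]
  exact mul_le_mul_of_nonneg_left (hC x hx) (norm_nonneg _)

lemma Dc.neg {φ : ℂ → ℂ} (h : Dc φ) : Dc (fun x => - φ x) := by
  have := h.const_mul (-1)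
  simpa using this

lemma Dc.sub {φ ψ : ℂ → ℂ} (h : Dc φ) (h' : Dc ψ) : Dc (fun x => φ x - ψ x) := by
  have := h.add h'.neg
  simpa [sub_eq_add_neg] using this

lemma norm_gs_le' (r : Eis) {c : Eis} (hc : IsPrim c) : ‖gs r c‖ ≤ nm c := by
  have h := norm_sumMod_le (f := fun x => sy x c * eC (toC r * toC x / toC c)) (B := 1) hc.ne_zero
    (fun x => by
      rw [norm_mul, R012.norm_eC, mul_one]
      exact norm_sy_le_one (prim_nm_mod hc) _)
  rw [mul_one] at h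
  exact h

lemma summable_inv_nm_sq : Summable fun d : Eis => ((nm d : ℝ) ^ 2)⁻¹ := by
  refine Summable.of_nonneg_of_le (fun d => by positivity) (fun d => ?_)
    ((summable_one_add one_pos).mul_left 4)
  by_cases hd : d = 0
  · subst hd; simp
  · have h1 : (1 : ℝ) ≤ nm d := by exact_mod_cast nm_pos.mpr hd
    rw [one_mul, ← div_eq_mul_inv, inv_eq_one_div, div_le_div_iff₀ (by positivity) (by positivity)]
    nlinarith

lemma norm_toC_ge {d : Eis} (hd : d ≠ 0) : 1 ≤ ‖toC d‖ := by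
  have h1 : (1 : ℝ) ≤ nm d := by exact_mod_cast nm_pos.mpr hd
  rw [← norm_toC_sq] at h1
  nlinarith [norm_nonneg (toC d)]

lemma summable_Cg (u : Eis) {φ : ℂ → ℂ} (h : Dc φ) :
    open Classical in Summable fun d : Eis => if IsPrim d then conj (gs u d) * φ (toC d) else 0 := by
  classical
  obtain ⟨C, hC⟩ := h
  refine Summable.of_norm_bounded (g := fun d : Eis => C * ((nm d : ℝ) ^ 2)⁻¹)
    (summable_inv_nm_sq.mul_left C) fun d => ?_
  by_cases hd : IsPrim d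
  · rw [if_pos hd, norm_mul, RCLike.norm_conj]
    have hd0 := hd.ne_zero
    have h1 := norm_gs_le' u hd
    have h2 := hC (toC d) (norm_toC_ge hd0)
    have h3 : ‖toC d‖ ^ 6 = (nm d : ℝ) ^ 3 := by
      rw [← norm_toC_sq]; ring
    rw [h3] at h2
    have h4 : (0 : ℝ) < nm d := by exact_mod_cast nm_pos.mpr hd0
    calc ‖gs u d‖ * ‖φ (toC d)‖ ≤ nm d * (C * ((nm d : ℝ) ^ 3)⁻¹) := by gcongr
      _ = C * ((nm d : ℝ) ^ 2)⁻¹ := by field_simp
  · rw [if_neg hd, norm_zero]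
    by_cases hd0 : d = 0
    · subst hd0; simp
    · have h2 := (norm_nonneg _).trans (hC (toC d) (norm_toC_ge hd0))
      have h5 : 0 < (‖toC d‖ ^ 6)⁻¹ := by
        have := norm_toC_ge hd0
        positivity
      have h6 : 0 ≤ C := nonneg_of_mul_nonneg_left h2 h5
      positivity

lemma Cg_add (u : Eis) {φ ψ : ℂ → ℂ} (h : Dc φ) (h' : Dc ψ) :
    Cg u (fun x => φ x + ψ x) = Cg u φ + Cg u ψ := by
  unfold Cg
  rw [← (summable_Cg u h).tsum_add (summable_Cg u h')]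
  refine tsum_congr fun d => ?_
  split_ifs
  · ring
  · rw [add_zero]

lemma Cg_const_mul (u : Eis) (a : ℂ) (φ : ℂ → ℂ) : Cg u (fun x => a * φ x) = a * Cg u φ := by
  unfold Cg
  rw [← tsum_mul_left]
  refine tsum_congr fun d => ?_
  split_ifs
  · ring
  · rw [mul_zero]

lemma Cg_neg (u : Eis) (φ : ℂ → ℂ) : Cg u (fun x => - φ x) = - Cg u φ := by
  have := Cg_const_mul u (-1) φ
  simpa using this

lemma Cg_sub (u : Eis) {φ ψ : ℂ → ℂ} (h : Dc φ) (h' : Dc ψ) :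
    Cg u (fun x => φ x - ψ x) = Cg u φ - Cg u ψ := by
  have := Cg_add u h h'.neg
  rw [Cg_neg] at this
  simpa [sub_eq_add_neg] using this

/-! ### the functions -/

/-- `g(y) = (f°(y/(3√-3)) - f°(y))/3`. -/
def gO (f : ℂ → ℂ) (y : ℂ) : ℂ := (1 / 3 : ℂ) * (fO f (y / (3 * toC s3)) - fO f y)

/-- `N(x)⁻¹ φ(v/x)`. -/
def rc (φ : ℂ → ℂ) (v x : ℂ) : ℂ := (((‖x‖ ^ 2)⁻¹ : ℝ) : ℂ) * φ (v / x)

lemma rc_dc {φ : ℂ → ℂ} {C : ℝ} (h : ∀ y : ℂ, y ≠ 0 → ‖φ y‖ ≤ C * ‖y‖ ^ 4) {v : ℂ} (hv : v ≠ 0) :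
    Dc (rc φ v) := by
  refine ⟨C * ‖v‖ ^ 4, fun x hx => ?_⟩
  have hx0 : 0 < ‖x‖ := by linarith
  have hx1 : x ≠ 0 := norm_pos_iff.mp hx0
  unfold rc
  rw [norm_mul, Complex.norm_real, Real.norm_eq_abs, abs_of_nonneg (by positivity)]
  have h1 := h (v / x) (div_ne_zero hv hx1)
  rw [norm_div, div_pow] at h1
  calc (‖x‖ ^ 2)⁻¹ * ‖φ (v / x)‖ ≤ (‖x‖ ^ 2)⁻¹ * (C * (‖v‖ ^ 4 / ‖x‖ ^ 4)) := by gcongr
    _ = _ := by field_simp

lemma fO_even {f : ℂ → ℂ} (hf : ∀ x, f (-x) = f x) (u : ℂ) : fO f (-u) = fO f u := by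
  classical
  unfold fO
  congr 1
  refine tsum_congr fun m => ?_
  split_ifs
  · rfl
  · have h1 : ∀ y : ℂ, Phi f (-y) = Phi f y := by
      intro y
      unfold Phi
      rw [← integral_neg_eq_self]
      refine integral_congr_ae (Filter.Eventually.of_forall fun p => ?_)
      simp only
      rw [hf, neg_div_neg_eq]
    rw [neg_mul, h1]

lemma lam_cube : toC lam ^ 3 = -(3 * toC s3) := by
  have h : lam ^ 3 = -(3 * s3) := by decide
  rw [← map_pow, h, map_neg, map_mul, toC_three']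

lemma frq_al (u : Eis) : frq 3 u * al = -toC u := by
  unfold frq al
  rw [lam_cube]
  have := toC_s3_ne
  field_simp

lemma frq_eq (u : Eis) : frq 3 u = toC u / (3 * toC s3) := rfl

lemma gO_dec {f : ℂ → ℂ} (hf : Dat f) (A : ℕ) : ∃ C : ℝ, ∀ y : ℂ, y ≠ 0 →
    ‖gO f y‖ ≤ C * ‖y‖ ^ A ∧ ‖gO f y‖ ≤ C * (‖y‖ ^ A)⁻¹ := by
  obtain ⟨C, hC⟩ := decThm f hf A
  have hs : (3 * toC s3 : ℂ) ≠ 0 := mul_ne_zero (by norm_num) toC_s3_ne
  set K : ℝ := ‖(3 * toC s3 : ℂ)‖ with hK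
  have hKp : 0 < K := norm_pos_iff.mpr hs
  refine ⟨C * ((K ^ A)⁻¹ + 1) + C * (K ^ A + 1), fun y hy => ?_⟩
  have hyp : 0 < ‖y‖ := norm_pos_iff.mpr hy
  have h1 := hC y hy
  have h2 := hC (y / (3 * toC s3)) (div_ne_zero hy hs)
  rw [norm_div, div_pow, ← hK] at h2
  have hC0 : 0 ≤ C := by
    have := (norm_nonneg _).trans h1.1
    exact nonneg_of_mul_nonneg_left this (by positivity)
  have h3 : ‖gO f y‖ ≤ ‖fO f (y / (3 * toC s3))‖ + ‖fO f y‖ := by
    unfold gO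
    rw [norm_mul]
    have : ‖(1 / 3 : ℂ)‖ = 1 / 3 := by norm_num
    rw [this]
    have h4 := norm_sub_le (fO f (y / (3 * toC s3))) (fO f y)
    have h5 := norm_nonneg (fO f (y / (3 * toC s3)))
    have h6 := norm_nonneg (fO f y)
    linarith
  constructor
  · refine h3.trans ?_
    have h4 : C * (‖y‖ ^ A / K ^ A) = C * (K ^ A)⁻¹ * ‖y‖ ^ A := by ring
    have h5 : 0 ≤ C * (K ^ A + 1) * ‖y‖ ^ A := by positivity
    calc _ ≤ C * (‖y‖ ^ A / K ^ A) + C * ‖y‖ ^ A := add_le_add h2.1 h1.1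
      _ = C * ((K ^ A)⁻¹ + 1) * ‖y‖ ^ A := by rw [h4]; ring
      _ ≤ _ := by rw [add_mul]; linarith
  · refine h3.trans ?_
    have h4 : C * (‖y‖ ^ A / K ^ A)⁻¹ = C * K ^ A * (‖y‖ ^ A)⁻¹ := by field_simp
    have h5 : 0 ≤ C * ((K ^ A)⁻¹ + 1) * (‖y‖ ^ A)⁻¹ := by positivity
    calc _ ≤ C * (‖y‖ ^ A / K ^ A)⁻¹ + C * (‖y‖ ^ A)⁻¹ := add_le_add h2.2 h1.2
      _ = C * (K ^ A + 1) * (‖y‖ ^ A)⁻¹ := by rw [h4]; ring
      _ ≤ _ := by rw [add_mul (C * ((K ^ A)⁻¹ + 1))]; linarith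

lemma fP_zero_of_large {f : ℂ → ℂ} {b : ℝ} (hb : ∀ x, b < ‖x‖ → f x = 0) {x : ℂ} (hx : b < ‖x‖) :
    fP f x = 0 := by
  unfold fP
  have : ∀ e : Eis, ((nm e : ℂ) ^ 2) * f (toC e ^ 3 * x) = 0 := by
    intro e
    by_cases he : e = 0
    · subst he; simp
    · rw [hb, mul_zero]
      have h1 := norm_toC_ge he
      rw [norm_mul, norm_pow]
      have h2 : 1 ≤ ‖toC e‖ ^ 3 := one_le_pow₀ h1
      have := norm_nonneg x
      nlinarith
  rw [tsum_congr this, tsum_zero, mul_zero]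

lemma Dc_of_supp {φ : ℂ → ℂ} {b B : ℝ} (hb : ∀ x, b < ‖x‖ → φ x = 0)
    (hB : ∀ x, 1 ≤ ‖x‖ → ‖φ x‖ ≤ B) : Dc φ := by
  refine ⟨B * (max b 1) ^ 6, fun x hx => ?_⟩
  have hB0 : 0 ≤ B := (norm_nonneg _).trans (hB x hx)
  by_cases h : b < ‖x‖
  · rw [hb x h, norm_zero]; positivity
  · push Not at h
    have h1 : ‖x‖ ≤ max b 1 := h.trans (le_max_left _ _)
    have hx0 : 0 < ‖x‖ := by linarith
    have h2 : ‖x‖ ^ 6 ≤ (max b 1) ^ 6 := pow_le_pow_left₀ hx0.le h1 6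
    refine (hB x hx).trans ?_
    rw [mul_assoc]
    have h3 : 1 ≤ (max b 1) ^ 6 * (‖x‖ ^ 6)⁻¹ := by
      rw [← div_eq_mul_inv, le_div_iff₀ (by positivity)]; linarith
    nlinarith

lemma fP_bdd {f : ℂ → ℂ} {b B : ℝ} (hb : ∀ x, b < ‖x‖ → f x = 0) (hB : ∀ x, ‖f x‖ ≤ B) :
    ∃ K : ℝ, ∀ x, 1 ≤ ‖x‖ → ‖fP f x‖ ≤ K := by
  refine ⟨(1 / 6) * ∑ e ∈ ball ⌈|b|⌉₊, (nm e : ℝ) ^ 2 * B, fun x hx => ?_⟩
  unfold fP
  rw [norm_mul]
  have h6 : ‖(1 / 6 : ℂ)‖ = 1 / 6 := by norm_num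
  rw [h6, tsum_eq_sum (s := ball ⌈|b|⌉₊)]
  · gcongr
    refine (norm_sum_le _ _).trans (Finset.sum_le_sum fun e _ => ?_)
    rw [norm_mul, norm_pow, Complex.norm_natCast]
    exact mul_le_mul_of_nonneg_left (hB _) (by positivity)
  · intro e he
    rw [mem_ball, not_le] at he
    have he0 : e ≠ 0 := by rintro rfl; simp at he
    have h1 := norm_toC_ge he0
    rw [hb, mul_zero]
    rw [norm_mul, norm_pow]
    have h2 : ‖toC e‖ ^ 2 = nm e := norm_toC_sq e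
    have h3 : |b| < nm e := by
      have := Nat.le_ceil |b|
      have h4 : ((⌈|b|⌉₊ : ℕ) : ℝ) < nm e := by exact_mod_cast he
      linarith
    have h4 : ‖toC e‖ ^ 2 ≤ ‖toC e‖ ^ 3 := pow_le_pow_right₀ h1 (by norm_num)
    have h5 : (0 : ℝ) ≤ ‖toC e‖ ^ 3 := by positivity
    calc b ≤ |b| := le_abs_self b
      _ < nm e := h3
      _ ≤ ‖toC e‖ ^ 3 := by rw [← h2]; exact h4
      _ ≤ ‖toC e‖ ^ 3 * ‖x‖ := by nlinarith

/-- `f_L(x) = f_+(x) - 9 f_+(λ³ x)`. -/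
def fL (f : ℂ → ℂ) (x : ℂ) : ℂ := fP f x - 9 * fP f (al * x)

lemma norm_al_ge : 1 ≤ ‖al‖ := by
  have := norm_al2
  nlinarith [norm_nonneg al]

lemma Dat.bdd {f : ℂ → ℂ} (hf : Dat f) : ∃ B : ℝ, ∀ x, ‖f x‖ ≤ B := by
  obtain ⟨a, b, ha, hab, hs⟩ := hf.supp
  have hc : HasCompactSupport f := by
    refine HasCompactSupport.intro (isCompact_closedBall (0 : ℂ) b) fun x hx => hs x (Or.inr ?_)
    rw [mem_closedBall_zero_iff, not_le] at hx
    exact hx
  obtain ⟨C, hC⟩ := hc.exists_bound_of_continuous hf.smooth.continuous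
  exact ⟨C, hC⟩

lemma fL_dc {f : ℂ → ℂ} (hf : Dat f) : Dc (fL f) := by
  obtain ⟨a, b, ha, hab, hs⟩ := hf.supp
  obtain ⟨B, hB⟩ := hf.bdd
  obtain ⟨K, hK⟩ := fP_bdd (fun x hx => hs x (Or.inr hx)) hB
  have hal := norm_al_ge
  refine Dc_of_supp (b := b) (B := K + 9 * K) (fun x hx => ?_) (fun x hx => ?_)
  · unfold fL
    rw [fP_zero_of_large (fun x hx => hs x (Or.inr hx)) hx,
      fP_zero_of_large (fun x hx => hs x (Or.inr hx)), mul_zero, sub_zero]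
    rw [norm_mul]
    have := norm_nonneg x
    nlinarith
  · unfold fL
    have h1 := hK x hx
    have h2 := hK (al * x) (by rw [norm_mul]; nlinarith [norm_nonneg x])
    refine (norm_sub_le _ _).trans ?_
    rw [norm_mul]
    have : ‖(9 : ℂ)‖ = 9 := by norm_num
    rw [this]
    linarith

/-- the divisors `δ` of `3u` composed of `λ`, divisible by 3. -/
def Dl (u : Eis) : Finset Eis := by
  classical
  exact (ball (9 * nm u)).filter (fun δ => δ ∈ SM 3 ∧ (3 : Eis) ∣ δ ∧ δ ∣ 3 * u)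

lemma mem_Dl {u δ : Eis} (hu : u ≠ 0) :
    δ ∈ Dl u ↔ δ ∈ SM 3 ∧ (3 : Eis) ∣ δ ∧ δ ∣ 3 * u := by
  classical
  unfold Dl
  rw [Finset.mem_filter, mem_ball]
  constructor
  · exact fun h => h.2
  · intro h
    refine ⟨?_, h⟩
    obtain ⟨t, ht⟩ := h.2.2
    have h1 : nm (3 * u) = nm δ * nm t := by rw [ht, nm_mul]
    rw [nm_mul, Eis.nm_three] at h1
    have h2 : 0 < nm t := by
      rcases Nat.eq_zero_or_pos (nm t) with h3 | h3
      · rw [h3, mul_zero] at h1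
        have := nm_pos.mpr hu
        omega
      · exact h3
    rw [h1]
    exact Nat.le_mul_of_pos_right _ h2

lemma Hf_one {f : ℂ → ℂ} (hf : Dat f) (u : Eis) (w : ℂ) :
    Hf f (cv 1) (frq 3 u) w = fL f w - (2 / 3 : ℂ) * rc (fO f) (toC u) w := by
  have c1 : cv 1 = ![1, -9, 0, -2 / 81] := by simp [cv]
  unfold Hf fL rc
  rw [c1, frq_al, neg_div w (toC u), fO_even hf.even]
  simp only [Matrix.cons_val_zero, Matrix.cons_val_one, Matrix.cons_val]
  ring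

lemma Hf_ne {f : ℂ → ℂ} (hf : Dat f) {j : Fin 4} (hj : j ≠ 1) (u : Eis) (w : ℂ) :
    Hf f (cv j) (frq 3 u) w = - rc (gO f) (toC u) w := by
  have c1 : cv j = ![0, 0, -1 / 3, 1 / 81] := by simp [cv, hj]
  unfold Hf rc gO
  rw [c1, frq_al, neg_div w (toC u), fO_even hf.even, frq_eq]
  simp only [Matrix.cons_val_zero, Matrix.cons_val_one, Matrix.cons_val]
  rw [div_right_comm (toC u) (3 * toC s3) w]
  ring

lemma tsum_prim_eq {u : Eis} {φ : ℂ → ℂ} {a : Eis × Eis → ℂ} {κ : ℂ}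
    (h1 : ∀ c, IsPrim c → SC a u c = κ * conj (gs u c))
    (h2 : ∀ c, c ≠ 0 → ¬ IsPrim c → SC a u c = 0) :
    open Classical in
    ∑' c : Eis, (if c = 0 then 0 else SC a u c * φ (toC c)) = κ * Cg u φ := by
  classical
  unfold Cg
  rw [← tsum_mul_left]
  refine tsum_congr fun c => ?_
  by_cases hc : IsPrim c
  · rw [if_neg hc.ne_zero, if_pos hc, h1 c hc]
    ring
  · rw [if_neg hc, mul_zero]
    split_ifs with h0
    · rfl
    · rw [h2 c h0 hc, zero_mul]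

lemma Cg_congr (u : Eis) {φ ψ : ℂ → ℂ} (h : ∀ d : Eis, IsPrim d → φ (toC d) = ψ (toC d)) :
    Cg u φ = Cg u ψ := by
  unfold Cg
  refine tsum_congr fun d => ?_
  split_ifs with hd
  · rw [h d hd]
  · rfl

lemma tsum_aI {u : Eis} (hu : u ≠ 0) {φ : ℂ → ℂ}
    (hS : open Classical in Summable (fun c : Eis => (if c = 0 then 0 else
      SC aI u c * rc φ (toC u) (toC c)))) :
    open Classical in
    ∑' c : Eis, (if c = 0 then 0 else SC aI u c * rc φ (toC u) (toC c)) =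
      ∑ δ ∈ Dl u, Lam δ u * (((nm δ : ℝ)⁻¹ : ℝ) : ℂ) *
        Cg (δ * u) (rc φ (toC u / toC δ)) := by
  classical
  rw [FE47.tsum_decomp (dvd_refl (3 : Eis)) (if_pos rfl) hS]
  set Gf : Eis → ℂ := fun δ => Lam δ u * (((nm δ : ℝ)⁻¹ : ℝ) : ℂ) *
        Cg (δ * u) (rc φ (toC u / toC δ)) with hG
  have e1 : ∀ δ : SM (3 : Eis), ∑' b : BM (3 : Eis), (if δ.1 * b.1 = 0 then 0 else
      SC aI u (δ.1 * b.1) * rc φ (toC u) (toC (δ.1 * b.1))) =
      if (3 : Eis) ∣ δ.1 then Gf δ.1 else 0 := by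
    intro δ
    have hδ := δ.2
    have hδ0 : δ.1 ≠ 0 := hδ.1
    have hδC : toC δ.1 ≠ 0 := by rwa [Ne, toC_eq_zero]
    split_ifs with h3
    · rw [hG]
      simp only
      have e2 : ∀ b : Eis, IsPrim b → (if δ.1 * b = 0 then 0 else
          SC aI u (δ.1 * b) * rc φ (toC u) (toC (δ.1 * b))) =
          Lam δ.1 u * (((nm δ.1 : ℝ)⁻¹ : ℝ) : ℂ) *
            (conj (gs (δ.1 * u) b) * rc φ (toC u / toC δ.1) (toC b)) := by
        intro b hb
        have hb0 := hb.ne_zero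
        rw [if_neg (mul_ne_zero hδ0 hb0), SC_aI h3 hδ hb]
        unfold rc
        rw [map_mul, norm_mul, mul_pow, norm_toC_sq, div_div, mul_inv]
        push_cast
        ring
      unfold Cg
      rw [← tsum_mul_left]
      have e3 : ∑' b : BM (3 : Eis), (if δ.1 * b.1 = 0 then 0 else
          SC aI u (δ.1 * b.1) * rc φ (toC u) (toC (δ.1 * b.1))) =
          ∑' b : Eis, (BM (3 : Eis)).indicator (fun b => (if δ.1 * b = 0 then 0 else
          SC aI u (δ.1 * b) * rc φ (toC u) (toC (δ.1 * b)))) b :=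
        tsum_subtype (BM (3 : Eis)) (fun b => (if δ.1 * b = 0 then 0 else
          SC aI u (δ.1 * b) * rc φ (toC u) (toC (δ.1 * b))))
      rw [e3]
      refine tsum_congr fun b => ?_
      by_cases hb : IsPrim b
      · rw [Set.indicator_of_mem (show b ∈ BM (3 : Eis) from ⟨hb, hb.isCoprime_three⟩), if_pos hb,
          e2 b hb]
      · rw [Set.indicator_of_notMem (fun h : b ∈ BM (3 : Eis) => hb h.1), if_neg hb, mul_zero]
    · have e2 : ∀ b : BM (3 : Eis), (if δ.1 * b.1 = 0 then 0 else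
          SC aI u (δ.1 * b.1) * rc φ (toC u) (toC (δ.1 * b.1))) = 0 := by
        intro b
        split_ifs with h0
        · rfl
        · rw [SC_aI_not_dvd h0, zero_mul]
          intro h
          exact h3 ((IsCoprime.symm b.2.2).dvd_of_dvd_mul_right h)
      rw [tsum_congr e2, tsum_zero]
  rw [tsum_congr e1]
  have e4 : ∑' δ : SM (3 : Eis), (if (3 : Eis) ∣ δ.1 then Gf δ.1 else 0) =
      ∑' δ : Eis, (SM (3 : Eis)).indicator (fun δ => if (3 : Eis) ∣ δ then Gf δ else 0) δ :=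
    tsum_subtype (SM (3 : Eis)) (fun δ => if (3 : Eis) ∣ δ then Gf δ else 0)
  rw [e4, tsum_eq_sum (s := Dl u)]
  · refine Finset.sum_congr rfl fun δ hδ => ?_
    rw [mem_Dl hu] at hδ
    rw [Set.indicator_of_mem hδ.1, if_pos hδ.2.1]
  · intro δ hδ
    rw [mem_Dl hu] at hδ
    by_cases h1 : δ ∈ SM (3 : Eis)
    · rw [Set.indicator_of_mem h1]
      split_ifs with h3
      · have h4 : ¬ δ ∣ 3 * u := fun h4 => hδ ⟨h1, h3, h4⟩
        rw [hG]
        simp only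
        rw [Lam_eq_zero h3 h1 h4, zero_mul, zero_mul]
      · rfl
    · rw [Set.indicator_of_notMem h1]

/-- **The clean functional equation, level 3, frequency `u`.** -/
theorem clean3 {f : ℂ → ℂ} (hf : Dat f) {u : Eis} (hu : u ≠ 0) :
    Cg u (fL f) = (2 / 3 : ℂ) * Cg u (rc (fO f) (toC u)) +
      (eC (frq 3 u) + eC (-frq 3 u)) * Cg u (rc (gO f) (toC u)) +
      ∑ δ ∈ Dl u, Lam δ u * (((nm δ : ℝ)⁻¹ : ℝ) : ℂ) *
        Cg (δ * u) (rc (gO f) (toC u / toC δ)) := by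
  classical
  obtain ⟨h0, hs⟩ := four_sum hf hu
  have huC : toC u ≠ 0 := by rwa [Ne, toC_eq_zero]
  rw [Fin.sum_univ_four] at h0
  have hs3 := toC_s3_ne
  have A0 : ∀ j : Fin 4, j ≠ 1 → ∀ c : Eis, (if c = 0 then 0 else
      SC (a4 j) u c * Hf f (cv j) (frq 3 u) (toC c)) =
      -(if c = 0 then 0 else SC (a4 j) u c * rc (gO f) (toC u) (toC c)) := by
    intro j hj c
    rw [Hf_ne hf hj]
    split_ifs <;> ring
  have i2 : inL (1 : Eis) := by unfold inL; decide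
  have i3 : inL (-1 : Eis) := by unfold inL; decide
  -- j = 0
  have S0 : Summable (fun c : Eis => (if c = 0 then 0 else
      SC aI u c * rc (gO f) (toC u) (toC c))) := by
    have := (hs 0).neg
    refine this.congr fun c => ?_
    rw [A0 0 (by decide) c, neg_neg]
    rfl
  have E0 : ∑' c : Eis, (if c = 0 then 0 else SC (a4 0) u c * Hf f (cv 0) (frq 3 u) (toC c)) =
      -∑ δ ∈ Dl u, Lam δ u * (((nm δ : ℝ)⁻¹ : ℝ) : ℂ) *
        Cg (δ * u) (rc (gO f) (toC u / toC δ)) := by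
    rw [tsum_congr (A0 0 (by decide)), tsum_neg]
    congr 1
    exact tsum_aI hu S0
  have E1 : ∑' c : Eis, (if c = 0 then 0 else SC (a4 1) u c * Hf f (cv 1) (frq 3 u) (toC c)) =
      Cg u (fun w => Hf f (cv 1) (frq 3 u) w) := by
    have := tsum_prim_eq (φ := fun w => Hf f (cv 1) (frq 3 u) w) (a := a4 1) (u := u) (κ := 1)
      (fun c hc => by rw [one_mul]; exact SC_aF_zero hc u)
      (fun c h0 hc => SC_aF_not_prim h0 hc 0 u)
    rw [one_mul] at this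
    exact this
  have E2 : ∑' c : Eis, (if c = 0 then 0 else SC (a4 2) u c * Hf f (cv 2) (frq 3 u) (toC c)) =
      -(eC (frq 3 u) * Cg u (rc (gO f) (toC u))) := by
    rw [tsum_congr (A0 2 (by decide)), tsum_neg]
    congr 1
    refine tsum_prim_eq (fun c hc => ?_) (fun c h0 hc => SC_aF_not_prim h0 hc 1 u)
    have := SC_aF hc i2 u
    rw [one_mul, mul_comm (toC s3) 3] at this
    exact this
  have E3 : ∑' c : Eis, (if c = 0 then 0 else SC (a4 3) u c * Hf f (cv 3) (frq 3 u) (toC c)) =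
      -(eC (-frq 3 u) * Cg u (rc (gO f) (toC u))) := by
    rw [tsum_congr (A0 3 (by decide)), tsum_neg]
    congr 1
    refine tsum_prim_eq (fun c hc => ?_) (fun c h0 hc => SC_aF_not_prim h0 hc (-1) u)
    have := SC_aF hc i3 u
    rw [neg_one_mul, map_neg, neg_div, mul_comm (toC s3) 3] at this
    exact this
  rw [E0, E1, E2, E3] at h0
  obtain ⟨a, b, ha, hab, hsupp⟩ := hf.supp
  have d1 : Dc (fL f) := fL_dc hf
  have d2 : Dc (fun w => (2 / 3 : ℂ) * rc (fO f) (toC u) w) := by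
    obtain ⟨C, hC⟩ := decThm f hf 4
    exact (rc_dc (fun y hy => (hC y hy).1) huC).const_mul _
  have E4 : Cg u (fun w => Hf f (cv 1) (frq 3 u) w) = Cg u (fL f) -
      (2 / 3 : ℂ) * Cg u (rc (fO f) (toC u)) := by
    simp only [Hf_one hf]
    rw [Cg_sub u d1 d2, Cg_const_mul]
  rw [E4] at h0
  linear_combination h0

end Crest.Agent.R017.F1
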