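import Crest.Agent.R017.AS3_590
import Crest.Agent.R017.F1Cln2_180

/-!
# Row 17, section A: characters for the split (helper590)

* `hc_rst` : restriction of `χ g` to the elements prime to `q`
* `G6 q g` : unimodular multiplicative functions on `Sm q`, periodic modulo `q`
* `gs_left`, `gs_right` : `sy6 p ·`, `sy6 · p`
* `summable_RD` : summability of the right side
-/

set_option autoImplicit false

noncomputable section

open Complex
open scoped ComplexConjugate

namespace Crest.Agent.R017.A590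

open Crest.Agent.R012 Crest.Agent.R012.Eis Crest.Agent.R012.Mob705 Crest.Agent.R012.Gauss880
open Crest.Agent.R017.End699 Crest.Agent.R017.Sx440 Crest.Agent.R017.Sx545 Crest.Agent.R017.B770
open Crest.Agent.R017.QS411

variable {M M₁ p ν q q₁ : Eis} {f χ g : Eis → ℂ} {V : ℝ → ℂ} {Q : ℝ}

/-- unimodular multiplicative functions on `Sm q`, periodic modulo `q` -/
structure Uni (q : Eis) (g : Eis → ℂ) : Prop where
  one : g 1 = 1
  mul : ∀ a b, Sm q a → Sm q b → g (a * b) = g a * g b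
  norm : ∀ a, Sm q a → ‖g a‖ = 1
  per : ∀ a b, Sm q a → Sm q b → q ∣ a - b → g a = g b

lemma Uni.mono (h : Uni q₁ g) (hd : q₁ ∣ q) : Uni q g where
  one := h.one
  mul a b ha hb := h.mul a b (ha.mono hd) (hb.mono hd)
  norm a ha := h.norm a (ha.mono hd)
  per a b ha hb hab := h.per a b (ha.mono hd) (hb.mono hd) (hd.trans hab)

lemma Uni.mul' {g' : Eis → ℂ} (h : Uni q g) (h' : Uni q g') : Uni q (fun a => g a * g' a) where
  one := by rw [h.one, h'.one, one_mul]
  mul a b ha hb := by rw [h.mul a b ha hb, h'.mul a b ha hb]; ring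
  norm a ha := by rw [norm_mul, h.norm a ha, h'.norm a ha, one_mul]
  per a b ha hb hab := by rw [h.per a b ha hb hab, h'.per a b ha hb hab]

lemma Uni.pow (h : Uni q g) (k : ℕ) : Uni q (fun a => g a ^ k) where
  one := by rw [h.one, one_pow]
  mul a b ha hb := by rw [h.mul a b ha hb, mul_pow]
  norm a ha := by rw [norm_pow, h.norm a ha, one_pow]
  per a b ha hb hab := by rw [h.per a b ha hb hab]

lemma Uni.conj' (h : Uni q g) : Uni q (fun a => conj (g a)) where
  one := by rw [h.one, map_one]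
  mul a b ha hb := by rw [h.mul a b ha hb, map_mul]
  norm a ha := by rw [RCLike.norm_conj, h.norm a ha]
  per a b ha hb hab := by rw [h.per a b ha hb hab]

lemma _root_.Crest.Agent.R017.End699.HC.ne_zero' (h : HC q χ) {a : Eis} (ha : IsPrim a)
    (hc : IsCoprime a q) : ‖χ a‖ = 1 := by
  rcases h.char.norm a ha with h0 | h1
  · exact absurd h0 (h.ne_zero ha hc)
  · exact h1

lemma uni_of_HC (h : HC q χ) : Uni q χ where
  one := h.char.one
  mul a b ha hb := h.char.mul a b ha.1 hb.1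
  norm a ha := h.ne_zero' ha.1 ha.2
  per a b ha hb hab := h.per a b ha.1 hb.1 hab

open Classical in
/-- restriction to the elements prime to `q` -/
def Rst (q : Eis) (χ : Eis → ℂ) (a : Eis) : ℂ := if IsCoprime a q then χ a else 0

lemma Rst_of {a : Eis} (h : IsCoprime a q) : Rst q χ a = χ a := by
  unfold Rst; rw [if_pos h]

lemma Rst_not {a : Eis} (h : ¬ IsCoprime a q) : Rst q χ a = 0 := by
  unfold Rst; rw [if_neg h]

theorem hc_rst (hq : q ≠ 0) (h3 : (3 : Eis) ∣ q) (h : Uni q g) : HC q (Rst q g) where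
  q0 := hq
  three := h3
  char :=
    { one := by rw [Rst_of isCoprime_one_left, h.one]
      mul := fun a b ha hb => by
        by_cases hac : IsCoprime a q
        · by_cases hbc : IsCoprime b q
          · rw [Rst_of hac, Rst_of hbc, Rst_of (hac.mul_left hbc), h.mul a b ⟨ha, hac⟩ ⟨hb, hbc⟩]
          · rw [Rst_not hbc, mul_zero, Rst_not]
            exact fun h' => hbc (IsCoprime.of_mul_left_right h')
        · rw [Rst_not hac, zero_mul, Rst_not]
          exact fun h' => hac (IsCoprime.of_mul_left_left h')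
      norm := fun a ha => by
        by_cases hac : IsCoprime a q
        · rw [Rst_of hac]; exact Or.inr (h.norm a ⟨ha, hac⟩)
        · rw [Rst_not hac]; exact Or.inl rfl }
  per a b ha hb hab := by
    have key : IsCoprime a q ↔ IsCoprime b q := by
      obtain ⟨t, ht⟩ := hab
      constructor
      · rintro ⟨u, v, huv⟩
        exact ⟨u, v + u * t, by linear_combination huv - u * ht⟩
      · rintro ⟨u, v, huv⟩
        exact ⟨u, v - u * t, by linear_combination huv + u * ht⟩
    by_cases hac : IsCoprime a q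
    · rw [Rst_of hac, Rst_of (key.mp hac), h.per a b ⟨ha, hac⟩ ⟨hb, key.mp hac⟩ hab]
    · rw [Rst_not hac, Rst_not (fun h' => hac (key.mpr h'))]
  van a _ hac := Rst_not hac

/-- `b ↦ sy6 b p` -/
lemma uni_sy6_left (hp : Sm 2 p) (h2 : (2 : Eis) ∣ q) (hpq : p ∣ q) : Uni q (fun b => sy6 b p) where
  one := res_sy6.one_left hp
  mul a b _ _ := res_sy6.mul_left a b p hp
  norm a ha := res_sy6.norm_eq_one hp (IsCoprime.of_isCoprime_of_dvd_right ha.2 hpq)
  per a b _ _ hab := res_sy6.congr a b p hp (hpq.trans hab)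

/-- sextic reciprocity for primary odd elements -/
lemma sy6_recip {a b : Eis} (ha : Sm 2 a) (hb : Sm 2 b) :
    sy6 a b = (eps4 a b : ℂ) * sy6 b a := by
  unfold sy6
  rw [sy2_reciprocity (Sm.two_od' ha) (Sm.two_od' hb), syG.recip a b ha.1 hb.1]
  ring

lemma uni_eps4 (hp : Sm 2 p) (h4 : (4 : Eis) ∣ q) : Uni q (fun b => (eps4 p b : ℂ)) where
  one := by
    rw [eps4_symm, eps4_one_left]; norm_num
  mul a b ha hb := by
    have h2 : (2 : Eis) ∣ q := Dvd.dvd.trans ⟨2, by norm_num⟩ h4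
    have := eps4_mul_right (odd_of_od (Sm.two_od' hp)) (odd_of_od (Sm.two_od' (ha.mono h2)))
      (odd_of_od (Sm.two_od' (hb.mono h2)))
    rw [this]; push_cast; rfl
  norm a _ := by
    rcases eps4_cases p a with h | h <;> rw [h] <;> norm_num
  per a b _ _ hab := by rw [eps4_congr_right p (h4.trans hab)]

/-- `b ↦ sy6 p b` -/
lemma uni_sy6_right (hp : Sm 2 p) (h4 : (4 : Eis) ∣ q) (hpq : p ∣ q) :
    Uni q (fun b => sy6 p b) := by
  have h2 : (2 : Eis) ∣ q := Dvd.dvd.trans ⟨2, by norm_num⟩ h4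
  have h1 := (uni_eps4 hp h4).mul' (uni_sy6_left hp h2 hpq)
  have e : ∀ b, Sm q b → sy6 p b = (eps4 p b : ℂ) * sy6 b p :=
    fun b hb => sy6_recip hp (hb.mono h2)
  exact
    { one := by rw [e 1 (Sm.one q)]; exact h1.one
      mul := fun a b ha hb => by rw [e a ha, e b hb, e _ (ha.mul hb)]; exact h1.mul a b ha hb
      norm := fun a ha => by rw [e a ha]; exact h1.norm a ha
      per := fun a b ha hb hab => by rw [e a ha, e b hb]; exact h1.per a b ha hb hab }

/-! ### bounds and summability -/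

lemma norm_HN_le {b : Eis} (hb : Sm 2 b) (hν : ν ≠ 0) : ‖HN ν b‖ ≤ Real.sqrt (nm ν) := by
  have hb0 : (0 : ℝ) < nm b := by exact_mod_cast nm_pos.mpr hb.ne_zero
  have h0 : ‖HN ν b‖ ≤ ‖gs6 ν b‖ / Real.sqrt (nm b) := by
    unfold HN
    rw [norm_div, Complex.norm_real, Real.norm_of_nonneg (Real.sqrt_nonneg _), norm_mul, norm_mul,
      norm_mul, RCLike.norm_conj, RCLike.norm_conj]
    have h1 : ‖ang 1 b‖ ≤ 1 := by
      unfold ang
      rw [zpow_one, norm_div, Complex.norm_real, norm_norm]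
      exact div_self_le_one _
    have h2 : ‖sy 2 b‖ ≤ 1 := res_sy.norm_le_one 2 (hb.mono (one_dvd 2))
    have h3 : ‖LS848.eps2 b‖ = 1 := LS848.norm_eps2 hb.prim (Sm.two_od' hb)
    have h4 : ‖ang 1 b‖ * ‖sy 2 b‖ * ‖LS848.eps2 b‖ ≤ 1 := by
      rw [h3, mul_one]
      exact mul_le_one₀ h1 (norm_nonneg _) h2
    exact div_le_div_of_nonneg_right (mul_le_of_le_one_left (norm_nonneg _) h4)
      (Real.sqrt_nonneg _)
  refine h0.trans ?_
  have h1 := res_sy6.norm_gR_sq_le' hν hb
  rw [gR_sy6] at h1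
  rw [div_le_iff₀ (Real.sqrt_pos.mpr hb0), ← Real.sqrt_mul (by positivity)]
  refine Real.le_sqrt_of_sq_le ?_
  rw [mul_comm]
  exact h1

lemma RD.bound {W : ℝ → ℝ → ℂ} (h : RD W) (N : ℕ) (τ : ℝ) : ∃ C : ℝ, 0 ≤ C ∧ ∀ y, 0 < y →
    ‖W τ y‖ ≤ C * min (y ^ N) ((y ^ N)⁻¹) := by
  obtain ⟨C, A, hC, hb⟩ := h.dec 0 N
  refine ⟨C * (1 + |τ|) ^ A, by positivity, fun y hy => ?_⟩
  have := hb τ y hy
  rw [iteratedDeriv_zero] at this
  simp only [Real.exp_log hy] at this
  exact this

open Classical in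
lemma summable_RD {W : ℝ → ℝ → ℂ} (h : RD W) (τ : ℝ) (h2 : (2 : Eis) ∣ M) (hν : ν ≠ 0)
    (hf : ∀ b, Sm M b → ‖f b‖ ≤ 1) (hQ : 0 < Q) :
    Summable fun b : Eis => if Sm M b then f b * HN ν b * W τ (nm b / Q) else 0 := by
  obtain ⟨C, hC, hb⟩ := RD.bound h 2 τ
  refine Summable.of_norm_bounded
    (g := fun b => (Real.sqrt (nm ν) * (C * Q ^ 2)) * ((nm b : ℝ) ^ 2)⁻¹)
    (F1.summable_inv_nm_sq.mul_left _) fun b => ?_
  by_cases hm : Sm M b
  · rw [if_pos hm, norm_mul, norm_mul]
    have hb0 : (0 : ℝ) < nm b := by exact_mod_cast nm_pos.mpr hm.ne_zero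
    have h1 := hb (nm b / Q) (by positivity)
    have h3 := norm_HN_le (hm.mono h2) hν
    calc ‖f b‖ * ‖HN ν b‖ * ‖W τ (nm b / Q)‖
        ≤ 1 * Real.sqrt (nm ν) * (C * (((nm b : ℝ) / Q) ^ 2)⁻¹) := by
          gcongr
          · exact hf b hm
          · exact h1.trans (mul_le_mul_of_nonneg_left (min_le_right _ _) hC)
      _ = _ := by
          rw [div_pow, inv_div]
          ring
  · rw [if_neg hm, norm_zero]
    positivity

end Crest.Agent.R017.A590
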