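import Crest.Agent.R017.AS4_590

/-!
# Row 17, section A: the functional equation after adding a sextic prime (helper590)

`step_sextic` : from `(M₁, ψ₁, l)` to `(M, ψ₁ sy6(p,·)^m, l)`, `M = p^v M₁`.
-/

set_option autoImplicit false

noncomputable section

open Complex Set
open scoped ComplexConjugate ContDiff

namespace Crest.Agent.R017.A590

open Crest.Agent.R012 Crest.Agent.R012.Eis Crest.Agent.R012.Mob705 Crest.Agent.R012.Gauss880
open Crest.Agent.R017.End699 Crest.Agent.R017.Sx440 Crest.Agent.R017.Sx545 Crest.Agent.R017.B770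

variable {M M₁ p ν : Eis} {ι L : Type}

/-- first constant -/
def kA (D : Dt ι L) (p : Eis) (m : ℕ) (i : ι) : ℂ :=
  D.κ i * ((Real.sqrt (nm (p ^ m)))⁻¹ : ℝ) * End699.tw (D.η i) D.j (p ^ m)

/-- the new data -/
def stepD (D : Dt ι L) (f : Eis → ℂ) (p : Eis) (v m m' : ℕ) (δ : ℂ) :
    Dt (ι ⊕ ι ⊕ ι ⊕ ι) L where
  M' := D.M' * p ^ v
  κ := Sum.elim (fun i => kA D p m i)
    (Sum.elim (fun i => kA D p m i * (End699.tw (D.ψ' i) D.l' p ^ (m + 1) * KK p m))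
    (Sum.elim (fun i => -(δ * (f p ^ (m + 1) * KK p m) * ((nm p : ℂ) ^ (m + 1))⁻¹ * kA D p m' i))
      (fun i => -(δ * (f p ^ (m + 1) * KK p m) * ((nm p : ℂ) ^ (m + 1))⁻¹ * kA D p m' i *
        (End699.tw (D.ψ' i) D.l' p ^ (m' + 1) * KK p m')))))
  η := Sum.elim (fun i => Rst (D.M' * p ^ v) (D.η i))
    (Sum.elim (fun i => Rst (D.M' * p ^ v) (fun a => D.η i a * sy6 a p ^ (m + 1)))
    (Sum.elim (fun i => Rst (D.M' * p ^ v) (fun a => D.η i a * sy6 a p ^ (m + 1)))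
      (fun i => Rst (D.M' * p ^ v) (fun a => D.η i a * (sy6 a p ^ (m + 1) * sy6 a p ^ (m' + 1))))))
  ψ' := Sum.elim (fun i => Rst (D.M' * p ^ v) (fun b => D.ψ' i b * sy6 p b ^ m))
    (Sum.elim (fun i => Rst (D.M' * p ^ v) (fun b => D.ψ' i b * sy6 p b ^ m'))
    (Sum.elim (fun i => Rst (D.M' * p ^ v) (fun b => D.ψ' i b * sy6 p b ^ m'))
      (fun i => Rst (D.M' * p ^ v) (fun b => D.ψ' i b * sy6 p b ^ m))))
  j := D.j
  l' := D.l'
  ρ := Sum.elim (fun i => D.ρ i * nm (p ^ m))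
    (Sum.elim (fun i => D.ρ i * nm (p ^ m) / (nm p : ℝ) ^ (m + 1))
    (Sum.elim (fun i => D.ρ i * nm (p ^ m') * (nm p : ℝ) ^ (m + 1))
      (fun i => D.ρ i * nm (p ^ m') * (nm p : ℝ) ^ (m + 1) / (nm p : ℝ) ^ (m' + 1))))
  cL := D.cL
  qL := D.qL

section

variable {v : ℕ} (h : Ext M M₁ p) (hMv : M = p ^ v * M₁) (hv : v ≠ 0) (h36 : (36 : Eis) ∣ M₁)
include h hMv hv h36

lemma stepD_ok [Fintype L] {D : Dt ι L} (hD : D.OK M₁) (f : Eis → ℂ)
    (m m' : ℕ) (δ : ℂ) : (stepD D f p v m m' δ).OK M := by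
  have h0 : D.M' * p ^ v ≠ 0 := mul_ne_zero hD.ne (pow_ne_zero _ h.sp.ne_zero)
  have h3 : (3 : Eis) ∣ D.M' * p ^ v :=
    ((Dvd.dvd.trans ⟨12, by norm_num⟩ h36).trans hD.dvd).mul_right _
  have h4 : (4 : Eis) ∣ D.M' * p ^ v :=
    ((Dvd.dvd.trans ⟨9, by norm_num⟩ h36).trans hD.dvd).mul_right _
  have h2 : (2 : Eis) ∣ D.M' * p ^ v := Dvd.dvd.trans ⟨2, by norm_num⟩ h4
  have hp : p ∣ D.M' * p ^ v := (dvd_pow_self p hv).mul_left _
  have hq := h.q_pos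
  have u1 : ∀ i, Uni (D.M' * p ^ v) (D.η i) := fun i => (uni_of_HC (hD.η i)).mono (dvd_mul_right _ _)
  have u2 : ∀ i, Uni (D.M' * p ^ v) (D.ψ' i) :=
    fun i => (uni_of_HC (hD.ψ' i)).mono (dvd_mul_right _ _)
  have u3 : ∀ k, Uni (D.M' * p ^ v) (fun a => sy6 a p ^ k) := fun k => (uni_sy6_left h.p2 h2 hp).pow k
  have u4 : ∀ k, Uni (D.M' * p ^ v) (fun b => sy6 p b ^ k) :=
    fun k => (uni_sy6_right h.p2 h4 hp).pow k
  have hpm : ∀ k, (0 : ℝ) < nm (p ^ k) := fun k => by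
    exact_mod_cast nm_pos.mpr (pow_ne_zero k h.sp.ne_zero)
  refine
    { ne := h0
      dvd := ?_
      rad := ?_
      η := ?_
      ψ' := ?_
      ρ := ?_
      qL := hD.qL
      nz := hD.nz
      j0 := hD.j0
      lj := hD.lj
      rel := hD.rel }
  · rw [hMv, mul_comm (p ^ v) M₁]
    exact mul_dvd_mul_right hD.dvd _
  · intro r hr hrd
    rcases hr.dvd_or_dvd (show r ∣ D.M' * p ^ v from hrd) with h5 | h5
    · rw [hMv]; exact (hD.rad r hr h5).mul_left _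
    · rw [hMv]; exact h5.mul_right _
  · rintro (i | i | i | i)
    · exact hc_rst h0 h3 (u1 i)
    · exact hc_rst h0 h3 ((u1 i).mul' (u3 _))
    · exact hc_rst h0 h3 ((u1 i).mul' (u3 _))
    · exact hc_rst h0 h3 ((u1 i).mul' ((u3 _).mul' (u3 _)))
  · rintro (i | i | i | i)
    · exact hc_rst h0 h3 ((u2 i).mul' (u4 _))
    · exact hc_rst h0 h3 ((u2 i).mul' (u4 _))
    · exact hc_rst h0 h3 ((u2 i).mul' (u4 _))
    · exact hc_rst h0 h3 ((u2 i).mul' (u4 _))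
  · rintro (i | i | i | i)
    · exact mul_pos (hD.ρ i) (hpm m)
    · exact div_pos (mul_pos (hD.ρ i) (hpm m)) (by positivity)
    · exact mul_pos (mul_pos (hD.ρ i) (hpm m')) (by positivity)
    · exact div_pos (mul_pos (mul_pos (hD.ρ i) (hpm m')) (by positivity)) (by positivity)

end

/-- one term of the right side -/
def RT [Fintype ι] (M : Eis) (D : Dt ι L) (W : ι → ℝ → ℝ → ℂ) (τ : ℝ) (ν : Eis) (Q : ℝ) : ℂ :=
  ((Q / Real.sqrt (nm ν) : ℝ) : ℂ) * ∑ i, D.κ i * End699.tw (D.η i) D.j ν *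
    PsiF M (End699.tw (D.ψ' i) D.l') ν (W i τ) (D.ρ i * nm ν / Q)

lemma tw_mul {q : Eis} {χ : Eis → ℂ} (h : HC q χ) (l : ℤ) {a b : Eis} (ha : IsPrim a)
    (hb : IsPrim b) : End699.tw χ l (a * b) = End699.tw χ l a * End699.tw χ l b := by
  unfold End699.tw
  rw [h.char.mul a b ha hb, P355.ang_mul]
  ring

lemma mult_tw {q : Eis} {χ : Eis → ℂ} (h : HC q χ) (l : ℤ) : Mult M₁ (End699.tw χ l) where
  one := by unfold End699.tw; rw [h.char.one, P355.ang_one, one_mul]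
  mul a b ha hb := tw_mul h l ha.1 hb.1

lemma norm_tw_le' {q : Eis} {χ : Eis → ℂ} (h : HC q χ) (l : ℤ) {b : Eis} (hb : IsPrim b) :
    ‖End699.tw χ l b‖ ≤ 1 := by
  unfold End699.tw
  rw [norm_mul, GmK411.norm_ang' l hb.ne_zero, mul_one]
  exact h.char.norm_le hb

/-- the natural split of a term of the right side -/
lemma natSplitW (h : Ext M M₁ p) {m m' : ℕ} (hm : m ≤ 5) (hm' : (m + 2 + m') % 6 = 0)
    (hν : Sm M ν) {q : Eis} {χ : Eis → ℂ} (hχ : HC q χ) (l : ℤ) {W : ℝ → ℝ → ℂ} (hW : RD W)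
    (τ : ℝ) {Q : ℝ} (hQ : 0 < Q) :
    PsiF M₁ (End699.tw χ l) (p ^ m * ν) (W τ) Q =
      PsiF M (fun b => End699.tw χ l b * sy6 p b ^ m) ν (W τ) Q +
        Cp (End699.tw χ l) p ν m *
          PsiF M (fun b => End699.tw χ l b * sy6 p b ^ m') ν (W τ) (Q / (nm p : ℝ) ^ (m + 1)) := by
  classical
  have hmul := mult_tw (M₁ := M₁) hχ l
  refine natSplit h hm hm' (h.ndvd hν) hmul.one hmul.mul ?_
  exact summable_RD hW τ h.two (mul_ne_zero (pow_ne_zero _ h.sp.ne_zero) hν.ne_zero)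
    (fun b hb => norm_tw_le' hχ l hb.1) hQ

end Crest.Agent.R017.A590
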