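import Crest.Agent.R017.AS5_590

/-!
# Row 17, section A: the functional equation after adding a sextic prime, main theorem (helper590)
-/

set_option autoImplicit false

noncomputable section

open Complex Set
open scoped ComplexConjugate ContDiff

namespace Crest.Agent.R017.A590

open Crest.Agent.R012 Crest.Agent.R012.Eis Crest.Agent.R012.Mob705 Crest.Agent.R012.Gauss880
open Crest.Agent.R017.End699 Crest.Agent.R017.Sx440 Crest.Agent.R017.Sx545 Crest.Agent.R017.B770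

variable {M M₁ p ν : Eis} {ι L : Type}

/-- terms -/
def TA (M : Eis) (D : Dt ι L) (W : ι → ℝ → ℝ → ℂ) (τ : ℝ) (p ν : Eis) (Q : ℝ) (m : ℕ) (i : ι) : ℂ :=
  kA D p m i * End699.tw (D.η i) D.j ν *
    PsiF M (fun b => End699.tw (D.ψ' i) D.l' b * sy6 p b ^ m) ν (W i τ)
      (D.ρ i * nm (p ^ m) * nm ν / Q)

def TB (M : Eis) (D : Dt ι L) (W : ι → ℝ → ℝ → ℂ) (τ : ℝ) (p ν : Eis) (Q : ℝ) (m m' : ℕ) (i : ι) :
    ℂ :=
  kA D p m i * (End699.tw (D.ψ' i) D.l' p ^ (m + 1) * KK p m) *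
    (End699.tw (D.η i) D.j ν * sy6 ν p ^ (m + 1)) *
    PsiF M (fun b => End699.tw (D.ψ' i) D.l' b * sy6 p b ^ m') ν (W i τ)
      (D.ρ i * nm (p ^ m) * nm ν / Q / (nm p : ℝ) ^ (m + 1))

lemma RT_split [Fintype ι] [Fintype L] (h : Ext M M₁ p) {D : Dt ι L} (hD : D.OK M₁)
    {m m' : ℕ} (hm : m ≤ 5) (hm' : (m + 2 + m') % 6 = 0) (hν : Sm M ν)
    {W : ι → ℝ → ℝ → ℂ} (hW : ∀ i, RD (W i)) (τ : ℝ) {Q : ℝ} (hQ : 0 < Q) :
    RT M₁ D W τ (p ^ m * ν) Q = ((Q / Real.sqrt (nm ν) : ℝ) : ℂ) *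
      ∑ i, (TA M D W τ p ν Q m i + TB M D W τ p ν Q m m' i) := by
  unfold RT
  have hν0 : (0 : ℝ) < nm ν := by exact_mod_cast nm_pos.mpr hν.ne_zero
  have hpm : (0 : ℝ) < nm (p ^ m) := by
    exact_mod_cast nm_pos.mpr (pow_ne_zero m h.sp.ne_zero)
  have hsq : Real.sqrt (nm (p ^ m * ν)) = Real.sqrt (nm (p ^ m)) * Real.sqrt (nm ν) := by
    rw [nm_mul, Nat.cast_mul, Real.sqrt_mul (by positivity)]
  have h1 : ((Q / Real.sqrt (nm (p ^ m * ν)) : ℝ) : ℂ) =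
      ((Q / Real.sqrt (nm ν) : ℝ) : ℂ) * ((Real.sqrt (nm (p ^ m)))⁻¹ : ℝ) := by
    rw [hsq, ← Complex.ofReal_mul]
    congr 1
    have := (Real.sqrt_pos.mpr hν0).ne'
    have := (Real.sqrt_pos.mpr hpm).ne'
    field_simp
  rw [h1, mul_assoc, Finset.mul_sum]
  congr 1
  refine Finset.sum_congr rfl fun i _ => ?_
  have hQ' : 0 < D.ρ i * nm (p ^ m * ν) / Q := by
    have : (0 : ℝ) < nm (p ^ m * ν) := by
      rw [nm_mul]; push_cast; positivity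
    have := hD.ρ i
    positivity
  rw [natSplitW h hm hm' hν (hD.ψ' i) D.l' (hW i) τ hQ', tw_mul (hD.η i) D.j (h.sp.pow m).1 hν.1]
  have e1 : D.ρ i * (nm (p ^ m * ν) : ℝ) / Q = D.ρ i * nm (p ^ m) * nm ν / Q := by
    rw [nm_mul]; push_cast; ring
  rw [e1]
  unfold TA TB Cp kA
  ring

theorem RT_step [Fintype ι] [Fintype L] (h : Ext M M₁ p) {D : Dt ι L} (hD : D.OK M₁) {v : ℕ}
    (hv : M = p ^ v * M₁) (f : Eis → ℂ) {m m' : ℕ} (hm : m ≤ 5) (hm5 : m' ≤ 5)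
    (hm' : (m + 2 + m') % 6 = 0) (δ : ℂ) (hν : Sm M ν)
    {W : ι → ℝ → ℝ → ℂ} (hW : ∀ i, RD (W i)) (τ : ℝ) {Q : ℝ} (hQ : 0 < Q) :
    RT M (stepD D f p v m m' δ) (Sum.elim W (Sum.elim W (Sum.elim W W))) τ ν Q =
      RT M₁ D W τ (p ^ m * ν) Q -
        δ * Cp f p ν m * RT M₁ D W τ (p ^ m' * ν) (Q / (nm p : ℝ) ^ (m + 1)) := by
  have hq := h.q_pos
  have hQ' : 0 < Q / (nm p : ℝ) ^ (m + 1) := by positivity
  have hcopM : ∀ b, Sm M b → IsCoprime b (D.M' * p ^ v) := by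
    intro b hb
    have h0 : D.M' * p ^ v ≠ 0 := mul_ne_zero hD.ne (pow_ne_zero _ h.sp.ne_zero)
    refine isCoprime_of_prime_dvd (fun h' => h0 h'.2) (fun r hr h5 h6 => ?_)
    have h7 : r ∣ M := by
      rw [hv]
      rcases hr.dvd_or_dvd h6 with h8 | h8
      · exact (hD.rad r hr h8).mul_left _
      · exact h8.mul_right _
    exact hr.not_isUnit (hb.2.isUnit_of_dvd' h5 h7)
  rw [RT_split h hD hm hm' hν hW τ hQ, RT_split h hD hm5 (by omega : (m' + 2 + m) % 6 = 0) hν hW τ hQ']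
  unfold RT
  have hqC : ((nm p : ℂ) ^ (m + 1)) ≠ 0 := pow_ne_zero _ h.qC
  have e0 : ((Q / (nm p : ℝ) ^ (m + 1) / Real.sqrt (nm ν) : ℝ) : ℂ) =
      ((Q / Real.sqrt (nm ν) : ℝ) : ℂ) * ((nm p : ℂ) ^ (m + 1))⁻¹ := by
    push_cast
    ring
  rw [e0]
  have hT : ∀ g : Eis → ℂ, ∀ k : ℤ, ∀ b, Sm M b → End699.tw (Rst (D.M' * p ^ v) g) k b =
      g b * ang k b := by
    intro g k b hb
    unfold End699.tw
    rw [Rst_of (hcopM b hb)]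
  have hF : ∀ (i : ι) (k : ℕ) (X : ℝ),
      PsiF M (End699.tw (Rst (D.M' * p ^ v) (fun b => D.ψ' i b * sy6 p b ^ k)) D.l') ν (W i τ) X =
      PsiF M (fun b => End699.tw (D.ψ' i) D.l' b * sy6 p b ^ k) ν (W i τ) X := by
    intro i k X
    refine psiF_congr (fun b hb => ?_) ν _ _
    rw [hT _ _ b hb]
    unfold End699.tw
    ring
  have hqm : (nm p : ℝ) ^ (m + 1) ≠ 0 := by positivity
  rw [Fintype.sum_sum_type, Fintype.sum_sum_type, Fintype.sum_sum_type]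
  simp only [stepD, Sum.elim_inl, Sum.elim_inr]
  rw [← Finset.sum_add_distrib, ← Finset.sum_add_distrib, ← Finset.sum_add_distrib]
  have e1 : δ * Cp f p ν m * (((Q / Real.sqrt (nm ν) : ℝ) : ℂ) * ((nm p : ℂ) ^ (m + 1))⁻¹ *
      ∑ i, (TA M D W τ p ν (Q / (nm p : ℝ) ^ (m + 1)) m' i +
        TB M D W τ p ν (Q / (nm p : ℝ) ^ (m + 1)) m' m i)) =
      ((Q / Real.sqrt (nm ν) : ℝ) : ℂ) * ∑ i, δ * Cp f p ν m * ((nm p : ℂ) ^ (m + 1))⁻¹ *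
        (TA M D W τ p ν (Q / (nm p : ℝ) ^ (m + 1)) m' i +
        TB M D W τ p ν (Q / (nm p : ℝ) ^ (m + 1)) m' m i) := by
    rw [← Finset.mul_sum]
    ring
  rw [e1, ← mul_sub, ← Finset.sum_sub_distrib]
  congr 1
  refine Finset.sum_congr rfl fun i _ => ?_
  rw [hT _ _ ν hν, hT _ _ ν hν, hT _ _ ν hν, hF, hF, hF, hF]
  have x1 : D.ρ i * (nm (p ^ m) : ℝ) / (nm p : ℝ) ^ (m + 1) * nm ν / Q =
      D.ρ i * nm (p ^ m) * nm ν / Q / (nm p : ℝ) ^ (m + 1) := by ring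
  have x2 : D.ρ i * (nm (p ^ m') : ℝ) * (nm p : ℝ) ^ (m + 1) * nm ν / Q =
      D.ρ i * nm (p ^ m') * nm ν / (Q / (nm p : ℝ) ^ (m + 1)) := by
    rw [div_div_eq_mul_div]; ring
  have x3 : D.ρ i * (nm (p ^ m') : ℝ) * (nm p : ℝ) ^ (m + 1) / (nm p : ℝ) ^ (m' + 1) * nm ν / Q =
      D.ρ i * nm (p ^ m') * nm ν / (Q / (nm p : ℝ) ^ (m + 1)) / (nm p : ℝ) ^ (m' + 1) := by
    rw [div_div_eq_mul_div]; ring
  rw [x1, x2, x3]
  unfold TA TB Cp End699.tw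
  ring

end Crest.Agent.R017.A590
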