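import Crest.Agent.R017.AS6_590

/-!
# Row 17, section A: `step_sextic` (helper590)
-/

set_option autoImplicit false

noncomputable section

open Complex Set
open scoped ComplexConjugate ContDiff

namespace Crest.Agent.R017.A590

open Crest.Agent.R012 Crest.Agent.R012.Eis Crest.Agent.R012.Mob705 Crest.Agent.R012.Gauss880
open Crest.Agent.R017.End699 Crest.Agent.R017.Sx440 Crest.Agent.R017.Sx545 Crest.Agent.R017.B770

variable {M M₁ p ν : Eis} {ι L : Type}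

lemma sw_bound {V : ℝ → ℂ} (hV : SW V) : ∃ R : ℝ, 0 < R ∧ ∀ x, R < x → V x = 0 := by
  obtain ⟨R, hR⟩ := hV.cpt.isCompact.bddAbove
  refine ⟨max R 1, by positivity, fun x hx => ?_⟩
  apply image_eq_zero_of_notMem_tsupport
  intro hmem
  have := hR hmem
  have h2 := le_max_left R 1
  linarith

lemma xiE_p {ψ₁ : Eis → ℂ} (l : ℤ) (hp : p ≠ 0) :
    xiE ψ₁ l p = (End699.tw ψ₁ l p * ang 1 p) ^ 6 := by
  unfold xiE End699.tw
  rw [ang_add hp]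
  ring

lemma xiE_mul {q : Eis} {ψ₁ : Eis → ℂ} (h : HC q ψ₁) (l : ℤ) {a b : Eis} (ha : IsPrim a)
    (hb : IsPrim b) : xiE ψ₁ l (a * b) = xiE ψ₁ l a * xiE ψ₁ l b := by
  unfold xiE
  rw [tw_mul h _ ha hb, mul_pow]

/-- **adding a prime with a sextic component** -/
theorem step_sextic (h : Ext M M₁ p) {v : ℕ} (hv0 : v ≠ 0) (hv : M = p ^ v * M₁)
    (h36 : (36 : Eis) ∣ M₁) {ψ₁ : Eis → ℂ} (hψ₁ : HC M₁ ψ₁) {l : ℤ} (H : HasFE M₁ ψ₁ l)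
    {m : ℕ} (hm : m ≤ 5) {ψ : Eis → ℂ} (hψ : ∀ b, Sm M b → ψ b = ψ₁ b * sy6 p b ^ m) :
    HasFE M ψ l := by
  classical
  obtain ⟨ι, L, iι, iL, D, hD, hFE⟩ := H
  set f := End699.tw ψ₁ l with hf
  obtain ⟨m', δ, hm5, hm', hleft⟩ : ∃ (m' : ℕ) (δ : ℂ), m' ≤ 5 ∧ (m + 2 + m') % 6 = 0 ∧
      ∀ (ν : Eis), Sm M ν → ∀ (V : ℝ → ℂ) (R : ℝ), 0 < R → (∀ x, R < x → V x = 0) →
        ∀ Q : ℝ, 0 < Q → PsiE M (xiE ψ₁ l) (fun b => f b * sy6 p b ^ m) ν V Q =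
          PsiE M₁ (xiE ψ₁ l) f (p ^ m * ν) V Q -
            δ * Cp f p ν m * PsiE M₁ (xiE ψ₁ l) f (p ^ m' * ν) V (Q / (nm p : ℝ) ^ (m + 1)) := by
    have hmul := mult_tw (M₁ := M₁) hψ₁ l
    have hξ : ∀ a b, Sm M₁ a → Sm M₁ b → xiE ψ₁ l (a * b) = xiE ψ₁ l a * xiE ψ₁ l b :=
      fun a b ha hb => xiE_mul hψ₁ l ha.1 hb.1
    have hξp := xiE_p (ψ₁ := ψ₁) l h.sp.ne_zero
    by_cases h5 : m = 5
    · subst h5
      refine ⟨5, 0, le_refl 5, by norm_num, fun ν hν V R hR hV Q hQ => ?_⟩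
      rw [left_id5 h (h.ndvd hν) hmul hξ hξp hR hV hQ]
      ring
    · refine ⟨4 - m, 1, by omega, by omega, fun ν hν V R hR hV Q hQ => ?_⟩
      rw [left_id h (by omega : m + (4 - m) = 4) (h.ndvd hν) hmul hξ hξp hR hV hQ]
      ring
  refine ⟨ι ⊕ ι ⊕ ι ⊕ ι, L, inferInstance, iL, stepD D f p v m m' δ,
    stepD_ok h hv hv0 h36 hD f m m' δ, ?_⟩
  intro V hV
  obtain ⟨W, hW, hid⟩ := hFE V hV
  refine ⟨Sum.elim W (Sum.elim W (Sum.elim W W)), ?_, ?_⟩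
  · rintro (i | i | i | i)
    · exact hW i
    · exact hW i
    · exact hW i
    · exact hW i
  intro ν hν Q hQ τ
  obtain ⟨R, hR, hVR⟩ := sw_bound hV
  set Vt : ℝ → ℂ := fun y => (y : ℂ) ^ (I * τ) * V y with hVt
  have hVtR : ∀ x, R < x → Vt x = 0 := fun x hx => by rw [hVt]; simp only; rw [hVR x hx, mul_zero]
  have hq := h.q_pos
  have hQ' : 0 < Q / (nm p : ℝ) ^ (m + 1) := by positivity
  have hqL : ∀ j, 0 < Q / D.qL j := fun j => by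
    have := hD.qL j
    positivity
  have e1 : ∀ j, PsiE M (xiE ψ l) (End699.tw ψ l) ν Vt (Q / D.qL j) =
      PsiE M₁ (xiE ψ₁ l) f (p ^ m * ν) Vt (Q / D.qL j) -
        δ * Cp f p ν m *
          PsiE M₁ (xiE ψ₁ l) f (p ^ m' * ν) Vt (Q / (nm p : ℝ) ^ (m + 1) / D.qL j) := by
    intro j
    rw [div_right_comm Q _ (D.qL j), ← hleft ν hν Vt R hR hVtR _ (hqL j)]
    refine psiE_congr (fun b hb => ?_) (fun b hb => ?_) ν _ _
    · unfold End699.tw at hf ⊢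
      rw [hf, hψ b hb]
      ring
    · unfold xiE End699.tw
      rw [hψ b hb]
      have h1 : (sy6 p b ^ m) ^ 6 = 1 := by
        rw [← pow_mul, mul_comm m 6, pow_mul, res_sy6.pow_eq p b (h.sm2 (h.low hb)) (h.cop hb),
          one_pow]
      calc (ψ₁ b * sy6 p b ^ m * ang (l + 1) b) ^ 6
          = (ψ₁ b * ang (l + 1) b) ^ 6 * (sy6 p b ^ m) ^ 6 := by ring
        _ = _ := by rw [h1, mul_one]
  have hν1 : ∀ k, Sm M₁ (p ^ k * ν) := fun k => (h.mul_iff k ν).mpr (h.low hν)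
  have r1 := hid (p ^ m * ν) (hν1 m) Q hQ τ
  have r2 := hid (p ^ m' * ν) (hν1 m') (Q / (nm p : ℝ) ^ (m + 1)) hQ' τ
  have r3 := RT_step h hD hv f hm hm5 hm' δ hν hW τ hQ
  change ∑ j, D.cL j * PsiE M (xiE ψ l) (End699.tw ψ l) ν Vt (Q / D.qL j) =
    RT M (stepD D f p v m m' δ) (Sum.elim W (Sum.elim W (Sum.elim W W))) τ ν Q
  rw [r3]
  change _ = RT M₁ D W τ (p ^ m * ν) Q at r1
  change _ = RT M₁ D W τ (p ^ m' * ν) (Q / (nm p : ℝ) ^ (m + 1)) at r2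
  rw [← r1, ← r2, Finset.mul_sum, ← Finset.sum_sub_distrib]
  refine Finset.sum_congr rfl fun j _ => ?_
  rw [e1 j]
  ring

end Crest.Agent.R017.A590
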