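import Crest.Agent.R017.Loc1_266

/-!
# Row 17 (A92.3 / 74 (A3)): the local sums of the constant terms, two characters

Rows `w = x v₀ + h v₀'`, `v₀ = (c₀, d₀)`, `v₀' = (c₁, d₁)`, `c₀ d₁ - d₀ c₁ = 1`, so
`c_w = x c₀ + h c₁`, `d_w = x d₀ + h d₁`.  `α, β` characters modulo `m` (any `m ≠ 0`).

* `loc_coprime` : `h` prime to `m`:
  `Σ_x α(c_w) β(d_w) = conj α(d₀) conj β(c₀) (αβ)(h) K`, `K = Ks α β m = Σ_y α(y) β(y+1)`;
  `Ks_eq : K = α(-1) J(α, β)`, `norm_Ks_sq : |K|² = N(m)` if `α`, `β`, `αβ` are primitive.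
* `loc_vanish` : the sum, with a factor `g` in front, vanishes as soon as there is
  `u` prime to the modulus with `m ∣ (u-1) h`, `g(u x) = γ g(x)`, `γ (αβ)(u) ≠ 1`.
* `loc_nonunit_c/d/h/h'` : a prime `p ∣ m` divides `c₀` or `d₀`: the sum vanishes.
* `loc_zero` : `m ∣ h`.
* `loc_mid` : `h = s t`, `g(x + s y) = g(x)`, `t` prime to `m`.
* `Bs_mul_gl`, `norm_Bs` : the constant of `loc_mid`.
* `tot_coprime` : the complete sum modulo `m h` with a character `k` modulo `h` in front.
-/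

set_option autoImplicit false

noncomputable section

open Complex
open scoped ComplexConjugate

namespace Crest.Agent.R017.Loc266

open Crest.Agent.R012 Crest.Agent.R012.Eis Crest.Agent.R012.Gauss880

variable {m n c d : Eis} {α β g k : Eis → ℂ}

/-- `Σ_y α(y) β(y+1)` -/
def Ks (α β : Eis → ℂ) (m : Eis) : ℂ := sumMod m (fun y => α y * β (y + 1))

lemma Ks_eq (hm : m ≠ 0) (hα : IsCh m α) (hβ : IsCh m β) : Ks α β m = α (-1) * jac α β m := by
  have hP : PMod m (fun y => α y * β (y + 1)) := hα.per.mul (hβ.per.comp_add 1)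
  unfold Ks jac
  rw [← sumMod_neg hm hP, ← sumMod_mul_left hm]
  refine sumMod_congr fun x => ?_
  rw [show -x = (-1) * x by ring, hα.mul, show (-1) * x + 1 = 1 - x by ring]; ring

lemma IsCh.neg_one_sq (hα : IsCh m α) : α (-1) * α (-1) = 1 := by
  rw [← hα.mul]; norm_num; exact hα.one

lemma norm_neg_one (hα : IsCh m α) : ‖α (-1)‖ = 1 := by
  have h := congrArg norm (IsCh.neg_one_sq hα)
  rw [norm_mul, norm_one] at h
  nlinarith [norm_nonneg (α (-1))]

theorem norm_Ks_sq (hm : m ≠ 0) (hα : IsCh m α) (hβ : IsCh m β) (h1 : Prm m α) (h2 : Prm m β)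
    (hp : Prm m (fun x => α x * β x)) : ‖Ks α β m‖ ^ 2 = nm m := by
  rw [Ks_eq hm hα hβ, norm_mul, norm_neg_one hα, one_mul, norm_jac_sq hm hα hβ h1 h2 hp]

/-- inverse modulo `m` -/
lemma exists_inv {a : Eis} (ha : IsCoprime a m) : ∃ b, IsCoprime b m ∧ m ∣ a * b - 1 := by
  obtain ⟨u, v, huv⟩ := ha
  refine ⟨u, ⟨a, v, ?_⟩, ⟨-v, ?_⟩⟩
  · linear_combination huv
  · linear_combination huv

lemma IsCh.inv (hα : IsCh m α) (hm : m ≠ 0) {a b : Eis} (ha : IsCoprime a m)
    (h : m ∣ a * b - 1) : α b = conj (α a) := by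
  have h1 : α a * α b = 1 := by
    rw [← hα.mul, hα.per.congr h, hα.one]
  have h2 := hα.mul_conj_self hm ha
  have h0 := hα.ne_zero hm ha
  exact mul_left_cancel₀ h0 (h1.trans h2.symm)

/-- periodicity of the summand -/
lemma per_cd (hα : IsCh m α) (hβ : IsCh m β) (c0 d0 c1 d1 h : Eis) :
    PMod m (fun x => α (x * c0 + h * c1) * β (x * d0 + h * d1)) := by
  intro x t
  beta_reduce
  rw [show (x + m * t) * c0 + h * c1 = (x * c0 + h * c1) + m * (t * c0) by ring,
    show (x + m * t) * d0 + h * d1 = (x * d0 + h * d1) + m * (t * d0) by ring, hα.per, hβ.per]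

/-- `h` prime to `m`. -/
theorem loc_coprime (hm : m ≠ 0) (hα : IsCh m α) (hβ : IsCh m β) {c0 d0 c1 d1 h : Eis}
    (hdet : c0 * d1 - d0 * c1 = 1) (hc0 : IsCoprime c0 m) (hd0 : IsCoprime d0 m)
    (hh : IsCoprime h m) :
    sumMod m (fun x => α (x * c0 + h * c1) * β (x * d0 + h * d1))
      = conj (α d0) * conj (β c0) * (α h * β h) * Ks α β m := by
  obtain ⟨c', hc', hcc⟩ := exists_inv hc0
  obtain ⟨d', hd', hdd⟩ := exists_inv hd0
  have hP := per_cd hα hβ c0 d0 c1 d1 h
  -- substitute `x = h c' d' y - h c1 c'`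
  rw [← sumMod_shift hm hP (-(h * c1 * c'))]
  have hP2 : PMod m (fun x => α ((x + -(h * c1 * c')) * c0 + h * c1) *
      β ((x + -(h * c1 * c')) * d0 + h * d1)) := hP.comp_add _
  have hu : IsCoprime (h * c' * d') m := (hh.mul_left hc').mul_left hd'
  rw [← sumMod_mul_coprime hm hP2 hu]
  unfold Ks
  rw [← sumMod_mul_left hm]
  refine sumMod_congr fun y => ?_
  obtain ⟨s, hs⟩ := hcc
  obtain ⟨t, ht⟩ := hdd
  have e1 : α ((h * c' * d' * y + -(h * c1 * c')) * c0 + h * c1) = α (h * (d' * y)) := by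
    apply hα.per.congr
    refine ⟨s * (h * d' * y - h * c1), ?_⟩
    linear_combination (h * d' * y - h * c1) * hs
  have e2 : β ((h * c' * d' * y + -(h * c1 * c')) * d0 + h * d1) = β (h * (c' * (y + 1))) := by
    apply hβ.per.congr
    refine ⟨t * (h * c' * y) - s * h * d1, ?_⟩
    linear_combination (h * c' * y) * ht - h * d1 * hs + h * c' * hdet
  rw [e1, e2]
  simp only [hα.mul, hβ.mul]
  rw [IsCh.inv hα hm hd0 ⟨t, ht⟩, IsCh.inv hβ hm hc0 ⟨s, hs⟩]
  ring

/-- The vanishing criterion; `N` = modulus of the whole sum (`m ∣ N`). -/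
theorem loc_vanish {N : Eis} (hN : N ≠ 0) (hmN : m ∣ N) (hα : IsCh m α) (hβ : IsCh m β)
    (hg : PMod N g) {u : Eis} (hu : IsCoprime u N) {γ : ℂ} (hgu : ∀ x, g (u * x) = γ * g x)
    {h : Eis} (h1 : m ∣ (u - 1) * h) (h2 : γ * (α u * β u) ≠ 1) (c0 d0 c1 d1 : Eis) :
    sumMod N (fun x => g x * (α (x * c0 + h * c1) * β (x * d0 + h * d1))) = 0 := by
  have hP := per_cd hα hβ c0 d0 c1 d1 h
  have hP' : PMod N (fun x => g x * (α (x * c0 + h * c1) * β (x * d0 + h * d1))) :=
    hg.mul (hP.mono hmN)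
  refine SumMod880.sumMod_eq_zero_of_mul hN (fun x y h => hP'.congr h) hu _ h2 (fun x => ?_)
  have e : ∀ {δ : Eis → ℂ}, IsCh m δ → ∀ a b : Eis,
      δ (u * x * a + h * b) = δ u * δ (x * a + h * b) := by
    intro δ hδ a b
    rw [← hδ.mul]
    apply hδ.per.congr
    rw [show u * x * a + h * b - u * (x * a + h * b) = -((u - 1) * h * b) by ring]
    exact (dvd_neg).mpr (h1.mul_right b)
  rw [e hα, e hβ, hgu]; ring

/-- primitivity: the sum of `β` over a line `D + (m/p) e y`, `y mod p`, is zero. -/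
theorem sum_line (hα : IsCh m α) {p : Eis} (hp : Prime p) (hpm : p ∣ m)
    (hprp : Prp m α) {t r e : Eis} (ht : t * p = m * r) (hr : IsCoprime r p)
    (he : IsCoprime e p) (D : Eis) : sumMod p (fun y => α (D + t * e * y)) = 0 := by
  obtain ⟨u, hu, ⟨v, hv⟩, h2⟩ := hprp p hp hpm
  have hp0 := hp.ne_zero
  have hP : ∀ D, PMod p (fun y => α (D + t * e * y)) := by
    intro D y k
    beta_reduce
    rw [show D + t * e * (y + p * k) = (D + t * e * y) + (t * p) * (e * k) by ring, ht,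
      show m * r * (e * k) = m * (r * (e * k)) by ring, hα.per]
  have hup : IsCoprime u p := IsCoprime.of_isCoprime_of_dvd_right hu hpm
  -- `A (u D) = α u A D`
  have h3 : sumMod p (fun y => α (u * D + t * e * y)) = α u * sumMod p (fun y => α (D + t * e * y)) := by
    rw [← sumMod_mul_coprime hp0 (hP (u * D)) hup, ← sumMod_mul_left hp0]
    refine sumMod_congr fun y => ?_
    rw [← hα.mul]; congr 1; ring
  -- `A (u D) = A D`
  have h4 : sumMod p (fun y => α (u * D + t * e * y)) = sumMod p (fun y => α (D + t * e * y)) := by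
    obtain ⟨a, b, hab⟩ := hr.mul_left he
    -- `(u-1) D = (m/p) v D`, want `v D ≡ r e y0 mod p`
    rw [← sumMod_shift hp0 (hP D) (a * v * D)]
    refine sumMod_congr fun y => ?_
    apply hα.per.congr
    -- difference is `(u-1) D - t e a v D`
    have h5 : p * (u * D + t * e * y - (D + t * e * (y + a * v * D))) = p * (m * (b * v * D)) := by
      linear_combination D * hv - (e * a * v * D) * ht - (m * v * D) * hab
    exact ⟨b * v * D, mul_left_cancel₀ hp0 h5⟩
  rw [h4] at h3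
  have h5 : (1 - α u) * sumMod p (fun y => α (D + t * e * y)) = 0 := by linear_combination h3
  rcases mul_eq_zero.mp h5 with h6 | h6
  · exact absurd (sub_eq_zero.mp h6).symm h2
  · exact h6

/-- rows with `c₀` divisible by a prime `p ∣ m`: zero constant term (`p ∣ h` case is trivial,
`loc_nonunit_h`). `t = (m/p) r` with `g (x + t y) = g x`; `β` primitive. -/
theorem loc_nonunit_c {N : Eis} (hN : N ≠ 0) (hmN : m ∣ N) (hα : IsCh m α) (hβ : IsCh m β)
    (hg : PMod N g) {p : Eis} (hp : Prime p) (hpm : p ∣ m)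
    (hprp : Prp m β) {t r : Eis} (ht : t * p = m * r) (hr : IsCoprime r p)
    (hgt : ∀ x y, g (x + t * y) = g x) {c0 d0 c1 d1 h : Eis}
    (hc0 : p ∣ c0) (hd0 : IsCoprime d0 p) :
    sumMod N (fun x => g x * (α (x * c0 + h * c1) * β (x * d0 + h * d1))) = 0 := by
  have hp0 := hp.ne_zero
  have hnp : (nm p : ℂ) ≠ 0 := by
    have : nm p ≠ 0 := by rw [Ne, nm_eq_zero]; exact hp0
    exact_mod_cast this
  have hP := per_cd hα hβ c0 d0 c1 d1 h
  have hP' : PMod N (fun x => g x * (α (x * c0 + h * c1) * β (x * d0 + h * d1))) :=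
    hg.mul (hP.mono hmN)
  obtain ⟨c2, rfl⟩ := hc0
  have h1 : (nm p : ℂ) * sumMod N (fun x => g x * (α (x * (p * c2) + h * c1) *
      β (x * d0 + h * d1))) = 0 := by
    rw [← sumMod_const hp0]
    rw [sumMod_congr (g := fun y => sumMod N (fun x => g x * (α (x * (p * c2) + h * c1) *
      β (x * d0 + h * d1 + t * d0 * y)))) (fun y => ?_)]
    · rw [sumMod_comm' hp0 hN]
      rw [sumMod_congr (g := fun _ => (0 : ℂ)) (fun x => ?_), sumMod_const hN, mul_zero]
      rw [sumMod_mul_left hp0, sumMod_mul_left hp0, sum_line hβ hp hpm hprp ht hr hd0]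
      ring
    · rw [← sumMod_shift hN hP' (t * y)]
      refine sumMod_congr fun x => ?_
      rw [hgt]
      have e1 : α ((x + t * y) * (p * c2) + h * c1) = α (x * (p * c2) + h * c1) := by
        apply hα.per.congr
        exact ⟨r * y * c2, by linear_combination (y * c2) * ht⟩
      rw [e1, show (x + t * y) * d0 + h * d1 = x * d0 + h * d1 + t * d0 * y by ring]
  exact (mul_eq_zero.mp h1).resolve_left hnp

/-- the trivial case `p ∣ c₀`, `p ∣ h`. -/
theorem loc_nonunit_h {N : Eis} (hN : N ≠ 0) (hα : IsCh m α) {p : Eis} (hp : Prime p)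
    (hpm : p ∣ m) {c0 d0 c1 d1 h : Eis} (hc0 : p ∣ c0) (hh : p ∣ h) (g β : Eis → ℂ) :
    sumMod N (fun x => g x * (α (x * c0 + h * c1) * β (x * d0 + h * d1))) = 0 := by
  have : ∀ x, g x * (α (x * c0 + h * c1) * β (x * d0 + h * d1)) = 0 * g x := by
    intro x
    have hn : ¬ IsCoprime (x * c0 + h * c1) m := by
      intro hco
      have h1 : p ∣ x * c0 + h * c1 := dvd_add (hc0.mul_left x) (hh.mul_right c1)
      have h2 : IsCoprime p p :=
        IsCoprime.of_isCoprime_of_dvd_right (IsCoprime.of_isCoprime_of_dvd_left hco h1) hpm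
      exact hp.not_isUnit (isCoprime_self.mp h2)
    rw [hα.zero _ hn]; ring
  rw [sumMod_congr this, sumMod_mul_left hN, zero_mul]

/-- the same for `d₀` (`α` primitive). -/
theorem loc_nonunit_d {N : Eis} (hN : N ≠ 0) (hmN : m ∣ N) (hα : IsCh m α) (hβ : IsCh m β)
    (hg : PMod N g) {p : Eis} (hp : Prime p) (hpm : p ∣ m)
    (hprp : Prp m α) {t r : Eis} (ht : t * p = m * r) (hr : IsCoprime r p)
    (hgt : ∀ x y, g (x + t * y) = g x) {c0 d0 c1 d1 h : Eis}
    (hd0 : p ∣ d0) (hc0 : IsCoprime c0 p) :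
    sumMod N (fun x => g x * (α (x * c0 + h * c1) * β (x * d0 + h * d1))) = 0 := by
  have := loc_nonunit_c (c0 := d0) (d0 := c0) (c1 := d1) (d1 := c1) (h := h) hN hmN hβ hα hg hp hpm
    hprp ht hr hgt hd0 hc0
  rw [← this]
  exact sumMod_congr fun x => by rw [mul_comm (α (x * c0 + h * c1))]

theorem loc_nonunit_h' {N : Eis} (hN : N ≠ 0) (hβ : IsCh m β) {p : Eis} (hp : Prime p)
    (hpm : p ∣ m) {c0 d0 c1 d1 h : Eis} (hd0 : p ∣ d0) (hh : p ∣ h) (g α : Eis → ℂ) :
    sumMod N (fun x => g x * (α (x * c0 + h * c1) * β (x * d0 + h * d1))) = 0 := by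
  have := loc_nonunit_h (c0 := d0) (d0 := c0) (c1 := d1) (d1 := c1) hN hβ hp hpm hd0 hh g α
  rw [← this]
  exact sumMod_congr fun x => by rw [mul_comm (α (x * c0 + h * c1))]

/-- `m ∣ h`. -/
theorem loc_zero (hα : IsCh m α) (hβ : IsCh m β) {N : Eis} (hN : N ≠ 0) {c0 d0 c1 d1 h : Eis}
    (hh : m ∣ h) (g : Eis → ℂ) :
    sumMod N (fun x => g x * (α (x * c0 + h * c1) * β (x * d0 + h * d1)))
      = α c0 * β d0 * sumMod N (fun x => g x * (α x * β x)) := by
  obtain ⟨k, rfl⟩ := hh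
  rw [← sumMod_mul_left hN]
  refine sumMod_congr fun x => ?_
  rw [show x * c0 + m * k * c1 = x * c0 + m * (k * c1) by ring,
    show x * d0 + m * k * d1 = x * d0 + m * (k * d1) by ring, hα.per, hβ.per, hα.mul, hβ.mul]
  ring

/-- `Σ_z conj (g α β)(z) β(1 + s z)` -/
def Bs (g α β : Eis → ℂ) (s m : Eis) : ℂ :=
  sumMod m (fun z => conj (g z * (α z * β z)) * β (1 + s * z))

/-- sums over units: the substitution `x ↦ x⁻¹`. -/
lemma sumMod_inv (hm : m ≠ 0) {f F : Eis → ℂ}
    (hf0 : ∀ x, ¬ IsCoprime x m → f x = 0) (hF0 : ∀ x, ¬ IsCoprime x m → F x = 0)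
    (h : ∀ x z, m ∣ x * z - 1 → f x = F z) : sumMod m f = sumMod m F := by
  classical
  have hfin := finite_QE hm
  let _ : Fintype (QE m) := Fintype.ofFinite _
  rw [sumMod_of_finite hm f, sumMod_of_finite hm F]
  -- use the involution `q ↦ q⁻¹` on units
  have hu : ∀ q : QE m, IsCoprime (Quotient.out q) m ↔ IsUnit q := by
    intro q
    constructor
    · rintro ⟨a, b, hab⟩
      refine IsUnit.of_mul_eq_one (mkQ m a) ?_
      have : q = mkQ m (Quotient.out q) := (mkQ_out q).symm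
      rw [this, ← map_mul, ← map_one (mkQ m), mkQ_eq_iff]
      refine ⟨-b, ?_⟩
      linear_combination hab
    · rintro ⟨v, rfl⟩
      obtain ⟨w, hw⟩ := mkQ_surjective m ((v⁻¹ : (QE m)ˣ) : QE m)
      have h1 : mkQ m (Quotient.out (v : QE m) * w) = mkQ m 1 := by
        rw [map_mul, mkQ_out, hw, map_one, ← Units.val_mul, mul_inv_cancel, Units.val_one]
      rw [mkQ_eq_iff] at h1
      obtain ⟨k, hk⟩ := h1
      exact ⟨w, -k, by linear_combination hk⟩
  have hsum : ∀ f : Eis → ℂ, (∀ x, ¬ IsCoprime x m → f x = 0) →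
      ∑ q : QE m, f (Quotient.out q) = ∑ v : (QE m)ˣ, f (Quotient.out (v : QE m)) := by
    intro f hf0
    rw [← Finset.sum_subset (s₁ := Finset.univ.image (fun v : (QE m)ˣ => (v : QE m)))
      (Finset.subset_univ _)]
    · rw [Finset.sum_image]
      intro a _ b _ hab
      exact Units.ext hab
    · intro q _ hq
      apply hf0
      rw [hu]
      rintro ⟨v, hv⟩
      exact hq (Finset.mem_image.mpr ⟨v, Finset.mem_univ _, hv⟩)
  rw [hsum f hf0, hsum F hF0]
  refine Fintype.sum_equiv (Equiv.inv (QE m)ˣ) _ _ (fun v => ?_)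
  apply h
  rw [← mkQ_eq_iff, map_mul, mkQ_out, map_one]
  simp only [Equiv.inv_apply]
  rw [mkQ_out, ← Units.val_mul, mul_inv_cancel, Units.val_one]

/-- `h = s t` with `t` prime to `m`; `g` is a character modulo `m` with `g (x + s y) = g x`. -/
theorem loc_mid (hm : m ≠ 0) (hα : IsCh m α) (hβ : IsCh m β) (hg : IsCh m g) {s t : Eis}
    (hgs : ∀ x y, g (x + s * y) = g x) (ht : IsCoprime t m)
    {c0 d0 c1 d1 : Eis} (hdet : c0 * d1 - d0 * c1 = 1) (hc0 : IsCoprime c0 m)
    (hd0 : IsCoprime d0 m) :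
    sumMod m (fun x => g x * (α (x * c0 + s * t * c1) * β (x * d0 + s * t * d1)))
      = g t * (α t * β t) * (conj (g c0 * β c0) * conj (g d0 * α d0)) * Bs g α β s m := by
  obtain ⟨c', hc', s1, hs1⟩ := exists_inv hc0
  obtain ⟨d', hd', s2, hs2⟩ := exists_inv hd0
  set t' : Eis := t * c' * d' with ht'
  have hu : IsCoprime t' m := (ht.mul_left hc').mul_left hd'
  have hP : PMod m (fun x => g x * (α (x * c0 + s * t * c1) * β (x * d0 + s * t * d1))) :=
    hg.per.mul (per_cd hα hβ c0 d0 c1 d1 (s * t))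
  rw [← sumMod_shift hm hP (-(s * (t * c1 * c')))]
  -- now the summand is `α(c0) β(d0) g x α x β (x + s t')`
  have e0 : ∀ x, g (x + -(s * (t * c1 * c'))) *
      (α ((x + -(s * (t * c1 * c'))) * c0 + s * t * c1) *
        β ((x + -(s * (t * c1 * c'))) * d0 + s * t * d1))
      = α c0 * β d0 * (g x * (α x * β (x + s * t'))) := by
    intro x
    have e1 : g (x + -(s * (t * c1 * c'))) = g x := by
      rw [show -(s * (t * c1 * c')) = s * (-(t * c1 * c')) by ring, hgs]
    have e2 : α ((x + -(s * (t * c1 * c'))) * c0 + s * t * c1) = α (x * c0) := by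
      apply hα.per.congr
      refine ⟨-(s1 * (s * t * c1)), ?_⟩
      linear_combination -(s * t * c1) * hs1
    have e3 : β ((x + -(s * (t * c1 * c'))) * d0 + s * t * d1) = β ((x + s * t') * d0) := by
      apply hβ.per.congr
      rw [ht']
      refine ⟨-(s2 * (s * t * c')) - s1 * (s * t * d1), ?_⟩
      linear_combination -(s * t * c') * hs2 - (s * t * d1) * hs1 + s * t * c' * hdet
    rw [e1, e2, e3, hα.mul, hβ.mul]; ring
  rw [sumMod_congr e0, sumMod_mul_left hm]
  -- substitute `x = t' z⁻¹`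
  have hP1 : PMod m (fun x => g x * (α x * β (x + s * t'))) :=
    hg.per.mul (hα.per.mul (hβ.per.comp_add _))
  rw [← sumMod_mul_coprime hm hP1 hu]
  have key : sumMod m (fun x => g (t' * x) * (α (t' * x) * β (t' * x + s * t')))
      = sumMod m (fun z => g t' * (α t' * β t') * (conj (g z * (α z * β z)) * β (1 + s * z))) := by
    apply sumMod_inv hm
    · intro x hx
      have : ¬ IsCoprime (t' * x) m := fun h => hx (IsCoprime.of_mul_left_right h)
      rw [hα.zero _ this]; ring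
    · intro x hx
      rw [hα.zero _ hx]; simp
    · intro x z hxz
      have hx : IsCoprime x m := by
        obtain ⟨k, hk⟩ := hxz
        exact ⟨z, -k, by linear_combination hk⟩
      have e4 : β (t' * x + s * t') = β (t' * (x * (1 + s * z))) := by
        apply hβ.per.congr
        obtain ⟨k, hk⟩ := hxz
        exact ⟨-(t' * s * k), by linear_combination -(t' * s) * hk⟩
      have hz : α z = conj (α x) := IsCh.inv hα hm hx hxz
      have hz2 : β z = conj (β x) := IsCh.inv hβ hm hx hxz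
      have hz' : g z = conj (g x) := IsCh.inv hg hm hx hxz
      rw [e4, hβ.mul t' (x * (1 + s * z)), hβ.mul x (1 + s * z), hα.mul t' x, hg.mul, hz, hz', hz2]
      simp only [map_mul, Complex.conj_conj]
      ring
  rw [key, sumMod_mul_left hm]
  unfold Bs
  rw [ht', hg.mul (t * c') d', hg.mul t c', hα.mul (t * c') d', hα.mul t c',
    hβ.mul (t * c') d', hβ.mul t c',
    IsCh.inv hα hm hc0 ⟨s1, hs1⟩, IsCh.inv hα hm hd0 ⟨s2, hs2⟩,
    IsCh.inv hβ hm hc0 ⟨s1, hs1⟩, IsCh.inv hβ hm hd0 ⟨s2, hs2⟩,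
    IsCh.inv hg hm hc0 ⟨s1, hs1⟩, IsCh.inv hg hm hd0 ⟨s2, hs2⟩]
  have h3 : α c0 * conj (α c0) = 1 := hα.mul_conj_self hm hc0
  have h4 : β d0 * conj (β d0) = 1 := hβ.mul_conj_self hm hd0
  set B := sumMod m (fun z => conj (g z * (α z * β z)) * β (1 + s * z))
  simp only [map_mul]
  linear_combination (g t * (α t * β t) * B * conj (g c0) * conj (g d0) * conj (β c0) *
    conj (α d0)) * (β d0 * conj (β d0) * h3 + h4)

/-- `Bs · G(conj β) = G(conj (g α β), s) · G(g α)`. -/
theorem Bs_mul_gl (hm : m ≠ 0) (hα : IsCh m α) (hβ : IsCh m β) (hg : IsCh m g) (hp : Prm m β)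
    (s : Eis) :
    Bs g α β s m * gl (fun x => conj (β x)) 1 m
      = gl (fun x => conj (g x * (α x * β x))) s m * gl (fun x => g x * α x) 1 m := by
  have hβc : IsCh m (fun x => conj (β x)) := hβ.conj
  have hδ : IsCh m (fun x => conj (g x * (α x * β x))) := (hg.mul_same (hα.mul_same hβ)).conj
  have e1 : ∀ z, β (1 + s * z) * gl (fun x => conj (β x)) 1 m
      = sumMod m (fun t => conj (β t) * (ea m 1 t * ea m (t * s) z)) := by
    intro z
    have h1 := gl_prim hm hβc hp.conj (1 + s * z)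
    rw [Complex.conj_conj] at h1
    rw [← h1]
    unfold gl
    refine sumMod_congr fun t => ?_
    have : ea m (1 + s * z) t = ea m 1 t * ea m (t * s) z := by
      rw [ea_add_left]; congr 1
      unfold ea; congr 1; simp only [map_mul]; ring
    rw [this]
  unfold Bs
  rw [← sumMod_mul_right hm]
  rw [sumMod_congr (g := fun z => sumMod m (fun t =>
    conj (β t) * ea m 1 t * (conj (g z * (α z * β z)) * ea m (t * s) z))) (fun z => ?_)]
  · rw [sumMod_comm' hm hm]
    conv_rhs => rw [mul_comm]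
    conv_rhs => unfold gl
    rw [← sumMod_mul_right hm]
    refine sumMod_congr fun t => ?_
    rw [sumMod_mul_left hm]
    change conj (β t) * ea m 1 t * gl (fun x => conj (g x * (α x * β x))) (t * s) m
      = g t * α t * ea m 1 t * gl (fun x => conj (g x * (α x * β x))) s m
    by_cases ht : IsCoprime t m
    · rw [mul_comm t s, gl_mul_of_coprime hm hδ s ht, Complex.conj_conj]
      have h1 := hβ.mul_conj_self hm ht
      linear_combination (g t * α t * ea m 1 t * gl (fun x => conj (g x * (α x * β x))) s m) * h1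
    · rw [hα.zero t ht, hβ.zero t ht]; simp
  · rw [mul_assoc, e1, ← sumMod_mul_left hm]
    refine sumMod_congr fun t => ?_
    ring

/-- modulus of `Bs` -/
theorem norm_Bs (hm : m ≠ 0) (hα : IsCh m α) (hβ : IsCh m β) (hg : IsCh m g) (hp : Prm m β)
    (hp' : Prm m (fun x => g x * α x)) (s : Eis) :
    ‖Bs g α β s m‖ = ‖gl (fun x => conj (g x * (α x * β x))) s m‖ := by
  have h := congrArg norm (Bs_mul_gl hm hα hβ hg hp s)
  rw [norm_mul, norm_mul] at h
  have h1 := norm_gl_sq hm hβ.conj hp.conj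
  have h2 := norm_gl_sq hm (hg.mul_same hα) hp'
  have h3 : ‖gl (fun x => conj (β x)) 1 m‖ = ‖gl (fun x => g x * α x) 1 m‖ := by
    have : ‖gl (fun x => conj (β x)) 1 m‖ ^ 2 = ‖gl (fun x => g x * α x) 1 m‖ ^ 2 := by
      rw [h1, h2]
    exact (pow_left_inj₀ (norm_nonneg _) (norm_nonneg _) two_ne_zero).mp this
  rw [h3] at h
  have h4 : ‖gl (fun x => g x * α x) 1 m‖ ≠ 0 :=
    norm_ne_zero_iff.mpr (gl_ne_zero hm (hg.mul_same hα) hp')
  exact mul_right_cancel₀ h4 h

/-! ### the complete sums modulo `m h` -/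

/-- `h` prime to `m`, `k` a character modulo `h` (the residue symbol `(·/h)`). -/
theorem tot_coprime (hm : m ≠ 0) {h : Eis} (hh0 : h ≠ 0) (hα : IsCh m α) (hβ : IsCh m β)
    (hk : IsCh h k) (hmh : IsCoprime m h) {c0 d0 c1 d1 : Eis}
    (hdet : c0 * d1 - d0 * c1 = 1) (hc0 : IsCoprime c0 m) (hd0 : IsCoprime d0 m) :
    sumMod (m * h) (fun x => k x * (α (x * c0 + h * c1) * β (x * d0 + h * d1)))
      = k m * sumMod h k * (conj (α d0) * conj (β c0) * (α h * β h) * Ks α β m) := by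
  have hP : PMod (m * h) (fun x => k x * (α (x * c0 + h * c1) * β (x * d0 + h * d1))) :=
    (hk.per.mono (dvd_mul_left h m)).mul
      ((per_cd hα hβ c0 d0 c1 d1 h).mono (dvd_mul_right m h))
  rw [sumMod_crt_mul (f := fun x => α h * β h * (α (x * c0 + 1 * c1) * β (x * d0 + 1 * d1)))
    (g := fun y => k m * k y) hm hh0 _ hmh hP]
  · rw [sumMod_mul_left hm, sumMod_mul_left hh0,
      loc_coprime hm hα hβ hdet hc0 hd0 isCoprime_one_left, hα.one, hβ.one]
    ring
  · intro x y
    have e1 : k (h * x + m * y) = k m * k y := by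
      rw [add_comm, hk.per, hk.mul]
    have e2 : ∀ {δ : Eis → ℂ}, IsCh m δ → ∀ a b : Eis,
        δ ((h * x + m * y) * a + h * b) = δ h * δ (x * a + 1 * b) := by
      intro δ hδ a b
      rw [← hδ.mul]
      apply hδ.per.congr
      exact ⟨y * a, by ring⟩
    rw [e1, e2 hα, e2 hβ]; ring

/-- A prime `p` dividing `m` and `h`: the complete sum is zero if `αβ` is primitive modulo `m`
and there is `u` as below. -/
theorem tot_vanish (hm : m ≠ 0) {h : Eis} (hh0 : h ≠ 0) (hα : IsCh m α) (hβ : IsCh m β)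
    (hk : PMod (m * h) k) (hkm : ∀ x y, k (x * y) = k x * k y) {u : Eis}
    (hu : IsCoprime u (m * h)) (h1 : m ∣ (u - 1) * h)
    (h2 : k u * (α u * β u) ≠ 1) (c0 d0 c1 d1 : Eis) :
    sumMod (m * h) (fun x => k x * (α (x * c0 + h * c1) * β (x * d0 + h * d1))) = 0 :=
  loc_vanish (mul_ne_zero hm hh0) (dvd_mul_right m h) hα hβ hk hu (fun x => hkm u x) h1 h2
    c0 d0 c1 d1

end Crest.Agent.R017.Loc266
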