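import Crest.Agent.R017.AS7_590
import Crest.Agent.R017.Loc2_266

/-!
# Row 17, section A: characters with a sextic component at `p` (helper590)

`ThetaP` (960) : `ψ_p^6 = 1 → ψ_p = (·/p)_6^i`; `exists_low` : `ψ = ψ₁ sy6(p,·)^m`, `ψ₁` modulo `M₁`.
-/

set_option autoImplicit false

noncomputable section

open Complex Set
open scoped ComplexConjugate ContDiff

namespace Crest.Agent.R017.A590

open Crest.Agent.R012 Crest.Agent.R012.Eis Crest.Agent.R012.Mob705 Crest.Agent.R012.Gauss880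
open Crest.Agent.R017.End699 Crest.Agent.R017.Sx440 Crest.Agent.R017.Sx545 Crest.Agent.R017.B770
open Crest.Agent.R017.QS411 Crest.Agent.R017.Loc266

variable {M M₁ p : Eis} {ψ χ : Eis → ℂ}

/-- the elements `≡ 1 mod M₁`, prime to `p` -/
def AA (M₁ p b : Eis) : Prop := IsPrim b ∧ M₁ ∣ b - 1 ∧ ¬ p ∣ b

/-- the local statement (helper960) -/
def ThetaP : Prop := ∀ {M M₁ p : Eis} {v : ℕ} (_hp : Prime p) (_hsp : Sm M₁ p)
  (_h36 : (36 : Eis) ∣ M₁) (_hM : M = p ^ v * M₁) (_hv : v ≠ 0) {ψ : Eis → ℂ} (_h : Uni M ψ)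
  (_h6 : ∀ b, IsPrim b → M₁ ∣ b - 1 → ¬ p ∣ b → ψ b ^ 6 = 1),
  ∃ i ≤ 5, ∀ b, IsPrim b → M₁ ∣ b - 1 → ¬ p ∣ b → ψ b = sy6 b p ^ i

lemma Ext.sm_iff' (h : Ext M M₁ p) {b : Eis} : Sm M b ↔ Sm M₁ b ∧ ¬ p ∣ b := h.iff b

lemma three_dvd_of_36 (h36 : (36 : Eis) ∣ M₁) : (3 : Eis) ∣ M₁ := Dvd.dvd.trans ⟨12, by norm_num⟩ h36

lemma exists_up (h : Ext M M₁ p) (h36 : (36 : Eis) ∣ M₁) {b : Eis} (hb : Sm M₁ b) :
    ∃ b', Sm M b' ∧ M₁ ∣ b' - b := by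
  by_cases hpb : p ∣ b
  · refine ⟨b + M₁, (h.iff _).mpr ⟨⟨?_, ?_⟩, ?_⟩, by simp⟩
    · have : b + M₁ - 1 = (b - 1) + M₁ := by ring
      unfold IsPrim
      rw [this]
      exact dvd_add hb.1 (three_dvd_of_36 h36)
    · obtain ⟨u, v, huv⟩ := hb.2
      exact ⟨u, v - u, by linear_combination huv⟩
    · intro h1
      have h2 : p ∣ M₁ := (dvd_add_right hpb).mp h1
      exact h.pr.not_isUnit (h.sp.2.isUnit_of_dvd' dvd_rfl h2)
  · exact ⟨b, (h.iff b).mpr ⟨hb, hpb⟩, by simp⟩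

lemma exists_inv_sm (h3 : (3 : Eis) ∣ M) {b : Eis} (hb : Sm M b) :
    ∃ c, Sm M c ∧ M ∣ b * c - 1 := by
  obtain ⟨c, hc, hbc⟩ := Loc266.exists_inv hb.2
  refine ⟨c, ⟨?_, hc⟩, hbc⟩
  unfold IsPrim
  have h1 : (3 : Eis) ∣ b - 1 := hb.1
  have : c - 1 = (b * c - 1) - c * (b - 1) := by ring
  rw [this]
  exact dvd_sub (h3.trans hbc) (h1.mul_left _)

lemma uni_congr (h : Ext M M₁ p) (h36 : (36 : Eis) ∣ M₁) (hM₁ : M₁ ∣ M) (hχ : Uni M χ)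
    (ht : ∀ b, AA M₁ p b → χ b = 1) {a b : Eis} (ha : Sm M a) (hb : Sm M b) (hab : M₁ ∣ a - b) :
    χ a = χ b := by
  have h3 : (3 : Eis) ∣ M := (three_dvd_of_36 h36).trans hM₁
  obtain ⟨c, hc, hbc⟩ := exists_inv_sm h3 hb
  have e1 : χ (b * c) = 1 := by
    rw [hχ.per _ 1 (hb.mul hc) (Sm.one M) hbc, hχ.one]
  have e2 : χ (a * c) = 1 := by
    refine ht _ ⟨(ha.mul hc).1, ?_, h.ndvd (ha.mul hc)⟩
    have : a * c - 1 = (a - b) * c + (b * c - 1) := by ring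
    rw [this]
    exact dvd_add (hab.mul_right _) (hM₁.trans hbc)
  rw [hχ.mul _ _ hb hc] at e1
  rw [hχ.mul _ _ ha hc] at e2
  have hc0 : χ c ≠ 0 := by
    intro h0
    have := hχ.norm c hc
    rw [h0, norm_zero] at this
    exact zero_ne_one this
  exact mul_right_cancel₀ hc0 (e2.trans e1.symm)

open Classical in
/-- the character modulo `M₁` -/
def dn (M M₁ : Eis) (χ : Eis → ℂ) (b : Eis) : ℂ :=
  if h : ∃ b', Sm M b' ∧ M₁ ∣ b' - b then χ h.choose else 0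

lemma dn_eq (h : Ext M M₁ p) (h36 : (36 : Eis) ∣ M₁) (hM₁ : M₁ ∣ M) (hχ : Uni M χ)
    (ht : ∀ b, AA M₁ p b → χ b = 1) {a a' : Eis} (ha' : Sm M a') (haa : M₁ ∣ a' - a) :
    dn M M₁ χ a = χ a' := by
  have he : ∃ a', Sm M a' ∧ M₁ ∣ a' - a := ⟨a', ha', haa⟩
  unfold dn
  rw [dif_pos he]
  refine uni_congr h h36 hM₁ hχ ht he.choose_spec.1 ha' ?_
  have := dvd_sub he.choose_spec.2 haa
  rwa [sub_sub_sub_cancel_right] at this

lemma dn_uni (h : Ext M M₁ p) (h36 : (36 : Eis) ∣ M₁) (hM₁ : M₁ ∣ M) (hχ : Uni M χ)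
    (ht : ∀ b, AA M₁ p b → χ b = 1) : Uni M₁ (dn M M₁ χ) where
  one := by rw [dn_eq h h36 hM₁ hχ ht (Sm.one M) (by simp), hχ.one]
  mul a b ha hb := by
    obtain ⟨a', ha', haa⟩ := exists_up h h36 ha
    obtain ⟨b', hb', hbb⟩ := exists_up h h36 hb
    rw [dn_eq h h36 hM₁ hχ ht ha' haa, dn_eq h h36 hM₁ hχ ht hb' hbb,
      dn_eq h h36 hM₁ hχ ht (ha'.mul hb') (a := a * b), hχ.mul _ _ ha' hb']
    have : a' * b' - a * b = (a' - a) * b' + a * (b' - b) := by ring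
    rw [this]
    exact dvd_add (haa.mul_right _) (hbb.mul_left _)
  norm a ha := by
    obtain ⟨a', ha', haa⟩ := exists_up h h36 ha
    rw [dn_eq h h36 hM₁ hχ ht ha' haa, hχ.norm a' ha']
  per a b ha hb hab := by
    obtain ⟨a', ha', haa⟩ := exists_up h h36 ha
    rw [dn_eq h h36 hM₁ hχ ht ha' haa, dn_eq h h36 hM₁ hχ ht ha']
    have : a' - b = (a' - a) + (a - b) := by ring
    rw [this]
    exact dvd_add haa hab

/-- **splitting off the sextic component** -/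
theorem exists_low (hΘ : ThetaP) (h : Ext M M₁ p) {v : ℕ} (hv0 : v ≠ 0) (hv : M = p ^ v * M₁)
    (h36 : (36 : Eis) ∣ M₁) (hψ : HC M ψ)
    (h6 : ∀ b, IsPrim b → M₁ ∣ b - 1 → ¬ p ∣ b → ψ b ^ 6 = 1) :
    ∃ ψ₁, HC M₁ ψ₁ ∧ ∃ m ≤ 5, ∀ b, Sm M b → ψ b = ψ₁ b * sy6 p b ^ m := by
  have hM₁ : M₁ ∣ M := by rw [hv]; exact dvd_mul_left _ _
  have hM₁0 : M₁ ≠ 0 := fun h0 => hψ.q0 (zero_dvd_iff.mp (h0 ▸ hM₁))
  have h2 : (2 : Eis) ∣ M := h.two.trans hM₁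
  have h4 : (4 : Eis) ∣ M₁ := Dvd.dvd.trans ⟨9, by norm_num⟩ h36
  have hp : p ∣ M := by rw [hv]; exact (dvd_pow_self p hv0).mul_right _
  have hU := uni_of_HC hψ
  obtain ⟨i, hi, hth⟩ := hΘ h.pr h.sp h36 hv hv0 hU h6
  have u1 : Uni M (fun b => sy6 b p) := uni_sy6_left h.p2 h2 hp
  have hχ : Uni M (fun b => ψ b * conj (sy6 b p) ^ i) := by
    have := hU.mul' (u1.conj'.pow i)
    exact this
  set χ : Eis → ℂ := fun b => ψ b * conj (sy6 b p) ^ i with hχd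
  have hcm : ∀ b, IsCoprime b p → conj (sy6 b p) * sy6 b p = 1 :=
    fun b hb => res_sy6.conj_mul h.p2 hb
  have ht : ∀ b, AA M₁ p b → χ b = 1 := by
    intro b hb
    have hbp : IsCoprime b p := (Res.isCoprime_iff_not_dvd h.pr b).mpr hb.2.2
    simp only [hχd]
    rw [hth b hb.1 hb.2.1 hb.2.2, ← mul_pow, mul_comm, hcm b hbp, one_pow]
  have hdn := dn_uni h h36 hM₁ hχ ht
  have hu2 : Uni M₁ (fun b => (eps4 p b : ℂ) ^ i) := (uni_eps4 h.p2 h4).pow i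
  refine ⟨Rst M₁ (fun b => dn M M₁ χ b * (eps4 p b : ℂ) ^ i),
    hc_rst hM₁0 (three_dvd_of_36 h36) (hdn.mul' hu2), i, hi, fun b hb => ?_⟩
  have hb1 := h.low hb
  rw [Rst_of hb1.2, dn_eq h h36 hM₁ hχ ht hb (by simp)]
  have e1 : sy6 p b = (eps4 p b : ℂ) * sy6 b p := sy6_recip h.p2 (h.sm2 hb1)
  have e2 : (eps4 p b : ℂ) * (eps4 p b : ℂ) = 1 := by exact_mod_cast eps4_mul_self p b
  simp only [hχd]
  rw [e1]
  calc ψ b = ψ b * (conj (sy6 b p) * sy6 b p) ^ i * ((eps4 p b : ℂ) * (eps4 p b : ℂ)) ^ i := by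
        rw [hcm b (h.cop' hb), e2, one_pow, mul_one, mul_one]
    _ = _ := by rw [mul_pow, mul_pow, mul_pow]; ring

end Crest.Agent.R017.A590
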