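import Crest.Agent.R017.BDefs2_770

/-!
# Row 17, section B: the functional equation with the relation of the angular types (helper319)

`F2x M` = `F2n M` and `4 l' + j = -4` (`j = 4 (l + 1)`, `l' = -(l + 2)`), 699's ruling.
-/

set_option autoImplicit false

noncomputable section

namespace Crest.Agent.R017.B770

open Crest.Agent.R012 Crest.Agent.R012.Eis
open Crest.Agent.R017.End699 Crest.Agent.R017.Sx440 Crest.Agent.R017.Sx545

/-- **F2** (final form consumed by section B): `j = 4 (l + 1)`, `l' = -(l + 2)`, so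
`4 l' + j = -4` -/
def F2x (M : Eis) : Prop :=
  ∀ l : ℤ, l ≠ -1 → ∀ ψ : Eis → ℂ, HC M ψ →
    ∃ F : FData, F.OK M ∧ FE M ψ l F ∧ 4 * F.l' + F.j = -4

lemma F2x.toF2n {M : Eis} (h : F2x M) : F2n M := fun l hl ψ hψ => by
  obtain ⟨F, h1, h2, -⟩ := h l hl ψ hψ
  exact ⟨F, h1, h2⟩

end Crest.Agent.R017.B770
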