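import Crest.Agent.R017.AS8_590
import Crest.Agent.R017.BDefs2x_319

/-!
# Row 17, section A: `StepPure → F2x` (helper590; `F2x`: helper319)
-/

set_option autoImplicit false

noncomputable section

open Complex Set
open scoped ComplexConjugate ContDiff

namespace Crest.Agent.R017.A590

open Crest.Agent.R012 Crest.Agent.R012.Eis Crest.Agent.R012.Mob705 Crest.Agent.R012.Gauss880
open Crest.Agent.R017.End699 Crest.Agent.R017.Sx440 Crest.Agent.R017.Sx545 Crest.Agent.R017.B770

variable {M M₁ p : Eis} {ψ χ : Eis → ℂ}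

/-- the setting of the induction step -/
lemma exists_ext {M p : Eis} {v : ℕ} {M₁ : Eis} (h36 : (36 : Eis) ∣ M) (hp : Prime p)
    (hp6 : ¬ p ∣ 6) (hpM : p ∣ M) (hM : M = p ^ v * M₁) (hpM₁ : ¬ p ∣ M₁) (hprim : IsPrim p) :
    Ext M M₁ p ∧ v ≠ 0 ∧ (36 : Eis) ∣ M₁ := by
  have hv : v ≠ 0 := by
    rintro rfl
    rw [pow_zero, one_mul] at hM
    exact hpM₁ (hM ▸ hpM)
  have hp36 : ¬ p ∣ 36 := by
    intro h
    have : (36 : Eis) = 6 * 6 := by norm_num
    rw [this] at h
    rcases hp.dvd_or_dvd h with h | h <;> exact hp6 h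
  have hcop36 : IsCoprime (36 : Eis) (p ^ v) :=
    (hp.irreducible.coprime_iff_not_dvd.mpr hp36).symm.pow_right
  have h36' : (36 : Eis) ∣ M₁ := by
    rw [hM] at h36
    exact hcop36.dvd_of_dvd_mul_left h36
  have hcop : IsCoprime p M₁ := hp.irreducible.coprime_iff_not_dvd.mpr hpM₁
  refine ⟨⟨Dvd.dvd.trans ⟨18, by norm_num⟩ h36', hp, ⟨hprim, hcop⟩, fun b => ?_⟩, hv, h36'⟩
  constructor
  · rintro ⟨hb1, hb2⟩
    rw [hM] at hb2
    refine ⟨⟨hb1, hb2.of_mul_right_right⟩, fun hd => ?_⟩
    have h1 : IsCoprime b (p ^ v) := hb2.of_mul_right_left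
    have h2 : p ∣ p ^ v := dvd_pow_self p hv
    exact hp.not_isUnit (h1.isUnit_of_dvd' hd h2)
  · rintro ⟨⟨hb1, hb2⟩, hb3⟩
    refine ⟨hb1, ?_⟩
    rw [hM]
    exact IsCoprime.mul_right (hp.irreducible.coprime_iff_not_dvd.mpr hb3).symm.pow_right hb2

theorem hasFE_aux (hΘ : ThetaP) (H : StepPure) : ∀ n : ℕ, ∀ M : Eis, nm M = n → (36 : Eis) ∣ M →
    ∀ ψ : Eis → ℂ, HC M ψ → ∀ l : ℤ, l ≠ -1 → HasFE M ψ l := by
  intro n
  induction n using Nat.strong_induction_on with
  | _ n ih =>
    intro M hn h36 ψ hψ l hl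
    by_cases hP : Pure M ψ
    · exact H M h36 ψ hψ hP l hl
    · unfold Pure PureAt at hP
      push Not at hP
      obtain ⟨p, hp, hpM, hp6, v, M₁, hM, hpM₁, h6⟩ := hP
      have hlam : ¬ lam ∣ p := by
        intro hd
        have h1 : Associated lam p := prime_lam.associated_of_dvd hp hd
        apply hp6
        have h2 : lam ∣ (6 : Eis) := by
          have h3 : lam ∣ (3 : Eis) := lam_dvd_three
          exact h3.trans ⟨2, by norm_num⟩
        exact h1.symm.dvd.trans h2
      obtain ⟨u, hu⟩ := exists_unit_mul_isPrim hlam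
      -- the primary associate
      set p' : Eis := u * p with hp'
      set M₁' : Eis := ((u⁻¹ : Eisˣ) : Eis) ^ v * M₁ with hM₁'
      have huu : ((u⁻¹ : Eisˣ) : Eis) * (u : Eis) = 1 := by simp
      have hM' : M = p' ^ v * M₁' := by
        rw [hp', hM₁', mul_pow, hM]
        calc p ^ v * M₁ = (((u⁻¹ : Eisˣ) : Eis) * (u : Eis)) ^ v * (p ^ v * M₁) := by
              rw [huu, one_pow, one_mul]
          _ = _ := by rw [mul_pow]; ring
      have hass : Associated p p' := ⟨u, by rw [hp']; ring⟩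
      have hpp' : Prime p' := hass.prime hp
      have hp6' : ¬ p' ∣ 6 := fun h => hp6 (hass.dvd.trans h)
      have hpM' : p' ∣ M := hass.symm.dvd.trans hpM
      have hass1 : Associated M₁ M₁' := by
        refine ⟨(u⁻¹) ^ v, ?_⟩
        rw [hM₁']
        push_cast
        ring
      have hpM₁' : ¬ p' ∣ M₁' := fun h => hpM₁ (hass.dvd.trans (h.trans hass1.symm.dvd))
      obtain ⟨hE, hv0, h36'⟩ := exists_ext h36 hpp' hp6' hpM' hM' hpM₁' hu
      obtain ⟨ψ₁, hψ₁, m, hm, hd⟩ := exists_low hΘ hE hv0 hM' h36' hψ (by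
        intro b hb1 hb2 hb3
        exact h6 b hb1 (hass1.dvd.trans hb2) (fun h => hb3 (hass.symm.dvd.trans h)))
      have hlt : nm M₁' < n := by
        have key : nm M = nm p' ^ v * nm M₁' := by
          rw [hM']; rw [nm_mul (p' ^ v) M₁', nm_pow p' v]
        rw [← hn, key]
        have h1 : 0 < nm M₁' := nm_pos.mpr hψ₁.q0
        have h2 : 1 < nm p' := by
          have h3 : nm p' ≠ 0 := (nm_pos.mpr hpp'.ne_zero).ne'
          have h4 : nm p' ≠ 1 := fun h => hpp'.not_isUnit (isUnit_iff.mpr h)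
          omega
        have h3 : 1 < nm p' ^ v := Nat.one_lt_pow hv0 h2
        calc nm M₁' = 1 * nm M₁' := (one_mul _).symm
          _ < nm p' ^ v * nm M₁' := Nat.mul_lt_mul_of_pos_right h3 h1
      have hlow := ih (nm M₁') hlt M₁' rfl h36' ψ₁ hψ₁ l hl
      exact step_sextic hE hv0 hM' h36' hψ₁ hlow hm hd

/-- functional equations for all characters -/
theorem hasFE (hΘ : ThetaP) (H : StepPure) {M : Eis} (h36 : (36 : Eis) ∣ M) {ψ : Eis → ℂ}
    (hψ : HC M ψ) {l : ℤ} (hl : l ≠ -1) : HasFE M ψ l :=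
  hasFE_aux hΘ H (nm M) M rfl h36 ψ hψ l hl

/-! ### the final form -/

open Classical in
/-- the data in 770's format -/
def toF {ι L : Type} [Fintype ι] [Fintype L] (M : Eis) (ψ : Eis → ℂ) (l : ℤ) (D : Dt ι L) :
    FData where
  ξ := fun e => if Sm M e then xiE ψ l e else 0
  M' := D.M'
  n := Fintype.card ι
  κ := fun i => D.κ ((Fintype.equivFin ι).symm i)
  η := fun i a => D.η ((Fintype.equivFin ι).symm i) a ^ 4
  ψ' := fun i => D.ψ' ((Fintype.equivFin ι).symm i)
  j := 4 * D.j
  l' := D.l'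
  ρ := fun i => D.ρ ((Fintype.equivFin ι).symm i)
  nL := Fintype.card L
  cL := fun i => D.cL ((Fintype.equivFin L).symm i)
  qL := fun i => D.qL ((Fintype.equivFin L).symm i)

lemma hc_pow {q : Eis} {χ : Eis → ℂ} (h : HC q χ) {k : ℕ} (hk : k ≠ 0) :
    HC q (fun a => χ a ^ k) where
  q0 := h.q0
  three := h.three
  char :=
    { one := by rw [h.char.one, one_pow]
      mul := fun a b ha hb => by rw [h.char.mul a b ha hb, mul_pow]
      norm := fun a ha => by
        rcases h.char.norm a ha with h0 | h1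
        · left; rw [h0, zero_pow hk]
        · right; rw [norm_pow, h1, one_pow] }
  per a b ha hb hab := by rw [h.per a b ha hb hab]
  van a ha hc := by rw [h.van a ha hc, zero_pow hk]

theorem f2x_of_stepPure (hΘ : ThetaP) (H : StepPure) : ∀ M : Eis, (36 : Eis) ∣ M → F2x M := by
  classical
  intro M h36 l hl ψ hψ
  obtain ⟨ι, L, iι, iL, D, hD, hFE⟩ := hasFE hΘ H h36 hψ hl
  refine ⟨toF M ψ l D, ?_, ?_, ?_⟩
  · refine
      { ξ1 := ?_
        ξle := ?_
        dvd := hD.dvd
        rad := hD.rad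
        η := fun i => hc_pow (hD.η _) (by norm_num)
        ψ' := fun i => hD.ψ' _
        ρ := fun i => hD.ρ _
        qL := fun i => hD.qL _
        nz := ?_
        j0 := mul_ne_zero (by norm_num) hD.j0
        lj := hD.lj }
    · change (if Sm M 1 then xiE ψ l 1 else 0) = 1
      rw [if_pos (Sm.one M)]
      unfold xiE End699.tw
      rw [hψ.char.one, P355.ang_one]
      norm_num
    · intro e
      change ‖(if Sm M e then xiE ψ l e else 0)‖ ≤ 1
      by_cases he : Sm M e
      · rw [if_pos he]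
        unfold xiE
        rw [norm_pow]
        exact pow_le_one₀ (norm_nonneg _) (norm_tw_le' hψ _ he.1)
      · rw [if_neg he, norm_zero]; exact zero_le_one
    · intro s hs
      have h1 := hD.nz s hs
      have h2 : (∑ i : Fin (Fintype.card L), D.cL ((Fintype.equivFin L).symm i) *
          (D.qL ((Fintype.equivFin L).symm i) : ℂ) ^ (1 / 6 - s)) =
          ∑ i, D.cL i * (D.qL i : ℂ) ^ (1 / 6 - s) :=
        Equiv.sum_comp (Fintype.equivFin L).symm
          (fun i => D.cL i * (D.qL i : ℂ) ^ (1 / 6 - s))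
      change (∑ i : Fin (Fintype.card L), D.cL ((Fintype.equivFin L).symm i) *
          (D.qL ((Fintype.equivFin L).symm i) : ℂ) ^ (1 / 6 - s)) ≠ 0
      rw [h2]
      exact h1
  · intro V hV
    obtain ⟨W, hW, hid⟩ := hFE V hV
    refine ⟨fun i => W ((Fintype.equivFin ι).symm i), fun i => hW _, ?_⟩
    intro a ha Q hQ τ
    have ha4 : Sm M (a ^ 4) := ha.pow 4
    have h1 := hid (a ^ 4) ha4 Q hQ τ
    have hnm : (nm (a ^ 4) : ℝ) = (nm a : ℝ) ^ 4 := by rw [nm_pow]; push_cast; rfl
    have hsq : Real.sqrt (nm (a ^ 4)) = (nm a : ℝ) ^ 2 := by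
      rw [hnm, show (nm a : ℝ) ^ 4 = ((nm a : ℝ) ^ 2) ^ 2 by ring, Real.sqrt_sq (by positivity)]
    rw [hsq, hnm] at h1
    -- left side
    have hL : ∑ j : Fin (Fintype.card L), D.cL ((Fintype.equivFin L).symm j) *
        Psi M (fun e => if Sm M e then xiE ψ l e else 0) (End699.tw ψ l) a
          (fun y => (y : ℂ) ^ (I * τ) * V y) (Q / D.qL ((Fintype.equivFin L).symm j)) =
        ∑ j, D.cL j * PsiE M (xiE ψ l) (End699.tw ψ l) (a ^ 4)
          (fun y => (y : ℂ) ^ (I * τ) * V y) (Q / D.qL j) := by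
      rw [Equiv.sum_comp (Fintype.equivFin L).symm (fun j => D.cL j *
        Psi M (fun e => if Sm M e then xiE ψ l e else 0) (End699.tw ψ l) a
          (fun y => (y : ℂ) ^ (I * τ) * V y) (Q / D.qL j))]
      refine Finset.sum_congr rfl fun j _ => ?_
      congr 1
      unfold Psi PsiE
      refine tsum_congr fun e => ?_
      by_cases he : Sm M e
      · rw [if_pos he, if_pos he]
        simp only [if_pos he]
        rfl
      · rw [if_neg he, if_neg he]
    -- right side
    have hR : ∑ i : Fin (Fintype.card ι), D.κ ((Fintype.equivFin ι).symm i) *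
        End699.tw (fun a => D.η ((Fintype.equivFin ι).symm i) a ^ 4) (4 * D.j) a *
          Psi' M (End699.tw (D.ψ' ((Fintype.equivFin ι).symm i)) D.l') a
            (W ((Fintype.equivFin ι).symm i) τ)
            (D.ρ ((Fintype.equivFin ι).symm i) * (nm a : ℝ) ^ 4 / Q) =
        ∑ i, D.κ i * End699.tw (D.η i) D.j (a ^ 4) *
          PsiF M (End699.tw (D.ψ' i) D.l') (a ^ 4) (W i τ) (D.ρ i * (nm a : ℝ) ^ 4 / Q) := by
      rw [Equiv.sum_comp (Fintype.equivFin ι).symm (fun i => D.κ i *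
        End699.tw (fun a => D.η i a ^ 4) (4 * D.j) a *
          Psi' M (End699.tw (D.ψ' i) D.l') a (W i τ) (D.ρ i * (nm a : ℝ) ^ 4 / Q))]
      refine Finset.sum_congr rfl fun i _ => ?_
      have e1 : End699.tw (fun a => D.η i a ^ 4) (4 * D.j) a = End699.tw (D.η i) D.j (a ^ 4) := by
        unfold End699.tw
        have e2 : D.η i (a ^ 4) = D.η i a ^ 4 := by
          have hc := (hD.η i).char
          have hp := ha.1
          have h2 := hc.mul a a hp hp
          have h3 := hc.mul (a * a) (a * a) (hp.mul hp) (hp.mul hp)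
          have : a ^ 4 = (a * a) * (a * a) := by ring
          rw [this, h3, h2]
          ring
        have e3 : ang D.j (a ^ 4) = ang (4 * D.j) a := by
          rw [ang_pow_right, ang_pow]
          norm_num
        rw [e2, e3]
      rw [e1]
      rfl
    change ∑ j : Fin (Fintype.card L), D.cL ((Fintype.equivFin L).symm j) *
        Psi M (fun e => if Sm M e then xiE ψ l e else 0) (End699.tw ψ l) a
          (fun y => (y : ℂ) ^ (I * τ) * V y) (Q / D.qL ((Fintype.equivFin L).symm j)) =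
      ((Q / (nm a : ℝ) ^ 2 : ℝ) : ℂ) *
        ∑ i : Fin (Fintype.card ι), D.κ ((Fintype.equivFin ι).symm i) *
        End699.tw (fun a => D.η ((Fintype.equivFin ι).symm i) a ^ 4) (4 * D.j) a *
          Psi' M (End699.tw (D.ψ' ((Fintype.equivFin ι).symm i)) D.l') a
            (W ((Fintype.equivFin ι).symm i) τ)
            (D.ρ ((Fintype.equivFin ι).symm i) * (nm a : ℝ) ^ 4 / Q)
    rw [hL, hR]
    exact h1
  · have h1 := hD.rel
    change 4 * D.l' + 4 * D.j = -4
    omega

theorem f2n_of_stepPure (hΘ : ThetaP) (H : StepPure) (M : Eis) (h : (36 : Eis) ∣ M) : F2n M :=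
  (f2x_of_stepPure hΘ H M h).toF2n

end Crest.Agent.R017.A590
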