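import Mathlib

/-!
# Row 17, section D, leaf D.cert3 (helper918; owner of the leaf helper828)

Real-number certificate for the near-equal boxes with five smooth pieces, `g = 1/3`,
`θ = 7/8 + d`, `0 ≤ d ≤ 1/8`.  All lengths in base `H` (family `= 1`), `r = 1/h ≥ 1`
(`h = log H / log K₀`, `Q₀ = K₀^{4/3}`, amplifier `K₀^{1/3}`).

Smooth pieces `u₁ ≥ … ≥ u₅`, `N = u₃ + u₄ + u₅`, `M = u₁ + u₂`, `u = u₅`, `N + u ≥ 1`;
`a` = everything else of the Möbius side (small lumps `V` and granular), `c` amplifier mass,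
`q = N + M + a`.

* `Al d r q c`  : allowed two-sided loss, `2 log(target) - 2 - (q + c)` in base `H` (`le_Tg`)
* side `{u₃,u₄,u₅ | x}`, `n = N + x` (`x` amplifier, `n ≤ 4/5`, or `x = 0`): loss
  `max 0 (5/4 N - 1) (N + u - 1) / 3` (REM: flat cube-free moment `2 n` up to the family `3n/4`,
  slope `1/3` above it; `C` with `u₅` + two-factor below)
* side `{u₁,u₂} V | w` : `2 d w + (3/4) (w - (7/9) (1 - M))⁺` (`R8Side_918.sideE`)
* exact square (R8) : `max 0 (5/4 N - 1) (2q + c - 3) / 3` instead of the loss of the first side,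
  at every level (`budget`)
* `cert` : every near-equal box of the cone closes absolutely, or (`r ≤ 31/28`, `a ≤ 1/12`)
  by the exact square.
-/

set_option autoImplicit false

namespace Crest.Agent.R017.R8C918

/-- allowed two-sided loss, base `H` -/
noncomputable def Al (d r q c : ℝ) : ℝ :=
  max (8 / 3 * d * r) (max (r * (8 / 3 * d + 1 / 2) - 1 + (q - c) / 2)
    (r * (5 / 12 - 2 / 3 * d) - 5 / 3 + (3 / 4 + 2 * d) * (q + c)))

/-- the same at `d = 0` -/
noncomputable def A0 (r q c : ℝ) : ℝ :=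
  max 0 (max (r / 2 - 1 + (q - c) / 2) (5 / 12 * r - 5 / 3 + 3 / 4 * (q + c)))

/-- near-equal boxes with five smooth pieces -/
structure Box5 (r N M u a c : ℝ) : Prop where
  u5 : 3 * u ≤ N
  MN : 2 * N ≤ 3 * M
  M1 : M ≤ 1
  sig : 1 ≤ N + u
  a0 : 0 ≤ a
  c0 : 0 ≤ c
  r1 : 1 ≤ r
  D : (N + M + a) - c ≤ r
  P : (N + M + a) + c ≤ 5 / 3 * r
  cr : 3 * c ≤ r

lemma A0_ge {r q c X : ℝ} (h : ¬ (0 < X ∧ r / 2 - 1 + (q - c) / 2 < X ∧
    5 / 12 * r - 5 / 3 + 3 / 4 * (q + c) < X)) : X ≤ A0 r q c := by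
  by_contra hc
  push Not at hc
  apply h
  unfold A0 at hc
  refine ⟨lt_of_le_of_lt (le_max_left _ _) hc, ?_, ?_⟩
  · exact lt_of_le_of_lt ((le_max_left _ _).trans (le_max_right _ _)) hc
  · exact lt_of_le_of_lt ((le_max_right _ _).trans (le_max_right _ _)) hc

lemma A0_lt {r q c X : ℝ} (h : A0 r q c < X) : 0 < X ∧ r / 2 - 1 + (q - c) / 2 < X ∧
    5 / 12 * r - 5 / 3 + 3 / 4 * (q + c) < X := by
  unfold A0 at h
  refine ⟨lt_of_le_of_lt (le_max_left _ _) h, ?_, ?_⟩
  · exact lt_of_le_of_lt ((le_max_left _ _).trans (le_max_right _ _)) h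
  · exact lt_of_le_of_lt ((le_max_right _ _).trans (le_max_right _ _)) h

lemma A0_nonneg (r q c : ℝ) : 0 ≤ A0 r q c := le_max_left _ _

/-- loss of the absolute closure, `x` = amplifier mass in the first side -/
noncomputable def LA (N M u w x : ℝ) : ℝ :=
  3 / 4 * max 0 (w - x - 7 / 9 * (1 - M)) + max 0 (max (5 / 4 * N - 1) (N + u - 1)) / 3

/-- loss of the exact square -/
noncomputable def LS (N M a c x : ℝ) : ℝ :=
  3 / 4 * max 0 (a + c - x - 7 / 9 * (1 - M)) +
    max 0 (max (5 / 4 * N - 1) (2 * (N + M + a) + c - 3)) / 3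

/-- admissible amplifier mass in the first side -/
def Adm (N c x : ℝ) : Prop := 0 ≤ x ∧ x ≤ c ∧ (x = 0 ∨ N + x ≤ 4 / 5)

/-- absolute closure -/
def Abs (N M u a c e A : ℝ) : Prop := ∃ x, Adm N c x ∧ LA N M u (a + c) x + e ≤ A

/-- exact square -/
def Sq (N M a c e A : ℝ) : Prop := ∃ x, Adm N c x ∧ LS N M a c x + e ≤ A

/-- the W-side condition at the top level holds on the whole cone -/
lemma rho_le {r N M u a c : ℝ} (B : Box5 r N M u a c) :
    max 0 (2 * (N + M + a) + c - 3) / 3 ≤ A0 r (N + M + a) c := by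
  rcases le_total (2 * (N + M + a) + c - 3) 0 with h | h
  · rw [max_eq_left h]; simpa using A0_nonneg _ _ _
  · rw [max_eq_right h]
    refine A0_ge fun ⟨h0, h1, h2⟩ => ?_
    linarith [B.r1]

/-- one choice of `x`: absolute or square -/
lemma alt {r N M u a c x E : ℝ} (hx : Adm N c x)
    (hE : 3 / 4 * max 0 (a + c - x - 7 / 9 * (1 - M)) ≤ E)
    (h : A0 r (N + M + a) c < E + max 0 (max (5 / 4 * N - 1) (N + u - 1)) / 3 →
      r ≤ 31 / 28 ∧ a ≤ 1 / 12 ∧
        E + max 0 (max (5 / 4 * N - 1) (2 * (N + M + a) + c - 3)) / 3 ≤ A0 r (N + M + a) c) :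
    Abs N M u a c 0 (A0 r (N + M + a) c) ∨
      (r ≤ 31 / 28 ∧ a ≤ 1 / 12 ∧ Sq N M a c 0 (A0 r (N + M + a) c)) := by
  rcases le_or_gt (E + max 0 (max (5 / 4 * N - 1) (N + u - 1)) / 3) (A0 r (N + M + a) c) with
    h1 | h1
  · left
    exact ⟨x, hx, by unfold LA; linarith⟩
  · right
    obtain ⟨h2, h3, h4⟩ := h h1
    exact ⟨h2, h3, x, hx, by unfold LS; linarith⟩

/-- `d = 0` -/
theorem cert0 {r N M u a c : ℝ} (B : Box5 r N M u a c) :
    Abs N M u a c 0 (A0 r (N + M + a) c) ∨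
      (r ≤ 31 / 28 ∧ a ≤ 1 / 12 ∧ Sq N M a c 0 (A0 r (N + M + a) c)) := by
  obtain ⟨hu, hMN, hM1, hs, ha, hc, hr, hD, hP, hcr⟩ := B
  have hB : Box5 r N M u a c := ⟨hu, hMN, hM1, hs, ha, hc, hr, hD, hP, hcr⟩
  have hρ := rho_le hB
  rcases le_or_gt N (4 / 5) with hN | hN
  · -- `N ≤ 4/5`
    have m1 : max 0 (max (5 / 4 * N - 1) (N + u - 1)) = N + u - 1 := by
      rw [max_eq_right (by linarith : 5 / 4 * N - 1 ≤ N + u - 1), max_eq_right (by linarith)]
    have m2 : max 0 (max (5 / 4 * N - 1) (2 * (N + M + a) + c - 3)) ≤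
        max 0 (2 * (N + M + a) + c - 3) :=
      max_le (le_max_left _ _) (max_le ((by linarith : 5 / 4 * N - 1 ≤ 0).trans
        (le_max_left _ _)) (le_max_right _ _))
    rcases le_or_gt (a + c - 7 / 9 * (1 - M)) 0 with hn | hn
    · -- nothing to move
      refine alt (x := 0) (E := 0) ⟨le_rfl, hc, Or.inl rfl⟩
        (by rw [max_eq_left (by linarith)]; simp) fun h => ?_
      rw [m1] at h
      obtain ⟨h0, h1, h2⟩ := A0_lt h
      exact ⟨by linarith, by linarith, by linarith⟩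
    · rcases le_or_gt (a + c - 7 / 9 * (1 - M)) (min c (4 / 5 - N)) with hm | hm
      · have hm1 := hm.trans (min_le_left _ _)
        have hm2 := hm.trans (min_le_right _ _)
        refine alt (x := a + c - 7 / 9 * (1 - M)) (E := 0) ⟨hn.le, hm1, Or.inr (by linarith)⟩
          (by rw [max_eq_left (by linarith)]; simp) fun h => ?_
        rw [m1] at h
        obtain ⟨h0, h1, h2⟩ := A0_lt h
        exact ⟨by linarith, by linarith, by linarith⟩
      · rcases le_total c (4 / 5 - N) with hcN | hcN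
        · rw [min_eq_left hcN] at hm
          refine alt (x := c) (E := 3 / 4 * (a - 7 / 9 * (1 - M)))
            ⟨hc, le_rfl, Or.inr (by linarith)⟩
            (by rw [max_eq_right (by linarith)]; linarith) fun h => ?_
          rw [m1] at h
          obtain ⟨h0, h1, h2⟩ := A0_lt h
          exfalso
          linarith
        · rw [min_eq_right hcN] at hm
          refine alt (x := 4 / 5 - N) (E := 3 / 4 * (a + c - (4 / 5 - N) - 7 / 9 * (1 - M)))
            ⟨by linarith, hcN, Or.inr (by linarith)⟩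
            (by rw [max_eq_right (by linarith)]) fun h => ?_
          rw [m1] at h
          obtain ⟨h0, h1, h2⟩ := A0_lt h
          refine ⟨by linarith, by linarith, ?_⟩
          rcases le_total (2 * (N + M + a) + c - 3) 0 with h' | h'
          · rw [max_eq_left h'] at m2
            refine A0_ge fun ⟨k0, k1, k2⟩ => ?_
            linarith
          · rw [max_eq_right h'] at m2
            refine A0_ge fun ⟨k0, k1, k2⟩ => ?_
            linarith
  · -- `N > 4/5`
    have hx : Adm N c 0 := ⟨le_rfl, hc, Or.inl rfl⟩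
    have m2 : max 0 (max (5 / 4 * N - 1) (2 * (N + M + a) + c - 3)) =
        max (5 / 4 * N - 1) (2 * (N + M + a) + c - 3) :=
      max_eq_right ((by linarith : 0 ≤ 5 / 4 * N - 1).trans (le_max_left _ _))
    have m1 : max 0 (max (5 / 4 * N - 1) (N + u - 1)) =
        max (5 / 4 * N - 1) (N + u - 1) :=
      max_eq_right ((by linarith : 0 ≤ 5 / 4 * N - 1).trans (le_max_left _ _))
    rcases le_or_gt (a + c - 7 / 9 * (1 - M)) 0 with hn | hn
    · refine alt (x := 0) (E := 0) hx (by rw [max_eq_left (by linarith)]; simp) fun h => ?_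
      rw [m1] at h
      rw [m2]
      obtain ⟨h0, h1, h2⟩ := A0_lt h
      have e1 : max (5 / 4 * N - 1) (N + u - 1) ≤ 4 / 3 * N - 1 :=
        max_le (by linarith) (by linarith)
      refine ⟨by linarith, by linarith, ?_⟩
      rcases le_total (5 / 4 * N - 1) (2 * (N + M + a) + c - 3) with h' | h'
      · rw [max_eq_right h']
        refine A0_ge fun ⟨k0, k1, k2⟩ => ?_
        linarith
      · rw [max_eq_left h']
        refine A0_ge fun ⟨k0, k1, k2⟩ => ?_
        linarith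
    · refine alt (x := 0) (E := 3 / 4 * (a + c - 7 / 9 * (1 - M))) hx
        (by rw [max_eq_right (by linarith)]; linarith) fun h => ?_
      rw [m1] at h
      rw [m2]
      obtain ⟨h0, h1, h2⟩ := A0_lt h
      have e1 : max (5 / 4 * N - 1) (N + u - 1) ≤ 4 / 3 * N - 1 :=
        max_le (by linarith) (by linarith)
      refine ⟨by linarith, by linarith, ?_⟩
      rcases le_total (5 / 4 * N - 1) (2 * (N + M + a) + c - 3) with h' | h'
      · rw [max_eq_right h']
        refine A0_ge fun ⟨k0, k1, k2⟩ => ?_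
        linarith
      · rw [max_eq_left h']
        refine A0_ge fun ⟨k0, k1, k2⟩ => ?_
        linarith

lemma Abs.mono {N M u a c e A e' A' : ℝ} (h : Abs N M u a c e A) (he : A + e' ≤ A' + e) :
    Abs N M u a c e' A' := by
  obtain ⟨x, h1, h2⟩ := h
  exact ⟨x, h1, by linarith⟩

lemma Sq.mono {N M a c e A e' A' : ℝ} (h : Sq N M a c e A) (he : A + e' ≤ A' + e) :
    Sq N M a c e' A' := by
  obtain ⟨x, h1, h2⟩ := h
  exact ⟨x, h1, by linarith⟩

lemma Al_ge {d r q c X : ℝ} (h : ¬ (8 / 3 * d * r < X ∧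
    r * (8 / 3 * d + 1 / 2) - 1 + (q - c) / 2 < X ∧
    r * (5 / 12 - 2 / 3 * d) - 5 / 3 + (3 / 4 + 2 * d) * (q + c) < X)) : X ≤ Al d r q c := by
  by_contra hc
  push Not at hc
  apply h
  unfold Al at hc
  refine ⟨lt_of_le_of_lt (le_max_left _ _) hc, ?_, ?_⟩
  · exact lt_of_le_of_lt ((le_max_left _ _).trans (le_max_right _ _)) hc
  · exact lt_of_le_of_lt ((le_max_right _ _).trans (le_max_right _ _)) hc

/-- the allowed loss grows faster in `d` than the loss `2 d w` -/
lemma Al_slack {d r N M u a c : ℝ} (hd : 0 ≤ d) (B : Box5 r N M u a c) (hr : r ≤ 3 / 2) :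
    A0 r (N + M + a) c + 2 * d * (a + c) + 3 / 2 * d ≤ Al d r (N + M + a) c := by
  have hs : 5 / 4 ≤ N + M := by linarith [B.u5, B.MN, B.sig]
  have hw : a + c ≤ 5 / 3 * r - 5 / 4 := by linarith [B.P]
  have k1 : 2 * (a + c) + 3 / 2 ≤ 8 / 3 * r := by linarith
  have k2 : 2 * (a + c) + 3 / 2 ≤ 2 * (N + M + a + c) - 2 / 3 * r := by linarith
  have m1 := mul_le_mul_of_nonneg_left k1 hd
  have m2 := mul_le_mul_of_nonneg_left k2 hd
  have h1 : 0 + 2 * d * (a + c) + 3 / 2 * d ≤ Al d r (N + M + a) c :=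
    (by linarith : _ ≤ 8 / 3 * d * r).trans (le_max_left _ _)
  have h2 : (r / 2 - 1 + (N + M + a - c) / 2) + 2 * d * (a + c) + 3 / 2 * d ≤
      Al d r (N + M + a) c :=
    (by linarith : _ ≤ r * (8 / 3 * d + 1 / 2) - 1 + ((N + M + a) - c) / 2).trans
      ((le_max_left _ _).trans (le_max_right _ _))
  have h3 : (5 / 12 * r - 5 / 3 + 3 / 4 * (N + M + a + c)) + 2 * d * (a + c) + 3 / 2 * d ≤
      Al d r (N + M + a) c :=
    (by linarith : _ ≤ r * (5 / 12 - 2 / 3 * d) - 5 / 3 +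
      (3 / 4 + 2 * d) * ((N + M + a) + c)).trans ((le_max_right _ _).trans (le_max_right _ _))
  have h4 : A0 r (N + M + a) c ≤ Al d r (N + M + a) c - 2 * d * (a + c) - 3 / 2 * d := by
    unfold A0
    exact max_le (by linarith) (max_le (by linarith) (by linarith))
  linarith

/-- `F ≤ Al - (3/2) d` from the three strict inequalities -/
lemma Al_ge' {d r q c F : ℝ} (h : ¬ (8 / 3 * d * r - 3 / 2 * d < F ∧
    r * (8 / 3 * d + 1 / 2) - 1 + (q - c) / 2 - 3 / 2 * d < F ∧
    r * (5 / 12 - 2 / 3 * d) - 5 / 3 + (3 / 4 + 2 * d) * (q + c) - 3 / 2 * d < F)) :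
    F ≤ Al d r q c - 3 / 2 * d := by
  have h1 : F + 3 / 2 * d ≤ Al d r q c := by
    refine Al_ge fun ⟨a, b, e⟩ => h ⟨by linarith, by linarith, by linarith⟩
  linarith

/-- small families: absolute closure -/
theorem cert_big {d r N M u a c : ℝ} (hd : 0 ≤ d) (hd1 : d ≤ 1 / 8) (B : Box5 r N M u a c)
    (hr : 3 / 2 ≤ r) :
    Abs N M u a c (2 * d * (a + c)) (Al d r (N + M + a) c - 3 / 2 * d) := by
  obtain ⟨hu, hMN, hM1, hs, ha, hc, hr1, hD, hP, hcr⟩ := B
  have hs5 : 5 / 4 ≤ N + M := by linarith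
  have p1 : 0 ≤ d * (r - 3 / 2) := mul_nonneg hd (by linarith)
  have p2 : 0 ≤ (1 / 8 - d) * (r - 3 / 2) := mul_nonneg (by linarith) (by linarith)
  have p3 : 0 ≤ d * (N + M - 5 / 4) := mul_nonneg hd (by linarith)
  have p4 : 0 ≤ d * (a + c) := mul_nonneg hd (by linarith)
  have p7 : 0 ≤ d * (3 * M - 2 * N) := mul_nonneg hd (by linarith)
  refine ⟨0, ⟨le_rfl, hc, Or.inl rfl⟩, ?_⟩
  have e1 : max 0 (max (5 / 4 * N - 1) (N + u - 1)) / 3 ≤ (4 / 3 * N - 1) / 3 := by
    have : max 0 (max (5 / 4 * N - 1) (N + u - 1)) ≤ 4 / 3 * N - 1 :=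
      max_le (by linarith) (max_le (by linarith) (by linarith))
    linarith
  unfold LA
  refine Al_ge' fun ⟨h0, h1, h2⟩ => ?_
  rcases le_total (a + c - 0 - 7 / 9 * (1 - M)) 0 with h' | h'
  · rw [max_eq_left h'] at h0 h1 h2
    have p8 : 0 ≤ d * (7 / 9 * (1 - M) - (a + c)) := mul_nonneg hd (by linarith)
    linarith
  · rw [max_eq_right h'] at h0 h1 h2
    linarith

/-- **the certificate** : every near-equal box with five smooth pieces closes, absolutely or by
the exact square (only `r ≤ 31/28`, `a ≤ 1/12`), with the uniform margin `(3/2) d`. -/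
theorem cert {d r N M u a c : ℝ} (hd : 0 ≤ d) (hd1 : d ≤ 1 / 8) (B : Box5 r N M u a c) :
    Abs N M u a c (2 * d * (a + c)) (Al d r (N + M + a) c - 3 / 2 * d) ∨
    (r ≤ 31 / 28 ∧ a ≤ 1 / 12 ∧
      Sq N M a c (2 * d * (a + c)) (Al d r (N + M + a) c - 3 / 2 * d)) := by
  rcases le_or_gt r (3 / 2) with hr | hr
  · have hA := Al_slack hd B hr
    rcases cert0 B with h | ⟨h1, h2, h⟩
    · exact Or.inl (h.mono (by linarith))
    · exact Or.inr ⟨h1, h2, h.mono (by linarith)⟩
  · exact Or.inl (cert_big hd hd1 B hr.le)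

end Crest.Agent.R017.R8C918
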