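import Crest.Agent.R017.ExpRules_911
import Crest.Agent.R017.R8Cert_918

/-!
# Row 17, section D: near-equal three-lump sides at a short family (helper911)

* `NG`, `T3N`         : the region and the statement (three lumps over a family `k` which is
  shorter than `A + B + 2 C`, loss `l`, T3a at the family `k + 3 l`)
* `sideNx`, `sideNx'` : the near-equal sides at the family `1`, in the form of helper918
* `big56x`            : for `N > 5/6` everything closes absolutely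
-/

set_option autoImplicit false

noncomputable section

namespace Crest.Agent.R017.NG911

open Crest.Agent.R017.ER911 Crest.Agent.R017.R8C918

/-- the region of `T3N` -/
structure NG (k l A B C m a : ℝ) : Prop where
  k0 : 0 ≤ k
  l0 : 0 ≤ l
  C0 : 0 ≤ C
  CA : C ≤ A
  CB : C ≤ B
  m0 : 0 ≤ m
  a0 : 0 ≤ a
  wx : m + a = 0 ∨ 5 * (A + B + C + (m + a)) ≤ 4 * k
  w9 : 9 * (m + a) ≤ k
  sig : A + B + 2 * C ≤ k + 3 * l
  l1 : 5 * (A + B + C) ≤ 4 * (k + 3 * l)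
  nn : 6 * (A + B + C) ≤ 5 * k ∨ (m + a = 0 ∧ 10 * (A + B + C) ≤ 9 * k ∧
    4 * (A + B + C) ≤ 3 * (k + 3 * l) ∧ 18 * (A + B + C) ≤ 15 * k + 15 * l)

/-- **the near-equal three-lump side over a short family** -/
def T3N (θ : ℝ) (r : EF) : Prop := ∀ k l A B C m a : ℝ, NG k l A B C m a →
  ∀ κ' : ℝ, 0 ≤ κ' → κ' ≤ k → r κ' {A, B, C} m a + (k - κ') / 3 ≤
    k + (A + B + C + (m + a)) + (l + 2 * (θ - 7 / 8) * (C + (m + a)))

/-- homogeneous -/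
theorem NG.scale {k l A B C m a H : ℝ} (h : NG k l A B C m a) (hH : 0 ≤ H) :
    NG (H * k) (H * l) (H * A) (H * B) (H * C) (H * m) (H * a) := by
  obtain ⟨h1, h2, h3, h4, h5, h6, h7, h8, h9, h10, h11, h12⟩ := h
  have M : ∀ {x y : ℝ}, x ≤ y → H * x ≤ H * y := fun e => mul_le_mul_of_nonneg_left e hH
  have M8 : H * m + H * a = 0 ∨
      5 * (H * A + H * B + H * C + (H * m + H * a)) ≤ 4 * (H * k) := by
    rcases h8 with h8 | h8
    · left; rw [← mul_add, h8, mul_zero]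
    · right; linarith [M h8]
  have M12 : 6 * (H * A + H * B + H * C) ≤ 5 * (H * k) ∨ (H * m + H * a = 0 ∧
      10 * (H * A + H * B + H * C) ≤ 9 * (H * k) ∧
      4 * (H * A + H * B + H * C) ≤ 3 * (H * k + 3 * (H * l)) ∧
      18 * (H * A + H * B + H * C) ≤ 15 * (H * k) + 15 * (H * l)) := by
    rcases h12 with h12 | ⟨a1, a2, a3, a4⟩
    · left; linarith [M h12]
    · right; exact ⟨by rw [← mul_add, a1, mul_zero], by linarith [M a2], by linarith [M a3],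
        by linarith [M a4]⟩
  exact ⟨mul_nonneg hH h1, mul_nonneg hH h2, mul_nonneg hH h3, M h4, M h5, mul_nonneg hH h6,
    mul_nonneg hH h7, M8, by linarith [M h9], by linarith [M h10], by linarith [M h11], M12⟩

variable {d : ℝ} {r : EF}

/-- hypotheses of `sideNx` -/
structure NAx (y₁ y₂ y₃ w l : ℝ) : Prop where
  y0 : 0 ≤ y₃
  y31 : y₃ ≤ y₁
  y32 : y₃ ≤ y₂
  wx : w = 0 ∨ 5 * (y₁ + y₂ + y₃ + w) ≤ 4
  w9 : 9 * w ≤ 1
  n5 : 6 * (y₁ + y₂ + y₃) ≤ 5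
  l0 : 0 ≤ l
  l1 : 5 * (y₁ + y₂ + y₃) ≤ 4 * (1 + 3 * l)
  sig : y₁ + y₂ + 2 * y₃ ≤ 1 + 3 * l

/-- **near-equal three-lump side, `y₁ + y₂ + y₃ ≤ 5/6`** -/
theorem sideNx (G : T3N (7 / 8 + d) r) {y₁ y₂ y₃ m a l : ℝ} (hm : 0 ≤ m) (ha : 0 ≤ a)
    (H : NAx y₁ y₂ y₃ (m + a) l) :
    ∀ κ' : ℝ, 0 ≤ κ' → κ' ≤ 1 → r κ' {y₁, y₂, y₃} m a + (1 - κ') / 3 ≤
      1 + (y₁ + y₂ + y₃ + (m + a)) + (l + 2 * d * (y₃ + (m + a))) := by
  obtain ⟨y0, y31, y32, wx, w9, n5, l0, l1, sig⟩ := H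
  intro κ' h0 h1
  have := G 1 l y₁ y₂ y₃ m a ⟨zero_le_one, l0, y0, y31, y32, hm, ha, by simpa using wx,
    by linarith, by linarith, by linarith, Or.inl (by linarith)⟩ κ' h0 h1
  linarith

/-- hypotheses of `sideNx'` -/
structure NBx (y₁ y₂ y₃ l : ℝ) : Prop where
  y0 : 0 ≤ y₃
  y31 : y₃ ≤ y₁
  y32 : y₃ ≤ y₂
  l0 : 0 ≤ l
  sig : y₁ + y₂ + 2 * y₃ ≤ 1 + 3 * l
  n9 : 10 * (y₁ + y₂ + y₃) ≤ 9
  l1 : 4 * (y₁ + y₂ + y₃) ≤ 3 * (1 + 3 * l)
  l2 : 18 * (y₁ + y₂ + y₃) ≤ 15 + 15 * l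

/-- **three pure lumps, total at most `9/10`** -/
theorem sideNx' (G : T3N (7 / 8 + d) r) {y₁ y₂ y₃ l : ℝ} (H : NBx y₁ y₂ y₃ l) :
    ∀ κ' : ℝ, 0 ≤ κ' → κ' ≤ 1 → r κ' {y₁, y₂, y₃} 0 0 + (1 - κ') / 3 ≤
      1 + (y₁ + y₂ + y₃) + (l + 2 * d * y₃) := by
  obtain ⟨y0, y31, y32, l0, sig, n9, l1, l2⟩ := H
  intro κ' h0 h1
  have := G 1 l y₁ y₂ y₃ 0 0 ⟨zero_le_one, l0, y0, y31, y32, le_rfl, le_rfl,
    Or.inl (by norm_num), by linarith, by linarith, by linarith,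
    Or.inr ⟨by norm_num, by linarith, by linarith, by linarith⟩⟩ κ' h0 h1
  linarith

/-- for `N > 5/6` the real sides close everything -/
lemma big56x {r N M u a c : ℝ} (_hu : 3 * u ≤ N) (hMN : 2 * N ≤ 3 * M) (hN : 5 / 6 ≤ N)
    (ha : 0 ≤ a) (_hc : 0 ≤ c) (_hr : 1 ≤ r) (hr2 : r ≤ 9 / 8) (_hD : (N + M + a) - c ≤ r)
    (hP : (N + M + a) + c ≤ 5 / 3 * r) (hcr : 3 * c ≤ r) :
    3 / 4 * max 0 (a + c - 7 / 9 * (1 - M)) +
      (max (4 / 3 * N) (18 / 5 * N - 2) - 1) / 3 ≤ A0 r (N + M + a) c := by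
  by_contra hcon
  push Not at hcon
  obtain ⟨h0, h1, h2⟩ := A0_lt hcon
  rcases le_total 0 (a + c - 7 / 9 * (1 - M)) with h | h
  · rw [max_eq_right h] at h0 h1 h2
    rcases le_total (4 / 3 * N) (18 / 5 * N - 2) with h' | h'
    · rw [max_eq_right h'] at h0 h1 h2; linarith
    · rw [max_eq_left h'] at h0 h1 h2; linarith
  · rw [max_eq_left h] at h0 h1 h2
    rcases le_total (4 / 3 * N) (18 / 5 * N - 2) with h' | h'
    · rw [max_eq_right h'] at h0 h1 h2; linarith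
    · rw [max_eq_left h'] at h0 h1 h2; linarith

end Crest.Agent.R017.NG911
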