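import Crest.Agent.R017.R8Tail_70

/-!
# Row 17, section D, R8: the certificate on the overlapping region (helper918)

The signed region of `Fin3_986` / `E5T_54` is `NearQ`: `log H ≥ a₀ log X`, `a₀ = 179/200`
(`r ≤ 200/179 < 9/8`) and `(1 - μ) κ ≤ u₃ + u₄ + 2 u₅`, i.e. `1 - μ ≤ N + u` in base `H`.
`certO` : for `μ ≤ d/16` helper918's certificate and helper70's tails hold there as well
(perturbation: `u₃, u₄, u₅` by `μ/4`, `u₁ + u₂` by `μ/2`, `r` by `5μ/4`; every function is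
monotone), with the same structure `Tl` except for the unused field `need`.
-/

set_option autoImplicit false

noncomputable section

namespace Crest.Agent.R017.R8C918

open Crest.Agent.R017.R8T70

/-- near-equal boxes of the (larger) signed region -/
structure Box5o (μ r N M u a c : ℝ) : Prop where
  u5 : 3 * u ≤ N
  MN : 2 * N ≤ 3 * M
  sig : 1 - μ ≤ N + u
  a0 : 0 ≤ a
  c0 : 0 ≤ c
  r1 : 1 ≤ r
  r2 : r ≤ 9 / 8
  D : (N + M + a) - c ≤ r
  P : (N + M + a) + c ≤ 5 / 3 * r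
  cr : 3 * c ≤ r

lemma Box5o.up {μ r N M u a c : ℝ} (B : Box5o μ r N M u a c) (h0 : 0 ≤ μ) (h1 : μ ≤ 1 / 8) :
    Box5 (r + 5 / 4 * μ) (N + 3 / 4 * μ) (M + 1 / 2 * μ) (u + 1 / 4 * μ) a c := by
  obtain ⟨hu, hMN, hs, ha, hc, hr, hr2, hD, hP, hcr⟩ := B
  exact ⟨by linarith, by linarith, by linarith, by linarith, ha, hc, by linarith, by linarith,
    by linarith, by linarith⟩

lemma LA_mono {N N' M M' u u' w x : ℝ} (hN : N ≤ N') (hM : M ≤ M') (hu : u ≤ u') :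
    LA N M u w x ≤ LA N' M' u' w x := by
  unfold LA
  have h1 : max 0 (w - x - 7 / 9 * (1 - M)) ≤ max 0 (w - x - 7 / 9 * (1 - M')) :=
    max_le_max le_rfl (by linarith)
  have h2 : max 0 (max (5 / 4 * N - 1) (N + u - 1)) ≤ max 0 (max (5 / 4 * N' - 1) (N' + u' - 1)) :=
    max_le_max le_rfl (max_le_max (by linarith) (by linarith))
  linarith

lemma LS_mono {N N' M M' a c x : ℝ} (hN : N ≤ N') (hM : M ≤ M') :
    LS N M a c x ≤ LS N' M' a c x := by
  unfold LS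
  have h1 : max 0 (a + c - x - 7 / 9 * (1 - M)) ≤ max 0 (a + c - x - 7 / 9 * (1 - M')) :=
    max_le_max le_rfl (by linarith)
  have h2 : max 0 (max (5 / 4 * N - 1) (2 * (N + M + a) + c - 3)) ≤
      max 0 (max (5 / 4 * N' - 1) (2 * (N' + M' + a) + c - 3)) :=
    max_le_max le_rfl (max_le_max (by linarith) (by linarith))
  linarith

lemma Al_lip {d r q c μ : ℝ} (hd : 0 ≤ d) (hd1 : d ≤ 1 / 8) (hμ : 0 ≤ μ) :
    Al d (r + 5 / 4 * μ) (q + 5 / 4 * μ) c ≤ Al d r q c + 2 * μ := by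
  have h0 : 0 ≤ d * μ := mul_nonneg hd hμ
  have h1 : d * μ ≤ 1 / 8 * μ := mul_le_mul_of_nonneg_right hd1 hμ
  unfold Al
  refine max_le ?_ (max_le ?_ ?_)
  · have := le_max_left (8 / 3 * d * r) (max (r * (8 / 3 * d + 1 / 2) - 1 + (q - c) / 2)
      (r * (5 / 12 - 2 / 3 * d) - 5 / 3 + (3 / 4 + 2 * d) * (q + c)))
    linarith
  · have := (le_max_left (r * (8 / 3 * d + 1 / 2) - 1 + (q - c) / 2)
      (r * (5 / 12 - 2 / 3 * d) - 5 / 3 + (3 / 4 + 2 * d) * (q + c))).trans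
      (le_max_right (8 / 3 * d * r) _)
    linarith
  · have := (le_max_right (r * (8 / 3 * d + 1 / 2) - 1 + (q - c) / 2)
      (r * (5 / 12 - 2 / 3 * d) - 5 / 3 + (3 / 4 + 2 * d) * (q + c))).trans
      (le_max_right (8 / 3 * d * r) _)
    linarith

lemma GP_mono {κ vm vm' N N' u u' : ℝ} (h1 : vm ≤ vm') (h2 : N ≤ N') (h3 : u ≤ u') :
    GP κ vm N u ≤ GP κ vm' N' u' :=
  max_le_max (by linarith) (by linarith)

lemma GH_mono {κ vm vm' N N' b b' : ℝ} (h1 : vm ≤ vm') (h2 : 5 * N - vm ≤ 5 * N' - vm')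
    (h3 : b ≤ b') : GH κ vm N b - b ≤ GH κ vm' N' b' - b' := by
  unfold GH
  have : max (vm + b) (2 / 3 * (κ + vm + b)) ≤ max (vm' + b') (2 / 3 * (κ + vm' + b')) :=
    max_le_max (by linarith) (by linarith)
  linarith

lemma bm_mono {κ M M' c : ℝ} (h : M ≤ M') : bm κ M c ≤ bm κ M' c := by
  unfold bm
  have : max 0 (κ - M') ≤ max 0 (κ - M) := max_le_max le_rfl (by linarith)
  exact max_le_max le_rfl (by linarith)

lemma RE_mono {κ M M' a c : ℝ} (h : M ≤ M') : RE κ M a c ≤ RE κ M' a c := by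
  unfold RE
  have := bm_mono (κ := κ) (c := c) h
  linarith

lemma L2_mono {d M M' a c x : ℝ} (h : M ≤ M') : L2 d M a c x ≤ L2 d M' a c x := by
  unfold L2
  have h1 : max 0 (a + c - x - 7 / 9 * (1 - M)) ≤ max 0 (a + c - x - 7 / 9 * (1 - M')) :=
    max_le_max le_rfl (by linarith)
  linarith

/-- `Tl` of helper70 without the field `need` -/
structure TlO (d N M u a c x A : ℝ) : Prop where
  adm : Adm N c x
  N85 : N ≤ 17 / 20
  sq : LS N M a c x + 2 * d * (a + c) ≤ A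
  T1 : ∀ κ, 0 ≤ κ → κ ≤ 17 / 20 →
    2 / 3 * (1 - κ) + (min (GP κ (2 * N - 1) N u + RE κ M a c)
      (GH κ (2 * N - 1) N (bm κ M c) + (κ + M + a + (c - bm κ M c) + 3 / 4 * a)) +
        2 * d * (a + c)) ≤ 2 + (N + M + a + c) + A
  T2 : ∀ κ, κ ≤ 17 / 20 →
    (1 - κ) / 3 + (GP κ (2 * (N + x) - 1) (N + x) (u + x) +
      (2 / 3 * κ + 4 / 3 * (N + x) + u / 2 + 16 / 5 * d * (u + x))) / 2 + L2 d M a c x ≤
        1 + (N + x) + A
  T2l : ∀ κ, 0 ≤ κ → κ ≤ (N + x) - 3 / 4 * u →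
    (1 - κ) / 3 + (GH κ (2 * (N + x) - 1) (N + x) (u + x) + (κ + (N - u))) / 2 +
      L2 d M a c x ≤ 1 + (N + x) + A
  T3 : ∀ κ, κ ≤ 17 / 20 →
    2 / 3 * (1 - κ) + (2 / 3 * κ + 4 / 3 * (N + x) + u / 2 + 16 / 5 * d * (u + x)) +
      (RE κ M a (c - x) + 2 * d * (a + c - x)) ≤ 2 + (N + M + a + c) + A
  T3l : ∀ κ, κ ≤ (N + x) - 3 / 4 * u →
    2 / 3 * (1 - κ) + (κ + (N + x) + (3 / 4 + 2 * d) * (u + x)) +
      (RE κ M a (c - x) + 2 * d * (a + c - x)) ≤ 2 + (N + M + a + c) + A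
  gr : ∀ κ, κ ≤ 17 / 20 → 2 * κ + 3 * (u + x) ≤ 3 * (N + x) + (2 * (N + x) - 1)
  gr0 : ∀ κ, κ ≤ 17 / 20 → 2 * κ + 3 * u ≤ 3 * N + (2 * N - 1)

set_option maxHeartbeats 1000000 in
/-- from the perturbed box back -/
lemma TlO_of {d μ r N M u a c x : ℝ} (hd : 0 ≤ d) (hd1 : d ≤ 1 / 8) (hμ : 0 ≤ μ)
    (hμ1 : 16 * μ ≤ d) (B : Box5o μ r N M u a c)
    (T : Tl d (N + 3 / 4 * μ) (M + 1 / 2 * μ) (u + 1 / 4 * μ) a c x
      (Al d (r + 5 / 4 * μ) (N + 3 / 4 * μ + (M + 1 / 2 * μ) + a) c - 1 / 2 * d)) :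
    TlO d N M u a c x (Al d r (N + M + a) c - 1 / 4 * d) := by
  have hl : Al d (r + 5 / 4 * μ) (N + 3 / 4 * μ + (M + 1 / 2 * μ) + a) c ≤
      Al d r (N + M + a) c + 2 * μ := by
    have := Al_lip (r := r) (q := N + M + a) (c := c) hd hd1 hμ
    have e : N + M + a + 5 / 4 * μ = N + 3 / 4 * μ + (M + 1 / 2 * μ) + a := by ring
    rwa [e] at this
  set N' := N + 3 / 4 * μ with hN'
  set M' := M + 1 / 2 * μ with hM'
  set u' := u + 1 / 4 * μ with hu'
  have iN : N ≤ N' := by linarith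
  have iM : M ≤ M' := by linarith
  have iu : u ≤ u' := by linarith
  have hdμ : 0 ≤ d * μ := mul_nonneg hd hμ
  have hx0 : 0 ≤ x := T.adm.1
  have hdx : 0 ≤ d * x := mul_nonneg hd hx0
  have hdu : d * u ≤ d * u' := mul_le_mul_of_nonneg_left iu hd
  refine ⟨⟨T.adm.1, T.adm.2.1, ?_⟩, ?_, ?_, ?_, ?_, ?_, ?_, ?_, ?_, ?_⟩
  · rcases T.adm.2.2 with h' | h'
    · exact Or.inl h'
    · exact Or.inr (by linarith)
  · exact iN.trans T.N85
  · have := LS_mono (a := a) (c := c) (x := x) iN iM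
    have := T.sq
    linarith
  · intro κ k0 k1
    have h := T.T1 κ k0 k1
    have g1 := GP_mono (κ := κ) (vm := 2 * N - 1) (vm' := 2 * N' - 1) (by linarith) iN iu
    have g2 := RE_mono (κ := κ) (a := a) (c := c) iM
    have g3 := GH_mono (κ := κ) (vm := 2 * N - 1) (vm' := 2 * N' - 1) (N := N) (N' := N')
      (by linarith) (by linarith) (bm_mono (κ := κ) (c := c) iM)
    have g4 := min_le_min (add_le_add g1 g2)
      (by linarith : GH κ (2 * N - 1) N (bm κ M c) + (κ + M + a + (c - bm κ M c) + 3 / 4 * a) ≤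
        GH κ (2 * N' - 1) N' (bm κ M' c) + (κ + M' + a + (c - bm κ M' c) + 3 / 4 * a))
    linarith
  · intro κ k1
    have h := T.T2 κ k1
    have g1 := GP_mono (κ := κ) (vm := 2 * (N + x) - 1) (vm' := 2 * (N' + x) - 1)
      (N := N + x) (N' := N' + x) (u := u + x) (u' := u' + x) (by linarith) (by linarith)
      (by linarith)
    have g2 := L2_mono (d := d) (a := a) (c := c) (x := x) iM
    linarith
  · intro κ k0 k1
    have h := T.T2l κ k0 (by linarith)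
    have g1 := GH_mono (κ := κ) (vm := 2 * (N + x) - 1) (vm' := 2 * (N' + x) - 1)
      (N := N + x) (N' := N' + x) (b := u + x) (b' := u' + x) (by linarith) (by linarith)
      (by linarith)
    have g2 := L2_mono (d := d) (a := a) (c := c) (x := x) iM
    linarith
  · intro κ k1
    have h := T.T3 κ k1
    have g2 := RE_mono (κ := κ) (a := a) (c := c - x) iM
    linarith
  · intro κ k1
    have h := T.T3l κ (by linarith)
    have g2 := RE_mono (κ := κ) (a := a) (c := c - x) iM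
    linarith
  · intro κ k1
    have := B.u5; have := B.sig
    linarith
  · intro κ k1
    have := B.u5; have := B.sig
    linarith

/-- from the perturbed box back, absolute closure -/
lemma Abs_of {d μ r N M u a c : ℝ} (hd : 0 ≤ d) (hd1 : d ≤ 1 / 8) (hμ : 0 ≤ μ)
    (hμ1 : 16 * μ ≤ d)
    (h : Abs (N + 3 / 4 * μ) (M + 1 / 2 * μ) (u + 1 / 4 * μ) a c (2 * d * (a + c))
      (Al d (r + 5 / 4 * μ) (N + 3 / 4 * μ + (M + 1 / 2 * μ) + a) c - 3 / 2 * d)) :
    Abs N M u a c (2 * d * (a + c)) (Al d r (N + M + a) c - d) := by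
  have hl : Al d (r + 5 / 4 * μ) (N + 3 / 4 * μ + (M + 1 / 2 * μ) + a) c ≤
      Al d r (N + M + a) c + 2 * μ := by
    have := Al_lip (r := r) (q := N + M + a) (c := c) hd hd1 hμ
    have e : N + M + a + 5 / 4 * μ = N + 3 / 4 * μ + (M + 1 / 2 * μ) + a := by ring
    rwa [e] at this
  obtain ⟨x, hx, h⟩ := h
  refine ⟨x, ⟨hx.1, hx.2.1, ?_⟩, ?_⟩
  · rcases hx.2.2 with h' | h'
    · exact Or.inl h'
    · exact Or.inr (by linarith)
  · have := LA_mono (N := N) (M := M) (u := u) (w := a + c) (x := x)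
      (by linarith : N ≤ N + 3 / 4 * μ) (by linarith : M ≤ M + 1 / 2 * μ)
      (by linarith : u ≤ u + 1 / 4 * μ)
    linarith

/-- **the certificate of the signed region, with overlap** -/
theorem certO {d μ r N M u a c : ℝ} (hd : 0 ≤ d) (hd1 : d ≤ 1 / 8) (hμ : 0 ≤ μ)
    (hμ1 : 16 * μ ≤ d) (B : Box5o μ r N M u a c) :
    Abs N M u a c (2 * d * (a + c)) (Al d r (N + M + a) c - d) ∨
    (r ≤ 31 / 28 ∧ a ≤ 1 / 12 ∧ ∃ x, TlO d N M u a c x (Al d r (N + M + a) c - 1 / 4 * d)) := by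
  have hB := B.up hμ (by linarith)
  rcases tails hd hd1 hB with h | ⟨hr, ha, x, T⟩
  · exact Or.inl (Abs_of hd hd1 hμ hμ1 h)
  · exact Or.inr ⟨by linarith, ha, x, TlO_of hd hd1 hμ hμ1 B T⟩

end Crest.Agent.R017.R8C918
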