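import Crest.Agent.R017.SideD_777

/-!
# Row 17, section D, leaf D.cert3: the side `{u₁,u₂} · V | m, a` (helper918)

`sideE` : from helper777's `T6`: small lumps `V`, `27 |V| ≤ 8 (κ - s)`, long `s = y₁ + y₂`
(`5 κ ≤ 14 s`), any splitting of the granular mass in Möbius `m` and amplifier `a`:
loss `2 d w + (3/4) (w - (7/9)(κ - s))⁺`, `w = |V| + m + a`, all families `κ' ≤ κ`.
-/

set_option autoImplicit false

namespace Crest.Agent.R017.R8C918

open Crest.Agent.R017.ER911 Crest.Agent.R017.SC777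

variable {d : ℝ} {r s : EF}

/-- sup on the granular part: total dropped mass `e` -/
theorem sup_drop {θ : ℝ} (R : ExpRules θ r s) {κ m a e : ℝ} {Y : Multiset ℝ} (hκ : 0 ≤ κ)
    (hY : Ok Y m a) (he : 0 ≤ e) (he' : e ≤ m + a) :
    ∃ m₁ a₁ : ℝ, 0 ≤ m₁ ∧ 0 ≤ a₁ ∧ m₁ + a₁ = m + a - e ∧ m₁ ≤ m ∧ a₁ ≤ a ∧
      r κ Y m a ≤ 2 * θ * e + r κ Y m₁ a₁ := by
  rcases le_total e a with h | h
  · have := R.sup κ Y m a 0 e hκ hY le_rfl hY.2.1 he h
    rw [sub_zero, zero_add] at this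
    exact ⟨m, a - e, hY.2.1, by linarith, by ring, le_rfl, by linarith, this⟩
  · have := R.sup κ Y m a (e - a) a hκ hY (by linarith) (by linarith) hY.2.2 le_rfl
    rw [sub_self, sub_add_cancel] at this
    exact ⟨m - (e - a), 0, by linarith, le_rfl, by ring, by linarith, hY.2.2, this⟩

/-- the ideal region -/
theorem sideE_ideal (R : ExpRules (7 / 8 + d) r s) (hd : 0 ≤ d) {κ y₁ y₂ m a : ℝ}
    {V : Multiset ℝ} (h1 : 0 ≤ y₁) (h2 : 0 ≤ y₂) (hm : 0 ≤ m) (ha : 0 ≤ a)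
    (hV : ∀ y ∈ V, 0 ≤ y) (hs : y₁ + y₂ ≤ κ) (hVs : 27 * V.sum ≤ 8 * (κ - (y₁ + y₂)))
    (hκs : 5 * κ ≤ 14 * (y₁ + y₂))
    (hw : V.sum + m + a ≤ 7 / 9 * (κ - (y₁ + y₂))) {κ' : ℝ} (hκ' : 0 ≤ κ') (hκ : κ' ≤ κ) :
    r κ' (V + {y₁, y₂}) m a + (κ - κ') / 3 ≤
      κ + (V.sum + y₁ + y₂ + m + a) + 2 * d * (V.sum + m + a) := by
  have hV0 : 0 ≤ V.sum := Multiset.sum_nonneg hV
  set D := κ - (y₁ + y₂) with hD
  have hD0 : 0 ≤ D := by linarith
  -- `x` = granular mass in `X`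
  obtain ⟨b, b', hb, hbm, hb', hba, hx1, hx2⟩ : ∃ b b' : ℝ, 0 ≤ b ∧ b ≤ m ∧ 0 ≤ b' ∧ b' ≤ a ∧
      b + b' ≤ 2 / 9 * D ∧ V.sum + (m - b) + (a - b') ≤ 5 / 9 * D := by
    rcases le_total (V.sum + m + a) (5 / 9 * D) with h | h
    · exact ⟨0, 0, le_rfl, hm, le_rfl, ha, by linarith, by linarith⟩
    · rcases le_total (V.sum + m + a - 5 / 9 * D) a with h' | h'
      · exact ⟨0, V.sum + m + a - 5 / 9 * D, le_rfl, hm, by linarith, h', by linarith,
          by linarith⟩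
      · exact ⟨V.sum + m + a - 5 / 9 * D - a, a, by linarith, by linarith, ha, le_rfl,
          by linarith, by linarith⟩
  have key := T6 R hd (κ := κ) (y₁ := y₁) (y₂ := y₂) (m := m - b) (b := b) (a := a - b')
    (b' := b') (V := 0) (Z := V) (by linarith) h1 h2 (by simp) hV (by linarith) hb
    (by linarith) hb'
    (by rw [Multiset.sum_zero]; linarith) (by linarith) (by linarith) (by linarith) κ' hκ' hκ
  rw [Multiset.sum_zero, zero_add, sub_add_cancel, sub_add_cancel] at key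
  have e1 : 2 * d * (V.sum + (m - b) + (a - b')) ≤ 2 * d * (V.sum + m + a) :=
    mul_le_mul_of_nonneg_left (by linarith) (by linarith)
  linarith

/-- **the side of the two largest pieces**, all excess removed pointwise -/
theorem sideE (R : ExpRules (7 / 8 + d) r s) (hd : 0 ≤ d) {κ y₁ y₂ m a : ℝ}
    {V : Multiset ℝ} (h1 : 0 ≤ y₁) (h2 : 0 ≤ y₂) (hm : 0 ≤ m) (ha : 0 ≤ a)
    (hV : ∀ y ∈ V, 0 ≤ y) (hs : y₁ + y₂ ≤ κ) (hVs : 27 * V.sum ≤ 8 * (κ - (y₁ + y₂)))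
    (hκs : 5 * κ ≤ 14 * (y₁ + y₂)) {κ' : ℝ} (hκ' : 0 ≤ κ') (hκ : κ' ≤ κ) :
    r κ' (V + {y₁, y₂}) m a + (κ - κ') / 3 ≤
      κ + (V.sum + y₁ + y₂ + m + a) + 2 * d * (V.sum + m + a) +
        3 / 4 * max 0 (V.sum + m + a - 7 / 9 * (κ - (y₁ + y₂))) := by
  have hV0 : 0 ≤ V.sum := Multiset.sum_nonneg hV
  rcases le_total (V.sum + m + a - 7 / 9 * (κ - (y₁ + y₂))) 0 with h | h
  · rw [max_eq_left h]
    have := sideE_ideal R hd h1 h2 hm ha hV hs hVs hκs (by linarith) hκ' hκ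
    linarith
  · rw [max_eq_right h]
    have hok : Ok (V + {y₁, y₂}) m a := by
      refine ⟨fun y hy => ?_, hm, ha⟩
      rcases Multiset.mem_add.1 hy with h | h
      · exact hV y h
      · exact (ok_pair (m := 0) (a := 0) h1 h2 le_rfl le_rfl).1 y h
    obtain ⟨m₁, a₁, hm1, ha1, hma, _, _, hsup⟩ := sup_drop R hκ' hok h (by linarith)
    have := sideE_ideal R hd h1 h2 hm1 ha1 hV hs hVs hκs (by linarith) hκ' hκ
    have e4 : V.sum + m₁ + a₁ = V.sum + m + a -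
        (V.sum + m + a - 7 / 9 * (κ - (y₁ + y₂))) := by linarith
    rw [e4] at this
    have e5 : V.sum + y₁ + y₂ + m₁ + a₁ = V.sum + y₁ + y₂ + m + a -
        (V.sum + m + a - 7 / 9 * (κ - (y₁ + y₂))) := by linarith
    rw [e5] at this
    generalize V.sum + m + a - 7 / 9 * (κ - (y₁ + y₂)) = e at *
    have e6 : 2 * (7 / 8 + d) * e = 7 / 4 * e + 2 * d * e := by ring
    have e7 : 2 * d * (V.sum + m + a - e) = 2 * d * (V.sum + m + a) - 2 * d * e := by ring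
    rw [e7] at this
    linarith

end Crest.Agent.R017.R8C918
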