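import Crest.Agent.R017.SideC_777

/-!
# Row 17, section D: fixed `X` with one parameter `ξ`, and the theorem T6 (helper777)

* `level_xi`, `side_xi` : side `X · G'`, `x = |X| ≤ ξ`, `2 ξ + |G'| ≤ κ + F`; only the columns
  `r i G₃ ≤ |G₃| + (2 κ + i)/3 - ξ + F`, `i ≤ κ - 3 ξ`, are needed.
* `T6` : `G' = {y₁,y₂ | m,a} · Z`, `Z` and `X` arbitrary (lumps of any size), total `l'` of `G'`:
  `2 x + l' ≤ κ`, `2 l' + 3 |Z| ≤ 2 κ`, `9 l' ≤ 5 κ + 4 s`, `3 (l' + a) ≤ 2 κ + 5 s` imply that the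
  side is ideal up to `2 d (|Z| + m + a)`. No LB, LV, REM.
-/

set_option autoImplicit false

noncomputable section

namespace Crest.Agent.R017.SC777

open Crest.Agent.R017.ER911

variable {θ d : ℝ} {r s : EF}

/-- columns of the rest `(Z | m, a)`, parameter `ξ` -/
structure ColX (θ : ℝ) (r : EF) (κ ξ F : ℝ) (Z : Multiset ℝ) (m a : ℝ) : Prop where
  col : ∀ (Z' : Multiset ℝ) (m' a' i : ℝ), Sh Z' Z → 0 ≤ m' → m' ≤ m → 0 ≤ a' → a' ≤ a →
    0 ≤ i → (∀ y ∈ Z', y ≤ i) → i ≤ κ - 3 * ξ →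
    r i Z' m' a' ≤ (Z'.sum + m' + a') + (2 * κ + i) / 3 - ξ + F
  cube : ∀ (Z' : Multiset ℝ) (m' a' : ℝ), Sh Z' Z → 0 ≤ m' → m' ≤ m → 0 ≤ a' → a' ≤ a →
    0 ≤ κ - 3 * ξ → 2 * a' + 2 * θ * m' ≤ (Z'.sum + m' + a') + 2 / 3 * κ - ξ + F

theorem ColX.mono {κ ξ F m a m₁ a₁ : ℝ} {Z Z₁ : Multiset ℝ} (C : ColX θ r κ ξ F Z m a)
    (hZ : Sh Z₁ Z) (hm : m₁ ≤ m) (ha : a₁ ≤ a) : ColX θ r κ ξ F Z₁ m₁ a₁ where
  col Z' m' a' i hZ' hm0 hm1 ha0 ha1 hi hyi hii :=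
    C.col Z' m' a' i (hZ'.trans hZ) hm0 (hm1.trans hm) ha0 (ha1.trans ha) hi hyi hii
  cube Z' m' a' hZ' hm0 hm1 ha0 ha1 hii :=
    C.cube Z' m' a' (hZ'.trans hZ) hm0 (hm1.trans hm) ha0 (ha1.trans ha) hii

/-- one Gauss level from the columns of the rest, `X` of length at most `ξ` -/
theorem level_xi (R : ExpRules θ r s) {κ ξ b b' m a F : ℝ} {V Z : Multiset ℝ}
    (hV : ∀ y ∈ V, 0 ≤ y) (hZ : ∀ y ∈ Z, 0 ≤ y) (hb : 0 ≤ b) (hbm : b ≤ m) (hb' : 0 ≤ b')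
    (hba : b' ≤ a) (hn : κ ≤ 2 * (V.sum + Z.sum + m + a))
    (hx : V.sum + b + b' ≤ ξ) (hξ : 2 * ξ + (Z.sum + (m - b) + (a - b')) ≤ κ + F)
    (C : ColX θ r κ ξ F Z (m - b) (a - b')) :
    ∀ i : ℝ, 0 ≤ i → i ≤ 2 * (V.sum + Z.sum + m + a) - κ →
      s i (V + Z) m a ≤ 2 * (V.sum + Z.sum + m + a) -
        (2 * (V.sum + Z.sum + m + a) - κ - i) / 3 + F := by
  intro i hi hi'
  have hV0 : 0 ≤ V.sum := Multiset.sum_nonneg hV
  have hZok : Ok Z m a := ⟨hZ, hb.trans hbm, hb'.trans hba⟩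
  have c0 := R.cauV i Z V m a hi hZok hV
  have c1 := R.cau (i + V.sum) Z m a b b' (by linarith) hZok hb hbm hb' hba
  obtain ⟨x, hxd⟩ : ∃ x, x = V.sum + b + b' := ⟨_, rfl⟩
  obtain ⟨n, hnd⟩ : ∃ n, n = V.sum + Z.sum + m + a := ⟨_, rfl⟩
  -- family `K = 2 n - κ + x + 3 (ξ - x)`
  have c2 := R.poisG (2 * n - κ + x + 3 * (ξ - x)) Z (m - b) (a - b')
    ((2 * n - κ + x + 3 * (ξ - x)) + (Z.sum + (m - b) + (a - b')) +
      (κ - n - x - 2 * (ξ - x) + F))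
    (by linarith) ⟨hZ, by linarith, by linarith⟩ (by linarith)
    (fun Z' m' a' j hZ' hm0 hm1 ha0 ha1 hj hyj hjj => by
      have := C.col Z' m' a' j hZ' hm0 hm1 ha0 ha1 hj hyj (by linarith)
      linarith)
    (fun Z' m' a' hZ' hm0 hm1 ha0 ha1 hKK => by
      have := C.cube Z' m' a' hZ' hm0 hm1 ha0 ha1 (by linarith)
      linarith)
    (i + V.sum + (b + b')) (by linarith) (by linarith)
  linarith

/-- **fixed `X`, parameter `ξ`** -/
theorem side_xi (R : ExpRules θ r s) {κ ξ m b a b' F : ℝ} {V Z : Multiset ℝ} (hκ : 0 ≤ κ)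
    (hV : ∀ y ∈ V, 0 ≤ y) (hZ : ∀ y ∈ Z, 0 ≤ y) (hm : 0 ≤ m) (hb : 0 ≤ b) (ha : 0 ≤ a)
    (hb' : 0 ≤ b') (hF : 0 ≤ F) (hx : V.sum + b + b' ≤ ξ)
    (hξ : 2 * ξ + (Z.sum + m + a) ≤ κ + F) (C : ColX θ r κ ξ F Z m a) :
    ∀ κ' : ℝ, 0 ≤ κ' → κ' ≤ κ →
      r κ' (V + Z) (m + b) (a + b') + (κ - κ') / 3 ≤
        κ + (V.sum + Z.sum + (m + b) + (a + b')) + F := by
  have hV0 : 0 ≤ V.sum := Multiset.sum_nonneg hV
  have hZ0 : 0 ≤ Z.sum := Multiset.sum_nonneg hZ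
  have hs : (V + Z).sum = V.sum + Z.sum := Multiset.sum_add V Z
  have hok : Ok (V + Z) (m + b) (a + b') := by
    refine ⟨fun y hy => ?_, by linarith, by linarith⟩
    rcases Multiset.mem_add.1 hy with h | h
    · exact hV y h
    · exact hZ y h
  refine R.poisC κ (V + Z) (m + b) (a + b') (κ + (V.sum + Z.sum + (m + b) + (a + b')) + F) hκ
    hok (by rw [hs]; linarith) (by rw [hs]; linarith) ?_
  intro Y₁ m₁ a₁ i hY₁ hm0 hm1 ha0 ha1 hi hi'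
  obtain ⟨V', Z', rfl, hV', hZ'⟩ := hY₁.of_add
  have hVs := hV'.sum_le
  have hZs := hZ'.sum_le
  have hV0' := hV'.sum_nonneg
  have hZ0' := hZ'.sum_nonneg
  rw [Multiset.sum_add V' Z'] at hi' ⊢
  rw [hs]
  have hrest : m₁ - min b m₁ ≤ m := by
    rcases le_total b m₁ with h | h
    · rw [min_eq_left h]; linarith
    · rw [min_eq_right h]; linarith
  have hresta : a₁ - min b' a₁ ≤ a := by
    rcases le_total b' a₁ with h | h
    · rw [min_eq_left h]; linarith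
    · rw [min_eq_right h]; linarith
  have hmin := min_le_left b m₁
  have hmin' := min_le_right b m₁
  have hmin0 : 0 ≤ min b m₁ := le_min hb hm0
  have hmina := min_le_left b' a₁
  have hmina' := min_le_right b' a₁
  have hmina0 : 0 ≤ min b' a₁ := le_min hb' ha0
  have := level_xi R (κ := κ) (ξ := ξ) (F := F) (m := m₁) (a := a₁) (b := min b m₁)
    (b' := min b' a₁) hV'.nonneg hZ'.nonneg hmin0 hmin' hmina0 hmina' (by linarith)
    (by linarith) (by linarith) (C.mono hZ' hrest hresta) i hi (by linarith)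
  linarith

/-- remove lumps pointwise -/
theorem supV (R : ExpRules (7 / 8 + d) r s) {κ m a : ℝ} (hκ : 0 ≤ κ) (Y Z : Multiset ℝ)
    (hY : ∀ y ∈ Y, 0 ≤ y) (hZ : ∀ y ∈ Z, 0 ≤ y) (hm : 0 ≤ m) (ha : 0 ≤ a) :
    r κ (Z + Y) m a ≤ (7 / 4 + 2 * d) * Z.sum + r κ Y m a := by
  induction Z using Multiset.induction_on with
  | empty => simp
  | cons z Z ih =>
    have hz : 0 ≤ z := hZ z (Multiset.mem_cons_self z Z)
    have hZ' : ∀ y ∈ Z, 0 ≤ y := fun y hy => hZ y (Multiset.mem_cons_of_mem hy)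
    have h1 := R.supS κ z (Z + Y) m a hκ hz
      ⟨fun y hy => by
        rcases Multiset.mem_add.1 hy with h | h
        · exact hZ' y h
        · exact hY y h, hm, ha⟩
    have h2 := ih hZ'
    rw [Multiset.cons_add, Multiset.sum_cons]
    linarith

/-- **T6** (= T5iii of helper904): side `V + (Z + {y₁,y₂}) | m + b, a + b'` -/
theorem T6 (R : ExpRules (7 / 8 + d) r s) (hd : 0 ≤ d) {κ y₁ y₂ m b a b' : ℝ}
    {V Z : Multiset ℝ} (hκ : 0 ≤ κ) (h1 : 0 ≤ y₁) (h2 : 0 ≤ y₂) (hV : ∀ y ∈ V, 0 ≤ y)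
    (hZ : ∀ y ∈ Z, 0 ≤ y) (hm : 0 ≤ m) (hb : 0 ≤ b) (ha : 0 ≤ a) (hb' : 0 ≤ b')
    (hx : 2 * (V.sum + b + b') + (Z.sum + (y₁ + y₂) + m + a) ≤ κ)
    (hz : 2 * (Z.sum + (y₁ + y₂) + m + a) + 3 * Z.sum ≤ 2 * κ)
    (h59 : 9 * (Z.sum + (y₁ + y₂) + m + a) ≤ 5 * κ + 4 * (y₁ + y₂))
    (hA : 3 * (Z.sum + (y₁ + y₂) + m + a + a) ≤ 2 * κ + 5 * (y₁ + y₂)) :
    ∀ κ' : ℝ, 0 ≤ κ' → κ' ≤ κ →
      r κ' (V + (Z + {y₁, y₂})) (m + b) (a + b') + (κ - κ') / 3 ≤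
        κ + (V.sum + (Z.sum + (y₁ + y₂)) + (m + b) + (a + b')) + 2 * d * (Z.sum + m + a) := by
  have hZ0 : 0 ≤ Z.sum := Multiset.sum_nonneg hZ
  have hsum : (Z + {y₁, y₂}).sum = Z.sum + (y₁ + y₂) := by rw [Multiset.sum_add, sum_pair]
  have hF : 0 ≤ 2 * d * (Z.sum + m + a) := by positivity
  have hZy : ∀ y ∈ Z + {y₁, y₂}, 0 ≤ y := by
    intro y hy
    rcases Multiset.mem_add.1 hy with h | h
    · exact hZ y h
    · exact (ok_pair (m := 0) (a := 0) h1 h2 le_rfl le_rfl).1 y h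
  obtain ⟨ξ, hξ⟩ : ∃ ξ, ξ = (κ - (Z.sum + (y₁ + y₂) + m + a)) / 2 := ⟨_, rfl⟩
  have hC : ColX (7 / 8 + d) r κ ξ (2 * d * (Z.sum + m + a)) (Z + {y₁, y₂}) m a := by
    refine ⟨?_, ?_⟩
    · intro Y' m' a' i hY' hm0 hm1 ha0 ha1 hi hyi hii
      obtain ⟨Z', P, rfl, hZ', hP⟩ := hY'.of_add
      obtain ⟨c₁, c₂, rfl, hc1, hc1', hc2, hc2'⟩ := hP.pair
      have hZs := hZ'.sum_le
      have hZ0' := hZ'.sum_nonneg
      rw [Multiset.sum_add, sum_pair]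
      have hi1 : c₁ ≤ i := hyi c₁ (Multiset.mem_add.2 (Or.inr (by simp)))
      have hi2 : c₂ ≤ i := hyi c₂ (Multiset.mem_add.2 (Or.inr (by simp)))
      have e0 := supV R hi {c₁, c₂} Z' (ok_pair (m := 0) (a := 0) hc1 hc2 le_rfl le_rfl).1
        hZ'.nonneg hm0 ha0
      have e3 : 2 * d * (Z'.sum + (m' + a')) ≤ 2 * d * (Z.sum + m + a) :=
        mul_le_mul_of_nonneg_left (by linarith) (by linarith)
      rcases le_or_gt i (c₁ + c₂) with hks | hks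
      · have e1 := sup_all R hi hc1 hc2 hm0 ha0 hi1 hi2
        linarith
      · obtain ⟨e, he⟩ : ∃ e, e = max 0 (max (m' + a' - 7 / 9 * (i - (c₁ + c₂)))
          ((12 * a' + 9 * m' + 4 * (c₁ + c₂) - 8 * i) / 12)) := ⟨_, rfl⟩
        have he0 : 0 ≤ e := by rw [he]; exact le_max_left _ _
        have he1 : m' + a' - 7 / 9 * (i - (c₁ + c₂)) ≤ e := by
          rw [he]; exact (le_max_left _ _).trans (le_max_right _ _)
        have he2 : (12 * a' + 9 * m' + 4 * (c₁ + c₂) - 8 * i) / 12 ≤ e := by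
          rw [he]; exact (le_max_right _ _).trans (le_max_right _ _)
        have e1 := side79a R hd hc1 hc2 hm0 ha0 hks.le he0 he1 (by linarith) hi le_rfl hi1 hi2
        have e4 : 3 / 4 * e ≤ (2 * κ + i) / 3 - ξ - i - 3 / 4 * Z'.sum := by
          have : e ≤ 4 / 3 * ((2 * κ + i) / 3 - ξ - i - 3 / 4 * Z'.sum) := by
            rw [he]
            refine max_le ?_ (max_le ?_ ?_)
            · linarith
            · linarith
            · linarith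
          linarith
        linarith
    · intro Y' m' a' hY' hm0 hm1 ha0 ha1 _
      have hYs := hY'.sum_nonneg
      have e3 : 2 * d * m' ≤ 2 * d * (Z.sum + m + a) :=
        mul_le_mul_of_nonneg_left (by linarith) (by linarith)
      linarith
  have := side_xi R (κ := κ) (ξ := ξ) (m := m) (b := b) (a := a) (b' := b')
    (F := 2 * d * (Z.sum + m + a)) (V := V) (Z := Z + {y₁, y₂}) hκ hV hZy hm hb ha hb' hF
    (by linarith) (by rw [hsum]; linarith) hC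
  rw [hsum] at this
  exact this

end Crest.Agent.R017.SC777
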