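import Crest.Agent.R017.CovBig_954
import Crest.Agent.R017.SideD_777
import Crest.Agent.R017.NearG_911
import Crest.Agent.R017.R8Side_918
import Crest.Agent.R017.R8Ov_918

/-!
# Row 17, section D, R8: absolute closure at helper918's `Abs`, family `1`, short `V` (helper918)

* `bxC` : two-column Cauchy for the box functional
* `big56` : for `N > 5/6` everything closes absolutely
* `abs_one` : the box theorem at the `Abs` points with `27 |V| ≤ 8 (1 - M)`
-/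

set_option autoImplicit false

noncomputable section

namespace Crest.Agent.R017.R8C918

open Crest.Agent.R017.ER911 Crest.Agent.R017.Hull741 Crest.Agent.R017.Prov71
open Crest.Agent.R017.NG911 (T3N NAx NBx sideNx sideNx' big56x)

/-! ### the two-column Cauchy -/

lemma sum_rep_one {n : ℕ} (u : Fin n → ℝ) :
    ∑ j, Multiset.replicate 1 (u j) = Finset.univ.val.map u := by
  simp only [Multiset.replicate_one]
  show (Finset.univ.val.map fun j => ({u j} : Multiset ℝ)).sum = _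
  conv_rhs => rw [← Multiset.sum_map_singleton (Finset.univ.val.map u), Multiset.map_map]
  rfl

/-- **two columns** -/
theorem bxC {θ : ℝ} {rc bc : EF} (B : ExpBox θ rc bc) {κ m₁ m₂ a₁ a₂ E₁ E₂ : ℝ}
    {Y₁ Y₂ : Multiset ℝ} (hκ : 0 ≤ κ) (hY₁ : Ok Y₁ m₁ a₁) (hY₂ : Ok Y₂ m₂ a₂)
    (h₁ : rc κ Y₁ m₁ a₁ ≤ E₁) (h₂ : rc κ Y₂ m₂ a₂ ≤ E₂) :
    bc κ (Y₁ + Y₂) (m₁ + m₂) (a₁ + a₂) ≤ (E₁ + E₂) / 2 := by
  obtain ⟨l₁, rfl⟩ := Quot.exists_rep Y₁
  obtain ⟨l₂, rfl⟩ := Quot.exists_rep Y₂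
  set u : Fin (l₁.length + l₂.length) → ℝ := Fin.append l₁.get l₂.get with hu
  have e1 : Finset.univ.val.map l₁.get = (l₁ : Multiset ℝ) := by
    rw [Fin.univ_val_map, List.ofFn_get]
  have e2 : Finset.univ.val.map l₂.get = (l₂ : Multiset ℝ) := by
    rw [Fin.univ_val_map, List.ofFn_get]
  have eu : Finset.univ.val.map u = (l₁ : Multiset ℝ) + (l₂ : Multiset ℝ) := by
    rw [Fin.univ_val_map, hu, List.ofFn_fin_append, List.ofFn_get, List.ofFn_get]
    rfl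
  have hu0 : ∀ j, 0 ≤ u j := by
    intro j
    have : u j ∈ Finset.univ.val.map u := Multiset.mem_map.2 ⟨j, Finset.mem_univ_val j, rfl⟩
    rw [eu] at this
    rcases Multiset.mem_add.1 this with h | h
    · exact hY₁.1 _ h
    · exact hY₂.1 _ h
  have key := outer_hull B u κ (m₁ + m₂) (a₁ + a₂) hκ hu0 (add_nonneg hY₁.2.1 hY₂.2.1)
    (add_nonneg hY₁.2.2 hY₂.2.2) (M := 2) ![1 / 2, 1 / 2]
    (by intro q; fin_cases q <;> norm_num) (by simp; norm_num)
    ![Fin.append (fun _ => 1) (fun _ => 0), Fin.append (fun _ => 0) (fun _ => 1)]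
    ![m₁, m₂] ![a₁, a₂]
    (by intro q; fin_cases q <;> simp [hY₁.2.1, hY₂.2.1])
    (by intro q; fin_cases q <;> simp [hY₁.2.2, hY₂.2.2])
    ![E₁, E₂]
    (by
      intro q
      fin_cases q
      · show rc κ (∑ j, Multiset.replicate (Fin.append (fun _ => 1) (fun _ => 0) j) (u j)) m₁ a₁ ≤ E₁
        rw [Fin.sum_univ_add]
        simp only [hu, Fin.append_left, Fin.append_right, Multiset.replicate_zero,
          Finset.sum_const_zero, add_zero]
        rw [sum_rep_one, e1]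
        exact h₁
      · show rc κ (∑ j, Multiset.replicate (Fin.append (fun _ => 0) (fun _ => 1) j) (u j)) m₂ a₂ ≤ E₂
        rw [Fin.sum_univ_add]
        simp only [hu, Fin.append_left, Fin.append_right, Multiset.replicate_zero,
          Finset.sum_const_zero, zero_add]
        rw [sum_rep_one, e2]
        exact h₂)
    (by
      intro j
      refine Fin.addCases (fun i => ?_) (fun i => ?_) j <;>
        simp [Fin.sum_univ_two])
    (by simp [Fin.sum_univ_two]; linarith) (by simp [Fin.sum_univ_two]; linarith)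
  rw [eu] at key
  have hs : ∑ j, u j = ∑ i, l₁.get i + ∑ i, l₂.get i := by
    rw [Fin.sum_univ_add]
    simp [hu]
  have hn1 : ∑ j, ((Fin.append (fun _ => 1) (fun _ => 0) j : ℕ) : ℝ) * u j = ∑ i, l₁.get i := by
    rw [Fin.sum_univ_add]
    simp [hu]
  have hn2 : ∑ j, ((Fin.append (fun _ => 0) (fun _ => 1) j : ℕ) : ℝ) * u j = ∑ i, l₂.get i := by
    rw [Fin.sum_univ_add]
    simp [hu]
  rw [Fin.sum_univ_two, Fin.sum_univ_two] at key
  simp only [Matrix.cons_val_zero, Matrix.cons_val_one, Matrix.cons_val_fin_one] at key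
  rw [hn1, hn2, hs] at key
  refine key.trans (le_of_eq ?_)
  ring

/-! ### `N > 5/6` -/

/-- slack of the allowed loss, from the sum only -/
lemma Al_slack' {d r N M a c : ℝ} (hd : 0 ≤ d) (hs : 5 / 4 ≤ N + M)
    (hP : (N + M + a) + c ≤ 5 / 3 * r) (hr : r ≤ 3 / 2) :
    A0 r (N + M + a) c + 2 * d * (a + c) + 3 / 2 * d ≤ Al d r (N + M + a) c := by
  have hw : a + c ≤ 5 / 3 * r - 5 / 4 := by linarith
  have k1 : 2 * (a + c) + 3 / 2 ≤ 8 / 3 * r := by linarith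
  have k2 : 2 * (a + c) + 3 / 2 ≤ 2 * (N + M + a + c) - 2 / 3 * r := by linarith
  have m1 := mul_le_mul_of_nonneg_left k1 hd
  have m2 := mul_le_mul_of_nonneg_left k2 hd
  have h1 : 0 + 2 * d * (a + c) + 3 / 2 * d ≤ Al d r (N + M + a) c :=
    (by linarith : _ ≤ 8 / 3 * d * r).trans (le_max_left _ _)
  have h2 : (r / 2 - 1 + (N + M + a - c) / 2) + 2 * d * (a + c) + 3 / 2 * d ≤
      Al d r (N + M + a) c :=
    (by linarith : _ ≤ r * (8 / 3 * d + 1 / 2) - 1 + ((N + M + a) - c) / 2).trans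
      ((le_max_left _ _).trans (le_max_right _ _))
  have h3 : (5 / 12 * r - 5 / 3 + 3 / 4 * (N + M + a + c)) + 2 * d * (a + c) + 3 / 2 * d ≤
      Al d r (N + M + a) c :=
    (by linarith : _ ≤ r * (5 / 12 - 2 / 3 * d) - 5 / 3 + (3 / 4 + 2 * d) * ((N + M + a) + c)).trans
      ((le_max_right _ _).trans (le_max_right _ _))
  unfold A0
  rcases max_cases (0:ℝ) (max (r / 2 - 1 + (N + M + a - c) / 2)
    (5 / 12 * r - 5 / 3 + 3 / 4 * (N + M + a + c))) with ⟨e, _⟩ | ⟨e, _⟩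
  · rw [e]; exact h1
  · rw [e]
    rcases max_cases (r / 2 - 1 + (N + M + a - c) / 2)
      (5 / 12 * r - 5 / 3 + 3 / 4 * (N + M + a + c)) with ⟨e', _⟩ | ⟨e', _⟩
    · rw [e']; exact h2
    · rw [e']; exact h3

/-! ### the box theorem -/

lemma perm5 (y₁ y₂ y₃ y₄ y₅ : ℝ) (V : Multiset ℝ) :
    y₁ ::ₘ y₂ ::ₘ y₃ ::ₘ y₄ ::ₘ y₅ ::ₘ V = {y₃, y₄, y₅} + (V + {y₁, y₂}) := by
  have e1 : ({y₃, y₄, y₅} : Multiset ℝ) = {y₃} + ({y₄} + {y₅}) := rfl
  have e2 : ({y₁, y₂} : Multiset ℝ) = {y₁} + {y₂} := rfl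
  rw [e1, e2]
  simp only [← Multiset.singleton_add]
  abel

/-- **the box theorem at the `Abs` points**, family `1`, short `V` -/
theorem abs_one {d : ℝ} {r s s₀ rc bc : EF} (P : ProvE (7 / 8 + d) r s s₀ rc bc) (hd : 0 ≤ d)
    (hd8 : d ≤ 1 / 8) {μ ρ y₁ y₂ y₃ y₄ y₅ m a : ℝ} {V : Multiset ℝ} (h12 : y₂ ≤ y₁)
    (h23 : y₃ ≤ y₂) (h34 : y₄ ≤ y₃) (h45 : y₅ ≤ y₄) (h5 : 0 ≤ y₅) (hV : ∀ v ∈ V, 0 ≤ v)
    (hm : 0 ≤ m) (ha : 0 ≤ a) (hμ : μ ≤ 1 / 100)
    (B : Box5o μ ρ (y₃ + y₄ + y₅) (y₁ + y₂) y₅ (V.sum + m) a)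
    (hA : Abs (y₃ + y₄ + y₅) (y₁ + y₂) y₅ (V.sum + m) a (2 * d * (V.sum + m + a))
      (Al d ρ (y₃ + y₄ + y₅ + (y₁ + y₂) + (V.sum + m)) a - 7 / 8 * d))
    (hVs : 27 * V.sum ≤ 8 * (1 - (y₁ + y₂))) :
    bc 1 (y₁ ::ₘ y₂ ::ₘ y₃ ::ₘ y₄ ::ₘ y₅ ::ₘ V) m a ≤
      1 + ((y₃ + y₄ + y₅ + (y₁ + y₂) + (V.sum + m)) + a +
        (Al d ρ (y₃ + y₄ + y₅ + (y₁ + y₂) + (V.sum + m)) a - 1 / 4 * d)) / 2 := by
  have hNG : T3N (7 / 8 + d) r := P.rem.t3n
  have hV0 : 0 ≤ V.sum := Multiset.sum_nonneg hV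
  obtain ⟨bu, bMN, bsig, ba, bc', br1, br2, bD, bP, bcr⟩ := B
  have h4 : 0 ≤ y₄ := h5.trans h45
  have h3 : 0 ≤ y₃ := h4.trans h34
  have h2 : 0 ≤ y₂ := h3.trans h23
  have h1 : 0 ≤ y₁ := h2.trans h12
  set N := y₃ + y₄ + y₅ with hN
  set M := y₁ + y₂ with hM
  have hM1 : M ≤ 1 := by linarith
  have hdu : d * y₅ ≤ d * (3 / 10) := mul_le_mul_of_nonneg_left (by linarith) hd
  -- two columns with total loss `L₁ + L₂`
  have two : ∀ x L₁ L₂ : ℝ, 0 ≤ x → x ≤ a →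
      (∀ κ' : ℝ, 0 ≤ κ' → κ' ≤ 1 → r κ' {y₃, y₄, y₅} 0 x + (1 - κ') / 3 ≤ 1 + (N + x) + L₁) →
      (∀ κ' : ℝ, 0 ≤ κ' → κ' ≤ 1 → r κ' (V + {y₁, y₂}) m (a - x) + (1 - κ') / 3 ≤
        1 + (V.sum + y₁ + y₂ + m + (a - x)) + L₂) →
      L₁ + L₂ ≤ Al d ρ (N + M + (V.sum + m)) a - 1 / 4 * d →
      bc 1 (y₁ ::ₘ y₂ ::ₘ y₃ ::ₘ y₄ ::ₘ y₅ ::ₘ V) m a ≤
        1 + ((N + M + (V.sum + m)) + a + (Al d ρ (N + M + (V.sum + m)) a - 1 / 4 * d)) / 2 := by
    intro x L₁ L₂ hx0 hxa hL1 hL2 hL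
    have ok1 : Ok {y₃, y₄, y₅} 0 x := by
      refine ⟨fun y hy => ?_, le_rfl, hx0⟩
      simp only [Multiset.insert_eq_cons, Multiset.mem_cons, Multiset.mem_singleton] at hy
      rcases hy with rfl | rfl | rfl <;> assumption
    have ok2 : Ok (V + {y₁, y₂}) m (a - x) := by
      refine ⟨fun y hy => ?_, hm, by linarith⟩
      rcases Multiset.mem_add.1 hy with h | h
      · exact hV y h
      · simp only [Multiset.insert_eq_cons, Multiset.mem_cons, Multiset.mem_singleton] at h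
        rcases h with rfl | rfl <;> assumption
    have c1 := P.cpl.le 1 _ _ _ _ zero_le_one ok1 hL1
    have c2 := P.cpl.le 1 _ _ _ _ zero_le_one ok2 hL2
    have := bxC P.box zero_le_one ok1 ok2 c1 c2
    rw [← perm5, zero_add, add_sub_cancel] at this
    refine this.trans ?_
    linarith
  rcases le_or_gt N (5 / 6) with hN56 | hN56
  · obtain ⟨x, ⟨hx0, hxc, hx⟩, hLA⟩ := hA
    have hx9 : 9 * x ≤ 1 := by
      rcases hx with h | h <;> linarith
    set l := max 0 (max (5 / 4 * N - 1) (N + y₅ - 1)) / 3 with hl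
    have hl0 : 0 ≤ l := div_nonneg (le_max_left _ _) (by norm_num)
    have hl1 : N + y₅ - 1 ≤ 3 * l := by
      rw [hl]; linarith [(le_max_right (5 / 4 * N - 1) (N + y₅ - 1)).trans (le_max_right 0 _)]
    have hl2 : 5 / 4 * N - 1 ≤ 3 * l := by
      rw [hl]; linarith [(le_max_left (5 / 4 * N - 1) (N + y₅ - 1)).trans (le_max_right 0 _)]
    have hNA : NAx y₃ y₄ y₅ (0 + x) l := by
      refine ⟨h5, by linarith, h45, ?_, by linarith, by linarith, hl0, by linarith, by linarith⟩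
      rcases hx with h | h
      · left; linarith
      · right; linarith
    have s1 := sideNx hNG (m := 0) (a := x) le_rfl hx0 hNA
    have s2 := fun κ' (k0 : 0 ≤ κ') (k1 : κ' ≤ 1) => sideE P.rules hd (κ := 1) (a := a - x) h1 h2 hm
      (by linarith) hV hM1 hVs (by linarith) k0 k1
    refine two x (l + 2 * d * (y₅ + (0 + x))) (2 * d * (V.sum + m + (a - x)) +
      3 / 4 * max 0 (V.sum + m + (a - x) - 7 / 9 * (1 - M))) hx0 hxc
      (fun κ' k0 k1 => by have := s1 κ' k0 k1; linarith)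
      (fun κ' k0 k1 => by have := s2 κ' k0 k1; linarith) ?_
    unfold LA at hLA
    have e : V.sum + m + (a - x) = V.sum + m + a - x := by ring
    rw [e]
    linarith
  · have hb := big56x bu bMN hN56.le ba ha br1 br2 bD bP bcr
    have hsl := Al_slack' (N := N) (M := M) hd (by linarith) bP (by linarith)
    set l := (max (4 / 3 * N) (18 / 5 * N - 2) - 1) / 3 with hl
    have hl1 : 4 / 3 * N ≤ 1 + 3 * l := by
      rw [hl]; linarith [le_max_left (4 / 3 * N) (18 / 5 * N - 2)]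
    have hl2 : 18 / 5 * N - 2 ≤ 1 + 3 * l := by
      rw [hl]; linarith [le_max_right (4 / 3 * N) (18 / 5 * N - 2)]
    have hNB : NBx y₃ y₄ y₅ l := by
      refine ⟨h5, by linarith, h45, by linarith, by linarith, by linarith, by linarith,
        by linarith⟩
    have s1 := sideNx' hNG hNB
    have s2 := fun κ' (k0 : 0 ≤ κ') (k1 : κ' ≤ 1) => sideE P.rules hd (κ := 1) (a := a) h1 h2 hm
      ha hV hM1 hVs (by linarith) k0 k1
    refine two 0 (l + 2 * d * y₅) (2 * d * (V.sum + m + a) +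
      3 / 4 * max 0 (V.sum + m + a - 7 / 9 * (1 - M))) le_rfl ha
      (fun κ' k0 k1 => by have := s1 κ' k0 k1; linarith)
      (fun κ' k0 k1 => by
        have := s2 κ' k0 k1
        rw [sub_zero]
        linarith) ?_
    linarith

end Crest.Agent.R017.R8C918
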