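import Crest.Agent.R017.Cone_59

/-!
# Row 17, section D: the whole cone at `g = 1/3`, amplifier mass separate (helper59)

A box at family `H` (exponents in base `H`): smooth pieces of sum `s`, Möbius granular mass `m`,
amplifier mass `a`, `L = s + m + a`. Base `K₀`: `h, q, c` with `h L = q + c`, `c = h a`,
`c ≤ 1/3`, `q + c ≤ 5/3`, `q - c ≤ 1`, `h ≤ 1`.

* `le_target2` : loss `≤ Al2 - μ` implies the target with room `h μ / 2`
* `red` : SUP reduces (fractionally) every `(s, m, a)` to the core domain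
  `s' ≤ 4/3`, `L' ≤ 5/3`, `a' ≤ 4/3 - 3/5 L'` with a cost `≤ Al2 - a2`
-/

set_option autoImplicit false

noncomputable section

namespace Crest.Agent.R017.Cone59

/-- `2 a₀` at `g = 1/3` -/
def b2 (θ : ℝ) : ℝ := 8 / 3 * θ - 7 / 3

/-- lower bound for `1/h` -/
def r2 (L a : ℝ) : ℝ := max 1 (max (3 * a) (max (3 / 5 * L) (L - 2 * a)))

/-- allowed loss -/
def Al2 (θ L a : ℝ) : ℝ :=
  max (b2 θ * r2 L a) (max (b2 θ * r2 L a + (L - 2 * a) - 1)
    ((1 - 2 / 3 * θ) * r2 L a - 5 / 3 + (2 * θ - 1) * L))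

/-- target exponent at `g = 1/3` (`= Tg θ (1/3) h q c`) -/
def Tg2 (θ h q c : ℝ) : ℝ :=
  (2 / 3 + θ * (4 / 3)) + max ((h - 1) + (q - 4 / 3) / 2 + (c - 1 / 3) / 2)
    (max ((h - 1) / 2 + 3 / 4 * (q - 4 / 3) + 1 / 4 * (c - 1 / 3))
      ((h - 1) / 6 + θ * (q - 4 / 3) + θ * (c - 1 / 3)))

lemma one_le_r2 (L a : ℝ) : 1 ≤ r2 L a := le_max_left _ _

lemma r2_a (L a : ℝ) : 3 * a ≤ r2 L a := (le_max_left _ _).trans (le_max_right _ _)

lemma r2_L (L a : ℝ) : 3 / 5 * L ≤ r2 L a :=
  (le_max_left _ _).trans ((le_max_right _ _).trans (le_max_right _ _))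

lemma r2_q (L a : ℝ) : L - 2 * a ≤ r2 L a :=
  (le_max_right _ _).trans ((le_max_right _ _).trans (le_max_right _ _))

lemma Tg2_eq (θ h q c : ℝ) : Tg2 θ h q c = Tg θ (1 / 3) h q c := by
  unfold Tg2 Tg
  norm_num

/-- **all families from the rescaled one.** -/
theorem le_target2 {θ h q c L a e μ : ℝ} (hθ : 7 / 8 ≤ θ) (hθ1 : θ ≤ 1) (h0 : 0 < h) (hh : h ≤ 1)
    (hL : h * L = q + c) (ha : h * a = c) (hc : c ≤ 1 / 3) (hfull : q + c ≤ 5 / 3)
    (hqc : q - c ≤ 1) (he : e ≤ Al2 θ L a - μ) :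
    h + (q + c) / 2 + h * e / 2 + h * μ / 2 ≤ Tg2 θ h q c := by
  have hb : 0 ≤ b2 θ := by unfold b2; linarith
  have hk : 0 ≤ 1 - 2 / 3 * θ := by linarith
  have hr : h * r2 L a ≤ 1 := by
    unfold r2
    rw [mul_max_of_nonneg _ _ h0.le, mul_max_of_nonneg _ _ h0.le, mul_max_of_nonneg _ _ h0.le]
    refine max_le (by linarith) (max_le ?_ (max_le ?_ ?_)) <;> nlinarith
  have hq2 : h * (L - 2 * a) = q - c := by nlinarith
  set r := r2 L a with hrdef
  have hA : h * (e + μ) ≤ h * Al2 θ L a := mul_le_mul_of_nonneg_left (by linarith) h0.le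
  have t1 : (2 / 3 + θ * (4 / 3)) + ((h - 1) + (q - 4 / 3) / 2 + (c - 1 / 3) / 2) ≤
      Tg2 θ h q c := by unfold Tg2; gcongr; exact le_max_left _ _
  have t2 : (2 / 3 + θ * (4 / 3)) +
      ((h - 1) / 2 + 3 / 4 * (q - 4 / 3) + 1 / 4 * (c - 1 / 3)) ≤ Tg2 θ h q c := by
    unfold Tg2; gcongr; exact (le_max_left _ _).trans (le_max_right _ _)
  have t3 : (2 / 3 + θ * (4 / 3)) +
      ((h - 1) / 6 + θ * (q - 4 / 3) + θ * (c - 1 / 3)) ≤ Tg2 θ h q c := by
    unfold Tg2; gcongr; exact (le_max_right _ _).trans (le_max_right _ _)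
  have hgoal : h * Al2 θ L a ≤ 2 * Tg2 θ h q c - 2 * h - (q + c) := by
    unfold Al2
    rw [mul_max_of_nonneg _ _ h0.le, mul_max_of_nonneg _ _ h0.le]
    have e0 : h * (b2 θ * r) ≤ b2 θ := by
      calc h * (b2 θ * r) = b2 θ * (h * r) := by ring
        _ ≤ b2 θ * 1 := mul_le_mul_of_nonneg_left hr hb
        _ = b2 θ := mul_one _
    have e1 : h * ((1 - 2 / 3 * θ) * r) ≤ 1 - 2 / 3 * θ := by
      calc h * ((1 - 2 / 3 * θ) * r) = (1 - 2 / 3 * θ) * (h * r) := by ring
        _ ≤ (1 - 2 / 3 * θ) * 1 := mul_le_mul_of_nonneg_left hr hk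
        _ = _ := mul_one _
    refine max_le ?_ (max_le ?_ ?_)
    · refine e0.trans ?_
      unfold b2; nlinarith
    · have e2 : h * (b2 θ * r + (L - 2 * a) - 1) ≤ b2 θ + (q - c) - h := by nlinarith
      refine e2.trans ?_
      unfold b2; nlinarith
    · have e3 : h * ((1 - 2 / 3 * θ) * r - 5 / 3 + (2 * θ - 1) * L) ≤
          (1 - 2 / 3 * θ) - 5 / 3 * h + (2 * θ - 1) * (q + c) := by nlinarith
      refine e3.trans ?_
      nlinarith
  nlinarith

lemma b2_le_Al2 {θ : ℝ} (L a : ℝ) (hθ : 7 / 8 ≤ θ) : b2 θ ≤ Al2 θ L a := by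
  have hb : 0 ≤ b2 θ := by unfold b2; linarith
  refine le_trans ?_ (le_max_left _ _)
  have := mul_le_mul_of_nonneg_left (one_le_r2 L a) hb
  linarith

/-- **reduction to the core domain by (fractional) SUP** -/
theorem red {θ s m a : ℝ} (hθ : 7 / 8 ≤ θ) (hθ1 : θ ≤ 1) (hs : 0 ≤ s) (hm : 0 ≤ m) (ha : 0 ≤ a) :
    ∃ s' m' a' : ℝ, 0 ≤ s' ∧ s' ≤ s ∧ 0 ≤ m' ∧ m' ≤ m ∧ 0 ≤ a' ∧ a' ≤ a ∧
      s' ≤ 4 / 3 ∧ (s ≤ 4 / 3 → s' = s) ∧ s' + m' + a' ≤ 5 / 3 ∧
      a' ≤ 4 / 3 - 3 / 5 * (s' + m' + a') ∧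
      b2 θ + (2 * θ - 1) * ((s + m + a) - (s' + m' + a')) ≤ Al2 θ (s + m + a) a := by
  have hb : 0 ≤ b2 θ := by unfold b2; linarith
  have hk : 0 ≤ 1 - 2 / 3 * θ := by linarith
  have hsp : 0 ≤ 2 * θ - 1 := by linarith
  set L := s + m + a with hL
  have r1 := one_le_r2 L a
  have ra := r2_a L a
  have rL := r2_L L a
  have rq := r2_q L a
  have A1 : b2 θ * r2 L a ≤ Al2 θ L a := le_max_left _ _
  have A2 : b2 θ * r2 L a + (L - 2 * a) - 1 ≤ Al2 θ L a :=
    (le_max_left _ _).trans (le_max_right _ _)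
  have A3 : (1 - 2 / 3 * θ) * r2 L a - 5 / 3 + (2 * θ - 1) * L ≤ Al2 θ L a :=
    (le_max_right _ _).trans (le_max_right _ _)
  have b1 : b2 θ ≤ b2 θ * r2 L a := by
    have := mul_le_mul_of_nonneg_left r1 hb
    linarith
  have k1 : (1 - 2 / 3 * θ) ≤ (1 - 2 / 3 * θ) * r2 L a := by
    have := mul_le_mul_of_nonneg_left r1 hk
    linarith
  -- `A3` in the form `b2 + (2θ-1)(L - 5/3) ≤ Al2`
  have A3' : b2 θ + (2 * θ - 1) * (L - 5 / 3) ≤ Al2 θ L a := by
    refine le_trans ?_ A3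
    unfold b2; nlinarith
  by_cases hbig : 5 / 3 ≤ min s (4 / 3) + min a (1 / 3) + m
  · -- everything can be cut to `5/3`
    refine ⟨min s (4 / 3), 5 / 3 - min s (4 / 3) - min a (1 / 3), min a (1 / 3), ?_, ?_, ?_, ?_,
      ?_, ?_, ?_, ?_, ?_, ?_, ?_⟩
    · exact le_min hs (by norm_num)
    · exact min_le_left _ _
    · have := min_le_right s (4 / 3); have := min_le_right a (1 / 3); linarith
    · linarith
    · exact le_min ha (by norm_num)
    · exact min_le_left _ _
    · exact min_le_right _ _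
    · intro h; exact min_eq_left h
    · linarith
    · have := min_le_right a (1 / 3); linarith
    · refine le_trans (le_of_eq ?_) A3'
      ring
  · push Not at hbig
    rcases le_total s (4 / 3) with hs4 | hs4
    · rw [min_eq_left hs4] at hbig
      -- only the amplifier
      by_cases hcore : a ≤ 4 / 3 - 3 / 5 * L ∧ L ≤ 5 / 3
      · refine ⟨s, m, a, hs, le_rfl, hm, le_rfl, ha, le_rfl, hs4, fun _ => rfl, ?_, ?_, ?_⟩
        · exact hcore.2
        · exact hcore.1
        · have := b2_le_Al2 L a hθ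
          rw [← hL]; simpa using this
      · -- `a > 1/3`
        have ha3 : 1 / 3 < a := by
          by_contra hcon
          push Not at hcon
          rw [min_eq_left hcon] at hbig
          exact hcore ⟨by linarith, by linarith⟩
        rw [min_eq_right ha3.le] at hbig
        have hy : 0 < a - (4 / 3 - 3 / 5 * L) := by
          by_contra hcon
          push Not at hcon
          refine hcore ⟨by linarith, ?_⟩
          by_contra h2
          push Not at h2
          linarith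
        -- remove `y = 5/8 (a - 4/3 + 3/5 L)`
        set y := 5 / 8 * (a - (4 / 3 - 3 / 5 * L)) with hyd
        have hyle : y ≤ a := by rw [hyd]; nlinarith
        refine ⟨s, m, a - y, hs, le_rfl, hm, le_rfl, by linarith, by linarith, hs4,
          fun _ => rfl, ?_, ?_, ?_⟩
        · have : s + m + (a - y) = L - y := by rw [hL]; ring
          rw [this, hyd]; nlinarith
        · have : s + m + (a - y) = L - y := by rw [hL]; ring
          rw [this]
          have : a - y - (4 / 3 - 3 / 5 * (L - y)) = 0 := by rw [hyd]; ring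
          linarith
        · have e1 : L - (s + m + (a - y)) = y := by rw [hL]; ring
          rw [e1]
          -- two lower bounds for `Al2 - b2`
          have c1 : b2 θ + b2 θ * (3 * a - 1) ≤ Al2 θ L a := by
            have := mul_le_mul_of_nonneg_left ra hb
            linarith
          have c3 : b2 θ + (1 - 2 / 3 * θ) * (3 * a - 1) + (2 * θ - 1) * (L - 5 / 3) ≤
              Al2 θ L a := by
            have := mul_le_mul_of_nonneg_left ra hk
            have e : (1 - 2 / 3 * θ) * (3 * a) - 5 / 3 + (2 * θ - 1) * L =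
              b2 θ + (1 - 2 / 3 * θ) * (3 * a - 1) + (2 * θ - 1) * (L - 5 / 3) := by
              unfold b2; ring
            linarith
          rw [hyd]
          unfold b2 at c1 c3 ⊢
          by_contra hcon
          push Not at hcon
          have d1 := lt_of_le_of_lt c1 hcon
          have d3 := lt_of_le_of_lt c3 hcon
          -- x = a - 1/3 > 0, t = 5/3 - L
          nlinarith [mul_pos (sub_pos.2 ha3) (sub_pos.2 ha3),
            mul_nonneg (sub_nonneg.2 hθ) (sub_nonneg.2 hθ1),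
            mul_nonneg (sub_nonneg.2 hθ) (sub_pos.2 ha3).le, mul_nonneg (sub_nonneg.2 hθ1) (sub_pos.2 ha3).le]
    · rw [min_eq_right hs4] at hbig
      have ha3 : a ≤ 1 / 3 := by
        by_contra hcon
        push Not at hcon
        rw [min_eq_right hcon.le] at hbig
        linarith
      rw [min_eq_left ha3] at hbig
      refine ⟨4 / 3, m, a, by norm_num, hs4, hm, le_rfl, ha, le_rfl, le_rfl, ?_, ?_, ?_, ?_⟩
      · intro h; linarith
      · linarith
      · linarith
      · refine le_trans ?_ A2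
        have e1 : L - (4 / 3 + m + a) = s - 4 / 3 := by rw [hL]; ring
        rw [e1]
        nlinarith
end Crest.Agent.R017.Cone59
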