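import Crest.Agent.R017.R8Ov_918
import Crest.Agent.R017.Cone2_59

/-!
# Row 17, section D, R8: the budget (helper918)

* `Al_Tg` : the allowed two-sided loss is `2 Tg2 / h - 2 - (q + c)` exactly (base `H`)
* `LSe` : loss of the exact square with a twist `e` (`p ∣ e → p⁵ ∣ e`,
  `log nm e ≤ r - (q - c)` in base `H`, conductor `2 log rad e ≤ (2/5) (r - (q - c))`)
* `certE0` : `cert0'` of helper70 with `LSe`
-/

set_option autoImplicit false

noncomputable section

namespace Crest.Agent.R017.R8C918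

open Crest.Agent.R017.R8T70 Crest.Agent.R017.Cone59

/-- the allowed loss is exactly the target -/
theorem Al_Tg {d h q c : ℝ} (h0 : 0 < h) :
    h * Al d (1 / h) (q / h) (c / h) = 2 * Tg2 (7 / 8 + d) h q c - 2 * h - (q + c) := by
  have two : ∀ K A B C : ℝ, 2 * (K + max A (max B C)) =
      2 * K + max (2 * A) (max (2 * B) (2 * C)) := by
    intro K A B C
    rw [mul_add, mul_max_of_nonneg _ _ (by norm_num : (0:ℝ) ≤ 2),
      mul_max_of_nonneg _ _ (by norm_num : (0:ℝ) ≤ 2)]
  have k : ∀ a b c' A B C K : ℝ, a = K + A → b = K + B → c' = K + C →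
      max a (max b c') = K + max A (max B C) := by
    intro a b c' A B C K ha hb hc
    rw [ha, hb, hc, max_add_add_left, max_add_add_left]
  unfold Al Tg2
  rw [mul_max_of_nonneg _ _ h0.le, mul_max_of_nonneg _ _ h0.le, two]
  have e1 : h * (8 / 3 * d * (1 / h)) = 8 / 3 * d := by field_simp
  have e2 : h * (1 / h * (8 / 3 * d + 1 / 2) - 1 + (q / h - c / h) / 2) =
      8 / 3 * d + 1 / 2 - h + (q - c) / 2 := by field_simp
  have e3 : h * (1 / h * (5 / 12 - 2 / 3 * d) - 5 / 3 + (3 / 4 + 2 * d) * (q / h + c / h)) =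
      5 / 12 - 2 / 3 * d - 5 / 3 * h + (3 / 4 + 2 * d) * (q + c) := by field_simp
  rw [e1, e2, e3]
  rw [k _ _ _ (2 * (h - 1 + (q - 4 / 3) / 2 + (c - 1 / 3) / 2))
    (2 * ((h - 1) / 2 + 3 / 4 * (q - 4 / 3) + 1 / 4 * (c - 1 / 3)))
    (2 * ((h - 1) / 6 + (7 / 8 + d) * (q - 4 / 3) + (7 / 8 + d) * (c - 1 / 3)))
    (2 * (2 / 3 + (7 / 8 + d) * (4 / 3)) - 2 * h - (q + c)) (by ring) (by ring) (by ring)]
  ring

/-- conductor of the twist included -/
def rhoE (r N M a c : ℝ) : ℝ :=
  2 * (N + M + a) + c - 3 + 2 / 5 * (r - (N + M + a) + c)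

/-- loss of the exact square with the twist -/
def LSe (r N M a c x : ℝ) : ℝ :=
  3 / 4 * max 0 (a + c - x - 7 / 9 * (1 - M)) +
    max 0 (max (5 / 4 * N - 1) (rhoE r N M a c)) / 3

lemma LS_le_LSe {r N M a c x : ℝ} (h : (N + M + a) - c ≤ r) : LS N M a c x ≤ LSe r N M a c x := by
  unfold LS LSe rhoE
  have h2 : max 0 (max (5 / 4 * N - 1) (2 * (N + M + a) + c - 3)) ≤
      max 0 (max (5 / 4 * N - 1) (2 * (N + M + a) + c - 3 + 2 / 5 * (r - (N + M + a) + c))) :=
    max_le_max le_rfl (max_le_max le_rfl (by linarith))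
  linarith

lemma rhoE_le {r N M u a c : ℝ} (B : Box5 r N M u a c) :
    max 0 (rhoE r N M a c) / 3 ≤ A0 r (N + M + a) c := by
  rcases le_total (rhoE r N M a c) 0 with h | h
  · rw [max_eq_left h]; simpa using A0_nonneg _ _ _
  · rw [max_eq_right h]
    refine A0_ge fun ⟨h0, h1, h2⟩ => ?_
    unfold rhoE at *
    linarith [B.r1]

/-- as `alt'`, with the twist -/
lemma altE {r N M u a c x E : ℝ} (hx : Adm N c x) (hn : x = 0 ∨ x ≤ a + c - 7 / 9 * (1 - M))
    (hE : 3 / 4 * max 0 (a + c - x - 7 / 9 * (1 - M)) ≤ E)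
    (h : A0 r (N + M + a) c < E + max 0 (max (5 / 4 * N - 1) (N + u - 1)) / 3 →
      r ≤ 31 / 28 ∧ a ≤ 1 / 12 ∧
        E + max 0 (max (5 / 4 * N - 1) (rhoE r N M a c)) / 3 ≤ A0 r (N + M + a) c) :
    Abs N M u a c 0 (A0 r (N + M + a) c) ∨
      (r ≤ 31 / 28 ∧ a ≤ 1 / 12 ∧ ∃ x, Adm N c x ∧ (x = 0 ∨ x ≤ a + c - 7 / 9 * (1 - M)) ∧
        A0 r (N + M + a) c < 3 / 4 * max 0 (a + c - x - 7 / 9 * (1 - M)) +
          max 0 (max (5 / 4 * N - 1) (N + u - 1)) / 3 ∧
        LSe r N M a c x ≤ A0 r (N + M + a) c) := by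
  rcases le_or_gt (3 / 4 * max 0 (a + c - x - 7 / 9 * (1 - M)) +
      max 0 (max (5 / 4 * N - 1) (N + u - 1)) / 3) (A0 r (N + M + a) c) with h1 | h1
  · left
    exact ⟨x, hx, by unfold LA; linarith⟩
  · right
    obtain ⟨h2, h3, h4⟩ := h (by linarith)
    exact ⟨h2, h3, x, hx, hn, h1, by unfold LSe; linarith⟩

/-- `cert0'` of helper70 with the twist -/
theorem certE0 {r N M u a c : ℝ} (B : Box5 r N M u a c) :
    Abs N M u a c 0 (A0 r (N + M + a) c) ∨
      (r ≤ 31 / 28 ∧ a ≤ 1 / 12 ∧ ∃ x, Adm N c x ∧ (x = 0 ∨ x ≤ a + c - 7 / 9 * (1 - M)) ∧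
        A0 r (N + M + a) c < 3 / 4 * max 0 (a + c - x - 7 / 9 * (1 - M)) +
          max 0 (max (5 / 4 * N - 1) (N + u - 1)) / 3 ∧
        LSe r N M a c x ≤ A0 r (N + M + a) c) := by
  obtain ⟨hu, hMN, hM1, hs, ha, hc, hr, hD, hP, hcr⟩ := B
  have hB : Box5 r N M u a c := ⟨hu, hMN, hM1, hs, ha, hc, hr, hD, hP, hcr⟩
  have hρ := rhoE_le hB
  rcases le_or_gt N (4 / 5) with hN | hN
  · -- `N ≤ 4/5`
    have m1 : max 0 (max (5 / 4 * N - 1) (N + u - 1)) = N + u - 1 := by
      rw [max_eq_right (by linarith : 5 / 4 * N - 1 ≤ N + u - 1), max_eq_right (by linarith)]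
    have m2 : max 0 (max (5 / 4 * N - 1) (rhoE r N M a c)) ≤ max 0 (rhoE r N M a c) :=
      max_le (le_max_left _ _) (max_le ((by linarith : 5 / 4 * N - 1 ≤ 0).trans
        (le_max_left _ _)) (le_max_right _ _))
    rcases le_or_gt (a + c - 7 / 9 * (1 - M)) 0 with hn | hn
    · -- nothing to move
      refine altE (x := 0) (E := 0) ⟨le_rfl, hc, Or.inl rfl⟩ (Or.inl rfl)
        (by rw [max_eq_left (by linarith)]; simp) fun h => ?_
      rw [m1] at h
      obtain ⟨h0, h1, h2⟩ := A0_lt h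
      exact ⟨by linarith, by linarith, by linarith⟩
    · rcases le_or_gt (a + c - 7 / 9 * (1 - M)) (min c (4 / 5 - N)) with hm | hm
      · have hm1 := hm.trans (min_le_left _ _)
        have hm2 := hm.trans (min_le_right _ _)
        refine altE (x := a + c - 7 / 9 * (1 - M)) (E := 0) ⟨hn.le, hm1, Or.inr (by linarith)⟩
          (Or.inr le_rfl)
          (by rw [max_eq_left (by linarith)]; simp) fun h => ?_
        rw [m1] at h
        obtain ⟨h0, h1, h2⟩ := A0_lt h
        exact ⟨by linarith, by linarith, by linarith⟩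
      · rcases le_total c (4 / 5 - N) with hcN | hcN
        · rw [min_eq_left hcN] at hm
          refine altE (x := c) (E := 3 / 4 * (a - 7 / 9 * (1 - M)))
            ⟨hc, le_rfl, Or.inr (by linarith)⟩ (Or.inr (by linarith))
            (by rw [max_eq_right (by linarith)]; linarith) fun h => ?_
          rw [m1] at h
          obtain ⟨h0, h1, h2⟩ := A0_lt h
          exfalso
          linarith
        · rw [min_eq_right hcN] at hm
          refine altE (x := 4 / 5 - N) (E := 3 / 4 * (a + c - (4 / 5 - N) - 7 / 9 * (1 - M)))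
            ⟨by linarith, hcN, Or.inr (by linarith)⟩ (Or.inr (by linarith))
            (by rw [max_eq_right (by linarith)]) fun h => ?_
          rw [m1] at h
          obtain ⟨h0, h1, h2⟩ := A0_lt h
          refine ⟨by linarith, by linarith, ?_⟩
          rcases le_total (rhoE r N M a c) 0 with h' | h'
          · rw [max_eq_left h'] at m2
            refine A0_ge fun ⟨k0, k1, k2⟩ => ?_
            linarith
          · rw [max_eq_right h'] at m2
            refine A0_ge fun ⟨k0, k1, k2⟩ => ?_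
            unfold rhoE at *
            linarith
  · -- `N > 4/5`
    have hx : Adm N c 0 := ⟨le_rfl, hc, Or.inl rfl⟩
    have m2 : max 0 (max (5 / 4 * N - 1) (rhoE r N M a c)) =
        max (5 / 4 * N - 1) (rhoE r N M a c) :=
      max_eq_right ((by linarith : 0 ≤ 5 / 4 * N - 1).trans (le_max_left _ _))
    have m1 : max 0 (max (5 / 4 * N - 1) (N + u - 1)) =
        max (5 / 4 * N - 1) (N + u - 1) :=
      max_eq_right ((by linarith : 0 ≤ 5 / 4 * N - 1).trans (le_max_left _ _))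
    rcases le_or_gt (a + c - 7 / 9 * (1 - M)) 0 with hn | hn
    · refine altE (x := 0) (E := 0) hx (Or.inl rfl)
        (by rw [max_eq_left (by linarith)]; simp) fun h => ?_
      rw [m1] at h
      rw [m2]
      obtain ⟨h0, h1, h2⟩ := A0_lt h
      have e1 : max (5 / 4 * N - 1) (N + u - 1) ≤ 4 / 3 * N - 1 :=
        max_le (by linarith) (by linarith)
      refine ⟨by linarith, by linarith, ?_⟩
      rcases le_total (5 / 4 * N - 1) (rhoE r N M a c) with h' | h'
      · rw [max_eq_right h']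
        refine A0_ge fun ⟨k0, k1, k2⟩ => ?_
        unfold rhoE at *
        linarith
      · rw [max_eq_left h']
        refine A0_ge fun ⟨k0, k1, k2⟩ => ?_
        linarith
    · refine altE (x := 0) (E := 3 / 4 * (a + c - 7 / 9 * (1 - M))) hx (Or.inl rfl)
        (by rw [max_eq_right (by linarith)]; linarith) fun h => ?_
      rw [m1] at h
      rw [m2]
      obtain ⟨h0, h1, h2⟩ := A0_lt h
      have e1 : max (5 / 4 * N - 1) (N + u - 1) ≤ 4 / 3 * N - 1 :=
        max_le (by linarith) (by linarith)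
      refine ⟨by linarith, by linarith, ?_⟩
      rcases le_total (5 / 4 * N - 1) (rhoE r N M a c) with h' | h'
      · rw [max_eq_right h']
        refine A0_ge fun ⟨k0, k1, k2⟩ => ?_
        unfold rhoE at *
        linarith
      · rw [max_eq_left h']
        refine A0_ge fun ⟨k0, k1, k2⟩ => ?_
        linarith

lemma LSe_mono {r r' N N' M M' a c x : ℝ} (hr : r ≤ r') (hN : N ≤ N') (hM : M ≤ M') :
    LSe r N M a c x ≤ LSe r' N' M' a c x := by
  unfold LSe rhoE
  have h1 : max 0 (a + c - x - 7 / 9 * (1 - M)) ≤ max 0 (a + c - x - 7 / 9 * (1 - M')) :=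
    max_le_max le_rfl (by linarith)
  have h2 : max 0 (max (5 / 4 * N - 1) (2 * (N + M + a) + c - 3 + 2 / 5 * (r - (N + M + a) + c))) ≤
      max 0 (max (5 / 4 * N' - 1)
        (2 * (N' + M' + a) + c - 3 + 2 / 5 * (r' - (N' + M' + a) + c))) :=
    max_le_max le_rfl (max_le_max (by linarith) (by linarith))
  linarith

/-- **the certificate of the signed region, with the tails, the twist and the overlap** -/
theorem certOE {d μ r N M u a c : ℝ} (hd : 0 ≤ d) (hd1 : d ≤ 1 / 8) (hμ : 0 ≤ μ)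
    (hμ1 : 16 * μ ≤ d) (B : Box5o μ r N M u a c) :
    Abs N M u a c (2 * d * (a + c)) (Al d r (N + M + a) c - d) ∨
    (r ≤ 31 / 28 ∧ a ≤ 1 / 12 ∧ ∃ x, TlO d N M u a c x (Al d r (N + M + a) c - 1 / 4 * d) ∧
      LSe r N M a c x + 2 * d * (a + c) ≤ Al d r (N + M + a) c - 1 / 4 * d) := by
  have hB := B.up hμ (by linarith)
  have hA := Al_slack hd hB (by have := B.r2; linarith)
  have hl : Al d (r + 5 / 4 * μ) (N + 3 / 4 * μ + (M + 1 / 2 * μ) + a) c ≤
      Al d r (N + M + a) c + 2 * μ := by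
    have := Al_lip (r := r) (q := N + M + a) (c := c) hd hd1 hμ
    have e : N + M + a + 5 / 4 * μ = N + 3 / 4 * μ + (M + 1 / 2 * μ) + a := by ring
    rwa [e] at this
  rcases certE0 hB with h | ⟨h1, h2, x, h3, h4, h5, h6⟩
  · exact Or.inl (Abs_of hd hd1 hμ hμ1 (h.mono (by linarith)))
  · have hS := (LS_le_LSe (x := x) hB.D).trans h6
    have T := tails_aux hd hB h1 h2 h3 h4 h5 hS
    refine Or.inr ⟨by linarith, h2, x, TlO_of hd hd1 hμ hμ1 B T, ?_⟩
    have := LSe_mono (r := r) (r' := r + 5 / 4 * μ) (N := N) (N' := N + 3 / 4 * μ) (M := M)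
      (M' := M + 1 / 2 * μ) (a := a) (c := c) (x := x) (by linarith) (by linarith) (by linarith)
    linarith

end Crest.Agent.R017.R8C918
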