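import Crest.Agent.R017.AbsA_918
import Crest.Agent.R017.R8Bud_918

/-!
# Row 17, section D, R8: absolute closure of the signed region at helper918's `Abs` (helper918)

* `abs_long` : long `V` (`27 |V| ≥ 8 (1 - M)`) : the box scaled to `Σ u = 4/3` is not near-equal,
  helper954's `core_box'`
* `NearS`, `nearS_of` : **the box theorem at all `Abs` points of the signed region**, family `κ`
-/

set_option autoImplicit false

noncomputable section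

namespace Crest.Agent.R017.R8C918

open Crest.Agent.R017.ER911 Crest.Agent.R017.Hull741 Crest.Agent.R017.Prov71
open Crest.Agent.R017.CovM59 Crest.Agent.R017.CovBig954 Crest.Agent.R017.Cone59

/-! ### sorting (as in `BoxAll_702`) -/

lemma exists_anti {N : ℕ} (u : Fin N → ℝ) : ∃ σ : Equiv.Perm (Fin N), Antitone (u ∘ σ) := by
  refine ⟨Tuple.sort fun j => - u j, fun i j hij => ?_⟩
  have := Tuple.monotone_sort (fun j => - u j) hij
  simp only [Function.comp_apply] at this ⊢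
  linarith

lemma map_perm' {N : ℕ} (u : Fin N → ℝ) (σ : Equiv.Perm (Fin N)) :
    Finset.univ.val.map (u ∘ σ) = Finset.univ.val.map u := by
  rw [← Multiset.map_map]
  congr 1
  have := Finset.map_univ_equiv σ
  have h2 := congrArg Finset.val this
  rwa [Finset.map_val] at h2

/-- the near-equal condition for antitone families -/
lemma noNE5_top {N : ℕ} {u : Fin N → ℝ} (hu : Antitone u)
    (h : ∀ h5 : 5 ≤ N, u ⟨2, by omega⟩ + u ⟨3, by omega⟩ + 2 * u ⟨4, by omega⟩ ≤ 1) :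
    NoNE5 u := by
  intro s hs
  have hN : 5 ≤ N := by
    have := Fintype.card_le_of_injective s hs
    simpa using this
  refine ⟨Tuple.sort s, ?_⟩
  set f := fun i => s (Tuple.sort s i) with hf
  have hf1 : StrictMono f :=
    (Tuple.monotone_sort s).strictMono_of_injective (hs.comp (Tuple.sort s).injective)
  have h01 : (f 0).val < (f 1).val := hf1 (by decide)
  have h12 : (f 1).val < (f 2).val := hf1 (by decide)
  have h23 : (f 2).val < (f 3).val := hf1 (by decide)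
  have h34 : (f 3).val < (f 4).val := hf1 (by decide)
  have e2 : u (f 2) ≤ u ⟨2, by omega⟩ := hu (by rw [Fin.le_def]; simp only; omega)
  have e3 : u (f 3) ≤ u ⟨3, by omega⟩ := hu (by rw [Fin.le_def]; simp only; omega)
  have e4 : u (f 4) ≤ u ⟨4, by omega⟩ := hu (by rw [Fin.le_def]; simp only; omega)
  have h1 := h hN
  simp only [w5, Fin.sum_univ_five, Matrix.cons_val_zero, Matrix.cons_val_one, Matrix.cons_val]
  have h2 : u (s (Tuple.sort s 2)) = u (f 2) := rfl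
  have h3 : u (s (Tuple.sort s 3)) = u (f 3) := rfl
  have h4 : u (s (Tuple.sort s 4)) = u (f 4) := rfl
  rw [h2, h3, h4]
  linarith

/-- enumeration of a near-equal box -/
lemma exists_enum {y₁ y₂ y₃ y₄ y₅ : ℝ} {V : Multiset ℝ} (h12 : y₂ ≤ y₁) (h23 : y₃ ≤ y₂)
    (h34 : y₄ ≤ y₃) (h45 : y₅ ≤ y₄) (hV : ∀ v ∈ V, v ≤ y₅) :
    ∃ (n : ℕ) (u : Fin (5 + n) → ℝ), Antitone u ∧
      Finset.univ.val.map u = y₁ ::ₘ y₂ ::ₘ y₃ ::ₘ y₄ ::ₘ y₅ ::ₘ V ∧
      u ⟨2, by omega⟩ = y₃ ∧ u ⟨3, by omega⟩ = y₄ ∧ u ⟨4, by omega⟩ = y₅ := by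
  obtain ⟨l, rfl⟩ := Quot.exists_rep V
  obtain ⟨σ, hσ⟩ := exists_anti l.get
  have ev : Finset.univ.val.map (l.get ∘ σ) = (l : Multiset ℝ) := by
    rw [map_perm', Fin.univ_val_map, List.ofFn_get]
  refine ⟨l.length, Fin.append ![y₁, y₂, y₃, y₄, y₅] (l.get ∘ σ), ?_, ?_, ?_, ?_, ?_⟩
  · intro i j
    refine Fin.addCases (fun a => ?_) (fun a => ?_) i <;>
      refine Fin.addCases (fun b => ?_) (fun b => ?_) j <;> intro hij
    · rw [Fin.append_left, Fin.append_left]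
      have hab : a.val ≤ b.val := hij
      fin_cases a <;> fin_cases b <;> simp at hab ⊢ <;> linarith
    · rw [Fin.append_left, Fin.append_right]
      have hb : (l.get ∘ σ) b ≤ y₅ := by
        refine hV _ ?_
        show (l.get ∘ σ) b ∈ (l : Multiset ℝ)
        rw [← ev]
        exact Multiset.mem_map.2 ⟨b, Finset.mem_univ_val b, rfl⟩
      fin_cases a <;> simp at hb ⊢ <;> linarith
    · exfalso
      have : 5 + a.val ≤ b.val := hij
      have := b.isLt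
      omega
    · rw [Fin.append_right, Fin.append_right]
      refine hσ ?_
      have : 5 + a.val ≤ 5 + b.val := hij
      rw [Fin.le_def]
      omega
  · rw [Fin.univ_val_map, List.ofFn_fin_append]
    have e1 : List.ofFn ![y₁, y₂, y₃, y₄, y₅] = [y₁, y₂, y₃, y₄, y₅] := by simp
    have e2 : ((List.ofFn (l.get ∘ σ) : List ℝ) : Multiset ℝ) = (l : Multiset ℝ) := by
      rw [← ev, Fin.univ_val_map]
    rw [e1]
    show (([y₁, y₂, y₃, y₄, y₅] : List ℝ) : Multiset ℝ) + (List.ofFn (l.get ∘ σ) : Multiset ℝ) = _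
    rw [e2]
    rfl
  · exact Fin.append_left ![y₁, y₂, y₃, y₄, y₅] (l.get ∘ σ) (2 : Fin 5)
  · exact Fin.append_left ![y₁, y₂, y₃, y₄, y₅] (l.get ∘ σ) (3 : Fin 5)
  · exact Fin.append_left ![y₁, y₂, y₃, y₄, y₅] (l.get ∘ σ) (4 : Fin 5)

/-- **long `V`** -/
theorem abs_long {θ : ℝ} (hθ : 7 / 8 ≤ θ) (hθ1 : θ ≤ 1) {e₀ t₀ μ' : ℝ} (ht0 : 0 ≤ t₀)
    (ht3 : t₀ ≤ 1 / 3) (hμ' : 0 ≤ μ') (he : 2 * e₀ + (2 * θ - 1) * t₀ + μ' ≤ b2 θ)
    (H : ∀ r s s₀ rc bc : EF, ProvE θ r s s₀ rc bc → CoreL e₀ t₀ rc) {r s s₀ rc bc : EF}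
    (P : ProvE θ r s s₀ rc bc) {μ ρ y₁ y₂ y₃ y₄ y₅ m a : ℝ} {V : Multiset ℝ} (h12 : y₂ ≤ y₁)
    (h23 : y₃ ≤ y₂) (h34 : y₄ ≤ y₃) (h45 : y₅ ≤ y₄) (h5 : 0 < y₅) (hV : ∀ v ∈ V, 0 < v ∧ v ≤ y₅)
    (hm : 0 ≤ m) (ha : 0 ≤ a)
    (B : Box5o μ ρ (y₃ + y₄ + y₅) (y₁ + y₂) y₅ (V.sum + m) a)
    (hVs : 8 * (1 - (y₁ + y₂)) ≤ 27 * V.sum) :
    bc 1 (y₁ ::ₘ y₂ ::ₘ y₃ ::ₘ y₄ ::ₘ y₅ ::ₘ V) m a ≤
      1 + (((y₃ + y₄ + y₅ + (y₁ + y₂) + (V.sum + m)) + a) +
        (Al2 θ ((y₃ + y₄ + y₅ + (y₁ + y₂) + (V.sum + m)) + a) a - μ')) / 2 := by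
  obtain ⟨n, u, hua, hum, e2, e3, e4⟩ := exists_enum h12 h23 h34 h45 (fun v hv => (hV v hv).2)
  have hus : ∑ j, u j = y₃ + y₄ + y₅ + (y₁ + y₂) + V.sum := by
    have h1 : ∑ j, u j = (Finset.univ.val.map u).sum := rfl
    rw [h1, hum]
    simp only [Multiset.sum_cons]
    ring
  have hupos : ∀ j, 0 < u j := by
    intro j
    have hj : u j ∈ Finset.univ.val.map u := Multiset.mem_map.2 ⟨j, Finset.mem_univ_val j, rfl⟩
    rw [hum] at hj
    simp only [Multiset.mem_cons] at hj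
    rcases hj with h | h | h | h | h | h
    · rw [h]; linarith
    · rw [h]; linarith
    · rw [h]; linarith
    · rw [h]; linarith
    · rw [h]; linarith
    · exact (hV _ h).1
  obtain ⟨bu, bMN, bsig, ba, bc', br1, br2, bD, bP, bcr⟩ := B
  set k := max 1 (3 / 4 * ∑ j, u j) with hk
  have hk1 : 1 ≤ k := le_max_left _ _
  have hk0 : 0 < k := by linarith
  have hk2 : 3 / 4 * ∑ j, u j ≤ k := le_max_right _ _
  have hNE : NoNE5 (fun j => u j / k) := by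
    refine noNE5_top (fun i j hij => div_le_div_of_nonneg_right (hua hij) hk0.le) fun _ => ?_
    simp only [e2, e3, e4]
    rw [← add_div, ← mul_div_assoc, ← add_div, div_le_one hk0]
    rw [hus] at hk2
    linarith
  have := core_box' hθ hθ1 ht0 ht3 hμ' he H P u hupos hNE hm ha
  rw [hum, hus] at this
  have e : y₃ + y₄ + y₅ + (y₁ + y₂) + V.sum + m + a =
    (y₃ + y₄ + y₅ + (y₁ + y₂) + (V.sum + m)) + a := by ring
  rw [e] at this
  exact this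

/-! ### the family `κ` -/

/-- **the `Abs` points of the signed region** (`A` close to `1`) : the box closes absolutely -/
def NearS (θ A d μ : ℝ) (bx : EF) : Prop :=
  ∀ (κ m a y₁ y₂ y₃ y₄ y₅ : ℝ) (V : Multiset ℝ), y₂ ≤ y₁ → y₃ ≤ y₂ → y₄ ≤ y₃ → y₅ ≤ y₄ → 0 < y₅ →
    (∀ v ∈ V, 0 < v ∧ v ≤ y₅) → 0 ≤ m → 0 ≤ a → 8 / 9 ≤ κ → κ ≤ 1 →
    A * κ ≤ (y₃ + y₄ + y₅) + y₅ →
    (y₃ + y₄ + y₅) + (y₁ + y₂) + (V.sum + m) ≤ 4 / 3 → a ≤ 1 / 3 →
    (y₃ + y₄ + y₅) + (y₁ + y₂) + (V.sum + m) - a ≤ 1 →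
    Abs ((y₃ + y₄ + y₅) / κ) ((y₁ + y₂) / κ) (y₅ / κ) ((V.sum + m) / κ) (a / κ)
      (2 * d * ((V.sum + m) / κ + a / κ))
      (Al d (1 / κ) ((y₃ + y₄ + y₅) / κ + (y₁ + y₂) / κ + (V.sum + m) / κ) (a / κ) - 7 / 8 * d) →
    bx κ (y₁ ::ₘ y₂ ::ₘ y₃ ::ₘ y₄ ::ₘ y₅ ::ₘ V) m a ≤
      Tg2 θ κ ((y₃ + y₄ + y₅) + (y₁ + y₂) + (V.sum + m)) a - μ

theorem nearS_of {d : ℝ} (hd : 0 ≤ d) (hd8 : d ≤ 1 / 8) {e₀ t₀ μ' : ℝ} (ht0 : 0 ≤ t₀)
    (ht3 : t₀ ≤ 1 / 3) (hμ' : 0 ≤ μ') (he : 2 * e₀ + (2 * (7 / 8 + d) - 1) * t₀ + μ' ≤ b2 (7 / 8 + d))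
    (H : ∀ r s s₀ rc bc : EF, ProvE (7 / 8 + d) r s s₀ rc bc → CoreL e₀ t₀ rc)
    {r s s₀ rc bc : EF} (P : ProvE (7 / 8 + d) r s s₀ rc bc) {A : ℝ} (hA : 99 / 100 ≤ A) :
    NearS (7 / 8 + d) A d (min (d / 10) (2 / 5 * μ')) bc := by
  intro κ m a y₁ y₂ y₃ y₄ y₅ V h12 h23 h34 h45 h5 hV hm ha hκ hκ1 hnear hq ha3 hqa hab
  have hκ0 : 0 < κ := by linarith
  have hne : κ ≠ 0 := hκ0.ne'
  -- the normalised box
  have hVs : (V.map (· / κ)).sum = V.sum / κ := by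
    have e : V.map (· / κ) = V.map (fun x => κ⁻¹ * x) :=
      Multiset.map_congr rfl fun x _ => by rw [div_eq_mul_inv, mul_comm]
    rw [e, Multiset.sum_map_mul_left, Multiset.map_id', div_eq_mul_inv, mul_comm]
  have hmap : (y₁ / κ ::ₘ y₂ / κ ::ₘ y₃ / κ ::ₘ y₄ / κ ::ₘ y₅ / κ ::ₘ V.map (· / κ)).map (κ * ·) =
      y₁ ::ₘ y₂ ::ₘ y₃ ::ₘ y₄ ::ₘ y₅ ::ₘ V := by
    have hc : ∀ y : ℝ, κ * (y / κ) = y := fun y => mul_div_cancel₀ y hne
    simp only [Multiset.map_cons, Multiset.map_map, Function.comp_def, hc, Multiset.map_id']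
  have hsc : sc κ bc 1 (y₁ / κ ::ₘ y₂ / κ ::ₘ y₃ / κ ::ₘ y₄ / κ ::ₘ y₅ / κ ::ₘ V.map (· / κ))
      (m / κ) (a / κ) = bc κ (y₁ ::ₘ y₂ ::ₘ y₃ ::ₘ y₄ ::ₘ y₅ ::ₘ V) m a / κ := by
    show bc (κ * 1) _ (κ * (m / κ)) (κ * (a / κ)) / κ = _
    rw [hmap, mul_one, mul_div_cancel₀ m hne, mul_div_cancel₀ a hne]
  have hV' : ∀ v ∈ V.map (· / κ), 0 < v ∧ v ≤ y₅ / κ := by
    intro v hv
    obtain ⟨w, hw, rfl⟩ := Multiset.mem_map.1 hv
    exact ⟨div_pos (hV w hw).1 hκ0, div_le_div_of_nonneg_right (hV w hw).2 hκ0.le⟩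
  have d12 : y₂ / κ ≤ y₁ / κ := div_le_div_of_nonneg_right h12 hκ0.le
  have d23 : y₃ / κ ≤ y₂ / κ := div_le_div_of_nonneg_right h23 hκ0.le
  have d34 : y₄ / κ ≤ y₃ / κ := div_le_div_of_nonneg_right h34 hκ0.le
  have d45 : y₅ / κ ≤ y₄ / κ := div_le_div_of_nonneg_right h45 hκ0.le
  have eN : y₃ / κ + y₄ / κ + y₅ / κ = (y₃ + y₄ + y₅) / κ := by rw [← add_div, ← add_div]
  have eM : y₁ / κ + y₂ / κ = (y₁ + y₂) / κ := by rw [← add_div]
  have ea : (V.map (· / κ)).sum + m / κ = (V.sum + m) / κ := by rw [hVs, ← add_div]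
  have B : Box5o (1 / 100) (1 / κ) (y₃ / κ + y₄ / κ + y₅ / κ) (y₁ / κ + y₂ / κ) (y₅ / κ)
      ((V.map (· / κ)).sum + m / κ) (a / κ) := by
    have hV0 : 0 ≤ V.sum := Multiset.sum_nonneg fun v hv => (hV v hv).1.le
    rw [eN, eM, ea]
    refine ⟨?_, ?_, ?_, ?_, ?_, ?_, ?_, ?_, ?_, ?_⟩
    · rw [← mul_div_assoc]; exact div_le_div_of_nonneg_right (by linarith) hκ0.le
    · rw [← mul_div_assoc, ← mul_div_assoc]
      exact div_le_div_of_nonneg_right (by linarith) hκ0.le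
    · rw [← add_div, le_div_iff₀ hκ0]
      have : 99 / 100 * κ ≤ A * κ := mul_le_mul_of_nonneg_right hA hκ0.le
      linarith
    · exact div_nonneg (by linarith) hκ0.le
    · exact div_nonneg ha hκ0.le
    · rw [le_div_iff₀ hκ0]; linarith
    · rw [div_le_iff₀ hκ0]; linarith
    · rw [← add_div, ← add_div, ← sub_div]
      exact div_le_div_of_nonneg_right (by linarith) hκ0.le
    · rw [← add_div, ← add_div, ← add_div, ← mul_div_assoc]
      exact div_le_div_of_nonneg_right (by linarith) hκ0.le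
    · rw [← mul_div_assoc]; exact div_le_div_of_nonneg_right (by linarith) hκ0.le
  set q := (y₃ + y₄ + y₅) + (y₁ + y₂) + (V.sum + m) with hqdef
  have eq : y₃ / κ + y₄ / κ + y₅ / κ + (y₁ / κ + y₂ / κ) + ((V.map (· / κ)).sum + m / κ) = q / κ := by
    rw [eN, eM, ea, ← add_div, ← add_div]
  have P' := provE_cr P hκ0
  rcases le_total (27 * (V.map (· / κ)).sum) (8 * (1 - (y₁ / κ + y₂ / κ))) with hs | hs
  · have h1 := abs_one P' hd hd8 (m := m / κ) (a := a / κ) d12 d23 d34 d45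
      (div_nonneg h5.le hκ0.le) (fun v hv => (hV' v hv).1.le) (div_nonneg hm hκ0.le)
      (div_nonneg ha hκ0.le) (by norm_num : (1 / 100 : ℝ) ≤ 1 / 100) B
      (by
        rw [eq, eN, eM, ea]
        have e1 : (y₃ + y₄ + y₅) / κ + (y₁ + y₂) / κ + (V.sum + m) / κ = q / κ := by
          rw [← add_div, ← add_div]
        rw [e1] at hab
        exact hab) hs
    rw [hsc, eq, div_le_iff₀ hκ0] at h1
    have h2 := Al_Tg (d := d) (q := q) (c := a) hκ0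
    have h3 : (1 + (q / κ + a / κ + (Al d (1 / κ) (q / κ) (a / κ) - 1 / 4 * d)) / 2) * κ =
        κ + ((q + a) + κ * Al d (1 / κ) (q / κ) (a / κ)) / 2 - κ * d / 8 := by
      field_simp
      ring
    rw [h3, h2] at h1
    have h4 : min (d / 10) (2 / 5 * μ') ≤ d / 10 := min_le_left _ _
    have h5 : 8 / 9 * d ≤ κ * d := mul_le_mul_of_nonneg_right hκ hd
    linarith
  · have h1 := abs_long (by linarith : 7 / 8 ≤ 7 / 8 + d) (by linarith) ht0 ht3 hμ' he H P'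
      (m := m / κ) (a := a / κ) d12 d23 d34 d45 (div_pos h5 hκ0) hV' (div_nonneg hm hκ0.le)
      (div_nonneg ha hκ0.le) B hs
    rw [hsc, eq, div_le_iff₀ hκ0] at h1
    have h2 := le_target2 (θ := 7 / 8 + d) (h := κ) (q := q) (c := a) (L := q / κ + a / κ)
      (a := a / κ) (e := Al2 (7 / 8 + d) (q / κ + a / κ) (a / κ) - μ') (μ := μ') (by linarith)
      (by linarith) hκ0 hκ1 (by field_simp) (by field_simp) ha3 (by linarith) hqa le_rfl
    have h3 : (1 + (q / κ + a / κ + (Al2 (7 / 8 + d) (q / κ + a / κ) (a / κ) - μ')) / 2) * κ =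
        κ + (q + a) / 2 + κ * (Al2 (7 / 8 + d) (q / κ + a / κ) (a / κ) - μ') / 2 := by
      field_simp
      ring
    rw [h3] at h1
    have h4 : min (d / 10) (2 / 5 * μ') ≤ 2 / 5 * μ' := min_le_right _ _
    have h5 : 8 / 9 * μ' ≤ κ * μ' := mul_le_mul_of_nonneg_right hκ hμ'
    linarith

end Crest.Agent.R017.R8C918
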