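import Mathlib

/-!
# Row 17, section D: reduction of all families `H = K₀^h` to the rescaled family `1` (helper59)

`θ = 7/8`, `g = 1/3` (`Q₀ = K₀^{4/3}`, amplifier `K₀^{1/3}`).  `h, q, c` are the exponents of
`H, Q, C_J`; a box has smooth mass `s`, granular mass `w` (in units of `h`), total `L = s + w`,
and two-sided second moment loss `e`.  The bound `H · N^{1/2} · K^{h e/2}` is at most the target as
soon as `e ≤ A(L,w) = max(0, L - 5/3, L - 2w - 1, (7L - 5w)/6 - 5/3)`.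
-/

set_option autoImplicit false

namespace Crest.Agent.R017.AllH59

/-- allowed two-sided loss at family `1` -/
noncomputable def Al (L w : ℝ) : ℝ :=
  max (max 0 (L - 5 / 3)) (max (L - 2 * w - 1) ((7 * L - 5 * w) / 6 - 5 / 3))

/-- exponent of the target with the three monomials
`a b^{1/2} c^{1/2} + a^{1/2} b^{3/4} c^{1/4} + a^{1/6} b^θ c^θ`, at `θ = 7/8`, `g = 1/3`. -/
noncomputable def Tg (h q c : ℝ) : ℝ :=
  11 / 6 + max ((h - 1) + (q - 4 / 3) / 2 + (c - 1 / 3) / 2)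
    (max ((h - 1) / 2 + 3 / 4 * (q - 4 / 3) + 1 / 4 * (c - 1 / 3))
      ((h - 1) / 6 + 7 / 8 * (q - 4 / 3) + 7 / 8 * (c - 1 / 3)))

theorem allH {h q c L w e : ℝ} (h0 : 0 < h) (hL : h * L = q + c) (hw : c ≤ h * w)
    (hqc : q - c ≤ 1) (hfull : q + c ≤ 5 / 3) (he : e ≤ Al L w) :
    h + (q + c) / 2 + h * e / 2 ≤ Tg h q c := by
  unfold Tg
  unfold Al at he
  rcases le_total (max 0 (L - 5 / 3)) (max (L - 2 * w - 1) ((7 * L - 5 * w) / 6 - 5 / 3)) with
    h1 | h1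
  · rw [max_eq_right h1] at he
    rcases le_total (L - 2 * w - 1) ((7 * L - 5 * w) / 6 - 5 / 3) with h2 | h2
    · rw [max_eq_right h2] at he
      have h3 : h * e ≤ (7 * (h * L) - 5 * (h * w)) / 6 - 5 / 3 * h := by
        nlinarith [mul_le_mul_of_nonneg_left he h0.le]
      rw [hL] at h3
      have h4 := le_max_right ((h - 1) + (q - 4 / 3) / 2 + (c - 1 / 3) / 2)
        (max ((h - 1) / 2 + 3 / 4 * (q - 4 / 3) + 1 / 4 * (c - 1 / 3))
        ((h - 1) / 6 + 7 / 8 * (q - 4 / 3) + 7 / 8 * (c - 1 / 3)))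
      have h5 := le_max_right ((h - 1) / 2 + 3 / 4 * (q - 4 / 3) + 1 / 4 * (c - 1 / 3))
        ((h - 1) / 6 + 7 / 8 * (q - 4 / 3) + 7 / 8 * (c - 1 / 3))
      linarith
    · rw [max_eq_left h2] at he
      have h3 : h * e ≤ h * L - 2 * (h * w) - h := by
        nlinarith [mul_le_mul_of_nonneg_left he h0.le]
      rw [hL] at h3
      have h4 := le_max_right ((h - 1) + (q - 4 / 3) / 2 + (c - 1 / 3) / 2)
        (max ((h - 1) / 2 + 3 / 4 * (q - 4 / 3) + 1 / 4 * (c - 1 / 3))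
        ((h - 1) / 6 + 7 / 8 * (q - 4 / 3) + 7 / 8 * (c - 1 / 3)))
      have h5 := le_max_left ((h - 1) / 2 + 3 / 4 * (q - 4 / 3) + 1 / 4 * (c - 1 / 3))
        ((h - 1) / 6 + 7 / 8 * (q - 4 / 3) + 7 / 8 * (c - 1 / 3))
      linarith
  · rw [max_eq_left h1] at he
    rcases le_total 0 (L - 5 / 3) with h2 | h2
    · rw [max_eq_right h2] at he
      have h3 : h * e ≤ h * L - 5 / 3 * h := by
        nlinarith [mul_le_mul_of_nonneg_left he h0.le]
      rw [hL] at h3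
      have h4 := le_max_right ((h - 1) + (q - 4 / 3) / 2 + (c - 1 / 3) / 2)
        (max ((h - 1) / 2 + 3 / 4 * (q - 4 / 3) + 1 / 4 * (c - 1 / 3))
        ((h - 1) / 6 + 7 / 8 * (q - 4 / 3) + 7 / 8 * (c - 1 / 3)))
      have h5 := le_max_right ((h - 1) / 2 + 3 / 4 * (q - 4 / 3) + 1 / 4 * (c - 1 / 3))
        ((h - 1) / 6 + 7 / 8 * (q - 4 / 3) + 7 / 8 * (c - 1 / 3))
      linarith
    · rw [max_eq_left h2] at he
      have h3 : h * e ≤ 0 := mul_nonpos_of_nonneg_of_nonpos h0.le he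
      have h4 := le_max_left ((h - 1) + (q - 4 / 3) / 2 + (c - 1 / 3) / 2)
        (max ((h - 1) / 2 + 3 / 4 * (q - 4 / 3) + 1 / 4 * (c - 1 / 3))
        ((h - 1) / 6 + 7 / 8 * (q - 4 / 3) + 7 / 8 * (c - 1 / 3)))
      linarith

end Crest.Agent.R017.AllH59
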