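import Mathlib

/-!
# Row 17, leaf BL5 (helper271), part 1: Möbius inversion on `{0,1,2}^ι`

`kap F e` is the coefficient with `F b = Σ_{e ≤ b} kap F e`.
-/

set_option autoImplicit false
set_option linter.unusedSectionVars false

noncomputable section

namespace Crest.Agent.R017.Amp271

open Finset

/-- 1-D Möbius kernel on `Fin 3` -/
def m3 (a' a : Fin 3) : ℝ := if a = a' then 1 else if (a : ℕ) + 1 = (a' : ℕ) then -1 else 0

lemma m3_inv (b a : Fin 3) :
    ∑ a' : Fin 3, (if a' ≤ b then m3 a' a else 0) = if a = b then 1 else 0 := by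
  fin_cases b <;> fin_cases a <;> simp [m3, Fin.sum_univ_three]

lemma sum_abs_m3_le (a' : Fin 3) : ∑ a : Fin 3, |m3 a' a| ≤ 2 := by
  fin_cases a' <;> simp [m3, Fin.sum_univ_three] <;> norm_num

lemma m3_zero (a : Fin 3) : m3 0 a = if a = 0 then 1 else 0 := by
  fin_cases a <;> simp [m3]

lemma m3_one (a : Fin 3) : m3 1 a = (if a = 1 then 1 else 0) - (if a = 0 then 1 else 0) := by
  fin_cases a <;> simp [m3]

variable {ι : Type*} [Fintype ι] [DecidableEq ι]

/-- multi-dimensional Möbius coefficient -/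
def kap (F : (ι → Fin 3) → ℝ) (e : ι → Fin 3) : ℝ :=
  ∑ a : ι → Fin 3, (∏ i, m3 (e i) (a i)) * F a

lemma prod_sum_fun {α : Type*} [Fintype α] {R : Type*} [CommSemiring R] (f : ι → α → R) :
    ∏ i, ∑ j : α, f i j = ∑ x : ι → α, ∏ i, f i (x i) := by
  classical
  rw [Finset.prod_univ_sum, Fintype.piFinset_univ]

theorem kap_inv (F : (ι → Fin 3) → ℝ) (b : ι → Fin 3) :
    ∑ e : ι → Fin 3, (if ∀ i, e i ≤ b i then kap F e else 0) = F b := by
  have h1 : ∀ e : ι → Fin 3, (if ∀ i, e i ≤ b i then kap F e else 0) =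
      ∑ a : ι → Fin 3, (∏ i, (if e i ≤ b i then m3 (e i) (a i) else 0)) * F a := by
    intro e
    by_cases h : ∀ i, e i ≤ b i
    · rw [if_pos h, kap]
      refine Finset.sum_congr rfl fun a _ => ?_
      congr 1
      exact Finset.prod_congr rfl fun i _ => by rw [if_pos (h i)]
    · rw [if_neg h]
      push Not at h
      obtain ⟨i, hi⟩ := h
      symm
      refine Finset.sum_eq_zero fun a _ => ?_
      rw [Finset.prod_eq_zero (Finset.mem_univ i) (if_neg (not_le.2 hi)), zero_mul]
  rw [Finset.sum_congr rfl fun e _ => h1 e, Finset.sum_comm]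
  have h2 : ∀ a : ι → Fin 3, ∑ e : ι → Fin 3,
      (∏ i, (if e i ≤ b i then m3 (e i) (a i) else 0)) * F a = if a = b then F a else 0 := by
    intro a
    rw [← Finset.sum_mul, ← prod_sum_fun (fun i a' => if a' ≤ b i then m3 a' (a i) else 0)]
    rw [Finset.prod_congr rfl fun i _ => m3_inv (b i) (a i)]
    by_cases h : a = b
    · subst h; simp
    · rw [if_neg h]
      obtain ⟨i, hi⟩ := Function.ne_iff.1 h
      rw [Finset.prod_eq_zero (Finset.mem_univ i) (if_neg hi), zero_mul]
  rw [Finset.sum_congr rfl fun a _ => h2 a]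
  simp

theorem abs_kap_le {F : (ι → Fin 3) → ℝ} (hF : ∀ a, |F a| ≤ 1) (e : ι → Fin 3) :
    |kap F e| ≤ 2 ^ Fintype.card ι := by
  calc |kap F e| ≤ ∑ a : ι → Fin 3, |(∏ i, m3 (e i) (a i)) * F a| := Finset.abs_sum_le_sum_abs _ _
    _ ≤ ∑ a : ι → Fin 3, ∏ i, |m3 (e i) (a i)| := by
        refine Finset.sum_le_sum fun a _ => ?_
        rw [abs_mul, Finset.abs_prod]
        exact mul_le_of_le_one_right (Finset.prod_nonneg fun _ _ => abs_nonneg _) (hF a)
    _ = ∏ i, ∑ a : Fin 3, |m3 (e i) a| := (prod_sum_fun fun i a => |m3 (e i) a|).symm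
    _ ≤ ∏ _i : ι, (2 : ℝ) := Finset.prod_le_prod
        (fun _ _ => Finset.sum_nonneg fun _ _ => abs_nonneg _) fun i _ => sum_abs_m3_le (e i)
    _ = 2 ^ Fintype.card ι := by simp

theorem kap_zero (F : (ι → Fin 3) → ℝ) : kap F 0 = F 0 := by
  have h : ∀ a : ι → Fin 3, (∏ i, m3 ((0 : ι → Fin 3) i) (a i)) * F a = if a = 0 then F a else 0 := by
    intro a
    by_cases h : a = 0
    · subst h; simp [m3_zero]
    · rw [if_neg h]
      obtain ⟨i, hi⟩ := Function.ne_iff.1 h
      rw [Finset.prod_eq_zero (Finset.mem_univ i), zero_mul]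
      rw [Pi.zero_apply, m3_zero]; exact if_neg hi
  rw [kap, Finset.sum_congr rfl fun a _ => h a]
  simp

theorem kap_single (F : (ι → Fin 3) → ℝ) (j : ι) (hF : F (Pi.single j 1) = F 0) :
    kap F (Pi.single j 1) = 0 := by
  have h : ∀ a : ι → Fin 3, (∏ i, m3 ((Pi.single j 1 : ι → Fin 3) i) (a i)) * F a =
      (if a = Pi.single j 1 then F a else 0) - (if a = 0 then F a else 0) := by
    intro a
    by_cases h1 : a = Pi.single j 1
    · subst h1
      rw [if_pos rfl, if_neg (by
        intro h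
        have := congrFun h j
        simp at this), sub_zero, Finset.prod_eq_one, one_mul]
      intro i _
      by_cases hi : i = j
      · subst hi; simp [m3]
      · simp [Pi.single_eq_of_ne hi, m3]
    · rw [if_neg h1]
      by_cases h2 : a = 0
      · subst h2
        rw [if_pos rfl, ← Finset.mul_prod_erase _ _ (Finset.mem_univ j), Finset.prod_eq_one]
        · simp [m3]
        · intro i hi
          rw [Pi.single_eq_of_ne (Finset.ne_of_mem_erase hi)]
          simp [m3]
      · rw [if_neg h2, sub_zero]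
        by_cases h3 : ∃ i, i ≠ j ∧ a i ≠ 0
        · obtain ⟨i, hi, hai⟩ := h3
          rw [Finset.prod_eq_zero (Finset.mem_univ i), zero_mul]
          rw [Pi.single_eq_of_ne hi, m3_zero, if_neg hai]
        · push Not at h3
          have hj0 : a j ≠ 0 := fun h => h2 (by
            funext i
            by_cases hi : i = j
            · subst hi; exact h
            · exact h3 i hi)
          have hj1 : a j ≠ 1 := fun h => h1 (by
            funext i
            by_cases hi : i = j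
            · subst hi; rw [h, Pi.single_eq_same]
            · rw [h3 i hi, Pi.single_eq_of_ne hi])
          rw [Finset.prod_eq_zero (Finset.mem_univ j), zero_mul]
          rw [Pi.single_eq_same, m3_one, if_neg hj1, if_neg hj0, sub_zero]
  rw [kap, Finset.sum_congr rfl fun a _ => h a, Finset.sum_sub_distrib]
  simp [hF]

/-- total exponent -/
def wt (e : ι → Fin 3) : ℕ := ∑ i, (e i : ℕ)

@[simp] lemma wt_zero : wt (0 : ι → Fin 3) = 0 := by simp [wt]

lemma one_le_wt {e : ι → Fin 3} (he : e ≠ 0) : 1 ≤ wt e := by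
  obtain ⟨i, hi⟩ := Function.ne_iff.1 he
  have h1 : (e i : ℕ) ≤ wt e := Finset.single_le_sum (f := fun i => (e i : ℕ))
    (fun _ _ => Nat.zero_le _) (Finset.mem_univ i)
  have h2 : (e i : ℕ) ≠ 0 := fun h => hi (Fin.ext (by simpa using h))
  omega

lemma eq_single_of_wt {e : ι → Fin 3} (he : wt e = 1) : ∃ j, e = Pi.single j 1 := by
  have h0 : e ≠ 0 := by rintro rfl; simp at he
  obtain ⟨j, hj⟩ := Function.ne_iff.1 h0
  have h2 : (e j : ℕ) ≠ 0 := fun h => hj (Fin.ext (by simpa using h))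
  have h3 : (e j : ℕ) + ∑ i ∈ Finset.univ.erase j, (e i : ℕ) = 1 := by
    rw [← he, wt]; exact Finset.add_sum_erase _ (fun i => (e i : ℕ)) (Finset.mem_univ j)
  refine ⟨j, funext fun i => ?_⟩
  by_cases hi : i = j
  · subst hi
    rw [Pi.single_eq_same]
    exact Fin.ext (by simp; omega)
  · rw [Pi.single_eq_of_ne hi]
    have h4 : (e i : ℕ) ≤ ∑ i ∈ Finset.univ.erase j, (e i : ℕ) :=
      Finset.single_le_sum (f := fun i => (e i : ℕ)) (fun _ _ => Nat.zero_le _)
        (Finset.mem_erase.2 ⟨hi, Finset.mem_univ i⟩)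
    exact Fin.ext (by simp; omega)

theorem kap_eq_zero_of_wt {F : (ι → Fin 3) → ℝ} (hF : ∀ j, F (Pi.single j 1) = F 0)
    {e : ι → Fin 3} (he : wt e = 1) : kap F e = 0 := by
  obtain ⟨j, rfl⟩ := eq_single_of_wt he
  exact kap_single F j (hF j)

/-- local sum, bad primes -/
theorem local_bad {F : (ι → Fin 3) → ℝ} (hF : ∀ a, |F a| ≤ 1) {x : ℝ} (hx0 : 0 ≤ x) (hx1 : x ≤ 1) :
    ∑ e : ι → Fin 3, |kap F e| * x ^ wt e ≤ 1 + 6 ^ Fintype.card ι * x := by
  have h0 : |kap F 0| ≤ 1 := by rw [kap_zero]; exact hF 0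
  have h1 : ∀ e ∈ (Finset.univ.erase (0 : ι → Fin 3)), |kap F e| * x ^ wt e ≤
      2 ^ Fintype.card ι * x := by
    intro e he
    have hw := one_le_wt (Finset.ne_of_mem_erase he)
    have : x ^ wt e ≤ x := by
      calc x ^ wt e ≤ x ^ 1 := pow_le_pow_of_le_one hx0 hx1 hw
        _ = x := pow_one x
    exact mul_le_mul (abs_kap_le hF e) this (pow_nonneg hx0 _) (by positivity)
  rw [← Finset.add_sum_erase _ _ (Finset.mem_univ (0 : ι → Fin 3)), wt_zero, pow_zero, mul_one]
  have h2 : ∑ e ∈ (Finset.univ.erase (0 : ι → Fin 3)), |kap F e| * x ^ wt e ≤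
      6 ^ Fintype.card ι * x := by
    calc _ ≤ ∑ _e ∈ (Finset.univ.erase (0 : ι → Fin 3)), (2 ^ Fintype.card ι * x) :=
          Finset.sum_le_sum h1
      _ = ((Finset.univ.erase (0 : ι → Fin 3)).card : ℝ) * (2 ^ Fintype.card ι * x) := by
          rw [Finset.sum_const, nsmul_eq_mul]
      _ ≤ (3 ^ Fintype.card ι : ℝ) * (2 ^ Fintype.card ι * x) := by
          gcongr
          have : (Finset.univ.erase (0 : ι → Fin 3)).card ≤ 3 ^ Fintype.card ι := by
            refine (Finset.card_le_card (Finset.erase_subset _ _)).trans ?_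
            simp
          exact_mod_cast this
      _ = 6 ^ Fintype.card ι * x := by
          rw [← mul_assoc, ← mul_pow]; norm_num
  linarith

/-- local sum, good primes -/
theorem local_good {F : (ι → Fin 3) → ℝ} (hF : ∀ a, |F a| ≤ 1)
    (hs : ∀ j, F (Pi.single j 1) = F 0) {x : ℝ} (hx0 : 0 ≤ x) (hx1 : x ≤ 1) :
    ∑ e : ι → Fin 3, |kap F e| * x ^ wt e ≤ 1 + 6 ^ Fintype.card ι * x ^ 2 := by
  have h0 : |kap F 0| ≤ 1 := by rw [kap_zero]; exact hF 0
  have h1 : ∀ e ∈ (Finset.univ.erase (0 : ι → Fin 3)), |kap F e| * x ^ wt e ≤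
      2 ^ Fintype.card ι * x ^ 2 := by
    intro e he
    have hw := one_le_wt (Finset.ne_of_mem_erase he)
    by_cases h : wt e = 1
    · rw [kap_eq_zero_of_wt hs h, abs_zero, zero_mul]; positivity
    · have : x ^ wt e ≤ x ^ 2 := pow_le_pow_of_le_one hx0 hx1 (by omega)
      exact mul_le_mul (abs_kap_le hF e) this (pow_nonneg hx0 _) (by positivity)
  rw [← Finset.add_sum_erase _ _ (Finset.mem_univ (0 : ι → Fin 3)), wt_zero, pow_zero, mul_one]
  have h2 : ∑ e ∈ (Finset.univ.erase (0 : ι → Fin 3)), |kap F e| * x ^ wt e ≤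
      6 ^ Fintype.card ι * x ^ 2 := by
    calc _ ≤ ∑ _e ∈ (Finset.univ.erase (0 : ι → Fin 3)), (2 ^ Fintype.card ι * x ^ 2) :=
          Finset.sum_le_sum h1
      _ = ((Finset.univ.erase (0 : ι → Fin 3)).card : ℝ) * (2 ^ Fintype.card ι * x ^ 2) := by
          rw [Finset.sum_const, nsmul_eq_mul]
      _ ≤ (3 ^ Fintype.card ι : ℝ) * (2 ^ Fintype.card ι * x ^ 2) := by
          gcongr
          have : (Finset.univ.erase (0 : ι → Fin 3)).card ≤ 3 ^ Fintype.card ι := by
            refine (Finset.card_le_card (Finset.erase_subset _ _)).trans ?_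
            simp
          exact_mod_cast this
      _ = 6 ^ Fintype.card ι * x ^ 2 := by
          rw [← mul_assoc, ← mul_pow]; norm_num
  linarith

end Crest.Agent.R017.Amp271
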