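import Crest.Agent.R017.Amp1_271
import Crest.Agent.R012.Mob_705

/-!
# Row 17, leaf BL5 (helper271), part 2: multi-variable squarefree / coprimality expansion on `Eis`

`P` finite set of primary primes, local conditions `F p : (ι → {0,1,2}) → ℝ` (truncated exponents).
`fP P F c = ∏_{p ∈ P} F p (t p (c ·))`,  `fP P F c = Σ_E κ(E) 1[∀ i, D E i ∣ c i]`.
-/

set_option autoImplicit false
set_option linter.unusedSectionVars false

noncomputable section

namespace Crest.Agent.R017.Amp271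

open Finset Crest.Agent.R012 Crest.Agent.R012.Eis Crest.Agent.R012.Mob705 Crest.Agent.R012.Div277

variable {ι : Type*} [Fintype ι] [DecidableEq ι]

open Classical in
/-- truncated exponent of `p` in `c` -/
def tr (p c : Eis) : Fin 3 := if p ^ 2 ∣ c then 2 else if p ∣ c then 1 else 0

lemma le_tr (p c : Eis) (a : Fin 3) : a ≤ tr p c ↔ p ^ (a : ℕ) ∣ c := by
  unfold tr
  fin_cases a
  · simp
  · by_cases h2 : p ^ 2 ∣ c
    · have h1 : p ∣ c := (dvd_pow_self p two_ne_zero).trans h2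
      simp [h2, h1]
    · by_cases h1 : p ∣ c
      · simp [h2, h1]
      · simp [h2, h1]
  · by_cases h2 : p ^ 2 ∣ c
    · simp [h2]
    · by_cases h1 : p ∣ c
      · simp [h2, h1]
      · simp [h2, h1]

lemma tr_eq_zero {p c : Eis} : tr p c = 0 ↔ ¬ p ∣ c := by
  have h := le_tr p c 1
  rw [show (((1 : Fin 3) : ℕ)) = 1 from rfl, pow_one] at h
  rw [← h]
  generalize tr p c = x
  fin_cases x <;> simp

lemma tr_le_one {p c : Eis} : tr p c ≤ 1 ↔ ¬ p ^ 2 ∣ c := by
  have h := le_tr p c 2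
  rw [show (((2 : Fin 3) : ℕ)) = 2 from rfl] at h
  rw [← h]
  generalize tr p c = x
  fin_cases x <;> simp

/-- index set of the expansion -/
abbrev Ix (P : Finset Eis) (ι : Type*) : Type _ := {p // p ∈ P} → ι → Fin 3

/-- the divisor tuple attached to an index -/
def D {P : Finset Eis} (E : Ix P ι) (i : ι) : Eis := ∏ p : {p // p ∈ P}, (p : Eis) ^ (E p i : ℕ)

/-- the coefficient attached to an index -/
def K {P : Finset Eis} (F : Eis → (ι → Fin 3) → ℝ) (E : Ix P ι) : ℝ :=
  ∏ p : {p // p ∈ P}, kap (F p) (E p)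

/-- the function on tuples -/
def fP (P : Finset Eis) (F : Eis → (ι → Fin 3) → ℝ) (c : ι → Eis) : ℝ :=
  ∏ p : {p // p ∈ P}, F p (fun i => tr (p : Eis) (c i))

lemma D_dvd_iff {P : Finset Eis} (hP : PPSet P) (E : Ix P ι) (i : ι) (z : Eis) :
    D E i ∣ z ↔ ∀ p : {p // p ∈ P}, (p : Eis) ^ (E p i : ℕ) ∣ z := by
  constructor
  · intro h p
    exact (Finset.dvd_prod_of_mem (fun p : {p // p ∈ P} => (p : Eis) ^ (E p i : ℕ))
      (Finset.mem_univ p)).trans h
  · intro h
    refine Finset.prod_dvd_of_coprime ?_ fun p _ => h p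
    intro p _ q _ hpq
    exact ((hP p p.2).isCoprime (hP q q.2) fun h => hpq (Subtype.ext h)).pow

lemma isPrim_D {P : Finset Eis} (hP : PPSet P) (E : Ix P ι) (i : ι) : IsPrim (D E i) := by
  unfold D
  refine Finset.prod_induction _ IsPrim (fun a b ha hb => ha.mul hb) isPrim_one fun p _ => ?_
  exact (hP p p.2).isPrim.pow _

open Classical in
/-- **(A1)** the expansion -/
theorem expand {P : Finset Eis} (hP : PPSet P) (F : Eis → (ι → Fin 3) → ℝ) (c : ι → Eis) :
    fP P F c = ∑ E : Ix P ι, K F E * (if ∀ i, D E i ∣ c i then 1 else 0) := by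
  have h1 : fP P F c = ∏ p : {p // p ∈ P}, ∑ e : ι → Fin 3,
      (if ∀ i, e i ≤ tr (p : Eis) (c i) then kap (F p) e else 0) :=
    Finset.prod_congr rfl fun p _ => (kap_inv (F p) _).symm
  rw [h1, prod_sum_fun]
  refine Finset.sum_congr rfl fun E _ => ?_
  by_cases h : ∀ i, D E i ∣ c i
  · rw [if_pos h, mul_one]
    refine Finset.prod_congr rfl fun p _ => ?_
    rw [if_pos]
    intro i
    rw [le_tr]
    exact (D_dvd_iff hP E i _).1 (h i) p
  · rw [if_neg h, mul_zero]
    push Not at h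
    obtain ⟨i, hi⟩ := h
    rw [D_dvd_iff hP] at hi
    push Not at hi
    obtain ⟨p, hp⟩ := hi
    refine Finset.prod_eq_zero (Finset.mem_univ p) ?_
    rw [if_neg]
    intro h
    exact hp ((le_tr _ _ _).1 (h i))

/-! ### sums over tuples -/

open Classical in
/-- **(A1), sum form**: `a i` arbitrary functions of one variable. -/
theorem sum_expand {P : Finset Eis} (hP : PPSet P) (F : Eis → (ι → Fin 3) → ℝ) (M : ℕ)
    (a : ι → Eis → ℂ) :
    ∑ c ∈ Fintype.piFinset (fun _ : ι => primBall M), (fP P F c : ℂ) * ∏ i, a i (c i) =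
      ∑ E : Ix P ι, (K F E : ℂ) * ∏ i, ∑ c ∈ primBall (M / nm (D E i)), a i (D E i * c) := by
  have h1 : ∀ c : ι → Eis, (fP P F c : ℂ) * ∏ i, a i (c i) =
      ∑ E : Ix P ι, (K F E : ℂ) * ∏ i, (if D E i ∣ c i then a i (c i) else 0) := by
    intro c
    rw [expand hP F c]
    push_cast
    rw [Finset.sum_mul]
    refine Finset.sum_congr rfl fun E _ => ?_
    by_cases h : ∀ i, D E i ∣ c i
    · rw [if_pos h, Complex.ofReal_one, mul_one]
      congr 1
      exact Finset.prod_congr rfl fun i _ => by rw [if_pos (h i)]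
    · rw [if_neg h, Complex.ofReal_zero, mul_zero, zero_mul]
      push Not at h
      obtain ⟨i, hi⟩ := h
      rw [Finset.prod_eq_zero (Finset.mem_univ i) (if_neg hi), mul_zero]
  rw [Finset.sum_congr rfl fun c _ => h1 c, Finset.sum_comm]
  refine Finset.sum_congr rfl fun E _ => ?_
  rw [← Finset.mul_sum]
  congr 1
  rw [← Finset.prod_univ_sum (fun _ : ι => primBall M) (fun i x => if D E i ∣ x then a i x else 0)]
  refine Finset.prod_congr rfl fun i _ => ?_
  rw [← Finset.sum_filter, primBall_filter_dvd M (isPrim_D hP E i), Finset.sum_map]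
  rfl

/-- **(A1), character form** -/
theorem sum_expand_char {P : Finset Eis} (hP : PPSet P) (F : Eis → (ι → Fin 3) → ℝ) (M : ℕ)
    (χ : ι → Eis → ℂ) (hχ : ∀ i a b, χ i (a * b) = χ i a * χ i b) (w : ι → ℝ → ℂ) :
    ∑ c ∈ Fintype.piFinset (fun _ : ι => primBall M),
        (fP P F c : ℂ) * ∏ i, (χ i (c i) * w i (nm (c i))) =
      ∑ E : Ix P ι, (K F E : ℂ) * (∏ i, χ i (D E i)) *
        ∏ i, ∑ c ∈ primBall (M / nm (D E i)), χ i c * w i (nm (D E i) * nm c) := by
  refine (sum_expand hP F M (fun i x => χ i x * w i (nm x))).trans ?_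
  refine Finset.sum_congr rfl fun E _ => ?_
  rw [mul_assoc, ← Finset.prod_mul_distrib]
  congr 1
  refine Finset.prod_congr rfl fun i _ => ?_
  rw [Finset.mul_sum]
  refine Finset.sum_congr rfl fun c _ => ?_
  rw [hχ, nm_mul]
  push_cast
  ring

/-! ### the conditions -/

/-- conditions on a tuple: squarefree variables, coprime pairs, moduli -/
structure Cond (ι : Type*) where
  /-- variables required to be squarefree -/
  sq : Finset ι
  /-- pairs of variables required to be coprime -/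
  cop : Finset (ι × ι)
  /-- moduli -/
  n : ι → Eis

/-- the conditions hold -/
def Cond.Holds (C : Cond ι) (c : ι → Eis) : Prop :=
  (∀ i ∈ C.sq, Squarefree (c i)) ∧ (∀ ij ∈ C.cop, IsCoprime (c ij.1) (c ij.2)) ∧
    ∀ i, IsCoprime (c i) (C.n i)

/-- local form -/
def Cond.Loc (C : Cond ι) (p : Eis) (e : ι → Fin 3) : Prop :=
  (∀ i ∈ C.sq, e i ≤ 1) ∧ (∀ ij ∈ C.cop, e ij.1 = 0 ∨ e ij.2 = 0) ∧ ∀ i, p ∣ C.n i → e i = 0

open Classical in
/-- local indicator -/
def Cond.F (C : Cond ι) (p : Eis) (e : ι → Fin 3) : ℝ := if C.Loc p e then 1 else 0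

lemma Cond.abs_F_le (C : Cond ι) (p : Eis) (e : ι → Fin 3) : |C.F p e| ≤ 1 := by
  unfold Cond.F; split_ifs <;> simp

lemma Cond.F_zero (C : Cond ι) (p : Eis) : C.F p 0 = 1 := by
  unfold Cond.F
  rw [if_pos]
  exact ⟨fun _ _ => by simp, fun _ _ => Or.inl rfl, fun _ _ => rfl⟩

lemma Cond.F_single (C : Cond ι) (hC : ∀ ij ∈ C.cop, ij.1 ≠ ij.2) {p : Eis}
    (hp : ∀ i, ¬ p ∣ C.n i) (j : ι) : C.F p (Pi.single j 1) = C.F p 0 := by
  rw [C.F_zero]
  unfold Cond.F
  rw [if_pos]
  refine ⟨fun i _ => ?_, fun ij hij => ?_, fun i hi => absurd hi (hp i)⟩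
  · by_cases h : i = j
    · subst h; simp
    · rw [Pi.single_eq_of_ne h]; exact Fin.zero_le _
  · by_cases h : ij.1 = j
    · right
      rw [Pi.single_eq_of_ne]
      rintro rfl
      exact hC ij hij h
    · left
      rw [Pi.single_eq_of_ne h]

lemma isCoprime_iff_forall {a b : Eis} (ha : IsPrim a) (P : Finset Eis) (hP : PPSet P)
    (h : ∀ p, IsPP p → p ∣ a → p ∈ P) : IsCoprime a b ↔ ∀ p ∈ P, ¬ (p ∣ a ∧ p ∣ b) := by
  rw [isCoprime_iff_pp ha]
  constructor
  · intro h1 p hp h2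
    exact h1 p (hP p hp) h2.1 h2.2
  · intro h1 p hp h2 h3
    exact h1 p (h p hp h2) ⟨h2, h3⟩

open Classical in
/-- the product of the local indicators is the indicator of the conditions -/
theorem Cond.fP_eq (C : Cond ι) {P : Finset Eis} (hP : PPSet P) {c : ι → Eis}
    (hc : ∀ i, IsPrim (c i)) (h : ∀ i p, IsPP p → p ∣ c i → p ∈ P) :
    fP P C.F c = if C.Holds c then 1 else 0 := by
  have key : C.Holds c ↔ ∀ p ∈ P, C.Loc p (fun i => tr p (c i)) := by
    unfold Cond.Holds Cond.Loc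
    constructor
    · rintro ⟨h1, h2, h3⟩ p hp
      refine ⟨fun i hi => ?_, fun ij hij => ?_, fun i hi => ?_⟩
      · rw [tr_le_one]
        exact (squarefree_iff_pp (hc i)).1 (h1 i hi) p (hP p hp)
      · rw [tr_eq_zero, tr_eq_zero]
        have := (isCoprime_iff_forall (hc _) P hP (h _)).1 (h2 ij hij) p hp
        tauto
      · rw [tr_eq_zero]
        intro h4
        exact (isCoprime_iff_forall (hc _) P hP (h _)).1 (h3 i) p hp ⟨h4, hi⟩
    · intro h1
      refine ⟨fun i hi => ?_, fun ij hij => ?_, fun i => ?_⟩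
      · rw [squarefree_iff_pp (hc i)]
        intro p hp h2
        have hp' := h i p hp ((dvd_pow_self p two_ne_zero).trans h2)
        exact tr_le_one.1 ((h1 p hp').1 i hi) h2
      · rw [isCoprime_iff_forall (hc _) P hP (h _)]
        rintro p hp ⟨h2, h3⟩
        rcases (h1 p hp).2.1 ij hij with h4 | h4
        · exact tr_eq_zero.1 h4 h2
        · exact tr_eq_zero.1 h4 h3
      · rw [isCoprime_iff_forall (hc _) P hP (h _)]
        rintro p hp ⟨h2, h3⟩
        exact tr_eq_zero.1 ((h1 p hp).2.2 i h3) h2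
  by_cases hh : C.Holds c
  · rw [if_pos hh]
    refine Finset.prod_eq_one fun p _ => ?_
    exact if_pos (key.1 hh p p.2)
  · rw [if_neg hh]
    rw [key] at hh
    push Not at hh
    obtain ⟨p, hp, h1⟩ := hh
    exact Finset.prod_eq_zero (Finset.mem_univ (⟨p, hp⟩ : {p // p ∈ P})) (if_neg h1)

end Crest.Agent.R017.Amp271
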