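import Crest.Agent.R017.Amp2_271
import Crest.Agent.R012.Cheb_420

/-!
# Row 17, leaf BL5 (helper271), part 3: bounds for the coefficients

`Σ_E |κ(E)| ∏_i N(D_i)^{-1/2} ≤ C (1 + log M)^A τ(n)^A`, and the version with `M^ε N(n)^ε`.
-/

set_option autoImplicit false
set_option linter.unusedSectionVars false

noncomputable section

namespace Crest.Agent.R017.Amp271

open Finset Crest.Agent.R012 Crest.Agent.R012.Eis Crest.Agent.R012.Mob705 Crest.Agent.R012.Div277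

variable {ι : Type*} [Fintype ι] [DecidableEq ι]

/-- Euler product for the absolute sum -/
theorem sum_abs_K (P : Finset Eis) (F : Eis → (ι → Fin 3) → ℝ) (x : Eis → ℝ) :
    ∑ E : Ix P ι, |K F E| * ∏ p : {p // p ∈ P}, x p ^ wt (E p) =
      ∏ p : {p // p ∈ P}, ∑ e : ι → Fin 3, |kap (F p) e| * x p ^ wt e := by
  rw [prod_sum_fun]
  refine Finset.sum_congr rfl fun E _ => ?_
  rw [K, Finset.abs_prod, ← Finset.prod_mul_distrib]

lemma nm_D {P : Finset Eis} (E : Ix P ι) (i : ι) :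
    nm (D E i) = ∏ p : {p // p ∈ P}, nm (p : Eis) ^ (E p i : ℕ) := by
  have h : ∀ s : Finset {p // p ∈ P}, nm (∏ p ∈ s, (p : Eis) ^ (E p i : ℕ)) =
      ∏ p ∈ s, nm (p : Eis) ^ (E p i : ℕ) := by
    intro s
    classical
    induction s using Finset.induction_on with
    | empty => simp
    | insert a s ha ih => rw [Finset.prod_insert ha, Finset.prod_insert ha, nm_mul, nm_pow, ih]
  exact h _

lemma prod_nm_rpow {P : Finset Eis} (E : Ix P ι) (σ : ℝ) :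
    ∏ i, (nm (D E i) : ℝ) ^ (-σ) = ∏ p : {p // p ∈ P}, ((nm (p : Eis) : ℝ) ^ (-σ)) ^ wt (E p) := by
  have h : ∀ i, (nm (D E i) : ℝ) ^ (-σ) =
      ∏ p : {p // p ∈ P}, ((nm (p : Eis) : ℝ) ^ (-σ)) ^ (E p i : ℕ) := by
    intro i
    rw [nm_D]
    push_cast
    rw [← Real.finsetProd_rpow _ _ fun p _ => by positivity]
    refine Finset.prod_congr rfl fun p _ => ?_
    rw [← Real.rpow_natCast, ← Real.rpow_natCast, ← Real.rpow_mul (Nat.cast_nonneg _),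
      ← Real.rpow_mul (Nat.cast_nonneg _), mul_comm]
  rw [Finset.prod_congr rfl fun i _ => h i, Finset.prod_comm]
  refine Finset.prod_congr rfl fun p _ => ?_
  rw [wt, Finset.prod_pow_eq_pow_sum]

/-- `2^{ω(n)} ≤ τ(n)` -/
lemma two_pow_card_pp_le {n : Eis} (hn : n ≠ 0) : 2 ^ (pp n).card ≤ tau n := by
  classical
  rw [← Finset.card_powerset, tau]
  refine Finset.card_le_card_of_injOn (fun S => ∏ p ∈ S, p) ?_ ?_
  · intro S hS
    rw [Finset.mem_coe, Finset.mem_powerset] at hS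
    have hS' : PPSet S := (ppSet_pp n).subset hS
    rw [Finset.mem_coe, mem_dvs hn]
    exact ⟨hS'.isPrim_prod, hS'.prod_dvd.2 fun p hp => dvd_of_mem_pp (hS hp)⟩
  · intro S hS T hT h
    rw [Finset.mem_coe, Finset.mem_powerset] at hS hT
    have hS' : PPSet S := (ppSet_pp n).subset hS
    have hT' : PPSet T := (ppSet_pp n).subset hT
    have h1 : pp (∏ p ∈ S, p) = S := hS'.pp_prod
    have h2 : pp (∏ p ∈ T, p) = T := hT'.pp_prod
    simp only at h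
    rw [← h1, h, h2]

/-- Mertens upper bound for a finite set of primary primes -/
lemma sum_inv_le {P : Finset Eis} (hP : PPSet P) {z : ℝ} (hz : 2 ≤ z) (h : ∀ p ∈ P, (nm p : ℝ) ≤ z) :
    ∑ p ∈ P, 1 / (nm p : ℝ) ≤ 2 * Real.log (Real.log z) + 75 := by
  have h := Cheb420.sum_inv_le le_rfl hz P (fun p hp => hP p hp) (fun p hp => ⟨by
    have := (hP p hp).four_le_nm
    have h4 : (4 : ℝ) ≤ nm p := by exact_mod_cast this
    linarith, h p hp⟩)
  have l1 := Real.log_two_gt_d9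
  have l2 := Real.log_two_lt_d9
  have h1 : -Real.log (Real.log 2) ≤ 0.45 := by
    have h3 := Real.one_sub_inv_le_log_of_pos (show 0 < Real.log 2 by linarith)
    have h4 : (Real.log 2)⁻¹ ≤ 1.4 + 0.05 := by
      rw [inv_le_comm₀ (by linarith) (by norm_num)]; norm_num; linarith
    linarith
  have h2 : 50 / Real.log 2 ≤ 73 := by
    rw [div_le_iff₀ (by linarith)]; linarith
  linarith

/-- product over the good primes -/
lemma prod_good_le {P : Finset Eis} (hP : PPSet P) {M : ℝ} (hM : 1 ≤ M) (h : ∀ p ∈ P, (nm p : ℝ) ≤ M)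
    (c : ℕ) : ∏ p ∈ P, (1 + (c : ℝ) * (1 / (nm p : ℝ))) ≤
      Real.exp (75 * c) * (1 + Real.log M) ^ (2 * c) := by
  have hl : 0 ≤ Real.log M := Real.log_nonneg hM
  rcases P.eq_empty_or_nonempty with rfl | ⟨q, hq⟩
  · rw [Finset.prod_empty]
    have h1 : (1 : ℝ) ≤ Real.exp (75 * c) := Real.one_le_exp (by positivity)
    have h2 : (1 : ℝ) ≤ (1 + Real.log M) ^ (2 * c) := one_le_pow₀ (by linarith)
    nlinarith
  · have h4 : (4 : ℝ) ≤ M := by
      have := (hP q hq).four_le_nm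
      have h5 : (4 : ℝ) ≤ nm q := by exact_mod_cast this
      linarith [h q hq]
    have hl1 : 0 < Real.log M := Real.log_pos (by linarith)
    calc ∏ p ∈ P, (1 + (c : ℝ) * (1 / (nm p : ℝ)))
        ≤ ∏ p ∈ P, Real.exp ((c : ℝ) * (1 / (nm p : ℝ))) := by
          refine Finset.prod_le_prod (fun p _ => by positivity) fun p _ => ?_
          rw [add_comm]; exact Real.add_one_le_exp _
      _ = Real.exp (c * ∑ p ∈ P, 1 / (nm p : ℝ)) := by rw [← Real.exp_sum, Finset.mul_sum]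
      _ ≤ Real.exp (c * (2 * Real.log (Real.log M) + 75)) := by
          refine Real.exp_le_exp.2 (mul_le_mul_of_nonneg_left (sum_inv_le hP (by linarith) h) ?_)
          positivity
      _ = Real.exp (75 * c) * (Real.log M) ^ (2 * c) := by
          rw [← Real.rpow_natCast (Real.log M), Real.rpow_def_of_pos hl1, ← Real.exp_add]
          congr 1
          push_cast
          ring
      _ ≤ Real.exp (75 * c) * (1 + Real.log M) ^ (2 * c) := by gcongr; linarith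

/-- `1 + 6^r ≤ 2^(3r+1)` -/
lemma six_le (r : ℕ) : (1 : ℝ) + 6 ^ r ≤ 2 ^ (3 * r + 1) := by
  have h1 : (6 : ℝ) ^ r ≤ 8 ^ r := pow_le_pow_left₀ (by norm_num) (by norm_num) r
  have h2 : (2 : ℝ) ^ (3 * r + 1) = 8 ^ r * 2 := by rw [pow_succ, pow_mul]; norm_num
  have h3 : (1 : ℝ) ≤ 8 ^ r := one_le_pow₀ (by norm_num)
  linarith

/-- **(A2)** -/
theorem sum_K_half_le {P : Finset Eis} (hP : PPSet P) {M : ℝ} (hM : 1 ≤ M)
    (hPM : ∀ p ∈ P, (nm p : ℝ) ≤ M) {n : Eis} (hn : n ≠ 0) (F : Eis → (ι → Fin 3) → ℝ)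
    (hF : ∀ p a, |F p a| ≤ 1)
    (hFs : ∀ p ∈ P, ¬ p ∣ n → ∀ j, F p (Pi.single j 1) = F p 0) :
    ∑ E : Ix P ι, |K F E| * ∏ i, (nm (D E i) : ℝ) ^ (-(1 / 2) : ℝ) ≤
      (tau n : ℝ) ^ (3 * Fintype.card ι + 1) *
        (Real.exp (75 * (6 : ℝ) ^ Fintype.card ι) *
          (1 + Real.log M) ^ (2 * 6 ^ Fintype.card ι)) := by
  classical
  set r := Fintype.card ι with hr
  have e1 : ∀ E : Ix P ι, |K F E| * ∏ i, (nm (D E i) : ℝ) ^ (-(1 / 2) : ℝ) =
      |K F E| * ∏ p : {p // p ∈ P}, (fun q : Eis => ((nm q : ℝ) ^ (-(1 / 2) : ℝ))) p ^ wt (E p) := by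
    intro E; rw [prod_nm_rpow]
  rw [Finset.sum_congr rfl fun E _ => e1 E,
    sum_abs_K P F (fun q : Eis => ((nm q : ℝ) ^ (-(1 / 2) : ℝ)))]
  have hx : ∀ p ∈ P, (0 : ℝ) ≤ (nm p : ℝ) ^ (-(1 / 2) : ℝ) ∧ (nm p : ℝ) ^ (-(1 / 2) : ℝ) ≤ 1 ∧
      ((nm p : ℝ) ^ (-(1 / 2) : ℝ)) ^ 2 = 1 / (nm p : ℝ) := by
    intro p hp
    have h4 : (4 : ℝ) ≤ nm p := by exact_mod_cast (hP p hp).four_le_nm
    refine ⟨by positivity, Real.rpow_le_one_of_one_le_of_nonpos (by linarith) (by norm_num), ?_⟩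
    rw [← Real.rpow_natCast, ← Real.rpow_mul (by linarith), one_div ((nm p : ℝ)),
      ← Real.rpow_neg_one (nm p : ℝ)]
    congr 1; norm_num
  rw [Finset.prod_coe_sort P (fun p => ∑ e : ι → Fin 3, |kap (F p) e| *
    ((nm p : ℝ) ^ (-(1 / 2) : ℝ)) ^ wt e)]
  have hb : ∀ p ∈ P, ∑ e : ι → Fin 3, |kap (F p) e| * ((nm p : ℝ) ^ (-(1 / 2) : ℝ)) ^ wt e ≤
      (if p ∣ n then (2 : ℝ) ^ (3 * r + 1) else 1) * (1 + ((6 ^ r : ℕ) : ℝ) * (1 / (nm p : ℝ))) := by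
    intro p hp
    obtain ⟨h0, h1, h2⟩ := hx p hp
    have h3 : (1 : ℝ) ≤ 1 + ((6 ^ r : ℕ) : ℝ) * (1 / (nm p : ℝ)) := by
      have : (0 : ℝ) ≤ ((6 ^ r : ℕ) : ℝ) * (1 / (nm p : ℝ)) := by positivity
      linarith
    by_cases hpn : p ∣ n
    · rw [if_pos hpn]
      refine (local_bad (hF p) h0 h1).trans ?_
      have h4 : (6 : ℝ) ^ r * (nm p : ℝ) ^ (-(1 / 2) : ℝ) ≤ 6 ^ r := by
        exact mul_le_of_le_one_right (by positivity) h1
      have h5 := six_le r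
      have h6 : (0 : ℝ) < 2 ^ (3 * r + 1) := by positivity
      nlinarith
    · rw [if_neg hpn, one_mul]
      refine (local_good (hF p) (hFs p hp hpn) h0 h1).trans ?_
      rw [h2]; push_cast; exact le_rfl
  refine (Finset.prod_le_prod (fun p _ => Finset.sum_nonneg fun e _ =>
    mul_nonneg (abs_nonneg _) (by positivity)) hb).trans ?_
  rw [Finset.prod_mul_distrib]
  have h7 : ∏ p ∈ P, (if p ∣ n then (2 : ℝ) ^ (3 * r + 1) else 1) ≤ (tau n : ℝ) ^ (3 * r + 1) := by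
    rw [← Finset.prod_filter, Finset.prod_const]
    have h8 : (P.filter (fun p => p ∣ n)).card ≤ (pp n).card :=
      Finset.card_le_card fun p hp => by
        rw [Finset.mem_filter] at hp
        exact (mem_pp hn).2 ⟨hP p hp.1, hp.2⟩
    calc ((2 : ℝ) ^ (3 * r + 1)) ^ (P.filter (fun p => p ∣ n)).card
        ≤ ((2 : ℝ) ^ (3 * r + 1)) ^ (pp n).card :=
          pow_le_pow_right₀ (one_le_pow₀ (by norm_num)) h8
      _ = ((2 : ℝ) ^ (pp n).card) ^ (3 * r + 1) := by rw [← pow_mul, ← pow_mul, mul_comm]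
      _ ≤ (tau n : ℝ) ^ (3 * r + 1) := by
          refine pow_le_pow_left₀ (by positivity) ?_ _
          exact_mod_cast two_pow_card_pp_le hn
  have h9 := prod_good_le hP hM hPM (6 ^ r)
  have h10 : (75 : ℝ) * ((6 ^ r : ℕ) : ℝ) = 75 * (6 : ℝ) ^ r := by push_cast; ring
  rw [h10] at h9
  exact mul_le_mul h7 h9 (Finset.prod_nonneg fun p _ => by positivity) (by positivity)

/-- **(A2), epsilon form**: for every `r = card ι` and `ε > 0` there is a constant -/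
theorem sum_K_half_eps (ι : Type*) [Fintype ι] [DecidableEq ι] {ε : ℝ} (hε : 0 < ε) :
    ∃ C : ℝ, 1 ≤ C ∧ ∀ (P : Finset Eis), PPSet P → ∀ M : ℝ, 1 ≤ M → (∀ p ∈ P, (nm p : ℝ) ≤ M) →
      ∀ n : Eis, n ≠ 0 → ∀ F : Eis → (ι → Fin 3) → ℝ, (∀ p a, |F p a| ≤ 1) →
      (∀ p ∈ P, ¬ p ∣ n → ∀ j, F p (Pi.single j 1) = F p 0) →
      ∑ E : Ix P ι, |K F E| * ∏ i, (nm (D E i) : ℝ) ^ (-(1 / 2) : ℝ) ≤
        C * M ^ ε * (nm n : ℝ) ^ ε := by
  set r := Fintype.card ι with hr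
  obtain ⟨C1, hC1, h1⟩ := tau_le_rpow (ε := ε / (3 * r + 1)) (by positivity)
  have h2 := fun {X : ℝ} (hX : 1 ≤ X) => poly_log_le (2 * 6 ^ r) hX hε
  set C2 := (100 * (1 + ((2 * 6 ^ r : ℕ) : ℝ) / ε)) ^ (2 * 6 ^ r) with hC2
  have hC20 : 1 ≤ C2 := by
    rw [hC2]
    apply one_le_pow₀
    have : (0 : ℝ) ≤ ((2 * 6 ^ r : ℕ) : ℝ) / ε := by positivity
    linarith
  refine ⟨C1 ^ (3 * r + 1) * (Real.exp (75 * (6 : ℝ) ^ r) * C2), ?_, ?_⟩
  · have h3 : (1 : ℝ) ≤ C1 ^ (3 * r + 1) := one_le_pow₀ hC1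
    have h4 : (1 : ℝ) ≤ Real.exp (75 * (6 : ℝ) ^ r) := Real.one_le_exp (by positivity)
    have h5 : (1 : ℝ) ≤ Real.exp (75 * (6 : ℝ) ^ r) * C2 := by nlinarith
    nlinarith
  intro P hP M hM hPM n hn F hF hFs
  refine (sum_K_half_le hP hM hPM hn F hF hFs).trans ?_
  have hn1 : (1 : ℝ) ≤ nm n := by exact_mod_cast nm_pos.2 hn
  have h3 : (tau n : ℝ) ^ (3 * r + 1) ≤ C1 ^ (3 * r + 1) * (nm n : ℝ) ^ ε := by
    calc (tau n : ℝ) ^ (3 * r + 1) ≤ (C1 * (nm n : ℝ) ^ (ε / (3 * r + 1))) ^ (3 * r + 1) :=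
          pow_le_pow_left₀ (Nat.cast_nonneg _) (h1 n hn) _
      _ = C1 ^ (3 * r + 1) * (nm n : ℝ) ^ ε := by
          rw [mul_pow, ← Real.rpow_natCast ((nm n : ℝ) ^ (ε / (3 * r + 1))),
            ← Real.rpow_mul (by linarith)]
          congr 2
          push_cast
          field_simp
  have h4 : (1 + Real.log M) ^ (2 * 6 ^ r) ≤ C2 * M ^ ε := by
    refine le_trans ?_ (h2 hM)
    have : 0 ≤ Real.log M := Real.log_nonneg hM
    refine pow_le_pow_left₀ (by linarith) ?_ _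
    linarith
  calc (tau n : ℝ) ^ (3 * r + 1) * (Real.exp (75 * (6 : ℝ) ^ r) * (1 + Real.log M) ^ (2 * 6 ^ r))
      ≤ (C1 ^ (3 * r + 1) * (nm n : ℝ) ^ ε) * (Real.exp (75 * (6 : ℝ) ^ r) * (C2 * M ^ ε)) := by
        have : 0 ≤ Real.log M := Real.log_nonneg hM
        gcongr
    _ = _ := by ring

end Crest.Agent.R017.Amp271
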