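import Crest.Agent.R017.Amp3_271

/-!
# Row 17, leaf BL5 (helper271), part 4: final forms

* `PM M` : primary primes of norm `≤ M`
* `bl5_identity` : sum over tuples with the conditions `C` (squarefree / pairwise coprime / moduli)
  = `Σ_E κ(E) ∏ χ_i(D_i) ∏_i (one-variable sums)`
* `bl5_coeff` : `Σ_E |κ(E)| ∏ N(D_i)^{-1/2} ≤ C M^ε N(n)^ε`
* `bl5_family` : the family version: any bound `B ∏ N(D_i)^{-1/2}` for the products of the clean
  one-variable sums implies the bound `C M^ε N(n)^ε B` for the sums with conditions.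
-/

set_option autoImplicit false
set_option linter.unusedSectionVars false

noncomputable section

namespace Crest.Agent.R017.Amp271

open Finset Crest.Agent.R012 Crest.Agent.R012.Eis Crest.Agent.R012.Mob705 Crest.Agent.R012.Div277

variable {ι : Type*} [Fintype ι] [DecidableEq ι]

open Classical in
/-- primary primes of norm at most `M` -/
def PM (M : ℕ) : Finset Eis := (primBall M).filter Prime

lemma mem_PM {M : ℕ} {p : Eis} : p ∈ PM M ↔ nm p ≤ M ∧ IsPP p := by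
  classical
  rw [PM, Finset.mem_filter, mem_primBall]
  unfold IsPP
  tauto

lemma ppSet_PM (M : ℕ) : PPSet (PM M) := fun _ hp => (mem_PM.1 hp).2

lemma PM_le {M : ℕ} : ∀ p ∈ PM M, (nm p : ℝ) ≤ M := fun p hp => by exact_mod_cast (mem_PM.1 hp).1

open Classical in
/-- **BL5, identity** -/
theorem bl5_identity (C : Cond ι) (M : ℕ) (χ : ι → Eis → ℂ)
    (hχ : ∀ i a b, χ i (a * b) = χ i a * χ i b) (w : ι → ℝ → ℂ) :
    ∑ c ∈ Fintype.piFinset (fun _ : ι => primBall M),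
        (if C.Holds c then ∏ i, (χ i (c i) * w i (nm (c i))) else 0) =
      ∑ E : Ix (PM M) ι, (K C.F E : ℂ) * (∏ i, χ i (D E i)) *
        ∏ i, ∑ c ∈ primBall (M / nm (D E i)), χ i c * w i (nm (D E i) * nm c) := by
  rw [← sum_expand_char (ppSet_PM M) C.F M χ hχ w]
  refine Finset.sum_congr rfl fun c hc => ?_
  rw [Fintype.mem_piFinset] at hc
  rw [C.fP_eq (ppSet_PM M) (fun i => (mem_primBall.1 (hc i)).2) fun i p hp hpc => mem_PM.2
    ⟨(nm_le_of_dvd (mem_primBall.1 (hc i)).2.ne_zero hpc).trans (mem_primBall.1 (hc i)).1, hp⟩]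
  split_ifs <;> simp

/-- **BL5, coefficients** -/
theorem bl5_coeff (ι : Type*) [Fintype ι] [DecidableEq ι] {ε : ℝ} (hε : 0 < ε) :
    ∃ B : ℝ, 1 ≤ B ∧ ∀ (C : Cond ι), (∀ ij ∈ C.cop, ij.1 ≠ ij.2) → ∀ n : Eis, n ≠ 0 →
      (∀ i, C.n i ∣ n) → ∀ M : ℕ, 1 ≤ M →
      ∑ E : Ix (PM M) ι, |K C.F E| * ∏ i, (nm (D E i) : ℝ) ^ (-(1 / 2) : ℝ) ≤
        B * (M : ℝ) ^ ε * (nm n : ℝ) ^ ε := by
  obtain ⟨B, hB, h⟩ := sum_K_half_eps ι hε
  refine ⟨B, hB, fun C hC n hn hCn M hM => ?_⟩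
  exact h (PM M) (ppSet_PM M) M (by exact_mod_cast hM) PM_le n hn C.F (C.abs_F_le)
    fun p _ hpn j => C.F_single hC (fun i hi => hpn (hi.trans (hCn i))) j

/-- polylogarithmic form of the coefficient bound -/
theorem bl5_coeff_log (C : Cond ι) (hC : ∀ ij ∈ C.cop, ij.1 ≠ ij.2) {n : Eis} (hn : n ≠ 0)
    (hCn : ∀ i, C.n i ∣ n) {M : ℕ} (hM : 1 ≤ M) :
    ∑ E : Ix (PM M) ι, |K C.F E| * ∏ i, (nm (D E i) : ℝ) ^ (-(1 / 2) : ℝ) ≤
      (tau n : ℝ) ^ (3 * Fintype.card ι + 1) *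
        (Real.exp (75 * (6 : ℝ) ^ Fintype.card ι) *
          (1 + Real.log M) ^ (2 * 6 ^ Fintype.card ι)) :=
  sum_K_half_le (ppSet_PM M) (by exact_mod_cast hM) PM_le hn C.F C.abs_F_le
    fun p _ hpn j => C.F_single hC (fun i hi => hpn (hi.trans (hCn i))) j

lemma primBall_div_eq_empty {M : ℕ} {d : Eis} (h : M < nm d) : primBall (M / nm d) = ∅ := by
  rw [Nat.div_eq_of_lt h]
  refine Finset.eq_empty_of_forall_notMem fun z hz => ?_
  rw [mem_primBall] at hz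
  exact hz.2.ne_zero (nm_eq_zero.1 (by omega))

/-- the clean one-variable sum attached to a divisor -/
def P1 (M : ℕ) (χ : Eis → ℂ) (w : ℝ → ℂ) (d : Eis) : ℂ :=
  ∑ c ∈ primBall (M / nm d), χ c * w (nm d * nm c)

open Classical in
/-- the sum with conditions -/
def A1 (C : Cond ι) (M : ℕ) (χ : ι → Eis → ℂ) (w : ι → ℝ → ℂ) : ℂ :=
  ∑ c ∈ Fintype.piFinset (fun _ : ι => primBall M),
    (if C.Holds c then ∏ i, (χ i (c i) * w i (nm (c i))) else 0)

theorem norm_A1_le (C : Cond ι) (M : ℕ) {χ : ι → Eis → ℂ}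
    (hχ : ∀ i a b, χ i (a * b) = χ i a * χ i b) (hχ1 : ∀ i a, ‖χ i a‖ ≤ 1) (w : ι → ℝ → ℂ) :
    ‖A1 C M χ w‖ ≤ ∑ E : Ix (PM M) ι, |K C.F E| * ∏ i, ‖P1 M (χ i) (w i) (D E i)‖ := by
  rw [A1, bl5_identity C M χ hχ w]
  refine (norm_sum_le _ _).trans (Finset.sum_le_sum fun E _ => ?_)
  rw [norm_mul, norm_mul, norm_prod, norm_prod, Complex.norm_real, Real.norm_eq_abs]
  have h1 : ∏ i, ‖χ i (D E i)‖ ≤ 1 := Finset.prod_le_one (fun _ _ => norm_nonneg _) fun i _ => hχ1 i _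
  have h2 : 0 ≤ ∏ i, ‖P1 M (χ i) (w i) (D E i)‖ := Finset.prod_nonneg fun _ _ => norm_nonneg _
  calc |K C.F E| * (∏ i, ‖χ i (D E i)‖) * ∏ i, ‖P1 M (χ i) (w i) (D E i)‖
      ≤ |K C.F E| * 1 * ∏ i, ‖P1 M (χ i) (w i) (D E i)‖ :=
        mul_le_mul_of_nonneg_right (mul_le_mul_of_nonneg_left h1 (abs_nonneg _)) h2
    _ = _ := by rw [mul_one]

/-- **BL5, family form.** `H` finite family, `X h ≥ 0` weights; characters `χ h i`, weights `w h i`.
If for all divisor tuples `d` (primary, norms `≤ M`) the clean products satisfy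
`Σ_h (∏_i |P1|) X_h ≤ B ∏ N(d_i)^{-1/2}` then the sums with conditions satisfy
`Σ_h |A1| X_h ≤ C_ε M^ε N(n)^ε B`. -/
theorem bl5_family (ι : Type*) [Fintype ι] [DecidableEq ι] {ε : ℝ} (hε : 0 < ε) :
    ∃ Cε : ℝ, 1 ≤ Cε ∧ ∀ (C : Cond ι), (∀ ij ∈ C.cop, ij.1 ≠ ij.2) → ∀ n : Eis, n ≠ 0 →
      (∀ i, C.n i ∣ n) → ∀ M : ℕ, 1 ≤ M →
      ∀ {η : Type} (H : Finset η) (X : η → ℝ), (∀ h ∈ H, 0 ≤ X h) →
      ∀ (χ : η → ι → Eis → ℂ), (∀ h i a b, χ h i (a * b) = χ h i a * χ h i b) →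
      (∀ h i a, ‖χ h i a‖ ≤ 1) → ∀ (w : η → ι → ℝ → ℂ) (B : ℝ), 0 ≤ B →
      (∀ d : ι → Eis, (∀ i, IsPrim (d i) ∧ nm (d i) ≤ M) →
        ∑ h ∈ H, (∏ i, ‖P1 M (χ h i) (w h i) (d i)‖) * X h ≤
          B * ∏ i, (nm (d i) : ℝ) ^ (-(1 / 2) : ℝ)) →
      ∑ h ∈ H, ‖A1 C M (χ h) (w h)‖ * X h ≤ Cε * (M : ℝ) ^ ε * (nm n : ℝ) ^ ε * B := by
  obtain ⟨Cε, hC1, hco⟩ := bl5_coeff ι hε
  refine ⟨Cε, hC1, ?_⟩
  intro C hC n hn hCn M hM η H X hX χ hχ hχ1 w B hB hyp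
  have h1 : ∑ h ∈ H, ‖A1 C M (χ h) (w h)‖ * X h ≤
      ∑ E : Ix (PM M) ι, |K C.F E| * ∑ h ∈ H, (∏ i, ‖P1 M (χ h i) (w h i) (D E i)‖) * X h := by
    calc ∑ h ∈ H, ‖A1 C M (χ h) (w h)‖ * X h
        ≤ ∑ h ∈ H, (∑ E : Ix (PM M) ι, |K C.F E| * ∏ i, ‖P1 M (χ h i) (w h i) (D E i)‖) * X h :=
          Finset.sum_le_sum fun h hh =>
            mul_le_mul_of_nonneg_right (norm_A1_le C M (hχ h) (hχ1 h) (w h)) (hX h hh)
      _ = _ := by
          rw [Finset.sum_congr rfl fun h _ => Finset.sum_mul _ _ (X h), Finset.sum_comm]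
          refine Finset.sum_congr rfl fun E _ => ?_
          rw [Finset.mul_sum]
          exact Finset.sum_congr rfl fun h _ => by ring
  have h2 : ∀ E : Ix (PM M) ι, |K C.F E| *
      ∑ h ∈ H, (∏ i, ‖P1 M (χ h i) (w h i) (D E i)‖) * X h ≤
      |K C.F E| * (B * ∏ i, (nm (D E i) : ℝ) ^ (-(1 / 2) : ℝ)) := by
    intro E
    refine mul_le_mul_of_nonneg_left ?_ (abs_nonneg _)
    by_cases hE : ∀ i, nm (D E i) ≤ M
    · exact hyp _ fun i => ⟨isPrim_D (ppSet_PM M) E i, hE i⟩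
    · push Not at hE
      obtain ⟨i, hi⟩ := hE
      have : ∀ h ∈ H, (∏ i, ‖P1 M (χ h i) (w h i) (D E i)‖) * X h = 0 := by
        intro h _
        rw [Finset.prod_eq_zero (Finset.mem_univ i), zero_mul]
        rw [P1, primBall_div_eq_empty hi, Finset.sum_empty, norm_zero]
      rw [Finset.sum_eq_zero this]
      exact mul_nonneg hB (Finset.prod_nonneg fun _ _ => Real.rpow_nonneg (Nat.cast_nonneg _) _)
  refine h1.trans ((Finset.sum_le_sum fun E _ => h2 E).trans ?_)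
  have h3 : ∑ E : Ix (PM M) ι, |K C.F E| * (B * ∏ i, (nm (D E i) : ℝ) ^ (-(1 / 2) : ℝ)) =
      (∑ E : Ix (PM M) ι, |K C.F E| * ∏ i, (nm (D E i) : ℝ) ^ (-(1 / 2) : ℝ)) * B := by
    rw [Finset.sum_mul]
    exact Finset.sum_congr rfl fun E _ => by ring
  rw [h3]
  exact mul_le_mul_of_nonneg_right (hco C hC n hn hCn M hM) hB

/-! ### the standard condition: product squarefree and coprime to `n` -/

/-- all variables squarefree, pairwise coprime, coprime to `n` -/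
def stdCond (ι : Type*) [Fintype ι] [DecidableEq ι] (n : Eis) : Cond ι where
  sq := Finset.univ
  cop := Finset.univ.filter fun ij => ij.1 ≠ ij.2
  n := fun _ => n

lemma stdCond_cop (n : Eis) : ∀ ij ∈ (stdCond ι n).cop, ij.1 ≠ ij.2 := fun _ h =>
  (Finset.mem_filter.1 h).2

theorem stdCond_holds {n : Eis} {c : ι → Eis} :
    (stdCond ι n).Holds c ↔ Squarefree (∏ i, c i) ∧ IsCoprime (∏ i, c i) n := by
  unfold Cond.Holds stdCond
  simp only [Finset.mem_univ, true_implies, Finset.mem_filter, true_and]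
  rw [IsCoprime.prod_left_iff]
  have h1 : Squarefree (∏ i, c i) ↔ (∀ i, Squarefree (c i)) ∧
      ∀ ij : ι × ι, ij.1 ≠ ij.2 → IsCoprime (c ij.1) (c ij.2) := by
    constructor
    · intro h
      refine ⟨fun i => h.squarefree_of_dvd (Finset.dvd_prod_of_mem c (Finset.mem_univ i)), ?_⟩
      rintro ⟨i, j⟩ hij
      have h2 : c i * c j ∣ ∏ i, c i := by
        rw [← Finset.mul_prod_erase _ _ (Finset.mem_univ i)]
        exact mul_dvd_mul_left _ (Finset.dvd_prod_of_mem c (Finset.mem_erase.2 ⟨hij.symm,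
          Finset.mem_univ j⟩))
      exact (squarefree_mul_iff.1 (h.squarefree_of_dvd h2)).1.isCoprime
    · rintro ⟨h2, h3⟩
      have : ∀ s : Finset ι, Squarefree (∏ i ∈ s, c i) := by
        intro s
        induction s using Finset.induction_on with
        | empty => simp
        | insert a s ha ih =>
          rw [Finset.prod_insert ha]
          refine squarefree_mul_iff.2 ⟨(IsCoprime.prod_right fun j hj => ?_).isRelPrime, h2 a, ih⟩
          exact h3 (a, j) fun h => ha (by simpa using (show a = j from h) ▸ hj)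
      exact this _
  rw [h1]
  simp only [Finset.mem_univ, true_implies]
  tauto

end Crest.Agent.R017.Amp271
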