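import Crest.Agent.R017.XnB_590
import Crest.Agent.R012.Four_813

/-!
# Row 17, section F: radial test functions (helper92, AF3 part 1)

`wt V l x = V(|x|²) (x/|x|)^l`, `V ∈ C_c^∞(0, ∞)`:

* `datN_wt`: admissible data; the moment conditions hold automatically for `l ≠ 0`
* `Rot l f`: central type; inherited by `Φ`, `f_+`, `f°`
* scaling: `Phi_scale`, `fPn_scale`, `fOn_scale`
-/

set_option autoImplicit false

noncomputable section

open MeasureTheory Complex Set Filter Topology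
open scoped ContDiff

namespace Crest.Agent.R017.Wt92

open Crest.Agent.R012 Crest.Agent.R012.Eis Crest.Agent.R012.K695
open Crest.Agent.R012.Four813 (phat)
open Crest.Agent.R017.F1 Crest.Agent.R017.Xn590
open Crest.Agent.R017.Xi590 (CS)

/-! ### the spherical character -/

/-- `(x/|x|)^l`. -/
def sph (l : ℤ) (x : ℂ) : ℂ := (x / (‖x‖ : ℂ)) ^ l

lemma ang_eq (l : ℤ) (z : Eis) : ang l z = sph l (toC z) := rfl

lemma sph_mul (l : ℤ) (x y : ℂ) : sph l (x * y) = sph l x * sph l y := by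
  unfold sph
  rw [norm_mul, Complex.ofReal_mul, mul_div_mul_comm, mul_zpow]

lemma sph_of_norm_one (l : ℤ) {u : ℂ} (hu : ‖u‖ = 1) : sph l u = u ^ l := by
  unfold sph
  rw [hu, Complex.ofReal_one, div_one]

lemma sph_of_pos (l : ℤ) {t : ℝ} (ht : 0 < t) : sph l (t : ℂ) = 1 := by
  unfold sph
  rw [Complex.norm_real, Real.norm_of_nonneg ht.le, div_self, one_zpow]
  exact_mod_cast ht.ne'

lemma norm_sph (l : ℤ) {x : ℂ} (hx : x ≠ 0) : ‖sph l x‖ = 1 := by
  unfold sph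
  have h : ‖x‖ ≠ 0 := norm_ne_zero_iff.mpr hx
  rw [norm_zpow, norm_div, Complex.norm_real, norm_norm, div_self h, one_zpow]

lemma norm_sph_le (l : ℤ) (x : ℂ) : ‖sph l x‖ ≤ 1 := by
  by_cases hx : x = 0
  · subst hx
    unfold sph
    simp only [norm_zero, Complex.ofReal_zero, div_zero]
    by_cases hl : l = 0
    · subst hl; simp
    · rw [zero_zpow l hl]; simp
  · exact (norm_sph l hx).le

lemma sph_add (k l : ℤ) {x : ℂ} (hx : x ≠ 0) : sph (k + l) x = sph k x * sph l x := by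
  unfold sph
  refine zpow_add₀ ?_ _ _
  have h : ‖x‖ ≠ 0 := norm_ne_zero_iff.mpr hx
  exact div_ne_zero hx (by exact_mod_cast h)

lemma sph_neg_arg (l : ℤ) (x : ℂ) : sph l (-x) = (-1) ^ l * sph l x := by
  have h : (-x) = (-1) * x := by ring
  rw [h, sph_mul, sph_of_norm_one l (by simp)]

lemma contDiffAt_sph (l : ℤ) {x : ℂ} (hx : x ≠ 0) : ContDiffAt ℝ ∞ (sph l) x := by
  have hn : ‖x‖ ≠ 0 := norm_ne_zero_iff.mpr hx
  have h1 : ContDiffAt ℝ ∞ (fun s : ℂ => ((‖s‖ : ℝ) : ℂ)) x :=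
    (Complex.ofRealCLM.contDiff.contDiffAt).comp x (contDiffAt_norm ℝ hx)
  have hn' : ((‖x‖ : ℝ) : ℂ) ≠ 0 := by exact_mod_cast hn
  have h2 : ContDiffAt ℝ ∞ (fun s : ℂ => s / ((‖s‖ : ℝ) : ℂ)) x := by
    simp only [div_eq_mul_inv]
    exact ContDiffAt.mul contDiffAt_id (h1.inv hn')
  have h3 : x / ((‖x‖ : ℝ) : ℂ) ≠ 0 := div_ne_zero hx (by exact_mod_cast hn)
  unfold sph
  cases l with
  | ofNat k =>
    simp only [Int.ofNat_eq_natCast, zpow_natCast]
    exact h2.pow k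
  | negSucc k =>
    simp only [zpow_negSucc]
    exact (h2.pow (k + 1)).inv (pow_ne_zero _ h3)

/-! ### weights -/

/-- `V ∈ C_c^∞(0, ∞)`. -/
structure VD (V : ℝ → ℂ) : Prop where
  smooth : ContDiff ℝ ∞ V
  supp : ∃ a b : ℝ, 0 < a ∧ a < b ∧ ∀ y, y < a ∨ b < y → V y = 0

lemma VD.zero {V : ℝ → ℂ} (h : VD V) : V 0 = 0 := by
  obtain ⟨a, b, ha, _, hs⟩ := h.supp
  exact hs 0 (Or.inl ha)

/-- `V(|x|²) (x/|x|)^l`. -/
def wt (V : ℝ → ℂ) (l : ℤ) (x : ℂ) : ℂ := V (‖x‖ ^ 2) * sph l x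

lemma wt_zero {V : ℝ → ℂ} (h : VD V) (l : ℤ) : wt V l 0 = 0 := by
  unfold wt
  have : V (‖(0 : ℂ)‖ ^ 2) = 0 := by
    rw [norm_zero, zero_pow two_ne_zero]; exact h.zero
  rw [this, zero_mul]

lemma VD.cs {V : ℝ → ℂ} (h : VD V) (l : ℤ) : CS (wt V l) := by
  obtain ⟨a, b, ha, hab, hs⟩ := h.supp
  refine CS.of (a := Real.sqrt a) (b := Real.sqrt b) (fun x hx => ?_) (Real.sqrt_pos.mpr ha)
    (Real.sqrt_lt_sqrt ha.le hab) ?_
  · unfold wt
    refine ContDiffAt.mul ?_ (contDiffAt_sph l hx)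
    exact h.smooth.contDiffAt.comp x ((contDiffAt_norm ℝ hx).pow 2)
  · intro x hx
    unfold wt
    have h0 := norm_nonneg x
    rw [hs (‖x‖ ^ 2), zero_mul]
    rcases hx with hx | hx
    · left
      have := pow_lt_pow_left₀ hx h0 two_ne_zero
      rwa [Real.sq_sqrt ha.le] at this
    · right
      have := pow_lt_pow_left₀ hx (Real.sqrt_nonneg _) two_ne_zero
      rwa [Real.sq_sqrt (ha.le.trans hab.le)] at this

/-! ### rotations -/

/-- central type `l`. -/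
def Rot (l : ℤ) (f : ℂ → ℂ) : Prop := ∀ u : ℂ, ‖u‖ = 1 → ∀ x, f (u * x) = u ^ l * f x

lemma rot_sph (l : ℤ) : Rot l (sph l) := fun u hu x => by rw [sph_mul, sph_of_norm_one l hu]

lemma rot_wt (V : ℝ → ℂ) (l : ℤ) : Rot l (wt V l) := fun u hu x => by
  unfold wt
  rw [norm_mul, hu, one_mul, sph_mul, sph_of_norm_one l hu]
  ring

/-- a function of central type `l` is determined by its radial part. -/
lemma Rot.eq {l : ℤ} {f : ℂ → ℂ} (h : Rot l f) {x : ℂ} (hx : x ≠ 0) :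
    f x = f (‖x‖ : ℂ) * sph l x := by
  have hn : (‖x‖ : ℂ) ≠ 0 := by exact_mod_cast norm_ne_zero_iff.mpr hx
  have h1 : ‖x / (‖x‖ : ℂ)‖ = 1 := by
    rw [norm_div, Complex.norm_real, norm_norm, div_self (norm_ne_zero_iff.mpr hx)]
  have h2 := h _ h1 (‖x‖ : ℂ)
  rw [div_mul_cancel₀ _ hn] at h2
  rw [h2]
  unfold sph
  ring

lemma integral_rot (f : ℂ → ℂ) {u : ℂ} (hu : ‖u‖ = 1) : ∫ x, f (u * x) = ∫ x, f x := by
  have hu0 : u ≠ 0 := by
    intro h
    rw [h, norm_zero] at hu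
    exact zero_ne_one hu
  have := Four813.integral_comp_mul_left' hu0 f
  rw [hu, one_pow, one_smul] at this
  exact this.symm

lemma exists_rot {l : ℤ} (hl : l ≠ 0) : ∃ u : ℂ, ‖u‖ = 1 ∧ u ^ l ≠ 1 := by
  refine ⟨Complex.exp (((Real.pi / l : ℝ) : ℂ) * I), Complex.norm_exp_ofReal_mul_I _, ?_⟩
  rw [← Complex.exp_int_mul]
  have h : (l : ℂ) * (((Real.pi / l : ℝ) : ℂ) * I) = Real.pi * I := by
    have : (l : ℂ) ≠ 0 := by exact_mod_cast hl
    push_cast
    field_simp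
  rw [h, Complex.exp_pi_mul_I]
  norm_num

lemma Rot.integral_eq_zero {l : ℤ} (hl : l ≠ 0) {f : ℂ → ℂ} (h : Rot l f) : ∫ x, f x = 0 := by
  obtain ⟨u, hu, hul⟩ := exists_rot hl
  have h1 := integral_rot f hu
  have h2 : ∫ x, f (u * x) = u ^ l * ∫ x, f x := by
    rw [← integral_const_mul]
    exact integral_congr_ae (Eventually.of_forall fun x => h u hu x)
  rw [h2] at h1
  have h3 : (u ^ l - 1) * ∫ x, f x = 0 := by linear_combination h1
  exact (mul_eq_zero.mp h3).resolve_left (sub_ne_zero.mpr hul)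

lemma Rot.Phi {l : ℤ} {f : ℂ → ℂ} (h : Rot l f) : Rot l (F1.Phi f) := by
  intro u hu y
  have hu0 : u ≠ 0 := by
    intro h
    rw [h, norm_zero] at hu
    exact zero_ne_one hu
  unfold F1.Phi
  rw [← integral_rot (fun p => f p * eC (-(u * y / p))) hu, ← integral_const_mul]
  refine integral_congr_ae (Eventually.of_forall fun p => ?_)
  simp only
  rw [h u hu, mul_div_mul_left _ _ hu0, mul_assoc]

lemma Rot.integral_Phi_pow {l : ℤ} (hl : l ≠ 0) {f : ℂ → ℂ} (h : Rot l f) {n : ℕ} (hn : n ≠ 0) :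
    ∫ m : ℂ, F1.Phi f (m ^ n) = 0 := by
  have h1 : Rot (n * l) (fun m => F1.Phi f (m ^ n)) := by
    intro u hu m
    simp only
    rw [mul_pow, h.Phi (u ^ n) (by rw [norm_pow, hu, one_pow]), ← zpow_natCast u n, ← zpow_mul]
  exact h1.integral_eq_zero (mul_ne_zero (by exact_mod_cast hn) hl)

/-- **(W1)** the radial functions are admissible data. -/
theorem datN_wt {V : ℝ → ℂ} (h : VD V) {n : ℕ} (hn : n ≠ 0) {l : ℤ} {ξ : Eis → ℂ}
    (hξ : ξ 0 = 0 ∨ l ≠ 0) : DatN n ((-1) ^ l) ξ (wt V l) where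
  smooth := (h.cs l).smooth
  supp := (h.cs l).supp
  par x := by
    unfold wt
    rw [norm_neg, sph_neg_arg]
    ring
  mom := by
    rcases hξ with h0 | hl
    · exact Or.inl h0
    · exact Or.inr ⟨(rot_wt V l).integral_eq_zero hl, (rot_wt V l).integral_Phi_pow hl hn⟩

/-! ### scaling -/

lemma fPn_scale (n : ℕ) (ξ : Eis → ℂ) (f : ℂ → ℂ) (X x : ℂ) :
    fPn n ξ (fun z => f (z / X)) x = fPn n ξ f (x / X) := by
  unfold fPn
  congr 1
  refine tsum_congr fun e => ?_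
  simp only
  rw [mul_div_assoc]

lemma Phi_scale (f : ℂ → ℂ) {X : ℂ} (hX : X ≠ 0) (y : ℂ) :
    F1.Phi (fun z => f (z / X)) y = ((‖X‖ ^ 2 : ℝ) : ℂ) * F1.Phi f (y / X) := by
  unfold F1.Phi
  rw [Four813.integral_comp_mul_left' hX, Complex.real_smul]
  congr 1
  refine integral_congr_ae (Eventually.of_forall fun p => ?_)
  simp only
  rw [mul_div_cancel_left₀ _ hX, div_div]

lemma fOn_scale (n : ℕ) (ξ : Eis → ℂ) (V : ℝ) (h0 B : ℂ) (f : ℂ → ℂ) {X : ℂ} (hX : X ≠ 0)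
    (u : ℂ) : fOn n ξ V h0 B (fun z => f (z / X)) u =
      ((‖X‖ ^ 2 : ℝ) : ℂ) * fOn n ξ V h0 B f (u / X) := by
  classical
  unfold fOn
  have h1 : ∀ m : Eis, (if m = 0 then (0 : ℂ) else
      ξ m * F1.Phi (fun z => f (z / X)) (u * h0 * toC m ^ n)) =
      ((‖X‖ ^ 2 : ℝ) : ℂ) * (if m = 0 then (0 : ℂ) else
        ξ m * F1.Phi f (u / X * h0 * toC m ^ n)) := by
    intro m
    by_cases hm : m = 0
    · simp [hm]
    · rw [if_neg hm, if_neg hm, Phi_scale f hX]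
      have : u * h0 * toC m ^ n / X = u / X * h0 * toC m ^ n := by ring
      rw [this]
      ring
  rw [tsum_congr h1, tsum_mul_left]
  ring

lemma Rot.fPn {l : ℤ} {f : ℂ → ℂ} (h : Rot l f) (n : ℕ) (ξ : Eis → ℂ) :
    Rot l (Xn590.fPn n ξ f) := by
  intro u hu x
  unfold Xn590.fPn
  have h1 : ∀ e : Eis, ξ e * ((nm e : ℂ) ^ (n - 1) * f (toC e ^ n * (u * x))) =
      u ^ l * (ξ e * ((nm e : ℂ) ^ (n - 1) * f (toC e ^ n * x))) := by
    intro e
    have : toC e ^ n * (u * x) = u * (toC e ^ n * x) := by ring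
    rw [this, h u hu]
    ring
  rw [tsum_congr h1, tsum_mul_left]
  ring

lemma Rot.fOn {l : ℤ} {f : ℂ → ℂ} (h : Rot l f) (n : ℕ) (ξ : Eis → ℂ) (V : ℝ) (h0 B : ℂ) :
    Rot l (Xn590.fOn n ξ V h0 B f) := by
  classical
  intro u hu x
  unfold Xn590.fOn
  have h1 : ∀ m : Eis, (if m = 0 then (0 : ℂ) else
      ξ m * F1.Phi f (u * x * h0 * toC m ^ n)) =
      u ^ l * (if m = 0 then (0 : ℂ) else ξ m * F1.Phi f (x * h0 * toC m ^ n)) := by
    intro m
    by_cases hm : m = 0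
    · simp [hm]
    · rw [if_neg hm, if_neg hm]
      have : u * x * h0 * toC m ^ n = u * (x * h0 * toC m ^ n) := by ring
      rw [this, h.Phi u hu]
      ring
  rw [tsum_congr h1, tsum_mul_left]
  ring

end Crest.Agent.R017.Wt92
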