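import Crest.Agent.R017.XnB_590

/-!
Row 17, section F / A (helper590): the functions `f°`, `G°`, `f_+` (general `n`, `ξ`, parity `s`).
-/

set_option autoImplicit false

noncomputable section

open Complex MeasureTheory Set Filter Topology
open scoped FourierTransform ContDiff SchwartzMap ComplexConjugate

namespace Crest.Agent.R017.Xn590

open Crest.Agent.R012 Crest.Agent.R012.Eis Crest.Agent.R012.Po581
open Crest.Agent.R017.Xi590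

lemma F1Phi (f : ℂ → ℂ) : F1.Phi f = Phi f := rfl

/-! ### general facts -/

lemma dil_bound {R : 𝓢(ℂ, ℂ)} {C : ℝ} (hC : ∀ x, ‖R x‖ * (1 + ‖x‖) ^ 3 ≤ C) {d r : ℝ}
    (hd0 : 0 < d) (hd1 : d ≤ 1) (hr : 0 ≤ r) {x : ℂ} (hx : d * r ≤ ‖x‖) :
    ‖R x‖ ≤ C * (d ^ 3)⁻¹ * ((1 + r) ^ 3)⁻¹ := by
  rw [← div_eq_mul_inv, ← div_eq_mul_inv, div_div, le_div_iff₀ (by positivity)]
  calc ‖R x‖ * (d ^ 3 * (1 + r) ^ 3) = ‖R x‖ * (d * (1 + r)) ^ 3 := by ring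
    _ ≤ ‖R x‖ * (1 + ‖x‖) ^ 3 := by
        gcongr
        nlinarith
    _ ≤ C := hC x

lemma norm_toC_le_pow {n : ℕ} (hn : n ≠ 0) (m : Eis) : ‖toC m‖ ≤ ‖toC m ^ n‖ := by
  rw [norm_pow]
  by_cases hm : m = 0
  · subst hm; simp [hn]
  · exact le_self_pow₀ (one_le_norm_toC hm) hn

/-- `|m|^{-4} ≤ 16 (1+|m|)^{-3}` -/
lemma inv_norm_pow_le {n : ℕ} (hn : 2 ≤ n) {m : Eis} (hm : m ≠ 0) :
    (‖toC m ^ n‖ ^ 2)⁻¹ ≤ 16 * ((1 + ‖toC m‖) ^ 3)⁻¹ := by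
  have h1 := one_le_norm_toC hm
  have h2 : 0 < ‖toC m‖ := by linarith
  rw [norm_pow, ← pow_mul, ← div_eq_mul_inv, inv_eq_one_div,
    div_le_div_iff₀ (by positivity) (by positivity), one_mul]
  calc (1 + ‖toC m‖) ^ 3 ≤ (1 + ‖toC m‖) ^ 4 :=
        pow_le_pow_right₀ (by linarith) (by norm_num)
    _ ≤ (2 * ‖toC m‖) ^ 4 := by gcongr; linarith
    _ = 16 * ‖toC m‖ ^ 4 := by ring
    _ ≤ 16 * ‖toC m‖ ^ (n * 2) := by
        gcongr 16 * ?_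
        exact pow_le_pow_right₀ h1 (by omega)

/-- `‖t‖^k f(t^n)` -/
def powW (k n : ℕ) (f : ℂ → ℂ) (t : ℂ) : ℂ := ((‖t‖ ^ k : ℝ) : ℂ) * f (t ^ n)

lemma CS_powW {f : ℂ → ℂ} (h : CS f) (k : ℕ) {n : ℕ} (hn : n ≠ 0) : CS (powW k n f) := by
  obtain ⟨a, b, ha, hab, hs⟩ := h.supp
  refine CS.of (a := min 1 a) (b := max 1 b) (fun x hx => ?_) (lt_min one_pos ha) ?_ ?_
  · unfold powW
    exact (contDiffAt_norm_pow hx k).mul (h.smooth.contDiffAt.comp x (contDiffAt_id.pow n))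
  · rcases le_or_gt 1 a with h1 | h1
    · exact (min_le_left _ _).trans_lt (h1.trans_lt (hab.trans_le (le_max_right _ _)))
    · exact (min_le_right _ _).trans_lt (h1.trans_le (le_max_left _ _))
  · intro x hx
    unfold powW
    rw [hs (x ^ n), mul_zero]
    rw [norm_pow]
    rcases hx with hx | hx
    · left
      have h1 : ‖x‖ ≤ 1 := (hx.trans_le (min_le_left _ _)).le
      exact (pow_le_of_le_one (norm_nonneg x) h1 hn).trans_lt (hx.trans_le (min_le_right _ _))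
    · right
      have h1 : 1 ≤ ‖x‖ := ((le_max_left _ _).trans_lt hx).le
      exact ((le_max_right _ _).trans_lt hx).trans_le (le_self_pow₀ h1 hn)

/-- the hypotheses of the pair theorem -/
structure Ctx (n : ℕ) (s : ℂ) (ξ : Eis → ℂ) (κ c : ℂ) (V : ℝ) (h0 B B' : ℂ) (f : ℂ → ℂ) :
    Prop where
  X : XiP ξ κ c
  C : XnC n s κ V h0 B B'
  D : DatN n s ξ f

variable {n : ℕ} {s : ℂ} {ξ : Eis → ℂ} {κ c : ℂ} {V : ℝ} {h0 B B' : ℂ} {f : ℂ → ℂ}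

lemma Ctx.cs (h : Ctx n s ξ κ c V h0 B B' f) : CS f := ⟨h.D.smooth, h.D.supp⟩

lemma Ctx.n2 (h : Ctx n s ξ κ c V h0 B B' f) : 2 ≤ n := h.C.n2

lemma Ctx.n0 (h : Ctx n s ξ κ c V h0 B B' f) : n ≠ 0 := by have := h.n2; omega

lemma Phi_zero (f : ℂ → ℂ) : Phi f 0 = ∫ x, f x := by
  unfold Phi
  congr 1
  ext x
  rw [zero_div, neg_zero, eC_zero', mul_one]

lemma Ctx.mPhi (h : Ctx n s ξ κ c V h0 B B' f) : ξ 0 * Phi f 0 = 0 := by
  rw [Phi_zero]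
  rcases h.D.mom with h1 | h1
  · rw [h1, zero_mul]
  · rw [h1.1, mul_zero]

lemma Ctx.mPsi (h : Ctx n s ξ κ c V h0 B B' f) : ξ 0 * ∫ m : ℂ, Phi f (m ^ n) = 0 := by
  rcases h.D.mom with h1 | h1
  · rw [h1, zero_mul]
  · have := h1.2
    rw [F1Phi] at this
    rw [this, mul_zero]

/-- `Ψ(m) = Φ(m^n)` -/
def Ctx.Psi (h : Ctx n s ξ κ c V h0 B B' f) : 𝓢(ℂ, ℂ) := powS n h.n0 h.cs.Ph

@[simp] lemma Ctx.Psi_apply (h : Ctx n s ξ κ c V h0 B B' f) (m : ℂ) : h.Psi m = Phi f (m ^ n) := by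
  unfold Ctx.Psi
  rw [powS_apply, CS.Ph_apply]

/-- the constant `B/(6V)` -/
def bet (V : ℝ) (B : ℂ) : ℂ := B * ((1 / (6 * V) : ℝ) : ℂ)

/-! ### `f°` -/

lemma fOn_eq_sum (h : Ctx n s ξ κ c V h0 B B' f) (u : ℂ) :
    fOn n ξ V h0 B f u = bet V B * ∑' m : Eis, (if m = 0 then 0 else
      ξ m * h.cs.Ph (u * (h0 * toC m ^ n))) := by
  unfold fOn bet
  congr 1
  refine tsum_congr fun m => ?_
  split_ifs with hm
  · rfl
  · rw [CS.Ph_apply, F1Phi, mul_assoc]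

lemma fOn_eq_Th (h : Ctx n s ξ κ c V h0 B B' f) (u : ℂ) :
    fOn n ξ V h0 B f u = bet V B * Th ξ h.Psi (nrt n (u * h0)) := by
  rw [fOn_eq_sum h]
  congr 1
  unfold Th
  refine tsum_congr fun m => ?_
  rw [h.Psi_apply, mul_pow, nrt_pow h.n0]
  split_ifs with hm
  · subst hm
    rw [map_zero, zero_pow h.n0, mul_zero, h.mPhi]
  · rw [CS.Ph_apply, mul_assoc]

/-- two-sided decay of `f°` -/
theorem fOn_dec (h : Ctx n s ξ κ c V h0 B B' f) (A : ℕ) : ∃ C : ℝ, 0 ≤ C ∧ ∀ u : ℂ, u ≠ 0 →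
    ‖fOn n ξ V h0 B f u‖ ≤ C * ‖u‖ ^ A ∧ ‖fOn n ξ V h0 B f u‖ ≤ C * (‖u‖ ^ A)⁻¹ := by
  obtain ⟨C, hC0, hC⟩ := h.X.th_dec h.Psi
    (by rw [h.Psi_apply, zero_pow h.n0, h.mPhi])
    (by
      have : ∫ z, h.Psi z = ∫ m : ℂ, Phi f (m ^ n) := by
        congr 1; ext z; exact h.Psi_apply z
      rw [this, h.mPsi]) (n * A)
  have hh0 : 0 < ‖h0‖ := norm_pos_iff.mpr h.C.h0
  refine ⟨‖bet V B‖ * C * (‖h0‖ ^ A + (‖h0‖ ^ A)⁻¹), by positivity, fun u hu => ?_⟩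
  have hup : 0 < ‖u‖ := norm_pos_iff.mpr hu
  have ht : nrt n (u * h0) ≠ 0 := nrt_ne_zero h.n0 (mul_ne_zero hu h.C.h0)
  obtain ⟨h1, h2⟩ := hC _ ht
  have e : ‖nrt n (u * h0)‖ ^ (n * A) = ‖u‖ ^ A * ‖h0‖ ^ A := by
    rw [pow_mul, norm_nrt_pow h.n0, norm_mul, mul_pow]
  rw [e] at h1 h2
  rw [fOn_eq_Th h, norm_mul]
  constructor
  · calc ‖bet V B‖ * ‖Th ξ h.Psi (nrt n (u * h0))‖
        ≤ ‖bet V B‖ * (C * (‖u‖ ^ A * ‖h0‖ ^ A)) := by gcongr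
      _ = ‖bet V B‖ * C * (‖h0‖ ^ A) * ‖u‖ ^ A := by ring
      _ ≤ _ := by
          gcongr
          exact le_add_of_nonneg_right (by positivity)
  · calc ‖bet V B‖ * ‖Th ξ h.Psi (nrt n (u * h0))‖
        ≤ ‖bet V B‖ * (C * (‖u‖ ^ A * ‖h0‖ ^ A)⁻¹) := by gcongr
      _ = ‖bet V B‖ * C * (‖h0‖ ^ A)⁻¹ * (‖u‖ ^ A)⁻¹ := by rw [mul_inv]; ring
      _ ≤ _ := by
          gcongr
          exact le_add_of_nonneg_left (by positivity)

/-- `f°` with value `0` at `0` -/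
def fO1 (n : ℕ) (ξ : Eis → ℂ) (V : ℝ) (h0 B : ℂ) (f : ℂ → ℂ) (u : ℂ) : ℂ := by
  classical
  exact if u = 0 then 0 else fOn n ξ V h0 B f u

lemma fO1_zero : fO1 n ξ V h0 B f 0 = 0 := by simp [fO1]

lemma fO1_ne {u : ℂ} (hu : u ≠ 0) : fO1 n ξ V h0 B f u = fOn n ξ V h0 B f u := by simp [fO1, hu]

lemma ae_ne_zero : ∀ᵐ u : ℂ, u ≠ 0 := by
  rw [ae_iff]
  have : {a : ℂ | ¬ a ≠ 0} = {0} := by ext; simp
  rw [this]; exact measure_singleton 0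

lemma fO1_ae : fO1 n ξ V h0 B f =ᵐ[volume] fOn n ξ V h0 B f := by
  filter_upwards [ae_ne_zero] with u hu
  exact fO1_ne hu

lemma fO1_dec (h : Ctx n s ξ κ c V h0 B B' f) (A : ℕ) : ∃ C : ℝ, 0 ≤ C ∧ ∀ u : ℂ,
    ‖fO1 n ξ V h0 B f u‖ ≤ C * ‖u‖ ^ A ∧ ‖fO1 n ξ V h0 B f u‖ ≤ C * (‖u‖ ^ A)⁻¹ := by
  obtain ⟨C, hC0, hC⟩ := fOn_dec h A
  refine ⟨C, hC0, fun u => ?_⟩
  by_cases hu : u = 0
  · subst hu
    rw [fO1_zero, norm_zero]
    constructor <;> positivity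
  · rw [fO1_ne hu]; exact hC u hu

/-- polynomial decay of `f°` -/
lemma fO1_bd (h : Ctx n s ξ κ c V h0 B B' f) (A : ℕ) : ∃ C : ℝ, 0 ≤ C ∧ ∀ u : ℂ,
    ‖fO1 n ξ V h0 B f u‖ * (1 + ‖u‖) ^ A ≤ C := by
  obtain ⟨C, hC0, hC⟩ := fO1_dec h A
  obtain ⟨C', hC0', hC'⟩ := fO1_dec h 0
  refine ⟨2 ^ A * (C + C'), by positivity, fun u => ?_⟩
  have h1 := (hC u).2
  have h2 := (hC' u).1
  rw [pow_zero, mul_one] at h2
  rcases le_or_gt ‖u‖ 1 with hu | hu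
  · calc ‖fO1 n ξ V h0 B f u‖ * (1 + ‖u‖) ^ A ≤ C' * (1 + 1) ^ A := by gcongr
      _ ≤ 2 ^ A * (C + C') := by
          norm_num
          nlinarith [pow_pos (two_pos : (0:ℝ) < 2) A]
  · have hup : 0 < ‖u‖ := by linarith
    calc ‖fO1 n ξ V h0 B f u‖ * (1 + ‖u‖) ^ A ≤ C * (‖u‖ ^ A)⁻¹ * (2 * ‖u‖) ^ A := by
          gcongr
          linarith
      _ = 2 ^ A * C := by rw [mul_pow]; field_simp
      _ ≤ 2 ^ A * (C + C') := by gcongr; linarith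

lemma fO1_contAt (h : Ctx n s ξ κ c V h0 B B' f) {u : ℂ} (hu : u ≠ 0) :
    ContinuousAt (fO1 n ξ V h0 B f) u := by
  have hup : 0 < ‖u‖ := norm_pos_iff.mpr hu
  have hh0 : 0 < ‖h0‖ := norm_pos_iff.mpr h.C.h0
  obtain ⟨C, hC0, hC⟩ := sch_dec h.cs.Ph 3
  set d : ℝ := min 1 (‖u‖ / 2 * ‖h0‖) with hd
  have hd0 : 0 < d := lt_min one_pos (by positivity)
  have hd1 : d ≤ 1 := min_le_left _ _
  have hS : {v : ℂ | ‖u‖ / 2 < ‖v‖} ∈ 𝓝 u :=
    (isOpen_lt continuous_const continuous_norm).mem_nhds (by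
      show ‖u‖ / 2 < ‖u‖
      linarith)
  have hc : ContinuousOn (fun v : ℂ => ∑' m : Eis, (if m = 0 then 0 else
      ξ m * h.cs.Ph (v * (h0 * toC m ^ n)))) {v : ℂ | ‖u‖ / 2 < ‖v‖} := by
    refine continuousOn_tsum (u := fun m : Eis => C * (d ^ 3)⁻¹ * ((1 + ‖toC m‖) ^ 3)⁻¹)
      (fun m => ?_) (summable_inv3.mul_left _) (fun m v hv => ?_)
    · split_ifs with hm
      · exact continuousOn_const
      · exact (continuous_const.mul (h.cs.Ph.continuous.comp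
          (continuous_id.mul continuous_const))).continuousOn
    · split_ifs with hm
      · rw [norm_zero]; positivity
      · rw [norm_mul]
        calc ‖ξ m‖ * ‖h.cs.Ph (v * (h0 * toC m ^ n))‖ ≤ 1 * ‖h.cs.Ph (v * (h0 * toC m ^ n))‖ := by
              gcongr; exact h.X.le1 m
          _ = ‖h.cs.Ph (v * (h0 * toC m ^ n))‖ := one_mul _
          _ ≤ _ := by
              refine dil_bound hC hd0 hd1 (norm_nonneg _) ?_
              rw [norm_mul, norm_mul, ← mul_assoc]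
              have hv' : ‖u‖ / 2 ≤ ‖v‖ := le_of_lt hv
              calc d * ‖toC m‖ ≤ (‖u‖ / 2 * ‖h0‖) * ‖toC m ^ n‖ := by
                    gcongr
                    · exact min_le_right _ _
                    · exact norm_toC_le_pow h.n0 m
                _ ≤ ‖v‖ * ‖h0‖ * ‖toC m ^ n‖ := by gcongr
  have hc2 : ContinuousAt (fOn n ξ V h0 B f) u := by
    have e : fOn n ξ V h0 B f = fun v => bet V B * ∑' m : Eis, (if m = 0 then 0 else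
      ξ m * h.cs.Ph (v * (h0 * toC m ^ n))) := by
      ext v; exact fOn_eq_sum h v
    rw [e]
    exact continuousAt_const.mul (hc.continuousAt hS)
  refine hc2.congr ?_
  filter_upwards [isOpen_ne.mem_nhds hu] with v hv
  exact (fO1_ne hv).symm

lemma fO1_cont (h : Ctx n s ξ κ c V h0 B B' f) : Continuous (fO1 n ξ V h0 B f) := by
  rw [continuous_iff_continuousAt]
  intro u
  by_cases hu : u = 0
  · subst hu
    obtain ⟨C, hC0, hC⟩ := fO1_dec h 1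
    rw [ContinuousAt, fO1_zero]
    refine squeeze_zero_norm (a := fun u => C * ‖u‖) (fun u => ?_) ?_
    · have := (hC u).1
      rwa [pow_one] at this
    · have : Tendsto (fun u : ℂ => C * ‖u‖) (𝓝 0) (𝓝 (C * ‖(0:ℂ)‖)) :=
        (continuous_const.mul continuous_norm).tendsto 0
      simpa using this
  · exact fO1_contAt h hu

/-- integrability from polynomial decay -/
lemma integrable_of_dec {g : ℂ → ℂ} (hg : Continuous g) {C : ℝ}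
    (hC : ∀ u, ‖g u‖ * (1 + ‖u‖) ^ 3 ≤ C) : Integrable g := by
  have h1 : Integrable (fun u : ℂ => (1 + ‖u‖) ^ (-(3 : ℝ))) := by
    apply integrable_one_add_norm
    simp
    norm_num
  refine (h1.const_mul C).mono' hg.aestronglyMeasurable (Eventually.of_forall fun u => ?_)
  have h2 : (1 + ‖u‖) ^ (-(3 : ℝ)) = ((1 + ‖u‖) ^ 3)⁻¹ := by
    rw [Real.rpow_neg (by positivity)]
    norm_cast
  rw [h2, ← div_eq_mul_inv, le_div_iff₀ (by positivity)]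
  exact hC u

lemma fO1_integrable (h : Ctx n s ξ κ c V h0 B B' f) : Integrable (fO1 n ξ V h0 B f) := by
  obtain ⟨C, hC0, hC⟩ := fO1_bd h 3
  exact integrable_of_dec (fO1_cont h) hC

lemma fOn_integrable (h : Ctx n s ξ κ c V h0 B B' f) : Integrable (fOn n ξ V h0 B f) :=
  (fO1_integrable h).congr fO1_ae

end Crest.Agent.R017.Xn590
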