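import Crest.Agent.R012.Tile_695
import Crest.Agent.R012.Four_813
import Crest.Agent.R012.Mob_705

/-!
# Row 17, section F: interface (helper180)

The level-one functional equation `E_F = E_{F'}` for product test functions and F1.

* `PL n = ∏_{p ∣ n} (1 - 1/N p)` over ALL primes (including `λ`)
* `vL = vol (ℂ / (ℤ + 3 ℤ[ω])) = 3 √3 / 2`
* `MOp F (η, ζ) = (1/(6 vL)) Σ_{n ≠ 0} P(n) ∫_ℂ F (n³ η + x ζ) dx`
* `scl δ F u = ‖δ‖⁻² F (u / δ)`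
* `FEPair F F'` : what the analysis (590) delivers for `F = f_+(z₁) k(z₂/z₁)`,
  `F' = 4 ∫ k̂(z₁ u) f°(u) e(z₂ u) du`
* `fP, Phi, fO, FP, FO` : the explicit functions of F.1, F.3.
-/

set_option autoImplicit false

noncomputable section

open MeasureTheory Complex Set

namespace Crest.Agent.R017.F1

open Crest.Agent.R012 Crest.Agent.R012.Eis Crest.Agent.R012.K695
open Crest.Agent.R012.Four813 (phat)

/-- `P(n) = ∏_{p ∣ n} (1 - 1/N p)`, all primes. -/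
def PL (n : Eis) : ℝ := by
  classical
  exact (if lam ∣ n then 2 / 3 else 1) * Mob705.PE n

/-- volume of `ℂ / (ℤ + 3 ℤ[ω])`. -/
def vL : ℝ := 3 * Real.sqrt 3 / 2

/-- `(1/(6 vL)) Σ_{n ≠ 0} P(n) ∫_ℂ F (n³ η + x ζ) dx`. -/
def MOp (F : Vec → ℂ) (M : K695.Frm) : ℂ := by
  classical
  exact ((1 / (6 * vL) : ℝ) : ℂ) * ∑' n : Eis, (if n = 0 then 0 else
    (PL n : ℂ) * ∫ x : ℂ, F ((toC n ^ 3) • M.1 + x • M.2))

/-- `‖δ‖⁻² F (u / δ)`. -/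
def scl (δ : ℂ) (F : Vec → ℂ) (u : Vec) : ℂ := (((‖δ‖ ^ 2)⁻¹ : ℝ) : ℂ) * F (δ⁻¹ • u)

/-- Admissible test functions on `ℂ²`: continuous, even, `O((1+|u|²)^{-4})`. -/
structure Tst (F : Vec → ℂ) : Prop where
  cont : Continuous F
  even : ∀ u, F (-u) = F u
  dec : ∃ C : ℝ, ∀ u, ‖F u‖ ≤ C * ((1 + n2 u) ^ 4)⁻¹

/-- The pairs of section F: `M F = F'` and `M F' = F` on frames of every determinant. -/
structure FEPair (F F' : Vec → ℂ) : Prop where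
  tst : Tst F
  tst' : Tst F'
  m1 : ∀ M : K695.Frm, det2 M ≠ 0 → MOp F M = scl (det2 M) F' M.2
  m2 : ∀ M : K695.Frm, det2 M ≠ 0 → MOp (scl (det2 M) F') M = F M.2

/-! ## The explicit functions -/

/-- `Φ(y) = ∫ f(p) e(-y/p) dp`. -/
def Phi (f : ℂ → ℂ) (y : ℂ) : ℂ := ∫ p : ℂ, f p * eC (-(y / p))

/-- data: `f` smooth, compactly supported in `ℂ \ 0`, even, two vanishing moments
(`mom2` is the Mellin zero at the pole `4/3`: `∫ f |x|^{2/3} = 0`; it scales like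
`f(x/r) ↦ r^{8/3}`, `mom1` like `r²`, so both are easily obtained from differences of dilates). -/
structure Dat (f : ℂ → ℂ) : Prop where
  smooth : ContDiff ℝ ((⊤ : ℕ∞) : WithTop ℕ∞) f
  supp : ∃ a b : ℝ, 0 < a ∧ a < b ∧ ∀ x, ‖x‖ < a ∨ b < ‖x‖ → f x = 0
  even : ∀ x, f (-x) = f x
  mom1 : ∫ x : ℂ, f x = 0
  mom2 : ∫ m : ℂ, Phi f (m ^ 3) = 0

/-- `f_+(x) = (1/6) Σ_{e ≠ 0} N(e)² f(e³ x)`. -/
def fP (f : ℂ → ℂ) (x : ℂ) : ℂ := (1 / 6 : ℂ) * ∑' e : Eis, ((nm e : ℂ) ^ 2) * f (toC e ^ 3 * x)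

/-- `f°(u) = (1/(6 vL)) Σ_{m ≠ 0} Φ(u m³)`. -/
def fO (f : ℂ → ℂ) (u : ℂ) : ℂ := by
  classical
  exact ((1 / (6 * vL) : ℝ) : ℂ) * ∑' m : Eis, (if m = 0 then 0 else Phi f (u * toC m ^ 3))

/-- `F(z₁,z₂) = f_+(z₁) k(z₂/z₁)`. -/
def FP (f k : ℂ → ℂ) (z : Vec) : ℂ := fP f z.1 * k (z.2 / z.1)

/-- `F'(z₁,z₂) = 4 ∫ k̂(z₁ u) f°(u) e(z₂ u) du`. -/
def FO (f k : ℂ → ℂ) (z : Vec) : ℂ := 4 * ∫ u : ℂ, phat k (z.1 * u) * fO f u * eC (z.2 * u)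

/-- What 590 delivers: for `Dat f`, `k` Schwartz. -/
def PairThm : Prop :=
  ∀ (f : ℂ → ℂ) (k : SchwartzMap ℂ ℂ), Dat f → FEPair (FP f k) (FO f k)

/-- The Fourier coefficient of `F'` in the basis frame (`c ≠ 0`, `ν ≠ 0`). -/
def CoefThm : Prop :=
  ∀ (f : ℂ → ℂ) (k : SchwartzMap ℂ ℂ), Dat f → ∀ c ν : ℂ, c ≠ 0 → ν ≠ 0 →
    ∫ x : ℂ, FO f k (c, x) * eC (-(ν * x / c)) = phat k ν * fO f (ν / c)

/-- Decay of `f°` at `0` and at infinity. -/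
def DecThm : Prop :=
  ∀ f : ℂ → ℂ, Dat f → ∀ A : ℕ, ∃ C : ℝ, ∀ u : ℂ, u ≠ 0 →
    ‖fO f u‖ ≤ C * ‖u‖ ^ A ∧ ‖fO f u‖ ≤ C * (‖u‖ ^ A)⁻¹

end Crest.Agent.R017.F1
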