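import Mathlib

/-!
Row 17 (helper960): change of variables `y = M^n` in `ℂ`, any `n ≥ 1`
(generalises `F1Cube_590`, `n = 3`; the sextic route needs `n = 6`).

* `integral_powN`  : `∫ G y dy = ∫ n |M|^(2n-2) G(M^n) dM`
* integrability version.
-/

open Complex MeasureTheory Set Filter Topology
open scoped ENNReal NNReal

namespace Crest.Agent.R017.PowN960

/-! ### the angular part -/

instance : Fact (0 < 2 * Real.pi) := ⟨by positivity⟩

lemma lintegral_angle (n : ℕ) (hn : n ≠ 0) (g : ℝ → ℝ≥0∞) (hg : Measurable g)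
    (hper : ∀ θ, g (θ + 2 * Real.pi) = g θ) :
    ∫⁻ θ in Ioo (-Real.pi) Real.pi, g (n * θ) = ∫⁻ θ in Ioo (-Real.pi) Real.pi, g θ := by
  have hP : Function.Periodic g (2 * Real.pi) := hper
  set G : AddCircle (2 * Real.pi) → ℝ≥0∞ := hP.lift with hG
  have hGc : ∀ θ : ℝ, G (θ : AddCircle (2 * Real.pi)) = g θ := fun θ => hP.lift_coe θ
  have e1 : (volume : Measure ℝ).restrict (Ioo (-Real.pi) Real.pi) =
      (volume : Measure ℝ).restrict (Ioc (-Real.pi) (-Real.pi + 2 * Real.pi)) := by
    rw [show -Real.pi + 2 * Real.pi = Real.pi by ring]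
    exact Measure.restrict_congr_set Ioo_ae_eq_Ioc
  rw [e1]
  have h1 := AddCircle.lintegral_preimage (2 * Real.pi) (-Real.pi) G
  have h3 := AddCircle.lintegral_preimage (2 * Real.pi) (-Real.pi) (fun x => G ((n : ℤ) • x))
  have hmeas : Measurable G := by
    have hm : Measurable (AddCircle.measurableEquivIoc (2 * Real.pi) (-Real.pi)) :=
      (AddCircle.measurableEquivIoc (2 * Real.pi) (-Real.pi)).measurable
    have : G = fun x => g ((AddCircle.measurableEquivIoc (2 * Real.pi) (-Real.pi) x : ℝ)) := by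
      ext x
      rw [← hGc]
      congr 1
      exact (AddCircle.measurableEquivIoc (2 * Real.pi) (-Real.pi)).symm_apply_apply x |>.symm
    rw [this]
    exact hg.comp (measurable_subtype_coe.comp hm)
  have h4 : ∫⁻ x : AddCircle (2 * Real.pi), G ((n : ℤ) • x) = ∫⁻ x, G x := by
    rcases Nat.lt_or_ge 1 n with h1n | h1n
    · have hmp : MeasurePreserving (fun y : AddCircle (2 * Real.pi) => (n : ℤ) • y) :=
        (AddCircle.ergodic_zsmul (T := 2 * Real.pi) (n := (n : ℤ))
          (by rw [abs_of_nonneg (by positivity)]; exact_mod_cast h1n)).toMeasurePreserving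
      exact hmp.lintegral_comp hmeas
    · have : n = 1 := by omega
      subst this
      simp
  calc ∫⁻ θ in Ioc (-Real.pi) (-Real.pi + 2 * Real.pi), g (n * θ)
      = ∫⁻ θ in Ioc (-Real.pi) (-Real.pi + 2 * Real.pi),
          G ((n : ℤ) • (θ : AddCircle (2 * Real.pi))) := by
        congr 1
        ext θ
        rw [← hGc]
        congr 1
        rw [← AddCircle.coe_zsmul]
        simp
    _ = ∫⁻ x : AddCircle (2 * Real.pi), G ((n : ℤ) • x) := h3
    _ = ∫⁻ x, G x := h4
    _ = ∫⁻ θ in Ioc (-Real.pi) (-Real.pi + 2 * Real.pi), G (θ : AddCircle (2 * Real.pi)) := h1.symm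
    _ = ∫⁻ θ in Ioc (-Real.pi) (-Real.pi + 2 * Real.pi), g θ := by simp_rw [hGc]

/-- polar coordinates as an iterated integral -/
lemma lintegral_polar (g : ℂ → ℝ≥0∞) (hg : Measurable g) :
    ∫⁻ z, g z = ∫⁻ r in Ioi (0 : ℝ), ENNReal.ofReal r *
      ∫⁻ θ in Ioo (-Real.pi) Real.pi, g (r * cexp (θ * I)) := by
  rw [← Complex.lintegral_comp_polarCoord_symm g, polarCoord_target,
    Measure.volume_eq_prod, ← Measure.prod_restrict, lintegral_prod]
  · congr 1
    ext r
    rw [← lintegral_const_mul _ (by fun_prop)]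
    congr 1
    ext θ
    rw [Complex.polarCoord_symm_apply]
    simp only [smul_eq_mul]
    congr 2
    rw [Complex.exp_mul_I]
    push_cast
    ring
  · have : Measurable fun p : ℝ × ℝ => Complex.polarCoord.symm p := by
      have e : (fun p : ℝ × ℝ => Complex.polarCoord.symm p) = fun p : ℝ × ℝ =>
          (p.1 : ℂ) * (Real.cos p.2 + Real.sin p.2 * I) := by
        ext p; rw [Complex.polarCoord_symm_apply]
      rw [e]
      fun_prop
    simp only [smul_eq_mul]
    exact ((ENNReal.measurable_ofReal.comp measurable_fst).mul (hg.comp this)).aemeasurable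

theorem lintegral_powN (n : ℕ) (hn : n ≠ 0) (g : ℂ → ℝ≥0∞) (hg : Measurable g) :
    ∫⁻ M, ENNReal.ofReal (n * ‖M‖ ^ (2 * n - 2)) * g (M ^ n) = ∫⁻ y, g y := by
  rw [lintegral_polar g hg, lintegral_polar _ (by fun_prop)]
  set A : ℝ → ℝ≥0∞ := fun r => ∫⁻ θ in Ioo (-Real.pi) Real.pi, g (r * cexp (θ * I)) with hA
  have h1 : ∀ r ∈ Ioi (0 : ℝ), ENNReal.ofReal r * ∫⁻ θ in Ioo (-Real.pi) Real.pi,
      ENNReal.ofReal (n * ‖(r : ℂ) * cexp (θ * I)‖ ^ (2 * n - 2)) *
        g (((r : ℂ) * cexp (θ * I)) ^ n) =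
      ENNReal.ofReal |n * r ^ (n - 1)| * (ENNReal.ofReal (r ^ n) * A (r ^ n)) := by
    intro r hr
    have hr0 : 0 < r := hr
    have e1 : ∀ θ : ℝ, ‖(r : ℂ) * cexp (θ * I)‖ = r := by
      intro θ
      rw [norm_mul, Complex.norm_exp_ofReal_mul_I, Complex.norm_real, Real.norm_eq_abs,
        abs_of_pos hr0, mul_one]
    have e2 : ∀ θ : ℝ, ((r : ℂ) * cexp (θ * I)) ^ n =
        ((r ^ n : ℝ) : ℂ) * cexp ((n * θ : ℝ) * I) := by
      intro θ
      rw [mul_pow, ← Complex.exp_nat_mul]
      push_cast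
      congr 2
      ring
    simp_rw [e1, e2]
    rw [lintegral_const_mul _ (by fun_prop)]
    have h3 := lintegral_angle n hn (fun θ => g (((r ^ n : ℝ) : ℂ) * cexp (θ * I)))
      (by fun_prop) (by
        intro θ
        congr 2
        push_cast
        rw [add_mul, Complex.exp_add, Complex.exp_two_pi_mul_I, mul_one])
    have h4 : ∫⁻ θ in Ioo (-Real.pi) Real.pi, g (((r ^ n : ℝ) : ℂ) * cexp ((n * θ : ℝ) * I)) =
        A (r ^ n) := h3
    rw [h4, ← mul_assoc, ← mul_assoc, ← ENNReal.ofReal_mul hr0.le,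
      ← ENNReal.ofReal_mul (abs_nonneg _), abs_of_nonneg (by positivity)]
    congr 2
    obtain ⟨k, rfl⟩ := Nat.exists_eq_succ_of_ne_zero hn
    simp only [Nat.succ_eq_add_one, Nat.add_sub_cancel]
    rw [show 2 * (k + 1) - 2 = 2 * k by omega]
    ring
  rw [setLIntegral_congr_fun measurableSet_Ioi h1]
  have himg : (fun r : ℝ => r ^ n) '' Ioi 0 = Ioi 0 := by
    ext y
    constructor
    · rintro ⟨r, hr, rfl⟩
      exact pow_pos (show 0 < r from hr) n
    · intro hy
      refine ⟨y ^ ((n : ℝ)⁻¹), Real.rpow_pos_of_pos hy _, ?_⟩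
      show (y ^ ((n : ℝ)⁻¹)) ^ n = y
      rw [← Real.rpow_natCast, ← Real.rpow_mul (le_of_lt hy), inv_mul_cancel₀ (by exact_mod_cast hn),
        Real.rpow_one]
  have hcv := lintegral_image_eq_lintegral_abs_deriv_mul (s := Ioi (0 : ℝ))
    (f := fun r : ℝ => r ^ n) (f' := fun r => n * r ^ (n - 1)) measurableSet_Ioi
    (fun r _ => by simpa using (hasDerivAt_pow n r).hasDerivWithinAt)
    (fun a ha b hb hab => by
      exact (pow_left_inj₀ (le_of_lt ha) (le_of_lt hb) hn).mp hab)
    (fun r => ENNReal.ofReal r * A r)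
  rw [himg] at hcv
  exact hcv.symm

/-- the measure `n |M|^(2n-2) dM` is mapped to Lebesgue measure by `M ↦ M^n` -/
theorem map_powN (n : ℕ) (hn : n ≠ 0) : Measure.map (fun M : ℂ => M ^ n)
    ((volume : Measure ℂ).withDensity fun M => ENNReal.ofReal (n * ‖M‖ ^ (2 * n - 2))) =
      volume := by
  refine Measure.ext_of_lintegral _ fun g hg => ?_
  rw [lintegral_map hg (by fun_prop), lintegral_withDensity_eq_lintegral_mul _ (by fun_prop)
    (by fun_prop)]
  exact lintegral_powN n hn g hg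

variable {E : Type*} [NormedAddCommGroup E] [NormedSpace ℝ E]

theorem integral_powN (n : ℕ) (hn : n ≠ 0) {G : ℂ → E} (hG : AEStronglyMeasurable G) :
    ∫ y, G y = ∫ M : ℂ, (n * ‖M‖ ^ (2 * n - 2)) • G (M ^ n) := by
  have h1 : ∫ y, G y = ∫ y, G y ∂(Measure.map (fun M : ℂ => M ^ n)
    ((volume : Measure ℂ).withDensity fun M => ENNReal.ofReal (n * ‖M‖ ^ (2 * n - 2)))) := by
    rw [map_powN n hn]
  rw [h1, integral_map (by fun_prop) (by rw [map_powN n hn]; exact hG),
    integral_withDensity_eq_integral_toReal_smul (by fun_prop)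
      (Eventually.of_forall fun x => ENNReal.ofReal_lt_top)]
  congr 1
  ext M
  rw [ENNReal.toReal_ofReal (by positivity)]

theorem integrable_powN (n : ℕ) (hn : n ≠ 0) {G : ℂ → E} (hG : Integrable G) :
    Integrable fun M : ℂ => (n * ‖M‖ ^ (2 * n - 2)) • G (M ^ n) := by
  have h1 : Integrable G (Measure.map (fun M : ℂ => M ^ n)
    ((volume : Measure ℂ).withDensity fun M => ENNReal.ofReal (n * ‖M‖ ^ (2 * n - 2)))) := by
    rwa [map_powN n hn]
  have h2 := h1.comp_measurable (f := fun M : ℂ => M ^ n) (by fun_prop)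
  rw [integrable_withDensity_iff_integrable_smul' (by fun_prop)
    (Eventually.of_forall fun x => ENNReal.ofReal_lt_top)] at h2
  refine h2.congr (Eventually.of_forall fun M => ?_)
  simp only [Function.comp_apply]
  rw [ENNReal.toReal_ofReal (by positivity)]

/-- Converse: if `G` is a.e.-strongly measurable and the pull-back is integrable. -/
theorem integrable_of_powN (n : ℕ) (hn : n ≠ 0) {G : ℂ → E} (hG : AEStronglyMeasurable G)
    (h : Integrable fun M : ℂ => (n * ‖M‖ ^ (2 * n - 2)) • G (M ^ n)) : Integrable G := by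
  have h1 : Integrable G (Measure.map (fun M : ℂ => M ^ n)
    ((volume : Measure ℂ).withDensity fun M => ENNReal.ofReal (n * ‖M‖ ^ (2 * n - 2)))) := by
    rw [integrable_map_measure (by rw [map_powN n hn]; exact hG) (by fun_prop),
      integrable_withDensity_iff_integrable_smul' (by fun_prop)
      (Eventually.of_forall fun x => ENNReal.ofReal_lt_top)]
    refine h.congr (Eventually.of_forall fun M => ?_)
    simp only [Function.comp_apply]
    rw [ENNReal.toReal_ofReal (by positivity)]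
  rwa [map_powN n hn] at h1

end Crest.Agent.R017.PowN960
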