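import Crest.Agent.R017.XiDefs_499

/-!
# Row 17: the pair theorem for a general exponent `n ≥ 2`, character `ξ`, parity `s` (helper590)

Interface. `n = 3`: F1 (cubic), `n = 6`: F2 (sextic).
-/

set_option autoImplicit false

noncomputable section

open MeasureTheory Complex Set
open scoped ComplexConjugate

namespace Crest.Agent.R017.Xn590

open Crest.Agent.R012 Crest.Agent.R012.Eis Crest.Agent.R012.K695
open Crest.Agent.R012.Four813 (phat)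
open Crest.Agent.R017.F1

/-- `ξ` completely multiplicative, bounded by one, with Poisson summation
`Σ ξ(m) F(m) = c Σ conj ξ(k) F̂(k/κ)` (`κ = √-3 m`, `c = 2 τ/(√3 N m)`).  No condition on units. -/
structure XiP (ξ : Eis → ℂ) (κ c : ℂ) : Prop where
  mul : ∀ a b, ξ (a * b) = ξ a * ξ b
  le1 : ∀ a, ‖ξ a‖ ≤ 1
  κ0 : κ ≠ 0
  c0 : c ≠ 0
  pois : ∀ F : SchwartzMap ℂ ℂ,
    ∑' m : Eis, ξ m * F (toC m) = c * ∑' k : Eis, conj (ξ k) * Po581.fC F (toC k / κ)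

/-- The constants: `B B' |κ|² n²/4 = s V²`, `s = ±1` the parity of the test functions. -/
structure XnC (n : ℕ) (s : ℂ) (κ : ℂ) (V : ℝ) (h0 B B' : ℂ) : Prop where
  n2 : 2 ≤ n
  s1 : s = 1 ∨ s = -1
  V0 : 0 < V
  h0 : h0 ≠ 0
  cst : B * B' * ((‖κ‖ ^ 2 : ℝ) : ℂ) * ((n : ℂ) ^ 2 / 4) = s * (V : ℂ) ^ 2

/-- `f_+(x) = (1/6) Σ_e ξ(e) N(e)^(n-1) f(e^n x)`. -/
def fPn (n : ℕ) (ξ : Eis → ℂ) (f : ℂ → ℂ) (x : ℂ) : ℂ :=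
  (1 / 6 : ℂ) * ∑' e : Eis, ξ e * ((nm e : ℂ) ^ (n - 1) * f (toC e ^ n * x))

/-- `f°(u) = (B/(6V)) Σ_{m ≠ 0} ξ(m) Φ(u h₀ m^n)`. -/
def fOn (n : ℕ) (ξ : Eis → ℂ) (V : ℝ) (h0 B : ℂ) (f : ℂ → ℂ) (u : ℂ) : ℂ := by
  classical
  exact (B * ((1 / (6 * V) : ℝ) : ℂ)) *
    ∑' m : Eis, (if m = 0 then 0 else ξ m * Phi f (u * h0 * toC m ^ n))

/-- `F(z₁,z₂) = f_+(z₁) k(z₂/z₁)`. -/
def FPn (n : ℕ) (ξ : Eis → ℂ) (f k : ℂ → ℂ) (z : Vec) : ℂ := fPn n ξ f z.1 * k (z.2 / z.1)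

/-- `F'(z₁,z₂) = 4 ∫ k̂(z₁ u) f°(u) e(z₂ u) du`. -/
def FOn (n : ℕ) (ξ : Eis → ℂ) (V : ℝ) (h0 B : ℂ) (f k : ℂ → ℂ) (z : Vec) : ℂ :=
  4 * ∫ u : ℂ, phat k (z.1 * u) * fOn n ξ V h0 B f u * eC (z.2 * u)

/-- `M F (η, ζ) = (B/(6V)) Σ_{j ≠ 0} P(j) ξ(j) ∫_ℂ F (h₀ j^n η + x ζ) dx`. -/
def MOpn (n : ℕ) (ξ : Eis → ℂ) (V : ℝ) (h0 B : ℂ) (F : Vec → ℂ) (M : K695.Frm) : ℂ := by
  classical
  exact (B * ((1 / (6 * V) : ℝ) : ℂ)) * ∑' j : Eis, (if j = 0 then 0 else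
    ξ j * ((PL j : ℂ) * ∫ x : ℂ, F ((h0 * toC j ^ n) • M.1 + x • M.2)))

/-- Data: smooth, compact support in `ℂ \ 0`, parity `s`; moments only if `ξ(0) ≠ 0`. -/
structure DatN (n : ℕ) (s : ℂ) (ξ : Eis → ℂ) (f : ℂ → ℂ) : Prop where
  smooth : ContDiff ℝ ((⊤ : ℕ∞) : WithTop ℕ∞) f
  supp : ∃ a b : ℝ, 0 < a ∧ a < b ∧ ∀ x, ‖x‖ < a ∨ b < ‖x‖ → f x = 0
  par : ∀ x, f (-x) = s * f x
  mom : ξ 0 = 0 ∨ ((∫ x : ℂ, f x = 0) ∧ ∫ m : ℂ, Phi f (m ^ n) = 0)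

/-- Admissible test functions on `ℂ²` with parity `s`. -/
structure TstN (s : ℂ) (F : Vec → ℂ) : Prop where
  cont : Continuous F
  par : ∀ u, F (-u) = s * F u
  dec : ∃ C : ℝ, ∀ u, ‖F u‖ ≤ C * ((1 + n2 u) ^ 4)⁻¹

/-- `M F = F'` and `M' F' = F` on frames of every determinant (`M'` has `conj ξ`, `B'`). -/
structure FEPairN (n : ℕ) (s : ℂ) (ξ : Eis → ℂ) (V : ℝ) (h0 B B' : ℂ) (F F' : Vec → ℂ) :
    Prop where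
  tst : TstN s F
  tst' : TstN s F'
  m1 : ∀ M : K695.Frm, det2 M ≠ 0 → MOpn n ξ V h0 B F M = scl (det2 M) F' M.2
  m2 : ∀ M : K695.Frm, det2 M ≠ 0 →
    MOpn n (fun j => conj (ξ j)) V h0 B' (scl (det2 M) F') M = F M.2

/-- The pair theorem. -/
def PairThmN : Prop :=
  ∀ (n : ℕ) (s : ℂ) (ξ : Eis → ℂ) (κ c : ℂ) (V : ℝ) (h0 B B' : ℂ), XiP ξ κ c →
    XnC n s κ V h0 B B' → ∀ (f : ℂ → ℂ) (k : SchwartzMap ℂ ℂ), DatN n s ξ f →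
      FEPairN n s ξ V h0 B B' (FPn n ξ f k) (FOn n ξ V h0 B f k)

/-- The Fourier coefficient of `F'` in the basis frame. -/
def CoefThmN : Prop :=
  ∀ (n : ℕ) (s : ℂ) (ξ : Eis → ℂ) (κ c : ℂ) (V : ℝ) (h0 B B' : ℂ), XiP ξ κ c →
    XnC n s κ V h0 B B' → ∀ (f : ℂ → ℂ) (k : SchwartzMap ℂ ℂ), DatN n s ξ f →
      ∀ c' ν : ℂ, c' ≠ 0 → ν ≠ 0 →
      ∫ x : ℂ, FOn n ξ V h0 B f k (c', x) * eC (-(ν * x / c')) =
        phat k ν * fOn n ξ V h0 B f (ν / c')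

/-- Decay of `f°` at `0` and at infinity. -/
def DecThmN : Prop :=
  ∀ (n : ℕ) (s : ℂ) (ξ : Eis → ℂ) (κ c : ℂ) (V : ℝ) (h0 B B' : ℂ), XiP ξ κ c →
    XnC n s κ V h0 B B' → ∀ f : ℂ → ℂ, DatN n s ξ f → ∀ A : ℕ, ∃ C : ℝ, ∀ u : ℂ, u ≠ 0 →
      ‖fOn n ξ V h0 B f u‖ ≤ C * ‖u‖ ^ A ∧ ‖fOn n ξ V h0 B f u‖ ≤ C * (‖u‖ ^ A)⁻¹

/-! ## Instances: `Xi499.XiD`, level one -/

open Crest.Agent.R017.Xi499

lemma xiP_of_D {ξ : Eis → ℂ} {m : Eis} {τ : ℂ} (h : XiD ξ m τ) :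
    XiP ξ (toC sq3 * toC m) (((2 / (Real.sqrt 3 * nm m) : ℝ) : ℂ) * τ) where
  mul := h.mul
  le1 := h.norm_le
  κ0 := mul_ne_zero (toC_ne_zero sq3_ne_zero) (toC_ne_zero h.m0)
  c0 := by
    have hm : nm m ≠ 0 := (nm_pos.mpr h.m0).ne'
    have hτ : τ ≠ 0 := by
      intro h0
      have := h.abs
      rw [h0] at this
      simp at this
      exact hm (by exact_mod_cast this.symm)
    refine mul_ne_zero ?_ hτ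
    have h3 : Real.sqrt 3 ≠ 0 := by positivity
    have h4 : (nm m : ℝ) ≠ 0 := by exact_mod_cast hm
    exact_mod_cast div_ne_zero two_ne_zero (mul_ne_zero h3 h4)
  pois F := by
    have := h.poisson (F := F) (Tau671.PF.of_schwartz F)
    exact this

lemma norm_kap (m : Eis) : ‖toC sq3 * toC m‖ ^ 2 = 3 * nm m := by
  rw [norm_mul, mul_pow, norm_toC_sq, norm_toC_sq]
  have : nm sq3 = 3 := by decide
  rw [this]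
  norm_num

lemma xnC_of_C {m : Eis} {V : ℝ} {h0 B B' : ℂ} (h : XiC m V h0 B B') :
    XnC 3 1 (toC sq3 * toC m) V h0 B B' where
  n2 := by norm_num
  s1 := Or.inl rfl
  V0 := h.V0
  h0 := h.h0
  cst := by
    rw [norm_kap, one_mul, ← h.cst]
    push_cast
    ring

lemma fPn_three (ξ : Eis → ℂ) (f : ℂ → ℂ) : fPn 3 ξ f = fPx ξ f := rfl

lemma fOn_three (ξ : Eis → ℂ) (V : ℝ) (h0 B : ℂ) (f : ℂ → ℂ) : fOn 3 ξ V h0 B f = fOx ξ V h0 B f :=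
  rfl

lemma MOpn_three (ξ : Eis → ℂ) (V : ℝ) (h0 B : ℂ) (F : Vec → ℂ) (M : K695.Frm) :
    MOpn 3 ξ V h0 B F M = MOpx ξ V h0 B F M := rfl

lemma datN_of_X {ξ : Eis → ℂ} {f : ℂ → ℂ} (h : DatX ξ f) : DatN 3 1 ξ f :=
  ⟨h.smooth, h.supp, fun x => by rw [one_mul]; exact h.even x, h.mom⟩

lemma tst_of_N {F : Vec → ℂ} (h : TstN 1 F) : Tst F :=
  ⟨h.cont, fun u => by rw [h.par, one_mul], h.dec⟩

theorem pairThmX_of_N (H : PairThmN) : PairThmX := by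
  intro ξ m τ V h0 B B' hD hC f k hf
  have h := H 3 1 ξ _ _ V h0 B B' (xiP_of_D hD) (xnC_of_C hC) f k (datN_of_X hf)
  exact ⟨tst_of_N h.tst, tst_of_N h.tst', fun M hM => h.m1 M hM, fun M hM => h.m2 M hM⟩

theorem coefThmX_of_N (H : CoefThmN) : CoefThmX := by
  intro ξ m τ V h0 B B' hD hC f k hf c ν hc hν
  exact H 3 1 ξ _ _ V h0 B B' (xiP_of_D hD) (xnC_of_C hC) f k (datN_of_X hf) c ν hc hν

theorem decThmX_of_N (H : DecThmN) : DecThmX := by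
  intro ξ m τ V h0 B B' hD hC f hf A
  exact H 3 1 ξ _ _ V h0 B B' (xiP_of_D hD) (xnC_of_C hC) f (datN_of_X hf) A

end Crest.Agent.R017.Xn590
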