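import Crest.Agent.R017.XiA_590
import Crest.Agent.R017.XnDefs_590

/-!
Row 17, section F / A (helper590): twisted lattice sums `Θ_R(τ) = Σ_m ξ(m) R(τ m)`.
-/

set_option autoImplicit false

noncomputable section

open Complex MeasureTheory Set Filter Topology
open scoped FourierTransform ContDiff SchwartzMap

namespace Crest.Agent.R017.Xn590

open Crest.Agent.R012 Crest.Agent.R012.Eis Crest.Agent.R012.Po581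
open Crest.Agent.R017.Xi590

/-! ### `n`-th roots -/

/-- principal `n`-th root -/
def nrt (n : ℕ) (u : ℂ) : ℂ := u ^ ((n : ℂ)⁻¹)

lemma nrt_pow {n : ℕ} (hn : n ≠ 0) (u : ℂ) : nrt n u ^ n = u := by
  unfold nrt
  exact Complex.cpow_nat_inv_pow u hn

lemma nrt_ne_zero {n : ℕ} (hn : n ≠ 0) {u : ℂ} (hu : u ≠ 0) : nrt n u ≠ 0 := by
  intro h
  apply hu
  rw [← nrt_pow hn u, h, zero_pow hn]

lemma norm_nrt_pow {n : ℕ} (hn : n ≠ 0) (u : ℂ) : ‖nrt n u‖ ^ n = ‖u‖ := by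
  rw [← norm_pow, nrt_pow hn]

lemma pow_temperate (n : ℕ) : Function.HasTemperateGrowth (fun m : ℂ => m ^ n) := by
  induction n with
  | zero => simp
  | succ n ih =>
    have h : Function.HasTemperateGrowth (fun m : ℂ => m) := Function.HasTemperateGrowth.id'
    have h2 : (fun m : ℂ => m ^ (n + 1)) = fun m : ℂ => m ^ n * m := by ext m; ring
    rw [h2]
    exact ih.mul h

lemma pow_upper {n : ℕ} (hn : n ≠ 0) : ∃ (k : ℕ) (C : ℝ), ∀ x : ℂ, ‖x‖ ≤ C * (1 + ‖x ^ n‖) ^ k := by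
  refine ⟨1, 1, fun x => ?_⟩
  rw [pow_one, one_mul, norm_pow]
  have h := norm_nonneg x
  rcases le_or_gt ‖x‖ 1 with h1 | h1
  · have := pow_nonneg h n
    linarith
  · have := le_self_pow₀ h1.le hn
    linarith

/-- `m ↦ R (m^n)` -/
def powS (n : ℕ) (hn : n ≠ 0) (R : 𝓢(ℂ, ℂ)) : 𝓢(ℂ, ℂ) :=
  SchwartzMap.compCLM ℝ (pow_temperate n) (pow_upper hn) R

@[simp] lemma powS_apply (n : ℕ) (hn : n ≠ 0) (R : 𝓢(ℂ, ℂ)) (m : ℂ) :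
    powS n hn R m = R (m ^ n) := by
  unfold powS
  rw [SchwartzMap.compCLM_apply, Function.comp_apply]

/-- multiplication by a nonzero constant as an equivalence -/
def mulE (c : ℂ) (hc : c ≠ 0) : ℂ ≃L[ℝ] ℂ :=
  (ContinuousLinearEquiv.smulLeft (Units.mk0 c hc) : ℂ ≃L[ℂ] ℂ).restrictScalars ℝ

lemma mulE_apply (c : ℂ) (hc : c ≠ 0) (z : ℂ) : mulE c hc z = c * z := by
  simp [mulE, ContinuousLinearEquiv.smulLeft]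

/-- `m ↦ R (c m)` -/
def dilS (c : ℂ) (hc : c ≠ 0) (R : 𝓢(ℂ, ℂ)) : 𝓢(ℂ, ℂ) :=
  SchwartzMap.compCLMOfContinuousLinearEquiv ℝ (mulE c hc) R

@[simp] lemma dilS_apply (c : ℂ) (hc : c ≠ 0) (R : 𝓢(ℂ, ℂ)) (m : ℂ) :
    dilS c hc R m = R (c * m) := by
  unfold dilS
  rw [SchwartzMap.compCLMOfContinuousLinearEquiv_apply, Function.comp_apply, mulE_apply]

lemma fC_dilS (c : ℂ) (hc : c ≠ 0) (R : 𝓢(ℂ, ℂ)) (v : ℂ) :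
    fC (dilS c hc R) v = (((‖c‖ ^ 2)⁻¹ : ℝ) : ℂ) * fC R (v / c) := by
  have h := fC_affine R hc 0 v
  simp only [add_zero, mul_zero, eC_zero', one_mul] at h
  rw [← h]
  have : (dilS c hc R : ℂ → ℂ) = fun z => R (c * z) := by
    ext m
    exact dilS_apply c hc R m
  rw [this]

/-! ### lattice sums -/

lemma one_le_norm_toC {m : Eis} (hm : m ≠ 0) : 1 ≤ ‖toC m‖ := by
  rw [norm_toC]
  have : 1 ≤ nm m := nm_pos.mpr hm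
  rw [show (1 : ℝ) = Real.sqrt 1 by simp]
  exact Real.sqrt_le_sqrt (by exact_mod_cast this)

lemma summable_inv3 : Summable fun m : Eis => ((1 + ‖toC m‖) ^ 3)⁻¹ := by
  have := Poisson381.summable_eis (b := 3) (by norm_num)
  refine this.congr fun m => ?_
  rw [Real.rpow_neg (by positivity)]
  norm_cast

/-- constant `Σ (1+|m|)^{-3}` -/
def C3 : ℝ := ∑' m : Eis, ((1 + ‖toC m‖) ^ 3)⁻¹

lemma C3_nonneg : 0 ≤ C3 := tsum_nonneg fun m => by positivity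

/-- termwise bound away from `m = 0` -/
lemma term_bound {R : 𝓢(ℂ, ℂ)} {A : ℕ} {C : ℝ} (hC : ∀ x, ‖R x‖ * (1 + ‖x‖) ^ (A + 3) ≤ C)
    {σ : ℂ} (hσ : 1 ≤ ‖σ‖) {m : Eis} (hm : m ≠ 0) :
    ‖R (σ * toC m)‖ ≤ C * 8 * (‖σ‖ ^ A)⁻¹ * ((1 + ‖toC m‖) ^ 3)⁻¹ := by
  have h1 := one_le_norm_toC hm
  have hC0 : 0 ≤ C := (by positivity : (0:ℝ) ≤ ‖R 0‖ * (1 + ‖(0:ℂ)‖) ^ (A + 3)).trans (hC 0)
  have h2 := hC (σ * toC m)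
  rw [norm_mul] at h2
  have h3 : ‖σ‖ ^ A * (1 + ‖toC m‖) ^ 3 ≤ 8 * (1 + ‖σ‖ * ‖toC m‖) ^ (A + 3) := by
    have e1 : ‖σ‖ ≤ 1 + ‖σ‖ * ‖toC m‖ := by nlinarith
    have e2 : 1 + ‖toC m‖ ≤ 2 * (1 + ‖σ‖ * ‖toC m‖) := by nlinarith
    calc ‖σ‖ ^ A * (1 + ‖toC m‖) ^ 3
        ≤ (1 + ‖σ‖ * ‖toC m‖) ^ A * (2 * (1 + ‖σ‖ * ‖toC m‖)) ^ 3 := by gcongr
      _ = 8 * (1 + ‖σ‖ * ‖toC m‖) ^ (A + 3) := by ring
  have hσp : 0 < ‖σ‖ := by linarith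
  rw [← div_eq_mul_inv, ← div_eq_mul_inv, div_div, le_div_iff₀ (by positivity)]
  calc ‖R (σ * toC m)‖ * (‖σ‖ ^ A * (1 + ‖toC m‖) ^ 3)
      ≤ ‖R (σ * toC m)‖ * (8 * (1 + ‖σ‖ * ‖toC m‖) ^ (A + 3)) := by gcongr
    _ = (‖R (σ * toC m)‖ * (1 + ‖σ‖ * ‖toC m‖) ^ (A + 3)) * 8 := by ring
    _ ≤ C * 8 := by gcongr

/-- `Σ_{m ≠ 0} a(m) R(σ m)` is `O(‖σ‖^{-A})` for `‖σ‖ ≥ 1` -/
lemma lat_dec (R : 𝓢(ℂ, ℂ)) (A : ℕ) : ∃ C : ℝ, 0 ≤ C ∧ ∀ (a : Eis → ℂ), (∀ m, ‖a m‖ ≤ 1) →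
    a 0 * R 0 = 0 → ∀ σ : ℂ, 1 ≤ ‖σ‖ →
    (Summable fun m : Eis => ‖a m * R (σ * toC m)‖) ∧
    ‖∑' m : Eis, a m * R (σ * toC m)‖ ≤ C * (‖σ‖ ^ A)⁻¹ := by
  obtain ⟨C, hC0, hC⟩ := sch_dec R (A + 3)
  refine ⟨C * 8 * C3, by have := C3_nonneg; positivity, fun a ha h0 σ hσ => ?_⟩
  have hσp : 0 < ‖σ‖ := by linarith
  have hb : ∀ m : Eis, ‖a m * R (σ * toC m)‖ ≤
      C * 8 * (‖σ‖ ^ A)⁻¹ * ((1 + ‖toC m‖) ^ 3)⁻¹ := by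
    intro m
    by_cases hm : m = 0
    · subst hm
      rw [map_zero, mul_zero, h0, norm_zero]
      positivity
    · rw [norm_mul]
      calc ‖a m‖ * ‖R (σ * toC m)‖ ≤ 1 * ‖R (σ * toC m)‖ := by gcongr; exact ha m
        _ = ‖R (σ * toC m)‖ := one_mul _
        _ ≤ _ := term_bound hC hσ hm
  have hs : Summable fun m : Eis => C * 8 * (‖σ‖ ^ A)⁻¹ * ((1 + ‖toC m‖) ^ 3)⁻¹ :=
    summable_inv3.mul_left _
  have hs2 : Summable fun m : Eis => ‖a m * R (σ * toC m)‖ :=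
    Summable.of_nonneg_of_le (fun m => norm_nonneg _) hb hs
  refine ⟨hs2, ?_⟩
  calc ‖∑' m : Eis, a m * R (σ * toC m)‖ ≤ ∑' m : Eis, ‖a m * R (σ * toC m)‖ :=
        norm_tsum_le_tsum_norm hs2
    _ ≤ ∑' m : Eis, C * 8 * (‖σ‖ ^ A)⁻¹ * ((1 + ‖toC m‖) ^ 3)⁻¹ :=
        hs2.tsum_le_tsum hb hs
    _ = C * 8 * C3 * (‖σ‖ ^ A)⁻¹ := by rw [tsum_mul_left]; unfold C3; ring

/-- summability of `R (σ m)` for every `σ ≠ 0` -/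
lemma summable_dil (R : 𝓢(ℂ, ℂ)) {σ : ℂ} (hσ : σ ≠ 0) :
    Summable fun m : Eis => ‖R (σ * toC m)‖ := by
  obtain ⟨C, hC0, hC⟩ := sch_dec R 3
  have hσp : 0 < ‖σ‖ := norm_pos_iff.mpr hσ
  set d : ℝ := min 1 ‖σ‖ with hd
  have hd0 : 0 < d := lt_min one_pos hσp
  refine Summable.of_nonneg_of_le (fun m => norm_nonneg _) (fun m => ?_)
    (summable_inv3.mul_left (C * (d ^ 3)⁻¹))
  have h1 := hC (σ * toC m)
  rw [norm_mul] at h1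
  have h2 : d * (1 + ‖toC m‖) ≤ 1 + ‖σ‖ * ‖toC m‖ := by
    have e1 : d ≤ 1 := min_le_left _ _
    have e2 : d ≤ ‖σ‖ := min_le_right _ _
    have e3 := norm_nonneg (toC m)
    nlinarith
  rw [← div_eq_mul_inv, ← div_eq_mul_inv, div_div, le_div_iff₀ (by positivity)]
  calc ‖R (σ * toC m)‖ * (d ^ 3 * (1 + ‖toC m‖) ^ 3)
      = ‖R (σ * toC m)‖ * (d * (1 + ‖toC m‖)) ^ 3 := by ring
    _ ≤ ‖R (σ * toC m)‖ * (1 + ‖σ‖ * ‖toC m‖) ^ 3 := by gcongr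
    _ ≤ C := h1

/-! ### the character data -/

/-- `Θ_R(τ) = Σ_m ξ(m) R(τ m)` -/
def Th (ξ : Eis → ℂ) (R : 𝓢(ℂ, ℂ)) (τ : ℂ) : ℂ := ∑' m : Eis, ξ m * R (τ * toC m)

variable {ξ : Eis → ℂ} {κ c : ℂ}

/-- Poisson summation for `Θ_R` -/
lemma XiP.th (h : XiP ξ κ c) (R : 𝓢(ℂ, ℂ)) {τ : ℂ} (hτ : τ ≠ 0) :
    Th ξ R τ = c * ((((‖τ‖ ^ 2)⁻¹ : ℝ) : ℂ) *
      Th (fun k => (starRingEnd ℂ) (ξ k)) (fCS R) ((κ * τ)⁻¹)) := by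
  have h1 := h.pois (dilS τ hτ R)
  simp only [dilS_apply] at h1
  unfold Th
  rw [h1]
  congr 1
  rw [← tsum_mul_left]
  refine tsum_congr fun k => ?_
  rw [fC_dilS, fCS_apply]
  have : toC k / κ / τ = (κ * τ)⁻¹ * toC k := by
    have := h.κ0
    field_simp
  rw [this]
  ring

/-- two-sided rapid decay of `Θ_R` -/
theorem XiP.th_dec (h : XiP ξ κ c) (R : 𝓢(ℂ, ℂ)) (h0 : ξ 0 * R 0 = 0)
    (hi : ξ 0 * ∫ z, R z = 0) (A : ℕ) : ∃ C : ℝ, 0 ≤ C ∧ ∀ τ : ℂ, τ ≠ 0 →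
    ‖Th ξ R τ‖ ≤ C * ‖τ‖ ^ A ∧ ‖Th ξ R τ‖ ≤ C * (‖τ‖ ^ A)⁻¹ := by
  obtain ⟨C₁, hC₁, h₁⟩ := lat_dec R A
  obtain ⟨C₂, hC₂, h₂⟩ := lat_dec (fCS R) (A + 2)
  have hκ : 0 < ‖κ‖ := norm_pos_iff.mpr h.κ0
  have h0' : (starRingEnd ℂ) (ξ 0) * fCS R 0 = 0 := by
    rw [fCS_apply]
    have e : fC R 0 = ∫ z, R z := by
      unfold fC
      congr 1
      ext z
      rw [zero_mul, neg_zero, eC_zero', mul_one]
    rw [e]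
    rcases mul_eq_zero.mp hi with h3 | h3
    · rw [h3, map_zero, zero_mul]
    · rw [h3, mul_zero]
  -- large τ
  have hbig : ∀ τ : ℂ, 1 ≤ ‖τ‖ → ‖Th ξ R τ‖ ≤ C₁ * (‖τ‖ ^ A)⁻¹ :=
    fun τ hτ => (h₁ ξ h.le1 h0 τ hτ).2
  -- small τ
  have hsmall : ∀ τ : ℂ, τ ≠ 0 → ‖κ * τ‖ ≤ 1 → ‖Th ξ R τ‖ ≤ ‖c‖ * C₂ * ‖κ‖ ^ (A + 2) * ‖τ‖ ^ A := by
    intro τ hτ hκτ
    have hτp : 0 < ‖τ‖ := norm_pos_iff.mpr hτ
    rw [h.th R hτ, norm_mul, norm_mul, Complex.norm_real, Real.norm_of_nonneg (by positivity)]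
    have h3 := (h₂ (fun k => (starRingEnd ℂ) (ξ k)) (fun m => by simpa using h.le1 m) h0'
      ((κ * τ)⁻¹) (by
        rw [norm_inv]
        exact (one_le_inv₀ (by rw [norm_mul]; positivity)).mpr hκτ)).2
    have h4 : ‖Th (fun k => (starRingEnd ℂ) (ξ k)) (fCS R) ((κ * τ)⁻¹)‖ ≤
        C₂ * (‖(κ * τ)⁻¹‖ ^ (A + 2))⁻¹ := h3
    rw [norm_inv, inv_pow, inv_inv, norm_mul] at h4
    calc ‖c‖ * ((‖τ‖ ^ 2)⁻¹ * ‖Th (fun k => (starRingEnd ℂ) (ξ k)) (fCS R) ((κ * τ)⁻¹)‖)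
        ≤ ‖c‖ * ((‖τ‖ ^ 2)⁻¹ * (C₂ * (‖κ‖ * ‖τ‖) ^ (A + 2))) := by gcongr
      _ = ‖c‖ * C₂ * ‖κ‖ ^ (A + 2) * ‖τ‖ ^ A := by
          rw [mul_pow, pow_add ‖τ‖]
          field_simp
  -- intermediate range: everything is bounded below
  set δ : ℝ := min 1 ‖κ‖⁻¹ with hδ
  have hδ0 : 0 < δ := lt_min one_pos (by positivity)
  -- a bound on δ ≤ ‖τ‖ ≤ 1
  obtain ⟨C₃, hC₃, h₃⟩ := sch_dec R 3
  set K : ℝ := C₃ * (δ ^ 3)⁻¹ * C3 with hK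
  have hC3 := C3_nonneg
  have hmid : ∀ τ : ℂ, δ ≤ ‖τ‖ → ‖Th ξ R τ‖ ≤ K := by
    intro τ hτ
    have hτ0 : τ ≠ 0 := by
      intro h4; rw [h4, norm_zero] at hτ; linarith
    have hb : ∀ m : Eis, ‖ξ m * R (τ * toC m)‖ ≤ C₃ * (δ ^ 3)⁻¹ * ((1 + ‖toC m‖) ^ 3)⁻¹ := by
      intro m
      have h5 := h₃ (τ * toC m)
      rw [norm_mul] at h5
      have h6 : δ * (1 + ‖toC m‖) ≤ 1 + ‖τ‖ * ‖toC m‖ := by
        have e1 : δ ≤ 1 := min_le_left _ _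
        have e3 := norm_nonneg (toC m)
        nlinarith
      rw [norm_mul]
      calc ‖ξ m‖ * ‖R (τ * toC m)‖ ≤ 1 * ‖R (τ * toC m)‖ := by gcongr; exact h.le1 m
        _ = ‖R (τ * toC m)‖ := one_mul _
        _ ≤ _ := by
            rw [← div_eq_mul_inv, ← div_eq_mul_inv, div_div, le_div_iff₀ (by positivity)]
            calc ‖R (τ * toC m)‖ * (δ ^ 3 * (1 + ‖toC m‖) ^ 3)
                = ‖R (τ * toC m)‖ * (δ * (1 + ‖toC m‖)) ^ 3 := by ring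
              _ ≤ ‖R (τ * toC m)‖ * (1 + ‖τ‖ * ‖toC m‖) ^ 3 := by gcongr
              _ ≤ C₃ := h5
    have hs : Summable fun m : Eis => C₃ * (δ ^ 3)⁻¹ * ((1 + ‖toC m‖) ^ 3)⁻¹ :=
      summable_inv3.mul_left _
    have hs2 : Summable fun m : Eis => ‖ξ m * R (τ * toC m)‖ :=
      Summable.of_nonneg_of_le (fun m => norm_nonneg _) hb hs
    calc ‖Th ξ R τ‖ ≤ ∑' m : Eis, ‖ξ m * R (τ * toC m)‖ := norm_tsum_le_tsum_norm hs2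
      _ ≤ ∑' m : Eis, C₃ * (δ ^ 3)⁻¹ * ((1 + ‖toC m‖) ^ 3)⁻¹ := hs2.tsum_le_tsum hb hs
      _ = K := by rw [tsum_mul_left, hK]; rfl
  have hK0 : 0 ≤ K := by rw [hK]; positivity
  refine ⟨C₁ + ‖c‖ * C₂ * ‖κ‖ ^ (A + 2) + K * (δ ^ A)⁻¹, by positivity, fun τ hτ => ?_⟩
  have hτp : 0 < ‖τ‖ := norm_pos_iff.mpr hτ
  have hpA : 0 < ‖τ‖ ^ A := by positivity
  have n1 : 0 ≤ ‖c‖ * C₂ * ‖κ‖ ^ (A + 2) := by positivity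
  have n2 : 0 ≤ K * (δ ^ A)⁻¹ := by positivity
  have hδ1 : δ ≤ 1 := min_le_left _ _
  have hδA : δ ^ A ≤ 1 := pow_le_one₀ hδ0.le hδ1
  rcases le_or_gt ‖τ‖ δ with hc | hc
  · -- small
    have hκτ : ‖κ * τ‖ ≤ 1 := by
      rw [norm_mul]
      calc ‖κ‖ * ‖τ‖ ≤ ‖κ‖ * δ := by gcongr
        _ ≤ ‖κ‖ * ‖κ‖⁻¹ := by gcongr; exact min_le_right _ _
        _ = 1 := mul_inv_cancel₀ hκ.ne'
    have hh := hsmall τ hτ hκτ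
    have ht1 : ‖τ‖ ≤ 1 := hc.trans hδ1
    have htA : ‖τ‖ ^ A ≤ 1 := pow_le_one₀ hτp.le ht1
    have htA' : ‖τ‖ ^ A ≤ (‖τ‖ ^ A)⁻¹ := htA.trans ((one_le_inv₀ hpA).mpr htA)
    constructor
    · refine hh.trans ?_
      gcongr
      linarith
    · refine hh.trans ?_
      gcongr
      linarith
  · have hh := hmid τ hc.le
    have hδτ : δ ^ A ≤ ‖τ‖ ^ A := by gcongr
    constructor
    · calc ‖Th ξ R τ‖ ≤ K := hh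
        _ = K * (δ ^ A)⁻¹ * δ ^ A := by
            rw [mul_assoc, inv_mul_cancel₀ (by positivity), mul_one]
        _ ≤ (C₁ + ‖c‖ * C₂ * ‖κ‖ ^ (A + 2) + K * (δ ^ A)⁻¹) * ‖τ‖ ^ A := by
            gcongr
            linarith
    · rcases le_or_gt 1 ‖τ‖ with h7 | h7
      · refine (hbig τ h7).trans ?_
        gcongr
        linarith
      · have : 1 ≤ (‖τ‖ ^ A)⁻¹ := (one_le_inv₀ hpA).mpr (pow_le_one₀ hτp.le h7.le)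
        have h8 : K ≤ K * (δ ^ A)⁻¹ := by
          have : 1 ≤ (δ ^ A)⁻¹ := (one_le_inv₀ (by positivity)).mpr hδA
          nlinarith
        calc ‖Th ξ R τ‖ ≤ K := hh
          _ ≤ (C₁ + ‖c‖ * C₂ * ‖κ‖ ^ (A + 2) + K * (δ ^ A)⁻¹) * 1 := by linarith
          _ ≤ _ := by gcongr

end Crest.Agent.R017.Xn590
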