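import Crest.Agent.R017.XiA_590
import Crest.Agent.R017.XnB_590
import Crest.Agent.R017.F1Defs_180
import Crest.Agent.R017.PowN_960

/-!
Row 17 (helper960), for helper590's pair theorem with general exponent `n ≥ 2`:

* `integral_pow`, `integrable_pow` (K1): `∫ G = ∫ n |M|^(2n-2) G (M^n) dM`
* `tate_pow` (TATE): `∫ Φ(m^n) dm = γ ∫ |t|^(2n) f(t^n) dt`, `γ ≠ 0`
* `mom1_pow`: `∫ f = n ∫ |t|^(2n-2) f(t^n) dt`
-/

set_option autoImplicit false

noncomputable section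

open Complex MeasureTheory Set Filter Topology
open scoped FourierTransform ContDiff SchwartzMap

namespace Crest.Agent.R017.Xn960

open Crest.Agent.R012 Crest.Agent.R012.Eis Crest.Agent.R012.Po581
open Crest.Agent.R017.Xi590 Crest.Agent.R017.Xn590

variable {E : Type*} [NormedAddCommGroup E] [NormedSpace ℝ E]

theorem integral_pow (n : ℕ) (hn : n ≠ 0) {G : ℂ → E} (hG : AEStronglyMeasurable G) :
    ∫ y, G y = ∫ M : ℂ, (n * ‖M‖ ^ (2 * n - 2)) • G (M ^ n) :=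
  PowN960.integral_powN n hn hG

theorem integrable_pow (n : ℕ) (hn : n ≠ 0) {G : ℂ → E} (hG : Integrable G) :
    Integrable fun M : ℂ => (n * ‖M‖ ^ (2 * n - 2)) • G (M ^ n) :=
  PowN960.integrable_powN n hn hG

theorem integrable_of_pow (n : ℕ) (hn : n ≠ 0) {G : ℂ → E} (hG : AEStronglyMeasurable G)
    (h : Integrable fun M : ℂ => (n * ‖M‖ ^ (2 * n - 2)) • G (M ^ n)) : Integrable G :=
  PowN960.integrable_of_powN n hn hG h

/-- `∫ f = n ∫ |t|^(2n-2) f(t^n) dt`. -/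
theorem mom1_pow (n : ℕ) (hn : n ≠ 0) {f : ℂ → ℂ} (hf : Continuous f) :
    ∫ x, f x = n * ∫ t : ℂ, (((‖t‖ ^ (2 * n - 2) : ℝ)) : ℂ) * f (t ^ n) := by
  rw [integral_pow n hn hf.aestronglyMeasurable, ← integral_const_mul]
  congr 1
  ext t
  rw [Complex.real_smul]
  push_cast
  ring

theorem mom1_zero (n : ℕ) (hn : n ≠ 0) {f : ℂ → ℂ} (hf : Continuous f) (h : ∫ x, f x = 0) :
    ∫ t : ℂ, (((‖t‖ ^ (2 * n - 2) : ℝ)) : ℂ) * f (t ^ n) = 0 := by
  rw [mom1_pow n hn hf] at h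
  have hn' : (n : ℂ) ≠ 0 := by exact_mod_cast hn
  exact (mul_eq_zero.mp h).resolve_left hn'

lemma ae_ne_zero : ∀ᵐ u : ℂ, u ≠ 0 := by
  rw [ae_iff]
  have : {a : ℂ | ¬ a ≠ 0} = {0} := by ext; simp
  rw [this]; exact measure_singleton 0

/-- Multiplying a function supported in an annulus by a power of the norm. -/
lemma CS.integrable_rpow {g : ℂ → ℂ} (hg : CS g) (p : ℝ) :
    Integrable (fun z => ((‖z‖ ^ p : ℝ) : ℂ) * g z) := by
  obtain ⟨a, b, ha, hab, hs⟩ := hg.supp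
  have hb : 0 < b := ha.trans hab
  refine (hg.integrable.norm.const_mul (a ^ p + b ^ p)).mono' ?_ ?_
  · exact (by fun_prop : Measurable fun z : ℂ => ((‖z‖ ^ p : ℝ) : ℂ)).aestronglyMeasurable.mul
      hg.cont.aestronglyMeasurable
  · refine Eventually.of_forall fun z => ?_
    by_cases hz : ‖z‖ < a ∨ b < ‖z‖
    · rw [hs z hz]; simp
    · push Not at hz
      rw [norm_mul, Complex.norm_real, Real.norm_eq_abs, abs_of_nonneg (by positivity)]
      refine mul_le_mul_of_nonneg_right ?_ (norm_nonneg _)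
      have hz0 : 0 < ‖z‖ := ha.trans_le hz.1
      rcases le_total 0 p with hp | hp
      · have := Real.rpow_le_rpow hz0.le hz.2 hp
        have h2 : 0 ≤ a ^ p := by positivity
        linarith
      · have := Real.rpow_le_rpow_of_nonpos ha hz.1 hp
        have h2 : 0 ≤ b ^ p := by positivity
        linarith

/-- the gamma factor -/
def gamN (n : ℕ) : ℝ :=
  Real.pi * Real.Gamma (1 / n) / Real.Gamma (1 - 1 / n) * (4 * Real.pi ^ 2) ^ (-(1 / n : ℝ))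

lemma gamN_pos (n : ℕ) (hn : 2 ≤ n) : 0 < gamN n := by
  unfold gamN
  have h1 : (0 : ℝ) < 1 / n := by positivity
  have h2 : (0 : ℝ) < 1 - 1 / n := by
    have : (2 : ℝ) ≤ n := by exact_mod_cast hn
    have h3 : (1 : ℝ) / n ≤ 1 / 2 := by
      exact one_div_le_one_div_of_le (by norm_num) this
    linarith
  have h4 := Real.Gamma_pos_of_pos h1
  have h5 := Real.Gamma_pos_of_pos h2
  positivity

lemma norm_pow_rpow (t : ℂ) {n : ℕ} (hn : n ≠ 0) (p : ℝ) (_ht : t ≠ 0) :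
    ‖t ^ n‖ ^ (p / n) = ‖t‖ ^ p := by
  rw [norm_pow, ← Real.rpow_natCast, ← Real.rpow_mul (norm_nonneg t)]
  congr 1
  have : (n : ℝ) ≠ 0 := by exact_mod_cast hn
  field_simp

/-- Weighted transform of a Schwartz function: `‖u‖^(-(2-2/n)) R(u)` is integrable and its
integral is `n ∫ R(m^n) dm`. -/
lemma schwartz_pow (n : ℕ) (hn : 2 ≤ n) (R : 𝓢(ℂ, ℂ)) :
    Integrable (fun u : ℂ => ((‖u‖ ^ (-(2 * (1 - 1 / n : ℝ))) : ℝ) : ℂ) * R u) ∧
    ∫ u : ℂ, ((‖u‖ ^ (-(2 * (1 - 1 / n : ℝ))) : ℝ) : ℂ) * R u = n * ∫ m : ℂ, R (m ^ n) := by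
  have hn0 : n ≠ 0 := by omega
  have hnR : (n : ℝ) ≠ 0 := by exact_mod_cast hn0
  set G : ℂ → ℂ := fun u => ((‖u‖ ^ (-(2 * (1 - 1 / n : ℝ))) : ℝ) : ℂ) * R u with hG
  have hGm : AEStronglyMeasurable G :=
    (by fun_prop : Measurable fun z : ℂ => ((‖z‖ ^ (-(2 * (1 - 1 / n : ℝ))) : ℝ) : ℂ)).aestronglyMeasurable.mul
      R.continuous.aestronglyMeasurable
  have hae : (fun M : ℂ => (n * ‖M‖ ^ (2 * n - 2)) • G (M ^ n)) =ᵐ[volume]
      fun M => (n : ℂ) * R (M ^ n) := by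
    filter_upwards [ae_ne_zero] with M hM
    have hMp : 0 < ‖M‖ := norm_pos_iff.mpr hM
    rw [hG, Complex.real_smul]
    simp only
    have e1 : ‖M ^ n‖ ^ (-(2 * (1 - 1 / n : ℝ))) = (‖M‖ ^ (2 * n - 2))⁻¹ := by
      have e2 : -(2 * (1 - 1 / n : ℝ)) = (-((2 * n - 2 : ℕ) : ℝ)) / n := by
        rw [Nat.cast_sub (by omega)]
        push_cast
        field_simp
      rw [e2, norm_pow_rpow M hn0 _ hM, Real.rpow_neg hMp.le, Real.rpow_natCast]
    rw [e1]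
    push_cast
    have : (‖M‖ : ℂ) ^ (2 * n - 2) ≠ 0 := by
      exact_mod_cast (pow_pos hMp _).ne'
    field_simp
  have hint : Integrable fun M : ℂ => (n * ‖M‖ ^ (2 * n - 2)) • G (M ^ n) := by
    refine Integrable.congr ?_ hae.symm
    have := (powS n hn0 R).integrable (μ := volume)
    refine (this.congr (Eventually.of_forall fun m => powS_apply n hn0 R m)).const_mul _
  refine ⟨integrable_of_pow n hn0 hGm hint, ?_⟩
  rw [integral_pow n hn0 hGm, integral_congr_ae hae, integral_const_mul]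

/-- **(TATE)** `∫ Φ(m^n) dm = γ_n ∫ |t|^(2n) f(t^n) dt`. -/
theorem tate_pow (n : ℕ) (hn : 2 ≤ n) {f : ℂ → ℂ} (hf : CS f) :
    ∫ m : ℂ, Xi590.Phi f (m ^ n) =
      (gamN n : ℂ) * ∫ t : ℂ, ((‖t‖ ^ (2 * n) : ℝ) : ℂ) * f (t ^ n) := by
  have hn0 : n ≠ 0 := by omega
  have hnR : (n : ℝ) ≠ 0 := by exact_mod_cast hn0
  have hnC : (n : ℂ) ≠ 0 := by exact_mod_cast hn0
  have h2n : (2 : ℝ) ≤ n := by exact_mod_cast hn
  have hinv : (1 : ℝ) / n ≤ 1 / 2 := one_div_le_one_div_of_le (by norm_num) h2n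
  have hinv0 : (0 : ℝ) < 1 / n := by positivity
  set σ : ℝ := 1 - 1 / n with hσ
  have hσ0 : 0 < σ := by rw [hσ]; linarith
  have hσ1 : σ < 1 := by rw [hσ]; linarith
  set g : ℂ → ℂ := gI f with hg
  have hgC : CS g := hf.gI
  -- transform of `z ↦ g (-z)`
  have hgn : Integrable (fun z => g (-z)) := hgC.integrable.comp_neg
  have hF : ∀ u : ℂ, ∫ z, g (-z) * eC (z * u) = Xi590.Phi f u := by
    intro u
    rw [Phi_eq]
    unfold Po581.fC
    rw [← integral_neg_eq_self]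
    congr 1
    ext z
    rw [neg_neg]
    congr 2
    ring
  have hfm : Integrable (fun z => ((‖z‖ ^ (-(2 * (1 - σ))) : ℝ) : ℂ) * g (-z)) := by
    have := (CS.integrable_rpow hgC (-(2 * (1 - σ)))).comp_neg
    refine this.congr (Eventually.of_forall fun z => ?_)
    simp only [norm_neg]
  have hS := schwartz_pow n hn hf.Ph
  have hph : ∀ u : ℂ, hf.Ph u = Xi590.Phi f u := fun u => hf.Ph_apply u
  simp only [hph] at hS
  have hFm : Integrable (fun u => ((‖u‖ ^ (-(2 * σ)) : ℝ) : ℂ) * ∫ z, g (-z) * eC (z * u)) := by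
    simp only [hF]
    exact hS.1
  have key := TateC413.tate hσ0 hσ1 hgn hfm hFm
  simp only [hF] at key
  rw [hS.2] at key
  -- right-hand side
  have hR : ∫ z, ((‖z‖ ^ (-(2 * (1 - σ))) : ℝ) : ℂ) * g (-z) =
      n * ∫ t : ℂ, ((‖t‖ ^ (2 * n) : ℝ) : ℂ) * f (t ^ n) := by
    have e1 : ∫ z, ((‖z‖ ^ (-(2 * (1 - σ))) : ℝ) : ℂ) * g (-z) =
        ∫ z, ((‖z‖ ^ (-(2 * (1 - σ))) : ℝ) : ℂ) * g z := by
      rw [← integral_neg_eq_self (fun z => ((‖z‖ ^ (-(2 * (1 - σ))) : ℝ) : ℂ) * g z)]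
      simp only [norm_neg]
    rw [e1]
    have e2 : ∫ p, ((‖p‖ ^ ((2 : ℝ) / n) : ℝ) : ℂ) * f p =
        ∫ z, ((‖z‖ ^ (-(2 * (1 - σ))) : ℝ) : ℂ) * g z := by
      rw [F1Cube590.integral_inv]
      refine integral_congr_ae ?_
      filter_upwards [ae_ne_zero] with s hs
      have hsp : 0 < ‖s‖ := norm_pos_iff.mpr hs
      rw [Complex.real_smul, hg]
      unfold gI
      have e3 : ‖s⁻¹‖ ^ ((2 : ℝ) / n) = ‖s‖ ^ (-(2 * (1 - σ))) := by
        rw [norm_inv, Real.inv_rpow hsp.le, ← Real.rpow_neg hsp.le]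
        congr 1
        rw [hσ]
        ring
      rw [e3]
      ring
    rw [← e2]
    have hGm : AEStronglyMeasurable (fun p : ℂ => ((‖p‖ ^ ((2 : ℝ) / n) : ℝ) : ℂ) * f p) :=
      (by fun_prop : Measurable fun z : ℂ => ((‖z‖ ^ ((2 : ℝ) / n) : ℝ) : ℂ)).aestronglyMeasurable.mul
        hf.cont.aestronglyMeasurable
    rw [integral_pow n hn0 hGm, ← integral_const_mul]
    refine integral_congr_ae ?_
    filter_upwards [ae_ne_zero] with t ht
    rw [Complex.real_smul, norm_pow_rpow t hn0 _ ht]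
    have e4 : ‖t‖ ^ (2 * n) = ‖t‖ ^ (2 * n - 2) * ‖t‖ ^ (2 : ℝ) := by
      rw [show (2 : ℝ) = ((2 : ℕ) : ℝ) by norm_num, Real.rpow_natCast, ← pow_add]
      congr 1
      omega
    rw [e4]
    push_cast
    ring
  rw [hR] at key
  have hγ : Real.pi * Real.Gamma (1 - σ) / Real.Gamma σ * (4 * Real.pi ^ 2) ^ (σ - 1) = gamN n := by
    unfold gamN
    rw [hσ]
    congr 3
    · ring_nf
    · ring
  rw [hγ] at key
  apply mul_left_cancel₀ hnC
  rw [key]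
  ring

/-- **(TATE)**, zero form. -/
theorem tate_zero (n : ℕ) (hn : 2 ≤ n) {f : ℂ → ℂ} (hf : CS f)
    (h : ∫ m : ℂ, Xi590.Phi f (m ^ n) = 0) :
    ∫ t : ℂ, ((‖t‖ ^ (2 * n) : ℝ) : ℂ) * f (t ^ n) = 0 := by
  rw [tate_pow n hn hf] at h
  refine (mul_eq_zero.mp h).resolve_left ?_
  exact_mod_cast (gamN_pos n hn).ne'

/-- The same with `F1.Phi` (identical definition). -/
lemma Phi_eq_Phi (f : ℂ → ℂ) : F1.Phi f = Xi590.Phi f := rfl

theorem tate_zero' (n : ℕ) (hn : 2 ≤ n) {f : ℂ → ℂ} (hf : CS f)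
    (h : ∫ m : ℂ, F1.Phi f (m ^ n) = 0) :
    ∫ t : ℂ, ((‖t‖ ^ (2 * n) : ℝ) : ℂ) * f (t ^ n) = 0 :=
  tate_zero n hn hf h

end Crest.Agent.R017.Xn960
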