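import Crest.Agent.R017.BL5defs_868
import Crest.Agent.R017.XnTate_960
import Crest.Agent.R017.XnC_590
import Crest.Agent.R017.Wt1_92

/-!
# Row 17, leaf L5: `S1` (helper590)

`∫ F(z³) dz ≠ 0` for `F = fC (om(|·|²))`, `om ≥ 0`, `om ≠ 0`: from the Tate formula `tate_pow`.
-/

set_option autoImplicit false

noncomputable section

open MeasureTheory Complex Set
open scoped ComplexConjugate ContDiff

namespace Crest.Agent.R017.L5S1590

open Crest.Agent.R012 Crest.Agent.R012.Eis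
open Crest.Agent.R017.Xi590 Crest.Agent.R017.Xn590 Crest.Agent.R017.Wt92 Crest.Agent.R017.B770
open Crest.Agent.R012.Po581 (fC)

lemma vd_of_sw {om : ℝ → ℂ} (h : SW om) : VD om where
  smooth := h.smooth
  supp := by
    by_cases he : (tsupport om).Nonempty
    · obtain ⟨a, ha⟩ := h.cpt.isCompact.exists_isLeast he
      obtain ⟨b, hb⟩ := h.cpt.isCompact.exists_isGreatest he
      have ha0 : 0 < a := h.supp ha.1
      have hab : a ≤ b := ha.2 hb.1
      refine ⟨a, b + 1, ha0, by linarith, fun y hy => ?_⟩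
      apply image_eq_zero_of_notMem_tsupport
      intro hmem
      have h1 := ha.2 hmem
      have h2 := hb.2 hmem
      rcases hy with hy | hy <;> linarith
    · refine ⟨1, 2, one_pos, one_lt_two, fun y _ => ?_⟩
      apply image_eq_zero_of_notMem_tsupport
      exact fun hmem => he ⟨y, hmem⟩

lemma gI_gI {g : ℂ → ℂ} (h : g 0 = 0) : gI (gI g) = g := by
  funext x
  unfold gI
  by_cases hx : x = 0
  · subst hx
    simp [h]
  · have hn : ((‖x‖ : ℝ) : ℂ) ≠ 0 := by exact_mod_cast norm_ne_zero_iff.mpr hx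
    rw [norm_inv, inv_inv]
    push_cast
    field_simp

theorem s1 : L5.S1 := by
  intro om hom hpos hne
  have hV := vd_of_sw hom
  set g : ℂ → ℂ := fun w => om (‖w‖ ^ 2) with hg
  have hgw : g = wt om 0 := by
    funext w
    simp [hg, wt, sph]
  have hgC : CS g := by rw [hgw]; exact hV.cs 0
  set f : ℂ → ℂ := gI g with hf
  have hfC : CS f := hgC.gI
  have hfg : Phi f = fC g := by
    rw [Phi_eq, hf, gI_gI hgC.zero]
  have h1 := Xn960.tate_pow 3 (by norm_num) hfC
  rw [hfg] at h1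
  rw [h1]
  refine mul_ne_zero (by exact_mod_cast (Xn960.gamN_pos 3 (by norm_num)).ne') ?_
  set P : ℂ → ℂ := fun t => ((‖t‖ ^ (2 * 3) : ℝ) : ℂ) * f (t ^ 3) with hP
  have hPC : CS P := CS_powW hfC (2 * 3) (by norm_num : (3 : ℕ) ≠ 0)
  have hval : ∀ t, P t = ((‖t‖ ^ (2 * 3) * ((‖t ^ 3‖ ^ 4)⁻¹ * (om (‖(t ^ 3)⁻¹‖ ^ 2)).re) : ℝ) : ℂ) := by
    intro t
    have h2 : om (‖(t ^ 3)⁻¹‖ ^ 2) = ((om (‖(t ^ 3)⁻¹‖ ^ 2)).re : ℂ) := by
      apply Complex.ext
      · simp
      · simpa using (hpos _).2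
    simp only [hP, hf, gI, hg]
    generalize om (‖(t ^ 3)⁻¹‖ ^ 2) = q at h2 ⊢
    rw [h2, Complex.ofReal_re]
    push_cast
    ring
  set H : ℂ → ℝ := fun t => ‖t‖ ^ (2 * 3) * ((‖t ^ 3‖ ^ 4)⁻¹ * (om (‖(t ^ 3)⁻¹‖ ^ 2)).re) with hH
  have hPH : P = fun t => ((H t : ℝ) : ℂ) := by funext t; rw [hval]
  have hHP : H = fun t => (P t).re := by funext t; rw [hPH]; simp
  have hc : Continuous H := by rw [hHP]; exact Complex.continuous_re.comp hPC.cont
  have hcs : HasCompactSupport H := by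
    rw [hHP]
    exact hPC.cs.comp_left (g := Complex.re) (by simp)
  have hnn : 0 ≤ H := by
    intro t
    have := (hpos (‖(t ^ 3)⁻¹‖ ^ 2)).1
    simp only [hH, Pi.zero_apply]
    positivity
  obtain ⟨x, hx⟩ := hne
  have hx0 : 0 < x := by
    by_contra hcon
    exact hx (image_eq_zero_of_notMem_tsupport fun h => hcon (hom.supp h))
  set r : ℝ := (x⁻¹) ^ (1 / 6 : ℝ) with hr
  have hr0 : 0 < r := by positivity
  have hr6 : r ^ 6 = x⁻¹ := by
    rw [hr, ← Real.rpow_natCast, ← Real.rpow_mul (by positivity)]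
    norm_num
  have hnr : ‖(((r : ℂ)) ^ 3)⁻¹‖ ^ 2 = x := by
    rw [norm_inv, norm_pow, Complex.norm_real, Real.norm_eq_abs, abs_of_pos hr0, inv_pow, ← pow_mul,
      hr6, inv_inv]
  have hHr : H (r : ℂ) ≠ 0 := by
    simp only [hH]
    rw [hnr]
    have h3 : (om x).re ≠ 0 := by
      intro h0
      apply hx
      apply Complex.ext
      · simpa using h0
      · simpa using (hpos x).2
    have h4 : ‖(r : ℂ)‖ ≠ 0 := by
      rw [Complex.norm_real, Real.norm_eq_abs, abs_of_pos hr0]; exact hr0.ne'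
    rw [norm_pow]
    positivity
  have hint : 0 < ∫ t, H t :=
    hc.integral_pos_of_hasCompactSupport_nonneg_nonzero hcs hnn hHr
  have : ∫ t, P t = ((∫ t, H t : ℝ) : ℂ) := by rw [hPH]; exact integral_ofReal
  rw [this]
  exact_mod_cast hint.ne'

end Crest.Agent.R017.L5S1590
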