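import Crest.Agent.R012.PSer_47
import Crest.Agent.R012.Cheb_420

/-!
# Row 17, end block (A): the number of primary elements of norm `n`

`cnt n = #{b primary, nm b = n} = ∑_{d ∣ n} χ₋₃(d)` for `3 ∤ n`.
-/

set_option autoImplicit false

noncomputable section

namespace Crest.Agent.R017.End699

open Crest.Agent.R012 Crest.Agent.R012.Eis Crest.Agent.R012.PSer47

/-- number of primary elements of norm `n` -/
def cnt (n : ℕ) : ℕ := (fib n).card

/-- `χ₋₃`, integer valued -/
def qc (n : ℕ) : ℤ := quadraticChar (ZMod 3) (n : ZMod 3)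

lemma qc_mul (m n : ℕ) : qc (m * n) = qc m * qc n := by
  unfold qc; push_cast; rw [map_mul]

lemma qc_pow (m k : ℕ) : qc (m ^ k) = qc m ^ k := by
  unfold qc; push_cast; rw [map_pow]

lemma qc_one {p : ℕ} (hp : p % 3 = 1) : qc p = 1 := by
  unfold qc
  have : (p : ZMod 3) = 1 := by
    have := (ZMod.natCast_eq_natCast_iff p 1 3).mpr hp
    simpa using this
  rw [this]; decide

lemma qc_two {p : ℕ} (hp : p % 3 = 2) : qc p = -1 := by
  unfold qc
  have : (p : ZMod 3) = 2 := by
    have := (ZMod.natCast_eq_natCast_iff p 2 3).mpr hp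
    simpa using this
  rw [this]; decide

lemma qc_zero {p : ℕ} (hp : p % 3 = 0) : qc p = 0 := by
  unfold qc
  have : (p : ZMod 3) = 0 := by
    have := (ZMod.natCast_eq_natCast_iff p 0 3).mpr hp
    simpa using this
  rw [this]; decide

lemma isPrim_conj {x : Eis} (hx : IsPrim x) : IsPrim (conj x) := by
  unfold IsPrim at *
  have h := conj_dvd_conj hx
  rw [conj_sub, conj_one] at h
  have h3 : conj (3 : Eis) = 3 := by apply ext' <;> simp
  rwa [h3] at h

lemma isPrim_mul {x y : Eis} (hx : IsPrim x) (hy : IsPrim y) : IsPrim (x * y) := by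
  unfold IsPrim at *
  have e : x * y - 1 = (x - 1) * y + (y - 1) := by ring
  rw [e]
  exact dvd_add (Dvd.dvd.mul_right hx _) hy

lemma isPrim_pow {x : Eis} (hx : IsPrim x) (k : ℕ) : IsPrim (x ^ k) := by
  induction k with
  | zero => simp [IsPrim]
  | succ k ih => rw [pow_succ]; exact isPrim_mul ih hx

lemma isPrim_of_associated_exists {x : Eis} (h : ¬ lam ∣ x) :
    ∃ y : Eis, IsPrim y ∧ Associated x y := by
  obtain ⟨u, hu⟩ := exists_unit_mul_isPrim h
  exact ⟨u * x, hu, by rw [mul_comm]; exact ⟨u, rfl⟩⟩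

lemma nm_eq_of_associated {x y : Eis} (h : Associated x y) : nm x = nm y := by
  obtain ⟨u, rfl⟩ := h
  rw [nm_mul, isUnit_iff.mp u.isUnit, mul_one]

lemma not_lam_dvd_of_nm {x : Eis} (h : ¬ 3 ∣ nm x) : ¬ lam ∣ x := by
  rintro ⟨t, rfl⟩
  apply h
  rw [nm_mul, nm_lam]
  exact dvd_mul_right _ _

lemma isCoprime_of_nm {x y : Eis} (h : Nat.Coprime (nm x) (nm y)) : IsCoprime x y := by
  have h1 : IsCoprime ((nm x : ℕ) : Eis) ((nm y : ℕ) : Eis) := by
    have := Nat.isCoprime_iff_coprime.mpr h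
    have h2 := this.map (Int.castRingHom Eis)
    simpa using h2
  have hx : x ∣ ((nm x : ℕ) : Eis) := ⟨conj x, (mul_conj x).symm⟩
  have hy : y ∣ ((nm y : ℕ) : Eis) := ⟨conj y, (mul_conj y).symm⟩
  exact (h1.of_isCoprime_of_dvd_left hx).of_isCoprime_of_dvd_right hy

lemma nat_split {x y m n : ℕ} (hmn : Nat.Coprime m n) (hx : x ∣ m ^ 2) (hy : y ∣ n ^ 2)
    (h : x * y = m * n) : x = m ∧ y = n := by
  have hxn : Nat.Coprime x n :=
    Nat.Coprime.coprime_dvd_left hx (Nat.Coprime.pow_left 2 hmn)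
  have hym : Nat.Coprime y m :=
    Nat.Coprime.coprime_dvd_left hy (Nat.Coprime.pow_left 2 hmn.symm)
  have h1 : x ∣ m := hxn.dvd_of_dvd_mul_right (h ▸ dvd_mul_right x y)
  have h2 : y ∣ n := by
    have : y ∣ m * n := h ▸ dvd_mul_left y x
    exact hym.dvd_of_dvd_mul_left this
  have h3 : m ∣ x := by
    have : m ∣ x * y := h ▸ dvd_mul_right m n
    exact hym.symm.dvd_of_dvd_mul_right this
  have h4 : n ∣ y := by
    have : n ∣ x * y := h ▸ dvd_mul_left n m
    exact hxn.symm.dvd_of_dvd_mul_left this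
  exact ⟨Nat.dvd_antisymm h1 h3, Nat.dvd_antisymm h2 h4⟩

lemma cnt_mul {m n : ℕ} (hmn : Nat.Coprime m n) (h3 : ¬ 3 ∣ m * n) :
    cnt (m * n) = cnt m * cnt n := by
  classical
  unfold cnt
  rw [← Finset.card_product]
  have hm3 : ¬ 3 ∣ m := fun h => h3 (Dvd.dvd.mul_right h n)
  have hn3 : ¬ 3 ∣ n := fun h => h3 (Dvd.dvd.mul_left h m)
  symm
  apply Finset.card_bij (fun p _ => p.1 * p.2)
  · intro p hp
    rw [Finset.mem_product, mem_fib, mem_fib] at hp
    rw [mem_fib]
    exact ⟨by rw [nm_mul, hp.1.1, hp.2.1], isPrim_mul hp.1.2 hp.2.2⟩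
  · intro p hp q hq hpq
    rw [Finset.mem_product, mem_fib, mem_fib] at hp hq
    have hc1 : IsCoprime p.1 q.2 := isCoprime_of_nm (by rw [hp.1.1, hq.2.1]; exact hmn)
    have hc2 : IsCoprime q.1 p.2 := isCoprime_of_nm (by rw [hq.1.1, hp.2.1]; exact hmn)
    have h1 : p.1 ∣ q.1 := by
      have : p.1 ∣ q.1 * q.2 := hpq ▸ dvd_mul_right _ _
      exact hc1.dvd_of_dvd_mul_right this
    have h2 : q.1 ∣ p.1 := by
      have : q.1 ∣ p.1 * p.2 := hpq ▸ dvd_mul_right _ _
      exact hc2.dvd_of_dvd_mul_right this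
    have e1 : p.1 = q.1 := hp.1.2.eq_of_associated hq.1.2 (associated_of_dvd_dvd h1 h2)
    have hne : p.1 ≠ 0 := by
      intro h0
      have := hp.1.1
      rw [h0, nm_zero] at this
      exact hm3 (this ▸ dvd_zero 3)
    have e2 : p.2 = q.2 := by
      rw [← e1] at hpq
      exact mul_left_cancel₀ hne hpq
    exact Prod.ext e1 e2
  · intro c hc
    rw [mem_fib] at hc
    have hcd : c ∣ ((m : ℕ) : Eis) * ((n : ℕ) : Eis) := by
      have : c ∣ ((nm c : ℕ) : Eis) := ⟨conj c, (mul_conj c).symm⟩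
      rw [hc.1] at this
      simpa using this
    obtain ⟨a, b, ha, hb, hab⟩ := exists_dvd_and_dvd_of_dvd_mul hcd
    have hna : nm a ∣ m ^ 2 := by
      obtain ⟨t, ht⟩ := ha
      rw [← nm_natCast, ht, nm_mul]; exact dvd_mul_right _ _
    have hnb : nm b ∣ n ^ 2 := by
      obtain ⟨t, ht⟩ := hb
      rw [← nm_natCast, ht, nm_mul]; exact dvd_mul_right _ _
    have hnab : nm a * nm b = m * n := by rw [← nm_mul, ← hab, hc.1]
    obtain ⟨ea, eb⟩ := nat_split hmn hna hnb hnab
    obtain ⟨a', ha', haa⟩ := isPrim_of_associated_exists (x := a)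
      (not_lam_dvd_of_nm (by rw [ea]; exact hm3))
    obtain ⟨b', hb', hbb⟩ := isPrim_of_associated_exists (x := b)
      (not_lam_dvd_of_nm (by rw [eb]; exact hn3))
    refine ⟨(a', b'), ?_, ?_⟩
    · rw [Finset.mem_product, mem_fib, mem_fib]
      exact ⟨⟨by rw [← nm_eq_of_associated haa, ea], ha'⟩,
        ⟨by rw [← nm_eq_of_associated hbb, eb], hb'⟩⟩
    · refine ((isPrim_mul ha' hb').eq_of_associated hc.2 ?_)
      rw [hab]
      exact (haa.symm.mul_mul hbb.symm)

lemma cnt_one : cnt 1 = 1 := by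
  unfold cnt; rw [fib_one]; simp

/-- a rational prime `≡ 2 (mod 3)` is prime in `Eis` -/
lemma prime_of_two {p : ℕ} (hp : p.Prime) (h2 : p % 3 = 2) : Prime (p : Eis) := by
  have hnu : ¬ IsUnit (p : Eis) := by
    rw [isUnit_iff, nm_natCast]
    intro h
    have : p = 1 := by nlinarith [hp.one_lt]
    exact hp.one_lt.ne' this
  have hne : (p : Eis) ≠ 0 := by
    intro h
    have : nm (p : Eis) = 0 := by rw [h, nm_zero]
    rw [nm_natCast] at this
    exact hp.ne_zero (by simpa using this)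
  obtain ⟨z, hz, hzp⟩ := WfDvdMonoid.exists_irreducible_factor hnu hne
  have hz' : Prime z := hz.prime
  have hnd : nm z ∣ p ^ 2 := by
    obtain ⟨t, ht⟩ := hzp
    rw [← nm_natCast, ht, nm_mul]; exact dvd_mul_right _ _
  rcases Cheb420.nm_prime_cases hz' with h | ⟨q, hq, hq2, hqa⟩
  · exfalso
    have h1 : nm z = p := by
      have := h.dvd_of_dvd_pow hnd
      exact (Nat.prime_dvd_prime_iff_eq h hp).mp this
    by_cases hl : lam ∣ z
    · have := nm_mod_three_of_dvd hl
      omega
    · have := nm_mod_three_of_not_dvd hl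
      omega
  · have : q = p := by
      rw [hq2] at hnd
      have h1 : q ∣ p ^ 2 := dvd_trans (dvd_pow_self q (by norm_num)) hnd
      exact (Nat.prime_dvd_prime_iff_eq hq hp).mp (hq.dvd_of_dvd_pow h1)
    rw [← this]
    exact hqa.prime hz'

lemma cnt_pow_two {p : ℕ} (hp : p.Prime) (h2 : p % 3 = 2) (k : ℕ) :
    cnt (p ^ k) = if Even k then 1 else 0 := by
  classical
  have hpp := prime_of_two hp h2
  have key : ∀ c : Eis, nm c = p ^ k → ∃ i, 2 * i = k ∧ Associated c ((p : Eis) ^ i) := by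
    intro c hc
    have hcd : c ∣ (p : Eis) ^ k := by
      have : c ∣ ((nm c : ℕ) : Eis) := ⟨conj c, (mul_conj c).symm⟩
      rw [hc] at this
      simpa using this
    obtain ⟨i, hi, hci⟩ := (dvd_prime_pow hpp k).mp hcd
    refine ⟨i, ?_, hci⟩
    have := nm_eq_of_associated hci
    rw [hc, nm_pow, nm_natCast, ← pow_mul] at this
    exact (Nat.pow_right_injective hp.two_le this).symm
  split_ifs with hk
  · obtain ⟨i, hi⟩ := hk
    have h3 : ¬ lam ∣ (p : Eis) ^ i := by
      apply not_lam_dvd_of_nm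
      rw [nm_pow, nm_natCast]
      intro h
      have := (Nat.prime_three.dvd_of_dvd_pow h)
      have := (Nat.prime_three.dvd_of_dvd_pow this)
      omega
    obtain ⟨y, hy, hay⟩ := isPrim_of_associated_exists h3
    have : fib (p ^ k) = {y} := by
      ext c
      rw [mem_fib, Finset.mem_singleton]
      constructor
      · rintro ⟨h1, h2⟩
        obtain ⟨j, hj, hcj⟩ := key c h1
        have : j = i := by omega
        subst this
        exact h2.eq_of_associated hy (hcj.trans hay)
      · rintro rfl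
        refine ⟨?_, hy⟩
        rw [← nm_eq_of_associated hay, nm_pow, nm_natCast, ← pow_mul]
        congr 1; omega
    unfold cnt; rw [this]; simp
  · unfold cnt
    rw [Finset.card_eq_zero, Finset.eq_empty_iff_forall_notMem]
    intro c hc
    rw [mem_fib] at hc
    obtain ⟨i, hi, -⟩ := key c hc.1
    exact hk ⟨i, by omega⟩

/-- a rational prime `≡ 1 (mod 3)` is the norm of a primary element -/
lemma exists_nm_eq {p : ℕ} (hp : p.Prime) (h1 : p % 3 = 1) :
    ∃ z : Eis, IsPrim z ∧ Prime z ∧ nm z = p := by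
  have : Fact p.Prime := ⟨hp⟩
  -- a primitive cube root of unity mod `p`
  have hcard : 3 ∣ Fintype.card (ZMod p)ˣ := by
    rw [ZMod.card_units]
    exact (Nat.modEq_iff_dvd' hp.one_lt.le).mp (by rw [Nat.ModEq]; omega)
  have : Fact (Nat.Prime 3) := ⟨Nat.prime_three⟩
  obtain ⟨u, hu⟩ := exists_prime_orderOf_dvd_card (G := (ZMod p)ˣ) 3 hcard
  have hu3 : (u : ZMod p) ^ 3 = 1 := by
    have := pow_orderOf_eq_one u
    rw [hu] at this
    have h2 := congrArg (fun x : (ZMod p)ˣ => (x : ZMod p)) this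
    simpa using h2
  have hu1 : (u : ZMod p) ≠ 1 := by
    intro h
    have : u = 1 := Units.ext h
    rw [this, orderOf_one] at hu
    omega
  have hroot : (u : ZMod p) ^ 2 + u + 1 = 0 := by
    have : ((u : ZMod p) - 1) * ((u : ZMod p) ^ 2 + u + 1) = 0 := by
      linear_combination hu3
    rcases mul_eq_zero.mp this with h | h
    · exact absurd (sub_eq_zero.mp h) hu1
    · exact h
  obtain ⟨a, ha⟩ : ∃ a : ℕ, (a : ZMod p) = u := ⟨(u : ZMod p).val, by simp⟩
  have hdvd : p ∣ a ^ 2 + a + 1 := by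
    rw [← ZMod.natCast_eq_zero_iff]
    push_cast
    rw [ha]; exact hroot
  have hE : (p : Eis) ∣ ((a : Eis) - w) * ((a : Eis) - w ^ 2) := by
    have e : ((a : Eis) - w) * ((a : Eis) - w ^ 2) = ((a ^ 2 + a + 1 : ℕ) : Eis) := by
      push_cast
      have h3 := w_cube
      have h2 := w_sq
      linear_combination h3 + (- (a : Eis)) * h2
    rw [e]
    obtain ⟨t, ht⟩ := hdvd
    rw [ht]; push_cast; exact dvd_mul_right _ _
  have hnotprime : ¬ Prime (p : Eis) := by
    intro hpp
    have him : ∀ t : Eis, ((p : Eis) * t).im = p * t.im := by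
      intro t; rw [im_mul']; simp
    rcases hpp.dvd_or_dvd hE with ⟨t, ht⟩ | ⟨t, ht⟩
    · have := congrArg QuadraticAlgebra.im ht
      rw [him] at this
      simp at this
      have h' : (p : ℤ) ∣ 1 := ⟨-t.im, by linarith⟩
      have := Int.eq_one_of_dvd_one (by positivity) h'
      exact hp.one_lt.ne' (by exact_mod_cast this)
    · have := congrArg QuadraticAlgebra.im ht
      rw [him, w_sq] at this
      simp at this
      have h' : (p : ℤ) ∣ 1 := ⟨t.im, by linarith⟩
      have := Int.eq_one_of_dvd_one (by positivity) h'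
      exact hp.one_lt.ne' (by exact_mod_cast this)
  have hnu : ¬ IsUnit (p : Eis) := by
    rw [isUnit_iff, nm_natCast]
    intro h
    have : p = 1 := by nlinarith [hp.one_lt]
    exact hp.one_lt.ne' this
  have hne : (p : Eis) ≠ 0 := by
    intro h
    have : nm (p : Eis) = 0 := by rw [h, nm_zero]
    rw [nm_natCast] at this
    exact hp.ne_zero (by simpa using this)
  obtain ⟨z, hz, hzp⟩ := WfDvdMonoid.exists_irreducible_factor hnu hne
  have hz' : Prime z := hz.prime
  have hnd : nm z ∣ p ^ 2 := by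
    obtain ⟨t, ht⟩ := hzp
    rw [← nm_natCast, ht, nm_mul]; exact dvd_mul_right _ _
  rcases Cheb420.nm_prime_cases hz' with h | ⟨q, hq, hq2, hqa⟩
  · have hzn : nm z = p := by
      have := h.dvd_of_dvd_pow hnd
      exact (Nat.prime_dvd_prime_iff_eq h hp).mp this
    obtain ⟨y, hy, hay⟩ := isPrim_of_associated_exists (x := z)
      (not_lam_dvd_of_nm (by rw [hzn]; omega))
    exact ⟨y, hy, hay.prime hz', by rw [← nm_eq_of_associated hay, hzn]⟩
  · exfalso
    have : q = p := by
      rw [hq2] at hnd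
      have h1 : q ∣ p ^ 2 := dvd_trans (dvd_pow_self q (by norm_num)) hnd
      exact (Nat.prime_dvd_prime_iff_eq hq hp).mp (hq.dvd_of_dvd_pow h1)
    subst this
    exact hnotprime (hqa.prime hz')

lemma cnt_pow_one {p : ℕ} (hp : p.Prime) (h1 : p % 3 = 1) (k : ℕ) : cnt (p ^ k) = k + 1 := by
  classical
  obtain ⟨z, hzp, hz, hzn⟩ := exists_nm_eq hp h1
  set z' := conj z with hz'
  have hz'p : IsPrim z' := isPrim_conj hzp
  have hzz : z * z' = (p : Eis) := by rw [hz', mul_conj, hzn]
  have hz'n : nm z' = p := by rw [hz', nm_conj, hzn]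
  have hz'pr : Prime z' := by
    refine ⟨?_, ?_, ?_⟩
    · intro h
      rw [h, nm_zero] at hz'n
      exact hp.ne_zero hz'n.symm
    · rw [isUnit_iff, hz'n]; exact hp.one_lt.ne'
    · intro a b hab
      have h2 : conj z' ∣ conj (a * b) := conj_dvd_conj hab
      rw [conj_mul, hz', conj_conj] at h2
      rcases hz.dvd_or_dvd h2 with h | h
      · left; have := conj_dvd_conj h; rwa [conj_conj] at this
      · right; have := conj_dvd_conj h; rwa [conj_conj] at this
  have hnd : ¬ z ∣ z' := by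
    intro h
    have h2 : Associated z z' := by
      have h3 : z' ∣ z := by have := conj_dvd_conj h; rwa [hz', conj_conj] at this
      exact associated_of_dvd_dvd h h3
    have h3 : z = z' := hzp.eq_of_associated hz'p h2
    have h4 : z.im = 0 := by
      have := congrArg QuadraticAlgebra.im h3
      rw [hz', conj_im] at this
      omega
    have h5 : (nm z : ℤ) = z.re ^ 2 := by rw [nm_cast, h4]; ring
    rw [hzn] at h5
    have h6 : p = z.re.natAbs ^ 2 := by
      have : (p : ℤ) = ((z.re.natAbs ^ 2 : ℕ) : ℤ) := by push_cast; rw [sq_abs]; exact h5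
      exact_mod_cast this
    rw [h6] at hp
    exact Nat.Prime.not_prime_pow (le_refl 2) hp
  have hfib : fib (p ^ k) = (Finset.range (k + 1)).image (fun i => z ^ i * z' ^ (k - i)) := by
    ext c
    rw [mem_fib, Finset.mem_image]
    constructor
    · rintro ⟨hc1, hc2⟩
      have hcd : c ∣ z ^ k * z' ^ k := by
        have : c ∣ ((nm c : ℕ) : Eis) := ⟨conj c, (mul_conj c).symm⟩
        rw [hc1] at this
        rw [← mul_pow, hzz]
        simpa using this
      obtain ⟨a, b, ha, hb, hab⟩ := exists_dvd_and_dvd_of_dvd_mul hcd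
      obtain ⟨i, hi, hai⟩ := (dvd_prime_pow hz k).mp ha
      obtain ⟨j, hj, hbj⟩ := (dvd_prime_pow hz'pr k).mp hb
      have hcas : Associated c (z ^ i * z' ^ j) := by rw [hab]; exact hai.mul_mul hbj
      have hij : i + j = k := by
        have := nm_eq_of_associated hcas
        rw [hc1, nm_mul, nm_pow, nm_pow, hzn, hz'n, ← pow_add] at this
        exact (Nat.pow_right_injective hp.two_le this).symm
      refine ⟨i, Finset.mem_range.mpr (by omega), ?_⟩
      have : k - i = j := by omega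
      rw [this]
      exact (isPrim_mul (isPrim_pow hzp i) (isPrim_pow hz'p j)).eq_of_associated hc2 hcas.symm
    · rintro ⟨i, hi, rfl⟩
      rw [Finset.mem_range] at hi
      refine ⟨?_, isPrim_mul (isPrim_pow hzp i) (isPrim_pow hz'p _)⟩
      rw [nm_mul, nm_pow, nm_pow, hzn, hz'n, ← pow_add]
      congr 1; omega
  unfold cnt
  rw [hfib, Finset.card_image_of_injOn, Finset.card_range]
  have hlt : ∀ i j : ℕ, i < j → j ≤ k → z ^ i * z' ^ (k - i) ≠ z ^ j * z' ^ (k - j) := by
    intro i j hij hjk h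
    have e1 : z ^ j = z ^ i * z ^ (j - i) := by rw [← pow_add]; congr 1; omega
    have e2 : z' ^ (k - i) = z' ^ (k - j) * z' ^ (j - i) := by rw [← pow_add]; congr 1; omega
    have h2 : (z ^ i * z' ^ (k - j)) * z' ^ (j - i) = (z ^ i * z' ^ (k - j)) * z ^ (j - i) := by
      rw [e1, e2] at h
      linear_combination h
    have hne : z ^ i * z' ^ (k - j) ≠ 0 :=
      mul_ne_zero (pow_ne_zero _ hz.ne_zero) (pow_ne_zero _ hz'pr.ne_zero)
    have h3 := mul_left_cancel₀ hne h2
    have h4 : z ∣ z' ^ (j - i) := by rw [h3]; exact dvd_pow_self z (by omega)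
    exact hnd (hz.dvd_of_dvd_pow h4)
  intro i hi j hj hij
  simp only [Finset.coe_range, Set.mem_Iio] at hi hj
  by_contra hne
  rcases Nat.lt_or_gt_of_ne hne with h | h
  · exact hlt i j h (by omega) hij
  · exact hlt j i h (by omega) hij.symm

/-- `∑_{d ∣ n} χ₋₃(d)` -/
def rr (n : ℕ) : ℤ := ∑ d ∈ n.divisors, qc d

open ArithmeticFunction in
/-- `χ₋₃` as an arithmetic function -/
def qcA : ArithmeticFunction ℤ := ⟨qc, qc_zero rfl⟩

lemma qcA_apply (n : ℕ) : qcA n = qc n := rfl

lemma qcA_mult : qcA.IsMultiplicative :=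
  ⟨by rw [qcA_apply]; exact qc_one rfl, fun {m n} _ => by simp only [qcA_apply]; exact qc_mul m n⟩

open ArithmeticFunction in
lemma rr_eq (n : ℕ) : rr n = ((ArithmeticFunction.zeta : ArithmeticFunction ℤ) * qcA) n := by
  rw [ArithmeticFunction.coe_zeta_mul_apply]; rfl

lemma rr_mul {m n : ℕ} (hmn : Nat.Coprime m n) : rr (m * n) = rr m * rr n := by
  rw [rr_eq, rr_eq, rr_eq]
  exact (ArithmeticFunction.isMultiplicative_zeta.natCast.mul qcA_mult).map_mul_of_coprime hmn

lemma rr_one : rr 1 = 1 := by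
  unfold rr; simp; exact qc_one rfl

lemma rr_pow_one {p : ℕ} (hp : p.Prime) (h1 : p % 3 = 1) (k : ℕ) : rr (p ^ k) = k + 1 := by
  unfold rr
  rw [Nat.sum_divisors_prime_pow hp]
  simp [qc_pow, qc_one h1]

lemma rr_pow_two {p : ℕ} (hp : p.Prime) (h2 : p % 3 = 2) (k : ℕ) :
    rr (p ^ k) = if Even k then 1 else 0 := by
  unfold rr
  rw [Nat.sum_divisors_prime_pow hp]
  simp only [qc_pow, qc_two h2]
  induction k with
  | zero => simp
  | succ k ih =>
    rw [Finset.sum_range_succ, ih]
    by_cases hk : Even k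
    · have : ¬ Even (k + 1) := by rw [Nat.even_add_one]; simpa using hk
      have h3 : Odd (k + 1) := Nat.not_even_iff_odd.mp this
      rw [if_pos hk, if_neg this, h3.neg_one_pow]; norm_num
    · have : Even (k + 1) := by rw [Nat.even_add_one]; exact hk
      rw [if_neg hk, if_pos this, this.neg_one_pow]; norm_num

theorem cnt_eq_rr {n : ℕ} (hn : n ≠ 0) (h3 : ¬ 3 ∣ n) : (cnt n : ℤ) = rr n := by
  induction n using Nat.recOnPosPrimePosCoprime with
  | prime_pow p k hp hk =>
    have hp3 : ¬ 3 ∣ p := fun h => h3 (dvd_pow h hk.ne')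
    have : p % 3 = 1 ∨ p % 3 = 2 := by omega
    rcases this with h | h
    · rw [cnt_pow_one hp h, rr_pow_one hp h]; push_cast; ring
    · rw [cnt_pow_two hp h, rr_pow_two hp h]; split_ifs <;> simp
  | zero => exact absurd rfl hn
  | one => rw [cnt_one, rr_one]; rfl
  | coprime a b ha hb hab iha ihb =>
    have ha3 : ¬ 3 ∣ a := fun h => h3 (Dvd.dvd.mul_right h b)
    have hb3 : ¬ 3 ∣ b := fun h => h3 (Dvd.dvd.mul_left h a)
    rw [cnt_mul hab h3, rr_mul hab]
    push_cast
    rw [iha (by omega) ha3, ihb (by omega) hb3]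

/-- powers of `3` do not matter -/
lemma rr_three_mul (j : ℕ) {m : ℕ} (h3 : ¬ 3 ∣ m) : rr (3 ^ j * m) = rr m := by
  have hc : Nat.Coprime (3 ^ j) m :=
    Nat.Coprime.pow_left j ((Nat.Prime.coprime_iff_not_dvd Nat.prime_three).mpr h3)
  rw [rr_mul hc]
  have : rr (3 ^ j) = 1 := by
    unfold rr
    rw [Nat.sum_divisors_prime_pow Nat.prime_three]
    simp only [qc_pow, qc_zero (show 3 % 3 = 0 from rfl)]
    rw [Finset.sum_range_succ']
    simp
  rw [this, one_mul]

end Crest.Agent.R017.End699
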