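import Crest.Agent.R012.PC2_355
import Crest.Agent.R012.PA1_766
import Crest.Agent.R012.Mob_705
import Crest.Agent.R012.PSer_47
import Crest.Agent.R001.SW.Zeta
import Crest.Agent.R017.EndA_699

/-!
# Row 17, end block (E): the Hecke `L`-functions `L(s, χ ang^l)` over the primary elements of `ℤ[ω]`

`HC q χ`: `χ` is a character modulo `q` on the primary elements.
`LH q χ l`: the analytic continuation to `Re s > 1/2` (with a possible simple pole at `s = 1`) of
`∑_{b primary} χ(b) (b/|b|)^l N(b)^{-s}`.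
-/

set_option autoImplicit false

noncomputable section

namespace Crest.Agent.R017.End699

open Crest.Agent.R012 Crest.Agent.R012.Eis Crest.Agent.R012.PSer47
open Crest.Agent.R001.SW (Sm E)
open scoped LSeries.notation

/-- finite order characters modulo `q` on the primary elements -/
structure HC (q : Eis) (χ : Eis → ℂ) : Prop where
  q0 : q ≠ 0
  three : (3 : Eis) ∣ q
  char : IsChar χ
  per : ∀ a b, IsPrim a → IsPrim b → q ∣ a - b → χ a = χ b
  van : ∀ a, IsPrim a → ¬ IsCoprime a q → χ a = 0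

open Classical in
/-- extension by zero to the elements which are not primary -/
def ext (χ : Eis → ℂ) (b : Eis) : ℂ := if IsPrim b then χ b else 0

/-- the mean value of `χ` over the primary elements modulo `q` -/
def mden (q : Eis) (χ : Eis → ℂ) : ℂ := sumMod q (ext χ) / sumMod q (ext fun _ => 1)

/-- the residue coefficient -/
def cc (q : Eis) (χ : Eis → ℂ) (l : ℤ) : ℂ := if l = 0 then mden q χ else 0

/-- `∑_{b primary} N(b)^{-s} = (1 - 3^{-s}) ζ(s) L(s, χ₋₃)` -/
def Lc (s : ℂ) : ℂ := (1 - (3 : ℂ) ^ (-s)) * (riemannZeta₁ s / (s - 1)) * E (fun n => (qc n : ℂ)) s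

/-- the coefficients of `L(s, χ ang^l)` minus the principal part -/
def cf (q : Eis) (χ : Eis → ℂ) (l : ℤ) (n : ℕ) : ℂ :=
  push (fun b => χ b * ang l b) n - cc q χ l * push (fun _ => 1) n

/-- the `L`-function -/
def LH (q : Eis) (χ : Eis → ℂ) (l : ℤ) (s : ℂ) : ℂ := E (cf q χ l) s + cc q χ l * Lc s

/-! ### residue classes -/

lemma isPrim_add_iff {q x : Eis} (h3 : (3 : Eis) ∣ q) (t : Eis) :
    IsPrim (x + q * t) ↔ IsPrim x := by
  unfold IsPrim
  have e : x + q * t - 1 = (x - 1) + q * t := by ring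
  rw [e]
  exact dvd_add_left (Dvd.dvd.mul_right h3 t)

lemma pmod_ext {q : Eis} {χ : Eis → ℂ} (h3 : (3 : Eis) ∣ q)
    (hper : ∀ a b, IsPrim a → IsPrim b → q ∣ a - b → χ a = χ b) : PMod q (ext χ) := by
  intro x t
  simp only [ext]
  by_cases hx : IsPrim x
  · rw [if_pos hx, if_pos ((isPrim_add_iff h3 t).mpr hx)]
    exact hper _ _ ((isPrim_add_iff h3 t).mpr hx) hx ⟨t, by ring⟩
  · rw [if_neg hx, if_neg (fun h => hx ((isPrim_add_iff h3 t).mp h))]

lemma pmod_one {q : Eis} (h3 : (3 : Eis) ∣ q) : PMod q (ext fun _ => 1) :=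
  pmod_ext h3 fun _ _ _ _ _ => rfl

lemma sumMod_one_eq {q : Eis} (hq : q ≠ 0) (h3 : (3 : Eis) ∣ q) :
    ∃ k : ℕ, 0 < k ∧ sumMod q (ext fun _ => 1) = k ∧
      ∀ χ : Eis → ℂ, (∀ a, IsPrim a → ‖χ a‖ ≤ 1) →
        (∀ a b, IsPrim a → IsPrim b → q ∣ a - b → χ a = χ b) → ‖sumMod q (ext χ)‖ ≤ k := by
  classical
  obtain ⟨S, hS, -⟩ := P355.exists_small_crs hq
  have h1 := sumMod_eq_sum hS (pmod_one (q := q) h3)
  have h2 : ∑ s ∈ S, ext (fun _ => 1) s = (((S.filter IsPrim).card : ℕ) : ℂ) := by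
    simp only [ext]
    rw [Finset.sum_ite]
    simp
  refine ⟨(S.filter IsPrim).card, ?_, by rw [h1, h2], ?_⟩
  · rw [Finset.card_pos]
    obtain ⟨s, ⟨hs, hd⟩, -⟩ := hS 1
    refine ⟨s, Finset.mem_filter.mpr ⟨hs, ?_⟩⟩
    have : (3 : Eis) ∣ 1 - s := h3.trans hd
    unfold IsPrim
    have e : s - 1 = -(1 - s) := by ring
    rw [e]
    exact (dvd_neg).mpr this
  · intro χ hχ hper
    rw [sumMod_eq_sum hS (pmod_ext h3 hper)]
    refine (norm_sum_le _ _).trans ?_
    have : (((S.filter IsPrim).card : ℕ) : ℝ) = ∑ s ∈ S, if IsPrim s then (1 : ℝ) else 0 := by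
      rw [Finset.sum_ite]; simp
    rw [this]
    apply Finset.sum_le_sum
    intro s _
    simp only [ext]
    split_ifs with h
    · exact hχ s h
    · simp

lemma ang_zero' (b : Eis) : ang 0 b = 1 := by simp [ang]

namespace HC

variable {q : Eis} {χ : Eis → ℂ} (h : HC q χ)

include h

lemma pmod : PMod q (ext χ) := pmod_ext h.three h.per

lemma norm_mden_le : ‖mden q χ‖ ≤ 1 := by
  obtain ⟨k, hk, h1, h2⟩ := sumMod_one_eq h.q0 h.three
  unfold mden
  rw [h1, norm_div, Complex.norm_natCast, div_le_one (by positivity)]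
  exact h2 χ (fun a ha => h.char.norm_le ha) h.per

lemma norm_cc_le (l : ℤ) : ‖cc q χ l‖ ≤ 1 := by
  unfold cc
  split_ifs
  · exact h.norm_mden_le
  · simp

lemma mden_eq_zero {a : Eis} (ha : IsPrim a) (hcop : IsCoprime a q) (hne : χ a ≠ 1) :
    mden q χ = 0 := by
  have hXmul : ∀ b, ext χ (a * b) = χ a * ext χ b := by
    intro b
    simp only [ext]
    by_cases hb : IsPrim b
    · rw [if_pos hb, if_pos ((P355.isPrim_mul_iff ha).mpr hb), h.char.mul a b ha hb]
    · rw [if_neg hb, if_neg (fun h => hb ((P355.isPrim_mul_iff ha).mp h)), mul_zero]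
  have h5 := sumMod_mul_coprime h.q0 h.pmod hcop
  rw [sumMod_congr hXmul, sumMod_mul_left h.q0] at h5
  have h6 : (χ a - 1) * sumMod q (ext χ) = 0 := by rw [sub_mul, h5]; ring
  unfold mden
  rcases mul_eq_zero.mp h6 with h7 | h7
  · exact absurd (sub_eq_zero.mp h7) hne
  · rw [h7, zero_div]

end HC

/-- partial sums -/
theorem cf_bound (l : ℤ) : ∃ C : ℝ, 0 < C ∧ ∀ (q : Eis) (χ : Eis → ℂ), HC q χ → ∀ N : ℕ,
    ‖Sm (cf q χ l) N‖ ≤ C * Real.sqrt (nm q) * Real.sqrt N := by
  classical
  obtain ⟨C, hC, hC2⟩ := P355.C2q l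
  refine ⟨2 * C, by positivity, fun q χ h N => ?_⟩
  have hSm : Sm (cf q χ l) N = ∑ b ∈ primBall N, (χ b * ang l b - cc q χ l) := by
    unfold Sm cf
    rw [Finset.sum_sub_distrib, ← Finset.mul_sum, sum_push, sum_push, Finset.sum_sub_distrib,
      Finset.mul_sum]
    simp
  rw [hSm]
  rcases Nat.eq_zero_or_pos N with rfl | hN
  · have : primBall 0 = ∅ := by
      rw [← Finset.card_eq_zero]
      have := card_primBall_le' 0
      omega
    rw [this]; simp
  have e0 : ∑ b ∈ primBall N, (χ b * ang l b - cc q χ l) =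
      ∑ b ∈ ball N, (ext χ b * ang l b - cc q χ l * ext (fun _ => 1) b) := by
    unfold primBall
    rw [Finset.sum_filter]
    apply Finset.sum_congr rfl
    intro b _
    simp only [ext]
    split_ifs
    · ring
    · simp
  rw [e0]
  by_cases hl : l = 0
  · subst hl
    obtain ⟨k, hk, h1, h2⟩ := sumMod_one_eq h.q0 h.three
    have hcc : cc q χ 0 = mden q χ := by simp [cc]
    have h3 := hC2 q (fun b => (ext χ b - mden q χ * ext (fun _ => 1) b) / 2) h.q0 ?_ ?_ ?_ N hN
    · have e : ∑ b ∈ ball N, (ext χ b * ang 0 b - cc q χ 0 * ext (fun _ => 1) b) =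
          2 * ∑ b ∈ ball N, (ext χ b - mden q χ * ext (fun _ => 1) b) / 2 * ang 0 b := by
        rw [Finset.mul_sum]
        apply Finset.sum_congr rfl
        intro b _
        rw [ang_zero', hcc]; ring
      rw [e, norm_mul]
      have h5 : ‖(2 : ℂ)‖ = 2 := by simp
      rw [h5]
      linarith
    · intro a
      rw [norm_div]
      have h5 : ‖(2 : ℂ)‖ = 2 := by simp
      rw [h5, div_le_one (by norm_num)]
      refine (norm_sub_le _ _).trans ?_
      have h6 : ‖ext χ a‖ ≤ 1 := by
        simp only [ext]; split_ifs with ha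
        · exact h.char.norm_le ha
        · simp
      have h7 : ‖mden q χ * ext (fun _ => 1) a‖ ≤ 1 := by
        rw [norm_mul]
        have h8 : ‖ext (fun _ => 1) a‖ ≤ 1 := by
          simp only [ext]; split_ifs <;> simp
        exact mul_le_one₀ h.norm_mden_le (norm_nonneg _) h8
      linarith
    · intro x t
      simp only [h.pmod x t, pmod_one h.three x t]
    · intro _
      have e : ∀ x, (ext χ x - mden q χ * ext (fun _ => 1) x) / 2 =
          (ext χ x - mden q χ * ext (fun _ => 1) x) * (1 / 2) := by intro x; ring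
      rw [sumMod_congr e, sumMod_mul_right h.q0, sumMod_sub h.q0, sumMod_mul_left h.q0, mden, h1]
      have hk0 : (k : ℂ) ≠ 0 := by exact_mod_cast hk.ne'
      field_simp
      ring
  · have hcc : cc q χ l = 0 := by simp [cc, hl]
    have h3 := hC2 q (ext χ) h.q0 ?_ h.pmod (fun h0 => absurd h0 hl) N hN
    · have e : ∑ b ∈ ball N, (ext χ b * ang l b - cc q χ l * ext (fun _ => 1) b) =
          ∑ b ∈ ball N, ext χ b * ang l b := by
        apply Finset.sum_congr rfl
        intro b _
        rw [hcc]; ring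
      rw [e]
      refine h3.trans ?_
      have : 0 ≤ C * Real.sqrt (nm q) * Real.sqrt N := by positivity
      linarith
    · intro a
      simp only [ext]; split_ifs with ha
      · exact h.char.norm_le ha
      · simp

end Crest.Agent.R017.End699
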