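import Crest.Agent.R012.Gauss_880
import Crest.Agent.R012.PoissonS_581
import Crest.Agent.R017.EndE_699

/-!
# Row 17: functional equation of the smooth family sums (1): exact Poisson formula

`poisson_char`: Poisson summation for `∑ ξ(x) κ(x) f(x)`, `ξ` periodic mod `M`, `κ` a primitive
character mod `c`, `(M, c) = 1`, `λ ∤ c`.
-/

set_option autoImplicit false

noncomputable section

open Complex
open scoped SchwartzMap

namespace Crest.Agent.R017.FE47

open Crest.Agent.R012 Crest.Agent.R012.Eis Crest.Agent.R012.Gauss880 Crest.Agent.R012.Po581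

lemma perMod_iff {c : Eis} {χ : Eis → ℂ} : PerMod c χ ↔ PMod c χ := Iff.rfl

lemma pmod_eC_dl {c : Eis} (hc : c ≠ 0) (k : Eis) :
    PMod c (fun a => eC (dl k / toC c * toC a)) := by
  intro x t
  have hc' := Po581.toC_ne_zero hc
  have h1 : dl k / toC c * toC (x + c * t) = dl k / toC c * toC x + dl k * toC t := by
    rw [map_add, map_mul]; field_simp
  simp only
  rw [h1, Po581.eC_add', eC_dl_mul, mul_one]

/-- the dual sum of a character modulo `c` prime to `λ`. -/
lemma dualSum_char {c : Eis} (hc : c ≠ 0) (hl : IsCoprime Po581.sq3 c) {κ : Eis → ℂ}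
    (hκ : IsCh c κ) (k : Eis) :
    dualSum c κ k = κ Po581.sq3 * gsum κ k c := by
  have hc' := Po581.toC_ne_zero hc
  have hP : PMod c (fun a => κ a * eC (dl k / toC c * toC a)) := hκ.per.mul (pmod_eC_dl hc k)
  unfold dualSum gsum
  rw [← sumMod_mul_coprime hc hP hl, ← sumMod_mul_left hc]
  refine sumMod_congr fun a => ?_
  rw [hκ.mul, mul_assoc]
  congr 3
  unfold dl
  rw [map_mul, toC_sq3]
  have := iS3_ne_zero
  field_simp

/-- the dual sum splits. -/
lemma dualSum_split {M c : Eis} (hM : M ≠ 0) (hc : c ≠ 0) (hcop : IsCoprime M c)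
    (hl : IsCoprime Po581.sq3 c) {ξ κ : Eis → ℂ} (hξ : PMod M ξ) (hκ : IsCh c κ) (k : Eis) :
    dualSum (M * c) (fun x => ξ x * κ x) k =
      κ M * κ Po581.sq3 * gsum κ k c * dualSum M (fun a => ξ (c * a)) k := by
  have hc' := Po581.toC_ne_zero hc
  have hM' := Po581.toC_ne_zero hM
  have hP : PMod (M * c) (fun a => (ξ a * κ a) * eC (dl k / toC (M * c) * toC a)) :=
    ((hξ.mono (dvd_mul_right M c)).mul (hκ.per.mono (dvd_mul_left c M))).mul
      (pmod_eC_dl (mul_ne_zero hM hc) k)
  have key := sumMod_crt_mul (f := fun a => ξ (c * a) * eC (dl k / toC M * toC a))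
    (g := fun a => κ M * (κ a * eC (dl k / toC c * toC a))) hM hc _ hcop hP (fun x y => ?_)
  · have e : dualSum (M * c) (fun x => ξ x * κ x) k =
        sumMod (M * c) (fun a => (ξ a * κ a) * eC (dl k / toC (M * c) * toC a)) := rfl
    rw [e, key, sumMod_mul_left hc]
    have e2 : sumMod c (fun a => κ a * eC (dl k / toC c * toC a)) = dualSum c κ k := rfl
    have e3 : sumMod M (fun a => ξ (c * a) * eC (dl k / toC M * toC a)) =
      dualSum M (fun a => ξ (c * a)) k := rfl
    rw [e2, e3, dualSum_char hc hl hκ]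
    ring
  · have h1 : ξ (c * x + M * y) = ξ (c * x) := hξ _ _
    have h2 : κ (c * x + M * y) = κ M * κ y := by
      rw [add_comm, hκ.per, hκ.mul]
    have h3 : dl k / toC (M * c) * toC (c * x + M * y)
        = dl k / toC M * toC x + dl k / toC c * toC y := by
      rw [map_add, map_mul, map_mul, map_mul]; field_simp
    rw [h1, h2, h3, Po581.eC_add']; ring

/-- **Poisson summation** for a product of a periodic function and a primitive character. -/
theorem poisson_char (f : 𝓢(ℂ, ℂ)) {M c : Eis} (hM : M ≠ 0) (hc : c ≠ 0) (hcop : IsCoprime M c)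
    (hl : IsCoprime Po581.sq3 c) {ξ κ : Eis → ℂ} (hξ : PMod M ξ) (hκ : IsCh c κ)
    (hp : Primitive c κ) :
    ∑' x : Eis, ξ x * κ x * f (toC x) =
      ((2 / (Real.sqrt 3 * nm (M * c)) : ℝ) : ℂ) * (κ M * κ Po581.sq3 * gsum κ 1 c) *
        ∑' k : Eis, dualSum M (fun a => ξ (c * a)) k * (starRingEnd ℂ) (κ k) *
          fC f (dl k / toC (M * c)) := by
  have hP : PerMod (M * c) (fun a => ξ a * κ a) :=
    perMod_iff.mpr ((hξ.mono (dvd_mul_right M c)).mul (hκ.per.mono (dvd_mul_left c M)))
  have e : ∀ k : Eis, dualSum (M * c) (fun a => ξ a * κ a) k * fC f (dl k / toC (M * c)) =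
      (κ M * κ Po581.sq3 * gsum κ 1 c) * (dualSum M (fun a => ξ (c * a)) k *
        (starRingEnd ℂ) (κ k) * fC f (dl k / toC (M * c))) := by
    intro k
    rw [dualSum_split hM hc hcop hl hξ hκ, gsum_primitive hc hκ hp]
    ring
  rw [poisson_periodic f (mul_ne_zero hM hc) hP, tsum_congr e, tsum_mul_left]
  ring

end Crest.Agent.R017.FE47
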