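import Crest.Agent.R017.BL5defs_868
import Crest.Agent.R017.FE1_47
import Crest.Agent.R012.Cst1_566

/-!
# Row 17, leaf S2a of L5: the transform of `χ₀ = (·/m₀)₃` at cubes (helper880)
-/

set_option autoImplicit false

noncomputable section

open Complex
open scoped ComplexConjugate

namespace Crest.Agent.R017.S2a880

open Crest.Agent.R012 Crest.Agent.R012.Eis Crest.Agent.R012.Gauss880 Crest.Agent.R012.Po581
open Crest.Agent.R017.FE47 Crest.Agent.R017.End699 Crest.Agent.R017.B770 Crest.Agent.R017.L5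

lemma exists_eps (l : Eis) : ∃ (e : ℤ) (t : Eis), (e = 0 ∨ e = 1 ∨ e = -1) ∧
    l = (e : Eis) + Po581.sq3 * t := by
  obtain ⟨m, e, he, h⟩ : ∃ m e : ℤ, (e = 0 ∨ e = 1 ∨ e = -1) ∧ l.re + l.im = e + 3 * m := by
    refine ⟨(l.re + l.im + 1) / 3, (l.re + l.im + 1) % 3 - 1, ?_, ?_⟩ <;> omega
  refine ⟨e, ⟨l.im - m, l.im - 2 * m⟩, he, ?_⟩
  ext
  · simp [Po581.sq3]
    linarith
  · simp [Po581.sq3]
    ring

/-- `e(l³ / (3 √-3)) = 1` -/
lemma eC_cube (l : Eis) : Crest.Agent.R012.eC (dl (l ^ 3) / toC 3) = 1 := by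
  obtain ⟨e, t, he, rfl⟩ := exists_eps l
  have h3 : (toC Po581.sq3) ^ 2 = -3 := by rw [toC_sq3, iS3_sq]
  have hne := iS3_ne_zero
  have he3 : (e : ℂ) ^ 3 = e := by
    rcases he with rfl | rfl | rfl <;> norm_num
  have key : dl (((e : Eis) + Po581.sq3 * t) ^ 3) / toC 3 =
      ((e : ℤ) : ℂ) / (3 * iS3) + toC ((e : Eis) ^ 2 * t + (e : Eis) * Po581.sq3 * t ^ 2 - t ^ 3) := by
    unfold dl
    simp only [map_add, map_sub, map_mul, map_pow, toC_sq3, map_intCast, map_ofNat]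
    field_simp
    have := iS3_sq
    linear_combination he3 + iS3 * (toC t) ^ 3 * iS3_sq
  rw [key, Po581.eC_add', Po581.eC_toC, mul_one]
  rw [Crest.Agent.R012.eC_eq_one_iff]
  refine ⟨0, ?_⟩
  have : ((e : ℤ) : ℂ) / (3 * iS3) = ((-(e : ℝ) / (3 * Real.sqrt 3) : ℝ) : ℂ) * I := by
    unfold iS3
    have h : (Real.sqrt 3 : ℂ) ≠ 0 := by
      exact_mod_cast (Real.sqrt_pos.mpr (by norm_num : (0:ℝ) < 3)).ne'
    push_cast
    field_simp
    rw [I_sq]; ring
  rw [this]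
  have h2 : ((-(e : ℝ) / (3 * Real.sqrt 3) : ℝ) : ℂ).im = 0 := ofReal_im _
  rw [mul_I_re, h2]
  simp

open Classical in
lemma dual3 (m₀ : Eis) (hm : IsPrim m₀) (l : Eis) :
    dualSum 3 (fun a => if IsPrim (m₀ * a) then (1 : ℂ) else 0) (l ^ 3) = 1 := by
  classical
  have h30 : (3 : Eis) ≠ 0 := by
    intro h; have := congrArg QuadraticAlgebra.re h; simp at this
  have hiff : ∀ x : Eis, IsPrim (m₀ * x) ↔ IsPrim x := fun x => P355.isPrim_mul_iff hm
  unfold dualSum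
  have hp : PMod 3 (fun a => (if IsPrim (m₀ * a) then (1 : ℂ) else 0) *
      Crest.Agent.R012.eC (dl (l ^ 3) / toC 3 * toC a)) := by
    refine PMod.mul ?_ (pmod_eC_dl h30 _)
    intro x t
    simp only [hiff, MC.isPrim_add_three]
  rw [MC.sumMod_single h30 hp 1]
  · rw [if_pos (by rw [mul_one]; exact hm), map_one, mul_one, one_mul, eC_cube]
  · intro x hx
    have h : ¬ IsPrim x := hx
    rw [if_neg (fun h' => h ((hiff x).mp h')), zero_mul]

/-- **S2a** of L5. -/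
theorem s2a : S2a := by
  classical
  intro M m₀ h36 h
  have hm := h.prim
  have hm0 : m₀ ≠ 0 := hm.ne_zero
  have h30 : (3 : Eis) ≠ 0 := by
    intro h; have := congrArg QuadraticAlgebra.re h; simp at this
  have hcop : IsCoprime (3 : Eis) m₀ := by
    obtain ⟨t, ht⟩ := hm
    exact ⟨-t, 1, by linear_combination ht⟩
  have hl := MC.isCoprime_sq3 hm
  have hκ := isCh_sy syG hm
  have hp := primitive_sy syG hm h.sqf
  have hξ : PMod 3 (fun a : Eis => if IsPrim a then (1 : ℂ) else 0) := by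
    intro x t
    simp only [MC.isPrim_add_three]
  have key : ∀ l : Eis, FE47.DM (3 * m₀) (fun a => sy a m₀) (l ^ 3) =
      sy 3 m₀ * sy Po581.sq3 m₀ * gsum (fun x => sy x m₀) (l ^ 3) m₀ := by
    intro l
    have h1 := dualSum_split (M := 3) (c := m₀) h30 hm0 hcop hl hξ hκ (l ^ 3)
    rw [dual3 m₀ hm l, mul_one] at h1
    rw [← h1]
    unfold FE47.DM End699.ext
    congr 1
    funext a
    split_ifs <;> simp
  refine ⟨sy 3 m₀ * sy Po581.sq3 m₀ * gsum (fun x => sy x m₀) 1 m₀, ?_, fun l => ⟨?_, ?_⟩⟩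
  · refine mul_ne_zero (mul_ne_zero (hκ.ne_zero hm0 hcop) (hκ.ne_zero hm0 hl)) ?_
    intro h0
    have h1 := norm_gs_sq syG hm h.sqf (r := 1) isCoprime_one_left
    rw [gs_eq_gsum, h0] at h1
    have h2 := nm_pos.mpr hm0
    have h3 : (0 : ℝ) < nm m₀ := by exact_mod_cast h2
    rw [norm_zero] at h1
    norm_num at h1
    linarith
  · intro hlc
    rw [key, gsum_primitive hm0 hκ hp, hκ.pow, syG.cube l m₀ hm hlc, map_one, one_mul]
  · intro hlc
    rw [key, hp _ (fun h' => hlc ?_), mul_zero]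
    exact (IsCoprime.pow_left_iff (by norm_num)).mp h'

end Crest.Agent.R017.S2a880
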