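import Crest.Agent.R017.EndI_699
import Crest.Agent.R012.CharInst_766

/-!
# Row 17, end block (K): twists of a fixed character by the cubic symbols
-/

set_option autoImplicit false

noncomputable section

namespace Crest.Agent.R017.End699

open Crest.Agent.R012 Crest.Agent.R012.Eis Crest.Agent.R012.PSer47

/-- the character `χ (h/·)` -/
def tws (χ : Eis → ℂ) (h : Eis) (b : Eis) : ℂ := χ b * sy h b

lemma HC.tws {q : Eis} {χ : Eis → ℂ} (hc : HC q χ) {h : Eis} (h0 : h ≠ 0) :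
    HC (q * (9 * h)) (tws χ h) := hc.mul (hc_sy h0)

lemma nm_q9h (q h : Eis) : nm (q * (9 * h)) = 81 * nm q * nm h := by
  have h9 : nm (9 : Eis) = 81 := by
    have : (9 : Eis) = ((9 : ℕ) : Eis) := by norm_num
    rw [this, nm_natCast]; norm_num
  rw [nm_mul, nm_mul, h9]; ring

/-- for a given `χ` the principal twists `χ (h/·)` form one class modulo cubes -/
theorem twist_unique {q : Eis} {χ : Eis → ℂ} (hc : HC q χ) {h h' : Eis} (h0 : h ≠ 0)
    (h0' : h' ≠ 0) {l l' : ℤ} (hp : ¬ NP (q * (9 * h)) (tws χ h) l)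
    (hp' : ¬ NP (q * (9 * h')) (tws χ h') l') : ∃ t, h * h' ^ 2 = t ^ 3 := by
  by_contra hcube
  have hne : h * h' ^ 2 ≠ 0 := mul_ne_zero h0 (pow_ne_zero 2 h0')
  obtain ⟨b, hb1, hb2, hb3, hb4⟩ := Char766.exists_sy_ne_one Char766.suppl hne hcube
    (Q := q * (9 * h) * (q * (9 * h')))
    (mul_ne_zero (hc.tws h0).q0 (hc.tws h0').q0)
  unfold NP at hp hp'
  push Not at hp hp'
  have e1 := hp.2 b hb1 hb2.of_mul_right_left
  have e2 := hp'.2 b hb1 hb2.of_mul_right_right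
  unfold tws at e1 e2
  have hchb : IsCoprime h' b := (IsCoprime.pow_left_iff (by norm_num)).mp hb3.of_mul_left_right
  have hcb : IsCoprime b q := hb2.of_mul_right_left.of_mul_right_left
  have hχ : χ b ≠ 0 := hc.ne_zero hb1 hcb
  have e3 : sy h b = sy h' b := mul_left_cancel₀ hχ (e1.trans e2.symm)
  apply hb4
  have hnm := Sym645.prim_nm_mod hb1
  rw [Sym645.sy_mul_left hnm, Sym645.sy_pow_left hnm, e3]
  have := Sym645.sy_cube hnm hchb
  rw [← this]; ring

/-- if `χ^3` is not principal, no twist is principal -/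
theorem np_tws_of_cube_ne {q : Eis} {χ : Eis → ℂ} (hc : HC q χ) {h : Eis} (h0 : h ≠ 0) (l : ℤ)
    (hcub : ∀ Q : Eis, Q ≠ 0 → ∃ a, IsPrim a ∧ IsCoprime a Q ∧ χ a ^ 3 ≠ 1) :
    NP (q * (9 * h)) (tws χ h) l := by
  by_contra hp
  unfold NP at hp
  push Not at hp
  obtain ⟨a, ha1, ha2, ha3⟩ := hcub _ (hc.tws h0).q0
  have e1 := hp.2 a ha1 ha2
  apply ha3
  unfold tws at e1
  have hha : IsCoprime h a := ha2.of_mul_right_right.of_mul_right_right.symm
  have hs := Sym645.sy_cube (Sym645.prim_nm_mod ha1) hha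
  calc χ a ^ 3 = χ a ^ 3 * sy h a ^ 3 := by rw [hs, mul_one]
    _ = (χ a * sy h a) ^ 3 := by ring
    _ = 1 := by rw [e1, one_pow]

/-- the principal character twisted by a noncube is not principal -/
theorem np_tws_prin {q : Eis} {χ : Eis → ℂ} (hc : HC q χ)
    (hprin : ∀ a, IsPrim a → IsCoprime a q → χ a = 1) {h : Eis} (h0 : h ≠ 0)
    (hh : ¬ ∃ t, h = t ^ 3) (l : ℤ) : NP (q * (9 * h)) (tws χ h) l := by
  obtain ⟨b, hb1, hb2, hb3, hb4⟩ := Char766.exists_sy_ne_one Char766.suppl h0 hh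
    (hc.tws h0).q0
  right
  refine ⟨b, hb1, hb2, ?_⟩
  unfold tws
  rw [hprin b hb1 hb2.of_mul_right_left, one_mul]
  exact hb4

/-- lifting a residue class coprime to `q` to an element coprime to `Q` -/
theorem exists_lift {q Q a : Eis} (h3 : (3 : Eis) ∣ q) (hQ : Q ≠ 0) (ha : IsPrim a)
    (hcop : IsCoprime a q) : ∃ a', IsPrim a' ∧ q ∣ a' - a ∧ IsCoprime a' Q ∧ IsCoprime a' q := by
  classical
  set P := (Mob705.pp Q).filter (fun p => ¬ p ∣ q) with hP
  have hPP : Mob705.PPSet P := fun p hp => Mob705.isPP_of_mem_pp (Finset.mem_filter.mp hp).1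
  set D : Eis := ∏ p ∈ P, p with hD
  have hDq : IsCoprime D q := by
    rw [hD]
    apply IsCoprime.prod_left
    intro p hp
    have hp' := Finset.mem_filter.mp hp
    exact (Mob705.IsPP.isCoprime_iff (Mob705.isPP_of_mem_pp hp'.1)).mpr hp'.2
  obtain ⟨u, v, huv⟩ := hDq
  -- a' = a + q * t with t = v * (1 - a)
  have hq3 : (3 : Eis) ∣ q * (v * (1 - a)) := Dvd.dvd.mul_right h3 _
  have hprim : IsPrim (a + q * (v * (1 - a))) := (isPrim_add_iff h3 _).mpr ha
  have hcq : IsCoprime (a + q * (v * (1 - a))) q := hcop.add_mul_left_left _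
  refine ⟨a + q * (v * (1 - a)), hprim, ⟨v * (1 - a), by ring⟩, ?_, hcq⟩
  rw [Mob705.isCoprime_iff_pp hprim]
  intro p hp hpa hpQ
  by_cases hpq : p ∣ q
  · exact hp.prime.not_isUnit (hcq.isUnit_of_dvd' hpa hpq)
  · have hpP : p ∈ P := Finset.mem_filter.mpr ⟨(Mob705.mem_pp hQ).mpr ⟨hp, hpQ⟩, hpq⟩
    have hpD : p ∣ D := Finset.dvd_prod_of_mem _ hpP
    have h1 : p ∣ 1 := by
      have e : (1 : Eis) = (a + q * (v * (1 - a))) + D * (u * (1 - a)) := by
        linear_combination (a - 1) * huv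
      rw [e]
      exact dvd_add hpa (Dvd.dvd.mul_right hpD _)
    exact hp.prime.not_isUnit (isUnit_of_dvd_one h1)

/-- a nontrivial character takes a nontrivial value at an element coprime to a given `Q` -/
theorem exists_ne_coprime {q : Eis} {χ : Eis → ℂ} (hc : HC q χ)
    (hne : ∃ a, IsPrim a ∧ IsCoprime a q ∧ χ a ≠ 1) {Q : Eis} (hQ : Q ≠ 0) :
    ∃ a, IsPrim a ∧ IsCoprime a Q ∧ IsCoprime a q ∧ χ a ≠ 1 := by
  obtain ⟨a, ha1, ha2, ha3⟩ := hne
  obtain ⟨a', h1, h2, h3, h4⟩ := exists_lift hc.three hQ ha1 ha2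
  refine ⟨a', h1, h3, h4, ?_⟩
  rw [hc.per a' a h1 ha1 h2]
  exact ha3

/-- `NP` is stable under changing the modulus -/
theorem NP.changeMod {q q' : Eis} {χ : Eis → ℂ} {l : ℤ} (hc : HC q χ) (hnp : NP q χ l)
    (hq' : q' ≠ 0) : NP q' (fun b => χ b * prin0 q' b) l := by
  rcases hnp with h | h
  · left; exact h
  · right
    obtain ⟨a, h1, h2, _, h4⟩ := exists_ne_coprime hc h hq'
    refine ⟨a, h1, h2, ?_⟩
    unfold prin0
    beta_reduce
    rw [if_pos h2, mul_one]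
    exact h4

/-- if `χ^3` is a nonprincipal character, no cubic twist is principal -/
theorem np_tws_of_cube {q : Eis} {χ : Eis → ℂ} (hc : HC q χ) {h : Eis} (h0 : h ≠ 0) (l : ℤ)
    (hcub : ∃ a, IsPrim a ∧ IsCoprime a q ∧ χ a ^ 3 ≠ 1) : NP (q * (9 * h)) (tws χ h) l := by
  apply np_tws_of_cube_ne hc h0 l
  intro Q hQ
  obtain ⟨a, h1, h2, _, h4⟩ := exists_ne_coprime (hc.pow 3 (by norm_num)) hcub hQ
  exact ⟨a, h1, h2, h4⟩

end Crest.Agent.R017.End699
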