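import Crest.Agent.R017.BL5defs_868
import Crest.Agent.R017.EndK_699

/-!
# Row 17, leaf L5, part S2b: the principal `k` are the cubes (helper502)
-/

set_option autoImplicit false

noncomputable section

open MeasureTheory Complex Set
open scoped ComplexConjugate ContDiff

namespace Crest.Agent.R017.L5

open Crest.Agent.R012 Crest.Agent.R012.Eis Crest.Agent.R012.Mob705
open Crest.Agent.R017.End699 Crest.Agent.R017.B770

theorem s2b : S2b := by
  intro M hM h3 k hk
  constructor
  · intro hnp
    by_contra hcube
    obtain ⟨b, hb1, hb2, hb3, hb4⟩ := Char766.exists_sy_ne_one Char766.suppl hk hcube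
      (Q := M * (9 * k)) (mul_ne_zero hM (mul_ne_zero (by norm_num) hk))
    apply hnp
    right
    refine ⟨b, hb1, hb2, ?_⟩
    beta_reduce
    unfold prin0
    rw [if_pos hb2.of_mul_right_left, one_mul]
    intro h
    apply hb4
    have := congrArg conj h
    rwa [starRingEnd_self_apply, map_one] at this
  · rintro ⟨l, rfl⟩ hnp
    rcases hnp with h | ⟨b, hb1, hb2, hb3⟩
    · exact h rfl
    · apply hb3
      have hcl : IsCoprime l b :=
        (IsCoprime.pow_left_iff (by norm_num : 0 < 3)).mp hb2.of_mul_right_right.of_mul_right_right.symm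
      have hnm := Sym645.prim_nm_mod hb1
      beta_reduce
      unfold prin0
      rw [if_pos hb2.of_mul_right_left, one_mul, Sym645.sy_pow_left hnm, Sym645.sy_cube hnm hcl,
        map_one]

end Crest.Agent.R017.L5
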