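import Crest.Agent.R017.L6b_106

/-!
# Row 17, section B, leaf L6 (3): the exact identity `DL = 2 √3 (√Q / K) LK`
-/

set_option autoImplicit false

noncomputable section

open MeasureTheory Complex Set
open scoped ComplexConjugate ContDiff SchwartzMap

namespace Crest.Agent.R017.L6106

open Crest.Agent.R012 Crest.Agent.R012.Eis Crest.Agent.R012.Mob705 Crest.Agent.R012.Gauss880
open Crest.Agent.R012.Po581
open Crest.Agent.R017.End699 Crest.Agent.R017.Sx440 Crest.Agent.R017.Sx545 Crest.Agent.R017.B770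

variable {M m₀ : Eis}

lemma Rad0.M_ne (h : Rad0 M m₀) : M ≠ 0 := by
  rintro rfl
  have hm : (1 : ℕ) ≤ nm m₀ := nm_pos.mpr h.prim.ne_zero
  have h9 : nm (3 : Eis) = 9 := by decide
  have h3 : 9 ≤ nm (3 * m₀) := by rw [nm_mul, h9]; omega
  have hx0 : 3 * m₀ + 1 ≠ 0 := by
    intro h0
    have : 3 * m₀ = -1 := by linear_combination h0
    rw [this] at h3
    have : nm (-1 : Eis) = 1 := by decide
    omega
  have hxu : ¬ IsUnit (3 * m₀ + 1) := by
    intro hu
    have h1 : ∀ u : Eis, IsUnit u → nm (u - 1) ≤ 4 := by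
      intro u hu
      rw [isUnit_iff] at hu
      have h2 : ‖toC u‖ ^ 2 = 1 := by rw [norm_toC_sq, hu]; norm_num
      have h3 : ‖toC u‖ = 1 := by
        have := norm_nonneg (toC u)
        nlinarith
      have h4 : ‖toC (u - 1)‖ ≤ 2 := by
        rw [map_sub, map_one]
        calc ‖toC u - 1‖ ≤ ‖toC u‖ + ‖(1 : ℂ)‖ := norm_sub_le _ _
          _ = 2 := by rw [h3, norm_one]; norm_num
      have h5 : (nm (u - 1) : ℝ) ≤ 4 := by
        rw [← norm_toC_sq]
        have := norm_nonneg (toC (u - 1))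
        nlinarith
      exact_mod_cast h5
    have h2 := h1 _ hu
    rw [add_sub_cancel_right] at h2
    omega
  obtain ⟨p, hp, hd⟩ := WfDvdMonoid.exists_irreducible_factor hxu hx0
  have h1 : p ∣ 3 * m₀ := (h.iff p hp.prime).mpr (dvd_zero p)
  have h2 : p ∣ 1 := (dvd_add_right h1).mp hd
  exact hp.not_isUnit (isUnit_of_dvd_one h2)

open Classical in
/-- the finite set of `e`'s and `b`'s -/
def SF (M : Eis) (N : ℕ) : Finset Eis := (primBall N).filter (Sm M)

lemma mem_SF {M : Eis} {N : ℕ} {e : Eis} : e ∈ SF M N ↔ nm e ≤ N ∧ Sm M e := by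
  classical
  unfold SF
  rw [Finset.mem_filter, mem_primBall]
  exact ⟨fun h => ⟨h.1.1, h.2⟩, fun h => ⟨⟨h.1, h.2.1⟩, h.2⟩⟩

section

variable {V om : ℝ → ℂ} {R Q : ℝ}

lemma V_zero_e (hRV : ∀ x, V x ≠ 0 → x ≤ R) (hQ : 0 < Q) {e b : Eis} (he : e ≠ 0) (hb : b ≠ 0)
    (hN : ⌊R * Q⌋₊ < nm e) : V (nm b * (nm e : ℝ) ^ 6 / Q) = 0 := by
  by_contra hne
  have h1 := hRV _ hne
  rw [div_le_iff₀ hQ] at h1
  have h2 := Nat.lt_of_floor_lt hN
  have hb1 : (1 : ℝ) ≤ nm b := by exact_mod_cast nm_pos.mpr hb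
  have he1 : (1 : ℝ) ≤ nm e := by exact_mod_cast nm_pos.mpr he
  have h3 : (nm e : ℝ) ≤ (nm e : ℝ) ^ 6 := le_self_pow₀ he1 (by norm_num)
  have h4 : (nm e : ℝ) ^ 6 ≤ nm b * (nm e : ℝ) ^ 6 := le_mul_of_one_le_left (by positivity) hb1
  linarith

lemma V_zero_b (hRV : ∀ x, V x ≠ 0 → x ≤ R) (hQ : 0 < Q) {e b : Eis} (he : e ≠ 0)
    (hN : ⌊R * Q⌋₊ < nm b) : V (nm b * (nm e : ℝ) ^ 6 / Q) = 0 := by
  by_contra hne
  have h1 := hRV _ hne
  rw [div_le_iff₀ hQ] at h1
  have h2 := Nat.lt_of_floor_lt hN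
  have he1 : (1 : ℝ) ≤ nm e := by exact_mod_cast nm_pos.mpr he
  have h3 : (1 : ℝ) ≤ (nm e : ℝ) ^ 6 := one_le_pow₀ he1
  have h4 : (nm b : ℝ) ≤ nm b * (nm e : ℝ) ^ 6 := le_mul_of_one_le_right (Nat.cast_nonneg _) h3
  linarith

/-- the `a`-term -/
def AT (m₀ : Eis) (om : ℝ → ℂ) (K Q : ℝ) (e b c a : Eis) : ℂ :=
  ext (fun a => sy a m₀) a * sy a c * ((nm e : ℂ) ^ 2 * (hN a b *
        ((((nm b * (nm e : ℝ) ^ 6 / Q) ^ (-(1 / 2) : ℝ) : ℝ) : ℂ) *
          om (K / (27 * nm m₀ * Q) * nm a / (nm c * (nm b * (nm e : ℝ) ^ 6 / Q))))))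

lemma AT_summable (hom : SW om) (hm : IsPrim m₀) {e b c : Eis} (he : e ≠ 0) (hb : b ≠ 0)
    (hc : IsPrim c) {K : ℝ} (hK : 0 < K) (hQ : 0 < Q) : Summable (AT m₀ om K Q e b c) := by
  have h1 : (0 : ℝ) < nm m₀ := by exact_mod_cast nm_pos.mpr hm.ne_zero
  have h2 : (0 : ℝ) < nm e := by exact_mod_cast nm_pos.mpr he
  have h3 : (0 : ℝ) < nm b := by exact_mod_cast nm_pos.mpr hb
  have h4 : (0 : ℝ) < nm c := by exact_mod_cast nm_pos.mpr hc.ne_zero
  obtain ⟨β, hβ⟩ : ∃ β : ℝ, β = K / (27 * nm m₀ * (nm b * nm c * (nm e : ℝ) ^ 6)) := ⟨_, rfl⟩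
  have hβ0 : 0 < β := by rw [hβ]; positivity
  obtain ⟨B, hB0, hB⟩ := perMod_bdd (mul_ne_zero hb hc.ne_zero)
    (FE47.perMod_iff.mpr (PT858.pmod_FF (b := b) hc))
  have hs := summable_mul_bdd (χ := fun a => ((nm e : ℂ) ^ 2 *
      (((nm b * (nm e : ℝ) ^ 6 / Q) ^ (-(1 / 2) : ℝ) : ℝ) : ℂ)) *
      (ext (fun a => sy a m₀) a * PT858.FF b c a))
    (B := ‖(nm e : ℂ) ^ 2 * (((nm b * (nm e : ℝ) ^ 6 / Q) ^ (-(1 / 2) : ℝ) : ℝ) : ℂ)‖ * (1 * B))
    (fun a => by
      rw [norm_mul, norm_mul (ext _ _)]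
      refine mul_le_mul_of_nonneg_left ?_ (norm_nonneg _)
      refine mul_le_mul ?_ (hB a) (norm_nonneg _) zero_le_one
      simp only [End699.ext]
      split_ifs with ha
      · exact Sym645.norm_sy_le_one (Sym645.prim_nm_mod hm) a
      · simp) (summable_schwartz_one (rS hom hβ0))
  refine hs.congr fun a => ?_
  unfold AT
  rw [rS_apply, norm_toC_sq]
  have e1 : K / (27 * nm m₀ * Q) * nm a / (nm c * (nm b * (nm e : ℝ) ^ 6 / Q)) = β * nm a := by
    rw [hβ]; field_simp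
  rw [e1]
  unfold PT858.FF
  ring

/-- `Ψ` as a finite sum -/
lemma Psi_eq (hRV : ∀ x, V x ≠ 0 → x ≤ R) (hQ : 0 < Q) (ξ f : Eis → ℂ) (a c : Eis) (X : ℝ) :
    Psi M ξ f a (W0 V om X a c) Q = ∑ e ∈ SF M ⌊R * Q⌋₊, ∑ b ∈ SF M ⌊R * Q⌋₊,
      (ξ e * (f b * V (nm b * (nm e : ℝ) ^ 6 / Q))) * ((nm e : ℂ) ^ 2 * (hN a b *
        ((((nm b * (nm e : ℝ) ^ 6 / Q) ^ (-(1 / 2) : ℝ) : ℝ) : ℂ) *
          om (X * nm a / (nm c * (nm b * (nm e : ℝ) ^ 6 / Q)))))) := by
  classical
  unfold Psi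
  rw [tsum_eq_sum (s := SF M ⌊R * Q⌋₊)]
  · refine Finset.sum_congr rfl fun e he => ?_
    rw [mem_SF] at he
    rw [if_pos he.2, tsum_eq_sum (s := SF M ⌊R * Q⌋₊)]
    · rw [Finset.mul_sum]
      refine Finset.sum_congr rfl fun b hb => ?_
      rw [mem_SF] at hb
      rw [if_pos hb.2]
      unfold W0
      ring
    · intro b hb
      split_ifs with hbs
      · unfold W0
        rw [V_zero_b hRV hQ he.2.ne_zero (by
          by_contra hle
          exact hb (mem_SF.mpr ⟨not_lt.mp hle, hbs⟩))]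
        ring
      · rfl
  · intro e he
    split_ifs with hes
    · have : ∀ b, (if Sm M b then f b * hN a b *
          W0 V om X a c (nm b * (nm e : ℝ) ^ 6 / Q) else 0) = 0 := by
        intro b
        split_ifs with hbs
        · unfold W0
          rw [V_zero_e hRV hQ hes.ne_zero hbs.ne_zero (by
            by_contra hle
            exact he (mem_SF.mpr ⟨not_lt.mp hle, hes⟩))]
          ring
        · rfl
      simp only [this, tsum_zero, mul_zero]
    · rfl

/-- the inner sum of `NSum` is finite -/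
lemma inner_eq (hRV : ∀ x, V x ≠ 0 → x ≤ R) (hQ : 0 < Q) (f : Eis → ℂ) {e : Eis} (he : Sm M e)
    (k c : Eis) :
    (∑' b : Eis, (open Classical in if Sm M b then f b * tk k b c * V (nm b / (Q / (nm e : ℝ) ^ 6))
      else 0)) = ∑ b ∈ SF M ⌊R * Q⌋₊, f b * V (nm b * (nm e : ℝ) ^ 6 / Q) * tk k b c := by
  classical
  have he0 : (0 : ℝ) < nm e := by exact_mod_cast nm_pos.mpr he.ne_zero
  have e1 : ∀ b : Eis, (nm b : ℝ) / (Q / (nm e : ℝ) ^ 6) = nm b * (nm e : ℝ) ^ 6 / Q := by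
    intro b; field_simp
  simp only [e1]
  rw [tsum_eq_sum (s := SF M ⌊R * Q⌋₊)]
  · refine Finset.sum_congr rfl fun b hb => ?_
    rw [mem_SF] at hb
    rw [if_pos hb.2]; ring
  · intro b hb
    split_ifs with hbs
    · rw [V_zero_b hRV hQ he.ne_zero (by
        by_contra hle
        exact hb (mem_SF.mpr ⟨not_lt.mp hle, hbs⟩))]
      ring
    · rfl

end

lemma tup_prim {r : ℕ} {y Q₀ : ℝ} {J : Finset (Fin r)} {p : ∀ _ : J, Eis}
    (hp : p ∈ tup r y Q₀ J) : IsPrim (∏ i : J, p i) := by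
  have h1 : ∀ i : J, IsPrim (p i) := fun i =>
    (NatZ571.mem_prS.mp (Fintype.mem_piFinset.mp hp i)).1.2
  refine Finset.prod_induction _ IsPrim (fun a b ha hb => ha.mul hb) isPrim_one
    (fun i _ => h1 i)

/-- **L6** -/
theorem propL6 : PropL6 := by
  classical
  intro h hh r y Q₀ M m₀ hr hy hQ₀ h36 hR hMQ ξ f hξ hf V om hV hom K Q hK hQ
  obtain ⟨B, R, hB0, hR1, hB, hRV⟩ := NatZ571.SW.bounds hV
  have hM0 : M ≠ 0 := Rad0.M_ne hR
  set N := ⌊R * Q⌋₊ with hN
  set A : (∀ _ : (Finset.univ : Finset (Fin r)), Eis) → ℂ := fun p =>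
    ∏ i : (Finset.univ : Finset (Fin r)), h (Real.log (nm (p i)) - kap r y Q₀ i) with hA
  set Cst : ℂ := ((2 * Real.sqrt 3 * (Real.sqrt Q / K) : ℝ) : ℂ) with hCst
  -- the left side
  have hL : DL h r y Q₀ M m₀ ξ f V om K Q =
      ∑ p ∈ tup r y Q₀ Finset.univ, ∑ e ∈ SF M N, ∑ b ∈ SF M N,
        Cst * (A p * (ξ e * (nm e : ℂ) ^ 5 * (f b * V (nm b * (nm e : ℝ) ^ 6 / Q)) *
          KS m₀ om K e b (∏ i, p i))) := by
    unfold DL
    refine Finset.sum_congr rfl fun p hp => ?_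
    by_cases hne : A p = 0
    · have h0 : (∏ i : (Finset.univ : Finset (Fin r)), h (Real.log (nm (p i)) - kap r y Q₀ i)) = 0 :=
        hne
      rw [h0, zero_mul, zero_mul]
      symm
      refine Finset.sum_eq_zero fun e _ => Finset.sum_eq_zero fun b _ => ?_
      rw [hne, zero_mul, mul_zero]
    · obtain ⟨c₁, c₂, hc, hc₁, hc₂, hsq, -⟩ :=
        NatP401.tuple_facts hh hM0 hMQ hQ₀ (k := 1) hp hne
      have hcS : Sm M (∏ i, p i) := by rw [hc]; exact hc₂.mul hc₁
      have hcsq : Squarefree (∏ i, p i) := by rw [hc]; exact hsq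
      generalize (∏ i, p i) = c at hcS hcsq ⊢
      have h1 : ∑' a : Eis, ext (fun a => sy a m₀) a * sy a c *
          Psi M ξ f a (W0 V om (K / (27 * nm m₀ * Q)) a c) Q =
          ∑ e ∈ SF M N, ∑ b ∈ SF M N, (ξ e * (f b * V (nm b * (nm e : ℝ) ^ 6 / Q))) *
            ∑' a : Eis, AT m₀ om K Q e b c a := by
        have h2 : ∀ a : Eis, ext (fun a => sy a m₀) a * sy a c *
            Psi M ξ f a (W0 V om (K / (27 * nm m₀ * Q)) a c) Q =
            ∑ e ∈ SF M N, ∑ b ∈ SF M N, (ξ e * (f b * V (nm b * (nm e : ℝ) ^ 6 / Q))) *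
              AT m₀ om K Q e b c a := by
          intro a
          rw [Psi_eq hRV hQ, Finset.mul_sum]
          refine Finset.sum_congr rfl fun e _ => ?_
          rw [Finset.mul_sum]
          refine Finset.sum_congr rfl fun b _ => ?_
          unfold AT
          ring
        have hsum : ∀ e ∈ SF M N, ∀ b ∈ SF M N, Summable (fun a =>
            (ξ e * (f b * V (nm b * (nm e : ℝ) ^ 6 / Q))) * AT m₀ om K Q e b c a) := by
          intro e he b hb
          exact (AT_summable hom hR.prim (mem_SF.mp he).2.ne_zero (mem_SF.mp hb).2.ne_zero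
            hcS.prim hK hQ).mul_left _
        rw [tsum_congr h2, Summable.tsum_finsetSum (fun e he => summable_sum (hsum e he))]
        refine Finset.sum_congr rfl fun e he => ?_
        rw [Summable.tsum_finsetSum (hsum e he)]
        refine Finset.sum_congr rfl fun b hb => ?_
        rw [tsum_mul_left]
      have e3 : ∀ S : ℂ, (∏ i : (Finset.univ : Finset (Fin r)),
          h (Real.log (nm (p i)) - kap r y Q₀ i)) * S = A p * S := fun _ => rfl
      rw [h1, mul_assoc, e3, Finset.mul_sum, Finset.mul_sum]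
      refine Finset.sum_congr rfl fun e he => ?_
      rw [Finset.mul_sum, Finset.mul_sum]
      refine Finset.sum_congr rfl fun b hb => ?_
      have hT := term_eq hR h36 hom (mem_SF.mp he).2.ne_zero (mem_SF.mp hb).2 hcS hcsq hK hQ
      have hT' : sy m₀ c * (((Real.sqrt (nm c))⁻¹ : ℝ) : ℂ) * conj (G c) *
        ∑' a : Eis, AT m₀ om K Q e b c a = Cst * ((nm e : ℂ) ^ 5 * KS m₀ om K e b c) := hT
      calc A p * (sy m₀ c * (((Real.sqrt (nm c))⁻¹ : ℝ) : ℂ) * conj (G c) *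
            (ξ e * (f b * V (nm b * (nm e : ℝ) ^ 6 / Q)) * ∑' a : Eis, AT m₀ om K Q e b c a))
          = A p * (ξ e * (f b * V (nm b * (nm e : ℝ) ^ 6 / Q))) *
            (sy m₀ c * (((Real.sqrt (nm c))⁻¹ : ℝ) : ℂ) * conj (G c) *
              ∑' a : Eis, AT m₀ om K Q e b c a) := by ring
        _ = _ := by rw [hT']; ring
  -- the right side
  have hRs : LK h r y Q₀ M m₀ ξ f V om (fun _ => True) K Q =
      ∑ e ∈ SF M N, ∑ p ∈ tup r y Q₀ Finset.univ, ∑ b ∈ SF M N,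
        A p * (ξ e * (nm e : ℂ) ^ 5 * (f b * V (nm b * (nm e : ℝ) ^ 6 / Q)) *
          KS m₀ om K e b (∏ i, p i)) := by
    have hNS : ∀ e : Eis, Sm M e → ∀ k : Eis,
        NSum h r y Q₀ Finset.univ M f (fun _ => 1) V (Q / (nm e : ℝ) ^ 6) k =
        ∑ p ∈ tup r y Q₀ Finset.univ, ∑ b ∈ SF M N,
          A p * (f b * V (nm b * (nm e : ℝ) ^ 6 / Q) * tk k b (∏ i, p i)) := by
      intro e he k
      unfold NSum
      refine Finset.sum_congr rfl fun p _ => ?_
      rw [mul_one, inner_eq hRV hQ f he, Finset.mul_sum]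
    unfold LK
    rw [tsum_eq_sum (s := SF M N)]
    · refine Finset.sum_congr rfl fun e he => ?_
      rw [mem_SF] at he
      rw [if_pos he.2]
      simp only [if_true]
      have h2 : ∀ k : Eis, FE47.DM (3 * m₀) (fun a => sy a m₀) k *
          Ur om (nm k * (nm e : ℝ) ^ 6 / K) *
          NSum h r y Q₀ Finset.univ M f (fun _ => 1) V (Q / (nm e : ℝ) ^ 6) k =
          ∑ p ∈ tup r y Q₀ Finset.univ, ∑ b ∈ SF M N,
            (A p * (f b * V (nm b * (nm e : ℝ) ^ 6 / Q))) *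
            (FE47.DM (3 * m₀) (fun a => sy a m₀) k * Ur om (nm k * (nm e : ℝ) ^ 6 / K) *
              tk k b (∏ i, p i)) := by
        intro k
        rw [hNS e he.2 k, Finset.mul_sum]
        refine Finset.sum_congr rfl fun p _ => ?_
        rw [Finset.mul_sum]
        refine Finset.sum_congr rfl fun b _ => ?_
        ring
      have hsum : ∀ p ∈ tup r y Q₀ Finset.univ, ∀ b ∈ SF M N, Summable (fun k : Eis =>
          (A p * (f b * V (nm b * (nm e : ℝ) ^ 6 / Q))) *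
            (FE47.DM (3 * m₀) (fun a => sy a m₀) k * Ur om (nm k * (nm e : ℝ) ^ 6 / K) *
              tk k b (∏ i, p i))) := by
        intro p hp b hb
        exact (KS_summable hom hR.prim he.2.ne_zero (mem_SF.mp hb).2.ne_zero (tup_prim hp)
          hK).mul_left _
      rw [tsum_congr h2, Summable.tsum_finsetSum (fun p hp => summable_sum (hsum p hp)),
        Finset.mul_sum]
      refine Finset.sum_congr rfl fun p hp => ?_
      rw [Summable.tsum_finsetSum (hsum p hp), Finset.mul_sum]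
      refine Finset.sum_congr rfl fun b hb => ?_
      rw [tsum_mul_left]
      unfold KS
      ring
    · intro e he
      split_ifs with hes
      · have h0 : ∀ k : Eis, NSum h r y Q₀ Finset.univ M f (fun _ => 1) V (Q / (nm e : ℝ) ^ 6) k
            = 0 := by
          intro k
          rw [hNS e hes k]
          refine Finset.sum_eq_zero fun p _ => Finset.sum_eq_zero fun b hb => ?_
          rw [V_zero_e hRV hQ hes.ne_zero (mem_SF.mp hb).2.ne_zero (by
            by_contra hle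
            exact he (mem_SF.mpr ⟨not_lt.mp hle, hes⟩))]
          ring
        simp only [h0, mul_zero, ite_self, tsum_zero]
      · rfl
  rw [hL, hRs, Finset.sum_comm, Finset.mul_sum]
  refine Finset.sum_congr rfl fun e _ => ?_
  rw [Finset.mul_sum]
  refine Finset.sum_congr rfl fun p _ => ?_
  rw [Finset.mul_sum]

end Crest.Agent.R017.L6106
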