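import Crest.Agent.R017.BL5defs2_868
import Crest.Agent.R017.BL5S2a_880
import Crest.Agent.R017.BL5S2b_502
import Crest.Agent.R017.L6c_106

/-!
# Row 17, leaf L5, part CubeK: sums over the principal `k` (helper411)
-/

set_option autoImplicit false

noncomputable section

open MeasureTheory Complex Set
open scoped ComplexConjugate ContDiff

namespace Crest.Agent.R017.CubeK411

open Crest.Agent.R012 Crest.Agent.R012.Eis Crest.Agent.R012.Mob705 Crest.Agent.R012.Div277
open Crest.Agent.R017.End699 Crest.Agent.R017.Sx545 Crest.Agent.R017.B770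
open Crest.Agent.R017.BEndA699 Crest.Agent.R017.L5

/-- the cube root of unity -/
def w3 : Eis := ⟨0, 1⟩

lemma w3_sq : w3 ^ 2 = -1 - w3 := by
  ext <;> simp [w3, pow_two]

lemma w3_cube : w3 ^ 3 = 1 := by
  have := w3_sq
  linear_combination (w3 - 1) * this

lemma w3_isUnit : IsUnit w3 := IsUnit.of_pow_eq_one w3_cube (by norm_num)

lemma cube_eq_iff (l m : Eis) :
    l ^ 3 = m ^ 3 ↔ l = m ∨ l = w3 * m ∨ l = w3 ^ 2 * m := by
  constructor
  · intro h
    have h1 : (l - m) * ((l - w3 * m) * (l - w3 ^ 2 * m)) = 0 := by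
      have e1 := w3_sq
      have e2 := w3_cube
      linear_combination h + (- l ^ 2 * m + l * m ^ 2) * e1 + (l * m ^ 2 - m ^ 3) * e2
    rcases mul_eq_zero.mp h1 with h | h
    · left; exact sub_eq_zero.mp h
    · rcases mul_eq_zero.mp h with h | h
      · right; left; exact sub_eq_zero.mp h
      · right; right; exact sub_eq_zero.mp h
  · rintro (rfl | rfl | rfl)
    · rfl
    · rw [mul_pow, w3_cube, one_mul]
    · rw [mul_pow, ← pow_mul, mul_comm 2 3, pow_mul, w3_cube, one_pow, one_mul]

lemma fiber_eq (m : Eis) : {l : Eis | l ^ 3 = m ^ 3} = {m, w3 * m, w3 ^ 2 * m} := by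
  ext l
  simp only [Set.mem_ofPred_eq, cube_eq_iff, Set.mem_insert_iff, Set.mem_singleton_iff]

lemma w3_ne_one : w3 ≠ 1 := by
  intro h
  have := congrArg QuadraticAlgebra.re h
  simp [w3] at this

lemma w3_sq_ne_one : w3 ^ 2 ≠ 1 := by
  intro h
  have e2 := w3_cube
  apply w3_ne_one
  rw [pow_succ, h, one_mul] at e2
  exact e2

lemma coprime_unit_mul {u l m₀ : Eis} (hu : IsUnit u) : IsCoprime (u * l) m₀ ↔ IsCoprime l m₀ :=
  isCoprime_mul_unit_left_left hu l m₀

open Classical in
theorem cubeK : CubeK := by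
  intro M m₀ h36 hr
  obtain ⟨c₀, hc₀, hc⟩ := S2a880.s2a M m₀ h36 hr
  refine ⟨c₀ / 3, div_ne_zero hc₀ (by norm_num), ?_⟩
  intro Φ hΦ
  have hM0 : M ≠ 0 := L6106.Rad0.M_ne hr
  have h3 : (3 : Eis) ∣ M := dvd_trans ⟨12, by norm_num⟩ h36
  have hnu : ¬ IsCoprime (0 : Eis) m₀ := by
    rw [isCoprime_zero_left]
    intro hu
    have h2 := (L6106.Rad0.two hr h36)
    rcases Crest.Agent.R017.Sx440.prime_two.dvd_or_dvd h2 with h | h
    · obtain ⟨t, ht⟩ := h
      have h1 := congrArg QuadraticAlgebra.re ht
      simp at h1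
      omega
    · exact Crest.Agent.R017.Sx440.prime_two.not_isUnit (isUnit_of_dvd_unit h hu)
  set F : Eis → ℂ := fun k =>
    if Prn M k then FE47.DM (3 * m₀) (fun a => sy a m₀) k * Φ k else 0 with hF
  set g : Eis → ℂ := fun l => if IsCoprime l m₀ then Φ (l ^ 3) else 0 with hg
  have hfib : ∀ k : Eis, ∑' l : (fun l : Eis => l ^ 3) ⁻¹' {k}, g l = 3 / c₀ * F k := by
    intro k
    by_cases hk : ∃ m : Eis, k = m ^ 3
    · obtain ⟨m, rfl⟩ := hk
      by_cases hm : m = 0
      · subst hm
        have hset : ((fun l : Eis => l ^ 3) ⁻¹' {(0 : Eis) ^ 3}) =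
            ((({0} : Finset Eis) : Set Eis)) := by
          ext l
          simp
        rw [hset, Finset.tsum_subtype', Finset.sum_singleton]
        have h1 : g 0 = 0 := by simp only [hg]; rw [if_neg hnu]
        have h2 : F (0 ^ 3) = 0 := by
          simp only [hF]
          rw [(hc 0).2 hnu, zero_mul, ite_self]
        rw [h1, h2, mul_zero]
      · have hset : ((fun l : Eis => l ^ 3) ⁻¹' {m ^ 3}) =
            (((({m, w3 * m, w3 ^ 2 * m} : Finset Eis)) : Set Eis)) := by
          have := fiber_eq m
          ext l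
          simp only [Set.mem_preimage, Set.mem_singleton_iff, Finset.coe_insert,
            Finset.coe_singleton, Set.mem_insert_iff]
          exact cube_eq_iff l m
        have hd1 : m ≠ w3 * m := by
          intro h
          exact w3_ne_one (mul_right_cancel₀ hm (by rw [← h, one_mul]))
        have hd2 : m ≠ w3 ^ 2 * m := by
          intro h
          exact w3_sq_ne_one (mul_right_cancel₀ hm (by rw [← h, one_mul]))
        have hd3 : w3 * m ≠ w3 ^ 2 * m := by
          intro h
          have h' := mul_right_cancel₀ hm h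
          have h0 : w3 ≠ 0 := w3_isUnit.ne_zero
          apply w3_ne_one
          rw [pow_two] at h'
          exact (mul_left_cancel₀ h0 (by rw [← h', mul_one])).symm
        rw [hset, Finset.tsum_subtype', Finset.sum_insert (by simp [hd1, hd2]),
          Finset.sum_insert (by simp [hd3]), Finset.sum_singleton]
        have e1 : g (w3 * m) = g m := by
          simp only [hg, coprime_unit_mul w3_isUnit]
          rw [(cube_eq_iff (w3 * m) m).mpr (Or.inr (Or.inl rfl))]
        have e2 : g (w3 ^ 2 * m) = g m := by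
          simp only [hg, coprime_unit_mul (w3_isUnit.pow 2)]
          rw [(cube_eq_iff (w3 ^ 2 * m) m).mpr (Or.inr (Or.inr rfl))]
        have hP : Prn M (m ^ 3) := by
          unfold Prn
          exact (s2b M hM0 h3 (m ^ 3) (pow_ne_zero 3 hm)).mpr ⟨m, rfl⟩
        rw [e1, e2]
        simp only [hF, hg]
        rw [if_pos hP]
        by_cases hco : IsCoprime m m₀
        · rw [if_pos hco, (hc m).1 hco]
          field_simp
          ring
        · rw [if_neg hco, (hc m).2 hco]
          ring
    · have hk0 : k ≠ 0 := by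
        rintro rfl
        exact hk ⟨0, by simp⟩
      have hP : ¬ Prn M k := by
        unfold Prn
        intro h
        exact hk ((s2b M hM0 h3 k hk0).mp h)
      have hset : ((fun l : Eis => l ^ 3) ⁻¹' {k}) = ((∅ : Finset Eis) : Set Eis) := by
        ext l
        simp only [Set.mem_preimage, Set.mem_singleton_iff, Finset.coe_empty,
          Set.mem_empty_iff_false, iff_false]
        intro h
        exact hk ⟨l, h.symm⟩
      rw [hset, Finset.tsum_subtype', Finset.sum_empty]
      simp only [hF]
      rw [if_neg hP, mul_zero]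
  have hsum := (hΦ.hasSum).tsum_fiberwise (fun l : Eis => l ^ 3)
  have hsum2 : HasSum (fun k => 3 / c₀ * F k) (∑' l, g l) := by
    have : (fun k => 3 / c₀ * F k) = fun k : Eis => ∑' l : (fun l : Eis => l ^ 3) ⁻¹' {k}, g l :=
      funext fun k => (hfib k).symm
    rw [this]
    exact hsum
  have := hsum2.mul_left (c₀ / 3)
  have h4 : (fun k => c₀ / 3 * (3 / c₀ * F k)) = F := by
    funext k
    field_simp
  rw [h4] at this
  exact this.tsum_eq

end Crest.Agent.R017.CubeK411
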