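import Crest.Agent.R017.Sx3a_545
import Crest.Agent.R012.LatW_413

/-!
# Row 17: upper bounds for sums of submultiplicative functions over primary elements (helper571)

`eul_sum_le` : if `F ≥ 0`, `F 1 ≤ 1`, `F (p^k b) ≤ F (p^k) F b` (`p ∤ b`),
`∑_{1 ≤ k ≤ K} F (p^k) ≤ u p` and `∑_p u p ≤ U`, then `∑_{b ∈ primBall X, Sm m b} F b ≤ exp U`.
-/

set_option autoImplicit false

noncomputable section

open Finset

namespace Crest.Agent.R017.Eul571

open Crest.Agent.R012 Crest.Agent.R012.Eis Crest.Agent.R012.Mob705 Crest.Agent.R012.Div277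
open Crest.Agent.R017.Sx545

open Classical in
/-- the primary elements of norm `≤ X`, prime to `m`, with all prime factors in `P` -/
def SP (m : Eis) (X : ℕ) (P : Finset Eis) : Finset Eis :=
  (primBall X).filter (fun b => Sm m b ∧ ∀ p, IsPP p → p ∣ b → p ∈ P)

open Classical in
lemma mem_SP {m : Eis} {X : ℕ} {P : Finset Eis} {b : Eis} :
    b ∈ SP m X P ↔ nm b ≤ X ∧ Sm m b ∧ ∀ p, IsPP p → p ∣ b → p ∈ P := by
  unfold SP
  rw [mem_filter, mem_primBall]
  constructor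
  · rintro ⟨⟨h1, _⟩, h3, h4⟩; exact ⟨h1, h3, h4⟩
  · rintro ⟨h1, h3, h4⟩; exact ⟨⟨h1, h3.1⟩, h3, h4⟩

lemma sum_SP_nonneg {m : Eis} {F : Eis → ℝ} (hF0 : ∀ b, Sm m b → 0 ≤ F b) (X : ℕ)
    (P : Finset Eis) : 0 ≤ ∑ b ∈ SP m X P, F b :=
  Finset.sum_nonneg fun b hb => hF0 b (mem_SP.mp hb).2.1

open Classical in
theorem eul_finset {m : Eis} {F u : Eis → ℝ} (hF0 : ∀ b, Sm m b → 0 ≤ F b) (hF1 : F 1 ≤ 1)
    (hmul : ∀ p k b, Sm m p → Prime p → 1 ≤ k → Sm m b → ¬ p ∣ b → F (p ^ k * b) ≤ F (p ^ k) * F b)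
    (hu : ∀ p, Sm m p → Prime p → ∀ K : ℕ, ∑ k ∈ Finset.Icc 1 K, F (p ^ k) ≤ u p) (X : ℕ)
    (P : Finset Eis) (hP : ∀ p ∈ P, Sm m p ∧ Prime p) :
    ∑ b ∈ SP m X P, F b ≤ ∏ p ∈ P, (1 + u p) := by
  induction P using Finset.induction_on with
  | empty =>
    rw [Finset.prod_empty]
    have h1 : SP m X ∅ ⊆ {1} := by
      intro b hb
      obtain ⟨-, h2, h3⟩ := mem_SP.mp hb
      rw [Finset.mem_singleton]
      by_contra h4
      obtain ⟨p, hp, hpb⟩ := exists_pp_dvd_of_isPrim h2.1 h4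
      exact absurd (h3 p hp hpb) (Finset.notMem_empty p)
    calc ∑ b ∈ SP m X ∅, F b ≤ ∑ b ∈ ({1} : Finset Eis), F b := by
          refine Finset.sum_le_sum_of_subset_of_nonneg h1 ?_
          intro b hb _
          rw [Finset.mem_singleton] at hb
          rw [hb]; exact hF0 1 (Sm.one m)
      _ = F 1 := by simp
      _ ≤ 1 := hF1
  | insert p P hpP ih =>
    have hPP : ∀ q ∈ P, Sm m q ∧ Prime q := fun q hq => hP q (Finset.mem_insert_of_mem hq)
    obtain ⟨hpS, hpp⟩ := hP p (Finset.mem_insert_self p P)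
    have ih' := ih hPP
    rw [Finset.prod_insert hpP]
    have hu0 : 0 ≤ u p := by simpa using hu p hpS hpp 0
    -- the map
    have hsub : SP m X (insert p P) ⊆
        ((Finset.range (X + 1)) ×ˢ SP m X P).image (fun kb => p ^ kb.1 * kb.2) := by
      intro b hb
      obtain ⟨hbX, hbS, hbP⟩ := mem_SP.mp hb
      obtain ⟨k, c, hkc, hpc, hcS⟩ := Res.exists_split hpS hpp hbS
      rw [Finset.mem_image]
      refine ⟨(k, c), ?_, hkc.symm⟩
      rw [Finset.mem_product, Finset.mem_range, mem_SP]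
      have hp1 : 1 < nm p := IsPP.one_lt_nm ⟨hpS.1, hpp⟩
      have hc0 : 0 < nm c := nm_pos.mpr hcS.ne_zero
      have hk0 : 0 < nm p ^ k := pow_pos (by omega) k
      have hnb : nm b = nm p ^ k * nm c := by rw [hkc, nm_mul, nm_pow]
      have h2 : k < nm p ^ k := Nat.lt_pow_self hp1
      have h3 : nm p ^ k ≤ nm p ^ k * nm c := Nat.le_mul_of_pos_right _ hc0
      have h4 : nm c ≤ nm p ^ k * nm c := Nat.le_mul_of_pos_left _ hk0
      refine ⟨by simp only; omega, by simp only; omega, hcS, ?_⟩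
      intro q hq hqc
      have hqb : q ∣ b := by rw [hkc]; exact Dvd.dvd.mul_left hqc _
      rcases Finset.mem_insert.mp (hbP q hq hqb) with h | h
      · exact absurd (h ▸ hqc) hpc
      · exact h
    have hSm' : ∀ kb ∈ (Finset.range (X + 1)) ×ˢ SP m X P, Sm m (p ^ kb.1 * kb.2) := by
      intro kb hkb
      rw [Finset.mem_product, mem_SP] at hkb
      exact (hpS.pow kb.1).mul hkb.2.2.1
    have hpP' : ∀ b ∈ SP m X P, ¬ p ∣ b := by
      intro b hb hpb
      exact hpP ((mem_SP.mp hb).2.2 p ⟨hpS.1, hpp⟩ hpb)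
    calc ∑ b ∈ SP m X (insert p P), F b
        ≤ ∑ b ∈ ((Finset.range (X + 1)) ×ˢ SP m X P).image (fun kb => p ^ kb.1 * kb.2), F b := by
          refine Finset.sum_le_sum_of_subset_of_nonneg hsub ?_
          intro b hb _
          obtain ⟨kb, hkb, rfl⟩ := Finset.mem_image.mp hb
          exact hF0 _ (hSm' kb hkb)
      _ ≤ ∑ kb ∈ (Finset.range (X + 1)) ×ˢ SP m X P, F (p ^ kb.1 * kb.2) := by
          refine Finset.sum_image_le_of_nonneg ?_
          intro kb hkb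
          obtain ⟨kb', hkb', h⟩ := Finset.mem_image.mp hkb
          rw [← h]
          exact hF0 _ (hSm' kb' hkb')
      _ = ∑ b ∈ SP m X P, ∑ k ∈ Finset.range (X + 1), F (p ^ k * b) := by
          rw [Finset.sum_product_right]
      _ ≤ ∑ b ∈ SP m X P, (1 + u p) * F b := by
          refine Finset.sum_le_sum fun b hb => ?_
          have hbS := (mem_SP.mp hb).2.1
          rw [Finset.sum_range_succ']
          have h5 : ∑ k ∈ Finset.range X, F (p ^ (k + 1) * b) ≤ u p * F b := by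
            calc ∑ k ∈ Finset.range X, F (p ^ (k + 1) * b)
                ≤ ∑ k ∈ Finset.range X, F (p ^ (k + 1)) * F b :=
                  Finset.sum_le_sum fun k _ => hmul p (k + 1) b hpS hpp (by omega) hbS (hpP' b hb)
              _ = (∑ k ∈ Finset.Icc 1 X, F (p ^ k)) * F b := by
                  rw [← Finset.sum_mul]
                  congr 1
                  rw [Finset.range_eq_Ico, Finset.sum_Ico_add' (fun k => F (p ^ k)) 0 X 1]
                  rfl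
              _ ≤ u p * F b := mul_le_mul_of_nonneg_right (hu p hpS hpp X) (hF0 b hbS)
          rw [pow_zero, one_mul]
          linarith
      _ = (1 + u p) * ∑ b ∈ SP m X P, F b := by rw [Finset.mul_sum]
      _ ≤ (1 + u p) * ∏ q ∈ P, (1 + u q) := mul_le_mul_of_nonneg_left ih' (by linarith)

open Classical in
/-- **Euler product upper bound.** -/
theorem eul_sum_le {m : Eis} {F u : Eis → ℝ} {U : ℝ} (hF0 : ∀ b, Sm m b → 0 ≤ F b)
    (hF1 : F 1 ≤ 1)
    (hmul : ∀ p k b, Sm m p → Prime p → 1 ≤ k → Sm m b → ¬ p ∣ b → F (p ^ k * b) ≤ F (p ^ k) * F b)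
    (hu : ∀ p, Sm m p → Prime p → ∀ K : ℕ, ∑ k ∈ Finset.Icc 1 K, F (p ^ k) ≤ u p)
    (hU : ∀ P : Finset Eis, (∀ p ∈ P, Sm m p ∧ Prime p) → ∑ p ∈ P, u p ≤ U) (X : ℕ) :
    ∑ b ∈ (primBall X).filter (Sm m), F b ≤ Real.exp U := by
  set P : Finset Eis := (primBall X).filter (fun p => Sm m p ∧ Prime p) with hPdef
  have hP : ∀ p ∈ P, Sm m p ∧ Prime p := fun p hp => (Finset.mem_filter.mp hp).2
  have h1 : (primBall X).filter (Sm m) = SP m X P := by
    ext b
    rw [mem_SP, Finset.mem_filter, mem_primBall]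
    constructor
    · rintro ⟨⟨h1, _⟩, h2⟩
      refine ⟨h1, h2, fun p hp hpb => ?_⟩
      rw [hPdef, Finset.mem_filter, mem_primBall]
      exact ⟨⟨(nm_le_of_dvd h2.ne_zero hpb).trans h1, hp.1⟩, h2.of_dvd hp.1 hpb, hp.2⟩
    · rintro ⟨h1, h2, _⟩
      exact ⟨⟨h1, h2.1⟩, h2⟩
  rw [h1]
  refine (eul_finset hF0 hF1 hmul hu X P hP).trans ?_
  calc ∏ p ∈ P, (1 + u p) ≤ ∏ p ∈ P, Real.exp (u p) := by
        refine Finset.prod_le_prod (fun p hp => ?_) (fun p _ => ?_)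
        · have : 0 ≤ u p := by simpa using hu p (hP p hp).1 (hP p hp).2 0
          linarith
        · linarith [Real.add_one_le_exp (u p)]
    _ = Real.exp (∑ p ∈ P, u p) := (Real.exp_sum P u).symm
    _ ≤ Real.exp U := Real.exp_le_exp.mpr (hU P hP)

open Classical in
/-- Rankin's trick: `∑_{b ≤ X} T b ≤ C X^σ`. -/
theorem rankin {m : Eis} {T u : Eis → ℝ} {U σ : ℝ} (hσ : 0 ≤ σ) (hT0 : ∀ b, Sm m b → 0 ≤ T b)
    (hT1 : T 1 ≤ 1)
    (hmul : ∀ p k b, Sm m p → Prime p → 1 ≤ k → Sm m b → ¬ p ∣ b → T (p ^ k * b) ≤ T (p ^ k) * T b)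
    (hu : ∀ p, Sm m p → Prime p → ∀ K : ℕ,
      ∑ k ∈ Finset.Icc 1 K, T (p ^ k) * ((nm p : ℝ) ^ (-σ)) ^ k ≤ u p)
    (hU : ∀ P : Finset Eis, (∀ p ∈ P, Sm m p ∧ Prime p) → ∑ p ∈ P, u p ≤ U) (X : ℕ) (Y : ℝ)
    (hXY : (X : ℝ) ≤ Y) :
    ∑ b ∈ (primBall X).filter (Sm m), T b ≤ Real.exp U * Y ^ σ := by
  have h := eul_sum_le (m := m) (F := fun b => T b * (nm b : ℝ) ^ (-σ)) (u := u) (U := U)
    (fun b hb => mul_nonneg (hT0 b hb) (Real.rpow_nonneg (Nat.cast_nonneg _) _))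
    (by simp [nm_one, hT1])
    (by
      intro p k b hp hpp hk hb hpb
      have h1 := hmul p k b hp hpp hk hb hpb
      have h2 : ((nm (p ^ k * b) : ℕ) : ℝ) ^ (-σ) = (nm (p ^ k) : ℝ) ^ (-σ) * (nm b : ℝ) ^ (-σ) := by
        rw [nm_mul]; push_cast
        exact Real.mul_rpow (Nat.cast_nonneg _) (Nat.cast_nonneg _)
      rw [h2]
      have h3 : (0 : ℝ) ≤ (nm (p ^ k) : ℝ) ^ (-σ) * (nm b : ℝ) ^ (-σ) := by positivity
      calc T (p ^ k * b) * ((nm (p ^ k) : ℝ) ^ (-σ) * (nm b : ℝ) ^ (-σ))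
          ≤ (T (p ^ k) * T b) * ((nm (p ^ k) : ℝ) ^ (-σ) * (nm b : ℝ) ^ (-σ)) :=
            mul_le_mul_of_nonneg_right h1 h3
        _ = _ := by ring)
    (by
      intro p hp hpp K
      refine le_trans (le_of_eq ?_) (hu p hp hpp K)
      refine Finset.sum_congr rfl fun k _ => ?_
      congr 1
      rw [nm_pow]; push_cast
      rw [← Real.rpow_natCast, ← Real.rpow_mul (Nat.cast_nonneg _), ← Real.rpow_natCast,
        ← Real.rpow_mul (Nat.cast_nonneg _)]
      congr 1; ring)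
    hU X
  have hY0 : 0 ≤ Y := (Nat.cast_nonneg X).trans hXY
  calc ∑ b ∈ (primBall X).filter (Sm m), T b
      ≤ ∑ b ∈ (primBall X).filter (Sm m), (T b * (nm b : ℝ) ^ (-σ)) * Y ^ σ := by
        refine Finset.sum_le_sum fun b hb => ?_
        rw [Finset.mem_filter, mem_primBall] at hb
        have hb0 : (0 : ℝ) < nm b := by exact_mod_cast nm_pos.mpr hb.2.ne_zero
        have hbX : (nm b : ℝ) ≤ Y := le_trans (by exact_mod_cast hb.1.1) hXY
        have h1 : 1 ≤ (nm b : ℝ) ^ (-σ) * Y ^ σ := by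
          rw [Real.rpow_neg hb0.le, inv_mul_eq_div, one_le_div (Real.rpow_pos_of_pos hb0 _)]
          exact Real.rpow_le_rpow hb0.le hbX hσ
        calc T b = T b * 1 := (mul_one _).symm
          _ ≤ T b * ((nm b : ℝ) ^ (-σ) * Y ^ σ) :=
              mul_le_mul_of_nonneg_left h1 (hT0 b hb.2)
          _ = _ := by ring
    _ = (∑ b ∈ (primBall X).filter (Sm m), T b * (nm b : ℝ) ^ (-σ)) * Y ^ σ := by
        rw [Finset.sum_mul]
    _ ≤ Real.exp U * Y ^ σ := mul_le_mul_of_nonneg_right h (Real.rpow_nonneg hY0 _)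

/-- `∑_{p ∈ P} nm p^{-s} ≤ C` uniformly in `P`, `s > 1`. -/
lemma sum_nm_rpow_le {s : ℝ} (hs : 1 < s) :
    ∃ C : ℝ, 0 ≤ C ∧ ∀ P : Finset Eis, ∑ p ∈ P, (nm p : ℝ) ^ (-s) ≤ C := by
  have h := LatSum413.summable_nm_rpow hs
  refine ⟨∑' z : Eis, (nm z : ℝ) ^ (-s), tsum_nonneg fun z => by positivity, fun P => ?_⟩
  exact h.sum_le_tsum P (fun z _ => by positivity)

end Crest.Agent.R017.Eul571
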