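import Crest.Agent.R017.BDefs_770
import Crest.Agent.R017.Eul_571

/-!
# Row 17, section B, leaf L4': the natural sum at `k = 0` (helper571)
-/

set_option autoImplicit false

noncomputable section

open MeasureTheory Complex Set
open scoped ComplexConjugate ContDiff

namespace Crest.Agent.R017.NatZ571

open Crest.Agent.R012 Crest.Agent.R012.Eis Crest.Agent.R012.Mob705 Crest.Agent.R012.Gauss880
open Crest.Agent.R017.End699 Crest.Agent.R017.Sx440 Crest.Agent.R017.Sx545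
open Crest.Agent.R017.B770 Crest.Agent.R017.Eul571 Crest.Agent.R012.Div277

/-! ### the local bounds for the powerful part -/

/-- `T b = ‖tk 0 b 1‖` -/
def T0 (b : Eis) : ℝ := ‖tk 0 b 1‖

lemma T0_nonneg (b : Eis) : 0 ≤ T0 b := norm_nonneg _

lemma T0_one (H : TkAlg) : T0 1 = 1 := by
  unfold T0; rw [H.one]; simp

lemma T0_mul (H : TkAlg) {p b : Eis} {k : ℕ} (hp : Sm 2 p) (hpp : Prime p) (hb : Sm 2 b)
    (hpb : ¬ p ∣ b) : T0 (p ^ k * b) = T0 (p ^ k) * T0 b := by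
  unfold T0
  have h := H.mul 0 (p ^ k) b 1 1 (hp.pow k) hb (Sm.one 2) (Sm.one 2)
    (by rw [mul_one, mul_one]; exact Res.coprime_pow hpp hpb k)
  rw [mul_one] at h
  rw [h, norm_mul]

lemma sy_zero_left {p : Eis} (hp : IsPrim p) (hpp : Prime p) : sy 0 p = 0 := by
  rw [Sym645.sy_eq_zero_iff (Sym645.prim_nm_mod hp)]
  intro h
  rw [isCoprime_zero_left] at h
  exact hpp.not_isUnit h

lemma T0_prime (H : TkAlg) {p : Eis} (hp : Sm 2 p) (hpp : Prime p) : T0 p = 0 := by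
  unfold T0
  rw [H.b1 0 p hp hpp.squarefree, sy_zero_left hp.1 hpp, mul_zero, norm_zero]

lemma sE_le (j : ℕ) : (4 * sE j : ℤ) ≤ 3 * j := by
  unfold sE
  split_ifs with h <;> omega

/-- exponent bound -/
lemma expo {j : ℕ} (h2 : 2 ≤ j) (h : j % 4 = 1 ∨ j % 6 = 0) :
    (sE j : ℝ) + 1 / 2 - (19 / 20) * j ≤ -(11 / 10) - ((j : ℝ) - 5) / 20 ∧ 5 ≤ j := by
  have h5 : 5 ≤ j := by omega
  refine ⟨?_, h5⟩
  rcases eq_or_ne j 5 with rfl | h5'
  · have : sE 5 = 3 := by decide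
    rw [this]; norm_num
  rcases eq_or_ne j 6 with rfl | h6'
  · have : sE 6 = 4 := by decide
    rw [this]; norm_num
  · have h9 : 9 ≤ j := by omega
    have h1 : (4 * sE j : ℝ) ≤ 3 * j := by exact_mod_cast sE_le j
    have h9' : (9 : ℝ) ≤ j := by exact_mod_cast h9
    linarith

lemma T0_pow_le (H : TkAlg) {p : Eis} (hp : Sm 2 p) (hpp : Prime p) {j : ℕ} (hj : 1 ≤ j) :
    T0 (p ^ j) * ((nm p : ℝ) ^ (-(19 / 20 : ℝ))) ^ j ≤
      (nm p : ℝ) ^ (-(11 / 10 : ℝ)) * (((4 : ℝ) ^ (-(1 / 20 : ℝ))) ^ j *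
        ((4 : ℝ) ^ (1 / 20 : ℝ)) ^ 5) := by
  have hq : (4 : ℝ) ≤ nm p := by exact_mod_cast IsPP.four_le_nm ⟨hp.1, hpp⟩
  have hq0 : (0 : ℝ) < nm p := by linarith
  have hR : 0 ≤ (nm p : ℝ) ^ (-(11 / 10 : ℝ)) * (((4 : ℝ) ^ (-(1 / 20 : ℝ))) ^ j *
        ((4 : ℝ) ^ (1 / 20 : ℝ)) ^ 5) := by positivity
  by_cases h1 : j = 1
  · subst h1
    rw [pow_one, T0_prime H hp hpp, zero_mul]
    exact hR
  have h2 : 2 ≤ j := by omega
  by_cases hs : j % 4 = 1 ∨ j % 6 = 0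
  · obtain ⟨he, h5⟩ := expo h2 hs
    have h3 : T0 (p ^ j) ≤ (nm p : ℝ) ^ ((sE j : ℝ) + 1 / 2) := H.pow2 0 p j hp hpp h2
    have h4 : ((nm p : ℝ) ^ (-(19 / 20 : ℝ))) ^ j = (nm p : ℝ) ^ (-(19 / 20 : ℝ) * j) := by
      rw [Real.rpow_mul hq0.le, Real.rpow_natCast]
    have h5' : (5 : ℝ) ≤ j := by exact_mod_cast h5
    calc T0 (p ^ j) * ((nm p : ℝ) ^ (-(19 / 20 : ℝ))) ^ j
        ≤ (nm p : ℝ) ^ ((sE j : ℝ) + 1 / 2) * ((nm p : ℝ) ^ (-(19 / 20 : ℝ))) ^ j :=
          mul_le_mul_of_nonneg_right h3 (by positivity)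
      _ = (nm p : ℝ) ^ ((sE j : ℝ) + 1 / 2 - (19 / 20) * j) := by
          rw [h4, ← Real.rpow_add hq0]; congr 1; ring
      _ ≤ (nm p : ℝ) ^ (-(11 / 10) - ((j : ℝ) - 5) / 20) :=
          Real.rpow_le_rpow_of_exponent_le (by linarith) he
      _ = (nm p : ℝ) ^ (-(11 / 10 : ℝ)) * (nm p : ℝ) ^ (-(((j : ℝ) - 5) / 20)) := by
          rw [← Real.rpow_add hq0]; congr 1
      _ ≤ (nm p : ℝ) ^ (-(11 / 10 : ℝ)) * (4 : ℝ) ^ (-(((j : ℝ) - 5) / 20)) := by
          refine mul_le_mul_of_nonneg_left ?_ (by positivity)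
          exact Real.rpow_le_rpow_of_nonpos (by norm_num) hq (by linarith)
      _ = _ := by
          congr 1
          rw [← Real.rpow_natCast, ← Real.rpow_mul (by norm_num), ← Real.rpow_natCast,
            ← Real.rpow_mul (by norm_num), ← Real.rpow_add (by norm_num)]
          congr 1
          push_cast
          ring
  · push Not at hs
    have : T0 (p ^ j) = 0 := by
      unfold T0
      rw [H.pow0 0 p j hp hpp h2 hs.1 hs.2, norm_zero]
    rw [this, zero_mul]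
    exact hR

open Classical in
/-- **the powerful sum at `k = 0`**: `∑_{b ≤ X} ‖tk 0 b 1‖ ≤ C Y^{19/20}`. -/
theorem sum_T0_le (H : TkAlg) : ∃ C : ℝ, 0 ≤ C ∧ ∀ (X : ℕ) (Y : ℝ), (X : ℝ) ≤ Y →
    ∑ b ∈ (primBall X).filter (Sm 2), T0 b ≤ C * Y ^ (19 / 20 : ℝ) := by
  obtain ⟨U, hU0, hU⟩ := sum_nm_rpow_le (s := 11 / 10) (by norm_num)
  set r : ℝ := (4 : ℝ) ^ (-(1 / 20 : ℝ)) with hr
  set c5 : ℝ := ((4 : ℝ) ^ (1 / 20 : ℝ)) ^ 5 with hc5
  have hr0 : 0 ≤ r := by positivity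
  have hr1 : r < 1 := Real.rpow_lt_one_of_one_lt_of_neg (by norm_num) (by norm_num)
  have hc50 : 0 ≤ c5 := by positivity
  set D : ℝ := (1 - r)⁻¹ * c5 with hD
  have h1r : 0 < 1 - r := by linarith
  have hD0 : 0 ≤ D := by positivity
  refine ⟨Real.exp (U * D), (Real.exp_pos _).le, fun X Y hXY => ?_⟩
  have h := rankin (m := 2) (T := T0) (u := fun p => (nm p : ℝ) ^ (-(11 / 10 : ℝ)) * D)
    (U := U * D) (σ := 19 / 20) (by norm_num) (fun b _ => T0_nonneg b) (T0_one H).le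
    (fun p k b hp hpp _ hb hpb => (T0_mul H hp hpp hb hpb).le)
    (by
      intro p hp hpp K
      calc ∑ k ∈ Finset.Icc 1 K, T0 (p ^ k) * ((nm p : ℝ) ^ (-(19 / 20 : ℝ))) ^ k
          ≤ ∑ k ∈ Finset.Icc 1 K, (nm p : ℝ) ^ (-(11 / 10 : ℝ)) * (r ^ k * c5) :=
            Finset.sum_le_sum fun k hk => T0_pow_le H hp hpp (Finset.mem_Icc.mp hk).1
        _ = (nm p : ℝ) ^ (-(11 / 10 : ℝ)) * ((∑ k ∈ Finset.Icc 1 K, r ^ k) * c5) := by
            rw [Finset.sum_mul, Finset.mul_sum]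
        _ ≤ (nm p : ℝ) ^ (-(11 / 10 : ℝ)) * ((1 - r)⁻¹ * c5) := by
            refine mul_le_mul_of_nonneg_left (mul_le_mul_of_nonneg_right ?_ hc50) (by positivity)
            rw [← tsum_geometric_of_lt_one hr0 hr1]
            exact (summable_geometric_of_lt_one hr0 hr1).sum_le_tsum _ (fun k _ => by positivity))
    (by
      intro P _
      rw [← Finset.sum_mul]
      exact mul_le_mul_of_nonneg_right (hU P) hD0)
    X Y hXY
  exact h

/-! ### splitting off the amplifier -/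

theorem tk_split (H : TkAlg) : ∀ c : Eis, Sm 2 c → Squarefree c → ∀ b : Eis, Sm 2 b →
    tk 0 b c = 0 ∨ ∃ b', b = c * b' ∧ Sm 2 b' ∧ ‖tk 0 b c‖ ≤ nm c * T0 b' := by
  intro c hc
  refine Sm.induction_coprime (m := 2) (P := fun c => Squarefree c → ∀ b : Eis, Sm 2 b →
    tk 0 b c = 0 ∨ ∃ b', b = c * b' ∧ Sm 2 b' ∧ ‖tk 0 b c‖ ≤ nm c * T0 b') ?_ ?_ c hc
  · intro _ b hb
    right
    refine ⟨b, (one_mul b).symm, hb, ?_⟩
    simp [T0]
  · intro p k c₁ hp hpp hk hc₁ hpc₁ ih hsq b hb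
    -- k = 1
    have hk1 : k = 1 := by
      by_contra hne
      have h2 : 2 ≤ k := by omega
      have h3 : p * p ∣ p ^ k * c₁ := by
        rw [← pow_two]
        exact (pow_dvd_pow p h2).mul_right _
      exact hpp.not_isUnit (hsq p h3)
    subst hk1
    rw [pow_one] at hsq ⊢
    have hsq₁ : Squarefree c₁ := hsq.of_mul_right
    obtain ⟨j, b₁, rfl, hpb₁, hb₁⟩ := Res.exists_split hp hpp hb
    have hcop : IsCoprime (p ^ j * p) (b₁ * c₁) := by
      rw [← pow_succ]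
      refine Res.coprime_pow hpp ?_ _
      intro h
      rcases hpp.dvd_or_dvd h with h | h
      · exact hpb₁ h
      · exact hpc₁ h
    have hm := H.mul 0 (p ^ j) b₁ p c₁ (hp.pow j) hb₁ hp hc₁ hcop
    rcases Nat.lt_or_ge j 1 with h0 | h1
    · -- j = 0
      have hj : j = 0 := by omega
      left
      rw [hm, hj, pow_zero, H.c1 0 p hp hpp.squarefree, sy_zero_left hp.1 hpp]
      simp
    · rcases Nat.lt_or_ge j 2 with h2 | h2
      · have hj : j = 1 := by omega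
        subst hj
        rw [pow_one] at hm ⊢
        rcases ih hsq₁ b₁ hb₁ with h | ⟨b', hb', hS', hn'⟩
        · left; rw [hm, h, mul_zero]
        · right
          refine ⟨b', by rw [hb', mul_assoc], hS', ?_⟩
          rw [hm, norm_mul]
          have h4 : ‖tk 0 p p‖ ≤ nm p := by
            rw [H.pp 0 p hp hpp]
            simp only [dvd_zero, if_true, mul_one]
            have h5 : (1 : ℂ) - (nm p : ℂ) = ((1 - (nm p : ℝ) : ℝ) : ℂ) := by push_cast; ring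
            rw [h5, Complex.norm_real, Real.norm_eq_abs]
            have h6 : (1 : ℝ) ≤ nm p := by
              exact_mod_cast (IsPP.one_lt_nm ⟨hp.1, hpp⟩).le
            rw [abs_of_nonpos (by linarith)]
            linarith
          calc ‖tk 0 p p‖ * ‖tk 0 b₁ c₁‖ ≤ nm p * (nm c₁ * T0 b') :=
                mul_le_mul h4 hn' (norm_nonneg _) (Nat.cast_nonneg _)
            _ = nm (p * c₁) * T0 b' := by rw [nm_mul]; push_cast; ring
      · left
        rw [hm, H.powc 0 p j hp hpp h2, zero_mul]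

open Classical in
/-- the `b`-sum for a fixed amplifier element. -/
theorem sum_tk_le (H : TkAlg) : ∃ C : ℝ, 0 ≤ C ∧ ∀ (c : Eis), Sm 2 c → Squarefree c →
    ∀ (X : ℕ) (Y : ℝ), (X : ℝ) ≤ Y →
    ∑ b ∈ (primBall X).filter (Sm 2), ‖tk 0 b c‖ ≤
      C * (nm c : ℝ) ^ (1 / 20 : ℝ) * Y ^ (19 / 20 : ℝ) := by
  obtain ⟨C, hC0, hC⟩ := sum_T0_le H
  refine ⟨C, hC0, fun c hc hsq X Y hXY => ?_⟩
  have hc0 : (0 : ℝ) < nm c := by exact_mod_cast nm_pos.mpr hc.ne_zero
  have hc0' : 0 < nm c := nm_pos.mpr hc.ne_zero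
  have hY0 : 0 ≤ Y := (Nat.cast_nonneg X).trans hXY
  have hstep : ∑ b ∈ (primBall X).filter (Sm 2), ‖tk 0 b c‖ ≤
      ∑ b' ∈ (primBall (X / nm c)).filter (Sm 2), nm c * T0 b' := by
    -- the support
    set S := ((primBall X).filter (Sm 2)).filter (fun b => tk 0 b c ≠ 0) with hS
    have h1 : ∑ b ∈ (primBall X).filter (Sm 2), ‖tk 0 b c‖ = ∑ b ∈ S, ‖tk 0 b c‖ := by
      rw [hS]
      refine (Finset.sum_filter_of_ne ?_).symm
      intro b _ hb h0
      exact hb (by rw [h0, norm_zero])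
    rw [h1]
    calc ∑ b ∈ S, ‖tk 0 b c‖ ≤ ∑ b ∈ ((primBall (X / nm c)).filter (Sm 2)).image (fun b' => c * b'),
          ‖tk 0 b c‖ := by
          refine Finset.sum_le_sum_of_subset_of_nonneg ?_ (fun _ _ _ => norm_nonneg _)
          intro b hb
          rw [hS, Finset.mem_filter, Finset.mem_filter, mem_primBall] at hb
          obtain ⟨⟨⟨hbX, _⟩, hbS⟩, hb0⟩ := hb
          rcases tk_split H c hc hsq b hbS with h | ⟨b', rfl, hb'S, _⟩
          · exact absurd h hb0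
          · rw [Finset.mem_image]
            refine ⟨b', ?_, rfl⟩
            rw [Finset.mem_filter, mem_primBall]
            refine ⟨⟨?_, hb'S.1⟩, hb'S⟩
            rw [nm_mul] at hbX
            rw [Nat.le_div_iff_mul_le hc0']
            rw [mul_comm]; exact hbX
      _ = ∑ b' ∈ (primBall (X / nm c)).filter (Sm 2), ‖tk 0 (c * b') c‖ := by
          rw [Finset.sum_image]
          intro x _ y _ hxy
          exact mul_left_cancel₀ hc.ne_zero hxy
      _ ≤ ∑ b' ∈ (primBall (X / nm c)).filter (Sm 2), nm c * T0 b' := by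
          refine Finset.sum_le_sum fun b' hb' => ?_
          rw [Finset.mem_filter] at hb'
          rcases tk_split H c hc hsq (c * b') (hc.mul hb'.2) with h | ⟨b'', h'', _, hn⟩
          · rw [h, norm_zero]; exact mul_nonneg hc0.le (T0_nonneg _)
          · have : b' = b'' := mul_left_cancel₀ hc.ne_zero h''
            rw [this] at hn ⊢
            exact hn
  refine hstep.trans ?_
  rw [← Finset.mul_sum]
  have h2 := hC (X / nm c) (Y / nm c) (by
    refine le_trans Nat.cast_div_le ?_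
    exact div_le_div_of_nonneg_right hXY hc0.le)
  calc (nm c : ℝ) * ∑ b' ∈ (primBall (X / nm c)).filter (Sm 2), T0 b'
      ≤ nm c * (C * (Y / nm c) ^ (19 / 20 : ℝ)) := mul_le_mul_of_nonneg_left h2 hc0.le
    _ = C * ((nm c : ℝ) / (nm c : ℝ) ^ (19 / 20 : ℝ)) * Y ^ (19 / 20 : ℝ) := by
        rw [Real.div_rpow hY0 hc0.le]; ring
    _ = C * (nm c : ℝ) ^ (1 / 20 : ℝ) * Y ^ (19 / 20 : ℝ) := by
        congr 2
        rw [show (1 / 20 : ℝ) = 1 - 19 / 20 by norm_num, Real.rpow_sub hc0, Real.rpow_one]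

/-! ### the amplifier sum -/

lemma mem_prS {κ : ℝ} {p : Eis} : p ∈ prS κ ↔ (nm p ≤ ⌊Real.exp (κ + 1)⌋₊ ∧ IsPrim p) ∧ Prime p := by
  classical
  unfold prS
  rw [Finset.mem_filter, mem_primBall]

lemma nm_le_of_mem_prS {κ : ℝ} {p : Eis} (h : p ∈ prS κ) : (nm p : ℝ) ≤ Real.exp (κ + 1) :=
  (Nat.cast_le.mpr (mem_prS.mp h).1.1).trans (Nat.floor_le (Real.exp_pos _).le)

lemma card_prS_le (κ : ℝ) : ((prS κ).card : ℝ) ≤ 100 * Real.exp (κ + 1) := by
  classical
  have h1 : ((prS κ).card : ℝ) ≤ ((primBall ⌊Real.exp (κ + 1)⌋₊).card : ℝ) := by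
    unfold prS
    exact_mod_cast Finset.card_filter_le _ _
  refine h1.trans ((Lat277.card_primBall_le _).trans ?_)
  exact mul_le_mul_of_nonneg_left (Nat.floor_le (Real.exp_pos _).le) (by norm_num)

lemma nm_prod' {ι : Type*} (s : Finset ι) (f : ι → Eis) :
    nm (∏ i ∈ s, f i) = ∏ i ∈ s, nm (f i) := by
  classical
  induction s using Finset.induction_on with
  | empty => simp
  | insert a s ha ih => rw [Finset.prod_insert ha, Finset.prod_insert ha, nm_mul, ih]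

lemma amp_sum_le (r : ℕ) (y : ℝ) {h : ℝ → ℂ} {B : ℝ} (hB : ∀ u, ‖h u‖ ≤ B) {a : ℝ} (ha : 0 ≤ a) :
    ∃ D : ℝ, 0 ≤ D ∧ ∀ Q₀ : ℝ, 1 ≤ Q₀ → ∀ J : Finset (Fin r),
      ∑ p ∈ tup r y Q₀ J, (∏ i : J, ‖h (Real.log (nm (p i)) - kap r y Q₀ i)‖) *
        (nm (∏ i : J, p i) : ℝ) ^ a ≤ D * CJ r y Q₀ J ^ (1 + a) := by
  have hB0 : 0 ≤ B := (norm_nonneg _).trans (hB 0)
  set E : ℝ := 100 * B * Real.exp ((1 + a) * (3 * r + 1)) with hE
  have hE0 : 0 ≤ E := by positivity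
  refine ⟨(max 1 E) ^ r, by positivity, fun Q₀ hQ₀ J => ?_⟩
  have hQ0 : 0 < Q₀ := by linarith
  have hterm : ∀ i : J, ∑ p ∈ prS (kap r y Q₀ i), ‖h (Real.log (nm p) - kap r y Q₀ i)‖ *
      (nm p : ℝ) ^ a ≤ E * Q₀ ^ ((y / r) * (1 + a)) := by
    intro i
    set κ := kap r y Q₀ i with hκ
    have h1 : ∑ p ∈ prS κ, ‖h (Real.log (nm p) - κ)‖ * (nm p : ℝ) ^ a ≤
        ∑ p ∈ prS κ, B * (Real.exp (κ + 1)) ^ a := by
      refine Finset.sum_le_sum fun p hp => ?_
      refine mul_le_mul (hB _) ?_ (by positivity) hB0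
      exact Real.rpow_le_rpow (Nat.cast_nonneg _) (nm_le_of_mem_prS hp) ha
    rw [Finset.sum_const, nsmul_eq_mul] at h1
    refine h1.trans ?_
    have h2 : ((prS κ).card : ℝ) * (B * (Real.exp (κ + 1)) ^ a) ≤
        (100 * Real.exp (κ + 1)) * (B * (Real.exp (κ + 1)) ^ a) :=
      mul_le_mul_of_nonneg_right (card_prS_le κ) (by positivity)
    refine h2.trans ?_
    have h3 : Real.exp (κ + 1) * (Real.exp (κ + 1)) ^ a = Real.exp ((1 + a) * (κ + 1)) := by
      rw [← Real.exp_mul, ← Real.exp_add]; congr 1; ring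
    have h4 : (100 * Real.exp (κ + 1)) * (B * (Real.exp (κ + 1)) ^ a) =
        100 * B * Real.exp ((1 + a) * (κ + 1)) := by rw [← h3]; ring
    rw [h4, hE, mul_assoc (100 * B)]
    refine mul_le_mul_of_nonneg_left ?_ (by positivity)
    have h5 : Q₀ ^ ((y / r) * (1 + a)) = Real.exp ((1 + a) * (y / r * Real.log Q₀)) := by
      rw [Real.rpow_def_of_pos hQ0]; congr 1; ring
    rw [h5, ← Real.exp_add]
    apply Real.exp_le_exp.mpr
    have h6 : ((i : Fin r) : ℝ) ≤ r := by exact_mod_cast (i : Fin r).isLt.le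
    have h7 : κ = y / r * Real.log Q₀ + 3 * ((i : Fin r) : ℝ) := rfl
    rw [h7]
    nlinarith
  have hprod : ∑ p ∈ tup r y Q₀ J, (∏ i : J, ‖h (Real.log (nm (p i)) - kap r y Q₀ i)‖) *
        (nm (∏ i : J, p i) : ℝ) ^ a =
      ∏ i : J, ∑ p ∈ prS (kap r y Q₀ i), ‖h (Real.log (nm p) - kap r y Q₀ i)‖ * (nm p : ℝ) ^ a := by
    rw [Finset.prod_univ_sum]
    refine Finset.sum_congr rfl fun p _ => ?_
    rw [Finset.prod_mul_distrib, nm_prod']
    push_cast
    rw [Real.finset_prod_rpow _ _ (fun i _ => Nat.cast_nonneg _)]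
  rw [hprod]
  calc ∏ i : J, ∑ p ∈ prS (kap r y Q₀ i), ‖h (Real.log (nm p) - kap r y Q₀ i)‖ * (nm p : ℝ) ^ a
      ≤ ∏ _i : J, E * Q₀ ^ ((y / r) * (1 + a)) :=
        Finset.prod_le_prod (fun i _ => Finset.sum_nonneg fun p _ => by positivity)
          (fun i _ => hterm i)
    _ = E ^ J.card * (Q₀ ^ ((y / r) * (1 + a))) ^ J.card := by
        rw [Finset.prod_const, Finset.card_univ, Fintype.card_coe, mul_pow]
    _ ≤ (max 1 E) ^ r * CJ r y Q₀ J ^ (1 + a) := by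
        refine mul_le_mul ?_ (le_of_eq ?_) (by positivity) (by positivity)
        · have hJ : J.card ≤ r := by simpa using Finset.card_le_univ J
          calc E ^ J.card ≤ (max 1 E) ^ J.card := pow_le_pow_left₀ hE0 (le_max_right _ _) _
            _ ≤ (max 1 E) ^ r := pow_le_pow_right₀ (le_max_left _ _) hJ
        · unfold CJ
          rw [← Real.rpow_natCast, ← Real.rpow_mul hQ0.le, ← Real.rpow_mul hQ0.le]
          congr 1; ring

/-! ### the amplifier elements -/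

lemma nm_two : nm (2 : Eis) = 4 := by
  have : (2 : Eis) = ((2 : ℕ) : Eis) := by norm_num
  rw [this, nm_natCast]; norm_num

/-- for a nonzero term all `p i` are primary primes, prime to `2`, and distinct -/
theorem prod_good' {h : ℝ → ℂ} (hh : HW h) {r : ℕ}
    {y Q₀ : ℝ} {J : Finset (Fin r)}
    {p : ∀ _ : J, Eis} (hp : p ∈ tup r y Q₀ J)
    (hne : ∏ i : J, h (Real.log (nm (p i)) - kap r y Q₀ i) ≠ 0)
    (hbig : ∀ i : J, IsPP (p i) → |Real.log (nm (p i)) - kap r y Q₀ i| ≤ 1 → 4 < nm (p i)) :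
    Sm 2 (∏ i : J, p i) ∧ Squarefree (∏ i : J, p i) := by
  classical
  have hmem : ∀ i : J, p i ∈ prS (kap r y Q₀ i) := fun i => by
    unfold tup at hp
    exact Fintype.mem_piFinset.mp hp i
  have hPP : ∀ i : J, IsPP (p i) := fun i => ⟨(mem_prS.mp (hmem i)).1.2, (mem_prS.mp (hmem i)).2⟩
  have hh0 : ∀ i : J, |Real.log (nm (p i)) - kap r y Q₀ i| ≤ 1 := by
    intro i
    exact hh.supp _ (Finset.prod_ne_zero_iff.mp hne i (Finset.mem_univ i))
  have hinj : Function.Injective p := by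
    intro i j hij
    by_contra hne'
    have h1 := abs_le.mp (hh0 i)
    have h2 := abs_le.mp (hh0 j)
    rw [← hij] at h2
    have hval : ((i : Fin r) : ℕ) ≠ ((j : Fin r) : ℕ) := by
      intro h
      exact hne' (Subtype.ext (Fin.ext h))
    have h3 : kap r y Q₀ i = y / r * Real.log Q₀ + 3 * (((i : Fin r) : ℕ) : ℝ) := rfl
    have h4 : kap r y Q₀ j = y / r * Real.log Q₀ + 3 * (((j : Fin r) : ℕ) : ℝ) := rfl
    rw [h3] at h1
    rw [h4] at h2
    rcases lt_or_gt_of_ne hval with hlt | hlt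
    · have : (((i : Fin r) : ℕ) : ℝ) + 1 ≤ (((j : Fin r) : ℕ) : ℝ) := by exact_mod_cast hlt
      linarith [h1.1, h1.2, h2.1, h2.2]
    · have : (((j : Fin r) : ℕ) : ℝ) + 1 ≤ (((i : Fin r) : ℕ) : ℝ) := by exact_mod_cast hlt
      linarith [h1.1, h1.2, h2.1, h2.2]
  have hSm : ∀ i : J, Sm 2 (p i) := by
    intro i
    refine ⟨(hPP i).1, ?_⟩
    rw [(hPP i).isCoprime_iff]
    intro hd
    have := nm_le_of_dvd (by decide : (2 : Eis) ≠ 0) hd
    rw [nm_two] at this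
    have := hbig i (hPP i) (hh0 i)
    omega
  have himg : ∏ i : J, p i = ∏ q ∈ Finset.univ.image p, q := by
    rw [Finset.prod_image (fun x _ y _ hxy => hinj hxy)]
  constructor
  · refine Finset.prod_induction _ (Sm 2) (fun a b ha hb => ha.mul hb) (Sm.one 2)
      (fun i _ => hSm i)
  · rw [himg]
    refine PPSet.squarefree_prod ?_
    intro q hq
    obtain ⟨i, _, rfl⟩ := Finset.mem_image.mp hq
    exact hPP i

/-- for a nonzero term all `p i` are primary primes, prime to `2`, and distinct -/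
theorem prod_good {M : Eis} (h2M : (2 : Eis) ∣ M) (hM0 : M ≠ 0) {h : ℝ → ℂ} (hh : HW h) {r : ℕ}
    {y Q₀ : ℝ} (hQ₀ : 1 ≤ Q₀) (hMQ : (nm M : ℝ) < Q₀ ^ (y / r) / 9) {J : Finset (Fin r)}
    {p : ∀ _ : J, Eis} (hp : p ∈ tup r y Q₀ J)
    (hne : ∏ i : J, h (Real.log (nm (p i)) - kap r y Q₀ i) ≠ 0) :
    Sm 2 (∏ i : J, p i) ∧ Squarefree (∏ i : J, p i) := by
  refine prod_good' hh hp hne ?_
  have hQ0 : 0 < Q₀ := by linarith
  have hnm4 : (4 : ℝ) ≤ nm M := by
    have := nm_le_of_dvd hM0 h2M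
    rw [nm_two] at this
    exact_mod_cast this
  intro i hPP hh0
  have h1 := abs_le.mp hh0
  have h2 : kap r y Q₀ i = y / r * Real.log Q₀ + 3 * (((i : Fin r) : ℕ) : ℝ) := rfl
  have h3 : (36 : ℝ) < Q₀ ^ (y / r) := by linarith
  have h4 : Real.log 36 < y / r * Real.log Q₀ := by
    rw [← Real.log_rpow hQ0]
    exact Real.log_lt_log (by norm_num) h3
  have hp0 : (0 : ℝ) < nm (p i) := by
    exact_mod_cast nm_pos.mpr hPP.ne_zero
  have h5 : Real.log 4 < Real.log (nm (p i)) := by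
    have h6 : Real.log 36 = Real.log 4 + Real.log 9 := by
      rw [← Real.log_mul (by norm_num) (by norm_num)]; norm_num
    have h7 : 1 < Real.log 9 := by
      rw [Real.lt_log_iff_exp_lt (by norm_num)]
      linarith [Real.exp_one_lt_d9]
    have h8 : (0 : ℝ) ≤ (((i : Fin r) : ℕ) : ℝ) := Nat.cast_nonneg _
    linarith [h1.1]
  have := (Real.log_lt_log_iff (by norm_num) hp0).mp h5
  exact_mod_cast this

/-- support and bound of the weight `V` -/
lemma SW.bounds {V : ℝ → ℂ} (hV : SW V) : ∃ B R : ℝ, 0 ≤ B ∧ 1 ≤ R ∧ (∀ x, ‖V x‖ ≤ B) ∧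
    ∀ x, V x ≠ 0 → x ≤ R := by
  obtain ⟨B, hB⟩ := hV.smooth.continuous.bounded_above_of_compact_support hV.cpt
  obtain ⟨R, hR⟩ := hV.cpt.isCompact.bddAbove
  refine ⟨B, max 1 R, (norm_nonneg _).trans (hB 0), le_max_left _ _, hB, fun x hx => ?_⟩
  exact (hR (subset_tsupport V hx)).trans (le_max_right _ _)

/-- **L4'** (`M ≠ 0`). -/
theorem natZ (H : TkAlg) (r : ℕ) (y : ℝ) (h : ℝ → ℂ) (hh : HW h) (V : ℝ → ℂ) (hV : SW V) :
    ∃ C : ℝ, 0 ≤ C ∧
    ∀ (M : Eis) (f g : Eis → ℂ), (2 : Eis) ∣ M → M ≠ 0 → (∀ b, ‖f b‖ ≤ 1) → (∀ b, ‖g b‖ ≤ 1) →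
    ∀ (Q₀ Q : ℝ), 1 ≤ Q → Q ≤ Q₀ → (nm M : ℝ) < Q₀ ^ (y / r) / 9 →
      ∀ (J : Finset (Fin r)),
      ‖NSum h r y Q₀ J M f g V Q 0‖ ≤
        C * (CJ r y Q₀ J ^ 2 * (Q / CJ r y Q₀ J) ^ (19 / 20 : ℝ)) := by
  classical
  obtain ⟨Bh, hBh⟩ := hh.bounded
  obtain ⟨B, R, hB0, hR1, hB, hR⟩ := SW.bounds hV
  obtain ⟨C₁, hC₁0, hC₁⟩ := sum_tk_le H
  obtain ⟨D, hD0, hD⟩ := amp_sum_le r y hBh (a := 1 / 20) (by norm_num)
  refine ⟨D * (B * C₁ * R ^ (19 / 20 : ℝ)), by positivity, ?_⟩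
  intro M f g h2M hM0 hf hg Q₀ Q hQ hQQ hMQ J
  have hQ₀ : 1 ≤ Q₀ := hQ.trans hQQ
  have hQ0 : 0 < Q₀ := by linarith
  have hQp : 0 < Q := by linarith
  have hCJ0 : 0 < CJ r y Q₀ J := Real.rpow_pos_of_pos hQ0 _
  -- the inner sum
  have hinner : ∀ c : Eis, Sm 2 c → Squarefree c →
      ‖∑' b : Eis, if Sm M b then f b * tk 0 b c * V (nm b / Q) else 0‖ ≤
        B * C₁ * R ^ (19 / 20 : ℝ) * Q ^ (19 / 20 : ℝ) * (nm c : ℝ) ^ (1 / 20 : ℝ) := by
    intro c hc hsq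
    set X := ⌊R * Q⌋₊ with hX
    have hXY : (X : ℝ) ≤ R * Q := Nat.floor_le (by positivity)
    have hsupp : ∀ b ∉ (primBall X).filter (Sm 2),
        (if Sm M b then f b * tk 0 b c * V (nm b / Q) else 0) = 0 := by
      intro b hb
      by_cases hS : Sm M b
      · rw [if_pos hS]
        by_cases hV0 : V (nm b / Q) = 0
        · rw [hV0, mul_zero]
        · exfalso
          apply hb
          have h1 := hR _ hV0
          rw [div_le_iff₀ hQp] at h1
          rw [Finset.mem_filter, mem_primBall]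
          refine ⟨⟨Nat.le_floor h1, hS.1⟩, hS.1, ?_⟩
          exact hS.2.of_isCoprime_of_dvd_right h2M
      · rw [if_neg hS]
    rw [tsum_eq_sum hsupp]
    calc ‖∑ b ∈ (primBall X).filter (Sm 2),
          (if Sm M b then f b * tk 0 b c * V (nm b / Q) else 0)‖
        ≤ ∑ b ∈ (primBall X).filter (Sm 2), ‖tk 0 b c‖ * B := by
          refine (norm_sum_le _ _).trans (Finset.sum_le_sum fun b _ => ?_)
          by_cases hS : Sm M b
          · rw [if_pos hS, norm_mul, norm_mul]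
            refine mul_le_mul ?_ (hB _) (norm_nonneg _) (norm_nonneg _)
            calc ‖f b‖ * ‖tk 0 b c‖ ≤ 1 * ‖tk 0 b c‖ :=
                  mul_le_mul_of_nonneg_right (hf b) (norm_nonneg _)
              _ = ‖tk 0 b c‖ := one_mul _
          · rw [if_neg hS, norm_zero]; positivity
      _ = (∑ b ∈ (primBall X).filter (Sm 2), ‖tk 0 b c‖) * B := by rw [Finset.sum_mul]
      _ ≤ (C₁ * (nm c : ℝ) ^ (1 / 20 : ℝ) * (R * Q) ^ (19 / 20 : ℝ)) * B :=
          mul_le_mul_of_nonneg_right (hC₁ c hc hsq X (R * Q) hXY) hB0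
      _ = _ := by rw [Real.mul_rpow (by positivity) hQp.le]; ring
  unfold NSum
  calc ‖∑ p ∈ tup r y Q₀ J, (∏ i : J, h (Real.log (nm (p i)) - kap r y Q₀ i)) *
        g (∏ i : J, p i) *
        ∑' b : Eis, if Sm M b then f b * tk 0 b (∏ i : J, p i) * V (nm b / Q) else 0‖
      ≤ ∑ p ∈ tup r y Q₀ J, ((∏ i : J, ‖h (Real.log (nm (p i)) - kap r y Q₀ i)‖) *
          (nm (∏ i : J, p i) : ℝ) ^ (1 / 20 : ℝ)) *
            (B * C₁ * R ^ (19 / 20 : ℝ) * Q ^ (19 / 20 : ℝ)) := by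
        refine (norm_sum_le _ _).trans (Finset.sum_le_sum fun p hp => ?_)
        by_cases hne : ∏ i : J, h (Real.log (nm (p i)) - kap r y Q₀ i) = 0
        · rw [hne, zero_mul, zero_mul, norm_zero]; positivity
        · obtain ⟨hS, hsq⟩ := prod_good h2M hM0 hh hQ₀ hMQ hp hne
          rw [norm_mul, norm_mul, norm_prod]
          calc (∏ i : J, ‖h (Real.log (nm (p i)) - kap r y Q₀ i)‖) * ‖g (∏ i : J, p i)‖ *
                ‖∑' b : Eis, if Sm M b then f b * tk 0 b (∏ i : J, p i) * V (nm b / Q) else 0‖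
              ≤ (∏ i : J, ‖h (Real.log (nm (p i)) - kap r y Q₀ i)‖) * 1 *
                (B * C₁ * R ^ (19 / 20 : ℝ) * Q ^ (19 / 20 : ℝ) *
                  (nm (∏ i : J, p i) : ℝ) ^ (1 / 20 : ℝ)) := by
                refine mul_le_mul ?_ (hinner _ hS hsq) (norm_nonneg _) (by positivity)
                exact mul_le_mul_of_nonneg_left (hg _) (by positivity)
            _ = _ := by ring
    _ = (∑ p ∈ tup r y Q₀ J, (∏ i : J, ‖h (Real.log (nm (p i)) - kap r y Q₀ i)‖) *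
          (nm (∏ i : J, p i) : ℝ) ^ (1 / 20 : ℝ)) *
            (B * C₁ * R ^ (19 / 20 : ℝ) * Q ^ (19 / 20 : ℝ)) := by rw [Finset.sum_mul]
    _ ≤ (D * CJ r y Q₀ J ^ (1 + 1 / 20 : ℝ)) *
            (B * C₁ * R ^ (19 / 20 : ℝ) * Q ^ (19 / 20 : ℝ)) :=
        mul_le_mul_of_nonneg_right (hD Q₀ hQ₀ J) (by positivity)
    _ = D * (B * C₁ * R ^ (19 / 20 : ℝ)) *
          (CJ r y Q₀ J ^ 2 * (Q / CJ r y Q₀ J) ^ (19 / 20 : ℝ)) := by
        have e : CJ r y Q₀ J ^ (1 + 1 / 20 : ℝ) =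
            CJ r y Q₀ J ^ 2 / CJ r y Q₀ J ^ (19 / 20 : ℝ) := by
          rw [show (1 + 1 / 20 : ℝ) = 2 - 19 / 20 by norm_num, Real.rpow_sub hCJ0]
          norm_num
        rw [e, Real.div_rpow hQp.le hCJ0.le]
        ring

/-! ### the degenerate case `M = 0` -/

lemma sm_zero_iff {b : Eis} : Sm 0 b ↔ b = 1 := by
  constructor
  · rintro ⟨h1, h2⟩
    rw [isCoprime_zero_right] at h2
    exact isPrim_eq_one_of_isUnit h1 h2
  · rintro rfl
    exact Sm.one 0

lemma sy_zero_left' {c : Eis} (hc : IsPrim c) (h1 : c ≠ 1) : sy 0 c = 0 := by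
  rw [Sym645.sy_eq_zero_iff (Sym645.prim_nm_mod hc)]
  intro h
  rw [isCoprime_zero_left] at h
  exact h1 (isPrim_eq_one_of_isUnit hc h)

/-- the case `M = 0`. -/
theorem natZ_zero (H : TkAlg) (r : ℕ) (y : ℝ) (h : ℝ → ℂ) (hh : HW h) (V : ℝ → ℂ) (hV : SW V) :
    ∃ C : ℝ, 0 ≤ C ∧
    ∀ (f g : Eis → ℂ), (∀ b, ‖f b‖ ≤ 1) → (∀ b, ‖g b‖ ≤ 1) →
    ∀ (Q₀ Q : ℝ), 1 ≤ Q → Q ≤ Q₀ → ∀ (J : Finset (Fin r)),
      ‖NSum h r y Q₀ J 0 f g V Q 0‖ ≤
        C * (CJ r y Q₀ J ^ 2 * (Q / CJ r y Q₀ J) ^ (19 / 20 : ℝ)) := by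
  classical
  obtain ⟨Bh, hBh⟩ := hh.bounded
  obtain ⟨B, R, hB0, hR1, hB, hR⟩ := SW.bounds hV
  obtain ⟨D, hD0, hD⟩ := amp_sum_le r y hBh (a := 0) le_rfl
  set T : ℝ := 3 * r + 3 with hT
  set N0 : ℕ := ⌊(Real.exp (T + 3 * r + 1)) ^ r⌋₊ with hN0
  set D2 : ℝ := ∑ c ∈ ball N0, ‖tk 0 1 c‖ with hD2
  have hD20 : 0 ≤ D2 := Finset.sum_nonneg fun _ _ => norm_nonneg _
  refine ⟨D * (D2 * B) * Real.exp (T * r) + B, by positivity, ?_⟩
  intro f g hf hg Q₀ Q hQ hQQ J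
  have hQ₀ : 1 ≤ Q₀ := hQ.trans hQQ
  have hQ0 : 0 < Q₀ := by linarith
  have hQp : 0 < Q := by linarith
  have hCJ0 : 0 < CJ r y Q₀ J := Real.rpow_pos_of_pos hQ0 _
  have hCJe : CJ r y Q₀ J = Real.exp (y / r * Real.log Q₀ * J.card) := by
    unfold CJ
    rw [Real.rpow_def_of_pos hQ0]; congr 1; ring
  have hJr : (J.card : ℝ) ≤ r := by
    have : J.card ≤ r := by simpa using Finset.card_le_univ J
    exact_mod_cast this
  have htarget : CJ r y Q₀ J ^ (21 / 20 : ℝ) ≤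
      CJ r y Q₀ J ^ 2 * (Q / CJ r y Q₀ J) ^ (19 / 20 : ℝ) := by
    rw [Real.div_rpow hQp.le hCJ0.le, show (21 / 20 : ℝ) = 2 - 19 / 20 by norm_num,
      Real.rpow_sub hCJ0]
    have h1 : CJ r y Q₀ J ^ (2 : ℝ) = CJ r y Q₀ J ^ 2 := by norm_num
    rw [h1, mul_div_assoc']
    refine div_le_div_of_nonneg_right ?_ (by positivity)
    have h2 : 1 ≤ Q ^ (19 / 20 : ℝ) := Real.one_le_rpow hQ (by norm_num)
    have h3 : 0 ≤ CJ r y Q₀ J ^ 2 := by positivity
    nlinarith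
  have htarget0 : 0 ≤ CJ r y Q₀ J ^ 2 * (Q / CJ r y Q₀ J) ^ (19 / 20 : ℝ) := by positivity
  have hinner : ∀ c : Eis, ‖∑' b : Eis, if Sm 0 b then f b * tk 0 b c * V (nm b / Q) else 0‖ ≤
      ‖tk 0 1 c‖ * B := by
    intro c
    rw [tsum_eq_single 1]
    · rw [if_pos (Sm.one 0), norm_mul, norm_mul]
      refine mul_le_mul ?_ (hB _) (norm_nonneg _) (norm_nonneg _)
      calc ‖f 1‖ * ‖tk 0 1 c‖ ≤ 1 * ‖tk 0 1 c‖ :=
            mul_le_mul_of_nonneg_right (hf 1) (norm_nonneg _)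
        _ = ‖tk 0 1 c‖ := one_mul _
    · intro b hb
      rw [if_neg]
      rw [sm_zero_iff]
      exact hb
  have hsum : ‖NSum h r y Q₀ J 0 f g V Q 0‖ ≤ ∑ p ∈ tup r y Q₀ J,
      (∏ i : J, ‖h (Real.log (nm (p i)) - kap r y Q₀ i)‖) * (‖tk 0 1 (∏ i : J, p i)‖ * B) := by
    unfold NSum
    refine (norm_sum_le _ _).trans (Finset.sum_le_sum fun p _ => ?_)
    rw [norm_mul, norm_mul, norm_prod]
    refine mul_le_mul ?_ (hinner _) (norm_nonneg _) (by positivity)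
    calc (∏ i : J, ‖h (Real.log (nm (p i)) - kap r y Q₀ i)‖) * ‖g (∏ i : J, p i)‖
        ≤ (∏ i : J, ‖h (Real.log (nm (p i)) - kap r y Q₀ i)‖) * 1 :=
          mul_le_mul_of_nonneg_left (hg _) (by positivity)
      _ = _ := mul_one _
  refine hsum.trans ?_
  by_cases hA : |y / r * Real.log Q₀| ≤ T
  · -- everything is bounded
    obtain ⟨hA1, hA2⟩ := abs_le.mp hA
    have hcN : ∀ p ∈ tup r y Q₀ J, ‖tk 0 1 (∏ i : J, p i)‖ ≤ D2 := by
      intro p hp
      refine Finset.single_le_sum (f := fun c => ‖tk 0 1 c‖) (fun _ _ => norm_nonneg _) ?_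
      rw [mem_ball, nm_prod']
      apply Nat.le_floor
      push_cast
      calc ∏ i : J, (nm (p i) : ℝ) ≤ ∏ _i : J, Real.exp (T + 3 * r + 1) := by
            refine Finset.prod_le_prod (fun i _ => Nat.cast_nonneg _) (fun i _ => ?_)
            have hmem : p i ∈ prS (kap r y Q₀ i) := by
              unfold tup at hp
              exact Fintype.mem_piFinset.mp hp i
            refine (nm_le_of_mem_prS hmem).trans ?_
            apply Real.exp_le_exp.mpr
            have h6 : ((i : Fin r) : ℝ) ≤ r := by exact_mod_cast (i : Fin r).isLt.le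
            have h7 : kap r y Q₀ i = y / r * Real.log Q₀ + 3 * ((i : Fin r) : ℝ) := rfl
            rw [h7]
            linarith
        _ = Real.exp (T + 3 * r + 1) ^ J.card := by
            rw [Finset.prod_const, Finset.card_univ, Fintype.card_coe]
        _ ≤ Real.exp (T + 3 * r + 1) ^ r := by
            refine pow_le_pow_right₀ ?_ (by simpa using Finset.card_le_univ J)
            apply Real.one_le_exp
            positivity
    have h0 := hD Q₀ hQ₀ J
    simp only [Real.rpow_zero, mul_one, add_zero, Real.rpow_one] at h0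
    calc ∑ p ∈ tup r y Q₀ J, (∏ i : J, ‖h (Real.log (nm (p i)) - kap r y Q₀ i)‖) *
          (‖tk 0 1 (∏ i : J, p i)‖ * B)
        ≤ ∑ p ∈ tup r y Q₀ J, (∏ i : J, ‖h (Real.log (nm (p i)) - kap r y Q₀ i)‖) *
          (D2 * B) := by
          refine Finset.sum_le_sum fun p hp => ?_
          refine mul_le_mul_of_nonneg_left ?_ (by positivity)
          exact mul_le_mul_of_nonneg_right (hcN p hp) hB0
      _ = (∑ p ∈ tup r y Q₀ J, (∏ i : J, ‖h (Real.log (nm (p i)) - kap r y Q₀ i)‖)) *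
          (D2 * B) := (Finset.sum_mul _ _ _).symm
      _ ≤ (D * CJ r y Q₀ J) * (D2 * B) := mul_le_mul_of_nonneg_right h0 (by positivity)
      _ = D * (D2 * B) * CJ r y Q₀ J := by ring
      _ ≤ D * (D2 * B) * (Real.exp (T * r) * CJ r y Q₀ J ^ (21 / 20 : ℝ)) := by
          refine mul_le_mul_of_nonneg_left ?_ (by positivity)
          rw [hCJe, ← Real.exp_mul, ← Real.exp_add]
          apply Real.exp_le_exp.mpr
          have hx : -(T * r) ≤ y / r * Real.log Q₀ * J.card := by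
            have hJ0 : (0 : ℝ) ≤ J.card := Nat.cast_nonneg _
            have hT0 : 0 ≤ T := by positivity
            nlinarith
          have hT0 : 0 ≤ T * r := by positivity
          linarith
      _ ≤ D * (D2 * B) * (Real.exp (T * r) *
            (CJ r y Q₀ J ^ 2 * (Q / CJ r y Q₀ J) ^ (19 / 20 : ℝ))) := by
          refine mul_le_mul_of_nonneg_left ?_ (by positivity)
          exact mul_le_mul_of_nonneg_left htarget (Real.exp_pos _).le
      _ ≤ _ := by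
          have : 0 ≤ B * (CJ r y Q₀ J ^ 2 * (Q / CJ r y Q₀ J) ^ (19 / 20 : ℝ)) := by positivity
          nlinarith
  · -- the prime `-2` does not occur
    rcases Finset.eq_empty_or_nonempty J with rfl | hJ
    · have hCJ1 : CJ r y Q₀ ∅ = 1 := by unfold CJ; simp
      have h1 : ∀ p ∈ tup r y Q₀ (∅ : Finset (Fin r)),
          (∏ i : (∅ : Finset (Fin r)), ‖h (Real.log (nm (p i)) - kap r y Q₀ i)‖) *
          (‖tk 0 1 (∏ i : (∅ : Finset (Fin r)), p i)‖ * B) ≤ B := by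
        intro p _
        have e1 : (∏ i : (∅ : Finset (Fin r)), p i) = 1 := Finset.prod_of_isEmpty _
        have e2 : (∏ i : (∅ : Finset (Fin r)), ‖h (Real.log (nm (p i)) - kap r y Q₀ i)‖) = 1 :=
          Finset.prod_of_isEmpty _
        rw [e1, e2, H.one]
        simp
      have h2 : (tup r y Q₀ (∅ : Finset (Fin r))).card = 1 := by
        unfold tup
        rw [Fintype.card_piFinset]
        exact Finset.prod_of_isEmpty _
      refine (Finset.sum_le_card_nsmul _ _ B h1).trans ?_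
      rw [h2, one_nsmul]
      rw [hCJ1, Real.one_rpow] at htarget
      rw [hCJ1]
      have : 0 ≤ D * (D2 * B) * Real.exp (T * r) := by positivity
      nlinarith
    · have h0 : ∑ p ∈ tup r y Q₀ J,
          (∏ i : J, ‖h (Real.log (nm (p i)) - kap r y Q₀ i)‖) *
            (‖tk 0 1 (∏ i : J, p i)‖ * B) = 0 := by
        refine Finset.sum_eq_zero fun p hp => ?_
        by_cases hne : ∏ i : J, h (Real.log (nm (p i)) - kap r y Q₀ i) = 0
        · have : ∏ i : J, ‖h (Real.log (nm (p i)) - kap r y Q₀ i)‖ = 0 := by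
            rw [← norm_prod, hne, norm_zero]
          rw [this, zero_mul]
        · have hg' := prod_good' hh hp hne (by
            intro i hPP hh0
            by_contra hlt
            have h4 := hPP.four_le_nm
            have h4' : nm (p i) = 4 := by omega
            apply hA
            have h1 := abs_le.mp hh0
            rw [h4'] at h1
            have h2 : kap r y Q₀ i = y / r * Real.log Q₀ + 3 * (((i : Fin r) : ℕ) : ℝ) := rfl
            rw [h2] at h1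
            have h6 : (((i : Fin r) : ℕ) : ℝ) ≤ r := by exact_mod_cast (i : Fin r).isLt.le
            have h8 : (0 : ℝ) ≤ (((i : Fin r) : ℕ) : ℝ) := Nat.cast_nonneg _
            have h9 : Real.log ((4 : ℕ) : ℝ) ≤ 2 := by
              rw [Real.log_le_iff_le_exp (by norm_num)]
              have h10 : (2 : ℝ) ≤ Real.exp 1 := by linarith [Real.exp_one_gt_d9]
              calc ((4 : ℕ) : ℝ) = 2 * 2 := by norm_num
                _ ≤ Real.exp 1 * Real.exp 1 := by nlinarith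
                _ = Real.exp 2 := by rw [← Real.exp_add]; norm_num
            have h11 : 0 ≤ Real.log ((4 : ℕ) : ℝ) := Real.log_natCast_nonneg 4
            rw [abs_le, hT]
            generalize y / r * Real.log Q₀ = Y at h1 ⊢
            generalize (((i : Fin r) : ℕ) : ℝ) = ii at h1 h6 h8
            generalize Real.log ((4 : ℕ) : ℝ) = l4 at h1 h9 h11
            obtain ⟨h1a, h1b⟩ := h1
            constructor
            · linarith
            · linarith)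
          have hne1 : ∏ i : J, p i ≠ 1 := by
            obtain ⟨i, hi⟩ := hJ
            intro h1
            have hd : p ⟨i, hi⟩ ∣ ∏ i : J, p i := Finset.dvd_prod_of_mem _ (Finset.mem_univ _)
            rw [h1] at hd
            have hmem : p ⟨i, hi⟩ ∈ prS (kap r y Q₀ i) := by
              unfold tup at hp
              exact Fintype.mem_piFinset.mp hp ⟨i, hi⟩
            exact (mem_prS.mp hmem).2.not_isUnit (isUnit_of_dvd_one hd)
          rw [H.c1 0 _ hg'.1 hg'.2, sy_zero_left' hg'.1.1 hne1]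
          simp
      rw [h0]
      positivity

/-- **L4'** -/
theorem natZ_all (H : TkAlg) (r : ℕ) (y : ℝ) : NatZ r y := by
  intro h hh V hV ε hε
  obtain ⟨C₁, hC₁0, hC₁⟩ := natZ H r y h hh V hV
  obtain ⟨C₂, hC₂0, hC₂⟩ := natZ_zero H r y h hh V hV
  refine ⟨C₁ + C₂, by positivity, ?_⟩
  intro M f g h2M hf hg Q₀ Q hQ hQQ hMQ J
  have hQ₀ : 1 ≤ Q₀ := hQ.trans hQQ
  have hQ0 : 0 < Q₀ := by linarith
  have hCJ0 : 0 < CJ r y Q₀ J := Real.rpow_pos_of_pos hQ0 _
  have hε1 : 1 ≤ Q₀ ^ ε := Real.one_le_rpow hQ₀ hε.le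
  have hX : 0 ≤ CJ r y Q₀ J ^ 2 * (Q / CJ r y Q₀ J) ^ (19 / 20 : ℝ) := by positivity
  have hb : ‖NSum h r y Q₀ J M f g V Q 0‖ ≤
      (C₁ + C₂) * (CJ r y Q₀ J ^ 2 * (Q / CJ r y Q₀ J) ^ (19 / 20 : ℝ)) := by
    by_cases hM0 : M = 0
    · subst hM0
      refine (hC₂ f g hf hg Q₀ Q hQ hQQ J).trans ?_
      exact mul_le_mul_of_nonneg_right (by linarith) hX
    · refine (hC₁ M f g h2M hM0 hf hg Q₀ Q hQ hQQ hMQ J).trans ?_
      exact mul_le_mul_of_nonneg_right (by linarith) hX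
  refine hb.trans (mul_le_mul_of_nonneg_right ?_ hX)
  nlinarith

end Crest.Agent.R017.NatZ571
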