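import Crest.Agent.R017.FE2_47
import Crest.Agent.R012.GaussInst_880
import Crest.Agent.R012.Mob_705

/-!
# Row 17, BL4: Poisson summation for the basic sums (helper858)

`kp b c x = (x/c)_3 conj (x/b)_3`.  For primary squarefree `g b'`, `g c'` (`b', c'` coprime), prime to
`M` and `n`, the sum over the primary `x` prime to `n` of `η(x) (x/gc')_3 conj (x/gb')_3 f(x)`, times
`conj G(g c') G(g b')`, is transformed exactly: Gauss sums and cross symbols cancel.
-/

set_option autoImplicit false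

noncomputable section

open Complex
open scoped SchwartzMap ComplexConjugate

namespace Crest.Agent.R017.BL4858

open Crest.Agent.R012 Crest.Agent.R012.Eis Crest.Agent.R012.Gauss880 Crest.Agent.R012.Po581
open Crest.Agent.R012.Mob705 Crest.Agent.R012.Div277
open Crest.Agent.R017.FE47

/-- `κ(x) = (x/c)_3 conj (x/b)_3` -/
def kp (b c x : Eis) : ℂ := sy x c * conj (sy x b)

variable {M b c g n : Eis} {χ : Eis → ℂ}

lemma isCh_kp (hb : IsPrim b) (hc : IsPrim c) : IsCh (c * b) (kp b c) :=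
  (isCh_sy syG hc).mul_char (isCh_sy syG hb).conj

lemma kp_mul (hb : IsPrim b) (hc : IsPrim c) (x y : Eis) :
    kp b c (x * y) = kp b c x * kp b c y := (isCh_kp hb hc).mul x y

lemma norm_kp_le (hb : IsPrim b) (hc : IsPrim c) (x : Eis) : ‖kp b c x‖ ≤ 1 :=
  (isCh_kp hb hc).norm_le_one (mul_ne_zero hc.ne_zero hb.ne_zero) x

lemma primitive_conj_sy (hb : IsPrim b) (sb : Squarefree b) :
    Primitive b (fun x => conj (sy x b)) := by
  intro r hr
  have h1 : gsum (fun x => sy x b) (-r) b = 0 := by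
    refine primitive_sy syG hb sb (-r) ?_
    rwa [IsCoprime.neg_left_iff]
  have h2 := conj_gsum (χ := fun x => sy x b) hb.ne_zero (-r)
  rw [h1, map_zero, neg_neg] at h2
  exact h2.symm

lemma primitive_kp (hb : IsPrim b) (hc : IsPrim c) (sb : Squarefree b) (sc : Squarefree c)
    (hcb : IsCoprime c b) : Primitive (c * b) (kp b c) :=
  Primitive.mul hc.ne_zero hb.ne_zero hcb (isCh_sy syG hc) (isCh_sy syG hb).conj
    (primitive_sy syG hc sc) (primitive_conj_sy hb sb)

lemma gsum_conj_sy (hb : IsPrim b) : gsum (fun x => conj (sy x b)) 1 b = conj (gs 1 b) := by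
  have h2 := conj_gsum (χ := fun x => sy x b) hb.ne_zero (-1)
  rw [neg_neg] at h2
  rw [← h2, ← gs_eq_gsum, gs_neg syG hb]

/-- the Gauss sum of `κ`: the cross symbols cancel by cubic reciprocity. -/
theorem gsum_kp (hb : IsPrim b) (hc : IsPrim c) (hcb : IsCoprime c b) :
    gsum (kp b c) 1 (c * b) = gs 1 c * conj (gs 1 b) := by
  have h := gsum_crt hc.ne_zero hb.ne_zero hcb (isCh_sy syG hc) (isCh_sy syG hb).conj 1
  have e : gsum (kp b c) 1 (c * b) = gsum (fun x => sy x c * (starRingEnd ℂ) (sy x b)) 1 (c * b) :=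
    rfl
  rw [e, h, gsum_conj_sy hb, ← gs_eq_gsum]
  have h1 : sy b c * (starRingEnd ℂ) (sy c b) = 1 := by
    rw [syG.recip b c hb hc]
    exact (isCh_sy syG hb).mul_conj_self hb.ne_zero hcb
  rw [h1, one_mul]

theorem gsum_kp_G (hb : IsPrim b) (hc : IsPrim c) (hcb : IsCoprime c b) :
    gsum (kp b c) 1 (c * b) = (Real.sqrt (nm b * nm c) : ℂ) * (G c * conj (G b)) := by
  rw [gsum_kp hb hc hcb, gs_one_eq hc, gs_one_eq hb, map_mul, Complex.conj_ofReal,
    Real.sqrt_mul (by positivity)]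
  push_cast
  ring

lemma isCoprime_sq3 (hc : IsPrim c) : IsCoprime Po581.sq3 c := by
  have h1 : Associated lam Po581.sq3 := associated_lam_sq3
  have h2 : IsCoprime lam c := (prime_lam.irreducible.coprime_iff_not_dvd).mpr hc.not_lam_dvd
  obtain ⟨u, hu⟩ := h1
  rw [← hu]
  exact (isCoprime_mul_unit_right_left u.isUnit _ _).mpr h2

lemma dualSum_ext (h : End699.HC M χ) (hc : IsPrim c) (k : Eis) :
    dualSum M (fun a => End699.ext χ (c * a)) k = χ c * DM M χ k := by
  have e1 : (fun a => End699.ext χ (c * a)) = fun a => χ c * End699.ext χ a := by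
    funext a; exact ext_mul h hc a
  rw [e1, dualSum_mul_left _ h.q0]
  rfl

/-- **Poisson, coprime case**. -/
theorem poisson_kp (f : 𝓢(ℂ, ℂ)) (h : End699.HC M χ) (hb : IsPrim b) (hc : IsPrim c)
    (sb : Squarefree b) (sc : Squarefree c) (hcb : IsCoprime c b) (hbM : IsCoprime b M)
    (hcM : IsCoprime c M) :
    ∑' x : Eis, End699.ext χ x * kp b c x * f (toC x) =
      ((2 / (Real.sqrt 3 * nm M) : ℝ) : ℂ) * (χ (c * b) *
        ((((Real.sqrt (nm b * nm c))⁻¹ : ℝ) : ℂ) * (G c * conj (G b)))) * (kp b c (M * Po581.sq3)) *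
        ∑' k : Eis, DM M χ k * conj (kp b c k) * fC f (dl k / toC (M * (c * b))) := by
  have hcbp : IsPrim (c * b) := hc.mul hb
  rw [poisson_char f h.q0 hcbp.ne_zero ((hcM.mul_left hbM).symm) (isCoprime_sq3 hcbp) h.pmod
    (isCh_kp hb hc) (primitive_kp hb hc sb sc hcb), gsum_kp_G hb hc hcb]
  simp only [dualSum_ext h hcbp]
  have e : ∀ k : Eis, χ (c * b) * DM M χ k * (starRingEnd ℂ) (kp b c k) *
      fC f (dl k / toC (M * (c * b))) = χ (c * b) * (DM M χ k * (starRingEnd ℂ) (kp b c k) *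
      fC f (dl k / toC (M * (c * b)))) := fun k => by ring
  rw [tsum_congr e, tsum_mul_left, kp_mul hb hc]
  have hb0 : (0 : ℝ) < nm b := by exact_mod_cast nm_pos.mpr hb.ne_zero
  have hc0 : (0 : ℝ) < nm c := by exact_mod_cast nm_pos.mpr hc.ne_zero
  have hM0 : (0 : ℝ) < nm M := by exact_mod_cast nm_pos.mpr h.q0
  have key : (2 / (Real.sqrt 3 * nm (M * (c * b))) : ℝ) * Real.sqrt (nm b * nm c) =
      (2 / (Real.sqrt 3 * nm M) : ℝ) * (Real.sqrt (nm b * nm c))⁻¹ := by
    have h1 : Real.sqrt (nm b * nm c) * Real.sqrt (nm b * nm c) = nm b * nm c :=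
      Real.mul_self_sqrt (by positivity)
    have h2 : 0 < Real.sqrt ((nm b : ℝ) * nm c) := Real.sqrt_pos.mpr (by positivity)
    rw [nm_mul, nm_mul]
    push_cast
    field_simp
    rw [sq]
    exact Real.mul_self_sqrt (by positivity)
  have key' : ((2 / (Real.sqrt 3 * nm (M * (c * b))) : ℝ) : ℂ) * (Real.sqrt (nm b * nm c) : ℂ) =
      ((2 / (Real.sqrt 3 * nm M) : ℝ) : ℂ) * (((Real.sqrt (nm b * nm c))⁻¹ : ℝ) : ℂ) := by
    rw [← Complex.ofReal_mul, ← Complex.ofReal_mul, key]
  linear_combination (kp b c M * kp b c Po581.sq3 * (G c * (starRingEnd ℂ) (G b)) * χ (c * b) *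
    ∑' k : Eis, DM M χ k * (starRingEnd ℂ) (kp b c k) * fC f (dl k / toC (M * (c * b)))) * key'

/-! ### Scaling -/

/-- `z ↦ f (d z)` -/
def scS (f : 𝓢(ℂ, ℂ)) {d : ℂ} (hd : d ≠ 0) : 𝓢(ℂ, ℂ) :=
  SchwartzMap.compCLMOfContinuousLinearEquiv ℂ
    (((LinearEquiv.smulOfNeZero ℂ ℂ d hd).restrictScalars ℝ).toContinuousLinearEquiv) f

lemma scS_apply (f : 𝓢(ℂ, ℂ)) {d : ℂ} (hd : d ≠ 0) (z : ℂ) : scS f hd z = f (d * z) := rfl

lemma fC_scS (f : 𝓢(ℂ, ℂ)) {d : ℂ} (hd : d ≠ 0) (ξ : ℂ) :
    fC (scS f hd) ξ = (((‖d‖ ^ 2)⁻¹ : ℝ) : ℂ) * fC f (ξ / d) := by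
  have h := fC_affine f hd 0 ξ
  rw [mul_zero, show eC 0 = 1 by simp [eC], one_mul] at h
  rw [← h]
  congr 1
  funext z
  rw [scS_apply, add_zero]

lemma tsum_dvd {d : Eis} (hd : d ≠ 0) {F : Eis → ℂ} (hF : ∀ x, ¬ d ∣ x → F x = 0) :
    ∑' x, F x = ∑' y, F (d * y) := by
  have hinj : Function.Injective (fun y : Eis => d * y) := mul_right_injective₀ hd
  refine (hinj.tsum_eq ?_).symm
  intro x hx
  by_contra hcon
  refine hx (hF x fun ⟨y, hy⟩ => hcon ⟨y, hy.symm⟩)

/-! ### Removal of the coprimality condition -/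

open Classical in
/-- the coprimality indicator on the primary elements -/
lemma ext_ind (hn : n ≠ 0) (x : Eis) :
    End699.ext χ x * (if IsCoprime x n then (1 : ℂ) else 0) =
      ∑ d ∈ dvs n, (muE d : ℂ) * (if d ∣ x then End699.ext χ x else 0) := by
  by_cases hx : IsPrim x
  · have h := congrArg (fun z : ℤ => (z : ℂ)) (sum_muE_coprime hx hn)
    beta_reduce at h
    push_cast at h
    rw [← h, Finset.mul_sum]
    refine Finset.sum_congr rfl fun d _ => ?_
    split_ifs <;> ring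
  · have h0 : End699.ext χ x = 0 := by simp only [End699.ext]; rw [if_neg hx]
    rw [h0, zero_mul]
    symm
    apply Finset.sum_eq_zero
    intro d _
    split_ifs <;> ring

lemma summable_ext (f : 𝓢(ℂ, ℂ)) (h : End699.HC M χ) {κ : Eis → ℂ} (hκ : ∀ x, ‖κ x‖ ≤ 1) :
    Summable (fun x : Eis => End699.ext χ x * κ x * f (toC x)) := by
  refine summable_mul_bdd (B := 1) (fun x => ?_) (summable_schwartz_one f)
  rw [norm_mul]
  have h1 : ‖End699.ext χ x‖ ≤ 1 := by
    simp only [End699.ext]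
    split_ifs with hx
    · exact h.char.norm_le hx
    · simp
  calc ‖End699.ext χ x‖ * ‖κ x‖ ≤ 1 * 1 := mul_le_mul h1 (hκ x) (norm_nonneg _) zero_le_one
    _ = 1 := one_mul 1

open Classical in
/-- **Poisson for the basic sums, coprime part** (`c, b` coprime, condition `(x, n) = 1`). -/
theorem poisson_kp_ind (f : 𝓢(ℂ, ℂ)) (h : End699.HC M χ) (hn : n ≠ 0) (hb : IsPrim b)
    (hc : IsPrim c) (sb : Squarefree b) (sc : Squarefree c) (hcb : IsCoprime c b)
    (hbM : IsCoprime b M) (hcM : IsCoprime c M) :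
    ∑' x : Eis, End699.ext χ x * (if IsCoprime x n then (1 : ℂ) else 0) * kp b c x * f (toC x) =
      ((2 / (Real.sqrt 3 * nm M) : ℝ) : ℂ) * (χ (c * b) *
        ((((Real.sqrt (nm b * nm c))⁻¹ : ℝ) : ℂ) * (G c * conj (G b)))) * (kp b c (M * Po581.sq3)) *
        ∑ d ∈ dvs n, (muE d : ℂ) * (χ d * kp b c d * ((((nm d : ℝ))⁻¹ : ℝ) : ℂ)) *
          ∑' k : Eis, DM M χ k * conj (kp b c k) * fC f (dl k / toC (M * (c * b) * d)) := by
  have e1 : ∀ x : Eis, End699.ext χ x * (if IsCoprime x n then (1 : ℂ) else 0) * kp b c x *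
      f (toC x) = ∑ d ∈ dvs n, (muE d : ℂ) *
        ((if d ∣ x then End699.ext χ x else 0) * kp b c x * f (toC x)) := by
    intro x
    rw [ext_ind hn, Finset.sum_mul, Finset.sum_mul]
    exact Finset.sum_congr rfl fun d _ => by ring
  have hs : ∀ d, Summable (fun x : Eis => (if d ∣ x then End699.ext χ x else 0) * kp b c x *
      f (toC x)) := by
    intro d
    refine Summable.of_norm_bounded ((summable_ext f h (norm_kp_le hb hc)).norm) fun x => ?_
    split_ifs
    · exact le_rfl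
    · simp only [zero_mul, norm_zero]; positivity
  rw [tsum_congr e1, Summable.tsum_finsetSum (fun d _ => (hs d).mul_left _), Finset.mul_sum]
  refine Finset.sum_congr rfl fun d hd => ?_
  obtain ⟨hdp, _⟩ := (mem_dvs hn).mp hd
  have hd0 : toC d ≠ 0 := Po581.toC_ne_zero hdp.ne_zero
  rw [tsum_mul_left, tsum_dvd hdp.ne_zero (fun x hx => by rw [if_neg hx]; ring)]
  have e2 : ∀ y : Eis, (if d ∣ d * y then End699.ext χ (d * y) else 0) * kp b c (d * y) *
      f (toC (d * y)) = (χ d * kp b c d) * (End699.ext χ y * kp b c y * scS f hd0 (toC y)) := by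
    intro y
    rw [if_pos (dvd_mul_right d y), ext_mul h hdp, kp_mul hb hc, scS_apply, map_mul]
    ring
  rw [tsum_congr e2, tsum_mul_left, poisson_kp (scS f hd0) h hb hc sb sc hcb hbM hcM]
  have e3 : ∀ k : Eis, DM M χ k * conj (kp b c k) * fC (scS f hd0) (dl k / toC (M * (c * b))) =
      ((((nm d : ℝ))⁻¹ : ℝ) : ℂ) * (DM M χ k * conj (kp b c k) *
        fC f (dl k / toC (M * (c * b) * d))) := by
    intro k
    rw [fC_scS, norm_toC_sq, map_mul toC (M * (c * b)) d, div_div]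
    ring
  rw [tsum_congr e3, tsum_mul_left]
  ring

open Classical in
/-- **BL4**: exact Poisson formula for the basic sums (all common factors `g`). -/
theorem poisson_basic (f : 𝓢(ℂ, ℂ)) (h : End699.HC M χ) (hn : n ≠ 0) (hg : IsPrim g)
    (hb : IsPrim b) (hc : IsPrim c) (sgb : Squarefree (g * b)) (sgc : Squarefree (g * c))
    (hcb : IsCoprime c b) (hbM : IsCoprime b M) (hcM : IsCoprime c M) :
    conj (G (g * c)) * G (g * b) *
      ∑' x : Eis, End699.ext χ x * (if IsCoprime x n then (1 : ℂ) else 0) *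
        (sy x (g * c) * conj (sy x (g * b))) * f (toC x) =
      ((2 / (Real.sqrt 3 * nm M) : ℝ) : ℂ) * ((((Real.sqrt (nm b * nm c))⁻¹ : ℝ) : ℂ) *
        (χ (c * b) * kp b c (M * Po581.sq3 * g))) *
        ∑ d ∈ dvs (n * g), (muE d : ℂ) * (χ d * kp b c d * ((((nm d : ℝ))⁻¹ : ℝ) : ℂ)) *
          ∑' k : Eis, DM M χ k * conj (kp b c k) * fC f (dl k / toC (M * (c * b) * d)) := by
  obtain ⟨rgb, sg, sb⟩ := squarefree_mul_iff.mp sgb
  obtain ⟨rgc, _, sc⟩ := squarefree_mul_iff.mp sgc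
  have cgb : IsCoprime g b := rgb.isCoprime
  have cgc : IsCoprime g c := rgc.isCoprime
  have e1 : ∀ x : Eis, End699.ext χ x * (if IsCoprime x n then (1 : ℂ) else 0) *
        (sy x (g * c) * conj (sy x (g * b))) * f (toC x) =
      End699.ext χ x * (if IsCoprime x (n * g) then (1 : ℂ) else 0) * kp b c x * f (toC x) := by
    intro x
    rw [syG.mul_right x g c hg hc, syG.mul_right x g b hg hb, map_mul]
    unfold kp
    by_cases hxg : IsCoprime x g
    · have h1 := (isCh_sy syG hg).mul_conj_self hg.ne_zero hxg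
      by_cases hxn : IsCoprime x n
      · rw [if_pos hxn, if_pos (hxn.mul_right hxg)]
        linear_combination (End699.ext χ x * (sy x c * conj (sy x b)) * f (toC x)) * h1
      · rw [if_neg hxn, if_neg (fun h' => hxn (IsCoprime.of_mul_right_left h'))]
        ring
    · have h1 : sy x g = 0 := (syG.eq_zero x g hg).mpr hxg
      rw [h1, if_neg (fun h' => hxg (IsCoprime.of_mul_right_right h'))]
      ring
  rw [tsum_congr e1, poisson_kp_ind f h (mul_ne_zero hn hg.ne_zero) hb hc sb sc hcb hbM hcM,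
    G_mul syG hg hc cgc, G_mul syG hg hb cgb, kp_mul hb hc (M * Po581.sq3) g]
  have g1 := G_mul_conj syG hg sg
  have g2 := G_mul_conj syG hb sb
  have g3 := G_mul_conj syG hc sc
  have key : conj (G g * G c * conj (sy g c)) * (G g * G b * conj (sy g b)) *
      (G c * conj (G b)) = kp b c g := by
    unfold kp
    rw [map_mul, map_mul, Complex.conj_conj]
    calc conj (G g) * conj (G c) * sy g c * (G g * G b * conj (sy g b)) * (G c * conj (G b))
        = (G g * conj (G g)) * (G b * conj (G b)) * (G c * conj (G c)) *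
          (sy g c * conj (sy g b)) := by ring
      _ = sy g c * conj (sy g b) := by rw [g1, g2, g3]; ring
  rw [← key]
  ring

lemma kp_zero (hb : IsPrim b) (hc : IsPrim c) (h1 : c * b ≠ 1) : kp b c 0 = 0 := by
  refine (isCh_kp hb hc).zero 0 fun h => h1 ?_
  rw [isCoprime_zero_left] at h
  exact isPrim_eq_one_of_isUnit (hc.mul hb) h

lemma conj_kp (x : Eis) : conj (kp b c x) = sy x b * conj (sy x c) := by
  unfold kp
  rw [map_mul, Complex.conj_conj, mul_comm]

lemma summable_dual (f : 𝓢(ℂ, ℂ)) (h : End699.HC M χ) (hb : IsPrim b) (hc : IsPrim c) {q : Eis}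
    (hq : q ≠ 0) :
    Summable (fun k : Eis => DM M χ k * conj (kp b c k) * fC f (dl k / toC q)) := by
  refine summable_mul_bdd (B := nm M) (fun k => ?_) (fC_summable f (Po581.toC_ne_zero hq))
  rw [norm_mul, RCLike.norm_conj]
  calc ‖DM M χ k‖ * ‖kp b c k‖ ≤ nm M * 1 :=
        mul_le_mul (norm_DM_le h k) (norm_kp_le hb hc k) (norm_nonneg _) (by positivity)
    _ = nm M := mul_one _

/-- the dual sum as a sum over `k = e b''`, `e` composed of primes dividing `M`, `b''` primary prime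
to `M`. -/
theorem dual_decomp (f : 𝓢(ℂ, ℂ)) (h : End699.HC M χ) (hb : IsPrim b) (hc : IsPrim c)
    (h1 : c * b ≠ 1) {q : Eis} (hq : q ≠ 0) :
    ∑' k : Eis, DM M χ k * conj (kp b c k) * fC f (dl k / toC q) =
      ∑' e : SM M, DM M χ e.1 * conj (kp b c e.1) *
        ∑' k : BM M, conj (χ k.1 * kp b c k.1) * fC f (dl (e.1 * k.1) / toC q) := by
  rw [tsum_decomp h.three (by rw [kp_zero hb hc h1]; simp) (summable_dual f h hb hc hq)]
  refine tsum_congr fun e => ?_
  rw [← tsum_mul_left]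
  refine tsum_congr fun k => ?_
  rw [DM_mul h k.2, kp_mul hb hc, map_mul (starRingEnd ℂ) (kp b c e.1),
    map_mul (starRingEnd ℂ) (χ k.1)]
  ring

/-- the term `k = 0`. -/
theorem dual_zero (f : 𝓢(ℂ, ℂ)) (h : End699.HC M χ) {q : Eis} (hq : q ≠ 0) :
    ∑' k : Eis, DM M χ k * conj (kp 1 1 k) * fC f (dl k / toC q) =
      DM M χ 0 * fC f 0 + ∑' k : Eis, (if k = 0 then 0 else
        DM M χ k * fC f (dl k / toC q)) := by
  have e1 : ∀ k, kp 1 1 k = 1 := fun k => by
    unfold kp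
    have h1 : sy k 1 = 1 := by
      have h2 := (isCh_sy syG isPrim_one).norm_eq_one one_ne_zero (isCoprime_one_right (x := k))
      have h3 := syG.congr k 1 1 isPrim_one (one_dvd _)
      rw [h3, sy_one_left syG isPrim_one]
    rw [h1]; simp
  have hs := summable_dual f h isPrim_one isPrim_one hq
  rw [hs.tsum_eq_add_tsum_ite 0, e1]
  congr 1
  · simp [dl]
  · refine tsum_congr fun k => ?_
    rw [e1]
    simp

end Crest.Agent.R017.BL4858
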