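import Crest.Agent.R017.BDefs_770
import Crest.Agent.R017.BL4_858

/-!
# Row 17, section B: leaf L2 (Poisson summation for `a ↦ hN a b * (a/c)_3`)
-/

set_option autoImplicit false

noncomputable section

open Complex
open scoped ComplexConjugate SchwartzMap

namespace Crest.Agent.R017.PT858

open Crest.Agent.R012 Crest.Agent.R012.Eis Crest.Agent.R012.Mob705 Crest.Agent.R012.Gauss880
open Crest.Agent.R012.Po581
open Crest.Agent.R017.FE47 Crest.Agent.R017.Sx440 Crest.Agent.R017.Sx545 Crest.Agent.R017.B770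

variable {b c M : Eis}

/-- twisted multiplicativity of `hN` in the frequency. -/
lemma hN_mul (hb : IsPrim b) (h2 : Od b) {u : Eis} (hu : IsCoprime u b) (a : Eis) :
    hN (u * a) b = conj (sy u b) * hN a b := by
  unfold hN
  have h1 : gs6 ((u * a) ^ 4) b = sy u b * gs6 (a ^ 4) b := by
    rw [mul_pow, mul_comm (u ^ 4), gs6_mul_of_coprime hb h2 _ hu.pow_left, sy6_pow_four_left hb h2,
      Complex.conj_conj]
  rw [h1, map_mul]
  ring

lemma pmod_hN (b : Eis) : PMod b (fun a => hN a b) := by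
  intro x t
  have h1 : gs6 ((x + b * t) ^ 4) b = gs6 (x ^ 4) b := by
    refine gsum_congr ?_
    have h3 : (x + b * t) - x ∣ (x + b * t) ^ 4 - x ^ 4 := sub_dvd_pow_sub_pow _ _ 4
    refine dvd_trans ?_ h3
    exact ⟨t, by ring⟩
  simp only [hN, h1]

/-- the function `a ↦ hN a b * (a/c)_3`. -/
def FF (b c a : Eis) : ℂ := hN a b * sy a c

lemma pmod_FF (hc : IsPrim c) : PMod (b * c) (FF b c) :=
  ((pmod_hN b).mono (dvd_mul_right b c)).mul ((isCh_sy syG hc).per.mono (dvd_mul_left c b))

lemma FF_mul (hb : IsPrim b) (h2 : Od b) (hc : IsPrim c) {u : Eis} (hu : IsCoprime u b) (a : Eis) :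
    FF b c (u * a) = (sy u c * conj (sy u b)) * FF b c a := by
  unfold FF
  rw [hN_mul hb h2 hu, (isCh_sy syG hc).mul]
  ring

lemma neg_sq3_coprime {c : Eis} (hc : IsPrim c) : IsCoprime (-Po581.sq3) c :=
  (BL4858.isCoprime_sq3 hc).neg_left

/-- the dual sum of `FF` in terms of `tk`. -/
lemma dualSum_FF (hb : IsPrim b) (h2 : Od b) (hc : IsPrim c) (k : Eis) :
    dualSum (b * c) (FF b c) k = (sy Po581.sq3 c * conj (sy Po581.sq3 b)) *
      sumMod (b * c) (fun a => FF b c a * eC (-(toC a * toC k / (toC b * toC c)))) := by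
  have hq : b * c ≠ 0 := mul_ne_zero hb.ne_zero hc.ne_zero
  have hb' := Po581.toC_ne_zero hb.ne_zero
  have hc' := Po581.toC_ne_zero hc.ne_zero
  have hP : PMod (b * c) (fun a => FF b c a * eC (dl k / toC (b * c) * toC a)) :=
    (pmod_FF hc).mul (pmod_eC_dl hq k)
  unfold dualSum
  rw [← sumMod_mul_coprime hq hP (neg_sq3_coprime (hb.mul hc)), ← sumMod_mul_left hq]
  refine sumMod_congr fun a => ?_
  have h1 : (sy (-Po581.sq3) c * conj (sy (-Po581.sq3) b)) =
      sy Po581.sq3 c * conj (sy Po581.sq3 b) := by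
    rw [show -Po581.sq3 = (-1) * Po581.sq3 by ring, (isCh_sy syG hc).mul, (isCh_sy syG hb).mul,
      sy_neg_one syG hc, sy_neg_one syG hb, one_mul, one_mul]
  rw [FF_mul hb h2 hc (neg_sq3_coprime hb), h1, mul_assoc]
  congr 3
  unfold dl
  rw [map_mul, map_mul, map_neg, toC_sq3]
  have := iS3_ne_zero
  field_simp

/-- the dual sum modulo `M * (b * c)` splits. -/
lemma dualSum_split' {χ : Eis → ℂ} (h : End699.HC M χ) (hb : IsPrim b) (h2 : Od b) (hc : IsPrim c)
    (hbM : IsCoprime b M) (hcM : IsCoprime c M) (k : Eis) :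
    dualSum (M * (b * c)) (fun x => End699.ext χ x * FF b c x) k =
      (sy M c * conj (sy M b)) * dualSum (b * c) (FF b c) k * (χ (b * c) * DM M χ k) := by
  have hq : b * c ≠ 0 := mul_ne_zero hb.ne_zero hc.ne_zero
  have hM : M ≠ 0 := h.q0
  have hq' := Po581.toC_ne_zero hq
  have hM' := Po581.toC_ne_zero hM
  have hcop : IsCoprime M (b * c) := (hbM.mul_left hcM).symm
  have hP : PMod (M * (b * c)) (fun a => (End699.ext χ a * FF b c a) *
      eC (dl k / toC (M * (b * c)) * toC a)) :=
    ((h.pmod.mono (dvd_mul_right M _)).mul ((pmod_FF hc).mono (dvd_mul_left _ M))).mul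
      (pmod_eC_dl (mul_ne_zero hM hq) k)
  have key := sumMod_crt_mul (f := fun a => End699.ext χ (b * c * a) * eC (dl k / toC M * toC a))
    (g := fun a => (sy M c * conj (sy M b)) * (FF b c a * eC (dl k / toC (b * c) * toC a)))
    hM hq _ hcop hP (fun x y => ?_)
  · have e : dualSum (M * (b * c)) (fun x => End699.ext χ x * FF b c x) k =
        sumMod (M * (b * c)) (fun a => (End699.ext χ a * FF b c a) *
          eC (dl k / toC (M * (b * c)) * toC a)) := rfl
    rw [e, key, sumMod_mul_left hq]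
    have e2 : sumMod (b * c) (fun a => FF b c a * eC (dl k / toC (b * c) * toC a)) =
      dualSum (b * c) (FF b c) k := rfl
    have e3 : sumMod M (fun a => End699.ext χ (b * c * a) * eC (dl k / toC M * toC a)) =
      dualSum M (fun a => End699.ext χ (b * c * a)) k := rfl
    rw [e2, e3, BL4858.dualSum_ext h (hb.mul hc)]
    ring
  · have h1 : End699.ext χ (b * c * x + M * y) = End699.ext χ (b * c * x) := h.pmod _ _
    have h2 : FF b c (b * c * x + M * y) = (sy M c * conj (sy M b)) * FF b c y := by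
      rw [add_comm, pmod_FF hc, FF_mul hb h2 hc hbM.symm]
    have h3 : dl k / toC (M * (b * c)) * toC (b * c * x + M * y)
        = dl k / toC M * toC x + dl k / toC (b * c) * toC y := by
      have hb' := Po581.toC_ne_zero hb.ne_zero
      have hc' := Po581.toC_ne_zero hc.ne_zero
      simp only [map_add, map_mul]; field_simp
    rw [h1, h2, h3, Po581.eC_add']; ring

/-- **Poisson summation (leaf L2).** -/
theorem poissonTk : PoissonTk := by
  intro M χ h h2M b c hb hc _ f
  have hbp := hb.1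
  have hcp := hc.1
  have hbo : Od b := hb.od h2M
  have hq : b * c ≠ 0 := mul_ne_zero hbp.ne_zero hcp.ne_zero
  have hM : M ≠ 0 := h.q0
  have hP : PerMod (M * (b * c)) (fun a => End699.ext χ a * FF b c a) :=
    perMod_iff.mpr ((h.pmod.mono (dvd_mul_right M _)).mul
      ((pmod_FF hcp).mono (dvd_mul_left _ M)))
  have hb0 : (0 : ℝ) < nm b := by exact_mod_cast nm_pos.mpr hbp.ne_zero
  have hc0 : (0 : ℝ) < nm c := by exact_mod_cast nm_pos.mpr hcp.ne_zero
  have hM0 : (0 : ℝ) < nm M := by exact_mod_cast nm_pos.mpr h.q0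
  have hs0 : 0 < Real.sqrt ((nm b : ℝ) * nm c) := Real.sqrt_pos.mpr (by positivity)
  have hs0' : (Real.sqrt (nm b * nm c) : ℂ) ≠ 0 := by
    exact_mod_cast hs0.ne'
  -- termwise
  have e : ∀ k : Eis, conj (G c) * (dualSum (M * (b * c)) (fun a => End699.ext χ a * FF b c a) k *
      fC f (dl k / toC (M * (b * c)))) =
      ((Real.sqrt (nm b * nm c) : ℂ) * (χ (b * c) *
        (sy (M * Po581.sq3) c * conj (sy (M * Po581.sq3) b)))) *
      (DM M χ k * tk k b c * fC f (dl k / toC (M * (b * c)))) := by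
    intro k
    rw [dualSum_split' h hbp hbo hcp hb.2 hc.2, dualSum_FF hbp hbo hcp]
    unfold tk
    have e1 : sumMod (b * c) (fun a => hN a b * sy a c * eC (-(toC a * toC k / (toC b * toC c)))) =
      sumMod (b * c) (fun a => FF b c a * eC (-(toC a * toC k / (toC b * toC c)))) := rfl
    rw [e1, (isCh_sy syG hcp).mul, (isCh_sy syG hbp).mul, map_mul (starRingEnd ℂ)]
    generalize sumMod (b * c) (fun a => FF b c a * eC (-(toC a * toC k / (toC b * toC c)))) = S
    generalize fC f (dl k / toC (M * (b * c))) = T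
    field_simp
  have e0 : (∑' a : Eis, End699.ext χ a * (hN a b * sy a c) * f (toC a)) =
      ∑' a : Eis, (fun a => End699.ext χ a * FF b c a) a * f (toC a) := rfl
  rw [e0, poisson_periodic f (mul_ne_zero hM hq) hP]
  rw [mul_left_comm, ← tsum_mul_left, tsum_congr e, tsum_mul_left]
  have key : (2 / (Real.sqrt 3 * nm (M * (b * c))) : ℝ) * Real.sqrt (nm b * nm c) =
      (2 / (Real.sqrt 3 * nm M) : ℝ) * (Real.sqrt (nm b * nm c))⁻¹ := by
    have h1 : Real.sqrt (nm b * nm c) * Real.sqrt (nm b * nm c) = nm b * nm c :=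
      Real.mul_self_sqrt (by positivity)
    rw [nm_mul, nm_mul]
    push_cast
    field_simp
    rw [sq]
    exact Real.mul_self_sqrt (by positivity)
  have key' : ((2 / (Real.sqrt 3 * nm (M * (b * c))) : ℝ) : ℂ) * (Real.sqrt (nm b * nm c) : ℂ) =
      ((2 / (Real.sqrt 3 * nm M) : ℝ) : ℂ) * (((Real.sqrt (nm b * nm c))⁻¹ : ℝ) : ℂ) := by
    rw [← Complex.ofReal_mul, ← Complex.ofReal_mul, key]
  linear_combination (χ (b * c) * (sy (M * Po581.sq3) c * conj (sy (M * Po581.sq3) b)) *
    ∑' k : Eis, DM M χ k * tk k b c * fC f (dl k / toC (M * (b * c)))) * key'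

end Crest.Agent.R017.PT858
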