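import Crest.Agent.R017.BDefs2_770
import Crest.Agent.R017.PoissonTk_858
import Crest.Agent.R017.NatZ_571

/-!
# Row 17, section B, leaf L6 (1): radial weights, phases, the amplifier elements
-/

set_option autoImplicit false

noncomputable section

open MeasureTheory Complex Set
open scoped ComplexConjugate ContDiff SchwartzMap

namespace Crest.Agent.R017.L6106

open Crest.Agent.R012 Crest.Agent.R012.Eis Crest.Agent.R012.Mob705 Crest.Agent.R012.Gauss880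
open Crest.Agent.R012.Po581
open Crest.Agent.R017.End699 Crest.Agent.R017.Sx440 Crest.Agent.R017.Sx545 Crest.Agent.R017.B770

/-! ### radial weights -/

/-- `z ↦ om(β |z|²)` -/
def rw_ (om : ℝ → ℂ) (β : ℝ) (z : ℂ) : ℂ := om (β * ‖z‖ ^ 2)

lemma rw_smooth {om : ℝ → ℂ} (h : SW om) (β : ℝ) : ContDiff ℝ ∞ (rw_ om β) :=
  h.smooth.comp (contDiff_const.mul (contDiff_norm_sq ℝ))

lemma rw_cpt {om : ℝ → ℂ} (h : SW om) {β : ℝ} (hβ : 0 < β) : HasCompactSupport (rw_ om β) := by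
  obtain ⟨R, hR⟩ := h.cpt.isCompact.bddAbove
  refine HasCompactSupport.intro (isCompact_closedBall (0 : ℂ) (Real.sqrt (|R| / β))) fun z hz => ?_
  by_contra hne
  have h1 : β * ‖z‖ ^ 2 ≤ R := hR (subset_tsupport om hne)
  apply hz
  rw [mem_closedBall_zero_iff]
  apply Real.le_sqrt_of_sq_le
  rw [le_div_iff₀ hβ]
  linarith [le_abs_self R, mul_comm β (‖z‖ ^ 2)]

/-- the Schwartz function `z ↦ om(β |z|²)` -/
def rS {om : ℝ → ℂ} (h : SW om) {β : ℝ} (hβ : 0 < β) : 𝓢(ℂ, ℂ) :=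
  (rw_cpt h hβ).toSchwartzMap (rw_smooth h β)

lemma rS_apply {om : ℝ → ℂ} (h : SW om) {β : ℝ} (hβ : 0 < β) (z : ℂ) :
    rS h hβ z = om (β * ‖z‖ ^ 2) := rfl

lemma coe_rS {om : ℝ → ℂ} (h : SW om) {β : ℝ} (hβ : 0 < β) :
    (rS h hβ : ℂ → ℂ) = fun z => om (β * ‖z‖ ^ 2) := rfl

/-- rotation invariance -/
lemma fC_radial (g : ℝ → ℂ) (ξ : ℂ) :
    fC (fun z => g (‖z‖ ^ 2)) ξ = fC (fun z => g (‖z‖ ^ 2)) (‖ξ‖ : ℂ) := by
  by_cases h0 : ξ = 0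
  · subst h0; simp
  have hn : (‖ξ‖ : ℂ) ≠ 0 := by exact_mod_cast norm_ne_zero_iff.mpr h0
  set q : ℂ := ξ / (‖ξ‖ : ℂ) with hq
  have hq1 : ‖q‖ = 1 := by
    rw [hq, norm_div, Complex.norm_real, norm_norm]
    exact div_self (norm_ne_zero_iff.mpr h0)
  have hq0 : q ≠ 0 := by rw [← norm_ne_zero_iff, hq1]; exact one_ne_zero
  have h := fC_affine (fun z => g (‖z‖ ^ 2)) hq0 0 ξ
  have e1 : (fun z : ℂ => g (‖q * z + 0‖ ^ 2)) = fun z => g (‖z‖ ^ 2) := by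
    funext z; rw [add_zero, norm_mul, hq1, one_mul]
  have e2 : ξ / q = (‖ξ‖ : ℂ) := by
    rw [hq, div_div_eq_mul_div, mul_div_assoc, mul_comm, div_mul_cancel₀ _ h0]
  simp only [e2, hq1, one_pow, inv_one, Complex.ofReal_one, mul_zero, eC_zero', one_mul] at h
  rw [← h]
  exact congrArg (fun f => fC f ξ) e1.symm

/-- scaling -/
lemma fC_scale (om : ℝ → ℂ) {β : ℝ} (hβ : 0 < β) (ξ : ℂ) :
    fC (fun z => om (β * ‖z‖ ^ 2)) ξ = ((β⁻¹ : ℝ) : ℂ) * Ur om (‖ξ‖ ^ 2 / β) := by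
  have hs : 0 < Real.sqrt β := Real.sqrt_pos.mpr hβ
  have hq0 : (Real.sqrt β : ℂ) ≠ 0 := by exact_mod_cast hs.ne'
  have h := fC_affine (fun z => om (‖z‖ ^ 2)) hq0 0 ξ
  have hn : ‖(Real.sqrt β : ℂ)‖ = Real.sqrt β := by
    rw [Complex.norm_real, Real.norm_eq_abs, abs_of_pos hs]
  have e1 : (fun z : ℂ => om (‖(Real.sqrt β : ℂ) * z + 0‖ ^ 2)) = fun z => om (β * ‖z‖ ^ 2) := by
    funext z
    rw [add_zero, norm_mul, hn, mul_pow, Real.sq_sqrt hβ.le]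
  simp only [hn, Real.sq_sqrt hβ.le, mul_zero, eC_zero', one_mul] at h
  have e3 : fC (fun z : ℂ => om (‖(Real.sqrt β : ℂ) * z + 0‖ ^ 2)) ξ =
      fC (fun z => om (β * ‖z‖ ^ 2)) ξ := congrArg (fun f => fC f ξ) e1
  rw [← e3, h, fC_radial]
  congr 1
  unfold Ur
  congr 1
  rw [Real.sqrt_div (sq_nonneg _), Real.sqrt_sq (norm_nonneg _), norm_div, hn]

lemma norm_dl_sq (k : Eis) : ‖dl k‖ ^ 2 = (nm k : ℝ) / 3 := by
  have h1 : ‖iS3‖ ^ 2 = 3 := by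
    have := norm_toC_sq Po581.sq3
    rw [toC_sq3] at this
    rw [this]
    have h2 : nm Po581.sq3 = 3 := by decide
    rw [h2]; norm_num
  unfold dl
  rw [norm_div, div_pow, norm_toC_sq, h1]

end Crest.Agent.R017.L6106
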