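import Crest.Agent.R017.S3b_571

/-!
# Row 17, leaf S3 of L5 (helper571)
-/

set_option autoImplicit false

noncomputable section

open MeasureTheory Complex Set
open scoped ComplexConjugate ContDiff

namespace Crest.Agent.R017.S3571

open Crest.Agent.R012 Crest.Agent.R012.Eis Crest.Agent.R012.Mob705 Crest.Agent.R012.Div277
open Crest.Agent.R017.End699 Crest.Agent.R017.Sx545 Crest.Agent.R017.B770
open Crest.Agent.R017.L5 Crest.Agent.R017.Eul571 Crest.Agent.R012.SumMod880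

lemma Sm.two {M D : Eis} (h36 : (36 : Eis) ∣ M) (h : Sm M D) : Sm 2 D := by
  refine ⟨h.1, h.2.of_isCoprime_of_dvd_right (Dvd.dvd.trans ⟨18, by norm_num⟩ h36)⟩

lemma rad_cop {M m₀ p : Eis} (hR : Rad0 M m₀) (hp : Sm M p) (hpp : Prime p) :
    IsCoprime p m₀ := by
  have hPP : IsPP p := ⟨hp.1, hpp⟩
  rw [hPP.isCoprime_iff]
  intro h
  have h1 : p ∣ M := (hR.iff p hpp).mp (Dvd.dvd.mul_left h 3)
  exact (hPP.isCoprime_iff.mp hp.2) h1

/-- the normalised majorant -/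
def F3 (m₀ D : Eis) : ℝ := N0 m₀ D / N0 m₀ 1 * (nm D : ℝ) ^ (-(5 / 6) : ℝ)

lemma F3_one (H : TkAlg) {m₀ : Eis} (hm : m₀ ≠ 0) : F3 m₀ 1 = 1 := by
  unfold F3
  rw [div_self (N0_one_pos H hm).ne', nm_one]
  simp

lemma F3_nonneg (H : TkAlg) {m₀ D : Eis} (hm : m₀ ≠ 0) (hD : D ≠ 0) : 0 ≤ F3 m₀ D := by
  unfold F3
  have h1 := N0_nonneg (mul_ne_zero hm hD)
  have h2 := N0_one_pos H hm
  positivity

lemma F3_pow (H : TkAlg) {m₀ p : Eis} (hm : m₀ ≠ 0) (hp : Sm 2 p) (hpp : Prime p) {k : ℕ}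
    (hpm : IsCoprime p m₀) :
    F3 m₀ (p ^ k) = Lm (p ^ k) * (nm (p ^ k) : ℝ) ^ (-(5 / 6) : ℝ) := by
  unfold F3
  rw [N0_pow H hm hp hpp hpm, mul_div_assoc, div_self (N0_one_pos H hm).ne', mul_one]

lemma F3_mul (H : TkAlg) {m₀ p b : Eis} (hm : m₀ ≠ 0) (hp : Sm 2 p) (hpp : Prime p) {k : ℕ}
    (hb : Sm 2 b) (hpb : ¬ p ∣ b) (hpm : IsCoprime p m₀) :
    F3 m₀ (p ^ k * b) = F3 m₀ (p ^ k) * F3 m₀ b := by
  rw [F3_pow H hm hp hpp hpm]
  unfold F3
  rw [N0_mul H hm hp hpp hb hpb hpm, nm_mul]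
  push_cast
  rw [Real.mul_rpow (Nat.cast_nonneg _) (Nat.cast_nonneg _)]
  ring

open Classical in
/-- the main sum -/
theorem sum_F3_le (H : TkAlg) : ∃ A : ℝ, 0 ≤ A ∧ ∀ (M m₀ : Eis), (36 : Eis) ∣ M → Rad0 M m₀ →
    ∀ U : ℝ, (∀ P : Finset Eis, (∀ p ∈ P, Sm M p ∧ Prime p) →
      ∑ p ∈ P, A * (nm p : ℝ) ^ (-(35 / 24) : ℝ) ≤ U) → ∀ X : ℕ,
      ∑ D ∈ (primBall X).filter (Sm M), F3 m₀ D ≤ Real.exp U := by
  obtain ⟨A, hA0, hA⟩ := exists_cst H
  refine ⟨A, hA0, fun M m₀ h36 hR U hU X => ?_⟩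
  have hm : m₀ ≠ 0 := hR.prim.ne_zero
  refine eul_sum_le (m := M) (F := F3 m₀) (u := fun p => A * (nm p : ℝ) ^ (-(35 / 24) : ℝ))
    (fun b hb => F3_nonneg H hm hb.ne_zero) (F3_one H hm).le ?_ ?_ hU X
  · intro p k b hp hpp _ hb hpb
    exact (F3_mul H hm (Sm.two h36 hp) hpp (Sm.two h36 hb) hpb (rad_cop hR hp hpp)).le
  · intro p hp hpp K
    refine le_trans (le_of_eq ?_) (hA p (Sm.two h36 hp) hpp K)
    refine Finset.sum_congr rfl fun k _ => ?_
    exact F3_pow H hm (Sm.two h36 hp) hpp (rad_cop hR hp hpp)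

lemma EE_le_F3 (H : TkAlg) {m₀ D : Eis} (hm : m₀ ≠ 0) (hD : D ≠ 0) :
    ‖EE m₀ D‖ * (nm D : ℝ) ^ (-(5 / 6) : ℝ) ≤ ‖EE m₀ 1‖ * F3 m₀ D := by
  have h1 := EE_le (mul_ne_zero hm hD)
  have h2 := N0_one_pos H hm
  rw [EE_one H hm]
  unfold F3
  have e : N0 m₀ 1 * (N0 m₀ D / N0 m₀ 1 * (nm D : ℝ) ^ (-(5 / 6) : ℝ)) =
      N0 m₀ D * (nm D : ℝ) ^ (-(5 / 6) : ℝ) := by
    field_simp
  rw [e]
  exact mul_le_mul_of_nonneg_right h1 (by positivity)

open Classical in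
lemma fin_sum_le (H : TkAlg) {M m₀ : Eis} (hm : m₀ ≠ 0) {B : ℝ}
    (hB : ∀ X : ℕ, ∑ D ∈ (primBall X).filter (Sm M), F3 m₀ D ≤ B) (u : Finset Eis) :
    ∑ D ∈ u, (if Sm M D then ‖EE m₀ D‖ else 0) * (nm D : ℝ) ^ (-(5 / 6) : ℝ) ≤
      ‖EE m₀ 1‖ * B ∧
    ∑ D ∈ u, (if Sm M D ∧ D ≠ 1 then ‖EE m₀ D‖ else 0) * (nm D : ℝ) ^ (-(5 / 6) : ℝ) ≤
      ‖EE m₀ 1‖ * (B - 1) := by
  set X : ℕ := max 1 (u.sup nm) with hX
  have hsub : u.filter (Sm M) ⊆ (primBall X).filter (Sm M) := by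
    intro D hD
    rw [Finset.mem_filter] at hD ⊢
    refine ⟨mem_primBall.mpr ⟨?_, hD.2.1⟩, hD.2⟩
    exact (Finset.le_sup (f := nm) hD.1).trans (le_max_right _ _)
  have h1mem : (1 : Eis) ∈ (primBall X).filter (Sm M) := by
    rw [Finset.mem_filter, mem_primBall, nm_one]
    exact ⟨⟨le_max_left _ _, isPrim_one⟩, Sm.one M⟩
  constructor
  · calc ∑ D ∈ u, (if Sm M D then ‖EE m₀ D‖ else 0) * (nm D : ℝ) ^ (-(5 / 6) : ℝ)
        = ∑ D ∈ u.filter (Sm M), ‖EE m₀ D‖ * (nm D : ℝ) ^ (-(5 / 6) : ℝ) := by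
          rw [Finset.sum_filter]
          refine Finset.sum_congr rfl fun D _ => ?_
          split_ifs
          · rfl
          · rw [zero_mul]
      _ ≤ ∑ D ∈ u.filter (Sm M), ‖EE m₀ 1‖ * F3 m₀ D := by
          refine Finset.sum_le_sum fun D hD => ?_
          exact EE_le_F3 H hm (Finset.mem_filter.mp hD).2.ne_zero
      _ ≤ ∑ D ∈ (primBall X).filter (Sm M), ‖EE m₀ 1‖ * F3 m₀ D := by
          refine Finset.sum_le_sum_of_subset_of_nonneg hsub fun D hD _ => ?_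
          exact mul_nonneg (norm_nonneg _)
            (F3_nonneg H hm (Finset.mem_filter.mp hD).2.ne_zero)
      _ = ‖EE m₀ 1‖ * ∑ D ∈ (primBall X).filter (Sm M), F3 m₀ D := by rw [Finset.mul_sum]
      _ ≤ _ := mul_le_mul_of_nonneg_left (hB X) (norm_nonneg _)
  · calc ∑ D ∈ u, (if Sm M D ∧ D ≠ 1 then ‖EE m₀ D‖ else 0) * (nm D : ℝ) ^ (-(5 / 6) : ℝ)
        = ∑ D ∈ (u.filter (Sm M)).erase 1, ‖EE m₀ D‖ * (nm D : ℝ) ^ (-(5 / 6) : ℝ) := by
          have e : (u.filter (Sm M)).erase 1 = u.filter (fun D => Sm M D ∧ D ≠ 1) := by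
            ext D
            rw [Finset.mem_erase, Finset.mem_filter, Finset.mem_filter]
            tauto
          rw [e, Finset.sum_filter]
          refine Finset.sum_congr rfl fun D _ => ?_
          split_ifs
          · rfl
          · rw [zero_mul]
      _ ≤ ∑ D ∈ (u.filter (Sm M)).erase 1, ‖EE m₀ 1‖ * F3 m₀ D := by
          refine Finset.sum_le_sum fun D hD => ?_
          exact EE_le_F3 H hm (Finset.mem_filter.mp (Finset.mem_of_mem_erase hD)).2.ne_zero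
      _ ≤ ∑ D ∈ ((primBall X).filter (Sm M)).erase 1, ‖EE m₀ 1‖ * F3 m₀ D := by
          refine Finset.sum_le_sum_of_subset_of_nonneg (Finset.erase_subset_erase 1 hsub)
            fun D hD _ => ?_
          exact mul_nonneg (norm_nonneg _)
            (F3_nonneg H hm (Finset.mem_filter.mp (Finset.mem_of_mem_erase hD)).2.ne_zero)
      _ = ‖EE m₀ 1‖ * (∑ D ∈ (primBall X).filter (Sm M), F3 m₀ D - 1) := by
          rw [← Finset.mul_sum, ← Finset.add_sum_erase _ _ h1mem, F3_one H hm]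
          ring
      _ ≤ _ := by
          refine mul_le_mul_of_nonneg_left ?_ (norm_nonneg _)
          linarith [hB X]

/-- **S3** -/
theorem s3 : S3 := by
  classical
  intro H
  obtain ⟨A, hA0, hA⟩ := sum_F3_le H
  have hsum := LatSum413.summable_nm_rpow (s := 35 / 24) (by norm_num)
  refine ⟨?_, ?_⟩
  · intro M m₀ h36 hR
    have hm : m₀ ≠ 0 := hR.prim.ne_zero
    have hB : ∀ X : ℕ, ∑ D ∈ (primBall X).filter (Sm M), F3 m₀ D ≤
        Real.exp (A * ∑' z : Eis, (nm z : ℝ) ^ (-(35 / 24) : ℝ)) := by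
      refine hA M m₀ h36 hR _ ?_
      intro P _
      rw [← Finset.mul_sum]
      exact mul_le_mul_of_nonneg_left (hsum.sum_le_tsum P (fun z _ => by positivity)) hA0
    refine summable_of_sum_le (fun D => ?_) (fun u => (fin_sum_le H hm hB u).1)
    split_ifs <;> positivity
  · intro δ hδ
    have hU0 : 0 < Real.log (1 + δ) := Real.log_pos (by linarith)
    have hε : 0 < Real.log (1 + δ) / (A + 1) := by positivity
    obtain ⟨s, hs⟩ := hsum.vanishing (Metric.ball_mem_nhds (0 : ℝ) hε)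
    refine ⟨s.sup nm, fun M m₀ h36 hR hbig => ?_⟩
    have hm : m₀ ≠ 0 := hR.prim.ne_zero
    have hpos := N0_one_pos H hm
    have hB : ∀ X : ℕ, ∑ D ∈ (primBall X).filter (Sm M), F3 m₀ D ≤
        Real.exp (Real.log (1 + δ)) := by
      refine hA M m₀ h36 hR _ ?_
      intro P hP
      have hdis : Disjoint P s := by
        rw [Finset.disjoint_left]
        intro p hp hps
        have h1 := hbig p (hP p hp).2 (Finset.le_sup (f := nm) hps)
        have hPP : IsPP p := ⟨(hP p hp).1.1, (hP p hp).2⟩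
        exact (hPP.isCoprime_iff.mp (hP p hp).1.2) h1
      have h2 := hs P hdis
      rw [Metric.mem_ball, dist_zero_right, Real.norm_eq_abs] at h2
      have h3 := (abs_lt.mp h2).2
      rw [← Finset.mul_sum]
      have h4 : 0 ≤ ∑ i ∈ P, (nm i : ℝ) ^ (-(35 / 24) : ℝ) :=
        Finset.sum_nonneg fun _ _ => by positivity
      calc A * ∑ i ∈ P, (nm i : ℝ) ^ (-(35 / 24) : ℝ)
          ≤ (A + 1) * ∑ i ∈ P, (nm i : ℝ) ^ (-(35 / 24) : ℝ) :=
            mul_le_mul_of_nonneg_right (by linarith) h4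
        _ ≤ (A + 1) * (Real.log (1 + δ) / (A + 1)) :=
            mul_le_mul_of_nonneg_left h3.le (by linarith)
        _ = Real.log (1 + δ) := by field_simp
    rw [Real.exp_log (by linarith)] at hB
    constructor
    · intro h0
      rw [← EE_one H hm, h0, norm_zero] at hpos
      exact lt_irrefl _ hpos
    · refine Real.tsum_le_of_sum_le (fun D => ?_) (fun u => ?_)
      · split_ifs <;> positivity
      · refine ((fin_sum_le H hm hB u).2).trans (le_of_eq ?_)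
        ring

end Crest.Agent.R017.S3571
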