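import Crest.Agent.R017.BL5defs2_868
import Crest.Agent.R017.S3_571

/-!
# Row 17, leaf L5, sub-leaf `ReE` (helper401)
-/

set_option autoImplicit false

noncomputable section

open MeasureTheory Complex Set
open scoped ComplexConjugate ContDiff

namespace Crest.Agent.R017.ReE401

open Crest.Agent.R012 Crest.Agent.R012.Eis Crest.Agent.R012.Mob705 Crest.Agent.R012.Div277
open Crest.Agent.R017.End699 Crest.Agent.R017.Sx545 Crest.Agent.R017.B770
open Crest.Agent.R017.L5 Crest.Agent.R017.BEndA699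

open Classical in
/-- the pairs `(e, D')` with `e⁶ D' ∈ u` -/
def prs (M : Eis) (u : Finset Eis) : Finset (Eis × Eis) :=
  (u.biUnion dvs ×ˢ u.biUnion dvs).filter
    (fun p => p.1 ^ 6 * p.2 ∈ u ∧ Sm M p.1 ∧ Sm M p.2)

open Classical in
lemma sum_prs {R : Type*} [AddCommMonoid R] (M : Eis) (u : Finset Eis) (hu : ∀ D ∈ u, D ≠ 0)
    (F : Eis × Eis → R) :
    ∑ D ∈ u, ∑ p ∈ (dvs D ×ˢ dvs D).filter (fun p => p.1 ^ 6 * p.2 = D ∧ Sm M p.1 ∧ Sm M p.2),
      F p = ∑ p ∈ prs M u, F p := by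
  rw [← Finset.sum_fiberwise_of_maps_to (s := prs M u) (t := u) (g := fun p => p.1 ^ 6 * p.2)
    (fun p hp => by
      unfold prs at hp
      rw [Finset.mem_filter] at hp
      exact hp.2.1)]
  refine Finset.sum_congr rfl fun D hD => Finset.sum_congr ?_ fun _ _ => rfl
  ext p
  unfold prs
  simp only [Finset.mem_filter, Finset.mem_product, Finset.mem_biUnion]
  constructor
  · rintro ⟨⟨h1, h2⟩, h3, h4, h5⟩
    exact ⟨⟨⟨⟨D, hD, h1⟩, ⟨D, hD, h2⟩⟩, h3 ▸ hD, h4, h5⟩, h3⟩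
  · rintro ⟨⟨_, _, h4, h5⟩, h3⟩
    refine ⟨⟨(mem_dvs (hu D hD)).mpr ⟨h4.prim, ?_⟩, (mem_dvs (hu D hD)).mpr ⟨h5.prim, ?_⟩⟩,
      h3, h4, h5⟩
    · rw [← h3]; exact (dvd_pow_self _ (by norm_num)).mul_right _
    · rw [← h3]; exact dvd_mul_left _ _

lemma rpow_id {x y : ℝ} (hx : 0 < x) (hy : 0 < y) :
    x ^ 3 * (x ^ 6 * y) ^ (-(5 / 6) : ℝ) = x ^ (-(2 : ℝ)) * y ^ (-(5 / 6) : ℝ) := by
  rw [Real.mul_rpow (by positivity) hy.le, ← Real.rpow_natCast x 6, ← Real.rpow_mul hx.le,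
    ← mul_assoc, ← Real.rpow_natCast x 3, ← Real.rpow_add hx]
  norm_num

/-- `N e^{-2}` -/
def we (e : Eis) : ℝ := (nm e : ℝ) ^ (-(2 : ℝ))

open Classical in
/-- `|a(D)| N D^{-5/6}` on `Sm M` -/
def ga (M : Eis) (a : Eis → ℂ) (D : Eis) : ℝ :=
  (if Sm M D then ‖a D‖ else 0) * (nm D : ℝ) ^ (-(5 / 6) : ℝ)

lemma we_nonneg (e : Eis) : 0 ≤ we e := by unfold we; positivity

lemma ga_nonneg (M : Eis) (a : Eis → ℂ) (D : Eis) : 0 ≤ ga M a D := by
  unfold ga
  split_ifs <;> positivity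

lemma we_one : we 1 = 1 := by unfold we; rw [nm_one]; simp

lemma ga_one (M : Eis) (a : Eis → ℂ) : ga M a 1 = ‖a 1‖ := by
  unfold ga
  rw [if_pos (Sm.one M), nm_one]
  simp

open Classical in
lemma norm_eG_le {M : Eis} {ξ a : Eis → ℂ} (hξ : ∀ e, ‖ξ e‖ ≤ 1) (D : Eis) :
    ‖eG M ξ a D‖ * (nm D : ℝ) ^ (-(5 / 6) : ℝ) ≤
      ∑ p ∈ (dvs D ×ˢ dvs D).filter (fun p => p.1 ^ 6 * p.2 = D ∧ Sm M p.1 ∧ Sm M p.2),
        we p.1 * ga M a p.2 := by
  unfold eG
  refine (mul_le_mul_of_nonneg_right (norm_sum_le _ _) (by positivity)).trans ?_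
  rw [Finset.sum_mul]
  refine Finset.sum_le_sum fun p hp => ?_
  rw [Finset.mem_filter] at hp
  obtain ⟨-, h1, h2, h3⟩ := hp
  have hx : (0 : ℝ) < nm p.1 := by exact_mod_cast nm_pos.mpr h2.ne_zero
  have hy : (0 : ℝ) < nm p.2 := by exact_mod_cast nm_pos.mpr h3.ne_zero
  have e1 : (nm D : ℝ) = (nm p.1 : ℝ) ^ 6 * nm p.2 := by
    rw [← h1, nm_mul, nm_pow]; push_cast; ring
  rw [e1, norm_mul, norm_mul, norm_pow, Complex.norm_natCast]
  unfold we ga
  rw [if_pos h3]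
  calc ‖ξ p.1‖ * (nm p.1 : ℝ) ^ 3 * ‖a p.2‖ * ((nm p.1 : ℝ) ^ 6 * nm p.2) ^ (-(5 / 6) : ℝ)
      ≤ 1 * (nm p.1 : ℝ) ^ 3 * ‖a p.2‖ * ((nm p.1 : ℝ) ^ 6 * nm p.2) ^ (-(5 / 6) : ℝ) := by
        gcongr
        exact hξ _
    _ = ‖a p.2‖ * ((nm p.1 : ℝ) ^ 3 * ((nm p.1 : ℝ) ^ 6 * nm p.2) ^ (-(5 / 6) : ℝ)) := by ring
    _ = _ := by rw [rpow_id hx hy]; ring

/-- finite sums -/
lemma sum_eG_le {M : Eis} {ξ a : Eis → ℂ} (hξ : ∀ e, ‖ξ e‖ ≤ 1) (u : Finset Eis)
    (hu : ∀ D ∈ u, D ≠ 0) :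
    ∑ D ∈ u, ‖eG M ξ a D‖ * (nm D : ℝ) ^ (-(5 / 6) : ℝ) ≤
      ∑ p ∈ prs M u, we p.1 * ga M a p.2 := by
  classical
  rw [← sum_prs M u hu]
  exact Finset.sum_le_sum fun D _ => norm_eG_le hξ D

lemma nm_gt {M e : Eis} {P₀ : ℕ} (hP : ∀ p : Eis, Prime p → nm p ≤ P₀ → p ∣ M) (he : Sm M e)
    (h1 : e ≠ 1) : P₀ < nm e := by
  obtain ⟨p, hp, hpe⟩ := Mob705.exists_pp_dvd_of_isPrim he.prim h1
  have h2 : ¬ p ∣ M := fun h => hp.prime.not_isUnit (he.cop.isUnit_of_dvd' hpe h)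
  have h3 : P₀ < nm p := by
    by_contra h
    exact h2 (hP p hp.prime (not_lt.mp h))
  exact h3.trans_le (nm_le_of_dvd he.ne_zero hpe)

/-- the choice of `P₀` -/
lemma exists_P0 : ∃ P₀ : ℕ, ∀ M : Eis, (∀ p : Eis, Prime p → nm p ≤ P₀ → p ∣ M) →
    ∀ u : Finset Eis, (∀ e ∈ u, Sm M e ∧ e ≠ 1) → ∑ e ∈ u, we e ≤ 1 / 4 := by
  have hs := LatSum413.summable_nm_rpow (s := 3 / 2) (by norm_num)
  set Z : ℝ := ∑' z : Eis, (nm z : ℝ) ^ (-(3 / 2) : ℝ) with hZ
  have hZ0 : 0 ≤ Z := tsum_nonneg fun _ => by positivity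
  refine ⟨⌈(4 * Z) ^ 2⌉₊ + 1, fun M hP u hu => ?_⟩
  set P₀ : ℕ := ⌈(4 * Z) ^ 2⌉₊ + 1 with hP0
  have hPpos : (0 : ℝ) < P₀ := by rw [hP0]; positivity
  have hPZ : 4 * Z ≤ (P₀ : ℝ) ^ (1 / 2 : ℝ) := by
    rw [← Real.sqrt_eq_rpow]
    apply Real.le_sqrt_of_sq_le
    rw [hP0]
    push_cast
    have := Nat.le_ceil ((4 * Z) ^ 2)
    linarith
  have h1 : ∀ e ∈ u, we e ≤ (P₀ : ℝ) ^ (-(1 / 2) : ℝ) * (nm e : ℝ) ^ (-(3 / 2) : ℝ) := by
    intro e he
    obtain ⟨h2, h3⟩ := hu e he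
    have h4 : (P₀ : ℝ) ≤ nm e := by exact_mod_cast (nm_gt hP h2 h3).le
    have h5 : (0 : ℝ) < nm e := by linarith
    unfold we
    have e1 : (nm e : ℝ) ^ (-(2 : ℝ)) = (nm e : ℝ) ^ (-(1 / 2) : ℝ) *
        (nm e : ℝ) ^ (-(3 / 2) : ℝ) := by
      rw [← Real.rpow_add h5]; norm_num
    rw [e1]
    apply mul_le_mul_of_nonneg_right _ (by positivity)
    exact Real.rpow_le_rpow_of_nonpos hPpos h4 (by norm_num)
  refine (Finset.sum_le_sum h1).trans ?_
  rw [← Finset.mul_sum]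
  have h2 : ∑ e ∈ u, (nm e : ℝ) ^ (-(3 / 2) : ℝ) ≤ Z := hs.sum_le_tsum u fun _ _ => by positivity
  have h3 : (P₀ : ℝ) ^ (-(1 / 2) : ℝ) * Z ≤ 1 / 4 := by
    rw [Real.rpow_neg hPpos.le, inv_mul_le_iff₀ (by positivity)]
    linarith
  exact (mul_le_mul_of_nonneg_left h2 (by positivity)).trans h3

/-- **convergence** -/
theorem ac_eG {M : Eis} {ξ a : Eis → ℂ} (hξ : ∀ e, ‖ξ e‖ ≤ 1) (ha : Summable (ga M a)) :
    AC (eG M ξ a) (5 / 6) := by
  classical
  have hs := LatSum413.summable_nm_rpow (s := 2) (by norm_num)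
  unfold AC
  refine summable_of_sum_le (c := (∑' z : Eis, we z) * ∑' D, ga M a D)
    (fun b => by positivity) (fun u => ?_)
  have h1 : ∑ b ∈ u, ‖ip (eG M ξ a) b‖ * (nm b : ℝ) ^ (-(5 / 6) : ℝ) =
      ∑ b ∈ u.filter IsPrim, ‖eG M ξ a b‖ * (nm b : ℝ) ^ (-(5 / 6) : ℝ) := by
    rw [Finset.sum_filter]
    refine Finset.sum_congr rfl fun b _ => ?_
    split_ifs with h
    · rw [ip_of h]
    · rw [ip_of_not h, norm_zero, zero_mul]
  rw [h1]
  refine (sum_eG_le hξ _ fun D hD => (Finset.mem_filter.mp hD).2.ne_zero).trans ?_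
  set v := (u.filter IsPrim).biUnion dvs with hv
  have h2 : ∑ p ∈ prs M (u.filter IsPrim), we p.1 * ga M a p.2 ≤
      ∑ p ∈ v ×ˢ v, we p.1 * ga M a p.2 := by
    unfold prs
    apply Finset.sum_le_sum_of_subset_of_nonneg (Finset.filter_subset _ _)
    intro p _ _
    exact mul_nonneg (we_nonneg _) (ga_nonneg _ _ _)
  refine h2.trans ?_
  rw [Finset.sum_product, ← Finset.sum_mul_sum]
  apply mul_le_mul
  · exact hs.sum_le_tsum v fun _ _ => we_nonneg _
  · exact ha.sum_le_tsum v fun _ _ => ga_nonneg _ _ _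
  · exact Finset.sum_nonneg fun _ _ => ga_nonneg _ _ _
  · exact tsum_nonneg fun _ => we_nonneg _

lemma eG_one {M : Eis} {ξ a : Eis → ℂ} (h1 : ξ 1 = 1) : eG M ξ a 1 = a 1 := by
  classical
  have hd1 : dvs (1 : Eis) = {1} := by
    ext d
    rw [mem_dvs one_ne_zero, Finset.mem_singleton]
    constructor
    · rintro ⟨h1, h2⟩
      exact isPrim_eq_one_of_isUnit h1 (isUnit_of_dvd_one h2)
    · rintro rfl
      exact ⟨isPrim_one, one_dvd _⟩
  unfold eG
  rw [hd1, Finset.singleton_product_singleton, Finset.filter_singleton, if_pos]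
  · rw [Finset.sum_singleton]
    simp only [nm_one, Nat.cast_one, one_pow, mul_one, h1, one_mul]
  · exact ⟨by norm_num, Sm.one M, Sm.one M⟩

/-- **domination** -/
theorem dom_eG {P₀ : ℕ} (hP0 : ∀ M : Eis, (∀ p : Eis, Prime p → nm p ≤ P₀ → p ∣ M) →
    ∀ u : Finset Eis, (∀ e ∈ u, Sm M e ∧ e ≠ 1) → ∑ e ∈ u, we e ≤ 1 / 4)
    {M : Eis} {ξ a : Eis → ℂ} (hξ : ∀ e, ‖ξ e‖ ≤ 1) (hξ1 : ξ 1 = 1) (ha : Summable (ga M a))
    (hP : ∀ p : Eis, Prime p → nm p ≤ P₀ → p ∣ M) (ha1 : a 1 ≠ 0)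
    (ht : ∑' D : Eis, (if D = 1 then 0 else ga M a D) ≤ 1 / 4 * ‖a 1‖) :
    Dom (eG M ξ a) := by
  classical
  have ha1' : 0 < ‖a 1‖ := norm_pos_iff.mpr ha1
  unfold Dom
  rw [eG_one hξ1]
  refine lt_of_le_of_lt (b := 9 / 16 * ‖a 1‖) ?_ (by linarith)
  have hsum' : Summable (fun D : Eis => if D = 1 then 0 else ga M a D) :=
    Summable.of_nonneg_of_le (fun D => by split_ifs; exacts [le_rfl, ga_nonneg _ _ _])
      (fun D => by split_ifs; exacts [ga_nonneg _ _ _, le_rfl]) ha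
  refine Real.tsum_le_of_sum_le (fun b => by positivity) (fun u => ?_)
  set w : Finset Eis := (u.filter IsPrim).erase 1 with hw
  have h1 : ∑ b ∈ u, ‖ip (fun b => if b = 1 then 0 else eG M ξ a b) b‖ *
      (nm b : ℝ) ^ (-(5 / 6) : ℝ) ≤ ∑ b ∈ w, ‖eG M ξ a b‖ * (nm b : ℝ) ^ (-(5 / 6) : ℝ) := by
    have e1 : ∀ b ∈ u, ‖ip (fun b => if b = 1 then 0 else eG M ξ a b) b‖ *
        (nm b : ℝ) ^ (-(5 / 6) : ℝ) = if b ∈ w then ‖eG M ξ a b‖ *
        (nm b : ℝ) ^ (-(5 / 6) : ℝ) else 0 := by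
      intro b hb
      have hbw : b ∈ w ↔ b ≠ 1 ∧ b ∈ u ∧ IsPrim b := by
        rw [hw, Finset.mem_erase, Finset.mem_filter]
      by_cases hb1 : b = 1
      · rw [if_neg (fun h => (hbw.mp h).1 hb1), hb1, ip_of isPrim_one, if_pos rfl, norm_zero,
          zero_mul]
      · by_cases hbp : IsPrim b
        · rw [if_pos (hbw.mpr ⟨hb1, hb, hbp⟩), ip_of hbp, if_neg hb1]
        · rw [if_neg (fun h => hbp (hbw.mp h).2.2), ip_of_not hbp, norm_zero, zero_mul]
    rw [Finset.sum_congr rfl e1, ← Finset.sum_filter]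
    apply Finset.sum_le_sum_of_subset_of_nonneg
    · intro b hb
      exact (Finset.mem_filter.mp hb).2
    · intro _ _ _; positivity
  refine h1.trans ((sum_eG_le hξ w fun D hD =>
    (Finset.mem_filter.mp (Finset.mem_of_mem_erase hD)).2.ne_zero).trans ?_)
  set v := w.biUnion dvs with hv
  -- split the pairs
  set E : Finset Eis := v.filter (fun e => Sm M e ∧ e ≠ 1) with hE
  have h2 : ∑ p ∈ prs M w, we p.1 * ga M a p.2 ≤
      (∑ e ∈ E, we e) * (∑ D ∈ insert 1 v, ga M a D) +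
        ∑ D ∈ v, (if D = 1 then 0 else ga M a D) := by
    have eprod : (∑ e ∈ E, we e) * (∑ D ∈ insert 1 v, ga M a D) =
        ∑ p ∈ E ×ˢ insert 1 v, we p.1 * ga M a p.2 := by
      rw [Finset.sum_product, ← Finset.sum_mul_sum]
    rw [eprod]
    have hsplit : prs M w = (prs M w).filter (fun p => p.1 = 1) ∪
        (prs M w).filter (fun p => ¬ p.1 = 1) := (Finset.filter_union_filter_not_eq _ _).symm
    have hdis : Disjoint ((prs M w).filter (fun p => p.1 = 1))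
        ((prs M w).filter (fun p => ¬ p.1 = 1)) := Finset.disjoint_filter_filter_not _ _ _
    rw [hsplit, Finset.sum_union hdis, add_comm]
    apply add_le_add
    · apply Finset.sum_le_sum_of_subset_of_nonneg
      · intro p hp
        unfold prs at hp
        rw [Finset.mem_filter, Finset.mem_filter, Finset.mem_product] at hp
        rw [Finset.mem_product, hE, Finset.mem_filter]
        exact ⟨⟨hp.1.1.1, hp.1.2.2.1, hp.2⟩, Finset.mem_insert_of_mem hp.1.1.2⟩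
      · intro p _ _
        exact mul_nonneg (we_nonneg _) (ga_nonneg _ _ _)
    · have h3 : ∑ p ∈ (prs M w).filter (fun p => p.1 = 1), we p.1 * ga M a p.2 =
          ∑ D ∈ ((prs M w).filter (fun p => p.1 = 1)).image Prod.snd, ga M a D := by
        rw [Finset.sum_image]
        · refine Finset.sum_congr rfl fun p hp => ?_
          rw [(Finset.mem_filter.mp hp).2, we_one, one_mul]
        · intro p hp q hq hpq
          rw [Finset.mem_coe, Finset.mem_filter] at hp hq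
          exact Prod.ext (hp.2.trans hq.2.symm) hpq
      rw [h3]
      have h4 : ∀ D ∈ ((prs M w).filter (fun p => p.1 = 1)).image Prod.snd, D ∈ v ∧ D ≠ 1 := by
        intro D hD
        rw [Finset.mem_image] at hD
        obtain ⟨p, hp, rfl⟩ := hD
        unfold prs at hp
        rw [Finset.mem_filter, Finset.mem_filter, Finset.mem_product] at hp
        refine ⟨hp.1.1.2, fun h => ?_⟩
        have h5 := hp.1.2.1
        rw [hp.2, h] at h5
        simp only [one_pow, mul_one] at h5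
        exact (Finset.mem_erase.mp h5).1 rfl
      calc _ = ∑ D ∈ ((prs M w).filter (fun p => p.1 = 1)).image Prod.snd,
            (if D = 1 then 0 else ga M a D) := by
            refine Finset.sum_congr rfl fun D hD => ?_
            rw [if_neg (h4 D hD).2]
        _ ≤ _ := by
            apply Finset.sum_le_sum_of_subset_of_nonneg
            · intro D hD; exact (h4 D hD).1
            · intro D _ _
              split_ifs
              · exact le_rfl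
              · exact ga_nonneg _ _ _
  refine h2.trans ?_
  have h3 : ∑ e ∈ E, we e ≤ 1 / 4 := hP0 M hP E fun e he => (Finset.mem_filter.mp he).2
  have h4 : ∀ s : Finset Eis, ∑ D ∈ s, (if D = 1 then 0 else ga M a D) ≤ 1 / 4 * ‖a 1‖ := by
    intro s
    refine (hsum'.sum_le_tsum s fun D _ => ?_).trans ht
    split_ifs
    · exact le_rfl
    · exact ga_nonneg _ _ _
  have h5 : ∑ D ∈ insert 1 v, ga M a D ≤ 5 / 4 * ‖a 1‖ := by
    have e1 : ∑ D ∈ insert 1 v, ga M a D = ga M a 1 +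
        ∑ D ∈ insert 1 v, (if D = 1 then 0 else ga M a D) := by
      have e2 : ∀ D ∈ insert 1 v, ga M a D = (if D = 1 then ga M a 1 else 0) +
          (if D = 1 then 0 else ga M a D) := by
        intro D _
        split_ifs with h
        · rw [h, add_zero]
        · rw [zero_add]
      rw [Finset.sum_congr rfl e2, Finset.sum_add_distrib, Finset.sum_ite_eq']
      rw [if_pos (Finset.mem_insert_self 1 v)]
    rw [e1, ga_one]
    have := h4 (insert 1 v)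
    linarith
  have h6 := h4 v
  have h7 : 0 ≤ ∑ e ∈ E, we e := Finset.sum_nonneg fun _ _ => we_nonneg _
  have h8 : 0 ≤ ∑ D ∈ insert 1 v, ga M a D := Finset.sum_nonneg fun _ _ => ga_nonneg _ _ _
  calc (∑ e ∈ E, we e) * (∑ D ∈ insert 1 v, ga M a D) +
        ∑ D ∈ v, (if D = 1 then 0 else ga M a D)
      ≤ 1 / 4 * (5 / 4 * ‖a 1‖) + 1 / 4 * ‖a 1‖ := by gcongr
    _ = 9 / 16 * ‖a 1‖ := by ring

/-! ### the reorganisation of the sums -/

lemma MV_zero {V : ℝ → ℂ} {Q β : ℝ} (hβ : ∀ x, V x ≠ 0 → 0 < x ∧ x ≤ β) (hQ : 0 < Q)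
    (h : β * Q < 1) (f : Eis → ℂ) : MV V Q f = 0 := by
  rw [MV_eq_sum hβ hQ f (N := 0) (by simpa using h)]
  apply Finset.sum_eq_zero
  intro b hb
  rw [mem_primBall] at hb
  exact absurd (nm_eq_zero.mp (Nat.le_zero.mp hb.1)) hb.2.ne_zero

lemma SQ_eq {V : ℝ → ℂ} {Q β : ℝ} (hβ0 : 0 < β) (hβ : ∀ x, V x ≠ 0 → 0 < x ∧ x ≤ β) (hQ : 0 < Q)
    (e ψ : Eis → ℂ) (l : ℤ) :
    SQ e V ψ l Q = ∑ d ∈ primBall ⌊β * Q⌋₊, e d * MV V (Q / nm d) (tw ψ l) := by
  classical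
  unfold SQ
  rw [tsum_eq_sum (s := primBall ⌊β * Q⌋₊ ×ˢ primBall ⌊β * Q⌋₊)]
  · rw [Finset.sum_product]
    refine Finset.sum_congr rfl fun d hd => ?_
    have hdp := (mem_primBall.mp hd).2
    have hd1 : (1 : ℝ) ≤ nm d := by exact_mod_cast nm_pos.mpr hdp.ne_zero
    have hd0 : (0 : ℝ) < nm d := by linarith
    rw [MV_eq_sum hβ (by positivity) _ (N := ⌊β * Q⌋₊) (by
      calc β * (Q / nm d) ≤ β * Q := by
            gcongr
            exact div_le_self hQ.le hd1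
        _ < _ := Nat.lt_floor_add_one _), Finset.mul_sum]
    refine Finset.sum_congr rfl fun b hb => ?_
    have hbp := (mem_primBall.mp hb).2
    unfold ip2
    rw [if_pos ⟨hdp, hbp⟩]
    have e0 : gb ψ l 0 b = (muE b : ℂ) * tw ψ l b := by
      unfold gb
      rw [neg_zero, Real.rpow_zero, Complex.ofReal_one, mul_one]
    have e1 : ((nm d * nm b : ℕ) : ℝ) / Q = nm b / (Q / nm d) := by
      push_cast
      field_simp
    simp only
    rw [e0, e1]
    ring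
  · rintro ⟨d, b⟩ hp
    unfold ip2
    split_ifs with h
    · obtain ⟨h1, h2⟩ := h
      simp only at h1 h2 ⊢
      have hd1 : 1 ≤ nm d := nm_pos.mpr h1.ne_zero
      have hb1 : 1 ≤ nm b := nm_pos.mpr h2.ne_zero
      have hV : V (((nm d * nm b : ℕ) : ℝ) / Q) = 0 := by
        by_contra hne
        have h3 := (hβ _ hne).2
        rw [div_le_iff₀ hQ] at h3
        have h4 : nm d * nm b ≤ ⌊β * Q⌋₊ := Nat.le_floor h3
        apply hp
        rw [Finset.mem_product, mem_primBall, mem_primBall]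
        exact ⟨⟨(Nat.le_mul_of_pos_right _ hb1).trans h4, h1⟩,
          ⟨(Nat.le_mul_of_pos_left _ hd1).trans h4, h2⟩⟩
      rw [hV, mul_zero]
    · rfl

open Classical in
theorem sq_eG {M : Eis} {ξ a : Eis → ℂ} {V : ℝ → ℂ} (hV : SW V) (ψ : Eis → ℂ) (l : ℤ) {Q : ℝ}
    (hQ : 0 < Q) :
    SQ (eG M ξ a) V ψ l Q = ∑' e : Eis, if Sm M e then ξ e * (nm e : ℂ) ^ 3 *
      ∑' D : Eis, (if Sm M D then a D * MV V (Q / ((nm e : ℝ) ^ 6 * nm D)) (tw ψ l) else 0)
      else 0 := by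
  obtain ⟨β, hβ1, hβ⟩ := Asm986.sw_bound hV
  have hβ0 : 0 < β := by linarith
  set X : ℕ := ⌊β * Q⌋₊ with hX
  set B : Finset Eis := primBall X with hB
  have hBQ : ∀ m : ℕ, X < m → 0 < m → β * (Q / m) < 1 := by
    intro m hm hm0
    have h1 : β * Q < m := by
      have := Nat.lt_floor_add_one (β * Q)
      have h2 : (X : ℝ) + 1 ≤ m := by exact_mod_cast hm
      rw [← hX] at this
      linarith
    have h2 : (0 : ℝ) < m := by exact_mod_cast hm0
    rw [mul_div_assoc', div_lt_one h2]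
    exact h1
  have hMV : ∀ e D : Eis, Sm M e → Sm M D → X < nm (e ^ 6 * D) →
      MV V (Q / ((nm e : ℝ) ^ 6 * nm D)) (tw ψ l) = 0 := by
    intro e D he hD h
    have h0 : 0 < nm (e ^ 6 * D) := nm_pos.mpr (mul_ne_zero (pow_ne_zero _ he.ne_zero) hD.ne_zero)
    have e1 : ((nm e : ℝ) ^ 6 * nm D) = (nm (e ^ 6 * D) : ℝ) := by
      rw [nm_mul, nm_pow]; push_cast; ring
    rw [e1]
    have h1 : (0 : ℝ) < nm (e ^ 6 * D) := by exact_mod_cast h0
    exact MV_zero hβ (by positivity) (hBQ _ h h0) _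
  -- the right-hand side
  have hR : (∑' e : Eis, if Sm M e then ξ e * (nm e : ℂ) ^ 3 *
      ∑' D : Eis, (if Sm M D then a D * MV V (Q / ((nm e : ℝ) ^ 6 * nm D)) (tw ψ l) else 0)
      else 0) = ∑ p ∈ B ×ˢ B, if Sm M p.1 ∧ Sm M p.2 then ξ p.1 * (nm p.1 : ℂ) ^ 3 *
        (a p.2 * MV V (Q / ((nm p.1 : ℝ) ^ 6 * nm p.2)) (tw ψ l)) else 0 := by
    have hin : ∀ e : Eis, Sm M e → ∑' D : Eis,
        (if Sm M D then a D * MV V (Q / ((nm e : ℝ) ^ 6 * nm D)) (tw ψ l) else 0) =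
        ∑ D ∈ B, (if Sm M D then a D * MV V (Q / ((nm e : ℝ) ^ 6 * nm D)) (tw ψ l) else 0) := by
      intro e he
      apply tsum_eq_sum
      intro D hD
      split_ifs with h
      · rw [hMV e D he h, mul_zero]
        by_contra hle
        apply hD
        rw [hB, mem_primBall]
        refine ⟨le_trans ?_ (not_lt.mp hle), h.prim⟩
        rw [nm_mul]
        exact Nat.le_mul_of_pos_left _ (nm_pos.mpr (pow_ne_zero _ he.ne_zero))
      · rfl
    rw [tsum_eq_sum (s := B)]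
    · rw [Finset.sum_product]
      refine Finset.sum_congr rfl fun e _ => ?_
      split_ifs with he
      · rw [hin e he, Finset.mul_sum]
        refine Finset.sum_congr rfl fun D _ => ?_
        by_cases hD : Sm M D
        · rw [if_pos hD, if_pos ⟨he, hD⟩]
        · rw [if_neg hD, if_neg (fun h => hD h.2), mul_zero]
      · rw [Finset.sum_eq_zero]
        intro D _
        rw [if_neg (fun h => he h.1)]
    · intro e he
      split_ifs with h
      · have h1 : ∑' D : Eis,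
          (if Sm M D then a D * MV V (Q / ((nm e : ℝ) ^ 6 * nm D)) (tw ψ l) else 0) = 0 := by
          have h2 : ∀ D : Eis, (if Sm M D then a D *
              MV V (Q / ((nm e : ℝ) ^ 6 * nm D)) (tw ψ l) else 0) = 0 := by
            intro D
            split_ifs with hD
            · rw [hMV e D h hD, mul_zero]
              by_contra hle
              apply he
              rw [hB, mem_primBall]
              refine ⟨le_trans ?_ (not_lt.mp hle), h.prim⟩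
              rw [nm_mul, nm_pow]
              calc nm e ≤ nm e ^ 6 := Nat.le_self_pow (by norm_num) _
                _ ≤ nm e ^ 6 * nm D := Nat.le_mul_of_pos_right _ (nm_pos.mpr hD.ne_zero)
            · rfl
          simp only [h2, tsum_zero]
        rw [h1, mul_zero]
      · rfl
  rw [hR, SQ_eq hβ0 hβ hQ]
  -- the left-hand side
  have hL : ∑ d ∈ B, eG M ξ a d * MV V (Q / nm d) (tw ψ l) =
      ∑ p ∈ prs M B, ξ p.1 * (nm p.1 : ℂ) ^ 3 *
        (a p.2 * MV V (Q / ((nm p.1 : ℝ) ^ 6 * nm p.2)) (tw ψ l)) := by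
    rw [← sum_prs M B (fun D hD => (mem_primBall.mp hD).2.ne_zero)]
    refine Finset.sum_congr rfl fun d _ => ?_
    unfold eG
    rw [Finset.sum_mul]
    refine Finset.sum_congr rfl fun p hp => ?_
    rw [Finset.mem_filter] at hp
    have e1 : ((nm p.1 : ℝ) ^ 6 * nm p.2) = (nm d : ℝ) := by
      rw [← hp.2.1, nm_mul, nm_pow]; push_cast; ring
    rw [e1]
    ring
  rw [hL]
  apply Finset.sum_subset_zero_on_sdiff
  · intro p hp
    unfold prs at hp
    rw [Finset.mem_filter, Finset.mem_product, Finset.mem_biUnion, Finset.mem_biUnion] at hp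
    obtain ⟨⟨⟨d, hd, h1⟩, ⟨d', hd', h2⟩⟩, -⟩ := hp
    rw [Finset.mem_product]
    have hsub : ∀ {d x : Eis}, d ∈ B → x ∈ dvs d → x ∈ B := by
      intro d x hd hx
      rw [hB, mem_primBall] at hd ⊢
      exact ⟨(nm_le_of_dvd hd.2.ne_zero (dvd_of_mem_dvs hx)).trans hd.1, isPrim_of_mem_dvs hx⟩
    exact ⟨hsub hd h1, hsub hd' h2⟩
  · intro p hp
    rw [Finset.mem_sdiff, Finset.mem_product] at hp
    split_ifs with h
    · rw [hMV p.1 p.2 h.1 h.2, mul_zero, mul_zero]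
      by_contra hle
      apply hp.2
      have h3 : p.1 ^ 6 * p.2 ∈ B := by
        rw [hB, mem_primBall]
        exact ⟨not_lt.mp hle, (h.1.prim.pow 6).mul h.2.prim⟩
      unfold prs
      rw [Finset.mem_filter, Finset.mem_product, Finset.mem_biUnion, Finset.mem_biUnion]
      have h4 : p.1 ^ 6 * p.2 ≠ 0 := mul_ne_zero (pow_ne_zero _ h.1.ne_zero) h.2.ne_zero
      refine ⟨⟨⟨_, h3, (mem_dvs h4).mpr ⟨h.1.prim, ?_⟩⟩, ⟨_, h3, (mem_dvs h4).mpr ⟨h.2.prim, ?_⟩⟩⟩,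
        h3, h.1, h.2⟩
      · exact (dvd_pow_self _ (by norm_num)).mul_right _
      · exact dvd_mul_left _ _
    · rfl
  · intro p hp
    unfold prs at hp
    rw [Finset.mem_filter] at hp
    rw [if_pos ⟨hp.2.2.1, hp.2.2.2⟩]

/-- **ReE** (868) -/
theorem reE : ReE := by
  classical
  obtain ⟨P₀, hP₀⟩ := exists_P0
  refine ⟨P₀, 1 / 4, by norm_num, fun M h36 ξ a hξ hξ1 ha => ⟨ac_eG hξ ha, ?_, ?_⟩⟩
  · intro hP ha1 ht
    refine dom_eG hP₀ hξ hξ1 ha hP ha1 (le_trans (le_of_eq ?_) ht)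
    apply tsum_congr
    intro D
    unfold ga
    by_cases h1 : D = 1
    · rw [if_pos h1, if_neg (fun h => h.2 h1), zero_mul]
    · rw [if_neg h1]
      by_cases h2 : Sm M D
      · rw [if_pos h2, if_pos ⟨h2, h1⟩]
      · rw [if_neg h2, if_neg (fun h => h2 h.1)]
  · intro V hV ψ l _ Q hQ
    exact sq_eG hV ψ l hQ

end Crest.Agent.R017.ReE401
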