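import Mathlib

/-!
Row 17 (helper590): change of variables `y = M^3` and `p = 1/s` in `ℂ`.

* `integral_cube`  : `∫ G y dy = ∫ 3 |M|^4 G(M^3) dM`
* `integral_inv`   : `∫ G p dp = ∫ |s|^(-4) G(1/s) ds`
* integrability versions.
-/

open Complex MeasureTheory Set Filter Topology
open scoped ENNReal NNReal

namespace Crest.Agent.R017.F1Cube590

/-! ### the angular part -/

instance : Fact (0 < 2 * Real.pi) := ⟨by positivity⟩

lemma lintegral_angle_three (g : ℝ → ℝ≥0∞) (hg : Measurable g)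
    (hper : ∀ θ, g (θ + 2 * Real.pi) = g θ) :
    ∫⁻ θ in Ioo (-Real.pi) Real.pi, g (3 * θ) = ∫⁻ θ in Ioo (-Real.pi) Real.pi, g θ := by
  have hP : Function.Periodic g (2 * Real.pi) := hper
  set G : AddCircle (2 * Real.pi) → ℝ≥0∞ := hP.lift with hG
  have hGc : ∀ θ : ℝ, G (θ : AddCircle (2 * Real.pi)) = g θ := fun θ => hP.lift_coe θ
  have e1 : (volume : Measure ℝ).restrict (Ioo (-Real.pi) Real.pi) =
      (volume : Measure ℝ).restrict (Ioc (-Real.pi) (-Real.pi + 2 * Real.pi)) := by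
    rw [show -Real.pi + 2 * Real.pi = Real.pi by ring]
    exact Measure.restrict_congr_set Ioo_ae_eq_Ioc
  rw [e1]
  have h1 := AddCircle.lintegral_preimage (2 * Real.pi) (-Real.pi) G
  have h3 := AddCircle.lintegral_preimage (2 * Real.pi) (-Real.pi) (fun x => G ((3 : ℤ) • x))
  have hmeas : Measurable G := by
    have hm : Measurable (AddCircle.measurableEquivIoc (2 * Real.pi) (-Real.pi)) :=
      (AddCircle.measurableEquivIoc (2 * Real.pi) (-Real.pi)).measurable
    have : G = fun x => g ((AddCircle.measurableEquivIoc (2 * Real.pi) (-Real.pi) x : ℝ)) := by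
      ext x
      rw [← hGc]
      congr 1
      exact (AddCircle.measurableEquivIoc (2 * Real.pi) (-Real.pi)).symm_apply_apply x |>.symm
    rw [this]
    exact hg.comp (measurable_subtype_coe.comp hm)
  have hmp : MeasurePreserving (fun y : AddCircle (2 * Real.pi) => (3 : ℤ) • y) :=
    (AddCircle.ergodic_zsmul (T := 2 * Real.pi) (n := 3) (by norm_num)).toMeasurePreserving
  have h4 : ∫⁻ x : AddCircle (2 * Real.pi), G ((3 : ℤ) • x) = ∫⁻ x, G x :=
    hmp.lintegral_comp hmeas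
  calc ∫⁻ θ in Ioc (-Real.pi) (-Real.pi + 2 * Real.pi), g (3 * θ)
      = ∫⁻ θ in Ioc (-Real.pi) (-Real.pi + 2 * Real.pi),
          G ((3 : ℤ) • (θ : AddCircle (2 * Real.pi))) := by
        congr 1
        ext θ
        rw [← hGc]
        congr 1
        rw [← AddCircle.coe_zsmul]
        simp
    _ = ∫⁻ x : AddCircle (2 * Real.pi), G ((3 : ℤ) • x) := h3
    _ = ∫⁻ x, G x := h4
    _ = ∫⁻ θ in Ioc (-Real.pi) (-Real.pi + 2 * Real.pi), G (θ : AddCircle (2 * Real.pi)) := h1.symm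
    _ = ∫⁻ θ in Ioc (-Real.pi) (-Real.pi + 2 * Real.pi), g θ := by simp_rw [hGc]

/-- polar coordinates as an iterated integral -/
lemma lintegral_polar (g : ℂ → ℝ≥0∞) (hg : Measurable g) :
    ∫⁻ z, g z = ∫⁻ r in Ioi (0 : ℝ), ENNReal.ofReal r *
      ∫⁻ θ in Ioo (-Real.pi) Real.pi, g (r * cexp (θ * I)) := by
  rw [← Complex.lintegral_comp_polarCoord_symm g, polarCoord_target,
    Measure.volume_eq_prod, ← Measure.prod_restrict, lintegral_prod]
  · congr 1
    ext r
    rw [← lintegral_const_mul _ (by fun_prop)]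
    congr 1
    ext θ
    rw [Complex.polarCoord_symm_apply]
    simp only [smul_eq_mul]
    congr 2
    rw [Complex.exp_mul_I]
    push_cast
    ring
  · have : Measurable fun p : ℝ × ℝ => Complex.polarCoord.symm p := by
      have e : (fun p : ℝ × ℝ => Complex.polarCoord.symm p) = fun p : ℝ × ℝ =>
          (p.1 : ℂ) * (Real.cos p.2 + Real.sin p.2 * I) := by
        ext p; rw [Complex.polarCoord_symm_apply]
      rw [e]
      fun_prop
    simp only [smul_eq_mul]
    exact ((ENNReal.measurable_ofReal.comp measurable_fst).mul (hg.comp this)).aemeasurable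

theorem lintegral_cube (g : ℂ → ℝ≥0∞) (hg : Measurable g) :
    ∫⁻ M, ENNReal.ofReal (3 * ‖M‖ ^ 4) * g (M ^ 3) = ∫⁻ y, g y := by
  rw [lintegral_polar g hg, lintegral_polar _ (by fun_prop)]
  set A : ℝ → ℝ≥0∞ := fun r => ∫⁻ θ in Ioo (-Real.pi) Real.pi, g (r * cexp (θ * I)) with hA
  have h1 : ∀ r ∈ Ioi (0 : ℝ), ENNReal.ofReal r * ∫⁻ θ in Ioo (-Real.pi) Real.pi,
      ENNReal.ofReal (3 * ‖(r : ℂ) * cexp (θ * I)‖ ^ 4) * g (((r : ℂ) * cexp (θ * I)) ^ 3) =
      ENNReal.ofReal |3 * r ^ 2| * (ENNReal.ofReal (r ^ 3) * A (r ^ 3)) := by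
    intro r hr
    have hr0 : 0 < r := hr
    have e1 : ∀ θ : ℝ, ‖(r : ℂ) * cexp (θ * I)‖ = r := by
      intro θ
      rw [norm_mul, Complex.norm_exp_ofReal_mul_I, Complex.norm_real, Real.norm_eq_abs,
        abs_of_pos hr0, mul_one]
    have e2 : ∀ θ : ℝ, ((r : ℂ) * cexp (θ * I)) ^ 3 = ((r ^ 3 : ℝ) : ℂ) * cexp ((3 * θ : ℝ) * I) := by
      intro θ
      rw [mul_pow, ← Complex.exp_nat_mul]
      push_cast
      congr 2
      ring
    simp_rw [e1, e2]
    rw [lintegral_const_mul _ (by fun_prop)]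
    have h3 := lintegral_angle_three (fun θ => g (((r ^ 3 : ℝ) : ℂ) * cexp (θ * I)))
      (by fun_prop) (by
        intro θ
        congr 2
        push_cast
        rw [add_mul, Complex.exp_add, Complex.exp_two_pi_mul_I, mul_one])
    have h4 : ∫⁻ θ in Ioo (-Real.pi) Real.pi, g (((r ^ 3 : ℝ) : ℂ) * cexp ((3 * θ : ℝ) * I)) =
        A (r ^ 3) := h3
    rw [h4, ← mul_assoc, ← mul_assoc, ← ENNReal.ofReal_mul hr0.le,
      ← ENNReal.ofReal_mul (abs_nonneg _), abs_of_nonneg (by positivity)]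
    congr 2
    ring
  rw [setLIntegral_congr_fun measurableSet_Ioi h1]
  have himg : (fun r : ℝ => r ^ 3) '' Ioi 0 = Ioi 0 := by
    ext y
    constructor
    · rintro ⟨r, hr, rfl⟩
      exact pow_pos (show 0 < r from hr) 3
    · intro hy
      refine ⟨y ^ ((3 : ℝ)⁻¹), Real.rpow_pos_of_pos hy _, ?_⟩
      show (y ^ ((3 : ℝ)⁻¹)) ^ 3 = y
      rw [← Real.rpow_natCast, ← Real.rpow_mul (le_of_lt hy)]
      norm_num
  have hcv := lintegral_image_eq_lintegral_abs_deriv_mul (s := Ioi (0 : ℝ))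
    (f := fun r : ℝ => r ^ 3) (f' := fun r => 3 * r ^ 2) measurableSet_Ioi
    (fun r _ => by simpa using (hasDerivAt_pow 3 r).hasDerivWithinAt)
    (fun a ha b hb hab => by
      exact (pow_left_inj₀ (le_of_lt ha) (le_of_lt hb) (by norm_num)).mp hab)
    (fun r => ENNReal.ofReal r * A r)
  rw [himg] at hcv
  exact hcv.symm

/-- the measure `3 |M|^4 dM` is mapped to Lebesgue measure by `M ↦ M^3` -/
theorem map_cube : Measure.map (fun M : ℂ => M ^ 3)
    ((volume : Measure ℂ).withDensity fun M => ENNReal.ofReal (3 * ‖M‖ ^ 4)) = volume := by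
  refine Measure.ext_of_lintegral _ fun g hg => ?_
  rw [lintegral_map hg (by fun_prop), lintegral_withDensity_eq_lintegral_mul _ (by fun_prop)
    (by fun_prop)]
  exact lintegral_cube g hg

variable {E : Type*} [NormedAddCommGroup E] [NormedSpace ℝ E]

theorem integral_cube {G : ℂ → E} (hG : AEStronglyMeasurable G) :
    ∫ y, G y = ∫ M : ℂ, (3 * ‖M‖ ^ 4) • G (M ^ 3) := by
  have h1 : ∫ y, G y = ∫ y, G y ∂(Measure.map (fun M : ℂ => M ^ 3)
    ((volume : Measure ℂ).withDensity fun M => ENNReal.ofReal (3 * ‖M‖ ^ 4))) := by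
    rw [map_cube]
  rw [h1, integral_map (by fun_prop) (by rw [map_cube]; exact hG),
    integral_withDensity_eq_integral_toReal_smul (by fun_prop)
      (Eventually.of_forall fun x => ENNReal.ofReal_lt_top)]
  congr 1
  ext M
  rw [ENNReal.toReal_ofReal (by positivity)]

theorem integrable_cube {G : ℂ → E} (hG : Integrable G) :
    Integrable fun M : ℂ => (3 * ‖M‖ ^ 4) • G (M ^ 3) := by
  have h1 : Integrable G (Measure.map (fun M : ℂ => M ^ 3)
    ((volume : Measure ℂ).withDensity fun M => ENNReal.ofReal (3 * ‖M‖ ^ 4))) := by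
    rwa [map_cube]
  have h2 := h1.comp_measurable (f := fun M : ℂ => M ^ 3) (by fun_prop)
  rw [integrable_withDensity_iff_integrable_smul' (by fun_prop)
    (Eventually.of_forall fun x => ENNReal.ofReal_lt_top)] at h2
  refine h2.congr (Eventually.of_forall fun M => ?_)
  simp only [Function.comp_apply]
  rw [ENNReal.toReal_ofReal (by positivity)]


/-! ### inversion -/

lemma det_mulLeft (a : ℂ) : LinearMap.det (LinearMap.mulLeft ℝ a) = ‖a‖ ^ 2 := by
  have := Algebra.norm_complex_apply a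
  rw [Algebra.norm_apply, Complex.normSq_eq_norm_sq] at this
  exact this

/-- `∫ G p dp = ∫ |s|^(-4) G(1/s) ds` -/
theorem integral_inv (G : ℂ → E) : ∫ p, G p = ∫ s : ℂ, ((‖s‖ ^ 4)⁻¹) • G (s⁻¹) := by
  set f' : ℂ → ℂ →L[ℝ] ℂ := fun s => (ContinuousLinearMap.mul ℝ ℂ) (-(s ^ 2)⁻¹) with hf'
  have hd : ∀ s ∈ ({0}ᶜ : Set ℂ), HasFDerivWithinAt (fun s : ℂ => s⁻¹) (f' s) {0}ᶜ s := by
    intro s hs
    have h1 : HasDerivAt (fun s : ℂ => s⁻¹) (-(s ^ 2)⁻¹) s := hasDerivAt_inv hs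
    have h2 := (h1.hasFDerivAt.restrictScalars ℝ).hasFDerivWithinAt (s := {0}ᶜ)
    convert! h2 using 1
    ext
    simp [hf', mul_comm]
  have hinj : InjOn (fun s : ℂ => s⁻¹) ({0}ᶜ : Set ℂ) := inv_injective.injOn
  have himg : (fun s : ℂ => s⁻¹) '' ({0}ᶜ : Set ℂ) = {0}ᶜ := by
    ext y
    constructor
    · rintro ⟨x, hx, rfl⟩
      exact inv_ne_zero hx
    · intro hy
      exact ⟨y⁻¹, inv_ne_zero hy, inv_inv y⟩
  have key := integral_image_eq_integral_abs_det_fderiv_smul (volume : Measure ℂ)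
    (measurableSet_singleton (0 : ℂ)).compl hd hinj G
  rw [himg] at key
  have hae : ({0}ᶜ : Set ℂ) =ᵐ[volume] univ := by
    rw [ae_eq_univ, compl_compl]
    exact measure_singleton 0
  rw [setIntegral_congr_set hae, setIntegral_congr_set hae, setIntegral_univ,
    setIntegral_univ] at key
  rw [key]
  congr 1
  ext s
  congr 1
  have h3 : (f' s).det = ‖(-(s ^ 2)⁻¹ : ℂ)‖ ^ 2 := det_mulLeft _
  rw [h3, abs_of_nonneg (by positivity), norm_neg, norm_inv, norm_pow]
  ring

theorem integrable_inv {G : ℂ → E} (hG : Integrable G) :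
    Integrable fun s : ℂ => ((‖s‖ ^ 4)⁻¹) • G (s⁻¹) := by
  set f' : ℂ → ℂ →L[ℝ] ℂ := fun s => (ContinuousLinearMap.mul ℝ ℂ) (-(s ^ 2)⁻¹) with hf'
  have hd : ∀ s ∈ ({0}ᶜ : Set ℂ), HasFDerivWithinAt (fun s : ℂ => s⁻¹) (f' s) {0}ᶜ s := by
    intro s hs
    have h1 : HasDerivAt (fun s : ℂ => s⁻¹) (-(s ^ 2)⁻¹) s := hasDerivAt_inv hs
    have h2 := (h1.hasFDerivAt.restrictScalars ℝ).hasFDerivWithinAt (s := {0}ᶜ)
    convert! h2 using 1
    ext
    simp [hf', mul_comm]
  have hinj : InjOn (fun s : ℂ => s⁻¹) ({0}ᶜ : Set ℂ) := inv_injective.injOn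
  have key := integrableOn_image_iff_integrableOn_abs_det_fderiv_smul (volume : Measure ℂ)
    (measurableSet_singleton (0 : ℂ)).compl hd hinj G
  have h1 := key.mp hG.integrableOn
  have hae : ({0}ᶜ : Set ℂ) =ᵐ[volume] univ := by
    rw [ae_eq_univ, compl_compl]
    exact measure_singleton 0
  rw [integrableOn_congr_set_ae hae, integrableOn_univ] at h1
  refine h1.congr (Eventually.of_forall fun s => ?_)
  simp only
  congr 1
  have h3 : (f' s).det = ‖(-(s ^ 2)⁻¹ : ℂ)‖ ^ 2 := det_mulLeft _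
  rw [h3, abs_of_nonneg (by positivity), norm_neg, norm_inv, norm_pow]
  ring

end Crest.Agent.R017.F1Cube590
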