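import Crest.Agent.R012.Poisson_581
import Crest.Agent.R012.PoissonG_381
import Crest.Agent.R012.TateC_413
import Crest.Agent.R017.F1Cube_590

/-!
Row 17, section F / A (helper590): Fourier analysis on `ℂ` with `e(z) = exp(2πi(z + z̄))` for
Schwartz functions, and the basic transforms of functions supported in an annulus.

* `fC f ξ = ∫ f z e(-ξ z) dz` (from `Po581`)
* `fCS : 𝓢(ℂ,ℂ) → 𝓢(ℂ,ℂ)`, inversion `4 ∫ fC f u e(u v) du = f v`
* `CS f` : smooth, supported in an annulus; `gI f s = ‖s‖⁻⁴ f (1/s)`;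
  `Phi f y = ∫ f p e(-y/p) dp = fC (gI f) y`
-/

set_option autoImplicit false

noncomputable section

open Complex MeasureTheory Set Filter Topology
open scoped FourierTransform ContDiff SchwartzMap

namespace Crest.Agent.R017.Xi590

open Crest.Agent.R012 Crest.Agent.R012.Eis Crest.Agent.R012.Po581
open Crest.Agent.R017.F1Cube590

/-! ### the Fourier transform `fC` on Schwartz functions -/

/-- `ξ ↦ 2 ξ̄` as a real-linear equivalence of `ℂ` -/
def twoConj : ℂ ≃L[ℝ] ℂ :=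
  (Complex.conjCLE).trans (ContinuousLinearEquiv.smulLeft (Units.mk0 (2 : ℝ) (by norm_num)))

lemma twoConj_apply (z : ℂ) : twoConj z = 2 * (starRingEnd ℂ) z := by
  simp [twoConj, ContinuousLinearEquiv.smulLeft]

/-- `fC` as a map on Schwartz functions -/
def fCS (f : 𝓢(ℂ, ℂ)) : 𝓢(ℂ, ℂ) :=
  SchwartzMap.compCLMOfContinuousLinearEquiv ℝ twoConj (𝓕 f)

@[simp] lemma fCS_apply (f : 𝓢(ℂ, ℂ)) (ξ : ℂ) : fCS f ξ = fC f ξ := by
  unfold fCS
  rw [SchwartzMap.compCLMOfContinuousLinearEquiv_apply, Function.comp_apply, twoConj_apply,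
    fC_eq_fourier]
  rfl

lemma fCS_coe (f : 𝓢(ℂ, ℂ)) : (fCS f : ℂ → ℂ) = fC f := by
  ext ξ; exact fCS_apply f ξ


lemma fC_continuous_of {f : ℂ → ℂ} (hf : Integrable f) : Continuous (fC f) := by
  have h : Continuous (𝓕 f) := by
    have := VectorFourier.fourierIntegral_continuous Real.continuous_fourierChar
      (by exact continuous_inner : Continuous fun p : ℂ × ℂ => (innerₗ ℂ) p.1 p.2) hf
    exact this
  have e : fC f = fun ξ => 𝓕 f (2 * (starRingEnd ℂ) ξ) := by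
    ext ξ; exact fC_eq_fourier f ξ
  rw [e]
  exact h.comp (by fun_prop)

lemma norm_fC_le' (f : ℂ → ℂ) (ξ : ℂ) : ‖fC f ξ‖ ≤ ∫ z, ‖f z‖ := by
  unfold fC
  refine (norm_integral_le_integral_norm _).trans (le_of_eq ?_)
  congr 1
  ext z
  rw [norm_mul, eC_norm, mul_one]

lemma integral_twoConj {E : Type*} [NormedAddCommGroup E] [NormedSpace ℝ E] (G : ℂ → E) :
    ∫ u : ℂ, G (2 * (starRingEnd ℂ) u) = (4 : ℝ)⁻¹ • ∫ w, G w := by
  have h1 : ∫ u : ℂ, G (2 * (starRingEnd ℂ) u) = ∫ u : ℂ, G (2 * u) := by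
    have hmp : MeasurePreserving (Complex.conjLIE : ℂ → ℂ) volume volume :=
      Complex.conjLIE.measurePreserving
    have := hmp.integral_comp Complex.conjLIE.toHomeomorph.measurableEmbedding
      (fun u => G (2 * u))
    simpa using this
  rw [h1]
  have h2 := integral_comp_affine G (q := 2) (by norm_num) 0
  simp only [add_zero] at h2
  rw [h2]
  norm_num

/-- Fourier inversion -/
lemma inv4 {f : ℂ → ℂ} (hc : Continuous f) (hi : Integrable f) (hF : Integrable (fC f)) (v : ℂ) :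
    4 * ∫ u : ℂ, fC f u * eC (u * v) = f v := by
  have hF' : Integrable (𝓕 f) := by
    have e : 𝓕 f = fun w => fC f ((2 : ℂ)⁻¹ * (starRingEnd ℂ) w) := by
      ext w
      rw [fC_eq_fourier]
      rw [map_mul, map_inv₀, Complex.conj_conj, show (starRingEnd ℂ) 2 = 2 from Complex.conj_ofNat 2]
      congr 1
      rw [← mul_assoc]
      norm_num
    rw [e]
    have h1 : Integrable (fun w : ℂ => fC f ((2 : ℂ)⁻¹ * w)) := by
      have := hF.comp_smul (show (2 : ℝ)⁻¹ ≠ 0 by norm_num)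
      refine this.congr (Eventually.of_forall fun w => ?_)
      simp only [Complex.real_smul]
      push_cast
      rfl
    have hmp : MeasurePreserving (Complex.conjLIE : ℂ → ℂ) volume volume :=
      Complex.conjLIE.measurePreserving
    have h2 := hmp.integrable_comp_of_integrable h1
    simpa [Function.comp_def] using h2
  have h := congrFun (hc.fourierInv_fourier_eq hi hF') v
  rw [Real.fourierInv_eq'] at h
  have e2 : ∀ u : ℂ, fC f u * eC (u * v) =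
      (fun w : ℂ => cexp (((2 * Real.pi * inner ℝ w v : ℝ) : ℂ) * I) • 𝓕 f w)
        (2 * (starRingEnd ℂ) u) := by
    intro u
    simp only [smul_eq_mul]
    rw [fC_eq_fourier, mul_comm, eC_eq]
    congr 3
    rw [Complex.inner]
    simp
    ring
  simp_rw [e2]
  rw [integral_twoConj (fun w : ℂ => cexp (((2 * Real.pi * inner ℝ w v : ℝ) : ℂ) * I) • 𝓕 f w), h,
    Complex.real_smul]
  push_cast
  ring

/-- Schwartz decay -/
lemma sch_dec (f : 𝓢(ℂ, ℂ)) (A : ℕ) : ∃ C : ℝ, 0 ≤ C ∧ ∀ x, ‖f x‖ * (1 + ‖x‖) ^ A ≤ C := by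
  obtain ⟨C0, hC0, h0⟩ := f.decay 0 0
  obtain ⟨CA, hCA, hA⟩ := f.decay A 0
  simp only [norm_iteratedFDeriv_zero, pow_zero, one_mul] at h0 hA
  refine ⟨2 ^ (A - 1) * (C0 + CA), by positivity, fun x => ?_⟩
  calc ‖f x‖ * (1 + ‖x‖) ^ A ≤ ‖f x‖ * (2 ^ (A - 1) * (1 ^ A + ‖x‖ ^ A)) := by
        gcongr
        exact add_pow_le zero_le_one (norm_nonneg x) A
    _ = 2 ^ (A - 1) * (‖f x‖ + ‖x‖ ^ A * ‖f x‖) := by rw [one_pow]; ring
    _ ≤ 2 ^ (A - 1) * (C0 + CA) := by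
        gcongr
        · exact h0 x
        · exact hA x

lemma sch_inv (f : 𝓢(ℂ, ℂ)) (v : ℂ) : 4 * ∫ u : ℂ, fC f u * eC (u * v) = f v :=
  inv4 f.continuous f.integrable (by rw [← fCS_coe]; exact (fCS f).integrable) v

/-! ### functions supported in an annulus -/

/-- smooth, supported in an annulus -/
structure CS (f : ℂ → ℂ) : Prop where
  smooth : ContDiff ℝ ∞ f
  supp : ∃ a b : ℝ, 0 < a ∧ a < b ∧ ∀ x, ‖x‖ < a ∨ b < ‖x‖ → f x = 0

lemma CS.zero {f : ℂ → ℂ} (h : CS f) : f 0 = 0 := by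
  obtain ⟨a, b, ha, hab, hs⟩ := h.supp
  exact hs 0 (Or.inl (by simpa using ha))

lemma CS.cs {f : ℂ → ℂ} (h : CS f) : HasCompactSupport f := by
  obtain ⟨a, b, ha, hab, hs⟩ := h.supp
  refine HasCompactSupport.intro (isCompact_closedBall (0 : ℂ) b) fun x hx => hs x (Or.inr ?_)
  rw [mem_closedBall_zero_iff, not_le] at hx
  exact hx

/-- as a Schwartz function -/
def CS.S {f : ℂ → ℂ} (h : CS f) : 𝓢(ℂ, ℂ) := h.cs.toSchwartzMap h.smooth

@[simp] lemma CS.S_coe {f : ℂ → ℂ} (h : CS f) : (h.S : ℂ → ℂ) = f := rfl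

@[simp] lemma CS.S_apply {f : ℂ → ℂ} (h : CS f) (x : ℂ) : h.S x = f x := rfl

lemma CS.cont {f : ℂ → ℂ} (h : CS f) : Continuous f := h.smooth.continuous

lemma CS.integrable {f : ℂ → ℂ} (h : CS f) : Integrable f := h.S.integrable

/-- A function smooth off `0` and vanishing near `0` and near `∞` is `CS`. -/
lemma CS.of {f : ℂ → ℂ} (h1 : ∀ x, x ≠ 0 → ContDiffAt ℝ ∞ f x) {a b : ℝ} (ha : 0 < a) (hab : a < b)
    (hs : ∀ x, ‖x‖ < a ∨ b < ‖x‖ → f x = 0) : CS f := by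
  refine ⟨contDiff_iff_contDiffAt.mpr fun x => ?_, a, b, ha, hab, hs⟩
  by_cases hx : x = 0
  · subst hx
    have h2 : f =ᶠ[𝓝 0] fun _ => 0 := by
      filter_upwards [Metric.ball_mem_nhds (0 : ℂ) ha] with y hy
      exact hs y (Or.inl (by simpa using hy))
    exact (contDiffAt_const (c := (0 : ℂ))).congr_of_eventuallyEq h2
  · exact h1 x hx

/-- `g(s) = ‖s‖⁻⁴ f(1/s)` -/
def gI (f : ℂ → ℂ) (s : ℂ) : ℂ := (((‖s‖ ^ 4)⁻¹ : ℝ) : ℂ) * f s⁻¹

lemma contDiffAt_norm_pow {x : ℂ} (hx : x ≠ 0) (n : ℕ) :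
    ContDiffAt ℝ ∞ (fun s : ℂ => ((‖s‖ ^ n : ℝ) : ℂ)) x := by
  have h1 : ContDiffAt ℝ ∞ (fun s : ℂ => ‖s‖) x := contDiffAt_norm ℝ hx
  exact (Complex.ofRealCLM.contDiff.contDiffAt).comp x (h1.pow n)

lemma CS.gI {f : ℂ → ℂ} (h : CS f) : CS (gI f) := by
  obtain ⟨a, b, ha, hab, hs⟩ := h.supp
  have hb : 0 < b := ha.trans hab
  refine CS.of (a := b⁻¹) (b := a⁻¹) (fun x hx => ?_) (by positivity) (by gcongr) ?_
  · unfold Xi590.gI
    have h1 : ContDiffAt ℝ ∞ (fun s : ℂ => (((‖s‖ ^ 4)⁻¹ : ℝ) : ℂ)) x := by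
      have h2 := (contDiffAt_norm_pow hx 4).inv (by
        exact_mod_cast (pow_pos (norm_pos_iff.mpr hx) 4).ne')
      refine h2.congr_of_eventuallyEq (Eventually.of_forall fun s => ?_)
      push_cast
      rfl
    have h3 : ContDiffAt ℝ ∞ (fun s : ℂ => s⁻¹) x := contDiffAt_inv ℝ hx
    exact h1.mul (h.smooth.contDiffAt.comp x h3)
  · intro x hx
    unfold Xi590.gI
    by_cases hx0 : x = 0
    · subst hx0; simp
    have hxp : 0 < ‖x‖ := norm_pos_iff.mpr hx0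
    rw [hs x⁻¹, mul_zero]
    rw [norm_inv]
    rcases hx with hx | hx
    · right
      rw [lt_inv_comm₀ hb hxp]; exact hx
    · left
      rw [inv_lt_comm₀ hxp ha]; exact hx

/-- `Φ(y) = ∫ f(p) e(-y/p) dp` -/
def Phi (f : ℂ → ℂ) (y : ℂ) : ℂ := ∫ p : ℂ, f p * eC (-(y / p))

lemma Phi_eq (f : ℂ → ℂ) : Phi f = fC (gI f) := by
  ext y
  unfold Phi fC gI
  rw [F1Cube590.integral_inv]
  congr 1
  ext s
  rw [Complex.real_smul, div_inv_eq_mul]
  ring

/-- `Φ` as a Schwartz function -/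
def CS.Ph {f : ℂ → ℂ} (h : CS f) : 𝓢(ℂ, ℂ) := fCS h.gI.S

@[simp] lemma CS.Ph_apply {f : ℂ → ℂ} (h : CS f) (y : ℂ) : h.Ph y = Phi f y := by
  unfold CS.Ph
  rw [fCS_apply, Phi_eq, CS.S_coe]

lemma CS.Ph_coe {f : ℂ → ℂ} (h : CS f) : (h.Ph : ℂ → ℂ) = Phi f := by
  ext y; exact h.Ph_apply y

end Crest.Agent.R017.Xi590
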