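import Crest.Agent.R017.BL5defs3_868
import Crest.Agent.R017.CubeK_411
import Crest.Agent.R017.ReE_401
import Crest.Agent.R017.BL5S1_590
import Crest.Agent.R017.S3_571
import Crest.Agent.R017.XiA_590
import Crest.Agent.R017.L6a_106

/-!
# Row 17, leaf L5: `OneE → PartL5` (helper770)
-/

set_option autoImplicit false

noncomputable section

open MeasureTheory Complex Set
open scoped ComplexConjugate ContDiff SchwartzMap

namespace Crest.Agent.R017.L5Fin770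

open Crest.Agent.R012 Crest.Agent.R012.Eis Crest.Agent.R012.Mob705 Crest.Agent.R012.Div277
open Crest.Agent.R017.End699 Crest.Agent.R017.Sx545 Crest.Agent.R017.B770
open Crest.Agent.R017.BEndA699 Crest.Agent.R017.Asm986 Crest.Agent.R017.L5
open Crest.Agent.R017.BL7 (I3)

/-! ### the weight -/

/-- `w ↦ Ur om |w|²` -/
def FS {om : ℝ → ℂ} (h : SW om) : 𝓢(ℂ, ℂ) := Xi590.fCS (L6106.rS h one_pos)

lemma FS_apply {om : ℝ → ℂ} (h : SW om) (w : ℂ) : FS h w = Ur om (‖w‖ ^ 2) := by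
  unfold FS
  rw [Xi590.fCS_apply, L6106.coe_rS, L6106.fC_scale om one_pos]
  simp

lemma FS_eq {om : ℝ → ℂ} (h : SW om) (w : ℂ) :
    FS h w = Po581.fC (fun z => om (‖z‖ ^ 2)) w := by
  unfold FS
  rw [Xi590.fCS_apply, L6106.coe_rS]
  simp

lemma I3_ne {om : ℝ → ℂ} (h : SW om) (hn : NN om) : I3 (FS h) ≠ 0 := by
  have := L5S1590.s1 om h hn.nonneg hn.ne
  unfold BL7.I3
  simpa only [FS_eq] using this

/-- the scale `z = nm e / K^{1/6}` -/
lemma z_norm {n K : ℝ} (hn : 0 < n) (hK : 0 < K) :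
    (‖((n / K ^ (1 / 6 : ℝ) : ℝ) : ℂ)‖ ^ 2)⁻¹ = K ^ (1 / 3 : ℝ) / n ^ 2 := by
  rw [Complex.norm_real, Real.norm_of_nonneg (by positivity), div_pow, inv_div]
  congr 1
  rw [← Real.rpow_natCast, ← Real.rpow_mul hK.le]
  norm_num

lemma F_cube {om : ℝ → ℂ} (h : SW om) {n K : ℝ} (hn : 0 < n) (hK : 0 < K) (l : Eis) :
    FS h (((n / K ^ (1 / 6 : ℝ) : ℝ) : ℂ) ^ 3 * toC l ^ 3) = Ur om (nm (l ^ 3) * n ^ 6 / K) := by
  rw [FS_apply]
  congr 1
  rw [norm_mul, norm_pow, norm_pow, Complex.norm_real, Real.norm_of_nonneg (by positivity)]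
  have h1 : ‖toC l‖ ^ 2 = nm l := norm_toC_sq l
  have h2 : (K ^ (1 / 6 : ℝ)) ^ 6 = K := by
    rw [← Real.rpow_natCast, ← Real.rpow_mul hK.le]; norm_num
  have h3 : (nm (l ^ 3) : ℝ) = (nm l : ℝ) ^ 3 := by rw [nm_pow]; push_cast; ring
  rw [h3, ← h1]
  calc ((n / K ^ (1 / 6 : ℝ)) ^ 3 * ‖toC l‖ ^ 3) ^ 2 =
      n ^ 6 / (K ^ (1 / 6 : ℝ)) ^ 6 * (‖toC l‖ ^ 2) ^ 3 := by
        rw [div_pow]; ring
    _ = _ := by rw [h2]; ring

/-! ### exponents -/

lemma piece {n Q K t s : ℝ} (hn : 1 ≤ n) (hQ : 0 < Q) (hK : 0 < K) (h : 7 ≤ 2 * s + 6 * t) :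
    n ^ 5 * ((Q / n ^ 6) ^ t * (K ^ (1 / 3 : ℝ) / n ^ 2) ^ s) ≤
      Q ^ t * K ^ (s / 3) * n ^ (-2 : ℝ) := by
  have hn0 : 0 < n := by linarith
  have e1 : (Q / n ^ 6) ^ t = Q ^ t * n ^ (-(6 * t)) := by
    rw [Real.div_rpow hQ.le (by positivity), ← Real.rpow_natCast n 6, ← Real.rpow_mul hn0.le,
      Real.rpow_neg hn0.le, div_eq_mul_inv]
    norm_num
  have e2 : (K ^ (1 / 3 : ℝ) / n ^ 2) ^ s = K ^ (s / 3) * n ^ (-(2 * s)) := by
    rw [Real.div_rpow (by positivity) (by positivity), ← Real.rpow_natCast n 2,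
      ← Real.rpow_mul hn0.le, ← Real.rpow_mul hK.le, Real.rpow_neg hn0.le, div_eq_mul_inv]
    congr 2
    · ring
  have e3 : n ^ 5 * (n ^ (-(6 * t)) * n ^ (-(2 * s))) ≤ n ^ (-2 : ℝ) := by
    rw [← Real.rpow_natCast n 5, ← Real.rpow_add hn0, ← Real.rpow_add hn0]
    apply Real.rpow_le_rpow_of_exponent_le hn
    push_cast
    linarith
  rw [e1, e2]
  calc n ^ 5 * (Q ^ t * n ^ (-(6 * t)) * (K ^ (s / 3) * n ^ (-(2 * s)))) =
      Q ^ t * K ^ (s / 3) * (n ^ 5 * (n ^ (-(6 * t)) * n ^ (-(2 * s)))) := by ring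
    _ ≤ _ := mul_le_mul_of_nonneg_left e3 (by positivity)

/-- one of the three error terms -/
lemma piece' {n Q q k y' θ ε s a δ' : ℝ} (hn : 1 ≤ n) (hQ : 1 ≤ Q) (hq : 1 ≤ q)
    (hs : 0 ≤ s) (hθε : 0 ≤ θ + ε) (h : 7 ≤ 2 * s + 6 * (θ + ε))
    (hex : k * (s - 1) / 3 + ε + a ≤ -δ') :
    n ^ 5 * (Q ^ y' * (Q / q / n ^ 6) ^ (θ + ε) *
      (((Q ^ k / q) ^ (1 / 3 : ℝ) / n ^ 2) ^ s * Q ^ a)) ≤
      (Q ^ k) ^ (1 / 3 : ℝ) * Q ^ (y' + θ - δ') * n ^ (-2 : ℝ) := by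
  have hQ0 : 0 < Q := by linarith
  have hq0 : 0 < q := by linarith
  have hn0 : 0 < n := by linarith
  have h1 := piece (Q := Q / q) (K := Q ^ k / q) (t := θ + ε) (s := s) hn (by positivity)
    (by positivity) h
  have h2 : (Q / q) ^ (θ + ε) ≤ Q ^ (θ + ε) :=
    Real.rpow_le_rpow (by positivity) (div_le_self hQ0.le hq) hθε
  have h3 : (Q ^ k / q) ^ (s / 3) ≤ (Q ^ k) ^ (s / 3) :=
    Real.rpow_le_rpow (by positivity) (div_le_self (by positivity) hq) (by positivity)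
  calc n ^ 5 * (Q ^ y' * (Q / q / n ^ 6) ^ (θ + ε) *
      (((Q ^ k / q) ^ (1 / 3 : ℝ) / n ^ 2) ^ s * Q ^ a)) =
      Q ^ y' * Q ^ a * (n ^ 5 * ((Q / q / n ^ 6) ^ (θ + ε) *
        ((Q ^ k / q) ^ (1 / 3 : ℝ) / n ^ 2) ^ s)) := by ring
    _ ≤ Q ^ y' * Q ^ a * ((Q / q) ^ (θ + ε) * (Q ^ k / q) ^ (s / 3) * n ^ (-2 : ℝ)) :=
        mul_le_mul_of_nonneg_left h1 (by positivity)
    _ ≤ Q ^ y' * Q ^ a * (Q ^ (θ + ε) * (Q ^ k) ^ (s / 3) * n ^ (-2 : ℝ)) := by gcongr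
    _ = Q ^ (y' + a + (θ + ε) + k * (s / 3)) * n ^ (-2 : ℝ) := by
        have e1 : Q ^ (y' + a + (θ + ε) + k * (s / 3)) =
            Q ^ y' * Q ^ a * Q ^ (θ + ε) * Q ^ (k * (s / 3)) := by
          rw [Real.rpow_add hQ0 (y' + a + (θ + ε)), Real.rpow_add hQ0 (y' + a), Real.rpow_add hQ0 y']
        rw [← Real.rpow_mul hQ0.le, e1]
        ring
    _ ≤ Q ^ (k * (1 / 3) + (y' + θ - δ')) * n ^ (-2 : ℝ) := by
        refine mul_le_mul_of_nonneg_right ?_ (by positivity)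
        apply Real.rpow_le_rpow_of_exponent_le hQ
        linarith
    _ = _ := by rw [Real.rpow_add hQ0, Real.rpow_mul hQ0.le]

/-! ### vanishing -/

lemma NSumS_zero {V : ℝ → ℂ} {β : ℝ} (hβ : ∀ x, V x ≠ 0 → 0 < x ∧ x ≤ β) {X : ℝ} (hX : 0 < X)
    (h1 : β * X < 1) (h₀ h : ℝ → ℂ) (r : ℕ) (y Q₀ κ₀ : ℝ) (J : Finset (Fin r)) (M : Eis)
    (f g : Eis → ℂ) (k : Eis) : NSumS h₀ h r y Q₀ κ₀ J M f g V X k = 0 := by
  classical
  unfold NSumS
  have hV : ∀ b : Eis, Sm M b → V (nm b / X) = 0 := by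
    intro b hb
    by_contra hne
    have h2 := (hβ _ hne).2
    have hb1 : (1 : ℝ) ≤ nm b := by exact_mod_cast nm_pos.mpr hb.ne_zero
    rw [div_le_iff₀ hX] at h2
    linarith
  refine Finset.sum_eq_zero fun c _ => ?_
  rw [Finset.sum_eq_zero, mul_zero]
  intro p _
  have : (∑' b : Eis, if Sm M b then f b * tk k b (c * ∏ i : J, p i) * V (nm b / X) else 0) = 0 := by
    refine (tsum_congr (g := fun _ : Eis => (0 : ℂ)) fun b => ?_).trans tsum_zero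
    split_ifs with hb
    · rw [hV b hb, mul_zero]
    · rfl
  rw [this, mul_zero]

lemma MV_zero' {V : ℝ → ℂ} {β : ℝ} (hβ : ∀ x, V x ≠ 0 → 0 < x ∧ x ≤ β) {X : ℝ} (hX : 0 < X)
    (h1 : β * X < 1) (f : Eis → ℂ) {D : Eis} (hD : D ≠ 0) : MV V (X / nm D) f = 0 := by
  refine MV_zero hβ hX f hD ?_
  have : ⌊β * X⌋₊ = 0 := by
    rw [Nat.floor_eq_zero]; exact h1
  rw [this]
  exact nm_pos.mpr hD

/-! ### the coefficients -/

/-- coefficients of the main term before the `e`-sum -/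
def aa (m₀ : Eis) (f : Eis → ℂ) (D : Eis) : ℂ := f D * EE m₀ D * ((FYm571.LP D : ℝ) : ℂ)

lemma norm_tw_le {q : Eis} {χ : Eis → ℂ} (h : HC q χ) (l : ℤ) {b : Eis} (hb : IsPrim b) :
    ‖End699.tw χ l b‖ ≤ 1 := by
  unfold End699.tw
  rw [norm_mul]
  exact mul_le_one₀ (h.char.norm_le hb) (norm_nonneg _) (norm_ang_le l b)

lemma aa_le {m₀ : Eis} {f : Eis → ℂ} {D : Eis} (hf : ‖f D‖ ≤ 1) :
    ‖aa m₀ f D‖ ≤ ‖EE m₀ D‖ := by
  unfold aa
  rw [norm_mul, norm_mul, Complex.norm_real, Real.norm_of_nonneg (FYm571.LP_pos D).le]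
  calc ‖f D‖ * ‖EE m₀ D‖ * FYm571.LP D ≤ 1 * ‖EE m₀ D‖ * 1 := by
        have := FYm571.LP_le_one D
        have := (FYm571.LP_pos D).le
        gcongr
    _ = _ := by ring

lemma nm_rpow_summable : Summable (fun z : Eis => (nm z : ℝ) ^ (-2 : ℝ)) :=
  LatSum413.summable_nm_rpow (by norm_num)

/-- **the final step of L5** -/
theorem partL5_of (hOne : OneE) : BEnd770.PartL5 := by
  classical
  intro θ r y δ hθ hθ1 hPF hr hy hδ hδ1 hδy
  obtain ⟨PR, δR, hδR, hRe⟩ := ReE401.reE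
  obtain ⟨hS3a, hS3b⟩ := S3571.s3 Tk545.tkAlg
  obtain ⟨PS, hPS⟩ := hS3b δR hδR
  refine ⟨max PR PS, 1, one_pos, fun d hd hd1 => ⟨δ / 4, by linarith, ?_⟩⟩
  intro M m₀ h36 hrad hP ψ l hψ hl ξ hξ hξ1 h₀ h hh₀ hh hnn₀ om hom hNN
  have hPR : ∀ p : Eis, Prime p → nm p ≤ PR → p ∣ M := fun p hp h =>
    hP p hp (h.trans (le_max_left _ _))
  have hPS' : ∀ p : Eis, Prime p → nm p ≤ PS → p ∣ M := fun p hp h =>
    hP p hp (h.trans (le_max_right _ _))
  obtain ⟨hEE1, htail⟩ := hPS M m₀ h36 hrad hPS'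
  obtain ⟨c, hc, hcube⟩ := CubeK411.cubeK M m₀ h36 hrad
  set f : Eis → ℂ := End699.tw ψ l with hf
  set a : Eis → ℂ := aa m₀ f with ha
  have ha_le : ∀ D, Sm M D → ‖a D‖ ≤ ‖EE m₀ D‖ := fun D hD => aa_le (norm_tw_le hψ l hD.1)
  have hsumEE := hS3a M m₀ h36 hrad
  have ha_sum : Summable (fun D : Eis => (if Sm M D then ‖a D‖ else 0) *
      (nm D : ℝ) ^ (-(5 / 6) : ℝ)) := by
    refine Summable.of_nonneg_of_le (fun D => ?_) (fun D => ?_) hsumEE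
    · split_ifs <;> positivity
    · refine mul_le_mul_of_nonneg_right ?_ (by positivity)
      split_ifs with hD
      · exact ha_le D hD
      · exact le_rfl
  obtain ⟨hAC, hDom, hSQ⟩ := hRe M h36 ξ a hξ hξ1 ha_sum
  have ha1 : a 1 = EE m₀ 1 := by
    rw [ha]
    unfold aa
    rw [FYm571.LP_one, hf]
    unfold End699.tw
    rw [hψ.char.one, P355.ang_one]
    simp
  have hdom : Dom (eG M ξ a) := by
    refine hDom hPR (by rw [ha1]; exact hEE1) ?_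
    rw [ha1]
    refine le_trans ?_ htail
    have hs2 : Summable (fun D : Eis => (if Sm M D ∧ D ≠ 1 then ‖EE m₀ D‖ else 0) *
        (nm D : ℝ) ^ (-(5 / 6) : ℝ)) := by
      refine Summable.of_nonneg_of_le (fun D => ?_) (fun D => ?_) hsumEE
      · split_ifs <;> positivity
      · refine mul_le_mul_of_nonneg_right ?_ (by positivity)
        split_ifs with h1 h2 h2
        · exact le_rfl
        · exact absurd h1.1 h2
        · exact norm_nonneg _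
        · exact le_rfl
    have hle : ∀ D : Eis, (if Sm M D ∧ D ≠ 1 then ‖a D‖ else 0) * (nm D : ℝ) ^ (-(5 / 6) : ℝ) ≤
        (if Sm M D ∧ D ≠ 1 then ‖EE m₀ D‖ else 0) * (nm D : ℝ) ^ (-(5 / 6) : ℝ) := by
      intro D
      refine mul_le_mul_of_nonneg_right ?_ (by positivity)
      split_ifs with h1
      · exact ha_le D h1.1
      · exact le_rfl
    refine Summable.tsum_le_tsum hle ?_ hs2
    refine Summable.of_nonneg_of_le (fun D => ?_) hle hs2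
    split_ifs <;> positivity
  set F : 𝓢(ℂ, ℂ) := FS hom with hF
  have hkw : FYn571.kw h₀ ≠ 0 := by
    obtain ⟨u₀, hu₀⟩ := hnn₀.ne
    refine FYn571.kw_ne_zero hh₀ (fun u => (hnn₀.nonneg u).1) (u₀ := u₀) ?_
    rcases lt_or_eq_of_le (hnn₀.nonneg u₀).1 with h1 | h1
    · exact h1
    · exact absurd (Complex.ext h1.symm (hnn₀.nonneg u₀).2) hu₀
  set κ : ℂ := c * ((2 / Real.sqrt 3 : ℝ) : ℂ) * I3 F *
    (FYn571.kw h₀ * ((FYm571.LP M : ℝ) : ℂ)) with hκ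
  have h3 : (0 : ℝ) < Real.sqrt 3 := by positivity
  refine ⟨eG M ξ a, κ, ?_, hAC, hdom, ?_⟩
  · rw [hκ]
    refine mul_ne_zero (mul_ne_zero (mul_ne_zero hc ?_) (I3_ne hom hNN)) (mul_ne_zero hkw ?_)
    · exact_mod_cast (by positivity : (2 / Real.sqrt 3 : ℝ) ≠ 0)
    · exact_mod_cast (FYm571.LP_pos M).ne'
  intro V hV q hq
  -- the parameters
  have hr' : (0 : ℝ) < r := by exact_mod_cast hr
  set ε : ℝ := δ / (8 * (y + 3)) with hεdef
  have hε : 0 < ε := by positivity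
  have hε8 : ε * (8 * (y + 3)) = δ := by rw [hεdef]; field_simp
  have hε24 : 24 * ε ≤ δ := by nlinarith
  have hεy : 8 * (ε * y) ≤ δ := by nlinarith
  obtain ⟨C, Q₁, hC, hQ₁, hone⟩ := hOne θ ε r y δ hθ hθ1 hPF hε (by linarith) hr hy hδ hδ1 hδy
    M m₀ h36 hrad ψ l hψ h₀ h hh₀ hh V hV F
  obtain ⟨β, hβ1, hβ⟩ := sw_bound hV
  set S : ℝ := ∑' z : Eis, (nm z : ℝ) ^ (-2 : ℝ) with hS
  refine ⟨‖c‖ * (C * 3) * S, Q₁, fun Q hQ => ?_⟩
  have hQ1 : 1 ≤ Q := hQ₁.trans hQ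
  have hQ0 : 0 < Q := by linarith
  have hq0 : 0 < q := by linarith
  set k : ℝ := 1 / 2 + (y + δ) + d with hk
  set K : ℝ := Q ^ k with hK
  have hK0 : 0 < K := by positivity
  have hKq : 0 < K / q := by positivity
  have hQq : 0 < Q / q := by positivity
  set Ie : Eis → ℂ := fun e => ∑' k' : Eis, (if Prn M k' then
    FE47.DM (3 * m₀) (fun a => sy a m₀) k' * Ur om (nm k' * (nm e : ℝ) ^ 6 / (K / q)) *
      NSumS h₀ h r y Q (δ * Real.log Q) Finset.univ M f (fun _ => 1) V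
        (Q / q / (nm e : ℝ) ^ 6) k' else 0) with hIe
  set MDe : Eis → ℂ := fun e => ∑' D : Eis,
    (if Sm M D then a D * MV V (Q / q / ((nm e : ℝ) ^ 6 * nm D)) f else 0) with hMDe
  set A1 : ℂ := Amp h r y Q Finset.univ (fun _ => 1) with hA1
  set Gm : ℂ := κ * (((K / q) ^ (1 / 3 : ℝ) : ℝ) : ℂ) * ((Q ^ δ : ℝ) : ℂ) * A1 with hGm
  set R : ℝ := K ^ (1 / 3 : ℝ) * Q ^ ((y + δ) + θ - δ / 4) with hR
  have hR0 : 0 ≤ R := by positivity
  -- one `e`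
  have key : ∀ e, Sm M e → ‖ξ e * (nm e : ℂ) ^ 5 * Ie e - Gm * (ξ e * (nm e : ℂ) ^ 3 * MDe e)‖ ≤
      ‖c‖ * (C * 3) * R * (nm e : ℝ) ^ (-2 : ℝ) := by
    intro e he
    have hne : (1 : ℝ) ≤ nm e := by exact_mod_cast nm_pos.mpr he.ne_zero
    have hne0 : (0 : ℝ) < nm e := by linarith
    set n : ℝ := (nm e : ℝ) with hn
    have hX : 0 < Q / q / n ^ 6 := by positivity
    set z : ℂ := ((n / (K / q) ^ (1 / 6 : ℝ) : ℝ) : ℂ) with hz
    have hz0 : z ≠ 0 := by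
      rw [hz]
      exact_mod_cast (by positivity : (n / (K / q) ^ (1 / 6 : ℝ) : ℝ) ≠ 0)
    obtain ⟨hsum, hbd⟩ := hone Q hQ (Q / q / n ^ 6) hX z hz0
    have hcu : ∀ l' : Eis, F (z ^ 3 * toC l' ^ 3) =
        Ur om (nm (l' ^ 3) * n ^ 6 / (K / q)) := fun l' => F_cube hom hne0 hKq l'
    simp only [hcu] at hsum hbd
    have hI : Ie e = c * ∑' l' : Eis, if IsCoprime l' m₀ then
        Ur om (nm (l' ^ 3) * n ^ 6 / (K / q)) *
        NSumS h₀ h r y Q (δ * Real.log Q) Finset.univ M f (fun _ => 1) V (Q / q / n ^ 6)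
          (l' ^ 3) else 0 := by
      have h1 := hcube (fun k' => Ur om (nm k' * n ^ 6 / (K / q)) *
        NSumS h₀ h r y Q (δ * Real.log Q) Finset.univ M f (fun _ => 1) V (Q / q / n ^ 6) k') hsum
      rw [← h1, hIe]
      simp only [mul_assoc]
      rfl
    have hw : (‖z‖ ^ 2)⁻¹ = (K / q) ^ (1 / 3 : ℝ) / n ^ 2 := z_norm hne0 hKq
    rw [hw] at hbd
    set T : ℂ := ∑' l' : Eis, if IsCoprime l' m₀ then
        Ur om (nm (l' ^ 3) * n ^ 6 / (K / q)) *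
        NSumS h₀ h r y Q (δ * Real.log Q) Finset.univ M f (fun _ => 1) V (Q / q / n ^ 6)
          (l' ^ 3) else 0 with hT
    have hMD : (∑' D : Eis, (if Sm M D then (f D * EE m₀ D * ((FYm571.LP D : ℝ) : ℂ)) *
            MV V (Q / q / n ^ 6 / nm D) f else 0)) = MDe e := by
      rw [hMDe]
      refine tsum_congr fun D => ?_
      split_ifs
      · rw [div_div (Q / q)]
        rfl
      · rfl
    rw [hMD] at hbd
    have hid : ξ e * (nm e : ℂ) ^ 5 * Ie e - Gm * (ξ e * (nm e : ℂ) ^ 3 * MDe e) =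
        ξ e * (nm e : ℂ) ^ 5 * (c * (T - ((2 / Real.sqrt 3 * ((K / q) ^ (1 / 3 : ℝ) / n ^ 2) : ℝ) : ℂ)
          * I3 F * (FYn571.kw h₀ * ((FYm571.LP M : ℝ) : ℂ) * ((Q ^ δ : ℝ) : ℂ)) * A1 *
            MDe e)) := by
      rw [hI, hGm, hκ]
      have hnc : ((nm e : ℕ) : ℂ) = ((n : ℝ) : ℂ) := by rw [hn]; push_cast; rfl
      have hnc0 : ((n : ℝ) : ℂ) ≠ 0 := by exact_mod_cast hne0.ne'
      rw [hnc]
      push_cast
      field_simp
    rw [hid, norm_mul, norm_mul, norm_mul]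
    have h5 : ‖((nm e : ℕ) : ℂ) ^ 5‖ = n ^ 5 := by
      rw [norm_pow, Complex.norm_natCast]
    rw [h5]
    set W : ℝ := (K / q) ^ (1 / 3 : ℝ) / n ^ 2 with hW
    have hθε : 0 ≤ θ + ε := by linarith
    have hky : k ≤ y + 2 := by rw [hk]; linarith
    have hk2 : 1 / 2 ≤ k := by rw [hk]; linarith
    have hyr : 35 / 4 * δ ≤ θ * (y / r) := by nlinarith
    have hkε : k * ε ≤ δ / 8 := by
      calc k * ε ≤ (y + 3) * ε := by
            refine mul_le_mul_of_nonneg_right ?_ hε.le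
            linarith
        _ = δ / 8 := by linarith
    have p1 := piece' (n := n) (Q := Q) (q := q) (k := k) (y' := y + δ) (θ := θ) (ε := ε)
      (s := 1 + 2 * ε) (a := 3 * δ - θ * (y / r) + ε * y) (δ' := δ / 4) hne hQ1 hq (by positivity)
      hθε (by linarith) (by nlinarith)
    have p2 := piece' (n := n) (Q := Q) (q := q) (k := k) (y' := y + δ) (θ := θ) (ε := ε)
      (s := 1 + 2 * ε - (θ - 5 / 6) / 2) (a := 5 / 4 * δ) (δ' := δ / 4) hne hQ1 hq (by linarith)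
      hθε (by linarith) (by nlinarith)
    have p3 := piece' (n := n) (Q := Q) (q := q) (k := k) (y' := y + δ) (θ := θ) (ε := ε)
      (s := 1) (a := δ * (ε - 1 / 2)) (δ' := δ / 4) hne hQ1 hq (by norm_num)
      hθε (by linarith) (by nlinarith)
    rw [Real.rpow_one] at p3
    have hξe := hξ e
    calc ‖ξ e‖ * n ^ 5 * (‖c‖ * ‖T - ((2 / Real.sqrt 3 * W : ℝ) : ℂ)
          * I3 F * (FYn571.kw h₀ * ((FYm571.LP M : ℝ) : ℂ) * ((Q ^ δ : ℝ) : ℂ)) * A1 *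
            MDe e‖) ≤ 1 * n ^ 5 * (‖c‖ * (C * Q ^ (y + δ) * (Q / q / n ^ 6) ^ (θ + ε) *
          (W ^ (1 + 2 * ε) * Q ^ (3 * δ - θ * (y / r) + ε * y) +
            W ^ (1 + 2 * ε - (θ - 5 / 6) / 2) * Q ^ (5 / 4 * δ) +
            W * Q ^ (δ * (ε - 1 / 2))))) := by gcongr
      _ = ‖c‖ * C * (n ^ 5 * (Q ^ (y + δ) * (Q / q / n ^ 6) ^ (θ + ε) *
            (W ^ (1 + 2 * ε) * Q ^ (3 * δ - θ * (y / r) + ε * y))) +
          n ^ 5 * (Q ^ (y + δ) * (Q / q / n ^ 6) ^ (θ + ε) *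
            (W ^ (1 + 2 * ε - (θ - 5 / 6) / 2) * Q ^ (5 / 4 * δ))) +
          n ^ 5 * (Q ^ (y + δ) * (Q / q / n ^ 6) ^ (θ + ε) *
            (W * Q ^ (δ * (ε - 1 / 2))))) := by ring
      _ ≤ ‖c‖ * C * (R * n ^ (-2 : ℝ) + R * n ^ (-2 : ℝ) + R * n ^ (-2 : ℝ)) := by
          refine mul_le_mul_of_nonneg_left ?_ (by positivity)
          exact add_le_add (add_le_add p1 p2) p3
      _ = _ := by ring
  -- finite sums
  set N : ℕ := ⌊β * (Q / q)⌋₊ with hN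
  set TT : Finset Eis := (ball N).filter (Sm M) with hTT
  have hout : ∀ e, Sm M e → e ∉ TT → Ie e = 0 ∧ MDe e = 0 := by
    intro e he hnot
    have hgt : N < nm e := by
      by_contra hle
      apply hnot
      rw [hTT, Finset.mem_filter, mem_ball]
      exact ⟨not_lt.mp hle, he⟩
    have hne : (1 : ℝ) ≤ nm e := by exact_mod_cast nm_pos.mpr he.ne_zero
    have hlt : β * (Q / q) < nm e := (Nat.floor_lt (by positivity)).mp hgt
    have h6 : (nm e : ℝ) ≤ (nm e : ℝ) ^ 6 := le_self_pow₀ hne (by norm_num)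
    have hX : 0 < Q / q / (nm e : ℝ) ^ 6 := by positivity
    have hX1 : β * (Q / q / (nm e : ℝ) ^ 6) < 1 := by
      rw [← mul_div_assoc, div_lt_one (by positivity)]
      linarith
    constructor
    · rw [hIe]
      refine (tsum_congr (g := fun _ : Eis => (0 : ℂ)) fun k' => ?_).trans tsum_zero
      split_ifs
      · rw [NSumS_zero hβ hX hX1, mul_zero]
      · rfl
    · rw [hMDe]
      refine (tsum_congr (g := fun _ : Eis => (0 : ℂ)) fun D => ?_).trans tsum_zero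
      split_ifs with hD
      · rw [← div_div (Q / q), MV_zero' hβ hX hX1 f hD.ne_zero, mul_zero]
      · rfl
  have hLK : LK3 h₀ h r y δ Q M m₀ ξ f V om (Prn M) (K / q) (Q / q) =
      ∑ e ∈ TT, ξ e * (nm e : ℂ) ^ 5 * Ie e := by
    unfold LK3
    rw [tsum_eq_sum (s := TT)]
    · refine Finset.sum_congr rfl fun e he => ?_
      rw [hTT, Finset.mem_filter] at he
      rw [if_pos he.2]
    · intro e he
      split_ifs with hSe
      · have := (hout e hSe he).1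
        rw [hIe] at this
        simp only at this
        rw [this, mul_zero]
      · rfl
  have hSQ' : SQ (eG M ξ a) V ψ l (Q / q) = ∑ e ∈ TT, ξ e * (nm e : ℂ) ^ 3 * MDe e := by
    rw [hSQ V hV ψ l hψ (Q / q) hQq, tsum_eq_sum (s := TT)]
    · refine Finset.sum_congr rfl fun e he => ?_
      rw [hTT, Finset.mem_filter] at he
      rw [if_pos he.2]
    · intro e he
      split_ifs with hSe
      · have := (hout e hSe he).2
        rw [hMDe] at this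
        simp only at this
        rw [this, mul_zero]
      · rfl
  rw [hLK, hSQ', Finset.mul_sum, ← Finset.sum_sub_distrib]
  calc ‖∑ e ∈ TT, (ξ e * (nm e : ℂ) ^ 5 * Ie e - Gm * (ξ e * (nm e : ℂ) ^ 3 * MDe e))‖ ≤
      ∑ e ∈ TT, ‖c‖ * (C * 3) * R * (nm e : ℝ) ^ (-2 : ℝ) := by
        refine norm_sum_le_of_le _ fun e he => ?_
        rw [hTT, Finset.mem_filter] at he
        exact key e he.2
    _ = ‖c‖ * (C * 3) * R * ∑ e ∈ TT, (nm e : ℝ) ^ (-2 : ℝ) := by rw [Finset.mul_sum]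
    _ ≤ ‖c‖ * (C * 3) * R * S := by
        refine mul_le_mul_of_nonneg_left ?_ (by positivity)
        exact nm_rpow_summable.sum_le_tsum TT (fun _ _ => by positivity)
    _ = _ := by rw [hR]; ring

end Crest.Agent.R017.L5Fin770
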