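import Crest.Agent.R017.BL5l_868

/-!
# Row 17, leaf L5 (m): theorem B1'
-/

set_option autoImplicit false

noncomputable section

open MeasureTheory Complex Set
open scoped ComplexConjugate ContDiff SchwartzMap

namespace Crest.Agent.R017.L5

open Crest.Agent.R012 Crest.Agent.R012.Eis Crest.Agent.R012.Mob705 Crest.Agent.R012.Div277
open Crest.Agent.R017.End699 Crest.Agent.R017.Sx545 Crest.Agent.R017.B770
open Crest.Agent.R017.Asm986 (sw_bound MV_congr)
open Crest.Agent.R017.BL7 (schw_decay I3 cube_sum_ne)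

open Classical in
/-- **B1'**: the sum over `l` of the natural double sum, with power saving -/
theorem b1' (hT : TkAlg) (hMC : MeanC) (hS3 : S3) : B1' := by
  intro θ ε hθ hθ1 hPF hε hε1 l' V hV F M m₀ h36 hR
  have hε2 : ε ≤ 1 := by linarith
  obtain ⟨Cs, hs0, hs⟩ := small_sum' hT hθ.le hθ1 hPF hε hε2 l' hV F
  obtain ⟨Cb, hb0, hb⟩ := big_l hT hθ.le hθ1 hPF hε hε2 l' hV
  obtain ⟨Cm, hm0', hm⟩ := main_tail hT hS3 hθ.le hθ1 hPF hε hε2 l' hV
  obtain ⟨Cf, hf0, hf⟩ := tsum_F_le F hε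
  obtain ⟨Cg, hg0, hg⟩ := norm_gamc_le hT
  obtain ⟨β, hβ1, hβ⟩ := sw_bound hV
  have hm0 : m₀ ≠ 0 := hR.prim.ne_zero
  have h2m := two_dvd_m₀ h36 hR
  have h2M : (2 : Eis) ∣ M := (show (2 : Eis) ∣ 36 from ⟨18, by norm_num⟩).trans h36
  set K3 : ℝ := 2 / Real.sqrt 3 with hK3
  have hK30 : 0 ≤ K3 := by positivity
  refine ⟨Cs * ((nm M : ℝ) ^ ε * nm m₀ ^ 4) + Cf * (Cb * (nm M : ℝ) ^ ε) +
    K3 * ‖I3 F‖ * (Cm * (nm M : ℝ) ^ ε * SE M m₀), by
      have := SE_nonneg M m₀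
      positivity, ?_⟩
  intro ψ hψ c hcM sc X hX z hz
  have hc : Sm 2 c := ⟨hcM.1, hcM.2.of_isCoprime_of_dvd_right h2M⟩
  have hc1 : (1 : ℝ) ≤ nm c := by exact_mod_cast nm_pos.mpr hc.ne_zero
  set f := tw ψ l' with hfdef
  set N := ⌊β * X⌋₊ with hN
  set mv : Eis → ℂ := fun D => MV V (X / nm D) f with hmv
  set L : ℝ := (‖z‖ ^ 2)⁻¹ with hL
  have hz0 : 0 < ‖z‖ := norm_pos_iff.mpr hz
  have hL0 : 0 < L := by positivity
  set Z : ℝ := max 1 ((L / nm c) ^ (1 / 2 : ℝ)) with hZ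
  have hZ1 : 1 ≤ Z := le_max_left _ _
  set Ps := (primBall N).filter (fun D => (nm D : ℝ) < Z) with hPs
  set Pb := (primBall N).filter (fun D => ¬ (nm D : ℝ) < Z) with hPb
  have hPbm : ∀ D ∈ Pb, IsPrim D ∧ Z ≤ nm D := fun D hD => by
    rw [hPb, Finset.mem_filter] at hD
    exact ⟨(mem_primBall.mp hD.1).2, not_lt.mp hD.2⟩
  -- the coefficient of the large divisors
  set gb : Eis → ℂ := fun l => if IsCoprime l m₀ then ∑ D ∈ Pb, f D * Ec c l D * mv D else 0
    with hgb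
  set G : ℝ := Cb * nm c * (nm c : ℝ) ^ ε * ((nm M : ℝ) ^ ε * X ^ (θ + ε)) *
    Z ^ (-(θ - 5 / 6)) with hG
  have hG0 : 0 ≤ G := by positivity
  have hgbG : ∀ l, l ≠ 0 → ‖gb l‖ ≤ G * (nm l : ℝ) ^ ε := by
    intro l hl
    simp only [hgb]
    split_ifs
    · refine (hb M ψ hψ h2M c hc sc l hl X hX Z hZ1 Pb hPbm).trans (le_of_eq ?_)
      rw [nm_mul, Nat.cast_mul, Real.mul_rpow (by positivity) (by positivity), hG]
      ring
    · rw [norm_zero]; positivity
  -- the terms of the small divisors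
  set gF : Eis → Eis → ℂ := fun D l =>
    if l = 0 then 0 else gamc m₀ c D l * F (z ^ 3 * toC l ^ 3) with hgF
  have hterm : ∀ l : Eis, (if IsCoprime l m₀ then F (z ^ 3 * toC l ^ 3) * Nc c l f V X else 0) =
      ∑ D ∈ Ps, (f D * mv D) * gF D l +
        (if l = 0 then 0 else gb l * F (z ^ 3 * toC l ^ 3)) := by
    intro l
    by_cases hl : IsCoprime l m₀
    · have hl0 := coprime_ne_zero h2m hl
      rw [if_pos hl, if_neg hl0, Nc_eq hβ hX c l
        (fun a b ha hb => (hψ.isChar_tw l').mul a b ha hb) (Nat.lt_floor_add_one (β * X)),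
        ← Finset.sum_filter_add_sum_filter_not (primBall N) (fun D => (nm D : ℝ) < Z)]
      simp only [hgb, hgF, if_pos hl, if_neg hl0, gamc]
      rw [mul_add, Finset.mul_sum, Finset.mul_sum, Finset.sum_mul]
      congr 1
      · refine Finset.sum_congr rfl fun D _ => ?_
        simp only [hmv]
        ring
      · refine Finset.sum_congr rfl fun D _ => ?_
        simp only [hmv]
        ring
    · rw [if_neg hl]
      simp only [hgb, hgF, if_neg hl, gamc]
      simp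
  have hgFs : ∀ D ∈ Ps, Summable (fun l => (f D * mv D) * gF D l) := by
    intro D hD
    by_cases hfD : f D = 0
    · simp only [hfD, zero_mul]
      exact summable_zero
    · rw [hPs, Finset.mem_filter] at hD
      have hS := sm_of_tw_ne hψ h2M (mem_primBall.mp hD.1).2 hfD
      exact (summable_F F (Γ := Cg * nm c * nm D) (fun l => hg m₀ c D l hc sc hS) hz).mul_left _
  obtain ⟨hgbs, hgbn⟩ := hf gb G hG0 hgbG z hz
  have hsum : Summable (fun l : Eis => if IsCoprime l m₀ then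
      F (z ^ 3 * toC l ^ 3) * Nc c l f V X else 0) := by
    have : (fun l : Eis => if IsCoprime l m₀ then
        F (z ^ 3 * toC l ^ 3) * Nc c l f V X else 0) = fun l => ∑ D ∈ Ps, (f D * mv D) * gF D l +
        (if l = 0 then 0 else gb l * F (z ^ 3 * toC l ^ 3)) := funext hterm
    rw [this]
    exact (summable_sum hgFs).add hgbs
  refine ⟨hsum, ?_⟩
  -- the main term as a finite sum
  have hmain : PE c * ∑' D : Eis, (if Sm M D ∧ IsCoprime D c then
      f D * EE m₀ D * MV V (X / nm D) f else 0) =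
      ∑ D ∈ Ps, (f D * mv D) * mc m₀ c D + ∑ D ∈ Pb, f D * mc m₀ c D * mv D := by
    have e1 : ∑' D : Eis, (if Sm M D ∧ IsCoprime D c then
        f D * EE m₀ D * MV V (X / nm D) f else 0) = ∑ D ∈ primBall N,
        (if Sm M D ∧ IsCoprime D c then f D * EE m₀ D * MV V (X / nm D) f else 0) := by
      refine tsum_eq_sum fun D hD => ?_
      split_ifs with h
      · have hDN : N < nm D := by
          by_contra hlt
          exact hD (mem_primBall.mpr ⟨not_lt.mp hlt, h.1.1⟩)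
        rw [MV_zero hβ hX f h.1.1.ne_zero hDN, mul_zero]
      · rfl
    have e2 : ∀ D ∈ primBall N, PE c * (if Sm M D ∧ IsCoprime D c then
        f D * EE m₀ D * MV V (X / nm D) f else 0) = f D * mc m₀ c D * mv D := by
      intro D hD
      have hDp := (mem_primBall.mp hD).2
      by_cases hS : Sm M D
      · have h5 := hMC hT M m₀ h36 hR c D hcM sc hS
        rw [show mc m₀ c D = if IsCoprime D c then PE c * EE m₀ D else 0 from h5]
        by_cases hcop : IsCoprime D c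
        · rw [if_pos ⟨hS, hcop⟩, if_pos hcop]
          simp only [hmv]
          ring
        · rw [if_neg (fun h => hcop h.2), if_neg hcop]
          ring
      · have : f D = 0 := by
          by_contra hne
          exact hS ⟨hDp, by
            by_contra hnc
            exact hne (by rw [hfdef]; unfold End699.tw; rw [hψ.van D hDp hnc, zero_mul])⟩
        rw [if_neg (fun h => hS h.1), this]
        ring
    rw [e1, Finset.mul_sum, Finset.sum_congr rfl e2,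
      ← Finset.sum_filter_add_sum_filter_not (primBall N) (fun D => (nm D : ℝ) < Z)]
    congr 1
    refine Finset.sum_congr rfl fun D _ => ?_
    ring
  have hmcE : ∀ D, Sm M D → ‖mc m₀ c D‖ ≤ ‖EE m₀ D‖ := by
    intro D hS
    have h5 := hMC hT M m₀ h36 hR c D hcM sc hS
    rw [show mc m₀ c D = if IsCoprime D c then PE c * EE m₀ D else 0 from h5]
    split_ifs
    · rw [norm_mul]
      have hPE : ‖PE c‖ ≤ 1 := by
        unfold PE
        rw [norm_prod]
        refine Finset.prod_le_one (fun _ _ => norm_nonneg _) fun p hp => ?_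
        have hp1 : (1 : ℝ) ≤ nm p := by
          have := (isPP_of_mem_pp hp).1.ne_zero
          exact_mod_cast nm_pos.mpr this
        rw [show (1 - 1 / (nm p : ℂ)) = ((1 - 1 / (nm p : ℝ) : ℝ) : ℂ) by push_cast; ring,
          Complex.norm_real, Real.norm_eq_abs, abs_le]
        have h6 : 0 < 1 / (nm p : ℝ) := by positivity
        have h7 : 1 / (nm p : ℝ) ≤ 1 := by
          rw [div_le_one (by linarith)]; exact hp1
        constructor <;> linarith
      calc ‖PE c‖ * ‖EE m₀ D‖ ≤ 1 * ‖EE m₀ D‖ := by gcongr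
        _ = _ := one_mul _
    · rw [norm_zero]; exact norm_nonneg _
  -- the three errors
  have hS1 := hs M m₀ h36 hR ψ hψ c hc sc X hX z hz Z hZ1 N
  have hM1 := hm M m₀ h36 hR ψ hψ (mc m₀ c) hmcE X hX Z hZ1 Pb hPbm
  obtain ⟨z1, z2, z3⟩ := Z_facts' (η := (θ - 5 / 6) / 2) hL0 hc1 (by linarith) (by linarith) hε
    (by linarith)
  rw [show 2 * ((θ - 5 / 6) / 2) = θ - 5 / 6 by ring, ← hZ] at z1 z2
  rw [← hZ] at z3
  set E : ℝ := L ^ (1 + 2 * ε - (θ - 5 / 6) / 2) with hE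
  set c54 : ℝ := (nm c : ℝ) ^ (5 / 4 : ℝ) with hc54
  have hc540 : 0 ≤ c54 := by positivity
  have hE0 : 0 ≤ E := by positivity
  have z3' : (if 1 < Z then Z ^ 6 * nm c ^ 5 * (L ^ 3)⁻¹ else 0) ≤ c54 * E := by
    split_ifs with h
    · refine z3 ?_
      by_contra hlt
      have : (L / nm c) ^ (1 / 2 : ℝ) ≤ 1 := Real.rpow_le_one (by positivity)
        (by rw [div_le_one (by linarith)]; exact not_lt.mp hlt) (by norm_num)
      rw [hZ, max_eq_left this] at h
      exact lt_irrefl _ h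
    · positivity
  have hdec : (∑' l : Eis, if IsCoprime l m₀ then F (z ^ 3 * toC l ^ 3) * Nc c l f V X else 0) -
      ((K3 * L : ℝ) : ℂ) * I3 F * (PE c * ∑' D : Eis, (if Sm M D ∧ IsCoprime D c then
        f D * EE m₀ D * MV V (X / nm D) f else 0)) =
      ∑ D ∈ Ps, (f D * mv D) * ((∑' l : Eis, if l = 0 then 0 else
        gamc m₀ c D l * F (z ^ 3 * toC l ^ 3)) - ((K3 * L : ℝ) : ℂ) * (mc m₀ c D * I3 F)) +
      ∑' l : Eis, (if l = 0 then 0 else gb l * F (z ^ 3 * toC l ^ 3)) -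
      ((K3 * L : ℝ) : ℂ) * I3 F * ∑ D ∈ Pb, f D * mc m₀ c D * mv D := by
    rw [tsum_congr hterm, (summable_sum hgFs).tsum_add hgbs, Summable.tsum_finsetSum hgFs, hmain]
    have e1 : ∀ D ∈ Ps, ∑' l, (f D * mv D) * gF D l = (f D * mv D) *
        ∑' l : Eis, (if l = 0 then 0 else gamc m₀ c D l * F (z ^ 3 * toC l ^ 3)) :=
      fun D _ => tsum_mul_left
    rw [Finset.sum_congr rfl e1]
    simp only [mul_sub, Finset.sum_sub_distrib]
    have e2 : ∑ D ∈ Ps, f D * mv D * (((K3 * L : ℝ) : ℂ) * (mc m₀ c D * I3 F)) =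
        ((K3 * L : ℝ) : ℂ) * I3 F * ∑ D ∈ Ps, (f D * mv D) * mc m₀ c D := by
      rw [Finset.mul_sum]
      refine Finset.sum_congr rfl fun D _ => ?_
      ring
    rw [e2]
    ring
  rw [hdec]
  refine (norm_sub_le _ _).trans ((add_le_add (norm_add_le _ _) le_rfl).trans ?_)
  have b1 : ‖∑ D ∈ Ps, (f D * mv D) * ((∑' l : Eis, if l = 0 then 0 else
        gamc m₀ c D l * F (z ^ 3 * toC l ^ 3)) - ((K3 * L : ℝ) : ℂ) * (mc m₀ c D * I3 F))‖ ≤
      Cs * ((nm M : ℝ) ^ ε * nm m₀ ^ 4) * c54 * X ^ (θ + ε) * E := by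
    refine hS1.trans ?_
    calc Cs * ((nm M : ℝ) ^ ε * nm m₀ ^ 4 * X ^ (θ + ε)) *
          (if 1 < Z then Z ^ 6 * nm c ^ 5 * (L ^ 3)⁻¹ else 0) ≤
        Cs * ((nm M : ℝ) ^ ε * nm m₀ ^ 4 * X ^ (θ + ε)) * (c54 * E) := by gcongr
      _ = _ := by ring
  have b2 : ‖∑' l : Eis, (if l = 0 then 0 else gb l * F (z ^ 3 * toC l ^ 3))‖ ≤
      Cf * (Cb * (nm M : ℝ) ^ ε) * c54 * X ^ (θ + ε) * E := by
    refine hgbn.trans ?_
    have hcc : (nm c : ℝ) ^ (1 + ε) = nm c * (nm c : ℝ) ^ ε := by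
      rw [Real.rpow_add (by linarith), Real.rpow_one]
    rw [hcc] at z1
    rw [hG]
    calc Cf * (Cb * nm c * (nm c : ℝ) ^ ε * ((nm M : ℝ) ^ ε * X ^ (θ + ε)) *
          Z ^ (-(θ - 5 / 6))) * L ^ (1 + 2 * ε) =
        Cf * (Cb * (nm M : ℝ) ^ ε) * X ^ (θ + ε) *
          (nm c * (nm c : ℝ) ^ ε * L ^ (1 + 2 * ε) * Z ^ (-(θ - 5 / 6))) := by ring
      _ ≤ Cf * (Cb * (nm M : ℝ) ^ ε) * X ^ (θ + ε) * (c54 * E) :=
          mul_le_mul_of_nonneg_left z1 (by positivity)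
      _ = _ := by ring
  have b3 : ‖((K3 * L : ℝ) : ℂ) * I3 F * ∑ D ∈ Pb, f D * mc m₀ c D * mv D‖ ≤
      K3 * ‖I3 F‖ * (Cm * (nm M : ℝ) ^ ε * SE M m₀) * c54 * X ^ (θ + ε) * E := by
    have hSE := SE_nonneg M m₀
    rw [norm_mul, norm_mul, Complex.norm_real, Real.norm_of_nonneg (by positivity)]
    have h1 : ‖∑ D ∈ Pb, f D * mc m₀ c D * mv D‖ ≤
        Cm * (nm M : ℝ) ^ ε * X ^ (θ + ε) * SE M m₀ * Z ^ (-(θ - 5 / 6)) :=
      (norm_sum_le _ _).trans hM1
    calc K3 * L * ‖I3 F‖ * ‖∑ D ∈ Pb, f D * mc m₀ c D * mv D‖ ≤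
        K3 * L * ‖I3 F‖ * (Cm * (nm M : ℝ) ^ ε * X ^ (θ + ε) * SE M m₀ *
          Z ^ (-(θ - 5 / 6))) := by gcongr
      _ = K3 * ‖I3 F‖ * (Cm * (nm M : ℝ) ^ ε * SE M m₀) * X ^ (θ + ε) *
          (L * Z ^ (-(θ - 5 / 6))) := by ring
      _ ≤ K3 * ‖I3 F‖ * (Cm * (nm M : ℝ) ^ ε * SE M m₀) * X ^ (θ + ε) * (c54 * E) :=
          mul_le_mul_of_nonneg_left z2 (by positivity)
      _ = _ := by ring
  calc _ ≤ Cs * ((nm M : ℝ) ^ ε * nm m₀ ^ 4) * c54 * X ^ (θ + ε) * E +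
      Cf * (Cb * (nm M : ℝ) ^ ε) * c54 * X ^ (θ + ε) * E +
      K3 * ‖I3 F‖ * (Cm * (nm M : ℝ) ^ ε * SE M m₀) * c54 * X ^ (θ + ε) * E :=
        add_le_add (add_le_add b1 b2) b3
    _ = _ := by ring

end Crest.Agent.R017.L5
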