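import Crest.Agent.R017.BL5defs2_868
import Crest.Agent.R017.S3_571

/-!
# Row 17, leaf L5, sub-leaf `MeanC` (helper401)
-/

set_option autoImplicit false

noncomputable section

open MeasureTheory Complex Set
open scoped ComplexConjugate ContDiff

namespace Crest.Agent.R017.MeanC401

open Crest.Agent.R012 Crest.Agent.R012.Eis Crest.Agent.R012.Mob705 Crest.Agent.R012.Div277
open Crest.Agent.R012.SumMod880
open Crest.Agent.R017.End699 Crest.Agent.R017.Sx545 Crest.Agent.R017.B770
open Crest.Agent.R017.L5 Crest.Agent.R017.S3571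

open Classical in
/-- the local factor at a prime `p ∣ c`, `p^j ‖ D` -/
def loc (p : Eis) (j : ℕ) (l : Eis) : ℂ :=
  if p ∣ l then (if j = 0 then 0 else 1 - (nm p : ℂ)) else 1

lemma per_loc (p : Eis) (j : ℕ) : Per p (loc p j) := by
  intro x y h
  have h1 : p ∣ x ↔ p ∣ y := by
    constructor
    · intro hx
      have := dvd_sub hx h
      simpa using this
    · intro hy
      have := dvd_add h hy
      simpa using this
  unfold loc
  by_cases h2 : p ∣ x
  · rw [if_pos h2, if_pos (h1.mp h2)]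
  · rw [if_neg h2, if_neg (fun h => h2 (h1.mpr h))]

lemma sumMod_loc {p : Eis} (hp : p ≠ 0) (j : ℕ) :
    sumMod p (loc p j) = (nm p : ℂ) - 1 + (if j = 0 then 0 else 1 - (nm p : ℂ)) := by
  classical
  have e : ∀ l, loc p j l = 1 + ((if j = 0 then 0 else 1 - (nm p : ℂ)) - 1) *
      (((if p ∣ l then (1 : ℝ) else 0 : ℝ)) : ℂ) := by
    intro l
    unfold loc
    by_cases h : p ∣ l
    · simp [h]
    · simp [h]
  rw [SumMod880.sumMod_congr' e, SumMod880.sumMod_add hp, SumMod880.sumMod_const hp,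
    SumMod880.sumMod_const_mul hp, sumMod_ofReal hp,
    SR_dvd hp]
  push_cast
  ring

section

variable (hT : TkAlg)
include hT

/-- the local divisor sum -/
lemma loc_eq (l : Eis) {p : Eis} (hp : Sm 2 p) (hpp : Prime p) (j : ℕ) :
    ∑ b ∈ dvs (p ^ j), tk (l ^ 3) b p = loc p j l := by
  classical
  have hPP : IsPP p := ⟨hp.prim, hpp⟩
  have h1 : tk (l ^ 3) 1 p = if p ∣ l then 0 else 1 := by
    rw [hT.c1 _ _ hp hpp.irreducible.squarefree]
    split_ifs with h
    · have h2 : sy (l ^ 3) p = 0 := by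
        apply (Sym645.sy_eq_zero_iff (Sym645.prim_nm_mod hp.prim)).mpr
        intro hc
        have h3 : IsCoprime p (l ^ 3) := hc.symm
        exact (hPP.isCoprime_iff.mp h3) (dvd_pow h three_ne_zero)
      rw [h2, map_zero]
    · have hcop : IsCoprime l p := ((hPP.isCoprime_iff).mpr h).symm
      rw [sy_cube_left hp.prim hcop, map_one]
  rw [sum_dvs_pow hPP]
  rcases Nat.eq_zero_or_pos j with rfl | hj
  · rw [Finset.sum_range_one, pow_zero, h1]
    unfold loc
    simp
  · obtain ⟨n, rfl⟩ : ∃ n, j = n + 1 := ⟨j - 1, by omega⟩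
    rw [Finset.sum_range_succ', Finset.sum_range_succ']
    have h0 : ∑ i ∈ Finset.range n, tk (l ^ 3) (p ^ (i + 1 + 1)) p = 0 :=
      Finset.sum_eq_zero fun i _ => hT.powc _ p _ hp hpp (by omega)
    rw [h0, pow_zero, h1, zero_add, pow_one, hT.pp _ _ hp hpp]
    unfold loc
    rw [if_neg (Nat.succ_ne_zero n)]
    by_cases h : p ∣ l
    · have h2 : p ∣ l ^ 3 := dvd_pow h three_ne_zero
      have h3 : p ^ 2 ∣ l ^ 3 := (pow_dvd_pow p (by norm_num)).trans (pow_dvd_pow_of_dvd h 3)
      simp [h, h2, h3]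
    · have h2 : ¬ p ∣ l ^ 3 := fun hd => h (hpp.dvd_of_dvd_pow hd)
      have h3 : ¬ p ^ 2 ∣ l ^ 3 := fun hd => h2 ((dvd_pow_self p two_ne_zero).trans hd)
      simp [h, h2, h3]

/-- splitting off a prime of `c` -/
lemma Ec_split {p c D : Eis} (hp : Sm 2 p) (hpp : Prime p) (hc : Sm 2 c) (hpc : ¬ p ∣ c)
    (hD : Sm 2 D) (hpD : ¬ p ∣ D) (j : ℕ) (l : Eis) :
    Ec (p * c) l (p ^ j * D) = loc p j l * Ec c l D := by
  have hcop : ∀ {x : Eis}, ¬ p ∣ x → IsCoprime p x := fun h =>
    hpp.irreducible.coprime_iff_not_dvd.mpr h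
  have hcD : IsCoprime (p ^ j) D := (hcop hpD).pow_left
  rw [← loc_eq hT l hp hpp j]
  unfold Ec
  rw [BL7.sum_dvs_mul (hp.pow j).ne_zero hD.ne_zero hcD, Finset.sum_mul_sum, Finset.sum_comm]
  refine Finset.sum_congr rfl fun e₁ he₁ => Finset.sum_congr rfl fun e₂ he₂ => ?_
  have d1 := dvd_of_mem_dvs he₁
  have d2 := dvd_of_mem_dvs he₂
  refine hT.mul (l ^ 3) e₁ e₂ p c ((hp.pow j).of_dvd (isPrim_of_mem_dvs he₁) d1)
    (hD.of_dvd (isPrim_of_mem_dvs he₂) d2) hp hc ?_
  refine IsCoprime.mul_left ?_ ?_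
  · refine IsCoprime.mul_right ?_ ?_
    · exact (hcD.of_isCoprime_of_dvd_left d1).of_isCoprime_of_dvd_right d2
    · exact ((hcop hpc).pow_left (m := j)).of_isCoprime_of_dvd_left d1
  · exact ((hcop hpD).of_isCoprime_of_dvd_right d2).mul_right (hcop hpc)

open Classical in
theorem meanC_aux {M m₀ : Eis} (h36 : (36 : Eis) ∣ M) (hR : Rad0 M m₀) {c : Eis} (hc : Sm M c) :
    Squarefree c → ∀ D : Eis, Sm M D →
    sumMod (m₀ * (D * c)) (gamc m₀ c D) / (nm (m₀ * (D * c)) : ℂ) =
      if IsCoprime D c then L5.PE c * EE m₀ D else 0 := by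
  have hm : m₀ ≠ 0 := hR.prim.ne_zero
  revert hc
  refine fun hc => Sm.induction_coprime (m := M) (P := fun c => Squarefree c → ∀ D : Eis,
    Sm M D → sumMod (m₀ * (D * c)) (gamc m₀ c D) / (nm (m₀ * (D * c)) : ℂ) =
      if IsCoprime D c then L5.PE c * EE m₀ D else 0) ?_ ?_ c hc
  · intro _ D hD
    have e1 : gamc m₀ 1 D = gam m₀ D := by
      funext l
      unfold gamc gam Ec El
      rfl
    have e2 : L5.PE 1 = 1 := by
      unfold L5.PE
      have : pp (1 : Eis) = ∅ := by
        ext q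
        rw [mem_pp one_ne_zero]
        simp only [Finset.notMem_empty, iff_false, not_and]
        exact fun hq h => hq.prime.not_isUnit (isUnit_of_dvd_one h)
      rw [this, Finset.prod_empty]
    rw [mul_one, e1, if_pos isCoprime_one_right, e2, one_mul]
    rfl
  · intro p k c hp hpp hk hc hpc ih hsq D hD
    have hk1 : k = 1 := by
      by_contra hne
      have h2 : 2 ≤ k := by omega
      have h3 : p * p ∣ p ^ k * c := by
        rw [← sq]
        exact (pow_dvd_pow p h2).mul_right c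
      exact hpp.not_isUnit (hsq p h3)
    subst hk1
    rw [pow_one] at hsq ⊢
    have hsc : Squarefree c := hsq.squarefree_of_dvd (dvd_mul_left _ _)
    have hPP : IsPP p := ⟨hp.prim, hpp⟩
    obtain ⟨j, D', rfl, hpD, hD'⟩ := Res.exists_split hp hpp hD
    have hp2 := Sm.two h36 hp
    have hc2 := Sm.two h36 hc
    have hD2 := Sm.two h36 hD'
    have hcop : ∀ {x : Eis}, ¬ p ∣ x → IsCoprime p x := fun h =>
      hpp.irreducible.coprime_iff_not_dvd.mpr h
    have hpm : IsCoprime p m₀ := rad_cop hR hp hpp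
    have hA0 : m₀ * (D' * c) ≠ 0 := mul_ne_zero hm (mul_ne_zero hD'.ne_zero hc.ne_zero)
    have hpj : p ^ (j + 1) ≠ 0 := pow_ne_zero _ hp.ne_zero
    have hAp : IsCoprime (m₀ * (D' * c)) (p ^ (j + 1)) :=
      ((hpm.mul_right ((hcop hpD).mul_right (hcop hpc))).symm).pow_right
    have e1 : m₀ * (p ^ j * D' * (p * c)) = m₀ * (D' * c) * p ^ (j + 1) := by ring
    have e2 : gamc m₀ (p * c) (p ^ j * D') = fun l => gamc m₀ c D' l * loc p j l := by
      funext l
      unfold gamc
      rw [Ec_split hT hp2 hpp hc2 hpc hD2 hpD j l]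
      split_ifs <;> ring
    have hper : Per (m₀ * (D' * c)) (gamc m₀ c D') := by
      intro x y hxy
      obtain ⟨t, ht⟩ := hxy
      have hx : x = y + m₀ * (D' * c) * t := by linear_combination ht
      rw [hx]
      exact perMod_gamc hc.ne_zero y t
    rw [e1, e2, sumMod_mul_coprime_prod hA0 hpj hAp hper
      ((per_loc p j).of_dvd (dvd_pow_self p (Nat.succ_ne_zero j))), pow_succ',
      sumMod_mul_of_per hp.ne_zero (pow_ne_zero j hp.ne_zero) (per_loc p j), sumMod_loc hp.ne_zero,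
      nm_mul (m₀ * (D' * c)), nm_mul p]
    push_cast
    have hnA : (nm (m₀ * (D' * c)) : ℂ) ≠ 0 := by exact_mod_cast (nm_pos.mpr hA0).ne'
    have hnp : (nm p : ℂ) ≠ 0 := by exact_mod_cast (nm_pos.mpr hp.ne_zero).ne'
    have hnpj : (nm (p ^ j) : ℂ) ≠ 0 := by
      exact_mod_cast (nm_pos.mpr (pow_ne_zero j hp.ne_zero)).ne'
    have ih' := ih hsc D' hD'
    have e3 : sumMod (m₀ * (D' * c)) (gamc m₀ c D') * ((nm (p ^ j) : ℂ) *
        ((nm p : ℂ) - 1 + (if j = 0 then 0 else 1 - (nm p : ℂ)))) /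
        ((nm (m₀ * (D' * c)) : ℂ) * ((nm p : ℂ) * (nm (p ^ j) : ℂ))) =
        (sumMod (m₀ * (D' * c)) (gamc m₀ c D') / (nm (m₀ * (D' * c)) : ℂ)) *
        (((nm p : ℂ) - 1 + (if j = 0 then 0 else 1 - (nm p : ℂ))) / nm p) := by
      field_simp
    rw [e3, ih']
    rcases Nat.eq_zero_or_pos j with rfl | hj
    · have e4 : IsCoprime (p ^ 0 * D') (p * c) ↔ IsCoprime D' c := by
        rw [pow_zero, one_mul, IsCoprime.mul_right_iff]
        exact ⟨fun h => h.2, fun h => ⟨(hcop hpD).symm, h⟩⟩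
      have e5 : L5.PE (p * c) = (1 - 1 / (nm p : ℂ)) * L5.PE c := by
        unfold L5.PE
        have hpps : pp p = {p} := by
          ext q
          rw [mem_pp hp.ne_zero, Finset.mem_singleton]
          constructor
          · rintro ⟨hq, h⟩; exact hq.eq_of_dvd hPP h
          · rintro rfl; exact ⟨hPP, dvd_rfl⟩
        rw [pp_mul hp.ne_zero hc.ne_zero, Finset.prod_union (pp_disjoint (hcop hpc)), hpps,
          Finset.prod_singleton]
      by_cases hcd : IsCoprime D' c
      · rw [if_pos hcd, if_pos (e4.mpr hcd), if_pos rfl, pow_zero, one_mul, e5]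
        field_simp
        ring
      · rw [if_neg hcd, if_neg (fun h => hcd (e4.mp h)), zero_mul]
    · have e4 : ¬ IsCoprime (p ^ j * D') (p * c) := by
        intro h
        have h1 : p ∣ p ^ j * D' := (dvd_pow_self p hj.ne').mul_right _
        exact hpp.not_isUnit (h.isUnit_of_dvd' h1 (dvd_mul_right _ _))
      rw [if_neg e4, if_neg hj.ne']
      ring

end

/-- **MeanC** (868) -/
theorem meanC : MeanC := by
  intro hT M m₀ h36 hR c D hc hsq hD
  exact meanC_aux hT h36 hR hc hsq D hD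

end Crest.Agent.R017.MeanC401
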