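import Crest.Agent.R017.BDefs_770
import Crest.Agent.R017.LSe_848

/-!
# Row 17, leaf L1: the transform `tk` at one prime

`tk_pow0`, `tk_pow1`, `tk_pow2`, `tk_powc` : the fields `pow0, pow1, pow2, powc` of `B770.TkAlg`.
-/

set_option autoImplicit false

noncomputable section

open MeasureTheory Complex Set
open scoped ComplexConjugate ContDiff

namespace Crest.Agent.R017.TkP848

open Crest.Agent.R012 Crest.Agent.R012.Eis Crest.Agent.R012.Mob705 Crest.Agent.R012.Gauss880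
open Crest.Agent.R017.End699 Crest.Agent.R017.Sx440 Crest.Agent.R017.Sx545
open Crest.Agent.R017.B770

/-! ### sums over residues with small period / small support -/

lemma sumMod_single848 {c : Eis} (hc : c ≠ 0) {f : Eis → ℂ} (hf : PMod c f) (a : Eis)
    (h : ∀ x, ¬ c ∣ x - a → f x = 0) : sumMod c f = f a := by
  rw [sumMod_eq_sum (isCRS_crs hc) hf]
  obtain ⟨s, ⟨hs, hd⟩, huniq⟩ := isCRS_crs hc a
  rw [Finset.sum_eq_single s]
  · exact (hf.congr hd).symm
  · intro t ht hts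
    apply h
    intro hdt
    apply hts
    apply huniq
    refine ⟨ht, ?_⟩
    rw [← neg_sub]
    exact (dvd_neg).mpr hdt
  · intro h'
    exact absurd hs h'

lemma sumMod_supp {c d : Eis} (hc : c ≠ 0) (hd : d ≠ 0) {f : Eis → ℂ} (hf : PMod (c * d) f)
    (h0 : ∀ x, ¬ c ∣ x → f x = 0) : sumMod (c * d) f = sumMod d (fun y => f (c * y)) := by
  rw [sumMod_tower hc hd hf]
  have hp2 : PMod c (fun x => sumMod d (fun y => f (x + c * y))) := fun x t => by
    have hp1 : PMod d (fun y => f (x + c * y)) := fun y t => by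
      have : x + c * (y + d * t) = (x + c * y) + c * d * t := by ring
      beta_reduce
      rw [this, hf]
    have h := sumMod_shift hd hp1 t
    beta_reduce
    rw [← h]
    exact sumMod_congr fun y => by ring_nf
  rw [sumMod_single848 hc hp2 0]
  · exact sumMod_congr fun y => by rw [zero_add]
  · intro x hx
    rw [sub_zero] at hx
    have : ∀ y, f (x + c * y) = 0 := fun y => h0 _ (fun h => hx ((dvd_add_left (dvd_mul_right c y)).1 h))
    rw [sumMod_congr this, sumMod_const hd, mul_zero]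

/-- a function of period `p^e` against a character modulo `p^(e+s)`. -/
lemma sumMod_period {p : Eis} (hp : p ≠ 0) (hl : ¬ lam ∣ p) (e s : ℕ) {f : Eis → ℂ}
    (hf : PMod (p ^ e) f) (k : Eis) :
    sumMod (p ^ (e + s)) (fun a => f a * eC (-(toC a * toC k / toC (p ^ (e + s))))) =
      open Classical in
      if p ^ s ∣ k then (nm p : ℂ) ^ s *
        sumMod (p ^ e) (fun a => f a * eC (-(toC a * toC k / toC (p ^ (e + s))))) else 0 := by
  have hpe : p ^ e ≠ 0 := pow_ne_zero e hp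
  have hps : p ^ s ≠ 0 := pow_ne_zero s hp
  have hls : ¬ lam ∣ p ^ s := fun h => hl (prime_lam.dvd_of_dvd_pow h)
  have hq : PMod (p ^ (e + s)) (fun a => eC (-(toC a * toC k / toC (p ^ (e + s))))) := by
    have h := pmod_eC (-k) (p ^ (e + s))
    intro x t
    have h1 := h x t
    beta_reduce at h1 ⊢
    rw [map_neg] at h1
    have e1 : ∀ z : ℂ, -(z * toC k / toC (p ^ (e + s))) = -toC k * z / toC (p ^ (e + s)) := by
      intro z; ring
    rw [e1, e1]
    exact h1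
  have hper : PMod (p ^ (e + s)) (fun a => f a * eC (-(toC a * toC k / toC (p ^ (e + s))))) :=
    (hf.mono (pow_dvd_pow p (Nat.le_add_right e s))).mul hq
  have e0 : p ^ (e + s) = p ^ e * p ^ s := pow_add p e s
  rw [e0] at hper ⊢
  rw [sumMod_tower hpe hps hper]
  have h1 : ∀ x, sumMod (p ^ s) (fun y => f (x + p ^ e * y) *
      eC (-(toC (x + p ^ e * y) * toC k / toC (p ^ e * p ^ s)))) =
      f x * eC (-(toC x * toC k / toC (p ^ e * p ^ s))) *
        (open Classical in if p ^ s ∣ k then ((nm p : ℂ) ^ s) else 0) := by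
    intro x
    have h2 : ∀ y, f (x + p ^ e * y) * eC (-(toC (x + p ^ e * y) * toC k / toC (p ^ e * p ^ s))) =
        (f x * eC (-(toC x * toC k / toC (p ^ e * p ^ s)))) *
          eC (toC (-k) * toC y / toC (p ^ s)) := by
      intro y
      have hpk : toC (p ^ e) ≠ 0 := by rw [Ne, toC_eq_zero]; exact hpe
      have e2 : -(toC (x + p ^ e * y) * toC k / toC (p ^ e * p ^ s)) =
          -(toC x * toC k / toC (p ^ e * p ^ s)) + toC (-k) * toC y / toC (p ^ s) := by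
        rw [map_add, map_mul toC (p ^ e) y, map_mul toC (p ^ e) (p ^ s), map_neg]
        field_simp
        ring
      rw [hf x y, e2, eC_add]; ring
    rw [sumMod_congr h2, sumMod_mul_left hps, sumMod_eC_of_not_lam_dvd hls, nm_pow]
    congr 1
    have hk : (p ^ s ∣ -k) ↔ (p ^ s ∣ k) := dvd_neg
    by_cases h : p ^ s ∣ k
    · rw [if_pos (hk.2 h), if_pos h]; push_cast; rfl
    · rw [if_neg (fun h' => h (hk.1 h')), if_neg h]
  rw [sumMod_congr h1, sumMod_mul_right hpe]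
  split_ifs
  · ring
  · rw [mul_zero]


/-! ### the coefficient at prime powers -/

variable {p : Eis}

lemma sm_nm_pos (hp : Sm 2 p) : (0 : ℝ) < nm p := by
  exact_mod_cast nm_pos.mpr hp.ne_zero

/-- `gs6 (a^4) (p^j) = 0` for `j ≥ 2` when `p ∤ a`. -/
lemma gs6_not_dvd (hp : Sm 2 p) {j : ℕ} (hj : 2 ≤ j) (hpp : Prime p) {a : Eis} (ha : ¬ p ∣ a) :
    gs6 (a ^ 4) (p ^ j) = 0 := by
  have h := res_sy6.gR_table_ge hp (r := a ^ 4) (a := 0) (k := j)
    (fun h => ha (hpp.dvd_of_dvd_pow h)) (by omega)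
  rw [pow_zero, mul_one, gR_sy6] at h
  exact h

/-- all values, `6 ∤ j`, `j ≥ 2`: the Gauss sum vanishes unless `j = 4 v + 1`, `p^v ∥ a`. -/
lemma gs6_table (hp : Sm 2 p) (hpp : Prime p) {j : ℕ} (hj6 : ¬ 6 ∣ j) (a : Eis) {v : ℕ}
    (hj : j = 4 * v + 1 → ¬ (p ^ v ∣ a ∧ ¬ p ^ (v + 1) ∣ a)) (hj4 : j % 4 = 1 → j = 4 * v + 1)
    (hj2 : 2 ≤ j) :
    gs6 (a ^ 4) (p ^ j) = 0 := by
  by_cases ha0 : a = 0
  · subst ha0
    have h := res_sy6.gR_zero_pow hp hpp (k := j) (by omega)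
    rw [if_neg hj6, gR_sy6] at h
    rw [zero_pow (by norm_num)]
    exact h
  · obtain ⟨w', a', ha', h⟩ := WfDvdMonoid.max_power_factor (a₀ := a) (x := p) ha0
      hpp.irreducible
    have h4 : ¬ p ∣ a' ^ 4 := fun h' => ha' (hpp.dvd_of_dvd_pow h')
    have e1 : a ^ 4 = a' ^ 4 * p ^ (4 * w') := by
      rw [h, mul_pow, mul_comm, ← pow_mul, mul_comm w' 4]
    rw [e1, ← gR_sy6]
    rcases lt_trichotomy j (4 * w' + 1) with hlt | heq | hgt
    · rw [res_sy6.gR_table_le hp hpp (by omega) (by omega), if_neg hj6]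
    · exfalso
      have hv : v = w' := by have := hj4 (by omega); omega
      subst hv
      apply hj heq
      rw [h]
      refine ⟨dvd_mul_right _ _, fun h' => ha' ?_⟩
      rw [pow_succ, mul_dvd_mul_iff_left (pow_ne_zero _ hp.ne_zero)] at h'
      exact h'
    · exact res_sy6.gR_table_ge hp h4 (by omega)

/-- the case `6 ∣ j`. -/
lemma gs6_six (hp : Sm 2 p) (hpp : Prime p) {j : ℕ} (hj6 : 6 ∣ j) (hj0 : 1 ≤ j) (a : Eis) :
    gs6 (a ^ 4) (p ^ j) = open Classical in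
      if p ^ ((j + 3) / 4) ∣ a then (nm p : ℂ) ^ (j - 1) * (nm p - 1) else 0 := by
  classical
  by_cases ha0 : a = 0
  · subst ha0
    have h := res_sy6.gR_zero_pow hp hpp (k := j) (by omega)
    rw [if_pos hj6, gR_sy6] at h
    rw [zero_pow (by norm_num), if_pos (dvd_zero _)]
    exact h
  · obtain ⟨w', a', ha', h⟩ := WfDvdMonoid.max_power_factor (a₀ := a) (x := p) ha0
      hpp.irreducible
    have h4 : ¬ p ∣ a' ^ 4 := fun h' => ha' (hpp.dvd_of_dvd_pow h')
    have e1 : a ^ 4 = a' ^ 4 * p ^ (4 * w') := by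
      rw [h, mul_pow, mul_comm, ← pow_mul, mul_comm w' 4]
    have hiff : p ^ ((j + 3) / 4) ∣ a ↔ (j + 3) / 4 ≤ w' := by
      constructor
      · intro h'
        by_contra hcon
        push Not at hcon
        have h2 : p ^ (w' + 1) ∣ a := (pow_dvd_pow p (by omega)).trans h'
        rw [h, pow_succ, mul_dvd_mul_iff_left (pow_ne_zero _ hp.ne_zero)] at h2
        exact ha' h2
      · intro h'
        rw [h]
        exact (pow_dvd_pow p h').mul_right _
    rw [e1, ← gR_sy6]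
    by_cases hw : (j + 3) / 4 ≤ w'
    · rw [if_pos (hiff.2 hw), res_sy6.gR_table_le hp hpp (by omega) (by omega), if_pos hj6]
    · rw [if_neg (fun h' => hw (hiff.1 h'))]
      exact res_sy6.gR_table_ge hp h4 (by omega)

/-- the case `j = 4 v + 1`, `a = p^v u`. -/
lemma gs6_four (hp : Sm 2 p) (v : ℕ) (u : Eis) :
    gs6 ((p ^ v * u) ^ 4) (p ^ (4 * v + 1)) =
      (nm p : ℂ) ^ (4 * v) * Sx545.tw sy6 (4 * v + 1) (u ^ 4) p := by
  have h := res_sy6.gR_table_succ (u ^ 4) hp (4 * v)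
  rw [gR_sy6] at h
  rw [← h]
  congr 1
  rw [mul_pow, mul_comm, ← pow_mul, mul_comm v 4]

/-! ### the transform at `p^j` -/

lemma tk_pow_eq (k : Eis) (j : ℕ) : tk k (p ^ j) 1 = ((Real.sqrt (nm (p ^ j)) : ℝ) : ℂ)⁻¹ *
    sumMod (p ^ j) (fun a => hN a (p ^ j) * eC (-(toC a * toC k / toC (p ^ j)))) := by
  unfold tk
  have h1 : nm (1 : Eis) = 1 := by simp
  rw [G_one, map_one, h1, mul_one, Nat.cast_one, mul_one, one_div]
  congr 1
  refine sumMod_congr fun a => ?_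
  rw [map_one, mul_one]
  congr 1
  rw [res_sy.one_right, mul_one]

lemma hN_eq_zero {a b : Eis} (h : gs6 (a ^ 4) b = 0) : hN a b = 0 := by
  unfold hN; rw [h, map_zero, mul_zero, zero_div]

/-- **`pow0`** -/
theorem tk_pow0 (k : Eis) (hp : Sm 2 p) (hpp : Prime p) {j : ℕ} (hj : 2 ≤ j) (h4 : j % 4 ≠ 1)
    (h6 : j % 6 ≠ 0) : tk k (p ^ j) 1 = 0 := by
  have h6' : ¬ 6 ∣ j := fun h => h6 (Nat.mod_eq_zero_of_dvd h)
  have h0 : ∀ a, hN a (p ^ j) = 0 := fun a => hN_eq_zero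
    (gs6_table hp hpp h6' a (v := 0) (by omega) (by omega) hj)
  rw [tk_pow_eq]
  have h1 : ∀ a, hN a (p ^ j) * eC (-(toC a * toC k / toC (p ^ j))) = 0 := fun a => by
    rw [h0, zero_mul]
  rw [sumMod_congr h1, sumMod_const (pow_ne_zero j hp.ne_zero), mul_zero, mul_zero]

/-- **`powc`** -/
theorem tk_powc (k : Eis) (hp : Sm 2 p) (hpp : Prime p) {j : ℕ} (hj : 2 ≤ j) :
    tk k (p ^ j) p = 0 := by
  unfold tk
  have h1 : ∀ a, hN a (p ^ j) * sy a p * eC (-(toC a * toC k / (toC (p ^ j) * toC p))) = 0 := by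
    intro a
    by_cases ha : p ∣ a
    · have : sy a p = 0 := (res_sy.eq_zero a p (hp.mono (one_dvd 2))).mpr
        (fun h => (Res.isCoprime_iff_not_dvd hpp a).mp h ha)
      rw [this, mul_zero, zero_mul]
    · rw [hN_eq_zero (gs6_not_dvd hp hj hpp ha), zero_mul, zero_mul]
  rw [sumMod_congr h1, sumMod_const (mul_ne_zero (pow_ne_zero j hp.ne_zero) hp.ne_zero), mul_zero,
    mul_zero]

/-- periodicity and support of `a ↦ hN a (p^(4v+1))`. -/
lemma hN_four_supp (hp : Sm 2 p) (hpp : Prime p) {v : ℕ} (hv : 1 ≤ v) {a : Eis}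
    (ha : ¬ (p ^ v ∣ a ∧ ¬ p ^ (v + 1) ∣ a)) : hN a (p ^ (4 * v + 1)) = 0 :=
  hN_eq_zero (gs6_table hp hpp (by omega) a (v := v) (fun _ => ha) (fun _ => rfl) (by omega))

lemma pmod_hN_four (hp : Sm 2 p) (hpp : Prime p) {v : ℕ} (hv : 1 ≤ v) :
    PMod (p ^ (v + 1)) (fun a => hN a (p ^ (4 * v + 1))) := by
  intro x t
  beta_reduce
  by_cases hx : p ^ v ∣ x
  · obtain ⟨u, rfl⟩ := hx
    have e1 : p ^ v * u + p ^ (v + 1) * t = p ^ v * (u + p * t) := by ring
    unfold hN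
    rw [e1, gs6_four hp, gs6_four hp]
    have h2 : Sx545.tw sy6 (4 * v + 1) ((u + p * t) ^ 4) p =
        Sx545.tw sy6 (4 * v + 1) (u ^ 4) p := by
      apply Res.tw_congr
      have h3 : p ∣ (u + p * t) - u := ⟨t, by ring⟩
      exact h3.trans (sub_dvd_pow_sub_pow _ _ 4)
    rw [h2]
  · have h1 : ¬ p ^ v ∣ x + p ^ (v + 1) * t := by
      intro h
      apply hx
      have h2 : p ^ v ∣ p ^ (v + 1) * t := (pow_dvd_pow p (Nat.le_succ v)).mul_right t
      exact (dvd_add_left h2).1 h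
    rw [hN_four_supp hp hpp hv (fun h => h1 h.1), hN_four_supp hp hpp hv (fun h => hx h.1)]

lemma pmod_hN_six (hp : Sm 2 p) (hpp : Prime p) {j : ℕ} (hj6 : 6 ∣ j) (hj0 : 1 ≤ j) :
    PMod (p ^ ((j + 3) / 4)) (fun a => hN a (p ^ j)) := by
  classical
  intro x t
  beta_reduce
  unfold hN
  have h1 : (p ^ ((j + 3) / 4) ∣ x + p ^ ((j + 3) / 4) * t) ↔ (p ^ ((j + 3) / 4) ∣ x) :=
    dvd_add_left (dvd_mul_right _ _)
  rw [gs6_six hp hpp hj6 hj0, gs6_six hp hpp hj6 hj0, if_congr h1 rfl rfl]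

/-- exact form, `j = 4 v + 1`, `v ≥ 1`. -/
theorem tk_four (k : Eis) (hp : Sm 2 p) (hpp : Prime p) {v : ℕ} (hv : 1 ≤ v) :
    tk k (p ^ (4 * v + 1)) 1 = open Classical in
      if p ^ (3 * v) ∣ k then ((Real.sqrt (nm (p ^ (4 * v + 1))) : ℝ) : ℂ)⁻¹ *
        ((nm p : ℂ) ^ (3 * v) * sumMod p (fun u => hN (p ^ v * u) (p ^ (4 * v + 1)) *
          eC (-(toC (p ^ v * u) * toC k / toC (p ^ (4 * v + 1)))))) else 0 := by
  classical
  have hp0 := hp.ne_zero
  have e0 : 4 * v + 1 = (v + 1) + 3 * v := by ring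
  have h1 := sumMod_period hp0 hp.not_lam_dvd (v + 1) (3 * v) (pmod_hN_four hp hpp hv) k
  rw [← e0] at h1
  rw [tk_pow_eq, h1]
  by_cases hk : p ^ (3 * v) ∣ k
  · rw [if_pos hk, if_pos hk]
    congr 2
    have e2 : p ^ (v + 1) = p ^ v * p := pow_succ p v
    have hper : PMod (p ^ v * p) (fun a => hN a (p ^ (4 * v + 1)) *
        eC (-(toC a * toC k / toC (p ^ (4 * v + 1))))) := by
      rw [← e2]
      refine (pmod_hN_four hp hpp hv).mul ?_
      obtain ⟨k', rfl⟩ := hk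
      intro x t
      beta_reduce
      have hpp' : toC p ≠ 0 := by rwa [Ne, toC_eq_zero]
      have e3 : -(toC (x + p ^ (v + 1) * t) * toC (p ^ (3 * v) * k') / toC (p ^ (4 * v + 1))) =
          -(toC x * toC (p ^ (3 * v) * k') / toC (p ^ (4 * v + 1))) + toC (-(t * k')) := by
        have : toC (p ^ (4 * v + 1)) = toC (p ^ (v + 1)) * toC (p ^ (3 * v)) := by
          rw [← map_mul, ← pow_add, ← e0]
        rw [this, map_add, map_mul, map_mul, map_neg, map_mul]
        have h3 : toC (p ^ (v + 1)) ≠ 0 := by rw [Ne, toC_eq_zero]; exact pow_ne_zero _ hp0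
        have h4 : toC (p ^ (3 * v)) ≠ 0 := by rw [Ne, toC_eq_zero]; exact pow_ne_zero _ hp0
        field_simp
        ring
      rw [e3, eC_add, eC_toC, mul_one]
    rw [e2, sumMod_supp (pow_ne_zero v hp0) hp0 hper]
    intro x hx
    rw [hN_four_supp hp hpp hv (fun h => hx h.1), zero_mul]
  · rw [if_neg hk, if_neg hk, mul_zero]

/-- exact form, `6 ∣ j`, `j ≥ 6`. -/
theorem tk_six (k : Eis) (hp : Sm 2 p) (hpp : Prime p) {j : ℕ} (hj6 : 6 ∣ j) (hj0 : 1 ≤ j) :
    tk k (p ^ j) 1 = open Classical in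
      if p ^ (j - (j + 3) / 4) ∣ k then ((Real.sqrt (nm (p ^ j)) : ℝ) : ℂ)⁻¹ *
        ((nm p : ℂ) ^ (j - (j + 3) / 4) * hN 0 (p ^ j)) else 0 := by
  classical
  have hp0 := hp.ne_zero
  have e0 : j = (j + 3) / 4 + (j - (j + 3) / 4) := by omega
  have h1 := sumMod_period hp0 hp.not_lam_dvd ((j + 3) / 4) (j - (j + 3) / 4)
    (pmod_hN_six hp hpp hj6 hj0) k
  rw [← e0] at h1
  rw [tk_pow_eq, h1]
  by_cases hk : p ^ (j - (j + 3) / 4) ∣ k
  · rw [if_pos hk, if_pos hk]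
    congr 2
    have hper : PMod (p ^ ((j + 3) / 4)) (fun a => hN a (p ^ j) *
        eC (-(toC a * toC k / toC (p ^ j)))) := by
      refine (pmod_hN_six hp hpp hj6 hj0).mul ?_
      obtain ⟨k', hk'⟩ := hk
      intro x t
      beta_reduce
      have e3 : -(toC (x + p ^ ((j + 3) / 4) * t) * toC k / toC (p ^ j)) =
          -(toC x * toC k / toC (p ^ j)) + toC (-(t * k')) := by
        have h5 : toC (p ^ j) = toC (p ^ ((j + 3) / 4)) * toC (p ^ (j - (j + 3) / 4)) := by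
          rw [← map_mul, ← pow_add, ← e0]
        have h6 : toC k = toC (p ^ (j - (j + 3) / 4)) * toC k' := by rw [← map_mul, hk']
        rw [h5, map_add, map_mul, map_neg, map_mul]
        have h3 : toC (p ^ ((j + 3) / 4)) ≠ 0 := by
          rw [Ne, toC_eq_zero]; exact pow_ne_zero _ hp0
        have h4 : toC (p ^ (j - (j + 3) / 4)) ≠ 0 := by
          rw [Ne, toC_eq_zero]; exact pow_ne_zero _ hp0
        field_simp
        rw [h6]
        ring
      rw [e3, eC_add, eC_toC, mul_one]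
    rw [sumMod_single848 (pow_ne_zero _ hp0) hper 0]
    · simp
    · intro x hx
      rw [sub_zero] at hx
      have : hN x (p ^ j) = 0 := hN_eq_zero (by rw [gs6_six hp hpp hj6 hj0, if_neg hx])
      rw [this, zero_mul]
  · rw [if_neg hk, if_neg hk, mul_zero]

lemma sE_four (v : ℕ) : sE (4 * v + 1) = 3 * v := by
  unfold sE
  rw [if_pos (by omega)]; congr 1; omega

lemma sE_six {j : ℕ} (h : j % 4 ≠ 1) : sE j = j - (j + 3) / 4 := by
  unfold sE
  rw [if_neg h]

/-- **`pow1`** -/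
theorem tk_pow1 (k : Eis) (hp : Sm 2 p) (hpp : Prime p) {j : ℕ} (hj : 2 ≤ j)
    (hk : ¬ p ^ sE j ∣ k) : tk k (p ^ j) 1 = 0 := by
  by_cases h4 : j % 4 = 1
  · obtain ⟨v, rfl⟩ : ∃ v, j = 4 * v + 1 := ⟨j / 4, by omega⟩
    rw [sE_four] at hk
    rw [tk_four k hp hpp (by omega), if_neg hk]
  · by_cases h6 : j % 6 = 0
    · rw [sE_six h4] at hk
      rw [tk_six k hp hpp (Nat.dvd_of_mod_eq_zero h6) (by omega), if_neg hk]
    · exact tk_pow0 k hp hpp hj h4 h6

lemma norm_eC_one (z : ℂ) : ‖eC z‖ = 1 := by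
  unfold eC
  have h : 2 * Real.pi * Complex.I * (z + (starRingEnd ℂ) z) =
      ((4 * Real.pi * z.re : ℝ) : ℂ) * Complex.I := by
    rw [Complex.add_conj]; push_cast; ring
  rw [h, Complex.norm_exp_ofReal_mul_I]

lemma norm_hN_le {a b : Eis} (hb : Sm 2 b) : ‖hN a b‖ ≤ ‖gs6 (a ^ 4) b‖ / Real.sqrt (nm b) := by
  unfold hN
  rw [norm_div, Complex.norm_real, Real.norm_of_nonneg (Real.sqrt_nonneg _), norm_mul, norm_mul,
    norm_mul, RCLike.norm_conj, RCLike.norm_conj]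
  have h1 : ‖ang 1 b‖ ≤ 1 := by
    unfold ang
    rw [zpow_one, norm_div, Complex.norm_real, norm_norm]
    exact div_self_le_one _
  have h2 : ‖sy 2 b‖ ≤ 1 := res_sy.norm_le_one 2 (hb.mono (one_dvd 2))
  have h3 : ‖LS848.eps2 b‖ = 1 := LS848.norm_eps2 hb.prim (sm_two_iff.1 hb).2
  have h4 : ‖ang 1 b‖ * ‖sy 2 b‖ * ‖LS848.eps2 b‖ ≤ 1 := by
    rw [h3, mul_one]
    exact mul_le_one₀ h1 (norm_nonneg _) h2
  exact div_le_div_of_nonneg_right (mul_le_of_le_one_left (norm_nonneg _) h4) (Real.sqrt_nonneg _)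

lemma norm_tw_le (hp : Sm 2 p) (hpp : Prime p) {j : ℕ} (hj : ¬ 6 ∣ j) (s : Eis) :
    ‖Sx545.tw sy6 j s p‖ ≤ Real.sqrt (nm p) := by
  by_cases hs : p ∣ s
  · rw [res_sy6.tw_of_dvd hp hpp hj hs, norm_zero]; exact Real.sqrt_nonneg _
  · apply Real.le_sqrt_of_sq_le
    rw [res_sy6.norm_tw_sq hp hpp hj hs]

lemma sqrt_nm_pow (p : Eis) (v : ℕ) : Real.sqrt (nm (p ^ (4 * v + 1))) =
    (nm p : ℝ) ^ (2 * v) * Real.sqrt (nm p) := by
  have h : ((nm (p ^ (4 * v + 1)) : ℕ) : ℝ) = ((nm p : ℝ) ^ (2 * v)) ^ 2 * nm p := by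
    rw [nm_pow]; push_cast; ring
  rw [h, Real.sqrt_mul (by positivity), Real.sqrt_sq (by positivity)]

/-- **`pow2`** -/
theorem tk_pow2 (k : Eis) (hp : Sm 2 p) (hpp : Prime p) {j : ℕ} (hj : 2 ≤ j) :
    ‖tk k (p ^ j) 1‖ ≤ (nm p : ℝ) ^ ((sE j : ℝ) + 1 / 2) := by
  have hp0 := hp.ne_zero
  have hN0 : (0 : ℝ) < nm p := sm_nm_pos hp
  have hN1 : (1 : ℝ) ≤ nm p := by
    have : 1 ≤ nm p := nm_pos.mpr hp0
    exact_mod_cast this
  have hs0 : 0 < Real.sqrt (nm p) := Real.sqrt_pos.2 hN0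
  by_cases h4 : j % 4 = 1
  · obtain ⟨v, rfl⟩ : ∃ v, j = 4 * v + 1 := ⟨j / 4, by omega⟩
    have hv : 1 ≤ v := by omega
    rw [sE_four, tk_four k hp hpp hv]
    have hR : (nm p : ℝ) ^ (((3 * v : ℕ) : ℝ) + 1 / 2) = (nm p : ℝ) ^ (3 * v) * Real.sqrt (nm p) := by
      rw [Real.rpow_add hN0, Real.rpow_natCast, Real.sqrt_eq_rpow]
    rw [hR]
    split_ifs with hk
    · rw [norm_mul, norm_mul, norm_inv, Complex.norm_real, Real.norm_of_nonneg (Real.sqrt_nonneg _),
        norm_pow, Complex.norm_natCast]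
      have hB : ∀ u, ‖hN (p ^ v * u) (p ^ (4 * v + 1)) *
          eC (-(toC (p ^ v * u) * toC k / toC (p ^ (4 * v + 1))))‖ ≤ (nm p : ℝ) ^ (2 * v) := by
        intro u
        rw [norm_mul, norm_eC_one, mul_one]
        refine (norm_hN_le (hp.pow _)).trans ?_
        rw [gs6_four hp, norm_mul, norm_pow, Complex.norm_natCast, sqrt_nm_pow]
        rw [div_le_iff₀ (by positivity)]
        have h1 := norm_tw_le hp hpp (j := 4 * v + 1) (by omega) (u ^ 4)
        calc (nm p : ℝ) ^ (4 * v) * ‖Sx545.tw sy6 (4 * v + 1) (u ^ 4) p‖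
            ≤ (nm p : ℝ) ^ (4 * v) * Real.sqrt (nm p) :=
              mul_le_mul_of_nonneg_left h1 (by positivity)
          _ = (nm p : ℝ) ^ (2 * v) * ((nm p : ℝ) ^ (2 * v) * Real.sqrt (nm p)) := by
              have : 4 * v = 2 * v + 2 * v := by ring
              rw [this, pow_add]; ring
      have h2 := norm_sumMod_le hp0 hB
      rw [sqrt_nm_pow]
      have h3 : ((nm p : ℝ) ^ (2 * v) * Real.sqrt (nm p)) ≠ 0 := by positivity
      rw [inv_mul_le_iff₀ (by positivity)]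
      calc (nm p : ℝ) ^ (3 * v) * ‖sumMod p _‖ ≤ (nm p : ℝ) ^ (3 * v) *
            ((nm p : ℝ) * (nm p : ℝ) ^ (2 * v)) := mul_le_mul_of_nonneg_left h2 (by positivity)
        _ = (nm p : ℝ) ^ (2 * v) * Real.sqrt (nm p) * ((nm p : ℝ) ^ (3 * v) * Real.sqrt (nm p)) := by
            have : Real.sqrt (nm p) * Real.sqrt (nm p) = nm p := Real.mul_self_sqrt hN0.le
            calc _ = (nm p : ℝ) ^ (2 * v) * (nm p : ℝ) ^ (3 * v) * (nm p : ℝ) := by ring
              _ = (nm p : ℝ) ^ (2 * v) * (nm p : ℝ) ^ (3 * v) *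
                  (Real.sqrt (nm p) * Real.sqrt (nm p)) := by rw [this]
              _ = _ := by ring
    · rw [norm_zero]; positivity
  · by_cases h6 : j % 6 = 0
    · rw [sE_six h4, tk_six k hp hpp (Nat.dvd_of_mod_eq_zero h6) (by omega)]
      have hR : (nm p : ℝ) ^ (j - (j + 3) / 4) ≤
          (nm p : ℝ) ^ (((j - (j + 3) / 4 : ℕ) : ℝ) + 1 / 2) := by
        rw [← Real.rpow_natCast]
        exact Real.rpow_le_rpow_of_exponent_le hN1 (by linarith)
      split_ifs with hk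
      · refine le_trans ?_ hR
        rw [norm_mul, norm_mul, norm_inv, Complex.norm_real,
          Real.norm_of_nonneg (Real.sqrt_nonneg _), norm_pow, Complex.norm_natCast]
        have hq : 0 < Real.sqrt (nm (p ^ j)) := by
          apply Real.sqrt_pos.2
          exact_mod_cast nm_pos.mpr (pow_ne_zero j hp0)
        have h1 : ‖hN 0 (p ^ j)‖ ≤ Real.sqrt (nm (p ^ j)) := by
          refine (norm_hN_le (hp.pow _)).trans ?_
          rw [div_le_iff₀ hq, Real.mul_self_sqrt (Nat.cast_nonneg _), ← gR_sy6]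
          exact res_sy6.norm_gR_le _ (hp.pow j)
        rw [inv_mul_le_iff₀ hq, mul_comm (Real.sqrt _)]
        exact mul_le_mul_of_nonneg_left h1 (by positivity)
      · rw [norm_zero]; positivity
    · rw [tk_pow0 k hp hpp hj h4 h6, norm_zero]; positivity

end Crest.Agent.R017.TkP848
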