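import Crest.Agent.R017.TkB_545
import Crest.Agent.R017.TkM_858
import Crest.Agent.R017.TkP_848

/-!
# Row 17, section B, leaf L1 : `TkAlg` (assembly; parts by 858, 848, 545)
-/

set_option autoImplicit false

namespace Crest.Agent.R017.Tk545

open Crest.Agent.R017.B770

/-- **L1**. -/
theorem tkAlg : TkAlg where
  mul := TkM858.tk_mul
  one := TkM858.tk_one
  b1 k b hb hsf := tk_b1 k hb hsf
  c1 := TkM858.tk_c1
  pp k p hp hpp := tk_pp k hp hpp
  pow0 k p j hp hpp hj h4 h6 := TkP848.tk_pow0 k hp hpp hj h4 h6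
  pow1 k p j hp hpp hj hk := TkP848.tk_pow1 k hp hpp hj hk
  pow2 k p j hp hpp hj := TkP848.tk_pow2 k hp hpp hj
  powc k p j hp hpp hj := TkP848.tk_powc k hp hpp hj

end Crest.Agent.R017.Tk545
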