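import Crest.Agent.R017.NatPC_401

/-!
# Row 17, section B, leaf L4 `NatP` (D): end of the proof (helper401)
-/

set_option autoImplicit false

noncomputable section

open Complex
open scoped ComplexConjugate ContDiff

namespace Crest.Agent.R017.NatP401

open Crest.Agent.R012 Crest.Agent.R012.Eis Crest.Agent.R012.Mob705 Crest.Agent.R012.Div277
open Crest.Agent.R012.PSer47
open Crest.Agent.R017.End699 Crest.Agent.R017.Sx545 Crest.Agent.R017.B770

lemma nm_prod' {ι : Type*} (s : Finset ι) (f : ι → Eis) :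
    nm (∏ i ∈ s, f i) = ∏ i ∈ s, nm (f i) := map_prod nmHom f s

lemma mem_prS {κ : ℝ} {p : Eis} : p ∈ prS κ ↔ Mob705.IsPP p ∧ (nm p : ℝ) ≤ Real.exp (κ + 1) := by
  classical
  unfold prS
  rw [Finset.mem_filter, mem_primBall, Nat.le_floor_iff (Real.exp_pos _).le]
  constructor
  · rintro ⟨⟨h1, h2⟩, h3⟩; exact ⟨⟨h2, h3⟩, h1⟩
  · rintro ⟨⟨h1, h2⟩, h3⟩; exact ⟨⟨h3, h1⟩, h2⟩

lemma card_prS_le (κ : ℝ) : ((prS κ).card : ℝ) ≤ 18 * Real.exp (κ + 1) := by
  classical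
  have h1 : (prS κ).card ≤ (primBall ⌊Real.exp (κ + 1)⌋₊).card := by
    unfold prS
    exact Finset.card_filter_le _ _
  have h2 := h1.trans (card_primBall_le' _)
  calc ((prS κ).card : ℝ) ≤ ((18 * ⌊Real.exp (κ + 1)⌋₊ : ℕ) : ℝ) := by exact_mod_cast h2
    _ = 18 * (⌊Real.exp (κ + 1)⌋₊ : ℝ) := by push_cast; ring
    _ ≤ 18 * Real.exp (κ + 1) := by
        gcongr
        exact Nat.floor_le (Real.exp_pos _).le

open Classical in
/-- the weight of a prime piece -/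
lemma sum_prS_le {h : ℝ → ℂ} {B : ℝ} (hB : ∀ u, ‖h u‖ ≤ B) (hB0 : 0 ≤ B) (κ : ℝ) {k : Eis}
    (hk : k ≠ 0) :
    ∑ x ∈ prS κ, ‖h (Real.log (nm x) - κ)‖ * (if x ∣ k then (nm x : ℝ) else 1) ≤
      19 * B * tau k * Real.exp (κ + 1) := by
  have he := Real.exp_pos (κ + 1)
  have ht : (1 : ℝ) ≤ tau k := by exact_mod_cast one_le_tau hk
  calc ∑ x ∈ prS κ, ‖h (Real.log (nm x) - κ)‖ * (if x ∣ k then (nm x : ℝ) else 1)
      ≤ ∑ x ∈ prS κ, B * (1 + if x ∣ k then Real.exp (κ + 1) else 0) := by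
        apply Finset.sum_le_sum
        intro x hx
        have h1 := (mem_prS.mp hx).2
        apply mul_le_mul (hB _) _ (by positivity) hB0
        split_ifs
        · linarith
        · linarith
    _ = B * ((prS κ).card + ((prS κ).filter (fun x => x ∣ k)).card * Real.exp (κ + 1)) := by
        rw [← Finset.mul_sum, Finset.sum_add_distrib, ← Finset.sum_filter, Finset.sum_const,
          Finset.sum_const, nsmul_eq_mul, nsmul_eq_mul, mul_one]
    _ ≤ B * (18 * Real.exp (κ + 1) + tau k * Real.exp (κ + 1)) := by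
        have h2 := card_prS_le κ
        have h3 : ((((prS κ).filter (fun x => x ∣ k)).card : ℕ) : ℝ) ≤ tau k := by
          unfold tau
          have : ((prS κ).filter (fun x => x ∣ k)).card ≤ (dvs k).card := by
            apply Finset.card_le_card
            intro x hx
            rw [Finset.mem_filter, mem_prS] at hx
            exact (mem_dvs hk).mpr ⟨hx.1.1.isPrim, hx.2⟩
          exact_mod_cast this
        gcongr
    _ ≤ B * (18 * tau k * Real.exp (κ + 1) + tau k * Real.exp (κ + 1)) := by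
        gcongr
        nlinarith
    _ = _ := by ring

/-- the product of the lengths of the pieces -/
def P1 (r : ℕ) (y Q₀ : ℝ) (J : Finset (Fin r)) : ℝ := ∏ i : J, Real.exp (kap r y Q₀ i + 1)

lemma P1_pos (r : ℕ) (y Q₀ : ℝ) (J : Finset (Fin r)) : 0 < P1 r y Q₀ J :=
  Finset.prod_pos fun _ _ => Real.exp_pos _

lemma card_le_r {r : ℕ} (J : Finset (Fin r)) : (J.card : ℝ) ≤ r := by
  have := Finset.card_le_univ J
  rw [Fintype.card_fin] at this
  exact_mod_cast this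

lemma P1_le {r : ℕ} {y Q₀ : ℝ} (hQ₀ : 1 ≤ Q₀) (J : Finset (Fin r)) :
    P1 r y Q₀ J ≤ Real.exp (r * (3 * r + 1)) * CJ r y Q₀ J := by
  have hQ0 : 0 < Q₀ := by linarith
  unfold P1 CJ
  rw [← Real.exp_sum]
  have e1 : Q₀ ^ (y / r * (J.card : ℝ)) = Real.exp (y / r * J.card * Real.log Q₀) := by
    rw [Real.rpow_def_of_pos hQ0]; ring_nf
  rw [e1, ← Real.exp_add]
  apply Real.exp_le_exp.mpr
  have h1 : ∀ i : J, kap r y Q₀ i + 1 ≤ y / r * Real.log Q₀ + (3 * r + 1) := by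
    intro i
    unfold kap
    have : ((i : Fin r) : ℝ) ≤ r := by
      have := (i : Fin r).isLt
      exact_mod_cast this.le
    linarith
  calc ∑ i : J, (kap r y Q₀ i + 1) ≤ ∑ _i : J, (y / r * Real.log Q₀ + (3 * r + 1)) :=
        Finset.sum_le_sum fun i _ => h1 i
    _ = J.card * (y / r * Real.log Q₀ + (3 * r + 1)) := by
        rw [Finset.sum_const, Finset.card_univ, Fintype.card_coe, nsmul_eq_mul]
    _ = y / r * J.card * Real.log Q₀ + J.card * (3 * r + 1) := by ring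
    _ ≤ y / r * J.card * Real.log Q₀ + r * (3 * r + 1) := by
        have := card_le_r J
        gcongr
    _ = _ := by ring

lemma CJ_le {r : ℕ} (hr : 0 < r) {y Q₀ : ℝ} (hy : 0 ≤ y) (hQ₀ : 1 ≤ Q₀) (J : Finset (Fin r)) :
    CJ r y Q₀ J ≤ Q₀ ^ y := by
  unfold CJ
  apply Real.rpow_le_rpow_of_exponent_le hQ₀
  have hr' : (0 : ℝ) < r := by exact_mod_cast hr
  have := card_le_r J
  calc y / r * J.card ≤ y / r * r := by gcongr
    _ = y := by field_simp

lemma CJ_pos {r : ℕ} {y Q₀ : ℝ} (hQ₀ : 1 ≤ Q₀) (J : Finset (Fin r)) : 0 < CJ r y Q₀ J :=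
  Real.rpow_pos_of_pos (by linarith) _

open Classical in
/-- facts on the tuples of positive weight -/
lemma tuple_facts {h : ℝ → ℂ} (hh : HW h) {r : ℕ} {y Q₀ : ℝ} {J : Finset (Fin r)}
    {M : Eis} (hM0 : M ≠ 0) (hM : (nm M : ℝ) < Q₀ ^ (y / r) / 9) (hQ₀ : 1 ≤ Q₀) {k : Eis}
    {p : ∀ _ : J, Eis} (hp : p ∈ tup r y Q₀ J)
    (hne : (∏ i : J, h (Real.log (nm (p i)) - kap r y Q₀ i)) ≠ 0) :
    ∃ c₁ c₂ : Eis, (∏ i : J, p i) = c₂ * c₁ ∧ Sm M c₁ ∧ Sm M c₂ ∧ Squarefree (c₂ * c₁) ∧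
      KS k c₂ ∧ IsCoprime c₁ k ∧ (nm c₁ : ℝ) ≤ P1 r y Q₀ J ∧
      (nm c₂ : ℝ) = ∏ i : J, (if p i ∣ k then (nm (p i) : ℝ) else 1) := by
  have hQ0 : 0 < Q₀ := by linarith
  have hmem : ∀ i : J, Mob705.IsPP (p i) ∧ (nm (p i) : ℝ) ≤ Real.exp (kap r y Q₀ i + 1) := by
    intro i
    exact mem_prS.mp (Fintype.mem_piFinset.mp hp i)
  have habs : ∀ i : J, |Real.log (nm (p i)) - kap r y Q₀ i| ≤ 1 := by
    intro i
    apply hh.supp
    intro h0
    exact hne (Finset.prod_eq_zero (Finset.mem_univ i) h0)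
  have hsm : ∀ i : J, Sm M (p i) := by
    intro i
    refine ⟨(hmem i).1.isPrim, ((hmem i).1.isCoprime_iff).mpr fun hd => ?_⟩
    have h1 := nm_le_of_dvd hM0 hd
    have h2 : (nm (p i) : ℝ) ≤ nm M := by exact_mod_cast h1
    have h3 := (abs_le.mp (habs i)).1
    have hpos : (0 : ℝ) < nm (p i) := by exact_mod_cast nm_pos.mpr (hmem i).1.ne_zero
    have h4 : kap r y Q₀ i - 1 ≤ Real.log (nm (p i)) := by linarith
    have h5 : Real.exp (kap r y Q₀ i - 1) ≤ nm (p i) := by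
      rw [← Real.exp_log hpos]
      exact Real.exp_le_exp.mpr h4
    have h6 : Q₀ ^ (y / r) * Real.exp (-1) ≤ Real.exp (kap r y Q₀ i - 1) := by
      rw [Real.rpow_def_of_pos hQ0, ← Real.exp_add]
      apply Real.exp_le_exp.mpr
      unfold kap
      have : (0 : ℝ) ≤ ((i : Fin r) : ℝ) := by positivity
      have e : Real.log Q₀ * (y / r) = y / r * Real.log Q₀ := by ring
      rw [e]
      linarith
    have h7 : (1 : ℝ) / 9 ≤ Real.exp (-1) := by
      rw [Real.exp_neg, one_div]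
      apply inv_anti₀ (Real.exp_pos 1)
      have := Real.exp_one_lt_d9
      linarith
    have h8 : 0 < Q₀ ^ (y / r) := Real.rpow_pos_of_pos hQ0 _
    have h9 : Q₀ ^ (y / r) / 9 ≤ Q₀ ^ (y / r) * Real.exp (-1) := by
      rw [div_eq_mul_one_div]
      gcongr
    linarith
  have hcop : ∀ i j : J, i ≠ j → IsCoprime (p i) (p j) := by
    intro i j hij
    apply (hmem i).1.isCoprime (hmem j).1
    intro he
    have h1 := abs_le.mp (habs i)
    have h2 := abs_le.mp (habs j)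
    rw [he] at h1
    have h3 : (i : Fin r) ≠ (j : Fin r) := fun h => hij (Subtype.ext h)
    have h4 : ((i : Fin r) : ℕ) ≠ ((j : Fin r) : ℕ) := fun h => h3 (Fin.ext h)
    unfold kap at h1 h2
    have hb : (3 : ℝ) * (((i : Fin r) : ℕ) : ℝ) - 3 * (((j : Fin r) : ℕ) : ℝ) ≤ 2 := by
      linarith [h1.1, h2.2]
    have hb' : (-2 : ℝ) ≤ (3 : ℝ) * (((i : Fin r) : ℕ) : ℝ) - 3 * (((j : Fin r) : ℕ) : ℝ) := by
      linarith [h1.2, h2.1]
    rcases Nat.lt_or_gt_of_ne h4 with h5 | h5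
    · have h6 : (((i : Fin r) : ℕ) : ℝ) + 1 ≤ (((j : Fin r) : ℕ) : ℝ) := by exact_mod_cast h5
      linarith
    · have h6 : (((j : Fin r) : ℕ) : ℝ) + 1 ≤ (((i : Fin r) : ℕ) : ℝ) := by exact_mod_cast h5
      linarith
  have hprod : (∏ i : J, p i) = (∏ i : J, if p i ∣ k then p i else 1) *
      ∏ i : J, if p i ∣ k then 1 else p i := by
    rw [← Finset.prod_mul_distrib]
    apply Finset.prod_congr rfl
    intro i _
    split_ifs <;> simp
  refine ⟨∏ i : J, (if p i ∣ k then 1 else p i), ∏ i : J, (if p i ∣ k then p i else 1), hprod,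
    ?_, ?_, ?_, ?_, ?_, ?_, ?_⟩
  · apply Finset.prod_induction _ (Sm M) (fun _ _ => Sm.mul) (Sm.one M)
    intro i _
    split_ifs
    · exact Sm.one M
    · exact hsm i
  · apply Finset.prod_induction _ (Sm M) (fun _ _ => Sm.mul) (Sm.one M)
    intro i _
    split_ifs
    · exact hsm i
    · exact Sm.one M
  · rw [← hprod]
    apply Finset.squarefree_prod_of_pairwise_isCoprime
    · intro i _ j _ hij
      exact (hcop i j hij).isRelPrime
    · intro i _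
      exact (hmem i).1.prime.irreducible.squarefree
  · apply Finset.prod_induction _ (KS k) (fun _ _ => KS.mul) (KS.one k)
    intro i _
    split_ifs with hd
    · intro q hq hqp
      rw [hq.eq_of_dvd (hmem i).1 hqp]; exact hd
    · exact KS.one k
  · apply IsCoprime.prod_left
    intro i _
    split_ifs with hd
    · exact isCoprime_one_left
    · exact ((hmem i).1.isCoprime_iff).mpr hd
  · rw [nm_prod']
    unfold P1
    push_cast
    apply Finset.prod_le_prod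
    · intro i _; positivity
    · intro i _
      split_ifs
      · rw [nm_one, Nat.cast_one]
        apply Real.one_le_exp
        unfold kap
        have h8 : (1 : ℝ) ≤ Q₀ ^ (y / r) := by
          have h9 : (1 : ℝ) ≤ nm M := by exact_mod_cast nm_pos.mpr hM0
          linarith
        have h10 : 0 ≤ y / r * Real.log Q₀ := by
          have := Real.log_nonneg h8
          rwa [Real.log_rpow hQ0] at this
        positivity
      · exact (hmem i).2
  · rw [nm_prod']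
    push_cast
    apply Finset.prod_congr rfl
    intro i _
    split_ifs
    · rfl
    · simp

/-- pointwise bound for `NSum` -/
theorem NSum_bound (T : TkAlg) {θ : ℝ} (hθ : 7 / 8 ≤ θ) (hθ1 : θ ≤ 1) (hPF : PF Set.univ θ)
    {h : ℝ → ℂ} (hh : HW h) {V : ℝ → ℂ} (hV : SW V) {r : ℕ} {y : ℝ} (l₁ l₂ : ℤ)
    {ε : ℝ} (hε : 0 < ε) (hε1 : ε ≤ 1) : ∃ C β B : ℝ, 0 ≤ C ∧ 1 ≤ β ∧ 1 ≤ B ∧
      ∀ (M : Eis) (φ ψ : Eis → ℂ), (2 : Eis) ∣ M → HC M φ → HC M ψ →
      ∀ (Q₀ Q : ℝ), 1 ≤ Q → Q ≤ Q₀ → (nm M : ℝ) < Q₀ ^ (y / r) / 9 →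
      ∀ (J : Finset (Fin r)) (k : Eis), k ≠ 0 → ∀ t₁ t₂ : ℝ,
      ‖NSum h r y Q₀ J M (twt ψ l₂ t₂) (twt φ l₁ t₁) V Q k‖ ≤
        (tau (k ^ 2) : ℝ) * (C * (((nm (M * (9 * k)) : ℝ) * P1 r y Q₀ J) * (1 + |t₂|)) ^ ε *
          (β * Q) ^ (θ + ε)) * ((19 * B * tau k) ^ r * P1 r y Q₀ J) := by
  classical
  obtain ⟨β, hβ1, hβ⟩ := exists_beta hV
  obtain ⟨C, hC0, hC⟩ := TS_bound T hθ hθ1 hPF hV hβ1 hβ l₂ hε hε1
  obtain ⟨B0, hB0⟩ := hh.bounded
  refine ⟨C, β, max B0 1, hC0, hβ1, le_max_right _ _, ?_⟩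
  set B : ℝ := max B0 1 with hB
  have hB1 : 1 ≤ B := le_max_right _ _
  have hBh : ∀ u, ‖h u‖ ≤ B := fun u => (hB0 u).trans (le_max_left _ _)
  intro M φ ψ h2 hφ hψ Q₀ Q hQ hQQ hM J k hk t₁ t₂
  have hQ₀ : 1 ≤ Q₀ := hQ.trans hQQ
  have hM0 : M ≠ 0 := hφ.q0
  have hP := P1_pos r y Q₀ J
  have ht1 : (1 : ℝ) ≤ tau k := by exact_mod_cast one_le_tau hk
  set K : ℝ := (tau (k ^ 2) : ℝ) * (C * (((nm (M * (9 * k)) : ℝ) * P1 r y Q₀ J) *
    (1 + |t₂|)) ^ ε * (β * Q) ^ (θ + ε)) with hK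
  have hK0 : 0 ≤ K := by
    have := abs_nonneg t₂
    positivity
  have hterm : ∀ p ∈ tup r y Q₀ J,
      ‖(∏ i : J, h (Real.log (nm (p i)) - kap r y Q₀ i)) * twt φ l₁ t₁ (∏ i : J, p i) *
        TS M (twt ψ l₂ t₂) V Q k (∏ i : J, p i)‖ ≤
      K * ∏ i : J, (‖h (Real.log (nm (p i)) - kap r y Q₀ i)‖ *
        (if p i ∣ k then (nm (p i) : ℝ) else 1)) := by
    intro p hp
    by_cases hne : (∏ i : J, h (Real.log (nm (p i)) - kap r y Q₀ i)) = 0
    · rw [hne, zero_mul, zero_mul, norm_zero]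
      apply mul_nonneg hK0
      apply Finset.prod_nonneg
      intro i _
      positivity
    · obtain ⟨c₁, c₂, hc, hc₁, hc₂, hsq, hks, hck, hn1, hn2⟩ :=
        tuple_facts hh hM0 hM hQ₀ (k := k) hp hne
      rw [hc]
      have key := hC M ψ hψ h2 t₂ Q hQ k c₁ c₂ hk hc₁ hc₂ hsq hks hck
      have hcp : IsPrim (c₂ * c₁) := hc₂.prim.mul hc₁.prim
      have n1 : ‖twt φ l₁ t₁ (c₂ * c₁)‖ ≤ 1 := (isChar_twt hφ l₁ t₁).norm_le hcp
      rw [norm_mul, norm_mul, Finset.prod_mul_distrib, ← hn2]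
      have hc2n : (1 : ℝ) ≤ nm c₂ := by exact_mod_cast nm_pos.mpr hc₂.ne_zero
      have e8 : (nm c₂ : ℝ) ^ (1 / 8 : ℝ) ≤ nm c₂ := by
        calc (nm c₂ : ℝ) ^ (1 / 8 : ℝ) ≤ (nm c₂ : ℝ) ^ (1 : ℝ) :=
              Real.rpow_le_rpow_of_exponent_le hc2n (by norm_num)
          _ = nm c₂ := Real.rpow_one _
      have e9 : (nm (M * (9 * k) * c₁) : ℝ) ≤ (nm (M * (9 * k)) : ℝ) * P1 r y Q₀ J := by
        rw [nm_mul (M * (9 * k)) c₁]
        push_cast
        gcongr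
      have hat := abs_nonneg t₂
      calc ‖∏ i : J, h (Real.log (nm (p i)) - kap r y Q₀ i)‖ * ‖twt φ l₁ t₁ (c₂ * c₁)‖ *
            ‖TS M (twt ψ l₂ t₂) V Q k (c₂ * c₁)‖
          ≤ ‖∏ i : J, h (Real.log (nm (p i)) - kap r y Q₀ i)‖ * 1 *
            ((tau (k ^ 2) : ℝ) * (C * (((nm (M * (9 * k)) : ℝ) * P1 r y Q₀ J) *
              (1 + |t₂|)) ^ ε * (β * Q) ^ (θ + ε)) * nm c₂) := by
            refine mul_le_mul (mul_le_mul_of_nonneg_left n1 (norm_nonneg _)) (key.trans ?_)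
              (norm_nonneg _) (by positivity)
            gcongr
        _ = K * (‖∏ i : J, h (Real.log (nm (p i)) - kap r y Q₀ i)‖ * nm c₂) := by
            rw [hK]; ring
        _ = _ := by rw [norm_prod]
  have e0 : NSum h r y Q₀ J M (twt ψ l₂ t₂) (twt φ l₁ t₁) V Q k =
      ∑ p ∈ tup r y Q₀ J, (∏ i : J, h (Real.log (nm (p i)) - kap r y Q₀ i)) *
        twt φ l₁ t₁ (∏ i : J, p i) * TS M (twt ψ l₂ t₂) V Q k (∏ i : J, p i) := rfl
  rw [e0]
  refine (norm_sum_le _ _).trans ((Finset.sum_le_sum hterm).trans ?_)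
  rw [← Finset.mul_sum]
  have e1 : ∑ p ∈ tup r y Q₀ J, ∏ i : J, (‖h (Real.log (nm (p i)) - kap r y Q₀ i)‖ *
        (if p i ∣ k then (nm (p i) : ℝ) else 1)) =
      ∏ i : J, ∑ x ∈ prS (kap r y Q₀ i), (‖h (Real.log (nm x) - kap r y Q₀ i)‖ *
        (if x ∣ k then (nm x : ℝ) else 1)) := by
    unfold tup
    exact (Finset.prod_univ_sum (fun i : J => prS (kap r y Q₀ i))
      (fun (i : J) (x : Eis) => ‖h (Real.log (nm x) - kap r y Q₀ i)‖ *
        (if x ∣ k then (nm x : ℝ) else 1))).symm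
  rw [e1]
  have e2 : ∏ i : J, ∑ x ∈ prS (kap r y Q₀ i), (‖h (Real.log (nm x) - kap r y Q₀ i)‖ *
        (if x ∣ k then (nm x : ℝ) else 1)) ≤
      ∏ i : J, (19 * B * tau k * Real.exp (kap r y Q₀ i + 1)) := by
    apply Finset.prod_le_prod
    · intro i _
      apply Finset.sum_nonneg
      intro x _
      positivity
    · intro i _
      exact sum_prS_le hBh (by linarith) _ hk
  have e3 : ∏ i : J, (19 * B * tau k * Real.exp (kap r y Q₀ i + 1)) ≤
      (19 * B * tau k) ^ r * P1 r y Q₀ J := by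
    rw [Finset.prod_mul_distrib, Finset.prod_const, Finset.card_univ, Fintype.card_coe]
    apply mul_le_mul_of_nonneg_right _ hP.le
    apply pow_le_pow_right₀
    · nlinarith
    · have := Finset.card_le_univ J
      rwa [Fintype.card_fin] at this
  exact mul_le_mul_of_nonneg_left (e2.trans e3) hK0

/-- **leaf L4**: the contribution of the principal `k` -/
theorem natP (T : TkAlg) {θ : ℝ} (hθ : 7 / 8 ≤ θ) (hθ1 : θ ≤ 1) (hPF : PF Set.univ θ)
    {r : ℕ} (hr : 0 < r) {y : ℝ} (hy : 0 ≤ y) : NatP θ r y := by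
  classical
  intro h hh V hV l₁ l₂ ε hε
  have hr' : (0 : ℝ) < r := by exact_mod_cast hr
  set δ : ℝ := min 1 (ε / (4 + r + y)) with hδ
  have hd0 : 0 < δ := lt_min one_pos (by positivity)
  have hd1 : δ ≤ 1 := min_le_left _ _
  have hd2 : (4 + r + y) * δ ≤ ε := by
    have h1 : δ ≤ ε / (4 + r + y) := min_le_right _ _
    have h2 : (0 : ℝ) < 4 + r + y := by positivity
    calc (4 + r + y) * δ ≤ (4 + r + y) * (ε / (4 + r + y)) := by gcongr
      _ = ε := by field_simp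
  obtain ⟨C, β, B, hC0, hβ1, hB1, hC⟩ := NSum_bound T hθ hθ1 hPF hh hV (r := r) (y := y) l₁ l₂
    hd0 hd1
  obtain ⟨C1, hC11, hC1⟩ := tau_le_rpow hd0
  set E : ℝ := Real.exp (r * (3 * r + 1)) with hE
  have hE1 : 1 ≤ E := Real.one_le_exp (by positivity)
  refine ⟨18 * (C1 * (C * (81 * E) * β ^ 2) * ((19 * B * C1) ^ r * E)), 1, by positivity, ?_⟩
  intro M φ ψ h2 hφ hψ Q₀ Q hQ hQQ hM J H hH t₁ t₂
  have hQ₀ : 1 ≤ Q₀ := hQ.trans hQQ
  have hQ0 : 0 < Q₀ := by linarith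
  have hM1 : (1 : ℝ) ≤ nm M := by exact_mod_cast nm_pos.mpr hφ.q0
  have hH1 : (1 : ℝ) ≤ H := by exact_mod_cast hH
  set Z : ℝ := (nm M : ℝ) * Q₀ * H with hZ
  have hZ1 : 1 ≤ Z := by
    have h1 : (1 : ℝ) ≤ (nm M : ℝ) * Q₀ := by nlinarith
    nlinarith
  have hZ0 : 0 < Z := by linarith
  have hHZ : (H : ℝ) ≤ Z := by
    have h1 : (1 : ℝ) ≤ (nm M : ℝ) * Q₀ := by nlinarith
    rw [hZ]; nlinarith
  have hQZ : Q₀ ≤ Z := by
    have h1 : (1 : ℝ) ≤ (nm M : ℝ) * H := by nlinarith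
    calc Q₀ ≤ Q₀ * ((nm M : ℝ) * H) := le_mul_of_one_le_right hQ0.le h1
      _ = Z := by rw [hZ]; ring
  have hMHZ : (nm M : ℝ) * H ≤ Z := by
    rw [hZ]
    nlinarith [mul_nonneg (by linarith : (0 : ℝ) ≤ nm M) (by linarith : (0 : ℝ) ≤ (H : ℝ))]
  have hCJ := CJ_pos (y := y) hQ₀ J
  have hP := P1_pos r y Q₀ J
  have hPE : P1 r y Q₀ J ≤ E * CJ r y Q₀ J := P1_le hQ₀ J
  have hCJy := CJ_le hr hy hQ₀ J
  set U : ℝ := 1 + |t₁| + |t₂| with hU
  have hU1 : 1 ≤ U := by have := abs_nonneg t₁; have := abs_nonneg t₂; rw [hU]; linarith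
  -- pointwise bound
  have hpt : ∀ k ∈ (ball H).filter (fun k => k ≠ 0 ∧ ¬ NPk M φ l₁ k),
      ‖NSum h r y Q₀ J M (twt ψ l₂ t₂) (twt φ l₁ t₁) V Q k‖ ≤
        (C1 * (C * (81 * E) * β ^ 2) * ((19 * B * C1) ^ r * E)) * (Z ^ ε * U *
          (CJ r y Q₀ J * Q ^ θ)) := by
    intro k hk
    rw [Finset.mem_filter, mem_ball] at hk
    obtain ⟨hkH, hk0, -⟩ := hk
    have hkH' : (nm k : ℝ) ≤ H := by exact_mod_cast hkH
    have hk1 : (1 : ℝ) ≤ nm k := by exact_mod_cast nm_pos.mpr hk0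
    refine (hC M φ ψ h2 hφ hψ Q₀ Q hQ hQQ hM J k hk0 t₁ t₂).trans ?_
    have b1 : (tau (k ^ 2) : ℝ) ≤ C1 * Z ^ (2 * δ) := by
      refine (hC1 _ (pow_ne_zero 2 hk0)).trans ?_
      have h3 : (nm (k ^ 2) : ℝ) ≤ Z ^ (2 : ℝ) := by
        rw [nm_pow]; push_cast
        rw [Real.rpow_two]
        exact pow_le_pow_left₀ (by positivity) (hkH'.trans hHZ) 2
      have h4 : (nm (k ^ 2) : ℝ) ^ δ ≤ Z ^ (2 * δ) := by
        rw [Real.rpow_mul hZ0.le]
        exact Real.rpow_le_rpow (by positivity) h3 hd0.le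
      gcongr
    have b2 : (19 * B * tau k : ℝ) ^ r ≤ (19 * B * C1) ^ r * Z ^ (r * δ) := by
      have h3 : (tau k : ℝ) ≤ C1 * Z ^ δ := by
        refine (hC1 _ hk0).trans ?_
        have : (nm k : ℝ) ^ δ ≤ Z ^ δ := Real.rpow_le_rpow (by positivity) (hkH'.trans hHZ) hd0.le
        gcongr
      calc (19 * B * tau k : ℝ) ^ r ≤ (19 * B * (C1 * Z ^ δ)) ^ r := by gcongr
        _ = (19 * B * C1) ^ r * (Z ^ δ) ^ r := by rw [← mul_pow]; ring
        _ = (19 * B * C1) ^ r * Z ^ (r * δ) := by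
            rw [← Real.rpow_natCast (Z ^ δ) r, ← Real.rpow_mul hZ0.le, mul_comm δ]
    have b3 : (((nm (M * (9 * k)) : ℝ) * P1 r y Q₀ J) * (1 + |t₂|)) ^ δ ≤
        (81 * E) * Z ^ ((1 + y) * δ) * U := by
      have h9 : nm (9 : Eis) = 81 := by
        have : (9 : Eis) = ((9 : ℕ) : Eis) := by norm_num
        rw [this, nm_natCast]; norm_num
      have h3 : (nm (M * (9 * k)) : ℝ) = 81 * (nm M * nm k) := by
        rw [nm_mul, nm_mul, h9]; push_cast; ring
      have h4 : (nm (M * (9 * k)) : ℝ) * P1 r y Q₀ J ≤ (81 * E) * Z ^ (1 + y) := by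
        rw [h3]
        calc 81 * ((nm M : ℝ) * nm k) * P1 r y Q₀ J
            ≤ 81 * ((nm M : ℝ) * H) * (E * Q₀ ^ y) := by
              have : P1 r y Q₀ J ≤ E * Q₀ ^ y := hPE.trans (by gcongr)
              gcongr
          _ = (81 * E) * (((nm M : ℝ) * H) * Q₀ ^ y) := by ring
          _ ≤ (81 * E) * (Z * Z ^ y) := by
              have : Q₀ ^ y ≤ Z ^ y := Real.rpow_le_rpow hQ0.le hQZ hy
              gcongr
          _ = (81 * E) * Z ^ (1 + y) := by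
              rw [Real.rpow_add hZ0, Real.rpow_one]
      have h5 : 1 + |t₂| ≤ U := by have := abs_nonneg t₁; rw [hU]; linarith
      have hat := abs_nonneg t₂
      have h81 : (1 : ℝ) ≤ 81 * E := by linarith
      calc (((nm (M * (9 * k)) : ℝ) * P1 r y Q₀ J) * (1 + |t₂|)) ^ δ
          ≤ (((81 * E) * Z ^ (1 + y)) * U) ^ δ := by
            apply Real.rpow_le_rpow (by positivity) _ hd0.le
            gcongr
        _ = (81 * E) ^ δ * Z ^ ((1 + y) * δ) * U ^ δ := by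
            rw [Real.mul_rpow (by positivity) (by positivity),
              Real.mul_rpow (by positivity) (by positivity), Real.rpow_mul hZ0.le]
        _ ≤ (81 * E) * Z ^ ((1 + y) * δ) * U := by
            have h6 : (81 * E) ^ δ ≤ 81 * E := by
              calc (81 * E) ^ δ ≤ (81 * E) ^ (1 : ℝ) :=
                    Real.rpow_le_rpow_of_exponent_le h81 hd1
                _ = _ := Real.rpow_one _
            have h7 : U ^ δ ≤ U := by
              calc U ^ δ ≤ U ^ (1 : ℝ) := Real.rpow_le_rpow_of_exponent_le hU1 hd1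
                _ = _ := Real.rpow_one _
            gcongr
    have b4 : (β * Q) ^ (θ + δ) ≤ β ^ 2 * Q ^ θ * Z ^ δ := by
      have hQp : 0 < Q := by linarith
      have hβp : 0 < β := by linarith
      rw [Real.mul_rpow hβp.le hQp.le, Real.rpow_add hQp]
      have h6 : β ^ (θ + δ) ≤ β ^ 2 := by
        rw [← Real.rpow_two]
        exact Real.rpow_le_rpow_of_exponent_le hβ1 (by linarith)
      have h7 : Q ^ δ ≤ Z ^ δ := Real.rpow_le_rpow hQp.le (hQQ.trans hQZ) hd0.le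
      calc β ^ (θ + δ) * (Q ^ θ * Q ^ δ) ≤ β ^ 2 * (Q ^ θ * Z ^ δ) := by gcongr
        _ = _ := by ring
    have hU0 : 0 < U := by linarith
    have hQθ : 0 ≤ Q ^ θ := by positivity
    calc (tau (k ^ 2) : ℝ) * (C * (((nm (M * (9 * k)) : ℝ) * P1 r y Q₀ J) * (1 + |t₂|)) ^ δ *
          (β * Q) ^ (θ + δ)) * ((19 * B * tau k) ^ r * P1 r y Q₀ J)
        ≤ (C1 * Z ^ (2 * δ)) * (C * ((81 * E) * Z ^ ((1 + y) * δ) * U) *
          (β ^ 2 * Q ^ θ * Z ^ δ)) * (((19 * B * C1) ^ r * Z ^ (r * δ)) *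
            (E * CJ r y Q₀ J)) := by
          have hat := abs_nonneg t₂
          gcongr
      _ = (C1 * (C * (81 * E) * β ^ 2) * ((19 * B * C1) ^ r * E)) *
          ((Z ^ (2 * δ) * Z ^ ((1 + y) * δ) * Z ^ δ * Z ^ (r * δ)) * U *
            (CJ r y Q₀ J * Q ^ θ)) := by ring
      _ ≤ (C1 * (C * (81 * E) * β ^ 2) * ((19 * B * C1) ^ r * E)) *
          (Z ^ ε * U * (CJ r y Q₀ J * Q ^ θ)) := by
          have h8 : Z ^ (2 * δ) * Z ^ ((1 + y) * δ) * Z ^ δ * Z ^ (r * δ) ≤ Z ^ ε := by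
            rw [← Real.rpow_add hZ0, ← Real.rpow_add hZ0, ← Real.rpow_add hZ0]
            apply Real.rpow_le_rpow_of_exponent_le hZ1
            linarith
          gcongr
  have hcard := card_principal hφ l₁ hH
    ((ball H).filter (fun k => k ≠ 0 ∧ ¬ NPk M φ l₁ k)) (fun k hk => by
      rw [Finset.mem_filter] at hk; exact hk)
  refine (Finset.sum_le_sum hpt).trans ?_
  rw [Finset.sum_const, nsmul_eq_mul, Real.rpow_one]
  have hU0 : 0 < U := by linarith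
  have hQθ : 0 ≤ Q ^ θ := by positivity
  calc _ ≤ (18 * (H : ℝ) ^ (1 / 3 : ℝ)) *
        ((C1 * (C * (81 * E) * β ^ 2) * ((19 * B * C1) ^ r * E)) * (Z ^ ε * U *
          (CJ r y Q₀ J * Q ^ θ))) := by gcongr
    _ = _ := by ring

end Crest.Agent.R017.NatP401
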