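import Crest.Agent.R017.BL5defs2_868
import Crest.Agent.R017.NatPD_401

/-!
# Row 17, leaf L5, part TupF: the tuples of the amplifier (helper411)
-/

set_option autoImplicit false

noncomputable section

open MeasureTheory Complex Set
open scoped ComplexConjugate ContDiff

namespace Crest.Agent.R017.TupF411

open Crest.Agent.R012 Crest.Agent.R012.Eis Crest.Agent.R012.Mob705 Crest.Agent.R012.Div277
open Crest.Agent.R017.End699 Crest.Agent.R017.Sx545 Crest.Agent.R017.B770
open Crest.Agent.R017.BEndA699 Crest.Agent.R017.L5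

lemma exp_kap {r : ℕ} {y Q₀ : ℝ} (hQ : 1 ≤ Q₀) (i : Fin r) (c : ℝ) :
    Real.exp (kap r y Q₀ i + c) = Q₀ ^ (y / r) * Real.exp (3 * i + c) := by
  have h0 : 0 < Q₀ := by linarith
  unfold kap
  rw [add_assoc, Real.exp_add, Real.rpow_def_of_pos h0, mul_comm (Real.log Q₀)]

lemma exp_i_le {r : ℕ} (i : Fin r) (c : ℝ) :
    Real.exp (3 * (i : ℕ) + c) ≤ Real.exp (3 * r + c) := by
  apply Real.exp_le_exp.mpr
  have : ((i : ℕ) : ℝ) ≤ r := by exact_mod_cast i.2.le
  linarith

lemma amp_eq (h : ℝ → ℂ) (r : ℕ) (y Q₀ : ℝ) :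
    Amp h r y Q₀ Finset.univ (fun _ => 1) =
    ∑ p ∈ tup r y Q₀ Finset.univ,
      ∏ i : (Finset.univ : Finset (Fin r)), h (Real.log (nm (p i)) - kap r y Q₀ i) := by
  unfold Amp AP tup
  simp only [one_mul]
  rw [← Finset.prod_coe_sort, Finset.prod_univ_sum]

theorem tupF : TupF := by
  intro h hh r y hr hy
  refine ⟨fun Q₀ => amp_eq h r y Q₀, ?_⟩
  obtain ⟨B, hB⟩ := hh.bounded
  have hB0 : 0 ≤ B := (norm_nonneg _).trans (hB 0)
  have hr0 : (0 : ℝ) < r := by exact_mod_cast hr
  refine ⟨(18 * B * Real.exp (3 * r + 1)) ^ r + Real.exp (3 * r + 1), by positivity, ?_⟩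
  intro Q₀ hQ
  have h0 : 0 < Q₀ := by linarith
  have hQy : 0 < Q₀ ^ (y / r) := Real.rpow_pos_of_pos h0 _
  refine ⟨?_, ?_⟩
  · have h1 : ∀ i : Fin r, ∑ x ∈ prS (kap r y Q₀ i), ‖h (Real.log (nm x) - kap r y Q₀ i)‖ ≤
        (18 * B * Real.exp (3 * r + 1)) * Q₀ ^ (y / r) := by
      intro i
      calc ∑ x ∈ prS (kap r y Q₀ i), ‖h (Real.log (nm x) - kap r y Q₀ i)‖
          ≤ ∑ _x ∈ prS (kap r y Q₀ i), B := Finset.sum_le_sum fun x _ => hB _
        _ = (prS (kap r y Q₀ i)).card * B := by rw [Finset.sum_const, nsmul_eq_mul]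
        _ ≤ (18 * Real.exp (kap r y Q₀ i + 1)) * B := by
            gcongr
            exact NatP401.card_prS_le _
        _ ≤ (18 * (Q₀ ^ (y / r) * Real.exp (3 * r + 1))) * B := by
            rw [exp_kap hQ]
            gcongr
            exact i.2.le
        _ = _ := by ring
    have h2 : ∑ p ∈ tup r y Q₀ Finset.univ,
        ‖∏ i : (Finset.univ : Finset (Fin r)), h (Real.log (nm (p i)) - kap r y Q₀ i)‖ =
        ∏ i : (Finset.univ : Finset (Fin r)),
          ∑ x ∈ prS (kap r y Q₀ i), ‖h (Real.log (nm x) - kap r y Q₀ i)‖ := by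
      unfold tup
      simp only [norm_prod]
      rw [Finset.prod_univ_sum]
    rw [h2]
    calc ∏ i : (Finset.univ : Finset (Fin r)),
          ∑ x ∈ prS (kap r y Q₀ i), ‖h (Real.log (nm x) - kap r y Q₀ i)‖
        ≤ ∏ _i : (Finset.univ : Finset (Fin r)),
            (18 * B * Real.exp (3 * r + 1)) * Q₀ ^ (y / r) := by
          apply Finset.prod_le_prod
          · intro i _
            positivity
          · intro i _
            exact h1 i
      _ = (18 * B * Real.exp (3 * r + 1)) ^ r * Q₀ ^ y := by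
          rw [Finset.prod_const, Finset.card_univ, Fintype.card_coe, Finset.card_univ,
            Fintype.card_fin, mul_pow]
          congr 1
          rw [← Real.rpow_natCast, ← Real.rpow_mul h0.le, div_mul_cancel₀ _ hr0.ne']
      _ ≤ ((18 * B * Real.exp (3 * r + 1)) ^ r + Real.exp (3 * r + 1)) * Q₀ ^ y := by
          have : 0 ≤ Q₀ ^ y := (Real.rpow_pos_of_pos h0 _).le
          have := Real.exp_pos (3 * r + 1)
          nlinarith
  · intro p hp hne
    rw [Finset.prod_ne_zero_iff] at hne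
    have hmem : ∀ i : (Finset.univ : Finset (Fin r)), p i ∈ prS (kap r y Q₀ (i : Fin r)) := by
      unfold tup at hp
      exact Fintype.mem_piFinset.mp hp
    have habs : ∀ i : (Finset.univ : Finset (Fin r)),
        |Real.log (nm (p i)) - kap r y Q₀ (i : Fin r)| ≤ 1 :=
      fun i => hh.supp _ (hne i (Finset.mem_univ _))
    have hC1 : Real.exp 1 ≤ (18 * B * Real.exp (3 * r + 1)) ^ r + Real.exp (3 * r + 1) := by
      have h1 : Real.exp 1 ≤ Real.exp (3 * r + 1) := Real.exp_le_exp.mpr (by linarith)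
      have : 0 ≤ (18 * B * Real.exp (3 * r + 1)) ^ r := by positivity
      linarith
    refine ⟨fun i => ?_, ?_⟩
    · have hm := NatP401.mem_prS.mp (hmem i)
      have hpos : (0 : ℝ) < nm (p i) := by exact_mod_cast nm_pos.mpr hm.1.isPrim.ne_zero
      have ha := abs_le.mp (habs i)
      refine ⟨hm.1.isPrim, hm.1.prime, ?_, ?_⟩
      · have h1 : Real.exp (kap r y Q₀ i - 1) ≤ nm (p i) := by
          rw [← Real.le_log_iff_exp_le hpos]
          linarith [ha.1]
        have h2 : Q₀ ^ (y / r) ≤ Real.exp 1 * Real.exp (kap r y Q₀ i - 1) := by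
          rw [sub_eq_add_neg, exp_kap hQ, mul_comm (Real.exp 1), mul_assoc, ← Real.exp_add]
          have : (1 : ℝ) ≤ Real.exp (3 * (i : Fin r) + -1 + 1) := by
            apply Real.one_le_exp
            have : (0 : ℝ) ≤ ((i : Fin r) : ℕ) := Nat.cast_nonneg _
            linarith
          nlinarith
        calc Q₀ ^ (y / r) ≤ Real.exp 1 * Real.exp (kap r y Q₀ i - 1) := h2
          _ ≤ _ := by gcongr
      · calc (nm (p i) : ℝ) ≤ Real.exp (kap r y Q₀ i + 1) := hm.2
          _ = Q₀ ^ (y / r) * Real.exp (3 * (i : Fin r) + 1) := exp_kap hQ _ _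
          _ ≤ Q₀ ^ (y / r) * Real.exp (3 * r + 1) := by
              gcongr
              exact (i : Fin r).2.le
          _ ≤ Q₀ ^ (y / r) * ((18 * B * Real.exp (3 * r + 1)) ^ r + Real.exp (3 * r + 1)) := by
              gcongr
              have : 0 ≤ (18 * B * Real.exp (3 * r + 1)) ^ r := by positivity
              linarith
          _ = _ := mul_comm _ _
    · intro i j hij
      have h1 := abs_le.mp (habs i)
      have h2 := abs_le.mp (habs j)
      rw [hij] at h1
      unfold kap at h1 h2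
      have h3 : (((i : Fin r) : ℕ) : ℝ) < ((j : Fin r) : ℕ) + 1 := by linarith [h1.1, h1.2, h2.1, h2.2]
      have h4 : (((j : Fin r) : ℕ) : ℝ) < ((i : Fin r) : ℕ) + 1 := by linarith [h1.1, h1.2, h2.1, h2.2]
      have h5 : ((i : Fin r) : ℕ) < ((j : Fin r) : ℕ) + 1 := by exact_mod_cast h3
      have h6 : ((j : Fin r) : ℕ) < ((i : Fin r) : ℕ) + 1 := by exact_mod_cast h4
      apply Subtype.ext
      apply Fin.ext
      omega

end Crest.Agent.R017.TupF411
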