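import Crest.Agent.R017.BL5defs3_868
import Crest.Agent.R017.BL5m_868
import Crest.Agent.R017.MeanC_401
import Crest.Agent.R012.GLS_687
import Crest.Agent.R017.TupF_411
import Crest.Agent.R017.TkAlg_545
import Crest.Agent.R017.S3_571

/-!
# Row 17, leaf L5: the sum over `l` of the full natural sum (helper401)

`oneE : B1' → OneE`
-/

set_option autoImplicit false

noncomputable section

open MeasureTheory Complex Set
open scoped ComplexConjugate ContDiff SchwartzMap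

namespace Crest.Agent.R017.L5One401

open Crest.Agent.R012 Crest.Agent.R012.Eis Crest.Agent.R012.Mob705 Crest.Agent.R012.Div277
open Crest.Agent.R017.End699 Crest.Agent.R017.Sx545 Crest.Agent.R017.B770
open Crest.Agent.R017.BEndA699 Crest.Agent.R017.Asm986 Crest.Agent.R017.L5
open Crest.Agent.R017.BL7 (I3)
open Crest.Agent.R017.NatZ3571 (mem_sqS nm_le_of_mem_sqS card_sqS_le sum_sqS_le)

/-- the weight of a tuple -/
def hp (h : ℝ → ℂ) (r : ℕ) (y Q : ℝ) (p : ∀ _ : (Finset.univ : Finset (Fin r)), Eis) : ℂ :=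
  ∏ i : (Finset.univ : Finset (Fin r)), h (Real.log (nm (p i)) - kap r y Q i)

/-- the product of a tuple -/
def pp' {r : ℕ} (p : ∀ _ : (Finset.univ : Finset (Fin r)), Eis) : Eis :=
  ∏ i : (Finset.univ : Finset (Fin r)), p i

lemma sum_eq_Nc {M : Eis} {ψ : Eis → ℂ} (hψ : HC M ψ) (l' : ℤ) (c l : Eis) (V : ℝ → ℂ) (X : ℝ) :
    (open Classical in ∑' b : Eis, if Sm M b then tw ψ l' b * tk (l ^ 3) b c * V (nm b / X) else 0) =
      Nc c l (tw ψ l') V X := by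
  classical
  unfold Nc
  refine tsum_congr fun b => ?_
  by_cases hb : IsPrim b
  · by_cases hc : IsCoprime b M
    · rw [if_pos ⟨hb, hc⟩, if_pos hb]
    · rw [if_neg (fun h => hc h.2), if_pos hb, BL7.tw_eq_zero hψ l' hb hc, zero_mul, zero_mul]
  · rw [if_neg (fun h => hb h.1), if_neg hb]

lemma nsum_eq {M : Eis} {ψ : Eis → ℂ} (hψ : HC M ψ) (l' : ℤ) (h₀ h : ℝ → ℂ) (r : ℕ) (y Q κ : ℝ)
    (V : ℝ → ℂ) (X : ℝ) (l : Eis) :
    NSumS h₀ h r y Q κ Finset.univ M (tw ψ l') (fun _ => 1) V X (l ^ 3) =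
      ∑ c₀ ∈ sqS M κ, h₀ (Real.log (nm c₀) - κ) * ∑ p ∈ tup r y Q Finset.univ,
        hp h r y Q p * Nc (c₀ * pp' p) l (tw ψ l') V X := by
  classical
  unfold NSumS
  refine Finset.sum_congr rfl fun c₀ _ => ?_
  congr 1
  refine Finset.sum_congr rfl fun p _ => ?_
  rw [mul_one]
  have h1 := sum_eq_Nc hψ l' (c₀ * pp' p) l V X
  rw [← h1]
  rfl

/-- the sets attached to the tuples -/
lemma tuple_facts {C₀ : ℝ} (hC₀ : 1 ≤ C₀) {r : ℕ} (hr : 0 < r) {y δ Q : ℝ} (hδ : 0 < δ)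
    (hδy : 10 * δ ≤ y / r) (hQ : 1 ≤ Q) (hQ1 : 4 * C₀ + 4 ≤ Q ^ (9 * δ))
    {p : ∀ _ : (Finset.univ : Finset (Fin r)), Eis}
    (h1 : ∀ i, IsPrim (p i) ∧ Prime (p i) ∧ Q ^ (y / r) ≤ C₀ * nm (p i) ∧
        (nm (p i) : ℝ) ≤ C₀ * Q ^ (y / r)) (h2 : Function.Injective p)
    {M c₀ : Eis} (hc₀ : c₀ ∈ sqS M (δ * Real.log Q)) :
    ∃ S : Finset Eis, PS c₀ S ∧ ∏ q ∈ S, q = pp' p ∧ S.card ≤ r ∧
      (∀ q ∈ S, Q ^ (y / r) / C₀ ≤ nm q) ∧ 1 ≤ Q ^ (y / r) / C₀ ∧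
      (nm (M * ∏ q ∈ S, q) : ℝ) ≤ nm M * C₀ ^ r * Q ^ y := by
  classical
  have hQ0 : 0 < Q := by linarith
  have hr0 : (0 : ℝ) < r := by exact_mod_cast hr
  have hqd : 1 ≤ Q ^ δ := Real.one_le_rpow hQ hδ.le
  have hbig : (4 * C₀ + 4) * Q ^ δ ≤ Q ^ (y / r) := by
    calc (4 * C₀ + 4) * Q ^ δ ≤ Q ^ (9 * δ) * Q ^ δ := by gcongr
      _ = Q ^ (10 * δ) := by rw [← Real.rpow_add hQ0]; congr 1; ring
      _ ≤ Q ^ (y / r) := Real.rpow_le_rpow_of_exponent_le hQ hδy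
  have hnp : ∀ i, 4 * Q ^ δ < nm (p i) := by
    intro i
    obtain ⟨_, _, h3, _⟩ := h1 i
    have h4 : (4 * C₀ + 4) * Q ^ δ ≤ C₀ * nm (p i) := hbig.trans h3
    have h5 : C₀ * (4 * Q ^ δ) < C₀ * nm (p i) := by nlinarith
    exact lt_of_mul_lt_mul_left h5 (by linarith)
  have hc₀n : (nm c₀ : ℝ) ≤ 3 * Q ^ δ := by
    have h3 := nm_le_of_mem_sqS hc₀
    have h4 : Real.exp (δ * Real.log Q + 1) = Q ^ δ * Real.exp 1 := by
      rw [Real.exp_add, Real.rpow_def_of_pos hQ0]; congr 1; ring_nf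
    rw [h4] at h3
    have he : Real.exp 1 < 3 := by linarith [Real.exp_one_lt_d9]
    nlinarith
  have hc₀0 : c₀ ≠ 0 := (mem_sqS.mp hc₀).1.1.2.ne_zero
  refine ⟨Finset.univ.image p, ?_, ?_, ?_, ?_, ?_, ?_⟩
  · intro q hq
    obtain ⟨i, _, rfl⟩ := Finset.mem_image.mp hq
    refine ⟨⟨(h1 i).1, ?_⟩, (h1 i).2.1, ?_⟩
    · rw [(h1 i).2.1.irreducible.coprime_iff_not_dvd]
      intro hd
      have h3 : nm (p i) ≤ nm (2 : Eis) := nm_le_of_dvd (by decide) hd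
      have h4 : nm (2 : Eis) = 4 := by decide
      have h5 := hnp i
      have h6 : (nm (p i) : ℝ) ≤ 4 := by rw [h4] at h3; exact_mod_cast h3
      linarith
    · intro hd
      have h3 : (nm (p i) : ℝ) ≤ nm c₀ := by exact_mod_cast nm_le_of_dvd hc₀0 hd
      have h5 := hnp i
      linarith
  · rw [Finset.prod_image (fun a _ b _ hab => h2 hab)]
    rfl
  · refine Finset.card_image_le.trans ?_
    rw [Finset.card_univ, Fintype.card_coe, Finset.card_univ, Fintype.card_fin]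
  · intro q hq
    obtain ⟨i, _, rfl⟩ := Finset.mem_image.mp hq
    rw [div_le_iff₀ (by linarith), mul_comm]
    exact (h1 i).2.2.1
  · rw [le_div_iff₀ (by linarith), one_mul]
    nlinarith
  · rw [Finset.prod_image (fun a _ b _ hab => h2 hab), nm_mul, Nat.cast_mul]
    have h3 : (nm (∏ i, p i) : ℝ) ≤ C₀ ^ r * Q ^ y := by
      have h4 : nm (∏ i, p i) = ∏ i, nm (p i) := GLS687.nm_prod _ _
      calc (nm (∏ i, p i) : ℝ) = ∏ i, (nm (p i) : ℝ) := by rw [h4]; push_cast; rfl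
        _ ≤ ∏ _i : (Finset.univ : Finset (Fin r)), (C₀ * Q ^ (y / r)) :=
            Finset.prod_le_prod (fun i _ => Nat.cast_nonneg _) (fun i _ => (h1 i).2.2.2)
        _ = _ := by
          rw [Finset.prod_const, Finset.card_univ, Fintype.card_coe, Finset.card_univ,
            Fintype.card_fin, mul_pow, ← Real.rpow_natCast (Q ^ (y / r)),
            ← Real.rpow_mul hQ0.le, div_mul_cancel₀ _ hr0.ne']
    calc (nm M : ℝ) * nm (∏ i, p i) ≤ nm M * (C₀ ^ r * Q ^ y) := by gcongr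
      _ = _ := by ring

open Classical in
/-- the sum over `l` at `c` -/
def Tc (F : 𝓢(ℂ, ℂ)) (m₀ : Eis) (f : Eis → ℂ) (V : ℝ → ℂ) (X : ℝ) (z : ℂ) (c : Eis) : ℂ :=
  ∑' l : Eis, if IsCoprime l m₀ then F (z ^ 3 * toC l ^ 3) * Nc c l f V X else 0

lemma exp_kap {δ Q a : ℝ} (hQ : 0 < Q) :
    Real.exp ((1 + a) * (δ * Real.log Q + 1)) = Real.exp (1 + a) * Q ^ ((1 + a) * δ) := by
  rw [Real.rpow_def_of_pos hQ, ← Real.exp_add]; congr 1; ring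

open Classical in
lemma err_A {θ ε : ℝ} {r : ℕ} {y δ : ℝ} (hθ : 7 / 8 < θ) (hθ1 : θ ≤ 1) (hPF : PF Set.univ θ)
    (hε : 0 < ε) (hε1 : ε ≤ 1 / 100) (hr : 0 < r) (hy : 0 < y) (hδ : 0 < δ)
    (hδy : 10 * δ ≤ y / r) {M m₀ : Eis} (h36 : (36 : Eis) ∣ M) (hR : Rad0 M m₀) {ψ : Eis → ℂ}
    (l' : ℤ) (hψ : HC M ψ) {h₀ h : ℝ → ℂ} (hh₀ : HW h₀) (hh : HW h) {V : ℝ → ℂ} (hV : SW V)
    (F : 𝓢(ℂ, ℂ)) :
    ∃ C Q₁ : ℝ, 0 ≤ C ∧ 1 ≤ Q₁ ∧ ∀ Q : ℝ, Q₁ ≤ Q → ∀ X : ℝ, 0 < X → ∀ z : ℂ, z ≠ 0 →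
      (∀ c₀ ∈ sqS M (δ * Real.log Q), ∀ p ∈ tup r y Q Finset.univ, hp h r y Q p ≠ 0 →
        Summable (fun l : Eis => if IsCoprime l m₀ then
          F (z ^ 3 * toC l ^ 3) * Nc (c₀ * pp' p) l (tw ψ l') V X else 0)) ∧
      ‖(∑ c₀ ∈ sqS M (δ * Real.log Q), h₀ (Real.log (nm c₀) - δ * Real.log Q) *
          ∑ p ∈ tup r y Q Finset.univ, hp h r y Q p * Tc F m₀ (tw ψ l') V X z (c₀ * pp' p)) -
        Amp h r y Q Finset.univ (fun _ => 1) * ∑ c₀ ∈ sqS M (δ * Real.log Q),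
          h₀ (Real.log (nm c₀) - δ * Real.log Q) * Tc F m₀ (tw ψ l') V X z c₀‖ ≤
        C * Q ^ (y + δ) * X ^ (θ + ε) * (((‖z‖ ^ 2)⁻¹) ^ (1 + 2 * ε) *
          Q ^ (3 * δ - θ * (y / r) + ε * y)) := by
  obtain ⟨CA, hA0, hA⟩ := A1 Tk545.tkAlg (by linarith : 5 / 6 ≤ θ) hθ1 hPF hε (by linarith) l' hV F
  obtain ⟨hamp, CT, hT0, hT⟩ := TupF411.tupF h hh r y hr hy
  obtain ⟨B₀, hB₀⟩ := hh₀.bounded
  have hB0 : 0 ≤ B₀ := (norm_nonneg _).trans (hB₀ 0)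
  set C₀ : ℝ := CT + 1 with hC₀
  have hC₀1 : 1 ≤ C₀ := by linarith
  have hC₀0 : 0 < C₀ := by linarith
  have h2M : (2 : Eis) ∣ M := (show (2 : Eis) ∣ 36 from ⟨18, by norm_num⟩).trans h36
  refine ⟨CA * 2 ^ r * ((nm M * C₀ ^ r) ^ ε * C₀ ^ θ) * CT * (100 * B₀ * Real.exp (1 + 3)),
    max 1 ((4 * C₀ + 4) ^ (1 / (9 * δ))), by positivity, le_max_left _ _, ?_⟩
  intro Q hQ X hX z hz
  have hQ1 : 1 ≤ Q := (le_max_left _ _).trans hQ
  have hQ0 : 0 < Q := by linarith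
  have hQ9 : 4 * C₀ + 4 ≤ Q ^ (9 * δ) := by
    have h1 := Real.rpow_le_rpow (by positivity) ((le_max_right _ _).trans hQ)
      (by positivity : 0 ≤ 9 * δ)
    rwa [← Real.rpow_mul (by positivity), one_div, inv_mul_cancel₀ (by positivity),
      Real.rpow_one] at h1
  obtain ⟨hTs, hTp⟩ := hT Q hQ1
  set κ := δ * Real.log Q with hκ
  set f := tw ψ l' with hf
  set L : ℝ := (‖z‖ ^ 2)⁻¹ with hL
  have hz0 : 0 < ‖z‖ := norm_pos_iff.mpr hz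
  have hL0 : 0 < L := by positivity
  set W : ℝ := nm M * C₀ ^ r * Q ^ y with hW
  set P : ℝ := Q ^ (y / r) / C₀ with hP
  have key : ∀ c₀ ∈ sqS M κ, ∀ p ∈ tup r y Q Finset.univ, hp h r y Q p ≠ 0 →
      Summable (fun l : Eis => if IsCoprime l m₀ then
        F (z ^ 3 * toC l ^ 3) * Nc (c₀ * pp' p) l f V X else 0) ∧
      ‖Tc F m₀ f V X z (c₀ * pp' p) - Tc F m₀ f V X z c₀‖ ≤
        CA * 2 ^ r * nm c₀ ^ 3 * W ^ ε * X ^ (θ + ε) * L ^ (1 + 2 * ε) * P ^ (-θ) := by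
    intro c₀ hc₀ p hp1 hne
    obtain ⟨h1, h2⟩ := hTp p hp1 hne
    obtain ⟨S, hS, hSp, hSc, hSP, hP1, hSW⟩ := tuple_facts hC₀1 hr hδ hδy hQ1 hQ9
      (fun i => ⟨(h1 i).1, (h1 i).2.1, (h1 i).2.2.1.trans (by
        have : (0 : ℝ) ≤ nm (p i) := Nat.cast_nonneg _
        nlinarith), (h1 i).2.2.2.trans (by
        have : (0 : ℝ) ≤ Q ^ (y / r) := by positivity
        nlinarith)⟩) h2 hc₀
    have hm := mem_sqS.mp hc₀
    have hc2 : Sm 2 c₀ := ⟨hm.1.1.2, hm.2.of_isCoprime_of_dvd_right h2M⟩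
    obtain ⟨_, s2, s3⟩ := hA M m₀ h36 hR ψ hψ c₀ hc2 hm.1.2 X hX z hz S hS W hSW P hP1 hSP
    rw [hSp] at s2 s3
    refine ⟨s2, s3.trans ?_⟩
    have hP0 : 0 < P := by linarith
    gcongr
    · norm_num
  refine ⟨fun c₀ hc₀ p hp1 hne => (key c₀ hc₀ p hp1 hne).1, ?_⟩
  have e1 : Amp h r y Q Finset.univ (fun _ => 1) = ∑ p ∈ tup r y Q Finset.univ, hp h r y Q p :=
    hamp Q
  have e2 : (∑ c₀ ∈ sqS M κ, h₀ (Real.log (nm c₀) - κ) *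
          ∑ p ∈ tup r y Q Finset.univ, hp h r y Q p * Tc F m₀ f V X z (c₀ * pp' p)) -
        Amp h r y Q Finset.univ (fun _ => 1) * ∑ c₀ ∈ sqS M κ,
          h₀ (Real.log (nm c₀) - κ) * Tc F m₀ f V X z c₀ =
      ∑ c₀ ∈ sqS M κ, h₀ (Real.log (nm c₀) - κ) * ∑ p ∈ tup r y Q Finset.univ,
        hp h r y Q p * (Tc F m₀ f V X z (c₀ * pp' p) - Tc F m₀ f V X z c₀) := by
    rw [e1, Finset.mul_sum, ← Finset.sum_sub_distrib]
    refine Finset.sum_congr rfl fun c₀ _ => ?_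
    simp only [mul_sub, Finset.sum_sub_distrib, ← Finset.sum_mul]
    ring
  rw [e2]
  set G : ℝ := CA * 2 ^ r * W ^ ε * X ^ (θ + ε) * L ^ (1 + 2 * ε) * P ^ (-θ) with hG
  have hW0 : 0 ≤ W := by positivity
  have hP0 : 0 < P := by positivity
  have hG0 : 0 ≤ G := by positivity
  have h3 : ∀ c₀ ∈ sqS M κ, ‖h₀ (Real.log (nm c₀) - κ) * ∑ p ∈ tup r y Q Finset.univ,
        hp h r y Q p * (Tc F m₀ f V X z (c₀ * pp' p) - Tc F m₀ f V X z c₀)‖ ≤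
      ‖h₀ (Real.log (nm c₀) - κ)‖ * (nm c₀ : ℝ) ^ (3 : ℝ) * (G * (CT * Q ^ y)) := by
    intro c₀ hc₀
    rw [norm_mul, mul_assoc]
    refine mul_le_mul_of_nonneg_left ?_ (norm_nonneg _)
    calc ‖∑ p ∈ tup r y Q Finset.univ,
          hp h r y Q p * (Tc F m₀ f V X z (c₀ * pp' p) - Tc F m₀ f V X z c₀)‖
        ≤ ∑ p ∈ tup r y Q Finset.univ, ‖hp h r y Q p‖ * ((nm c₀ : ℝ) ^ (3 : ℝ) * G) := by
          refine (norm_sum_le _ _).trans (Finset.sum_le_sum fun p hp1 => ?_)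
          rw [norm_mul]
          by_cases hne : hp h r y Q p = 0
          · rw [hne, norm_zero, zero_mul, zero_mul]
          · refine mul_le_mul_of_nonneg_left (((key c₀ hc₀ p hp1 hne).2).trans (le_of_eq ?_))
              (norm_nonneg _)
            rw [show ((3 : ℝ)) = ((3 : ℕ) : ℝ) by norm_num, Real.rpow_natCast, hG]
            ring
      _ = (∑ p ∈ tup r y Q Finset.univ, ‖hp h r y Q p‖) * ((nm c₀ : ℝ) ^ (3 : ℝ) * G) := by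
          rw [Finset.sum_mul]
      _ ≤ (CT * Q ^ y) * ((nm c₀ : ℝ) ^ (3 : ℝ) * G) :=
          mul_le_mul_of_nonneg_right hTs (by positivity)
      _ = _ := by ring
  refine (norm_sum_le _ _).trans ((Finset.sum_le_sum h3).trans ?_)
  rw [← Finset.sum_mul]
  have h4 := sum_sqS_le hB0 hB₀ (by norm_num : (0 : ℝ) ≤ 3) M κ
  rw [hκ, exp_kap hQ0, ← hκ] at h4
  refine (mul_le_mul_of_nonneg_right h4 (by positivity)).trans (le_of_eq ?_)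
  have e3 : W ^ ε = (nm M * C₀ ^ r) ^ ε * Q ^ (y * ε) := by
    rw [hW, Real.mul_rpow (by positivity) (by positivity), ← Real.rpow_mul hQ0.le]
  have e4 : P ^ (-θ) = Q ^ (-(θ * (y / r))) * C₀ ^ θ := by
    rw [hP, Real.div_rpow (by positivity) hC₀0.le, ← Real.rpow_mul hQ0.le,
      Real.rpow_neg hC₀0.le, div_inv_eq_mul]
    congr 2; ring
  have e5 : Q ^ (y + δ) * Q ^ (3 * δ - θ * (y / r) + ε * y) =
      Q ^ (y * ε) * Q ^ (-(θ * (y / r))) * Q ^ y * Q ^ ((1 + 3) * δ) := by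
    rw [← Real.rpow_add hQ0, ← Real.rpow_add hQ0, ← Real.rpow_add hQ0, ← Real.rpow_add hQ0]
    congr 1; ring
  rw [hG, e3, e4]
  calc _ = CA * 2 ^ r * ((nm M * C₀ ^ r) ^ ε * C₀ ^ θ) * CT * (100 * B₀ * Real.exp (1 + 3)) *
        (Q ^ (y * ε) * Q ^ (-(θ * (y / r))) * Q ^ y * Q ^ ((1 + 3) * δ)) *
          (X ^ (θ + ε) * L ^ (1 + 2 * ε)) := by ring
    _ = _ := by rw [← e5]; ring

open Classical in
/-- the sum over `D` of the main term, prime to `c` -/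
def Dm (M m₀ : Eis) (f : Eis → ℂ) (V : ℝ → ℂ) (X : ℝ) (c : Eis) : ℂ :=
  ∑' D : Eis, if Sm M D ∧ IsCoprime D c then f D * EE m₀ D * MV V (X / nm D) f else 0

open Classical in
/-- the full sum over `D` of the main term -/
def Dl (M m₀ : Eis) (f : Eis → ℂ) (V : ℝ → ℂ) (X : ℝ) : ℂ :=
  ∑' D : Eis, if Sm M D then (f D * EE m₀ D * ((FYm571.LP D : ℝ) : ℂ)) * MV V (X / nm D) f else 0

lemma err_B {θ ε δ : ℝ} (hθ : 7 / 8 < θ) (hθ1 : θ ≤ 1) (hPF : PF Set.univ θ)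
    (hε : 0 < ε) (hε1 : ε ≤ 1 / 100) (hδ : 0 < δ)
    {M m₀ : Eis} (h36 : (36 : Eis) ∣ M) (hR : Rad0 M m₀) {ψ : Eis → ℂ}
    (l' : ℤ) (hψ : HC M ψ) {h₀ : ℝ → ℂ} (hh₀ : HW h₀) {V : ℝ → ℂ} (hV : SW V)
    (F : 𝓢(ℂ, ℂ)) :
    ∃ C : ℝ, 0 ≤ C ∧ ∀ Q : ℝ, 1 ≤ Q → ∀ X : ℝ, 0 < X → ∀ z : ℂ, z ≠ 0 →
      ‖(∑ c₀ ∈ sqS M (δ * Real.log Q),
          h₀ (Real.log (nm c₀) - δ * Real.log Q) * Tc F m₀ (tw ψ l') V X z c₀) -
        ((2 / Real.sqrt 3 * (‖z‖ ^ 2)⁻¹ : ℝ) : ℂ) * I3 F * ∑ c₀ ∈ sqS M (δ * Real.log Q),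
          h₀ (Real.log (nm c₀) - δ * Real.log Q) * (L5.PE c₀ * Dm M m₀ (tw ψ l') V X c₀)‖ ≤
        C * Q ^ δ * X ^ (θ + ε) * (((‖z‖ ^ 2)⁻¹) ^ (1 + 2 * ε - (θ - 5 / 6) / 2) *
          Q ^ (5 / 4 * δ)) := by
  classical
  obtain ⟨CB, hB0', hB⟩ := b1' Tk545.tkAlg MeanC401.meanC S3571.s3 θ ε (by linarith) hθ1 hPF hε
    (by linarith) l' V hV F M m₀ h36 hR
  obtain ⟨B₀, hB₀⟩ := hh₀.bounded
  have hB0 : 0 ≤ B₀ := (norm_nonneg _).trans (hB₀ 0)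
  refine ⟨CB * (100 * B₀ * Real.exp (1 + 5 / 4)), by positivity, ?_⟩
  intro Q hQ X hX z hz
  have hQ0 : 0 < Q := by linarith
  set κ := δ * Real.log Q with hκ
  set f := tw ψ l' with hf
  set L : ℝ := (‖z‖ ^ 2)⁻¹ with hL
  have hz0 : 0 < ‖z‖ := norm_pos_iff.mpr hz
  have hL0 : 0 < L := by positivity
  set G : ℝ := CB * X ^ (θ + ε) * L ^ (1 + 2 * ε - (θ - 5 / 6) / 2) with hG
  have hG0 : 0 ≤ G := by positivity
  rw [Finset.mul_sum, ← Finset.sum_sub_distrib]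
  have h3 : ∀ c₀ ∈ sqS M κ, ‖h₀ (Real.log (nm c₀) - κ) * Tc F m₀ f V X z c₀ -
        ((2 / Real.sqrt 3 * L : ℝ) : ℂ) * I3 F *
          (h₀ (Real.log (nm c₀) - κ) * (L5.PE c₀ * Dm M m₀ f V X c₀))‖ ≤
      ‖h₀ (Real.log (nm c₀) - κ)‖ * (nm c₀ : ℝ) ^ (5 / 4 : ℝ) * G := by
    intro c₀ hc₀
    have hm := mem_sqS.mp hc₀
    have h4 := (hB ψ hψ c₀ ⟨hm.1.1.2, hm.2⟩ hm.1.2 X hX z hz).2
    have e1 : h₀ (Real.log (nm c₀) - κ) * Tc F m₀ f V X z c₀ -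
        ((2 / Real.sqrt 3 * L : ℝ) : ℂ) * I3 F *
          (h₀ (Real.log (nm c₀) - κ) * (L5.PE c₀ * Dm M m₀ f V X c₀)) =
        h₀ (Real.log (nm c₀) - κ) * (Tc F m₀ f V X z c₀ -
          ((2 / Real.sqrt 3 * L : ℝ) : ℂ) * I3 F * (L5.PE c₀ * Dm M m₀ f V X c₀)) := by ring
    rw [e1, norm_mul, mul_assoc (‖h₀ (Real.log (nm c₀) - κ)‖)]
    refine mul_le_mul_of_nonneg_left ?_ (norm_nonneg _)
    refine le_trans (le_of_eq ?_) (h4.trans (le_of_eq ?_))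
    · rfl
    · rw [hG]; ring
  refine (norm_sum_le _ _).trans ((Finset.sum_le_sum h3).trans ?_)
  rw [← Finset.sum_mul]
  have h4 := sum_sqS_le hB0 hB₀ (by norm_num : (0 : ℝ) ≤ 5 / 4) M κ
  rw [hκ, exp_kap hQ0, ← hκ] at h4
  refine (mul_le_mul_of_nonneg_right h4 hG0).trans (le_of_eq ?_)
  have e5 : Q ^ ((1 + 5 / 4) * δ) = Q ^ δ * Q ^ (5 / 4 * δ) := by
    rw [← Real.rpow_add hQ0]; congr 1; ring
  rw [e5, hG]; ring

lemma norm_tw_le1 {q : Eis} {χ : Eis → ℂ} (h : HC q χ) (l : ℤ) {b : Eis} (hb : IsPrim b) :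
    ‖tw χ l b‖ ≤ 1 := by
  rcases (h.isChar_tw l).norm b hb with h1 | h1
  · rw [h1, norm_zero]; norm_num
  · rw [h1]

lemma err_F {θ ε δ : ℝ} (hθ : 7 / 8 < θ) (hθ1 : θ ≤ 1) (hPF : PF Set.univ θ)
    (hε : 0 < ε) (hε1 : ε ≤ 1 / 100) (hδ : 0 < δ)
    {M m₀ : Eis} (h36 : (36 : Eis) ∣ M) (hR : Rad0 M m₀) {ψ : Eis → ℂ}
    (l' : ℤ) (hψ : HC M ψ) {h₀ : ℝ → ℂ} (hh₀ : HW h₀) {V : ℝ → ℂ} (hV : SW V) :
    ∃ C : ℝ, 0 ≤ C ∧ ∀ Q : ℝ, 1 ≤ Q → ∀ X : ℝ, 0 < X →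
      ‖(∑ c₀ ∈ sqS M (δ * Real.log Q),
          h₀ (Real.log (nm c₀) - δ * Real.log Q) * (L5.PE c₀ * Dm M m₀ (tw ψ l') V X c₀)) -
        (FYn571.kw h₀ * ((FYm571.LP M : ℝ) : ℂ) * ((Q ^ δ : ℝ) : ℂ)) *
          Dl M m₀ (tw ψ l') V X‖ ≤
        C * X ^ (θ + ε) * Q ^ (δ * (1 / 2 + ε)) := by
  classical
  obtain ⟨CF, hF0, hF⟩ := FYn571.F2avg hh₀ hε
  obtain ⟨CM, hM0, hMb⟩ := MV_bound (by linarith : 1 / 2 < θ) hθ1 hPF hε (by linarith) l' hV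
  obtain ⟨β, hβ1, hβ⟩ := sw_bound hV
  have hM : M ≠ 0 := hψ.q0
  have hs := (S3571.s3 Tk545.tkAlg).1 M m₀ h36 hR
  refine ⟨CM * CF * (nm M : ℝ) ^ ε * (nm M : ℝ) ^ ε * SE M m₀, by
    have := SE_nonneg M m₀
    positivity, ?_⟩
  intro Q hQ X hX
  have hQ0 : 0 < Q := by linarith
  set κ := δ * Real.log Q with hκ
  have hκ0 : 0 ≤ κ := mul_nonneg hδ.le (Real.log_nonneg hQ)
  have eκ : Real.exp κ = Q ^ δ := by
    rw [Real.rpow_def_of_pos hQ0, hκ, mul_comm]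
  set f := tw ψ l' with hf
  set N := ⌊β * X⌋₊ with hN
  set a : Eis → ℂ := fun D => f D * EE m₀ D * MV V (X / nm D) f with ha
  have hout : ∀ D : Eis, D ∉ primBall N → Sm M D → MV V (X / nm D) f = 0 := by
    intro D hD hS
    refine MV_zero hβ hX f hS.ne_zero ?_
    by_contra hcon
    exact hD (mem_primBall.mpr ⟨not_lt.mp hcon, hS.prim⟩)
  have e1 : ∀ c : Eis, Dm M m₀ f V X c =
      ∑ D ∈ primBall N, if Sm M D ∧ IsCoprime D c then a D else 0 := by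
    intro c
    unfold Dm
    rw [tsum_eq_sum (s := primBall N)]
    intro D hD
    split_ifs with h1
    · rw [hout D hD h1.1, mul_zero]
    · rfl
  have e2 : Dl M m₀ f V X =
      ∑ D ∈ primBall N, if Sm M D then a D * ((FYm571.LP D : ℝ) : ℂ) else 0 := by
    unfold Dl
    rw [tsum_eq_sum (s := primBall N)]
    · refine Finset.sum_congr rfl fun D _ => ?_
      split_ifs
      · simp only [ha]; ring
      · rfl
    · intro D hD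
      split_ifs with h1
      · rw [hout D hD h1, mul_zero]
      · rfl
  set w : Eis → ℂ := fun D => (∑ c₀ ∈ sqS M κ, if IsCoprime D c₀ then
      h₀ (Real.log (nm c₀) - κ) * L5.PE c₀ else 0) -
      FYn571.kw h₀ * ((FYm571.LP M : ℝ) : ℂ) * ((FYm571.LP D : ℝ) : ℂ) *
        ((Real.exp κ : ℝ) : ℂ) with hw
  have e3 : (∑ c₀ ∈ sqS M κ, h₀ (Real.log (nm c₀) - κ) * (L5.PE c₀ * Dm M m₀ f V X c₀)) -
        (FYn571.kw h₀ * ((FYm571.LP M : ℝ) : ℂ) * ((Q ^ δ : ℝ) : ℂ)) * Dl M m₀ f V X =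
      ∑ D ∈ primBall N, if Sm M D then a D * w D else 0 := by
    have e4 : ∑ c₀ ∈ sqS M κ, h₀ (Real.log (nm c₀) - κ) * (L5.PE c₀ * Dm M m₀ f V X c₀) =
        ∑ D ∈ primBall N, if Sm M D then a D * (∑ c₀ ∈ sqS M κ, if IsCoprime D c₀ then
          h₀ (Real.log (nm c₀) - κ) * L5.PE c₀ else 0) else 0 := by
      simp only [e1, Finset.mul_sum]
      rw [Finset.sum_comm]
      refine Finset.sum_congr rfl fun D _ => ?_
      by_cases hD : Sm M D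
      · rw [if_pos hD]
        refine Finset.sum_congr rfl fun c₀ _ => ?_
        by_cases hc : IsCoprime D c₀
        · rw [if_pos ⟨hD, hc⟩, if_pos hc]; ring
        · rw [if_neg (fun h => hc h.2), if_neg hc]; ring
      · rw [if_neg hD]
        refine Finset.sum_eq_zero fun c₀ _ => ?_
        rw [if_neg (fun h => hD h.1)]; ring
    rw [e4, e2, Finset.mul_sum, ← Finset.sum_sub_distrib]
    refine Finset.sum_congr rfl fun D _ => ?_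
    by_cases hD : Sm M D
    · rw [if_pos hD, if_pos hD, if_pos hD]
      simp only [hw]
      rw [eκ]
      ring
    · rw [if_neg hD, if_neg hD, if_neg hD]; ring
  rw [e3]
  set G : ℝ := CM * (nm M : ℝ) ^ ε * X ^ (θ + ε) * (CF * (nm M : ℝ) ^ ε *
    Real.exp ((1 / 2 + ε) * κ)) with hG
  have hG0 : 0 ≤ G := by positivity
  have h3 : ∀ D ∈ primBall N, ‖(if Sm M D then a D * w D else 0)‖ ≤
      G * ((if Sm M D then ‖EE m₀ D‖ else 0) * (nm D : ℝ) ^ (-(5 / 6) : ℝ)) := by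
    intro D hD
    by_cases hS : Sm M D
    · rw [if_pos hS, if_pos hS, norm_mul]
      have hD0 : (0 : ℝ) < nm D := by exact_mod_cast nm_pos.mpr hS.ne_zero
      have hD1 : (1 : ℝ) ≤ nm D := by exact_mod_cast nm_pos.mpr hS.ne_zero
      have h4 : ‖a D‖ ≤ ‖EE m₀ D‖ * (CM * (nm M : ℝ) ^ ε * (X / nm D) ^ (θ + ε)) := by
        simp only [ha]
        rw [norm_mul, norm_mul]
        have h5 := norm_tw_le1 hψ l' hS.prim
        have h6 := hMb M ψ hψ (X / nm D) (by positivity)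
        calc ‖f D‖ * ‖EE m₀ D‖ * ‖MV V (X / nm D) f‖
            ≤ 1 * ‖EE m₀ D‖ * (CM * (nm M : ℝ) ^ ε * (X / nm D) ^ (θ + ε)) := by gcongr
          _ = _ := by ring
      have h5 := hF M D hM hS κ hκ0
      have h6 : (nm D : ℝ) ^ (-(θ + ε)) * (nm D : ℝ) ^ ε ≤ (nm D : ℝ) ^ (-(5 / 6) : ℝ) := by
        rw [← Real.rpow_add hD0]
        exact Real.rpow_le_rpow_of_exponent_le hD1 (by linarith)
      have h7 : (X / nm D : ℝ) ^ (θ + ε) = X ^ (θ + ε) * (nm D : ℝ) ^ (-(θ + ε)) := by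
        rw [Real.div_rpow hX.le hD0.le, Real.rpow_neg hD0.le, div_eq_mul_inv]
      calc ‖a D‖ * ‖w D‖ ≤ (‖EE m₀ D‖ * (CM * (nm M : ℝ) ^ ε * (X / nm D) ^ (θ + ε))) *
            (CF * (nm M : ℝ) ^ ε * (nm D : ℝ) ^ ε * Real.exp ((1 / 2 + ε) * κ)) :=
            mul_le_mul h4 h5 (norm_nonneg _) (by positivity)
        _ = G * (‖EE m₀ D‖ * ((nm D : ℝ) ^ (-(θ + ε)) * (nm D : ℝ) ^ ε)) := by
            rw [h7, hG]; ring
        _ ≤ G * (‖EE m₀ D‖ * (nm D : ℝ) ^ (-(5 / 6) : ℝ)) := by gcongr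
    · rw [if_neg hS, if_neg hS, norm_zero, zero_mul, mul_zero]
  refine (norm_sum_le _ _).trans ((Finset.sum_le_sum h3).trans ?_)
  rw [← Finset.mul_sum]
  have h4 : ∑ D ∈ primBall N, (if Sm M D then ‖EE m₀ D‖ else 0) * (nm D : ℝ) ^ (-(5 / 6) : ℝ) ≤
      SE M m₀ := hs.sum_le_tsum _ (fun _ _ => by split_ifs <;> positivity)
  refine (mul_le_mul_of_nonneg_left h4 hG0).trans (le_of_eq ?_)
  have e5 : Real.exp ((1 / 2 + ε) * κ) = Q ^ (δ * (1 / 2 + ε)) := by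
    rw [Real.rpow_def_of_pos hQ0, hκ]; congr 1; ring
  rw [hG, e5]; ring

open Classical in
/-- **OneE** -/
theorem oneE : OneE := by
  intro θ ε r y δ hθ hθ1 hPF hε hε1 hr hy hδ hδ1 hδy M m₀ h36 hR ψ l' hψ h₀ h hh₀ hh V hV F
  obtain ⟨CA, Q₁, hA0, hQ₁, hA⟩ := err_A hθ hθ1 hPF hε hε1 hr hy hδ hδy h36 hR l' hψ hh₀ hh hV F
  obtain ⟨CB, hB0, hB⟩ := err_B hθ hθ1 hPF hε hε1 hδ h36 hR l' hψ hh₀ hV F
  obtain ⟨CF, hF0, hF⟩ := err_F hθ hθ1 hPF hε hε1 hδ h36 hR l' hψ hh₀ hV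
  obtain ⟨hamp, CT, hT0, hT⟩ := TupF411.tupF h hh r y hr hy
  refine ⟨CA + CT * CB + CT * (2 / Real.sqrt 3 * ‖I3 F‖ * CF), Q₁, by positivity, hQ₁, ?_⟩
  intro Q hQ X hX z hz
  have hQ1 : 1 ≤ Q := hQ₁.trans hQ
  have hQ0 : 0 < Q := by linarith
  obtain ⟨hAs, hAe⟩ := hA Q hQ X hX z hz
  have hBe := hB Q hQ1 X hX z hz
  have hFe := hF Q hQ1 X hX
  obtain ⟨hTs, -⟩ := hT Q hQ1
  set κ := δ * Real.log Q with hκ
  set f := tw ψ l' with hf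
  set L : ℝ := (‖z‖ ^ 2)⁻¹ with hL
  have hz0 : 0 < ‖z‖ := norm_pos_iff.mpr hz
  have hL0 : 0 < L := by positivity
  -- the summand
  have e1 : (fun l : Eis => if IsCoprime l m₀ then F (z ^ 3 * toC l ^ 3) *
        NSumS h₀ h r y Q κ Finset.univ M f (fun _ => 1) V X (l ^ 3) else 0) =
      fun l : Eis => ∑ c₀ ∈ sqS M κ, ∑ p ∈ tup r y Q Finset.univ,
        h₀ (Real.log (nm c₀) - κ) * hp h r y Q p *
          (if IsCoprime l m₀ then F (z ^ 3 * toC l ^ 3) * Nc (c₀ * pp' p) l f V X else 0) := by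
    funext l
    by_cases hl : IsCoprime l m₀
    · rw [if_pos hl, nsum_eq hψ l', Finset.mul_sum]
      refine Finset.sum_congr rfl fun c₀ _ => ?_
      rw [Finset.mul_sum, Finset.mul_sum]
      refine Finset.sum_congr rfl fun p _ => ?_
      rw [if_pos hl]
      ring
    · rw [if_neg hl]
      symm
      refine Finset.sum_eq_zero fun c₀ _ => Finset.sum_eq_zero fun p _ => ?_
      rw [if_neg hl, mul_zero]
  have hsum : ∀ c₀ ∈ sqS M κ, ∀ p ∈ tup r y Q Finset.univ, Summable (fun l : Eis =>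
      h₀ (Real.log (nm c₀) - κ) * hp h r y Q p *
        (if IsCoprime l m₀ then F (z ^ 3 * toC l ^ 3) * Nc (c₀ * pp' p) l f V X else 0)) := by
    intro c₀ hc₀ p hp1
    by_cases hne : hp h r y Q p = 0
    · simp only [hne, mul_zero, zero_mul]
      exact summable_zero
    · exact (hAs c₀ hc₀ p hp1 hne).mul_left _
  have hsum2 : Summable (fun l : Eis => if IsCoprime l m₀ then F (z ^ 3 * toC l ^ 3) *
        NSumS h₀ h r y Q κ Finset.univ M f (fun _ => 1) V X (l ^ 3) else 0) := by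
    rw [e1]
    exact summable_sum fun c₀ hc₀ => summable_sum fun p hp1 => hsum c₀ hc₀ p hp1
  refine ⟨hsum2, ?_⟩
  have e2 : (∑' l : Eis, if IsCoprime l m₀ then F (z ^ 3 * toC l ^ 3) *
        NSumS h₀ h r y Q κ Finset.univ M f (fun _ => 1) V X (l ^ 3) else 0) =
      ∑ c₀ ∈ sqS M κ, h₀ (Real.log (nm c₀) - κ) *
        ∑ p ∈ tup r y Q Finset.univ, hp h r y Q p * Tc F m₀ f V X z (c₀ * pp' p) := by
    rw [e1, Summable.tsum_finsetSum fun c₀ hc₀ => summable_sum fun p hp1 => hsum c₀ hc₀ p hp1]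
    refine Finset.sum_congr rfl fun c₀ hc₀ => ?_
    rw [Summable.tsum_finsetSum fun p hp1 => hsum c₀ hc₀ p hp1, Finset.mul_sum]
    refine Finset.sum_congr rfl fun p hp1 => ?_
    rw [tsum_mul_left]
    unfold Tc
    ring
  rw [e2]
  set T : ℂ := ∑ c₀ ∈ sqS M κ, h₀ (Real.log (nm c₀) - κ) *
        ∑ p ∈ tup r y Q Finset.univ, hp h r y Q p * Tc F m₀ f V X z (c₀ * pp' p) with hTdef
  set A : ℂ := Amp h r y Q Finset.univ (fun _ => 1) with hAdef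
  set T1 : ℂ := ∑ c₀ ∈ sqS M κ, h₀ (Real.log (nm c₀) - κ) * Tc F m₀ f V X z c₀ with hT1
  set T2 : ℂ := ∑ c₀ ∈ sqS M κ, h₀ (Real.log (nm c₀) - κ) *
    (L5.PE c₀ * Dm M m₀ f V X c₀) with hT2
  set K : ℂ := ((2 / Real.sqrt 3 * L : ℝ) : ℂ) * I3 F with hK
  set T3 : ℂ := (FYn571.kw h₀ * ((FYm571.LP M : ℝ) : ℂ) * ((Q ^ δ : ℝ) : ℂ)) *
    Dl M m₀ f V X with hT3
  have hAn : ‖A‖ ≤ CT * Q ^ y := by
    rw [hAdef, hamp Q]
    exact (norm_sum_le _ _).trans hTs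
  have hKn : ‖K‖ = 2 / Real.sqrt 3 * ‖I3 F‖ * L := by
    rw [hK, norm_mul, Complex.norm_real, Real.norm_eq_abs, abs_of_nonneg (by positivity)]
    ring
  have e3 : T - K * (FYn571.kw h₀ * ((FYm571.LP M : ℝ) : ℂ) * ((Q ^ δ : ℝ) : ℂ)) * A *
      (∑' D : Eis, (if Sm M D then (f D * EE m₀ D * ((FYm571.LP D : ℝ) : ℂ)) *
            MV V (X / nm D) f else 0)) =
      (T - A * T1) + A * (T1 - K * T2) + A * K * (T2 - T3) := by
    have : (∑' D : Eis, (if Sm M D then (f D * EE m₀ D * ((FYm571.LP D : ℝ) : ℂ)) *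
            MV V (X / nm D) f else 0)) = Dl M m₀ f V X := rfl
    rw [this, hT3]
    ring
  have h1 : ‖A * (T1 - K * T2)‖ ≤ CT * Q ^ y * (CB * Q ^ δ * X ^ (θ + ε) *
      (L ^ (1 + 2 * ε - (θ - 5 / 6) / 2) * Q ^ (5 / 4 * δ))) := by
    rw [norm_mul]
    exact mul_le_mul hAn hBe (norm_nonneg _) (by positivity)
  have h2 : ‖A * K * (T2 - T3)‖ ≤ CT * Q ^ y * (2 / Real.sqrt 3 * ‖I3 F‖ * L) *
      (CF * X ^ (θ + ε) * Q ^ (δ * (1 / 2 + ε))) := by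
    rw [norm_mul, norm_mul, hKn]
    refine mul_le_mul (mul_le_mul_of_nonneg_right hAn (by positivity)) hFe (norm_nonneg _)
      (by positivity)
  have e4 : Q ^ (y + δ) = Q ^ y * Q ^ δ := Real.rpow_add hQ0 _ _
  have e5 : Q ^ (δ * (1 / 2 + ε)) = Q ^ δ * Q ^ (δ * (ε - 1 / 2)) := by
    rw [← Real.rpow_add hQ0]; congr 1; ring
  have h3 : ‖(T - A * T1) + A * (T1 - K * T2) + A * K * (T2 - T3)‖ ≤
      CA * Q ^ (y + δ) * X ^ (θ + ε) * (L ^ (1 + 2 * ε) *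
          Q ^ (3 * δ - θ * (y / r) + ε * y)) +
      CT * Q ^ y * (CB * Q ^ δ * X ^ (θ + ε) *
        (L ^ (1 + 2 * ε - (θ - 5 / 6) / 2) * Q ^ (5 / 4 * δ))) +
      CT * Q ^ y * (2 / Real.sqrt 3 * ‖I3 F‖ * L) *
        (CF * X ^ (θ + ε) * Q ^ (δ * (1 / 2 + ε))) :=
    (norm_add_le _ _).trans (add_le_add ((norm_add_le _ _).trans (add_le_add hAe h1)) h2)
  refine le_trans (le_of_eq (congrArg norm e3)) (h3.trans ?_)
  set a1 : ℝ := L ^ (1 + 2 * ε) * Q ^ (3 * δ - θ * (y / r) + ε * y) with ha1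
  set a2 : ℝ := L ^ (1 + 2 * ε - (θ - 5 / 6) / 2) * Q ^ (5 / 4 * δ) with ha2
  set a3 : ℝ := L * Q ^ (δ * (ε - 1 / 2)) with ha3
  have ha10 : 0 ≤ a1 := by positivity
  have ha20 : 0 ≤ a2 := by positivity
  have ha30 : 0 ≤ a3 := by positivity
  set c1 := CT * CB with hc1
  set c2 := CT * (2 / Real.sqrt 3 * ‖I3 F‖ * CF) with hc2
  have hc10 : 0 ≤ c1 := by positivity
  have hc20 : 0 ≤ c2 := by positivity
  have hB' : 0 ≤ Q ^ (y + δ) * X ^ (θ + ε) := by positivity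
  calc _ = Q ^ (y + δ) * X ^ (θ + ε) * (CA * a1 + c1 * a2 + c2 * a3) := by
        rw [e5, e4, hc1, hc2, ha3]; ring
    _ ≤ Q ^ (y + δ) * X ^ (θ + ε) * ((CA + c1 + c2) * (a1 + a2 + a3)) := by
        refine mul_le_mul_of_nonneg_left ?_ hB'
        nlinarith [mul_nonneg hA0 ha20, mul_nonneg hA0 ha30, mul_nonneg hc10 ha10,
          mul_nonneg hc10 ha30, mul_nonneg hc20 ha10, mul_nonneg hc20 ha20]
    _ = _ := by ring

end Crest.Agent.R017.L5One401
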