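import Crest.Agent.R017.NWDefs_986
import Crest.Agent.R017.BDefs2x_319

/-!
# Row 17, section B: the re-frozen interface (helper770)

Changes with respect to `BDefs_770` / `BDefs2_770`:

* the amplifier is `c = c₀ p₁ ⋯ p_r`, `c₀` squarefree of smooth length `Q₀^δ` (986: `AS`, `NSumS`)
* `DOUT3` : signed sums over `k`, **fixed** data `DPar` (all constants depend on them); the only
  growing data are `prin0 d₁`, `prin0 d₂`, `prin0 d₃`, the symbol `sy k e` and the outer sum over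
  the squarefree `q` with `q² ∣ k`
* cases: (L) trivial amplifier character, cubic `k`-twist; (R) all angular types nonzero (with
  the relations of the source); (X) reduction of exceptional data; (D) zero weight (699, ruling of
  14:20: for the dual lists, where only the characters matter)
-/

set_option autoImplicit false

noncomputable section

open MeasureTheory Complex Set
open scoped ComplexConjugate ContDiff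

namespace Crest.Agent.R017.B770

open Crest.Agent.R012 Crest.Agent.R012.Eis Crest.Agent.R012.Mob705 Crest.Agent.R012.Gauss880
open Crest.Agent.R017.End699 Crest.Agent.R017.Sx440 Crest.Agent.R017.Sx545
open Crest.Agent.R017.Asm986

/-! ### D-OUT -/

/-- the target, three monomials (59), with separate gains; `y₀` = total exponent of the amplifier,
`Cc` = length of the sub-amplifier; `a = H/Q₀^{1/2+y₀}`, `b = Q/Q₀`, `c = Cc/Q₀^{y₀}` :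
`Q₀^{(1/2+y₀)/3+y₀+θ} (Q₀^{-η₁} (a b^{1/2} c^{1/2} + a^{1/2} b^{3/4} c^{1/4}) + Q₀^{-η₂} a^{1/6} b^θ c^θ)` -/
def TgB (θ η₁ η₂ y₀ Q₀ Q H Cc : ℝ) : ℝ :=
  Q₀ ^ ((1 / 2 + y₀) / 3 + y₀ + θ) *
    (Q₀ ^ (-η₁) * (H / Q₀ ^ (1 / 2 + y₀) * (Q / Q₀) ^ (1 / 2 : ℝ) * (Cc / Q₀ ^ y₀) ^ (1 / 2 : ℝ) +
      (H / Q₀ ^ (1 / 2 + y₀)) ^ (1 / 2 : ℝ) * (Q / Q₀) ^ (3 / 4 : ℝ) *
        (Cc / Q₀ ^ y₀) ^ (1 / 4 : ℝ)) +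
      Q₀ ^ (-η₂) * ((H / Q₀ ^ (1 / 2 + y₀)) ^ (1 / 6 : ℝ) * (Q / Q₀) ^ θ * (Cc / Q₀ ^ y₀) ^ θ))

/-- the fixed data of `DOUT3` -/
structure DPar where
  h₀ : ℝ → ℂ
  h : ℝ → ℂ
  V : ℝ → ℂ
  U : ℝ → ℂ
  n : Eis
  φ : Eis → ℂ
  ψ : Eis → ℂ
  n₃ : Eis
  χ₃ : Eis → ℂ
  l₁ : ℤ
  l₂ : ℤ
  l₃ : ℤ

/-- case (L): the primal side -/
def DPar.CaseL (P : DPar) : Prop :=
  P.l₁ = 0 ∧ P.l₃ = 0 ∧ P.φ = prin0 P.n ∧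
    ∃ m₀, Rad0 P.n m₀ ∧ P.n₃ = 3 * m₀ ∧ P.χ₃ = fun a => sy a m₀

/-- case (R): the dual side, `l₁ = j`, `l₂ = l' + j`, `l₃ = -j` with `j = 4 (l + 1)`,
`l' = -(l + 2)` -/
def DPar.CaseR (P : DPar) : Prop := P.l₁ ≠ 0 ∧ P.l₃ = -P.l₁ ∧ 4 * P.l₂ = 3 * P.l₁ - 4

/-- case (X): reduction of the exceptional data of case (L) -/
def DPar.CaseX (P : DPar) : Prop :=
  P.l₁ = 0 ∧ P.l₂ = 0 ∧ P.l₃ = 0 ∧ P.ψ = prin0 P.n ∧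
    ∃ m₀, Rad0 P.n m₀ ∧ P.n₃ = 3 * m₀ ∧ P.χ₃ = fun a => sy a m₀

/-- case (D): zero weight -/
def DPar.CaseD (P : DPar) : Prop := P.U = fun _ => 0

lemma DPar.CaseR.l₂ne {P : DPar} (h : P.CaseR) : P.l₂ ≠ 0 := by
  obtain ⟨h1, h2, h3⟩ := h
  omega

lemma DPar.CaseR.l₃ne {P : DPar} (h : P.CaseR) : P.l₃ ≠ 0 := by
  obtain ⟨h1, h2, h3⟩ := h
  omega

structure DPar.OK (P : DPar) : Prop where
  h₀ : HW P.h₀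
  h : HW P.h
  V : SW P.V
  U : SW P.U
  n36 : (36 : Eis) ∣ P.n
  φ : HC P.n P.φ
  ψ : HC P.n P.ψ
  χ₃ : HC P.n₃ P.χ₃
  rad : ∀ p : Eis, Prime p → (p ∣ P.n₃ ↔ p ∣ P.n)
  cases : P.CaseL ∨ P.CaseR ∨ P.CaseX ∨ P.CaseD

/-- the weight in `k` : `DM(χ₃)(k) ang^{l₃}(k) N(k)^{iτ} U(N k / H)` -/
def DPar.wk (P : DPar) (τ H : ℝ) (k : Eis) : ℂ :=
  FE47.DM P.n₃ P.χ₃ k * ang P.l₃ k * (nm k : ℂ) ^ (I * τ) * P.U (nm k / H)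

/-- the amplifier at `k`, coprime to `d₁` : `A₀(e^κ) ∏_{i ∈ J} A_i` -/
def DPar.am (P : DPar) (r : ℕ) (y Q₀ κ : ℝ) (J : Finset (Fin r)) (d₁ : Eis) (t₁ : ℝ)
    (k : Eis) : ℂ :=
  AS P.h₀ κ (fun c => twt P.φ P.l₁ t₁ c * prin0 d₁ c * conj (sy k c)) *
    Amp P.h r y Q₀ J (fun c => twt P.φ P.l₁ t₁ c * prin0 d₁ c * conj (sy k c))

/-- the Möbius sum at `k`, coprime to `d₂` -/
def DPar.mo (P : DPar) (Q : ℝ) (d₂ : Eis) (t₂ : ℝ) (k : Eis) : ℂ :=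
  MV P.V Q (fun b => twt P.ψ P.l₂ t₂ b * prin0 d₂ b * sy k b)

/-- the signed sum over the nonprincipal multiples `k` of `q²` -/
def DPar.ds (P : DPar) (r : ℕ) (y Q₀ κ : ℝ) (J : Finset (Fin r)) (Q H : ℝ)
    (d₁ d₂ d₃ e : Eis) (t₁ t₂ τ : ℝ) (q : Eis) : ℂ := by
  classical
  exact ∑' k : Eis, if k ≠ 0 ∧ q ^ 2 ∣ k ∧ NPk P.n P.φ P.l₁ k then
    P.wk τ H k * (prin0 d₃ k * sy k e) *
      (P.am r y Q₀ κ J d₁ t₁ k * P.mo Q d₂ t₂ k) else 0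

/-- **D-OUT** (target of C/D) at fixed exponents. `e^κ` is the length of the smooth squarefree piece
(`κ ≤ δ log Q₀`); gain `Q₀^{-η}` in the first two monomials always, in the third if
`κ ≥ (δ/2) log Q₀` (for smaller `κ` a loss `Q₀^η` is allowed). The hypothesis on `Q` : a factor of the amplifier is lost only together with the
same length of `b`. -/
def DOUT3i (θ : ℝ) (r : ℕ) (y δ η : ℝ) : Prop :=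
  ∀ P : DPar, P.OK → ∀ ε C₁ : ℝ, 0 < ε → 0 < C₁ → ∃ C A : ℝ, 0 ≤ C ∧ 0 ≤ A ∧
    ∀ (Q₀ Q : ℝ), 1 ≤ Q → Q ≤ Q₀ → ∀ κ : ℝ, -1 ≤ κ → κ ≤ δ * Real.log Q₀ →
    ∀ (J : Finset (Fin r)) (H : ℝ), 0 < H → H ≤ Q₀ ^ (1 / 2 + (y + δ) + η) →
    ∀ d₁ d₂ d₃ e : Eis, d₁ ≠ 0 → d₂ ≠ 0 → d₃ ≠ 0 → Sm P.n e →
      (∀ p : Eis, Prime p → p ∣ e → p ^ 5 ∣ e) →
      Q * nm e ≤ C₁ * Q₀ * (CJ r y Q₀ J * Real.exp κ / Q₀ ^ (y + δ)) →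
    ∀ (t₁ t₂ τ : ℝ) (𝒟 : Finset Eis), (∀ q ∈ 𝒟, Sm P.n q ∧ Squarefree q) →
    ∀ u v : Eis → ℝ, (∀ q, 0 ≤ u q ∧ u q ≤ C₁) → (∀ q, 0 ≤ v q ∧ v q ≤ C₁) →
      ∑ q ∈ 𝒟, ‖P.ds r y Q₀ (κ - u q) J (Q * Real.exp (-(v q))) H d₁ d₂ d₃ e t₁ t₂ τ q‖ ≤
        C * ((nm d₁ : ℝ) * nm d₂ * nm d₃ * nm e * Q₀) ^ ε * (1 + |t₁| + |t₂| + |τ|) ^ A *
          TgB θ η (if δ / 2 * Real.log Q₀ ≤ κ then η else -η) (y + δ) Q₀ Q H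
            (CJ r y Q₀ J * Real.exp κ)

/-- **D-OUT**: output of sections C/D (with `PF univ θ` as input). -/
def DOUT3 (θ : ℝ) : Prop :=
  ∃ (r : ℕ) (y δ η : ℝ), 0 < r ∧ 0 < y ∧ 0 < δ ∧ y + δ < 1 ∧ δ ≤ 1 / 1000 ∧ 10 * δ ≤ y / r ∧
    0 < η ∧ η ≤ δ / 16 ∧ DOUT3i θ r y δ η

/-! ### the natural bound -/

/-- **L3** (986): the natural bound for the nonprincipal `k`, full amplifier. -/
def NatNP3 (θ : ℝ) (r : ℕ) (y δ η η' : ℝ) : Prop := by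
  classical
  exact ∀ P : DPar, P.OK → ∀ ε : ℝ, 0 < ε → ∃ C A : ℝ, 0 ≤ C ∧ 0 ≤ A ∧
    ∀ (Q₀ Q : ℝ), 1 ≤ Q → Q ≤ Q₀ → (nm P.n : ℝ) * Q₀ ^ δ * 9 < Q₀ ^ (y / r) →
    ∀ H : ℝ, 0 < H → H ≤ Q₀ ^ (1 / 2 + (y + δ) + η) → ∀ t₁ t₂ τ : ℝ,
      ‖∑' k : Eis, (if k ≠ 0 ∧ NPk P.n P.φ P.l₁ k then
        P.wk τ H k * NSumS P.h₀ P.h r y Q₀ (δ * Real.log Q₀) Finset.univ P.n
          (twt P.ψ P.l₂ t₂) (twt P.φ P.l₁ t₁) P.V Q k else 0)‖ ≤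
        C * Q₀ ^ ε * (1 + |t₁| + |t₂| + |τ|) ^ A *
          TgB θ η' η' (y + δ) Q₀ Q H (Q₀ ^ (y + δ))

/-- **L3**: reduction. -/
def PropL3 : Prop :=
  ∀ (θ : ℝ) (r : ℕ) (y δ η : ℝ), 7 / 8 < θ → θ ≤ 1 → 0 < r → 0 < y → 0 < δ → y + δ < 1 →
    δ ≤ 1 / 1000 → 10 * δ ≤ y / r → 0 < η → η ≤ δ / 16 → DOUT3i θ r y δ η → ∃ η' > 0, NatNP3 θ r y δ η η'

/-- **L4'** (`k = 0`). -/
def NatZ3 (r : ℕ) (y δ : ℝ) : Prop :=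
  ∀ h₀ h : ℝ → ℂ, HW h₀ → HW h → ∀ V : ℝ → ℂ, SW V → ∀ ε : ℝ, 0 < ε → ∃ C : ℝ, 0 ≤ C ∧
    ∀ (M : Eis) (f g : Eis → ℂ), M ≠ 0 → (2 : Eis) ∣ M → (∀ b, ‖f b‖ ≤ 1) → (∀ b, ‖g b‖ ≤ 1) →
    ∀ (Q₀ Q : ℝ), 1 ≤ Q → Q ≤ Q₀ → (nm M : ℝ) * Q₀ ^ δ * 9 < Q₀ ^ (y / r) →
      ‖NSumS h₀ h r y Q₀ (δ * Real.log Q₀) Finset.univ M f g V Q 0‖ ≤
        C * Q₀ ^ ε * ((Q₀ ^ (y + δ)) ^ 2 * (Q / Q₀ ^ (y + δ)) ^ (19 / 20 : ℝ))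

/-! ### the two forms -/

/-- the dual form; amplifier at `Q₀`, scales `K, Q`. -/
def DL3 (h₀ h : ℝ → ℂ) (r : ℕ) (y δ Q₀ : ℝ) (M m₀ : Eis) (ξ f : Eis → ℂ) (V om : ℝ → ℂ)
    (K Q : ℝ) : ℂ :=
  ∑ c₀ ∈ sqS M (δ * Real.log Q₀), h₀ (Real.log (nm c₀) - δ * Real.log Q₀) *
    ∑ p ∈ tup r y Q₀ Finset.univ,
      (∏ i : (Finset.univ : Finset (Fin r)), h (Real.log (nm (p i)) - kap r y Q₀ i)) *
        (sy m₀ (c₀ * ∏ i, p i) * ((Real.sqrt (nm (c₀ * ∏ i, p i)))⁻¹ : ℝ) *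
          conj (G (c₀ * ∏ i, p i))) *
        ∑' a : Eis, ext (fun a => sy a m₀) a * sy a (c₀ * ∏ i, p i) *
          Psi M ξ f a (W0 V om (K / (27 * nm m₀ * Q)) a (c₀ * ∏ i, p i)) Q

/-- the primal form restricted to a set `P` of `k`'s. -/
def LK3 (h₀ h : ℝ → ℂ) (r : ℕ) (y δ Q₀ : ℝ) (M m₀ : Eis) (ξ f : Eis → ℂ) (V om : ℝ → ℂ)
    (P : Eis → Prop) (K Q : ℝ) : ℂ := by
  classical
  exact ∑' e : Eis, if Sm M e then ξ e * (nm e : ℂ) ^ 5 *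
    ∑' k : Eis, (if P k then FE47.DM (3 * m₀) (fun a => sy a m₀) k *
      Ur om (nm k * (nm e : ℝ) ^ 6 / K) *
        NSumS h₀ h r y Q₀ (δ * Real.log Q₀) Finset.univ M f (fun _ => 1) V
          (Q / (nm e : ℝ) ^ 6) k else 0) else 0

/-- **L6** (106) -/
def PropL6' : Prop :=
  ∀ (h₀ h : ℝ → ℂ), HW h₀ → HW h → ∀ (r : ℕ) (y δ Q₀ : ℝ) (M m₀ : Eis), 0 < r → 0 < y → 0 < δ →
    1 ≤ Q₀ → (36 : Eis) ∣ M → Rad0 M m₀ → (nm M : ℝ) * Q₀ ^ δ * 9 < Q₀ ^ (y / r) →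
    ∀ (ξ f : Eis → ℂ), (∀ e, ‖ξ e‖ ≤ 1) → (∀ b, ‖f b‖ ≤ 1) →
    ∀ V om : ℝ → ℂ, SW V → SW om → ∀ K Q : ℝ, 0 < K → 0 < Q →
      DL3 h₀ h r y δ Q₀ M m₀ ξ f V om K Q = ((2 * Real.sqrt 3 * (Real.sqrt Q / K) : ℝ) : ℂ) *
        LK3 h₀ h r y δ Q₀ M m₀ ξ f V om (fun _ => True) K Q

/-- **L7** (47, 858): bound of the dual form, `K = Q^{1/2+y+δ+d}`; from `NatNP3` in case (R) (there
is no principal `k`, and `k = 0` does not contribute). -/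
def PropL7' (θ : ℝ) (r : ℕ) (y δ η η' : ℝ) : Prop :=
  ∀ (M m₀ : Eis), (36 : Eis) ∣ M → Rad0 M m₀ → ∀ (ψ : Eis → ℂ) (l : ℤ) (F : FData), HC M ψ →
    F.OK M → FE M ψ l F → 4 * F.l' + F.j = -4 →
    ∀ (h₀ h : ℝ → ℂ), HW h₀ → HW h → ∀ V om : ℝ → ℂ, SW V → SW om →
    ∀ ε d : ℝ, 0 < ε → 0 < d → 6 * d ≤ η → 6 * d ≤ η' → d ≤ 1 / 100 → ∃ C Q₁ : ℝ, 0 ≤ C ∧
      ∀ Q : ℝ, Q₁ ≤ Q →
        ‖∑ j, F.cL j * DL3 h₀ h r y δ Q M m₀ F.ξ (tw ψ l) V om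
            (Q ^ (1 / 2 + (y + δ) + d) / F.qL j) (Q / F.qL j)‖ *
          (Q ^ (1 / 2 + (y + δ) + d) / Real.sqrt Q) ≤
        C * Q ^ ε * (Q ^ ((1 / 2 + (y + δ)) / 3 + (y + δ) + θ) * Q ^ (5 * d - η'))

/-- **target of section B**. -/
def StepB3 : Prop :=
  (∀ M : Eis, (36 : Eis) ∣ M → F2x M) →
    ∀ θ : ℝ, 7 / 8 < θ → θ ≤ 1 → PF Set.univ θ → DOUT3 θ → ∃ δ > 0, PF Set.univ (θ - δ)

end Crest.Agent.R017.B770
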