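import Crest.Agent.R017.L6d_106
import Crest.Agent.R017.BDefs3_770

/-!
# Row 17, section B, leaf L6' : the exact identity for the amplifier `c₀ p₁ ⋯ p_r`
-/

set_option autoImplicit false

noncomputable section

open MeasureTheory Complex Set
open scoped ComplexConjugate ContDiff SchwartzMap

namespace Crest.Agent.R017.L6106

open Crest.Agent.R012 Crest.Agent.R012.Eis Crest.Agent.R012.Mob705 Crest.Agent.R012.Gauss880
open Crest.Agent.R012.Po581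
open Crest.Agent.R017.End699 Crest.Agent.R017.Sx440 Crest.Agent.R017.Sx545 Crest.Agent.R017.B770
open Crest.Agent.R017.Asm986

variable {M m₀ : Eis}

lemma mem_sqS {M c : Eis} {κ : ℝ} :
    c ∈ sqS M κ ↔ ((nm c ≤ ⌊Real.exp (κ + 1)⌋₊ ∧ IsPrim c) ∧ Squarefree c) ∧ IsCoprime c M := by
  classical
  unfold sqS sqB
  rw [Finset.mem_filter, Finset.mem_filter, mem_primBall]

/-- the factor `c₀ p₁ ⋯ p_r` is squarefree and prime to `M`. -/
lemma c0_tup {h : ℝ → ℂ} (hh : HW h) {r : ℕ} {y δ Q₀ : ℝ} (hδ : 0 < δ) (hQ₀ : 1 ≤ Q₀)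
    (h36 : (36 : Eis) ∣ M) (hM0 : M ≠ 0) (hMQ : (nm M : ℝ) * Q₀ ^ δ * 9 < Q₀ ^ (y / r))
    {J : Finset (Fin r)} {c₀ : Eis} (hc₀ : c₀ ∈ sqS M (δ * Real.log Q₀))
    {p : ∀ _ : J, Eis} (hp : p ∈ tup r y Q₀ J)
    (hne : (∏ i : J, h (Real.log (nm (p i)) - kap r y Q₀ i)) ≠ 0) :
    Sm M (c₀ * ∏ i, p i) ∧ Squarefree (c₀ * ∏ i, p i) := by
  have hQ0 : 0 < Q₀ := by linarith
  have hQδ : 1 ≤ Q₀ ^ δ := Real.one_le_rpow hQ₀ hδ.le
  obtain ⟨⟨⟨hn, hprim⟩, hsq⟩, hcop⟩ := mem_sqS.mp hc₀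
  have hM1 : (1296 : ℝ) ≤ nm M := by
    have h1 := Div277.nm_le_of_dvd hM0 h36
    have h2 : nm (36 : Eis) = 1296 := by decide
    rw [h2] at h1
    exact_mod_cast h1
  have hn' : (nm c₀ : ℝ) ≤ 3 * Q₀ ^ δ := by
    have h1 : (nm c₀ : ℝ) ≤ Real.exp (δ * Real.log Q₀ + 1) :=
      (Nat.cast_le.mpr hn).trans (Nat.floor_le (Real.exp_pos _).le)
    refine h1.trans ?_
    rw [Real.exp_add, mul_comm δ, ← Real.rpow_def_of_pos hQ0, mul_comm]
    have := Real.exp_one_lt_d9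
    nlinarith
  have hA1 : (nm M : ℝ) < Q₀ ^ (y / r) / 9 := by
    rw [lt_div_iff₀ (by norm_num)]
    have : (0 : ℝ) ≤ nm M := by positivity
    nlinarith
  have hA2 : (nm c₀ : ℝ) < Q₀ ^ (y / r) / 9 := by
    rw [lt_div_iff₀ (by norm_num)]
    nlinarith
  obtain ⟨c₁, c₂, hc, hc₁, hc₂, hsq', -⟩ :=
    NatP401.tuple_facts hh hM0 hA1 hQ₀ (k := 1) hp hne
  obtain ⟨d₁, d₂, hd, hd₁, hd₂, -, -⟩ :=
    NatP401.tuple_facts hh hprim.ne_zero hA2 hQ₀ (k := 1) hp hne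
  have hcc : IsCoprime c₀ (∏ i, p i) := by
    rw [hd]
    exact ((hd₂.mul hd₁).cop).symm
  have hcS : Sm M (∏ i, p i) := by rw [hc]; exact hc₂.mul hc₁
  have hcsq : Squarefree (∏ i, p i) := by rw [hc]; exact hsq'
  exact ⟨Sm.mul ⟨hprim, hcop⟩ hcS,
    (squarefree_mul_iff.mpr ⟨hcc.isRelPrime, hsq, hcsq⟩)⟩

/-- **L6'** -/
theorem propL6' : PropL6' := by
  classical
  intro h₀ h hh₀ hh r y δ Q₀ M m₀ hr hy hδ hQ₀ h36 hR hMQ ξ f hξ hf V om hV hom K Q hK hQ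
  have hM0 : M ≠ 0 := Rad0.M_ne hR
  have key := fam h36 hR ξ f hV hom hK hQ
    (sqS M (δ * Real.log Q₀) ×ˢ tup r y Q₀ Finset.univ)
    (fun x => h₀ (Real.log (nm x.1) - δ * Real.log Q₀) *
      ∏ i : (Finset.univ : Finset (Fin r)), h (Real.log (nm (x.2 i)) - kap r y Q₀ i))
    (fun x => x.1 * ∏ i, x.2 i) (by
      intro x hx hne
      rw [Finset.mem_product] at hx
      exact c0_tup hh hδ hQ₀ h36 hM0 hMQ hx.1 hx.2 (right_ne_zero_of_mul hne))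
  have hL : DL3 h₀ h r y δ Q₀ M m₀ ξ f V om K Q =
      ∑ x ∈ sqS M (δ * Real.log Q₀) ×ˢ tup r y Q₀ Finset.univ,
        (h₀ (Real.log (nm x.1) - δ * Real.log Q₀) *
      ∏ i : (Finset.univ : Finset (Fin r)), h (Real.log (nm (x.2 i)) - kap r y Q₀ i)) *
        (sy m₀ (x.1 * ∏ i, x.2 i) * ((Real.sqrt (nm (x.1 * ∏ i, x.2 i)))⁻¹ : ℝ) *
          conj (G (x.1 * ∏ i, x.2 i))) *
      ∑' a : Eis, ext (fun a => sy a m₀) a * sy a (x.1 * ∏ i, x.2 i) *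
        Psi M ξ f a (W0 V om (K / (27 * nm m₀ * Q)) a (x.1 * ∏ i, x.2 i)) Q := by
    unfold DL3
    rw [Finset.sum_product]
    refine Finset.sum_congr rfl fun c₀ _ => ?_
    rw [Finset.mul_sum]
    refine Finset.sum_congr rfl fun p _ => ?_
    ring
  have hRt : ∀ e k : Eis, NSumS h₀ h r y Q₀ (δ * Real.log Q₀) Finset.univ M f (fun _ => 1) V
      (Q / (nm e : ℝ) ^ 6) k =
      ∑ x ∈ sqS M (δ * Real.log Q₀) ×ˢ tup r y Q₀ Finset.univ,
        (h₀ (Real.log (nm x.1) - δ * Real.log Q₀) *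
      ∏ i : (Finset.univ : Finset (Fin r)), h (Real.log (nm (x.2 i)) - kap r y Q₀ i)) *
        ∑' b : Eis, (if Sm M b then
            f b * tk k b (x.1 * ∏ i, x.2 i) * V (nm b / (Q / (nm e : ℝ) ^ 6)) else 0) := by
    intro e k
    unfold NSumS
    rw [Finset.sum_product]
    refine Finset.sum_congr rfl fun c₀ _ => ?_
    rw [Finset.mul_sum]
    refine Finset.sum_congr rfl fun p _ => ?_
    ring
  rw [hL, key]
  unfold LK3
  simp only [if_true, hRt]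

end Crest.Agent.R017.L6106
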