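import Crest.Agent.R017.BEndC3_699
import Crest.Agent.R017.EndQ_699
import Crest.Agent.R017.PLow2_271

/-!
# Row 17: master derivation, re-frozen interface `BDefs3_770` (helper699)

Open leaves of section B: `LeafL6`, `LeafL3`, `LeafL7`, `LeafL5`, `LeafNPL`; section A: `SecA`;
sections C/D: `SecD3`.
-/

set_option autoImplicit false

noncomputable section

open MeasureTheory Complex Set
open scoped ComplexConjugate ContDiff

namespace Crest.Agent.R017.Master3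

open Crest.Agent.R012 Crest.Agent.R012.Eis Crest.Agent.R012.Mob705 Crest.Agent.R012.Gauss880
open Crest.Agent.R017.End699 Crest.Agent.R017.Sx440 Crest.Agent.R017.B770 Crest.Agent.R017.BEndA699

/-- section A: the functional equation. -/
def SecA : Prop := ∀ M : Eis, (36 : Eis) ∣ M → F2x M

/-- sections C + D. -/
def SecD3 : Prop := ∀ θ : ℝ, 7 / 8 < θ → θ ≤ 1 → PF Set.univ θ → DOUT3 θ

/-- **L7** (47, 858) -/
def LeafL7 : Prop :=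
  ∀ (θ : ℝ) (r : ℕ) (y δ η η' : ℝ), 7 / 8 < θ → θ ≤ 1 → 0 < r → 0 < y → 0 < δ → y + δ < 1 →
    δ ≤ 1 / 1000 → 10 * δ ≤ y / r → 0 < η → η ≤ δ / 16 → 0 < η' → NatNP3 θ r y δ η η' →
    PropL7' θ r y δ η η'

/-- **L5** (868) -/
def LeafL5 : Prop :=
  ∀ (θ : ℝ) (r : ℕ) (y δ : ℝ), 7 / 8 < θ → θ ≤ 1 → PF Set.univ θ → 0 < r → 0 < y → 0 < δ →
    δ ≤ 1 / 1000 → 10 * δ ≤ y / r → PropL5' θ r y δ

/-- **NPL** (699) -/
def LeafNPL : Prop :=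
  ∀ (θ : ℝ) (r : ℕ) (y δ η η' : ℝ), 7 / 8 < θ → θ ≤ 1 → 0 < r → 0 < y → 0 < δ → y + δ < 1 →
    δ ≤ 1 / 1000 → 10 * δ ≤ y / r → 0 < η → 0 < η' → NatNP3 θ r y δ η η' → PropNPL3 θ r y δ

theorem propPLOW' {r : ℕ} (hr : 0 < r) {y : ℝ} (hy : 0 < y) : PropPLOW r y :=
  PLow271.propPLOW hr hy

theorem stepB3 (hL6 : PropL6') (hL3 : PropL3) (hL7 : LeafL7) (hL5 : LeafL5) (hN : LeafNPL) :
    StepB3 := by
  refine stepB3_of hL6 fun θ hθ hθ1 hPF hD => ?_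
  obtain ⟨r, y, δ, η, hr, hy, hδ, hyδ, hδ1, h10, hη, hηδ, hD⟩ := hD
  obtain ⟨η', hη', hNP⟩ := hL3 θ r y δ η hθ hθ1 hr hy hδ hyδ hδ1 h10 hη hηδ hD
  exact ⟨r, y, δ, η, η', hr, hy, hδ, h10, hη, hη',
    hL7 θ r y δ η η' hθ hθ1 hr hy hδ hyδ hδ1 h10 hη hηδ hη' hNP,
    hL5 θ r y δ hθ hθ1 hPF hr hy hδ hδ1 h10,
    hN θ r y δ η η' hθ hθ1 hr hy hδ hyδ hδ1 h10 hη hη' hNP,
    propPLOW' hr hy⟩

theorem s23_of (hA : SecA) (hB : StepB3) (hD : SecD3) : S23 := by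
  refine s23_of_nz ?_
  refine nz_of_pf (S := Set.univ) (Set.mem_univ 0) (pf_bootstrap fun θ hθ hθ1 hPF => ?_)
  exact hB hA θ hθ hθ1 hPF (hD θ hθ hθ1 hPF)

theorem s22_of (hA : SecA) (hB : StepB3) (hD : SecD3) : S22 := s22_of_s23 (s23_of hA hB hD)

end Crest.Agent.R017.Master3
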