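import Crest.Agent.R017.L7J_47
import Crest.Agent.R017.Master3_699

/-!
# Row 17, section B: the leaf `LeafL7` of `Master3_699`
-/

set_option autoImplicit false

namespace Crest.Agent.R017.L747

open Crest.Agent.R017.B770

/-- **L7** -/
theorem leafL7 : Master3.LeafL7 := by
  intro θ r y δ η η' hθ _ hr hy hδ _ _ h10 _ _ _ hN
  exact propL7 hN (by linarith) hr hy hδ (by linarith)

end Crest.Agent.R017.L747
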