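import Crest.Agent.R017.BDefs3_770

/-!
# Row 17, section B, leaf L3b, final form: explicit values of `tk k b 1` for powerful `b`
-/

set_option autoImplicit false

noncomputable section

open scoped ComplexConjugate

namespace Crest.Agent.R017.Asm986

open Crest.Agent.R012 Crest.Agent.R012.Eis Crest.Agent.R012.PSer47 Crest.Agent.R012.Div277
open Crest.Agent.R017.End699 Crest.Agent.R017.Sx545 Crest.Agent.R017.B770

open Classical in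
/-- explicit values of `tk k b 1` for powerful `b` (`d ^ 3` = the cube part of the modulus):
`tk k b 1 = 1[d³ ∣ k] ((k/d³)/e)_3 ∑_{t ∈ E} κ_t 1[(k/d³, t) = 1]`. -/
def TkPow3 : Prop :=
  ∃ (d e : Eis → Eis) (E : Eis → Finset Eis) (κ : Eis → Eis → ℂ) (W : Eis → ℝ),
    (∀ b, 0 ≤ W b) ∧
    (∀ b, Sm 2 b → Pf b → IsPrim (d b) ∧ IsPrim (e b) ∧ d b ∣ b ∧ e b ∣ b ∧
      (∀ p : Eis, Prime p → p ∣ e b → p ^ 5 ∣ e b) ∧ (∀ t ∈ E b, IsPrim t ∧ t ∣ b) ∧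
      (∀ k', k' ≠ 0 → tk (d b ^ 3 * k') b 1 =
        sy k' (e b) * ∑ t ∈ E b, κ b t * prin0 t k') ∧
      (∀ k, k ≠ 0 → ¬ d b ^ 3 ∣ k → tk k b 1 = 0) ∧
      ∑ t ∈ E b, ‖κ b t‖ ≤ W b) ∧
    Summable (fun b => if Sm 2 b ∧ Pf b then
      W b * (nm (d b) : ℝ) ^ (-3 : ℝ) * (nm b : ℝ) ^ (-(1 / 2) : ℝ) else 0) ∧
    Summable (fun b => if Sm 2 b ∧ Pf b then
      W b * (nm (d b) : ℝ) ^ (-(3 / 2) : ℝ) * (nm b : ℝ) ^ (-(3 / 4) : ℝ) else 0) ∧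
    ∀ σ : ℝ, 7 / 8 < σ → Summable (fun b => if Sm 2 b ∧ Pf b then
      W b * (nm (d b) : ℝ) ^ (-(1 / 2) : ℝ) * (nm b : ℝ) ^ (-σ) else 0)

end Crest.Agent.R017.Asm986
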