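import Crest.Agent.R017.TkPow_848
import Crest.Agent.R017.NVDefs_986

/-!
# Row 17, section B: `TkPow3` (helper848)
-/

set_option autoImplicit false

noncomputable section

open Complex
open scoped ComplexConjugate

namespace Crest.Agent.R017.TkPow848

open Crest.Agent.R012 Crest.Agent.R012.Eis Crest.Agent.R012.Mob705 Crest.Agent.R012.Gauss880
open Crest.Agent.R012.Div277
open Crest.Agent.R017.End699 Crest.Agent.R017.Sx440 Crest.Agent.R017.Sx545 Crest.Agent.R017.B770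
open Crest.Agent.R017.FE47 Crest.Agent.R017.LS848 Crest.Agent.R017.Tk545
open Crest.Agent.R017.Eul571 Crest.Agent.R017.PowS571 Crest.Agent.R017.Asm986

open Classical in
/-- the set of the `t` with nonzero coefficient -/
def EF (b : Eis) : Finset Eis := (EE b).filter fun t => kk b t ≠ 0

/-- if some coefficient is nonzero then every prime of `b` occurs to the power `5` -/
lemma five_of_kk {b t : Eis} (hb : Sm 2 b) (hP : Pf b) (h : kk b t ≠ 0) {p : Eis} (hp : Prime p)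
    (hpb : p ∣ b) : p ^ 5 ∣ b := by
  classical
  -- pass to the primary associate
  have hl : ¬ lam ∣ p := fun h' => hb.not_lam_dvd (h'.trans hpb)
  have hass := prim_associated p
  have hq : Mob705.IsPP (prim p) := ⟨prim_isPrim hl, hass.prime_iff.mp hp⟩
  have hqb : prim p ∣ b := hass.dvd_iff_dvd_left.mp hpb
  have hmem : prim p ∈ pp b := (mem_pp hb.ne_zero).mpr ⟨hq, hqb⟩
  set j := multiplicity (prim p) b with hj
  have hfin := FiniteMultiplicity.of_prime_left hq.prime hb.ne_zero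
  have h2 : 2 ≤ j := hfin.le_multiplicity_of_pow_dvd (hP _ hq.prime hqb)
  have h3 : (if prim p ∣ t then k1 (prim p) j else k0 (prim p) j) ≠ 0 := by
    intro h0
    apply h
    unfold kk
    exact Finset.prod_eq_zero hmem h0
  have h5 : 5 ≤ j := by
    by_contra hlt
    have h6 : ¬ j % 6 = 0 := by omega
    have h4 : ¬ j % 4 = 1 := by omega
    apply h3
    unfold k0 k1
    rw [if_neg h6, if_neg h6, if_neg h4, if_neg h4, ite_self]
  have h7 : prim p ^ 5 ∣ b := (pow_dvd_pow _ h5).trans (pow_multiplicity_dvd _ _)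
  exact ((hass.pow_pow (n := 5)).dvd_iff_dvd_left).mpr h7

lemma sum_EF {b : Eis} (f : Eis → ℂ) : ∑ t ∈ EF b, kk b t * f t = ∑ t ∈ EE b, kk b t * f t := by
  classical
  unfold EF
  rw [Finset.sum_filter]
  refine Finset.sum_congr rfl fun t _ => ?_
  by_cases h : kk b t = 0
  · rw [if_neg (not_not.mpr h), h, zero_mul]
  · rw [if_pos h]

/-- **explicit values of `tk k b 1`**, with the extra clause on `p ^ 5`. -/
theorem tkPow3_five : ∃ (d e : Eis → Eis) (E : Eis → Finset Eis) (κ : Eis → Eis → ℂ) (W : Eis → ℝ),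
    (∀ b, 0 ≤ W b) ∧
    (∀ b, Sm 2 b → Pf b → IsPrim (d b) ∧ IsPrim (e b) ∧ d b ∣ b ∧ e b ∣ b ∧
      (∀ p : Eis, Prime p → p ∣ e b → p ^ 5 ∣ e b) ∧
      (∀ t ∈ E b, IsPrim t ∧ Squarefree t ∧ t ∣ b) ∧ d b ^ 3 ∣ b ∧
      ((E b).Nonempty → ∀ p : Eis, Prime p → p ∣ b → p ^ 5 ∣ b) ∧
      (∀ k', tk (d b ^ 3 * k') b 1 = sy k' (e b) * ∑ t ∈ E b, κ b t * prin0 t k') ∧
      (∀ k, ¬ d b ^ 3 ∣ k → tk k b 1 = 0) ∧
      ∑ t ∈ E b, ‖κ b t‖ ≤ W b) ∧
    Summable (fun b => open Classical in if Sm 2 b ∧ Pf b then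
      W b * (nm (d b) : ℝ) ^ (-3 : ℝ) * (nm b : ℝ) ^ (-(1 / 2) : ℝ) else 0) ∧
    Summable (fun b => open Classical in if Sm 2 b ∧ Pf b then
      W b * (nm (d b) : ℝ) ^ (-(3 / 2) : ℝ) * (nm b : ℝ) ^ (-(3 / 4) : ℝ) else 0) ∧
    ∀ σ : ℝ, 7 / 8 < σ → Summable (fun b => open Classical in if Sm 2 b ∧ Pf b then
      W b * (nm (d b) : ℝ) ^ (-(1 / 2) : ℝ) * (nm b : ℝ) ^ (-σ) else 0) := by
  classical
  refine ⟨dd, ee, EF, kk, Wt, Wt_nonneg, fun b hb hP => ?_, summable_FW dec1, summable_FW dec2,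
    fun σ hσ => summable_FW (dec3 hσ)⟩
  obtain ⟨h1, h2⟩ := tk_glob b hb hP
  refine ⟨isPrim_dd b, isPrim_ee b, (dvd_pow_self _ (by norm_num)).trans (dd_dvd hb), ee_dvd hb,
    ee_five hb hP, fun t ht => ?_, dd_dvd hb, fun ⟨t, ht⟩ p hp hpb => ?_, fun k' => ?_, h1, ?_⟩
  · have ht' := Finset.mem_of_mem_filter t ht
    exact ⟨(EE_prim ht').1, (EE_prim ht').2, EE_dvd ht'⟩
  · exact five_of_kk hb hP (Finset.mem_filter.mp ht).2 hp hpb
  · rw [h2, mulf_eq_sum, sum_EF, mul_comm]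
  · refine le_trans ?_ (sum_kk_le hb)
    exact Finset.sum_le_sum_of_subset_of_nonneg (Finset.filter_subset _ _)
      fun _ _ _ => norm_nonneg _

/-- **`TkPow3`** -/
theorem tkPow3 : TkPow3 := by
  classical
  obtain ⟨d, e, E, κ, W, h0, h1, h2, h3, h4⟩ := tkPow3_five
  refine ⟨d, e, E, κ, W, h0, fun b hb hP => ?_, ?_, ?_, ?_⟩
  · obtain ⟨a1, a2, a3, a4, a5, a6, _, _, a9, a10, a11⟩ := h1 b hb hP
    exact ⟨a1, a2, a3, a4, a5, fun t ht => ⟨(a6 t ht).1, (a6 t ht).2.2⟩, fun k' _ => a9 k',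
      fun k _ hk => a10 k hk, a11⟩
  · convert h2
  · convert h3
  · intro σ hσ
    convert h4 σ hσ

end Crest.Agent.R017.TkPow848
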