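import Crest.Agent.R017.NV6_986
import Crest.Agent.R017.TkPow3_848

/-!
# Row 17, section B, leaf L3b, final form, part 7: `PropL3`
-/

set_option autoImplicit false

noncomputable section

open scoped ComplexConjugate ContDiff

namespace Crest.Agent.R017.Asm986

open Crest.Agent.R012 Crest.Agent.R012.Eis Crest.Agent.R012.PSer47 Crest.Agent.R012.Div277
open Crest.Agent.R017.End699 Crest.Agent.R017.Sx545 Crest.Agent.R017.B770

lemma wk_fin {P : DPar} (hP : P.OK) (τ : ℝ) : ∀ H : ℝ, 0 < H →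
    ∃ X : ℝ, ∀ k, P.wk τ H k ≠ 0 → (nm k : ℝ) ≤ X := by
  obtain ⟨β, _, hβ⟩ := sw_bound hP.U
  intro H hH
  refine ⟨β * H, fun k hk => ?_⟩
  have h1 : P.U (nm k / H) ≠ 0 := by
    intro h0
    apply hk
    unfold DPar.wk
    rw [h0, mul_zero]
  have h2 := (hβ _ h1).2
  rwa [div_le_iff₀ hH] at h2

open Classical in
/-- regrouping of the sum over `d, p, a` -/
lemma sum_dpa_le {P : DPar} {r : ℕ} {y Q₀ κ₀ : ℝ} {J' : Finset (Fin r)} {b : Eis}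
    {g : Eis → Eis → (∀ _ : J', Eis) → ℝ} (hg : ∀ d a p, 0 ≤ g d a p) :
    ∑ d ∈ sqS P.n κ₀, ∑ p ∈ tup r y Q₀ J', ∑ a ∈ dvs d,
      (if cnd P r y Q₀ d p b then g d a p else 0) ≤
      ∑ x ∈ SS0 P r y Q₀ κ₀ J' b, g x.1.1 x.1.2 x.2 := by
  unfold SS0
  rw [Finset.sum_filter, Finset.sum_product, Finset.sum_product]
  refine Finset.sum_le_sum fun d hd => ?_
  rw [Finset.sum_comm]
  have hd' := mem_sqS.mp hd
  have hdp := hd'.1.1.2
  have hdZ : nm d ≤ ⌊Real.exp (κ₀ + 1)⌋₊ := Nat.le_floor hd'.1.1.1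
  calc _ ≤ ∑ a ∈ dvs d, ∑ p ∈ tup r y Q₀ J',
        (if a ∣ d ∧ cnd P r y Q₀ d p b then g d a p else 0) := by
        refine Finset.sum_le_sum fun a ha => Finset.sum_le_sum fun p _ => ?_
        have had := dvd_of_mem_dvs ha
        by_cases hc : cnd P r y Q₀ d p b
        · rw [if_pos hc, if_pos ⟨had, hc⟩]
        · rw [if_neg hc, if_neg fun h => hc h.2]
    _ ≤ _ := by
        apply Finset.sum_le_sum_of_subset_of_nonneg
        · intro a ha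
          have h1 := (mem_dvs hdp.ne_zero).mp ha
          rw [mem_primBall]
          exact ⟨(nm_le_of_dvd hdp.ne_zero h1.2).trans hdZ, h1.1⟩
        · intro a _ _
          apply Finset.sum_nonneg
          intro p _
          split_ifs
          · exact hg _ _ _
          · exact le_rfl

open Classical in
theorem norm_kSum_le {P : DPar} (hP : P.OK) {r : ℕ} {y Q₀ κ₀ Q β H t₁ t₂ τ : ℝ} (hr : 0 < r)
    (hy : 0 < y) (hQ₀ : 1 ≤ Q₀) (hκ₀ : 0 ≤ κ₀) (hQ : 0 < Q)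
    (hMQ : (nm P.n : ℝ) * Real.exp κ₀ * 9 < Q₀ ^ (y / r))
    (hβ : ∀ x, P.V x ≠ 0 → 0 < x ∧ x ≤ β) (hβ0 : 0 ≤ β) (hH : 0 < H) :
    ‖kSum P.n P.φ P.l₁ (P.wk τ H) (fun k => NSumS P.h₀ P.h r y Q₀ κ₀ Finset.univ P.n
      (twt P.ψ P.l₂ t₂) (twt P.φ P.l₁ t₁) P.V Q k)‖ ≤
      ∑ J' ∈ (Finset.univ : Finset (Fin r)).powerset, ∑ b ∈ Bf P.n (β * Q),
        ∑ I ∈ (Finset.univ : Finset J').powerset, ∑ x ∈ SS0 P r y Q₀ κ₀ J' b,
          ‖cf P r y Q₀ t₁ t₂ x.1.1 x.2 b x.1.2 I‖ *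
            ‖kSum P.n P.φ P.l₁ (P.wk τ H)
              (tr6 P r y Q₀ κ₀ Q t₁ t₂ J' x.1.1 x.2 b x.1.2 I)‖ := by
  obtain ⟨X, hX⟩ := wk_fin hP τ H hH
  have e0 : kSum P.n P.φ P.l₁ (P.wk τ H) (fun k => NSumS P.h₀ P.h r y Q₀ κ₀ Finset.univ P.n
      (twt P.ψ P.l₂ t₂) (twt P.φ P.l₁ t₁) P.V Q k) =
      ∑ d ∈ sqS P.n κ₀, ∑ J' ∈ (Finset.univ : Finset (Fin r)).powerset, ∑ p ∈ tup r y Q₀ J',
        ∑ b ∈ Bf P.n (β * Q), ∑ a ∈ dvs d, ∑ I ∈ (Finset.univ : Finset J').powerset,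
          if cnd P r y Q₀ d p b then
            cf P r y Q₀ t₁ t₂ d p b a I * kSum P.n P.φ P.l₁ (P.wk τ H)
              (tr6 P r y Q₀ κ₀ Q t₁ t₂ J' d p b a I) else 0 := by
    rw [kSum_eq hX]
    have e1 : ∀ k ∈ kF P.n P.φ P.l₁ X, P.wk τ H k *
        NSumS P.h₀ P.h r y Q₀ κ₀ Finset.univ P.n (twt P.ψ P.l₂ t₂) (twt P.φ P.l₁ t₁) P.V Q k =
        ∑ d ∈ sqS P.n κ₀, ∑ J' ∈ (Finset.univ : Finset (Fin r)).powerset, ∑ p ∈ tup r y Q₀ J',
        ∑ b ∈ Bf P.n (β * Q), ∑ a ∈ dvs d, ∑ I ∈ (Finset.univ : Finset J').powerset,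
          if cnd P r y Q₀ d p b then
            cf P r y Q₀ t₁ t₂ d p b a I * (P.wk τ H k *
              tr6 P r y Q₀ κ₀ Q t₁ t₂ J' d p b a I k) else 0 := by
      intro k hk
      have hk0 : k ≠ 0 := by
        unfold kF at hk
        exact (Finset.mem_filter.mp hk).2.1
      rw [pt_exp hP hr hy hQ₀ hκ₀ hQ hMQ hβ hβ0 hk0]
      simp only [Finset.mul_sum]
      refine Finset.sum_congr rfl fun d _ => Finset.sum_congr rfl fun J' _ =>
        Finset.sum_congr rfl fun p _ => Finset.sum_congr rfl fun b _ =>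
        Finset.sum_congr rfl fun a _ => Finset.sum_congr rfl fun I _ => ?_
      split_ifs <;> ring
    rw [Finset.sum_congr rfl e1, Finset.sum_comm]
    refine Finset.sum_congr rfl fun d _ => ?_
    rw [Finset.sum_comm]
    refine Finset.sum_congr rfl fun J' _ => ?_
    rw [Finset.sum_comm]
    refine Finset.sum_congr rfl fun p _ => ?_
    rw [Finset.sum_comm]
    refine Finset.sum_congr rfl fun b _ => ?_
    rw [Finset.sum_comm]
    refine Finset.sum_congr rfl fun a _ => ?_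
    rw [Finset.sum_comm]
    refine Finset.sum_congr rfl fun I _ => ?_
    split_ifs
    · rw [kSum_eq hX, Finset.mul_sum]
    · simp
  rw [e0]
  have hn : ∀ {ι : Type} (s : Finset ι) (f : ι → ℂ) (g : ι → ℝ), (∀ i ∈ s, ‖f i‖ ≤ g i) →
      ‖∑ i ∈ s, f i‖ ≤ ∑ i ∈ s, g i := fun s f g h =>
    (norm_sum_le _ _).trans (Finset.sum_le_sum h)
  have e2 : ‖∑ d ∈ sqS P.n κ₀, ∑ J' ∈ (Finset.univ : Finset (Fin r)).powerset,
      ∑ p ∈ tup r y Q₀ J',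
        ∑ b ∈ Bf P.n (β * Q), ∑ a ∈ dvs d, ∑ I ∈ (Finset.univ : Finset J').powerset,
          (if cnd P r y Q₀ d p b then
            cf P r y Q₀ t₁ t₂ d p b a I * kSum P.n P.φ P.l₁ (P.wk τ H)
              (tr6 P r y Q₀ κ₀ Q t₁ t₂ J' d p b a I) else 0)‖ ≤
      ∑ d ∈ sqS P.n κ₀, ∑ J' ∈ (Finset.univ : Finset (Fin r)).powerset,
      ∑ p ∈ tup r y Q₀ J',
        ∑ b ∈ Bf P.n (β * Q), ∑ a ∈ dvs d, ∑ I ∈ (Finset.univ : Finset J').powerset,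
          (if cnd P r y Q₀ d p b then
            ‖cf P r y Q₀ t₁ t₂ d p b a I‖ * ‖kSum P.n P.φ P.l₁ (P.wk τ H)
              (tr6 P r y Q₀ κ₀ Q t₁ t₂ J' d p b a I)‖ else 0) := by
    refine hn _ _ _ fun d _ => hn _ _ _ fun J' _ => hn _ _ _ fun p _ => hn _ _ _ fun b _ =>
      hn _ _ _ fun a _ => hn _ _ _ fun I _ => ?_
    split_ifs
    · rw [norm_mul]
    · simp
  refine e2.trans ?_
  rw [Finset.sum_comm]
  refine Finset.sum_le_sum fun J' _ => ?_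
  -- Σ_d Σ_p Σ_b Σ_a Σ_I → Σ_b Σ_I Σ_d Σ_p Σ_a
  have e3 : ∑ d ∈ sqS P.n κ₀, ∑ p ∈ tup r y Q₀ J',
        ∑ b ∈ Bf P.n (β * Q), ∑ a ∈ dvs d, ∑ I ∈ (Finset.univ : Finset J').powerset,
          (if cnd P r y Q₀ d p b then
            ‖cf P r y Q₀ t₁ t₂ d p b a I‖ * ‖kSum P.n P.φ P.l₁ (P.wk τ H)
              (tr6 P r y Q₀ κ₀ Q t₁ t₂ J' d p b a I)‖ else 0) =
      ∑ b ∈ Bf P.n (β * Q), ∑ I ∈ (Finset.univ : Finset J').powerset,
        ∑ d ∈ sqS P.n κ₀, ∑ p ∈ tup r y Q₀ J', ∑ a ∈ dvs d,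
          (if cnd P r y Q₀ d p b then
            ‖cf P r y Q₀ t₁ t₂ d p b a I‖ * ‖kSum P.n P.φ P.l₁ (P.wk τ H)
              (tr6 P r y Q₀ κ₀ Q t₁ t₂ J' d p b a I)‖ else 0) := by
    have s1 : ∀ d ∈ sqS P.n κ₀, ∑ p ∈ tup r y Q₀ J',
        ∑ b ∈ Bf P.n (β * Q), ∑ a ∈ dvs d, ∑ I ∈ (Finset.univ : Finset J').powerset,
          (if cnd P r y Q₀ d p b then
            ‖cf P r y Q₀ t₁ t₂ d p b a I‖ * ‖kSum P.n P.φ P.l₁ (P.wk τ H)
              (tr6 P r y Q₀ κ₀ Q t₁ t₂ J' d p b a I)‖ else 0) =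
        ∑ b ∈ Bf P.n (β * Q), ∑ I ∈ (Finset.univ : Finset J').powerset,
          ∑ p ∈ tup r y Q₀ J', ∑ a ∈ dvs d,
          (if cnd P r y Q₀ d p b then
            ‖cf P r y Q₀ t₁ t₂ d p b a I‖ * ‖kSum P.n P.φ P.l₁ (P.wk τ H)
              (tr6 P r y Q₀ κ₀ Q t₁ t₂ J' d p b a I)‖ else 0) := by
      intro d _
      rw [Finset.sum_comm]
      refine Finset.sum_congr rfl fun b _ => ?_
      rw [Finset.sum_congr rfl fun p _ => Finset.sum_comm, Finset.sum_comm]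
    rw [Finset.sum_congr rfl s1, Finset.sum_comm]
    refine Finset.sum_congr rfl fun b _ => ?_
    rw [Finset.sum_comm]
  rw [e3]
  refine Finset.sum_le_sum fun b _ => Finset.sum_le_sum fun I _ => ?_
  exact sum_dpa_le (g := fun d a p => ‖cf P r y Q₀ t₁ t₂ d p b a I‖ *
    ‖kSum P.n P.φ P.l₁ (P.wk τ H) (tr6 P r y Q₀ κ₀ Q t₁ t₂ J' d p b a I)‖)
    (fun _ _ _ => by positivity)

open Classical in
/-- the bound of one term -/
theorem tr6_le {P : DPar} (hP : P.OK) {r : ℕ} {y Q₀ κ₀ Q H t₁ t₂ τ : ℝ} (hH : 0 < H)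
    {J' : Finset (Fin r)} (I : Finset J') {b db eb : Eis} {E : Finset Eis} {kp : Eis → ℂ}
    (hb : Sm P.n b) (hdb : IsPrim db) (hdbb : db ∣ b)
    (h1 : ∀ k', k' ≠ 0 → tk (db ^ 3 * k') b 1 = sy k' eb * ∑ t ∈ E, kp t * prin0 t k')
    (h0 : ∀ k, k ≠ 0 → ¬ db ^ 3 ∣ k → tk k b 1 = 0) {x : Ix J'}
    (hx : x ∈ SS0 P r y Q₀ κ₀ J' b) :
    ‖kSum P.n P.φ P.l₁ (P.wk τ H) (tr6 P r y Q₀ κ₀ Q t₁ t₂ J' x.1.1 x.2 b x.1.2 I)‖ ≤
      ∑ t ∈ E, ‖kp t‖ * ‖dsx P r y Q₀ κ₀ Q H t₁ t₂ τ I b db eb t x‖ := by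
  unfold SS0 at hx
  rw [Finset.mem_filter, Finset.mem_product, Finset.mem_product] at hx
  obtain ⟨⟨⟨hd, ha⟩, hp⟩, had, hc1, hc2⟩ := hx
  have hap := (mem_primBall.mp ha).2
  have hdiv : x.1.2 * (x.1.1 / x.1.2) = x.1.1 :=
    EuclideanDomain.mul_div_cancel' hap.ne_zero had
  have hbd : IsCoprime b x.1.1 := hc1.of_mul_right_left
  have hbp : IsCoprime b (∏ i : J', x.2 i) := hc1.of_mul_right_right
  have hbpi : ∀ i : J', IsCoprime b (x.2 i) := fun i =>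
    hbp.of_isCoprime_of_dvd_right (Finset.dvd_prod_of_mem x.2 (Finset.mem_univ i))
  have hgb : IsCoprime (Dx I x) db := by
    unfold Dx
    apply IsCoprime.mul_left
    · exact ((hbd.of_isCoprime_of_dvd_right had).of_isCoprime_of_dvd_left hdbb).symm
    · apply IsCoprime.prod_left
      intro i _
      exact ((hbpi i).of_isCoprime_of_dvd_left hdbb).symm
  have hdn : IsCoprime db P.n := hb.cop.of_isCoprime_of_dvd_left hdbb
  have hga : ∀ q, IsCoprime q (Dx I x) → IsCoprime q x.1.2 ∧ ∀ i ∈ I, IsCoprime q (x.2 i) := by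
    intro q hq
    unfold Dx at hq
    refine ⟨hq.of_mul_right_left, fun i hi => ?_⟩
    exact hq.of_mul_right_right.of_isCoprime_of_dvd_right (Finset.dvd_prod_of_mem x.2 hi)
  refine kSum_trm hP hdb hdn hgb h1 h0 ?_ ?_ (wk_fin hP τ) hH
  · intro q _ hqg _
    obtain ⟨hqa, _⟩ := hga q hqg
    constructor
    · rintro ⟨h2, _⟩
      have h3 : IsCoprime q (x.1.2 * (x.1.1 / x.1.2)) := by rw [hdiv]; exact h2.of_mul_right_left
      exact h3.of_mul_right_right.mul_right h2.of_mul_right_right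
    · intro h2
      have hqb : IsCoprime q b := h2.of_mul_right_right
      refine ⟨IsCoprime.mul_right ?_ hqb, hqb.of_isCoprime_of_dvd_right hdbb⟩
      rw [← hdiv]
      exact hqa.mul_right h2.of_mul_right_left
  · intro q _ hqg _
    obtain ⟨hqa, hqi⟩ := hga q hqg
    constructor
    · rintro ⟨h2, _⟩
      have hqb : IsCoprime q b := h2.of_mul_right_left
      have hqd : IsCoprime q x.1.1 := h2.of_mul_right_right.of_mul_right_left
      have hqp : IsCoprime q (∏ i : J', x.2 i) := h2.of_mul_right_right.of_mul_right_right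
      have h3 : IsCoprime q (x.1.2 * (x.1.1 / x.1.2)) := by rw [hdiv]; exact hqd
      refine hqb.mul_right (h3.of_mul_right_right.mul_right ?_)
      apply IsCoprime.prod_right
      intro i _
      unfold qx
      split_ifs
      · exact isCoprime_one_right
      · exact hqp.of_isCoprime_of_dvd_right (Finset.dvd_prod_of_mem x.2 (Finset.mem_univ i))
    · intro h2
      have hqb : IsCoprime q b := h2.of_mul_right_left
      refine ⟨hqb.mul_right (IsCoprime.mul_right ?_ ?_), hqb.of_isCoprime_of_dvd_right hdbb⟩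
      · rw [← hdiv]
        exact hqa.mul_right h2.of_mul_right_right.of_mul_right_left
      · apply IsCoprime.prod_right
        intro i _
        by_cases hi : i ∈ I
        · exact hqi i hi
        · have h4 := h2.of_mul_right_right.of_mul_right_right.of_isCoprime_of_dvd_right
            (Finset.dvd_prod_of_mem (qx I x) (Finset.mem_univ i))
          unfold qx at h4
          rw [if_neg hi] at h4
          exact h4

open Classical in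
/-- **L3** : `PropL3` -/
theorem propL3 : PropL3 := by
  intro θ r y δ η hθ hθ1 hr hy hδ hyδ hδ1 h10 hη hηδ hD
  refine ⟨η, hη, ?_⟩
  intro P hP ε hε
  obtain ⟨β, hβ1, hβ⟩ := sw_bound hP.V
  obtain ⟨B₀, hB₀⟩ := hP.h.bounded
  obtain ⟨B, hBe⟩ : ∃ B : ℝ, B = max 1 B₀ := ⟨_, rfl⟩
  have hB1 : 1 ≤ B := by rw [hBe]; exact le_max_left _ _
  have hB : ∀ u, ‖P.h u‖ ≤ B := fun u => (hB₀ u).trans (by rw [hBe]; exact le_max_right _ _)
  obtain ⟨db, eb, Eb, kp, W, hW0, hW, hs1, hs2, hs3⟩ := TkPow848.tkPow3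
  obtain ⟨E, hE⟩ : ∃ E : ℝ, EE' r = E := ⟨_, rfl⟩
  have hE1 : 1 ≤ E := by rw [← hE]; exact one_le_EE' r
  obtain ⟨C₁, hC₁⟩ : ∃ C₁ : ℝ, C₁ = 2 * (3 * E) ^ r := ⟨_, rfl⟩
  have hC₁0 : 0 < C₁ := by rw [hC₁]; positivity
  have hε' : 0 < ε / 16 := by positivity
  obtain ⟨C, A, hC0, hA0, hDI⟩ := dout3_idx hθ1 hD hP hε' hC₁0
  obtain ⟨C₂, hC₂0, hC₂⟩ := keyN_bound (ε := ε / 2) (by positivity)
  -- the weights of `b`
  obtain ⟨w, hwe⟩ : ∃ w : Eis → ℝ, w = fun b => if Sm 2 b ∧ Pf b then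
    W b * wb θ (nm b) (nm (db b)) else 0 := ⟨_, rfl⟩
  have hw0 : ∀ b, 0 ≤ w b := by
    intro b
    have := hW0 b
    rw [hwe]
    dsimp only
    split_ifs
    · unfold wb; positivity
    · exact le_rfl
  have hws : Summable w := by
    have h := (hs1.add hs2).add (hs3 θ hθ)
    refine h.congr fun b => ?_
    rw [hwe]
    dsimp only
    split_ifs
    · unfold wb; ring
    · ring
  have hWs0 : 0 ≤ ∑' b, w b := tsum_nonneg hw0
  have hBE1 : 1 ≤ 54 * (B * E) := by nlinarith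
  have hKE : 0 ≤ (9 * β ^ 4 * E ^ r) ^ (ε / 16) := by positivity
  refine ⟨2 ^ r * (2 ^ r * (C * (9 * β ^ 4 * E ^ r) ^ (ε / 16) *
    (2 * (54 * (B * E)) ^ r * C₂) * ∑' b, w b)), A, by positivity, hA0, ?_⟩
  intro Q₀ Q hQ1 hQQ₀ hMQ H hH hHle t₁ t₂ τ
  have hQ : 0 < Q := by linarith
  have hQ₀1 : 1 ≤ Q₀ := hQ1.trans hQQ₀
  have hQ₀0 : 0 < Q₀ := by linarith
  have hn1 := one_le_nmR hP.φ.q0
  have hδ1' : δ ≤ 1 := by linarith
  have hy1 : y ≤ 1 := by linarith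
  have hQδ : 1 ≤ Q₀ ^ δ := Real.one_le_rpow hQ₀1 hδ.le
  have hQ₀2 : 2 ≤ Q₀ := by
    by_contra hlt
    push Not at hlt
    have hr1 : (1 : ℝ) ≤ r := by exact_mod_cast hr
    have h1 : y / r ≤ 1 := by
      rw [div_le_one (by linarith)]; linarith
    have h2 : Q₀ ^ (y / r) ≤ Q₀ := by
      calc Q₀ ^ (y / r) ≤ Q₀ ^ (1 : ℝ) := Real.rpow_le_rpow_of_exponent_le hQ₀1 h1
        _ = Q₀ := Real.rpow_one _
    nlinarith
  obtain ⟨κ₀, hκ₀⟩ : ∃ κ₀ : ℝ, κ₀ = δ * Real.log Q₀ := ⟨_, rfl⟩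
  have hκ₀0 : 0 ≤ κ₀ := by
    rw [hκ₀]; exact mul_nonneg hδ.le (Real.log_nonneg hQ₀1)
  have hexpκ : Real.exp κ₀ = Q₀ ^ δ := by
    rw [hκ₀, Real.rpow_def_of_pos hQ₀0, mul_comm]
  obtain ⟨Pp, hPp⟩ : ∃ Pp : ℝ, Q₀ ^ (y / r) = Pp := ⟨_, rfl⟩
  have hMQ' : (nm P.n : ℝ) * Real.exp κ₀ * 9 < Q₀ ^ (y / r) := by rw [hexpκ]; exact hMQ
  have hMQp : (nm P.n : ℝ) * Real.exp κ₀ * 9 < Pp := by rw [← hPp]; exact hMQ'
  have hT0 : 0 ≤ (1 + |t₁| + |t₂| + |τ|) ^ A := by positivity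
  have hTg0 : 0 ≤ TgB θ η η (y + δ) Q₀ Q H (Q₀ ^ (y + δ)) :=
    TgB_nonneg hQ₀0.le hQ.le hH.le (by positivity)
  -- the sum over `a'`, `n`
  obtain ⟨N, hN⟩ : ∃ N : ℝ, N = (∑ a ∈ primBall ⌊Real.exp (κ₀ + 1)⌋₊, (nm a : ℝ)⁻¹) *
            (Nat.log 2 ⌊Real.exp (κ₀ + 1)⌋₊ + 1) := ⟨_, rfl⟩
  have hNle : N ≤ C₂ * Q₀ ^ (ε / 2) := by
    rw [hN]
    apply hC₂ Q₀ hQ₀1
    refine (Nat.floor_le (Real.exp_pos _).le).trans ?_
    have h3 := exp_one_lt_three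
    have h4 : Real.exp κ₀ ≤ Q₀ := by
      rw [hexpκ]
      calc Q₀ ^ δ ≤ Q₀ ^ (1 : ℝ) := Real.rpow_le_rpow_of_exponent_le hQ₀1 hδ1'
        _ = Q₀ := Real.rpow_one _
    have h5 : 0 < Real.exp 1 := Real.exp_pos _
    rw [Real.exp_add]
    calc Real.exp κ₀ * Real.exp 1 ≤ Q₀ * 3 := mul_le_mul h4 h3.le h5.le hQ₀0.le
      _ = _ := by ring
  have hN0 : 0 ≤ N := by
    rw [hN]
    exact mul_nonneg (Finset.sum_nonneg fun _ _ => by positivity) (by positivity)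
  obtain ⟨K₀, hK₀⟩ : ∃ K₀ : ℝ, K₀ = C * ((9 * β ^ 4 * E ^ r) * Q₀ ^ 8) ^ (ε / 16) *
      (1 + |t₁| + |t₂| + |τ|) ^ A := ⟨_, rfl⟩
  have hK₀0 : 0 ≤ K₀ := by rw [hK₀]; positivity
  -- the bound for one `b`
  have hone : ∀ J' ∈ (Finset.univ : Finset (Fin r)).powerset, ∀ b ∈ Bf P.n (β * Q),
      ∀ I ∈ (Finset.univ : Finset J').powerset,
      ∑ x ∈ SS0 P r y Q₀ κ₀ J' b, ‖cf P r y Q₀ t₁ t₂ x.1.1 x.2 b x.1.2 I‖ *
            ‖kSum P.n P.φ P.l₁ (P.wk τ H)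
              (tr6 P r y Q₀ κ₀ Q t₁ t₂ J' x.1.1 x.2 b x.1.2 I)‖ ≤
      (K₀ * (2 * (54 * (B * E)) ^ r * N) * TgB θ η η (y + δ) Q₀ Q H (Q₀ ^ (y + δ))) * w b := by
    intro J' _ b hbB I _
    rw [mem_Bf (by positivity)] at hbB
    obtain ⟨⟨hb1, hb2⟩, hb3, hb4⟩ := hbB
    have h2n : (2 : Eis) ∣ P.n := (Dvd.intro 18 (by norm_num)).trans hP.n36
    have hbS : Sm 2 b := hb3.mono h2n
    obtain ⟨w1, w2, w3, w4, w5, w6, w7, w8, w9⟩ := hW b hbS hb4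
    have hbQ : (nm b : ℝ) ≤ β * Q₀ := hb1.trans (by gcongr)
    have hmr : J'.card ≤ r := by
      calc J'.card ≤ (Finset.univ : Finset (Fin r)).card := Finset.card_le_univ _
        _ = r := by simp
    calc _ ≤ ∑ x ∈ SS0 P r y Q₀ κ₀ J' b, ‖cf P r y Q₀ t₁ t₂ x.1.1 x.2 b x.1.2 I‖ *
          ∑ t ∈ Eb b, ‖kp b t‖ * ‖dsx P r y Q₀ κ₀ Q H t₁ t₂ τ I b (db b) (eb b) t x‖ :=
          Finset.sum_le_sum fun x hx => mul_le_mul_of_nonneg_left
            (tr6_le hP hH I hb3 w1 w3 w7 w8 hx) (norm_nonneg _)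
      _ = ∑ t ∈ Eb b, ‖kp b t‖ * ∑ x ∈ SS0 P r y Q₀ κ₀ J' b,
          ‖cf P r y Q₀ t₁ t₂ x.1.1 x.2 b x.1.2 I‖ *
            ‖dsx P r y Q₀ κ₀ Q H t₁ t₂ τ I b (db b) (eb b) t x‖ := by
          simp only [Finset.mul_sum]
          rw [Finset.sum_comm]
          refine Finset.sum_congr rfl fun t _ => Finset.sum_congr rfl fun x _ => ?_
          ring
      _ ≤ ∑ t ∈ Eb b, ‖kp b t‖ * (K₀ * (2 * (54 * (B * E)) ^ J'.card * N) *
          wb θ (nm b) (nm (db b)) * TgB θ η η (y + δ) Q₀ Q H (Q₀ ^ (y + δ))) := by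
          refine Finset.sum_le_sum fun t ht => mul_le_mul_of_nonneg_left ?_ (norm_nonneg _)
          rw [hK₀, hN]
          exact sum_SS0 hP hθ hθ1 hr hy1 hδ hδ1' hη hηδ hε'.le hC0 hE hC₁ hDI hB hB1 hβ1 hQ₀2 hQ
            hQQ₀ hκ₀ hPp hMQp hH hHle t₁ t₂ τ I hb3 hbQ w1 w2 w4 w5 (w6 t ht).1 (w6 t ht).2
      _ = (∑ t ∈ Eb b, ‖kp b t‖) * (K₀ * (2 * (54 * (B * E)) ^ J'.card * N) *
          wb θ (nm b) (nm (db b)) * TgB θ η η (y + δ) Q₀ Q H (Q₀ ^ (y + δ))) := by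
          rw [Finset.sum_mul]
      _ ≤ W b * (K₀ * (2 * (54 * (B * E)) ^ r * N) *
          wb θ (nm b) (nm (db b)) * TgB θ η η (y + δ) Q₀ Q H (Q₀ ^ (y + δ))) := by
          have hwb0 : 0 ≤ wb θ (nm b) (nm (db b)) := by unfold wb; positivity
          have hpow : (54 * (B * E)) ^ J'.card ≤ (54 * (B * E)) ^ r :=
            pow_le_pow_right₀ hBE1 hmr
          have hq0 : 0 ≤ (54 * (B * E)) ^ J'.card := by positivity
          apply mul_le_mul w9 _ _ (hW0 b)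
          · apply mul_le_mul_of_nonneg_right _ hTg0
            apply mul_le_mul_of_nonneg_right _ hwb0
            apply mul_le_mul_of_nonneg_left _ hK₀0
            apply mul_le_mul_of_nonneg_right _ hN0
            linarith
          · positivity
      _ = _ := by
          rw [hwe]
          dsimp only
          rw [if_pos ⟨hbS, hb4⟩]; ring
  -- assembly
  have hmain := norm_kSum_le (β := β) (H := H) (τ := τ) (t₁ := t₁) (t₂ := t₂) hP hr hy hQ₀1 hκ₀0 hQ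
    hMQ' hβ (by linarith) hH
  rw [hκ₀] at hmain
  have hLHS : ‖∑' k : Eis, (if k ≠ 0 ∧ NPk P.n P.φ P.l₁ k then
        P.wk τ H k * NSumS P.h₀ P.h r y Q₀ (δ * Real.log Q₀) Finset.univ P.n
          (twt P.ψ P.l₂ t₂) (twt P.φ P.l₁ t₁) P.V Q k else 0)‖ ≤
      ∑ J' ∈ (Finset.univ : Finset (Fin r)).powerset, ∑ b ∈ Bf P.n (β * Q),
        ∑ I ∈ (Finset.univ : Finset J').powerset,
        (K₀ * (2 * (54 * (B * E)) ^ r * N) * TgB θ η η (y + δ) Q₀ Q H (Q₀ ^ (y + δ))) * w b := by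
    refine le_trans (le_of_eq rfl) (hmain.trans ?_)
    refine Finset.sum_le_sum fun J' hJ' => Finset.sum_le_sum fun b hb =>
      Finset.sum_le_sum fun I hI => ?_
    rw [← hκ₀]
    exact hone J' hJ' b hb I hI
  refine hLHS.trans ?_
  obtain ⟨Tg, hTg⟩ : ∃ Tg, Tg = TgB θ η η (y + δ) Q₀ Q H (Q₀ ^ (y + δ)) := ⟨_, rfl⟩
  rw [← hTg]
  rw [← hTg] at hTg0
  have hX0 : 0 ≤ K₀ * (2 * (54 * (B * E)) ^ r * N) * Tg := by positivity
  have hcard : ∀ J' : Finset (Fin r), (((Finset.univ : Finset J').powerset.card : ℕ) : ℝ) ≤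
      2 ^ r := by
    intro J'
    rw [Finset.card_powerset, Finset.card_univ, Fintype.card_coe]
    push_cast
    apply pow_le_pow_right₀ (by norm_num)
    calc J'.card ≤ (Finset.univ : Finset (Fin r)).card := Finset.card_le_univ _
      _ = r := by simp
  have hb2 : ∀ J' ∈ (Finset.univ : Finset (Fin r)).powerset, ∑ b ∈ Bf P.n (β * Q),
        ∑ _I ∈ (Finset.univ : Finset J').powerset,
        (K₀ * (2 * (54 * (B * E)) ^ r * N) * Tg) * w b ≤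
      2 ^ r * ((K₀ * (2 * (54 * (B * E)) ^ r * N) * Tg) * ∑' b, w b) := by
    intro J' _
    calc _ = ((Finset.univ : Finset J').powerset.card : ℝ) *
          ((K₀ * (2 * (54 * (B * E)) ^ r * N) * Tg) * ∑ b ∈ Bf P.n (β * Q), w b) := by
          rw [Finset.mul_sum, Finset.mul_sum]
          refine Finset.sum_congr rfl fun b _ => ?_
          rw [Finset.sum_const, nsmul_eq_mul]
      _ ≤ 2 ^ r * ((K₀ * (2 * (54 * (B * E)) ^ r * N) * Tg) * ∑' b, w b) := by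
          have h1 : ∑ b ∈ Bf P.n (β * Q), w b ≤ ∑' b, w b := hws.sum_le_tsum _ fun b _ => hw0 b
          have h2 : 0 ≤ ∑ b ∈ Bf P.n (β * Q), w b := Finset.sum_nonneg fun b _ => hw0 b
          exact mul_le_mul (hcard J') (mul_le_mul_of_nonneg_left h1 hX0) (mul_nonneg hX0 h2)
            (by positivity)
  refine (Finset.sum_le_sum hb2).trans ?_
  rw [Finset.sum_const, nsmul_eq_mul]
  have hcr : (((Finset.univ : Finset (Fin r)).powerset.card : ℕ) : ℝ) = 2 ^ r := by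
    rw [Finset.card_powerset]; simp
  rw [hcr]
  have hKeq : K₀ = C * (9 * β ^ 4 * E ^ r) ^ (ε / 16) * Q₀ ^ (ε / 2) *
      (1 + |t₁| + |t₂| + |τ|) ^ A := by
    rw [hK₀, Real.mul_rpow (by positivity) (by positivity), ← Real.rpow_natCast_mul hQ₀0.le]
    have : ((8 : ℕ) : ℝ) * (ε / 16) = ε / 2 := by push_cast; ring
    rw [this]; ring
  have hfin : K₀ * (2 * (54 * (B * E)) ^ r * N) ≤
      (C * (9 * β ^ 4 * E ^ r) ^ (ε / 16) * (2 * (54 * (B * E)) ^ r * C₂)) * Q₀ ^ ε *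
        (1 + |t₁| + |t₂| + |τ|) ^ A := by
    have h1 : K₀ * (2 * (54 * (B * E)) ^ r * N) ≤
        K₀ * (2 * (54 * (B * E)) ^ r * (C₂ * Q₀ ^ (ε / 2))) := by gcongr
    refine h1.trans (le_of_eq ?_)
    rw [hKeq]
    have h2 : Q₀ ^ ε = Q₀ ^ (ε / 2) * Q₀ ^ (ε / 2) := by
      rw [← Real.rpow_add hQ₀0]; ring_nf
    rw [h2]; ring
  calc (2 : ℝ) ^ r * (2 ^ r * ((K₀ * (2 * (54 * (B * E)) ^ r * N) * Tg) * ∑' b, w b))
      ≤ 2 ^ r * (2 ^ r * (((C * (9 * β ^ 4 * E ^ r) ^ (ε / 16) *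
        (2 * (54 * (B * E)) ^ r * C₂)) * Q₀ ^ ε *
        (1 + |t₁| + |t₂| + |τ|) ^ A * Tg) * ∑' b, w b)) := by gcongr
    _ = _ := by ring

end Crest.Agent.R017.Asm986
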