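/-
helper770.  Row 17, section B: **StepB3 is a theorem** (all leaves plugged in).
L3 : 986, L5' : 868 / 401 / 770, L6' : 106, L7' : 47, NPL : 699, assembly : Master3_699.
-/
import Crest.Agent.R017.Master3_699
import Crest.Agent.R017.L5Fin_770
import Crest.Agent.R017.L5One_401
import Crest.Agent.R017.L6e_106
import Crest.Agent.R017.L7K_47
import Crest.Agent.R017.NPLd_699
import Crest.Agent.R017.NV7_986

namespace Crest.Agent.R017.BAll770

open Crest.Agent.R017.B770 Crest.Agent.R017.BEnd770

/-- **L5'** -/
theorem leafL5 : Master3.LeafL5 := L5Fin770.partL5_of L5One401.oneE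

/-- **SECTION B** -/
theorem stepB3 : StepB3 :=
  Master3.stepB3 L6106.propL6' Asm986.propL3 L747.leafL7 leafL5 NPL699.leafNPL

/-- row 17 from sections A and C/D only -/
theorem s23_AD (hA : Master3.SecA) (hD : Master3.SecD3) : End699.S23 :=
  Master3.s23_of hA stepB3 hD

theorem s22_AD (hA : Master3.SecA) (hD : Master3.SecD3) : End699.S22 :=
  Master3.s22_of hA stepB3 hD

end Crest.Agent.R017.BAll770
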