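import Crest.Agent.R017.E1a_551
import Crest.Agent.R012.Quot_666

/-!
# Row 17, block C70, leaf E3 (BD) part 1 (helper829): twisted pair formula

`LC M ψ` : a character of `λ`-power conductor on the primary elements.
`dual3T`, `pairT` : Poisson summation for `ψ(k) (k/n₁) conj (k/n₂)` over the primary `k`.
-/

set_option autoImplicit false

noncomputable section

open Complex
open scoped ComplexConjugate

namespace Crest.Agent.R017.BD829

open Crest.Agent.R012 Crest.Agent.R012.Eis Crest.Agent.R012.Tau671 Crest.Agent.R012.MC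
open Crest.Agent.R012.Mob705 (mu pdiv mem_pdiv sum_mu_coprime)
open Crest.Agent.R017.E1551 (Vp Vp_mul norm_toC_sq3 nmpos)
open Gauss880 (syG)
open Po581 (fC)

/-- a multiplicative function of modulus one on the primary elements, of `λ`-power conductor -/
structure LC (M : Eis) (ψ : Eis → ℂ) : Prop where
  ne : M ≠ 0
  three : (3 : Eis) ∣ M
  cop : ∀ c, IsPrim c → IsCoprime M c
  mul : ∀ a b, IsPrim a → IsPrim b → ψ (a * b) = ψ a * ψ b
  norm : ∀ a, IsPrim a → ‖ψ a‖ = 1
  per : ∀ a b, IsPrim a → IsPrim b → M ∣ a - b → ψ a = ψ b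

open Classical in
/-- the local sum of the twist -/
def tw (M : Eis) (ψ : Eis → ℂ) (h : Eis) : ℂ :=
  sumMod M (fun x => (if IsPrim x then ψ x else 0) *
    eC (toC h * toC x / (toC sq3 * toC M)))

lemma isPrim_add_iff {M x t : Eis} (h3 : (3 : Eis) ∣ M) : IsPrim (x + M * t) ↔ IsPrim x := by
  unfold IsPrim
  obtain ⟨s, hs⟩ := h3
  have e : x + M * t - 1 = (x - 1) + 3 * (s * t) := by rw [hs]; ring
  rw [e]
  exact ⟨fun h => (dvd_add_left (dvd_mul_right _ _)).mp h,
    fun h => dvd_add h (dvd_mul_right _ _)⟩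

open Classical in
lemma LC.pmod {M : Eis} {ψ : Eis → ℂ} (h : LC M ψ) :
    PMod M (fun x => if IsPrim x then ψ x else 0) := by
  intro x t
  by_cases hx : IsPrim x
  · have hx' := (isPrim_add_iff (t := t) h.three).mpr hx
    beta_reduce
    rw [if_pos hx, if_pos hx']
    exact h.per _ _ hx' hx ⟨t, by ring⟩
  · have hx' : ¬ IsPrim (x + M * t) := fun h' => hx ((isPrim_add_iff h.three).mp h')
    beta_reduce
    rw [if_neg hx, if_neg hx']

open Classical in
lemma norm_tw_le {M : Eis} {ψ : Eis → ℂ} (h : LC M ψ) (k : Eis) : ‖tw M ψ k‖ ≤ nm M := by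
  have := norm_sumMod_le (B := 1) h.ne
    (f := fun x => (if IsPrim x then ψ x else 0) * eC (toC k * toC x / (toC sq3 * toC M)))
    (fun x => by
      rw [norm_mul, norm_eC, mul_one]
      split_ifs with hx
      · rw [h.norm x hx]
      · rw [norm_zero]; norm_num)
  rwa [mul_one] at this

open Classical in
/-- the local sum of a nontrivial twist vanishes at the frequency `0` -/
lemma tw_zero {M : Eis} {ψ : Eis → ℂ} (h : LC M ψ) {a : Eis} (ha : IsPrim a) (hψ : ψ a ≠ 1) :
    tw M ψ 0 = 0 := by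
  have e0 : tw M ψ 0 = sumMod M (fun x => if IsPrim x then ψ x else 0) := by
    unfold tw
    refine sumMod_congr fun x => ?_
    rw [map_zero, zero_mul, zero_div, eC_zero, mul_one]
  have hc : IsCoprime a M := (h.cop a ha).symm
  have e1 := sumMod_mul_coprime h.ne h.pmod hc
  have e2 : sumMod M (fun x => if IsPrim (a * x) then ψ (a * x) else 0) =
      ψ a * sumMod M (fun x => if IsPrim x then ψ x else 0) := by
    rw [← sumMod_mul_left h.ne]
    refine sumMod_congr fun x => ?_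
    by_cases hx : IsPrim x
    · rw [if_pos hx, if_pos (ha.mul hx), h.mul _ _ ha hx]
    · rw [if_neg hx, if_neg (fun h' => hx ((isPrim_mul_iff ha).mp h')), mul_zero]
  rw [e0]
  beta_reduce at e1
  rw [e2] at e1
  have e3 : (ψ a - 1) * sumMod M (fun x => if IsPrim x then ψ x else 0) = 0 := by
    rw [sub_mul, one_mul, e1, sub_self]
  exact (mul_eq_zero.mp e3).resolve_left (sub_ne_zero.mpr hψ)

open Classical in
lemma sumMod_tw {M : Eis} {ψ : Eis → ℂ} (h : LC M ψ) {c : Eis} (hc : IsPrim c) {f : Eis → ℂ}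
    (hf : PMod c f) (k : Eis) :
    sumMod (M * c) (fun a => (if IsPrim a then ψ a * f a else 0) *
      eC (toC k * toC a / (toC sq3 * toC (M * c)))) =
      ψ c * tw M ψ k * sumMod c (fun a => f (M * sq3 * a) * eC (toC k * toC a / toC c)) := by
  have h0 := hc.ne_zero
  have h3 := toC_ne_zero sq3_ne_zero
  have h4 := toC_ne_zero h0
  have h5 := toC_ne_zero h.ne
  have hF : PMod (M * c) (fun a => (if IsPrim a then ψ a * f a else 0) *
      eC (toC k * toC a / (toC sq3 * toC (M * c)))) := by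
    refine PMod.mul ?_ (pmod_eC_sq3 k (M * c) (mul_ne_zero h.ne h0))
    have : (fun a => if IsPrim a then ψ a * f a else 0) =
        fun a => (if IsPrim a then ψ a else 0) * f a := by
      funext a; split_ifs <;> simp
    rw [this]
    exact (h.pmod.mono (dvd_mul_right _ _)).mul (hf.mono (dvd_mul_left _ _))
  have key : ∀ x y : Eis, (if IsPrim (c * x + M * y) then ψ (c * x + M * y) * f (c * x + M * y)
      else 0) * eC (toC k * toC (c * x + M * y) / (toC sq3 * toC (M * c))) =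
      (ψ c * ((if IsPrim x then ψ x else 0) * eC (toC k * toC x / (toC sq3 * toC M)))) *
        (f (M * y) * eC (toC k * toC y / (toC sq3 * toC c))) := by
    intro x y
    have hp : IsPrim (c * x + M * y) ↔ IsPrim x := by
      rw [isPrim_add_iff h.three]; exact isPrim_mul_iff hc
    have e1 : f (c * x + M * y) = f (M * y) := by rw [add_comm]; exact hf _ _
    have e3 : toC k * toC (c * x + M * y) / (toC sq3 * toC (M * c)) =
        toC k * toC x / (toC sq3 * toC M) + toC k * toC y / (toC sq3 * toC c) := by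
      rw [map_add, map_mul, map_mul, map_mul]; field_simp
    rw [e3, eC_add]
    by_cases hx : IsPrim x
    · have e4 : ψ (c * x + M * y) = ψ c * ψ x := by
        rw [← h.mul _ _ hc hx]
        exact h.per _ _ (hp.mpr hx) (hc.mul hx) ⟨y, by ring⟩
      rw [if_pos (hp.mpr hx), if_pos hx, e1, e4]; ring
    · rw [if_neg (fun h' => hx (hp.mp h')), if_neg hx]; ring
  rw [sumMod_crt_mul h.ne h0 _ (h.cop c hc) hF key]
  congr 1
  · unfold tw
    rw [sumMod_mul_left h.ne]
  · have hf3 : PMod c (fun y => f (M * y)) := hf.comp_mul M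
    rw [sumMod_sq3 hc hf3]
    exact sumMod_congr fun a => by rw [mul_assoc]

open Classical in
/-- **Two characters and a twist, primary elements.** -/
theorem dual2T {f : ℂ → ℂ} (hf : PF f) {M : Eis} {ψ : Eis → ℂ} (hψ : LC M ψ) {k1 k2 : Eis}
    (h1 : IsPrim k1) (h2 : IsPrim k2) (hcop : IsCoprime k1 k2) :
    ∑' a : Eis, (if IsPrim a then ψ a * (sy a k1 * conj (sy a k2)) else 0) * f (toC a) =
      ((2 / (Real.sqrt 3 * nm M * (nm k1 * nm k2)) : ℝ) : ℂ) * (ψ k1 * ψ k2) *
        (sy (M * sq3) k1 * conj (sy (M * sq3) k2)) *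
        ∑' h : Eis, tw M ψ h * (gs h k1 * conj (gs h k2)) *
          fC f (toC h / (toC sq3 * toC M * (toC k1 * toC k2))) := by
  have hc := h1.mul h2
  have hχ := pmod_pair h1 h2
  have hF : PMod (M * (k1 * k2)) (fun a => (if IsPrim a then ψ a * (sy a k1 * conj (sy a k2))
      else 0)) := by
    have : (fun a => if IsPrim a then ψ a * (sy a k1 * conj (sy a k2)) else 0) =
        fun a => (if IsPrim a then ψ a else 0) * (sy a k1 * conj (sy a k2)) := by
      funext a; split_ifs <;> simp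
    rw [this]
    exact (hψ.pmod.mono (dvd_mul_right _ _)).mul (hχ.mono (dvd_mul_left _ _))
  rw [poisson_pf hf (mul_ne_zero hψ.ne hc.ne_zero) hF]
  have e0 : ∀ h : Eis, sumMod (M * (k1 * k2)) (fun a => (if IsPrim a then
      ψ a * (sy a k1 * conj (sy a k2)) else 0) *
        eC (toC h * toC a / (toC sq3 * toC (M * (k1 * k2))))) *
      fC f (toC h / (toC sq3 * toC (M * (k1 * k2)))) =
      (ψ k1 * ψ k2) * (sy (M * sq3) k1 * conj (sy (M * sq3) k2)) *
        (tw M ψ h * (gs h k1 * conj (gs h k2)) *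
          fC f (toC h / (toC sq3 * toC M * (toC k1 * toC k2)))) := by
    intro h
    have e := sumMod_tw hψ hc hχ h
    rw [e, hψ.mul _ _ h1 h2]
    have e2 : sumMod (k1 * k2) (fun a => sy (M * sq3 * a) k1 * conj (sy (M * sq3 * a) k2) *
        eC (toC h * toC a / toC (k1 * k2))) =
        (sy (M * sq3) k1 * conj (sy (M * sq3) k2)) * (gs h k1 * conj (gs h k2)) := by
      rw [← tau2 h1 h2 hcop h, ← sumMod_mul_left hc.ne_zero]
      refine sumMod_congr fun a => ?_
      rw [syG.mul_left _ _ _ h1, syG.mul_left _ _ _ h2, map_mul, map_mul]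
      ring
    rw [e2]
    have e3 : (toC sq3 * toC (M * (k1 * k2)) : ℂ) = toC sq3 * toC M * (toC k1 * toC k2) := by
      rw [map_mul, map_mul]; ring
    rw [e3]
    ring
  rw [tsum_congr e0, tsum_mul_left]
  have e4 : ((2 / (Real.sqrt 3 * (nm (M * (k1 * k2)) : ℕ)) : ℝ) : ℂ) =
      ((2 / (Real.sqrt 3 * nm M * (nm k1 * nm k2)) : ℝ) : ℂ) := by
    rw [nm_mul, nm_mul]; push_cast; ring
  rw [e4]
  ring

open Classical in
/-- **Two characters, a twist and a coprimality condition.** -/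
theorem dual3T {f : ℂ → ℂ} (hf : PF f) {M : Eis} {ψ : Eis → ℂ} (hψ : LC M ψ) {e k1 k2 : Eis}
    (he : e ≠ 0) (h1 : IsPrim k1) (h2 : IsPrim k2) (hcop : IsCoprime k1 k2) :
    ∑' a : Eis, (if IsPrim a ∧ IsCoprime a e then ψ a * (sy a k1 * conj (sy a k2)) else 0) *
        f (toC a) =
      ((2 / (Real.sqrt 3 * nm M * (nm k1 * nm k2)) : ℝ) : ℂ) * (ψ k1 * ψ k2) *
        (sy (M * sq3) k1 * conj (sy (M * sq3) k2)) *
        ∑ d ∈ pdiv e, (mu d : ℂ) * (nm d : ℂ)⁻¹ * ψ d * (sy d k1 * conj (sy d k2)) *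
          ∑' h : Eis, tw M ψ h * (gs h k1 * conj (gs h k2)) *
            fC f (toC h / (toC sq3 * toC M * (toC k1 * toC k2) * toC d)) := by
  have hbd : ∀ a : Eis, IsPrim a → ‖ψ a * (sy a k1 * conj (sy a k2))‖ ≤ 1 := fun a ha => by
    rw [norm_mul, hψ.norm a ha, one_mul, norm_mul, RCLike.norm_conj]
    exact mul_le_one₀ (norm_sy_le h1) (norm_nonneg _) (norm_sy_le h2)
  have e1 : ∀ a : Eis, (if IsPrim a ∧ IsCoprime a e then ψ a * (sy a k1 * conj (sy a k2))
      else 0) * f (toC a) = ∑ d ∈ pdiv e, (mu d : ℂ) *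
        (if IsPrim a ∧ d ∣ a then ψ a * (sy a k1 * conj (sy a k2)) * f (toC a) else 0) := by
    intro a
    by_cases ha : IsPrim a
    · have h := sum_mu_coprime ha he
      have h' : ∑ d ∈ pdiv e, ((mu d : ℤ) : ℂ) * (if d ∣ a then (1 : ℂ) else 0) =
          if IsCoprime a e then (1 : ℂ) else 0 := by
        have h3 := congrArg (fun z : ℤ => (z : ℂ)) h
        beta_reduce at h3
        push_cast at h3
        rw [← h3]
        exact Finset.sum_congr rfl fun d _ => by split_ifs <;> simp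
      have h4 : ∀ d : Eis, (if IsPrim a ∧ d ∣ a then
          ψ a * (sy a k1 * conj (sy a k2)) * f (toC a) else 0) =
          (if d ∣ a then (1 : ℂ) else 0) * (ψ a * (sy a k1 * conj (sy a k2)) * f (toC a)) := by
        intro d
        by_cases hda : d ∣ a
        · rw [if_pos ⟨ha, hda⟩, if_pos hda, one_mul]
        · rw [if_neg (fun h => hda h.2), if_neg hda, zero_mul]
      simp_rw [h4, ← mul_assoc]
      rw [← Finset.sum_mul, ← Finset.sum_mul, ← Finset.sum_mul, ← Finset.sum_mul, h']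
      by_cases hc : IsCoprime a e
      · rw [if_pos ⟨ha, hc⟩, if_pos hc, one_mul]
      · rw [if_neg (fun h => hc h.2), if_neg hc]; ring
    · rw [if_neg (fun h => ha h.1), zero_mul]
      symm
      apply Finset.sum_eq_zero
      intro d _
      rw [if_neg (fun h => ha h.1), mul_zero]
  simp_rw [e1]
  rw [Summable.tsum_finsetSum, Finset.mul_sum]
  · refine Finset.sum_congr rfl fun d hd => ?_
    have hdp : IsPrim d := ((mem_pdiv he).mp hd).1
    have hd0 := toC_ne_zero hdp.ne_zero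
    rw [tsum_mul_left, tsum_prim_dvd hdp]
    have e2 : ∀ a : Eis, (if IsPrim a then ψ (d * a) * (sy (d * a) k1 * conj (sy (d * a) k2)) *
        f (toC (d * a)) else 0) = (ψ d * (sy d k1 * conj (sy d k2))) *
          ((if IsPrim a then ψ a * (sy a k1 * conj (sy a k2)) else 0) *
            (fun z => f (toC d * z)) (toC a)) := by
      intro a
      by_cases ha : IsPrim a
      · rw [if_pos ha, if_pos ha, syG.mul_left _ _ _ h1, syG.mul_left _ _ _ h2, map_mul, map_mul,
          hψ.mul _ _ hdp ha]; ring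
      · rw [if_neg ha, if_neg ha]; ring
    simp_rw [e2]
    rw [tsum_mul_left, dual2T (hf.dilate hd0) hψ h1 h2 hcop]
    have e3 : ∀ h : Eis, tw M ψ h * (gs h k1 * conj (gs h k2)) *
        fC (fun z => f (toC d * z)) (toC h / (toC sq3 * toC M * (toC k1 * toC k2))) =
        (nm d : ℂ)⁻¹ * (tw M ψ h * (gs h k1 * conj (gs h k2)) *
          fC f (toC h / (toC sq3 * toC M * (toC k1 * toC k2) * toC d))) := by
      intro h
      rw [fC_dilate f hd0, div_div, norm_toC_sq]
      push_cast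
      ring
    simp_rw [e3]
    rw [tsum_mul_left]
    ring
  · intro d hd
    refine Summable.mul_left _ ?_
    refine Summable.of_norm_bounded (summable_pf_one hf).norm (fun a => ?_)
    split_ifs with ha
    · rw [norm_mul]
      exact mul_le_of_le_one_left (norm_nonneg _) (hbd a ha.1)
    · rw [norm_zero]; exact norm_nonneg _

/-- the argument of the transformed weight -/
def argM (M : Eis) (K : ℝ) (h q : Eis) : ℝ :=
  Real.sqrt K * ‖toC h‖ / (Real.sqrt 3 * ‖toC M‖ * ‖toC q‖)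

lemma argM_nonneg (M : Eis) (K : ℝ) (h q : Eis) : 0 ≤ argM M K h q := by unfold argM; positivity

lemma fC_wM {w : ℝ → ℝ} {K : ℝ} (hK : 0 < K) (M h q₁ q₂ e : Eis) :
    fC (fw (fun x => w (x / K))) (toC h / (toC sq3 * toC M * (toC q₁ * toC q₂) * toC e)) =
      ((K * Wt w (argM M K h (q₁ * q₂ * e)) : ℝ) : ℂ) := by
  rw [fC_scale w hK]
  congr 3
  unfold argM
  rw [norm_div, norm_mul, norm_mul, norm_mul, norm_mul, norm_toC_sq3, map_mul, map_mul, norm_mul,
    norm_mul]
  ring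

open Classical in
/-- **Exact Poisson formula for a twisted pair.** -/
theorem pairT {w : ℝ → ℝ} (hw : Wgt w) {K : ℝ} (hK : 0 < K) {M : Eis} {ψ : Eis → ℂ}
    (hψ : LC M ψ) {d m₁ m₂ : Eis} (hd : IsPrim d)
    (h₁ : IsPrim m₁) (h₂ : IsPrim m₂) (hs₁ : Squarefree m₁) (hs₂ : Squarefree m₂)
    (hc : IsCoprime m₁ m₂) :
    ∑' k : Eis, (if IsPrim k then ψ k * (sy k (d * m₁) * conj (sy k (d * m₂))) else 0) *
        ((w (nm k / K) : ℝ) : ℂ) =
      ((2 * K / (Real.sqrt 3 * nm M * Real.sqrt (nm m₁ * nm m₂)) : ℝ) : ℂ) *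
        (ψ m₁ * ψ m₂) * (G m₁ * conj (G m₂)) *
        ∑ e ∈ pdiv d, (mu e : ℂ) * (nm e : ℂ)⁻¹ * ψ e *
          ∑' h : Eis, tw M ψ h * Vp (h * (e * (M * sq3)) ^ 2) m₁ m₂ *
            ((Wt w (argM M K h (m₁ * m₂ * e)) : ℝ) : ℂ) := by
  have hPF : PF (fw (fun x => w (x / K))) := by
    have := PF.of_schwartz (fS (hw.scale hK))
    rwa [fS_coe] at this
  have key := dual3T hPF hψ hd.ne_zero h₁ h₂ hc
  have e1 : ∀ k : Eis, (if IsPrim k then ψ k * (sy k (d * m₁) * conj (sy k (d * m₂))) else 0) *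
        ((w (nm k / K) : ℝ) : ℂ) =
      (if IsPrim k ∧ IsCoprime k d then ψ k * (sy k m₁ * conj (sy k m₂)) else 0) *
        fw (fun x => w (x / K)) (toC k) := by
    intro k
    have e2 : fw (fun x => w (x / K)) (toC k) = ((w (nm k / K) : ℝ) : ℂ) := by
      unfold fw; rw [norm_toC_sq]
    rw [e2]
    congr 1
    by_cases hk : IsPrim k
    · rw [if_pos hk, syG.mul_right _ _ _ hd h₁, syG.mul_right _ _ _ hd h₂, map_mul]
      by_cases hcd : IsCoprime k d
      · rw [if_pos ⟨hk, hcd⟩]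
        have := sy_mul_star hd hcd
        linear_combination (ψ k * (sy k m₁ * conj (sy k m₂))) * this
      · rw [if_neg (fun h => hcd h.2), sy_eq_zero hd hcd]; ring
    · rw [if_neg hk, if_neg (fun h => hk h.1)]
  simp_rw [e1]
  rw [key]
  have hn1 := nmpos h₁.ne_zero
  have hn2 := nmpos h₂.ne_zero
  have hnM := nmpos hψ.ne
  have hq : Real.sqrt (nm m₁ * nm m₂) = Real.sqrt (nm m₁) * Real.sqrt (nm m₂) :=
    Real.sqrt_mul (Nat.cast_nonneg _) _
  have s1 : Real.sqrt (nm m₁) ≠ 0 := (Real.sqrt_pos.mpr hn1).ne'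
  have s2 : Real.sqrt (nm m₂) ≠ 0 := (Real.sqrt_pos.mpr hn2).ne'
  have f1 : ∀ a : Eis, Vp (a ^ 2) m₁ m₂ = sy a m₁ * conj (sy a m₂) := by
    intro a
    unfold Vp
    rw [sy_pow h₁, sy_pow h₂, ← star_sy h₁, Complex.conj_conj, ← star_sy h₂]
  have e3 : ∀ e ∈ pdiv d, (mu e : ℂ) * (nm e : ℂ)⁻¹ * ψ e * (sy e m₁ * conj (sy e m₂)) *
          ∑' h : Eis, tw M ψ h * (gs h m₁ * conj (gs h m₂)) *
            fC (fw (fun x => w (x / K)))
              (toC h / (toC sq3 * toC M * (toC m₁ * toC m₂) * toC e)) =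
      (((K * Real.sqrt (nm m₁ * nm m₂) : ℝ) : ℂ) * (G m₁ * conj (G m₂))) *
        ((mu e : ℂ) * (nm e : ℂ)⁻¹ * ψ e * (sy e m₁ * conj (sy e m₂)) *
          ∑' h : Eis, tw M ψ h * Vp h m₁ m₂ *
            ((Wt w (argM M K h (m₁ * m₂ * e)) : ℝ) : ℂ)) := by
    intro e he
    have e4 : ∀ h : Eis, tw M ψ h * (gs h m₁ * conj (gs h m₂)) *
            fC (fw (fun x => w (x / K)))
              (toC h / (toC sq3 * toC M * (toC m₁ * toC m₂) * toC e)) =
        (((K * Real.sqrt (nm m₁ * nm m₂) : ℝ) : ℂ) * (G m₁ * conj (G m₂))) *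
        (tw M ψ h * Vp h m₁ m₂ * ((Wt w (argM M K h (m₁ * m₂ * e)) : ℝ) : ℂ)) := by
      intro h
      rw [fC_wM hK, Gauss880.gs_eq_G syG h₁ hs₁, Gauss880.gs_eq_G syG h₂ hs₂, hq]
      unfold Vp
      simp only [map_mul, Complex.conj_conj, Complex.conj_ofReal]
      push_cast
      ring
    simp_rw [e4]
    rw [tsum_mul_left]
    ring
  rw [Finset.sum_congr rfl e3, ← Finset.mul_sum]
  have e5 : ∀ e ∈ pdiv d, (mu e : ℂ) * (nm e : ℂ)⁻¹ * ψ e *
          ∑' h : Eis, tw M ψ h * Vp (h * (e * (M * sq3)) ^ 2) m₁ m₂ *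
            ((Wt w (argM M K h (m₁ * m₂ * e)) : ℝ) : ℂ) =
        (sy (M * sq3) m₁ * conj (sy (M * sq3) m₂)) *
        ((mu e : ℂ) * (nm e : ℂ)⁻¹ * ψ e * (sy e m₁ * conj (sy e m₂)) *
          ∑' h : Eis, tw M ψ h * Vp h m₁ m₂ *
            ((Wt w (argM M K h (m₁ * m₂ * e)) : ℝ) : ℂ)) := by
    intro e he
    have e6 : ∀ h : Eis, tw M ψ h * Vp (h * (e * (M * sq3)) ^ 2) m₁ m₂ *
            ((Wt w (argM M K h (m₁ * m₂ * e)) : ℝ) : ℂ) =
          ((sy (M * sq3) m₁ * conj (sy (M * sq3) m₂)) * (sy e m₁ * conj (sy e m₂))) *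
          (tw M ψ h * Vp h m₁ m₂ * ((Wt w (argM M K h (m₁ * m₂ * e)) : ℝ) : ℂ)) := by
      intro h
      rw [mul_pow, Vp_mul h₁ h₂, Vp_mul h₁ h₂, f1, f1]
      ring
    simp_rw [e6]
    rw [tsum_mul_left]
    ring
  rw [Finset.sum_congr rfl e5, ← Finset.mul_sum]
  have hsq3 : Real.sqrt 3 ≠ 0 := by positivity
  have e7 : (2 / (Real.sqrt 3 * nm M * (nm m₁ * nm m₂)) : ℝ) * (K * Real.sqrt (nm m₁ * nm m₂)) =
      2 * K / (Real.sqrt 3 * nm M * Real.sqrt (nm m₁ * nm m₂)) := by
    rw [hq]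
    have f1 : (nm m₁ : ℝ) = Real.sqrt (nm m₁) * Real.sqrt (nm m₁) :=
      (Real.mul_self_sqrt (Nat.cast_nonneg _)).symm
    have f2 : (nm m₂ : ℝ) = Real.sqrt (nm m₂) * Real.sqrt (nm m₂) :=
      (Real.mul_self_sqrt (Nat.cast_nonneg _)).symm
    rw [f1, f2]
    simp only [Real.sqrt_mul_self (Real.sqrt_nonneg _)]
    field_simp
  rw [← e7]
  push_cast
  ring

end Crest.Agent.R017.BD829
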