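import Crest.Agent.R012.CubeA_777
import Crest.Agent.R012.Weight_600

/-!
# Row 17, block C70 (exact square), leaf E1, part c (helper146): the transformed weight

For `w` in `MC.Wgt`:

* `Dw w x = -(w x + x w' x)`; `d/dx Wt w (e^{x/2} r) = Wt (Dw w) (e^{x/2} r)` (`hasDerivAt_Wt`).
* `Sc w x = Σ_{c ≠ 0} Wt w (e^{x/2} |c|³)`, `Tc w x = Sc w x - 4π/(3√3) Iw w e^{-x/3}`.
* (C1) `Tc_bound`, `Sc_bound`; (C2) `hasDerivAt_Tc`, `hasDerivAt_Sc`; (C3) `Tc_kernel`, `Sc_kernel`.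
-/

set_option autoImplicit false

noncomputable section

open MeasureTheory Complex Set Filter Topology
open scoped ContDiff

namespace Crest.Agent.R017.E1c146

open Crest.Agent.R012 Crest.Agent.R012.Eis Crest.Agent.R012.MC Crest.Agent.R012.LatSum413
  Crest.Agent.R012.Cube777
open Crest.Agent.R012.Weight600 (osc ker)

/-! ### the derivative weight -/

/-- `Dw w x = -(w x + x w' x)` -/
def Dw (w : ℝ → ℝ) (x : ℝ) : ℝ := -(w x + x * deriv w x)

lemma Dw_eq_zero {w : ℝ → ℝ} {x : ℝ} (hx : x ∉ tsupport w) : Dw w x = 0 := by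
  have h1 : w x = 0 := image_eq_zero_of_notMem_tsupport hx
  have h2 : deriv w x = 0 := by
    by_contra h
    exact hx (support_deriv_subset h)
  unfold Dw
  rw [h1, h2]; simp

lemma wgt_Dw {w : ℝ → ℝ} (hw : Wgt w) : Wgt (Dw w) := by
  have hd : ContDiff ℝ ∞ (deriv w) := (contDiff_infty_iff_deriv.mp hw.smooth).2
  have hs : tsupport (Dw w) ⊆ tsupport w := by
    refine closure_minimal (fun x hx => ?_) isClosed_closure
    by_contra h
    exact hx (Dw_eq_zero h)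
  refine ⟨?_, ?_, hs.trans hw.pos⟩
  · unfold Dw
    exact (hw.smooth.add (contDiff_id.mul hd)).neg
  · exact hw.cpt.mono' (subset_closure.trans hs)

lemma wgt_Dwn {w : ℝ → ℝ} (hw : Wgt w) (n : ℕ) : Wgt (Dw^[n] w) := by
  induction n generalizing w with
  | zero => exact hw
  | succ n ih => rw [Function.iterate_succ_apply]; exact ih (wgt_Dw hw)

/-- `e^{-x} w(y e^{-x})` and its derivative in `x` -/
lemma hasDerivAt_scaled {w : ℝ → ℝ} (hw : Wgt w) (y x : ℝ) :
    HasDerivAt (fun x : ℝ => Real.exp (-x) * w (y / Real.exp x))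
      (Real.exp (-x) * Dw w (y / Real.exp x)) x := by
  have hwd : Differentiable ℝ w := hw.smooth.differentiable (by simp)
  have h1 : HasDerivAt (fun x : ℝ => Real.exp (-x)) (-Real.exp (-x)) x := by
    have := (Real.hasDerivAt_exp (-x)).comp x (hasDerivAt_neg x)
    simpa [Function.comp_def] using this
  have h2 : HasDerivAt (fun x : ℝ => y / Real.exp x) (-(y / Real.exp x)) x := by
    have h3 := h1.const_mul y
    have e : (fun x : ℝ => y * Real.exp (-x)) = fun x : ℝ => y / Real.exp x := by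
      funext t; rw [Real.exp_neg, div_eq_mul_inv]
    rw [e] at h3
    convert! h3 using 1
    rw [Real.exp_neg]; ring
  have h4 : HasDerivAt (fun x : ℝ => w (y / Real.exp x))
      (deriv w (y / Real.exp x) * -(y / Real.exp x)) x :=
    (hwd (y / Real.exp x)).hasDerivAt.comp x h2
  convert! h1.mul h4 using 1
  unfold Dw
  ring

lemma Wt_exp_eq {w : ℝ → ℝ} (x : ℝ) {r : ℝ} (hr : 0 ≤ r) :
    ((Wt w (Real.exp (x / 2) * r) : ℝ) : ℂ) =
      ∫ z : ℂ, ((Real.exp (-x) * w (‖z‖ ^ 2 / Real.exp x) : ℝ) : ℂ) * eC (-((r : ℂ) * z)) := by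
  have h := fC_scale w (Real.exp_pos x) (r : ℂ)
  have e1 : Real.sqrt (Real.exp x) = Real.exp (x / 2) := by
    rw [show x = x / 2 + x / 2 by ring, Real.exp_add, Real.sqrt_mul_self (Real.exp_pos _).le]
    congr 1; ring
  rw [e1, Complex.norm_real, Real.norm_of_nonneg hr] at h
  have e2 : ((Wt w (Real.exp (x / 2) * r) : ℝ) : ℂ) =
      ((Real.exp (-x) : ℝ) : ℂ) * Po581.fC (fw (fun y => w (y / Real.exp x))) (r : ℂ) := by
    rw [h, ← Complex.ofReal_mul, ← mul_assoc, ← Real.exp_add]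
    simp
  rw [e2]
  unfold Po581.fC
  rw [← integral_const_mul]
  congr 1
  funext z
  unfold fw
  push_cast
  ring

lemma norm_bump_int {w : ℝ → ℝ} (hw : Wgt w) (r : ℝ) (x : ℝ) :
    Integrable (fun z : ℂ => ((Real.exp (-x) * w (‖z‖ ^ 2 / Real.exp x) : ℝ) : ℂ) *
      eC (-((r : ℂ) * z))) := by
  have h1 : Continuous (fun z : ℂ => ((Real.exp (-x) * w (‖z‖ ^ 2 / Real.exp x) : ℝ) : ℂ) *
      eC (-((r : ℂ) * z))) := by
    have : Continuous (fun z : ℂ => eC (-((r : ℂ) * z))) := by unfold eC; fun_prop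
    have h2 : Continuous (fun z : ℂ => w (‖z‖ ^ 2 / Real.exp x)) :=
      hw.smooth.continuous.comp (by fun_prop)
    exact (Complex.continuous_ofReal.comp (continuous_const.mul h2)).mul this
  apply h1.integrable_of_hasCompactSupport
  obtain ⟨c1, c2, h1, h2, h⟩ := hw.exists_bounds
  refine HasCompactSupport.of_support_subset_isCompact
    (isCompact_closedBall (0 : ℂ) (Real.sqrt (c2 * Real.exp x))) ?_
  intro z hz
  have hz' : w (‖z‖ ^ 2 / Real.exp x) ≠ 0 := by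
    intro h0
    apply hz
    simp [h0]
  have := (h _ hz').2
  rw [div_le_iff₀ (Real.exp_pos x)] at this
  rw [mem_closedBall_zero_iff]
  exact Real.le_sqrt_of_sq_le this

/-- **derivative of the transformed weight** -/
theorem hasDerivAt_Wt {w : ℝ → ℝ} (hw : Wgt w) {r : ℝ} (hr : 0 ≤ r) (x : ℝ) :
    HasDerivAt (fun x : ℝ => Wt w (Real.exp (x / 2) * r)) (Wt (Dw w) (Real.exp (x / 2) * r)) x := by
  have hD := wgt_Dw hw
  obtain ⟨M, hM0, hM⟩ := hD.bounded
  obtain ⟨c1, c2, hc1, hc12, hc⟩ := hD.exists_bounds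
  set F : ℝ → ℂ → ℂ := fun x z => ((Real.exp (-x) * w (‖z‖ ^ 2 / Real.exp x) : ℝ) : ℂ) *
    eC (-((r : ℂ) * z)) with hF
  set F' : ℝ → ℂ → ℂ := fun x z => ((Real.exp (-x) * Dw w (‖z‖ ^ 2 / Real.exp x) : ℝ) : ℂ) *
    eC (-((r : ℂ) * z)) with hF'
  set bd : ℂ → ℝ := (Metric.closedBall (0 : ℂ) (Real.sqrt (c2 * Real.exp (x + 1)))).indicator
    (fun _ => Real.exp (-(x - 1)) * M) with hbd
  have key := hasDerivAt_integral_of_dominated_loc_of_deriv_le (μ := (volume : Measure ℂ))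
    (F := F) (F' := F') (x₀ := x) (s := Metric.ball x 1) (bound := bd)
    (Metric.ball_mem_nhds x one_pos)
    (Eventually.of_forall fun y => (norm_bump_int hw r y).aestronglyMeasurable)
    (norm_bump_int hw r x) (norm_bump_int hD r x).aestronglyMeasurable
    (Eventually.of_forall fun z y hy => by
      rw [Metric.mem_ball, Real.dist_eq, abs_lt] at hy
      simp only [hF']
      rw [norm_mul, norm_eC, mul_one, Complex.norm_real, Real.norm_eq_abs, abs_mul,
        abs_of_pos (Real.exp_pos _)]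
      by_cases h0 : Dw w (‖z‖ ^ 2 / Real.exp y) = 0
      · rw [h0, abs_zero, mul_zero]
        simp only [hbd]
        exact Set.indicator_nonneg (fun _ _ => by positivity) z
      · have h1 := (hc _ h0).2
        rw [div_le_iff₀ (Real.exp_pos y)] at h1
        have h2 : ‖z‖ ^ 2 ≤ c2 * Real.exp (x + 1) := by
          refine h1.trans (mul_le_mul_of_nonneg_left ?_ (hc1.trans hc12).le)
          exact Real.exp_le_exp.mpr (by linarith)
        have h3 : z ∈ Metric.closedBall (0 : ℂ) (Real.sqrt (c2 * Real.exp (x + 1))) := by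
          rw [mem_closedBall_zero_iff]
          exact Real.le_sqrt_of_sq_le h2
        simp only [hbd]
        rw [Set.indicator_of_mem h3]
        refine mul_le_mul (Real.exp_le_exp.mpr (by linarith)) (hM _) (abs_nonneg _)
          (Real.exp_pos _).le)
    ((integrable_indicator_iff measurableSet_closedBall).mpr
      (integrableOn_const (isCompact_closedBall _ _).measure_lt_top.ne))
    (Eventually.of_forall fun z y _ => by
      simp only [hF, hF']
      have h := (hasDerivAt_scaled hw (‖z‖ ^ 2) y).ofReal_comp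
      exact h.mul_const _)
  have h2 := key.2
  have e1 : (fun y => ∫ z, F y z) = fun y => ((Wt w (Real.exp (y / 2) * r) : ℝ) : ℂ) := by
    funext y
    rw [Wt_exp_eq y hr]
  have e2 : (∫ z, F' x z) = ((Wt (Dw w) (Real.exp (x / 2) * r) : ℝ) : ℂ) := by
    rw [Wt_exp_eq x hr]
  rw [e1, e2] at h2
  have h3 := Complex.reCLM.hasFDerivAt.comp_hasDerivAt x h2
  simpa [Function.comp_def] using h3

/-! ### `Iw (Dw w) = -(1/3) Iw w` -/

lemma f3_smul (w : ℝ → ℝ) (y : ℝ) (z : ℂ) :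
    f3 w ((Real.exp (y / 6) : ℝ) • z) = Wt w (Real.exp (y / 2) * ‖z‖ ^ 3) := by
  unfold f3
  rw [norm_smul, Real.norm_eq_abs, abs_of_pos (Real.exp_pos _), mul_pow, ← Real.exp_nat_mul]
  congr 3
  push_cast
  ring

lemma wt3_smul_le {s : ℝ} (hs : 1 / 2 ≤ s) (z : ℂ) : wt3 (s • z) ≤ 8 * wt3 z := by
  unfold wt3
  rw [norm_smul, Real.norm_eq_abs, abs_of_nonneg (by linarith)]
  have hz := norm_nonneg z
  have h1 : (1 + ‖z‖) / 2 ≤ 1 + s * ‖z‖ := by nlinarith
  have h2 : (1 + s * ‖z‖) ^ (-3 : ℝ) ≤ ((1 + ‖z‖) / 2) ^ (-3 : ℝ) :=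
    Real.rpow_le_rpow_of_nonpos (by positivity) h1 (by norm_num)
  refine h2.trans (le_of_eq ?_)
  rw [Real.div_rpow (by positivity) (by norm_num)]
  have h3 : (2 : ℝ) ^ (-3 : ℝ) = 8⁻¹ := by
    rw [Real.rpow_neg (by norm_num), show (3 : ℝ) = ((3 : ℕ) : ℝ) by norm_num, Real.rpow_natCast]
    norm_num
  rw [h3]
  field_simp

lemma exp_sixth_ge {y : ℝ} (hy : y ∈ Metric.ball (0 : ℝ) 1) : 1 / 2 ≤ Real.exp (y / 6) := by
  rw [Metric.mem_ball, dist_zero_right, Real.norm_eq_abs, abs_lt] at hy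
  have := Real.add_one_le_exp (y / 6)
  linarith [hy.1]

lemma f3_dil_integrable {w : ℝ → ℝ} (hw : Wgt w) (y : ℝ) :
    Integrable (fun z : ℂ => f3 w ((Real.exp (y / 6) : ℝ) • z)) :=
  (f3_integrable hw).comp_smul (Real.exp_pos _).ne'

lemma integral_f3_dil (w : ℝ → ℝ) (y : ℝ) :
    ∫ z : ℂ, f3 w ((Real.exp (y / 6) : ℝ) • z) = Real.exp (-(y / 3)) * ∫ z, f3 w z := by
  rw [Measure.integral_comp_smul, Complex.finrank_real_complex, smul_eq_mul,
    abs_of_pos (by positivity), ← Real.exp_nat_mul, ← Real.exp_neg]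
  congr 2
  push_cast
  ring

lemma Iw_Dw {w : ℝ → ℝ} (hw : Wgt w) : Iw (Dw w) = -(1 / 3) * Iw w := by
  have hD := wgt_Dw hw
  obtain ⟨K, hK, hKb⟩ := f3_decay hD
  have key := hasDerivAt_integral_of_dominated_loc_of_deriv_le (μ := (volume : Measure ℂ))
    (F := fun (y : ℝ) (z : ℂ) => f3 w ((Real.exp (y / 6) : ℝ) • z))
    (F' := fun (y : ℝ) (z : ℂ) => f3 (Dw w) ((Real.exp (y / 6) : ℝ) • z)) (x₀ := (0 : ℝ))
    (s := Metric.ball (0 : ℝ) 1) (bound := fun z => K * (8 * wt3 z))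
    (Metric.ball_mem_nhds _ one_pos)
    (Eventually.of_forall fun y => (f3_dil_integrable hw y).aestronglyMeasurable)
    (f3_dil_integrable hw 0) (f3_dil_integrable hD 0).aestronglyMeasurable
    (Eventually.of_forall fun z y hy => (hKb _).trans
      (mul_le_mul_of_nonneg_left (wt3_smul_le (exp_sixth_ge hy) z) hK))
    ((integrable_wt3.const_mul 8).const_mul K)
    (Eventually.of_forall fun z y _ => by
      have := hasDerivAt_Wt hw (r := ‖z‖ ^ 3) (by positivity) y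
      simp_rw [f3_smul]
      exact this)
  have h1 := key.2
  simp_rw [integral_f3_dil] at h1
  have h2 : HasDerivAt (fun y : ℝ => Real.exp (-(y / 3)) * ∫ z, f3 w z)
      (-(1 / 3) * ∫ z, f3 w z) 0 := by
    have h3 : HasDerivAt (fun y : ℝ => -(y / 3)) (-(1 / 3)) 0 :=
      ((hasDerivAt_id (0 : ℝ)).div_const 3).neg
    have h4 := h3.exp
    have h5 := h4.mul_const (∫ z, f3 w z)
    simpa using h5
  have h3 := h1.unique h2
  rw [integral_f3, integral_f3] at h3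
  simp only [zero_div, neg_zero, Real.exp_zero, one_mul] at h3
  have hp : (0 : ℝ) < 2 * Real.pi / 3 := by positivity
  have h4 : 2 * Real.pi / 3 * Iw (Dw w) = 2 * Real.pi / 3 * (-(1 / 3) * Iw w) := by
    rw [h3]; ring
  exact mul_left_cancel₀ hp.ne' h4

/-! ### the sums `Sc`, `Tc` -/

open Classical in
/-- `Σ_{c ≠ 0} Wt w (e^{x/2} |c|³)` -/
def Sc (w : ℝ → ℝ) (x : ℝ) : ℝ :=
  ∑' c : Eis, if c = 0 then 0 else Wt w (Real.exp (x / 2) * ‖toC c‖ ^ 3)

/-- `Sc` minus its main term -/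
def Tc (w : ℝ → ℝ) (x : ℝ) : ℝ :=
  Sc w x - 4 * Real.pi / (3 * Real.sqrt 3) * Iw w * Real.exp (-x / 3)

lemma Sc_eq (w : ℝ → ℝ) (x : ℝ) : Sc w x = lsum (f3 w) ((Real.exp (x / 6) : ℝ) : ℂ) := by
  unfold Sc lsum
  refine tsum_congr fun c => ?_
  congr 1
  rw [← f3_smul w x (toC c), Complex.real_smul]

lemma one_le_toC {c : Eis} (hc : c ≠ 0) : 1 ≤ ‖toC c‖ := by
  have h : (1 : ℝ) ≤ nm c := by exact_mod_cast nm_pos.mpr hc
  rw [norm_toC]
  exact Real.one_le_sqrt.mpr h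

lemma term_le {w : ℝ → ℝ} (hw : Wgt w) (A : ℕ) : ∃ C : ℝ, 0 ≤ C ∧ ∀ (x : ℝ) (c : Eis), c ≠ 0 →
    |Wt w (Real.exp (x / 2) * ‖toC c‖ ^ 3)| ≤
      C * Real.exp (-(x / 2)) / (1 + Real.exp x) ^ A * (nm c : ℝ) ^ (-(3 / 2) : ℝ) := by
  obtain ⟨C, hC, h⟩ := Wt_decay hw (2 * A + 1)
  refine ⟨C, hC, fun x c hc => ?_⟩
  have hc1 := one_le_toC hc
  have hc3 : 1 ≤ ‖toC c‖ ^ 3 := one_le_pow₀ hc1
  set t := Real.exp (x / 2) * ‖toC c‖ ^ 3 with ht
  have he := Real.exp_pos (x / 2)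
  have ht0 : 0 < t := by positivity
  have h1 : 1 + Real.exp x ≤ (1 + t) ^ 2 := by
    have e1 : Real.exp x = Real.exp (x / 2) ^ 2 := by
      rw [← Real.exp_nat_mul]; congr 1; push_cast; ring
    have e2 : Real.exp (x / 2) ≤ t := by nlinarith
    rw [e1]; nlinarith
  have h2 : (1 + Real.exp x) ^ A * t ≤ (1 + t) ^ (2 * A + 1) := by
    rw [pow_succ, pow_mul]
    have := Real.exp_pos x
    gcongr
    linarith
  refine (h t ht0.le).trans ?_
  have h3 : 0 < (1 + Real.exp x) ^ A := by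
    have := Real.exp_pos x
    positivity
  calc C / (1 + t) ^ (2 * A + 1) ≤ C / ((1 + Real.exp x) ^ A * t) := by gcongr
    _ = _ := by
      have e1 : (nm c : ℝ) ^ (-(3 / 2) : ℝ) = (‖toC c‖ ^ 3)⁻¹ := by
        rw [show (-(3 / 2) : ℝ) = (-3 : ℝ) / 2 by norm_num, ← norm_toC_rpow,
          Real.rpow_neg (norm_nonneg _), show (3 : ℝ) = ((3 : ℕ) : ℝ) by norm_num,
          Real.rpow_natCast]
      rw [e1, Real.exp_neg, ht]
      field_simp

lemma summable_term {w : ℝ → ℝ} (hw : Wgt w) (x : ℝ) :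
    open Classical in
    Summable (fun c : Eis => if c = 0 then 0 else Wt w (Real.exp (x / 2) * ‖toC c‖ ^ 3)) := by
  classical
  obtain ⟨C, hC, h⟩ := term_le hw 0
  have hs := (summable_nm_rpow (s := 3 / 2) (by norm_num)).mul_left
    (C * Real.exp (-(x / 2)) / (1 + Real.exp x) ^ 0)
  refine Summable.of_norm_bounded hs fun c => ?_
  by_cases hc : c = 0
  · rw [if_pos hc, norm_zero]
    have := Real.exp_pos x
    positivity
  · rw [if_neg hc, Real.norm_eq_abs]; exact h x c hc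

lemma Sc_le_half {w : ℝ → ℝ} (hw : Wgt w) (A : ℕ) : ∃ C : ℝ, 0 ≤ C ∧ ∀ x : ℝ,
    |Sc w x| ≤ C * Real.exp (-(x / 2)) / (1 + Real.exp x) ^ A := by
  classical
  obtain ⟨C, hC, h⟩ := term_le hw A
  refine ⟨C * Zs (3 / 2), mul_nonneg hC (Zs_nonneg _), fun x => ?_⟩
  have hx := Real.exp_pos x
  have hs := (summable_nm_rpow (s := 3 / 2) (by norm_num)).mul_left
    (C * Real.exp (-(x / 2)) / (1 + Real.exp x) ^ A)
  have hb : ∀ c : Eis, ‖(if c = 0 then (0 : ℝ) else Wt w (Real.exp (x / 2) * ‖toC c‖ ^ 3))‖ ≤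
      C * Real.exp (-(x / 2)) / (1 + Real.exp x) ^ A * (nm c : ℝ) ^ (-(3 / 2) : ℝ) := by
    intro c
    by_cases hc : c = 0
    · rw [if_pos hc, norm_zero]; positivity
    · rw [if_neg hc, Real.norm_eq_abs]; exact h x c hc
  have h1 := tsum_of_norm_bounded hs.hasSum hb
  rw [Real.norm_eq_abs, tsum_mul_left] at h1
  refine h1.trans (le_of_eq ?_)
  unfold Zs
  ring

/-- **(C1)**, first half -/
theorem Tc_bound {w : ℝ → ℝ} (hw : Wgt w) : ∃ C : ℝ, 0 ≤ C ∧ ∀ x : ℝ,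
    |Tc w x| ≤ C * min 1 (Real.exp (-x / 3)) := by
  obtain ⟨M, hM, h2⟩ := f3_second hw
  obtain ⟨K₀, hK₀, h0⟩ := f3_decay hw
  have hD0 : 0 ≤ Kdec (f3 w) M K₀ := Kdec_nonneg _ hM hK₀
  refine ⟨Kdec (f3 w) M K₀, hD0, fun x => ?_⟩
  have hpos := Real.exp_pos (x / 6)
  have hu : (((Real.exp (x / 6) : ℝ) : ℂ)) ≠ 0 := by exact_mod_cast hpos.ne'
  have hn : ‖((Real.exp (x / 6) : ℝ) : ℂ)‖ = Real.exp (x / 6) := by
    rw [Complex.norm_real, Real.norm_of_nonneg hpos.le]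
  have e6 : Real.exp (x / 6) ^ 2 = Real.exp (x / 3) := by
    rw [← Real.exp_nat_mul]; congr 1; push_cast; ring
  have e0 : Tc w x = lsum (f3 w) ((Real.exp (x / 6) : ℝ) : ℂ) -
      (2 / Real.sqrt 3 / ‖((Real.exp (x / 6) : ℝ) : ℂ)‖ ^ 2) • ∫ z, f3 w z := by
    unfold Tc
    rw [Sc_eq, hn, e6, integral_f3, smul_eq_mul, show -x / 3 = -(x / 3) by ring, Real.exp_neg]
    have : Real.sqrt 3 ≠ 0 := by positivity
    field_simp
    ring
  have ha := lsum_decay (f3_continuous hw) (f3_integrable hw) hM hK₀ h2 h0 (β := 0)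
    le_rfl (by norm_num) hu
  have hb := lsum_decay (f3_continuous hw) (f3_integrable hw) hM hK₀ h2 h0 (β := 2)
    (by norm_num) le_rfl hu
  rw [← e0, Real.norm_eq_abs] at ha hb
  rw [neg_zero, Real.rpow_zero, mul_one] at ha
  rw [hn, Real.rpow_neg hpos.le, show (2 : ℝ) = ((2 : ℕ) : ℝ) by norm_num, Real.rpow_natCast, e6,
    ← Real.exp_neg, show -(x / 3) = -x / 3 by ring] at hb
  rw [mul_min_of_nonneg _ _ hD0, mul_one]
  exact le_min ha hb

/-- **(C1)**, second half -/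
theorem Sc_bound {w : ℝ → ℝ} (hw : Wgt w) (A : ℕ) : ∃ C : ℝ, 0 ≤ C ∧ ∀ x : ℝ,
    |Sc w x| ≤ C * Real.exp (-x / 3) / (1 + Real.exp x) ^ A := by
  obtain ⟨C1, hC1, h1⟩ := Sc_le_half hw A
  obtain ⟨C2, hC2, h2⟩ := Tc_bound hw
  set m := 4 * Real.pi / (3 * Real.sqrt 3) * Iw w with hm
  refine ⟨C1 + 2 ^ A * (C2 + |m|), by positivity, fun x => ?_⟩
  have hx := Real.exp_pos x
  have hx3 := Real.exp_pos (-x / 3)
  rcases le_total 0 x with h | h
  · refine (h1 x).trans ?_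
    have h3 : Real.exp (-(x / 2)) ≤ Real.exp (-x / 3) := Real.exp_le_exp.mpr (by linarith)
    have h4 : C1 * Real.exp (-(x / 2)) ≤ (C1 + 2 ^ A * (C2 + |m|)) * Real.exp (-x / 3) := by
      have : 0 ≤ 2 ^ A * (C2 + |m|) := by positivity
      nlinarith [mul_le_mul_of_nonneg_left h3 hC1]
    gcongr
  · have e : Sc w x = Tc w x + m * Real.exp (-x / 3) := by unfold Tc; rw [hm]; ring
    have h3 : |Sc w x| ≤ (C2 + |m|) * Real.exp (-x / 3) := by
      rw [e]
      refine (abs_add_le _ _).trans ?_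
      rw [abs_mul, abs_of_pos hx3, add_mul]
      have := (h2 x).trans (mul_le_mul_of_nonneg_left (min_le_right _ _) hC2)
      linarith
    have h5 : (1 + Real.exp x) ^ A ≤ 2 ^ A := by
      have : Real.exp x ≤ 1 := Real.exp_le_one_iff.mpr h
      gcongr
      linarith
    rw [le_div_iff₀ (by positivity)]
    calc |Sc w x| * (1 + Real.exp x) ^ A ≤ ((C2 + |m|) * Real.exp (-x / 3)) * 2 ^ A := by
          gcongr
      _ = 2 ^ A * (C2 + |m|) * Real.exp (-x / 3) := by ring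
      _ ≤ _ := by
          have : 0 ≤ C1 * Real.exp (-x / 3) := by positivity
          nlinarith

/-- **(C2)** for `Sc` -/
theorem hasDerivAt_Sc {w : ℝ → ℝ} (hw : Wgt w) (x : ℝ) : HasDerivAt (Sc w) (Sc (Dw w) x) x := by
  classical
  obtain ⟨C, hC, h⟩ := term_le (wgt_Dw hw) 0
  have hs := (summable_nm_rpow (s := 3 / 2) (by norm_num)).mul_left
    (C * Real.exp (-((x - 1) / 2)))
  unfold Sc
  refine hasDerivAt_tsum_of_isPreconnected (t := Metric.ball x 1) hs Metric.isOpen_ball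
    (convex_ball x 1).isPreconnected
    (g := fun (c : Eis) (y : ℝ) => if c = 0 then 0 else Wt w (Real.exp (y / 2) * ‖toC c‖ ^ 3))
    (g' := fun (c : Eis) (y : ℝ) => if c = 0 then 0 else Wt (Dw w) (Real.exp (y / 2) * ‖toC c‖ ^ 3))
    (y₀ := x) ?_ ?_ (Metric.mem_ball_self one_pos) (summable_term hw x)
    (Metric.mem_ball_self one_pos)
  · intro c y _
    by_cases hc : c = 0
    · simp only [if_pos hc]; exact hasDerivAt_const _ _
    · simp only [if_neg hc]; exact hasDerivAt_Wt hw (by positivity) y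
  · intro c y hy
    rw [Metric.mem_ball, Real.dist_eq, abs_lt] at hy
    by_cases hc : c = 0
    · rw [if_pos hc, norm_zero]; positivity
    · rw [if_neg hc, Real.norm_eq_abs]
      refine (h y c hc).trans ?_
      rw [pow_zero, div_one]
      have : Real.exp (-(y / 2)) ≤ Real.exp (-((x - 1) / 2)) :=
        Real.exp_le_exp.mpr (by linarith)
      gcongr

/-- **(C2)** for `Tc` -/
theorem hasDerivAt_Tc {w : ℝ → ℝ} (hw : Wgt w) (x : ℝ) : HasDerivAt (Tc w) (Tc (Dw w) x) x := by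
  have h3 : HasDerivAt (fun y : ℝ => -y / 3) (-(1 / 3)) x := by
    have := (hasDerivAt_id x).neg.div_const 3
    convert! this using 1
    norm_num
  have h4 := h3.exp.const_mul (4 * Real.pi / (3 * Real.sqrt 3) * Iw w)
  have h5 := (hasDerivAt_Sc hw x).sub h4
  convert! h5 using 1
  unfold Tc
  rw [Iw_Dw hw]
  ring

/-! ### separation of variables for a function with bounded derivatives -/

/-- a bump equal to `1` on `[-R, R]`, supported in `(-(R+1), R+1)` -/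
def bR (R : ℝ) (hR : 0 ≤ R) : ContDiffBump (0 : ℝ) := ⟨R + 1 / 2, R + 1, by linarith, by linarith⟩

lemma iteratedDeriv_seq {g : ℕ → ℝ → ℂ} (hg : ∀ n u, HasDerivAt (g n) (g (n + 1) u) u) (n : ℕ) :
    iteratedDeriv n (g 0) = g n := by
  induction n with
  | zero => exact iteratedDeriv_zero
  | succ n ih =>
    rw [iteratedDeriv_succ, ih]
    funext u
    exact (hg n u).deriv

lemma contDiff_seq {g : ℕ → ℝ → ℂ} (hg : ∀ n u, HasDerivAt (g n) (g (n + 1) u) u) :
    ContDiff ℝ ∞ (g 0) := by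
  apply contDiff_of_differentiable_iteratedDeriv
  intro m _
  rw [iteratedDeriv_seq hg]
  exact fun u => (hg m u).differentiableAt

/-- the general kernel lemma -/
theorem kernel_of_bounds (R : ℝ) (hR : 0 ≤ R) (A : ℕ) : ∃ D : ℝ, 0 ≤ D ∧
    ∀ (g : ℕ → ℝ → ℂ) (M : ℝ), 0 ≤ M → (∀ n u, HasDerivAt (g n) (g (n + 1) u) u) →
      (∀ n ≤ A, ∀ u, |u| ≤ R + 1 → ‖g n u‖ ≤ M) →
      ∃ k : ℝ → ℂ, Continuous k ∧ Integrable k ∧ (∀ t, ‖k t‖ * (1 + |t|) ^ A ≤ D * M) ∧
        ∀ u, |u| ≤ R → g 0 u = ∫ t, k t * osc t u := by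
  set φ : ℝ → ℝ := fun u => (bR R hR) u with hφ
  have hφs : ContDiff ℝ ∞ φ := (bR R hR).contDiff
  have hφc : HasCompactSupport φ := (bR R hR).hasCompactSupport
  have hφ1 : ∀ u, |u| ≤ R → φ u = 1 := by
    intro u hu
    apply (bR R hR).one_of_mem_closedBall
    rw [mem_closedBall_zero_iff, Real.norm_eq_abs]
    show |u| ≤ R + 1 / 2
    linarith
  have hφt : ∀ u, R + 1 < |u| → u ∉ tsupport φ := by
    intro u hu h
    have h2 : tsupport φ = Metric.closedBall (0 : ℝ) (R + 1) := (bR R hR).tsupport_eq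
    rw [h2, mem_closedBall_zero_iff, Real.norm_eq_abs] at h
    linarith
  have hex : ∀ n : ℕ, ∃ C : ℝ, ∀ u, ‖iteratedFDeriv ℝ n φ u‖ ≤ C := by
    intro n
    obtain ⟨C, hC⟩ := (hφc.iteratedFDeriv (𝕜 := ℝ) n).exists_bound_of_continuous
      (hφs.continuous_iteratedFDeriv (by exact_mod_cast le_top))
    exact ⟨C, hC⟩
  choose C hC using hex
  set Φ : ℝ := ∑ i ∈ Finset.range (A + 1), |C i| with hΦ
  have hΦ0 : 0 ≤ Φ := Finset.sum_nonneg fun _ _ => abs_nonneg _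
  have hCΦ : ∀ n ≤ A, ∀ u, ‖iteratedFDeriv ℝ n φ u‖ ≤ Φ := by
    intro n hn u
    refine (hC n u).trans ((le_abs_self _).trans ?_)
    exact Finset.single_le_sum (f := fun i => |C i|) (fun _ _ => abs_nonneg _)
      (Finset.mem_range.mpr (by omega))
  refine ⟨2 ^ A * ((R + 1) * (2 ^ A * Φ) + (R + 1) * (2 ^ A * Φ)), by positivity,
    fun g M hM hg hb => ?_⟩
  set h : ℝ → ℂ := fun u => φ u • g 0 u with hh
  have hgs : ContDiff ℝ ∞ (g 0) := contDiff_seq hg
  have hhs : ContDiff ℝ ∞ h := hφs.smul hgs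
  have hhc : HasCompactSupport h := hφc.smul_right
  have hts : tsupport h ⊆ tsupport φ := by
    refine closure_minimal (fun u hu => subset_tsupport _ fun h0 => hu ?_) isClosed_closure
    simp only [hh]
    rw [h0, zero_smul]
  have hbound : ∀ n ≤ A, ∀ u, ‖iteratedDeriv n h u‖ ≤
      (Icc (-(R + 1)) (R + 1)).indicator (fun _ => 2 ^ A * Φ * M) u := by
    intro n hn u
    rw [← norm_iteratedFDeriv_eq_norm_iteratedDeriv]
    by_cases hu : |u| ≤ R + 1
    · rw [Set.indicator_of_mem (by exact abs_le.mp hu)]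
      refine (norm_iteratedFDeriv_smul_le (N := ∞) hφs hgs u (by exact_mod_cast le_top)).trans ?_
      have h1 : ∀ i ∈ Finset.range (n + 1), (n.choose i : ℝ) * ‖iteratedFDeriv ℝ i φ u‖ *
          ‖iteratedFDeriv ℝ (n - i) (g 0) u‖ ≤ (n.choose i : ℝ) * (Φ * M) := by
        intro i hi
        have hi' : i ≤ A := by
          have := Finset.mem_range.mp hi; omega
        rw [norm_iteratedFDeriv_eq_norm_iteratedDeriv (n := n - i), iteratedDeriv_seq hg, mul_assoc]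
        refine mul_le_mul_of_nonneg_left ?_ (Nat.cast_nonneg _)
        exact mul_le_mul (hCΦ i hi' u) (hb _ (by omega) u hu) (norm_nonneg _) hΦ0
      refine (Finset.sum_le_sum h1).trans ?_
      rw [← Finset.sum_mul]
      have h2 : ∑ i ∈ Finset.range (n + 1), (n.choose i : ℝ) = 2 ^ n := by
        exact_mod_cast Nat.sum_range_choose n
      rw [h2, mul_assoc]
      have h3 : (2 : ℝ) ^ n ≤ 2 ^ A := pow_le_pow_right₀ (by norm_num) hn
      exact mul_le_mul_of_nonneg_right h3 (by positivity)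
    · have hu' : R + 1 < |u| := not_le.mp hu
      have h1 : iteratedFDeriv ℝ n h u = 0 := by
        by_contra h0
        exact hφt u hu' (hts (support_iteratedFDeriv_subset n h0))
      rw [h1, norm_zero]
      exact Set.indicator_nonneg (fun _ _ => by positivity) u
  have hI : ∀ n ≤ A, Integrable (iteratedDeriv n h) ∧
      ∫ u, ‖iteratedDeriv n h u‖ ≤ 2 * (R + 1) * (2 ^ A * Φ * M) := by
    intro n hn
    have hc : Continuous (iteratedDeriv n h) :=
      hhs.continuous_iteratedDeriv n (by exact_mod_cast le_top)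
    have hi : Integrable ((Icc (-(R + 1)) (R + 1)).indicator (fun _ : ℝ => 2 ^ A * Φ * M)) :=
      (integrable_indicator_iff measurableSet_Icc).mpr
        (integrableOn_const isCompact_Icc.measure_lt_top.ne)
    have hint : Integrable (iteratedDeriv n h) :=
      hi.mono' hc.aestronglyMeasurable (Eventually.of_forall fun u => hbound n hn u)
    refine ⟨hint, (integral_mono hint.norm hi fun u => hbound n hn u).trans (le_of_eq ?_)⟩
    rw [integral_indicator_const _ measurableSet_Icc, smul_eq_mul, Real.volume_real_Icc_of_le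
      (by linarith)]
    ring
  have hkn : ∀ n ≤ A, ∀ t, |t| ^ n * ‖ker h t‖ ≤ (R + 1) * (2 ^ A * Φ) * M := by
    intro n hn t
    have hF := Real.fourier_iteratedDeriv (f := h) (N := (n : ℕ∞)) (n := n)
      (hhs.of_le (by exact_mod_cast le_top))
      (fun m hm => (hI m ((by exact_mod_cast hm : m ≤ n).trans hn)).1) le_rfl
    have h1 : ker (iteratedDeriv n h) t = (I * t) ^ n * ker h t := by
      rw [Weight600.ker_eq_fourier, Weight600.ker_eq_fourier, hF]
      have : (Real.pi : ℂ) ≠ 0 := by exact_mod_cast Real.pi_ne_zero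
      simp only [smul_eq_mul]
      have h2 : (2 * (Real.pi : ℂ) * I * ((t / (2 * Real.pi) : ℝ) : ℂ)) = I * t := by
        push_cast; field_simp
      rw [h2]; ring
    have h2 : |t| ^ n * ‖ker h t‖ = ‖ker (iteratedDeriv n h) t‖ := by
      rw [h1, norm_mul, norm_pow, norm_mul, Complex.norm_I, one_mul, Complex.norm_real,
        Real.norm_eq_abs]
    rw [h2]
    refine (Weight600.norm_ker_le _ t).trans ?_
    have h3 : (1 / (2 * Real.pi)) ≤ 1 / 2 := by
      have := Real.pi_gt_three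
      apply one_div_le_one_div_of_le (by norm_num)
      linarith
    calc (1 / (2 * Real.pi)) * ∫ u, ‖iteratedDeriv n h u‖ ≤
        1 / 2 * (2 * (R + 1) * (2 ^ A * Φ * M)) := by
          refine mul_le_mul h3 (hI n hn).2 (integral_nonneg fun _ => norm_nonneg _) (by norm_num)
      _ = _ := by ring
  refine ⟨ker h, Weight600.continuous_ker (hhs.continuous.integrable_of_hasCompactSupport hhc),
    Weight600.ker_integrable hhs hhc, fun t => ?_, fun u hu => ?_⟩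
  · have h0 := hkn 0 (Nat.zero_le _) t
    rw [pow_zero, one_mul] at h0
    have hA := hkn A le_rfl t
    have h1 : (1 + |t|) ^ A ≤ 2 ^ A * (1 + |t| ^ A) := by
      rcases le_total |t| 1 with ht | ht
      · calc (1 + |t|) ^ A ≤ 2 ^ A := by gcongr; linarith
          _ ≤ 2 ^ A * (1 + |t| ^ A) := by
            have : 0 ≤ |t| ^ A := by positivity
            have h2 : (0 : ℝ) < 2 ^ A := by positivity
            nlinarith
      · calc (1 + |t|) ^ A ≤ (2 * |t|) ^ A := by gcongr; linarith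
          _ = 2 ^ A * |t| ^ A := mul_pow _ _ _
          _ ≤ 2 ^ A * (1 + |t| ^ A) := by
            have h2 : (0 : ℝ) < 2 ^ A := by positivity
            nlinarith
    calc ‖ker h t‖ * (1 + |t|) ^ A ≤ ‖ker h t‖ * (2 ^ A * (1 + |t| ^ A)) :=
          mul_le_mul_of_nonneg_left h1 (norm_nonneg _)
      _ = 2 ^ A * (‖ker h t‖ + |t| ^ A * ‖ker h t‖) := by ring
      _ ≤ 2 ^ A * ((R + 1) * (2 ^ A * Φ) * M + (R + 1) * (2 ^ A * Φ) * M) := by gcongr
      _ = _ := by ring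
  · rw [Weight600.inversion_smooth hhs hhc u]
    simp only [hh]
    rw [hφ1 u hu, one_smul]

/-- the sequence of derivatives of `u ↦ T w (x0 - u)` -/
lemma hasDerivAt_refl {T : (ℝ → ℝ) → ℝ → ℝ}
    (hT : ∀ w, Wgt w → ∀ x, HasDerivAt (T w) (T (Dw w) x) x) {w : ℝ → ℝ} (hw : Wgt w)
    (x0 : ℝ) (n : ℕ) (u : ℝ) :
    HasDerivAt (fun u : ℝ => (((-1) ^ n * T (Dw^[n] w) (x0 - u) : ℝ) : ℂ))
      (((-1) ^ (n + 1) * T (Dw^[n + 1] w) (x0 - u) : ℝ) : ℂ) u := by
  have h1 := hT _ (wgt_Dwn hw n) (x0 - u)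
  have h2 : HasDerivAt (fun u : ℝ => x0 - u) (-1) u := by
    simpa using (hasDerivAt_id u).const_sub x0
  have h3 := (h1.comp u h2).const_mul ((-1 : ℝ) ^ n)
  have h4 := h3.ofReal_comp
  rw [Function.iterate_succ_apply']
  convert! h4 using 1
  push_cast
  ring

lemma exp_shift_min {R x0 u : ℝ} (hu : |u| ≤ R + 1) :
    min 1 (Real.exp (-(x0 - u) / 3)) ≤ Real.exp ((R + 1) / 3) * min 1 (Real.exp (-x0 / 3)) := by
  have h1 := abs_le.mp hu
  have h2 : 1 ≤ Real.exp ((R + 1) / 3) := Real.one_le_exp (by linarith [abs_nonneg u])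
  have h3 : Real.exp (-(x0 - u) / 3) ≤ Real.exp ((R + 1) / 3) * Real.exp (-x0 / 3) := by
    rw [← Real.exp_add]
    exact Real.exp_le_exp.mpr (by linarith)
  rw [mul_min_of_nonneg _ _ (Real.exp_pos _).le, mul_one]
  exact min_le_min h2 h3

/-- uniform constants for finitely many iterates -/
lemma uniform_const {P : (ℝ → ℝ) → ℝ → Prop} (hmono : ∀ w C C', C ≤ C' → P w C → P w C')
    {w : ℝ → ℝ} (h : ∀ n, ∃ C : ℝ, 0 ≤ C ∧ P (Dw^[n] w) C) (A : ℕ) :
    ∃ C : ℝ, 0 ≤ C ∧ ∀ n ≤ A, P (Dw^[n] w) C := by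
  choose C hC0 hC using h
  refine ⟨∑ i ∈ Finset.range (A + 1), C i, Finset.sum_nonneg fun i _ => hC0 i, fun n hn => ?_⟩
  exact hmono _ _ _ (Finset.single_le_sum (f := C) (fun i _ => hC0 i)
    (Finset.mem_range.mpr (by omega))) (hC n)

/-- **(C3)** for `Tc`, natural exponent -/
theorem Tc_kernel_nat {w : ℝ → ℝ} (hw : Wgt w) {R : ℝ} (hR : 0 ≤ R) (A : ℕ) : ∃ C : ℝ, 0 ≤ C ∧
    ∀ x0 : ℝ, ∃ k : ℝ → ℂ, Continuous k ∧ Integrable k ∧
      (∀ t, ‖k t‖ * (1 + |t|) ^ A ≤ C * min 1 (Real.exp (-x0 / 3))) ∧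
      ∀ u, |u| ≤ R → ((Tc w (x0 - u) : ℝ) : ℂ) = ∫ t, k t * osc t u := by
  obtain ⟨D, hD, h⟩ := kernel_of_bounds R hR A
  obtain ⟨C, hC, hb⟩ := uniform_const (w := w)
    (P := fun w C => ∀ x, |Tc w x| ≤ C * min 1 (Real.exp (-x / 3)))
    (fun w C C' hle hP x => (hP x).trans (mul_le_mul_of_nonneg_right hle
      (le_min zero_le_one (Real.exp_pos _).le)))
    (fun n => Tc_bound (wgt_Dwn hw n)) A
  refine ⟨D * (C * Real.exp ((R + 1) / 3)), by positivity, fun x0 => ?_⟩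
  have hm : 0 ≤ min 1 (Real.exp (-x0 / 3)) := le_min zero_le_one (Real.exp_pos _).le
  obtain ⟨k, hk1, hk2, hk3, hk4⟩ := h
    (fun n u => (((-1) ^ n * Tc (Dw^[n] w) (x0 - u) : ℝ) : ℂ))
    (C * Real.exp ((R + 1) / 3) * min 1 (Real.exp (-x0 / 3))) (by positivity)
    (fun n u => hasDerivAt_refl (T := Tc) (fun w hw x => hasDerivAt_Tc hw x) hw x0 n u)
    (fun n hn u hu => by
      rw [Complex.norm_real, Real.norm_eq_abs, abs_mul, abs_pow, abs_neg, abs_one, one_pow, one_mul]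
      refine (hb n hn _).trans ?_
      rw [mul_assoc]
      exact mul_le_mul_of_nonneg_left (exp_shift_min hu) hC)
  refine ⟨k, hk1, hk2, fun t => (hk3 t).trans (le_of_eq (by ring)), fun u hu => ?_⟩
  rw [← hk4 u hu]
  simp

/-- **(C3)** for `Sc`, natural exponents -/
theorem Sc_kernel_nat {w : ℝ → ℝ} (hw : Wgt w) {R : ℝ} (hR : 0 ≤ R) (A B : ℕ) : ∃ C : ℝ, 0 ≤ C ∧
    ∀ x0 : ℝ, ∃ k : ℝ → ℂ, Continuous k ∧ Integrable k ∧
      (∀ t, ‖k t‖ * (1 + |t|) ^ A ≤ C * (Real.exp (-x0 / 3) / (1 + Real.exp x0) ^ B)) ∧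
      ∀ u, |u| ≤ R → ((Sc w (x0 - u) : ℝ) : ℂ) = ∫ t, k t * osc t u := by
  obtain ⟨D, hD, h⟩ := kernel_of_bounds R hR A
  obtain ⟨C, hC, hb⟩ := uniform_const (w := w)
    (P := fun w C => ∀ x, |Sc w x| ≤ C * Real.exp (-x / 3) / (1 + Real.exp x) ^ B)
    (fun w C C' hle hP x => (hP x).trans (by
      have := Real.exp_pos x
      gcongr))
    (fun n => Sc_bound (wgt_Dwn hw n) B) A
  refine ⟨D * (C * (Real.exp ((R + 1) / 3) * Real.exp (R + 1) ^ B)), by positivity, fun x0 => ?_⟩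
  have he0 := Real.exp_pos x0
  obtain ⟨k, hk1, hk2, hk3, hk4⟩ := h
    (fun n u => (((-1) ^ n * Sc (Dw^[n] w) (x0 - u) : ℝ) : ℂ))
    (C * (Real.exp ((R + 1) / 3) * Real.exp (R + 1) ^ B) *
      (Real.exp (-x0 / 3) / (1 + Real.exp x0) ^ B)) (by positivity)
    (fun n u => hasDerivAt_refl (T := Sc) (fun w hw x => hasDerivAt_Sc hw x) hw x0 n u)
    (fun n hn u hu => by
      rw [Complex.norm_real, Real.norm_eq_abs, abs_mul, abs_pow, abs_neg, abs_one, one_pow, one_mul]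
      refine (hb n hn _).trans ?_
      have h1 := abs_le.mp hu
      have h2 : Real.exp (-(x0 - u) / 3) ≤ Real.exp ((R + 1) / 3) * Real.exp (-x0 / 3) := by
        rw [← Real.exp_add]
        exact Real.exp_le_exp.mpr (by linarith)
      have h3 : 1 + Real.exp x0 ≤ Real.exp (R + 1) * (1 + Real.exp (x0 - u)) := by
        have e1 : Real.exp x0 ≤ Real.exp (R + 1) * Real.exp (x0 - u) := by
          rw [← Real.exp_add]
          exact Real.exp_le_exp.mpr (by linarith)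
        have e2 : 1 ≤ Real.exp (R + 1) := Real.one_le_exp (by linarith)
        nlinarith
      have hxu := Real.exp_pos (x0 - u)
      have h4 : (1 + Real.exp x0) ^ B ≤ Real.exp (R + 1) ^ B * (1 + Real.exp (x0 - u)) ^ B := by
        rw [← mul_pow]
        gcongr
      have h5 : 1 / (1 + Real.exp (x0 - u)) ^ B ≤ Real.exp (R + 1) ^ B / (1 + Real.exp x0) ^ B := by
        rw [div_le_div_iff₀ (by positivity) (by positivity), one_mul]
        exact h4
      calc C * Real.exp (-(x0 - u) / 3) / (1 + Real.exp (x0 - u)) ^ B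
          = C * Real.exp (-(x0 - u) / 3) * (1 / (1 + Real.exp (x0 - u)) ^ B) := by ring
        _ ≤ C * (Real.exp ((R + 1) / 3) * Real.exp (-x0 / 3)) *
            (Real.exp (R + 1) ^ B / (1 + Real.exp x0) ^ B) := by gcongr
        _ = _ := by ring)
  refine ⟨k, hk1, hk2, fun t => (hk3 t).trans (le_of_eq (by ring)), fun u hu => ?_⟩
  rw [← hk4 u hu]
  simp

lemma le_rpow_of_nat {A : ℝ} {y K : ℝ} (hK : 0 ≤ K) (t : ℝ)
    (h : y * (1 + |t|) ^ (⌈A⌉₊) ≤ K) : y ≤ K * (1 + |t|) ^ (-A) := by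
  have h1 : 1 ≤ 1 + |t| := by linarith [abs_nonneg t]
  have h0 : 0 < 1 + |t| := by linarith
  have h2 : y ≤ K / (1 + |t|) ^ (⌈A⌉₊) := by
    rw [le_div_iff₀ (by positivity)]; exact h
  refine h2.trans ?_
  rw [div_eq_mul_inv, ← Real.rpow_natCast, ← Real.rpow_neg h0.le]
  refine mul_le_mul_of_nonneg_left ?_ hK
  apply Real.rpow_le_rpow_of_exponent_le h1
  linarith [Nat.le_ceil A]

/-- **(C3)** for `Tc` -/
theorem Tc_kernel {w : ℝ → ℝ} (hw : Wgt w) {R : ℝ} (hR : 0 ≤ R) (A : ℝ) : ∃ C : ℝ, 0 ≤ C ∧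
    ∀ x0 : ℝ, ∃ k : ℝ → ℂ, Continuous k ∧ Integrable k ∧
      (∀ t, ‖k t‖ ≤ C * min 1 (Real.exp (-x0 / 3)) * (1 + |t|) ^ (-A)) ∧
      ∀ u, |u| ≤ R → ((Tc w (x0 - u) : ℝ) : ℂ) = ∫ t, k t * osc t u := by
  obtain ⟨C, hC, h⟩ := Tc_kernel_nat hw hR ⌈A⌉₊
  refine ⟨C, hC, fun x0 => ?_⟩
  obtain ⟨k, h1, h2, h3, h4⟩ := h x0
  have hm : 0 ≤ min 1 (Real.exp (-x0 / 3)) := le_min zero_le_one (Real.exp_pos _).le
  exact ⟨k, h1, h2, fun t => le_rpow_of_nat (by positivity) t (h3 t), h4⟩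

/-- **(C3)** for `Sc` -/
theorem Sc_kernel {w : ℝ → ℝ} (hw : Wgt w) {R : ℝ} (hR : 0 ≤ R) (A B : ℝ) : ∃ C : ℝ, 0 ≤ C ∧
    ∀ x0 : ℝ, ∃ k : ℝ → ℂ, Continuous k ∧ Integrable k ∧
      (∀ t, ‖k t‖ ≤ C * (Real.exp (-x0 / 3) * (1 + Real.exp x0) ^ (-B)) * (1 + |t|) ^ (-A)) ∧
      ∀ u, |u| ≤ R → ((Sc w (x0 - u) : ℝ) : ℂ) = ∫ t, k t * osc t u := by
  obtain ⟨C, hC, h⟩ := Sc_kernel_nat hw hR ⌈A⌉₊ ⌈B⌉₊
  refine ⟨C, hC, fun x0 => ?_⟩
  obtain ⟨k, h1, h2, h3, h4⟩ := h x0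
  have he := Real.exp_pos x0
  refine ⟨k, h1, h2, fun t => ?_, h4⟩
  refine le_rpow_of_nat (by positivity) t ((h3 t).trans ?_)
  refine mul_le_mul_of_nonneg_left ?_ hC
  rw [div_eq_mul_inv, ← Real.rpow_natCast, ← Real.rpow_neg (by positivity)]
  refine mul_le_mul_of_nonneg_left ?_ (Real.exp_pos _).le
  apply Real.rpow_le_rpow_of_exponent_le (by linarith)
  linarith [Nat.le_ceil B]

end Crest.Agent.R017.E1c146
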