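import Crest.Agent.R017.E1defs_551
import Crest.Agent.R017.E1c_146

/-!
# Row 17, block C70, leaf E1: part c in the notation of `E1defs_551` (helper146)
-/

set_option autoImplicit false

noncomputable section

open MeasureTheory Complex
open scoped Classical

namespace Crest.Agent.R017.E1551

open Crest.Agent.R012 Crest.Agent.R012.Eis Crest.Agent.R012.MC
open Crest.Agent.R012.Weight600 (osc)

lemma Dw_eq146 : Dw = E1c146.Dw := rfl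

lemma Sc_eq146 : Sc = E1c146.Sc := rfl

lemma Tc_eq146 : Tc = E1c146.Tc := rfl

lemma wgt_Dw {w : ℝ → ℝ} (hw : Wgt w) : Wgt (Dw w) := E1c146.wgt_Dw hw

/-- **(C1)** -/
theorem Tc_bound {w : ℝ → ℝ} (hw : Wgt w) : ∃ C : ℝ, 0 ≤ C ∧ ∀ x : ℝ,
    |Tc w x| ≤ C * min 1 (Real.exp (-x / 3)) := E1c146.Tc_bound hw

theorem Sc_bound {w : ℝ → ℝ} (hw : Wgt w) (A : ℕ) : ∃ C : ℝ, 0 ≤ C ∧ ∀ x : ℝ,
    |Sc w x| ≤ C * Real.exp (-x / 3) / (1 + Real.exp x) ^ A := E1c146.Sc_bound hw A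

/-- **(C2)** -/
theorem hasDerivAt_Sc {w : ℝ → ℝ} (hw : Wgt w) (x : ℝ) : HasDerivAt (Sc w) (Sc (Dw w) x) x :=
  E1c146.hasDerivAt_Sc hw x

theorem hasDerivAt_Tc {w : ℝ → ℝ} (hw : Wgt w) (x : ℝ) : HasDerivAt (Tc w) (Tc (Dw w) x) x :=
  E1c146.hasDerivAt_Tc hw x

/-- **(C3)** for `Tc` -/
theorem Tc_kernel {w : ℝ → ℝ} (hw : Wgt w) {R : ℝ} (hR : 0 ≤ R) (A : ℝ) : ∃ C : ℝ, 0 ≤ C ∧
    ∀ x0 : ℝ, ∃ k : ℝ → ℂ, Continuous k ∧ Integrable k ∧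
      (∀ t, ‖k t‖ ≤ C * min 1 (Real.exp (-x0 / 3)) * (1 + |t|) ^ (-A)) ∧
      ∀ u, |u| ≤ R → ((Tc w (x0 - u) : ℝ) : ℂ) = ∫ t, k t * osc t u :=
  E1c146.Tc_kernel hw hR A

/-- **(C3)** for `Sc` -/
theorem Sc_kernel {w : ℝ → ℝ} (hw : Wgt w) {R : ℝ} (hR : 0 ≤ R) (A B : ℝ) : ∃ C : ℝ, 0 ≤ C ∧
    ∀ x0 : ℝ, ∃ k : ℝ → ℂ, Continuous k ∧ Integrable k ∧
      (∀ t, ‖k t‖ ≤ C * (Real.exp (-x0 / 3) * (1 + Real.exp x0) ^ (-B)) * (1 + |t|) ^ (-A)) ∧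
      ∀ u, |u| ≤ R → ((Sc w (x0 - u) : ℝ) : ℂ) = ∫ t, k t * osc t u :=
  E1c146.Sc_kernel hw hR A B

end Crest.Agent.R017.E1551
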