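import Crest.Agent.R017.E1f_551
import Crest.Agent.R017.E1cc_146
import Crest.Agent.R012.Dens_705
import Crest.Agent.R012.LS2Spec_381

/-!
# Row 17, block C70, leaf E1, part k (helper146): separated kernels of the class functions

(K1) `Tk_kernel`, (K2) `Sk_kernel` : `Tk w κ (x₀ - u) e^{-u/2} = ∫ k t * osc t u` for `|u| ≤ R`, uniformly
in `κ`, `x₀`; (Ssum) `sum_inv_S`, `summable_inv_nm`.
-/

set_option autoImplicit false

noncomputable section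

open MeasureTheory Complex
open scoped Classical ContDiff

namespace Crest.Agent.R017.E1551

open Crest.Agent.R012 Crest.Agent.R012.Eis Crest.Agent.R012.MC
open Crest.Agent.R012.Weight600 (osc)

/-- kernel lemma for a smooth function -/
theorem kernel_of_contDiff (R : ℝ) (hR : 0 ≤ R) (A : ℕ) : ∃ D : ℝ, 0 ≤ D ∧
    ∀ (G : ℝ → ℂ) (M : ℝ), 0 ≤ M → ContDiff ℝ ∞ G →
      (∀ n ≤ A, ∀ u, |u| ≤ R + 1 → ‖iteratedDeriv n G u‖ ≤ M) →
      ∃ k : ℝ → ℂ, Continuous k ∧ Integrable k ∧ (∀ t, ‖k t‖ * (1 + |t|) ^ A ≤ D * M) ∧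
        ∀ u, |u| ≤ R → G u = ∫ t, k t * osc t u := by
  obtain ⟨D, hD, h⟩ := E1c146.kernel_of_bounds R hR A
  refine ⟨D, hD, fun G M hM hG hb => ?_⟩
  obtain ⟨k, h1, h2, h3, h4⟩ := h (fun n => iteratedDeriv n G) M hM (fun n u => by
    have hd : Differentiable ℝ (iteratedDeriv n G) :=
      hG.differentiable_iteratedDeriv n (by exact_mod_cast WithTop.coe_lt_top _)
    rw [iteratedDeriv_succ]
    exact (hd u).hasDerivAt) hb
  refine ⟨k, h1, h2, h3, fun u hu => ?_⟩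
  rw [← h4 u hu, iteratedDeriv_zero]

lemma exp_half_seq (n : ℕ) (u : ℝ) :
    HasDerivAt (fun u : ℝ => (((-(1 / 2)) ^ n * Real.exp (-u / 2) : ℝ) : ℂ))
      (((-(1 / 2)) ^ (n + 1) * Real.exp (-u / 2) : ℝ) : ℂ) u := by
  have h1 : HasDerivAt (fun u : ℝ => -u / 2) (-(1 / 2)) u := by
    have := (hasDerivAt_id u).neg.div_const 2
    convert! this using 1
    norm_num
  have h2 := (h1.exp.const_mul ((-(1 / 2) : ℝ) ^ n)).ofReal_comp
  convert! h2 using 1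
  push_cast
  ring

/-- general form: `T` with `d/dx T w = T (Dw w)`, `|T w x| ≤ C b x` -/
theorem gen_kernel {T : (ℝ → ℝ) → ℝ → ℝ}
    (hT : ∀ w, Wgt w → ∀ x, HasDerivAt (T w) (T (Dw w) x) x) {b : ℝ → ℝ} (hb0 : ∀ x, 0 ≤ b x)
    (hb : ∀ w, Wgt w → ∃ C : ℝ, 0 ≤ C ∧ ∀ x, |T w x| ≤ C * b x) {R : ℝ} (hR : 0 ≤ R) {Cb : ℝ}
    (hCb : 0 ≤ Cb) (hsh : ∀ x0 u, |u| ≤ R + 1 → b (x0 - u) ≤ Cb * b x0) {w : ℝ → ℝ} (hw : Wgt w)
    (A : ℕ) : ∃ C : ℝ, 0 ≤ C ∧ ∀ x0 : ℝ, ∃ k : ℝ → ℂ, Continuous k ∧ Integrable k ∧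
      (∀ t, ‖k t‖ * (1 + |t|) ^ A ≤ C * b x0) ∧
      ∀ u, |u| ≤ R → ((T w (x0 - u) * Real.exp (-u / 2) : ℝ) : ℂ) = ∫ t, k t * osc t u := by
  obtain ⟨D, hD, hker⟩ := kernel_of_contDiff R hR A
  obtain ⟨C, hC, hbn⟩ := E1c146.uniform_const (w := w)
    (P := fun w C => ∀ x, |T w x| ≤ C * b x)
    (fun w C C' hle hP x => (hP x).trans (mul_le_mul_of_nonneg_right hle (hb0 x)))
    (fun n => hb _ (E1c146.wgt_Dwn hw n)) A
  refine ⟨D * (2 ^ A * (C * Cb) * Real.exp ((R + 1) / 2)), by positivity, fun x0 => ?_⟩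
  set f : ℕ → ℝ → ℂ := fun n u => (((-1) ^ n * T (E1c146.Dw^[n] w) (x0 - u) : ℝ) : ℂ) with hf
  set g : ℕ → ℝ → ℂ := fun n u => (((-(1 / 2)) ^ n * Real.exp (-u / 2) : ℝ) : ℂ) with hg
  have hfd : ∀ n u, HasDerivAt (f n) (f (n + 1) u) u := fun n u =>
    E1c146.hasDerivAt_refl (T := T) hT hw x0 n u
  have hgd : ∀ n u, HasDerivAt (g n) (g (n + 1) u) u := fun n u => exp_half_seq n u
  have hfc := E1c146.contDiff_seq hfd
  have hgc := E1c146.contDiff_seq hgd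
  obtain ⟨k, hk1, hk2, hk3, hk4⟩ := hker (fun u => f 0 u * g 0 u)
    (2 ^ A * (C * Cb) * Real.exp ((R + 1) / 2) * b x0)
    (mul_nonneg (by positivity) (hb0 x0)) (hfc.mul hgc) (fun n hn u hu => by
      rw [← norm_iteratedFDeriv_eq_norm_iteratedDeriv]
      refine (norm_iteratedFDeriv_mul_le (N := ∞) hfc hgc u (by exact_mod_cast le_top)).trans ?_
      have h1 : ∀ i ∈ Finset.range (n + 1), (n.choose i : ℝ) * ‖iteratedFDeriv ℝ i (f 0) u‖ *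
          ‖iteratedFDeriv ℝ (n - i) (g 0) u‖ ≤
          (n.choose i : ℝ) * ((C * Cb * b x0) * Real.exp ((R + 1) / 2)) := by
        intro i hi
        have hi' : i ≤ A := by
          have := Finset.mem_range.mp hi; omega
        rw [norm_iteratedFDeriv_eq_norm_iteratedDeriv, norm_iteratedFDeriv_eq_norm_iteratedDeriv,
          E1c146.iteratedDeriv_seq hfd, E1c146.iteratedDeriv_seq hgd, mul_assoc]
        refine mul_le_mul_of_nonneg_left ?_ (Nat.cast_nonneg _)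
        have e1 : ‖f i u‖ ≤ C * Cb * b x0 := by
          simp only [hf]
          rw [Complex.norm_real, Real.norm_eq_abs, abs_mul, abs_pow, abs_neg, abs_one, one_pow,
            one_mul]
          refine (hbn i hi' _).trans ?_
          rw [mul_assoc]
          exact mul_le_mul_of_nonneg_left (hsh x0 u hu) hC
        have e2 : ‖g (n - i) u‖ ≤ Real.exp ((R + 1) / 2) := by
          simp only [hg]
          rw [Complex.norm_real, Real.norm_eq_abs, abs_mul, abs_pow, abs_neg,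
            abs_of_pos (Real.exp_pos _)]
          have e3 : |(1 / 2 : ℝ)| ^ (n - i) ≤ 1 := by
            apply pow_le_one₀ (abs_nonneg _)
            rw [abs_of_pos (by norm_num)]; norm_num
          have e4 : Real.exp (-u / 2) ≤ Real.exp ((R + 1) / 2) := by
            apply Real.exp_le_exp.mpr
            linarith [(abs_le.mp hu).1]
          calc |(1 / 2 : ℝ)| ^ (n - i) * Real.exp (-u / 2) ≤ 1 * Real.exp ((R + 1) / 2) :=
                mul_le_mul e3 e4 (Real.exp_pos _).le zero_le_one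
            _ = _ := one_mul _
        exact mul_le_mul e1 e2 (norm_nonneg _)
          (mul_nonneg (mul_nonneg hC hCb) (hb0 x0))
      refine (Finset.sum_le_sum h1).trans ?_
      rw [← Finset.sum_mul]
      have h2 : ∑ i ∈ Finset.range (n + 1), (n.choose i : ℝ) = 2 ^ n := by
        exact_mod_cast Nat.sum_range_choose n
      rw [h2]
      have h3 : (2 : ℝ) ^ n ≤ 2 ^ A := pow_le_pow_right₀ (by norm_num) hn
      have h4 : 0 ≤ (C * Cb * b x0) * Real.exp ((R + 1) / 2) :=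
        mul_nonneg (mul_nonneg (mul_nonneg hC hCb) (hb0 x0)) (Real.exp_pos _).le
      calc (2 : ℝ) ^ n * ((C * Cb * b x0) * Real.exp ((R + 1) / 2)) ≤
          2 ^ A * ((C * Cb * b x0) * Real.exp ((R + 1) / 2)) := mul_le_mul_of_nonneg_right h3 h4
        _ = _ := by ring)
  refine ⟨k, hk1, hk2, fun t => (hk3 t).trans (le_of_eq (by ring)), fun u hu => ?_⟩
  rw [← hk4 u hu]
  simp only [hf, hg]
  push_cast
  simp

/-! ### the class functions -/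

/-- full cube sum of the class `κ` (no main term removed) -/
def Sk (w : ℝ → ℝ) (κ : Eis) (x : ℝ) : ℝ :=
  if (3 : ℤ) ∣ κ.im then Sc w x else 3 / 2 * Sc w (x + 3 * Real.log 3) - 1 / 2 * Sc w x

lemma shift_deriv {T : (ℝ → ℝ) → ℝ → ℝ}
    (hT : ∀ w, Wgt w → ∀ x, HasDerivAt (T w) (T (Dw w) x) x) {w : ℝ → ℝ} (hw : Wgt w) (x : ℝ) :
    HasDerivAt (fun x => 3 / 2 * T w (x + 3 * Real.log 3) - 1 / 2 * T w x)
      (3 / 2 * T (Dw w) (x + 3 * Real.log 3) - 1 / 2 * T (Dw w) x) x := by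
  have h1 := (hT w hw (x + 3 * Real.log 3)).comp_add_const x (3 * Real.log 3)
  exact (h1.const_mul (3 / 2)).sub ((hT w hw x).const_mul (1 / 2))

lemma log3_pos : 0 ≤ 3 * Real.log 3 := by
  have := Real.log_nonneg (show (1 : ℝ) ≤ 3 by norm_num)
  linarith

lemma min_shift {R x0 u : ℝ} (hu : |u| ≤ R + 1) :
    min 1 (Real.exp (-(x0 - u) / 3)) ≤ Real.exp ((R + 1) / 3) * min 1 (Real.exp (-x0 / 3)) :=
  E1c146.exp_shift_min hu

/-- the decay function of `Sc` -/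
def bS (B : ℕ) (x : ℝ) : ℝ := Real.exp (-x / 3) / (1 + Real.exp x) ^ B

lemma bS_nonneg (B : ℕ) (x : ℝ) : 0 ≤ bS B x := by
  unfold bS; have := Real.exp_pos x; positivity

lemma bS_anti (B : ℕ) {x y : ℝ} (h : x ≤ y) : bS B y ≤ bS B x := by
  unfold bS
  have h1 := Real.exp_pos x
  have h2 : Real.exp x ≤ Real.exp y := Real.exp_le_exp.mpr h
  have h3 : Real.exp (-y / 3) ≤ Real.exp (-x / 3) := Real.exp_le_exp.mpr (by linarith)
  gcongr

lemma bS_shift (B : ℕ) {R x0 u : ℝ} (hu : |u| ≤ R + 1) :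
    bS B (x0 - u) ≤ (Real.exp ((R + 1) / 3) * Real.exp (R + 1) ^ B) * bS B x0 := by
  unfold bS
  have he0 := Real.exp_pos x0
  have h1 := abs_le.mp hu
  have h2 : Real.exp (-(x0 - u) / 3) ≤ Real.exp ((R + 1) / 3) * Real.exp (-x0 / 3) := by
    rw [← Real.exp_add]
    exact Real.exp_le_exp.mpr (by linarith)
  have h3 : 1 + Real.exp x0 ≤ Real.exp (R + 1) * (1 + Real.exp (x0 - u)) := by
    have e1 : Real.exp x0 ≤ Real.exp (R + 1) * Real.exp (x0 - u) := by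
      rw [← Real.exp_add]
      exact Real.exp_le_exp.mpr (by linarith)
    have e2 : 1 ≤ Real.exp (R + 1) := Real.one_le_exp (by linarith)
    nlinarith
  have hxu := Real.exp_pos (x0 - u)
  have h4 : (1 + Real.exp x0) ^ B ≤ Real.exp (R + 1) ^ B * (1 + Real.exp (x0 - u)) ^ B := by
    rw [← mul_pow]
    gcongr
  have h5 : 1 / (1 + Real.exp (x0 - u)) ^ B ≤ Real.exp (R + 1) ^ B / (1 + Real.exp x0) ^ B := by
    rw [div_le_div_iff₀ (by positivity) (by positivity), one_mul]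
    exact h4
  calc Real.exp (-(x0 - u) / 3) / (1 + Real.exp (x0 - u)) ^ B
      = Real.exp (-(x0 - u) / 3) * (1 / (1 + Real.exp (x0 - u)) ^ B) := by ring
    _ ≤ (Real.exp ((R + 1) / 3) * Real.exp (-x0 / 3)) *
        (Real.exp (R + 1) ^ B / (1 + Real.exp x0) ^ B) := by gcongr
    _ = _ := by ring

lemma two_case {T : (ℝ → ℝ) → ℝ → ℝ} {b : ℝ → ℝ} (hb0 : ∀ x, 0 ≤ b x)
    (hanti : ∀ x y, x ≤ y → b y ≤ b x)
    (hb : ∀ w, Wgt w → ∃ C : ℝ, 0 ≤ C ∧ ∀ x, |T w x| ≤ C * b x) (w : ℝ → ℝ) (hw : Wgt w) :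
    ∃ C : ℝ, 0 ≤ C ∧ ∀ x, |3 / 2 * T w (x + 3 * Real.log 3) - 1 / 2 * T w x| ≤ C * b x := by
  obtain ⟨C, hC, h⟩ := hb w hw
  refine ⟨2 * C, by positivity, fun x => ?_⟩
  have h1 := h (x + 3 * Real.log 3)
  have h2 := h x
  have h3 := mul_le_mul_of_nonneg_left (hanti x (x + 3 * Real.log 3) (by linarith [log3_pos])) hC
  refine (abs_sub _ _).trans ?_
  rw [abs_mul, abs_mul, abs_of_pos (show (0 : ℝ) < 3 / 2 by norm_num),
    abs_of_pos (show (0 : ℝ) < 1 / 2 by norm_num)]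
  linarith

/-- both classes at once -/
lemma both {T : (ℝ → ℝ) → ℝ → ℝ}
    (hT : ∀ w, Wgt w → ∀ x, HasDerivAt (T w) (T (Dw w) x) x) {b : ℝ → ℝ} (hb0 : ∀ x, 0 ≤ b x)
    (hanti : ∀ x y, x ≤ y → b y ≤ b x)
    (hb : ∀ w, Wgt w → ∃ C : ℝ, 0 ≤ C ∧ ∀ x, |T w x| ≤ C * b x) {R : ℝ} (hR : 0 ≤ R) {Cb : ℝ}
    (hCb : 0 ≤ Cb) (hsh : ∀ x0 u, |u| ≤ R + 1 → b (x0 - u) ≤ Cb * b x0) {w : ℝ → ℝ} (hw : Wgt w)
    (A : ℕ) : ∃ C : ℝ, 0 ≤ C ∧ ∀ (κ : Eis) (x0 : ℝ), ∃ k : ℝ → ℂ, Continuous k ∧ Integrable k ∧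
      (∀ t, ‖k t‖ * (1 + |t|) ^ A ≤ C * b x0) ∧
      ∀ u, |u| ≤ R → (((if (3 : ℤ) ∣ κ.im then T w (x0 - u) else
        3 / 2 * T w (x0 - u + 3 * Real.log 3) - 1 / 2 * T w (x0 - u)) * Real.exp (-u / 2) : ℝ) : ℂ) =
          ∫ t, k t * osc t u := by
  obtain ⟨C1, hC1, h1⟩ := gen_kernel hT hb0 hb hR hCb hsh hw A
  obtain ⟨C2, hC2, h2⟩ := gen_kernel
    (T := fun w x => 3 / 2 * T w (x + 3 * Real.log 3) - 1 / 2 * T w x)
    (fun w hw x => shift_deriv hT hw x) hb0 (fun w hw => two_case hb0 hanti hb w hw) hR hCb hsh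
    hw A
  refine ⟨max C1 C2, le_max_of_le_left hC1, fun κ x0 => ?_⟩
  by_cases h3 : (3 : ℤ) ∣ κ.im
  · obtain ⟨k, a1, a2, a3, a4⟩ := h1 x0
    refine ⟨k, a1, a2, fun t => (a3 t).trans (mul_le_mul_of_nonneg_right (le_max_left _ _)
      (hb0 x0)), fun u hu => ?_⟩
    rw [if_pos h3]; exact a4 u hu
  · obtain ⟨k, a1, a2, a3, a4⟩ := h2 x0
    refine ⟨k, a1, a2, fun t => (a3 t).trans (mul_le_mul_of_nonneg_right (le_max_right _ _)
      (hb0 x0)), fun u hu => ?_⟩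
    rw [if_neg h3]; exact a4 u hu

/-- **(K1)**, natural exponent -/
theorem Tk_kernel_nat {w : ℝ → ℝ} (hw : Wgt w) {R : ℝ} (hR : 0 ≤ R) (A : ℕ) : ∃ C : ℝ, 0 ≤ C ∧
    ∀ (κ : Eis) (x0 : ℝ), ∃ k : ℝ → ℂ, Continuous k ∧ Integrable k ∧
      (∀ t, ‖k t‖ * (1 + |t|) ^ A ≤ C * min 1 (Real.exp (-x0 / 3))) ∧
      ∀ u, |u| ≤ R → ((Tk w κ (x0 - u) * Real.exp (-u / 2) : ℝ) : ℂ) = ∫ t, k t * osc t u :=
  both (T := Tc) (fun w hw x => hasDerivAt_Tc hw x)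
    (fun x => le_min zero_le_one (Real.exp_pos _).le)
    (fun x y h => min_le_min le_rfl (Real.exp_le_exp.mpr (by linarith)))
    (fun w hw => Tc_bound hw) hR (Real.exp_pos ((R + 1) / 3)).le (fun x0 u hu => min_shift hu) hw A

/-- **(K2)**, natural exponents -/
theorem Sk_kernel_nat {w : ℝ → ℝ} (hw : Wgt w) {R : ℝ} (hR : 0 ≤ R) (A B : ℕ) : ∃ C : ℝ, 0 ≤ C ∧
    ∀ (κ : Eis) (x0 : ℝ), ∃ k : ℝ → ℂ, Continuous k ∧ Integrable k ∧
      (∀ t, ‖k t‖ * (1 + |t|) ^ A ≤ C * (Real.exp (-x0 / 3) / (1 + Real.exp x0) ^ B)) ∧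
      ∀ u, |u| ≤ R → ((Sk w κ (x0 - u) * Real.exp (-u / 2) : ℝ) : ℂ) = ∫ t, k t * osc t u :=
  both (T := Sc) (b := bS B) (fun w hw x => hasDerivAt_Sc hw x) (bS_nonneg B)
    (fun x y h => bS_anti B h)
    (fun w hw => by
      obtain ⟨C, hC, h⟩ := Sc_bound hw B
      exact ⟨C, hC, fun x => (h x).trans (le_of_eq (by unfold bS; ring))⟩) hR
    (by positivity) (fun x0 u hu => bS_shift B hu) hw A

/-- **(K1)** -/
theorem Tk_kernel {w : ℝ → ℝ} (hw : Wgt w) {R : ℝ} (hR : 0 ≤ R) (A : ℝ) : ∃ C : ℝ, 0 ≤ C ∧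
    ∀ (κ : Eis) (x0 : ℝ), ∃ k : ℝ → ℂ, Continuous k ∧ Integrable k ∧
      (∀ t, ‖k t‖ ≤ C * min 1 (Real.exp (-x0 / 3)) * (1 + |t|) ^ (-A)) ∧
      ∀ u, |u| ≤ R → ((Tk w κ (x0 - u) * Real.exp (-u / 2) : ℝ) : ℂ) = ∫ t, k t * osc t u := by
  obtain ⟨C, hC, h⟩ := Tk_kernel_nat hw hR ⌈A⌉₊
  refine ⟨C, hC, fun κ x0 => ?_⟩
  obtain ⟨k, h1, h2, h3, h4⟩ := h κ x0
  have hm : 0 ≤ min 1 (Real.exp (-x0 / 3)) := le_min zero_le_one (Real.exp_pos _).le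
  exact ⟨k, h1, h2, fun t => E1c146.le_rpow_of_nat (by positivity) t (h3 t), h4⟩

/-- **(K2)** -/
theorem Sk_kernel {w : ℝ → ℝ} (hw : Wgt w) {R : ℝ} (hR : 0 ≤ R) (A B : ℝ) : ∃ C : ℝ, 0 ≤ C ∧
    ∀ (κ : Eis) (x0 : ℝ), ∃ k : ℝ → ℂ, Continuous k ∧ Integrable k ∧
      (∀ t, ‖k t‖ ≤ C * (Real.exp (-x0 / 3) * (1 + Real.exp x0) ^ (-B)) * (1 + |t|) ^ (-A)) ∧
      ∀ u, |u| ≤ R → ((Sk w κ (x0 - u) * Real.exp (-u / 2) : ℝ) : ℂ) = ∫ t, k t * osc t u := by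
  obtain ⟨C, hC, h⟩ := Sk_kernel_nat hw hR ⌈A⌉₊ ⌈B⌉₊
  refine ⟨C, hC, fun κ x0 => ?_⟩
  obtain ⟨k, h1, h2, h3, h4⟩ := h κ x0
  have he := Real.exp_pos x0
  refine ⟨k, h1, h2, fun t => ?_, h4⟩
  refine E1c146.le_rpow_of_nat (by positivity) t ((h3 t).trans ?_)
  refine mul_le_mul_of_nonneg_left ?_ hC
  rw [div_eq_mul_inv, ← Real.rpow_natCast, ← Real.rpow_neg (by positivity)]
  refine mul_le_mul_of_nonneg_left ?_ (Real.exp_pos _).le
  apply Real.rpow_le_rpow_of_exponent_le (by linarith)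
  linarith [Nat.le_ceil B]

/-! ### sums -/

/-- **(Ssum)** -/
theorem sum_inv_S {Y : ℝ} (hY : 1 ≤ Y) :
    ∑ D ∈ LS2.S Y, (1 : ℝ) / nm D ≤ 200 * (1 + Real.log Y) := by
  have h0 : (0 : ℝ) ≤ Y := by linarith
  have hsub : LS2.S Y ⊆ Mob705.pb Y := by
    intro d hd
    have h1 := (LS2.mem_S h0).mp hd
    exact Mob705.mem_pb.mpr ⟨h1.1, h1.2.1⟩
  refine (Finset.sum_le_sum_of_subset_of_nonneg hsub fun _ _ _ => by positivity).trans ?_
  refine (Mob705.sum_inv_nm_le h0).trans ?_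
  have h2 : Real.log (1 + Y) ≤ Real.log (2 * Y) := Real.log_le_log (by linarith) (by linarith)
  rw [Real.log_mul (by norm_num) (by linarith)] at h2
  have h3 : Real.log 2 ≤ 1 := by
    have := Real.log_two_lt_d9; linarith
  have h4 := Real.log_nonneg hY
  linarith

/-- summability over all `κ ≠ 0` (the term at `0` vanishes) -/
theorem summable_inv_nm {s : ℝ} (hs : 1 < s) : Summable fun κ : Eis => (nm κ : ℝ) ^ (-s) :=
  LatSum413.summable_nm_rpow hs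

end Crest.Agent.R017.E1551
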