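import Crest.Agent.R017.E1h_551
import Crest.Agent.R017.E1k_146

/-!
# Row 17, block C70 (exact square), leaf E1, part i (helper551): the exact identity

`E1_exact`.
-/

set_option autoImplicit false

noncomputable section

open Complex MeasureTheory
open scoped ComplexConjugate Classical

namespace Crest.Agent.R017.E1551

open Crest.Agent.R012 Crest.Agent.R012.Eis Crest.Agent.R012.MC
open Crest.Agent.R012.LS2 (S mem_S)
open Crest.Agent.R012.Mob705 (mu pdiv mem_pdiv mu_mul abs_mu_le_one PE pp)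
open Crest.Agent.R012.Tau671 (norm_sy_le sy_eq_zero)
open Crest.Agent.R017.PX764 (cpS cpS_congr cpS_add cpS_smul cpS_sum sum_eq_cpS)
open Crest.Agent.R017.Dual2813 (S_of_dvd)
open Crest.Agent.R017.CM106 (CS)

lemma Rc_eq (w : ℝ → ℝ) (κ : Eis) (x : ℝ) (q : Eis) : Rc w κ x q = HT (Tk w κ) x q := rfl

lemma Hc_eq {w : ℝ → ℝ} (hw : Wgt w) (κ : Eis) (x : ℝ) {q : Eis} (hq : IsPrim q) :
    Hc w κ x q = HT (Sk w κ) x q := by
  unfold Hc HT Sk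
  by_cases h : (3 : ℤ) ∣ κ.im
  · simp only [if_pos h]
    rw [Cc_eq hw x hq]
  · simp only [if_neg h]
    rw [Cc_eq hw _ hq, Cc_eq hw _ hq, Finset.mul_sum, Finset.mul_sum, ← Finset.sum_sub_distrib]
    refine Finset.sum_congr rfl fun D _ => ?_
    rw [show x + 3 * Real.log 3 + 3 * Real.log (nm D) = x + 3 * Real.log (nm D) + 3 * Real.log 3
      by ring]
    ring

/-- `log (K N(κ) / (27 N(g)³))` -/
def xk (K : ℝ) (κ g : Eis) : ℝ := Real.log (K * nm κ / (27 * (nm g : ℝ) ^ 3))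

lemma xx_eq {K : ℝ} (hK : 0 < K) {κ m₁ m₂ g : Eis} (hκ : κ ≠ 0) (h₁ : m₁ ≠ 0) (h₂ : m₂ ≠ 0)
    (hg : g ≠ 0) : xx K κ (m₁ * m₂) g = xk K κ g - Real.log (nm m₁) - Real.log (nm m₂) := by
  have n1 := nmpos hκ
  have n2 := nmpos h₁
  have n3 := nmpos h₂
  have n4 := nmpos hg
  unfold xx xk
  rw [nm_mul, sub_sub, ← Real.log_mul n2.ne' n3.ne', ← Real.log_div (by positivity)
    (by positivity)]
  congr 1
  push_cast
  field_simp

/-! ### the smooth square sum -/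

/-- smooth square sum over the primary elements -/
def SqP (w : ℝ → ℝ) (K : ℝ) (α : Eis → ℂ) : ℝ :=
  ∑' k : Eis, if IsPrim k then w (nm k / K) * ‖CS α k‖ ^ 2 else 0

/-- the sum of one pair -/
def Pk (w : ℝ → ℝ) (K : ℝ) (n₁ n₂ : Eis) : ℂ :=
  ∑' k : Eis, (if IsPrim k then sy k n₁ * conj (sy k n₂) else 0) * ((w (nm k / K) : ℝ) : ℂ)

lemma summable_wF {w : ℝ → ℝ} (hw : Wgt w) {K : ℝ} (hK : 0 < K) (F : Eis → ℂ) :
    Summable fun k : Eis => F k * ((w (nm k / K) : ℝ) : ℂ) := by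
  refine summable_of_hasFiniteSupport ((hw.finite_support hK).subset fun k hk h0 => hk ?_)
  have : w (nm k / K) = 0 := h0
  simp [this]

lemma CS_fin {Y : ℝ} {α : Eis → ℂ} (hα : ∀ n, α n ≠ 0 → n ∈ S Y) (k : Eis) :
    CS α k = ∑ n ∈ S Y, α n * sy k n := by
  unfold CS
  refine tsum_eq_sum fun n hn => ?_
  have : α n = 0 := by
    by_contra h
    exact hn (hα n h)
  rw [this, zero_mul]

theorem SqP_eq {w : ℝ → ℝ} (hw : Wgt w) {K : ℝ} (hK : 0 < K) {Y : ℝ} {α : Eis → ℂ}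
    (hα : ∀ n, α n ≠ 0 → n ∈ S Y) :
    ((SqP w K α : ℝ) : ℂ) = ∑ n₁ ∈ S Y, ∑ n₂ ∈ S Y, α n₁ * conj (α n₂) * Pk w K n₁ n₂ := by
  unfold SqP
  rw [Complex.ofReal_tsum]
  have e1 : ∀ k : Eis, (((if IsPrim k then w (nm k / K) * ‖CS α k‖ ^ 2 else 0 : ℝ)) : ℂ) =
      ∑ n₁ ∈ S Y, ∑ n₂ ∈ S Y, α n₁ * conj (α n₂) *
        ((if IsPrim k then sy k n₁ * conj (sy k n₂) else 0) * ((w (nm k / K) : ℝ) : ℂ)) := by
    intro k
    by_cases hk : IsPrim k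
    · rw [if_pos hk, CS_fin hα]
      have e2 : ((‖∑ n ∈ S Y, α n * sy k n‖ ^ 2 : ℝ) : ℂ) =
          (∑ n ∈ S Y, α n * sy k n) * conj (∑ n ∈ S Y, α n * sy k n) := by
        rw [Complex.mul_conj, Complex.normSq_eq_norm_sq]
      push_cast at e2 ⊢
      rw [e2, map_sum, Finset.sum_mul_sum, Finset.mul_sum]
      refine Finset.sum_congr rfl fun n₁ _ => ?_
      rw [Finset.mul_sum]
      refine Finset.sum_congr rfl fun n₂ _ => ?_
      rw [if_pos hk, map_mul]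
      ring
    · rw [if_neg hk]
      simp [hk]
  rw [tsum_congr e1, Summable.tsum_finsetSum (fun n₁ _ => summable_sum fun n₂ _ =>
    (summable_wF hw hK _).mul_left _)]
  refine Finset.sum_congr rfl fun n₁ _ => ?_
  rw [Summable.tsum_finsetSum (fun n₂ _ => (summable_wF hw hK _).mul_left _)]
  refine Finset.sum_congr rfl fun n₂ _ => ?_
  rw [tsum_mul_left]
  rfl

/-! ### infinite sums under `cpS` -/

lemma cpS_tsum {Y : ℝ} (α : Eis → ℂ) (d : Eis) (F : Eis → Eis → Eis → ℂ)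
    (hF : ∀ k₁ k₂, k₁ ∈ S Y → k₂ ∈ S Y → IsCoprime k₁ k₂ → α (d * k₁) ≠ 0 → α (d * k₂) ≠ 0 →
      Summable fun κ => F κ k₁ k₂) :
    Summable (fun κ => cpS Y α α d (F κ)) ∧
      cpS Y α α d (fun k₁ k₂ => ∑' κ, F κ k₁ k₂) = ∑' κ, cpS Y α α d (F κ) := by
  have hs : ∀ k₁ ∈ S Y, ∀ k₂ ∈ S Y, Summable fun κ =>
      if IsCoprime k₁ k₂ then α (d * k₁) * conj (α (d * k₂)) * F κ k₁ k₂ else 0 := by
    intro k₁ h₁ k₂ h₂
    by_cases hc : IsCoprime k₁ k₂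
    · simp only [if_pos hc]
      by_cases a : α (d * k₁) = 0
      · simp only [a, zero_mul]; exact summable_zero
      by_cases b : α (d * k₂) = 0
      · simp only [b, map_zero, mul_zero, zero_mul]; exact summable_zero
      exact (hF k₁ k₂ h₁ h₂ hc a b).mul_left _
    · simp only [if_neg hc]; exact summable_zero
  have hs2 : ∀ k₁ ∈ S Y, Summable fun κ => ∑ k₂ ∈ S Y,
      if IsCoprime k₁ k₂ then α (d * k₁) * conj (α (d * k₂)) * F κ k₁ k₂ else 0 :=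
    fun k₁ h₁ => summable_sum fun k₂ h₂ => hs k₁ h₁ k₂ h₂
  constructor
  · unfold cpS
    exact summable_sum hs2
  · unfold cpS
    rw [Summable.tsum_finsetSum hs2]
    refine Finset.sum_congr rfl fun k₁ h₁ => ?_
    rw [Summable.tsum_finsetSum (hs k₁ h₁)]
    refine Finset.sum_congr rfl fun k₂ h₂ => ?_
    split_ifs
    · rw [tsum_mul_left]
    · rw [tsum_zero]

/-- arithmetic of the pair -/
lemma pair_arith {Y : ℝ} (hY : 0 ≤ Y) {α : Eis → ℂ} (hα : ∀ n, α n ≠ 0 → n ∈ S Y)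
    {d k₁ : Eis} (h : α (d * k₁) ≠ 0) : Squarefree d ∧ Squarefree k₁ ∧ IsCoprime d k₁ := by
  have h1 := ((mem_S hY).1 (hα _ h)).2.2
  obtain ⟨h2, h3, h4⟩ := squarefree_mul_iff.mp h1
  exact ⟨h3, h4, h2.isCoprime⟩

lemma G_one551 : G (1 : Eis) = 1 := by
  have h3 := Gauss880.G_mul_conj Gauss880.syG isPrim_one squarefree_one
  have h4 := Gauss880.G_mul Gauss880.syG isPrim_one isPrim_one isCoprime_one_left
  rw [mul_one, Sym645.sy_one_right, map_one, mul_one] at h4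
  have h5 : G (1 : Eis) ≠ 0 := left_ne_zero_of_mul_eq_one h3
  exact (mul_right_cancel₀ h5 (by rw [one_mul]; exact h4)).symm

/-- the diagonal form -/
lemma cpS_diag {Y : ℝ} (hY : 1 ≤ Y) {α : Eis → ℂ} {d : Eis} (c : ℂ) :
    cpS Y α α d (fun k₁ k₂ => (((Real.sqrt (nm k₁ * nm k₂))⁻¹ : ℝ) : ℂ) *
      (G k₁ * conj (G k₂)) * (Vp 0 k₁ k₂ * c)) = α d * conj (α d) * c := by
  have hY0 : 0 ≤ Y := by linarith
  have h1S : (1 : Eis) ∈ S Y := (mem_S hY0).2 ⟨by rw [nm_one]; exact_mod_cast hY, isPrim_one,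
    squarefree_one⟩
  have hz : ∀ k ∈ S Y, k ≠ 1 → sy 0 k = 0 := by
    intro k hk h1
    have hk' := ((mem_S hY0).1 hk).2.1
    apply sy_eq_zero hk'
    intro h
    rw [isCoprime_zero_left] at h
    exact h1 (hk'.eq_of_associated isPrim_one (associated_one_iff_isUnit.mpr h))
  unfold cpS
  rw [Finset.sum_eq_single_of_mem 1 h1S]
  · rw [Finset.sum_eq_single_of_mem 1 h1S]
    · rw [if_pos isCoprime_one_left]
      have e1 : G (1 : Eis) = 1 := G_one551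
      have e2 : Vp 0 1 1 = 1 := by
        unfold Vp
        rw [Sym645.sy_one_right]; simp
      beta_reduce
      rw [e1, e2, nm_one, mul_one]
      simp
    · intro k₂ h₂ hne
      split_ifs
      · unfold Vp; beta_reduce; rw [hz k₂ h₂ hne]; simp
      · rfl
  · intro k₁ h₁ hne
    refine Finset.sum_eq_zero fun k₂ _ => ?_
    split_ifs
    · unfold Vp; beta_reduce; rw [hz k₁ h₁ hne]; simp
    · rfl

/-- the remainder of the block `d` -/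
def RemD (w : ℝ → ℝ) (K Y : ℝ) (α : Eis → ℂ) (J : Finset Eis) (d : Eis) : ℂ :=
  ∑ e ∈ pdiv d, (mu e : ℂ) * (nm e : ℂ)⁻¹ *
    (∑ κ ∈ J, BT Y α d κ (Tk w κ) (xk K κ (g2 κ e)) +
      ∑' κ : Eis, if CF κ ∧ κ ∉ J then BT Y α d κ (Sk w κ) (xk K κ (g2 κ e)) else 0)

lemma cpS_zero' {Y : ℝ} {α : Eis → ℂ} {d : Eis} (h : ∀ k, α (d * k) = 0)
    (Ψ : Eis → Eis → ℂ) : cpS Y α α d Ψ = 0 := by
  unfold cpS
  refine Finset.sum_eq_zero fun k₁ _ => Finset.sum_eq_zero fun k₂ _ => ?_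
  rw [h k₁]; simp

/-- the Hermitian kernel of one class, `T = Sk` -/
lemma summable_cls {w : ℝ → ℝ} (hw : Wgt w) {K : ℝ} (hK : 0 < K) {Y : ℝ} (hY : 0 ≤ Y)
    {α : Eis → ℂ} (hα : ∀ n, α n ≠ 0 → n ∈ S Y) {d : Eis} (hd : d ∈ S Y) {e : Eis}
    (he : e ∈ pdiv d) (J : Finset Eis) {k₁ k₂ : Eis} (h₁ : k₁ ∈ S Y) (h₂ : k₂ ∈ S Y)
    (a : α (d * k₁) ≠ 0) (b : α (d * k₂) ≠ 0) :
    Summable fun κ : Eis => if CF κ ∧ κ ∉ J then
      Vp κ k₁ k₂ * ((Hc w κ (xx K κ (k₁ * k₂) (g2 κ e)) (k₁ * k₂) : ℝ) : ℂ) else 0 := by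
  have hd' := (mem_S hY).1 hd
  obtain ⟨hep, hed⟩ := (mem_pdiv hd'.2.1.ne_zero).mp he
  have hes : Squarefree e := hd'.2.2.squarefree_of_dvd hed
  have c1 := (pair_arith hY hα a).2.2
  have c2 := (pair_arith hY hα b).2.2
  have hc : IsCoprime e (k₁ * k₂) :=
    (c1.of_isCoprime_of_dvd_left hed).mul_right (c2.of_isCoprime_of_dvd_left hed)
  have hsF := summable_class hw hK ((mem_S hY).1 h₁).2.1 ((mem_S hY).1 h₂).2.1 hep hes hc
  have s1 : Summable fun κ : Eis => if κ ∈ J then (if CF κ then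
      Vp κ k₁ k₂ * ((Hc w κ (xx K κ (k₁ * k₂) (g2 κ e)) (k₁ * k₂) : ℝ) : ℂ) else 0) else 0 :=
    summable_of_ne_finset_zero (s := J) (fun κ hκ => if_neg hκ)
  refine (hsF.sub s1).congr fun κ => ?_
  by_cases h1 : κ ∈ J
  · simp [h1]
  · by_cases h2 : CF κ
    · simp [h1, h2]
    · simp [h1, h2]

/-- one block -/
theorem block_eq {w : ℝ → ℝ} (hw : Wgt w) {K : ℝ} (hK : 0 < K) {Y : ℝ} (hY : 1 ≤ Y)
    {α : Eis → ℂ} (hα : ∀ n, α n ≠ 0 → n ∈ S Y) {d : Eis} (hd : d ∈ S Y) (J : Finset Eis)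
    (hJ : ∀ κ ∈ J, CF κ) :
    cpS Y α α d (fun k₁ k₂ => Pk w K (d * k₁) (d * k₂)) =
      ((2 * K / (9 * Real.sqrt 3) * Wt w 0 * (PE d * ‖α d‖ ^ 2) : ℝ) : ℂ) +
      ((cP w * K ^ (2 / 3 : ℝ) : ℝ) : ℂ) * cpS Y α α d (fun k₁ k₂ => Mp J d k₁ k₂) +
      ((2 * K / (54 * Real.sqrt 3) : ℝ) : ℂ) * RemD w K Y α J d := by
  have hY0 : 0 ≤ Y := by linarith
  have hd' := (mem_S hY0).1 hd
  set W : Eis → Eis → ℂ := fun k₁ k₂ => (((Real.sqrt (nm k₁ * nm k₂))⁻¹ : ℝ) : ℂ) *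
      (G k₁ * conj (G k₂)) with hW
  -- the pair formula
  have e1 : cpS Y α α d (fun k₁ k₂ => Pk w K (d * k₁) (d * k₂)) =
      cpS Y α α d (fun k₁ k₂ =>
        (((2 * K / (9 * Real.sqrt 3) : ℝ) : ℂ) *
          (W k₁ k₂ * (Vp 0 k₁ k₂ * ((((PE d * Wt w 0 : ℝ)) : ℂ)))) +
        ((cP w * K ^ (2 / 3 : ℝ) : ℝ) : ℂ) * Mp J d k₁ k₂) +
        ((2 * K / (54 * Real.sqrt 3) : ℝ) : ℂ) * (∑ e ∈ pdiv d, ((mu e : ℂ) * (nm e : ℂ)⁻¹) *
          (∑ κ ∈ J, W k₁ k₂ * (Vp κ k₁ k₂ *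
            ((HT (Tk w κ) (xk K κ (g2 κ e) - Real.log (nm k₁) - Real.log (nm k₂)) (k₁ * k₂) : ℝ) : ℂ)) +
           ∑' κ : Eis, if CF κ ∧ κ ∉ J then W k₁ k₂ * (Vp κ k₁ k₂ *
            ((HT (Sk w κ) (xk K κ (g2 κ e) - Real.log (nm k₁) - Real.log (nm k₂)) (k₁ * k₂) : ℝ) : ℂ))
            else 0))) := by
    refine cpS_congr fun k₁ k₂ h₁ h₂ hc a b => ?_
    have h₁' := (mem_S hY0).1 h₁
    have h₂' := (mem_S hY0).1 h₂
    obtain ⟨-, -, c1⟩ := pair_arith hY0 hα a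
    obtain ⟨-, -, c2⟩ := pair_arith hY0 hα b
    have hq : IsPrim (k₁ * k₂) := h₁'.2.1.mul h₂'.2.1
    have key := pair_final hw hK hd'.2.1 h₁'.2.1 h₂'.2.1 hd'.2.2 h₁'.2.2 h₂'.2.2 hc c1 c2 J hJ
    show Pk w K (d * k₁) (d * k₂) = _
    unfold Pk
    rw [key]
    have n1 := nmpos h₁'.2.1.ne_zero
    have n2 := nmpos h₂'.2.1.ne_zero
    have hx : ∀ κ e : Eis, CF κ → xx K κ (k₁ * k₂) (g2 κ e) =
        xk K κ (g2 κ e) - Real.log (nm k₁) - Real.log (nm k₂) := fun κ e hκ =>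
      xx_eq hK hκ.1 h₁'.2.1.ne_zero h₂'.2.1.ne_zero (g2_prim κ e).ne_zero
    have t1 : ∀ e : Eis, (∑ κ ∈ J, W k₁ k₂ * (Vp κ k₁ k₂ *
            ((HT (Tk w κ) (xk K κ (g2 κ e) - Real.log (nm k₁) - Real.log (nm k₂)) (k₁ * k₂) : ℝ) : ℂ))) =
          W k₁ k₂ * ∑ κ ∈ J, Vp κ k₁ k₂ *
            ((Rc w κ (xx K κ (k₁ * k₂) (g2 κ e)) (k₁ * k₂) : ℝ) : ℂ) := by
      intro e
      rw [Finset.mul_sum]
      refine Finset.sum_congr rfl fun κ hκ => ?_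
      rw [Rc_eq, hx κ e (hJ κ hκ)]
    have t2 : ∀ e : Eis, (∑' κ : Eis, if CF κ ∧ κ ∉ J then W k₁ k₂ * (Vp κ k₁ k₂ *
            ((HT (Sk w κ) (xk K κ (g2 κ e) - Real.log (nm k₁) - Real.log (nm k₂)) (k₁ * k₂) : ℝ) : ℂ))
            else 0) =
          W k₁ k₂ * ∑' κ : Eis, if CF κ ∧ κ ∉ J then
            Vp κ k₁ k₂ * ((Hc w κ (xx K κ (k₁ * k₂) (g2 κ e)) (k₁ * k₂) : ℝ) : ℂ) else 0 := by
      intro e
      rw [← tsum_mul_left]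
      refine tsum_congr fun κ => ?_
      by_cases hκ : CF κ ∧ κ ∉ J
      · rw [if_pos hκ, if_pos hκ, Hc_eq hw κ _ hq, hx κ e hκ.1]
      · rw [if_neg hκ, if_neg hκ, mul_zero]
    simp_rw [t1, t2]
    have t3 : (∑ e ∈ pdiv d, ((mu e : ℂ) * (nm e : ℂ)⁻¹) *
          (W k₁ k₂ * (∑ κ ∈ J, Vp κ k₁ k₂ *
            ((Rc w κ (xx K κ (k₁ * k₂) (g2 κ e)) (k₁ * k₂) : ℝ) : ℂ)) +
           W k₁ k₂ * ∑' κ : Eis, if CF κ ∧ κ ∉ J then
            Vp κ k₁ k₂ * ((Hc w κ (xx K κ (k₁ * k₂) (g2 κ e)) (k₁ * k₂) : ℝ) : ℂ) else 0)) =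
        W k₁ k₂ * ∑ e ∈ pdiv d, (mu e : ℂ) * (nm e : ℂ)⁻¹ *
          (∑ κ ∈ J, Vp κ k₁ k₂ *
            ((Rc w κ (xx K κ (k₁ * k₂) (g2 κ e)) (k₁ * k₂) : ℝ) : ℂ) +
           ∑' κ : Eis, if CF κ ∧ κ ∉ J then
            Vp κ k₁ k₂ * ((Hc w κ (xx K κ (k₁ * k₂) (g2 κ e)) (k₁ * k₂) : ℝ) : ℂ) else 0) := by
      rw [Finset.mul_sum]
      exact Finset.sum_congr rfl fun e _ => by ring
    rw [t3]
    set Sg := ∑ e ∈ pdiv d, (mu e : ℂ) * (nm e : ℂ)⁻¹ *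
          (∑ κ ∈ J, Vp κ k₁ k₂ *
            ((Rc w κ (xx K κ (k₁ * k₂) (g2 κ e)) (k₁ * k₂) : ℝ) : ℂ) +
           ∑' κ : Eis, if CF κ ∧ κ ∉ J then
            Vp κ k₁ k₂ * ((Hc w κ (xx K κ (k₁ * k₂) (g2 κ e)) (k₁ * k₂) : ℝ) : ℂ) else 0)
    have hsq : ((2 * K / (9 * Real.sqrt 3 * Real.sqrt (nm k₁ * nm k₂)) : ℝ) : ℂ) *
        (G k₁ * conj (G k₂)) = ((2 * K / (9 * Real.sqrt 3) : ℝ) : ℂ) * W k₁ k₂ := by
      simp only [hW]
      have h7 : Real.sqrt (nm k₁ * nm k₂) ≠ 0 := (Real.sqrt_pos.mpr (mul_pos n1 n2)).ne'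
      have h8 : (2 * K / (9 * Real.sqrt 3 * Real.sqrt (nm k₁ * nm k₂)) : ℝ) =
          (2 * K / (9 * Real.sqrt 3)) * (Real.sqrt (nm k₁ * nm k₂))⁻¹ := by
        field_simp
      rw [h8, Complex.ofReal_mul]
      ring
    have h54 : ((2 * K / (54 * Real.sqrt 3) : ℝ) : ℂ) =
        ((2 * K / (9 * Real.sqrt 3) : ℝ) : ℂ) * (1 / 6) := by
      have : (2 * K / (54 * Real.sqrt 3) : ℝ) = (2 * K / (9 * Real.sqrt 3)) * (1 / 6) := by
        field_simp; ring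
      rw [this]; push_cast; ring
    rw [hsq, h54]
    push_cast
    ring
  rw [e1, cpS_add, cpS_add, cpS_smul, cpS_smul, cpS_smul]
  congr 1
  · congr 1
    rw [cpS_diag hY]
    have : α d * conj (α d) = ((‖α d‖ ^ 2 : ℝ) : ℂ) := by
      rw [Complex.mul_conj, Complex.normSq_eq_norm_sq]
    rw [this]
    push_cast
    ring
  · congr 1
    unfold RemD
    rw [cpS_sum]
    refine Finset.sum_congr rfl fun e he => ?_
    rw [cpS_smul]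
    congr 1
    rw [cpS_add, cpS_sum]
    congr 1
    have hT := cpS_tsum (Y := Y) α d (fun κ k₁ k₂ => if CF κ ∧ κ ∉ J then W k₁ k₂ * (Vp κ k₁ k₂ *
            ((HT (Sk w κ) (xk K κ (g2 κ e) - Real.log (nm k₁) - Real.log (nm k₂)) (k₁ * k₂) : ℝ) : ℂ))
            else 0) (by
      intro k₁ k₂ h₁ h₂ hc a b
      have h₁' := (mem_S hY0).1 h₁
      have h₂' := (mem_S hY0).1 h₂
      have h9 := (summable_cls hw hK hY0 hα hd he J h₁ h₂ a b).mul_left (W k₁ k₂)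
      refine h9.congr fun κ => ?_
      by_cases hκ : CF κ ∧ κ ∉ J
      · rw [if_pos hκ, if_pos hκ, Hc_eq hw κ _ (h₁'.2.1.mul h₂'.2.1),
          xx_eq hK hκ.1.1 h₁'.2.1.ne_zero h₂'.2.1.ne_zero (g2_prim κ e).ne_zero]
      · rw [if_neg hκ, if_neg hκ, mul_zero])
    rw [hT.2]
    refine tsum_congr fun κ => ?_
    by_cases hκ : CF κ ∧ κ ∉ J
    · simp only [if_pos hκ]
      rfl
    · simp only [if_neg hκ]
      unfold cpS
      simp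

/-- **E1, exact identity.** -/
theorem E1_exact {w : ℝ → ℝ} (hw : Wgt w) {K : ℝ} (hK : 0 < K) {Y : ℝ} (hY : 1 ≤ Y)
    {α : Eis → ℂ} (hα : ∀ n, α n ≠ 0 → n ∈ S Y) (J : Eis → Finset Eis)
    (hJ : ∀ d, ∀ κ ∈ J d, CF κ) :
    ((SqP w K α : ℝ) : ℂ) =
      ((2 * K / (9 * Real.sqrt 3) * Wt w 0 * ∑ d ∈ S Y, PE d * ‖α d‖ ^ 2 : ℝ) : ℂ) +
      ((cP w * K ^ (2 / 3 : ℝ) : ℝ) : ℂ) * ∑ d ∈ S Y, cpS Y α α d (fun k₁ k₂ => Mp (J d) d k₁ k₂) +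
      ((2 * K / (54 * Real.sqrt 3) : ℝ) : ℂ) * ∑ d ∈ S Y, RemD w K Y α (J d) d := by
  have hY0 : 0 ≤ Y := by linarith
  have h0 : ∀ k, k ∉ S Y → α k = 0 := fun k hk => by
    by_contra h; exact hk (hα k h)
  rw [SqP_eq hw hK hα, sum_eq_cpS hY0 h0 h0,
    Finset.sum_congr rfl fun d hd => block_eq hw hK hY hα hd (J d) (hJ d),
    Finset.sum_add_distrib, Finset.sum_add_distrib, Finset.mul_sum, Finset.mul_sum, Finset.mul_sum]
  congr 2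
  push_cast
  rfl

end Crest.Agent.R017.E1551
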