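import Crest.Agent.R017.BD1_829
import Crest.Agent.R017.E1i_551

/-!
# Row 17, block C70, leaf E3 (BD) part 2 (helper829): separation of the kernel, bilinear form

`TW w x = Wt w (e^{x/2})`, `TW_kernel`; `EE` ; `norm_bil_le`.
-/

set_option autoImplicit false

noncomputable section

open Complex MeasureTheory
open scoped ComplexConjugate Classical

namespace Crest.Agent.R017.BD829

open Crest.Agent.R012 Crest.Agent.R012.Eis Crest.Agent.R012.MC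
open Crest.Agent.R012.LS2 (S mem_S)
open Crest.Agent.R012.Mob705 (mu pdiv mem_pdiv mu_mul abs_mu_le_one)
open Crest.Agent.R012.Tau671 (norm_sy_le)
open Crest.Agent.R012.Weight600 (osc norm_osc osc_add_right osc_neg_left continuous_osc_left pw
  osc_sub_right)
open Crest.Agent.R017.PX764 (cpS cpS_congr Gh Gh_mul)
open Crest.Agent.R017.Dual2813 (S_of_dvd coprime_indicator sum_mult)
open Crest.Agent.R017.CM106 (TG TG_term norm_Gsy_le)
open Crest.Agent.R017.E1551 (nmpos Vp jb jb_pos jb_neg continuous_jb integrable_jb integrable_jb_mul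
  gen_kernel nm_ge_one)
open E1c146 (Dw wgt_Dw)

/-! ### the kernel -/

/-- the transform on the logarithmic scale -/
def TW (w : ℝ → ℝ) (x : ℝ) : ℝ := Wt w (Real.exp (x / 2))

/-- decay function -/
def bB (B : ℕ) (x : ℝ) : ℝ := ((1 + Real.exp x) ^ B)⁻¹

lemma bB_pos (B : ℕ) (x : ℝ) : 0 < bB B x := by
  unfold bB; have := Real.exp_pos x; positivity

lemma bB_le_one (B : ℕ) (x : ℝ) : bB B x ≤ 1 := by
  unfold bB
  have := Real.exp_pos x
  exact inv_le_one_of_one_le₀ (one_le_pow₀ (by linarith))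

lemma bB_shift (B : ℕ) {R x0 u : ℝ} (hu : |u| ≤ R + 1) :
    bB B (x0 - u) ≤ Real.exp (R + 1) ^ B * bB B x0 := by
  unfold bB
  have he0 := Real.exp_pos x0
  have h1 := abs_le.mp hu
  have he1 := Real.exp_pos (x0 - u)
  have h3 : 1 + Real.exp x0 ≤ Real.exp (R + 1) * (1 + Real.exp (x0 - u)) := by
    have h4 : Real.exp x0 ≤ Real.exp (R + 1) * Real.exp (x0 - u) := by
      rw [← Real.exp_add]
      exact Real.exp_le_exp.mpr (by linarith)
    have h5 : 1 ≤ Real.exp (R + 1) := Real.one_le_exp (by linarith [abs_nonneg u])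
    nlinarith
  have h6 : (1 + Real.exp x0) ^ B ≤ Real.exp (R + 1) ^ B * (1 + Real.exp (x0 - u)) ^ B := by
    rw [← mul_pow]
    exact pow_le_pow_left₀ (by positivity) h3 B
  have p1 : 0 < (1 + Real.exp x0) ^ B := by positivity
  have p2 : 0 < (1 + Real.exp (x0 - u)) ^ B := by positivity
  rw [← div_eq_mul_inv, le_div_iff₀ p1, ← div_eq_inv_mul, div_le_iff₀ p2]
  exact h6

lemma TW_decay {w : ℝ → ℝ} (hw : Wgt w) (B : ℕ) :
    ∃ C : ℝ, 0 ≤ C ∧ ∀ x, |TW w x| ≤ C * bB B x := by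
  obtain ⟨C, hC, h⟩ := Wt_decay hw (2 * B)
  refine ⟨C, hC, fun x => ?_⟩
  have h1 := h (Real.exp (x / 2)) (Real.exp_pos _).le
  unfold TW bB
  refine h1.trans ?_
  rw [div_eq_mul_inv]
  refine mul_le_mul_of_nonneg_left ?_ hC
  have e1 := Real.exp_pos (x / 2)
  have e2 : Real.exp x = Real.exp (x / 2) * Real.exp (x / 2) := by
    rw [← Real.exp_add]; congr 1; ring
  have e3 : 1 + Real.exp x ≤ (1 + Real.exp (x / 2)) ^ 2 := by
    rw [e2]; nlinarith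
  have e4 : (1 + Real.exp x) ^ B ≤ (1 + Real.exp (x / 2)) ^ (2 * B) := by
    rw [pow_mul]
    exact pow_le_pow_left₀ (by have := Real.exp_pos x; positivity) e3 B
  exact inv_anti₀ (by have := Real.exp_pos x; positivity) e4

lemma hasDerivAt_TW {w : ℝ → ℝ} (hw : Wgt w) (x : ℝ) : HasDerivAt (TW w) (TW (Dw w) x) x := by
  have h := E1c146.hasDerivAt_Wt hw (r := 1) zero_le_one x
  simp only [mul_one] at h
  exact h

/-- **the separated kernel** -/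
theorem TW_kernel {w : ℝ → ℝ} (hw : Wgt w) {R : ℝ} (hR : 0 ≤ R) (A B : ℕ) : ∃ C : ℝ, 0 ≤ C ∧
    ∀ x0 : ℝ, ∃ k : ℝ → ℂ, Continuous k ∧ Integrable k ∧
      (∀ t, ‖k t‖ ≤ C * bB B x0 * jb A t) ∧
      ∀ u, |u| ≤ R → ((TW w (x0 - u) * Real.exp (-u / 2) : ℝ) : ℂ) = ∫ t, k t * osc t u := by
  obtain ⟨C, hC, h⟩ := gen_kernel (T := TW) (fun w hw x => hasDerivAt_TW hw x) (b := bB B)
    (fun x => (bB_pos B x).le) (fun w hw => TW_decay hw B) hR (Cb := Real.exp (R + 1) ^ B)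
    (by positivity) (fun x0 u hu => bB_shift B hu) hw A
  refine ⟨C, hC, fun x0 => ?_⟩
  obtain ⟨k, h1, h2, h3, h4⟩ := h x0
  refine ⟨k, h1, h2, fun t => ?_, h4⟩
  have h5 := h3 t
  have h6 : (0 : ℝ) < (1 + |t|) ^ A := by positivity
  have h7 : jb A t = ((1 + |t|) ^ A)⁻¹ := by
    unfold jb
    rw [Real.rpow_neg (by positivity), Real.rpow_natCast]
  rw [h7, ← div_eq_mul_inv, le_div_iff₀ h6]
  exact h5

/-! ### the linear sums -/

/-- the linear sum -/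
def LU (Y : ℝ) (u : Eis → ℂ) (H : Eis) (X' t : ℝ) : ℂ :=
  ∑ k ∈ S Y, u k * Gh H k * osc t (Real.log (nm k) - X')

lemma continuous_LU (Y : ℝ) (u : Eis → ℂ) (H : Eis) (X' : ℝ) : Continuous (LU Y u H X') := by
  unfold LU
  exact continuous_finsetSum _ fun k _ => continuous_const.mul (continuous_osc_left _)

lemma norm_Gh_le' {H k : Eis} (hk : IsPrim k) : ‖Gh H k‖ ≤ 1 := norm_Gsy_le hk

lemma norm_LU_le {Y : ℝ} (hY : 0 ≤ Y) (u : Eis → ℂ) (H : Eis) (X' t : ℝ) :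
    ‖LU Y u H X' t‖ ≤ ∑ k ∈ S Y, ‖u k‖ := by
  unfold LU
  refine (norm_sum_le _ _).trans (Finset.sum_le_sum fun k hk => ?_)
  rw [norm_mul, norm_mul, norm_osc, mul_one]
  exact mul_le_of_le_one_right (norm_nonneg _) (norm_Gh_le' ((mem_S hY).1 hk).2.1)

/-- twisted Gauss side -/
def TT (u : Eis → ℂ) (H : Eis) (t : ℝ) : ℂ := TG (fun m => u m * pw t (nm m)) H

lemma TT_fin {Y : ℝ} {u : Eis → ℂ} (hu : ∀ n, u n ≠ 0 → n ∈ S Y) (H : Eis) (t : ℝ) :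
    TT u H t = ∑ m ∈ S Y, u m * Gh H m * pw t (nm m) := by
  unfold TT TG
  rw [tsum_eq_sum (s := S Y)]
  · exact Finset.sum_congr rfl fun m _ => by unfold Gh; ring
  · intro m hm
    have : u m = 0 := by
      by_contra h; exact hm (hu m h)
    beta_reduce
    rw [this]; simp

lemma LU_eq {Y : ℝ} {u : Eis → ℂ} (hu : ∀ n, u n ≠ 0 → n ∈ S Y) (H : Eis) (X' t : ℝ) :
    LU Y u H X' t = osc t (-X') * TT u H t := by
  rw [TT_fin hu, Finset.mul_sum]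
  unfold LU
  refine Finset.sum_congr rfl fun k _ => ?_
  rw [sub_eq_add_neg, osc_add_right]
  unfold pw
  ring

lemma norm_LU_eq {Y : ℝ} {u : Eis → ℂ} (hu : ∀ n, u n ≠ 0 → n ∈ S Y) (H : Eis) (X' t : ℝ) :
    ‖LU Y u H X' t‖ = ‖TT u H t‖ := by
  rw [LU_eq hu, norm_mul, norm_osc, one_mul]

lemma continuous_TT {Y : ℝ} {u : Eis → ℂ} (hu : ∀ n, u n ≠ 0 → n ∈ S Y) (H : Eis) :
    Continuous (TT u H) := by
  have : TT u H = fun t => ∑ m ∈ S Y, u m * Gh H m * pw t (nm m) := by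
    funext t; exact TT_fin hu H t
  rw [this]
  exact continuous_finsetSum _ fun k _ => continuous_const.mul (Weight600.continuous_pw_left _)

lemma norm_TT_le {Y : ℝ} (hY : 0 ≤ Y) {u : Eis → ℂ} (hu : ∀ n, u n ≠ 0 → n ∈ S Y) (H : Eis)
    (t : ℝ) : ‖TT u H t‖ ≤ ∑ k ∈ S Y, ‖u k‖ := by
  rw [← norm_LU_eq hu H 0 t]
  exact norm_LU_le hY u H 0 t

/-- the mean of the product of the two linear sums -/
def EE (A : ℝ) (u v : Eis → ℂ) (H : Eis) : ℝ := ∫ t, jb A t * (‖TT u H t‖ * ‖TT v H (-t)‖)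

lemma EE_nonneg (A : ℝ) (u v : Eis → ℂ) (H : Eis) : 0 ≤ EE A u v H :=
  integral_nonneg fun t => mul_nonneg (jb_pos A t).le (by positivity)

lemma integrable_EE {A : ℝ} (hA : 1 < A) {Y : ℝ} (hY : 0 ≤ Y) {u v : Eis → ℂ}
    (hu : ∀ n, u n ≠ 0 → n ∈ S Y) (hv : ∀ n, v n ≠ 0 → n ∈ S Y) (H : Eis) :
    Integrable fun t => jb A t * (‖TT u H t‖ * ‖TT v H (-t)‖) := by
  refine integrable_jb_mul hA (((continuous_TT hu H).norm).mul
    (((continuous_TT hv H).comp continuous_neg).norm))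
    (B := (∑ k ∈ S Y, ‖u k‖) * ∑ k ∈ S Y, ‖v k‖) fun t => ?_
  rw [abs_of_nonneg (by positivity)]
  exact mul_le_mul (norm_TT_le hY hu H t) (norm_TT_le hY hv H (-t)) (norm_nonneg _)
    (Finset.sum_nonneg fun _ _ => norm_nonneg _)

lemma EE_le {A : ℝ} (hA : 1 < A) {Y : ℝ} (hY : 0 ≤ Y) {u v : Eis → ℂ}
    (hu : ∀ n, u n ≠ 0 → n ∈ S Y) (hv : ∀ n, v n ≠ 0 → n ∈ S Y) (H : Eis) :
    EE A u v H ≤ (∫ t, jb A t) * ((∑ k ∈ S Y, ‖u k‖) * ∑ k ∈ S Y, ‖v k‖) := by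
  unfold EE
  rw [← integral_mul_const]
  refine integral_mono (integrable_EE hA hY hu hv H) ((integrable_jb hA).mul_const _) fun t => ?_
  refine mul_le_mul_of_nonneg_left ?_ (jb_pos A t).le
  exact mul_le_mul (norm_TT_le hY hu H t) (norm_TT_le hY hv H (-t)) (norm_nonneg _)
    (Finset.sum_nonneg fun _ _ => norm_nonneg _)

/-- window condition -/
def Win (u : Eis → ℂ) (X' R : ℝ) : Prop := ∀ n, u n ≠ 0 → |Real.log (nm n) - X'| ≤ R / 2

/-- the bilinear form with fixed frequency -/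
def bil (Y : ℝ) (u v : Eis → ℂ) (H : Eis) (T : ℝ → ℝ) (x : ℝ) : ℂ :=
  ∑ k₁ ∈ S Y, ∑ k₂ ∈ S Y, u k₁ * conj (v k₂) * ((((Real.sqrt (nm k₁ * nm k₂))⁻¹ : ℝ) : ℂ) *
    (Gh H k₁ * conj (Gh H k₂)) * ((T (x - Real.log (nm k₁) - Real.log (nm k₂)) : ℝ) : ℂ))

lemma bil_eq {Y : ℝ} (hY : 0 ≤ Y) {u v : Eis → ℂ} {H : Eis} {T : ℝ → ℝ} {R X₁ X₂ x : ℝ}
    (hu : Win u X₁ R) (hv : Win v X₂ R) {k : ℝ → ℂ} (hki : Integrable k)
    (hk : ∀ y, |y| ≤ R → ((T (x - X₁ - X₂ - y) * Real.exp (-y / 2) : ℝ) : ℂ) = ∫ t, k t * osc t y) :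
    bil Y u v H T x = ((Real.exp (-(X₁ + X₂) / 2) : ℝ) : ℂ) *
      ∫ t, k t * (LU Y u H X₁ t * conj (LU Y v H X₂ (-t))) := by
  have hint : ∀ k₁ ∈ S Y, ∀ k₂ ∈ S Y, Integrable fun t =>
      k t * ((u k₁ * Gh H k₁ * osc t (Real.log (nm k₁) - X₁)) *
        conj (v k₂ * Gh H k₂ * osc (-t) (Real.log (nm k₂) - X₂))) := by
    intro k₁ h₁ k₂ h₂
    have hc : Continuous fun t : ℝ => (u k₁ * Gh H k₁ * osc t (Real.log (nm k₁) - X₁)) *
        conj (v k₂ * Gh H k₂ * osc (-t) (Real.log (nm k₂) - X₂)) :=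
      (continuous_const.mul (continuous_osc_left _)).mul (Complex.continuous_conj.comp
        (continuous_const.mul ((continuous_osc_left _).comp continuous_neg)))
    refine hki.mul_bdd (c := (‖u k₁‖ * ‖Gh H k₁‖) * (‖v k₂‖ * ‖Gh H k₂‖)) hc.aestronglyMeasurable
      (Filter.Eventually.of_forall fun t => ?_)
    rw [norm_mul, RCLike.norm_conj, norm_mul, norm_mul, norm_mul, norm_mul, norm_osc, norm_osc,
      mul_one, mul_one]
  have e1 : ∀ t, k t * (LU Y u H X₁ t * conj (LU Y v H X₂ (-t))) =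
      ∑ k₁ ∈ S Y, ∑ k₂ ∈ S Y, k t * ((u k₁ * Gh H k₁ * osc t (Real.log (nm k₁) - X₁)) *
        conj (v k₂ * Gh H k₂ * osc (-t) (Real.log (nm k₂) - X₂))) := by
    intro t
    unfold LU
    rw [map_sum, Finset.sum_mul_sum, Finset.mul_sum]
    refine Finset.sum_congr rfl fun k₁ _ => ?_
    rw [Finset.mul_sum]
  simp_rw [e1]
  rw [integral_finsetSum _ fun k₁ h₁ => integrable_finsetSum _ fun k₂ h₂ => hint k₁ h₁ k₂ h₂,
    Finset.mul_sum]
  unfold bil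
  refine Finset.sum_congr rfl fun k₁ h₁ => ?_
  rw [integral_finsetSum _ fun k₂ h₂ => hint k₁ h₁ k₂ h₂, Finset.mul_sum]
  refine Finset.sum_congr rfl fun k₂ h₂ => ?_
  by_cases a1 : u k₁ = 0
  · simp [a1]
  by_cases a2 : v k₂ = 0
  · simp [a2]
  have n1 := nmpos ((mem_S hY).1 h₁).2.1.ne_zero
  have n2 := nmpos ((mem_S hY).1 h₂).2.1.ne_zero
  set u1 := Real.log (nm k₁) - X₁ with hu1
  set u2 := Real.log (nm k₂) - X₂ with hu2
  have b1 := hu k₁ a1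
  have b2 := hv k₂ a2
  have hub : |u1 + u2| ≤ R := (abs_add_le _ _).trans (by linarith)
  have h3 := hk (u1 + u2) hub
  have e1 : ∀ t, k t * ((u k₁ * Gh H k₁ * osc t u1) * conj (v k₂ * Gh H k₂ * osc (-t) u2)) =
      (u k₁ * conj (v k₂) * (Gh H k₁ * conj (Gh H k₂))) * (k t * osc t (u1 + u2)) := by
    intro t
    rw [map_mul, map_mul, osc_neg_left, Complex.conj_conj, osc_add_right]
    ring
  simp_rw [e1]
  rw [integral_const_mul, ← h3]
  have e2 : (Real.sqrt (nm k₁ * nm k₂))⁻¹ =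
      Real.exp (-(X₁ + X₂) / 2) * Real.exp (-(u1 + u2) / 2) := by
    rw [Real.sqrt_eq_rpow, ← Real.rpow_neg (by positivity), Real.rpow_def_of_pos (by positivity),
      Real.log_mul n1.ne' n2.ne', ← Real.exp_add]
    congr 1
    rw [hu1, hu2]; ring
  rw [e2]
  have e3 : x - Real.log (nm k₁) - Real.log (nm k₂) = x - X₁ - X₂ - (u1 + u2) := by
    rw [hu1, hu2]; ring
  rw [e3]
  push_cast
  ring

/-- **bound of the bilinear form with fixed frequency** -/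
theorem norm_bil_le {w : ℝ → ℝ} (hw : Wgt w) {R : ℝ} (hR : 0 ≤ R) {A : ℕ} (hA : 1 < A) (B : ℕ) :
    ∃ C : ℝ, 0 ≤ C ∧ ∀ (Y : ℝ), 0 ≤ Y → ∀ (u v : Eis → ℂ), (∀ n, u n ≠ 0 → n ∈ S Y) →
      (∀ n, v n ≠ 0 → n ∈ S Y) → ∀ (X₁ X₂ : ℝ), Win u X₁ R → Win v X₂ R → ∀ (H : Eis) (x : ℝ),
      ‖bil Y u v H (TW w) x‖ ≤
        C * Real.exp (-(X₁ + X₂) / 2) * bB B (x - X₁ - X₂) * EE A u v H := by
  have hA' : (1 : ℝ) < (A : ℝ) := by exact_mod_cast hA
  obtain ⟨C, hC, h⟩ := TW_kernel hw hR A B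
  refine ⟨C, hC, fun Y hY u v hu hv X₁ X₂ hwu hwv H x => ?_⟩
  obtain ⟨k, hk1, hk2, hk3, hk4⟩ := h (x - X₁ - X₂)
  rw [bil_eq hY hwu hwv hk2 hk4, norm_mul, Complex.norm_real,
    Real.norm_of_nonneg (Real.exp_pos _).le]
  have hi := (integrable_EE hA' hY hu hv H).const_mul (C * bB B (x - X₁ - X₂))
  have h5 : ‖∫ t, k t * (LU Y u H X₁ t * conj (LU Y v H X₂ (-t)))‖ ≤
      C * bB B (x - X₁ - X₂) * EE A u v H := by
    unfold EE
    rw [← integral_const_mul]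
    refine norm_integral_le_of_norm_le hi (Filter.Eventually.of_forall fun t => ?_)
    rw [norm_mul, norm_mul, RCLike.norm_conj, norm_LU_eq hu, norm_LU_eq hv]
    calc ‖k t‖ * (‖TT u H t‖ * ‖TT v H (-t)‖)
        ≤ (C * bB B (x - X₁ - X₂) * jb A t) * (‖TT u H t‖ * ‖TT v H (-t)‖) :=
          mul_le_mul_of_nonneg_right (hk3 t) (by positivity)
      _ = _ := by ring
  calc Real.exp (-(X₁ + X₂) / 2) * ‖∫ t, k t * (LU Y u H X₁ t * conj (LU Y v H X₂ (-t)))‖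
      ≤ Real.exp (-(X₁ + X₂) / 2) * (C * bB B (x - X₁ - X₂) * EE A u v H) :=
        mul_le_mul_of_nonneg_left h5 (Real.exp_pos _).le
    _ = _ := by ring

end Crest.Agent.R017.BD829
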