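import Crest.Agent.R017.BD2_829

/-!
# Row 17, block C70, leaf E3 (BD) part 3 (helper829): the bilinear dual bound

`BD` : for sequences `u`, `v` on squarefree primary elements in windows around `X₁`, `X₂`, the sum
`∑_k w(N(k)/K) ψ(k) CS u k conj (CS v k)` minus its diagonal is bounded by the dual sums over all
nonzero modes.
-/

set_option autoImplicit false

noncomputable section

open Complex MeasureTheory
open scoped ComplexConjugate Classical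

namespace Crest.Agent.R017.BD829

open Crest.Agent.R012 Crest.Agent.R012.Eis Crest.Agent.R012.MC
open Crest.Agent.R012.LS2 (S mem_S)
open Crest.Agent.R012.Mob705 (mu pdiv mem_pdiv mu_mul abs_mu_le_one)
open Crest.Agent.R012.Tau671 (norm_sy_le)
open Crest.Agent.R012.Weight600 (osc norm_osc osc_add_right osc_neg_left continuous_osc_left pw
  osc_sub_right)
open Crest.Agent.R017.PX764 (cpS cpS_congr cpS_smul cpS_sum cpS_moebius sum_eq_cpS Gh Gh_mul)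
open Crest.Agent.R017.Dual2813 (S_of_dvd coprime_indicator sum_mult)
open Crest.Agent.R017.CM106 (CS TG TG_term norm_Gsy_le)
open Crest.Agent.R017.E1551 (nmpos Vp jb jb_pos jb_neg continuous_jb integrable_jb integrable_jb_mul
  gen_kernel nm_ge_one summable_wF CS_fin G_one551 norm_Vp_le)

/-- the twisted bilinear sum -/
def BS (w : ℝ → ℝ) (K : ℝ) (ψ : Eis → ℂ) (u v : Eis → ℂ) : ℂ :=
  ∑' k : Eis, (if IsPrim k then ψ k * (CS u k * conj (CS v k)) else 0) *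
    ((w (nm k / K) : ℝ) : ℂ)

/-- the twisted sum of one pair -/
def PkT (w : ℝ → ℝ) (K : ℝ) (ψ : Eis → ℂ) (n₁ n₂ : Eis) : ℂ :=
  ∑' k : Eis, (if IsPrim k then ψ k * (sy k n₁ * conj (sy k n₂)) else 0) *
    ((w (nm k / K) : ℝ) : ℂ)

theorem BS_eq {w : ℝ → ℝ} (hw : Wgt w) {K : ℝ} (hK : 0 < K) {Y : ℝ} {ψ u v : Eis → ℂ}
    (hu : ∀ n, u n ≠ 0 → n ∈ S Y) (hv : ∀ n, v n ≠ 0 → n ∈ S Y) :
    BS w K ψ u v = ∑ n₁ ∈ S Y, ∑ n₂ ∈ S Y, u n₁ * conj (v n₂) * PkT w K ψ n₁ n₂ := by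
  unfold BS
  have e1 : ∀ k : Eis, (if IsPrim k then ψ k * (CS u k * conj (CS v k)) else 0) *
      ((w (nm k / K) : ℝ) : ℂ) =
      ∑ n₁ ∈ S Y, ∑ n₂ ∈ S Y, u n₁ * conj (v n₂) *
        ((if IsPrim k then ψ k * (sy k n₁ * conj (sy k n₂)) else 0) *
          ((w (nm k / K) : ℝ) : ℂ)) := by
    intro k
    by_cases hk : IsPrim k
    · simp only [if_pos hk]
      rw [CS_fin hu, CS_fin hv, map_sum, Finset.sum_mul_sum, Finset.mul_sum, Finset.sum_mul]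
      refine Finset.sum_congr rfl fun n₁ _ => ?_
      rw [Finset.mul_sum, Finset.sum_mul]
      refine Finset.sum_congr rfl fun n₂ _ => ?_
      rw [map_mul]
      ring
    · simp [hk]
  rw [tsum_congr e1, Summable.tsum_finsetSum (fun n₁ _ => summable_sum fun n₂ _ =>
    (summable_wF hw hK _).mul_left _)]
  refine Finset.sum_congr rfl fun n₁ _ => ?_
  rw [Summable.tsum_finsetSum (fun n₂ _ => (summable_wF hw hK _).mul_left _)]
  refine Finset.sum_congr rfl fun n₂ _ => ?_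
  rw [tsum_mul_left]
  rfl

lemma cpS_tsum2 {Y : ℝ} (u v : Eis → ℂ) (d : Eis) (F : Eis → Eis → Eis → ℂ)
    (hF : ∀ k₁ k₂, k₁ ∈ S Y → k₂ ∈ S Y → IsCoprime k₁ k₂ → Summable fun h => F h k₁ k₂) :
    Summable (fun h => cpS Y u v d (F h)) ∧
      cpS Y u v d (fun k₁ k₂ => ∑' h, F h k₁ k₂) = ∑' h, cpS Y u v d (F h) := by
  have hs : ∀ k₁ ∈ S Y, ∀ k₂ ∈ S Y, Summable fun h =>
      if IsCoprime k₁ k₂ then u (d * k₁) * conj (v (d * k₂)) * F h k₁ k₂ else 0 := by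
    intro k₁ h₁ k₂ h₂
    by_cases hc : IsCoprime k₁ k₂
    · simp only [if_pos hc]
      exact (hF k₁ k₂ h₁ h₂ hc).mul_left _
    · simp only [if_neg hc]; exact summable_zero
  have hs2 : ∀ k₁ ∈ S Y, Summable fun h => ∑ k₂ ∈ S Y,
      if IsCoprime k₁ k₂ then u (d * k₁) * conj (v (d * k₂)) * F h k₁ k₂ else 0 :=
    fun k₁ h₁ => summable_sum fun k₂ h₂ => hs k₁ h₁ k₂ h₂
  constructor
  · unfold cpS
    exact summable_sum hs2
  · unfold cpS
    rw [Summable.tsum_finsetSum hs2]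
    refine Finset.sum_congr rfl fun k₁ h₁ => ?_
    rw [Summable.tsum_finsetSum (hs k₁ h₁)]
    refine Finset.sum_congr rfl fun k₂ h₂ => ?_
    split_ifs
    · rw [tsum_mul_left]
    · rw [tsum_zero]

/-! ### the weight at the mode `h` -/

lemma argM_sq {M : Eis} (hM : M ≠ 0) {K : ℝ} (hK : 0 < K) {h q : Eis} (hh : h ≠ 0) (hq : q ≠ 0) :
    argM M K h q = Real.exp (Real.log (K * nm h / (3 * nm M * nm q)) / 2) := by
  have n1 := nmpos hM
  have n2 := nmpos hh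
  have n3 := nmpos hq
  have p : 0 < K * nm h / (3 * nm M * nm q) := by positivity
  have e1 : Real.exp (Real.log (K * nm h / (3 * nm M * nm q)) / 2) =
      Real.sqrt (K * nm h / (3 * nm M * nm q)) := by
    rw [Real.sqrt_eq_rpow, Real.rpow_def_of_pos p]
    congr 1; ring
  rw [e1, Real.sqrt_div (by positivity), Real.sqrt_mul hK.le, Real.sqrt_mul (by positivity),
    Real.sqrt_mul (by norm_num)]
  have f : ∀ z : Eis, Real.sqrt (nm z) = ‖toC z‖ := fun z => by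
    rw [← norm_toC_sq, Real.sqrt_sq (norm_nonneg _)]
  rw [f, f, f]
  rfl

/-- the logarithmic variable of the mode -/
def xh (M : Eis) (K : ℝ) (h e f : Eis) : ℝ :=
  Real.log (K * nm h / (3 * nm M * nm e)) - 2 * Real.log (nm f)

lemma Wt_mode {w : ℝ → ℝ} {M : Eis} (hM : M ≠ 0) {K : ℝ} (hK : 0 < K) {h e f k₁ k₂ : Eis}
    (hh : h ≠ 0) (he : e ≠ 0) (hf : f ≠ 0) (h₁ : k₁ ≠ 0) (h₂ : k₂ ≠ 0) :
    Wt w (argM M K h ((f * k₁) * (f * k₂) * e)) =
      TW w (xh M K h e f - Real.log (nm k₁) - Real.log (nm k₂)) := by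
  have n1 := nmpos hM
  have n2 := nmpos hh
  have n3 := nmpos he
  have n4 := nmpos hf
  have n5 := nmpos h₁
  have n6 := nmpos h₂
  rw [argM_sq hM hK hh (mul_ne_zero (mul_ne_zero (mul_ne_zero hf h₁) (mul_ne_zero hf h₂)) he)]
  unfold TW xh
  congr 3
  rw [nm_mul, nm_mul, nm_mul, nm_mul]
  push_cast
  have e1 : Real.log (K * nm h / (3 * nm M * (nm f * nm k₁ * (nm f * nm k₂) * nm e))) =
      Real.log (K * nm h / (3 * nm M * nm e) / ((nm f * nm f) * (nm k₁ * nm k₂))) := by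
    congr 1; field_simp
  rw [e1, Real.log_div (by positivity) (by positivity), Real.log_mul (by positivity) (by positivity),
    Real.log_mul n4.ne' n4.ne', Real.log_mul n5.ne' n6.ne']
  ring

/-! ### one mode -/

/-- the restricted twisted sequence -/
def rs (u ψ : Eis → ℂ) (d f : Eis) : Eis → ℂ := fun m => u (d * f * m) * ψ m

lemma rs_supp {Y : ℝ} (hY : 0 ≤ Y) {u : Eis → ℂ} (hu : ∀ n, u n ≠ 0 → n ∈ S Y) (ψ : Eis → ℂ)
    {d f : Eis} (hd : IsPrim d) (hf : IsPrim f) (n : Eis) (h : rs u ψ d f n ≠ 0) : n ∈ S Y := by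
  unfold rs at h
  have h1 := hu _ (left_ne_zero_of_mul h)
  have h2 := (mem_S hY).1 h1
  exact S_of_dvd hY h1 (IsPrim.of_mul_left h2.2.1 (hd.mul hf)) (dvd_mul_left _ _)

lemma rs_win {u : Eis → ℂ} {Y : ℝ} (hY : 0 ≤ Y) (hu : ∀ n, u n ≠ 0 → n ∈ S Y) (ψ : Eis → ℂ)
    {d f : Eis} (hd : d ≠ 0) (hf : f ≠ 0) {X' R : ℝ} (hw : Win u X' R) :
    Win (rs u ψ d f) (X' - Real.log (nm d) - Real.log (nm f)) R := by
  intro n hn
  unfold rs at hn
  have h0 := left_ne_zero_of_mul hn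
  have h1 := hw _ h0
  have h2 := ((mem_S hY).1 (hu _ h0)).2.1.ne_zero
  have h3 : n ≠ 0 := right_ne_zero_of_mul h2
  rw [nm_mul, nm_mul] at h1
  push_cast at h1
  rw [Real.log_mul (mul_pos (nmpos hd) (nmpos hf)).ne' (nmpos h3).ne',
    Real.log_mul (nmpos hd).ne' (nmpos hf).ne'] at h1
  have e : Real.log (nm n) - (X' - Real.log (nm d) - Real.log (nm f)) =
    Real.log (nm d) + Real.log (nm f) + Real.log (nm n) - X' := by ring
  rw [e]; exact h1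

/-- the coefficient of one mode, for one pair -/
def Fm (w : ℝ → ℝ) (M : Eis) (ψ : Eis → ℂ) (K : ℝ) (e h k₁ k₂ : Eis) : ℂ :=
  (((Real.sqrt (nm k₁ * nm k₂))⁻¹ : ℝ) : ℂ) * (ψ k₁ * ψ k₂) * (G k₁ * conj (G k₂)) *
    (tw M ψ h * Vp (h * (e * (M * sq3)) ^ 2) k₁ k₂ *
      ((Wt w (argM M K h (k₁ * k₂ * e)) : ℝ) : ℂ))

/-- the frequency of the mode -/
def Hf (M e h f : Eis) : Eis := h * (e * (M * sq3)) ^ 2 * f

lemma Fm_mul {w : ℝ → ℝ} {M : Eis} {ψ : Eis → ℂ} (hψ : LC M ψ) {K : ℝ} (hK : 0 < K)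
    {e h f k₁ k₂ : Eis} (he : e ≠ 0) (hh : h ≠ 0) (hf : IsPrim f) (h₁ : IsPrim k₁)
    (h₂ : IsPrim k₂) :
    Fm w M ψ K e h (f * k₁) (f * k₂) =
      ((nm f : ℂ)⁻¹ * (ψ f * ψ f) * tw M ψ h *
        (Gh (h * (e * (M * sq3)) ^ 2) f * conj (Gh (h * (e * (M * sq3)) ^ 2) f))) *
      (ψ k₁ * ψ k₂ * ((((Real.sqrt (nm k₁ * nm k₂))⁻¹ : ℝ) : ℂ) *
        (Gh (Hf M e h f) k₁ * conj (Gh (Hf M e h f) k₂)) *
        ((TW w (xh M K h e f - Real.log (nm k₁) - Real.log (nm k₂)) : ℝ) : ℂ))) := by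
  set H := h * (e * (M * sq3)) ^ 2 with hH
  have n1 := nmpos hf.ne_zero
  have n2 := nmpos h₁.ne_zero
  have n3 := nmpos h₂.ne_zero
  unfold Fm
  rw [Wt_mode hψ.ne hK hh he hf.ne_zero h₁.ne_zero h₂.ne_zero]
  have e1 : (G (f * k₁) * conj (G (f * k₂))) * Vp H (f * k₁) (f * k₂) =
      Gh H (f * k₁) * conj (Gh H (f * k₂)) := by
    unfold Vp Gh
    rw [map_mul, Complex.conj_conj]; ring
  have e2 : Gh H (f * k₁) * conj (Gh H (f * k₂)) =
      (Gh H f * conj (Gh H f)) * (Gh (Hf M e h f) k₁ * conj (Gh (Hf M e h f) k₂)) := by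
    rw [Gh_mul hf h₁, Gh_mul hf h₂, map_mul]
    unfold Hf
    rw [← hH]; ring
  have e3 : (Real.sqrt (nm (f * k₁) * nm (f * k₂)))⁻¹ =
      (nm f : ℝ)⁻¹ * (Real.sqrt (nm k₁ * nm k₂))⁻¹ := by
    rw [nm_mul, nm_mul]
    push_cast
    have : (nm f : ℝ) * nm k₁ * (nm f * nm k₂) = (nm f * nm f) * (nm k₁ * nm k₂) := by ring
    rw [this, Real.sqrt_mul (by positivity), Real.sqrt_mul_self n1.le, mul_inv]
  rw [e3, hψ.mul _ _ hf h₁, hψ.mul _ _ hf h₂]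
  push_cast
  linear_combination ((nm f : ℂ)⁻¹ * ((Real.sqrt (nm k₁ * nm k₂) : ℝ) : ℂ)⁻¹ *
    (ψ f * ψ k₁ * (ψ f * ψ k₂)) * tw M ψ h *
    ((TW w (xh M K h e f - Real.log (nm k₁) - Real.log (nm k₂)) : ℝ) : ℂ)) * (e1.trans e2)

/-- one mode as a sum over `f` of bilinear forms -/
lemma mode_eq {w : ℝ → ℝ} {M : Eis} {ψ : Eis → ℂ} (hψ : LC M ψ) {K : ℝ} (hK : 0 < K) {Y : ℝ}
    (hY : 0 ≤ Y) {u v : Eis → ℂ} (hu : ∀ n, u n ≠ 0 → n ∈ S Y) (hv : ∀ n, v n ≠ 0 → n ∈ S Y)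
    {d e h : Eis} (hd : d ∈ S Y) (he : e ≠ 0) (hh : h ≠ 0) :
    cpS Y u v d (Fm w M ψ K e h) = ∑ f ∈ S Y, (mu f : ℂ) *
      (((nm f : ℂ)⁻¹ * (ψ f * ψ f) * tw M ψ h *
        (Gh (h * (e * (M * sq3)) ^ 2) f * conj (Gh (h * (e * (M * sq3)) ^ 2) f))) *
      bil Y (rs u ψ d f) (rs v (fun m => conj (ψ m)) d f) (Hf M e h f) (TW w) (xh M K h e f)) := by
  rw [cpS_moebius hY (fun k hk => by by_contra h; exact hk (hu k h))
    (fun k hk => by by_contra h; exact hk (hv k h)) hd]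
  refine Finset.sum_congr rfl fun f hf => ?_
  congr 1
  unfold bil
  rw [Finset.mul_sum]
  refine Finset.sum_congr rfl fun k₁ h₁ => ?_
  rw [Finset.mul_sum]
  refine Finset.sum_congr rfl fun k₂ h₂ => ?_
  rw [Fm_mul hψ hK he hh ((mem_S hY).1 hf).2.1 ((mem_S hY).1 h₁).2.1 ((mem_S hY).1 h₂).2.1]
  unfold rs
  rw [map_mul, Complex.conj_conj]
  ring

end Crest.Agent.R017.BD829
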