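import Crest.Agent.R017.BD3_829

/-!
# Row 17, block C70, leaf E3 (BD) part 4 (helper829): the bilinear dual bound

`BD` : for sequences `u`, `v` on squarefree primary elements in windows around `N₁`, `N₂`, the sum
`∑_k w(N(k)/K) ψ(k) CS u k conj (CS v k)` minus its diagonal is bounded by the dual sums over all
nonzero modes.
-/

set_option autoImplicit false

noncomputable section

open Complex MeasureTheory
open scoped ComplexConjugate Classical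

namespace Crest.Agent.R017.BD829

open Crest.Agent.R012 Crest.Agent.R012.Eis Crest.Agent.R012.MC
open Crest.Agent.R012.LS2 (S mem_S)
open Crest.Agent.R012.Mob705 (mu pdiv mem_pdiv mu_mul abs_mu_le_one PE)
open Crest.Agent.R012.Tau671 (norm_sy_le PF)
open Crest.Agent.R012.Weight600 (osc norm_osc osc_add_right osc_neg_left continuous_osc_left pw
  osc_sub_right)
open Crest.Agent.R017.PX764 (cpS cpS_congr cpS_smul cpS_sum cpS_moebius sum_eq_cpS Gh Gh_mul)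
open Crest.Agent.R017.Dual2813 (S_of_dvd coprime_indicator sum_mult)
open Crest.Agent.R017.CM106 (CS TG TG_term norm_Gsy_le)
open Crest.Agent.R017.E1551 (nmpos Vp jb jb_pos jb_neg continuous_jb integrable_jb integrable_jb_mul
  gen_kernel nm_ge_one summable_wF CS_fin G_one551 norm_Vp_le pair_arith norm_toC_sq3)

/-- decay of the modes -/
def WB (M : Eis) (K N₁ N₂ : ℝ) (B : ℕ) (d e h : Eis) : ℝ :=
  ((1 + K * nm h * (nm d : ℝ) ^ 2 / (3 * nm M * nm e * (N₁ * N₂))) ^ B)⁻¹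

lemma WB_nonneg {M : Eis} {K N₁ N₂ : ℝ} (hK : 0 ≤ K) (h₁ : 0 ≤ N₁) (h₂ : 0 ≤ N₂) (B : ℕ)
    (d e h : Eis) : 0 ≤ WB M K N₁ N₂ B d e h := by
  unfold WB; positivity

lemma WB_eq {M : Eis} (hM : M ≠ 0) {K N₁ N₂ : ℝ} (hK : 0 < K) (h₁ : 0 < N₁) (h₂ : 0 < N₂) (B : ℕ)
    {d e h f : Eis} (hd : d ≠ 0) (he : e ≠ 0) (hh : h ≠ 0) :
    bB B (xh M K h e f - (Real.log N₁ - Real.log (nm d) - Real.log (nm f)) -
      (Real.log N₂ - Real.log (nm d) - Real.log (nm f))) = WB M K N₁ N₂ B d e h := by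
  have n1 := nmpos hM
  have n2 := nmpos hh
  have n3 := nmpos he
  have n4 := nmpos hd
  unfold bB WB xh
  congr 3
  have e1 : Real.log (K * nm h / (3 * nm M * nm e)) - 2 * Real.log (nm f) -
      (Real.log N₁ - Real.log (nm d) - Real.log (nm f)) -
      (Real.log N₂ - Real.log (nm d) - Real.log (nm f)) =
      Real.log (K * nm h * (nm d : ℝ) ^ 2 / (3 * nm M * nm e * (N₁ * N₂))) := by
    have : K * nm h * (nm d : ℝ) ^ 2 / (3 * nm M * nm e * (N₁ * N₂)) =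
        (K * nm h / (3 * nm M * nm e)) * ((nm d : ℝ) ^ 2 / (N₁ * N₂)) := by field_simp
    rw [this, Real.log_mul (by positivity) (by positivity), Real.log_div (x := (nm d : ℝ) ^ 2)
      (by positivity) (by positivity), Real.log_mul h₁.ne' h₂.ne', Real.log_pow]
    push_cast
    ring
  rw [e1, Real.exp_log (by positivity)]

lemma nm_le_Y {Y : ℝ} (hY : 0 ≤ Y) {d : Eis} (h : d ∈ S Y) : (nm d : ℝ) ≤ Y := ((mem_S hY).1 h).1

/-- **bound of one mode** -/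
theorem norm_mode_le {w : ℝ → ℝ} (hw : Wgt w) {R : ℝ} (hR : 0 ≤ R) {A : ℕ} (hA : 1 < A) (B : ℕ) :
    ∃ C : ℝ, 0 ≤ C ∧ ∀ (M : Eis) (ψ : Eis → ℂ), LC M ψ → ∀ (K : ℝ), 0 < K → ∀ (Y : ℝ), 0 ≤ Y →
      ∀ (u v : Eis → ℂ), (∀ n, u n ≠ 0 → n ∈ S Y) → (∀ n, v n ≠ 0 → n ∈ S Y) →
      ∀ (N₁ N₂ : ℝ), 0 < N₁ → 0 < N₂ → Win u (Real.log N₁) R → Win v (Real.log N₂) R →
      ∀ d ∈ S Y, ∀ e ∈ pdiv d, ∀ h : Eis, h ≠ 0 →
      ‖cpS Y u v d (Fm w M ψ K e h)‖ ≤ C * (nm M / Real.sqrt (N₁ * N₂)) * nm d *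
        (WB M K N₁ N₂ B d e h * ∑ f ∈ S Y, EE A (rs u ψ d f) (rs v (fun m => conj (ψ m)) d f)
          (Hf M e h f)) := by
  obtain ⟨C, hC, hb⟩ := norm_bil_le hw hR hA B
  refine ⟨C, hC, fun M ψ hψ K hK Y hY u v hu hv N₁ N₂ hN₁ hN₂ hwu hwv d hd e he h hh => ?_⟩
  have hd' := (mem_S hY).1 hd
  have hd0 := hd'.2.1.ne_zero
  have he' := ((mem_pdiv hd0).mp he).1
  rw [mode_eq hψ hK hY hu hv hd he'.ne_zero hh]
  refine (norm_sum_le _ _).trans ?_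
  rw [Finset.mul_sum, Finset.mul_sum]
  refine Finset.sum_le_sum fun f hf => ?_
  have hf' := (mem_S hY).1 hf
  have hf0 := hf'.2.1.ne_zero
  have nf := nmpos hf0
  have nd := nmpos hd0
  have nM := nmpos hψ.ne
  set H := h * (e * (M * sq3)) ^ 2 with hH
  have b1 := hb Y hY (rs u ψ d f) (rs v (fun m => conj (ψ m)) d f)
    (rs_supp hY hu ψ hd'.2.1 hf'.2.1) (rs_supp hY hv _ hd'.2.1 hf'.2.1)
    (Real.log N₁ - Real.log (nm d) - Real.log (nm f))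
    (Real.log N₂ - Real.log (nm d) - Real.log (nm f))
    (rs_win hY hu ψ hd0 hf0 hwu) (rs_win hY hv _ hd0 hf0 hwv) (Hf M e h f) (xh M K h e f)
  rw [WB_eq hψ.ne hK hN₁ hN₂ B hd0 he'.ne_zero hh] at b1
  have e1 : Real.exp (-(Real.log N₁ - Real.log (nm d) - Real.log (nm f) +
      (Real.log N₂ - Real.log (nm d) - Real.log (nm f))) / 2) =
      (nm d * nm f) / Real.sqrt (N₁ * N₂) := by
    have : -(Real.log N₁ - Real.log (nm d) - Real.log (nm f) +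
      (Real.log N₂ - Real.log (nm d) - Real.log (nm f))) / 2 =
      (Real.log (nm d) + Real.log (nm f)) - (Real.log N₁ + Real.log N₂) / 2 := by ring
    rw [this, Real.exp_sub, Real.exp_add, Real.exp_log nd, Real.exp_log nf]
    congr 1
    rw [← Real.log_mul hN₁.ne' hN₂.ne', Real.sqrt_eq_rpow, Real.rpow_def_of_pos (by positivity)]
    congr 1; ring
  rw [e1] at b1
  have hWB := WB_nonneg (M := M) hK.le hN₁.le hN₂.le B d e h
  have hEE := EE_nonneg A (rs u ψ d f) (rs v (fun m => conj (ψ m)) d f) (Hf M e h f)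
  have hG : ‖Gh H f‖ ≤ 1 := norm_Gh_le' hf'.2.1
  have hmu : ‖(mu f : ℂ)‖ ≤ 1 := by
    rw [show (mu f : ℂ) = ((mu f : ℝ) : ℂ) by push_cast; rfl, Complex.norm_real, Real.norm_eq_abs]
    exact_mod_cast abs_mu_le_one f
  have hpre : ‖(nm f : ℂ)⁻¹ * (ψ f * ψ f) * tw M ψ h * (Gh H f * conj (Gh H f))‖ ≤
      (nm f : ℝ)⁻¹ * nm M := by
    rw [norm_mul, norm_mul, norm_mul, norm_mul, norm_mul, RCLike.norm_conj, norm_inv,
      hψ.norm f hf'.2.1, mul_one, mul_one]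
    have e2 : ‖(nm f : ℂ)‖ = nm f := by
      rw [show (nm f : ℂ) = ((nm f : ℝ) : ℂ) by push_cast; rfl, Complex.norm_real,
        Real.norm_of_nonneg nf.le]
    rw [e2]
    have h2 : ‖Gh H f‖ * ‖Gh H f‖ ≤ 1 := mul_le_one₀ hG (norm_nonneg _) hG
    calc (nm f : ℝ)⁻¹ * ‖tw M ψ h‖ * (‖Gh H f‖ * ‖Gh H f‖) ≤ (nm f : ℝ)⁻¹ * nm M * 1 := by
          refine mul_le_mul ?_ h2 (by positivity) (by positivity)
          exact mul_le_mul_of_nonneg_left (norm_tw_le hψ h) (by positivity)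
      _ = _ := mul_one _
  rw [norm_mul, norm_mul]
  calc ‖(mu f : ℂ)‖ * (‖(nm f : ℂ)⁻¹ * (ψ f * ψ f) * tw M ψ h * (Gh H f * conj (Gh H f))‖ *
        ‖bil Y (rs u ψ d f) (rs v (fun m => conj (ψ m)) d f) (Hf M e h f) (TW w) (xh M K h e f)‖)
      ≤ 1 * (((nm f : ℝ)⁻¹ * nm M) * (C * ((nm d * nm f) / Real.sqrt (N₁ * N₂)) *
          WB M K N₁ N₂ B d e h * EE A (rs u ψ d f) (rs v (fun m => conj (ψ m)) d f)
            (Hf M e h f))) := by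
        refine mul_le_mul hmu ?_ (by positivity) zero_le_one
        exact mul_le_mul hpre b1 (norm_nonneg _) (by positivity)
    _ = _ := by
        field_simp

/-! ### the zero mode -/

lemma psi_one {M : Eis} {ψ : Eis → ℂ} (h : LC M ψ) : ψ 1 = 1 := by
  have h1 := h.mul 1 1 isPrim_one isPrim_one
  rw [mul_one] at h1
  have h2 : ψ 1 ≠ 0 := by
    intro h0
    have := h.norm 1 isPrim_one
    rw [h0, norm_zero] at this
    norm_num at this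
  exact (mul_right_cancel₀ h2 (by rw [one_mul]; exact h1)).symm

lemma zero_mode {w : ℝ → ℝ} {M : Eis} {ψ : Eis → ℂ} (hψ : LC M ψ) {K : ℝ} {Y : ℝ}
    (hY : 1 ≤ Y) (u v : Eis → ℂ) (d e : Eis) :
    cpS Y u v d (Fm w M ψ K e 0) = u d * conj (v d) * (tw M ψ 0 * ((Wt w 0 : ℝ) : ℂ)) := by
  have hY0 : 0 ≤ Y := by linarith
  have h1S : (1 : Eis) ∈ S Y := (mem_S hY0).2 ⟨by rw [nm_one]; exact_mod_cast hY, isPrim_one,
    squarefree_one⟩
  have hz : ∀ k ∈ S Y, k ≠ 1 → sy 0 k = 0 := by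
    intro k hk hne
    have hk' := (mem_S hY0).1 hk
    refine Tau671.sy_eq_zero hk'.2.1 fun h => hne ?_
    have hu : IsUnit k := isCoprime_zero_left.mp h
    exact hk'.2.1.eq_of_associated isPrim_one (associated_one_iff_isUnit.mpr hu)
  have hF : ∀ k₁ k₂, Fm w M ψ K e 0 k₁ k₂ = (((Real.sqrt (nm k₁ * nm k₂))⁻¹ : ℝ) : ℂ) *
      (ψ k₁ * ψ k₂) * (G k₁ * conj (G k₂)) * (tw M ψ 0 * Vp 0 k₁ k₂ * ((Wt w 0 : ℝ) : ℂ)) := by
    intro k₁ k₂
    unfold Fm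
    have : argM M K 0 (k₁ * k₂ * e) = 0 := by unfold argM; rw [map_zero, norm_zero]; ring
    rw [zero_mul, this]
  unfold cpS
  rw [Finset.sum_eq_single_of_mem 1 h1S, Finset.sum_eq_single_of_mem 1 h1S]
  · rw [if_pos isCoprime_one_left, mul_one, hF, psi_one hψ, G_one551]
    unfold Vp
    rw [Sym645.sy_one_right, nm_one]
    simp
  · intro k₂ h₂ hne
    split_ifs
    · rw [hF]; unfold Vp; rw [hz k₂ h₂ hne]; simp
    · rfl
  · intro k₁ h₁ hne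
    refine Finset.sum_eq_zero fun k₂ _ => ?_
    split_ifs
    · rw [hF]; unfold Vp; rw [hz k₁ h₁ hne]; simp
    · rfl

/-! ### summability -/

lemma summable_Wt {w : ℝ → ℝ} (hw : Wgt w) {K : ℝ} (hK : 0 < K) {M q : Eis} (hM : M ≠ 0)
    (hq : q ≠ 0) : Summable fun h : Eis => ((Wt w (argM M K h q) : ℝ) : ℂ) := by
  have hPF : PF (fw (fun x => w (x / K))) := by
    have := PF.of_schwartz (fS (hw.scale hK))
    rwa [fS_coe] at this
  have h1 := hPF.sumd (toC M * toC q) (mul_ne_zero (toC_ne_zero hM) (toC_ne_zero hq))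
  have h2 := h1.mul_left ((K : ℂ)⁻¹)
  refine h2.congr fun h => ?_
  rw [fC_scale w hK]
  have hKC : (K : ℂ) ≠ 0 := by exact_mod_cast hK.ne'
  push_cast
  rw [← mul_assoc, inv_mul_cancel₀ hKC, one_mul]
  congr 2
  unfold argM
  rw [Tau671.dl_eq, div_div, norm_div, norm_mul, norm_mul, norm_toC_sq3]
  ring

lemma summable_Fm {w : ℝ → ℝ} (hw : Wgt w) {K : ℝ} (hK : 0 < K) {M : Eis} {ψ : Eis → ℂ}
    (hψ : LC M ψ) {e k₁ k₂ : Eis} (he : e ≠ 0) (h₁ : IsPrim k₁) (h₂ : IsPrim k₂) :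
    Summable fun h : Eis => Fm w M ψ K e h k₁ k₂ := by
  unfold Fm
  refine Summable.mul_left _ ?_
  have h3 := summable_Wt hw hK hψ.ne (mul_ne_zero (mul_ne_zero h₁.ne_zero h₂.ne_zero) he)
  refine Tau671.summable_mul_bdd (B := nm M) (fun h => ?_) h3
  rw [norm_mul]
  calc ‖tw M ψ h‖ * ‖Vp (h * (e * (M * sq3)) ^ 2) k₁ k₂‖ ≤ nm M * 1 :=
        mul_le_mul (norm_tw_le hψ h) (norm_Vp_le h₁ h₂) (norm_nonneg _) (Nat.cast_nonneg _)
    _ = _ := mul_one _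

lemma summable_WB {M : Eis} (hM : M ≠ 0) {K N₁ N₂ : ℝ} (hK : 0 < K) (h₁ : 0 < N₁) (h₂ : 0 < N₂)
    {B : ℕ} (hB : 1 < B) {d e : Eis} (hd : d ≠ 0) (he : e ≠ 0) :
    Summable fun h : Eis => if h = 0 then 0 else WB M K N₁ N₂ B d e h := by
  have n1 := nmpos hM
  have n3 := nmpos he
  have n4 := nmpos hd
  set c : ℝ := K * (nm d : ℝ) ^ 2 / (3 * nm M * nm e * (N₁ * N₂)) with hc
  have hc0 : 0 < c := by positivity
  have h3 := (E1551.summable_inv_nm (s := B) (by exact_mod_cast hB)).mul_left ((c ^ B)⁻¹)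
  refine Summable.of_nonneg_of_le (fun h => ?_) (fun h => ?_) h3
  · split_ifs
    · exact le_rfl
    · exact WB_nonneg hK.le h₁.le h₂.le B d e h
  · split_ifs with h0
    · positivity
    · have nh := nmpos h0
      unfold WB
      have e1 : K * nm h * (nm d : ℝ) ^ 2 / (3 * nm M * nm e * (N₁ * N₂)) = c * nm h := by
        rw [hc]; ring
      rw [e1, Real.rpow_neg nh.le, Real.rpow_natCast, ← mul_inv, ← mul_pow]
      refine inv_anti₀ (by positivity) (pow_le_pow_left₀ (by positivity) ?_ B)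
      linarith [mul_pos hc0 nh]

/-- the total weight of the modes -/
def ModeS (A B : ℕ) (M : Eis) (ψ : Eis → ℂ) (K N₁ N₂ Y : ℝ) (u v : Eis → ℂ) (d e : Eis) : ℝ :=
  ∑' h : Eis, if h = 0 then 0 else WB M K N₁ N₂ B d e h *
    ∑ f ∈ S Y, EE A (rs u ψ d f) (rs v (fun m => conj (ψ m)) d f) (Hf M e h f)

lemma summable_ModeS {A B : ℕ} (hA : 1 < A) (hB : 1 < B) {M : Eis} {ψ : Eis → ℂ} (hψ : LC M ψ)
    {K N₁ N₂ Y : ℝ} (hK : 0 < K) (h₁ : 0 < N₁) (h₂ : 0 < N₂) (hY : 0 ≤ Y)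
    {u v : Eis → ℂ} (hu : ∀ n, u n ≠ 0 → n ∈ S Y) (hv : ∀ n, v n ≠ 0 → n ∈ S Y) {d e : Eis}
    (hd : IsPrim d) (he : e ≠ 0) :
    Summable fun h : Eis => if h = 0 then 0 else WB M K N₁ N₂ B d e h *
      ∑ f ∈ S Y, EE A (rs u ψ d f) (rs v (fun m => conj (ψ m)) d f) (Hf M e h f) := by
  have hA' : (1 : ℝ) < (A : ℝ) := by exact_mod_cast hA
  set D : ℝ := ∑ f ∈ S Y, (∫ t, jb A t) * ((∑ k ∈ S Y, ‖rs u ψ d f k‖) *
    ∑ k ∈ S Y, ‖rs v (fun m => conj (ψ m)) d f k‖) with hD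
  have hD' : ∀ h, ∑ f ∈ S Y, EE A (rs u ψ d f) (rs v (fun m => conj (ψ m)) d f) (Hf M e h f) ≤ D :=
    fun h => Finset.sum_le_sum fun f hf => by
      have hf' := (mem_S hY).1 hf
      exact EE_le hA' hY (rs_supp hY hu ψ hd hf'.2.1) (rs_supp hY hv _ hd hf'.2.1) _
  refine Summable.of_nonneg_of_le (fun h => ?_) (fun h => ?_)
    ((summable_WB hψ.ne hK h₁ h₂ hB hd.ne_zero he).mul_right D)
  · split_ifs
    · exact le_rfl
    · exact mul_nonneg (WB_nonneg hK.le h₁.le h₂.le B d e h)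
        (Finset.sum_nonneg fun _ _ => EE_nonneg _ _ _ _)
  · split_ifs
    · rw [zero_mul]
    · exact mul_le_mul_of_nonneg_left (hD' h) (WB_nonneg hK.le h₁.le h₂.le B d e h)

/-! ### the theorem -/

/-- **(BD)** the bilinear dual bound. -/
theorem BD {w : ℝ → ℝ} (hw : Wgt w) {R : ℝ} (hR : 0 ≤ R) {A B : ℕ} (hA : 1 < A) (hB : 1 < B) :
    ∃ C : ℝ, 0 ≤ C ∧ ∀ (M : Eis) (ψ : Eis → ℂ), LC M ψ → ∀ (K : ℝ), 0 < K → ∀ (Y : ℝ), 1 ≤ Y →
      ∀ (u v : Eis → ℂ), (∀ n, u n ≠ 0 → n ∈ S Y) → (∀ n, v n ≠ 0 → n ∈ S Y) →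
      ∀ (N₁ N₂ : ℝ), 0 < N₁ → 0 < N₂ → Win u (Real.log N₁) R → Win v (Real.log N₂) R →
      ‖BS w K ψ u v - ((2 * K / (Real.sqrt 3 * nm M) * Wt w 0 : ℝ) : ℂ) * tw M ψ 0 *
        ∑ d ∈ S Y, (∑ e ∈ pdiv d, (mu e : ℂ) * (nm e : ℂ)⁻¹ * ψ e) * (u d * conj (v d))‖ ≤
      C * (K / Real.sqrt (N₁ * N₂)) * ∑ d ∈ S Y, ∑ e ∈ pdiv d,
        (nm d / nm e : ℝ) * ModeS A B M ψ K N₁ N₂ Y u v d e := by
  obtain ⟨C, hC, hb⟩ := norm_mode_le hw hR hA B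
  refine ⟨2 * C, by positivity, fun M ψ hψ K hK Y hY u v hu hv N₁ N₂ hN₁ hN₂ hwu hwv => ?_⟩
  have hY0 : 0 ≤ Y := by linarith
  have nM := nmpos hψ.ne
  have hs3 : 1 ≤ Real.sqrt 3 := by
    rw [show (1 : ℝ) = Real.sqrt 1 by simp]; exact Real.sqrt_le_sqrt (by norm_num)
  -- the block `d`
  have hblock : ∀ d ∈ S Y, cpS Y u v d (fun k₁ k₂ => PkT w K ψ (d * k₁) (d * k₂)) =
      ((2 * K / (Real.sqrt 3 * nm M) : ℝ) : ℂ) * ∑ e ∈ pdiv d, (mu e : ℂ) * (nm e : ℂ)⁻¹ * ψ e *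
        ∑' h : Eis, cpS Y u v d (Fm w M ψ K e h) := by
    intro d hd
    have hd' := (mem_S hY0).1 hd
    have e1 : cpS Y u v d (fun k₁ k₂ => PkT w K ψ (d * k₁) (d * k₂)) =
        cpS Y u v d (fun k₁ k₂ => ((2 * K / (Real.sqrt 3 * nm M) : ℝ) : ℂ) *
          ∑ e ∈ pdiv d, (mu e : ℂ) * (nm e : ℂ)⁻¹ * ψ e * ∑' h : Eis, Fm w M ψ K e h k₁ k₂) := by
      refine cpS_congr fun k₁ k₂ h₁ h₂ hc _ _ => ?_
      have h₁' := (mem_S hY0).1 h₁
      have h₂' := (mem_S hY0).1 h₂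
      have n1 := nmpos h₁'.2.1.ne_zero
      have n2 := nmpos h₂'.2.1.ne_zero
      unfold PkT
      rw [pairT hw hK hψ hd'.2.1 h₁'.2.1 h₂'.2.1 h₁'.2.2 h₂'.2.2 hc, Finset.mul_sum,
        Finset.mul_sum]
      refine Finset.sum_congr rfl fun e he => ?_
      have e2 : (∑' h : Eis, Fm w M ψ K e h k₁ k₂) =
          ((((Real.sqrt (nm k₁ * nm k₂))⁻¹ : ℝ) : ℂ) * (ψ k₁ * ψ k₂) * (G k₁ * conj (G k₂))) *
          ∑' h : Eis, tw M ψ h * Vp (h * (e * (M * sq3)) ^ 2) k₁ k₂ *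
            ((Wt w (argM M K h (k₁ * k₂ * e)) : ℝ) : ℂ) := by
        rw [← tsum_mul_left]; rfl
      rw [e2]
      have h7 : Real.sqrt (nm k₁ * nm k₂) ≠ 0 := (Real.sqrt_pos.mpr (mul_pos n1 n2)).ne'
      have h8 : (2 * K / (Real.sqrt 3 * nm M * Real.sqrt (nm k₁ * nm k₂)) : ℝ) =
          (2 * K / (Real.sqrt 3 * nm M)) * (Real.sqrt (nm k₁ * nm k₂))⁻¹ := by
        field_simp
      rw [h8, Complex.ofReal_mul]
      ring
    rw [e1, cpS_smul, cpS_sum]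
    congr 1
    refine Finset.sum_congr rfl fun e he => ?_
    rw [cpS_smul]
    congr 1
    have he0 := ((mem_pdiv hd'.2.1.ne_zero).mp he).1.ne_zero
    exact (cpS_tsum2 u v d (fun h k₁ k₂ => Fm w M ψ K e h k₁ k₂) (fun k₁ k₂ h₁ h₂ _ =>
      summable_Fm hw hK hψ he0 ((mem_S hY0).1 h₁).2.1 ((mem_S hY0).1 h₂).2.1)).2
  -- one `e`
  have hone : ∀ d ∈ S Y, ∀ e ∈ pdiv d, ‖∑' h : Eis, cpS Y u v d (Fm w M ψ K e h) -
      u d * conj (v d) * (tw M ψ 0 * ((Wt w 0 : ℝ) : ℂ))‖ ≤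
      C * (nm M / Real.sqrt (N₁ * N₂)) * nm d * ModeS A B M ψ K N₁ N₂ Y u v d e := by
    intro d hd e he
    have hd' := (mem_S hY0).1 hd
    have he0 := ((mem_pdiv hd'.2.1.ne_zero).mp he).1.ne_zero
    have hsum : Summable fun h => cpS Y u v d (Fm w M ψ K e h) :=
      (cpS_tsum2 u v d (fun h k₁ k₂ => Fm w M ψ K e h k₁ k₂) (fun k₁ k₂ h₁ h₂ _ =>
      summable_Fm hw hK hψ he0 ((mem_S hY0).1 h₁).2.1 ((mem_S hY0).1 h₂).2.1)).1
    rw [hsum.tsum_eq_add_tsum_ite 0, zero_mode hψ hY]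
    rw [add_sub_cancel_left]
    have hS := summable_ModeS hA hB hψ hK hN₁ hN₂ hY0 hu hv hd'.2.1 he0
    have hS' := (hS.mul_left (C * (nm M / Real.sqrt (N₁ * N₂)) * nm d)).hasSum
    unfold ModeS
    rw [← tsum_mul_left]
    refine tsum_of_norm_bounded hS' fun h => ?_
    split_ifs with h0
    · rw [norm_zero, mul_zero]
    · exact hb M ψ hψ K hK Y hY0 u v hu hv N₁ N₂ hN₁ hN₂ hwu hwv d hd e he h h0
  have h0 : ∀ k, k ∉ S Y → u k = 0 := fun k hk => by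
    by_contra h; exact hk (hu k h)
  have h0' : ∀ k, k ∉ S Y → v k = 0 := fun k hk => by
    by_contra h; exact hk (hv k h)
  rw [BS_eq hw hK hu hv, sum_eq_cpS hY0 h0 h0', Finset.sum_congr rfl hblock, Finset.mul_sum,
    ← Finset.sum_sub_distrib, Finset.mul_sum]
  refine (norm_sum_le _ _).trans (Finset.sum_le_sum fun d hd => ?_)
  have hd' := (mem_S hY0).1 hd
  have e3 : ((2 * K / (Real.sqrt 3 * nm M) : ℝ) : ℂ) * ∑ e ∈ pdiv d, (mu e : ℂ) * (nm e : ℂ)⁻¹ *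
        ψ e * ∑' h : Eis, cpS Y u v d (Fm w M ψ K e h) -
      ((2 * K / (Real.sqrt 3 * nm M) * Wt w 0 : ℝ) : ℂ) * tw M ψ 0 *
        ((∑ e ∈ pdiv d, (mu e : ℂ) * (nm e : ℂ)⁻¹ * ψ e) * (u d * conj (v d))) =
      ((2 * K / (Real.sqrt 3 * nm M) : ℝ) : ℂ) * ∑ e ∈ pdiv d, (mu e : ℂ) * (nm e : ℂ)⁻¹ *
        ψ e * (∑' h : Eis, cpS Y u v d (Fm w M ψ K e h) -
          u d * conj (v d) * (tw M ψ 0 * ((Wt w 0 : ℝ) : ℂ))) := by
    simp_rw [mul_sub]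
    rw [Finset.sum_sub_distrib, mul_sub, ← Finset.sum_mul]
    push_cast
    ring
  rw [e3, norm_mul, Complex.norm_real, Real.norm_of_nonneg (by positivity)]
  have e4 : ‖∑ e ∈ pdiv d, (mu e : ℂ) * (nm e : ℂ)⁻¹ * ψ e *
      (∑' h : Eis, cpS Y u v d (Fm w M ψ K e h) -
          u d * conj (v d) * (tw M ψ 0 * ((Wt w 0 : ℝ) : ℂ)))‖ ≤
      ∑ e ∈ pdiv d, (nm e : ℝ)⁻¹ * (C * (nm M / Real.sqrt (N₁ * N₂)) * nm d *
        ModeS A B M ψ K N₁ N₂ Y u v d e) := by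
    refine (norm_sum_le _ _).trans (Finset.sum_le_sum fun e he => ?_)
    have he' := ((mem_pdiv hd'.2.1.ne_zero).mp he).1
    have ne := nmpos he'.ne_zero
    rw [norm_mul, norm_mul, norm_mul, norm_inv, hψ.norm e he', mul_one]
    have e2 : ‖(nm e : ℂ)‖ = nm e := by
      rw [show (nm e : ℂ) = ((nm e : ℝ) : ℂ) by push_cast; rfl, Complex.norm_real,
        Real.norm_of_nonneg ne.le]
    have hmu : ‖(mu e : ℂ)‖ ≤ 1 := by
      rw [show (mu e : ℂ) = ((mu e : ℝ) : ℂ) by push_cast; rfl, Complex.norm_real, Real.norm_eq_abs]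
      exact_mod_cast abs_mu_le_one e
    rw [e2]
    refine mul_le_mul ?_ (hone d hd e he) (norm_nonneg _) (by positivity)
    calc ‖(mu e : ℂ)‖ * (nm e : ℝ)⁻¹ ≤ 1 * (nm e : ℝ)⁻¹ :=
          mul_le_mul_of_nonneg_right hmu (by positivity)
      _ = _ := one_mul _
  refine (mul_le_mul_of_nonneg_left e4 (by positivity)).trans ?_
  rw [Finset.mul_sum, Finset.mul_sum]
  refine Finset.sum_le_sum fun e he => ?_
  have he' := ((mem_pdiv hd'.2.1.ne_zero).mp he).1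
  have ne := nmpos he'.ne_zero
  have hMS : 0 ≤ ModeS A B M ψ K N₁ N₂ Y u v d e := by
    unfold ModeS
    refine tsum_nonneg fun h => ?_
    split_ifs
    · exact le_rfl
    · exact mul_nonneg (WB_nonneg hK.le hN₁.le hN₂.le B d e h)
        (Finset.sum_nonneg fun _ _ => EE_nonneg _ _ _ _)
  have hs : 0 < Real.sqrt (N₁ * N₂) := Real.sqrt_pos.mpr (by positivity)
  have nd := nmpos hd'.2.1.ne_zero
  have e5 : 2 * K / (Real.sqrt 3 * nm M) * ((nm e : ℝ)⁻¹ * (C * (nm M / Real.sqrt (N₁ * N₂)) *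
      nm d * ModeS A B M ψ K N₁ N₂ Y u v d e)) =
      (Real.sqrt 3)⁻¹ * (2 * C * (K / Real.sqrt (N₁ * N₂)) * ((nm d / nm e : ℝ) *
        ModeS A B M ψ K N₁ N₂ Y u v d e)) := by
    field_simp
  rw [e5]
  refine mul_le_of_le_one_left ?_ (inv_le_one_of_one_le₀ hs3)
  have : (0 : ℝ) ≤ nm d / nm e := by positivity
  positivity

end Crest.Agent.R017.BD829
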