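import Crest.Agent.R017.BD4_829
import Crest.Agent.R012.CharInst_766

/-!
# Row 17, block C70, leaf E3 (BD) part 5 (helper829): the two cases of (BD)

`BD_one` : `ψ = 1`;  `BD_sy` : `ψ = (s / ·)` for an `S`-unit `s` which is not a cube.
-/

set_option autoImplicit false

noncomputable section

open Complex MeasureTheory
open scoped ComplexConjugate Classical

namespace Crest.Agent.R017.BD829

open Crest.Agent.R012 Crest.Agent.R012.Eis Crest.Agent.R012.MC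
open Crest.Agent.R012.LS2 (S mem_S)
open Crest.Agent.R012.Mob705 (mu pdiv mem_pdiv mu_mul abs_mu_le_one PE pp)
open Crest.Agent.R017.CM106 (CS TG)
open Crest.Agent.R017.E1551 (nmpos)
open Gauss880 (syG)

lemma LC_one : LC 3 (fun _ => 1) where
  ne := three_ne_zero'
  three := dvd_rfl
  cop c hc := hc.isCoprime_three.symm
  mul _ _ _ _ := by ring
  norm _ _ := by simp
  per _ _ _ _ _ := rfl

lemma tw_one : tw 3 (fun _ => 1) 0 = 1 := by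
  have e0 : tw 3 (fun _ => 1) 0 = sumMod 3 (fun x => if IsPrim x then (1 : ℂ) else 0) := by
    unfold tw
    refine sumMod_congr fun x => ?_
    rw [map_zero, zero_mul, zero_div, eC_zero, mul_one]
  rw [e0, sumMod_eq_sum (isCRS_crs three_ne_zero') LC_one.pmod]
  obtain ⟨s, ⟨hs, hd⟩, hu⟩ := isCRS_crs three_ne_zero' 1
  have hsp : IsPrim s := by
    unfold IsPrim; rw [← neg_sub]; exact (dvd_neg.mpr hd)
  rw [Finset.sum_eq_single_of_mem s hs]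
  · rw [if_pos hsp]
  · intro t ht hne
    rw [if_neg]
    intro htp
    apply hne
    apply hu t ⟨ht, ?_⟩
    unfold IsPrim at htp
    rw [← neg_sub]; exact (dvd_neg.mpr htp)

/-- the `S`-unit characters -/
lemma LC_sy {s : Eis} (h0 : s ≠ 0) (hs : ∀ c, IsPrim c → IsCoprime s c) : LC (9 * s) (sy s) where
  ne := mul_ne_zero (by norm_num) h0
  three := ⟨3 * s, by ring⟩
  cop c hc := by
    have h3 : IsCoprime (3 : Eis) c := hc.isCoprime_three.symm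
    have : (9 : Eis) * s = 3 * (3 * s) := by ring
    rw [this]
    exact h3.mul_left (h3.mul_left (hs c hc))
  mul a b ha hb := syG.mul_right _ _ _ ha hb
  norm a ha := Char766.norm_sy ha (hs a ha)
  per a b ha hb h := Char766.sy_periodic_mod h0 ha hb h

lemma LC.conj {M : Eis} {ψ : Eis → ℂ} (h : LC M ψ) : LC M (fun a => conj (ψ a)) where
  ne := h.ne
  three := h.three
  cop := h.cop
  mul a b ha hb := by rw [h.mul a b ha hb, map_mul]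
  norm a ha := by rw [RCLike.norm_conj]; exact h.norm a ha
  per a b ha hb hd := by rw [h.per a b ha hb hd]

lemma tw_sy {s : Eis} (h0 : s ≠ 0) (hs : ∀ c, IsPrim c → IsCoprime s c)
    (hc : ¬ ∃ t, s = t ^ 3) : tw (9 * s) (sy s) 0 = 0 := by
  obtain ⟨a, ha, -, -, h1, -⟩ := Char766.exists_test_sy h0 hc (Q := 1) one_ne_zero
  exact tw_zero (LC_sy h0 hs) ha h1

lemma PE_sum {d : Eis} (hd : d ≠ 0) : ((PE d : ℝ) : ℂ) = ∑ e ∈ pdiv d, (mu e : ℂ) * (nm e : ℂ)⁻¹ := by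
  rw [Mob705.PE_eq_sum hd]
  push_cast
  exact Finset.sum_congr rfl fun e _ => by rw [one_div]

/-- **(BD), trivial twist** -/
theorem BD_one {w : ℝ → ℝ} (hw : Wgt w) {R : ℝ} (hR : 0 ≤ R) {A B : ℕ} (hA : 1 < A) (hB : 1 < B) :
    ∃ C : ℝ, 0 ≤ C ∧ ∀ (K : ℝ), 0 < K → ∀ (Y : ℝ), 1 ≤ Y →
      ∀ (u v : Eis → ℂ), (∀ n, u n ≠ 0 → n ∈ S Y) → (∀ n, v n ≠ 0 → n ∈ S Y) →
      ∀ (N₁ N₂ : ℝ), 0 < N₁ → 0 < N₂ → Win u (Real.log N₁) R → Win v (Real.log N₂) R →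
      ‖BS w K (fun _ => 1) u v - ((2 * K / (9 * Real.sqrt 3) * Wt w 0 : ℝ) : ℂ) *
        ∑ d ∈ S Y, (PE d : ℂ) * (u d * conj (v d))‖ ≤
      C * (K / Real.sqrt (N₁ * N₂)) * ∑ d ∈ S Y, ∑ e ∈ pdiv d,
        (nm d / nm e : ℝ) * ModeS A B 3 (fun _ => 1) K N₁ N₂ Y u v d e := by
  obtain ⟨C, hC, h⟩ := BD hw hR hA hB
  refine ⟨C, hC, fun K hK Y hY u v hu hv N₁ N₂ hN₁ hN₂ hwu hwv => ?_⟩
  have h1 := h 3 (fun _ => 1) LC_one K hK Y hY u v hu hv N₁ N₂ hN₁ hN₂ hwu hwv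
  rw [tw_one, mul_one] at h1
  have e1 : ∑ d ∈ S Y, (PE d : ℂ) * (u d * conj (v d)) =
      ∑ d ∈ S Y, (∑ e ∈ pdiv d, (mu e : ℂ) * (nm e : ℂ)⁻¹ * (fun _ : Eis => (1 : ℂ)) e) *
        (u d * conj (v d)) := by
    refine Finset.sum_congr rfl fun d hd => ?_
    rw [PE_sum ((mem_S (by linarith)).1 hd).2.1.ne_zero]
    congr 1
    exact Finset.sum_congr rfl fun e _ => by rw [mul_one]
  have e2 : (2 * K / (9 * Real.sqrt 3) * Wt w 0 : ℝ) =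
      2 * K / (Real.sqrt 3 * nm (3 : Eis)) * Wt w 0 := by
    rw [nm_three]; push_cast; ring
  rw [e1, e2]
  exact h1

/-- **(BD), nontrivial twist by an `S`-unit** -/
theorem BD_sy {w : ℝ → ℝ} (hw : Wgt w) {R : ℝ} (hR : 0 ≤ R) {A B : ℕ} (hA : 1 < A) (hB : 1 < B) :
    ∃ C : ℝ, 0 ≤ C ∧ ∀ (s : Eis), s ≠ 0 → (∀ c, IsPrim c → IsCoprime s c) →
      (¬ ∃ t, s = t ^ 3) → ∀ (K : ℝ), 0 < K → ∀ (Y : ℝ), 1 ≤ Y →
      ∀ (u v : Eis → ℂ), (∀ n, u n ≠ 0 → n ∈ S Y) → (∀ n, v n ≠ 0 → n ∈ S Y) →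
      ∀ (N₁ N₂ : ℝ), 0 < N₁ → 0 < N₂ → Win u (Real.log N₁) R → Win v (Real.log N₂) R →
      ‖BS w K (sy s) u v‖ ≤
      C * (K / Real.sqrt (N₁ * N₂)) * ∑ d ∈ S Y, ∑ e ∈ pdiv d,
        (nm d / nm e : ℝ) * ModeS A B (9 * s) (sy s) K N₁ N₂ Y u v d e := by
  obtain ⟨C, hC, h⟩ := BD hw hR hA hB
  refine ⟨C, hC, fun s h0 hs hc K hK Y hY u v hu hv N₁ N₂ hN₁ hN₂ hwu hwv => ?_⟩
  have h1 := h (9 * s) (sy s) (LC_sy h0 hs) K hK Y hY u v hu hv N₁ N₂ hN₁ hN₂ hwu hwv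
  rw [tw_sy h0 hs hc, mul_zero, zero_mul, sub_zero] at h1
  exact h1

end Crest.Agent.R017.BD829
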