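import Crest.Agent.R017.BD5_829

/-!
# Row 17, block C70, leaf E3 (BD) part 6 (helper829): consumption of (BD)

`tsum_W_le` : the decaying sum over the modes from bounds on balls with the doubling property;
`EQ`, `EE_le_EQ` ; `ModeS_le`.
-/

set_option autoImplicit false

noncomputable section

open Complex MeasureTheory
open scoped ComplexConjugate Classical

namespace Crest.Agent.R017.BD829

open Crest.Agent.R012 Crest.Agent.R012.Eis Crest.Agent.R012.MC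
open Crest.Agent.R012.LS2 (S mem_S bl mem_bl)
open Crest.Agent.R012.Mob705 (mu pdiv mem_pdiv mu_mul abs_mu_le_one PE pp)
open Crest.Agent.R017.CM106 (CS TG)
open Crest.Agent.R017.E1551 (nmpos jb jb_pos jb_neg continuous_jb integrable_jb integrable_jb_mul
  nm_ge_one)

/-- the elementary decaying weight -/
def Wl (B : ℕ) (lm : ℝ) (h : Eis) : ℝ := ((1 + nm h / lm) ^ B)⁻¹

lemma Wl_nonneg (B : ℕ) {lm : ℝ} (hl : 0 ≤ lm) (h : Eis) : 0 ≤ Wl B lm h := by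
  unfold Wl; positivity

lemma Wl_le_one (B : ℕ) {lm : ℝ} (hl : 0 ≤ lm) (h : Eis) : Wl B lm h ≤ 1 := by
  unfold Wl
  refine inv_le_one_of_one_le₀ (one_le_pow₀ ?_)
  have : 0 ≤ (nm h : ℝ) / lm := by positivity
  linarith

lemma Wl_le {B : ℕ} {lm : ℝ} (hl : 0 < lm) {h : Eis} {x : ℝ} (hx : 0 < x) (hh : x ≤ nm h) :
    Wl B lm h ≤ (lm / x) ^ B := by
  unfold Wl
  rw [← inv_pow]
  refine pow_le_pow_left₀ (by positivity) ?_ B
  have h1 : x / lm ≤ 1 + nm h / lm := by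
    have : x / lm ≤ nm h / lm := div_le_div_of_nonneg_right hh hl.le
    linarith
  have h2 := inv_anti₀ (by positivity) h1
  rwa [inv_div] at h2

/-- the dyadic bound on a large ball -/
lemma sum_W_le {F : Eis → ℝ} (hF : ∀ h, 0 ≤ F h) {G : ℝ → ℝ} {a B : ℕ} (hB : a + 1 ≤ B)
    (hG : ∀ L, 1 ≤ L → ∑ h ∈ bl L, F h ≤ G L) (hG2 : ∀ L, 1 ≤ L → G (2 * L) ≤ 2 ^ a * G L)
    {lm : ℝ} (hl : 0 < lm) (J : ℕ) :
    ∑ h ∈ bl (2 ^ J * max 1 lm), Wl B lm h * F h ≤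
      (min 1 lm) ^ B * G (max 1 lm) * (1 + 2 ^ (a + 1) * (1 - (1 / 2) ^ J)) := by
  set Λ := max 1 lm with hΛ
  set m := min 1 lm with hm
  have hΛ1 : 1 ≤ Λ := le_max_left _ _
  have hm0 : 0 < m := lt_min one_pos hl
  have hml : lm = m * Λ := by
    rcases le_total 1 lm with h | h
    · rw [hm, hΛ, min_eq_left h, max_eq_right h, one_mul]
    · rw [hm, hΛ, min_eq_right h, max_eq_left h, mul_one]
  have hG0 : 0 ≤ G Λ := (Finset.sum_nonneg fun h _ => hF h).trans (hG Λ hΛ1)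
  have hGJ : ∀ J : ℕ, G (2 ^ J * Λ) ≤ (2 ^ a) ^ J * G Λ := by
    intro J
    induction J with
    | zero => simp
    | succ J ih =>
      have h1 : (1 : ℝ) ≤ 2 ^ J * Λ := by
        have : (1 : ℝ) ≤ 2 ^ J := one_le_pow₀ (by norm_num)
        nlinarith
      calc G (2 ^ (J + 1) * Λ) = G (2 * (2 ^ J * Λ)) := by congr 1; ring
        _ ≤ 2 ^ a * G (2 ^ J * Λ) := hG2 _ h1
        _ ≤ 2 ^ a * ((2 ^ a) ^ J * G Λ) := mul_le_mul_of_nonneg_left ih (by positivity)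
        _ = _ := by ring
  induction J with
  | zero =>
    simp only [pow_zero, one_mul, sub_self, mul_zero, add_zero, mul_one]
    have h1 : ∀ h ∈ bl Λ, Wl B lm h * F h ≤ m ^ B * F h := by
      intro h hh
      have hh' := (mem_bl (by linarith)).mp hh
      refine mul_le_mul_of_nonneg_right ?_ (hF h)
      rcases le_total 1 lm with h2 | h2
      · rw [hm, min_eq_left h2, one_pow]; exact Wl_le_one B hl.le h
      · rw [hm, min_eq_right h2]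
        have := Wl_le (B := B) hl one_pos (nm_ge_one hh'.1)
        rwa [div_one] at this
    calc ∑ h ∈ bl Λ, Wl B lm h * F h ≤ ∑ h ∈ bl Λ, m ^ B * F h := Finset.sum_le_sum h1
      _ = m ^ B * ∑ h ∈ bl Λ, F h := by rw [Finset.mul_sum]
      _ ≤ m ^ B * G Λ := mul_le_mul_of_nonneg_left (hG Λ hΛ1) (by positivity)
  | succ J ih =>
    have h2J : (0 : ℝ) < 2 ^ J * Λ := by positivity
    have hsub : bl (2 ^ J * Λ) ⊆ bl (2 ^ (J + 1) * Λ) := by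
      intro h hh
      have hh' := (mem_bl h2J.le).mp hh
      refine (mem_bl (by positivity)).mpr ⟨hh'.1, hh'.2.trans ?_⟩
      rw [pow_succ]; nlinarith
    rw [← Finset.sum_sdiff hsub]
    have h1 : ∑ h ∈ bl (2 ^ (J + 1) * Λ) \ bl (2 ^ J * Λ), Wl B lm h * F h ≤
        m ^ B * G Λ * (2 ^ (a + 1) * ((1 / 2) ^ J - (1 / 2) ^ (J + 1))) := by
      have h3 : ∀ h ∈ bl (2 ^ (J + 1) * Λ) \ bl (2 ^ J * Λ), Wl B lm h * F h ≤
          (m / 2 ^ J) ^ B * F h := by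
        intro h hh
        rw [Finset.mem_sdiff, mem_bl (by positivity), mem_bl h2J.le] at hh
        refine mul_le_mul_of_nonneg_right ?_ (hF h)
        have h4 : 2 ^ J * Λ ≤ nm h := by
          by_contra h5
          exact hh.2 ⟨hh.1.1, (not_le.mp h5).le⟩
        have h6 := Wl_le (B := B) hl h2J h4
        have h7 : lm / (2 ^ J * Λ) = m / 2 ^ J := by
          rw [hml]; field_simp
        rwa [h7] at h6
      have h8 : (1 : ℝ) ≤ 2 ^ (J + 1) * Λ := by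
        have : (1 : ℝ) ≤ 2 ^ (J + 1) := one_le_pow₀ (by norm_num)
        nlinarith
      calc ∑ h ∈ bl (2 ^ (J + 1) * Λ) \ bl (2 ^ J * Λ), Wl B lm h * F h
          ≤ ∑ h ∈ bl (2 ^ (J + 1) * Λ) \ bl (2 ^ J * Λ), (m / 2 ^ J) ^ B * F h :=
            Finset.sum_le_sum h3
        _ ≤ ∑ h ∈ bl (2 ^ (J + 1) * Λ), (m / 2 ^ J) ^ B * F h :=
            Finset.sum_le_sum_of_subset_of_nonneg Finset.sdiff_subset
              fun h _ _ => mul_nonneg (by positivity) (hF h)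
        _ = (m / 2 ^ J) ^ B * ∑ h ∈ bl (2 ^ (J + 1) * Λ), F h := by rw [Finset.mul_sum]
        _ ≤ (m / 2 ^ J) ^ B * ((2 ^ a) ^ (J + 1) * G Λ) :=
            mul_le_mul_of_nonneg_left ((hG _ h8).trans (hGJ (J + 1))) (by positivity)
        _ = m ^ B * G Λ * ((2 ^ a) ^ (J + 1) / (2 ^ J) ^ B) := by
            rw [div_pow]; ring
        _ ≤ m ^ B * G Λ * (2 ^ (a + 1) * ((1 / 2) ^ J - (1 / 2) ^ (J + 1))) := by
            refine mul_le_mul_of_nonneg_left ?_ (by positivity)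
            have e1 : (2 : ℝ) ^ (a + 1) * ((1 / 2) ^ J - (1 / 2) ^ (J + 1)) =
                2 ^ a / 2 ^ J := by
              rw [pow_succ (1 / 2 : ℝ), one_div, inv_pow]; ring
            rw [e1, div_le_div_iff₀ (by positivity) (by positivity)]
            have e2 : ((2 : ℝ) ^ a) ^ (J + 1) * 2 ^ J = 2 ^ a * (2 ^ J) ^ (a + 1) := by
              rw [pow_succ, ← pow_mul, ← pow_mul, mul_comm a J, mul_add, mul_one, pow_add]; ring
            rw [e2]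
            refine mul_le_mul_of_nonneg_left ?_ (by positivity)
            exact pow_le_pow_right₀ (one_le_pow₀ (by norm_num)) hB
    calc _ ≤ m ^ B * G Λ * (2 ^ (a + 1) * ((1 / 2) ^ J - (1 / 2) ^ (J + 1))) +
          m ^ B * G Λ * (1 + 2 ^ (a + 1) * (1 - (1 / 2) ^ J)) := add_le_add h1 ih
      _ = _ := by ring

/-- **the decaying sum over the modes** -/
theorem tsum_W_le {F : Eis → ℝ} (hF : ∀ h, 0 ≤ F h) {G : ℝ → ℝ} {a B : ℕ} (hB : a + 1 ≤ B)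
    (hG : ∀ L, 1 ≤ L → ∑ h ∈ bl L, F h ≤ G L) (hG2 : ∀ L, 1 ≤ L → G (2 * L) ≤ 2 ^ a * G L)
    {lm : ℝ} (hl : 0 < lm) :
    ∑' h : Eis, (if h = 0 then 0 else Wl B lm h * F h) ≤
      (1 + 2 ^ (a + 1)) * ((min 1 lm) ^ B * G (max 1 lm)) := by
  have hΛ1 : 1 ≤ max 1 lm := le_max_left _ _
  have hG0 : 0 ≤ G (max 1 lm) := (Finset.sum_nonneg fun h _ => hF h).trans (hG _ hΛ1)
  have hm0 : 0 < min 1 lm := lt_min one_pos hl
  refine tsum_le_of_sum_le' (by positivity) fun s => ?_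
  -- a large ball
  obtain ⟨J, hJ⟩ : ∃ J : ℕ, ∀ h ∈ s, (nm h : ℝ) ≤ 2 ^ J * max 1 lm := by
    obtain ⟨N, hN⟩ : ∃ N : ℕ, ∀ h ∈ s, nm h ≤ N := by
      refine ⟨s.sup nm, fun h hh => Finset.le_sup hh⟩
    refine ⟨N, fun h hh => ?_⟩
    have h1 : (nm h : ℝ) ≤ N := by exact_mod_cast hN h hh
    have h2 : (N : ℝ) ≤ 2 ^ N := by exact_mod_cast Nat.lt_two_pow_self.le
    have h3 : (2 : ℝ) ^ N * 1 ≤ 2 ^ N * max 1 lm :=
      mul_le_mul_of_nonneg_left hΛ1 (by positivity)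
    linarith
  have h1 : ∑ h ∈ s, (if h = 0 then 0 else Wl B lm h * F h) ≤
      ∑ h ∈ bl (2 ^ J * max 1 lm), Wl B lm h * F h := by
    rw [← Finset.sum_filter_add_sum_filter_not s (fun h => h = 0)]
    have e0 : ∑ h ∈ s.filter (fun h => h = 0), (if h = 0 then 0 else Wl B lm h * F h) = 0 :=
      Finset.sum_eq_zero fun h hh => if_pos (Finset.mem_filter.mp hh).2
    rw [e0, zero_add]
    have e1 : ∑ h ∈ s.filter (fun h => ¬ h = 0), (if h = 0 then 0 else Wl B lm h * F h) =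
        ∑ h ∈ s.filter (fun h => ¬ h = 0), Wl B lm h * F h :=
      Finset.sum_congr rfl fun h hh => if_neg (Finset.mem_filter.mp hh).2
    rw [e1]
    refine Finset.sum_le_sum_of_subset_of_nonneg (fun h hh => ?_)
      fun h _ _ => mul_nonneg (Wl_nonneg B hl.le h) (hF h)
    rw [Finset.mem_filter] at hh
    exact (mem_bl (by positivity)).mpr ⟨hh.2, hJ h hh.1⟩
  refine h1.trans ((sum_W_le hF hB hG hG2 hl J).trans ?_)
  have h3 : 0 ≤ (min 1 lm) ^ B * G (max 1 lm) := by positivity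
  have h4 : (1 : ℝ) + 2 ^ (a + 1) * (1 - (1 / 2) ^ J) ≤ 1 + 2 ^ (a + 1) := by
    have h5 : (0 : ℝ) < 2 ^ (a + 1) := by positivity
    have h6 : (0 : ℝ) < (1 / 2) ^ J := by positivity
    nlinarith
  calc (min 1 lm) ^ B * G (max 1 lm) * (1 + 2 ^ (a + 1) * (1 - (1 / 2) ^ J))
      ≤ (min 1 lm) ^ B * G (max 1 lm) * (1 + 2 ^ (a + 1)) := mul_le_mul_of_nonneg_left h4 h3
    _ = _ := by ring

/-! ### squares instead of products -/

/-- the mean square of the linear sum -/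
def EQ (A : ℝ) (u : Eis → ℂ) (H : Eis) : ℝ := ∫ t, jb A t * ‖TT u H t‖ ^ 2

lemma EQ_nonneg (A : ℝ) (u : Eis → ℂ) (H : Eis) : 0 ≤ EQ A u H :=
  integral_nonneg fun t => mul_nonneg (jb_pos A t).le (by positivity)

lemma integrable_EQ {A : ℝ} (hA : 1 < A) {Y : ℝ} (hY : 0 ≤ Y) {u : Eis → ℂ}
    (hu : ∀ n, u n ≠ 0 → n ∈ S Y) (H : Eis) :
    Integrable fun t => jb A t * ‖TT u H t‖ ^ 2 := by
  refine integrable_jb_mul hA (((continuous_TT hu H).norm).pow 2)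
    (B := (∑ k ∈ S Y, ‖u k‖) ^ 2) fun t => ?_
  rw [abs_of_nonneg (by positivity)]
  exact pow_le_pow_left₀ (norm_nonneg _) (norm_TT_le hY hu H t) 2

lemma EE_le_EQ {A : ℝ} (hA : 1 < A) {Y : ℝ} (hY : 0 ≤ Y) {u v : Eis → ℂ}
    (hu : ∀ n, u n ≠ 0 → n ∈ S Y) (hv : ∀ n, v n ≠ 0 → n ∈ S Y) (H : Eis) {ρ : ℝ} (hρ : 0 < ρ) :
    EE A u v H ≤ ρ * EQ A u H + ρ⁻¹ * EQ A v H := by
  have hi1 := integrable_EQ hA hY hu H
  have hi2 := integrable_EQ hA hY hv H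
  have hi3 : Integrable fun t => jb A t * ‖TT v H (-t)‖ ^ 2 := by
    have h := hi2.comp_neg
    refine h.congr (Filter.Eventually.of_forall fun t => ?_)
    simp only [jb_neg]
  have e3 : ∫ t, jb A t * ‖TT v H (-t)‖ ^ 2 = EQ A v H := by
    unfold EQ
    rw [← integral_neg_eq_self (μ := volume) (fun t => jb A t * ‖TT v H t‖ ^ 2)]
    refine integral_congr_ae (Filter.Eventually.of_forall fun t => ?_)
    simp only [jb_neg]
  rw [← e3]
  unfold EQ EE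
  rw [← integral_const_mul, ← integral_const_mul, ← integral_add (hi1.const_mul ρ)
    (hi3.const_mul ρ⁻¹)]
  refine integral_mono (integrable_EE hA hY hu hv H) ((hi1.const_mul ρ).add (hi3.const_mul ρ⁻¹))
    fun t => ?_
  set a := ‖TT u H t‖
  set b := ‖TT v H (-t)‖
  have ha : 0 ≤ a := norm_nonneg _
  have hb : 0 ≤ b := norm_nonneg _
  have hab : a * b ≤ ρ * a ^ 2 + ρ⁻¹ * b ^ 2 := by
    have h6 : 0 ≤ ρ * (a - ρ⁻¹ * b) ^ 2 := by positivity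
    have h8 : ρ * ρ⁻¹ = 1 := mul_inv_cancel₀ hρ.ne'
    have h7 : ρ * (a - ρ⁻¹ * b) ^ 2 = ρ * a ^ 2 - 2 * (a * b) + ρ⁻¹ * b ^ 2 := by
      linear_combination (-2 * (a * b) + ρ⁻¹ * b ^ 2) * h8
    have h9 : 0 ≤ a * b := mul_nonneg ha hb
    linarith
  calc jb A t * (a * b) ≤ jb A t * (ρ * a ^ 2 + ρ⁻¹ * b ^ 2) :=
        mul_le_mul_of_nonneg_left hab (jb_pos A t).le
    _ = _ := by ring

/-- scale of the modes -/
def lmB (M : Eis) (K N₁ N₂ : ℝ) (d e : Eis) : ℝ :=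
  3 * nm M * nm e * (N₁ * N₂) / (K * (nm d : ℝ) ^ 2)

lemma WB_eq_Wl {M : Eis} {K N₁ N₂ : ℝ} (B : ℕ) (d e h : Eis) :
    WB M K N₁ N₂ B d e h = Wl B (lmB M K N₁ N₂ d e) h := by
  unfold WB Wl lmB
  congr 3
  rw [div_div_eq_mul_div]
  ring

/-- **bound of the total weight of the modes** -/
theorem ModeS_le {A B a : ℕ} (hA : 1 < A) (hB : a + 1 ≤ B) (hB1 : 1 < B) {M : Eis} {ψ : Eis → ℂ}
    (hψ : LC M ψ) {K N₁ N₂ Y : ℝ} (hK : 0 < K) (h₁ : 0 < N₁) (h₂ : 0 < N₂) (hY : 0 ≤ Y)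
    {u v : Eis → ℂ} (hu : ∀ n, u n ≠ 0 → n ∈ S Y) (hv : ∀ n, v n ≠ 0 → n ∈ S Y) {d e : Eis}
    (hd : IsPrim d) (he : e ≠ 0) {Gu Gv : ℝ → ℝ}
    (hGu : ∀ L, 1 ≤ L → ∑ h ∈ bl L, ∑ f ∈ S Y, EQ A (rs u ψ d f) (Hf M e h f) ≤ Gu L)
    (hGv : ∀ L, 1 ≤ L → ∑ h ∈ bl L, ∑ f ∈ S Y,
      EQ A (rs v (fun m => conj (ψ m)) d f) (Hf M e h f) ≤ Gv L)
    (hGu2 : ∀ L, 1 ≤ L → Gu (2 * L) ≤ 2 ^ a * Gu L)
    (hGv2 : ∀ L, 1 ≤ L → Gv (2 * L) ≤ 2 ^ a * Gv L) {ρ : ℝ} (hρ : 0 < ρ) :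
    ModeS A B M ψ K N₁ N₂ Y u v d e ≤ (1 + 2 ^ (a + 1)) *
      ((min 1 (lmB M K N₁ N₂ d e)) ^ B * (ρ * Gu (max 1 (lmB M K N₁ N₂ d e)) +
        ρ⁻¹ * Gv (max 1 (lmB M K N₁ N₂ d e)))) := by
  have hA' : (1 : ℝ) < (A : ℝ) := by exact_mod_cast hA
  have nM := nmpos hψ.ne
  have nd := nmpos hd.ne_zero
  have ne := nmpos he
  have hl : 0 < lmB M K N₁ N₂ d e := by unfold lmB; positivity
  unfold ModeS
  simp_rw [WB_eq_Wl]
  refine tsum_W_le (F := fun h => ∑ f ∈ S Y,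
    EE A (rs u ψ d f) (rs v (fun m => conj (ψ m)) d f) (Hf M e h f))
    (G := fun L => ρ * Gu L + ρ⁻¹ * Gv L)
    (fun h => Finset.sum_nonneg fun _ _ => EE_nonneg _ _ _ _) hB (fun L hL => ?_)
    (fun L hL => ?_) hl
  · calc ∑ h ∈ bl L, ∑ f ∈ S Y, EE A (rs u ψ d f) (rs v (fun m => conj (ψ m)) d f) (Hf M e h f)
        ≤ ∑ h ∈ bl L, ∑ f ∈ S Y, (ρ * EQ A (rs u ψ d f) (Hf M e h f) +
          ρ⁻¹ * EQ A (rs v (fun m => conj (ψ m)) d f) (Hf M e h f)) := by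
          refine Finset.sum_le_sum fun h _ => Finset.sum_le_sum fun f hf => ?_
          have hf' := (mem_S hY).1 hf
          exact EE_le_EQ hA' hY (rs_supp hY hu ψ hd hf'.2.1) (rs_supp hY hv _ hd hf'.2.1) _ hρ
      _ = ρ * (∑ h ∈ bl L, ∑ f ∈ S Y, EQ A (rs u ψ d f) (Hf M e h f)) +
          ρ⁻¹ * ∑ h ∈ bl L, ∑ f ∈ S Y,
            EQ A (rs v (fun m => conj (ψ m)) d f) (Hf M e h f) := by
          simp_rw [Finset.sum_add_distrib, Finset.mul_sum]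
      _ ≤ ρ * Gu L + ρ⁻¹ * Gv L := add_le_add (mul_le_mul_of_nonneg_left (hGu L hL) hρ.le)
          (mul_le_mul_of_nonneg_left (hGv L hL) (by positivity))
  · have h1 := mul_le_mul_of_nonneg_left (hGu2 L hL) hρ.le
    have h2 := mul_le_mul_of_nonneg_left (hGv2 L hL) (inv_nonneg.mpr hρ.le)
    calc ρ * Gu (2 * L) + ρ⁻¹ * Gv (2 * L) ≤ ρ * (2 ^ a * Gu L) + ρ⁻¹ * (2 ^ a * Gv L) :=
          add_le_add h1 h2
      _ = _ := by ring

end Crest.Agent.R017.BD829
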