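import Crest.Agent.R017.BD6_829

/-!
# Row 17, block C70, leaf E3 (BD) part 7 (helper829): (BD) with an explicit kernel constant

`KT w R A B C` : the separated kernel of `w` exists with constant `C`; `BD_kt`, `BD_one_kt`,
`BD_sy_kt` : (BD) with the constant `2 C`.  Used for the twisted weights `w(x) cos (t log x)`.
-/

set_option autoImplicit false

noncomputable section

open Complex MeasureTheory
open scoped ComplexConjugate Classical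

namespace Crest.Agent.R017.BD829

open Crest.Agent.R012 Crest.Agent.R012.Eis Crest.Agent.R012.MC
open Crest.Agent.R012.LS2 (S mem_S)
open Crest.Agent.R012.Mob705 (mu pdiv mem_pdiv mu_mul abs_mu_le_one PE)
open Crest.Agent.R012.Tau671 (norm_sy_le PF)
open Crest.Agent.R012.Weight600 (osc norm_osc osc_add_right osc_neg_left continuous_osc_left pw
  osc_sub_right)
open Crest.Agent.R017.PX764 (cpS cpS_congr cpS_smul cpS_sum cpS_moebius sum_eq_cpS Gh Gh_mul)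
open Crest.Agent.R017.Dual2813 (S_of_dvd coprime_indicator sum_mult)
open Crest.Agent.R017.CM106 (CS TG TG_term norm_Gsy_le)
open Crest.Agent.R017.E1551 (nmpos Vp jb jb_pos jb_neg continuous_jb integrable_jb integrable_jb_mul
  gen_kernel nm_ge_one summable_wF CS_fin G_one551 norm_Vp_le pair_arith norm_toC_sq3)

/-- the separated kernel with constant `C` -/
def KT (w : ℝ → ℝ) (R : ℝ) (A B : ℕ) (C : ℝ) : Prop :=
  0 ≤ C ∧ ∀ x0 : ℝ, ∃ k : ℝ → ℂ, Continuous k ∧ Integrable k ∧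
    (∀ t, ‖k t‖ ≤ C * bB B x0 * jb A t) ∧
    ∀ u, |u| ≤ R → ((TW w (x0 - u) * Real.exp (-u / 2) : ℝ) : ℂ) = ∫ t, k t * osc t u

theorem exists_KT {w : ℝ → ℝ} (hw : Wgt w) {R : ℝ} (hR : 0 ≤ R) (A B : ℕ) :
    ∃ C : ℝ, KT w R A B C := by
  obtain ⟨C, hC, h⟩ := TW_kernel hw hR A B
  exact ⟨C, hC, h⟩

lemma KT.mono {w : ℝ → ℝ} {R : ℝ} {A B : ℕ} {C C' : ℝ} (h : KT w R A B C) (hC : C ≤ C') :
    KT w R A B C' := by
  refine ⟨h.1.trans hC, fun x0 => ?_⟩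
  obtain ⟨k, h1, h2, h3, h4⟩ := h.2 x0
  refine ⟨k, h1, h2, fun t => (h3 t).trans ?_, h4⟩
  exact mul_le_mul_of_nonneg_right (mul_le_mul_of_nonneg_right hC (bB_pos B x0).le) (jb_pos A t).le

/-- **bound of the bilinear form with fixed frequency** -/
theorem norm_bil_kt {w : ℝ → ℝ} {R : ℝ} {A B : ℕ} {C : ℝ} (hk : KT w R A B C) (hA : 1 < A) :
    ∀ (Y : ℝ), 0 ≤ Y → ∀ (u v : Eis → ℂ), (∀ n, u n ≠ 0 → n ∈ S Y) →
      (∀ n, v n ≠ 0 → n ∈ S Y) → ∀ (X₁ X₂ : ℝ), Win u X₁ R → Win v X₂ R → ∀ (H : Eis) (x : ℝ),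
      ‖bil Y u v H (TW w) x‖ ≤
        C * Real.exp (-(X₁ + X₂) / 2) * bB B (x - X₁ - X₂) * EE A u v H := by
  have hA' : (1 : ℝ) < (A : ℝ) := by exact_mod_cast hA
  obtain ⟨hC, h⟩ := hk
  intro Y hY u v hu hv X₁ X₂ hwu hwv H x
  obtain ⟨k, hk1, hk2, hk3, hk4⟩ := h (x - X₁ - X₂)
  rw [bil_eq hY hwu hwv hk2 hk4, norm_mul, Complex.norm_real,
    Real.norm_of_nonneg (Real.exp_pos _).le]
  have hi := (integrable_EE hA' hY hu hv H).const_mul (C * bB B (x - X₁ - X₂))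
  have h5 : ‖∫ t, k t * (LU Y u H X₁ t * conj (LU Y v H X₂ (-t)))‖ ≤
      C * bB B (x - X₁ - X₂) * EE A u v H := by
    unfold EE
    rw [← integral_const_mul]
    refine norm_integral_le_of_norm_le hi (Filter.Eventually.of_forall fun t => ?_)
    rw [norm_mul, norm_mul, RCLike.norm_conj, norm_LU_eq hu, norm_LU_eq hv]
    calc ‖k t‖ * (‖TT u H t‖ * ‖TT v H (-t)‖)
        ≤ (C * bB B (x - X₁ - X₂) * jb A t) * (‖TT u H t‖ * ‖TT v H (-t)‖) :=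
          mul_le_mul_of_nonneg_right (hk3 t) (by positivity)
      _ = _ := by ring
  calc Real.exp (-(X₁ + X₂) / 2) * ‖∫ t, k t * (LU Y u H X₁ t * conj (LU Y v H X₂ (-t)))‖
      ≤ Real.exp (-(X₁ + X₂) / 2) * (C * bB B (x - X₁ - X₂) * EE A u v H) :=
        mul_le_mul_of_nonneg_left h5 (Real.exp_pos _).le
    _ = _ := by ring

/-- **bound of one mode** -/
theorem norm_mode_kt {w : ℝ → ℝ} {R : ℝ} {A B : ℕ} {C : ℝ} (hk : KT w R A B C) (hA : 1 < A) :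
    ∀ (M : Eis) (ψ : Eis → ℂ), LC M ψ → ∀ (K : ℝ), 0 < K → ∀ (Y : ℝ), 0 ≤ Y →
      ∀ (u v : Eis → ℂ), (∀ n, u n ≠ 0 → n ∈ S Y) → (∀ n, v n ≠ 0 → n ∈ S Y) →
      ∀ (N₁ N₂ : ℝ), 0 < N₁ → 0 < N₂ → Win u (Real.log N₁) R → Win v (Real.log N₂) R →
      ∀ d ∈ S Y, ∀ e ∈ pdiv d, ∀ h : Eis, h ≠ 0 →
      ‖cpS Y u v d (Fm w M ψ K e h)‖ ≤ C * (nm M / Real.sqrt (N₁ * N₂)) * nm d *
        (WB M K N₁ N₂ B d e h * ∑ f ∈ S Y, EE A (rs u ψ d f) (rs v (fun m => conj (ψ m)) d f)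
          (Hf M e h f)) := by
  have hC := hk.1
  have hb := norm_bil_kt hk hA
  intro M ψ hψ K hK Y hY u v hu hv N₁ N₂ hN₁ hN₂ hwu hwv d hd e he h hh
  have hd' := (mem_S hY).1 hd
  have hd0 := hd'.2.1.ne_zero
  have he' := ((mem_pdiv hd0).mp he).1
  rw [mode_eq hψ hK hY hu hv hd he'.ne_zero hh]
  refine (norm_sum_le _ _).trans ?_
  rw [Finset.mul_sum, Finset.mul_sum]
  refine Finset.sum_le_sum fun f hf => ?_
  have hf' := (mem_S hY).1 hf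
  have hf0 := hf'.2.1.ne_zero
  have nf := nmpos hf0
  have nd := nmpos hd0
  have nM := nmpos hψ.ne
  set H := h * (e * (M * sq3)) ^ 2 with hH
  have b1 := hb Y hY (rs u ψ d f) (rs v (fun m => conj (ψ m)) d f)
    (rs_supp hY hu ψ hd'.2.1 hf'.2.1) (rs_supp hY hv _ hd'.2.1 hf'.2.1)
    (Real.log N₁ - Real.log (nm d) - Real.log (nm f))
    (Real.log N₂ - Real.log (nm d) - Real.log (nm f))
    (rs_win hY hu ψ hd0 hf0 hwu) (rs_win hY hv _ hd0 hf0 hwv) (Hf M e h f) (xh M K h e f)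
  rw [WB_eq hψ.ne hK hN₁ hN₂ B hd0 he'.ne_zero hh] at b1
  have e1 : Real.exp (-(Real.log N₁ - Real.log (nm d) - Real.log (nm f) +
      (Real.log N₂ - Real.log (nm d) - Real.log (nm f))) / 2) =
      (nm d * nm f) / Real.sqrt (N₁ * N₂) := by
    have : -(Real.log N₁ - Real.log (nm d) - Real.log (nm f) +
      (Real.log N₂ - Real.log (nm d) - Real.log (nm f))) / 2 =
      (Real.log (nm d) + Real.log (nm f)) - (Real.log N₁ + Real.log N₂) / 2 := by ring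
    rw [this, Real.exp_sub, Real.exp_add, Real.exp_log nd, Real.exp_log nf]
    congr 1
    rw [← Real.log_mul hN₁.ne' hN₂.ne', Real.sqrt_eq_rpow, Real.rpow_def_of_pos (by positivity)]
    congr 1; ring
  rw [e1] at b1
  have hWB := WB_nonneg (M := M) hK.le hN₁.le hN₂.le B d e h
  have hEE := EE_nonneg A (rs u ψ d f) (rs v (fun m => conj (ψ m)) d f) (Hf M e h f)
  have hG : ‖Gh H f‖ ≤ 1 := norm_Gh_le' hf'.2.1
  have hmu : ‖(mu f : ℂ)‖ ≤ 1 := by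
    rw [show (mu f : ℂ) = ((mu f : ℝ) : ℂ) by push_cast; rfl, Complex.norm_real, Real.norm_eq_abs]
    exact_mod_cast abs_mu_le_one f
  have hpre : ‖(nm f : ℂ)⁻¹ * (ψ f * ψ f) * tw M ψ h * (Gh H f * conj (Gh H f))‖ ≤
      (nm f : ℝ)⁻¹ * nm M := by
    rw [norm_mul, norm_mul, norm_mul, norm_mul, norm_mul, RCLike.norm_conj, norm_inv,
      hψ.norm f hf'.2.1, mul_one, mul_one]
    have e2 : ‖(nm f : ℂ)‖ = nm f := by
      rw [show (nm f : ℂ) = ((nm f : ℝ) : ℂ) by push_cast; rfl, Complex.norm_real,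
        Real.norm_of_nonneg nf.le]
    rw [e2]
    have h2 : ‖Gh H f‖ * ‖Gh H f‖ ≤ 1 := mul_le_one₀ hG (norm_nonneg _) hG
    calc (nm f : ℝ)⁻¹ * ‖tw M ψ h‖ * (‖Gh H f‖ * ‖Gh H f‖) ≤ (nm f : ℝ)⁻¹ * nm M * 1 := by
          refine mul_le_mul ?_ h2 (by positivity) (by positivity)
          exact mul_le_mul_of_nonneg_left (norm_tw_le hψ h) (by positivity)
      _ = _ := mul_one _
  rw [norm_mul, norm_mul]
  calc ‖(mu f : ℂ)‖ * (‖(nm f : ℂ)⁻¹ * (ψ f * ψ f) * tw M ψ h * (Gh H f * conj (Gh H f))‖ *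
        ‖bil Y (rs u ψ d f) (rs v (fun m => conj (ψ m)) d f) (Hf M e h f) (TW w) (xh M K h e f)‖)
      ≤ 1 * (((nm f : ℝ)⁻¹ * nm M) * (C * ((nm d * nm f) / Real.sqrt (N₁ * N₂)) *
          WB M K N₁ N₂ B d e h * EE A (rs u ψ d f) (rs v (fun m => conj (ψ m)) d f)
            (Hf M e h f))) := by
        refine mul_le_mul hmu ?_ (by positivity) zero_le_one
        exact mul_le_mul hpre b1 (norm_nonneg _) (by positivity)
    _ = _ := by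
        field_simp

/-- **(BD)** the bilinear dual bound. -/
theorem BD_kt {w : ℝ → ℝ} (hw : Wgt w) {R : ℝ} {A B : ℕ} {C : ℝ} (hk : KT w R A B C)
    (hA : 1 < A) (hB : 1 < B) :
    ∀ (M : Eis) (ψ : Eis → ℂ), LC M ψ → ∀ (K : ℝ), 0 < K → ∀ (Y : ℝ), 1 ≤ Y →
      ∀ (u v : Eis → ℂ), (∀ n, u n ≠ 0 → n ∈ S Y) → (∀ n, v n ≠ 0 → n ∈ S Y) →
      ∀ (N₁ N₂ : ℝ), 0 < N₁ → 0 < N₂ → Win u (Real.log N₁) R → Win v (Real.log N₂) R →
      ‖BS w K ψ u v - ((2 * K / (Real.sqrt 3 * nm M) * Wt w 0 : ℝ) : ℂ) * tw M ψ 0 *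
        ∑ d ∈ S Y, (∑ e ∈ pdiv d, (mu e : ℂ) * (nm e : ℂ)⁻¹ * ψ e) * (u d * conj (v d))‖ ≤
      2 * C * (K / Real.sqrt (N₁ * N₂)) * ∑ d ∈ S Y, ∑ e ∈ pdiv d,
        (nm d / nm e : ℝ) * ModeS A B M ψ K N₁ N₂ Y u v d e := by
  have hC := hk.1
  have hb := norm_mode_kt hk hA
  intro M ψ hψ K hK Y hY u v hu hv N₁ N₂ hN₁ hN₂ hwu hwv
  have hY0 : 0 ≤ Y := by linarith
  have nM := nmpos hψ.ne
  have hs3 : 1 ≤ Real.sqrt 3 := by
    rw [show (1 : ℝ) = Real.sqrt 1 by simp]; exact Real.sqrt_le_sqrt (by norm_num)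
  -- the block `d`
  have hblock : ∀ d ∈ S Y, cpS Y u v d (fun k₁ k₂ => PkT w K ψ (d * k₁) (d * k₂)) =
      ((2 * K / (Real.sqrt 3 * nm M) : ℝ) : ℂ) * ∑ e ∈ pdiv d, (mu e : ℂ) * (nm e : ℂ)⁻¹ * ψ e *
        ∑' h : Eis, cpS Y u v d (Fm w M ψ K e h) := by
    intro d hd
    have hd' := (mem_S hY0).1 hd
    have e1 : cpS Y u v d (fun k₁ k₂ => PkT w K ψ (d * k₁) (d * k₂)) =
        cpS Y u v d (fun k₁ k₂ => ((2 * K / (Real.sqrt 3 * nm M) : ℝ) : ℂ) *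
          ∑ e ∈ pdiv d, (mu e : ℂ) * (nm e : ℂ)⁻¹ * ψ e * ∑' h : Eis, Fm w M ψ K e h k₁ k₂) := by
      refine cpS_congr fun k₁ k₂ h₁ h₂ hc _ _ => ?_
      have h₁' := (mem_S hY0).1 h₁
      have h₂' := (mem_S hY0).1 h₂
      have n1 := nmpos h₁'.2.1.ne_zero
      have n2 := nmpos h₂'.2.1.ne_zero
      unfold PkT
      rw [pairT hw hK hψ hd'.2.1 h₁'.2.1 h₂'.2.1 h₁'.2.2 h₂'.2.2 hc, Finset.mul_sum,
        Finset.mul_sum]
      refine Finset.sum_congr rfl fun e he => ?_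
      have e2 : (∑' h : Eis, Fm w M ψ K e h k₁ k₂) =
          ((((Real.sqrt (nm k₁ * nm k₂))⁻¹ : ℝ) : ℂ) * (ψ k₁ * ψ k₂) * (G k₁ * conj (G k₂))) *
          ∑' h : Eis, tw M ψ h * Vp (h * (e * (M * sq3)) ^ 2) k₁ k₂ *
            ((Wt w (argM M K h (k₁ * k₂ * e)) : ℝ) : ℂ) := by
        rw [← tsum_mul_left]; rfl
      rw [e2]
      have h7 : Real.sqrt (nm k₁ * nm k₂) ≠ 0 := (Real.sqrt_pos.mpr (mul_pos n1 n2)).ne'
      have h8 : (2 * K / (Real.sqrt 3 * nm M * Real.sqrt (nm k₁ * nm k₂)) : ℝ) =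
          (2 * K / (Real.sqrt 3 * nm M)) * (Real.sqrt (nm k₁ * nm k₂))⁻¹ := by
        field_simp
      rw [h8, Complex.ofReal_mul]
      ring
    rw [e1, cpS_smul, cpS_sum]
    congr 1
    refine Finset.sum_congr rfl fun e he => ?_
    rw [cpS_smul]
    congr 1
    have he0 := ((mem_pdiv hd'.2.1.ne_zero).mp he).1.ne_zero
    exact (cpS_tsum2 u v d (fun h k₁ k₂ => Fm w M ψ K e h k₁ k₂) (fun k₁ k₂ h₁ h₂ _ =>
      summable_Fm hw hK hψ he0 ((mem_S hY0).1 h₁).2.1 ((mem_S hY0).1 h₂).2.1)).2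
  -- one `e`
  have hone : ∀ d ∈ S Y, ∀ e ∈ pdiv d, ‖∑' h : Eis, cpS Y u v d (Fm w M ψ K e h) -
      u d * conj (v d) * (tw M ψ 0 * ((Wt w 0 : ℝ) : ℂ))‖ ≤
      C * (nm M / Real.sqrt (N₁ * N₂)) * nm d * ModeS A B M ψ K N₁ N₂ Y u v d e := by
    intro d hd e he
    have hd' := (mem_S hY0).1 hd
    have he0 := ((mem_pdiv hd'.2.1.ne_zero).mp he).1.ne_zero
    have hsum : Summable fun h => cpS Y u v d (Fm w M ψ K e h) :=
      (cpS_tsum2 u v d (fun h k₁ k₂ => Fm w M ψ K e h k₁ k₂) (fun k₁ k₂ h₁ h₂ _ =>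
      summable_Fm hw hK hψ he0 ((mem_S hY0).1 h₁).2.1 ((mem_S hY0).1 h₂).2.1)).1
    rw [hsum.tsum_eq_add_tsum_ite 0, zero_mode hψ hY]
    rw [add_sub_cancel_left]
    have hS := summable_ModeS hA hB hψ hK hN₁ hN₂ hY0 hu hv hd'.2.1 he0
    have hS' := (hS.mul_left (C * (nm M / Real.sqrt (N₁ * N₂)) * nm d)).hasSum
    unfold ModeS
    rw [← tsum_mul_left]
    refine tsum_of_norm_bounded hS' fun h => ?_
    split_ifs with h0
    · rw [norm_zero, mul_zero]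
    · exact hb M ψ hψ K hK Y hY0 u v hu hv N₁ N₂ hN₁ hN₂ hwu hwv d hd e he h h0
  have h0 : ∀ k, k ∉ S Y → u k = 0 := fun k hk => by
    by_contra h; exact hk (hu k h)
  have h0' : ∀ k, k ∉ S Y → v k = 0 := fun k hk => by
    by_contra h; exact hk (hv k h)
  rw [BS_eq hw hK hu hv, sum_eq_cpS hY0 h0 h0', Finset.sum_congr rfl hblock, Finset.mul_sum,
    ← Finset.sum_sub_distrib, Finset.mul_sum]
  refine (norm_sum_le _ _).trans (Finset.sum_le_sum fun d hd => ?_)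
  have hd' := (mem_S hY0).1 hd
  have e3 : ((2 * K / (Real.sqrt 3 * nm M) : ℝ) : ℂ) * ∑ e ∈ pdiv d, (mu e : ℂ) * (nm e : ℂ)⁻¹ *
        ψ e * ∑' h : Eis, cpS Y u v d (Fm w M ψ K e h) -
      ((2 * K / (Real.sqrt 3 * nm M) * Wt w 0 : ℝ) : ℂ) * tw M ψ 0 *
        ((∑ e ∈ pdiv d, (mu e : ℂ) * (nm e : ℂ)⁻¹ * ψ e) * (u d * conj (v d))) =
      ((2 * K / (Real.sqrt 3 * nm M) : ℝ) : ℂ) * ∑ e ∈ pdiv d, (mu e : ℂ) * (nm e : ℂ)⁻¹ *
        ψ e * (∑' h : Eis, cpS Y u v d (Fm w M ψ K e h) -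
          u d * conj (v d) * (tw M ψ 0 * ((Wt w 0 : ℝ) : ℂ))) := by
    simp_rw [mul_sub]
    rw [Finset.sum_sub_distrib, mul_sub, ← Finset.sum_mul]
    push_cast
    ring
  rw [e3, norm_mul, Complex.norm_real, Real.norm_of_nonneg (by positivity)]
  have e4 : ‖∑ e ∈ pdiv d, (mu e : ℂ) * (nm e : ℂ)⁻¹ * ψ e *
      (∑' h : Eis, cpS Y u v d (Fm w M ψ K e h) -
          u d * conj (v d) * (tw M ψ 0 * ((Wt w 0 : ℝ) : ℂ)))‖ ≤
      ∑ e ∈ pdiv d, (nm e : ℝ)⁻¹ * (C * (nm M / Real.sqrt (N₁ * N₂)) * nm d *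
        ModeS A B M ψ K N₁ N₂ Y u v d e) := by
    refine (norm_sum_le _ _).trans (Finset.sum_le_sum fun e he => ?_)
    have he' := ((mem_pdiv hd'.2.1.ne_zero).mp he).1
    have ne := nmpos he'.ne_zero
    rw [norm_mul, norm_mul, norm_mul, norm_inv, hψ.norm e he', mul_one]
    have e2 : ‖(nm e : ℂ)‖ = nm e := by
      rw [show (nm e : ℂ) = ((nm e : ℝ) : ℂ) by push_cast; rfl, Complex.norm_real,
        Real.norm_of_nonneg ne.le]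
    have hmu : ‖(mu e : ℂ)‖ ≤ 1 := by
      rw [show (mu e : ℂ) = ((mu e : ℝ) : ℂ) by push_cast; rfl, Complex.norm_real, Real.norm_eq_abs]
      exact_mod_cast abs_mu_le_one e
    rw [e2]
    refine mul_le_mul ?_ (hone d hd e he) (norm_nonneg _) (by positivity)
    calc ‖(mu e : ℂ)‖ * (nm e : ℝ)⁻¹ ≤ 1 * (nm e : ℝ)⁻¹ :=
          mul_le_mul_of_nonneg_right hmu (by positivity)
      _ = _ := one_mul _
  refine (mul_le_mul_of_nonneg_left e4 (by positivity)).trans ?_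
  rw [Finset.mul_sum, Finset.mul_sum]
  refine Finset.sum_le_sum fun e he => ?_
  have he' := ((mem_pdiv hd'.2.1.ne_zero).mp he).1
  have ne := nmpos he'.ne_zero
  have hMS : 0 ≤ ModeS A B M ψ K N₁ N₂ Y u v d e := by
    unfold ModeS
    refine tsum_nonneg fun h => ?_
    split_ifs
    · exact le_rfl
    · exact mul_nonneg (WB_nonneg hK.le hN₁.le hN₂.le B d e h)
        (Finset.sum_nonneg fun _ _ => EE_nonneg _ _ _ _)
  have hs : 0 < Real.sqrt (N₁ * N₂) := Real.sqrt_pos.mpr (by positivity)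
  have nd := nmpos hd'.2.1.ne_zero
  have e5 : 2 * K / (Real.sqrt 3 * nm M) * ((nm e : ℝ)⁻¹ * (C * (nm M / Real.sqrt (N₁ * N₂)) *
      nm d * ModeS A B M ψ K N₁ N₂ Y u v d e)) =
      (Real.sqrt 3)⁻¹ * (2 * C * (K / Real.sqrt (N₁ * N₂)) * ((nm d / nm e : ℝ) *
        ModeS A B M ψ K N₁ N₂ Y u v d e)) := by
    field_simp
  rw [e5]
  refine mul_le_of_le_one_left ?_ (inv_le_one_of_one_le₀ hs3)
  have : (0 : ℝ) ≤ nm d / nm e := by positivity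
  positivity

/-- **(BD), trivial twist** -/
theorem BD_one_kt {w : ℝ → ℝ} (hw : Wgt w) {R : ℝ} {A B : ℕ} {C : ℝ} (hk : KT w R A B C)
    (hA : 1 < A) (hB : 1 < B) :
    ∀ (K : ℝ), 0 < K → ∀ (Y : ℝ), 1 ≤ Y →
      ∀ (u v : Eis → ℂ), (∀ n, u n ≠ 0 → n ∈ S Y) → (∀ n, v n ≠ 0 → n ∈ S Y) →
      ∀ (N₁ N₂ : ℝ), 0 < N₁ → 0 < N₂ → Win u (Real.log N₁) R → Win v (Real.log N₂) R →
      ‖BS w K (fun _ => 1) u v - ((2 * K / (9 * Real.sqrt 3) * Wt w 0 : ℝ) : ℂ) *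
        ∑ d ∈ S Y, (PE d : ℂ) * (u d * conj (v d))‖ ≤
      2 * C * (K / Real.sqrt (N₁ * N₂)) * ∑ d ∈ S Y, ∑ e ∈ pdiv d,
        (nm d / nm e : ℝ) * ModeS A B 3 (fun _ => 1) K N₁ N₂ Y u v d e := by
  intro K hK Y hY u v hu hv N₁ N₂ hN₁ hN₂ hwu hwv
  have h1 := BD_kt hw hk hA hB 3 (fun _ => 1) LC_one K hK Y hY u v hu hv N₁ N₂ hN₁ hN₂ hwu hwv
  rw [tw_one, mul_one] at h1
  have e1 : ∑ d ∈ S Y, (PE d : ℂ) * (u d * conj (v d)) =
      ∑ d ∈ S Y, (∑ e ∈ pdiv d, (mu e : ℂ) * (nm e : ℂ)⁻¹ * (fun _ : Eis => (1 : ℂ)) e) *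
        (u d * conj (v d)) := by
    refine Finset.sum_congr rfl fun d hd => ?_
    rw [PE_sum ((mem_S (by linarith)).1 hd).2.1.ne_zero]
    congr 1
    exact Finset.sum_congr rfl fun e _ => by rw [mul_one]
  have e2 : (2 * K / (9 * Real.sqrt 3) * Wt w 0 : ℝ) =
      2 * K / (Real.sqrt 3 * nm (3 : Eis)) * Wt w 0 := by
    rw [nm_three]; push_cast; ring
  rw [e1, e2]
  exact h1

/-- **(BD), nontrivial twist by an `S`-unit** -/
theorem BD_sy_kt {w : ℝ → ℝ} (hw : Wgt w) {R : ℝ} {A B : ℕ} {C : ℝ} (hk : KT w R A B C)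
    (hA : 1 < A) (hB : 1 < B) :
    ∀ (s : Eis), s ≠ 0 → (∀ c, IsPrim c → IsCoprime s c) →
      (¬ ∃ t, s = t ^ 3) → ∀ (K : ℝ), 0 < K → ∀ (Y : ℝ), 1 ≤ Y →
      ∀ (u v : Eis → ℂ), (∀ n, u n ≠ 0 → n ∈ S Y) → (∀ n, v n ≠ 0 → n ∈ S Y) →
      ∀ (N₁ N₂ : ℝ), 0 < N₁ → 0 < N₂ → Win u (Real.log N₁) R → Win v (Real.log N₂) R →
      ‖BS w K (sy s) u v‖ ≤
      2 * C * (K / Real.sqrt (N₁ * N₂)) * ∑ d ∈ S Y, ∑ e ∈ pdiv d,
        (nm d / nm e : ℝ) * ModeS A B (9 * s) (sy s) K N₁ N₂ Y u v d e := by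
  intro s h0 hs hc K hK Y hY u v hu hv N₁ N₂ hN₁ hN₂ hwu hwv
  have h1 := BD_kt hw hk hA hB (9 * s) (sy s) (LC_sy h0 hs) K hK Y hY u v hu hv N₁ N₂ hN₁ hN₂ hwu hwv
  rw [tw_sy h0 hs hc, mul_zero, zero_mul, sub_zero] at h1
  exact h1

end Crest.Agent.R017.BD829
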