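import Crest.Agent.R017.BDefs_770

/-!
# Row 17, section B (version B2), second interface file (helper770)

* `F2n M` : the functional equation with a finite left operator `V ↦ Σ_j c_j V(q_j ·)`
* `Ur`, `W0`, `DL`, `LK` : the dual form, the primal form; `PropL6`, `PropL7`
-/

set_option autoImplicit false

noncomputable section

open MeasureTheory Complex Set
open scoped ComplexConjugate ContDiff

namespace Crest.Agent.R017.B770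

open Crest.Agent.R012 Crest.Agent.R012.Eis Crest.Agent.R012.Mob705 Crest.Agent.R012.Gauss880
open Crest.Agent.R017.End699 Crest.Agent.R017.Sx440 Crest.Agent.R017.Sx545

/-- conditions on the dual weights: smooth, rapidly decreasing at `0` and `∞` with all logarithmic
derivatives, polynomially in the height. -/
structure RD (W : ℝ → ℝ → ℂ) : Prop where
  smooth : ∀ τ, ContDiffOn ℝ ∞ (W τ) (Set.Ioi 0)
  dec : ∀ m N : ℕ, ∃ C A : ℝ, 0 ≤ C ∧ ∀ τ y, 0 < y →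
    ‖iteratedDeriv m (fun x => W τ (Real.exp x)) (Real.log y)‖ ≤
      C * (1 + |τ|) ^ A * min (y ^ N) ((y ^ N)⁻¹)

/-- data of the functional equation of `(ψ, l)` on `Sm M` -/
structure FData where
  ξ : Eis → ℂ
  M' : Eis
  n : ℕ
  κ : Fin n → ℂ
  η : Fin n → Eis → ℂ
  ψ' : Fin n → Eis → ℂ
  j : ℤ
  l' : ℤ
  ρ : Fin n → ℝ
  nL : ℕ
  cL : Fin nL → ℂ
  qL : Fin nL → ℝ

/-- well-formedness -/
structure FData.OK (F : FData) (M : Eis) : Prop where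
  ξ1 : F.ξ 1 = 1
  ξle : ∀ e, ‖F.ξ e‖ ≤ 1
  dvd : M ∣ F.M'
  rad : ∀ p : Eis, Prime p → p ∣ F.M' → p ∣ M
  η : ∀ i, HC F.M' (F.η i)
  ψ' : ∀ i, HC F.M' (F.ψ' i)
  ρ : ∀ i, 0 < F.ρ i
  qL : ∀ i, 1 ≤ F.qL i
  nz : ∀ s : ℂ, 5 / 6 < s.re → ∑ i, F.cL i * (F.qL i : ℂ) ^ (1 / 6 - s) ≠ 0
  /-- `j = 4 (l + 1)` -/
  j0 : F.j ≠ 0
  /-- `l' + j = 3 l + 2` -/
  lj : F.l' + F.j ≠ 0

/-- the functional equation for `(ψ, l)` with data `F`: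
`Σ_j c_j Ψ(a; V_τ; Q/q_j) = (Q/N(a)²) Σ_i κ_i η_i(a) ang^j(a) Ψ'_i(a; W_{i,τ}; ρ_i N(a)⁴/Q)`. -/
def FE (M : Eis) (ψ : Eis → ℂ) (l : ℤ) (F : FData) : Prop :=
  ∀ V : ℝ → ℂ, SW V → ∃ W : Fin F.n → ℝ → ℝ → ℂ, (∀ i, RD (W i)) ∧
    ∀ (a : Eis), Sm M a → ∀ Q : ℝ, 0 < Q → ∀ τ : ℝ,
      ∑ j, F.cL j * Psi M F.ξ (tw ψ l) a (fun y => (y : ℂ) ^ (I * τ) * V y) (Q / F.qL j) =
        ((Q / (nm a : ℝ) ^ 2 : ℝ) : ℂ) * ∑ i, F.κ i * tw (F.η i) F.j a *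
          Psi' M (tw (F.ψ' i) F.l') a (W i τ) (F.ρ i * (nm a : ℝ) ^ 4 / Q)

/-- **F2** (final form consumed by section B) -/
def F2n (M : Eis) : Prop :=
  ∀ l : ℤ, l ≠ -1 → ∀ ψ : Eis → ℂ, HC M ψ → ∃ F : FData, F.OK M ∧ FE M ψ l F

/-- `U_r(|x|²) = fC (z ↦ om(|z|²)) x` -/
def Ur (om : ℝ → ℂ) (x : ℝ) : ℂ := Po581.fC (fun z => om (‖z‖ ^ 2)) (Real.sqrt x : ℂ)

/-- the dual weight -/
def W0 (V om : ℝ → ℂ) (X : ℝ) (a c : Eis) (y : ℝ) : ℂ :=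
  ((y ^ (-(1 / 2) : ℝ) : ℝ) : ℂ) * V y * om (X * nm a / (nm c * y))

/-- `m₀` : squarefree primary, `3 m₀` and `M` have the same primes -/
structure Rad0 (M m₀ : Eis) : Prop where
  prim : IsPrim m₀
  sqf : Squarefree m₀
  iff : ∀ p : Eis, Prime p → (p ∣ 3 * m₀ ↔ p ∣ M)

/-- the dual form (finite sums over `a`, `e`, `b`), amplifier at `Q₀`, scales `K, Q`. -/
def DL (h : ℝ → ℂ) (r : ℕ) (y Q₀ : ℝ) (M m₀ : Eis) (ξ f : Eis → ℂ) (V om : ℝ → ℂ)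
    (K Q : ℝ) : ℂ :=
  ∑ p ∈ tup r y Q₀ Finset.univ,
    (∏ i : (Finset.univ : Finset (Fin r)), h (Real.log (nm (p i)) - kap r y Q₀ i)) *
      (sy m₀ (∏ i, p i) * ((Real.sqrt (nm (∏ i, p i)))⁻¹ : ℝ) * conj (G (∏ i, p i))) *
      ∑' a : Eis, ext (fun a => sy a m₀) a * sy a (∏ i, p i) *
        Psi M ξ f a (W0 V om (K / (27 * nm m₀ * Q)) a (∏ i, p i)) Q

/-- the primal form restricted to a set `P` of `k`'s. -/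
def LK (h : ℝ → ℂ) (r : ℕ) (y Q₀ : ℝ) (M m₀ : Eis) (ξ f : Eis → ℂ) (V om : ℝ → ℂ)
    (P : Eis → Prop) (K Q : ℝ) : ℂ := by
  classical
  exact ∑' e : Eis, if Sm M e then ξ e * (nm e : ℂ) ^ 5 *
    ∑' k : Eis, (if P k then FE47.DM (3 * m₀) (fun a => sy a m₀) k *
      Ur om (nm k * (nm e : ℝ) ^ 6 / K) *
        NSum h r y Q₀ Finset.univ M f (fun _ => 1) V (Q / (nm e : ℝ) ^ 6) k else 0) else 0

/-- **L6** -/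
def PropL6 : Prop :=
  ∀ (h : ℝ → ℂ), HW h → ∀ (r : ℕ) (y Q₀ : ℝ) (M m₀ : Eis), 0 < r → 0 < y → 1 ≤ Q₀ →
    (36 : Eis) ∣ M → Rad0 M m₀ → (nm M : ℝ) < Q₀ ^ (y / r) / 9 →
    ∀ (ξ f : Eis → ℂ), (∀ e, ‖ξ e‖ ≤ 1) → (∀ b, ‖f b‖ ≤ 1) →
    ∀ V om : ℝ → ℂ, SW V → SW om → ∀ K Q : ℝ, 0 < K → 0 < Q →
      DL h r y Q₀ M m₀ ξ f V om K Q = ((2 * Real.sqrt 3 * (Real.sqrt Q / K) : ℝ) : ℂ) *
        LK h r y Q₀ M m₀ ξ f V om (fun _ => True) K Q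

/-- **L7** : bound of the dual form. -/
def PropL7 (θ : ℝ) (r : ℕ) (y η : ℝ) : Prop :=
  ∀ (M m₀ : Eis), (36 : Eis) ∣ M → Rad0 M m₀ → ∀ (ψ : Eis → ℂ) (l : ℤ) (F : FData), HC M ψ →
    F.OK M → FE M ψ l F → ∀ (h : ℝ → ℂ), HW h → ∀ V om : ℝ → ℂ, SW V → SW om →
    ∀ ε d : ℝ, 0 < ε → 0 < d → 6 * d ≤ η → d ≤ 1 / 100 → ∃ C : ℝ, 0 ≤ C ∧ ∀ Q : ℝ, 1 ≤ Q →
      (nm F.M' : ℝ) * 81 < Q ^ (y / r) / 9 →
      ‖∑ j, F.cL j * DL h r y Q M m₀ F.ξ (tw ψ l) V om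
          (Q ^ (1 / 2 + y + d) / F.qL j) (Q / F.qL j)‖ * (Q ^ (1 / 2 + y + d) / Real.sqrt Q) ≤
        C * Q ^ ε * (Q ^ ((1 / 2 + y) / 3 + y + θ) *
          (Q ^ (d * (3 - 4 * θ)) + Q ^ (5 * d - η) + Q ^ (-(1 / 20) : ℝ)))

/-- **target of section B** with the final functional equation. -/
def StepB' : Prop :=
  (∀ M : Eis, (36 : Eis) ∣ M → F2n M) →
    ∀ θ : ℝ, 7 / 8 < θ → θ ≤ 1 → PF Set.univ θ → DOUT θ → ∃ δ > 0, PF Set.univ (θ - δ)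

end Crest.Agent.R017.B770
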