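import Crest.Agent.R017.PoL3_405

/-!
# Row 17, block C70 (E3/E4), pointwise Poisson with an angular character (helper681)

`polL` : 405's `PoL405.pol` for the sum `∑_x χ(x) conj (x/m) ang l x N(x)^{it} w(log N(x) - κ)`: the
dual side is the one of `pol` with `β m * ang l m` in place of `β m`.
-/

set_option autoImplicit false

noncomputable section

open Complex MeasureTheory Filter Topology
open scoped SchwartzMap ContDiff ComplexConjugate

namespace Crest.Agent.R017.PoLl681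

open Crest.Agent.R012 Crest.Agent.R012.Eis Crest.Agent.R012.Po581 Crest.Agent.R012.Gauss880
open Crest.Agent.R012.Weight600 (osc norm_osc)
open Crest.Agent.R012.Mob705 Crest.Agent.R012.Div277
open Crest.Agent.R017.FE47 Crest.Agent.R017.End699 Crest.Agent.R017.BL4858
open Crest.Agent.R017.PoL405 (cst Dks Eks G_one sy_zero_left norm_Dks_le integrable_Eks
  integrable_Dks Eks_nonneg Eks_le wt_cs summable_wk summable_Eks continuous_Dks sum_dual_le)

lemma XK_kp (χ : Eis → ℂ) (m : Eis) (l : ℤ) :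
    XK χ (kp m 1) l = fun x => χ x * conj (sy x m) * ang l x := by
  funext x
  unfold XK kp
  rw [Sym645.sy_one_right]
  ring

/-- the phase of the frequency `k` -/
def phk (l : ℤ) (M : Eis) (κ : ℝ) (k : Eis) : ℂ :=
  (((Real.sqrt (Real.exp κ) : ℝ) : ℂ) * (dl k / toC M) /
    (‖((Real.sqrt (Real.exp κ) : ℝ) : ℂ) * (dl k / toC M)‖ : ℂ)) ^ (-l)

lemma norm_phk_le (l : ℤ) (M : Eis) (κ : ℝ) (k : Eis) : ‖phk l M κ k‖ ≤ 1 := by
  unfold phk
  set z : ℂ := ((Real.sqrt (Real.exp κ) : ℝ) : ℂ) * (dl k / toC M) with hz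
  by_cases h : z = 0
  · rw [h]
    simp only [zero_div, norm_zpow, norm_zero]
    by_cases hl : -l = 0
    · rw [hl, zpow_zero]
    · rw [zero_zpow _ hl]; norm_num
  · have hn : 0 < ‖z‖ := norm_pos_iff.mpr h
    rw [norm_zpow, norm_div, Complex.norm_real, norm_norm, div_self hn.ne', one_zpow]

/-- the frequency `k` of the dual side -/
lemma fC_term {w : ℝ → ℂ} (l : ℤ) (t κ : ℝ) {M m k : Eis} (hM : M ≠ 0) (hm : m ≠ 0)
    (hk : k ≠ 0) :
    fC (fX (gt w l t) (Real.exp κ)) (dl k / toC (M * m)) =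
      (Real.exp κ : ℂ) * (phk l M κ k * ang l m * rad (gt w l t)
        ((Real.log (nm k) + κ - Real.log (3 * nm M)) - Real.log (nm m))) := by
  have hX : 0 < Real.exp κ := Real.exp_pos κ
  have hsX := Real.sqrt_pos.mpr hX
  have hMc := Po581.toC_ne_zero hM
  have hmc := Po581.toC_ne_zero hm
  have hMm : toC (M * m) ≠ 0 := Po581.toC_ne_zero (mul_ne_zero hM hm)
  have hdl0 : dl k ≠ 0 := div_ne_zero (Po581.toC_ne_zero hk) iS3_ne_zero
  have hdl : dl k / toC (M * m) ≠ 0 := div_ne_zero hdl0 hMm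
  have hsX' : ((Real.sqrt (Real.exp κ) : ℝ) : ℂ) ≠ 0 := by exact_mod_cast hsX.ne'
  have hξ : ((Real.sqrt (Real.exp κ) : ℝ) : ℂ) * (dl k / toC (M * m)) ≠ 0 :=
    mul_ne_zero hsX' hdl
  have hMp : (0 : ℝ) < nm M := by exact_mod_cast nm_pos.mpr hM
  have hmp : (0 : ℝ) < nm m := by exact_mod_cast nm_pos.mpr hm
  have hkp : (0 : ℝ) < nm k := by exact_mod_cast nm_pos.mpr hk
  rw [fC_fX _ hX, fC_polar (fun ζ hζ z => gt_rot w l t hζ z) hξ]
  have e2 : ‖((Real.sqrt (Real.exp κ) : ℝ) : ℂ) * (dl k / toC (M * m))‖ ^ 2 =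
      Real.exp κ * (nm k / (3 * (nm M * nm m))) := by
    rw [norm_mul, mul_pow, Complex.norm_real, Real.norm_of_nonneg hsX.le, Real.sq_sqrt hX.le,
      norm_div, div_pow, norm_toC_sq, nm_mul]
    unfold dl
    rw [norm_div, div_pow, norm_toC_sq, norm_iS3, Real.sq_sqrt (by norm_num)]
    push_cast
    field_simp
  have e3 : (((Real.sqrt (Real.exp κ) : ℝ) : ℂ) * (dl k / toC (M * m)) /
      (‖((Real.sqrt (Real.exp κ) : ℝ) : ℂ) * (dl k / toC (M * m))‖ : ℂ)) ^ (-l) =
      phk l M κ k * ang l m := by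
    set z0 : ℂ := ((Real.sqrt (Real.exp κ) : ℝ) : ℂ) * (dl k / toC M) with hz0
    have hz00 : z0 ≠ 0 := mul_ne_zero hsX' (div_ne_zero hdl0 hMc)
    have e4 : ((Real.sqrt (Real.exp κ) : ℝ) : ℂ) * (dl k / toC (M * m)) = z0 / toC m := by
      rw [hz0, map_mul]; field_simp
    have hz0n : (‖z0‖ : ℂ) ≠ 0 := by exact_mod_cast (norm_pos_iff.mpr hz00).ne'
    have hmn : (‖toC m‖ : ℂ) ≠ 0 := by exact_mod_cast (norm_pos_iff.mpr hmc).ne'
    rw [e4]
    unfold phk ang
    rw [← hz0, norm_div]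
    push_cast
    have e5 : z0 / toC m / ((‖z0‖ : ℂ) / (‖toC m‖ : ℂ)) =
        (z0 / (‖z0‖ : ℂ)) * (toC m / (‖toC m‖ : ℂ))⁻¹ := by
      field_simp
    rw [e5, mul_zpow, inv_zpow', neg_neg]
  rw [e2, e3]
  congr 3
  rw [Real.log_mul hX.ne' (by positivity), Real.log_exp, Real.log_div hkp.ne' (by positivity),
    Real.log_mul (by norm_num) (by positivity), Real.log_mul hMp.ne' hmp.ne',
    Real.log_mul (by norm_num) hMp.ne']
  ring

/-- summand of the dual side -/
def dterm (w : ℝ → ℂ) (l : ℤ) (M : Eis) (χ : Eis → ℂ) (κ t : ℝ) (m k : Eis) : ℂ :=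
  if k = 0 then 0 else phk l M κ k * DM M χ k * sy k m *
    rad (gt w l t) ((Real.log (nm k) + κ - Real.log (3 * nm M)) - Real.log (nm m))

theorem PS_dual {w : ℝ → ℂ} (w1 : ContDiff ℝ ∞ w) (w2 : HasCompactSupport w) (l : ℤ) {M m : Eis}
    {χ : Eis → ℂ} (h : HC M χ) (hm : IsPrim m) (sm : Squarefree m) (hcop : IsCoprime m M)
    (h1 : m ≠ 1) (κ t : ℝ) :
    Summable (dterm w l M χ κ t m) ∧
    PS w (fun x => χ x * conj (sy x m) * ang l x) κ t =
      osc t κ * ((2 / (Real.sqrt 3 * nm M) * Real.exp κ : ℝ) : ℂ) *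
        (((Real.sqrt (nm m))⁻¹ : ℝ) : ℂ) * (cst M χ m * ang l m) *
        ∑' k : Eis, dterm w l M χ κ t m k := by
  have had : Ad (gt w l t) := (ad_gf w1 w2 l).tws t
  have hX : 0 < Real.exp κ := Real.exp_pos κ
  have hS := had.scale hX
  have hM0 := h.q0
  have hm0 := hm.ne_zero
  have hexp : ((Real.exp κ : ℝ) : ℂ) ≠ 0 := by exact_mod_cast hX.ne'
  have hang : ang l m ≠ 0 := by
    unfold ang
    have h2 := Po581.toC_ne_zero hm0
    have h3 : (‖toC m‖ : ℂ) ≠ 0 := by exact_mod_cast (norm_pos_iff.mpr h2).ne'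
    exact zpow_ne_zero _ (div_ne_zero h2 h3)
  have hterm : ∀ k, DM M χ k * conj (kp m 1 k) * fC (fX (gt w l t) (Real.exp κ))
      (dl k / toC (M * (1 * m))) = ((Real.exp κ : ℂ) * ang l m) * dterm w l M χ κ t m k := by
    intro k
    unfold dterm
    by_cases hk : k = 0
    · subst hk
      have : conj (kp m 1 0) = 0 := by
        unfold kp
        rw [sy_zero_left hm h1]
        simp
      rw [this]
      simp
    · rw [if_neg hk, one_mul, fC_term l t κ hM0 hm0 hk]
      have : conj (kp m 1 k) = sy k m := by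
        unfold kp
        rw [Sym645.sy_one_right, one_mul, Complex.conj_conj]
      rw [this]
      ring
  have hsum : Summable (fun k : Eis => DM M χ k * conj (kp m 1 k) *
      fC (fX (gt w l t) (Real.exp κ)) (dl k / toC (M * (1 * m)))) := by
    have := summable_dual hS.toS h hm isPrim_one (q := M * (1 * m))
      (mul_ne_zero hM0 (by rwa [one_mul]))
    rwa [Ad.coe_toS] at this
  have hsum' : Summable (dterm w l M χ κ t m) := by
    have h2 := hsum.mul_left (((Real.exp κ : ℂ) * ang l m)⁻¹)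
    refine h2.congr fun k => ?_
    rw [hterm, ← mul_assoc, inv_mul_cancel₀ (mul_ne_zero hexp hang), one_mul]
  refine ⟨hsum', ?_⟩
  have hP := poisson_kp hS.toS h hm isPrim_one sm squarefree_one isCoprime_one_left
    hcop isCoprime_one_left
  rw [Ad.coe_toS] at hP
  rw [← XK_kp, PS_eq_tsum, hP, tsum_congr hterm, tsum_mul_left]
  unfold cst
  have e1 : kp m 1 (M * Po581.sq3) = conj (sy (M * Po581.sq3) m) := by
    unfold kp
    rw [Sym645.sy_one_right, one_mul]
  have e2 : nm (1 : Eis) = 1 := by simp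
  rw [e1, one_mul, G_one, one_mul, e2]
  push_cast
  rw [mul_one]
  ring

set_option maxHeartbeats 1000000 in
/-- **the pointwise bound** -/
theorem polL {w : ℝ → ℂ} (w1 : ContDiff ℝ ∞ w) (w2 : HasCompactSupport w) (l : ℤ) {Rc : ℝ} (hRc : 0 ≤ Rc)
    (A K : ℕ) (hA : 2 ≤ A) (hK : 2 ≤ K) :
    ∃ (C : ℝ) (J : ℕ), 0 ≤ C ∧ ∀ (M : Eis) (χ : Eis → ℂ), HC M χ →
      ∀ (I : Finset Eis) (β : Eis → ℂ) (γ : ℝ),
      (∀ m ∈ I, IsPrim m ∧ Squarefree m ∧ IsCoprime m M ∧ m ≠ 1 ∧ |Real.log (nm m) - γ| ≤ Rc) →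
      ∀ κ t : ℝ,
      ‖∑ m ∈ I, β m * PS w (fun x => χ x * conj (sy x m) * ang l x) κ t‖ ^ 2 ≤
        C * (1 + |t|) ^ J * (Real.exp κ + Real.exp (2 * κ - γ)) *
          ∑' k : Eis, ((1 + (nm k : ℝ) / (nm M * Real.exp (γ - κ))) ^ A)⁻¹ *
            Eks I (fun m => β m * ang l m) χ M γ K k := by
  have hab : (-Rc - 1 : ℝ) ≤ Rc + 1 := by linarith
  have hχ1 : ContDiff ℝ ∞ (Weight600.cutC (-Rc - 1) (Rc + 1) 1) := Weight600.contDiff_cutC
  have hχ2 : HasCompactSupport (Weight600.cutC (-Rc - 1) (Rc + 1) 1) :=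
    Weight600.hasCompactSupport_cutC (by norm_num) hab
  have hχ3 : ∀ u, |u| ≤ Rc → Weight600.cutC (-Rc - 1) (Rc + 1) 1 u = 1 := by
    intro u hu
    have h1 := abs_le.mp hu
    unfold Weight600.cutC
    rw [Weight600.cutL_eq_one (by norm_num) (by linarith) (by linarith)]
    simp
  obtain ⟨C0, J, hC0, hsep⟩ := rad_sep (ad_gf w1 w2 l) hχ1 hχ2 (3 + A) K
  set W : ℝ := ∫ s : ℝ, ((1 + |s|) ^ K)⁻¹ with hW
  have hW0 : 0 ≤ W := integral_nonneg fun s => by positivity
  refine ⟨2 * 3 ^ (2 * (3 + A)) * C0 ^ 2 * W * 1600, 2 * J, by positivity, ?_⟩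
  intro M χ h I β0 γ hI κ t
  set β : Eis → ℂ := fun m => β0 m * ang l m with hβ
  have hIp : ∀ m ∈ I, IsPrim m := fun m hm => (hI m hm).1
  have hM0 : (0 : ℝ) < nm M := by exact_mod_cast nm_pos.mpr h.q0
  set P : ℝ := nm M * Real.exp (γ - κ) with hP
  have hP0 : 0 < P := by positivity
  set T : ℝ := ∑' k : Eis, ((1 + (nm k : ℝ) / P) ^ A)⁻¹ * Eks I β χ M γ K k with hT
  have hsT := summable_Eks hIp β χ M γ hK hP0 hA
  have hT0 : 0 ≤ T := tsum_nonneg fun k => mul_nonneg (by positivity) (Eks_nonneg _ _ _ _ _ _ _)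
  -- the terms
  set a : Eis → ℂ := fun k => ∑ m ∈ I, β m * (((Real.sqrt (nm m))⁻¹ : ℝ) : ℂ) * cst M χ m *
    dterm w l M χ κ t m k with ha
  set c0 : ℝ := 2 / (Real.sqrt 3 * nm M) * Real.exp κ with hc0
  have hS : ∑ m ∈ I, β0 m * PS w (fun x => χ x * conj (sy x m) * ang l x) κ t =
      osc t κ * (c0 : ℂ) * ∑' k, a k := by
    have h1 : ∑' k, a k = ∑ m ∈ I, ∑' k, β m * (((Real.sqrt (nm m))⁻¹ : ℝ) : ℂ) * cst M χ m *
        dterm w l M χ κ t m k := by
      rw [ha]
      refine Summable.tsum_finsetSum fun m hm => ?_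
      obtain ⟨h1, h2, h3, h4, _⟩ := hI m hm
      exact (PS_dual w1 w2 l h h1 h2 h3 h4 κ t).1.mul_left _
    rw [h1, Finset.mul_sum]
    refine Finset.sum_congr rfl fun m hm => ?_
    obtain ⟨h1, h2, h3, h4, _⟩ := hI m hm
    rw [(PS_dual w1 w2 l h h1 h2 h3 h4 κ t).2, tsum_mul_left, hβ]
    ring
  -- bound of one term
  have hterm : ∀ k, ‖a k‖ ≤ (C0 * (1 + |t|) ^ J * Real.exp (-γ / 2) * 3 ^ (3 + A) * Real.sqrt W) *
      ((‖DM M χ k‖ * Real.sqrt (((1 + (nm k : ℝ) / P) ^ 3)⁻¹)) *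
        Real.sqrt (((1 + (nm k : ℝ) / P) ^ A)⁻¹ * Eks I β χ M γ K k)) := by
    intro k
    by_cases hk : k = 0
    · have : a k = 0 := by
        rw [ha]
        refine Finset.sum_eq_zero fun m _ => ?_
        unfold dterm
        rw [if_pos hk, mul_zero]
      rw [this, norm_zero]
      positivity
    have hkp : (0 : ℝ) < nm k := by exact_mod_cast nm_pos.mpr hk
    set sk : ℝ := Real.log (nm k) + κ - Real.log (3 * nm M) - γ with hsk
    obtain ⟨ker, k1, k2, k3, k4⟩ := hsep t sk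
    have e1 : a k = (phk l M κ k * DM M χ k) * ((Real.exp (-γ / 2) : ℝ) : ℂ) *
        ∫ s, ker s * Dks I β χ M γ s k := by
      have e2 : ∀ m ∈ I, β m * (((Real.sqrt (nm m))⁻¹ : ℝ) : ℂ) * cst M χ m *
          dterm w l M χ κ t m k = (phk l M κ k * DM M χ k) * ((Real.exp (-γ / 2) : ℝ) : ℂ) *
          ∫ s, ker s * (β m * cst M χ m * ((Real.exp ((γ - Real.log (nm m)) / 2) : ℝ) : ℂ) *
            osc s (γ - Real.log (nm m)) * sy k m) := by
        intro m hm
        obtain ⟨h1, h2, h3, h4, h5⟩ := hI m hm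
        have hmp : (0 : ℝ) < nm m := by exact_mod_cast nm_pos.mpr h1.ne_zero
        have e3 : (fun s => ker s * (β m * cst M χ m *
            ((Real.exp ((γ - Real.log (nm m)) / 2) : ℝ) : ℂ) *
            osc s (γ - Real.log (nm m)) * sy k m)) = fun s => (β m * cst M χ m *
            ((Real.exp ((γ - Real.log (nm m)) / 2) : ℝ) : ℂ) * sy k m) *
              (ker s * osc s (γ - Real.log (nm m))) := by
          funext s; ring
        rw [e3, integral_const_mul, k4, hχ3 _ (by rwa [abs_sub_comm]), one_mul]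
        unfold dterm
        rw [if_neg hk]
        have e4 : (((Real.sqrt (nm m))⁻¹ : ℝ) : ℂ) = ((Real.exp (-γ / 2) : ℝ) : ℂ) *
            ((Real.exp ((γ - Real.log (nm m)) / 2) : ℝ) : ℂ) := by
          rw [← Complex.ofReal_mul, ← Real.exp_add]
          congr 1
          rw [Real.sqrt_eq_rpow, Real.rpow_def_of_pos hmp, ← Real.exp_neg]
          congr 1
          ring
        rw [e4]
        have e5 : γ - Real.log (nm m) + sk =
            Real.log (nm k) + κ - Real.log (3 * nm M) - Real.log (nm m) := by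
          rw [hsk]; ring
        rw [e5]
        have e6 : gt w l t = tws (gf w l) t := rfl
        rw [e6]
        ring
      rw [ha]
      simp only
      rw [Finset.sum_congr rfl e2, ← Finset.mul_sum]
      congr 1
      rw [← integral_finsetSum]
      · congr 1
        funext s
        rw [← Finset.mul_sum]
        rfl
      · intro m _
        have e3 : (fun s => ker s * (β m * cst M χ m *
            ((Real.exp ((γ - Real.log (nm m)) / 2) : ℝ) : ℂ) *
            osc s (γ - Real.log (nm m)) * sy k m)) = fun s => (β m * cst M χ m *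
            ((Real.exp ((γ - Real.log (nm m)) / 2) : ℝ) : ℂ) * sy k m) *
              (ker s * osc s (γ - Real.log (nm m))) := by
          funext s; ring
        rw [e3]
        exact (integrable_mul_osc k2 _).const_mul _
    have hx : (0 : ℝ) ≤ (nm k : ℝ) / P := by positivity
    have e7 : Real.exp sk = ((nm k : ℝ) / P) / 3 := by
      rw [hsk, hP, Real.exp_sub, Real.exp_sub, Real.exp_add, Real.exp_log hkp,
        Real.exp_log (by positivity), Real.exp_sub]
      field_simp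
    have e8 : ((1 + Real.exp sk) ^ (3 + A))⁻¹ ≤ 3 ^ (3 + A) * ((1 + (nm k : ℝ) / P) ^ (3 + A))⁻¹ := by
      rw [e7, ← div_eq_mul_inv, le_div_iff₀ (by positivity), ← div_eq_inv_mul,
        div_le_iff₀ (by positivity), ← mul_pow]
      gcongr
      linarith
    have hbd : ‖∫ s, ker s * Dks I β χ M γ s k‖ ≤ C0 * (1 + |t|) ^ J *
        ((1 + Real.exp sk) ^ (3 + A))⁻¹ * Real.sqrt (W * Eks I β χ M γ K k) := by
      calc ‖∫ s, ker s * Dks I β χ M γ s k‖ ≤ ∫ s, ‖ker s * Dks I β χ M γ s k‖ :=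
            norm_integral_le_integral_norm _
        _ ≤ ∫ s, (C0 * (1 + |t|) ^ J * ((1 + Real.exp sk) ^ (3 + A))⁻¹) *
              (((1 + |s|) ^ K)⁻¹ * ‖Dks I β χ M γ s k‖) := by
            refine integral_mono_of_nonneg (Eventually.of_forall fun _ => norm_nonneg _)
              ((integrable_Dks hIp β χ M γ hK k).const_mul _) (Eventually.of_forall fun s => ?_)
            simp only
            rw [norm_mul, ← mul_assoc]
            exact mul_le_mul_of_nonneg_right (k3 s) (norm_nonneg _)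
        _ = (C0 * (1 + |t|) ^ J * ((1 + Real.exp sk) ^ (3 + A))⁻¹) *
              ∫ s, (((1 + |s|) ^ K)⁻¹ * ‖Dks I β χ M γ s k‖) := integral_const_mul _ _
        _ ≤ _ := by
            refine mul_le_mul_of_nonneg_left ?_ (by positivity)
            refine Real.le_sqrt_of_sq_le ?_
            exact wt_cs hK (fun s => norm_nonneg _) (continuous_Dks I β χ M γ k).norm
              (integrable_Dks hIp β χ M γ hK k) (integrable_Eks hIp β χ M γ hK k)
    rw [e1, norm_mul, norm_mul, Complex.norm_real, Real.norm_of_nonneg (Real.exp_pos _).le]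
    have e9 : Real.sqrt (((1 + (nm k : ℝ) / P) ^ 3)⁻¹) *
        Real.sqrt (((1 + (nm k : ℝ) / P) ^ A)⁻¹ * Eks I β χ M γ K k) ≥
        ((1 + (nm k : ℝ) / P) ^ (3 + A))⁻¹ * Real.sqrt (Eks I β χ M γ K k) := by
      rw [Real.sqrt_mul (by positivity), ← mul_assoc, ← Real.sqrt_mul (by positivity),
        ← mul_inv, ← pow_add]
      refine mul_le_mul_of_nonneg_right ?_ (Real.sqrt_nonneg _)
      refine Real.le_sqrt_of_sq_le ?_
      have h1 : ((1 + (nm k : ℝ) / P) ^ (3 + A))⁻¹ ≤ 1 :=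
        inv_le_one_of_one_le₀ (one_le_pow₀ (by linarith))
      have h0 : 0 ≤ ((1 + (nm k : ℝ) / P) ^ (3 + A))⁻¹ := by positivity
      nlinarith
    calc ‖phk l M κ k * DM M χ k‖ * Real.exp (-γ / 2) * ‖∫ s, ker s * Dks I β χ M γ s k‖
        ≤ ‖DM M χ k‖ * Real.exp (-γ / 2) * ‖∫ s, ker s * Dks I β χ M γ s k‖ := by
          gcongr
          rw [norm_mul]
          exact mul_le_of_le_one_left (norm_nonneg _) (norm_phk_le l M κ k)
      _ ≤ ‖DM M χ k‖ * Real.exp (-γ / 2) * (C0 * (1 + |t|) ^ J *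
          (3 ^ (3 + A) * ((1 + (nm k : ℝ) / P) ^ (3 + A))⁻¹) *
            (Real.sqrt W * Real.sqrt (Eks I β χ M γ K k))) := by
          refine mul_le_mul_of_nonneg_left (hbd.trans ?_) (by positivity)
          rw [Real.sqrt_mul hW0]
          gcongr
      _ = (C0 * (1 + |t|) ^ J * Real.exp (-γ / 2) * 3 ^ (3 + A) * Real.sqrt W) *
          (‖DM M χ k‖ * (((1 + (nm k : ℝ) / P) ^ (3 + A))⁻¹ * Real.sqrt (Eks I β χ M γ K k))) := by
          ring
      _ ≤ (C0 * (1 + |t|) ^ J * Real.exp (-γ / 2) * 3 ^ (3 + A) * Real.sqrt W) *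
          (‖DM M χ k‖ * (Real.sqrt (((1 + (nm k : ℝ) / P) ^ 3)⁻¹) *
        Real.sqrt (((1 + (nm k : ℝ) / P) ^ A)⁻¹ * Eks I β χ M γ K k))) := by
          gcongr
      _ = _ := by ring
  set c1 : ℝ := C0 * (1 + |t|) ^ J * Real.exp (-γ / 2) * 3 ^ (3 + A) * Real.sqrt W with hc1
  have hc10 : 0 ≤ c1 := by positivity
  set B : ℝ := c1 * Real.sqrt ((1600 * (1 + P / nm M) * (nm M : ℝ) ^ 2) * T) with hB
  have hfin : ∀ F : Finset Eis, ∑ k ∈ F, ‖a k‖ ≤ B := by
    intro F
    have hχn : ∀ x, ‖End699.ext χ x‖ ≤ 1 := by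
      intro x
      simp only [End699.ext]
      split_ifs with hx
      · exact h.char.norm_le hx
      · simp
    calc ∑ k ∈ F, ‖a k‖ ≤ ∑ k ∈ F, c1 *
          ((‖DM M χ k‖ * Real.sqrt (((1 + (nm k : ℝ) / P) ^ 3)⁻¹)) *
          Real.sqrt (((1 + (nm k : ℝ) / P) ^ A)⁻¹ * Eks I β χ M γ K k)) :=
          Finset.sum_le_sum fun k _ => hterm k
      _ = c1 * ∑ k ∈ F, ((‖DM M χ k‖ * Real.sqrt (((1 + (nm k : ℝ) / P) ^ 3)⁻¹)) *
          Real.sqrt (((1 + (nm k : ℝ) / P) ^ A)⁻¹ * Eks I β χ M γ K k)) := by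
          rw [Finset.mul_sum]
      _ ≤ c1 * Real.sqrt ((1600 * (1 + P / nm M) * (nm M : ℝ) ^ 2) * T) := by
          refine mul_le_mul_of_nonneg_left ?_ hc10
          refine Real.le_sqrt_of_sq_le ?_
          refine (Finset.sum_mul_sq_le_sq_mul_sq F _ _).trans ?_
          have h1 : ∑ k ∈ F, (‖DM M χ k‖ * Real.sqrt (((1 + (nm k : ℝ) / P) ^ 3)⁻¹)) ^ 2 ≤
              1600 * (1 + P / nm M) * (nm M : ℝ) ^ 2 := by
            refine le_trans (le_of_eq ?_) (sum_dual_le h.q0 hχn hP0 F)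
            refine Finset.sum_congr rfl fun k _ => ?_
            rw [mul_pow, Real.sq_sqrt (by positivity)]
            rfl
          have h2 : ∑ k ∈ F, (Real.sqrt (((1 + (nm k : ℝ) / P) ^ A)⁻¹ * Eks I β χ M γ K k)) ^ 2 ≤
              T := by
            have h3 : ∀ k ∈ F, (Real.sqrt (((1 + (nm k : ℝ) / P) ^ A)⁻¹ * Eks I β χ M γ K k)) ^ 2 =
                ((1 + (nm k : ℝ) / P) ^ A)⁻¹ * Eks I β χ M γ K k := fun k _ =>
              Real.sq_sqrt (mul_nonneg (by positivity) (Eks_nonneg _ _ _ _ _ _ _))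
            rw [Finset.sum_congr rfl h3]
            exact hsT.sum_le_tsum F fun k _ => mul_nonneg (by positivity) (Eks_nonneg _ _ _ _ _ _ _)
          exact mul_le_mul h1 h2 (Finset.sum_nonneg fun _ _ => by positivity) (by positivity)
  have hsa : Summable fun k => ‖a k‖ :=
    summable_of_sum_le (fun k => norm_nonneg _) hfin
  have hna : ‖∑' k, a k‖ ≤ B := (norm_tsum_le_tsum_norm hsa).trans
    (Real.tsum_le_of_sum_le (fun k => norm_nonneg _) hfin)
  rw [hS, norm_mul, norm_mul, norm_osc, one_mul, Complex.norm_real,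
    Real.norm_of_nonneg (by positivity : (0 : ℝ) ≤ c0)]
  calc (c0 * ‖∑' k, a k‖) ^ 2 ≤ (c0 * B) ^ 2 := by gcongr
    _ = c0 ^ 2 * c1 ^ 2 * ((1600 * (1 + P / nm M) * (nm M : ℝ) ^ 2) * T) := by
        rw [hB, mul_pow c0, mul_pow c1, Real.sq_sqrt (mul_nonneg (by positivity) hT0)]; ring
    _ ≤ _ := by
        have e1 : c0 ^ 2 = 4 / 3 / (nm M : ℝ) ^ 2 * Real.exp (2 * κ) := by
          rw [hc0, mul_pow, div_pow, mul_pow, Real.sq_sqrt (by norm_num), ← Real.exp_nat_mul]
          push_cast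
          field_simp
          norm_num
        have e2 : c1 ^ 2 = C0 ^ 2 * (1 + |t|) ^ (2 * J) * Real.exp (-γ) * 3 ^ (2 * (3 + A)) * W := by
          rw [hc1, mul_pow, mul_pow, mul_pow, mul_pow, Real.sq_sqrt hW0, ← pow_mul, ← pow_mul,
            ← Real.exp_nat_mul, mul_comm J 2, mul_comm (3 + A) 2]
          congr 4
          push_cast
          ring
        have e3 : P / nm M = Real.exp (γ - κ) := by
          rw [hP]; field_simp
        have e4 : Real.exp (2 * κ) * Real.exp (-γ) * (1 + Real.exp (γ - κ)) =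
            Real.exp κ + Real.exp (2 * κ - γ) := by
          rw [mul_add, mul_one, ← Real.exp_add, ← Real.exp_add, add_comm]
          congr 2; all_goals ring
        rw [e1, e2, e3]
        have e5 : 4 / 3 / (nm M : ℝ) ^ 2 * Real.exp (2 * κ) *
            (C0 ^ 2 * (1 + |t|) ^ (2 * J) * Real.exp (-γ) * 3 ^ (2 * (3 + A)) * W) *
            (1600 * (1 + Real.exp (γ - κ)) * (nm M : ℝ) ^ 2 * T) =
            4 / 3 * 3 ^ (2 * (3 + A)) * C0 ^ 2 * W * 1600 * (1 + |t|) ^ (2 * J) *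
            (Real.exp (2 * κ) * Real.exp (-γ) * (1 + Real.exp (γ - κ))) * T := by
          field_simp
        rw [e5, e4]
        gcongr
        norm_num

end Crest.Agent.R017.PoLl681
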