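import Crest.Agent.R017.BD7_829
import Crest.Agent.R017.PoLl_681

/-!
# Row 17, block C70, leaf E4, x-side (helper681): bilinear duality with a Hecke character (1)

829's (BD) for the twist `χ · ang l` with `HC M χ` (arbitrary modulus `M`), sequences supported on
elements prime to `M`.

* `pairH` : Poisson summation for `χ(k) (k/d m₁) conj (k/d m₂)` over the primary `k`
* `BSh`, `PkH` : the twisted sums, in 47's form `PS`
* `PkH_eq` : the pair formula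
-/

set_option autoImplicit false

noncomputable section

open Complex MeasureTheory
open scoped SchwartzMap ContDiff ComplexConjugate Classical

namespace Crest.Agent.R017.BDh681

open Crest.Agent.R012 Crest.Agent.R012.Eis Crest.Agent.R012.Gauss880 Crest.Agent.R012.Po581
open Crest.Agent.R012.Weight600 (osc norm_osc)
open Crest.Agent.R012.LS2 (S mem_S)
open Crest.Agent.R012.Mob705 (mu pdiv mem_pdiv mu_mul abs_mu_le_one sum_mu_coprime)
open Crest.Agent.R017.FE47 Crest.Agent.R017.End699 Crest.Agent.R017.BL4858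
open Crest.Agent.R017.E1551 (nmpos Vp Vp_mul norm_Vp_le CS_fin)
open Crest.Agent.R017.CM106 (CS)
open Crest.Agent.R017.PoLl681 (phk norm_phk_le)

/-! ### Poisson with a coprimality condition -/

lemma ext_mu {e : Eis} (χ : Eis → ℂ) (he : e ≠ 0) (x : Eis) :
    End699.ext χ x * (if IsCoprime x e then (1 : ℂ) else 0) =
      ∑ d ∈ pdiv e, (mu d : ℂ) * (if d ∣ x then End699.ext χ x else 0) := by
  by_cases hx : IsPrim x
  · have h := congrArg (fun z : ℤ => (z : ℂ)) (sum_mu_coprime hx he)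
    beta_reduce at h
    push_cast at h
    rw [← h, Finset.mul_sum]
    refine Finset.sum_congr rfl fun d _ => ?_
    split_ifs <;> ring
  · have h0 : End699.ext χ x = 0 := by simp only [End699.ext]; rw [if_neg hx]
    rw [h0, zero_mul]
    symm
    apply Finset.sum_eq_zero
    intro d _
    split_ifs <;> ring

/-- **Poisson for the basic sums with a coprimality condition**. -/
theorem poisson_ind {M b c n : Eis} {χ : Eis → ℂ} (f : 𝓢(ℂ, ℂ)) (h : HC M χ) (hn : n ≠ 0)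
    (hb : IsPrim b) (hc : IsPrim c) (sb : Squarefree b) (sc : Squarefree c) (hcb : IsCoprime c b)
    (hbM : IsCoprime b M) (hcM : IsCoprime c M) :
    ∑' x : Eis, End699.ext χ x * (if IsCoprime x n then (1 : ℂ) else 0) * kp b c x * f (toC x) =
      ((2 / (Real.sqrt 3 * nm M) : ℝ) : ℂ) * (χ (c * b) *
        ((((Real.sqrt (nm b * nm c))⁻¹ : ℝ) : ℂ) * (G c * conj (G b)))) * (kp b c (M * Po581.sq3)) *
        ∑ d ∈ pdiv n, (mu d : ℂ) * (χ d * kp b c d * ((((nm d : ℝ))⁻¹ : ℝ) : ℂ)) *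
          ∑' k : Eis, DM M χ k * conj (kp b c k) * fC f (dl k / toC (M * (c * b) * d)) := by
  have e1 : ∀ x : Eis, End699.ext χ x * (if IsCoprime x n then (1 : ℂ) else 0) * kp b c x *
      f (toC x) = ∑ d ∈ pdiv n, (mu d : ℂ) *
        ((if d ∣ x then End699.ext χ x else 0) * kp b c x * f (toC x)) := by
    intro x
    rw [ext_mu χ hn, Finset.sum_mul, Finset.sum_mul]
    exact Finset.sum_congr rfl fun d _ => by ring
  have hs : ∀ d, Summable (fun x : Eis => (if d ∣ x then End699.ext χ x else 0) * kp b c x *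
      f (toC x)) := by
    intro d
    refine Summable.of_norm_bounded ((summable_ext f h (norm_kp_le hb hc)).norm) fun x => ?_
    split_ifs
    · exact le_rfl
    · simp only [zero_mul, norm_zero]; positivity
  rw [tsum_congr e1, Summable.tsum_finsetSum (fun d _ => (hs d).mul_left _), Finset.mul_sum]
  refine Finset.sum_congr rfl fun d hd => ?_
  obtain ⟨hdp, _⟩ := (mem_pdiv hn).mp hd
  have hd0 : toC d ≠ 0 := Po581.toC_ne_zero hdp.ne_zero
  rw [tsum_mul_left, tsum_dvd hdp.ne_zero (fun x hx => by rw [if_neg hx]; ring)]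
  have e2 : ∀ y : Eis, (if d ∣ d * y then End699.ext χ (d * y) else 0) * kp b c (d * y) *
      f (toC (d * y)) = (χ d * kp b c d) * (End699.ext χ y * kp b c y * scS f hd0 (toC y)) := by
    intro y
    rw [if_pos (dvd_mul_right d y), ext_mul h hdp, kp_mul hb hc, scS_apply, map_mul]
    ring
  rw [tsum_congr e2, tsum_mul_left, poisson_kp (scS f hd0) h hb hc sb sc hcb hbM hcM]
  have e3 : ∀ k : Eis, DM M χ k * conj (kp b c k) * fC (scS f hd0) (dl k / toC (M * (c * b))) =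
      ((((nm d : ℝ))⁻¹ : ℝ) : ℂ) * (DM M χ k * conj (kp b c k) *
        fC f (dl k / toC (M * (c * b) * d))) := by
    intro k
    rw [fC_scS, norm_toC_sq, map_mul toC (M * (c * b)) d, div_div]
    ring
  rw [tsum_congr e3, tsum_mul_left]
  ring

lemma Vp_kp {m₁ m₂ : Eis} (k : Eis) : conj (kp m₂ m₁ k) = Vp k m₁ m₂ := by
  unfold kp Vp
  rw [map_mul, Complex.conj_conj]

lemma Vp_sq {m₁ m₂ : Eis} (h₁ : IsPrim m₁) (h₂ : IsPrim m₂) (a : Eis) :
    Vp (a ^ 2) m₁ m₂ = kp m₂ m₁ a := by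
  unfold Vp kp
  rw [Tau671.sy_pow h₁, Tau671.sy_pow h₂, ← Tau671.star_sy h₁, Complex.conj_conj,
    ← Tau671.star_sy h₂]

/-- **the pair formula** -/
theorem pairH {M d m₁ m₂ : Eis} {χ : Eis → ℂ} (f : 𝓢(ℂ, ℂ)) (h : HC M χ) (hd : IsPrim d)
    (h₁ : IsPrim m₁) (h₂ : IsPrim m₂) (s₁ : Squarefree m₁) (s₂ : Squarefree m₂)
    (hc : IsCoprime m₁ m₂) (c₁ : IsCoprime m₁ M) (c₂ : IsCoprime m₂ M) :
    ∑' k : Eis, End699.ext χ k * (sy k (d * m₁) * conj (sy k (d * m₂))) * f (toC k) =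
      ((2 / (Real.sqrt 3 * nm M) : ℝ) : ℂ) * ∑ e ∈ pdiv d, (mu e : ℂ) * (nm e : ℂ)⁻¹ * χ e *
        ∑' k : Eis, (((Real.sqrt (nm m₁ * nm m₂))⁻¹ : ℝ) : ℂ) * (χ m₁ * χ m₂) *
          (G m₁ * conj (G m₂)) * (DM M χ k * Vp (k * (e * (M * Po581.sq3)) ^ 2) m₁ m₂ *
            fC f (dl k / toC (M * (m₁ * m₂) * e))) := by
  have e1 : ∀ x : Eis, End699.ext χ x * (sy x (d * m₁) * conj (sy x (d * m₂))) * f (toC x) =
      End699.ext χ x * (if IsCoprime x d then (1 : ℂ) else 0) * kp m₂ m₁ x * f (toC x) := by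
    intro x
    rw [syG.mul_right x d m₁ hd h₁, syG.mul_right x d m₂ hd h₂, map_mul]
    unfold kp
    by_cases hxd : IsCoprime x d
    · have h1 := (isCh_sy syG hd).mul_conj_self hd.ne_zero hxd
      rw [if_pos hxd]
      linear_combination (End699.ext χ x * (sy x m₁ * conj (sy x m₂)) * f (toC x)) * h1
    · have h1 : sy x d = 0 := (syG.eq_zero x d hd).mpr hxd
      rw [h1, if_neg hxd]
      ring
  rw [tsum_congr e1, poisson_ind f h hd.ne_zero h₂ h₁ s₂ s₁ hc c₂ c₁, h.char.mul _ _ h₁ h₂]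
  rw [Finset.mul_sum, Finset.mul_sum]
  refine Finset.sum_congr rfl fun e he => ?_
  have hep : IsPrim e := ((mem_pdiv hd.ne_zero).mp he).1
  have e2 : ∀ k : Eis, (((Real.sqrt (nm m₁ * nm m₂))⁻¹ : ℝ) : ℂ) * (χ m₁ * χ m₂) *
          (G m₁ * conj (G m₂)) * (DM M χ k * Vp (k * (e * (M * Po581.sq3)) ^ 2) m₁ m₂ *
            fC f (dl k / toC (M * (m₁ * m₂) * e))) =
      ((((Real.sqrt (nm m₁ * nm m₂))⁻¹ : ℝ) : ℂ) * (χ m₁ * χ m₂) * (G m₁ * conj (G m₂)) *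
        (kp m₂ m₁ e * kp m₂ m₁ (M * Po581.sq3))) * (DM M χ k * conj (kp m₂ m₁ k) *
          fC f (dl k / toC (M * (m₁ * m₂) * e))) := by
    intro k
    rw [Vp_mul h₁ h₂, Vp_sq h₁ h₂, kp_mul h₂ h₁, Vp_kp]
    ring
  rw [tsum_congr e2, tsum_mul_left, mul_comm (nm m₂ : ℝ) (nm m₁ : ℝ)]
  push_cast
  ring

/-! ### the sums -/

/-- the twisted bilinear sum -/
def BSh (w : ℝ → ℂ) (χ : Eis → ℂ) (l : ℤ) (κ t : ℝ) (u v : Eis → ℂ) : ℂ :=
  PS w (XK χ (fun k => CS u k * conj (CS v k)) l) κ t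

/-- the twisted sum of one pair -/
def PkH (w : ℝ → ℂ) (χ : Eis → ℂ) (l : ℤ) (κ t : ℝ) (n₁ n₂ : Eis) : ℂ :=
  PS w (XK χ (fun k => sy k n₁ * conj (sy k n₂)) l) κ t

theorem BSh_eq {w : ℝ → ℂ} (w1 : ContDiff ℝ ∞ w) (w2 : HasCompactSupport w) {M : Eis}
    {χ : Eis → ℂ} (h : HC M χ) (l : ℤ) (κ t : ℝ) {Y : ℝ} (hY : 0 ≤ Y) {u v : Eis → ℂ}
    (hu : ∀ n, u n ≠ 0 → n ∈ S Y) (hv : ∀ n, v n ≠ 0 → n ∈ S Y) :
    BSh w χ l κ t u v = ∑ n₁ ∈ S Y, ∑ n₂ ∈ S Y, u n₁ * conj (v n₂) * PkH w χ l κ t n₁ n₂ := by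
  have had : Ad (gt w l t) := (ad_gf w1 w2 l).tws t
  have hS := had.scale (Real.exp_pos κ)
  unfold BSh PkH
  rw [PS_eq_tsum]
  have e0 : ∀ n₁ n₂, PS w (XK χ (fun k => sy k n₁ * conj (sy k n₂)) l) κ t = osc t κ *
      ∑' x : Eis, End699.ext χ x * (sy x n₁ * conj (sy x n₂)) *
      fX (gt w l t) (Real.exp κ) (toC x) := fun n₁ n₂ => PS_eq_tsum l κ t
  simp_rw [e0]
  have hs : ∀ n₁ ∈ S Y, ∀ n₂ ∈ S Y, Summable fun x : Eis => End699.ext χ x *
      (sy x n₁ * conj (sy x n₂)) * fX (gt w l t) (Real.exp κ) (toC x) := by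
    intro n₁ h₁ n₂ h₂
    have := summable_ext hS.toS h (κ := fun x => sy x n₁ * conj (sy x n₂)) (fun x => by
      rw [norm_mul, RCLike.norm_conj]
      exact mul_le_one₀ (Tau671.norm_sy_le ((mem_S hY).1 h₁).2.1) (norm_nonneg _)
        (Tau671.norm_sy_le ((mem_S hY).1 h₂).2.1))
    rwa [Ad.coe_toS] at this
  have e1 : ∀ x : Eis, End699.ext χ x * (CS u x * conj (CS v x)) *
      fX (gt w l t) (Real.exp κ) (toC x) = ∑ n₁ ∈ S Y, ∑ n₂ ∈ S Y, u n₁ * conj (v n₂) *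
        (End699.ext χ x * (sy x n₁ * conj (sy x n₂)) *
          fX (gt w l t) (Real.exp κ) (toC x)) := by
    intro x
    rw [CS_fin hu, CS_fin hv, map_sum, Finset.sum_mul_sum, Finset.mul_sum, Finset.sum_mul]
    refine Finset.sum_congr rfl fun n₁ _ => ?_
    rw [Finset.mul_sum, Finset.sum_mul]
    refine Finset.sum_congr rfl fun n₂ _ => ?_
    rw [map_mul]
    ring
  rw [tsum_congr e1, Summable.tsum_finsetSum (fun n₁ h₁ => summable_sum fun n₂ h₂ =>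
    (hs n₁ h₁ n₂ h₂).mul_left _), Finset.mul_sum]
  refine Finset.sum_congr rfl fun n₁ h₁ => ?_
  rw [Summable.tsum_finsetSum (fun n₂ h₂ => (hs n₁ h₁ n₂ h₂).mul_left _), Finset.mul_sum]
  refine Finset.sum_congr rfl fun n₂ _ => ?_
  rw [tsum_mul_left]
  ring

/-- the coefficient of one mode, for one pair -/
def FmH (w : ℝ → ℂ) (M : Eis) (χ : Eis → ℂ) (l : ℤ) (κ t : ℝ) (e k k₁ k₂ : Eis) : ℂ :=
  (((Real.sqrt (nm k₁ * nm k₂))⁻¹ : ℝ) : ℂ) * (χ k₁ * χ k₂) * (G k₁ * conj (G k₂)) *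
    (DM M χ k * Vp (k * (e * (M * Po581.sq3)) ^ 2) k₁ k₂ *
      fC (fX (gt w l t) (Real.exp κ)) (dl k / toC (M * (k₁ * k₂) * e)))

theorem PkH_eq {w : ℝ → ℂ} (w1 : ContDiff ℝ ∞ w) (w2 : HasCompactSupport w) {M d m₁ m₂ : Eis}
    {χ : Eis → ℂ} (h : HC M χ) (l : ℤ) (κ t : ℝ) (hd : IsPrim d)
    (h₁ : IsPrim m₁) (h₂ : IsPrim m₂) (s₁ : Squarefree m₁) (s₂ : Squarefree m₂)
    (hc : IsCoprime m₁ m₂) (c₁ : IsCoprime m₁ M) (c₂ : IsCoprime m₂ M) :
    PkH w χ l κ t (d * m₁) (d * m₂) = osc t κ * ((2 / (Real.sqrt 3 * nm M) : ℝ) : ℂ) *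
      ∑ e ∈ pdiv d, (mu e : ℂ) * (nm e : ℂ)⁻¹ * χ e * ∑' k : Eis, FmH w M χ l κ t e k m₁ m₂ := by
  have had : Ad (gt w l t) := (ad_gf w1 w2 l).tws t
  have hS := had.scale (Real.exp_pos κ)
  have := pairH hS.toS h hd h₁ h₂ s₁ s₂ hc c₁ c₂
  rw [Ad.coe_toS] at this
  unfold PkH
  rw [PS_eq_tsum, this]
  unfold FmH
  ring

lemma summable_FmH {w : ℝ → ℂ} (w1 : ContDiff ℝ ∞ w) (w2 : HasCompactSupport w) {M : Eis}
    {χ : Eis → ℂ} (h : HC M χ) (l : ℤ) (κ t : ℝ) {e k₁ k₂ : Eis} (he : e ≠ 0) (h₁ : IsPrim k₁)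
    (h₂ : IsPrim k₂) : Summable fun k : Eis => FmH w M χ l κ t e k k₁ k₂ := by
  have had : Ad (gt w l t) := (ad_gf w1 w2 l).tws t
  have hS := had.scale (Real.exp_pos κ)
  have hq : toC (M * (k₁ * k₂) * e) ≠ 0 := Po581.toC_ne_zero
    (mul_ne_zero (mul_ne_zero h.q0 (mul_ne_zero h₁.ne_zero h₂.ne_zero)) he)
  have h3 := fC_summable hS.toS hq
  rw [Ad.coe_toS] at h3
  unfold FmH
  refine Summable.mul_left _ ?_
  refine summable_mul_bdd (B := nm M) (fun k => ?_) h3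
  rw [norm_mul]
  calc ‖DM M χ k‖ * ‖Vp (k * (e * (M * Po581.sq3)) ^ 2) k₁ k₂‖ ≤ nm M * 1 :=
        mul_le_mul (norm_DM_le h k) (norm_Vp_le h₁ h₂) (norm_nonneg _) (Nat.cast_nonneg _)
    _ = _ := mul_one _

/-! ### the frequency -/

/-- the mode `k ≠ 0` -/
lemma fC_mode {w : ℝ → ℂ} (l : ℤ) (t κ : ℝ) {M k₁ k₂ e k f : Eis} (hM : M ≠ 0) (h₁ : k₁ ≠ 0)
    (h₂ : k₂ ≠ 0) (he : e ≠ 0) (hf : f ≠ 0) (hk : k ≠ 0) :
    fC (fX (gt w l t) (Real.exp κ)) (dl k / toC (M * ((f * k₁) * (f * k₂)) * e)) =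
      (Real.exp κ : ℂ) * (phk l M κ k * ang l (f * f * e) * (ang l k₁ * ang l k₂) *
        rad (gt w l t) (BD829.xh M (Real.exp κ) k e f - Real.log (nm k₁) - Real.log (nm k₂))) := by
  have hm : (f * k₁) * (f * k₂) * e ≠ 0 :=
    mul_ne_zero (mul_ne_zero (mul_ne_zero hf h₁) (mul_ne_zero hf h₂)) he
  have n1 := nmpos hM
  have n2 := nmpos hk
  have n3 := nmpos he
  have n4 := nmpos hf
  have n5 := nmpos h₁
  have n6 := nmpos h₂
  rw [mul_assoc M, PoLl681.fC_term l t κ hM hm hk]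
  have e1 : ang l ((f * k₁) * (f * k₂) * e) = ang l (f * f * e) * (ang l k₁ * ang l k₂) := by
    rw [← P355.ang_mul, ← P355.ang_mul]
    congr 1; ring
  have e2 : Real.log (nm k) + κ - Real.log (3 * nm M) - Real.log (nm ((f * k₁) * (f * k₂) * e)) =
      BD829.xh M (Real.exp κ) k e f - Real.log (nm k₁) - Real.log (nm k₂) := by
    unfold BD829.xh
    rw [nm_mul, nm_mul, nm_mul, nm_mul]
    push_cast
    rw [Real.log_mul (x := nm f * nm k₁ * (nm f * nm k₂)) (by positivity) (by positivity),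
      Real.log_mul (x := nm f * nm k₁) (by positivity) (by positivity),
      Real.log_mul n4.ne' n5.ne', Real.log_mul n4.ne' n6.ne',
      Real.log_div (by positivity) (by positivity), Real.log_mul (Real.exp_pos κ).ne' n2.ne',
      Real.log_exp, Real.log_mul (x := 3 * (nm M : ℝ)) (by positivity) n3.ne']
    ring
  rw [e1, e2]
  ring

end Crest.Agent.R017.BDh681
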