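import Crest.Agent.R017.BDh1_681

/-!
# Row 17, block C70, leaf E4, x-side (helper681): bilinear duality with a Hecke character (2)

The separated kernel of the dual weight, the bilinear form with a fixed frequency, the bound of one
mode.
-/

set_option autoImplicit false

noncomputable section

open Complex MeasureTheory
open scoped SchwartzMap ContDiff ComplexConjugate Classical

namespace Crest.Agent.R017.BDh681

open Crest.Agent.R012 Crest.Agent.R012.Eis Crest.Agent.R012.Gauss880 Crest.Agent.R012.Po581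
open Crest.Agent.R012.Weight600 (osc norm_osc osc_add_right osc_neg_left continuous_osc_left pw)
open Crest.Agent.R012.LS2 (S mem_S)
open Crest.Agent.R012.Mob705 (mu pdiv mem_pdiv mu_mul abs_mu_le_one)
open Crest.Agent.R017.FE47 Crest.Agent.R017.End699 Crest.Agent.R017.BL4858
open Crest.Agent.R017.E1551 (nmpos Vp Vp_mul norm_Vp_le CS_fin jb jb_pos integrable_jb
  integrable_jb_mul G_one551 nm_ge_one)
open Crest.Agent.R017.CM106 (CS)
open Crest.Agent.R017.PoLl681 (phk norm_phk_le)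
open Crest.Agent.R017.PX764 (cpS cpS_congr cpS_smul cpS_sum cpS_moebius sum_eq_cpS Gh Gh_mul)
open Crest.Agent.R017.BD829 (bB bB_pos bB_le_one LU LU_eq norm_LU_eq TT EE EE_nonneg integrable_EE
  Win rs rs_supp rs_win Hf xh WB WB_eq WB_nonneg norm_Gh_le')

/-- the separated kernel with constant `C` -/
def KTc (T : ℝ → ℂ) (R : ℝ) (A B : ℕ) (C : ℝ) : Prop :=
  0 ≤ C ∧ ∀ x0 : ℝ, ∃ k : ℝ → ℂ, Continuous k ∧ Integrable k ∧
    (∀ t, ‖k t‖ ≤ C * bB B x0 * jb A t) ∧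
    ∀ u, |u| ≤ R → T (x0 - u) * ((Real.exp (-u / 2) : ℝ) : ℂ) = ∫ t, k t * osc t u

theorem KTc_rad {w : ℝ → ℂ} (w1 : ContDiff ℝ ∞ w) (w2 : HasCompactSupport w) (l : ℤ) {R : ℝ}
    (hR : 0 ≤ R) (A B : ℕ) : ∃ (C : ℝ) (J : ℕ), 0 ≤ C ∧
    ∀ t : ℝ, KTc (rad (gt w l t)) R A B (C * (1 + |t|) ^ J) := by
  have hab : (-R - 1 : ℝ) ≤ R + 1 := by linarith
  set c0 : ℝ → ℂ := Weight600.cutC (-R - 1) (R + 1) 1 with hc0
  have hχ1 : ContDiff ℝ ∞ c0 := Weight600.contDiff_cutC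
  have hχ2 : HasCompactSupport c0 := Weight600.hasCompactSupport_cutC (by norm_num) hab
  have hχ3 : ∀ u, |u| ≤ R → c0 u = 1 := by
    intro u hu
    have h1 := abs_le.mp hu
    rw [hc0]
    unfold Weight600.cutC
    rw [Weight600.cutL_eq_one (by norm_num) (by linarith) (by linarith)]
    simp
  set c1 : ℝ → ℂ := fun v => c0 v * ((Real.exp (v / 2) : ℝ) : ℂ) with hc1
  have h1 : ContDiff ℝ ∞ c1 := by
    refine hχ1.mul ?_
    have h2 : ContDiff ℝ ∞ (fun v : ℝ => Real.exp (v / 2)) :=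
      Real.contDiff_exp.comp (contDiff_id.div_const 2)
    exact Complex.ofRealCLM.contDiff.comp h2
  have h2 : HasCompactSupport c1 := hχ2.mul_right
  obtain ⟨C, J, hC, hsep⟩ := rad_sep (ad_gf w1 w2 l) h1 h2 B A
  refine ⟨C, J, hC, fun t => ⟨by positivity, fun x0 => ?_⟩⟩
  obtain ⟨k, k1, k2, k3, k4⟩ := hsep t x0
  refine ⟨fun s => k (-s), k1.comp continuous_neg, k2.comp_neg, fun s => ?_, fun u hu => ?_⟩
  · have h3 := k3 (-s)
    rw [abs_neg] at h3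
    refine h3.trans (le_of_eq ?_)
    have h7 : jb A s = ((1 + |s|) ^ A)⁻¹ := by
      unfold jb
      rw [Real.rpow_neg (by positivity), Real.rpow_natCast]
    rw [h7]
    rfl
  · have h3 : ∫ s, k (-s) * osc s u = ∫ s, k s * osc s (-u) := by
      rw [← integral_neg_eq_self (fun s => k s * osc s (-u))]
      congr 1
      funext s
      congr 1
      unfold osc
      push_cast
      ring_nf
    rw [h3, k4]
    have h4 : c1 (-u) = ((Real.exp (-u / 2) : ℝ) : ℂ) := by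
      rw [hc1]
      beta_reduce
      rw [hχ3 _ (by rwa [abs_neg]), one_mul]
    rw [h4]
    have h5 : -u + x0 = x0 - u := by ring
    rw [h5]
    have h6 : rad (gt w l t) = rad (tws (gf w l) t) := rfl
    rw [h6]
    ring

/-- the bilinear form with fixed frequency -/
def bilc (Y : ℝ) (u v : Eis → ℂ) (H : Eis) (T : ℝ → ℂ) (x : ℝ) : ℂ :=
  ∑ k₁ ∈ S Y, ∑ k₂ ∈ S Y, u k₁ * conj (v k₂) * ((((Real.sqrt (nm k₁ * nm k₂))⁻¹ : ℝ) : ℂ) *
    (Gh H k₁ * conj (Gh H k₂)) * T (x - Real.log (nm k₁) - Real.log (nm k₂)))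

lemma bilc_eq {Y : ℝ} (hY : 0 ≤ Y) {u v : Eis → ℂ} {H : Eis} {T : ℝ → ℂ} {R X₁ X₂ x : ℝ}
    (hu : Win u X₁ R) (hv : Win v X₂ R) {k : ℝ → ℂ} (hki : Integrable k)
    (hk : ∀ y, |y| ≤ R → T (x - X₁ - X₂ - y) * ((Real.exp (-y / 2) : ℝ) : ℂ) =
      ∫ t, k t * osc t y) :
    bilc Y u v H T x = ((Real.exp (-(X₁ + X₂) / 2) : ℝ) : ℂ) *
      ∫ t, k t * (LU Y u H X₁ t * conj (LU Y v H X₂ (-t))) := by
  have hint : ∀ k₁ ∈ S Y, ∀ k₂ ∈ S Y, Integrable fun t =>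
      k t * ((u k₁ * Gh H k₁ * osc t (Real.log (nm k₁) - X₁)) *
        conj (v k₂ * Gh H k₂ * osc (-t) (Real.log (nm k₂) - X₂))) := by
    intro k₁ h₁ k₂ h₂
    have hc : Continuous fun t : ℝ => (u k₁ * Gh H k₁ * osc t (Real.log (nm k₁) - X₁)) *
        conj (v k₂ * Gh H k₂ * osc (-t) (Real.log (nm k₂) - X₂)) :=
      (continuous_const.mul (continuous_osc_left _)).mul (Complex.continuous_conj.comp
        (continuous_const.mul ((continuous_osc_left _).comp continuous_neg)))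
    refine hki.mul_bdd (c := (‖u k₁‖ * ‖Gh H k₁‖) * (‖v k₂‖ * ‖Gh H k₂‖)) hc.aestronglyMeasurable
      (Filter.Eventually.of_forall fun t => ?_)
    rw [norm_mul, RCLike.norm_conj, norm_mul, norm_mul, norm_mul, norm_mul, norm_osc, norm_osc,
      mul_one, mul_one]
  have e1 : ∀ t, k t * (LU Y u H X₁ t * conj (LU Y v H X₂ (-t))) =
      ∑ k₁ ∈ S Y, ∑ k₂ ∈ S Y, k t * ((u k₁ * Gh H k₁ * osc t (Real.log (nm k₁) - X₁)) *
        conj (v k₂ * Gh H k₂ * osc (-t) (Real.log (nm k₂) - X₂))) := by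
    intro t
    unfold LU
    rw [map_sum, Finset.sum_mul_sum, Finset.mul_sum]
    refine Finset.sum_congr rfl fun k₁ _ => ?_
    rw [Finset.mul_sum]
  simp_rw [e1]
  rw [integral_finsetSum _ fun k₁ h₁ => integrable_finsetSum _ fun k₂ h₂ => hint k₁ h₁ k₂ h₂,
    Finset.mul_sum]
  unfold bilc
  refine Finset.sum_congr rfl fun k₁ h₁ => ?_
  rw [integral_finsetSum _ fun k₂ h₂ => hint k₁ h₁ k₂ h₂, Finset.mul_sum]
  refine Finset.sum_congr rfl fun k₂ h₂ => ?_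
  by_cases a1 : u k₁ = 0
  · simp [a1]
  by_cases a2 : v k₂ = 0
  · simp [a2]
  have n1 := nmpos ((mem_S hY).1 h₁).2.1.ne_zero
  have n2 := nmpos ((mem_S hY).1 h₂).2.1.ne_zero
  set u1 := Real.log (nm k₁) - X₁ with hu1
  set u2 := Real.log (nm k₂) - X₂ with hu2
  have b1 := hu k₁ a1
  have b2 := hv k₂ a2
  have hub : |u1 + u2| ≤ R := (abs_add_le _ _).trans (by linarith)
  have h3 := hk (u1 + u2) hub
  have e1 : ∀ t, k t * ((u k₁ * Gh H k₁ * osc t u1) * conj (v k₂ * Gh H k₂ * osc (-t) u2)) =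
      (u k₁ * conj (v k₂) * (Gh H k₁ * conj (Gh H k₂))) * (k t * osc t (u1 + u2)) := by
    intro t
    rw [map_mul, map_mul, osc_neg_left, Complex.conj_conj, osc_add_right]
    ring
  simp_rw [e1]
  rw [integral_const_mul, ← h3]
  have e2 : (Real.sqrt (nm k₁ * nm k₂))⁻¹ =
      Real.exp (-(X₁ + X₂) / 2) * Real.exp (-(u1 + u2) / 2) := by
    rw [Real.sqrt_eq_rpow, ← Real.rpow_neg (by positivity), Real.rpow_def_of_pos (by positivity),
      Real.log_mul n1.ne' n2.ne', ← Real.exp_add]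
    congr 1
    rw [hu1, hu2]; ring
  rw [e2]
  have e3 : x - Real.log (nm k₁) - Real.log (nm k₂) = x - X₁ - X₂ - (u1 + u2) := by
    rw [hu1, hu2]; ring
  rw [e3]
  push_cast
  ring

/-- **bound of the bilinear form with fixed frequency** -/
theorem norm_bilc_le {T : ℝ → ℂ} {R : ℝ} {A B : ℕ} {C : ℝ} (hk : KTc T R A B C) (hA : 1 < A) :
    ∀ (Y : ℝ), 0 ≤ Y → ∀ (u v : Eis → ℂ), (∀ n, u n ≠ 0 → n ∈ S Y) →
      (∀ n, v n ≠ 0 → n ∈ S Y) → ∀ (X₁ X₂ : ℝ), Win u X₁ R → Win v X₂ R → ∀ (H : Eis) (x : ℝ),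
      ‖bilc Y u v H T x‖ ≤
        C * Real.exp (-(X₁ + X₂) / 2) * bB B (x - X₁ - X₂) * EE A u v H := by
  have hA' : (1 : ℝ) < (A : ℝ) := by exact_mod_cast hA
  obtain ⟨hC, h⟩ := hk
  intro Y hY u v hu hv X₁ X₂ hwu hwv H x
  obtain ⟨k, hk1, hk2, hk3, hk4⟩ := h (x - X₁ - X₂)
  rw [bilc_eq hY hwu hwv hk2 hk4, norm_mul, Complex.norm_real,
    Real.norm_of_nonneg (Real.exp_pos _).le]
  have hi := (integrable_EE hA' hY hu hv H).const_mul (C * bB B (x - X₁ - X₂))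
  have h5 : ‖∫ t, k t * (LU Y u H X₁ t * conj (LU Y v H X₂ (-t)))‖ ≤
      C * bB B (x - X₁ - X₂) * EE A u v H := by
    unfold EE
    rw [← integral_const_mul]
    refine norm_integral_le_of_norm_le hi (Filter.Eventually.of_forall fun t => ?_)
    rw [norm_mul, norm_mul, RCLike.norm_conj, norm_LU_eq hu, norm_LU_eq hv]
    calc ‖k t‖ * (‖TT u H t‖ * ‖TT v H (-t)‖)
        ≤ (C * bB B (x - X₁ - X₂) * jb A t) * (‖TT u H t‖ * ‖TT v H (-t)‖) :=
          mul_le_mul_of_nonneg_right (hk3 t) (by positivity)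
      _ = _ := by ring
  calc Real.exp (-(X₁ + X₂) / 2) * ‖∫ t, k t * (LU Y u H X₁ t * conj (LU Y v H X₂ (-t)))‖
      ≤ Real.exp (-(X₁ + X₂) / 2) * (C * bB B (x - X₁ - X₂) * EE A u v H) :=
        mul_le_mul_of_nonneg_left h5 (Real.exp_pos _).le
    _ = _ := by ring

/-! ### one mode -/

/-- the full twist -/
def ps (χ : Eis → ℂ) (l : ℤ) (m : Eis) : ℂ := χ m * ang l m

lemma norm_ang_le (l : ℤ) (z : Eis) : ‖ang l z‖ ≤ 1 := P355.norm_ang_le l z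

lemma FmH_mul {w : ℝ → ℂ} {M : Eis} {χ : Eis → ℂ} (h : HC M χ) (l : ℤ) (κ t : ℝ)
    {e k f k₁ k₂ : Eis} (he : e ≠ 0) (hk : k ≠ 0) (hf : IsPrim f) (h₁ : IsPrim k₁)
    (h₂ : IsPrim k₂) :
    FmH w M χ l κ t e k (f * k₁) (f * k₂) =
      ((Real.exp κ : ℂ) * (nm f : ℂ)⁻¹ * (χ f * χ f) * DM M χ k * (phk l M κ k *
        ang l (f * f * e)) * (Gh (k * (e * (M * Po581.sq3)) ^ 2) f *
          conj (Gh (k * (e * (M * Po581.sq3)) ^ 2) f))) *
      (ps χ l k₁ * ps χ l k₂ * ((((Real.sqrt (nm k₁ * nm k₂))⁻¹ : ℝ) : ℂ) *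
        (Gh (Hf M e k f) k₁ * conj (Gh (Hf M e k f) k₂)) *
        rad (gt w l t) (xh M (Real.exp κ) k e f - Real.log (nm k₁) - Real.log (nm k₂)))) := by
  set H := k * (e * (M * Po581.sq3)) ^ 2 with hH
  have n1 := nmpos hf.ne_zero
  have n2 := nmpos h₁.ne_zero
  have n3 := nmpos h₂.ne_zero
  unfold FmH
  rw [fC_mode l t κ h.q0 h₁.ne_zero h₂.ne_zero he hf.ne_zero hk]
  have e1 : (G (f * k₁) * conj (G (f * k₂))) * Vp H (f * k₁) (f * k₂) =
      Gh H (f * k₁) * conj (Gh H (f * k₂)) := by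
    unfold Vp Gh
    rw [map_mul, Complex.conj_conj]; ring
  have e2 : Gh H (f * k₁) * conj (Gh H (f * k₂)) =
      (Gh H f * conj (Gh H f)) * (Gh (Hf M e k f) k₁ * conj (Gh (Hf M e k f) k₂)) := by
    rw [Gh_mul hf h₁, Gh_mul hf h₂, map_mul]
    have e9 : Hf M e k f = H * f := rfl
    rw [e9]; ring
  have e3 : (Real.sqrt (nm (f * k₁) * nm (f * k₂)))⁻¹ =
      (nm f : ℝ)⁻¹ * (Real.sqrt (nm k₁ * nm k₂))⁻¹ := by
    rw [nm_mul, nm_mul]
    push_cast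
    have : (nm f : ℝ) * nm k₁ * (nm f * nm k₂) = (nm f * nm f) * (nm k₁ * nm k₂) := by ring
    rw [this, Real.sqrt_mul (by positivity), Real.sqrt_mul_self n1.le, mul_inv]
  rw [e3, h.char.mul _ _ hf h₁, h.char.mul _ _ hf h₂]
  unfold ps
  push_cast
  linear_combination ((nm f : ℂ)⁻¹ * ((Real.sqrt (nm k₁ * nm k₂) : ℝ) : ℂ)⁻¹ *
    (χ f * χ k₁ * (χ f * χ k₂)) * DM M χ k * cexp (κ : ℂ) *
    (phk l M κ k * ang l (f * f * e) * (ang l k₁ * ang l k₂)) *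
    rad (gt w l t) (xh M (Real.exp κ) k e f - Real.log (nm k₁) - Real.log (nm k₂))) *
      (e1.trans e2)

/-- one mode as a sum over `f` of bilinear forms -/
lemma modeH_eq {w : ℝ → ℂ} {M : Eis} {χ : Eis → ℂ} (hχ : HC M χ) (l : ℤ) (κ t : ℝ) {Y : ℝ}
    (hY : 0 ≤ Y) {u v : Eis → ℂ} (hu : ∀ n, u n ≠ 0 → n ∈ S Y) (hv : ∀ n, v n ≠ 0 → n ∈ S Y)
    {d e k : Eis} (hd : d ∈ S Y) (he : e ≠ 0) (hk : k ≠ 0) :
    cpS Y u v d (FmH w M χ l κ t e k) = ∑ f ∈ S Y, (mu f : ℂ) *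
      (((Real.exp κ : ℂ) * (nm f : ℂ)⁻¹ * (χ f * χ f) * DM M χ k * (phk l M κ k *
        ang l (f * f * e)) * (Gh (k * (e * (M * Po581.sq3)) ^ 2) f *
          conj (Gh (k * (e * (M * Po581.sq3)) ^ 2) f))) *
      bilc Y (rs u (ps χ l) d f) (rs v (fun m => conj (ps χ l m)) d f) (Hf M e k f)
        (rad (gt w l t)) (xh M (Real.exp κ) k e f)) := by
  rw [cpS_moebius hY (fun k hk => by by_contra h; exact hk (hu k h))
    (fun k hk => by by_contra h; exact hk (hv k h)) hd]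
  refine Finset.sum_congr rfl fun f hf => ?_
  congr 1
  unfold bilc
  rw [Finset.mul_sum]
  refine Finset.sum_congr rfl fun k₁ h₁ => ?_
  rw [Finset.mul_sum]
  refine Finset.sum_congr rfl fun k₂ h₂ => ?_
  rw [FmH_mul hχ l κ t he hk ((mem_S hY).1 hf).2.1 ((mem_S hY).1 h₁).2.1 ((mem_S hY).1 h₂).2.1]
  unfold rs
  rw [map_mul, Complex.conj_conj]
  ring

/-- **bound of one mode** -/
theorem norm_modeH_le {w : ℝ → ℂ} {l : ℤ} {t R : ℝ} {A B : ℕ} {C : ℝ}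
    (hk : KTc (rad (gt w l t)) R A B C) (hA : 1 < A) :
    ∀ (M : Eis) (χ : Eis → ℂ), HC M χ → ∀ (κ : ℝ), ∀ (Y : ℝ), 0 ≤ Y →
      ∀ (u v : Eis → ℂ), (∀ n, u n ≠ 0 → n ∈ S Y) → (∀ n, v n ≠ 0 → n ∈ S Y) →
      ∀ (N₁ N₂ : ℝ), 0 < N₁ → 0 < N₂ → Win u (Real.log N₁) R → Win v (Real.log N₂) R →
      ∀ d ∈ S Y, ∀ e ∈ pdiv d, ∀ k : Eis, k ≠ 0 →
      ‖cpS Y u v d (FmH w M χ l κ t e k)‖ ≤
        C * Real.exp κ * (nm M / Real.sqrt (N₁ * N₂)) * nm d *
        (WB M (Real.exp κ) N₁ N₂ B d e k * ∑ f ∈ S Y, EE A (rs u (ps χ l) d f)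
          (rs v (fun m => conj (ps χ l m)) d f) (Hf M e k f)) := by
  have hC := hk.1
  have hb := norm_bilc_le hk hA
  intro M χ hχ κ Y hY u v hu hv N₁ N₂ hN₁ hN₂ hwu hwv d hd e he k hk0
  have hK := Real.exp_pos κ
  have hd' := (mem_S hY).1 hd
  have hd0 := hd'.2.1.ne_zero
  have he' := ((mem_pdiv hd0).mp he).1
  rw [modeH_eq hχ l κ t hY hu hv hd he'.ne_zero hk0]
  refine (norm_sum_le _ _).trans ?_
  rw [Finset.mul_sum, Finset.mul_sum]
  refine Finset.sum_le_sum fun f hf => ?_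
  have hf' := (mem_S hY).1 hf
  have hf0 := hf'.2.1.ne_zero
  have nf := nmpos hf0
  have nd := nmpos hd0
  have nM := nmpos hχ.q0
  set H := k * (e * (M * Po581.sq3)) ^ 2 with hH
  have b1 := hb Y hY (rs u (ps χ l) d f) (rs v (fun m => conj (ps χ l m)) d f)
    (rs_supp hY hu _ hd'.2.1 hf'.2.1) (rs_supp hY hv _ hd'.2.1 hf'.2.1)
    (Real.log N₁ - Real.log (nm d) - Real.log (nm f))
    (Real.log N₂ - Real.log (nm d) - Real.log (nm f))
    (rs_win hY hu _ hd0 hf0 hwu) (rs_win hY hv _ hd0 hf0 hwv) (Hf M e k f)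
    (xh M (Real.exp κ) k e f)
  rw [WB_eq hχ.q0 hK hN₁ hN₂ B hd0 he'.ne_zero hk0] at b1
  have e1 : Real.exp (-(Real.log N₁ - Real.log (nm d) - Real.log (nm f) +
      (Real.log N₂ - Real.log (nm d) - Real.log (nm f))) / 2) =
      (nm d * nm f) / Real.sqrt (N₁ * N₂) := by
    have : -(Real.log N₁ - Real.log (nm d) - Real.log (nm f) +
      (Real.log N₂ - Real.log (nm d) - Real.log (nm f))) / 2 =
      (Real.log (nm d) + Real.log (nm f)) - (Real.log N₁ + Real.log N₂) / 2 := by ring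
    rw [this, Real.exp_sub, Real.exp_add, Real.exp_log nd, Real.exp_log nf]
    congr 1
    rw [← Real.log_mul hN₁.ne' hN₂.ne', Real.sqrt_eq_rpow, Real.rpow_def_of_pos (by positivity)]
    congr 1; ring
  rw [e1] at b1
  have hWB := WB_nonneg (M := M) hK.le hN₁.le hN₂.le B d e k
  have hEE := EE_nonneg A (rs u (ps χ l) d f) (rs v (fun m => conj (ps χ l m)) d f) (Hf M e k f)
  have hG : ‖Gh H f‖ ≤ 1 := norm_Gh_le' hf'.2.1
  have hmu : ‖(mu f : ℂ)‖ ≤ 1 := by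
    rw [show (mu f : ℂ) = ((mu f : ℝ) : ℂ) by push_cast; rfl, Complex.norm_real, Real.norm_eq_abs]
    exact_mod_cast abs_mu_le_one f
  have hpre : ‖(Real.exp κ : ℂ) * (nm f : ℂ)⁻¹ * (χ f * χ f) * DM M χ k * (phk l M κ k *
        ang l (f * f * e)) * (Gh H f * conj (Gh H f))‖ ≤
      Real.exp κ * ((nm f : ℝ)⁻¹ * nm M) := by
    have e2 : ‖(nm f : ℂ)‖ = nm f := by
      rw [show (nm f : ℂ) = ((nm f : ℝ) : ℂ) by push_cast; rfl, Complex.norm_real,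
        Real.norm_of_nonneg nf.le]
    have e3 : ‖(Real.exp κ : ℂ)‖ = Real.exp κ := by
      rw [Complex.norm_real, Real.norm_of_nonneg hK.le]
    have h1 : ‖χ f * χ f‖ ≤ 1 := by
      rw [norm_mul]
      exact mul_le_one₀ (hχ.char.norm_le hf'.2.1) (norm_nonneg _) (hχ.char.norm_le hf'.2.1)
    have h3 : ‖phk l M κ k * ang l (f * f * e)‖ ≤ 1 := by
      rw [norm_mul]
      exact mul_le_one₀ (norm_phk_le l M κ k) (norm_nonneg _) (norm_ang_le l _)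
    have h2 : ‖Gh H f * conj (Gh H f)‖ ≤ 1 := by
      rw [norm_mul, RCLike.norm_conj]
      exact mul_le_one₀ hG (norm_nonneg _) hG
    rw [norm_mul, norm_mul, norm_mul, norm_mul, norm_mul, norm_inv, e2, e3]
    calc Real.exp κ * (nm f : ℝ)⁻¹ * ‖χ f * χ f‖ * ‖DM M χ k‖ * ‖phk l M κ k * ang l (f * f * e)‖ *
        ‖Gh H f * conj (Gh H f)‖ ≤ Real.exp κ * (nm f : ℝ)⁻¹ * 1 * nm M * 1 * 1 := by
          gcongr
          exact norm_DM_le hχ k
      _ = _ := by ring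
  rw [norm_mul, norm_mul]
  calc ‖(mu f : ℂ)‖ * (‖(Real.exp κ : ℂ) * (nm f : ℂ)⁻¹ * (χ f * χ f) * DM M χ k * (phk l M κ k *
        ang l (f * f * e)) * (Gh H f * conj (Gh H f))‖ *
        ‖bilc Y (rs u (ps χ l) d f) (rs v (fun m => conj (ps χ l m)) d f) (Hf M e k f)
          (rad (gt w l t)) (xh M (Real.exp κ) k e f)‖)
      ≤ 1 * ((Real.exp κ * ((nm f : ℝ)⁻¹ * nm M)) *
          (C * ((nm d * nm f) / Real.sqrt (N₁ * N₂)) *
          WB M (Real.exp κ) N₁ N₂ B d e k * EE A (rs u (ps χ l) d f)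
            (rs v (fun m => conj (ps χ l m)) d f) (Hf M e k f))) := by
        refine mul_le_mul hmu ?_ (by positivity) zero_le_one
        exact mul_le_mul hpre b1 (norm_nonneg _) (by positivity)
    _ = _ := by
        field_simp

end Crest.Agent.R017.BDh681
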