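import Crest.Agent.R017.BDh2_681

/-!
# Row 17, block C70, leaf E4, x-side (helper681): bilinear duality with a Hecke character (3)

`BDh` : the bilinear dual bound for the twist `χ · ang l`, `HC M χ`, and the height `t`.
-/

set_option autoImplicit false

noncomputable section

open Complex MeasureTheory
open scoped SchwartzMap ContDiff ComplexConjugate Classical

namespace Crest.Agent.R017.BDh681

open Crest.Agent.R012 Crest.Agent.R012.Eis Crest.Agent.R012.Gauss880 Crest.Agent.R012.Po581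
open Crest.Agent.R012.Weight600 (osc norm_osc osc_add_right osc_neg_left continuous_osc_left pw)
open Crest.Agent.R012.LS2 (S mem_S)
open Crest.Agent.R012.Mob705 (mu pdiv mem_pdiv mu_mul abs_mu_le_one)
open Crest.Agent.R017.FE47 Crest.Agent.R017.End699 Crest.Agent.R017.BL4858
open Crest.Agent.R017.E1551 (nmpos Vp Vp_mul norm_Vp_le CS_fin jb jb_pos integrable_jb
  integrable_jb_mul G_one551 nm_ge_one)
open Crest.Agent.R017.CM106 (CS)
open Crest.Agent.R017.PX764 (cpS cpS_congr cpS_smul cpS_sum cpS_moebius sum_eq_cpS Gh Gh_mul)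
open Crest.Agent.R017.BD829 (bB TT EE EE_nonneg EE_le integrable_EE Win rs rs_supp rs_win Hf xh
  WB WB_eq WB_nonneg norm_Gh_le' cpS_tsum2 summable_WB ModeS)

/-! ### the zero mode -/

lemma ang_one (l : ℤ) : ang l (1 : Eis) = 1 := by
  unfold ang
  simp

lemma zero_modeH {w : ℝ → ℂ} {M : Eis} {χ : Eis → ℂ} (hχ : HC M χ) (l : ℤ) (κ t : ℝ) {Y : ℝ}
    (hY : 1 ≤ Y) (u v : Eis → ℂ) (d e : Eis) :
    cpS Y u v d (FmH w M χ l κ t e 0) = u d * conj (v d) * (DM M χ 0 *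
      fC (fX (gt w l t) (Real.exp κ)) 0) := by
  have hY0 : 0 ≤ Y := by linarith
  have h1S : (1 : Eis) ∈ S Y := (mem_S hY0).2 ⟨by rw [nm_one]; exact_mod_cast hY, isPrim_one,
    squarefree_one⟩
  have hz : ∀ k ∈ S Y, k ≠ 1 → sy 0 k = 0 := by
    intro k hk hne
    have hk' := (mem_S hY0).1 hk
    refine Tau671.sy_eq_zero hk'.2.1 fun h => hne ?_
    have hu : IsUnit k := isCoprime_zero_left.mp h
    exact hk'.2.1.eq_of_associated isPrim_one (associated_one_iff_isUnit.mpr hu)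
  have hF : ∀ k₁ k₂, FmH w M χ l κ t e 0 k₁ k₂ = (((Real.sqrt (nm k₁ * nm k₂))⁻¹ : ℝ) : ℂ) *
      (χ k₁ * χ k₂) * (G k₁ * conj (G k₂)) * (DM M χ 0 * Vp 0 k₁ k₂ *
        fC (fX (gt w l t) (Real.exp κ)) 0) := by
    intro k₁ k₂
    unfold FmH
    have : dl 0 / toC (M * (k₁ * k₂) * e) = 0 := by unfold dl; rw [map_zero]; simp
    rw [zero_mul, this]
  unfold cpS
  rw [Finset.sum_eq_single_of_mem 1 h1S, Finset.sum_eq_single_of_mem 1 h1S]
  · rw [if_pos isCoprime_one_left, mul_one, hF, hχ.char.one, G_one551]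
    unfold Vp
    rw [Sym645.sy_one_right, nm_one]
    simp
  · intro k₂ h₂ hne
    split_ifs
    · rw [hF]; unfold Vp; rw [hz k₂ h₂ hne]; simp
    · rfl
  · intro k₁ h₁ hne
    refine Finset.sum_eq_zero fun k₂ _ => ?_
    split_ifs
    · rw [hF]; unfold Vp; rw [hz k₁ h₁ hne]; simp
    · rfl

/-- for `l ≠ 0` the zero mode vanishes -/
lemma fC_zero {w : ℝ → ℂ} {l : ℤ} (hl : l ≠ 0) (κ t : ℝ) :
    fC (fX (gt w l t) (Real.exp κ)) 0 = 0 := by
  rw [fC_fX _ (Real.exp_pos κ), mul_zero]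
  obtain ⟨ζ, hζ, hζl⟩ : ∃ ζ : ℂ, ‖ζ‖ = 1 ∧ ζ ^ (-l) ≠ 1 := by
    refine ⟨cexp (I * ((1 : ℝ) : ℂ)), ?_, ?_⟩
    · rw [mul_comm]; exact Complex.norm_exp_ofReal_mul_I 1
    · rw [← Complex.exp_int_mul]
      intro h
      rw [Complex.exp_eq_one_iff] at h
      obtain ⟨n, hn⟩ := h
      have h2 : ((-l : ℤ) : ℂ) = n * (2 * Real.pi) := by
        have h3 : ((-l : ℤ) : ℂ) * (I * ((1 : ℝ) : ℂ)) = (n * (2 * Real.pi)) * I := by
          rw [hn]; ring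
        have h4 : (((-l : ℤ) : ℂ) - n * (2 * Real.pi)) * I = 0 := by
          rw [sub_mul, ← h3]; push_cast; ring
        rcases mul_eq_zero.mp h4 with h5 | h5
        · exact sub_eq_zero.mp h5
        · exact absurd h5 I_ne_zero
      have h3 : ((-l : ℤ) : ℝ) = n * (2 * Real.pi) := by exact_mod_cast h2
      have hn0 : n ≠ 0 := by
        rintro rfl
        rw [Int.cast_zero, zero_mul] at h3
        have : (-l : ℤ) = 0 := by exact_mod_cast h3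
        exact hl (by omega)
      have h4 : Real.pi = ((-l : ℤ) : ℝ) / (2 * n) := by
        have : (n : ℝ) ≠ 0 := by exact_mod_cast hn0
        rw [h3]; field_simp
      refine irrational_pi ⟨(-l : ℤ) / (2 * n), ?_⟩
      rw [h4]; push_cast; ring
  have h1 := fC_rot (fun ζ hζ z => gt_rot w l t hζ z) hζ 0
  rw [mul_zero] at h1
  have h2 : (ζ ^ (-l) - 1) * fC (gt w l t) 0 = 0 := by
    rw [sub_mul, one_mul, ← h1, sub_self]
  rcases mul_eq_zero.mp h2 with h3 | h3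
  · exact absurd (sub_eq_zero.mp h3) hζl
  · rw [h3, mul_zero]

/-! ### summability -/

lemma summable_ModeS' {A B : ℕ} (hA : 1 < A) (hB : 1 < B) {M : Eis} {ψ : Eis → ℂ} (hM : M ≠ 0)
    {K N₁ N₂ Y : ℝ} (hK : 0 < K) (h₁ : 0 < N₁) (h₂ : 0 < N₂) (hY : 0 ≤ Y)
    {u v : Eis → ℂ} (hu : ∀ n, u n ≠ 0 → n ∈ S Y) (hv : ∀ n, v n ≠ 0 → n ∈ S Y) {d e : Eis}
    (hd : IsPrim d) (he : e ≠ 0) :
    Summable fun h : Eis => if h = 0 then 0 else WB M K N₁ N₂ B d e h *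
      ∑ f ∈ S Y, EE A (rs u ψ d f) (rs v (fun m => conj (ψ m)) d f) (Hf M e h f) := by
  have hA' : (1 : ℝ) < (A : ℝ) := by exact_mod_cast hA
  set D : ℝ := ∑ f ∈ S Y, (∫ t, jb A t) * ((∑ k ∈ S Y, ‖rs u ψ d f k‖) *
    ∑ k ∈ S Y, ‖rs v (fun m => conj (ψ m)) d f k‖) with hD
  have hD' : ∀ h, ∑ f ∈ S Y, EE A (rs u ψ d f) (rs v (fun m => conj (ψ m)) d f) (Hf M e h f) ≤ D :=
    fun h => Finset.sum_le_sum fun f hf => by
      have hf' := (mem_S hY).1 hf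
      exact EE_le hA' hY (rs_supp hY hu ψ hd hf'.2.1) (rs_supp hY hv _ hd hf'.2.1) _
  refine Summable.of_nonneg_of_le (fun h => ?_) (fun h => ?_)
    ((summable_WB hM hK h₁ h₂ hB hd.ne_zero he).mul_right D)
  · split_ifs
    · exact le_rfl
    · exact mul_nonneg (WB_nonneg hK.le h₁.le h₂.le B d e h)
        (Finset.sum_nonneg fun _ _ => EE_nonneg _ _ _ _)
  · split_ifs
    · rw [zero_mul]
    · exact mul_le_mul_of_nonneg_left (hD' h) (WB_nonneg hK.le h₁.le h₂.le B d e h)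

/-! ### the theorem -/

/-- **(BDh)** the bilinear dual bound with a Hecke character. -/
theorem BDh {w : ℝ → ℂ} (w1 : ContDiff ℝ ∞ w) (w2 : HasCompactSupport w) {l : ℤ} {t R : ℝ}
    {A B : ℕ} {C : ℝ} (hk : KTc (rad (gt w l t)) R A B C) (hA : 1 < A) (hB : 1 < B) :
    ∀ (M : Eis) (χ : Eis → ℂ), HC M χ → ∀ (κ : ℝ), ∀ (Y : ℝ), 1 ≤ Y →
      ∀ (u v : Eis → ℂ), (∀ n, u n ≠ 0 → n ∈ S Y) → (∀ n, v n ≠ 0 → n ∈ S Y) →
      (∀ n, u n ≠ 0 → IsCoprime n M) → (∀ n, v n ≠ 0 → IsCoprime n M) →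
      ∀ (N₁ N₂ : ℝ), 0 < N₁ → 0 < N₂ → Win u (Real.log N₁) R → Win v (Real.log N₂) R →
      ‖BSh w χ l κ t u v - osc t κ * ((2 / (Real.sqrt 3 * nm M) : ℝ) : ℂ) *
        (DM M χ 0 * fC (fX (gt w l t) (Real.exp κ)) 0) *
        ∑ d ∈ S Y, (∑ e ∈ pdiv d, (mu e : ℂ) * (nm e : ℂ)⁻¹ * χ e) * (u d * conj (v d))‖ ≤
      2 * C * (Real.exp κ / Real.sqrt (N₁ * N₂)) * ∑ d ∈ S Y, ∑ e ∈ pdiv d,
        (nm d / nm e : ℝ) * ModeS A B M (ps χ l) (Real.exp κ) N₁ N₂ Y u v d e := by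
  have hC := hk.1
  have hb := norm_modeH_le hk hA
  intro M χ hχ κ Y hY u v hu hv huM hvM N₁ N₂ hN₁ hN₂ hwu hwv
  have hY0 : 0 ≤ Y := by linarith
  have hK := Real.exp_pos κ
  have nM := nmpos hχ.q0
  have hs3 : 1 ≤ Real.sqrt 3 := by
    rw [show (1 : ℝ) = Real.sqrt 1 by simp]; exact Real.sqrt_le_sqrt (by norm_num)
  set c0 : ℂ := osc t κ * ((2 / (Real.sqrt 3 * nm M) : ℝ) : ℂ) with hc0
  set z0 : ℂ := DM M χ 0 * fC (fX (gt w l t) (Real.exp κ)) 0 with hz0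
  -- the block `d`
  have hblock : ∀ d ∈ S Y, cpS Y u v d (fun k₁ k₂ => PkH w χ l κ t (d * k₁) (d * k₂)) =
      c0 * ∑ e ∈ pdiv d, (mu e : ℂ) * (nm e : ℂ)⁻¹ * χ e *
        ∑' h : Eis, cpS Y u v d (FmH w M χ l κ t e h) := by
    intro d hd
    have hd' := (mem_S hY0).1 hd
    have e1 : cpS Y u v d (fun k₁ k₂ => PkH w χ l κ t (d * k₁) (d * k₂)) =
        cpS Y u v d (fun k₁ k₂ => c0 *
          ∑ e ∈ pdiv d, (mu e : ℂ) * (nm e : ℂ)⁻¹ * χ e * ∑' h : Eis,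
            FmH w M χ l κ t e h k₁ k₂) := by
      refine cpS_congr fun k₁ k₂ h₁ h₂ hc hα hβ => ?_
      have h₁' := (mem_S hY0).1 h₁
      have h₂' := (mem_S hY0).1 h₂
      exact PkH_eq w1 w2 hχ l κ t hd'.2.1 h₁'.2.1 h₂'.2.1 h₁'.2.2 h₂'.2.2 hc
        (IsCoprime.of_mul_left_right (huM _ hα)) (IsCoprime.of_mul_left_right (hvM _ hβ))
    rw [e1, cpS_smul, cpS_sum]
    congr 1
    refine Finset.sum_congr rfl fun e he => ?_
    rw [cpS_smul]
    congr 1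
    have he0 := ((mem_pdiv hd'.2.1.ne_zero).mp he).1.ne_zero
    exact (cpS_tsum2 u v d (fun h k₁ k₂ => FmH w M χ l κ t e h k₁ k₂) (fun k₁ k₂ h₁ h₂ _ =>
      summable_FmH w1 w2 hχ l κ t he0 ((mem_S hY0).1 h₁).2.1 ((mem_S hY0).1 h₂).2.1)).2
  -- one `e`
  have hone : ∀ d ∈ S Y, ∀ e ∈ pdiv d, ‖∑' h : Eis, cpS Y u v d (FmH w M χ l κ t e h) -
      u d * conj (v d) * z0‖ ≤
      C * Real.exp κ * (nm M / Real.sqrt (N₁ * N₂)) * nm d *
        ModeS A B M (ps χ l) (Real.exp κ) N₁ N₂ Y u v d e := by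
    intro d hd e he
    have hd' := (mem_S hY0).1 hd
    have he0 := ((mem_pdiv hd'.2.1.ne_zero).mp he).1.ne_zero
    have hsum : Summable fun h => cpS Y u v d (FmH w M χ l κ t e h) :=
      (cpS_tsum2 u v d (fun h k₁ k₂ => FmH w M χ l κ t e h k₁ k₂) (fun k₁ k₂ h₁ h₂ _ =>
      summable_FmH w1 w2 hχ l κ t he0 ((mem_S hY0).1 h₁).2.1 ((mem_S hY0).1 h₂).2.1)).1
    rw [hsum.tsum_eq_add_tsum_ite 0, zero_modeH hχ l κ t hY]
    rw [add_sub_cancel_left]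
    have hS := summable_ModeS' hA hB (ψ := ps χ l) hχ.q0 hK hN₁ hN₂ hY0 hu hv hd'.2.1 he0
    have hS' := (hS.mul_left (C * Real.exp κ * (nm M / Real.sqrt (N₁ * N₂)) * nm d)).hasSum
    unfold ModeS
    rw [← tsum_mul_left]
    refine tsum_of_norm_bounded hS' fun h => ?_
    split_ifs with h0
    · rw [norm_zero, mul_zero]
    · exact hb M χ hχ κ Y hY0 u v hu hv N₁ N₂ hN₁ hN₂ hwu hwv d hd e he h h0
  have h0 : ∀ k, k ∉ S Y → u k = 0 := fun k hk => by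
    by_contra h; exact hk (hu k h)
  have h0' : ∀ k, k ∉ S Y → v k = 0 := fun k hk => by
    by_contra h; exact hk (hv k h)
  rw [BSh_eq w1 w2 hχ l κ t hY0 hu hv, sum_eq_cpS hY0 h0 h0', Finset.sum_congr rfl hblock,
    Finset.mul_sum, ← Finset.sum_sub_distrib, Finset.mul_sum]
  refine (norm_sum_le _ _).trans (Finset.sum_le_sum fun d hd => ?_)
  have hd' := (mem_S hY0).1 hd
  have e3 : c0 * ∑ e ∈ pdiv d, (mu e : ℂ) * (nm e : ℂ)⁻¹ *
        χ e * ∑' h : Eis, cpS Y u v d (FmH w M χ l κ t e h) -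
      c0 * z0 *
        ((∑ e ∈ pdiv d, (mu e : ℂ) * (nm e : ℂ)⁻¹ * χ e) * (u d * conj (v d))) =
      c0 * ∑ e ∈ pdiv d, (mu e : ℂ) * (nm e : ℂ)⁻¹ *
        χ e * (∑' h : Eis, cpS Y u v d (FmH w M χ l κ t e h) -
          u d * conj (v d) * z0) := by
    simp_rw [mul_sub]
    rw [Finset.sum_sub_distrib, mul_sub, ← Finset.sum_mul]
    ring
  rw [e3, norm_mul]
  have hc0n : ‖c0‖ = 2 / (Real.sqrt 3 * nm M) := by
    rw [hc0, norm_mul, norm_osc, one_mul, Complex.norm_real, Real.norm_of_nonneg (by positivity)]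
  rw [hc0n]
  have e4 : ‖∑ e ∈ pdiv d, (mu e : ℂ) * (nm e : ℂ)⁻¹ * χ e *
      (∑' h : Eis, cpS Y u v d (FmH w M χ l κ t e h) - u d * conj (v d) * z0)‖ ≤
      ∑ e ∈ pdiv d, (nm e : ℝ)⁻¹ * (C * Real.exp κ * (nm M / Real.sqrt (N₁ * N₂)) * nm d *
        ModeS A B M (ps χ l) (Real.exp κ) N₁ N₂ Y u v d e) := by
    refine (norm_sum_le _ _).trans (Finset.sum_le_sum fun e he => ?_)
    have he' := ((mem_pdiv hd'.2.1.ne_zero).mp he).1
    have ne := nmpos he'.ne_zero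
    rw [norm_mul, norm_mul, norm_mul, norm_inv]
    have e2 : ‖(nm e : ℂ)‖ = nm e := by
      rw [show (nm e : ℂ) = ((nm e : ℝ) : ℂ) by push_cast; rfl, Complex.norm_real,
        Real.norm_of_nonneg ne.le]
    have hmu : ‖(mu e : ℂ)‖ ≤ 1 := by
      rw [show (mu e : ℂ) = ((mu e : ℝ) : ℂ) by push_cast; rfl, Complex.norm_real, Real.norm_eq_abs]
      exact_mod_cast abs_mu_le_one e
    rw [e2]
    refine mul_le_mul ?_ (hone d hd e he) (norm_nonneg _) (by positivity)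
    calc ‖(mu e : ℂ)‖ * (nm e : ℝ)⁻¹ * ‖χ e‖ ≤ 1 * (nm e : ℝ)⁻¹ * 1 := by
          gcongr
          exact hχ.char.norm_le he'
      _ = _ := by ring
  refine (mul_le_mul_of_nonneg_left e4 (by positivity)).trans ?_
  rw [Finset.mul_sum, Finset.mul_sum]
  refine Finset.sum_le_sum fun e he => ?_
  have he' := ((mem_pdiv hd'.2.1.ne_zero).mp he).1
  have ne := nmpos he'.ne_zero
  have hMS : 0 ≤ ModeS A B M (ps χ l) (Real.exp κ) N₁ N₂ Y u v d e := by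
    unfold ModeS
    refine tsum_nonneg fun h => ?_
    split_ifs
    · exact le_rfl
    · exact mul_nonneg (WB_nonneg hK.le hN₁.le hN₂.le B d e h)
        (Finset.sum_nonneg fun _ _ => EE_nonneg _ _ _ _)
  have hs : 0 < Real.sqrt (N₁ * N₂) := Real.sqrt_pos.mpr (by positivity)
  have nd := nmpos hd'.2.1.ne_zero
  have e5 : 2 / (Real.sqrt 3 * nm M) * ((nm e : ℝ)⁻¹ * (C * Real.exp κ *
      (nm M / Real.sqrt (N₁ * N₂)) * nm d * ModeS A B M (ps χ l) (Real.exp κ) N₁ N₂ Y u v d e)) =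
      (Real.sqrt 3)⁻¹ * (2 * C * (Real.exp κ / Real.sqrt (N₁ * N₂)) * ((nm d / nm e : ℝ) *
        ModeS A B M (ps χ l) (Real.exp κ) N₁ N₂ Y u v d e)) := by
    field_simp
  rw [e5]
  refine mul_le_of_le_one_left ?_ (inv_le_one_of_one_le₀ hs3)
  have : (0 : ℝ) ≤ nm d / nm e := by positivity
  positivity

end Crest.Agent.R017.BDh681
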