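import Crest.Agent.R017.BEndA_699

/-!
# Row 17, section B, leaf L8 (END), part B: from the bound for `SQ` to nonvanishing; moduli
-/

set_option autoImplicit false

noncomputable section

open MeasureTheory Complex Set
open scoped ComplexConjugate ContDiff

namespace Crest.Agent.R017.BEndA699

open Crest.Agent.R012 Crest.Agent.R012.Eis Crest.Agent.R012.Mob705 Crest.Agent.R012.Gauss880
open Crest.Agent.R012.PSer47
open Crest.Agent.R017.End699 Crest.Agent.R017.Sx440 Crest.Agent.R017.Sx545 Crest.Agent.R017.B770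

/-! ### from pointwise nonvanishing to the family condition -/

theorem pf_of_pointwise {θ δ : ℝ} (hδ : 1 / 2 ≤ θ - δ) (hPF : PF Set.univ θ)
    (hstep : ∀ (l : ℤ) (q : Eis) (χ : Eis → ℂ), l ≠ -1 → HC q χ → ∀ ρ : ℂ, θ - δ < ρ.re →
      ρ.re ≤ θ → (NP q χ l ∨ ρ ≠ 1) →
      ∃ q', q' ≠ 0 ∧ q ∣ q' ∧ LH q' (fun b => χ b * prin0 q' b) l ρ ≠ 0) :
    PF Set.univ (θ - δ) := by
  -- first the frequencies different from `-1`
  have key : ∀ (l : ℤ) (q : Eis) (χ : Eis → ℂ), l ≠ -1 → HC q χ → ∀ ρ : ℂ, θ - δ < ρ.re →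
      (NP q χ l ∨ ρ ≠ 1) → LH q χ l ρ ≠ 0 := by
    intro l q χ hl h ρ hρ h1
    rcases lt_or_ge θ ρ.re with h2 | h2
    · exact hPF l (Set.mem_univ l) q χ h ρ h2 h1
    · obtain ⟨q', h3, h4, h5⟩ := hstep l q χ hl h ρ hρ h2 h1
      exact LH_ne_zero_of_changeMod h h3 h4 l (by linarith) h1 h5
  intro l _ q χ h z hz h1
  by_cases hl : l = -1
  · have h1' : NP q (cj χ) (-l) ∨ conj z ≠ 1 := by
      rcases h1 with h1 | h1
      · exact Or.inl h1.cj
      · right
        intro h2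
        apply h1
        have := congrArg conj h2
        rwa [Complex.conj_conj, map_one] at this
    have h6 := key (-l) q (cj χ) (by rw [hl]; decide) h.cj (conj z)
      (by rw [Complex.conj_re]; exact hz) h1'
    exact LH_ne_zero_of_conj h l (by linarith) h1 h6
  · exact key l q χ hl h z hz h1

/-! ### weights -/

lemma sw_bd {V : ℝ → ℂ} (h : SW V) : ∃ B : ℝ, 0 ≤ B ∧ ∀ y, ‖V y‖ ≤ B := by
  obtain ⟨B, hB⟩ := h.smooth.continuous.bounded_above_of_compact_support h.cpt
  exact ⟨B, (norm_nonneg _).trans (hB 0), hB⟩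

/-- a weight in `SW` vanishes outside a compact interval of `(0, ∞)` -/
lemma sw_supp {V : ℝ → ℂ} (h : SW V) : ∃ a b : ℝ, 0 < a ∧ a < b ∧
    ∀ y, V y ≠ 0 → a < y ∧ y < b := by
  by_cases hne : (tsupport V).Nonempty
  · have hc : IsCompact (tsupport V) := h.cpt
    obtain ⟨m, hm, hm'⟩ := hc.exists_isLeast hne
    obtain ⟨M, hM, hM'⟩ := hc.exists_isGreatest hne
    have hm0 : 0 < m := h.supp hm
    have hmM : m ≤ M := hm' hM
    refine ⟨m / 2, M + 1, by linarith, by linarith, fun y hy => ?_⟩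
    have hy' : y ∈ tsupport V := subset_tsupport _ hy
    have h1 := hm' hy'
    have h2 := hM' hy'
    constructor <;> linarith
  · refine ⟨1, 2, by norm_num, by norm_num, fun y hy => ?_⟩
    exact absurd ⟨y, subset_tsupport _ hy⟩ hne

lemma sw_rw {V : ℝ → ℂ} (h : SW V) : RW V := by
  obtain ⟨B, hB0, hB⟩ := sw_bd h
  obtain ⟨a, b, ha, hab, hs⟩ := sw_supp h
  have hWt : Wt V B b := ⟨h.smooth.continuous.measurable, hB, fun y hy => by
    by_contra hne
    linarith [(hs y hne).2], by linarith⟩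
  exact hWt.rw

/-! ### nonvanishing from the bound for `SQ` -/

lemma SQ_eq {V : ℝ → ℂ} (hV : RW V) {e : Eis → ℂ} {σ₁ : ℝ} (he : AC e σ₁) {M : Eis}
    {ψ : Eis → ℂ} (h : HC M ψ) (l : ℤ) {Q : ℝ} (hQ : 0 < Q) :
    SQ e V ψ l Q = Msum (LSeries.convolution (push e) (push (gb ψ l 0))) V Q := by
  have hg : AC (gb ψ l 0) 2 := h.ac_gb l (by norm_num)
  rw [Msum_conv_eq hV he hg hQ]
  rfl

/-- the norm of a natural number, with `0` replaced by `1` -/
def nn' (n : ℕ) : ℝ := if n = 0 then 1 else n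

lemma one_le_nn' (n : ℕ) : 1 ≤ nn' n := by
  unfold nn'
  split_ifs with h
  · exact le_rfl
  · exact_mod_cast Nat.pos_of_ne_zero h

/-- **nonvanishing from the bound for the smoothed sums** -/
theorem LH_ne_zero_of_SQ {M : Eis} {ψ : Eis → ℂ} {l : ℤ} (h : HC M ψ) {V : ℝ → ℂ} (hV : RW V)
    {e : Eis → ℂ} (he : AC e (5 / 6)) (hdom : Dom e) {n : ℕ} {c : Fin n → ℂ} {q : Fin n → ℝ}
    (hq : ∀ i, 1 ≤ q i) (hnz : ∀ s : ℂ, 5 / 6 < s.re → ∑ i, c i * (q i : ℂ) ^ (1 / 6 - s) ≠ 0)
    {θ C Q₁ : ℝ} (hθ : 5 / 6 ≤ θ)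
    (hb : ∀ Q : ℝ, Q₁ ≤ Q →
      ‖∑ i, c i * ((q i ^ (1 / 6 : ℝ) : ℝ) : ℂ) * SQ e V ψ l (Q / q i)‖ ≤ C * Q ^ θ)
    {ρ : ℂ} (hρ : θ < ρ.re) (h1 : NP M ψ l ∨ ρ ≠ 1) (hm : mellin V ρ ≠ 0) :
    LH M ψ l ρ ≠ 0 := by
  set a : ℕ → ℂ := LSeries.convolution (push e) (push (gb ψ l 0)) with ha
  have ha0 : a 0 = 0 := LSeries.convolution_map_zero _ _
  have hae : ∀ s : ℂ, 5 / 6 ≤ s.re → LSeriesSummable (push e) s := fun s hs =>
    he.summable_push hs
  have hag : ∀ s : ℂ, 1 < s.re → LSeriesSummable (push (gb ψ l 0)) s := fun s hs =>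
    (h.ac_gb l (α := 0) (σ := s.re) (by linarith)).summable_push le_rfl
  have has : ∀ s : ℂ, 1 < s.re → LSeriesSummable a s := fun s hs =>
    (hae s (by linarith)).convolution (hag s hs)
  have hinv : ∀ s : ℂ, 1 < s.re → LSeries a s * LH M ψ l s = LSeries (push e) s := by
    intro s hs
    rw [ha, LSeries_convolution' (hae s (by linarith)) (hag s hs), LSeries_gb, mul_assoc]
    have e1 : s + ((0 : ℝ) : ℂ) = s := by simp
    rw [e1, h.LSeries_mu_mul_LH l hs, mul_one]
  -- the family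
  set cc' : Fin n × ℕ → ℂ := fun k => c k.1 * ((q k.1 ^ (1 / 6 : ℝ) : ℝ) : ℂ) * a k.2 with hcc
  set ν : Fin n × ℕ → ℝ := fun k => q k.1 * nn' k.2 with hν
  have hq0 : ∀ i, 0 < q i := fun i => by linarith [hq i]
  have hν1 : ∀ k, (1 : ℝ) ≤ ν k := by
    intro k
    have h2 := hq k.1
    have h3 := one_le_nn' k.2
    simp only [hν]
    nlinarith
  have hterm : ∀ s : ℂ, ∀ m : ℕ, a m * (nn' m : ℂ) ^ (-s) = LSeries.term a s m := by
    intro s m
    rcases eq_or_ne m 0 with rfl | hm0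
    · rw [ha0]; simp
    · rw [LSeries.term_of_ne_zero hm0]
      unfold nn'
      rw [if_neg hm0, Complex.cpow_neg, div_eq_mul_inv]
      push_cast; rfl
  have hFC : FC cc' ν 2 := by
    have h2 : Summable fun m : ℕ => ‖a m‖ * nn' m ^ (-2 : ℝ) := by
      refine ((has 2 (by norm_num)).norm).congr fun m => ?_
      rw [← hterm 2 m, norm_mul]
      congr 1
      rw [norm_cpow_neg (by linarith [one_le_nn' m])]
      norm_num
    have h3 : Summable fun k : Fin n × ℕ =>
        (‖c k.1‖ * q k.1 ^ (1 / 6 : ℝ) * q k.1 ^ (-2 : ℝ)) * (‖a k.2‖ * nn' k.2 ^ (-2 : ℝ)) := by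
      refine Summable.mul_of_nonneg (f := fun i : Fin n => ‖c i‖ * q i ^ (1 / 6 : ℝ) *
        q i ^ (-2 : ℝ)) ?_ h2 (fun i => ?_) (fun m => ?_)
      · exact (hasSum_fintype _).summable
      · have := hq0 i; positivity
      · have := one_le_nn' m; positivity
    refine h3.congr fun k => ?_
    simp only [hcc, hν]
    have h4 := hq0 k.1
    have h5 := one_le_nn' k.2
    rw [norm_mul, norm_mul, Complex.norm_real, Real.norm_of_nonneg (by positivity),
      Real.mul_rpow h4.le (by linarith)]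
    ring
  have hFC2 : FC cc' ν ((2 : ℕ) : ℝ) := by
    have h2 : ((2 : ℕ) : ℝ) = 2 := by norm_num
    rw [h2]; exact hFC
  have hFL : ∀ s : ℂ, 2 < s.re → FL cc' ν s =
      (∑ i, c i * (q i : ℂ) ^ (1 / 6 - s)) * LSeries a s := by
    intro s hs
    have hFCs := hFC.mono one_pos hν1 hs.le
    have hsm : Summable fun k => cc' k * (ν k : ℂ) ^ (-s) := by
      apply Summable.of_norm
      refine hFCs.congr fun k => ?_
      rw [norm_mul (cc' k), norm_cpow_neg (by linarith [hν1 k])]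
    have hin : ∀ i, HasSum (fun m : ℕ => cc' (i, m) * (ν (i, m) : ℂ) ^ (-s))
        (c i * (q i : ℂ) ^ (1 / 6 - s) * LSeries a s) := by
      intro i
      have h4 := (has s (by linarith)).LSeriesHasSum.mul_left (c i * (q i : ℂ) ^ (1 / 6 - s))
      have h5 : (fun m : ℕ => cc' (i, m) * (ν (i, m) : ℂ) ^ (-s)) =
          fun m => c i * (q i : ℂ) ^ (1 / 6 - s) * LSeries.term a s m := by
        funext m
        rw [← hterm s m]
        simp only [hcc, hν]
        have h6 : ((q i * nn' m : ℝ) : ℂ) ^ (-s) = (q i : ℂ) ^ (-s) * (nn' m : ℂ) ^ (-s) := by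
          have h7 := Complex.mul_cpow_ofReal_nonneg (hq0 i).le
            (by linarith [one_le_nn' m] : (0 : ℝ) ≤ nn' m) (-s)
          push_cast at h7 ⊢
          exact h7
        have h8 : (q i : ℂ) ^ (1 / 6 - s) = ((q i ^ (1 / 6 : ℝ) : ℝ) : ℂ) * (q i : ℂ) ^ (-s) := by
          have h9 : (q i : ℂ) ≠ 0 := by exact_mod_cast (hq0 i).ne'
          rw [sub_eq_add_neg, Complex.cpow_add _ _ h9, Complex.ofReal_cpow (hq0 i).le]
          push_cast; rfl
        rw [h6, h8]; ring
      rw [h5]; exact h4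
    unfold FL
    rw [hsm.tsum_prod' (fun i => (hin i).summable), tsum_fintype, Finset.sum_mul]
    exact Finset.sum_congr rfl fun i _ => (hin i).tsum_eq
  -- the smoothed sums
  have hFs : ∀ Q : ℝ, 0 < Q → Fsum cc' ν V Q =
      ∑ i, c i * ((q i ^ (1 / 6 : ℝ) : ℝ) : ℂ) * SQ e V ψ l (Q / q i) := by
    intro Q hQ
    obtain ⟨C', hC'⟩ := Fsum_le hV (fun k => by linarith [hν1 k]) hFC2
    have hsm := (hC' Q hQ).1
    have hin : ∀ i, HasSum (fun m : ℕ => cc' (i, m) * V (ν (i, m) / Q))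
        (c i * ((q i ^ (1 / 6 : ℝ) : ℝ) : ℂ) * SQ e V ψ l (Q / q i)) := by
      intro i
      have hQi : 0 < Q / q i := div_pos hQ (hq0 i)
      obtain ⟨C'', hC''⟩ := Msum_le hV ha0 (N := 2) (has _ (by norm_num))
      have h4 := ((hC'' _ hQi).1.hasSum).mul_left (c i * ((q i ^ (1 / 6 : ℝ) : ℝ) : ℂ))
      have h5 : (fun m : ℕ => cc' (i, m) * V (ν (i, m) / Q)) =
          fun m : ℕ => c i * ((q i ^ (1 / 6 : ℝ) : ℝ) : ℂ) * (a m * V (m / (Q / q i))) := by
        funext m
        simp only [hcc, hν]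
        rcases eq_or_ne m 0 with rfl | hm0
        · rw [ha0]; ring
        · have h6 : q i * nn' m / Q = m / (Q / q i) := by
            unfold nn'
            rw [if_neg hm0]
            have := (hq0 i).ne'
            field_simp
          rw [h6]; ring
      rw [h5, SQ_eq hV he h l hQi]
      exact h4
    unfold Fsum
    rw [hsm.tsum_prod' (fun i => (hin i).summable), tsum_fintype]
    exact Finset.sum_congr rfl fun i _ => (hin i).tsum_eq
  -- the bound for all `Q ≥ 1`
  obtain ⟨C', hC'⟩ := Fsum_le hV (fun k => by linarith [hν1 k]) hFC2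
  have hbd : ∀ Q : ℝ, 1 ≤ Q → ‖Fsum cc' ν V Q‖ ≤ max C (|C'| * (|Q₁| + 1) ^ 2) * Q ^ θ := by
    intro Q hQ
    have hQθ : 1 ≤ Q ^ θ := Real.one_le_rpow hQ (by linarith)
    rcases le_or_gt Q₁ Q with h2 | h2
    · rw [hFs Q (by linarith)]
      refine (hb Q h2).trans ?_
      gcongr
      exact le_max_left _ _
    · refine (hC' Q (by linarith)).2.trans ?_
      have h3 : Q ≤ |Q₁| + 1 := by linarith [le_abs_self Q₁]
      calc C' * Q ^ 2 ≤ |C'| * (|Q₁| + 1) ^ 2 := by
            have := le_abs_self C'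
            gcongr
        _ ≤ max C (|C'| * (|Q₁| + 1) ^ 2) := le_max_right _ _
        _ ≤ max C (|C'| * (|Q₁| + 1) ^ 2) * Q ^ θ := by
            have : 0 ≤ max C (|C'| * (|Q₁| + 1) ^ 2) :=
              le_trans (by positivity) (le_max_right _ _)
            exact le_mul_of_one_le_right this hQθ
  -- analyticity of `E`
  set E : ℂ → ℂ := fun s => (∑ i, c i * (q i : ℂ) ^ (1 / 6 - s)) * LSeries (push e) s with hE
  have hEd : ∀ s : ℂ, θ < s.re → DifferentiableAt ℂ E s := by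
    intro s hs
    refine DifferentiableAt.mul ?_ ?_
    · apply DifferentiableAt.fun_sum
      intro i _
      have h9 : (q i : ℂ) ≠ 0 := by exact_mod_cast (hq0 i).ne'
      exact (differentiableAt_const _).mul
        (DifferentiableAt.const_cpow (by fun_prop) (Or.inl h9))
    · refine (LSeries_hasDerivAt ?_).differentiableAt
      refine lt_of_le_of_lt (b := (θ : EReal)) ?_ (by exact_mod_cast hs)
      apply LSeries.abscissaOfAbsConv_le_of_forall_lt_LSeriesSummable'
      intro y hy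
      exact hae y (by
        rw [Complex.ofReal_re]
        have : θ < y := by exact_mod_cast hy
        linarith)
  have hE0 : E ρ ≠ 0 := by
    refine mul_ne_zero (hnz ρ (by linarith)) ?_
    have h56 : (5 / 6 : ℝ) ≤ ρ.re := by linarith
    refine LSeries_push_ne_zero_of (he.mono h56) (lt_of_le_of_lt ?_ hdom)
    have hAC' : AC (fun b => if b = 1 then 0 else e b) (5 / 6) := by
      refine Summable.of_nonneg_of_le (fun b => by positivity) (fun b => ?_) he
      by_cases hb : IsPrim b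
      · rw [ip_of hb, ip_of hb]
        by_cases hb1 : b = 1
        · rw [if_pos hb1, norm_zero, zero_mul]; positivity
        · rw [if_neg hb1]
      · rw [ip_of_not hb, ip_of_not hb]
    refine Summable.tsum_le_tsum (fun b => ?_) (hAC'.mono h56) hAC'
    by_cases hb : IsPrim b
    · have : (1 : ℝ) ≤ nm b := by exact_mod_cast nm_pos.mpr hb.ne_zero
      gcongr
    · rw [ip_of_not hb]; simp
  have hinvF : ∀ s : ℂ, 2 < s.re → FL cc' ν s * LH M ψ l s = E s := by
    intro s hs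
    rw [hFL s hs, mul_assoc, hinv s (by linarith)]
  rcases h1 with h1 | h1
  · exact ne_zero_F' hV one_pos hν1 (L := LH M ψ l) (E := E) (by linarith)
      (fun s hs => h.differentiableAt_LH' l (h1.cc_eq_zero h) (by linarith)) hEd hFC
      (fun s hs _ => hinvF s hs) hbd hρ hE0 hm
  · exact ne_zero_F hV one_pos hν1 (L := LH M ψ l) (E := E) (by linarith) (p := 1)
      (fun s hs hs1 => h.differentiableAt_LH l (by linarith) hs1) (fun s hs _ => hEd s hs) hFC
      (fun s hs _ _ => hinvF s hs) hbd hρ h1 hE0 hm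

end Crest.Agent.R017.BEndA699
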