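import Crest.Agent.R017.BDefs3_770
import Crest.Agent.R017.BEndB_699

/-!
# Row 17, section B, leaf L8 (END) for the re-frozen interface `BDefs3_770` (helper699)

* `PropL5'` : the principal part of the primal form (868)
* `PropNPL3` : the nonprincipal part of the primal form
-/

set_option autoImplicit false

noncomputable section

open MeasureTheory Complex Set
open scoped ComplexConjugate ContDiff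

namespace Crest.Agent.R017.BEndA699

open Crest.Agent.R012 Crest.Agent.R012.Eis Crest.Agent.R012.Mob705 Crest.Agent.R012.Gauss880
open Crest.Agent.R017.End699 Crest.Agent.R017.Sx440 Crest.Agent.R017.Sx545 Crest.Agent.R017.B770
open Crest.Agent.R017.Asm986

/-- **L5** (868): the principal part of the primal form, `K = Q^{1/2+(y+δ)+d}`; the main term is
`κ K^{1/3} Q^δ Amp(1) SQ`. -/
def PropL5' (θ : ℝ) (r : ℕ) (y δ : ℝ) : Prop :=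
  ∃ (P₀ : ℕ) (d₁ : ℝ), 0 < d₁ ∧ ∀ d : ℝ, 0 < d → d ≤ d₁ → ∃ d₀ : ℝ, 0 < d₀ ∧
    ∀ (M m₀ : Eis), (36 : Eis) ∣ M → Rad0 M m₀ → (∀ p : Eis, Prime p → nm p ≤ P₀ → p ∣ M) →
    ∀ (ψ : Eis → ℂ) (l : ℤ), HC M ψ → l ≠ -1 → ∀ ξ : Eis → ℂ, (∀ e, ‖ξ e‖ ≤ 1) → ξ 1 = 1 →
    ∀ h₀ h : ℝ → ℂ, HW h₀ → HW h → NN h₀ → ∀ om : ℝ → ℂ, SW om → NN om →
    ∃ (e : Eis → ℂ) (κ : ℂ), κ ≠ 0 ∧ AC e (5 / 6) ∧ Dom e ∧
      ∀ V : ℝ → ℂ, SW V → ∀ q : ℝ, 1 ≤ q → ∃ C Q₁ : ℝ, ∀ Q : ℝ, Q₁ ≤ Q →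
        ‖LK3 h₀ h r y δ Q M m₀ ξ (tw ψ l) V om (Prn M) (Q ^ (1 / 2 + (y + δ) + d) / q) (Q / q) -
          κ * (((Q ^ (1 / 2 + (y + δ) + d) / q) ^ (1 / 3 : ℝ) : ℝ) : ℂ) * ((Q ^ δ : ℝ) : ℂ) *
            Amp h r y Q Finset.univ (fun _ => 1) * SQ e V ψ l (Q / q)‖ ≤
          C * (Q ^ (1 / 2 + (y + δ) + d)) ^ (1 / 3 : ℝ) * Q ^ ((y + δ) + θ - d₀)

/-- **NPL**: the nonprincipal part of the primal form, and convergence of the `k`-sums -/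
def PropNPL3 (θ : ℝ) (r : ℕ) (y δ : ℝ) : Prop :=
  ∃ d₁ : ℝ, 0 < d₁ ∧ ∀ d : ℝ, 0 < d → d ≤ d₁ → ∃ d₀ : ℝ, 0 < d₀ ∧
    ∀ (M m₀ : Eis), (36 : Eis) ∣ M → Rad0 M m₀ →
    ∀ (ψ : Eis → ℂ) (l : ℤ), HC M ψ → l ≠ -1 → ∀ ξ : Eis → ℂ, (∀ e, ‖ξ e‖ ≤ 1) →
    ∀ h₀ h : ℝ → ℂ, HW h₀ → HW h → ∀ om : ℝ → ℂ, SW om →
      ∀ V : ℝ → ℂ, SW V → ∀ q : ℝ, 1 ≤ q → ∃ C Q₁ : ℝ, ∀ Q : ℝ, Q₁ ≤ Q →
        LK3 h₀ h r y δ Q M m₀ ξ (tw ψ l) V om (fun _ => True) (Q ^ (1 / 2 + (y + δ) + d) / q)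
            (Q / q) =
          LK3 h₀ h r y δ Q M m₀ ξ (tw ψ l) V om (Prn M) (Q ^ (1 / 2 + (y + δ) + d) / q) (Q / q) +
          LK3 h₀ h r y δ Q M m₀ ξ (tw ψ l) V om (fun k => ¬ Prn M k)
            (Q ^ (1 / 2 + (y + δ) + d) / q) (Q / q) ∧
        ‖LK3 h₀ h r y δ Q M m₀ ξ (tw ψ l) V om (fun k => ¬ Prn M k)
            (Q ^ (1 / 2 + (y + δ) + d) / q) (Q / q)‖ ≤
          C * (Q ^ (1 / 2 + (y + δ) + d)) ^ (1 / 3 : ℝ) * Q ^ ((y + δ) + θ - d₀)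

end Crest.Agent.R017.BEndA699
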