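import Crest.Agent.R017.BEndC_699
import Crest.Agent.R017.BEndA3_699
import Crest.Agent.R017.PLow2_271

/-!
# Row 17, section B, end with the re-frozen interface (helper770, after BEndC_699)

* `stepB3_of` : the contraction step from its parts
-/

set_option autoImplicit false

noncomputable section

open MeasureTheory Complex Set
open scoped ComplexConjugate ContDiff

namespace Crest.Agent.R017.BEnd770

open Crest.Agent.R012 Crest.Agent.R012.Eis Crest.Agent.R012.Mob705 Crest.Agent.R012.Gauss880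
open Crest.Agent.R012.PSer47
open Crest.Agent.R017.End699 Crest.Agent.R017.B770 Crest.Agent.R017.BEndA699
open Crest.Agent.R017.Sx545 (Sm)

/-- a smooth nonnegative weight for the `c₀`-piece, in the class `HW` -/
def HWnn : Prop := ∃ h₀ : ℝ → ℂ, HW h₀ ∧ NN h₀

theorem hwnn : HWnn := ⟨PLow271.h00, PLow271.hw_h00, ⟨PLow271.h00_real, PLow271.h00_ne⟩⟩

theorem plow {r : ℕ} (hr : 0 < r) {y : ℝ} (hy : 0 < y) : PropPLOW r y := by
  obtain ⟨h, hh, c, Q₁, hc, H⟩ := PLow271.propPLOW hr hy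
  exact ⟨h, hh, c, Q₁, hc, H⟩

/-! ### bookkeeping of exponents -/

/-- `L7'` in the form used here -/
lemma exp7' {θ η' d Q y : ℝ} (hd : 0 < d) (h6 : 6 * d ≤ η') (hQ : 1 ≤ Q) :
    Q ^ (d / 4) * (Q ^ ((1 / 2 + y) / 3 + y + θ) * Q ^ (5 * d - η')) ≤
      (Q ^ (1 / 2 + y + d)) ^ (1 / 3 : ℝ) * Q ^ (y + θ - d / 4) := by
  have hQ0 : 0 < Q := by linarith
  have e1 : (Q ^ (1 / 2 + y + d)) ^ (1 / 3 : ℝ) * Q ^ (y + θ - d / 4) =
      Q ^ ((1 / 2 + y + d) / 3 + (y + θ - d / 4)) := by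
    rw [← Real.rpow_mul hQ0.le, ← Real.rpow_add hQ0]; ring_nf
  rw [← Real.rpow_add hQ0, ← Real.rpow_add hQ0, e1]
  apply Real.rpow_le_rpow_of_exponent_le hQ
  linarith

/-- **the contraction step** from its parts -/
theorem stepB3_of (hL6 : PropL6')
    (hyp : ∀ θ : ℝ, 7 / 8 < θ → θ ≤ 1 → PF Set.univ θ → DOUT3 θ →
      ∃ (r : ℕ) (y δ' η η' : ℝ), 0 < r ∧ 0 < y ∧ 0 < δ' ∧ δ' < y / r ∧ 0 < η ∧ 0 < η' ∧
        PropL7' θ r y δ' η η' ∧ PropL5' θ r y δ' ∧ PropNPL3 θ r y δ' ∧ PropPLOW r y ∧ HWnn) :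
    StepB3 := by
  intro hF2 θ hθ hθ1 hPF hD
  obtain ⟨r, y, δ', η, η', hr, hy, hδ', hδy, hη, hη', hL7, ⟨P₀, d₁, hd₁, hL5⟩, ⟨d₂, hd₂, hNP⟩,
    ⟨h, hh, c, Q₀, hc, hlow⟩, h₀, hh₀, hnn₀⟩ := hyp θ hθ hθ1 hPF hD
  set d : ℝ := min (min d₁ d₂) (min (min (η / 6) (η' / 6)) (1 / 100)) with hdd
  have hd : 0 < d := by
    rw [hdd]
    exact lt_min (lt_min hd₁ hd₂) (lt_min (lt_min (by linarith) (by linarith)) (by norm_num))
  have hda : d ≤ d₁ := (min_le_left _ _).trans (min_le_left _ _)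
  have hdb : d ≤ d₂ := (min_le_left _ _).trans (min_le_right _ _)
  have hdc : 6 * d ≤ η := by
    have : d ≤ η / 6 := (min_le_right _ _).trans ((min_le_left _ _).trans (min_le_left _ _))
    linarith
  have hdc' : 6 * d ≤ η' := by
    have : d ≤ η' / 6 := (min_le_right _ _).trans ((min_le_left _ _).trans (min_le_right _ _))
    linarith
  have hde : d ≤ 1 / 100 := (min_le_right _ _).trans (min_le_right _ _)
  obtain ⟨d₃, hd₃, hL5⟩ := hL5 d hd hda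
  obtain ⟨d₄, hd₄, hNP⟩ := hNP d hd hdb
  set d₀ : ℝ := min (min d₃ d₄) (d / 4) with hd₀
  have hd₀0 : 0 < d₀ := lt_min (lt_min hd₃ hd₄) (by linarith)
  have hd₀3 : d₀ ≤ d₃ := (min_le_left _ _).trans (min_le_left _ _)
  have hd₀4 : d₀ ≤ d₄ := (min_le_left _ _).trans (min_le_right _ _)
  have hd₀d : d₀ ≤ d / 4 := min_le_right _ _
  set δ : ℝ := min (d₀ / 2) (1 / 24) with hδ
  have hδ0 : 0 < δ := lt_min (by linarith) (by norm_num)
  have hδ1 : δ ≤ d₀ / 2 := min_le_left _ _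
  have hδ2 : δ ≤ 1 / 24 := min_le_right _ _
  refine ⟨δ, hδ0, pf_of_pointwise (by linarith) hPF ?_⟩
  intro l q χ hl hχ ρ hρ hρθ h1
  -- the modulus
  set M : Eis := 36 * q * ((P₀.factorial : ℕ) : Eis) with hM
  have h36' : (36 : Eis) ≠ 0 := by
    intro h0
    have e : (36 : Eis) = 9 * 4 := by norm_num
    have e4 : (4 : Eis) ≠ 0 := by
      intro h4
      have := congrArg QuadraticAlgebra.re h4
      have e5 : (4 : Eis) = ((4 : ℕ) : Eis) := by norm_num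
      rw [e5, QuadraticAlgebra.re_natCast] at this
      simp at this
    exact mul_ne_zero nine_ne_zero e4 (e ▸ h0)
  have hfac : ((P₀.factorial : ℕ) : Eis) ≠ 0 := by
    intro h0
    have := congrArg QuadraticAlgebra.re h0
    rw [QuadraticAlgebra.re_natCast] at this
    simp at this
    exact Nat.factorial_ne_zero _ this
  have hM0 : M ≠ 0 := mul_ne_zero (mul_ne_zero h36' hχ.q0) hfac
  have hqM : q ∣ M := ⟨36 * ((P₀.factorial : ℕ) : Eis), by rw [hM]; ring⟩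
  have h36 : (36 : Eis) ∣ M := ⟨q * ((P₀.factorial : ℕ) : Eis), by rw [hM]; ring⟩
  have hP : ∀ p : Eis, Prime p → nm p ≤ P₀ → p ∣ M := fun p hp hnp =>
    (prime_dvd_factorial hp hnp).trans ⟨36 * q, by rw [hM]; ring⟩
  refine ⟨M, hM0, hqM, ?_⟩
  have hψ0 := hχ.changeMod hM0 hqM
  set ψ : Eis → ℂ := End699.ext (fun b => χ b * prin0 M b) with hψdef
  have hψ : HC M ψ := HC.ext' hψ0
  have h1' : NP M ψ l ∨ ρ ≠ 1 := by
    rcases h1 with h1 | h1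
    · exact Or.inl (np_ext (h1.changeMod hχ hM0))
    · exact Or.inr h1
  rw [← LH_ext]
  have hrad := rad0_m0 h36 hM0
  set m₀ : Eis := ∏ p ∈ pp M, p with hm₀
  obtain ⟨F, hF, hFE, hrel⟩ := hF2 M h36 l hl ψ hψ
  -- the weights
  obtain ⟨V, v1, v2, v3, v4, v5, v6, v7⟩ := exists_bump (s₀ := ρ) (by linarith) (α := 1 / 2)
    (β := 1) (by norm_num) (by norm_num)
  obtain ⟨om, o1, o2, o3, o4, o5, o6, o7⟩ := exists_bump (s₀ := 1) (by simp) (α := 1) (β := 2)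
    (by norm_num) (by norm_num)
  have swOf : ∀ {W : ℝ → ℝ} {a b : ℝ}, 0 ≤ a → ContDiff ℝ ∞ W → HasCompactSupport W →
      tsupport W ⊆ Ioo a b → SW (fun y => (W y : ℂ)) := by
    intro W a b ha w1 w2 w3
    have hts : tsupport (fun y => (W y : ℂ)) ⊆ tsupport W := by
      apply closure_mono
      intro y hy
      simp only [Function.mem_support] at hy ⊢
      intro h0
      exact hy (by rw [h0]; simp)
    refine ⟨Complex.ofRealCLM.contDiff.comp w1, ?_, fun y hy => ?_⟩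
    · exact w2.of_isClosed_subset (isClosed_tsupport _) hts
    · exact lt_of_le_of_lt ha (w3 (hts hy)).1
  have hV : SW (fun y => (V y : ℂ)) := swOf (by norm_num) v1 v2 v5
  have hom : SW (fun y => (om y : ℂ)) := swOf (by norm_num) o1 o2 o5
  have hNN : NN (fun y => (om y : ℂ)) := by
    refine ⟨fun y => ⟨by simpa using o3 y, by simp⟩, ?_⟩
    by_contra hcon
    push Not at hcon
    apply o7
    have : (fun y => (om y : ℂ)) = fun _ => 0 := funext hcon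
    rw [this]
    simp [mellin]
  set V' : ℝ → ℂ := fun y => (V y : ℂ) with hV'
  set om' : ℝ → ℂ := fun y => (om y : ℂ) with hom'
  -- the inputs
  obtain ⟨e, κ, hκ, hAC, hdom, hL5'⟩ :=
    hL5 M m₀ h36 hrad hP ψ l hψ hl F.ξ hF.ξle hF.ξ1 h₀ h hh₀ hh hnn₀ om' hom hNN
  choose C5 Q5 h5 using fun j => hL5' V' hV (F.qL j) (hF.qL j)
  choose CN QN hN using fun j =>
    hNP M m₀ h36 hrad ψ l hψ hl F.ξ hF.ξle h₀ h hh₀ hh om' hom V' hV (F.qL j) (hF.qL j)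
  obtain ⟨C7, Q7, hC7, h7⟩ := hL7 M m₀ h36 hrad ψ l F hψ hF hFE hrel h₀ h hh₀ hh V' om' hV hom (d / 4) d
    (by linarith) hd hdc hdc' hde
  have hqpos : ∀ j, 0 < F.qL j := fun j => by linarith [hF.qL j]
  -- the constant
  set B : ℝ := C7 + ∑ j, ‖F.cL j‖ * (2 * Real.sqrt 3 * Real.sqrt (F.qL j)) *
    (|C5 j| + |CN j|) with hB
  have hB0 : 0 ≤ B := by positivity
  have hr' : (0 : ℝ) < r := by exact_mod_cast hr
  -- the threshold
  have hev : ∀ᶠ Q : ℝ in Filter.atTop, 1 < Q ∧ Q₀ ≤ Q ∧ (∀ j, Q5 j ≤ Q) ∧ (∀ j, QN j ≤ Q) ∧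
      Q7 ≤ Q ∧ (nm M : ℝ) * Q ^ δ' * 9 < Q ^ (y / r) := by
    have hyr : 0 < y / r - δ' := by linarith
    have ht := tendsto_rpow_atTop hyr
    have t2 := ht.eventually_gt_atTop ((nm M : ℝ) * 9)
    filter_upwards [Filter.eventually_gt_atTop 1, Filter.eventually_ge_atTop Q₀,
      Filter.eventually_all.mpr (fun j => Filter.eventually_ge_atTop (Q5 j)),
      Filter.eventually_all.mpr (fun j => Filter.eventually_ge_atTop (QN j)),
      Filter.eventually_ge_atTop Q7, t2]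
      with Q a1 a2 a3 a4 a5 a6
    refine ⟨a1, a2, a3, a4, a5, ?_⟩
    have hQ0 : 0 < Q := by linarith
    have e1 : Q ^ (y / r) = Q ^ (y / r - δ') * Q ^ δ' := by
      rw [← Real.rpow_add hQ0]; ring_nf
    rw [e1]
    have : 0 < Q ^ δ' := by positivity
    nlinarith
  obtain ⟨Q₁, hQ₁⟩ := Filter.eventually_atTop.mp hev
  refine LH_ne_zero_of_SQ hψ (sw_rw hV) hAC hdom hF.qL hF.nz (θ := θ - δ)
    (C := B / (2 * Real.sqrt 3 * ‖κ‖ * c) / (d₀ / 2 / r) ^ r) (Q₁ := Q₁) (by linarith) ?_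
    (by linarith) h1' v7
  intro Q hQ
  obtain ⟨a1, a2, a3, a4, a5, a6⟩ := hQ₁ Q hQ
  have hQ0 : 0 < Q := by linarith
  set K : ℝ := Q ^ (1 / 2 + (y + δ') + d) with hK
  have hK0 : 0 < K := by positivity
  have hsQ : 0 < Real.sqrt Q := Real.sqrt_pos.mpr hQ0
  set A1 : ℂ := ((Q ^ δ' : ℝ) : ℂ) * Amp h r y Q Finset.univ (fun _ => 1) with hA1
  set S : Fin F.nL → ℂ := fun j => SQ e V' ψ l (Q / F.qL j) with hS
  set T : ℂ := ∑ j, F.cL j * ((F.qL j ^ (1 / 6 : ℝ) : ℝ) : ℂ) * S j with hT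
  set Lj : Fin F.nL → ℂ := fun j => LK3 h₀ h r y δ' Q M m₀ F.ξ (tw ψ l) V' om' (fun _ => True)
    (K / F.qL j) (Q / F.qL j) with hLj
  set R : ℝ := K ^ (1 / 3 : ℝ) * Q ^ ((y + δ') + θ - d₀) with hR
  have hR0 : 0 ≤ R := by positivity
  -- the error terms
  have hEj : ∀ j, ‖Lj j - κ * (((K / F.qL j) ^ (1 / 3 : ℝ) : ℝ) : ℂ) * A1 * S j‖ ≤
      (|C5 j| + |CN j|) * R := by
    intro j
    obtain ⟨b1, b2⟩ := hN j Q (a4 j)
    have b3 := h5 j Q (a3 j)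
    rw [mul_assoc (κ * _) ((Q ^ δ' : ℝ) : ℂ) (Amp h r y Q Finset.univ (fun _ => 1))] at b3
    have b4 : C5 j * K ^ (1 / 3 : ℝ) * Q ^ ((y + δ') + θ - d₃) ≤ |C5 j| * R := by
      rw [hR, mul_assoc]
      have : Q ^ ((y + δ') + θ - d₃) ≤ Q ^ ((y + δ') + θ - d₀) :=
        Real.rpow_le_rpow_of_exponent_le a1.le (by linarith)
      have := le_abs_self (C5 j)
      gcongr
    have b5 : CN j * K ^ (1 / 3 : ℝ) * Q ^ ((y + δ') + θ - d₄) ≤ |CN j| * R := by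
      rw [hR, mul_assoc]
      have : Q ^ ((y + δ') + θ - d₄) ≤ Q ^ ((y + δ') + θ - d₀) :=
        Real.rpow_le_rpow_of_exponent_le a1.le (by linarith)
      have := le_abs_self (CN j)
      gcongr
    have b6 : Lj j - κ * (((K / F.qL j) ^ (1 / 3 : ℝ) : ℝ) : ℂ) * A1 * S j =
        (LK3 h₀ h r y δ' Q M m₀ F.ξ (tw ψ l) V' om' (Prn M) (K / F.qL j) (Q / F.qL j) -
          κ * (((K / F.qL j) ^ (1 / 3 : ℝ) : ℝ) : ℂ) * A1 * S j) +
        LK3 h₀ h r y δ' Q M m₀ F.ξ (tw ψ l) V' om' (fun k => ¬ Prn M k) (K / F.qL j)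
          (Q / F.qL j) := by
      rw [hLj]
      simp only
      rw [b1]; ring
    rw [b6]
    refine (norm_add_le _ _).trans ?_
    linarith
  -- the exact identity
  have hid : (∑ j, F.cL j * DL3 h₀ h r y δ' Q M m₀ F.ξ (tw ψ l) V' om' (K / F.qL j) (Q / F.qL j)) *
      ((K / Real.sqrt Q : ℝ) : ℂ) =
      ∑ j, F.cL j * ((2 * Real.sqrt 3 * Real.sqrt (F.qL j) : ℝ) : ℂ) * Lj j := by
    rw [Finset.sum_mul]
    apply Finset.sum_congr rfl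
    intro j _
    rw [hL6 h₀ h hh₀ hh r y δ' Q M m₀ hr hy hδ' a1.le h36 hrad a6 F.ξ (tw ψ l) hF.ξle
      (norm_tw_ext_le hψ0 l) V' om' hV hom (K / F.qL j) (Q / F.qL j)
      (div_pos hK0 (hqpos j)) (div_pos hQ0 (hqpos j))]
    have e1 : 2 * Real.sqrt 3 * (Real.sqrt (Q / F.qL j) / (K / F.qL j)) * (K / Real.sqrt Q) =
        2 * Real.sqrt 3 * Real.sqrt (F.qL j) := by
      have hq1 := hqpos j
      have hsq : 0 < Real.sqrt (F.qL j) := Real.sqrt_pos.mpr hq1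
      rw [Real.sqrt_div hQ0.le]
      have e2 : F.qL j = Real.sqrt (F.qL j) * Real.sqrt (F.qL j) :=
        (Real.mul_self_sqrt hq1.le).symm
      field_simp
      rw [sq]
      exact e2
    rw [← e1]
    push_cast
    ring
  have hmain : (∑ j, F.cL j * DL3 h₀ h r y δ' Q M m₀ F.ξ (tw ψ l) V' om' (K / F.qL j) (Q / F.qL j)) *
      ((K / Real.sqrt Q : ℝ) : ℂ) =
      ((2 * Real.sqrt 3 * K ^ (1 / 3 : ℝ) : ℝ) : ℂ) * κ * A1 * T +
      ∑ j, F.cL j * ((2 * Real.sqrt 3 * Real.sqrt (F.qL j) : ℝ) : ℂ) *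
        (Lj j - κ * (((K / F.qL j) ^ (1 / 3 : ℝ) : ℝ) : ℂ) * A1 * S j) := by
    rw [hid, hT, Finset.mul_sum, ← Finset.sum_add_distrib]
    apply Finset.sum_congr rfl
    intro j _
    have e1 : Real.sqrt (F.qL j) * (K / F.qL j) ^ (1 / 3 : ℝ) =
        K ^ (1 / 3 : ℝ) * F.qL j ^ (1 / 6 : ℝ) := by
      have hq1 := hqpos j
      rw [Real.sqrt_eq_rpow, Real.div_rpow hK0.le hq1.le]
      have e2 : F.qL j ^ (1 / 2 : ℝ) = F.qL j ^ (1 / 3 : ℝ) * F.qL j ^ (1 / 6 : ℝ) := by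
        rw [← Real.rpow_add hq1]; norm_num
      rw [e2]
      field_simp
    have e3 : ((Real.sqrt (F.qL j) : ℝ) : ℂ) * (((K / F.qL j) ^ (1 / 3 : ℝ) : ℝ) : ℂ) =
        ((K ^ (1 / 3 : ℝ) : ℝ) : ℂ) * ((F.qL j ^ (1 / 6 : ℝ) : ℝ) : ℂ) := by
      rw [← Complex.ofReal_mul, e1, Complex.ofReal_mul]
    push_cast at e3 ⊢
    linear_combination (2 * (Real.sqrt 3 : ℂ) * F.cL j * κ * A1 * S j) * e3
  -- the bound
  have hb7 := h7 Q a5
  have hb7' : ‖(∑ j, F.cL j * DL3 h₀ h r y δ' Q M m₀ F.ξ (tw ψ l) V' om' (K / F.qL j)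
      (Q / F.qL j)) * ((K / Real.sqrt Q : ℝ) : ℂ)‖ ≤ C7 * R := by
    rw [norm_mul, Complex.norm_real, Real.norm_of_nonneg (by positivity)]
    refine hb7.trans ?_
    rw [mul_assoc]
    have e1 := exp7' (θ := θ) (y := y + δ') hd hdc' a1.le
    calc C7 * (Q ^ (d / 4) * (Q ^ ((1 / 2 + (y + δ')) / 3 + (y + δ') + θ) * Q ^ (5 * d - η')))
        ≤ C7 * (K ^ (1 / 3 : ℝ) * Q ^ ((y + δ') + θ - d / 4)) := by gcongr
      _ ≤ C7 * (K ^ (1 / 3 : ℝ) * Q ^ ((y + δ') + θ - d₀)) := by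
          have : Q ^ ((y + δ') + θ - d / 4) ≤ Q ^ ((y + δ') + θ - d₀) :=
            Real.rpow_le_rpow_of_exponent_le a1.le (by linarith)
          gcongr
      _ = C7 * R := by rw [hR]
  have hsum : ‖∑ j, F.cL j * ((2 * Real.sqrt 3 * Real.sqrt (F.qL j) : ℝ) : ℂ) *
        (Lj j - κ * (((K / F.qL j) ^ (1 / 3 : ℝ) : ℝ) : ℂ) * A1 * S j)‖ ≤
      (∑ j, ‖F.cL j‖ * (2 * Real.sqrt 3 * Real.sqrt (F.qL j)) * (|C5 j| + |CN j|)) * R := by
    rw [Finset.sum_mul]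
    refine norm_sum_le_of_le _ fun j _ => ?_
    rw [norm_mul, norm_mul, Complex.norm_real, Real.norm_of_nonneg (by positivity), mul_assoc
      (‖F.cL j‖ * (2 * Real.sqrt 3 * Real.sqrt (F.qL j)))]
    have := hEj j
    gcongr
  have hfin : 2 * Real.sqrt 3 * K ^ (1 / 3 : ℝ) * ‖κ‖ * ‖A1‖ * ‖T‖ ≤ B * R := by
    have e1 : ((2 * Real.sqrt 3 * K ^ (1 / 3 : ℝ) : ℝ) : ℂ) * κ * A1 * T =
        (∑ j, F.cL j * DL3 h₀ h r y δ' Q M m₀ F.ξ (tw ψ l) V' om' (K / F.qL j) (Q / F.qL j)) *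
          ((K / Real.sqrt Q : ℝ) : ℂ) -
        ∑ j, F.cL j * ((2 * Real.sqrt 3 * Real.sqrt (F.qL j) : ℝ) : ℂ) *
          (Lj j - κ * (((K / F.qL j) ^ (1 / 3 : ℝ) : ℝ) : ℂ) * A1 * S j) := by
      rw [hmain]; ring
    have e2 : ‖((2 * Real.sqrt 3 * K ^ (1 / 3 : ℝ) : ℝ) : ℂ) * κ * A1 * T‖ =
        2 * Real.sqrt 3 * K ^ (1 / 3 : ℝ) * ‖κ‖ * ‖A1‖ * ‖T‖ := by
      rw [norm_mul, norm_mul, norm_mul, Complex.norm_real, Real.norm_of_nonneg (by positivity)]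
    rw [← e2, e1]
    refine (norm_sub_le _ _).trans ((add_le_add hb7' hsum).trans (le_of_eq ?_))
    rw [hB]; ring
  -- division by the amplifier
  have hlogQ : 0 < Real.log Q := Real.log_pos a1
  have hA1low : c * Q ^ (y + δ') * (Real.log Q ^ r)⁻¹ ≤ ‖A1‖ := by
    have e1 := hlow Q a2
    have e2 : (0 : ℝ) < Q ^ δ' := by positivity
    rw [hA1, norm_mul, Complex.norm_real, Real.norm_of_nonneg e2.le, Real.rpow_add hQ0]
    calc c * (Q ^ y * Q ^ δ') * (Real.log Q ^ r)⁻¹ = Q ^ δ' * (c * Q ^ y * (Real.log Q ^ r)⁻¹) := by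
          ring
      _ ≤ _ := mul_le_mul_of_nonneg_left e1 e2.le
  have hκ' : 0 < ‖κ‖ := norm_pos_iff.mpr hκ
  have h3 : (0 : ℝ) < Real.sqrt 3 := by positivity
  have hstep1 : 2 * Real.sqrt 3 * K ^ (1 / 3 : ℝ) * ‖κ‖ * (c * Q ^ (y + δ') * (Real.log Q ^ r)⁻¹) * ‖T‖ ≤
      B * R := by
    refine le_trans ?_ hfin
    gcongr
  have hT1 : ‖T‖ ≤ B / (2 * Real.sqrt 3 * ‖κ‖ * c) * (Real.log Q ^ r * Q ^ (θ - d₀)) := by
    have hRe : R = K ^ (1 / 3 : ℝ) * (Q ^ (y + δ') * Q ^ (θ - d₀)) := by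
      rw [hR, ← Real.rpow_add hQ0]; ring_nf
    rw [hRe] at hstep1
    have hpos : 0 < 2 * Real.sqrt 3 * K ^ (1 / 3 : ℝ) * ‖κ‖ * (c * Q ^ (y + δ') *
        (Real.log Q ^ r)⁻¹) := by positivity
    have h4 : ‖T‖ ≤ B * (K ^ (1 / 3 : ℝ) * (Q ^ (y + δ') * Q ^ (θ - d₀))) /
        (2 * Real.sqrt 3 * K ^ (1 / 3 : ℝ) * ‖κ‖ * (c * Q ^ (y + δ') * (Real.log Q ^ r)⁻¹)) := by
      rw [le_div_iff₀ hpos]
      linarith
    refine h4.trans (le_of_eq ?_)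
    field_simp
  have hlp := log_pow_le hr (x := d₀ / 2) (by linarith) a1
  calc ‖T‖ ≤ B / (2 * Real.sqrt 3 * ‖κ‖ * c) * (Real.log Q ^ r * Q ^ (θ - d₀)) := hT1
    _ ≤ B / (2 * Real.sqrt 3 * ‖κ‖ * c) *
        (Q ^ (d₀ / 2) / (d₀ / 2 / r) ^ r * Q ^ (θ - d₀)) := by gcongr
    _ = B / (2 * Real.sqrt 3 * ‖κ‖ * c) / (d₀ / 2 / r) ^ r *
        (Q ^ (d₀ / 2) * Q ^ (θ - d₀)) := by ring
    _ = B / (2 * Real.sqrt 3 * ‖κ‖ * c) / (d₀ / 2 / r) ^ r * Q ^ (θ - d₀ / 2) := by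
        rw [← Real.rpow_add hQ0]; ring_nf
    _ ≤ B / (2 * Real.sqrt 3 * ‖κ‖ * c) / (d₀ / 2 / r) ^ r * Q ^ (θ - δ) := by
        have h5' : Q ^ (θ - d₀ / 2) ≤ Q ^ (θ - δ) :=
          Real.rpow_le_rpow_of_exponent_le a1.le (by linarith)
        gcongr

/-! ### the parts -/

/-- **L7'** from the natural bound (47, 858) -/
def PartL7 : Prop :=
  ∀ (θ : ℝ) (r : ℕ) (y δ η η' : ℝ), 7 / 8 < θ → θ ≤ 1 → 0 < r → 0 < y → 0 < δ → y + δ < 1 →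
    δ ≤ 1 / 1000 → 10 * δ ≤ y / r → 0 < η → η ≤ δ / 16 → 0 < η' → NatNP3 θ r y δ η η' →
    PropL7' θ r y δ η η'

/-- **L5'** from PF (868) -/
def PartL5 : Prop :=
  ∀ (θ : ℝ) (r : ℕ) (y δ : ℝ), 7 / 8 < θ → θ ≤ 1 → PF Set.univ θ → 0 < r → 0 < y → 0 < δ →
    δ ≤ 1 / 1000 → 10 * δ ≤ y / r → PropL5' θ r y δ

/-- **NPL3** from the natural bound (699) -/
def PartNPL : Prop :=
  ∀ (θ : ℝ) (r : ℕ) (y δ η η' : ℝ), 7 / 8 < θ → θ ≤ 1 → 0 < r → 0 < y → 0 < δ → y + δ < 1 →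
    δ ≤ 1 / 1000 → 10 * δ ≤ y / r → 0 < η → η ≤ δ / 16 → 0 < η' → NatNP3 θ r y δ η η' →
    PropNPL3 θ r y δ

/-- **section B** from `L3`, `L5'`, `L6'`, `L7'`, `NPL3`. -/
theorem stepB3_of_parts (h3 : PropL3) (h5 : PartL5) (h6 : PropL6') (h7 : PartL7)
    (hN : PartNPL) : StepB3 := by
  refine stepB3_of h6 fun θ hθ hθ1 hPF hD => ?_
  obtain ⟨r, y, δ, η, hr, hy, hδ, hyδ, hδ1, hδy, hη, hηδ, hDi⟩ := hD
  obtain ⟨η', hη', hnat⟩ := h3 θ r y δ η hθ hθ1 hr hy hδ hyδ hδ1 hδy hη hηδ hDi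
  exact ⟨r, y, δ, η, η', hr, hy, hδ, by linarith, hη, hη',
    h7 θ r y δ η η' hθ hθ1 hr hy hδ hyδ hδ1 hδy hη hηδ hη' hnat,
    h5 θ r y δ hθ hθ1 hPF hr hy hδ hδ1 hδy,
    hN θ r y δ η η' hθ hθ1 hr hy hδ hyδ hδ1 hδy hη hηδ hη' hnat, plow hr hy, hwnn⟩

/-! ### the end -/

/-- section C + D -/
def SecD3 : Prop := ∀ θ : ℝ, 7 / 8 < θ → θ ≤ 1 → PF Set.univ θ → DOUT3 θ

theorem s23_of3 (hA : ∀ M : Eis, (36 : Eis) ∣ M → F2x M) (hB : StepB3) (hD : SecD3) : S23 := by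
  refine s23_of_nz ?_
  refine nz_of_pf (S := Set.univ) (Set.mem_univ 0) (pf_bootstrap fun θ hθ hθ1 hPF => ?_)
  exact hB hA θ hθ hθ1 hPF (hD θ hθ hθ1 hPF)

theorem s22_of3 (hA : ∀ M : Eis, (36 : Eis) ∣ M → F2x M) (hB : StepB3) (hD : SecD3) : S22 :=
  s22_of_s23 (s23_of3 hA hB hD)

end Crest.Agent.R017.BEnd770
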