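import Crest.Agent.R017.BDefs2_770
import Crest.Agent.R017.EndQ_699

/-!
# Row 17, section B, leaf L8 (END): interfaces L5, PLOW, nonprincipal part (helper699)

Objects: `BDefs_770`, `BDefs2_770`.
-/

set_option autoImplicit false

noncomputable section

open MeasureTheory Complex Set
open scoped ComplexConjugate ContDiff

namespace Crest.Agent.R017.BEndA699

open Crest.Agent.R012 Crest.Agent.R012.Eis Crest.Agent.R012.Mob705 Crest.Agent.R012.Gauss880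
open Crest.Agent.R017.End699 Crest.Agent.R017.Sx440 Crest.Agent.R017.Sx545 Crest.Agent.R017.B770

/-- principal `k` -/
def Prn (M k : Eis) : Prop := ¬ NPk M (prin0 M) 0 k

/-- `∑_{d, b primary} e(d) μ(b) ψ(b) (b/|b|)^l V(N(d) N(b) / Q)` -/
def SQ (e : Eis → ℂ) (V : ℝ → ℂ) (ψ : Eis → ℂ) (l : ℤ) (Q : ℝ) : ℂ :=
  ∑' p, ip2 (fun d b => e d * gb ψ l 0 b * V ((nm d * nm b : ℕ) / Q)) p

/-- real nonnegative, not identically zero -/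
structure NN (om : ℝ → ℂ) : Prop where
  nonneg : ∀ y, 0 ≤ (om y).re ∧ (om y).im = 0
  ne : ∃ y, om y ≠ 0

/-- the coefficients of the main term are dominated by the first one -/
def Dom (e : Eis → ℂ) : Prop :=
  ∑' b, ‖ip (fun b => if b = 1 then 0 else e b) b‖ * (nm b : ℝ) ^ (-(5 / 6) : ℝ) < ‖e 1‖

/-- **L5** (868): the principal part of the primal form, `K = Q^{1/2+y+d}` -/
def PropL5 (θ : ℝ) (r : ℕ) (y : ℝ) : Prop :=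
  ∃ (P₀ : ℕ) (d₁ : ℝ), 0 < d₁ ∧ ∀ d : ℝ, 0 < d → d ≤ d₁ → ∃ d₀ : ℝ, 0 < d₀ ∧
    ∀ (M m₀ : Eis), (36 : Eis) ∣ M → Rad0 M m₀ → (∀ p : Eis, Prime p → nm p ≤ P₀ → p ∣ M) →
    ∀ (ψ : Eis → ℂ) (l : ℤ), HC M ψ → l ≠ -1 → ∀ ξ : Eis → ℂ, (∀ e, ‖ξ e‖ ≤ 1) → ξ 1 = 1 →
    ∀ h : ℝ → ℂ, HW h → ∀ om : ℝ → ℂ, SW om → NN om →
    ∃ (e : Eis → ℂ) (κ : ℂ), κ ≠ 0 ∧ AC e (5 / 6) ∧ Dom e ∧
      ∀ V : ℝ → ℂ, SW V → ∀ q : ℝ, 1 ≤ q → ∃ C Q₁ : ℝ, ∀ Q : ℝ, Q₁ ≤ Q →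
        ‖LK h r y Q M m₀ ξ (tw ψ l) V om (Prn M) (Q ^ (1 / 2 + y + d) / q) (Q / q) -
          κ * (((Q ^ (1 / 2 + y + d) / q) ^ (1 / 3 : ℝ) : ℝ) : ℂ) *
            Amp h r y Q Finset.univ (fun _ => 1) * SQ e V ψ l (Q / q)‖ ≤
          C * (Q ^ (1 / 2 + y + d)) ^ (1 / 3 : ℝ) * Q ^ (y + θ - d₀)

/-- **NPL**: the nonprincipal part of the primal form, and convergence of the `k`-sums -/
def PropNPL (θ : ℝ) (r : ℕ) (y : ℝ) : Prop :=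
  ∃ d₁ : ℝ, 0 < d₁ ∧ ∀ d : ℝ, 0 < d → d ≤ d₁ → ∃ d₀ : ℝ, 0 < d₀ ∧
    ∀ (M m₀ : Eis), (36 : Eis) ∣ M → Rad0 M m₀ →
    ∀ (ψ : Eis → ℂ) (l : ℤ), HC M ψ → l ≠ -1 → ∀ ξ : Eis → ℂ, (∀ e, ‖ξ e‖ ≤ 1) →
    ∀ h : ℝ → ℂ, HW h → ∀ om : ℝ → ℂ, SW om →
      ∀ V : ℝ → ℂ, SW V → ∀ q : ℝ, 1 ≤ q → ∃ C Q₁ : ℝ, ∀ Q : ℝ, Q₁ ≤ Q →
        LK h r y Q M m₀ ξ (tw ψ l) V om (fun _ => True) (Q ^ (1 / 2 + y + d) / q) (Q / q) =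
          LK h r y Q M m₀ ξ (tw ψ l) V om (Prn M) (Q ^ (1 / 2 + y + d) / q) (Q / q) +
          LK h r y Q M m₀ ξ (tw ψ l) V om (fun k => ¬ Prn M k) (Q ^ (1 / 2 + y + d) / q)
            (Q / q) ∧
        ‖LK h r y Q M m₀ ξ (tw ψ l) V om (fun k => ¬ Prn M k) (Q ^ (1 / 2 + y + d) / q)
            (Q / q)‖ ≤ C * (Q ^ (1 / 2 + y + d)) ^ (1 / 3 : ℝ) * Q ^ (y + θ - d₀)

/-- **PLOW** (271): lower bound for the amplifier -/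
def PropPLOW (r : ℕ) (y : ℝ) : Prop :=
  ∃ h : ℝ → ℂ, HW h ∧ ∃ c Q₁ : ℝ, 0 < c ∧ ∀ Q : ℝ, Q₁ ≤ Q →
    c * Q ^ y * (Real.log Q ^ r)⁻¹ ≤ ‖Amp h r y Q Finset.univ (fun _ => 1)‖

end Crest.Agent.R017.BEndA699
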