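import Crest.Agent.R017.BEndB_699

/-!
# Row 17, section B, leaf L8 (END), part C: the contraction step `StepB'` from its parts
-/

set_option autoImplicit false

noncomputable section

open MeasureTheory Complex Set
open scoped ComplexConjugate ContDiff

namespace Crest.Agent.R017.BEndA699

open Crest.Agent.R012 Crest.Agent.R012.Eis Crest.Agent.R012.Mob705 Crest.Agent.R012.Gauss880
open Crest.Agent.R012.PSer47
open Crest.Agent.R017.End699 Crest.Agent.R017.B770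
open Crest.Agent.R017.Sx545 (Sm)

/-! ### values off the primary elements do not matter -/

lemma ext_ext (χ : Eis → ℂ) : ext (ext χ) = ext χ := by
  funext b
  unfold End699.ext
  split_ifs <;> rfl

lemma push_ext (χ : Eis → ℂ) (l : ℤ) :
    push (fun b => ext χ b * ang l b) = push (fun b => χ b * ang l b) := by
  funext n
  unfold push
  apply Finset.sum_congr rfl
  intro b hb
  beta_reduce
  unfold End699.ext
  rw [if_pos (mem_fib.mp hb).2]

lemma LH_ext (q : Eis) (χ : Eis → ℂ) (l : ℤ) (s : ℂ) : LH q (ext χ) l s = LH q χ l s := by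
  have h1 : mden q (ext χ) = mden q χ := by unfold mden; rw [ext_ext]
  have h2 : cc q (ext χ) l = cc q χ l := by unfold cc; rw [h1]
  have h3 : cf q (ext χ) l = cf q χ l := by
    funext n
    unfold cf
    rw [h2, push_ext]
  unfold LH
  rw [h2, h3]

lemma ext_of {χ : Eis → ℂ} {b : Eis} (hb : IsPrim b) : ext χ b = χ b := if_pos hb

lemma HC.ext' {q : Eis} {χ : Eis → ℂ} (h : HC q χ) : HC q (ext χ) where
  q0 := h.q0
  three := h.three
  char :=
    { one := by rw [ext_of isPrim_one]; exact h.char.one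
      mul := fun a b ha hb => by
        rw [ext_of ha, ext_of hb, ext_of ((P355.isPrim_mul_iff ha).mpr hb)]
        exact h.char.mul a b ha hb
      norm := fun a ha => by rw [ext_of ha]; exact h.char.norm a ha }
  per a b ha hb hd := by rw [ext_of ha, ext_of hb]; exact h.per a b ha hb hd
  van a ha hc := by rw [ext_of ha]; exact h.van a ha hc

lemma np_ext {q : Eis} {χ : Eis → ℂ} {l : ℤ} (h : NP q χ l) : NP q (ext χ) l := by
  rcases h with h | ⟨a, h1, h2, h3⟩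
  · exact Or.inl h
  · right
    exact ⟨a, h1, h2, by rw [ext_of h1]; exact h3⟩

lemma norm_ang_le (l : ℤ) (b : Eis) : ‖ang l b‖ ≤ 1 := by
  by_cases hb : toC b = 0
  · unfold ang
    rw [hb]
    simp only [norm_zero, Complex.ofReal_zero, div_zero]
    by_cases hl : l = 0
    · rw [hl]; simp
    · rw [zero_zpow l hl]; simp
  · have h2 : ‖toC b / (‖toC b‖ : ℂ)‖ = 1 := by
      rw [norm_div, Complex.norm_real, norm_norm]
      exact div_self (norm_ne_zero_iff.mpr hb)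
    unfold ang
    rw [norm_zpow, h2, one_zpow]

lemma norm_tw_ext_le {q : Eis} {χ : Eis → ℂ} (h : HC q χ) (l : ℤ) (b : Eis) :
    ‖tw (ext χ) l b‖ ≤ 1 := by
  unfold tw
  rw [norm_mul]
  refine mul_le_one₀ ?_ (norm_nonneg _) (norm_ang_le l b)
  unfold End699.ext
  split_ifs with hb
  · exact h.char.norm_le hb
  · simp

/-! ### the modulus -/

lemma rad0_m0 {M : Eis} (h36 : (36 : Eis) ∣ M) (hM : M ≠ 0) : Rad0 M (∏ p ∈ pp M, p) where
  prim := (ppSet_pp M).isPrim_prod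
  sqf := (ppSet_pp M).squarefree_prod
  iff := by
    intro p hp
    have h3M : (3 : Eis) ∣ M := Dvd.dvd.trans ⟨12, by norm_num⟩ h36
    constructor
    · intro h
      rcases hp.dvd_or_dvd h with h1 | h1
      · exact h1.trans h3M
      · exact h1.trans (prod_pp_dvd M)
    · intro h
      by_cases hl : lam ∣ p
      · have h1 : Associated lam p := prime_lam.associated_of_dvd hp hl
        exact Dvd.dvd.mul_right (h1.symm.dvd.trans lam_dvd_three) _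
      · have hu : ¬ IsUnit p := hp.not_isUnit
        obtain ⟨p', hp', hd⟩ := exists_pp_dvd hl hu
        have h2 : Associated p' p := hp'.prime.associated_of_dvd hp hd
        have h3 : p' ∈ pp M := (mem_pp hM).mpr ⟨hp', h2.dvd.trans h⟩
        exact Dvd.dvd.mul_left (h2.symm.dvd.trans (Finset.dvd_prod_of_mem (fun x => x) h3)) _

lemma prime_dvd_factorial {P : ℕ} {p : Eis} (hp : Prime p) (h : nm p ≤ P) :
    p ∣ ((P.factorial : ℕ) : Eis) := by
  have h1 : p ∣ ((nm p : ℕ) : Eis) := by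
    refine ⟨Eis.conj p, ?_⟩
    have := mul_conj p
    rw [this]
  refine h1.trans ?_
  have h2 : nm p ∣ P.factorial := Nat.dvd_factorial (nm_pos.mpr hp.ne_zero) h
  obtain ⟨t, ht⟩ := h2
  exact ⟨(t : Eis), by rw [ht]; push_cast; rfl⟩

/-! ### bookkeeping of exponents -/

/-- `L7` in the form used here -/
lemma exp7 {θ η d Q y : ℝ} (hθ : 7 / 8 < θ) (hd : 0 < d) (h6 : 6 * d ≤ η) (h100 : d ≤ 1 / 100)
    (hQ : 1 ≤ Q) :
    Q ^ (d / 4) * (Q ^ ((1 / 2 + y) / 3 + y + θ) *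
      (Q ^ (d * (3 - 4 * θ)) + Q ^ (5 * d - η) + Q ^ (-(1 / 20) : ℝ))) ≤
      3 * ((Q ^ (1 / 2 + y + d)) ^ (1 / 3 : ℝ) * Q ^ (y + θ - d / 4)) := by
  have hQ0 : 0 < Q := by linarith
  have e1 : (Q ^ (1 / 2 + y + d)) ^ (1 / 3 : ℝ) * Q ^ (y + θ - d / 4) =
      Q ^ ((1 / 2 + y + d) / 3 + (y + θ - d / 4)) := by
    rw [← Real.rpow_mul hQ0.le, ← Real.rpow_add hQ0]; ring_nf
  have e2 : ∀ u : ℝ, u ≤ -(d / 2) →
      Q ^ (d / 4) * (Q ^ ((1 / 2 + y) / 3 + y + θ) * Q ^ u) ≤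
        Q ^ ((1 / 2 + y + d) / 3 + (y + θ - d / 4)) := by
    intro u hu
    rw [← Real.rpow_add hQ0, ← Real.rpow_add hQ0]
    apply Real.rpow_le_rpow_of_exponent_le hQ
    linarith
  have a1 := e2 (d * (3 - 4 * θ)) (by nlinarith)
  have a2 := e2 (5 * d - η) (by linarith)
  have a3 := e2 (-(1 / 20)) (by linarith)
  rw [e1]
  linarith

lemma log_pow_le {r : ℕ} (hr : 0 < r) {x Q : ℝ} (hx : 0 < x) (hQ : 1 < Q) :
    Real.log Q ^ r ≤ Q ^ x / (x / r) ^ r := by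
  have hr' : (0 : ℝ) < r := by exact_mod_cast hr
  have h1 := Real.log_le_rpow_div (by linarith : (0 : ℝ) ≤ Q) (show 0 < x / r by positivity)
  calc Real.log Q ^ r ≤ (Q ^ (x / r) / (x / r)) ^ r := by
        have := Real.log_nonneg hQ.le
        gcongr
    _ = Q ^ x / (x / r) ^ r := by
        rw [div_pow, ← Real.rpow_natCast (Q ^ (x / r)), ← Real.rpow_mul (by linarith)]
        congr 2
        field_simp

/-- **the contraction step** from its parts -/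
theorem stepB'_of (hL6 : PropL6)
    (hyp : ∀ θ : ℝ, 7 / 8 < θ → θ ≤ 1 → PF Set.univ θ → DOUT θ →
      ∃ (r : ℕ) (y η : ℝ), 0 < r ∧ 0 < y ∧ 0 < η ∧ PropL7 θ r y η ∧ PropL5 θ r y ∧
        PropNPL θ r y ∧ PropPLOW r y) : StepB' := by
  intro hF2 θ hθ hθ1 hPF hD
  obtain ⟨r, y, η, hr, hy, hη, hL7, ⟨P₀, d₁, hd₁, hL5⟩, ⟨d₂, hd₂, hNP⟩, h, hh, c, Q₀, hc, hlow⟩ :=
    hyp θ hθ hθ1 hPF hD
  set d : ℝ := min (min d₁ d₂) (min (η / 6) (1 / 100)) with hdd
  have hd : 0 < d := by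
    rw [hdd]
    exact lt_min (lt_min hd₁ hd₂) (lt_min (by linarith) (by norm_num))
  have hda : d ≤ d₁ := (min_le_left _ _).trans (min_le_left _ _)
  have hdb : d ≤ d₂ := (min_le_left _ _).trans (min_le_right _ _)
  have hdc : 6 * d ≤ η := by
    have : d ≤ η / 6 := (min_le_right _ _).trans (min_le_left _ _)
    linarith
  have hde : d ≤ 1 / 100 := (min_le_right _ _).trans (min_le_right _ _)
  obtain ⟨d₃, hd₃, hL5⟩ := hL5 d hd hda
  obtain ⟨d₄, hd₄, hNP⟩ := hNP d hd hdb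
  set d₀ : ℝ := min (min d₃ d₄) (d / 4) with hd₀
  have hd₀0 : 0 < d₀ := lt_min (lt_min hd₃ hd₄) (by linarith)
  have hd₀3 : d₀ ≤ d₃ := (min_le_left _ _).trans (min_le_left _ _)
  have hd₀4 : d₀ ≤ d₄ := (min_le_left _ _).trans (min_le_right _ _)
  have hd₀d : d₀ ≤ d / 4 := min_le_right _ _
  set δ : ℝ := min (d₀ / 2) (1 / 24) with hδ
  have hδ0 : 0 < δ := lt_min (by linarith) (by norm_num)
  have hδ1 : δ ≤ d₀ / 2 := min_le_left _ _
  have hδ2 : δ ≤ 1 / 24 := min_le_right _ _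
  refine ⟨δ, hδ0, pf_of_pointwise (by linarith) hPF ?_⟩
  intro l q χ hl hχ ρ hρ hρθ h1
  -- the modulus
  set M : Eis := 36 * q * ((P₀.factorial : ℕ) : Eis) with hM
  have h36' : (36 : Eis) ≠ 0 := by
    intro h0
    have e : (36 : Eis) = 9 * 4 := by norm_num
    have e4 : (4 : Eis) ≠ 0 := by
      intro h4
      have := congrArg QuadraticAlgebra.re h4
      have e5 : (4 : Eis) = ((4 : ℕ) : Eis) := by norm_num
      rw [e5, QuadraticAlgebra.re_natCast] at this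
      simp at this
    exact mul_ne_zero nine_ne_zero e4 (e ▸ h0)
  have hfac : ((P₀.factorial : ℕ) : Eis) ≠ 0 := by
    intro h0
    have := congrArg QuadraticAlgebra.re h0
    rw [QuadraticAlgebra.re_natCast] at this
    simp at this
    exact Nat.factorial_ne_zero _ this
  have hM0 : M ≠ 0 := mul_ne_zero (mul_ne_zero h36' hχ.q0) hfac
  have hqM : q ∣ M := ⟨36 * ((P₀.factorial : ℕ) : Eis), by rw [hM]; ring⟩
  have h36 : (36 : Eis) ∣ M := ⟨q * ((P₀.factorial : ℕ) : Eis), by rw [hM]; ring⟩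
  have hP : ∀ p : Eis, Prime p → nm p ≤ P₀ → p ∣ M := fun p hp hnp =>
    (prime_dvd_factorial hp hnp).trans ⟨36 * q, by rw [hM]; ring⟩
  refine ⟨M, hM0, hqM, ?_⟩
  have hψ0 := hχ.changeMod hM0 hqM
  set ψ : Eis → ℂ := End699.ext (fun b => χ b * prin0 M b) with hψdef
  have hψ : HC M ψ := HC.ext' hψ0
  have h1' : NP M ψ l ∨ ρ ≠ 1 := by
    rcases h1 with h1 | h1
    · exact Or.inl (np_ext (h1.changeMod hχ hM0))
    · exact Or.inr h1
  rw [← LH_ext]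
  have hrad := rad0_m0 h36 hM0
  set m₀ : Eis := ∏ p ∈ pp M, p with hm₀
  obtain ⟨F, hF, hFE⟩ := hF2 M h36 l hl ψ hψ
  -- the weights
  obtain ⟨V, v1, v2, v3, v4, v5, v6, v7⟩ := exists_bump (s₀ := ρ) (by linarith) (α := 1 / 2)
    (β := 1) (by norm_num) (by norm_num)
  obtain ⟨om, o1, o2, o3, o4, o5, o6, o7⟩ := exists_bump (s₀ := 1) (by simp) (α := 1) (β := 2)
    (by norm_num) (by norm_num)
  have swOf : ∀ {W : ℝ → ℝ} {a b : ℝ}, 0 ≤ a → ContDiff ℝ ∞ W → HasCompactSupport W →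
      tsupport W ⊆ Ioo a b → SW (fun y => (W y : ℂ)) := by
    intro W a b ha w1 w2 w3
    have hts : tsupport (fun y => (W y : ℂ)) ⊆ tsupport W := by
      apply closure_mono
      intro y hy
      simp only [Function.mem_support] at hy ⊢
      intro h0
      exact hy (by rw [h0]; simp)
    refine ⟨Complex.ofRealCLM.contDiff.comp w1, ?_, fun y hy => ?_⟩
    · exact w2.of_isClosed_subset (isClosed_tsupport _) hts
    · exact lt_of_le_of_lt ha (w3 (hts hy)).1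
  have hV : SW (fun y => (V y : ℂ)) := swOf (by norm_num) v1 v2 v5
  have hom : SW (fun y => (om y : ℂ)) := swOf (by norm_num) o1 o2 o5
  have hNN : NN (fun y => (om y : ℂ)) := by
    refine ⟨fun y => ⟨by simpa using o3 y, by simp⟩, ?_⟩
    by_contra hcon
    push Not at hcon
    apply o7
    have : (fun y => (om y : ℂ)) = fun _ => 0 := funext hcon
    rw [this]
    simp [mellin]
  set V' : ℝ → ℂ := fun y => (V y : ℂ) with hV'
  set om' : ℝ → ℂ := fun y => (om y : ℂ) with hom'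
  -- the inputs
  obtain ⟨e, κ, hκ, hAC, hdom, hL5'⟩ :=
    hL5 M m₀ h36 hrad hP ψ l hψ hl F.ξ hF.ξle hF.ξ1 h hh om' hom hNN
  choose C5 Q5 h5 using fun j => hL5' V' hV (F.qL j) (hF.qL j)
  choose CN QN hN using fun j =>
    hNP M m₀ h36 hrad ψ l hψ hl F.ξ hF.ξle h hh om' hom V' hV (F.qL j) (hF.qL j)
  obtain ⟨C7, hC7, h7⟩ := hL7 M m₀ h36 hrad ψ l F hψ hF hFE h hh V' om' hV hom (d / 4) d
    (by linarith) hd hdc hde
  have hqpos : ∀ j, 0 < F.qL j := fun j => by linarith [hF.qL j]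
  -- the constant
  set B : ℝ := 3 * C7 + ∑ j, ‖F.cL j‖ * (2 * Real.sqrt 3 * Real.sqrt (F.qL j)) *
    (|C5 j| + |CN j|) with hB
  have hB0 : 0 ≤ B := by positivity
  have hr' : (0 : ℝ) < r := by exact_mod_cast hr
  -- the threshold
  have hev : ∀ᶠ Q : ℝ in Filter.atTop, 1 < Q ∧ Q₀ ≤ Q ∧ (∀ j, Q5 j ≤ Q) ∧ (∀ j, QN j ≤ Q) ∧
      (nm F.M' : ℝ) * 81 < Q ^ (y / r) / 9 ∧ (nm M : ℝ) < Q ^ (y / r) / 9 := by
    have hyr : 0 < y / r := by positivity
    have ht := tendsto_rpow_atTop hyr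
    have t1 := ht.eventually_gt_atTop ((nm F.M' : ℝ) * 81 * 9)
    have t2 := ht.eventually_gt_atTop ((nm M : ℝ) * 9)
    filter_upwards [Filter.eventually_gt_atTop 1, Filter.eventually_ge_atTop Q₀,
      Filter.eventually_all.mpr (fun j => Filter.eventually_ge_atTop (Q5 j)),
      Filter.eventually_all.mpr (fun j => Filter.eventually_ge_atTop (QN j)), t1, t2]
      with Q a1 a2 a3 a4 a5 a6
    exact ⟨a1, a2, a3, a4, by linarith, by linarith⟩
  obtain ⟨Q₁, hQ₁⟩ := Filter.eventually_atTop.mp hev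
  refine LH_ne_zero_of_SQ hψ (sw_rw hV) hAC hdom hF.qL hF.nz (θ := θ - δ)
    (C := B / (2 * Real.sqrt 3 * ‖κ‖ * c) / (d₀ / 2 / r) ^ r) (Q₁ := Q₁) (by linarith) ?_
    (by linarith) h1' v7
  intro Q hQ
  obtain ⟨a1, a2, a3, a4, a5, a6⟩ := hQ₁ Q hQ
  have hQ0 : 0 < Q := by linarith
  set K : ℝ := Q ^ (1 / 2 + y + d) with hK
  have hK0 : 0 < K := by positivity
  have hsQ : 0 < Real.sqrt Q := Real.sqrt_pos.mpr hQ0
  set A1 : ℂ := Amp h r y Q Finset.univ (fun _ => 1) with hA1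
  set S : Fin F.nL → ℂ := fun j => SQ e V' ψ l (Q / F.qL j) with hS
  set T : ℂ := ∑ j, F.cL j * ((F.qL j ^ (1 / 6 : ℝ) : ℝ) : ℂ) * S j with hT
  set Lj : Fin F.nL → ℂ := fun j => LK h r y Q M m₀ F.ξ (tw ψ l) V' om' (fun _ => True)
    (K / F.qL j) (Q / F.qL j) with hLj
  set R : ℝ := K ^ (1 / 3 : ℝ) * Q ^ (y + θ - d₀) with hR
  have hR0 : 0 ≤ R := by positivity
  -- the error terms
  have hEj : ∀ j, ‖Lj j - κ * (((K / F.qL j) ^ (1 / 3 : ℝ) : ℝ) : ℂ) * A1 * S j‖ ≤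
      (|C5 j| + |CN j|) * R := by
    intro j
    obtain ⟨b1, b2⟩ := hN j Q (a4 j)
    have b3 := h5 j Q (a3 j)
    have b4 : C5 j * K ^ (1 / 3 : ℝ) * Q ^ (y + θ - d₃) ≤ |C5 j| * R := by
      rw [hR, mul_assoc]
      have : Q ^ (y + θ - d₃) ≤ Q ^ (y + θ - d₀) :=
        Real.rpow_le_rpow_of_exponent_le a1.le (by linarith)
      have := le_abs_self (C5 j)
      gcongr
    have b5 : CN j * K ^ (1 / 3 : ℝ) * Q ^ (y + θ - d₄) ≤ |CN j| * R := by
      rw [hR, mul_assoc]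
      have : Q ^ (y + θ - d₄) ≤ Q ^ (y + θ - d₀) :=
        Real.rpow_le_rpow_of_exponent_le a1.le (by linarith)
      have := le_abs_self (CN j)
      gcongr
    have b6 : Lj j - κ * (((K / F.qL j) ^ (1 / 3 : ℝ) : ℝ) : ℂ) * A1 * S j =
        (LK h r y Q M m₀ F.ξ (tw ψ l) V' om' (Prn M) (K / F.qL j) (Q / F.qL j) -
          κ * (((K / F.qL j) ^ (1 / 3 : ℝ) : ℝ) : ℂ) * A1 * S j) +
        LK h r y Q M m₀ F.ξ (tw ψ l) V' om' (fun k => ¬ Prn M k) (K / F.qL j)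
          (Q / F.qL j) := by
      rw [hLj]
      simp only
      rw [b1]; ring
    rw [b6]
    refine (norm_add_le _ _).trans ?_
    linarith
  -- the exact identity
  have hid : (∑ j, F.cL j * DL h r y Q M m₀ F.ξ (tw ψ l) V' om' (K / F.qL j) (Q / F.qL j)) *
      ((K / Real.sqrt Q : ℝ) : ℂ) =
      ∑ j, F.cL j * ((2 * Real.sqrt 3 * Real.sqrt (F.qL j) : ℝ) : ℂ) * Lj j := by
    rw [Finset.sum_mul]
    apply Finset.sum_congr rfl
    intro j _
    rw [hL6 h hh r y Q M m₀ hr hy a1.le h36 hrad a6 F.ξ (tw ψ l) hF.ξle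
      (norm_tw_ext_le hψ0 l) V' om' hV hom (K / F.qL j) (Q / F.qL j)
      (div_pos hK0 (hqpos j)) (div_pos hQ0 (hqpos j))]
    have e1 : 2 * Real.sqrt 3 * (Real.sqrt (Q / F.qL j) / (K / F.qL j)) * (K / Real.sqrt Q) =
        2 * Real.sqrt 3 * Real.sqrt (F.qL j) := by
      have hq1 := hqpos j
      have hsq : 0 < Real.sqrt (F.qL j) := Real.sqrt_pos.mpr hq1
      rw [Real.sqrt_div hQ0.le]
      have e2 : F.qL j = Real.sqrt (F.qL j) * Real.sqrt (F.qL j) :=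
        (Real.mul_self_sqrt hq1.le).symm
      field_simp
      rw [sq]
      exact e2
    rw [← e1]
    push_cast
    ring
  have hmain : (∑ j, F.cL j * DL h r y Q M m₀ F.ξ (tw ψ l) V' om' (K / F.qL j) (Q / F.qL j)) *
      ((K / Real.sqrt Q : ℝ) : ℂ) =
      ((2 * Real.sqrt 3 * K ^ (1 / 3 : ℝ) : ℝ) : ℂ) * κ * A1 * T +
      ∑ j, F.cL j * ((2 * Real.sqrt 3 * Real.sqrt (F.qL j) : ℝ) : ℂ) *
        (Lj j - κ * (((K / F.qL j) ^ (1 / 3 : ℝ) : ℝ) : ℂ) * A1 * S j) := by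
    rw [hid, hT, Finset.mul_sum, ← Finset.sum_add_distrib]
    apply Finset.sum_congr rfl
    intro j _
    have e1 : Real.sqrt (F.qL j) * (K / F.qL j) ^ (1 / 3 : ℝ) =
        K ^ (1 / 3 : ℝ) * F.qL j ^ (1 / 6 : ℝ) := by
      have hq1 := hqpos j
      rw [Real.sqrt_eq_rpow, Real.div_rpow hK0.le hq1.le]
      have e2 : F.qL j ^ (1 / 2 : ℝ) = F.qL j ^ (1 / 3 : ℝ) * F.qL j ^ (1 / 6 : ℝ) := by
        rw [← Real.rpow_add hq1]; norm_num
      rw [e2]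
      field_simp
    have e3 : ((Real.sqrt (F.qL j) : ℝ) : ℂ) * (((K / F.qL j) ^ (1 / 3 : ℝ) : ℝ) : ℂ) =
        ((K ^ (1 / 3 : ℝ) : ℝ) : ℂ) * ((F.qL j ^ (1 / 6 : ℝ) : ℝ) : ℂ) := by
      rw [← Complex.ofReal_mul, e1, Complex.ofReal_mul]
    push_cast at e3 ⊢
    linear_combination (2 * (Real.sqrt 3 : ℂ) * F.cL j * κ * A1 * S j) * e3
  -- the bound
  have hb7 := h7 Q a1.le a5
  have hb7' : ‖(∑ j, F.cL j * DL h r y Q M m₀ F.ξ (tw ψ l) V' om' (K / F.qL j)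
      (Q / F.qL j)) * ((K / Real.sqrt Q : ℝ) : ℂ)‖ ≤ 3 * C7 * R := by
    rw [norm_mul, Complex.norm_real, Real.norm_of_nonneg (by positivity)]
    refine hb7.trans ?_
    rw [mul_assoc]
    have e1 := exp7 (η := η) (y := y) hθ hd hdc hde a1.le
    calc C7 * (Q ^ (d / 4) * (Q ^ ((1 / 2 + y) / 3 + y + θ) *
          (Q ^ (d * (3 - 4 * θ)) + Q ^ (5 * d - η) + Q ^ (-(1 / 20) : ℝ))))
        ≤ C7 * (3 * (K ^ (1 / 3 : ℝ) * Q ^ (y + θ - d / 4))) := by gcongr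
      _ ≤ C7 * (3 * (K ^ (1 / 3 : ℝ) * Q ^ (y + θ - d₀))) := by
          have : Q ^ (y + θ - d / 4) ≤ Q ^ (y + θ - d₀) :=
            Real.rpow_le_rpow_of_exponent_le a1.le (by linarith)
          gcongr
      _ = 3 * C7 * R := by rw [hR]; ring
  have hsum : ‖∑ j, F.cL j * ((2 * Real.sqrt 3 * Real.sqrt (F.qL j) : ℝ) : ℂ) *
        (Lj j - κ * (((K / F.qL j) ^ (1 / 3 : ℝ) : ℝ) : ℂ) * A1 * S j)‖ ≤
      (∑ j, ‖F.cL j‖ * (2 * Real.sqrt 3 * Real.sqrt (F.qL j)) * (|C5 j| + |CN j|)) * R := by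
    rw [Finset.sum_mul]
    refine norm_sum_le_of_le _ fun j _ => ?_
    rw [norm_mul, norm_mul, Complex.norm_real, Real.norm_of_nonneg (by positivity), mul_assoc
      (‖F.cL j‖ * (2 * Real.sqrt 3 * Real.sqrt (F.qL j)))]
    have := hEj j
    gcongr
  have hfin : 2 * Real.sqrt 3 * K ^ (1 / 3 : ℝ) * ‖κ‖ * ‖A1‖ * ‖T‖ ≤ B * R := by
    have e1 : ((2 * Real.sqrt 3 * K ^ (1 / 3 : ℝ) : ℝ) : ℂ) * κ * A1 * T =
        (∑ j, F.cL j * DL h r y Q M m₀ F.ξ (tw ψ l) V' om' (K / F.qL j) (Q / F.qL j)) *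
          ((K / Real.sqrt Q : ℝ) : ℂ) -
        ∑ j, F.cL j * ((2 * Real.sqrt 3 * Real.sqrt (F.qL j) : ℝ) : ℂ) *
          (Lj j - κ * (((K / F.qL j) ^ (1 / 3 : ℝ) : ℝ) : ℂ) * A1 * S j) := by
      rw [hmain]; ring
    have e2 : ‖((2 * Real.sqrt 3 * K ^ (1 / 3 : ℝ) : ℝ) : ℂ) * κ * A1 * T‖ =
        2 * Real.sqrt 3 * K ^ (1 / 3 : ℝ) * ‖κ‖ * ‖A1‖ * ‖T‖ := by
      rw [norm_mul, norm_mul, norm_mul, Complex.norm_real, Real.norm_of_nonneg (by positivity)]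
    rw [← e2, e1]
    refine (norm_sub_le _ _).trans ((add_le_add hb7' hsum).trans (le_of_eq ?_))
    rw [hB]; ring
  -- division by the amplifier
  have hlogQ : 0 < Real.log Q := Real.log_pos a1
  have hA1low := hlow Q a2
  have hκ' : 0 < ‖κ‖ := norm_pos_iff.mpr hκ
  have h3 : (0 : ℝ) < Real.sqrt 3 := by positivity
  have hstep1 : 2 * Real.sqrt 3 * K ^ (1 / 3 : ℝ) * ‖κ‖ * (c * Q ^ y * (Real.log Q ^ r)⁻¹) * ‖T‖ ≤
      B * R := by
    refine le_trans ?_ hfin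
    gcongr
  have hT1 : ‖T‖ ≤ B / (2 * Real.sqrt 3 * ‖κ‖ * c) * (Real.log Q ^ r * Q ^ (θ - d₀)) := by
    have hRe : R = K ^ (1 / 3 : ℝ) * (Q ^ y * Q ^ (θ - d₀)) := by
      rw [hR, ← Real.rpow_add hQ0]; ring_nf
    rw [hRe] at hstep1
    have hpos : 0 < 2 * Real.sqrt 3 * K ^ (1 / 3 : ℝ) * ‖κ‖ * (c * Q ^ y *
        (Real.log Q ^ r)⁻¹) := by positivity
    have h4 : ‖T‖ ≤ B * (K ^ (1 / 3 : ℝ) * (Q ^ y * Q ^ (θ - d₀))) /
        (2 * Real.sqrt 3 * K ^ (1 / 3 : ℝ) * ‖κ‖ * (c * Q ^ y * (Real.log Q ^ r)⁻¹)) := by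
      rw [le_div_iff₀ hpos]
      linarith
    refine h4.trans (le_of_eq ?_)
    field_simp
  have hlp := log_pow_le hr (x := d₀ / 2) (by linarith) a1
  calc ‖T‖ ≤ B / (2 * Real.sqrt 3 * ‖κ‖ * c) * (Real.log Q ^ r * Q ^ (θ - d₀)) := hT1
    _ ≤ B / (2 * Real.sqrt 3 * ‖κ‖ * c) *
        (Q ^ (d₀ / 2) / (d₀ / 2 / r) ^ r * Q ^ (θ - d₀)) := by gcongr
    _ = B / (2 * Real.sqrt 3 * ‖κ‖ * c) / (d₀ / 2 / r) ^ r *
        (Q ^ (d₀ / 2) * Q ^ (θ - d₀)) := by ring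
    _ = B / (2 * Real.sqrt 3 * ‖κ‖ * c) / (d₀ / 2 / r) ^ r * Q ^ (θ - d₀ / 2) := by
        rw [← Real.rpow_add hQ0]; ring_nf
    _ ≤ B / (2 * Real.sqrt 3 * ‖κ‖ * c) / (d₀ / 2 / r) ^ r * Q ^ (θ - δ) := by
        have h5' : Q ^ (θ - d₀ / 2) ≤ Q ^ (θ - δ) :=
          Real.rpow_le_rpow_of_exponent_le a1.le (by linarith)
        gcongr

end Crest.Agent.R017.BEndA699
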