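import Crest.Agent.R017.L5One_401
import Crest.Agent.R017.L5Fin_770
import Crest.Agent.R017.L7K_47
import Crest.Agent.R017.NPLd_699

/-!
# Row 17, section B: all leaves except `PropL3` (helper401)
-/

set_option autoImplicit false

namespace Crest.Agent.R017.BFin401

open Crest.Agent.R017.B770 Crest.Agent.R017.Master3

/-- **L5** -/
theorem leafL5 : LeafL5 := L5Fin770.partL5_of L5One401.oneE

/-- **section B** from the reduction `L3` (and `L6'`) -/
theorem stepB3 (hL6 : PropL6') (hL3 : PropL3) : StepB3 :=
  Master3.stepB3 hL6 hL3 L747.leafL7 leafL5 NPL699.leafNPL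

end Crest.Agent.R017.BFin401
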