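import Crest.Agent.R017.E4Ue_164

/-!
# Row 17, R8 / E5, consumer of E4 : the sizes (helper164)

* `SzF` : sizes of the frame;  `SzD` : sizes of one summand;  `SzU` : the Prop (helper512)
-/

set_option autoImplicit false

noncomputable section

open Finset Complex
open scoped ComplexConjugate ContDiff

namespace Crest.Agent.R017.E4U164

open Crest.Agent.R012 Crest.Agent.R012.Eis
open Crest.Agent.R012.Mob705 hiding pb mem_pb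
open Crest.Agent.R012.LS2 (S mem_S)
open Crest.Agent.R017.Sx545 (Sm)
open Crest.Agent.R017.CM106 (FS)
open Crest.Agent.R017.E2440
open Crest.Agent.R017.End699 (HC)
open Crest.Agent.R017.E4352 (PrI rd Dat4)
open Crest.Agent.R017.E5P571 (Gd)
open Crest.Agent.R017.E5B71
open Crest.Agent.R017.B770
open Crest.Agent.R017.FE47 (SM)
open Crest.Agent.R017.Prov71
open Crest.Agent.R017.E5L770
open Crest.Agent.R017.E4D164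
open Crest.Agent.R017.E4v5 (HM5)
open Crest.Agent.R017.E4J352 (Tm JB rngD rngF gx)
open Crest.Agent.R017.E4ap783 (Cs PG mtr TG7 Ap7)

variable {Λ : Type*}

/-- **sizes of the frame**, `Y = X^A0` -/
structure SzF (π : Λ → DPar) (h : ℝ → ℝ) (e0 r R Y : ℝ) (Bf : ℝ → ℝ → ℝ → ℝ)
    (Jf : ℝ → ℝ → ℝ → Finset (Eis × Eis)) (lam : Λ × Eis) (a : Bd × ℕ) (ps : List Pq) : Prop where
  K1 : 1 ≤ R * Real.exp a.1.l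
  KY : R * Real.exp a.1.l ≤ Y
  eY : Real.exp (e0 * a.1.l) ≤ Y
  y3 : (Y3 a.1 r : ℝ) ^ 3 ≤ Y
  n₃ : (nm (π lam.1).n₃ : ℝ) ≤ Y
  d₃ : (nm a.1.d₃ : ℝ) ≤ Y
  eN : (nm a.1.e : ℝ) ≤ Y
  N₁ : ∀ g e₀ t, IsPrim g → g ∣ a.1.d₃ → IsPrim e₀ → IsPrim t →
    (nm e₀ : ℝ) ≤ Real.exp (e0 * a.1.l) →
    (∃ β ∈ T3 Bf a.1 r, t ∣ tS (a.1.e * ∏ i, β i)) →
    ∀ x ∈ (QK a.1 (R * Real.exp a.1.l)) ×ˢ J3 Jf a.1 a.2,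
      nm (XI jD (jJ (sE (fun q => q ^ 2 * g) e₀ t)) x) ≤ ⌊Y⌋₊
  N₂ : ∀ n m, b1 (π lam.1) h lam.2 ps n ≠ 0 → b2 (π lam.1) h lam.2 a.1 ps m ≠ 0 →
    nm (n * m ^ 2) ≤ ⌊Y⌋₊
  sS : ∀ g e₀ t, IsPrim g → g ∣ a.1.d₃ → IsPrim e₀ → IsPrim t →
    (nm e₀ : ℝ) ≤ Real.exp (e0 * a.1.l) →
    (∃ β ∈ T3 Bf a.1 r, t ∣ tS (a.1.e * ∏ i, β i)) →
    ∀ q ∈ QK a.1 (R * Real.exp a.1.l), (nm (sS g e₀ t q) : ℝ) ≤ Y

/-- **sizes of one summand**, `Y = X^A0` (`uY` fails for an empty class) -/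
structure SzD (π : Λ → DPar) (h : ℝ → ℝ) (C0 Y : ℝ) (Jf : ℝ → ℝ → ℝ → Finset (Eis × Eis))
    (lam : Λ × Eis) (a : Bd × ℕ) (ps : List Pq) (x : Dt) (h₁ : FS (b1 (π lam.1) h lam.2 ps))
    (h₂ : FS (b2 (π lam.1) h lam.2 a.1 ps)) : Prop where
  dat : Dat4 (π lam.1).n₃ 1 lD (x.v π h lam Jf a) (x.w π h lam Jf a ps h₁ h₂) Y
  ub : ∀ o x' y, x.v π h lam Jf a o x' ≠ 0 → x.w π h lam Jf a ps h₁ h₂ o y ≠ 0 →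
    (nm (1 * x' * y) : ℝ) * lD o ^ 2 ≤ C0 * U0 (π lam.1) a ps x
  u0 : 0 < U0 (π lam.1) a ps x
  uY : (x.I Jf a).Nonempty → C0 * U0 (π lam.1) a ps x ≤ Y
  nrm : nrm x ≤ Y

/-- **the sizes** (helper512) -/
def SzU (π : Λ → DPar) (h : ℝ → ℝ) (A d e0 r : ℝ) (Bf : ℝ → ℝ → ℝ → ℝ)
    (Jf : ℝ → ℝ → ℝ → Finset (Eis × Eis)) : Prop :=
  ∀ (lam : Λ × Eis) (N : ℕ) (B R : ℝ), 0 < R → ∃ A0 C0 X₀ : ℝ, 1 ≤ A0 ∧ 1 ≤ C0 ∧ 1 < X₀ ∧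
    ∀ X : ℝ, X₀ ≤ X → ∀ (a : Bd × ℕ) (ps : List Pq)
      (q : (Option (Fin 3 ⊕ Fin 5) → ℝ) × (Kd → ℝ)) (δ δ' : ℝ), δ ≤ 1 / 2 → δ' ≤ 1 →
      FrL A d δ δ' B X N a ps q → a.1.ok → lam.2 ∈ SM (π lam.1).n → a.1.okP (π lam.1) →
      SzF π h e0 r R (X ^ A0) Bf Jf lam a ps ∧
      ∀ x : Dt, x.OK (π lam.1) Bf e0 r 1 X a.1 →
      ∀ (h₁ : FS (b1 (π lam.1) h lam.2 ps)) (h₂ : FS (b2 (π lam.1) h lam.2 a.1 ps)),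
        SzD π h C0 (X ^ A0) Jf lam a ps x h₁ h₂

end Crest.Agent.R017.E4U164
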