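import Crest.Agent.R017.E4Xc_372
import Crest.Agent.R017.E4Uf_164

/-!
# Row 17, exceptional class, StrUX: sizes, gates (helper372)

* `SzFX`, `SzDX`, `SzUX` : helper164's sizes for the double difference
* `gte p w` : the `y`-side switched off where the `x`-side vanishes; `JB_gte`, `HM5_gte`, `MpY_gte`,
  `E4Ly_gte`, `dat_gte`
* `vE_cop`, `wE_cop` : coprimality of the outer frequency
-/

set_option autoImplicit false

noncomputable section

open Finset Complex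
open scoped ComplexConjugate

namespace Crest.Agent.R017.E4Df372

open Crest.Agent.R012 Crest.Agent.R012.Eis Crest.Agent.R012.GaussLoc283
open Crest.Agent.R012.Mob705 hiding pb mem_pb
open Crest.Agent.R012.LS2 (S mem_S)
open Crest.Agent.R017.Sx545 (Sm)
open Crest.Agent.R017.CM106 (CS FS)
open Crest.Agent.R017.C70 (OKJ)
open Crest.Agent.R017.End699 (HC)
open Crest.Agent.R017.E4352 (PrI rd Dat4 SSm tws Sd)
open Crest.Agent.R017.E5P571 (Gd)
open Crest.Agent.R017.E5B71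
open Crest.Agent.R017.B770 (DPar)
open Crest.Agent.R017.Prov71
open Crest.Agent.R017.FE47 (SM)
open Crest.Agent.R017.ExP960 hiding alX
open Crest.Agent.R017.E4D164 hiding E4L
open Crest.Agent.R017.E5L770
open Crest.Agent.R017.E4v5 (HM5)
open Crest.Agent.R017.E4J352 (Tm JB rngD rngF gx)
open Crest.Agent.R017.E4ap783 (TG7 PG mtr E4Ly MpY)
open Crest.Agent.R017.E4X266 (rngDC rngFC Mq1 Mq0)
open Crest.Agent.R017.E4U164

variable {Λ : Type*}

/-- **sizes of the frame**, `Y = X^A0` -/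
structure SzFX (π : Λ → DPar) (h : ℝ → ℝ) (e0 r R Y : ℝ) (Bf : ℝ → ℝ → ℝ → ℝ)
    (Jf : ℝ → ℝ → ℝ → Finset (Eis × Eis)) (lam : Λ × Eis) (a : BdX × ℕ) (ps : List Pq) :
    Prop where
  K1 : 1 ≤ R * Real.exp a.1.l
  KY : R * Real.exp a.1.l ≤ Y
  eY : Real.exp (e0 * a.1.l) ≤ Y
  y3 : (Y3 a.1.toBd r : ℝ) ^ 3 ≤ Y
  n₃ : (nm (π lam.1).n₃ : ℝ) ≤ Y
  d₃ : (nm a.1.d₃ : ℝ) ≤ Y
  eN : (nm a.1.e : ℝ) ≤ Y
  N₁ : ∀ g e₀ t, IsPrim g → g ∣ a.1.d₃ → IsPrim e₀ → IsPrim t →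
    (nm e₀ : ℝ) ≤ Real.exp (e0 * a.1.l) →
    (∃ β ∈ T3 Bf a.1.toBd r, t ∣ tS (a.1.e * ∏ i, β i)) →
    ∀ x ∈ (QK a.1.toBd (R * Real.exp a.1.l)) ×ˢ J3 Jf a.1.toBd a.2,
      nm (XI jD (jJ (sE (fun q => q ^ 2 * g) e₀ t)) x) ≤ ⌊Y⌋₊
  N₂ : ∀ j n m, b1 (π lam.1) h lam.2 ps n ≠ 0 → b2X (π lam.1) h lam.2 a.1 ps j m ≠ 0 →
    nm (n * m ^ 2) ≤ ⌊Y⌋₊
  sS : ∀ g e₀ t, IsPrim g → g ∣ a.1.d₃ → IsPrim e₀ → IsPrim t →
    (nm e₀ : ℝ) ≤ Real.exp (e0 * a.1.l) →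
    (∃ β ∈ T3 Bf a.1.toBd r, t ∣ tS (a.1.e * ∏ i, β i)) →
    ∀ q ∈ QK a.1.toBd (R * Real.exp a.1.l), (nm (sS g e₀ t q) : ℝ) ≤ Y

/-- **sizes of one summand**, `Y = X^A0` -/
structure SzDX (π : Λ → DPar) (h : ℝ → ℝ) (C0 Y : ℝ) (Jf : ℝ → ℝ → ℝ → Finset (Eis × Eis))
    (lam : Λ × Eis) (a : BdX × ℕ) (ps : List Pq) (x : Dt) (j : Fin 2)
    (h₁ : FS (b1 (π lam.1) h lam.2 ps)) (h₂ : FS (b2X (π lam.1) h lam.2 a.1 ps j)) : Prop where
  dat : Dat4 (π lam.1).n₃ 1 lD (vE π h lam Jf a x) (wE π h lam Jf a ps x j h₁ h₂) Y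
  ub : ∀ o x' y, vE π h lam Jf a x o x' ≠ 0 → wE π h lam Jf a ps x j h₁ h₂ o y ≠ 0 →
    (nm (1 * x' * y) : ℝ) * lD o ^ 2 ≤ C0 * U0 (π lam.1) (bl a) ps x
  u0 : 0 < U0 (π lam.1) (bl a) ps x
  uY : C0 * U0 (π lam.1) (bl a) ps x ≤ Y
  nrm : nrm x ≤ Y

/-- **the sizes** -/
def SzUX (π : Λ → DPar) (h : ℝ → ℝ) (A d β e0 r : ℝ) (Bf : ℕ → ℝ → ℝ → ℝ → ℝ)
    (Jf : ℝ → ℝ → ℝ → Finset (Eis × Eis)) : Prop :=
  ∀ (lam : Λ × Eis) (N : ℕ) (B R : ℝ), 0 < R → ∃ A0 C0 X₀ : ℝ, 1 ≤ A0 ∧ 1 ≤ C0 ∧ 1 < X₀ ∧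
    ∀ X : ℝ, X₀ ≤ X → ∀ (a : BdX × ℕ) (ps : List Pq)
      (q : (Option IX5 → ℝ) × (Kd → ℝ)) (δ δ' : ℝ), δ ≤ 1 / 2 → δ' ≤ 1 →
      FrLX A d β δ δ' B X N a ps q → a.1.ok → lam.2 ∈ SM (π lam.1).n → a.1.okP (π lam.1) →
      SzFX π h e0 r R (X ^ A0) (Bf a.2) Jf lam a ps ∧
      ∀ x : Dt, x.OK (π lam.1) (Bf a.2) e0 r 1 X a.1.toBd → (x.I Jf (bl a)).Nonempty →
      ∀ (j : Fin 2) (h₁ : FS (b1 (π lam.1) h lam.2 ps))
        (h₂ : FS (b2X (π lam.1) h lam.2 a.1 ps j)),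
        SzDX π h C0 (X ^ A0) Jf lam a ps x j h₁ h₂

/-! ### gates -/

open Classical in
/-- the `y`-side on the outer indices with `p` -/
def gte {O : Type} (p : O → Prop) (w : O → Eis → ℂ) (o : O) (y : Eis) : ℂ :=
  if p o then w o y else 0

section gate

variable {O : Type} {p : O → Prop} {v w : O → Eis → ℂ}

lemma gte_ne {o : O} {y : Eis} (h : gte p w o y ≠ 0) : p o ∧ w o y ≠ 0 := by
  unfold gte at h
  split_ifs at h with h1
  · exact ⟨h1, h⟩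
  · exact absurd rfl h

lemma gte_of {o : O} (h : p o) : gte p w o = w o := by
  funext y
  unfold gte
  rw [if_pos h]

lemma xs_zero {t : Tm O} (h : ∀ x, v t.o x = 0) (G : Eis → ℂ) : t.xs v G = 0 := by
  have h1 : v t.o = fun _ => 0 := funext h
  unfold Tm.xs
  rw [h1]
  unfold Sd
  simp [tws, E4o502.vD]

lemma val_gte (hv : ∀ o, ¬ p o → ∀ x, v o x = 0) (f : Eis) (lam : O → ℝ) (G : Eis → ℂ)
    (t : Tm O) : t.val f lam v (gte p w) G = t.val f lam v w G := by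
  unfold Tm.val
  by_cases h : p t.o
  · have e : t.ys (gte p w) G = t.ys w G := by
      unfold Tm.ys
      rw [gte_of h]
    rw [e]
  · rw [xs_zero (hv _ h)]
    simp

lemma JB_gte (hv : ∀ o, ¬ p o → ∀ x, v o x = 0) {M f : Eis} {lam : O → ℝ} {G : Eis → ℂ}
    {rng : Tm O → Prop} {S : ℝ} (H : JB M f lam v w G rng S) :
    JB M f lam v (gte p w) G rng S := by
  intro c 𝒥 h𝒥
  have h1 := H c 𝒥 (fun t ht => by
    have h2 := h𝒥 t ht
    rw [val_gte hv] at h2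
    exact h2)
  rw [Finset.sum_congr rfl fun t _ => val_gte hv f lam G t]
  exact h1

variable [Fintype O]

lemma HM5_gte (hv : ∀ o, ¬ p o → ∀ x, v o x = 0) {M f : Eis} {lam : O → ℝ} {K T₀ : ℝ}
    {mt : Eis → ℝ → ℂ} {Mn : ℝ} (H : HM5 M f lam v w K T₀ mt Mn) :
    HM5 M f lam v (gte p w) K T₀ mt Mn := by
  intro R Z q₁ q₃ F h1 h2 h3 h4 h5 h6 h7 h8 h9 h10 h11
  have h12 := H R Z q₁ q₃ F h1 h2 h3 h4 h5 h6 h7 h8 h9 h10 h11
  refine le_trans (le_of_eq ?_) h12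
  congr 2
  refine Finset.sum_congr rfl fun o _ => ?_
  by_cases h : p o
  · rw [gte_of h]
  · have h0 : v o = fun _ => 0 := funext (hv o h)
    refine tsum_congr fun x => ?_
    rw [h0]
    unfold tws
    simp

lemma E4Ly_gte (hv : ∀ o, ¬ p o → ∀ x, v o x = 0) (M f : Eis) (ψ : Eis → ℂ) (l : ℤ)
    (W : ℝ → ℂ) (K : ℝ) (c : O → Eis) (lam : O → ℝ) :
    E4Ly M f ψ l W K c lam v (gte p w) = E4Ly M f ψ l W K c lam v w := by
  unfold E4Ly
  refine Finset.sum_congr rfl fun o _ => ?_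
  by_cases h : p o
  · rw [gte_of h]
  · refine tsum_congr fun x => ?_
    rw [hv o h x, zero_mul, zero_mul]

lemma MpY_gte (hv : ∀ o, ¬ p o → ∀ x, v o x = 0) (f : Eis) (c : O → Eis) (lam : O → ℝ)
    (K h : ℝ) : MpY f c lam v (gte p w) K h = MpY f c lam v w K h := by
  unfold MpY
  have e1 : ∀ o, Mq1 (c o) f (v o) (gte p w o) = Mq1 (c o) f (v o) (w o) := by
    intro o
    by_cases h : p o
    · rw [gte_of h]
    · unfold Mq1
      refine tsum_congr fun x => ?_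
      rw [hv o h x]
      simp
  have e2 : ∀ o, Mq0 (c o) f (v o) (gte p w o) = Mq0 (c o) f (v o) (w o) := by
    intro o
    by_cases h : p o
    · rw [gte_of h]
    · unfold Mq0
      refine tsum_congr fun x => ?_
      rw [hv o h x]
      simp
  simp only [e1, e2]

lemma dat_gte {M f : Eis} {lam : O → ℝ} {X : ℝ} (H : Dat4 M f lam v w X) :
    Dat4 M f lam v (gte p w) X where
  X1 := H.X1
  card := H.card
  lam1 := H.lam1
  hf := H.hf
  hv := H.hv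
  hw o := by
    by_cases h : p o
    · rw [gte_of h]
      exact H.hw o
    · have e : gte p w o = fun _ => 0 := by
        funext y
        unfold gte
        rw [if_neg h]
      rw [e]
      exact ⟨by simp, fun y hy => absurd rfl hy⟩
  vx := H.vx
  wy o y h := H.wy o y (gte_ne h).2
  vb := H.vb
  wb o y := by
    unfold gte
    split_ifs
    · exact H.wb o y
    · rw [norm_zero]
      linarith [H.X1]

end gate

/-! ### coprimality of the outer frequency -/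

lemma cD_prim {M : Eis} {I : Finset (Eis × (Eis × Eis))} {g e₀ t : Eis} (o : OD M I g e₀ t) :
    Sm M (cD o) := by
  classical
  have h := o.2
  unfold OD OU at h
  exact (Finset.mem_filter.mp h).2

/-- the `x`-side vanishes unless the outer frequency is prime to `fN` -/
lemma vX_cop {M : Eis} {ψ : Eis → ℂ} {l : ℤ} {I : Finset (Eis × (Eis × Eis))}
    {om : Eis × Eis → ℂ} {ph : Eis → ℂ} {E : Eis} (hf : IsPrim (fN M E)) {α : Eis → ℂ}
    {g e₀ t c₀ g' : Eis} (o : OD M I g e₀ t) (ho : ¬ IsCoprime (cD o) (fN M E)) (x : Eis) :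
    vX M ψ l I om ph E α g e₀ t c₀ g' o x = 0 := by
  classical
  unfold vX vI pu
  split_ifs with hx
  · refine Finset.sum_eq_zero fun i hi => ?_
    have h1 := (Finset.mem_filter.mp hi).1
    unfold II at h1
    obtain ⟨-, -, h2, h3⟩ := Finset.mem_filter.mp h1
    unfold cI
    rw [h2, h3]
    have h4 : sy (o.1.1 * o.1.2) (fN M E) = 0 := (syAx.eq_zero _ _ hf).mpr ho
    rw [h4]
    ring
  · rfl

/-- the `y`-side: the outer frequency is prime to `y` -/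
lemma wX_cop {M : Eis} {b₁ b₂ : Eis → ℂ} (h₁ : FS b₁) (h₂ : FS b₂) {E z : Eis}
    (hf : IsPrim (fN M E)) {OO : Finset (Eis × Eis)} (o : OO)
    (ho : IsCoprime (cD o) (fN M E)) {y : Eis}
    (hy : wX M b₁ b₂ (h₁.fin.toFinset ×ˢ h₂.fin.toFinset) E z o y ≠ 0) :
    IsCoprime (cD o) y := by
  unfold wX at hy
  obtain ⟨y', rfl, h3⟩ := mulw_ne hf.ne_zero hy
  refine ho.mul_right ?_
  unfold wI ww at h3
  obtain ⟨-, i, hi, h4, h5⟩ := pu_ne h3
  rw [Finset.mem_product, Set.Finite.mem_toFinset, Set.Finite.mem_toFinset] at hi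
  have p1 := h₁.prim _ hi.1
  have p2 := h₂.prim _ hi.2
  unfold cb at h5
  have h6 := right_ne_zero_of_mul h5
  have c1 : IsCoprime (o.1.1 * o.1.2) i.1 := by
    by_contra h
    exact (left_ne_zero_of_mul h6) ((syAx.eq_zero _ _ p1).mpr h)
  have c2 : IsCoprime (o.1.1 * o.1.2) i.2 := by
    by_contra h
    apply right_ne_zero_of_mul h6
    rw [(syAx.eq_zero _ _ p2).mpr h, map_zero]
  have c3 : IsCoprime (cD o) (z * y') := by
    rw [← h4]
    exact c1.mul_right c2.pow_right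
  exact c3.of_mul_right_right

end Crest.Agent.R017.E4Df372
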