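import Crest.Agent.R017.BK_858
import Crest.Agent.R017.E4Xf_372

/-!
# Row 17, T.4, `StrUX`: the cube `b0`, the frequency `kn` and the length `l` of a block (helper266)

helper858's `bk_blk` at the data of class E, one scale `s`.
-/

set_option autoImplicit false
set_option linter.unusedSectionVars false

noncomputable section

open Finset

namespace Crest.Agent.R017.E4SE266

open Crest.Agent.R012 Crest.Agent.R012.Eis
open Crest.Agent.R012.Mob705 hiding pb mem_pb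
open Crest.Agent.R017.Sx545 (Sm)
open Crest.Agent.R017.CM106 (FS)
open Crest.Agent.R017.C70 (OKJ)
open Crest.Agent.R017.E5B71
open Crest.Agent.R017.B770
open Crest.Agent.R017.Prov71
open Crest.Agent.R017.ExP960 hiding alX
open Crest.Agent.R017.E4D164 hiding E4L
open Crest.Agent.R017.E4J352
open Crest.Agent.R017.E4U164
open Crest.Agent.R017.E4Df372
open Crest.Agent.R017.E4X266 (rngDC rngFC)
open Crest.Agent.R017.E4RH858 (Pf pf Facts)
open Crest.Agent.R017.E4Dic352 (bkP cP lg tauS)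
open Crest.Agent.R017.JyF744 (nu2 yK)
open Crest.Agent.R017.YsM61 (yF)
open Crest.Agent.R017.BK858

variable {Λ : Type*} {π : Λ → DPar} {lam : Λ × Eis} {Jf : ℝ → ℝ → ℝ → Finset (Eis × Eis)}
  {a : BdX × ℕ} {x : Dt} {Bf : ℝ → ℝ → ℝ → ℝ} {e0 r ε X : ℝ}

/-- the sizes of a term -/
lemma sz_tmE {h : ℝ → ℝ} {ps : List Pq} {j : Fin 2} {h₁ : FS (b1 (π lam.1) h lam.2 ps)}
    {h₂ : FS (b2X (π lam.1) h lam.2 a.1 ps j)} {Y : ℝ} {G : Eis → ℂ}
    (hd : E4352.Dat4 (π lam.1).n₃ 1 lD (vE π h lam Jf a x) (wE π h lam Jf a ps x j h₁ h₂) Y)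
    {t : Tm (x.O π lam Jf (bl a))} (hok : t.OK (π lam.1).n₃ 1)
    (hv : t.val 1 lD (vE π h lam Jf a x) (wE π h lam Jf a ps x j h₁ h₂) G ≠ 0) :
    (nm t.D1 : ℝ) ≤ Y ∧ (nm (E4RH858.b1 t) : ℝ) ≤ Y ∧ (nm (pf t).b : ℝ) ≤ Y ^ 7 := by
  have hF := E4RH858.facts hd hok hv
  have hs := E4RH858.sz hd hok hv
  obtain ⟨-, -, hys⟩ := E4RH858.val_ne hv
  obtain ⟨y, -, -, hy⟩ := E4RH858.ys_ne hys
  have h2 : (nm (t.D1 * (t.Z * t.Z' * y)) : ℝ) ≤ Y := hd.wy _ _ hy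
  have n2 : t.D1 * (t.Z * t.Z' * y) ≠ 0 := ((hd.hw _).sm _ hy).ne_zero
  have le : ∀ {a b : Eis}, b ≠ 0 → a ∣ b → (nm b : ℝ) ≤ Y → (nm a : ℝ) ≤ Y := by
    intro a b hb hab hbY
    exact le_trans (by exact_mod_cast Div277.nm_le_of_dvd hb hab) hbY
  refine ⟨le n2 (dvd_mul_right _ _) h2, le n2 ?_ h2, hs.b⟩
  have h3 : E4RH858.b1 t ∣ t.Z' := by
    rw [hF.Z']
    exact dvd_mul_right _ _
  exact ((h3.mul_left _).mul_right _).mul_left _

/-- the dual length of one scale -/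
lemma dual_len {P : DPar} {ps : List Pq} {Y s : ℝ} (hY : 1 ≤ Y) (hl : 0 ≤ a.1.l)
    (hU0 : 0 < U0 P (bl a) ps x) (hUY : U0 P (bl a) ps x ≤ Y) (hs : s ≤ hE P a ps x) :
    U0 P (bl a) ps x / (Real.exp a.1.l * Real.exp (-s)) ≤ Y := by
  set U := U0 P (bl a) ps x with hU
  have hlog : Real.log U ≤ Real.log Y := Real.log_le_log hU0 hUY
  have hY0 : 0 ≤ Real.log Y := Real.log_nonneg hY
  have e1 : U / (Real.exp a.1.l * Real.exp (-s)) = Real.exp (Real.log U - a.1.l + s) := by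
    have h1 : Real.exp (Real.log U - a.1.l + s) * (Real.exp a.1.l * Real.exp (-s)) = U := by
      rw [← Real.exp_add, ← Real.exp_add]
      have : Real.log U - a.1.l + s + (a.1.l + -s) = Real.log U := by ring
      rw [this, Real.exp_log hU0]
    exact (eq_div_of_mul_eq (by positivity) h1).symm
  rw [e1, ← Real.exp_log (show 0 < Y by linarith)]
  refine Real.exp_le_exp.2 ?_
  unfold E4Df372.hE at hs
  rw [← hU] at hs
  rcases le_total ((2 * a.1.l - Real.log U) / 3) 0 with h1 | h1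
  · rw [max_eq_left h1] at hs
    linarith
  · rw [max_eq_right h1] at hs
    linarith

/-- **the first half of `XBlkX` at the sizes of the data**, scale `s`, `B₁ = 49 A0` -/
theorem bk_blkE {h : ℝ → ℝ} {ps : List Pq} {j : Fin 2} {h₁ : FS (b1 (π lam.1) h lam.2 ps)}
    {h₂ : FS (b2X (π lam.1) h lam.2 a.1 ps j)} (hJ : ∀ l N z, OKJ (Jf l N z)) (ha : a.1.ok)
    (hP : a.1.okP (π lam.1)) (hx : x.OK (π lam.1) Bf e0 r ε X a.1.toBd) {A0 C0 : ℝ} (hX : 1 ≤ X)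
    (hA0 : 1 ≤ A0) (hC0 : 1 ≤ C0) (SF : SzFX π h e0 r 1 (X ^ A0) Bf Jf lam a ps)
    (SD : SzDX π h C0 (X ^ A0) Jf lam a ps x j h₁ h₂) {ε' : ℝ} (hε' : ε' ≤ 1) {s : ℝ}
    (hs0 : 0 ≤ s) (hs : s ≤ hE (π lam.1) a ps x) {G : Eis → ℂ}
    {sw : Eis → Eis → Eis → Eis → Eis → Prop} {f : Eis} {c : E4J352.Win} {P : Pf} {β : Eis}
    {τ : Eis × Eis × Eis} {𝒥 : Finset (Tm (x.O π lam Jf (bl a)))} (hne : 𝒥.Nonempty)
    (h𝒥 : ∀ t ∈ 𝒥, t.OK (π lam.1).n₃ 1 ∧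
      t.val 1 lD (vE π h lam Jf a x) (wE π h lam Jf a ps x j h₁ h₂) G ≠ 0 ∧ t.In lD c ∧
      (rngD sw lD (X ^ ε' * Real.exp a.1.l * Real.exp (-s)) t ∨
        rngF sw lD (X ^ ε' * (U0 (π lam.1) (bl a) ps x / (Real.exp a.1.l * Real.exp (-s)))) t) ∧
      pf t = P ∧ bo3 t = β ∧ soL x f t = τ) :
    ∃ (kn : Tm (x.O π lam Jf (bl a)) → Eis) (l : ℝ), IsPrim (b0L x τ β) ∧
      (∀ t ∈ 𝒥, t.k * nu2 t.o = kn t * b0L x τ β ^ 3 ∧
        (∀ p : Eis, Prime p → p ∣ b0L x τ β → p ∣ nu2 t.o) ∧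
        (nm (yK nu2 t) : ℝ) ≤ X ^ (49 * A0)) ∧
      0 ≤ l ∧ Real.exp l ≤ X ^ (49 * A0) ∧
      (∀ t ∈ 𝒥, (nm (yF kn E4RH858.b1 (bkP P) t) : ℝ) ≤ Real.exp l) ∧
      (∀ t ∈ 𝒥, lg (yF kn E4RH858.b1 (bkP P) t) = kyT P (b0L x τ β) t) ∧
      (∀ t ∈ 𝒥, l ≤ kyT P (b0L x τ β) t + 5 * Real.log 2) := by
  classical
  have hX0 : 0 < X := by linarith
  set Y : ℝ := X ^ A0 with hYd
  have hY1 : 1 ≤ Y := Real.one_le_rpow hX (by linarith)
  have hXY : X ≤ Y := by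
    calc X = X ^ (1 : ℝ) := (Real.rpow_one X).symm
      _ ≤ X ^ A0 := Real.rpow_le_rpow_of_exponent_le hX hA0
  have hY7 : Y ≤ Y ^ 7 := le_self_pow₀ hY1 (by norm_num)
  have hXe : X ^ ε' ≤ Y := by
    refine le_trans ?_ hXY
    calc X ^ ε' ≤ X ^ (1 : ℝ) := Real.rpow_le_rpow_of_exponent_le hX hε'
      _ = X := Real.rpow_one X
  have hK1 : 1 ≤ Real.exp a.1.l := by simpa using SF.K1
  have hl0 : 0 ≤ a.1.l := by
    exact Real.one_le_exp_iff.1 hK1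
  have hKY : Real.exp a.1.l ≤ Y := by simpa using SF.KY
  have hlam : ∀ o : x.O π lam Jf (bl a), 1 ≤ lD o ∧ lD o ≤ Y := SD.dat.lam1
  have hU : U0 (π lam.1) (bl a) ps x ≤ Y := by
    have h1 := SD.uY
    have h2 := SD.u0
    nlinarith
  have hUK : U0 (π lam.1) (bl a) ps x / (Real.exp a.1.l * Real.exp (-s)) ≤ Y :=
    dual_len hY1 hl0 SD.u0 hU hs
  have hes : Real.exp (-s) ≤ 1 := Real.exp_le_one_iff.2 (by linarith)
  have e49 : (Y ^ 7) ^ 7 = X ^ (49 * A0) := by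
    rw [← pow_mul, hYd, ← Real.rpow_natCast, ← Real.rpow_mul hX0.le]
    congr 1
    push_cast
    ring
  have main := bk_of (a := bl a) (M := (π lam.1).n₃) (f := f) (c := c) (P := P) (β := β)
    (τ := τ) hJ ha.base hP hx hne (Y := Y ^ 7) (hY1.trans hY7)
    (fun t ht => by
      obtain ⟨g1, g2, g3, -, g5, g6, g7⟩ := h𝒥 t ht
      exact ⟨g1, E4RH858.facts SD.dat g1 g2, g3, g5, g6, g7⟩)
    (fun t ht => by
      obtain ⟨g1, g2, g3, g4, g5, g6, g7⟩ := h𝒥 t ht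
      obtain ⟨s1, s2, s3⟩ := sz_tmE SD.dat g1 g2
      have hF := E4RH858.facts SD.dat g1 g2
      refine ⟨?_, (hlam t.o).2.trans hY7, s1.trans hY7, s2.trans hY7, by rw [← g5]; exact s3⟩
      have hY0 : (0 : ℝ) ≤ Y := by linarith
      have hXe0 : (0 : ℝ) ≤ X ^ ε' := Real.rpow_nonneg hX0.le _
      rcases g4 with g4 | g4
      · refine (kD_le (a := bl a) g1 hF (hlam t.o).1 g4).trans ?_
        calc X ^ ε' * Real.exp a.1.l * Real.exp (-s) ≤ Y * Y * 1 :=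
              mul_le_mul (mul_le_mul hXe hKY (Real.exp_pos _).le hY0) hes (Real.exp_pos _).le
                (by positivity)
          _ = Y ^ 2 := by ring
          _ ≤ Y ^ 7 := pow_le_pow_right₀ hY1 (by norm_num)
      · refine (kF_le (a := bl a) g1 hF (hlam t.o).1 g4).trans ?_
        have hq : 0 ≤ U0 (π lam.1) (bl a) ps x / (Real.exp a.1.l * Real.exp (-s)) :=
          div_nonneg SD.u0.le (by positivity)
        calc X ^ ε' * (U0 (π lam.1) (bl a) ps x / (Real.exp a.1.l * Real.exp (-s))) * nm t.D1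
            ≤ Y * Y * Y := by
              gcongr
          _ = Y ^ 3 := by ring
          _ ≤ Y ^ 7 := pow_le_pow_right₀ hY1 (by norm_num))
  rw [e49] at main
  exact main

end Crest.Agent.R017.E4SE266
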