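import Crest.Agent.R017.E4RJ_352

/-!
# Row 17, C70/E4 version 7, regrouping (helper858), with a label of bounded count

* `JP0s`, `JB_of_JP0s` : as `JP0b`, with a further fixed label `so t ∈ Tl`
* `JP0w`, `JP0s_of_w` : with a weight of the fixed part
* `card_dvs3`, `card_dvs4` : the number of triples / quadruples of divisors
* `gd f D` : the primes of `f` in `D`
* `kl N k` : the exponents (up to `3`) in `k` of the primes of `N`
-/

set_option autoImplicit false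

noncomputable section

open Complex
open scoped ComplexConjugate

namespace Crest.Agent.R017.E4RH858

open Crest.Agent.R012 Crest.Agent.R012.Eis Crest.Agent.R012.Mob705 Crest.Agent.R012.Div277
open Crest.Agent.R017.Sx545 Crest.Agent.R017.CM106 Crest.Agent.R017.C70
open Crest.Agent.R017.E4352 Crest.Agent.R017.E4J352
open Crest.Agent.R017.E4RG858 (fm pow_dvd_iff dvd_iff_mult mult_mul mult_pow mult_eq_zero fac)
open Crest.Agent.R017.E4BW858 (isPrim_prod')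

variable {O : Type}

/-- **joint block hypothesis at a fixed prefix, a fixed part `bo t` and a fixed label `so t`** -/
def JP0s (M e₀ : Eis) (bo : Tm O → Eis) {L : Type} (so : Tm O → L) (lam : O → ℝ)
    (v w : O → Eis → ℂ) (G : Eis → ℂ) (rng : Tm O → Prop) (S : ℝ) : Prop :=
  ∀ (c : Win) (P : Pf) (β : Eis) (σ : L) (𝒥 : Finset (Tm O)),
    (∀ t ∈ 𝒥, t.OK M 1 ∧ t.val 1 lam v w G ≠ 0 ∧ t.In lam c ∧ rng t ∧ pf t = P ∧ bo t = β ∧
      so t = σ) →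
    nm β * (wP e₀ P * ∑ t ∈ 𝒥, (nm (t.D1 * b1 t) : ℝ) ^ (-(1 / 2) : ℝ) *
      ((lam t.o * nm t.k)⁻¹ * (‖t.xs v G‖ * ‖t.ys w G‖))) ≤ S

lemma JP0s.of_b {M e₀ : Eis} {bo : Tm O → Eis} {L : Type} {so : Tm O → L} {lam : O → ℝ}
    {v w : O → Eis → ℂ} {G : Eis → ℂ} {rng : Tm O → Prop} {S : ℝ}
    (h : JP0b M e₀ bo lam v w G rng S) : JP0s M e₀ bo so lam v w G rng S :=
  fun c P β _ 𝒥 h𝒥 => h c P β 𝒥 fun t ht => by
    obtain ⟨h1, h2, h3, h4, h5, h6, -⟩ := h𝒥 t ht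
    exact ⟨h1, h2, h3, h4, h5, h6⟩

open Classical in
/-- **removing the label** -/
theorem JP0b_of_JP0s {M e₀ : Eis} {bo : Tm O → Eis} {L : Type} {so : Tm O → L} {lam : O → ℝ}
    {v w : O → Eis → ℂ} {G : Eis → ℂ} {rng : Tm O → Prop} {S : ℝ} {Tl : Finset L}
    (hso : ∀ t : Tm O, t.OK M 1 → t.val 1 lam v w G ≠ 0 → so t ∈ Tl)
    (h : JP0s M e₀ bo so lam v w G rng S) : JP0b M e₀ bo lam v w G rng (Tl.card * S) := by
  intro c P β 𝒥 hJ
  have hmap : ∀ t ∈ 𝒥, so t ∈ Tl := by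
    intro t ht
    obtain ⟨h1, h2, -⟩ := hJ t ht
    exact hso t h1 h2
  rw [← Finset.sum_fiberwise_of_maps_to hmap, Finset.mul_sum, Finset.mul_sum]
  rw [← nsmul_eq_mul]
  refine Finset.sum_le_card_nsmul _ _ _ fun σ _ => ?_
  exact h c P β σ (𝒥.filter (fun t => so t = σ)) (by
    intro t ht
    rw [Finset.mem_filter] at ht
    obtain ⟨h1, h2, h3, h4, h5, h6⟩ := hJ t ht.1
    exact ⟨h1, h2, h3, h4, h5, h6, ht.2⟩)

/-- **regrouping with a fixed variable and a label** -/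
theorem JB_of_JP0s {ε : ℝ} (hε : 0 < ε) : ∃ C : ℝ, 1 ≤ C ∧
    ∀ (M e₀ : Eis) (O : Type) (_ : Fintype O) (bo : Tm O → Eis) (L : Type) (so : Tm O → L)
      (lam : O → ℝ) (v w : O → Eis → ℂ) (G : Eis → ℂ) (rng : Tm O → Prop) (Tl : Finset L)
      (Y S : ℝ), Dat4 M 1 lam v w Y → e₀ ≠ 0 → (nm e₀ : ℝ) ≤ Y → 0 ≤ S →
      (∀ t : Tm O, t.OK M 1 → t.val 1 lam v w G ≠ 0 → IsPrim (bo t) ∧ (nm (bo t) : ℝ) ≤ Y) →
      (∀ t : Tm O, t.OK M 1 → t.val 1 lam v w G ≠ 0 → so t ∈ Tl) →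
      JP0s M e₀ bo so lam v w G rng S → JB M 1 lam v w G rng (C * Y ^ ε * (Tl.card * S)) := by
  obtain ⟨C, hC, h⟩ := JB_of_JP0b hε
  refine ⟨C, hC, ?_⟩
  intro M e₀ O _ bo L so lam v w G rng Tl Y S hd he heY hS hbo hso hJP
  exact h M e₀ O _ bo lam v w G rng Y (Tl.card * S) hd he heY (by positivity) hbo
    (JP0b_of_JP0s hso hJP)

/-- **joint block hypothesis** with a weight of the fixed part -/
def JP0w (M e₀ : Eis) (n1 : Eis → ℝ) (bo : Tm O → Eis) {L : Type} (so : Tm O → L) (lam : O → ℝ)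
    (v w : O → Eis → ℂ) (G : Eis → ℂ) (rng : Tm O → Prop) (S : ℝ) : Prop :=
  ∀ (c : Win) (P : Pf) (β : Eis) (σ : L) (𝒥 : Finset (Tm O)),
    (∀ t ∈ 𝒥, t.OK M 1 ∧ t.val 1 lam v w G ≠ 0 ∧ t.In lam c ∧ rng t ∧ pf t = P ∧ bo t = β ∧
      so t = σ) →
    n1 β * (wP e₀ P * ∑ t ∈ 𝒥, (nm (t.D1 * b1 t) : ℝ) ^ (-(1 / 2) : ℝ) *
      ((lam t.o * nm t.k)⁻¹ * (‖t.xs v G‖ * ‖t.ys w G‖))) ≤ S

/-- the fixed part in two factors, only the first one is counted -/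
theorem JP0s_of_w {M e₀ : Eis} {b' b'' : Eis → Eis} {bo : Tm O → Eis} {L : Type} {so : Tm O → L}
    {lam : O → ℝ} {v w : O → Eis → ℂ} {G : Eis → ℂ} {rng : Tm O → Prop} {S : ℝ} (hS : 0 ≤ S)
    (hb : ∀ t t' : Tm O, b' (bo t) = b' (bo t') → b'' (bo t) = b'' (bo t') → bo t = bo t')
    (h : JP0w M e₀ (fun β => (nm (b' β) : ℝ)) bo so lam v w G rng S) :
    JP0s M e₀ (fun t => b' (bo t)) (fun t => (b'' (bo t), so t)) lam v w G rng S := by
  intro c P β σ 𝒥 hJ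
  rcases 𝒥.eq_empty_or_nonempty with rfl | ⟨t₀, ht₀⟩
  · simpa using hS
  · obtain ⟨-, -, -, -, -, h6, h7⟩ := hJ t₀ ht₀
    have h1 := h c P (bo t₀) σ.2 𝒥 fun t ht => by
      obtain ⟨g1, g2, g3, g4, g5, g6, g7⟩ := hJ t ht
      refine ⟨g1, g2, g3, g4, g5, hb t t₀ (g6.trans h6.symm) ?_, congrArg Prod.snd g7⟩
      exact (congrArg Prod.fst g7).trans (congrArg Prod.fst h7).symm
    have h2 : b' (bo t₀) = β := h6
    rw [← h2]
    exact h1

/-- the number of quadruples of divisors -/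
theorem card_dvs4 {ε : ℝ} (hε : 0 < ε) : ∃ C : ℝ, 1 ≤ C ∧ ∀ (N₀ N₁ N₂ N₃ : Eis) (Y : ℝ), 1 ≤ Y →
    N₀ ≠ 0 → N₁ ≠ 0 → N₂ ≠ 0 → N₃ ≠ 0 → (nm N₀ : ℝ) ≤ Y → (nm N₁ : ℝ) ≤ Y →
    (nm N₂ : ℝ) ≤ Y → (nm N₃ : ℝ) ≤ Y →
    ((dvs N₀ ×ˢ dvs N₁ ×ˢ dvs N₂ ×ˢ dvs N₃).card : ℝ) ≤ C * Y ^ ε := by
  obtain ⟨C, hC, h⟩ := tau_le_rpow (show 0 < ε / 4 by positivity)
  refine ⟨C ^ 4, one_le_pow₀ hC, ?_⟩
  intro N₀ N₁ N₂ N₃ Y hY h0 h1 h2 h3 g0 g1 g2 g3
  have key : ∀ N : Eis, N ≠ 0 → (nm N : ℝ) ≤ Y → ((dvs N).card : ℝ) ≤ C * Y ^ (ε / 4) := by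
    intro N hN hNY
    refine (h N hN).trans (mul_le_mul_of_nonneg_left ?_ (by linarith))
    exact Real.rpow_le_rpow (Nat.cast_nonneg _) hNY (by positivity)
  have hp : 0 ≤ C * Y ^ (ε / 4) := by positivity
  rw [Finset.card_product, Finset.card_product, Finset.card_product]
  push_cast
  calc ((dvs N₀).card : ℝ) * (((dvs N₁).card : ℝ) * (((dvs N₂).card : ℝ) * (dvs N₃).card))
      ≤ (C * Y ^ (ε / 4)) * ((C * Y ^ (ε / 4)) * ((C * Y ^ (ε / 4)) * (C * Y ^ (ε / 4)))) := by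
        gcongr
        · exact key _ h0 g0
        · exact key _ h1 g1
        · exact key _ h2 g2
        · exact key _ h3 g3
    _ = C ^ 4 * (Y ^ (ε / 4) * Y ^ (ε / 4) * Y ^ (ε / 4) * Y ^ (ε / 4)) := by ring
    _ = C ^ 4 * Y ^ ε := by
        rw [← Real.rpow_add (by linarith), ← Real.rpow_add (by linarith),
          ← Real.rpow_add (by linarith)]
        ring_nf

/-- the number of triples of divisors -/
theorem card_dvs3 {ε : ℝ} (hε : 0 < ε) : ∃ C : ℝ, 1 ≤ C ∧ ∀ (N₁ N₂ N₃ : Eis) (Y : ℝ), 1 ≤ Y →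
    N₁ ≠ 0 → N₂ ≠ 0 → N₃ ≠ 0 → (nm N₁ : ℝ) ≤ Y → (nm N₂ : ℝ) ≤ Y → (nm N₃ : ℝ) ≤ Y →
    ((dvs N₁ ×ˢ dvs N₂ ×ˢ dvs N₃).card : ℝ) ≤ C * Y ^ ε := by
  obtain ⟨C, hC, h⟩ := tau_le_rpow (show 0 < ε / 3 by positivity)
  refine ⟨C ^ 3, one_le_pow₀ hC, ?_⟩
  intro N₁ N₂ N₃ Y hY h1 h2 h3 g1 g2 g3
  have key : ∀ N : Eis, N ≠ 0 → (nm N : ℝ) ≤ Y → ((dvs N).card : ℝ) ≤ C * Y ^ (ε / 3) := by
    intro N hN hNY
    refine (h N hN).trans (mul_le_mul_of_nonneg_left ?_ (by linarith))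
    exact Real.rpow_le_rpow (Nat.cast_nonneg _) hNY (by positivity)
  have hp : 0 ≤ C * Y ^ (ε / 3) := by positivity
  rw [Finset.card_product, Finset.card_product]
  push_cast
  calc ((dvs N₁).card : ℝ) * (((dvs N₂).card : ℝ) * (dvs N₃).card)
      ≤ (C * Y ^ (ε / 3)) * ((C * Y ^ (ε / 3)) * (C * Y ^ (ε / 3))) := by
        gcongr
        · exact key _ h1 g1
        · exact key _ h2 g2
        · exact key _ h3 g3
    _ = C ^ 3 * (Y ^ (ε / 3) * Y ^ (ε / 3) * Y ^ (ε / 3)) := by ring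
    _ = C ^ 3 * Y ^ ε := by
        rw [← Real.rpow_add (by linarith), ← Real.rpow_add (by linarith)]
        ring_nf

/-! ### the label -/

/-- the exponents (up to `3`) in `k` of the primes of `N` -/
def kl (N k : Eis) : Eis := ∏ p ∈ pp N, p ^ min (multiplicity p k) 3

/-- the radical, cubed -/
def rad3 (N : Eis) : Eis := ∏ p ∈ pp N, p ^ 3

lemma kl_prim (N k : Eis) : IsPrim (kl N k) := prim_pow (ppSet_pp _) _

lemma rad3_prim (N : Eis) : IsPrim (rad3 N) := prim_pow (ppSet_pp _) _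

lemma kl_dvd (N k : Eis) : kl N k ∣ rad3 N :=
  Finset.prod_dvd_prod_of_dvd _ _ fun _ _ => pow_dvd_pow _ (min_le_right _ _)

lemma mult_kl {N k p : Eis} (hp : p ∈ pp N) :
    multiplicity p (kl N k) = min (multiplicity p k) 3 := mult_prod (ppSet_pp _) _ hp

lemma kl_eq {N k k' : Eis} (h : kl N k = kl N k') {p : Eis} (hp : p ∈ pp N) :
    min (multiplicity p k) 3 = min (multiplicity p k') 3 := by
  rw [← mult_kl hp, ← mult_kl hp, h]

lemma kl_dvd_iff {N k p : Eis} (hk : k ≠ 0) (hp : p ∈ pp N) : p ∣ kl N k ↔ p ∣ k := by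
  have hpp := (isPP_of_mem_pp hp).prime
  rw [dvd_iff_mult hpp (kl_prim N k).ne_zero, dvd_iff_mult hpp hk, mult_kl hp]
  omega

lemma kl_sq_iff {N k p : Eis} (hk : k ≠ 0) (hp : p ∈ pp N) : p ^ 2 ∣ kl N k ↔ p ^ 2 ∣ k := by
  have hpp := (isPP_of_mem_pp hp).prime
  rw [pow_dvd_iff hpp (kl_prim N k).ne_zero, pow_dvd_iff hpp hk, mult_kl hp]
  omega

/-- the label decides the squares -/
lemma kl_sq {N k k' : Eis} (hk : k ≠ 0) (hk' : k' ≠ 0) (h : kl N k = kl N k') {p : Eis}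
    (hp : p ∈ pp N) : p ^ 2 ∣ k ↔ p ^ 2 ∣ k' := by
  rw [← kl_sq_iff hk hp, ← kl_sq_iff hk' hp, h]

/-- the label decides the primes -/
lemma kl_one {N k k' : Eis} (hk : k ≠ 0) (hk' : k' ≠ 0) (h : kl N k = kl N k') {p : Eis}
    (hp : p ∈ pp N) : p ∣ k ↔ p ∣ k' := by
  rw [← kl_dvd_iff hk hp, ← kl_dvd_iff hk' hp, h]

lemma nm_rad3_le {N : Eis} (hN : IsPrim N) : nm (rad3 N) ≤ nm N ^ 3 := by
  have h1 := fac hN (ppSet_pp N) subset_rfl
  have h2 : rad3 N ∣ N ^ 3 := by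
    conv_rhs => rw [h1]
    unfold rad3
    rw [← Finset.prod_pow]
    refine Finset.prod_dvd_prod_of_dvd _ _ fun p hp => ?_
    rw [← pow_mul]
    refine pow_dvd_pow _ ?_
    have h3 := (dvd_iff_mult (isPP_of_mem_pp hp).prime hN.ne_zero).mp (dvd_of_mem_pp hp)
    omega
  rw [← nm_pow]
  exact Div277.nm_le_of_dvd (pow_ne_zero 3 hN.ne_zero) h2

/-! ### products of some of the primes -/

lemma prod_sub_dvd {N : Eis} (hN : IsPrim N) {S : Finset Eis} (hS : S ⊆ pp N) :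
    ∏ p ∈ S, p ∣ N := by
  have h1 := fac hN (ppSet_pp N) subset_rfl
  conv_rhs => rw [h1]
  refine (Finset.prod_dvd_prod_of_dvd (fun p => p) (fun p => p ^ multiplicity p N)
    fun p hp => ?_).trans (Finset.prod_dvd_prod_of_subset _ _ _ hS)
  have h3 := (dvd_iff_mult (isPP_of_mem_pp (hS hp)).prime hN.ne_zero).mp (dvd_of_mem_pp (hS hp))
  exact dvd_pow_self _ (by omega)

open Classical in
/-- the primes of `f` which divide `D` -/
def gd (f D : Eis) : Eis := ∏ p ∈ (pp f).filter (fun p => p ∣ D), p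

lemma gd_prim (f D : Eis) : IsPrim (gd f D) := by
  classical
  exact isPrim_prod' fun p hp => (isPP_of_mem_pp (Finset.mem_filter.mp hp).1).isPrim

lemma be1_dvd_self {e β : Eis} (hβ : IsPrim β) : be1 e β ∣ β := by
  classical
  exact prod_sub_dvd hβ (Finset.filter_subset _ _)

lemma gd_dvd {f D : Eis} (hf : IsPrim f) : gd f D ∣ f := by
  classical
  exact prod_sub_dvd hf (Finset.filter_subset _ _)

lemma gd_dvd' {f D : Eis} (hf : f ≠ 0) (hD : IsPrim D) : gd f D ∣ D := by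
  classical
  refine prod_sub_dvd hD fun p hp => ?_
  obtain ⟨h1, h2⟩ := Finset.mem_filter.mp hp
  exact (mem_pp hD.ne_zero).mpr ⟨((mem_pp hf).mp h1).1, h2⟩

lemma mem_pp_prod {S : Finset Eis} (hS : PPSet S) (p : Eis) : p ∈ pp (∏ q ∈ S, q) ↔ p ∈ S := by
  have h0 : (∏ q ∈ S, q) = ∏ q ∈ S, q ^ (1 : ℕ) := by simp
  have h1 : (∏ q ∈ S, q) ≠ 0 := by
    rw [h0]; exact (prim_pow hS (fun _ => 1)).ne_zero
  rw [mem_pp h1]
  constructor
  · rintro ⟨h2, h3⟩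
    rw [h0] at h3
    exact (dvd_pow_prod hS (k := fun _ => 1) h2 h3).1
  · intro h
    exact ⟨hS p h, Finset.dvd_prod_of_mem _ h⟩

lemma mem_gd {f D p : Eis} (hf : f ≠ 0) : p ∈ pp (gd f D) ↔ IsPP p ∧ p ∣ f ∧ p ∣ D := by
  classical
  unfold gd
  rw [mem_pp_prod fun p hp => isPP_of_mem_pp (Finset.mem_filter.mp hp).1, Finset.mem_filter,
    mem_pp hf, and_assoc]

/-- a product of distinct primes is the product of its two parts -/
lemma be_mulS {e : Eis} {S : Finset Eis} (hS : PPSet S) :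
    be1 e (∏ p ∈ S, p) * be2 e (∏ p ∈ S, p) = ∏ p ∈ S, p := by
  classical
  have h1 : pp (∏ p ∈ S, p) = S := by
    ext p
    exact mem_pp_prod hS p
  unfold be1 be2
  rw [h1, mul_comm]
  exact Finset.prod_filter_mul_prod_filter_not _ _ _

end Crest.Agent.R017.E4RH858
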