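import Crest.Agent.R017.E4BWa_858

/-!
# Row 17, C70/E4 version 7, regrouping by local types (helper858), part a: exact factorizations

* `pow_dvd_iff`, `mult_mul` : exponents at a primary prime
* `fac` : `n = ∏_{p ∈ S} p ^ v_p(n)` for every finite set `S` of primary primes containing `pp n`
* `rho`, `gs_le_rho`, `gs_ne` : exact local sizes of `gs u b`
-/

set_option autoImplicit false

noncomputable section

open Complex
open scoped ComplexConjugate

namespace Crest.Agent.R017.E4RG858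

open Crest.Agent.R012 Crest.Agent.R012.Eis Crest.Agent.R012.Mob705
open Crest.Agent.R012.GaussLoc283 (syAx gs_mul norm_gs_le gs_prime_of_dvd gs_table_succ gs_table_le
  gs_table_ge norm_gs_prime_sq gs_one_right)
open Crest.Agent.R012.Div277 (nm_le_of_dvd)
open Crest.Agent.R017.E4352
open Crest.Agent.R017.E4BW858 (exists_val norm_gs_prime norm_gs_mul_le isPrim_prod')

lemma fm {p n : Eis} (hp : Prime p) (hn : n ≠ 0) : FiniteMultiplicity p n :=
  FiniteMultiplicity.of_not_isUnit hp.not_isUnit hn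

lemma pow_dvd_iff {p n : Eis} (hp : Prime p) (hn : n ≠ 0) {k : ℕ} :
    p ^ k ∣ n ↔ k ≤ multiplicity p n :=
  (fm hp hn).pow_dvd_iff_le_multiplicity

lemma dvd_iff_mult {p n : Eis} (hp : Prime p) (hn : n ≠ 0) :
    p ∣ n ↔ 1 ≤ multiplicity p n := by
  rw [← pow_dvd_iff hp hn, pow_one]

lemma mult_mul {p m n : Eis} (hp : Prime p) (hm : m ≠ 0) (hn : n ≠ 0) :
    multiplicity p (m * n) = multiplicity p m + multiplicity p n :=
  multiplicity_mul hp (fm hp (mul_ne_zero hm hn))

lemma mult_pow {p n : Eis} (hp : Prime p) (hn : n ≠ 0) (k : ℕ) :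
    multiplicity p (n ^ k) = k * multiplicity p n := by
  induction k with
  | zero =>
    rw [pow_zero, zero_mul]
    by_contra h
    have h1 : 1 ≤ multiplicity p (1 : Eis) := Nat.one_le_iff_ne_zero.mpr h
    exact hp.not_isUnit (isUnit_of_dvd_one ((dvd_iff_mult hp one_ne_zero).mpr h1))
  | succ k ih => rw [pow_succ, mult_mul hp (pow_ne_zero _ hn) hn, ih]; ring

lemma mult_eq_zero {p n : Eis} (hp : Prime p) (hn : n ≠ 0) (h : ¬ p ∣ n) :
    multiplicity p n = 0 := by
  by_contra h0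
  exact h ((dvd_iff_mult hp hn).mpr (Nat.one_le_iff_ne_zero.mpr h0))

/-- **exact factorization** -/
lemma fac {n : Eis} (hn : IsPrim n) {S : Finset Eis} (hS : PPSet S) (h : pp n ⊆ S) :
    n = ∏ p ∈ S, p ^ multiplicity p n := by
  have h0 := hn.ne_zero
  have h1 : ∏ p ∈ S, p ^ multiplicity p n ∣ n := by
    refine Finset.prod_dvd_of_coprime ?_ ?_
    · intro a ha b hb hab
      exact (hS.pairwise ha hb hab).pow
    · intro p hp
      exact (pow_dvd_iff (hS p hp).prime h0).mpr le_rfl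
  obtain ⟨m, hm⟩ := h1
  have hP : IsPrim (∏ p ∈ S, p ^ multiplicity p n) :=
    isPrim_prod' fun p hp => (hS p hp).isPrim.pow _
  have hmp : IsPrim m := IsPrim.of_mul_left (hm ▸ hn) hP
  by_cases h2 : m = 1
  · rw [h2, mul_one] at hm
    exact hm
  · exfalso
    obtain ⟨q, hq, hqm⟩ := exists_pp_dvd_of_isPrim hmp h2
    have hqn : q ∣ n := hqm.trans (Dvd.intro_left _ hm.symm)
    have hqS : q ∈ S := h ((mem_pp h0).mpr ⟨hq, hqn⟩)
    have h3 : q ^ (multiplicity q n + 1) ∣ n := by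
      rw [pow_succ]
      calc q ^ multiplicity q n * q ∣ (∏ p ∈ S, p ^ multiplicity p n) * m :=
            mul_dvd_mul (Finset.dvd_prod_of_mem (fun p => p ^ multiplicity p n) hqS) hqm
        _ ∣ n := by rw [← hm]
    have h4 := (pow_dvd_iff hq.prime h0).mp h3
    omega

/-- size exponent of a Gauss sum at `p`, `a = v_p(u)`, `k = v_p(b)` -/
def rho (a k : ℕ) : ℝ := if k ≤ a then 0 else if k % 3 = 0 then 1 else 1 / 2

lemma rho_nonneg (a k : ℕ) : 0 ≤ rho a k := by
  unfold rho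
  split_ifs <;> norm_num

lemma mult_mk {r p : Eis} (hp : Prime p) (hr : ¬ p ∣ r) (a : ℕ) :
    multiplicity p (r * p ^ a) = a := by
  have hr0 : r ≠ 0 := fun h => hr (h ▸ dvd_zero _)
  have h1 : multiplicity p p = 1 := by
    have h2 := (dvd_iff_mult hp hp.ne_zero).mp dvd_rfl
    have h3 : ¬ 2 ≤ multiplicity p p := by
      rw [← pow_dvd_iff hp hp.ne_zero, pow_two]
      intro h
      apply hp.not_isUnit
      have h' : p * p ∣ p * 1 := by rwa [mul_one]
      exact isUnit_of_dvd_one ((mul_dvd_mul_iff_left hp.ne_zero).mp h')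
    omega
  rw [mult_mul hp hr0 (pow_ne_zero _ hp.ne_zero), mult_pow hp hp.ne_zero, h1,
    mult_eq_zero hp hr0 hr]
  ring

lemma gs_local_ne {u p : Eis} (hu : u ≠ 0) (hp : IsPP p) {k : ℕ} (hk : 1 ≤ k)
    (h : gs u (p ^ k) ≠ 0) :
    k = multiplicity p u + 1 ∨ (k % 3 = 0 ∧ k ≤ multiplicity p u) := by
  obtain ⟨a, r, rfl, hr⟩ := exists_val hu hp.prime
  rw [mult_mk hp.prime hr]
  by_contra h1
  rw [not_or, not_and] at h1
  apply h
  by_cases h2 : k ≤ a
  · obtain ⟨j, rfl⟩ : ∃ j, k = j + 1 := ⟨k - 1, by omega⟩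
    rw [gs_table_le syAx (r := r) hp.isPrim hp.prime (a := a) (k := j) h2, if_neg]
    intro h3
    exact h1.2 h3 h2
  · exact gs_table_ge syAx hp.isPrim hp.prime hr (by omega)

lemma gs_local_le {u p : Eis} (hu : u ≠ 0) (hp : IsPP p) (k : ℕ) :
    ‖gs u (p ^ k)‖ ≤ (nm p : ℝ) ^ k * (nm p : ℝ) ^ (-rho (multiplicity p u) k) := by
  have hN : (1 : ℝ) ≤ nm p := by exact_mod_cast hp.one_lt_nm.le
  have hN0 : (0 : ℝ) < nm p := by linarith
  have htriv : ‖gs u (p ^ k)‖ ≤ (nm p : ℝ) ^ k := by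
    have := norm_gs_le syAx u (hp.isPrim.pow k)
    rwa [nm_pow, Nat.cast_pow] at this
  obtain ⟨a, r, rfl, hr⟩ := exists_val hu hp.prime
  rw [mult_mk hp.prime hr]
  unfold rho
  by_cases h1 : k ≤ a
  · rw [if_pos h1, neg_zero, Real.rpow_zero, mul_one]
    exact htriv
  · by_cases h2 : k = a + 1
    · subst h2
      rw [if_neg h1, gs_table_succ syAx hp.isPrim hp.prime hr a]
      have e1 : (nm p : ℝ) ^ (a + 1) = (nm p : ℝ) ^ a * nm p := pow_succ _ _
      have h3 : a % 3 = 0 ∨ a % 3 = 1 ∨ a % 3 = 2 := by omega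
      have e2 : (nm p : ℝ) * (nm p : ℝ) ^ (-(1 / 2) : ℝ) = (nm p : ℝ) ^ (1 / 2 : ℝ) := by
        rw [← Real.rpow_one_add' hN0.le (by norm_num)]
        norm_num
      rcases h3 with h3 | h3 | h3
      · rw [if_pos h3, if_neg (by omega), norm_mul, norm_pow, Complex.norm_natCast,
          norm_gs_prime hp hr, e1, mul_assoc, e2]
      · rw [if_neg (by omega), if_pos h3, if_neg (by omega), norm_mul, norm_pow,
          Complex.norm_natCast, RCLike.norm_conj, norm_gs_prime hp hr, e1, mul_assoc, e2]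
      · rw [if_neg (by omega), if_neg (by omega), if_pos (by omega), norm_mul, norm_pow,
          Complex.norm_natCast, norm_neg, norm_one, e1, Real.rpow_neg_one]
        rw [mul_assoc, mul_inv_cancel₀ hN0.ne']
    · rw [gs_table_ge syAx hp.isPrim hp.prime hr (by omega), norm_zero]
      positivity

lemma gs_prod_le {u : Eis} (k : Eis → ℕ) (S : Finset Eis) (hS : PPSet S) :
    ‖gs u (∏ p ∈ S, p ^ k p)‖ ≤ ∏ p ∈ S, ‖gs u (p ^ k p)‖ := by
  classical
  induction S using Finset.induction_on with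
  | empty => simp [gs_one_right syAx]
  | insert a s ha ih =>
    rw [Finset.prod_insert ha, Finset.prod_insert ha]
    have h1 : PPSet s := hS.subset (Finset.subset_insert _ _)
    have h2 : IsPP a := hS a (Finset.mem_insert_self _ _)
    refine (norm_gs_mul_le (h2.isPrim.pow _) (isPrim_prod' fun p hp => (h1 p hp).isPrim.pow _)
      ?_).trans (mul_le_mul_of_nonneg_left (ih h1) (norm_nonneg _))
    refine IsCoprime.prod_right fun p hp => ?_
    exact (h2.isCoprime (h1 p hp) (fun h => ha (h ▸ hp))).pow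

/-- **exact size of the Gauss sum** -/
theorem gs_le_rho {u b : Eis} (hu : u ≠ 0) (hb : IsPrim b) {S : Finset Eis} (hS : PPSet S)
    (h : pp b ⊆ S) :
    ‖gs u b‖ / nm b ≤ ∏ p ∈ S, (nm p : ℝ) ^ (-rho (multiplicity p u) (multiplicity p b)) := by
  have hb0 : (0 : ℝ) < nm b := by exact_mod_cast nm_pos.mpr hb.ne_zero
  rw [div_le_iff₀ hb0]
  have h1 : (nm b : ℝ) = ∏ p ∈ S, (nm p : ℝ) ^ multiplicity p b := by
    conv_lhs => rw [fac hb hS h]
    rw [E4BW858.nm_prod, Nat.cast_prod]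
    exact Finset.prod_congr rfl fun p _ => by rw [nm_pow, Nat.cast_pow]
  rw [h1, ← Finset.prod_mul_distrib]
  calc ‖gs u b‖ = ‖gs u (∏ p ∈ S, p ^ multiplicity p b)‖ := by rw [← fac hb hS h]
    _ ≤ ∏ p ∈ S, ‖gs u (p ^ multiplicity p b)‖ := gs_prod_le _ S hS
    _ ≤ _ := Finset.prod_le_prod (fun _ _ => norm_nonneg _) fun p hp => by
        rw [mul_comm]
        exact gs_local_le hu (hS p hp) _

/-- **local conditions** from `gs u b ≠ 0` -/
theorem gs_ne {u b : Eis} (hu : u ≠ 0) (hb : IsPrim b) (h : gs u b ≠ 0) {p : Eis} (hp : IsPP p)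
    (hpb : p ∣ b) :
    multiplicity p b = multiplicity p u + 1 ∨
      (multiplicity p b % 3 = 0 ∧ multiplicity p b ≤ multiplicity p u) := by
  refine gs_local_ne hu hp ((dvd_iff_mult hp.prime hb.ne_zero).mp hpb) ?_
  intro h0
  apply h
  have h1 := gs_prod_le (u := u) (fun q => multiplicity q b) (pp b) (ppSet_pp b)
  rw [← fac hb (ppSet_pp b) (Finset.Subset.refl _),
    Finset.prod_eq_zero ((mem_pp hb.ne_zero).mpr ⟨hp, hpb⟩) (by rw [h0, norm_zero])] at h1
  exact norm_le_zero_iff.mp h1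

end Crest.Agent.R017.E4RG858
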