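import Crest.Agent.R017.E4Uc_164
import Crest.Agent.R017.E4RGa_858

/-!
# Row 17, StrU: the cube part of the outer parameter (helper699)

* `b3 n` : product of the primes `p` with `v_p(n) = 3`;  `n3 n` : the cofactor, `n = n3 n * b3 n ^ 3`
* `sS_mult` : `v_p(S_q) ≤ 2`
* `tab` : `v_p(ν)` for `j S = jj e³`, `jj = c r ν²`
* `b3_o` : `b3 (S ν) = pS 1 0 S j` at the outer parameters of 164's data
-/

set_option autoImplicit false

noncomputable section

open Finset

namespace Crest.Agent.R017.Str699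

open Crest.Agent.R012 Crest.Agent.R012.Eis Crest.Agent.R012.Mob705
open Crest.Agent.R017.Sx545 (Sm)
open Crest.Agent.R017.C70
open Crest.Agent.R017.E4RG858 (fm pow_dvd_iff dvd_iff_mult mult_mul mult_pow mult_eq_zero fac)
open Crest.Agent.R017.E4BW858 (isPrim_prod')
open Crest.Agent.R017.DgA829 (lc lc_prim lc_dvd)

open Classical in
/-- the primes with exponent `3` -/
def b3 (n : Eis) : Eis := ∏ p ∈ (pp n).filter (fun p => multiplicity p n = 3), p

open Classical in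
/-- the cofactor of the cube -/
def n3 (n : Eis) : Eis :=
  ∏ p ∈ (pp n).filter (fun p => ¬ multiplicity p n = 3), p ^ multiplicity p n

lemma ppSet_pp (n : Eis) : PPSet (pp n) := fun _ hp => isPP_of_mem_pp hp

lemma b3_prim (n : Eis) : IsPrim (b3 n) :=
  isPrim_prod' fun _ hp => (isPP_of_mem_pp (mem_filter.mp hp).1).isPrim

lemma n3_prim (n : Eis) : IsPrim (n3 n) :=
  isPrim_prod' fun _ hp => (isPP_of_mem_pp (mem_filter.mp hp).1).isPrim.pow _

lemma n3_mul {n : Eis} (hn : IsPrim n) : n = n3 n * b3 n ^ 3 := by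
  classical
  have h1 := fac hn (ppSet_pp n) (subset_refl (pp n))
  have h2 : ∏ p ∈ pp n, p ^ multiplicity p n =
      (∏ p ∈ (pp n).filter (fun p => multiplicity p n = 3), p ^ multiplicity p n) *
      ∏ p ∈ (pp n).filter (fun p => ¬ multiplicity p n = 3), p ^ multiplicity p n :=
    (prod_filter_mul_prod_filter_not _ _ _).symm
  have h3 : ∏ p ∈ (pp n).filter (fun p => multiplicity p n = 3), p ^ multiplicity p n =
      b3 n ^ 3 := by
    unfold b3
    rw [← prod_pow]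
    refine prod_congr rfl fun p hp => ?_
    rw [(mem_filter.mp hp).2]
  rw [h2, h3] at h1
  rw [h1]
  unfold n3
  rw [← h1, mul_comm]
  congr 1

lemma b3_dvd {n : Eis} (hn : IsPrim n) : b3 n ∣ n := by
  have h := n3_mul hn
  have h1 : b3 n ∣ n3 n * b3 n ^ 3 := (dvd_pow_self _ three_ne_zero).mul_left _
  rwa [← h] at h1

lemma nm_b3_le {n : Eis} (hn : IsPrim n) : nm (b3 n) ≤ nm n :=
  Div277.nm_le_of_dvd hn.ne_zero (b3_dvd hn)

/-! ### the multiplicities of `S_q` -/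

lemma mult_self {p : Eis} (hp : Prime p) : multiplicity p p = 1 := by
  have h2 := (dvd_iff_mult hp hp.ne_zero).mp dvd_rfl
  have h3 : ¬ 2 ≤ multiplicity p p := by
    rw [← pow_dvd_iff hp hp.ne_zero, pow_two]
    intro h
    have h4 : p * p ∣ p * 1 := by rwa [mul_one]
    exact hp.not_isUnit (isUnit_of_dvd_one ((mul_dvd_mul_iff_left hp.ne_zero).mp h4))
  omega

lemma mult_sqf {s p : Eis} (hs : Squarefree s) (hs0 : s ≠ 0) (hp : Prime p) :
    multiplicity p s ≤ 1 := by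
  by_contra h
  have h1 : 2 ≤ multiplicity p s := by omega
  rw [← pow_dvd_iff hp hs0, pow_two] at h1
  exact hp.not_isUnit (hs p h1)

lemma mult_mono {s t p : Eis} (ht : t ≠ 0) (hp : Prime p) (h : s ∣ t) :
    multiplicity p s ≤ multiplicity p t := by
  have hs : s ≠ 0 := fun h0 => ht (by rw [h0] at h; exact zero_dvd_iff.mp h)
  rw [← pow_dvd_iff hp ht]
  exact ((pow_dvd_iff hp hs).mpr le_rfl).trans h

lemma mult_lc_le {s t p : Eis} (hs : IsPrim s) (ht : IsPrim t) (hp : IsPP p) :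
    multiplicity p (lc s t) ≤ max (multiplicity p s) (multiplicity p t) := by
  have hl := lc_prim hs ht
  by_contra h
  rw [not_le, max_lt_iff] at h
  obtain ⟨h1, h2⟩ := h
  obtain ⟨ds, dt⟩ := (lc_dvd hs ht (lc s t)).mp dvd_rfl
  have key : ∀ {s : Eis}, IsPrim s → s ∣ lc s t → multiplicity p s < multiplicity p (lc s t) →
      True := fun _ _ _ => trivial
  -- `p ∣ lc`, the cofactor
  have hp1 : p ∣ lc s t := (dvd_iff_mult hp.prime hl.ne_zero).mpr (by omega)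
  obtain ⟨l', hl'⟩ := hp1
  have key : ∀ u : Eis, IsPrim u → u ∣ lc s t → multiplicity p u < multiplicity p (lc s t) →
      u ∣ l' := by
    intro u hu hd hlt
    obtain ⟨m, hm⟩ := hd
    have hm0 : m ≠ 0 := fun h0 => hl.ne_zero (by rw [hm, h0, mul_zero])
    have e1 := mult_mul hp.prime hu.ne_zero hm0
    rw [← hm] at e1
    have h3 : p ∣ m := (dvd_iff_mult hp.prime hm0).mpr (by omega)
    obtain ⟨m', hm'⟩ := h3
    refine ⟨m', mul_left_cancel₀ hp.ne_zero ?_⟩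
    rw [← hl', hm, hm']
    ring
  have h4 : lc s t ∣ l' := (lc_dvd hs ht l').mpr ⟨key s hs ds h1, key t ht dt h2⟩
  have hl0 : l' ≠ 0 := fun h0 => hl.ne_zero (by rw [hl', h0, mul_zero])
  have h5 : p * l' ∣ 1 * l' := by rw [← hl', one_mul]; exact h4
  exact hp.prime.not_isUnit (isUnit_of_dvd_one ((mul_dvd_mul_iff_right hl0).mp h5))

lemma mult_sS_le {g e₀ t q p : Eis} (hg : IsPrim g) (hgs : Squarefree g) (he : IsPrim e₀)
    (hes : Squarefree e₀) (ht : IsPrim t) (hts : Squarefree t) (hq : IsPrim q)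
    (hqs : Squarefree q) (hqg : IsCoprime q g) (hp : IsPP p) :
    multiplicity p (E4U164.sS g e₀ t q) ≤ 2 := by
  have hqg' : IsPrim (q ^ 2 * g) := (hq.pow 2).mul hg
  have h1 : multiplicity p (q ^ 2 * g) ≤ 2 := by
    rw [mult_mul hp.prime (pow_ne_zero 2 hq.ne_zero) hg.ne_zero, mult_pow hp.prime hq.ne_zero]
    have e1 := mult_sqf hqs hq.ne_zero hp.prime
    have e2 := mult_sqf hgs hg.ne_zero hp.prime
    by_cases h : p ∣ q
    · have h' : ¬ p ∣ g := fun h2 => hp.prime.not_isUnit (hqg.isUnit_of_dvd' h h2)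
      rw [mult_eq_zero hp.prime hg.ne_zero h']
      omega
    · rw [mult_eq_zero hp.prime hq.ne_zero h]
      omega
  have h2 := mult_lc_le hqg' he hp
  have h3 := mult_lc_le (lc_prim hqg' he) ht hp
  have e3 := mult_sqf hes he.ne_zero hp.prime
  have e4 := mult_sqf hts ht.ne_zero hp.prime
  show multiplicity p (lc (lc (q ^ 2 * g) e₀) t) ≤ 2
  omega

/-! ### the local table -/

lemma not_dvd_isC {c p : Eis} (hc : GrB829.IsC c) (hp : IsPP p) : ¬ p ∣ c := by
  intro h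
  have h3 : ¬ p ∣ 3 := fun h3 => hp.prime.not_isUnit
    (hp.isPrim.isCoprime_three.isUnit_of_dvd' dvd_rfl h3)
  have hw : ¬ p ∣ w := fun h2 => hp.prime.not_isUnit (isUnit_of_dvd_unit h2 isUnit_w)
  rcases hc with rfl | rfl | rfl | rfl
  · exact hp.prime.not_isUnit (isUnit_of_dvd_one h)
  · exact h3 h
  · exact (hp.prime.dvd_or_dvd h).elim h3 hw
  · exact (hp.prime.dvd_or_dvd h).elim h3 fun h2 => hw (hp.prime.dvd_of_dvd_pow h2)

lemma isC_ne {c : Eis} (hc : GrB829.IsC c) : c ≠ 0 := by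
  have h3 : (3 : Eis) ≠ 0 := three_ne_zero'
  have hw : w ≠ 0 := isUnit_w.ne_zero
  rcases hc with rfl | rfl | rfl | rfl
  · exact one_ne_zero
  · exact h3
  · exact mul_ne_zero h3 hw
  · exact mul_ne_zero h3 (pow_ne_zero 2 hw)

lemma mult_isC {c p : Eis} (hc : GrB829.IsC c) (hp : IsPP p) : multiplicity p c = 0 :=
  mult_eq_zero hp.prime (isC_ne hc) (not_dvd_isC hc hp)

/-- `v_p(j) ≤ 2` -/
lemma mult_JC {j p : Eis} (hj : JC j) (hp : IsPP p) : multiplicity p j ≤ 2 := by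
  obtain ⟨c, hc, j', hj', hcb, rfl⟩ := hj
  have hc' : GrB829.IsC c := hc
  rw [mult_mul hp.prime (isC_ne hc') hj'.ne_zero, mult_isC hc' hp, zero_add]
  by_contra h
  exact hcb p hp.prime ((pow_dvd_iff hp.prime hj'.ne_zero).mpr (by omega))

/-- `v_p(ν)` for `j S = jj e³`, `jj = c r ν²` -/
lemma mult_nu {j S p : Eis} (hj : JC j) (hS : IsPrim S) (hp : IsPP p) :
    multiplicity p (E4K164.dc (E5b54.stj S j)).2.2 =
      if (multiplicity p j + multiplicity p S) % 3 = 2 then 1 else 0 := by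
  obtain ⟨h1, e, he, h2⟩ := E5b54.stj_spec hS hj
  obtain ⟨d1, d2, d3, d4, d5, d6, d7⟩ := E4K164.dc_spec h1
  have hj0 := E4K164.jc_ne_zero hj
  have hjj0 := E4K164.jc_ne_zero h1
  have e1 := mult_mul hp.prime hj0 hS.ne_zero
  rw [h2, mult_mul hp.prime hjj0 (pow_ne_zero 3 he.ne_zero), mult_pow hp.prime he.ne_zero] at e1
  have e2 : multiplicity p (E5b54.stj S j) = multiplicity p (E4K164.dc (E5b54.stj S j)).2.1 +
      2 * multiplicity p (E4K164.dc (E5b54.stj S j)).2.2 := by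
    conv_lhs => rw [d7]
    rw [mult_mul hp.prime (mul_ne_zero (isC_ne d1) d2.ne_zero) (pow_ne_zero 2 d4.ne_zero),
      mult_mul hp.prime (isC_ne d1) d2.ne_zero, mult_isC d1 hp, mult_pow hp.prime d4.ne_zero,
      zero_add]
  have e3 := mult_sqf d3 d2.ne_zero hp.prime
  have e4 := mult_sqf d5 d4.ne_zero hp.prime
  have e5 : ¬ (1 ≤ multiplicity p (E4K164.dc (E5b54.stj S j)).2.1 ∧
      1 ≤ multiplicity p (E4K164.dc (E5b54.stj S j)).2.2) := by
    rintro ⟨f1, f2⟩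
    rw [← dvd_iff_mult hp.prime d2.ne_zero] at f1
    rw [← dvd_iff_mult hp.prime d4.ne_zero] at f2
    exact hp.prime.not_isUnit (d6.isUnit_of_dvd' f1 f2)
  split_ifs with h <;> omega

lemma mult_Snu {j S p : Eis} (hj : JC j) (hS : IsPrim S) (hp : IsPP p) :
    multiplicity p (S * (E4K164.dc (E5b54.stj S j)).2.2) = multiplicity p S +
      if (multiplicity p j + multiplicity p S) % 3 = 2 then 1 else 0 := by
  obtain ⟨-, -, -, d4, -⟩ := E4K164.dc_spec (E5b54.stj_spec hS hj).1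
  rw [mult_mul hp.prime hS.ne_zero d4.ne_zero, mult_nu hj hS hp]

/-- **the cube part of `S ν`** -/
theorem b3_eq {j S : Eis} (hj : JC j) (hS : IsPrim S)
    (h2 : ∀ p : Eis, IsPP p → multiplicity p S ≤ 2) :
    b3 (S * (E4K164.dc (E5b54.stj S j)).2.2) = E4U164.pS 1 0 S j := by
  classical
  obtain ⟨-, -, -, d4, -⟩ := E4K164.dc_spec (E5b54.stj_spec hS hj).1
  have h0 : S * (E4K164.dc (E5b54.stj S j)).2.2 ≠ 0 := mul_ne_zero hS.ne_zero d4.ne_zero
  unfold b3 E4U164.pS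
  refine prod_congr ?_ fun _ _ => rfl
  ext p
  rw [mem_filter, mem_filter, mem_pp h0, mem_pp hS.ne_zero]
  constructor
  · rintro ⟨⟨hp, -⟩, h3⟩
    have e1 := mult_Snu hj hS hp
    have e2 := h2 p hp
    have e3 := mult_JC hj hp
    rw [h3] at e1
    split_ifs at e1 with h
    · refine ⟨⟨hp, (dvd_iff_mult hp.prime hS.ne_zero).mpr (by omega)⟩, ?_, ?_⟩
      · show multiplicity p S = 1 + 1
        omega
      · show multiplicity p j = 0
        omega
    · omega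
  · rintro ⟨⟨hp, hd⟩, h3, h4⟩
    have h3' : multiplicity p S = 1 + 1 := h3
    have h4' : multiplicity p j = 0 := h4
    refine ⟨⟨hp, hd.mul_right _⟩, ?_⟩
    rw [mult_Snu hj hS hp, h3', h4', if_pos (by norm_num)]

/-! ### the size of `S ν` -/

open Classical in
/-- the part of `ν` prime to `S` -/
def nu0 (S ν : Eis) : Eis := ∏ p ∈ (pp ν).filter (fun p => ¬ p ∣ S), p

lemma nu0_prim (S ν : Eis) : IsPrim (nu0 S ν) := by
  classical
  unfold nu0
  exact isPrim_prod' fun _ hp => (isPP_of_mem_pp (mem_filter.mp hp).1).isPrim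

/-- exponent of `p` in `S ν` -/
def eT (a : Fin 2) (b : Fin 3) : ℕ := (a : ℕ) + 1 + if ((b : ℕ) + ((a : ℕ) + 1)) % 3 = 2 then 1 else 0

lemma pS_prim (a : Fin 2) (b : Fin 3) (s j : Eis) : IsPrim (E4U164.pS a b s j) :=
  isPrim_prod' fun _ hp => (isPP_of_mem_pp (mem_filter.mp hp).1).isPrim

/-- **`S ν` from the classes** -/
theorem Snu_eq {j S : Eis} (hj : JC j) (hS : IsPrim S)
    (h2 : ∀ p : Eis, IsPP p → multiplicity p S ≤ 2) :
    S * (E4K164.dc (E5b54.stj S j)).2.2 =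
      (∏ a, ∏ b, E4U164.pS a b S j ^ eT a b) * nu0 S (E4K164.dc (E5b54.stj S j)).2.2 := by
  classical
  obtain ⟨-, -, -, d4, d5, -⟩ := E4K164.dc_spec (E5b54.stj_spec hS hj).1
  set ν := (E4K164.dc (E5b54.stj S j)).2.2 with hν
  have h0 : S * ν ≠ 0 := mul_ne_zero hS.ne_zero d4.ne_zero
  have h1 := fac (hS.mul d4) (ppSet_pp (S * ν)) (subset_refl _)
  rw [h1, ← prod_filter_mul_prod_filter_not (pp (S * ν)) (fun p => p ∣ S)]
  congr 1
  · -- the primes of `S`
    have e0 : (pp (S * ν)).filter (fun p => p ∣ S) = pp S := by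
      ext p
      rw [mem_filter, mem_pp h0, mem_pp hS.ne_zero]
      exact ⟨fun h => ⟨h.1.1, h.2⟩, fun h => ⟨⟨h.1, h.2.mul_right _⟩, h.2⟩⟩
    rw [e0]
    have e1 : ∀ p ∈ pp S, p ^ multiplicity p (S * ν) = ∏ x : Fin 2 × Fin 3,
        if multiplicity p S = (x.1 : ℕ) + 1 ∧ multiplicity p j = (x.2 : ℕ)
          then p ^ eT x.1 x.2 else 1 := by
      intro p hp
      obtain ⟨hpp, hd⟩ := (mem_pp hS.ne_zero).mp hp
      have f1 := h2 p hpp
      have f2 := mult_JC hj hpp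
      have f3 := (dvd_iff_mult hpp.prime hS.ne_zero).mp hd
      have f4 : multiplicity p S - 1 + 1 = multiplicity p S := by omega
      have f5 : multiplicity p (S * ν) =
          eT ⟨multiplicity p S - 1, by omega⟩ ⟨multiplicity p j, by omega⟩ := by
        rw [hν, mult_Snu hj hS hpp]
        unfold eT
        show _ = multiplicity p S - 1 + 1 +
          if (multiplicity p j + (multiplicity p S - 1 + 1)) % 3 = 2 then 1 else 0
        rw [f4]
      rw [f5]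
      rw [prod_eq_single ((⟨multiplicity p S - 1, by omega⟩ : Fin 2),
        (⟨multiplicity p j, by omega⟩ : Fin 3))]
      · have f6 : multiplicity p S = ((⟨multiplicity p S - 1, by omega⟩ : Fin 2) : ℕ) + 1 :=
          f4.symm
        exact (if_pos ⟨f6, rfl⟩).symm
      · intro x _ hx
        rw [if_neg]
        rintro ⟨g1, g2⟩
        apply hx
        refine Prod.ext (Fin.ext ?_) (Fin.ext ?_)
        · show (x.1 : ℕ) = multiplicity p S - 1
          omega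
        · exact g2.symm
      · intro h
        exact absurd (mem_univ _) h
    rw [prod_congr rfl e1, prod_comm, ← univ_product_univ, prod_product]
    refine prod_congr rfl fun a _ => prod_congr rfl fun b _ => ?_
    unfold E4U164.pS
    rw [← prod_pow, prod_filter]
  · -- the primes prime to `S`
    unfold nu0
    have e0 : (pp (S * ν)).filter (fun p => ¬ p ∣ S) = (pp ν).filter (fun p => ¬ p ∣ S) := by
      ext p
      rw [mem_filter, mem_filter, mem_pp h0, mem_pp d4.ne_zero]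
      constructor
      · rintro ⟨⟨g1, g2⟩, g3⟩
        exact ⟨⟨g1, (g1.prime.dvd_or_dvd g2).resolve_left g3⟩, g3⟩
      · rintro ⟨⟨g1, g2⟩, g3⟩
        exact ⟨⟨g1, g2.mul_left _⟩, g3⟩
    rw [e0]
    refine prod_congr rfl fun p hp => ?_
    obtain ⟨g1, g3⟩ := mem_filter.mp hp
    obtain ⟨g4, g5⟩ := (mem_pp d4.ne_zero).mp g1
    rw [mult_mul g4.prime hS.ne_zero d4.ne_zero, mult_eq_zero g4.prime hS.ne_zero g3, zero_add]
    have g6 := mult_sqf d5 d4.ne_zero g4.prime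
    have g7 := (dvd_iff_mult g4.prime d4.ne_zero).mp g5
    rw [show multiplicity p ν = 1 by omega, pow_one]

/-! ### at the data of one summand -/

/-- real exponents of a class: `log₂ N(S ν) - log₂ N(ν₀)` -/
def mlam (m : Fin 2 → Fin 3 → ℕ) : ℕ := ∑ a, ∑ b, eT a b * m a b

open Crest.Agent.R017.Prov71 Crest.Agent.R017.E5B71 Crest.Agent.R017.E4D164
  Crest.Agent.R017.E4U164 Crest.Agent.R017.B770 in
/-- **the outer parameters of the data** -/
theorem o_spec {Λ : Type*} {π : Λ → DPar} {lam : Λ × Eis}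
    {Jf : ℝ → ℝ → ℝ → Finset (Eis × Eis)} (hJ : ∀ l N z, OKJ (Jf l N z)) {a : Bd × ℕ} {x : Dt}
    {Bf : ℝ → ℝ → ℝ → ℝ} {e0 r ε X : ℝ} (ha : a.1.ok) (hP : a.1.okP (π lam.1))
    (hx : x.OK (π lam.1) Bf e0 r ε X a.1) (o : x.O π lam Jf a) :
    IsPrim o.1.1 ∧ IsPrim o.1.2 ∧ Squarefree o.1.2 ∧
    (∀ p : Eis, IsPP p → multiplicity p o.1.1 ≤ 2) ∧
    (2 ^ x.m 1 0 ≤ nm (b3 (o.1.1 * o.1.2)) ∧ nm (b3 (o.1.1 * o.1.2)) < 2 ^ (x.m 1 0 + 1)) ∧
    2 ^ mlam x.m * nm (nu0 o.1.1 o.1.2) ≤ nm (o.1.1 * o.1.2) ∧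
    nm (o.1.1 * o.1.2) ≤ 2 ^ 11 * 2 ^ mlam x.m * nm (nu0 o.1.1 o.1.2) := by
  classical
  obtain ⟨⟨o1, o2⟩, ho⟩ := o
  have ho' := ho
  unfold Dt.O OD OU at ho'
  rw [mem_filter, mem_image] at ho'
  obtain ⟨⟨i, hi, he⟩, -⟩ := ho'
  obtain ⟨⟨hi1, hi2⟩, hcl⟩ := Dt.mem_I.mp hi
  obtain ⟨q, δ, j⟩ := i
  have he1 : sS x.g x.e₀ x.t q = o1 := congrArg Prod.fst he
  have he2 : (E4K164.dc (E5b54.stj (sS x.g x.e₀ x.t q) j)).2.2 = o2 := congrArg Prod.snd he
  have hj : JC j := (okJ3 hJ a.1 a.2).jc _ hi2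
  obtain ⟨q1, q2, q3, -⟩ := hx.Q q hi1
  obtain ⟨g1, g2, g3⟩ := (E5P571.mem_Gd ha.2.2).mp hx.g
  have hEp : IsPrim (x.E a.1) := hP.1.prim.mul (T3_prim x.β hx.β)
  obtain ⟨t1, t2, -⟩ := (E5P571.mem_Gd (tS_prim hEp).ne_zero).mp hx.t
  obtain ⟨-, e1, e2⟩ := (LS2.mem_S (Real.exp_nonneg _)).mp hx.e₀
  have hqg : IsCoprime q x.g := q3.of_isCoprime_of_dvd_right g3
  have m2 : ∀ p : Eis, IsPP p → multiplicity p (sS x.g x.e₀ x.t q) ≤ 2 := fun p hp =>
    mult_sS_le g1.prim g2 e1 e2 t1.prim t2 q1.prim q2 hqg hp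
  have hS : IsPrim (sS x.g x.e₀ x.t q) :=
    lc_prim (lc_prim ((q1.prim.pow 2).mul g1.prim) e1) t1.prim
  obtain ⟨-, -, -, d4, d5, -⟩ := E4K164.dc_spec (E5b54.stj_spec hS hj).1
  have hb := b3_eq hj hS m2
  have hn := Snu_eq hj hS m2
  rw [he2, he1] at hb hn
  rw [he2] at d4 d5
  rw [he1] at hS m2
  have hcl' : ∀ b c, 2 ^ x.m b c ≤ nm (pS b c o1 j) ∧ nm (pS b c o1 j) < 2 ^ (x.m b c + 1) := by
    intro b c
    have := hcl b c
    rw [he1] at this
    exact this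
  refine ⟨hS, d4, d5, m2, ?_, ?_, ?_⟩
  · show 2 ^ x.m 1 0 ≤ nm (b3 (o1 * o2)) ∧ nm (b3 (o1 * o2)) < 2 ^ (x.m 1 0 + 1)
    rw [hb]
    exact hcl' 1 0
  · show 2 ^ mlam x.m * nm (nu0 o1 o2) ≤ nm (o1 * o2)
    rw [hn, nm_mul]
    refine Nat.mul_le_mul_right _ ?_
    have h1 : ∀ a b, nm (pS a b o1 j ^ eT a b) = nm (pS a b o1 j) ^ eT a b := fun a b => nm_pow _ _
    have h2 : nm (∏ a, ∏ b, pS a b o1 j ^ eT a b) = ∏ a, ∏ b, nm (pS a b o1 j) ^ eT a b := by
      simp only [Fin.prod_univ_two, Fin.prod_univ_three, nm_mul, h1]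
    rw [h2]
    have h3 : 2 ^ mlam x.m = ∏ a : Fin 2, ∏ b : Fin 3, (2 ^ x.m a b) ^ eT a b := by
      unfold mlam
      rw [← Finset.prod_pow_eq_pow_sum]
      refine prod_congr rfl fun a _ => ?_
      rw [← Finset.prod_pow_eq_pow_sum]
      refine prod_congr rfl fun b _ => ?_
      rw [← pow_mul, mul_comm]
    rw [h3]
    exact prod_le_prod' fun a _ => prod_le_prod' fun b _ => Nat.pow_le_pow_left (hcl' a b).1 _
  · show nm (o1 * o2) ≤ 2 ^ 11 * 2 ^ mlam x.m * nm (nu0 o1 o2)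
    rw [hn, nm_mul]
    refine Nat.mul_le_mul_right _ ?_
    have h1 : ∀ a b, nm (pS a b o1 j ^ eT a b) = nm (pS a b o1 j) ^ eT a b := fun a b => nm_pow _ _
    have h2 : nm (∏ a, ∏ b, pS a b o1 j ^ eT a b) = ∏ a, ∏ b, nm (pS a b o1 j) ^ eT a b := by
      simp only [Fin.prod_univ_two, Fin.prod_univ_three, nm_mul, h1]
    rw [h2]
    have h3 : 2 ^ 11 * 2 ^ mlam x.m = ∏ a : Fin 2, ∏ b : Fin 3, (2 ^ (x.m a b + 1)) ^ eT a b := by
      have h4 : (2 : ℕ) ^ 11 = ∏ a : Fin 2, ∏ b : Fin 3, 2 ^ eT a b := by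
        simp only [Fin.prod_univ_two, Fin.prod_univ_three]
        decide
      have h5 : 2 ^ mlam x.m = ∏ a : Fin 2, ∏ b : Fin 3, (2 ^ x.m a b) ^ eT a b := by
        unfold mlam
        rw [← Finset.prod_pow_eq_pow_sum]
        refine prod_congr rfl fun a _ => ?_
        rw [← Finset.prod_pow_eq_pow_sum]
        refine prod_congr rfl fun b _ => ?_
        rw [← pow_mul, mul_comm]
      rw [h4, h5, ← prod_mul_distrib]
      refine prod_congr rfl fun a _ => ?_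
      rw [← prod_mul_distrib]
      refine prod_congr rfl fun b _ => ?_
      rw [← mul_pow, pow_succ, mul_comm 2]
    rw [h3]
    exact prod_le_prod' fun a _ => prod_le_prod' fun b _ =>
      Nat.pow_le_pow_left (hcl' a b).2.le _

end Crest.Agent.R017.Str699
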