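import Crest.Agent.R017.E4Uf_164
import Crest.Agent.R017.E4RJ_858
import Crest.Agent.R017.Str3_699

/-!
# Row 17, R8 / E5, class N: `JPU ⟹ JBU` (helper858)

* `bo3 t` : the primes with exponent `3` in `S ν` (counted outside `x.e₀`)
* `soL x f t` : exponents in `k` of the primes of `g e₀ t`; the primes of `f` in `D1` and in `b₁`
* `JPU` : `JBU` at a fixed prefix, a fixed `bo3` and a fixed label
* `jbu_of_jpu`
-/

set_option autoImplicit false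

noncomputable section

open Finset Complex Filter
open scoped ComplexConjugate ContDiff

namespace Crest.Agent.R017.E4U164

open Crest.Agent.R012 Crest.Agent.R012.Eis
open Crest.Agent.R012.Mob705 hiding pb mem_pb
open Crest.Agent.R012.LS2 (S mem_S)
open Crest.Agent.R017.Sx545 (Sm)
open Crest.Agent.R017.CM106 (FS)
open Crest.Agent.R017.C70 (OKJ)
open Crest.Agent.R017.E4352 (PrI rd Dat4 SSm)
open Crest.Agent.R017.E5k54 (PT alb)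
open Crest.Agent.R017.E5P571 (Gd mem_Gd)
open Crest.Agent.R017.SSb54 (PTb mem_PTb PTb_sub)
open Crest.Agent.R017.E5B71
open Crest.Agent.R017.B770
open Crest.Agent.R017.FE47 (SM)
open Crest.Agent.R017.Prov71
open Crest.Agent.R017.E5L770
open Crest.Agent.R017.E4D164
open Crest.Agent.R017.E4J352 (Tm JB rngD rngF gx)
open Crest.Agent.R017.E4ap783 (Cs PG mtr TG7 Ap7)
open Crest.Agent.R017.Str699 (b3 nm_b3_le b3_prim o_spec)
open Crest.Agent.R017.E4RH858 (JP0b JP0s JP0w JP0s_of_w JB_of_JP0s kl kl_prim kl_dvd rad3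
  rad3_prim nm_rad3_le card_dvs4 be1 be2 gd be1_prim be2_prim gd_prim be1_dvd_self be2_dvd gd_dvd
  be_mulS)
open Crest.Agent.R012.Div277 (dvs mem_dvs)

variable {Λ : Type*}

/-- the fixed variable: the primes with exponent `3` in `S ν` -/
def bo3 {OO : Finset (Eis × Eis)} (t : Tm OO) : Eis := b3 (t.o.1.1 * t.o.1.2)

/-- the label: exponents (up to `3`) in `k` of the primes of `g e₀ t`; the primes of `f` in `D1`;
the primes of `f` in `b₁` -/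
def soL (x : Dt) (f : Eis) {OO : Finset (Eis × Eis)} (t : Tm OO) : Eis × Eis × Eis :=
  (kl (x.g * x.e₀ * x.t) t.k, gd f t.D1, gd f (E4RH858.b1 t))

lemma bo3_prim {OO : Finset (Eis × Eis)} (t : Tm OO) : IsPrim (bo3 t) := b3_prim _

lemma bo3_mul (e : Eis) {OO : Finset (Eis × Eis)} (t : Tm OO) :
    be1 e (bo3 t) * be2 e (bo3 t) = bo3 t := by
  classical
  unfold bo3 b3
  convert be_mulS (e := e) (S := (pp (t.o.1.1 * t.o.1.2)).filter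
    (fun p => multiplicity p (t.o.1.1 * t.o.1.2) = 3)) _
  exact fun p hp => isPP_of_mem_pp (Finset.mem_filter.mp hp).1

/-- **joint block hypothesis at list level, at a fixed prefix** -/
def JPU (π : Λ → DPar) (h : ℝ → ℝ) (θ A d μ e0 r : ℝ) (Bf : ℝ → ℝ → ℝ → ℝ)
    (Jf : ℝ → ℝ → ℝ → Finset (Eis × Eis)) : Prop :=
  ∀ ε : ℝ, 0 < ε → ∃ ε' : ℝ, 0 < ε' ∧ ε' ≤ ε ∧ ∃ δ : ℝ, 0 < δ ∧
    ∀ (lam : Λ × Eis) (N : ℕ) (B : ℝ)
    (T : Finset ((Eis → ℂ) × ℤ)), ¬ (π lam.1).CaseD →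
    (∀ t ∈ T, TG7 (π lam.1).n₃ (-(π lam.1).l₃) t) →
    ∃ A' : ℝ, 0 ≤ A' ∧ ∃ δ' : ℝ, 0 < δ' ∧ ∃ X₀ : ℝ, 1 < X₀ ∧ ∀ X : ℝ, X₀ ≤ X →
    ∀ (a : Bd × ℕ) (ps : List Pq) (q : (Option (Fin 3 ⊕ Fin 5) → ℝ) × (Kd → ℝ)),
      FrL A d δ δ' B X N a ps q → a.1.ok → lam.2 ∈ SM (π lam.1).n → a.1.okP (π lam.1) →
    ∀ x : Dt, x.OK (π lam.1) Bf e0 r ε' X a.1 → XLow d X q x →
    ∀ (h₁ : FS (b1 (π lam.1) h lam.2 ps)) (h₂ : FS (b2 (π lam.1) h lam.2 a.1 ps)),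
    ∃ (sw : Eis → Eis → Eis → Eis → Eis → Prop) (T₀ : ℝ), 0 ≤ T₀ ∧
      (∀ D0 D1 B R Z : Eis, sw D0 D1 B R Z → (nm D1 : ℝ) * nm (rd Z) ≤ 2 * T₀) ∧
      JP0w (π lam.1).n₃ (fN (π lam.1).n₃ (x.E a.1)) (fun β => (nm (be1 x.e₀ β) : ℝ)) bo3
        (soL x (fN (π lam.1).n₃ (x.E a.1))) lD
        (x.v π h lam Jf a) (x.w π h lam Jf a ps h₁ h₂) (fun _ => 1)
        (rngD sw lD (X ^ ε' * Real.exp a.1.l))
        (X ^ (T5 θ (dn q.1, q.2) - μ + ε) / (nrm x * Real.exp (a.1.l / 3))) ∧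
      ∀ t ∈ T, ∀ ξ : ℝ,
        JP0w (π lam.1).n₃ (fN (π lam.1).n₃ (x.E a.1)) (fun β => (nm (be1 x.e₀ β) : ℝ)) bo3
          (soL x (fN (π lam.1).n₃ (x.E a.1))) lD
          (x.v π h lam Jf a) (x.w π h lam Jf a ps h₁ h₂) (gx t.1 t.2 ξ)
          (rngF sw lD (X ^ ε' * (U0 (π lam.1) a ps x / Real.exp a.1.l)))
          ((1 + |ξ|) ^ A' *
            (X ^ (T5 θ (dn q.1, q.2) - μ + ε) / (nrm x * Real.exp (a.1.l / 3))))

/-! ### sizes -/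

lemma nm_fN_le' {M E : Eis} (hM : M ≠ 0) (hE : IsPrim E) :
    (nm (fN M E) : ℝ) ≤ (nm E : ℝ) ^ 2 := by
  obtain ⟨h1, h2, h3⟩ := fM_spec hM hE
  have h4 : nm (fN M E) ≤ nm (fS E) :=
    Div277.nm_le_of_dvd (fS_prim hE).ne_zero (by rw [h3]; exact dvd_mul_left _ _)
  obtain ⟨s1, -, s3, -, -, s6, s7⟩ := sd_spec hE
  have h5 : fS E ∣ E ^ 2 := by
    unfold fS
    conv_rhs => rw [s7]
    exact ⟨(sd E).2.1 ^ 3 * (sd E).2.2 ^ 6, by ring⟩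
  have h6 : nm (fS E) ≤ nm E ^ 2 := by
    rw [← nm_pow]
    exact Div277.nm_le_of_dvd (pow_ne_zero 2 hE.ne_zero) h5
  exact_mod_cast h4.trans h6

lemma dat4_mono' {M f : Eis} {O : Type} [Fintype O] {lam : O → ℝ} {v w : O → Eis → ℂ} {X X' : ℝ}
    (h : Dat4 M f lam v w X) (hX : X ≤ X') : Dat4 M f lam v w X' where
  X1 := h.X1.trans hX
  card := h.card.trans hX
  lam1 o := ⟨(h.lam1 o).1, (h.lam1 o).2.trans hX⟩
  hf := ⟨h.hf.1, h.hf.2.trans hX⟩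
  hv := h.hv
  hw := h.hw
  vx o x hx := ⟨(h.vx o x hx).1, (h.vx o x hx).2.trans hX⟩
  wy o y hy := (h.wy o y hy).trans hX
  vb o x := (h.vb o x).trans hX
  wb o y := (h.wb o y).trans hX

lemma mem_PT' {ι : Type*} [Fintype ι] {Y : ℕ} {β : ι → Eis} (h : β ∈ PT ι Y) :
    ∀ i, β i ∈ primBall Y := by
  classical
  unfold E5k54.PT at h
  rw [Finset.mem_filter, Fintype.mem_piFinset] at h
  exact h.1

/-- `E` is at most `Y²` -/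
lemma nm_E_le {P : DPar} {Bf : ℝ → ℝ → ℝ → ℝ} {e0 r ε X Y : ℝ} {a : Bd} {x : Dt}
    (hx : x.OK P Bf e0 r ε X a) (he : (nm a.e : ℝ) ≤ Y) (h3 : (Y3 a r : ℝ) ^ 3 ≤ Y) :
    (nm (x.E a) : ℝ) ≤ Y ^ 2 := by
  have h1 : ∀ i, nm (x.β i) ≤ Y3 a r := fun i =>
    (mem_primBall.mp (mem_PT' (mem_PTb.mp hx.β).1 i)).1
  have h4 : (nm (∏ i, x.β i) : ℝ) ≤ Y := by
    rw [Fin.prod_univ_three, nm_mul, nm_mul]
    push_cast
    calc (nm (x.β 0) : ℝ) * nm (x.β 1) * nm (x.β 2) ≤ Y3 a r * Y3 a r * Y3 a r := by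
          gcongr
          · exact h1 0
          · exact h1 1
          · exact h1 2
      _ = (Y3 a r : ℝ) ^ 3 := by ring
      _ ≤ Y := h3
  unfold Dt.E
  rw [nm_mul]
  push_cast
  have hY : (0 : ℝ) ≤ Y := (Nat.cast_nonneg _).trans he
  calc (nm a.e : ℝ) * nm (∏ i, x.β i) ≤ Y * Y := mul_le_mul he h4 (Nat.cast_nonneg _) hY
    _ = Y ^ 2 := by ring

/-- **`JPU ⟹ JBU`** -/
theorem jbu_of_jpu {π : Λ → DPar} {h : ℝ → ℝ} (hP : ∀ lam, (π lam).OK) {θ A d μ e0 r : ℝ}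
    {Bf : ℝ → ℝ → ℝ → ℝ} {Jf : ℝ → ℝ → ℝ → Finset (Eis × Eis)}
    (hJf : ∀ l N z, OKJ (Jf l N z)) (HS : SzU π h A d e0 r Bf Jf)
    (HJ : JPU π h θ A d μ e0 r Bf Jf) : JBU π h θ A d μ e0 r Bf Jf := by
  intro ε hε
  set ε₀ : ℝ := min (ε / 2) 1 with hε₀
  have hε₀p : 0 < ε₀ := lt_min (by positivity) one_pos
  obtain ⟨ε', hε', hε'0, δ, hδ, HJ⟩ := HJ ε₀ hε₀p
  have hε'1 : ε' ≤ 1 := hε'0.trans (min_le_right _ _)
  have hε'2 : ε' ≤ ε := hε'0.trans ((min_le_left _ _).trans (by linarith))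
  refine ⟨ε', hε', hε'2, min δ (1 / 2), lt_min hδ (by norm_num), fun lam N B T hD hT => ?_⟩
  obtain ⟨A', hA', δ', hδ', X₁, hX₁, HJ⟩ := HJ lam N B T hD hT
  obtain ⟨A0, C0, X₂, hA0, -, hX₂, HS⟩ := HS lam N B 1 one_pos
  have hA0p : 0 < A0 := by linarith
  obtain ⟨C₁, hC₁, HC⟩ := JB_of_JP0s (ε := ε / (96 * A0)) (by positivity)
  obtain ⟨C₂, hC₂, HC₂⟩ := card_dvs4 (ε := ε / (96 * A0)) (by positivity)
  set C : ℝ := C₁ * C₂ with hCd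
  have hC : 1 ≤ C := by nlinarith
  obtain ⟨X₃, hX₃⟩ := (((tendsto_rpow_atTop (show 0 < ε / 4 by positivity)).eventually_ge_atTop C).and
    (eventually_ge_atTop 1)).exists_forall_of_atTop
  refine ⟨A', hA', min δ' 1, lt_min hδ' one_pos, max (max X₁ X₂) X₃,
    lt_of_lt_of_le hX₁ ((le_max_left _ _).trans (le_max_left _ _)), ?_⟩
  intro X hX a ps q hF hok hl2 hokP x hx hxl h₁ h₂
  have hX1 : X₁ ≤ X := ((le_max_left _ _).trans (le_max_left _ _)).trans hX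
  have hX2 : X₂ ≤ X := ((le_max_right _ _).trans (le_max_left _ _)).trans hX
  have hX3 : X₃ ≤ X := (le_max_right _ _).trans hX
  have hXg1 : 1 < X := hX₁.trans_le hX1
  have hX0 : 0 < X := by linarith
  obtain ⟨hCX, -⟩ := hX₃ X hX3
  obtain ⟨sw, T₀, hT₀, hsw, HD, HG⟩ := HJ X hX1 a ps q
    (hF.mono hXg1.le (min_le_left _ _) (min_le_left _ _)) hok hl2 hokP x hx hxl h₁ h₂
  obtain ⟨SF, SD⟩ := HS X hX2 a ps q (min δ (1 / 2)) (min δ' 1) (min_le_right _ _)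
    (min_le_right _ _) hF hok hl2 hokP
  have SD := SD x (hx.mono hXg1.le hε'1) h₁ h₂
  set Y : ℝ := X ^ A0 with hY
  have hY1 : 1 ≤ Y := Real.one_le_rpow hXg1.le hA0p.le
  have hY0 : 0 < Y := by linarith
  have hYp : ∀ {m n : ℕ}, m ≤ n → Y ^ m ≤ Y ^ n := fun h => pow_le_pow_right₀ hY1 h
  have hY12 : Y ≤ Y ^ 12 := by simpa using hYp (show 1 ≤ 12 by norm_num)
  -- the primary elements
  have hn₃ : (π lam.1).n₃ ≠ 0 := (hP lam.1).χ₃.q0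
  have hEp : IsPrim (x.E a.1) := hokP.1.prim.mul (T3_prim x.β hx.β)
  have hEY : (nm (x.E a.1) : ℝ) ≤ Y ^ 2 := nm_E_le hx SF.eN SF.y3
  have hf0 : fN (π lam.1).n₃ (x.E a.1) ≠ 0 := (fM_spec hn₃ hEp).2.1.ne_zero
  have hfY4 : (nm (fN (π lam.1).n₃ (x.E a.1)) : ℝ) ≤ Y ^ 4 := by
    refine (nm_fN_le' hn₃ hEp).trans ?_
    calc (nm (x.E a.1) : ℝ) ^ 2 ≤ (Y ^ 2) ^ 2 := by gcongr
      _ = Y ^ 4 := by ring
  have hfY : (nm (fN (π lam.1).n₃ (x.E a.1)) : ℝ) ≤ Y ^ 12 := hfY4.trans (hYp (by norm_num))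
  -- the label
  obtain ⟨g1, g2, g3⟩ := (mem_Gd hok.2.2).mp hx.g
  obtain ⟨t1, t2, t3⟩ := (mem_Gd (tS_prim hEp).ne_zero).mp hx.t
  obtain ⟨e3, e1, e2⟩ := (mem_S (Real.exp_nonneg _)).mp hx.e₀
  have hNp : IsPrim (x.g * x.e₀ * x.t) := (g1.prim.mul e1).mul t1.prim
  have hN1 : (nm (x.g * x.e₀ * x.t) : ℝ) ≤ Y ^ 4 := by
    rw [nm_mul, nm_mul]
    push_cast
    have a1 : (nm x.g : ℝ) ≤ Y := by
      refine le_trans ?_ SF.d₃
      exact_mod_cast Div277.nm_le_of_dvd hok.2.2 g3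
    have a2 : (nm x.e₀ : ℝ) ≤ Y := e3.trans SF.eY
    have a3 : (nm x.t : ℝ) ≤ Y ^ 2 := by
      refine le_trans ?_ hEY
      exact_mod_cast (Div277.nm_le_of_dvd (tS_prim hEp).ne_zero t3).trans
        (Div277.nm_le_of_dvd hEp.ne_zero ((dvd_pow_self _ (by norm_num)).trans (tS_dvd hEp)))
    calc (nm x.g : ℝ) * nm x.e₀ * nm x.t ≤ Y * Y * Y ^ 2 := by gcongr
      _ = Y ^ 4 := by ring
  have hN2 : (nm (rad3 (x.g * x.e₀ * x.t)) : ℝ) ≤ Y ^ 12 := by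
    calc (nm (rad3 (x.g * x.e₀ * x.t)) : ℝ) ≤ (nm (x.g * x.e₀ * x.t) : ℝ) ^ 3 := by
          exact_mod_cast nm_rad3_le hNp
      _ ≤ (Y ^ 4) ^ 3 := by gcongr
      _ = Y ^ 12 := by ring
  have hdat := dat4_mono' SD.dat hY12
  -- the fixed variable
  have hbo : ∀ t : Tm (x.O π lam Jf a), IsPrim (be1 x.e₀ (bo3 t)) ∧
      (nm (be1 x.e₀ (bo3 t)) : ℝ) ≤ Y ^ 12 := by
    intro t
    obtain ⟨o1, o2, -⟩ := o_spec hJf hok hokP hx t.o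
    refine ⟨be1_prim _ _, ?_⟩
    have h0 : nm (be1 x.e₀ (bo3 t)) ≤ nm (bo3 t) :=
      Div277.nm_le_of_dvd (b3_prim _).ne_zero (be1_dvd_self (b3_prim _))
    have h1 : (nm (be1 x.e₀ (bo3 t)) : ℝ) ≤ nm (t.o.1.1 * t.o.1.2) := by
      exact_mod_cast h0.trans (nm_b3_le (o1.mul o2))
    exact h1.trans (hdat.lam1 t.o).2
  have hinj : ∀ t t' : Tm (x.O π lam Jf a), be1 x.e₀ (bo3 t) = be1 x.e₀ (bo3 t') →
      be2 x.e₀ (bo3 t) = be2 x.e₀ (bo3 t') → bo3 t = bo3 t' := by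
    intro t t' h1 h2
    rw [← bo3_mul x.e₀ t, ← bo3_mul x.e₀ t', h1, h2]
  set f : Eis := fN (π lam.1).n₃ (x.E a.1) with hf
  have hfp : IsPrim f := (fM_spec hn₃ hEp).2.1.prim
  have he0Y : (nm x.e₀ : ℝ) ≤ Y ^ 12 := (e3.trans SF.eY).trans hY12
  set Tl : Finset (Eis × Eis × Eis × Eis) := dvs x.e₀ ×ˢ dvs (rad3 (x.g * x.e₀ * x.t)) ×ˢ
    dvs f ×ˢ dvs f with hTl
  have hso : ∀ t : Tm (x.O π lam Jf a), (be2 x.e₀ (bo3 t), soL x f t) ∈ Tl := fun t => by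
    rw [hTl, Finset.mem_product, Finset.mem_product, Finset.mem_product]
    exact ⟨(mem_dvs e1.ne_zero).mpr ⟨be2_prim _ _, be2_dvd e1⟩,
      (mem_dvs (rad3_prim _).ne_zero).mpr ⟨kl_prim _ _, kl_dvd _ _⟩,
      (mem_dvs hf0).mpr ⟨gd_prim _ _, gd_dvd hfp⟩,
      (mem_dvs hf0).mpr ⟨gd_prim _ _, gd_dvd hfp⟩⟩
  have hTc : (Tl.card : ℝ) ≤ C₂ * (Y ^ 12) ^ (ε / (96 * A0)) :=
    HC₂ _ _ _ _ (Y ^ 12) hdat.X1 e1.ne_zero (rad3_prim _).ne_zero hf0 hf0 he0Y hN2 hfY hfY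
  -- the number
  have hCY : C₁ * (Y ^ 12) ^ (ε / (96 * A0)) * Tl.card ≤ X ^ (ε / 2) := by
    have h1 : (Y ^ 12) ^ (ε / (96 * A0)) = X ^ (ε / 8) := by
      rw [hY, ← Real.rpow_natCast, ← Real.rpow_mul hX0.le, ← Real.rpow_mul hX0.le]
      congr 1
      push_cast
      field_simp
      ring
    rw [h1] at hTc ⊢
    have h2 := Real.rpow_nonneg hX0.le (ε / 8)
    have h3 := Real.rpow_nonneg hX0.le (ε / 4)
    calc C₁ * X ^ (ε / 8) * Tl.card ≤ C₁ * X ^ (ε / 8) * (C₂ * X ^ (ε / 8)) := by gcongr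
      _ = C * (X ^ (ε / 8) * X ^ (ε / 8)) := by rw [hCd]; ring
      _ = C * X ^ (ε / 4) := by rw [← Real.rpow_add hX0]; ring_nf
      _ ≤ X ^ (ε / 4) * X ^ (ε / 4) := by gcongr
      _ = X ^ (ε / 2) := by rw [← Real.rpow_add hX0]; ring_nf
  have hDn : 0 < nrm x * Real.exp (a.1.l / 3) := by
    have h1 : (0 : ℝ) < nm (∏ i, x.β i) := by
      exact_mod_cast nm_pos.mpr (T3_prim x.β hx.β).ne_zero
    have h2 : (0 : ℝ) < nm x.e₀ := by exact_mod_cast nm_pos.mpr e1.ne_zero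
    unfold nrm
    positivity
  have hS : ∀ b : ℝ, 0 ≤ b → C₁ * (Y ^ 12) ^ (ε / (96 * A0)) * (Tl.card *
      (b * (X ^ (T5 θ (dn q.1, q.2) - μ + ε₀) / (nrm x * Real.exp (a.1.l / 3))))) ≤
      b * (X ^ (T5 θ (dn q.1, q.2) - μ + ε) / (nrm x * Real.exp (a.1.l / 3))) := by
    intro b hb
    have h1 : 0 ≤ X ^ (T5 θ (dn q.1, q.2) - μ + ε₀) := Real.rpow_nonneg hX0.le _
    have h2 : C₁ * (Y ^ 12) ^ (ε / (96 * A0)) * Tl.card *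
        X ^ (T5 θ (dn q.1, q.2) - μ + ε₀) ≤ X ^ (T5 θ (dn q.1, q.2) - μ + ε) := by
      calc C₁ * (Y ^ 12) ^ (ε / (96 * A0)) * Tl.card * X ^ (T5 θ (dn q.1, q.2) - μ + ε₀)
          ≤ X ^ (ε / 2) * X ^ (T5 θ (dn q.1, q.2) - μ + ε₀) :=
            mul_le_mul_of_nonneg_right hCY h1
        _ = X ^ (ε / 2 + (T5 θ (dn q.1, q.2) - μ + ε₀)) := (Real.rpow_add hX0 _ _).symm
        _ ≤ X ^ (T5 θ (dn q.1, q.2) - μ + ε) := by
          refine Real.rpow_le_rpow_of_exponent_le hXg1.le ?_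
          have := min_le_left (ε / 2) 1
          rw [← hε₀] at this
          linarith
    calc C₁ * (Y ^ 12) ^ (ε / (96 * A0)) * (Tl.card *
        (b * (X ^ (T5 θ (dn q.1, q.2) - μ + ε₀) / (nrm x * Real.exp (a.1.l / 3)))))
        = b * (C₁ * (Y ^ 12) ^ (ε / (96 * A0)) * Tl.card *
          X ^ (T5 θ (dn q.1, q.2) - μ + ε₀) / (nrm x * Real.exp (a.1.l / 3))) := by ring
      _ ≤ _ := by gcongr
  have hS0 : 0 ≤ X ^ (T5 θ (dn q.1, q.2) - μ + ε₀) / (nrm x * Real.exp (a.1.l / 3)) := by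
    positivity
  refine ⟨sw, T₀, hT₀, hsw, ?_, fun t ht ξ => ?_⟩
  · have h1 := HC (π lam.1).n₃ f (x.O π lam Jf a) inferInstance
      (fun t => be1 x.e₀ (bo3 t)) _ (fun t => (be2 x.e₀ (bo3 t), soL x f t)) lD
      (x.v π h lam Jf a) (x.w π h lam Jf a ps h₁ h₂) (fun _ => 1) _
      Tl (Y ^ 12) _ hdat hf0 hfY hS0 (fun t _ _ => hbo t) (fun t _ _ => hso t)
      (JP0s_of_w hS0 hinj HD)
    refine JBm h1 (fun _ hr => hr) ?_
    have h2 := hS 1 zero_le_one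
    rwa [one_mul, one_mul] at h2
  · have hS1 : 0 ≤ (1 + |ξ|) ^ A' *
        (X ^ (T5 θ (dn q.1, q.2) - μ + ε₀) / (nrm x * Real.exp (a.1.l / 3))) := by positivity
    have h1 := HC (π lam.1).n₃ f (x.O π lam Jf a) inferInstance
      (fun t => be1 x.e₀ (bo3 t)) _ (fun t => (be2 x.e₀ (bo3 t), soL x f t)) lD
      (x.v π h lam Jf a) (x.w π h lam Jf a ps h₁ h₂) (gx t.1 t.2 ξ) _
      Tl (Y ^ 12) _ hdat hf0 hfY hS1 (fun t _ _ => hbo t) (fun t _ _ => hso t)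
      (JP0s_of_w hS1 hinj (HG t ht ξ))
    exact JBm h1 (fun _ hr => hr) (hS ((1 + |ξ|) ^ A') (by positivity))

end Crest.Agent.R017.E4U164
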