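import Crest.Agent.R017.E4Dic_352
import Crest.Agent.R017.E4RJ_858

/-!
# Row 17, C70/E4: the label determines the splitting of the kernel (helper858)

* `f1L e₀ D` : the part of `e₀` at the primes of `D`;  `spl_f1` : `f1 = f1L e₀ t.D1`, a function of
  the label `gd e₀ t.D1` (`f1L_gd`)
* `spl_f1g` : `f1 = gd e₀ t.D1` (`D1` is squarefree)
* `spl_gb` : `lg (gd e₀ (b1 t)) = bfS t f2`
* `kl_filter` : the squares of the primes of `N` in `k` from the label `kl N k`
-/

set_option autoImplicit false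
set_option linter.unusedSectionVars false

noncomputable section

open Complex
open scoped ComplexConjugate

namespace Crest.Agent.R017.E4RK858

open Crest.Agent.R012 Crest.Agent.R012.Eis Crest.Agent.R012.Mob705
open Crest.Agent.R012.Div277 (nm_le_of_dvd)
open Crest.Agent.R017.Sx545 Crest.Agent.R017.CM106 Crest.Agent.R017.C70
open Crest.Agent.R017.E4352 Crest.Agent.R017.E4J352
open Crest.Agent.R017.E4RG858 (fm pow_dvd_iff dvd_iff_mult mult_mul mult_pow mult_eq_zero fac rho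
  rho_nonneg)
open Crest.Agent.R017.E4RH858 Crest.Agent.R017.E4Dic352

/-- the part of `e₀` at the primes of `g` -/
def f1L (e₀ g : Eis) : Eis := ∏ p ∈ pp g, p ^ multiplicity p e₀

lemma f1L_prim (e₀ g : Eis) : IsPrim (f1L e₀ g) := prim_pow (ppSet_pp _) _

section spl

variable {O : Type} {M : Eis} {t : Tm O} {e₀ z f1 f2 f3 D1' Z'' l m : Eis}

/-- the primes of `B b` are prime to `D1` -/
lemma not_dvd_D1 (h : Facts M t) {p : Eis} (hp : p ∈ pp (t.B * t.b)) : ¬ p ∣ t.D1 := by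
  intro h1
  have hpp := (isPP_of_mem_pp hp).prime
  by_cases h2 : p ∈ s1 t
  · have h3 : p ∣ b1 t := Finset.dvd_prod_of_mem _ h2
    exact hpp.not_isUnit (h.c1D.isUnit_of_dvd' h3 h1)
  · have h3 : p ∈ s2 t := by
      rw [mem_s2]
      exact ⟨hp, fun h4 => h2 (mem_s1.mpr ⟨hp, h4⟩)⟩
    rw [← h.ps] at h3
    exact hpp.not_isUnit (h.cD.isUnit_of_dvd' (dvd_of_mem_pp h3) h1)

variable (s : Spl M e₀ z t f1 f2 f3 D1' Z'' l m) (h : Facts M t) (hok : t.OK M 1)
include s h hok

lemma spl_Bb : t.B * t.b ≠ 0 := (hok.gb.2.1.mul hok.sb).ne_zero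

/-- `D1` and `f2` are coprime at primary primes -/
lemma spl_D2 {p : Eis} (hp : IsPP p) (hD : p ∣ t.D1) : ¬ p ∣ f2 := fun h2 =>
  not_dvd_D1 h ((mem_pp (spl_Bb s h hok)).mpr ⟨hp, s.p2.2 p hp.prime h2⟩) hD

lemma spl_D3 {p : Eis} (hp : IsPP p) (hD : p ∣ t.D1) : ¬ p ∣ f3 := fun h3 =>
  hp.prime.not_isUnit (s.c3.isUnit_of_dvd' h3 hD)

/-- **`f1` is the part of `e₀` at the primes of `D1`** -/
theorem spl_f1 : f1 = f1L e₀ (gd e₀ t.D1) := by
  have he := spl_e0 s h hok
  have hS : PPSet (pp (gd e₀ t.D1)) := ppSet_pp _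
  have hsub : pp f1 ⊆ pp (gd e₀ t.D1) := by
    intro p hp
    have hpp := isPP_of_mem_pp hp
    have hd := dvd_of_mem_pp hp
    rw [mem_gd he]
    refine ⟨hpp, ?_, ?_⟩
    · rw [s.hf]
      exact (hd.mul_right _).mul_right _
    · rw [s.hD]
      exact hd.mul_right _
  have h1 := fac s.s1.prim hS hsub
  unfold f1L
  conv_lhs => rw [h1]
  refine Finset.prod_congr rfl fun p hp => ?_
  congr 1
  obtain ⟨h2, h3, h4⟩ := (mem_gd he).mp hp
  rw [s.hf, mult_mul h2.prime (mul_ne_zero s.s1.ne_zero s.s2.ne_zero) s.s3.ne_zero,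
    mult_mul h2.prime s.s1.ne_zero s.s2.ne_zero,
    mult_eq_zero h2.prime s.s2.ne_zero (spl_D2 s h hok h2 h4),
    mult_eq_zero h2.prime s.s3.ne_zero (spl_D3 s h hok h2 h4)]
  rfl

/-- `f1 ∣ D1` -/
theorem spl_f1_dvd : f1L e₀ (gd e₀ t.D1) ∣ t.D1 := by
  rw [← spl_f1 s h hok]
  exact ⟨D1', s.hD⟩

/-- `f1` is squarefree, the product of the primes of `e₀` in `D1` -/
theorem spl_f1g : f1 = gd e₀ t.D1 := by
  classical
  have he := spl_e0 s h hok
  have hsq : Squarefree f1 := by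
    have h1 : Squarefree (t.D0 * t.D1) := hok.good.2.1
    exact h1.squarefree_of_dvd ⟨t.D0 * D1', by rw [s.hD]; ring⟩
  have h2 : gd e₀ t.D1 ∣ f1 := by
    unfold gd
    refine prod_sub_dvd s.s1.prim fun p hp => ?_
    obtain ⟨g1, g2⟩ := Finset.mem_filter.mp hp
    have hpp := isPP_of_mem_pp g1
    refine (mem_pp s.s1.ne_zero).mpr ⟨hpp, ?_⟩
    have g3 : p ∣ f1 * f2 * f3 := by
      rw [← s.hf]
      exact dvd_of_mem_pp g1
    rcases hpp.prime.dvd_or_dvd g3 with g4 | g4
    · rcases hpp.prime.dvd_or_dvd g4 with g5 | g5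
      · exact g5
      · exact absurd g5 (spl_D2 s h hok hpp g2)
    · exact absurd g4 (spl_D3 s h hok hpp g2)
  have h3 : f1 ∣ gd e₀ t.D1 := by
    have h4 := fac s.s1.prim (ppSet_pp f1) subset_rfl
    have h5 : ∏ p ∈ pp f1, p ^ multiplicity p f1 = ∏ p ∈ pp f1, p := by
      refine Finset.prod_congr rfl fun p hp => ?_
      have hpp := (isPP_of_mem_pp hp).prime
      have h6 := (dvd_iff_mult hpp s.s1.ne_zero).mp (dvd_of_mem_pp hp)
      have h7 : multiplicity p f1 ≤ 1 := by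
        by_contra h8
        have h9 : p ^ 2 ∣ f1 := (pow_dvd_iff hpp s.s1.ne_zero).mpr (by omega)
        rw [pow_two] at h9
        exact hpp.not_isUnit (hsq p h9)
      rw [show multiplicity p f1 = 1 by omega, pow_one]
    rw [h4, h5]
    unfold gd
    refine Finset.prod_dvd_prod_of_subset _ _ _ fun p hp => ?_
    have hd := dvd_of_mem_pp hp
    refine Finset.mem_filter.mpr ⟨(mem_pp he).mpr ⟨isPP_of_mem_pp hp, ?_⟩, ?_⟩
    · rw [s.hf]
      exact (hd.mul_right _).mul_right _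
    · rw [s.hD]
      exact hd.mul_right _
  exact s.s1.prim.eq_of_associated (gd_prim _ _) (associated_of_dvd_dvd h3 h2)

/-- the primes of `b₁` in `f2` -/
theorem spl_gb : lg (gd e₀ (b1 t)) = bfS t f2 := by
  classical
  have he := spl_e0 s h hok
  have e1 : (pp e₀).filter (fun p => p ∣ b1 t) = (s1 t).filter (fun p => p ∣ f2) := by
    ext p
    rw [Finset.mem_filter, Finset.mem_filter, mem_pp he]
    constructor
    · rintro ⟨⟨hp, h1⟩, h2⟩
      have hs : p ∈ s1 t := by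
        have h3 : b1 t = ∏ q ∈ s1 t, q ^ (1 : ℕ) := by
          unfold b1
          simp
        rw [h3] at h2
        exact (dvd_pow_prod (ps1 t) (k := fun _ => 1) hp h2).1
      refine ⟨hs, ?_⟩
      have hb := s1_sub t hs
      have hD := not_dvd_D1 h hb
      rw [s.hf] at h1
      rcases hp.prime.dvd_or_dvd h1 with h3 | h3
      · rcases hp.prime.dvd_or_dvd h3 with h4 | h4
        · exact absurd (by rw [s.hD]; exact h4.mul_right _) hD
        · exact h4
      · exact absurd (s.c3'.isUnit_of_dvd' h3 (dvd_of_mem_pp hb)) hp.prime.not_isUnit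
    · rintro ⟨hs, h1⟩
      refine ⟨⟨isPP_of_mem_pp (s1_sub t hs), ?_⟩, Finset.dvd_prod_of_mem _ hs⟩
      rw [s.hf]
      exact (h1.mul_left _).mul_right _
  unfold gd bfS
  have e2 : (∏ p ∈ (pp e₀).filter (fun p => p ∣ b1 t), p) =
      ∏ p ∈ (s1 t).filter (fun p => p ∣ f2), p := by rw [e1]
  rw [e2, lg_prod1 fun p hp => ne_of_mem (ps1 t) p (Finset.mem_filter.mp hp).1,
    Finset.sum_filter]
  refine Finset.sum_congr rfl fun p _ => ?_
  split_ifs <;> simp

lemma gb_dvd : gd e₀ (b1 t) ∣ b1 t := gd_dvd' (spl_e0 s h hok) h.sb1.prim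

end spl

/-! ### the squares from the label -/

open Classical in
/-- the primes of `N` whose square divides `k`, from the label -/
theorem kl_filter {N k : Eis} (hk : k ≠ 0) :
    (pp N).filter (fun p => p ^ 2 ∣ k) = (pp N).filter (fun p => p ^ 2 ∣ kl N k) := by
  ext p
  rw [Finset.mem_filter, Finset.mem_filter]
  exact and_congr_right fun hp => (kl_sq_iff hk hp).symm

end Crest.Agent.R017.E4RK858
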