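import Crest.Agent.R017.YsP_61
import Crest.Agent.R017.E4JB_858
import Crest.Agent.R017.E4RK_858

/-!
# Row 17, T.3, `StrU`: the cube `b0`, the frequency `kn` and the length `l` of a block (helper858)

* `sL N k β` : the primes of `N` with `p² ∣ k`, outside `β`;  `sL_sk` : `= sk N k` if coprime to `β`
* `cube_dvd` : `(β sL)³ ∣ k (S ν)`
* `kyT` : the true logarithm of the `y`-frequency
* `bk_of` : the first half of 699's `XBlk`
-/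

set_option autoImplicit false
set_option linter.unusedSectionVars false

noncomputable section

open Finset

namespace Crest.Agent.R017.BK858

open Crest.Agent.R012 Crest.Agent.R012.Eis
open Crest.Agent.R012.Mob705 hiding pb mem_pb
open Crest.Agent.R017.Sx545 (Sm)
open Crest.Agent.R017.C70 (OKJ)
open Crest.Agent.R017.DgA829 (lc lc_prim lc_dvd)
open Crest.Agent.R017.E5B71
open Crest.Agent.R017.B770
open Crest.Agent.R017.Prov71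
open Crest.Agent.R017.E4D164
open Crest.Agent.R017.E4J352
open Crest.Agent.R017.E4U164
open Crest.Agent.R017.E4RG858 (fm pow_dvd_iff dvd_iff_mult mult_mul mult_pow mult_eq_zero fac)
open Crest.Agent.R017.E4RH858 (Pf pf Facts kl kl_sq_iff prod_sub_dvd)
open Crest.Agent.R017.E4Dic352 (bkP cP lg lg_nonneg lg_mul lg_pow exp_lg nm_pos' lg_bkP prim_bkP
  tauS)
open Crest.Agent.R017.Str699 (b3 n3 n3_mul n3_prim b3_prim b3_dvd o_spec)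
open Crest.Agent.R017.JyF744 (nu2 yK)
open Crest.Agent.R017.YsM61 (yF)

open Classical in
/-- the primes of `N` with `p² ∣ k`, outside `β` -/
def sL (N k β : Eis) : Eis := ∏ p ∈ (pp N).filter (fun p => p ^ 2 ∣ k ∧ ¬ p ∣ β), p

lemma isPrim_prodP {S : Finset Eis} (hS : PPSet S) : IsPrim (∏ p ∈ S, p) := hS.isPrim_prod

lemma sL_prim (N k β : Eis) : IsPrim (sL N k β) := by
  classical
  unfold sL
  exact isPrim_prodP fun p hp => isPP_of_mem_pp (mem_filter.mp hp).1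

lemma sL_cop (N k β : Eis) : IsCoprime (sL N k β) β := by
  classical
  unfold sL
  refine IsCoprime.prod_left fun p hp => ?_
  obtain ⟨h1, -, h2⟩ := mem_filter.mp hp
  exact ((isPP_of_mem_pp h1).prime.irreducible.coprime_iff_not_dvd).mpr h2

lemma sL_prime {N k β p : Eis} (hp : Prime p) (h : p ∣ sL N k β) : p ∣ N ∧ p ^ 2 ∣ k := by
  classical
  unfold sL at h
  obtain ⟨q, hq, hpq⟩ := hp.exists_mem_finset_dvd h
  obtain ⟨h1, h2, -⟩ := mem_filter.mp hq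
  have hqp := (isPP_of_mem_pp h1).prime
  have ha : Associated p q := hp.associated_of_dvd hqp hpq
  exact ⟨ha.dvd.trans (dvd_of_mem_pp h1), (pow_dvd_pow_of_dvd ha.dvd 2).trans h2⟩

/-- a product of squares -/
lemma sL_sq {N k β : Eis} (hk : IsPrim k) : sL N k β ^ 2 ∣ k := by
  classical
  have h1 := fac hk (ppSet_pp k) subset_rfl
  conv_rhs => rw [h1]
  unfold sL
  rw [← prod_pow]
  have hsub : (pp N).filter (fun p => p ^ 2 ∣ k ∧ ¬ p ∣ β) ⊆ pp k := by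
    intro p hp
    obtain ⟨g1, g2, -⟩ := mem_filter.mp hp
    exact (mem_pp hk.ne_zero).mpr ⟨isPP_of_mem_pp g1, (dvd_pow_self p two_ne_zero).trans g2⟩
  refine (Finset.prod_dvd_prod_of_dvd (fun p => p ^ 2) (fun p => p ^ multiplicity p k)
    fun p hp => ?_).trans (Finset.prod_dvd_prod_of_subset _ _ _ hsub)
  obtain ⟨g1, g2, -⟩ := mem_filter.mp hp
  exact pow_dvd_pow p ((pow_dvd_iff (isPP_of_mem_pp g1).prime hk.ne_zero).mp g2)

open Classical in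
/-- 679's `sk` -/
lemma sL_sk {N k β : Eis} (h : IsCoprime (∏ p ∈ (pp N).filter (fun p => p ^ 2 ∣ k), p) β) :
    sL N k β = ∏ p ∈ (pp N).filter (fun p => p ^ 2 ∣ k), p := by
  unfold sL
  refine prod_congr ?_ fun _ _ => rfl
  ext p
  rw [mem_filter, mem_filter]
  refine and_congr_right fun h1 => ⟨fun h2 => h2.1, fun h2 => ⟨h2, fun h3 => ?_⟩⟩
  have h4 : p ∣ ∏ p ∈ (pp N).filter (fun p => p ^ 2 ∣ k), p :=
    dvd_prod_of_mem _ (mem_filter.mpr ⟨h1, h2⟩)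
  exact (isPP_of_mem_pp h1).prime.not_isUnit (h.isUnit_of_dvd' h4 h3)

/-- from the label -/
lemma sL_kl {N k β : Eis} (hk : k ≠ 0) : sL N (kl N k) β = sL N k β := by
  classical
  unfold sL
  refine prod_congr ?_ fun _ _ => rfl
  ext p
  rw [mem_filter, mem_filter]
  exact and_congr_right fun hp => and_congr_left fun _ => kl_sq_iff hk hp

/-- **the cube** -/
theorem cube_dvd {n k N : Eis} (hk : IsPrim k) (hn : IsPrim n)
    (hN : ∀ p : Eis, IsPP p → p ∣ N → p ∣ n) :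
    (b3 n * sL N k (b3 n)) ^ 3 ∣ k * n := by
  classical
  set β := b3 n with hβ
  set s := sL N k β with hs
  have h1 : n = n3 n * β ^ 3 := n3_mul hn
  have h2 : s ∣ n := by
    rw [hs]
    unfold sL
    refine prod_sub_dvd hn fun p hp => ?_
    obtain ⟨g1, -⟩ := mem_filter.mp hp
    have hpp := isPP_of_mem_pp g1
    exact (mem_pp hn.ne_zero).mpr ⟨hpp, hN p hpp (dvd_of_mem_pp g1)⟩
  have h3 : s ∣ n3 n := by
    have h4 : IsCoprime s (β ^ 3) := (sL_cop N k β).pow_right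
    rw [h1] at h2
    exact h4.dvd_of_dvd_mul_right h2
  have h5 : s ^ 2 ∣ k := sL_sq hk
  have h6 : (β * s) ^ 3 = s ^ 2 * (s * β ^ 3) := by ring
  rw [h6]
  conv_rhs => rw [h1]
  exact mul_dvd_mul h5 (mul_dvd_mul_right h3 _)

lemma b0_prime {n k N p : Eis} (hn : IsPrim n) (hN : ∀ p : Eis, Prime p → p ∣ N → p ∣ n)
    (hp : Prime p) (h : p ∣ b3 n * sL N k (b3 n)) : p ∣ n := by
  rcases hp.dvd_or_dvd h with h1 | h1
  · exact h1.trans (b3_dvd hn)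
  · exact hN p hp (sL_prime hp h1).1

/-- the true logarithm of the `y`-frequency -/
def kyT {OO : Finset (Eis × Eis)} (P : Pf) (b0 : Eis) (t : Tm {x // x ∈ OO}) : ℝ :=
  lg t.k + lg (nu2 t.o) + 2 * lg t.D1 + 2 * lg (E4RH858.b1 t) + tauS P - 3 * lg b0

lemma lg_yF {OO : Finset (Eis × Eis)} {P : Pf} {b0 : Eis} {t : Tm {x // x ∈ OO}}
    {kn : Tm {x // x ∈ OO} → Eis} (hk : t.k ≠ 0) (hn : nu2 t.o ≠ 0) (hD : t.D1 ≠ 0)
    (h : t.k * nu2 t.o = kn t * b0 ^ 3) :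
    yF kn E4RH858.b1 (bkP P) t ≠ 0 ∧ lg (yF kn E4RH858.b1 (bkP P) t) = kyT P b0 t := by
  have h1 : kn t * b0 ^ 3 ≠ 0 := by rw [← h]; exact mul_ne_zero hk hn
  have h2 := left_ne_zero_of_mul h1
  have h3 := right_ne_zero_of_mul h1
  have h4 : b0 ≠ 0 := fun h0 => h3 (by rw [h0]; ring)
  have h5 := (E4RH858.prim_b1 t).ne_zero
  have h6 := (prim_bkP P).ne_zero
  have e1 : lg t.k + lg (nu2 t.o) = lg (kn t) + 3 * lg b0 := by
    rw [← lg_mul hk hn, h, lg_mul h2 h3, lg_pow]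
    push_cast
    ring
  have n1 : kn t * t.D1 ^ 2 ≠ 0 := mul_ne_zero h2 (pow_ne_zero _ hD)
  have n2 : E4RH858.b1 t ^ 2 * bkP P ≠ 0 := mul_ne_zero (pow_ne_zero _ h5) h6
  unfold yF
  refine ⟨mul_ne_zero n1 n2, ?_⟩
  rw [lg_mul n1 n2, lg_mul h2 (pow_ne_zero _ hD), lg_mul (pow_ne_zero _ h5) h6, lg_pow, lg_pow,
    lg_bkP]
  unfold kyT
  push_cast
  linarith

/-- two numbers in one window -/
lemma inW_log {n : ℕ} {x y : ℝ} (hx : inW n x) (hy : inW n y) :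
    Real.log x ≤ Real.log y + Real.log 2 := by
  have h0 : (0 : ℝ) < 2 ^ n := by positivity
  have hx0 : 0 < x := h0.trans_le hx.1
  have hy0 : 0 < y := h0.trans_le hy.1
  rw [← Real.log_mul hy0.ne' (by norm_num)]
  refine Real.log_le_log hx0 ?_
  have h1 := hx.2
  have h2 := hy.1
  rw [pow_succ] at h1
  linarith

section block

variable {Λ : Type*} {π : Λ → DPar} {lam : Λ × Eis} {Jf : ℝ → ℝ → ℝ → Finset (Eis × Eis)}
  {a : Bd × ℕ} {x : Dt} {Bf : ℝ → ℝ → ℝ → ℝ} {e0 r ε X : ℝ}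

/-- the fixed data `g, e₀, t` divide every multiplier -/
lemma dvd_o (ha : a.1.ok) (hP : a.1.okP (π lam.1))
    (hx : x.OK (π lam.1) Bf e0 r ε X a.1) (o : x.O π lam Jf a) :
    x.g ∣ o.1.1 ∧ x.e₀ ∣ o.1.1 ∧ x.t ∣ o.1.1 := by
  classical
  obtain ⟨⟨o1, o2⟩, ho⟩ := o
  have ho' := ho
  unfold Dt.O OD OU at ho'
  rw [mem_filter, mem_image] at ho'
  obtain ⟨⟨i, hi, he⟩, -⟩ := ho'
  obtain ⟨⟨hi1, hi2⟩, -⟩ := Dt.mem_I.mp hi
  obtain ⟨q, δ, j⟩ := i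
  have he1 : sS x.g x.e₀ x.t q = o1 := congrArg Prod.fst he
  obtain ⟨q1, q2, q3, -⟩ := hx.Q q hi1
  obtain ⟨g1, g2, g3⟩ := (E5P571.mem_Gd ha.2.2).mp hx.g
  have hEp : IsPrim (x.E a.1) := hP.1.prim.mul (T3_prim x.β hx.β)
  obtain ⟨t1, t2, -⟩ := (E5P571.mem_Gd (tS_prim hEp).ne_zero).mp hx.t
  obtain ⟨-, e1, e2⟩ := (LS2.mem_S (Real.exp_nonneg _)).mp hx.e₀
  have hqg : IsPrim (q ^ 2 * x.g) := (q1.prim.pow 2).mul g1.prim
  have h1 : lc (q ^ 2 * x.g) x.e₀ ∣ o1 ∧ x.t ∣ o1 := by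
    rw [← he1]
    exact (lc_dvd (lc_prim hqg e1) t1.prim _).mp dvd_rfl
  have h2 := (lc_dvd hqg e1 o1).mp h1.1
  exact ⟨(dvd_mul_left _ _).trans h2.1, h2.2, h1.2⟩

/-- the primes of `g e₀ t` divide `S ν` -/
lemma prime_o (ha : a.1.ok) (hP : a.1.okP (π lam.1))
    (hx : x.OK (π lam.1) Bf e0 r ε X a.1) (o : x.O π lam Jf a) {p : Eis} (hp : Prime p)
    (h : p ∣ x.g * x.e₀ * x.t) : p ∣ nu2 o := by
  obtain ⟨h1, h2, h3⟩ := dvd_o ha hP hx o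
  have h4 : p ∣ o.1.1 := by
    rcases hp.dvd_or_dvd h with h5 | h5
    · rcases hp.dvd_or_dvd h5 with h6 | h6
      · exact h6.trans h1
      · exact h6.trans h2
    · exact h5.trans h3
  exact h4.mul_right _

/-- the cube of a block -/
def b0L (x : Dt) (τ : Eis × Eis × Eis) (β : Eis) : Eis := β * sL (x.g * x.e₀ * x.t) τ.1 β

/-- **the first half of `XBlk`** -/
theorem bk_of (hJ : ∀ l N z, OKJ (Jf l N z)) (ha : a.1.ok) (hP : a.1.okP (π lam.1))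
    (hx : x.OK (π lam.1) Bf e0 r ε X a.1) {M f : Eis} {c : E4J352.Win} {P : Pf} {β : Eis}
    {τ : Eis × Eis × Eis} {𝒥 : Finset (Tm (x.O π lam Jf a))} (hne : 𝒥.Nonempty) {Y : ℝ}
    (hY : 1 ≤ Y)
    (h𝒥 : ∀ t ∈ 𝒥, t.OK M 1 ∧ Facts M t ∧ t.In lD c ∧ pf t = P ∧ bo3 t = β ∧ soL x f t = τ)
    (hsz : ∀ t ∈ 𝒥, (nm t.k : ℝ) ≤ Y ∧ lD t.o ≤ Y ∧ (nm t.D1 : ℝ) ≤ Y ∧
      (nm (E4RH858.b1 t) : ℝ) ≤ Y ∧ (nm P.b : ℝ) ≤ Y) :
    ∃ (kn : Tm (x.O π lam Jf a) → Eis) (l : ℝ), IsPrim (b0L x τ β) ∧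
      (∀ t ∈ 𝒥, t.k * nu2 t.o = kn t * b0L x τ β ^ 3 ∧
        (∀ p : Eis, Prime p → p ∣ b0L x τ β → p ∣ nu2 t.o) ∧ (nm (yK nu2 t) : ℝ) ≤ Y ^ 7) ∧
      0 ≤ l ∧ Real.exp l ≤ Y ^ 7 ∧
      (∀ t ∈ 𝒥, (nm (yF kn E4RH858.b1 (bkP P) t) : ℝ) ≤ Real.exp l) ∧
      (∀ t ∈ 𝒥, lg (yF kn E4RH858.b1 (bkP P) t) = kyT P (b0L x τ β) t) ∧
      (∀ t ∈ 𝒥, l ≤ kyT P (b0L x τ β) t + 5 * Real.log 2) := by
  classical
  have hb0p : IsPrim (b0L x τ β) := by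
    obtain ⟨t, ht⟩ := hne
    obtain ⟨-, -, -, -, h5, -⟩ := h𝒥 t ht
    unfold b0L
    rw [← h5]
    exact (bo3_prim t).mul (sL_prim _ _ _)
  -- the outer parameter
  have hnp : ∀ t : Tm (x.O π lam Jf a), IsPrim (nu2 t.o) := by
    intro t
    obtain ⟨o1, o2, -⟩ := o_spec hJ ha hP hx t.o
    exact o1.mul o2
  have hkp : ∀ t ∈ 𝒥, IsPrim t.k := fun t ht => (h𝒥 t ht).1.sk.prim
  have hb0 : ∀ t ∈ 𝒥, b0L x τ β = b3 (nu2 t.o) * sL (x.g * x.e₀ * x.t) t.k (b3 (nu2 t.o)) := by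
    intro t ht
    obtain ⟨h1, -, -, -, h5, h6⟩ := h𝒥 t ht
    have e1 : β = b3 (nu2 t.o) := h5.symm
    have e2 : τ.1 = kl (x.g * x.e₀ * x.t) t.k := (congrArg Prod.fst h6).symm
    unfold b0L
    rw [e2, sL_kl (hkp t ht).ne_zero, e1]
  have hcube : ∀ t ∈ 𝒥, b0L x τ β ^ 3 ∣ t.k * nu2 t.o := by
    intro t ht
    rw [hb0 t ht]
    exact cube_dvd (hkp t ht) (hnp t) fun p hp h => prime_o ha hP hx t.o hp.prime h
  have hkn : ∀ t : Tm (x.O π lam Jf a), ∃ y : Eis, t ∈ 𝒥 → t.k * nu2 t.o = y * b0L x τ β ^ 3 := by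
    intro t
    by_cases ht : t ∈ 𝒥
    · obtain ⟨y, hy⟩ := hcube t ht
      exact ⟨y, fun _ => by rw [hy]; ring⟩
    · exact ⟨0, fun h => absurd h ht⟩
  choose kn hkn using hkn
  have hlg : ∀ t ∈ 𝒥, yF kn E4RH858.b1 (bkP P) t ≠ 0 ∧
      lg (yF kn E4RH858.b1 (bkP P) t) = kyT P (b0L x τ β) t := fun t ht =>
    lg_yF (hkp t ht).ne_zero (hnp t).ne_zero (h𝒥 t ht).1.pD1.ne_zero (hkn t ht)
  set l : ℝ := 𝒥.sup' hne (fun t => lg (yF kn E4RH858.b1 (bkP P) t)) with hl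
  have hle : ∀ t ∈ 𝒥, lg (yF kn E4RH858.b1 (bkP P) t) ≤ l := fun t ht =>
    Finset.le_sup' (fun t => lg (yF kn E4RH858.b1 (bkP P) t)) ht
  obtain ⟨t₁, ht₁, ht₁l⟩ := Finset.exists_mem_eq_sup' hne
    (fun t => lg (yF kn E4RH858.b1 (bkP P) t))
  -- sizes
  have hY0 : (0 : ℝ) ≤ Y := by linarith
  have hyK : ∀ t ∈ 𝒥, (nm (yK nu2 t) : ℝ) ≤ Y ^ 7 := by
    intro t ht
    obtain ⟨s1, s2, s3, s4, s5⟩ := hsz t ht
    obtain ⟨-, hF, -, h4, -, -⟩ := h𝒥 t ht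
    have s2' : (nm (nu2 t.o) : ℝ) ≤ Y := s2
    have eb : (nm t.b : ℝ) ≤ Y ^ 2 * Y := by
      rw [hF.b, h4, nm_mul, nm_pow]
      push_cast
      gcongr
    unfold yK
    rw [hF.D0, one_mul, nm_mul, nm_mul, nm_mul, nm_pow]
    push_cast
    calc (nm t.k : ℝ) * nm (nu2 t.o) * (nm t.D1 : ℝ) ^ 2 * nm t.b
        ≤ Y * Y * Y ^ 2 * (Y ^ 2 * Y) := by gcongr
      _ = Y ^ 7 := by ring
  have hFK : ∀ t ∈ 𝒥, (nm (yF kn E4RH858.b1 (bkP P) t) : ℝ) ≤ Y ^ 7 := by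
    intro t ht
    refine le_trans ?_ (hyK t ht)
    obtain ⟨-, hF, -, h4, -, -⟩ := h𝒥 t ht
    have hdv : yF kn E4RH858.b1 (bkP P) t ∣ yK nu2 t := by
      unfold yF yK
      rw [hkn t ht, hF.D0, one_mul, hF.b, h4]
      have e1 : P.b = bkP P * cP P ^ 3 := by
        rw [← h4]
        exact E4Dic352.b_eq hF
      conv_rhs => rw [e1]
      exact ⟨b0L x τ β ^ 3 * cP P ^ 3, by ring⟩
    have hne' : yK nu2 t ≠ 0 := by
      unfold yK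
      rw [hF.D0, one_mul]
      exact mul_ne_zero (mul_ne_zero (mul_ne_zero (hkp t ht).ne_zero (hnp t).ne_zero)
        (pow_ne_zero _ (h𝒥 t ht).1.pD1.ne_zero)) (h𝒥 t ht).1.sb.ne_zero
    exact_mod_cast Div277.nm_le_of_dvd hne' hdv
  refine ⟨kn, l, hb0p, fun t ht => ⟨hkn t ht, fun p hp hpb => ?_, hyK t ht⟩, ?_, ?_,
    fun t ht => ?_, fun t ht => (hlg t ht).2, fun t ht => ?_⟩
  · rw [hb0 t ht] at hpb
    exact b0_prime (hnp t) (fun q hq h => prime_o ha hP hx t.o hq h) hp hpb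
  · exact (lg_nonneg _).trans (hle t₁ ht₁)
  · rw [hl, ht₁l, exp_lg (hlg t₁ ht₁).1]
    exact hFK t₁ ht₁
  · rw [← exp_lg (hlg t ht).1]
    exact Real.exp_le_exp.mpr (hle t ht)
  · rw [hl, ht₁l]
    show lg (yF kn E4RH858.b1 (bkP P) t₁) ≤ _
    rw [(hlg t₁ ht₁).2]
    obtain ⟨-, hF, hc, h4, -, -⟩ := h𝒥 t ht
    obtain ⟨-, hF', hc', h4', -, -⟩ := h𝒥 t₁ ht₁
    have w1 : lg t₁.k ≤ lg t.k + Real.log 2 := inW_log hc'.hkk hc.hkk
    have w2 : lg (nu2 t₁.o) ≤ lg (nu2 t.o) + Real.log 2 := inW_log hc'.hlam hc.hlam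
    have w3 : lg t₁.D1 ≤ lg t.D1 + Real.log 2 := inW_log hc'.h1 hc.h1
    have w4 : lg t₁.b ≤ lg t.b + Real.log 2 := inW_log hc'.hb hc.hb
    have e1 := E4Dic352.lgb hF
    have e2 := E4Dic352.lgb hF'
    rw [h4] at e1
    rw [h4'] at e2
    unfold kyT
    linarith

/-! ### at the sizes of the data -/

lemma kD_le {M : Eis} {t : Tm (x.O π lam Jf a)} (hok : t.OK M 1) (hF : Facts M t)
    (h1 : 1 ≤ lD t.o) {sw : Eis → Eis → Eis → Eis → Eis → Prop} {K : ℝ} (hr : rngD sw lD K t) :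
    (nm t.k : ℝ) ≤ K := by
  have h2 := hr.2
  refine le_trans ?_ h2
  have h3 : t.k ∣ (t.D0 * t.D1) ^ 2 * t.B ^ 3 * (t.b * t.k) :=
    (dvd_mul_left _ _).mul_left _
  have h4 : (t.D0 * t.D1) ^ 2 * t.B ^ 3 * (t.b * t.k) ≠ 0 :=
    mul_ne_zero (mul_ne_zero (pow_ne_zero _ (mul_ne_zero hok.pD0.ne_zero hok.pD1.ne_zero))
      (pow_ne_zero _ hF.sB.ne_zero)) (mul_ne_zero hok.sb.ne_zero hok.sk.ne_zero)
  have h5 : (nm t.k : ℝ) ≤ nm ((t.D0 * t.D1) ^ 2 * t.B ^ 3 * (t.b * t.k)) := by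
    exact_mod_cast Div277.nm_le_of_dvd h4 h3
  nlinarith [Nat.cast_nonneg (α := ℝ) (nm ((t.D0 * t.D1) ^ 2 * t.B ^ 3 * (t.b * t.k)))]

lemma kF_le {M : Eis} {t : Tm (x.O π lam Jf a)} (hok : t.OK M 1) (hF : Facts M t)
    (h1 : 1 ≤ lD t.o) {sw : Eis → Eis → Eis → Eis → Eis → Prop} {L : ℝ} (hr : rngF sw lD L t) :
    (nm t.k : ℝ) ≤ L * nm t.D1 := by
  have h2 := hr.2
  rw [hF.D0, one_mul] at h2
  refine le_trans ?_ h2
  have h5 : (nm t.k : ℝ) ≤ nm (t.b * t.k) := by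
    exact_mod_cast Div277.nm_le_of_dvd (mul_ne_zero hok.sb.ne_zero hok.sk.ne_zero)
      (dvd_mul_left _ _)
  nlinarith [Nat.cast_nonneg (α := ℝ) (nm (t.b * t.k))]

/-- the sizes of a term -/
lemma sz_tm {h : ℝ → ℝ} {ps : List Pq} {h₁ : CM106.FS (b1 (π lam.1) h lam.2 ps)}
    {h₂ : CM106.FS (b2 (π lam.1) h lam.2 a.1 ps)} {Y : ℝ} {G : Eis → ℂ}
    (hd : E4352.Dat4 (π lam.1).n₃ 1 lD (x.v π h lam Jf a) (x.w π h lam Jf a ps h₁ h₂) Y)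
    {t : Tm (x.O π lam Jf a)} (hok : t.OK (π lam.1).n₃ 1)
    (hv : t.val 1 lD (x.v π h lam Jf a) (x.w π h lam Jf a ps h₁ h₂) G ≠ 0) :
    (nm t.D1 : ℝ) ≤ Y ∧ (nm (E4RH858.b1 t) : ℝ) ≤ Y ∧ (nm (pf t).b : ℝ) ≤ Y ^ 7 := by
  have hF := E4RH858.facts hd hok hv
  have hs := E4RH858.sz hd hok hv
  obtain ⟨-, -, hys⟩ := E4RH858.val_ne hv
  obtain ⟨y, -, -, hy⟩ := E4RH858.ys_ne hys
  have h2 : (nm (t.D1 * (t.Z * t.Z' * y)) : ℝ) ≤ Y := hd.wy _ _ hy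
  have n2 : t.D1 * (t.Z * t.Z' * y) ≠ 0 := ((hd.hw _).sm _ hy).ne_zero
  have le : ∀ {a b : Eis}, b ≠ 0 → a ∣ b → (nm b : ℝ) ≤ Y → (nm a : ℝ) ≤ Y := by
    intro a b hb hab hbY
    exact le_trans (by exact_mod_cast Div277.nm_le_of_dvd hb hab) hbY
  refine ⟨le n2 (dvd_mul_right _ _) h2, le n2 ?_ h2, hs.b⟩
  have h3 : E4RH858.b1 t ∣ t.Z' := by
    rw [hF.Z']
    exact dvd_mul_right _ _
  exact ((h3.mul_left _).mul_right _).mul_left _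

/-- **the first half of `XBlk` at the sizes of the data**, `B₁ = 49 A0` -/
theorem bk_blk {h : ℝ → ℝ} {ps : List Pq} {h₁ : CM106.FS (b1 (π lam.1) h lam.2 ps)}
    {h₂ : CM106.FS (b2 (π lam.1) h lam.2 a.1 ps)} (hJ : ∀ l N z, OKJ (Jf l N z)) (ha : a.1.ok)
    (hP : a.1.okP (π lam.1)) (hx : x.OK (π lam.1) Bf e0 r ε X a.1) {A0 C0 : ℝ} (hX : 1 ≤ X)
    (hA0 : 1 ≤ A0) (hC0 : 1 ≤ C0) (SF : SzF π h e0 r 1 (X ^ A0) Bf Jf lam a ps)
    (SD : SzD π h C0 (X ^ A0) Jf lam a ps x h₁ h₂) {ε' : ℝ} (hε' : ε' ≤ 1) {G : Eis → ℂ}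
    {sw : Eis → Eis → Eis → Eis → Eis → Prop} {f : Eis} {c : E4J352.Win} {P : Pf} {β : Eis}
    {τ : Eis × Eis × Eis} {𝒥 : Finset (Tm (x.O π lam Jf a))} (hne : 𝒥.Nonempty)
    (h𝒥 : ∀ t ∈ 𝒥, t.OK (π lam.1).n₃ 1 ∧
      t.val 1 lD (x.v π h lam Jf a) (x.w π h lam Jf a ps h₁ h₂) G ≠ 0 ∧ t.In lD c ∧
      (rngD sw lD (X ^ ε' * Real.exp a.1.l) t ∨
        rngF sw lD (X ^ ε' * (U0 (π lam.1) a ps x / Real.exp a.1.l)) t) ∧
      pf t = P ∧ bo3 t = β ∧ soL x f t = τ) :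
    ∃ (kn : Tm (x.O π lam Jf a) → Eis) (l : ℝ), IsPrim (b0L x τ β) ∧
      (∀ t ∈ 𝒥, t.k * nu2 t.o = kn t * b0L x τ β ^ 3 ∧
        (∀ p : Eis, Prime p → p ∣ b0L x τ β → p ∣ nu2 t.o) ∧
        (nm (yK nu2 t) : ℝ) ≤ X ^ (49 * A0)) ∧
      0 ≤ l ∧ Real.exp l ≤ X ^ (49 * A0) ∧
      (∀ t ∈ 𝒥, (nm (yF kn E4RH858.b1 (bkP P) t) : ℝ) ≤ Real.exp l) ∧
      (∀ t ∈ 𝒥, lg (yF kn E4RH858.b1 (bkP P) t) = kyT P (b0L x τ β) t) ∧
      (∀ t ∈ 𝒥, l ≤ kyT P (b0L x τ β) t + 5 * Real.log 2) := by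
  classical
  have hX0 : 0 < X := by linarith
  set Y : ℝ := X ^ A0 with hYd
  have hY1 : 1 ≤ Y := Real.one_le_rpow hX (by linarith)
  have hXY : X ≤ Y := by
    calc X = X ^ (1 : ℝ) := (Real.rpow_one X).symm
      _ ≤ X ^ A0 := Real.rpow_le_rpow_of_exponent_le hX hA0
  have hY7 : Y ≤ Y ^ 7 := le_self_pow₀ hY1 (by norm_num)
  have hXe : X ^ ε' ≤ Y := by
    refine le_trans ?_ hXY
    calc X ^ ε' ≤ X ^ (1 : ℝ) := Real.rpow_le_rpow_of_exponent_le hX hε'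
      _ = X := Real.rpow_one X
  have hK1 : 1 ≤ Real.exp a.1.l := by simpa using SF.K1
  have hKY : Real.exp a.1.l ≤ Y := by simpa using SF.KY
  have hlam : ∀ o : x.O π lam Jf a, 1 ≤ lD o ∧ lD o ≤ Y := SD.dat.lam1
  -- the index set is nonempty
  have hI : (x.I Jf a).Nonempty := by
    obtain ⟨t, -⟩ := hne
    have ho' := t.o.2
    unfold Dt.O OD OU at ho'
    rw [mem_filter, mem_image] at ho'
    obtain ⟨⟨i, hi, -⟩, -⟩ := ho'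
    exact ⟨i, hi⟩
  have hU : U0 (π lam.1) a ps x ≤ Y := by
    have h1 := SD.uY hI
    have h2 := SD.u0
    nlinarith
  have hUK : U0 (π lam.1) a ps x / Real.exp a.1.l ≤ Y := by
    refine le_trans (div_le_self SD.u0.le hK1) hU
  have e49 : (Y ^ 7) ^ 7 = X ^ (49 * A0) := by
    rw [← pow_mul, hYd, ← Real.rpow_natCast, ← Real.rpow_mul hX0.le]
    congr 1
    push_cast
    ring
  have main := bk_of (M := (π lam.1).n₃) (f := f) (c := c) (P := P) (β := β) (τ := τ) hJ ha hP hx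
    hne (Y := Y ^ 7) (hY1.trans hY7)
    (fun t ht => by
      obtain ⟨g1, g2, g3, -, g5, g6, g7⟩ := h𝒥 t ht
      exact ⟨g1, E4RH858.facts SD.dat g1 g2, g3, g5, g6, g7⟩)
    (fun t ht => by
      obtain ⟨g1, g2, g3, g4, g5, g6, g7⟩ := h𝒥 t ht
      obtain ⟨s1, s2, s3⟩ := sz_tm SD.dat g1 g2
      have hF := E4RH858.facts SD.dat g1 g2
      refine ⟨?_, (hlam t.o).2.trans hY7, s1.trans hY7, s2.trans hY7, by rw [← g5]; exact s3⟩
      have hY0 : (0 : ℝ) ≤ Y := by linarith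
      have hXe0 : (0 : ℝ) ≤ X ^ ε' := Real.rpow_nonneg hX0.le _
      rcases g4 with g4 | g4
      · refine (kD_le g1 hF (hlam t.o).1 g4).trans ?_
        calc X ^ ε' * Real.exp a.1.l ≤ Y * Y := mul_le_mul hXe hKY (Real.exp_pos _).le hY0
          _ = Y ^ 2 := by ring
          _ ≤ Y ^ 7 := pow_le_pow_right₀ hY1 (by norm_num)
      · refine (kF_le g1 hF (hlam t.o).1 g4).trans ?_
        have hq : 0 ≤ U0 (π lam.1) a ps x / Real.exp a.1.l :=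
          div_nonneg SD.u0.le (Real.exp_pos _).le
        calc X ^ ε' * (U0 (π lam.1) a ps x / Real.exp a.1.l) * nm t.D1 ≤ Y * Y * Y := by
              gcongr
          _ = Y ^ 3 := by ring
          _ ≤ Y ^ 7 := pow_le_pow_right₀ hY1 (by norm_num))
  rw [e49] at main
  exact main

end block

end Crest.Agent.R017.BK858
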