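import Crest.Agent.R017.BKn_858
import Crest.Agent.R017.E4Xf_372

/-!
# Row 17, T.4, `StrUX`: the number of distinct `y`-frequencies of a block, class E (helper858)

* `bkn_blkE` : `BKn_858.bkn_blk` at the data of class E
-/

set_option autoImplicit false
set_option linter.unusedSectionVars false

noncomputable section

open Finset

namespace Crest.Agent.R017.BKn858

open Crest.Agent.R012 Crest.Agent.R012.Eis
open Crest.Agent.R012.Mob705 hiding pb mem_pb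
open Crest.Agent.R017.C70 (OKJ)
open Crest.Agent.R017.B770
open Crest.Agent.R017.Prov71
open Crest.Agent.R017.ExP960 (BdX)
open Crest.Agent.R017.E4J352
open Crest.Agent.R017.E4U164
open Crest.Agent.R017.E4Df372 (bl SzFX)
open Crest.Agent.R017.E4RH858 (Pf pf Facts)
open Crest.Agent.R017.E4Dic352 (bkP lg Spl beS)
open Crest.Agent.R017.Str699 (nu0)
open Crest.Agent.R017.JyF744 (nu2)
open Crest.Agent.R017.YsM61 (yF)
open Crest.Agent.R017.BK858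

/-- **the number of the frequencies of a block, class E** -/
theorem bkn_blkE {Λ : Type*} {ε A0 : ℝ} (hA0 : 1 ≤ A0) (hε : 0 < ε) : ∃ X₀ : ℝ, 1 < X₀ ∧
    ∀ (X : ℝ), X₀ ≤ X → ∀ (π : Λ → DPar) (h : ℝ → ℝ) (lam : Λ × Eis)
      (Jf : ℝ → ℝ → ℝ → Finset (Eis × Eis)) (a : BdX × ℕ) (ps : List Pq) (x : Dt)
      (Bf : ℝ → ℝ → ℝ → ℝ) (e0 r ε' : ℝ), (∀ l N z, OKJ (Jf l N z)) → a.1.ok →
      a.1.okP (π lam.1) → x.OK (π lam.1) Bf e0 r ε' X a.1.toBd →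
      SzFX π h e0 r 1 (X ^ A0) Bf Jf lam a ps →
    ∀ (M f : Eis) (c : E4J352.Win) (P : Pf) (β : Eis) (τ : Eis × Eis × Eis)
      (𝒥 : Finset (Tm (x.O π lam Jf (bl a)))), f ≠ 0 →
      (∀ t ∈ 𝒥, t.OK M 1 ∧ Facts M t ∧ t.In lD c ∧ pf t = P ∧ bo3 t = β ∧ soL x f t = τ) →
    ∀ kn : Tm (x.O π lam Jf (bl a)) → Eis,
      (∀ t ∈ 𝒥, t.k * nu2 t.o = kn t * b0L x τ β ^ 3) →
    ∃ F : Finset Eis, (∀ t ∈ 𝒥, yF kn E4RH858.b1 (bkP P) t ∈ F) ∧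
      ∀ t ∈ 𝒥, ∀ z f1 f2 f3 D1' Z'' l m : Eis, Spl M f z t f1 f2 f3 D1' Z'' l m →
        (F.card : ℝ) ≤ X ^ (ε + (lg t.k - 2 * lg (sL (x.g * x.e₀ * x.t) t.k β) + lg D1' +
          beS t f2 + ((x.m 1 1 : ℝ) + x.m 1 2) * Real.log 2 +
          lg (nu0 t.o.1.1 t.o.1.2)) / Real.log X) := by
  obtain ⟨X₀, hX₀, H⟩ := bkn_gen (Λ := Λ) hA0 hε
  refine ⟨X₀, hX₀, ?_⟩
  intro X hX π h lam Jf a ps x Bf e0 r ε' hJ ha hP hx SF
  have hY1 : 1 ≤ X ^ A0 := Real.one_le_rpow (by linarith) (by linarith)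
  exact H X hX π lam Jf (bl a) x Bf e0 r ε' hJ ha.base hP hx
    (nm_gN_le' (a := a.1.toBd) hY1 ha.base hP hx SF.d₃ SF.eY SF.eN SF.y3)

end Crest.Agent.R017.BKn858
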