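import Crest.Agent.R017.BK_858
import Crest.Agent.R012.Cube_777

/-!
# Row 17, T.3, `StrU`: the number of distinct `y`-frequencies of a block (helper858)

* `card_mul_le` : the number of primary multiples of `d`
* `mult_one` : the primes with `v_p(S_q) = 1` divide `g e₀ t`
* `nu_mem` : `S ν = a b² c β³ u² v² n`, `a, b, c ∣ g e₀ t`
* `bkn` : the count, `k - s + η + b₁ + c₁₁ + c₁₂ + ν₀`
-/

set_option autoImplicit false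
set_option linter.unusedSectionVars false

noncomputable section

open Finset

namespace Crest.Agent.R017.BKn858

open Crest.Agent.R012 Crest.Agent.R012.Eis
open Crest.Agent.R012.Mob705 hiding pb mem_pb
open Crest.Agent.R012.Div277 (dvs mem_dvs)
open Crest.Agent.R017.Sx545 (Sm)
open Crest.Agent.R017.C70 (OKJ JC)
open Crest.Agent.R017.DgA829 (lc lc_prim lc_dvd)
open Crest.Agent.R017.E5B71
open Crest.Agent.R017.B770
open Crest.Agent.R017.Prov71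
open Crest.Agent.R017.E4D164
open Crest.Agent.R017.E4J352
open Crest.Agent.R017.E4U164
open Crest.Agent.R017.E4RG858 (fm pow_dvd_iff dvd_iff_mult mult_mul mult_pow mult_eq_zero fac)
open Crest.Agent.R017.E4RH858 (Pf pf Facts kl kl_dvd kl_prim kl_sq_iff prod_sub_dvd gd gd_prim
  gd_dvd' card_dvs3)
open Crest.Agent.R017.E4Dic352 (bkP cP lg lg_nonneg lg_mul lg_pow exp_lg nm_pos' lg_bkP prim_bkP
  tauS Spl beS bfS)
open Crest.Agent.R017.Str699 (b3 n3 n3_mul n3_prim b3_prim b3_dvd o_spec mlam nu0 eT Snu_eq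
  mult_sS_le nu0_prim pS_prim)
open Crest.Agent.R017.JyF744 (nu2 yK)
open Crest.Agent.R017.YsM61 (yF)
open Crest.Agent.R017.BK858

/-- the number of primary multiples of `d` -/
lemma card_mul_le {d : Eis} (hd : IsPrim d) {T : ℝ} (hT : 0 ≤ T) {A : Finset Eis}
    (hA : ∀ k ∈ A, IsPrim k ∧ d ∣ k ∧ (nm k : ℝ) ≤ T) : (A.card : ℝ) ≤ 16 * (T / nm d) := by
  classical
  refine le_trans ?_ (Cube777.card_mult hd hT)
  have h : A ⊆ (primBall ⌊T⌋₊).filter (fun b => d ∣ b) := by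
    intro k hk
    obtain ⟨h1, h2, h3⟩ := hA k hk
    exact mem_filter.mpr ⟨mem_primBall.mpr ⟨Nat.le_floor h3, h1⟩, h2⟩
  exact_mod_cast Finset.card_le_card h

/-- the primes with `v_p(S_q) = 1` -/
lemma mult_one {g e₀ t q p : Eis} (hg : IsPrim g) (he : IsPrim e₀) (ht : IsPrim t)
    (hq : IsPrim q) (hp : IsPP p) (h : multiplicity p (sS g e₀ t q) = 1) : p ∣ g * e₀ * t := by
  have hqg : IsPrim (q ^ 2 * g) := (hq.pow 2).mul hg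
  have hS : IsPrim (sS g e₀ t q) := lc_prim (lc_prim hqg he) ht
  have h1 : sS g e₀ t q ∣ q ^ 2 * g * e₀ * t :=
    (lc_dvd (lc_prim hqg he) ht _).mpr
      ⟨((lc_dvd hqg he _).mpr ⟨dvd_mul_right _ _, dvd_mul_left _ _⟩).mul_right _,
        dvd_mul_left _ _⟩
  have h2 : p ∣ sS g e₀ t q := (dvd_iff_mult hp.prime hS.ne_zero).mpr (by omega)
  have h3 : q ^ 2 ∣ sS g e₀ t q := by
    obtain ⟨a1, -⟩ := (lc_dvd (lc_prim hqg he) ht (sS g e₀ t q)).mp dvd_rfl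
    obtain ⟨a2, -⟩ := (lc_dvd hqg he _).mp a1
    exact (dvd_mul_right _ _).trans a2
  have h4 : ¬ p ∣ q := by
    intro h5
    have h6 : p ^ 2 ∣ sS g e₀ t q := (pow_dvd_pow_of_dvd h5 2).trans h3
    rw [pow_dvd_iff hp.prime hS.ne_zero] at h6
    omega
  have h7 : p ∣ q ^ 2 * (g * e₀ * t) := by
    refine (h2.trans h1).trans (dvd_of_eq ?_)
    ring
  rcases hp.prime.dvd_or_dvd h7 with h8 | h8
  · exact absurd (hp.prime.dvd_of_dvd_pow h8) h4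
  · exact h8

section block

variable {Λ : Type*} {π : Λ → DPar} {lam : Λ × Eis} {Jf : ℝ → ℝ → ℝ → Finset (Eis × Eis)}
  {a : Bd × ℕ} {x : Dt} {Bf : ℝ → ℝ → ℝ → ℝ} {e0 r ε X : ℝ}

/-- the fixed number -/
def gN (x : Dt) : Eis := x.g * x.e₀ * x.t

lemma gN_prim (ha : a.1.ok) (hP : a.1.okP (π lam.1)) (hx : x.OK (π lam.1) Bf e0 r ε X a.1) :
    IsPrim x.g ∧ IsPrim x.e₀ ∧ IsPrim x.t ∧ IsPrim (gN x) := by
  obtain ⟨g1, g2, g3⟩ := (E5P571.mem_Gd ha.2.2).mp hx.g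
  have hEp : IsPrim (x.E a.1) := hP.1.prim.mul (T3_prim x.β hx.β)
  obtain ⟨t1, t2, -⟩ := (E5P571.mem_Gd (tS_prim hEp).ne_zero).mp hx.t
  obtain ⟨-, e1, e2⟩ := (LS2.mem_S (Real.exp_nonneg _)).mp hx.e₀
  exact ⟨g1.prim, e1, t1.prim, (g1.prim.mul e1).mul t1.prim⟩

/-- **`S ν` from three divisors of `g e₀ t`, the cube part and three free variables** -/
theorem nu_mem (hJ : ∀ l N z, OKJ (Jf l N z)) (ha : a.1.ok) (hP : a.1.okP (π lam.1))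
    (hx : x.OK (π lam.1) Bf e0 r ε X a.1) (o : x.O π lam Jf a) :
    ∃ A B C U V : Eis, A ∈ dvs (gN x) ∧ B ∈ dvs (gN x) ∧ C ∈ dvs (gN x) ∧
      (IsPrim U ∧ nm U < 2 ^ (x.m 1 1 + 1)) ∧ (IsPrim V ∧ nm V < 2 ^ (x.m 1 2 + 1)) ∧
      nu2 o = A * B ^ 2 * C * b3 (nu2 o) ^ 3 * U ^ 2 * V ^ 2 * nu0 o.1.1 o.1.2 := by
  classical
  obtain ⟨⟨o1, o2⟩, ho⟩ := o
  have ho' := ho
  unfold Dt.O OD OU at ho'
  rw [mem_filter, mem_image] at ho'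
  obtain ⟨⟨i, hi, he⟩, -⟩ := ho'
  obtain ⟨⟨hi1, hi2⟩, hcl⟩ := Dt.mem_I.mp hi
  obtain ⟨q, δ, j⟩ := i
  have he1 : sS x.g x.e₀ x.t q = o1 := congrArg Prod.fst he
  have he2 : (E4K164.dc (E5b54.stj (sS x.g x.e₀ x.t q) j)).2.2 = o2 := congrArg Prod.snd he
  have hj : JC j := (okJ3 hJ a.1 a.2).jc _ hi2
  obtain ⟨q1, q2, q3, -⟩ := hx.Q q hi1
  obtain ⟨g1, g2, g3⟩ := (E5P571.mem_Gd ha.2.2).mp hx.g
  have hEp : IsPrim (x.E a.1) := hP.1.prim.mul (T3_prim x.β hx.β)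
  obtain ⟨t1, t2, -⟩ := (E5P571.mem_Gd (tS_prim hEp).ne_zero).mp hx.t
  obtain ⟨-, e1, e2⟩ := (LS2.mem_S (Real.exp_nonneg _)).mp hx.e₀
  have hqg : IsCoprime q x.g := q3.of_isCoprime_of_dvd_right g3
  have m2 : ∀ p : Eis, IsPP p → multiplicity p (sS x.g x.e₀ x.t q) ≤ 2 := fun p hp =>
    mult_sS_le g1.prim g2 e1 e2 t1.prim t2 q1.prim q2 hqg hp
  have hS : IsPrim (sS x.g x.e₀ x.t q) :=
    lc_prim (lc_prim ((q1.prim.pow 2).mul g1.prim) e1) t1.prim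
  have hb := Str699.b3_eq hj hS m2
  have hn := Snu_eq hj hS m2
  rw [he2] at hb hn
  have hgN := (gN_prim ha hP hx).2.2.2
  have hd : ∀ b : Fin 3, pS 0 b (sS x.g x.e₀ x.t q) j ∈ dvs (gN x) := by
    intro b
    refine (mem_dvs hgN.ne_zero).mpr ⟨pS_prim _ _ _ _, ?_⟩
    unfold pS
    refine prod_sub_dvd hgN fun p hp => ?_
    obtain ⟨h1, h2, -⟩ := mem_filter.mp hp
    have hpp := isPP_of_mem_pp h1
    refine (mem_pp hgN.ne_zero).mpr ⟨hpp, mult_one g1.prim e1 t1.prim q1.prim hpp ?_⟩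
    rw [h2]
    rfl
  refine ⟨_, _, _, pS 1 1 (sS x.g x.e₀ x.t q) j, pS 1 2 (sS x.g x.e₀ x.t q) j, hd 0, hd 1, hd 2,
    ⟨pS_prim _ _ _ _, (hcl 1 1).2⟩, ⟨pS_prim _ _ _ _, (hcl 1 2).2⟩, ?_⟩
  show o1 * o2 = _ * b3 (o1 * o2) ^ 3 * _ * _ * nu0 o1 o2
  rw [← he1, hb]
  conv_lhs => rw [hn]
  have f00 : eT 0 0 = 1 := by decide
  have f01 : eT 0 1 = 2 := by decide
  have f02 : eT 0 2 = 1 := by decide
  have f10 : eT 1 0 = 3 := by decide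
  have f11 : eT 1 1 = 2 := by decide
  have f12 : eT 1 2 = 2 := by decide
  simp only [Fin.prod_univ_two, Fin.prod_univ_three, f00, f01, f02, f10, f11, f12, pow_one]
  ring

/-- the number of the outer parameters of a block -/
lemma card_nu {C₀ ε₁ Y : ℝ}
    (hdv : ((dvs (gN x) ×ˢ dvs (gN x) ×ˢ dvs (gN x)).card : ℝ) ≤ C₀ * Y ^ ε₁)
    (hJ : ∀ l N z, OKJ (Jf l N z)) (ha : a.1.ok) (hP : a.1.okP (π lam.1))
    (hx : x.OK (π lam.1) Bf e0 r ε X a.1) {β : Eis} {W : ℝ} (hW : 0 ≤ W)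
    {𝒥 : Finset (Tm (x.O π lam Jf a))}
    (h𝒥 : ∀ t ∈ 𝒥, bo3 t = β ∧ (nm (nu2 t.o) : ℝ) ≤ W) :
    ((𝒥.image fun t => nu2 t.o).card : ℝ) ≤ C₀ * Y ^ ε₁ * (16 * 2 ^ (x.m 1 1 + 1)) *
      (16 * 2 ^ (x.m 1 2 + 1)) * (16 * (W / 2 ^ mlam x.m)) := by
  classical
  set D3 := dvs (gN x) ×ˢ dvs (gN x) ×ˢ dvs (gN x) with hD3
  set T : ℝ := W / 2 ^ mlam x.m with hT
  have hT0 : 0 ≤ T := by positivity
  have hsub : (𝒥.image fun t => nu2 t.o) ⊆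
      (D3 ×ˢ primBall (2 ^ (x.m 1 1 + 1)) ×ˢ primBall (2 ^ (x.m 1 2 + 1)) ×ˢ primBall ⌊T⌋₊).image
        (fun v => v.1.1 * v.1.2.1 ^ 2 * v.1.2.2 * β ^ 3 * v.2.1 ^ 2 * v.2.2.1 ^ 2 * v.2.2.2) := by
    intro n hn
    obtain ⟨t, ht, rfl⟩ := mem_image.mp hn
    obtain ⟨hb, hw⟩ := h𝒥 t ht
    obtain ⟨A, B, C, U, V, hA, hB, hC, ⟨hU, hU'⟩, ⟨hV, hV'⟩, he⟩ := nu_mem hJ ha hP hx t.o
    have hb' : b3 (nu2 t.o) = β := hb
    obtain ⟨-, -, -, -, -, h6, -⟩ := o_spec hJ ha hP hx t.o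
    refine mem_image.mpr ⟨((A, B, C), U, V, nu0 t.o.1.1 t.o.1.2), ?_, ?_⟩
    · refine mem_product.mpr ⟨mem_product.mpr ⟨hA, mem_product.mpr ⟨hB, hC⟩⟩,
        mem_product.mpr ⟨mem_primBall.mpr ⟨hU'.le, hU⟩, mem_product.mpr
          ⟨mem_primBall.mpr ⟨hV'.le, hV⟩, mem_primBall.mpr ⟨Nat.le_floor ?_, nu0_prim _ _⟩⟩⟩⟩
      rw [hT, le_div_iff₀ (by positivity)]
      refine le_trans ?_ hw
      have h7 : ((2 ^ mlam x.m * nm (nu0 t.o.1.1 t.o.1.2) : ℕ) : ℝ) ≤ (nm (nu2 t.o) : ℕ) := by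
        exact_mod_cast h6
      push_cast at h7
      rw [mul_comm]
      exact h7
    · show A * B ^ 2 * C * β ^ 3 * U ^ 2 * V ^ 2 * nu0 t.o.1.1 t.o.1.2 = nu2 t.o
      rw [he, hb']
  have h1 := (Finset.card_le_card hsub).trans Finset.card_image_le
  rw [card_product D3, card_product (primBall _), card_product (primBall _)] at h1
  have h2 : ((𝒥.image fun t => nu2 t.o).card : ℝ) ≤ (D3.card : ℝ) *
      (((primBall (2 ^ (x.m 1 1 + 1))).card : ℝ) *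
        (((primBall (2 ^ (x.m 1 2 + 1))).card : ℝ) * ((primBall ⌊T⌋₊).card : ℝ))) := by
    exact_mod_cast h1
  have c1 := Rho777.card_primBall (2 ^ (x.m 1 1 + 1))
  have c2 := Rho777.card_primBall (2 ^ (x.m 1 2 + 1))
  have c3 := Rho777.card_primBall ⌊T⌋₊
  have c4 := Nat.floor_le hT0
  push_cast at c1 c2
  have hC0 : 0 ≤ C₀ * Y ^ ε₁ := (Nat.cast_nonneg _).trans hdv
  calc ((𝒥.image fun t => nu2 t.o).card : ℝ) ≤ _ := h2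
    _ ≤ (C₀ * Y ^ ε₁) * ((16 * 2 ^ (x.m 1 1 + 1)) * ((16 * 2 ^ (x.m 1 2 + 1)) * (16 * T))) := by
        gcongr
        exact c3.trans (by linarith)
    _ = _ := by ring

end block

/-- the size of `b₁` in a block -/
lemma sq_lt_of {A B P : ℝ} (hB : 0 ≤ B) (h : A ^ 2 * P ≤ 4 * (B ^ 2 * P)) (hP : 0 < P) :
    A ≤ 2 * B := by
  have h1 : A ^ 2 ≤ (2 * B) ^ 2 := by
    have h2 : A ^ 2 * P ≤ (2 * B) ^ 2 * P := by nlinarith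
    exact le_of_mul_le_mul_right h2 hP
  exact (abs_le_of_sq_le_sq' h1 (by linarith)).2

/-- the frequency is a function of `k, S ν, D1, b₁` -/
lemma card_yF {OO : Finset (Eis × Eis)} {𝒥 : Finset (Tm {x // x ∈ OO})} {b0 bk : Eis}
    (hb0 : b0 ≠ 0) {kn : Tm {x // x ∈ OO} → Eis} (hkn : ∀ t ∈ 𝒥, t.k * nu2 t.o = kn t * b0 ^ 3) :
    ((𝒥.image (yF kn E4RH858.b1 bk)).card : ℝ) ≤
      ((𝒥.image fun t => t.k).card : ℝ) * (((𝒥.image fun t => nu2 t.o).card : ℝ) *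
        (((𝒥.image fun t => t.D1).card : ℝ) * ((𝒥.image fun t => E4RH858.b1 t).card : ℝ))) := by
  classical
  have hb3 : b0 ^ 3 ≠ 0 := pow_ne_zero _ hb0
  have e1 : ((𝒥.image (yF kn E4RH858.b1 bk)).image fun y => y * b0 ^ 3).card =
      (𝒥.image (yF kn E4RH858.b1 bk)).card :=
    Finset.card_image_of_injective _ fun u v h => mul_right_cancel₀ hb3 h
  have e2 : ((𝒥.image (yF kn E4RH858.b1 bk)).image fun y => y * b0 ^ 3) ⊆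
      ((𝒥.image fun t => t.k) ×ˢ (𝒥.image fun t => nu2 t.o) ×ˢ (𝒥.image fun t => t.D1) ×ˢ
        (𝒥.image fun t => E4RH858.b1 t)).image
        (fun v => v.1 * v.2.1 * v.2.2.1 ^ 2 * (v.2.2.2 ^ 2 * bk)) := by
    intro y hy
    obtain ⟨y', hy', rfl⟩ := mem_image.mp hy
    obtain ⟨t, ht, rfl⟩ := mem_image.mp hy'
    have m1 : t.k ∈ 𝒥.image fun t => t.k := mem_image.mpr ⟨t, ht, rfl⟩
    have m2 : nu2 t.o ∈ 𝒥.image fun t => nu2 t.o := mem_image.mpr ⟨t, ht, rfl⟩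
    have m3 : t.D1 ∈ 𝒥.image fun t => t.D1 := mem_image.mpr ⟨t, ht, rfl⟩
    have m4 : E4RH858.b1 t ∈ 𝒥.image fun t => E4RH858.b1 t := mem_image.mpr ⟨t, ht, rfl⟩
    refine mem_image.mpr ⟨(t.k, nu2 t.o, t.D1, E4RH858.b1 t), ?_, ?_⟩
    · exact mem_product.mpr ⟨m1, mem_product.mpr ⟨m2, mem_product.mpr ⟨m3, m4⟩⟩⟩
    · show t.k * nu2 t.o * t.D1 ^ 2 * (E4RH858.b1 t ^ 2 * bk) = _
      unfold yF
      rw [hkn t ht]
      ring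
  have e3 := (Finset.card_le_card e2).trans Finset.card_image_le
  rw [e1, card_product (𝒥.image fun t => t.k), card_product (𝒥.image fun t => nu2 t.o),
    card_product (𝒥.image fun t => t.D1)] at e3
  exact_mod_cast e3

lemma exp_split {k τ₁ D τ₂ b τ₃ n : Eis} (m₁ m₂ : ℕ) (hk : k ≠ 0) (h1 : τ₁ ≠ 0) (hD : D ≠ 0)
    (h2 : τ₂ ≠ 0) (hb : b ≠ 0) (h3 : τ₃ ≠ 0) (hn : n ≠ 0) :
    Real.exp (lg k - lg τ₁ + (lg D - lg τ₂) + (lg b - lg τ₃) +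
      ((m₁ : ℝ) + m₂) * Real.log 2 + lg n) =
      (nm k / nm τ₁) * (nm D / nm τ₂) * (nm b / nm τ₃) * (2 ^ m₁ * 2 ^ m₂) * nm n := by
  rw [Real.exp_add, Real.exp_add, Real.exp_add, Real.exp_add, Real.exp_sub, Real.exp_sub,
    Real.exp_sub, exp_lg hk, exp_lg h1, exp_lg hD, exp_lg h2, exp_lg hb, exp_lg h3, exp_lg hn,
    add_mul, Real.exp_add, Real.exp_nat_mul, Real.exp_nat_mul, Real.exp_log (by norm_num)]

lemma fin_ar {F ck cn cD cb k D b τ₁ τ₂ τ₃ ν W CY A₁ A₂ : ℝ} {m₁ m₂ : ℕ}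
    (hF : F ≤ ck * (cn * (cD * cb))) (c1 : ck ≤ 16 * (A₁ / τ₁))
    (c4 : cn ≤ CY * (16 * 2 ^ (m₁ + 1)) * (16 * 2 ^ (m₂ + 1)) * (16 * W))
    (c2 : cD ≤ 16 * (A₂ / τ₂)) (c3 : cb ≤ 16 * (2 * b / τ₃)) (s1 : A₁ ≤ 2 * k)
    (s2 : A₂ ≤ 2 * D) (s4 : W ≤ 2 ^ 12 * ν) (hk : 0 ≤ k) (hD : 0 ≤ D)
    (h1 : 0 < τ₁) (h2 : 0 < τ₂) (hν : 0 ≤ ν) (hCY : 0 ≤ CY) (hcn : 0 ≤ cn)
    (hcD : 0 ≤ cD) (hcb : 0 ≤ cb) :
    F ≤ 2 ^ 41 * CY * ((k / τ₁) * (D / τ₂) * (b / τ₃) * (2 ^ m₁ * 2 ^ m₂) * ν) := by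
  have e1 : ck ≤ 16 * (2 * k / τ₁) := c1.trans (by gcongr)
  have e2 : cD ≤ 16 * (2 * D / τ₂) := c2.trans (by gcongr)
  have e4 : cn ≤ CY * (16 * 2 ^ (m₁ + 1)) * (16 * 2 ^ (m₂ + 1)) * (16 * (2 ^ 12 * ν)) :=
    c4.trans (by gcongr)
  have e5 : cD * cb ≤ 16 * (2 * D / τ₂) * (16 * (2 * b / τ₃)) :=
    mul_le_mul e2 c3 hcb (by positivity)
  have e6 : cn * (cD * cb) ≤ CY * (16 * 2 ^ (m₁ + 1)) * (16 * 2 ^ (m₂ + 1)) *
      (16 * (2 ^ 12 * ν)) * (16 * (2 * D / τ₂) * (16 * (2 * b / τ₃))) :=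
    mul_le_mul e4 e5 (mul_nonneg hcD hcb) (by positivity)
  have e7 := mul_le_mul e1 e6 (mul_nonneg hcn (mul_nonneg hcD hcb)) (by positivity)
  refine (hF.trans e7).trans (le_of_eq ?_)
  rw [pow_succ, pow_succ]
  ring

set_option maxHeartbeats 1000000 in
/-- **the number of the frequencies of a block** -/
theorem bkn {Λ : Type*} {ε₁ : ℝ} (hε : 0 < ε₁) : ∃ C : ℝ, 1 ≤ C ∧
    ∀ (π : Λ → DPar) (lam : Λ × Eis) (Jf : ℝ → ℝ → ℝ → Finset (Eis × Eis)) (a : Bd × ℕ) (x : Dt)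
      (Bf : ℝ → ℝ → ℝ → ℝ) (e0 r ε X : ℝ), (∀ l N z, OKJ (Jf l N z)) → a.1.ok →
      a.1.okP (π lam.1) → x.OK (π lam.1) Bf e0 r ε X a.1 →
    ∀ (M f : Eis) (c : E4J352.Win) (P : Pf) (β : Eis) (τ : Eis × Eis × Eis)
      (𝒥 : Finset (Tm (x.O π lam Jf a))) (Y : ℝ), 1 ≤ Y → (nm (x.g * x.e₀ * x.t) : ℝ) ≤ Y →
      f ≠ 0 →
      (∀ t ∈ 𝒥, t.OK M 1 ∧ Facts M t ∧ t.In lD c ∧ pf t = P ∧ bo3 t = β ∧ soL x f t = τ) →
    ∀ kn : Tm (x.O π lam Jf a) → Eis,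
      (∀ t ∈ 𝒥, t.k * nu2 t.o = kn t * b0L x τ β ^ 3) →
    ∃ F : Finset Eis, (∀ t ∈ 𝒥, yF kn E4RH858.b1 (bkP P) t ∈ F) ∧
      ∀ t ∈ 𝒥, (F.card : ℝ) ≤ C * Y ^ ε₁ * Real.exp (lg t.k - lg τ.1 + (lg t.D1 - lg τ.2.1) +
        (lg (E4RH858.b1 t) - lg τ.2.2) + ((x.m 1 1 : ℝ) + x.m 1 2) * Real.log 2 +
        lg (nu0 t.o.1.1 t.o.1.2)) := by
  classical
  obtain ⟨C₀, hC₀, hdv⟩ := card_dvs3 hε
  refine ⟨2 ^ 41 * C₀, by linarith, ?_⟩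
  intro π lam Jf a x Bf e0 r ε X hJ ha hP hx M f c P β τ 𝒥 Y hY hgY hf h𝒥 kn hkn
  have hgN := (gN_prim ha hP hx).2.2.2
  have hY0 : 0 < Y := by linarith
  have hD := hdv (gN x) (gN x) (gN x) Y hY hgN.ne_zero hgN.ne_zero hgN.ne_zero hgY hgY hgY
  refine ⟨𝒥.image (yF kn E4RH858.b1 (bkP P)), fun t ht => mem_image_of_mem _ ht, ?_⟩
  intro t₀ ht₀
  obtain ⟨k1, k2, k3, k4, k5, k6⟩ := h𝒥 t₀ ht₀
  -- the outer parameter
  have hnp : ∀ t : Tm (x.O π lam Jf a), IsPrim (nu2 t.o) := by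
    intro t
    obtain ⟨o1, o2, -⟩ := o_spec hJ ha hP hx t.o
    exact o1.mul o2
  have hb0 : b0L x τ β ≠ 0 := by
    intro h0
    have h1 := hkn t₀ ht₀
    rw [h0] at h1
    exact mul_ne_zero k1.sk.ne_zero (hnp t₀).ne_zero (by rw [h1]; ring)
  have hl1 : ∀ t ∈ 𝒥, τ.1 = kl (gN x) t.k := fun t ht =>
    (congrArg Prod.fst (h𝒥 t ht).2.2.2.2.2).symm
  have hl2 : ∀ t ∈ 𝒥, τ.2.1 = gd f t.D1 := fun t ht =>
    (congrArg (fun v => v.2.1) (h𝒥 t ht).2.2.2.2.2).symm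
  have hl3 : ∀ t ∈ 𝒥, τ.2.2 = gd f (E4RH858.b1 t) := fun t ht =>
    (congrArg (fun v => v.2.2) (h𝒥 t ht).2.2.2.2.2).symm
  have p1 : IsPrim τ.1 := by rw [hl1 t₀ ht₀]; exact kl_prim _ _
  have p2 : IsPrim τ.2.1 := by rw [hl2 t₀ ht₀]; exact gd_prim _ _
  have p3 : IsPrim τ.2.2 := by rw [hl3 t₀ ht₀]; exact gd_prim _ _
  have n1 : (0 : ℝ) < nm τ.1 := nm_pos' p1.ne_zero
  have n2 : (0 : ℝ) < nm τ.2.1 := nm_pos' p2.ne_zero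
  have n3 : (0 : ℝ) < nm τ.2.2 := nm_pos' p3.ne_zero
  have nPb : (0 : ℝ) < nm P.b := by
    have h1 : t₀.b = E4RH858.b1 t₀ ^ 2 * P.b := by rw [k2.b, k4]
    have h2 : P.b ≠ 0 := fun h0 => k1.sb.ne_zero (by rw [h1, h0, mul_zero])
    exact nm_pos' h2
  -- the four counts
  have c1 : ((𝒥.image fun t => t.k).card : ℝ) ≤ 16 * (2 ^ (c.nkk + 1) / nm τ.1) := by
    refine card_mul_le p1 (by positivity) fun k hk => ?_
    obtain ⟨t, ht, rfl⟩ := mem_image.mp hk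
    refine ⟨(h𝒥 t ht).1.sk.prim, ?_, (h𝒥 t ht).2.2.1.hkk.2.le⟩
    rw [hl1 t ht]
    have h1 := fac (h𝒥 t ht).1.sk.prim (ppSet_pp t.k) subset_rfl
    conv_rhs => rw [h1]
    unfold kl
    have h2 : ∏ p ∈ pp (gN x), p ^ min (multiplicity p t.k) 3 =
        ∏ p ∈ (pp (gN x)).filter (fun p => p ∣ t.k), p ^ min (multiplicity p t.k) 3 := by
      rw [prod_filter]
      refine prod_congr rfl fun p hp => ?_
      split_ifs with h3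
      · rfl
      · rw [mult_eq_zero (isPP_of_mem_pp hp).prime (h𝒥 t ht).1.sk.ne_zero h3]
        simp
    rw [h2]
    refine (Finset.prod_dvd_prod_of_dvd _ (fun p => p ^ multiplicity p t.k)
      fun p _ => pow_dvd_pow _ (min_le_left _ _)).trans
        (Finset.prod_dvd_prod_of_subset _ _ _ fun p hp => ?_)
    obtain ⟨h3, h4⟩ := mem_filter.mp hp
    exact (mem_pp (h𝒥 t ht).1.sk.ne_zero).mpr ⟨isPP_of_mem_pp h3, h4⟩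
  have c2 : ((𝒥.image fun t => t.D1).card : ℝ) ≤ 16 * (2 ^ (c.n1 + 1) / nm τ.2.1) := by
    refine card_mul_le p2 (by positivity) fun k hk => ?_
    obtain ⟨t, ht, rfl⟩ := mem_image.mp hk
    refine ⟨(h𝒥 t ht).1.pD1, ?_, (h𝒥 t ht).2.2.1.h1.2.le⟩
    rw [hl2 t ht]
    exact gd_dvd' hf (h𝒥 t ht).1.pD1
  have c3 : ((𝒥.image fun t => E4RH858.b1 t).card : ℝ) ≤
      16 * (2 * nm (E4RH858.b1 t₀) / nm τ.2.2) := by
    refine card_mul_le p3 (by positivity) fun k hk => ?_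
    obtain ⟨t, ht, rfl⟩ := mem_image.mp hk
    refine ⟨E4RH858.prim_b1 t, ?_, ?_⟩
    · rw [hl3 t ht]
      exact gd_dvd' hf (E4RH858.prim_b1 t)
    · obtain ⟨j1, j2, j3, j4, -, -⟩ := h𝒥 t ht
      have h1 : (nm t.b : ℝ) = (nm (E4RH858.b1 t) : ℝ) ^ 2 * nm P.b := by
        rw [j2.b, j4, nm_mul, nm_pow]
        push_cast
        ring
      have h2 : (nm t₀.b : ℝ) = (nm (E4RH858.b1 t₀) : ℝ) ^ 2 * nm P.b := by
        rw [k2.b, k4, nm_mul, nm_pow]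
        push_cast
        ring
      refine sq_lt_of (Nat.cast_nonneg _) ?_ nPb
      rw [← h1, ← h2]
      have h3 := j3.hb.2
      have h4 := k3.hb.1
      rw [pow_succ] at h3
      nlinarith [Nat.cast_nonneg (α := ℝ) (nm t₀.b)]
  have c4 := card_nu (W := 2 ^ (c.nlam + 1)) hD hJ ha hP hx (β := β) (by positivity)
    (𝒥 := 𝒥) fun t ht => ⟨(h𝒥 t ht).2.2.2.2.1, (h𝒥 t ht).2.2.1.hlam.2.le⟩
  -- the product
  have hcard := card_yF (bk := bkP P) hb0 hkn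
  -- the sizes at `t₀`
  have s1 : (2 : ℝ) ^ (c.nkk + 1) ≤ 2 * nm t₀.k := by
    rw [pow_succ]
    linarith [k3.hkk.1]
  have s2 : (2 : ℝ) ^ (c.n1 + 1) ≤ 2 * nm t₀.D1 := by
    rw [pow_succ]
    linarith [k3.h1.1]
  have s4 : (2 : ℝ) ^ (c.nlam + 1) / 2 ^ mlam x.m ≤ 2 ^ 12 * nm (nu0 t₀.o.1.1 t₀.o.1.2) := by
    obtain ⟨-, -, -, -, -, -, h7⟩ := o_spec hJ ha hP hx t₀.o
    have h8 : ((nm (nu2 t₀.o) : ℕ) : ℝ) ≤
        ((2 ^ 11 * 2 ^ mlam x.m * nm (nu0 t₀.o.1.1 t₀.o.1.2) : ℕ) : ℝ) := by exact_mod_cast h7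
    push_cast at h8
    have h9 : (2 : ℝ) ^ c.nlam ≤ nm (nu2 t₀.o) := k3.hlam.1
    rw [div_le_iff₀ (by positivity), pow_succ]
    nlinarith
  have hnu : IsPrim (nu0 t₀.o.1.1 t₀.o.1.2) := nu0_prim _ _
  rw [exp_split _ _ k1.sk.ne_zero p1.ne_zero k1.pD1.ne_zero p2.ne_zero
    (E4RH858.prim_b1 t₀).ne_zero p3.ne_zero hnu.ne_zero, mul_assoc (2 ^ 41)]
  exact fin_ar hcard c1 c4 c2 c3 s1 s2 s4 (Nat.cast_nonneg _) (Nat.cast_nonneg _)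
    n1 n2 (Nat.cast_nonneg _) (by positivity) (Nat.cast_nonneg _)
    (Nat.cast_nonneg _) (Nat.cast_nonneg _)

/-- the count with 352's splitting -/
lemma bkn_spl {O : Type} {M f z : Eis} {t : Tm O} {f1 f2 f3 D1' Z'' l m : Eis}
    (s : Spl M f z t f1 f2 f3 D1' Z'' l m) (h : Facts M t) (hok : t.OK M 1) :
    lg t.D1 - lg (gd f t.D1) = lg D1' ∧
      lg (E4RH858.b1 t) - lg (gd f (E4RH858.b1 t)) = beS t f2 := by
  have h1 := E4RK858.spl_f1g s h hok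
  have h2 := E4RK858.spl_gb s h hok
  have h3 := E4Dic352.lg_b1 t f2
  have h4 : lg t.D1 = lg f1 + lg D1' := by
    have h0 : t.D1 ≠ 0 := hok.pD1.ne_zero
    have e := s.hD
    rw [e] at h0
    rw [e, lg_mul (left_ne_zero_of_mul h0) (right_ne_zero_of_mul h0)]
  refine ⟨?_, ?_⟩
  · rw [← h1, h4]
    ring
  · rw [h2, h3]
    ring

/-- the squares in the label -/
lemma lg_sL_le {N k β : Eis} (hk : k ≠ 0) : 2 * lg (sL N k β) ≤ lg (kl N k) := by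
  have h1 : sL N k β ^ 2 ∣ kl N k := by
    rw [← sL_kl hk]
    exact sL_sq (kl_prim _ _)
  have h2 : (nm (sL N k β ^ 2) : ℝ) ≤ nm (kl N k) := by
    exact_mod_cast Div277.nm_le_of_dvd (kl_prim _ _).ne_zero h1
  have h3 : lg (sL N k β ^ 2) ≤ lg (kl N k) :=
    Real.log_le_log (nm_pos' (pow_ne_zero 2 (sL_prim _ _ _).ne_zero)) h2
  rw [lg_pow] at h3
  push_cast at h3
  exact h3

/-- the fixed number from the sizes -/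
lemma nm_gN_le' {Λ : Type*} {π : Λ → DPar} {lam : Λ × Eis} {a : Bd} {x : Dt}
    {Bf : ℝ → ℝ → ℝ → ℝ} {e0 r ε X Y : ℝ} (hY : 1 ≤ Y) (ha : a.ok) (hP : a.okP (π lam.1))
    (hx : x.OK (π lam.1) Bf e0 r ε X a) (s1 : (nm a.d₃ : ℝ) ≤ Y)
    (s2 : Real.exp (e0 * a.l) ≤ Y) (s3 : (nm a.e : ℝ) ≤ Y) (s4 : (Y3 a r : ℝ) ^ 3 ≤ Y) :
    (nm (x.g * x.e₀ * x.t) : ℝ) ≤ Y ^ 4 := by
  have hEp : IsPrim (x.E a) := hP.1.prim.mul (T3_prim x.β hx.β)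
  have hEY : (nm (x.E a) : ℝ) ≤ Y ^ 2 := nm_E_le hx s3 s4
  obtain ⟨g1, g2, g3⟩ := (E5P571.mem_Gd ha.2.2).mp hx.g
  obtain ⟨t1, t2, t3⟩ := (E5P571.mem_Gd (tS_prim hEp).ne_zero).mp hx.t
  obtain ⟨e3, e1, e2⟩ := (LS2.mem_S (Real.exp_nonneg _)).mp hx.e₀
  rw [nm_mul, nm_mul]
  push_cast
  have a1 : (nm x.g : ℝ) ≤ Y := by
    refine le_trans ?_ s1
    exact_mod_cast Div277.nm_le_of_dvd ha.2.2 g3
  have a2 : (nm x.e₀ : ℝ) ≤ Y := e3.trans s2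
  have a3 : (nm x.t : ℝ) ≤ Y ^ 2 := by
    refine le_trans ?_ hEY
    exact_mod_cast (Div277.nm_le_of_dvd (tS_prim hEp).ne_zero t3).trans
      (Div277.nm_le_of_dvd hEp.ne_zero ((dvd_pow_self _ (by norm_num)).trans (tS_dvd hEp)))
  calc (nm x.g : ℝ) * nm x.e₀ * nm x.t ≤ Y * Y * Y ^ 2 := by gcongr
    _ = Y ^ 4 := by ring

/-- **the number of the frequencies of a block, at the fixed number `≤ X^(4 A0)`** -/
theorem bkn_gen {Λ : Type*} {ε A0 : ℝ} (hA0 : 1 ≤ A0) (hε : 0 < ε) : ∃ X₀ : ℝ, 1 < X₀ ∧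
    ∀ (X : ℝ), X₀ ≤ X → ∀ (π : Λ → DPar) (lam : Λ × Eis)
      (Jf : ℝ → ℝ → ℝ → Finset (Eis × Eis)) (a : Bd × ℕ) (x : Dt)
      (Bf : ℝ → ℝ → ℝ → ℝ) (e0 r ε' : ℝ), (∀ l N z, OKJ (Jf l N z)) → a.1.ok →
      a.1.okP (π lam.1) → x.OK (π lam.1) Bf e0 r ε' X a.1 →
      (nm (x.g * x.e₀ * x.t) : ℝ) ≤ (X ^ A0) ^ 4 →
    ∀ (M f : Eis) (c : E4J352.Win) (P : Pf) (β : Eis) (τ : Eis × Eis × Eis)
      (𝒥 : Finset (Tm (x.O π lam Jf a))), f ≠ 0 →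
      (∀ t ∈ 𝒥, t.OK M 1 ∧ Facts M t ∧ t.In lD c ∧ pf t = P ∧ bo3 t = β ∧ soL x f t = τ) →
    ∀ kn : Tm (x.O π lam Jf a) → Eis,
      (∀ t ∈ 𝒥, t.k * nu2 t.o = kn t * b0L x τ β ^ 3) →
    ∃ F : Finset Eis, (∀ t ∈ 𝒥, yF kn E4RH858.b1 (bkP P) t ∈ F) ∧
      ∀ t ∈ 𝒥, ∀ z f1 f2 f3 D1' Z'' l m : Eis, Spl M f z t f1 f2 f3 D1' Z'' l m →
        (F.card : ℝ) ≤ X ^ (ε + (lg t.k - 2 * lg (sL (x.g * x.e₀ * x.t) t.k β) + lg D1' +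
          beS t f2 + ((x.m 1 1 : ℝ) + x.m 1 2) * Real.log 2 +
          lg (nu0 t.o.1.1 t.o.1.2)) / Real.log X) := by
  classical
  have hA : 0 < A0 := by linarith
  obtain ⟨C, hC, H⟩ := bkn (Λ := Λ) (ε₁ := ε / (8 * A0)) (by positivity)
  obtain ⟨X₁, hX₁⟩ := (((tendsto_rpow_atTop (show 0 < ε / 2 by positivity)).eventually_ge_atTop
    C).and (Filter.eventually_ge_atTop 2)).exists_forall_of_atTop
  refine ⟨max X₁ 2, lt_of_lt_of_le (by norm_num) (le_max_right _ _), ?_⟩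
  intro X hX π lam Jf a x Bf e0 r ε' hJ ha hP hx hgN M f c P β τ 𝒥 hf h𝒥 kn hkn
  obtain ⟨hCX, hX2⟩ := hX₁ X ((le_max_left _ _).trans hX)
  have hX0 : 0 < X := by linarith
  have hX1 : 1 ≤ X := by linarith
  have hY1 : 1 ≤ X ^ A0 := Real.one_le_rpow hX1 hA.le
  obtain ⟨F, hF, hc⟩ := H π lam Jf a x Bf e0 r ε' X hJ ha hP hx M f c P β τ 𝒥 ((X ^ A0) ^ 4)
    (one_le_pow₀ hY1) hgN hf h𝒥 kn hkn
  refine ⟨F, hF, fun t ht z f1 f2 f3 D1' Z'' l m s => ?_⟩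
  obtain ⟨t1, t2, t3, t4, t5, t6⟩ := h𝒥 t ht
  obtain ⟨s1, s2⟩ := bkn_spl s t2 t1
  have e1 : τ.1 = kl (x.g * x.e₀ * x.t) t.k := (congrArg Prod.fst t6).symm
  have e2 : τ.2.1 = gd f t.D1 := (congrArg (fun v => v.2.1) t6).symm
  have e3 : τ.2.2 = gd f (E4RH858.b1 t) := (congrArg (fun v => v.2.2) t6).symm
  have h1 := hc t ht
  have h2 : 2 * lg (sL (x.g * x.e₀ * x.t) t.k β) ≤ lg τ.1 := by
    rw [e1]
    exact lg_sL_le t1.sk.ne_zero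
  have h3 : ((X ^ A0) ^ 4) ^ (ε / (8 * A0)) = X ^ (ε / 2) := by
    rw [← Real.rpow_natCast, ← Real.rpow_mul hX0.le, ← Real.rpow_mul hX0.le]
    congr 1
    push_cast
    field_simp
    ring
  have hL : 0 < Real.log X := Real.log_pos (by linarith)
  rw [h3] at h1
  refine h1.trans ?_
  rw [Real.rpow_add hX0]
  have h4 : C * X ^ (ε / 2) ≤ X ^ ε := by
    calc C * X ^ (ε / 2) ≤ X ^ (ε / 2) * X ^ (ε / 2) := by gcongr
      _ = X ^ ε := by rw [← Real.rpow_add hX0]; ring_nf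
  refine mul_le_mul h4 ?_ (Real.exp_nonneg _) (by positivity)
  rw [Real.rpow_def_of_pos hX0, mul_div_cancel₀ _ hL.ne']
  refine Real.exp_le_exp.mpr ?_
  rw [e2, e3, s1, s2]
  linarith

/-- **the number of the frequencies of a block, at the sizes of the data** -/
theorem bkn_blk {Λ : Type*} {ε A0 : ℝ} (hA0 : 1 ≤ A0) (hε : 0 < ε) : ∃ X₀ : ℝ, 1 < X₀ ∧
    ∀ (X : ℝ), X₀ ≤ X → ∀ (π : Λ → DPar) (h : ℝ → ℝ) (lam : Λ × Eis)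
      (Jf : ℝ → ℝ → ℝ → Finset (Eis × Eis)) (a : Bd × ℕ) (ps : List Pq) (x : Dt)
      (Bf : ℝ → ℝ → ℝ → ℝ) (e0 r ε' : ℝ), (∀ l N z, OKJ (Jf l N z)) → a.1.ok →
      a.1.okP (π lam.1) → x.OK (π lam.1) Bf e0 r ε' X a.1 →
      SzF π h e0 r 1 (X ^ A0) Bf Jf lam a ps →
    ∀ (M f : Eis) (c : E4J352.Win) (P : Pf) (β : Eis) (τ : Eis × Eis × Eis)
      (𝒥 : Finset (Tm (x.O π lam Jf a))), f ≠ 0 →
      (∀ t ∈ 𝒥, t.OK M 1 ∧ Facts M t ∧ t.In lD c ∧ pf t = P ∧ bo3 t = β ∧ soL x f t = τ) →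
    ∀ kn : Tm (x.O π lam Jf a) → Eis,
      (∀ t ∈ 𝒥, t.k * nu2 t.o = kn t * b0L x τ β ^ 3) →
    ∃ F : Finset Eis, (∀ t ∈ 𝒥, yF kn E4RH858.b1 (bkP P) t ∈ F) ∧
      ∀ t ∈ 𝒥, ∀ z f1 f2 f3 D1' Z'' l m : Eis, Spl M f z t f1 f2 f3 D1' Z'' l m →
        (F.card : ℝ) ≤ X ^ (ε + (lg t.k - 2 * lg (sL (x.g * x.e₀ * x.t) t.k β) + lg D1' +
          beS t f2 + ((x.m 1 1 : ℝ) + x.m 1 2) * Real.log 2 +
          lg (nu0 t.o.1.1 t.o.1.2)) / Real.log X) := by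
  obtain ⟨X₀, hX₀, H⟩ := bkn_gen (Λ := Λ) hA0 hε
  refine ⟨X₀, hX₀, ?_⟩
  intro X hX π h lam Jf a ps x Bf e0 r ε' hJ ha hP hx SF
  have hY1 : 1 ≤ X ^ A0 := Real.one_le_rpow (by linarith) (by linarith)
  exact H X hX π lam Jf a x Bf e0 r ε' hJ ha hP hx
    (nm_gN_le' hY1 ha hP hx SF.d₃ SF.eY SF.eN SF.y3)

end Crest.Agent.R017.BKn858
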