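import Crest.Agent.R017.E4F_858

/-!
# Row 17, C70/E4: the local inequalities G1 - G4 of 393 on the sums of a prefix (helper858)

* `R1S`, `R2S` : mass of the primes with `v_R + v_R' = 1`, `= 2`;  `RS_eq : RS = R1S + 2 R2S`
* `G1` - `G4`, `all9` : all nine inequalities of a splitting, with the primes of `b₁` in `f`
  (mass `w`, type `al 1, b 2, tau 2, lq 1, E 1`)
-/

set_option autoImplicit false
set_option linter.unusedSectionVars false

noncomputable section

open Complex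
open scoped ComplexConjugate

namespace Crest.Agent.R017.E4F858

open Crest.Agent.R012 Crest.Agent.R012.Eis Crest.Agent.R012.Mob705
open Crest.Agent.R017.Sx545 Crest.Agent.R017.CM106 Crest.Agent.R017.C70
open Crest.Agent.R017.E4352 Crest.Agent.R017.E4J352
open Crest.Agent.R017.E4RG858 (fm pow_dvd_iff dvd_iff_mult mult_mul mult_pow mult_eq_zero fac rho
  rho_nonneg)
open Crest.Agent.R017.E4RH858 Crest.Agent.R017.E4Dic352

/-- `[n = 1]` -/
def i1 (n : ℕ) : ℕ := if n = 1 then 1 else 0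

/-- `[n = 2]` -/
def i2 (n : ℕ) : ℕ := if n = 2 then 1 else 0

/-- mass of the primes with `v_R + v_R' = 1` -/
def R1S (P : Pf) : ℝ :=
  ∑ p ∈ SP P, ((i1 (multiplicity p P.R + multiplicity p P.R') : ℕ) : ℝ) * lg p

/-- mass of the primes with `v_R + v_R' = 2` -/
def R2S (P : Pf) : ℝ :=
  ∑ p ∈ SP P, ((i2 (multiplicity p P.R + multiplicity p P.R') : ℕ) : ℝ) * lg p

lemma R1S_nonneg (P : Pf) : 0 ≤ R1S P := sum_nonneg' fun _ _ => Nat.cast_nonneg _
lemma R2S_nonneg (P : Pf) : 0 ≤ R2S P := sum_nonneg' fun _ _ => Nat.cast_nonneg _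

lemma RS_eq {P : Pf} (hP : ∀ p ∈ SP P, LocP P p) : RS P = R1S P + 2 * R2S P := by
  unfold RS R1S R2S
  rw [Finset.mul_sum, ← Finset.sum_add_distrib]
  refine Finset.sum_congr rfl fun p hp => ?_
  have h := (hP p hp).vR
  have e : multiplicity p P.R + multiplicity p P.R' =
      i1 (multiplicity p P.R + multiplicity p P.R') +
      2 * i2 (multiplicity p P.R + multiplicity p P.R') := by
    unfold i1 i2
    split_ifs <;> omega
  conv_lhs => rw [e]
  push_cast
  ring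

section ar

variable {B R Z R' Z' F U b : ℕ} (h : Ar B R Z R' Z' F U b)
include h

/-- the cases of `Ar` -/
lemma ar_cases : (B = 1 ∧ R' = 0 ∧ Z' = 0 ∧ F + 3 = R + Z ∧ U = F ∧ R ≤ 2 ∧ 1 ≤ Z ∧
      (b = 0 ∨ (1 ≤ F ∧ (b = F + 1 ∨ (b % 3 = 0 ∧ b ≤ F))))) ∨
    (B = 0 ∧ R = 0 ∧ Z = 0 ∧ F = 0 ∧ U = R' + Z' ∧ R' ≤ 2 ∧ 1 ≤ b ∧
      (1 ≤ Z' ∨ (R' = 2 ∧ b = 3)) ∧ (b = R' + Z' + 1 ∨ (b % 3 = 0 ∧ b ≤ R' + Z')) ∧
      ¬ (b = 2 ∧ R' = 0 ∧ Z' = 1)) := by
  have hB := h.vB
  have hU := h.hU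
  have hF := h.hF
  have hR := h.vR
  rcases Nat.eq_zero_or_pos B with h0 | h0
  · obtain ⟨h1, h2, h3, h4, h5, h6⟩ := h.zero h0
    unfold GG at h5
    right
    refine ⟨h0, h1, h2, by omega, by omega, by omega, h3, h4, h5, h6⟩
  · obtain ⟨h1, h2, h3, h4⟩ := h.one (by omega)
    unfold GG at h4
    left
    refine ⟨by omega, h1, h2, by omega, by omega, by omega, h3, h4⟩

lemma ag1 {l m f e : ℕ} (hz : Z + Z' = f + (l + 2 * m)) (hf : f ≤ 2 * e) :
    9 * al2 U b + 7 * (b % 3) + 2 * b % 3 ≤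
      6 * i1 (R + R') + 12 * i2 (R + R') + 6 * l + 24 * min m 1 + 24 * e := by
  have hc := ar_cases h
  unfold al2 i1 i2
  obtain ⟨j, hj⟩ : ∃ j, b = 3 * j ∨ b = 3 * j + 1 ∨ b = 3 * j + 2 := ⟨b / 3, by omega⟩
  rcases hj with hj | hj | hj
  · have e1 : 2 * b % 3 = 0 := by omega
    have e2 : b % 3 = 0 := by omega
    rw [e1, e2]
    rcases hc with hc | hc <;> split_ifs <;> omega
  · have e1 : 2 * b % 3 = 2 := by omega
    have e2 : b % 3 = 1 := by omega
    rw [e1, e2]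
    rcases hc with hc | hc <;> split_ifs <;> omega
  · have e1 : 2 * b % 3 = 1 := by omega
    have e2 : b % 3 = 2 := by omega
    rw [e1, e2]
    rcases hc with hc | hc <;> split_ifs <;> omega

lemma ag2 {l m f e : ℕ} (hz : Z + Z' = f + (l + 2 * m)) (hf : f ≤ 2 * e) :
    3 * al2 U b + 3 * (b % 3) + 2 * b % 3 ≤ 6 * B + 2 * b + 6 * e := by
  have hc := ar_cases h
  unfold al2
  obtain ⟨j, hj⟩ : ∃ j, b = 3 * j ∨ b = 3 * j + 1 ∨ b = 3 * j + 2 := ⟨b / 3, by omega⟩
  rcases hj with hj | hj | hj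
  · have e1 : 2 * b % 3 = 0 := by omega
    have e2 : b % 3 = 0 := by omega
    rw [e1, e2]
    rcases hc with hc | hc <;> split_ifs <;> omega
  · have e1 : 2 * b % 3 = 2 := by omega
    have e2 : b % 3 = 1 := by omega
    rw [e1, e2]
    rcases hc with hc | hc <;> split_ifs <;> omega
  · have e1 : 2 * b % 3 = 1 := by omega
    have e2 : b % 3 = 2 := by omega
    rw [e1, e2]
    rcases hc with hc | hc <;> split_ifs <;> omega

lemma ag3 {l m f e : ℕ} (hz : Z + Z' = f + (l + 2 * m)) (hf : f ≤ 2 * e) :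
    3 * al2 U b + 6 * B + 2 * b + 2 * b % 3 ≤
      b % 3 + 6 * (i1 (R + R') + i2 (R + R')) + 6 * l + 6 * m + 6 * e := by
  have hc := ar_cases h
  unfold al2 i1 i2
  obtain ⟨j, hj⟩ : ∃ j, b = 3 * j ∨ b = 3 * j + 1 ∨ b = 3 * j + 2 := ⟨b / 3, by omega⟩
  rcases hj with hj | hj | hj
  · have e1 : 2 * b % 3 = 0 := by omega
    have e2 : b % 3 = 0 := by omega
    rw [e1, e2]
    rcases hc with hc | hc <;> split_ifs <;> omega
  · have e1 : 2 * b % 3 = 2 := by omega
    have e2 : b % 3 = 1 := by omega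
    rw [e1, e2]
    rcases hc with hc | hc <;> split_ifs <;> omega
  · have e1 : 2 * b % 3 = 1 := by omega
    have e2 : b % 3 = 2 := by omega
    rw [e1, e2]
    rcases hc with hc | hc <;> split_ifs <;> omega

lemma ag4 {l m f e : ℕ} (hz : Z + Z' = f + (l + 2 * m)) (hf : f ≤ 2 * e) :
    3 * al2 U b + 3 * (b % 3) + 2 * b % 3 + 6 * (i1 (R + R') + i2 (R + R')) ≤
      6 * B + 2 * b + 6 * l + 6 * min m 1 + 6 * e := by
  have hc := ar_cases h
  unfold al2 i1 i2
  obtain ⟨j, hj⟩ : ∃ j, b = 3 * j ∨ b = 3 * j + 1 ∨ b = 3 * j + 2 := ⟨b / 3, by omega⟩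
  rcases hj with hj | hj | hj
  · have e1 : 2 * b % 3 = 0 := by omega
    have e2 : b % 3 = 0 := by omega
    rw [e1, e2]
    rcases hc with hc | hc <;> split_ifs <;> omega
  · have e1 : 2 * b % 3 = 2 := by omega
    have e2 : b % 3 = 1 := by omega
    rw [e1, e2]
    rcases hc with hc | hc <;> split_ifs <;> omega
  · have e1 : 2 * b % 3 = 1 := by omega
    have e2 : b % 3 = 2 := by omega
    rw [e1, e2]
    rcases hc with hc | hc <;> split_ifs <;> omega

end ar

section main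

variable {P : Pf} (hP : ∀ p ∈ SP P, LocP P p)
include hP

variable {e₀ l m : Eis} (he0 : e₀ ≠ 0) (he : ∀ p ∈ SP P, ¬ p ^ 3 ∣ e₀)
  (hz : ∀ p ∈ SP P, multiplicity p P.Z + multiplicity p P.Z' =
    multiplicity p e₀ + (multiplicity p l + 2 * multiplicity p m))
include he0 he hz

open Classical in
omit hP hz in
lemma f_le : ∀ p ∈ SP P, multiplicity p e₀ ≤ 2 * (if p ∣ e₀ then 1 else 0) := by
  intro p hp
  have hpp : Prime p := (isPP_of_mem_pp hp).prime
  split_ifs with h1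
  · have h2 : ¬ 3 ≤ multiplicity p e₀ := fun h3 => he p hp ((pow_dvd_iff hpp he0).mpr h3)
    omega
  · rw [mult_eq_zero hpp he0 h1]

/-- **G1** -/
theorem G1 : 9 * alS P + 7 * tauS P + lqS P ≤
    6 * R1S P + 12 * R2S P + 6 * lS P l + 24 * m1S P m + 24 * eS e₀ P := by
  classical
  have h := sum_le (S := SP P)
    (f := fun p => 9 * al2 (multiplicity p (P.F * P.R' * P.Z')) (multiplicity p P.b) +
      7 * (multiplicity p P.b % 3) + 2 * multiplicity p P.b % 3)
    (g := fun p => 6 * i1 (multiplicity p P.R + multiplicity p P.R') +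
      12 * i2 (multiplicity p P.R + multiplicity p P.R') + 6 * multiplicity p l +
      24 * min (multiplicity p m) 1 + 24 * (if p ∣ e₀ then 1 else 0))
    fun p hp => ag1 (ar_of (hP p hp)) (hz p hp) (f_le he0 he p hp)
  rw [alS_nat]
  unfold tauS lqS R1S R2S lS m1S eS
  push_cast at h ⊢
  simp only [Finset.mul_sum, ← Finset.sum_add_distrib]
  refine le_trans (le_of_eq ?_) (h.trans (le_of_eq ?_)) <;>
    exact Finset.sum_congr rfl fun p _ => by ring

/-- **G2** -/
theorem G2 : 3 * alS P + 3 * tauS P + lqS P ≤ 6 * BS P + 2 * bS P + 6 * eS e₀ P := by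
  classical
  have h := sum_le (S := SP P)
    (f := fun p => 3 * al2 (multiplicity p (P.F * P.R' * P.Z')) (multiplicity p P.b) +
      3 * (multiplicity p P.b % 3) + 2 * multiplicity p P.b % 3)
    (g := fun p => 6 * multiplicity p P.B + 2 * multiplicity p P.b +
      6 * (if p ∣ e₀ then 1 else 0))
    fun p hp => ag2 (ar_of (hP p hp)) (hz p hp) (f_le he0 he p hp)
  rw [alS_nat]
  unfold tauS lqS BS bS eS
  push_cast at h ⊢
  simp only [Finset.mul_sum, ← Finset.sum_add_distrib]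
  refine le_trans (le_of_eq ?_) (h.trans (le_of_eq ?_)) <;>
    exact Finset.sum_congr rfl fun p _ => by ring

/-- **G3** -/
theorem G3 : 3 * alS P + 6 * BS P + 2 * bS P + lqS P ≤
    tauS P + 6 * (R1S P + R2S P) + 6 * lS P l + 6 * lS P m + 6 * eS e₀ P := by
  classical
  have h := sum_le (S := SP P)
    (f := fun p => 3 * al2 (multiplicity p (P.F * P.R' * P.Z')) (multiplicity p P.b) +
      6 * multiplicity p P.B + 2 * multiplicity p P.b + 2 * multiplicity p P.b % 3)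
    (g := fun p => multiplicity p P.b % 3 +
      6 * (i1 (multiplicity p P.R + multiplicity p P.R') +
        i2 (multiplicity p P.R + multiplicity p P.R')) + 6 * multiplicity p l +
      6 * multiplicity p m + 6 * (if p ∣ e₀ then 1 else 0))
    fun p hp => ag3 (ar_of (hP p hp)) (hz p hp) (f_le he0 he p hp)
  rw [alS_nat]
  unfold tauS lqS R1S R2S BS bS lS eS
  push_cast at h ⊢
  simp only [mul_add, Finset.mul_sum, ← Finset.sum_add_distrib]
  refine le_trans (le_of_eq ?_) (h.trans (le_of_eq ?_)) <;>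
    exact Finset.sum_congr rfl fun p _ => by ring

/-- **G4** -/
theorem G4 : 3 * alS P + 3 * tauS P + lqS P + 6 * (R1S P + R2S P) ≤
    6 * BS P + 2 * bS P + 6 * lS P l + 6 * m1S P m + 6 * eS e₀ P := by
  classical
  have h := sum_le (S := SP P)
    (f := fun p => 3 * al2 (multiplicity p (P.F * P.R' * P.Z')) (multiplicity p P.b) +
      3 * (multiplicity p P.b % 3) + 2 * multiplicity p P.b % 3 +
      6 * (i1 (multiplicity p P.R + multiplicity p P.R') +
        i2 (multiplicity p P.R + multiplicity p P.R')))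
    (g := fun p => 6 * multiplicity p P.B + 2 * multiplicity p P.b + 6 * multiplicity p l +
      6 * min (multiplicity p m) 1 + 6 * (if p ∣ e₀ then 1 else 0))
    fun p hp => ag4 (ar_of (hP p hp)) (hz p hp) (f_le he0 he p hp)
  rw [alS_nat]
  unfold tauS lqS R1S R2S BS bS lS m1S eS
  push_cast at h ⊢
  simp only [mul_add, Finset.mul_sum, ← Finset.sum_add_distrib]
  refine le_trans (le_of_eq ?_) (h.trans (le_of_eq ?_)) <;>
    exact Finset.sum_congr rfl fun p _ => by ring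

end main

/-! ### all nine, with the primes of `b₁` in `f` -/

/-- the nine inequalities, sums `al, B, b, tau, lq, R1, R2, l, m1, m2, E` -/
structure Nine (al B b tau lq R1 R2 l m1 m2 E : ℝ) : Prop where
  F1 : 3 * al + 3 * lq ≤ 6 * B + 2 * b + tau
  F2 : tau + 3 * m1 ≤ 3 * B + b
  F3 : 3 * al + 12 * B + 4 * b + tau ≤
    lq + 6 * (R1 + 2 * R2) + 6 * l + 12 * (m1 + m2) + 12 * E
  F4 : 2 * tau + 3 * (R1 + 2 * R2) ≤ 6 * B + 2 * b
  F5 : tau ≤ 2 * lq
  G1 : 9 * al + 7 * tau + lq ≤ 6 * R1 + 12 * R2 + 6 * l + 24 * m1 + 24 * E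
  G2 : 3 * al + 3 * tau + lq ≤ 6 * B + 2 * b + 6 * E
  G3 : 3 * al + 6 * B + 2 * b + lq ≤ tau + 6 * (R1 + R2) + 6 * l + 6 * (m1 + m2) + 6 * E
  G4 : 3 * al + 3 * tau + lq + 6 * (R1 + R2) ≤ 6 * B + 2 * b + 6 * l + 6 * m1 + 6 * E

/-- the type of the primes of `b₁` in `f` (any mass `w`) does not change the inequalities -/
lemma Nine.add {al B b tau lq R1 R2 l m1 m2 E : ℝ} (h : Nine al B b tau lq R1 R2 l m1 m2 E)
    (w : ℝ) : Nine (al + w) B (b + 2 * w) (tau + 2 * w) (lq + w) R1 R2 l m1 m2 (E + w) where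
  F1 := by linarith [h.F1]
  F2 := by linarith [h.F2]
  F3 := by linarith [h.F3]
  F4 := by linarith [h.F4]
  F5 := by linarith [h.F5]
  G1 := by linarith [h.G1]
  G2 := by linarith [h.G2]
  G3 := by linarith [h.G3]
  G4 := by linarith [h.G4]

section terms

variable {O : Type} {M : Eis} {t : Tm O} {e₀ z f1 f2 f3 D1' Z'' l m : Eis}

/-- **the nine inequalities of a splitting** -/
theorem nine_of (s : Spl M e₀ z t f1 f2 f3 D1' Z'' l m) (h : Facts M t) (hok : t.OK M 1)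
    (he : ∀ p : Eis, Prime p → ¬ p ^ 3 ∣ e₀) :
    Nine (alS (pf t)) (BS (pf t)) (bS (pf t)) (tauS (pf t)) (lqS (pf t)) (R1S (pf t))
      (R2S (pf t)) (lS (pf t) l) (m1S (pf t) m) (m2S (pf t) m) (eS e₀ (pf t)) := by
  have hl := locP_of h
  have h0 := spl_e0 s h hok
  have hz : ∀ p ∈ SP (pf t), multiplicity p (pf t).Z + multiplicity p (pf t).Z' =
      multiplicity p e₀ + (multiplicity p l + 2 * multiplicity p m) :=
    fun p hp => spl_pf s h hok hp
  have he' : ∀ p ∈ SP (pf t), ¬ p ^ 3 ∣ e₀ := fun p hp => he p (isPP_of_mem_pp hp).prime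
  have f3 := F3 hl h0 he' hz
  have f4 := F4 hl
  have g3 := G3 hl h0 he' hz
  rw [RS_eq hl, lS_m (pf t) m] at f3
  rw [RS_eq hl] at f4
  rw [lS_m (pf t) m] at g3
  exact ⟨F1 hl, F2 hl hz, f3, f4, F5 _, G1 hl h0 he' hz, G2 hl h0 he' hz, g3, G4 hl h0 he' hz⟩

/-- **the same with the primes of `b₁` in `f2`** -/
theorem nine_bf (s : Spl M e₀ z t f1 f2 f3 D1' Z'' l m) (h : Facts M t) (hok : t.OK M 1)
    (he : ∀ p : Eis, Prime p → ¬ p ^ 3 ∣ e₀) :
    Nine (alS (pf t) + bfS t f2) (BS (pf t)) (bS (pf t) + 2 * bfS t f2)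
      (tauS (pf t) + 2 * bfS t f2) (lqS (pf t) + bfS t f2) (R1S (pf t))
      (R2S (pf t)) (lS (pf t) l) (m1S (pf t) m) (m2S (pf t) m) (eS e₀ (pf t) + bfS t f2) :=
  (nine_of s h hok he).add _

end terms

end Crest.Agent.R017.E4F858
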