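import Crest.Agent.R017.E4Hk_842

/-!
# Row 17, E4: the x-side in the large sieve range, at a fixed square part of the modulus (helper679)

* `sk g₀ k` : the product of the primes `p ∣ g₀` with `p² ∣ k`
* `sk_mul_sq` : `sk g₀ (a s²) = bpt g₀ s`
* `Qg`, `one_sdG`, `sd_hbG` : helper842's `sd_hbS` over the moduli with `sk g₀ k = s₁`
* `Qdm`, `QER`, `jx_oneM` : one prefix `P = R R'`
-/

set_option autoImplicit false
set_option maxHeartbeats 400000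

noncomputable section

open Complex
open scoped ComplexConjugate Classical

namespace Crest.Agent.R017.JxS679

open Crest.Agent.R012 Crest.Agent.R012.Eis
open Crest.Agent.R012.Mob705 (pp mem_pp IsPP prod_pp)
open Crest.Agent.R012.LS2 (S mem_S HB Final)
open Crest.Agent.R012.Div277 (dvs mem_dvs isPrim_of_mem_dvs dvd_of_mem_dvs tau tau_le_rpow
  sum_inv_primBall_le poly_log_le)
open Crest.Agent.R012.GaussLoc283 (syAx)
open Crest.Agent.R017.CM106 (CS)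
open Crest.Agent.R017.PX764 (norm_sy_le' n6 th Gh)
open Crest.Agent.R017.E1551 (nmpos nm_ge_one)
open Crest.Agent.R017.C70 (CbF JC)
open Crest.Agent.R017.E4352 (Sd tws)
open Crest.Agent.R017.E4o502 (vD)
open Crest.Agent.R017.E4y92 (Vr Sd_sq)
open Crest.Agent.R017.E3P842 (CS_smul_sy)
open Crest.Agent.R017.E4579 (SupB bpt bco bpt_prim bpt_sup bpt_dvd bpt_mul bpt_mul_bco bco_cop
  bco_prim bpt_eq)
open Crest.Agent.R017.JxB679 (Ex Ex_nonneg Dk_sub)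
open Crest.Agent.R017.JxH679 (sum_le_of_inj)
open Crest.Agent.R017.GHB842

/-! ### the square part of the modulus -/

/-- the product of the primes `p ∣ g₀` with `p² ∣ k` -/
def sk (g₀ k : Eis) : Eis := ∏ p ∈ (pp g₀).filter (fun p => p ^ 2 ∣ k), p

lemma sk_prim (g₀ k : Eis) : IsPrim (sk g₀ k) := by
  unfold sk
  have h : Mob705.PPSet ((pp g₀).filter (fun p => p ^ 2 ∣ k)) := fun p hp =>
    Mob705.isPP_of_mem_pp (Finset.mem_filter.mp hp).1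
  exact h.isPrim_prod

/-- `sk g₀ (a s²)` -/
lemma sk_mul_sq {g₀ a s : Eis} (hg : IsPrim g₀) (ha : Squarefree a) (hs : IsPrim s)
    (hss : Squarefree s) : sk g₀ (a * s ^ 2) = bpt g₀ s := by
  have hb := bpt_prim hg hs
  have hbs : Squarefree (bpt g₀ s) := hss.squarefree_of_dvd (bpt_dvd hg hs)
  have e1 : (pp g₀).filter (fun p => p ^ 2 ∣ a * s ^ 2) = pp (bpt g₀ s) := by
    ext p
    rw [Finset.mem_filter, mem_pp hg.ne_zero, mem_pp hb.ne_zero]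
    constructor
    · rintro ⟨⟨h1, h2⟩, h3⟩
      refine ⟨h1, ?_⟩
      have h4 : p ∣ s := by
        by_contra h5
        have h6 : IsCoprime p s := (h1.2.irreducible.coprime_iff_not_dvd).mpr h5
        have h7 : p ^ 2 ∣ a := (h6.pow (m := 2) (n := 2)).dvd_of_dvd_mul_right h3
        rw [pow_two] at h7
        exact h1.2.not_isUnit (ha p h7)
      have h8 : p ∣ bpt g₀ s * bco g₀ s := by rw [bpt_mul_bco hg hs]; exact h4
      rcases h1.2.dvd_or_dvd h8 with h9 | h9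
      · exact h9
      · exact absurd ((bco_cop hg hs).isUnit_of_dvd' h9 h2) h1.2.not_isUnit
    · rintro ⟨h1, h2⟩
      refine ⟨⟨h1, bpt_sup hg hs p h1.2 h2⟩, ?_⟩
      exact (pow_dvd_pow_of_dvd (h2.trans (bpt_dvd hg hs)) 2).mul_left _
  unfold sk
  rw [e1]
  exact prod_pp hb hbs


/-! ### the norm -/

/-- the large sieve norm at the square part `s₁` -/
def Qg (K V B : ℝ) (S₀ g₀ s₁ : Eis) (d : ℝ) (r : Eis) : ℝ :=
  K / nm s₁ + V * B * min (min 1 ((nm s₁ : ℝ) / nm (bpt g₀ r))) (√K / nm (bpt S₀ r)) / d ^ 2 +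
    (K * (V * B / ((nm (bpt S₀ r) : ℝ) * d ^ 2))) ^ ((2 : ℝ) / 3) / (nm s₁ : ℝ) ^ ((1 : ℝ) / 3)

lemma Qg_nonneg {K V B d : ℝ} {S₀ g₀ s₁ r : Eis} (hK : 0 ≤ K) (hV : 0 ≤ V) (hB : 0 ≤ B) :
    0 ≤ Qg K V B S₀ g₀ s₁ d r := by
  unfold Qg
  have h1 : (0 : ℝ) ≤ nm (bpt S₀ r) := Nat.cast_nonneg _
  have h2 : (0 : ℝ) ≤ nm (bpt g₀ r) := Nat.cast_nonneg _
  have h3 : (0 : ℝ) ≤ nm s₁ := Nat.cast_nonneg _
  positivity

lemma alg_sG {K VB s s₁ d g t : ℝ} (hK : 0 ≤ K) (hV : 0 ≤ VB) (hs₁ : 1 ≤ s₁) (hs : s₁ ≤ s)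
    (hd : 1 ≤ d) (hg : 1 ≤ g) (ht : 1 ≤ t) (htg : t ≤ s * g) :
    s * (K / s ^ 2 + VB / (s * d ^ 2 * g) + (K / s ^ 2 * (VB / (s * d ^ 2 * g))) ^ ((2 : ℝ) / 3)) ≤
      K / s₁ + VB / (g * d ^ 2) +
        (K * (VB / (t * d ^ 2))) ^ ((2 : ℝ) / 3) / s₁ ^ ((1 : ℝ) / 3) := by
  have s0 : 0 < s := by linarith
  have s10 : 0 < s₁ := by linarith
  have d0 : 0 < d := by linarith
  have g0 : 0 < g := by linarith
  have t0 : 0 < t := by linarith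
  have e3 : (K / s ^ 2 * (VB / (s * d ^ 2 * g))) ^ ((2 : ℝ) / 3) =
      (K * (VB / (g * d ^ 2))) ^ ((2 : ℝ) / 3) * (s ^ 2)⁻¹ := by
    have h1 : K / s ^ 2 * (VB / (s * d ^ 2 * g)) = (K * (VB / (g * d ^ 2))) * (s ^ 3)⁻¹ := by
      field_simp
    have h2 : ((s ^ 3)⁻¹) ^ ((2 : ℝ) / 3) = (s ^ 2)⁻¹ := by
      rw [Real.inv_rpow (by positivity), ← Real.rpow_natCast s 3, ← Real.rpow_mul s0.le,
        ← Real.rpow_natCast s 2]
      norm_num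
    rw [h1, Real.mul_rpow (by positivity) (by positivity), h2]
  rw [e3]
  have e4 : (K * (VB / (g * d ^ 2))) ^ ((2 : ℝ) / 3) ≤
      (K * (VB / (t * d ^ 2))) ^ ((2 : ℝ) / 3) * s ^ ((2 : ℝ) / 3) := by
    have h1 : K * (VB / (g * d ^ 2)) ≤ (K * (VB / (t * d ^ 2))) * s := by
      have e5 : (K * (VB / (t * d ^ 2))) * s = K * VB * s / (t * d ^ 2) := by ring
      have e6 : K * (VB / (g * d ^ 2)) = K * VB / (g * d ^ 2) := by ring
      rw [e5, e6, div_le_div_iff₀ (by positivity) (by positivity)]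
      have : K * VB * (t * d ^ 2) ≤ K * VB * ((s * g) * d ^ 2) := by gcongr
      calc K * VB * (t * d ^ 2) ≤ K * VB * ((s * g) * d ^ 2) := this
        _ = K * VB * s * (g * d ^ 2) := by ring
    calc (K * (VB / (g * d ^ 2))) ^ ((2 : ℝ) / 3)
        ≤ ((K * (VB / (t * d ^ 2))) * s) ^ ((2 : ℝ) / 3) :=
          Real.rpow_le_rpow (by positivity) h1 (by norm_num)
      _ = (K * (VB / (t * d ^ 2))) ^ ((2 : ℝ) / 3) * s ^ ((2 : ℝ) / 3) :=
          Real.mul_rpow (by positivity) (by positivity)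
  set Z := (K * (VB / (g * d ^ 2))) ^ ((2 : ℝ) / 3) with hZ
  set Z' := (K * (VB / (t * d ^ 2))) ^ ((2 : ℝ) / 3) with hZ'
  have hZ0 : 0 ≤ Z := by positivity
  have hZ'0 : 0 ≤ Z' := by positivity
  have t1 : s * (K / s ^ 2) ≤ K / s₁ := by
    have : s * (K / s ^ 2) = K / s := by field_simp
    rw [this]; exact div_le_div_of_nonneg_left hK s10 hs
  have t2 : s * (VB / (s * d ^ 2 * g)) = VB / (g * d ^ 2) := by
    field_simp
  have t3 : s * (Z * (s ^ 2)⁻¹) ≤ Z' / s₁ ^ ((1 : ℝ) / 3) := by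
    have h1 : s * (Z * (s ^ 2)⁻¹) = Z / s := by field_simp
    have h2 : s ^ ((2 : ℝ) / 3) * s ^ ((1 : ℝ) / 3) = s := by
      rw [← Real.rpow_add s0]
      norm_num
    have h3 : 0 < s ^ ((1 : ℝ) / 3) := by positivity
    have h4 : s₁ ^ ((1 : ℝ) / 3) ≤ s ^ ((1 : ℝ) / 3) :=
      Real.rpow_le_rpow s10.le hs (by norm_num)
    have h5 : 0 < s₁ ^ ((1 : ℝ) / 3) := by positivity
    rw [h1]
    calc Z / s ≤ Z' * s ^ ((2 : ℝ) / 3) / s := div_le_div_of_nonneg_right e4 s0.le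
      _ = Z' / s ^ ((1 : ℝ) / 3) := by
          rw [div_eq_div_iff s0.ne' h3.ne', mul_assoc, h2]
      _ ≤ Z' / s₁ ^ ((1 : ℝ) / 3) := div_le_div_of_nonneg_left hZ'0 h5 h4
  calc s * (K / s ^ 2 + VB / (s * d ^ 2 * g) + Z * (s ^ 2)⁻¹) =
      s * (K / s ^ 2) + s * (VB / (s * d ^ 2 * g)) + s * (Z * (s ^ 2)⁻¹) := by ring
    _ ≤ _ := by rw [t2]; linarith

/-- one pair `(s, δ)` -/
lemma one_sdG {ε C : ℝ} (hε : 0 ≤ ε) (hC0 : 0 ≤ C) (hC : ∀ M N : ℝ, 1 ≤ M → 1 ≤ N →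
    HB M N (C * (M * N) ^ ε * (M + N + (M * N) ^ ((2 : ℝ) / 3)))) {K V B : ℝ} (hK : 1 ≤ K)
    (hV : 1 ≤ V) (hB : 1 ≤ B) {v b : Eis → ℂ}
    (hv : ∀ x, v x ≠ 0 → IsPrim x ∧ CbF x ∧ (nm x : ℝ) ≤ V)
    (hb : ∀ n, b n ≠ 0 → n ∈ primBall ⌊B⌋₊) {Mb : ℝ} (hMb0 : 0 ≤ Mb)
    (hMb : ∀ s, IsPrim s → ∑ d ∈ primBall ⌊B⌋₊, ‖b (s * d)‖ ^ 2 ≤ Mb / nm s) {τ : ℝ}
    (hτ : ∀ u ∈ primBall ⌊V * B⌋₊, (tau u : ℝ) ≤ τ) (hτ0 : 0 ≤ τ) {s δ S₀ g₀ s₁ : Eis} (hs : IsPrim s)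
    (hδ : IsPrim δ) (hS : IsPrim S₀) (hg₀ : IsPrim g₀)
    (hgS : ∀ p : Eis, Prime p → p ∣ g₀ → p ∣ S₀) (hs₁ : bpt g₀ s = s₁) :
    (nm s : ℝ) * ∑ a ∈ S (K / (nm s : ℝ) ^ 2), ‖CS (Vr v s δ) a * CS b (a * s ^ 2)‖ ^ 2 ≤
      ((dvs S₀).card : ℝ) * (WW C ε τ K V B * Mb) *
        ∑ r ∈ S V, Qg K V B S₀ g₀ s₁ (nm δ) (s * r) * ‖Vr v s δ r‖ ^ 2 := by
  have hs₁p : IsPrim s₁ := hs₁ ▸ bpt_prim hg₀ hs
  have hs₁1 : (1 : ℝ) ≤ nm s₁ := nm_ge_one hs₁p.ne_zero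
  have hs₁s : (nm s₁ : ℝ) ≤ nm s := by
    rw [← hs₁]
    exact_mod_cast Div277.nm_le_of_dvd hs.ne_zero (bpt_dvd hg₀ hs)
  have hV0 : 0 ≤ V := by linarith
  have hB0 : 0 ≤ B := by linarith
  have hK0 : 0 ≤ K := by linarith
  have hs1 : (1 : ℝ) ≤ nm s := nm_ge_one hs.ne_zero
  have hd1 : (1 : ℝ) ≤ nm δ := nm_ge_one hδ.ne_zero
  set σ : ℝ := (nm s : ℝ) with hσ
  set d : ℝ := (nm δ : ℝ) with hd
  set K' : ℝ := K / σ ^ 2 with hK'
  have hK'0 : 0 ≤ K' := by positivity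
  by_cases hsK : K < σ ^ 2
  · have hK'1 : K' < 1 := by rw [hK', div_lt_one (by positivity)]; exact hsK
    have h0 : S K' = ∅ := by
      rw [Finset.eq_empty_iff_forall_notMem]
      intro k hk
      obtain ⟨k1, k2, k3⟩ := (mem_S hK'0).1 hk
      have : (1 : ℝ) ≤ nm k := nm_ge_one k2.ne_zero
      linarith
    rw [h0, Finset.sum_empty, mul_zero]
    have hVB1 : 1 ≤ V * B := by nlinarith
    have h1 := Real.log_nonneg hB
    have h2 := Real.log_nonneg hVB1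
    have hWW : 0 ≤ WW C ε τ K V B := by unfold WW; positivity
    refine mul_nonneg (mul_nonneg (Nat.cast_nonneg _) (mul_nonneg hWW hMb0))
      (Finset.sum_nonneg fun r _ => ?_)
    have := Qg_nonneg (S₀ := S₀) (g₀ := g₀) (s₁ := s₁) (r := s * r) (d := d) hK0 hV0 hB0
    positivity
  push Not at hsK
  have hsK' : σ ≤ √K := Real.le_sqrt_of_sq_le hsK
  have hlogB := Real.log_nonneg hB
  have hVB1 : 1 ≤ V * B := by nlinarith
  have hlogVB := Real.log_nonneg hVB1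
  have hWW0 : 0 ≤ WW C ε τ K V B := by unfold WW; positivity
  set W := Vr v s δ with hW
  have hWm : ∀ n, W n ≠ 0 → n ∈ S V := by
    intro n hn
    obtain ⟨⟨g1, g2, g3, g4⟩, g5⟩ := Vr_ne hn
    have g6 := (hv _ g5).2.2
    refine (mem_S hV0).2 ⟨le_trans ?_ g6, g1, g2⟩
    rw [nm_mul, nm_mul, nm_pow]
    push_cast
    have h1 : (1 : ℝ) ≤ d ^ 2 := one_le_pow₀ hd1
    have h2 : (0 : ℝ) ≤ nm n := Nat.cast_nonneg _
    calc (nm n : ℝ) = 1 * (nm n * 1) := by ring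
      _ ≤ σ * (nm n * d ^ 2) := by gcongr
  set b' : Eis → ℂ := fun n => b n * sy (s ^ 2) n with hb'
  have hbp : ∀ n, b n ≠ 0 → IsPrim n := fun n hn => (mem_primBall.mp (hb n hn)).2
  have e0 : ∀ a, CS b (a * s ^ 2) = CS b' a := fun a => by
    rw [hb', ← CS_smul_sy hbp]
    congr 1
    ring
  simp only [e0]
  -- one `S₀`-part
  set Fs : Eis → ℝ := fun g => K / nm s₁ + V * B / ((nm g : ℝ) * d ^ 2) +
    (K * (V * B / ((nm (bpt S₀ s * g) : ℝ) * d ^ 2))) ^ ((2 : ℝ) / 3) /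
      (nm s₁ : ℝ) ^ ((1 : ℝ) / 3) with hFs
  have hFs0 : ∀ g, 0 ≤ Fs g := fun g => by
    rw [hFs]
    have : (0 : ℝ) ≤ nm (bpt S₀ s * g) := Nat.cast_nonneg _
    have h2 : (0 : ℝ) ≤ nm g := Nat.cast_nonneg _
    positivity
  have hone : ∀ g ∈ dvs S₀, σ * ∑ a ∈ S K', ‖CS (cof S₀ W g) a * CS b' a‖ ^ 2 ≤
      WW C ε τ K V B * Mb * (Fs g * ∑ r ∈ S (V / (σ * d ^ 2 * nm g)), ‖cof S₀ W g r‖ ^ 2) := by
    intro g hg
    have hgp : IsPrim g := isPrim_of_mem_dvs hg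
    have hg1 : (1 : ℝ) ≤ nm g := nm_ge_one hgp.ne_zero
    set N : ℝ := V / (σ * d ^ 2 * nm g) with hN
    have hN00 : 0 ≤ N := by positivity
    have hSN : 0 ≤ ∑ r ∈ S N, ‖cof S₀ W g r‖ ^ 2 := Finset.sum_nonneg fun _ _ => by positivity
    have hRHS : 0 ≤ WW C ε τ K V B * Mb * (Fs g * ∑ r ∈ S N, ‖cof S₀ W g r‖ ^ 2) := by
      have := hFs0 g
      positivity
    by_cases hK1 : K' < 1
    · have : S K' = ∅ := by
        rw [Finset.eq_empty_iff_forall_notMem]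
        intro k hk
        obtain ⟨k1, k2, k3⟩ := (mem_S hK'0).1 hk
        have : (1 : ℝ) ≤ nm k := nm_ge_one k2.ne_zero
        linarith
      rw [this, Finset.sum_empty, mul_zero]
      exact hRHS
    push Not at hK1
    by_cases hbe : ∀ n, cof S₀ W g n = 0
    · have : ∀ k, CS (cof S₀ W g) k = 0 := fun k => by unfold CS; simp [hbe]
      simp only [this]
      simpa using hRHS
    push Not at hbe
    obtain ⟨n₀, hn₀⟩ := hbe
    have hNmem : ∀ n, cof S₀ W g n ≠ 0 → IsPrim n ∧ Squarefree n ∧ (nm n : ℝ) ≤ N ∧ 1 ≤ N := by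
      intro n hn
      obtain ⟨c1, c2, c3⟩ := cof_ne hn
      obtain ⟨⟨g1, g2, g3, g4⟩, g5⟩ := Vr_ne c3
      have g6 := (hv _ g5).2.2
      have e1 : (nm (s * (g * n * δ ^ 2)) : ℝ) = nm n * (σ * d ^ 2 * nm g) := by
        rw [nm_mul, nm_mul, nm_mul, nm_pow]
        push_cast
        ring
      rw [e1] at g6
      have g7 : (nm n : ℝ) ≤ N := by
        rw [hN, le_div_iff₀ (by positivity)]
        exact g6
      exact ⟨c1, g2.squarefree_of_dvd (dvd_mul_left _ _), g7, (nm_ge_one c1.ne_zero).trans g7⟩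
    have hN1 : 1 ≤ N := (hNmem n₀ hn₀).2.2.2
    have hN0 : 0 ≤ N := by linarith
    have hden : (1 : ℝ) ≤ σ * d ^ 2 * nm g := by
      have h1 : (1 : ℝ) ≤ d ^ 2 := one_le_pow₀ hd1
      calc (1 : ℝ) = 1 * 1 * 1 := by ring
        _ ≤ σ * d ^ 2 * nm g := by gcongr
    have hNV : N ≤ V := div_le_self hV0 hden
    have hNB : N * B ≤ V * B := mul_le_mul_of_nonneg_right hNV hB0
    have hNB1 : 1 ≤ N * B := by nlinarith
    have hK'K : K' ≤ K := div_le_self hK0 (one_le_pow₀ hs1)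
    have key := prod_hb1 hε hC0 hC hK1 hN1 hB (β := cof S₀ W g) (b := b')
      (fun n hn => (mem_S hN0).2 ⟨(hNmem n hn).2.2.1, (hNmem n hn).1, (hNmem n hn).2.1⟩)
      (fun n hn => hb n (left_ne_zero_of_mul hn)) hMb0
      (fun u hu => by
        refine le_trans (Finset.sum_le_sum fun x hx => ?_) (hMb u hu)
        refine pow_le_pow_left₀ (norm_nonneg _) ?_ 2
        rw [hb']
        simp only [norm_mul]
        exact mul_le_of_le_one_right (norm_nonneg _)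
          (norm_sy_le' (hu.mul (mem_primBall.mp hx).2)))
      (T := τ) (fun u hu => hτ u (Div277.primBall_mono (Nat.floor_le_floor hNB) hu)) hτ0
    have w1 : (100 * (1 + Real.log B)) ^ 4 *
        ((100 * (1 + Real.log (N * B))) * (C * (K' * (N * B)) ^ ε) * τ ^ 2) ≤
        WW C ε τ K V B := by
      unfold WW
      have l1 : Real.log (N * B) ≤ Real.log (V * B) := Real.log_le_log (by linarith) hNB
      have l0 := Real.log_nonneg hNB1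
      have l2 : K' * (N * B) ≤ K * (V * B) := mul_le_mul hK'K hNB (by positivity) hK0
      have l3 : (K' * (N * B)) ^ ε ≤ (K * (V * B)) ^ ε := Real.rpow_le_rpow (by positivity) l2 hε
      gcongr
    have hbs : IsPrim (bpt S₀ s) := bpt_prim hS hs
    have hsg : (nm (bpt S₀ s * g) : ℝ) ≤ σ * nm g := by
      rw [nm_mul]
      push_cast
      refine mul_le_mul_of_nonneg_right ?_ (Nat.cast_nonneg _)
      rw [hσ]
      exact_mod_cast Div277.nm_le_of_dvd hs.ne_zero (bpt_dvd hS hs)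
    have w3 := alg_sG (K := K) (VB := V * B) (s := σ) (s₁ := nm s₁) (d := d) (g := nm g)
      (t := nm (bpt S₀ s * g)) hK0 (by positivity) hs₁1 hs₁s hd1 hg1
      (nm_ge_one (hbs.mul hgp).ne_zero) hsg
    have e6 : V * B / (σ * d ^ 2 * nm g) = N * B := by rw [hN]; ring
    rw [e6] at w3
    calc σ * ∑ a ∈ S K', ‖CS (cof S₀ W g) a * CS b' a‖ ^ 2
        ≤ σ * (WW C ε τ K V B * (Mb * (K' + N * B + (K' * (N * B)) ^ ((2 : ℝ) / 3)) *
            ∑ n ∈ S N, ‖cof S₀ W g n‖ ^ 2)) := by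
          refine mul_le_mul_of_nonneg_left (key.trans ?_) (by positivity)
          rw [← mul_assoc ((100 * (1 + Real.log B)) ^ 4)]
          exact mul_le_mul_of_nonneg_right w1 (by positivity)
      _ = WW C ε τ K V B * Mb * ((σ * (K' + N * B + (K' * (N * B)) ^ ((2 : ℝ) / 3))) *
          ∑ n ∈ S N, ‖cof S₀ W g n‖ ^ 2) := by ring
      _ ≤ WW C ε τ K V B * Mb * (Fs g * ∑ n ∈ S N, ‖cof S₀ W g n‖ ^ 2) := by
          refine mul_le_mul_of_nonneg_left (mul_le_mul_of_nonneg_right w3 hSN) (by positivity)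
  have hsum := sum_cof hV0 hWm hS Fs hFs0 (fun g => S (V / (σ * d ^ 2 * nm g)))
  calc σ * ∑ a ∈ S K', ‖CS W a * CS b' a‖ ^ 2
      ≤ σ * ∑ a ∈ S K', ((dvs S₀).card : ℝ) * ∑ g ∈ dvs S₀, ‖CS (cof S₀ W g) a * CS b' a‖ ^ 2 := by
        refine mul_le_mul_of_nonneg_left (Finset.sum_le_sum fun a _ => ?_) (by positivity)
        have h1 := CS_sq_fib hV0 hWm hS a
        rw [norm_mul, mul_pow]
        calc ‖CS W a‖ ^ 2 * ‖CS b' a‖ ^ 2
            ≤ (((dvs S₀).card : ℝ) * ∑ g ∈ dvs S₀, ‖CS (cof S₀ W g) a‖ ^ 2) * ‖CS b' a‖ ^ 2 :=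
              mul_le_mul_of_nonneg_right h1 (by positivity)
          _ = _ := by
              rw [mul_assoc, Finset.sum_mul]
              congr 1
              refine Finset.sum_congr rfl fun g _ => ?_
              rw [norm_mul, mul_pow]
    _ = ((dvs S₀).card : ℝ) * ∑ g ∈ dvs S₀, (σ * ∑ a ∈ S K', ‖CS (cof S₀ W g) a * CS b' a‖ ^ 2) := by
        rw [← Finset.mul_sum, Finset.sum_comm]
        simp_rw [← Finset.mul_sum]
        ring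
    _ ≤ ((dvs S₀).card : ℝ) * ∑ g ∈ dvs S₀, (WW C ε τ K V B * Mb *
          (Fs g * ∑ r ∈ S (V / (σ * d ^ 2 * nm g)), ‖cof S₀ W g r‖ ^ 2)) :=
        mul_le_mul_of_nonneg_left (Finset.sum_le_sum hone) (Nat.cast_nonneg _)
    _ = ((dvs S₀).card : ℝ) * (WW C ε τ K V B * Mb) * ∑ g ∈ dvs S₀,
          Fs g * ∑ r ∈ S (V / (σ * d ^ 2 * nm g)), ‖cof S₀ W g r‖ ^ 2 := by
        rw [← Finset.mul_sum]; ring
    _ ≤ ((dvs S₀).card : ℝ) * (WW C ε τ K V B * Mb) *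
          ∑ r ∈ S V, Fs (bpt S₀ r) * ‖W r‖ ^ 2 :=
        mul_le_mul_of_nonneg_left hsum (by positivity)
    _ ≤ _ := by
        refine mul_le_mul_of_nonneg_left (Finset.sum_le_sum fun r hr => ?_) (by positivity)
        have hrp := ((mem_S hV0).1 hr).2.1
        refine mul_le_mul_of_nonneg_right ?_ (by positivity)
        rw [hFs]
        unfold Qg
        simp only
        rw [(bpt_mul hS hs hrp).1, (bpt_mul hg₀ hs hrp).1, hs₁]
        have h1 : bpt g₀ r ∣ bpt S₀ r := by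
          have h2 : bpt g₀ r ∣ bpt S₀ r * bco S₀ r := by
            rw [bpt_mul_bco hS hrp]; exact bpt_dvd hg₀ hrp
          refine IsCoprime.dvd_of_dvd_mul_right ?_ h2
          refine isCoprime_of_prime_dvd (fun h' => (bpt_prim hg₀ hrp).ne_zero h'.1)
            fun p hp h3 h4 => ?_
          have h5 := hgS p hp (bpt_sup hg₀ hrp p hp h3)
          exact hp.not_isUnit ((bco_cop hS hrp).isUnit_of_dvd' h4 h5)
        have h2 : (nm (bpt g₀ r) : ℝ) ≤ nm (bpt S₀ r) := by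
          exact_mod_cast Div277.nm_le_of_dvd (bpt_prim hS hrp).ne_zero h1
        have h3 : (1 : ℝ) ≤ nm (bpt g₀ r) := nm_ge_one (bpt_prim hg₀ hrp).ne_zero
        have hbs1 : (1 : ℝ) ≤ nm (bpt S₀ s) := nm_ge_one (bpt_prim hS hs).ne_zero
        have hbr1 : (1 : ℝ) ≤ nm (bpt S₀ r) := nm_ge_one (bpt_prim hS hrp).ne_zero
        have hbs : (nm (bpt S₀ s) : ℝ) ≤ √K := by
          refine le_trans ?_ hsK'
          rw [hσ]
          exact_mod_cast Div277.nm_le_of_dvd hs.ne_zero (bpt_dvd hS hs)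
        have h5 : (1 : ℝ) / nm (bpt S₀ r) ≤ min (min 1 ((nm s₁ : ℝ) / nm (s₁ * bpt g₀ r)))
            (√K / nm (bpt S₀ s * bpt S₀ r)) := by
          refine le_min (le_min ?_ ?_) ?_
          · rw [div_le_one (by positivity)]
            exact hbr1
          · rw [nm_mul]
            push_cast
            have e7 : (nm s₁ : ℝ) / ((nm s₁ : ℝ) * nm (bpt g₀ r)) =
                1 / (nm (bpt g₀ r) : ℝ) := by
              have : (nm s₁ : ℝ) ≠ 0 := by positivity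
              field_simp
            rw [e7]
            gcongr
          · rw [nm_mul]
            push_cast
            rw [div_le_div_iff₀ (by positivity) (by positivity), one_mul]
            exact mul_le_mul_of_nonneg_right hbs (by positivity)
        have h4 : V * B / ((nm (bpt S₀ r) : ℝ) * d ^ 2) ≤
            V * B * min (min 1 ((nm s₁ : ℝ) / nm (s₁ * bpt g₀ r)))
              (√K / nm (bpt S₀ s * bpt S₀ r)) / d ^ 2 := by
          have e8 : V * B / ((nm (bpt S₀ r) : ℝ) * d ^ 2) =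
              V * B * (1 / nm (bpt S₀ r)) / d ^ 2 := by
            field_simp
          rw [e8]
          exact div_le_div_of_nonneg_right (mul_le_mul_of_nonneg_left h5 (by positivity))
            (by positivity)
        linarith

/-- the energy with the refined norm -/
def EnG (K V B : ℝ) (S₀ g₀ s₁ : Eis) (v : Eis → ℂ) (δ : Eis) : ℝ :=
  ∑ r ∈ (S V).filter (fun r => IsCoprime r δ),
    Qg K V B S₀ g₀ s₁ (nm δ) r * ‖v (r * δ ^ 2)‖ ^ 2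

lemma EnG_nonneg {K V B : ℝ} (hK : 0 ≤ K) (hV : 0 ≤ V) (hB : 0 ≤ B) (S₀ g₀ s₁ : Eis)
    (v : Eis → ℂ) (δ : Eis) : 0 ≤ EnG K V B S₀ g₀ s₁ v δ :=
  Finset.sum_nonneg fun r _ => by
    have := Qg_nonneg (S₀ := S₀) (g₀ := g₀) (s₁ := s₁) (r := r) (d := nm δ) hK hV hB
    positivity

/-- with explicit parameters -/
lemma sd_hb0G {ε C : ℝ} (hε : 0 ≤ ε) (hC0 : 0 ≤ C) (hC : ∀ M N : ℝ, 1 ≤ M → 1 ≤ N →
    HB M N (C * (M * N) ^ ε * (M + N + (M * N) ^ ((2 : ℝ) / 3)))) {K V B : ℝ} (hK : 1 ≤ K)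
    (hV : 1 ≤ V) (hB : 1 ≤ B) {v b : Eis → ℂ}
    (hv : ∀ x, v x ≠ 0 → IsPrim x ∧ CbF x ∧ (nm x : ℝ) ≤ V)
    (hb : ∀ n, b n ≠ 0 → n ∈ primBall ⌊B⌋₊) {Mb : ℝ} (hMb0 : 0 ≤ Mb)
    (hMb : ∀ s, IsPrim s → ∑ d ∈ primBall ⌊B⌋₊, ‖b (s * d)‖ ^ 2 ≤ Mb / nm s) {τ : ℝ}
    (hτ : ∀ u ∈ primBall ⌊V * B⌋₊, (tau u : ℝ) ≤ τ) (hτ0 : 0 ≤ τ) {S₀ g₀ s₁ : Eis}
    (hS : IsPrim S₀) (hg₀ : IsPrim g₀) (hgS : ∀ p : Eis, Prime p → p ∣ g₀ → p ∣ S₀) :
    ∑ d ∈ ((primBall ⌊K⌋₊).filter CbF).filter (fun d => sk g₀ d = s₁),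
        ((nm d : ℝ))⁻¹ * (‖Sd v d‖ ^ 2 * ‖CS b d‖ ^ 2) ≤
      (100 * (1 + Real.log V)) * τ * (((dvs S₀).card : ℝ) * (WW C ε τ K V B * Mb)) *
        ∑ δ ∈ S V, (nm δ : ℝ) * EnG K V B S₀ g₀ s₁ v δ := by
  have hV0 : 0 ≤ V := by linarith
  have hB0 : 0 ≤ B := by linarith
  have hK0 : 0 ≤ K := by linarith
  have hlogV := Real.log_nonneg hV
  have hlogB := Real.log_nonneg hB
  have hVB1 : 1 ≤ V * B := by nlinarith
  have hlogVB := Real.log_nonneg hVB1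
  have hWW0 : 0 ≤ WW C ε τ K V B := by unfold WW; positivity
  set L : ℝ := 100 * (1 + Real.log V) with hL
  have hL0 : 0 ≤ L := by positivity
  have hLs : ∑ s ∈ S V, (1 / (nm s : ℝ)) ≤ L := by
    calc ∑ s ∈ S V, (1 / (nm s : ℝ)) ≤ ∑ s ∈ primBall ⌊V⌋₊, (1 / (nm s : ℝ)) := by
          refine Finset.sum_le_sum_of_subset_of_nonneg ?_ fun _ _ _ => by positivity
          unfold S; exact Finset.filter_subset _ _
      _ ≤ L := by
          refine (sum_inv_primBall_le _).trans ?_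
          have hY1 : 1 ≤ ⌊V⌋₊ := Nat.le_floor (by exact_mod_cast hV)
          have : Real.log ⌊V⌋₊ ≤ Real.log V :=
            Real.log_le_log (by exact_mod_cast hY1) (Nat.floor_le hV0)
          rw [hL]; linarith
  have hP0 : ∀ s ∈ S V, s ≠ 0 := fun s hs => ((mem_S hV0).1 hs).2.1.ne_zero
  rw [Finset.sum_filter]
  have s1 := sum_CbF hK (fun d => if sk g₀ d = s₁ then
    ((nm d : ℝ))⁻¹ * (‖Sd v d‖ ^ 2 * ‖CS b d‖ ^ 2) else 0)
    (fun d => by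
      split_ifs
      · positivity
      · exact le_rfl)
  refine s1.trans ?_
  have s2 : ∀ s ∈ S K, ∑ a ∈ (S (K / (nm s : ℝ) ^ 2)).filter (fun k => IsCoprime k s),
      (if sk g₀ (a * s ^ 2) = s₁ then ((nm (a * s ^ 2) : ℝ))⁻¹ *
        (‖Sd v (a * s ^ 2)‖ ^ 2 * ‖CS b (a * s ^ 2)‖ ^ 2) else 0) ≤
      L * ∑ δ ∈ S V, (nm δ : ℝ) * (((dvs S₀).card : ℝ) * (WW C ε τ K V B * Mb) *
        ∑ r ∈ S V, Qg K V B S₀ g₀ s₁ (nm δ) (s * r) * ‖Vr v s δ r‖ ^ 2) := by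
    intro s hs
    obtain ⟨hs1, hsp, hss⟩ := (mem_S hK0).1 hs
    have hKs : 0 ≤ K / (nm s : ℝ) ^ 2 := by positivity
    have ns := nmpos hsp.ne_zero
    by_cases hbs : bpt g₀ s = s₁
    swap
    · have h0 : ∑ a ∈ (S (K / (nm s : ℝ) ^ 2)).filter (fun k => IsCoprime k s),
          (if sk g₀ (a * s ^ 2) = s₁ then ((nm (a * s ^ 2) : ℝ))⁻¹ *
            (‖Sd v (a * s ^ 2)‖ ^ 2 * ‖CS b (a * s ^ 2)‖ ^ 2) else 0) = 0 := by
        refine Finset.sum_eq_zero fun a ha => ?_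
        rw [Finset.mem_filter, mem_S hKs] at ha
        obtain ⟨⟨-, -, a3⟩, -⟩ := ha
        rw [if_neg]
        rw [sk_mul_sq hg₀ a3 hsp hss]
        exact hbs
      rw [h0]
      refine mul_nonneg hL0 (Finset.sum_nonneg fun δ _ => mul_nonneg (Nat.cast_nonneg _)
        (mul_nonneg (mul_nonneg (Nat.cast_nonneg _) (mul_nonneg hWW0 hMb0))
          (Finset.sum_nonneg fun r _ => ?_)))
      have := Qg_nonneg (S₀ := S₀) (g₀ := g₀) (s₁ := s₁) (r := s * r) (d := nm δ) hK0 hV0 hB0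
      positivity
    have hle : ∑ a ∈ (S (K / (nm s : ℝ) ^ 2)).filter (fun k => IsCoprime k s),
        (if sk g₀ (a * s ^ 2) = s₁ then ((nm (a * s ^ 2) : ℝ))⁻¹ *
          (‖Sd v (a * s ^ 2)‖ ^ 2 * ‖CS b (a * s ^ 2)‖ ^ 2) else 0) ≤
        ∑ a ∈ (S (K / (nm s : ℝ) ^ 2)).filter (fun k => IsCoprime k s),
          ((nm (a * s ^ 2) : ℝ))⁻¹ * (‖Sd v (a * s ^ 2)‖ ^ 2 * ‖CS b (a * s ^ 2)‖ ^ 2) := by
      refine Finset.sum_le_sum fun a _ => ?_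
      split_ifs
      · exact le_rfl
      · positivity
    refine hle.trans ?_
    have p1 : ∀ a ∈ (S (K / (nm s : ℝ) ^ 2)).filter (fun k => IsCoprime k s),
        ((nm (a * s ^ 2) : ℝ))⁻¹ * (‖Sd v (a * s ^ 2)‖ ^ 2 * ‖CS b (a * s ^ 2)‖ ^ 2) ≤
        L * ∑ δ ∈ S V, (nm δ : ℝ) * ((nm s : ℝ) * ‖CS (Vr v s δ) a * CS b (a * s ^ 2)‖ ^ 2) := by
      intro a ha
      rw [Finset.mem_filter, mem_S hKs] at ha
      obtain ⟨⟨a1, a2, a3⟩, a4⟩ := ha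
      have na := nmpos a2.ne_zero
      have e1 : ((nm (a * s ^ 2) : ℝ))⁻¹ * (‖Sd v (a * s ^ 2)‖ ^ 2 * ‖CS b (a * s ^ 2)‖ ^ 2) =
          (nm s : ℝ) * ‖∑ δ ∈ S V, sy (δ ^ 2) a * CS (Vr v s δ) a * CS b (a * s ^ 2)‖ ^ 2 := by
        rw [Sd_sq hV0 hsp hss a2 a3 a4 hv, nm_mul, nm_pow, ← Finset.sum_mul, norm_mul]
        push_cast
        field_simp
      rw [e1]
      have h1 := cauchy_w hP0 (fun δ => sy (δ ^ 2) a * CS (Vr v s δ) a * CS b (a * s ^ 2))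
      calc (nm s : ℝ) * ‖∑ δ ∈ S V, sy (δ ^ 2) a * CS (Vr v s δ) a * CS b (a * s ^ 2)‖ ^ 2
          ≤ (nm s : ℝ) * (L * ∑ δ ∈ S V, (nm δ : ℝ) *
              ‖CS (Vr v s δ) a * CS b (a * s ^ 2)‖ ^ 2) := by
            refine mul_le_mul_of_nonneg_left (h1.trans ?_) ns.le
            refine mul_le_mul hLs (Finset.sum_le_sum fun δ hδ => ?_)
              (Finset.sum_nonneg fun _ _ => by positivity) hL0
            refine mul_le_mul_of_nonneg_left ?_ (by positivity)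
            refine pow_le_pow_left₀ (norm_nonneg _) ?_ 2
            rw [mul_assoc, norm_mul]
            exact mul_le_of_le_one_left (norm_nonneg _) (norm_sy_le' a2)
        _ = _ := by
            rw [mul_left_comm, Finset.mul_sum]
            congr 1
            refine Finset.sum_congr rfl fun δ _ => ?_
            ring
    refine (Finset.sum_le_sum p1).trans ?_
    rw [← Finset.mul_sum, Finset.sum_comm]
    refine mul_le_mul_of_nonneg_left (Finset.sum_le_sum fun δ hδ => ?_) hL0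
    rw [← Finset.mul_sum, ← Finset.mul_sum]
    refine mul_le_mul_of_nonneg_left ?_ (by positivity)
    refine le_trans ?_ (one_sdG hε hC0 hC hK hV hB hv hb hMb0 hMb hτ hτ0 hsp
      ((mem_S hV0).1 hδ).2.1 hS hg₀ hgS hbs)
    refine mul_le_mul_of_nonneg_left ?_ ns.le
    exact Finset.sum_le_sum_of_subset_of_nonneg (Finset.filter_subset _ _)
      fun _ _ _ => by positivity
  refine (Finset.sum_le_sum s2).trans ?_
  rw [← Finset.mul_sum, Finset.sum_comm, mul_assoc L, mul_assoc L]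
  refine mul_le_mul_of_nonneg_left ?_ hL0
  rw [Finset.mul_sum]
  refine Finset.sum_le_sum fun δ hδ => ?_
  rw [← Finset.mul_sum, ← Finset.mul_sum]
  have h2 := sum_Vr_leS hV hv ((mem_S hV0).1 hδ).2.1 (τ := τ)
    (fun u hu => hτ u (Div277.primBall_mono (Nat.floor_le_floor (by nlinarith)) hu)) (S K)
    (fun s hs => ((mem_S hK0).1 hs).2) (Qg K V B S₀ g₀ s₁ (nm δ))
    (fun r => Qg_nonneg hK0 hV0 hB0)
  calc (nm δ : ℝ) * (((dvs S₀).card : ℝ) * (WW C ε τ K V B * Mb) *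
        ∑ s ∈ S K, ∑ r ∈ S V, Qg K V B S₀ g₀ s₁ (nm δ) (s * r) * ‖Vr v s δ r‖ ^ 2)
      ≤ (nm δ : ℝ) * (((dvs S₀).card : ℝ) * (WW C ε τ K V B * Mb) *
        (τ * EnG K V B S₀ g₀ s₁ v δ)) := by
        refine mul_le_mul_of_nonneg_left (mul_le_mul_of_nonneg_left h2 (by positivity))
          (by positivity)
    _ = _ := by ring

/-- **the x-side moment with a natural factor, by the large sieve, fixed square part** -/
theorem sd_hbG {ε : ℝ} (hε : 0 < ε) : ∃ C : ℝ, 0 < C ∧ ∀ X K V B Mb : ℝ,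
    1 ≤ K → 1 ≤ V → 1 ≤ B → K ≤ X → V ≤ X → B ≤ X → 0 ≤ Mb → ∀ (v b : Eis → ℂ) (S₀ g₀ s₁ : Eis),
      IsPrim S₀ → (nm S₀ : ℝ) ≤ X → IsPrim g₀ → (∀ p : Eis, Prime p → p ∣ g₀ → p ∣ S₀) →
      (∀ x, v x ≠ 0 → IsPrim x ∧ CbF x ∧ (nm x : ℝ) ≤ V) →
      (∀ n, b n ≠ 0 → n ∈ primBall ⌊B⌋₊) →
      (∀ s, IsPrim s → ∑ d ∈ primBall ⌊B⌋₊, ‖b (s * d)‖ ^ 2 ≤ Mb / nm s) →
    ∑ d ∈ ((primBall ⌊K⌋₊).filter CbF).filter (fun d => sk g₀ d = s₁),
        ((nm d : ℝ))⁻¹ * (‖Sd v d‖ ^ 2 * ‖CS b d‖ ^ 2) ≤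
      C * X ^ ε * (Mb * ∑ δ ∈ S V, (nm δ : ℝ) * EnG K V B S₀ g₀ s₁ v δ) := by
  set η : ℝ := ε / 11 with hη
  have hη0 : 0 < η := by positivity
  obtain ⟨C1, hC1, hHB⟩ := LS2.hb_final η hη0
  obtain ⟨C2, hC2, hτ⟩ := tau_le_rpow hη0
  have hC20 : 0 < C2 := by linarith
  set P6 : ℝ := (100 * (1 + ((6 : ℕ) : ℝ) / η)) ^ 6 with hP6
  have hP60 : 0 < P6 := by positivity
  refine ⟨C1 * (64 * P6) * C2 ^ 4, by positivity, ?_⟩
  intro X K V B Mb hK hV hB hKX hVX hBX hMb0 v b S₀ g₀ s₁ hS hSX hg₀ hgS hv hb hMb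
  have hX : 1 ≤ X := hK.trans hKX
  have hX0 : 0 < X := by linarith
  have hVB : V * B ≤ X ^ 2 := by
    rw [pow_two]
    exact mul_le_mul hVX hBX (by linarith) hX0.le
  set Y : ℝ := X ^ η with hY
  have hY0 : 0 < Y := by positivity
  have hYn : ∀ n : ℕ, (X ^ n) ^ η = Y ^ n := fun n => by
    rw [hY, ← Real.rpow_natCast X n, ← Real.rpow_mul hX0.le, ← Real.rpow_natCast (X ^ η) n,
      ← Real.rpow_mul hX0.le]
    congr 1
    ring
  set τ : ℝ := C2 * Y ^ 2 with hτd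
  have hτ0 : 0 ≤ τ := by positivity
  have hτ' : ∀ u ∈ primBall ⌊V * B⌋₊, (tau u : ℝ) ≤ τ := by
    intro u hu
    obtain ⟨u1, u2⟩ := mem_primBall.mp hu
    have huX : (nm u : ℝ) ≤ X ^ 2 := ((Nat.le_floor_iff (by positivity)).mp u1).trans hVB
    refine (hτ u u2.ne_zero).trans ?_
    rw [hτd, ← hYn 2]
    exact mul_le_mul_of_nonneg_left (Real.rpow_le_rpow (Nat.cast_nonneg _) huX hη0.le) hC20.le
  have htS : ((dvs S₀).card : ℝ) ≤ C2 * Y := by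
    refine (hτ S₀ hS.ne_zero).trans ?_
    exact mul_le_mul_of_nonneg_left (Real.rpow_le_rpow (Nat.cast_nonneg _) hSX hη0.le) hC20.le
  refine (sd_hb0G (s₁ := s₁) hη0.le hC1.le hHB hK hV hB hv hb hMb0 hMb hτ' hτ0 hS hg₀
    hgS).trans ?_
  set Sx : ℝ := ∑ δ ∈ S V, (nm δ : ℝ) * EnG K V B S₀ g₀ s₁ v δ with hSx
  have hSx0 : 0 ≤ Sx := Finset.sum_nonneg fun δ _ => by
    have h2 := EnG_nonneg (by linarith : 0 ≤ K) (by linarith : 0 ≤ V) (by linarith : 0 ≤ B) S₀ g₀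
      s₁ v δ
    positivity
  set LX : ℝ := 200 * (1 + Real.log X) with hLX
  have lX := Real.log_nonneg hX
  have lV := Real.log_nonneg hV
  have lB := Real.log_nonneg hB
  have lVB : 0 ≤ Real.log (V * B) := Real.log_nonneg (by nlinarith)
  have l1 : Real.log V ≤ Real.log X := Real.log_le_log (by linarith) hVX
  have l2 : Real.log B ≤ Real.log X := Real.log_le_log (by linarith) hBX
  have l3 : Real.log (V * B) ≤ 2 * Real.log X := by
    rw [Real.log_mul (by linarith) (by linarith)]; linarith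
  have a1 : 100 * (1 + Real.log V) ≤ LX := by rw [hLX]; linarith
  have a2 : 100 * (1 + Real.log B) ≤ LX := by rw [hLX]; linarith
  have a3 : 100 * (1 + Real.log (V * B)) ≤ LX := by rw [hLX]; linarith
  have a4 : (K * (V * B)) ^ η ≤ Y ^ 3 := by
    rw [← hYn 3]
    refine Real.rpow_le_rpow (by positivity) ?_ hη0.le
    calc K * (V * B) ≤ X * X ^ 2 := mul_le_mul hKX hVB (by positivity) hX0.le
      _ = X ^ 3 := by ring
  have hLX0 : 0 ≤ LX := by positivity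
  have b1 : WW C1 η τ K V B ≤ LX ^ 4 * (LX * (C1 * Y ^ 3) * τ ^ 2) := by
    unfold WW
    gcongr
  have b2 : LX ^ 6 ≤ 64 * (P6 * Y) := by
    have h1 := poly_log_le 6 hX hη0
    calc LX ^ 6 = 64 * (100 * (1 + Real.log X)) ^ 6 := by rw [hLX]; ring
      _ ≤ 64 * (P6 * Y) := mul_le_mul_of_nonneg_left h1 (by norm_num)
  have b3 : X ^ ε = Y ^ 11 := by
    rw [hY, ← Real.rpow_natCast (X ^ η) 11, ← Real.rpow_mul hX0.le]
    congr 1
    rw [hη]; push_cast; ring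
  have hWW0 : 0 ≤ WW C1 η τ K V B := by unfold WW; positivity
  rw [b3]
  exact final_alg3 hC1.le hC20.le hP60.le hY0.le hLX0 hMb0 hSx0 hWW0 (Nat.cast_nonneg _) a1 htS b1 b2

/-! ### one prefix -/

open Finset

/-- the norm at the square part `s₁`, the lengths divided by `σ` resp. `σ'` -/
def Qdm (K V B σ σ' s₁ d : ℝ) : ℝ :=
  K / s₁ + V * B * min (s₁ / σ') (√K / σ) / d ^ 2 +
    (K * (V * B / (σ * d ^ 2))) ^ ((2 : ℝ) / 3) / s₁ ^ ((1 : ℝ) / 3)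

/-- the same without the second bound of the middle term -/
def Qdg (K V B σ σ' s₁ d : ℝ) : ℝ :=
  K / s₁ + V * B * s₁ / (σ' * d ^ 2) +
    (K * (V * B / (σ * d ^ 2))) ^ ((2 : ℝ) / 3) / s₁ ^ ((1 : ℝ) / 3)

lemma Qdm_nonneg {K V B σ σ' s₁ d : ℝ} (hK : 0 ≤ K) (hV : 0 ≤ V) (hB : 0 ≤ B) (hσ : 0 ≤ σ)
    (hσ' : 0 ≤ σ') (hs₁ : 0 ≤ s₁) : 0 ≤ Qdm K V B σ σ' s₁ d := by
  unfold Qdm
  have : 0 ≤ min (s₁ / σ') (√K / σ) := le_min (by positivity) (by positivity)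
  positivity

lemma Qdm_mono {K V V' B σ σ' s₁ d : ℝ} (hK : 0 ≤ K) (hV : 0 ≤ V) (hVV : V ≤ V') (hB : 0 ≤ B)
    (hσ : 0 ≤ σ) (hσ' : 0 ≤ σ') (hs₁ : 0 ≤ s₁) :
    Qdm K V B σ σ' s₁ d ≤ Qdm K V' B σ σ' s₁ d := by
  unfold Qdm
  have : 0 ≤ min (s₁ / σ') (√K / σ) := le_min (by positivity) (by positivity)
  gcongr

lemma Qdm_le {K V B σ σ' s₁ d : ℝ} (hV : 0 ≤ V) (hB : 0 ≤ B) :
    Qdm K V B σ σ' s₁ d ≤ Qdg K V B σ σ' s₁ d := by
  unfold Qdm Qdg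
  have h1 : V * B * min (s₁ / σ') (√K / σ) / d ^ 2 ≤ V * B * s₁ / (σ' * d ^ 2) := by
    have e1 : V * B * s₁ / (σ' * d ^ 2) = V * B * (s₁ / σ') / d ^ 2 := by
      rw [mul_div_assoc (V * B) s₁ (σ' * d ^ 2), ← div_div, ← mul_div_assoc (V * B)]
    rw [e1]
    exact div_le_div_of_nonneg_right (mul_le_mul_of_nonneg_left (min_le_left _ _)
      (by positivity)) (by positivity)
  linarith

/-- the norm at one element, `s₁` replaced by `min s₁ σ'` -/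
lemma Qg_le_Qdm {K V B σ σ' d : ℝ} {S₀ g₀ s₁ r : Eis} (hK : 0 ≤ K) (hV : 0 ≤ V) (hB : 0 ≤ B)
    (hσ : 0 < σ) (hσ' : 0 < σ') (hd : 0 < d) (hs₁ : IsPrim s₁) (h3 : σ ≤ nm (bpt S₀ r))
    (h3' : σ' ≤ nm (bpt g₀ r)) :
    Qg K V B S₀ g₀ s₁ d r ≤ Qdm K V B σ σ' (min (nm s₁ : ℝ) σ') d := by
  have hs1 : (1 : ℝ) ≤ nm s₁ := nm_ge_one hs₁.ne_zero
  have hs0 : (0 : ℝ) < nm s₁ := by linarith
  have hm0 : 0 < min (nm s₁ : ℝ) σ' := lt_min hs0 hσ'
  have hm1 : min (nm s₁ : ℝ) σ' ≤ nm s₁ := min_le_left _ _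
  unfold Qg Qdm
  have h5 : min (min 1 ((nm s₁ : ℝ) / nm (bpt g₀ r))) (√K / nm (bpt S₀ r)) ≤
      min (min (nm s₁ : ℝ) σ' / σ') (√K / σ) := by
    refine min_le_min ?_ ?_
    · rw [← min_div_div_right hσ'.le, div_self hσ'.ne', min_comm]
      refine min_le_min ?_ le_rfl
      gcongr
    · gcongr
  gcongr

/-- `EnG` of a twisted sequence -/
lemma EnG_le_Ex {V V' : ℝ} (hV : 0 ≤ V) (hV' : 0 ≤ V') {v : Eis → ℂ}
    (hv : ∀ x, v x ≠ 0 → IsPrim x ∧ CbF x ∧ (nm x : ℝ) ≤ V) {P q D b δ S₀ g₀ s₁ : Eis} {G : Eis → ℂ}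
    (hP : IsPrim P) (hD : IsPrim D) (hb : IsPrim b) (hG : ∀ y, IsPrim y → ‖G y‖ ≤ 1)
    (hδ : IsPrim δ) {K B σ σ' : ℝ} (hK : 0 ≤ K) (hB : 0 ≤ B) (hσ : 0 < σ) (hσ' : 0 < σ')
    (hs₁ : IsPrim s₁)
    (hs : ∀ r, IsPrim r → Squarefree r → IsCoprime r δ → v (P * (r * δ ^ 2)) ≠ 0 →
      σ ≤ nm (bpt S₀ r) ∧ σ' ≤ nm (bpt g₀ r)) :
    EnG K V' B S₀ g₀ s₁ (tws P q (fun y => sy y b * G y) (vD D v)) δ ≤
      Qdm K V' B σ σ' (min (nm s₁ : ℝ) σ') (nm δ) * Ex V v δ := by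
  have hQ0 : 0 ≤ Qdm K V' B σ σ' (min (nm s₁ : ℝ) σ') (nm δ) :=
    Qdm_nonneg hK hV' hB hσ.le hσ'.le (le_min (Nat.cast_nonneg _) hσ'.le)
  have hd0 : (0 : ℝ) < nm δ := nmpos hδ.ne_zero
  unfold EnG
  have h1 : ∀ r ∈ (S V').filter (fun r => IsCoprime r δ),
      Qg K V' B S₀ g₀ s₁ (nm δ) r * ‖tws P q (fun y => sy y b * G y) (vD D v) (r * δ ^ 2)‖ ^ 2 ≤
      Qdm K V' B σ σ' (min (nm s₁ : ℝ) σ') (nm δ) * ‖v (P * (r * δ ^ 2))‖ ^ 2 := by
    intro r hr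
    obtain ⟨hr1, hr2⟩ := mem_filter.mp hr
    obtain ⟨hr3, hrp, hrs⟩ := (mem_S hV').1 hr1
    by_cases h0 : tws P q (fun y => sy y b * G y) (vD D v) (r * δ ^ 2) = 0
    · rw [h0, norm_zero]
      have : (0 : ℝ) ≤ Qdm K V' B σ σ' (min (nm s₁ : ℝ) σ') (nm δ) *
        ‖v (P * (r * δ ^ 2))‖ ^ 2 := by positivity
      simpa using this
    · have h2 := twsD_ne h0
      obtain ⟨h3, h3'⟩ := hs r hrp hrs hr2 h2
      exact mul_le_mul (Qg_le_Qdm hK hV' hB hσ hσ' hd0 hs₁ h3 h3') (pow_le_pow_left₀ (norm_nonneg _)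
        (norm_twsD_le hP hD hb hG (hrp.mul (hδ.pow 2))) 2) (by positivity) hQ0
  refine (sum_le_sum h1).trans ?_
  rw [← mul_sum]
  refine mul_le_mul_of_nonneg_left ?_ hQ0
  unfold Ex
  have e1 : ∑ r ∈ (S V').filter (fun r => IsCoprime r δ), ‖v (P * (r * δ ^ 2))‖ ^ 2 =
      ∑ r ∈ ((S V').filter (fun r => IsCoprime r δ)).filter (fun r => v (P * (r * δ ^ 2)) ≠ 0),
        ‖v (P * (r * δ ^ 2))‖ ^ 2 := by
    symm
    refine sum_subset (filter_subset _ _) fun r hr hn => ?_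
    have : v (P * (r * δ ^ 2)) = 0 := by
      by_contra h
      exact hn (mem_filter.mpr ⟨hr, h⟩)
    rw [this, norm_zero]; norm_num
  rw [e1]
  refine sum_le_of_inj _ (fun r => P * (r * δ ^ 2)) _ ?_ ?_ (fun x => ‖v x‖ ^ 2)
    (fun x => by positivity)
  · intro r hr
    obtain ⟨-, h2⟩ := mem_filter.mp hr
    obtain ⟨g1, -, g3⟩ := hv _ h2
    exact mem_filter.mpr ⟨mem_primBall.mpr ⟨Nat.le_floor g3, g1⟩,
      (dvd_mul_left _ _).mul_left _⟩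
  · intro r _ r' _ he
    have h3 : r * δ ^ 2 = r' * δ ^ 2 := mul_left_cancel₀ hP.ne_zero he
    exact mul_right_cancel₀ (pow_ne_zero 2 hδ.ne_zero) h3

/-- `EnG` vanishes for large `δ` -/
lemma EnG_zero {V V' : ℝ} (hV' : 0 ≤ V') {v : Eis → ℂ}
    (hv : ∀ x, v x ≠ 0 → IsPrim x ∧ CbF x ∧ (nm x : ℝ) ≤ V) {P q D b δ S₀ g₀ s₁ : Eis} {G : Eis → ℂ}
    {K B σ σ' : ℝ} (hSp : IsPrim S₀)
    (hs : ∀ r, IsPrim r → Squarefree r → IsCoprime r δ → v (P * (r * δ ^ 2)) ≠ 0 →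
      σ ≤ nm (bpt S₀ r) ∧ σ' ≤ nm (bpt g₀ r)) (hn : ¬ σ * nm P * (nm δ : ℝ) ^ 2 ≤ V) :
    EnG K V' B S₀ g₀ s₁ (tws P q (fun y => sy y b * G y) (vD D v)) δ = 0 := by
  unfold EnG
  refine sum_eq_zero fun r hr => ?_
  obtain ⟨hr1, hr2⟩ := mem_filter.mp hr
  obtain ⟨hr3, hrp, hrs⟩ := (mem_S hV').1 hr1
  by_cases h0 : tws P q (fun y => sy y b * G y) (vD D v) (r * δ ^ 2) = 0
  · rw [h0, norm_zero]
    ring
  · exfalso
    have h2 := twsD_ne h0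
    obtain ⟨h3, -⟩ := hs r hrp hrs hr2 h2
    obtain ⟨-, -, h4⟩ := hv _ h2
    apply hn
    have h5 : σ ≤ nm r := h3.trans (by
      exact_mod_cast Div277.nm_le_of_dvd hrp.ne_zero (bpt_dvd hSp hrp))
    rw [nm_mul, nm_mul, nm_pow] at h4
    push_cast at h4
    calc σ * nm P * (nm δ : ℝ) ^ 2 ≤ nm r * nm P * (nm δ : ℝ) ^ 2 := by gcongr
      _ = nm P * (nm r * (nm δ : ℝ) ^ 2) := by ring
      _ ≤ V := h4

/-- the right side of one prefix, `N(R R') = P` -/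
def QER (K V P B σ σ' s₁ : ℝ) (v : Eis → ℂ) : ℝ :=
  ∑ δ ∈ (S V).filter (fun δ => σ * P * (nm δ : ℝ) ^ 2 ≤ V),
    (nm δ : ℝ) * Qdm K (V / P) B σ σ' s₁ (nm δ) * Ex V v δ

lemma QER_nonneg {K V P B σ σ' s₁ : ℝ} (hK : 0 ≤ K) (hV : 0 ≤ V) (hP : 0 ≤ P) (hB : 0 ≤ B)
    (hσ : 0 ≤ σ) (hσ' : 0 ≤ σ') (hs₁ : 0 ≤ s₁) (v : Eis → ℂ) : 0 ≤ QER K V P B σ σ' s₁ v := by
  unfold QER
  refine sum_nonneg fun δ _ => ?_
  have h1 := Qdm_nonneg (V := V / P) (d := nm δ) hK (by positivity) hB hσ hσ' hs₁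
  have h2 := Ex_nonneg V v δ
  positivity

/-- **one prefix, fixed square part** -/
theorem jx_oneM {ε : ℝ} (hε : 0 < ε) : ∃ C : ℝ, 1 ≤ C ∧ ∀ X K V B Mb σ σ' : ℝ,
    1 ≤ K → 0 ≤ V → 1 ≤ B → K ≤ X → V ≤ X → B ≤ X → 0 ≤ Mb → 0 < σ → 0 < σ' →
      ∀ (v bm G : Eis → ℂ) (P q D b S₀ g₀ s₁ : Eis), IsPrim P → IsPrim D → IsPrim b → IsPrim S₀ → (nm S₀ : ℝ) ≤ X →
      IsPrim g₀ → (∀ p : Eis, Prime p → p ∣ g₀ → p ∣ S₀) →
      (∀ y, IsPrim y → ‖G y‖ ≤ 1) →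
      (∀ x, v x ≠ 0 → IsPrim x ∧ CbF x ∧ (nm x : ℝ) ≤ V) →
      (∀ r δ, IsPrim r → IsPrim δ → Squarefree r → IsCoprime r δ → v (P * (r * δ ^ 2)) ≠ 0 →
        σ ≤ nm (bpt S₀ r) ∧ σ' ≤ nm (bpt g₀ r)) →
      (∀ n, bm n ≠ 0 → n ∈ primBall ⌊B⌋₊) →
      (∀ s, IsPrim s → ∑ d ∈ primBall ⌊B⌋₊, ‖bm (s * d)‖ ^ 2 ≤ Mb / nm s) →
    ∑ k ∈ ((primBall ⌊K⌋₊).filter CbF).filter (fun k => sk g₀ k = s₁), ((nm k : ℝ))⁻¹ *
      (‖Sd (tws P q (fun y => sy y b * G y) (vD D v)) k‖ ^ 2 * ‖CS bm k‖ ^ 2) ≤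
      C * X ^ ε * (Mb * QER K V (nm P) B σ σ' (min (nm s₁ : ℝ) σ') v) := by
  obtain ⟨C0, hC0, h⟩ := sd_hbG hε
  refine ⟨max C0 1, le_max_right _ _, ?_⟩
  intro X K V B Mb σ σ' hK hV hB hKX hVX hBX hMb0 hσ hσ' v bm G P q D b S₀ g₀ s₁ hP hD hb hS hSX
    hg₀ hgS hG hv hs hbm hMb
  have hX : 1 ≤ X := hK.trans hKX
  have hX0 : 0 < X := by linarith
  have hP1 : (1 : ℝ) ≤ nm P := by exact_mod_cast nm_pos.mpr hP.ne_zero
  have hP0 : (0 : ℝ) < nm P := by linarith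
  have hs0 : 0 ≤ min (nm s₁ : ℝ) σ' := le_min (Nat.cast_nonneg _) hσ'.le
  have hQE : 0 ≤ QER K V (nm P) B σ σ' (min (nm s₁ : ℝ) σ') v :=
    QER_nonneg (by linarith) hV hP0.le (by linarith) hσ.le hσ'.le hs0 v
  have hC : 0 < max C0 1 := by positivity
  by_cases hs₁ : IsPrim s₁
  swap
  · have e0 : ((primBall ⌊K⌋₊).filter CbF).filter (fun k => sk g₀ k = s₁) = ∅ := by
      rw [filter_eq_empty_iff]
      intro k _ hk
      exact hs₁ (hk ▸ sk_prim g₀ k)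
    rw [e0, sum_empty]
    positivity
  have hsupp : ∀ y, tws P q (fun y => sy y b * G y) (vD D v) y ≠ 0 →
      IsPrim y ∧ CbF y ∧ (nm y : ℝ) ≤ V / nm P := by
    intro y hy
    have h2 := twsD_ne hy
    obtain ⟨g1, g2, g3⟩ := hv _ h2
    refine ⟨IsPrim.of_mul_left g1 hP, CbF_of_dvd g2 (dvd_mul_left _ _), ?_⟩
    rw [nm_mul] at g3
    push_cast at g3
    rw [le_div_iff₀ hP0]
    linarith
  by_cases hV1 : 1 ≤ V / nm P
  · have hVP : V / nm P ≤ V := div_le_self hV hP1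
    refine (h X K (V / nm P) B Mb hK hV1 hB hKX (hVP.trans hVX) hBX hMb0 _ bm S₀ g₀ s₁ hS hSX hg₀ hgS
      hsupp hbm hMb).trans ?_
    have h3 : ∑ δ ∈ S (V / nm P), (nm δ : ℝ) * EnG K (V / nm P) B S₀ g₀ s₁
        (tws P q (fun y => sy y b * G y) (vD D v)) δ ≤
        QER K V (nm P) B σ σ' (min (nm s₁ : ℝ) σ') v := by
      unfold QER
      have e1 : ∑ δ ∈ S (V / nm P), (nm δ : ℝ) * EnG K (V / nm P) B S₀ g₀ s₁
          (tws P q (fun y => sy y b * G y) (vD D v)) δ =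
          ∑ δ ∈ (S (V / nm P)).filter (fun δ => σ * nm P * (nm δ : ℝ) ^ 2 ≤ V),
            (nm δ : ℝ) * EnG K (V / nm P) B S₀ g₀ s₁
          (tws P q (fun y => sy y b * G y) (vD D v)) δ := by
        symm
        refine sum_subset (filter_subset _ _) fun δ hδ hn => ?_
        have hδp : IsPrim δ := ((mem_S (by linarith)).1 hδ).2.1
        have hn' : ¬ σ * nm P * (nm δ : ℝ) ^ 2 ≤ V := fun h' => hn (mem_filter.mpr ⟨hδ, h'⟩)
        rw [EnG_zero (by linarith) hv hS (fun r h1 h2 h3 h4 => hs r δ h1 hδp h2 h3 h4) hn', mul_zero]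
      rw [e1]
      have hsub : (S (V / nm P)).filter (fun δ => σ * nm P * (nm δ : ℝ) ^ 2 ≤ V) ⊆
          (S V).filter (fun δ => σ * nm P * (nm δ : ℝ) ^ 2 ≤ V) := by
        refine filter_subset_filter _ fun δ hδ => ?_
        rw [mem_S (by linarith)] at hδ
        rw [mem_S hV]
        exact ⟨hδ.1.trans hVP, hδ.2⟩
      refine le_trans (sum_le_sum fun δ hδ => ?_) (sum_le_sum_of_subset_of_nonneg hsub
        fun δ _ _ => ?_)
      · have hδp : IsPrim δ := ((mem_S (by linarith)).1 (mem_filter.mp hδ).1).2.1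
        rw [mul_assoc]
        exact mul_le_mul_of_nonneg_left (EnG_le_Ex hV (by linarith) hv hP hD hb hG hδp
          (by linarith) (by linarith) hσ hσ' hs₁ (fun r h1 h2 h3 h4 => hs r δ h1 hδp h2 h3 h4))
          (Nat.cast_nonneg _)
      · have hq := Qdm_nonneg (K := K) (V := V / nm P) (B := B) (σ := σ) (σ' := σ')
          (s₁ := min (nm s₁ : ℝ) σ') (d := nm δ) (by linarith) (by linarith) (by linarith) hσ.le
          hσ'.le hs0
        have := Ex_nonneg V v δ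
        positivity
    calc C0 * X ^ ε * (Mb * ∑ δ ∈ S (V / nm P), (nm δ : ℝ) * EnG K (V / nm P) B S₀ g₀ s₁
          (tws P q (fun y => sy y b * G y) (vD D v)) δ)
        ≤ C0 * X ^ ε * (Mb * QER K V (nm P) B σ σ' (min (nm s₁ : ℝ) σ') v) :=
          mul_le_mul_of_nonneg_left (mul_le_mul_of_nonneg_left h3 hMb0) (by positivity)
      _ ≤ max C0 1 * X ^ ε * (Mb * QER K V (nm P) B σ σ' (min (nm s₁ : ℝ) σ') v) := by
          refine mul_le_mul_of_nonneg_right (mul_le_mul_of_nonneg_right (le_max_left _ _)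
            (by positivity)) (by positivity)
  · have hz : ∀ y, tws P q (fun y => sy y b * G y) (vD D v) y = 0 := by
      intro y
      by_contra hy
      obtain ⟨g1, -, g3⟩ := hsupp y hy
      have : (1 : ℝ) ≤ nm y := by exact_mod_cast nm_pos.mpr g1.ne_zero
      exact hV1 (this.trans g3)
    have h0 : ∀ k, Sd (tws P q (fun y => sy y b * G y) (vD D v)) k = 0 := by
      intro k
      unfold Sd
      simp only [hz, zero_mul, tsum_zero]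
    have h1 : ∑ k ∈ ((primBall ⌊K⌋₊).filter CbF).filter (fun k => sk g₀ k = s₁),
        ((nm k : ℝ))⁻¹ * (‖Sd (tws P q (fun y => sy y b * G y) (vD D v)) k‖ ^ 2 * ‖CS bm k‖ ^ 2) = 0 := by
      refine sum_eq_zero fun k _ => ?_
      rw [h0, norm_zero]
      ring
    rw [h1]
    positivity

end Crest.Agent.R017.JxS679
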