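import Mathlib

/-!
# Row 17, E4 (StrU / StrUX): the real inequality, literal text v3.7 (helper70, helper918)

All exponents in units of `log K` (`K` = family of the square, base `H`), squares.
Sources: 352 (E4Dic), 858 (E4RH), 699 (classes), 681 (XB), 679 (XHB at `p² ‖ k`), 770 (R-number),
974 / 842 / 393 (functional), 61 (GoodY), 372 (scale of class E); v3 : 974 / 743 / 842 (`tT`), 770 (`rr`,
`cnt`), 842 (`ff`), 92 (`ρ = c12 + s1` and `R2` in `XLT`).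

* `Cls` : the data of one class at one level
* `Cls.F1 ..` : the linear facts of the local types (aggregated sums)
* `Cls.rD`, `Cls.rF` : direct and dual range, `Cls.sw`, `Cls.nsw` : the switch
* `XHB`, `XLT`, `XPV` : closers of the `x`-side, `YOK` : closers of the `y`-side (61's GoodY)
* `Cls.Goal` : the inequality
-/

set_option autoImplicit false

noncomputable section

namespace Crest.Agent.R017.E4R70

/-- the data of one class; `v` = level (`2^i`), `k = log nm k` (NOT `log (lam nm k)`);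
`η = log nm D1'`, `F = log nm f1` (`D1 = f1 D1'`), `b1 = log nm b1`-part outside `f` (the part
inside `f` is a local type with `E`), `β = log nm ∏β`, `s = log nm e₀`;
outer primes `p ∣ S`, `(v_p S, v_p j)`: `G (1,0)` without `e₀`, `Y0 (1,1)`, `Y1 (2,1)`, `W (2,0)`
(`log nm β₀`, the counted part prime to `e₀`), `sW` = the `e₀`-part of `b₃`, `c02 (1,2)`,
`c12 (2,2)`, `nu` = part of `ν` prime to `S`, `s1` = `log nm ∏ {p ∣ g e₀, p² ‖ k}`;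
local types: `al = Σ 2 (1 - ρ)`, `B, b, tau = Σ (v_b mod 3), lq = Σ (2 v_b mod 3)`,
`R1, R2` = mass with `v_R + v_R' = 1, 2`, `l`, `m1 = Σ min v_m 1`, `m2 = Σ (v_m - 1)`,
`E` = mass of the primes of `f`;
`zm` = the free part of the length of `m'`, `sc` = scale (class E; `0` in class N) -/
structure Cls where
  v : ℝ
  k : ℝ
  η : ℝ
  b1 : ℝ
  F : ℝ
  β : ℝ
  s : ℝ
  G : ℝ
  Y0 : ℝ
  Y1 : ℝ
  W : ℝ
  c02 : ℝ
  c12 : ℝ
  nu : ℝ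
  al : ℝ
  B : ℝ
  b : ℝ
  tau : ℝ
  lq : ℝ
  R1 : ℝ
  R2 : ℝ
  l : ℝ
  m1 : ℝ
  m2 : ℝ
  E : ℝ
  zm : ℝ
  sW : ℝ
  sc : ℝ
  s1 : ℝ

/-- the window (base `K`) -/
def topK (N x : ℝ) : ℝ := min (2 * N - 1) (3 / 4 * N) + 9 / 4 * x

namespace Cls

variable (z : Cls) (d r N M u a c x : ℝ)

/-- the `e₀`-primes of type `(1,0)` -/
def s0 : ℝ := z.s - z.sW

/-- `log lam` -/
def lam : ℝ :=
  z.G + z.s0 + 2 * z.Y0 + 2 * z.Y1 + z.c02 + 2 * z.c12 + 3 * (z.W + z.sW) + z.nu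

/-- shift of `log (nm x lam²)` -/
def us : ℝ := 3 * (z.G + z.s0 + z.Y0 + z.Y1 + z.c12) + 6 * (z.W + z.sW)

/-- frequency of the `y`-side (the cube `b₃³` removed) -/
def ky : ℝ := z.k + z.lam - 3 * (z.W + z.sW) + 2 * z.η + 2 * z.b1 + 2 * z.F + z.tau

/-- true length of the `x`-side -/
def v1 : ℝ := z.v - z.R1 - 2 * z.R2 - z.Y0 - z.Y1 - 2 * z.c02 - 2 * z.c12 - 2 * z.nu

/-- remaining amplifier -/
def c1 : ℝ := c - z.η - z.b1 - z.l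

/-- total length of `m` -/
def m : ℝ := z.m1 + z.m2

/-- remaining pair (may be negative: Möbius pieces are eaten) -/
def M1 : ℝ := M - z.m - z.zm

/-- length of the `T`-moment -/
def N1 : ℝ := N - z.β - z.s

/-- bound of the smallest lump of the child -/
def u1 : ℝ := min u (z.N1 N / 3)

/-- main branch of the `T`-number at the level `v + s` (743's `T3`, 90's `K0`) -/
def tM : ℝ := max (2 * z.N1 N) (3 / 2 * z.N1 N + 2 / 3 * (z.v + z.s))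

/-- trivial branch of the `T`-number at the level `v + s` (792) -/
def tB : ℝ := max (z.v + z.s + z.N1 N + z.u1 N u) (5 / 3 * z.N1 N + (z.v + z.s) / 3)

/-- `T`-moment of the child list of length `N1` at the level `v + s` -/
def tT : ℝ := min (z.tM N) (z.tB N u)

/-- loss of the large sieve by the square part (792) -/
def d0 : ℝ := min (max 0 (max (z.v + z.s + z.N1 N + z.u1 N u)
  (5 / 3 * z.N1 N + 2 / 3 * (z.v + z.s)) - z.tT N u)) (z.v1 / 2)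

/-- cost of the cubes of the natural `J`, all cubes -/
def fF : ℝ := max 0 ((z.v + z.s - z.N1 N + z.u1 N u) / 3)

/-- cost of the natural `J` (842, 92: the cubes of `J` come from `ν`, `PP`) -/
def ff : ℝ := min (z.fF N u) (z.nu + z.c12 + z.Y1)

/-- number of the frequencies of the `y`-side (858) -/
def kt : ℝ := z.k + z.η + z.b1 + z.Y1 + z.c12 + z.nu


/-- `log q`, `q = nk (Q²)` -/
def lqt : ℝ := z.η + z.b1 + z.F + z.lq + 2 * (z.G + z.c12 + z.s0)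

/-- shift of the family of the R-part -/
def sh : ℝ := z.R1 - z.R2 + 2 * (z.Y0 + z.Y1) + z.c02 + z.c12 + z.nu

/-- count of the R-part -/
def cnt : ℝ := z.R1 + 2 * z.R2 + z.Y0 + z.Y1 + 2 * (z.c02 + z.c12 + z.nu)

/-- nonnegativity and lengths -/
structure Ok : Prop where
  v : 0 ≤ z.v
  k : 0 ≤ z.k
  η : 0 ≤ z.η
  b1 : 0 ≤ z.b1
  F : 0 ≤ z.F
  β : 0 ≤ z.β
  s : 0 ≤ z.s
  h64 : 64 * z.s ≤ 1
  G : 0 ≤ z.G
  Y0 : 0 ≤ z.Y0
  Y1 : 0 ≤ z.Y1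
  W : 0 ≤ z.W
  c02 : 0 ≤ z.c02
  c12 : 0 ≤ z.c12
  nu : 0 ≤ z.nu
  al : 0 ≤ z.al
  B : 0 ≤ z.B
  b : 0 ≤ z.b
  tau : 0 ≤ z.tau
  lq : 0 ≤ z.lq
  R1 : 0 ≤ z.R1
  R2 : 0 ≤ z.R2
  l : 0 ≤ z.l
  m1 : 0 ≤ z.m1
  m2 : 0 ≤ z.m2
  E : 0 ≤ z.E
  zm : 0 ≤ z.zm
  sW : 0 ≤ z.sW
  sWs : z.sW ≤ z.s
  sc : 0 ≤ z.sc
  s1 : 0 ≤ z.s1
  s1G : z.s1 ≤ z.G + z.s0
  s1k : 2 * z.s1 ≤ z.k
  /-- 858's `F1` - `F5`, `G1` - `G4` (all exponents) -/
  F1 : 3 * z.al + 3 * z.lq ≤ 6 * z.B + 2 * z.b + z.tau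
  F2 : z.tau + 3 * z.m1 ≤ 3 * z.B + z.b
  F3 : 3 * z.al + 12 * z.B + 4 * z.b + z.tau ≤
    z.lq + 6 * (z.R1 + 2 * z.R2) + 6 * z.l + 12 * z.m + 12 * z.E
  F4 : 2 * z.tau + 3 * (z.R1 + 2 * z.R2) ≤ 6 * z.B + 2 * z.b
  F5 : z.tau ≤ 2 * z.lq
  G1 : 9 * z.al + 7 * z.tau + z.lq ≤ 6 * z.R1 + 12 * z.R2 + 6 * z.l + 24 * z.m1 + 24 * z.E
  G2 : 3 * z.al + 3 * z.tau + z.lq ≤ 6 * z.B + 2 * z.b + 6 * z.E
  G3 : 3 * z.al + 6 * z.B + 2 * z.b + z.lq ≤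
    z.tau + 6 * (z.R1 + z.R2) + 6 * z.l + 6 * (z.m1 + z.m2) + 6 * z.E
  G4 : 3 * z.al + 3 * z.tau + z.lq + 6 * (z.R1 + z.R2) ≤ 6 * z.B + 2 * z.b + 6 * z.l +
    6 * z.m1 + 6 * z.E
  /-- level dependent ranges (702, 49, 699) -/
  hs : 4 * z.s ≤ topK N x - z.v + 9 / 8 * d
  hb : 2 * z.β ≤ topK N x - z.v + 9 / 8 * d
  /-- lengths of the factors -/
  hβ : z.β ≤ N + x - 1 / 2
  hv : 0 ≤ z.v1
  hc : 0 ≤ z.c1 c
  hm : z.m + z.zm ≤ M + a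
  hf : z.F + z.E ≤ z.β / 2 + 2 / 5 * (r - (N + M + a) + c)

/-- `K'` of the dual range, with the conductor of the twist -/
def K1 : ℝ := 2 * (N + M + a) + c - 2 - (2 * N - 1 - z.v) + z.β / 2 +
  2 / 5 * (r - (N + M + a) + c)

/-- direct range -/
def rD : Prop := z.k + z.lam + z.sc ≤ 1 - 2 * z.η - 2 * z.F - 2 * z.b1 - z.b - 3 * z.B

/-- dual range -/
def rF : Prop := z.k + z.lam ≤ z.K1 r N M a c + z.us + z.sc + z.η + z.F - 2 * z.b1 - z.b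

/-- the switch sum -/
def ss : ℝ := 3 * (z.η + z.B + z.F) + z.us + 3 * (z.W + z.sW) + 3 * z.sc

/-- the switch (dual side) -/
def sw : Prop := z.ss ≤ 1 - z.K1 r N M a c

/-- the switch (direct side) -/
def nsw : Prop := 1 - z.K1 r N M a c ≤ z.ss

end Cls

/-- bound of the R-number (worst child, 770) of a list of length `n` with smallest lump `≤ u` at
the family `i` -/
def rr (d i n u : ℝ) : ℝ := n + max i (i / 3) + (3 / 4 + 2 * d) * max 0 (min u (i / 2))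

/-- `x`-side: large sieve, moved mass `x` (679's `Qdm`) -/
def XHB (k v1 d0 c12 s1 x ex : ℝ) : Prop :=
  x ≤ ex + s1 ∧ x + d0 ≤ ex + s1 ∧ x + (v1 + c12 + s1 + x - k) ≤ ex ∧
    3 * x + (2 * (v1 + x) - k - s1) ≤ 3 * ex

/-- `x`-side: structured, dual length `lt` (any real), moved mass `x`; `Nq = N - β` (842's
variant A), `ρ` = bound of the `S`-part of `s` (`c12 + s1`), `f` = cost of the natural `J`, `g` = the same in front of `TW (1/2)` -/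
def XLT (d k v1 N1 Nq R1 R2 u1 lqt sh cnt tT ρ f g x ex : ℝ) : Prop :=
  ∃ lt : ℝ, lt + 1 / 20 ≤ N1 - R2 ∧ x ≤ ex ∧ x + (v1 + x - 2 / 3 * k) + f + ρ / 3 ≤ ex ∧
    x + (v1 + 2 * x - k) + f + ρ ≤ ex ∧
    x + (2 * v1 - k + lqt - lt) / 3 + f ≤ ex ∧
    x + (2 * v1 - k + lqt - lt) / 3 + (lt - v1 / 2) + g ≤ ex ∧
    x + (2 * v1 - k + lqt - lt) / 3 + lt / 2 + max 0 (v1 - (Nq - R2 + R1)) / 2 + cnt +
      rr d (Nq + lt - v1 + sh) (Nq - R2) u1 ≤ tT + ex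

/-- `x`-side: no R-part (`Ls < 1`) -/
def XPV (k v1 lqt ρ f x ex : ℝ) : Prop :=
  x = 0 ∧ 0 ≤ ex ∧ v1 - k + f + ρ ≤ ex ∧ 3 * v1 - 2 * k + 3 * f + ρ ≤ 3 * ex ∧
    2 * v1 - k + lqt + 3 * f ≤ 3 * ex

/-- 61's closed forms -/
def eC (κ M c : ℝ) : ℝ := max 0 (c - min (7 / 9 * max 0 (κ - M)) (max 0 (2 / 3 * κ - M / 3)))

def EA (d κ M q c : ℝ) : ℝ := κ + M + q + c + 2 * d * (q + c) + 3 / 4 * (q + eC κ M c)

def EB (d κ M q c : ℝ) : ℝ :=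
  κ + M + q + c + 2 * d * (q + c) + 3 / 4 * max 0 (q + c - 7 / 9 * (κ - M))

/-- `y`-side (part of 61's `GoodY`) -/
def YOK (d κ M q c e : ℝ) : Prop :=
  κ / 3 + 2 * (q + c) ≤ e ∧
    (EA d κ M q c ≤ e ∨ (EB d κ M q c ≤ e ∧ 27 * q ≤ 8 * (κ - M) ∧ 5 * κ ≤ 14 * M))

/-- the closers of the `x`-side -/
def Cls.ClX (z : Cls) (d N u x ex : ℝ) : Prop :=
  XHB z.k z.v1 (z.d0 N u) z.c12 z.s1 x ex ∨
    XLT d z.k z.v1 (z.N1 N) (N - z.β) z.R1 z.R2 u z.lqt z.sh z.cnt (z.tT N u)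
      (z.c12 + z.s1) (z.ff N u) ((z.fF N u + z.ff N u) / 2) x ex ∨
    XPV z.k z.v1 z.lqt (z.c12 + z.s1) (z.ff N u) x ex

/-- the closers of the `y`-side, `w` = length of the amplifier side (`c1 - x`) -/
def Cls.ClY (z : Cls) (d M a κ w ey : ℝ) : Prop :=
  (0 ≤ z.M1 M ∧ YOK d κ (z.M1 M) a w ey) ∨
    (z.M1 M ≤ 0 ∧ YOK d κ 0 (a + z.M1 M) w ey) ∨
    z.kt + 2 * (z.M1 M + a + w) ≤ ey

/-- **the inequality**, `T` = allowed value (`2 + q + c + Al d r q c - ..`) -/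
def Cls.Goal (z : Cls) (d N M u a c T : ℝ) : Prop :=
  ∃ x ex ey κ : ℝ, 0 ≤ x ∧ x ≤ z.c1 c ∧ z.ky - 3 * z.s1 ≤ κ ∧ κ ≤ z.ky ∧
    z.ClX d N u x ex ∧ z.ClY d M a κ (z.c1 c - x) ey ∧
    2 / 3 + (z.β + z.al - 2 * z.E - z.F + 2 * z.s + 2 * z.W) +
      (z.tT N u - (z.v + z.us) / 3 - (N - z.β) / 3) + ex + ey ≤ T

end Crest.Agent.R017.E4R70
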