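import Crest.Agent.R017.E4Bx_918
import Crest.Agent.R017.E4Rd_70

/-!
# Row 17, E4 (StrU): nominal values (helper918)

The frame gives the lengths of a class only up to `δ`. `nomD`, `nomF` : if all constraints of
helper70's `Cls` hold up to `δ`, there is a class `z'` satisfying them exactly, with
`|z'.f - z.f| ≤ 20 δ |z.f| + 8 δ` for every field.
-/

set_option autoImplicit false

noncomputable section

namespace Crest.Agent.R017.Nm918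

open Crest.Agent.R017.Bx918 Crest.Agent.R017.E4R70

/-- the nominal class : scaled by `1 - t`, with small bumps -/
def nom (t bv bβ bG : ℝ) (z : Cls) : Cls where
  v := (1 - t) * z.v + bv
  k := (1 - t) * z.k
  η := (1 - t) * z.η
  b1 := (1 - t) * z.b1
  F := (1 - t) * z.F
  β := (1 - t) * z.β + bβ
  s := (1 - t) * z.s
  G := (1 - t) * z.G + bG
  Y0 := (1 - t) * z.Y0
  Y1 := (1 - t) * z.Y1
  W := (1 - t) * z.W
  c02 := (1 - t) * z.c02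
  c12 := (1 - t) * z.c12
  nu := (1 - t) * z.nu
  al := (1 - t) * z.al
  B := (1 - t) * z.B
  b := (1 - t) * z.b
  tau := (1 - t) * z.tau
  lq := (1 - t) * z.lq
  R1 := (1 - t) * z.R1
  R2 := (1 - t) * z.R2
  l := (1 - t) * z.l
  m1 := (1 - t) * z.m1
  m2 := (1 - t) * z.m2
  E := (1 - t) * z.E
  zm := (1 - t) * z.zm
  sW := (1 - t) * z.sW
  sc := (1 - t) * z.sc
  s1 := max 0 ((1 - t) * z.s1 - 2 * bv)

/-- the constraints of a class up to `δ` -/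
structure OkT (δ : ℝ) (z : Cls) (d r N M a c x : ℝ) : Prop where
  v : 0 ≤ z.v
  k : 0 ≤ z.k
  η : 0 ≤ z.η
  b1 : 0 ≤ z.b1
  F : 0 ≤ z.F
  β : 0 ≤ z.β
  s : 0 ≤ z.s
  h64 : 64 * z.s ≤ 1 + δ
  G : 0 ≤ z.G
  Y0 : 0 ≤ z.Y0
  Y1 : 0 ≤ z.Y1
  W : 0 ≤ z.W
  c02 : 0 ≤ z.c02
  c12 : 0 ≤ z.c12
  nu : 0 ≤ z.nu
  al : 0 ≤ z.al
  B : 0 ≤ z.B
  b : 0 ≤ z.b
  tau : 0 ≤ z.tau
  lq : 0 ≤ z.lq
  R1 : 0 ≤ z.R1
  R2 : 0 ≤ z.R2
  l : 0 ≤ z.l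
  m1 : 0 ≤ z.m1
  m2 : 0 ≤ z.m2
  E : 0 ≤ z.E
  zm : 0 ≤ z.zm
  sW : 0 ≤ z.sW
  sWs : z.sW ≤ z.s
  sc : 0 ≤ z.sc
  s1 : 0 ≤ z.s1
  s1G : z.s1 ≤ z.G + z.s0 + δ
  s1k : 2 * z.s1 ≤ z.k + δ
  F1 : 3 * z.al + 3 * z.lq ≤ 6 * z.B + 2 * z.b + z.tau
  F2 : z.tau + 3 * z.m1 ≤ 3 * z.B + z.b
  F3 : 3 * z.al + 12 * z.B + 4 * z.b + z.tau ≤
    z.lq + 6 * (z.R1 + 2 * z.R2) + 6 * z.l + 12 * z.m + 12 * z.E
  F4 : 2 * z.tau + 3 * (z.R1 + 2 * z.R2) ≤ 6 * z.B + 2 * z.b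
  F5 : z.tau ≤ 2 * z.lq
  G1 : 9 * z.al + 7 * z.tau + z.lq ≤ 6 * z.R1 + 12 * z.R2 + 6 * z.l + 24 * z.m1 + 24 * z.E
  G2 : 3 * z.al + 3 * z.tau + z.lq ≤ 6 * z.B + 2 * z.b + 6 * z.E
  G3 : 3 * z.al + 6 * z.B + 2 * z.b + z.lq ≤
    z.tau + 6 * (z.R1 + z.R2) + 6 * z.l + 6 * (z.m1 + z.m2) + 6 * z.E
  G4 : 3 * z.al + 3 * z.tau + z.lq + 6 * (z.R1 + z.R2) ≤ 6 * z.B + 2 * z.b + 6 * z.l +
    6 * z.m1 + 6 * z.E
  hs : 4 * z.s ≤ topK N x - z.v + 9 / 8 * d + δ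
  hb : 2 * z.β ≤ topK N x - z.v + 9 / 8 * d + δ
  hβ : z.β ≤ N + x - 1 / 2 + δ
  hv : -δ ≤ z.v1
  hc : -δ ≤ z.c1 c
  hm : z.m + z.zm ≤ M + a + δ
  hf : z.F + z.E ≤ z.β / 2 + 2 / 5 * (r - (N + M + a) + c) + δ

/-- `K1` without the level -/
def K0 (r N M a c : ℝ) : ℝ := 2 * (M + a) + c - 1 + 2 / 5 * (r - (N + M + a) + c)

lemma K1_eq (z : Cls) (r N M a c : ℝ) : z.K1 r N M a c = K0 r N M a c + z.v + z.β / 2 := by
  unfold Cls.K1 K0; ring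

lemma K0_bd {μ d r N M u a c x v : ℝ} (B : Bx4 μ d r N M u a c x v) :
    1 / 7 ≤ K0 r N M a c ∧ K0 r N M a c ≤ 23 / 28 := by
  have h1 := B.q43
  have h2 := B.cr
  have h3 := B.D
  have h4 := B.MN
  have h5 := B.N34
  have h6 := B.r28
  have h7 := B.a0
  unfold K0
  constructor <;> linarith

set_option maxHeartbeats 1000000 in
/-- **the nominal class satisfies everything exactly** -/
theorem nom_ok {μ d r N M u a c x v δ bG : ℝ} {z : Cls} (B : Bx4 μ d r N M u a c x v)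
    (hδ : 0 ≤ δ) (hδ1 : 40 * δ ≤ 1) (h : OkT δ z d r N M a c x)
    (hw : z.v ≤ min (2 * N - 1) (3 / 4 * N) + 9 / 4 * x + δ) (hG : 0 ≤ bG) :
    (nom (20 * δ) δ (2 * δ) bG z).Ok d r N M a c x ∧
      Bx4 μ d r N M u a c x (nom (20 * δ) δ (2 * δ) bG z).v := by
  have hx := B.adm.1
  have hN := B.N34
  have hM := B.MN
  have hD := B.D
  have hr := B.r28
  have ha := B.a0
  have hc7 : 1 / 7 ≤ c := by linarith
  have ht : 0 ≤ 1 - 20 * δ := by linarith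
  have hδ2 : 0 ≤ δ * δ := mul_nonneg hδ hδ
  have ht1 : 1 - 20 * δ ≤ 1 := by linarith
  have m1 := min_le_left (2 * N - 1) (3 / 4 * N)
  have m2 : 1 / 2 ≤ min (2 * N - 1) (3 / 4 * N) := le_min (by linarith) (by linarith)
  have hv' : (1 - 20 * δ) * z.v + δ ≤ min (2 * N - 1) (3 / 4 * N) + 9 / 4 * x := by
    have h1 := mul_le_mul_of_nonneg_left hw ht
    set T := min (2 * N - 1) (3 / 4 * N) + 9 / 4 * x with hT
    have h2 : 1 / 2 * δ ≤ T * δ := mul_le_mul_of_nonneg_right (by linarith) hδ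
    nlinarith
  refine ⟨?_, { B with v0 := ?_, vt := ?_ }⟩
  · have p : ∀ y : ℝ, 0 ≤ y → 0 ≤ (1 - 20 * δ) * y := fun y hy => mul_nonneg ht hy
    have e1 := mul_le_mul_of_nonneg_left h.F1 ht
    have e3 := mul_le_mul_of_nonneg_left h.F3 ht
    have e4 := mul_le_mul_of_nonneg_left h.F4 ht
    have e5 := mul_le_mul_of_nonneg_left h.F5 ht
    have e2 := mul_le_mul_of_nonneg_left h.F2 ht
    have d1 := mul_le_mul_of_nonneg_left h.G1 ht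
    have d2 := mul_le_mul_of_nonneg_left h.G2 ht
    have d3 := mul_le_mul_of_nonneg_left h.G3 ht
    have d4 := mul_le_mul_of_nonneg_left h.G4 ht
    have d5 := mul_le_mul_of_nonneg_left h.hβ ht
    have c4 : 1 / 4 * δ ≤ (N + x - 1 / 2) * δ := mul_le_mul_of_nonneg_right (by linarith) hδ
    have e6 := mul_le_mul_of_nonneg_left h.hv ht
    have e7 := mul_le_mul_of_nonneg_left h.hc ht
    have e8 := mul_le_mul_of_nonneg_left h.hm ht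
    have e9 := mul_le_mul_of_nonneg_left h.hf ht
    have e10 := mul_le_mul_of_nonneg_left h.h64 ht
    have e11 := mul_le_mul_of_nonneg_left h.s1G ht
    have e12 := mul_le_mul_of_nonneg_left h.s1k ht
    have e13 := mul_le_mul_of_nonneg_left h.sWs ht
    have e14 := mul_le_mul_of_nonneg_left h.hs ht
    have e15 := mul_le_mul_of_nonneg_left h.hb ht
    have c5 : 1 / 2 * δ ≤ topK N x * δ := mul_le_mul_of_nonneg_right (by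
      unfold topK
      linarith) hδ
    have c6 : 0 ≤ d * δ := mul_nonneg B.d0 hδ
    have c1 : 1 / 7 * δ ≤ c * δ := mul_le_mul_of_nonneg_right hc7 hδ
    have c2 : 1 / 2 * δ ≤ (M + a) * δ := mul_le_mul_of_nonneg_right (by linarith) hδ
    have c3 : 0 ≤ (r - (N + M + a) + c) * δ := mul_nonneg (by linarith) hδ
    simp only [Cls.v1, Cls.c1] at e6 e7
    have g0 : 0 ≤ (1 - 20 * δ) * (z.G + z.s0) := mul_nonneg ht (by
      have := h.G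
      have := h.sWs
      unfold Cls.s0
      linarith)
    simp only [Cls.s0] at e11 g0
    simp only [Cls.m] at e3 e8
    refine ⟨?_, p _ h.k, p _ h.η, p _ h.b1, p _ h.F, ?_, p _ h.s, ?_, ?_, p _ h.Y0, p _ h.Y1,
      p _ h.W, p _ h.c02, p _ h.c12, p _ h.nu, p _ h.al, p _ h.B, p _ h.b, p _ h.tau, p _ h.lq,
      p _ h.R1, p _ h.R2, p _ h.l, p _ h.m1, p _ h.m2, p _ h.E, p _ h.zm, p _ h.sW, ?_,
      p _ h.sc, le_max_left _ _, ?_, ?_, ?_, ?_, ?_, ?_, ?_, ?_, ?_, ?_, ?_, ?_, ?_, ?_, ?_, ?_, ?_,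
      ?_⟩
    · show 0 ≤ (1 - 20 * δ) * z.v + δ
      exact add_nonneg (p _ h.v) hδ
    · show 0 ≤ (1 - 20 * δ) * z.β + 2 * δ
      exact add_nonneg (p _ h.β) (by linarith)
    · show 64 * ((1 - 20 * δ) * z.s) ≤ 1
      nlinarith
    · show 0 ≤ (1 - 20 * δ) * z.G + bG
      exact add_nonneg (p _ h.G) hG
    all_goals simp only [nom, Cls.v1, Cls.c1, Cls.s0, Cls.m]
    · linarith
    · refine max_le (by linarith) (by linarith)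
    · have h1 : max 0 ((1 - 20 * δ) * z.s1 - 2 * δ) ≤ (1 - 20 * δ) * z.k / 2 :=
        max_le (by have := p _ h.k; linarith) (by linarith)
      linarith
    all_goals linarith
  · show 0 ≤ (1 - 20 * δ) * z.v + δ
    exact add_nonneg (mul_nonneg ht h.v) hδ
  · exact hv'

/-! ### the derived lengths -/

section
variable (t bv bβ bG : ℝ) (z : Cls)

lemma nom_lam : (nom t bv bβ bG z).lam = (1 - t) * z.lam + bG := by
  simp only [nom, Cls.lam, Cls.s0]; ring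

lemma nom_us : (nom t bv bβ bG z).us = (1 - t) * z.us + 3 * bG := by
  simp only [nom, Cls.us, Cls.s0]; ring

lemma nom_ky : (nom t bv bβ bG z).ky = (1 - t) * z.ky + bG := by
  simp only [nom, Cls.ky, Cls.lam, Cls.s0]; ring

lemma nom_v1 : (nom t bv bβ bG z).v1 = (1 - t) * z.v1 + bv := by
  simp only [nom, Cls.v1]; ring

lemma nom_c1 (c : ℝ) : (nom t bv bβ bG z).c1 c = (1 - t) * z.c1 c + t * c := by
  simp only [nom, Cls.c1]; ring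

lemma nom_M1 (M : ℝ) : (nom t bv bβ bG z).M1 M = (1 - t) * z.M1 M + t * M := by
  simp only [nom, Cls.M1, Cls.m]; ring

lemma nom_N1 (N : ℝ) : (nom t bv bβ bG z).N1 N = (1 - t) * z.N1 N + t * N - bβ := by
  simp only [nom, Cls.N1]; ring

lemma nom_lqt : (nom t bv bβ bG z).lqt = (1 - t) * z.lqt + 2 * bG := by
  simp only [nom, Cls.lqt, Cls.s0]; ring

lemma nom_sh : (nom t bv bβ bG z).sh = (1 - t) * z.sh := by
  simp only [nom, Cls.sh]; ring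

lemma nom_cnt : (nom t bv bβ bG z).cnt = (1 - t) * z.cnt := by
  simp only [nom, Cls.cnt]; ring

end

/-- **the direct half** -/
theorem nom_D {μ d r N M u a c x v δ : ℝ} {z : Cls} (B : Bx4 μ d r N M u a c x v)
    (hδ : 0 ≤ δ) (hδ1 : 40 * δ ≤ 1)
    (h1 : z.k + z.lam + z.sc ≤ 1 - 2 * z.η - 2 * z.F - 2 * z.b1 - z.b - 3 * z.B + δ)
    (h2 : 1 - z.K1 r N M a c ≤ z.ss + δ) :
    (nom (20 * δ) δ (2 * δ) (8 * δ) z).rD ∧
      (nom (20 * δ) δ (2 * δ) (8 * δ) z).nsw r N M a c := by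
  obtain ⟨k0, k1⟩ := K0_bd B
  have ht : 0 ≤ 1 - 20 * δ := by linarith
  have q0 : 0 ≤ δ * δ := mul_nonneg hδ hδ
  have q1 : 1 / 7 * δ ≤ K0 r N M a c * δ := mul_le_mul_of_nonneg_right k0 hδ
  constructor
  · unfold Cls.rD
    rw [nom_lam]
    have e := mul_le_mul_of_nonneg_left h1 ht
    simp only [nom]
    nlinarith
  · unfold Cls.nsw Cls.ss
    unfold Cls.ss at h2
    rw [nom_us, K1_eq]
    rw [K1_eq] at h2
    have e := mul_le_mul_of_nonneg_left h2 ht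
    simp only [nom]
    nlinarith

/-- **the dual half** -/
theorem nom_F {μ d r N M u a c x v δ : ℝ} {z : Cls} (B : Bx4 μ d r N M u a c x v)
    (hδ : 0 ≤ δ) (hδ1 : 40 * δ ≤ 1)
    (h1 : z.k + z.lam ≤ z.K1 r N M a c + z.us + z.sc + z.η + z.F - 2 * z.b1 - z.b + δ)
    (h2 : z.ss ≤ 1 - z.K1 r N M a c + δ) :
    (nom (20 * δ) δ (2 * δ) 0 z).rF r N M a c ∧ (nom (20 * δ) δ (2 * δ) 0 z).sw r N M a c := by
  obtain ⟨k0, k1⟩ := K0_bd B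
  have ht : 0 ≤ 1 - 20 * δ := by linarith
  have q0 : 0 ≤ δ * δ := mul_nonneg hδ hδ
  have q1 : 1 / 7 * δ ≤ K0 r N M a c * δ := mul_le_mul_of_nonneg_right k0 hδ
  have q2 : K0 r N M a c * δ ≤ 23 / 28 * δ := mul_le_mul_of_nonneg_right k1 hδ
  constructor
  · unfold Cls.rF
    rw [nom_lam, nom_us, K1_eq]
    rw [K1_eq] at h1
    have e := mul_le_mul_of_nonneg_left h1 ht
    simp only [nom]
    nlinarith
  · unfold Cls.sw Cls.ss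
    unfold Cls.ss at h2
    rw [nom_us, K1_eq]
    rw [K1_eq] at h2
    have e := mul_le_mul_of_nonneg_left h2 ht
    simp only [nom]
    nlinarith

/-! ### nearness -/

/-- two classes are `δ`-near -/
structure Near (δ : ℝ) (z z' : Cls) : Prop where
  v : |z'.v - z.v| ≤ δ
  k : |z'.k - z.k| ≤ δ
  η : |z'.η - z.η| ≤ δ
  b1 : |z'.b1 - z.b1| ≤ δ
  F : |z'.F - z.F| ≤ δ
  β : |z'.β - z.β| ≤ δ
  s : |z'.s - z.s| ≤ δ
  G : |z'.G - z.G| ≤ δ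
  Y0 : |z'.Y0 - z.Y0| ≤ δ
  Y1 : |z'.Y1 - z.Y1| ≤ δ
  W : |z'.W - z.W| ≤ δ
  c02 : |z'.c02 - z.c02| ≤ δ
  c12 : |z'.c12 - z.c12| ≤ δ
  nu : |z'.nu - z.nu| ≤ δ
  al : |z'.al - z.al| ≤ δ
  B : |z'.B - z.B| ≤ δ
  b : |z'.b - z.b| ≤ δ
  tau : |z'.tau - z.tau| ≤ δ
  lq : |z'.lq - z.lq| ≤ δ
  R1 : |z'.R1 - z.R1| ≤ δ
  R2 : |z'.R2 - z.R2| ≤ δ
  l : |z'.l - z.l| ≤ δ
  m1 : |z'.m1 - z.m1| ≤ δ
  m2 : |z'.m2 - z.m2| ≤ δ
  E : |z'.E - z.E| ≤ δ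
  zm : |z'.zm - z.zm| ≤ δ
  sW : |z'.sW - z.sW| ≤ δ
  sc : |z'.sc - z.sc| ≤ δ
  s1 : |z'.s1 - z.s1| ≤ δ

lemma Near.mono {δ δ' : ℝ} {z z' : Cls} (h : Near δ z z') (hd : δ ≤ δ') : Near δ' z z' :=
  ⟨h.v.trans hd, h.k.trans hd, h.η.trans hd, h.b1.trans hd, h.F.trans hd, h.β.trans hd, h.s.trans hd, h.G.trans hd, h.Y0.trans hd, h.Y1.trans hd, h.W.trans hd, h.c02.trans hd, h.c12.trans hd, h.nu.trans hd, h.al.trans hd, h.B.trans hd, h.b.trans hd, h.tau.trans hd, h.lq.trans hd, h.R1.trans hd, h.R2.trans hd, h.l.trans hd, h.m1.trans hd, h.m2.trans hd, h.E.trans hd, h.zm.trans hd, h.sW.trans hd, h.sc.trans hd, h.s1.trans hd⟩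

/-- all fields are `≤ 4` -/
structure Bnd (z : Cls) : Prop where
  v : z.v ≤ 4
  k : z.k ≤ 4
  η : z.η ≤ 4
  b1 : z.b1 ≤ 4
  F : z.F ≤ 4
  β : z.β ≤ 4
  s : z.s ≤ 4
  G : z.G ≤ 4
  Y0 : z.Y0 ≤ 4
  Y1 : z.Y1 ≤ 4
  W : z.W ≤ 4
  c02 : z.c02 ≤ 4
  c12 : z.c12 ≤ 4
  nu : z.nu ≤ 4
  al : z.al ≤ 4
  B : z.B ≤ 4
  b : z.b ≤ 4
  tau : z.tau ≤ 4
  lq : z.lq ≤ 4
  R1 : z.R1 ≤ 4
  R2 : z.R2 ≤ 4
  l : z.l ≤ 4
  m1 : z.m1 ≤ 4
  m2 : z.m2 ≤ 4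
  E : z.E ≤ 4
  zm : z.zm ≤ 4
  sW : z.sW ≤ 4
  sc : z.sc ≤ 4
  s1 : z.s1 ≤ 4

lemma near_aux {t δ b y : ℝ} (ht : 0 ≤ t) (ht1 : t ≤ 20 * δ) (hb : 0 ≤ b) (hb1 : b ≤ 8 * δ)
    (hy : 0 ≤ y) (hy1 : y ≤ 4) (hδ : 0 ≤ δ) : |(1 - t) * y + b - y| ≤ 100 * δ := by
  have h0 : 0 ≤ t * y := mul_nonneg ht hy
  have h1 : t * y ≤ 20 * δ * 4 := mul_le_mul ht1 hy1 hy (by positivity)
  rw [abs_le]
  constructor <;> nlinarith

lemma near_aux0 {t δ y : ℝ} (ht : 0 ≤ t) (ht1 : t ≤ 20 * δ)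
    (hy : 0 ≤ y) (hy1 : y ≤ 4) (hδ : 0 ≤ δ) : |(1 - t) * y - y| ≤ 100 * δ := by
  have := near_aux (b := 0) ht ht1 le_rfl (by positivity) hy hy1 hδ
  rwa [add_zero] at this

/-- **the nominal class is near** -/
theorem near_nom {δ d r N M a c x bG : ℝ} {z : Cls} (hδ : 0 ≤ δ) (h : OkT δ z d r N M a c x)
    (hb : Bnd z) (hG : 0 ≤ bG) (hG1 : bG ≤ 8 * δ) :
    Near (100 * δ) z (nom (20 * δ) δ (2 * δ) bG z) := by
  have t0 : 0 ≤ 20 * δ := by positivity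
  have q : ∀ y : ℝ, 0 ≤ y → y ≤ 4 → |(1 - 20 * δ) * y - y| ≤ 100 * δ :=
    fun y h1 h2 => near_aux0 t0 le_rfl h1 h2 hδ
  refine ⟨?_, q _ h.k hb.k, q _ h.η hb.η, q _ h.b1 hb.b1, q _ h.F hb.F, ?_, q _ h.s hb.s, ?_, q _ h.Y0 hb.Y0, q _ h.Y1 hb.Y1, q _ h.W hb.W, q _ h.c02 hb.c02, q _ h.c12 hb.c12, q _ h.nu hb.nu, q _ h.al hb.al, q _ h.B hb.B, q _ h.b hb.b, q _ h.tau hb.tau, q _ h.lq hb.lq, q _ h.R1 hb.R1, q _ h.R2 hb.R2, q _ h.l hb.l, q _ h.m1 hb.m1, q _ h.m2 hb.m2, q _ h.E hb.E, q _ h.zm hb.zm, q _ h.sW hb.sW, q _ h.sc hb.sc, ?_⟩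
  · exact near_aux t0 le_rfl hδ (by linarith) h.v hb.v hδ
  · exact near_aux t0 le_rfl (by positivity) (by linarith) h.β hb.β hδ
  · exact near_aux t0 le_rfl hG hG1 h.G hb.G hδ
  · have h1 : 0 ≤ 20 * δ * z.s1 := mul_nonneg t0 h.s1
    have h2 : 20 * δ * z.s1 ≤ 20 * δ * 4 := mul_le_mul_of_nonneg_left hb.s1 t0
    show |max 0 ((1 - 20 * δ) * z.s1 - 2 * δ) - z.s1| ≤ 100 * δ
    rw [abs_le]
    constructor
    · have := le_max_right 0 ((1 - 20 * δ) * z.s1 - 2 * δ)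
      nlinarith
    · have : max 0 ((1 - 20 * δ) * z.s1 - 2 * δ) ≤ z.s1 := max_le h.s1 (by nlinarith)
      linarith

end Crest.Agent.R017.Nm918
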