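import Crest.Agent.R017.E4Sc_352
import Crest.Agent.R017.E4Nm_918
import Crest.Agent.R017.E4G_858
import Crest.Agent.R017.E4RK_858
import Crest.Agent.R017.E4JB_858
import Crest.Agent.R017.E4Hs_679

/-!
# Row 17, StrU: the class of a term (helper352)

* `zTr` : the class of a term, units `Lg` (`= κ log X`)
* `e0_split`, `gS` : the `e₀`-primes; `lam_of`, `us_of`, `ky_of`
* `okT_of` : helper918's `OkT`
* `rD_of`, `rF_of`, `swU`, `nsw_of`, `sw_of`, `swU_T0` : ranges and the switch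
-/

set_option autoImplicit false
set_option linter.unusedSectionVars false

noncomputable section

open Finset Complex
open scoped ComplexConjugate

namespace Crest.Agent.R017.E4St352

open Crest.Agent.R012 Crest.Agent.R012.Eis
open Crest.Agent.R012.Mob705 hiding pb mem_pb kap
open Crest.Agent.R017.Sx545 (Sm)
open Crest.Agent.R017.CM106 (FS)
open Crest.Agent.R017.C70
open Crest.Agent.R017.Prov71 Crest.Agent.R017.E5B71 Crest.Agent.R017.E4D164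
open Crest.Agent.R017.B770 (DPar)
open Crest.Agent.R017.E5L770
open Crest.Agent.R017.E4U164
open Crest.Agent.R017.E4352 (PrI rd)
open Crest.Agent.R017.E4J352 (Tm rngD rngF)
open Crest.Agent.R017.E4RG858 (pow_dvd_iff dvd_iff_mult mult_mul mult_pow mult_eq_zero fac)
open Crest.Agent.R017.E4RH858
open Crest.Agent.R017.E4Dic352
open Crest.Agent.R017.E4F858 (R1S R2S m1S m2S R1S_nonneg R2S_nonneg m1S_nonneg m2S_nonneg RS_eq
  nine_bf lS_m Nine)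
open Crest.Agent.R017.Str699 (b3 n3 nu0 mlam)
open Crest.Agent.R017.E4R70 (Cls topK)
open Crest.Agent.R017.Nm918 (OkT)
open Crest.Agent.R017.JxS679 (sk)

/-- **the class of a term**, all logarithms divided by `Lg` -/
def zTr (Lg : ℝ) (i : ℕ) (x : Dt) (f : Eis) {OO : Finset (Eis × Eis)} (t : Tm OO)
    (f1 f2 D1' l m : Eis) (sc : ℝ) : Cls where
  v := Real.log 2 * i / Lg
  k := lg t.k / Lg
  η := lg D1' / Lg
  b1 := beS t f2 / Lg
  F := lg f1 / Lg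
  β := lg (∏ i, x.β i) / Lg
  s := lg x.e₀ / Lg
  G := max 0 (kG x - (lg x.e₀ - lg (be2 x.e₀ (bo3 t)))) / Lg
  Y0 := x.m 0 1 * Real.log 2 / Lg
  Y1 := x.m 1 1 * Real.log 2 / Lg
  W := lg (be1 x.e₀ (bo3 t)) / Lg
  c02 := kC x / Lg
  c12 := x.m 1 2 * Real.log 2 / Lg
  nu := lg (nu0 t.o.1.1 t.o.1.2) / Lg
  al := (alS (pf t) + bfS t f2) / Lg
  B := BS (pf t) / Lg
  b := (bS (pf t) + 2 * bfS t f2) / Lg
  tau := (tauS (pf t) + 2 * bfS t f2) / Lg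
  lq := (lqS (pf t) + bfS t f2) / Lg
  R1 := R1S (pf t) / Lg
  R2 := R2S (pf t) / Lg
  l := (lg l - beS t f2) / Lg
  m1 := m1S (pf t) m / Lg
  m2 := m2S (pf t) m / Lg
  E := (eS f (pf t) + bfS t f2) / Lg
  zm := (lg m - lS (pf t) m) / Lg
  sW := lg (be2 x.e₀ (bo3 t)) / Lg
  sc := sc / Lg
  s1 := min (lg (sk (x.g * x.e₀ * x.t) t.k)) (kG x) / Lg

/-! ### small facts -/

lemma sk_sq_dvd {g k : Eis} : sk g k ^ 2 ∣ k := by
  classical
  unfold sk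
  exact (((ppSet_pp g).subset (filter_subset _ _)).prod_pow_dvd 2).mpr fun p hp =>
    (mem_filter.mp hp).2

lemma lg_sk_le {g k : Eis} (hk : k ≠ 0) : 2 * lg (sk g k) ≤ lg k := by
  have h1 := lg_le_of_dvd hk (sk_sq_dvd (g := g) (k := k))
  rw [lg_pow] at h1
  push_cast at h1
  exact h1

lemma lg_bo3 (e : Eis) {OO : Finset (Eis × Eis)} (t : Tm OO) :
    lg (be1 e (bo3 t)) + lg (be2 e (bo3 t)) = lg (bo3 t) := by
  rw [← lg_mul (be1_prim _ _).ne_zero (be2_prim _ _).ne_zero, bo3_mul]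

section cls

variable {Λ : Type*} {π : Λ → DPar} {h : ℝ → ℝ} {lam : Λ × Eis}
  {Jf : ℝ → ℝ → ℝ → Finset (Eis × Eis)}
  {a : Bd × ℕ} {x : Dt} {Bf : ℝ → ℝ → ℝ → ℝ} {e0 r ε X : ℝ}

/-- `(1,0)`-primes of `S`, at least the `e₀`-primes outside `bo3` -/
def gS (x : Dt) {OO : Finset (Eis × Eis)} (t : Tm OO) : ℝ :=
  max 0 (kG x - (lg x.e₀ - lg (be2 x.e₀ (bo3 t)))) + (lg x.e₀ - lg (be2 x.e₀ (bo3 t)))

lemma gS_eq (x : Dt) {OO : Finset (Eis × Eis)} (t : Tm OO) :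
    gS x t = max (lg x.e₀ - lg (be2 x.e₀ (bo3 t))) (kG x) := by
  unfold gS
  rw [← max_add_add_right]
  congr 1 <;> ring

lemma le_gS (x : Dt) {OO : Finset (Eis × Eis)} (t : Tm OO) : kG x ≤ gS x t := by
  rw [gS_eq]; exact le_max_right _ _

lemma e0_prim (hx : x.OK (π lam.1) Bf e0 r ε X a.1) : IsPrim x.e₀ ∧ Squarefree x.e₀ ∧
    lg x.e₀ ≤ e0 * a.1.l := by
  obtain ⟨h0, e1, e2⟩ := (LS2.mem_S (Real.exp_nonneg _)).mp hx.e₀
  refine ⟨e1, e2, ?_⟩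
  have h1 := Real.log_le_log (nm_pos' e1.ne_zero) h0
  rw [Real.log_exp] at h1
  exact h1

variable {t : Tm (x.O π lam Jf a)}

/-- **the `e₀`-primes outside `bo3` are of class `(1,0)`** -/
theorem e0_split (hJ : ∀ l N z, OKJ (Jf l N z)) (ha : a.1.ok) (hP : a.1.okP (π lam.1))
    (hn : (π lam.1).n₃ ≠ 0) (hx : x.OK (π lam.1) Bf e0 r ε X a.1) {G : Eis → ℂ}
    (hxs : t.xs (x.v π h lam Jf a) G ≠ 0) :
    lg x.e₀ - lg (be2 x.e₀ (bo3 t)) ≤ kG x + Real.log 2 := by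
  classical
  obtain ⟨x1, -, -, hx1⟩ := xs_ne hxs
  obtain ⟨-, -, -, -, -, -, -, -, -, -, j, j1, j2, j3, j4, j5, j6, j7⟩ :=
    v_spec hJ ha hP hn hx t.o hx1
  obtain ⟨e1, e2, -⟩ := e0_prim hx
  have hS0 := j5.ne_zero
  have hb : bo3 t = pS 1 0 t.o.1.1 j := j4
  -- every prime of `e₀`
  have key : pp x.e₀ ⊆ (pp t.o.1.1).filter (fun p => multiplicity p t.o.1.1 = ((0 : Fin 2) : ℕ) + 1 ∧
      multiplicity p j = ((0 : Fin 3) : ℕ)) ∪ (pp (bo3 t)).filter (fun p => p ∣ x.e₀) := by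
    intro p hp
    obtain ⟨hpp, hpe⟩ := (mem_pp e1.ne_zero).mp hp
    have hpS : p ∣ t.o.1.1 := hpe.trans j3
    have m1 := (dvd_iff_mult hpp.prime hS0).mp hpS
    have m2 := j6 p hpp
    have m3 : multiplicity p j = 0 := mult_eq_zero hpp.prime (E4K164.jc_ne_zero j1) fun hd =>
      hpp.prime.not_isUnit (j2.isUnit_of_dvd' hd hpe)
    have hmS : p ∈ pp t.o.1.1 := (mem_pp hS0).mpr ⟨hpp, hpS⟩
    rw [mem_union]
    rcases (by omega : multiplicity p t.o.1.1 = 1 ∨ multiplicity p t.o.1.1 = 2) with h1 | h1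
    · left
      exact mem_filter.mpr ⟨hmS, by simpa using h1, by simpa using m3⟩
    · right
      refine mem_filter.mpr ⟨(mem_pp (bo3_prim t).ne_zero).mpr ⟨hpp, ?_⟩, hpe⟩
      rw [hb]
      unfold pS
      exact dvd_prod_of_mem _ (mem_filter.mpr ⟨hmS, by simpa using h1, by simpa using m3⟩)
  have h1 : lg x.e₀ = ∑ p ∈ pp x.e₀, lg p := by
    conv_lhs => rw [← prod_pp e1 e2]
    exact lg_prod1 (ne_of_mem (ppSet_pp _))
  have h2 : lg (pS 0 0 t.o.1.1 j) = ∑ p ∈ (pp t.o.1.1).filter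
      (fun p => multiplicity p t.o.1.1 = ((0 : Fin 2) : ℕ) + 1 ∧
        multiplicity p j = ((0 : Fin 3) : ℕ)), lg p := by
    unfold pS
    exact lg_prod1 fun p hp => ne_of_mem (ppSet_pp _) p (mem_filter.mp hp).1
  have h3 : lg (be2 x.e₀ (bo3 t)) = ∑ p ∈ (pp (bo3 t)).filter (fun p => p ∣ x.e₀), lg p := by
    unfold be2
    exact lg_prod1 fun p hp => ne_of_mem (ppSet_pp _) p (mem_filter.mp hp).1
  have h4 : ∑ p ∈ pp x.e₀, lg p ≤ lg (pS 0 0 t.o.1.1 j) + lg (be2 x.e₀ (bo3 t)) := by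
    rw [h2, h3]
    refine (sum_le_sum_of_subset_of_nonneg key fun _ _ _ => lg_nonneg _).trans ?_
    set A := (pp t.o.1.1).filter (fun p => multiplicity p t.o.1.1 = ((0 : Fin 2) : ℕ) + 1 ∧
      multiplicity p j = ((0 : Fin 3) : ℕ))
    set B := (pp (bo3 t)).filter (fun p => p ∣ x.e₀)
    have h6 := sum_union_inter (s₁ := A) (s₂ := B) (f := lg)
    have h7 : 0 ≤ ∑ p ∈ A ∩ B, lg p := sum_nonneg fun _ _ => lg_nonneg _
    linarith
  have h5 : lg (pS 0 0 t.o.1.1 j) ≤ kG x + Real.log 2 := by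
    have h6 := (j7 0 0).2.le
    have h7 : (nm (pS 0 0 t.o.1.1 j) : ℝ) ≤ 2 ^ (x.m 0 0 + 1) := by exact_mod_cast h6
    have h8 := Real.log_le_log (nm_pos' (Str699.pS_prim _ _ _ _).ne_zero) h7
    rw [Real.log_pow] at h8
    unfold kG lg
    push_cast at h8
    linarith
  linarith

end cls

/-! ### `OkT` from the lengths -/

set_option maxHeartbeats 1000000 in
/-- **helper918's `OkT` from the lengths of a term** -/
theorem okT_num {L τ κ N M ao am cx d : ℝ} {i : ℕ} {x : Dt} {f : Eis} {OO : Finset (Eis × Eis)}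
    {t : Tm OO} {f1 f2 D1' l m : Eis} {sc : ℝ} (hL : 0 < L) (hκ : 8 / 9 ≤ κ) (hτ : 0 ≤ τ)
    (hsc : 0 ≤ sc) (he : 64 * lg x.e₀ ≤ κ * L + 5 * τ * L)
    (heW : lg (be2 x.e₀ (bo3 t)) ≤ lg x.e₀) (hk : t.k ≠ 0)
    (hn : Nine (alS (pf t) + bfS t f2) (BS (pf t)) (bS (pf t) + 2 * bfS t f2)
      (tauS (pf t) + 2 * bfS t f2) (lqS (pf t) + bfS t f2) (R1S (pf t))
      (R2S (pf t)) (lS (pf t) l) (m1S (pf t) m) (m2S (pf t) m) (eS f (pf t) + bfS t f2))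
    (hl : beS t f2 + lS (pf t) l ≤ lg l) (hm' : lS (pf t) m ≤ lg m)
    (hβ : lg (∏ i, x.β i) ≤ (N + cx - κ / 2) * L + 5 * τ * L)
    (hv : R1S (pf t) + 2 * R2S (pf t) + (x.m 0 1 + x.m 1 1) * Real.log 2 + 2 * kC x +
      2 * (x.m 1 2 * Real.log 2) + 2 * lg (nu0 t.o.1.1 t.o.1.2) ≤ Real.log 2 * i + 5 * τ * L)
    (hc : lg l + lg D1' ≤ am * L + 5 * τ * L) (hm : lg m ≤ (M + ao) * L + 5 * τ * L)
    (hf : lg f1 + bfS t f2 + eS f (pf t) ≤ lg (∏ i, x.β i) / 2 +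
      2 / 5 * (1 - (N + M + ao) + am) * L + 5 * τ * L)
    (h4 : 4 * (zTr (κ * L) i x f t f1 f2 D1' l m sc).s ≤
      topK (N / κ) (cx / κ) - (zTr (κ * L) i x f t f1 f2 D1' l m sc).v + 9 / 8 * d + 6 * τ)
    (hb : 2 * (zTr (κ * L) i x f t f1 f2 D1' l m sc).β ≤
      topK (N / κ) (cx / κ) - (zTr (κ * L) i x f t f1 f2 D1' l m sc).v + 9 / 8 * d + 6 * τ) :
    OkT (6 * τ) (zTr (κ * L) i x f t f1 f2 D1' l m sc) d (1 / κ) (N / κ) (M / κ) (ao / κ) (am / κ)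
      (cx / κ) := by
  have hκ0 : 0 < κ := by linarith
  have hG : 0 < κ * L := mul_pos hκ0 hL
  have hG' := hG.le
  have l2 : 0 ≤ Real.log 2 := Real.log_nonneg (by norm_num)
  have hs : 5 * τ * L ≤ 6 * τ * (κ * L) := by
    have : 0 ≤ τ * L := mul_nonneg hτ hL.le
    nlinarith
  have eN : N / κ * (κ * L) = N * L := by field_simp
  have eM : M / κ * (κ * L) = M * L := by field_simp
  have ea : ao / κ * (κ * L) = ao * L := by field_simp
  have ec : am / κ * (κ * L) = am * L := by field_simp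
  have ex : cx / κ * (κ * L) = cx * L := by field_simp
  have er : 1 / κ * (κ * L) = L := by field_simp
  obtain ⟨n1, n2, n3, n4, n5, n6, n7, n8, n9⟩ := hn
  have hlm := lS_m (pf t) m
  have sk2 := lg_sk_le (g := x.g * x.e₀ * x.t) hk
  have hg := le_gS x t
  have d0 : ∀ y : ℝ, y / (κ * L) * (κ * L) = y := fun y => div_mul_cancel₀ y hG.ne'
  have p : ∀ y : ℝ, 0 ≤ y → 0 ≤ y / (κ * L) := fun y hy => div_nonneg hy hG'
  have sk0 : 0 ≤ min (lg (sk (x.g * x.e₀ * x.t) t.k)) (kG x) := le_min (lg_nonneg _) (kG_nonneg x)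
  have bf0 := bfS_nonneg t f2
  refine ⟨p _ (by positivity), p _ (lg_nonneg _), p _ (lg_nonneg _), p _ (beS_nonneg _ _),
    p _ (lg_nonneg _), p _ (lg_nonneg _), p _ (lg_nonneg _), ?_, p _ (le_max_left _ _),
    p _ (by positivity), p _ (by positivity), p _ (lg_nonneg _), p _ (kC_nonneg x),
    p _ (by positivity), p _ (lg_nonneg _), p _ (add_nonneg (alS_nonneg _) bf0),
    p _ (BS_nonneg _), p _ (add_nonneg (bS_nonneg _) (by linarith)),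
    p _ (add_nonneg (tauS_nonneg _) (by linarith)), p _ (add_nonneg (lqS_nonneg _) bf0),
    p _ (R1S_nonneg _), p _ (R2S_nonneg _), p _ ?_, p _ (m1S_nonneg _ _), p _ (m2S_nonneg _ _),
    p _ (add_nonneg (eS_nonneg _ _) bf0), p _ (by linarith), p _ (lg_nonneg _), ?_, p _ hsc,
    p _ sk0, ?_, ?_, ?_, ?_, ?_, ?_, ?_, ?_, ?_, ?_, ?_, h4, hb, ?_, ?_, ?_, ?_, ?_⟩
  · refine le_of_mul_le_mul_right ?_ hG
    have := d0 (lg x.e₀)
    have := lg_nonneg x.e₀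
    simp only [zTr]
    linarith
  · have := lS_nonneg (pf t) l
    linarith
  · exact div_le_div_of_nonneg_right heW hG'
  all_goals refine le_of_mul_le_mul_right ?_ hG
  all_goals simp only [zTr, Cls.s0, Cls.m, Cls.v1, Cls.c1]
  · -- s1 ≤ G + s0 + ..
    have e1 := d0 (min (lg (sk (x.g * x.e₀ * x.t) t.k)) (kG x))
    have e2 := d0 (max 0 (kG x - (lg x.e₀ - lg (be2 x.e₀ (bo3 t)))))
    have e3 := d0 (lg x.e₀)
    have e4 := d0 (lg (be2 x.e₀ (bo3 t)))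
    have q5 : 0 ≤ 6 * τ * (κ * L) := by positivity
    have q6 := min_le_right (lg (sk (x.g * x.e₀ * x.t) t.k)) (kG x)
    unfold gS at hg
    linarith
  · -- 2 s1 ≤ k
    have e1 := d0 (min (lg (sk (x.g * x.e₀ * x.t) t.k)) (kG x))
    have e2 := d0 (lg t.k)
    have q5 : 0 ≤ 6 * τ * (κ * L) := by positivity
    have q6 := min_le_left (lg (sk (x.g * x.e₀ * x.t) t.k)) (kG x)
    linarith
  all_goals
    have eal := d0 (alS (pf t) + bfS t f2)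
    have eB := d0 (BS (pf t))
    have eb := d0 (bS (pf t) + 2 * bfS t f2)
    have etau := d0 (tauS (pf t) + 2 * bfS t f2)
    have elq := d0 (lqS (pf t) + bfS t f2)
    have eR1 := d0 (R1S (pf t))
    have eR2 := d0 (R2S (pf t))
    have el := d0 (lg l - beS t f2)
    have em1 := d0 (m1S (pf t) m)
    have em2 := d0 (m2S (pf t) m)
    have eE := d0 (eS f (pf t) + bfS t f2)
  · linarith
  · linarith
  · linarith
  · linarith
  · linarith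
  · linarith
  · linarith
  · linarith
  · linarith
  · -- hβ
    have e1 := d0 (lg (∏ i, x.β i))
    linarith
  · -- hv
    have e1 := d0 (Real.log 2 * i)
    have e2 := d0 (x.m 0 1 * Real.log 2)
    have e3 := d0 (x.m 1 1 * Real.log 2)
    have e4 := d0 (kC x)
    have e5 := d0 (x.m 1 2 * Real.log 2)
    have e6 := d0 (lg (nu0 t.o.1.1 t.o.1.2))
    linarith
  · -- hc
    have e1 := d0 (lg D1')
    have e2 := d0 (beS t f2)
    linarith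
  · -- hm
    have e1 := d0 (lg m - lS (pf t) m)
    linarith
  · -- hf
    have e1 := d0 (lg f1)
    have e2 := d0 (lg (∏ i, x.β i))
    linarith

/-! ### the data of class N -/

/-- the lengths of a term (pure numbers) -/
structure TrN (τ L κ N M ao am cx sc : ℝ) (i : ℕ) (x : Dt) (f : Eis) {OO : Finset (Eis × Eis)}
    (t : Tm OO) (f1 f2 D1' l m : Eis) : Prop where
  sc : 0 ≤ sc
  e : 64 * lg x.e₀ ≤ κ * L + 5 * τ * L
  eW : lg (be2 x.e₀ (bo3 t)) ≤ lg x.e₀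
  k : t.k ≠ 0
  nine : Nine (alS (pf t) + bfS t f2) (BS (pf t)) (bS (pf t) + 2 * bfS t f2)
    (tauS (pf t) + 2 * bfS t f2) (lqS (pf t) + bfS t f2) (R1S (pf t))
    (R2S (pf t)) (lS (pf t) l) (m1S (pf t) m) (m2S (pf t) m) (eS f (pf t) + bfS t f2)
  ll : beS t f2 + lS (pf t) l ≤ lg l
  mm : lS (pf t) m ≤ lg m
  β : lg (∏ i, x.β i) ≤ (N + cx - κ / 2) * L + 5 * τ * L
  v1 : R1S (pf t) + 2 * R2S (pf t) + (x.m 0 1 + x.m 1 1) * Real.log 2 + 2 * kC x +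
    2 * (x.m 1 2 * Real.log 2) + 2 * lg (nu0 t.o.1.1 t.o.1.2) ≤ Real.log 2 * i + 5 * τ * L
  lc : lg l + lg D1' ≤ am * L + 5 * τ * L
  mc : lg m ≤ (M + ao) * L + 5 * τ * L
  f : lg f1 + bfS t f2 + eS f (pf t) ≤ lg (∏ i, x.β i) / 2 +
    2 / 5 * (1 - (N + M + ao) + am) * L + 5 * τ * L
  /-- the classes -/
  g1 : gS x t ≤ kG x + Real.log 2
  b3 : kW x ≤ lg (bo3 t) ∧ lg (bo3 t) ≤ kW x + Real.log 2
  l2 : 28 * Real.log 2 ≤ τ * L
  D1 : lg t.D1 = lg f1 + lg D1'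
  B : lg t.B = BS (pf t)
  b1 : lg (E4RH858.b1 t) = beS t f2 + bfS t f2

/-- **`OkT`**; the two level dependent lines are hypotheses -/
theorem TrN.okT {L τ κ N M ao am cx d : ℝ} {i : ℕ} {x : Dt} {f : Eis} {OO : Finset (Eis × Eis)}
    {t : Tm OO} {f1 f2 D1' l m : Eis} {sc : ℝ} (hL : 0 < L) (hκ : 8 / 9 ≤ κ) (hτ : 0 ≤ τ)
    (h : TrN τ L κ N M ao am cx sc i x f t f1 f2 D1' l m)
    (h4 : 4 * (zTr (κ * L) i x f t f1 f2 D1' l m sc).s ≤
      topK (N / κ) (cx / κ) - (zTr (κ * L) i x f t f1 f2 D1' l m sc).v + 9 / 8 * d + 6 * τ)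
    (hb : 2 * (zTr (κ * L) i x f t f1 f2 D1' l m sc).β ≤
      topK (N / κ) (cx / κ) - (zTr (κ * L) i x f t f1 f2 D1' l m sc).v + 9 / 8 * d + 6 * τ) :
    OkT (6 * τ) (zTr (κ * L) i x f t f1 f2 D1' l m sc) d (1 / κ) (N / κ) (M / κ) (ao / κ) (am / κ)
      (cx / κ) :=
  okT_num hL hκ hτ h.sc h.e h.eW h.k h.nine h.ll h.mm h.β h.v1 h.lc h.mc h.f h4 hb

/-! ### derived lengths, ranges, the switch -/

section num

variable {Lg L τ κ N M ao am cx sc : ℝ} {i : ℕ} {x : Dt} {f : Eis} {OO : Finset (Eis × Eis)}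
  {t : Tm OO} {f1 f2 D1' l m : Eis}

lemma zlam (hG : Lg ≠ 0) : Lg * (zTr Lg i x f t f1 f2 D1' l m sc).lam =
    gS x t + 2 * kY x + kC x + 3 * lg (bo3 t) + lg (nu0 t.o.1.1 t.o.1.2) := by
  rw [← lg_bo3 x.e₀ t]
  unfold Cls.lam Cls.s0 zTr gS kY
  field_simp
  ring

lemma zus (hG : Lg ≠ 0) : Lg * (zTr Lg i x f t f1 f2 D1' l m sc).us =
    3 * (gS x t + kY x) + 6 * lg (bo3 t) := by
  rw [← lg_bo3 x.e₀ t]
  unfold Cls.us Cls.s0 zTr gS kY
  field_simp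
  ring

lemma zky (hG : Lg ≠ 0) : Lg * (zTr Lg i x f t f1 f2 D1' l m sc).ky =
    lg t.k + (gS x t + 2 * kY x + kC x + lg (nu0 t.o.1.1 t.o.1.2)) + 2 * (lg f1 + lg D1') +
      2 * (beS t f2 + bfS t f2) + tauS (pf t) := by
  unfold Cls.ky
  rw [mul_add, mul_add, mul_add, mul_add, mul_sub, mul_add, zlam hG, ← lg_bo3 x.e₀ t]
  unfold zTr
  field_simp
  ring

lemma zss (hG : Lg ≠ 0) : Lg * (zTr Lg i x f t f1 f2 D1' l m sc).ss =
    3 * (lg D1' + BS (pf t) + lg f1) + 3 * (gS x t + kY x) + 9 * lg (bo3 t) + 3 * sc := by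
  unfold Cls.ss
  rw [mul_add, mul_add, mul_add, zus hG, ← lg_bo3 x.e₀ t]
  unfold zTr
  field_simp
  ring

/-- `log` of the dual length without the classes -/
def K1L (L κ N M ao am : ℝ) (i : ℕ) (x : Dt) : ℝ :=
  (2 * (M + ao) + am - κ + 2 / 5 * (1 - (N + M + ao) + am)) * L + Real.log 2 * i +
    lg (∏ i, x.β i) / 2

lemma zK1 (hL : L ≠ 0) (hκ : κ ≠ 0) :
    κ * L * (zTr (κ * L) i x f t f1 f2 D1' l m sc).K1 (1 / κ) (N / κ) (M / κ) (ao / κ) (am / κ) =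
      K1L L κ N M ao am i x := by
  unfold Cls.K1 zTr K1L
  field_simp
  ring

/-- **the direct range** -/
theorem TrN.rD (h : TrN τ L κ N M ao am cx sc i x f t f1 f2 D1' l m) (hL : 0 < L)
    (hκ : 8 / 9 ≤ κ) (hτ : 0 ≤ τ) {M₃ : Eis} (hfa : Facts M₃ t) (hD : t.D1 ≠ 0)
    (hl : 0 < lD t.o)
    (hlam : kG x + 2 * kY x + 3 * kW x + kC x + lg (nu0 t.o.1.1 t.o.1.2) ≤ Real.log (lD t.o))
    {sw : Eis → Eis → Eis → Eis → Eis → Prop} {K : ℝ} (hr : rngD sw lD K t)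
    (hK : Real.log K ≤ κ * L - sc + 4 * τ * L) :
    (zTr (κ * L) i x f t f1 f2 D1' l m sc).k + (zTr (κ * L) i x f t f1 f2 D1' l m sc).lam +
      (zTr (κ * L) i x f t f1 f2 D1' l m sc).sc ≤
      1 - 2 * (zTr (κ * L) i x f t f1 f2 D1' l m sc).η -
        2 * (zTr (κ * L) i x f t f1 f2 D1' l m sc).F -
        2 * (zTr (κ * L) i x f t f1 f2 D1' l m sc).b1 -
        (zTr (κ * L) i x f t f1 f2 D1' l m sc).b -
        3 * (zTr (κ * L) i x f t f1 f2 D1' l m sc).B + 6 * τ := by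
  have hκ0 : 0 < κ := by linarith
  have hG : 0 < κ * L := mul_pos hκ0 hL
  have hs : 5 * τ * L ≤ 6 * τ * (κ * L) := by
    have : 0 ≤ τ * L := mul_nonneg hτ hL.le
    nlinarith
  have h1 := dir_log hfa hD h.k hl hr
  have h2 : kap lD t = Real.log (lD t.o) + lg t.k := by
    unfold kap lg
    exact Real.log_mul hl.ne' (nm_pos' h.k).ne'
  rw [h2, h.D1, h.b1] at h1
  have h3 := zlam (i := i) (x := x) (f := f) (t := t) (f1 := f1) (f2 := f2) (D1' := D1') (l := l)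
    (m := m) (sc := sc) hG.ne'
  obtain ⟨g3, g4⟩ := h.b3
  have g1 := h.g1
  have g2 := h.l2
  have d0 : ∀ y : ℝ, κ * L * (y / (κ * L)) = y := fun y => mul_div_cancel₀ y hG.ne'
  have e1 := d0 (lg t.k)
  have e2 := d0 sc
  have e3 := d0 (lg D1')
  have e4 := d0 (lg f1)
  have e5 := d0 (beS t f2)
  have e6 := d0 (bS (pf t) + 2 * bfS t f2)
  have e7 := d0 (BS (pf t))
  have l0 := log2_nonneg
  refine le_of_mul_le_mul_left ?_ hG
  rw [mul_add, mul_add, h3]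
  simp only [zTr]
  linarith

/-- **the dual range** -/
theorem TrN.rF (h : TrN τ L κ N M ao am cx sc i x f t f1 f2 D1' l m) (hL : 0 < L)
    (hκ : 8 / 9 ≤ κ) (hτ : 0 ≤ τ) {M₃ : Eis} (hfa : Facts M₃ t) (hD : t.D1 ≠ 0)
    (hl : 0 < lD t.o)
    (hlam : kG x + 2 * kY x + 3 * kW x + kC x + lg (nu0 t.o.1.1 t.o.1.2) ≤ Real.log (lD t.o))
    {sw : Eis → Eis → Eis → Eis → Eis → Prop} {Lr : ℝ} (hLr : 0 < Lr) (hr : rngF sw lD Lr t)
    (hK : Real.log Lr ≤ K1L L κ N M ao am i x + 3 * (kG x + kY x) + 6 * kW x + sc +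
      9 / 2 * τ * L) :
    (zTr (κ * L) i x f t f1 f2 D1' l m sc).k + (zTr (κ * L) i x f t f1 f2 D1' l m sc).lam ≤
      (zTr (κ * L) i x f t f1 f2 D1' l m sc).K1 (1 / κ) (N / κ) (M / κ) (ao / κ) (am / κ) +
        (zTr (κ * L) i x f t f1 f2 D1' l m sc).us + (zTr (κ * L) i x f t f1 f2 D1' l m sc).sc +
        (zTr (κ * L) i x f t f1 f2 D1' l m sc).η + (zTr (κ * L) i x f t f1 f2 D1' l m sc).F -
        2 * (zTr (κ * L) i x f t f1 f2 D1' l m sc).b1 -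
        (zTr (κ * L) i x f t f1 f2 D1' l m sc).b + 6 * τ := by
  have hκ0 : 0 < κ := by linarith
  have hG : 0 < κ * L := mul_pos hκ0 hL
  have hs : 5 * τ * L ≤ 6 * τ * (κ * L) := by
    have : 0 ≤ τ * L := mul_nonneg hτ hL.le
    nlinarith
  have h1 := fe_log hfa hD h.k hl hLr hr
  have h2 : kap lD t = Real.log (lD t.o) + lg t.k := by
    unfold kap lg
    exact Real.log_mul hl.ne' (nm_pos' h.k).ne'
  rw [h2, h.D1, h.b1] at h1
  have h3 := zlam (i := i) (x := x) (f := f) (t := t) (f1 := f1) (f2 := f2) (D1' := D1') (l := l)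
    (m := m) (sc := sc) hG.ne'
  have h4 := zus (i := i) (x := x) (f := f) (t := t) (f1 := f1) (f2 := f2) (D1' := D1') (l := l)
    (m := m) (sc := sc) hG.ne'
  have h5 := zK1 (N := N) (M := M) (ao := ao) (am := am) (i := i) (x := x) (f := f) (t := t)
    (f1 := f1) (f2 := f2) (D1' := D1') (l := l) (m := m) (sc := sc) hL.ne' hκ0.ne'
  obtain ⟨g3, g4⟩ := h.b3
  have g1 := h.g1
  have g0 := le_gS x t
  have g2 := h.l2
  have d0 : ∀ y : ℝ, κ * L * (y / (κ * L)) = y := fun y => mul_div_cancel₀ y hG.ne'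
  have e1 := d0 (lg t.k)
  have e2 := d0 sc
  have e3 := d0 (lg D1')
  have e4 := d0 (lg f1)
  have e5 := d0 (beS t f2)
  have e6 := d0 (bS (pf t) + 2 * bfS t f2)
  have l0 := log2_nonneg
  refine le_of_mul_le_mul_left ?_ hG
  have e8 : κ * L * ((zTr (κ * L) i x f t f1 f2 D1' l m sc).K1 (1 / κ) (N / κ) (M / κ) (ao / κ)
        (am / κ) + (zTr (κ * L) i x f t f1 f2 D1' l m sc).us +
        (zTr (κ * L) i x f t f1 f2 D1' l m sc).sc +
        (zTr (κ * L) i x f t f1 f2 D1' l m sc).η + (zTr (κ * L) i x f t f1 f2 D1' l m sc).F -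
        2 * (zTr (κ * L) i x f t f1 f2 D1' l m sc).b1 -
        (zTr (κ * L) i x f t f1 f2 D1' l m sc).b + 6 * τ) =
      K1L L κ N M ao am i x + (3 * (gS x t + kY x) + 6 * lg (bo3 t)) +
        κ * L * (sc / (κ * L)) + κ * L * (lg D1' / (κ * L)) + κ * L * (lg f1 / (κ * L)) -
        2 * (κ * L * (beS t f2 / (κ * L))) -
        κ * L * ((bS (pf t) + 2 * bfS t f2) / (κ * L)) + 6 * τ * (κ * L) := by
    rw [← h4, ← h5]
    simp only [zTr]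
    ring
  rw [e8, mul_add, h3]
  have e9 : κ * L * (zTr (κ * L) i x f t f1 f2 D1' l m sc).k = lg t.k := e1
  rw [e9]
  linarith

/-- the threshold of the switch -/
def swT (L κ N M ao am sc : ℝ) (i : ℕ) (x : Dt) : ℝ :=
  (κ * L - K1L L κ N M ao am i x - 3 * (kG x + kY x) - 9 * kW x - 3 * sc) / 3

/-- **the switch** -/
def swU (T : ℝ) : Eis → Eis → Eis → Eis → Eis → Prop := fun _ D1 B _ Z =>
  D1 ≠ 0 ∧ B ≠ 0 ∧ nm (rd Z) ≤ nm B ∧ lg D1 + lg B ≤ T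

lemma swU_T0 {T : ℝ} {D0 D1 B R Z : Eis} (h : swU T D0 D1 B R Z) :
    (nm D1 : ℝ) * nm (rd Z) ≤ 2 * (Real.exp T / 2) := by
  obtain ⟨h1, h2, h3, h4⟩ := h
  have e1 : (nm D1 : ℝ) * nm B ≤ Real.exp T := by
    rw [← exp_lg h1, ← exp_lg h2, ← Real.exp_add]
    exact Real.exp_le_exp.mpr h4
  have e2 : (nm (rd Z) : ℝ) ≤ nm B := by exact_mod_cast h3
  have e3 := mul_le_mul_of_nonneg_left e2 (Nat.cast_nonneg (nm D1) : (0 : ℝ) ≤ nm D1)
  linarith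

lemma rd_le {B Z : Eis} (hB : B ≠ 0) (h : PrI B Z) : nm (rd Z) ≤ nm B := by
  refine Crest.Agent.R012.Div277.nm_le_of_dvd hB ?_
  unfold rd
  exact (ppSet_pp Z).prod_dvd.mpr fun p hp => h.2 p (isPP_of_mem_pp hp).prime (dvd_of_mem_pp hp)

/-- **direct side of the switch** -/
theorem TrN.nsw (h : TrN τ L κ N M ao am cx sc i x f t f1 f2 D1' l m) (hL : 0 < L)
    (hκ : 8 / 9 ≤ κ) {M₃ : Eis} (hfa : Facts M₃ t) (hD : t.D1 ≠ 0)
    (hs : ¬ swU (swT L κ N M ao am sc i x) t.D0 t.D1 t.B t.R t.Z) :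
    1 - (zTr (κ * L) i x f t f1 f2 D1' l m sc).K1 (1 / κ) (N / κ) (M / κ) (ao / κ) (am / κ) ≤
      (zTr (κ * L) i x f t f1 f2 D1' l m sc).ss := by
  have hκ0 : 0 < κ := by linarith
  have hG : 0 < κ * L := mul_pos hκ0 hL
  have hB0 : t.B ≠ 0 := hfa.sB.ne_zero
  have h1 : swT L κ N M ao am sc i x < lg t.D1 + lg t.B := by
    by_contra hc
    push Not at hc
    exact hs ⟨hD, hB0, rd_le hB0 hfa.pZ, hc⟩
  have h4 := zss (i := i) (x := x) (f := f) (t := t) (f1 := f1) (f2 := f2) (D1' := D1') (l := l)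
    (m := m) (sc := sc) hG.ne'
  have h5 := zK1 (N := N) (M := M) (ao := ao) (am := am) (i := i) (x := x) (f := f) (t := t)
    (f1 := f1) (f2 := f2) (D1' := D1') (l := l) (m := m) (sc := sc) hL.ne' hκ0.ne'
  have g3 := h.b3.1
  have g0 := le_gS x t
  unfold swT at h1
  rw [h.D1, h.B] at h1
  refine le_of_mul_le_mul_left ?_ hG
  rw [mul_sub, h4, h5]
  linarith

/-- **dual side of the switch** -/
theorem TrN.sw (h : TrN τ L κ N M ao am cx sc i x f t f1 f2 D1' l m) (hL : 0 < L)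
    (hκ : 8 / 9 ≤ κ) (hτ : 0 ≤ τ)
    (hs : swU (swT L κ N M ao am sc i x) t.D0 t.D1 t.B t.R t.Z) :
    (zTr (κ * L) i x f t f1 f2 D1' l m sc).ss ≤
      1 - (zTr (κ * L) i x f t f1 f2 D1' l m sc).K1 (1 / κ) (N / κ) (M / κ) (ao / κ) (am / κ) +
        6 * τ := by
  have hκ0 : 0 < κ := by linarith
  have hG : 0 < κ * L := mul_pos hκ0 hL
  have hs' : 5 * τ * L ≤ 6 * τ * (κ * L) := by
    have : 0 ≤ τ * L := mul_nonneg hτ hL.le
    nlinarith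
  obtain ⟨-, -, -, h1⟩ := hs
  have h4 := zss (i := i) (x := x) (f := f) (t := t) (f1 := f1) (f2 := f2) (D1' := D1') (l := l)
    (m := m) (sc := sc) hG.ne'
  have h5 := zK1 (N := N) (M := M) (ao := ao) (am := am) (i := i) (x := x) (f := f) (t := t)
    (f1 := f1) (f2 := f2) (D1' := D1') (l := l) (m := m) (sc := sc) hL.ne' hκ0.ne'
  have g3 := h.b3.2
  have g0 := h.g1
  have g2 := h.l2
  have l0 := log2_nonneg
  unfold swT at h1
  rw [h.D1, h.B] at h1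
  refine le_of_mul_le_mul_left ?_ hG
  rw [mul_add, mul_sub, h4, h5]
  linarith

/-- **the outer parameter** -/
theorem TrN.lam (h : TrN τ L κ N M ao am cx sc i x f t f1 f2 D1' l m) (hL : 0 < L)
    (hκ : 8 / 9 ≤ κ)
    (h1 : kG x + 2 * kY x + 3 * kW x + kC x + lg (nu0 t.o.1.1 t.o.1.2) ≤ Real.log (lD t.o))
    (h2 : Real.log (lD t.o) ≤ kG x + 2 * kY x + 3 * kW x + kC x + lg (nu0 t.o.1.1 t.o.1.2) +
      11 * Real.log 2) :
    |κ * L * (zTr (κ * L) i x f t f1 f2 D1' l m sc).lam - Real.log (lD t.o)| ≤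
      11 * Real.log 2 := by
  have hG : 0 < κ * L := mul_pos (by linarith) hL
  have h3 := zlam (i := i) (x := x) (f := f) (t := t) (f1 := f1) (f2 := f2) (D1' := D1') (l := l)
    (m := m) (sc := sc) hG.ne'
  obtain ⟨g3, g4⟩ := h.b3
  have g1 := h.g1
  have g0 := le_gS x t
  have l0 := log2_nonneg
  rw [h3, abs_le]
  constructor <;> linarith

/-- **the weight** -/
theorem lg_W0 (hG : Lg ≠ 0) :
    2 * Real.log ((nm (be1 x.e₀ (bo3 t)) : ℝ) * wP f (pf t)) =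
      Lg * (2 * (zTr Lg i x f t f1 f2 D1' l m sc).W + (zTr Lg i x f t f1 f2 D1' l m sc).al -
        2 * (zTr Lg i x f t f1 f2 D1' l m sc).E) + bfS t f2 := by
  have h1 := nm_pos' (be1_prim x.e₀ (bo3 t)).ne_zero
  rw [wP_eq, Real.log_mul h1.ne' (Real.exp_pos _).ne', Real.log_exp]
  have e : Real.log (nm (be1 x.e₀ (bo3 t))) = lg (be1 x.e₀ (bo3 t)) := rfl
  rw [e]
  unfold zTr
  field_simp
  ring

end num

section cls

variable {Λ : Type*} {π : Λ → DPar} {h : ℝ → ℝ} {lam : Λ × Eis}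
  {Jf : ℝ → ℝ → ℝ → Finset (Eis × Eis)}
  {a : Bd × ℕ} {x : Dt} {Bf : ℝ → ℝ → ℝ → ℝ} {e0 r ε X : ℝ} {t : Tm (x.O π lam Jf a)}

lemma lg_β_le (hBf : ∀ l N z, Bf l N z ≤ bfO l N z) (hx : x.OK (π lam.1) Bf e0 r ε X a.1) :
    lg (∏ i, x.β i) ≤ a3 a.1 + a.1.z - a.1.l / 2 := by
  have h1 := (SSb54.mem_PTb.mp hx.β).2
  have h2 := Real.log_le_log (nm_pos' (T3_prim x.β hx.β).ne_zero) h1
  rw [Real.log_exp] at h2
  exact h2.trans (hBf _ _ _)

lemma pf_β (hx : x.OK (π lam.1) Bf e0 r ε X a.1) : Asm986.Pf (∏ i, x.β i) := by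
  classical
  have h1 := (SSb54.mem_PTb.mp hx.β).1
  unfold E5k54.PT at h1
  exact (mem_filter.mp h1).2

/-- **the lengths of a term**, from the length of the `x`-side and the `e₀`-split -/
theorem trN_gen (hJ : ∀ l N z, OKJ (Jf l N z)) {A τ δ L : ℝ} {ps : List Pq}
    {q : (Option (Fin 3 ⊕ Fin 5) → ℝ) × (Kd → ℝ)} (H : FrV δ L a ps q) (hN : Nr5 A (dn q.1) q.2)
    (hL : 0 < L) (hδ : 0 ≤ δ) (hδτ : δ ≤ τ) (hτ1 : τ ≤ 1 / 2) (h2 : 28 * Real.log 2 ≤ τ * L)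
    (ha : a.1.ok) (hP : a.1.okP (π lam.1)) (hn : (π lam.1).n₃ ≠ 0)
    (hx : x.OK (π lam.1) Bf e0 r ε X a.1) (he1 : 64 * e0 ≤ 1)
    (hβ : lg (∏ i, x.β i) ≤ a3 a.1 + a.1.z - a.1.l / 2)
    (hf : Facts (π lam.1).n₃ t) (hok : t.OK (π lam.1).n₃ 1)
    (hg : gS x t ≤ kG x + Real.log 2)
    (hlen : RS (pf t) + x.m 1 2 * Real.log 2 + kY x + 2 * kC x +
      2 * lg (nu0 t.o.1.1 t.o.1.2) ≤ Real.log 2 * a.2 + 28 * Real.log 2)
    {f1 f2 f3 D1' Z'' l m : Eis}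
    (s : Spl (π lam.1).n₃ (fN (π lam.1).n₃ (x.E a.1)) x.z t f1 f2 f3 D1' Z'' l m)
    (hl : lg l + lg D1' ≤ lam' ps + τ * L) (hm : lg m ≤ lmo a.1 ps + τ * L) {sc : ℝ}
    (hsc : 0 ≤ sc) :
    TrN τ L (cκ (dn q.1)) (cN (dn q.1)) (cM (dn q.1)) (q.2 .mo) (q.2 .am) (cx' (dn q.1)) sc a.2 x
      (fN (π lam.1).n₃ (x.E a.1)) t f1 f2 D1' l m := by
  have hτ : 0 ≤ τ := hδ.trans hδτ
  have hδL : δ * L ≤ τ * L := mul_le_mul_of_nonneg_right hδτ hL.le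
  have hδL0 : 0 ≤ δ * L := mul_nonneg hδ hL.le
  obtain ⟨e1, e2, e3⟩ := e0_prim hx
  have hκ := abs_le.mp H.κ
  have hx' := abs_le.mp H.x
  have he := abs_le.mp H.e
  have hu2 := abs_le.mp (H.u 2)
  have hu3 := abs_le.mp (H.u 3)
  have hu4 := abs_le.mp (H.u 4)
  have ham := abs_le.mp H.am
  have hmo := abs_le.mp H.mo
  have hκ0 := hN.κ0
  have hl0 : 0 ≤ a.1.l := by nlinarith [hκ.1]
  have hEp : IsPrim (x.E a.1) := hP.1.prim.mul (T3_prim x.β hx.β)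
  have hβp := T3_prim x.β hx.β
  have hcN : cN (dn q.1) = cu (dn q.1) 2 + cu (dn q.1) 3 + cu (dn q.1) 4 := rfl
  refine ⟨hsc, ?_, lg_le_of_dvd e1.ne_zero (be2_dvd e1), hok.sk.ne_zero,
    nine_bf s hf hok fun p hp hd => ?_, spl_l s hf hok, spl_m s hf hok, ?_, ?_, ?_, ?_, ?_, hg,
    lg_b3 hJ ha hP hx t.o, h2, ?_, lgB hf, lg_b1 t f2⟩
  · -- e
    have h3 : 64 * (e0 * a.1.l) ≤ a.1.l := by nlinarith
    nlinarith [hκ.2]
  · have h3 := fN_cube hn hEp hp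
    have h4 := (pow_dvd_iff hp (fM_spec hn hEp).2.1.ne_zero).mp hd
    omega
  · -- β
    unfold a3 at hβ
    rw [hcN]
    nlinarith [hu2.2, hu3.2, hu4.2, hx'.2, hκ.1]
  · -- v1
    rw [RS_eq hf.loc] at hlen
    have h4 : kY x = (x.m 0 1 + x.m 1 1) * Real.log 2 + x.m 1 2 * Real.log 2 := by
      unfold kY; ring
    rw [h4] at hlen
    have h5 : 0 ≤ τ * L := mul_nonneg hτ hL.le
    linarith
  · -- lc
    have h5 : 0 ≤ τ * L := mul_nonneg hτ hL.le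
    linarith [ham.2]
  · -- mc
    have h5 : 0 ≤ τ * L := mul_nonneg hτ hL.le
    linarith [hmo.2]
  · -- f
    have h3 := spl_e s hf hok
    have h4 : lg (fN (π lam.1).n₃ (x.E a.1)) ≤ 2 / 5 * lg a.1.e + 1 / 2 * lg (∏ i, x.β i) :=
      lg_fN_le hn hP.1.prim hβp hP.2.1 (pf_β hx)
    have h5 : 0 ≤ τ * L := mul_nonneg hτ hL.le
    have h6 := hN.D
    have h7 : ce (dn q.1) * L ≤ (1 - (cN (dn q.1) + cM (dn q.1) + q.2 .mo) + q.2 .am) * L :=
      mul_le_mul_of_nonneg_right (by linarith) hL.le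
    linarith [he.2]
  · rw [s.hD]
    refine lg_mul s.s1.ne_zero fun h0 => hok.pD1.ne_zero ?_
    rw [s.hD, h0, mul_zero]

/-- **class N** -/
theorem trN_of (hJ : ∀ l N z, OKJ (Jf l N z)) {A τ δ L : ℝ} {ps : List Pq}
    {q : (Option (Fin 3 ⊕ Fin 5) → ℝ) × (Kd → ℝ)} (H : FrV δ L a ps q) (hN : Nr5 A (dn q.1) q.2)
    (hL : 0 < L) (hδ : 0 ≤ δ) (hδτ : δ ≤ τ) (hτ1 : τ ≤ 1 / 2) (h2 : 28 * Real.log 2 ≤ τ * L)
    (ha : a.1.ok) (hP : a.1.okP (π lam.1)) (hn : (π lam.1).n₃ ≠ 0)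
    (hBf : ∀ l N z, Bf l N z ≤ bfO l N z)
    (hx : x.OK (π lam.1) Bf e0 r ε X a.1) (he1 : 64 * e0 ≤ 1)
    {h₁ : FS (b1 (π lam.1) h lam.2 ps)} {h₂ : FS (b2 (π lam.1) h lam.2 a.1 ps)}
    {G : Eis → ℂ} (hf : Facts (π lam.1).n₃ t) (hok : t.OK (π lam.1).n₃ 1)
    (hval : t.val 1 lD (x.v π h lam Jf a) (x.w π h lam Jf a ps h₁ h₂) G ≠ 0)
    {f1 f2 f3 D1' Z'' l m : Eis}
    (s : Spl (π lam.1).n₃ (fN (π lam.1).n₃ (x.E a.1)) x.z t f1 f2 f3 D1' Z'' l m)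
    (hl : lg l + lg D1' ≤ lam' ps + τ * L) (hm : lg m ≤ lmo a.1 ps + τ * L) :
    TrN τ L (cκ (dn q.1)) (cN (dn q.1)) (cM (dn q.1)) (q.2 .mo) (q.2 .am) (cx' (dn q.1)) 0 a.2 x
      (fN (π lam.1).n₃ (x.E a.1)) t f1 f2 D1' l m := by
  refine trN_gen hJ H hN hL hδ hδτ hτ1 h2 ha hP hn hx he1 (lg_β_le hBf hx) hf hok ?_
    (len_x hJ ha hP hn hx hf hval) s hl hm le_rfl
  rw [gS_eq]
  exact max_le (e0_split hJ ha hP hn hx (val_ne hval).2.1) (by linarith [log2_nonneg])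

end cls

end Crest.Agent.R017.E4St352
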