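import Crest.Agent.R017.E4Uc_164

/-!
# Row 17, R8 / E5, consumer of E4 : splitting of the index set (helper164)

* `E4L_split` : `E4L` of the dictionary is additive in the index set
* `kS`, `In`, `EL_split` : `EL` through the local classes of `(S_q, j)`
-/

set_option autoImplicit false

noncomputable section

open Finset Complex
open scoped ComplexConjugate

namespace Crest.Agent.R017.E4U164

open Crest.Agent.R012 Crest.Agent.R012.Eis
open Crest.Agent.R012.Mob705 hiding pb mem_pb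
open Crest.Agent.R012.LS2 (S mem_S)
open Crest.Agent.R017.Sx545 (Sm)
open Crest.Agent.R017.CM106 (FS)
open Crest.Agent.R017.C70 Crest.Agent.R017.GrB829 Crest.Agent.R017.GrD829
open Crest.Agent.R017.E2440
open Crest.Agent.R017.End699 (HC)
open Crest.Agent.R017.E4352 (PrI rd)
open Crest.Agent.R017.E4K164 (dc dc_spec)
open Crest.Agent.R017.E4D164

section split

variable {A : Type*} {M : Eis} {ψ : Eis → ℂ} {l : ℤ} {f : Eis} {I : Finset A} {s δ j : A → Eis}
  {c : A → ℂ} {c₀ g : Eis}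

open Classical in
lemma pu_split {B κT : Type*} {I : Finset B} {X : B → Eis} {a : B → ℂ} {κ : B → κT}
    {N : Finset κT} (hκ : ∀ i ∈ I, κ i ∈ N) (x : Eis) :
    pu M I X a g x = ∑ n ∈ N, pu M (I.filter (fun i => κ i = n)) X a g x := by
  unfold pu
  by_cases hx : Sm M x
  · simp only [if_pos hx]
    rw [← sum_fiberwise_of_maps_to (s := I.filter (fun i => X i = g * x)) (t := N) (g := κ)
      (fun i hi => hκ i (mem_filter.mp hi).1)]
    refine sum_congr rfl fun n _ => ?_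
    refine sum_congr ?_ fun _ _ => rfl
    ext i
    simp only [mem_filter]
    tauto
  · simp only [if_neg hx]
    rw [sum_const_zero]

open Classical in
lemma vI_split {κT : Type*} {κ : A → κT} {N : Finset κT} (hκ : ∀ i ∈ I, κ i ∈ N) (o : Eis × Eis)
    (x : Eis) : vI M ψ l f I s δ j c c₀ g o x =
      ∑ n ∈ N, vI M ψ l f (I.filter (fun i => κ i = n)) s δ j c c₀ g o x := by
  unfold vI
  have h0 : ∀ i ∈ II I s j c₀ o, κ i ∈ N := by
    intro i hi
    unfold II at hi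
    exact hκ i (mem_filter.mp hi).1
  rw [pu_split h0]
  refine sum_congr rfl fun n _ => ?_
  congr 1
  unfold II
  ext i
  simp only [mem_filter]
  tauto

open Classical in
lemma vI_zero {I' : Finset A} {o : Eis × Eis} (ho : Sm M (o.1 * o.2)) (h : o ∉ OU M I' s j)
    (x : Eis) : vI M ψ l f I' s δ j c c₀ g o x = 0 := by
  by_contra h0
  unfold vI at h0
  obtain ⟨-, i, hi, -, -⟩ := pu_ne h0
  apply h
  unfold II at hi
  rw [mem_filter] at hi
  unfold OU
  rw [mem_filter, mem_image]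
  refine ⟨⟨i, hi.1, ?_⟩, ho⟩
  rw [hi.2.2.1, hi.2.2.2]

open Classical in
/-- **`E4L` is additive in the index set** -/
theorem E4L_split {κT : Type*} (hM : M ≠ 0) (hI : OKI I s δ j c) (hg : PrI M g) (χ : Eis → ℂ) (l' : ℤ)
    (V : ℝ → ℂ) (K : ℝ) (L : Eis × Eis → ℝ) (w : Eis × Eis → Eis → ℂ) (f' : Eis)
    {κ : A → κT} {N : Finset κT} (hκ : ∀ i ∈ I, κ i ∈ N) :
    E4L M f' χ l' V K (O := OU M I s j) (fun o => L o.1)
        (fun o => vI M ψ l f I s δ j c c₀ g o.1) (fun o => w o.1) =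
      ∑ n ∈ N, E4L M f' χ l' V K (O := OU M (I.filter (fun i => κ i = n)) s j)
        (fun o => L o.1) (fun o => vI M ψ l f (I.filter (fun i => κ i = n)) s δ j c c₀ g o.1)
        (fun o => w o.1) := by
  set G : Eis × Eis → Eis → ℂ := fun o x => ∑' y : Eis, w o y *
    NT (M * (f' * y)) (f' * x * y) (fun k => End699.tw χ l' k * V (nm k * L o / K)) with hG
  have e0 : ∀ (OO : Finset (Eis × Eis)) (v : Eis × Eis → Eis → ℂ),
      E4L M f' χ l' V K (O := OO) (fun o => L o.1) (fun o => v o.1) (fun o => w o.1) =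
        ∑ o ∈ OO, ∑' x : Eis, v o x * G o x := by
    intro OO v
    unfold E4L
    rw [← Finset.sum_coe_sort OO]
  rw [e0 _ (fun o => vI M ψ l f I s δ j c c₀ g o)]
  have h1 : ∀ n ∈ N, E4L M f' χ l' V K (O := OU M (I.filter (fun i => κ i = n)) s j)
      (fun o => L o.1) (fun o => vI M ψ l f (I.filter (fun i => κ i = n)) s δ j c c₀ g o.1)
      (fun o => w o.1) = ∑ o ∈ OU M I s j, ∑' x : Eis,
        vI M ψ l f (I.filter (fun i => κ i = n)) s δ j c c₀ g o x * G o x := by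
    intro n _
    rw [e0 _ (fun o => vI M ψ l f (I.filter (fun i => κ i = n)) s δ j c c₀ g o)]
    refine sum_subset ?_ ?_
    · intro o ho
      unfold OU at ho ⊢
      rw [mem_filter, mem_image] at ho ⊢
      obtain ⟨⟨i, hi, h2⟩, h3⟩ := ho
      exact ⟨⟨i, (mem_filter.mp hi).1, h2⟩, h3⟩
    · intro o ho ho'
      have hs : Sm M (o.1 * o.2) := by
        unfold OU at ho
        exact (mem_filter.mp ho).2
      refine (tsum_congr fun x => ?_).trans tsum_zero
      rw [vI_zero hs ho', zero_mul]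
  rw [sum_congr rfl h1, sum_comm]
  refine sum_congr rfl fun o _ => ?_
  have h2 : ∀ n ∈ N, Summable fun x : Eis =>
      vI M ψ l f (I.filter (fun i => κ i = n)) s δ j c c₀ g o x * G o x := by
    intro n _
    have hI' : OKI (I.filter (fun i => κ i = n)) s δ j c :=
      { s := fun i hi => hI.s i (mem_filter.mp hi).1
        prim := fun i hi => hI.prim i (mem_filter.mp hi).1
        sqf := fun i hi => hI.sqf i (mem_filter.mp hi).1
        jc := fun i hi => hI.jc i (mem_filter.mp hi).1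
        cop := fun i hi => hI.cop i (mem_filter.mp hi).1 }
    have hfin := (ssm_vI (ψ := ψ) (l := l) (f := f) (c₀ := c₀) (o := o) hM hI' hg).fin
    refine summable_of_hasFiniteSupport (hfin.subset fun x hx => ?_)
    exact left_ne_zero_of_mul (Function.mem_support.mp hx)
  rw [← Summable.tsum_finsetSum h2]
  refine tsum_congr fun x => ?_
  rw [vI_split hκ o x, sum_mul]

end split

/-- the class of `(q, (δ, j))` -/
def kS (g e₀ t : Eis) (i : Eis × (Eis × Eis)) (a : Fin 2) (b : Fin 3) : ℕ :=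
  Nat.log 2 (nm (pS a b (sS g e₀ t i.1) i.2.2))

/-- the classes below `N` -/
def Kl (N : ℕ) : Finset (Fin 2 → Fin 3 → ℕ) :=
  Fintype.piFinset fun _ => Fintype.piFinset fun _ => range N

lemma card_Kl (N : ℕ) : (Kl N).card = N ^ 6 := by
  unfold Kl
  rw [Fintype.card_piFinset]
  simp only [Fintype.card_piFinset, card_range, prod_const, card_univ, Fintype.card_fin]
  ring

open Classical in
/-- the fibre -/
def fib {A κT : Type*} (I : Finset A) (κ : A → κT) (n : κT) : Finset A := I.filter (fun i => κ i = n)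

lemma mem_fib {A κT : Type*} {I : Finset A} {κ : A → κT} {n : κT} {i : A} :
    i ∈ fib I κ n ↔ i ∈ I ∧ κ i = n := by
  classical
  unfold fib
  rw [mem_filter]

open Classical in
/-- the full class `m` -/
def In (Q : Finset Eis) (J : Finset (Eis × Eis)) (g e₀ t : Eis) (m : Fin 2 → Fin 3 → ℕ) :
    Finset (Eis × (Eis × Eis)) := (Q ×ˢ J).filter fun i => ∀ b c,
  2 ^ m b c ≤ nm (pS b c (sS g e₀ t i.1) i.2.2) ∧
    nm (pS b c (sS g e₀ t i.1) i.2.2) < 2 ^ (m b c + 1)

lemma pS_dvd (a : Fin 2) (b : Fin 3) (s j : Eis) : pS a b s j ∣ ∏ p ∈ pp s, p := by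
  classical
  unfold pS
  exact prod_dvd_prod_of_subset _ _ _ (filter_subset _ _)

lemma pS_ne (a : Fin 2) (b : Fin 3) (s j : Eis) : pS a b s j ≠ 0 := by
  classical
  unfold pS
  rw [prod_ne_zero_iff]
  intro p hp
  have h := (mem_filter.mp hp).1
  unfold pp at h
  exact (mem_filter.mp h).2.1.ne_zero

lemma In_eq (Q : Finset Eis) (J : Finset (Eis × Eis)) (g e₀ t : Eis) (m : Fin 2 → Fin 3 → ℕ) :
    fib (Q ×ˢ J) (kS g e₀ t) m = In Q J g e₀ t m := by
  classical
  unfold In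
  ext i
  rw [mem_fib, mem_filter]
  refine and_congr_right fun _ => ⟨?_, ?_⟩
  · rintro rfl a b
    have hp : nm (pS a b (sS g e₀ t i.1) i.2.2) ≠ 0 := (nm_pos.mpr (pS_ne _ _ _ _)).ne'
    exact ⟨Nat.pow_log_le_self 2 hp, Nat.lt_pow_succ_log_self (by norm_num) _⟩
  · intro h
    funext a b
    have hp : nm (pS a b (sS g e₀ t i.1) i.2.2) ≠ 0 := (nm_pos.mpr (pS_ne _ _ _ _)).ne'
    exact (Nat.log_eq_iff (Or.inr ⟨by norm_num, hp⟩)).mpr (h a b)

lemma nm_pS_le {s : Eis} (hs : s ≠ 0) (a : Fin 2) (b : Fin 3) (j : Eis) :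
    nm (pS a b s j) ≤ nm s := by
  obtain ⟨t, ht⟩ := (pS_dvd a b s j).trans (prod_pp_dvd s)
  have h1 : nm s = nm (pS a b s j) * nm t := by rw [← nm_mul, ← ht]
  rw [h1]
  refine Nat.le_mul_of_pos_right _ (nm_pos.mpr ?_)
  rintro rfl
  exact hs (by rw [ht, mul_zero])

open Classical in
/-- **`EL` through the local classes, the symbol part on the `y`-side** -/
theorem EL_split {M : Eis} (hM : M ≠ 0) (ψ : Eis → ℂ) (l : ℤ) (V : ℝ → ℂ) (K : ℝ)
    {Q : Finset Eis} {g e₀ t : Eis} (hs : ∀ q ∈ Q, IsPrim (sS g e₀ t q)) (ph : Eis → ℂ)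
    {J : Finset (Eis × Eis)} (hJ : OKJ J) (om : Eis × Eis → ℂ) (b₁ b₂ : Eis → ℂ)
    (L : Finset (Eis × Eis)) {E : Eis} (hE : fN M E ≠ 0) (α : Eis → ℂ) {c₀ g' z : Eis}
    (hg : PrI M g') {N : ℕ} (hN : ∀ q ∈ Q, nm (sS g e₀ t q) < 2 ^ N) :
    EL M ψ l V K Q (fun q => q ^ 2 * g) ph J om b₁ b₂ L E α e₀ t c₀ g' z =
      ∑ m ∈ Kl N, E4L M 1 (psd (psE M ψ E) (c₀ * g' * z)) (-l) (V1 V) K
        (O := OD M (In Q J g e₀ t m) g e₀ t) lD
        (fun o => vX M ψ l (In Q J g e₀ t m) om ph E α g e₀ t c₀ g' o)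
        (fun o => wX M b₁ b₂ L E z o) := by
  have hs' : ∀ b ∈ Q, IsPrim (sE (fun q => q ^ 2 * g) e₀ t b) := hs
  have hI : OKI (Q ×ˢ J) (jS (sE (fun q => q ^ 2 * g) e₀ t)) jD (jJ (sE (fun q => q ^ 2 * g) e₀ t))
      (jC (sE (fun q => q ^ 2 * g) e₀ t) (cE ph om α e₀)) :=
    okI hs' hJ (fun b _ x _ hx => TE_cop (by
      unfold cE at hx
      exact right_ne_zero_of_mul (right_ne_zero_of_mul hx)))
  unfold EL
  rw [E4L_split hM hI hg (psd (psE M ψ E) (c₀ * g' * z)) (-l) (V1 V) K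
    (fun o => (nm (o.1 * o.2) : ℝ)) (fun o => wI M b₁ b₂ L z o) (fN M E)
    (κ := kS g e₀ t) (N := Kl N) (fun i hi => ?_)]
  · refine sum_congr rfl fun m _ => ?_
    have e1 := In_eq Q J g e₀ t m
    unfold fib at e1
    rw [e1, E4L_one hE]
    rfl
  · have hq := (mem_product.mp hi).1
    unfold Kl
    rw [Fintype.mem_piFinset]
    intro a
    rw [Fintype.mem_piFinset]
    intro b
    rw [mem_range]
    unfold kS
    refine Nat.log_lt_of_lt_pow (nm_pos.mpr (pS_ne _ _ _ _)).ne' ?_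
    exact (nm_pS_le (hs _ hq).ne_zero _ _ _).trans_lt (hN _ hq)

lemma Dt.I_eq (Jf : ℝ → ℝ → ℝ → Finset (Eis × Eis)) (a : E5B71.Bd × ℕ) (x : Dt) :
    x.I Jf a = In x.Q (J3 Jf a.1 a.2) x.g x.e₀ x.t x.m := rfl

end Crest.Agent.R017.E4U164
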