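import Crest.Agent.R012.Model_705
import Crest.Agent.R012.LatW_413

/-!
# Row 17: the mean of `PE(c)` over squarefree primary `c` coprime to `a` (helper571)

* `sum_PE_wt` : `∑_{c squarefree, (c,a)=1} PE(c) v(nm c / X)
     = κP LP(a) X ∫ v + O(sig a √X (1 + log (1 + X)))`, `LP a = ∏_{p ∣ a} (1 + (1 - 1/q)/q)⁻¹`.
-/

set_option autoImplicit false

noncomputable section

open MeasureTheory Set Filter Topology Finset

namespace Crest.Agent.R017.FYm571

open Crest.Agent.R012 Crest.Agent.R012.Eis Crest.Agent.R012.Mob705 Crest.Agent.R012.Abel705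
open Crest.Agent.R012.Lat277 Crest.Agent.R012.Div277 Crest.Agent.R012.Model705

lemma PE_mul {a b : Eis} (ha : a ≠ 0) (hb : b ≠ 0) (h : IsCoprime a b) :
    PE (a * b) = PE a * PE b := by
  classical
  unfold PE
  rw [pp_mul ha hb, Finset.prod_union (pp_disjoint h)]

lemma LF_mul {a b : Eis} (ha : a ≠ 0) (hb : b ≠ 0) (h : IsCoprime a b) :
    LF (a * b) = LF a * LF b := by
  classical
  unfold LF
  rw [pp_mul ha hb, Finset.prod_union (pp_disjoint h)]

lemma sig_mul {a b : Eis} (ha : a ≠ 0) (hb : b ≠ 0) (h : IsCoprime a b) :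
    sig (a * b) = sig a * sig b := by
  classical
  unfold sig
  rw [pp_mul ha hb, Finset.prod_union (pp_disjoint h)]

lemma PE_prime {p : Eis} (hp : IsPP p) : PE p = 1 - 1 / (nm p : ℝ) := by
  unfold PE; rw [pp_prime hp, Finset.prod_singleton]

/-- `∑_{b squarefree, (b,a)=1, nm b ≤ Y} PE b` -/
def T (a : Eis) (Y : ℝ) : ℝ := ∑ b ∈ sfc a Y, PE b

lemma T_nonneg (a : Eis) (Y : ℝ) : 0 ≤ T a Y := Finset.sum_nonneg fun b _ => (PE_pos b).le

open Classical in
lemma sfc_filter_dvd {a b : Eis} {Y : ℝ} (hb : IsPrim b) (hba : IsCoprime b a)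
    (hbs : Squarefree b) :
    (sfc a Y).filter (fun c => b ∣ c) = (sfc (a * b) (Y / nm b)).map (mulEmb b hb.ne_zero) := by
  have hdp : (0 : ℝ) < nm b := by exact_mod_cast nm_pos.mpr hb.ne_zero
  ext c
  simp only [Finset.mem_filter, Finset.mem_map, mulEmb_apply, mem_sfc]
  constructor
  · rintro ⟨⟨⟨h1, h2⟩, h3, h4⟩, m, rfl⟩
    have h5 := squarefree_mul_iff.mp h4
    refine ⟨m, ⟨⟨?_, h2.of_mul_left hb⟩, ?_, h5.2.2⟩, rfl⟩
    · rw [le_div_iff₀ hdp, mul_comm]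
      rw [nm_mul] at h1
      exact_mod_cast h1
    · exact h3.of_mul_left_right.mul_right h5.1.isCoprime.symm
  · rintro ⟨m, ⟨⟨h1, h2⟩, h3, h4⟩, rfl⟩
    refine ⟨⟨⟨?_, hb.mul h2⟩, hba.mul_left h3.of_mul_right_left, ?_⟩, dvd_mul_right _ _⟩
    · rw [nm_mul]
      rw [le_div_iff₀ hdp, mul_comm] at h1
      exact_mod_cast h1
    · exact squarefree_mul_iff.mpr ⟨h3.of_mul_right_right.symm.isRelPrime, hbs, h4⟩

lemma T_eq (a : Eis) (Y : ℝ) :
    T a Y = ∑ b ∈ sfc a Y, (muE b : ℝ) * (1 / (nm b : ℝ)) *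
      ((sfc (a * b) (Y / nm b)).card : ℝ) := by
  classical
  unfold T
  have h1 : ∀ c ∈ sfc a Y, PE c = ∑ b ∈ sfc a Y,
      (if b ∣ c then (muE b : ℝ) * (1 / (nm b : ℝ)) else 0) := by
    intro c hc
    rw [mem_sfc] at hc
    rw [PE_eq_sum hc.1.2.ne_zero, ← Finset.sum_filter]
    refine Finset.sum_congr ?_ fun _ _ => rfl
    ext b
    rw [mem_dvs hc.1.2.ne_zero, Finset.mem_filter, mem_sfc]
    constructor
    · rintro ⟨h1, h2⟩
      refine ⟨⟨⟨?_, h1⟩, IsCoprime.of_isCoprime_of_dvd_left hc.2.1 h2, hc.2.2.squarefree_of_dvd h2⟩, h2⟩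
      have h3 := nm_le_of_dvd hc.1.2.ne_zero h2
      exact (Nat.cast_le.mpr h3).trans hc.1.1
    · rintro ⟨⟨⟨_, h1⟩, _⟩, h2⟩
      exact ⟨h1, h2⟩
  rw [Finset.sum_congr rfl h1, Finset.sum_comm]
  refine Finset.sum_congr rfl fun b hb => ?_
  rw [mem_sfc] at hb
  rw [← Finset.sum_filter, Finset.sum_const, sfc_filter_dvd hb.1.2 hb.2.1 hb.2.2,
    Finset.card_map, nsmul_eq_mul, mul_comm]

/-! ### The constant -/

open Classical in
/-- terms of the series `∑ μ(b) LF(b) / (N b)²` -/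
def zp (a b : Eis) : ℝ :=
  if IsPrim b ∧ IsCoprime b a then (muE b : ℝ) * LF b / (nm b : ℝ) ^ 2 else 0

open Classical in
lemma abs_zp_le (a b : Eis) : |zp a b| ≤ |if IsPrim b ∧ IsCoprime b a then
    (1 : ℝ) / (nm b : ℝ) ^ 2 else 0| := by
  unfold zp
  split_ifs with h
  · rw [abs_div, abs_of_nonneg (by positivity : (0 : ℝ) ≤ (nm b : ℝ) ^ 2), abs_of_nonneg
      (by positivity : (0 : ℝ) ≤ 1 / (nm b : ℝ) ^ 2)]
    refine div_le_div_of_nonneg_right ?_ (by positivity)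
    rw [abs_mul, abs_of_nonneg (LF_pos b).le]
    have h1 := abs_muE_le_real b
    have h2 := LF_le_one b
    have h3 := (LF_pos b).le
    calc |(muE b : ℝ)| * LF b ≤ 1 * 1 := mul_le_mul h1 h2 h3 (by norm_num)
      _ = 1 := by norm_num
  · simp

lemma sum_abs_zp_le (a : Eis) (S : Finset Eis) (D : ℕ)
    (hD : ∀ d ∈ S, IsPrim d → IsCoprime d a → D < nm d) :
    ∑ d ∈ S, |zp a d| ≤ 300 / (D + 1) := by
  classical
  have h1 : ∑ d ∈ S, |zp a d| ≤
      ∑ d ∈ S.filter (fun d => IsPrim d ∧ IsCoprime d a), (1 : ℝ) / (nm d : ℝ) ^ 2 := by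
    rw [Finset.sum_filter]
    refine Finset.sum_le_sum fun d _ => (abs_zp_le a d).trans (le_of_eq ?_)
    split_ifs
    · rw [abs_of_nonneg (by positivity)]
    · simp
  refine h1.trans (sum_inv_nm_sq_le _ D ?_ ?_)
  · intro d hd
    exact (Finset.mem_filter.mp hd).2.1
  · intro d hd
    rw [Finset.mem_filter] at hd
    exact hD d hd.1 hd.2.1 hd.2.2

lemma summable_zp (a : Eis) : Summable (zp a) := by
  have : Summable (fun d => |zp a d|) := by
    refine summable_of_sum_le (c := 300) (fun d => abs_nonneg _) fun S => ?_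
    have h := sum_abs_zp_le a S 0 (fun d _ hd _ => nm_pos.mpr hd.ne_zero)
    simpa using h
  exact this.of_abs

/-- `ZP a = ∑ μ(b) LF(b) / (N b)²` over primary `b` coprime to `a`. -/
def ZP (a : Eis) : ℝ := ∑' d, zp a d

lemma abs_ZP_sub_le (a : Eis) (s : Finset Eis) (D : ℕ)
    (hD : ∀ d, d ∉ s → IsPrim d → IsCoprime d a → zp a d ≠ 0 → D < nm d) :
    |ZP a - ∑ d ∈ s, zp a d| ≤ 300 / (D + 1) := by
  classical
  have h0 := summable_zp a
  have h1 := h0.sum_add_tsum_compl (s := s)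
  have h2 : ZP a - ∑ d ∈ s, zp a d = ∑' x : ↑((s : Set Eis)ᶜ), zp a x := by
    unfold ZP; rw [← h1]; ring
  rw [h2]
  have h3 : Summable fun x : ↑((s : Set Eis)ᶜ) => |zp a x| := (h0.abs).subtype _
  have h4 : |∑' x : ↑((s : Set Eis)ᶜ), zp a x| ≤ ∑' x : ↑((s : Set Eis)ᶜ), |zp a x| := by
    have := norm_tsum_le_tsum_norm (f := fun x : ↑((s : Set Eis)ᶜ) => zp a x) (by simpa using h3)
    simpa using this
  refine h4.trans (h3.tsum_le_of_sum_le fun S => ?_)
  have h6 : ∑ i ∈ S, |zp a i| =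
      ∑ i ∈ (S.map (Function.Embedding.subtype _)).filter (fun d => zp a d ≠ 0), |zp a i| := by
    rw [Finset.sum_filter_of_ne, Finset.sum_map]
    · rfl
    · intro x _ hx h; rw [h] at hx; simp at hx
  rw [h6]
  refine sum_abs_zp_le a _ D ?_
  intro d hd
  rw [Finset.mem_filter, Finset.mem_map] at hd
  obtain ⟨⟨x, _, rfl⟩, hx0⟩ := hd
  have hx : (x : Eis) ∉ s := x.2
  exact fun h1 h2 => hD x hx h1 h2 hx0

/-- the density -/
def kp (a : Eis) : ℝ := kap 1 * LF a * ZP a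

lemma abs_ZP_le (a : Eis) : |ZP a| ≤ 300 := by
  have := abs_ZP_sub_le a ∅ 0 (fun d _ hd _ _ => nm_pos.mpr hd.ne_zero)
  simpa using this

/-- `∑ sig(b) / (N b)^{3/2} < ∞` -/
lemma sum_sig_le : ∃ C : ℝ, 0 ≤ C ∧ ∀ S : Finset Eis, (∀ d ∈ S, IsPrim d) →
    ∑ d ∈ S, sig d * (1 / (nm d : ℝ)) * (1 / Real.sqrt (nm d)) ≤ C := by
  obtain ⟨C, hC0, hC⟩ := tau_le_rpow (ε := 1 / 4) (by norm_num)
  have hs := Crest.Agent.R012.LatSum413.summable_nm_rpow (s := 5 / 4) (by norm_num)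
  refine ⟨C * ∑' z : Eis, (nm z : ℝ) ^ (-(5 / 4) : ℝ), by positivity, fun S hS => ?_⟩
  calc ∑ d ∈ S, sig d * (1 / (nm d : ℝ)) * (1 / Real.sqrt (nm d))
      ≤ ∑ d ∈ S, C * (nm d : ℝ) ^ (-(5 / 4) : ℝ) := by
        refine Finset.sum_le_sum fun d hd => ?_
        have hd0 : (0 : ℝ) < nm d := by exact_mod_cast nm_pos.mpr (hS d hd).ne_zero
        have h1 : sig d ≤ C * (nm d : ℝ) ^ (1 / 4 : ℝ) :=
          (sig_le_tau (hS d hd).ne_zero).trans (hC d (hS d hd).ne_zero)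
        have h2 : (1 / (nm d : ℝ)) * (1 / Real.sqrt (nm d)) = (nm d : ℝ) ^ (-(3 / 2) : ℝ) := by
          rw [Real.sqrt_eq_rpow, one_div, one_div, ← Real.rpow_neg hd0.le, ← Real.rpow_neg_one,
            ← Real.rpow_add hd0]
          norm_num
        rw [mul_assoc, h2]
        calc sig d * (nm d : ℝ) ^ (-(3 / 2) : ℝ)
            ≤ C * (nm d : ℝ) ^ (1 / 4 : ℝ) * (nm d : ℝ) ^ (-(3 / 2) : ℝ) := by gcongr
          _ = C * (nm d : ℝ) ^ (-(5 / 4) : ℝ) := by
              rw [mul_assoc, ← Real.rpow_add hd0]; norm_num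
    _ = C * ∑ d ∈ S, (nm d : ℝ) ^ (-(5 / 4) : ℝ) := by rw [Finset.mul_sum]
    _ ≤ C * ∑' z : Eis, (nm z : ℝ) ^ (-(5 / 4) : ℝ) := by
        refine mul_le_mul_of_nonneg_left ?_ (by linarith)
        exact hs.sum_le_tsum S fun i _ => by positivity

/-- **Main estimate, sharp cutoff.** -/
theorem T_asymp : ∃ C : ℝ, 0 ≤ C ∧ ∀ a : Eis, a ≠ 0 → ∀ Y : ℝ, 0 ≤ Y →
    |T a Y - kp a * Y| ≤ C * sig a * Real.sqrt Y * (1 + Real.log (1 + Real.sqrt Y)) := by
  classical
  obtain ⟨C1, hC10, hC1⟩ := sum_sig_le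
  refine ⟨6400 * C1 + 300 * kap 1, by have := kap_one_pos; positivity, ?_⟩
  intro a ha Y hY
  have hs := Real.sqrt_nonneg Y
  have hk := kap_one_pos
  have hL0 := LF_pos a
  have hL1 := LF_le_one a
  have hsig := one_le_sig a
  have hlog : 0 ≤ Real.log (1 + Real.sqrt Y) := Real.log_nonneg (by linarith)
  set s := sfc a Y with hs_def
  have hmem : ∀ d ∈ s, IsPrim d ∧ IsCoprime d a ∧ Squarefree d := fun d hd => by
    rw [hs_def, mem_sfc] at hd; exact ⟨hd.1.2, hd.2⟩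
  have e1 : T a Y - kp a * Y =
      (∑ d ∈ s, (muE d : ℝ) * (1 / (nm d : ℝ)) *
        (((sfc (a * d) (Y / nm d)).card : ℝ) - kap (a * d) * (Y / nm d)))
      - kap 1 * LF a * Y * (ZP a - ∑ d ∈ s, zp a d) := by
    rw [T_eq a Y, ← hs_def]
    have e2 : ∑ d ∈ s, zp a d = ∑ d ∈ s, (muE d : ℝ) * LF d / (nm d : ℝ) ^ 2 := by
      refine Finset.sum_congr rfl fun d hd => ?_
      unfold zp
      rw [if_pos ⟨(hmem d hd).1, (hmem d hd).2.1⟩]
    have e3 : ∑ d ∈ s, (muE d : ℝ) * (1 / (nm d : ℝ)) *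
        (((sfc (a * d) (Y / nm d)).card : ℝ) - kap (a * d) * (Y / nm d))
        = ∑ d ∈ s, (muE d : ℝ) * (1 / (nm d : ℝ)) * ((sfc (a * d) (Y / nm d)).card : ℝ)
          - kap 1 * LF a * Y * ∑ d ∈ s, (muE d : ℝ) * LF d / (nm d : ℝ) ^ 2 := by
      rw [Finset.mul_sum, ← Finset.sum_sub_distrib]
      refine Finset.sum_congr rfl fun d hd => ?_
      obtain ⟨h1, h2, _⟩ := hmem d hd
      rw [kap_eq (mul_ne_zero ha h1.ne_zero), LF_mul ha h1.ne_zero h2.symm]
      ring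
    rw [e2, e3]
    unfold kp
    ring
  have h1 : |∑ d ∈ s, (muE d : ℝ) * (1 / (nm d : ℝ)) *
        (((sfc (a * d) (Y / nm d)).card : ℝ) - kap (a * d) * (Y / nm d))|
      ≤ 6400 * C1 * sig a * Real.sqrt Y * (1 + Real.log (1 + Real.sqrt Y)) := by
    refine (Finset.abs_sum_le_sum_abs _ _).trans ?_
    have h2 : ∀ d ∈ s, |(muE d : ℝ) * (1 / (nm d : ℝ)) *
        (((sfc (a * d) (Y / nm d)).card : ℝ) - kap (a * d) * (Y / nm d))|
        ≤ 6400 * sig a * Real.sqrt Y * (1 + Real.log (1 + Real.sqrt Y)) *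
          (sig d * (1 / (nm d : ℝ)) * (1 / Real.sqrt (nm d))) := by
      intro d hd
      obtain ⟨h1, h2, _⟩ := hmem d hd
      have hd1 : (1 : ℝ) ≤ nm d := one_le_nm_of_isPrim h1
      have hd0 : (0 : ℝ) < nm d := by linarith
      rw [abs_mul, abs_mul, abs_of_nonneg (by positivity : (0 : ℝ) ≤ 1 / (nm d : ℝ))]
      have h3 := card_sfc (mul_ne_zero ha h1.ne_zero) (Y := Y / nm d) (by positivity)
      rw [sig_mul ha h1.ne_zero h2.symm] at h3
      have h4 : Real.sqrt (Y / nm d) = Real.sqrt Y * (1 / Real.sqrt (nm d)) := by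
        rw [Real.sqrt_div hY]; ring
      have h5 : Real.sqrt (Y / nm d) ≤ Real.sqrt Y :=
        Real.sqrt_le_sqrt (div_le_self hY hd1)
      have h6 : Real.log (1 + Real.sqrt (Y / nm d)) ≤ Real.log (1 + Real.sqrt Y) := by
        have := Real.sqrt_nonneg (Y / nm d)
        exact Real.log_le_log (by linarith) (by linarith)
      have h7 : 0 ≤ Real.log (1 + Real.sqrt (Y / nm d)) := Real.log_nonneg (by
        have := Real.sqrt_nonneg (Y / nm d); linarith)
      have hsd := sig_pos d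
      have hsa := sig_pos a
      calc |(muE d : ℝ)| * (1 / (nm d : ℝ)) *
            |((sfc (a * d) (Y / nm d)).card : ℝ) - kap (a * d) * (Y / nm d)|
          ≤ 1 * (1 / (nm d : ℝ)) * (6400 * (sig a * sig d) * Real.sqrt (Y / nm d) *
              (1 + Real.log (1 + Real.sqrt (Y / nm d)))) := by
            gcongr
            exact abs_muE_le_real d
        _ ≤ 1 * (1 / (nm d : ℝ)) * (6400 * (sig a * sig d) *
              (Real.sqrt Y * (1 / Real.sqrt (nm d))) *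
              (1 + Real.log (1 + Real.sqrt Y))) := by
            rw [← h4]
            gcongr
        _ = _ := by ring
    refine (Finset.sum_le_sum h2).trans ?_
    rw [← Finset.mul_sum]
    have h5 := hC1 s (fun d hd => (hmem d hd).1)
    have hsa := sig_pos a
    calc 6400 * sig a * Real.sqrt Y * (1 + Real.log (1 + Real.sqrt Y)) *
          ∑ d ∈ s, sig d * (1 / (nm d : ℝ)) * (1 / Real.sqrt (nm d))
        ≤ 6400 * sig a * Real.sqrt Y * (1 + Real.log (1 + Real.sqrt Y)) * C1 :=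
          mul_le_mul_of_nonneg_left h5 (by positivity)
      _ = _ := by ring
  have h6 : |kap 1 * LF a * Y * (ZP a - ∑ d ∈ s, zp a d)| ≤ 300 * kap 1 * Real.sqrt Y := by
    have h7 := abs_ZP_sub_le a s ⌊Y⌋₊ ?_
    · rw [abs_mul, abs_of_nonneg (by positivity)]
      have h8 : Y * (300 / ((⌊Y⌋₊ : ℝ) + 1)) ≤ 300 * Real.sqrt Y := by
        have h9 : Y ≤ (⌊Y⌋₊ : ℝ) + 1 := (Nat.lt_floor_add_one _).le
        have h10 : (0 : ℝ) < (⌊Y⌋₊ : ℝ) + 1 := by positivity
        rw [mul_div_assoc', div_le_iff₀ h10]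
        rcases le_total Y 1 with h11 | h11
        · have h12 : Y ≤ Real.sqrt Y := by
            refine Real.le_sqrt_of_sq_le ?_
            nlinarith
          have h13 : (1 : ℝ) ≤ (⌊Y⌋₊ : ℝ) + 1 := by
            have : (0 : ℝ) ≤ (⌊Y⌋₊ : ℝ) := Nat.cast_nonneg _
            linarith
          nlinarith
        · have h12 : 1 ≤ Real.sqrt Y := by
            rw [show (1 : ℝ) = Real.sqrt 1 by simp]; exact Real.sqrt_le_sqrt h11
          nlinarith
      calc kap 1 * LF a * Y * |ZP a - ∑ d ∈ s, zp a d|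
          ≤ kap 1 * 1 * Y * (300 / ((⌊Y⌋₊ : ℝ) + 1)) := by gcongr
        _ = kap 1 * (Y * (300 / ((⌊Y⌋₊ : ℝ) + 1))) := by ring
        _ ≤ kap 1 * (300 * Real.sqrt Y) := by gcongr
        _ = _ := by ring
    · intro d hd hdp hda hdz
      have hsq : Squarefree d := by
        by_contra h
        apply hdz
        unfold zp
        rw [muE_of_not_squarefree h]; simp
      rw [hs_def, mem_sfc] at hd
      by_contra hle
      push Not at hle
      exact hd ⟨⟨(Nat.cast_le.mpr hle).trans (Nat.floor_le hY), hdp⟩, hda, hsq⟩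
  rw [e1]
  have hkk : 300 * kap 1 * Real.sqrt Y ≤
      300 * kap 1 * sig a * Real.sqrt Y * (1 + Real.log (1 + Real.sqrt Y)) := by
    have h13 : 1 ≤ sig a * (1 + Real.log (1 + Real.sqrt Y)) := by nlinarith
    have h14 : 0 ≤ 300 * kap 1 * Real.sqrt Y := by positivity
    nlinarith
  have h12 := abs_sub (∑ d ∈ s, (muE d : ℝ) * (1 / (nm d : ℝ)) *
        (((sfc (a * d) (Y / nm d)).card : ℝ) - kap (a * d) * (Y / nm d)))
      (kap 1 * LF a * Y * (ZP a - ∑ d ∈ s, zp a d))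
  have e9 : (6400 * C1 + 300 * kap 1) * sig a * Real.sqrt Y * (1 + Real.log (1 + Real.sqrt Y)) =
      6400 * C1 * sig a * Real.sqrt Y * (1 + Real.log (1 + Real.sqrt Y)) +
      300 * kap 1 * sig a * Real.sqrt Y * (1 + Real.log (1 + Real.sqrt Y)) := by ring
  rw [e9]
  linarith

/-! ### Multiplicativity and positivity of the density -/

lemma T_split {a p : Eis} (hp : IsPP p) (hpa : IsCoprime p a) (Y : ℝ) :
    T a Y = T (a * p) Y + (1 - 1 / (nm p : ℝ)) * T (a * p) (Y / nm p) := by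
  classical
  have h1 : (sfc a Y).filter (fun b => ¬ p ∣ b) = sfc (a * p) Y := by
    ext b
    rw [Finset.mem_filter, mem_sfc, mem_sfc]
    constructor
    · rintro ⟨⟨h1, h2, h3⟩, h4⟩
      exact ⟨h1, h2.mul_right ((hp.isCoprime_iff.mpr h4).symm), h3⟩
    · rintro ⟨h1, h2, h3⟩
      exact ⟨⟨h1, h2.of_mul_right_left, h3⟩, hp.isCoprime_iff.mp h2.of_mul_right_right.symm⟩
  have h2 := sfc_filter_dvd (a := a) (b := p) (Y := Y) hp.isPrim hpa hp.prime.squarefree
  unfold T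
  rw [← Finset.sum_filter_add_sum_filter_not (sfc a Y) (fun b => p ∣ b), h1, h2, Finset.sum_map,
    add_comm, Finset.mul_sum]
  congr 1
  refine Finset.sum_congr rfl fun c hc => ?_
  rw [mem_sfc] at hc
  rw [mulEmb_apply, PE_mul hp.ne_zero hc.1.2.ne_zero hc.2.1.of_mul_right_right.symm, PE_prime hp]

theorem kp_mul {a p : Eis} (ha : a ≠ 0) (hp : IsPP p) (hpa : IsCoprime p a) :
    kp a = (1 + (1 - 1 / (nm p : ℝ)) / (nm p : ℝ)) * kp (a * p) := by
  obtain ⟨C, hC0, hC⟩ := T_asymp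
  have hnp : (1 : ℝ) < nm p := by exact_mod_cast hp.one_lt_nm
  have hnp0 : (0 : ℝ) < nm p := by linarith
  refine lim_unique (N := fun Y => T a Y) (C1 := C * sig a) (C2 := 2 * (C * sig (a * p)))
    (fun Y hY => hC a ha Y hY) (fun Y hY => ?_)
  have h1 := hC _ (mul_ne_zero ha hp.ne_zero) Y hY
  have h2 := hC _ (mul_ne_zero ha hp.ne_zero) (Y / nm p) (by positivity)
  have h3 := sqrt_log_mono (Y := Y / nm p) (Z := Y) (div_le_self hY hnp.le)
  have hsig := sig_pos (a * p)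
  rw [T_split hp hpa Y]
  have hq : 0 ≤ 1 - 1 / (nm p : ℝ) := by
    rw [sub_nonneg, div_le_one hnp0]; exact hnp.le
  have hq1 : 1 - 1 / (nm p : ℝ) ≤ 1 := by
    have : (0 : ℝ) ≤ 1 / nm p := by positivity
    linarith
  have e : T (a * p) Y + (1 - 1 / (nm p : ℝ)) * T (a * p) (Y / nm p) -
      (1 + (1 - 1 / (nm p : ℝ)) / (nm p : ℝ)) * kp (a * p) * Y =
      (T (a * p) Y - kp (a * p) * Y) +
      (1 - 1 / (nm p : ℝ)) * (T (a * p) (Y / nm p) - kp (a * p) * (Y / nm p)) := by ring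
  rw [e]
  refine (abs_add_le _ _).trans ?_
  rw [abs_mul, abs_of_nonneg hq]
  have h4 : C * sig (a * p) * (Real.sqrt (Y / nm p) * (1 + Real.log (1 + Real.sqrt (Y / nm p))))
      ≤ C * sig (a * p) * (Real.sqrt Y * (1 + Real.log (1 + Real.sqrt Y))) :=
    mul_le_mul_of_nonneg_left h3 (by positivity)
  have h5 : (1 - 1 / (nm p : ℝ)) * |T (a * p) (Y / nm p) - kp (a * p) * (Y / nm p)| ≤
      |T (a * p) (Y / nm p) - kp (a * p) * (Y / nm p)| :=
    mul_le_of_le_one_left (abs_nonneg _) hq1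
  nlinarith

/-- `LP a = ∏_{p ∣ a} (1 + (1 - 1/q)/q)⁻¹`. -/
def LP (a : Eis) : ℝ := ∏ p ∈ pp a, (1 + (1 - 1 / (nm p : ℝ)) / (nm p : ℝ))⁻¹

lemma lp_pos {p : Eis} (hp : IsPP p) : 1 ≤ 1 + (1 - 1 / (nm p : ℝ)) / (nm p : ℝ) := by
  have hnp : (1 : ℝ) < nm p := by exact_mod_cast hp.one_lt_nm
  have hnp0 : (0 : ℝ) < nm p := by linarith
  have hq : 0 ≤ 1 - 1 / (nm p : ℝ) := by
    rw [sub_nonneg, div_le_one hnp0]; exact hnp.le
  have : 0 ≤ (1 - 1 / (nm p : ℝ)) / (nm p : ℝ) := by positivity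
  linarith

lemma LP_pos (a : Eis) : 0 < LP a := Finset.prod_pos fun p hp => by
  have := lp_pos (isPP_of_mem_pp hp)
  exact inv_pos.mpr (by linarith)

lemma LP_le_one (a : Eis) : LP a ≤ 1 := by
  refine Finset.prod_le_one (fun p hp => ?_) (fun p hp => ?_)
  · have := lp_pos (isPP_of_mem_pp hp)
    exact (inv_pos.mpr (by linarith)).le
  · exact inv_le_one_of_one_le₀ (lp_pos (isPP_of_mem_pp hp))

lemma LP_one : LP 1 = 1 := by unfold LP; rw [pp_one]; simp

lemma LP_mul {a b : Eis} (ha : a ≠ 0) (hb : b ≠ 0) (h : IsCoprime a b) :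
    LP (a * b) = LP a * LP b := by
  classical
  unfold LP
  rw [pp_mul ha hb, Finset.prod_union (pp_disjoint h)]

lemma kp_prod {S : Finset Eis} (hS : PPSet S) :
    kp (∏ p ∈ S, p) = kp 1 * ∏ p ∈ S, (1 + (1 - 1 / (nm p : ℝ)) / (nm p : ℝ))⁻¹ := by
  classical
  induction S using Finset.induction_on with
  | empty => simp
  | insert q s hq ih =>
    have hs : PPSet s := hS.subset (Finset.subset_insert _ _)
    have hq' : IsPP q := hS q (Finset.mem_insert_self _ _)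
    have h1 : IsCoprime q (∏ p ∈ s, p) :=
      hq'.isCoprime_iff.mpr fun h => hq ((hs.dvd_prod hq').mp h)
    have h2 := kp_mul hs.prod_ne_zero hq' h1
    rw [ih hs] at h2
    rw [Finset.prod_insert hq, Finset.prod_insert hq, mul_comm q]
    have h3 : (1 + (1 - 1 / (nm q : ℝ)) / (nm q : ℝ)) ≠ 0 := by
      have := lp_pos hq'
      linarith
    calc kp ((∏ p ∈ s, p) * q) = (1 + (1 - 1 / (nm q : ℝ)) / (nm q : ℝ))⁻¹ *
          ((1 + (1 - 1 / (nm q : ℝ)) / (nm q : ℝ)) * kp ((∏ p ∈ s, p) * q)) := by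
            rw [← mul_assoc, inv_mul_cancel₀ h3, one_mul]
      _ = _ := by rw [← h2]; ring

lemma kp_prod_pp {a : Eis} (ha : a ≠ 0) : kp (∏ p ∈ pp a, p) = kp a := by
  unfold kp ZP
  have h1 : LF (∏ p ∈ pp a, p) = LF a := by
    unfold LF
    rw [(ppSet_pp a).pp_prod]
  rw [h1]
  congr 1
  refine tsum_congr fun d => ?_
  unfold zp
  have h2 : (IsPrim d ∧ IsCoprime d (∏ p ∈ pp a, p)) ↔ (IsPrim d ∧ IsCoprime d a) :=
    and_congr_right fun hd => isCoprime_prod_pp ha hd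
  by_cases h3 : IsPrim d ∧ IsCoprime d a
  · rw [if_pos h3, if_pos (h2.mpr h3)]
  · rw [if_neg h3, if_neg (fun h => h3 (h2.mp h))]

/-- `kp a = kp 1 * LP a`. -/
theorem kp_eq {a : Eis} (ha : a ≠ 0) : kp a = kp 1 * LP a := by
  rw [← kp_prod_pp ha, kp_prod (ppSet_pp a)]
  rfl

theorem kp_one_pos : 0 < kp 1 := by
  classical
  set S := (pb 300).filter Prime with hS
  have hPS : PPSet S := fun p hp => by
    rw [hS, Finset.mem_filter, mem_pb] at hp
    exact ⟨hp.1.2, hp.2⟩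
  set a := ∏ p ∈ S, p with ha
  have h1 : |ZP a - ∑ d ∈ {1}, zp a d| ≤ 300 / ((300 : ℕ) + 1) := by
    refine abs_ZP_sub_le a {1} 300 fun d hd hdp hda _ => ?_
    rw [Finset.mem_singleton] at hd
    obtain ⟨p, hp, hpd⟩ := exists_pp_dvd_of_isPrim hdp hd
    have h2 : nm p ≤ nm d := nm_le_of_dvd hdp.ne_zero hpd
    by_contra hle
    push Not at hle
    have h3 : p ∈ S := by
      rw [hS, Finset.mem_filter, mem_pb]
      refine ⟨⟨?_, hp.isPrim⟩, hp.prime⟩
      exact_mod_cast h2.trans hle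
    have h4 : p ∣ a := by rw [ha]; exact (hPS.dvd_prod hp).mpr h3
    exact hp.prime.not_isUnit (hda.isUnit_of_dvd' hpd h4)
  have h2 : ∑ d ∈ {1}, zp a d = 1 := by
    rw [Finset.sum_singleton]
    unfold zp
    rw [if_pos ⟨isPrim_one, isCoprime_one_left⟩, muE_one, LF_one]
    simp
  rw [h2] at h1
  have h3 : 0 < ZP a := by
    have := (abs_le.mp h1).1
    norm_num at this
    linarith
  have h4 : 0 < kp a := by
    unfold kp
    have := kap_one_pos
    have := LF_pos a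
    positivity
  rw [kp_eq hPS.prod_ne_zero] at h4
  exact pos_of_mul_pos_left h4 (LP_pos a).le

/-! ### Smooth weights -/

open Classical in
/-- `PE b` on squarefree primary `b` coprime to `a` -/
def iPE (a b : Eis) : ℂ :=
  if IsPrim b ∧ IsCoprime b a ∧ Squarefree b then ((PE b : ℝ) : ℂ) else 0

lemma sum_iPE (a : Eis) (Y : ℝ) : ∑ b ∈ sfc a Y, iPE a b = ((T a Y : ℝ) : ℂ) := by
  unfold T
  push_cast
  refine Finset.sum_congr rfl fun b hb => ?_
  rw [mem_sfc] at hb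
  rw [iPE, if_pos ⟨hb.1.2, hb.2⟩]

lemma dataPE (a : Eis) : Data (iPE a) (fun b => (nm b : ℝ)) (sfc a) 100 where
  pos b hb := by
    unfold iPE at hb
    split_ifs at hb with h
    · exact lt_of_lt_of_le one_pos (one_le_nm_of_isPrim h.1)
    · exact absurd rfl hb
  mem b hb Y := by
    unfold iPE at hb
    split_ifs at hb with h
    · rw [mem_sfc]
      exact ⟨fun h' => h'.1.1, fun h' => ⟨⟨h', h.1⟩, h.2⟩⟩
    · exact absurd rfl hb
  bound Y hY := by
    have h1 : ∑ b ∈ sfc a Y, ‖iPE a b‖ ≤ ((sfc a Y).card : ℝ) := by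
      rw [Finset.card_eq_sum_ones]
      push_cast
      refine Finset.sum_le_sum fun b hb => ?_
      rw [mem_sfc] at hb
      rw [iPE, if_pos ⟨hb.1.2, hb.2⟩, Complex.norm_real, Real.norm_of_nonneg (PE_pos b).le]
      exact PE_le_one b
    refine h1.trans (le_trans ?_ (card_pb_le Y hY.le))
    exact_mod_cast Finset.card_le_card ((sfc_subset a Y).trans (cop_subset a Y))

/-- the error of `T` in terms of `er` -/
theorem errPE : ∃ C : ℝ, 0 ≤ C ∧ ∀ a : Eis, a ≠ 0 → ∀ Y : ℝ, 0 < Y →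
    ‖∑ b ∈ sfc a Y, iPE a b - ((kp 1 * LP a : ℝ) : ℂ) * Y‖ ≤ C * sig a * er Y := by
  obtain ⟨C, hC0, hC⟩ := T_asymp
  refine ⟨2 * C, by positivity, fun a ha Y hY => ?_⟩
  rw [sum_iPE]
  have h := hC a ha Y hY.le
  rw [kp_eq ha] at h
  have e : ((T a Y : ℝ) : ℂ) - ((kp 1 * LP a : ℝ) : ℂ) * Y =
      ((T a Y - kp 1 * LP a * Y : ℝ) : ℂ) := by push_cast; ring
  rw [e, Complex.norm_real, Real.norm_eq_abs]
  refine h.trans ?_
  have h1 : Real.log (1 + Real.sqrt Y) ≤ 1 + Real.log (1 + Y) := by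
    rcases le_or_gt Y 1 with h2 | h2
    · have h3 : Real.sqrt Y ≤ 1 := by
        rw [show (1 : ℝ) = Real.sqrt 1 by simp]; exact Real.sqrt_le_sqrt h2
      have h4 := Real.log_le_sub_one_of_pos (x := 1 + Real.sqrt Y) (by
        have := Real.sqrt_nonneg Y; linarith)
      have h5 : 0 ≤ Real.log (1 + Y) := Real.log_nonneg (by linarith)
      linarith
    · have h3 : Real.sqrt Y ≤ Y := by
        rw [Real.sqrt_le_left hY.le]; nlinarith
      have h4 : Real.log (1 + Real.sqrt Y) ≤ Real.log (1 + Y) :=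
        Real.log_le_log (by have := Real.sqrt_nonneg Y; linarith) (by linarith)
      linarith
  have h5 : 0 ≤ Real.log (1 + Y) := Real.log_nonneg (by linarith)
  have h6 : 0 ≤ C * sig a * Real.sqrt Y := by have := sig_pos a; positivity
  unfold er
  nlinarith

/-- **(F2), general form.** -/
theorem sum_PE_wt (v : ℝ → ℂ) (hv : M49.Wt v) : ∃ C : ℝ, 0 ≤ C ∧ ∀ a : Eis, a ≠ 0 →
    ∀ X : ℝ, 0 < X →
      Summable (fun b => ‖iPE a b * v (nm b / X)‖) ∧
      ‖∑' b, iPE a b * v (nm b / X) -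
        ((kp 1 * LP a : ℝ) : ℂ) * ((∫ t in Ioi (0 : ℝ), v t) * (X : ℂ))‖ ≤
        C * sig a * er X := by
  obtain ⟨C1, hC10, hC1⟩ := abel_wt v hv 0
  obtain ⟨C2, hC20, hC2⟩ := errPE
  refine ⟨C1 * C2, by positivity, fun a ha X hX => ?_⟩
  have h := hC1 Eis (iPE a) (fun b => (nm b : ℝ)) (sfc a) 100 ((kp 1 * LP a : ℝ) : ℂ)
    (C2 * sig a) (dataPE a) (by have := sig_pos a; positivity) (fun Y hY => hC2 a ha Y hY) X 0 hX
  have e1 : ∀ b : Eis, iPE a b * (((nm b : ℝ) : ℂ) ^ (-((0 : ℝ) : ℂ) + ((0 : ℝ) : ℂ) * Complex.I) *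
      v (nm b / X)) = iPE a b * v (nm b / X) := by
    intro b; simp
  simp only [e1] at h
  refine ⟨h.1, ?_⟩
  have h2 := h.2
  have e2 : mellin v (1 - ((0 : ℝ) : ℂ) + ((0 : ℝ) : ℂ) * Complex.I) =
      ∫ t in Ioi (0 : ℝ), v t := by
    unfold mellin
    refine integral_congr_ae ?_
    filter_upwards with t
    simp
  have e3 : (X : ℂ) ^ ((1 : ℂ) - ((0 : ℝ) : ℂ) + ((0 : ℝ) : ℂ) * Complex.I) = (X : ℂ) := by simp
  rw [e2, e3] at h2
  refine h2.trans (le_of_eq ?_)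
  rw [neg_zero, Real.rpow_zero, abs_zero]
  ring

end Crest.Agent.R017.FYm571
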