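import Crest.Agent.R017.GrE_579
import Crest.Agent.R017.BD6_829
import Crest.Agent.R017.FYm_571

/-!
# Row 17, block C70, leaf E3 (helper829): the diagonal, part A

`lc s t` : the primary least common multiple;
`PE_lcm` : `∑_{t ∣ m₁, t' ∣ m₂} μ(t) μ(t') / N(lcm(t,t')) = PE (m₁ m₂)`.
-/

set_option autoImplicit false

noncomputable section

open scoped Classical

namespace Crest.Agent.R017.DgA829

open Crest.Agent.R012 Crest.Agent.R012.Eis
open Crest.Agent.R012.Mob705 (mu pdiv mem_pdiv abs_mu_le_one mu_of_not_squarefree mu_one muE_mul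
  sum_mu_coprime PE pp pp_mul PE_eq_sum)
open Crest.Agent.R017.E1551 (nmpos exists_lcm sum_pdiv_mul')

/-- the primary least common multiple -/
def lc (s t : Eis) : Eis := if h : IsPrim s ∧ IsPrim t then (exists_lcm h.1 h.2).choose else 1

lemma lc_prim {s t : Eis} (hs : IsPrim s) (ht : IsPrim t) : IsPrim (lc s t) := by
  unfold lc
  rw [dif_pos ⟨hs, ht⟩]
  exact (exists_lcm hs ht).choose_spec.1

lemma lc_dvd {s t : Eis} (hs : IsPrim s) (ht : IsPrim t) (k : Eis) :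
    lc s t ∣ k ↔ s ∣ k ∧ t ∣ k := by
  unfold lc
  rw [dif_pos ⟨hs, ht⟩]
  exact (exists_lcm hs ht).choose_spec.2 k

lemma lc_unique {s t l : Eis} (hs : IsPrim s) (ht : IsPrim t) (hl : IsPrim l)
    (h : ∀ k, l ∣ k ↔ s ∣ k ∧ t ∣ k) : lc s t = l := by
  refine (lc_prim hs ht).eq_of_associated hl (associated_of_dvd_dvd ?_ ?_)
  · exact (lc_dvd hs ht l).mpr ((h l).mp dvd_rfl)
  · exact (h _).mpr ((lc_dvd hs ht _).mp dvd_rfl)

lemma lc_comm {s t : Eis} (hs : IsPrim s) (ht : IsPrim t) : lc s t = lc t s :=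
  lc_unique hs ht (lc_prim ht hs) fun k => by rw [lc_dvd ht hs, and_comm]

/-- `lcm(t, x y) = t y` for `x ∣ t`, `(t, y) = 1` -/
lemma lc_mul {t x y : Eis} (ht : IsPrim t) (hx : IsPrim x) (hy : IsPrim y) (hxt : x ∣ t)
    (hc : IsCoprime t y) : lc t (x * y) = t * y := by
  refine lc_unique ht (hx.mul hy) (ht.mul hy) fun k => ⟨fun h => ⟨(dvd_mul_right _ _).trans h,
    (mul_dvd_mul_right hxt y).trans h⟩, fun h => ?_⟩
  exact hc.mul_dvd h.1 ((dvd_mul_left _ _).trans h.2)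

lemma sum_mu_pdiv {e : Eis} (he : IsPrim e) :
    ∑ x ∈ pdiv e, (mu x : ℝ) = if e = 1 then 1 else 0 := by
  have h := sum_mu_coprime he he.ne_zero
  have h1 : ∑ d ∈ pdiv e, (if d ∣ e then mu d else 0) = ∑ d ∈ pdiv e, mu d :=
    Finset.sum_congr rfl fun d hd => if_pos ((mem_pdiv he.ne_zero).mp hd).2
  rw [h1] at h
  have h2 : IsCoprime e e ↔ e = 1 := by
    rw [isCoprime_self]
    exact ⟨fun hu => he.eq_of_associated isPrim_one (associated_one_iff_isUnit.mpr hu),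
      fun h => h ▸ isUnit_one⟩
  have h3 := congrArg (fun z : ℤ => (z : ℝ)) h
  beta_reduce at h3
  push_cast at h3
  rw [h3]
  by_cases h4 : e = 1
  · rw [if_pos (h2.mpr h4), if_pos h4]
  · rw [if_neg (fun h' => h4 (h2.mp h')), if_neg h4]

lemma PE_sum_real {d : Eis} (hd : d ≠ 0) : ∑ e ∈ pdiv d, (mu e : ℝ) / nm e = PE d := by
  rw [PE_eq_sum hd]
  exact Finset.sum_congr rfl fun e _ => by rw [mul_one_div]

/-- the inner sum -/
lemma inner_lcm {t m : Eis} (ht : IsPrim t) (hm : IsPrim m) (hts : Squarefree t)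
    (hms : Squarefree m) :
    ∑ t' ∈ pdiv m, (mu t' : ℝ) / nm (lc t t') =
      if IsCoprime t m then PE m / nm t else 0 := by
  obtain ⟨e, k1, k2, he, hk1, hk2, h1, h2, hc, hc1, hc2, -, -, -⟩ :=
    Tau671.exists_gcd_split ht hm hts hms
  have htk2 : IsCoprime t k2 := by rw [h1]; exact hc2.mul_left hc
  have e1 : ∑ t' ∈ pdiv m, (mu t' : ℝ) / nm (lc t t') =
      ∑ x ∈ pdiv e, ∑ y ∈ pdiv k2, (mu x : ℝ) * ((mu y : ℝ) / nm y * (nm t : ℝ)⁻¹) := by
    rw [h2, sum_pdiv_mul' he.ne_zero hk2.ne_zero hc2]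
    refine Finset.sum_congr rfl fun x hx => Finset.sum_congr rfl fun y hy => ?_
    have hx' := (mem_pdiv he.ne_zero).mp hx
    have hy' := (mem_pdiv hk2.ne_zero).mp hy
    have hxy : IsCoprime x y :=
      (hc2.of_isCoprime_of_dvd_left hx'.2).of_isCoprime_of_dvd_right hy'.2
    rw [lc_mul ht hx'.1 hy'.1 (hx'.2.trans (h1 ▸ dvd_mul_right _ _))
      (htk2.of_isCoprime_of_dvd_right hy'.2)]
    have e2 : mu (x * y) = mu x * mu y := muE_mul hx'.1.ne_zero hy'.1.ne_zero hxy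
    rw [e2, nm_mul]
    have n1 := nmpos ht.ne_zero
    have n2 := nmpos hy'.1.ne_zero
    push_cast
    field_simp
  rw [e1]
  simp_rw [← Finset.mul_sum, ← Finset.sum_mul]
  rw [sum_mu_pdiv he, PE_sum_real hk2.ne_zero]
  by_cases h4 : e = 1
  · have h5 : IsCoprime t m := by rw [h1, h2, h4, one_mul, one_mul]; exact hc
    rw [if_pos h4, if_pos h5, h2, h4, one_mul, one_mul]
    rfl
  · have h5 : ¬ IsCoprime t m := by
      intro h
      rw [h1, h2] at h
      have h6 : IsCoprime e e := h.of_mul_left_left.of_mul_right_left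
      rw [isCoprime_self] at h6
      exact h4 (he.eq_of_associated isPrim_one (associated_one_iff_isUnit.mpr h6))
    rw [if_neg h4, if_neg h5, zero_mul]

/-- **the density identity** -/
theorem PE_lcm {m₁ m₂ : Eis} (h₁ : IsPrim m₁) (h₂ : IsPrim m₂) (hs₁ : Squarefree m₁)
    (hs₂ : Squarefree m₂) :
    ∑ t ∈ pdiv m₁, ∑ t' ∈ pdiv m₂, (mu t : ℝ) * (mu t' : ℝ) / nm (lc t t') = PE (m₁ * m₂) := by
  have e1 : ∀ t ∈ pdiv m₁, ∑ t' ∈ pdiv m₂, (mu t : ℝ) * (mu t' : ℝ) / nm (lc t t') =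
      if IsCoprime t m₂ then (mu t : ℝ) / nm t * PE m₂ else 0 := by
    intro t ht
    have ht' := (mem_pdiv h₁.ne_zero).mp ht
    have h3 := inner_lcm ht'.1 h₂ (hs₁.squarefree_of_dvd ht'.2) hs₂
    have h4 : ∑ t' ∈ pdiv m₂, (mu t : ℝ) * (mu t' : ℝ) / nm (lc t t') =
        (mu t : ℝ) * ∑ t' ∈ pdiv m₂, (mu t' : ℝ) / nm (lc t t') := by
      rw [Finset.mul_sum]
      exact Finset.sum_congr rfl fun _ _ => by ring
    rw [h4, h3]
    split_ifs
    · ring
    · ring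
  rw [Finset.sum_congr rfl e1]
  obtain ⟨g, a, b, hg, ha, hb, q1, q2, hc, hga, hgb, -, -, -⟩ :=
    Tau671.exists_gcd_split h₁ h₂ hs₁ hs₂
  have ham : IsCoprime a m₂ := by rw [q2]; exact hga.symm.mul_right hc
  rw [q1, sum_pdiv_mul' hg.ne_zero ha.ne_zero hga]
  have e2 : ∀ x ∈ pdiv g, ∑ y ∈ pdiv a, (if IsCoprime (x * y) m₂ then
      (mu (x * y) : ℝ) / nm (x * y) * PE m₂ else 0) =
      if x = 1 then PE a * PE m₂ else 0 := by
    intro x hx
    have hx' := (mem_pdiv hg.ne_zero).mp hx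
    by_cases h3 : x = 1
    · rw [if_pos h3, ← PE_sum_real ha.ne_zero, Finset.sum_mul]
      refine Finset.sum_congr rfl fun y hy => ?_
      have hy' := (mem_pdiv ha.ne_zero).mp hy
      rw [h3, one_mul, if_pos (ham.of_isCoprime_of_dvd_left hy'.2)]
    · rw [if_neg h3]
      refine Finset.sum_eq_zero fun y _ => if_neg fun h4 => h3 ?_
      have h5 : IsCoprime x m₂ := h4.of_mul_left_left
      have h6 : IsUnit x := h5.isUnit_of_dvd' dvd_rfl (hx'.2.trans (q2 ▸ dvd_mul_right _ _))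
      exact hx'.1.eq_of_associated isPrim_one (associated_one_iff_isUnit.mpr h6)
  rw [Finset.sum_congr rfl e2, Finset.sum_ite_eq', if_pos ((mem_pdiv hg.ne_zero).mpr
    ⟨isPrim_one, one_dvd _⟩), ← FYm571.PE_mul ha.ne_zero h₂.ne_zero ham]
  unfold PE
  congr 1
  rw [pp_mul ha.ne_zero h₂.ne_zero, pp_mul (mul_ne_zero hg.ne_zero ha.ne_zero) h₂.ne_zero,
    pp_mul hg.ne_zero ha.ne_zero, q2, pp_mul hg.ne_zero hb.ne_zero]
  ext p
  simp only [Finset.mem_union]
  tauto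

/-- the norm of the least common multiple -/
lemma nm_lc {s t : Eis} (hs : IsPrim s) (ht : IsPrim t) (hss : Squarefree s) (hts : Squarefree t) :
    ∃ g, IsPrim g ∧ g ∣ s ∧ g ∣ t ∧ (∀ d, d ∣ s → d ∣ t → d ∣ g) ∧
      (nm (lc s t) : ℝ) * nm g = nm s * nm t ∧ Squarefree (lc s t) := by
  obtain ⟨e, k1, k2, he, hk1, hk2, h1, h2, hc, hc1, hc2, hes, hk1s, hk2s⟩ :=
    Tau671.exists_gcd_split hs ht hss hts
  have hsk2 : IsCoprime s k2 := by rw [h1]; exact hc2.mul_left hc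
  have e1 : lc s t = s * k2 := by
    rw [h2]
    exact lc_mul hs he hk2 (h1 ▸ dvd_mul_right _ _) hsk2
  refine ⟨e, he, h1 ▸ dvd_mul_right _ _, h2 ▸ dvd_mul_right _ _, fun d hd1 hd2 => ?_, ?_, ?_⟩
  · rw [h1] at hd1
    rw [h2] at hd2
    obtain ⟨x, y, hxy⟩ := hc
    have : e = x * (e * k1) + y * (e * k2) := by linear_combination (-e) * hxy
    rw [this]
    exact dvd_add (hd1.mul_left _) (hd2.mul_left _)
  · rw [e1, nm_mul]
    conv_rhs => rw [h2, nm_mul]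
    push_cast
    ring
  · rw [e1]
    exact squarefree_mul_iff.mpr ⟨hsk2.isRelPrime, hss, hk2s⟩

end Crest.Agent.R017.DgA829
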