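import Crest.Agent.R017.E1a_551
import Crest.Agent.R017.NatPB_401

/-!
# Row 17, block C70 (exact square), leaf E1, part b (helper551): cube-free decomposition

`tsum_cubefree` : `∑_{h ≠ 0} X(h) = (1/6) ∑_{κ cube-free} ∑_{c ≠ 0} X(κ c³)`.
-/

set_option autoImplicit false

noncomputable section

open Complex
open scoped ComplexConjugate

namespace Crest.Agent.R017.E1551

open Crest.Agent.R012 Crest.Agent.R012.Eis Crest.Agent.R012.Tau671

/-- cube-free (with respect to all primes, including `λ`) -/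
def CF (κ : Eis) : Prop := κ ≠ 0 ∧ ∀ p, Prime p → ¬ p ^ 3 ∣ κ

lemma exists_cf {h : Eis} (h0 : h ≠ 0) : ∃ κ c : Eis, h = κ * c ^ 3 ∧ CF κ ∧ c ≠ 0 := by
  obtain ⟨n, m, e, hn, hm, hp⟩ := NatP401.exists_cubefree (nm h) le_rfl h0
  exact ⟨n, m, e, ⟨hn, hp⟩, hm⟩

/-- a primitive sixth root of unity -/
def z6 : Eis := -w ^ 2

lemma z6_cube : z6 ^ 3 = -1 := by
  unfold z6
  have : w ^ 3 = 1 := w_cube
  calc (-w ^ 2) ^ 3 = -(w ^ 3) ^ 2 := by ring
    _ = -1 := by rw [this]; ring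

lemma z6_pow_cube (i : ℕ) : (z6 ^ i) ^ 3 = (-1) ^ i := by
  rw [← pow_mul, mul_comm, pow_mul, z6_cube]

lemma isUnit_z6 : IsUnit z6 := (isUnit_w.pow 2).neg

lemma unit_eq_z6 {u : Eis} (hu : IsUnit u) : ∃ i : Fin 6, u = z6 ^ (i : ℕ) := by
  have e1 : z6 ^ 1 = -w ^ 2 := by rw [pow_one]; rfl
  have h3 : w ^ 3 = 1 := w_cube
  have e2 : z6 ^ 2 = w := by
    calc z6 ^ 2 = w ^ 3 * w := by unfold z6; ring
      _ = w := by rw [h3, one_mul]
  have e4 : z6 ^ 4 = w ^ 2 := by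
    calc z6 ^ 4 = (z6 ^ 2) ^ 2 := by ring
      _ = w ^ 2 := by rw [e2]
  have e5 : z6 ^ 5 = -w := by
    calc z6 ^ 5 = z6 ^ 3 * z6 ^ 2 := by ring
      _ = -w := by rw [z6_cube, e2]; ring
  rcases isUnit_cases hu with rfl | rfl | rfl | rfl | rfl | rfl
  · exact ⟨0, by simp⟩
  · exact ⟨3, by simpa using z6_cube.symm⟩
  · exact ⟨2, by simpa using e2.symm⟩
  · exact ⟨5, by simpa using e5.symm⟩
  · exact ⟨4, by simpa using e4.symm⟩
  · exact ⟨1, by simpa using e1.symm⟩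

lemma z6_inj {i j : Fin 6} (h : z6 ^ (i : ℕ) = z6 ^ (j : ℕ)) : i = j := by
  have e0 : z6 = (⟨1, 1⟩ : Eis) := by
    unfold z6; rw [w_sq]; apply ext' <;> simp
  have key : ∀ i : Fin 6, z6 ^ (i : ℕ) = ![(⟨1, 0⟩ : Eis), ⟨1, 1⟩, ⟨0, 1⟩, ⟨-1, 0⟩, ⟨-1, -1⟩, ⟨0, -1⟩] i := by
    intro i
    rw [e0]
    fin_cases i <;> apply ext' <;> simp [pow_succ]
  rw [key, key] at h
  fin_cases i <;> fin_cases j <;> simp_all [QuadraticAlgebra.ext_iff]

lemma CF.neg_pow {κ : Eis} (h : CF κ) (i : ℕ) : CF ((-1) ^ i * κ) := by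
  rcases Nat.even_or_odd i with hi | hi
  · rw [hi.neg_one_pow, one_mul]; exact h
  · rw [hi.neg_one_pow, neg_one_mul]
    exact ⟨neg_ne_zero.mpr h.1, fun p hp hd => h.2 p hp (by rwa [dvd_neg] at hd)⟩

/-- uniqueness up to units -/
lemma cf_unique {κ κ' c c' : Eis} (h : CF κ) (h' : CF κ') (hc : c ≠ 0) (hc' : c' ≠ 0)
    (e : κ * c ^ 3 = κ' * c' ^ 3) : ∃ i : Fin 6, c' = z6 ^ (i : ℕ) * c ∧ κ' = (-1) ^ (i : ℕ) * κ := by
  set g := EuclideanDomain.gcd c c' with hg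
  obtain ⟨a, ha⟩ : g ∣ c := EuclideanDomain.gcd_dvd_left _ _
  obtain ⟨b, hb⟩ : g ∣ c' := EuclideanDomain.gcd_dvd_right _ _
  have hg0 : g ≠ 0 := fun h0 => hc (by rw [ha, h0, zero_mul])
  have hcop : IsCoprime a b := by
    have hbez := EuclideanDomain.gcd_eq_gcd_ab c c'
    rw [← hg] at hbez
    refine ⟨EuclideanDomain.gcdA c c', EuclideanDomain.gcdB c c', ?_⟩
    apply mul_left_cancel₀ hg0
    calc g * (EuclideanDomain.gcdA c c' * a + EuclideanDomain.gcdB c c' * b)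
        = (g * a) * EuclideanDomain.gcdA c c' + (g * b) * EuclideanDomain.gcdB c c' := by ring
      _ = g * 1 := by rw [← ha, ← hb, ← hbez, mul_one]
  have e2 : κ * a ^ 3 = κ' * b ^ 3 := by
    apply mul_left_cancel₀ (pow_ne_zero 3 hg0)
    calc g ^ 3 * (κ * a ^ 3) = κ * (g * a) ^ 3 := by ring
      _ = κ' * (g * b) ^ 3 := by rw [← ha, ← hb, e]
      _ = g ^ 3 * (κ' * b ^ 3) := by ring
  have hu : ∀ {x y μ ν : Eis}, CF ν → IsCoprime x y → x ≠ 0 → μ * x ^ 3 = ν * y ^ 3 → IsUnit x := by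
    intro x y μ ν hν hxy hx0 he
    have hd : x ^ 3 ∣ ν := (IsCoprime.pow hxy).dvd_of_dvd_mul_right (Dvd.intro_left _ he)
    by_contra hnu
    obtain ⟨p, hp, hpx⟩ := WfDvdMonoid.exists_irreducible_factor hnu hx0
    exact hν.2 p hp.prime ((pow_dvd_pow_of_dvd hpx 3).trans hd)
  have ha0 : a ≠ 0 := fun h0 => hc (by rw [ha, h0, mul_zero])
  have hb0 : b ≠ 0 := fun h0 => hc' (by rw [hb, h0, mul_zero])
  have hau : IsUnit a := hu h' hcop ha0 e2
  have hbu : IsUnit b := hu h hcop.symm hb0 e2.symm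
  obtain ⟨i, hi⟩ := unit_eq_z6 (hbu.mul hau.unit⁻¹.isUnit)
  have e3 : c' = z6 ^ (i : ℕ) * c := by
    rw [← hi, hb, ha]
    have : ((hau.unit⁻¹ : Eisˣ) : Eis) * a = 1 := by
      have := hau.unit.inv_mul
      simpa using this
    calc g * b = g * b * 1 := by ring
      _ = g * b * (((hau.unit⁻¹ : Eisˣ) : Eis) * a) := by rw [this]
      _ = _ := by ring
  refine ⟨i, e3, ?_⟩
  apply mul_right_cancel₀ (pow_ne_zero 3 hc')
  rw [← e, e3, mul_pow, z6_pow_cube]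
  have : ((-1 : Eis) ^ (i : ℕ)) * ((-1) ^ (i : ℕ)) = 1 := by
    rw [← mul_pow]; simp
  calc κ * c ^ 3 = (((-1 : Eis) ^ (i : ℕ)) * ((-1) ^ (i : ℕ))) * (κ * c ^ 3) := by
        rw [this, one_mul]
    _ = _ := by ring

/-- the cube-free part -/
def kf (h : {h : Eis // h ≠ 0}) : Eis := (exists_cf h.2).choose
/-- the cube part -/
def cf (h : {h : Eis // h ≠ 0}) : Eis := (exists_cf h.2).choose_spec.choose

lemma kf_spec (h : {h : Eis // h ≠ 0}) :
    (h : Eis) = kf h * cf h ^ 3 ∧ CF (kf h) ∧ cf h ≠ 0 :=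
  (exists_cf h.2).choose_spec.choose_spec

/-- pairs `(κ, c)` ↔ `(h, unit)` -/
def cfEquiv : {h : Eis // h ≠ 0} × Fin 6 ≃ {p : Eis × Eis // CF p.1 ∧ p.2 ≠ 0} :=
  Equiv.ofBijective
    (fun x => ⟨((-1) ^ (x.2 : ℕ) * kf x.1, z6 ^ (x.2 : ℕ) * cf x.1),
      (kf_spec x.1).2.1.neg_pow _, mul_ne_zero (pow_ne_zero _ isUnit_z6.ne_zero)
        (kf_spec x.1).2.2⟩) (by
    have hval : ∀ x : {h : Eis // h ≠ 0} × Fin 6,
        ((-1) ^ (x.2 : ℕ) * kf x.1) * (z6 ^ (x.2 : ℕ) * cf x.1) ^ 3 = (x.1 : Eis) := by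
      intro x
      conv_rhs => rw [(kf_spec x.1).1]
      rw [mul_pow, z6_pow_cube]
      have : ((-1 : Eis) ^ (x.2 : ℕ)) * ((-1) ^ (x.2 : ℕ)) = 1 := by
        rw [← mul_pow]; simp
      linear_combination (kf x.1 * cf x.1 ^ 3) * this
    constructor
    · rintro ⟨h, i⟩ ⟨h', i'⟩ he
      have e1 : (-1) ^ (i : ℕ) * kf h = (-1) ^ (i' : ℕ) * kf h' := congrArg (fun y => y.1.1) he
      have e2 : z6 ^ (i : ℕ) * cf h = z6 ^ (i' : ℕ) * cf h' := congrArg (fun y => y.1.2) he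
      have e3 : (h : Eis) = h' := by
        rw [← hval (h, i), ← hval (h', i')]
        simp only
        rw [e1, e2]
      have e4 : h = h' := Subtype.ext e3
      subst e4
      have e5 := mul_right_cancel₀ (kf_spec h).2.2 e2
      rw [z6_inj e5]
    · rintro ⟨⟨κ, c⟩, hκ, hc⟩
      simp only at hκ hc
      have h0 : κ * c ^ 3 ≠ 0 := mul_ne_zero hκ.1 (pow_ne_zero 3 hc)
      set h : {h : Eis // h ≠ 0} := ⟨κ * c ^ 3, h0⟩ with hh
      obtain ⟨e, hk, hcf⟩ := kf_spec h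
      obtain ⟨i, h1, h2⟩ := cf_unique hk hκ hcf hc (by rw [← e])
      exact ⟨(h, i), Subtype.ext (Prod.ext h2.symm h1.symm)⟩)

lemma cfEquiv_val (x : {h : Eis // h ≠ 0} × Fin 6) :
    (cfEquiv x).1.1 * (cfEquiv x).1.2 ^ 3 = (x.1 : Eis) := by
  show ((-1) ^ (x.2 : ℕ) * kf x.1) * (z6 ^ (x.2 : ℕ) * cf x.1) ^ 3 = (x.1 : Eis)
  conv_rhs => rw [(kf_spec x.1).1]
  rw [mul_pow, z6_pow_cube]
  have : ((-1 : Eis) ^ (x.2 : ℕ)) * ((-1) ^ (x.2 : ℕ)) = 1 := by
    rw [← mul_pow]; simp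
  linear_combination (kf x.1 * cf x.1 ^ 3) * this

open Classical in
lemma summable_cf {X : Eis → ℂ} (hX : Summable X) :
    Summable fun p : Eis × Eis => if CF p.1 ∧ p.2 ≠ 0 then X (p.1 * p.2 ^ 3) else 0 := by
  have h1 : Summable fun x : {h : Eis // h ≠ 0} × Fin 6 => X x.1 := by
    have h2 : Summable fun h : {h : Eis // h ≠ 0} => ‖X h‖ := hX.norm.subtype _
    refine Summable.of_norm ?_
    rw [summable_prod_of_nonneg (fun _ => norm_nonneg _)]
    refine ⟨fun x => Summable.of_finite, ?_⟩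
    simp only [tsum_fintype, Finset.sum_const, Finset.card_univ, Fintype.card_fin, nsmul_eq_mul]
    exact h2.mul_left _
  have h3 : Summable fun p : {p : Eis × Eis // CF p.1 ∧ p.2 ≠ 0} => X (p.1.1 * p.1.2 ^ 3) := by
    rw [← cfEquiv.summable_iff]
    refine h1.congr fun x => ?_
    rw [Function.comp_apply, cfEquiv_val]
  have h4 := (summable_subtype_iff_indicator (s := {p : Eis × Eis | CF p.1 ∧ p.2 ≠ 0})
    (f := fun p : Eis × Eis => X (p.1 * p.2 ^ 3))).mp h3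
  refine h4.congr fun p => ?_
  simp only [Set.indicator_apply, Set.mem_ofPred_eq]

open Classical in
/-- **Decomposition of the nonzero elements into cube-free elements times cubes.** -/
theorem tsum_cubefree {X : Eis → ℂ} (hX : Summable X) :
    ∑' h : Eis, (if h = 0 then 0 else X h) =
      (1 / 6 : ℂ) * ∑' κ : Eis, if CF κ then ∑' c : Eis, (if c = 0 then 0 else X (κ * c ^ 3))
        else 0 := by
  have hs := summable_cf hX
  have e1 : ∑' p : Eis × Eis, (if CF p.1 ∧ p.2 ≠ 0 then X (p.1 * p.2 ^ 3) else 0) =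
      ∑' κ : Eis, if CF κ then ∑' c : Eis, (if c = 0 then 0 else X (κ * c ^ 3)) else 0 := by
    rw [hs.tsum_prod]
    refine tsum_congr fun κ => ?_
    by_cases h : CF κ
    · rw [if_pos h]
      refine tsum_congr fun c => ?_
      by_cases hc : c = 0
      · simp [hc]
      · simp [h, hc]
    · rw [if_neg h]
      simp [h]
  have h1 : Summable fun h : {h : Eis // h ≠ 0} => X h := hX.subtype _
  have e2 : ∑' p : Eis × Eis, (if CF p.1 ∧ p.2 ≠ 0 then X (p.1 * p.2 ^ 3) else 0) =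
      ∑' p : {p : Eis × Eis // CF p.1 ∧ p.2 ≠ 0}, X (p.1.1 * p.1.2 ^ 3) := by
    have h9 := tsum_subtype ({p : Eis × Eis | CF p.1 ∧ p.2 ≠ 0})
      (fun p : Eis × Eis => X (p.1 * p.2 ^ 3))
    refine Eq.symm (Eq.trans ?_ (h9.trans (tsum_congr fun p => ?_)))
    · rfl
    · simp only [Set.indicator_apply, Set.mem_ofPred_eq]
  have e3 : ∑' p : {p : Eis × Eis // CF p.1 ∧ p.2 ≠ 0}, X (p.1.1 * p.1.2 ^ 3) =
      ∑' x : {h : Eis // h ≠ 0} × Fin 6, X x.1 := by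
    rw [← cfEquiv.tsum_eq]
    refine tsum_congr fun x => ?_
    rw [cfEquiv_val]
  have hsx : Summable fun x : {h : Eis // h ≠ 0} × Fin 6 => X x.1 := by
    refine Summable.of_norm ?_
    rw [summable_prod_of_nonneg (fun _ => norm_nonneg _)]
    refine ⟨fun x => Summable.of_finite, ?_⟩
    simp only [tsum_fintype, Finset.sum_const, Finset.card_univ, Fintype.card_fin, nsmul_eq_mul]
    exact h1.norm.mul_left _
  have e4 : ∑' x : {h : Eis // h ≠ 0} × Fin 6, X x.1 = 6 * ∑' h : {h : Eis // h ≠ 0}, X h := by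
    rw [hsx.tsum_prod, ← tsum_mul_left]
    refine tsum_congr fun h => ?_
    simp [tsum_fintype]
  have e5 : ∑' h : {h : Eis // h ≠ 0}, X h = ∑' h : Eis, (if h = 0 then 0 else X h) := by
    have h9 := tsum_subtype ({h : Eis | h ≠ 0}) X
    refine Eq.trans ?_ (h9.trans (tsum_congr fun h => ?_))
    · rfl
    · by_cases h0 : h = 0 <;> simp [h0]
  rw [← e1, e2, e3, e4, e5]
  ring

end Crest.Agent.R017.E1551
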