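import Crest.Agent.R017.C70Defs_54
import Crest.Agent.R017.E1b_551

/-!
# Row 17, R8, leaf E5 (helper54), part b: the structured function on `k = s k'`

`St J om α (s k) = St (Js s J) (oms s J om) (fun n => α n * sy s n) k`  for `s` primary.
-/

set_option autoImplicit false

noncomputable section

open Finset
open scoped ComplexConjugate

namespace Crest.Agent.R017.E5b54

open Crest.Agent.R012 Crest.Agent.R012.Eis Crest.Agent.R012.Mob705 Crest.Agent.R012.Gauss880
open Crest.Agent.R017.CM106 Crest.Agent.R017.PX764 Crest.Agent.R017.C70 Crest.Agent.R017.E1551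

/-! ### cube-free parts of primary elements -/

lemma isPrim_pow {x : Eis} (hx : IsPrim x) : ∀ n : ℕ, IsPrim (x ^ n)
  | 0 => by simpa using isPrim_one
  | n + 1 => by rw [pow_succ]; exact (isPrim_pow hx n).mul hx

/-- primary elements: cube-free part -/
lemma exists_cf_prim {m : Eis} (hm : IsPrim m) :
    ∃ j e : Eis, IsPrim j ∧ IsPrim e ∧ CbF j ∧ m = j * e ^ 3 := by
  obtain ⟨κ, c, e, hκ, hc⟩ := exists_cf hm.ne_zero
  obtain ⟨k, u, m', hu, hm', rfl⟩ := CharSum852.exists_decomp hc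
  have hk : k = 0 := by
    by_contra h
    apply hm.not_lam_dvd
    rw [e]
    refine Dvd.dvd.mul_left ?_ _
    refine Dvd.dvd.trans ?_ (dvd_pow_self _ (by norm_num : (3 : ℕ) ≠ 0))
    exact (dvd_pow_self lam h).mul_right _
  subst hk
  have e2 : m = (κ * u ^ 3) * m' ^ 3 := by rw [e]; ring
  refine ⟨κ * u ^ 3, m', ?_, hm', ?_, e2⟩
  · exact IsPrim.of_mul_right (by rw [← e2]; exact hm) (isPrim_pow hm' 3)
  · intro p hp hd
    exact hκ.2 p hp ((hu.pow 3).dvd_mul_right.mp hd)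

lemma JC_cases {c : Eis} (hc : c = 1 ∨ c = 3 ∨ c = 3 * w ∨ c = 3 * w ^ 2) :
    ∃ u : Eis, IsUnit u ∧ (c = u ∨ c = u * lam ^ 2) := by
  have hw2 : IsUnit (-w ^ 2 : Eis) := (isUnit_w.pow 2).neg
  rcases hc with rfl | rfl | rfl | rfl
  · exact ⟨1, isUnit_one, Or.inl rfl⟩
  · exact ⟨-w ^ 2, hw2, Or.inr three_eq⟩
  · exact ⟨-w ^ 2 * w, hw2.mul isUnit_w, Or.inr (by rw [three_eq]; ring)⟩
  · exact ⟨-w ^ 2 * w ^ 2, hw2.mul (isUnit_w.pow 2), Or.inr (by rw [three_eq]; ring)⟩

lemma JC_ne_zero {j : Eis} (hj : JC j) : j ≠ 0 := by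
  obtain ⟨c, hc, j', hj', -, rfl⟩ := hj
  obtain ⟨u, hu, h⟩ := JC_cases hc
  refine mul_ne_zero ?_ hj'.ne_zero
  rcases h with rfl | rfl
  · exact hu.ne_zero
  · exact mul_ne_zero hu.ne_zero (pow_ne_zero 2 lam_ne_zero)

lemma JC_cf {j : Eis} (hj : JC j) : CF j := by
  refine ⟨JC_ne_zero hj, ?_⟩
  obtain ⟨c, hc, j', hj', hcf, rfl⟩ := hj
  obtain ⟨u, hu, h⟩ := JC_cases hc
  intro p hp hd
  by_cases hpl : p ∣ lam
  · -- `p` is associated to `lam`
    have hass : Associated p lam := hp.associated_of_dvd prime_lam hpl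
    have hd' : lam ^ 3 ∣ c * j' := (hass.symm.pow_pow (n := 3)).dvd.trans hd
    have hcop : IsCoprime (lam ^ 3) j' := by
      refine IsCoprime.pow_left ?_
      exact (prime_lam.irreducible.coprime_iff_not_dvd).mpr hj'.not_lam_dvd
    have h3 : lam ^ 3 ∣ c := hcop.dvd_of_dvd_mul_right hd'
    rcases h with rfl | rfl
    · exact prime_lam.not_isUnit (isUnit_of_dvd_unit ((dvd_pow_self lam (by norm_num)).trans h3) hu)
    · have h4 : lam ^ 2 * lam ∣ lam ^ 2 * u := by
        rw [← pow_succ]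
        simpa [mul_comm] using h3
      have h5 := (mul_dvd_mul_iff_left (pow_ne_zero 2 lam_ne_zero)).mp h4
      exact prime_lam.not_isUnit (isUnit_of_dvd_unit h5 hu)
  · have hcop : IsCoprime (p ^ 3) c := by
      refine IsCoprime.pow_left ?_
      rw [hp.irreducible.coprime_iff_not_dvd]
      intro hpc
      rcases h with rfl | rfl
      · exact hp.not_isUnit (isUnit_of_dvd_unit hpc hu)
      · rcases hp.dvd_or_dvd hpc with h1 | h1
        · exact hp.not_isUnit (isUnit_of_dvd_unit h1 hu)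
        · exact hpl (hp.dvd_of_dvd_pow h1)
    exact hcf p hp (hcop.dvd_of_dvd_mul_left hd)

/-- **existence of `j*`** -/
lemma exists_star {s j : Eis} (hs : IsPrim s) (hj : JC j) :
    ∃ js e : Eis, JC js ∧ IsPrim e ∧ j * s = js * e ^ 3 := by
  obtain ⟨c, hc, j', hj', hcf, rfl⟩ := hj
  obtain ⟨m, e, hm, he, hmc, h⟩ := exists_cf_prim (hj'.mul hs)
  exact ⟨c * m, e, ⟨c, hc, m, hm, hmc, rfl⟩, he, by rw [mul_assoc, h]; ring⟩

open Classical in
/-- `j*` : the cube-free part of `j s` -/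
def stj (s j : Eis) : Eis :=
  if h : ∃ js e : Eis, JC js ∧ IsPrim e ∧ j * s = js * e ^ 3 then h.choose else 0

lemma stj_spec {s j : Eis} (hs : IsPrim s) (hj : JC j) :
    JC (stj s j) ∧ ∃ e : Eis, IsPrim e ∧ j * s = stj s j * e ^ 3 := by
  have h := exists_star hs hj
  have e1 : stj s j = h.choose := by unfold stj; rw [dif_pos h]
  rw [e1]
  obtain ⟨e, h1, h2, h3⟩ := h.choose_spec
  exact ⟨h1, e, h2, h3⟩

/-- `j ↦ j*` is injective -/
lemma stj_inj {s j₁ j₂ : Eis} (hs : IsPrim s) (h₁ : JC j₁) (h₂ : JC j₂)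
    (h : stj s j₁ = stj s j₂) : j₁ = j₂ := by
  obtain ⟨-, e₁, he₁, q₁⟩ := stj_spec hs h₁
  obtain ⟨-, e₂, he₂, q₂⟩ := stj_spec hs h₂
  have key : j₁ * e₂ ^ 3 = j₂ * e₁ ^ 3 := by
    apply mul_right_cancel₀ hs.ne_zero
    calc j₁ * e₂ ^ 3 * s = (j₁ * s) * e₂ ^ 3 := by ring
      _ = (j₂ * s) * e₁ ^ 3 := by rw [q₁, q₂, h]; ring
      _ = _ := by ring
  obtain ⟨i, hi1, hi2⟩ := cf_unique (JC_cf h₁) (JC_cf h₂) he₂.ne_zero he₁.ne_zero key
  have hu : IsUnit (z6 ^ (i : ℕ)) := isUnit_z6.pow _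
  have h1 : e₁ = e₂ := by
    refine he₁.eq_of_associated he₂ ?_
    rw [hi1]
    exact (associated_unit_mul_left e₂ _ hu)
  rw [h1] at key
  exact mul_right_cancel₀ (pow_ne_zero 3 he₂.ne_zero) key

/-! ### the inner sums -/

lemma coprime_star {s j js e n : Eis} (hn0 : n ≠ 0) (hj : CF j)
    (he : j * s = js * e ^ 3) (hsn : IsCoprime s n) (hjs : IsCoprime js n) :
    IsCoprime e n ∧ IsCoprime j n := by
  have key : ∀ p : Eis, Prime p → p ∣ n → ¬ p ∣ j := by
    intro p hp hpn hpj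
    have h1 : ¬ p ∣ s := fun h => hp.not_isUnit (hsn.isUnit_of_dvd' h hpn)
    have h2 : ¬ p ∣ js := fun h => hp.not_isUnit (hjs.isUnit_of_dvd' h hpn)
    have h3 : p ∣ js * e ^ 3 := by rw [← he]; exact hpj.mul_right _
    rcases hp.dvd_or_dvd h3 with h4 | h4
    · exact h2 h4
    have h5 : p ∣ e := hp.dvd_of_dvd_pow h4
    have h6 : p ^ 3 ∣ j * s := by rw [he]; exact (pow_dvd_pow_of_dvd h5 3).mul_left _
    have h7 : IsCoprime (p ^ 3) s :=
      IsCoprime.pow_left ((hp.irreducible.coprime_iff_not_dvd).mpr h1)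
    exact hj.2 p hp (h7.dvd_of_dvd_mul_right h6)
  have hjn : IsCoprime j n := by
    refine isCoprime_of_prime_dvd (fun h => hn0 h.2) fun p hp hpj hpn => ?_
    exact key p hp hpn hpj
  refine ⟨?_, hjn⟩
  refine isCoprime_of_prime_dvd (fun h => hn0 h.2) fun p hp hpe hpn => ?_
  have h3 : p ∣ j * s := by
    rw [he]; exact (hpe.trans (dvd_pow_self e (by norm_num))).mul_left _
  rcases hp.dvd_or_dvd h3 with h4 | h4
  · exact key p hp hpn h4
  · exact hp.not_isUnit (hsn.isUnit_of_dvd' h4 hpn)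

/-- `T_j(α)` on `s k` is `T_{j*}(α χ_s)` on `k` -/
theorem Tj_star {α : Eis → ℂ} (hα : ∀ m, α m ≠ 0 → IsPrim m) {s δ j js e : Eis}
    (hδ : IsPrim δ) (hj : JC j) (he : j * s = js * e ^ 3) (k : Eis) :
    sy s δ * Tj α δ j (s * k) = Tj (fun n => α n * sy s n) δ js k := by
  classical
  unfold Tj
  rw [← tsum_mul_left]
  refine tsum_congr fun m => ?_
  by_cases h0 : α (δ * m) = 0
  · simp [h0]
  have hn : IsPrim (δ * m) := hα _ h0
  have hm : IsPrim m := IsPrim.of_mul_left hn hδ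
  by_cases hsn : IsCoprime s (δ * m)
  · have hsm : IsCoprime s m := hsn.of_isCoprime_of_dvd_right (Dvd.intro_left _ rfl)
    have hiff : IsCoprime j (δ * m) ↔ IsCoprime js (δ * m) := by
      constructor
      · intro h
        have h1 : IsCoprime (js * e ^ 3) (δ * m) := by rw [← he]; exact h.mul_left hsn
        exact h1.of_mul_left_left
      · intro h
        exact (coprime_star hn.ne_zero (JC_cf hj) he hsn h).2
    have hk : IsCoprime (s * k) (δ * m) ↔ IsCoprime k (δ * m) := by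
      rw [IsCoprime.mul_left_iff]; exact ⟨fun h => h.2, fun h => ⟨hsn, h⟩⟩
    by_cases hc : IsCoprime k (δ * m) ∧ IsCoprime js (δ * m)
    · rw [if_pos ⟨hk.mpr hc.1, hiff.mpr hc.2⟩, if_pos hc]
      have hem : IsCoprime e m :=
        (coprime_star hn.ne_zero (JC_cf hj) he hsn hc.2).1.of_isCoprime_of_dvd_right
          (Dvd.intro_left _ rfl)
      have e1 : sy j m * sy s m = sy js m := by
        rw [← syG.mul_left _ _ _ hm, he, sy_cube_left hm js hem]
      have hns : ‖sy s m‖ = 1 := norm_sy_one hm hsm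
      have e2 : sy s m * conj (sy s m) = 1 := by
        rw [Complex.mul_conj, Complex.normSq_eq_norm_sq, hns]; simp
      have e3 : conj (sy j m) = sy s m * conj (sy js m) := by
        rw [← e1, map_mul]
        linear_combination (-(conj (sy j m))) * e2
      have e4 : sy s (δ * m) = sy s δ * sy s m :=
        Sym645.sy_mul_right s hδ.ne_zero hm.ne_zero
      unfold Gh
      show sy s δ * (α (δ * m) * ((n6 m : ℂ) * (G m * conj (sy j m)))) =
        α (δ * m) * sy s (δ * m) * ((n6 m : ℂ) * (G m * conj (sy js m)))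
      rw [e3, e4]
      ring
    · rw [if_neg (fun h => hc ⟨hk.mp h.1, hiff.mp h.2⟩), if_neg hc, mul_zero]
  · have hz : sy s (δ * m) = 0 := Char766.sy_eq_zero hn hsn
    have h1 : ¬ (IsCoprime (s * k) (δ * m) ∧ IsCoprime j (δ * m)) := fun h =>
      hsn h.1.of_mul_left_left
    rw [if_neg h1]
    show sy s δ * 0 = if IsCoprime k (δ * m) ∧ IsCoprime js (δ * m) then
      α (δ * m) * sy s (δ * m) * ((n6 m : ℂ) * Gh js m) else 0
    rw [hz]
    simp

/-! ### the structured function -/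

/-- the set `J*` -/
def Js (s : Eis) (J : Finset (Eis × Eis)) : Finset (Eis × Eis) := by
  classical exact J.image fun x => (x.1, stj s x.2)

open Classical in
/-- the coefficients on `J*` -/
def oms (s : Eis) (J : Finset (Eis × Eis)) (om : Eis × Eis → ℂ) (y : Eis × Eis) : ℂ :=
  ∑ x ∈ J.filter (fun x => (x.1, stj s x.2) = y), om x

lemma okJ_Js {s : Eis} (hs : IsPrim s) {J : Finset (Eis × Eis)} (hJ : OKJ J) : OKJ (Js s J) where
  prim := fun y hy => by
    unfold Js at hy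
    obtain ⟨x, hx, rfl⟩ := mem_image.mp hy
    exact hJ.prim x hx
  sqf := fun y hy => by
    unfold Js at hy
    obtain ⟨x, hx, rfl⟩ := mem_image.mp hy
    exact hJ.sqf x hx
  jc := fun y hy => by
    unfold Js at hy
    obtain ⟨x, hx, rfl⟩ := mem_image.mp hy
    exact (stj_spec hs (hJ.jc x hx)).1

lemma star_injOn {s : Eis} (hs : IsPrim s) {J : Finset (Eis × Eis)} (hJ : OKJ J) :
    Set.InjOn (fun x : Eis × Eis => (x.1, stj s x.2)) (J : Set (Eis × Eis)) := by
  intro x hx y hy h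
  have h' : ((x.1, stj s x.2) : Eis × Eis) = (y.1, stj s y.2) := h
  obtain ⟨h1, h2⟩ := Prod.mk.inj h'
  exact Prod.ext h1 (stj_inj hs (hJ.jc x hx) (hJ.jc y hy) h2)

lemma oms_star {s : Eis} (hs : IsPrim s) {J : Finset (Eis × Eis)} (hJ : OKJ J)
    (om : Eis × Eis → ℂ) {x : Eis × Eis} (hx : x ∈ J) : oms s J om (x.1, stj s x.2) = om x := by
  classical
  unfold oms
  have : J.filter (fun z => (z.1, stj s z.2) = (x.1, stj s x.2)) = {x} := by
    ext z
    rw [mem_filter, mem_singleton]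
    constructor
    · rintro ⟨hz, he⟩
      exact star_injOn hs hJ hz hx he
    · rintro rfl
      exact ⟨hx, rfl⟩
  rw [this, sum_singleton]

/-- **the shift identity** -/
theorem St_shift {α : Eis → ℂ} (hα : ∀ m, α m ≠ 0 → IsPrim m) {s : Eis} (hs : IsPrim s)
    {J : Finset (Eis × Eis)} (hJ : OKJ J) (om : Eis × Eis → ℂ) (k : Eis) :
    St J om α (s * k) = St (Js s J) (oms s J om) (fun n => α n * sy s n) k := by
  classical
  unfold St
  have e0 : Js s J = J.image fun x => (x.1, stj s x.2) := by unfold Js; rfl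
  rw [e0, sum_image (star_injOn hs hJ)]
  refine sum_congr rfl fun x hx => ?_
  rw [oms_star hs hJ om hx]
  obtain ⟨-, e, he0, he⟩ := stj_spec hs (hJ.jc x hx)
  have h1 := Tj_star hα (hJ.prim x hx) (hJ.jc x hx) he k
  have h2 : th (x.2 * (s * k)) = th (stj s x.2 * k) := by
    rw [show x.2 * (s * k) = (x.2 * s) * k by ring, he,
      show stj s x.2 * e ^ 3 * k = stj s x.2 * k * e ^ 3 by ring, th_cube he0]
  rw [h2, ← h1, syG.mul_left _ _ _ (hJ.prim x hx)]
  ring

/-- norms: `nm j* ≤ nm j * nm s` -/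
lemma nm_stj_le {s j : Eis} (hs : IsPrim s) (hj : JC j) : nm (stj s j) ≤ nm j * nm s := by
  obtain ⟨-, e, he0, he⟩ := stj_spec hs hj
  have h1 : nm j * nm s = nm (stj s j) * nm (e ^ 3) := by rw [← nm_mul, he, nm_mul]
  rw [h1]
  have h2 : 1 ≤ nm (e ^ 3) := nm_pos.mpr (pow_ne_zero 3 he0.ne_zero)
  nlinarith [Nat.zero_le (nm (stj s j))]

end Crest.Agent.R017.E5b54
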