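import Crest.Agent.R017.E4Uc_164
import Crest.Agent.R017.E5b_54
import Crest.Agent.R017.DgA_829

/-!
# Row 17, R8 / E5, consumer of E4 : the local classes and the size of the family (helper512)

* `fac_S` : `s = (∏_b pS 0 b) (∏_b pS 1 b)²` for `s` primary, cube-free, `j` in `JC`
* `nm_S_cls` : `N s ≤ 2^(nS + 9)`
* `nE_dvd`, `nm_e_cls` : `pS 0 2 * pS 1 1 * pS 1 2 ∣ e` for `j s = j* e³`
* `V_cls` : `N(j*) N(δ)² N(s)² ≤ 2^28 2^i 8^nS / 8^nE`
-/

set_option autoImplicit false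

noncomputable section

open Finset Complex
open scoped ComplexConjugate

namespace Crest.Agent.R017.E4Us512

open Crest.Agent.R012 Crest.Agent.R012.Eis
open Crest.Agent.R012.Mob705 hiding pb mem_pb
open Crest.Agent.R012.Div277 (nm_le_of_dvd)
open Crest.Agent.R017.C70 (JC CbF OKJ)
open Crest.Agent.R017.E5b54 (stj stj_spec JC_cf JC_ne_zero)
open Crest.Agent.R017.DgA829 (lc lc_prim lc_dvd)
open Crest.Agent.R017.E4U164 (pS)

/-- no cube of a prime divides `s` -/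
def C3 (s : Eis) : Prop := ∀ p : Eis, Prime p → ¬ p ^ 3 ∣ s

lemma c3_lc {s t : Eis} (hs : IsPrim s) (ht : IsPrim t) (h1 : C3 s) (h2 : C3 t) :
    C3 (lc s t) := by
  classical
  intro p hp hd
  -- `lc s t ∣ s' t'`: compare valuations through a prime power argument
  have hl := lc_prim hs ht
  obtain ⟨m, hm⟩ := hd
  -- `lc / p` is still a common multiple
  have hl0 : lc s t ≠ 0 := hl.ne_zero
  have hp0 : p ≠ 0 := hp.ne_zero
  have hs' : s ∣ p ^ 2 * m := by
    have h : s ∣ p * (p ^ 2 * m) := by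
      have := ((lc_dvd hs ht (lc s t)).mp dvd_rfl).1
      rw [hm] at this
      have e : p * (p ^ 2 * m) = p ^ 3 * m := by ring
      rw [e]; exact this
    obtain ⟨c, hc⟩ := h
    by_cases hpc : p ∣ c
    · obtain ⟨c', rfl⟩ := hpc
      refine ⟨c', mul_left_cancel₀ hp0 ?_⟩
      rw [hc]; ring
    · exfalso
      apply h1 p hp
      have hcop : IsCoprime (p ^ 3) c :=
        IsCoprime.pow_left ((hp.irreducible.coprime_iff_not_dvd).mpr hpc)
      refine hcop.dvd_of_dvd_mul_right (?_ : p ^ 3 ∣ s * c)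
      rw [← hc]
      exact ⟨m, by ring⟩
  have ht' : t ∣ p ^ 2 * m := by
    have h : t ∣ p * (p ^ 2 * m) := by
      have := ((lc_dvd hs ht (lc s t)).mp dvd_rfl).2
      rw [hm] at this
      have e : p * (p ^ 2 * m) = p ^ 3 * m := by ring
      rw [e]; exact this
    obtain ⟨c, hc⟩ := h
    by_cases hpc : p ∣ c
    · obtain ⟨c', rfl⟩ := hpc
      refine ⟨c', mul_left_cancel₀ hp0 ?_⟩
      rw [hc]; ring
    · exfalso
      apply h2 p hp
      have hcop : IsCoprime (p ^ 3) c :=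
        IsCoprime.pow_left ((hp.irreducible.coprime_iff_not_dvd).mpr hpc)
      refine hcop.dvd_of_dvd_mul_right (?_ : p ^ 3 ∣ t * c)
      rw [← hc]
      exact ⟨m, by ring⟩
  have h3 : lc s t ∣ p ^ 2 * m := (lc_dvd hs ht _).mpr ⟨hs', ht'⟩
  have hm0 : m ≠ 0 := by
    rintro rfl
    rw [mul_zero] at hm
    exact hl0 hm
  have h4 := nm_le_of_dvd (mul_ne_zero (pow_ne_zero 2 hp0) hm0) h3
  rw [hm, nm_mul, nm_mul, nm_pow, nm_pow] at h4
  have h5 : 0 < nm p := nm_pos.mpr hp0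
  have h6 : 0 < nm m := nm_pos.mpr hm0
  have h7 : 1 < nm p := by
    by_contra hle
    have h8 : nm p = 1 := le_antisymm (not_lt.mp hle) h5
    exact hp.not_isUnit (Eis.isUnit_iff.mpr h8)
  have h9 : nm p ^ 2 * nm m < nm p ^ 3 * nm m := by
    have : nm p ^ 2 < nm p ^ 3 := Nat.pow_lt_pow_right h7 (by norm_num)
    exact Nat.mul_lt_mul_of_pos_right this h6
  omega

lemma c3_sqf {s : Eis} (hs : Squarefree s) : C3 s := by
  intro p hp hd
  exact hp.not_isUnit (hs p ((by rw [← pow_two]; exact pow_dvd_pow p (by norm_num) : p * p ∣ p ^ 3).trans hd))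

lemma c3_q2g {q g : Eis} (hq : Squarefree q) (hg : Squarefree g) (hc : IsCoprime q g) :
    C3 (q ^ 2 * g) := by
  intro p hp hd
  by_cases hpq : p ∣ q
  · have hpg : IsCoprime (p ^ 3) g := (hc.of_isCoprime_of_dvd_left hpq).pow_left
    have h1 : p ^ 3 ∣ q ^ 2 := hpg.dvd_of_dvd_mul_right hd
    obtain ⟨a, rfl⟩ := hpq
    have h2 : ¬ p ∣ a := by
      rintro ⟨b, rfl⟩
      exact hp.not_isUnit (hq p ⟨b, by ring⟩)
    have h3 : p ∣ a ^ 2 := by
      have : p ^ 2 * p ∣ p ^ 2 * a ^ 2 := by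
        have e1 : p ^ 2 * p = p ^ 3 := by ring
        have e2 : p ^ 2 * a ^ 2 = (p * a) ^ 2 := by ring
        rw [e1, e2]; exact h1
      exact (mul_dvd_mul_iff_left (pow_ne_zero 2 hp.ne_zero)).mp this
    exact h2 (hp.dvd_of_dvd_pow h3)
  · have hpq' : IsCoprime (p ^ 3) (q ^ 2) :=
      ((hp.irreducible.coprime_iff_not_dvd).mpr hpq).pow
    exact c3_sqf hg p hp (hpq'.dvd_of_dvd_mul_left hd)

/-! ### the classes -/

open Classical in
/-- the set behind `pS` -/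
def pF (a : Fin 2) (b : Fin 3) (s j : Eis) : Finset Eis :=
  (pp s).filter (fun p => multiplicity p s = (a : ℕ) + 1 ∧ multiplicity p j = (b : ℕ))

lemma pS_eq (a : Fin 2) (b : Fin 3) (s j : Eis) : pS a b s j = ∏ p ∈ pF a b s j, p := by
  classical
  unfold E4U164.pS pF
  congr

lemma ppSet_pF (a : Fin 2) (b : Fin 3) (s j : Eis) : PPSet (pF a b s j) := by
  classical
  intro p hp
  unfold pF at hp
  exact isPP_of_mem_pp (mem_filter.mp hp).1

lemma mem_pF {a : Fin 2} {b : Fin 3} {s j p : Eis} (hs : s ≠ 0) :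
    p ∈ pF a b s j ↔ (IsPP p ∧ p ∣ s) ∧ multiplicity p s = (a : ℕ) + 1 ∧
      multiplicity p j = (b : ℕ) := by
  classical
  unfold pF
  rw [mem_filter, mem_pp hs]

lemma pS_prim (a : Fin 2) (b : Fin 3) (s j : Eis) : IsPrim (pS a b s j) := by
  rw [pS_eq]; exact (ppSet_pF a b s j).isPrim_prod

lemma fin_pp {p s : Eis} (hp : IsPP p) (hs : s ≠ 0) : FiniteMultiplicity p s :=
  FiniteMultiplicity.of_prime_left hp.prime hs

/-- two disjoint sets of primes have coprime products -/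
lemma cop_prod {A B : Finset Eis} (hA : PPSet A) (hB : PPSet B) (h : Disjoint A B) :
    IsCoprime (∏ p ∈ A, p) (∏ p ∈ B, p) := by
  refine IsCoprime.prod_left fun p hp => IsCoprime.prod_right fun q hq => ?_
  refine (hA p hp).isCoprime (hB q hq) ?_
  rintro rfl
  exact (Finset.disjoint_left.mp h) hp hq

/-- **the factorisation of a cube-free primary `s`** -/
lemma fac_S {s j : Eis} (hs : IsPrim s) (hc : C3 s) (hj : JC j) :
    s = (∏ b, pS 0 b s j) * (∏ b, pS 1 b s j) ^ 2 := by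
  classical
  have hs0 := hs.ne_zero
  have hj0 := JC_ne_zero hj
  set A : Finset Eis := (pp s).filter (fun p => multiplicity p s = 1) with hA
  set B : Finset Eis := (pp s).filter (fun p => multiplicity p s = 2) with hB
  have hAp : PPSet A := (ppSet_pp s).subset (filter_subset _ _)
  have hBp : PPSet B := (ppSet_pp s).subset (filter_subset _ _)
  have hAB : Disjoint A B := by
    rw [Finset.disjoint_left]
    intro p hp hq
    rw [hA, mem_filter] at hp
    rw [hB, mem_filter] at hq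
    omega
  -- valuations of `j`
  have hvj : ∀ p ∈ pp s, multiplicity p j < 3 := by
    intro p hp
    by_contra h
    have hd : p ^ 3 ∣ j := (pow_dvd_pow p (not_lt.mp h)).trans (pow_multiplicity_dvd p j)
    exact (JC_cf hj).2 p (isPP_of_mem_pp hp).prime hd
  have hprod : ∀ (a : Fin 2) (C : Finset Eis),
      C = (pp s).filter (fun p => multiplicity p s = (a : ℕ) + 1) →
      ∏ b, pS a b s j = ∏ p ∈ C, p := by
    intro a C hC
    have e1 : C = (Finset.univ : Finset (Fin 3)).biUnion (fun b => pF a b s j) := by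
      ext p
      rw [hC, mem_filter, mem_biUnion]
      constructor
      · rintro ⟨h1, h2⟩
        refine ⟨⟨multiplicity p j, hvj p h1⟩, mem_univ _, ?_⟩
        unfold pF
        rw [mem_filter]
        exact ⟨h1, h2, rfl⟩
      · rintro ⟨b, -, h⟩
        unfold pF at h
        rw [mem_filter] at h
        exact ⟨h.1, h.2.1⟩
    rw [e1, Finset.prod_biUnion]
    · exact Finset.prod_congr rfl fun b _ => pS_eq a b s j
    · intro b _ b' _ hbb
      show Disjoint (pF a b s j) (pF a b' s j)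
      rw [Finset.disjoint_left]
      intro p hp hq
      unfold pF at hp hq
      rw [mem_filter] at hp hq
      apply hbb
      apply Fin.ext
      rw [← hp.2.2, ← hq.2.2]
  rw [hprod 0 A (by rw [hA]; rfl), hprod 1 B (by rw [hB]; rfl)]
  have hAs : (∏ p ∈ A, p) ∣ s := hAp.prod_dvd.mpr fun p hp => by
    rw [hA, mem_filter] at hp
    exact dvd_of_mem_pp hp.1
  have hBs : (∏ p ∈ B, p) ^ 2 ∣ s := (hBp.prod_pow_dvd 2).mpr fun p hp => by
    rw [hB, mem_filter] at hp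
    rw [← hp.2]
    exact pow_multiplicity_dvd p s
  have hcop : IsCoprime (∏ p ∈ A, p) ((∏ p ∈ B, p) ^ 2) := (cop_prod hAp hBp hAB).pow_right
  obtain ⟨m, hm⟩ := hcop.mul_dvd hAs hBs
  have hmp : IsPrim m := IsPrim.of_mul_left (hm ▸ hs)
    (hAp.isPrim_prod.mul (hBp.isPrim_prod.pow 2))
  by_cases h1 : m = 1
  · rw [h1, mul_one] at hm; exact hm
  · exfalso
    obtain ⟨q, hq, hqm⟩ := exists_pp_dvd_of_isPrim hmp h1
    have hqs : q ∣ s := hqm.trans (Dvd.intro_left _ hm.symm)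
    have hqpp : q ∈ pp s := (mem_pp hs0).mpr ⟨hq, hqs⟩
    have hfin := fin_pp hq hs0
    have hlt : multiplicity q s < 3 := by
      by_contra h
      exact hc q hq.prime ((pow_dvd_pow q (not_lt.mp h)).trans (pow_multiplicity_dvd q s))
    have hge : 1 ≤ multiplicity q s := by
      have := (hfin.pow_dvd_iff_le_multiplicity (k := 1)).mp (by rw [pow_one]; exact hqs)
      exact this
    have hcase : multiplicity q s = 1 ∨ multiplicity q s = 2 := by omega
    rcases hcase with h2 | h2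
    · have hqA : q ∣ ∏ p ∈ A, p := (hAp.dvd_prod hq).mpr (by rw [hA, mem_filter]; exact ⟨hqpp, h2⟩)
      have hd : q ^ 2 ∣ s := by
        rw [hm, pow_two]
        have : q * q ∣ ((∏ p ∈ A, p) * (∏ p ∈ B, p) ^ 2) * m :=
          mul_dvd_mul (hqA.mul_right _) hqm
        exact this
      have := (hfin.pow_dvd_iff_le_multiplicity (k := 2)).mp hd
      omega
    · have hqB : q ∣ ∏ p ∈ B, p := (hBp.dvd_prod hq).mpr (by rw [hB, mem_filter]; exact ⟨hqpp, h2⟩)
      have hd : q ^ 3 ∣ s := by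
        rw [hm, pow_succ]
        exact mul_dvd_mul ((pow_dvd_pow_of_dvd hqB 2).mul_left _) hqm
      exact hc q hq.prime hd

/-- class numbers -/
def nSm (m : Fin 2 → Fin 3 → ℕ) : ℕ := ∑ b, m 0 b + 2 * ∑ b, m 1 b

lemma nm_prod_fin {κ : Type*} [Fintype κ] (x : κ → Eis) : nm (∏ i, x i) = ∏ i, nm (x i) :=
  map_prod nmHom x univ

/-- **the size of `s` in its class** -/
lemma nm_S_cls {s j : Eis} (hs : IsPrim s) (hc : C3 s) (hj : JC j) {m : Fin 2 → Fin 3 → ℕ}
    (hm : ∀ b c, nm (pS b c s j) < 2 ^ (m b c + 1)) : nm s ≤ 2 ^ (nSm m + 9) := by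
  have h0 : ∀ a : Fin 2, ∏ b, nm (pS a b s j) ≤ 2 ^ (∑ b, m a b + 3) := by
    intro a
    calc ∏ b, nm (pS a b s j) ≤ ∏ b : Fin 3, 2 ^ (m a b + 1) :=
          Finset.prod_le_prod' fun b _ => (hm a b).le
      _ = 2 ^ (∑ b, m a b + 3) := by
          rw [Finset.prod_pow_eq_pow_sum, Finset.sum_add_distrib]
          simp
  conv_lhs => rw [fac_S hs hc hj]
  rw [nm_mul, nm_pow, nm_prod_fin, nm_prod_fin]
  calc (∏ b, nm (pS 0 b s j)) * (∏ b, nm (pS 1 b s j)) ^ 2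
      ≤ 2 ^ (∑ b, m 0 b + 3) * (2 ^ (∑ b, m 1 b + 3)) ^ 2 :=
        Nat.mul_le_mul (h0 0) (Nat.pow_le_pow_left (h0 1) 2)
    _ = 2 ^ (nSm m + 9) := by
        unfold nSm
        rw [← pow_mul, ← pow_add]
        congr 1
        ring

lemma le_nm_S_cls {s j : Eis} (hs : IsPrim s) (hc : C3 s) (hj : JC j) {m : Fin 2 → Fin 3 → ℕ}
    (hm : ∀ b c, 2 ^ m b c ≤ nm (pS b c s j)) : 2 ^ nSm m ≤ nm s := by
  have h0 : ∀ a : Fin 2, 2 ^ (∑ b, m a b) ≤ ∏ b, nm (pS a b s j) := by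
    intro a
    calc 2 ^ (∑ b, m a b) = ∏ b : Fin 3, 2 ^ (m a b) := by
          rw [Finset.prod_pow_eq_pow_sum]
      _ ≤ ∏ b, nm (pS a b s j) := Finset.prod_le_prod' fun b _ => hm a b
  conv_rhs => rw [fac_S hs hc hj]
  rw [nm_mul, nm_pow, nm_prod_fin, nm_prod_fin]
  calc 2 ^ nSm m = 2 ^ (∑ b, m 0 b) * (2 ^ (∑ b, m 1 b)) ^ 2 := by
        unfold nSm
        rw [← pow_mul, ← pow_add]
        congr 1
        ring
    _ ≤ _ := Nat.mul_le_mul (h0 0) (Nat.pow_le_pow_left (h0 1) 2)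

/-- **the cube part contains the forced primes** -/
lemma nE_dvd {s j : Eis} (hs : IsPrim s) (hj : JC j) {e : Eis}
    (h : j * s = stj s j * e ^ 3) : pS 0 2 s j * (pS 1 1 s j * pS 1 2 s j) ∣ e := by
  classical
  have hs0 := hs.ne_zero
  have hj0 := JC_ne_zero hj
  have key : ∀ (a : Fin 2) (b : Fin 3), 3 ≤ (a : ℕ) + 1 + (b : ℕ) → ∀ p ∈ pF a b s j, p ∣ e := by
    intro a b hab p hp
    rw [mem_pF hs0] at hp
    obtain ⟨⟨hpp, -⟩, h1, h2⟩ := hp
    by_contra hpe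
    have hd : p ^ 3 ∣ j * s := by
      have h3 : p ^ ((b : ℕ) + ((a : ℕ) + 1)) ∣ j * s := by
        rw [pow_add, ← h1, ← h2]
        exact mul_dvd_mul (pow_multiplicity_dvd p j) (pow_multiplicity_dvd p s)
      exact (pow_dvd_pow p (by omega)).trans h3
    rw [h] at hd
    have hcop : IsCoprime (p ^ 3) (e ^ 3) :=
      ((hpp.prime.irreducible.coprime_iff_not_dvd).mpr hpe).pow
    exact (JC_cf (stj_spec hs hj).1).2 p hpp.prime (hcop.dvd_of_dvd_mul_right hd)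
  have hdis : ∀ (a a' : Fin 2) (b b' : Fin 3), (a ≠ a' ∨ b ≠ b') →
      Disjoint (pF a b s j) (pF a' b' s j) := by
    intro a a' b b' hne
    rw [Finset.disjoint_left]
    intro p hp hq
    rw [mem_pF hs0] at hp hq
    rcases hne with h1 | h1
    · apply h1
      apply Fin.ext
      have := hp.2.1.symm.trans hq.2.1
      omega
    · apply h1
      apply Fin.ext
      exact hp.2.2.symm.trans hq.2.2
  have hcop : ∀ (a a' : Fin 2) (b b' : Fin 3), (a ≠ a' ∨ b ≠ b') →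
      IsCoprime (pS a b s j) (pS a' b' s j) := by
    intro a a' b b' hne
    rw [pS_eq, pS_eq]
    exact cop_prod (ppSet_pF _ _ _ _) (ppSet_pF _ _ _ _) (hdis a a' b b' hne)
  have hdvd : ∀ (a : Fin 2) (b : Fin 3), 3 ≤ (a : ℕ) + 1 + (b : ℕ) → pS a b s j ∣ e := by
    intro a b hab
    rw [pS_eq]
    exact (ppSet_pF a b s j).prod_dvd.mpr (key a b hab)
  refine IsCoprime.mul_dvd ?_ (hdvd 0 2 (by decide)) (IsCoprime.mul_dvd ?_
    (hdvd 1 1 (by decide)) (hdvd 1 2 (by decide)))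
  · exact (hcop 0 1 2 1 (Or.inl (by decide))).mul_right (hcop 0 1 2 2 (Or.inl (by decide)))
  · exact hcop 1 1 1 2 (Or.inr (by decide))

/-- class numbers -/
def nEm (m : Fin 2 → Fin 3 → ℕ) : ℕ := m 0 2 + m 1 1 + m 1 2

/-- **the size of `j*`** -/
lemma nm_stj_cls {s j : Eis} (hs : IsPrim s) (hj : JC j) {m : Fin 2 → Fin 3 → ℕ}
    (hm : ∀ b c, 2 ^ m b c ≤ nm (pS b c s j)) :
    nm (stj s j) * 8 ^ nEm m ≤ nm j * nm s := by
  obtain ⟨-, e, he, h⟩ := stj_spec hs hj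
  have h1 := nm_le_of_dvd he.ne_zero (nE_dvd hs hj h)
  rw [nm_mul, nm_mul] at h1
  have h2 : 2 ^ nEm m ≤ nm e := by
    refine le_trans ?_ h1
    unfold nEm
    rw [pow_add, pow_add, mul_assoc]
    exact Nat.mul_le_mul (hm 0 2) (Nat.mul_le_mul (hm 1 1) (hm 1 2))
  have h3 : nm j * nm s = nm (stj s j) * nm e ^ 3 := by
    rw [← nm_mul, h, nm_mul, nm_pow]
  rw [h3]
  refine Nat.mul_le_mul_left _ ?_
  calc 8 ^ nEm m = (2 ^ nEm m) ^ 3 := by
        rw [show (8 : ℕ) = 2 ^ 3 by norm_num, ← pow_mul, ← pow_mul, mul_comm]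
    _ ≤ nm e ^ 3 := Nat.pow_le_pow_left h2 3

lemma V_real {a j d s : ℝ} {L : ℝ} {n k : ℕ} (hj : 0 ≤ j) (hs : 0 ≤ s)
    (h1 : a * 8 ^ k ≤ j * s) (h2 : s ≤ 2 ^ (n + 9)) (hL : j * d ^ 2 ≤ L) :
    a * d ^ 2 * s ^ 2 ≤ 2 ^ 27 * (L * 8 ^ n / 8 ^ k) := by
  have hL0 : 0 ≤ L := le_trans (by positivity) hL
  have h3 : s ^ 3 ≤ 2 ^ 27 * 8 ^ n := by
    have e1 : ((2 : ℝ) ^ (n + 9)) ^ 3 = 2 ^ 27 * 8 ^ n := by
      have e2 : (8 : ℝ) ^ n = 2 ^ (3 * n) := by
        rw [pow_mul]; norm_num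
      rw [e2, ← pow_mul, ← pow_add]
      congr 1
      omega
    rw [← e1]
    exact pow_le_pow_left₀ hs h2 3
  rw [← mul_div_assoc, le_div_iff₀ (by positivity)]
  calc a * d ^ 2 * s ^ 2 * 8 ^ k
      = (a * 8 ^ k) * (d ^ 2 * s ^ 2) := by ring
    _ ≤ (j * s) * (d ^ 2 * s ^ 2) := mul_le_mul_of_nonneg_right h1 (by positivity)
    _ = (j * d ^ 2) * s ^ 3 := by ring
    _ ≤ L * (2 ^ 27 * 8 ^ n) := mul_le_mul hL h3 (by positivity) hL0
    _ = 2 ^ 27 * (L * 8 ^ n) := by ring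

/-- **the size of the joint frequency in its class** -/
theorem V_cls {s j δ : Eis} (hs : IsPrim s) (hc : C3 s) (hj : JC j) {m : Fin 2 → Fin 3 → ℕ}
    (hm : ∀ b c, 2 ^ m b c ≤ nm (pS b c s j) ∧ nm (pS b c s j) < 2 ^ (m b c + 1)) {L : ℝ}
    (hL : (nm (j * δ ^ 2) : ℝ) ≤ L) :
    (nm (stj s j) : ℝ) * nm δ ^ 2 * nm s ^ 2 ≤ 2 ^ 27 * (L * 8 ^ nSm m / 8 ^ nEm m) := by
  have h1 := nm_stj_cls hs hj fun b c => (hm b c).1
  have h2 := nm_S_cls hs hc hj fun b c => (hm b c).2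
  have h1' : (nm (stj s j) : ℝ) * 8 ^ nEm m ≤ nm j * nm s := by exact_mod_cast h1
  have h2' : (nm s : ℝ) ≤ 2 ^ (nSm m + 9) := by exact_mod_cast h2
  rw [nm_mul, nm_pow] at hL
  push_cast at hL
  exact V_real (Nat.cast_nonneg _) (Nat.cast_nonneg _) h1' h2' hL

end Crest.Agent.R017.E4Us512
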