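import Crest.Agent.R017.E4Ut_512
import Crest.Agent.R017.E4Uw_512

/-!
# Row 17, R8 / E5, consumer of E4 : sizes for the data `Dt` of `JBU` (helper512)

* `fr_of_frL` : the frame of one level gives `Fr`
* `dt_dat4` : `Dat4`, the tight `U`-bound (classes) and the sizes for the data `Dt`
* `dt_sizes` : the size hypotheses of `midV` and `sum_mid`
* `dt_Cw` : `‖b1 n‖ ‖b2 m‖ ≤ C X^ε` on the supports
* `jb_empty`, `hm5_empty` : the empty class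
-/

set_option autoImplicit false

noncomputable section

open Finset Complex
open scoped ComplexConjugate

namespace Crest.Agent.R017.E4Us512

open Crest.Agent.R012 Crest.Agent.R012.Eis
open Crest.Agent.R012.Mob705 hiding pb mem_pb
open Crest.Agent.R012.Div277
open Crest.Agent.R012.LS2 (S mem_S)
open Crest.Agent.R017.Sx545 (Sm)
open Crest.Agent.R017.CM106 (CS FS sub)
open Crest.Agent.R017.FE47 (cx PU SM)
open Crest.Agent.R017.C70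
open Crest.Agent.R017.XT71 (Sys Win mx le_mx)
open Crest.Agent.R017.XG702 (Pcs)
open Crest.Agent.R017.End699 (HC)
open Crest.Agent.R017.E4352 (PrI Dat4)
open Crest.Agent.R017.E4D164
open Crest.Agent.R017.E5k54 (PT alb)
open Crest.Agent.R017.SSb54 (PTb mem_PTb)
open Crest.Agent.R017.E5P571 (Gd mem_Gd)
open Crest.Agent.R017.E5B71
open Crest.Agent.R017.B770 (DPar)
open Crest.Agent.R017.Prov71
open Crest.Agent.R017.E5L770
open Crest.Agent.R017.E4U164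
open Crest.Agent.R017.DgA829 (lc lc_prim lc_dvd)

/-! ### the frame -/

lemma cu_le {A : ℝ} (hA : 2 / 3 ≤ A) {p : Fin 3 ⊕ Fin 5 → ℝ} {w : Kd → ℝ} (H : Nr5 A p w) :
    (∀ j, cu p j ≤ 4 / 3) ∧ (∀ t, w t ≤ 4 / 3) ∧ ce p ≤ 4 / 3 := by
  have h1 := Nr5.N_ge H
  have h2 := H.κ0
  have h3 : 2 / 3 * cκ p ≤ A * cκ p := mul_le_mul_of_nonneg_right hA (by linarith)
  obtain ⟨a1, a2, a3, a4⟩ := H.anti
  have h4 := H.q
  have h5 := H.c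
  have h6 := H.D
  have h7 := H.w0 .mo
  have h8 := H.w0 .am
  have hN : cN p = cu p 2 + cu p 3 + cu p 4 := rfl
  have hM : cM p = cu p 0 + cu p 1 := rfl
  rw [hM] at h4 h6
  have h9 : 0 ≤ cN p := by linarith
  have h10 : 0 ≤ cu p 2 := by linarith
  refine ⟨fun j => ?_, fun t => ?_, ?_⟩
  · fin_cases j
    · show cu p 0 ≤ 4 / 3
      linarith
    · show cu p 1 ≤ 4 / 3
      linarith
    · show cu p 2 ≤ 4 / 3
      linarith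
    · show cu p 3 ≤ 4 / 3
      linarith
    · show cu p 4 ≤ 4 / 3
      linarith
  · cases t
    · linarith
    · linarith
  · linarith

lemma nl_le_mass {X : ℝ} (hX : 1 < X) {ps : List Pq} (h0 : ∀ p ∈ ps, 0 ≤ p.z) {p : Pq}
    (hp : p ∈ ps) : Dq.nl X p ≤ Dq.mass X ps p.kd := by
  have hl : 0 < Real.log X := Real.log_pos hX
  have hnn : ∀ (qs : List Pq) (t : Kd), (∀ p ∈ qs, 0 ≤ p.z) → 0 ≤ Dq.mass X qs t := by
    intro qs t hqs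
    induction qs with
    | nil => rw [Pcs.mass_nil]
    | cons q qs ih =>
      rw [Pcs.mass_cons]
      have h1 := ih fun p hp => hqs p (List.mem_cons_of_mem _ hp)
      have h2 : 0 ≤ Dq.nl X q := div_nonneg (hqs q List.mem_cons_self) hl.le
      split_ifs <;> linarith
  induction ps with
  | nil => simp at hp
  | cons q qs ih =>
    rw [Pcs.mass_cons]
    rcases List.mem_cons.mp hp with rfl | hp'
    · rw [if_pos (by rfl)]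
      have := hnn qs p.kd fun p hp => h0 p (List.mem_cons_of_mem _ hp)
      linarith
    · have h1 := ih (fun p hp => h0 p (List.mem_cons_of_mem _ hp)) hp'
      have h2 : 0 ≤ Dq.nl X q := div_nonneg (h0 q List.mem_cons_self) hl.le
      split_ifs <;> linarith

/-- **the frame of one level gives the size conditions** -/
theorem fr_of_frL {A d δ δ' B X : ℝ} (hA : 2 / 3 ≤ A) (hδ : δ ≤ 1 / 2) (hX : 1 < X) {N : ℕ}
    {a : Bd × ℕ} {ps : List Pq} {q : (Option (Fin 3 ⊕ Fin 5) → ℝ) × (Kd → ℝ)}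
    (H : FrL A d δ δ' B X N a ps q) (ha : a.1.ok) {P : DPar} (haP : a.1.okP P) {B₁ : ℝ}
    (hB₁ : B ≤ B₁) (h3 : 3 ≤ B₁) : Fr X B₁ N a.1 ps a.2 := by
  have hl : 0 < Real.log X := Real.log_pos hX
  have hX0 : 0 < X := by linarith
  have hdom := H.dom
  unfold SqL DomL at hdom
  obtain ⟨hq, -, hq2⟩ := hdom
  have hSq : Sq5 A d (dn q.1) q.2 := hq
  obtain ⟨c1, c2, c3⟩ := cu_le hA hSq.toNr5
  have key : ∀ {y c : ℝ}, |y / Real.log X - c| ≤ δ → c ≤ 4 / 3 → y ≤ 2 * Real.log X := by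
    intro y c h1 h2
    have h4 := (abs_le.mp h1).2
    have h5 : y / Real.log X ≤ 2 := by linarith
    rwa [div_le_iff₀ hl] at h5
  have h23 : 2 * Real.log X ≤ B₁ * Real.log X := mul_le_mul_of_nonneg_right (by linarith) hl.le
  have hz0 : ∀ p ∈ ps, 0 ≤ p.z := fun p hp => (H.good p hp).2.2
  have el : |a.1.l / Real.log X - cκ (dn q.1)| ≤ δ := H.win.ev (some (.inl 0))
  have hκ1 := hSq.κ1
  have hκ0 := hSq.κ0
  refine ⟨H.len, (key el (by linarith)).trans h23, ?_, fun j => ?_, fun p hp => ?_,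
    ⟨ha.2.2, ?_⟩, ⟨haP.1.1, ?_⟩, ?_⟩
  · have h4 := (abs_le.mp el).1
    have h5 : 0 ≤ a.1.l / Real.log X := by linarith
    by_contra hneg
    push Not at hneg
    exact absurd (div_neg_of_neg_of_pos hneg hl) (not_lt.mpr h5)
  · have e2 : |(a.1.us j).z / Real.log X - cu (dn q.1) j| ≤ δ := H.win.ev (some (.inr j))
    exact (key e2 (c1 j)).trans h23
  · have h4 := nl_le_mass hX hz0 hp
    have h5 := (abs_le.mp (H.mass p.kd)).2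
    have h6 := c2 p.kd
    have h7 : p.z / Real.log X ≤ 2 := by
      have : Dq.nl X p = p.z / Real.log X := rfl
      rw [← this]; linarith
    rw [div_le_iff₀ hl] at h7
    linarith
  · have h4 : max (nm a.1.d₃ : ℝ) (mx Dq.s2 (List.ofFn a.1.us)) ≤ X ^ B := H.win.s₂
    exact (le_max_left _ _).trans (h4.trans (Real.rpow_le_rpow_of_exponent_le hX.le hB₁))
  · have e2 : |Real.log (nm a.1.e) / Real.log X - ce (dn q.1)| ≤ δ := H.win.ev (some (.inl 2))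
    have h4 := (key e2 c3).trans h23
    have h5 : (0 : ℝ) < nm a.1.e := by exact_mod_cast nm_pos.2 haP.1.1.ne_zero
    calc (nm a.1.e : ℝ) = Real.exp (Real.log (nm a.1.e)) := (Real.exp_log h5).symm
      _ ≤ Real.exp (B₁ * Real.log X) := Real.exp_le_exp.2 h4
      _ = X ^ B₁ := by rw [Real.rpow_def_of_pos hX0, mul_comm]
  · have e2 : |Real.log 2 * (a.2 : ℝ) / Real.log X - q.1 none| ≤ δ := H.win.ev none
    have h4 := top5_le hA hSq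
    have h5 := (abs_le.mp e2).2
    have h6 : Real.log 2 * (a.2 : ℝ) / Real.log X ≤ 3 := by linarith
    rw [div_le_iff₀ hl] at h6
    exact h6.trans (mul_le_mul_of_nonneg_right h3 hl.le)

lemma lam_eq (ps : List Pq) : lam' ps = lz (amL ps) := rfl

lemma lmo_eq (a : Bd) (ps : List Pq) : lmo a ps = lz (bs2 a ps) := rfl

variable {Λ : Type*}

/-- `S_q` is cube-free -/
lemma c3_sS {P : DPar} {Bf : ℝ → ℝ → ℝ → ℝ} {e0 r ε X : ℝ} {a : Bd} {x : Dt}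
    (hx : x.OK P Bf e0 r ε X a) (ha : a.ok) (haP : a.okP P) {q : Eis} (hq : q ∈ x.Q) :
    IsPrim (sS x.g x.e₀ x.t q) ∧ C3 (sS x.g x.e₀ x.t q) := by
  have hg := (mem_Gd ha.2.2).mp hx.g
  have he₀ := (mem_S (Real.exp_pos _).le).mp hx.e₀
  have hE : IsPrim (x.E a) := haP.1.1.mul (T3_prim _ hx.β)
  have ht := (mem_Gd (tS_prim hE).ne_zero).mp hx.t
  have h1 := hx.Q q hq
  have hqg : IsPrim (q ^ 2 * x.g) := (h1.1.1.pow 2).mul hg.1.1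
  have hcg : IsCoprime q x.g := h1.2.2.1.of_isCoprime_of_dvd_right hg.2.2
  refine ⟨lc_prim (lc_prim hqg he₀.2.1) ht.1.1, ?_⟩
  unfold sS E4D164.sE
  exact c3_lc (lc_prim hqg he₀.2.1) ht.1.1 (c3_lc hqg he₀.2.1 (c3_q2g h1.2.1 hg.2.1 hcg)
    (c3_sqf he₀.2.2)) (c3_sqf ht.2.1)

/-- **the tight joint frequency bound of a class** -/
lemma dt_V {P : DPar} {Bf : ℝ → ℝ → ℝ → ℝ} {Jf : ℝ → ℝ → ℝ → Finset (Eis × Eis)}
    {e0 r ε X : ℝ} {a : Bd × ℕ} {x : Dt} (hJ : OKJ (J3 Jf a.1 a.2))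
    (hx : x.OK P Bf e0 r ε X a.1) (ha : a.1.ok) (haP : a.1.okP P) :
    ∀ i ∈ x.I Jf a, (nm (jJ (sS x.g x.e₀ x.t) i) : ℝ) * nm (jD i) ^ 2 *
      nm (jS (sS x.g x.e₀ x.t) i) ^ 2 ≤ 2 ^ 27 * (2 * 2 ^ a.2 * 8 ^ x.nS / 8 ^ x.nE) := by
  intro i hi
  obtain ⟨⟨hq, hxJ⟩, hcl⟩ := Dt.mem_I.mp hi
  obtain ⟨hs, hc⟩ := c3_sS hx ha haP hq
  have hL : (nm (i.2.2 * i.2.1 ^ 2) : ℝ) ≤ 2 * 2 ^ a.2 := mem_J3_le hxJ
    (mul_ne_zero (E4K164.jc_ne_zero (hJ.jc _ hxJ)) (pow_ne_zero 2 (hJ.prim _ hxJ).ne_zero))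
  exact V_cls hs hc (hJ.jc _ hxJ) hcl hL

/-- the multiplier is at least the product of its classes -/
lemma dt_nS {P : DPar} {Bf : ℝ → ℝ → ℝ → ℝ} {Jf : ℝ → ℝ → ℝ → Finset (Eis × Eis)}
    {e0 r ε X : ℝ} {a : Bd × ℕ} {x : Dt} (hJ : OKJ (J3 Jf a.1 a.2))
    (hx : x.OK P Bf e0 r ε X a.1) (ha : a.1.ok) (haP : a.1.okP P) :
    ∀ i ∈ x.I Jf a, (2 : ℝ) ^ x.nS ≤ nm (sS x.g x.e₀ x.t i.1) ∧
      (nm (sS x.g x.e₀ x.t i.1) : ℝ) ≤ 2 ^ 9 * 2 ^ x.nS := by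
  intro i hi
  obtain ⟨⟨hq, hxJ⟩, hcl⟩ := Dt.mem_I.mp hi
  obtain ⟨hs, hc⟩ := c3_sS hx ha haP hq
  have h1 := le_nm_S_cls hs hc (hJ.jc _ hxJ) fun b c => (hcl b c).1
  have h2 := nm_S_cls hs hc (hJ.jc _ hxJ) fun b c => (hcl b c).2
  refine ⟨by exact_mod_cast h1, ?_⟩
  have h3 : (nm (sS x.g x.e₀ x.t i.1) : ℝ) ≤ 2 ^ (x.nS + 9) := by exact_mod_cast h2
  rw [pow_add] at h3
  linarith

/-- **`Dat4`, the `U`-bound and the sizes of the data `Dt`** -/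
theorem dt_dat4 {π : Λ → DPar} {h : ℝ → ℝ} {c : ℝ} (hh : PU h c) {A d : ℝ} (hA : 2 / 3 ≤ A)
    (e0 r : ℝ) (Bf : ℝ → ℝ → ℝ → ℝ) {Jf : ℝ → ℝ → ℝ → Finset (Eis × Eis)}
    (hJf : ∀ l N z, OKJ (Jf l N z)) (lam : Λ × Eis) (hP : (π lam.1).OK) (N : ℕ) (B E R : ℝ)
    (hR : 0 < R) :
    ∃ A₀ C₀ X₀ : ℝ, 1 ≤ A₀ ∧ 1 ≤ C₀ ∧ 1 < X₀ ∧ ∀ X : ℝ, X₀ ≤ X → ∀ δ δ' ε : ℝ, δ ≤ 1 / 2 → ε ≤ E →
    ∀ (a : Bd × ℕ) (ps : List Pq) (q : (Option (Fin 3 ⊕ Fin 5) → ℝ) × (Kd → ℝ)),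
      FrL A d δ δ' B X N a ps q → a.1.ok → a.1.okP (π lam.1) →
    (1 ≤ R * Real.exp a.1.l ∧ R * Real.exp a.1.l ≤ X ^ A₀ ∧ Real.exp a.1.l ≤ X ^ A₀ ∧
      Real.exp (-a.1.l) ≤ X ^ A₀ ∧ 0 ≤ a.1.l) ∧
    ∀ x : Dt, x.OK (π lam.1) Bf e0 r ε X a.1 →
    ∀ (h₁ : FS (b1 (π lam.1) h lam.2 ps)) (h₂ : FS (b2 (π lam.1) h lam.2 a.1 ps)),
      Dat4 (π lam.1).n₃ 1 lD (x.v π h lam Jf a) (x.w π h lam Jf a ps h₁ h₂) (X ^ A₀) ∧
      (∀ (o : x.O π lam Jf a) (u y : Eis), x.v π h lam Jf a o u ≠ 0 →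
        x.w π h lam Jf a ps h₁ h₂ o y ≠ 0 →
        (nm (1 * u * y) : ℝ) * lD o ^ 2 ≤ C₀ * U0 (π lam.1) a ps x) ∧
      0 < U0 (π lam.1) a ps x ∧ ((x.I Jf a).Nonempty → C₀ * U0 (π lam.1) a ps x ≤ X ^ A₀) ∧
      (nm (fN (π lam.1).n₃ (x.E a.1)) : ℝ) ≤ X ^ A₀ ∧
      ∀ i ∈ x.I Jf a, (nm (sS x.g x.e₀ x.t i.1) : ℝ) ≤ X ^ A₀ := by
  set B₁ : ℝ := max B 3 + |E| with hB₁
  have hE0 := abs_nonneg E
  have hB3 : 3 ≤ B₁ := by
    have := le_max_right B 3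
    rw [hB₁]; linarith
  have hBB : B ≤ B₁ := by
    have := le_max_left B 3
    rw [hB₁]; linarith
  obtain ⟨A₀, C₀, X₀, hA₀, hC₀, hX₀, H⟩ := dat4_fam hh hP e0 r N (B := B₁) (by linarith)
  set C₁ : ℝ := 2 ^ 28 * C₀ with hC₁
  have hC₁1 : 1 ≤ C₁ := by rw [hC₁]; linarith
  refine ⟨6 * A₀ + B₁ + 2, C₁, max (max X₀ (max C₁ R)) (Real.exp (|Real.log R| * 8)),
    by linarith, hC₁1, lt_max_of_lt_left (lt_max_of_lt_left hX₀), ?_⟩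
  intro X hX δ δ' ε hδ hεE a ps q hF ha haP
  have hXX : X₀ ≤ X := (le_max_left _ _).trans ((le_max_left _ _).trans hX)
  have hXC : C₁ ≤ X :=
    (le_max_left _ _).trans ((le_max_right _ _).trans ((le_max_left _ _).trans hX))
  have hXR : R ≤ X :=
    (le_max_right _ _).trans ((le_max_right _ _).trans ((le_max_left _ _).trans hX))
  have hXe : Real.exp (|Real.log R| * 8) ≤ X := (le_max_right _ _).trans hX
  have hX1 : 1 < X := hX₀.trans_le hXX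
  have hX0 : 0 < X := by linarith
  have hlX0 : 0 < Real.log X := Real.log_pos hX1
  have hFr := fr_of_frL hA hδ hX1 hF ha haP hBB hB3
  have hmo : ∀ y, y ≤ 6 * A₀ + B₁ + 2 → X ^ y ≤ X ^ (6 * A₀ + B₁ + 2) := fun y hy =>
    Real.rpow_le_rpow_of_exponent_le hX1.le hy
  have el : |a.1.l / Real.log X - cκ (dn q.1)| ≤ δ := hF.win.ev (some (.inl 0))
  have hdom := hF.dom
  unfold SqL DomL at hdom
  have hSq : Sq5 A d (dn q.1) q.2 := hdom.1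
  have hlX : a.1.l ≤ 2 * Real.log X := by
    have h4 := (abs_le.mp el).2
    have h5 : a.1.l / Real.log X ≤ 2 := by linarith [hSq.κ1]
    rwa [div_le_iff₀ hlX0] at h5
  have hlX1 : 1 / 8 * Real.log X ≤ a.1.l := by
    have h4 := (abs_le.mp el).1
    have h5 : 1 / 8 ≤ a.1.l / Real.log X := by linarith [hSq.κ0]
    rwa [le_div_iff₀ hlX0] at h5
  have hexpl : Real.exp a.1.l ≤ X ^ (2 : ℝ) := by
    rw [Real.rpow_def_of_pos hX0, mul_comm]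
    exact Real.exp_le_exp.2 hlX
  have hRl : |Real.log R| ≤ a.1.l := by
    have h6 : |Real.log R| * 8 ≤ Real.log X := (Real.le_log_iff_exp_le hX0).mpr hXe
    linarith
  have hexp0 := Real.exp_pos a.1.l
  refine ⟨⟨?_, ?_, ?_, ?_, hFr.l0⟩, fun x hx h₁ h₂ => ?_⟩
  · have h7 : 0 ≤ Real.log R + a.1.l := by
      have := neg_abs_le (Real.log R)
      linarith
    calc (1 : ℝ) ≤ Real.exp (Real.log R + a.1.l) := Real.one_le_exp h7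
      _ = R * Real.exp a.1.l := by rw [Real.exp_add, Real.exp_log hR]
  · calc R * Real.exp a.1.l ≤ X ^ (1 : ℝ) * X ^ (2 : ℝ) := by
          rw [Real.rpow_one]
          gcongr
      _ = X ^ (3 : ℝ) := by rw [← Real.rpow_add hX0]; norm_num
      _ ≤ _ := hmo _ (by linarith)
  · exact hexpl.trans (hmo _ (by linarith))
  · have h8 : Real.exp (-a.1.l) ≤ 1 := Real.exp_le_one_iff.mpr (by linarith [hFr.l0])
    exact h8.trans (Real.one_le_rpow hX1.le (by linarith))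
  have hJ := okJ3 hJf a.1 a.2
  have hI : ∀ k ∈ x.I Jf a, IsPrim k.1 ∧ (nm k.1 : ℝ) ≤ X ^ B₁ ∧ k.2 ∈ J3 Jf a.1 a.2 := by
    intro k hk
    obtain ⟨⟨hq, hxJ⟩, -⟩ := Dt.mem_I.mp hk
    have h1 := hx.Q _ hq
    refine ⟨h1.1.1, ?_, hxJ⟩
    have h2 : (1 : ℝ) ≤ nm k.1 := one_le_nm' h1.1.1
    calc (nm k.1 : ℝ) ≤ (nm k.1 : ℝ) ^ 2 := by nlinarith
      _ ≤ X ^ ε * Real.exp a.1.l := h1.2.2.2
      _ ≤ X ^ |E| * X ^ (3 : ℝ) := by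
          have h3 : X ^ ε ≤ X ^ |E| :=
            Real.rpow_le_rpow_of_exponent_le hX1.le (hεE.trans (le_abs_self _))
          have h4 : X ^ (2 : ℝ) ≤ X ^ (3 : ℝ) :=
            Real.rpow_le_rpow_of_exponent_le hX1.le (by norm_num)
          have h5 := hexpl.trans h4
          have h6 : 0 ≤ X ^ |E| := Real.rpow_nonneg hX0.le _
          gcongr
      _ = X ^ (|E| + 3) := (Real.rpow_add hX0 _ _).symm
      _ ≤ X ^ B₁ := Real.rpow_le_rpow_of_exponent_le hX1.le (by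
          have := le_max_right B 3
          rw [hB₁]; linarith)
  have hg := (mem_Gd ha.2.2).mp hx.g
  have he₀ := (mem_S (Real.exp_pos _).le).mp hx.e₀
  have hEp : IsPrim (x.E a.1) := haP.1.1.mul (T3_prim _ hx.β)
  have ht := (mem_Gd (tS_prim hEp).ne_zero).mp hx.t
  obtain ⟨g1, g2, g3, g4, g5, g6⟩ := H X hXX a.1 ps a.2 hFr Bf Jf hJ lam.2 h₁ h₂ (x.I Jf a) hI
    x.g hg.1.1 hg.2.2 x.β hx.β x.e₀ he₀.2.1 he₀.1 x.t ht.1.1 ht.2.2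
    (π lam.1).l₃ (fun k => conj ((π lam.1).χ₃ k)) hP.χ₃.conj x.ph hx.ph x.c₀ x.g' x.z hx.g' hx.z
  have hfpos : (0 : ℝ) < nm (fN (π lam.1).n₃ (x.E a.1)) := by
    exact_mod_cast nm_pos.2 (fM_spec hP.χ₃.q0 hEp).2.1.ne_zero
  have hU0 : 0 < U0 (π lam.1) a ps x := by unfold U0; positivity
  refine ⟨dat4_mono g1 (hmo _ (by linarith)), ?_, hU0, ?_, g3.trans (hmo _ (by linarith)),
    fun i hi => (g6 i hi).trans (hmo _ (by linarith))⟩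
  · intro o u y hu hy
    refine (g2 (2 ^ 27 * (2 * 2 ^ a.2 * 8 ^ x.nS / 8 ^ x.nE)) (by positivity)
      (dt_V hJ hx ha haP) o u y hu hy).trans (le_of_eq ?_)
    unfold U0
    rw [lam_eq, lmo_eq]
    show (nm (fN (π lam.1).n₃ (a.1.e * ∏ j, x.β j)) : ℝ) *
        (2 ^ 27 * (2 * 2 ^ a.2 * 8 ^ x.nS / 8 ^ x.nE)) *
        (C₀ * Real.exp (lz (amL ps) + 2 * lz (bs2 a.1 ps))) =
      C₁ * (nm (fN (π lam.1).n₃ (a.1.e * ∏ j, x.β j)) * 2 ^ a.2 * 8 ^ x.nS / 8 ^ x.nE *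
        Real.exp (lz (amL ps) + 2 * lz (bs2 a.1 ps)))
    rw [hC₁]
    ring
  · rintro ⟨i, hi⟩
    have h1 := (dt_nS hJ hx ha haP i hi).1
    have h2 := g6 i hi
    have h3 : (2 : ℝ) ^ x.nS ≤ X ^ A₀ := h1.trans h2
    have hXA : 0 ≤ X ^ A₀ := Real.rpow_nonneg hX0.le _
    have h4 : (8 : ℝ) ^ x.nS ≤ (X ^ A₀) ^ 3 := by
      have : (8 : ℝ) ^ x.nS = (2 ^ x.nS) ^ 3 := by
        rw [← pow_mul, mul_comm, pow_mul]; norm_num
      rw [this]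
      exact pow_le_pow_left₀ (by positivity) h3 3
    have h5 : (1 : ℝ) ≤ 8 ^ x.nE := one_le_pow₀ (by norm_num)
    have h6 : (2 : ℝ) ^ a.2 ≤ X ^ A₀ := by
      have : (0 : ℝ) < 2 ^ a.2 := by positivity
      linarith
    have g3' : (nm (fN (π lam.1).n₃ (x.E a.1)) : ℝ) ≤ X ^ A₀ := g3
    unfold U0
    rw [lam_eq, lmo_eq]
    calc C₁ * ((nm (fN (π lam.1).n₃ (x.E a.1)) : ℝ) * 2 ^ a.2 * 8 ^ x.nS / 8 ^ x.nE *
          Real.exp (lz (amL ps) + 2 * lz (bs2 a.1 ps)))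
        ≤ X ^ (1 : ℝ) * ((X ^ A₀ * X ^ A₀ * (X ^ A₀) ^ 3 / 1) * X ^ A₀) := by
          rw [Real.rpow_one]
          gcongr
      _ = X ^ (1 + 6 * A₀) := by
          rw [div_one, Real.rpow_add hX0, mul_comm 6 A₀, Real.rpow_mul hX0.le]
          have : (X ^ A₀) ^ (6 : ℝ) = (X ^ A₀) ^ 6 := by exact_mod_cast Real.rpow_natCast _ 6
          rw [this]
          ring
      _ ≤ _ := hmo _ (by linarith)

/-- **the size hypotheses of `midV` and `sum_mid` in the frame** -/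
theorem dt_sizes {π : Λ → DPar} {h : ℝ → ℝ} {c : ℝ} (hh : PU h c) {A d : ℝ} (hA : 2 / 3 ≤ A)
    (e0 r : ℝ) (Bf : ℝ → ℝ → ℝ → ℝ) {Jf : ℝ → ℝ → ℝ → Finset (Eis × Eis)}
    (hJf : ∀ l N z, OKJ (Jf l N z)) (lam : Λ × Eis) (hP : (π lam.1).OK) (N : ℕ) (B R : ℝ) :
    ∃ A₀ X₀ : ℝ, 1 ≤ A₀ ∧ 1 < X₀ ∧ ∀ X : ℝ, X₀ ≤ X → ∀ δ δ' : ℝ, δ ≤ 1 / 2 →
    ∀ (a : Bd × ℕ) (ps : List Pq) (q : (Option (Fin 3 ⊕ Fin 5) → ℝ) × (Kd → ℝ)),
      FrL A d δ δ' B X N a ps q → a.1.ok → a.1.okP (π lam.1) →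
    (∀ g e₀ t, IsPrim g → g ∣ a.1.d₃ → IsPrim e₀ → IsPrim t →
      (nm e₀ : ℝ) ≤ Real.exp (e0 * a.1.l) →
      (∃ β ∈ T3 Bf a.1 r, t ∣ tS (a.1.e * ∏ j, β j)) →
      ∀ x ∈ (QK a.1 (R * Real.exp a.1.l)) ×ˢ J3 Jf a.1 a.2,
        nm (XI jD (jJ (sE (fun q => q ^ 2 * g) e₀ t)) x) ≤ ⌊X ^ A₀⌋₊) ∧
    (∀ g e₀ t, IsPrim g → g ∣ a.1.d₃ → IsPrim e₀ → IsPrim t →
      (nm e₀ : ℝ) ≤ Real.exp (e0 * a.1.l) →
      (∃ β ∈ T3 Bf a.1 r, t ∣ tS (a.1.e * ∏ j, β j)) →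
      ∀ q ∈ QK a.1 (R * Real.exp a.1.l),
        IsPrim (sS g e₀ t q) ∧ (nm (sS g e₀ t q) : ℝ) ≤ X ^ A₀) ∧
    (∀ n m, b1 (π lam.1) h lam.2 ps n ≠ 0 → b2 (π lam.1) h lam.2 a.1 ps m ≠ 0 →
      nm (n * m ^ 2) ≤ ⌊X ^ A₀⌋₊) ∧
    ((Y3 a.1 r : ℕ) : ℝ) ^ Fintype.card (Fin 3) ≤ X ^ A₀ ∧ Real.exp (e0 * a.1.l) ≤ X ^ A₀ ∧
    (nm (π lam.1).n₃ : ℝ) ≤ X ^ A₀ ∧ (nm a.1.d₃ : ℝ) ≤ X ^ A₀ ∧ (nm a.1.e : ℝ) ≤ X ^ A₀ := by
  set B₁ : ℝ := max B 3 with hB₁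
  have hB3 : 3 ≤ B₁ := le_max_right _ _
  have hBB : B ≤ B₁ := le_max_left _ _
  obtain ⟨A₀, X₀, hA₀, hX₀, H⟩ := sizes_fam hh hP e0 r N (B := B₁) (by linarith)
  refine ⟨A₀, max X₀ (max 1 R), hA₀, lt_max_of_lt_left hX₀, ?_⟩
  intro X hX δ δ' hδ a ps q hF ha haP
  have hXX : X₀ ≤ X := (le_max_left _ _).trans hX
  have hXR : R ≤ X := (le_max_right _ _).trans ((le_max_right _ _).trans hX)
  have hX1 : 1 < X := hX₀.trans_le hXX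
  have hX0 : 0 < X := by linarith
  have hFr := fr_of_frL hA hδ hX1 hF ha haP hBB hB3
  have hlX : a.1.l ≤ 2 * Real.log X := by
    have el : |a.1.l / Real.log X - cκ (dn q.1)| ≤ δ := hF.win.ev (some (.inl 0))
    have hdom := hF.dom
    unfold SqL DomL at hdom
    have hSq : Sq5 A d (dn q.1) q.2 := hdom.1
    have h4 := (abs_le.mp el).2
    have h5 : a.1.l / Real.log X ≤ 2 := by linarith [hSq.κ1]
    rwa [div_le_iff₀ (Real.log_pos hX1)] at h5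
  have hexpl : Real.exp a.1.l ≤ X ^ (2 : ℝ) := by
    rw [Real.rpow_def_of_pos hX0, mul_comm]
    exact Real.exp_le_exp.2 hlX
  refine H X hXX a.1 ps a.2 hFr Bf Jf (okJ3 hJf a.1 a.2) lam.2 _ fun q hq => ?_
  have h1 := mem_QK.mp hq
  have hqp : IsPrim q := (haP.2.2 q h1.1).1.1
  refine ⟨hqp, ?_⟩
  have h2 : (1 : ℝ) ≤ nm q := one_le_nm' hqp
  calc (nm q : ℝ) ≤ (nm q : ℝ) ^ 2 := by nlinarith
    _ ≤ R * Real.exp a.1.l := h1.2.2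
    _ ≤ X ^ (1 : ℝ) * X ^ (2 : ℝ) := by
        rw [Real.rpow_one]
        have := Real.exp_pos a.1.l
        gcongr
    _ = X ^ (3 : ℝ) := by rw [← Real.rpow_add hX0]; norm_num
    _ ≤ _ := Real.rpow_le_rpow_of_exponent_le hX1.le hB3

/-- **the sides are `≤ C X^ε`** -/
theorem dt_Cw {π : Λ → DPar} {h : ℝ → ℝ} {c : ℝ} (hh : PU h c) {A d : ℝ} (hA : 2 / 3 ≤ A)
    (lam : Λ × Eis) (hP : (π lam.1).OK) (N : ℕ) (B : ℝ) {ε : ℝ} (hε : 0 < ε) :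
    ∃ C X₀ : ℝ, 1 ≤ C ∧ 1 < X₀ ∧ ∀ X : ℝ, X₀ ≤ X → ∀ δ δ' : ℝ, δ ≤ 1 / 2 →
    ∀ (a : Bd × ℕ) (ps : List Pq) (q : (Option (Fin 3 ⊕ Fin 5) → ℝ) × (Kd → ℝ)),
      FrL A d δ δ' B X N a ps q → a.1.ok → a.1.okP (π lam.1) → ∀ n m : Eis,
      ‖b1 (π lam.1) h lam.2 ps n‖ * ‖b2 (π lam.1) h lam.2 a.1 ps m‖ ≤ C * X ^ ε := by
  set B₁ : ℝ := max B 3 with hB₁
  have hB3 : 3 ≤ B₁ := le_max_right _ _
  have hBB : B ≤ B₁ := le_max_left _ _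
  obtain ⟨C, X₀, hC, hX₀, H⟩ := cw_fam hh hP N (B := B₁) (by linarith) (half_pos hε)
  refine ⟨C * C, X₀, one_le_mul_of_one_le_of_one_le hC hC, hX₀, ?_⟩
  intro X hX δ δ' hδ a ps q hF ha haP n m
  have hX1 : 1 < X := hX₀.trans_le hX
  have hX0 : 0 < X := by linarith
  have hFr := fr_of_frL hA hδ hX1 hF ha haP hBB hB3
  have h1 := (H X hX a.1 ps a.2 hFr lam.2 n).1
  have h2 := (H X hX a.1 ps a.2 hFr lam.2 m).2
  calc ‖b1 (π lam.1) h lam.2 ps n‖ * ‖b2 (π lam.1) h lam.2 a.1 ps m‖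
      ≤ (C * X ^ (ε / 2)) * (C * X ^ (ε / 2)) := by gcongr
    _ = C * C * X ^ ε := by
        have : X ^ ε = X ^ (ε / 2) * X ^ (ε / 2) := by
          rw [← Real.rpow_add hX0]; congr 1; ring
        rw [this]; ring

/-! ### the empty class -/

lemma isEmpty_O {π : Λ → DPar} {lam : Λ × Eis} {Jf : ℝ → ℝ → ℝ → Finset (Eis × Eis)}
    {a : Bd × ℕ} {x : Dt} (h : x.I Jf a = ∅) : IsEmpty (x.O π lam Jf a) := by
  refine ⟨fun o => ?_⟩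
  obtain ⟨i, hi, -⟩ := E4D164.mem_OU (M := (π lam.1).n₃) (I := x.I Jf a)
    (s := jS (sS x.g x.e₀ x.t)) (j := jJ (sS x.g x.e₀ x.t)) o
  rw [h] at hi
  exact absurd hi (Finset.notMem_empty i)

/-- `JB` over an empty index set -/
lemma jb_empty {M f : Eis} {O : Type} [IsEmpty O] {lam : O → ℝ} {v w : O → Eis → ℂ}
    {G : Eis → ℂ} {rng : E4J352.Tm O → Prop} {S : ℝ} (hS : 0 ≤ S) :
    E4J352.JB M f lam v w G rng S := by
  intro c 𝒥 _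
  have : 𝒥 = ∅ := by
    rw [Finset.eq_empty_iff_forall_notMem]
    intro t _
    exact IsEmpty.false t.o
  rw [this, Finset.sum_empty]
  exact hS

/-- `HM5` over an empty index set -/
lemma hm5_empty {M f : Eis} {O : Type} [Fintype O] [IsEmpty O] {lam : O → ℝ}
    {v w : O → Eis → ℂ} {K T₀ : ℝ} {mt : Eis → ℝ → ℂ} {Mn : ℝ} (hM : 0 ≤ Mn) :
    E4v5.HM5 M f lam v w K T₀ mt Mn := by
  intro R Z q₁ q₃ F _ _ _ _ _ _ _ _ _ _ _
  rw [Finset.univ_eq_empty, Finset.sum_empty, norm_zero, mul_zero]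
  exact hM

end Crest.Agent.R017.E4Us512
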