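import Crest.Agent.R017.E4Sa_352
import Crest.Agent.R017.E4Uv_512
import Crest.Agent.R017.E4Ud_164

/-!
# Row 17, StrU: supports of a term, length of the `x`-side (helper352)

* `v_spec` : `x`-support `g' y = r δ²`, `(δ, S) = 1`, `S`-part, size
* `w_spec` : `y`-support prime to `S ν`
* `cop_RS` : `(R R', S) = 1` for a nonzero term;  `len_x` : length of the `x`-side
-/

set_option autoImplicit false
set_option linter.unusedSectionVars false

noncomputable section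

open Finset Complex
open scoped ComplexConjugate

namespace Crest.Agent.R017.E4St352

open Crest.Agent.R012 Crest.Agent.R012.Eis
open Crest.Agent.R012.Mob705 hiding pb mem_pb kap
open Crest.Agent.R012.GaussLoc283 (syAx)
open Crest.Agent.R017.E2440 (TE)
open Crest.Agent.R017.Sx545 (Sm)
open Crest.Agent.R017.CM106 (FS)
open Crest.Agent.R017.C70
open Crest.Agent.R017.Prov71 Crest.Agent.R017.E5B71 Crest.Agent.R017.E4D164
open Crest.Agent.R017.XG702 (Pcs)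
open Crest.Agent.R017.B770 (DPar)
open Crest.Agent.R017.E5L770
open Crest.Agent.R017.E4U164
open Crest.Agent.R017.E4K164 (dc dc_spec)
open Crest.Agent.R017.E4352 (PrI)
open Crest.Agent.R017.E4J352 (Tm rngD rngF)
open Crest.Agent.R017.E4RG858 (fm pow_dvd_iff dvd_iff_mult mult_mul mult_pow mult_eq_zero fac)
open Crest.Agent.R017.E4RH858
open Crest.Agent.R017.E4Dic352
open Crest.Agent.R017.Str699 (b3 n3 nu0 mlam eT o_spec mult_isC isC_ne mult_JC mult_sqf)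
open Crest.Agent.R017.E4Us512 (dt_V c3_sS)

/-- a primary prime of both factors -/
lemma exists_pp_of_not {a b : Eis} (ha : IsPrim a) (h : ¬ IsCoprime a b) :
    ∃ p, IsPP p ∧ p ∣ a ∧ p ∣ b := by
  by_contra hc
  push Not at hc
  apply h
  refine isCoprime_of_prime_dvd (fun h => ha.ne_zero h.1) fun p hp hpa hpb => ?_
  obtain ⟨q, hq, hqp⟩ := exists_isPrim_associated (x := p)
    (fun h3 => ha.not_lam_dvd (h3.trans hpa))
  exact hc q ⟨hq, hqp.prime_iff.mp hp⟩ (hqp.symm.dvd.trans hpa) (hqp.symm.dvd.trans hpb)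

lemma TE_cop' {α : Eis → ℂ} {x : Eis × Eis} {e : Eis} (h : TE α x e ≠ 0) : IsCoprime x.2 e := by
  classical
  unfold TE at h
  by_contra hc
  apply h
  refine (tsum_congr fun m => ?_).trans tsum_zero
  rw [if_neg]
  rintro ⟨h1, h2⟩
  exact hc (h2.of_mul_right_right.of_isCoprime_of_dvd_right h1)

section cls

variable {Λ : Type*} {π : Λ → DPar} {h : ℝ → ℝ} {lam : Λ × Eis}
  {Jf : ℝ → ℝ → ℝ → Finset (Eis × Eis)}
  {a : Bd × ℕ} {x : Dt} {Bf : ℝ → ℝ → ℝ → ℝ} {e0 r ε X : ℝ}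

/-- **the support of the `x`-side** -/
theorem v_spec (hJ : ∀ l N z, OKJ (Jf l N z)) (ha : a.1.ok) (hP : a.1.okP (π lam.1))
    (hn : (π lam.1).n₃ ≠ 0)
    (hx : x.OK (π lam.1) Bf e0 r ε X a.1) (o : x.O π lam Jf a) {y : Eis}
    (hy : x.v π h lam Jf a o y ≠ 0) :
    IsCoprime (o.1.1 * o.1.2) (fN (π lam.1).n₃ (x.E a.1)) ∧
    ∃ rr δ : Eis, IsPrim rr ∧ Squarefree rr ∧ IsPrim δ ∧ IsCoprime o.1.1 δ ∧
      x.g' * y = rr * δ ^ 2 ∧
      (∃ s : Eis, IsPrim s ∧ (2 : ℝ) ^ (x.m 0 0 + x.m 1 2) ≤ nm s ∧ s ∣ rr ∧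
        ∀ p : Eis, IsPP p → p ∣ s → p ∣ o.1.1) ∧
      (nm (rr * δ ^ 2) : ℝ) * lD o ^ 2 ≤
        2 ^ 27 * (2 * 2 ^ a.2 * 8 ^ x.nS / 8 ^ x.nE) ∧
      ∃ j : Eis, JC j ∧ IsCoprime j x.e₀ ∧ x.e₀ ∣ o.1.1 ∧
        b3 (o.1.1 * o.1.2) = pS 1 0 o.1.1 j ∧ IsPrim o.1.1 ∧
        (∀ p : Eis, IsPP p → multiplicity p o.1.1 ≤ 2) ∧
        ∀ b c, 2 ^ x.m b c ≤ nm (pS b c o.1.1 j) ∧ nm (pS b c o.1.1 j) < 2 ^ (x.m b c + 1) := by
  classical
  unfold Dt.v vX vI at hy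
  obtain ⟨-, i, hi, h1, h2⟩ := pu_ne hy
  unfold II at hi
  rw [mem_filter] at hi
  obtain ⟨hi1, hi2, hi3, hi4⟩ := hi
  obtain ⟨⟨hq, hxJ⟩, hcl⟩ := Dt.mem_I.mp hi1
  obtain ⟨hs, hc3⟩ := c3_sS hx ha hP hq
  have hJ3 : OKJ (J3 Jf a.1 a.2) := okJ3 hJ a.1 a.2
  have hjc : JC i.2.2 := hJ3.jc _ hxJ
  have hsi : jS (sS x.g x.e₀ x.t) i = sS x.g x.e₀ x.t i.1 := rfl
  have hji : jJ (sS x.g x.e₀ x.t) i = E5b54.stj (sS x.g x.e₀ x.t i.1) i.2.2 := rfl
  obtain ⟨hst, e, he, hst2⟩ := E5b54.stj_spec hs hjc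
  obtain ⟨d1, d2, d3, d4, d5, d6, d7⟩ := dc_spec hst
  have hδ : IsPrim (jD i) := hJ3.prim _ hxJ
  -- coprimality from the coefficient
  unfold cI at h2
  have c1 := left_ne_zero_of_mul h2
  have c2 := left_ne_zero_of_mul c1
  have c3 : jC (sS x.g x.e₀ x.t) (cE x.ph (omL a.2) (E5k54.alb (f3 (π lam.1) h lam.2 a.1) x.β)
    x.e₀) i ≠ 0 := by
    intro h0
    apply c2
    rw [h0, map_zero]
  have c4 := right_ne_zero_of_mul h2
  have c5 := right_ne_zero_of_mul (left_ne_zero_of_mul c4)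
  have c6 : sy (sS x.g x.e₀ x.t i.1) (jD i) ≠ 0 := by
    unfold jC at c3
    exact right_ne_zero_of_mul c3
  have hcop1 : IsCoprime (sS x.g x.e₀ x.t i.1) (jD i) := by
    by_contra hc
    exact c6 ((syAx.eq_zero _ _ hδ).mpr hc)
  have hEp : IsPrim (x.E a.1) := hP.1.prim.mul (T3_prim x.β hx.β)
  have hf := (fM_spec hn hEp).2.1
  have hcop2 : IsCoprime (o.1.1 * o.1.2) (fN (π lam.1).n₃ (x.E a.1)) := by
    by_contra hc
    apply c5
    rw [hsi] at hi3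
    rw [hsi, hi3, hi4]
    exact (syAx.eq_zero _ _ hf.1).mpr hc
  have hcop3 : IsCoprime i.2.2 x.e₀ := by
    have c7 : cE x.ph (omL a.2) (E5k54.alb (f3 (π lam.1) h lam.2 a.1) x.β) x.e₀ i.1 i.2 ≠ 0 := by
      unfold jC at c3
      exact left_ne_zero_of_mul c3
    unfold cE at c7
    exact TE_cop' (right_ne_zero_of_mul (right_ne_zero_of_mul c7))
  refine ⟨hcop2, (dc (jJ (sS x.g x.e₀ x.t) i)).2.1, jD i, d2, d3, hδ, ?_, ?_, ?_, ?_, ?_⟩
  · rw [← hi3]
    exact hcop1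
  · rw [← h1]
    rfl
  · -- the `S`-part
    set S := sS x.g x.e₀ x.t i.1 with hS
    refine ⟨pS 0 0 S i.2.2 * pS 1 2 S i.2.2, (Str699.pS_prim _ _ _ _).mul (Str699.pS_prim _ _ _ _),
      ?_, ?_, ?_⟩
    · rw [nm_mul, pow_add]
      push_cast
      have e1 : (2 : ℝ) ^ x.m 0 0 ≤ nm (pS 0 0 S i.2.2) := by exact_mod_cast (hcl 0 0).1
      have e2 : (2 : ℝ) ^ x.m 1 2 ≤ nm (pS 1 2 S i.2.2) := by exact_mod_cast (hcl 1 2).1
      exact mul_le_mul e1 e2 (by positivity) (Nat.cast_nonneg _)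
    · -- both divide `r`
      have key : ∀ p, IsPP p → p ∣ S →
          (multiplicity p i.2.2 + multiplicity p S) % 3 = 1 → p ∣ (dc (jJ (sS x.g x.e₀ x.t) i)).2.1 := by
        intro p hp _ hmod
        rw [hji, dvd_iff_mult hp.prime d2.ne_zero]
        have hj0 := E4K164.jc_ne_zero hjc
        have hjj0 := E4K164.jc_ne_zero hst
        have e1 := mult_mul hp.prime hj0 hs.ne_zero
        rw [hst2, mult_mul hp.prime hjj0 (pow_ne_zero 3 he.ne_zero),
          mult_pow hp.prime he.ne_zero] at e1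
        have e2 : multiplicity p (E5b54.stj S i.2.2) = multiplicity p (dc (E5b54.stj S i.2.2)).2.1 +
            2 * multiplicity p (dc (E5b54.stj S i.2.2)).2.2 := by
          conv_lhs => rw [d7]
          rw [mult_mul hp.prime (mul_ne_zero (isC_ne d1) d2.ne_zero) (pow_ne_zero 2 d4.ne_zero),
            mult_mul hp.prime (isC_ne d1) d2.ne_zero, mult_isC d1 hp,
            mult_pow hp.prime d4.ne_zero, zero_add]
        have e3 := mult_sqf d3 d2.ne_zero hp.prime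
        have e4 := mult_sqf d5 d4.ne_zero hp.prime
        omega
      unfold pS
      rw [← prod_union ?_]
      · refine (prod_dvd_prod_of_subset _ _ _ fun p hp => ?_).trans
          (prod_pp_dvd (dc (jJ (sS x.g x.e₀ x.t) i)).2.1)
        rw [mem_union, mem_filter, mem_filter] at hp
        show p ∈ pp (dc (E5b54.stj S i.2.2)).2.1
        rw [mem_pp d2.ne_zero]
        rcases hp with ⟨hp, e1, e2⟩ | ⟨hp, e1, e2⟩
        · obtain ⟨hpp, hd⟩ := (mem_pp hs.ne_zero).mp hp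
          refine ⟨hpp, key p hpp hd ?_⟩
          have e1' : multiplicity p S = 0 + 1 := e1
          have e2' : multiplicity p i.2.2 = 0 := e2
          omega
        · obtain ⟨hpp, hd⟩ := (mem_pp hs.ne_zero).mp hp
          refine ⟨hpp, key p hpp hd ?_⟩
          have e1' : multiplicity p S = 1 + 1 := e1
          have e2' : multiplicity p i.2.2 = 2 := e2
          omega
      · rw [disjoint_left]
        intro p hp hp'
        have e1 : multiplicity p S = 0 + 1 := (mem_filter.mp hp).2.1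
        have e2 : multiplicity p S = 1 + 1 := (mem_filter.mp hp').2.1
        omega
    · intro p hp hd
      have e0 : ∀ b c, p ∣ pS b c S i.2.2 → p ∣ o.1.1 := by
        intro b c hd
        rw [← hi3]
        exact (hd.trans (pS_dvd b c S i.2.2)).trans (prod_pp_dvd _)
      rcases hp.prime.dvd_or_dvd hd with h3 | h3
      · exact e0 _ _ h3
      · exact e0 _ _ h3
  · -- the size
    have hV := dt_V hJ3 hx ha hP i hi1
    refine le_trans ?_ hV
    have e1 : (nm (jJ (sS x.g x.e₀ x.t) i) : ℝ) ≥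
        nm (dc (jJ (sS x.g x.e₀ x.t) i)).2.1 * (nm (dc (jJ (sS x.g x.e₀ x.t) i)).2.2 : ℝ) ^ 2 := by
      have e2 : nm (jJ (sS x.g x.e₀ x.t) i) = nm (dc (jJ (sS x.g x.e₀ x.t) i)).1 *
          nm (dc (jJ (sS x.g x.e₀ x.t) i)).2.1 * nm (dc (jJ (sS x.g x.e₀ x.t) i)).2.2 ^ 2 := by
        rw [← nm_pow, ← nm_mul, ← nm_mul]
        exact congrArg nm d7
      have e3 : 1 ≤ nm (dc (jJ (sS x.g x.e₀ x.t) i)).1 := nm_pos.mpr (isC_ne d1)
      rw [e2]
      push_cast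
      have e4 : (1 : ℝ) ≤ nm (dc (jJ (sS x.g x.e₀ x.t) i)).1 := by exact_mod_cast e3
      have e5 : (0 : ℝ) ≤ nm (dc (jJ (sS x.g x.e₀ x.t) i)).2.1 *
        (nm (dc (jJ (sS x.g x.e₀ x.t) i)).2.2 : ℝ) ^ 2 := by positivity
      nlinarith
    have e6 : lD o = nm (jS (sS x.g x.e₀ x.t) i) * nm (dc (jJ (sS x.g x.e₀ x.t) i)).2.2 := by
      unfold lD
      rw [← hi3, ← hi4, nm_mul]
      push_cast
      ring
    rw [e6, nm_mul, nm_pow]
    push_cast
    have e7 : (0 : ℝ) ≤ (nm (jD i) : ℝ) ^ 2 * (nm (jS (sS x.g x.e₀ x.t) i) : ℝ) ^ 2 := by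
      positivity
    nlinarith [mul_le_mul_of_nonneg_right e1 e7]
  · rw [hsi] at hi3
    obtain ⟨o1, o2⟩ := o
    obtain ⟨q1, q2, q3, -⟩ := hx.Q i.1 hq
    obtain ⟨g1, g2, g3⟩ := (E5P571.mem_Gd ha.2.2).mp hx.g
    have hEp : IsPrim (x.E a.1) := hP.1.prim.mul (T3_prim x.β hx.β)
    obtain ⟨t1, t2, -⟩ := (E5P571.mem_Gd (tS_prim hEp).ne_zero).mp hx.t
    obtain ⟨-, e1, e2⟩ := (LS2.mem_S (Real.exp_nonneg _)).mp hx.e₀
    have hqg : IsCoprime i.1 x.g := q3.of_isCoprime_of_dvd_right g3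
    have m2 : ∀ p : Eis, IsPP p → multiplicity p (sS x.g x.e₀ x.t i.1) ≤ 2 := fun p hp =>
      Str699.mult_sS_le g1.prim g2 e1 e2 t1.prim t2 q1.prim q2 hqg hp
    have hb := Str699.b3_eq hjc hs m2
    rw [← hji, hi4, hi3] at hb
    rw [hi3] at m2
    refine ⟨i.2.2, hjc, hcop3, ?_, hb, ?_, m2, fun b c => ?_⟩
    · rw [← hi3]
      have l1 := (DgA829.lc_dvd (((q1.prim.pow 2).mul g1.prim)) e1 (DgA829.lc (i.1 ^ 2 * x.g) x.e₀)).mp
        dvd_rfl
      have l2 := (DgA829.lc_dvd (DgA829.lc_prim ((q1.prim.pow 2).mul g1.prim) e1) t1.prim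
        (DgA829.lc (DgA829.lc (i.1 ^ 2 * x.g) x.e₀) x.t)).mp dvd_rfl
      exact l1.2.trans l2.1
    · rw [← hi3]
      exact hs
    · have := hcl b c
      rwa [hi3] at this

/-- **the support of the `y`-side** -/
theorem w_spec {ps : List Pq} (h₁ : FS (b1 (π lam.1) h lam.2 ps))
    (h₂ : FS (b2 (π lam.1) h lam.2 a.1 ps)) (hf0 : IsPrim (fN (π lam.1).n₃ (x.E a.1)))
    (o : x.O π lam Jf a) (hcop : IsCoprime (o.1.1 * o.1.2) (fN (π lam.1).n₃ (x.E a.1)))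
    {y : Eis} (hy : x.w π h lam Jf a ps h₁ h₂ o y ≠ 0) : IsCoprime (o.1.1 * o.1.2) y := by
  classical
  unfold Dt.w wX at hy
  obtain ⟨y0, rfl, hy0⟩ := mulw_ne hf0.ne_zero hy
  refine hcop.mul_right ?_
  unfold wI ww at hy0
  obtain ⟨-, p, hp, h1, h2⟩ := pu_ne hy0
  have hp' := mem_product.mp hp
  have hb1 : b1 (π lam.1) h lam.2 ps p.1 ≠ 0 := by
    have := hp'.1
    rwa [Set.Finite.mem_toFinset] at this
  have hb2 : b2 (π lam.1) h lam.2 a.1 ps p.2 ≠ 0 := by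
    have := hp'.2
    rwa [Set.Finite.mem_toFinset] at this
  unfold cb at h2
  have c1 := right_ne_zero_of_mul h2
  have c2 := left_ne_zero_of_mul c1
  have c3 := right_ne_zero_of_mul c1
  have c3' : sy (o.1.1 * o.1.2) p.2 ≠ 0 := fun h0 => c3 (by rw [h0, map_zero])
  have k1 : IsCoprime (o.1.1 * o.1.2) p.1 := by
    by_contra hc
    exact c2 ((syAx.eq_zero _ _ (h₁.prim _ hb1)).mpr hc)
  have k2 : IsCoprime (o.1.1 * o.1.2) p.2 := by
    by_contra hc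
    exact c3' ((syAx.eq_zero _ _ (h₂.prim _ hb2)).mpr hc)
  have k3 : IsCoprime (o.1.1 * o.1.2) (p.1 * p.2 ^ 2) := k1.mul_right k2.pow_right
  refine k3.of_isCoprime_of_dvd_right ?_
  exact ⟨x.z, by rw [h1, mul_comm]⟩

variable {t : Tm (x.O π lam Jf a)}

/-- **`(R R', S) = 1`** for a nonzero term -/
theorem cop_RS (hJ : ∀ l N z, OKJ (Jf l N z)) (ha : a.1.ok) (hP : a.1.okP (π lam.1))
    (hn : (π lam.1).n₃ ≠ 0) (hx : x.OK (π lam.1) Bf e0 r ε X a.1) {ps : List Pq}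
    {h₁ : FS (b1 (π lam.1) h lam.2 ps)} {h₂ : FS (b2 (π lam.1) h lam.2 a.1 ps)}
    {G : Eis → ℂ} (hf : Facts (π lam.1).n₃ t)
    (hval : t.val 1 lD (x.v π h lam Jf a) (x.w π h lam Jf a ps h₁ h₂) G ≠ 0) :
    IsCoprime (t.R * t.R') t.o.1.1 := by
  obtain ⟨-, hxs, hys⟩ := val_ne hval
  obtain ⟨x1, -, -, hx1⟩ := xs_ne hxs
  obtain ⟨y1, -, -, hy1⟩ := ys_ne hys
  obtain ⟨hc2, rr, δ, r1, r2, r3, r4, r5, -, -, -⟩ := v_spec hJ ha hP hn hx t.o hx1
  have hEp : IsPrim (x.E a.1) := hP.1.prim.mul (T3_prim x.β hx.β)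
  have hfp : IsPrim (fN (π lam.1).n₃ (x.E a.1)) := (fM_spec hn hEp).2.1.1
  have hw := w_spec h₁ h₂ hfp t.o hc2 hy1
  have pRR : IsPrim (t.R * t.R') := hf.pR.1.mul hf.pR'.1
  by_contra hc
  obtain ⟨p, hp, hpa, hpS⟩ := exists_pp_of_not pRR hc
  have hSnu : p ∣ t.o.1.1 * t.o.1.2 := hpS.mul_right _
  have hZ : ∀ z : Eis, z ∣ t.Z * t.Z' → ¬ p ∣ z := by
    intro z hz hpz
    have h3 : p ∣ t.D1 * (t.Z * t.Z' * y1) :=
      ((hpz.trans hz).mul_right y1).mul_left t.D1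
    exact hp.prime.not_isUnit (hw.isUnit_of_dvd' hSnu h3)
  -- `p` divides `B b`
  have hBb : p ∣ (pf t).B * (pf t).b := by
    rcases hp.prime.dvd_or_dvd hpa with h3 | h3
    · exact (hf.pR.2 p hp.prime h3).mul_right _
    · exact (hf.pR'.2 p hp.prime h3).mul_left _
  have hmem : p ∈ pp ((pf t).B * (pf t).b) :=
    (mem_pp (mul_ne_zero hf.sB.ne_zero hf.sb.ne_zero)).mpr ⟨hp, hBb⟩
  have hl := hf.loc p hmem
  have nR := hf.pR.1.ne_zero
  have nR' := hf.pR'.1.ne_zero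
  have nZ := hf.pZ.1.ne_zero
  have mR : 1 ≤ multiplicity p (pf t).R + multiplicity p (pf t).R' := by
    rw [← mult_mul hp.prime nR nR']
    exact (dvd_iff_mult hp.prime (mul_ne_zero nR nR')).mp hpa
  have hZ0 : multiplicity p (pf t).Z = 0 :=
    mult_eq_zero hp.prime nZ (hZ _ (dvd_mul_right _ _))
  have hZ'0 : ¬ 1 ≤ multiplicity p (pf t).Z' := by
    intro h3
    have h4 : p ∣ (pf t).Z' := (dvd_iff_mult hp.prime hf.pZ'.1.ne_zero).mpr h3
    refine hZ ((pf t).Z') ?_ h4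
    rw [hf.Z']
    exact ⟨t.Z * b1 t, by ring⟩
  have hvB := hl.vB
  rcases Nat.lt_or_ge (multiplicity p (pf t).B) 1 with hB | hB
  · obtain ⟨z1, z2, z3, z4, -⟩ := hl.zero (by omega)
    rcases z4 with z4 | ⟨z4, z5⟩
    · exact hZ'0 z4
    · -- `p² ∣ x`
      have h2 : p ^ 2 ∣ rr * δ ^ 2 := by
        have h3 : p ^ 2 ∣ (pf t).R' := (pow_dvd_iff hp.prime nR').mpr (by omega)
        have h4 : p ^ 2 ∣ t.R' := h3
        rw [← r5]
        exact ((h4.mul_left t.R).mul_right x1).mul_left x.g'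
      have hδ : ¬ p ∣ δ := fun h3 => hp.prime.not_isUnit (r4.isUnit_of_dvd' hpS h3)
      have e1 : 2 ≤ multiplicity p (rr * δ ^ 2) :=
        (pow_dvd_iff hp.prime (mul_ne_zero r1.ne_zero (pow_ne_zero 2 r3.ne_zero))).mp h2
      rw [mult_mul hp.prime r1.ne_zero (pow_ne_zero 2 r3.ne_zero), mult_pow hp.prime r3.ne_zero,
        mult_eq_zero hp.prime r3.ne_zero hδ] at e1
      have e2 := mult_sqf r2 r1.ne_zero hp.prime
      omega
  · obtain ⟨-, -, z3, -⟩ := hl.one (by omega)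
    omega

/-- **the length of the `x`-side** -/
theorem len_x (hJ : ∀ l N z, OKJ (Jf l N z)) (ha : a.1.ok) (hP : a.1.okP (π lam.1))
    (hn : (π lam.1).n₃ ≠ 0) (hx : x.OK (π lam.1) Bf e0 r ε X a.1) {ps : List Pq}
    {h₁ : FS (b1 (π lam.1) h lam.2 ps)} {h₂ : FS (b2 (π lam.1) h lam.2 a.1 ps)}
    {G : Eis → ℂ} (hf : Facts (π lam.1).n₃ t)
    (hval : t.val 1 lD (x.v π h lam Jf a) (x.w π h lam Jf a ps h₁ h₂) G ≠ 0) :
    RS (pf t) + x.m 1 2 * Real.log 2 + kY x + 2 * kC x + 2 * lg (nu0 t.o.1.1 t.o.1.2) ≤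
      Real.log 2 * a.2 + 28 * Real.log 2 := by
  have hcop := cop_RS hJ ha hP hn hx hf hval
  obtain ⟨-, hxs, hys⟩ := val_ne hval
  obtain ⟨x1, -, -, hx1⟩ := xs_ne hxs
  obtain ⟨-, rr, δ, r1, r2, r3, r4, r5, ⟨s, s1, s2, s3, s4⟩, r6, -⟩ := v_spec hJ ha hP hn hx t.o hx1
  have pRR : IsPrim (t.R * t.R') := hf.pR.1.mul hf.pR'.1
  have hXp : IsPrim (rr * δ ^ 2) := r1.mul (r3.pow 2)
  -- `R R' s ∣ r δ²`
  have hcs : IsCoprime (t.R * t.R') s := by
    by_contra hc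
    obtain ⟨p, hp, h3, h4⟩ := exists_pp_of_not pRR hc
    exact hp.prime.not_isUnit (hcop.isUnit_of_dvd' h3 (s4 p hp h4))
  have hd : (t.R * t.R') * s ∣ rr * δ ^ 2 := by
    refine hcs.mul_dvd ?_ (s3.mul_right _)
    rw [← r5]
    exact ⟨x.g' * x1, by ring⟩
  have hle : lg (t.R * t.R') + (x.m 0 0 + x.m 1 2) * Real.log 2 ≤ lg (rr * δ ^ 2) := by
    have e1 := lg_le_of_dvd hXp.ne_zero hd
    rw [lg_mul pRR.ne_zero s1.ne_zero] at e1
    have e2 : (x.m 0 0 + x.m 1 2) * Real.log 2 ≤ lg s := by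
      have e3 := Real.log_le_log (by positivity) s2
      rw [Real.log_pow] at e3
      push_cast at e3
      exact e3
    linarith
  have hlam := log_lam hJ ha hP hx t.o
  have hl0 := lD_pos t.o hJ ha hP hx
  have hX0 := nm_pos' hXp.ne_zero
  have hsz : lg (rr * δ ^ 2) + 2 * Real.log (lD t.o) ≤
      28 * Real.log 2 + Real.log 2 * a.2 + 3 * (kG x + kY x + 2 * kW x) := by
    have e1 := Real.log_le_log (by positivity) r6
    have h8 : Real.log 8 = 3 * Real.log 2 := by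
      rw [show (8 : ℝ) = 2 ^ 3 by norm_num, Real.log_pow]
      push_cast
      ring
    rw [Real.log_mul hX0.ne' (by positivity), Real.log_pow,
      Real.log_mul (by positivity) (by positivity), Real.log_div (by positivity) (by positivity),
      Real.log_mul (by positivity) (by positivity), Real.log_mul (by positivity) (by positivity),
      Real.log_pow, Real.log_pow, Real.log_pow, Real.log_pow, h8] at e1
    have e2 := nSE_eq x
    push_cast at e1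
    unfold lg
    linarith
  have hR := lgR hf
  rw [← hR]
  have e3 := hlam.1
  have e4 : (x.m 0 0 + x.m 1 2) * Real.log 2 = kG x + x.m 1 2 * Real.log 2 := by
    unfold kG
    ring
  rw [e4] at hle
  linarith

end cls

end Crest.Agent.R017.E4St352
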