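import Crest.Agent.R017.JxR_679
import Crest.Agent.R017.E4Sc_352

/-!
# Row 17, C70/E4 (version 7), the `x`-side: the square part of a nonzero term (helper679)

* `pdvd_of_gs` : `gs x k ≠ 0`, `p² ∣ k` cube-free : `p ‖ x`
* `sk_sq_dvd`, `sk_dvd_left`, `sk_dvd_of` : the square part
* `v_nu` : the support of the `x`-side of the data, `(r, ν) = 1`
* `cop_sk_b3`, `b3_sk_cube` : `(s₁, β₀) = 1`, `(β₀ s₁)³ ∣ k S ν`
-/

set_option autoImplicit false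
set_option linter.unusedSectionVars false

noncomputable section

open Complex Finset
open scoped ComplexConjugate

namespace Crest.Agent.R017.JxT679

open Crest.Agent.R012 Crest.Agent.R012.Eis
open Crest.Agent.R012.Mob705 hiding pb mem_pb kap
open Crest.Agent.R012.GaussLoc283 (syAx)
open Crest.Agent.R017.Sx545 (Sm)
open Crest.Agent.R017.CM106 (FS)
open Crest.Agent.R017.C70
open Crest.Agent.R017.E5B71 Crest.Agent.R017.E4D164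
open Crest.Agent.R017.B770 (DPar)
open Crest.Agent.R017.E5L770
open Crest.Agent.R017.E4U164
open Crest.Agent.R017.E4K164 (dc dc_spec)
open Crest.Agent.R017.E4352
open Crest.Agent.R017.E4J352 (Tm)
open Crest.Agent.R017.E4RG858 (pow_dvd_iff dvd_iff_mult mult_mul mult_eq_zero)
open Crest.Agent.R017.Str699 (b3 n3 mult_sqf)
open Crest.Agent.R017.JyF744 (nu2)
open Crest.Agent.R017.JxG679
open Crest.Agent.R017.JxS679 (sk sk_prim)

/-- `gs x k ≠ 0`, `p² ∣ k`, `k` cube-free : `p ‖ x` -/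
lemma pdvd_of_gs {x k p : Eis} (hx : x ≠ 0) (hk : IsPrim k) (hcf : CbF k) (h : gs x k ≠ 0)
    (hp : IsPP p) (h2 : p ^ 2 ∣ k) : p ∣ x ∧ ¬ p ^ 2 ∣ x := by
  obtain ⟨a, r, rfl, hr⟩ := E4BW858.exists_val hx hp.prime
  obtain ⟨m, b', rfl, hb'⟩ := E4BW858.exists_val hk.ne_zero hp.prime
  rw [mul_comm b' (p ^ m)] at hk h h2 hcf
  have hb'p : IsPrim b' := hk.of_mul_left (hp.isPrim.pow m)
  have hc : IsCoprime (p ^ m) b' := (hp.isCoprime_iff.mpr hb').pow_left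
  have hm : 2 ≤ m := by
    have h1 : p ^ 2 ∣ p ^ m := (E4BW858.pow_dvd_mul_iff_l hp hb' _ _).mp h2
    exact (E4BW858.pow_dvd_pow_iff' hp.prime).mp h1
  have hm' : m < 3 := by
    by_contra h3
    push Not at h3
    exact hcf p hp.prime ((pow_dvd_pow p h3).mul_right b')
  have hm2 : m = 2 := by omega
  subst hm2
  have h3 : gs (r * p ^ a) (p ^ 2) ≠ 0 := by
    intro h0
    apply h
    rw [GaussLoc283.gs_mul syAx _ (hp.isPrim.pow 2) hb'p hc, h0]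
    ring
  have ha0 : a ≠ 0 := by
    rintro rfl
    exact h3 (GaussLoc283.gs_table_ge syAx hp.isPrim hp.prime hr (by omega))
  have ha1 : ¬ 2 ≤ a := by
    intro h4
    have h5 := GaussLoc283.gs_table_le syAx (r := r) hp.isPrim hp.prime (a := a) (k := 1)
      (by omega)
    norm_num at h5
    exact h3 h5
  have ha : a = 1 := by omega
  subst ha
  rw [pow_one]
  refine ⟨dvd_mul_left _ _, fun h4 => hr ?_⟩
  rw [pow_two] at h4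
  exact (mul_dvd_mul_iff_right hp.prime.ne_zero).mp h4

/-! ### the square part -/

lemma mem_sk {g₀ k p : Eis} (hg : g₀ ≠ 0) (hp : IsPP p) : p ∣ sk g₀ k ↔ p ∣ g₀ ∧ p ^ 2 ∣ k := by
  classical
  unfold sk
  constructor
  · intro h
    obtain ⟨q, hq, hd⟩ := (hp.prime.dvd_finsetProd_iff _).mp h
    obtain ⟨h1, h2⟩ := mem_filter.mp hq
    have hqp : p = q := hp.eq_of_dvd (isPP_of_mem_pp h1) hd
    subst hqp
    exact ⟨dvd_of_mem_pp h1, h2⟩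
  · rintro ⟨h1, h2⟩
    exact dvd_prod_of_mem (fun p => p) (mem_filter.mpr ⟨(mem_pp hg).mpr ⟨hp, h1⟩, h2⟩)

/-- powers of the square part -/
lemma sk_pow_dvd {g₀ k n : Eis} {j : ℕ}
    (h : ∀ p, IsPP p → p ∣ g₀ → p ^ 2 ∣ k → p ^ j ∣ n) : sk g₀ k ^ j ∣ n := by
  classical
  unfold sk
  rw [← prod_pow]
  refine Finset.prod_dvd_of_coprime ?_ fun p hp => ?_
  · intro p hp q hq hne
    have h1 := isPP_of_mem_pp (mem_filter.mp hp).1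
    have h2 := isPP_of_mem_pp (mem_filter.mp hq).1
    refine IsCoprime.pow (h1.isCoprime_iff.mpr fun h3 => hne (h1.eq_of_dvd h2 h3))
  · obtain ⟨h1, h2⟩ := mem_filter.mp hp
    exact h p (isPP_of_mem_pp h1) (dvd_of_mem_pp h1) h2

lemma sk_sq_dvd (g₀ k : Eis) : sk g₀ k ^ 2 ∣ k := sk_pow_dvd fun _ _ _ h => h

lemma sk_dvd_left (g₀ k : Eis) : sk g₀ k ∣ g₀ := by
  have h := sk_pow_dvd (g₀ := g₀) (k := k) (n := g₀) (j := 1) fun p _ h1 _ => by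
    rw [pow_one]; exact h1
  rwa [pow_one] at h

/-- `2 log N(s₁) ≤ log N(k)` -/
lemma sk_log {g₀ k : Eis} (hk : k ≠ 0) :
    2 * Real.log (nm (sk g₀ k)) ≤ Real.log (nm k) := by
  have h1 := Div277.nm_le_of_dvd hk (sk_sq_dvd g₀ k)
  have h2 : (0 : ℝ) < nm (sk g₀ k) := by exact_mod_cast nm_pos.mpr (sk_prim g₀ k).ne_zero
  have h3 : (nm (sk g₀ k) : ℝ) ^ 2 ≤ nm k := by
    rw [nm_pow] at h1
    exact_mod_cast h1
  have h4 := Real.log_le_log (by positivity) h3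
  rw [Real.log_pow] at h4
  exact_mod_cast h4

/-- a nonzero term sees the squares of its modulus once -/
lemma x_of_xs {O : Type} {M : Eis} {v : O → Eis → ℂ} {G : Eis → ℂ} {t : Tm O} (hok : t.OK M 1)
    (hxs : t.xs v G ≠ 0) (hv : ∀ x, v t.o x ≠ 0 → x ≠ 0) :
    ∃ x, v t.o x ≠ 0 ∧ ∀ p, IsPP p → p ^ 2 ∣ t.k → p ∣ x := by
  obtain ⟨x, hx⟩ := exists_of_tsum_ne hxs
  have h0 : gs x t.k ≠ 0 := fun h0 => right_ne_zero_of_mul hx (by rw [h0, map_zero])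
  obtain ⟨h1, h2⟩ := JxG679.tws_ne (left_ne_zero_of_mul hx)
  obtain ⟨h3, h4⟩ := vD_ne h2
  refine ⟨_, h4, fun p hp hp2 => ?_⟩
  have hx0 : x ≠ 0 := right_ne_zero_of_mul (hv _ h4)
  exact (pdvd_of_gs hx0 hok.sk.1 hok.ck h0 hp hp2).1.mul_left _

section cls

variable {Λ : Type*} {π : Λ → DPar} {h : ℝ → ℝ} {lam : Λ × Eis}
  {Jf : ℝ → ℝ → ℝ → Finset (Eis × Eis)}
  {a : Bd × ℕ} {x : Dt} {Bf : ℝ → ℝ → ℝ → ℝ} {e0 r ε X : ℝ}

/-- **the support of the `x`-side**, `(r, ν) = 1` -/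
theorem v_nu (hJ : ∀ l N z, OKJ (Jf l N z)) (ha : a.1.ok) (hP : a.1.okP (π lam.1))
    (hx : x.OK (π lam.1) Bf e0 r ε X a.1) (o : x.O π lam Jf a) {y : Eis}
    (hy : x.v π h lam Jf a o y ≠ 0) :
    ∃ rr δ : Eis, IsPrim rr ∧ IsPrim δ ∧ IsCoprime o.1.1 δ ∧
      x.g' * y = rr * δ ^ 2 ∧ IsCoprime rr o.1.2 ∧ IsPrim o.1.1 ∧ IsPrim o.1.2 ∧
      (∀ p : Eis, IsPP p → multiplicity p o.1.1 ≤ 2) ∧
      ∀ p : Eis, Prime p → p ∣ x.g * x.e₀ * x.t → p ∣ o.1.1 := by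
  classical
  unfold Dt.v vX vI at hy
  obtain ⟨-, i, hi, h1, h2⟩ := pu_ne hy
  unfold II at hi
  rw [mem_filter] at hi
  obtain ⟨hi1, hi2, hi3, hi4⟩ := hi
  obtain ⟨⟨hq, hxJ⟩, hcl⟩ := Dt.mem_I.mp hi1
  obtain ⟨hs, hc3⟩ := E4Us512.c3_sS hx ha hP hq
  have hJ3 : OKJ (J3 Jf a.1 a.2) := okJ3 hJ a.1 a.2
  have hjc : JC i.2.2 := hJ3.jc _ hxJ
  have hsi : jS (sS x.g x.e₀ x.t) i = sS x.g x.e₀ x.t i.1 := rfl
  have hji : jJ (sS x.g x.e₀ x.t) i = E5b54.stj (sS x.g x.e₀ x.t i.1) i.2.2 := rfl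
  obtain ⟨hst, e, he, hst2⟩ := E5b54.stj_spec hs hjc
  obtain ⟨d1, d2, d3, d4, d5, d6, d7⟩ := dc_spec hst
  have hδ : IsPrim (jD i) := hJ3.prim _ hxJ
  unfold cI at h2
  have c1 := left_ne_zero_of_mul h2
  have c2 := left_ne_zero_of_mul c1
  have c3 : jC (sS x.g x.e₀ x.t) (cE x.ph (omL a.2) (E5k54.alb (f3 (π lam.1) h lam.2 a.1) x.β)
    x.e₀) i ≠ 0 := by
    intro h0
    apply c2
    rw [h0, map_zero]
  have c6 : sy (sS x.g x.e₀ x.t i.1) (jD i) ≠ 0 := by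
    unfold jC at c3
    exact right_ne_zero_of_mul c3
  have hcop1 : IsCoprime (sS x.g x.e₀ x.t i.1) (jD i) := by
    by_contra hc
    exact c6 ((syAx.eq_zero _ _ hδ).mpr hc)
  obtain ⟨q1, q2, q3, -⟩ := hx.Q i.1 hq
  obtain ⟨g1, g2, g3⟩ := (E5P571.mem_Gd ha.2.2).mp hx.g
  have hEp : IsPrim (x.E a.1) := hP.1.prim.mul (T3_prim x.β hx.β)
  obtain ⟨t1, t2, -⟩ := (E5P571.mem_Gd (tS_prim hEp).ne_zero).mp hx.t
  obtain ⟨-, e1, e2⟩ := (LS2.mem_S (Real.exp_nonneg _)).mp hx.e₀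
  have hqg : IsCoprime i.1 x.g := q3.of_isCoprime_of_dvd_right g3
  have m2 : ∀ p : Eis, IsPP p → multiplicity p (sS x.g x.e₀ x.t i.1) ≤ 2 := fun p hp =>
    Str699.mult_sS_le g1.prim g2 e1 e2 t1.prim t2 q1.prim q2 hqg hp
  refine ⟨(dc (jJ (sS x.g x.e₀ x.t) i)).2.1, jD i, d2, hδ, ?_, ?_, ?_, ?_, ?_, ?_, ?_⟩
  · rw [← hi3]
    exact hcop1
  · rw [← h1]
    rfl
  · rw [← hi4]
    exact d6
  · rw [← hi3]
    exact hs
  · rw [← hi4]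
    exact d4
  · rw [← hi3]
    exact m2
  · intro p hp hd
    rw [← hi3]
    show p ∣ sS x.g x.e₀ x.t i.1
    have L1 := (DgA829.lc_dvd (((q1.prim.pow 2).mul g1.prim)) e1
      (DgA829.lc (i.1 ^ 2 * x.g) x.e₀)).mp dvd_rfl
    have L2 := (DgA829.lc_dvd (DgA829.lc_prim ((q1.prim.pow 2).mul g1.prim) e1) t1.prim
        (DgA829.lc (DgA829.lc (i.1 ^ 2 * x.g) x.e₀) x.t)).mp dvd_rfl
    rcases hp.dvd_or_dvd hd with h | h
    · rcases hp.dvd_or_dvd h with h | h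
      · exact h.trans ((dvd_mul_left _ _).trans (L1.1.trans L2.1))
      · exact h.trans (L1.2.trans L2.1)
    · exact h.trans L2.2

variable {t : Tm (x.O π lam Jf a)}

/-- the primes of the square part : `p ∣ S`, `p ∤ ν`, `p² ∣ k` -/
theorem sk_spec (hJ : ∀ l N z, OKJ (Jf l N z)) (ha : a.1.ok) (hP : a.1.okP (π lam.1))
    (hx : x.OK (π lam.1) Bf e0 r ε X a.1) {G : Eis → ℂ} (hok : t.OK (π lam.1).n₃ 1)
    (hxs : t.xs (x.v π h lam Jf a) G ≠ 0) :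
    (∀ p : Eis, Prime p → p ∣ x.g * x.e₀ * x.t → p ∣ t.o.1.1) ∧
    IsPrim t.o.1.1 ∧ IsPrim t.o.1.2 ∧ (∀ p : Eis, IsPP p → multiplicity p t.o.1.1 ≤ 2) ∧
    ∀ p : Eis, IsPP p → p ∣ x.g * x.e₀ * x.t → p ^ 2 ∣ t.k → ¬ p ∣ t.o.1.2 := by
  have hv0 : ∀ y, x.v π h lam Jf a t.o y ≠ 0 → y ≠ 0 := by
    intro y hy
    obtain ⟨rr, δ, h1, h2, -, h4, -⟩ := v_nu hJ ha hP hx t.o hy
    have h5 : x.g' * y ≠ 0 := by
      rw [h4]
      exact mul_ne_zero h1.ne_zero (pow_ne_zero 2 h2.ne_zero)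
    exact right_ne_zero_of_mul h5
  obtain ⟨y, hy, hp⟩ := x_of_xs hok hxs hv0
  obtain ⟨rr, δ, h1, h2, h3, h4, h5, h6, h7, h8, h9⟩ := v_nu hJ ha hP hx t.o hy
  refine ⟨h9, h6, h7, h8, fun p hpp hg hk hnu => ?_⟩
  have hS := h9 p hpp.prime hg
  have hy2 : p ∣ rr * δ ^ 2 := by
    rw [← h4]
    exact (hp p hpp hk).mul_left _
  rcases hpp.prime.dvd_or_dvd hy2 with h10 | h10
  · exact hpp.prime.not_isUnit (h5.isUnit_of_dvd' h10 hnu)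
  · exact hpp.prime.not_isUnit (h3.isUnit_of_dvd' hS (hpp.prime.dvd_of_dvd_pow h10))

/-- **`(s₁, β₀) = 1`** -/
theorem cop_sk_b3 (hJ : ∀ l N z, OKJ (Jf l N z)) (ha : a.1.ok) (hP : a.1.okP (π lam.1))
    (hx : x.OK (π lam.1) Bf e0 r ε X a.1) {G : Eis → ℂ} (hok : t.OK (π lam.1).n₃ 1)
    (hxs : t.xs (x.v π h lam Jf a) G ≠ 0) :
    IsCoprime (sk (x.g * x.e₀ * x.t) t.k) (b3 (t.o.1.1 * t.o.1.2)) := by
  classical
  obtain ⟨h1, h2, h3, h4, h5⟩ := sk_spec hJ ha hP hx hok hxs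
  obtain ⟨g1, g2, g3⟩ := (E5P571.mem_Gd ha.2.2).mp hx.g
  have hEp : IsPrim (x.E a.1) := hP.1.prim.mul (T3_prim x.β hx.β)
  obtain ⟨t1, t2, -⟩ := (E5P571.mem_Gd (tS_prim hEp).ne_zero).mp hx.t
  obtain ⟨-, e1, e2⟩ := (LS2.mem_S (Real.exp_nonneg _)).mp hx.e₀
  have hg0 : x.g * x.e₀ * x.t ≠ 0 := ((g1.prim.mul e1).mul t1.prim).ne_zero
  by_contra hc
  obtain ⟨p, hp, hp1, hp2⟩ := E4St352.exists_pp_of_not (sk_prim _ _) hc
  obtain ⟨q1, q2⟩ := (mem_sk hg0 hp).mp hp1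
  have q3 := h5 p hp q1 q2
  unfold b3 at hp2
  obtain ⟨q, hq, hd⟩ := (hp.prime.dvd_finsetProd_iff _).mp hp2
  obtain ⟨w1, w2⟩ := mem_filter.mp hq
  have hqp : p = q := hp.eq_of_dvd (isPP_of_mem_pp w1) hd
  subst hqp
  rw [mult_mul hp.prime h2.ne_zero h3.ne_zero, mult_eq_zero hp.prime h3.ne_zero q3] at w2
  have := h4 p hp
  omega

/-- **`(β₀ s₁)³ ∣ k S ν`** -/
theorem b3_sk_cube (hJ : ∀ l N z, OKJ (Jf l N z)) (ha : a.1.ok) (hP : a.1.okP (π lam.1))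
    (hx : x.OK (π lam.1) Bf e0 r ε X a.1) {G : Eis → ℂ} (hok : t.OK (π lam.1).n₃ 1)
    (hxs : t.xs (x.v π h lam Jf a) G ≠ 0) :
    (b3 (t.o.1.1 * t.o.1.2) * sk (x.g * x.e₀ * x.t) t.k) ^ 3 ∣ t.k * nu2 t.o := by
  obtain ⟨h1, h2, h3, -, -⟩ := sk_spec hJ ha hP hx hok hxs
  have hc := cop_sk_b3 hJ ha hP hx hok hxs
  have e1 : b3 (t.o.1.1 * t.o.1.2) ^ 3 ∣ t.k * nu2 t.o := by
    have h4 := Str699.n3_mul (h2.mul h3)
    have h5 : b3 (t.o.1.1 * t.o.1.2) ^ 3 ∣ t.o.1.1 * t.o.1.2 := ⟨n3 (t.o.1.1 * t.o.1.2),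
      h4.trans (mul_comm _ _)⟩
    exact h5.mul_left _
  have e2 : sk (x.g * x.e₀ * x.t) t.k ^ 3 ∣ t.k * nu2 t.o := by
    refine sk_pow_dvd fun p hp h4 h5 => ?_
    have h6 : p ^ 2 * p ∣ t.k * nu2 t.o := mul_dvd_mul h5 ((h1 p hp.prime h4).mul_right _)
    rwa [← pow_succ] at h6
  rw [mul_pow]
  exact (hc.symm.pow (m := 3) (n := 3)).mul_dvd e1 e2

end cls

end Crest.Agent.R017.JxT679
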