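import Crest.Agent.R017.BKn_858
import Crest.Agent.R017.E4Sb_352
import Crest.Agent.R017.JxT_679

/-!
# Row 17, T.3, `StrU`: the lengths of a block in helper352's class of a term (helper858)

* `sL_eq_sk` : the square part of the cube `b0` is helper679's
* `kyT_le` : `kyT ≤ Lg (ky - 3 s1) + 11 log 2`;  `l_le`
* `cnt_le` : the exponent of the number of frequencies
-/

set_option autoImplicit false
set_option linter.unusedSectionVars false

noncomputable section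

open Finset

namespace Crest.Agent.R017.BKz858

open Crest.Agent.R012 Crest.Agent.R012.Eis
open Crest.Agent.R012.Mob705 hiding pb mem_pb kap
open Crest.Agent.R017.CM106 (FS)
open Crest.Agent.R017.C70 (OKJ)
open Crest.Agent.R017.Prov71 Crest.Agent.R017.E5B71 Crest.Agent.R017.E4D164
open Crest.Agent.R017.B770 (DPar)
open Crest.Agent.R017.E4U164
open Crest.Agent.R017.E4J352 (Tm)
open Crest.Agent.R017.E4RH858
open Crest.Agent.R017.E4Dic352
open Crest.Agent.R017.E4St352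
open Crest.Agent.R017.Str699 (b3 n3 nu0 mlam)
open Crest.Agent.R017.JxS679 (sk)
open Crest.Agent.R017.JyF744 (nu2)
open Crest.Agent.R017.BK858 (sL sL_sk sL_kl kyT b0L sL_prim)

section num

variable {L τ κ N M ao am cx sc : ℝ} {i : ℕ} {x : Dt} {f : Eis} {OO : Finset (Eis × Eis)}
  {t : Tm {x // x ∈ OO}} {f1 f2 D1' l m : Eis}

lemma lg_b0L {τl : Eis × Eis × Eis} (hk : t.k ≠ 0)
    (h1 : τl.1 = kl (x.g * x.e₀ * x.t) t.k)
    (hs : sL (x.g * x.e₀ * x.t) t.k (bo3 t) = sk (x.g * x.e₀ * x.t) t.k) :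
    lg (b0L x τl (bo3 t)) = lg (bo3 t) + lg (sk (x.g * x.e₀ * x.t) t.k) := by
  unfold b0L
  rw [h1, sL_kl hk, lg_mul (bo3_prim t).ne_zero (sL_prim _ _ _).ne_zero, hs]

/-- **the frequency against the class of the term** -/
theorem kyT_le (h : TrN τ L κ N M ao am cx sc i x f t f1 f2 D1' l m) (hL : 0 < L)
    (hκ : 8 / 9 ≤ κ)
    (h2 : Real.log (lD t.o) ≤ kG x + 2 * kY x + 3 * kW x + kC x + lg (nu0 t.o.1.1 t.o.1.2) +
      11 * Real.log 2) {τl : Eis × Eis × Eis}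
    (h1 : τl.1 = kl (x.g * x.e₀ * x.t) t.k)
    (hs : sL (x.g * x.e₀ * x.t) t.k (bo3 t) = sk (x.g * x.e₀ * x.t) t.k) :
    kyT (pf t) (b0L x τl (bo3 t)) t ≤
      κ * L * ((zTr (κ * L) i x f t f1 f2 D1' l m sc).ky -
        3 * (zTr (κ * L) i x f t f1 f2 D1' l m sc).s1) + 11 * Real.log 2 := by
  have hG : 0 < κ * L := mul_pos (by linarith) hL
  have h3 := zky (i := i) (x := x) (f := f) (t := t) (f1 := f1) (f2 := f2) (D1' := D1') (l := l)
    (m := m) (sc := sc) hG.ne'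
  have h4 : κ * L * (zTr (κ * L) i x f t f1 f2 D1' l m sc).s1 ≤
      lg (sk (x.g * x.e₀ * x.t) t.k) := by
    unfold zTr
    rw [mul_div_cancel₀ _ hG.ne']
    exact min_le_left _ _
  have h5 : Real.log (lD t.o) = lg (nu2 t.o) := rfl
  have h6 := lg_b0L h.k h1 hs
  obtain ⟨g3, -⟩ := h.b3
  have g0 := le_gS x t
  have h7 := h.D1
  have h8 := h.b1
  rw [h5] at h2
  unfold kyT
  rw [h6, h7, h8, mul_sub, h3]
  linarith

/-- **the length of the block against the class of a term** -/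
theorem l_le (h : TrN τ L κ N M ao am cx sc i x f t f1 f2 D1' l m) (hL : 0 < L)
    (hκ : 8 / 9 ≤ κ)
    (h2 : Real.log (lD t.o) ≤ kG x + 2 * kY x + 3 * kW x + kC x + lg (nu0 t.o.1.1 t.o.1.2) +
      11 * Real.log 2) {τl : Eis × Eis × Eis}
    (h1 : τl.1 = kl (x.g * x.e₀ * x.t) t.k)
    (hs : sL (x.g * x.e₀ * x.t) t.k (bo3 t) = sk (x.g * x.e₀ * x.t) t.k) {lb : ℝ}
    (hl : lb ≤ kyT (pf t) (b0L x τl (bo3 t)) t + 5 * Real.log 2) :
    lb ≤ κ * L * ((zTr (κ * L) i x f t f1 f2 D1' l m sc).ky -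
        3 * (zTr (κ * L) i x f t f1 f2 D1' l m sc).s1) + 16 * Real.log 2 := by
  have := kyT_le h hL hκ h2 h1 hs
  linarith

/-- **the exponent of the number of frequencies against the class of a term** -/
theorem cnt_le (hL : 0 < L) (hκ : 8 / 9 ≤ κ)
    (hs : sL (x.g * x.e₀ * x.t) t.k (bo3 t) = sk (x.g * x.e₀ * x.t) t.k) :
    lg t.k - 2 * lg (sL (x.g * x.e₀ * x.t) t.k (bo3 t)) + lg D1' + beS t f2 +
        ((x.m 1 1 : ℝ) + x.m 1 2) * Real.log 2 + lg (nu0 t.o.1.1 t.o.1.2) ≤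
      κ * L * ((zTr (κ * L) i x f t f1 f2 D1' l m sc).k -
        2 * (zTr (κ * L) i x f t f1 f2 D1' l m sc).s1 +
        (zTr (κ * L) i x f t f1 f2 D1' l m sc).η + (zTr (κ * L) i x f t f1 f2 D1' l m sc).b1 +
        (zTr (κ * L) i x f t f1 f2 D1' l m sc).Y1 + (zTr (κ * L) i x f t f1 f2 D1' l m sc).c12 +
        (zTr (κ * L) i x f t f1 f2 D1' l m sc).nu) := by
  have hG : 0 < κ * L := mul_pos (by linarith) hL
  have d0 : ∀ y : ℝ, κ * L * (y / (κ * L)) = y := fun y => mul_div_cancel₀ y hG.ne'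
  have e1 := d0 (lg t.k)
  have e2 := d0 (min (lg (sk (x.g * x.e₀ * x.t) t.k)) (kG x))
  have e3 := d0 (lg D1')
  have e4 := d0 (beS t f2)
  have e5 := d0 (x.m 1 1 * Real.log 2)
  have e6 := d0 (x.m 1 2 * Real.log 2)
  have e7 := d0 (lg (nu0 t.o.1.1 t.o.1.2))
  have e8 := min_le_left (lg (sk (x.g * x.e₀ * x.t) t.k)) (kG x)
  rw [hs]
  simp only [zTr]
  linarith

end num

/-- the square part of the cube `b0` is helper679's, from the coprimality -/
lemma sL_eq_sk' {N k β : Eis} (h : IsCoprime (sk N k) β) : sL N k β = sk N k := by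
  classical
  unfold sk at h ⊢
  refine (sL_sk ?_).trans ?_
  · convert h
  · congr

section cls

variable {Λ : Type*} {π : Λ → DPar} {h : ℝ → ℝ} {lam : Λ × Eis}
  {Jf : ℝ → ℝ → ℝ → Finset (Eis × Eis)}
  {a : Bd × ℕ} {x : Dt} {Bf : ℝ → ℝ → ℝ → ℝ} {e0 r ε X : ℝ} {t : Tm (x.O π lam Jf a)}

/-- the square part of the cube `b0` is helper679's -/
lemma sL_eq_sk (hJ : ∀ l N z, OKJ (Jf l N z)) (ha : a.1.ok) (hP : a.1.okP (π lam.1))
    (hx : x.OK (π lam.1) Bf e0 r ε X a.1) {G : Eis → ℂ} (hok : t.OK (π lam.1).n₃ 1)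
    (hxs : t.xs (x.v π h lam Jf a) G ≠ 0) :
    sL (x.g * x.e₀ * x.t) t.k (bo3 t) = sk (x.g * x.e₀ * x.t) t.k :=
  sL_eq_sk' (JxT679.cop_sk_b3 hJ ha hP hx hok hxs)

end cls

end Crest.Agent.R017.BKz858
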