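import Crest.Agent.R017.BL5defs2_868
import Crest.Agent.R012.Dens_705
import Crest.Agent.R012.LatW_413

/-!
# Row 17, leaf L5, sub-leaf ReE: the coefficients of the main term (helper571)
-/

set_option autoImplicit false

noncomputable section

open MeasureTheory Complex Set
open scoped ComplexConjugate ContDiff

namespace Crest.Agent.R017.ReE571

open Crest.Agent.R012 Crest.Agent.R012.Eis Crest.Agent.R012.Mob705 Crest.Agent.R012.Div277
open Crest.Agent.R017.End699 Crest.Agent.R017.Sx545 Crest.Agent.R017.B770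
open Crest.Agent.R017.BEndA699 Crest.Agent.R017.L5

open Classical in
/-- the pairs `(e, D')` with `e⁶ D' = D` -/
def FB (M D : Eis) : Finset (Eis × Eis) :=
  (dvs D ×ˢ dvs D).filter (fun p => p.1 ^ 6 * p.2 = D ∧ Sm M p.1 ∧ Sm M p.2)

lemma mem_FB {M D : Eis} {p : Eis × Eis} :
    p ∈ FB M D ↔ p.1 ^ 6 * p.2 = D ∧ Sm M p.1 ∧ Sm M p.2 := by
  classical
  unfold FB
  rw [Finset.mem_filter, Finset.mem_product]
  constructor
  · exact fun h => h.2
  · rintro ⟨h1, h2, h3⟩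
    refine ⟨?_, h1, h2, h3⟩
    have hD : D ≠ 0 := by
      rw [← h1]; exact mul_ne_zero (pow_ne_zero _ h2.ne_zero) h3.ne_zero
    rw [mem_dvs hD, mem_dvs hD]
    refine ⟨⟨h2.1, ?_⟩, h3.1, ?_⟩
    · rw [← h1]; exact (dvd_pow_self _ (by norm_num)).mul_right _
    · rw [← h1]; exact Dvd.intro_left _ rfl

lemma eG_eq (M : Eis) (ξ a : Eis → ℂ) (D : Eis) :
    eG M ξ a D = ∑ p ∈ FB M D, ξ p.1 * (nm p.1 : ℂ) ^ 3 * a p.2 := rfl

/-- fibres of `(e, D') ↦ e⁶ D'` -/
lemma hasSum_fb {R : Type*} [AddCommMonoid R] [TopologicalSpace R] {M : Eis}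
    {F : Eis × Eis → R} (hF0 : ∀ p, ¬ (Sm M p.1 ∧ Sm M p.2) → F p = 0) (D : Eis) :
    HasSum (fun p : ((fun p : Eis × Eis => p.1 ^ 6 * p.2) ⁻¹' {D} : Set (Eis × Eis)) => F p)
      (∑ p ∈ FB M D, F p) := by
  set T : Set (Eis × Eis) := (fun p : Eis × Eis => p.1 ^ 6 * p.2) ⁻¹' {D} with hT
  have h3 : HasSum (T.indicator F) (∑ p ∈ FB M D, F p) := by
    have h4 : ∑ p ∈ FB M D, F p = ∑ p ∈ FB M D, T.indicator F p := by
      refine Finset.sum_congr rfl fun p hp => ?_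
      rw [Set.indicator_of_mem]
      exact (mem_FB.mp hp).1
    rw [h4]
    apply hasSum_sum_of_ne_finset_zero
    intro p hp
    by_cases hp1 : p ∈ T
    · rw [Set.indicator_of_mem hp1]
      apply hF0
      intro h5
      exact hp (mem_FB.mpr ⟨hp1, h5⟩)
    · exact Set.indicator_of_notMem hp1 _
  exact (hasSum_subtype_iff_indicator).mpr h3

lemma hasSum_FB {R : Type*} [NormedAddCommGroup R] [CompleteSpace R] {M : Eis}
    {F : Eis × Eis → R} (hF : Summable F) (hF0 : ∀ p, ¬ (Sm M p.1 ∧ Sm M p.2) → F p = 0) :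
    HasSum (fun D : Eis => ∑ p ∈ FB M D, F p) (∑' p, F p) := by
  have h1 := hF.hasSum.tsum_fiberwise (fun p : Eis × Eis => p.1 ^ 6 * p.2)
  have e : (fun D : Eis => ∑' p : ((fun p : Eis × Eis => p.1 ^ 6 * p.2) ⁻¹' {D} :
      Set (Eis × Eis)), F p) = fun D : Eis => ∑ p ∈ FB M D, F p := by
    funext D
    exact (hasSum_fb hF0 D).tsum_eq
  rwa [e] at h1

open Classical in
/-- `nm e ^ (-2)` on `Sm M` -/
def ue (M e : Eis) : ℝ := if Sm M e then (nm e : ℝ) ^ (-2 : ℝ) else 0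

open Classical in
/-- `‖a D‖ N(D)^{-5/6}` on `Sm M` -/
def va (M : Eis) (a : Eis → ℂ) (D : Eis) : ℝ :=
  (if Sm M D then ‖a D‖ else 0) * (nm D : ℝ) ^ (-(5 / 6) : ℝ)

lemma ue_nonneg (M e : Eis) : 0 ≤ ue M e := by unfold ue; split_ifs <;> positivity

lemma va_nonneg (M : Eis) (a : Eis → ℂ) (D : Eis) : 0 ≤ va M a D := by
  unfold va; split_ifs <;> positivity

lemma summable_ue (M : Eis) : Summable (ue M) := by
  refine Summable.of_nonneg_of_le (ue_nonneg M) (fun e => ?_)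
    (Crest.Agent.R012.LatSum413.summable_nm_rpow (s := 2) (by norm_num))
  unfold ue
  split_ifs
  · exact le_rfl
  · positivity

lemma fb_zero (M : Eis) (a : Eis → ℂ) (p : Eis × Eis) (hp : ¬ (Sm M p.1 ∧ Sm M p.2)) :
    ue M p.1 * va M a p.2 = 0 := by
  classical
  by_cases h1 : Sm M p.1
  · have h2 : ¬ Sm M p.2 := fun h => hp ⟨h1, h⟩
    unfold va
    rw [if_neg h2]; ring
  · unfold ue
    rw [if_neg h1]; ring

lemma norm_eG_le {M : Eis} {ξ a : Eis → ℂ} (hξ : ∀ e, ‖ξ e‖ ≤ 1) (D : Eis) :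
    ‖eG M ξ a D‖ * (nm D : ℝ) ^ (-(5 / 6) : ℝ) ≤ ∑ p ∈ FB M D, ue M p.1 * va M a p.2 := by
  classical
  rw [eG_eq]
  calc ‖∑ p ∈ FB M D, ξ p.1 * (nm p.1 : ℂ) ^ 3 * a p.2‖ * (nm D : ℝ) ^ (-(5 / 6) : ℝ)
      ≤ (∑ p ∈ FB M D, ‖ξ p.1 * (nm p.1 : ℂ) ^ 3 * a p.2‖) * (nm D : ℝ) ^ (-(5 / 6) : ℝ) := by
        gcongr
        exact norm_sum_le _ _
    _ = ∑ p ∈ FB M D, ‖ξ p.1 * (nm p.1 : ℂ) ^ 3 * a p.2‖ * (nm D : ℝ) ^ (-(5 / 6) : ℝ) := by
        rw [Finset.sum_mul]
    _ ≤ ∑ p ∈ FB M D, ue M p.1 * va M a p.2 := by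
        refine Finset.sum_le_sum fun p hp => ?_
        obtain ⟨h1, h2, h3⟩ := mem_FB.mp hp
        have n1 : (0 : ℝ) < nm p.1 := by exact_mod_cast nm_pos.mpr h2.ne_zero
        have n2 : (0 : ℝ) < nm p.2 := by exact_mod_cast nm_pos.mpr h3.ne_zero
        unfold ue va
        rw [if_pos h2, if_pos h3, norm_mul, norm_mul, norm_pow, Complex.norm_natCast, ← h1, nm_mul,
          nm_pow]
        push_cast
        rw [Real.mul_rpow (by positivity) n2.le]
        have e1 : ((nm p.1 : ℝ) ^ 6) ^ (-(5 / 6) : ℝ) = (nm p.1 : ℝ) ^ (-5 : ℝ) := by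
          rw [← Real.rpow_natCast, ← Real.rpow_mul n1.le]
          congr 1; norm_num
        have e2 : (nm p.1 : ℝ) ^ 3 * (nm p.1 : ℝ) ^ (-5 : ℝ) = (nm p.1 : ℝ) ^ (-2 : ℝ) := by
          rw [← Real.rpow_natCast, ← Real.rpow_add n1]
          congr 1; norm_num
        rw [e1]
        calc ‖ξ p.1‖ * (nm p.1 : ℝ) ^ 3 * ‖a p.2‖ *
              ((nm p.1 : ℝ) ^ (-5 : ℝ) * (nm p.2 : ℝ) ^ (-(5 / 6) : ℝ))
            ≤ 1 * (nm p.1 : ℝ) ^ 3 * ‖a p.2‖ *
              ((nm p.1 : ℝ) ^ (-5 : ℝ) * (nm p.2 : ℝ) ^ (-(5 / 6) : ℝ)) := by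
              gcongr
              exact hξ _
          _ = ((nm p.1 : ℝ) ^ 3 * (nm p.1 : ℝ) ^ (-5 : ℝ)) *
              (‖a p.2‖ * (nm p.2 : ℝ) ^ (-(5 / 6) : ℝ)) := by ring
          _ = _ := by rw [e2]

lemma summable_prod {M : Eis} {a : Eis → ℂ} (ha : Summable (va M a)) :
    Summable (fun p : Eis × Eis => ue M p.1 * va M a p.2) :=
  Summable.mul_of_nonneg (summable_ue M) ha (ue_nonneg M) (va_nonneg M a)

lemma ac_eG {M : Eis} {ξ a : Eis → ℂ} (hξ : ∀ e, ‖ξ e‖ ≤ 1) (ha : Summable (va M a)) :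
    AC (eG M ξ a) (5 / 6) := by
  have h1 := hasSum_FB (summable_prod ha) (fun p hp => fb_zero M a p hp)
  refine Summable.of_nonneg_of_le (fun b => by positivity) (fun D => ?_) h1.summable
  refine le_trans ?_ (norm_eG_le hξ D)
  refine mul_le_mul_of_nonneg_right ?_ (by positivity)
  by_cases hD : IsPrim D
  · rw [ip_of hD]
  · rw [ip_of_not hD, norm_zero]; exact norm_nonneg _

lemma eq_one_of_pow_mul {e D : Eis} (he : IsPrim e) (hD : IsPrim D) (h : e ^ 6 * D = 1) :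
    e = 1 ∧ D = 1 := by
  have hu1 : IsUnit e := by
    have : IsUnit (e ^ 6 * D) := by rw [h]; exact isUnit_one
    exact (isUnit_pow_iff (by norm_num)).mp (isUnit_of_mul_isUnit_left this)
  have hu2 : IsUnit D := by
    have : IsUnit (e ^ 6 * D) := by rw [h]; exact isUnit_one
    exact isUnit_of_mul_isUnit_right this
  exact ⟨isPrim_eq_one_of_isUnit he hu1, isPrim_eq_one_of_isUnit hD hu2⟩

lemma FB_one (M : Eis) : FB M 1 = {(1, 1)} := by
  ext ⟨e, D⟩
  rw [mem_FB, Finset.mem_singleton]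
  constructor
  · rintro ⟨h1, h2, h3⟩
    obtain ⟨rfl, rfl⟩ := eq_one_of_pow_mul h2.1 h3.1 h1
    rfl
  · rintro h
    rw [Prod.mk.injEq] at h
    obtain ⟨rfl, rfl⟩ := h
    exact ⟨by simp, Sm.one M, Sm.one M⟩

lemma eG_one {M : Eis} {ξ a : Eis → ℂ} (hξ1 : ξ 1 = 1) : eG M ξ a 1 = a 1 := by
  rw [eG_eq, FB_one, Finset.sum_singleton, hξ1]
  simp

lemma nm_gt_of_sm {M : Eis} {P₀ : ℕ} (hM : ∀ p : Eis, Prime p → nm p ≤ P₀ → p ∣ M) {e : Eis}
    (he : Sm M e) (h1 : e ≠ 1) : P₀ < nm e := by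
  obtain ⟨p, hp, hpe⟩ := exists_pp_dvd_of_isPrim he.1 h1
  by_contra hle
  push Not at hle
  have h2 : p ∣ M := hM p hp.prime ((nm_le_of_dvd he.ne_zero hpe).trans hle)
  exact hp.prime.not_isUnit (he.2.isUnit_of_dvd' hpe h2)

lemma tsum_ue_le {M : Eis} {P₀ : ℕ} (hM : ∀ p : Eis, Prime p → nm p ≤ P₀ → p ∣ M) :
    ∑' e, ue M e ≤ 1 + 300 / ((P₀ : ℝ) + 1) := by
  classical
  refine (summable_ue M).tsum_le_of_sum_le fun s => ?_
  have h1 : ∑ e ∈ s, ue M e ≤ ∑ e ∈ {1} ∪ (s.filter (fun e => Sm M e ∧ e ≠ 1)), ue M e := by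
    have h2 : ∑ e ∈ s, ue M e = ∑ e ∈ s.filter (fun e => Sm M e), ue M e := by
      rw [Finset.sum_filter_of_ne]
      intro e _ he
      by_contra hc
      apply he
      unfold ue
      rw [if_neg hc]
    rw [h2]
    refine Finset.sum_le_sum_of_subset_of_nonneg ?_ (fun _ _ _ => ue_nonneg _ _)
    intro e he
    rw [Finset.mem_filter] at he
    rw [Finset.mem_union, Finset.mem_singleton, Finset.mem_filter]
    by_cases h : e = 1
    · exact Or.inl h
    · exact Or.inr ⟨he.1, he.2, h⟩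
  refine h1.trans ?_
  rw [Finset.sum_union, Finset.sum_singleton]
  · have h3 : ue M 1 = 1 := by
      unfold ue; rw [if_pos (Sm.one M)]; simp
    rw [h3]
    gcongr
    have h4 : ∑ e ∈ s.filter (fun e => Sm M e ∧ e ≠ 1), ue M e =
        ∑ e ∈ s.filter (fun e => Sm M e ∧ e ≠ 1), (1 : ℝ) / (nm e : ℝ) ^ 2 := by
      refine Finset.sum_congr rfl fun e he => ?_
      rw [Finset.mem_filter] at he
      have n1 : (0 : ℝ) < nm e := by exact_mod_cast nm_pos.mpr he.2.1.ne_zero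
      unfold ue
      rw [if_pos he.2.1, Real.rpow_neg n1.le, one_div]
      norm_num
    rw [h4]
    refine sum_inv_nm_sq_le _ P₀ ?_ ?_
    · intro e he
      rw [Finset.mem_filter] at he
      exact he.2.1.1
    · intro e he
      rw [Finset.mem_filter] at he
      exact nm_gt_of_sm hM he.2.1 he.2.2
  · rw [Finset.disjoint_singleton_left, Finset.mem_filter]
    rintro ⟨_, _, h⟩
    exact h rfl

open Classical in
lemma dom_eG {M : Eis} {ξ a : Eis → ℂ} (hξ : ∀ e, ‖ξ e‖ ≤ 1) (hξ1 : ξ 1 = 1)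
    (ha : Summable (va M a)) (hM : ∀ p : Eis, Prime p → nm p ≤ 1200 → p ∣ M) (ha1 : a 1 ≠ 0)
    (ht : ∑' D : Eis, (if Sm M D ∧ D ≠ 1 then ‖a D‖ else 0) * (nm D : ℝ) ^ (-(5 / 6) : ℝ) ≤
      1 / 4 * ‖a 1‖) : Dom (eG M ξ a) := by
  unfold Dom
  rw [eG_one hξ1]
  have hs := hasSum_FB (summable_prod ha) (fun p hp => fb_zero M a p hp)
  have hA : 0 < ‖a 1‖ := norm_pos_iff.mpr ha1
  have hfb1 : ∑ p ∈ FB M 1, ue M p.1 * va M a p.2 = ‖a 1‖ := by
    rw [FB_one, Finset.sum_singleton]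
    unfold ue va
    rw [if_pos (Sm.one M), if_pos (Sm.one M)]
    simp
  -- the sum over `D ≠ 1`
  have h1 : Summable (fun D : Eis => if D = 1 then 0 else ∑ p ∈ FB M D, ue M p.1 * va M a p.2) := by
    refine Summable.of_nonneg_of_le (fun D => ?_) (fun D => ?_) hs.summable
    · split_ifs
      · exact le_rfl
      · exact Finset.sum_nonneg fun p _ => mul_nonneg (ue_nonneg _ _) (va_nonneg _ _ _)
    · split_ifs
      · exact Finset.sum_nonneg fun p _ => mul_nonneg (ue_nonneg _ _) (va_nonneg _ _ _)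
      · exact le_rfl
  have h2 : ∑' b, ‖ip (fun b => if b = 1 then 0 else eG M ξ a b) b‖ *
      (nm b : ℝ) ^ (-(5 / 6) : ℝ) ≤
      ∑' D : Eis, (if D = 1 then 0 else ∑ p ∈ FB M D, ue M p.1 * va M a p.2) := by
    have hle : ∀ D : Eis, ‖ip (fun b => if b = 1 then 0 else eG M ξ a b) D‖ *
        (nm D : ℝ) ^ (-(5 / 6) : ℝ) ≤
        (if D = 1 then 0 else ∑ p ∈ FB M D, ue M p.1 * va M a p.2) := by
      intro D
      by_cases hD1 : D = 1
      · rw [if_pos hD1, hD1, ip_of isPrim_one, if_pos rfl, norm_zero, zero_mul]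
      · rw [if_neg hD1]
        by_cases hD : IsPrim D
        · rw [ip_of hD, if_neg hD1]
          exact norm_eG_le hξ D
        · rw [ip_of_not hD, norm_zero, zero_mul]
          exact Finset.sum_nonneg fun p _ => mul_nonneg (ue_nonneg _ _) (va_nonneg _ _ _)
    exact (Summable.of_nonneg_of_le (fun D => by positivity) hle h1).tsum_le_tsum hle h1
  have h3 : ∑' D : Eis, (if D = 1 then 0 else ∑ p ∈ FB M D, ue M p.1 * va M a p.2) =
      (∑' p : Eis × Eis, ue M p.1 * va M a p.2) - ‖a 1‖ := by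
    rw [← hs.tsum_eq, hs.summable.tsum_eq_add_tsum_ite 1, hfb1]
    ring
  have h4 : ∑' p : Eis × Eis, ue M p.1 * va M a p.2 = (∑' e, ue M e) * ∑' D, va M a D :=
    ((summable_ue M).tsum_mul_tsum ha (summable_prod ha)).symm
  have h5 : ∑' D, va M a D ≤ ‖a 1‖ + 1 / 4 * ‖a 1‖ := by
    rw [ha.tsum_eq_add_tsum_ite 1]
    have h6 : va M a 1 = ‖a 1‖ := by
      unfold va; rw [if_pos (Sm.one M)]; simp
    rw [h6]
    gcongr
    refine le_trans (le_of_eq (tsum_congr fun D => ?_)) ht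
    unfold va
    by_cases hD1 : D = 1
    · rw [if_pos hD1, if_neg (fun h => h.2 hD1), zero_mul]
    · rw [if_neg hD1]
      by_cases hD : Sm M D
      · rw [if_pos hD, if_pos ⟨hD, hD1⟩]
      · rw [if_neg hD, if_neg (fun h => hD h.1)]
  have h6 : ∑' e, ue M e ≤ 5 / 4 := by
    refine (tsum_ue_le hM).trans ?_
    norm_num
  have h7 : 0 ≤ ∑' e, ue M e := tsum_nonneg (ue_nonneg M)
  refine lt_of_le_of_lt (h2.trans (le_of_eq h3)) ?_
  rw [h4]
  have h8 : (∑' e, ue M e) * ∑' D, va M a D ≤ 5 / 4 * (‖a 1‖ + 1 / 4 * ‖a 1‖) :=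
    mul_le_mul h6 h5 (tsum_nonneg (va_nonneg M a)) (by norm_num)
  linarith

/-! ### the identity for `SQ` -/

lemma sw_range {V : ℝ → ℂ} (hV : SW V) : ∃ R : ℝ, 1 ≤ R ∧ ∀ x, V x ≠ 0 → x ≤ R := by
  obtain ⟨R, hR⟩ := hV.cpt.isCompact.bddAbove
  exact ⟨max 1 R, le_max_left _ _, fun x hx => (hR (subset_tsupport V hx)).trans (le_max_right _ _)⟩

open Classical in
lemma sq_eG {M : Eis} {ξ a : Eis → ℂ} {V : ℝ → ℂ} (hV : SW V) (ψ : Eis → ℂ) (l : ℤ) {Q : ℝ}
    (hQ : 0 < Q) :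
    SQ (eG M ξ a) V ψ l Q = ∑' e : Eis, if Sm M e then ξ e * (nm e : ℂ) ^ 3 *
      ∑' D : Eis, (if Sm M D then a D * MV V (Q / ((nm e : ℝ) ^ 6 * nm D)) (tw ψ l) else 0)
      else 0 := by
  obtain ⟨R, hR1, hR⟩ := sw_range hV
  set N : ℕ := ⌊R * Q⌋₊ with hN
  have hRQ : 0 < R * Q := by positivity
  -- `V (n / Q) = 0` for `n > N`
  have hbig : ∀ x : ℝ, V (x / Q) ≠ 0 → x ≤ R * Q := fun x hx => by
    have := hR _ hx
    rwa [div_le_iff₀ hQ] at this
  have hbigN : ∀ n : ℕ, V ((n : ℝ) / Q) ≠ 0 → n ≤ N := fun n hn => Nat.le_floor (hbig _ hn)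
  have one_le : ∀ b : Eis, IsPrim b → 1 ≤ nm b := fun b hb => nm_pos.mpr hb.ne_zero
  -- the left side
  have hL : SQ (eG M ξ a) V ψ l Q = ∑ d ∈ primBall N, ∑ b ∈ primBall N,
      eG M ξ a d * ((muE b : ℂ) * tw ψ l b * V ((nm d * nm b : ℕ) / Q)) := by
    unfold SQ
    rw [tsum_eq_sum (s := primBall N ×ˢ primBall N), Finset.sum_product]
    · refine Finset.sum_congr rfl fun d hd => Finset.sum_congr rfl fun b hb => ?_
      rw [mem_primBall] at hd hb
      unfold ip2 gb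
      rw [if_pos ⟨hd.2, hb.2⟩]
      simp
      ring
    · rintro ⟨d, b⟩ hp
      unfold ip2
      split_ifs with h
      · by_contra hne
        have h1 : V (((nm d * nm b : ℕ) : ℝ) / Q) ≠ 0 := right_ne_zero_of_mul hne
        have h2 := hbigN _ h1
        apply hp
        rw [Finset.mem_product, mem_primBall, mem_primBall]
        have h3 := one_le d h.1
        have h4 := one_le b h.2
        exact ⟨⟨(Nat.le_mul_of_pos_right _ h4).trans h2, h.1⟩,
          (Nat.le_mul_of_pos_left _ h3).trans h2, h.2⟩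
      · rfl
  -- `MV` as a finite sum
  have hMV : ∀ e D : Eis, IsPrim e → IsPrim D →
      MV V (Q / ((nm e : ℝ) ^ 6 * nm D)) (tw ψ l) =
        ∑ b ∈ primBall N, (muE b : ℂ) * tw ψ l b * V ((nm (e ^ 6 * D) * nm b : ℕ) / Q) := by
    intro e D he hD
    have n1 : (0 : ℝ) < nm e := by exact_mod_cast nm_pos.mpr he.ne_zero
    have n2 : (0 : ℝ) < nm D := by exact_mod_cast nm_pos.mpr hD.ne_zero
    have e1 : ∀ b : Eis, (nm b : ℝ) / (Q / ((nm e : ℝ) ^ 6 * nm D)) =
        ((nm (e ^ 6 * D) * nm b : ℕ) : ℝ) / Q := by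
      intro b
      rw [nm_mul, nm_pow]
      push_cast
      field_simp
    unfold MV
    simp only [e1]
    rw [tsum_eq_sum (s := primBall N)]
    · refine Finset.sum_congr rfl fun b hb => ?_
      rw [mem_primBall] at hb
      rw [if_pos hb.2]
    · intro b hb
      split_ifs with h
      · by_contra hne
        have h1 := hbigN _ (right_ne_zero_of_mul hne)
        apply hb
        rw [mem_primBall]
        have h3 : 1 ≤ nm (e ^ 6 * D) :=
          nm_pos.mpr (mul_ne_zero (pow_ne_zero _ he.ne_zero) hD.ne_zero)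
        exact ⟨(Nat.le_mul_of_pos_left _ h3).trans h1, h⟩
      · rfl
  -- the right side
  have hVz : ∀ e D : Eis, IsPrim e → IsPrim D → ¬ (nm (e ^ 6 * D) ≤ N) →
      ∀ b, IsPrim b → V (((nm (e ^ 6 * D) * nm b : ℕ) : ℝ) / Q) = 0 := by
    intro e D he hD hn b hb
    by_contra hne
    have h1 := hbigN _ hne
    exact hn ((Nat.le_mul_of_pos_right _ (one_le b hb)).trans h1)
  have hMV0 : ∀ e D : Eis, IsPrim e → IsPrim D → ¬ (nm (e ^ 6 * D) ≤ N) →
      MV V (Q / ((nm e : ℝ) ^ 6 * nm D)) (tw ψ l) = 0 := by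
    intro e D he hD hn
    rw [hMV e D he hD]
    refine Finset.sum_eq_zero fun b hb => ?_
    rw [mem_primBall] at hb
    rw [hVz e D he hD hn b hb.2, mul_zero]
  have hRt : (∑' e : Eis, if Sm M e then ξ e * (nm e : ℂ) ^ 3 *
      ∑' D : Eis, (if Sm M D then a D * MV V (Q / ((nm e : ℝ) ^ 6 * nm D)) (tw ψ l) else 0)
      else 0) = ∑ e ∈ primBall N, ∑ D ∈ primBall N, (if Sm M e ∧ Sm M D then
        ξ e * (nm e : ℂ) ^ 3 * a D * MV V (Q / ((nm e : ℝ) ^ 6 * nm D)) (tw ψ l) else 0) := by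
    have hin : ∀ e : Eis, Sm M e →
        (∑' D : Eis, (if Sm M D then a D * MV V (Q / ((nm e : ℝ) ^ 6 * nm D)) (tw ψ l) else 0)) =
        ∑ D ∈ primBall N,
          (if Sm M D then a D * MV V (Q / ((nm e : ℝ) ^ 6 * nm D)) (tw ψ l) else 0) := by
      intro e he
      refine tsum_eq_sum fun D hD => ?_
      split_ifs with h
      · rw [hMV0 e D he.1 h.1, mul_zero]
        intro hle
        apply hD
        rw [mem_primBall]
        refine ⟨le_trans ?_ hle, h.1⟩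
        rw [nm_mul]
        exact Nat.le_mul_of_pos_left _ (nm_pos.mpr (pow_ne_zero _ he.ne_zero))
      · rfl
    rw [tsum_eq_sum (s := primBall N)]
    · refine Finset.sum_congr rfl fun e _ => ?_
      by_cases he : Sm M e
      · rw [if_pos he, hin e he, Finset.mul_sum]
        refine Finset.sum_congr rfl fun D _ => ?_
        by_cases hD : Sm M D
        · rw [if_pos hD, if_pos ⟨he, hD⟩]; ring
        · rw [if_neg hD, if_neg (fun h => hD h.2), mul_zero]
      · rw [if_neg he]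
        refine (Finset.sum_eq_zero fun D _ => ?_).symm
        rw [if_neg (fun h => he h.1)]
    · intro e he
      split_ifs with h
      · have : (∑' D : Eis, (if Sm M D then
            a D * MV V (Q / ((nm e : ℝ) ^ 6 * nm D)) (tw ψ l) else 0)) = 0 := by
          refine Eq.trans (tsum_congr (g := fun _ => (0 : ℂ)) fun D => ?_) tsum_zero
          split_ifs with hD
          · rw [hMV0 e D h.1 hD.1, mul_zero]
            intro hle
            apply he
            rw [mem_primBall]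
            refine ⟨le_trans ?_ hle, h.1⟩
            rw [nm_mul, nm_pow]
            have h3 := one_le e h.1
            have h4 := one_le D hD.1
            calc nm e = nm e ^ 1 := (pow_one _).symm
              _ ≤ nm e ^ 6 := Nat.pow_le_pow_right h3 (by norm_num)
              _ ≤ nm e ^ 6 * nm D := Nat.le_mul_of_pos_right _ h4
          · rfl
        rw [this, mul_zero]
      · rfl
  rw [hL, hRt]
  -- expand `eG`
  have hE : ∀ d ∈ primBall N, eG M ξ a d = ∑ e ∈ primBall N, ∑ D ∈ primBall N,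
      (if e ^ 6 * D = d ∧ Sm M e ∧ Sm M D then ξ e * (nm e : ℂ) ^ 3 * a D else 0) := by
    intro d hd
    rw [mem_primBall] at hd
    rw [eG_eq, ← Finset.sum_product', ← Finset.sum_filter]
    refine Finset.sum_congr ?_ fun _ _ => rfl
    ext ⟨e, D⟩
    rw [mem_FB, Finset.mem_filter, Finset.mem_product, mem_primBall, mem_primBall]
    constructor
    · rintro ⟨h1, h2, h3⟩
      refine ⟨⟨⟨?_, h2.1⟩, ?_, h3.1⟩, h1, h2, h3⟩
      · refine le_trans ?_ hd.1
        rw [← h1, nm_mul, nm_pow]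
        calc nm e = nm e ^ 1 := (pow_one _).symm
          _ ≤ nm e ^ 6 := Nat.pow_le_pow_right (one_le e h2.1) (by norm_num)
          _ ≤ nm e ^ 6 * nm D := Nat.le_mul_of_pos_right _ (one_le D h3.1)
      · refine le_trans ?_ hd.1
        rw [← h1, nm_mul]
        exact Nat.le_mul_of_pos_left _ (nm_pos.mpr (pow_ne_zero _ h2.ne_zero))
    · rintro ⟨_, h⟩
      exact h
  calc ∑ d ∈ primBall N, ∑ b ∈ primBall N,
      eG M ξ a d * ((muE b : ℂ) * tw ψ l b * V ((nm d * nm b : ℕ) / Q))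
      = ∑ d ∈ primBall N, ∑ e ∈ primBall N, ∑ D ∈ primBall N,
          (if e ^ 6 * D = d then (if Sm M e ∧ Sm M D then ξ e * (nm e : ℂ) ^ 3 * a D *
            ∑ b ∈ primBall N, (muE b : ℂ) * tw ψ l b * V ((nm d * nm b : ℕ) / Q) else 0)
            else 0) := by
        refine Finset.sum_congr rfl fun d hd => ?_
        rw [← Finset.mul_sum, hE d hd, Finset.sum_mul]
        refine Finset.sum_congr rfl fun e _ => ?_
        rw [Finset.sum_mul]
        refine Finset.sum_congr rfl fun D _ => ?_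
        by_cases h1 : e ^ 6 * D = d
        · by_cases h2 : Sm M e ∧ Sm M D
          · rw [if_pos ⟨h1, h2⟩, if_pos h1, if_pos h2]
          · rw [if_neg (fun h => h2 h.2), if_pos h1, if_neg h2, zero_mul]
        · rw [if_neg (fun h => h1 h.1), if_neg h1, zero_mul]
    _ = ∑ e ∈ primBall N, ∑ D ∈ primBall N, ∑ d ∈ primBall N,
          (if e ^ 6 * D = d then (if Sm M e ∧ Sm M D then ξ e * (nm e : ℂ) ^ 3 * a D *
            ∑ b ∈ primBall N, (muE b : ℂ) * tw ψ l b * V ((nm d * nm b : ℕ) / Q) else 0)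
            else 0) := by
        rw [Finset.sum_comm]
        refine Finset.sum_congr rfl fun e _ => ?_
        rw [Finset.sum_comm]
    _ = ∑ e ∈ primBall N, ∑ D ∈ primBall N, (if Sm M e ∧ Sm M D then
        ξ e * (nm e : ℂ) ^ 3 * a D * MV V (Q / ((nm e : ℝ) ^ 6 * nm D)) (tw ψ l) else 0) := by
        refine Finset.sum_congr rfl fun e _ => Finset.sum_congr rfl fun D _ => ?_
        rw [Finset.sum_ite_eq]
        by_cases h2 : Sm M e ∧ Sm M D
        · rw [if_pos h2]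
          by_cases h3 : e ^ 6 * D ∈ primBall N
          · rw [if_pos h3, if_pos h2, hMV e D h2.1.1 h2.2.1]
          · rw [if_neg h3, if_pos h2, hMV0 e D h2.1.1 h2.2.1, mul_zero]
            intro hle
            apply h3
            rw [mem_primBall]
            exact ⟨hle, (h2.1.1.pow 6).mul h2.2.1⟩
        · rw [if_neg h2, if_neg h2]
          split_ifs <;> rfl

/-- **ReE** -/
theorem reE : ReE := by
  refine ⟨1200, 1 / 4, by norm_num, fun M _ ξ a hξ hξ1 ha => ⟨ac_eG hξ ha, ?_, ?_⟩⟩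
  · intro hM ha1 ht
    exact dom_eG hξ hξ1 ha hM ha1 ht
  · intro V hV ψ l _ Q hQ
    exact sq_eG hV ψ l hQ

end Crest.Agent.R017.ReE571
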