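import Crest.Agent.R017.BL7b_868
import Crest.Agent.R017.BL4_858
import Crest.Agent.R012.LatW_413
import Crest.Agent.R012.SumMod_880

/-!
# Row 17, leaf BL7c: sums over cubes with a coprimality condition
-/

set_option autoImplicit false

noncomputable section

open Complex MeasureTheory
open scoped SchwartzMap FourierTransform ContDiff

namespace Crest.Agent.R017.BL7

open Crest.Agent.R012 Crest.Agent.R012.Eis Crest.Agent.R012.Po581
open Crest.Agent.R012.Mob705 Crest.Agent.R012.Div277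
open Crest.Agent.R017.End699

/-- a bounded periodic weight which is multiplicative along the primary elements prime to the
modulus -/
structure GM (m : Eis) (γ κ : Eis → ℂ) (Γ : ℝ) : Prop where
  m0 : m ≠ 0
  per : PerMod m γ
  bd : ∀ y, ‖γ y‖ ≤ Γ
  mul : ∀ e, IsPrim e → IsCoprime e m → ∀ y, γ (e * y) = κ e * γ y
  kb : ∀ e, ‖κ e‖ ≤ 1
  kmul : ∀ a b, IsPrim a → IsPrim b → κ (a * b) = κ a * κ b

open Classical in
/-- `∑_{y ≠ 0, (y, n) = 1} γ(y) F(z y³)` -/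
def Yn (γ : Eis → ℂ) (F : 𝓢(ℂ, ℂ)) (n : Eis) (z : ℂ) : ℂ :=
  ∑' y : Eis, if y ≠ 0 ∧ IsCoprime y n then γ y * F (z * toC y ^ 3) else 0

/-- `∑_{y ≠ 0} γ(y) F(z y³)` -/
def Y1 (γ : Eis → ℂ) (F : 𝓢(ℂ, ℂ)) (z : ℂ) : ℂ :=
  ∑' y : Eis, if y = 0 then 0 else γ y * F (z * toC y ^ 3)

variable {m n : Eis} {γ κ : Eis → ℂ} {Γ : ℝ}

lemma exists_cube_root (z : ℂ) : ∃ w : ℂ, w ^ 3 = z := by
  obtain ⟨w, hw⟩ := IsAlgClosed.exists_pow_nat_eq z (n := 3) (by norm_num)
  exact ⟨w, hw⟩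

lemma GM.nonneg (g : GM m γ κ Γ) : 0 ≤ Γ := (norm_nonneg _).trans (g.bd 0)

lemma GM.summable (g : GM m γ κ Γ) (F : 𝓢(ℂ, ℂ)) {z : ℂ} (hz : z ≠ 0) :
    Summable (fun y : Eis => γ y * F (z * toC y ^ 3)) := by
  obtain ⟨w, hw⟩ := exists_cube_root z
  have hw0 : w ≠ 0 := by
    rintro rfl
    exact hz (by rw [← hw]; norm_num)
  have h1 := summable_mul_bdd g.bd (summable_schwartz_one (dil w hw0 (cubeS F)))
  refine h1.congr fun y => ?_
  rw [dil_apply, cubeS_apply, mul_pow, hw]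

lemma GM.summable_ite (g : GM m γ κ Γ) (F : 𝓢(ℂ, ℂ)) {z : ℂ} (hz : z ≠ 0) (P : Eis → Prop)
    [DecidablePred P] :
    Summable (fun y : Eis => if P y then γ y * F (z * toC y ^ 3) else 0) := by
  refine Summable.of_norm_bounded (g.summable F hz).norm fun y => ?_
  split_ifs
  · exact le_rfl
  · rw [norm_zero]; positivity

/-- Möbius inversion for the coprimality condition -/
theorem Yn_eq (g : GM m γ κ Γ) (F : 𝓢(ℂ, ℂ)) (hn : IsPrim n) (hnm : IsCoprime n m) {z : ℂ}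
    (hz : z ≠ 0) :
    Yn γ F n z = ∑ e ∈ dvs n, (muE e : ℂ) * (κ e * Y1 γ F (z * toC e ^ 3)) := by
  classical
  have e1 : ∀ y : Eis, (if y ≠ 0 ∧ IsCoprime y n then γ y * F (z * toC y ^ 3) else 0) =
      ∑ e ∈ dvs n, (muE e : ℂ) * (if y ≠ 0 ∧ e ∣ y then γ y * F (z * toC y ^ 3) else 0) := by
    intro y
    by_cases hy : y = 0
    · rw [if_neg (by simp [hy])]
      symm
      apply Finset.sum_eq_zero
      intro e _
      rw [if_neg (by simp [hy]), mul_zero]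
    · have h := congrArg (fun z : ℤ => (z : ℂ)) (sum_muE_coprime hn hy)
      beta_reduce at h
      have e2 : ∑ d ∈ dvs y, (if d ∣ n then muE d else 0) =
          ∑ d ∈ dvs n, (if d ∣ y then muE d else 0) := by
        rw [← Finset.sum_filter, ← Finset.sum_filter]
        congr 1
        ext d
        simp only [Finset.mem_filter, mem_dvs hy, mem_dvs hn.ne_zero]
        tauto
      rw [e2] at h
      push_cast at h
      have e3 : (if y ≠ 0 ∧ IsCoprime y n then γ y * F (z * toC y ^ 3) else 0) =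
          (if IsCoprime n y then (1 : ℂ) else 0) * (γ y * F (z * toC y ^ 3)) := by
        rw [isCoprime_comm]
        by_cases hc : IsCoprime n y
        · rw [if_pos ⟨hy, hc⟩, if_pos hc, one_mul]
        · rw [if_neg (fun h => hc h.2), if_neg hc, zero_mul]
      rw [e3, ← h, Finset.sum_mul]
      refine Finset.sum_congr rfl fun d _ => ?_
      by_cases hd : d ∣ y
      · rw [if_pos hd, if_pos ⟨hy, hd⟩]
      · rw [if_neg hd, if_neg (fun h => hd h.2)]
        simp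
  unfold Yn
  rw [tsum_congr e1, Summable.tsum_finsetSum]
  · refine Finset.sum_congr rfl fun e he => ?_
    have hep := isPrim_of_mem_dvs he
    have hed := dvd_of_mem_dvs he
    have hem : IsCoprime e m := hnm.of_isCoprime_of_dvd_left hed
    rw [tsum_mul_left]
    congr 1
    rw [BL4858.tsum_dvd hep.ne_zero (F := fun y => if y ≠ 0 ∧ e ∣ y then
      γ y * F (z * toC y ^ 3) else 0) (fun x hx => if_neg fun h => hx h.2)]
    unfold Y1
    rw [← tsum_mul_left]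
    refine tsum_congr fun y => ?_
    by_cases hy : y = 0
    · rw [if_neg (by simp [hy]), if_pos hy, mul_zero]
    · rw [if_pos ⟨mul_ne_zero hep.ne_zero hy, dvd_mul_right _ _⟩, if_neg hy, g.mul e hep hem,
        map_mul toC]
      rw [show z * (toC e * toC y) ^ 3 = z * toC e ^ 3 * toC y ^ 3 by ring]
      ring
  · intro e _
    exact (g.summable_ite F hz _).mul_left _

/-- the constant of the main term -/
def c0 (m : Eis) (γ : Eis → ℂ) (F : 𝓢(ℂ, ℂ)) : ℂ :=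
  ((2 / (Real.sqrt 3 * nm m) : ℝ) : ℂ) * (sumMod m γ * I3 F)

lemma GM.kappa_sum (g : GM m γ κ Γ) {e : Eis} (he : IsPrim e) (hem : IsCoprime e m) :
    κ e * sumMod m γ = sumMod m γ := by
  have hper : SumMod880.Per m γ := by
    intro x y hxy
    obtain ⟨t, ht⟩ := hxy
    have h := g.per y t
    rw [← h]
    congr 1
    linear_combination ht
  have h1 := SumMod880.sumMod_comp_mul g.m0 hper (u := e) hem
  calc κ e * sumMod m γ = sumMod m (fun x => κ e * γ x) :=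
        (SumMod880.sumMod_const_mul g.m0 _ _).symm
    _ = sumMod m (fun x => γ (e * x)) :=
        SumMod880.sumMod_congr' fun x => (g.mul e he hem x).symm
    _ = sumMod m γ := h1

/-- the sum over cubes without coprimality condition -/
theorem Y1_asymp (F : 𝓢(ℂ, ℂ)) {B : ℕ} (hB : 3 ≤ B) :
    ∃ C : ℝ, 0 ≤ C ∧ ∀ (m : Eis) (γ κ : Eis → ℂ) (Γ : ℝ), GM m γ κ Γ → ∀ z : ℂ, z ≠ 0 →
      ‖Y1 γ F z - ((‖z‖ ^ (-(2 / 3 : ℝ)) : ℝ) : ℂ) * c0 m γ F + γ 0 * F 0‖ ≤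
        C * Γ * ‖z‖ ^ (-(2 / 3 : ℝ)) * (‖toC m‖ * ‖z‖ ^ (1 / 3 : ℝ)) ^ B := by
  obtain ⟨C, hC0, hC⟩ := cube_sum_ne F hB
  refine ⟨C, hC0, fun m γ κ Γ g z hz => ?_⟩
  obtain ⟨w, hw⟩ := exists_cube_root z
  have hw0 : w ≠ 0 := by
    rintro rfl
    exact hz (by rw [← hw]; norm_num)
  have hwp : 0 < ‖w‖ := norm_pos_iff.mpr hw0
  have h := hC m g.m0 γ g.per Γ g.bd w hw0
  rw [hw] at h
  have e1 : ‖z‖ ^ (1 / 3 : ℝ) = ‖w‖ := by
    rw [← hw, norm_pow, ← Real.rpow_natCast, ← Real.rpow_mul hwp.le]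
    norm_num
  have e2 : ‖z‖ ^ (-(2 / 3 : ℝ)) = (‖w‖ ^ 2)⁻¹ := by
    rw [← hw, norm_pow, ← Real.rpow_natCast, ← Real.rpow_mul hwp.le,
      show ((3 : ℕ) : ℝ) * -(2 / 3) = -2 by norm_num, Real.rpow_neg hwp.le]
    norm_num
  rw [e1, e2]
  have e3 : (((‖w‖ ^ 2)⁻¹ : ℝ) : ℂ) * c0 m γ F =
      ((2 / (Real.sqrt 3 * nm m) * (‖w‖ ^ 2)⁻¹ : ℝ) : ℂ) * (sumMod m γ * I3 F) := by
    unfold c0
    push_cast
    ring
  rw [e3]
  exact h

/-! ### reorganisation of the double sums -/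

lemma eq_of_dvd_dvd {a b : Eis} (ha : IsPrim a) (hb : IsPrim b) (h1 : a ∣ b) (h2 : b ∣ a) :
    a = b := ha.eq_of_associated hb (associated_of_dvd_dvd h1 h2)

lemma sum_dvs_mul {A : Type*} [AddCommMonoid A] {b c : Eis} (hb : b ≠ 0) (hc : c ≠ 0)
    (h : IsCoprime b c) (F : Eis → A) :
    ∑ e ∈ dvs (b * c), F e = ∑ e₂ ∈ dvs c, ∑ e₁ ∈ dvs b, F (e₁ * e₂) := by
  classical
  rw [Finset.sum_comm, ← Finset.sum_product']
  symm
  refine Finset.sum_nbij (fun p => p.1 * p.2) ?_ ?_ ?_ (fun _ _ => rfl)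
  · intro p hp
    rw [Finset.mem_product, mem_dvs hb, mem_dvs hc] at hp
    rw [mem_dvs (mul_ne_zero hb hc)]
    exact ⟨hp.1.1.mul hp.2.1, mul_dvd_mul hp.1.2 hp.2.2⟩
  · intro p hp p' hp' heq
    rw [Finset.mem_coe, Finset.mem_product, mem_dvs hb, mem_dvs hc] at hp hp'
    simp only at heq
    have c1 : IsCoprime p.1 p'.2 :=
      (h.of_isCoprime_of_dvd_left hp.1.2).of_isCoprime_of_dvd_right hp'.2.2
    have c2 : IsCoprime p'.1 p.2 :=
      (h.of_isCoprime_of_dvd_left hp'.1.2).of_isCoprime_of_dvd_right hp.2.2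
    have d1 : p.1 ∣ p'.1 := c1.dvd_of_dvd_mul_right (heq ▸ dvd_mul_right _ _)
    have d2 : p'.1 ∣ p.1 := c2.dvd_of_dvd_mul_right (heq ▸ dvd_mul_right _ _)
    have e1 : p.1 = p'.1 := eq_of_dvd_dvd hp.1.1 hp'.1.1 d1 d2
    have e2 : p.2 = p'.2 := by
      rw [e1] at heq
      exact mul_left_cancel₀ hp'.1.1.ne_zero heq
    exact Prod.ext e1 e2
  · intro d hd
    rw [Finset.mem_coe, mem_dvs (mul_ne_zero hb hc)] at hd
    obtain ⟨x, y, hx, hy, hxb, hyc, rfl⟩ := exists_prim_factor hd.1 hd.2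
    exact ⟨(x, y), by
      rw [Finset.mem_coe, Finset.mem_product, mem_dvs hb, mem_dvs hc]
      exact ⟨⟨hx, hxb⟩, ⟨hy, hyc⟩⟩, rfl⟩

lemma tw_eq_zero {q : Eis} {χ : Eis → ℂ} (h : HC q χ) (l : ℤ) {b : Eis} (hb : IsPrim b)
    (hbq : ¬ IsCoprime b q) : tw χ l b = 0 := by
  unfold tw
  rw [h.van b hb hbq, zero_mul]

/-- the character with the extra condition `(b, e) = 1` -/
def chi1 (q e : Eis) (χ : Eis → ℂ) (b : Eis) : ℂ := χ b * prin0 (q * e) b

lemma hc_chi1 {q e : Eis} {χ : Eis → ℂ} (h : HC q χ) (he : e ≠ 0) : HC (q * e) (chi1 q e χ) :=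
  h.changeMod (mul_ne_zero h.q0 he) (dvd_mul_right _ _)

lemma muE_tw_mul {q : Eis} {χ : Eis → ℂ} (h : HC q χ) (l : ℤ) {e b : Eis} (he : IsPrim e)
    (hb : IsPrim b) :
    (muE (e * b) : ℂ) * tw χ l (e * b) =
      ((muE e : ℂ) * tw χ l e) * ((muE b : ℂ) * tw (chi1 q e χ) l b) := by
  have h1 : tw χ l (e * b) = tw χ l e * tw χ l b := (h.isChar_tw l).mul e b he hb
  rw [h1]
  by_cases hc : IsCoprime e b
  · rw [muE_mul he.ne_zero hb.ne_zero hc]
    have h2 : tw (chi1 q e χ) l b = tw χ l b := by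
      unfold tw chi1 prin0
      by_cases hbq : IsCoprime b q
      · rw [if_pos (hbq.mul_right hc.symm), mul_one]
      · rw [h.van b hb hbq]; ring
    rw [h2]
    push_cast
    ring
  · rw [muE_mul_of_not_coprime hc]
    have h2 : tw (chi1 q e χ) l b = 0 := by
      unfold tw chi1 prin0
      rw [if_neg (fun h => hc (IsCoprime.of_mul_right_right h).symm)]
      ring
    rw [h2]
    simp

theorem reorg {q c : Eis} {χ κ : Eis → ℂ} (hχ : HC q χ) (hc : IsPrim c) (hcq : c ∣ q)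
    (hκ : ∀ a b, IsPrim a → IsPrim b → κ (a * b) = κ a * κ b) (l : ℤ) (N : ℕ) (P : ℕ → Prop)
    [DecidablePred P] (W : Eis → Eis → ℂ) :
    ∑ b ∈ primBall N, (muE b : ℂ) * tw χ l b *
      ∑ e ∈ dvs (b * c), (if P (nm e) then (muE e : ℂ) * (κ e * W b e) else 0) =
    ∑ e₂ ∈ dvs c, ∑ e₁ ∈ primBall N, if P (nm e₁ * nm e₂) then
      ((muE e₂ : ℂ) * κ e₂) * ((muE e₁ : ℂ) * κ e₁ * ((muE e₁ : ℂ) * tw χ l e₁)) *
        ∑ b ∈ primBall (N / nm e₁), (muE b : ℂ) * tw (chi1 q e₁ χ) l b *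
          W (e₁ * b) (e₁ * e₂) else 0 := by
  have e1 : ∀ b ∈ primBall N, (muE b : ℂ) * tw χ l b *
      ∑ e ∈ dvs (b * c), (if P (nm e) then (muE e : ℂ) * (κ e * W b e) else 0) =
      ∑ e₂ ∈ dvs c, ∑ e₁ ∈ dvs b, (muE b : ℂ) * tw χ l b *
        (if P (nm e₁ * nm e₂) then
          (muE (e₁ * e₂) : ℂ) * (κ (e₁ * e₂) * W b (e₁ * e₂)) else 0) := by
    intro b hb
    have hbp := (mem_primBall.mp hb).2
    by_cases hbq : IsCoprime b q
    · have hbc : IsCoprime b c := hbq.of_isCoprime_of_dvd_right hcq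
      rw [sum_dvs_mul hbp.ne_zero hc.ne_zero hbc, Finset.mul_sum]
      refine Finset.sum_congr rfl fun e₂ _ => ?_
      rw [Finset.mul_sum]
      refine Finset.sum_congr rfl fun e₁ _ => ?_
      rw [nm_mul]
    · simp only [tw_eq_zero hχ l hbp hbq, mul_zero, zero_mul, Finset.sum_const_zero]
  rw [Finset.sum_congr rfl e1, Finset.sum_comm]
  refine Finset.sum_congr rfl fun e₂ he₂ => ?_
  rw [sum_primBall_dvs N (fun e₁ b => (muE b : ℂ) * tw χ l b *
        (if P (nm e₁ * nm e₂) then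
          (muE (e₁ * e₂) : ℂ) * (κ (e₁ * e₂) * W b (e₁ * e₂)) else 0))]
  refine Finset.sum_congr rfl fun e₁ he₁ => ?_
  have hp1 := (mem_primBall.mp he₁).2
  have hp2 := isPrim_of_mem_dvs he₂
  have hd2 := dvd_of_mem_dvs he₂
  by_cases hP : P (nm e₁ * nm e₂)
  · simp only [if_pos hP]
    rw [Finset.mul_sum]
    refine Finset.sum_congr rfl fun b hb => ?_
    have hbp := (mem_primBall.mp hb).2
    rw [muE_tw_mul hχ l hp1 hbp, hκ e₁ e₂ hp1 hp2]
    by_cases h1q : IsCoprime e₁ q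
    · have h12 : IsCoprime e₁ e₂ := h1q.of_isCoprime_of_dvd_right (hd2.trans hcq)
      rw [muE_mul hp1.ne_zero hp2.ne_zero h12]
      push_cast
      ring
    · rw [tw_eq_zero hχ l hp1 h1q]
      ring
  · simp only [if_neg hP, mul_zero, Finset.sum_const_zero]

/-- the case `c = 1` -/
theorem reorg1 {q : Eis} {χ κ : Eis → ℂ} (hχ : HC q χ)
    (hκ : ∀ a b, IsPrim a → IsPrim b → κ (a * b) = κ a * κ b) (h1 : κ 1 = 1) (l : ℤ) (N : ℕ)
    (P : ℕ → Prop) [DecidablePred P] (W : Eis → Eis → ℂ) :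
    ∑ b ∈ primBall N, (muE b : ℂ) * tw χ l b *
      ∑ e ∈ dvs b, (if P (nm e) then (muE e : ℂ) * (κ e * W b e) else 0) =
    ∑ e ∈ primBall N, if P (nm e) then
      ((muE e : ℂ) * κ e * ((muE e : ℂ) * tw χ l e)) *
        ∑ b ∈ primBall (N / nm e), (muE b : ℂ) * tw (chi1 q e χ) l b * W (e * b) e else 0 := by
  have key := reorg hχ isPrim_one (one_dvd _) hκ l N P W
  simp only [mul_one] at key
  have hd1 : dvs (1 : Eis) = {1} := by
    ext d
    rw [mem_dvs one_ne_zero, Finset.mem_singleton]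
    constructor
    · rintro ⟨h1, h2⟩
      exact isPrim_eq_one_of_isUnit h1 (isUnit_of_dvd_one h2)
    · rintro rfl
      exact ⟨isPrim_one, one_dvd _⟩
  rw [key, hd1, Finset.sum_singleton]
  refine Finset.sum_congr rfl fun e _ => ?_
  simp only [nm_one, mul_one, h1, muE_one, Int.cast_one, one_mul]

end Crest.Agent.R017.BL7
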