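import Crest.Agent.R017.BL5defs_868
import Crest.Agent.R017.BL7c_868
import Crest.Agent.R017.Eul_571

/-!
# Row 17, leaf L5 (a): the divisor sums `El l D` of `b ↦ tk (l³) b 1`
-/

set_option autoImplicit false

noncomputable section

open MeasureTheory Complex Set
open scoped ComplexConjugate ContDiff

namespace Crest.Agent.R017.L5

open Crest.Agent.R012 Crest.Agent.R012.Eis Crest.Agent.R012.Mob705 Crest.Agent.R012.Div277
open Crest.Agent.R017.End699 Crest.Agent.R017.Sx545 Crest.Agent.R017.B770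

lemma sE_pos {j : ℕ} (hj : 2 ≤ j) : 1 ≤ sE j := by
  unfold sE
  split_ifs with h <;> omega

/-- the primary divisors of a prime power -/
lemma dvs_pow {p : Eis} (hp : IsPP p) (j : ℕ) :
    dvs (p ^ j) = (Finset.range (j + 1)).image (fun i => p ^ i) := by
  classical
  ext d
  rw [mem_dvs (pow_ne_zero _ hp.ne_zero), Finset.mem_image]
  constructor
  · rintro ⟨h1, h2⟩
    obtain ⟨i, hi, ha⟩ := (dvd_prime_pow hp.prime j).mp h2
    exact ⟨i, Finset.mem_range.mpr (by omega),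
      (h1.eq_of_associated (hp.isPrim.pow i) ha).symm⟩
  · rintro ⟨i, hi, rfl⟩
    rw [Finset.mem_range] at hi
    exact ⟨hp.isPrim.pow i, pow_dvd_pow p (by omega)⟩

lemma pow_inj {p : Eis} (hp : IsPP p) : Function.Injective (fun i : ℕ => p ^ i) := by
  intro i j hij
  have h1 := congrArg nm hij
  simp only [nm_pow] at h1
  exact Nat.pow_right_injective (by have := hp.one_lt_nm; omega) h1

lemma sum_dvs_pow {A : Type*} [AddCommMonoid A] {p : Eis} (hp : IsPP p) (j : ℕ) (F : Eis → A) :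
    ∑ b ∈ dvs (p ^ j), F b = ∑ i ∈ Finset.range (j + 1), F (p ^ i) := by
  classical
  rw [dvs_pow hp, Finset.sum_image fun x _ y _ h => pow_inj hp h]

section

variable (hT : TkAlg)
include hT

lemma tk_mul1 (k : Eis) {b₁ b₂ : Eis} (h1 : Sm 2 b₁) (h2 : Sm 2 b₂) (h : IsCoprime b₁ b₂) :
    tk k (b₁ * b₂) 1 = tk k b₁ 1 * tk k b₂ 1 := by
  have := hT.mul k b₁ b₂ 1 1 h1 h2 (Sm.one 2) (Sm.one 2) (by simpa using h)
  simpa using this

theorem El_mul (l : Eis) {D₁ D₂ : Eis} (h1 : Sm 2 D₁) (h2 : Sm 2 D₂) (h : IsCoprime D₁ D₂) :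
    El l (D₁ * D₂) = El l D₁ * El l D₂ := by
  unfold El
  rw [BL7.sum_dvs_mul h1.ne_zero h2.ne_zero h, Finset.sum_mul_sum, Finset.sum_comm]
  refine Finset.sum_congr rfl fun e₁ he₁ => Finset.sum_congr rfl fun e₂ he₂ => ?_
  have d1 := dvd_of_mem_dvs he₁
  have d2 := dvd_of_mem_dvs he₂
  exact tk_mul1 hT _ (h1.of_dvd (isPrim_of_mem_dvs he₁) d1) (h2.of_dvd (isPrim_of_mem_dvs he₂) d2)
    ((h.of_isCoprime_of_dvd_left d1).of_isCoprime_of_dvd_right d2)

lemma El_one (l : Eis) : El l 1 = 1 := by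
  have hd1 : dvs (1 : Eis) = {1} := by
    ext d
    rw [mem_dvs one_ne_zero, Finset.mem_singleton]
    constructor
    · rintro ⟨h1, h2⟩
      exact isPrim_eq_one_of_isUnit h1 (isUnit_of_dvd_one h2)
    · rintro rfl
      exact ⟨isPrim_one, one_dvd _⟩
  unfold El
  rw [hd1, Finset.sum_singleton, hT.one]

/-- values at prime powers -/
lemma tk_pow_of_not (l : Eis) {p : Eis} (hp : Sm 2 p) (hpp : Prime p) (hpl : ¬ p ∣ l) {j : ℕ}
    (hj : 2 ≤ j) : tk (l ^ 3) (p ^ j) 1 = 0 := by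
  refine hT.pow1 _ p j hp hpp hj fun h => hpl ?_
  have h1 : p ∣ l ^ 3 := (dvd_pow_self p (by have := sE_pos hj; omega)).trans h
  exact hpp.dvd_of_dvd_pow h1

/-- divisor sums at prime powers, `p ∤ l` -/
lemma El_pow_of_not (l : Eis) {p : Eis} (hp : Sm 2 p) (hpp : Prime p) (hpl : ¬ p ∣ l) {j : ℕ}
    (hj : 1 ≤ j) : El l (p ^ j) = 0 := by
  have hPP : IsPP p := ⟨hp.prim, hpp⟩
  unfold El
  rw [sum_dvs_pow hPP]
  obtain ⟨n, rfl⟩ : ∃ n, j = n + 1 := ⟨j - 1, by omega⟩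
  rw [Finset.sum_range_succ', Finset.sum_range_succ']
  have h0 : ∑ i ∈ Finset.range n, tk (l ^ 3) (p ^ (i + 1 + 1)) 1 = 0 :=
    Finset.sum_eq_zero fun i _ => tk_pow_of_not hT l hp hpp hpl (by omega)
  have hcop : IsCoprime l p := ((hPP.isCoprime_iff).mpr hpl).symm
  rw [h0, pow_zero, hT.one, zero_add, pow_one, hT.b1 _ _ hp hpp.irreducible.squarefree,
    muE_prime hpp, sy_cube_left hp.prim hcop]
  norm_num

/-- `El l D ≠ 0` only if every prime factor of `D` divides `l` -/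
theorem El_eq_zero (l : Eis) {D p : Eis} (hD : Sm 2 D) (hp : Sm 2 p) (hpp : Prime p)
    (hpD : p ∣ D) (hpl : ¬ p ∣ l) : El l D = 0 := by
  obtain ⟨k, b, rfl, hpb, hb⟩ := Res.exists_split hp hpp hD
  have hk : 1 ≤ k := by
    by_contra h
    have : k = 0 := by omega
    subst this
    exact hpb (by simpa using hpD)
  have hcop : IsCoprime (p ^ k) b :=
    (hpp.irreducible.coprime_iff_not_dvd.mpr hpb).pow_left
  rw [El_mul hT l (hp.pow k) hb hcop, El_pow_of_not hT l hp hpp hpl hk, zero_mul]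

omit hT in
lemma sE_le {j : ℕ} (hj : 2 ≤ j) (h : j % 4 = 1 ∨ j % 6 = 0) : 24 * sE j + 12 ≤ 19 * j := by
  unfold sE
  split_ifs with h1 <;> omega

lemma norm_tk_pow_le (l : Eis) {p : Eis} (hp : Sm 2 p) (hpp : Prime p) (j : ℕ) :
    ‖tk (l ^ 3) (p ^ j) 1‖ ≤ (nm (p ^ j) : ℝ) ^ (19 / 24 : ℝ) := by
  have hq : (1 : ℝ) ≤ nm p := by exact_mod_cast nm_pos.mpr hp.ne_zero
  have hq0 : (0 : ℝ) < nm p := by linarith
  have hR : (nm (p ^ j) : ℝ) ^ (19 / 24 : ℝ) = (nm p : ℝ) ^ (19 / 24 * j : ℝ) := by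
    rw [nm_pow, Nat.cast_pow, ← Real.rpow_natCast, ← Real.rpow_mul hq0.le]
    congr 1; ring
  rw [hR]
  have hpos : 1 ≤ (nm p : ℝ) ^ (19 / 24 * j : ℝ) := Real.one_le_rpow hq (by positivity)
  rcases Nat.lt_or_ge j 2 with hj | hj
  · interval_cases j
    · rw [pow_zero, hT.one, norm_one]; exact hpos
    · rw [pow_one, hT.b1 _ _ hp hpp.irreducible.squarefree, muE_prime hpp, norm_mul]
      refine le_trans ?_ hpos
      have h1 : ‖sy (l ^ 3) p‖ ≤ 1 := (Gauss880.isCh_sy Gauss880.syG hp.prim).norm_le_one hp.ne_zero (l ^ 3)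
      simpa using h1
  · by_cases h4 : j % 4 = 1 ∨ j % 6 = 0
    · refine (hT.pow2 _ p j hp hpp hj).trans (Real.rpow_le_rpow_of_exponent_le hq ?_)
      have := sE_le hj h4
      have h5 : (24 * (sE j : ℝ) + 12) ≤ 19 * j := by exact_mod_cast this
      linarith
    · push Not at h4
      rw [hT.pow0 _ p j hp hpp hj h4.1 h4.2, norm_zero]
      linarith

theorem norm_tk_le (l : Eis) {b : Eis} (hb : Sm 2 b) :
    ‖tk (l ^ 3) b 1‖ ≤ (nm b : ℝ) ^ (19 / 24 : ℝ) := by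
  refine Sm.induction_coprime (m := 2)
    (P := fun b => ‖tk (l ^ 3) b 1‖ ≤ (nm b : ℝ) ^ (19 / 24 : ℝ)) ?_ ?_ b hb
  · rw [hT.one, nm_one]; simp
  · intro p k b hp hpp hk hb hpb ih
    have hcop : IsCoprime (p ^ k) b :=
      (hpp.irreducible.coprime_iff_not_dvd.mpr hpb).pow_left
    rw [tk_mul1 hT _ (hp.pow k) hb hcop, norm_mul, nm_mul, Nat.cast_mul,
      Real.mul_rpow (Nat.cast_nonneg _) (Nat.cast_nonneg _)]
    exact mul_le_mul (norm_tk_pow_le hT l hp hpp k) ih (norm_nonneg _) (by positivity)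

theorem norm_El_le (l : Eis) {D : Eis} (hD : Sm 2 D) :
    ‖El l D‖ ≤ tau D * (nm D : ℝ) ^ (19 / 24 : ℝ) := by
  unfold El
  refine (norm_sum_le _ _).trans ?_
  have h1 : ∀ b ∈ dvs D, ‖tk (l ^ 3) b 1‖ ≤ (nm D : ℝ) ^ (19 / 24 : ℝ) := by
    intro b hb
    have hd := dvd_of_mem_dvs hb
    refine (norm_tk_le hT l (hD.of_dvd (isPrim_of_mem_dvs hb) hd)).trans ?_
    have : (nm b : ℝ) ≤ nm D := by exact_mod_cast nm_le_of_dvd hD.ne_zero hd
    gcongr
  refine (Finset.sum_le_sum h1).trans (le_of_eq ?_)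
  rw [Finset.sum_const, nsmul_eq_mul]
  rfl

end

/-! ### periodicity -/

lemma tk_periodic (k t : Eis) {b : Eis} (hb : b ≠ 0) : tk (k + b * t) b 1 = tk k b 1 := by
  unfold tk
  congr 1
  apply SumMod880.sumMod_congr'
  intro a
  congr 1
  have hb' := Po581.toC_ne_zero hb
  have e1 : -(toC a * toC (k + b * t) / (toC b * toC 1)) =
      -(toC a * toC k / (toC b * toC 1)) + toC (-(a * t)) := by
    rw [map_add, map_mul, map_neg, map_mul, map_one]
    field_simp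
    ring
  rw [e1, SumMod880.eC_add_toC]

lemma El_periodic {D : Eis} (l t : Eis) : El (l + D * t) D = El l D := by
  unfold El
  refine Finset.sum_congr rfl fun b hb => ?_
  obtain ⟨d, hd⟩ := dvd_of_mem_dvs hb
  have hb0 := (isPrim_of_mem_dvs hb).ne_zero
  have h1 : (l + D * t) ^ 3 = l ^ 3 + b * (d * t * (3 * l ^ 2 + 3 * l * (D * t) + (D * t) ^ 2)) := by
    rw [hd]; ring
  rw [h1, tk_periodic _ _ hb0]

lemma perMod_gam {m₀ D : Eis} : Po581.PerMod (m₀ * D) (gam m₀ D) := by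
  intro x y
  unfold gam
  have h1 : x + m₀ * D * y = x + D * (m₀ * y) := by ring
  have h2 : IsCoprime (x + m₀ * D * y) m₀ ↔ IsCoprime x m₀ := by
    rw [show x + m₀ * D * y = x + m₀ * (D * y) by ring]
    exact IsCoprime.add_mul_left_left_iff
  by_cases h : IsCoprime x m₀
  · rw [if_pos h, if_pos (h2.mpr h), h1, El_periodic]
  · rw [if_neg h, if_neg (fun h' => h (h2.mp h'))]

end Crest.Agent.R017.L5
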