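import Crest.Agent.R017.NSDefs_986

/-!
# Row 17, section B, leaf L3b, part 1: D-OUT for real parameters and small `Q`
-/

set_option autoImplicit false

noncomputable section

open scoped ComplexConjugate ContDiff

namespace Crest.Agent.R017.Asm986

open Crest.Agent.R012 Crest.Agent.R012.Eis Crest.Agent.R012.PSer47
open Crest.Agent.R017.End699 Crest.Agent.R017.Sx545 Crest.Agent.R017.B770

/-- the inner statement of D-OUT -/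
def DOUTi (θ : ℝ) (r : ℕ) (y η : ℝ) : Prop := by
  classical
  exact ∀ h : ℝ → ℂ, HW h → ∀ V : ℝ → ℂ, SW V → ∀ l₁ l₂ : ℤ, ∀ ε : ℝ, 0 < ε → ∃ C A : ℝ, 0 ≤ C ∧
    ∀ (n₁ n₂ : Eis) (φ ψ : Eis → ℂ), HC n₁ φ → HC n₂ ψ →
    ∀ (Q₀ Q : ℝ), 1 ≤ Q → Q ≤ Q₀ → ∀ (J : Finset (Fin r)) (H : ℕ), 1 ≤ H →
      (H : ℝ) ≤ Q₀ ^ (1 / 2 + y + η) → ∀ t₁ t₂ : ℝ,
      ∑ k ∈ (ball H).filter (fun k => k ≠ 0 ∧ NPk n₁ φ l₁ k),
        ‖Amp h r y Q₀ J (fun p => twt φ l₁ t₁ p * conj (sy k p))‖ *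
          ‖MV V Q (fun b => twt ψ l₂ t₂ b * sy k b)‖ ≤
        C * ((nm n₁ : ℝ) * nm n₂ * Q₀) ^ ε * (1 + |t₁| + |t₂|) ^ A * Tgt θ η r y Q₀ Q H J

theorem dout_iff (θ : ℝ) : DOUT θ ↔ ∃ (r : ℕ) (y η : ℝ), 0 < r ∧ 0 < y ∧ y < 1 ∧ 0 < η ∧
    DOUTi θ r y η := Iff.rfl

/-! ### congruence -/

lemma MV_congr {V : ℝ → ℂ} {Q : ℝ} {f g : Eis → ℂ} (h : ∀ b, IsPrim b → f b = g b) :
    MV V Q f = MV V Q g := by
  unfold MV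
  refine tsum_congr fun b => ?_
  split_ifs with hb
  · rw [h b hb]
  · rfl

open Classical in
lemma mem_prS {κ : ℝ} {p : Eis} : p ∈ prS κ ↔ ((nm p : ℝ) ≤ Real.exp (κ + 1) ∧ IsPrim p) ∧
    Prime p := by
  unfold prS
  rw [Finset.mem_filter, mem_primBall, Nat.le_floor_iff (Real.exp_pos _).le]

lemma AP_congr {h : ℝ → ℂ} {κ : ℝ} {f g : Eis → ℂ} (hfg : ∀ b, IsPrim b → f b = g b) :
    AP h κ f = AP h κ g := by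
  unfold AP
  refine Finset.sum_congr rfl fun p hp => ?_
  rw [hfg p (mem_prS.mp hp).1.2]

lemma Amp_congr {h : ℝ → ℂ} {r : ℕ} {y Q₀ : ℝ} {J : Finset (Fin r)} {f g : Eis → ℂ}
    (hfg : ∀ b, IsPrim b → f b = g b) : Amp h r y Q₀ J f = Amp h r y Q₀ J g := by
  unfold Amp
  exact Finset.prod_congr rfl fun i _ => AP_congr hfg

/-! ### weights -/

lemma sw_bound {V : ℝ → ℂ} (hV : SW V) : ∃ β : ℝ, 1 ≤ β ∧ ∀ x, V x ≠ 0 → 0 < x ∧ x ≤ β := by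
  obtain ⟨β, hβ⟩ := hV.cpt.isCompact.bddAbove
  refine ⟨max 1 β, le_max_left _ _, fun x hx => ?_⟩
  have h1 : x ∈ tsupport V := subset_tsupport V hx
  exact ⟨hV.supp h1, (hβ h1).trans (le_max_right _ _)⟩

lemma sw_scale {V : ℝ → ℂ} (hV : SW V) {c : ℝ} (hc : 0 < c) : SW (fun x => V (c * x)) where
  smooth := hV.smooth.comp (contDiff_const.mul contDiff_id)
  cpt := by
    have h := hV.cpt.comp_homeomorph (Homeomorph.mulLeft₀ c hc.ne')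
    exact h
  supp := by
    intro x hx
    have h1 : tsupport (fun x => V (c * x)) = (Homeomorph.mulLeft₀ c hc.ne') ⁻¹' tsupport V :=
      tsupport_comp_eq_preimage V (Homeomorph.mulLeft₀ c hc.ne')
    rw [h1] at hx
    have h2 := hV.supp hx
    have h3 : 0 < c * x := h2
    exact (mul_pos_iff_of_pos_left hc).mp h3

lemma MV_scale {V : ℝ → ℂ} {Q c : ℝ} (hc : 0 < c) (f : Eis → ℂ) :
    MV V Q f = MV (fun x => V (c * x)) (c * Q) f := by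
  unfold MV
  refine tsum_congr fun b => ?_
  have : c * ((nm b : ℝ) / (c * Q)) = nm b / Q := by
    rw [mul_div_assoc', mul_div_mul_left _ _ hc.ne']
  beta_reduce
  rw [this]

lemma MV_eq_zero {V : ℝ → ℂ} {Q β : ℝ} (hβ : ∀ x, V x ≠ 0 → 0 < x ∧ x ≤ β) (hQ : 0 < Q)
    (h : β * Q < 1) (f : Eis → ℂ) : MV V Q f = 0 := by
  unfold MV
  rw [tsum_congr (g := fun _ => 0) fun b => ?_, tsum_zero]
  split_ifs with hb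
  · by_contra h0
    have h1 := (hβ _ (right_ne_zero_of_mul h0)).2
    rw [div_le_iff₀ hQ] at h1
    have h2 : (1 : ℝ) ≤ nm b := by exact_mod_cast nm_pos.mpr hb.ne_zero
    linarith
  · rfl

/-! ### the target -/

lemma CJ_nonneg {r : ℕ} {y Q₀ : ℝ} (hQ : 0 ≤ Q₀) (J : Finset (Fin r)) : 0 ≤ CJ r y Q₀ J :=
  Real.rpow_nonneg hQ _

lemma Tgt_nonneg {θ η : ℝ} {r : ℕ} {y Q₀ Q H : ℝ} (hQ₀ : 0 ≤ Q₀) (hQ : 0 ≤ Q) (hH : 0 ≤ H)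
    (J : Finset (Fin r)) : 0 ≤ Tgt θ η r y Q₀ Q H J := by
  have := CJ_nonneg (y := y) hQ₀ J
  unfold Tgt
  positivity

lemma Tgt_mono_H {θ η : ℝ} {r : ℕ} {y Q₀ Q H H' : ℝ} (hQ₀ : 0 ≤ Q₀) (hQ : 0 ≤ Q) (hH : 0 ≤ H)
    (hHH : H ≤ H') (J : Finset (Fin r)) : Tgt θ η r y Q₀ Q H J ≤ Tgt θ η r y Q₀ Q H' J := by
  have := CJ_nonneg (y := y) hQ₀ J
  unfold Tgt
  gcongr

lemma Tgt_mul_Q {θ η : ℝ} {r : ℕ} {y Q₀ Q H c : ℝ} (hQ₀ : 0 ≤ Q₀) (hQ : 0 ≤ Q) (hH : 0 ≤ H)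
    (hc : 1 ≤ c) (hθ : θ ≤ 1) (J : Finset (Fin r)) :
    Tgt θ η r y Q₀ (c * Q) H J ≤ c * Tgt θ η r y Q₀ Q H J := by
  have := CJ_nonneg (y := y) hQ₀ J
  have hc0 : 0 ≤ c := by linarith
  unfold Tgt
  rw [mul_div_assoc, Real.mul_rpow hc0 (by positivity), Real.mul_rpow hc0 (by positivity)]
  have h1 : c ^ (1 / 2 : ℝ) ≤ c := by
    calc c ^ (1 / 2 : ℝ) ≤ c ^ (1 : ℝ) := Real.rpow_le_rpow_of_exponent_le hc (by norm_num)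
      _ = c := Real.rpow_one c
  have h2 : c ^ θ ≤ c := by
    calc c ^ θ ≤ c ^ (1 : ℝ) := Real.rpow_le_rpow_of_exponent_le hc hθ
      _ = c := Real.rpow_one c
  calc _ ≤ Q₀ ^ ((1 / 2 + y) / 3 + y + θ - η) *
      (H / Q₀ ^ (1 / 2 + y) * (c * (Q / Q₀) ^ (1 / 2 : ℝ)) * (CJ r y Q₀ J / Q₀ ^ y) ^ (1 / 2 : ℝ) +
      (H / Q₀ ^ (1 / 2 + y)) ^ (1 / 6 : ℝ) * (c * (Q / Q₀) ^ θ) *
        (CJ r y Q₀ J / Q₀ ^ y) ^ θ) := by gcongr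
    _ = _ := by ring

/-- D-OUT with real `H ≥ 0` and all `Q > 0`. -/
theorem dout_ext {θ : ℝ} {r : ℕ} {y η : ℝ} (hθ : θ ≤ 1) (hD : DOUTi θ r y η) {h : ℝ → ℂ}
    (hh : HW h) {V : ℝ → ℂ} (hV : SW V) (l₁ l₂ : ℤ) {ε : ℝ} (hε : 0 < ε) :
    ∃ C A : ℝ, 0 ≤ C ∧ 0 ≤ A ∧
    ∀ (n₁ n₂ : Eis) (φ ψ : Eis → ℂ), HC n₁ φ → HC n₂ ψ →
    ∀ (Q₀ Q : ℝ), 0 < Q → Q ≤ Q₀ → 2 ≤ Q₀ → ∀ (J : Finset (Fin r)) (H : ℝ), 0 ≤ H →
      H ≤ Q₀ ^ (1 / 2 + y + η) → ∀ t₁ t₂ : ℝ,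
      ∑ k ∈ (by classical exact (ball ⌊H⌋₊).filter (fun k => k ≠ 0 ∧ NPk n₁ φ l₁ k)),
        ‖Amp h r y Q₀ J (fun p => twt φ l₁ t₁ p * conj (sy k p))‖ *
          ‖MV V Q (fun b => twt ψ l₂ t₂ b * sy k b)‖ ≤
        C * ((nm n₁ : ℝ) * nm n₂ * Q₀) ^ ε * (1 + |t₁| + |t₂|) ^ A * Tgt θ η r y Q₀ Q H J := by
  classical
  obtain ⟨β, hβ1, hβ⟩ := sw_bound hV
  choose C A hC0 hC using fun n : ℕ =>
    hD h hh (fun x => V ((2 : ℝ) ^ n * x)) (sw_scale hV (by positivity)) l₁ l₂ ε hε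
  obtain ⟨N, hN⟩ := pow_unbounded_of_one_lt β (one_lt_two (α := ℝ))
  set A' : ℝ := ∑ n ∈ Finset.range (N + 2), |A n| with hA'
  refine ⟨∑ n ∈ Finset.range (N + 2), (2 : ℝ) ^ n * C n, A', ?_, ?_, ?_⟩
  · exact Finset.sum_nonneg fun n _ => mul_nonneg (by positivity) (hC0 n)
  · exact Finset.sum_nonneg fun n _ => abs_nonneg _
  intro n₁ n₂ φ ψ hφ hψ Q₀ Q hQ hQQ₀ hQ₀ J H hH hHle t₁ t₂
  have hQ₀0 : 0 ≤ Q₀ := by linarith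
  have hT0 : 0 ≤ 1 + |t₁| + |t₂| := by positivity
  have hT1 : 1 ≤ 1 + |t₁| + |t₂| := by linarith [abs_nonneg t₁, abs_nonneg t₂]
  have hR0 : 0 ≤ (∑ n ∈ Finset.range (N + 2), (2 : ℝ) ^ n * C n) *
      ((nm n₁ : ℝ) * nm n₂ * Q₀) ^ ε * (1 + |t₁| + |t₂|) ^ A' * Tgt θ η r y Q₀ Q H J := by
    have h1 : 0 ≤ ∑ n ∈ Finset.range (N + 2), (2 : ℝ) ^ n * C n :=
      Finset.sum_nonneg fun n _ => mul_nonneg (by positivity) (hC0 n)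
    have h2 := Tgt_nonneg (θ := θ) (η := η) (y := y) hQ₀0 hQ.le hH J
    positivity
  by_cases hβQ : β * Q < 1
  · refine (Finset.sum_nonpos fun k _ => ?_).trans hR0
    rw [MV_eq_zero hβ hQ hβQ]; simp
  push Not at hβQ
  rcases Nat.eq_zero_or_pos ⌊H⌋₊ with hH0 | hH1
  · refine (Finset.sum_nonpos fun k hk => ?_).trans hR0
    exfalso
    rw [Finset.mem_filter, mem_ball, hH0] at hk
    have := nm_pos.mpr hk.2.1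
    omega
  -- choose `n`
  have hn : ∃ n < N + 2, 1 ≤ (2 : ℝ) ^ n * Q ∧ (2 : ℝ) ^ n * Q ≤ Q₀ := by
    by_cases hQ1 : 1 ≤ Q
    · exact ⟨0, by omega, by simpa using hQ1, by simpa using hQQ₀⟩
    · push Not at hQ1
      have h1 : 1 ≤ Q⁻¹ := (one_le_inv₀ hQ).mpr hQ1.le
      obtain ⟨m, hm1, hm2⟩ := exists_nat_pow_near h1 (one_lt_two (α := ℝ))
      have hm3 : (2 : ℝ) ^ m * Q ≤ 1 := by
        calc (2 : ℝ) ^ m * Q ≤ Q⁻¹ * Q := by gcongr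
          _ = 1 := inv_mul_cancel₀ hQ.ne'
      have hm4 : 1 ≤ (2 : ℝ) ^ (m + 1) * Q := by
        calc 1 = Q⁻¹ * Q := (inv_mul_cancel₀ hQ.ne').symm
          _ ≤ (2 : ℝ) ^ (m + 1) * Q := by gcongr
      refine ⟨m + 1, ?_, hm4, ?_⟩
      · have h3 : (2 : ℝ) ^ m < 2 ^ N := by
          refine hm1.trans_lt (lt_of_le_of_lt ?_ hN)
          rw [inv_le_iff_one_le_mul₀ hQ]; exact hβQ
        have := (pow_lt_pow_iff_right₀ (one_lt_two (α := ℝ))).mp h3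
        omega
      · calc (2 : ℝ) ^ (m + 1) * Q = 2 * (2 ^ m * Q) := by ring
          _ ≤ 2 * 1 := by gcongr
          _ ≤ Q₀ := by linarith
  obtain ⟨n, hnN, hn1, hn2⟩ := hn
  have hfl : ((⌊H⌋₊ : ℕ) : ℝ) ≤ H := Nat.floor_le hH
  have key := hC n n₁ n₂ φ ψ hφ hψ Q₀ ((2 : ℝ) ^ n * Q) hn1 hn2 J ⌊H⌋₊ hH1 (hfl.trans hHle) t₁ t₂
  have e1 : ∀ k, MV V Q (fun b => twt ψ l₂ t₂ b * sy k b) =
      MV (fun x => V ((2 : ℝ) ^ n * x)) ((2 : ℝ) ^ n * Q) (fun b => twt ψ l₂ t₂ b * sy k b) :=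
    fun k => MV_scale (by positivity) _
  simp only [e1]
  refine key.trans ?_
  have h1 : Tgt θ η r y Q₀ ((2 : ℝ) ^ n * Q) (⌊H⌋₊ : ℕ) J ≤
      (2 : ℝ) ^ n * Tgt θ η r y Q₀ Q H J :=
    (Tgt_mul_Q hQ₀0 hQ.le (by positivity) (one_le_pow₀ one_le_two) hθ J).trans
      (mul_le_mul_of_nonneg_left (Tgt_mono_H hQ₀0 hQ.le (by positivity) hfl J) (by positivity))
  have h2 : (1 + |t₁| + |t₂|) ^ A n ≤ (1 + |t₁| + |t₂|) ^ A' := by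
    apply Real.rpow_le_rpow_of_exponent_le hT1
    refine (le_abs_self _).trans ?_
    exact Finset.single_le_sum (f := fun n => |A n|) (fun i _ => abs_nonneg _)
      (Finset.mem_range.mpr hnN)
  have h3 : (2 : ℝ) ^ n * C n ≤ ∑ n ∈ Finset.range (N + 2), (2 : ℝ) ^ n * C n :=
    Finset.single_le_sum (f := fun n => (2 : ℝ) ^ n * C n)
      (fun i _ => mul_nonneg (by positivity) (hC0 i)) (Finset.mem_range.mpr hnN)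
  have h4 := Tgt_nonneg (θ := θ) (η := η) (y := y) hQ₀0 hQ.le hH J
  have h5 := Tgt_nonneg (θ := θ) (η := η) (y := y) (Q := (2 : ℝ) ^ n * Q)
    (H := ((⌊H⌋₊ : ℕ) : ℝ)) hQ₀0 (by positivity) (by positivity) J
  have hCn := hC0 n
  calc C n * ((nm n₁ : ℝ) * nm n₂ * Q₀) ^ ε * (1 + |t₁| + |t₂|) ^ A n *
        Tgt θ η r y Q₀ ((2 : ℝ) ^ n * Q) (⌊H⌋₊ : ℕ) J
      ≤ C n * ((nm n₁ : ℝ) * nm n₂ * Q₀) ^ ε * (1 + |t₁| + |t₂|) ^ A' *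
        ((2 : ℝ) ^ n * Tgt θ η r y Q₀ Q H J) := by gcongr
    _ = ((2 : ℝ) ^ n * C n) * ((nm n₁ : ℝ) * nm n₂ * Q₀) ^ ε * (1 + |t₁| + |t₂|) ^ A' *
        Tgt θ η r y Q₀ Q H J := by ring
    _ ≤ _ := by gcongr

end Crest.Agent.R017.Asm986
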