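import Crest.Agent.R017.BL5a_868
import Crest.Agent.R017.NSb1_986

/-!
# Row 17, leaf L5 (b): bounds for the smooth Möbius sums and for `∑_D |El l D|`
-/

set_option autoImplicit false

noncomputable section

open MeasureTheory Complex Set
open scoped ComplexConjugate ContDiff

namespace Crest.Agent.R017.L5

open Crest.Agent.R012 Crest.Agent.R012.Eis Crest.Agent.R012.Mob705 Crest.Agent.R012.Div277
open Crest.Agent.R017.End699 Crest.Agent.R017.Sx545 Crest.Agent.R017.B770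
open Crest.Agent.R017.Asm986 (sw_bound MV_congr)

/-! ### smooth Möbius sums -/

/-- `MV` as a finite sum over any large ball -/
lemma MV_eq_sum {V : ℝ → ℂ} {Q β : ℝ} (hβ : ∀ x, V x ≠ 0 → 0 < x ∧ x ≤ β) (hQ : 0 < Q)
    (f : Eis → ℂ) {N : ℕ} (hN : β * Q < N + 1) :
    MV V Q f = ∑ b ∈ primBall N, (muE b : ℂ) * f b * V (nm b / Q) := by
  classical
  unfold MV
  rw [tsum_eq_sum (s := primBall N)]
  · refine Finset.sum_congr rfl fun b hb => ?_
    rw [if_pos (mem_primBall.mp hb).2]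
  · intro b hb
    split_ifs with h
    · by_contra h0
      apply hb
      rw [mem_primBall]
      have h1 := (hβ _ (right_ne_zero_of_mul h0)).2
      rw [div_le_iff₀ hQ] at h1
      have h2 : (nm b : ℝ) < N + 1 := lt_of_le_of_lt h1 hN
      exact ⟨by exact_mod_cast Nat.lt_succ_iff.mp (by exact_mod_cast h2), h⟩
    · rfl

lemma norm_muE_le (b : Eis) : ‖(muE b : ℂ)‖ ≤ 1 := by
  rw [Complex.norm_intCast]
  exact_mod_cast abs_muE_le b

/-- trivial bound -/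
lemma MV_trivial {V : ℝ → ℂ} (hV : SW V) : ∃ C : ℝ, 0 ≤ C ∧ ∀ f : Eis → ℂ,
    (∀ b, IsPrim b → ‖f b‖ ≤ 1) → ∀ Q : ℝ, 0 < Q → ‖MV V Q f‖ ≤ C * Q := by
  obtain ⟨β, hβ1, hβ⟩ := sw_bound hV
  obtain ⟨B, hB⟩ := hV.smooth.continuous.bounded_above_of_compact_support hV.cpt
  have hB0 : 0 ≤ B := (norm_nonneg _).trans (hB 0)
  refine ⟨100 * β * B, by positivity, fun f hf Q hQ => ?_⟩
  rw [MV_eq_sum hβ hQ f (Nat.lt_floor_add_one (β * Q))]
  refine (norm_sum_le _ _).trans ?_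
  have h1 : ∀ b ∈ primBall ⌊β * Q⌋₊, ‖(muE b : ℂ) * f b * V (nm b / Q)‖ ≤ B := by
    intro b hb
    rw [norm_mul, norm_mul]
    calc _ ≤ 1 * 1 * B := by
          gcongr
          · exact norm_muE_le b
          · exact hf b (mem_primBall.mp hb).2
          · exact hB _
      _ = B := by ring
  refine (Finset.sum_le_sum h1).trans ?_
  rw [Finset.sum_const, nsmul_eq_mul]
  have h2 : ((primBall ⌊β * Q⌋₊).card : ℝ) ≤ 100 * (⌊β * Q⌋₊ : ℝ) :=
    (by exact_mod_cast Finset.card_le_card (primBall_subset_nz _) :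
      ((primBall ⌊β * Q⌋₊).card : ℝ) ≤ ((nz ⌊β * Q⌋₊).card : ℝ)).trans (card_nz_le _)
  have h3 : (⌊β * Q⌋₊ : ℝ) ≤ β * Q := Nat.floor_le (by positivity)
  calc ((primBall ⌊β * Q⌋₊).card : ℝ) * B ≤ (100 * (β * Q)) * B := by
        gcongr
        linarith
    _ = _ := by ring

/-- **PF bound for `MV`, all scales** -/
theorem MV_bound {θ ε : ℝ} (hθ : 1 / 2 < θ) (hθ1 : θ ≤ 1) (hPF : PF Set.univ θ)
    (hε : 0 < ε) (hε1 : ε ≤ 1) (l : ℤ) {V : ℝ → ℂ} (hV : SW V) :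
    ∃ C : ℝ, 0 ≤ C ∧ ∀ (q : Eis) (χ : Eis → ℂ), HC q χ → ∀ Q : ℝ, 0 < Q →
      ‖MV V Q (tw χ l)‖ ≤ C * (nm q : ℝ) ^ ε * Q ^ (θ + ε) := by
  obtain ⟨C1, h10, h1⟩ := MV_trivial hV
  obtain ⟨β, hβ1, hβ⟩ := sw_bound hV
  have hβ' : ∀ y, β < y → V y = 0 := fun y hy => by
    by_contra h
    exact absurd (hβ y h).2 (not_le.mpr hy)
  -- the range `Q < 1`
  have hsmall : ∀ (q : Eis) (χ : Eis → ℂ), HC q χ → ∀ Q : ℝ, 0 < Q → Q < 1 →
      ‖MV V Q (tw χ l)‖ ≤ C1 * β ^ (2 : ℝ) * (nm q : ℝ) ^ ε * Q ^ (θ + ε) := by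
    intro q χ hχ Q hQ hQ1
    have hq : (1 : ℝ) ≤ (nm q : ℝ) := by exact_mod_cast nm_pos.mpr hχ.q0
    have hqε : (1 : ℝ) ≤ (nm q : ℝ) ^ ε := Real.one_le_rpow hq hε.le
    rcases lt_or_ge (β * Q) 1 with h | h
    · rw [Asm986.MV_eq_zero hβ hQ h, norm_zero]
      positivity
    · have h2 := h1 (tw χ l) (fun b hb => (hχ.isChar_tw l).norm_le hb) Q hQ
      have h3 : 1 ≤ β ^ (2 : ℝ) * Q ^ (θ + ε) := by
        calc (1 : ℝ) ≤ (β * Q) ^ (2 : ℝ) := Real.one_le_rpow h (by norm_num)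
          _ = β ^ (2 : ℝ) * Q ^ (2 : ℝ) := Real.mul_rpow (by linarith) hQ.le
          _ ≤ β ^ (2 : ℝ) * Q ^ (θ + ε) := by
              have := Real.rpow_le_rpow_of_exponent_ge hQ hQ1.le (show θ + ε ≤ 2 by linarith)
              gcongr
      calc _ ≤ C1 * Q := h2
        _ ≤ C1 * 1 := by gcongr
        _ ≤ C1 * ((β ^ (2 : ℝ) * Q ^ (θ + ε)) * (nm q : ℝ) ^ ε) := by
            gcongr
            exact one_le_mul_of_one_le_of_one_le h3 hqε
        _ = _ := by ring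
  rcases lt_or_eq_of_le hθ1 with hlt | heq
  · obtain ⟨C, hC0, hC⟩ := moebius_bound_global l hθ hlt hε hε1 hV.smooth hV.cpt hV.supp hβ'
    refine ⟨C + C1 * β ^ (2 : ℝ), by positivity, fun q χ hχ Q hQ => ?_⟩
    have hq : (1 : ℝ) ≤ (nm q : ℝ) := by exact_mod_cast nm_pos.mpr hχ.q0
    rcases lt_or_ge Q 1 with h | h
    · refine (hsmall q χ hχ Q hQ h).trans ?_
      gcongr
      linarith
    · have h2 := hC q χ hχ (hPF l (Set.mem_univ _) q χ hχ) 0 Q h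
      rw [MV_eq_sum hβ hQ (tw χ l) (Nat.lt_floor_add_one (β * Q))]
      simp only [Complex.ofReal_zero, zero_mul, neg_zero, Complex.cpow_zero, one_mul, abs_zero,
        add_zero, mul_one] at h2
      refine h2.trans ?_
      gcongr
      have : 0 ≤ C1 * β ^ (2 : ℝ) := by positivity
      linarith
  · subst heq
    refine ⟨C1 + C1 * β ^ (2 : ℝ), by positivity, fun q χ hχ Q hQ => ?_⟩
    have hq : (1 : ℝ) ≤ (nm q : ℝ) := by exact_mod_cast nm_pos.mpr hχ.q0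
    have hqε : (1 : ℝ) ≤ (nm q : ℝ) ^ ε := Real.one_le_rpow hq hε.le
    rcases lt_or_ge Q 1 with h | h
    · refine (hsmall q χ hχ Q hQ h).trans ?_
      gcongr
      linarith
    · have h2 := h1 (tw χ l) (fun b hb => (hχ.isChar_tw l).norm_le hb) Q hQ
      have h3 : Q ≤ Q ^ (1 + ε) := by
        calc Q = Q ^ (1 : ℝ) := (Real.rpow_one _).symm
          _ ≤ _ := Real.rpow_le_rpow_of_exponent_le h (by linarith)
      calc _ ≤ C1 * Q := h2
        _ ≤ C1 * (1 * Q ^ (1 + ε)) := by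
            rw [one_mul]
            gcongr
        _ ≤ C1 * ((nm q : ℝ) ^ ε * Q ^ (1 + ε)) := by gcongr
        _ ≤ (C1 + C1 * β ^ (2 : ℝ)) * ((nm q : ℝ) ^ ε * Q ^ (1 + ε)) := by
            have : 0 ≤ C1 * β ^ (2 : ℝ) := by positivity
            gcongr
            linarith
        _ = _ := by ring

/-! ### the sum of `|El l D|` -/

lemma tau_pow {p : Eis} (hp : IsPP p) (k : ℕ) : tau (p ^ k) = k + 1 := by
  have h := sum_dvs_pow hp k (fun _ => (1 : ℕ))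
  simpa [tau] using h

lemma tau_one : tau (1 : Eis) = 1 := by
  have hd1 : dvs (1 : Eis) = {1} := by
    ext d
    rw [mem_dvs one_ne_zero, Finset.mem_singleton]
    constructor
    · rintro ⟨h1, h2⟩
      exact isPrim_eq_one_of_isUnit h1 (isUnit_of_dvd_one h2)
    · rintro rfl
      exact ⟨isPrim_one, one_dvd _⟩
  unfold tau
  rw [hd1, Finset.card_singleton]

lemma two_pow_le_tau {l : Eis} (hl : l ≠ 0) : (2 : ℝ) ^ (pp l).card ≤ tau l := by
  have h := sum_abs_muE_mul hl (fun _ => (1 : ℝ)) (by intros; norm_num)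
  have h1 : ∏ p ∈ pp l, ((1 : ℝ) + 1) = 2 ^ (pp l).card := by
    rw [Finset.prod_const]; norm_num
  rw [← h1, ← h]
  unfold tau
  rw [Finset.card_eq_sum_ones, Nat.cast_sum]
  refine Finset.sum_le_sum fun d _ => ?_
  have : |muE d| ≤ 1 := abs_muE_le d
  have h2 : ((|muE d| : ℤ) : ℝ) ≤ 1 := by exact_mod_cast this
  push_cast at h2 ⊢
  linarith

lemma exp_card_le {A ε : ℝ} (hA : 0 < A) (hε : 0 < ε) : ∃ C : ℝ, 0 ≤ C ∧ ∀ l : Eis, l ≠ 0 →
    Real.exp (A * (pp l).card) ≤ C * (nm l : ℝ) ^ ε := by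
  set a : ℝ := A / Real.log 2 with ha
  have hlog : 0 < Real.log 2 := Real.log_pos (by norm_num)
  have ha0 : 0 < a := div_pos hA hlog
  obtain ⟨C, hC1, hC⟩ := tau_le_rpow (ε := ε / a) (by positivity)
  have hC0 : 0 ≤ C := by linarith
  refine ⟨C ^ a, by positivity, fun l hl => ?_⟩
  have hn : (0 : ℝ) ≤ nm l := Nat.cast_nonneg _
  calc Real.exp (A * (pp l).card) = ((2 : ℝ) ^ (pp l).card) ^ a := by
        rw [← Real.rpow_natCast, ← Real.rpow_mul (by norm_num), Real.rpow_def_of_pos (by norm_num)]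
        congr 1
        rw [ha]
        field_simp
    _ ≤ (tau l : ℝ) ^ a := by
        have := two_pow_le_tau hl
        gcongr
    _ ≤ (C * (nm l : ℝ) ^ (ε / a)) ^ a := by
        have := hC l hl
        gcongr
    _ = C ^ a * (nm l : ℝ) ^ ε := by
        rw [Real.mul_rpow hC0 (by positivity), ← Real.rpow_mul hn]
        congr 2
        field_simp

open Classical in
/-- the majorant of `|El l D| nm D^{-5/6}` -/
def Fl (l D : Eis) : ℝ :=
  if ∀ p : Eis, Sm 2 p → Prime p → p ∣ D → p ∣ l then tau D * (nm D : ℝ) ^ (-(1 / 24) : ℝ) else 0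

/-- the constant in `sum_Fl` -/
def cF : ℝ := ∑' k : ℕ, ((k : ℝ) + 1) * ((2 : ℝ) ^ (-(1 / 24) : ℝ)) ^ k

lemma r24 : (0 : ℝ) < (2 : ℝ) ^ (-(1 / 24) : ℝ) ∧ (2 : ℝ) ^ (-(1 / 24) : ℝ) < 1 := by
  constructor
  · positivity
  · exact Real.rpow_lt_one_of_one_lt_of_neg (by norm_num) (by norm_num)

lemma summable_cF : Summable fun k : ℕ => ((k : ℝ) + 1) * ((2 : ℝ) ^ (-(1 / 24) : ℝ)) ^ k := by
  have h1 : ‖(2 : ℝ) ^ (-(1 / 24) : ℝ)‖ < 1 := by
    rw [Real.norm_of_nonneg r24.1.le]; exact r24.2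
  have h2 := summable_pow_mul_geometric_of_norm_lt_one 1 h1
  have h3 := summable_geometric_of_norm_lt_one h1
  refine (h2.add h3).congr fun k => ?_
  ring

lemma cF_pos : 0 < cF := by
  refine summable_cF.tsum_pos (fun k => by have := r24.1; positivity) 0 ?_
  norm_num

theorem sum_Fl {ε : ℝ} (hε : 0 < ε) : ∃ C : ℝ, 0 ≤ C ∧ ∀ l : Eis, l ≠ 0 → ∀ N : ℕ,
    ∑ D ∈ (open Classical in (primBall N).filter (Sm 2)), Fl l D ≤ C * (nm l : ℝ) ^ ε := by
  classical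
  obtain ⟨C, hC0, hC⟩ := exp_card_le cF_pos hε
  refine ⟨C, hC0, fun l hl N => ?_⟩
  refine le_trans ?_ (hC l hl)
  refine Eul571.eul_sum_le (m := 2) (F := Fl l) (u := fun p => if p ∣ l then cF else 0) ?_ ?_ ?_
    ?_ ?_ N
  · intro b _
    unfold Fl
    split_ifs <;> positivity
  · unfold Fl
    split_ifs
    · rw [tau_one, nm_one]; simp
    · norm_num
  · intro p k b hp hpp hk hb hpb
    unfold Fl
    by_cases h : ∀ q : Eis, Sm 2 q → Prime q → q ∣ p ^ k * b → q ∣ l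
    · rw [if_pos h, if_pos (fun q h1 h2 h3 => h q h1 h2 (h3.mul_right _)),
        if_pos (fun q h1 h2 h3 => h q h1 h2 (h3.mul_left _)), nm_mul, Nat.cast_mul,
        Real.mul_rpow (Nat.cast_nonneg _) (Nat.cast_nonneg _)]
      have h1 : (tau (p ^ k * b) : ℝ) ≤ tau (p ^ k) * tau b := by
        exact_mod_cast tau_mul_le (p ^ k) b
      calc _ ≤ ((tau (p ^ k) : ℝ) * tau b) * ((nm (p ^ k) : ℝ) ^ (-(1 / 24) : ℝ) *
            (nm b : ℝ) ^ (-(1 / 24) : ℝ)) := by gcongr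
        _ = _ := by ring
    · rw [if_neg h]
      split_ifs <;> positivity
  · intro p hp hpp K
    have hPP : IsPP p := ⟨hp.prim, hpp⟩
    split_ifs with hpl
    · have h1 : ∀ k ∈ Finset.Icc 1 K, Fl l (p ^ k) ≤
          ((k : ℝ) + 1) * ((2 : ℝ) ^ (-(1 / 24) : ℝ)) ^ k := by
        intro k hk
        unfold Fl
        rw [if_pos, tau_pow hPP, nm_pow]
        · have h2 : ((nm p ^ k : ℕ) : ℝ) ^ (-(1 / 24) : ℝ) =
              ((nm p : ℝ) ^ (-(1 / 24) : ℝ)) ^ k := by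
            rw [Nat.cast_pow, ← Real.rpow_natCast, ← Real.rpow_natCast,
              ← Real.rpow_mul (Nat.cast_nonneg _), ← Real.rpow_mul (Nat.cast_nonneg _)]
            congr 1; ring
          rw [h2]
          push_cast
          have h3 : (nm p : ℝ) ^ (-(1 / 24) : ℝ) ≤ (2 : ℝ) ^ (-(1 / 24) : ℝ) :=
            Real.rpow_le_rpow_of_nonpos (by norm_num)
              (by exact_mod_cast (by have := hPP.one_lt_nm; omega : 2 ≤ nm p)) (by norm_num)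
          gcongr
        · intro q hq hqp hqd
          have := IsPP.eq_of_dvd (p := q) ⟨hq.prim, hqp⟩ hPP (hqp.dvd_of_dvd_pow hqd)
          rw [this]; exact hpl
      refine (Finset.sum_le_sum h1).trans ?_
      exact summable_cF.sum_le_tsum _ (fun k _ => by have := r24.1; positivity)
    · refine le_of_eq (Finset.sum_eq_zero fun k hk => ?_)
      unfold Fl
      rw [if_neg]
      intro h
      exact hpl (h p hp hpp (dvd_pow_self p (by have := (Finset.mem_Icc.mp hk).1; omega)))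
  · intro P hP
    rw [← Finset.sum_filter, Finset.sum_const, nsmul_eq_mul, mul_comm]
    refine mul_le_mul_of_nonneg_left ?_ cF_pos.le
    have : P.filter (fun p => p ∣ l) ⊆ pp l := by
      intro p hp
      rw [Finset.mem_filter] at hp
      rw [mem_pp hl]
      exact ⟨⟨(hP p hp.1).1.prim, (hP p hp.1).2⟩, hp.2⟩
    exact_mod_cast Finset.card_le_card this

/-- `|El l D| ≤ Fl l D * nm D^{5/6}` -/
lemma norm_El_le_Fl (hT : TkAlg) (l : Eis) {D : Eis} (hD : Sm 2 D) :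
    ‖El l D‖ ≤ Fl l D * (nm D : ℝ) ^ (5 / 6 : ℝ) := by
  have hn : (0 : ℝ) < nm D := by exact_mod_cast nm_pos.mpr hD.ne_zero
  unfold Fl
  split_ifs with h
  · rw [mul_assoc, ← Real.rpow_add hn]
    norm_num
    exact norm_El_le hT l hD
  · push Not at h
    obtain ⟨p, hp, hpp, hpD, hpl⟩ := h
    rw [El_eq_zero hT l hD hp hpp hpD hpl, norm_zero, zero_mul]

/-- weighted sums of `|El l D|` -/
theorem El_sum (hT : TkAlg) {ε : ℝ} (hε : 0 < ε) : ∃ C : ℝ, 0 ≤ C ∧ ∀ l : Eis, l ≠ 0 →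
    ∀ (s Z : ℝ), 5 / 6 ≤ s → 0 < Z → ∀ 𝓓 : Finset Eis, (∀ D ∈ 𝓓, Sm 2 D ∧ Z ≤ nm D) →
    ∑ D ∈ 𝓓, ‖El l D‖ * (nm D : ℝ) ^ (-s) ≤ C * (nm l : ℝ) ^ ε * Z ^ (-(s - 5 / 6)) := by
  classical
  obtain ⟨C, hC0, hC⟩ := sum_Fl hε
  refine ⟨C, hC0, fun l hl s Z hs hZ 𝓓 h𝓓 => ?_⟩
  have h1 : ∀ D ∈ 𝓓, ‖El l D‖ * (nm D : ℝ) ^ (-s) ≤ Z ^ (-(s - 5 / 6)) * Fl l D := by
    intro D hD
    obtain ⟨hS, hZD⟩ := h𝓓 D hD
    have hn : (0 : ℝ) < nm D := by exact_mod_cast nm_pos.mpr hS.ne_zero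
    have hFl : 0 ≤ Fl l D := by unfold Fl; split_ifs <;> positivity
    calc ‖El l D‖ * (nm D : ℝ) ^ (-s) ≤ (Fl l D * (nm D : ℝ) ^ (5 / 6 : ℝ)) *
          (nm D : ℝ) ^ (-s) := by
          gcongr
          exact norm_El_le_Fl hT l hS
      _ = (nm D : ℝ) ^ (-(s - 5 / 6)) * Fl l D := by
          rw [mul_assoc, ← Real.rpow_add hn, mul_comm]
          congr 2; ring
      _ ≤ Z ^ (-(s - 5 / 6)) * Fl l D := by
          gcongr ?_ * _
          exact Real.rpow_le_rpow_of_nonpos hZ hZD (by linarith)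
  refine (Finset.sum_le_sum h1).trans ?_
  rw [← Finset.mul_sum]
  obtain ⟨N, hN⟩ : ∃ N : ℕ, ∀ D ∈ 𝓓, nm D ≤ N := ⟨𝓓.sup nm, fun D hD => Finset.le_sup hD⟩
  have h2 : ∑ D ∈ 𝓓, Fl l D ≤ ∑ D ∈ (primBall N).filter (Sm 2), Fl l D := by
    refine Finset.sum_le_sum_of_subset_of_nonneg ?_ ?_
    · intro D hD
      obtain ⟨hS, _⟩ := h𝓓 D hD
      rw [Finset.mem_filter, mem_primBall]
      exact ⟨⟨hN D hD, hS.prim⟩, hS⟩
    · intro D _ _
      unfold Fl; split_ifs <;> positivity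
  calc Z ^ (-(s - 5 / 6)) * ∑ D ∈ 𝓓, Fl l D ≤ Z ^ (-(s - 5 / 6)) * (C * (nm l : ℝ) ^ ε) := by
        gcongr
        exact h2.trans (hC l hl N)
    _ = _ := by ring

lemma sm_of_tw_ne {q : Eis} {χ : Eis → ℂ} (h : HC q χ) (h2 : (2 : Eis) ∣ q) {l : ℤ} {D : Eis}
    (hD : IsPrim D) (hne : tw χ l D ≠ 0) : Sm 2 D := by
  refine ⟨hD, ?_⟩
  by_contra hc
  exact hne (BL7.tw_eq_zero h l hD fun h' => hc (h'.of_isCoprime_of_dvd_right h2))

/-- partial sums over `D` with arbitrary scalar factors -/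
theorem Dsum_le (hT : TkAlg) {ε : ℝ} (hε : 0 < ε) : ∃ C : ℝ, 0 ≤ C ∧ ∀ (q : Eis) (χ : Eis → ℂ),
    HC q χ → (2 : Eis) ∣ q → ∀ (l' : ℤ) (l : Eis), l ≠ 0 →
    ∀ (s Z K : ℝ), 5 / 6 ≤ s → 0 < Z → 0 ≤ K → ∀ mv : Eis → ℂ, ∀ 𝓓 : Finset Eis,
    (∀ D ∈ 𝓓, IsPrim D ∧ Z ≤ nm D) → (∀ D ∈ 𝓓, ‖mv D‖ ≤ K * (nm D : ℝ) ^ (-s)) →
    ∑ D ∈ 𝓓, ‖tw χ l' D * El l D * mv D‖ ≤ C * (nm l : ℝ) ^ ε * K * Z ^ (-(s - 5 / 6)) := by
  classical
  obtain ⟨C, hC0, hC⟩ := El_sum hT hε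
  refine ⟨C, hC0, fun q χ hχ h2 l' l hl s Z K hs hZ hK mv 𝓓 h𝓓 hmv => ?_⟩
  have h1 : ∑ D ∈ 𝓓, ‖tw χ l' D * El l D * mv D‖ ≤
      ∑ D ∈ 𝓓.filter (Sm 2), K * (‖El l D‖ * (nm D : ℝ) ^ (-s)) := by
    rw [Finset.sum_filter]
    refine Finset.sum_le_sum fun D hD => ?_
    obtain ⟨hp, _⟩ := h𝓓 D hD
    by_cases hne : tw χ l' D = 0
    · rw [hne]
      simp only [zero_mul, norm_zero]
      split_ifs <;> positivity
    · rw [if_pos (sm_of_tw_ne hχ h2 hp hne), norm_mul, norm_mul]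
      have h3 : ‖tw χ l' D‖ ≤ 1 := (hχ.isChar_tw l').norm_le hp
      calc _ ≤ 1 * ‖El l D‖ * (K * (nm D : ℝ) ^ (-s)) := by
            gcongr
            exact hmv D hD
        _ = _ := by ring
  refine h1.trans ?_
  rw [← Finset.mul_sum]
  have h4 := hC l hl s Z hs hZ (𝓓.filter (Sm 2)) (fun D hD => by
    rw [Finset.mem_filter] at hD
    exact ⟨hD.2, (h𝓓 D hD.1).2⟩)
  calc K * ∑ D ∈ 𝓓.filter (Sm 2), ‖El l D‖ * (nm D : ℝ) ^ (-s)
      ≤ K * (C * (nm l : ℝ) ^ ε * Z ^ (-(s - 5 / 6))) := by gcongr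
    _ = _ := by ring

/-! ### Möbius inversion -/

lemma mem_pb_div {N : ℕ} {d m : Eis} (hd : IsPrim d) :
    m ∈ primBall (N / nm d) ↔ nm d * nm m ≤ N ∧ IsPrim m := by
  rw [mem_primBall, Nat.le_div_iff_mul_le (nm_pos.mpr hd.ne_zero), mul_comm]

lemma swap_pairs {A : Type*} [AddCommMonoid A] (N : ℕ) (F : Eis → Eis → A) :
    ∑ d ∈ primBall N, ∑ m ∈ primBall (N / nm d), F d m =
      ∑ m ∈ primBall N, ∑ d ∈ primBall (N / nm m), F d m := by
  refine Finset.sum_comm' fun d m => ?_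
  constructor
  · rintro ⟨h1, h2⟩
    have hd := (mem_primBall.mp h1).2
    obtain ⟨h3, hm⟩ := (mem_pb_div hd).mp h2
    have hd1 : 1 ≤ nm d := nm_pos.mpr hd.ne_zero
    refine ⟨(mem_pb_div hm).mpr ⟨by rw [mul_comm]; exact h3, hd⟩, mem_primBall.mpr ⟨?_, hm⟩⟩
    exact (Nat.le_mul_of_pos_left _ hd1).trans h3
  · rintro ⟨h1, h2⟩
    have hm := (mem_primBall.mp h2).2
    obtain ⟨h3, hd⟩ := (mem_pb_div hm).mp h1
    have hm1 : 1 ≤ nm m := nm_pos.mpr hm.ne_zero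
    refine ⟨mem_primBall.mpr ⟨(Nat.le_mul_of_pos_left _ hm1).trans h3, hd⟩,
      (mem_pb_div hd).mpr ⟨by rw [mul_comm]; exact h3, hm⟩⟩

/-- the sum over `b` of `f(b) tk(l³;b,1) V(N b / X)` -/
def N1 (l : Eis) (f : Eis → ℂ) (V : ℝ → ℂ) (X : ℝ) : ℂ := by
  classical
  exact ∑' b : Eis, if IsPrim b then f b * tk (l ^ 3) b 1 * V (nm b / X) else 0

lemma N1_eq_sum {V : ℝ → ℂ} {X β : ℝ} (hβ : ∀ x, V x ≠ 0 → 0 < x ∧ x ≤ β) (hX : 0 < X)
    (l : Eis) (f : Eis → ℂ) {N : ℕ} (hN : β * X < N + 1) :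
    N1 l f V X = ∑ b ∈ primBall N, f b * tk (l ^ 3) b 1 * V (nm b / X) := by
  classical
  unfold N1
  rw [tsum_eq_sum (s := primBall N)]
  · refine Finset.sum_congr rfl fun b hb => ?_
    rw [if_pos (mem_primBall.mp hb).2]
  · intro b hb
    split_ifs with h
    · by_contra h0
      apply hb
      rw [mem_primBall]
      have h1 := (hβ _ (right_ne_zero_of_mul h0)).2
      rw [div_le_iff₀ hX] at h1
      have h2 : (nm b : ℝ) < N + 1 := lt_of_le_of_lt h1 hN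
      exact ⟨by exact_mod_cast Nat.lt_succ_iff.mp (by exact_mod_cast h2), h⟩
    · rfl

/-- **Möbius inversion**: the sum over `b` in terms of untwisted Möbius sums -/
theorem N1_eq {V : ℝ → ℂ} {X β : ℝ} (hβ : ∀ x, V x ≠ 0 → 0 < x ∧ x ≤ β) (hX : 0 < X)
    (l : Eis) {f : Eis → ℂ} (hf : ∀ a b, IsPrim a → IsPrim b → f (a * b) = f a * f b) {N : ℕ}
    (hN : β * X < N + 1) :
    N1 l f V X = ∑ D ∈ primBall N, f D * El l D * MV V (X / nm D) f := by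
  classical
  have hfl : ∀ D ∈ primBall N, β * (X / nm D) < ((N / nm D : ℕ) : ℝ) + 1 := by
    intro D hD
    have hD0 : 0 < nm D := nm_pos.mpr (mem_primBall.mp hD).2.ne_zero
    have hD0' : (0 : ℝ) < nm D := by exact_mod_cast hD0
    have h1 : N + 1 ≤ (N / nm D + 1) * nm D := by
      have := Nat.lt_div_mul_add hD0 (a := N)
      rw [add_mul, one_mul]
      omega
    have h2 : ((N : ℝ) + 1) ≤ (((N / nm D : ℕ) : ℝ) + 1) * nm D := by exact_mod_cast h1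
    rw [mul_div_assoc', div_lt_iff₀ hD0']
    linarith
  have e1 : ∀ D ∈ primBall N, f D * El l D * MV V (X / nm D) f =
      ∑ b ∈ dvs D, tk (l ^ 3) b 1 * ∑ m ∈ primBall (N / nm D),
        (muE m : ℂ) * (f (D * m) * V ((nm (D * m) : ℕ) / X)) := by
    intro D hD
    have hDp := (mem_primBall.mp hD).2
    have hD0' : (0 : ℝ) < nm D := by exact_mod_cast nm_pos.mpr hDp.ne_zero
    rw [MV_eq_sum hβ (by positivity) f (hfl D hD)]
    unfold El
    rw [mul_assoc, Finset.sum_mul, Finset.mul_sum]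
    refine Finset.sum_congr rfl fun b _ => ?_
    rw [Finset.mul_sum, Finset.mul_sum, Finset.mul_sum]
    refine Finset.sum_congr rfl fun m hm => ?_
    have hmp := (mem_primBall.mp hm).2
    rw [hf D m hDp hmp, nm_mul, Nat.cast_mul, div_div_eq_mul_div]
    rw [show (nm m : ℝ) * nm D / X = nm D * nm m / X by ring]
    ring
  rw [Finset.sum_congr rfl e1, N1_eq_sum hβ hX l f hN]
  rw [sum_primBall_dvs N (fun b D => tk (l ^ 3) b 1 * ∑ m ∈ primBall (N / nm D),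
        (muE m : ℂ) * (f (D * m) * V ((nm (D * m) : ℕ) / X)))]
  refine Finset.sum_congr rfl fun b hb => ?_
  have hbp := (mem_primBall.mp hb).2
  have hb0 : 0 < nm b := nm_pos.mpr hbp.ne_zero
  rw [← Finset.mul_sum]
  have e2 : ∑ D ∈ primBall (N / nm b), ∑ m ∈ primBall (N / nm (b * D)),
        (muE m : ℂ) * (f (b * D * m) * V ((nm (b * D * m) : ℕ) / X)) =
      ∑ k ∈ primBall (N / nm b), ∑ m ∈ dvs k,
        (muE m : ℂ) * (f (b * k) * V ((nm (b * k) : ℕ) / X)) := by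
    rw [sum_primBall_dvs (N / nm b) (fun m k => (muE m : ℂ) *
      (f (b * k) * V ((nm (b * k) : ℕ) / X)))]
    rw [← swap_pairs (N / nm b) (fun D m => (muE m : ℂ) *
      (f (b * (m * D)) * V ((nm (b * (m * D)) : ℕ) / X)))]
    refine Finset.sum_congr rfl fun D _ => ?_
    rw [nm_mul, ← Nat.div_div_eq_div_mul]
    refine Finset.sum_congr rfl fun m _ => ?_
    rw [show b * D * m = b * (m * D) by ring]
  rw [e2]
  have e3 : ∀ k ∈ primBall (N / nm b), ∑ m ∈ dvs k,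
        (muE m : ℂ) * (f (b * k) * V ((nm (b * k) : ℕ) / X)) =
      if k = 1 then f (b * k) * V ((nm (b * k) : ℕ) / X) else 0 := by
    intro k hk
    have h := congrArg (fun z : ℤ => (z : ℂ)) (sum_dvs_muE_one (mem_primBall.mp hk).2)
    beta_reduce at h
    push_cast at h
    rw [← Finset.sum_mul, h]
    split_ifs <;> simp
  rw [Finset.sum_congr rfl e3, Finset.sum_ite_eq']
  rw [if_pos]
  · rw [mul_one]; ring
  · rw [mem_primBall]
    refine ⟨?_, isPrim_one⟩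
    rw [nm_one, Nat.le_div_iff_mul_le hb0, one_mul]
    exact (mem_primBall.mp hb).1

/-- **pointwise bound** for `N1` -/
theorem N1_bound (hT : TkAlg) {θ ε : ℝ} (hθ : 5 / 6 ≤ θ) (hθ1 : θ ≤ 1) (hPF : PF Set.univ θ)
    (hε : 0 < ε) (hε1 : ε ≤ 1) (l' : ℤ) {V : ℝ → ℂ} (hV : SW V) :
    ∃ C : ℝ, 0 ≤ C ∧ ∀ (q : Eis) (χ : Eis → ℂ), HC q χ → (2 : Eis) ∣ q → ∀ l : Eis, l ≠ 0 →
      ∀ X : ℝ, 0 < X →
      ‖N1 l (tw χ l') V X‖ ≤ C * (nm q : ℝ) ^ ε * (nm l : ℝ) ^ ε * X ^ (θ + ε) := by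
  obtain ⟨C1, h10, h1⟩ := MV_bound (by linarith) hθ1 hPF hε hε1 l' hV
  obtain ⟨C2, h20, h2⟩ := Dsum_le hT hε
  obtain ⟨β, hβ1, hβ⟩ := sw_bound hV
  refine ⟨C2 * C1, by positivity, fun q χ hχ hq2 l hl X hX => ?_⟩
  rw [N1_eq hβ hX l (fun a b ha hb => (hχ.isChar_tw l').mul a b ha hb)
    (Nat.lt_floor_add_one (β * X))]
  refine (norm_sum_le _ _).trans ?_
  have h3 := h2 q χ hχ hq2 l' l hl (θ + ε) 1 (C1 * (nm q : ℝ) ^ ε * X ^ (θ + ε)) (by linarith)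
    one_pos (by positivity) (fun D => MV V (X / nm D) (tw χ l')) (primBall ⌊β * X⌋₊)
    (fun D hD => ⟨(mem_primBall.mp hD).2, by
      exact_mod_cast nm_pos.mpr (mem_primBall.mp hD).2.ne_zero⟩) (fun D hD => ?_)
  · refine h3.trans (le_of_eq ?_)
    rw [Real.one_rpow]; ring
  · have hD0 : (0 : ℝ) < nm D := by
      exact_mod_cast nm_pos.mpr (mem_primBall.mp hD).2.ne_zero
    refine (h1 q χ hχ (X / nm D) (by positivity)).trans (le_of_eq ?_)
    rw [Real.div_rpow hX.le hD0.le, Real.rpow_neg hD0.le, div_eq_mul_inv]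
    ring

end Crest.Agent.R017.L5
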