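import Crest.Agent.R017.BL5b_868

/-!
# Row 17, leaf L5 (c): the divisor sums `Ec c l D` of `b ↦ tk (l³) b c`, `c` squarefree
-/

set_option autoImplicit false

noncomputable section

open MeasureTheory Complex Set
open scoped ComplexConjugate ContDiff

namespace Crest.Agent.R017.L5

open Crest.Agent.R012 Crest.Agent.R012.Eis Crest.Agent.R012.Mob705 Crest.Agent.R012.Div277
open Crest.Agent.R017.End699 Crest.Agent.R017.Sx545 Crest.Agent.R017.B770
open Crest.Agent.R017.Asm986 (sw_bound MV_congr)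

/-- divisor sums of `b ↦ tk (l³) b c` -/
def Ec (c l D : Eis) : ℂ := ∑ b ∈ dvs D, tk (l ^ 3) b c

/-- split a squarefree number at a prime -/
lemma split_sqf {c p : Eis} (hc : Sm 2 c) (sc : Squarefree c) (hp : Sm 2 p) (hpp : Prime p) :
    (¬ p ∣ c) ∨ ∃ c', c = p * c' ∧ ¬ p ∣ c' ∧ Sm 2 c' ∧ Squarefree c' := by
  by_cases h : p ∣ c
  · right
    obtain ⟨c', rfl⟩ := h
    refine ⟨c', rfl, ?_, hc.of_mul_left hp.prim, sc.of_mul_right⟩
    intro h2
    obtain ⟨d, rfl⟩ := h2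
    have := sc p ⟨d, by ring⟩
    exact hpp.not_isUnit this
  · exact Or.inl h

section

variable (hT : TkAlg)
include hT

lemma norm_tk_pow_le' (k : Eis) {p : Eis} (hp : Sm 2 p) (hpp : Prime p) (j : ℕ) :
    ‖tk k (p ^ j) 1‖ ≤ (nm (p ^ j) : ℝ) ^ (19 / 24 : ℝ) := by
  have hq : (1 : ℝ) ≤ nm p := by exact_mod_cast nm_pos.mpr hp.ne_zero
  have hq0 : (0 : ℝ) < nm p := by linarith
  have hR : (nm (p ^ j) : ℝ) ^ (19 / 24 : ℝ) = (nm p : ℝ) ^ (19 / 24 * j : ℝ) := by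
    rw [nm_pow, Nat.cast_pow, ← Real.rpow_natCast, ← Real.rpow_mul hq0.le]
    congr 1; ring
  rw [hR]
  have hpos : 1 ≤ (nm p : ℝ) ^ (19 / 24 * j : ℝ) := Real.one_le_rpow hq (by positivity)
  rcases Nat.lt_or_ge j 2 with hj | hj
  · interval_cases j
    · rw [pow_zero, hT.one, norm_one]; exact hpos
    · rw [pow_one, hT.b1 _ _ hp hpp.irreducible.squarefree, muE_prime hpp, norm_mul]
      refine le_trans ?_ hpos
      have h1 : ‖sy k p‖ ≤ 1 := (Gauss880.isCh_sy Gauss880.syG hp.prim).norm_le_one hp.ne_zero k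
      simpa using h1
  · by_cases h4 : j % 4 = 1 ∨ j % 6 = 0
    · refine (hT.pow2 _ p j hp hpp hj).trans (Real.rpow_le_rpow_of_exponent_le hq ?_)
      have := sE_le hj h4
      have h5 : (24 * (sE j : ℝ) + 12) ≤ 19 * j := by exact_mod_cast this
      linarith
    · push Not at h4
      rw [hT.pow0 _ p j hp hpp hj h4.1 h4.2, norm_zero]
      linarith

open Classical in
lemma norm_tk_pp_le (k : Eis) {p : Eis} (hp : Sm 2 p) (hpp : Prime p) (j : ℕ) :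
    ‖tk k (p ^ j) p‖ ≤ (nm (p ^ j) : ℝ) ^ (19 / 24 : ℝ) * nm p := by
  have hq : (1 : ℝ) ≤ nm p := by exact_mod_cast nm_pos.mpr hp.ne_zero
  have hq0 : (0 : ℝ) < nm p := by linarith
  have hp1 : (1 : ℝ) ≤ nm (p ^ j) := by
    exact_mod_cast nm_pos.mpr (pow_ne_zero _ hp.ne_zero)
  have hpos : (1 : ℝ) ≤ (nm (p ^ j) : ℝ) ^ (19 / 24 : ℝ) := Real.one_le_rpow hp1 (by norm_num)
  rcases Nat.lt_or_ge j 2 with hj | hj
  · interval_cases j
    · rw [pow_zero, hT.c1 _ _ hp hpp.irreducible.squarefree, RCLike.norm_conj]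
      have h1 : ‖sy k p‖ ≤ 1 := (Gauss880.isCh_sy Gauss880.syG hp.prim).norm_le_one hp.ne_zero k
      rw [pow_zero] at hpos
      nlinarith
    · rw [pow_one, hT.pp _ _ hp hpp]
      rw [pow_one] at hpos
      have h1 : ‖(if p ∣ k then (1 : ℂ) else 0) - (nm p : ℂ) * (if p ^ 2 ∣ k then 1 else 0)‖ ≤
          nm p := by
        by_cases h2 : p ^ 2 ∣ k
        · rw [if_pos h2, if_pos ((dvd_pow_self p two_ne_zero).trans h2), mul_one]
          have e : (1 : ℂ) - (nm p : ℂ) = (((1 : ℝ) - nm p : ℝ) : ℂ) := by push_cast; ring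
          rw [e, Complex.norm_real, Real.norm_eq_abs, abs_of_nonpos (by linarith)]
          linarith
        · rw [if_neg h2, mul_zero, sub_zero]
          split_ifs
          · simpa using hq
          · simp
      nlinarith
  · rw [hT.powc _ p j hp hpp hj, norm_zero]
    positivity

/-- **pointwise bound** -/
theorem norm_tk_le_c (k : Eis) {b : Eis} (hb : Sm 2 b) :
    ∀ c : Eis, Sm 2 c → Squarefree c → ‖tk k b c‖ ≤ (nm b : ℝ) ^ (19 / 24 : ℝ) * nm c := by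
  refine Sm.induction_coprime (m := 2)
    (P := fun b => ∀ c : Eis, Sm 2 c → Squarefree c →
      ‖tk k b c‖ ≤ (nm b : ℝ) ^ (19 / 24 : ℝ) * nm c) ?_ ?_ b hb
  · intro c hc sc
    have hc1 : (1 : ℝ) ≤ nm c := by exact_mod_cast nm_pos.mpr hc.ne_zero
    rw [hT.c1 _ _ hc sc, RCLike.norm_conj, nm_one]
    have h1 : ‖sy k c‖ ≤ 1 := (Gauss880.isCh_sy Gauss880.syG hc.prim).norm_le_one hc.ne_zero k
    simpa using h1.trans hc1
  · intro p j b hp hpp hj hb hpb ih c hc sc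
    have hcop : IsCoprime (p ^ j) b :=
      (hpp.irreducible.coprime_iff_not_dvd.mpr hpb).pow_left
    have hnm : (nm (p ^ j * b) : ℝ) ^ (19 / 24 : ℝ) =
        (nm (p ^ j) : ℝ) ^ (19 / 24 : ℝ) * (nm b : ℝ) ^ (19 / 24 : ℝ) := by
      rw [nm_mul, Nat.cast_mul, Real.mul_rpow (Nat.cast_nonneg _) (Nat.cast_nonneg _)]
    rw [hnm]
    rcases split_sqf hc sc hp hpp with h | ⟨c', rfl, hpc', hc', sc'⟩
    · have hpc : IsCoprime (p ^ j) c := (hpp.irreducible.coprime_iff_not_dvd.mpr h).pow_left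
      have := hT.mul k (p ^ j) b 1 c (hp.pow j) hb (Sm.one 2) hc (by
        rw [mul_one]; exact hcop.mul_right hpc)
      rw [one_mul] at this
      rw [this, norm_mul, mul_assoc]
      exact mul_le_mul (norm_tk_pow_le' hT k hp hpp j) (ih c hc sc) (norm_nonneg _)
        (by positivity)
    · have hpc : IsCoprime p c' := hpp.irreducible.coprime_iff_not_dvd.mpr hpc'
      have := hT.mul k (p ^ j) b p c' (hp.pow j) hb hp hc' (by
        refine IsCoprime.mul_left ?_ ?_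
        · exact hcop.mul_right hpc.pow_left
        · exact (hpp.irreducible.coprime_iff_not_dvd.mpr hpb).mul_right hpc)
      rw [this, norm_mul, nm_mul]
      push_cast
      calc _ ≤ ((nm (p ^ j) : ℝ) ^ (19 / 24 : ℝ) * nm p) *
            ((nm b : ℝ) ^ (19 / 24 : ℝ) * nm c') :=
            mul_le_mul (norm_tk_pp_le hT k hp hpp j) (ih c' hc' sc') (norm_nonneg _)
              (by positivity)
        _ = _ := by ring

/-- splitting off a prime power prime to `c` -/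
lemma Ec_pow_mul {c : Eis} (hc : Sm 2 c) (l : Eis) {p b : Eis} (hp : Sm 2 p) (hpp : Prime p)
    (hpc : ¬ p ∣ c) (hb : Sm 2 b) (hpb : ¬ p ∣ b) (j : ℕ) :
    Ec c l (p ^ j * b) = El l (p ^ j) * Ec c l b := by
  have hcop : IsCoprime (p ^ j) b :=
    (hpp.irreducible.coprime_iff_not_dvd.mpr hpb).pow_left
  have hcc : IsCoprime (p ^ j) c := (hpp.irreducible.coprime_iff_not_dvd.mpr hpc).pow_left
  unfold Ec El
  rw [BL7.sum_dvs_mul (hp.pow j).ne_zero hb.ne_zero hcop, Finset.sum_mul_sum, Finset.sum_comm]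
  refine Finset.sum_congr rfl fun e₁ he₁ => Finset.sum_congr rfl fun e₂ he₂ => ?_
  have d1 := dvd_of_mem_dvs he₁
  have d2 := dvd_of_mem_dvs he₂
  have := hT.mul (l ^ 3) e₁ e₂ 1 c ((hp.pow j).of_dvd (isPrim_of_mem_dvs he₁) d1)
    (hb.of_dvd (isPrim_of_mem_dvs he₂) d2) (Sm.one 2) hc (by
      rw [mul_one]
      refine IsCoprime.mul_right ?_ (hcc.of_isCoprime_of_dvd_left d1)
      exact (hcop.of_isCoprime_of_dvd_left d1).of_isCoprime_of_dvd_right d2)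
  rw [one_mul] at this
  exact this

theorem Ec_eq_zero {c : Eis} (hc : Sm 2 c) (l : Eis) {D p : Eis} (hD : Sm 2 D) (hp : Sm 2 p)
    (hpp : Prime p) (hpD : p ∣ D) (hpl : ¬ p ∣ l * c) : Ec c l D = 0 := by
  obtain ⟨k, b, rfl, hpb, hb⟩ := Res.exists_split hp hpp hD
  have hk : 1 ≤ k := by
    by_contra h
    have : k = 0 := by omega
    subst this
    exact hpb (by simpa using hpD)
  rw [Ec_pow_mul hT hc l hp hpp (fun h => hpl (h.mul_left _)) hb hpb,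
    El_pow_of_not hT l hp hpp (fun h => hpl (h.mul_right _)) hk, zero_mul]

theorem norm_Ec_le {c : Eis} (hc : Sm 2 c) (sc : Squarefree c) (l : Eis) {D : Eis}
    (hD : Sm 2 D) : ‖Ec c l D‖ ≤ nm c * (Fl (l * c) D * (nm D : ℝ) ^ (5 / 6 : ℝ)) := by
  have hn : (0 : ℝ) < nm D := by exact_mod_cast nm_pos.mpr hD.ne_zero
  unfold Fl
  split_ifs with h
  · rw [mul_assoc (tau D : ℝ), ← Real.rpow_add hn]
    norm_num
    unfold Ec
    refine (norm_sum_le _ _).trans ?_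
    have h1 : ∀ b ∈ dvs D, ‖tk (l ^ 3) b c‖ ≤ (nm D : ℝ) ^ (19 / 24 : ℝ) * nm c := by
      intro b hb
      have hd := dvd_of_mem_dvs hb
      refine (norm_tk_le_c hT (l ^ 3) (hD.of_dvd (isPrim_of_mem_dvs hb) hd) c hc sc).trans ?_
      have : (nm b : ℝ) ≤ nm D := by exact_mod_cast nm_le_of_dvd hD.ne_zero hd
      gcongr
    refine (Finset.sum_le_sum h1).trans (le_of_eq ?_)
    rw [Finset.sum_const, nsmul_eq_mul]
    show (tau D : ℝ) * _ = _
    ring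
  · push Not at h
    obtain ⟨p, hp, hpp, hpD, hpl⟩ := h
    rw [Ec_eq_zero hT hc l hD hp hpp hpD hpl, norm_zero, zero_mul, mul_zero]

end

/-! ### periodicity -/

lemma tk_periodic_c (k t : Eis) {b c : Eis} (hb : b ≠ 0) (hc : c ≠ 0) :
    tk (k + b * c * t) b c = tk k b c := by
  unfold tk
  congr 1
  apply SumMod880.sumMod_congr'
  intro a
  congr 1
  have hb' := Po581.toC_ne_zero hb
  have hc' := Po581.toC_ne_zero hc
  have e1 : -(toC a * toC (k + b * c * t) / (toC b * toC c)) =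
      -(toC a * toC k / (toC b * toC c)) + toC (-(a * t)) := by
    rw [map_add, map_mul, map_mul, map_neg, map_mul]
    field_simp
    ring
  rw [e1, SumMod880.eC_add_toC]

lemma Ec_periodic {c D : Eis} (hc : c ≠ 0) (l t : Eis) : Ec c (l + D * c * t) D = Ec c l D := by
  unfold Ec
  refine Finset.sum_congr rfl fun b hb => ?_
  obtain ⟨d, hd⟩ := dvd_of_mem_dvs hb
  have hb0 := (isPrim_of_mem_dvs hb).ne_zero
  have h1 : (l + D * c * t) ^ 3 = l ^ 3 + b * c *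
      (d * t * (3 * l ^ 2 + 3 * l * (D * c * t) + (D * c * t) ^ 2)) := by
    rw [hd]; ring
  rw [h1, tk_periodic_c _ _ hb0 hc]

open Classical in
/-- `1_{(l, m₀) = 1} Ec c l D`, periodic modulo `m₀ D c` -/
def gamc (m₀ c D l : Eis) : ℂ := if IsCoprime l m₀ then Ec c l D else 0

lemma perMod_gamc {m₀ c D : Eis} (hc : c ≠ 0) : Po581.PerMod (m₀ * (D * c)) (gamc m₀ c D) := by
  intro x y
  unfold gamc
  have h1 : x + m₀ * (D * c) * y = x + D * c * (m₀ * y) := by ring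
  have h2 : IsCoprime (x + m₀ * (D * c) * y) m₀ ↔ IsCoprime x m₀ := by
    rw [show x + m₀ * (D * c) * y = x + m₀ * (D * c * y) by ring]
    exact IsCoprime.add_mul_left_left_iff
  by_cases h : IsCoprime x m₀
  · rw [if_pos h, if_pos (h2.mpr h), h1, Ec_periodic hc]
  · rw [if_neg h, if_neg (fun h' => h (h2.mp h'))]

/-! ### sums over `D` -/

/-- weighted sums of `|Ec c l D|` -/
theorem Ec_sum (hT : TkAlg) {ε : ℝ} (hε : 0 < ε) : ∃ C : ℝ, 0 ≤ C ∧ ∀ c : Eis, Sm 2 c →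
    Squarefree c → ∀ l : Eis, l ≠ 0 →
    ∀ (s Z : ℝ), 5 / 6 ≤ s → 0 < Z → ∀ 𝓓 : Finset Eis, (∀ D ∈ 𝓓, Sm 2 D ∧ Z ≤ nm D) →
    ∑ D ∈ 𝓓, ‖Ec c l D‖ * (nm D : ℝ) ^ (-s) ≤
      C * nm c * (nm (l * c) : ℝ) ^ ε * Z ^ (-(s - 5 / 6)) := by
  classical
  obtain ⟨C, hC0, hC⟩ := sum_Fl hε
  refine ⟨C, hC0, fun c hc sc l hl s Z hs hZ 𝓓 h𝓓 => ?_⟩
  have h1 : ∀ D ∈ 𝓓, ‖Ec c l D‖ * (nm D : ℝ) ^ (-s) ≤
      nm c * Z ^ (-(s - 5 / 6)) * Fl (l * c) D := by
    intro D hD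
    obtain ⟨hS, hZD⟩ := h𝓓 D hD
    have hn : (0 : ℝ) < nm D := by exact_mod_cast nm_pos.mpr hS.ne_zero
    have hFl : 0 ≤ Fl (l * c) D := by unfold Fl; split_ifs <;> positivity
    calc ‖Ec c l D‖ * (nm D : ℝ) ^ (-s) ≤ (nm c * (Fl (l * c) D * (nm D : ℝ) ^ (5 / 6 : ℝ))) *
          (nm D : ℝ) ^ (-s) := by
          gcongr
          exact norm_Ec_le hT hc sc l hS
      _ = nm c * (nm D : ℝ) ^ (-(s - 5 / 6)) * Fl (l * c) D := by
          rw [mul_assoc, mul_assoc, ← Real.rpow_add hn, mul_assoc, mul_comm (Fl _ _)]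
          congr 3; ring
      _ ≤ nm c * Z ^ (-(s - 5 / 6)) * Fl (l * c) D := by
          gcongr ?_ * ?_ * _
          exact Real.rpow_le_rpow_of_nonpos hZ hZD (by linarith)
  refine (Finset.sum_le_sum h1).trans ?_
  rw [← Finset.mul_sum]
  obtain ⟨N, hN⟩ : ∃ N : ℕ, ∀ D ∈ 𝓓, nm D ≤ N := ⟨𝓓.sup nm, fun D hD => Finset.le_sup hD⟩
  have h2 : ∑ D ∈ 𝓓, Fl (l * c) D ≤ ∑ D ∈ (primBall N).filter (Sm 2), Fl (l * c) D := by
    refine Finset.sum_le_sum_of_subset_of_nonneg ?_ ?_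
    · intro D hD
      obtain ⟨hS, _⟩ := h𝓓 D hD
      rw [Finset.mem_filter, mem_primBall]
      exact ⟨⟨hN D hD, hS.prim⟩, hS⟩
    · intro D _ _
      unfold Fl; split_ifs <;> positivity
  calc nm c * Z ^ (-(s - 5 / 6)) * ∑ D ∈ 𝓓, Fl (l * c) D
      ≤ nm c * Z ^ (-(s - 5 / 6)) * (C * (nm (l * c) : ℝ) ^ ε) := by
        gcongr
        exact h2.trans (hC (l * c) (mul_ne_zero hl hc.ne_zero) N)
    _ = _ := by ring

/-- partial sums over `D` with arbitrary scalar factors -/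
theorem Dsum_le_c (hT : TkAlg) {ε : ℝ} (hε : 0 < ε) : ∃ C : ℝ, 0 ≤ C ∧
    ∀ (q : Eis) (χ : Eis → ℂ), HC q χ → (2 : Eis) ∣ q → ∀ (l' : ℤ) (c : Eis), Sm 2 c →
    Squarefree c → ∀ l : Eis, l ≠ 0 →
    ∀ (s Z K : ℝ), 5 / 6 ≤ s → 0 < Z → 0 ≤ K → ∀ mv : Eis → ℂ, ∀ 𝓓 : Finset Eis,
    (∀ D ∈ 𝓓, IsPrim D ∧ Z ≤ nm D) → (∀ D ∈ 𝓓, ‖mv D‖ ≤ K * (nm D : ℝ) ^ (-s)) →
    ∑ D ∈ 𝓓, ‖tw χ l' D * Ec c l D * mv D‖ ≤
      C * nm c * (nm (l * c) : ℝ) ^ ε * K * Z ^ (-(s - 5 / 6)) := by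
  classical
  obtain ⟨C, hC0, hC⟩ := Ec_sum hT hε
  refine ⟨C, hC0, fun q χ hχ h2 l' c hc sc l hl s Z K hs hZ hK mv 𝓓 h𝓓 hmv => ?_⟩
  have h1 : ∑ D ∈ 𝓓, ‖tw χ l' D * Ec c l D * mv D‖ ≤
      ∑ D ∈ 𝓓.filter (Sm 2), K * (‖Ec c l D‖ * (nm D : ℝ) ^ (-s)) := by
    rw [Finset.sum_filter]
    refine Finset.sum_le_sum fun D hD => ?_
    obtain ⟨hp, _⟩ := h𝓓 D hD
    by_cases hne : tw χ l' D = 0
    · rw [hne]
      simp only [zero_mul, norm_zero]
      split_ifs <;> positivity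
    · rw [if_pos (sm_of_tw_ne hχ h2 hp hne), norm_mul, norm_mul]
      have h3 : ‖tw χ l' D‖ ≤ 1 := (hχ.isChar_tw l').norm_le hp
      calc _ ≤ 1 * ‖Ec c l D‖ * (K * (nm D : ℝ) ^ (-s)) := by
            gcongr
            exact hmv D hD
        _ = _ := by ring
  refine h1.trans ?_
  rw [← Finset.mul_sum]
  have h4 := hC c hc sc l hl s Z hs hZ (𝓓.filter (Sm 2)) (fun D hD => by
    rw [Finset.mem_filter] at hD
    exact ⟨hD.2, (h𝓓 D hD.1).2⟩)
  calc K * ∑ D ∈ 𝓓.filter (Sm 2), ‖Ec c l D‖ * (nm D : ℝ) ^ (-s)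
      ≤ K * (C * nm c * (nm (l * c) : ℝ) ^ ε * Z ^ (-(s - 5 / 6))) := by gcongr
    _ = _ := by ring

/-! ### the sums over `b` -/

/-- the sum over `b` of `f(b) tk(l³;b,c) V(N b / X)` -/
def Nc (c l : Eis) (f : Eis → ℂ) (V : ℝ → ℂ) (X : ℝ) : ℂ := by
  classical
  exact ∑' b : Eis, if IsPrim b then f b * tk (l ^ 3) b c * V (nm b / X) else 0

lemma Nc_eq_sum {V : ℝ → ℂ} {X β : ℝ} (hβ : ∀ x, V x ≠ 0 → 0 < x ∧ x ≤ β) (hX : 0 < X)
    (c l : Eis) (f : Eis → ℂ) {N : ℕ} (hN : β * X < N + 1) :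
    Nc c l f V X = ∑ b ∈ primBall N, f b * tk (l ^ 3) b c * V (nm b / X) := by
  classical
  unfold Nc
  rw [tsum_eq_sum (s := primBall N)]
  · refine Finset.sum_congr rfl fun b hb => ?_
    rw [if_pos (mem_primBall.mp hb).2]
  · intro b hb
    split_ifs with h
    · by_contra h0
      apply hb
      rw [mem_primBall]
      have h1 := (hβ _ (right_ne_zero_of_mul h0)).2
      rw [div_le_iff₀ hX] at h1
      have h2 : (nm b : ℝ) < N + 1 := lt_of_le_of_lt h1 hN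
      exact ⟨by exact_mod_cast Nat.lt_succ_iff.mp (by exact_mod_cast h2), h⟩
    · rfl

lemma floor_div_lt' {x : ℝ} {N : ℕ} (hN : x < N + 1) {n : ℕ} (hn : 0 < n) :
    x / n < ((N / n : ℕ) : ℝ) + 1 := by
  have hn' : (0 : ℝ) < n := by exact_mod_cast hn
  have h1 : N + 1 ≤ (N / n + 1) * n := by
    have := Nat.lt_div_mul_add hn (a := N)
    rw [add_mul, one_mul]
    omega
  have h2 : ((N : ℝ) + 1) ≤ (((N / n : ℕ) : ℝ) + 1) * n := by exact_mod_cast h1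
  rw [div_lt_iff₀ hn']
  linarith

/-- **Möbius inversion** -/
theorem Nc_eq {V : ℝ → ℂ} {X β : ℝ} (hβ : ∀ x, V x ≠ 0 → 0 < x ∧ x ≤ β) (hX : 0 < X)
    (c l : Eis) {f : Eis → ℂ} (hf : ∀ a b, IsPrim a → IsPrim b → f (a * b) = f a * f b) {N : ℕ}
    (hN : β * X < N + 1) :
    Nc c l f V X = ∑ D ∈ primBall N, f D * Ec c l D * MV V (X / nm D) f := by
  classical
  have e1 : ∀ D ∈ primBall N, f D * Ec c l D * MV V (X / nm D) f =
      ∑ b ∈ dvs D, tk (l ^ 3) b c * ∑ m ∈ primBall (N / nm D),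
        (muE m : ℂ) * (f (D * m) * V ((nm (D * m) : ℕ) / X)) := by
    intro D hD
    have hDp := (mem_primBall.mp hD).2
    have hD1 : 0 < nm D := nm_pos.mpr hDp.ne_zero
    have hD0' : (0 : ℝ) < nm D := by exact_mod_cast hD1
    rw [MV_eq_sum hβ (by positivity) f (by
      rw [mul_div_assoc']; exact floor_div_lt' hN hD1)]
    unfold Ec
    rw [mul_assoc, Finset.sum_mul, Finset.mul_sum]
    refine Finset.sum_congr rfl fun b _ => ?_
    rw [Finset.mul_sum, Finset.mul_sum, Finset.mul_sum]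
    refine Finset.sum_congr rfl fun m hm => ?_
    have hmp := (mem_primBall.mp hm).2
    rw [hf D m hDp hmp, nm_mul, Nat.cast_mul, div_div_eq_mul_div]
    rw [show (nm m : ℝ) * nm D / X = nm D * nm m / X by ring]
    ring
  rw [Finset.sum_congr rfl e1, Nc_eq_sum hβ hX c l f hN]
  rw [sum_primBall_dvs N (fun b D => tk (l ^ 3) b c * ∑ m ∈ primBall (N / nm D),
        (muE m : ℂ) * (f (D * m) * V ((nm (D * m) : ℕ) / X)))]
  refine Finset.sum_congr rfl fun b hb => ?_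
  have hbp := (mem_primBall.mp hb).2
  have hb0 : 0 < nm b := nm_pos.mpr hbp.ne_zero
  rw [← Finset.mul_sum]
  have e2 : ∑ D ∈ primBall (N / nm b), ∑ m ∈ primBall (N / nm (b * D)),
        (muE m : ℂ) * (f (b * D * m) * V ((nm (b * D * m) : ℕ) / X)) =
      ∑ k ∈ primBall (N / nm b), ∑ m ∈ dvs k,
        (muE m : ℂ) * (f (b * k) * V ((nm (b * k) : ℕ) / X)) := by
    rw [sum_primBall_dvs (N / nm b) (fun m k => (muE m : ℂ) *
      (f (b * k) * V ((nm (b * k) : ℕ) / X)))]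
    rw [← swap_pairs (N / nm b) (fun D m => (muE m : ℂ) *
      (f (b * (m * D)) * V ((nm (b * (m * D)) : ℕ) / X)))]
    refine Finset.sum_congr rfl fun D _ => ?_
    rw [nm_mul, ← Nat.div_div_eq_div_mul]
    refine Finset.sum_congr rfl fun m _ => ?_
    rw [show b * D * m = b * (m * D) by ring]
  rw [e2]
  have e3 : ∀ k ∈ primBall (N / nm b), ∑ m ∈ dvs k,
        (muE m : ℂ) * (f (b * k) * V ((nm (b * k) : ℕ) / X)) =
      if k = 1 then f (b * k) * V ((nm (b * k) : ℕ) / X) else 0 := by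
    intro k hk
    have h := congrArg (fun z : ℤ => (z : ℂ)) (sum_dvs_muE_one (mem_primBall.mp hk).2)
    beta_reduce at h
    push_cast at h
    rw [← Finset.sum_mul, h]
    split_ifs <;> simp
  rw [Finset.sum_congr rfl e3, Finset.sum_ite_eq']
  rw [if_pos]
  · rw [mul_one]; ring
  · rw [mem_primBall]
    refine ⟨?_, isPrim_one⟩
    rw [nm_one, Nat.le_div_iff_mul_le hb0, one_mul]
    exact (mem_primBall.mp hb).1

/-- **pointwise bound** for `Nc` -/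
theorem Nc_bound (hT : TkAlg) {θ ε : ℝ} (hθ : 5 / 6 ≤ θ) (hθ1 : θ ≤ 1) (hPF : PF Set.univ θ)
    (hε : 0 < ε) (hε1 : ε ≤ 1) (l' : ℤ) {V : ℝ → ℂ} (hV : SW V) :
    ∃ C : ℝ, 0 ≤ C ∧ ∀ (q : Eis) (χ : Eis → ℂ), HC q χ → (2 : Eis) ∣ q → ∀ c : Eis, Sm 2 c →
      Squarefree c → ∀ l : Eis, l ≠ 0 → ∀ X : ℝ, 0 < X →
      ‖Nc c l (tw χ l') V X‖ ≤
        C * nm c * (nm (l * c) : ℝ) ^ ε * ((nm q : ℝ) ^ ε * X ^ (θ + ε)) := by
  obtain ⟨C1, h10, h1⟩ := MV_bound (by linarith) hθ1 hPF hε hε1 l' hV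
  obtain ⟨C2, h20, h2⟩ := Dsum_le_c hT hε
  obtain ⟨β, hβ1, hβ⟩ := sw_bound hV
  refine ⟨C2 * C1, by positivity, fun q χ hχ hq2 c hc sc l hl X hX => ?_⟩
  rw [Nc_eq hβ hX c l (fun a b ha hb => (hχ.isChar_tw l').mul a b ha hb)
    (Nat.lt_floor_add_one (β * X))]
  refine (norm_sum_le _ _).trans ?_
  have h3 := h2 q χ hχ hq2 l' c hc sc l hl (θ + ε) 1 (C1 * (nm q : ℝ) ^ ε * X ^ (θ + ε))
    (by linarith) one_pos (by positivity) (fun D => MV V (X / nm D) (tw χ l'))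
    (primBall ⌊β * X⌋₊)
    (fun D hD => ⟨(mem_primBall.mp hD).2, by
      exact_mod_cast nm_pos.mpr (mem_primBall.mp hD).2.ne_zero⟩) (fun D hD => ?_)
  · refine h3.trans (le_of_eq ?_)
    rw [Real.one_rpow]; ring
  · have hD0 : (0 : ℝ) < nm D := by
      exact_mod_cast nm_pos.mpr (mem_primBall.mp hD).2.ne_zero
    refine (h1 q χ hχ (X / nm D) (by positivity)).trans (le_of_eq ?_)
    rw [Real.div_rpow hX.le hD0.le, Real.rpow_neg hD0.le, div_eq_mul_inv]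
    ring

end Crest.Agent.R017.L5
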