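import Crest.Agent.R017.BL5c_868

/-!
# Row 17, leaf L5 (d): removal of the large amplifier primes
-/

set_option autoImplicit false

noncomputable section

open MeasureTheory Complex Set
open scoped ComplexConjugate ContDiff

namespace Crest.Agent.R017.L5

open Crest.Agent.R012 Crest.Agent.R012.Eis Crest.Agent.R012.Mob705 Crest.Agent.R012.Div277
open Crest.Agent.R017.End699 Crest.Agent.R017.Sx545 Crest.Agent.R017.B770
open Crest.Agent.R017.Asm986 (sw_bound MV_congr)

/-- restriction to elements prime to `n` -/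
def fx (n : Eis) (f : Eis → ℂ) (b : Eis) : ℂ := f b * prin0 n b

/-- completely multiplicative functions supported on the odd primary elements -/
structure MF (f : Eis → ℂ) : Prop where
  mul : ∀ a b, IsPrim a → IsPrim b → f (a * b) = f a * f b
  sm : ∀ b, IsPrim b → f b ≠ 0 → Sm 2 b

lemma prin0_mul (x y b : Eis) : prin0 (x * y) b = prin0 x b * prin0 y b := by
  classical
  unfold prin0
  by_cases hx : IsCoprime b x
  · by_cases hy : IsCoprime b y
    · rw [if_pos hx, if_pos hy, if_pos (hx.mul_right hy), mul_one]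
    · rw [if_neg hy, if_neg (fun h => hy h.of_mul_right_right), mul_zero]
  · rw [if_neg hx, if_neg (fun h => hx h.of_mul_right_left), zero_mul]

lemma prin0_mul_right (x a b : Eis) : prin0 x (a * b) = prin0 x a * prin0 x b := by
  classical
  unfold prin0
  by_cases hx : IsCoprime a x
  · by_cases hy : IsCoprime b x
    · rw [if_pos hx, if_pos hy, if_pos (hx.mul_left hy), mul_one]
    · rw [if_neg hy, if_neg (fun h => hy h.of_mul_left_right), mul_zero]
  · rw [if_neg hx, if_neg (fun h => hx h.of_mul_left_left), zero_mul]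

lemma MF.fx {f : Eis → ℂ} (hf : MF f) (n : Eis) : MF (fx n f) where
  mul a b ha hb := by
    unfold L5.fx
    rw [hf.mul a b ha hb, prin0_mul_right]; ring
  sm b hb h := hf.sm b hb (left_ne_zero_of_mul h)

lemma fx_fx (x y : Eis) (f : Eis → ℂ) : fx x (fx y f) = fx (y * x) f := by
  funext b
  unfold fx
  rw [prin0_mul]; ring

lemma fx_one (f : Eis → ℂ) : fx 1 f = f := by
  classical
  funext b
  unfold fx prin0
  rw [if_pos isCoprime_one_right, mul_one]

lemma fx_of_coprime {n b : Eis} (f : Eis → ℂ) (h : IsCoprime b n) : fx n f b = f b := by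
  classical
  unfold fx prin0
  rw [if_pos h, mul_one]

lemma fx_of_not {n b : Eis} (f : Eis → ℂ) (h : ¬ IsCoprime b n) : fx n f b = 0 := by
  classical
  unfold fx prin0
  rw [if_neg h, mul_zero]

/-- splitting a sum at a prime -/
lemma sum_split (N : ℕ) {p : Eis} (hp : Sm 2 p) (hpp : Prime p) {f : Eis → ℂ} (hf : MF f)
    {T : Eis → ℂ} (W : ℕ → ℂ) (A B : ℂ) (T' : Eis → ℂ)
    (h0 : ∀ b, Sm 2 b → ¬ p ∣ b → T b = A * T' b)
    (h1 : ∀ b, Sm 2 b → ¬ p ∣ b → T (p * b) = B * T' b)
    (h2 : ∀ j b, Sm 2 b → ¬ p ∣ b → 2 ≤ j → T (p ^ j * b) = 0) :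
    ∑ b ∈ primBall N, f b * T b * W (nm b) =
      A * ∑ b ∈ primBall N, fx p f b * T' b * W (nm b) +
      B * f p * ∑ b ∈ primBall (N / nm p), fx p f b * T' b * W (nm p * nm b) := by
  classical
  have hcop : ∀ b : Eis, IsCoprime b p ↔ ¬ p ∣ b := fun b => by
    rw [isCoprime_comm]; exact hpp.irreducible.coprime_iff_not_dvd
  have e1 : ∑ b ∈ primBall N, f b * T b * W (nm b) =
      ∑ b ∈ primBall N, (if p ∣ b then 0 else f b * T b * W (nm b)) +
      ∑ b ∈ (primBall N).filter (fun b => p ∣ b), f b * T b * W (nm b) := by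
    rw [Finset.sum_filter, ← Finset.sum_add_distrib]
    refine Finset.sum_congr rfl fun b _ => ?_
    split_ifs <;> simp
  rw [e1, primBall_filter_dvd N hp.prim, Finset.sum_map, Finset.mul_sum, Finset.mul_sum]
  congr 1
  · refine Finset.sum_congr rfl fun b hb => ?_
    have hbp := (mem_primBall.mp hb).2
    by_cases h : p ∣ b
    · rw [if_pos h, fx_of_not f (fun h' => (hcop b).mp h' h)]; ring
    · rw [if_neg h, fx_of_coprime f ((hcop b).mpr h)]
      by_cases hz : f b = 0
      · rw [hz]; ring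
      · rw [h0 b (hf.sm b hbp hz) h]; ring
  · refine Finset.sum_congr rfl fun b hb => ?_
    have hbp := (mem_primBall.mp hb).2
    simp only [mulEmb_apply]
    rw [hf.mul p b hp.prim hbp, nm_mul]
    by_cases hz : f b = 0
    · unfold fx
      rw [hz]; ring
    · have hbS := hf.sm b hbp hz
      by_cases h : p ∣ b
      · rw [fx_of_not f (fun h' => (hcop b).mp h' h)]
        obtain ⟨k, b', rfl, hpb', hb'⟩ := Res.exists_split hp hpp hbS
        have hk : 1 ≤ k := by
          by_contra h'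
          have : k = 0 := by omega
          subst this
          exact hpb' (by simpa using h)
        rw [show p * (p ^ k * b') = p ^ (k + 1) * b' by ring, h2 (k + 1) b' hb' hpb' (by omega)]
        ring
      · rw [fx_of_coprime f ((hcop b).mpr h), h1 b hbS h]; ring

section

variable (hT : TkAlg)
include hT

omit hT in
lemma sy_cube_of_not {l p : Eis} (hp : Sm 2 p) (hpp : Prime p) (hpl : ¬ p ∣ l) :
    sy (l ^ 3) p = 1 := by
  have hPP : IsPP p := ⟨hp.prim, hpp⟩
  exact sy_cube_left hp.prim ((hPP.isCoprime_iff).mpr hpl).symm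

open Classical in
/-- removal of a prime factor of `c` -/
theorem Nc_rec {V : ℝ → ℂ} {X β : ℝ} (hβ : ∀ x, V x ≠ 0 → 0 < x ∧ x ≤ β) (hX : 0 < X)
    {c p : Eis} (hc : Sm 2 c) (hp : Sm 2 p) (hpp : Prime p) (hpc : ¬ p ∣ c) (l : Eis)
    {f : Eis → ℂ} (hf : MF f) :
    Nc (c * p) l f V X = if p ∣ l then (1 - (nm p : ℂ)) * f p * Nc c l (fx p f) V (X / nm p)
      else Nc c l (fx p f) V X := by
  have hN := Nat.lt_floor_add_one (β * X)
  set N := ⌊β * X⌋₊ with hNdef
  have hp0 : 0 < nm p := nm_pos.mpr hp.ne_zero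
  have hp0' : (0 : ℝ) < nm p := by exact_mod_cast hp0
  have hcp : IsCoprime p c := hpp.irreducible.coprime_iff_not_dvd.mpr hpc
  have key := sum_split N hp hpp hf (T := fun b => tk (l ^ 3) b (c * p))
    (W := fun n => V (n / X)) (conj (sy (l ^ 3) p))
    ((if p ∣ l ^ 3 then (1 : ℂ) else 0) - (nm p : ℂ) * (if p ^ 2 ∣ l ^ 3 then 1 else 0))
    (fun b => tk (l ^ 3) b c)
    (by
      intro b hb hpb
      have hbp : IsCoprime b p := (hpp.irreducible.coprime_iff_not_dvd.mpr hpb).symm
      have := hT.mul (l ^ 3) b 1 c p hb (Sm.one 2) hc hp (by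
        rw [one_mul]; exact hbp.mul_left hcp.symm)
      rw [mul_one] at this
      rw [this, hT.c1 _ p hp hpp.irreducible.squarefree]
      ring)
    (by
      intro b hb hpb
      have hbp : IsCoprime b p := (hpp.irreducible.coprime_iff_not_dvd.mpr hpb).symm
      have := hT.mul (l ^ 3) p b p c hp hb hp hc (by
        refine IsCoprime.mul_left ?_ ?_ <;> exact hbp.symm.mul_right hcp)
      rw [mul_comm c p, this, hT.pp _ p hp hpp])
    (by
      intro j b hb hpb hj
      have hbp : IsCoprime p b := hpp.irreducible.coprime_iff_not_dvd.mpr hpb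
      have := hT.mul (l ^ 3) (p ^ j) b p c (hp.pow j) hb hp hc (by
        refine IsCoprime.mul_left ?_ ?_
        · exact (hbp.mul_right hcp).pow_left
        · exact hbp.mul_right hcp)
      rw [mul_comm c p, this, hT.powc _ p j hp hpp hj, zero_mul])
  rw [Nc_eq_sum hβ hX (c * p) l f hN, key]
  by_cases hpl : p ∣ l
  · have h3 : p ∣ l ^ 3 := hpl.trans (dvd_pow_self l (by norm_num))
    have h4 : p ^ 2 ∣ l ^ 3 := (pow_dvd_pow_of_dvd hpl 2).trans (pow_dvd_pow l (by norm_num))
    have h5 : sy (l ^ 3) p = 0 := (Gauss880.syG.eq_zero (l ^ 3) p hp.prim).mpr (by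
      intro h
      exact hpp.not_isUnit (h.isUnit_of_dvd' h3 dvd_rfl))
    rw [if_pos hpl, if_pos h3, if_pos h4, h5, map_zero, zero_mul, zero_add, mul_one,
      Nc_eq_sum hβ (by positivity) c l (fx p f) (by
        rw [mul_div_assoc']; exact floor_div_lt' hN hp0)]
    congr 1
    refine Finset.sum_congr rfl fun b _ => ?_
    congr 2
    push_cast
    rw [div_div_eq_mul_div, mul_comm]
  · have h3 : ¬ p ∣ l ^ 3 := fun h => hpl (hpp.dvd_of_dvd_pow h)
    have h4 : ¬ p ^ 2 ∣ l ^ 3 := fun h => h3 ((dvd_pow_self p two_ne_zero).trans h)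
    rw [if_neg hpl, if_neg h3, if_neg h4, sy_cube_of_not hp hpp hpl, map_one, one_mul, mul_zero,
      sub_zero, zero_mul, zero_mul, add_zero, Nc_eq_sum hβ hX c l (fx p f) hN]

/-- removal of the coprimality condition, `p ∤ l` -/
theorem Nc_rec2 {V : ℝ → ℂ} {X β : ℝ} (hβ : ∀ x, V x ≠ 0 → 0 < x ∧ x ≤ β) (hX : 0 < X)
    {c p : Eis} (hc : Sm 2 c) (hp : Sm 2 p) (hpp : Prime p) (hpc : ¬ p ∣ c) {l : Eis}
    (hpl : ¬ p ∣ l) {f : Eis → ℂ} (hf : MF f) :
    Nc c l f V X = Nc c l (fx p f) V X - f p * Nc c l (fx p f) V (X / nm p) := by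
  have hN := Nat.lt_floor_add_one (β * X)
  set N := ⌊β * X⌋₊ with hNdef
  have hp0 : 0 < nm p := nm_pos.mpr hp.ne_zero
  have hp0' : (0 : ℝ) < nm p := by exact_mod_cast hp0
  have hcp : IsCoprime p c := hpp.irreducible.coprime_iff_not_dvd.mpr hpc
  have key := sum_split N hp hpp hf (T := fun b => tk (l ^ 3) b c)
    (W := fun n => V (n / X)) 1 (-1) (fun b => tk (l ^ 3) b c)
    (by intro b _ _; rw [one_mul])
    (by
      intro b hb hpb
      have hbp : IsCoprime b p := (hpp.irreducible.coprime_iff_not_dvd.mpr hpb).symm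
      have := hT.mul (l ^ 3) p b 1 c hp hb (Sm.one 2) hc (by
        rw [mul_one]; exact hbp.symm.mul_right hcp)
      rw [one_mul] at this
      rw [this, hT.b1 _ p hp hpp.irreducible.squarefree, muE_prime hpp,
        sy_cube_of_not hp hpp hpl]
      push_cast; ring)
    (by
      intro j b hb hpb hj
      have hbp : IsCoprime p b := hpp.irreducible.coprime_iff_not_dvd.mpr hpb
      have := hT.mul (l ^ 3) (p ^ j) b 1 c (hp.pow j) hb (Sm.one 2) hc (by
        rw [mul_one]; exact (hbp.mul_right hcp).pow_left)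
      rw [one_mul] at this
      rw [this, tk_pow_of_not hT l hp hpp hpl hj, zero_mul])
  rw [Nc_eq_sum hβ hX c l f hN, key, Nc_eq_sum hβ hX c l (fx p f) hN,
    Nc_eq_sum hβ (X := X / nm p) (by positivity) c l (fx p f) (by
        rw [mul_div_assoc']; exact floor_div_lt' hN hp0)]
  have e : ∑ b ∈ primBall (N / nm p), fx p f b * tk (l ^ 3) b c * V (((nm p * nm b : ℕ) : ℝ) / X) =
      ∑ b ∈ primBall (N / nm p), fx p f b * tk (l ^ 3) b c * V ((nm b : ℝ) / (X / nm p)) := by
    refine Finset.sum_congr rfl fun b _ => ?_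
    congr 2
    push_cast
    rw [div_div_eq_mul_div, mul_comm]
  rw [e]
  ring

end

end Crest.Agent.R017.L5
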