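import Crest.Agent.R017.BL5c_868
import Crest.Agent.R017.BEndA_699

/-!
# Row 17, leaf L5: second list of sub-leaves (helper868)
-/

set_option autoImplicit false

noncomputable section

open MeasureTheory Complex Set
open scoped ComplexConjugate ContDiff

namespace Crest.Agent.R017.L5

open Crest.Agent.R012 Crest.Agent.R012.Eis Crest.Agent.R012.Mob705 Crest.Agent.R012.Div277
open Crest.Agent.R017.End699 Crest.Agent.R017.Sx545 Crest.Agent.R017.B770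
open Crest.Agent.R017.BEndA699

/-- `∏_{p ∣ c} (1 - 1/N p)` -/
def PE (c : Eis) : ℂ := ∏ p ∈ pp c, (1 - 1 / (nm p : ℂ))

open Classical in
/-- **MeanC**: the mean value of `gamc` -/
def MeanC : Prop := TkAlg → ∀ M m₀ : Eis, (36 : Eis) ∣ M → Rad0 M m₀ → ∀ c D : Eis, Sm M c →
  Squarefree c → Sm M D →
  sumMod (m₀ * (D * c)) (gamc m₀ c D) / (nm (m₀ * (D * c)) : ℂ) =
    if IsCoprime D c then PE c * EE m₀ D else 0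

open Classical in
/-- **CubeK**: sums over the principal `k` -/
def CubeK : Prop := ∀ M m₀ : Eis, (36 : Eis) ∣ M → Rad0 M m₀ → ∃ c : ℂ, c ≠ 0 ∧
  ∀ Φ : Eis → ℂ, Summable (fun l : Eis => if IsCoprime l m₀ then Φ (l ^ 3) else 0) →
    ∑' k : Eis, (if Prn M k then FE47.DM (3 * m₀) (fun a => sy a m₀) k * Φ k else 0) =
      c * ∑' l : Eis, if IsCoprime l m₀ then Φ (l ^ 3) else 0

open Classical in
/-- `∑_{e⁶ D' = D} ξ(e) N(e)³ a(D')` -/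
def eG (M : Eis) (ξ a : Eis → ℂ) (D : Eis) : ℂ :=
  ∑ p ∈ (dvs D ×ˢ dvs D).filter (fun p => p.1 ^ 6 * p.2 = D ∧ Sm M p.1 ∧ Sm M p.2),
    ξ p.1 * (nm p.1 : ℂ) ^ 3 * a p.2

open Classical in
/-- **ReE**: the coefficients of the main term -/
def ReE : Prop := ∃ (P₀ : ℕ) (δ : ℝ), 0 < δ ∧ ∀ M : Eis, (36 : Eis) ∣ M → ∀ ξ a : Eis → ℂ,
  (∀ e, ‖ξ e‖ ≤ 1) → ξ 1 = 1 →
  Summable (fun D : Eis => (if Sm M D then ‖a D‖ else 0) * (nm D : ℝ) ^ (-(5 / 6) : ℝ)) →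
  AC (eG M ξ a) (5 / 6) ∧
  ((∀ p : Eis, Prime p → nm p ≤ P₀ → p ∣ M) → a 1 ≠ 0 →
    ∑' D : Eis, (if Sm M D ∧ D ≠ 1 then ‖a D‖ else 0) * (nm D : ℝ) ^ (-(5 / 6) : ℝ) ≤ δ * ‖a 1‖ →
    Dom (eG M ξ a)) ∧
  (∀ V : ℝ → ℂ, SW V → ∀ (ψ : Eis → ℂ) (l : ℤ), HC M ψ → ∀ Q : ℝ, 0 < Q →
    SQ (eG M ξ a) V ψ l Q = ∑' e : Eis, if Sm M e then ξ e * (nm e : ℂ) ^ 3 *
      ∑' D : Eis, (if Sm M D then a D * MV V (Q / ((nm e : ℝ) ^ 6 * nm D)) (tw ψ l) else 0)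
      else 0)

/-- **TupF**: the tuples of the amplifier -/
def TupF : Prop := ∀ h : ℝ → ℂ, HW h → ∀ (r : ℕ) (y : ℝ), 0 < r → 0 < y →
  (∀ Q₀ : ℝ, Amp h r y Q₀ Finset.univ (fun _ => 1) =
    ∑ p ∈ tup r y Q₀ Finset.univ,
      ∏ i : (Finset.univ : Finset (Fin r)), h (Real.log (nm (p i)) - kap r y Q₀ i)) ∧
  (∃ C : ℝ, 0 ≤ C ∧ ∀ Q₀ : ℝ, 1 ≤ Q₀ → ∑ p ∈ tup r y Q₀ Finset.univ,
      ‖∏ i : (Finset.univ : Finset (Fin r)), h (Real.log (nm (p i)) - kap r y Q₀ i)‖ ≤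
        C * Q₀ ^ y ∧
    ∀ p ∈ tup r y Q₀ Finset.univ,
      ∏ i : (Finset.univ : Finset (Fin r)), h (Real.log (nm (p i)) - kap r y Q₀ i) ≠ 0 →
      (∀ i, IsPrim (p i) ∧ Prime (p i) ∧ Q₀ ^ (y / r) ≤ C * nm (p i) ∧
        (nm (p i) : ℝ) ≤ C * Q₀ ^ (y / r)) ∧ Function.Injective p)

end Crest.Agent.R017.L5
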