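import Crest.Agent.R017.BDefs3_770
import Crest.Agent.R017.NatZ_571
import Crest.Agent.R017.TkAlg_545

/-!
# Row 17, section B, leaf L4' in the re-frozen form: the natural sum at `k = 0` (helper571)
-/

set_option autoImplicit false

noncomputable section

open MeasureTheory Complex Set
open scoped ComplexConjugate ContDiff

namespace Crest.Agent.R017.NatZ3571

open Crest.Agent.R012 Crest.Agent.R012.Eis Crest.Agent.R012.Mob705 Crest.Agent.R012.Gauss880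
open Crest.Agent.R017.End699 Crest.Agent.R017.Sx440 Crest.Agent.R017.Sx545
open Crest.Agent.R017.B770 Crest.Agent.R017.Eul571 Crest.Agent.R012.Div277
open Crest.Agent.R017.NatZ571 Crest.Agent.R017.Asm986

open Classical in
lemma mem_sqS {M : Eis} {κ : ℝ} {c : Eis} : c ∈ sqS M κ ↔
    ((nm c ≤ ⌊Real.exp (κ + 1)⌋₊ ∧ IsPrim c) ∧ Squarefree c) ∧ IsCoprime c M := by
  unfold sqS sqB
  simp only [Finset.mem_filter, mem_primBall]

lemma nm_le_of_mem_sqS {M : Eis} {κ : ℝ} {c : Eis} (h : c ∈ sqS M κ) :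
    (nm c : ℝ) ≤ Real.exp (κ + 1) :=
  (Nat.cast_le.mpr (mem_sqS.mp h).1.1.1).trans (Nat.floor_le (Real.exp_pos _).le)

lemma card_sqS_le (M : Eis) (κ : ℝ) : ((sqS M κ).card : ℝ) ≤ 100 * Real.exp (κ + 1) := by
  classical
  have h1 : ((sqS M κ).card : ℝ) ≤ ((primBall ⌊Real.exp (κ + 1)⌋₊).card : ℝ) := by
    unfold sqS sqB
    exact_mod_cast (Finset.card_filter_le _ _).trans (Finset.card_filter_le _ _)
  refine h1.trans ((Lat277.card_primBall_le _).trans ?_)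
  exact mul_le_mul_of_nonneg_left (Nat.floor_le (Real.exp_pos _).le) (by norm_num)

/-- the weighted sum over `c₀` -/
lemma sum_sqS_le {h₀ : ℝ → ℂ} {B a : ℝ} (hB0 : 0 ≤ B) (hB : ∀ u, ‖h₀ u‖ ≤ B) (ha : 0 ≤ a)
    (M : Eis) (κ : ℝ) :
    ∑ c ∈ sqS M κ, ‖h₀ (Real.log (nm c) - κ)‖ * (nm c : ℝ) ^ a ≤
      100 * B * Real.exp ((1 + a) * (κ + 1)) := by
  have h1 : ∑ c ∈ sqS M κ, ‖h₀ (Real.log (nm c) - κ)‖ * (nm c : ℝ) ^ a ≤
      ∑ _c ∈ sqS M κ, B * (Real.exp (κ + 1)) ^ a := by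
    refine Finset.sum_le_sum fun c hc => ?_
    refine mul_le_mul (hB _) ?_ (by positivity) hB0
    exact Real.rpow_le_rpow (Nat.cast_nonneg _) (nm_le_of_mem_sqS hc) ha
  rw [Finset.sum_const, nsmul_eq_mul] at h1
  refine h1.trans ?_
  have h2 : ((sqS M κ).card : ℝ) * (B * (Real.exp (κ + 1)) ^ a) ≤
      (100 * Real.exp (κ + 1)) * (B * (Real.exp (κ + 1)) ^ a) :=
    mul_le_mul_of_nonneg_right (card_sqS_le M κ) (by positivity)
  refine h2.trans (le_of_eq ?_)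
  have h3 : Real.exp (κ + 1) * (Real.exp (κ + 1)) ^ a = Real.exp ((1 + a) * (κ + 1)) := by
    rw [← Real.exp_mul, ← Real.exp_add]; congr 1; ring
  rw [← h3]; ring

/-- size of the amplifier primes -/
lemma big_prime {M : Eis} (hM4 : (4 : ℝ) ≤ nm M) {r : ℕ} {y δ Q₀ : ℝ} (hQ₀ : 1 ≤ Q₀)
    (hMQ : (nm M : ℝ) * Q₀ ^ δ * 9 < Q₀ ^ (y / r)) {c₀ : Eis}
    (hc₀ : c₀ ∈ sqS M (δ * Real.log Q₀)) {i : Fin r} {p : Eis} (hp : IsPP p)
    (h1 : |Real.log (nm p) - kap r y Q₀ i| ≤ 1) : 4 * nm c₀ < nm p := by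
  have hQ0 : 0 < Q₀ := by linarith
  have hp0 : (0 : ℝ) < nm p := by exact_mod_cast nm_pos.mpr hp.ne_zero
  have hc := nm_le_of_mem_sqS hc₀
  have hce : Real.exp (δ * Real.log Q₀ + 1) = Q₀ ^ δ * Real.exp 1 := by
    rw [Real.exp_add, Real.rpow_def_of_pos hQ0]; congr 1; ring_nf
  have h2 : y / r * Real.log Q₀ - 1 ≤ Real.log (nm p) := by
    have h3 : kap r y Q₀ i = y / r * Real.log Q₀ + 3 * ((i : ℕ) : ℝ) := rfl
    have h4 := (abs_le.mp h1).1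
    have h5 : (0 : ℝ) ≤ ((i : ℕ) : ℝ) := Nat.cast_nonneg _
    linarith
  have h6 : Q₀ ^ (y / r) * Real.exp (-1) ≤ nm p := by
    have h7 := Real.exp_le_exp.mpr h2
    rw [Real.exp_log hp0] at h7
    refine le_trans (le_of_eq ?_) h7
    rw [Real.rpow_def_of_pos hQ0, ← Real.exp_add]; congr 1; ring
  have he : Real.exp 1 < 3 := by linarith [Real.exp_one_lt_d9]
  have he0 : 0 < Real.exp 1 := Real.exp_pos 1
  have h8 : Real.exp (-1) = (Real.exp 1)⁻¹ := Real.exp_neg 1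
  rw [h8] at h6
  have h9 : Q₀ ^ (y / r) ≤ nm p * Real.exp 1 := by
    rw [← div_eq_mul_inv, div_le_iff₀ he0] at h6
    exact h6
  have hqd : 0 < Q₀ ^ δ := Real.rpow_pos_of_pos hQ0 _
  rw [hce] at hc
  have h10 : (4 : ℝ) * nm c₀ < nm p := by
    have h11 : (nm M : ℝ) * Q₀ ^ δ * 9 < nm p * Real.exp 1 := lt_of_lt_of_le hMQ h9
    have h12 : 4 * (nm c₀ : ℝ) * Real.exp 1 ≤ 4 * (Q₀ ^ δ * Real.exp 1) * Real.exp 1 := by
      gcongr
    have h13 : 4 * (Q₀ ^ δ * Real.exp 1) * Real.exp 1 ≤ (nm M : ℝ) * Q₀ ^ δ * 9 := by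
      have h14 : Real.exp 1 * Real.exp 1 ≤ 9 := by nlinarith
      calc 4 * (Q₀ ^ δ * Real.exp 1) * Real.exp 1 = 4 * Q₀ ^ δ * (Real.exp 1 * Real.exp 1) := by
            ring
        _ ≤ (nm M : ℝ) * Q₀ ^ δ * 9 := by gcongr
    have h15 : 4 * (nm c₀ : ℝ) * Real.exp 1 < nm p * Real.exp 1 := by linarith
    exact lt_of_mul_lt_mul_right h15 he0.le
  exact_mod_cast h10

lemma nm_M_ge {M : Eis} (hM0 : M ≠ 0) (h2M : (2 : Eis) ∣ M) : (4 : ℝ) ≤ nm M := by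
  have := nm_le_of_dvd hM0 h2M
  rw [NatZ571.nm_two] at this
  exact_mod_cast this

/-- goodness of the full amplifier element `c₀ ∏ p_i` -/
theorem prod_good3 {M : Eis} (h2M : (2 : Eis) ∣ M) (hM0 : M ≠ 0) {h : ℝ → ℂ} (hh : HW h) {r : ℕ}
    {y δ Q₀ : ℝ} (hQ₀ : 1 ≤ Q₀) (hMQ : (nm M : ℝ) * Q₀ ^ δ * 9 < Q₀ ^ (y / r)) {J : Finset (Fin r)}
    {c₀ : Eis} (hc₀ : c₀ ∈ sqS M (δ * Real.log Q₀)) {p : ∀ _ : J, Eis} (hp : p ∈ tup r y Q₀ J)
    (hne : ∏ i : J, h (Real.log (nm (p i)) - kap r y Q₀ i) ≠ 0) :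
    Sm 2 (c₀ * ∏ i : J, p i) ∧ Squarefree (c₀ * ∏ i : J, p i) := by
  classical
  have hM4 := nm_M_ge hM0 h2M
  have hcm := mem_sqS.mp hc₀
  have hc1 : 1 ≤ nm c₀ := nm_pos.mpr hcm.1.1.2.ne_zero
  have hmem : ∀ i : J, p i ∈ prS (kap r y Q₀ i) := fun i => by
    unfold tup at hp
    exact Fintype.mem_piFinset.mp hp i
  have hPP : ∀ i : J, IsPP (p i) := fun i =>
    ⟨(NatZ571.mem_prS.mp (hmem i)).1.2, (NatZ571.mem_prS.mp (hmem i)).2⟩
  have hh0 : ∀ i : J, |Real.log (nm (p i)) - kap r y Q₀ i| ≤ 1 := fun i =>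
    hh.supp _ (Finset.prod_ne_zero_iff.mp hne i (Finset.mem_univ i))
  have hbig : ∀ i : J, 4 * nm c₀ < nm (p i) := fun i =>
    big_prime hM4 hQ₀ hMQ hc₀ (hPP i) (hh0 i)
  obtain ⟨hS, hsq⟩ := prod_good' hh hp hne (fun i _ _ => by have := hbig i; omega)
  have hcS : Sm 2 c₀ := ⟨hcm.1.1.2, hcm.2.of_isCoprime_of_dvd_right h2M⟩
  refine ⟨hcS.mul hS, ?_⟩
  refine squarefree_mul_iff.mpr ⟨?_, hcm.1.2, hsq⟩
  refine IsCoprime.isRelPrime ?_
  refine IsCoprime.prod_right fun i _ => ?_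
  refine ((hPP i).isCoprime_iff.mpr fun hd => ?_).symm
  have := nm_le_of_dvd hcm.1.1.2.ne_zero hd
  have := hbig i
  omega

/-- **L4'**, re-frozen form, with no `Q₀^ε`. -/
theorem natZ3' (H : TkAlg) (r : ℕ) (y δ : ℝ) (h₀ h : ℝ → ℂ) (hh₀ : HW h₀) (hh : HW h)
    (V : ℝ → ℂ) (hV : SW V) : ∃ C : ℝ, 0 ≤ C ∧
    ∀ (M : Eis) (f g : Eis → ℂ), M ≠ 0 → (2 : Eis) ∣ M → (∀ b, ‖f b‖ ≤ 1) → (∀ b, ‖g b‖ ≤ 1) →
    ∀ (Q₀ Q : ℝ), 1 ≤ Q → Q ≤ Q₀ → (nm M : ℝ) * Q₀ ^ δ * 9 < Q₀ ^ (y / r) →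
      ‖NSumS h₀ h r y Q₀ (δ * Real.log Q₀) Finset.univ M f g V Q 0‖ ≤
        C * ((Q₀ ^ (y + δ)) ^ 2 * (Q / Q₀ ^ (y + δ)) ^ (19 / 20 : ℝ)) := by
  classical
  obtain ⟨B₀, hB₀⟩ := hh₀.bounded
  obtain ⟨Bh, hBh⟩ := hh.bounded
  have hB₀0 : 0 ≤ B₀ := (norm_nonneg _).trans (hB₀ 0)
  obtain ⟨B, R, hB0, hR1, hB, hR⟩ := SW.bounds hV
  obtain ⟨C₁, hC₁0, hC₁⟩ := sum_tk_le H
  obtain ⟨D, hD0, hD⟩ := amp_sum_le r y hBh (a := 1 / 20) (by norm_num)
  refine ⟨100 * B₀ * Real.exp (21 / 20) * (D * (B * C₁ * R ^ (19 / 20 : ℝ))), by positivity, ?_⟩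
  intro M f g hM0 h2M hf hg Q₀ Q hQ hQQ hMQ
  have hQ₀ : 1 ≤ Q₀ := hQ.trans hQQ
  have hQ0 : 0 < Q₀ := by linarith
  have hQp : 0 < Q := by linarith
  have hM4 := nm_M_ge hM0 h2M
  have hT0 : 0 < Q₀ ^ (y + δ) := Real.rpow_pos_of_pos hQ0 _
  -- the inner sum
  have hinner : ∀ c : Eis, Sm 2 c → Squarefree c →
      ‖∑' b : Eis, if Sm M b then f b * tk 0 b c * V (nm b / Q) else 0‖ ≤
        B * C₁ * R ^ (19 / 20 : ℝ) * Q ^ (19 / 20 : ℝ) * (nm c : ℝ) ^ (1 / 20 : ℝ) := by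
    intro c hc hsq
    set X := ⌊R * Q⌋₊ with hX
    have hXY : (X : ℝ) ≤ R * Q := Nat.floor_le (by positivity)
    have hsupp : ∀ b ∉ (primBall X).filter (Sm 2),
        (if Sm M b then f b * tk 0 b c * V (nm b / Q) else 0) = 0 := by
      intro b hb
      by_cases hS : Sm M b
      · rw [if_pos hS]
        by_cases hV0 : V (nm b / Q) = 0
        · rw [hV0, mul_zero]
        · exfalso
          apply hb
          have h1 := hR _ hV0
          rw [div_le_iff₀ hQp] at h1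
          rw [Finset.mem_filter, mem_primBall]
          refine ⟨⟨Nat.le_floor h1, hS.1⟩, hS.1, ?_⟩
          exact hS.2.of_isCoprime_of_dvd_right h2M
      · rw [if_neg hS]
    rw [tsum_eq_sum hsupp]
    calc ‖∑ b ∈ (primBall X).filter (Sm 2),
          (if Sm M b then f b * tk 0 b c * V (nm b / Q) else 0)‖
        ≤ ∑ b ∈ (primBall X).filter (Sm 2), ‖tk 0 b c‖ * B := by
          refine (norm_sum_le _ _).trans (Finset.sum_le_sum fun b _ => ?_)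
          by_cases hS : Sm M b
          · rw [if_pos hS, norm_mul, norm_mul]
            refine mul_le_mul ?_ (hB _) (norm_nonneg _) (norm_nonneg _)
            calc ‖f b‖ * ‖tk 0 b c‖ ≤ 1 * ‖tk 0 b c‖ :=
                  mul_le_mul_of_nonneg_right (hf b) (norm_nonneg _)
              _ = ‖tk 0 b c‖ := one_mul _
          · rw [if_neg hS, norm_zero]; positivity
      _ = (∑ b ∈ (primBall X).filter (Sm 2), ‖tk 0 b c‖) * B := by rw [Finset.sum_mul]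
      _ ≤ (C₁ * (nm c : ℝ) ^ (1 / 20 : ℝ) * (R * Q) ^ (19 / 20 : ℝ)) * B :=
          mul_le_mul_of_nonneg_right (hC₁ c hc hsq X (R * Q) hXY) hB0
      _ = _ := by rw [Real.mul_rpow (by positivity) hQp.le]; ring
  set E : ℝ := B * C₁ * R ^ (19 / 20 : ℝ) * Q ^ (19 / 20 : ℝ) with hE
  have hE0 : 0 ≤ E := by positivity
  have hstep : ∀ c₀ ∈ sqS M (δ * Real.log Q₀),
      ‖h₀ (Real.log (nm c₀) - δ * Real.log Q₀) * ∑ p ∈ tup r y Q₀ Finset.univ,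
        (∏ i : (Finset.univ : Finset (Fin r)), h (Real.log (nm (p i)) - kap r y Q₀ i)) *
        g (c₀ * ∏ i : (Finset.univ : Finset (Fin r)), p i) *
        ∑' b : Eis, if Sm M b then
          f b * tk 0 b (c₀ * ∏ i : (Finset.univ : Finset (Fin r)), p i) * V (nm b / Q) else 0‖ ≤
      ‖h₀ (Real.log (nm c₀) - δ * Real.log Q₀)‖ * (nm c₀ : ℝ) ^ (1 / 20 : ℝ) *
        (D * CJ r y Q₀ Finset.univ ^ (1 + 1 / 20 : ℝ) * E) := by
    intro c₀ hc₀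
    rw [norm_mul, mul_assoc]
    refine mul_le_mul_of_nonneg_left ?_ (norm_nonneg _)
    calc ‖∑ p ∈ tup r y Q₀ Finset.univ,
        (∏ i : (Finset.univ : Finset (Fin r)), h (Real.log (nm (p i)) - kap r y Q₀ i)) *
        g (c₀ * ∏ i : (Finset.univ : Finset (Fin r)), p i) *
        ∑' b : Eis, if Sm M b then
          f b * tk 0 b (c₀ * ∏ i : (Finset.univ : Finset (Fin r)), p i) * V (nm b / Q) else 0‖
        ≤ ∑ p ∈ tup r y Q₀ Finset.univ,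
          ((∏ i : (Finset.univ : Finset (Fin r)),
            ‖h (Real.log (nm (p i)) - kap r y Q₀ i)‖) *
            (nm (∏ i : (Finset.univ : Finset (Fin r)), p i) : ℝ) ^ (1 / 20 : ℝ)) *
            ((nm c₀ : ℝ) ^ (1 / 20 : ℝ) * E) := by
          refine (norm_sum_le _ _).trans (Finset.sum_le_sum fun p hp => ?_)
          by_cases hne : ∏ i : (Finset.univ : Finset (Fin r)),
              h (Real.log (nm (p i)) - kap r y Q₀ i) = 0
          · rw [hne, zero_mul, zero_mul, norm_zero]; positivity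
          · obtain ⟨hS, hsq⟩ := prod_good3 h2M hM0 hh hQ₀ hMQ hc₀ hp hne
            rw [norm_mul, norm_mul, norm_prod]
            calc (∏ i : (Finset.univ : Finset (Fin r)),
                  ‖h (Real.log (nm (p i)) - kap r y Q₀ i)‖) *
                  ‖g (c₀ * ∏ i : (Finset.univ : Finset (Fin r)), p i)‖ *
                  ‖∑' b : Eis, if Sm M b then f b * tk 0 b
                    (c₀ * ∏ i : (Finset.univ : Finset (Fin r)), p i) * V (nm b / Q) else 0‖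
                ≤ (∏ i : (Finset.univ : Finset (Fin r)),
                  ‖h (Real.log (nm (p i)) - kap r y Q₀ i)‖) * 1 *
                  (E * (nm (c₀ * ∏ i : (Finset.univ : Finset (Fin r)), p i) : ℝ) ^
                    (1 / 20 : ℝ)) := by
                  refine mul_le_mul ?_ (hinner _ hS hsq) (norm_nonneg _) (by positivity)
                  exact mul_le_mul_of_nonneg_left (hg _) (by positivity)
              _ = _ := by
                  rw [nm_mul]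
                  push_cast
                  rw [Real.mul_rpow (Nat.cast_nonneg _) (Nat.cast_nonneg _)]
                  ring
      _ = (∑ p ∈ tup r y Q₀ Finset.univ,
          ((∏ i : (Finset.univ : Finset (Fin r)),
            ‖h (Real.log (nm (p i)) - kap r y Q₀ i)‖) *
            (nm (∏ i : (Finset.univ : Finset (Fin r)), p i) : ℝ) ^ (1 / 20 : ℝ))) *
            ((nm c₀ : ℝ) ^ (1 / 20 : ℝ) * E) := by rw [Finset.sum_mul]
      _ ≤ (D * CJ r y Q₀ Finset.univ ^ (1 + 1 / 20 : ℝ)) * ((nm c₀ : ℝ) ^ (1 / 20 : ℝ) * E) :=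
          mul_le_mul_of_nonneg_right (hD Q₀ hQ₀ Finset.univ) (by positivity)
      _ = _ := by ring
  have hsum : ‖NSumS h₀ h r y Q₀ (δ * Real.log Q₀) Finset.univ M f g V Q 0‖ ≤
      (∑ c₀ ∈ sqS M (δ * Real.log Q₀), ‖h₀ (Real.log (nm c₀) - δ * Real.log Q₀)‖ *
        (nm c₀ : ℝ) ^ (1 / 20 : ℝ)) * (D * CJ r y Q₀ Finset.univ ^ (1 + 1 / 20 : ℝ) * E) := by
    unfold NSumS
    rw [Finset.sum_mul]
    exact (norm_sum_le _ _).trans (Finset.sum_le_sum hstep)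
  -- the degenerate case `r = 0`
  rcases Nat.eq_zero_or_pos r with hr | hr
  · have hemp : sqS M (δ * Real.log Q₀) = ∅ := by
      rw [Finset.eq_empty_iff_forall_notMem]
      intro c hc
      have h1 := nm_le_of_mem_sqS hc
      have h2 : (1 : ℝ) ≤ nm c := by
        have : 1 ≤ nm c := nm_pos.mpr (mem_sqS.mp hc).1.1.2.ne_zero
        exact_mod_cast this
      have h3 : Real.exp (δ * Real.log Q₀ + 1) = Q₀ ^ δ * Real.exp 1 := by
        rw [Real.exp_add, Real.rpow_def_of_pos hQ0]; congr 1; ring_nf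
      rw [hr] at hMQ
      simp only [Nat.cast_zero, div_zero, Real.rpow_zero] at hMQ
      have h4 : 0 < Q₀ ^ δ := Real.rpow_pos_of_pos hQ0 _
      have h5 : Q₀ ^ δ * 36 < 1 := by nlinarith
      have h6 : Real.exp 1 < 3 := by linarith [Real.exp_one_lt_d9]
      rw [h3] at h1
      nlinarith
    unfold NSumS
    rw [hemp, Finset.sum_empty, norm_zero]
    positivity
  refine hsum.trans ?_
  have hCJ : CJ r y Q₀ Finset.univ = Q₀ ^ y := by
    unfold CJ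
    rw [Finset.card_univ, Fintype.card_fin]
    congr 1
    have : (r : ℝ) ≠ 0 := by exact_mod_cast hr.ne'
    field_simp
  rw [hCJ]
  have h1 := sum_sqS_le (h₀ := h₀) (B := B₀) (a := 1 / 20) hB₀0 hB₀ (by norm_num) M
    (δ * Real.log Q₀)
  have h2 : Real.exp ((1 + 1 / 20) * (δ * Real.log Q₀ + 1)) =
      Real.exp (21 / 20) * Q₀ ^ (δ * (21 / 20)) := by
    rw [Real.rpow_def_of_pos hQ0, ← Real.exp_add]; congr 1; ring
  rw [h2] at h1
  have hy0 : (0 : ℝ) ≤ Q₀ ^ y := Real.rpow_nonneg hQ0.le _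
  calc (∑ c₀ ∈ sqS M (δ * Real.log Q₀), ‖h₀ (Real.log (nm c₀) - δ * Real.log Q₀)‖ *
        (nm c₀ : ℝ) ^ (1 / 20 : ℝ)) * (D * (Q₀ ^ y) ^ (1 + 1 / 20 : ℝ) * E)
      ≤ (100 * B₀ * (Real.exp (21 / 20) * Q₀ ^ (δ * (21 / 20)))) *
          (D * (Q₀ ^ y) ^ (1 + 1 / 20 : ℝ) * E) :=
        mul_le_mul_of_nonneg_right h1 (by positivity)
    _ = 100 * B₀ * Real.exp (21 / 20) * (D * (B * C₁ * R ^ (19 / 20 : ℝ))) *
          ((Q₀ ^ (δ * (21 / 20)) * (Q₀ ^ y) ^ (1 + 1 / 20 : ℝ)) * Q ^ (19 / 20 : ℝ)) := by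
        rw [hE]; ring
    _ = _ := by
        congr 1
        have e1 : Q₀ ^ (δ * (21 / 20)) * (Q₀ ^ y) ^ (1 + 1 / 20 : ℝ) =
            (Q₀ ^ (y + δ)) ^ 2 / (Q₀ ^ (y + δ)) ^ (19 / 20 : ℝ) := by
          rw [← Real.rpow_mul hQ0.le, ← Real.rpow_add hQ0, ← Real.rpow_natCast (Q₀ ^ (y + δ)) 2,
            ← Real.rpow_mul hQ0.le, ← Real.rpow_mul hQ0.le, ← Real.rpow_sub hQ0]
          congr 1
          push_cast
          ring
        rw [e1, Real.div_rpow hQp.le hT0.le]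
        ring

/-- **L4'** -/
theorem natZ3 (r : ℕ) (y δ : ℝ) : NatZ3 r y δ := by
  intro h₀ h hh₀ hh V hV ε hε
  obtain ⟨C, hC0, hC⟩ := natZ3' Tk545.tkAlg r y δ h₀ h hh₀ hh V hV
  refine ⟨C, hC0, fun M f g hM0 h2M hf hg Q₀ Q hQ hQQ hMQ => ?_⟩
  refine (hC M f g hM0 h2M hf hg Q₀ Q hQ hQQ hMQ).trans ?_
  have hQ₀ : 1 ≤ Q₀ := hQ.trans hQQ
  have h1 : 1 ≤ Q₀ ^ ε := Real.one_le_rpow hQ₀ hε.le
  have h2 : 0 ≤ C * ((Q₀ ^ (y + δ)) ^ 2 * (Q / Q₀ ^ (y + δ)) ^ (19 / 20 : ℝ)) := by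
    have : 0 < Q₀ := by linarith
    have : 0 < Q := by linarith
    positivity
  calc C * ((Q₀ ^ (y + δ)) ^ 2 * (Q / Q₀ ^ (y + δ)) ^ (19 / 20 : ℝ))
      = 1 * (C * ((Q₀ ^ (y + δ)) ^ 2 * (Q / Q₀ ^ (y + δ)) ^ (19 / 20 : ℝ))) := (one_mul _).symm
    _ ≤ Q₀ ^ ε * (C * ((Q₀ ^ (y + δ)) ^ 2 * (Q / Q₀ ^ (y + δ)) ^ (19 / 20 : ℝ))) :=
        mul_le_mul_of_nonneg_right h1 h2
    _ = _ := by ring

end Crest.Agent.R017.NatZ3571
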