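import Crest.Agent.R017.FYm_571
import Crest.Agent.R017.NatZ3_571
import Crest.Agent.R017.BL5defs2_868

/-!
# Row 17, section B, (F2): the average over the smooth squarefree piece `c₀` (helper571)

* `F2avg` : `∑_{c ∈ sqS M κ, (D,c)=1} h₀(log N c - κ) PE(c) = kw h₀ · LP M · LP D · e^κ + O(..)`
* `kw_ne_zero` : `kw h₀ ≠ 0` if `h₀ ≥ 0` is not identically zero.
-/

set_option autoImplicit false

noncomputable section

open MeasureTheory Complex Set Filter Topology
open scoped ComplexConjugate ContDiff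

namespace Crest.Agent.R017.FYn571

open Crest.Agent.R012 Crest.Agent.R012.Eis Crest.Agent.R012.Mob705 Crest.Agent.R012.Div277
open Crest.Agent.R012.Model705
open Crest.Agent.R017.End699 Crest.Agent.R017.Sx545 Crest.Agent.R017.B770
open Crest.Agent.R017.Asm986 Crest.Agent.R017.FYm571 Crest.Agent.R017.NatZ3571

/-- the weight `x ↦ h (log x)` on `(0, ∞)` -/
def wv (h : ℝ → ℂ) (x : ℝ) : ℂ := if 0 < x then h (Real.log x) else 0

lemma wv_eq_zero {h : ℝ → ℂ} (hh : HW h) {x : ℝ}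
    (hx : x < Real.exp (-1) ∨ Real.exp 1 < x) : wv h x = 0 := by
  unfold wv
  split_ifs with h0
  · by_contra hne
    have h1 := abs_le.mp (hh.supp _ hne)
    rcases hx with hx | hx
    · have h2 := Real.log_lt_log h0 hx
      rw [Real.log_exp] at h2
      linarith
    · have h2 := Real.log_lt_log (Real.exp_pos 1) hx
      rw [Real.log_exp] at h2
      linarith
  · rfl

lemma wt_wv {h : ℝ → ℂ} (hh : HW h) : M49.Wt (wv h) where
  smooth := by
    rw [contDiff_iff_contDiffAt]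
    intro x
    rcases le_or_gt x 0 with hx | hx
    · have h1 : wv h =ᶠ[𝓝 x] fun _ => 0 := by
        filter_upwards [Iio_mem_nhds (show x < Real.exp (-1) from
          lt_of_le_of_lt hx (Real.exp_pos _))] with y hy
        exact wv_eq_zero hh (Or.inl hy)
      exact contDiffAt_const.congr_of_eventuallyEq h1
    · have h1 : wv h =ᶠ[𝓝 x] fun y => h (Real.log y) := by
        filter_upwards [Ioi_mem_nhds hx] with y hy
        unfold wv
        rw [if_pos (show (0 : ℝ) < y from hy)]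
      refine ContDiffAt.congr_of_eventuallyEq ?_ h1
      exact (hh.cd.contDiffAt).comp x (Real.contDiffAt_log.mpr hx.ne')
  supp := ⟨Real.exp (-1), Real.exp 1, Real.exp_pos _, Real.exp_lt_exp.mpr (by norm_num),
    fun _ hx => wv_eq_zero hh hx⟩

/-- the constant of the average -/
def kw (h : ℝ → ℂ) : ℂ := ((kp 1 : ℝ) : ℂ) * ∫ t in Ioi (0 : ℝ), wv h t

lemma kw_ne_zero {h : ℝ → ℂ} (hh : HW h) (h0 : ∀ u, 0 ≤ (h u).re) {u₀ : ℝ}
    (hu : 0 < (h u₀).re) : kw h ≠ 0 := by
  unfold kw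
  refine mul_ne_zero (by exact_mod_cast kp_one_pos.ne') ?_
  have hW := wt_wv hh
  have hc : Continuous (wv h) := hW.smooth.continuous
  have hcs : HasCompactSupport (wv h) := by
    refine HasCompactSupport.intro (K := Icc (Real.exp (-1)) (Real.exp 1)) isCompact_Icc ?_
    intro x hx
    refine wv_eq_zero hh ?_
    by_contra hcon
    push Not at hcon
    exact hx ⟨hcon.1, hcon.2⟩
  have hint : Integrable (wv h) := hc.integrable_of_hasCompactSupport hcs
  have hre : ∀ t, 0 ≤ (wv h t).re := by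
    intro t; unfold wv; split_ifs
    · exact h0 _
    · simp
  intro hz
  have h1 : (∫ t in Ioi (0 : ℝ), wv h t) = ∫ t, wv h t := by
    rw [setIntegral_eq_integral_of_forall_compl_eq_zero]
    intro t ht
    unfold wv
    rw [if_neg (show ¬ (0 : ℝ) < t from ht)]
  rw [h1] at hz
  have h2 : ∫ t, (wv h t).re = 0 := by
    have := integral_re (𝕜 := ℂ) hint
    simp only [RCLike.re_eq_complex_re] at this
    rw [this, hz]; simp
  have h3 : Integrable (fun t => (wv h t).re) := hint.re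
  have hcre : Continuous (fun t => (wv h t).re) := Complex.continuous_re.comp hc
  have hcomp : HasCompactSupport (fun t => (wv h t).re) := by
    refine HasCompactSupport.intro (K := Icc (Real.exp (-1)) (Real.exp 1)) isCompact_Icc ?_
    intro x hx
    have : wv h x = 0 := by
      refine wv_eq_zero hh ?_
      by_contra hcon
      push Not at hcon
      exact hx ⟨hcon.1, hcon.2⟩
    simp only [this, Complex.zero_re]
  have hx0 : (wv h (Real.exp u₀)).re ≠ 0 := by
    unfold wv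
    rw [if_pos (Real.exp_pos _), Real.log_exp]
    exact hu.ne'
  have h4 : 0 < ∫ t, (wv h t).re :=
    Continuous.integral_pos_of_hasCompactSupport_nonneg_nonzero (x := Real.exp u₀) hcre hcomp
      (fun t => hre t) hx0
  exact absurd h2 h4.ne'

lemma PE_cast (c : Eis) : L5.PE c = ((Mob705.PE c : ℝ) : ℂ) := by
  unfold L5.PE Mob705.PE
  push_cast
  rfl

lemma er_exp_le {ε : ℝ} (hε : 0 < ε) : ∃ C : ℝ, 0 ≤ C ∧ ∀ κ : ℝ, 0 ≤ κ →
    er (Real.exp κ) ≤ C * Real.exp ((1 / 2 + ε) * κ) := by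
  refine ⟨1 + (2 : ℝ) ^ ε / ε, by positivity, fun κ hκ => ?_⟩
  unfold er
  have hY : 1 ≤ Real.exp κ := Real.one_le_exp hκ
  have h1 : Real.sqrt (Real.exp κ) = Real.exp (1 / 2 * κ) := by
    rw [Real.sqrt_eq_rpow, ← Real.exp_mul]; congr 1; ring
  have h2 : Real.log (1 + Real.exp κ) ≤ (2 : ℝ) ^ ε / ε * Real.exp (ε * κ) := by
    have h3 : Real.log (1 + Real.exp κ) ≤ (1 + Real.exp κ) ^ ε / ε :=
      Real.log_le_rpow_div (by positivity) hε
    refine h3.trans ?_
    have h4 : (1 + Real.exp κ) ^ ε ≤ (2 * Real.exp κ) ^ ε :=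
      Real.rpow_le_rpow (by positivity) (by linarith) hε.le
    rw [Real.mul_rpow (by norm_num) (Real.exp_pos _).le, ← Real.exp_mul] at h4
    calc (1 + Real.exp κ) ^ ε / ε ≤ ((2 : ℝ) ^ ε * Real.exp (κ * ε)) / ε := by gcongr
      _ = (2 : ℝ) ^ ε / ε * Real.exp (ε * κ) := by rw [mul_comm κ ε]; ring
  have h5 : 1 ≤ Real.exp (ε * κ) := Real.one_le_exp (by positivity)
  rw [h1]
  calc Real.exp (1 / 2 * κ) * (1 + Real.log (1 + Real.exp κ))
      ≤ Real.exp (1 / 2 * κ) * (Real.exp (ε * κ) + (2 : ℝ) ^ ε / ε * Real.exp (ε * κ)) := by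
        gcongr
    _ = (1 + (2 : ℝ) ^ ε / ε) * (Real.exp (1 / 2 * κ) * Real.exp (ε * κ)) := by ring
    _ = _ := by rw [← Real.exp_add]; congr 2; ring

open Classical in
/-- **(F2)** -/
theorem F2avg {h₀ : ℝ → ℂ} (hh : HW h₀) {ε : ℝ} (hε : 0 < ε) : ∃ C : ℝ, 0 ≤ C ∧
    ∀ M D : Eis, M ≠ 0 → Sm M D → ∀ κ : ℝ, 0 ≤ κ →
      ‖∑ c ∈ sqS M κ, (if IsCoprime D c then h₀ (Real.log (nm c) - κ) * L5.PE c else 0) -
        kw h₀ * ((LP M : ℝ) : ℂ) * ((LP D : ℝ) : ℂ) * ((Real.exp κ : ℝ) : ℂ)‖ ≤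
      C * (nm M : ℝ) ^ ε * (nm D : ℝ) ^ ε * Real.exp ((1 / 2 + ε) * κ) := by
  obtain ⟨C₁, hC₁0, hC₁⟩ := sum_PE_wt (wv h₀) (wt_wv hh)
  obtain ⟨C₂, hC₂0, hC₂⟩ := tau_le_rpow hε
  obtain ⟨C₃, hC₃0, hC₃⟩ := er_exp_le hε
  refine ⟨C₁ * C₂ * C₃, by have : 0 ≤ C₂ := by linarith
                           positivity, ?_⟩
  intro M D hM hD κ hκ
  have hMD : M * D ≠ 0 := mul_ne_zero hM hD.ne_zero
  have hcop : IsCoprime M D := hD.2.symm
  have hY : 0 < Real.exp κ := Real.exp_pos κ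
  have h := (hC₁ (M * D) hMD (Real.exp κ) hY).2
  have e1 : ∑' b, iPE (M * D) b * wv h₀ (nm b / Real.exp κ) =
      ∑ c ∈ sqS M κ, (if IsCoprime D c then h₀ (Real.log (nm c) - κ) * L5.PE c else 0) := by
    rw [tsum_eq_sum (s := sqS M κ)]
    · refine Finset.sum_congr rfl fun c hc => ?_
      have hcm := mem_sqS.mp hc
      have hc0 : (0 : ℝ) < nm c := by exact_mod_cast nm_pos.mpr hcm.1.1.2.ne_zero
      have h1 : wv h₀ (nm c / Real.exp κ) = h₀ (Real.log (nm c) - κ) := by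
        unfold wv
        rw [if_pos (by positivity), Real.log_div hc0.ne' hY.ne', Real.log_exp]
      rw [h1]
      unfold iPE
      by_cases h2 : IsCoprime D c
      · rw [if_pos h2, if_pos ⟨hcm.1.1.2, hcm.2.mul_right h2.symm, hcm.1.2⟩, PE_cast, mul_comm]
      · rw [if_neg h2, if_neg, zero_mul]
        rintro ⟨_, h3, _⟩
        exact h2 h3.of_mul_right_right.symm
    · intro b hb
      by_contra hne
      have h1 : iPE (M * D) b ≠ 0 := left_ne_zero_of_mul hne
      have h2 : wv h₀ (nm b / Real.exp κ) ≠ 0 := right_ne_zero_of_mul hne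
      apply hb
      unfold iPE at h1
      split_ifs at h1 with h3
      · rw [mem_sqS]
        refine ⟨⟨⟨?_, h3.1⟩, h3.2.2⟩, h3.2.1.of_mul_right_left⟩
        have h4 : (nm b : ℝ) / Real.exp κ ≤ Real.exp 1 := by
          by_contra hcon
          push Not at hcon
          exact h2 (wv_eq_zero hh (Or.inr hcon))
        rw [div_le_iff₀ hY, ← Real.exp_add, add_comm] at h4
        exact Nat.le_floor h4
      · exact absurd rfl h1
  rw [e1] at h
  have e2 : ((kp 1 * LP (M * D) : ℝ) : ℂ) * ((∫ t in Ioi (0 : ℝ), wv h₀ t) *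
      ((Real.exp κ : ℝ) : ℂ)) =
      kw h₀ * ((LP M : ℝ) : ℂ) * ((LP D : ℝ) : ℂ) * ((Real.exp κ : ℝ) : ℂ) := by
    rw [LP_mul hM hD.ne_zero hcop]
    unfold kw
    push_cast
    ring
  rw [e2] at h
  refine h.trans ?_
  have h3 : sig (M * D) ≤ C₂ * ((nm M : ℝ) ^ ε * (nm D : ℝ) ^ ε) := by
    have h4 := (sig_le_tau hMD).trans (hC₂ _ hMD)
    rw [nm_mul] at h4
    push_cast at h4
    rwa [Real.mul_rpow (Nat.cast_nonneg _) (Nat.cast_nonneg _)] at h4
  calc C₁ * sig (M * D) * er (Real.exp κ)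
      ≤ C₁ * (C₂ * ((nm M : ℝ) ^ ε * (nm D : ℝ) ^ ε)) *
          (C₃ * Real.exp ((1 / 2 + ε) * κ)) := by
        refine mul_le_mul ?_ (hC₃ κ hκ) (er_nonneg hY.le) (by positivity)
        exact mul_le_mul_of_nonneg_left h3 hC₁0
    _ = _ := by ring

end Crest.Agent.R017.FYn571
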