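import Crest.Agent.R017.BL5k_868
import Crest.Agent.R017.FYn_571
import Crest.Agent.R017.BEnd3_770

/-!
# Row 17, leaf L5: third list of sub-leaves (helper868)

* `B1'` : the sum over `l`, one squarefree `c₀` (868)
* `OneE` : the sum over `l` of the full natural sum, one `e` (from `A1`, `B1'`, `F2avg`, `TupF`)
* final step: `OneE → BEnd770.PartL5` (from `CubeK`, `ReE`, `S1`, `S3`)
-/

set_option autoImplicit false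

noncomputable section

open MeasureTheory Complex Set
open scoped ComplexConjugate ContDiff SchwartzMap

namespace Crest.Agent.R017.L5

open Crest.Agent.R012 Crest.Agent.R012.Eis Crest.Agent.R012.Mob705 Crest.Agent.R012.Div277
open Crest.Agent.R017.End699 Crest.Agent.R017.Sx545 Crest.Agent.R017.B770
open Crest.Agent.R017.BEndA699 Crest.Agent.R017.Asm986
open Crest.Agent.R017.BL7 (I3)

open Classical in
/-- **B1'**: main term with power saving, one squarefree `c` -/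
def B1' : Prop := ∀ (θ ε : ℝ), 5 / 6 < θ → θ ≤ 1 → PF Set.univ θ → 0 < ε → 4 * ε ≤ θ - 5 / 6 →
  ∀ (l' : ℤ) (V : ℝ → ℂ), SW V → ∀ F : 𝓢(ℂ, ℂ), ∀ M m₀ : Eis, (36 : Eis) ∣ M → Rad0 M m₀ →
    ∃ C : ℝ, 0 ≤ C ∧ ∀ ψ : Eis → ℂ, HC M ψ → ∀ c : Eis, Sm M c → Squarefree c →
      ∀ X : ℝ, 0 < X → ∀ z : ℂ, z ≠ 0 →
      Summable (fun l : Eis => if IsCoprime l m₀ then
        F (z ^ 3 * toC l ^ 3) * Nc c l (tw ψ l') V X else 0) ∧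
      ‖(∑' l : Eis, if IsCoprime l m₀ then F (z ^ 3 * toC l ^ 3) * Nc c l (tw ψ l') V X else 0) -
        ((2 / Real.sqrt 3 * (‖z‖ ^ 2)⁻¹ : ℝ) : ℂ) * I3 F * (PE c * ∑' D : Eis,
          if Sm M D ∧ IsCoprime D c then
            tw ψ l' D * EE m₀ D * MV V (X / nm D) (tw ψ l') else 0)‖ ≤
        C * (nm c : ℝ) ^ (5 / 4 : ℝ) * X ^ (θ + ε) *
          ((‖z‖ ^ 2)⁻¹) ^ (1 + 2 * ε - (θ - 5 / 6) / 2)

open Classical in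
/-- **OneE**: the sum over `l` of the full natural sum -/
def OneE : Prop := ∀ (θ ε : ℝ) (r : ℕ) (y δ : ℝ), 7 / 8 < θ → θ ≤ 1 → PF Set.univ θ → 0 < ε →
  ε ≤ 1 / 100 → 0 < r → 0 < y → 0 < δ → δ ≤ 1 / 1000 → 10 * δ ≤ y / r →
  ∀ (M m₀ : Eis), (36 : Eis) ∣ M → Rad0 M m₀ → ∀ (ψ : Eis → ℂ) (l' : ℤ), HC M ψ →
  ∀ h₀ h : ℝ → ℂ, HW h₀ → HW h → ∀ V : ℝ → ℂ, SW V → ∀ F : 𝓢(ℂ, ℂ),
    ∃ C Q₁ : ℝ, 0 ≤ C ∧ 1 ≤ Q₁ ∧ ∀ Q : ℝ, Q₁ ≤ Q → ∀ X : ℝ, 0 < X → ∀ z : ℂ, z ≠ 0 →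
      Summable (fun l : Eis => if IsCoprime l m₀ then F (z ^ 3 * toC l ^ 3) *
        NSumS h₀ h r y Q (δ * Real.log Q) Finset.univ M (tw ψ l') (fun _ => 1) V X (l ^ 3)
          else 0) ∧
      ‖(∑' l : Eis, if IsCoprime l m₀ then F (z ^ 3 * toC l ^ 3) *
        NSumS h₀ h r y Q (δ * Real.log Q) Finset.univ M (tw ψ l') (fun _ => 1) V X (l ^ 3)
          else 0) -
        ((2 / Real.sqrt 3 * (‖z‖ ^ 2)⁻¹ : ℝ) : ℂ) * I3 F *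
          (FYn571.kw h₀ * ((FYm571.LP M : ℝ) : ℂ) * ((Q ^ δ : ℝ) : ℂ)) *
          Amp h r y Q Finset.univ (fun _ => 1) *
          ∑' D : Eis, (if Sm M D then (tw ψ l' D * EE m₀ D * ((FYm571.LP D : ℝ) : ℂ)) *
            MV V (X / nm D) (tw ψ l') else 0)‖ ≤
        C * Q ^ (y + δ) * X ^ (θ + ε) *
          (((‖z‖ ^ 2)⁻¹) ^ (1 + 2 * ε) * Q ^ (3 * δ - θ * (y / r) + ε * y) +
            ((‖z‖ ^ 2)⁻¹) ^ (1 + 2 * ε - (θ - 5 / 6) / 2) * Q ^ (5 / 4 * δ) +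
            (‖z‖ ^ 2)⁻¹ * Q ^ (δ * (ε - 1 / 2)))

end Crest.Agent.R017.L5
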