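import Crest.Agent.R017.EndD_699

/-!
# Row 17, end block (D2): smooth weights with nonvanishing Mellin transform at a given point
-/

set_option autoImplicit false

noncomputable section

open Set MeasureTheory Filter Topology Asymptotics
open scoped ContDiff

namespace Crest.Agent.R017.End699

/-- for every `s₀` with `Re s₀ > 0` there is a smooth bump supported in `(α, β)` whose Mellin
transform does not vanish at `s₀` -/
theorem exists_bump {s₀ : ℂ} (hs : 0 < s₀.re) {α β : ℝ} (hα : 0 < α) (hαβ : α < β) :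
    ∃ V : ℝ → ℝ, ContDiff ℝ ∞ V ∧ HasCompactSupport V ∧ (∀ y, 0 ≤ V y) ∧ (∀ y, V y ≤ 1) ∧
      tsupport V ⊆ Ioo α β ∧ Wt (fun y => (V y : ℂ)) 1 β ∧
      mellin (fun y => (V y : ℂ)) s₀ ≠ 0 := by
  set c : ℝ := (α + β) / 2 with hc
  have hcα : α < c := by rw [hc]; linarith
  have hcβ : c < β := by rw [hc]; linarith
  have hc0 : 0 < c := by linarith
  set f : ℝ → ℂ := fun y => (y : ℂ) ^ (s₀ - 1) with hf
  have hfc : f c ≠ 0 := by
    rw [hf]
    simp only [ne_eq, Complex.cpow_eq_zero_iff, not_and_or, not_not]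
    left
    exact_mod_cast hc0.ne'
  set g : ℝ → ℝ := fun y => ((starRingEnd ℂ) (f c) * f y).re with hg
  have hgc : 0 < g c := by
    simp only [hg]
    have : (starRingEnd ℂ) (f c) * f c = ((Complex.normSq (f c) : ℝ) : ℂ) := by
      rw [mul_comm, Complex.mul_conj]
    rw [this, Complex.ofReal_re]
    exact Complex.normSq_pos.mpr hfc
  have hfcont : ContinuousAt f c := by
    simp only [hf]
    refine ContinuousAt.cpow Complex.continuous_ofReal.continuousAt continuousAt_const ?_
    left
    rw [Complex.ofReal_re]; exact hc0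
  have hgcont : ContinuousAt g c := by
    simp only [hg]
    exact Complex.continuous_re.continuousAt.comp (continuousAt_const.mul hfcont)
  have hev : ∀ᶠ y in 𝓝 c, 0 < g y ∧ y ∈ Ioo α β :=
    (hgcont.eventually (lt_mem_nhds hgc)).and (Ioo_mem_nhds hcα hcβ)
  obtain ⟨δ, hδ, hball⟩ := Metric.eventually_nhds_iff_ball.mp hev
  set V : ContDiffBump c := ⟨δ / 4, δ / 2, by linarith, by linarith⟩ with hV
  have hsuppV : Function.support (V : ℝ → ℝ) = Metric.ball c (δ / 2) := V.support_eq
  have hts : tsupport (V : ℝ → ℝ) = Metric.closedBall c (δ / 2) := V.tsupport_eq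
  have htsub : tsupport (V : ℝ → ℝ) ⊆ Ioo α β := by
    rw [hts]
    intro y hy
    apply (hball y ?_).2
    rw [Metric.mem_closedBall] at hy
    rw [Metric.mem_ball]
    linarith
  have hWt : Wt (fun y => ((V y : ℝ) : ℂ)) 1 β := by
    constructor
    · exact (Complex.continuous_ofReal.comp V.continuous).measurable
    · intro y
      rw [Complex.norm_real, Real.norm_of_nonneg V.nonneg]
      exact V.le_one
    · intro y hy
      have : y ∉ tsupport (V : ℝ → ℝ) := fun h => by
        have := (htsub h).2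
        linarith
      have h0 := image_eq_zero_of_notMem_tsupport this
      simp [h0]
    · linarith
  refine ⟨V, V.contDiff, V.hasCompactSupport, fun y => V.nonneg, fun y => V.le_one, htsub, hWt, ?_⟩
  intro h0
  have hconv : IntegrableOn (fun y : ℝ => (y : ℂ) ^ (s₀ - 1) • ((V y : ℝ) : ℂ)) (Ioi 0) :=
    hWt.convergent hs
  have hint : IntegrableOn (fun y : ℝ => (starRingEnd ℂ) (f c) *
      ((y : ℂ) ^ (s₀ - 1) • ((V y : ℝ) : ℂ))) (Ioi 0) := hconv.const_mul _
  have h1 : ∫ y in Ioi (0 : ℝ), (starRingEnd ℂ) (f c) *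
      ((y : ℂ) ^ (s₀ - 1) • ((V y : ℝ) : ℂ)) = 0 := by
    rw [integral_const_mul]
    unfold mellin at h0
    rw [h0, mul_zero]
  have h2 : ∫ y in Ioi (0 : ℝ), V y * g y = 0 := by
    have h3 := integral_re hint
    rw [h1] at h3
    simp only [RCLike.re_to_complex, Complex.zero_re] at h3
    refine Eq.trans ?_ h3
    apply setIntegral_congr_fun measurableSet_Ioi
    intro y _
    simp only [hg, hf, smul_eq_mul]
    have : (starRingEnd ℂ) ((c : ℂ) ^ (s₀ - 1)) * ((y : ℂ) ^ (s₀ - 1) * ((V y : ℝ) : ℂ)) =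
        ((V y : ℝ) : ℂ) * ((starRingEnd ℂ) ((c : ℂ) ^ (s₀ - 1)) * (y : ℂ) ^ (s₀ - 1)) := by ring
    rw [this, Complex.re_ofReal_mul]
  have hint2 : IntegrableOn (fun y : ℝ => V y * g y) (Ioi 0) := by
    have h3 := hint.re
    refine h3.congr ?_
    filter_upwards with y
    simp only [hg, hf, smul_eq_mul, RCLike.re_to_complex]
    have : (starRingEnd ℂ) ((c : ℂ) ^ (s₀ - 1)) * ((y : ℂ) ^ (s₀ - 1) * ((V y : ℝ) : ℂ)) =
        ((V y : ℝ) : ℂ) * ((starRingEnd ℂ) ((c : ℂ) ^ (s₀ - 1)) * (y : ℂ) ^ (s₀ - 1)) := by ring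
    rw [this, Complex.re_ofReal_mul]
  have hnn : ∀ y, 0 ≤ V y * g y := by
    intro y
    by_cases hy : y ∈ Metric.ball c (δ / 2)
    · have : 0 < g y := by
        apply (hball y ?_).1
        rw [Metric.mem_ball] at hy ⊢
        linarith
      exact mul_nonneg V.nonneg this.le
    · rw [← hsuppV, Function.notMem_support] at hy
      rw [hy, zero_mul]
  have hpos : 0 < ∫ y in Ioi (0 : ℝ), V y * g y := by
    rw [setIntegral_pos_iff_support_of_nonneg_ae (Eventually.of_forall hnn) hint2]
    have hsub : Metric.ball c (δ / 2) ⊆ Function.support (fun y => V y * g y) ∩ Ioi 0 := by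
      intro y hy
      have hy' : y ∈ Metric.ball c δ := by
        rw [Metric.mem_ball] at hy ⊢
        linarith
      constructor
      · rw [Function.mem_support]
        have h4 : V y ≠ 0 := by
          rw [← hsuppV] at hy
          exact hy
        exact mul_ne_zero h4 (hball y hy').1.ne'
      · have := (hball y hy').2.1
        show 0 < y
        linarith
    refine lt_of_lt_of_le ?_ (measure_mono hsub)
    exact Metric.measure_ball_pos volume c (by linarith)
  rw [h2] at hpos
  exact lt_irrefl _ hpos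

end Crest.Agent.R017.End699
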