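import Crest.Agent.R017.EndF_699
import Crest.Agent.R017.EndD2_699

/-!
# Row 17, end block (G): zero-freeness from bounds for smoothed Möbius sums
-/

set_option autoImplicit false

noncomputable section

namespace Crest.Agent.R017.End699

open Crest.Agent.R012 Crest.Agent.R012.Eis Crest.Agent.R012.PSer47
open scoped ContDiff

/-- the smoothed Möbius sum `∑_{b primary} μ(b) χ(b) (b/|b|)^l W(N(b)/X)` -/
def MS (χ : Eis → ℂ) (l : ℤ) (W : ℝ → ℂ) (β X : ℝ) : ℂ :=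
  ∑ b ∈ primBall ⌊β * X⌋₊, (muE b : ℂ) * tw χ l b * W ((nm b : ℝ) / X)

/-- sums over `primBall` with a weight depending on the norm -/
lemma sum_push_weight (f : Eis → ℂ) (w : ℕ → ℂ) (N : ℕ) :
    ∑ n ∈ Finset.range (N + 1), push f n * w n = ∑ b ∈ primBall N, f b * w (nm b) := by
  have h1 := sum_push (fun b => f b * w (nm b)) N
  have h2 : ∀ n, push (fun b => f b * w (nm b)) n = push f n * w n := by
    intro n
    unfold push
    rw [Finset.sum_mul]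
    apply Finset.sum_congr rfl
    intro b hb
    beta_reduce
    rw [(mem_fib.mp hb).1]
  rw [← h1, Finset.range_eq_Ico, Finset.sum_eq_sum_Ico_succ_bot (by omega), push_zero, zero_mul,
    zero_add]
  apply Finset.sum_congr
  · ext n; simp only [Finset.mem_Ico, Finset.mem_Icc]; omega
  · intro n _
    rw [h2]

lemma Msum_eq_MS {W : ℝ → ℂ} {B β : ℝ} (hW : Wt W B β) (χ : Eis → ℂ) (l : ℤ) {X : ℝ} (hX : 0 < X) :
    Msum (push fun b => (muE b : ℂ) * tw χ l b) W X = MS χ l W β X := by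
  rw [hW.Msum_eq _ hX (N := ⌊β * X⌋₊) (Nat.lt_floor_add_one _)]
  exact sum_push_weight (fun b => (muE b : ℂ) * tw χ l b) (fun n => W ((n : ℝ) / X)) _

/-- zero-freeness at a point from one bound, general case -/
theorem LH_ne_zero {q : Eis} {χ : Eis → ℂ} (h : HC q χ) (l : ℤ) {W : ℝ → ℂ} {B β : ℝ}
    (hW : Wt W B β) {θ C : ℝ} (hθ : 1 / 2 ≤ θ)
    (hM : ∀ X : ℝ, 1 ≤ X → ‖MS χ l W β X‖ ≤ C * X ^ θ) {s₀ : ℂ} (hs₀ : θ < s₀.re)
    (h1 : NP q χ l ∨ s₀ ≠ 1) (hm : mellin W s₀ ≠ 0) : LH q χ l s₀ ≠ 0 := by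
  have ha : ∀ s : ℂ, 1 < s.re → LSeriesSummable (push fun b => (muE b : ℂ) * tw χ l b) s :=
    fun s hs => LSer47.summable_push (fun b hb => norm_muE_mul_le (h.isChar_tw l) hb) hs
  have hinv : ∀ s : ℂ, 1 < s.re →
      LSeries (push fun b => (muE b : ℂ) * tw χ l b) s * LH q χ l s = 1 :=
    fun s hs => h.LSeries_mu_mul_LH l hs
  have hM' : ∀ X : ℝ, 1 ≤ X →
      ‖Msum (push fun b => (muE b : ℂ) * tw χ l b) W X‖ ≤ C * X ^ θ := by
    intro X hX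
    rw [Msum_eq_MS hW χ l (by linarith)]
    exact hM X hX
  rcases h1 with h1 | h1
  · exact ne_zero_of_Msum' hW (push_zero _) (by linarith)
      (fun s hs => h.differentiableAt_LH' l (h1.cc_eq_zero h) (by linarith)) ha hinv hM' hs₀ hm
  · exact ne_zero_of_Msum hW (push_zero _) (by linarith)
      (fun s hs hs1 => h.differentiableAt_LH l (by linarith) hs1) ha hinv hM' hs₀ h1 hm

/-- the bound for smoothed Möbius sums: for every `θ > 7/8`, every character and every smooth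
weight -/
def MB : Prop := ∀ (q : Eis) (χ : Eis → ℂ), HC q χ → (9 : Eis) ∣ q → ∀ θ : ℝ, 7 / 8 < θ →
  ∀ V : ℝ → ℝ, ContDiff ℝ ∞ V → HasCompactSupport V → tsupport V ⊆ Set.Ioo 1 2 →
    (∀ y, 0 ≤ V y) → (∀ y, V y ≤ 1) →
    ∃ C : ℝ, ∀ X : ℝ, 1 ≤ X →
      ‖∑ b ∈ primBall ⌊2 * X⌋₊, (muE b : ℂ) * χ b * (V ((nm b : ℝ) / X) : ℂ)‖ ≤ C * X ^ θ

theorem nz_of_mb (hmb : MB) : NZ := by
  intro q χ h h9 s hs hor
  obtain ⟨V, h1, h2, h3, h4, h5, h6, h7⟩ := exists_bump (s₀ := s) (by linarith) (α := 1) (β := 2)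
    (by norm_num) (by norm_num)
  obtain ⟨C, hC⟩ := hmb q χ h h9 ((7 / 8 + s.re) / 2) (by linarith) V h1 h2 h5 h3 h4
  refine LH_ne_zero h 0 h6 (θ := (7 / 8 + s.re) / 2) (C := C) (by linarith) ?_ (by linarith) hor h7
  intro X hX
  have := hC X hX
  unfold MS
  rw [tw_zero]
  exact this

/-- **S0023 from the bound for smoothed Möbius sums** -/
theorem s23_of_mb (hmb : MB) : S23 := s23_of_nz (nz_of_mb hmb)

/-- a weaker sufficient condition: one weight for every point -/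
def MBw : Prop := ∀ (q : Eis) (χ : Eis → ℂ), HC q χ → (9 : Eis) ∣ q → ∀ s₀ : ℂ, 7 / 8 < s₀.re →
  s₀.re ≤ 1 → ∃ (W : ℝ → ℂ) (B β θ C : ℝ), Wt W B β ∧ mellin W s₀ ≠ 0 ∧ 1 / 2 ≤ θ ∧ θ < s₀.re ∧
    ∀ X : ℝ, 1 ≤ X → ‖∑ b ∈ primBall ⌊β * X⌋₊, (muE b : ℂ) * χ b * W ((nm b : ℝ) / X)‖ ≤ C * X ^ θ

lemma HC.LH_ne_zero_of_one_lt {q : Eis} {χ : Eis → ℂ} (h : HC q χ) (l : ℤ) {s : ℂ}
    (hs : 1 < s.re) : LH q χ l s ≠ 0 := by
  intro h0
  have := h.LSeries_mu_mul_LH l hs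
  rw [h0, mul_zero] at this
  exact zero_ne_one this

theorem nz_of_mbw (hmb : MBw) : NZ := by
  intro q χ h h9 s hs hor
  rcases lt_or_ge 1 s.re with h1 | h1
  · exact h.LH_ne_zero_of_one_lt 0 h1
  obtain ⟨W, B, β, θ, C, hW, hm, hθ, hθs, hC⟩ := hmb q χ h h9 s hs h1
  refine LH_ne_zero h 0 hW (θ := θ) (C := C) hθ ?_ hθs hor hm
  intro X hX
  have := hC X hX
  unfold MS
  rw [tw_zero]
  exact this

theorem s23_of_mbw (hmb : MBw) : S23 := s23_of_nz (nz_of_mbw hmb)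

end Crest.Agent.R017.End699
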