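import Crest.Agent.R017.EndL_699
import Crest.Agent.R017.EndG_699

/-!
# Row 17, end block (M): zero-freeness from bounds for sums over pairs of primary elements

`LH_ne_zero_of_pairs`: if
`∑_{D, b primary} e(D) μ(b) χ(b) (b/|b|)^l N(b)^{-α} W(N(D) N(b) / Q) ≪ Q^θ`, then
`LH q χ l ρ ≠ 0` for every `ρ` with `Re ρ > θ + α` at which the Mellin transform of `W` and the
Dirichlet series of `e` do not vanish (at `ρ - α`).
-/

set_option autoImplicit false

noncomputable section

open Set MeasureTheory Filter Topology Asymptotics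

namespace Crest.Agent.R017.End699

/-! ### half planes without a point -/

lemma isPreconnected_half_sdiff (θ : ℝ) (p : ℂ) : IsPreconnected {s : ℂ | θ < s.re ∧ s ≠ p} := by
  rcases le_or_gt p.re θ with h | h
  · have e : {s : ℂ | θ < s.re ∧ s ≠ p} = {s : ℂ | θ < s.re} := by
      ext s
      simp only [Set.mem_ofPred_eq, and_iff_left_iff_imp]
      rintro h1 rfl
      linarith
    rw [e]
    exact (convex_halfSpace_re_gt θ).isPreconnected
  · have h1 := isPreconnected_regionθ (θ := θ - p.re + 1) (by linarith)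
    have e : {s : ℂ | θ < s.re ∧ s ≠ p} =
        (fun s : ℂ => s + (p - 1)) '' {s : ℂ | θ - p.re + 1 < s.re ∧ s ≠ 1} := by
      ext s
      simp only [Set.mem_image, Set.mem_ofPred_eq]
      constructor
      · rintro ⟨h2, h3⟩
        refine ⟨s - (p - 1), ⟨?_, ?_⟩, by ring⟩
        · simp only [Complex.sub_re, Complex.one_re]; linarith
        · intro h4
          apply h3
          linear_combination h4
      · rintro ⟨t, ⟨h2, h3⟩, rfl⟩
        refine ⟨?_, ?_⟩
        · simp only [Complex.add_re, Complex.sub_re, Complex.one_re]; linarith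
        · intro h4
          apply h3
          linear_combination h4
    rw [e]
    exact h1.image _ (by fun_prop)

lemma isOpen_half_sdiff (θ : ℝ) (p : ℂ) : IsOpen {s : ℂ | θ < s.re ∧ s ≠ p} :=
  (isOpen_lt continuous_const Complex.continuous_re).inter isOpen_ne

section general

variable {a : ℕ → ℂ} {W : ℝ → ℂ}

/-- zero-freeness, one possible exceptional point -/
theorem ne_zero_EL (h : RW W) (ha0 : a 0 = 0) {L E : ℂ → ℂ} {θ C σ : ℝ} (hθ : 0 ≤ θ) {p : ℂ}
    (hL : ∀ s : ℂ, θ < s.re → s ≠ p → DifferentiableAt ℂ L s)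
    (hE : ∀ s : ℂ, θ < s.re → s ≠ p → DifferentiableAt ℂ E s)
    (ha : ∀ s : ℂ, σ < s.re → LSeriesSummable a s)
    (hinv : ∀ s : ℂ, σ < s.re → s ≠ p → LSeries a s * L s = E s)
    (hM : ∀ X : ℝ, 1 ≤ X → ‖Msum a W X‖ ≤ C * X ^ θ) {s₀ : ℂ} (hs₀ : θ < s₀.re)
    (h1 : s₀ ≠ p) (hE0 : E s₀ ≠ 0) (hW : mellin W s₀ ≠ 0) : L s₀ ≠ 0 := by
  set r : ℝ := max σ (max θ p.re) + 1 with hr
  have hr1 : σ < r := by rw [hr]; linarith [le_max_left σ (max θ p.re)]
  have hr2 : θ < r := by
    rw [hr]; linarith [le_max_right σ (max θ p.re), le_max_left θ p.re]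
  have hr3 : p.re < r := by
    rw [hr]; linarith [le_max_right σ (max θ p.re), le_max_right θ p.re]
  have hrp : (r : ℂ) ≠ p := by
    intro h2
    have := congrArg Complex.re h2
    rw [Complex.ofReal_re] at this
    linarith
  have h4 := L_mul_mellin' h ha0 hθ (isOpen_half_sdiff θ p) (isPreconnected_half_sdiff θ p)
    (fun s hs => hs.1) (s₁ := (r : ℂ)) ⟨by rw [Complex.ofReal_re]; exact hr2, hrp⟩
    (σ := σ) (by rw [Complex.ofReal_re]; exact hr1)
    (fun s hs => (hL s hs.1 hs.2).differentiableWithinAt)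
    (fun s hs => (hE s hs.1 hs.2).differentiableWithinAt) ha
    (fun s hs hs1 => hinv s hs1 hs.2) hM s₀ ⟨hs₀, h1⟩
  intro h0
  rw [h0, zero_mul] at h4
  exact mul_ne_zero hE0 hW h4.symm

/-- zero-freeness, no exceptional point -/
theorem ne_zero_EL' (h : RW W) (ha0 : a 0 = 0) {L E : ℂ → ℂ} {θ C σ : ℝ} (hθ : 0 ≤ θ)
    (hL : ∀ s : ℂ, θ < s.re → DifferentiableAt ℂ L s)
    (hE : ∀ s : ℂ, θ < s.re → DifferentiableAt ℂ E s)
    (ha : ∀ s : ℂ, σ < s.re → LSeriesSummable a s)
    (hinv : ∀ s : ℂ, σ < s.re → LSeries a s * L s = E s)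
    (hM : ∀ X : ℝ, 1 ≤ X → ‖Msum a W X‖ ≤ C * X ^ θ) {s₀ : ℂ} (hs₀ : θ < s₀.re)
    (hE0 : E s₀ ≠ 0) (hW : mellin W s₀ ≠ 0) : L s₀ ≠ 0 :=
  ne_zero_EL h ha0 hθ (p := ((θ - 1 : ℝ) : ℂ)) (fun s hs _ => hL s hs) (fun s hs _ => hE s hs) ha
    (fun s hs _ => hinv s hs) hM hs₀
    (by
      intro h2
      rw [h2, Complex.ofReal_re] at hs₀
      linarith) hE0 hW

end general

open Crest.Agent.R012 Crest.Agent.R012.Eis Crest.Agent.R012.PSer47

/-! ### sums over primary elements and over pairs -/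

open Classical in
/-- extension by zero to a function on `ℤ[ω]` -/
def ip (F : Eis → ℂ) (b : Eis) : ℂ := if IsPrim b then F b else 0

open Classical in
/-- extension by zero from pairs of primary elements -/
def ip2 (F : Eis → Eis → ℂ) (p : Eis × Eis) : ℂ := if IsPrim p.1 ∧ IsPrim p.2 then F p.1 p.2 else 0

lemma ip_of {F : Eis → ℂ} {b : Eis} (h : IsPrim b) : ip F b = F b := if_pos h
lemma ip_of_not {F : Eis → ℂ} {b : Eis} (h : ¬ IsPrim b) : ip F b = 0 := if_neg h

/-- sums over the primary elements of norm `n` -/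
lemma hasSum_fiber {R : Type*} [AddCommMonoid R] [TopologicalSpace R] {F : Eis → R}
    (hF0 : ∀ b, ¬ IsPrim b → F b = 0) (n : ℕ) :
    HasSum (fun b : (nm ⁻¹' {n} : Set Eis) => F b) (∑ b ∈ fib n, F b) := by
  have h3 : HasSum ((nm ⁻¹' {n} : Set Eis).indicator F) (∑ b ∈ fib n, F b) := by
    have h4 : ∑ b ∈ fib n, F b = ∑ b ∈ fib n, (nm ⁻¹' {n} : Set Eis).indicator F b := by
      apply Finset.sum_congr rfl
      intro b hb
      rw [Set.indicator_of_mem]
      exact (mem_fib.mp hb).1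
    rw [h4]
    apply hasSum_sum_of_ne_finset_zero
    intro b hb
    by_cases hb1 : nm b = n
    · rw [Set.indicator_of_mem (by exact hb1)]
      apply hF0
      intro hp
      exact hb (mem_fib.mpr ⟨hb1, hp⟩)
    · exact Set.indicator_of_notMem (by exact hb1) _
  exact (hasSum_subtype_iff_indicator).mpr h3

/-- summability of an additive function over the primary elements in terms of norms -/
lemma summable_norm_iff {F : Eis → ℝ} (hF : ∀ b, 0 ≤ F b) (hF0 : ∀ b, ¬ IsPrim b → F b = 0) :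
    Summable F ↔ Summable fun n : ℕ => ∑ b ∈ fib n, F b := by
  have h1 := summable_partition (f := F) (fun b => hF b) (s := fun n : ℕ => nm ⁻¹' {n})
    (fun b => ⟨nm b, rfl, fun m hm => by simpa using hm.symm⟩)
  have h2 := hasSum_fiber hF0
  rw [h1]
  constructor
  · rintro ⟨-, h3⟩
    refine h3.congr fun n => ?_
    rw [(h2 n).tsum_eq]
  · intro h3
    refine ⟨fun n => (h2 n).summable, h3.congr fun n => ?_⟩
    rw [(h2 n).tsum_eq]

/-- sums over the primary elements as sums over norms -/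
lemma tsum_norm_eq {F : Eis → ℝ} (hF : Summable F) (hF0 : ∀ b, ¬ IsPrim b → F b = 0) :
    HasSum (fun n : ℕ => ∑ b ∈ fib n, F b) (∑' b, F b) := by
  have h1 := hF.hasSum.tsum_fiberwise nm
  have h2 := hasSum_fiber hF0
  have e : (fun n : ℕ => ∑' b : (nm ⁻¹' {n} : Set Eis), F b) = fun n : ℕ => ∑ b ∈ fib n, F b := by
    funext n
    exact (h2 n).tsum_eq
  rwa [e] at h1

/-- abscissa of absolute convergence at most `σ`, in terms of sums over primary elements -/
def AC (e : Eis → ℂ) (σ : ℝ) : Prop := Summable fun b => ‖ip e b‖ * (nm b : ℝ) ^ (-σ)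

lemma AC.mono {e : Eis → ℂ} {σ σ' : ℝ} (h : AC e σ) (hσ : σ ≤ σ') : AC e σ' := by
  refine Summable.of_nonneg_of_le (fun b => by positivity) (fun b => ?_) h
  by_cases hb : IsPrim b
  · have h1 : (1 : ℝ) ≤ nm b := by exact_mod_cast nm_pos.mpr hb.ne_zero
    gcongr
  · rw [ip_of_not hb]; simp

lemma norm_term_push_le (e : Eis → ℂ) {σ : ℝ} {s : ℂ} (hs : σ ≤ s.re) (n : ℕ) :
    ‖LSeries.term (push e) s n‖ ≤ ∑ b ∈ fib n, ‖ip e b‖ * (nm b : ℝ) ^ (-σ) := by
  rcases eq_or_ne n 0 with rfl | hn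
  · simp only [LSeries.term_zero, norm_zero]
    exact Finset.sum_nonneg fun b _ => by positivity
  have hn0 : (1 : ℝ) ≤ n := by exact_mod_cast Nat.pos_of_ne_zero hn
  rw [LSeries.term_of_ne_zero hn, norm_div, Complex.norm_natCast_cpow_of_pos
    (Nat.pos_of_ne_zero hn)]
  calc ‖push e n‖ / (n : ℝ) ^ s.re ≤ (∑ b ∈ fib n, ‖e b‖) / (n : ℝ) ^ s.re := by
        gcongr; exact norm_push_le e n
    _ = ∑ b ∈ fib n, ‖e b‖ * (n : ℝ) ^ (-s.re) := by
        rw [Finset.sum_div]
        apply Finset.sum_congr rfl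
        intro b _
        rw [Real.rpow_neg (by positivity), div_eq_mul_inv]
    _ ≤ ∑ b ∈ fib n, ‖ip e b‖ * (nm b : ℝ) ^ (-σ) := by
        apply Finset.sum_le_sum
        intro b hb
        obtain ⟨h2, h3⟩ := mem_fib.mp hb
        rw [ip_of h3, h2]
        gcongr

lemma AC.summable_push {e : Eis → ℂ} {σ : ℝ} (h : AC e σ) {s : ℂ} (hs : σ ≤ s.re) :
    LSeriesSummable (push e) s := by
  have h1 := (summable_norm_iff (F := fun b => ‖ip e b‖ * (nm b : ℝ) ^ (-σ))
    (fun b => by positivity) (fun b hb => by rw [ip_of_not hb]; simp)).mp h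
  exact Summable.of_norm_bounded h1 fun n => norm_term_push_le e hs n

lemma AC.norm_LSeries_le {e : Eis → ℂ} {σ : ℝ} (h : AC e σ) {s : ℂ} (hs : σ ≤ s.re) :
    ‖LSeries (push e) s‖ ≤ ∑' b, ‖ip e b‖ * (nm b : ℝ) ^ (-σ) := by
  have h1 := tsum_norm_eq (F := fun b => ‖ip e b‖ * (nm b : ℝ) ^ (-σ)) h
    (fun b hb => by rw [ip_of_not hb]; simp)
  rw [← h1.tsum_eq]
  unfold LSeries
  refine (norm_tsum_le_tsum_norm (h.summable_push hs).norm).trans ?_
  exact Summable.tsum_le_tsum (fun n => norm_term_push_le e hs n) (h.summable_push hs).norm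
    h1.summable

/-- coefficients of norm at most `1` -/
lemma ac_of_le_one {f : Eis → ℂ} (hf : ∀ b, IsPrim b → ‖f b‖ ≤ 1) {σ : ℝ} (hσ : 1 < σ) :
    AC f σ := by
  unfold AC
  rw [summable_norm_iff (fun b => by positivity) (fun b hb => by rw [ip_of_not hb]; simp)]
  have h1 := (LSer47.summable_push (f := fun _ => (1 : ℂ)) (fun _ _ => by simp)
    (s := (σ : ℂ)) (by simpa using hσ)).norm
  refine Summable.of_nonneg_of_le (fun n => Finset.sum_nonneg fun b _ => by positivity)
    (fun n => ?_) h1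
  rcases eq_or_ne n 0 with rfl | hn
  · simp [fib_zero]
  have hn0 : (1 : ℝ) ≤ n := by exact_mod_cast Nat.pos_of_ne_zero hn
  rw [LSeries.term_of_ne_zero hn, norm_div, Complex.norm_natCast_cpow_of_pos
    (Nat.pos_of_ne_zero hn), Complex.ofReal_re]
  have h2 : ‖push (fun _ => (1 : ℂ)) n‖ = (fib n).card := by
    unfold push
    rw [Finset.sum_const, nsmul_eq_mul, mul_one, Complex.norm_natCast]
  rw [h2]
  calc ∑ b ∈ fib n, ‖ip f b‖ * (nm b : ℝ) ^ (-σ) ≤ ∑ b ∈ fib n, 1 * (n : ℝ) ^ (-σ) := by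
        apply Finset.sum_le_sum
        intro b hb
        obtain ⟨h3, h4⟩ := mem_fib.mp hb
        rw [ip_of h4, h3]
        gcongr
        exact hf b h4
    _ = (fib n).card / (n : ℝ) ^ σ := by
        rw [Finset.sum_const, nsmul_eq_mul, one_mul, Real.rpow_neg (by positivity), div_eq_mul_inv]

/-- the coefficients of a product as a sum over pairs -/
lemma conv_eq_pairs (f g : Eis → ℂ) {n : ℕ} (hn : n ≠ 0) :
    HasSum (fun p : ((fun p : Eis × Eis => nm p.1 * nm p.2) ⁻¹' {n} : Set (Eis × Eis)) =>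
      ip2 (fun D b => f D * g b) p) ((LSeries.convolution (push f) (push g)) n) := by
  classical
  set S : Finset (Eis × Eis) := (primBall n ×ˢ primBall n).filter
    (fun p => nm p.1 * nm p.2 = n) with hS
  have hmem : ∀ p : Eis × Eis, p ∈ S ↔ nm p.1 * nm p.2 = n ∧ IsPrim p.1 ∧ IsPrim p.2 := by
    intro p
    simp only [hS, Finset.mem_filter, Finset.mem_product, mem_primBall]
    constructor
    · rintro ⟨⟨⟨_, h1⟩, ⟨_, h2⟩⟩, h3⟩
      exact ⟨h3, h1, h2⟩
    · rintro ⟨h1, h2, h3⟩
      have p1 : 0 < nm p.1 := nm_pos.mpr h2.ne_zero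
      have p2 : 0 < nm p.2 := nm_pos.mpr h3.ne_zero
      exact ⟨⟨⟨by nlinarith, h2⟩, ⟨by nlinarith, h3⟩⟩, h1⟩
  have e1 : (LSeries.convolution (push f) (push g)) n = ∑ p ∈ S, f p.1 * g p.2 := by
    rw [LSeries.convolution_def]
    rw [← Finset.sum_fiberwise_of_maps_to (s := S) (t := n.divisorsAntidiagonal)
      (g := fun p => (nm p.1, nm p.2))]
    · refine Finset.sum_congr rfl fun q hq => ?_
      unfold push
      rw [Finset.sum_mul_sum, ← Finset.sum_product']
      refine Finset.sum_congr ?_ fun _ _ => rfl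
      ext p
      simp only [Finset.mem_product, mem_fib, Finset.mem_filter, hmem]
      have hq' := (Nat.mem_divisorsAntidiagonal.mp hq).1
      constructor
      · rintro ⟨⟨h1, h2⟩, ⟨h3, h4⟩⟩
        exact ⟨⟨by rw [h1, h3, hq'], h2, h4⟩, by rw [h1, h3]⟩
      · rintro ⟨⟨h1, h2, h3⟩, h4⟩
        have h5 := congrArg Prod.fst h4
        have h6 := congrArg Prod.snd h4
        exact ⟨⟨h5, h2⟩, ⟨h6, h3⟩⟩
    · intro p hp
      rw [Nat.mem_divisorsAntidiagonal]
      exact ⟨((hmem p).mp hp).1, hn⟩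
  rw [e1]
  set T : Set (Eis × Eis) := (fun p : Eis × Eis => nm p.1 * nm p.2) ⁻¹' {n} with hT
  have h3 : HasSum (T.indicator (ip2 fun D b => f D * g b)) (∑ p ∈ S, f p.1 * g p.2) := by
    have h4 : ∑ p ∈ S, f p.1 * g p.2 = ∑ p ∈ S, T.indicator (ip2 fun D b => f D * g b) p := by
      apply Finset.sum_congr rfl
      intro p hp
      obtain ⟨h5, h6⟩ := (hmem p).mp hp
      rw [Set.indicator_of_mem (by exact h5)]
      unfold ip2
      rw [if_pos h6]
    rw [h4]
    apply hasSum_sum_of_ne_finset_zero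
    intro p hp
    by_cases h5 : nm p.1 * nm p.2 = n
    · rw [Set.indicator_of_mem (by exact h5)]
      unfold ip2
      rw [if_neg]
      intro h6
      exact hp ((hmem p).mpr ⟨h5, h6⟩)
    · exact Set.indicator_of_notMem (by exact h5) _
  exact (hasSum_subtype_iff_indicator).mpr h3

section pairs

variable {e g : Eis → ℂ} {W : ℝ → ℂ}

/-- the pair sums converge absolutely -/
lemma summable_pairs (h : RW W) {σ₁ σ₂ : ℝ} (he : AC e σ₁) (hg : AC g σ₂) {X : ℝ} (hX : 0 < X) :
    Summable (ip2 fun D b => e D * g b * W ((nm D * nm b : ℕ) / X)) := by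
  obtain ⟨N, hN⟩ := exists_nat_gt (max σ₁ σ₂)
  have he' := he.mono ((le_max_left σ₁ σ₂).trans hN.le)
  have hg' := hg.mono ((le_max_right σ₁ σ₂).trans hN.le)
  obtain ⟨B, hB⟩ := h.dec N
  have h1 := (Summable.mul_of_nonneg he' hg' (fun b => by positivity)
    (fun b => by positivity)).mul_left (B * X ^ N)
  refine Summable.of_norm_bounded h1 fun p => ?_
  unfold ip2
  split_ifs with hp
  · obtain ⟨hp1, hp2⟩ := hp
    rw [ip_of hp1, ip_of hp2]
    have n1 : (0 : ℝ) < nm p.1 := by exact_mod_cast nm_pos.mpr hp1.ne_zero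
    have n2 : (0 : ℝ) < nm p.2 := by exact_mod_cast nm_pos.mpr hp2.ne_zero
    have h2 := hB ((nm p.1 * nm p.2 : ℕ) / X) (by push_cast; positivity)
    rw [norm_mul, norm_mul]
    have h3 : (((nm p.1 * nm p.2 : ℕ) : ℝ) / X) ^ (-(N : ℝ)) =
        X ^ N * ((nm p.1 : ℝ) ^ (-(N : ℝ)) * (nm p.2 : ℝ) ^ (-(N : ℝ))) := by
      push_cast
      rw [Real.div_rpow (by positivity) hX.le, Real.mul_rpow n1.le n2.le,
        Real.rpow_neg hX.le, Real.rpow_natCast]
      field_simp
    rw [h3] at h2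
    calc ‖e p.1‖ * ‖g p.2‖ * ‖W ((nm p.1 * nm p.2 : ℕ) / X)‖
        ≤ ‖e p.1‖ * ‖g p.2‖ * (B * (X ^ N * ((nm p.1 : ℝ) ^ (-(N : ℝ)) *
          (nm p.2 : ℝ) ^ (-(N : ℝ))))) := by gcongr
      _ = _ := by ring
  · rw [norm_zero]
    have hB0 : 0 ≤ B := by
      have := (norm_nonneg _).trans (hB 1 one_pos)
      simpa using this
    positivity

/-- the pair sums are smoothed sums of Dirichlet coefficients -/
lemma Msum_conv_eq (h : RW W) {σ₁ σ₂ : ℝ} (he : AC e σ₁) (hg : AC g σ₂) {X : ℝ} (hX : 0 < X) :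
    Msum (LSeries.convolution (push e) (push g)) W X =
      ∑' p, ip2 (fun D b => e D * g b * W ((nm D * nm b : ℕ) / X)) p := by
  have h1 := (summable_pairs h he hg hX).hasSum.tsum_fiberwise
    (fun p : Eis × Eis => nm p.1 * nm p.2)
  have h2 : ∀ n : ℕ, ∑' p : ((fun p : Eis × Eis => nm p.1 * nm p.2) ⁻¹' {n} : Set (Eis × Eis)),
      ip2 (fun D b => e D * g b * W ((nm D * nm b : ℕ) / X)) p =
        (LSeries.convolution (push e) (push g)) n * W (n / X) := by
    intro n
    have h3 : ∀ p : ((fun p : Eis × Eis => nm p.1 * nm p.2) ⁻¹' {n} : Set (Eis × Eis)),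
        ip2 (fun D b => e D * g b * W ((nm D * nm b : ℕ) / X)) p =
          ip2 (fun D b => e D * g b) p * W (n / X) := by
      rintro ⟨p, hp⟩
      have hp' : nm p.1 * nm p.2 = n := hp
      unfold ip2
      split_ifs
      · change e p.1 * g p.2 * W (((nm p.1 * nm p.2 : ℕ) : ℝ) / X) = e p.1 * g p.2 * W (n / X)
        rw [hp']
      · simp
    rw [tsum_congr h3]
    rcases eq_or_ne n 0 with rfl | hn
    · have h4 : ∀ p : ((fun p : Eis × Eis => nm p.1 * nm p.2) ⁻¹' {0} : Set (Eis × Eis)),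
          ip2 (fun D b => e D * g b) p * W ((0 : ℕ) / X) = 0 := by
        rintro ⟨p, hp⟩
        have hp' : nm p.1 * nm p.2 = 0 := hp
        unfold ip2
        rw [if_neg, zero_mul]
        rintro ⟨h5, h6⟩
        have h7 : 0 < nm p.1 * nm p.2 :=
          Nat.mul_pos (nm_pos.mpr h5.ne_zero) (nm_pos.mpr h6.ne_zero)
        omega
      rw [tsum_congr h4, tsum_zero, LSeries.convolution_map_zero, zero_mul]
    · rw [((conv_eq_pairs e g hn).mul_right _).tsum_eq]
  unfold Msum
  rw [← h1.tsum_eq]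
  exact tsum_congr fun n => (h2 n).symm

end pairs

/-- the `b`-coefficients: `μ(b) χ(b) (b/|b|)^l N(b)^{-α}` -/
def gb (χ : Eis → ℂ) (l : ℤ) (α : ℝ) (b : Eis) : ℂ :=
  (muE b : ℂ) * tw χ l b * (((nm b : ℝ) ^ (-α) : ℝ) : ℂ)

lemma push_gb (χ : Eis → ℂ) (l : ℤ) (α : ℝ) (n : ℕ) :
    push (gb χ l α) n = push (fun b => (muE b : ℂ) * tw χ l b) n * (((n : ℝ) ^ (-α) : ℝ) : ℂ) := by
  unfold push gb
  rw [Finset.sum_mul]
  apply Finset.sum_congr rfl
  intro b hb
  rw [(mem_fib.mp hb).1]

lemma term_gb (χ : Eis → ℂ) (l : ℤ) (α : ℝ) (s : ℂ) (n : ℕ) :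
    LSeries.term (push (gb χ l α)) s n =
      LSeries.term (push fun b => (muE b : ℂ) * tw χ l b) (s + α) n := by
  rcases eq_or_ne n 0 with rfl | hn
  · simp
  · rw [LSeries.term_of_ne_zero hn, LSeries.term_of_ne_zero hn, push_gb, div_eq_mul_inv,
      div_eq_mul_inv, mul_assoc]
    congr 1
    rw [Complex.cpow_add _ _ (by exact_mod_cast hn), mul_inv, Complex.ofReal_cpow (by positivity)]
    push_cast
    rw [Complex.cpow_neg]
    ring

lemma LSeries_gb (χ : Eis → ℂ) (l : ℤ) (α : ℝ) (s : ℂ) :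
    LSeries (push (gb χ l α)) s = LSeries (push fun b => (muE b : ℂ) * tw χ l b) (s + α) :=
  tsum_congr fun n => term_gb χ l α s n

lemma HC.ac_gb {q : Eis} {χ : Eis → ℂ} (h : HC q χ) (l : ℤ) {α σ : ℝ} (hσ : 1 < σ + α) :
    AC (gb χ l α) σ := by
  have h1 := ac_of_le_one (f := fun b => (muE b : ℂ) * tw χ l b)
    (fun b hb => norm_muE_mul_le (h.isChar_tw l) hb) hσ
  refine h1.congr fun b => ?_
  by_cases hb : IsPrim b
  · have n1 : (0 : ℝ) < nm b := by exact_mod_cast nm_pos.mpr hb.ne_zero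
    rw [ip_of hb, ip_of hb]
    unfold gb
    rw [norm_mul _ (((nm b : ℝ) ^ (-α) : ℝ) : ℂ), Complex.norm_real,
      Real.norm_of_nonneg (by positivity), neg_add, Real.rpow_add n1]
    ring
  · rw [ip_of_not hb, ip_of_not hb]; simp

/-- **zero-freeness from bounds for pair sums** -/
theorem LH_ne_zero_of_pairs {q : Eis} {χ : Eis → ℂ} (h : HC q χ) (l : ℤ) {e : Eis → ℂ}
    {W : ℝ → ℂ} (hW : RW W) {α θ C σ : ℝ} (he : AC e σ) (hσ : σ ≤ θ) (hθ : 0 ≤ θ)
    (hθα : 1 / 2 ≤ θ + α)
    (hM : ∀ Q : ℝ, 1 ≤ Q →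
      ‖∑' p, ip2 (fun D b => e D * gb χ l α b * W ((nm D * nm b : ℕ) / Q)) p‖ ≤ C * Q ^ θ)
    {ρ : ℂ} (hρ : θ + α < ρ.re) (h1 : NP q χ l ∨ ρ ≠ 1)
    (hE0 : LSeries (push e) (ρ - α) ≠ 0) (hm : mellin W (ρ - α) ≠ 0) : LH q χ l ρ ≠ 0 := by
  have hre : (ρ - α).re = ρ.re - α := by simp
  -- the abscissa for the product
  set σ' : ℝ := max θ (1 - α) with hσ'
  have hg : AC (gb χ l α) (σ' + 1) := h.ac_gb l (by
    have := le_max_right θ (1 - α); linarith)
  have hae : ∀ s : ℂ, σ' < s.re → LSeriesSummable (push e) s := fun s hs =>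
    he.summable_push (by have := le_max_left θ (1 - α); linarith)
  have hag : ∀ s : ℂ, σ' < s.re → LSeriesSummable (push (gb χ l α)) s := by
    intro s hs
    exact (h.ac_gb l (σ := s.re) (by have := le_max_right θ (1 - α); linarith)).summable_push le_rfl
  have ha : ∀ s : ℂ, σ' < s.re → LSeriesSummable (LSeries.convolution (push e) (push (gb χ l α))) s :=
    fun s hs => (hae s hs).convolution (hag s hs)
  have ha0 : (LSeries.convolution (push e) (push (gb χ l α))) 0 = 0 := LSeries.convolution_map_zero _ _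
  have hinv : ∀ s : ℂ, σ' < s.re →
      LSeries (LSeries.convolution (push e) (push (gb χ l α))) s * LH q χ l (s + α) = LSeries (push e) s := by
    intro s hs
    rw [LSeries_convolution' (hae s hs) (hag s hs), LSeries_gb, mul_assoc,
      h.LSeries_mu_mul_LH l (by
        simp only [Complex.add_re, Complex.ofReal_re]
        have := le_max_right θ (1 - α); linarith), mul_one]
  have hMM : ∀ X : ℝ, 1 ≤ X → ‖Msum (LSeries.convolution (push e) (push (gb χ l α))) W X‖ ≤ C * X ^ θ := by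
    intro X hX
    rw [Msum_conv_eq hW he hg (by linarith)]
    exact hM X hX
  have hEd : ∀ s : ℂ, θ < s.re → DifferentiableAt ℂ (LSeries (push e)) s := by
    intro s hs
    refine (LSeries_hasDerivAt ?_).differentiableAt
    refine lt_of_le_of_lt (b := (θ : EReal)) ?_ (by exact_mod_cast hs)
    apply LSeries.abscissaOfAbsConv_le_of_forall_lt_LSeriesSummable'
    intro y hy
    exact he.summable_push (by
      rw [Complex.ofReal_re]
      have : θ < y := by exact_mod_cast hy
      linarith)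
  have key : LH q χ l ((ρ - α) + α) ≠ 0 := by
    rcases h1 with h1 | h1
    · refine ne_zero_EL' hW ha0 (L := fun s => LH q χ l (s + α)) (E := LSeries (push e)) hθ ?_ hEd
        ha hinv hMM (s₀ := ρ - α) (by rw [hre]; linarith) hE0 hm
      intro s hs
      have h2 : DifferentiableAt ℂ (LH q χ l) (s + α) :=
        h.differentiableAt_LH' l (h1.cc_eq_zero h) (by
          simp only [Complex.add_re, Complex.ofReal_re]; linarith)
      exact DifferentiableAt.comp s (f := fun z : ℂ => z + α) h2 (by fun_prop)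
    · refine ne_zero_EL hW ha0 (L := fun s => LH q χ l (s + α)) (E := LSeries (push e)) hθ
        (p := 1 - α) ?_ (fun s hs _ => hEd s hs)
        ha (fun s hs _ => hinv s hs) hMM (s₀ := ρ - α) (by rw [hre]; linarith) ?_ hE0 hm
      · intro s hs hsp
        have h2 : DifferentiableAt ℂ (LH q χ l) (s + α) :=
          h.differentiableAt_LH l (by
            simp only [Complex.add_re, Complex.ofReal_re]; linarith) (by
            intro h3
            apply hsp
            linear_combination h3)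
        exact DifferentiableAt.comp s (f := fun z : ℂ => z + α) h2 (by fun_prop)
      · intro h2
        apply h1
        linear_combination h2
  simpa using key

/-- nonvanishing of a Dirichlet series with dominating first coefficient -/
lemma LSeries_push_ne_zero_of {e : Eis → ℂ} {s : ℂ} (he : AC e s.re)
    (h1 : ∑' b, ‖ip (fun b => if b = 1 then 0 else e b) b‖ * (nm b : ℝ) ^ (-s.re) < ‖e 1‖) :
    LSeries (push e) s ≠ 0 := by
  classical
  set e' : Eis → ℂ := fun b => if b = 1 then 0 else e b with he'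
  have hle : ∀ b, ‖ip e' b‖ ≤ ‖ip e b‖ := by
    intro b
    by_cases hb : IsPrim b
    · rw [ip_of hb, ip_of hb, he']
      beta_reduce
      split_ifs
      · rw [norm_zero]; positivity
      · exact le_rfl
    · rw [ip_of_not hb, ip_of_not hb]
  have hAC' : AC e' s.re := by
    refine Summable.of_nonneg_of_le (fun b => by positivity) (fun b => ?_) he
    have := hle b
    gcongr
  have hdec : LSeries (push e) s = e 1 + LSeries (push e') s := by
    have h2 : push e = fun n => e 1 * LSeries.delta n + push e' n := by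
      funext n
      unfold push LSeries.delta
      by_cases hn : n = 1
      · subst hn
        rw [fib_one]
        simp [he']
      · rw [if_neg hn, mul_zero, zero_add]
        apply Finset.sum_congr rfl
        intro b hb
        have := (mem_fib.mp hb).1
        rw [he']
        beta_reduce
        rw [if_neg]
        rintro rfl
        rw [nm_one] at this
        exact hn this.symm
    have h3 : LSeriesSummable (fun n => e 1 * LSeries.delta n) s := by
      have h4 : LSeriesSummable LSeries.delta s := by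
        unfold LSeriesSummable
        refine (hasSum_ite_eq 1 (1 : ℂ)).summable.congr fun n => ?_
        rw [LSeries.term_delta]
      exact h4.smul (e 1)
    have h5 := LSeries_add h3 (hAC'.summable_push le_rfl)
    have h6 : (fun n => e 1 * LSeries.delta n) + push e' = push e := by rw [h2]; rfl
    rw [h6] at h5
    rw [h5]
    congr 1
    have h7 : (fun n => e 1 * LSeries.delta n) = e 1 • LSeries.delta := by
      funext n; simp
    rw [h7, LSeries_smul, LSeries_delta]
    simp
  have hbd : ‖LSeries (push e') s‖ < ‖e 1‖ := by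
    exact (hAC'.norm_LSeries_le le_rfl).trans_lt h1
  intro h0
  rw [hdec] at h0
  have h9 : e 1 = -LSeries (push e') s := by linear_combination h0
  rw [h9, norm_neg] at hbd
  exact lt_irrefl _ hbd

end Crest.Agent.R017.End699
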