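import Crest.Agent.R017.BDefs2_770
import Crest.Agent.R017.EndM_699

/-!
# Row 17, leaf L5: objects and sub-leaves (helper868)
-/

set_option autoImplicit false

noncomputable section

open MeasureTheory Complex Set
open scoped ComplexConjugate ContDiff

namespace Crest.Agent.R017.L5

open Crest.Agent.R012 Crest.Agent.R012.Eis Crest.Agent.R012.Mob705 Crest.Agent.R012.Div277
open Crest.Agent.R017.End699 Crest.Agent.R017.Sx545 Crest.Agent.R017.B770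

/-- divisor sums of `b ↦ tk (l³) b 1` -/
def El (l D : Eis) : ℂ := ∑ b ∈ dvs D, tk (l ^ 3) b 1

open Classical in
/-- `γ_D(l) = 1_{(l, m₀) = 1} E_l(D)`, periodic modulo `m₀ D` -/
def gam (m₀ D l : Eis) : ℂ := if IsCoprime l m₀ then El l D else 0

/-- the mean value of `γ_D` -/
def EE (m₀ D : Eis) : ℂ := sumMod (m₀ * D) (gam m₀ D) / (nm (m₀ * D) : ℂ)

open Classical in
/-- the coefficients `e(D) = ∑_{e⁶ D' = D} ξ(e) N(e)³ f(D') EE(D')` -/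
def eD (M m₀ : Eis) (ξ f : Eis → ℂ) (D : Eis) : ℂ :=
  ∑ p ∈ (dvs D ×ˢ dvs D).filter (fun p => p.1 ^ 6 * p.2 = D ∧ Sm M p.1 ∧ Sm M p.2),
    ξ p.1 * (nm p.1 : ℂ) ^ 3 * (f p.2 * EE m₀ p.2)

/-- **S1**: the constant of the main term -/
def S1 : Prop := ∀ om : ℝ → ℂ, SW om → (∀ x, 0 ≤ (om x).re ∧ (om x).im = 0) →
  (∃ x, om x ≠ 0) → ∫ z : ℂ, Po581.fC (fun w => om (‖w‖ ^ 2)) (z ^ 3) ≠ 0

/-- **S2a**: the transform of `χ₀` at cubes (and at `0`, because `2 ∣ m₀`) -/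
def S2a : Prop := ∀ (M m₀ : Eis), (36 : Eis) ∣ M → Rad0 M m₀ → ∃ c : ℂ, c ≠ 0 ∧ ∀ l : Eis,
  (IsCoprime l m₀ → FE47.DM (3 * m₀) (fun a => sy a m₀) (l ^ 3) = c) ∧
  (¬ IsCoprime l m₀ → FE47.DM (3 * m₀) (fun a => sy a m₀) (l ^ 3) = 0)

/-- **S2b**: the principal `k` are the cubes -/
def S2b : Prop := ∀ (M : Eis), M ≠ 0 → (3 : Eis) ∣ M → ∀ k : Eis, k ≠ 0 →
  (¬ NPk M (prin0 M) 0 k ↔ ∃ l : Eis, k = l ^ 3)

/-- **S3**: absolute convergence of the mean values -/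
def S3 : Prop := TkAlg →
  (∀ (M m₀ : Eis), (36 : Eis) ∣ M → Rad0 M m₀ →
    Summable (fun D : Eis => (open Classical in if Sm M D then ‖EE m₀ D‖ else 0) *
      (nm D : ℝ) ^ (-(5 / 6) : ℝ))) ∧
  ∀ δ : ℝ, 0 < δ → ∃ P₀ : ℕ, ∀ (M m₀ : Eis), (36 : Eis) ∣ M → Rad0 M m₀ →
    (∀ p : Eis, Prime p → nm p ≤ P₀ → p ∣ M) → EE m₀ 1 ≠ 0 ∧
    ∑' D : Eis, (open Classical in if Sm M D ∧ D ≠ 1 then ‖EE m₀ D‖ else 0) *
      (nm D : ℝ) ^ (-(5 / 6) : ℝ) ≤ δ * ‖EE m₀ 1‖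

end Crest.Agent.R017.L5
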