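import Crest.Agent.R017.BL7c_868

/-!
# Row 17, leaf L5 (a): asymptotics of the principal double sum
-/

set_option autoImplicit false

noncomputable section

open Complex MeasureTheory
open scoped SchwartzMap FourierTransform ContDiff

namespace Crest.Agent.R017.BL7

open Crest.Agent.R012 Crest.Agent.R012.Eis Crest.Agent.R012.Po581
open Crest.Agent.R012.Mob705 Crest.Agent.R012.Div277
open Crest.Agent.R017.End699

/-- decay of Schwartz functions with a real exponent -/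
lemma schw_decay (F : 𝓢(ℂ, ℂ)) {s : ℝ} (hs : 0 ≤ s) :
    ∃ C : ℝ, 0 ≤ C ∧ ∀ w : ℂ, w ≠ 0 → ‖F w‖ ≤ C * ‖w‖ ^ (-s) := by
  obtain ⟨n, hn⟩ := exists_nat_ge s
  obtain ⟨A, hA⟩ := F.decay n 0
  obtain ⟨A0, hA0⟩ := F.decay 0 0
  have hA' : ∀ w : ℂ, ‖w‖ ^ n * ‖F w‖ ≤ A := fun w => by
    simpa using hA.2 w
  have hA0' : ∀ w : ℂ, ‖F w‖ ≤ A0 := fun w => by
    simpa using hA0.2 w
  have h0 : 0 ≤ A := (by positivity : (0 : ℝ) ≤ ‖(0 : ℂ)‖ ^ n * ‖F 0‖).trans (hA' 0)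
  have h00 : 0 ≤ A0 := (norm_nonneg _).trans (hA0' 0)
  refine ⟨A + A0, by positivity, fun w hw => ?_⟩
  have hw0 : 0 < ‖w‖ := norm_pos_iff.mpr hw
  have h1 : ‖w‖ ^ s ≤ ‖w‖ ^ n + 1 := by
    rcases le_total 1 ‖w‖ with h | h
    · have : ‖w‖ ^ s ≤ ‖w‖ ^ (n : ℝ) := Real.rpow_le_rpow_of_exponent_le h hn
      rw [Real.rpow_natCast] at this
      linarith
    · have : ‖w‖ ^ s ≤ 1 := Real.rpow_le_one hw0.le h hs
      have : 0 ≤ ‖w‖ ^ n := by positivity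
      linarith
  rw [Real.rpow_neg hw0.le, ← div_eq_mul_inv, le_div_iff₀ (by positivity)]
  calc ‖F w‖ * ‖w‖ ^ s ≤ ‖F w‖ * (‖w‖ ^ n + 1) := by gcongr
    _ = ‖w‖ ^ n * ‖F w‖ + ‖F w‖ := by ring
    _ ≤ A + A0 := add_le_add (hA' w) (hA0' w)

/-- trivial bound for the sum over cubes -/
theorem Y1_le (F : 𝓢(ℂ, ℂ)) {ε : ℝ} (hε : 0 < ε) :
    ∃ C : ℝ, 0 ≤ C ∧ ∀ (γ : Eis → ℂ) (Γ : ℝ), (∀ y, ‖γ y‖ ≤ Γ) → ∀ z : ℂ, z ≠ 0 →
      ‖Y1 γ F z‖ ≤ C * Γ * (‖z‖ ^ (-(2 / 3 : ℝ))) ^ (1 + ε) := by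
  obtain ⟨C, hC0, hC⟩ := schw_decay F (s := 2 / 3 * (1 + ε)) (by positivity)
  refine ⟨C * LatSum413.Zs (1 + ε), mul_nonneg hC0 (LatSum413.Zs_nonneg _),
    fun γ Γ hΓ z hz => ?_⟩
  have hΓ0 : 0 ≤ Γ := (norm_nonneg _).trans (hΓ 0)
  have hz0 : 0 < ‖z‖ := norm_pos_iff.mpr hz
  have hs := LatSum413.summable_nm_rpow (s := 1 + ε) (by linarith)
  have hb : ∀ y : Eis, ‖(if y = 0 then 0 else γ y * F (z * toC y ^ 3) : ℂ)‖ ≤
      (C * Γ * (‖z‖ ^ (-(2 / 3 : ℝ))) ^ (1 + ε)) * (nm y : ℝ) ^ (-(1 + ε)) := by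
    intro y
    split_ifs with hy
    · rw [norm_zero]; positivity
    · have hy0 : toC y ≠ 0 := Po581.toC_ne_zero hy
      have hyn : (0 : ℝ) < nm y := by exact_mod_cast nm_pos.mpr hy
      have h1 := hC (z * toC y ^ 3) (mul_ne_zero hz (pow_ne_zero _ hy0))
      have h2 : ‖z * toC y ^ 3‖ ^ (-(2 / 3 * (1 + ε))) =
          (‖z‖ ^ (-(2 / 3 : ℝ))) ^ (1 + ε) * (nm y : ℝ) ^ (-(1 + ε)) := by
        rw [norm_mul, norm_pow, Real.mul_rpow hz0.le (by positivity), ← Real.rpow_mul hz0.le,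
          ← Real.rpow_natCast, ← Real.rpow_mul (norm_nonneg _)]
        congr 1
        · congr 1; ring
        · rw [norm_toC, Real.sqrt_eq_rpow, ← Real.rpow_mul hyn.le]
          congr 1
          push_cast
          ring
      rw [norm_mul]
      calc ‖γ y‖ * ‖F (z * toC y ^ 3)‖ ≤ Γ * (C * ‖z * toC y ^ 3‖ ^ (-(2 / 3 * (1 + ε)))) := by
            gcongr
            exact hΓ y
        _ = _ := by rw [h2]; ring
  unfold Y1
  refine (tsum_of_norm_bounded ((hs.mul_left _).hasSum) hb).trans (le_of_eq ?_)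
  rw [LatSum413.Zs, tsum_mul_left]
  ring

lemma floor_lt (κ : ℝ) : Real.exp (κ + 1) < (⌊Real.exp (κ + 1)⌋₊ : ℝ) + 1 :=
  Nat.lt_floor_add_one _

lemma floor_div_lt (κ : ℝ) {n : ℕ} (hn : 0 < n) :
    Real.exp (κ - Real.log n + 1) < ((⌊Real.exp (κ + 1)⌋₊ / n : ℕ) : ℝ) + 1 := by
  have hn0 : (0 : ℝ) < n := by exact_mod_cast hn
  have e1 : Real.exp (κ - Real.log n + 1) = Real.exp (κ + 1) / n := by
    rw [show κ - Real.log n + 1 = κ + 1 - Real.log n by ring, Real.exp_sub, Real.exp_log hn0]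
  rw [e1, ← Nat.floor_div_natCast]
  exact Nat.lt_floor_add_one _

/-- the contribution of the large divisors -/
theorem tail_bound {S : Set ℤ} {θ ε : ℝ} (hθ : 1 / 2 < θ) (hθ1 : θ ≤ 1) (hPF : PF S θ)
    (hε : 0 < ε) (hε1 : ε ≤ 1 / 2) {l : ℤ} (hl : l ∈ S) {v : ℝ → ℂ} (hv : HW v) :
    ∃ C : ℝ, 0 ≤ C ∧ ∀ (q : Eis) (χ : Eis → ℂ), HC q χ → ∀ κ : Eis → ℂ, (∀ e, ‖κ e‖ ≤ 1) →
      (∀ a b, IsPrim a → IsPrim b → κ (a * b) = κ a * κ b) → κ 1 = 1 →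
      ∀ (g : Eis → ℂ) (G : ℝ), 0 ≤ G →
      ∀ (T : ℕ), (∀ e, IsPrim e → T < nm e → ‖g e‖ ≤ G * (nm e : ℝ)⁻¹) → 1 ≤ T → ∀ κ₀ : ℝ,
      ‖∑ b ∈ primBall ⌊Real.exp (κ₀ + 1)⌋₊, (muE b : ℂ) * tw χ l b *
        ∑ e ∈ dvs b, (if T < nm e then (muE e : ℂ) *
          (κ e * (v (Real.log (nm b) - κ₀) * g e)) else 0)‖ ≤
        C * G * (nm q : ℝ) ^ ε * Real.exp ((θ + ε) * κ₀) * (T : ℝ) ^ (-θ + ε) := by
  obtain ⟨C, hC0, hC⟩ := core_bound hθ hθ1 hPF hε (by linarith) hl hv sg_one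
  refine ⟨C * LatSum413.Zs (1 + ε), mul_nonneg hC0 (LatSum413.Zs_nonneg _), ?_⟩
  intro q χ hχ κ hκ hκm hκ1 g G hG T hg hT κ₀
  set N := ⌊Real.exp (κ₀ + 1)⌋₊ with hN
  have hs := LatSum413.summable_nm_rpow (s := 1 + ε) (by linarith)
  have hT0 : (0 : ℝ) < T := by exact_mod_cast hT
  have hq0 : (0 : ℝ) < nm q := by exact_mod_cast nm_pos.mpr hχ.q0
  rw [reorg1 hχ hκm hκ1 l N (fun n => T < n)
    (fun b e => v (Real.log (nm b) - κ₀) * g e)]
  have hterm : ∀ e ∈ primBall N, ‖(if T < nm e then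
      ((muE e : ℂ) * κ e * ((muE e : ℂ) * tw χ l e)) *
        ∑ b ∈ primBall (N / nm e), (muE b : ℂ) * tw (chi1 q e χ) l b *
          (v (Real.log (nm (e * b)) - κ₀) * g e) else 0)‖ ≤
      (C * G * (nm q : ℝ) ^ ε * Real.exp ((θ + ε) * κ₀) * (T : ℝ) ^ (-θ + ε)) *
        (nm e : ℝ) ^ (-(1 + ε)) := by
    intro e he
    have hep := (mem_primBall.mp he).2
    have hen := nm_pos.mpr hep.ne_zero
    have hen0 : (0 : ℝ) < nm e := by exact_mod_cast hen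
    split_ifs with hTe
    · have hTe' : (T : ℝ) ≤ nm e := by exact_mod_cast hTe.le
      have h1 := hC (q * e) (chi1 q e χ) (hc_chi1 hχ hep.ne_zero) 0 (κ₀ - Real.log (nm e))
        (N / nm e) (floor_div_lt κ₀ hen)
      have e1 : ∑ b ∈ primBall (N / nm e), (muE b : ℂ) * tw (chi1 q e χ) l b *
          (v (Real.log (nm (e * b)) - κ₀) * g e) =
          (∑ b ∈ primBall (N / nm e), (muE b : ℂ) * tw (chi1 q e χ) l b *
          (v (Real.log (nm b) - (κ₀ - Real.log (nm e))) * 1)) * g e := by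
        rw [Finset.sum_mul]
        refine Finset.sum_congr rfl fun b hb => ?_
        have hbp := (mem_primBall.mp hb).2
        have hbn : (0 : ℝ) < nm b := by exact_mod_cast nm_pos.mpr hbp.ne_zero
        rw [nm_mul, Nat.cast_mul, Real.log_mul hen0.ne' hbn.ne']
        rw [show Real.log (nm e) + Real.log (nm b) - κ₀ =
          Real.log (nm b) - (κ₀ - Real.log (nm e)) by ring]
        ring
      rw [e1, norm_mul, norm_mul (∑ b ∈ primBall (N / nm e), _) (g e)]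
      have h2 : ‖(muE e : ℂ) * κ e * ((muE e : ℂ) * tw χ l e)‖ ≤ 1 := by
        have a1 : ‖(muE e : ℂ)‖ ≤ 1 := by
          rw [Complex.norm_intCast]
          have := abs_muE_le e
          exact_mod_cast this
        have a2 := norm_muE_mul_le (hχ.isChar_tw l) hep
        calc _ = ‖(muE e : ℂ)‖ * ‖κ e‖ * ‖(muE e : ℂ) * tw χ l e‖ := by
              rw [norm_mul, norm_mul (muE e : ℂ) (κ e)]
          _ ≤ 1 * 1 * 1 := by
              gcongr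
              exact hκ e
          _ = 1 := by norm_num
      have h3 : (nm (q * e) : ℝ) ^ ε = (nm q : ℝ) ^ ε * (nm e : ℝ) ^ ε := by
        rw [nm_mul, Nat.cast_mul, Real.mul_rpow hq0.le hen0.le]
      have h4 : Real.exp ((θ + ε) * (κ₀ - Real.log (nm e))) =
          Real.exp ((θ + ε) * κ₀) * (nm e : ℝ) ^ (-(θ + ε)) := by
        rw [Real.rpow_def_of_pos hen0, ← Real.exp_add]
        congr 1; ring
      have h5 : (nm e : ℝ) ^ ε * (nm e : ℝ) ^ (-(θ + ε)) * (nm e : ℝ)⁻¹ ≤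
          (T : ℝ) ^ (-θ + ε) * (nm e : ℝ) ^ (-(1 + ε)) := by
        have e2 : (nm e : ℝ) ^ ε * (nm e : ℝ) ^ (-(θ + ε)) * (nm e : ℝ)⁻¹ =
            (nm e : ℝ) ^ (-θ + ε) * (nm e : ℝ) ^ (-(1 + ε)) := by
          rw [← Real.rpow_neg_one, ← Real.rpow_add hen0, ← Real.rpow_add hen0,
            ← Real.rpow_add hen0]
          congr 1; ring
        rw [e2]
        gcongr ?_ * _
        exact Real.rpow_le_rpow_of_nonpos hT0 hTe' (by linarith)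
      calc ‖(muE e : ℂ) * κ e * ((muE e : ℂ) * tw χ l e)‖ *
          (‖∑ b ∈ primBall (N / nm e), (muE b : ℂ) * tw (chi1 q e χ) l b *
          (v (Real.log (nm b) - (κ₀ - Real.log (nm e))) * 1)‖ * ‖g e‖)
          ≤ 1 * ((C * (nm (q * e) : ℝ) ^ ε * Real.exp ((θ + ε) * (κ₀ - Real.log (nm e)))) *
            (G * (nm e : ℝ)⁻¹)) := by
            gcongr
            exact hg e hep hTe
        _ = C * G * (nm q : ℝ) ^ ε * Real.exp ((θ + ε) * κ₀) *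
            ((nm e : ℝ) ^ ε * (nm e : ℝ) ^ (-(θ + ε)) * (nm e : ℝ)⁻¹) := by
            rw [h3, h4]; ring
        _ ≤ C * G * (nm q : ℝ) ^ ε * Real.exp ((θ + ε) * κ₀) *
            ((T : ℝ) ^ (-θ + ε) * (nm e : ℝ) ^ (-(1 + ε))) := by gcongr
        _ = _ := by ring
    · rw [norm_zero]; positivity
  refine (norm_sum_le _ _).trans ((Finset.sum_le_sum hterm).trans ?_)
  rw [← Finset.mul_sum]
  have h6 : ∑ e ∈ primBall N, (nm e : ℝ) ^ (-(1 + ε)) ≤ LatSum413.Zs (1 + ε) :=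
    hs.sum_le_tsum _ (fun _ _ => by positivity)
  calc _ ≤ (C * G * (nm q : ℝ) ^ ε * Real.exp ((θ + ε) * κ₀) * (T : ℝ) ^ (-θ + ε)) *
        LatSum413.Zs (1 + ε) := by gcongr
    _ = _ := by ring

/-- the contribution of the error terms of the small divisors -/
theorem small_bound {q : Eis} {χ : Eis → ℂ} (hχ : HC q χ) (l : ℤ) {κ : Eis → ℂ}
    (hκ : ∀ e, ‖κ e‖ ≤ 1) {v : ℝ → ℂ} {Bv : ℝ} (hv : ∀ u, ‖v u‖ ≤ Bv) {g : Eis → ℂ} {G : ℝ}
    (hG : 0 ≤ G) {T : ℕ} (hg : ∀ e, IsPrim e → nm e ≤ T → ‖g e‖ ≤ G * (nm e : ℝ)⁻¹) (κ₀ : ℝ) :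
    ‖∑ b ∈ primBall ⌊Real.exp (κ₀ + 1)⌋₊, (muE b : ℂ) * tw χ l b *
        ∑ e ∈ dvs b, (if nm e ≤ T then (muE e : ℂ) *
          (κ e * (v (Real.log (nm b) - κ₀) * g e)) else 0)‖ ≤
      100 * Real.exp 1 * LatSum413.Zs 2 * Bv * G * Real.exp κ₀ := by
  set N := ⌊Real.exp (κ₀ + 1)⌋₊ with hN
  have hBv : 0 ≤ Bv := (norm_nonneg _).trans (hv 0)
  have hs := LatSum413.summable_nm_rpow (s := 2) (by norm_num)
  have h1 : ‖∑ b ∈ primBall N, (muE b : ℂ) * tw χ l b *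
        ∑ e ∈ dvs b, (if nm e ≤ T then (muE e : ℂ) *
          (κ e * (v (Real.log (nm b) - κ₀) * g e)) else 0)‖ ≤
      ∑ b ∈ primBall N, ∑ e ∈ dvs b, Bv * G * (nm e : ℝ)⁻¹ := by
    refine (norm_sum_le _ _).trans (Finset.sum_le_sum fun b hb => ?_)
    have hbp := (mem_primBall.mp hb).2
    rw [norm_mul]
    calc _ ≤ 1 * ∑ e ∈ dvs b, Bv * G * (nm e : ℝ)⁻¹ := by
          refine mul_le_mul (norm_muE_mul_le (hχ.isChar_tw l) hbp) ?_ (norm_nonneg _) zero_le_one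
          refine (norm_sum_le _ _).trans (Finset.sum_le_sum fun e he => ?_)
          have hep := isPrim_of_mem_dvs he
          split_ifs with hT
          · have a1 : ‖(muE e : ℂ)‖ ≤ 1 := by
              rw [Complex.norm_intCast]
              have := abs_muE_le e
              exact_mod_cast this
            rw [norm_mul, norm_mul, norm_mul]
            calc _ ≤ 1 * (1 * (Bv * (G * (nm e : ℝ)⁻¹))) := by
                  gcongr
                  · exact hκ e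
                  · exact hv _
                  · exact hg e hep hT
              _ = _ := by ring
          · rw [norm_zero]; positivity
      _ = _ := one_mul _
  refine h1.trans ?_
  rw [sum_primBall_dvs N (fun e _ => Bv * G * (nm e : ℝ)⁻¹)]
  have hterm : ∀ e ∈ primBall N, ∑ _b ∈ primBall (N / nm e), Bv * G * (nm e : ℝ)⁻¹ ≤
      (100 * N * Bv * G) * (nm e : ℝ) ^ (-(2 : ℝ)) := by
    intro e he
    have hep := (mem_primBall.mp he).2
    have hen0 : (0 : ℝ) < nm e := by exact_mod_cast nm_pos.mpr hep.ne_zero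
    rw [Finset.sum_const, nsmul_eq_mul]
    have h2 : ((primBall (N / nm e)).card : ℝ) ≤ 100 * ((N / nm e : ℕ) : ℝ) :=
      (by exact_mod_cast Finset.card_le_card (primBall_subset_nz _) :
        ((primBall (N / nm e)).card : ℝ) ≤ ((nz (N / nm e)).card : ℝ)).trans (card_nz_le _)
    have h3 : ((N / nm e : ℕ) : ℝ) ≤ N / nm e := Nat.cast_div_le
    have h4 : (nm e : ℝ) ^ (-(2 : ℝ)) = (nm e : ℝ)⁻¹ * (nm e : ℝ)⁻¹ := by
      rw [← Real.rpow_neg_one, ← Real.rpow_add hen0]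
      norm_num
    calc ((primBall (N / nm e)).card : ℝ) * (Bv * G * (nm e : ℝ)⁻¹)
        ≤ (100 * (N / nm e)) * (Bv * G * (nm e : ℝ)⁻¹) := by
          gcongr
          linarith
      _ = _ := by rw [h4]; ring
  refine (Finset.sum_le_sum hterm).trans ?_
  rw [← Finset.mul_sum]
  have h6 : ∑ e ∈ primBall N, (nm e : ℝ) ^ (-(2 : ℝ)) ≤ LatSum413.Zs 2 :=
    hs.sum_le_tsum _ (fun _ _ => by positivity)
  have h7 : (N : ℝ) ≤ Real.exp 1 * Real.exp κ₀ := by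
    rw [← Real.exp_add, add_comm]
    exact Nat.floor_le (Real.exp_pos _).le
  have hZ := LatSum413.Zs_nonneg 2
  calc (100 * N * Bv * G) * ∑ e ∈ primBall N, (nm e : ℝ) ^ (-(2 : ℝ))
      ≤ (100 * (Real.exp 1 * Real.exp κ₀) * Bv * G) * LatSum413.Zs 2 := by gcongr
    _ = _ := by ring

lemma norm_c0_le (F : 𝓢(ℂ, ℂ)) {m : Eis} {γ κ : Eis → ℂ} {Γ : ℝ} (g : GM m γ κ Γ) :
    ‖c0 m γ F‖ ≤ (2 * ‖I3 F‖) * Γ := by
  have hm : (0 : ℝ) < nm m := by exact_mod_cast nm_pos.mpr g.m0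
  have h1 : ‖sumMod m γ‖ ≤ nm m * Γ := SumMod880.norm_sumMod_le g.m0 g.bd
  have h3 : (1 : ℝ) ≤ Real.sqrt 3 := by
    rw [show (1 : ℝ) = Real.sqrt 1 by simp]
    exact Real.sqrt_le_sqrt (by norm_num)
  have hΓ := g.nonneg
  unfold c0
  rw [norm_mul, Complex.norm_real, Real.norm_of_nonneg (by positivity), norm_mul]
  calc 2 / (Real.sqrt 3 * nm m) * (‖sumMod m γ‖ * ‖I3 F‖)
      ≤ 2 / (1 * nm m) * ((nm m * Γ) * ‖I3 F‖) := by gcongr
    _ = _ := by field_simp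

lemma rpow_mul_cube {z : ℂ} (hz : z ≠ 0) {e : Eis} (he : e ≠ 0) :
    ‖z * toC e ^ 3‖ ^ (-(2 / 3 : ℝ)) = ‖z‖ ^ (-(2 / 3 : ℝ)) * (nm e : ℝ)⁻¹ := by
  have hz0 : 0 < ‖z‖ := norm_pos_iff.mpr hz
  have hen : (0 : ℝ) < nm e := by exact_mod_cast nm_pos.mpr he
  rw [norm_mul, norm_pow, Real.mul_rpow hz0.le (by positivity), norm_toC, Real.sqrt_eq_rpow,
    ← Real.rpow_natCast, ← Real.rpow_mul hen.le, ← Real.rpow_mul hen.le]
  congr 1
  rw [← Real.rpow_neg_one]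
  congr 1
  push_cast
  norm_num

lemma rpow_third_cube {z : ℂ} (hz : z ≠ 0) {e : Eis} (he : e ≠ 0) :
    ‖z * toC e ^ 3‖ ^ (1 / 3 : ℝ) = Real.sqrt (nm e / ‖z‖ ^ (-(2 / 3 : ℝ))) := by
  have hz0 : 0 < ‖z‖ := norm_pos_iff.mpr hz
  have hen : (0 : ℝ) < nm e := by exact_mod_cast nm_pos.mpr he
  have e1 : (nm e / ‖z‖ ^ (-(2 / 3 : ℝ)) : ℝ) ^ (1 / 2 : ℝ) =
      (nm e : ℝ) ^ (1 / 2 : ℝ) * ‖z‖ ^ (1 / 3 : ℝ) := by
    rw [Real.div_rpow hen.le (by positivity), ← Real.rpow_mul hz0.le, div_eq_mul_inv,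
      ← Real.rpow_neg hz0.le]
    norm_num
  rw [Real.sqrt_eq_rpow (nm e / _), e1, norm_mul, norm_pow,
    Real.mul_rpow hz0.le (by positivity), norm_toC, Real.sqrt_eq_rpow,
    ← Real.rpow_natCast, ← Real.rpow_mul hen.le, ← Real.rpow_mul hen.le, mul_comm]
  norm_num

/-- **asymptotics of the principal double sum** -/
theorem prin_asymp {S : Set ℤ} {θ ε : ℝ} (hθ : 1 / 2 < θ) (hθ1 : θ ≤ 1) (hPF : PF S θ)
    (hε : 0 < ε) (hε1 : ε ≤ 1 / 2) {l : ℤ} (hl : l ∈ S) {v : ℝ → ℂ} (hv : HW v)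
    (F : 𝓢(ℂ, ℂ)) (hF0 : F 0 = 0) {B : ℕ} (hB : 3 ≤ B) :
    ∃ C : ℝ, 0 ≤ C ∧ ∀ (q : Eis) (χ : Eis → ℂ), HC q χ →
      ∀ (m : Eis) (γ κ : Eis → ℂ) (Γ : ℝ), GM m γ κ Γ → κ 1 = 1 → m ∣ q →
      ∀ z : ℂ, z ≠ 0 → ‖z‖ ≤ 1 → ∀ (T : ℕ), 1 ≤ T → ∀ κ₀ : ℝ,
      ‖∑ b ∈ primBall ⌊Real.exp (κ₀ + 1)⌋₊, (muE b : ℂ) * tw χ l b *
          (v (Real.log (nm b) - κ₀) * Yn γ F b z) -
        ((‖z‖ ^ (-(2 / 3 : ℝ)) : ℝ) : ℂ) * c0 m γ F *
        ∑ b ∈ primBall ⌊Real.exp (κ₀ + 1)⌋₊, (muE b : ℂ) * tw χ l b *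
          (v (Real.log (nm b) - κ₀) * ((PE b : ℝ) : ℂ))‖ ≤
        C * Γ * ((nm q : ℝ) ^ ε * Real.exp ((θ + ε) * κ₀) *
          (‖z‖ ^ (-(2 / 3 : ℝ))) ^ (1 + ε) * (T : ℝ) ^ (-θ + ε) +
          Real.exp κ₀ * ‖z‖ ^ (-(2 / 3 : ℝ)) *
            Real.sqrt (nm m * T / ‖z‖ ^ (-(2 / 3 : ℝ))) ^ B) := by
  classical
  obtain ⟨C1, h10, h1⟩ := tail_bound hθ hθ1 hPF hε hε1 hl hv
  obtain ⟨C2, h20, h2⟩ := Y1_asymp F hB
  obtain ⟨C3, h30, h3⟩ := Y1_le F hε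
  obtain ⟨Bv, hBv⟩ := hv.bounded
  have hBv0 : 0 ≤ Bv := (norm_nonneg _).trans (hBv 0)
  set C4 : ℝ := 100 * Real.exp 1 * LatSum413.Zs 2 * Bv * C2 with hC4
  have hC40 : 0 ≤ C4 := by
    have := LatSum413.Zs_nonneg 2
    positivity
  refine ⟨C1 * (C3 + 2 * ‖I3 F‖) + C4, by positivity, ?_⟩
  intro q χ hχ m γ κ Γ g hκ1 hmq z hz hz1 T hT κ₀
  set N := ⌊Real.exp (κ₀ + 1)⌋₊ with hN
  set L : ℝ := ‖z‖ ^ (-(2 / 3 : ℝ)) with hL
  have hz0 : 0 < ‖z‖ := norm_pos_iff.mpr hz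
  have hL0 : 0 < L := by positivity
  have hL1 : 1 ≤ L := Real.one_le_rpow_of_pos_of_le_one_of_nonpos hz0 hz1 (by norm_num)
  have hΓ := g.nonneg
  have hT0 : (0 : ℝ) < T := by exact_mod_cast hT
  have hm0 : (0 : ℝ) < nm m := by exact_mod_cast nm_pos.mpr g.m0
  set gg : Eis → ℂ := fun e => Y1 γ F (z * toC e ^ 3) - ((L * (nm e : ℝ)⁻¹ : ℝ) : ℂ) * c0 m γ F
    with hgg
  -- rewriting of the difference
  have key : ∑ b ∈ primBall N, (muE b : ℂ) * tw χ l b *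
          (v (Real.log (nm b) - κ₀) * Yn γ F b z) -
        (L : ℂ) * c0 m γ F *
        ∑ b ∈ primBall N, (muE b : ℂ) * tw χ l b *
          (v (Real.log (nm b) - κ₀) * ((PE b : ℝ) : ℂ)) =
      (∑ b ∈ primBall N, (muE b : ℂ) * tw χ l b *
        ∑ e ∈ dvs b, (if T < nm e then (muE e : ℂ) *
          (κ e * (v (Real.log (nm b) - κ₀) * gg e)) else 0)) +
      ∑ b ∈ primBall N, (muE b : ℂ) * tw χ l b *
        ∑ e ∈ dvs b, (if nm e ≤ T then (muE e : ℂ) *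
          (κ e * (v (Real.log (nm b) - κ₀) * gg e)) else 0) := by
    rw [Finset.mul_sum, ← Finset.sum_sub_distrib, ← Finset.sum_add_distrib]
    refine Finset.sum_congr rfl fun b hb => ?_
    have hbp := (mem_primBall.mp hb).2
    by_cases hbq : IsCoprime b q
    · have hbm : IsCoprime b m := hbq.of_isCoprime_of_dvd_right hmq
      have e1 : ((PE b : ℝ) : ℂ) = ∑ d ∈ dvs b, (muE d : ℂ) * (((nm d : ℝ)⁻¹ : ℝ) : ℂ) := by
        rw [PE_eq_sum hbp.ne_zero]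
        push_cast
        refine Finset.sum_congr rfl fun d _ => ?_
        rw [one_div]
      have e2 : Yn γ F b z - (L : ℂ) * c0 m γ F * ((PE b : ℝ) : ℂ) =
          ∑ e ∈ dvs b, (muE e : ℂ) * (κ e * gg e) := by
        rw [Yn_eq g F hbp hbm hz, e1, Finset.mul_sum, ← Finset.sum_sub_distrib]
        refine Finset.sum_congr rfl fun e he => ?_
        have hep := isPrim_of_mem_dvs he
        have hem : IsCoprime e m := hbm.of_isCoprime_of_dvd_left (dvd_of_mem_dvs he)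
        have h4 : κ e * c0 m γ F = c0 m γ F := by
          unfold c0
          have := g.kappa_sum hep hem
          linear_combination (((2 / (Real.sqrt 3 * nm m) : ℝ) : ℂ) * I3 F) * this
        rw [hgg]
        simp only
        push_cast
        linear_combination ((muE e : ℂ) * L * (nm e : ℂ)⁻¹) * h4
      have e3 : ∀ e : Eis, (muE e : ℂ) * (κ e * gg e) * v (Real.log (nm b) - κ₀) =
          (if T < nm e then (muE e : ℂ) * (κ e * (v (Real.log (nm b) - κ₀) * gg e)) else 0) +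
          (if nm e ≤ T then (muE e : ℂ) * (κ e * (v (Real.log (nm b) - κ₀) * gg e)) else 0) := by
        intro e
        by_cases hTe : T < nm e
        · rw [if_pos hTe, if_neg (by omega)]; ring
        · rw [if_neg hTe, if_pos (by omega)]; ring
      rw [← mul_add, ← Finset.sum_add_distrib, ← Finset.sum_congr rfl (fun e _ => e3 e),
        ← Finset.sum_mul, ← e2]
      ring
    · rw [tw_eq_zero hχ l hbp hbq]
      ring
  rw [key]
  refine (norm_add_le _ _).trans ?_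
  have k1 := h1 q χ hχ κ g.kb g.kmul hκ1 gg ((C3 + 2 * ‖I3 F‖) * Γ * L ^ (1 + ε))
    (by positivity) T ?_ hT κ₀
  · have k2 := small_bound hχ l g.kb hBv (g := gg)
      (G := C2 * Γ * L * Real.sqrt (nm m * T / L) ^ B) (by positivity) (T := T) ?_ κ₀
    · refine (add_le_add k1 k2).trans ?_
      have hqε : (0 : ℝ) ≤ (nm q : ℝ) ^ ε := by positivity
      have a1 : 0 ≤ C4 * Γ * ((nm q : ℝ) ^ ε * Real.exp ((θ + ε) * κ₀) * L ^ (1 + ε) *
          (T : ℝ) ^ (-θ + ε)) := by positivity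
      have a2 : 0 ≤ C1 * (C3 + 2 * ‖I3 F‖) * Γ * (Real.exp κ₀ * L *
          Real.sqrt (nm m * T / L) ^ B) := by positivity
      calc _ = C1 * (C3 + 2 * ‖I3 F‖) * Γ * ((nm q : ℝ) ^ ε * Real.exp ((θ + ε) * κ₀) *
            L ^ (1 + ε) * (T : ℝ) ^ (-θ + ε)) +
            C4 * Γ * (Real.exp κ₀ * L * Real.sqrt (nm m * T / L) ^ B) := by
            rw [hC4]; ring
        _ ≤ (C1 * (C3 + 2 * ‖I3 F‖) * Γ * ((nm q : ℝ) ^ ε * Real.exp ((θ + ε) * κ₀) *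
            L ^ (1 + ε) * (T : ℝ) ^ (-θ + ε)) +
            C4 * Γ * (Real.exp κ₀ * L * Real.sqrt (nm m * T / L) ^ B)) +
            (C4 * Γ * ((nm q : ℝ) ^ ε * Real.exp ((θ + ε) * κ₀) * L ^ (1 + ε) *
              (T : ℝ) ^ (-θ + ε)) + C1 * (C3 + 2 * ‖I3 F‖) * Γ * (Real.exp κ₀ * L *
              Real.sqrt (nm m * T / L) ^ B)) := by linarith
        _ = _ := by ring
    · intro e hep hTe
      have hen : (0 : ℝ) < nm e := by exact_mod_cast nm_pos.mpr hep.ne_zero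
      have hze : z * toC e ^ 3 ≠ 0 := mul_ne_zero hz (pow_ne_zero _ (Po581.toC_ne_zero hep.ne_zero))
      have h5 := h2 m γ κ Γ g (z * toC e ^ 3) hze
      rw [hF0, mul_zero, add_zero, rpow_mul_cube hz hep.ne_zero,
        rpow_third_cube hz hep.ne_zero] at h5
      refine h5.trans ?_
      have h6 : ‖toC m‖ * Real.sqrt (nm e / L) ≤ Real.sqrt (nm m * T / L) := by
        rw [norm_toC, ← Real.sqrt_mul hm0.le]
        apply Real.sqrt_le_sqrt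
        rw [mul_div_assoc']
        have : (nm e : ℝ) ≤ T := by exact_mod_cast hTe
        gcongr
      calc C2 * Γ * (L * (nm e : ℝ)⁻¹) * (‖toC m‖ * Real.sqrt (nm e / L)) ^ B
          ≤ C2 * Γ * (L * (nm e : ℝ)⁻¹) * (Real.sqrt (nm m * T / L)) ^ B := by gcongr
        _ = _ := by ring
  · intro e hep hTe
    have hen : (1 : ℝ) ≤ nm e := by exact_mod_cast nm_pos.mpr hep.ne_zero
    have hen0 : (0 : ℝ) < nm e := by linarith
    have hze : z * toC e ^ 3 ≠ 0 := mul_ne_zero hz (pow_ne_zero _ (Po581.toC_ne_zero hep.ne_zero))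
    have h5 := h3 γ Γ g.bd (z * toC e ^ 3) hze
    rw [rpow_mul_cube hz hep.ne_zero] at h5
    have h6 : (L * (nm e : ℝ)⁻¹) ^ (1 + ε) ≤ L ^ (1 + ε) * (nm e : ℝ)⁻¹ := by
      rw [Real.mul_rpow hL0.le (by positivity)]
      gcongr
      rw [Real.inv_rpow hen0.le]
      apply inv_anti₀ hen0
      calc (nm e : ℝ) = (nm e : ℝ) ^ (1 : ℝ) := (Real.rpow_one _).symm
        _ ≤ _ := Real.rpow_le_rpow_of_exponent_le hen (by linarith)
    have h7 : L ≤ L ^ (1 + ε) := by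
      calc L = L ^ (1 : ℝ) := (Real.rpow_one _).symm
        _ ≤ _ := Real.rpow_le_rpow_of_exponent_le hL1 (by linarith)
    rw [hgg]
    refine (norm_sub_le _ _).trans ?_
    have h8 : ‖((L * (nm e : ℝ)⁻¹ : ℝ) : ℂ) * c0 m γ F‖ ≤
        (L ^ (1 + ε) * (nm e : ℝ)⁻¹) * ((2 * ‖I3 F‖) * Γ) := by
      rw [norm_mul, Complex.norm_real, Real.norm_of_nonneg (by positivity)]
      have := norm_c0_le F g
      gcongr
    calc _ ≤ C3 * Γ * (L ^ (1 + ε) * (nm e : ℝ)⁻¹) +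
          (L ^ (1 + ε) * (nm e : ℝ)⁻¹) * ((2 * ‖I3 F‖) * Γ) := by
          refine add_le_add (h5.trans ?_) h8
          gcongr
      _ = _ := by ring

end Crest.Agent.R017.BL7
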