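import Crest.Agent.R017.BL5defs2_868
import Crest.Agent.R017.BL5d_868
import Crest.Agent.R017.BL7d_868

/-!
# Row 17, leaf L5 (e): the sum over `l` of the natural double sum, main term
-/

set_option autoImplicit false

noncomputable section

open MeasureTheory Complex Set
open scoped ComplexConjugate ContDiff SchwartzMap

namespace Crest.Agent.R017.L5

open Crest.Agent.R012 Crest.Agent.R012.Eis Crest.Agent.R012.Mob705 Crest.Agent.R012.Div277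
open Crest.Agent.R017.End699 Crest.Agent.R017.Sx545 Crest.Agent.R017.B770
open Crest.Agent.R017.Asm986 (sw_bound MV_congr)
open Crest.Agent.R017.BL7 (schw_decay I3 cube_sum_ne)

lemma F_cube_decay (F : 𝓢(ℂ, ℂ)) {ε : ℝ} (hε : 0 < ε) : ∃ C : ℝ, 0 ≤ C ∧ ∀ z : ℂ, z ≠ 0 →
    ∀ l : Eis, l ≠ 0 → (nm l : ℝ) ^ ε * ‖F (z ^ 3 * toC l ^ 3)‖ ≤
      C * ((‖z‖ ^ 2)⁻¹) ^ (1 + 2 * ε) * (nm l : ℝ) ^ (-(1 + ε)) := by
  obtain ⟨C, hC0, hC⟩ := schw_decay F (s := 2 / 3 * (1 + 2 * ε)) (by positivity)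
  refine ⟨C, hC0, fun z hz l hl => ?_⟩
  have hz0 : 0 < ‖z‖ := norm_pos_iff.mpr hz
  have hl0 : toC l ≠ 0 := Po581.toC_ne_zero hl
  have hln : (0 : ℝ) < nm l := by exact_mod_cast nm_pos.mpr hl
  have h1 := hC (z ^ 3 * toC l ^ 3) (mul_ne_zero (pow_ne_zero _ hz) (pow_ne_zero _ hl0))
  have h2 : ‖z ^ 3 * toC l ^ 3‖ ^ (-(2 / 3 * (1 + 2 * ε))) =
      ((‖z‖ ^ 2)⁻¹) ^ (1 + 2 * ε) * (nm l : ℝ) ^ (-(1 + 2 * ε)) := by
    rw [norm_mul, norm_pow, norm_pow, Real.mul_rpow (by positivity) (by positivity)]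
    congr 1
    · rw [← Real.rpow_natCast, ← Real.rpow_mul hz0.le, ← Real.rpow_natCast, ← Real.rpow_neg hz0.le,
        ← Real.rpow_mul hz0.le]
      congr 1
      push_cast
      ring
    · rw [norm_toC, Real.sqrt_eq_rpow, ← Real.rpow_natCast, ← Real.rpow_mul hln.le,
        ← Real.rpow_mul hln.le]
      congr 1
      push_cast
      ring
  rw [h2] at h1
  calc (nm l : ℝ) ^ ε * ‖F (z ^ 3 * toC l ^ 3)‖ ≤
      (nm l : ℝ) ^ ε * (C * (((‖z‖ ^ 2)⁻¹) ^ (1 + 2 * ε) * (nm l : ℝ) ^ (-(1 + 2 * ε)))) := by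
        gcongr
    _ = C * ((‖z‖ ^ 2)⁻¹) ^ (1 + 2 * ε) * ((nm l : ℝ) ^ ε * (nm l : ℝ) ^ (-(1 + 2 * ε))) := by
        ring
    _ = _ := by
        rw [← Real.rpow_add hln]
        congr 2
        ring

lemma MV_zero {V : ℝ → ℂ} {X β : ℝ} (hβ : ∀ x, V x ≠ 0 → 0 < x ∧ x ≤ β) (hX : 0 < X)
    (f : Eis → ℂ) {D : Eis} (hD : D ≠ 0) (hN : ⌊β * X⌋₊ < nm D) : MV V (X / nm D) f = 0 := by
  classical
  unfold MV
  refine (tsum_congr (g := fun _ : Eis => (0 : ℂ)) fun b => ?_).trans tsum_zero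
  split_ifs with hb
  · have hV : V (nm b / (X / nm D)) = 0 := by
      by_contra hne
      have h1 := (hβ _ hne).2
      have hD0 : (0 : ℝ) < nm D := by exact_mod_cast nm_pos.mpr hD
      have hb1 : (1 : ℝ) ≤ nm b := by exact_mod_cast nm_pos.mpr hb.ne_zero
      rw [div_le_iff₀ (by positivity)] at h1
      have h2 : (nm D : ℝ) ≤ β * X := by
        have h3 : (1 : ℝ) * nm D ≤ nm b * nm D := by gcongr
        have h4 : (nm b : ℝ) * nm D ≤ β * (X / nm D) * nm D := by gcongr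
        have h5 : β * (X / nm D) * nm D = β * X := by field_simp
        linarith
      have h3 := Nat.le_floor h2
      omega
    rw [hV, mul_zero]
  · rfl

section

variable (hT : TkAlg)
include hT

lemma norm_gamc_le : ∃ C : ℝ, 0 ≤ C ∧ ∀ m₀ c D l : Eis, Sm 2 c → Squarefree c → Sm 2 D →
    ‖gamc m₀ c D l‖ ≤ C * nm c * nm D := by
  obtain ⟨C, hC1, hC⟩ := tau_le_rpow (ε := 5 / 24) (by norm_num)
  refine ⟨C, by linarith, fun m₀ c D l hc sc hD => ?_⟩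
  have hD0 : (0 : ℝ) < nm D := by exact_mod_cast nm_pos.mpr hD.ne_zero
  have hc0 : (0 : ℝ) ≤ nm c := by positivity
  have h1 : ‖Ec c l D‖ ≤ C * nm c * nm D := by
    unfold Ec
    refine (norm_sum_le _ _).trans ?_
    have h2 : ∀ b ∈ dvs D, ‖tk (l ^ 3) b c‖ ≤ (nm D : ℝ) ^ (19 / 24 : ℝ) * nm c := by
      intro b hb
      have hb2 : Sm 2 b := ⟨isPrim_of_mem_dvs hb, hD.2.of_isCoprime_of_dvd_left (dvd_of_mem_dvs hb)⟩
      refine (norm_tk_le_c hT (l ^ 3) hb2 c hc sc).trans ?_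
      have : (nm b : ℝ) ≤ nm D := by
        exact_mod_cast nm_le_of_dvd hD.ne_zero (dvd_of_mem_dvs hb)
      gcongr
    refine (Finset.sum_le_sum h2).trans ?_
    rw [Finset.sum_const, nsmul_eq_mul]
    have h3 : ((dvs D).card : ℝ) ≤ C * (nm D : ℝ) ^ (5 / 24 : ℝ) := hC D hD.ne_zero
    calc ((dvs D).card : ℝ) * ((nm D : ℝ) ^ (19 / 24 : ℝ) * nm c) ≤
        (C * (nm D : ℝ) ^ (5 / 24 : ℝ)) * ((nm D : ℝ) ^ (19 / 24 : ℝ) * nm c) := by gcongr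
      _ = C * nm c * ((nm D : ℝ) ^ (5 / 24 : ℝ) * (nm D : ℝ) ^ (19 / 24 : ℝ)) := by ring
      _ = C * nm c * nm D := by
        rw [← Real.rpow_add hD0]
        norm_num
  unfold gamc
  split_ifs
  · exact h1
  · rw [norm_zero]
    positivity

/-- the large divisors -/
lemma big_l {θ ε : ℝ} (hθ : 5 / 6 ≤ θ) (hθ1 : θ ≤ 1) (hPF : PF Set.univ θ)
    (hε : 0 < ε) (hε1 : ε ≤ 1) (l' : ℤ) {V : ℝ → ℂ} (hV : SW V) :
    ∃ C : ℝ, 0 ≤ C ∧ ∀ (q : Eis) (χ : Eis → ℂ), HC q χ → (2 : Eis) ∣ q → ∀ c : Eis, Sm 2 c →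
      Squarefree c → ∀ l : Eis, l ≠ 0 → ∀ X : ℝ, 0 < X → ∀ Z : ℝ, 1 ≤ Z → ∀ 𝓓 : Finset Eis,
      (∀ D ∈ 𝓓, IsPrim D ∧ Z ≤ nm D) →
      ‖∑ D ∈ 𝓓, tw χ l' D * Ec c l D * MV V (X / nm D) (tw χ l')‖ ≤
        C * nm c * (nm (l * c) : ℝ) ^ ε * ((nm q : ℝ) ^ ε * X ^ (θ + ε)) *
          Z ^ (-(θ - 5 / 6)) := by
  obtain ⟨C1, h10, h1⟩ := MV_bound (by linarith) hθ1 hPF hε hε1 l' hV
  obtain ⟨C2, h20, h2⟩ := Dsum_le_c hT hε
  refine ⟨C2 * C1, by positivity, fun q χ hχ hq2 c hc sc l hl X hX Z hZ 𝓓 h𝓓 => ?_⟩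
  refine (norm_sum_le _ _).trans ?_
  have h3 := h2 q χ hχ hq2 l' c hc sc l hl (θ + ε) Z (C1 * (nm q : ℝ) ^ ε * X ^ (θ + ε))
    (by linarith) (by linarith) (by positivity) (fun D => MV V (X / nm D) (tw χ l')) 𝓓 h𝓓
    (fun D hD => ?_)
  · refine h3.trans ?_
    have h4 : Z ^ (-(θ + ε - 5 / 6)) ≤ Z ^ (-(θ - 5 / 6)) :=
      Real.rpow_le_rpow_of_exponent_le hZ (by linarith)
    calc C2 * nm c * (nm (l * c) : ℝ) ^ ε * (C1 * (nm q : ℝ) ^ ε * X ^ (θ + ε)) *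
          Z ^ (-(θ + ε - 5 / 6)) ≤
        C2 * nm c * (nm (l * c) : ℝ) ^ ε * (C1 * (nm q : ℝ) ^ ε * X ^ (θ + ε)) *
          Z ^ (-(θ - 5 / 6)) := by gcongr
      _ = _ := by ring
  · have hD0 : (0 : ℝ) < nm D := by
      exact_mod_cast nm_pos.mpr (h𝓓 D hD).1.ne_zero
    refine (h1 q χ hχ (X / nm D) (by positivity)).trans (le_of_eq ?_)
    rw [Real.div_rpow hX.le hD0.le, Real.rpow_neg hD0.le, div_eq_mul_inv]
    ring

end

end Crest.Agent.R017.L5
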