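import Crest.Agent.R017.BL5e_868

/-!
# Row 17, leaf L5 (f): the sum over `l`, main term
-/

set_option autoImplicit false

noncomputable section

open MeasureTheory Complex Set
open scoped ComplexConjugate ContDiff SchwartzMap

namespace Crest.Agent.R017.L5

open Crest.Agent.R012 Crest.Agent.R012.Eis Crest.Agent.R012.Mob705 Crest.Agent.R012.Div277
open Crest.Agent.R017.End699 Crest.Agent.R017.Sx545 Crest.Agent.R017.B770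
open Crest.Agent.R017.Asm986 (sw_bound MV_congr)
open Crest.Agent.R017.BL7 (schw_decay I3 cube_sum_ne)

/-- the mean value of `gamc` -/
def mc (m₀ c D : Eis) : ℂ := sumMod (m₀ * (D * c)) (gamc m₀ c D) / (nm (m₀ * (D * c)) : ℂ)

/-- the sum over `l` of a bounded sequence against the cube weight -/
lemma summable_F (F : 𝓢(ℂ, ℂ)) {γ : Eis → ℂ} {Γ : ℝ} (hΓ : ∀ l, ‖γ l‖ ≤ Γ) {z : ℂ} (hz : z ≠ 0) :
    Summable (fun l : Eis => if l = 0 then 0 else γ l * F (z ^ 3 * toC l ^ 3)) := by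
  obtain ⟨C, hC0, hC⟩ := F_cube_decay F (ε := 1) one_pos
  have hΓ0 : 0 ≤ Γ := (norm_nonneg _).trans (hΓ 0)
  refine Summable.of_norm_bounded
    (g := fun l : Eis => (Γ * (C * ((‖z‖ ^ 2)⁻¹) ^ (1 + 2 * (1 : ℝ)))) * (nm l : ℝ) ^ (-(1 + (1 : ℝ))))
    ((LatSum413.summable_nm_rpow (s := 1 + 1) (by norm_num)).mul_left _) (fun l => ?_)
  split_ifs with hl
  · rw [norm_zero]; positivity
  · have h1 := hC z hz l hl
    have hl1 : (1 : ℝ) ≤ nm l := by exact_mod_cast nm_pos.mpr hl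
    have h2 : ‖F (z ^ 3 * toC l ^ 3)‖ ≤ (nm l : ℝ) ^ (1 : ℝ) * ‖F (z ^ 3 * toC l ^ 3)‖ := by
      rw [Real.rpow_one]
      exact le_mul_of_one_le_left (norm_nonneg _) hl1
    rw [norm_mul]
    calc ‖γ l‖ * ‖F (z ^ 3 * toC l ^ 3)‖ ≤
        Γ * (C * ((‖z‖ ^ 2)⁻¹) ^ (1 + 2 * (1 : ℝ)) * (nm l : ℝ) ^ (-(1 + (1 : ℝ)))) := by
          gcongr
          · exact hΓ l
          · exact h2.trans h1
      _ = _ := by ring

/-- the sum over `l` of a sequence of size `N(l)^ε` against the cube weight -/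
lemma tsum_F_le (F : 𝓢(ℂ, ℂ)) {ε : ℝ} (hε : 0 < ε) : ∃ C : ℝ, 0 ≤ C ∧ ∀ (γ : Eis → ℂ) (G : ℝ),
    0 ≤ G → (∀ l, l ≠ 0 → ‖γ l‖ ≤ G * (nm l : ℝ) ^ ε) → ∀ z : ℂ, z ≠ 0 →
    Summable (fun l : Eis => if l = 0 then 0 else γ l * F (z ^ 3 * toC l ^ 3)) ∧
    ‖∑' l : Eis, (if l = 0 then 0 else γ l * F (z ^ 3 * toC l ^ 3))‖ ≤
      C * G * ((‖z‖ ^ 2)⁻¹) ^ (1 + 2 * ε) := by
  obtain ⟨C, hC0, hC⟩ := F_cube_decay F hε
  refine ⟨C * LatSum413.Zs (1 + ε), mul_nonneg hC0 (LatSum413.Zs_nonneg _),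
    fun γ G hG hγ z hz => ?_⟩
  have hs := LatSum413.summable_nm_rpow (s := 1 + ε) (by linarith)
  have hb : ∀ l : Eis, ‖(if l = 0 then 0 else γ l * F (z ^ 3 * toC l ^ 3) : ℂ)‖ ≤
      (G * (C * ((‖z‖ ^ 2)⁻¹) ^ (1 + 2 * ε))) * (nm l : ℝ) ^ (-(1 + ε)) := by
    intro l
    split_ifs with hl
    · rw [norm_zero]; positivity
    · have h1 := hC z hz l hl
      rw [norm_mul]
      calc ‖γ l‖ * ‖F (z ^ 3 * toC l ^ 3)‖ ≤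
          (G * (nm l : ℝ) ^ ε) * ‖F (z ^ 3 * toC l ^ 3)‖ := by
            gcongr
            exact hγ l hl
        _ = G * ((nm l : ℝ) ^ ε * ‖F (z ^ 3 * toC l ^ 3)‖) := by ring
        _ ≤ G * (C * ((‖z‖ ^ 2)⁻¹) ^ (1 + 2 * ε) * (nm l : ℝ) ^ (-(1 + ε))) := by gcongr
        _ = _ := by ring
  refine ⟨Summable.of_norm_bounded (hs.mul_left _) hb, ?_⟩
  refine (tsum_of_norm_bounded ((hs.mul_left _).hasSum) hb).trans (le_of_eq ?_)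
  rw [LatSum413.Zs, tsum_mul_left]
  ring

lemma coprime_ne_zero {l m₀ : Eis} (h2 : (2 : Eis) ∣ m₀) (h : IsCoprime l m₀) : l ≠ 0 := by
  rintro rfl
  have h1 : IsUnit m₀ := isCoprime_zero_left.mp h
  exact Sx440.prime_two.not_isUnit (isUnit_of_dvd_unit h2 h1)

section

variable (hT : TkAlg)
include hT

/-- asymptotics of the sum over `l` for one `D` -/
lemma T_asymp (F : 𝓢(ℂ, ℂ)) : ∃ C : ℝ, 0 ≤ C ∧ ∀ m₀ c D : Eis, m₀ ≠ 0 → (2 : Eis) ∣ m₀ →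
    Sm 2 c → Squarefree c → Sm 2 D → ∀ z : ℂ, z ≠ 0 →
    ‖(∑' l : Eis, if l = 0 then 0 else gamc m₀ c D l * F (z ^ 3 * toC l ^ 3)) -
      ((2 / Real.sqrt 3 * (‖z‖ ^ 2)⁻¹ : ℝ) : ℂ) * (mc m₀ c D * I3 F)‖ ≤
      C * ((nm m₀ : ℝ) ^ 2 * nm c ^ 3 * nm D ^ 3) * (‖z‖ ^ 2)⁻¹ * (((‖z‖ ^ 2)⁻¹) ^ 2)⁻¹ := by
  obtain ⟨C1, h10, h1⟩ := norm_gamc_le hT
  obtain ⟨C2, h20, h2⟩ := cube_sum_ne F (B := 4) (by norm_num)
  refine ⟨C2 * C1, by positivity, fun m₀ c D hm hm2 hc sc hD z hz => ?_⟩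
  have hm' : m₀ * (D * c) ≠ 0 := mul_ne_zero hm (mul_ne_zero hD.ne_zero hc.ne_zero)
  have h3 := h2 (m₀ * (D * c)) hm' (gamc m₀ c D) (perMod_gamc hc.ne_zero) (C1 * nm c * nm D)
    (fun x => h1 m₀ c D x hc sc hD) z hz
  have h0 : gamc m₀ c D 0 = 0 := by
    unfold gamc
    rw [if_neg (fun h => coprime_ne_zero hm2 h rfl)]
  rw [h0, zero_mul, add_zero] at h3
  have e1 : ((2 / (Real.sqrt 3 * nm (m₀ * (D * c))) * (‖z‖ ^ 2)⁻¹ : ℝ) : ℂ) *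
      (sumMod (m₀ * (D * c)) (gamc m₀ c D) * I3 F) =
      ((2 / Real.sqrt 3 * (‖z‖ ^ 2)⁻¹ : ℝ) : ℂ) * (mc m₀ c D * I3 F) := by
    have hn : ((nm (m₀ * (D * c)) : ℕ) : ℂ) ≠ 0 := by exact_mod_cast (nm_pos.mpr hm').ne'
    unfold mc
    push_cast
    field_simp
  rw [e1] at h3
  refine h3.trans (le_of_eq ?_)
  have e2 : (‖toC (m₀ * (D * c))‖ * ‖z‖) ^ 4 =
      ((nm m₀ : ℝ) * (nm D * nm c)) ^ 2 * (((‖z‖ ^ 2)⁻¹) ^ 2)⁻¹ := by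
    have : ‖toC (m₀ * (D * c))‖ ^ 2 = (nm m₀ : ℝ) * (nm D * nm c) := by
      rw [norm_toC, Real.sq_sqrt (by positivity), nm_mul, nm_mul]
      push_cast; ring
    rw [show (‖toC (m₀ * (D * c))‖ * ‖z‖) ^ 4 = (‖toC (m₀ * (D * c))‖ ^ 2) ^ 2 * ‖z‖ ^ 4 by ring,
      this, inv_pow, inv_inv]
    ring
  rw [e2]
  ring

end

end Crest.Agent.R017.L5
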