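import Crest.Agent.R017.BL5f_868

/-!
# Row 17, leaf L5 (g): the sum over `l`, theorem B1
-/

set_option autoImplicit false

noncomputable section

open MeasureTheory Complex Set
open scoped ComplexConjugate ContDiff SchwartzMap

namespace Crest.Agent.R017.L5

open Crest.Agent.R012 Crest.Agent.R012.Eis Crest.Agent.R012.Mob705 Crest.Agent.R012.Div277
open Crest.Agent.R017.End699 Crest.Agent.R017.Sx545 Crest.Agent.R017.B770
open Crest.Agent.R017.Asm986 (sw_bound MV_congr)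
open Crest.Agent.R017.BL7 (schw_decay I3 cube_sum_ne)

lemma two_dvd_m₀ {M m₀ : Eis} (h36 : (36 : Eis) ∣ M) (hR : Rad0 M m₀) : (2 : Eis) ∣ m₀ := by
  have h2 : (2 : Eis) ∣ M := (show (2 : Eis) ∣ 36 from ⟨18, by norm_num⟩).trans h36
  have h3 := (hR.iff 2 Sx440.prime_two).mpr h2
  rcases Sx440.prime_two.dvd_or_dvd h3 with h | h
  · exfalso
    rw [show (3 : Eis) = 2 + 1 by norm_num] at h
    exact Sx440.prime_two.not_isUnit (isUnit_of_dvd_one ((dvd_add_right (dvd_refl 2)).mp h))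
  · exact h

/-- arithmetic of the exponents -/
lemma Z_facts {L δ ε : ℝ} (hL : 0 < L) (hδ1 : δ ≤ 1 / 6) (hε : 0 < ε)
    (hε1 : 16 * ε ≤ δ) :
    L ^ (1 + 2 * ε) * (max 1 (L ^ (1 / 8 : ℝ))) ^ (-δ) ≤ L ^ (1 + 2 * ε - δ / 8) ∧
    L * (max 1 (L ^ (1 / 8 : ℝ))) ^ (-δ) ≤ L ^ (1 + 2 * ε - δ / 8) ∧
    (1 < L → (max 1 (L ^ (1 / 8 : ℝ))) ^ 4 * L⁻¹ ≤ L ^ (1 + 2 * ε - δ / 8)) := by
  rcases le_or_gt L 1 with h | h
  · have h1 : L ^ (1 / 8 : ℝ) ≤ 1 := Real.rpow_le_one hL.le h (by norm_num)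
    rw [max_eq_left h1, Real.one_rpow, mul_one, mul_one]
    refine ⟨Real.rpow_le_rpow_of_exponent_ge hL h (by linarith), ?_, fun h' => absurd h (not_le.mpr h')⟩
    calc L = L ^ (1 : ℝ) := (Real.rpow_one L).symm
      _ ≤ _ := Real.rpow_le_rpow_of_exponent_ge hL h (by linarith)
  · have h1 : 1 ≤ L ^ (1 / 8 : ℝ) := Real.one_le_rpow h.le (by norm_num)
    rw [max_eq_right h1]
    have e1 : (L ^ (1 / 8 : ℝ)) ^ (-δ) = L ^ (-(δ / 8)) := by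
      rw [← Real.rpow_mul hL.le]
      congr 1
      ring
    have e2 : (L ^ (1 / 8 : ℝ)) ^ 4 = L ^ (1 / 2 : ℝ) := by
      rw [← Real.rpow_natCast, ← Real.rpow_mul hL.le]
      congr 1
      norm_num
    rw [e1, e2]
    refine ⟨?_, ?_, fun _ => ?_⟩
    · rw [← Real.rpow_add hL]
      exact Real.rpow_le_rpow_of_exponent_le h.le (by linarith)
    · nth_rewrite 1 [← Real.rpow_one L]
      rw [← Real.rpow_add hL]
      exact Real.rpow_le_rpow_of_exponent_le h.le (by linarith)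
    · rw [← Real.rpow_neg_one, ← Real.rpow_add hL]
      exact Real.rpow_le_rpow_of_exponent_le h.le (by linarith)

open Classical in
/-- the sum over the small divisors -/
lemma small_sum (hT : TkAlg) {θ ε : ℝ} (hθ : 5 / 6 ≤ θ) (hθ1 : θ ≤ 1) (hPF : PF Set.univ θ)
    (hε : 0 < ε) (hε1 : ε ≤ 1) (l' : ℤ) {V : ℝ → ℂ} (hV : SW V) (F : 𝓢(ℂ, ℂ)) :
    ∃ C : ℝ, 0 ≤ C ∧ ∀ (M m₀ : Eis), (36 : Eis) ∣ M → Rad0 M m₀ → ∀ ψ : Eis → ℂ, HC M ψ →
      ∀ c : Eis, Sm 2 c → Squarefree c → ∀ X : ℝ, 0 < X → ∀ z : ℂ, z ≠ 0 → ∀ Z : ℝ, 1 ≤ Z →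
      ∀ N : ℕ,
      ‖∑ D ∈ (primBall N).filter (fun D => (nm D : ℝ) < Z), (tw ψ l' D * MV V (X / nm D) (tw ψ l')) *
        ((∑' l : Eis, if l = 0 then 0 else gamc m₀ c D l * F (z ^ 3 * toC l ^ 3)) -
          ((2 / Real.sqrt 3 * (‖z‖ ^ 2)⁻¹ : ℝ) : ℂ) * (mc m₀ c D * I3 F))‖ ≤
        C * ((nm M : ℝ) ^ ε * nm m₀ ^ 2 * nm c ^ 3 * X ^ (θ + ε)) *
          (if 1 < Z then Z ^ 4 * ((‖z‖ ^ 2)⁻¹)⁻¹ else 0) := by
  obtain ⟨C1, h10, h1⟩ := MV_bound (by linarith) hθ1 hPF hε hε1 l' hV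
  obtain ⟨C3, h30, h3⟩ := T_asymp hT F
  refine ⟨100 * (C1 * C3), by positivity, ?_⟩
  intro M m₀ h36 hR ψ hψ c hc sc X hX z hz Z hZ N
  have hm0 : m₀ ≠ 0 := hR.prim.ne_zero
  have h2m := two_dvd_m₀ h36 hR
  have h2M : (2 : Eis) ∣ M := (show (2 : Eis) ∣ 36 from ⟨18, by norm_num⟩).trans h36
  have hz2 : 0 < ‖z‖ ^ 2 := by positivity
  set L : ℝ := (‖z‖ ^ 2)⁻¹ with hL
  have hL0 : 0 < L := by positivity
  split_ifs with hZ1
  · set T : Eis → ℂ := fun D =>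
      ((∑' l : Eis, if l = 0 then 0 else gamc m₀ c D l * F (z ^ 3 * toC l ^ 3)) -
          ((2 / Real.sqrt 3 * L : ℝ) : ℂ) * (mc m₀ c D * I3 F)) with hTdef
    set P := (primBall N).filter (fun D => (nm D : ℝ) < Z) with hP
    have hterm : ∀ D ∈ P, ‖(tw ψ l' D * MV V (X / nm D) (tw ψ l')) * T D‖ ≤
        C1 * C3 * ((nm M : ℝ) ^ ε * nm m₀ ^ 2 * nm c ^ 3 * X ^ (θ + ε)) * (Z ^ 3 * L⁻¹) := by
      intro D hD
      rw [hP, Finset.mem_filter] at hD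
      have hDp := (mem_primBall.mp hD.1).2
      have hD0 : (0 : ℝ) < nm D := by exact_mod_cast nm_pos.mpr hDp.ne_zero
      have hD1 : (1 : ℝ) ≤ nm D := by exact_mod_cast nm_pos.mpr hDp.ne_zero
      by_cases hf : tw ψ l' D = 0
      · rw [hf, zero_mul, zero_mul, norm_zero]
        positivity
      · have hS := sm_of_tw_ne hψ h2M hDp hf
        have a1 : ‖tw ψ l' D‖ ≤ 1 := (hψ.isChar_tw l').norm_le hDp
        have a2 : ‖MV V (X / nm D) (tw ψ l')‖ ≤ C1 * (nm M : ℝ) ^ ε * X ^ (θ + ε) := by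
          refine (h1 M ψ hψ (X / nm D) (by positivity)).trans ?_
          have : X / nm D ≤ X := div_le_self hX.le hD1
          gcongr
        have a3 : ‖T D‖ ≤ C3 * ((nm m₀ : ℝ) ^ 2 * nm c ^ 3 * Z ^ 3) * L⁻¹ := by
          refine (h3 m₀ c D hm0 h2m hc sc hS z hz).trans ?_
          have e : C3 * ((nm m₀ : ℝ) ^ 2 * nm c ^ 3 * nm D ^ 3) * (‖z‖ ^ 2)⁻¹ *
              (((‖z‖ ^ 2)⁻¹) ^ 2)⁻¹ = C3 * ((nm m₀ : ℝ) ^ 2 * nm c ^ 3 * nm D ^ 3) * L⁻¹ := by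
            rw [← hL]
            field_simp
          rw [e]
          have := hD.2.le
          gcongr
        rw [norm_mul, norm_mul]
        calc ‖tw ψ l' D‖ * ‖MV V (X / nm D) (tw ψ l')‖ * ‖T D‖ ≤
            1 * (C1 * (nm M : ℝ) ^ ε * X ^ (θ + ε)) *
              (C3 * ((nm m₀ : ℝ) ^ 2 * nm c ^ 3 * Z ^ 3) * L⁻¹) := by gcongr
          _ = _ := by ring
    have hcard : (P.card : ℝ) ≤ 100 * Z := by
      have h5 : P ⊆ primBall ⌊Z⌋₊ := by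
        intro D hD
        rw [hP, Finset.mem_filter] at hD
        exact mem_primBall.mpr ⟨Nat.le_floor hD.2.le, (mem_primBall.mp hD.1).2⟩
      calc (P.card : ℝ) ≤ (primBall ⌊Z⌋₊).card := by exact_mod_cast Finset.card_le_card h5
        _ ≤ 100 * (⌊Z⌋₊ : ℝ) := Lat277.card_primBall_le _
        _ ≤ 100 * Z := by
            have := Nat.floor_le (show (0 : ℝ) ≤ Z by linarith)
            linarith
    refine (norm_sum_le _ _).trans ((Finset.sum_le_sum hterm).trans ?_)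
    rw [Finset.sum_const, nsmul_eq_mul]
    calc (P.card : ℝ) * (C1 * C3 * ((nm M : ℝ) ^ ε * nm m₀ ^ 2 * nm c ^ 3 * X ^ (θ + ε)) *
          (Z ^ 3 * L⁻¹)) ≤ (100 * Z) * (C1 * C3 * ((nm M : ℝ) ^ ε * nm m₀ ^ 2 * nm c ^ 3 *
            X ^ (θ + ε)) * (Z ^ 3 * L⁻¹)) := by gcongr
      _ = _ := by ring
  · have : (primBall N).filter (fun D => (nm D : ℝ) < Z) = ∅ := by
      refine Finset.filter_eq_empty_iff.mpr fun D hD h => ?_
      have hD1 : (1 : ℝ) ≤ nm D := by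
        exact_mod_cast nm_pos.mpr (mem_primBall.mp hD).2.ne_zero
      linarith
    rw [this, Finset.sum_empty, norm_zero, mul_zero]

end Crest.Agent.R017.L5
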