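import Crest.Agent.R017.BL5f_868

/-!
# Row 17, leaf L5 (i): removal of the primes of the amplifier
-/

set_option autoImplicit false

noncomputable section

open MeasureTheory Complex Set
open scoped ComplexConjugate ContDiff SchwartzMap

namespace Crest.Agent.R017.L5

open Crest.Agent.R012 Crest.Agent.R012.Eis Crest.Agent.R012.Mob705 Crest.Agent.R012.Div277
open Crest.Agent.R017.End699 Crest.Agent.R017.Sx545 Crest.Agent.R017.B770
open Crest.Agent.R017.Asm986 (sw_bound MV_congr)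
open Crest.Agent.R017.BL7 (schw_decay I3 cube_sum_ne chi1 hc_chi1)

lemma Nc_congr {c l : Eis} {f g : Eis → ℂ} (h : ∀ b, IsPrim b → f b = g b) (V : ℝ → ℂ) (X : ℝ) :
    Nc c l f V X = Nc c l g V X := by
  classical
  unfold Nc
  refine tsum_congr fun b => ?_
  split_ifs with hb
  · rw [h b hb]
  · rfl

lemma fx_tw {q : Eis} {χ : Eis → ℂ} (h : HC q χ) (l' : ℤ) (n : Eis) {b : Eis} (hb : IsPrim b) :
    fx n (tw χ l') b = tw (chi1 q n χ) l' b := by
  classical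
  unfold fx End699.tw chi1
  by_cases hq : IsCoprime b q
  · have : prin0 (q * n) b = prin0 n b := by
      rw [prin0_mul]
      unfold prin0
      rw [if_pos hq, one_mul]
    rw [this]; ring
  · rw [h.van b hb hq]; ring

lemma mf_tw {q : Eis} {χ : Eis → ℂ} (h : HC q χ) (h2 : (2 : Eis) ∣ q) (l' : ℤ) :
    MF (tw χ l') where
  mul a b ha hb := (h.isChar_tw l').mul a b ha hb
  sm _ hb hne := sm_of_tw_ne h h2 hb hne

/-- admissible sets of primes -/
def PS (c : Eis) (S : Finset Eis) : Prop := ∀ p ∈ S, Sm 2 p ∧ Prime p ∧ ¬ p ∣ c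

lemma PS.sm {c : Eis} {S : Finset Eis} (h : PS c S) : Sm 2 (∏ p ∈ S, p) := by
  classical
  induction S using Finset.induction_on with
  | empty => rw [Finset.prod_empty]; exact Sm.one 2
  | insert a S ha ih =>
    rw [Finset.prod_insert ha]
    exact (h a (Finset.mem_insert_self _ _)).1.mul
      (ih fun p hp => h p (Finset.mem_insert_of_mem hp))

lemma PS.insert {c a : Eis} {S : Finset Eis} [DecidableEq Eis] (h : PS c (insert a S)) : PS c S :=
  fun p hp => h p (Finset.mem_insert_of_mem hp)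

/-- distinct primary primes are coprime -/
lemma prime_dvd_prime {p q : Eis} (hp : Sm 2 p) (hpp : Prime p) (hq : Sm 2 q) (hqq : Prime q)
    (h : p ∣ q) : p = q :=
  IsPP.eq_of_dvd ⟨hp.prim, hpp⟩ ⟨hq.prim, hqq⟩ h

lemma PS.not_dvd {c a : Eis} {S : Finset Eis} [DecidableEq Eis] (h : PS c (Insert.insert a S))
    (ha : a ∉ S) : ¬ a ∣ c * ∏ p ∈ S, p := by
  obtain ⟨h1, h2, h3⟩ := h a (Finset.mem_insert_self _ _)
  intro hd
  rcases h2.dvd_or_dvd hd with hd | hd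
  · exact h3 hd
  · obtain ⟨p, hp, hap⟩ := (Prime.dvd_finsetProd_iff h2 _).mp hd
    obtain ⟨g1, g2, _⟩ := h p (Finset.mem_insert_of_mem hp)
    exact ha (prime_dvd_prime h1 h2 g1 g2 hap ▸ hp)

lemma fx_prime {a p : Eis} (hp : Sm 2 p) (hpp : Prime p) (ha : Sm 2 a) (hap : Prime a)
    (hne : p ≠ a) (f : Eis → ℂ) : fx a f p = f p := by
  refine fx_of_coprime f ?_
  exact (hpp.irreducible.coprime_iff_not_dvd).mpr fun h => hne (prime_dvd_prime hp hpp ha hap h)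

section

variable (hT : TkAlg)
include hT

open Classical in
/-- removal of all the primes -/
theorem Nc_full {V : ℝ → ℂ} {β : ℝ} (hβ : ∀ x, V x ≠ 0 → 0 < x ∧ x ≤ β) {c : Eis}
    (hc : Sm 2 c) (l : Eis) : ∀ S : Finset Eis, PS c S → ∀ f : Eis → ℂ, MF f → ∀ X : ℝ, 0 < X →
    Nc (c * ∏ p ∈ S, p) l f V X =
      (∏ p ∈ S.filter (fun p => p ∣ l), (1 - (nm p : ℂ)) * f p) *
        Nc c l (fx (∏ p ∈ S, p) f) V (X / nm (∏ p ∈ S.filter (fun p => p ∣ l), p)) := by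
  intro S
  induction S using Finset.induction_on with
  | empty =>
    intro _ f _ X _
    simp only [Finset.prod_empty, Finset.filter_empty, one_mul, mul_one, fx_one]
    rw [show nm (1 : Eis) = 1 from nm_one, Nat.cast_one, div_one]
  | insert a S ha ih =>
    intro hPS f hf X hX
    have hPS' := hPS.insert
    obtain ⟨ha1, ha2, _⟩ := hPS a (Finset.mem_insert_self _ _)
    have hnd := hPS.not_dvd ha
    have ha0 : (0 : ℝ) < nm a := by exact_mod_cast nm_pos.mpr ha1.ne_zero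
    have e0 : c * ∏ p ∈ insert a S, p = (c * ∏ p ∈ S, p) * a := by
      rw [Finset.prod_insert ha]; ring
    have e1 : ∏ p ∈ S.filter (fun p => p ∣ l), (1 - (nm p : ℂ)) * fx a f p =
        ∏ p ∈ S.filter (fun p => p ∣ l), (1 - (nm p : ℂ)) * f p := by
      refine Finset.prod_congr rfl fun p hp => ?_
      have hpS := (Finset.mem_filter.mp hp).1
      obtain ⟨g1, g2, _⟩ := hPS' p hpS
      rw [fx_prime g1 g2 ha1 ha2 (fun h => ha (h ▸ hpS)) f]
    have e2 : fx (∏ p ∈ S, p) (fx a f) = fx (∏ p ∈ insert a S, p) f := by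
      rw [fx_fx, Finset.prod_insert ha]
    rw [e0, Nc_rec hT hβ hX (hc.mul hPS'.sm) ha1 ha2 hnd l hf]
    by_cases hal : a ∣ l
    · rw [if_pos hal, ih hPS' (fx a f) (hf.fx a) (X / nm a) (by positivity), e1, e2,
        Finset.filter_insert, if_pos hal, Finset.prod_insert (fun h => ha (Finset.mem_filter.mp h).1),
        Finset.prod_insert (fun h => ha (Finset.mem_filter.mp h).1), nm_mul, Nat.cast_mul,
        div_div]
      ring
    · rw [if_neg hal, ih hPS' (fx a f) (hf.fx a) X hX, e1, e2, Finset.filter_insert,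
        if_neg hal]

/-- bound with the extra coprimality condition -/
lemma NcX_bound {θ ε : ℝ} (hθ : 5 / 6 ≤ θ) (hθ1 : θ ≤ 1) (hPF : PF Set.univ θ)
    (hε : 0 < ε) (hε1 : ε ≤ 1) (l' : ℤ) {V : ℝ → ℂ} (hV : SW V) :
    ∃ C : ℝ, 0 ≤ C ∧ ∀ (q : Eis) (χ : Eis → ℂ), HC q χ → (2 : Eis) ∣ q → ∀ n : Eis, n ≠ 0 →
      ∀ c : Eis, Sm 2 c → Squarefree c → ∀ l : Eis, l ≠ 0 → ∀ X : ℝ, 0 < X →
      ‖Nc c l (fx n (tw χ l')) V X‖ ≤
        C * nm c * (nm (l * c) : ℝ) ^ ε * ((nm (q * n) : ℝ) ^ ε * X ^ (θ + ε)) := by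
  obtain ⟨C, hC0, hC⟩ := Nc_bound hT hθ hθ1 hPF hε hε1 l' hV
  refine ⟨C, hC0, fun q χ hχ hq2 n hn c hc sc l hl X hX => ?_⟩
  rw [Nc_congr (fun b hb => fx_tw hχ l' n hb)]
  exact hC (q * n) (chi1 q n χ) (hc_chi1 hχ hn) (hq2.mul_right n) c hc sc l hl X hX

open Classical in
/-- removal of the coprimality conditions -/
lemma Nc_diff {θ ε : ℝ} (hθ : 5 / 6 ≤ θ) (hθ1 : θ ≤ 1) (hPF : PF Set.univ θ)
    (hε : 0 < ε) (hε1 : ε ≤ 1) (l' : ℤ) {V : ℝ → ℂ} (hV : SW V) :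
    ∃ C : ℝ, 0 ≤ C ∧ ∀ (q : Eis) (χ : Eis → ℂ), HC q χ → (2 : Eis) ∣ q →
      ∀ c : Eis, Sm 2 c → Squarefree c → ∀ l : Eis, l ≠ 0 → ∀ X : ℝ, 0 < X →
      ∀ S : Finset Eis, PS c S → (∀ p ∈ S, ¬ p ∣ l) → ∀ W : ℝ, (nm (q * ∏ p ∈ S, p) : ℝ) ≤ W →
      ‖Nc c l (tw χ l') V X - Nc c l (fx (∏ p ∈ S, p) (tw χ l')) V X‖ ≤
        C * nm c * (nm (l * c) : ℝ) ^ ε * (W ^ ε * X ^ (θ + ε)) *
          ∑ p ∈ S, (nm p : ℝ) ^ (-θ) := by
  obtain ⟨C, hC0, hC⟩ := NcX_bound hT hθ hθ1 hPF hε hε1 l' hV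
  obtain ⟨β, hβ1, hβ⟩ := sw_bound hV
  refine ⟨C, hC0, fun q χ hχ hq2 c hc sc l hl X hX S => ?_⟩
  have hf := mf_tw hχ hq2 l'
  induction S using Finset.induction_on with
  | empty =>
    intro _ _ W _
    simp only [Finset.prod_empty, fx_one, sub_self, norm_zero, Finset.sum_empty, mul_zero, le_refl]
  | insert a S ha ih =>
    intro hPS hl' W hW
    have hPS' := hPS.insert
    obtain ⟨ha1, ha2, ha3⟩ := hPS a (Finset.mem_insert_self _ _)
    have ha0 : (0 : ℝ) < nm a := by exact_mod_cast nm_pos.mpr ha1.ne_zero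
    have ha1' : (1 : ℝ) ≤ nm a := by exact_mod_cast nm_pos.mpr ha1.ne_zero
    have hS0 := hPS'.sm.ne_zero
    have hq0 : (0 : ℝ) < nm q := by exact_mod_cast nm_pos.mpr hχ.q0
    have hW' : (nm (q * ∏ p ∈ S, p) : ℝ) ≤ W := by
      refine le_trans ?_ hW
      rw [Finset.prod_insert ha, nm_mul, nm_mul, nm_mul]
      push_cast
      have h1 : (0 : ℝ) ≤ nm q * nm (∏ p ∈ S, p) := by positivity
      nlinarith
    have hW0 : 0 ≤ W := le_trans (by positivity) hW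
    have h1 := ih hPS' (fun p hp => hl' p (Finset.mem_insert_of_mem hp)) W hW'
    set f := tw χ l' with hfdef
    set n := ∏ p ∈ S, p with hn
    have hg := hf.fx n
    have e1 : fx (∏ p ∈ insert a S, p) f = fx a (fx n f) := by
      rw [fx_fx, Finset.prod_insert ha, mul_comm]
    have h2 := Nc_rec2 hT hβ hX hc ha1 ha2 ha3 (hl' a (Finset.mem_insert_self _ _)) hg
    have h3 : ‖fx n f a‖ ≤ 1 := by
      unfold fx
      rw [norm_mul]
      have g1 : ‖f a‖ ≤ 1 := (hχ.isChar_tw l').norm_le ha1.prim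
      have g2 : ‖prin0 n a‖ ≤ 1 := by
        unfold prin0
        split_ifs <;> simp
      calc ‖f a‖ * ‖prin0 n a‖ ≤ 1 * 1 := by gcongr
        _ = 1 := one_mul 1
    have h4 : ‖Nc c l (fx a (fx n f)) V (X / nm a)‖ ≤
        C * nm c * (nm (l * c) : ℝ) ^ ε * (W ^ ε * X ^ (θ + ε)) * (nm a : ℝ) ^ (-θ) := by
      rw [← e1]
      refine (hC q χ hχ hq2 _ hPS.sm.ne_zero c hc sc l hl (X / nm a) (by positivity)).trans ?_
      have g1 : (X / nm a) ^ (θ + ε) ≤ X ^ (θ + ε) * (nm a : ℝ) ^ (-θ) := by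
        rw [Real.div_rpow hX.le ha0.le, div_eq_mul_inv, ← Real.rpow_neg ha0.le]
        gcongr
        linarith
      calc C * nm c * (nm (l * c) : ℝ) ^ ε *
            ((nm (q * ∏ p ∈ insert a S, p) : ℝ) ^ ε * (X / nm a) ^ (θ + ε)) ≤
          C * nm c * (nm (l * c) : ℝ) ^ ε * (W ^ ε * (X ^ (θ + ε) * (nm a : ℝ) ^ (-θ))) := by
            gcongr
        _ = _ := by ring
    rw [Finset.sum_insert ha, e1]
    have e2 : Nc c l f V X - Nc c l (fx a (fx n f)) V X =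
        (Nc c l f V X - Nc c l (fx n f) V X) - fx n f a * Nc c l (fx a (fx n f)) V (X / nm a) := by
      rw [h2]; ring
    rw [e2]
    refine (norm_sub_le _ _).trans ?_
    rw [norm_mul]
    calc ‖Nc c l f V X - Nc c l (fx n f) V X‖ + ‖fx n f a‖ *
          ‖Nc c l (fx a (fx n f)) V (X / nm a)‖ ≤
        C * nm c * (nm (l * c) : ℝ) ^ ε * (W ^ ε * X ^ (θ + ε)) * ∑ p ∈ S, (nm p : ℝ) ^ (-θ) +
        1 * (C * nm c * (nm (l * c) : ℝ) ^ ε * (W ^ ε * X ^ (θ + ε)) * (nm a : ℝ) ^ (-θ)) := by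
          gcongr
      _ = _ := by ring

end

end Crest.Agent.R017.L5
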