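import Crest.Agent.R017.BL5i_868

/-!
# Row 17, leaf L5 (j): theorem A1
-/

set_option autoImplicit false

noncomputable section

open MeasureTheory Complex Set
open scoped ComplexConjugate ContDiff SchwartzMap

namespace Crest.Agent.R017.L5

open Crest.Agent.R012 Crest.Agent.R012.Eis Crest.Agent.R012.Mob705 Crest.Agent.R012.Div277
open Crest.Agent.R017.End699 Crest.Agent.R017.Sx545 Crest.Agent.R017.B770
open Crest.Agent.R017.Asm986 (sw_bound MV_congr)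
open Crest.Agent.R017.BL7 (schw_decay I3 cube_sum_ne chi1 hc_chi1)

lemma PS.subset {c : Eis} {S T : Finset Eis} (h : PS c S) (hT : T ⊆ S) : PS c T :=
  fun p hp => h p (hT hp)

lemma PS.prod_dvd {c l : Eis} {S : Finset Eis} (h : PS c S) (hl : ∀ p ∈ S, p ∣ l) :
    ∏ p ∈ S, p ∣ l := by
  refine Finset.prod_dvd_of_coprime ?_ hl
  intro p hp q hq hpq
  obtain ⟨g1, g2, _⟩ := h p hp
  obtain ⟨g3, g4, _⟩ := h q hq
  exact (g2.irreducible.coprime_iff_not_dvd).mpr fun hd => hpq (prime_dvd_prime g1 g2 g3 g4 hd)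

lemma nm_prod' (T : Finset Eis) : nm (∏ p ∈ T, p) = ∏ p ∈ T, nm p := by
  classical
  induction T using Finset.induction_on with
  | empty => rw [Finset.prod_empty, Finset.prod_empty]; exact nm_one
  | insert a T ha ih => rw [Finset.prod_insert ha, Finset.prod_insert ha, nm_mul, ih]

lemma norm_one_sub_nm_le {p : Eis} (hp : p ≠ 0) : ‖(1 - (nm p : ℂ))‖ ≤ nm p := by
  have h1 : (1 : ℝ) ≤ nm p := by exact_mod_cast nm_pos.mpr hp
  rw [show (1 - (nm p : ℂ)) = ((1 - (nm p : ℝ) : ℝ) : ℂ) by push_cast; ring, Complex.norm_real,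
    Real.norm_eq_abs, abs_le]
  constructor <;> linarith

open Classical in
/-- the loss at `l` -/
def wS (θ : ℝ) (S : Finset Eis) (l : Eis) : ℝ :=
  ∑ p ∈ S, (nm p : ℝ) ^ (-θ) +
    2 * ∑ T ∈ S.powerset.erase ∅, (if ∏ p ∈ T, p ∣ l then (nm (∏ p ∈ T, p) : ℝ) ^ (1 - θ) else 0)

section

variable (hT : TkAlg)
include hT

open Classical in
/-- pointwise bound for the removal of the primes -/
theorem Nc_U {θ ε : ℝ} (hθ : 5 / 6 ≤ θ) (hθ1 : θ ≤ 1) (hPF : PF Set.univ θ)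
    (hε : 0 < ε) (hε1 : ε ≤ 1) (l' : ℤ) {V : ℝ → ℂ} (hV : SW V) :
    ∃ C : ℝ, 0 ≤ C ∧ ∀ (q : Eis) (χ : Eis → ℂ), HC q χ → (2 : Eis) ∣ q →
      ∀ c : Eis, Sm 2 c → Squarefree c → ∀ l : Eis, l ≠ 0 → ∀ X : ℝ, 0 < X →
      ∀ S : Finset Eis, PS c S → ∀ W : ℝ, (nm (q * ∏ p ∈ S, p) : ℝ) ≤ W →
      ‖Nc (c * ∏ p ∈ S, p) l (tw χ l') V X - Nc c l (tw χ l') V X‖ ≤
        C * nm c * (nm (l * c) : ℝ) ^ ε * (W ^ ε * X ^ (θ + ε)) * wS θ S l := by
  obtain ⟨C1, h10, h1⟩ := Nc_diff hT hθ hθ1 hPF hε hε1 l' hV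
  obtain ⟨C2, h20, h2⟩ := NcX_bound hT hθ hθ1 hPF hε hε1 l' hV
  obtain ⟨β, hβ1, hβ⟩ := sw_bound hV
  refine ⟨C1 + C2, by positivity, fun q χ hχ hq2 c hc sc l hl X hX S hPS W hW => ?_⟩
  have hf := mf_tw hχ hq2 l'
  set f := tw χ l' with hfdef
  have hq0 : (0 : ℝ) < nm q := by exact_mod_cast nm_pos.mpr hχ.q0
  have hS0 : (1 : ℝ) ≤ nm (∏ p ∈ S, p) := by exact_mod_cast nm_pos.mpr hPS.sm.ne_zero
  have hW0 : 0 ≤ W := le_trans (by positivity) hW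
  have hqW : (nm q : ℝ) ≤ W := by
    refine le_trans ?_ hW
    rw [nm_mul, Nat.cast_mul]
    exact le_mul_of_one_le_right hq0.le hS0
  set B : ℝ := nm c * (nm (l * c) : ℝ) ^ ε * (W ^ ε * X ^ (θ + ε)) with hB
  have hB0 : 0 ≤ B := by positivity
  have hw1 : 0 ≤ ∑ p ∈ S, (nm p : ℝ) ^ (-θ) := Finset.sum_nonneg fun _ _ => by positivity
  have hw2 : ∀ T ∈ S.powerset.erase ∅,
      0 ≤ (if ∏ p ∈ T, p ∣ l then (nm (∏ p ∈ T, p) : ℝ) ^ (1 - θ) else 0) :=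
    fun T _ => by split_ifs <;> positivity
  have e0 := Nc_full hT hβ hc l S hPS f hf X hX
  set S' := S.filter (fun p => p ∣ l) with hS'
  by_cases hemp : S' = ∅
  · rw [hemp, Finset.prod_empty, Finset.prod_empty, one_mul, nm_one, Nat.cast_one, div_one] at e0
    have hnd : ∀ p ∈ S, ¬ p ∣ l := by
      intro p hp h
      have : p ∈ S' := Finset.mem_filter.mpr ⟨hp, h⟩
      rw [hemp] at this
      simp at this
    have h3 := h1 q χ hχ hq2 c hc sc l hl X hX S hPS hnd W hW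
    rw [e0, norm_sub_rev]
    refine h3.trans ?_
    have h4 : ∑ p ∈ S, (nm p : ℝ) ^ (-θ) ≤ wS θ S l := by
      unfold wS
      have := Finset.sum_nonneg hw2
      linarith
    calc C1 * nm c * (nm (l * c) : ℝ) ^ ε * (W ^ ε * X ^ (θ + ε)) * ∑ p ∈ S, (nm p : ℝ) ^ (-θ) =
        C1 * B * ∑ p ∈ S, (nm p : ℝ) ^ (-θ) := by rw [hB]; ring
      _ ≤ (C1 + C2) * B * wS θ S l :=
          mul_le_mul (mul_le_mul_of_nonneg_right (by linarith) hB0) h4 hw1 (by positivity)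
      _ = _ := by rw [hB]; ring
  · have hPS2 : PS c S' := hPS.subset (Finset.filter_subset _ _)
    set g := ∏ p ∈ S', p with hg
    have hg0 : g ≠ 0 := hPS2.sm.ne_zero
    have hg1 : (1 : ℝ) ≤ nm g := by exact_mod_cast nm_pos.mpr hg0
    have hgp : (0 : ℝ) < nm g := by linarith
    have hgl : g ∣ l := hPS2.prod_dvd fun p hp => (Finset.mem_filter.mp hp).2
    have h3 : ‖∏ p ∈ S', (1 - (nm p : ℂ)) * f p‖ ≤ nm g := by
      rw [norm_prod, hg, nm_prod', Nat.cast_prod]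
      refine Finset.prod_le_prod (fun _ _ => norm_nonneg _) fun p hp => ?_
      obtain ⟨g1, _, _⟩ := hPS2 p hp
      rw [norm_mul]
      have g2 : ‖f p‖ ≤ 1 := (hχ.isChar_tw l').norm_le g1.prim
      calc ‖(1 - (nm p : ℂ))‖ * ‖f p‖ ≤ nm p * 1 := by
            gcongr
            exact norm_one_sub_nm_le g1.ne_zero
        _ = nm p := mul_one _
    have h4 : ‖Nc c l (fx (∏ p ∈ S, p) f) V (X / nm g)‖ ≤ C2 * B * (nm g : ℝ) ^ (-θ) := by
      refine (h2 q χ hχ hq2 _ hPS.sm.ne_zero c hc sc l hl (X / nm g) (by positivity)).trans ?_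
      have g1 : (X / nm g) ^ (θ + ε) ≤ X ^ (θ + ε) * (nm g : ℝ) ^ (-θ) := by
        rw [Real.div_rpow hX.le hgp.le, div_eq_mul_inv, ← Real.rpow_neg hgp.le]
        gcongr
        linarith
      calc C2 * nm c * (nm (l * c) : ℝ) ^ ε *
            ((nm (q * ∏ p ∈ S, p) : ℝ) ^ ε * (X / nm g) ^ (θ + ε)) ≤
          C2 * nm c * (nm (l * c) : ℝ) ^ ε * (W ^ ε * (X ^ (θ + ε) * (nm g : ℝ) ^ (-θ))) := by
            gcongr
        _ = _ := by rw [hB]; ring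
    have h5 : ‖Nc (c * ∏ p ∈ S, p) l f V X‖ ≤ C2 * B * (nm g : ℝ) ^ (1 - θ) := by
      rw [e0, norm_mul]
      calc ‖∏ p ∈ S', (1 - (nm p : ℂ)) * f p‖ * ‖Nc c l (fx (∏ p ∈ S, p) f) V (X / nm g)‖ ≤
          nm g * (C2 * B * (nm g : ℝ) ^ (-θ)) := by gcongr
        _ = C2 * B * ((nm g : ℝ) ^ (1 : ℝ) * (nm g : ℝ) ^ (-θ)) := by
            rw [Real.rpow_one]; ring
        _ = _ := by
            rw [← Real.rpow_add hgp]
            congr 1
    have h6 : ‖Nc c l f V X‖ ≤ C2 * B * (nm g : ℝ) ^ (1 - θ) := by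
      have g0 := h2 q χ hχ hq2 1 one_ne_zero c hc sc l hl X hX
      rw [fx_one, mul_one] at g0
      refine g0.trans ?_
      have g1 : (1 : ℝ) ≤ (nm g : ℝ) ^ (1 - θ) := Real.one_le_rpow hg1 (by linarith)
      calc C2 * nm c * (nm (l * c) : ℝ) ^ ε * ((nm q : ℝ) ^ ε * X ^ (θ + ε)) ≤
          C2 * nm c * (nm (l * c) : ℝ) ^ ε * (W ^ ε * X ^ (θ + ε)) := by gcongr
        _ = C2 * B * 1 := by rw [hB]; ring
        _ ≤ _ := by gcongr
    have h7 : (nm g : ℝ) ^ (1 - θ) ≤ ∑ T ∈ S.powerset.erase ∅,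
        (if ∏ p ∈ T, p ∣ l then (nm (∏ p ∈ T, p) : ℝ) ^ (1 - θ) else 0) := by
      have hm : S' ∈ S.powerset.erase ∅ :=
        Finset.mem_erase.mpr ⟨hemp, Finset.mem_powerset.mpr (Finset.filter_subset _ _)⟩
      have := Finset.single_le_sum hw2 hm
      rw [if_pos hgl] at this
      exact this
    refine (norm_sub_le _ _).trans ((add_le_add h5 h6).trans ?_)
    have h8 : 2 * (nm g : ℝ) ^ (1 - θ) ≤ wS θ S l := by
      unfold wS
      linarith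
    calc C2 * B * (nm g : ℝ) ^ (1 - θ) + C2 * B * (nm g : ℝ) ^ (1 - θ) =
        C2 * B * (2 * (nm g : ℝ) ^ (1 - θ)) := by ring
      _ ≤ (C1 + C2) * B * wS θ S l :=
          mul_le_mul (mul_le_mul_of_nonneg_right (by linarith) hB0) h8 (by positivity)
            (by positivity)
      _ = _ := by rw [hB]; ring

end

/-- sums over the multiples of `g` -/
lemma tsum_F_dvd (F : 𝓢(ℂ, ℂ)) {ε : ℝ} (hε : 0 < ε) : ∃ C : ℝ, 0 ≤ C ∧ ∀ g : Eis, g ≠ 0 →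
    ∀ z : ℂ, z ≠ 0 →
    Summable (fun l : Eis => (open Classical in if l ≠ 0 ∧ g ∣ l then
      (nm l : ℝ) ^ ε * ‖F (z ^ 3 * toC l ^ 3)‖ else 0)) ∧
    ∑' l : Eis, (open Classical in if l ≠ 0 ∧ g ∣ l then
      (nm l : ℝ) ^ ε * ‖F (z ^ 3 * toC l ^ 3)‖ else 0) ≤
      C * ((‖z‖ ^ 2)⁻¹) ^ (1 + 2 * ε) * (nm g : ℝ)⁻¹ := by
  classical
  obtain ⟨C, hC0, hC⟩ := F_cube_decay F hε
  refine ⟨C * LatSum413.Zs (1 + ε), mul_nonneg hC0 (LatSum413.Zs_nonneg _), fun g hg z hz => ?_⟩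
  have hs := LatSum413.summable_nm_rpow (s := 1 + ε) (by linarith)
  have hg1 : (1 : ℝ) ≤ nm g := by exact_mod_cast nm_pos.mpr hg
  have hg0 : (0 : ℝ) < nm g := by linarith
  set A : ℝ := C * ((‖z‖ ^ 2)⁻¹) ^ (1 + 2 * ε) with hA
  have hA0 : 0 ≤ A := by positivity
  have hinj : Function.Injective (fun m : Eis => g * m) := fun a b h => mul_left_cancel₀ hg h
  set φ : Eis → ℝ := fun l => if l ≠ 0 ∧ g ∣ l then
    (nm l : ℝ) ^ ε * ‖F (z ^ 3 * toC l ^ 3)‖ else 0 with hφ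
  have hφ0 : ∀ l, 0 ≤ φ l := fun l => by
    simp only [hφ]; split_ifs <;> positivity
  have hφ1 : ∀ l, φ l ≤ A * (nm l : ℝ) ^ (-(1 + ε)) := by
    intro l
    simp only [hφ]
    split_ifs with h
    · exact hC z hz l h.1
    · positivity
  have hφs : Summable φ := Summable.of_nonneg_of_le hφ0 hφ1 (hs.mul_left _)
  refine ⟨hφs, ?_⟩
  have hsupp : Function.support φ ⊆ Set.range (fun m : Eis => g * m) := by
    intro l hl
    have : l ≠ 0 ∧ g ∣ l := by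
      by_contra h
      exact hl (by simp only [hφ]; rw [if_neg h])
    obtain ⟨m, hm⟩ := this.2
    exact ⟨m, hm.symm⟩
  rw [← hinj.tsum_eq hsupp]
  have h2 : ∀ m : Eis, φ (g * m) ≤ (A * (nm g : ℝ)⁻¹) * (nm m : ℝ) ^ (-(1 + ε)) := by
    intro m
    refine (hφ1 (g * m)).trans ?_
    rw [nm_mul, Nat.cast_mul, Real.mul_rpow hg0.le (by positivity)]
    have h3 : (nm g : ℝ) ^ (-(1 + ε)) ≤ (nm g : ℝ)⁻¹ := by
      rw [← Real.rpow_neg_one]
      exact Real.rpow_le_rpow_of_exponent_le hg1 (by linarith)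
    calc A * ((nm g : ℝ) ^ (-(1 + ε)) * (nm m : ℝ) ^ (-(1 + ε))) ≤
        A * ((nm g : ℝ)⁻¹ * (nm m : ℝ) ^ (-(1 + ε))) := by gcongr
      _ = _ := by ring
  have h3 : Summable fun m : Eis => φ (g * m) := hφs.comp_injective hinj
  calc ∑' m : Eis, φ (g * m) ≤ ∑' m : Eis, (A * (nm g : ℝ)⁻¹) * (nm m : ℝ) ^ (-(1 + ε)) :=
        h3.tsum_le_tsum h2 (hs.mul_left _)
    _ = _ := by
        rw [tsum_mul_left, hA, LatSum413.Zs]
        ring

end Crest.Agent.R017.L5
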