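import Crest.Agent.R017.BL5j_868
import Crest.Agent.R017.BL5g_868

/-!
# Row 17, leaf L5 (k): theorem A1
-/

set_option autoImplicit false

noncomputable section

open MeasureTheory Complex Set
open scoped ComplexConjugate ContDiff SchwartzMap

namespace Crest.Agent.R017.L5

open Crest.Agent.R012 Crest.Agent.R012.Eis Crest.Agent.R012.Mob705 Crest.Agent.R012.Div277
open Crest.Agent.R017.End699 Crest.Agent.R017.Sx545 Crest.Agent.R017.B770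
open Crest.Agent.R017.Asm986 (sw_bound MV_congr)
open Crest.Agent.R017.BL7 (schw_decay I3 cube_sum_ne chi1 hc_chi1)

lemma PS.nm_ge {c : Eis} {S : Finset Eis} (h : PS c S) {P : ℝ}
    (hp : ∀ p ∈ S, P ≤ nm p) (hne : S ≠ ∅) : P ≤ nm (∏ p ∈ S, p) := by
  obtain ⟨a, ha⟩ := Finset.nonempty_iff_ne_empty.mpr hne
  refine (hp a ha).trans ?_
  exact_mod_cast nm_le_of_dvd h.sm.ne_zero (Finset.dvd_prod_of_mem _ ha)

open Classical in
/-- total weight of the losses -/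
lemma wS_total {c : Eis} {S : Finset Eis} (h : PS c S) {P θ : ℝ} (hP : 1 ≤ P) (hθ : 0 ≤ θ)
    (hp : ∀ p ∈ S, P ≤ nm p) :
    ∑ p ∈ S, (nm p : ℝ) ^ (-θ) +
      2 * ∑ T ∈ S.powerset.erase ∅, (nm (∏ p ∈ T, p) : ℝ) ^ (-θ) ≤
      3 * 2 ^ S.card * P ^ (-θ) := by
  have hP0 : 0 < P := by linarith
  have h1 : ∑ p ∈ S, (nm p : ℝ) ^ (-θ) ≤ 2 ^ S.card * P ^ (-θ) := by
    calc ∑ p ∈ S, (nm p : ℝ) ^ (-θ) ≤ ∑ _p ∈ S, P ^ (-θ) :=
          Finset.sum_le_sum fun p hpS => Real.rpow_le_rpow_of_nonpos hP0 (hp p hpS) (by linarith)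
      _ = S.card * P ^ (-θ) := by rw [Finset.sum_const, nsmul_eq_mul]
      _ ≤ _ := by
        have : (S.card : ℝ) ≤ 2 ^ S.card := by exact_mod_cast (Nat.lt_two_pow_self).le
        gcongr
  have h2 : ∑ T ∈ S.powerset.erase ∅, (nm (∏ p ∈ T, p) : ℝ) ^ (-θ) ≤ 2 ^ S.card * P ^ (-θ) := by
    calc ∑ T ∈ S.powerset.erase ∅, (nm (∏ p ∈ T, p) : ℝ) ^ (-θ) ≤
        ∑ _T ∈ S.powerset.erase ∅, P ^ (-θ) := Finset.sum_le_sum fun T hT => by
          obtain ⟨hT1, hT2⟩ := Finset.mem_erase.mp hT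
          have hT3 := Finset.mem_powerset.mp hT2
          exact Real.rpow_le_rpow_of_nonpos hP0
            ((h.subset hT3).nm_ge (fun p hpT => hp p (hT3 hpT)) hT1) (by linarith)
      _ = (S.powerset.erase ∅).card * P ^ (-θ) := by rw [Finset.sum_const, nsmul_eq_mul]
      _ ≤ _ := by
        have : ((S.powerset.erase ∅).card : ℝ) ≤ 2 ^ S.card := by
          have := Finset.card_erase_le (s := S.powerset) (a := ∅)
          rw [Finset.card_powerset] at this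
          exact_mod_cast this
        gcongr
  linarith

open Classical in
/-- **A1**: removal of the primes of the amplifier, summed over `l` -/
theorem A1 (hT : TkAlg) {θ ε : ℝ} (hθ : 5 / 6 ≤ θ) (hθ1 : θ ≤ 1) (hPF : PF Set.univ θ)
    (hε : 0 < ε) (hε1 : ε ≤ 1) (l' : ℤ) {V : ℝ → ℂ} (hV : SW V) (F : 𝓢(ℂ, ℂ)) :
    ∃ C : ℝ, 0 ≤ C ∧ ∀ (M m₀ : Eis), (36 : Eis) ∣ M → Rad0 M m₀ → ∀ ψ : Eis → ℂ, HC M ψ →
      ∀ c : Eis, Sm 2 c → Squarefree c → ∀ X : ℝ, 0 < X → ∀ z : ℂ, z ≠ 0 →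
      ∀ S : Finset Eis, PS c S → ∀ W : ℝ, (nm (M * ∏ p ∈ S, p) : ℝ) ≤ W →
      ∀ P : ℝ, 1 ≤ P → (∀ p ∈ S, P ≤ nm p) →
      Summable (fun l : Eis => if IsCoprime l m₀ then
        F (z ^ 3 * toC l ^ 3) * Nc c l (tw ψ l') V X else 0) ∧
      Summable (fun l : Eis => if IsCoprime l m₀ then
        F (z ^ 3 * toC l ^ 3) * Nc (c * ∏ p ∈ S, p) l (tw ψ l') V X else 0) ∧
      ‖(∑' l : Eis, if IsCoprime l m₀ then
          F (z ^ 3 * toC l ^ 3) * Nc (c * ∏ p ∈ S, p) l (tw ψ l') V X else 0) -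
        ∑' l : Eis, (if IsCoprime l m₀ then
          F (z ^ 3 * toC l ^ 3) * Nc c l (tw ψ l') V X else 0)‖ ≤
        C * 2 ^ S.card * nm c ^ 3 * W ^ ε * X ^ (θ + ε) * ((‖z‖ ^ 2)⁻¹) ^ (1 + 2 * ε) *
          P ^ (-θ) := by
  obtain ⟨C1, h10, h1⟩ := Nc_U hT hθ hθ1 hPF hε hε1 l' hV
  obtain ⟨C2, h20, h2⟩ := tsum_F_dvd F hε
  obtain ⟨C3, h30, h3⟩ := Nc_bound hT hθ hθ1 hPF hε hε1 l' hV
  obtain ⟨C4, h40, h4⟩ := tsum_F_le F hε
  refine ⟨C1 * C2 * 3, by positivity, ?_⟩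
  intro M m₀ h36 hR ψ hψ c hc sc X hX z hz S hPS W hW P hP hp
  have h2m := two_dvd_m₀ h36 hR
  have h2M : (2 : Eis) ∣ M := (show (2 : Eis) ∣ 36 from ⟨18, by norm_num⟩).trans h36
  have hc1 : (1 : ℝ) ≤ nm c := by exact_mod_cast nm_pos.mpr hc.ne_zero
  set f := tw ψ l' with hfdef
  have hq0 : (0 : ℝ) < nm M := by exact_mod_cast nm_pos.mpr hψ.q0
  have hW0 : 0 ≤ W := le_trans (by positivity) hW
  have hP0 : 0 < P := by linarith
  set L : ℝ := (‖z‖ ^ 2)⁻¹ with hL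
  have hz0 : 0 < ‖z‖ := norm_pos_iff.mpr hz
  have hL0 : 0 < L := by positivity
  set G : ℝ := C1 * nm c * (nm c : ℝ) ^ ε * (W ^ ε * X ^ (θ + ε)) with hG
  have hG0 : 0 ≤ G := by positivity
  set A : ℝ := ∑ p ∈ S, (nm p : ℝ) ^ (-θ) with hA
  have hA0 : 0 ≤ A := Finset.sum_nonneg fun _ _ => by positivity
  set φ : Eis → Eis → ℝ := fun g l => if l ≠ 0 ∧ g ∣ l then
    (nm l : ℝ) ^ ε * ‖F (z ^ 3 * toC l ^ 3)‖ else 0 with hφ
  have hφ0 : ∀ g l, 0 ≤ φ g l := fun g l => by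
    simp only [hφ]; split_ifs <;> positivity
  set 𝓣 := S.powerset.erase ∅ with h𝓣
  have hTne : ∀ T ∈ 𝓣, (∏ p ∈ T, p) ≠ 0 := fun T hT' => by
    obtain ⟨_, hT2⟩ := Finset.mem_erase.mp hT'
    exact (hPS.subset (Finset.mem_powerset.mp hT2)).sm.ne_zero
  set maj : Eis → ℝ := fun l =>
    G * (A * φ 1 l + 2 * ∑ T ∈ 𝓣, (nm (∏ p ∈ T, p) : ℝ) ^ (1 - θ) * φ (∏ p ∈ T, p) l) with hmaj
  -- summability
  have s1 : Summable (fun l : Eis => if IsCoprime l m₀ then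
      F (z ^ 3 * toC l ^ 3) * Nc c l f V X else 0) := by
    obtain ⟨g1, _⟩ := h4 (fun l => if IsCoprime l m₀ then Nc c l f V X else 0)
      (C3 * nm c * (nm c : ℝ) ^ ε * ((nm M : ℝ) ^ ε * X ^ (θ + ε))) (by positivity)
      (fun l hl => by
        split_ifs
        · refine (h3 M ψ hψ h2M c hc sc l hl X hX).trans (le_of_eq ?_)
          rw [nm_mul, Nat.cast_mul, Real.mul_rpow (by positivity) (by positivity)]
          ring
        · rw [norm_zero]; positivity) z hz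
    refine g1.congr fun l => ?_
    by_cases hl : l = 0
    · rw [if_pos hl]
      subst hl
      rw [if_neg (fun h => coprime_ne_zero h2m h rfl)]
    · rw [if_neg hl]
      split_ifs
      · ring
      · ring
  have sφ : ∀ T ∈ 𝓣, Summable (fun l => (nm (∏ p ∈ T, p) : ℝ) ^ (1 - θ) * φ (∏ p ∈ T, p) l) :=
    fun T hT' => (h2 _ (hTne T hT') z hz).1.mul_left _
  have sm1 : Summable (φ 1) := (h2 1 one_ne_zero z hz).1
  have smaj : Summable maj :=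
    (((sm1.mul_left A).add ((summable_sum sφ).mul_left 2))).mul_left G
  have hpt : ∀ l : Eis, ‖(if IsCoprime l m₀ then
        F (z ^ 3 * toC l ^ 3) * Nc (c * ∏ p ∈ S, p) l f V X else 0) -
      (if IsCoprime l m₀ then F (z ^ 3 * toC l ^ 3) * Nc c l f V X else 0)‖ ≤ maj l := by
    intro l
    have hm0 : 0 ≤ maj l := by
      simp only [hmaj]
      refine mul_nonneg hG0 (add_nonneg (mul_nonneg hA0 (hφ0 1 l)) (mul_nonneg (by norm_num) ?_))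
      exact Finset.sum_nonneg fun T _ => mul_nonneg (by positivity) (hφ0 (∏ p ∈ T, p) l)
    by_cases hl : IsCoprime l m₀
    · rw [if_pos hl, if_pos hl, ← mul_sub, norm_mul]
      have hl0 := coprime_ne_zero h2m hl
      have g1 := h1 M ψ hψ h2M c hc sc l hl0 X hX S hPS W hW
      refine (mul_le_mul_of_nonneg_left g1 (norm_nonneg _)).trans (le_of_eq ?_)
      have e1 : φ 1 l = (nm l : ℝ) ^ ε * ‖F (z ^ 3 * toC l ^ 3)‖ := by
        simp only [hφ]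
        rw [if_pos ⟨hl0, one_dvd l⟩]
      have e2 : ∑ T ∈ 𝓣, (nm (∏ p ∈ T, p) : ℝ) ^ (1 - θ) * φ (∏ p ∈ T, p) l =
          (∑ T ∈ 𝓣, (if ∏ p ∈ T, p ∣ l then (nm (∏ p ∈ T, p) : ℝ) ^ (1 - θ) else 0)) *
            ((nm l : ℝ) ^ ε * ‖F (z ^ 3 * toC l ^ 3)‖) := by
        rw [Finset.sum_mul]
        refine Finset.sum_congr rfl fun T _ => ?_
        simp only [hφ]
        by_cases hd : ∏ p ∈ T, p ∣ l
        · rw [if_pos ⟨hl0, hd⟩, if_pos hd]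
        · rw [if_neg (fun h => hd h.2), if_neg hd]; ring
      simp only [hmaj]
      rw [e1, e2, nm_mul, Nat.cast_mul, Real.mul_rpow (by positivity) (by positivity), hG]
      unfold wS
      ring
    · rw [if_neg hl, if_neg hl, sub_zero, norm_zero]
      exact hm0
  have sdiff : Summable (fun l : Eis => (if IsCoprime l m₀ then
        F (z ^ 3 * toC l ^ 3) * Nc (c * ∏ p ∈ S, p) l f V X else 0) -
      (if IsCoprime l m₀ then F (z ^ 3 * toC l ^ 3) * Nc c l f V X else 0)) :=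
    Summable.of_norm_bounded smaj hpt
  have s2 : Summable (fun l : Eis => if IsCoprime l m₀ then
        F (z ^ 3 * toC l ^ 3) * Nc (c * ∏ p ∈ S, p) l f V X else 0) := by
    refine (sdiff.add s1).congr fun l => ?_
    ring
  refine ⟨s1, s2, ?_⟩
  rw [← s2.tsum_sub s1]
  refine (tsum_of_norm_bounded smaj.hasSum hpt).trans ?_
  have hcε : (nm c : ℝ) * (nm c : ℝ) ^ ε ≤ (nm c : ℝ) ^ 3 := by
    have h1 : (nm c : ℝ) ^ ε ≤ (nm c : ℝ) ^ (1 : ℝ) := Real.rpow_le_rpow_of_exponent_le hc1 hε1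
    rw [Real.rpow_one] at h1
    have h2 : (nm c : ℝ) * (nm c : ℝ) ≤ (nm c : ℝ) ^ 3 := by nlinarith
    calc (nm c : ℝ) * (nm c : ℝ) ^ ε ≤ (nm c : ℝ) * nm c := by gcongr
      _ ≤ _ := h2
  have t1 : ∑' l, φ 1 l ≤ C2 * L ^ (1 + 2 * ε) := by
    have := (h2 1 one_ne_zero z hz).2
    rw [nm_one, Nat.cast_one, inv_one, mul_one] at this
    exact this
  have t2 : ∀ T ∈ 𝓣, (nm (∏ p ∈ T, p) : ℝ) ^ (1 - θ) * ∑' l, φ (∏ p ∈ T, p) l ≤
      C2 * L ^ (1 + 2 * ε) * (nm (∏ p ∈ T, p) : ℝ) ^ (-θ) := by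
    intro T hT'
    have hn : (0 : ℝ) < nm (∏ p ∈ T, p) := by exact_mod_cast nm_pos.mpr (hTne T hT')
    have := (h2 _ (hTne T hT') z hz).2
    calc (nm (∏ p ∈ T, p) : ℝ) ^ (1 - θ) * ∑' l, φ (∏ p ∈ T, p) l ≤
        (nm (∏ p ∈ T, p) : ℝ) ^ (1 - θ) *
          (C2 * L ^ (1 + 2 * ε) * (nm (∏ p ∈ T, p) : ℝ)⁻¹) := by gcongr
      _ = C2 * L ^ (1 + 2 * ε) * ((nm (∏ p ∈ T, p) : ℝ) ^ (1 - θ) *
          (nm (∏ p ∈ T, p) : ℝ) ^ (-1 : ℝ)) := by rw [Real.rpow_neg_one]; ring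
      _ = _ := by
        rw [← Real.rpow_add hn]
        congr 2
        ring
  have e3 : ∑' l, maj l = G * (A * ∑' l, φ 1 l +
      2 * ∑ T ∈ 𝓣, (nm (∏ p ∈ T, p) : ℝ) ^ (1 - θ) * ∑' l, φ (∏ p ∈ T, p) l) := by
    simp only [hmaj]
    rw [tsum_mul_left, (sm1.mul_left A).tsum_add ((summable_sum sφ).mul_left 2), tsum_mul_left,
      tsum_mul_left, Summable.tsum_finsetSum sφ]
    congr 3
    refine Finset.sum_congr rfl fun T _ => ?_
    rw [tsum_mul_left]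
  rw [e3]
  have h5 := wS_total hPS hP (by linarith : 0 ≤ θ) hp
  rw [← hA, ← h𝓣] at h5
  calc G * (A * ∑' l, φ 1 l +
      2 * ∑ T ∈ 𝓣, (nm (∏ p ∈ T, p) : ℝ) ^ (1 - θ) * ∑' l, φ (∏ p ∈ T, p) l) ≤
      G * (A * (C2 * L ^ (1 + 2 * ε)) +
        2 * ∑ T ∈ 𝓣, C2 * L ^ (1 + 2 * ε) * (nm (∏ p ∈ T, p) : ℝ) ^ (-θ)) := by
        refine mul_le_mul_of_nonneg_left (add_le_add (mul_le_mul_of_nonneg_left t1 hA0) ?_) hG0
        exact mul_le_mul_of_nonneg_left (Finset.sum_le_sum t2) (by norm_num)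
    _ = G * (C2 * L ^ (1 + 2 * ε)) *
        (A + 2 * ∑ T ∈ 𝓣, (nm (∏ p ∈ T, p) : ℝ) ^ (-θ)) := by
        rw [← Finset.mul_sum]; ring
    _ ≤ G * (C2 * L ^ (1 + 2 * ε)) * (3 * 2 ^ S.card * P ^ (-θ)) :=
        mul_le_mul_of_nonneg_left h5 (by positivity)
    _ = C1 * C2 * 3 * 2 ^ S.card * (nm c * (nm c : ℝ) ^ ε) * W ^ ε * X ^ (θ + ε) *
        L ^ (1 + 2 * ε) * P ^ (-θ) := by rw [hG]; ring
    _ ≤ _ := by gcongr

end Crest.Agent.R017.L5
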