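import Crest.Agent.R017.BL5h_868
import Crest.Agent.R017.BL5defs3_868

/-!
# Row 17, leaf L5 (l): theorem B1'
-/

set_option autoImplicit false

noncomputable section

open MeasureTheory Complex Set
open scoped ComplexConjugate ContDiff SchwartzMap

namespace Crest.Agent.R017.L5

open Crest.Agent.R012 Crest.Agent.R012.Eis Crest.Agent.R012.Mob705 Crest.Agent.R012.Div277
open Crest.Agent.R017.End699 Crest.Agent.R017.Sx545 Crest.Agent.R017.B770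
open Crest.Agent.R017.Asm986 (sw_bound MV_congr)
open Crest.Agent.R017.BL7 (schw_decay I3 cube_sum_ne)

/-- arithmetic of the exponents -/
lemma Z_facts' {L c η ε : ℝ} (hL : 0 < L) (hc : 1 ≤ c) (hη : 0 ≤ η) (hη1 : η ≤ 1 / 12)
    (hε : 0 < ε) (hε1 : 2 * ε ≤ η) :
    c ^ (1 + ε) * L ^ (1 + 2 * ε) * (max 1 ((L / c) ^ (1 / 2 : ℝ))) ^ (-(2 * η)) ≤
      c ^ (5 / 4 : ℝ) * L ^ (1 + 2 * ε - η) ∧
    L * (max 1 ((L / c) ^ (1 / 2 : ℝ))) ^ (-(2 * η)) ≤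
      c ^ (5 / 4 : ℝ) * L ^ (1 + 2 * ε - η) ∧
    (c < L → (max 1 ((L / c) ^ (1 / 2 : ℝ))) ^ 6 * c ^ 5 * (L ^ 3)⁻¹ ≤
      c ^ (5 / 4 : ℝ) * L ^ (1 + 2 * ε - η)) := by
  have hc0 : 0 < c := by linarith
  have hLc : 0 < L / c := by positivity
  have h54 : (1 : ℝ) ≤ c ^ (5 / 4 : ℝ) := Real.one_le_rpow hc (by norm_num)
  rcases le_or_gt (L / c) 1 with h | h
  · have h1 : (L / c) ^ (1 / 2 : ℝ) ≤ 1 := Real.rpow_le_one hLc.le h (by norm_num)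
    rw [max_eq_left h1, Real.one_rpow, mul_one, mul_one]
    have hLc' : L ≤ c := by rwa [div_le_one hc0] at h
    have hk : L ^ η ≤ c ^ η := Real.rpow_le_rpow hL.le hLc' hη
    refine ⟨?_, ?_, fun h' => absurd h' (not_lt.mpr hLc')⟩
    · have e1 : L ^ (1 + 2 * ε) = L ^ (1 + 2 * ε - η) * L ^ η := by
        rw [← Real.rpow_add hL]; congr 1; ring
      rw [e1]
      calc c ^ (1 + ε) * (L ^ (1 + 2 * ε - η) * L ^ η) ≤
          c ^ (1 + ε) * (L ^ (1 + 2 * ε - η) * c ^ η) := by gcongr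
        _ = c ^ (1 + ε + η) * L ^ (1 + 2 * ε - η) := by
          rw [Real.rpow_add hc0 (1 + ε) η]; ring
        _ ≤ _ := by
          have : c ^ (1 + ε + η) ≤ c ^ (5 / 4 : ℝ) :=
            Real.rpow_le_rpow_of_exponent_le hc (by linarith)
          gcongr
    · rcases le_or_gt L 1 with hL1 | hL1
      · calc L = 1 * L ^ (1 : ℝ) := by rw [Real.rpow_one, one_mul]
          _ ≤ c ^ (5 / 4 : ℝ) * L ^ (1 + 2 * ε - η) := by
            have : L ^ (1 : ℝ) ≤ L ^ (1 + 2 * ε - η) :=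
              Real.rpow_le_rpow_of_exponent_ge hL hL1 (by linarith)
            gcongr
      · have e1 : L = L ^ (1 - η) * L ^ η := by
          rw [← Real.rpow_add hL]
          rw [show 1 - η + η = 1 by ring, Real.rpow_one]
        calc L = L ^ (1 - η) * L ^ η := e1
          _ ≤ L ^ (1 + 2 * ε - η) * c ^ η := by
            have : L ^ (1 - η) ≤ L ^ (1 + 2 * ε - η) :=
              Real.rpow_le_rpow_of_exponent_le hL1.le (by linarith)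
            gcongr
          _ ≤ L ^ (1 + 2 * ε - η) * c ^ (5 / 4 : ℝ) := by
            have : c ^ η ≤ c ^ (5 / 4 : ℝ) := Real.rpow_le_rpow_of_exponent_le hc (by linarith)
            gcongr
          _ = _ := mul_comm _ _
  · have hLc' : c < L := by rwa [lt_div_iff₀ hc0, one_mul] at h
    have hL1 : 1 < L := lt_of_le_of_lt hc hLc'
    have h1 : 1 ≤ (L / c) ^ (1 / 2 : ℝ) := Real.one_le_rpow h.le (by norm_num)
    rw [max_eq_right h1]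
    have e1 : ((L / c) ^ (1 / 2 : ℝ)) ^ (-(2 * η)) = L ^ (-η) * c ^ η := by
      rw [← Real.rpow_mul hLc.le, show (1 / 2 : ℝ) * (-(2 * η)) = -η by ring,
        Real.div_rpow hL.le hc0.le, Real.rpow_neg hc0.le, div_inv_eq_mul]
    have e2 : ((L / c) ^ (1 / 2 : ℝ)) ^ 6 = L ^ 3 / c ^ 3 := by
      rw [← Real.rpow_natCast, ← Real.rpow_mul hLc.le,
        show (1 / 2 : ℝ) * ((6 : ℕ) : ℝ) = ((3 : ℕ) : ℝ) by norm_num, Real.rpow_natCast, div_pow]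
    rw [e1, e2]
    refine ⟨?_, ?_, fun _ => ?_⟩
    · calc c ^ (1 + ε) * L ^ (1 + 2 * ε) * (L ^ (-η) * c ^ η) =
          (c ^ (1 + ε) * c ^ η) * (L ^ (1 + 2 * ε) * L ^ (-η)) := by ring
        _ = c ^ (1 + ε + η) * L ^ (1 + 2 * ε - η) := by
          rw [← Real.rpow_add hc0, ← Real.rpow_add hL]
          congr 2
        _ ≤ _ := by
          have : c ^ (1 + ε + η) ≤ c ^ (5 / 4 : ℝ) :=
            Real.rpow_le_rpow_of_exponent_le hc (by linarith)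
          gcongr
    · calc L * (L ^ (-η) * c ^ η) = c ^ η * (L ^ (1 : ℝ) * L ^ (-η)) := by
            rw [Real.rpow_one]; ring
        _ = c ^ η * L ^ (1 - η) := by
          rw [← Real.rpow_add hL]
          congr 2
        _ ≤ _ := by
          have h3 : c ^ η ≤ c ^ (5 / 4 : ℝ) := Real.rpow_le_rpow_of_exponent_le hc (by linarith)
          have h4 : L ^ (1 - η) ≤ L ^ (1 + 2 * ε - η) :=
            Real.rpow_le_rpow_of_exponent_le hL1.le (by linarith)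
          gcongr
    · have e3 : L ^ 3 / c ^ 3 * c ^ 5 * (L ^ 3)⁻¹ = c ^ 2 := by
        field_simp
      rw [e3]
      have h3 : c ^ (1 + 2 * ε - η) ≤ L ^ (1 + 2 * ε - η) :=
        Real.rpow_le_rpow hc0.le hLc'.le (by linarith)
      calc c ^ 2 = c ^ (2 : ℝ) := by rw [← Real.rpow_natCast]; norm_num
        _ ≤ c ^ (5 / 4 + (1 + 2 * ε - η) : ℝ) :=
          Real.rpow_le_rpow_of_exponent_le hc (by linarith)
        _ = c ^ (5 / 4 : ℝ) * c ^ (1 + 2 * ε - η) := Real.rpow_add hc0 _ _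
        _ ≤ _ := by gcongr

/-- asymptotics of the sum over `l` for one `D` -/
lemma T_asymp' (hT : TkAlg) (F : 𝓢(ℂ, ℂ)) : ∃ C : ℝ, 0 ≤ C ∧ ∀ m₀ c D : Eis, m₀ ≠ 0 → (2 : Eis) ∣ m₀ →
    Sm 2 c → Squarefree c → Sm 2 D → ∀ z : ℂ, z ≠ 0 →
    ‖(∑' l : Eis, if l = 0 then 0 else gamc m₀ c D l * F (z ^ 3 * toC l ^ 3)) -
      ((2 / Real.sqrt 3 * (‖z‖ ^ 2)⁻¹ : ℝ) : ℂ) * (mc m₀ c D * I3 F)‖ ≤
      C * ((nm m₀ : ℝ) ^ 4 * nm c ^ 5 * nm D ^ 5) * (((‖z‖ ^ 2)⁻¹) ^ 3)⁻¹ := by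
  obtain ⟨C1, h10, h1⟩ := norm_gamc_le hT
  obtain ⟨C2, h20, h2⟩ := cube_sum_ne F (B := 8) (by norm_num)
  refine ⟨C2 * C1, by positivity, fun m₀ c D hm hm2 hc sc hD z hz => ?_⟩
  have hm' : m₀ * (D * c) ≠ 0 := mul_ne_zero hm (mul_ne_zero hD.ne_zero hc.ne_zero)
  have h3 := h2 (m₀ * (D * c)) hm' (gamc m₀ c D) (perMod_gamc hc.ne_zero) (C1 * nm c * nm D)
    (fun x => h1 m₀ c D x hc sc hD) z hz
  have h0 : gamc m₀ c D 0 = 0 := by
    unfold gamc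
    rw [if_neg (fun h => coprime_ne_zero hm2 h rfl)]
  rw [h0, zero_mul, add_zero] at h3
  have e1 : ((2 / (Real.sqrt 3 * nm (m₀ * (D * c))) * (‖z‖ ^ 2)⁻¹ : ℝ) : ℂ) *
      (sumMod (m₀ * (D * c)) (gamc m₀ c D) * I3 F) =
      ((2 / Real.sqrt 3 * (‖z‖ ^ 2)⁻¹ : ℝ) : ℂ) * (mc m₀ c D * I3 F) := by
    have hn : ((nm (m₀ * (D * c)) : ℕ) : ℂ) ≠ 0 := by exact_mod_cast (nm_pos.mpr hm').ne'
    unfold mc
    push_cast
    field_simp
  rw [e1] at h3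
  refine h3.trans (le_of_eq ?_)
  have e2 : (‖toC (m₀ * (D * c))‖ * ‖z‖) ^ 8 =
      ((nm m₀ : ℝ) * (nm D * nm c)) ^ 4 * (‖z‖ ^ 2) ^ 4 := by
    have : ‖toC (m₀ * (D * c))‖ ^ 2 = (nm m₀ : ℝ) * (nm D * nm c) := by
      rw [norm_toC, Real.sq_sqrt (by positivity), nm_mul, nm_mul]
      push_cast; ring
    rw [show (‖toC (m₀ * (D * c))‖ * ‖z‖) ^ 8 = (‖toC (m₀ * (D * c))‖ ^ 2) ^ 4 *
      (‖z‖ ^ 2) ^ 4 by ring, this]
  have hz2 : (‖z‖ ^ 2) ≠ 0 := by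
    have := norm_pos_iff.mpr hz
    positivity
  rw [e2]
  generalize ‖z‖ ^ 2 = t at hz2
  field_simp

open Classical in
/-- the sum over the small divisors -/
lemma small_sum' (hT : TkAlg) {θ ε : ℝ} (hθ : 5 / 6 ≤ θ) (hθ1 : θ ≤ 1) (hPF : PF Set.univ θ)
    (hε : 0 < ε) (hε1 : ε ≤ 1) (l' : ℤ) {V : ℝ → ℂ} (hV : SW V) (F : 𝓢(ℂ, ℂ)) :
    ∃ C : ℝ, 0 ≤ C ∧ ∀ (M m₀ : Eis), (36 : Eis) ∣ M → Rad0 M m₀ → ∀ ψ : Eis → ℂ, HC M ψ →
      ∀ c : Eis, Sm 2 c → Squarefree c → ∀ X : ℝ, 0 < X → ∀ z : ℂ, z ≠ 0 → ∀ Z : ℝ, 1 ≤ Z →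
      ∀ N : ℕ,
      ‖∑ D ∈ (primBall N).filter (fun D => (nm D : ℝ) < Z), (tw ψ l' D * MV V (X / nm D) (tw ψ l')) *
        ((∑' l : Eis, if l = 0 then 0 else gamc m₀ c D l * F (z ^ 3 * toC l ^ 3)) -
          ((2 / Real.sqrt 3 * (‖z‖ ^ 2)⁻¹ : ℝ) : ℂ) * (mc m₀ c D * I3 F))‖ ≤
        C * ((nm M : ℝ) ^ ε * nm m₀ ^ 4 * X ^ (θ + ε)) *
          (if 1 < Z then Z ^ 6 * nm c ^ 5 * (((‖z‖ ^ 2)⁻¹) ^ 3)⁻¹ else 0) := by
  obtain ⟨C1, h10, h1⟩ := MV_bound (by linarith) hθ1 hPF hε hε1 l' hV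
  obtain ⟨C3, h30, h3⟩ := T_asymp' hT F
  refine ⟨100 * (C1 * C3), by positivity, ?_⟩
  intro M m₀ h36 hR ψ hψ c hc sc X hX z hz Z hZ N
  have hm0 : m₀ ≠ 0 := hR.prim.ne_zero
  have h2m := two_dvd_m₀ h36 hR
  have h2M : (2 : Eis) ∣ M := (show (2 : Eis) ∣ 36 from ⟨18, by norm_num⟩).trans h36
  have hz2 : 0 < ‖z‖ ^ 2 := by positivity
  set L : ℝ := (‖z‖ ^ 2)⁻¹ with hL
  have hL0 : 0 < L := by positivity
  split_ifs with hZ1
  · set T : Eis → ℂ := fun D =>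
      ((∑' l : Eis, if l = 0 then 0 else gamc m₀ c D l * F (z ^ 3 * toC l ^ 3)) -
          ((2 / Real.sqrt 3 * L : ℝ) : ℂ) * (mc m₀ c D * I3 F)) with hTdef
    set P := (primBall N).filter (fun D => (nm D : ℝ) < Z) with hP
    have hterm : ∀ D ∈ P, ‖(tw ψ l' D * MV V (X / nm D) (tw ψ l')) * T D‖ ≤
        C1 * C3 * ((nm M : ℝ) ^ ε * nm m₀ ^ 4 * X ^ (θ + ε)) * (Z ^ 5 * nm c ^ 5 * (L ^ 3)⁻¹) := by
      intro D hD
      rw [hP, Finset.mem_filter] at hD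
      have hDp := (mem_primBall.mp hD.1).2
      have hD0 : (0 : ℝ) < nm D := by exact_mod_cast nm_pos.mpr hDp.ne_zero
      have hD1 : (1 : ℝ) ≤ nm D := by exact_mod_cast nm_pos.mpr hDp.ne_zero
      by_cases hf : tw ψ l' D = 0
      · rw [hf, zero_mul, zero_mul, norm_zero]
        positivity
      · have hS := sm_of_tw_ne hψ h2M hDp hf
        have a1 : ‖tw ψ l' D‖ ≤ 1 := (hψ.isChar_tw l').norm_le hDp
        have a2 : ‖MV V (X / nm D) (tw ψ l')‖ ≤ C1 * (nm M : ℝ) ^ ε * X ^ (θ + ε) := by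
          refine (h1 M ψ hψ (X / nm D) (by positivity)).trans ?_
          have : X / nm D ≤ X := div_le_self hX.le hD1
          gcongr
        have a3 : ‖T D‖ ≤ C3 * ((nm m₀ : ℝ) ^ 4 * nm c ^ 5 * Z ^ 5) * (L ^ 3)⁻¹ := by
          refine (h3 m₀ c D hm0 h2m hc sc hS z hz).trans ?_
          have := hD.2.le
          gcongr
        rw [norm_mul, norm_mul]
        calc ‖tw ψ l' D‖ * ‖MV V (X / nm D) (tw ψ l')‖ * ‖T D‖ ≤
            1 * (C1 * (nm M : ℝ) ^ ε * X ^ (θ + ε)) *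
              (C3 * ((nm m₀ : ℝ) ^ 4 * nm c ^ 5 * Z ^ 5) * (L ^ 3)⁻¹) := by gcongr
          _ = _ := by ring
    have hcard : (P.card : ℝ) ≤ 100 * Z := by
      have h5 : P ⊆ primBall ⌊Z⌋₊ := by
        intro D hD
        rw [hP, Finset.mem_filter] at hD
        exact mem_primBall.mpr ⟨Nat.le_floor hD.2.le, (mem_primBall.mp hD.1).2⟩
      calc (P.card : ℝ) ≤ (primBall ⌊Z⌋₊).card := by exact_mod_cast Finset.card_le_card h5
        _ ≤ 100 * (⌊Z⌋₊ : ℝ) := Lat277.card_primBall_le _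
        _ ≤ 100 * Z := by
            have := Nat.floor_le (show (0 : ℝ) ≤ Z by linarith)
            linarith
    refine (norm_sum_le _ _).trans ((Finset.sum_le_sum hterm).trans ?_)
    rw [Finset.sum_const, nsmul_eq_mul]
    calc (P.card : ℝ) * (C1 * C3 * ((nm M : ℝ) ^ ε * nm m₀ ^ 4 * X ^ (θ + ε)) *
          (Z ^ 5 * nm c ^ 5 * (L ^ 3)⁻¹)) ≤ (100 * Z) * (C1 * C3 * ((nm M : ℝ) ^ ε * nm m₀ ^ 4 *
            X ^ (θ + ε)) * (Z ^ 5 * nm c ^ 5 * (L ^ 3)⁻¹)) := by gcongr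
      _ = _ := by ring
  · have : (primBall N).filter (fun D => (nm D : ℝ) < Z) = ∅ := by
      refine Finset.filter_eq_empty_iff.mpr fun D hD h => ?_
      have hD1 : (1 : ℝ) ≤ nm D := by
        exact_mod_cast nm_pos.mpr (mem_primBall.mp hD).2.ne_zero
      linarith
    rw [this, Finset.sum_empty, norm_zero, mul_zero]

end Crest.Agent.R017.L5
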