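import Crest.Agent.R012.PoissonS_581
import Crest.Agent.R012.Schw2_922
import Crest.Agent.R012.CubeA_777
import Crest.Agent.R012.Gauss_880

/-!
# Row 17, leaf BL7a: smooth sums over a lattice with a periodic weight, and sums over cubes

`lattice_sum`: `∑_x χ(x) G(x/Y) = (2/√3) Y² (mean χ) Ĝ(0) + O(sup|χ| Y² (|c|/Y)^B)`, uniformly in
the modulus `c` and the periodic weight `χ`.
`cube_sum`: the same for `G(z) = F(z³)`.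
-/

set_option autoImplicit false

noncomputable section

open Complex MeasureTheory
open scoped SchwartzMap FourierTransform

namespace Crest.Agent.R017.BL7

open Crest.Agent.R012 Crest.Agent.R012.Eis Crest.Agent.R012.Po581

/-- dilation/rotation of a Schwartz function, `z ↦ G(ζ z)`. -/
def dil (ζ : ℂ) (hζ : ζ ≠ 0) (G : 𝓢(ℂ, ℂ)) : 𝓢(ℂ, ℂ) :=
  SchwartzMap.compCLMOfContinuousLinearEquiv ℂ
    ((ContinuousLinearEquiv.smulLeft (Units.mk0 ζ hζ) : ℂ ≃L[ℂ] ℂ).restrictScalars ℝ) G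

lemma dil_apply {ζ : ℂ} (hζ : ζ ≠ 0) (G : 𝓢(ℂ, ℂ)) (z : ℂ) : dil ζ hζ G z = G (ζ * z) := rfl

lemma fC_dil {ζ : ℂ} (hζ : ζ ≠ 0) (G : 𝓢(ℂ, ℂ)) (ξ : ℂ) :
    fC (dil ζ hζ G) ξ = (((‖ζ‖ ^ 2)⁻¹ : ℝ) : ℂ) * fC G (ξ / ζ) :=
  Schw922.fC_comp_mul (G : ℂ → ℂ) hζ ξ

lemma dualSum_zero (c : Eis) (χ : Eis → ℂ) : dualSum c χ 0 = sumMod c χ := by
  unfold dualSum
  congr 1
  funext a
  have : dl (0 : Eis) = 0 := by unfold dl; rw [map_zero, zero_div]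
  rw [this, zero_div, zero_mul, eC_zero', mul_one]

lemma norm_dl (k : Eis) : ‖dl k‖ = ‖toC k‖ / Real.sqrt 3 := by
  unfold dl; rw [norm_div, norm_iS3]

lemma one_le_norm_toC {k : Eis} (hk : k ≠ 0) : 1 ≤ ‖toC k‖ := by
  have h : (1 : ℝ) ≤ nm k := by exact_mod_cast nm_pos.mpr hk
  rw [norm_toC]
  exact Real.one_le_sqrt.mpr h

/-- `∑_{k ≠ 0} |k|^{-B} < ∞`. -/
lemma summable_inv_pow {B : ℕ} (hB : 3 ≤ B) :
    Summable (fun k : Eis => if k = 0 then (0 : ℝ) else 1 / ‖toC k‖ ^ B) := by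
  refine Summable.of_nonneg_of_le (fun k => ?_) (fun k => ?_) (summable_eis_pow3.mul_left 8)
  · split_ifs <;> positivity
  · split_ifs with hk
    · positivity
    · have h1 := one_le_norm_toC hk
      have h2 : ‖toC k‖ ^ 3 ≤ ‖toC k‖ ^ B := pow_le_pow_right₀ h1 hB
      have h3 : (1 + ‖toC k‖) ^ 3 ≤ 8 * ‖toC k‖ ^ 3 := by
        have : (1 + ‖toC k‖) ^ 3 ≤ (2 * ‖toC k‖) ^ 3 := by gcongr; linarith
        calc _ ≤ _ := this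
          _ = _ := by ring
      rw [mul_one_div, div_le_div_iff₀ (by positivity) (by positivity)]
      nlinarith

/-- **Smooth sum over the lattice with a periodic weight.** -/
theorem lattice_sum (G : 𝓢(ℂ, ℂ)) {B : ℕ} (hB : 3 ≤ B) :
    ∃ C : ℝ, 0 ≤ C ∧ ∀ c : Eis, c ≠ 0 → ∀ χ : Eis → ℂ, PerMod c χ → ∀ M : ℝ,
      (∀ x, ‖χ x‖ ≤ M) → ∀ ζ : ℂ, ζ ≠ 0 →
      ‖∑' x : Eis, χ x * G (ζ * toC x) -
        ((2 / (Real.sqrt 3 * nm c) * (‖ζ‖ ^ 2)⁻¹ : ℝ) : ℂ) * (sumMod c χ * fC G 0)‖ ≤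
        C * M * (‖ζ‖ ^ 2)⁻¹ * (‖toC c‖ * ‖ζ‖) ^ B := by
  obtain ⟨K, hK0, hK⟩ := fC_decay G B
  set S : ℝ := ∑' k : Eis, if k = 0 then (0 : ℝ) else 1 / ‖toC k‖ ^ B with hS
  have hS0 : 0 ≤ S := tsum_nonneg (fun k => by split_ifs <;> positivity)
  refine ⟨2 / Real.sqrt 3 * (K * Real.sqrt 3 ^ B * S), by positivity, ?_⟩
  intro c hc χ hχ M hM ζ hζ
  have hM0 : 0 ≤ M := (norm_nonneg _).trans (hM 0)
  have hc' := Po581.toC_ne_zero hc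
  have hcn : 0 < ‖toC c‖ := norm_pos_iff.mpr hc'
  have hz : 0 < ‖ζ‖ := norm_pos_iff.mpr hζ
  have hnm : (0 : ℝ) < nm c := by exact_mod_cast nm_pos.mpr hc
  have hP := poisson_periodic (dil ζ hζ G) hc hχ
  have hsum := poisson_periodic_summable (dil ζ hζ G) hc hχ
  simp_rw [dil_apply] at hP
  rw [hP, hsum.tsum_eq_add_tsum_ite 0, dualSum_zero]
  have h0 : dl (0 : Eis) / toC c = 0 := by unfold dl; rw [map_zero, zero_div, zero_div]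
  rw [h0, fC_dil, zero_div]
  set R : ℂ := ∑' k : Eis, if k = 0 then 0 else dualSum c χ k * fC (dil ζ hζ G) (dl k / toC c)
    with hR
  have e1 : ((2 / (Real.sqrt 3 * nm c) : ℝ) : ℂ) *
        (sumMod c χ * ((((‖ζ‖ ^ 2)⁻¹ : ℝ) : ℂ) * fC G 0) + R) -
      ((2 / (Real.sqrt 3 * nm c) * (‖ζ‖ ^ 2)⁻¹ : ℝ) : ℂ) * (sumMod c χ * fC G 0) =
      ((2 / (Real.sqrt 3 * nm c) : ℝ) : ℂ) * R := by
    push_cast; ring
  rw [e1, norm_mul, Complex.norm_real, Real.norm_of_nonneg (by positivity)]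
  have hterm : ∀ k : Eis, ‖(if k = 0 then 0 else
      dualSum c χ k * fC (dil ζ hζ G) (dl k / toC c) : ℂ)‖ ≤
      (nm c * M * (‖ζ‖ ^ 2)⁻¹ * (K * Real.sqrt 3 ^ B * (‖toC c‖ * ‖ζ‖) ^ B)) *
        (if k = 0 then (0 : ℝ) else 1 / ‖toC k‖ ^ B) := by
    intro k
    split_ifs with hk
    · simp
    · rw [norm_mul, fC_dil, norm_mul, Complex.norm_real, Real.norm_of_nonneg (by positivity)]
      have hd : ‖dualSum c χ k‖ ≤ nm c * M := by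
        unfold dualSum
        exact norm_sumMod_le hc (fun x => by rw [norm_mul, eC_norm, mul_one]; exact hM x)
      have hk1 := one_le_norm_toC hk
      have hkp : 0 < ‖toC k‖ := by linarith
      have hf : ‖fC G (dl k / toC c / ζ)‖ ≤
          K * Real.sqrt 3 ^ B * (‖toC c‖ * ‖ζ‖) ^ B * (1 / ‖toC k‖ ^ B) := by
        refine (hK _).trans ?_
        rw [norm_div, norm_div, norm_dl]
        set u : ℝ := ‖toC k‖ / Real.sqrt 3 / ‖toC c‖ / ‖ζ‖ with hu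
        have hu0 : 0 < u := by positivity
        have h1 : K / (1 + u) ^ B ≤ K / u ^ B := by
          gcongr
          linarith
        refine h1.trans (le_of_eq ?_)
        rw [hu]
        have hs3 : Real.sqrt 3 ≠ 0 := by positivity
        rw [mul_pow, div_pow, div_pow, div_pow]
        field_simp
      calc ‖dualSum c χ k‖ * ((‖ζ‖ ^ 2)⁻¹ * ‖fC G (dl k / toC c / ζ)‖)
          ≤ (nm c * M) * ((‖ζ‖ ^ 2)⁻¹ * (K * Real.sqrt 3 ^ B * (‖toC c‖ * ‖ζ‖) ^ B *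
            (1 / ‖toC k‖ ^ B))) := by gcongr
        _ = _ := by ring
  have hR' : ‖R‖ ≤ (nm c * M * (‖ζ‖ ^ 2)⁻¹ *
      (K * Real.sqrt 3 ^ B * (‖toC c‖ * ‖ζ‖) ^ B)) * S := by
    rw [hS, ← tsum_mul_left]
    exact tsum_of_norm_bounded ((summable_inv_pow hB).mul_left _).hasSum hterm
  calc 2 / (Real.sqrt 3 * nm c) * ‖R‖ ≤ 2 / (Real.sqrt 3 * nm c) *
        ((nm c * M * (‖ζ‖ ^ 2)⁻¹ * (K * Real.sqrt 3 ^ B * (‖toC c‖ * ‖ζ‖) ^ B)) * S) := by gcongr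
    _ = _ := by field_simp

/-- the same without the term `x = 0`. -/
theorem lattice_sum_ne (G : 𝓢(ℂ, ℂ)) {B : ℕ} (hB : 3 ≤ B) :
    ∃ C : ℝ, 0 ≤ C ∧ ∀ c : Eis, c ≠ 0 → ∀ χ : Eis → ℂ, PerMod c χ → ∀ M : ℝ,
      (∀ x, ‖χ x‖ ≤ M) → ∀ ζ : ℂ, ζ ≠ 0 →
      ‖(∑' x : Eis, if x = 0 then 0 else χ x * G (ζ * toC x)) -
        ((2 / (Real.sqrt 3 * nm c) * (‖ζ‖ ^ 2)⁻¹ : ℝ) : ℂ) * (sumMod c χ * fC G 0) +
          χ 0 * G 0‖ ≤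
        C * M * (‖ζ‖ ^ 2)⁻¹ * (‖toC c‖ * ‖ζ‖) ^ B := by
  obtain ⟨C, hC0, hC⟩ := lattice_sum G hB
  refine ⟨C, hC0, fun c hc χ hχ M hM ζ hζ => ?_⟩
  have h := hC c hc χ hχ M hM ζ hζ
  have hs : Summable (fun x : Eis => χ x * G (ζ * toC x)) :=
    summable_mul_bdd hM (summable_schwartz_one (dil ζ hζ G))
  rw [hs.tsum_eq_add_tsum_ite 0] at h
  have e : χ 0 * G (ζ * toC 0) = χ 0 * G 0 := by rw [map_zero, mul_zero]
  rw [e] at h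
  convert h using 2
  ring

/-! ### cubes -/

lemma cube_temperate : Function.HasTemperateGrowth (fun z : ℂ => z ^ 3) := by
  have := (Function.HasTemperateGrowth.id' (E := ℂ)).pow 3
  exact this

lemma cube_upper : ∃ (k : ℕ) (C : ℝ), ∀ x : ℂ, ‖x‖ ≤ C * (1 + ‖x ^ 3‖) ^ k := by
  refine ⟨1, 1, fun x => ?_⟩
  rw [pow_one, one_mul, norm_pow]
  rcases le_total ‖x‖ 1 with h | h
  · have : 0 ≤ ‖x‖ ^ 3 := by positivity
    linarith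
  · have : ‖x‖ ≤ ‖x‖ ^ 3 := le_self_pow₀ h (by norm_num)
    linarith

/-- `z ↦ F(z³)` as a Schwartz function. -/
def cubeS (F : 𝓢(ℂ, ℂ)) : 𝓢(ℂ, ℂ) := SchwartzMap.compCLM ℂ cube_temperate cube_upper F

@[simp] lemma cubeS_apply (F : 𝓢(ℂ, ℂ)) (z : ℂ) : cubeS F z = F (z ^ 3) := rfl

/-- `I(F) = ∫ F(z³) dz`. -/
def I3 (F : 𝓢(ℂ, ℂ)) : ℂ := ∫ z : ℂ, F (z ^ 3)

lemma fC_zero (G : 𝓢(ℂ, ℂ)) : fC G 0 = ∫ z : ℂ, G z := by
  unfold fC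
  congr 1
  funext z
  rw [zero_mul, neg_zero, eC_zero', mul_one]

/-- **Sums over cubes**: `∑_{l ≠ 0} χ(l) F(ζ l³)` with `|ζ| = |z|³`. -/
theorem cube_sum_ne (F : 𝓢(ℂ, ℂ)) {B : ℕ} (hB : 3 ≤ B) :
    ∃ C : ℝ, 0 ≤ C ∧ ∀ c : Eis, c ≠ 0 → ∀ χ : Eis → ℂ, PerMod c χ → ∀ M : ℝ,
      (∀ x, ‖χ x‖ ≤ M) → ∀ z : ℂ, z ≠ 0 →
      ‖(∑' l : Eis, if l = 0 then 0 else χ l * F (z ^ 3 * toC l ^ 3)) -
        ((2 / (Real.sqrt 3 * nm c) * (‖z‖ ^ 2)⁻¹ : ℝ) : ℂ) * (sumMod c χ * I3 F) +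
          χ 0 * F 0‖ ≤
        C * M * (‖z‖ ^ 2)⁻¹ * (‖toC c‖ * ‖z‖) ^ B := by
  obtain ⟨C, hC0, hC⟩ := lattice_sum_ne (cubeS F) hB
  refine ⟨C, hC0, fun c hc χ hχ M hM z hz => ?_⟩
  have h := hC c hc χ hχ M hM z hz
  simp only [cubeS_apply, fC_zero, mul_pow] at h
  have e : F ((0 : ℂ) ^ 3) = F 0 := by norm_num
  rw [e] at h
  rw [mul_pow ‖toC c‖]
  exact h

/-- the same over the multiples of `d`: `∑_{l ≠ 0, d ∣ l} χ(l) F(z³ l³)`, written as a sum over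
`l = d y`, uniformly in `d`. -/
theorem cube_sum_mult (F : 𝓢(ℂ, ℂ)) {B : ℕ} (hB : 3 ≤ B) :
    ∃ C : ℝ, 0 ≤ C ∧ ∀ c d : Eis, c ≠ 0 → d ≠ 0 → ∀ χ : Eis → ℂ, PerMod c χ → ∀ M : ℝ,
      (∀ x, ‖χ x‖ ≤ M) → ∀ z : ℂ, z ≠ 0 →
      ‖(∑' y : Eis, if y = 0 then 0 else χ (d * y) * F (z ^ 3 * toC (d * y) ^ 3)) -
        ((2 / (Real.sqrt 3 * nm c) * (nm d * ‖z‖ ^ 2)⁻¹ : ℝ) : ℂ) *
          (sumMod c (fun y => χ (d * y)) * I3 F) + χ 0 * F 0‖ ≤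
        C * M * (nm d * ‖z‖ ^ 2)⁻¹ * (‖toC c‖ * ‖toC d‖ * ‖z‖) ^ B := by
  obtain ⟨C, hC0, hC⟩ := cube_sum_ne F hB
  refine ⟨C, hC0, fun c d hc hd χ hχ M hM z hz => ?_⟩
  have hd' := Po581.toC_ne_zero hd
  have hper : PerMod c (fun y => χ (d * y)) := by
    intro x y
    show χ (d * (x + c * y)) = χ (d * x)
    rw [show d * (x + c * y) = d * x + c * (d * y) by ring, hχ]
  have h := hC c hc _ hper M (fun x => hM _) (toC d * z) (mul_ne_zero hd' hz)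
  have e1 : ‖toC d * z‖ ^ 2 = nm d * ‖z‖ ^ 2 := by rw [norm_mul, mul_pow, norm_toC_sq]
  have e2 : ‖toC c‖ * ‖toC d * z‖ = ‖toC c‖ * ‖toC d‖ * ‖z‖ := by rw [norm_mul]; ring
  rw [e1, e2] at h
  simp only [mul_zero] at h
  have e3 : ∀ y : Eis, (toC d * z) ^ 3 * toC y ^ 3 = z ^ 3 * toC (d * y) ^ 3 := by
    intro y; rw [map_mul]; ring
  simp only [e3] at h
  exact h

end Crest.Agent.R017.BL7
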