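import Crest.Agent.R017.BL7a_868
import Crest.Agent.R017.EndJ_699

/-!
# Row 17, leaf BL7b: radial Schwartz functions in logarithmic scale

`lg F A t = e^{A t} F(e^{t/2})` has bounded derivatives (`SG`).
-/

set_option autoImplicit false

noncomputable section

open Complex MeasureTheory
open scoped SchwartzMap FourierTransform ContDiff

namespace Crest.Agent.R017.BL7

open Crest.Agent.R012 Crest.Agent.R012.Eis Crest.Agent.R012.Po581
open Crest.Agent.R017.End699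

lemma temp_half : Function.HasTemperateGrowth (fun r : ℝ => (((1 / 2 : ℝ) * r : ℝ) : ℂ)) := by
  fun_prop

/-- `r ↦ (r / 2) G'(r)` -/
def dD (G : 𝓢(ℝ, ℂ)) : 𝓢(ℝ, ℂ) :=
  SchwartzMap.smulLeftCLM ℂ (fun r : ℝ => (((1 / 2 : ℝ) * r : ℝ) : ℂ))
    (SchwartzMap.derivCLM ℂ ℂ G)

lemma dD_apply (G : 𝓢(ℝ, ℂ)) (r : ℝ) : dD G r = (((1 / 2 : ℝ) * r : ℝ) : ℂ) * deriv G r := by
  unfold dD
  rw [SchwartzMap.smulLeftCLM_apply_apply temp_half, SchwartzMap.derivCLM_apply, smul_eq_mul]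

/-- `t ↦ G(e^{t/2})` -/
def ex (G : 𝓢(ℝ, ℂ)) (t : ℝ) : ℂ := G (Real.exp (t / 2))

lemma contDiff_ex (G : 𝓢(ℝ, ℂ)) : ContDiff ℝ ∞ (ex G) := by
  unfold ex
  exact (G.smooth ⊤).comp (by fun_prop)

lemma deriv_ex (G : 𝓢(ℝ, ℂ)) : deriv (ex G) = ex (dD G) := by
  funext t
  have h1 : HasDerivAt G (deriv G (Real.exp (t / 2))) (Real.exp (t / 2)) :=
    (G.differentiable _).hasDerivAt
  have h2 : HasDerivAt (fun t : ℝ => Real.exp (t / 2)) (Real.exp (t / 2) * (1 / 2)) t := by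
    have := ((hasDerivAt_id t).div_const 2).exp
    simpa using this
  have h3 := h1.scomp t h2
  have h4 : deriv (ex G) t = (Real.exp (t / 2) * (1 / 2)) • deriv G (Real.exp (t / 2)) := h3.deriv
  rw [h4]
  unfold ex
  rw [dD_apply]
  simp only [Complex.real_smul]
  push_cast
  ring

lemma iter_ex (G : 𝓢(ℝ, ℂ)) (k : ℕ) : deriv^[k] (ex G) = ex (dD^[k] G) := by
  induction k generalizing G with
  | zero => rfl
  | succ k ih => rw [Function.iterate_succ_apply, deriv_ex, ih, Function.iterate_succ_apply]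

lemma sg_ex (G : 𝓢(ℝ, ℂ)) : SG (ex G) where
  cd := contDiff_ex G
  bd k := ⟨SchwartzMap.seminorm ℝ 0 0 (dD^[k] G), fun u => by
    rw [iter_ex]
    exact SchwartzMap.norm_le_seminorm ℝ _ _⟩

lemma sg_refl {σ : ℝ → ℂ} (h : SG σ) : SG (fun u => σ (-u)) where
  cd := h.cd.comp contDiff_neg
  bd k := by
    obtain ⟨B, hB⟩ := h.bd k
    have key : ∀ (k : ℕ) (τ : ℝ → ℂ), deriv^[k] (fun u => τ (-u)) =
        fun u => (-1 : ℂ) ^ k * deriv^[k] τ (-u) := by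
      intro k
      induction k with
      | zero => intro τ; funext u; simp
      | succ k ih =>
        intro τ
        have h1 : deriv (fun u => τ (-u)) = fun u => (-(deriv τ)) (-u) := by
          funext u
          rw [deriv_comp_neg]
          rfl
        rw [Function.iterate_succ_apply, h1, ih]
        funext u
        have h2 : deriv^[k] (-(deriv τ)) = -(deriv^[k] (deriv τ)) := by
          rw [← iteratedDeriv_eq_iterate, ← iteratedDeriv_eq_iterate]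
          funext x
          rw [iteratedDeriv_neg]
          rfl
        rw [h2, Function.iterate_succ_apply, pow_succ]
        simp
    refine ⟨B, fun u => ?_⟩
    rw [key]
    simpa using hB (-u)

/-- restriction to the real line -/
def rr (F : 𝓢(ℂ, ℂ)) : 𝓢(ℝ, ℂ) :=
  SchwartzMap.compCLM ℂ (g := fun r : ℝ => (r : ℂ)) (by fun_prop)
    ⟨1, 1, fun x => by rw [Complex.norm_real]; simp⟩ F

lemma rr_apply (F : 𝓢(ℂ, ℂ)) (r : ℝ) : rr F r = F (r : ℂ) := rfl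

lemma temp_pow (A : ℕ) : Function.HasTemperateGrowth (fun r : ℝ => ((r ^ (2 * A) : ℝ) : ℂ)) := by
  fun_prop

/-- `r ↦ r^{2A} F(r)` -/
def rrA (F : 𝓢(ℂ, ℂ)) (A : ℕ) : 𝓢(ℝ, ℂ) :=
  SchwartzMap.smulLeftCLM ℂ (fun r : ℝ => ((r ^ (2 * A) : ℝ) : ℂ)) (rr F)

lemma rrA_apply (F : 𝓢(ℂ, ℂ)) (A : ℕ) (r : ℝ) : rrA F A r = ((r ^ (2 * A) : ℝ) : ℂ) * F (r : ℂ) := by
  unfold rrA
  rw [SchwartzMap.smulLeftCLM_apply_apply (temp_pow A), smul_eq_mul, rr_apply]

/-- `e^{A t} F(e^{t/2})` -/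
def lg (F : 𝓢(ℂ, ℂ)) (A : ℕ) (t : ℝ) : ℂ := ex (rrA F A) t

lemma lg_apply (F : 𝓢(ℂ, ℂ)) (A : ℕ) (t : ℝ) :
    lg F A t = ((Real.exp (A * t) : ℝ) : ℂ) * F ((Real.exp (t / 2) : ℝ) : ℂ) := by
  unfold lg ex
  rw [rrA_apply]
  congr 3
  rw [← Real.exp_nat_mul]
  congr 1
  push_cast
  ring

lemma sg_lg (F : 𝓢(ℂ, ℂ)) (A : ℕ) : SG (lg F A) := sg_ex _

/-! ### the sums over `b` -/

lemma hw_mul_exp {v : ℝ → ℂ} (hv : HW v) (r : ℝ) :
    HW (fun u => v u * ((Real.exp (r * u) : ℝ) : ℂ)) where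
  cd := by
    have h1 : ContDiff ℝ ∞ (fun u : ℝ => ((Real.exp (r * u) : ℝ) : ℂ)) :=
      Complex.ofRealCLM.contDiff.comp
        (Real.contDiff_exp.comp (contDiff_const.mul contDiff_id))
    exact hv.cd.mul h1
  supp u hu := hv.supp u (left_ne_zero_of_mul hu)

lemma eq_one_of_nm_lt {b : Eis} (hb : IsPrim b) (h : nm b < 4) : b = 1 := by
  by_contra hne
  obtain ⟨p, hp, hpb⟩ := Mob705.exists_pp_dvd_of_isPrim hb hne
  have h1 := hp.four_le_nm
  have h2 := Div277.nm_le_of_dvd hb.ne_zero hpb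
  omega

lemma sg_bounded {σ : ℝ → ℂ} (hσ : SG σ) : ∃ B : ℝ, 0 ≤ B ∧ ∀ u, ‖σ u‖ ≤ B := by
  obtain ⟨B, hB⟩ := hσ.bd 0
  exact ⟨B, (norm_nonneg _).trans (hB 0), hB⟩

/-- smoothed Möbius sums, all real heights `κ` -/
theorem core_bound {S : Set ℤ} {θ ε : ℝ} (hθ : 1 / 2 < θ) (hθ1 : θ ≤ 1) (hPF : PF S θ)
    (hε : 0 < ε) (hε1 : ε ≤ 1) {l : ℤ} (hl : l ∈ S) {h σ : ℝ → ℂ} (hh : HW h) (hσ : SG σ) :
    ∃ C : ℝ, 0 ≤ C ∧ ∀ (q : Eis) (χ : Eis → ℂ), HC q χ → ∀ ζ κ : ℝ, ∀ N : ℕ,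
      Real.exp (κ + 1) < N + 1 →
      ‖∑ b ∈ primBall N, (muE b : ℂ) * tw χ l b *
        (h (Real.log (nm b) - κ) * σ (Real.log (nm b) - ζ))‖ ≤
        C * (nm q : ℝ) ^ ε * Real.exp ((θ + ε) * κ) := by
  obtain ⟨C, hC0, hC⟩ := pf_PM hθ hθ1 hPF hε hε1 hl hh hσ
  obtain ⟨B1, hB1⟩ := hh.bounded
  obtain ⟨B2, hB20, hB2⟩ := sg_bounded hσ
  have hB10 : 0 ≤ B1 := (norm_nonneg _).trans (hB1 0)
  refine ⟨max C (B1 * B2 * Real.exp 2), le_max_of_le_left hC0, fun q χ hc ζ κ N hN => ?_⟩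
  have hq : (1 : ℝ) ≤ (nm q : ℝ) := by exact_mod_cast nm_pos.mpr hc.q0
  have hqε : (1 : ℝ) ≤ (nm q : ℝ) ^ ε := Real.one_le_rpow hq hε.le
  rcases le_total 0 κ with hκ | hκ
  · have key := hC q χ hc 0 ζ κ hκ N hN
    simp only [abs_zero, add_zero, mul_one, Complex.ofReal_zero, zero_mul, Complex.cpow_zero,
      one_mul] at key
    refine key.trans ?_
    gcongr
    exact le_max_left _ _
  · have hlog : ∀ b ∈ primBall N, 0 ≤ Real.log (nm b) := by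
      intro b hb
      apply Real.log_nonneg
      exact_mod_cast nm_pos.mpr (mem_primBall.mp hb).2.ne_zero
    have hne : ∀ b ∈ primBall N, b ≠ 1 → (muE b : ℂ) * tw χ l b *
        (h (Real.log (nm b) - κ) * σ (Real.log (nm b) - ζ)) = 0 := by
      intro b hb hb1
      have h4 : 4 ≤ nm b := by
        by_contra h5
        exact hb1 (eq_one_of_nm_lt (mem_primBall.mp hb).2 (by omega))
      have h6 : 1 < Real.log (nm b) := by
        rw [Real.lt_log_iff_exp_lt (by positivity)]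
        have := Real.exp_one_lt_d9
        have h7 : (4 : ℝ) ≤ nm b := by exact_mod_cast h4
        linarith
      have h8 : h (Real.log (nm b) - κ) = 0 := by
        by_contra h9
        have := (abs_le.mp (hh.supp _ h9)).2
        linarith
      rw [h8]; ring
    by_cases h1N : (1 : Eis) ∈ primBall N
    · rw [Finset.sum_eq_single_of_mem 1 h1N hne]
      by_cases hz : h (Real.log (nm 1) - κ) = 0
      · rw [hz]
        simp only [zero_mul, mul_zero, norm_zero]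
        positivity
      · have h2 := (abs_le.mp (hh.supp _ hz)).2
        have h3 := hlog 1 h1N
        have hκ1 : -1 ≤ κ := by linarith
        have h4 : ‖(muE 1 : ℂ) * tw χ l 1‖ ≤ 1 := norm_muE_mul_le (hc.isChar_tw l) isPrim_one
        have h5 : 1 ≤ Real.exp 2 * Real.exp ((θ + ε) * κ) := by
          rw [← Real.exp_add]
          apply Real.one_le_exp
          nlinarith
        calc _ = ‖(muE 1 : ℂ) * tw χ l 1‖ * (‖h (Real.log (nm 1) - κ)‖ *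
              ‖σ (Real.log (nm 1) - ζ)‖) := by rw [norm_mul, norm_mul (h _)]
          _ ≤ 1 * (B1 * B2) := by
              gcongr
              · exact hB1 _
              · exact hB2 _
          _ = B1 * B2 * 1 * 1 := by ring
          _ ≤ B1 * B2 * (Real.exp 2 * Real.exp ((θ + ε) * κ)) * (nm q : ℝ) ^ ε := by gcongr
          _ = (B1 * B2 * Real.exp 2) * (nm q : ℝ) ^ ε * Real.exp ((θ + ε) * κ) := by ring
          _ ≤ _ := by
              gcongr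
              exact le_max_right _ _
    · rw [Finset.sum_eq_zero fun b hb => hne b hb (fun h => h1N (h ▸ hb)), norm_zero]
      positivity

/-- sums over `b` without kernel -/
theorem bsum_plain {S : Set ℤ} {θ ε : ℝ} (hθ : 1 / 2 < θ) (hθ1 : θ ≤ 1) (hPF : PF S θ)
    (hε : 0 < ε) (hε1 : ε ≤ 1) {l : ℤ} (hl : l ∈ S) {v : ℝ → ℂ} (hv : HW v) (α : ℝ) :
    ∃ C : ℝ, 0 ≤ C ∧ ∀ (q : Eis) (χ : Eis → ℂ), HC q χ → ∀ κ : ℝ, ∀ N : ℕ,
      Real.exp (κ + 1) < N + 1 →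
      ‖∑ b ∈ primBall N, (muE b : ℂ) * tw χ l b * ((((nm b : ℝ) ^ (-α) : ℝ) : ℂ) *
        v (Real.log (nm b) - κ))‖ ≤ C * (nm q : ℝ) ^ ε * Real.exp ((θ + ε - α) * κ) := by
  obtain ⟨C, hC0, hC⟩ := core_bound hθ hθ1 hPF hε hε1 hl (hw_mul_exp hv (-α)) sg_one
  refine ⟨C, hC0, fun q χ hc κ N hN => ?_⟩
  have key := hC q χ hc 0 κ N hN
  have e1 : ∑ b ∈ primBall N, (muE b : ℂ) * tw χ l b * ((((nm b : ℝ) ^ (-α) : ℝ) : ℂ) *
        v (Real.log (nm b) - κ)) = ((Real.exp (-α * κ) : ℝ) : ℂ) *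
      ∑ b ∈ primBall N, (muE b : ℂ) * tw χ l b *
        (v (Real.log (nm b) - κ) * ((Real.exp (-α * (Real.log (nm b) - κ)) : ℝ) : ℂ) * 1) := by
    rw [Finset.mul_sum]
    apply Finset.sum_congr rfl
    intro b hb
    have hb0 : (0 : ℝ) < nm b := by exact_mod_cast nm_pos.mpr (mem_primBall.mp hb).2.ne_zero
    have e2 : (nm b : ℝ) ^ (-α) = Real.exp (-α * κ) *
        Real.exp (-α * (Real.log (nm b) - κ)) := by
      rw [Real.rpow_def_of_pos hb0, ← Real.exp_add]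
      congr 1; ring
    rw [e2]
    push_cast
    ring
  rw [e1, norm_mul, Complex.norm_real, Real.norm_of_nonneg (Real.exp_pos _).le]
  calc _ ≤ Real.exp (-α * κ) * (C * (nm q : ℝ) ^ ε * Real.exp ((θ + ε) * κ)) := by gcongr
    _ = C * (nm q : ℝ) ^ ε * (Real.exp (-α * κ) * Real.exp ((θ + ε) * κ)) := by ring
    _ = _ := by rw [← Real.exp_add]; ring_nf

/-- sums over `b` with a radial kernel -/
theorem bsum_bound {S : Set ℤ} {θ ε : ℝ} (hθ : 1 / 2 < θ) (hθ1 : θ ≤ 1) (hPF : PF S θ)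
    (hε : 0 < ε) (hε1 : ε ≤ 1) {l : ℤ} (hl : l ∈ S) {v : ℝ → ℂ} (hv : HW v) (F : 𝓢(ℂ, ℂ))
    (α : ℝ) : ∃ C : ℝ, 0 ≤ C ∧ ∀ (q : Eis) (χ : Eis → ℂ), HC q χ → ∀ κ s : ℝ, ∀ N : ℕ,
      Real.exp (κ + 1) < N + 1 →
      ‖∑ b ∈ primBall N, (muE b : ℂ) * tw χ l b * ((((nm b : ℝ) ^ (-α) : ℝ) : ℂ) *
        v (Real.log (nm b) - κ) * F ((Real.exp ((s - Real.log (nm b)) / 2) : ℝ) : ℂ))‖ ≤
        C * (nm q : ℝ) ^ ε * Real.exp ((θ + ε - α) * κ) / (1 + Real.exp (s - κ)) := by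
  have key : ∀ A : ℕ, ∃ C : ℝ, 0 ≤ C ∧ ∀ (q : Eis) (χ : Eis → ℂ), HC q χ → ∀ κ s : ℝ, ∀ N : ℕ,
      Real.exp (κ + 1) < N + 1 →
      ‖∑ b ∈ primBall N, (muE b : ℂ) * tw χ l b * ((((nm b : ℝ) ^ (-α) : ℝ) : ℂ) *
        v (Real.log (nm b) - κ) * F ((Real.exp ((s - Real.log (nm b)) / 2) : ℝ) : ℂ))‖ ≤
        C * (nm q : ℝ) ^ ε * Real.exp ((θ + ε - α) * κ) * Real.exp (-(A * (s - κ))) := by
    intro A
    obtain ⟨C, hC0, hC⟩ := core_bound hθ hθ1 hPF hε hε1 hl (hw_mul_exp hv (A - α))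
      (sg_refl (sg_lg F A))
    refine ⟨C, hC0, fun q χ hc κ s N hN => ?_⟩
    have key := hC q χ hc s κ N hN
    have e1 : ∑ b ∈ primBall N, (muE b : ℂ) * tw χ l b * ((((nm b : ℝ) ^ (-α) : ℝ) : ℂ) *
          v (Real.log (nm b) - κ) * F ((Real.exp ((s - Real.log (nm b)) / 2) : ℝ) : ℂ)) =
        ((Real.exp (-α * κ - A * (s - κ)) : ℝ) : ℂ) *
        ∑ b ∈ primBall N, (muE b : ℂ) * tw χ l b *
          (v (Real.log (nm b) - κ) * ((Real.exp ((A - α) * (Real.log (nm b) - κ)) : ℝ) : ℂ) *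
            lg F A (-(Real.log (nm b) - s))) := by
      rw [Finset.mul_sum]
      apply Finset.sum_congr rfl
      intro b hb
      have hb0 : (0 : ℝ) < nm b := by exact_mod_cast nm_pos.mpr (mem_primBall.mp hb).2.ne_zero
      have e2 : (nm b : ℝ) ^ (-α) = Real.exp (-α * κ - A * (s - κ)) *
          (Real.exp ((A - α) * (Real.log (nm b) - κ)) *
          Real.exp (A * (-(Real.log (nm b) - s)))) := by
        rw [Real.rpow_def_of_pos hb0, ← Real.exp_add, ← Real.exp_add]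
        congr 1; ring
      rw [e2, lg_apply, show -(Real.log (nm b) - s) = s - Real.log (nm b) by ring]
      push_cast
      ring
    rw [e1, norm_mul, Complex.norm_real, Real.norm_of_nonneg (Real.exp_pos _).le]
    calc _ ≤ Real.exp (-α * κ - A * (s - κ)) *
          (C * (nm q : ℝ) ^ ε * Real.exp ((θ + ε) * κ)) := by gcongr
      _ = C * (nm q : ℝ) ^ ε * (Real.exp (-α * κ - A * (s - κ)) * Real.exp ((θ + ε) * κ)) := by
          ring
      _ = C * (nm q : ℝ) ^ ε * (Real.exp ((θ + ε - α) * κ) * Real.exp (-(A * (s - κ)))) := by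
          rw [← Real.exp_add, ← Real.exp_add]; ring_nf
      _ = _ := by ring
  obtain ⟨C0, h00, h0⟩ := key 0
  obtain ⟨C1, h10, h1⟩ := key 1
  refine ⟨C0 + C1, by positivity, fun q χ hc κ s N hN => ?_⟩
  have k0 := h0 q χ hc κ s N hN
  have k1 := h1 q χ hc κ s N hN
  rw [le_div_iff₀ (by positivity)]
  set Z : ℝ := ‖∑ b ∈ primBall N, (muE b : ℂ) * tw χ l b * ((((nm b : ℝ) ^ (-α) : ℝ) : ℂ) *
        v (Real.log (nm b) - κ) * F ((Real.exp ((s - Real.log (nm b)) / 2) : ℝ) : ℂ))‖ with hZ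
  simp only [Nat.cast_zero, zero_mul, neg_zero, Real.exp_zero, mul_one] at k0
  simp only [Nat.cast_one, one_mul, Real.exp_neg] at k1
  have hE : 0 < Real.exp (s - κ) := Real.exp_pos _
  have k2 : Z * Real.exp (s - κ) ≤ C1 * (nm q : ℝ) ^ ε * Real.exp ((θ + ε - α) * κ) := by
    rw [← div_eq_mul_inv, le_div_iff₀ hE] at k1
    exact k1
  calc Z * (1 + Real.exp (s - κ)) = Z + Z * Real.exp (s - κ) := by ring
    _ ≤ C0 * (nm q : ℝ) ^ ε * Real.exp ((θ + ε - α) * κ) +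
        C1 * (nm q : ℝ) ^ ε * Real.exp ((θ + ε - α) * κ) := add_le_add k0 k2
    _ = _ := by ring

end Crest.Agent.R017.BL7
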