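import Crest.Agent.R017.AS10_590

/-!
# Row 17, section A: the functional equation with `l' = -(l + 2)` (helper347)

Copies of `AS7_590`, `AS9_590` with the additional relation: `HasFEQ`, `StepPureQ`, `F2xQ`,
`f2xQ_of_stepPure`.
-/

set_option autoImplicit false

noncomputable section

open Complex Set
open scoped ComplexConjugate ContDiff

namespace Crest.Agent.R017.A590

open Crest.Agent.R012 Crest.Agent.R012.Eis Crest.Agent.R012.Mob705 Crest.Agent.R012.Gauss880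
open Crest.Agent.R017.End699 Crest.Agent.R017.Sx440 Crest.Agent.R017.Sx545 Crest.Agent.R017.B770

/-- `HasFE` with `l' = -(l + 2)` -/
def HasFEQ (M : Eis) (ψ : Eis → ℂ) (l : ℤ) : Prop :=
  ∃ (ι L : Type) (_ : Fintype ι) (_ : Fintype L) (D : Dt ι L), D.OK M ∧ FEn M ψ l D ∧
    D.l' = -(l + 2)

/-- `StepPure` with `l' = -(l + 2)` -/
def StepPureQ : Prop :=
  ∀ M : Eis, (36 : Eis) ∣ M → ∀ ψ : Eis → ℂ, HC M ψ → Pure M ψ → ∀ l : ℤ, l ≠ -1 → HasFEQ M ψ l

/-- `F2x` with `l' = -(l + 2)` -/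
def F2xQ (M : Eis) : Prop :=
  ∀ l : ℤ, l ≠ -1 → ∀ ψ : Eis → ℂ, HC M ψ →
    ∃ F : FData, F.OK M ∧ FE M ψ l F ∧ 4 * F.l' + F.j = -4 ∧ F.l' = -(l + 2)

variable {M M₁ p ν : Eis} {ι L : Type}

/-- **adding a prime with a sextic component** -/
theorem step_sexticQ (h : Ext M M₁ p) {v : ℕ} (hv0 : v ≠ 0) (hv : M = p ^ v * M₁)
    (h36 : (36 : Eis) ∣ M₁) {ψ₁ : Eis → ℂ} (hψ₁ : HC M₁ ψ₁) {l : ℤ} (H : HasFEQ M₁ ψ₁ l)
    {m : ℕ} (hm : m ≤ 5) {ψ : Eis → ℂ} (hψ : ∀ b, Sm M b → ψ b = ψ₁ b * sy6 p b ^ m) :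
    HasFEQ M ψ l := by
  classical
  obtain ⟨ι, L, iι, iL, D, hD, hFE, hl'⟩ := H
  set f := End699.tw ψ₁ l with hf
  obtain ⟨m', δ, hm5, hm', hleft⟩ : ∃ (m' : ℕ) (δ : ℂ), m' ≤ 5 ∧ (m + 2 + m') % 6 = 0 ∧
      ∀ (ν : Eis), Sm M ν → ∀ (V : ℝ → ℂ) (R : ℝ), 0 < R → (∀ x, R < x → V x = 0) →
        ∀ Q : ℝ, 0 < Q → PsiE M (xiE ψ₁ l) (fun b => f b * sy6 p b ^ m) ν V Q =
          PsiE M₁ (xiE ψ₁ l) f (p ^ m * ν) V Q -
            δ * Cp f p ν m * PsiE M₁ (xiE ψ₁ l) f (p ^ m' * ν) V (Q / (nm p : ℝ) ^ (m + 1)) := by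
    have hmul := mult_tw (M₁ := M₁) hψ₁ l
    have hξ : ∀ a b, Sm M₁ a → Sm M₁ b → xiE ψ₁ l (a * b) = xiE ψ₁ l a * xiE ψ₁ l b :=
      fun a b ha hb => xiE_mul hψ₁ l ha.1 hb.1
    have hξp := xiE_p (ψ₁ := ψ₁) l h.sp.ne_zero
    by_cases h5 : m = 5
    · subst h5
      refine ⟨5, 0, le_refl 5, by norm_num, fun ν hν V R hR hV Q hQ => ?_⟩
      rw [left_id5 h (h.ndvd hν) hmul hξ hξp hR hV hQ]
      ring
    · refine ⟨4 - m, 1, by omega, by omega, fun ν hν V R hR hV Q hQ => ?_⟩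
      rw [left_id h (by omega : m + (4 - m) = 4) (h.ndvd hν) hmul hξ hξp hR hV hQ]
      ring
  refine ⟨ι ⊕ ι ⊕ ι ⊕ ι, L, inferInstance, iL, stepD D f p v m m' δ,
    stepD_ok h hv hv0 h36 hD f m m' δ, ?_, hl'⟩
  intro V hV
  obtain ⟨W, hW, hid⟩ := hFE V hV
  refine ⟨Sum.elim W (Sum.elim W (Sum.elim W W)), ?_, ?_⟩
  · rintro (i | i | i | i)
    · exact hW i
    · exact hW i
    · exact hW i
    · exact hW i
  intro ν hν Q hQ τ
  obtain ⟨R, hR, hVR⟩ := sw_bound hV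
  set Vt : ℝ → ℂ := fun y => (y : ℂ) ^ (I * τ) * V y with hVt
  have hVtR : ∀ x, R < x → Vt x = 0 := fun x hx => by rw [hVt]; simp only; rw [hVR x hx, mul_zero]
  have hq := h.q_pos
  have hQ' : 0 < Q / (nm p : ℝ) ^ (m + 1) := by positivity
  have hqL : ∀ j, 0 < Q / D.qL j := fun j => by
    have := hD.qL j
    positivity
  have e1 : ∀ j, PsiE M (xiE ψ l) (End699.tw ψ l) ν Vt (Q / D.qL j) =
      PsiE M₁ (xiE ψ₁ l) f (p ^ m * ν) Vt (Q / D.qL j) -
        δ * Cp f p ν m *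
          PsiE M₁ (xiE ψ₁ l) f (p ^ m' * ν) Vt (Q / (nm p : ℝ) ^ (m + 1) / D.qL j) := by
    intro j
    rw [div_right_comm Q _ (D.qL j), ← hleft ν hν Vt R hR hVtR _ (hqL j)]
    refine psiE_congr (fun b hb => ?_) (fun b hb => ?_) ν _ _
    · unfold End699.tw at hf ⊢
      rw [hf, hψ b hb]
      ring
    · unfold xiE End699.tw
      rw [hψ b hb]
      have h1 : (sy6 p b ^ m) ^ 6 = 1 := by
        rw [← pow_mul, mul_comm m 6, pow_mul, res_sy6.pow_eq p b (h.sm2 (h.low hb)) (h.cop hb),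
          one_pow]
      calc (ψ₁ b * sy6 p b ^ m * ang (l + 1) b) ^ 6
          = (ψ₁ b * ang (l + 1) b) ^ 6 * (sy6 p b ^ m) ^ 6 := by ring
        _ = _ := by rw [h1, mul_one]
  have hν1 : ∀ k, Sm M₁ (p ^ k * ν) := fun k => (h.mul_iff k ν).mpr (h.low hν)
  have r1 := hid (p ^ m * ν) (hν1 m) Q hQ τ
  have r2 := hid (p ^ m' * ν) (hν1 m') (Q / (nm p : ℝ) ^ (m + 1)) hQ' τ
  have r3 := RT_step h hD hv f hm hm5 hm' δ hν hW τ hQ
  change ∑ j, D.cL j * PsiE M (xiE ψ l) (End699.tw ψ l) ν Vt (Q / D.qL j) =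
    RT M (stepD D f p v m m' δ) (Sum.elim W (Sum.elim W (Sum.elim W W))) τ ν Q
  rw [r3]
  change _ = RT M₁ D W τ (p ^ m * ν) Q at r1
  change _ = RT M₁ D W τ (p ^ m' * ν) (Q / (nm p : ℝ) ^ (m + 1)) at r2
  rw [← r1, ← r2, Finset.mul_sum, ← Finset.sum_sub_distrib]
  refine Finset.sum_congr rfl fun j _ => ?_
  rw [e1 j]
  ring

variable {ψ χ : Eis → ℂ}

theorem hasFEQ_aux (hΘ : ThetaP) (H : StepPureQ) : ∀ n : ℕ, ∀ M : Eis, nm M = n → (36 : Eis) ∣ M →
    ∀ ψ : Eis → ℂ, HC M ψ → ∀ l : ℤ, l ≠ -1 → HasFEQ M ψ l := by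
  intro n
  induction n using Nat.strong_induction_on with
  | _ n ih =>
    intro M hn h36 ψ hψ l hl
    by_cases hP : Pure M ψ
    · exact H M h36 ψ hψ hP l hl
    · unfold Pure PureAt at hP
      push Not at hP
      obtain ⟨p, hp, hpM, hp6, v, M₁, hM, hpM₁, h6⟩ := hP
      have hlam : ¬ lam ∣ p := by
        intro hd
        have h1 : Associated lam p := prime_lam.associated_of_dvd hp hd
        apply hp6
        have h2 : lam ∣ (6 : Eis) := by
          have h3 : lam ∣ (3 : Eis) := lam_dvd_three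
          exact h3.trans ⟨2, by norm_num⟩
        exact h1.symm.dvd.trans h2
      obtain ⟨u, hu⟩ := exists_unit_mul_isPrim hlam
      -- the primary associate
      set p' : Eis := u * p with hp'
      set M₁' : Eis := ((u⁻¹ : Eisˣ) : Eis) ^ v * M₁ with hM₁'
      have huu : ((u⁻¹ : Eisˣ) : Eis) * (u : Eis) = 1 := by simp
      have hM' : M = p' ^ v * M₁' := by
        rw [hp', hM₁', mul_pow, hM]
        calc p ^ v * M₁ = (((u⁻¹ : Eisˣ) : Eis) * (u : Eis)) ^ v * (p ^ v * M₁) := by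
              rw [huu, one_pow, one_mul]
          _ = _ := by rw [mul_pow]; ring
      have hass : Associated p p' := ⟨u, by rw [hp']; ring⟩
      have hpp' : Prime p' := hass.prime hp
      have hp6' : ¬ p' ∣ 6 := fun h => hp6 (hass.dvd.trans h)
      have hpM' : p' ∣ M := hass.symm.dvd.trans hpM
      have hass1 : Associated M₁ M₁' := by
        refine ⟨(u⁻¹) ^ v, ?_⟩
        rw [hM₁']
        push_cast
        ring
      have hpM₁' : ¬ p' ∣ M₁' := fun h => hpM₁ (hass.dvd.trans (h.trans hass1.symm.dvd))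
      obtain ⟨hE, hv0, h36'⟩ := exists_ext h36 hpp' hp6' hpM' hM' hpM₁' hu
      obtain ⟨ψ₁, hψ₁, m, hm, hd⟩ := exists_low hΘ hE hv0 hM' h36' hψ (by
        intro b hb1 hb2 hb3
        exact h6 b hb1 (hass1.dvd.trans hb2) (fun h => hb3 (hass.symm.dvd.trans h)))
      have hlt : nm M₁' < n := by
        have key : nm M = nm p' ^ v * nm M₁' := by
          rw [hM']; rw [nm_mul (p' ^ v) M₁', nm_pow p' v]
        rw [← hn, key]
        have h1 : 0 < nm M₁' := nm_pos.mpr hψ₁.q0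
        have h2 : 1 < nm p' := by
          have h3 : nm p' ≠ 0 := (nm_pos.mpr hpp'.ne_zero).ne'
          have h4 : nm p' ≠ 1 := fun h => hpp'.not_isUnit (isUnit_iff.mpr h)
          omega
        have h3 : 1 < nm p' ^ v := Nat.one_lt_pow hv0 h2
        calc nm M₁' = 1 * nm M₁' := (one_mul _).symm
          _ < nm p' ^ v * nm M₁' := Nat.mul_lt_mul_of_pos_right h3 h1
      have hlow := ih (nm M₁') hlt M₁' rfl h36' ψ₁ hψ₁ l hl
      exact step_sexticQ hE hv0 hM' h36' hψ₁ hlow hm hd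

/-- functional equations for all characters -/
theorem hasFEQ (hΘ : ThetaP) (H : StepPureQ) {M : Eis} (h36 : (36 : Eis) ∣ M) {ψ : Eis → ℂ}
    (hψ : HC M ψ) {l : ℤ} (hl : l ≠ -1) : HasFEQ M ψ l :=
  hasFEQ_aux hΘ H (nm M) M rfl h36 ψ hψ l hl

theorem f2xQ_of_stepPure (hΘ : ThetaP) (H : StepPureQ) : ∀ M : Eis, (36 : Eis) ∣ M → F2xQ M := by
  classical
  intro M h36 l hl ψ hψ
  obtain ⟨ι, L, iι, iL, D, hD, hFE, hl'⟩ := hasFEQ hΘ H h36 hψ hl
  refine ⟨toF M ψ l D, ?_, ?_, ?_, hl'⟩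
  · refine
      { ξ1 := ?_
        ξle := ?_
        dvd := hD.dvd
        rad := hD.rad
        η := fun i => hc_pow (hD.η _) (by norm_num)
        ψ' := fun i => hD.ψ' _
        ρ := fun i => hD.ρ _
        qL := fun i => hD.qL _
        nz := ?_
        j0 := mul_ne_zero (by norm_num) hD.j0
        lj := hD.lj }
    · change (if Sm M 1 then xiE ψ l 1 else 0) = 1
      rw [if_pos (Sm.one M)]
      unfold xiE End699.tw
      rw [hψ.char.one, P355.ang_one]
      norm_num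
    · intro e
      change ‖(if Sm M e then xiE ψ l e else 0)‖ ≤ 1
      by_cases he : Sm M e
      · rw [if_pos he]
        unfold xiE
        rw [norm_pow]
        exact pow_le_one₀ (norm_nonneg _) (norm_tw_le' hψ _ he.1)
      · rw [if_neg he, norm_zero]; exact zero_le_one
    · intro s hs
      have h1 := hD.nz s hs
      have h2 : (∑ i : Fin (Fintype.card L), D.cL ((Fintype.equivFin L).symm i) *
          (D.qL ((Fintype.equivFin L).symm i) : ℂ) ^ (1 / 6 - s)) =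
          ∑ i, D.cL i * (D.qL i : ℂ) ^ (1 / 6 - s) :=
        Equiv.sum_comp (Fintype.equivFin L).symm
          (fun i => D.cL i * (D.qL i : ℂ) ^ (1 / 6 - s))
      change (∑ i : Fin (Fintype.card L), D.cL ((Fintype.equivFin L).symm i) *
          (D.qL ((Fintype.equivFin L).symm i) : ℂ) ^ (1 / 6 - s)) ≠ 0
      rw [h2]
      exact h1
  · intro V hV
    obtain ⟨W, hW, hid⟩ := hFE V hV
    refine ⟨fun i => W ((Fintype.equivFin ι).symm i), fun i => hW _, ?_⟩
    intro a ha Q hQ τ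
    have ha4 : Sm M (a ^ 4) := ha.pow 4
    have h1 := hid (a ^ 4) ha4 Q hQ τ
    have hnm : (nm (a ^ 4) : ℝ) = (nm a : ℝ) ^ 4 := by rw [nm_pow]; push_cast; rfl
    have hsq : Real.sqrt (nm (a ^ 4)) = (nm a : ℝ) ^ 2 := by
      rw [hnm, show (nm a : ℝ) ^ 4 = ((nm a : ℝ) ^ 2) ^ 2 by ring, Real.sqrt_sq (by positivity)]
    rw [hsq, hnm] at h1
    -- left side
    have hL : ∑ j : Fin (Fintype.card L), D.cL ((Fintype.equivFin L).symm j) *
        Psi M (fun e => if Sm M e then xiE ψ l e else 0) (End699.tw ψ l) a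
          (fun y => (y : ℂ) ^ (I * τ) * V y) (Q / D.qL ((Fintype.equivFin L).symm j)) =
        ∑ j, D.cL j * PsiE M (xiE ψ l) (End699.tw ψ l) (a ^ 4)
          (fun y => (y : ℂ) ^ (I * τ) * V y) (Q / D.qL j) := by
      rw [Equiv.sum_comp (Fintype.equivFin L).symm (fun j => D.cL j *
        Psi M (fun e => if Sm M e then xiE ψ l e else 0) (End699.tw ψ l) a
          (fun y => (y : ℂ) ^ (I * τ) * V y) (Q / D.qL j))]
      refine Finset.sum_congr rfl fun j _ => ?_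
      congr 1
      unfold Psi PsiE
      refine tsum_congr fun e => ?_
      by_cases he : Sm M e
      · rw [if_pos he, if_pos he]
        simp only [if_pos he]
        rfl
      · rw [if_neg he, if_neg he]
    -- right side
    have hR : ∑ i : Fin (Fintype.card ι), D.κ ((Fintype.equivFin ι).symm i) *
        End699.tw (fun a => D.η ((Fintype.equivFin ι).symm i) a ^ 4) (4 * D.j) a *
          Psi' M (End699.tw (D.ψ' ((Fintype.equivFin ι).symm i)) D.l') a
            (W ((Fintype.equivFin ι).symm i) τ)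
            (D.ρ ((Fintype.equivFin ι).symm i) * (nm a : ℝ) ^ 4 / Q) =
        ∑ i, D.κ i * End699.tw (D.η i) D.j (a ^ 4) *
          PsiF M (End699.tw (D.ψ' i) D.l') (a ^ 4) (W i τ) (D.ρ i * (nm a : ℝ) ^ 4 / Q) := by
      rw [Equiv.sum_comp (Fintype.equivFin ι).symm (fun i => D.κ i *
        End699.tw (fun a => D.η i a ^ 4) (4 * D.j) a *
          Psi' M (End699.tw (D.ψ' i) D.l') a (W i τ) (D.ρ i * (nm a : ℝ) ^ 4 / Q))]
      refine Finset.sum_congr rfl fun i _ => ?_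
      have e1 : End699.tw (fun a => D.η i a ^ 4) (4 * D.j) a = End699.tw (D.η i) D.j (a ^ 4) := by
        unfold End699.tw
        have e2 : D.η i (a ^ 4) = D.η i a ^ 4 := by
          have hc := (hD.η i).char
          have hp := ha.1
          have h2 := hc.mul a a hp hp
          have h3 := hc.mul (a * a) (a * a) (hp.mul hp) (hp.mul hp)
          have : a ^ 4 = (a * a) * (a * a) := by ring
          rw [this, h3, h2]
          ring
        have e3 : ang D.j (a ^ 4) = ang (4 * D.j) a := by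
          rw [ang_pow_right, ang_pow]
          norm_num
        rw [e2, e3]
      rw [e1]
      rfl
    change ∑ j : Fin (Fintype.card L), D.cL ((Fintype.equivFin L).symm j) *
        Psi M (fun e => if Sm M e then xiE ψ l e else 0) (End699.tw ψ l) a
          (fun y => (y : ℂ) ^ (I * τ) * V y) (Q / D.qL ((Fintype.equivFin L).symm j)) =
      ((Q / (nm a : ℝ) ^ 2 : ℝ) : ℂ) *
        ∑ i : Fin (Fintype.card ι), D.κ ((Fintype.equivFin ι).symm i) *
        End699.tw (fun a => D.η ((Fintype.equivFin ι).symm i) a ^ 4) (4 * D.j) a *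
          Psi' M (End699.tw (D.ψ' ((Fintype.equivFin ι).symm i)) D.l') a
            (W ((Fintype.equivFin ι).symm i) τ)
            (D.ρ ((Fintype.equivFin ι).symm i) * (nm a : ℝ) ^ 4 / Q)
    rw [hL, hR]
    exact h1
  · have h1 := hD.rel
    change 4 * D.l' + 4 * D.j = -4
    omega

end Crest.Agent.R017.A590
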