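import Crest.Agent.R017.EndA4_92

/-!
# Row 17, section A, end of A, part 5 (helper92): `EndHyp M ψ0 l → HasFE M ψ0 l`
-/

set_option autoImplicit false

noncomputable section

open MeasureTheory Complex Set Filter
open scoped ComplexConjugate SchwartzMap ContDiff Topology

namespace Crest.Agent.R017.EndA92

open Crest.Agent.R012 Crest.Agent.R012.Eis Crest.Agent.R012.K695 Crest.Agent.R012.Gauss880
open Crest.Agent.R012.Mob705
open Crest.Agent.R012.Parseval499 Crest.Agent.R012.FourCoef499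
open Crest.Agent.R017.Xn590 Crest.Agent.R017.Coef92 Crest.Agent.R017.Orth681
open Crest.Agent.R017.Glue681 Crest.Agent.R017.Wt92 Crest.Agent.R017.XiI590
open Crest.Agent.R017.B770 Crest.Agent.R017.A590 Crest.Agent.R017.Rw266
open Crest.Agent.R017.Sx440 Crest.Agent.R017.Sx545 Crest.Agent.R017.Loc266
open Crest.Agent.R017.FinA266 Crest.Agent.R017.QS411 Crest.Agent.R017.Tw266 Crest.Agent.R017.Kub664
open Crest.Agent.R017.End699 (HC)
open Crest.Agent.R017.HcExp266 (isUnit_mkQ exists_hc_expansion hc_of_isCh)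

/-- the glue data at one class, as a structure -/
structure EX (N x : Eis) (s κx : ℂ) (ξ ψ γ : Eis → ℂ) (L : ℤ) (A B : ℕ) where
  K : Type
  J : Type
  fK : Fintype K
  fJ : Fintype J
  V : ℝ
  h0 : ℂ
  b0 : ℂ
  b0' : ℂ
  hk : K → Eis
  cr : K → J → ℂ
  br : J → ℂ
  C : XnC 6 s κx V h0 b0 b0'
  ss : ∀ k, Ss N (hk k)
  ne : ∀ j, br j ≠ 0
  fe : ∀ f : ℂ → ℂ, DatN 6 s ξ f → Rot L f → ∀ (k0 : 𝓢(ℂ, ℂ)) (y : ℂ),
      EC (rowA N x fun c => ψ c * γ c) (FPn 6 ξ (fLw ξ A B f) k0) (stF y) =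
        ∑ k, EC (rowA N x (gdual ψ γ (hk k)))
          (FOn 6 ξ V h0 b0 (lin Finset.univ (cr k) br f) k0) (stF y)

attribute [instance] EX.fK EX.fJ

variable {N x : Eis} {s κx : ℂ} {ξ ψ γ : Eis → ℂ} {L : ℤ} {A B : ℕ}

lemma nonempty_EX (h : EndX N x s κx ξ ψ γ L A B) : Nonempty (EX N x s κx ξ ψ γ L A B) := by
  obtain ⟨K, J, fK, fJ, V, h0, b0, b0', hk, cr, br, C, ss, ne, fe⟩ := h
  exact ⟨⟨K, J, fK, fJ, V, h0, b0, b0', hk, cr, br, C, ss, ne, fe⟩⟩

/-! ### the dual characters -/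

lemma rho2_mul_self' (a b : Eis) : rho2 a b * conj (rho2 a b) = 1 := by
  rw [conj_rho2, rho2_sq]

lemma eps2_mul {a b : Eis} (ha : Gd a) (hb : Gd b) :
    LS848.eps2 (a * b) = LS848.eps2 a * LS848.eps2 b * rho2 a b := by
  rw [LS848.eps2_eq_kap4 ha.1 ha.2, LS848.eps2_eq_kap4 hb.1 hb.2,
    LS848.eps2_eq_kap4 (ha.mul hb).1 (ha.mul hb).2]
  exact (GmK411.gm_kap4 (N := 4) dvd_rfl).mul a b ha.2 hb.2

lemma sy_one (k : Eis) : sy k 1 = 1 := by
  rw [← sy6_sq R012.isPrim_one od_one, sy6_one_right, one_pow]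

/-- the dual character as a character modulo `N`. -/
lemma exists_psD (hN : Lev N) (hψ : IsCh N ψ) (hγ : Gm N γ) {k : Eis} (hk : Ss N k) :
    ∃ ψ' : Eis → ℂ, IsCh N ψ' ∧
      ∀ c, Gd c → IsCoprime c N → ψ' c = psD N (gdual ψ γ k) c := by
  have hS := (ss_self hN).mul (ss_sq3 hN)
  refine exists_ext hN ?_ ?_ ?_
  · unfold psD gdual
    rw [hψ.one, hγ.one, sy6_one_right, sy_one, sy6_one_right, sy_one,
      LS848.eps2_eq_kap4 R012.isPrim_one od_one, kap4_one]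
    simp
  · intro a b ha hb _ _
    unfold psD gdual
    rw [hψ.mul, hγ.mul a b ha.2 hb.2, sy6_mul_right _ ha.ne hb.ne, sy6_mul_right _ ha.ne hb.ne,
      Char766.sy_mul_right ha.1 hb.1, Char766.sy_mul_right ha.1 hb.1, eps2_mul ha hb]
    have h1 := rho2_mul_self' a b
    have h2 := conj_rho2 a b
    simp only [map_mul, Complex.conj_conj]
    rw [h2] at h1 ⊢
    linear_combination (ψ a * ψ b * γ a * γ b * conj (sy6 (-1) a) * conj (sy6 (-1) b) * sy k a *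
      sy k b * conj (sy6 (N * sq3) a) * conj (sy6 (N * sq3) b) * sy 2 a * sy 2 b *
      conj (LS848.eps2 a) * conj (LS848.eps2 b)) * h1
  · intro a b ha hb _ _ hab
    unfold psD gdual
    rw [hψ.per.congr hab, hγ.per.congr hab,
      per_S hN (ss_neg_one (N := N)).ne (ss_neg_one (N := N)).pr ha.g6 hb.g6 hab,
      sy_per hN hk.ne hk.pr ha hb hab, per_S hN hS.ne hS.pr ha.g6 hb.g6 hab,
      sy_per hN (ss_two hN).ne (ss_two hN).pr ha hb hab,
      LS848.eps2_eq_kap4 ha.1 ha.2, LS848.eps2_eq_kap4 hb.1 hb.2,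
      (GmK411.gm_kap4' hN).per.congr hab]

lemma hc_mono {χ : Eis → ℂ} (h : HC N χ) {M' : Eis} (hM' : M' ≠ 0) (hd : N ∣ M')
    (hcop : ∀ c, IsCoprime c N → IsCoprime c M') : HC M' χ where
  q0 := hM'
  three := h.three.trans hd
  char := h.char
  per a b ha hb hab := h.per a b ha hb (hd.trans hab)
  van a ha hc := h.van a ha fun h' => hc (hcop a h')

/-! ### periodicity in `d` -/

lemma rowA_pmod (hN : Lev N) {g : Eis → ℂ} (c : Eis) :
    PMod (N * c) (fun d => rowA N x g (c, d)) := by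
  classical
  intro d t
  unfold rowA
  simp only
  by_cases hc : Gd c ∧ IsCoprime c N
  · rw [if_pos hc, if_pos hc]
    have e1 : ea N x ((d + N * c * t) * ivN N c) = ea N x (d * ivN N c) :=
      ea_congr_right hN.ne ⟨c * t * ivN N c, by ring⟩
    have e2 : sy6 (d + N * c * t) c = sy6 d c :=
      sy6_congr hc.1.1 hc.1.2 ⟨N * t, by ring⟩
    rw [e1, e2]
  · rw [if_neg hc, if_neg hc]

/-! ### the functional equation at one class -/

lemma rot_lin {J : Type*} {f : ℂ → ℂ} (h : Rot L f) (S : Finset J) (c b : J → ℂ) :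
    Rot L (lin S c b f) := by
  intro u hu y
  unfold lin
  rw [Finset.mul_sum]
  refine Finset.sum_congr rfl fun j _ => ?_
  have : b j * (u * y) = u * (b j * y) := by ring
  rw [this, h u hu]
  ring

lemma rot_fQ (V : ℝ → ℂ) (L : ℤ) (τ Q : ℝ) : Rot L (fQ V L τ Q) := by
  intro u hu y
  unfold fQ
  rw [mul_div_assoc, rot_wt _ L u hu]
  ring

lemma norm_gdual_le (hN : Lev N) (hψ : IsCh N ψ) (hγ : Gm N γ) {k c : Eis} (hc : Gd c)
    (hcN : IsCoprime c N) (hk : Ss N k) : ‖gdual ψ γ k c‖ ≤ 1 := by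
  unfold gdual
  rw [norm_mul, norm_mul, RCLike.norm_conj, RCLike.norm_conj, norm_mul, norm_isCh hN.ne hψ hcN,
    hγ.norm c hc.2, norm_sy' hc (hk.cop hcN)]
  have := norm_sy6_le hc.1 hc.2 (-1)
  linarith

/-- coefficients of the right side -/
def kR (ξ : Eis → ℂ) (l : ℤ) {km : ℕ} (μ : Fin km → ℂ) (d : Fin km → Eis)
    (E : EX N x s κx ξ ψ γ L A B) (p : E.K × (E.J × Fin km)) : ℂ :=
  conj (cfD ξ μ d (E.cr p.1) E.br p.2) * kD N l (bD d E.br p.2)

theorem class_FE {M ν : Eis} {ψ0 : Eis → ℂ} {V : ℝ → ℂ} {l : ℤ} {τ Q : ℝ} {cx : ℂ}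
    (hV : VD V) (hQ : 0 < Q) (hl : l ≠ -1) (hP : XiP ξ κx cx)
    (hu : ∀ u, IsUnit u → ξ u = 1) (h2 : (2 : Eis) ∣ M) (h3 : (3 : Eis) ∣ M) {km : ℕ}
    {μ : Fin km → ℂ} {d : Fin km → Eis}
    (hMob : Mob M km μ d) (hξψ : ∀ e, Sm M e → conj (ξ e) = ψ0 e ^ 6) (hN : Lev N)
    (hν : ν ≠ 0) (hx : N ∣ x + ν) (hSm : ∀ c, Sm M c ↔ (Gd c ∧ IsCoprime c N))
    (hψ : IsCh N ψ) (hγ : Gm N γ)
    (hg : ∀ c, Sm M c → conj (ψ c * γ c * sy6 (N * sq3) c) = ψ0 c * conj (sy 2 c) * LS848.eps2 c)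
    (E : EX N x ((-1) ^ (-(l + 1))) κx ξ ψ γ (-(l + 1)) A B) {ψD : E.K → Eis → ℂ}
    (hψD : ∀ k c, Gd c → IsCoprime c N → ψD k c = psD N (gdual ψ γ (E.hk k)) c) :
    ∑ j : JJ A B, cE N ξ l j *
        PsiE M (xiE ψ0 l) (End699.tw ψ0 l) ν (fun y => (y : ℂ) ^ (I * τ) * V y) (Q / qE j) =
      ((Q / Real.sqrt (nm ν) : ℝ) : ℂ) * ∑ p : E.K × (E.J × Fin km),
        kR ξ l μ d E p * ang (l + 1) ν *
          PsiF M (End699.tw (ψD p.1) (-(l + 2))) ν (Wd ξ E.V E.h0 E.b0 (-(l + 1)) V τ)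
            (rhoD N (bD d E.br p.2) * nm ν / Q) := by
  have hL : -(l + 1) ≠ 0 := by omega
  set f : ℂ → ℂ := redf 6 ξ km μ d (fQ V (-(l + 1)) τ Q) with hf
  have hfQ : DatN 6 ((-1) ^ (-(l + 1))) ξ (fQ V (-(l + 1)) τ Q) :=
    fQ_dat hV hL τ hQ (by norm_num) ξ
  have hfd : DatN 6 ((-1) ^ (-(l + 1))) ξ f :=
    datN_lin (by norm_num) hfQ _ _ _ fun i _ => hMob.b_ne i
  have hrot : Rot (-(l + 1)) f := rot_lin (rot_fQ V _ τ Q) _ _ _
  have h1 := coef_fam (s := (-1) ^ (-(l + 1))) hP E.C (K := E.K)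
    (a := rowA N x fun c => ψ c * γ c) (a' := fun k => rowA N x (gdual ψ γ (E.hk k)))
    (f₁ := fLw ξ A B f) (f' := fun k => lin Finset.univ (E.cr k) E.br f)
    (datN_L hfd) (fun k => datN_lin (by norm_num) hfd _ _ _ fun j _ => E.ne j)
    (cof_psi hN x hψ hγ).bdd (fun k => (cof_gdual hN x hψ hγ (E.ss k)).bdd)
    (N := N) (ν := ν) hN.ne (fun c _ => rowA_pmod hN c) (fun k c _ => rowA_pmod hN c)
    (fun k0 y => E.fe f hfd hrot k0 y) hν
  have h4 := left_all (A := A) (B := B) (τ := τ) hV hQ hP.mul hu h3 hMob hξψ hN hx hSm hg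
    (l := l)
  rw [← h4, ← hf, h1, map_sum, Fintype.sum_prod_type, Finset.mul_sum]
  refine Finset.sum_congr rfl fun k _ => ?_
  rw [hf, right_eval hP hV hl E.C.h0 h2 hN hMob hSm hx hν E.ne (fun c hc => norm_gdual_le hN hψ hγ
    ((hSm c).mp hc).1 ((hSm c).mp hc).2 (E.ss k)) τ hQ]
  congr 1
  refine Finset.sum_congr rfl fun p _ => ?_
  have e1 : ∀ X : ℝ, PsiF M (End699.tw (ψD k) (-(l + 2))) ν (Wd ξ E.V E.h0 E.b0 (-(l + 1)) V τ) X =
      PsiF M (End699.tw (psD N (gdual ψ γ (E.hk k))) (-(l + 2))) ν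
        (Wd ξ E.V E.h0 E.b0 (-(l + 1)) V τ) X := by
    intro X
    refine psiF_congr (fun c hc => ?_) ν _ _
    unfold End699.tw
    rw [hψD k c ((hSm c).mp hc).1 ((hSm c).mp hc).2]
  unfold kR
  rw [e1]

/-! ### assembly -/

lemma hg_of (hN : Lev N) {M : Eis} {ψ0 : Eis → ℂ} (hSm : ∀ c, Sm M c ↔ (Gd c ∧ IsCoprime c N))
    (hrow : RowC N ψ0 ψ) (c : Eis) (hc : Sm M c) :
    conj (ψ c * conj (kap4 c) * sy6 (N * sq3) c) = ψ0 c * conj (sy 2 c) * LS848.eps2 c := by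
  obtain ⟨hgd, hcN⟩ := (hSm c).mp hc
  have hS := (ss_self hN).mul (ss_sq3 hN)
  have h1 := sy6_mul_conj hgd (hS.cop hcN)
  rw [hrow c hgd hcN, LS848.eps2_eq_kap4 hgd.1 hgd.2]
  simp only [map_mul, Complex.conj_conj]
  linear_combination (ψ0 c * conj (sy 2 c) * kap4 c) * h1

open Classical in
/-- **End of A.** -/
theorem hasFE_of_endHyp (M : Eis) (ψ0 : Eis → ℂ) (l : ℤ) (h36 : (36 : Eis) ∣ M) (h0 : HC M ψ0)
    (hl : l ≠ -1) (h : EndHyp M ψ0 l) : HasFE M ψ0 l := by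
  obtain ⟨N, ψ, ξ, κx, cx, A, B, hN, hpr, hψ, hrow, hP, hu, hξψ, hA, hB, hX⟩ := h
  have hM := h0.q0
  have h3 := h0.three
  have h2 : (2 : Eis) ∣ M := Dvd.dvd.trans ⟨18, by norm_num⟩ h36
  have hcop : ∀ c, IsCoprime c N ↔ IsCoprime c M := cop_of_primes hM hN.ne hpr
  have hSm : ∀ c, Sm M c ↔ (Gd c ∧ IsCoprime c N) := fun c =>
    ⟨fun hc => ⟨⟨hc.1, od_of_cop_lev hN ((hcop c).mpr hc.2)⟩, (hcop c).mpr hc.2⟩,
      fun hc => ⟨hc.1.1, (hcop c).mp hc.2⟩⟩
  obtain ⟨km, μ, d, hMob⟩ := exists_Mob hM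
  have hγ : Gm N (fun c => conj (kap4 c)) := GmK411.gm_conj_kap4' hN
  have hM' : M * N ≠ 0 := mul_ne_zero hM hN.ne
  have h3N : (3 : Eis) ∣ N := three_dvd_72.trans hN.d72
  have hcopM' : ∀ c, IsCoprime c N → IsCoprime c (M * N) := fun c hc =>
    ((hcop c).mp hc).mul_right hc
  have hL : -(l + 1) ≠ 0 := by omega
  -- the classes
  have hfin : Finite (QE N) := finite_QE hN.ne
  let X : Type := {q : QE N // IsUnit q}
  let _ : Fintype X := Fintype.ofFinite X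
  have hrep : ∀ q : X, ∃ x, mkQ N x = q.1 ∧ IsCoprime x N := by
    rintro ⟨q, hq⟩
    obtain ⟨x, rfl⟩ := mkQ_surjective N q
    exact ⟨x, rfl, isUnit_mkQ.mp hq⟩
  choose xr hxr hxc using hrep
  have hEn : ∀ q : X, Nonempty (EX N (xr q) ((-1) ^ (-(l + 1))) κx ξ ψ
      (fun c => conj (kap4 c)) (-(l + 1)) A B) := fun q => nonempty_EX (hX _ (hxc q))
  let E := fun q : X => Classical.choice (hEn q)
  have hD : ∀ (q : X) (k : (E q).K), ∃ ψ' : Eis → ℂ, IsCh N ψ' ∧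
      ∀ c, Gd c → IsCoprime c N → ψ' c = psD N (gdual ψ (fun c => conj (kap4 c)) ((E q).hk k)) c :=
    fun q k => exists_psD hN hψ hγ ((E q).ss k)
  choose ψD hψD1 hψD2 using hD
  have hI : ∀ q : X, ∃ (n : ℕ) (κ : Fin n → ℂ) (η : Fin n → Eis → ℂ), (∀ i, HC (M * N) (η i)) ∧
      ∀ a, IsPrim a → IsCoprime a (M * N) →
        (if N ∣ xr q + a then (1 : ℂ) else 0) = ∑ i, κ i * η i a := by
    intro q
    refine exists_hc_expansion hM' (h3.mul_right N) fun a b _ _ _ _ hab => ?_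
    have hab' : N ∣ a - b := (dvd_mul_left N M).trans hab
    have : (N ∣ xr q + a) ↔ (N ∣ xr q + b) := by
      constructor
      · intro h
        have := dvd_sub h hab'
        rwa [show xr q + a - (a - b) = xr q + b by ring] at this
      · intro h
        have := dvd_add h hab'
        rwa [show xr q + b + (a - b) = xr q + a by ring] at this
    simp only [this]
  choose nq κq ηq hηq hκq using hI
  refine ⟨Σ q : X, Fin (nq q) × ((E q).K × ((E q).J × Fin km)), JJ A B, inferInstance,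
    inferInstance,
    { M' := M * N
      κ := fun i => κq i.1 i.2.1 * kR ξ l μ d (E i.1) i.2.2
      η := fun i => ηq i.1 i.2.1
      ψ' := fun i => ψD i.1 i.2.2.1
      j := l + 1
      l' := -(l + 2)
      ρ := fun i => rhoD N (bD d (E i.1).br i.2.2.2)
      cL := cE N ξ l
      qL := qE }, ?_, ?_⟩
  · exact
      { ne := hM'
        dvd := dvd_mul_right M N
        rad := fun p hp hd => by
          rcases hp.dvd_or_dvd hd with h | h
          · exact h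
          · exact (hpr p hp).mp h
        η := fun i => hηq i.1 i.2.1
        ψ' := fun i => hc_mono (hc_of_isCh hN.ne h3N (hψD1 i.1 i.2.2.1)) hM' (dvd_mul_left N M)
          hcopM'
        ρ := fun i => rhoD_pos hN.ne (mul_ne_zero (hMob.b_ne _) ((E i.1).ne _))
        qL := fun j => one_le_qE j
        nz := fun s hs => nzE hN.ne hP.le1 hA hB l hs
        j0 := by show l + 1 ≠ 0; omega
        lj := by show -(l + 2) + 4 * (l + 1) ≠ 0; omega
        rel := by show -(l + 2) + (l + 1) = -1; ring }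
  · intro V hV
    have hVD := vd_sw hV
    refine ⟨fun i => Wd ξ (E i.1).V (E i.1).h0 (E i.1).b0 (-(l + 1)) V,
      fun i => rd_Wd hP hVD (E i.1).C.h0 hL, ?_⟩
    intro ν hν Q hQ τ
    have hν0 : ν ≠ 0 := ne_zero_of_sm hν
    have hνN : IsCoprime ν N := ((hSm ν).mp hν).2
    have hνM' : IsCoprime ν (M * N) := hcopM' ν hνN
    have hun : IsUnit (mkQ N (-ν)) := isUnit_mkQ.mpr hνN.neg_left
    set q0 : X := ⟨mkQ N (-ν), hun⟩ with hq0
    have hx0 : N ∣ xr q0 + ν := by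
      have h1 := mkQ_eq_iff.mp (hxr q0)
      rwa [sub_neg_eq_add] at h1
    have hxq : ∀ q : X, N ∣ xr q + ν → q = q0 := by
      intro q hq
      apply Subtype.ext
      rw [← hxr q, ← hxr q0, mkQ_eq_iff]
      have := dvd_sub hq hx0
      rwa [show xr q + ν - (xr q0 + ν) = xr q - xr q0 by ring] at this
    have key := class_FE (A := A) (B := B) (τ := τ) hVD hQ hl hP hu h2 h3 hMob hξψ hN hν0 hx0 hSm
      hψ hγ (hg_of hN hSm hrow) (E q0) (hψD2 q0)
    refine key.trans ?_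
    congr 1
    rw [Fintype.sum_sigma]
    set S : X → ℂ := fun q => ∑ p : (E q).K × ((E q).J × Fin km),
        kR ξ l μ d (E q) p * ang (l + 1) ν *
          PsiF M (End699.tw (ψD q p.1) (-(l + 2))) ν
            (Wd ξ (E q).V (E q).h0 (E q).b0 (-(l + 1)) V τ)
            (rhoD N (bD d (E q).br p.2) * nm ν / Q) with hS
    have e1 : ∀ q : X, ∑ y : Fin (nq q) × ((E q).K × ((E q).J × Fin km)),
        κq q y.1 * kR ξ l μ d (E q) y.2 * End699.tw (ηq q y.1) (l + 1) ν *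
          PsiF M (End699.tw (ψD q y.2.1) (-(l + 2))) ν
            (Wd ξ (E q).V (E q).h0 (E q).b0 (-(l + 1)) V τ)
            (rhoD N (bD d (E q).br y.2.2) * nm ν / Q) =
        (if N ∣ xr q + ν then (1 : ℂ) else 0) * S q := by
      intro q
      rw [hκq q ν hν.1 hνM', hS, Finset.sum_mul_sum, Fintype.sum_prod_type]
      refine Finset.sum_congr rfl fun i _ => Finset.sum_congr rfl fun p _ => ?_
      unfold End699.tw
      ring
    rw [Finset.sum_congr rfl fun q _ => e1 q, Finset.sum_eq_single q0]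
    · rw [if_pos hx0, one_mul]
    · intro q _ hq
      rw [if_neg (fun h => hq (hxq q h)), zero_mul]
    · intro h; exact absurd (Finset.mem_univ _) h

end Crest.Agent.R017.EndA92
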