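import Crest.Agent.R017.GL1_64

/-!
# Row 17 (A.loc): the block at `λ = √-3`, tables

* `SL_cubic` : `ψ(lf (1 + λ² y)) = e(β y/λ³)`, `t = ± ω^i λ^l q` : the value of `SL t`
* `SL_low`, `SL_j`, `SL_j1`, `SL_high` : by cases on `l`
* `SL_pure_supp`, `SL_pure_norm`, `SL_pure` : conductor exactly `λ^{j+4}`, `j ≥ 1`
-/

set_option autoImplicit false

noncomputable section

open Complex
open scoped ComplexConjugate

namespace Crest.Agent.R017.GL64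

open Crest.Agent.R012 Crest.Agent.R012.Eis Crest.Agent.R012.Gauss880 Crest.Agent.R017.Loc266
open Crest.Agent.R017.Sx440 Crest.Agent.R017.Kub664 Crest.Agent.R017.Tw266
open Crest.Agent.R017.Rw266 Crest.Agent.R017.GG90 Crest.Agent.R017.LamP64

variable {B e : Eis} {j : ℕ}

lemma ea_pow (m r x : Eis) (n : ℕ) : ea m r x ^ n = ea m ((n : Eis) * r) x := by
  induction n with
  | zero =>
    rw [pow_zero, Nat.cast_zero, zero_mul, ea_comm, ea_zero]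
  | succ n ih =>
    rw [pow_succ, ih, ← ea_add_left]
    congr 1; push_cast; ring

lemma conj_sy_w_one_add (y : Eis) : conj (sy w (1 + sq3 ^ 2 * y)) = ea (sq3 ^ 2) (-sq3) y := by
  rw [sy_w_one_add, star_ea]

lemma conj_sy_sq3_one_add (y : Eis) : conj (sy sq3 (1 + sq3 ^ 2 * y)) = ea (sq3 ^ 2) 1 y := by
  rw [sy_sq3_one_add, star_ea, neg_neg]

/-- unit `S`-parts are `S`-units -/
lemma su_std {N s q : Eis} {i l : ℕ} (hN : sq3 ∣ N) (hs : s = 1 ∨ s = -1) (hqs : SU N q) :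
    SU N (s * w ^ i * sq3 ^ l * q) := by
  have hsu : IsUnit s := by rcases hs with rfl | rfl; exacts [isUnit_one, isUnit_one.neg]
  have h1 : SU N (s * w ^ i) :=
    SU.of_isUnit (hsu.mul (Crest.Agent.R017.GG90.isUnit_w.pow i))
  have h2 : SU N (sq3 ^ l) := by
    refine ⟨sq3_pow_ne l, fun p hp hd => ?_⟩
    exact (hp.dvd_of_dvd_pow hd).trans hN
  exact (h1.mul h2).mul hqs

section

variable (H : Lvl (sq3 ^ (j + 4)) B e)
include H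

variable {ψ γ : Eis → ℂ} {s q t x e' : Eis} {i l : ℕ}

lemma sq3_dvd_N : sq3 ∣ sq3 ^ (j + 4) * B := by
  exact (dvd_pow_self sq3 (by omega)).mul_right B

lemma per_chi (hψ : IsCh (sq3 ^ (j + 4) * B) ψ) (hγ : Gam4 γ) (ht : SU (sq3 ^ (j + 4) * B) t) :
    PMod (sq3 ^ (j + 4)) (fun c => conj (QQ (sq3 ^ (j + 4) * B) ψ γ t (lf e c))) := by
  intro c y
  beta_reduce
  rw [QQ_congr H.lev hψ hγ ht (lf_congr H.toBlk (show sq3 ^ (j + 4) ∣ (c + sq3 ^ (j + 4) * y) - c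
    from ⟨y, by ring⟩))]

/-- **the table, cubic type** -/
theorem SL_cubic (hψ : IsCh (sq3 ^ (j + 4) * B) ψ) (hγ : Gam4 γ) {β : Eis}
    (hβ : ∀ y, ψ (lf e (1 + sq3 ^ 2 * y)) = ea (sq3 ^ 2) β y) (hs : s = 1 ∨ s = -1)
    (hq : IsPrim q) (hqs : SU (sq3 ^ (j + 4) * B) q) (he : e = B * e')
    (htt : t = s * w ^ i * sq3 ^ l * q) :
    open Classical in
    SL (sq3 ^ (j + 4) * B) (sq3 ^ (j + 4)) e x ψ γ t =
      if sq3 ^ (j + 2) ∣ -(x * e' * t) + ((i : Eis) * sq3 - l - β) * sq3 ^ j then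
        (3 : ℂ) ^ (j + 2) * ea (sq3 ^ (j + 4)) (-(x * e' * t)) 1 else 0 := by
  classical
  have hsu : SU (sq3 ^ (j + 4) * B) t := by
    rw [htt]; exact su_std (sq3_dvd_N H) hs hqs
  rw [SL_eq_Sl H hψ hγ hsu he]
  have hχ : ∀ y, (fun c => conj (QQ (sq3 ^ (j + 4) * B) ψ γ t (lf e c))) (1 + sq3 ^ 2 * y)
      = ea (sq3 ^ 2) ((i : Eis) * sq3 - l - β) y := by
    intro y
    beta_reduce
    rw [htt, QQ_lf H hγ hs hq hqs (prim_one_add y), hβ, conj_sy_w_one_add, conj_sy_sq3_one_add,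
      ea_pow, ea_pow, ← ea_add_left, ← ea_add_left, star_ea]
    congr 1; ring
  rw [Sl_cubic (per_chi H hψ hγ hsu) hχ]

omit H in
lemma dvd_low {z1 b : Eis} {l : ℕ} (hl : l < j) (h1 : ¬ sq3 ∣ z1) :
    ¬ sq3 ^ (j + 2) ∣ -(sq3 ^ l * z1) + b * sq3 ^ j := by
  intro h
  obtain ⟨m, rfl⟩ : ∃ m, j = l + 1 + m := ⟨j - (l + 1), by omega⟩
  obtain ⟨u, hu⟩ := h
  apply h1
  have h2 : sq3 ^ l * z1 = sq3 ^ l * (sq3 * (sq3 ^ m * b - sq3 ^ (m + 2) * u)) := by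
    have e1 : sq3 ^ (l + 1 + m + 2) = sq3 ^ l * sq3 * sq3 ^ (m + 2) := by ring
    have e2 : sq3 ^ (l + 1 + m) = sq3 ^ l * sq3 * sq3 ^ m := by ring
    rw [e1, e2] at hu
    linear_combination -hu
  exact ⟨_, mul_left_cancel₀ (sq3_pow_ne l) h2⟩

omit H in
lemma dvd_j {z1 b : Eis} :
    sq3 ^ (j + 2) ∣ -(sq3 ^ j * z1) + b * sq3 ^ j ↔ (3 : Eis) ∣ b - z1 := by
  rw [show -(sq3 ^ j * z1) + b * sq3 ^ j = sq3 ^ j * (b - z1) by ring, pow_add,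
    mul_dvd_mul_iff_left (sq3_pow_ne j), sq3_two_dvd_iff]

omit H in
lemma dvd_j1 {z1 b : Eis} :
    sq3 ^ (j + 2) ∣ -(sq3 ^ (j + 1) * z1) + b * sq3 ^ j ↔ (3 : Eis) ∣ b - sq3 * z1 := by
  rw [show -(sq3 ^ (j + 1) * z1) + b * sq3 ^ j = sq3 ^ j * (b - sq3 * z1) by ring, pow_add,
    mul_dvd_mul_iff_left (sq3_pow_ne j), sq3_two_dvd_iff]

omit H in
lemma dvd_high {z1 b : Eis} {l : ℕ} (hl : j + 2 ≤ l) :
    sq3 ^ (j + 2) ∣ -(sq3 ^ l * z1) + b * sq3 ^ j ↔ (3 : Eis) ∣ b := by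
  obtain ⟨m, rfl⟩ : ∃ m, l = j + 2 + m := ⟨l - (j + 2), by omega⟩
  rw [show -(sq3 ^ (j + 2 + m) * z1) + b * sq3 ^ j = sq3 ^ j * (b - sq3 ^ 2 * (sq3 ^ m * z1)) by
    ring, pow_add, mul_dvd_mul_iff_left (sq3_pow_ne j),
    dvd_sub_left (dvd_mul_right _ _), sq3_two_dvd_iff]

omit H in
lemma not_sq3_dvd_of_prim {q : Eis} (hq : IsPrim q) : ¬ sq3 ∣ q := by
  intro h3
  have h4 : IsCoprime q (sq3 ^ (0 + 4)) := (adm_iff (j := 0).mpr hq).1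
  have h5 : IsCoprime sq3 sq3 := IsCoprime.of_isCoprime_of_dvd_left
    (IsCoprime.of_isCoprime_of_dvd_right h4 (dvd_pow_self sq3 (by omega))) h3
  exact prime_sq3.not_isUnit (isCoprime_self.mp h5)

omit H in
lemma not_sq3_dvd_unit {u : Eis} (hu : IsUnit u) : ¬ sq3 ∣ u := fun h =>
  prime_sq3.not_isUnit (isUnit_of_dvd_unit h hu)

end

end Crest.Agent.R017.GL64
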