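import Crest.Agent.R017.Loc2_266

/-!
# Row 17, sextic F2: local Gauss sums of characters of small conductor

`gl χ v N = Σ_{x mod N} χ(x) e(v x / (√-3 N))` for `N = m d`, `χ` periodic modulo `m`:

* `gl_level_mul` : `gl χ (d u) (m d) = N(d) gl χ u m`
* `gl_level_zero` : `gl χ v (m d) = 0` unless `d ∣ v`

and for a prime `p`, `χ` a character modulo `p` (`Pr p χ` : principal):

* `gl_pr_one` : `gl χ u p = -1`, `p ∤ u`, `χ` principal
* `gl_pr_dvd` : `gl χ u p = N(p) - 1`, `p ∣ u`, `χ` principal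
* `gl_npr_dvd` : `gl χ u p = 0`, `p ∣ u`, `χ` not principal
* `gl_cop` : `gl χ u p = conj (χ u) gl χ 1 p`, `p ∤ u`
* `norm_gl_sq_npr` : `‖gl χ 1 p‖² = N(p)`
* `gl_sq_quad` : `gl χ 1 p ^ 2 = χ (-1) N(p)` for `χ` quadratic.

The tables modulo `p ^ (r+1)`: `gl_pow_lt`, `gl_pow_eq`, `gl_pow_ge`.
-/

set_option autoImplicit false

noncomputable section

open Complex
open scoped ComplexConjugate

namespace Crest.Agent.R017.Tame74

open Crest.Agent.R012 Crest.Agent.R012.Eis Crest.Agent.R012.Gauss880 Crest.Agent.R017.Loc266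

variable {m d p : Eis} {χ : Eis → ℂ}

/-- principal -/
def Pr (m : Eis) (χ : Eis → ℂ) : Prop := ∀ x, IsCoprime x m → χ x = 1

/-! ### change of level -/

lemma ea_mul_mod (hm : m ≠ 0) (v y : Eis) : ea (m * d) v (m * y) = ea d v y := by
  unfold ea
  congr 1
  rw [map_mul, map_mul]
  have h1 := toC_ne_zero hm
  by_cases hd : d = 0
  · subst hd; simp
  · have h2 := toC_ne_zero hd
    have h3 := sq3C_ne
    field_simp

lemma ea_mul_num (hd : d ≠ 0) (u x : Eis) : ea (m * d) (d * u) x = ea m u x := by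
  unfold ea
  congr 1
  rw [map_mul, map_mul]
  by_cases hm : m = 0
  · subst hm; simp
  · have h1 := toC_ne_zero hm
    have h2 := toC_ne_zero hd
    have h3 := sq3C_ne
    field_simp

open Classical in
theorem gl_level (hm : m ≠ 0) (hd : d ≠ 0) (hχ : PMod m χ) (v : Eis) :
    gl χ v (m * d) = sumMod m (fun x => χ x * ea (m * d) v x) * (if d ∣ v then (nm d : ℂ) else 0) := by
  have hmd : m * d ≠ 0 := mul_ne_zero hm hd
  have hP : PMod (m * d) (fun x => χ x * ea (m * d) v x) :=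
    (hχ.mono (dvd_mul_right m d)).mul (pmod_ea hmd v)
  unfold gl
  rw [sumMod_tower hm hd hP, ← sumMod_ea hd, ← sumMod_mul_right hm]
  refine sumMod_congr fun x => ?_
  rw [← sumMod_mul_left hd]
  refine sumMod_congr fun y => ?_
  rw [hχ x y, ea_add hmd, ea_mul_mod hm]
  ring

theorem gl_level_mul (hm : m ≠ 0) (hd : d ≠ 0) (hχ : PMod m χ) (u : Eis) :
    gl χ (d * u) (m * d) = nm d * gl χ u m := by
  classical
  rw [gl_level hm hd hχ, if_pos (dvd_mul_right d u), mul_comm]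
  congr 1
  exact sumMod_congr fun x => by rw [ea_mul_num hd]

theorem gl_level_zero (hm : m ≠ 0) (hd : d ≠ 0) (hχ : PMod m χ) {v : Eis} (hv : ¬ d ∣ v) :
    gl χ v (m * d) = 0 := by
  classical
  rw [gl_level hm hd hχ, if_neg hv, mul_zero]

/-! ### prime modulus -/

lemma cop_iff (hp : Prime p) {x : Eis} : IsCoprime x p ↔ ¬ p ∣ x :=
  isCoprime_comm.trans hp.irreducible.coprime_iff_not_dvd

lemma sumMod_single74 {c : Eis} (hc : c ≠ 0) {f : Eis → ℂ} (hf : PMod c f) (a : Eis)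
    (h : ∀ x, ¬ c ∣ x - a → f x = 0) : sumMod c f = f a := by
  rw [sumMod_eq_sum (isCRS_crs hc) hf]
  obtain ⟨s, ⟨hs, hd⟩, huniq⟩ := isCRS_crs hc a
  rw [Finset.sum_eq_single s]
  · exact (hf.congr hd).symm
  · intro t ht hts
    apply h
    intro hdt
    apply hts
    apply huniq
    refine ⟨ht, ?_⟩
    rw [← neg_sub]
    exact (dvd_neg).mpr hdt
  · intro h'
    exact absurd hs h'

/-- `Σ_{p ∤ x} F(x) = Σ F(x) - F(0)`. -/
lemma sum_pr (hp : Prime p) (hχ : IsCh p χ) (h : Pr p χ) {F : Eis → ℂ} (hF : PMod p F) :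
    sumMod p (fun x => χ x * F x) = sumMod p F - F 0 := by
  classical
  have hP : PMod p (fun x => if p ∣ x then F x else 0) := by
    intro x t
    have : p ∣ x + p * t ↔ p ∣ x := (dvd_add_left (dvd_mul_right p t))
    simp only [this, hF x t]
  have h0 : sumMod p (fun x => if p ∣ x then F x else 0) = F 0 := by
    rw [sumMod_single74 hp.ne_zero hP 0 (fun x hx => if_neg (by rwa [sub_zero] at hx)),
      if_pos (dvd_zero p)]
  rw [← h0, ← sumMod_sub hp.ne_zero]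
  refine sumMod_congr fun x => ?_
  by_cases hx : p ∣ x
  · rw [if_pos hx, hχ.zero x (fun h' => (cop_iff hp).mp h' hx)]; ring
  · rw [if_neg hx, h x ((cop_iff hp).mpr hx)]; ring

/-- `χ` principal, `p ∣ u` -/
theorem gl_pr_dvd (hp : Prime p) (hχ : IsCh p χ) (h : Pr p χ) {u : Eis} (hu : p ∣ u) :
    gl χ u p = nm p - 1 := by
  classical
  unfold gl
  rw [sum_pr hp hχ h (pmod_ea hp.ne_zero u), sumMod_ea hp.ne_zero, if_pos hu, ea_zero]

/-- `χ` principal, `p ∤ u` -/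
theorem gl_pr_cop (hp : Prime p) (hχ : IsCh p χ) (h : Pr p χ) {u : Eis} (hu : ¬ p ∣ u) :
    gl χ u p = -1 := by
  classical
  unfold gl
  rw [sum_pr hp hχ h (pmod_ea hp.ne_zero u), sumMod_ea hp.ne_zero, if_neg hu, ea_zero, zero_sub]

/-- not principal: primitive -/
lemma prm_npr (hp : Prime p) (h : ¬ Pr p χ) : Prm p χ := by
  unfold Pr at h
  push Not at h
  obtain ⟨u, hu, h1⟩ := h
  intro s hs
  have hs' : p ∣ s := by
    by_contra hc
    exact hs ((cop_iff hp).mpr hc)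
  exact ⟨u, hu, hs'.mul_left _, h1⟩

theorem gl_npr_dvd (hp : Prime p) (hχ : IsCh p χ) (h : ¬ Pr p χ) {u : Eis} (hu : p ∣ u) :
    gl χ u p = 0 :=
  gl_eq_zero hp.ne_zero hχ (prm_npr hp h) (fun hc => (cop_iff hp).mp hc hu)

theorem gl_cop (hp : Prime p) (hχ : IsCh p χ) {u : Eis} (hu : ¬ p ∣ u) :
    gl χ u p = conj (χ u) * gl χ 1 p := by
  have := gl_mul_of_coprime hp.ne_zero hχ 1 ((cop_iff hp).mpr hu)
  rwa [one_mul] at this

theorem norm_gl_sq_npr (hp : Prime p) (hχ : IsCh p χ) (h : ¬ Pr p χ) :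
    ‖gl χ 1 p‖ ^ 2 = nm p := norm_gl_sq hp.ne_zero hχ (prm_npr hp h)

theorem gl_sq_quad (hp : Prime p) (hχ : IsCh p χ) (h : ¬ Pr p χ)
    (h2 : ∀ x, conj (χ x) = χ x) : gl χ 1 p * gl χ 1 p = χ (-1) * nm p := by
  have hm1 : ¬ p ∣ (-1 : Eis) := fun h' => hp.not_isUnit (isUnit_of_dvd_unit h' isUnit_one.neg)
  have h3 : conj (gl χ 1 p) = χ (-1) * gl χ 1 p := by
    have e1 : conj (gl χ 1 p) = gl χ (-1) p := by
      unfold gl
      rw [sumMod_star hp.ne_zero]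
      refine sumMod_congr fun x => ?_
      rw [map_mul, h2, star_ea]
    rw [e1, gl_cop hp hχ hm1, h2]
  have h4 : gl χ 1 p * conj (gl χ 1 p) = nm p := by
    rw [Complex.mul_conj, Complex.normSq_eq_norm_sq]
    have := norm_gl_sq_npr hp hχ h
    rw [this]; simp
  have h5 : χ (-1) * χ (-1) = 1 := by
    rw [← hχ.mul]; norm_num; exact hχ.one
  rw [h3] at h4
  calc gl χ 1 p * gl χ 1 p = (χ (-1) * χ (-1)) * (gl χ 1 p * gl χ 1 p) := by rw [h5, one_mul]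
    _ = χ (-1) * (gl χ 1 p * (χ (-1) * gl χ 1 p)) := by ring
    _ = _ := by rw [h4]

/-! ### the table modulo `p ^ (r + 1)` -/

lemma pow_ne (hp : Prime p) (r : ℕ) : p ^ r ≠ 0 := pow_ne_zero r hp.ne_zero

/-- `p ^ r ∤ v` -/
theorem gl_pow_lt (hp : Prime p) (hχ : IsCh p χ) {r : ℕ} {v : Eis} (hv : ¬ p ^ r ∣ v) :
    gl χ v (p ^ (r + 1)) = 0 := by
  rw [pow_succ, mul_comm]
  exact gl_level_zero hp.ne_zero (pow_ne hp r) hχ.per hv

/-- `v = p ^ r u` -/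
theorem gl_pow_mul (hp : Prime p) (hχ : IsCh p χ) (r : ℕ) (u : Eis) :
    gl χ (p ^ r * u) (p ^ (r + 1)) = (nm p : ℂ) ^ r * gl χ u p := by
  rw [pow_succ, mul_comm (p ^ r) p, gl_level_mul hp.ne_zero (pow_ne hp r) hχ.per, nm_pow]
  push_cast
  rfl

/-- `p ^ (r + 1) ∣ v`, principal -/
theorem gl_pow_ge_pr (hp : Prime p) (hχ : IsCh p χ) (h : Pr p χ) {r : ℕ} {v : Eis}
    (hv : p ^ (r + 1) ∣ v) : gl χ v (p ^ (r + 1)) = (nm p : ℂ) ^ r * (nm p - 1) := by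
  obtain ⟨t, rfl⟩ := hv
  rw [show p ^ (r + 1) * t = p ^ r * (p * t) by ring, gl_pow_mul hp hχ,
    gl_pr_dvd hp hχ h (dvd_mul_right p t)]

/-- `p ^ (r + 1) ∣ v`, not principal -/
theorem gl_pow_ge_npr (hp : Prime p) (hχ : IsCh p χ) (h : ¬ Pr p χ) {r : ℕ} {v : Eis}
    (hv : p ^ (r + 1) ∣ v) : gl χ v (p ^ (r + 1)) = 0 := by
  obtain ⟨t, rfl⟩ := hv
  rw [show p ^ (r + 1) * t = p ^ r * (p * t) by ring, gl_pow_mul hp hχ,
    gl_npr_dvd hp hχ h (dvd_mul_right p t), mul_zero]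

/-- `v = p ^ r u`, `p ∤ u`, principal -/
theorem gl_pow_eq_pr (hp : Prime p) (hχ : IsCh p χ) (h : Pr p χ) {r : ℕ} {u : Eis}
    (hu : ¬ p ∣ u) : gl χ (p ^ r * u) (p ^ (r + 1)) = -(nm p : ℂ) ^ r := by
  rw [gl_pow_mul hp hχ, gl_pr_cop hp hχ h hu]; ring

/-- `v = p ^ r u`, `p ∤ u` -/
theorem gl_pow_eq (hp : Prime p) (hχ : IsCh p χ) {r : ℕ} {u : Eis}
    (hu : ¬ p ∣ u) :
    gl χ (p ^ r * u) (p ^ (r + 1)) = (nm p : ℂ) ^ r * (conj (χ u) * gl χ 1 p) := by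
  rw [gl_pow_mul hp hχ, gl_cop hp hχ hu]

end Crest.Agent.R017.Tame74
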