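import Crest.Agent.R017.GG3_90
import Crest.Agent.R017.TameP_74

/-!
# Row 17, sextic F2: the block of the pure primes

`N = A B`, `8 ∣ B`, `9 ∣ B` (all primes of `A` are prime to `6`).

* `isCh_E` : `E_t(c) = QQ (A B) ψ γ t (lf e c)` is a character modulo `A`
* `SL_eq_gl` : `SL (A B) A e x ψ γ t = gl (conj E_t) (-x b t) A`, `e = B b`
* `PureL A B ψ` : `ψ_p^6 ≠ 1` for all primes `p ∣ A`
* `pure_block` : there are `t₀, m₁`, `A = m₁ t₀`, with `SL t = 0` unless `t = t₀ b`, `b` prime to `A`,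
  and `‖SL (t₀ b)‖² = N(t₀)² N(m₁)`.
-/

set_option autoImplicit false

noncomputable section

open Complex
open scoped ComplexConjugate

namespace Crest.Agent.R017.GLm74

open Crest.Agent.R012 Crest.Agent.R012.Eis Crest.Agent.R012.Gauss880 Crest.Agent.R017.Loc266
open Crest.Agent.R017.Sx440 Crest.Agent.R017.Kub664 Crest.Agent.R017.Tw266
open Crest.Agent.R017.Rw266 Crest.Agent.R017.GG90 Crest.Agent.R017.Tame74

section level

variable {A B e : Eis} {ψ γ : Eis → ℂ} {t x : Eis}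

lemma adm_iff (H : Lvl A B e) (h9 : (9 : Eis) ∣ B) {c : Eis} : Adm A c ↔ IsCoprime c A :=
  ⟨fun h => h.1, fun h => ⟨h, fun h' => absurd h' (not9 H h9)⟩⟩

/-- the local character -/
def Et (A B e : Eis) (ψ γ : Eis → ℂ) (t c : Eis) : ℂ := QQ (A * B) ψ γ t (lf e c)

lemma isCh_E (H : Lvl A B e) (h8 : (8 : Eis) ∣ B) (h9 : (9 : Eis) ∣ B) (hψ : IsCh (A * B) ψ)
    (hγ : Gam4 γ) (ht : SU (A * B) t) : IsCh A (Et A B e ψ γ t) where
  one := by
    unfold Et
    have h1 : Gn (A * B) (lf e 1) := gd_lf H adm_one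
    rw [lf_one] at h1 ⊢
    rw [QQ_pos h1, hψ.one, hγ.one]
    have h2 : sy6 (-t) 1 = 1 := by
      have h3 := (api6N H.lev).unit_right (-t) 1 isUnit_one (api6N H.lev).gd_one
      exact h3
    rw [h2]; ring
  mul c c' := by
    unfold Et
    by_cases hc : IsCoprime c A
    · by_cases hc' : IsCoprime c' A
      · have g := gd_lf H ((adm_iff H h9).mpr hc)
        have g' := gd_lf H ((adm_iff H h9).mpr hc')
        rw [QQ_congr H.lev hψ hγ ht (lf_mul H.toBlk c c'), QQ_mul hψ hγ g g',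
          rho2_lf_of_B H h8 g.1.2, mul_one]
      · have h1 : ¬ Gn (A * B) (lf e (c * c')) := fun h =>
          hc' ((adm_of_gn H h).1.of_mul_left_right)
        have h2 : ¬ Gn (A * B) (lf e c') := fun h => hc' (adm_of_gn H h).1
        rw [QQ_neg h1, QQ_neg h2, mul_zero]
    · have h1 : ¬ Gn (A * B) (lf e (c * c')) := fun h =>
          hc ((adm_of_gn H h).1.of_mul_left_left)
      have h2 : ¬ Gn (A * B) (lf e c) := fun h => hc (adm_of_gn H h).1
      rw [QQ_neg h1, QQ_neg h2, zero_mul]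
  per := by
    intro c s
    unfold Et
    exact QQ_congr H.lev hψ hγ ht (lf_congr H.toBlk ⟨s, by ring⟩)
  zero c hc := by
    unfold Et
    exact QQ_neg fun h => hc (adm_of_gn H h).1

lemma conj_conj_E (c : Eis) : conj (conj (Et A B e ψ γ t c)) = Et A B e ψ γ t c := by simp

/-- `e (x B b z / (√-3 A B)) = e(x b z / (√-3 A))` -/
lemma ea_block (H : Lvl A B e) {b : Eis} (hb : e = B * b) (z : Eis) :
    ea (A * B) (x * e) z = ea A (x * b) z := by
  rw [hb, show x * (B * b) = B * (x * b) by ring]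
  exact ea_mul_num H.B0 _ _

theorem SL_eq_gl (H : Lvl A B e) (h8 : (8 : Eis) ∣ B) (h9 : (9 : Eis) ∣ B)
    (hψ : IsCh (A * B) ψ) (hγ : Gam4 γ) (ht : SU (A * B) t) {b : Eis} (hb : e = B * b) :
    SL (A * B) A e x ψ γ t =
      gl (fun c => conj (Et A B e ψ γ t c)) (-(x * b * t)) A := by
  have hE := isCh_E H h8 h9 hψ hγ ht
  unfold SL gl
  refine sumMod_inv H.A0 (fun c hc => ?_) (fun c hc => ?_) (fun c z hcz => ?_)
  · have := hE.zero c hc
    unfold Et at this
    rw [this, zero_mul]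
  · beta_reduce
    rw [hE.zero c hc, map_zero, zero_mul]
  · beta_reduce
    by_cases hc : IsCoprime c A
    · have hz : conj (Et A B e ψ γ t z) = Et A B e ψ γ t c := by
        rw [Loc266.IsCh.inv hE H.A0 hc hcz, Complex.conj_conj]
      rw [hz]
      unfold Et
      congr 1
      rw [ea_block H hb]
      have g := gd_lf H ((adm_iff H h9).mpr hc)
      have h1 : A ∣ lf e c * ivN (A * B) (lf e c) - 1 :=
        (dvd_mul_right A B).trans (ivN_spec g.2).2
      have h2 : A ∣ lf e c * z - 1 := by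
        have h3 := lf_A H.toBlk c
        rw [show lf e c * z - 1 = (lf e c - c) * z + (c * z - 1) by ring]
        exact dvd_add (h3.mul_right z) hcz
      have h4 := iv_unique h1 h2
      rw [ea_congr_right H.A0 (a := -t * ivN (A * B) (lf e c)) (b := -t * z) (by
        rw [show -t * ivN (A * B) (lf e c) - -t * z = (ivN (A * B) (lf e c) - z) * (-t) by ring]
        exact h4.mul_right _)]
      unfold ea
      congr 1
      simp only [map_mul, map_neg]
      ring
    · have h1 := hE.zero c hc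
      have hz : ¬ IsCoprime z A := by
        intro hz
        apply hc
        obtain ⟨k, hk⟩ := hcz
        exact ⟨z, -k, by linear_combination hk⟩
      have h2 := hE.zero z hz
      unfold Et at h1 h2 ⊢
      rw [h1, h2, map_zero, zero_mul, zero_mul]

/-! ### purity -/

/-- `ψ_p^6 ≠ 1` for all primes `p ∣ A` -/
def PureL (A B : Eis) (ψ : Eis → ℂ) : Prop :=
  ∀ p, Prime p → p ∣ A → ∃ b, (∃ k : ℕ, A * B ∣ (b - 1) * p ^ k) ∧ ¬ p ∣ b ∧ ψ b ^ 6 ≠ 1

/-- `m` divides `A` and has the same primes. -/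
structure SameP (A m : Eis) : Prop where
  dvd : m ∣ A
  pr : ∀ p, Prime p → p ∣ A → p ∣ m

lemma SameP.cop {A m : Eis} (h : SameP A m) (hA : A ≠ 0) {c : Eis} :
    IsCoprime c m ↔ IsCoprime c A := by
  constructor
  · intro hc
    refine isCoprime_of_prime_dvd (fun h0 => hA h0.2) (fun q hq h1 h2 => ?_)
    have h3 : IsCoprime q q := IsCoprime.of_isCoprime_of_dvd_left
      (IsCoprime.of_isCoprime_of_dvd_right hc (h.pr q hq h2)) h1
    exact hq.not_isUnit (isCoprime_self.mp h3)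
  · intro hc
    exact IsCoprime.of_isCoprime_of_dvd_right hc h.dvd

lemma dvd72B (h8 : (8 : Eis) ∣ B) (h9 : (9 : Eis) ∣ B) : (72 : Eis) ∣ B := by
  have h : IsCoprime (8 : Eis) 9 := ⟨-1, 1, by norm_num⟩
  have := h.mul_dvd h8 h9
  rwa [show (8 : Eis) * 9 = 72 by norm_num] at this

lemma lev_sub (H : Lvl A B e) (h8 : (8 : Eis) ∣ B) (h9 : (9 : Eis) ∣ B) {m : Eis}
    (hm : SameP A m) : Lev (m * B) where
  ne := mul_ne_zero (fun h0 => H.A0 (zero_dvd_iff.mp (h0 ▸ hm.dvd))) H.B0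
  d72 := (dvd72B h8 h9).mul_left m
  pr p hp hd := by
    have h72 := dvd72B h8 h9
    rcases hp.dvd_or_dvd hd with h | h
    · rw [mul_comm]; exact mul_dvd_mul h h72
    · have h1 := H.lev.pr p hp (h.mul_left A)
      have hc : IsCoprime (72 * p) A :=
        (IsCoprime.of_isCoprime_of_dvd_right H.toBlk.cop h72).symm.mul_left
          (IsCoprime.of_isCoprime_of_dvd_right H.toBlk.cop h).symm
      exact (hc.dvd_of_dvd_mul_left h1).mul_left m

/-- on `c ≡ 1` modulo the primes of `A` the symbol is trivial -/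
lemma E_one_mod (H : Lvl A B e) (h8 : (8 : Eis) ∣ B) (h9 : (9 : Eis) ∣ B)
    (hγ : Gam4 γ) (ht : SU (A * B) t) {m c : Eis} (hm : SameP A m)
    (hc : IsCoprime c A) (h1 : m ∣ c - 1) : Et A B e ψ γ t c = ψ (lf e c) := by
  have g := gd_lf H ((adm_iff H h9).mpr hc)
  have g1 := gd_lf H ((adm_iff H h9).mpr (isCoprime_one_left : IsCoprime 1 A))
  have hB := lf_B H.toBlk c
  have hcopmB : IsCoprime m B := IsCoprime.of_isCoprime_of_dvd_left H.toBlk.cop hm.dvd
  have hmB : m * B ∣ lf e c - 1 := by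
    refine hcopmB.mul_dvd ?_ hB
    rw [show lf e c - 1 = (lf e c - c) + (c - 1) by ring]
    exact dvd_add (hm.dvd.trans (lf_A H.toBlk c)) h1
  have hs : sy6 (-t) (lf e c) = 1 := by
    have h2 := per_S (lev_sub H h8 h9 hm) (z := -t) (neg_ne_zero.mpr ht.ne)
      (fun p hp hd => by
        have h3 := ht.pr p hp ((dvd_neg).mp hd)
        rcases hp.dvd_or_dvd h3 with h4 | h4
        · exact (hm.pr p hp h4).mul_right B
        · exact h4.mul_left m) g.1.g6 (by rw [lf_one] at g1; exact g1.1.g6) hmB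
    rw [h2]
    exact (api6N H.lev).unit_right (-t) 1 isUnit_one (api6N H.lev).gd_one
  unfold Et
  rw [QQ_pos g, hs, hγ.one_of ((Dvd.dvd.trans ⟨2, by norm_num⟩ h8).trans hB)]
  ring

lemma E_pow_six (H : Lvl A B e) (h8 : (8 : Eis) ∣ B) (h9 : (9 : Eis) ∣ B)
    (hγ : Gam4 γ) (ht : SU (A * B) t) {c : Eis} (hc : IsCoprime c A) :
    Et A B e ψ γ t c ^ 6 = ψ (lf e c) ^ 6 := by
  have g := gd_lf H ((adm_iff H h9).mpr hc)
  have hB := lf_B H.toBlk c
  have hcop : IsCoprime (-t) (lf e c) := by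
    refine isCoprime_of_prime_dvd (fun h => ht.ne (by simpa using h.1)) (fun q hq h1 h2 => ?_)
    have h3 : IsCoprime q q := IsCoprime.of_isCoprime_of_dvd_left
      (IsCoprime.of_isCoprime_of_dvd_right g.2 (ht.pr q hq ((dvd_neg).mp h1))) h2
    exact hq.not_isUnit (isCoprime_self.mp h3)
  unfold Et
  rw [QQ_pos g, hγ.one_of ((Dvd.dvd.trans ⟨2, by norm_num⟩ h8).trans hB), mul_one, mul_pow,
    sy6_pow_six g.1.1 g.1.2 hcop, mul_one]

/-- `m` is a period of `ψ_A` -/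
def PerA (A e : Eis) (ψ : Eis → ℂ) (m : Eis) : Prop :=
  SameP A m ∧ ∀ c, IsCoprime c A → m ∣ c - 1 → ψ (lf e c) = 1

lemma exists_min (H : Lvl A B e) (hψ : IsCh (A * B) ψ) :
    ∃ m, PerA A e ψ m ∧ ∀ m', PerA A e ψ m' → nm m ≤ nm m' := by
  classical
  have hA : PerA A e ψ A := by
    refine ⟨⟨dvd_rfl, fun p _ h => h⟩, fun c _ h => ?_⟩
    have h2 := lf_congr H.toBlk (c := c) (c' := 1) h
    rw [hψ.per.congr h2, lf_one, hψ.one]
  have hex : ∃ n, ∃ m, PerA A e ψ m ∧ nm m = n := ⟨_, A, hA, rfl⟩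
  obtain ⟨m, hm, hn⟩ := Nat.find_spec hex
  refine ⟨m, hm, fun m' hm' => ?_⟩
  rw [hn]
  exact Nat.find_min' hex ⟨m', hm', rfl⟩

theorem isCh_min (H : Lvl A B e) (h8 : (8 : Eis) ∣ B) (h9 : (9 : Eis) ∣ B)
    (hψ : IsCh (A * B) ψ) (hγ : Gam4 γ) (ht : SU (A * B) t) {m : Eis}
    (hm : PerA A e ψ m) : IsCh m (Et A B e ψ γ t) := by
  have hE := isCh_E H h8 h9 hψ hγ ht
  refine ⟨hE.one, hE.mul, fun c s => ?_, fun c hc => hE.zero c fun h =>
    hc ((hm.1.cop H.A0).mpr h)⟩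
  have hcop : IsCoprime (c + m * s) A ↔ IsCoprime c A := by
    rw [← hm.1.cop H.A0, ← hm.1.cop H.A0]
    exact cop_congr ⟨s, by ring⟩
  by_cases hc : IsCoprime c A
  · have hc' := hcop.mpr hc
    obtain ⟨d, hd, hcd⟩ := exists_inv hc
    -- `c d ≡ 1 mod A`
    have h1 : IsCoprime ((c + m * s) * d) A := hc'.mul_left hd
    have h2 : m ∣ (c + m * s) * d - 1 := by
      rw [show (c + m * s) * d - 1 = (c * d - 1) + m * (s * d) by ring]
      exact dvd_add (hm.1.dvd.trans hcd) (dvd_mul_right _ _)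
    have h3 : Et A B e ψ γ t ((c + m * s) * d) = 1 := by
      rw [E_one_mod H h8 h9 hγ ht hm.1 h1 h2, hm.2 _ h1 h2]
    have h4 : Et A B e ψ γ t (c * d) = 1 := by
      rw [hE.per.congr hcd, hE.one]
    rw [hE.mul] at h3 h4
    have h5 := hE.ne_zero H.A0 hd
    exact mul_right_cancel₀ h5 (h3.trans h4.symm)
  · rw [hE.zero _ hc, hE.zero _ (fun h => hc (hcop.mp h))]

theorem prp_min (H : Lvl A B e) (h8 : (8 : Eis) ∣ B) (h9 : (9 : Eis) ∣ B)
    (hψ : IsCh (A * B) ψ) (hγ : Gam4 γ) (ht : SU (A * B) t) (hP : PureL A B ψ) {m : Eis}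
    (hm : PerA A e ψ m) (hmin : ∀ m', PerA A e ψ m' → nm m ≤ nm m') :
    Prp m (Et A B e ψ γ t) := by
  have hm0 : m ≠ 0 := fun h0 => H.A0 (zero_dvd_iff.mp (h0 ▸ hm.1.dvd))
  intro p hp hpm
  have hpA : p ∣ A := hpm.trans hm.1.dvd
  obtain ⟨m2, hm2⟩ := hpm
  have hm20 : m2 ≠ 0 := by rintro rfl; exact hm0 (by rw [hm2, mul_zero])
  by_cases hp2 : p ∣ m2
  · -- wild part
    have hS : SameP A m2 := by
      refine ⟨(Dvd.intro_left p hm2.symm).trans hm.1.dvd, fun q hq hqA => ?_⟩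
      have h1 := hm.1.pr q hq hqA
      rw [hm2] at h1
      rcases hq.dvd_or_dvd h1 with h2 | h2
      · exact ((hq.associated_of_dvd hp h2).dvd).trans hp2
      · exact h2
    have hlt : nm m2 < nm m := by
      rw [hm2, nm_mul]
      have h1 : 1 < nm p := by
        have h2 := nm_pos.mpr hp.ne_zero
        have h3 : nm p ≠ 1 := fun h => hp.not_isUnit (isUnit_iff.mpr h)
        omega
      have h4 := nm_pos.mpr hm20
      nlinarith
    have hnot : ¬ PerA A e ψ m2 := fun h => absurd (hmin m2 h) (not_le.mpr hlt)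
    unfold PerA at hnot
    push Not at hnot
    obtain ⟨c, hc, h1, h2⟩ := hnot hS
    refine ⟨c, (hm.1.cop H.A0).mpr hc, ?_, ?_⟩
    · rw [hm2, mul_comm]; exact mul_dvd_mul_right h1 p
    · rw [E_one_mod H h8 h9 hγ ht hS hc h1]; exact h2
  · -- tame part
    obtain ⟨b, ⟨k, hk⟩, hpb, hb⟩ := hP p hp hpA
    have hcopq : ∀ q, Prime q → q ∣ A * B → ¬ q ∣ b := by
      intro q hq hqN hqb
      by_cases hqp : q ∣ p
      · exact hpb (((hq.associated_of_dvd hp hqp).symm.dvd).trans hqb)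
      · have h1 := hqN.trans hk
        rcases hq.dvd_or_dvd h1 with h2 | h2
        · have : q ∣ 1 := by
            rw [show (1 : Eis) = b - (b - 1) by ring]; exact dvd_sub hqb h2
          exact hq.not_isUnit (isUnit_of_dvd_one this)
        · exact hqp (hq.dvd_of_dvd_pow h2)
    have hbA : IsCoprime b A := isCoprime_of_prime_dvd (fun h0 => H.A0 h0.2)
      (fun q hq h1 h2 => hcopq q hq (h2.mul_right B) h1)
    have hpcop : ∀ {z : Eis}, z ∣ A * B → ¬ p ∣ z → z ∣ b - 1 := by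
      intro z hz hpz
      have h1 : IsCoprime z (p ^ k) :=
        (((hp.irreducible.coprime_iff_not_dvd).mpr hpz).pow_left).symm
      exact h1.dvd_of_dvd_mul_right (hz.trans hk)
    have hpB : ¬ p ∣ B := by
      intro h
      have h1 : IsCoprime p p := IsCoprime.of_isCoprime_of_dvd_left
        (IsCoprime.of_isCoprime_of_dvd_right H.toBlk.cop h) hpA
      exact hp.not_isUnit (isCoprime_self.mp h1)
    have hm2b : m2 ∣ b - 1 :=
      hpcop (((Dvd.intro_left p hm2.symm).trans hm.1.dvd).mul_right B) hp2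
    have hBb : B ∣ b - 1 := hpcop (dvd_mul_left B A) hpB
    refine ⟨b, (hm.1.cop H.A0).mpr hbA, ?_, ?_⟩
    · rw [hm2, mul_comm]; exact mul_dvd_mul_right hm2b p
    · intro h1
      apply hb
      have h2 := E_pow_six H h8 h9 (ψ := ψ) hγ ht hbA
      rw [h1, one_pow] at h2
      have h3 : A * B ∣ lf e b - b := by
        refine H.toBlk.cop.mul_dvd (lf_A H.toBlk b) ?_
        rw [show lf e b - b = (lf e b - 1) - (b - 1) by ring]
        exact dvd_sub (lf_B H.toBlk b) hBb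
      rw [hψ.per.congr h3] at h2
      exact h2.symm

/-- **The block of the pure primes.** -/
theorem pure_block (H : Lvl A B e) (h8 : (8 : Eis) ∣ B) (h9 : (9 : Eis) ∣ B)
    (hψ : IsCh (A * B) ψ) (hγ : Gam4 γ) (hx : IsCoprime x A) (hP : PureL A B ψ) :
    ∃ t₀ m₁ : Eis, A = m₁ * t₀ ∧ SameP A m₁ ∧
      (∀ t, SU (A * B) t → SL (A * B) A e x ψ γ t ≠ 0 → ∃ b, t = t₀ * b ∧ IsCoprime b A) ∧
      ∀ b, SU (A * B) b → IsCoprime b A →
        ‖SL (A * B) A e x ψ γ (t₀ * b)‖ ^ 2 = (nm t₀ : ℝ) ^ 2 * nm m₁ := by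
  obtain ⟨m, hm, hmin⟩ := exists_min H hψ
  obtain ⟨t0, ht0⟩ := hm.1.dvd
  have hm0 : m ≠ 0 := fun h0 => H.A0 (zero_dvd_iff.mp (h0 ▸ hm.1.dvd))
  have ht00 : t0 ≠ 0 := by rintro rfl; exact H.A0 (by rw [ht0, mul_zero])
  obtain ⟨b0, hb0⟩ := H.e0
  have hb0A : IsCoprime b0 A := by
    obtain ⟨k, hk⟩ := H.e1
    exact ⟨B, -k, by linear_combination hk - hb0⟩
  have hxb : IsCoprime (-(x * b0)) A := (hx.mul_left hb0A).neg_left
  have key : ∀ t, SU (A * B) t → SL (A * B) A e x ψ γ t =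
      gl (fun c => conj (Et A B e ψ γ t c)) (-(x * b0) * t) (m * t0) := by
    intro t ht
    rw [SL_eq_gl H h8 h9 hψ hγ ht hb0, ← ht0]
    congr 1
    ring
  have hch : ∀ t, SU (A * B) t → IsCh m (fun c => conj (Et A B e ψ γ t c)) := fun t ht =>
    (isCh_min H h8 h9 hψ hγ ht hm).conj
  have hpr : ∀ t, SU (A * B) t → Prm m (fun c => conj (Et A B e ψ γ t c)) := fun t ht =>
    (prm_of_prp hm0 (prp_min H h8 h9 hψ hγ ht hP hm hmin)).conj
  have hdvd : ∀ {v : Eis}, t0 ∣ -(x * b0) * v → t0 ∣ v := by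
    intro v hv
    have h1 : IsCoprime t0 (-(x * b0)) :=
      (IsCoprime.of_isCoprime_of_dvd_right hxb (ht0 ▸ dvd_mul_left t0 m)).symm
    exact h1.dvd_of_dvd_mul_left hv
  have hval : ∀ b, SU (A * B) (t0 * b) → SL (A * B) A e x ψ γ (t0 * b) =
      nm t0 * gl (fun c => conj (Et A B e ψ γ (t0 * b) c)) (-(x * b0) * b) m := by
    intro b hb
    rw [key _ hb, show -(x * b0) * (t0 * b) = t0 * (-(x * b0) * b) by ring,
      gl_level_mul hm0 ht00 (hch _ hb).per]
  have hSUt0 : SU (A * B) t0 := ⟨ht00, fun p _ hd => by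
    rw [ht0]
    exact (hd.mul_left m).mul_right B⟩
  refine ⟨t0, m, ht0, hm.1, fun t ht hne => ?_, fun b hbS hb => ?_⟩
  · have h1 : t0 ∣ t := by
      by_contra hno
      apply hne
      rw [key t ht, gl_level_zero hm0 ht00 (hch t ht).per (fun h => hno (hdvd h))]
    obtain ⟨b, rfl⟩ := h1
    refine ⟨b, rfl, ?_⟩
    by_contra hno
    apply hne
    rw [hval b ht, gl_eq_zero hm0 (hch _ ht) (hpr _ ht), mul_zero]
    intro h2
    apply hno
    exact (hm.1.cop H.A0).mp h2.of_mul_left_right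
  · have hS := hSUt0.mul hbS
    rw [hval b hS, norm_mul, mul_pow]
    have h2 : IsCoprime (-(x * b0) * b) m := (hm.1.cop H.A0).mpr (hxb.mul_left hb)
    have h3 := gl_mul_of_coprime hm0 (hch _ hS) 1 h2
    rw [one_mul] at h3
    rw [h3, norm_mul, mul_pow, norm_gl_sq hm0 (hch _ hS) (hpr _ hS)]
    have h4 : ‖conj (conj (Et A B e ψ γ (t0 * b) (-(x * b0) * b)))‖ = 1 := by
      rw [RCLike.norm_conj]
      exact (hch _ hS).norm_eq_one hm0 h2
    rw [h4]
    simp

end level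

end Crest.Agent.R017.GLm74
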