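import Crest.Agent.R017.Rw5_266

/-!
# Row 17, sextic F2: the cubic classes of the `{2, λ}`-units (helper266)

* `K3 = (ZMod 3)³`, `rep3 (i, a, b) = w^i 2^a λ^b`, `cl3 R0`
* `cls3 : Cls N K3 R0 rep3 (cl3 R0)`
* `cl3_eq`, `cl3_eq_neg` : the class of `± R0 w^n 2^a λ^b`
* `exists_e3` : the elements with all primes dividing `6`
-/

set_option autoImplicit false

noncomputable section

open Complex
open scoped ComplexConjugate

namespace Crest.Agent.R017.Rw266

open Crest.Agent.R012 Crest.Agent.R012.Eis Crest.Agent.R012.Gauss880 Crest.Agent.R017.Loc266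
open Crest.Agent.R017.Sx440 Crest.Agent.R017.Kub664 Crest.Agent.R017.Tw266

variable {N : Eis}

abbrev K3 := ZMod 3 × ZMod 3 × ZMod 3

/-- `w^n 2^a λ^b` -/
def e3 (n a b : ℕ) : Eis := w ^ n * 2 ^ a * lam ^ b

/-- representatives -/
def rep3 (k : K3) : Eis := e3 k.1.val k.2.1.val k.2.2.val

lemma not_two_dvd_lam : ¬ (2 : Eis) ∣ lam := by
  intro h
  have h1 : Od lam := by
    have : Od (lam * lam) := by
      intro h2
      have h3 : (2 : Eis) ∣ 3 := by
        have e : (3 : Eis) = (lam * lam) * (-w ^ 2) := by rw [three_eq]; ring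
        rw [e]; exact h2.mul_right _
      have h4 : (2 : Eis) ∣ 1 := by
        have := dvd_sub h3 (dvd_refl (2 : Eis))
        norm_num at this
        exact this
      exact prime_two.not_isUnit (isUnit_of_dvd_one h4)
    exact this.left
  exact h1 h

lemma not_lam_dvd_two : ¬ lam ∣ (2 : Eis) := by
  intro h
  have h1 := prime_lam.associated_of_dvd prime_two h
  exact not_two_dvd_lam h1.symm.dvd

lemma w_ne : (w : Eis) ≠ 0 := isUnit_w.ne_zero

lemma e3_ne (n a b : ℕ) : e3 n a b ≠ 0 :=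
  mul_ne_zero (mul_ne_zero (pow_ne_zero _ w_ne) (pow_ne_zero _ two_ne_zero')) (pow_ne_zero _ lam_ne_zero)

lemma pow_mul_inj {p : Eis} (hp : Prime p) {a a' : ℕ} {x y : Eis} (hx : ¬ p ∣ x) (hy : ¬ p ∣ y)
    (h : p ^ a * x = p ^ a' * y) : a = a' ∧ x = y := by
  rcases lt_trichotomy a a' with h1 | h1 | h1
  · exfalso
    obtain ⟨d, rfl⟩ := Nat.exists_eq_add_of_lt h1
    apply hx
    have h2 : p ^ a * x = p ^ a * (p * (p ^ d * y)) := by rw [h]; ring
    rw [mul_left_cancel₀ (pow_ne_zero a hp.ne_zero) h2]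
    exact dvd_mul_right _ _
  · subst h1
    exact ⟨rfl, mul_left_cancel₀ (pow_ne_zero a hp.ne_zero) h⟩
  · exfalso
    obtain ⟨d, rfl⟩ := Nat.exists_eq_add_of_lt h1
    apply hy
    have h2 : p ^ a' * y = p ^ a' * (p * (p ^ d * x)) := by rw [← h]; ring
    rw [mul_left_cancel₀ (pow_ne_zero a' hp.ne_zero) h2]
    exact dvd_mul_right _ _

lemma w_pow_mod (n : ℕ) : w ^ n = w ^ (n % 3) := by
  conv_lhs => rw [← Nat.div_add_mod n 3]
  rw [pow_add, pow_mul, w_cube, one_pow, one_mul]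

lemma w_pow_inj {n n' : ℕ} {σ : Eis} (hσ : σ = 1 ∨ σ = -1) (h : w ^ n = σ * w ^ n') :
    n % 3 = n' % 3 := by
  rw [w_pow_mod n, w_pow_mod n'] at h
  have h1 := Nat.mod_lt n (by norm_num : 3 > 0)
  have h2 := Nat.mod_lt n' (by norm_num : 3 > 0)
  generalize n % 3 = x at *
  generalize n' % 3 = y at *
  rcases hσ with rfl | rfl <;> interval_cases x <;> interval_cases y <;>
    first | rfl | (exfalso; revert h; decide)

lemma e3_inj {n a b n' a' b' : ℕ} {σ : Eis} (hσ : σ = 1 ∨ σ = -1)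
    (h : e3 n a b = σ * e3 n' a' b') : n % 3 = n' % 3 ∧ a = a' ∧ b = b' := by
  have hσu : IsUnit σ := by rcases hσ with rfl | rfl; exacts [isUnit_one, isUnit_one.neg]
  have hw : ∀ m, IsUnit (w ^ m) := fun m => isUnit_w.pow m
  have n2 : ∀ (u : Eis) (c : ℕ), IsUnit u → ¬ (2 : Eis) ∣ u * lam ^ c := by
    intro u c hu h2
    rcases prime_two.dvd_or_dvd h2 with h3 | h3
    · exact prime_two.not_isUnit (isUnit_of_dvd_unit h3 hu)
    · exact not_two_dvd_lam (prime_two.dvd_of_dvd_pow h3)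
  have nl : ∀ (u : Eis), IsUnit u → ¬ lam ∣ u := fun u hu h3 =>
    prime_lam.not_isUnit (isUnit_of_dvd_unit h3 hu)
  have h1 : (2 : Eis) ^ a * (w ^ n * lam ^ b) = 2 ^ a' * ((σ * w ^ n') * lam ^ b') := by
    unfold e3 at h
    linear_combination h
  obtain ⟨ha, h2⟩ := pow_mul_inj prime_two (n2 _ b (hw n)) (n2 _ b' (hσu.mul (hw n'))) h1
  have h3 : lam ^ b * w ^ n = lam ^ b' * (σ * w ^ n') := by linear_combination h2
  obtain ⟨hb, h4⟩ := pow_mul_inj prime_lam (nl _ (hw n)) (nl _ (hσu.mul (hw n'))) h3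
  exact ⟨w_pow_inj hσ h4, ha, hb⟩

/-- the class map -/
def IsE3 (R0 hS : Eis) (p : ℕ × ℕ × ℕ) : Prop :=
  hS = R0 * e3 p.1 p.2.1 p.2.2 ∨ hS = -(R0 * e3 p.1 p.2.1 p.2.2)

open Classical in
/-- the class of an `S`-part -/
def cl3 (R0 hS : Eis) : Option K3 :=
  if h : ∃ p, IsE3 R0 hS p then some ((h.choose.1 : ZMod 3), (h.choose.2.1 : ZMod 3),
    (h.choose.2.2 : ZMod 3)) else none

lemma isE3_unique {R0 hS : Eis} (hR : R0 ≠ 0) {p q : ℕ × ℕ × ℕ} (hp : IsE3 R0 hS p)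
    (hq : IsE3 R0 hS q) : p.1 % 3 = q.1 % 3 ∧ p.2.1 = q.2.1 ∧ p.2.2 = q.2.2 := by
  obtain ⟨σ, hσ, h1⟩ : ∃ σ : Eis, (σ = 1 ∨ σ = -1) ∧
      e3 p.1 p.2.1 p.2.2 = σ * e3 q.1 q.2.1 q.2.2 := by
    rcases hp with hp | hp <;> rcases hq with hq | hq
    · exact ⟨1, Or.inl rfl, mul_left_cancel₀ hR (by rw [← hp, hq]; ring)⟩
    · exact ⟨-1, Or.inr rfl, mul_left_cancel₀ hR (by rw [← hp, hq]; ring)⟩
    · refine ⟨-1, Or.inr rfl, mul_left_cancel₀ hR ?_⟩
      linear_combination hp - hq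
    · refine ⟨1, Or.inl rfl, mul_left_cancel₀ hR ?_⟩
      linear_combination hp - hq
  exact e3_inj hσ h1

lemma cl3_of {R0 hS : Eis} (hR : R0 ≠ 0) {p : ℕ × ℕ × ℕ} (hp : IsE3 R0 hS p) :
    cl3 R0 hS = some ((p.1 : ZMod 3), (p.2.1 : ZMod 3), (p.2.2 : ZMod 3)) := by
  have hex : ∃ p, IsE3 R0 hS p := ⟨p, hp⟩
  unfold cl3
  rw [dif_pos hex]
  obtain ⟨h1, h2, h3⟩ := isE3_unique hR hex.choose_spec hp
  rw [h2, h3, (ZMod.natCast_eq_natCast_iff' _ _ 3).mpr h1]

lemma cl3_eq {R0 : Eis} (hR : R0 ≠ 0) (n a b : ℕ) :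
    cl3 R0 (R0 * e3 n a b) = some ((n : ZMod 3), (a : ZMod 3), (b : ZMod 3)) :=
  cl3_of hR (p := (n, a, b)) (Or.inl rfl)

lemma cl3_eq_neg {R0 : Eis} (hR : R0 ≠ 0) (n a b : ℕ) :
    cl3 R0 (-(R0 * e3 n a b)) = some ((n : ZMod 3), (a : ZMod 3), (b : ZMod 3)) :=
  cl3_of hR (p := (n, a, b)) (Or.inr rfl)

lemma cl3_some {R0 hS : Eis} {k : K3} (h : cl3 R0 hS = some k) :
    ∃ p : ℕ × ℕ × ℕ, IsE3 R0 hS p ∧
      k = ((p.1 : ZMod 3), (p.2.1 : ZMod 3), (p.2.2 : ZMod 3)) := by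
  unfold cl3 at h
  split_ifs at h with hex
  exact ⟨hex.choose, hex.choose_spec, (Option.some.inj h).symm⟩

lemma cl3_none {R0 hS : Eis} (h : cl3 R0 hS = none) (p : ℕ × ℕ × ℕ) : ¬ IsE3 R0 hS p := by
  intro hp
  unfold cl3 at h
  rw [dif_pos ⟨p, hp⟩] at h
  exact Option.some_ne_none _ h

/-! ### the symbols -/

lemma pow_val_sub {z : ℂ} (h3 : z ^ 3 = 1) (h1 : z * conj z = 1) (i j : ZMod 3) :
    z ^ (i - j).val = z ^ i.val * conj (z ^ j.val) := by
  have h2 : conj z = z ^ 2 := by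
    have hz : z ≠ 0 := left_ne_zero_of_mul_eq_one h1
    apply mul_left_cancel₀ hz
    rw [h1, ← h3]; ring
  rw [map_pow, h2, ← pow_mul, ← pow_add]
  have h4 : ∀ m n : ℕ, m % 3 = n % 3 → z ^ m = z ^ n := by
    intro m n hmn
    rw [← Nat.div_add_mod m 3, ← Nat.div_add_mod n 3, pow_add, pow_add, pow_mul, pow_mul, h3,
      one_pow, one_pow, hmn]
  apply h4
  revert i j
  decide

lemma pow_val_cast {z : ℂ} (h3 : z ^ 3 = 1) (n : ℕ) : z ^ (n : ZMod 3).val = z ^ n := by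
  rw [ZMod.val_natCast]
  conv_rhs => rw [← Nat.div_add_mod n 3, pow_add, pow_mul, h3, one_pow, one_mul]

lemma sy_pow' {c : Eis} (hc : Gd c) (z : Eis) (n : ℕ) : sy (z ^ n) c = sy z c ^ n := by
  induction n with
  | zero => rw [pow_zero, pow_zero, Char766.sy_one_left hc.1]
  | succ n ih => rw [pow_succ, pow_succ, Char766.sy_mul_left hc.1, ih]

lemma sy_e3 {c : Eis} (hc : Gd c) (n a b : ℕ) :
    sy (e3 n a b) c = sy w c ^ n * sy 2 c ^ a * sy lam c ^ b := by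
  unfold e3
  rw [Char766.sy_mul_left hc.1, Char766.sy_mul_left hc.1, sy_pow' hc, sy_pow' hc, sy_pow' hc]

lemma lam_dvd (hN : Lev N) : lam ∣ N :=
  (Dvd.intro_left (-w ^ 2 * lam) (by rw [three_eq]; ring)).trans (three_dvd_72.trans hN.d72)

lemma ss_w : Ss N w := ⟨w_ne, fun p hp hd => absurd (isUnit_of_dvd_unit hd isUnit_w) hp.not_isUnit⟩

lemma ss_two (hN : Lev N) : Ss N 2 := ⟨two_ne_zero', fun p hp hd =>
  hd.trans (two_dvd_72.trans hN.d72)⟩

lemma ss_lam (hN : Lev N) : Ss N lam := ⟨lam_ne_zero, fun p hp hd => hd.trans (lam_dvd hN)⟩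

lemma ss_one : Ss N 1 := ⟨one_ne_zero, fun p hp hd =>
  absurd (isUnit_of_dvd_one hd) hp.not_isUnit⟩

lemma Ss.pow {z : Eis} (h : Ss N z) (n : ℕ) : Ss N (z ^ n) := by
  induction n with
  | zero => rw [pow_zero]; exact ss_one
  | succ n ih => rw [pow_succ]; exact ih.mul h

lemma ss_e3 (hN : Lev N) (n a b : ℕ) : Ss N (e3 n a b) :=
  ((ss_w.pow n).mul ((ss_two hN).pow a)).mul ((ss_lam hN).pow b)

/-- **the class structure**. -/
theorem cls3 (hN : Lev N) {R0 : Eis} (hR : Ss N R0) : Cls N K3 R0 rep3 (cl3 R0) where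
  ss0 := hR
  ss k := ss_e3 hN _ _ _
  sub k k' c hc hcN := by
    have cw := (ss_w (N := N)).cop hcN
    have c2 := (ss_two hN).cop hcN
    have cl := (ss_lam hN).cop hcN
    unfold rep3
    rw [sy_e3 hc, sy_e3 hc, sy_e3 hc]
    simp only [Prod.fst_sub, Prod.snd_sub]
    rw [pow_val_sub (sy_pow_three hc cw) (sy_mul_conj hc cw),
      pow_val_sub (sy_pow_three hc c2) (sy_mul_conj hc c2),
      pow_val_sub (sy_pow_three hc cl) (sy_mul_conj hc cl)]
    simp only [map_mul]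
    ring
  cl hS k hss h c hc hcN := by
    obtain ⟨p, hp, rfl⟩ := cl3_some h
    have cw := (ss_w (N := N)).cop hcN
    have c2 := (ss_two hN).cop hcN
    have cl := (ss_lam hN).cop hcN
    have e1 : sy hS c = sy (R0 * e3 p.1 p.2.1 p.2.2) c := by
      rcases hp with rfl | rfl
      · rfl
      · exact sy_neg' hc _
    rw [e1, Char766.sy_mul_left hc.1, Char766.sy_mul_left hc.1]
    unfold rep3
    rw [sy_e3 hc, sy_e3 hc]
    simp only
    rw [pow_val_cast (sy_pow_three hc cw), pow_val_cast (sy_pow_three hc c2),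
      pow_val_cast (sy_pow_three hc cl)]

/-! ### elements supported at `6` -/

theorem exists_e3 {t : Eis} (ht : t ≠ 0) (hp : ∀ p, Prime p → p ∣ t → p ∣ 6) :
    ∃ n a b : ℕ, t = e3 n a b ∨ t = -e3 n a b := by
  induction t using UniqueFactorizationMonoid.induction_on_prime with
  | h₁ => exact absurd rfl ht
  | h₂ u hu =>
    obtain ⟨i, -, rfl | rfl⟩ := isUnit_exists hu
    · exact ⟨i, 0, 0, Or.inl (by unfold e3; ring)⟩
    · exact ⟨i, 0, 0, Or.inr (by unfold e3; ring)⟩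
  | h₃ z p hz hpp ih =>
    obtain ⟨n, a, b, hn⟩ := ih hz (fun q hq hqz => hp q hq (hqz.mul_left p))
    have hp6 := hp p hpp (dvd_mul_right p z)
    have e6 : (6 : Eis) = 2 * (lam * (lam * (-w ^ 2))) := by
      have : (6 : Eis) = 2 * 3 := by norm_num
      rw [this, three_eq]; ring
    rw [e6] at hp6
    have hcase : p ∣ 2 ∨ p ∣ lam := by
      rcases hpp.dvd_or_dvd hp6 with h1 | h1
      · exact Or.inl h1
      · rcases hpp.dvd_or_dvd h1 with h1 | h1
        · exact Or.inr h1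
        · rcases hpp.dvd_or_dvd h1 with h1 | h1
          · exact Or.inr h1
          · exact absurd (isUnit_of_dvd_unit h1 ((isUnit_w.pow 2).neg)) hpp.not_isUnit
    have fin : ∀ (u : Eis), IsUnit u → ∀ n a b, ∃ n' a' b', u * e3 n a b = e3 n' a' b' ∨
        u * e3 n a b = -e3 n' a' b' := by
      intro u hu n a b
      obtain ⟨i, -, rfl | rfl⟩ := isUnit_exists hu
      · exact ⟨i + n, a, b, Or.inl (by unfold e3; ring)⟩
      · exact ⟨i + n, a, b, Or.inr (by unfold e3; ring)⟩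
    rcases hcase with h1 | h1
    · obtain ⟨u, hu⟩ := (hpp.associated_of_dvd prime_two h1).symm
      obtain ⟨n', a', b', h2⟩ := fin u u.isUnit n (a + 1) b
      have e : ∀ n a b, (u : Eis) * e3 n (a + 1) b = p * e3 n a b := by
        intro n a b; rw [← hu]; unfold e3; ring
      rw [e] at h2
      refine ⟨n', a', b', ?_⟩
      rcases hn with rfl | rfl <;> rcases h2 with h2 | h2
      · exact Or.inl h2
      · exact Or.inr h2
      · exact Or.inr (by rw [mul_neg, h2])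
      · exact Or.inl (by rw [mul_neg, h2, neg_neg])
    · obtain ⟨u, hu⟩ := (hpp.associated_of_dvd prime_lam h1).symm
      obtain ⟨n', a', b', h2⟩ := fin u u.isUnit n a (b + 1)
      have e : ∀ n a b, (u : Eis) * e3 n a (b + 1) = p * e3 n a b := by
        intro n a b; rw [← hu]; unfold e3; ring
      rw [e] at h2
      refine ⟨n', a', b', ?_⟩
      rcases hn with rfl | rfl <;> rcases h2 with h2 | h2
      · exact Or.inl h2
      · exact Or.inr h2
      · exact Or.inr (by rw [mul_neg, h2])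
      · exact Or.inl (by rw [mul_neg, h2, neg_neg])

/-- `Van` for the classes `cl3 R0`. -/
theorem van3 {x : Eis} {s : ℂ} {ψ γ : Eis → ℂ} {R0 : Eis}
    (h : ∀ θ : Eis → ℂ, IsCh N θ → (∀ c, Gd c → IsCoprime c N → θ c ^ 3 = ψ c ^ 3) →
      ∀ hS, Ss N hS → WS N x s (fun c => θ c * γ c) hS ≠ 0 →
        ∃ t, hS = R0 * t ∧ ∀ p, Prime p → p ∣ t → p ∣ 6) :
    Van N x s ψ γ (cl3 R0) := by
  intro θ hθ he hS hss hcl
  by_contra hne
  obtain ⟨t, ht, hp⟩ := h θ hθ he hS hss hne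
  have ht0 : t ≠ 0 := by
    rintro rfl
    exact hss.ne (by rw [ht, mul_zero])
  obtain ⟨n, a, b, h1⟩ := exists_e3 ht0 hp
  apply cl3_none hcl (n, a, b)
  rcases h1 with rfl | rfl
  · exact Or.inl ht
  · exact Or.inr (by rw [ht]; ring)

end Crest.Agent.R017.Rw266
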