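import Crest.Agent.R017.AS0_590
import Crest.Agent.R017.GLm_74
import Crest.Agent.R017.Rw6_266
import Crest.Agent.R017.GL2_64

/-!
# Row 17, sextic F2: the level and the row character (helper266)

* `LvN M ψ0 r t A` : `N = 2^r √-3^t A` has the primes of `M`, `ψ0` is periodic modulo `N`, and `r`,
  `t` are the exact local levels unless `r = 4`, `t = 5`
* `exists_lvN` : existence
* `exists_row` : the row character `ψ = conj ψ0 · (2/·)_3 · conj ((N √-3)/·)_6`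
* `perA_iff` : the period at `A` does not depend on the cubic twist
-/

set_option autoImplicit false

noncomputable section

open Complex
open scoped ComplexConjugate

namespace Crest.Agent.R017.FinA266

open Crest.Agent.R012 Crest.Agent.R012.Eis Crest.Agent.R012.Gauss880 Crest.Agent.R017.Loc266
open Crest.Agent.R017.Sx440 Crest.Agent.R017.Kub664 Crest.Agent.R017.Tw266
open Crest.Agent.R017.Rw266 Crest.Agent.R017.GG90 Crest.Agent.R017.LamP64
open Crest.Agent.R017.End699 (HC)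

variable {M N A B : Eis} {ψ0 ψ θ γ : Eis → ℂ} {r t : ℕ}

/-! ### the level -/

/-- the level -/
def lvN (r t : ℕ) (A : Eis) : Eis := 2 ^ r * sq3 ^ t * A

lemma sq3_pow_four : sq3 ^ 4 = (9 : Eis) := by
  have : sq3 ^ 4 = (sq3 ^ 2) ^ 2 := by ring
  rw [this, sq3_sq]; norm_num

lemma eq72 : (72 : Eis) = 2 ^ 3 * sq3 ^ 4 := by rw [sq3_pow_four]; norm_num

theorem lev_lvN (hr : 4 ≤ r) (ht : 5 ≤ t) (hA : A ≠ 0) : Lev (lvN r t A) where
  ne := mul_ne_zero (mul_ne_zero (pow_ne_zero _ two_ne_zero') (sq3_pow_ne t)) hA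
  d72 := by
    rw [eq72]
    exact (mul_dvd_mul (pow_dvd_pow 2 (by omega)) (pow_dvd_pow sq3 (by omega))).mul_right A
  pr p hp hd := by
    unfold lvN at *
    rw [eq72]
    rcases hp.dvd_or_dvd hd with h1 | h1
    · rcases hp.dvd_or_dvd h1 with h2 | h2
      · have h3 : p ∣ 2 := hp.dvd_of_dvd_pow h2
        have h4 : (2 : Eis) ^ 3 * sq3 ^ 4 * p ∣ 2 ^ 4 * sq3 ^ 4 * A := by
          rw [show (2 : Eis) ^ 4 * sq3 ^ 4 * A = 2 ^ 3 * sq3 ^ 4 * (2 * A) by ring]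
          exact mul_dvd_mul_left _ (h3.mul_right A)
        exact h4.trans (mul_dvd_mul (mul_dvd_mul (pow_dvd_pow 2 hr)
          (pow_dvd_pow sq3 (by omega))) dvd_rfl)
      · have h3 : p ∣ sq3 := hp.dvd_of_dvd_pow h2
        have h4 : (2 : Eis) ^ 3 * sq3 ^ 4 * p ∣ 2 ^ 3 * sq3 ^ 5 * A := by
          rw [show (2 : Eis) ^ 3 * sq3 ^ 5 * A = 2 ^ 3 * sq3 ^ 4 * (sq3 * A) by ring]
          exact mul_dvd_mul_left _ (h3.mul_right A)
        exact h4.trans (mul_dvd_mul (mul_dvd_mul (pow_dvd_pow 2 (by omega))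
          (pow_dvd_pow sq3 ht)) dvd_rfl)
    · exact mul_dvd_mul (mul_dvd_mul (pow_dvd_pow 2 (by omega)) (pow_dvd_pow sq3 (by omega))) h1

/-- data of the level -/
structure LvN (M : Eis) (ψ0 : Eis → ℂ) (r t : ℕ) (A : Eis) : Prop where
  M0 : M ≠ 0
  r4 : 4 ≤ r
  t5 : 5 ≤ t
  A0 : A ≠ 0
  A2 : ¬ (2 : Eis) ∣ A
  A3 : ¬ sq3 ∣ A
  pr : ∀ p, Prime p → (p ∣ lvN r t A ↔ p ∣ M)
  fac : ∃ a b : ℕ, a ≠ 0 ∧ b ≠ 0 ∧ M = 2 ^ a * sq3 ^ b * A
  triv : ∀ c, IsPrim c → IsCoprime c M → lvN r t A ∣ c - 1 → ψ0 c = 1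
  ex2 : r ≠ 4 → ∃ c, IsPrim c ∧ IsCoprime c M ∧ lvN (r - 1) t A ∣ c - 1 ∧ ψ0 c ≠ 1
  ex3 : t ≠ 5 → ∃ c, IsPrim c ∧ IsCoprime c M ∧ lvN r (t - 1) A ∣ c - 1 ∧ ψ0 c ≠ 1

lemma LvN.lev (H : LvN M ψ0 r t A) : Lev (lvN r t A) := lev_lvN H.r4 H.t5 H.A0

lemma cop_of_primes (hM : M ≠ 0) (hN : N ≠ 0) (h : ∀ p, Prime p → (p ∣ N ↔ p ∣ M)) (c : Eis) :
    IsCoprime c N ↔ IsCoprime c M := by
  have key : ∀ {X Y : Eis}, Y ≠ 0 → (∀ p, Prime p → p ∣ Y → p ∣ X) → IsCoprime c X →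
      IsCoprime c Y := by
    intro X Y hY hXY hc
    refine isCoprime_of_prime_dvd (fun h0 => hY h0.2) (fun q hq h1 h2 => ?_)
    have h3 : IsCoprime q q := IsCoprime.of_isCoprime_of_dvd_left
      (IsCoprime.of_isCoprime_of_dvd_right hc (hXY q hq h2)) h1
    exact hq.not_isUnit (isCoprime_self.mp h3)
  exact ⟨key hM fun p hp => (h p hp).mpr, key hN fun p hp => (h p hp).mp⟩

lemma LvN.cop (H : LvN M ψ0 r t A) (c : Eis) : IsCoprime c (lvN r t A) ↔ IsCoprime c M :=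
  cop_of_primes H.M0 H.lev.ne H.pr c

theorem exists_lvN (h36 : (36 : Eis) ∣ M) (h0 : HC M ψ0) :
    ∃ r t A, LvN M ψ0 r t A := by
  classical
  have hM := h0.q0
  have f2 : FiniteMultiplicity (2 : Eis) M := FiniteMultiplicity.of_prime_left prime_two hM
  obtain ⟨M1, hM1, hn2⟩ := f2.exists_eq_pow_mul_and_not_dvd
  set a := multiplicity (2 : Eis) M
  have hM10 : M1 ≠ 0 := by rintro rfl; exact hM (by rw [hM1, mul_zero])
  have f3 : FiniteMultiplicity sq3 M1 := FiniteMultiplicity.of_prime_left prime_sq3 hM10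
  obtain ⟨A, hA1, hn3⟩ := f3.exists_eq_pow_mul_and_not_dvd
  set b := multiplicity sq3 M1
  have hA0 : A ≠ 0 := by rintro rfl; exact hM10 (by rw [hA1, mul_zero])
  have hA2 : ¬ (2 : Eis) ∣ A := fun h => hn2 (by rw [hA1]; exact h.mul_left _)
  have hMe : M = 2 ^ a * sq3 ^ b * A := by rw [hM1, hA1]; ring
  have d2 : (2 : Eis) ∣ M := Dvd.dvd.trans ⟨18, by norm_num⟩ h36
  have d3 : sq3 ∣ M := by
    have : sq3 ∣ (36 : Eis) := by
      have h1 : (36 : Eis) = sq3 * (4 * sq3 ^ 3) := by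
        rw [show sq3 * (4 * sq3 ^ 3) = 4 * sq3 ^ 4 by ring, sq3_pow_four]; norm_num
      exact ⟨_, h1⟩
    exact this.trans h36
  have ha : a ≠ 0 := by
    intro h
    rw [h, pow_zero, one_mul] at hM1
    exact hn2 (hM1 ▸ d2)
  have hb : b ≠ 0 := by
    intro h
    rw [h, pow_zero, mul_one] at hMe
    rw [hMe] at d3
    rcases prime_sq3.dvd_or_dvd d3 with h1 | h1
    · have h2 := prime_sq3.dvd_of_dvd_pow h1
      have h3 := prime_sq3.associated_of_dvd prime_two h2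
      exact od_sq3 h3.symm.dvd
    · exact hn3 h1
  let P : ℕ → Prop := fun n => ∃ r t, r + t = n ∧ 4 ≤ r ∧ 5 ≤ t ∧
    ∀ c, IsPrim c → IsCoprime c M → lvN r t A ∣ c - 1 → ψ0 c = 1
  have hex : ∃ n, P n := by
    refine ⟨_, a + 4, b + 5, rfl, by omega, by omega, fun c hc _ hd => ?_⟩
    have h1 : M ∣ lvN (a + 4) (b + 5) A := by
      unfold lvN
      rw [hMe]
      exact mul_dvd_mul (mul_dvd_mul (pow_dvd_pow 2 (by omega)) (pow_dvd_pow sq3 (by omega))) dvd_rfl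
    rw [h0.per c 1 hc isPrim_one (h1.trans hd), h0.char.one]
  obtain ⟨r, t, hn, hr, ht, htriv⟩ := Nat.find_spec hex
  have hmin : ∀ m, m < Nat.find hex → ¬ P m := fun m hm => Nat.find_min hex hm
  refine ⟨r, t, A, hM, hr, ht, hA0, hA2, hn3, fun p hp => ?_, ⟨a, b, ha, hb, hMe⟩, htriv, ?_, ?_⟩
  · have key : ∀ r t : ℕ, r ≠ 0 → t ≠ 0 → (p ∣ 2 ^ r * sq3 ^ t * A ↔ p ∣ 2 ∨ p ∣ sq3 ∨ p ∣ A) := by
      intro r t hr ht
      constructor
      · intro h
        rcases hp.dvd_or_dvd h with h1 | h1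
        · rcases hp.dvd_or_dvd h1 with h2 | h2
          · exact Or.inl (hp.dvd_of_dvd_pow h2)
          · exact Or.inr (Or.inl (hp.dvd_of_dvd_pow h2))
        · exact Or.inr (Or.inr h1)
      · rintro (h | h | h)
        · exact ((h.trans (dvd_pow_self _ hr)).mul_right _).mul_right _
        · exact ((h.trans (dvd_pow_self _ ht)).mul_left _).mul_right _
        · exact h.mul_left _
    have k1 := key r t (by omega) (by omega)
    have k2 := key a b ha hb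
    rw [← hMe] at k2
    exact k1.trans k2.symm
  · intro h4
    have hnp := hmin (r - 1 + t) (by omega)
    by_contra hcon
    push Not at hcon
    exact hnp ⟨r - 1, t, rfl, by omega, ht, fun c hc hcM hd => hcon c hc hcM hd⟩
  · intro h5
    have hnp := hmin (r + (t - 1)) (by omega)
    by_contra hcon
    push Not at hcon
    exact hnp ⟨r, t - 1, rfl, hr, by omega, fun c hc hcM hd => hcon c hc hcM hd⟩

/-! ### the row character -/

lemma od_of_cop_lev (hN : Lev N) {c : Eis} (hc : IsCoprime c N) : Od c := by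
  intro h2
  have h3 : IsCoprime (2 : Eis) 2 := IsCoprime.of_isCoprime_of_dvd_left
    (IsCoprime.of_isCoprime_of_dvd_right hc (two_dvd_72.trans hN.d72)) h2
  exact prime_two.not_isUnit (isCoprime_self.mp h3)

/-- periodicity of `ψ0` from triviality on `1 + N`. -/
lemma per_of_triv (h0 : HC M ψ0) (hN : Lev N) (hcop : ∀ c, IsCoprime c N ↔ IsCoprime c M)
    (htriv : ∀ c, IsPrim c → IsCoprime c M → N ∣ c - 1 → ψ0 c = 1) {a b : Eis}
    (ha : IsPrim a) (hb : IsPrim b) (haN : IsCoprime a N) (hbN : IsCoprime b N)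
    (hab : N ∣ a - b) : ψ0 a = ψ0 b := by
  obtain ⟨b', hb', hbb⟩ := exists_inv hbN
  have h3N : (3 : Eis) ∣ N := three_dvd_72.trans hN.d72
  have hbp : IsPrim b' := by
    have h1 : IsPrim (b * b') := h3N.trans hbb
    exact Sym645.prim_of_mul_left hb h1
  have e1 : ψ0 (b * b') = 1 := htriv _ (hb.mul hbp)
    ((hcop _).mp (hbN.mul_left hb')) hbb
  have e2 : ψ0 (a * b') = 1 := by
    refine htriv _ (ha.mul hbp) ((hcop _).mp (haN.mul_left hb')) ?_
    have : a * b' - 1 = (a - b) * b' + (b * b' - 1) := by ring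
    rw [this]
    exact dvd_add (hab.mul_right _) hbb
  rw [h0.char.mul _ _ hb hbp] at e1
  rw [h0.char.mul _ _ ha hbp] at e2
  have hne : ψ0 b' ≠ 0 := right_ne_zero_of_mul (e1.trans_ne one_ne_zero)
  exact mul_right_cancel₀ hne (e2.trans e1.symm)

lemma ss_sq3 (hN : Lev N) : Ss N sq3 := by
  refine ⟨?_, fun p hp hd => hd.trans ?_⟩
  · have := sq3_pow_ne 1
    rwa [pow_one] at this
  · rw [sq3_eq]
    obtain ⟨k, hk⟩ := lam_dvd hN
    exact ⟨k * w ^ 2, by rw [hk]; linear_combination (-(lam * k)) * w_cube⟩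

lemma ss_self (hN : Lev N) : Ss N N := ⟨hN.ne, fun _ _ h => h⟩

/-- **The row character.** -/
theorem exists_row (h0 : HC M ψ0) (hN : Lev N) (hcop : ∀ c, IsCoprime c N ↔ IsCoprime c M)
    (htriv : ∀ c, IsPrim c → IsCoprime c M → N ∣ c - 1 → ψ0 c = 1) :
    ∃ ψ : Eis → ℂ, IsCh N ψ ∧ ∀ c, Gd c → IsCoprime c N →
      ψ c = conj (ψ0 c) * sy 2 c * conj (sy6 (N * sq3) c) := by
  refine exists_ext hN ?_ ?_ ?_
  · rw [h0.char.one, sy6_one_right]
    have : sy 2 1 = 1 := by rw [← sy6_sq isPrim_one od_one, sy6_one_right, one_pow]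
    rw [this]; simp
  · intro a b ha hb _ _
    rw [h0.char.mul _ _ ha.1 hb.1, sy6_mul_right _ ha.ne hb.ne, Char766.sy_mul_right ha.1 hb.1]
    simp only [map_mul]
    ring
  · intro a b ha hb haN hbN hab
    have hS := (ss_self hN).mul (ss_sq3 hN)
    rw [per_of_triv h0 hN hcop htriv ha.1 hb.1 haN hbN hab,
      sy_per hN (ss_two hN).ne (ss_two hN).pr ha hb hab, per_S hN hS.ne hS.pr ha.g6 hb.g6 hab]

/-- the relation between `ψ0` and the row character -/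
def RowC (N : Eis) (ψ0 ψ : Eis → ℂ) : Prop :=
  ∀ c, Gd c → IsCoprime c N → ψ c = conj (ψ0 c) * sy 2 c * conj (sy6 (N * sq3) c)

/-- on `1 + N'` for a smaller admissible level with the same primes, `ψ = conj ψ0`. -/
lemma row_eq_conj (hR : RowC N ψ0 ψ) {N' : Eis} (hN' : Lev N')
    (hpr : ∀ p, Prime p → (p ∣ N' ↔ p ∣ N)) (hN : N ≠ 0) {c : Eis} (hc : IsCoprime c N)
    (h1 : N' ∣ c - 1) : ψ c = conj (ψ0 c) := by
  have hp : IsPrim c := (three_dvd_72.trans hN'.d72).trans h1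
  have hcN' : IsCoprime c N' := (cop_of_primes hN hN'.ne hpr c).mpr hc
  have hg : Gd c := ⟨hp, od_of_cop_lev hN' hcN'⟩
  have hNs : Ss N' N := ⟨hN, fun p hp hd => (hpr p hp).mpr hd⟩
  have hS := hNs.mul (ss_sq3 hN')
  rw [hR c hg hc, sy_per hN' (ss_two hN').ne (ss_two hN').pr hg gd_one h1,
    per_S hN' hS.ne hS.pr hg.g6 gd_one.g6 h1, sy6_one_right]
  have : sy 2 1 = 1 := by rw [← sy6_sq isPrim_one od_one, sy6_one_right, one_pow]
  rw [this]; simp

lemma LvN.pr_sub (H : LvN M ψ0 r t A) {r' t' : ℕ} (hr : r' ≠ 0) (ht : t' ≠ 0) (p : Eis)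
    (hp : Prime p) : p ∣ lvN r' t' A ↔ p ∣ lvN r t A := by
  have key : ∀ r t : ℕ, r ≠ 0 → t ≠ 0 → (p ∣ lvN r t A ↔ p ∣ 2 ∨ p ∣ sq3 ∨ p ∣ A) := by
    intro r t hr ht
    unfold lvN
    constructor
    · intro h
      rcases hp.dvd_or_dvd h with h1 | h1
      · rcases hp.dvd_or_dvd h1 with h2 | h2
        · exact Or.inl (hp.dvd_of_dvd_pow h2)
        · exact Or.inr (Or.inl (hp.dvd_of_dvd_pow h2))
      · exact Or.inr (Or.inr h1)
    · rintro (h | h | h)
      · exact ((h.trans (dvd_pow_self _ hr)).mul_right _).mul_right _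
      · exact ((h.trans (dvd_pow_self _ ht)).mul_left _).mul_right _
      · exact h.mul_left _
  have h1 := H.r4
  have h2 := H.t5
  exact (key r' t' hr ht).trans (key r t (by omega) (by omega)).symm

/-- exact level at `2` -/
theorem LvN.ex2' (H : LvN M ψ0 r t A) (hR : RowC (lvN r t A) ψ0 ψ) (h4 : r ≠ 4) :
    ∃ c, IsCoprime c (lvN r t A) ∧ lvN (r - 1) t A ∣ c - 1 ∧ ψ c ≠ 1 := by
  obtain ⟨c, -, hcM, hd, hne⟩ := H.ex2 h4
  have h1 := H.r4
  have h2 := H.t5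
  have hc := (H.cop c).mpr hcM
  refine ⟨c, hc, hd, ?_⟩
  rw [row_eq_conj hR (lev_lvN (by omega) H.t5 H.A0) (H.pr_sub (by omega) (by omega)) H.lev.ne hc hd]
  intro h
  apply hne
  have := congrArg conj h
  rwa [Complex.conj_conj, map_one] at this

/-- exact level at `√-3` -/
theorem LvN.ex3' (H : LvN M ψ0 r t A) (hR : RowC (lvN r t A) ψ0 ψ) (h5 : t ≠ 5) :
    ∃ c, IsCoprime c (lvN r t A) ∧ lvN r (t - 1) A ∣ c - 1 ∧ ψ c ≠ 1 := by
  obtain ⟨c, -, hcM, hd, hne⟩ := H.ex3 h5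
  have h1 := H.r4
  have h2 := H.t5
  have hc := (H.cop c).mpr hcM
  refine ⟨c, hc, hd, ?_⟩
  rw [row_eq_conj hR (lev_lvN H.r4 (by omega) H.A0) (H.pr_sub (by omega) (by omega)) H.lev.ne hc hd]
  intro h
  apply hne
  have := congrArg conj h
  rwa [Complex.conj_conj, map_one] at this

/-- `ψ^6 = conj ψ0^6` -/
lemma row_six (hN : Lev N) (hR : RowC N ψ0 ψ) {c : Eis} (hg : Gd c) (hc : IsCoprime c N) :
    ψ c ^ 6 = conj (ψ0 c) ^ 6 := by
  have hS := (ss_self hN).mul (ss_sq3 hN)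
  have e1 : sy 2 c ^ 3 = 1 := sy_pow_three hg ((ss_two hN).cop hc)
  have e2 : sy6 (N * sq3) c ^ 6 = 1 := sy6_pow_six hg.1 hg.2 (hS.cop hc)
  rw [hR c hg hc, mul_pow, mul_pow, ← map_pow conj (sy6 (N * sq3) c), e2,
    show sy 2 c ^ 6 = (sy 2 c ^ 3) ^ 2 by ring, e1]
  simp

open Crest.Agent.R017.GLm74

/-- **purity is inherited.** -/
theorem LvN.pure (H : LvN M ψ0 r t A) (h0 : HC M ψ0) (hP : A590.Pure M ψ0)
    (hR : RowC (lvN r t A) ψ0 ψ) : PureL A (2 ^ r * sq3 ^ t) ψ := by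
  intro p hp hpA
  obtain ⟨a, b, ha, hb, hM⟩ := H.fac
  have hNe : A * (2 ^ r * sq3 ^ t) = lvN r t A := by unfold lvN; ring
  have hpM : p ∣ M := by rw [hM]; exact hpA.mul_left _
  have h2p : ¬ p ∣ 2 := fun h => H.A2 (((hp.associated_of_dvd prime_two h).symm.dvd).trans hpA)
  have h3p : ¬ p ∣ sq3 := fun h => H.A3 (((hp.associated_of_dvd prime_sq3 h).symm.dvd).trans hpA)
  have hp6 : ¬ p ∣ 6 := by
    intro h
    have e6 : (6 : Eis) = 2 * (sq3 * -sq3) := by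
      rw [← three_eq_sq3]; norm_num
    rw [e6] at h
    rcases hp.dvd_or_dvd h with h1 | h1
    · exact h2p h1
    · rcases hp.dvd_or_dvd h1 with h2 | h2
      · exact h3p h2
      · exact h3p ((dvd_neg).mp h2)
  have fp : FiniteMultiplicity p A := FiniteMultiplicity.of_prime_left hp H.A0
  obtain ⟨A1, hA1, hnA1⟩ := fp.exists_eq_pow_mul_and_not_dvd
  set v := multiplicity p A
  have hnp : ∀ n m : ℕ, ¬ p ∣ 2 ^ n * sq3 ^ m * A1 := by
    intro n m h
    rcases hp.dvd_or_dvd h with h1 | h1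
    · rcases hp.dvd_or_dvd h1 with h2 | h2
      · exact h2p (hp.dvd_of_dvd_pow h2)
      · exact h3p (hp.dvd_of_dvd_pow h2)
    · exact hnA1 h1
  have hMv : M = p ^ v * (2 ^ a * sq3 ^ b * A1) := by rw [hM, hA1]; ring
  obtain ⟨c, hcp, hc1, hpc, hne⟩ := hP p hp hpM hp6 v _ hMv (hnp a b)
  -- `b ≡ c mod p^v`, `b ≡ 1` modulo the rest of a common multiple
  have hcop : IsCoprime (p ^ v) (2 ^ (a + r) * sq3 ^ (b + t) * A1) :=
    ((hp.irreducible.coprime_iff_not_dvd).mpr (hnp _ _)).pow_left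
  obtain ⟨b', hb1, hb2⟩ := crt_pm hcop c 1
  have d1 : 2 ^ a * sq3 ^ b * A1 ∣ b' - 1 := by
    refine Dvd.dvd.trans ?_ hb2
    exact mul_dvd_mul (mul_dvd_mul (pow_dvd_pow 2 (by omega)) (pow_dvd_pow sq3 (by omega))) dvd_rfl
  have d2 : 2 ^ r * sq3 ^ t * A1 ∣ b' - 1 := by
    refine Dvd.dvd.trans ?_ hb2
    exact mul_dvd_mul (mul_dvd_mul (pow_dvd_pow 2 (by omega)) (pow_dvd_pow sq3 (by omega))) dvd_rfl
  have hMb : M ∣ b' - c := by
    rw [hMv]
    refine (((hp.irreducible.coprime_iff_not_dvd).mpr (hnp a b)).pow_left).mul_dvd hb1 ?_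
    rw [show b' - c = (b' - 1) - (c - 1) by ring]
    exact dvd_sub d1 hc1
  have h3M : (3 : Eis) ∣ M := h0.three
  have hbp : IsPrim b' := by
    have : b' - 1 = (b' - c) + (c - 1) := by ring
    unfold IsPrim
    rw [this]
    exact dvd_add (h3M.trans hMb) hcp
  have hpb : ¬ p ∣ b' := by
    intro h
    have hpv : p ∣ p ^ v := dvd_pow_self p (by
      intro hv
      rw [hv, pow_zero, one_mul] at hA1
      exact hnA1 (hA1 ▸ hpA))
    have : c = b' - (b' - c) := by ring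
    exact hpc (this ▸ dvd_sub h (hpv.trans hb1))
  have hbN : IsCoprime b' (lvN r t A) := by
    refine isCoprime_of_prime_dvd (fun h => H.lev.ne h.2) (fun q hq h1 h2 => ?_)
    by_cases hqp : q ∣ p
    · exact hpb (((hq.associated_of_dvd hp hqp).symm.dvd).trans h1)
    · have h3 : q ∣ 2 ^ r * sq3 ^ t * A1 := by
        have h4 : q ∣ p ^ v * (2 ^ r * sq3 ^ t * A1) := by
          have e : lvN r t A = p ^ v * (2 ^ r * sq3 ^ t * A1) := by unfold lvN; rw [hA1]; ring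
          rwa [← e]
        rcases hq.dvd_or_dvd h4 with h5 | h5
        · exact absurd (hq.dvd_of_dvd_pow h5) hqp
        · exact h5
      have h4 : q ∣ 1 := by
        have := dvd_sub h1 (h3.trans d2)
        rwa [sub_sub_cancel] at this
      exact hq.not_isUnit (isUnit_of_dvd_one h4)
  refine ⟨b', ⟨v, ?_⟩, hpb, ?_⟩
  · rw [hNe]
    have e : lvN r t A = (2 ^ r * sq3 ^ t * A1) * p ^ v := by unfold lvN; rw [hA1]; ring
    rw [e]
    exact mul_dvd_mul_right d2 _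
  · have hg : Gd b' := ⟨hbp, od_of_cop_lev H.lev hbN⟩
    rw [row_six H.lev hR hg hbN, h0.per b' c hbp hcp hMb]
    intro h
    apply hne
    rw [← map_pow] at h
    have := congrArg conj h
    rwa [Complex.conj_conj, map_one] at this

end Crest.Agent.R017.FinA266
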