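import Crest.Agent.R017.WPolyI_681

/-!
# Row 17, section A: `(m1)` for `rowA`, final form (helper681)

* `fLw`, `fRw` : the left and right functions
* `m1_wK` : the hypothesis `m1` of `Norm358.glueN`
* `tst_L`, `tst_R`, `FPn_fLw`, `FOn_fRw` : expansions
* `rot_FPn`, `rot_FOn` : central types
-/

set_option autoImplicit false

noncomputable section

open Complex
open scoped ComplexConjugate SchwartzMap

namespace Crest.Agent.R017.Glue681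

open Crest.Agent.R012 Crest.Agent.R012.Eis Crest.Agent.R012.Gauss880 Crest.Agent.R017.Loc266
open Crest.Agent.R012.AU681 Crest.Agent.R012.Parseval499 Crest.Agent.R012.K695
open Crest.Agent.R017.Orth681 Crest.Agent.R017.Rw266 Crest.Agent.R017.Xn590
open Crest.Agent.R017.XiI590 (lin datN_lin)
open Crest.Agent.R017.F1 (scl)

variable {N : Eis}

/-- left coefficients. -/
def cL (ξ : Eis → ℂ) {A B : ℕ} (j : JJ A B) : ℂ := lj (ξ 2) (ξ lam) (nm 2) (nm lam) j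

/-- right coefficients. -/
def cR (N x : Eis) (s w0 : ℂ) (ψ γ ξ : Eis → ℂ) (R0 : Eis) {A B : ℕ} (k : K3) (j : JJ A B) : ℂ :=
  rj (ξ 2) (ξ lam) (tK N x s w0 ψ γ R0 k) j

/-- the monomials `ω^c 2^a λ^b`. -/
def mo {A B : ℕ} (j : JJ A B) : Eis := mj 2 lam j

lemma mo_ne {A B : ℕ} (j : JJ A B) : mo j ≠ 0 := by
  unfold mo mj
  rw [mon_e3]
  exact e3_ne _ _ _

lemma moC_ne {A B : ℕ} (j : JJ A B) : toC (mo j) ≠ 0 := by
  rw [Ne, toC_eq_zero]; exact mo_ne j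

/-- left function. -/
def fLw (ξ : Eis → ℂ) (A B : ℕ) (f : ℂ → ℂ) : ℂ → ℂ :=
  lin Finset.univ (fun j : JJ A B => cL ξ j * ((‖toC (mo j)‖ ^ 2 : ℝ) : ℂ)) (fun j => toC (mo j)) f

/-- right functions. -/
def fRw (N x : Eis) (s w0 : ℂ) (ψ γ ξ : Eis → ℂ) (R0 : Eis) (A B : ℕ) (f : ℂ → ℂ) (k : K3) :
    ℂ → ℂ :=
  lin Finset.univ (fun j : JJ A B => cR N x s w0 ψ γ ξ R0 k j * ((‖toC (mo j)‖ ^ 2 : ℝ) : ℂ))
    (fun j => toC (mo j)) f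

variable {x R0 : Eis} {s w0 : ℂ} {ψ γ ξ : Eis → ℂ} {f : ℂ → ℂ} {kp c0' : ℂ} {V : ℝ} {A B : ℕ}

lemma datN_L (hf : DatN 6 s ξ f) : DatN 6 s ξ (fLw ξ A B f) :=
  datN_lin (by norm_num) hf _ _ _ fun j _ => moC_ne j

lemma datN_R (hf : DatN 6 s ξ f) (k : K3) : DatN 6 s ξ (fRw N x s w0 ψ γ ξ R0 A B f k) :=
  datN_lin (by norm_num) hf _ _ _ fun j _ => moC_ne j

/-- expansion of the left function. -/
lemma FPn_fLw (hf : DatN 6 s ξ f) (k0 : ℂ → ℂ) :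
    FPn 6 ξ (fLw ξ A B f) k0 = fun u => ∑ j : JJ A B, cL ξ j * dil (toC (mo j)) (FPn 6 ξ f k0) u :=
  FPn_lin (by norm_num) hf (fun j => moC_ne j) (cL ξ) k0

/-- expansion of the right functions. -/
lemma FOn_fRw (P : XiP ξ kp c0') {h0 B0 B0' : ℂ} (C : XnC 6 s kp V h0 B0 B0')
    (hf : DatN 6 s ξ f) (k0 : 𝓢(ℂ, ℂ)) (k : K3) :
    FOn 6 ξ V h0 B0 (fRw N x s w0 ψ γ ξ R0 A B f k) k0 =
      fun u => ∑ j : JJ A B, cR N x s w0 ψ γ ξ R0 k j *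
        dil (toC (mo j))⁻¹ (FOn 6 ξ V h0 B0 f k0) u :=
  FOn_lin P C hf (fun j => moC_ne j) (cR N x s w0 ψ γ ξ R0 k) k0

lemma tst_L {W0 W0' : Eis → ℂ} {F0' : Vec → ℂ} {k0 : ℂ → ℂ} (hf : DatN 6 s ξ f)
    (hp : PairW s W0 W0' (FPn 6 ξ f k0) F0') : TstN s (FPn 6 ξ (fLw ξ A B f) k0) := by
  rw [FPn_fLw hf]
  exact tst_sum _ fun j => tst_smul _ (tst_dil (moC_ne j) hp.tst)

lemma tst_R (P : XiP ξ kp c0') {h0 B0 B0' : ℂ} (C : XnC 6 s kp V h0 B0 B0')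
    (hf : DatN 6 s ξ f) (k0 : 𝓢(ℂ, ℂ)) {W0 W0' : Eis → ℂ} {F0 : Vec → ℂ}
    (hp : PairW s W0 W0' F0 (FOn 6 ξ V h0 B0 f k0)) (k : K3) :
    TstN s (FOn 6 ξ V h0 B0 (fRw N x s w0 ψ γ ξ R0 A B f k) k0) := by
  rw [FOn_fRw P C hf]
  exact tst_sum _ fun j => tst_smul _ (tst_dil (inv_ne_zero (moC_ne j)) hp.tst')

/-- **`(m1)`** -/
theorem m1_wK (hN : Lev N) (hs : s = 1 ∨ s = -1) (hψ : IsCh N ψ) (hγ : Gm N γ) {m : Eis}
    (X : XiN N ψ γ m ξ) (R : RR N R0)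
    (hpure : ∀ p, Prime p → p ∣ N → ¬ (2 : Eis) ∣ p → ¬ lam ∣ p → ξ p = 0) (hw0 : w0 ≠ 0)
    {r2 rl : ℕ} (L : Lvl2 N r2 rl) (h2 : 1 ≤ r2) (hl : 1 ≤ rl)
    (P : XiP ξ kp c0') {B0 B0' : ℂ} (C : XnC 6 s kp V (toC R0) B0 B0') (hf : DatN 6 s ξ f)
    (k0 : 𝓢(ℂ, ℂ)) (hp : PairW s (baseW 6 R0 s w0 ξ)
      (fun h => s * conj (baseW 6 R0 s w0 ξ h)) (FPn 6 ξ f k0) (FOn 6 ξ V (toC R0) B0 f k0))
    (k : K3) (M : K695.Frm) (hM : det2 M ≠ 0) :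
    opW (fun h => (covol (toC N) : ℂ)⁻¹ * wK N x s ψ γ (cl3 R0) k h)
        (FPn 6 ξ (fLw ξ (r2 + 6) (rl + 6) f) k0) M =
      scl (det2 M) (FOn 6 ξ V (toC R0) B0
        (fRw N x s w0 ψ γ ξ R0 (r2 + 6) (rl + 6) f k) k0) M.2 := by
  have hb : Bdd (fun h => (covol (toC N) : ℂ)⁻¹ * wK N x s ψ γ (cl3 R0) k h) := by
    have := bdd_wK hN (x := x) hs hψ hγ (cl := cl3 R0) k
    exact this.const_mul _
  exact pairV_m1_FO P C hf k0 hp hb (fun j => mo_ne j) (cL ξ) (cR N x s w0 ψ γ ξ R0 k)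
    (m1_of_tab R.ts hs X.u X.ch.mul (tab_wK hN hs X R hpure hw0 k) (by omega) (by omega)
      (qT_supp hN hψ hγ X R L k)) hM

/-! ### Central types -/

lemma dil_one_norm {e : ℂ} (he : ‖e‖ = 1) (F : Vec → ℂ) (u : Vec) : dil e F u = F (e • u) := by
  unfold dil
  rw [he]
  norm_num

lemma lin_rot {J : Type} [Fintype J] {e μ : ℂ} (h : ∀ y, f (e * y) = μ * f y) (c b : J → ℂ)
    (y : ℂ) : lin Finset.univ c b f (e * y) = μ * lin Finset.univ c b f y := by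
  unfold lin
  rw [Finset.mul_sum]
  refine Finset.sum_congr rfl fun j _ => ?_
  have : b j * (e * y) = e * (b j * y) := by ring
  rw [this, h]
  ring

theorem rot_FPn {n : ℕ} {e μ : ℂ} (he : ‖e‖ = 1) (h : ∀ y, f (e * y) = μ * f y) (k0 : ℂ → ℂ)
    (u : Vec) : FPn n ξ f k0 (e • u) = μ * FPn n ξ f k0 u := by
  have he0 : e ≠ 0 := by
    rintro rfl
    simp at he
  have e1 : (fun x => f (e * x)) = fun x => μ * f x := funext h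
  have key := dil_FPn (n := n) (ξ := ξ) he0 f k0 u
  rw [dil_one_norm he, e1, FPn_smul, he] at key
  rw [key]
  norm_num

theorem rot_FOn {n : ℕ} {h0 B0 : ℂ} {e μ : ℂ} (he : ‖e‖ = 1) (hμ : μ ≠ 0)
    (h : ∀ y, f (e * y) = μ * f y) (k0 : ℂ → ℂ) (u : Vec) :
    FOn n ξ V h0 B0 f k0 (e • u) = μ⁻¹ * FOn n ξ V h0 B0 f k0 u := by
  have he0 : e ≠ 0 := by
    rintro rfl
    simp at he
  have e1 : (fun x => f (e⁻¹ * x)) = fun x => μ⁻¹ * f x := by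
    funext x
    have := h (e⁻¹ * x)
    rw [mul_inv_cancel_left₀ he0] at this
    rw [this]
    field_simp
  have key := dil_FOn (n := n) (ξ := ξ) (V := V) (h0 := h0) (B := B0) (inv_ne_zero he0) f k0 u
  rw [inv_inv, dil_one_norm he, e1, FOn_smul, norm_inv, he] at key
  rw [key]
  norm_num

end Crest.Agent.R017.Glue681
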