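import Crest.Agent.R017.EndA2_92
import Crest.Agent.R017.WPolyJ_681
import Crest.Agent.R017.GmK_411
import Crest.Agent.R017.FinA1_266

/-!
# Row 17, section A, end of A, part 0 (helper92): the interface with the glue

* `EndX` : the final identity at one frequency class `x`
* `EndHyp M ψ0 l` : what the glue (266, 358, 681) delivers; `EndHyp M ψ0 l → HasFE M ψ0 l`
-/

set_option autoImplicit false

noncomputable section

open MeasureTheory Complex Set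
open scoped ComplexConjugate SchwartzMap

namespace Crest.Agent.R017.EndA92

open Crest.Agent.R012 Crest.Agent.R012.Eis Crest.Agent.R012.K695 Crest.Agent.R012.Gauss880
open Crest.Agent.R012.Parseval499 Crest.Agent.R017.Xn590 Crest.Agent.R017.Orth681
open Crest.Agent.R017.Glue681 Crest.Agent.R017.Wt92 Crest.Agent.R017.XiI590
open Crest.Agent.R017.Rw266 Crest.Agent.R017.Sx440 Crest.Agent.R017.Sx545
open Crest.Agent.R017.FinA266 Crest.Agent.R017.QS411 Crest.Agent.R017.Tw266 Crest.Agent.R017.Coef92 Crest.Agent.R017.Loc266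

/-- **the final identity at one frequency class `x`** -/
def EndX (N x : Eis) (s κx : ℂ) (ξ ψ γ : Eis → ℂ) (L : ℤ) (A B : ℕ) : Prop :=
  ∃ (K J : Type) (_ : Fintype K) (_ : Fintype J) (V : ℝ) (h0 b0 b0' : ℂ) (hk : K → Eis)
    (cr : K → J → ℂ) (br : J → ℂ),
    XnC 6 s κx V h0 b0 b0' ∧ (∀ k, Ss N (hk k)) ∧ (∀ j, br j ≠ 0) ∧
    ∀ f : ℂ → ℂ, DatN 6 s ξ f → Rot L f → ∀ (k0 : 𝓢(ℂ, ℂ)) (y : ℂ),
      EC (rowA N x fun c => ψ c * γ c) (FPn 6 ξ (fLw ξ A B f) k0) (stF y) =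
        ∑ k, EC (rowA N x (gdual ψ γ (hk k)))
          (FOn 6 ξ V h0 b0 (lin Finset.univ (cr k) br f) k0) (stF y)

/-- **what the glue delivers** for the character `ψ0` modulo `M` and the weight `l`. -/
def EndHyp (M : Eis) (ψ0 : Eis → ℂ) (l : ℤ) : Prop :=
  ∃ (N : Eis) (ψ ξ : Eis → ℂ) (κx cx : ℂ) (A B : ℕ),
    Lev N ∧ (∀ p, Prime p → (p ∣ N ↔ p ∣ M)) ∧ IsCh N ψ ∧ RowC N ψ0 ψ ∧
    XiP ξ κx cx ∧ (∀ u, IsUnit u → ξ u = 1) ∧ (∀ e, Sm M e → conj (ξ e) = ψ0 e ^ 6) ∧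
    6 < A ∧ 6 < B ∧
    ∀ x, IsCoprime x N →
      EndX N x ((-1) ^ (-(l + 1))) κx ξ ψ (fun c => conj (kap4 c)) (-(l + 1)) A B

end Crest.Agent.R017.EndA92
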