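import Crest.Agent.R017.F1Defs_180
import Crest.Agent.R017.XnB_590

/-!
Row 17 (helper960), for helper590's pair theorem: the divisor identity
`Σ_{j e = m} P(j)/N(e) = 6` and the rearrangement
`Σ_j P(j) Σ_e N(e)⁻¹ H(j e) = 6 Σ_m H(m)`.
-/

set_option autoImplicit false

noncomputable section

open Finset

namespace Crest.Agent.R017.XnDiv960

open Crest.Agent.R012 Crest.Agent.R012.Eis Crest.Agent.R012.Mob705
open Crest.Agent.R017.F1
open scoped Classical

/-! ### The local factor `PL` -/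

lemma pp_unit {u : Eis} (hu : IsUnit u) : pp u = ∅ := by
  rw [Finset.eq_empty_iff_forall_notMem]
  intro p hp
  rw [mem_pp hu.ne_zero] at hp
  exact hp.1.2.not_isUnit (isUnit_of_dvd_unit hp.2 hu)

lemma pp_lam : pp lam = ∅ := by
  rw [Finset.eq_empty_iff_forall_notMem]
  intro p hp
  rw [mem_pp lam_ne_zero] at hp
  have h1 : Associated p lam := hp.1.2.associated_of_dvd prime_lam hp.2
  exact hp.1.1.not_lam_dvd h1.symm.dvd

lemma PL_nonneg (n : Eis) : 0 ≤ PL n := by
  classical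
  unfold PL
  have := (PE_pos n).le
  split_ifs <;> positivity

lemma PL_le_one (n : Eis) : PL n ≤ 1 := by
  classical
  unfold PL
  have h1 := (PE_pos n).le
  have h2 := PE_le_one n
  split_ifs <;> linarith

lemma PL_unit {u : Eis} (hu : IsUnit u) : PL u = 1 := by
  classical
  unfold PL
  rw [if_neg fun h => prime_lam.not_isUnit (isUnit_of_dvd_unit h hu)]
  unfold PE
  rw [pp_unit hu]
  simp

/-- primes used in the induction -/
def GP (p : Eis) : Prop := p = lam ∨ IsPP p

lemma GP.prime {p : Eis} (h : GP p) : Prime p := by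
  rcases h with rfl | h
  · exact prime_lam
  · exact h.2

lemma nm_lam : nm lam = 3 := by decide

lemma PL_gp_mul {p : Eis} (hp : GP p) {j : Eis} (hj : j ≠ 0) :
    (p ∣ j → PL (p * j) = PL j) ∧ (¬ p ∣ j → PL (p * j) = (1 - 1 / (nm p : ℝ)) * PL j) := by
  classical
  rcases hp with rfl | hp
  · have e1 : PE (lam * j) = PE j := by
      unfold PE
      rw [pp_mul lam_ne_zero hj, pp_lam, Finset.empty_union]
    unfold PL
    rw [e1, if_pos (dvd_mul_right lam j)]
    constructor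
    · intro h; rw [if_pos h]
    · intro h; rw [if_neg h, nm_lam]; norm_num
  · have hl : lam ∣ p * j ↔ lam ∣ j := by
      constructor
      · intro h
        exact (prime_lam.dvd_or_dvd h).resolve_left hp.1.not_lam_dvd
      · intro h; exact h.mul_left p
    have e2 : pp (p * j) = insert p (pp j) := by
      rw [pp_mul hp.ne_zero hj, pp_prime hp]
      rfl
    unfold PL PE
    rw [e2]
    simp only [hl]
    constructor
    · intro h
      rw [Finset.insert_eq_of_mem ((mem_pp hj).mpr ⟨hp, h⟩)]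
    · intro h
      rw [Finset.prod_insert (fun h' => h ((mem_pp hj).mp h').2)]
      ring

lemma exists_gp {m : Eis} (_hm : m ≠ 0) (hu : ¬ IsUnit m) : ∃ p, GP p ∧ p ∣ m := by
  by_cases hl : lam ∣ m
  · exact ⟨lam, Or.inl rfl, hl⟩
  · obtain ⟨p, hp, h⟩ := exists_pp_dvd hl hu
    exact ⟨p, Or.inr hp, h⟩

/-! ### Pairs -/

/-- pairs `(j, e)` with `j e = m`. -/
def pr (m : Eis) : Finset (Eis × Eis) := by
  classical
  exact (ball (nm m) ×ˢ ball (nm m)).filter fun x => x.1 * x.2 = m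

lemma mem_pr {m : Eis} (hm : m ≠ 0) {x : Eis × Eis} : x ∈ pr m ↔ x.1 * x.2 = m := by
  classical
  unfold pr
  rw [Finset.mem_filter, Finset.mem_product, mem_ball, mem_ball]
  constructor
  · exact fun h => h.2
  · intro h
    have h1 : nm x.1 * nm x.2 = nm m := by rw [← nm_mul, h]
    have h0 : 0 < nm m := nm_pos.mpr hm
    have ha : 0 < nm x.1 := Nat.pos_of_ne_zero fun h' => by rw [h', zero_mul] at h1; omega
    have hb : 0 < nm x.2 := Nat.pos_of_ne_zero fun h' => by rw [h', mul_zero] at h1; omega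
    exact ⟨⟨by nlinarith, by nlinarith⟩, h⟩

/-- `T(m) = Σ_{j e = m} P(j) / N(e)`. -/
def T (m : Eis) : ℝ := ∑ x ∈ pr m, PL x.1 / nm x.2

lemma ne_of_pr {m : Eis} (hm : m ≠ 0) {x : Eis × Eis} (h : x ∈ pr m) : x.1 ≠ 0 ∧ x.2 ≠ 0 := by
  rw [mem_pr hm] at h
  exact ⟨fun h' => hm (by rw [← h, h', zero_mul]), fun h' => hm (by rw [← h, h', mul_zero])⟩

/-- the part `p ∣ e` -/
lemma sum_dvd {p m : Eis} (hp : GP p) (hm : m ≠ 0) :
    ∑ x ∈ (pr (p * m)).filter (fun x => p ∣ x.2), PL x.1 / nm x.2 = T m / nm p := by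
  classical
  have hp0 : p ≠ 0 := hp.prime.ne_zero
  have hpm : p * m ≠ 0 := mul_ne_zero hp0 hm
  unfold T
  rw [Finset.sum_div]
  symm
  refine Finset.sum_bij (fun x _ => (x.1, p * x.2)) ?_ ?_ ?_ ?_
  · intro x hx
    rw [mem_pr hm] at hx
    rw [Finset.mem_filter, mem_pr hpm]
    refine ⟨?_, dvd_mul_right p _⟩
    show x.1 * (p * x.2) = p * m
    rw [← hx]; ring
  · intro x _ y _ h
    simp only [Prod.mk.injEq, mul_eq_mul_left_iff] at h
    exact Prod.ext h.1 (h.2.resolve_right hp0)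
  · intro y hy
    rw [Finset.mem_filter, mem_pr hpm] at hy
    obtain ⟨h1, c, hc⟩ := hy
    refine ⟨(y.1, c), ?_, ?_⟩
    · rw [mem_pr hm]
      apply mul_left_cancel₀ hp0
      show p * (y.1 * c) = p * m
      rw [← h1, hc]; ring
    · exact Prod.ext rfl hc.symm
  · intro x _
    simp only
    rw [nm_mul]
    push_cast
    rw [div_div, mul_comm (nm x.2 : ℝ)]

lemma sum_split {p m : Eis} :
    T m = ∑ x ∈ (pr m).filter (fun x => p ∣ x.2), PL x.1 / nm x.2 +
      ∑ x ∈ (pr m).filter (fun x => ¬ p ∣ x.2), PL x.1 / nm x.2 := by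
  classical
  exact (Finset.sum_filter_add_sum_filter_not _ _ _).symm

/-- the part `p ∤ e` -/
lemma sum_not_dvd {p m : Eis} (hp : GP p) (hm : m ≠ 0) :
    ∑ x ∈ (pr (p * m)).filter (fun x => ¬ p ∣ x.2), PL x.1 / nm x.2 =
      ∑ x ∈ (pr m).filter (fun x => ¬ p ∣ x.2), PL (p * x.1) / nm x.2 := by
  classical
  have hp0 : p ≠ 0 := hp.prime.ne_zero
  have hpm : p * m ≠ 0 := mul_ne_zero hp0 hm
  symm
  refine Finset.sum_bij (fun x _ => (p * x.1, x.2)) ?_ ?_ ?_ ?_
  · intro x hx
    rw [Finset.mem_filter, mem_pr hm] at hx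
    rw [Finset.mem_filter, mem_pr hpm]
    refine ⟨?_, hx.2⟩
    show p * x.1 * x.2 = p * m
    rw [← hx.1]; ring
  · intro x _ y _ h
    simp only [Prod.mk.injEq, mul_eq_mul_left_iff] at h
    exact Prod.ext (h.1.resolve_right hp0) h.2
  · intro y hy
    rw [Finset.mem_filter, mem_pr hpm] at hy
    obtain ⟨h1, h2⟩ := hy
    have h3 : p ∣ y.1 * y.2 := by rw [h1]; exact dvd_mul_right p m
    obtain ⟨c, hc⟩ := (hp.prime.dvd_or_dvd h3).resolve_right h2
    refine ⟨(c, y.2), ?_, ?_⟩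
    · rw [Finset.mem_filter, mem_pr hm]
      refine ⟨?_, h2⟩
      apply mul_left_cancel₀ hp0
      show p * (c * y.2) = p * m
      rw [← h1, hc]; ring
    · exact Prod.ext hc.symm rfl
  · intro x _
    rfl

lemma T_unit {u : Eis} (hu : IsUnit u) : T u = 6 := by
  classical
  have h1 : ∀ x ∈ pr u, PL x.1 / nm x.2 = 1 := by
    intro x hx
    rw [mem_pr hu.ne_zero] at hx
    have ha : IsUnit x.1 := isUnit_of_mul_isUnit_left (by rw [hx]; exact hu)
    have hb : IsUnit x.2 := isUnit_of_mul_isUnit_right (by rw [hx]; exact hu)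
    rw [PL_unit ha, isUnit_iff.mp hb]
    simp
  unfold T
  rw [Finset.sum_congr rfl h1, Finset.sum_const, nsmul_eq_mul, mul_one]
  -- count
  have h2 : (pr u).card = ((ball 1).filter fun z => z ≠ 0).card := by
    refine Finset.card_bij (fun x _ => x.2) ?_ ?_ ?_
    · intro x hx
      rw [mem_pr hu.ne_zero] at hx
      have hb : IsUnit x.2 := isUnit_of_mul_isUnit_right (by rw [hx]; exact hu)
      rw [Finset.mem_filter, mem_ball]
      exact ⟨(isUnit_iff.mp hb).le, hb.ne_zero⟩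
    · intro x hx y hy h
      rw [mem_pr hu.ne_zero] at hx hy
      have hb : IsUnit x.2 := isUnit_of_mul_isUnit_right (by rw [hx]; exact hu)
      refine Prod.ext ?_ h
      apply mul_right_cancel₀ hb.ne_zero
      rw [hx, h, hy]
    · intro z hz
      rw [Finset.mem_filter, mem_ball] at hz
      have h3 : nm z = 1 := by
        have := nm_pos.mpr hz.2
        omega
      obtain ⟨v, hv⟩ := isUnit_iff.mpr h3
      refine ⟨(u * ((v⁻¹ : Eisˣ) : Eis), z), ?_, rfl⟩
      rw [mem_pr hu.ne_zero]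
      show u * ((v⁻¹ : Eisˣ) : Eis) * z = u
      rw [← hv, mul_assoc, Units.inv_mul, mul_one]
  rw [h2]
  have h4 : ((ball 1).filter fun z => z ≠ 0).card = 6 := by
    decide
  rw [h4]
  norm_num

/-- **The divisor identity** `Σ_{j e = m} P(j) / N(e) = 6`. -/
theorem T_eq {m : Eis} (hm : m ≠ 0) : T m = 6 := by
  classical
  induction' hN : nm m using Nat.strong_induction_on with N ih generalizing m
  by_cases hu : IsUnit m
  · exact T_unit hu
  obtain ⟨p, hp, m1, rfl⟩ := exists_gp hm hu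
  have hp0 : p ≠ 0 := hp.prime.ne_zero
  have hm1 : m1 ≠ 0 := right_ne_zero_of_mul hm
  have hp1 : 1 < nm p := by
    have h0 := nm_pos.mpr hp0
    have h1 : nm p ≠ 1 := fun h => hp.prime.not_isUnit (isUnit_iff.mpr h)
    omega
  have hlt : nm m1 < N := by
    rw [← hN, nm_mul]
    have := nm_pos.mpr hm1
    nlinarith
  have hT1 : T m1 = 6 := ih (nm m1) hlt hm1 rfl
  have hpR : (0 : ℝ) < nm p := by exact_mod_cast nm_pos.mpr hp0
  rw [sum_split (p := p), sum_dvd hp hm1, sum_not_dvd hp hm1, hT1]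
  by_cases hd : p ∣ m1
  · have e1 : ∑ x ∈ (pr m1).filter (fun x => ¬ p ∣ x.2), PL (p * x.1) / nm x.2 =
        ∑ x ∈ (pr m1).filter (fun x => ¬ p ∣ x.2), PL x.1 / nm x.2 := by
      refine Finset.sum_congr rfl fun x hx => ?_
      rw [Finset.mem_filter, mem_pr hm1] at hx
      have hx0 : x.1 ≠ 0 := fun h => hm1 (by rw [← hx.1, h, zero_mul])
      have h3 : p ∣ x.1 * x.2 := by rw [hx.1]; exact hd
      rw [(PL_gp_mul hp hx0).1 ((hp.prime.dvd_or_dvd h3).resolve_right hx.2)]
    rw [e1]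
    have e2 := sum_split (p := p) (m := m1)
    obtain ⟨m2, rfl⟩ := hd
    have hm2 : m2 ≠ 0 := right_ne_zero_of_mul hm1
    rw [sum_dvd hp hm2, hT1] at e2
    have hlt2 : nm m2 < N := by
      refine lt_trans ?_ hlt
      rw [nm_mul]
      have := nm_pos.mpr hm2
      nlinarith
    rw [ih (nm m2) hlt2 hm2 rfl] at e2
    linarith
  · have e1 : ∑ x ∈ (pr m1).filter (fun x => ¬ p ∣ x.2), PL (p * x.1) / nm x.2 =
        (1 - 1 / (nm p : ℝ)) * T m1 := by
      have e0 : (pr m1).filter (fun x => ¬ p ∣ x.2) = pr m1 := by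
        rw [Finset.filter_eq_self]
        intro x hx h
        rw [mem_pr hm1] at hx
        exact hd (by rw [← hx]; exact h.mul_left _)
      rw [e0]
      unfold T
      rw [Finset.mul_sum]
      refine Finset.sum_congr rfl fun x hx => ?_
      rw [mem_pr hm1] at hx
      have hx0 : x.1 ≠ 0 := fun h => hm1 (by rw [← hx, h, zero_mul])
      rw [(PL_gp_mul hp hx0).2 (fun h => hd (by rw [← hx]; exact h.mul_right _))]
      ring
    rw [e1, hT1]
    field_simp
    ring

/-! ### The rearrangement -/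

lemma summable_sq : Summable fun z : Eis => ((nm z : ℝ) ^ 2)⁻¹ := by
  refine Summable.of_nonneg_of_le (fun z => by positivity) (fun z => ?_)
    (Xn590.summable_inv3.mul_left 8)
  by_cases hz : z = 0
  · subst hz
    have : nm (0 : Eis) = 0 := nm_eq_zero.mpr rfl
    rw [this]
    simp only [Nat.cast_zero, ne_eq, OfNat.ofNat_ne_zero, not_false_eq_true, zero_pow, inv_zero]
    positivity
  · have h1 := Xn590.one_le_norm_toC hz
    have h2 : (nm z : ℝ) ^ 2 = ‖toC z‖ ^ 4 := by rw [← norm_toC_sq]; ring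
    rw [h2, ← div_eq_mul_inv, inv_eq_one_div, div_le_div_iff₀ (by positivity) (by positivity)]
    have h3 : (1 + ‖toC z‖) ^ 3 ≤ (2 * ‖toC z‖) ^ 3 := by gcongr; linarith
    have h4 : ‖toC z‖ ^ 3 ≤ ‖toC z‖ ^ 4 := pow_le_pow_right₀ h1 (by norm_num)
    nlinarith

theorem div_sum {H : Eis → ℂ} {C : ℝ}
    (hH : ∀ m : Eis, m ≠ 0 → ‖H m‖ ≤ C * ((nm m : ℝ) ^ 2)⁻¹) :
    ∑' j : Eis, (if j = 0 then (0 : ℂ) else (PL j : ℂ) *
      ∑' e : Eis, (if e = 0 then (0 : ℂ) else ((nm e : ℂ))⁻¹ * H (j * e))) =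
      6 * ∑' m : Eis, (if m = 0 then 0 else H m) := by
  classical
  have hC : 0 ≤ C := by
    have h := hH 1 one_ne_zero
    have h1 : nm (1 : Eis) = 1 := isUnit_iff.mp isUnit_one
    rw [h1] at h
    simp at h
    exact (norm_nonneg _).trans h
  set f : Eis × Eis → ℂ := fun x => if x.1 = 0 ∨ x.2 = 0 then 0 else
    (PL x.1 : ℂ) * (((nm x.2 : ℂ))⁻¹ * H (x.1 * x.2)) with hf
  have hbd : ∀ x, ‖f x‖ ≤ C * (((nm x.1 : ℝ) ^ 2)⁻¹ * ((nm x.2 : ℝ) ^ 2)⁻¹) := by
    intro x
    rw [hf]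
    simp only
    split_ifs with h
    · rw [norm_zero]; positivity
    · push Not at h
      have h1 : (1 : ℝ) ≤ nm x.2 := by exact_mod_cast nm_pos.mpr h.2
      rw [norm_mul, norm_mul, Complex.norm_real, Real.norm_eq_abs, abs_of_nonneg (PL_nonneg _),
        norm_inv, Complex.norm_natCast]
      have h2 := hH (x.1 * x.2) (mul_ne_zero h.1 h.2)
      rw [nm_mul] at h2
      push_cast at h2
      have h3 : ((nm x.2 : ℝ))⁻¹ ≤ 1 := inv_le_one_of_one_le₀ h1
      calc PL x.1 * (((nm x.2 : ℝ))⁻¹ * ‖H (x.1 * x.2)‖)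
          ≤ 1 * (1 * (C * (((nm x.1 : ℝ) * nm x.2) ^ 2)⁻¹)) := by
            gcongr
            · exact PL_le_one _
        _ = C * (((nm x.1 : ℝ) ^ 2)⁻¹ * ((nm x.2 : ℝ) ^ 2)⁻¹) := by
            rw [mul_pow, mul_inv]; ring
  have hsum : Summable f := by
    refine Summable.of_norm_bounded ?_ hbd
    have := (summable_sq.mul_of_nonneg summable_sq (fun _ => by positivity)
      (fun _ => by positivity)).mul_left C
    exact this
  -- left-hand side
  have hL : ∑' j : Eis, (if j = 0 then (0 : ℂ) else (PL j : ℂ) *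
      ∑' e : Eis, (if e = 0 then (0 : ℂ) else ((nm e : ℂ))⁻¹ * H (j * e))) = ∑' x, f x := by
    rw [hsum.tsum_prod]
    refine tsum_congr fun j => ?_
    by_cases hj : j = 0
    · rw [if_pos hj]
      simp [hf, hj]
    · rw [if_neg hj, ← tsum_mul_left]
      refine tsum_congr fun e => ?_
      simp only [hf, hj, false_or]
      split_ifs <;> simp
  rw [hL, ← tsum_mul_left]
  have hfib := (hsum.hasSum.tsum_fiberwise (fun x : Eis × Eis => x.1 * x.2)).tsum_eq
  rw [← hfib]
  refine tsum_congr fun m => ?_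
  by_cases hm : m = 0
  · subst hm
    rw [if_pos rfl, mul_zero]
    have : ∀ b : (fun x : Eis × Eis => x.1 * x.2) ⁻¹' {0}, f b = 0 := by
      rintro ⟨x, hx⟩
      simp only [Set.mem_preimage, Set.mem_singleton_iff, mul_eq_zero] at hx
      simp only [hf]
      rw [if_pos hx]
    simp [this]
  · rw [if_neg hm]
    have hset : ((fun x : Eis × Eis => x.1 * x.2) ⁻¹' {m}) = ((pr m : Finset (Eis × Eis)) :
        Set (Eis × Eis)) := by
      ext x
      rw [Set.mem_preimage, Set.mem_singleton_iff, Finset.mem_coe, mem_pr hm]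
    rw [hset]
    have : ∑' x : ((pr m : Finset (Eis × Eis)) : Set (Eis × Eis)), f x = ∑ x ∈ pr m, f x :=
      Finset.tsum_subtype' _ _
    rw [this]
    have h6 : ((T m : ℝ) : ℂ) = 6 := by rw [T_eq hm]; norm_num
    rw [← h6]
    unfold T
    push_cast
    rw [Finset.sum_mul]
    refine Finset.sum_congr rfl fun x hx => ?_
    have h0 := ne_of_pr hm hx
    rw [mem_pr hm] at hx
    simp only [hf]
    rw [if_neg (by push Not; exact h0), hx]
    ring

end Crest.Agent.R017.XnDiv960
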