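import Crest.Agent.R017.Glue5_681
import Crest.Agent.R017.XnDiv_960

/-!
# Row 17, section A: the glue, part 6 (helper681)

* `PL_prime_mul`, `PL_prP`
* `HP` : data of a Hilbert prime (two types), `HP.loc`, `HP.loc_ok`
-/

set_option autoImplicit false

noncomputable section

open MeasureTheory Complex Set Filter
open scoped ENNReal ComplexConjugate Topology SchwartzMap

namespace Crest.Agent.R017.Glue681

open Crest.Agent.R012 Crest.Agent.R012.Eis Crest.Agent.R012.K695 Crest.Agent.R012.AU681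
  Crest.Agent.R012.Parseval499 Crest.Agent.R017.Orth681 Crest.Agent.R017.Xn590
open Crest.Agent.R012.Mob705
open Crest.Agent.R017.F1 (scl PL)

/-! ### `P(j)` -/

lemma PL_unit_mul {u : Eis} (hu : IsUnit u) {j : Eis} (hj : j ≠ 0) : PL (u * j) = PL j := by
  classical
  have e1 : PE (u * j) = PE j := by
    unfold PE
    rw [pp_mul hu.ne_zero hj, XnDiv960.pp_unit hu, Finset.empty_union]
  have e2 : lam ∣ u * j ↔ lam ∣ j := hu.dvd_mul_left
  unfold PL
  rw [e1]
  simp only [e2]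

lemma PL_neg {j : Eis} (hj : j ≠ 0) : PL (-j) = PL j := by
  have := PL_unit_mul (u := -1) isUnit_one.neg hj
  rwa [neg_one_mul] at this

lemma PL_prime_mul {p : Eis} (hp : Prime p) {j : Eis} (hj : j ≠ 0) :
    (p ∣ j → PL (p * j) = PL j) ∧ (¬ p ∣ j → PL (p * j) = (1 - 1 / (nm p : ℝ)) * PL j) := by
  obtain ⟨q, hq, hqp⟩ := XnDiv960.exists_gp hp.ne_zero hp.not_isUnit
  have has : Associated q p := hq.prime.associated_of_dvd hp hqp
  obtain ⟨u, rfl⟩ := has
  have huj : (u : Eis) * j ≠ 0 := mul_ne_zero u.ne_zero hj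
  have h1 := XnDiv960.PL_gp_mul hq huj
  rw [PL_unit_mul u.isUnit hj] at h1
  have h2 : q ∣ (u : Eis) * j ↔ q ∣ j := u.isUnit.dvd_mul_left
  have h3 : q * (u : Eis) ∣ j ↔ q ∣ j := u.isUnit.mul_right_dvd
  have h4 : nm (q * (u : Eis)) = nm q := by
    rw [nm_mul, isUnit_iff.mp u.isUnit, mul_one]
  rw [h3, h4, mul_assoc, ← h2]
  exact h1

lemma PL_pow_mul {p : Eis} (hp : Prime p) {j : Eis} (hj : j ≠ 0) (hpj : ¬ p ∣ j) (a : ℕ) :
    PL (p ^ a * j) = (if a = 0 then 1 else 1 - 1 / (nm p : ℝ)) * PL j := by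
  rcases a with _ | a
  · simp
  · rw [if_neg (Nat.succ_ne_zero a)]
    induction a with
    | zero => rw [pow_one, (PL_prime_mul hp hj).2 hpj]
    | succ a ih =>
      have hne : p ^ (a + 1) * j ≠ 0 := mul_ne_zero (pow_ne_zero _ hp.ne_zero) hj
      rw [pow_succ', mul_assoc, (PL_prime_mul hp hne).1 ((dvd_pow_self p (by omega)).mul_right _), ih]

lemma PL_prP (L : List Loc) (hp : ∀ l ∈ L, Prime l.p) (hd : Dist L) (a : Eis → ℕ) {j : Eis}
    (hj : j ≠ 0) (hcop : ∀ l ∈ L, ¬ l.p ∣ j) :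
    PL (prP L a * j) =
      (L.map fun l => (if a l.p = 0 then 1 else 1 - 1 / (nm l.p : ℝ))).prod * PL j := by
  induction L with
  | nil => simp [prP]
  | cons l L ih =>
    unfold Dist at hd
    rw [List.pairwise_cons] at hd
    have hp' : ∀ l ∈ L, Prime l.p := fun b hb => hp b (by simp [hb])
    have hl := hp l (by simp)
    rw [prP_cons, mul_assoc, PL_pow_mul hl (mul_ne_zero (prP_ne L hp' a) hj),
      ih hp' hd.2 fun a ha => hcop a (by simp [ha])]
    · rw [List.map_cons, List.prod_cons]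
      ring
    · intro h
      rcases hl.dvd_or_dvd h with h | h
      · exact not_dvd_prP L hp' hl hd.1 a h
      · exact hcop l (by simp) h

/-! ### Hilbert primes: the two types -/

/-- base weight at a Hilbert prime: `x^i (1 - 1/q)^{[i > 0]}` at `v0 + 6 i`. -/
def w0T (q : ℝ) (v0 : ℕ) (x : ℂ) (v : ℕ) : ℂ :=
  if v0 ≤ v ∧ 6 ∣ (v - v0) then x ^ ((v - v0) / 6) * (if v = v0 then 1 else ((1 - 1 / q : ℝ) : ℂ))
  else 0

/-- final weight, first type: `c (-1/q)` at `v0`, `c (1 - 1/q) x^i` at `v0 + 6 i`, `i ≥ 1`. -/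
def wI (q : ℝ) (v0 : ℕ) (x c : ℂ) (v : ℕ) : ℂ :=
  if v = v0 then c * ((-1 / q : ℝ) : ℂ) else c * w0T q v0 x v

/-- final weight, second type: `c κ` at `v0`, `c y (1 - 1/q) x^i` at `v0 + 3 + 6 i`. -/
def wII (q : ℝ) (v0 : ℕ) (x y c : ℂ) (kap : ℝ) (v : ℕ) : ℂ :=
  if v = v0 then c * (kap : ℂ) else
    if v0 + 3 ≤ v ∧ 6 ∣ (v - (v0 + 3)) then
      c * y * (x ^ ((v - (v0 + 3)) / 6) * ((1 - 1 / q : ℝ) : ℂ)) else 0

lemma w0T_at (q : ℝ) (v0 : ℕ) (x : ℂ) (i : ℕ) :
    w0T q v0 x (v0 + 6 * i) = x ^ i * (if i = 0 then 1 else ((1 - 1 / q : ℝ) : ℂ)) := by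
  unfold w0T
  rw [if_pos ⟨by omega, ⟨i, by omega⟩⟩]
  have e1 : (v0 + 6 * i - v0) / 6 = i := by omega
  rw [e1]
  by_cases hi : i = 0
  · rw [if_pos (by omega), if_pos hi]
  · rw [if_neg (by omega), if_neg hi]

lemma w0T_zero (q : ℝ) (v0 : ℕ) (x : ℂ) {v : ℕ} (h : ∀ i, v ≠ v0 + 6 * i) : w0T q v0 x v = 0 := by
  unfold w0T
  rw [if_neg]
  rintro ⟨h1, ⟨i, h2⟩⟩
  exact h i (by omega)

lemma wI_v0 (q : ℝ) (v0 : ℕ) (x c : ℂ) : wI q v0 x c v0 = c * ((-1 / q : ℝ) : ℂ) := by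
  unfold wI
  rw [if_pos rfl]

lemma wI_at (q : ℝ) (v0 : ℕ) (x c : ℂ) {i : ℕ} (hi : i ≠ 0) :
    wI q v0 x c (v0 + 6 * i) = c * (x ^ i * ((1 - 1 / q : ℝ) : ℂ)) := by
  unfold wI
  rw [if_neg (by omega), w0T_at, if_neg hi]

lemma wI_zero (q : ℝ) (v0 : ℕ) (x c : ℂ) {v : ℕ} (h : ∀ i, v ≠ v0 + 6 * i) :
    wI q v0 x c v = 0 := by
  unfold wI
  rw [if_neg (fun h0 => h 0 (by omega)), w0T_zero q v0 x h, mul_zero]

lemma wII_v0 (q : ℝ) (v0 : ℕ) (x y c : ℂ) (kap : ℝ) : wII q v0 x y c kap v0 = c * (kap : ℂ) := by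
  unfold wII
  rw [if_pos rfl]

lemma wII_at (q : ℝ) (v0 : ℕ) (x y c : ℂ) (kap : ℝ) (i : ℕ) :
    wII q v0 x y c kap (v0 + 3 + 6 * i) = c * y * (x ^ i * ((1 - 1 / q : ℝ) : ℂ)) := by
  unfold wII
  rw [if_neg (by omega), if_pos ⟨by omega, ⟨i, by omega⟩⟩]
  have e1 : (v0 + 3 + 6 * i - (v0 + 3)) / 6 = i := by omega
  rw [e1]

lemma wII_zero (q : ℝ) (v0 : ℕ) (x y c : ℂ) (kap : ℝ) {v : ℕ} (h0 : v ≠ v0)
    (h : ∀ i, v ≠ v0 + 3 + 6 * i) : wII q v0 x y c kap v = 0 := by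
  unfold wII
  rw [if_neg h0, if_neg]
  rintro ⟨h1, ⟨i, h2⟩⟩
  exact h i (by omega)

/-- data of a Hilbert prime. -/
structure HP where
  p : Eis
  v0 : ℕ
  two : Bool
  y : ℂ
  c : ℂ
  kap : ℝ

/-- `ξ(p)`. -/
def HP.x (d : HP) : ℂ := if d.two then d.y ^ 2 else d.y

def HP.k (d : HP) : ℝ := if d.two then d.kap else -1 / (nm d.p : ℝ)

/-- the final local weight. -/
def HP.w (d : HP) (v : ℕ) : ℂ :=
  if d.two then wII (nm d.p) d.v0 d.x d.y d.c d.kap v else wI (nm d.p) d.v0 d.x d.c v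

/-- the base local weight. -/
def HP.w0 (d : HP) (v : ℕ) : ℂ := w0T (nm d.p) d.v0 d.x v

structure HP.Ok (d : HP) : Prop where
  prime : Prime d.p
  y1 : ‖d.y‖ = 1
  c1 : ‖d.c‖ = 1
  kap2 : d.two = true → d.kap ^ 2 = 1 / (nm d.p : ℝ)

/-- the local data of the step. -/
def HP.loc (d : HP) : Loc where
  p := d.p
  m := if d.two then 3 else 6
  k := (d.k : ℂ)
  y := d.y
  y' := conj d.y
  c := d.c
  c' := conj d.c
  w := d.w
  w' := fun v => conj (d.w v)
  w0 := d.w0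
  w0' := fun v => conj (d.w0 v)

lemma conj_mul_self1 {z : ℂ} (h : ‖z‖ = 1) : z * conj z = 1 := by
  rw [Complex.mul_conj, Complex.normSq_eq_norm_sq, h]
  norm_num

lemma HP.Ok.x1 {d : HP} (h : d.Ok) : ‖d.x‖ = 1 := by
  unfold HP.x
  split_ifs
  · rw [norm_pow, h.y1, one_pow]
  · exact h.y1

lemma nm_prime_gt {p : Eis} (hp : Prime p) : 1 < nm p := by
  have h3 : nm p ≠ 0 := (nm_pos.mpr hp.ne_zero).ne'
  have h4 : nm p ≠ 1 := fun h => hp.not_isUnit (isUnit_iff.mpr h)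
  omega

lemma HP.Ok.q1 {d : HP} (h : d.Ok) : (1 : ℝ) < (nm d.p : ℝ) := by
  exact_mod_cast nm_prime_gt h.prime

lemma norm_one_sub {q : ℝ} (hq : 1 < q) : ‖((1 - 1 / q : ℝ) : ℂ)‖ ≤ 1 := by
  rw [Complex.norm_real, Real.norm_eq_abs, abs_le]
  have h1 : 0 < 1 / q := by positivity
  have h2 : 1 / q < 1 := by rw [div_lt_one (by linarith)]; exact hq
  constructor <;> linarith

lemma norm_w0T {q : ℝ} (hq : 1 < q) (v0 : ℕ) {x : ℂ} (hx : ‖x‖ = 1) (v : ℕ) :
    ‖w0T q v0 x v‖ ≤ 1 := by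
  unfold w0T
  split_ifs
  · rw [norm_mul, norm_pow, hx, one_pow, one_mul, norm_one]
  · rw [norm_mul, norm_pow, hx, one_pow, one_mul]
    exact norm_one_sub hq
  · rw [norm_zero]; exact zero_le_one

lemma HP.Ok.norm_w0 {d : HP} (h : d.Ok) (v : ℕ) : ‖d.w0 v‖ ≤ 1 := norm_w0T h.q1 _ h.x1 v

lemma HP.Ok.norm_w {d : HP} (h : d.Ok) (v : ℕ) : ‖d.w v‖ ≤ 1 := by
  have hq := h.q1
  unfold HP.w
  split_ifs with h2
  · unfold wII
    split_ifs
    · rw [norm_mul, h.c1, one_mul, Complex.norm_real, Real.norm_eq_abs]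
      have h3 := h.kap2 h2
      have h4 : d.kap ^ 2 ≤ 1 := by
        rw [h3, div_le_one (by linarith)]
        exact hq.le
      exact (sq_le_one_iff_abs_le_one _).mp h4
    · rw [norm_mul, norm_mul, norm_mul, h.c1, h.y1, norm_pow, h.x1, one_pow, one_mul, one_mul,
        one_mul]
      exact norm_one_sub hq
    · rw [norm_zero]; exact zero_le_one
  · unfold wI
    split_ifs
    · rw [norm_mul, h.c1, one_mul, Complex.norm_real, Real.norm_eq_abs, abs_div, abs_neg, abs_one,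
        div_le_one (by positivity), abs_of_pos (by linarith)]
      exact hq.le
    · rw [norm_mul, h.c1, one_mul]
      exact norm_w0T hq _ h.x1 v

/-- relation of the first type. -/
lemma relI {q : ℝ} (hq : q ≠ 0) (v0 : ℕ) (x c : ℂ) (v : ℕ) :
    wI q v0 x c (v + 6) + ((-1 / q : ℝ) : ℂ) * x * wI q v0 x c v =
      c * (x * w0T q v0 x v + ((-1 / q : ℝ) : ℂ) * w0T q v0 x (v + 6)) := by
  have hqC : (q : ℂ) ≠ 0 := by exact_mod_cast hq
  by_cases h1 : ∃ i, v = v0 + 6 * i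
  · obtain ⟨i, rfl⟩ := h1
    have e : v0 + 6 * i + 6 = v0 + 6 * (i + 1) := by ring
    rw [e, wI_at q v0 x c (Nat.succ_ne_zero i), w0T_at, w0T_at, if_neg (Nat.succ_ne_zero i)]
    by_cases hi : i = 0
    · subst hi
      rw [Nat.mul_zero, add_zero, wI_v0, if_pos rfl]
      push_cast
      field_simp
      ring
    · rw [wI_at q v0 x c hi, if_neg hi]
      push_cast
      rw [pow_succ]
      field_simp
  · push Not at h1
    rw [wI_zero q v0 x c h1, w0T_zero q v0 x h1]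
    by_cases h2 : v + 6 = v0
    · rw [h2, wI_v0]
      have := w0T_at q v0 x 0
      rw [Nat.mul_zero, add_zero, if_pos rfl, pow_zero, one_mul] at this
      rw [this]
      ring
    · have h3 : ∀ i, v + 6 ≠ v0 + 6 * i := by
        intro i hi
        rcases i with _ | i
        · exact h2 (by omega)
        · exact h1 i (by omega)
      rw [wI_zero q v0 x c h3, w0T_zero q v0 x h3]
      ring

lemma relIn {q : ℝ} (v0 : ℕ) (x c : ℂ) {v : ℕ} (hv : v < 6) :
    wI q v0 x c v = c * (((-1 / q : ℝ) : ℂ) * w0T q v0 x v) := by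
  by_cases h1 : v = v0
  · subst h1
    have := w0T_at q v x 0
    rw [Nat.mul_zero, add_zero, if_pos rfl, pow_zero, one_mul] at this
    rw [wI_v0, this, mul_one]
  · have h3 : ∀ i, v ≠ v0 + 6 * i := by
      intro i hi
      rcases i with _ | i
      · exact h1 (by omega)
      · omega
    rw [wI_zero q v0 x c h3, w0T_zero q v0 x h3]
    ring

/-- relation of the second type. -/
lemma relII {q : ℝ} (hq : q ≠ 0) (v0 : ℕ) (x y c : ℂ) (kap : ℝ) (hx : y ^ 2 = x)
    (hk : kap ^ 2 = 1 / q) (v : ℕ) :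
    wII q v0 x y c kap (v + 3) + (kap : ℂ) * y * wII q v0 x y c kap v =
      c * (y * w0T q v0 x v + (kap : ℂ) * w0T q v0 x (v + 3)) := by
  have hqC : (q : ℂ) ≠ 0 := by exact_mod_cast hq
  have hkC : (kap : ℂ) ^ 2 = 1 / (q : ℂ) := by exact_mod_cast hk
  by_cases h1 : ∃ i, v = v0 + 6 * i
  · obtain ⟨i, rfl⟩ := h1
    have e : v0 + 6 * i + 3 = v0 + 3 + 6 * i := by ring
    rw [e, wII_at, w0T_at, w0T_zero q v0 x (v := v0 + 3 + 6 * i) (fun j => by omega)]
    by_cases hi : i = 0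
    · subst hi
      rw [Nat.mul_zero, add_zero, wII_v0, if_pos rfl]
      push_cast
      linear_combination (c * y) * hkC
    · rw [wII_zero q v0 x y c kap (v := v0 + 6 * i) (by omega) (fun j => by omega), if_neg hi]
      ring
  · push Not at h1
    rw [w0T_zero q v0 x h1]
    by_cases h2 : ∃ i, v = v0 + 3 + 6 * i
    · obtain ⟨i, rfl⟩ := h2
      have e : v0 + 3 + 6 * i + 3 = v0 + 6 * (i + 1) := by ring
      rw [e, wII_zero q v0 x y c kap (v := v0 + 6 * (i + 1)) (by omega) (fun j => by omega), wII_at,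
        w0T_at, if_neg (Nat.succ_ne_zero i)]
      rw [← hx]
      ring
    · push Not at h2
      rw [wII_zero q v0 x y c kap (v := v) (fun h => h1 0 (by omega)) h2]
      by_cases h3 : v + 3 = v0
      · rw [h3, wII_v0]
        have := w0T_at q v0 x 0
        rw [Nat.mul_zero, add_zero, if_pos rfl, pow_zero, one_mul] at this
        rw [this]
        ring
      · have h4 : ∀ i, v + 3 ≠ v0 + 6 * i := by
          intro i hi
          rcases i with _ | i
          · exact h3 (by omega)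
          · exact h2 i (by omega)
        rw [wII_zero q v0 x y c kap (v := v + 3) h3 (fun i hi => h1 i (by omega)),
          w0T_zero q v0 x h4]
        ring

lemma relIIn {q : ℝ} (v0 : ℕ) (x y c : ℂ) (kap : ℝ) {v : ℕ} (hv : v < 3) :
    wII q v0 x y c kap v = c * ((kap : ℂ) * w0T q v0 x v) := by
  by_cases h1 : v = v0
  · subst h1
    have := w0T_at q v x 0
    rw [Nat.mul_zero, add_zero, if_pos rfl, pow_zero, one_mul] at this
    rw [wII_v0, this, mul_one]
  · rw [wII_zero q v0 x y c kap h1 (fun i => by omega), w0T_zero q v0 x (fun i hi => by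
      rcases i with _ | i
      · exact h1 (by omega)
      · omega)]
    ring

theorem HP.loc_ok {d : HP} (h : d.Ok) : d.loc.Ok := by
  have hq : (nm d.p : ℝ) ≠ 0 := by have := h.q1; positivity
  have R1 : ∀ v, d.w (v + d.loc.m) + (d.k : ℂ) * d.y * d.w v =
      d.c * (d.y * d.w0 v + (d.k : ℂ) * d.w0 (v + d.loc.m)) := by
    intro v
    cases h2 : d.two with
    | true =>
      have e1 : d.loc.m = 3 := by simp [HP.loc, h2]
      rw [e1]
      simp only [HP.w, HP.w0, HP.k, HP.x, h2, if_true]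
      exact relII hq d.v0 (d.y ^ 2) d.y d.c d.kap rfl (h.kap2 h2) v
    | false =>
      have e1 : d.loc.m = 6 := by simp [HP.loc, h2]
      rw [e1]
      simp only [HP.w, HP.w0, HP.k, HP.x, h2, Bool.false_eq_true, if_false]
      exact relI hq d.v0 d.y d.c v
  have R1n : ∀ v, v < d.loc.m → d.w v = d.c * ((d.k : ℂ) * d.w0 v) := by
    intro v hv
    cases h2 : d.two with
    | true =>
      have e1 : d.loc.m = 3 := by simp [HP.loc, h2]
      rw [e1] at hv
      simp only [HP.w, HP.w0, HP.k, HP.x, h2, if_true]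
      exact relIIn d.v0 (d.y ^ 2) d.y d.c d.kap hv
    | false =>
      have e1 : d.loc.m = 6 := by simp [HP.loc, h2]
      rw [e1] at hv
      simp only [HP.w, HP.w0, HP.k, HP.x, h2, Bool.false_eq_true, if_false]
      exact relIn d.v0 d.y d.c hv
  refine ⟨h.prime, conj_mul_self1 h.y1, conj_mul_self1 h.c1, ⟨1, h.norm_w⟩, ⟨1, fun v => ?_⟩,
    ⟨1, h.norm_w0⟩, ⟨1, fun v => ?_⟩, R1, R1n, fun v => ?_, fun v hv => ?_⟩
  · exact (RCLike.norm_conj _).trans_le (h.norm_w v)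
  · exact (RCLike.norm_conj _).trans_le (h.norm_w0 v)
  · have := congrArg conj (R1 v)
    simp only [map_add, map_mul, Complex.conj_ofReal] at this
    exact this
  · have := congrArg conj (R1n v hv)
    simp only [map_mul, Complex.conj_ofReal] at this
    exact this

end Crest.Agent.R017.Glue681
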