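import Crest.Agent.R017.XnC_590

/-!
Row 17, section F / A (helper590): the function `f_+` and the test function `F = f_+(z₁) k(z₂/z₁)`.
-/

set_option autoImplicit false

noncomputable section

open Complex MeasureTheory Set Filter Topology
open scoped FourierTransform ContDiff SchwartzMap ComplexConjugate

namespace Crest.Agent.R017.Xn590

open Crest.Agent.R012 Crest.Agent.R012.Eis Crest.Agent.R012.Po581 Crest.Agent.R012.K695
open Crest.Agent.R017.Xi590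

variable {n : ℕ} {s : ℂ} {ξ : Eis → ℂ} {κ c : ℂ} {V : ℝ} {h0 B B' : ℂ} {f : ℂ → ℂ}

/-- `W(t) = ‖t‖^{2n-2} f(t^n)` -/
def Ctx.W (h : Ctx n s ξ κ c V h0 B B' f) : 𝓢(ℂ, ℂ) := (CS_powW h.cs (2 * (n - 1)) h.n0).S

lemma Ctx.W_apply (h : Ctx n s ξ κ c V h0 B B' f) (t : ℂ) :
    h.W t = ((‖t‖ ^ (2 * (n - 1)) : ℝ) : ℂ) * f (t ^ n) := rfl

lemma norm_toC_pow (e : Eis) (k : ℕ) : ‖toC e‖ ^ (2 * k) = (nm e : ℝ) ^ k := by
  rw [pow_mul, norm_toC_sq]

/-- `Θ_W(t) = 6 ‖t‖^{2n-2} f_+(t^n)` -/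
lemma Th_W (h : Ctx n s ξ κ c V h0 B B' f) (t : ℂ) :
    Th ξ h.W t = 6 * (((‖t‖ ^ (2 * (n - 1)) : ℝ) : ℂ) * fPn n ξ f (t ^ n)) := by
  unfold Th fPn
  have e1 : ∀ m : Eis, ξ m * h.W (t * toC m) = ((‖t‖ ^ (2 * (n - 1)) : ℝ) : ℂ) *
      (ξ m * ((nm m : ℂ) ^ (n - 1) * f (toC m ^ n * t ^ n))) := by
    intro m
    rw [h.W_apply, norm_mul, mul_pow, norm_toC_pow, mul_pow, mul_comm (t ^ n) (toC m ^ n)]
    push_cast
    ring
  simp_rw [e1]
  rw [tsum_mul_left]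
  ring

lemma fPn_zero (h : Ctx n s ξ κ c V h0 B B' f) : fPn n ξ f 0 = 0 := by
  unfold fPn
  simp [h.cs.zero]

lemma fPn_neg (h : Ctx n s ξ κ c V h0 B B' f) (x : ℂ) : fPn n ξ f (-x) = s * fPn n ξ f x := by
  unfold fPn
  have e1 : ∀ m : Eis, ξ m * ((nm m : ℂ) ^ (n - 1) * f (toC m ^ n * -x)) =
      s * (ξ m * ((nm m : ℂ) ^ (n - 1) * f (toC m ^ n * x))) := by
    intro m
    rw [mul_neg, h.D.par]
    ring
  simp_rw [e1]
  rw [tsum_mul_left]
  ring

/-- bounded support -/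
lemma fPn_supp (h : Ctx n s ξ κ c V h0 B B' f) : ∃ b : ℝ, 0 < b ∧ ∀ x, b < ‖x‖ →
    fPn n ξ f x = 0 := by
  obtain ⟨a, b, ha, hab, hs⟩ := h.cs.supp
  refine ⟨b, ha.trans hab, fun x hx => ?_⟩
  unfold fPn
  have : ∀ m : Eis, ξ m * ((nm m : ℂ) ^ (n - 1) * f (toC m ^ n * x)) = 0 := by
    intro m
    by_cases hm : m = 0
    · subst hm
      have : (nm 0 : ℂ) ^ (n - 1) = 0 := by
        have h1 : nm 0 = 0 := by decide
        rw [h1]
        have := h.n2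
        simp
        omega
      rw [this]
      ring
    · rw [hs (toC m ^ n * x), mul_zero, mul_zero]
      right
      rw [norm_mul, norm_pow]
      have h1 := one_le_norm_toC hm
      have h2 : 1 ≤ ‖toC m‖ ^ n := one_le_pow₀ h1
      nlinarith [norm_nonneg x]
  simp_rw [this]
  simp

/-- decay at `0` -/
theorem fPn_dec (h : Ctx n s ξ κ c V h0 B B' f)
    (hW : ξ 0 * ∫ t : ℂ, powW (2 * (n - 1)) n f t = 0) (A : ℕ) :
    ∃ C : ℝ, 0 ≤ C ∧ ∀ x : ℂ, ‖fPn n ξ f x‖ ≤ C * ‖x‖ ^ A := by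
  have hW0 : ξ 0 * h.W 0 = 0 := by
    rw [h.W_apply, norm_zero, zero_pow (by have := h.n2; omega)]
    simp
  obtain ⟨C, hC0, hC⟩ := h.X.th_dec h.W hW0 hW (n * A + 2 * (n - 1))
  refine ⟨C, hC0, fun x => ?_⟩
  by_cases hx : x = 0
  · subst hx
    rw [fPn_zero h, norm_zero]
    positivity
  have ht : nrt n x ≠ 0 := nrt_ne_zero h.n0 hx
  have htp : 0 < ‖nrt n x‖ := norm_pos_iff.mpr ht
  have h1 := (hC _ ht).1
  have e1 : ‖nrt n x‖ ^ (n * A) = ‖x‖ ^ A := by rw [pow_mul, norm_nrt_pow h.n0]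
  rw [Th_W h, nrt_pow h.n0, norm_mul, norm_mul, Complex.norm_real,
    Real.norm_of_nonneg (by positivity), pow_add, e1] at h1
  have h6 : ‖(6 : ℂ)‖ = 6 := by norm_num
  rw [h6] at h1
  have hp : 0 < ‖nrt n x‖ ^ (2 * (n - 1)) := by positivity
  have h2 : ‖nrt n x‖ ^ (2 * (n - 1)) * (6 * ‖fPn n ξ f x‖) ≤
      ‖nrt n x‖ ^ (2 * (n - 1)) * (C * ‖x‖ ^ A) := by
    calc ‖nrt n x‖ ^ (2 * (n - 1)) * (6 * ‖fPn n ξ f x‖)
        = 6 * (‖nrt n x‖ ^ (2 * (n - 1)) * ‖fPn n ξ f x‖) := by ring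
      _ ≤ C * (‖x‖ ^ A * ‖nrt n x‖ ^ (2 * (n - 1))) := h1
      _ = _ := by ring
  have h3 := le_of_mul_le_mul_left h2 hp
  linarith [norm_nonneg (fPn n ξ f x)]

/-- the sum defining `f_+` is continuous off `0` -/
lemma fPn_contAt (h : Ctx n s ξ κ c V h0 B B' f) {x : ℂ} (hx : x ≠ 0) :
    ContinuousAt (fPn n ξ f) x := by
  have hxp : 0 < ‖x‖ := norm_pos_iff.mpr hx
  obtain ⟨C, hC0, hC⟩ := sch_dec h.cs.S 5
  set d : ℝ := ‖x‖ / 2 with hd
  have hd0 : 0 < d := by positivity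
  have hS : {v : ℂ | d < ‖v‖} ∈ 𝓝 x :=
    (isOpen_lt continuous_const continuous_norm).mem_nhds (by
      show d < ‖x‖
      rw [hd]; linarith)
  have hc : ContinuousOn (fun v : ℂ => ∑' m : Eis, ξ m * ((nm m : ℂ) ^ (n - 1) *
      f (toC m ^ n * v))) {v : ℂ | d < ‖v‖} := by
    refine continuousOn_tsum (u := fun m : Eis => C * (d ^ 5)⁻¹ * 16 * ((1 + ‖toC m‖) ^ 3)⁻¹)
      (fun m => ?_) (summable_inv3.mul_left _) (fun m v hv => ?_)
    · exact (continuous_const.mul (continuous_const.mul (h.cs.cont.comp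
          (continuous_const.mul continuous_id)))).continuousOn
    · by_cases hm : m = 0
      · subst hm
        have : (nm 0 : ℂ) ^ (n - 1) = 0 := by
          have h1 : nm 0 = 0 := by decide
          rw [h1]
          have := h.n2
          simp
          omega
        rw [this, zero_mul, mul_zero, norm_zero]
        positivity
      · have hm1 := one_le_norm_toC hm
        have hmp : 0 < ‖toC m‖ := by linarith
        have hv' : d < ‖v‖ := hv
        have h1 : ‖f (toC m ^ n * v)‖ ≤ C * ((d * ‖toC m‖ ^ n) ^ 5)⁻¹ := by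
          have h2 := hC (toC m ^ n * v)
          rw [CS.S_apply, norm_mul, norm_pow] at h2
          rw [← div_eq_mul_inv, le_div_iff₀ (by positivity)]
          refine le_trans ?_ h2
          gcongr
          calc d * ‖toC m‖ ^ n = ‖toC m‖ ^ n * d := mul_comm _ _
            _ ≤ ‖toC m‖ ^ n * ‖v‖ := by gcongr
            _ ≤ 1 + ‖toC m‖ ^ n * ‖v‖ := by linarith
        have h3 : ‖((nm m : ℂ) ^ (n - 1))‖ = ‖toC m‖ ^ (2 * (n - 1)) := by
          rw [norm_toC_pow, norm_pow]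
          simp
        rw [norm_mul, norm_mul, h3]
        have h4 := inv_norm_pow_le h.n2 hm
        rw [norm_pow] at h4
        have h5 : ‖toC m‖ ^ (2 * (n - 1)) * ((‖toC m‖ ^ n) ^ 5)⁻¹ ≤ ((‖toC m‖ ^ n) ^ 2)⁻¹ := by
          rw [← div_eq_mul_inv, inv_eq_one_div, div_le_div_iff₀ (by positivity) (by positivity),
            one_mul, ← pow_mul, ← pow_mul, ← pow_add]
          exact pow_le_pow_right₀ hm1 (by have := h.n2; omega)
        calc ‖ξ m‖ * (‖toC m‖ ^ (2 * (n - 1)) * ‖f (toC m ^ n * v)‖)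
            ≤ 1 * (‖toC m‖ ^ (2 * (n - 1)) * (C * ((d * ‖toC m‖ ^ n) ^ 5)⁻¹)) := by
              gcongr
              exact h.X.le1 m
          _ = C * (d ^ 5)⁻¹ * (‖toC m‖ ^ (2 * (n - 1)) * ((‖toC m‖ ^ n) ^ 5)⁻¹) := by
              rw [mul_pow, mul_inv]; ring
          _ ≤ C * (d ^ 5)⁻¹ * (16 * ((1 + ‖toC m‖) ^ 3)⁻¹) :=
              mul_le_mul_of_nonneg_left (h5.trans h4) (by positivity)
          _ = _ := by ring
  unfold fPn
  exact continuousAt_const.mul (hc.continuousAt hS)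

lemma fPn_cont (h : Ctx n s ξ κ c V h0 B B' f)
    (hW : ξ 0 * ∫ t : ℂ, powW (2 * (n - 1)) n f t = 0) : Continuous (fPn n ξ f) := by
  rw [continuous_iff_continuousAt]
  intro u
  by_cases hu : u = 0
  · subst hu
    obtain ⟨C, hC0, hC⟩ := fPn_dec h hW 1
    rw [ContinuousAt, fPn_zero h]
    refine squeeze_zero_norm (a := fun u => C * ‖u‖) (fun u => ?_) ?_
    · have := hC u
      rwa [pow_one] at this
    · have : Tendsto (fun u : ℂ => C * ‖u‖) (𝓝 0) (𝓝 (C * ‖(0:ℂ)‖)) :=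
        (continuous_const.mul continuous_norm).tendsto 0
      simpa using this
  · exact fPn_contAt h hu

/-! ### the test function -/

lemma FPn_tst (h : Ctx n s ξ κ c V h0 B B' f)
    (hW : ξ 0 * ∫ t : ℂ, powW (2 * (n - 1)) n f t = 0) (k : 𝓢(ℂ, ℂ)) :
    TstN s (FPn n ξ f k) := by
  obtain ⟨Ck, hCk0, hCk⟩ := sch_dec k 8
  obtain ⟨M, hM0, hM⟩ := fPn_dec h hW 0
  simp only [pow_zero, mul_one] at hM
  have hk : ∀ x, ‖k x‖ ≤ Ck := by
    intro x
    refine le_trans ?_ (hCk x)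
    exact le_mul_of_one_le_right (norm_nonneg _) (one_le_pow₀ (by linarith [norm_nonneg x]))
  obtain ⟨b, hb0, hb⟩ := fPn_supp h
  refine ⟨?_, ?_, ?_⟩
  · rw [continuous_iff_continuousAt]
    intro z
    by_cases hz : z.1 = 0
    · obtain ⟨C, hC0, hC⟩ := fPn_dec h hW 1
      have e0 : FPn n ξ f k z = 0 := by
        unfold FPn
        rw [hz, fPn_zero h, zero_mul]
      rw [ContinuousAt, e0]
      refine squeeze_zero_norm (a := fun w : Vec => C * ‖w.1‖ * Ck) (fun w => ?_) ?_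
      · unfold FPn
        rw [norm_mul]
        have := hC w.1
        rw [pow_one] at this
        gcongr
        exact hk _
      · have : Tendsto (fun w : Vec => C * ‖w.1‖ * Ck) (𝓝 z) (𝓝 (C * ‖z.1‖ * Ck)) :=
          ((continuous_const.mul continuous_fst.norm).mul continuous_const).tendsto z
        simpa [hz] using this
    · unfold FPn
      have h1 : ContinuousAt (fun w : Vec => fPn n ξ f w.1) z :=
        (fPn_cont h hW).continuousAt.comp continuous_fst.continuousAt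
      have h2 : ContinuousAt (fun w : Vec => w.2 / w.1) z :=
        continuous_snd.continuousAt.div continuous_fst.continuousAt hz
      exact h1.mul (k.continuous.continuousAt.comp h2)
  · intro z
    unfold FPn
    have : (-z).2 / (-z).1 = z.2 / z.1 := by
      show -z.2 / -z.1 = z.2 / z.1
      rw [neg_div_neg_eq]
    rw [this]
    show fPn n ξ f (-z.1) * _ = _
    rw [fPn_neg h]
    ring
  · refine ⟨2 ^ 8 * (M * Ck + M * b ^ 8 * Ck), fun z => ?_⟩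
    have hn2 : 1 + n2 z ≤ (1 + (‖z.1‖ + ‖z.2‖)) ^ 2 := by
      unfold n2
      nlinarith [norm_nonneg z.1, norm_nonneg z.2, mul_nonneg (norm_nonneg z.1) (norm_nonneg z.2)]
    have hn0 : 0 ≤ n2 z := by unfold n2; positivity
    rw [← div_eq_mul_inv, le_div_iff₀ (by positivity)]
    have hsum : 0 ≤ ‖z.1‖ + ‖z.2‖ := by positivity
    have h1 : (1 + n2 z) ^ 4 ≤ 2 ^ 8 * (1 + (‖z.1‖ + ‖z.2‖) ^ 8) := by
      calc (1 + n2 z) ^ 4 ≤ ((1 + (‖z.1‖ + ‖z.2‖)) ^ 2) ^ 4 := by gcongr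
        _ = (1 + (‖z.1‖ + ‖z.2‖)) ^ 8 := by ring
        _ ≤ 2 ^ (8 - 1) * (1 ^ 8 + (‖z.1‖ + ‖z.2‖) ^ 8) := add_pow_le zero_le_one hsum 8
        _ ≤ 2 ^ 8 * (1 + (‖z.1‖ + ‖z.2‖) ^ 8) := by
            rw [one_pow]
            gcongr <;> norm_num
    have h2 : ‖FPn n ξ f k z‖ ≤ M * Ck := by
      unfold FPn
      rw [norm_mul]
      gcongr
      · exact hM _
      · exact hk _
    have h3 : ‖FPn n ξ f k z‖ * (‖z.1‖ + ‖z.2‖) ^ 8 ≤ M * b ^ 8 * Ck := by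
      unfold FPn
      by_cases hz : z.1 = 0
      · rw [hz, fPn_zero h]
        simp only [zero_mul, norm_zero]
        positivity
      have hzp : 0 < ‖z.1‖ := norm_pos_iff.mpr hz
      rcases lt_or_ge b ‖z.1‖ with hbz | hbz
      · rw [hb _ hbz]
        simp only [zero_mul, norm_zero]
        positivity
      · have h4 := hCk (z.2 / z.1)
        rw [norm_mul]
        have e1 : (‖z.1‖ + ‖z.2‖) ^ 8 = ‖z.1‖ ^ 8 * (1 + ‖z.2 / z.1‖) ^ 8 := by
          rw [← mul_pow, norm_div]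
          congr 1
          field_simp
        rw [e1]
        calc ‖fPn n ξ f z.1‖ * ‖k (z.2 / z.1)‖ * (‖z.1‖ ^ 8 * (1 + ‖z.2 / z.1‖) ^ 8)
            = ‖fPn n ξ f z.1‖ * ‖z.1‖ ^ 8 * (‖k (z.2 / z.1)‖ * (1 + ‖z.2 / z.1‖) ^ 8) := by ring
          _ ≤ M * b ^ 8 * Ck := by
              gcongr
              exact hM _
    calc ‖FPn n ξ f k z‖ * (1 + n2 z) ^ 4
        ≤ ‖FPn n ξ f k z‖ * (2 ^ 8 * (1 + (‖z.1‖ + ‖z.2‖) ^ 8)) := by gcongr
      _ = 2 ^ 8 * (‖FPn n ξ f k z‖ + ‖FPn n ξ f k z‖ * (‖z.1‖ + ‖z.2‖) ^ 8) := by ring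
      _ ≤ 2 ^ 8 * (M * Ck + M * b ^ 8 * Ck) := by gcongr

end Crest.Agent.R017.Xn590
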