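import Crest.Agent.R017.XnG_590
import Crest.Agent.R017.XnP_590

/-!
Row 17, section F / A (helper590): the dual test function
`F'(z) = 4 ∫ k̂(z₁ u) f°(u) e(z₂ u) du = ∫ k(t) G°(z₂ - z₁ t) dt`.
-/

set_option autoImplicit false

noncomputable section

open Complex MeasureTheory Set Filter Topology
open scoped FourierTransform ContDiff SchwartzMap ComplexConjugate

namespace Crest.Agent.R017.Xn590

open Crest.Agent.R012 Crest.Agent.R012.Eis Crest.Agent.R012.Po581 Crest.Agent.R012.K695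
open Crest.Agent.R017.Xi590
open Crest.Agent.R012.Four813 (phat)

variable {n : ℕ} {s : ℂ} {ξ : Eis → ℂ} {κ c : ℂ} {V : ℝ} {h0 B B' : ℂ} {f : ℂ → ℂ}

lemma phat_eq (k : ℂ → ℂ) (w : ℂ) : phat k w = fC k w := rfl

lemma phat_cont (k : 𝓢(ℂ, ℂ)) : Continuous (phat k) := by
  have : phat k = fC k := rfl
  rw [this]
  exact fC_continuous_of k.integrable

/-- `J = ∫ (1+|u|)^{-3}` -/
def J3 : ℝ := ∫ u : ℂ, ((1 + ‖u‖) ^ 3)⁻¹

lemma integrable_J3 : Integrable (fun u : ℂ => ((1 + ‖u‖) ^ 3)⁻¹) := by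
  have h1 : Integrable (fun u : ℂ => (1 + ‖u‖) ^ (-(3 : ℝ))) := by
    apply integrable_one_add_norm
    simp
    norm_num
  refine h1.congr (Eventually.of_forall fun u => ?_)
  simp only
  rw [Real.rpow_neg (by positivity)]
  norm_cast

lemma J3_nonneg : 0 ≤ J3 := integral_nonneg fun u => by positivity

lemma Phi_neg (hs : ∀ x, f (-x) = s * f x) (y : ℂ) : Phi f (-y) = s * Phi f y := by
  unfold Phi
  rw [← integral_neg_eq_self (fun p : ℂ => f p * eC (-(-y / p))), ← integral_const_mul]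
  congr 1
  ext p
  rw [hs, neg_div_neg_eq]
  ring

lemma fOn_neg (h : Ctx n s ξ κ c V h0 B B' f) (u : ℂ) :
    fOn n ξ V h0 B f (-u) = s * fOn n ξ V h0 B f u := by
  rw [fOn_eq_sum h, fOn_eq_sum h, mul_left_comm]
  congr 1
  rw [← tsum_mul_left]
  refine tsum_congr fun m => ?_
  split_ifs
  · rw [mul_zero]
  · rw [neg_mul, CS.Ph_apply, CS.Ph_apply, Phi_neg h.D.par]
    ring

/-- the integrand of `F'` -/
lemma FOn_integrable (h : Ctx n s ξ κ c V h0 B B' f) (k : 𝓢(ℂ, ℂ)) (z : Vec) :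
    Integrable (fun u : ℂ => phat k (z.1 * u) * fOn n ξ V h0 B f u * eC (z.2 * u)) := by
  have h1 : Integrable (fun u : ℂ => phat k (z.1 * u) * fOn n ξ V h0 B f u) := by
    refine (fOn_integrable h).bdd_mul (c := ∫ x, ‖k x‖)
      ((phat_cont k).comp (continuous_const.mul continuous_id)).aestronglyMeasurable
      (Eventually.of_forall fun u => ?_)
    exact norm_fC_le' k _
  exact integrable_mul_eC h1 z.2

/-- `F'(z) = ∫ k(t) G°(z₂ - z₁ t) dt` -/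
theorem FOn_eq (h : Ctx n s ξ κ c V h0 B B' f) (k : 𝓢(ℂ, ℂ)) (z : Vec) :
    FOn n ξ V h0 B f k z = ∫ t : ℂ, k t * GO n ξ V h0 B f (z.2 - z.1 * t) := by
  have hI : Integrable (Function.uncurry fun (u t : ℂ) =>
      fOn n ξ V h0 B f u * k t * eC ((z.2 - z.1 * t) * u)) (volume.prod volume) := by
    have h1 : Integrable (fun p : ℂ × ℂ => fOn n ξ V h0 B f p.1 * k p.2) (volume.prod volume) :=
      (fOn_integrable h).mul_prod k.integrable
    refine h1.norm.mono' (h1.aestronglyMeasurable.mul ?_) (Eventually.of_forall fun p => ?_)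
    · exact (eC_continuous.comp (by fun_prop)).aestronglyMeasurable
    · simp only [Function.uncurry]
      rw [norm_mul, eC_norm, mul_one]
  have hsw := integral_integral_swap hI
  unfold FOn GO
  have e1 : ∀ u : ℂ, phat k (z.1 * u) * fOn n ξ V h0 B f u * eC (z.2 * u) =
      ∫ t : ℂ, fOn n ξ V h0 B f u * k t * eC ((z.2 - z.1 * t) * u) := by
    intro u
    have e2 : ∀ t : ℂ, fOn n ξ V h0 B f u * k t * eC ((z.2 - z.1 * t) * u) =
        fOn n ξ V h0 B f u * eC (z.2 * u) * (k t * eC (-(z.1 * u * t))) := by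
      intro t
      have : (z.2 - z.1 * t) * u = z.2 * u + -(z.1 * u * t) := by ring
      rw [this, eC_add']
      ring
    simp_rw [e2]
    rw [integral_const_mul]
    unfold Four813.phat
    ring
  simp_rw [e1]
  rw [hsw, ← integral_const_mul]
  congr 1
  ext t
  simp_rw [mul_comm (fOn n ξ V h0 B f _) (k t), mul_assoc]
  rw [integral_const_mul]
  ring

lemma FOn_cont (h : Ctx n s ξ κ c V h0 B B' f) (k : 𝓢(ℂ, ℂ)) :
    Continuous (FOn n ξ V h0 B f k) := by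
  unfold FOn
  refine continuous_const.mul ?_
  refine continuous_of_dominated (bound := fun u => (∫ x, ‖k x‖) * ‖fOn n ξ V h0 B f u‖)
    (fun z => (FOn_integrable h k z).aestronglyMeasurable) (fun z => ?_)
    ((fOn_integrable h).norm.const_mul _) ?_
  · refine Eventually.of_forall fun u => ?_
    rw [norm_mul, norm_mul, eC_norm, mul_one]
    gcongr
    exact norm_fC_le' k _
  · refine Eventually.of_forall fun u => ?_
    have h1 : Continuous fun z : Vec => phat k (z.1 * u) :=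
      (phat_cont k).comp (continuous_fst.mul continuous_const)
    have h2 : Continuous fun z : Vec => eC (z.2 * u) :=
      eC_continuous.comp (continuous_snd.mul continuous_const)
    exact (h1.mul continuous_const).mul h2

lemma FOn_par (h : Ctx n s ξ κ c V h0 B B' f) (k : 𝓢(ℂ, ℂ)) (z : Vec) :
    FOn n ξ V h0 B f k (-z) = s * FOn n ξ V h0 B f k z := by
  unfold FOn
  rw [← integral_neg_eq_self (fun u : ℂ =>
    phat k ((-z).1 * u) * fOn n ξ V h0 B f u * eC ((-z).2 * u)), mul_left_comm,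
    ← integral_const_mul s]
  congr 2
  ext u
  have e1 : (-z).1 * -u = z.1 * u := by
    show -z.1 * -u = _
    ring
  have e2 : (-z).2 * -u = z.2 * u := by
    show -z.2 * -u = _
    ring
  rw [e1, e2, fOn_neg h]
  ring

/-- decay in `z₁` -/
lemma FOn_dec1 (h : Ctx n s ξ κ c V h0 B B' f) (k : 𝓢(ℂ, ℂ)) (A : ℕ) :
    ∃ C : ℝ, 0 ≤ C ∧ ∀ z : Vec, ‖FOn n ξ V h0 B f k z‖ * (1 + ‖z.1‖) ^ A ≤ C := by
  obtain ⟨Cf, hCf0, hCf⟩ := fO1_dec h A
  obtain ⟨Ck, hCk0, hCk⟩ := sch_dec (fCS k) (A + 3)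
  set K1 : ℝ := ∫ x, ‖k x‖ with hK1
  have hK10 : 0 ≤ K1 := integral_nonneg fun x => norm_nonneg _
  set F1 : ℝ := ∫ u, ‖fOn n ξ V h0 B f u‖ with hF1
  have hF10 : 0 ≤ F1 := integral_nonneg fun x => norm_nonneg _
  have hJ := J3_nonneg
  have hb0 : ∀ z : Vec, ‖FOn n ξ V h0 B f k z‖ ≤ 4 * (K1 * F1) := by
    intro z
    unfold FOn
    rw [norm_mul]
    have h4 : ‖(4 : ℂ)‖ = 4 := by norm_num
    rw [h4]
    gcongr
    refine (norm_integral_le_integral_norm _).trans ?_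
    rw [hF1, ← integral_const_mul]
    refine integral_mono (FOn_integrable h k z).norm ((fOn_integrable h).norm.const_mul _)
      fun u => ?_
    simp only
    rw [norm_mul, norm_mul, eC_norm, mul_one]
    gcongr
    exact norm_fC_le' k _
  refine ⟨2 ^ A * (4 * (K1 * F1)) + 2 ^ A * (4 * (Ck * Cf * J3)), by positivity, fun z => ?_⟩
  rcases le_or_gt ‖z.1‖ 1 with hz | hz
  · calc ‖FOn n ξ V h0 B f k z‖ * (1 + ‖z.1‖) ^ A ≤ (4 * (K1 * F1)) * (1 + 1) ^ A := by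
          gcongr
          exact hb0 z
      _ = 2 ^ A * (4 * (K1 * F1)) := by norm_num; ring
      _ ≤ _ := le_add_of_nonneg_right (by positivity)
  · have hzp : 0 < ‖z.1‖ := by linarith
    have h1 : ‖FOn n ξ V h0 B f k z‖ ≤ 4 * ((‖z.1‖ ^ A)⁻¹ * (Ck * Cf) * J3) := by
      unfold FOn
      rw [norm_mul]
      have h4 : ‖(4 : ℂ)‖ = 4 := by norm_num
      rw [h4]
      gcongr
      refine (norm_integral_le_integral_norm _).trans ?_
      unfold J3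
      rw [← integral_const_mul]
      refine integral_mono_ae (FOn_integrable h k z).norm (integrable_J3.const_mul _) ?_
      filter_upwards [fO1_ae (n := n) (ξ := ξ) (V := V) (h0 := h0) (B := B) (f := f)] with u hu
      rw [norm_mul, norm_mul, eC_norm, mul_one, ← hu]
      have h5 := hCk (z.1 * u)
      have h6 := (hCf u).1
      rw [fCS_apply, norm_mul] at h5
      rw [phat_eq]
      have h7 : ‖fC k (z.1 * u)‖ * (‖z.1‖ ^ A * ‖u‖ ^ A) ≤ Ck * ((1 + ‖u‖) ^ 3)⁻¹ := by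
        rw [← div_eq_mul_inv, le_div_iff₀ (by positivity)]
        refine le_trans ?_ h5
        rw [mul_assoc, pow_add]
        have e1 : ‖z.1‖ ^ A * ‖u‖ ^ A ≤ (1 + ‖z.1‖ * ‖u‖) ^ A := by
          rw [← mul_pow]
          gcongr
          linarith
        have e2 : 1 + ‖u‖ ≤ 1 + ‖z.1‖ * ‖u‖ := by nlinarith [norm_nonneg u]
        gcongr
      have hu0 := norm_nonneg u
      calc ‖fC k (z.1 * u)‖ * ‖fO1 n ξ V h0 B f u‖
          ≤ ‖fC k (z.1 * u)‖ * (Cf * ‖u‖ ^ A) := by gcongr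
        _ = (‖z.1‖ ^ A)⁻¹ * Cf * (‖fC k (z.1 * u)‖ * (‖z.1‖ ^ A * ‖u‖ ^ A)) := by
            field_simp
        _ ≤ (‖z.1‖ ^ A)⁻¹ * Cf * (Ck * ((1 + ‖u‖) ^ 3)⁻¹) := by gcongr
        _ = _ := by ring
    calc ‖FOn n ξ V h0 B f k z‖ * (1 + ‖z.1‖) ^ A
        ≤ 4 * ((‖z.1‖ ^ A)⁻¹ * (Ck * Cf) * J3) * (2 * ‖z.1‖) ^ A := by
          gcongr
          linarith
      _ = 2 ^ A * (4 * (Ck * Cf * J3)) := by rw [mul_pow]; field_simp
      _ ≤ _ := le_add_of_nonneg_left (by positivity)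

/-- decay in `z₂` -/
lemma FOn_dec2 (h : Ctx n s ξ κ c V h0 B B' f) (hχ : ξ 0 * ∫ t : ℂ, powW (2 * n) n f t = 0)
    (k : 𝓢(ℂ, ℂ)) (A : ℕ) :
    ∃ C : ℝ, 0 ≤ C ∧ ∀ z : Vec,
      ‖FOn n ξ V h0 B f k z‖ * (1 + ‖z.2‖) ^ A ≤ C * (1 + ‖z.1‖) ^ A := by
  obtain ⟨CG, hCG0, hCG⟩ := GO_bd h hχ A
  obtain ⟨Ck, hCk0, hCk⟩ := sch_dec k (A + 3)
  have hJ := J3_nonneg
  refine ⟨CG * Ck * J3, by positivity, fun z => ?_⟩
  rw [FOn_eq h]
  have hb : ∀ t : ℂ, ‖k t * GO n ξ V h0 B f (z.2 - z.1 * t)‖ ≤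
      CG * Ck * ((1 + ‖z.1‖) ^ A / (1 + ‖z.2‖) ^ A) * ((1 + ‖t‖) ^ 3)⁻¹ := by
    intro t
    rw [norm_mul]
    have h1 := hCG (z.2 - z.1 * t)
    have h2 := hCk t
    have h3 : 1 + ‖z.2‖ ≤ (1 + ‖z.2 - z.1 * t‖) * ((1 + ‖z.1‖) * (1 + ‖t‖)) := by
      have e1 : ‖z.2‖ ≤ ‖z.2 - z.1 * t‖ + ‖z.1‖ * ‖t‖ := by
        calc ‖z.2‖ = ‖(z.2 - z.1 * t) + z.1 * t‖ := by ring_nf
          _ ≤ ‖z.2 - z.1 * t‖ + ‖z.1 * t‖ := norm_add_le _ _
          _ = _ := by rw [norm_mul]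
      have p1 := norm_nonneg (z.2 - z.1 * t)
      have p2 := norm_nonneg z.1
      have p3 := norm_nonneg t
      have p4 := mul_nonneg p2 p3
      have p5 := mul_nonneg p1 p2
      have p6 := mul_nonneg p1 p3
      have p7 := mul_nonneg p1 p4
      nlinarith
    have hz2 : 0 < (1 + ‖z.2‖) ^ A := by positivity
    rw [mul_div_assoc', div_mul_eq_mul_div, le_div_iff₀ hz2, ← div_eq_mul_inv,
      le_div_iff₀ (by positivity)]
    calc ‖k t‖ * ‖GO n ξ V h0 B f (z.2 - z.1 * t)‖ * (1 + ‖z.2‖) ^ A * (1 + ‖t‖) ^ 3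
        ≤ ‖k t‖ * ‖GO n ξ V h0 B f (z.2 - z.1 * t)‖ *
          ((1 + ‖z.2 - z.1 * t‖) * ((1 + ‖z.1‖) * (1 + ‖t‖))) ^ A * (1 + ‖t‖) ^ 3 := by gcongr
      _ = (‖GO n ξ V h0 B f (z.2 - z.1 * t)‖ * (1 + ‖z.2 - z.1 * t‖) ^ A) *
          (‖k t‖ * (1 + ‖t‖) ^ (A + 3)) * (1 + ‖z.1‖) ^ A := by
          rw [mul_pow, mul_pow, pow_add]; ring
      _ ≤ CG * Ck * (1 + ‖z.1‖) ^ A := by gcongr
  have hI : Integrable (fun t : ℂ => CG * Ck * ((1 + ‖z.1‖) ^ A / (1 + ‖z.2‖) ^ A) *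
      ((1 + ‖t‖) ^ 3)⁻¹) := integrable_J3.const_mul _
  have h1 : ‖∫ t : ℂ, k t * GO n ξ V h0 B f (z.2 - z.1 * t)‖ ≤
      CG * Ck * ((1 + ‖z.1‖) ^ A / (1 + ‖z.2‖) ^ A) * J3 := by
    unfold J3
    rw [← integral_const_mul]
    exact norm_integral_le_of_norm_le hI (Eventually.of_forall hb)
  calc ‖∫ t : ℂ, k t * GO n ξ V h0 B f (z.2 - z.1 * t)‖ * (1 + ‖z.2‖) ^ A
      ≤ CG * Ck * ((1 + ‖z.1‖) ^ A / (1 + ‖z.2‖) ^ A) * J3 * (1 + ‖z.2‖) ^ A := by gcongr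
    _ = CG * Ck * J3 * (1 + ‖z.1‖) ^ A := by
        have : (1 + ‖z.2‖) ^ A ≠ 0 := by positivity
        field_simp

theorem FOn_tst (h : Ctx n s ξ κ c V h0 B B' f) (hχ : ξ 0 * ∫ t : ℂ, powW (2 * n) n f t = 0)
    (k : 𝓢(ℂ, ℂ)) : TstN s (FOn n ξ V h0 B f k) := by
  refine ⟨FOn_cont h k, FOn_par h k, ?_⟩
  obtain ⟨C1, hC10, hC1⟩ := FOn_dec1 h k 32
  obtain ⟨C2, hC20, hC2⟩ := FOn_dec2 h hχ k 16
  refine ⟨Real.sqrt (C1 * C2), fun z => ?_⟩
  have h1 := hC1 z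
  have h2 := hC2 z
  set x := ‖FOn n ξ V h0 B f k z‖ with hx
  have hx0 : 0 ≤ x := norm_nonneg _
  set a := 1 + ‖z.1‖ with ha
  set b := 1 + ‖z.2‖ with hb
  have ha1 : 1 ≤ a := by rw [ha]; linarith [norm_nonneg z.1]
  have hb1 : 1 ≤ b := by rw [hb]; linarith [norm_nonneg z.2]
  have h3 : (x * (a * b) ^ 8) ^ 2 ≤ C1 * C2 := by
    have ha16 : 0 < a ^ 16 := by positivity
    have h4 : a ^ 16 * (x * (a * b) ^ 8) ^ 2 ≤ a ^ 16 * (C1 * C2) := by
      calc a ^ 16 * (x * (a * b) ^ 8) ^ 2 = (x * a ^ 32) * (x * b ^ 16) := by ring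
        _ ≤ C1 * (C2 * a ^ 16) := by gcongr
        _ = a ^ 16 * (C1 * C2) := by ring
    exact le_of_mul_le_mul_left h4 ha16
  have h5 : x * (a * b) ^ 8 ≤ Real.sqrt (C1 * C2) := Real.le_sqrt_of_sq_le h3
  have hn0 : 0 ≤ n2 z := by unfold n2; positivity
  rw [← div_eq_mul_inv, le_div_iff₀ (by positivity)]
  refine le_trans ?_ h5
  have h6 : 1 + n2 z ≤ (a * b) ^ 2 := by
    unfold n2
    rw [ha, hb]
    have p1 := norm_nonneg z.1
    have p2 := norm_nonneg z.2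
    have p3 := mul_nonneg p1 p2
    have e : ((1 + ‖z.1‖) * (1 + ‖z.2‖)) ^ 2 = 1 + ‖z.1‖ ^ 2 + ‖z.2‖ ^ 2 +
      (2 * ‖z.1‖ + 2 * ‖z.2‖ + 4 * (‖z.1‖ * ‖z.2‖) + 2 * (‖z.1‖ * (‖z.1‖ * ‖z.2‖)) +
        2 * (‖z.2‖ * (‖z.1‖ * ‖z.2‖)) + (‖z.1‖ * ‖z.2‖) ^ 2) := by ring
    rw [e]
    have p4 := mul_nonneg p1 p3
    have p5 := mul_nonneg p2 p3
    have p6 := sq_nonneg (‖z.1‖ * ‖z.2‖)
    linarith
  calc x * (1 + n2 z) ^ 4 ≤ x * ((a * b) ^ 2) ^ 4 := by gcongr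
    _ = x * (a * b) ^ 8 := by ring

end Crest.Agent.R017.Xn590
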