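import Crest.Agent.R017.Glue2_681
import Crest.Agent.R017.XnT_590

/-!
# Row 17, section A: the glue, part 3 (helper681)

Linearity and dilations of `FPn f`, `FOn f` in `f`; the (T) step on the level of `f`.
-/

set_option autoImplicit false

noncomputable section

open MeasureTheory Complex Set Filter
open scoped ENNReal ComplexConjugate Topology SchwartzMap

namespace Crest.Agent.R017.Glue681

open Crest.Agent.R012 Crest.Agent.R012.Eis Crest.Agent.R012.K695 Crest.Agent.R012.AU681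
  Crest.Agent.R012.Parseval499 Crest.Agent.R017.Orth681 Crest.Agent.R017.Xn590
open Crest.Agent.R012.Four813 (phat)
open Crest.Agent.R017.Xi590 (CS)
open Crest.Agent.R017.F1 (scl PL)

variable {n : ℕ} {s : ℂ} {ξ : Eis → ℂ} {κ c0' : ℂ} {V : ℝ} {h0 B B' : ℂ} {f g : ℂ → ℂ}

/-! ### `Φ` -/

lemma CS_of_DatN (h : DatN n s ξ f) : CS f := ⟨h.smooth, h.supp⟩

lemma Phi_integrable (h : CS f) (y : ℂ) : Integrable (fun p : ℂ => f p * eC (-(y / p))) := by
  refine h.integrable.mul_bdd (c := 1) ?_ ?_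
  · exact (continuous_eC.measurable.comp (by fun_prop)).aestronglyMeasurable
  · exact Filter.Eventually.of_forall fun z => (Parseval499.norm_eC _).le

lemma Phi_add (hf : CS f) (hg : CS g) (y : ℂ) :
    F1.Phi (fun x => f x + g x) y = F1.Phi f y + F1.Phi g y := by
  unfold F1.Phi
  rw [← integral_add (Phi_integrable hf y) (Phi_integrable hg y)]
  congr 1
  ext p
  ring

lemma Phi_smul (c : ℂ) (f : ℂ → ℂ) (y : ℂ) : F1.Phi (fun x => c * f x) y = c * F1.Phi f y := by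
  unfold F1.Phi
  rw [← integral_const_mul]
  congr 1
  ext p
  ring

lemma Phi_dil {b : ℂ} (hb : b ≠ 0) (f : ℂ → ℂ) (y : ℂ) :
    F1.Phi (fun x => f (b * x)) y = (((‖b‖ ^ 2)⁻¹ : ℝ) : ℂ) * F1.Phi f (b * y) := by
  unfold F1.Phi
  rw [← int_affine hb 0 (fun q : ℂ => f q * eC (-(b * y / q)))]
  congr 1
  ext p
  rw [add_zero, mul_div_mul_left _ _ hb]

/-! ### closure of the data -/

lemma DatN.dil (hn : n ≠ 0) (h : DatN n s ξ f) {b : ℂ} (hb : b ≠ 0) :
    DatN n s ξ (fun x => f (b * x)) where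
  smooth := h.smooth.comp (contDiff_const.mul contDiff_id)
  supp := by
    obtain ⟨a, c, ha, hac, hs⟩ := h.supp
    have hbn : 0 < ‖b‖ := norm_pos_iff.mpr hb
    refine ⟨a / ‖b‖, c / ‖b‖, by positivity, by gcongr, fun x hx => hs _ ?_⟩
    rw [norm_mul]
    rcases hx with hx | hx
    · left
      rwa [lt_div_iff₀ hbn, mul_comm] at hx
    · right
      rwa [div_lt_iff₀ hbn, mul_comm] at hx
  par x := by rw [mul_neg]; exact h.par _
  mom := by
    rcases h.mom with h1 | ⟨h1, h2⟩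
    · exact Or.inl h1
    · right
      constructor
      · have := int_affine hb 0 f
        simp only [add_zero] at this
        rw [this, h1, mul_zero]
      · simp_rw [Phi_dil hb]
        rw [integral_const_mul]
        have hβ : ∃ β : ℂ, β ^ n = b := IsAlgClosed.exists_pow_nat_eq b (Nat.pos_of_ne_zero hn)
        obtain ⟨β, rfl⟩ := hβ
        have hβ0 : β ≠ 0 := by
          rintro rfl
          exact hb (zero_pow hn)
        have h3 := int_affine hβ0 0 (fun m : ℂ => F1.Phi f (m ^ n))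
        simp only [add_zero] at h3
        have h4 : ∀ m : ℂ, F1.Phi f (β ^ n * m ^ n) = F1.Phi f ((β * m) ^ n) := by
          intro m; rw [mul_pow]
        simp_rw [h4]
        rw [h3, h2, mul_zero, mul_zero]

lemma DatN.smul (h : DatN n s ξ f) (r : ℂ) : DatN n s ξ (fun x => r * f x) where
  smooth := contDiff_const.mul h.smooth
  supp := by
    obtain ⟨a, c, ha, hac, hs⟩ := h.supp
    exact ⟨a, c, ha, hac, fun x hx => by rw [hs x hx, mul_zero]⟩
  par x := by rw [h.par]; ring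
  mom := by
    rcases h.mom with h1 | ⟨h1, h2⟩
    · exact Or.inl h1
    · right
      constructor
      · rw [integral_const_mul, h1, mul_zero]
      · simp_rw [Phi_smul]
        rw [integral_const_mul, h2, mul_zero]

lemma Phi_pow_integrable (hn : n ≠ 0) (h : CS f) : Integrable (fun m : ℂ => F1.Phi f (m ^ n)) := by
  have := (powS n hn h.Ph).integrable (μ := volume)
  refine this.congr (Filter.Eventually.of_forall fun m => ?_)
  simp only
  rw [powS_apply, CS.Ph_apply]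
  rfl

lemma DatN.add (hn : n ≠ 0) (h : DatN n s ξ f) (h' : DatN n s ξ g) :
    DatN n s ξ (fun x => f x + g x) where
  smooth := h.smooth.add h'.smooth
  supp := by
    obtain ⟨a, c, ha, hac, hs⟩ := h.supp
    obtain ⟨a', c', ha', hac', hs'⟩ := h'.supp
    refine ⟨min a a', max c c', lt_min ha ha', ?_, fun x hx => ?_⟩
    · exact (min_le_left _ _).trans_lt (hac.trans_le (le_max_left _ _))
    · rcases hx with hx | hx
      · rw [hs x (Or.inl (hx.trans_le (min_le_left _ _))),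
          hs' x (Or.inl (hx.trans_le (min_le_right _ _))), add_zero]
      · rw [hs x (Or.inr ((le_max_left _ _).trans_lt hx)),
          hs' x (Or.inr ((le_max_right _ _).trans_lt hx)), add_zero]
  par x := by rw [h.par, h'.par]; ring
  mom := by
    rcases h.mom with h1 | ⟨h1, h2⟩
    · exact Or.inl h1
    · rcases h'.mom with h3 | ⟨h3, h4⟩
      · exact Or.inl h3
      · right
        constructor
        · rw [integral_add (CS_of_DatN h).integrable (CS_of_DatN h').integrable, h1, h3, add_zero]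
        · simp_rw [Phi_add (CS_of_DatN h) (CS_of_DatN h')]
          rw [integral_add (Phi_pow_integrable hn (CS_of_DatN h))
            (Phi_pow_integrable hn (CS_of_DatN h')), h2, h4, add_zero]

/-! ### `f_+` -/

lemma fPn_dil (b : ℂ) (f : ℂ → ℂ) (x : ℂ) :
    fPn n ξ (fun x => f (b * x)) x = fPn n ξ f (b * x) := by
  unfold fPn
  congr 1
  refine tsum_congr fun e => ?_
  simp only
  rw [mul_left_comm b]

lemma fPn_smul (c : ℂ) (f : ℂ → ℂ) (x : ℂ) :
    fPn n ξ (fun x => c * f x) x = c * fPn n ξ f x := by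
  unfold fPn
  rw [← tsum_mul_left, ← tsum_mul_left, ← tsum_mul_left]
  refine tsum_congr fun e => ?_
  ring

lemma summable_fPn (hn : n ≠ 0) (h : CS f) (x : ℂ) :
    Summable (fun e : Eis => ξ e * ((nm e : ℂ) ^ (n - 1) * f (toC e ^ n * x))) := by
  obtain ⟨a, c, ha, hac, hs⟩ := h.supp
  by_cases hx : x = 0
  · have : ∀ e : Eis, ξ e * ((nm e : ℂ) ^ (n - 1) * f (toC e ^ n * x)) = 0 := by
      intro e
      rw [hx, mul_zero, h.zero, mul_zero, mul_zero]
    simp_rw [this]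
    exact summable_zero
  · have hxn : 0 < ‖x‖ := norm_pos_iff.mpr hx
    apply summable_of_hasFiniteSupport
    refine Set.Finite.subset (ball ⌈(c / ‖x‖) ^ 2⌉₊).finite_toSet fun e he => ?_
    rw [Function.mem_support] at he
    rw [Finset.mem_coe, mem_ball]
    by_contra hlt
    rw [not_le] at hlt
    apply he
    rw [hs, mul_zero, mul_zero]
    right
    have h1 : (c / ‖x‖) ^ 2 < nm e := by
      refine (Nat.le_ceil _).trans_lt ?_
      exact_mod_cast hlt
    have hc : 0 ≤ c / ‖x‖ := div_nonneg (ha.trans hac).le hxn.le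
    rw [← norm_toC_sq] at h1
    have h2 : c / ‖x‖ < ‖toC e‖ := lt_of_pow_lt_pow_left₀ 2 (norm_nonneg _) h1
    have h3 := norm_toC_le_pow hn e
    rw [norm_mul]
    rw [div_lt_iff₀ hxn] at h2
    calc c < ‖toC e‖ * ‖x‖ := h2
      _ ≤ ‖toC e ^ n‖ * ‖x‖ := by gcongr

lemma fPn_add (hn : n ≠ 0) (hf : CS f) (hg : CS g) (x : ℂ) :
    fPn n ξ (fun x => f x + g x) x = fPn n ξ f x + fPn n ξ g x := by
  unfold fPn
  rw [← mul_add, ← (summable_fPn hn hf x).tsum_add (summable_fPn hn hg x)]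
  congr 1
  refine tsum_congr fun e => ?_
  ring

lemma FPn_add (hn : n ≠ 0) (hf : CS f) (hg : CS g) (k : ℂ → ℂ) (z : Vec) :
    FPn n ξ (fun x => f x + g x) k z = FPn n ξ f k z + FPn n ξ g k z := by
  unfold FPn
  rw [fPn_add hn hf hg]
  ring

lemma FPn_smul (c : ℂ) (f k : ℂ → ℂ) (z : Vec) :
    FPn n ξ (fun x => c * f x) k z = c * FPn n ξ f k z := by
  unfold FPn
  rw [fPn_smul]
  ring

lemma dil_FPn {b : ℂ} (hb : b ≠ 0) (f k : ℂ → ℂ) (z : Vec) :
    dil b (FPn n ξ f k) z = ((‖b‖ ^ 2 : ℝ) : ℂ) * FPn n ξ (fun x => f (b * x)) k z := by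
  unfold dil FPn
  simp only [Prod.smul_fst, Prod.smul_snd, smul_eq_mul]
  rw [fPn_dil, mul_div_mul_left _ _ hb]

/-! ### `f°` -/

lemma summable_fOn (hn : n ≠ 0) (hξ : ∀ a, ‖ξ a‖ ≤ 1) (h : CS f) {w : ℂ} (hw : w ≠ 0) :
    Summable (fun m : Eis => if m = 0 then 0 else ξ m * F1.Phi f (w * toC m ^ n)) := by
  classical
  obtain ⟨C, hC⟩ : ∃ C : ℝ, ∀ x, ‖x‖ ^ 4 * ‖h.Ph x‖ ≤ C := by
    obtain ⟨C, hC⟩ := h.Ph.decay' 4 0
    refine ⟨C, fun x => ?_⟩
    have := hC x
    rwa [norm_iteratedFDeriv_zero] at this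
  have hwn : 0 < ‖w‖ := norm_pos_iff.mpr hw
  have hC0 : 0 ≤ C := by
    have := hC 0
    simpa using this
  refine Summable.of_norm_bounded (g := fun m => C / ‖w‖ ^ 4 * ((nm m : ℝ) ^ 2)⁻¹)
    (summable_nm2.mul_left _) fun m => ?_
  split_ifs with hm
  · rw [norm_zero]; positivity
  · have h1 := hC (w * toC m ^ n)
    rw [CS.Ph_apply] at h1
    have h2 : ‖toC m‖ ≤ ‖toC m ^ n‖ := norm_toC_le_pow hn m
    have hmC : 0 < ‖toC m‖ := norm_pos_iff.mpr (by rwa [Ne, toC_eq_zero])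
    rw [norm_mul]
    have h3 : ‖F1.Phi f (w * toC m ^ n)‖ ≤ C / (‖w‖ * ‖toC m‖) ^ 4 := by
      rw [le_div_iff₀ (by positivity), mul_comm]
      refine le_trans ?_ h1
      have h5 : ‖w‖ * ‖toC m‖ ≤ ‖w * toC m ^ n‖ := by
        rw [norm_mul]
        gcongr
      exact mul_le_mul_of_nonneg_right (pow_le_pow_left₀ (by positivity) h5 4) (norm_nonneg _)
    calc ‖ξ m‖ * ‖F1.Phi f (w * toC m ^ n)‖ ≤ 1 * (C / (‖w‖ * ‖toC m‖) ^ 4) := by
          gcongr
          exact hξ m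
      _ = _ := by
        rw [← norm_toC_sq]
        field_simp

lemma fOn_add (hn : n ≠ 0) (hξ : ∀ a, ‖ξ a‖ ≤ 1) (hh : h0 ≠ 0) (hf : CS f) (hg : CS g) {u : ℂ}
    (hu : u ≠ 0) : fOn n ξ V h0 B (fun x => f x + g x) u =
      fOn n ξ V h0 B f u + fOn n ξ V h0 B g u := by
  classical
  unfold fOn
  rw [← mul_add, ← (summable_fOn hn hξ hf (mul_ne_zero hu hh)).tsum_add
    (summable_fOn hn hξ hg (mul_ne_zero hu hh))]
  congr 1
  refine tsum_congr fun e => ?_
  split_ifs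
  · ring
  · rw [Phi_add hf hg]
    ring

lemma fOn_smul (c : ℂ) (f : ℂ → ℂ) (u : ℂ) :
    fOn n ξ V h0 B (fun x => c * f x) u = c * fOn n ξ V h0 B f u := by
  classical
  unfold fOn
  rw [← tsum_mul_left, ← tsum_mul_left, ← tsum_mul_left]
  refine tsum_congr fun e => ?_
  split_ifs
  · ring
  · rw [Phi_smul]
    ring

lemma fOn_dil {b : ℂ} (hb : b ≠ 0) (f : ℂ → ℂ) (u : ℂ) :
    fOn n ξ V h0 B (fun x => f (b * x)) u =
      (((‖b‖ ^ 2)⁻¹ : ℝ) : ℂ) * fOn n ξ V h0 B f (b * u) := by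
  classical
  unfold fOn
  rw [← tsum_mul_left, ← tsum_mul_left, ← tsum_mul_left]
  refine tsum_congr fun e => ?_
  split_ifs
  · ring
  · rw [Phi_dil hb]
    have : b * (u * h0 * toC e ^ n) = b * u * h0 * toC e ^ n := by ring
    rw [this]
    ring

lemma FOn_add (X : XiP ξ κ c0') (C : XnC n s κ V h0 B B') (hf : DatN n s ξ f)
    (hg : DatN n s ξ g) (k : 𝓢(ℂ, ℂ)) (z : Vec) :
    FOn n ξ V h0 B (fun x => f x + g x) k z = FOn n ξ V h0 B f k z + FOn n ξ V h0 B g k z := by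
  have hn : n ≠ 0 := by have := C.n2; omega
  unfold FOn
  rw [← mul_add, ← integral_add (FOn_integrable (h := ⟨X, C, hf⟩) k z)
    (FOn_integrable (h := ⟨X, C, hg⟩) k z)]
  congr 1
  refine integral_congr_ae ?_
  filter_upwards [ae_ne_zero] with u hu
  rw [fOn_add hn X.le1 C.h0 (CS_of_DatN hf) (CS_of_DatN hg) hu]
  ring

lemma FOn_smul (c : ℂ) (f : ℂ → ℂ) (k : ℂ → ℂ) (z : Vec) :
    FOn n ξ V h0 B (fun x => c * f x) k z = c * FOn n ξ V h0 B f k z := by
  unfold FOn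
  rw [mul_left_comm c]
  congr 1
  rw [← integral_const_mul]
  refine integral_congr_ae (Filter.Eventually.of_forall fun u => ?_)
  simp only
  rw [fOn_smul]
  ring

lemma dil_FOn {b : ℂ} (hb : b ≠ 0) (f k : ℂ → ℂ) (z : Vec) :
    dil b⁻¹ (FOn n ξ V h0 B f k) z =
      ((‖b‖ ^ 2 : ℝ) : ℂ) * FOn n ξ V h0 B (fun x => f (b * x)) k z := by
  have hbn : ‖b‖ ≠ 0 := norm_ne_zero_iff.mpr hb
  have hbC : ((‖b‖ : ℝ) : ℂ) ≠ 0 := by exact_mod_cast hbn
  unfold dil FOn
  simp only [Prod.smul_fst, Prod.smul_snd, smul_eq_mul]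
  have h1 := int_affine hb 0 (fun t : ℂ => phat k (b⁻¹ * z.1 * t) * fOn n ξ V h0 B f t *
    eC (b⁻¹ * z.2 * t))
  simp only [add_zero] at h1
  have h2 : ∀ t : ℂ, phat k (b⁻¹ * z.1 * (b * t)) * fOn n ξ V h0 B f (b * t) *
      eC (b⁻¹ * z.2 * (b * t)) = ((‖b‖ ^ 2 : ℝ) : ℂ) * (phat k (z.1 * t) *
        fOn n ξ V h0 B (fun x => f (b * x)) t * eC (z.2 * t)) := by
    intro t
    rw [fOn_dil hb]
    have e1 : b⁻¹ * z.1 * (b * t) = z.1 * t := by field_simp
    have e2 : b⁻¹ * z.2 * (b * t) = z.2 * t := by field_simp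
    rw [e1, e2]
    push_cast
    field_simp
  simp_rw [h2] at h1
  rw [integral_const_mul] at h1
  rw [norm_inv]
  generalize ∫ t : ℂ, phat k (b⁻¹ * z.1 * t) * fOn n ξ V h0 B f t * eC (b⁻¹ * z.2 * t) = I1 at h1 ⊢
  generalize ∫ t : ℂ, phat k (z.1 * t) *
        fOn n ξ V h0 B (fun x => f (b * x)) t * eC (z.2 * t) = I2 at h1 ⊢
  have h3 : I1 = ((‖b‖ ^ 2 : ℝ) : ℂ) * (((‖b‖ ^ 2 : ℝ) : ℂ) * I2) := by
    rw [h1]
    push_cast
    field_simp
  rw [h3]
  push_cast
  field_simp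

/-! ### The (T) step for `f` -/

/-- left function after a step. -/
def stepL (b : ℂ) (r : ℂ) (f : ℂ → ℂ) (x : ℂ) : ℂ := f x + r * ((‖b‖ ^ 2 : ℝ) : ℂ) * f (b * x)

/-- right function after a step. -/
def stepR (b : ℂ) (y k c : ℂ) (f : ℂ → ℂ) (x : ℂ) : ℂ :=
  c * (y * ((‖b‖ ^ 2 : ℝ) : ℂ) * f (b * x) + k * f x)

lemma datN_stepL (hn : n ≠ 0) (h : DatN n s ξ f) {b : ℂ} (hb : b ≠ 0) (r : ℂ) :
    DatN n s ξ (stepL b r f) :=
  DatN.add hn h (DatN.smul (DatN.dil hn h hb) _)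

lemma datN_stepR (hn : n ≠ 0) (h : DatN n s ξ f) {b : ℂ} (hb : b ≠ 0) (y k c : ℂ) :
    DatN n s ξ (stepR b y k c f) :=
  DatN.smul (DatN.add hn (DatN.smul (DatN.dil hn h hb) _) (DatN.smul h _)) _

/-- **The (T) step on the level of `f`.** -/
theorem pair_step (X : XiP ξ κ c0') (C : XnC n s κ V h0 B B') {fL fR : ℂ → ℂ} (k0 : 𝓢(ℂ, ℂ))
    (hL : DatN n s ξ fL) (hR : DatN n s ξ fR) {W0 W0' : Eis → ℂ}
    (hp : PairW s W0 W0' (FPn n ξ fL k0) (FOn n ξ V h0 B fR k0)) {b : Eis} (hb : b ≠ 0)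
    {y y' c c' k : ℂ} (hy : y * y' = 1) (hc : c * c' = 1) {W W' : Eis → ℂ} (bW : Bdd W)
    (bW' : Bdd W')
    (h1 : ∀ t, t ≠ 0 → W (b * t) + k * y * W t = c * (y * W0 t + k * W0 (b * t)))
    (h1n : ∀ h, ¬ b ∣ h → W h = c * (k * W0 h))
    (h2 : ∀ t, t ≠ 0 → W' (b * t) + k * y' * W' t = c' * (y' * W0' t + k * W0' (b * t)))
    (h2n : ∀ h, ¬ b ∣ h → W' h = c' * (k * W0' h)) :
    PairW s W W' (FPn n ξ (stepL (toC b) (k * y) fL) k0)
      (FOn n ξ V h0 B (stepR (toC b) y k c fR) k0) := by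
  have hn : n ≠ 0 := by have := C.n2; omega
  have hbC : toC b ≠ 0 := by rwa [Ne, toC_eq_zero]
  have h := hp.tstep hb hy hc bW bW' h1 h1n h2 h2n
  have e1 : (fun u => FPn n ξ fL k0 u + (k * y) * dil (toC b) (FPn n ξ fL k0) u) =
      FPn n ξ (stepL (toC b) (k * y) fL) k0 := by
    funext u
    unfold stepL
    rw [FPn_add hn (CS_of_DatN hL) (CS_of_DatN (DatN.smul (DatN.dil hn hL hbC) _)), FPn_smul,
      dil_FPn hbC]
    ring
  have e2 : (fun u => c * (y * dil (toC b)⁻¹ (FOn n ξ V h0 B fR k0) u +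
      k * FOn n ξ V h0 B fR k0 u)) = FOn n ξ V h0 B (stepR (toC b) y k c fR) k0 := by
    funext u
    unfold stepR
    rw [FOn_smul, FOn_add X C (DatN.smul (DatN.dil hn hR hbC) _) (DatN.smul hR _), FOn_smul,
      FOn_smul, dil_FOn hbC]
    ring
  rw [e1, e2] at h
  exact h

end Crest.Agent.R017.Glue681
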