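import Crest.Agent.R017.XiI2_590
import Crest.Agent.R017.Glue3_681

/-!
# Row 17: finite combinations of dilates and the `e`-sum over `Sm M` (helper590)

* `lin μ b f x = Σ_i μ_i f(b_i x)` : `datN_lin`, `fPn_lin`, `fOn_lin`
* `redf` : `fPn_redf` = sum over `(e, M) = 1`; `fPn_redf_Sm` = `Σ_{Sm M e}`; `fOn_redf`
-/

set_option autoImplicit false

noncomputable section

open Complex MeasureTheory
open scoped ComplexConjugate

namespace Crest.Agent.R017.XiI590

open Crest.Agent.R012 Crest.Agent.R012.Eis Crest.Agent.R012.Gauss880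
open Crest.Agent.R017.Xi499 Crest.Agent.R017.Xn590 Crest.Agent.R017.Sx545
open Crest.Agent.R017.Glue681
open Crest.Agent.R017.Xi590 (CS)

variable {n : ℕ} {s : ℂ} {ξ : Eis → ℂ} {κ c0' : ℂ} {V : ℝ} {h0 B B' : ℂ} {f g : ℂ → ℂ}
variable {ι : Type*}

/-- finite combination of dilates -/
def lin (S : Finset ι) (μ b : ι → ℂ) (f : ℂ → ℂ) (x : ℂ) : ℂ := ∑ i ∈ S, μ i * f (b i * x)

lemma datN_zero : DatN n s ξ (fun _ => 0) where
  smooth := contDiff_const
  supp := ⟨1, 2, one_pos, one_lt_two, fun _ _ => rfl⟩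
  par _ := by simp
  mom := by
    right
    constructor
    · simp
    · have : ∀ y, F1.Phi (fun _ : ℂ => (0 : ℂ)) y = 0 := by
        intro y; unfold F1.Phi; simp
      simp [this]

lemma lin_insert [DecidableEq ι] {S : Finset ι} {i : ι} (hi : i ∉ S) (μ b : ι → ℂ) :
    lin (insert i S) μ b f = fun x => μ i * f (b i * x) + lin S μ b f x := by
  funext x
  unfold lin
  rw [Finset.sum_insert hi]

lemma datN_lin (hn : n ≠ 0) (h : DatN n s ξ f) (S : Finset ι) (μ b : ι → ℂ)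
    (hb : ∀ i ∈ S, b i ≠ 0) : DatN n s ξ (lin S μ b f) := by
  classical
  induction S using Finset.induction_on with
  | empty => exact datN_zero
  | insert i S hi ih =>
    rw [lin_insert hi]
    exact DatN.add hn (DatN.smul (DatN.dil hn h (hb i (Finset.mem_insert_self _ _))) _)
      (ih fun j hj => hb j (Finset.mem_insert_of_mem hj))

lemma cs_dil (h : CS f) {b : ℂ} (hb : b ≠ 0) : CS (fun x => f (b * x)) where
  smooth := h.smooth.comp (contDiff_const.mul contDiff_id)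
  supp := by
    obtain ⟨a, c, ha, hac, hs⟩ := h.supp
    have hbn : 0 < ‖b‖ := norm_pos_iff.mpr hb
    refine ⟨a / ‖b‖, c / ‖b‖, by positivity, by gcongr, fun x hx => hs _ ?_⟩
    rw [norm_mul]
    rcases hx with hx | hx
    · left
      rwa [lt_div_iff₀ hbn, mul_comm] at hx
    · right
      rwa [div_lt_iff₀ hbn, mul_comm] at hx

lemma cs_smul (h : CS f) (r : ℂ) : CS (fun x => r * f x) where
  smooth := contDiff_const.mul h.smooth
  supp := by
    obtain ⟨a, c, ha, hac, hs⟩ := h.supp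
    exact ⟨a, c, ha, hac, fun x hx => by rw [hs x hx, mul_zero]⟩

lemma cs_add (h : CS f) (h' : CS g) : CS (fun x => f x + g x) where
  smooth := h.smooth.add h'.smooth
  supp := by
    obtain ⟨a, c, ha, hac, hs⟩ := h.supp
    obtain ⟨a', c', ha', hac', hs'⟩ := h'.supp
    refine ⟨min a a', max c c', lt_min ha ha', ?_, fun x hx => ?_⟩
    · exact (min_le_left _ _).trans_lt (hac.trans_le (le_max_left _ _))
    · rcases hx with hx | hx
      · rw [hs x (Or.inl (hx.trans_le (min_le_left _ _))),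
          hs' x (Or.inl (hx.trans_le (min_le_right _ _))), add_zero]
      · rw [hs x (Or.inr ((le_max_left _ _).trans_lt hx)),
          hs' x (Or.inr ((le_max_right _ _).trans_lt hx)), add_zero]

lemma cs_zero : CS (fun _ => 0) where
  smooth := contDiff_const
  supp := ⟨1, 2, one_pos, one_lt_two, fun _ _ => rfl⟩

lemma cs_lin (h : CS f) (S : Finset ι) (μ b : ι → ℂ) (hb : ∀ i ∈ S, b i ≠ 0) :
    CS (lin S μ b f) := by
  classical
  induction S using Finset.induction_on with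
  | empty => exact cs_zero
  | insert i S hi ih =>
    rw [lin_insert hi]
    exact cs_add (cs_smul (cs_dil h (hb i (Finset.mem_insert_self _ _))) _)
      (ih fun j hj => hb j (Finset.mem_insert_of_mem hj))

lemma fPn_lin (hn : n ≠ 0) (h : CS f) (S : Finset ι) (μ b : ι → ℂ) (hb : ∀ i ∈ S, b i ≠ 0)
    (x : ℂ) : fPn n ξ (lin S μ b f) x = ∑ i ∈ S, μ i * fPn n ξ f (b i * x) := by
  classical
  induction S using Finset.induction_on with
  | empty =>
    unfold lin fPn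
    simp
  | insert i S hi ih =>
    rw [lin_insert hi, fPn_add hn (cs_smul (cs_dil h (hb i (Finset.mem_insert_self _ _))) _)
      (cs_lin h S μ b fun j hj => hb j (Finset.mem_insert_of_mem hj)), fPn_smul, fPn_dil,
      ih fun j hj => hb j (Finset.mem_insert_of_mem hj), Finset.sum_insert hi]

lemma fOn_lin (hn : n ≠ 0) (hξ : ∀ a, ‖ξ a‖ ≤ 1) (hh : h0 ≠ 0) (h : CS f) (S : Finset ι)
    (μ b : ι → ℂ) (hb : ∀ i ∈ S, b i ≠ 0) {u : ℂ} (hu : u ≠ 0) :
    fOn n ξ V h0 B (lin S μ b f) u =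
      ∑ i ∈ S, μ i * ((((‖b i‖ ^ 2)⁻¹ : ℝ) : ℂ) * fOn n ξ V h0 B f (b i * u)) := by
  classical
  induction S using Finset.induction_on with
  | empty =>
    have h1 : lin (∅ : Finset ι) μ b f = fun x => 0 * f x := by
      funext x; unfold lin; simp
    rw [h1, fOn_smul]
    simp
  | insert i S hi ih =>
    rw [lin_insert hi, fOn_add hn hξ hh
      (cs_smul (cs_dil h (hb i (Finset.mem_insert_self _ _))) _)
      (cs_lin h S μ b fun j hj => hb j (Finset.mem_insert_of_mem hj)) hu, fOn_smul,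
      fOn_dil (hb i (Finset.mem_insert_self _ _)),
      ih fun j hj => hb j (Finset.mem_insert_of_mem hj), Finset.sum_insert hi]

/-! ### the reduced test function -/

/-- `f' = Σ_i μ_i ξ(d_i) N(d_i)^(n-1) f(d_i^n ·)` -/
def redf (n : ℕ) (ξ : Eis → ℂ) (k : ℕ) (μ : Fin k → ℂ) (d : Fin k → Eis) (f : ℂ → ℂ) : ℂ → ℂ :=
  lin Finset.univ (fun i => μ i * (ξ (d i) * (nm (d i) : ℂ) ^ (n - 1)))
    (fun i => toC (d i) ^ n) f

open Classical in
/-- data for the Moebius inversion modulo `M` -/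
structure Mob (M : Eis) (k : ℕ) (μ : Fin k → ℂ) (d : Fin k → Eis) : Prop where
  ne : ∀ i, d i ≠ 0
  norm : ∀ i, ‖μ i‖ = 1
  pr : ∀ i p, Prime p → p ∣ d i → p ∣ M
  inv : ∀ G : Eis → ℂ, Summable G → (∑' e : Eis, if IsCoprime e M then G e else 0) =
      ∑ i, μ i * ∑' e : Eis, G (d i * e)

theorem exists_Mob {M : Eis} (hM : M ≠ 0) : ∃ (k : ℕ) (μ : Fin k → ℂ) (d : Fin k → Eis),
    Mob M k μ d := by
  obtain ⟨k, μ, d, h1, h2⟩ := exists_mob hM
  exact ⟨k, μ, d, fun i => (h1 i).1, fun i => (h1 i).2.1, fun i => (h1 i).2.2, h2⟩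

variable {M : Eis} {k : ℕ} {μ : Fin k → ℂ} {d : Fin k → Eis}

lemma Mob.b_ne (hM : Mob M k μ d) (i : Fin k) : toC (d i) ^ n ≠ 0 :=
  pow_ne_zero _ (Po581.toC_ne_zero (hM.ne i))

lemma datN_redf (hn : n ≠ 0) (hM : Mob M k μ d) (h : DatN n s ξ f) :
    DatN n s ξ (redf n ξ k μ d f) :=
  datN_lin hn h _ _ _ fun i _ => hM.b_ne i

open Classical in
theorem fPn_redf (hn : n ≠ 0) (hM : Mob M k μ d) (hmul : ∀ a b, ξ (a * b) = ξ a * ξ b)
    (h : CS f) (x : ℂ) : fPn n ξ (redf n ξ k μ d f) x =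
      (1 / 6 : ℂ) * ∑' e : Eis, if IsCoprime e M then
        ξ e * ((nm e : ℂ) ^ (n - 1) * f (toC e ^ n * x)) else 0 := by
  unfold redf
  rw [fPn_lin hn h _ _ _ (fun i _ => hM.b_ne i), hM.inv _ (summable_fPn hn h x), Finset.mul_sum]
  refine Finset.sum_congr rfl fun i _ => ?_
  unfold fPn
  have h1 : ∀ e : Eis, ξ (d i * e) * ((nm (d i * e) : ℂ) ^ (n - 1) *
      f (toC (d i * e) ^ n * x)) = (ξ (d i) * (nm (d i) : ℂ) ^ (n - 1)) *
        (ξ e * ((nm e : ℂ) ^ (n - 1) * f (toC e ^ n * (toC (d i) ^ n * x)))) := by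
    intro e
    have e1 : toC (d i * e) ^ n * x = toC e ^ n * (toC (d i) ^ n * x) := by
      rw [map_mul, mul_pow]; ring
    rw [hmul, nm_mul, e1]
    push_cast
    ring
  rw [tsum_congr h1, tsum_mul_left]
  ring

lemma toC_unit_pow (h6 : 6 ∣ n) {u : Eis} (hu : IsUnit u) : toC u ^ n = 1 := by
  obtain ⟨t, rfl⟩ := h6
  rw [pow_mul]
  have h1 : u ^ 6 = 1 := by
    have h2 := isUnit_iff.mp hu
    obtain ⟨v, hv6, hv⟩ := exists_units6 (z := u) (by
      intro hd
      have h3 : IsUnit (1 - w : Eis) := isUnit_of_dvd_unit hd hu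
      rw [isUnit_iff] at h3
      revert h3
      decide)
    have h4 := Sym645.prim_unit_eq_one ((isUnit_of_mem hv6).mul hu) hv
    have h5 : v ^ 6 = 1 := by
      unfold P355.units6 at hv6
      simp only [Finset.mem_insert, Finset.mem_singleton] at hv6
      rcases hv6 with h | h | h | h | h | h <;> subst h <;> decide
    have h6 : (v * u) ^ 6 = 1 := by rw [h4, one_pow]
    rw [mul_pow, h5, one_mul] at h6
    exact h6
  have h2 : toC u ^ 6 = 1 := by rw [← map_pow, h1, map_one]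
  rw [h2, one_pow]

lemma nm_unit {u : Eis} (hu : IsUnit u) : nm u = 1 := isUnit_iff.mp hu

open Classical in
theorem fPn_redf_Sm (hn : n ≠ 0) (h6 : 6 ∣ n) (h3 : (3 : Eis) ∣ M) (hM : Mob M k μ d)
    (hmul : ∀ a b, ξ (a * b) = ξ a * ξ b) (hu : ∀ u, IsUnit u → ξ u = 1)
    (h : CS f) (x : ℂ) : fPn n ξ (redf n ξ k μ d f) x =
      ∑' e : Eis, if Sm M e then ξ e * ((nm e : ℂ) ^ (n - 1) * f (toC e ^ n * x)) else 0 := by
  rw [fPn_redf hn hM hmul h x, tsum_units h3 (summable_fPn hn h x)]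
  · rw [← mul_assoc]
    norm_num
  · intro u e huu
    rw [hmul, hu u huu, nm_mul, nm_unit huu, map_mul, mul_pow, toC_unit_pow h6 huu, one_mul,
      one_mul, one_mul]

theorem fOn_redf (hn : n ≠ 0) (hξ : ∀ a, ‖ξ a‖ ≤ 1) (hh : h0 ≠ 0) (hM : Mob M k μ d)
    (h : CS f) {u : ℂ} (hu : u ≠ 0) :
    fOn n ξ V h0 B (redf n ξ k μ d f) u =
      ∑ i, (μ i * ξ (d i) * ((nm (d i) : ℂ))⁻¹) * fOn n ξ V h0 B f (toC (d i) ^ n * u) := by
  unfold redf
  rw [fOn_lin hn hξ hh h _ _ _ (fun i _ => hM.b_ne i) hu]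
  refine Finset.sum_congr rfl fun i _ => ?_
  have h1 : ‖toC (d i) ^ n‖ ^ 2 = (nm (d i) : ℝ) ^ n := by
    rw [norm_pow, ← pow_mul, mul_comm n 2, pow_mul, norm_toC_sq]
  have h2 : (nm (d i) : ℂ) ≠ 0 := by exact_mod_cast (nm_pos.mpr (hM.ne i)).ne'
  rw [h1]
  push_cast
  obtain ⟨t, rfl⟩ : ∃ t, n = t + 1 := ⟨n - 1, by omega⟩
  rw [Nat.add_sub_cancel]
  field_simp
  ring

end Crest.Agent.R017.XiI590
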