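import Crest.Agent.R017.XnK2_960

/-!
Row 17 (helper960), K2a for helper590's pair theorem (general `n`).
Step 1 (duality): for `λ ≠ 0`, `∫ Φ(P m^n) e(-λ m) dm = n ∫ X(λ M) e(-P M^n) dM`,
`X = fC(|s|² W)`, `W(s) = |s|^(2n-2) f(s^n)`.  With step 2 this is K2a.
-/

set_option autoImplicit false

noncomputable section

open Complex MeasureTheory Set Filter Topology
open scoped FourierTransform ContDiff SchwartzMap

namespace Crest.Agent.R017.Xn960

open Crest.Agent.R012 Crest.Agent.R012.Eis Crest.Agent.R012.Po581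
open Crest.Agent.R017.Xi590 Crest.Agent.R017.Xn590

/-! ### Fubini facts -/

/-- Parseval with a parameter. -/
lemma parsevalM {g h : ℂ → ℂ} (hg : Integrable g) (hh : Integrable h) (M : ℂ) :
    ∫ x, g x * fC h (x * M) = ∫ y, fC g (y * M) * h y := by
  have hI : Integrable (fun p : ℂ × ℂ => (g p.1 * h p.2) * eC (-(p.1 * M * p.2)))
      ((volume : Measure ℂ).prod volume) := by
    refine (hg.mul_prod hh).mono ?_ (Eventually.of_forall fun p => ?_)
    · exact (hg.mul_prod hh).aestronglyMeasurable.mul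
        (TateC413.continuous_eC.comp (by fun_prop)).aestronglyMeasurable
    · rw [norm_mul, TateC413.norm_eC, mul_one]
  have h1 : ∀ x, g x * fC h (x * M) = ∫ y, (g x * h y) * eC (-(x * M * y)) := by
    intro x
    unfold fC
    rw [← integral_const_mul]
    congr 1
    ext y
    ring
  have h2 : ∀ y, fC g (y * M) * h y = ∫ x, (g x * h y) * eC (-(x * M * y)) := by
    intro y
    unfold fC
    rw [← integral_mul_const]
    congr 1
    ext x
    rw [show y * M * x = x * M * y by ring]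
    ring
  simp_rw [h1, h2]
  exact integral_integral_swap hI

lemma integral_dil (s : ℂ) (hs : s ≠ 0) (G : ℂ → ℂ) :
    ∫ M, G (s * M) = (((‖s‖ ^ 2)⁻¹ : ℝ) : ℂ) * ∫ m, G m := by
  have := integral_comp_affine G hs 0
  simp only [add_zero] at this
  rw [this, Complex.real_smul]

lemma integrable_dil (R : 𝓢(ℂ, ℂ)) {s : ℂ} (hs : s ≠ 0) : Integrable fun M => R (s * M) := by
  have := (dilS s hs R).integrable (μ := volume)
  refine this.congr (Eventually.of_forall fun x => ?_)
  exact dilS_apply s hs R x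

lemma integral_dil_real (s : ℂ) (hs : s ≠ 0) (G : ℂ → ℝ) :
    ∫ M, G (s * M) = (‖s‖ ^ 2)⁻¹ * ∫ m, G m := by
  have := integral_comp_affine G hs 0
  simp only [add_zero] at this
  rw [this, smul_eq_mul]

lemma CS.invsq {V : ℂ → ℂ} (hV : CS V) : CS (fun s => (((‖s‖ ^ 2)⁻¹ : ℝ) : ℂ) * V s) := by
  obtain ⟨a, b, ha, hab, hs⟩ := hV.supp
  refine CS.of (a := a) (b := b) (fun x hx => ?_) ha hab (fun x hx => by rw [hs x hx, mul_zero])
  have h1 : ContDiffAt ℝ ∞ (fun s : ℂ => (((‖s‖ ^ 2)⁻¹ : ℝ) : ℂ)) x := by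
    have h2 := (contDiffAt_norm_pow hx 2).inv (by
      exact_mod_cast (pow_pos (norm_pos_iff.mpr hx) 2).ne')
    refine h2.congr_of_eventuallyEq (Eventually.of_forall fun s => ?_)
    push_cast
    rfl
  exact h1.mul hV.smooth.contDiffAt

/-- `(s, M) ↦ V(s) R(s M) E(M)` is integrable. -/
lemma int2 {V : ℂ → ℂ} (hV : CS V) (R : 𝓢(ℂ, ℂ)) {E : ℂ → ℂ} (hE : Continuous E)
    (hE1 : ∀ M, ‖E M‖ = 1) :
    Integrable (fun p : ℂ × ℂ => V p.1 * R (p.1 * p.2) * E p.2)
      ((volume : Measure ℂ).prod volume) := by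
  have hc : Continuous fun p : ℂ × ℂ => V p.1 * R (p.1 * p.2) * E p.2 :=
    ((hV.cont.comp continuous_fst).mul (R.continuous.comp (by fun_prop))).mul
      (hE.comp continuous_snd)
  rw [integrable_prod_iff hc.aestronglyMeasurable]
  constructor
  · refine Eventually.of_forall fun s => ?_
    by_cases hs : s = 0
    · subst hs
      simp [hV.zero]
    · simp only
      have h1 : Integrable fun M => V s * R (s * M) := (integrable_dil R hs).const_mul _
      refine h1.norm.mono' ?_ (Eventually.of_forall fun M => ?_)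
      · exact (hc.comp (by fun_prop : Continuous fun M : ℂ => (s, M))).aestronglyMeasurable
      · rw [norm_mul, hE1, mul_one]
  · have h0 := (CS.invsq hV).integrable.norm.mul_const (∫ m, ‖R m‖)
    refine h0.congr (Eventually.of_forall fun s => ?_)
    simp only
    by_cases hs : s = 0
    · subst hs
      simp [hV.zero]
    · have h2 : ∀ M, ‖V s * R (s * M) * E M‖ = ‖V s‖ * ‖R (s * M)‖ := by
        intro M
        rw [norm_mul, norm_mul, hE1, mul_one]
      simp_rw [h2]
      rw [integral_const_mul, integral_dil_real s hs (fun m => ‖R m‖), norm_mul,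
        Complex.norm_real, Real.norm_eq_abs, abs_of_nonneg (by positivity)]
      ring

lemma fub2 {V : ℂ → ℂ} (hV : CS V) (R : 𝓢(ℂ, ℂ)) {E : ℂ → ℂ} (hE : Continuous E)
    (hE1 : ∀ M, ‖E M‖ = 1) :
    ∫ s, V s * ∫ M, R (s * M) * E M = ∫ M, (∫ s, V s * R (s * M)) * E M := by
  have h1 : ∀ s, V s * ∫ M, R (s * M) * E M = ∫ M, V s * R (s * M) * E M := by
    intro s
    rw [← integral_const_mul]
    congr 1
    ext M
    ring
  have h2 : ∀ M, (∫ s, V s * R (s * M)) * E M = ∫ s, V s * R (s * M) * E M := by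
    intro M
    rw [← integral_mul_const]
  simp_rw [h1, h2]
  exact integral_integral_swap (int2 hV R hE hE1)

/-! ### the two functions of `λ` -/

variable {f : ℂ → ℂ}

/-- `W(s) = |s|^(2n-2) f(s^n)` times `|s|²` -/
def VV (n : ℕ) (f : ℂ → ℂ) (s : ℂ) : ℂ := ((‖s‖ ^ 2 : ℝ) : ℂ) * powW (2 * (n - 1)) n f s

lemma contDiff_sq : ContDiff ℝ ∞ fun s : ℂ => ((‖s‖ ^ 2 : ℝ) : ℂ) :=
  Complex.ofRealCLM.contDiff.comp (contDiff_norm_sq ℝ)

lemma CS_VV (n : ℕ) (hn : n ≠ 0) (hf : CS f) : CS (VV n f) :=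
  CS.mul_smooth (CS_powW hf _ hn) contDiff_sq

/-- `Φ(P m^n)` -/
def PsS (n : ℕ) (hn : n ≠ 0) (hf : CS f) (P : ℂ) (hP : P ≠ 0) : 𝓢(ℂ, ℂ) :=
  powS n hn (dilS P hP hf.Ph)

lemma PsS_apply (n : ℕ) (hn : n ≠ 0) (hf : CS f) (P : ℂ) (hP : P ≠ 0) (m : ℂ) :
    PsS n hn hf P hP m = Phi f (P * m ^ n) := by
  unfold PsS
  rw [powS_apply, dilS_apply, CS.Ph_apply]

lemma meas_ph (n : ℕ) (P : ℂ) : Measurable fun p : ℂ × ℂ => eC (-(P * (p.1 / p.2) ^ n)) :=
  TateC413.continuous_eC.measurable.comp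
    (((measurable_fst.div measurable_snd).pow_const n).const_mul P).neg

lemma Phi_powW (n : ℕ) (hn : n ≠ 0) (hf : CS f) (P m : ℂ) :
    Phi f (P * m ^ n) = n * ∫ s, powW (2 * (n - 1)) n f s * eC (-(P * (m / s) ^ n)) := by
  unfold Phi
  have hmeas : AEStronglyMeasurable (fun p : ℂ => f p * eC (-(P * m ^ n / p))) := by
    refine hf.cont.aestronglyMeasurable.mul ?_
    exact (TateC413.continuous_eC.measurable.comp
      (measurable_const.div measurable_id).neg).aestronglyMeasurable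
  rw [integral_pow n hn hmeas, ← integral_const_mul]
  congr 1
  ext s
  rw [Complex.real_smul, show 2 * n - 2 = 2 * (n - 1) by omega, div_pow, mul_div_assoc]
  unfold powW
  push_cast
  ring

/-- the duality identity -/
lemma duality (n : ℕ) (hn : n ≠ 0) (hf : CS f) (P : ℂ) (hP : P ≠ 0) {T : ℂ → ℂ} (hT : CS T) :
    ∫ l, T l * fC (PsS n hn hf P hP) l =
      ∫ l, T l * ((n : ℂ) * ∫ M, fC (VV n f) (l * M) * eC (-(P * M ^ n))) := by
  have hV := CS_VV n hn hf
  have hW : CS (powW (2 * (n - 1)) n f) := CS_powW hf _ hn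
  have hE : Continuous fun M : ℂ => eC (-(P * M ^ n)) := cont_ph n P
  have hE1 : ∀ M : ℂ, ‖eC (-(P * M ^ n))‖ = 1 := fun M => TateC413.norm_eC _
  -- Parseval
  have s1 : ∫ l, T l * fC (PsS n hn hf P hP) l = ∫ m, fC T m * PsS n hn hf P hP m := by
    have := parsevalM hT.integrable ((PsS n hn hf P hP).integrable (μ := volume)) 1
    simpa only [mul_one] using this
  -- insert `Φ`
  have s2 : ∫ m, fC T m * PsS n hn hf P hP m =
      (n : ℂ) * ∫ m, ∫ s, fC T m * powW (2 * (n - 1)) n f s * eC (-(P * (m / s) ^ n)) := by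
    rw [← integral_const_mul]
    congr 1
    ext m
    rw [PsS_apply, Phi_powW n hn hf]
    rw [mul_left_comm, ← integral_const_mul]
    congr 2
    ext s
    ring
  have s3 : ∫ m, ∫ s, fC T m * powW (2 * (n - 1)) n f s * eC (-(P * (m / s) ^ n)) =
      ∫ s, ∫ m, fC T m * powW (2 * (n - 1)) n f s * eC (-(P * (m / s) ^ n)) := by
    refine integral_integral_swap ?_
    have hTi : Integrable (fC T) := by
      have := (fCS hT.S).integrable (μ := volume)
      refine this.congr (Eventually.of_forall fun x => ?_)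
      simp only [fCS_apply, CS.S_coe]
    refine (hTi.mul_prod hW.integrable).mono ?_ (Eventually.of_forall fun p => ?_)
    · exact (hTi.mul_prod hW.integrable).aestronglyMeasurable.mul
        (meas_ph n P).aestronglyMeasurable
    · simp only [Function.uncurry]
      rw [norm_mul, TateC413.norm_eC, mul_one]
  have s4 : ∀ s, ∫ m, fC T m * powW (2 * (n - 1)) n f s * eC (-(P * (m / s) ^ n)) =
      VV n f s * ∫ M, fCS hT.S (s * M) * eC (-(P * M ^ n)) := by
    intro s
    by_cases hs : s = 0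
    · subst hs
      rw [hV.zero, hW.zero]
      simp
    · have h1 := integral_dil s hs (fun m => fC T m * eC (-(P * (m / s) ^ n)))
      have h2 : ∀ M, fC T (s * M) * eC (-(P * (s * M / s) ^ n)) =
          fCS hT.S (s * M) * eC (-(P * M ^ n)) := by
        intro M
        rw [mul_div_cancel_left₀ _ hs, fCS_apply, CS.S_coe]
      simp only [h2] at h1
      rw [h1]
      unfold VV
      have h3 : ((‖s‖ ^ 2 : ℝ) : ℂ) * (((‖s‖ ^ 2)⁻¹ : ℝ) : ℂ) = 1 := by
        have : ‖s‖ ^ 2 ≠ 0 := pow_ne_zero 2 (norm_ne_zero_iff.mpr hs)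
        rw [← Complex.ofReal_mul, mul_inv_cancel₀ this, Complex.ofReal_one]
      rw [show ((‖s‖ ^ 2 : ℝ) : ℂ) * powW (2 * (n - 1)) n f s * ((((‖s‖ ^ 2)⁻¹ : ℝ) : ℂ) *
        ∫ m, fC T m * eC (-(P * (m / s) ^ n))) =
        (((‖s‖ ^ 2 : ℝ) : ℂ) * (((‖s‖ ^ 2)⁻¹ : ℝ) : ℂ)) * (powW (2 * (n - 1)) n f s *
        ∫ m, fC T m * eC (-(P * (m / s) ^ n))) by ring, h3, one_mul, ← integral_const_mul]
      congr 1
      ext m
      ring
  rw [s1, s2, s3]
  simp_rw [s4]
  rw [fub2 hV (fCS hT.S) hE hE1]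
  have s5 : ∀ M, ∫ s, VV n f s * fCS hT.S (s * M) = ∫ l, T l * fCS hV.S (l * M) := by
    intro M
    have h1 := parsevalM hV.integrable hT.integrable M
    simp only [fCS_apply, CS.S_coe]
    rw [h1]
    congr 1
    ext l
    ring
  simp_rw [s5]
  rw [← fub2 hT (fCS hV.S) hE hE1, ← integral_const_mul]
  congr 1
  ext l
  simp only [fCS_apply, CS.S_coe]
  ring

/-- the right-hand side is continuous off `0` -/
lemma rhs_cont (n : ℕ) (X : 𝓢(ℂ, ℂ)) (P : ℂ) :
    ContinuousOn (fun l : ℂ => ∫ M, X (l * M) * eC (-(P * M ^ n))) {0}ᶜ := by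
  have h1 : ∀ l ∈ ({0}ᶜ : Set ℂ), ∫ M, X (l * M) * eC (-(P * M ^ n)) =
      (((‖l‖ ^ 2)⁻¹ : ℝ) : ℂ) * ∫ M, X M * eC (-(P * (M / l) ^ n)) := by
    intro l hl
    have hl0 : l ≠ 0 := hl
    rw [← integral_dil l hl0 (fun M => X M * eC (-(P * (M / l) ^ n)))]
    congr 1
    ext M
    rw [mul_div_cancel_left₀ _ hl0]
  refine ContinuousOn.congr ?_ h1
  refine ContinuousOn.mul ?_ ?_
  · intro l hl
    have hl0 : l ≠ 0 := hl
    have : ContinuousAt (fun l : ℂ => (‖l‖ ^ 2)⁻¹) l :=
      (continuous_norm.pow 2).continuousAt.inv₀ (pow_ne_zero 2 (norm_ne_zero_iff.mpr hl0))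
    exact (Complex.continuous_ofReal.continuousAt.comp this).continuousWithinAt
  · intro l hl
    have hl0 : l ≠ 0 := hl
    refine ContinuousAt.continuousWithinAt ?_
    refine continuousAt_of_dominated (bound := fun M => ‖X M‖) ?_ ?_ ?_ ?_
    · refine Eventually.of_forall fun l => ?_
      have hc : Continuous fun M : ℂ => X M * eC (-(P * (M / l) ^ n)) :=
        X.continuous.mul (TateC413.continuous_eC.comp (by fun_prop))
      exact hc.aestronglyMeasurable
    · refine Eventually.of_forall fun l => Eventually.of_forall fun M => ?_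
      rw [norm_mul, TateC413.norm_eC, mul_one]
    · exact (X.integrable (μ := volume)).norm
    · refine Eventually.of_forall fun M => ?_
      refine continuousAt_const.mul ?_
      refine TateC413.continuous_eC.continuousAt.comp ?_
      refine ContinuousAt.neg ?_
      refine continuousAt_const.mul ?_
      exact (continuousAt_const.div continuousAt_id hl0).pow n

lemma CS_of_real {g : ℂ → ℝ} (hg : ContDiff ℝ ∞ g) (hc : HasCompactSupport g)
    (hs : tsupport g ⊆ {0}ᶜ) : CS (fun x => (g x : ℂ)) := by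
  have hO : IsOpen (tsupport g)ᶜ := (isClosed_tsupport g).isOpen_compl
  have h0 : (0 : ℂ) ∈ (tsupport g)ᶜ := fun h => hs h rfl
  obtain ⟨a, ha, hab⟩ := Metric.isOpen_iff.mp hO 0 h0
  obtain ⟨b, hb⟩ := hc.isBounded.subset_closedBall (0 : ℂ)
  refine ⟨Complex.ofRealCLM.contDiff.comp hg, a, max b (a + 1), ha,
    lt_max_of_lt_right (by linarith), fun x hx => ?_⟩
  have : g x = 0 := by
    by_contra hne
    have hmem : x ∈ tsupport g := subset_tsupport g hne
    rcases hx with hx | hx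
    · exact hab (by simpa using hx) hmem
    · have := hb hmem
      rw [mem_closedBall_zero_iff] at this
      have := (le_max_left b (a + 1)).trans_lt hx
      linarith
  rw [this, Complex.ofReal_zero]

/-- **K2a, step 1.** -/
theorem step1 (n : ℕ) (hn : n ≠ 0) (hf : CS f) (P : ℂ) (hP : P ≠ 0) {l : ℂ} (hl : l ≠ 0) :
    fC (PsS n hn hf P hP) l = (n : ℂ) * ∫ M, fC (VV n f) (l * M) * eC (-(P * M ^ n)) := by
  have hV := CS_VV n hn hf
  set A : ℂ → ℂ := fC (PsS n hn hf P hP) with hA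
  set B : ℂ → ℂ := fun l => (n : ℂ) * ∫ M, fC (VV n f) (l * M) * eC (-(P * M ^ n)) with hB
  have hAc : Continuous A := by
    rw [hA, ← fCS_coe]
    exact (fCS (PsS n hn hf P hP)).continuous
  have hBc : ContinuousOn B {0}ᶜ := by
    refine continuousOn_const.mul ?_
    have := rhs_cont n (fCS hV.S) P
    simpa only [fCS_apply, CS.S_coe] using this
  have hO : IsOpen ({0}ᶜ : Set ℂ) := isOpen_compl_singleton
  have hD : ContinuousOn (fun x => A x - B x) {0}ᶜ := hAc.continuousOn.sub hBc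
  have key : ∀ᵐ x : ℂ, x ∈ ({0}ᶜ : Set ℂ) → A x - B x = 0 := by
    refine hO.ae_eq_zero_of_integral_contDiff_smul_eq_zero
      (hD.locallyIntegrableOn hO.measurableSet) fun g hg hgc hgs => ?_
    have hT : CS (fun x => (g x : ℂ)) := CS_of_real hg hgc hgs
    have hd := duality n hn hf P hP hT
    have i1 : Integrable fun x => (g x : ℂ) * A x := by
      exact (hT.cont.mul hAc).integrable_of_hasCompactSupport hT.cs.mul_right
    have i2 : Integrable fun x => (g x : ℂ) * B x := by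
      have h1 := (int2 hT (fCS hV.S) (cont_ph n P) (norm_ph n P)).integral_prod_left
      refine (h1.const_mul (n : ℂ)).congr (Eventually.of_forall fun x => ?_)
      simp only [fCS_apply, CS.S_coe, hB]
      rw [mul_left_comm, ← integral_const_mul (g x : ℂ)]
      congr 2
      ext M
      unfold ph
      ring
    have h3 : ∀ x, g x • (A x - B x) = (g x : ℂ) * A x - (g x : ℂ) * B x := by
      intro x
      rw [Complex.real_smul]
      ring
    simp_rw [h3]
    rw [integral_sub i1 i2, sub_eq_zero]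
    exact hd
  have h5 : A =ᵐ[volume.restrict ({0}ᶜ : Set ℂ)] B := by
    rw [Filter.EventuallyEq, ae_restrict_iff' hO.measurableSet]
    filter_upwards [key] with x hx hx0
    exact sub_eq_zero.mp (hx hx0)
  exact Measure.eqOn_open_of_ae_eq h5 hO hAc.continuousOn hBc hl

/-- **K2a** (helper590's leaf). -/
theorem K2a (n : ℕ) (hn : n ≠ 0) (hf : CS f) (P : ℂ) (hP : P ≠ 0) :
    ∫ m, Phi f (P * m ^ n) * eC (-m) = (n : ℂ) ^ 3 * ((‖P‖ ^ 2 : ℝ) : ℂ) *
      ∫ M, ((‖M‖ ^ (2 * (n - 1)) : ℝ) : ℂ) *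
        (Po581.fC (powW (2 * (n - 1)) n f) M * eC (-(P * M ^ n))) := by
  have h1 := step1 n hn hf P hP (one_ne_zero)
  have h2 := step2 n (CS_powW hf (2 * (n - 1)) hn) P
  rw [← h2]
  have h3 : fC (PsS n hn hf P hP) 1 = ∫ m, Phi f (P * m ^ n) * eC (-m) := by
    unfold fC
    congr 1
    ext m
    rw [PsS_apply, one_mul]
  rw [← h3, h1]
  simp only [one_mul]
  rfl

end Crest.Agent.R017.Xn960
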