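import Crest.Agent.R017.XnZ_590
import Crest.Agent.R017.XnDiv_960
import Crest.Agent.R017.XnK3_960

/-!
Row 17: the pair theorem for a general exponent `n ≥ 2` (helper590's `PairThmN`), unconditional:
assembles 590's `pairThmN_of` with helper960's `XnDiv960.div_sum` and `Xn960.K2a`.
-/

set_option autoImplicit false

namespace Crest.Agent.R017.Xn960

open Crest.Agent.R017.Xi590 Crest.Agent.R017.Xn590

theorem divSum : DivSum := fun _ _ hH => XnDiv960.div_sum hH

theorem k2a (n : ℕ) (f : ℂ → ℂ) (hn : 2 ≤ n) (hf : CS f) : Xn590.K2a n f :=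
  fun P hP => Xn960.K2a n (by omega) hf P hP

/-- **The pair theorem**, general `n ≥ 2`, `ξ`, parity `s`. -/
theorem pairThmN : PairThmN := pairThmN_of divSum k2a

end Crest.Agent.R017.Xn960
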