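import Crest.Agent.R017.GlueV_266
import Crest.Agent.R017.Glue6_681
import Crest.Agent.R017.XiI3_590
import Crest.Agent.R017.XnAll_960

/-!
# Row 17, section A: vector pairs from a scalar base pair (helper681)

* `pairV_of` : `PairW s W0 W0' F0 F0'` and the two weight identities give `PairV`
* `pairV_FO` : the same for `FPn f`, `FOn f`
-/

set_option autoImplicit false

noncomputable section

open MeasureTheory Complex Set Filter
open scoped ENNReal ComplexConjugate Topology SchwartzMap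

namespace Crest.Agent.R017.Glue681

open Crest.Agent.R012 Crest.Agent.R012.Eis Crest.Agent.R012.K695 Crest.Agent.R012.AU681
  Crest.Agent.R012.Parseval499 Crest.Agent.R017.Orth681 Crest.Agent.R017.Xn590
open Crest.Agent.R017.F1 (scl PL)
open Crest.Agent.R017.GlueV266

/-! ### Finite sums -/

lemma adm_smul {F : Vec → ℂ} (hF : Adm F) (r : ℂ) : Adm (fun u => r * F u) where
  cont := continuous_const.mul hF.cont
  dec := by
    obtain ⟨C, hC⟩ := hF.dec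
    refine ⟨‖r‖ * C, fun u => ?_⟩
    rw [norm_mul, mul_assoc]
    exact mul_le_mul_of_nonneg_left (hC u) (norm_nonneg r)

lemma adm_zero : Adm (fun _ => 0) where
  cont := continuous_const
  dec := ⟨0, fun u => by simp⟩

lemma adm_add {F G : Vec → ℂ} (hF : Adm F) (hG : Adm G) : Adm (fun u => F u + G u) where
  cont := hF.cont.add hG.cont
  dec := by
    obtain ⟨C, hC⟩ := hF.dec
    obtain ⟨D, hD⟩ := hG.dec
    exact ⟨C + D, fun u => (norm_add_le _ _).trans (by rw [add_mul]; exact add_le_add (hC u) (hD u))⟩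

lemma adm_sum {ι : Type*} (T : Finset ι) {F : ι → Vec → ℂ} (hF : ∀ i, Adm (F i)) :
    Adm (fun u => ∑ i ∈ T, F i u) := by
  classical
  induction T using Finset.induction_on with
  | empty => simpa using adm_zero
  | insert i T hi ih =>
    simp only [Finset.sum_insert hi]
    exact adm_add (hF i) ih

lemma tst_zero {s : ℂ} : TstN s (fun _ => 0) where
  cont := continuous_const
  par u := by simp
  dec := ⟨0, fun u => by simp⟩

lemma tst_sum {ι : Type*} (T : Finset ι) {s : ℂ} {F : ι → Vec → ℂ} (hF : ∀ i, TstN s (F i)) :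
    TstN s (fun u => ∑ i ∈ T, F i u) := by
  classical
  induction T using Finset.induction_on with
  | empty => simpa using tst_zero
  | insert i T hi ih =>
    simp only [Finset.sum_insert hi]
    exact tst_add (hF i) ih

lemma opW_sumF {ι : Type*} (T : Finset ι) {W : Eis → ℂ} (hW : Bdd W) {F : ι → Vec → ℂ}
    (hF : ∀ i, Adm (F i)) {M : K695.Frm} (hM : det2 M ≠ 0) :
    opW W (fun u => ∑ i ∈ T, F i u) M = ∑ i ∈ T, opW W (F i) M := by
  classical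
  induction T using Finset.induction_on with
  | empty =>
    simp only [Finset.sum_empty]
    unfold opW IL
    simp
  | insert i T hi ih =>
    have h1 := opW_addF hW (hF i) (adm_sum T hF) hM
    simp only [Finset.sum_insert hi]
    rw [← ih, ← h1]

/-- `Σ l_j F_j`. -/
lemma opW_linF {ι : Type*} (T : Finset ι) {W : Eis → ℂ} (hW : Bdd W) (l : ι → ℂ)
    {F : ι → Vec → ℂ} (hF : ∀ i, Adm (F i)) {M : K695.Frm} (hM : det2 M ≠ 0) :
    opW W (fun u => ∑ i ∈ T, l i * F i u) M = ∑ i ∈ T, l i * opW W (F i) M := by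
  rw [opW_sumF T hW (fun i => adm_smul (hF i) (l i)) hM]
  exact Finset.sum_congr rfl fun i _ => opW_smulF _ _ _ _

lemma opW_linW {ι : Type*} (T : Finset ι) {W : ι → Eis → ℂ} (hW : ∀ i, Bdd (W i)) (l : ι → ℂ)
    {F : Vec → ℂ} (hF : Adm F) {M : K695.Frm} (hM : det2 M ≠ 0) :
    opW (fun h => ∑ i ∈ T, l i * W i h) F M = ∑ i ∈ T, l i * opW (W i) F M := by
  rw [opW_sumW T (fun i => (hW i).const_mul (l i)) hF hM]
  exact Finset.sum_congr rfl fun i _ => opW_smulW _ _ _ _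

lemma scl_lin {ι : Type*} (T : Finset ι) (δ : ℂ) (l : ι → ℂ) (F : ι → Vec → ℂ) :
    scl δ (fun u => ∑ i ∈ T, l i * F i u) = fun u => ∑ i ∈ T, l i * scl δ (F i) u := by
  funext u
  unfold F1.scl
  rw [Finset.mul_sum]
  exact Finset.sum_congr rfl fun i _ => by ring

/-! ### Dilations and shifts -/

lemma opW_dil {b : Eis} (hb : b ≠ 0) (W : Eis → ℂ) (F : Vec → ℂ) (M : K695.Frm) :
    opW W (dil (toC b) F) M = opW (shf b W) F M := by
  have hbC : toC b ≠ 0 := by rwa [Ne, toC_eq_zero]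
  rw [opW_shf hb]
  classical
  unfold opW
  refine tsum_congr fun h => ?_
  split_ifs
  · rfl
  · rw [IL_dil hbC, IL_fst]

lemma opW_dil_inv {b b' B : Eis} (hb : b ≠ 0) (hb' : b' ≠ 0) (hB : b * b' = B) (W : Eis → ℂ)
    (F : Vec → ℂ) (M : K695.Frm) :
    opW W (dil (toC b)⁻¹ F) M = opW (shf b' W) F ((toC B)⁻¹ • M.1, M.2) := by
  have hbC : toC b ≠ 0 := by rwa [Ne, toC_eq_zero]
  have hbC' : toC b' ≠ 0 := by rwa [Ne, toC_eq_zero]
  rw [opW_shf hb']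
  classical
  unfold opW
  refine tsum_congr fun h => ?_
  split_ifs
  · rfl
  · rw [IL_dil (inv_ne_zero hbC)]
    simp only [smul_smul]
    rw [IL_fst, ← hB, map_mul]
    congr 2
    field_simp

/-- the base pair at arbitrary scale. -/
lemma PairW.scaled {s : ℂ} {W W' : Eis → ℂ} {F F' : Vec → ℂ} (hp : PairW s W W' F F')
    {X : K695.Frm} (hX : det2 X ≠ 0) {δ b : ℂ} (hb : b ≠ 0) (hδ : δ = b * det2 X) :
    opW W' (scl δ F') X = dil b F X.2 := by
  set Z : K695.Frm := (b • X.1, b • X.2) with hZ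
  have hdZ : det2 Z = b * δ := by
    rw [hZ, hδ]; unfold det2; simp; ring
  have hδ0 : δ ≠ 0 := by rw [hδ]; exact mul_ne_zero hb hX
  have hZ0 : det2 Z ≠ 0 := by rw [hdZ]; exact mul_ne_zero hb hδ0
  have h3 := hp.m2 Z hZ0
  have hn : ‖b‖ ≠ 0 := norm_ne_zero_iff.mpr hb
  have hn' : ((‖b‖ : ℝ) : ℂ) ≠ 0 := by exact_mod_cast hn
  have h4 : opW W' (scl (det2 Z) F') Z =
      (((‖b‖ ^ 2)⁻¹ : ℝ) : ℂ) * opW W' (scl δ F') X := by
    classical
    unfold opW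
    rw [← tsum_mul_left]
    refine tsum_congr fun h => ?_
    have h5 : IL (scl (det2 Z) F') Z (toC h) =
        (((‖b‖ ^ 2)⁻¹ : ℝ) : ℂ) * IL (scl δ F') X (toC h) := by
      unfold IL
      rw [← integral_const_mul]
      refine integral_congr_ae (Filter.Eventually.of_forall fun x => ?_)
      simp only
      rw [hdZ, hZ]
      unfold F1.scl
      simp only
      rw [norm_mul, mul_pow, mul_inv]
      have h6 : (b * δ)⁻¹ • (toC h • b • X.1 + x • b • X.2) =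
          δ⁻¹ • (toC h • X.1 + x • X.2) := by
        rw [smul_comm (toC h), smul_comm x, ← smul_add, smul_smul]
        congr 1
        field_simp
      rw [h6]
      push_cast
      ring
    rw [h5]
    split_ifs <;> ring
  rw [h4] at h3
  unfold dil
  have hZ2 : Z.2 = b • X.2 := by rw [hZ]
  rw [hZ2] at h3
  rw [← h3]
  push_cast
  field_simp

/-! ### Vector pairs -/

variable {κ μ J : Type} [Fintype κ] [DecidableEq μ] [Fintype J]

/-- **One direction only**: `(m1)` for the polynomial combinations. -/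
theorem pairV_m1 {s : ℂ} {W0 W0' : Eis → ℂ} {F0 F0' : Vec → ℂ} (hp : PairW s W0 W0' F0 F0')
    {W : Eis → ℂ} (bW : Bdd W) {c : J → Eis} (hc : ∀ j, c j ≠ 0) (l : J → ℂ) (r : J → ℂ)
    (h1 : ∀ h, h ≠ 0 → ∑ j, l j * shf (c j) W h = ∑ j, r j * shf (c j) W0 h) {M : K695.Frm}
    (hM : det2 M ≠ 0) :
    opW W (fun u => ∑ j, l j * dil (toC (c j)) F0 u) M =
      scl (det2 M) (fun u => ∑ j, r j * dil (toC (c j))⁻¹ F0' u) M.2 := by
  have hcC : ∀ j, toC (c j) ≠ 0 := fun j => by rw [Ne, toC_eq_zero]; exact hc j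
  have tF : ∀ j, TstN s (dil (toC (c j)) F0) := fun j => tst_dil (hcC j) hp.tst
  rw [opW_linF Finset.univ bW l (fun j => adm_tst (tF j)) hM]
  have e1 : ∀ j, opW W (dil (toC (c j)) F0) M = opW (shf (c j) W) F0 M :=
    fun j => opW_dil (hc j) _ _ _
  simp_rw [e1]
  rw [← opW_linW Finset.univ (fun j => bdd_shf bW) l (adm_tst hp.tst) hM,
    opW_congr (fun h hh => h1 h hh),
    opW_linW Finset.univ (fun j => bdd_shf hp.bW) r (adm_tst hp.tst) hM, scl_lin]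
  refine Finset.sum_congr rfl fun j _ => ?_
  congr 1
  have hdM : det2 ((toC (c j) • M.1, M.2) : K695.Frm) ≠ 0 := by
    rw [det2_fst]; exact mul_ne_zero (hcC j) hM
  rw [opW_shf (hc j), hp.m1 _ hdM, det2_fst, scl_mul]

/-- **Vector pair from a base pair.**  Left polynomial `Σ l_j X^{c_j}`, right polynomials
`q_k = Σ r_{kj} X^{c_j}`; `c_j c'_j = B`. -/
theorem pairV_of {s : ℂ} {W0 W0' : Eis → ℂ} {F0 F0' : Vec → ℂ} (hp : PairW s W0 W0' F0 F0')
    {m₀ : μ} {W : κ → Eis → ℂ} {W' : κ → μ → Eis → ℂ} (bW : ∀ k, Bdd (W k))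
    (bW' : ∀ k m, Bdd (W' k m)) {c c' : J → Eis} {B : Eis} (hB0 : B ≠ 0)
    (hB : ∀ j, c j * c' j = B) (l : J → ℂ) (r : κ → J → ℂ)
    (h1 : ∀ k h, h ≠ 0 → ∑ j, l j * shf (c j) (W k) h = ∑ j, r k j * shf (c j) W0 h)
    (h2 : ∀ m h, h ≠ 0 → ∑ k, ∑ j, r k j * shf (c' j) (W' k m) h =
      if m = m₀ then ∑ j, l j * shf (c' j) W0' h else 0) :
    PairV s m₀ W W' (fun u => ∑ j, l j * dil (toC (c j)) F0 u)
      (fun k u => ∑ j, r k j * dil (toC (c j))⁻¹ F0' u) := by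
  have hc : ∀ j, c j ≠ 0 := fun j h => hB0 (by rw [← hB j, h, zero_mul])
  have hc' : ∀ j, c' j ≠ 0 := fun j h => hB0 (by rw [← hB j, h, mul_zero])
  have hcC : ∀ j, toC (c j) ≠ 0 := fun j => by rw [Ne, toC_eq_zero]; exact hc j
  have hBC : toC B ≠ 0 := by rwa [Ne, toC_eq_zero]
  have tF : ∀ j, TstN s (dil (toC (c j)) F0) := fun j => tst_dil (hcC j) hp.tst
  have tF' : ∀ j, TstN s (dil (toC (c j))⁻¹ F0') := fun j => tst_dil (inv_ne_zero (hcC j)) hp.tst'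
  refine ⟨bW, bW', tst_sum _ fun j => tst_smul _ (tF j), fun k => tst_sum _ fun j =>
    tst_smul _ (tF' j), fun k M hM => ?_, fun m M hM => ?_⟩
  · exact pairV_m1 hp (bW k) hc l (r k) (h1 k) hM
  · set δ := det2 M with hδ
    have hA : Adm (scl δ F0') := (adm_tst hp.tst').scl hM
    set X : K695.Frm := ((toC B)⁻¹ • M.1, M.2) with hX
    have hdX : det2 X = (toC B)⁻¹ * δ := det2_fst _ M
    have hX0 : det2 X ≠ 0 := by rw [hdX]; exact mul_ne_zero (inv_ne_zero hBC) hM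
    have e1 : ∀ k, opW (W' k m) (scl δ (fun u => ∑ j, r k j * dil (toC (c j))⁻¹ F0' u)) M =
        opW (fun h => ∑ j, r k j * shf (c' j) (W' k m) h) (scl δ F0') X := by
      intro k
      rw [scl_lin]
      simp_rw [scl_dil]
      rw [opW_linF Finset.univ (bW' k m) (r k) (fun j => adm_dil (inv_ne_zero (hcC j)) hA) hM,
        opW_linW Finset.univ (fun j => bdd_shf (bW' k m)) (r k) hA hX0]
      refine Finset.sum_congr rfl fun j _ => ?_
      rw [opW_dil_inv (hc j) (hc' j) (hB j)]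
    simp_rw [e1]
    have hbb : ∀ k, Bdd (fun h => ∑ j, r k j * shf (c' j) (W' k m) h) := fun k =>
      bdd_sum Finset.univ fun j => (bdd_shf (bW' k m)).const_mul (r k j)
    rw [← opW_sumW Finset.univ hbb hA hX0, opW_congr (fun h hh => h2 m h hh)]
    split_ifs with hm
    · rw [opW_linW Finset.univ (fun j => bdd_shf hp.bW') l hA hX0]
      refine Finset.sum_congr rfl fun j _ => ?_
      congr 1
      rw [opW_shf (hc' j)]
      have hdY : det2 ((toC (c' j) • X.1, X.2) : K695.Frm) = (toC (c j))⁻¹ * δ := by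
        rw [det2_fst, hdX, ← hB j, map_mul]
        have := hcC j
        have h3 : toC (c' j) ≠ 0 := by rw [Ne, toC_eq_zero]; exact hc' j
        field_simp
      refine (hp.scaled (b := toC (c j)) ?_ (hcC j) ?_).trans rfl
      · rw [hdY]; exact mul_ne_zero (inv_ne_zero (hcC j)) hM
      · rw [hdY]
        have := hcC j
        field_simp
    · unfold opW
      simp

/-! ### The functions `FPn f`, `FOn f` -/

open Crest.Agent.R017.XiI590 (lin datN_lin cs_lin fPn_lin)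

variable {n : ℕ} {s : ℂ} {ξ : Eis → ℂ} {kp c0' : ℂ} {V : ℝ} {h0 B0 B0' : ℂ} {f : ℂ → ℂ}

lemma FPn_lin (hn : n ≠ 0) (hf : DatN n s ξ f) {c : J → ℂ} (hc : ∀ j, c j ≠ 0) (l : J → ℂ)
    (k : ℂ → ℂ) :
    FPn n ξ (lin Finset.univ (fun j => l j * ((‖c j‖ ^ 2 : ℝ) : ℂ)) c f) k =
      fun u => ∑ j, l j * dil (c j) (FPn n ξ f k) u := by
  funext z
  unfold FPn
  rw [fPn_lin hn (CS_of_DatN hf) _ _ _ (fun j _ => hc j), Finset.sum_mul]
  refine Finset.sum_congr rfl fun j _ => ?_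
  unfold dil
  simp only [Prod.smul_fst, Prod.smul_snd, smul_eq_mul]
  rw [mul_div_mul_left _ _ (hc j)]
  ring

lemma FOn_zero (k : ℂ → ℂ) (z : Vec) : FOn n ξ V h0 B0 (fun _ => 0) k z = 0 := by
  have := FOn_smul (n := n) (ξ := ξ) (V := V) (h0 := h0) (B := B0) 0 (fun _ => (0 : ℂ)) k z
  simpa using this

lemma FOn_lin (X : XiP ξ kp c0') (C : XnC n s kp V h0 B0 B0') (hf : DatN n s ξ f) {c : J → ℂ}
    (hc : ∀ j, c j ≠ 0) (r : J → ℂ) (k : 𝓢(ℂ, ℂ)) :
    FOn n ξ V h0 B0 (lin Finset.univ (fun j => r j * ((‖c j‖ ^ 2 : ℝ) : ℂ)) c f) k =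
      fun u => ∑ j, r j * dil (c j)⁻¹ (FOn n ξ V h0 B0 f k) u := by
  classical
  have hn : n ≠ 0 := by have := C.n2; omega
  have key : ∀ (T : Finset J), FOn n ξ V h0 B0 (lin T (fun j => r j * ((‖c j‖ ^ 2 : ℝ) : ℂ)) c f) k =
      fun u => ∑ j ∈ T, r j * dil (c j)⁻¹ (FOn n ξ V h0 B0 f k) u := by
    intro T
    induction T using Finset.induction_on with
    | empty =>
      funext z
      have : lin (∅ : Finset J) (fun j => r j * ((‖c j‖ ^ 2 : ℝ) : ℂ)) c f = fun _ => 0 := by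
        funext x
        unfold lin
        simp
      rw [this, FOn_zero]
      simp
    | insert i T hi ih =>
      funext z
      rw [XiI590.lin_insert hi, FOn_add X C (DatN.smul (DatN.dil hn hf (hc i)) _)
        (datN_lin hn hf T _ _ fun j _ => hc j), ih, Finset.sum_insert hi]
      congr 1
      rw [dil_FOn (hc i), FOn_smul]
      ring
  exact key Finset.univ

/-- **`(m1)` for `FPn`, `FOn`** (the input of the norm glue). -/
theorem pairV_m1_FO (X : XiP ξ kp c0') (C : XnC n s kp V h0 B0 B0') (hf : DatN n s ξ f)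
    (k0 : 𝓢(ℂ, ℂ)) {W0 W0' : Eis → ℂ}
    (hp : PairW s W0 W0' (FPn n ξ f k0) (FOn n ξ V h0 B0 f k0))
    {W : Eis → ℂ} (bW : Bdd W) {c : J → Eis} (hc : ∀ j, c j ≠ 0) (l : J → ℂ) (r : J → ℂ)
    (h1 : ∀ h, h ≠ 0 → ∑ j, l j * shf (c j) W h = ∑ j, r j * shf (c j) W0 h) {M : K695.Frm}
    (hM : det2 M ≠ 0) :
    opW W (FPn n ξ (lin Finset.univ (fun j => l j * ((‖toC (c j)‖ ^ 2 : ℝ) : ℂ))
        (fun j => toC (c j)) f) k0) M =
      scl (det2 M) (FOn n ξ V h0 B0 (lin Finset.univ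
        (fun j => r j * ((‖toC (c j)‖ ^ 2 : ℝ) : ℂ)) (fun j => toC (c j)) f) k0) M.2 := by
  have hn : n ≠ 0 := by have := C.n2; omega
  have hcC : ∀ j, toC (c j) ≠ 0 := fun j => by rw [Ne, toC_eq_zero]; exact hc j
  rw [FPn_lin hn hf hcC, FOn_lin X C hf hcC r k0]
  exact pairV_m1 hp bW hc l r h1 hM

/-- **Vector pair, for `FPn`, `FOn`.** -/
theorem pairV_FO (X : XiP ξ kp c0') (C : XnC n s kp V h0 B0 B0') (hf : DatN n s ξ f)
    (k0 : 𝓢(ℂ, ℂ)) {W0 W0' : Eis → ℂ}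
    (hp : PairW s W0 W0' (FPn n ξ f k0) (FOn n ξ V h0 B0 f k0))
    {m₀ : μ} {W : κ → Eis → ℂ} {W' : κ → μ → Eis → ℂ} (bW : ∀ k, Bdd (W k))
    (bW' : ∀ k m, Bdd (W' k m)) {c c' : J → Eis} {B : Eis} (hB0 : B ≠ 0)
    (hB : ∀ j, c j * c' j = B) (l : J → ℂ) (r : κ → J → ℂ)
    (h1 : ∀ k h, h ≠ 0 → ∑ j, l j * shf (c j) (W k) h = ∑ j, r k j * shf (c j) W0 h)
    (h2 : ∀ m h, h ≠ 0 → ∑ k, ∑ j, r k j * shf (c' j) (W' k m) h =
      if m = m₀ then ∑ j, l j * shf (c' j) W0' h else 0) :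
    PairV s m₀ W W'
      (FPn n ξ (lin Finset.univ (fun j => l j * ((‖toC (c j)‖ ^ 2 : ℝ) : ℂ))
        (fun j => toC (c j)) f) k0)
      (fun k => FOn n ξ V h0 B0 (lin Finset.univ (fun j => r k j * ((‖toC (c j)‖ ^ 2 : ℝ) : ℂ))
        (fun j => toC (c j)) f) k0) := by
  have hn : n ≠ 0 := by have := C.n2; omega
  have hc : ∀ j, toC (c j) ≠ 0 := fun j => by
    rw [Ne, toC_eq_zero]
    exact fun h => hB0 (by rw [← hB j, h, zero_mul])
  rw [FPn_lin hn hf hc]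
  have e : (fun k => FOn n ξ V h0 B0 (lin Finset.univ
      (fun j => r k j * ((‖toC (c j)‖ ^ 2 : ℝ) : ℂ)) (fun j => toC (c j)) f) k0) =
      fun k u => ∑ j, r k j * dil (toC (c j))⁻¹ (FOn n ξ V h0 B0 f k0) u := by
    funext k
    exact FOn_lin X C hf hc (r k) k0
  rw [e]
  exact pairV_of hp bW bW' hB0 hB l r h1 h2

/-! ### The base weight -/

lemma unit6 {u : Eis} (hu : IsUnit u) : u ^ 6 = 1 := by
  have h : u ^ 3 = 1 ∨ u ^ 3 = -1 := unit_pow (n := 3) dvd_rfl hu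
  have e : u ^ 6 = (u ^ 3) ^ 2 := by ring
  rw [e]
  rcases h with h | h <;> rw [h] <;> ring

/-- `j₁⁶ = ± j₂⁶` forces `j₁ ~ j₂` and the sign `+`. -/
lemma pow6_inj {a b : Eis} (hb : b ≠ 0) {e : Eis} (he : e = 1 ∨ e = -1)
    (h : a ^ 6 = e * b ^ 6) : e = 1 ∧ ∃ u, IsUnit u ∧ a = u * b := by
  have hee : e * e = 1 := by rcases he with h | h <;> rw [h] <;> ring
  have hd1 : b ^ 6 ∣ a ^ 6 := ⟨e, by rw [h]; ring⟩
  have hd2 : a ^ 6 ∣ b ^ 6 := ⟨e, by rw [h]; linear_combination -(b ^ 6) * hee⟩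
  have he1 : b ∣ a := (IsIntegrallyClosed.pow_dvd_pow_iff (by norm_num)).mp hd1
  have he2 : a ∣ b := (IsIntegrallyClosed.pow_dvd_pow_iff (by norm_num)).mp hd2
  obtain ⟨u, rfl⟩ := he1
  have hu : IsUnit u := by
    obtain ⟨v, hv⟩ := he2
    refine IsUnit.of_mul_eq_one v ?_
    apply mul_left_cancel₀ hb
    linear_combination -hv
  have h1 : e = 1 := by
    rw [mul_pow, unit6 hu, mul_one] at h
    apply mul_right_cancel₀ (pow_ne_zero 6 hb)
    rw [← h, one_mul]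
  exact ⟨h1, u, hu, mul_comm _ _⟩

lemma val_eq (hξ : ∀ u, IsUnit u → ∀ j, ξ (u * j) = ξ j) {j j' : Eis} (hj' : j' ≠ 0)
    (h : j ^ 6 = j' ^ 6) : ξ j' * (PL j' : ℂ) = ξ j * (PL j : ℂ) := by
  obtain ⟨-, u, hu, h3⟩ := pow6_inj (a := j) (e := 1) hj' (Or.inl rfl) (by rw [one_mul]; exact h)
  rw [h3, hξ u hu, PL_unit_mul hu hj']

lemma base_val (hξ : ∀ u, IsUnit u → ∀ j, ξ (u * j) = ξ j) {e0 : Eis} (he0 : e0 ≠ 0) {w : ℂ}
    {j : Eis} (hj : j ≠ 0) : baseW 6 e0 s w ξ (e0 * j ^ 6) = w * (ξ j * (PL j : ℂ)) := by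
  classical
  have hex : ∃ j', j' ≠ 0 ∧ e0 * j ^ 6 = e0 * j' ^ 6 := ⟨j, hj, rfl⟩
  unfold baseW
  rw [dif_pos hex]
  have h1 := hex.choose_spec.2
  have h2 : j ^ 6 = hex.choose ^ 6 := mul_left_cancel₀ he0 h1
  rw [val_eq hξ hex.choose_spec.1 h2]

lemma base_not {e0 : Eis} {w : ℂ} {h : Eis} (h1 : ¬ ∃ j, j ≠ 0 ∧ h = e0 * j ^ 6)
    (h2 : ¬ ∃ j, j ≠ 0 ∧ -h = e0 * j ^ 6) : baseW 6 e0 s w ξ h = 0 := by
  unfold baseW
  rw [dif_neg h1, dif_neg h2]

lemma base_par (hs : s = 1 ∨ s = -1) (hξ : ∀ u, IsUnit u → ∀ j, ξ (u * j) = ξ j) {e0 : Eis}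
    (he0 : e0 ≠ 0) {w : ℂ} (h : Eis) : baseW 6 e0 s w ξ (-h) = s * baseW 6 e0 s w ξ h := by
  classical
  have hss : s * s = 1 := by rcases hs with h | h <;> rw [h] <;> ring
  have key : ∀ j, j ≠ 0 → baseW 6 e0 s w ξ (-(e0 * j ^ 6)) = s * (w * (ξ j * (PL j : ℂ))) := by
    intro j hj
    have hno : ¬ ∃ j', j' ≠ 0 ∧ -(e0 * j ^ 6) = e0 * j' ^ 6 := by
      rintro ⟨j', hj', e⟩
      have h2 : j' ^ 6 = (-1) * j ^ 6 := by
        apply mul_left_cancel₀ he0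
        linear_combination -e
      have := (pow6_inj hj (Or.inr rfl) h2).1
      exact absurd this (by decide)
    have hex : ∃ j', j' ≠ 0 ∧ -(-(e0 * j ^ 6)) = e0 * j' ^ 6 := ⟨j, hj, by rw [neg_neg]⟩
    unfold baseW
    rw [dif_neg hno, dif_pos hex]
    have h1 := hex.choose_spec.2
    have h1' : e0 * j ^ 6 = e0 * hex.choose ^ 6 := (neg_neg _).symm.trans h1
    have h2 : j ^ 6 = hex.choose ^ 6 := mul_left_cancel₀ he0 h1'
    rw [val_eq hξ hex.choose_spec.1 h2]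
  by_cases h1 : ∃ j, j ≠ 0 ∧ h = e0 * j ^ 6
  · obtain ⟨j, hj, rfl⟩ := h1
    rw [key j hj, base_val hξ he0 hj]
  · by_cases h2 : ∃ j, j ≠ 0 ∧ -h = e0 * j ^ 6
    · obtain ⟨j, hj, e⟩ := h2
      rw [e, base_val hξ he0 hj]
      have : h = -(e0 * j ^ 6) := by rw [← e, neg_neg]
      rw [this, key j hj]
      linear_combination -(w * (ξ j * (PL j : ℂ))) * hss
    · rw [base_not h1 h2, base_not h2 (by rwa [neg_neg]), mul_zero]

lemma base_ok (hs : s = 1 ∨ s = -1) (hξ : ∀ u, IsUnit u → ∀ j, ξ (u * j) = ξ j) {e0 : Eis}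
    (he0 : e0 ≠ 0) (w : ℂ) : BaseW 6 e0 s w ξ (baseW 6 e0 s w ξ) where
  pow j hj := base_val hξ he0 hj
  par h := base_par hs hξ he0 h
  supp h _ hne := by
    by_cases h1 : ∃ j, j ≠ 0 ∧ h = e0 * j ^ 6
    · obtain ⟨j, -, e⟩ := h1
      exact ⟨j, Or.inl e⟩
    · by_cases h2 : ∃ j, j ≠ 0 ∧ -h = e0 * j ^ 6
      · obtain ⟨j, -, e⟩ := h2
        exact ⟨j, Or.inr e⟩
      · exact absurd (base_not h1 h2) hne

lemma base_bdd (hs : s = 1 ∨ s = -1) (hξ : ∀ u, IsUnit u → ∀ j, ξ (u * j) = ξ j)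
    (hle : ∀ a, ‖ξ a‖ ≤ 1) {e0 : Eis} (he0 : e0 ≠ 0) (w : ℂ) : Bdd (baseW 6 e0 s w ξ) := by
  have hsn : ‖s‖ = 1 := by rcases hs with h | h <;> rw [h] <;> simp
  have hb := base_ok hs hξ he0 w
  have key : ∀ j, ‖w * (ξ j * (PL j : ℂ))‖ ≤ ‖w‖ := by
    intro j
    rw [norm_mul, norm_mul, Complex.norm_real, Real.norm_of_nonneg (XnDiv960.PL_nonneg j)]
    have h1 := hle j
    have h2 := XnDiv960.PL_le_one j
    have h3 := XnDiv960.PL_nonneg j
    calc ‖w‖ * (‖ξ j‖ * PL j) ≤ ‖w‖ * (1 * 1) := by gcongr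
      _ = ‖w‖ := by ring
  refine ⟨‖w‖, fun h => ?_⟩
  by_cases h1 : ∃ j, j ≠ 0 ∧ h = e0 * j ^ 6
  · obtain ⟨j, hj, rfl⟩ := h1
    rw [hb.pow j hj]
    exact key j
  · by_cases h2 : ∃ j, j ≠ 0 ∧ -h = e0 * j ^ 6
    · obtain ⟨j, hj, e⟩ := h2
      have : h = -(e0 * j ^ 6) := by rw [← e, neg_neg]
      rw [this, hb.par, hb.pow j hj, norm_mul, hsn, one_mul]
      exact key j
    · rw [base_not h1 h2, norm_zero]
      exact norm_nonneg _

/-- the dual base weight is the conjugate. -/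
lemma base_conj (hs : s = 1 ∨ s = -1) (hξ : ∀ u, IsUnit u → ∀ j, ξ (u * j) = ξ j) {e0 : Eis}
    (he0 : e0 ≠ 0) (w : ℂ) :
    BaseW 6 e0 s (s * conj w) (fun j => conj (ξ j)) (fun h => s * conj (baseW 6 e0 s w ξ h)) where
  pow j hj := by
    rw [base_val hξ he0 hj]
    simp only [map_mul, Complex.conj_ofReal]
    ring
  par h := by
    have hsc : conj s = s := by rcases hs with h | h <;> rw [h] <;> simp
    rw [base_par hs hξ he0, map_mul, hsc]
  supp h h0 hne := (base_ok hs hξ he0 w).supp h h0 (fun h1 => hne (by rw [h1]; simp))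

/-- **The base pair** at frequency `e0`, exponent `6`, for a real positive normalisation `w`. -/
theorem pair_base6 (X : XiP ξ kp c0') (hξ : ∀ u, IsUnit u → ξ u = 1) (hs : s = 1 ∨ s = -1)
    {e0 : Eis} (he0 : e0 ≠ 0) {w : ℂ} (hw : ‖w‖ * (6 * ‖kp‖) = 1) (hV : 0 < V)
    (hf : DatN 6 s ξ f) (k0 : 𝓢(ℂ, ℂ)) :
    XnC 6 s kp V (toC e0) (w * (2 * V)) (s * conj w * (2 * V)) ∧
    PairW s (baseW 6 e0 s w ξ) (fun h => s * conj (baseW 6 e0 s w ξ h)) (FPn 6 ξ f k0)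
      (FOn 6 ξ V (toC e0) (w * (2 * V)) f k0) := by
  have hξ' : ∀ u, IsUnit u → ∀ j, ξ (u * j) = ξ j := fun u hu j => by
    rw [X.mul, hξ u hu, one_mul]
  have hC : XnC 6 s kp V (toC e0) (w * (2 * V)) (s * conj w * (2 * V)) := by
    refine ⟨by norm_num, hs, hV, by rwa [Ne, toC_eq_zero], ?_⟩
    have h1 : w * conj w = ((‖w‖ ^ 2 : ℝ) : ℂ) := by
      rw [Complex.mul_conj, Complex.normSq_eq_norm_sq]
    have h2 : (‖w‖ ^ 2 * ‖kp‖ ^ 2) * 36 = (1 : ℝ) := by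
      have : (‖w‖ * (6 * ‖kp‖)) ^ 2 = 1 := by rw [hw]; norm_num
      linear_combination this
    have h3 : ((‖w‖ ^ 2 : ℝ) : ℂ) * ((‖kp‖ ^ 2 : ℝ) : ℂ) * 36 = 1 := by exact_mod_cast h2
    calc w * (2 * V) * (s * conj w * (2 * V)) * ((‖kp‖ ^ 2 : ℝ) : ℂ) * (((6 : ℕ) : ℂ) ^ 2 / 4)
        = s * (V : ℂ) ^ 2 * ((w * conj w) * ((‖kp‖ ^ 2 : ℝ) : ℂ) * 36) := by push_cast; ring
      _ = s * (V : ℂ) ^ 2 := by rw [h1, h3, mul_one]
  refine ⟨hC, ?_⟩
  have hFE := Xn960.pairThmN 6 s ξ kp c0' V (toC e0) _ _ X hC f k0 hf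
  have hb := base_bdd hs hξ' X.le1 he0 w
  refine pair_base (by norm_num) (by norm_num) he0 hs (base_ok hs hξ' he0 w)
    (base_conj hs hξ' he0 w) hb ?_ hV.ne' rfl rfl hFE
  obtain ⟨K, hK⟩ := hb
  have hsn : ‖s‖ = 1 := by rcases hs with h | h <;> rw [h] <;> simp
  exact ⟨K, fun h => by rw [norm_mul, hsn, one_mul]; exact (RCLike.norm_conj _).trans_le (hK h)⟩

end Crest.Agent.R017.Glue681
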