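import Crest.Agent.R017.NormC_358
import Crest.Agent.R017.PairV_681

/-!
# Row 17, section A, the norm glue, part E (helper358): the isometry

* `iso` : `opW W F = F'`, `opW (s conj W) G' = G`  ⇒  `∫ conj G' F' = ∫ conj G F`
* `nrm_of_auto` : the norm hypothesis of `glueN` from a finite autocorrelation identity
-/

set_option autoImplicit false

noncomputable section

open MeasureTheory Complex Set Filter
open scoped ENNReal ComplexConjugate Topology

namespace Crest.Agent.R017.Norm358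

open Crest.Agent.R012 Crest.Agent.R012.Eis Crest.Agent.R012.K695 Crest.Agent.R012.AU681
  Crest.Agent.R012.Parseval499 Crest.Agent.R017.Orth681 Crest.Agent.R017.Xn590
  Crest.Agent.R017.Glue681 Crest.Agent.R017.GlueV266 Crest.Agent.R017.F1

/-! ### Fubini in the coordinates `Th` -/

lemma fub_Th {f : K695.Frm → ℂ} (hf : Integrable f) :
    ∫ M, f M = ∫ p : Vec × ℂ, ∫ z, f (Th (p, z)) := by
  have hmp := mp_Th
  have hTi : Integrable (fun q => f (Th q)) := (hmp.integrable_comp hf.aestronglyMeasurable).mpr hf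
  have h1 := integral_map (μ := (volume : Measure ((Vec × ℂ) × ℂ))) hmp.measurable.aemeasurable
    (f := f) (by rw [hmp.map_eq]; exact hf.aestronglyMeasurable)
  rw [hmp.map_eq] at h1
  rw [h1]
  rw [Measure.volume_eq_prod] at hTi ⊢
  rw [integral_prod _ hTi]

lemma lint_Th {f : K695.Frm → ℝ≥0∞} (hf : Measurable f) :
    ∫⁻ M, f M = ∫⁻ p : Vec × ℂ, ∫⁻ z, f (Th (p, z)) := by
  have hmp := mp_Th
  rw [← hmp.lintegral_comp hf, Measure.volume_eq_prod]
  exact lintegral_prod (fun q : (Vec × ℂ) × ℂ => f (Th q)) (hf.comp hmp.measurable).aemeasurable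

lemma fub_le {f : K695.Frm → ℂ} (hf : Measurable f) :
    ∫⁻ p : Vec × ℂ, ‖∫ z, f (Th (p, z))‖ₑ ≤ ∫⁻ M, ‖f M‖ₑ := by
  rw [lint_Th hf.enorm]
  exact lintegral_mono fun p => enorm_integral_le_lintegral_enorm _

/-! ### The kernel -/

section core

variable {F G' : Vec → ℂ} {D : ℝ}

/-- the function on frames -/
def Ph (D : ℝ) (F G' : Vec → ℂ) (h : ℂ) (M : K695.Frm) : ℂ :=
  conj (Hd D (fun δ u => scl δ G' u) (det2 M) M.2) * F (h • M.1)

lemma Ph_measurable (hF : Adm F) (hG : TFD (fun δ u => scl δ G' u)) (h : ℂ) :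
    Measurable (Ph D F G' h) := by
  unfold Ph
  refine (Complex.continuous_conj.measurable.comp
    ((measurable_Hd D hG).comp (measurable_det2.prodMk measurable_snd))).mul ?_
  exact (hF.cont.comp (continuous_fst.const_smul h)).measurable

lemma adm_GE {F : Vec → ℂ} (hF : Adm F) : ∃ C : ℝ, 0 ≤ C ∧ ∀ u, ‖F u‖ₑ ≤ ENNReal.ofReal C * GE u := by
  obtain ⟨C, hC⟩ := hF.dec
  refine ⟨|C|, abs_nonneg C, fun u => ?_⟩
  unfold GE GG
  rw [← ENNReal.ofReal_mul (abs_nonneg C), ← ofReal_norm]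
  apply ENNReal.ofReal_le_ofReal
  refine (hC u).trans ?_
  have := n2_nonneg u
  gcongr
  exact le_abs_self C

/-- **The bound.** -/
lemma lint_Ph (hF : Adm F) (hG : TFD (fun δ u => scl δ G' u)) :
    ∃ C : ℝ≥0∞, C ≠ ∞ ∧ ∀ h : ℂ, h ≠ 0 →
      ∫⁻ M, ‖Ph D F G' h M‖ₑ ≤ C * ENNReal.ofReal ((‖h‖ ^ 6)⁻¹) := by
  obtain ⟨C₁, hC₁0, hC₁⟩ := adm_GE hF
  obtain ⟨C₂, hC₂0, hC₂⟩ := Hd_le D hG
  set K : ℝ≥0∞ := ENNReal.ofReal C₂ * ENNReal.ofReal C₁ * (ENNReal.ofReal (D ^ 4) * c0) with hK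
  have hKt : K ≠ ∞ := ENNReal.mul_ne_top (ENNReal.mul_ne_top ENNReal.ofReal_ne_top
    ENNReal.ofReal_ne_top) (ENNReal.mul_ne_top ENNReal.ofReal_ne_top c0_ne_top)
  have hgm : Measurable (fun u : Vec => GE u * ENNReal.ofReal (1 + n2 u)) :=
    measurable_GE.mul (ENNReal.measurable_ofReal.comp
      (measurable_const.add continuous_n2.measurable))
  refine ⟨K * ((∫⁻ u : Vec, GE u * ENNReal.ofReal (1 + n2 u)) * volume (An D)), ?_, ?_⟩
  · exact ENNReal.mul_ne_top hKt (ENNReal.mul_ne_top lint_GG3 (vol_An_ne_top D))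
  intro h hh
  have hh0 : 0 < ‖h‖ := norm_pos_iff.mpr hh
  rw [lint_Th (Ph_measurable hF hG h).enorm]
  have hb : ∀ᵐ p : Vec × ℂ, ∫⁻ z, ‖Ph D F G' h (Th (p, z))‖ₑ ≤
      (K * ENNReal.ofReal ((‖h‖ ^ 6)⁻¹)) *
        ((GE p.1 * ENNReal.ofReal (1 + n2 p.1)) * iA D p.2) := by
    filter_upwards [ae_fst_ne] with p hp
    have hd : ∀ z, det2 (Th (p, z)) = p.2 := by
      intro z
      rw [Th_eq, det2_pz hp]
      simp
    have h1 : ∀ z, ‖Ph D F G' h (Th (p, z))‖ₑ ≤
        (ENNReal.ofReal C₂ * iA D p.2 * GE p.1 * ENNReal.ofReal C₁) *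
          GE (h • (fr p).1 + (h * z + 0) • p.1) := by
      intro z
      have e : h • (Th (p, z)).1 = h • (fr p).1 + (h * z + 0) • p.1 := by
        unfold Th
        simp only
        rw [smul_add, smul_smul, add_zero]
      unfold Ph
      rw [hd, e, enorm_mul, ← ofReal_norm, RCLike.norm_conj, ofReal_norm,
        mul_assoc (ENNReal.ofReal C₂ * iA D p.2 * GE p.1)]
      exact mul_le_mul' (hC₂ _ _) (hC₁ _)
    by_cases hmem : p.2 ∈ An D
    · have hδ0 := An_ne hmem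
      have hδn : 0 < ‖p.2‖ := norm_pos_iff.mpr hδ0
      have hdet : det2 (fr p) ≠ 0 := by rw [det2_fr hp]; exact hδ0
      refine (lintegral_mono h1).trans ?_
      have hKt' : ENNReal.ofReal C₂ * iA D p.2 * GE p.1 * ENNReal.ofReal C₁ ≠ ∞ := by
        refine ENNReal.mul_ne_top (ENNReal.mul_ne_top (ENNReal.mul_ne_top ENNReal.ofReal_ne_top ?_)
          ENNReal.ofReal_ne_top) ENNReal.ofReal_ne_top
        exact ne_top_of_le_ne_top ENNReal.one_ne_top (iA_le_one D _)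
      rw [lintegral_const_mul' _ _ hKt']
      have h2 := lint_affine hh 0 (fun z => GE (h • (fr p).1 + z • p.1))
      rw [h2]
      have h3 := lint_hline hdet hh
      rw [det2_fr hp, fr_snd] at h3
      have hn := n2_nonneg p.1
      have h4 : n2 p.1 / ‖h * p.2‖ ^ 4 ≤ (‖h‖ ^ 4)⁻¹ * (D ^ 4 * (1 + n2 p.1)) := by
        rw [norm_mul, mul_pow, div_le_iff₀ (by positivity)]
        have h6 : 1 ≤ (D * ‖p.2‖) ^ 4 := one_le_pow₀ hmem.1
        have h7 : (‖h‖ ^ 4)⁻¹ * ‖h‖ ^ 4 = 1 := inv_mul_cancel₀ (by positivity)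
        calc n2 p.1 ≤ (1 + n2 p.1) * 1 := by linarith
          _ ≤ (1 + n2 p.1) * (D * ‖p.2‖) ^ 4 := by gcongr
          _ = ((‖h‖ ^ 4)⁻¹ * ‖h‖ ^ 4) * ((1 + n2 p.1) * (D * ‖p.2‖) ^ 4) := by rw [h7, one_mul]
          _ = _ := by ring
      have h5 : ∫⁻ z : ℂ, GE (h • (fr p).1 + z • p.1) ≤
          ENNReal.ofReal ((‖h‖ ^ 4)⁻¹) * (ENNReal.ofReal (D ^ 4) * ENNReal.ofReal (1 + n2 p.1)) * c0 := by
        refine h3.trans ?_
        rw [← ENNReal.ofReal_mul (by positivity), ← ENNReal.ofReal_mul (by positivity)]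
        gcongr
      calc ENNReal.ofReal C₂ * iA D p.2 * GE p.1 * ENNReal.ofReal C₁ *
            (ENNReal.ofReal ((‖h‖ ^ 2)⁻¹) * ∫⁻ z : ℂ, GE (h • (fr p).1 + z • p.1))
          ≤ ENNReal.ofReal C₂ * iA D p.2 * GE p.1 * ENNReal.ofReal C₁ *
            (ENNReal.ofReal ((‖h‖ ^ 2)⁻¹) * (ENNReal.ofReal ((‖h‖ ^ 4)⁻¹) *
              (ENNReal.ofReal (D ^ 4) * ENNReal.ofReal (1 + n2 p.1)) * c0)) := by gcongr
        _ = ENNReal.ofReal C₂ * ENNReal.ofReal C₁ * (ENNReal.ofReal (D ^ 4) * c0) *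
            (ENNReal.ofReal ((‖h‖ ^ 2)⁻¹) * ENNReal.ofReal ((‖h‖ ^ 4)⁻¹)) *
            ((GE p.1 * ENNReal.ofReal (1 + n2 p.1)) * iA D p.2) := by ring
        _ = _ := by
          have e6 : ENNReal.ofReal ((‖h‖ ^ 2)⁻¹) * ENNReal.ofReal ((‖h‖ ^ 4)⁻¹) =
              ENNReal.ofReal ((‖h‖ ^ 6)⁻¹) := by
            rw [← ENNReal.ofReal_mul (by positivity), ← mul_inv, ← pow_add]
          rw [e6]
    · have h0 : iA D p.2 = 0 := Set.indicator_of_notMem hmem _
      have h2 : ∀ z, ‖Ph D F G' h (Th (p, z))‖ₑ = 0 := by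
        intro z
        refine le_antisymm ((h1 z).trans (le_of_eq ?_)) zero_le
        rw [h0]
        ring
      simp_rw [h2]
      simp
  refine (lintegral_mono_ae hb).trans ?_
  rw [lintegral_const_mul' _ _ (ENNReal.mul_ne_top hKt ENNReal.ofReal_ne_top),
    Measure.volume_eq_prod,
    lintegral_prod_mul hgm.aemeasurable (measurable_iA D).aemeasurable]
  have h8 : ∫⁻ δ, iA D δ = volume (An D) := lintegral_indicator_one (measurableSet_An D)
  rw [h8]
  apply le_of_eq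
  ring

lemma Ph_integrable (hF : Adm F) (hG : TFD (fun δ u => scl δ G' u)) {h : ℂ} (hh : h ≠ 0) :
    Integrable (Ph D F G' h) := by
  obtain ⟨C, hC, hb⟩ := lint_Ph (D := D) hF hG
  refine ⟨(Ph_measurable hF hG h).aestronglyMeasurable, ?_⟩
  exact lt_of_le_of_lt (hb h hh) (ENNReal.mul_ne_top hC ENNReal.ofReal_ne_top).lt_top

/-- first reading -/
lemma Ph_one {h : ℂ} (hh : h ≠ 0) {p : Vec × ℂ} (hp : p.1 ≠ 0) :
    ((‖h‖ ^ 2 : ℝ) : ℂ) * ∫ z, Ph D F G' h (Th (p, z)) =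
      conj (Hd D (fun δ u => scl δ G' u) p.2 p.1) * IL F (fr p) h := by
  have hd : ∀ z, det2 (Th (p, z)) = p.2 := by
    intro z
    rw [Th_eq, det2_pz hp]
    simp
  have e1 : ∀ z, Ph D F G' h (Th (p, z)) = conj (Hd D (fun δ u => scl δ G' u) p.2 p.1) *
      F (h • (fr p).1 + (h * z + 0) • p.1) := by
    intro z
    have e : h • (Th (p, z)).1 = h • (fr p).1 + (h * z + 0) • p.1 := by
      unfold Th
      simp only
      rw [smul_add, smul_smul, add_zero]
    unfold Ph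
    rw [hd, e]
    rfl
  simp_rw [e1]
  rw [integral_const_mul, int_affine hh 0 (fun z => F (h • (fr p).1 + z • p.1))]
  have hn : ((‖h‖ : ℝ) : ℂ) ≠ 0 := by exact_mod_cast norm_ne_zero_iff.mpr hh
  unfold IL
  rw [fr_snd]
  push_cast
  field_simp

/-- the swap -/
def sw (h : ℂ) (M : K695.Frm) : K695.Frm := mact 0 h⁻¹ (-h) 0 M

lemma mp_sw {h : ℂ} (hh : h ≠ 0) :
    MeasurePreserving (sw h) (volume : Measure K695.Frm) volume := by
  have hdet : (0 : ℂ) * 0 - h⁻¹ * (-h) = 1 := by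
    rw [mul_neg, inv_mul_cancel₀ hh]; ring
  exact mp_mact (volume : Measure Vec) hdet

lemma det2_sw {h : ℂ} (hh : h ≠ 0) (M : K695.Frm) : det2 (sw h M) = det2 M := by
  unfold sw
  rw [det2_mact]
  have : (0 : ℂ) * 0 - h⁻¹ * (-h) = 1 := by rw [mul_neg, inv_mul_cancel₀ hh]; ring
  rw [this, one_mul]

lemma sw_fst (h : ℂ) (M : K695.Frm) : (sw h M).1 = h⁻¹ • M.2 := by
  unfold sw mact
  simp

lemma sw_snd (h : ℂ) (M : K695.Frm) : (sw h M).2 = (-h) • M.1 := by
  unfold sw mact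
  simp

/-- the second function on frames -/
def Ps (D : ℝ) (F G' : Vec → ℂ) (h : ℂ) (M : K695.Frm) : ℂ :=
  conj (Hd D (fun δ u => scl δ G' u) (det2 M) ((-h) • M.1)) * F M.2

lemma Ps_eq {h : ℂ} (hh : h ≠ 0) (M : K695.Frm) : Ps D F G' h M = Ph D F G' h (sw h M) := by
  unfold Ps Ph
  rw [det2_sw hh, sw_fst, sw_snd, smul_smul, mul_inv_cancel₀ hh, one_smul]

lemma Ps_measurable (hF : Adm F) (hG : TFD (fun δ u => scl δ G' u)) {h : ℂ} (hh : h ≠ 0) :
    Measurable (Ps D F G' h) := by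
  have : Ps D F G' h = fun M => Ph D F G' h (sw h M) := funext fun M => Ps_eq hh M
  rw [this]
  exact (Ph_measurable hF hG h).comp (mp_sw hh).measurable

lemma Ps_int (hF : Adm F) (hG : TFD (fun δ u => scl δ G' u)) {h : ℂ} (hh : h ≠ 0) :
    Integrable (Ps D F G' h) ∧ ∫ M, Ps D F G' h M = ∫ M, Ph D F G' h M ∧
      ∫⁻ M, ‖Ps D F G' h M‖ₑ = ∫⁻ M, ‖Ph D F G' h M‖ₑ := by
  have e : Ps D F G' h = fun M => Ph D F G' h (sw h M) := funext fun M => Ps_eq hh M
  have hi := Ph_integrable (D := D) hF hG hh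
  have hmp := mp_sw hh
  refine ⟨?_, ?_, ?_⟩
  · rw [e]
    exact (hmp.integrable_comp hi.aestronglyMeasurable).mpr hi
  · rw [e]
    have h1 := integral_map (μ := (volume : Measure K695.Frm)) hmp.measurable.aemeasurable
      (f := Ph D F G' h) (by rw [hmp.map_eq]; exact hi.aestronglyMeasurable)
    rw [hmp.map_eq] at h1
    exact h1.symm
  · rw [e]
    exact hmp.lintegral_comp (Ph_measurable hF hG h).enorm

lemma fr_scale (ζ : Vec) (δ : ℂ) : (fr (ζ, δ)).1 = δ • (fr (ζ, 1)).1 := by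
  unfold fr pz mact
  simp only [smul_eq_mul]
  ext1
  · simp only [Prod.smul_fst, smul_eq_mul]; ring
  · simp only [Prod.smul_snd, smul_eq_mul]; ring

/-- second reading -/
lemma Ps_one {h : ℂ} (hh : h ≠ 0) {p : Vec × ℂ} (hp : p.1 ≠ 0) :
    ((‖h‖ ^ 2 : ℝ) : ℂ) * ∫ z, Ps D F G' h (Th (p, z)) =
      jA D p.2 * (F p.1 * conj (IL G' (fr (p.1, 1)) (-h))) := by
  have hd : ∀ z, det2 (Th (p, z)) = p.2 := by
    intro z
    rw [Th_eq, det2_pz hp]
    simp
  by_cases hmem : p.2 ∈ An D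
  · have hδ := An_ne hmem
    have e1 : ∀ z, Ps D F G' h (Th (p, z)) = (((‖p.2‖ ^ 2)⁻¹ : ℝ) : ℂ) * F p.1 *
        conj (G' ((-h) • (fr (p.1, 1)).1 + ((-h * p.2⁻¹) * z + 0) • p.1)) := by
      intro z
      have e : p.2⁻¹ • (-h) • (Th (p, z)).1 =
          (-h) • (fr (p.1, 1)).1 + ((-h * p.2⁻¹) * z + 0) • p.1 := by
        have h1 : (Th (p, z)).1 = p.2 • (fr (p.1, 1)).1 + z • p.1 := by
          unfold Th
          simp only
          rw [← fr_scale]
        rw [h1, smul_add, smul_add, smul_smul, smul_smul, smul_smul, smul_smul, add_zero]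
        congr 2
        · field_simp
        · ring
      unfold Ps
      rw [hd, Hd_mem hmem]
      unfold F1.scl
      rw [e, map_mul, Complex.conj_ofReal]
      have h2 : (Th (p, z)).2 = p.1 := rfl
      rw [h2]
      ring
    simp_rw [e1]
    have hne : -h * p.2⁻¹ ≠ 0 := mul_ne_zero (neg_ne_zero.mpr hh) (inv_ne_zero hδ)
    rw [integral_const_mul, integral_conj,
      int_affine hne 0 (fun z => G' ((-h) • (fr (p.1, 1)).1 + z • p.1)), jA_mem hmem]
    have hn : ((‖h‖ : ℝ) : ℂ) ≠ 0 := by exact_mod_cast norm_ne_zero_iff.mpr hh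
    have hn2 : ((‖p.2‖ : ℝ) : ℂ) ≠ 0 := by exact_mod_cast norm_ne_zero_iff.mpr hδ
    unfold IL
    rw [fr_snd, map_mul, Complex.conj_ofReal, norm_mul, norm_neg, norm_inv]
    push_cast
    field_simp
  · have e1 : ∀ z, Ps D F G' h (Th (p, z)) = 0 := by
      intro z
      unfold Ps
      rw [hd, Hd_notMem hmem]
      simp
    simp_rw [e1]
    rw [jA_notMem hmem]
    simp

end core

/-! ### The isometry -/

lemma vA_ne : vA 2 ≠ 0 := by
  have h1 : vA 2 = (((volume : Measure ℂ) (An 2)).toReal : ℂ) := by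
    unfold vA
    have e : ∀ δ, jA 2 δ = (An 2).indicator (fun _ => (1 : ℂ)) δ := fun _ => rfl
    simp_rw [e]
    rw [integral_indicator (measurableSet_An 2), integral_const, Measure.real,
      Measure.restrict_apply_univ]
    simp
  rw [h1, Ne, Complex.ofReal_eq_zero, ENNReal.toReal_eq_zero_iff, not_or]
  refine ⟨?_, vol_An_ne_top 2⟩
  have hsub : Metric.ball (1 : ℂ) (1 / 2) ⊆ An 2 := by
    intro z hz
    rw [Metric.mem_ball, dist_eq_norm] at hz
    have h2 : ‖z‖ ≤ ‖z - 1‖ + ‖(1 : ℂ)‖ := by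
      have := norm_add_le (z - 1) 1
      rwa [sub_add_cancel] at this
    have h3 : ‖(1 : ℂ)‖ ≤ ‖z - 1‖ + ‖z‖ := by
      have := norm_sub_le z (z - 1)
      rw [sub_sub_cancel] at this
      linarith
    rw [norm_one] at h2 h3
    constructor
    · linarith
    · linarith
  have h4 : 0 < (volume : Measure ℂ) (Metric.ball (1 : ℂ) (1 / 2)) :=
    Metric.measure_ball_pos volume _ (by norm_num)
  exact (h4.trans_le (measure_mono hsub)).ne'

lemma JJ_val2 (D : ℝ) {H₁ H₂ : ℂ → Vec → ℂ} (hH₁ : TFD H₁) (hH₂ : TFD H₂) {n : ℂ}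
    (hn : ∀ δ, δ ≠ 0 → ∫ u, conj (H₂ δ u) * H₁ δ u = n) : JJ D H₁ H₂ = vA D * n := by
  have hi := JJ_integrable D hH₁ hH₂
  unfold JJ
  rw [Measure.volume_eq_prod] at hi ⊢
  rw [integral_prod_symm _ hi]
  unfold vA
  rw [← integral_mul_const]
  refine integral_congr_ae (Filter.Eventually.of_forall fun δ => ?_)
  simp only
  by_cases h : δ ∈ An D
  · rw [jA_mem h]
    simp only [one_mul]
    exact hn δ (An_ne h)
  · rw [jA_notMem h]
    simp

lemma JJ_scl2 (D : ℝ) {F G : Vec → ℂ} (hF : TFD (fun δ u => scl δ F u))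
    (hG : TFD (fun δ u => scl δ G u)) :
    JJ D (fun δ u => scl δ F u) (fun δ u => scl δ G u) = vA D * ∫ u, conj (G u) * F u := by
  refine JJ_val2 D hF hG fun δ hδ => ?_
  have h1 := int_smul_vec (inv_ne_zero hδ) (fun u => conj (G u) * F u)
  have hn : ((‖δ‖ : ℝ) : ℂ) ≠ 0 := by
    exact_mod_cast norm_ne_zero_iff.mpr hδ
  have e1 : ∀ u, conj (scl δ G u) * scl δ F u =
      (((‖δ‖ ^ 4)⁻¹ : ℝ) : ℂ) * (conj (G (δ⁻¹ • u)) * F (δ⁻¹ • u)) := by
    intro u
    unfold F1.scl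
    rw [map_mul, Complex.conj_ofReal]
    push_cast
    field_simp
  simp_rw [e1]
  rw [integral_const_mul, h1, norm_inv]
  push_cast
  field_simp

open Classical in
/-- **The isometry.** -/
theorem iso {s : ℂ} (hs : s = 1 ∨ s = -1) {W : Eis → ℂ} (bW : Bdd W) {F F' G G' : Vec → ℂ}
    (tF : TstN s F) (tF' : TstN s F') (tG' : TstN s G')
    (m1 : ∀ M : K695.Frm, det2 M ≠ 0 → opW W F M = scl (det2 M) F' M.2)
    (m2 : ∀ M : K695.Frm, det2 M ≠ 0 →
      opW (fun h => s * conj (W h)) (scl (det2 M) G') M = G M.2) :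
    ∫ u, conj (G' u) * F' u = ∫ u, conj (G u) * F u := by
  have hAF := adm_tst tF
  have hAG := adm_tst tG'
  have hTG : TFD (fun δ u => scl δ G' u) := tfd_scl tG'
  have hTF' : TFD (fun δ u => scl δ F' u) := tfd_scl tF'
  have hsc : conj s = s := by rcases hs with h | h <;> rw [h] <;> simp
  have hss : s * s = 1 := by rcases hs with h | h <;> rw [h] <;> ring
  obtain ⟨K, hK⟩ := bW
  have hK0 : 0 ≤ K := (norm_nonneg _).trans (hK 0)
  obtain ⟨C, hCt, hC⟩ := lint_Ph (D := 2) hAF hTG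
  -- the two families of functions on `(ζ, δ)`
  let A : Eis → Vec × ℂ → ℂ := fun h p => if h = 0 then 0 else
    W h * (((‖toC h‖ ^ 2 : ℝ) : ℂ) * ∫ z, Ph 2 F G' (toC h) (Th (p, z)))
  let B : Eis → Vec × ℂ → ℂ := fun h p => if h = 0 then 0 else
    W h * (((‖toC h‖ ^ 2 : ℝ) : ℂ) * ∫ z, Ps 2 F G' (toC h) (Th (p, z)))
  have hbound : ∀ {f : K695.Frm → ℂ}, Measurable f → ∀ {h : Eis}, h ≠ 0 →
      ∫⁻ M, ‖f M‖ₑ = ∫⁻ M, ‖Ph 2 F G' (toC h) M‖ₑ →
      ∫⁻ p : Vec × ℂ, ‖W h * (((‖toC h‖ ^ 2 : ℝ) : ℂ) * ∫ z, f (Th (p, z)))‖ₑ ≤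
        ENNReal.ofReal K * C * ENNReal.ofReal (((nm h : ℝ) ^ 2)⁻¹) := by
    intro f hf h hh hfe
    have hhC : toC h ≠ 0 := by rwa [Ne, toC_eq_zero]
    have hn0 : 0 < ‖toC h‖ := norm_pos_iff.mpr hhC
    have e1 : ∀ p : Vec × ℂ, ‖W h * (((‖toC h‖ ^ 2 : ℝ) : ℂ) * ∫ z, f (Th (p, z)))‖ₑ =
        (‖W h‖ₑ * ENNReal.ofReal (‖toC h‖ ^ 2)) * ‖∫ z, f (Th (p, z))‖ₑ := by
      intro p
      rw [enorm_mul, enorm_mul, ← ofReal_norm (((‖toC h‖ ^ 2 : ℝ) : ℂ)), Complex.norm_real,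
        Real.norm_of_nonneg (by positivity), mul_assoc]
    simp_rw [e1]
    have hWt : ‖W h‖ₑ ≤ ENNReal.ofReal K := by
      rw [← ofReal_norm]; exact ENNReal.ofReal_le_ofReal (hK h)
    rw [lintegral_const_mul' _ _ (ENNReal.mul_ne_top enorm_ne_top ENNReal.ofReal_ne_top)]
    calc ‖W h‖ₑ * ENNReal.ofReal (‖toC h‖ ^ 2) * ∫⁻ p : Vec × ℂ, ‖∫ z, f (Th (p, z))‖ₑ
        ≤ ENNReal.ofReal K * ENNReal.ofReal (‖toC h‖ ^ 2) *
            (C * ENNReal.ofReal ((‖toC h‖ ^ 6)⁻¹)) := by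
          gcongr
          exact ((fub_le hf).trans (le_of_eq hfe)).trans (hC _ hhC)
      _ = ENNReal.ofReal K * C *
            (ENNReal.ofReal (‖toC h‖ ^ 2) * ENNReal.ofReal ((‖toC h‖ ^ 6)⁻¹)) := by ring
      _ = _ := by
          rw [← ENNReal.ofReal_mul (by positivity)]
          congr 2
          rw [← norm_toC_sq]
          field_simp
  have hsumC : ∑' h : Eis, (if h = 0 then (0 : ℝ≥0∞) else
      ENNReal.ofReal K * C * ENNReal.ofReal (((nm h : ℝ) ^ 2)⁻¹)) ≠ ∞ := by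
    have e : ∀ h : Eis, (if h = 0 then (0 : ℝ≥0∞) else
      ENNReal.ofReal K * C * ENNReal.ofReal (((nm h : ℝ) ^ 2)⁻¹)) =
      (ENNReal.ofReal K * C) * (if h = 0 then 0 else ENNReal.ofReal (((nm h : ℝ) ^ 2)⁻¹)) := by
      intro h
      split_ifs <;> simp
    simp_rw [e]
    rw [ENNReal.tsum_mul_left]
    exact ENNReal.mul_ne_top (ENNReal.mul_ne_top ENNReal.ofReal_ne_top hCt) hs2_ne_top
  have hPhm : ∀ h : Eis, Measurable (Ph 2 F G' (toC h)) := fun h => Ph_measurable hAF hTG _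
  have hAe : ∀ h : Eis, h ≠ 0 → A h = fun p => W h * (((‖toC h‖ ^ 2 : ℝ) : ℂ) *
      ∫ z, Ph 2 F G' (toC h) (Th (p, z))) := by
    intro h hh
    funext p
    simp only [A, if_neg hh]
  have hBe : ∀ h : Eis, h ≠ 0 → B h = fun p => W h * (((‖toC h‖ ^ 2 : ℝ) : ℂ) *
      ∫ z, Ps 2 F G' (toC h) (Th (p, z))) := by
    intro h hh
    funext p
    simp only [B, if_neg hh]
  have hA0 : A 0 = fun _ => 0 := by funext p; simp [A]
  have hB0 : B 0 = fun _ => 0 := by funext p; simp [B]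
  have hAm : ∀ h, AEStronglyMeasurable (A h) volume := by
    intro h
    by_cases hh : h = 0
    · rw [hh, hA0]; exact aestronglyMeasurable_const
    · rw [hAe h hh]
      have h1 : AEStronglyMeasurable (fun q : (Vec × ℂ) × ℂ => Ph 2 F G' (toC h) (Th q))
          ((volume : Measure (Vec × ℂ)).prod (volume : Measure ℂ)) :=
        ((hPhm h).comp mp_Th.measurable).aestronglyMeasurable
      exact (h1.integral_prod_right'.const_mul _).const_mul _
  have hBm : ∀ h, AEStronglyMeasurable (B h) volume := by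
    intro h
    by_cases hh : h = 0
    · rw [hh, hB0]; exact aestronglyMeasurable_const
    · rw [hBe h hh]
      have hhC : toC h ≠ 0 := by rwa [Ne, toC_eq_zero]
      have h1 : AEStronglyMeasurable (fun q : (Vec × ℂ) × ℂ => Ps 2 F G' (toC h) (Th q))
          ((volume : Measure (Vec × ℂ)).prod (volume : Measure ℂ)) :=
        ((Ps_measurable hAF hTG hhC).comp mp_Th.measurable).aestronglyMeasurable
      exact (h1.integral_prod_right'.const_mul _).const_mul _
  have hAt : ∑' h, ∫⁻ p, ‖A h p‖ₑ ≠ ∞ := by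
    refine ne_top_of_le_ne_top hsumC (ENNReal.tsum_le_tsum fun h => ?_)
    by_cases hh : h = 0
    · rw [hh, hA0, if_pos rfl]; simp
    · rw [if_neg hh, hAe h hh]
      exact hbound (hPhm h) hh rfl
  have hBt : ∑' h, ∫⁻ p, ‖B h p‖ₑ ≠ ∞ := by
    refine ne_top_of_le_ne_top hsumC (ENNReal.tsum_le_tsum fun h => ?_)
    by_cases hh : h = 0
    · rw [hh, hB0, if_pos rfl]; simp
    · rw [if_neg hh, hBe h hh]
      have hhC : toC h ≠ 0 := by rwa [Ne, toC_eq_zero]
      exact hbound (Ps_measurable hAF hTG hhC) hh (Ps_int hAF hTG hhC).2.2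
  have hAB : ∀ h, ∫ p, A h p = ∫ p, B h p := by
    intro h
    by_cases hh : h = 0
    · rw [hh, hA0, hB0]
    · have hhC : toC h ≠ 0 := by rwa [Ne, toC_eq_zero]
      obtain ⟨i1, i2, -⟩ := Ps_int (D := 2) hAF hTG hhC
      rw [hAe h hh, hBe h hh, integral_const_mul, integral_const_mul, integral_const_mul,
        integral_const_mul, ← fub_Th i1, ← fub_Th (Ph_integrable hAF hTG hhC), i2]
  have hsA : ∫ p, ∑' h, A h p = ∫ p, ∑' h, B h p := by
    rw [integral_tsum hAm hAt, integral_tsum hBm hBt]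
    exact tsum_congr hAB
  -- first sum
  have hS1 : ∫ p, ∑' h, A h p = vA 2 * ∫ u, conj (G' u) * F' u := by
    rw [← JJ_scl2 2 hTF' hTG]
    unfold JJ
    refine integral_congr_ae ?_
    filter_upwards [ae_fst_ne] with p hp
    by_cases hmem : p.2 ∈ An 2
    · have hd : det2 (fr p) ≠ 0 := by rw [det2_fr hp]; exact An_ne hmem
      have h1 := m1 (fr p) hd
      rw [det2_fr hp, fr_snd] at h1
      rw [← h1]
      unfold opW
      rw [← tsum_mul_left]
      refine tsum_congr fun h => ?_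
      by_cases hh : h = 0
      · rw [hh, hA0, if_pos rfl, mul_zero]
      · have hhC : toC h ≠ 0 := by rwa [Ne, toC_eq_zero]
        rw [if_neg hh, hAe h hh]
        simp only
        rw [Ph_one hhC hp, Hd_mem hmem, jA_mem hmem]
        ring
    · rw [jA_notMem hmem, zero_mul, zero_mul]
      rw [← tsum_zero (β := Eis)]
      refine tsum_congr fun h => ?_
      by_cases hh : h = 0
      · rw [hh, hA0]
      · have hhC : toC h ≠ 0 := by rwa [Ne, toC_eq_zero]
        rw [hAe h hh]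
        simp only
        rw [Ph_one hhC hp, Hd_notMem hmem]
        simp
  -- second sum
  have hS2 : ∫ p, ∑' h, B h p = vA 2 * ∫ u, conj (G u) * F u := by
    have e1 : ∫ p, ∑' h, B h p = ∫ p : Vec × ℂ, (conj (G p.1) * F p.1) * jA 2 p.2 := by
      refine integral_congr_ae ?_
      filter_upwards [ae_fst_ne] with p hp
      have hd : det2 (fr (p.1, 1)) = 1 := det2_fr (p := (p.1, 1)) hp
      have h1 := m2 (fr (p.1, 1)) (by rw [hd]; exact one_ne_zero)
      rw [hd, fr_snd] at h1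
      have hscl1 : scl 1 G' = G' := by
        funext u
        unfold F1.scl
        simp
      rw [hscl1] at h1
      simp only at h1
      rw [← h1]
      unfold opW
      rw [Complex.conj_tsum, ← tsum_mul_right, ← tsum_mul_right]
      refine tsum_congr fun h => ?_
      by_cases hh : h = 0
      · rw [hh, hB0, if_pos rfl]; simp
      · have hhC : toC h ≠ 0 := by rwa [Ne, toC_eq_zero]
        rw [if_neg hh, hBe h hh]
        simp only
        rw [Ps_one hhC hp, IL_neg tG'.par]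
        simp only [map_mul, Complex.conj_conj, hsc]
        ring
    rw [e1, Measure.volume_eq_prod,
      integral_prod_mul (fun u : Vec => conj (G u) * F u) (fun δ : ℂ => jA 2 δ), mul_comm]
    rfl
  have hfin : vA 2 * ∫ u, conj (G' u) * F' u = vA 2 * ∫ u, conj (G u) * F u := by
    rw [← hS1, ← hS2, hsA]
  exact mul_left_cancel₀ vA_ne hfin

/-! ### Autocorrelations -/

lemma adm_mul {F G : Vec → ℂ} (hF : Adm F) (hG : Adm G) :
    Integrable (fun u => conj (G u) * F u) := by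
  obtain ⟨C, hC⟩ := hF.dec
  obtain ⟨C', hC'⟩ := hG.dec
  refine (integrable_GG.const_mul (|C'| * |C|)).mono'
    ((Complex.continuous_conj.comp hG.cont).mul hF.cont).aestronglyMeasurable
    (Filter.Eventually.of_forall fun u => ?_)
  have hg := GG_nonneg u
  have hg1 := GG_le_one u
  rw [norm_mul, RCLike.norm_conj]
  have i1 : ‖F u‖ ≤ |C| * GG u := (hC u).trans (by
    change C * GG u ≤ |C| * GG u
    gcongr
    exact le_abs_self _)
  have i2 : ‖G u‖ ≤ |C'| * 1 := (hC' u).trans (by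
    change C' * GG u ≤ |C'| * 1
    calc C' * GG u ≤ |C'| * GG u := by gcongr; exact le_abs_self _
      _ ≤ |C'| * 1 := by gcongr)
  calc ‖G u‖ * ‖F u‖ ≤ (|C'| * 1) * (|C| * GG u) := by gcongr
    _ = _ := by ring

/-- the autocorrelation function. -/
def RR (F : Vec → ℂ) (t : ℂ) : ℂ := ∫ u, conj (F u) * dil t F u

lemma RR_ratio (F : Vec → ℂ) {b b' : ℂ} (hb' : b' ≠ 0) :
    ∫ u, conj (dil b' F u) * dil b F u = RR F (b / b') := by
  unfold RR
  have h1 := int_smul_vec hb' (fun v => conj (F v) * dil (b / b') F v)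
  have hn : ((‖b'‖ : ℝ) : ℂ) ≠ 0 := by exact_mod_cast norm_ne_zero_iff.mpr hb'
  have e1 : ∀ u, conj (dil b' F u) * dil b F u =
      (((‖b'‖ ^ 4) : ℝ) : ℂ) * (conj (F (b' • u)) * dil (b / b') F (b' • u)) := by
    intro u
    unfold dil
    rw [smul_smul, div_mul_cancel₀ _ hb', map_mul, Complex.conj_ofReal, norm_div]
    push_cast
    field_simp
  simp_rw [e1]
  rw [integral_const_mul, h1, ← mul_assoc]
  push_cast
  rw [mul_inv_cancel₀ (pow_ne_zero 4 hn), one_mul]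

lemma RR_neg {s : ℂ} {F : Vec → ℂ} (hF : ∀ u, F (-u) = s * F u) (t : ℂ) :
    RR F (-t) = s * RR F t := by
  unfold RR
  rw [← integral_const_mul]
  refine integral_congr_ae (Filter.Eventually.of_forall fun u => ?_)
  simp only [dil, norm_neg, neg_smul, hF]
  ring

lemma RR_inv (F : Vec → ℂ) (t : ℂ) : RR F t⁻¹ = conj (RR F t) := by
  by_cases ht : t = 0
  · subst ht
    unfold RR dil
    simp
  · have h1 := RR_ratio F (b := 1) ht
    rw [one_div] at h1
    rw [← h1]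
    unfold RR
    rw [← integral_conj]
    refine integral_congr_ae (Filter.Eventually.of_forall fun u => ?_)
    simp only [map_mul, Complex.conj_conj]
    unfold dil
    simp only [map_mul, Complex.conj_conj, Complex.conj_ofReal, norm_one, one_pow, one_smul,
      Complex.ofReal_one, one_mul]
    ring

/-- the dual autocorrelation. -/
lemma RR_dual {s : ℂ} (hs : s = 1 ∨ s = -1) {W0 : Eis → ℂ} {F0 F0' : Vec → ℂ}
    (hp : PairW s W0 (fun h => s * conj (W0 h)) F0 F0') {b : ℂ} (hb : b ≠ 0) :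
    RR F0' b⁻¹ = RR F0 b := by
  unfold RR
  refine iso hs hp.bW (tst_dil hb hp.tst) (tst_dil (inv_ne_zero hb) hp.tst') hp.tst' ?_ hp.m2
  intro M hM
  have e1 : opW W0 (dil b F0) M = opW W0 F0 (b • M.1, M.2) := by
    classical
    unfold opW
    refine tsum_congr fun h => ?_
    rw [IL_dil hb, IL_fst]
  have hdM : det2 ((b • M.1, M.2) : K695.Frm) ≠ 0 := by
    rw [det2_fst]; exact mul_ne_zero hb hM
  rw [e1, hp.m1 _ hdM, det2_fst, scl_mul]

lemma int_lin {J : Type} [Fintype J] {G : J → Vec → ℂ} (hG : ∀ j, Adm (G j)) (l : J → ℂ) :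
    ∫ u, conj (∑ j, l j * G j u) * (∑ j, l j * G j u) =
      ∑ j, ∑ j', l j * conj (l j') * ∫ u, conj (G j' u) * G j u := by
  have e1 : ∀ u, conj (∑ j, l j * G j u) * (∑ j, l j * G j u) =
      ∑ j, ∑ j', (l j * conj (l j')) * (conj (G j' u) * G j u) := by
    intro u
    rw [map_sum, Finset.mul_sum]
    refine Finset.sum_congr rfl fun j _ => ?_
    rw [Finset.sum_mul]
    refine Finset.sum_congr rfl fun j' _ => ?_
    rw [map_mul]
    ring
  simp_rw [e1]
  rw [integral_finsetSum _ fun j _ => integrable_finsetSum _ fun j' _ =>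
    (adm_mul (hG j) (hG j')).const_mul _]
  refine Finset.sum_congr rfl fun j _ => ?_
  rw [integral_finsetSum _ fun j' _ => (adm_mul (hG j) (hG j')).const_mul _]
  refine Finset.sum_congr rfl fun j' _ => ?_
  rw [integral_const_mul]

/-- **The norm hypothesis of `glueN`** from a finite identity. -/
theorem nrm_of_auto {κ J : Type} [Fintype κ] [Fintype J] {s : ℂ} (hs : s = 1 ∨ s = -1)
    {W0 : Eis → ℂ} {F0 F0' : Vec → ℂ} (hp : PairW s W0 (fun h => s * conj (W0 h)) F0 F0')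
    {c : J → ℂ} (hc : ∀ j, c j ≠ 0) (l : J → ℂ) (r : κ → J → ℂ)
    (auto : ∀ R : ℂ → ℂ, (∀ t, R (-t) = s * R t) → (∀ t, R t⁻¹ = conj (R t)) →
      ∑ k, ∑ j, ∑ j', r k j * conj (r k j') * R (c j / c j') =
        ∑ j, ∑ j', l j * conj (l j') * R (c j / c j')) :
    ∑ k, ∫ u, conj (∑ j, r k j * dil (c j)⁻¹ F0' u) * (∑ j, r k j * dil (c j)⁻¹ F0' u) =
      ∫ u, conj (∑ j, l j * dil (c j) F0 u) * (∑ j, l j * dil (c j) F0 u) := by
  have hA : ∀ j, Adm (dil (c j) F0) := fun j => adm_dil (hc j) (adm_tst hp.tst)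
  have hA' : ∀ j, Adm (dil (c j)⁻¹ F0') := fun j => adm_dil (inv_ne_zero (hc j)) (adm_tst hp.tst')
  rw [int_lin hA l]
  simp_rw [int_lin hA' (r _)]
  have e1 : ∀ j j', ∫ u, conj (dil (c j') F0 u) * dil (c j) F0 u = RR F0 (c j / c j') :=
    fun j j' => RR_ratio F0 (hc j')
  have e2 : ∀ j j', ∫ u, conj (dil (c j')⁻¹ F0' u) * dil (c j)⁻¹ F0' u = RR F0 (c j / c j') := by
    intro j j'
    rw [RR_ratio F0' (inv_ne_zero (hc j')), ← RR_dual hs hp (div_ne_zero (hc j) (hc j'))]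
    congr 1
    rw [inv_div, div_eq_mul_inv, inv_inv, mul_comm, ← div_eq_mul_inv]
  simp_rw [e1, e2]
  exact auto (RR F0) (RR_neg hp.tst.par) (RR_inv F0)

end Crest.Agent.R017.Norm358
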