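import Crest.Agent.R017.WPolyJ_681
import Crest.Agent.R017.NormE_358

/-!
# Row 17, section A: the finite autocorrelation identity (helper358)

* `AC`, `AC1` : autocorrelations with integer lags
* `auto_of_lags` : the hypothesis `auto` of `nrm_of_auto` for the lists `cL`, `cR`
-/

set_option autoImplicit false

noncomputable section

open Complex
open scoped ComplexConjugate

namespace Crest.Agent.R017.Norm358

open Crest.Agent.R012 Crest.Agent.R012.Eis Crest.Agent.R012.K695 Crest.Agent.R012.AU681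
  Crest.Agent.R012.Parseval499 Crest.Agent.R017.Orth681 Crest.Agent.R017.Xn590
  Crest.Agent.R017.Glue681 Crest.Agent.R017.Rw266

/-! ### Lags -/

/-- autocorrelation of a sequence, integer lag. -/
def AC1 (A : ℕ) (p : ℕ → ℂ) (i : ℤ) : ℂ :=
  ∑ a : Fin A, ∑ a' : Fin A,
    if ((a : ℕ) : ℤ) - ((a' : ℕ) : ℤ) = i then p a * conj (p a') else 0

/-- autocorrelation of a table, integer lags. -/
def AC (A B : ℕ) (q : Fin 3 → ℕ → ℕ → ℂ) (i l : ℤ) : ℂ :=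
  ∑ j : Glue681.JJ A B, ∑ j' : Glue681.JJ A B,
    if j.1 = j'.1 ∧ ((j.2.1 : ℕ) : ℤ) - ((j'.2.1 : ℕ) : ℤ) = i ∧
      ((j.2.2 : ℕ) : ℤ) - ((j'.2.2 : ℕ) : ℤ) = l
    then q j.1 j.2.1 j.2.2 * conj (q j'.1 j'.2.1 j'.2.2) else 0

/-- the box of lags. -/
def lagS (A B : ℕ) : Finset (ℤ × ℤ) :=
  Finset.Icc (-(A : ℤ)) A ×ˢ Finset.Icc (-(B : ℤ)) B

lemma regroup {A B : ℕ} (F : Glue681.JJ A B → Glue681.JJ A B → ℂ) (T : ℤ → ℤ → ℂ) :
    ∑ j : Glue681.JJ A B, ∑ j' : Glue681.JJ A B, F j j' *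
        T (((j.2.1 : ℕ) : ℤ) - ((j'.2.1 : ℕ) : ℤ)) (((j.2.2 : ℕ) : ℤ) - ((j'.2.2 : ℕ) : ℤ)) =
      ∑ s ∈ lagS A B, (∑ j : Glue681.JJ A B, ∑ j' : Glue681.JJ A B,
        if ((j.2.1 : ℕ) : ℤ) - ((j'.2.1 : ℕ) : ℤ) = s.1 ∧
          ((j.2.2 : ℕ) : ℤ) - ((j'.2.2 : ℕ) : ℤ) = s.2 then F j j' else 0) * T s.1 s.2 := by
  simp_rw [Finset.sum_mul]
  symm
  rw [Finset.sum_comm]
  refine Finset.sum_congr rfl fun j _ => ?_
  rw [Finset.sum_comm]
  refine Finset.sum_congr rfl fun j' _ => ?_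
  have h1 := j.2.1.isLt
  have h2 := j'.2.1.isLt
  have h3 := j.2.2.isLt
  have h4 := j'.2.2.isLt
  rw [Finset.sum_eq_single (((j.2.1 : ℕ) : ℤ) - ((j'.2.1 : ℕ) : ℤ),
    ((j.2.2 : ℕ) : ℤ) - ((j'.2.2 : ℕ) : ℤ))]
  · rw [if_pos ⟨rfl, rfl⟩]
  · intro s _ hs
    rw [if_neg, zero_mul]
    rintro ⟨h5, h6⟩
    exact hs (Prod.ext h5.symm h6.symm)
  · intro h
    exfalso
    apply h
    unfold lagS
    rw [Finset.mem_product, Finset.mem_Icc, Finset.mem_Icc]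
    constructor <;> constructor <;> simp only <;> omega

/-! ### The classes -/

lemma cast3 {c c' : Fin 3} : (((c : ℕ) : ZMod 3) = ((c' : ℕ) : ZMod 3)) ↔ c = c' := by
  revert c c'
  decide

lemma castN {a a' : ℕ} : ((a : ZMod 3) = (a' : ZMod 3)) ↔ (3 : ℤ) ∣ (a : ℤ) - a' := by
  have h := ZMod.intCast_zmod_eq_zero_iff_dvd ((a : ℤ) - a') 3
  have e3 : ((3 : ℕ) : ℤ) = 3 := rfl
  rw [e3] at h
  rw [← h]
  push_cast
  rw [sub_eq_zero]

lemma qT_cls (x1 x2 : ℂ) (t : Fin 3 → ℕ → ℕ → ℂ) (k : K3) (c : Fin 3) (a b : ℕ) :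
    qT x1 x2 (fun c a b => if (((c : ℕ) : ZMod 3), (a : ZMod 3), (b : ZMod 3)) = k
      then t c a b else 0) c a b =
      if (((c : ℕ) : ZMod 3), (a : ZMod 3), (b : ZMod 3)) = k then qT x1 x2 t c a b else 0 := by
  rw [qT_apply, qT_apply]
  by_cases ha : 6 ≤ a <;> by_cases hb : 6 ≤ b
  · obtain ⟨a', rfl⟩ := Nat.exists_eq_add_of_le' ha
    obtain ⟨b', rfl⟩ := Nat.exists_eq_add_of_le' hb
    simp only [Nat.add_sub_cancel, cast6]
    split_ifs <;> ring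
  · obtain ⟨a', rfl⟩ := Nat.exists_eq_add_of_le' ha
    simp only [Nat.add_sub_cancel, cast6, hb, if_false, and_false]
    split_ifs <;> ring
  · obtain ⟨b', rfl⟩ := Nat.exists_eq_add_of_le' hb
    simp only [Nat.add_sub_cancel, cast6, ha, if_false, false_and]
    split_ifs <;> ring
  · simp only [ha, hb, if_false, and_false]
    split_ifs <;> ring

/-! ### The monomials -/

lemma mo_ratio {A B : ℕ} {j j' : Glue681.JJ A B} (h : j.1 = j'.1) :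
    toC (mo j) / toC (mo j') = (2 : ℂ) ^ (((j.2.1 : ℕ) : ℤ) - ((j'.2.1 : ℕ) : ℤ)) *
      toC lam ^ (((j.2.2 : ℕ) : ℤ) - ((j'.2.2 : ℕ) : ℤ)) := by
  have hl : toC lam ≠ 0 := by rw [Ne, toC_eq_zero]; exact lam_ne_zero
  have hw : toC w ≠ 0 := by rw [Ne, toC_eq_zero]; exact isUnit_w.ne_zero
  have e : ∀ i : Glue681.JJ A B, toC (mo i) = toC w ^ (i.1 : ℕ) * ((2 : ℂ) ^ (i.2.1 : ℕ) *
      toC lam ^ (i.2.2 : ℕ)) := by
    intro i
    unfold mo mj mon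
    rw [map_mul, map_mul, map_pow, map_pow, map_pow, map_ofNat]
  rw [e, e, h, zpow_sub₀ two_ne_zero, zpow_sub₀ hl]
  simp only [zpow_natCast]
  field_simp

/-! ### One variable -/

lemma lag_neg {A : ℕ} {g : ℕ → ℕ → ℂ} (hg : ∀ a a', A ≤ a' → g a a' = 0) (n : ℕ) :
    (∑ a : Fin A, ∑ a' : Fin A, if ((a : ℕ) : ℤ) - ((a' : ℕ) : ℤ) = -(n : ℤ) then g a a' else 0) =
      ∑ a ∈ Finset.range A, g a (a + n) := by
  rw [← Fin.sum_univ_eq_sum_range (fun a => g a (a + n)) A]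
  refine Finset.sum_congr rfl fun a _ => ?_
  by_cases h : (a : ℕ) + n < A
  · rw [Finset.sum_eq_single (⟨(a : ℕ) + n, h⟩ : Fin A)]
    · rw [if_pos]
      push_cast
      ring
    · intro a' _ hne
      rw [if_neg]
      intro h'
      apply hne
      ext
      simp only
      omega
    · intro h'
      exact absurd (Finset.mem_univ _) h'
  · rw [hg _ _ (not_lt.mp h)]
    apply Finset.sum_eq_zero
    intro a' _
    rw [if_neg]
    intro h'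
    have := a'.isLt
    omega

lemma lag_pos {A : ℕ} {g : ℕ → ℕ → ℂ} (hg : ∀ a a', A ≤ a → g a a' = 0) (n : ℕ) :
    (∑ a : Fin A, ∑ a' : Fin A, if ((a : ℕ) : ℤ) - ((a' : ℕ) : ℤ) = (n : ℤ) then g a a' else 0) =
      ∑ a ∈ Finset.range A, g (a + n) a := by
  rw [Finset.sum_comm, ← lag_neg (g := fun a a' => g a' a) (fun a a' h => hg _ _ h) n]
  refine Finset.sum_congr rfl fun a _ => Finset.sum_congr rfl fun a' _ => ?_
  by_cases h : ((a : ℕ) : ℤ) - ((a' : ℕ) : ℤ) = -(n : ℤ)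
  · rw [if_pos h, if_pos (by omega)]
  · rw [if_neg h, if_neg (by omega)]

/-- lags of the base polynomial. -/
def G1 (x : ℂ) (q : ℝ) (i : ℤ) : ℂ :=
  if i = 0 then 1 + x * conj x * ((1 / q : ℝ) : ℂ) ^ 2
  else if i = 6 then -(x * ((1 / q : ℝ) : ℂ))
  else if i = -6 then -(conj x * ((1 / q : ℝ) : ℂ)) else 0

lemma pg_zero (x : ℂ) (q : ℝ) : pg x q 0 = 1 := by unfold pg; rw [if_pos rfl]

lemma pg_six (x : ℂ) (q : ℝ) : pg x q 6 = -(x * ((1 / q : ℝ) : ℂ)) := by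
  unfold pg; rw [if_neg (by norm_num), if_pos rfl]

lemma pg_oth {x : ℂ} {q : ℝ} {a : ℕ} (h0 : a ≠ 0) (h6 : a ≠ 6) : pg x q a = 0 := by
  unfold pg; rw [if_neg h0, if_neg h6]

lemma sum_pg {A : ℕ} (hA : 7 ≤ A) (x : ℂ) (q : ℝ) (f : ℕ → ℂ) :
    ∑ a ∈ Finset.range A, pg x q a * f a = f 0 - x * ((1 / q : ℝ) : ℂ) * f 6 := by
  have h : ∀ a ∈ Finset.range A, a ∉ ({0, 6} : Finset ℕ) → pg x q a * f a = 0 := by
    intro a _ ha
    rw [Finset.mem_insert, Finset.mem_singleton, not_or] at ha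
    rw [pg_oth ha.1 ha.2, zero_mul]
  rw [← Finset.sum_subset (s₁ := ({0, 6} : Finset ℕ)) ?_ h, Finset.sum_pair (by norm_num), pg_zero,
    pg_six]
  · ring
  · intro a ha
    rw [Finset.mem_insert, Finset.mem_singleton] at ha
    rw [Finset.mem_range]
    omega

lemma conj_pg (x : ℂ) (q : ℝ) (a : ℕ) : conj (pg x q a) = pg (conj x) q a := by
  unfold pg
  split_ifs <;> simp

lemma pg_big {A : ℕ} (hA : 7 ≤ A) (x : ℂ) (q : ℝ) {a : ℕ} (ha : A ≤ a) : pg x q a = 0 :=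
  pg_oth (by omega) (by omega)

lemma AC1_neg {A : ℕ} (hA : 7 ≤ A) (x : ℂ) (q : ℝ) (n : ℕ) :
    AC1 A (pg x q) (-(n : ℤ)) = G1 x q (-(n : ℤ)) := by
  unfold AC1
  rw [lag_neg (g := fun a a' => pg x q a * conj (pg x q a'))
    (fun a a' h => by rw [pg_big hA x q h, map_zero, mul_zero]), sum_pg hA]
  simp only [conj_pg, zero_add]
  have h6 : pg (conj x) q (6 + n) = if n = 0 then -(conj x * ((1 / q : ℝ) : ℂ)) else 0 := by
    split_ifs with h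
    · rw [h, add_zero, pg_six]
    · exact pg_oth (by omega) (by omega)
  rw [h6]
  unfold G1
  by_cases h0 : n = 0
  · subst h0
    simp only [Nat.cast_zero, neg_zero, if_true, pg_zero]
    ring
  · rw [if_neg h0, if_neg (by omega), if_neg (by omega)]
    by_cases h : n = 6
    · subst h
      rw [if_pos (by norm_num), pg_six]
      ring
    · rw [if_neg (by omega), pg_oth h0 h]
      ring

lemma AC1_conj (A : ℕ) (p : ℕ → ℂ) (i : ℤ) : AC1 A p (-i) = conj (AC1 A p i) := by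
  unfold AC1
  rw [Finset.sum_comm, map_sum]
  refine Finset.sum_congr rfl fun a _ => ?_
  rw [map_sum]
  refine Finset.sum_congr rfl fun a' _ => ?_
  by_cases h : ((a : ℕ) : ℤ) - ((a' : ℕ) : ℤ) = i
  · rw [if_pos h, if_pos (by omega), map_mul, Complex.conj_conj, mul_comm]
  · rw [if_neg h, if_neg (by omega), map_zero]

lemma G1_conj (x : ℂ) (q : ℝ) (i : ℤ) : G1 x q (-i) = conj (G1 x q i) := by
  unfold G1
  by_cases h0 : i = 0
  · subst h0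
    simp only [neg_zero, if_true]
    simp only [map_add, map_one, map_mul, map_pow, Complex.conj_conj, Complex.conj_ofReal]
    ring
  · by_cases h6 : i = 6
    · subst h6
      norm_num
    · by_cases h6' : i = -6
      · subst h6'
        norm_num
      · rw [if_neg (by omega), if_neg (by omega), if_neg (by omega), if_neg h0, if_neg h6,
          if_neg h6', map_zero]

lemma AC1_pg {A : ℕ} (hA : 7 ≤ A) (x : ℂ) (q : ℝ) (i : ℤ) : AC1 A (pg x q) i = G1 x q i := by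
  rcases Int.eq_nat_or_neg i with ⟨n, h | h⟩
  · have h' : i = -(-(n : ℤ)) := by rw [h, neg_neg]
    rw [h', AC1_conj, AC1_neg hA, ← G1_conj]
  · rw [h, AC1_neg hA]

/-! ### Two variables -/

lemma AC_eq (A B : ℕ) (q : Fin 3 → ℕ → ℕ → ℂ) (i l : ℤ) :
    AC A B q i l = ∑ c : Fin 3, ∑ a : Fin A, ∑ a' : Fin A,
      if ((a : ℕ) : ℤ) - ((a' : ℕ) : ℤ) = i then
        (∑ b : Fin B, ∑ b' : Fin B, if ((b : ℕ) : ℤ) - ((b' : ℕ) : ℤ) = l then
          q c a b * conj (q c a' b') else 0) else 0 := by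
  unfold AC
  rw [Fintype.sum_prod_type]
  refine Finset.sum_congr rfl fun c _ => ?_
  rw [Fintype.sum_prod_type]
  refine Finset.sum_congr rfl fun a _ => ?_
  simp_rw [Fintype.sum_prod_type]
  rw [Finset.sum_comm, Finset.sum_eq_single c]
  · rw [Finset.sum_comm]
    refine Finset.sum_congr rfl fun a' _ => ?_
    by_cases h : ((a : ℕ) : ℤ) - ((a' : ℕ) : ℤ) = i
    · simp only [h, true_and, if_true]
    · simp only [h, false_and, and_false, if_false, Finset.sum_const_zero]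
  · intro c' _ hne
    simp only [hne.symm, false_and, if_false, Finset.sum_const_zero]
  · intro h
    exact absurd (Finset.mem_univ _) h

lemma AC_prod (A B : ℕ) (p1 p2 : ℕ → ℂ) (i l : ℤ) :
    AC A B (fun c a b => if c = 0 then p1 a * p2 b else 0) i l = AC1 A p1 i * AC1 B p2 l := by
  rw [AC_eq, Finset.sum_eq_single 0]
  · simp only [if_true]
    unfold AC1
    rw [Finset.sum_mul]
    refine Finset.sum_congr rfl fun a _ => ?_
    rw [Finset.sum_mul]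
    refine Finset.sum_congr rfl fun a' _ => ?_
    rw [ite_mul, zero_mul]
    congr 1
    rw [Finset.mul_sum]
    refine Finset.sum_congr rfl fun b _ => ?_
    rw [Finset.mul_sum]
    refine Finset.sum_congr rfl fun b' _ => ?_
    rw [mul_ite, mul_zero]
    congr 1
    rw [map_mul]
    ring
  · intro c _ hc
    simp only [hc, if_false, zero_mul, ite_self, Finset.sum_const_zero]
  · intro h
    exact absurd (Finset.mem_univ _) h

lemma AC_conj (A B : ℕ) (q : Fin 3 → ℕ → ℕ → ℂ) (i l : ℤ) :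
    AC A B q (-i) (-l) = conj (AC A B q i l) := by
  unfold AC
  rw [Finset.sum_comm, map_sum]
  refine Finset.sum_congr rfl fun j _ => ?_
  rw [map_sum]
  refine Finset.sum_congr rfl fun j' _ => ?_
  by_cases h : j.1 = j'.1 ∧ ((j.2.1 : ℕ) : ℤ) - ((j'.2.1 : ℕ) : ℤ) = i ∧
      ((j.2.2 : ℕ) : ℤ) - ((j'.2.2 : ℕ) : ℤ) = l
  · rw [if_pos h, if_pos ⟨h.1.symm, by omega, by omega⟩, map_mul, Complex.conj_conj, mul_comm]
  · rw [if_neg h, if_neg, map_zero]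
    rintro ⟨h1, h2, h3⟩
    exact h ⟨h1.symm, by omega, by omega⟩

lemma AC_nn {A B : ℕ} {q : Fin 3 → ℕ → ℕ → ℂ} (hq : ∀ c a b, A ≤ a ∨ B ≤ b → q c a b = 0)
    (n m : ℕ) : AC A B q (-(n : ℤ)) (-(m : ℤ)) = ∑ c : Fin 3, ∑ a ∈ Finset.range A,
      ∑ b ∈ Finset.range B, q c a b * conj (q c (a + n) (b + m)) := by
  rw [AC_eq]
  refine Finset.sum_congr rfl fun c _ => ?_
  rw [lag_neg (g := fun a a' => ∑ b : Fin B, ∑ b' : Fin B,
    if ((b : ℕ) : ℤ) - ((b' : ℕ) : ℤ) = -(m : ℤ) then q c a b * conj (q c a' b') else 0)]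
  · refine Finset.sum_congr rfl fun a _ => ?_
    exact lag_neg (g := fun b b' => q c a b * conj (q c (a + n) b'))
      (fun b b' h => by rw [hq _ _ _ (Or.inr h), map_zero, mul_zero]) m
  · intro a a' h
    apply Finset.sum_eq_zero
    intro b _
    apply Finset.sum_eq_zero
    intro b' _
    rw [hq _ _ _ (Or.inl h), map_zero, mul_zero, ite_self]

lemma AC_np {A B : ℕ} {q : Fin 3 → ℕ → ℕ → ℂ} (hq : ∀ c a b, A ≤ a ∨ B ≤ b → q c a b = 0)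
    (n m : ℕ) : AC A B q (-(n : ℤ)) (m : ℤ) = ∑ c : Fin 3, ∑ a ∈ Finset.range A,
      ∑ b ∈ Finset.range B, q c a (b + m) * conj (q c (a + n) b) := by
  rw [AC_eq]
  refine Finset.sum_congr rfl fun c _ => ?_
  rw [lag_neg (g := fun a a' => ∑ b : Fin B, ∑ b' : Fin B,
    if ((b : ℕ) : ℤ) - ((b' : ℕ) : ℤ) = (m : ℤ) then q c a b * conj (q c a' b') else 0)]
  · refine Finset.sum_congr rfl fun a _ => ?_
    exact lag_pos (g := fun b b' => q c a b * conj (q c (a + n) b'))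
      (fun b b' h => by rw [hq _ _ _ (Or.inr h), zero_mul]) m
  · intro a a' h
    apply Finset.sum_eq_zero
    intro b _
    apply Finset.sum_eq_zero
    intro b' _
    rw [hq _ _ _ (Or.inl h), map_zero, mul_zero, ite_self]

/-- the lags `0, 2` of the base polynomial in steps of `3`. -/
def Eg (x : ℂ) (p : ℝ) (n : ℕ) : ℂ :=
  if n = 0 then 1 + x * conj x * ((1 / p : ℝ) : ℂ) ^ 2
  else if n = 2 then -(conj x * ((1 / p : ℝ) : ℂ)) else 0

lemma Eg_eq (x : ℂ) (p : ℝ) (n : ℕ) : G1 x p (-((3 * n : ℕ) : ℤ)) = Eg x p n := by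
  unfold G1 Eg
  by_cases h0 : n = 0
  · rw [if_pos h0, if_pos (by omega)]
  · rw [if_neg h0, if_neg (by omega), if_neg (by omega)]
    by_cases h2 : n = 2
    · rw [if_pos h2, if_pos (by omega)]
    · rw [if_neg h2, if_neg (by omega)]

lemma Eg_conj (x : ℂ) (p : ℝ) (n : ℕ) : G1 x p ((3 * n : ℕ) : ℤ) = conj (Eg x p n) := by
  rw [← Eg_eq, ← G1_conj, neg_neg]

/-- **All lags divisible by `3`.** -/
lemma AC_all {A B : ℕ} {q : Fin 3 → ℕ → ℕ → ℂ} (hq : ∀ c a b, A ≤ a ∨ B ≤ b → q c a b = 0)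
    {x1 x2 : ℂ} {p1 p2 : ℝ}
    (h1 : ∀ n m : ℕ, ∑ c : Fin 3, ∑ a ∈ Finset.range A, ∑ b ∈ Finset.range B,
      q c a b * conj (q c (a + 3 * n) (b + 3 * m)) = Eg x1 p1 n * Eg x2 p2 m)
    (h2 : ∀ n m : ℕ, ∑ c : Fin 3, ∑ a ∈ Finset.range A, ∑ b ∈ Finset.range B,
      q c a (b + 3 * m) * conj (q c (a + 3 * n) b) = Eg x1 p1 n * conj (Eg x2 p2 m))
    {i l : ℤ} (hi : (3 : ℤ) ∣ i) (hl : (3 : ℤ) ∣ l) : AC A B q i l = G1 x1 p1 i * G1 x2 p2 l := by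
  have key : ∀ (n : ℕ) (l : ℤ), (3 : ℤ) ∣ l →
      AC A B q (-((3 * n : ℕ) : ℤ)) l = G1 x1 p1 (-((3 * n : ℕ) : ℤ)) * G1 x2 p2 l := by
    intro n l hl
    obtain ⟨l', rfl⟩ := hl
    rcases Int.eq_nat_or_neg l' with ⟨m, h | h⟩
    · have e : (3 : ℤ) * l' = ((3 * m : ℕ) : ℤ) := by rw [h]; push_cast; ring
      rw [e, AC_np hq, h2, Eg_eq, Eg_conj]
    · have e : (3 : ℤ) * l' = -((3 * m : ℕ) : ℤ) := by rw [h]; push_cast; ring
      rw [e, AC_nn hq, h1, Eg_eq, Eg_eq]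
  obtain ⟨i', rfl⟩ := hi
  rcases Int.eq_nat_or_neg i' with ⟨n, h | h⟩
  · have e : (3 : ℤ) * i' = -(-((3 * n : ℕ) : ℤ)) := by rw [h]; push_cast; ring
    rw [e, ← neg_neg l, AC_conj, key n (-l) ((dvd_neg).mpr hl), map_mul, ← G1_conj, ← G1_conj]
  · have e : (3 : ℤ) * i' = -((3 * n : ℕ) : ℤ) := by rw [h]; push_cast; ring
    rw [e]
    exact key n l hl

/-! ### The identity `auto` -/

variable {N x R0 : Eis} {s w0 : ℂ} {ψ γ ξ : Eis → ℂ}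

/-- ratio weights. -/
def TR (R : ℂ → ℂ) (i l : ℤ) : ℂ := R ((2 : ℂ) ^ i * toC lam ^ l)

lemma left_lags {A B : ℕ} (R : ℂ → ℂ) (q : Fin 3 → ℕ → ℕ → ℂ)
    (hq : ∀ c a b, c ≠ 0 → q c a b = 0) :
    ∑ j : Glue681.JJ A B, ∑ j' : Glue681.JJ A B,
      q j.1 j.2.1 j.2.2 * conj (q j'.1 j'.2.1 j'.2.2) * R (toC (mo j) / toC (mo j')) =
      ∑ t ∈ lagS A B, AC A B q t.1 t.2 * TR R t.1 t.2 := by
  have e : ∀ j j' : Glue681.JJ A B,
      q j.1 j.2.1 j.2.2 * conj (q j'.1 j'.2.1 j'.2.2) * R (toC (mo j) / toC (mo j')) =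
      (if j.1 = j'.1 then q j.1 j.2.1 j.2.2 * conj (q j'.1 j'.2.1 j'.2.2) else 0) *
        TR R (((j.2.1 : ℕ) : ℤ) - ((j'.2.1 : ℕ) : ℤ)) (((j.2.2 : ℕ) : ℤ) - ((j'.2.2 : ℕ) : ℤ)) := by
    intro j j'
    by_cases h : j.1 = j'.1
    · rw [if_pos h, mo_ratio h]
      rfl
    · rw [if_neg h, zero_mul]
      by_cases h0 : j.1 = 0
      · rw [hq j'.1 _ _ (fun h' => h (h0.trans h'.symm)), map_zero, mul_zero, zero_mul]
      · rw [hq j.1 _ _ h0, zero_mul, zero_mul]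
  simp_rw [e]
  rw [regroup]
  refine Finset.sum_congr rfl fun t _ => ?_
  congr 1
  unfold AC
  refine Finset.sum_congr rfl fun j _ => Finset.sum_congr rfl fun j' _ => ?_
  by_cases h : j.1 = j'.1
  · simp only [h, if_true, true_and]
  · simp only [h, if_false, false_and, ite_self]

lemma sum_cls {ι : Type*} [Fintype ι] [DecidableEq ι] (u v : ι) (y z : ℂ) :
    ∑ k : ι, (if u = k then y else 0) * conj (if v = k then z else 0) =
      if u = v then y * conj z else 0 := by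
  by_cases h : u = v
  · subst h
    rw [if_pos rfl, Finset.sum_eq_single u]
    · rw [if_pos rfl, if_pos rfl]
    · intro k _ hk
      rw [if_neg hk.symm, zero_mul]
    · intro h
      exact absurd (Finset.mem_univ _) h
  · rw [if_neg h]
    apply Finset.sum_eq_zero
    intro k _
    by_cases hk : u = k
    · rw [if_neg (show ¬ v = k from fun h' => h (hk.trans h'.symm)), map_zero, mul_zero]
    · rw [if_neg hk, zero_mul]

lemma cR_eq {A B : ℕ} (k : K3) (j : Glue681.JJ A B) :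
    cR N x s w0 ψ γ ξ R0 k j =
      if (((j.1 : ℕ) : ZMod 3), ((j.2.1 : ℕ) : ZMod 3), ((j.2.2 : ℕ) : ZMod 3)) = k
        then qT (ξ 2) (ξ lam) (Vt N x s w0 ψ γ R0) j.1 j.2.1 j.2.2 else 0 :=
  qT_cls (ξ 2) (ξ lam) (Vt N x s w0 ψ γ R0) k j.1 j.2.1 j.2.2

lemma right_lags {A B : ℕ} (R : ℂ → ℂ) (q : Fin 3 → ℕ → ℕ → ℂ) :
    ∑ k : K3, ∑ j : Glue681.JJ A B, ∑ j' : Glue681.JJ A B,
      (if (((j.1 : ℕ) : ZMod 3), ((j.2.1 : ℕ) : ZMod 3), ((j.2.2 : ℕ) : ZMod 3)) = k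
        then q j.1 j.2.1 j.2.2 else 0) *
      conj (if (((j'.1 : ℕ) : ZMod 3), ((j'.2.1 : ℕ) : ZMod 3), ((j'.2.2 : ℕ) : ZMod 3)) = k
        then q j'.1 j'.2.1 j'.2.2 else 0) * R (toC (mo j) / toC (mo j')) =
      ∑ t ∈ lagS A B, (if (3 : ℤ) ∣ t.1 ∧ (3 : ℤ) ∣ t.2 then AC A B q t.1 t.2 else 0) *
        TR R t.1 t.2 := by
  rw [Finset.sum_comm]
  have e : ∀ j : Glue681.JJ A B, ∑ k : K3, ∑ j' : Glue681.JJ A B,
      (if (((j.1 : ℕ) : ZMod 3), ((j.2.1 : ℕ) : ZMod 3), ((j.2.2 : ℕ) : ZMod 3)) = k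
        then q j.1 j.2.1 j.2.2 else 0) *
      conj (if (((j'.1 : ℕ) : ZMod 3), ((j'.2.1 : ℕ) : ZMod 3), ((j'.2.2 : ℕ) : ZMod 3)) = k
        then q j'.1 j'.2.1 j'.2.2 else 0) * R (toC (mo j) / toC (mo j')) =
      ∑ j' : Glue681.JJ A B, (if j.1 = j'.1 ∧
        (3 : ℤ) ∣ ((j.2.1 : ℕ) : ℤ) - ((j'.2.1 : ℕ) : ℤ) ∧
        (3 : ℤ) ∣ ((j.2.2 : ℕ) : ℤ) - ((j'.2.2 : ℕ) : ℤ) then
          q j.1 j.2.1 j.2.2 * conj (q j'.1 j'.2.1 j'.2.2) else 0) *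
        TR R (((j.2.1 : ℕ) : ℤ) - ((j'.2.1 : ℕ) : ℤ)) (((j.2.2 : ℕ) : ℤ) - ((j'.2.2 : ℕ) : ℤ)) := by
    intro j
    rw [Finset.sum_comm]
    refine Finset.sum_congr rfl fun j' _ => ?_
    rw [← Finset.sum_mul, sum_cls]
    have hc : ((((j.1 : ℕ) : ZMod 3), ((j.2.1 : ℕ) : ZMod 3), ((j.2.2 : ℕ) : ZMod 3)) =
        (((j'.1 : ℕ) : ZMod 3), ((j'.2.1 : ℕ) : ZMod 3), ((j'.2.2 : ℕ) : ZMod 3))) ↔
        (j.1 = j'.1 ∧ (3 : ℤ) ∣ ((j.2.1 : ℕ) : ℤ) - ((j'.2.1 : ℕ) : ℤ) ∧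
        (3 : ℤ) ∣ ((j.2.2 : ℕ) : ℤ) - ((j'.2.2 : ℕ) : ℤ)) := by
      rw [Prod.mk.injEq, Prod.mk.injEq, cast3, castN, castN]
    by_cases h : j.1 = j'.1 ∧ (3 : ℤ) ∣ ((j.2.1 : ℕ) : ℤ) - ((j'.2.1 : ℕ) : ℤ) ∧
        (3 : ℤ) ∣ ((j.2.2 : ℕ) : ℤ) - ((j'.2.2 : ℕ) : ℤ)
    · rw [if_pos h, if_pos (hc.mpr h), mo_ratio h.1]
      rfl
    · rw [if_neg h, if_neg (fun h' => h (hc.mp h')), zero_mul, zero_mul]
  simp_rw [e]
  rw [regroup]
  refine Finset.sum_congr rfl fun t _ => ?_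
  congr 1
  unfold AC
  by_cases ht : (3 : ℤ) ∣ t.1 ∧ (3 : ℤ) ∣ t.2
  · rw [if_pos ht]
    refine Finset.sum_congr rfl fun j _ => Finset.sum_congr rfl fun j' _ => ?_
    by_cases h1 : ((j.2.1 : ℕ) : ℤ) - ((j'.2.1 : ℕ) : ℤ) = t.1 ∧
        ((j.2.2 : ℕ) : ℤ) - ((j'.2.2 : ℕ) : ℤ) = t.2
    · rw [if_pos h1, h1.1, h1.2]
      simp only [ht.1, ht.2, and_true]
    · rw [if_neg h1, if_neg (fun h' => h1 h'.2)]
  · rw [if_neg ht]
    apply Finset.sum_eq_zero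
    intro j _
    apply Finset.sum_eq_zero
    intro j' _
    by_cases h1 : ((j.2.1 : ℕ) : ℤ) - ((j'.2.1 : ℕ) : ℤ) = t.1 ∧
        ((j.2.2 : ℕ) : ℤ) - ((j'.2.2 : ℕ) : ℤ) = t.2
    · rw [if_pos h1, h1.1, h1.2, if_neg (fun h' => ht h'.2)]
    · rw [if_neg h1]

/-- **`auto`** from the lags divisible by `3`. -/
theorem auto_of_lags {A B : ℕ} (hA : 7 ≤ A) (hB : 7 ≤ B)
    (hq : ∀ c a b, A ≤ a ∨ B ≤ b → qT (ξ 2) (ξ lam) (Vt N x s w0 ψ γ R0) c a b = 0)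
    (h1 : ∀ n m : ℕ, ∑ c : Fin 3, ∑ a ∈ Finset.range A, ∑ b ∈ Finset.range B,
      qT (ξ 2) (ξ lam) (Vt N x s w0 ψ γ R0) c a b *
        conj (qT (ξ 2) (ξ lam) (Vt N x s w0 ψ γ R0) c (a + 3 * n) (b + 3 * m)) =
      Eg (ξ 2) (nm 2) n * Eg (ξ lam) (nm lam) m)
    (h2 : ∀ n m : ℕ, ∑ c : Fin 3, ∑ a ∈ Finset.range A, ∑ b ∈ Finset.range B,
      qT (ξ 2) (ξ lam) (Vt N x s w0 ψ γ R0) c a (b + 3 * m) *
        conj (qT (ξ 2) (ξ lam) (Vt N x s w0 ψ γ R0) c (a + 3 * n) b) =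
      Eg (ξ 2) (nm 2) n * conj (Eg (ξ lam) (nm lam) m)) (R : ℂ → ℂ) :
    ∑ k : K3, ∑ j : Glue681.JJ A B, ∑ j' : Glue681.JJ A B,
      cR N x s w0 ψ γ ξ R0 k j * conj (cR N x s w0 ψ γ ξ R0 k j') * R (toC (mo j) / toC (mo j')) =
      ∑ j : Glue681.JJ A B, ∑ j' : Glue681.JJ A B,
        cL ξ j * conj (cL ξ j') * R (toC (mo j) / toC (mo j')) := by
  simp_rw [cR_eq]
  rw [right_lags R (qT (ξ 2) (ξ lam) (Vt N x s w0 ψ γ R0))]
  have hL := left_lags (A := A) (B := B) R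
    (fun c a b => if c = 0 then pg (ξ 2) (nm 2) a * pg (ξ lam) (nm lam) b else 0)
    (fun c a b hc => if_neg hc)
  have hL' : ∑ j : Glue681.JJ A B, ∑ j' : Glue681.JJ A B,
        cL ξ j * conj (cL ξ j') * R (toC (mo j) / toC (mo j')) =
      ∑ t ∈ lagS A B, AC A B
        (fun c a b => if c = 0 then pg (ξ 2) (nm 2) a * pg (ξ lam) (nm lam) b else 0) t.1 t.2 *
        TR R t.1 t.2 := hL
  rw [hL']
  refine Finset.sum_congr rfl fun t _ => ?_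
  congr 1
  rw [AC_prod, AC1_pg hA, AC1_pg hB]
  split_ifs with ht
  · exact AC_all hq h1 h2 ht.1 ht.2
  · rw [not_and_or] at ht
    have hz : ∀ (y : ℂ) (p : ℝ) (i : ℤ), ¬ (3 : ℤ) ∣ i → G1 y p i = 0 := by
      intro y p i hi
      unfold G1
      rw [if_neg (by rintro rfl; exact hi (dvd_zero _)), if_neg (by rintro rfl; exact hi ⟨2, by norm_num⟩),
        if_neg (by rintro rfl; exact hi ⟨-2, by norm_num⟩)]
    rcases ht with h | h
    · rw [hz _ _ _ h, zero_mul]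
    · rw [hz _ _ _ h, mul_zero]

end Crest.Agent.R017.Norm358
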