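import Crest.Agent.R017.NormD_358
import Crest.Agent.R017.NormF_358

/-!
# Row 17, section A: the functional equation of `rowA` from the finite identity (helper358)

* `qT_supp'` : support of the polynomial of `Vt`
* `Lags` : the two autocorrelation identities
* `nrm_wK` : the hypothesis `nrm` of `glueN`
* `feN` : the functional equation
-/

set_option autoImplicit false

noncomputable section

open Complex MeasureTheory
open scoped ComplexConjugate SchwartzMap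

namespace Crest.Agent.R017.Norm358

open Crest.Agent.R012 Crest.Agent.R012.Eis Crest.Agent.R012.K695 Crest.Agent.R012.AU681
  Crest.Agent.R012.Gauss880 Crest.Agent.R017.Loc266
  Crest.Agent.R012.Parseval499 Crest.Agent.R017.Orth681 Crest.Agent.R017.Xn590
  Crest.Agent.R017.Glue681 Crest.Agent.R017.Rw266 Crest.Agent.R017.GlueV266

variable {N x R0 : Eis} {s w0 : ℂ} {ψ γ ξ : Eis → ℂ}

theorem qT_supp' (hN : Lev N) (hψ : IsCh N ψ) (hγ : Gm N γ)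
    {m : Eis} (X : XiN N ψ γ m ξ) (R : Glue681.RR N R0) {r2 rl : ℕ}
    (L : Lvl2 N r2 rl) (c : Fin 3) (a b : ℕ) (h : r2 + 6 ≤ a ∨ rl + 6 ≤ b) :
    qT (ξ 2) (ξ lam) (Vt N x s w0 ψ γ R0) c a b = 0 := by
  have h1 := qT_supp hN (x := x) (s := s) hψ hγ X R (w0 := w0) L
    (((c : ℕ) : ZMod 3), (a : ZMod 3), (b : ZMod 3)) c a b h
  have h2 := qT_cls (ξ 2) (ξ lam) (Vt N x s w0 ψ γ R0)
    (((c : ℕ) : ZMod 3), (a : ZMod 3), (b : ZMod 3)) c a b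
  rw [if_pos rfl] at h2
  rw [← h2]
  exact h1

/-- **The two autocorrelation identities** for a table `q` supported in `a < A`, `b < B`. -/
structure Lags (A B : ℕ) (x1 x2 : ℂ) (p1 p2 : ℝ) (q : Fin 3 → ℕ → ℕ → ℂ) : Prop where
  nn : ∀ n m : ℕ, ∑ c : Fin 3, ∑ a ∈ Finset.range A, ∑ b ∈ Finset.range B,
      q c a b * conj (q c (a + 3 * n) (b + 3 * m)) = Eg x1 p1 n * Eg x2 p2 m
  np : ∀ n m : ℕ, ∑ c : Fin 3, ∑ a ∈ Finset.range A, ∑ b ∈ Finset.range B,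
      q c a (b + 3 * m) * conj (q c (a + 3 * n) b) = Eg x1 p1 n * conj (Eg x2 p2 m)

/-- **`nrm`** -/
theorem nrm_wK (hN : Lev N) (hs : s = 1 ∨ s = -1) (hψ : IsCh N ψ) (hγ : Gm N γ) {m : Eis}
    (X : XiN N ψ γ m ξ) (R : Glue681.RR N R0)
    {r2 rl : ℕ} (L : Lvl2 N r2 rl) (h2 : 1 ≤ r2) (hl : 1 ≤ rl) {f : ℂ → ℂ} {kp c0' : ℂ} {V : ℝ}
    (P : XiP ξ kp c0') {B0 B0' : ℂ} (C : XnC 6 s kp V (toC R0) B0 B0') (hf : DatN 6 s ξ f)
    (k0 : 𝓢(ℂ, ℂ)) (hp : PairW s (baseW 6 R0 s w0 ξ)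
      (fun h => s * conj (baseW 6 R0 s w0 ξ h)) (FPn 6 ξ f k0) (FOn 6 ξ V (toC R0) B0 f k0))
    (H : Lags (r2 + 6) (rl + 6) (ξ 2) (ξ lam) (nm 2) (nm lam)
      (qT (ξ 2) (ξ lam) (Vt N x s w0 ψ γ R0))) :
    ∑ k : K3, ∫ u, conj (FOn 6 ξ V (toC R0) B0
          (fRw N x s w0 ψ γ ξ R0 (r2 + 6) (rl + 6) f k) k0 u) *
        FOn 6 ξ V (toC R0) B0 (fRw N x s w0 ψ γ ξ R0 (r2 + 6) (rl + 6) f k) k0 u =
      ∫ u, conj (FPn 6 ξ (fLw ξ (r2 + 6) (rl + 6) f) k0 u) *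
        FPn 6 ξ (fLw ξ (r2 + 6) (rl + 6) f) k0 u := by
  have h := nrm_of_auto (κ := K3) (J := Glue681.JJ (r2 + 6) (rl + 6)) hs hp
    (c := fun j => toC (mo j)) (fun j => moC_ne j) (cL ξ) (fun k => cR N x s w0 ψ γ ξ R0 k)
    (fun T _ _ => auto_of_lags (by omega) (by omega)
      (fun c a b hab => qT_supp' hN hψ hγ X R L c a b hab) H.nn H.np T)
  simp_rw [FPn_fLw hf, FOn_fRw P C hf]
  exact h

/-- **The functional equation of `rowA`.** -/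
theorem feN (hN : Lev N) (hs : s = 1 ∨ s = -1) (hψ : IsCh N ψ) (hγ : Gm N γ) {m : Eis}
    (X : XiN N ψ γ m ξ) (R : Glue681.RR N R0)
    (hpure : ∀ p, Prime p → p ∣ N → ¬ (2 : Eis) ∣ p → ¬ lam ∣ p → ξ p = 0)
    (hV : Van N x s ψ γ (cl3 R0)) (hw0 : w0 ≠ 0)
    {r2 rl : ℕ} (L : Lvl2 N r2 rl) (h2 : 1 ≤ r2) (hl : 1 ≤ rl) {f : ℂ → ℂ} {kp c0' : ℂ} {V : ℝ}
    (P : XiP ξ kp c0') {B0 B0' : ℂ} (C : XnC 6 s kp V (toC R0) B0 B0') (hf : DatN 6 s ξ f)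
    (k0 : 𝓢(ℂ, ℂ)) (hp : PairW s (baseW 6 R0 s w0 ξ)
      (fun h => s * conj (baseW 6 R0 s w0 ξ h)) (FPn 6 ξ f k0) (FOn 6 ξ V (toC R0) B0 f k0))
    (H : Lags (r2 + 6) (rl + 6) (ξ 2) (ξ lam) (nm 2) (nm lam)
      (qT (ξ 2) (ξ lam) (Vt N x s w0 ψ γ R0)))
    {e μ : ℂ} (he : ‖e‖ = 1) (hμ : ‖μ‖ = 1) (hμ2 : μ ^ 2 ≠ 1) (rot : ∀ y, f (e * y) = μ * f y)
    {M : K695.Frm} (hM : det2 M ≠ 0) :
    EC (rowA N x (fun c => ψ c * γ c)) (FPn 6 ξ (fLw ξ (r2 + 6) (rl + 6) f) k0) M =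
      ∑ k : K3, EC (rowA N x (gdual ψ γ (R0 * rep3 k))) (F1.scl (det2 M)
        (FOn 6 ξ V (toC R0) B0 (fRw N x s w0 ψ γ ξ R0 (r2 + 6) (rl + 6) f k) k0)) M := by
  have hμ0 : μ ≠ 0 := by
    rintro rfl
    rw [norm_zero] at hμ
    exact zero_ne_one hμ
  have CL := cls3 hN R.ss
  refine glueN hN.ne (χ := chiA N) (norm_chiA hN) (Rg := RgA N) (s := s)
    (W := wK N x s ψ γ (cl3 R0)) (cof_psi hN x hψ hγ)
    (fun k => cof_gdual hN x hψ hγ (CL.ss0.mul (CL.ss k)))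
    (fun g hg => rowA_ne_zero hg) (fun k g hg => rowA_ne_zero hg)
    (lawV_fwd hN hψ hγ CL hV) (fun g hg => unitAt_rowA hg) (fun k g hg => unitAt_rowA hg)
    (tst_L hf hp) (fun k => tst_R P C hf k0 hp k) (fun k => bdd_wK hN hs hψ hγ k)
    (fun k M hM => m1_wK hN hs hψ hγ X R hpure hw0 L h2 hl P C hf k0 hp k M hM)
    he hμ hμ2 ?_ ?_ (gramA hN hψ hγ) (fun k l => gramD hN hψ hγ R.ss k l)
    (nrm_wK hN hs hψ hγ X R L h2 hl P C hf k0 hp H) hM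
  · exact fun u => rot_FPn he (lin_rot rot _ _) k0 u
  · exact fun k u => rot_FOn he hμ0 (lin_rot rot _ _) k0 u

end Crest.Agent.R017.Norm358
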