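import Crest.Agent.R017.FinA4_266
import Crest.Agent.R017.NormG_358
import Crest.Agent.R017.EndA0_92

/-!
# Row 17, sextic F2: the interface of the end (helper266)

* `LagsD` : the lag identities for the data `DatA`
* `endHyp_of_lags` : `EndHyp M ψ0 l` from the lag identities
-/

set_option autoImplicit false

noncomputable section

open Complex
open scoped ComplexConjugate SchwartzMap

namespace Crest.Agent.R017.FinA266

open Crest.Agent.R012 Crest.Agent.R012.Eis Crest.Agent.R012.K695 Crest.Agent.R012.Gauss880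
open Crest.Agent.R017.Loc266
open Crest.Agent.R012.Parseval499 Crest.Agent.R017.Orth681
open Crest.Agent.R017.Sx440 Crest.Agent.R017.Sx545 Crest.Agent.R017.Kub664 Crest.Agent.R017.Tw266
open Crest.Agent.R017.Rw266 Crest.Agent.R017.GG90
open Crest.Agent.R017.GLm74 Crest.Agent.R017.GLn74 Crest.Agent.R017.Glue681
open Crest.Agent.R017.Xn590 Crest.Agent.R017.QS411 Crest.Agent.R017.Norm358
open Crest.Agent.R017.EndA92 Crest.Agent.R017.Wt92 Crest.Agent.R017.Coef92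
open Crest.Agent.R017.XiI590 (lin datN_lin datN_zero)
open Crest.Agent.R017.End699 (HC)

variable {M A e m1 R0 m : Eis} {ψ0 ψ ξ : Eis → ℂ} {r t : ℕ} {c : ℂ} {s : ℂ}

/-- **the lag identities**, all `x` prime to `N`, both parities. -/
def LagsD (r t : ℕ) (A : Eis) (ψ : Eis → ℂ) (R0 m : Eis) (ξ : Eis → ℂ) : Prop :=
  ∀ x, IsCoprime x (lvN r t A) → ∀ s : ℂ, (s = 1 ∨ s = -1) →
    Lags (r + 6) (t + 6) (ξ 2) (ξ lam) (nm 2) (nm lam)
      (qT (ξ 2) (ξ lam) (Vt (lvN r t A) x s (w00 m) ψ gk R0))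

lemma exists_rot {L : ℤ} (hL : L ≠ 0) : ∃ e : ℂ, ‖e‖ = 1 ∧ (e ^ L) ^ 2 ≠ 1 := by
  have hLr : (L : ℝ) ≠ 0 := by exact_mod_cast hL
  have hLc : (L : ℂ) ≠ 0 := by exact_mod_cast hL
  refine ⟨Complex.exp (((Real.pi / (2 * L) : ℝ) : ℂ) * I), Complex.norm_exp_ofReal_mul_I _, ?_⟩
  rw [← Complex.exp_int_mul, ← Complex.exp_nat_mul]
  have : ((2 : ℕ) : ℂ) * ((L : ℂ) * (((Real.pi / (2 * L) : ℝ) : ℂ) * I)) = Real.pi * I := by
    push_cast
    field_simp
  rw [this, Complex.exp_pi_mul_I]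
  norm_num

lemma zpow_par (L : ℤ) : ((-1 : ℂ) ^ L = 1) ∨ ((-1 : ℂ) ^ L = -1) := by
  rcases Int.even_or_odd L with h | h
  · exact Or.inl h.neg_one_zpow
  · exact Or.inr h.neg_one_zpow

lemma scl_one (F : Vec → ℂ) : F1.scl 1 F = F := by
  funext u
  unfold F1.scl
  simp

/-- **`EndHyp`** from the lag identities. -/
theorem DatA.endHyp (D : DatA M ψ0 r t A e ψ m1 R0 m ξ c) {l : ℤ}
    (hl : l ≠ -1) (hL : LagsD r t A ψ R0 m ξ) : EndHyp M ψ0 l := by
  have hN := D.lv.lev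
  refine ⟨lvN r t A, ψ, ξ, toC sq3 * toC m, c, r + 6, t + 6, hN, D.lv.pr, D.ch, D.row, D.xip,
    D.xi.u, fun b hb => ?_, by have := D.lv.r4; omega, by have := D.lv.t5; omega, fun x hx => ?_⟩
  · have hbN : IsCoprime b (lvN r t A) := (D.lv.cop b).mpr hb.2
    have hg : Gd b := ⟨hb.1, od_of_cop_lev hN hbN⟩
    rw [D.xi_six hbN, row_six hN D.row hg hbN, ← map_pow, Complex.conj_conj]
  · set L : ℤ := -(l + 1) with hLdef
    have hL0 : L ≠ 0 := by omega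
    have hs := zpow_par L
    set s : ℂ := (-1) ^ L with hsdef
    have hbase : ∀ {f : ℂ → ℂ}, DatN 6 s ξ f → ∀ k0 : 𝓢(ℂ, ℂ), _ := fun hf k0 =>
      pair_base6 D.xip D.xi.u hs D.rr.ss.ne D.w00_eq one_pos hf k0
    have e1 : w00 m * (2 * ((1 : ℝ) : ℂ)) = w00 m * 2 := by push_cast; ring
    rw [e1] at hbase
    refine ⟨K3, JJ (r + 6) (t + 6), inferInstance, inferInstance, 1, toC R0, w00 m * 2, _,
      fun k => R0 * rep3 k,
      fun k j => cR (lvN r t A) x s (w00 m) ψ gk ξ R0 k j * ((‖toC (mo j)‖ ^ 2 : ℝ) : ℂ),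
      fun j => toC (mo j), (hbase datN_zero 0).1, fun k => D.rr.ss.mul (ss_e3 hN _ _ _),
      fun j => moC_ne j, fun f hf hrot k0 y => ?_⟩
    obtain ⟨u, hu1, hu2⟩ := exists_rot hL0
    obtain ⟨hC, hp⟩ := hbase hf k0
    have hmu : ‖u ^ L‖ = 1 := by rw [norm_zpow, hu1, one_zpow]
    have C := D.ctx hs hx
    have key := feN hN hs D.ch D.gm D.xi D.rr C.pure (D.van hx) C.w0_ne C.lvl C.h2 C.hl D.xip hC
      hf k0 hp (hL x hx s hs) hu1 hmu hu2 (fun y => hrot u hu1 y)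
      (M := stF y) (by rw [det2_stF]; exact one_ne_zero)
    rw [det2_stF] at key
    simp only [scl_one] at key
    exact key

/-- **`StepPure`** from the lag identities and the end. -/
theorem stepPure_of
    (hE : ∀ (M : Eis) (ψ0 : Eis → ℂ) (l : ℤ), (36 : Eis) ∣ M → HC M ψ0 → l ≠ -1 →
      EndHyp M ψ0 l → A590.HasFE M ψ0 l)
    (hL : ∀ {M : Eis} {ψ0 : Eis → ℂ} {r t : ℕ} {A e : Eis} {ψ : Eis → ℂ} {m1 R0 m : Eis}
      {ξ : Eis → ℂ} {c : ℂ}, DatA M ψ0 r t A e ψ m1 R0 m ξ c → LagsD r t A ψ R0 m ξ) :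
    A590.StepPure := by
  intro M h36 ψ0 h0 hP l hl
  obtain ⟨r, t, A, e, ψ, m1, R0, m, ξ, c, D⟩ := exists_datA h36 h0 hP
  exact hE M ψ0 l h36 h0 hl (D.endHyp hl (hL D))

end Crest.Agent.R017.FinA266
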