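import Crest.Agent.R017.NH7_499
import Crest.Agent.R017.EndA5_92
import Crest.Agent.R017.FinA5_266
import Crest.Agent.R017.BTopA_347

/-!
# Row 17, section A: the functional equation with `l' = -(l + 2)`, part 2 (helper347)

Copies of `EndA5_92`, `FinA5_266`, `SecA_499` with the additional relation:
* `secAQ : ∀ M, 36 ∣ M → F2xQ M`
-/

set_option autoImplicit false

noncomputable section

open MeasureTheory Complex Set Filter
open scoped ComplexConjugate SchwartzMap ContDiff Topology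

namespace Crest.Agent.R017.EndA92

open Crest.Agent.R012 Crest.Agent.R012.Eis Crest.Agent.R012.K695 Crest.Agent.R012.Gauss880
open Crest.Agent.R012.Mob705
open Crest.Agent.R012.Parseval499 Crest.Agent.R012.FourCoef499
open Crest.Agent.R017.Xn590 Crest.Agent.R017.Coef92 Crest.Agent.R017.Orth681
open Crest.Agent.R017.Glue681 Crest.Agent.R017.Wt92 Crest.Agent.R017.XiI590
open Crest.Agent.R017.B770 Crest.Agent.R017.A590 Crest.Agent.R017.Rw266
open Crest.Agent.R017.Sx440 Crest.Agent.R017.Sx545 Crest.Agent.R017.Loc266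
open Crest.Agent.R017.FinA266 Crest.Agent.R017.QS411 Crest.Agent.R017.Tw266 Crest.Agent.R017.Kub664
open Crest.Agent.R017.End699 (HC)
open Crest.Agent.R017.HcExp266 (isUnit_mkQ exists_hc_expansion hc_of_isCh)

variable {N x : Eis} {s κx : ℂ} {ξ ψ γ : Eis → ℂ} {L : ℤ} {A B : ℕ}

open Classical in
/-- **End of A.** -/
theorem hasFEQ_of_endHyp (M : Eis) (ψ0 : Eis → ℂ) (l : ℤ) (h36 : (36 : Eis) ∣ M) (h0 : HC M ψ0)
    (hl : l ≠ -1) (h : EndHyp M ψ0 l) : HasFEQ M ψ0 l := by
  obtain ⟨N, ψ, ξ, κx, cx, A, B, hN, hpr, hψ, hrow, hP, hu, hξψ, hA, hB, hX⟩ := h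
  have hM := h0.q0
  have h3 := h0.three
  have h2 : (2 : Eis) ∣ M := Dvd.dvd.trans ⟨18, by norm_num⟩ h36
  have hcop : ∀ c, IsCoprime c N ↔ IsCoprime c M := cop_of_primes hM hN.ne hpr
  have hSm : ∀ c, Sm M c ↔ (Gd c ∧ IsCoprime c N) := fun c =>
    ⟨fun hc => ⟨⟨hc.1, od_of_cop_lev hN ((hcop c).mpr hc.2)⟩, (hcop c).mpr hc.2⟩,
      fun hc => ⟨hc.1.1, (hcop c).mp hc.2⟩⟩
  obtain ⟨km, μ, d, hMob⟩ := exists_Mob hM
  have hγ : Gm N (fun c => conj (kap4 c)) := GmK411.gm_conj_kap4' hN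
  have hM' : M * N ≠ 0 := mul_ne_zero hM hN.ne
  have h3N : (3 : Eis) ∣ N := three_dvd_72.trans hN.d72
  have hcopM' : ∀ c, IsCoprime c N → IsCoprime c (M * N) := fun c hc =>
    ((hcop c).mp hc).mul_right hc
  have hL : -(l + 1) ≠ 0 := by omega
  -- the classes
  have hfin : Finite (QE N) := finite_QE hN.ne
  let X : Type := {q : QE N // IsUnit q}
  let _ : Fintype X := Fintype.ofFinite X
  have hrep : ∀ q : X, ∃ x, mkQ N x = q.1 ∧ IsCoprime x N := by
    rintro ⟨q, hq⟩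
    obtain ⟨x, rfl⟩ := mkQ_surjective N q
    exact ⟨x, rfl, isUnit_mkQ.mp hq⟩
  choose xr hxr hxc using hrep
  have hEn : ∀ q : X, Nonempty (EX N (xr q) ((-1) ^ (-(l + 1))) κx ξ ψ
      (fun c => conj (kap4 c)) (-(l + 1)) A B) := fun q => nonempty_EX (hX _ (hxc q))
  let E := fun q : X => Classical.choice (hEn q)
  have hD : ∀ (q : X) (k : (E q).K), ∃ ψ' : Eis → ℂ, IsCh N ψ' ∧
      ∀ c, Gd c → IsCoprime c N → ψ' c = psD N (gdual ψ (fun c => conj (kap4 c)) ((E q).hk k)) c :=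
    fun q k => exists_psD hN hψ hγ ((E q).ss k)
  choose ψD hψD1 hψD2 using hD
  have hI : ∀ q : X, ∃ (n : ℕ) (κ : Fin n → ℂ) (η : Fin n → Eis → ℂ), (∀ i, HC (M * N) (η i)) ∧
      ∀ a, IsPrim a → IsCoprime a (M * N) →
        (if N ∣ xr q + a then (1 : ℂ) else 0) = ∑ i, κ i * η i a := by
    intro q
    refine exists_hc_expansion hM' (h3.mul_right N) fun a b _ _ _ _ hab => ?_
    have hab' : N ∣ a - b := (dvd_mul_left N M).trans hab
    have : (N ∣ xr q + a) ↔ (N ∣ xr q + b) := by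
      constructor
      · intro h
        have := dvd_sub h hab'
        rwa [show xr q + a - (a - b) = xr q + b by ring] at this
      · intro h
        have := dvd_add h hab'
        rwa [show xr q + b + (a - b) = xr q + a by ring] at this
    simp only [this]
  choose nq κq ηq hηq hκq using hI
  refine ⟨Σ q : X, Fin (nq q) × ((E q).K × ((E q).J × Fin km)), JJ A B, inferInstance,
    inferInstance,
    { M' := M * N
      κ := fun i => κq i.1 i.2.1 * kR ξ l μ d (E i.1) i.2.2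
      η := fun i => ηq i.1 i.2.1
      ψ' := fun i => ψD i.1 i.2.2.1
      j := l + 1
      l' := -(l + 2)
      ρ := fun i => rhoD N (bD d (E i.1).br i.2.2.2)
      cL := cE N ξ l
      qL := qE }, ?_, ?_, rfl⟩
  · exact
      { ne := hM'
        dvd := dvd_mul_right M N
        rad := fun p hp hd => by
          rcases hp.dvd_or_dvd hd with h | h
          · exact h
          · exact (hpr p hp).mp h
        η := fun i => hηq i.1 i.2.1
        ψ' := fun i => hc_mono (hc_of_isCh hN.ne h3N (hψD1 i.1 i.2.2.1)) hM' (dvd_mul_left N M)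
          hcopM'
        ρ := fun i => rhoD_pos hN.ne (mul_ne_zero (hMob.b_ne _) ((E i.1).ne _))
        qL := fun j => one_le_qE j
        nz := fun s hs => nzE hN.ne hP.le1 hA hB l hs
        j0 := by show l + 1 ≠ 0; omega
        lj := by show -(l + 2) + 4 * (l + 1) ≠ 0; omega
        rel := by show -(l + 2) + (l + 1) = -1; ring }
  · intro V hV
    have hVD := vd_sw hV
    refine ⟨fun i => Wd ξ (E i.1).V (E i.1).h0 (E i.1).b0 (-(l + 1)) V,
      fun i => rd_Wd hP hVD (E i.1).C.h0 hL, ?_⟩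
    intro ν hν Q hQ τ
    have hν0 : ν ≠ 0 := ne_zero_of_sm hν
    have hνN : IsCoprime ν N := ((hSm ν).mp hν).2
    have hνM' : IsCoprime ν (M * N) := hcopM' ν hνN
    have hun : IsUnit (mkQ N (-ν)) := isUnit_mkQ.mpr hνN.neg_left
    set q0 : X := ⟨mkQ N (-ν), hun⟩ with hq0
    have hx0 : N ∣ xr q0 + ν := by
      have h1 := mkQ_eq_iff.mp (hxr q0)
      rwa [sub_neg_eq_add] at h1
    have hxq : ∀ q : X, N ∣ xr q + ν → q = q0 := by
      intro q hq
      apply Subtype.ext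
      rw [← hxr q, ← hxr q0, mkQ_eq_iff]
      have := dvd_sub hq hx0
      rwa [show xr q + ν - (xr q0 + ν) = xr q - xr q0 by ring] at this
    have key := class_FE (A := A) (B := B) (τ := τ) hVD hQ hl hP hu h2 h3 hMob hξψ hN hν0 hx0 hSm
      hψ hγ (hg_of hN hSm hrow) (E q0) (hψD2 q0)
    refine key.trans ?_
    congr 1
    rw [Fintype.sum_sigma]
    set S : X → ℂ := fun q => ∑ p : (E q).K × ((E q).J × Fin km),
        kR ξ l μ d (E q) p * ang (l + 1) ν *
          PsiF M (End699.tw (ψD q p.1) (-(l + 2))) ν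
            (Wd ξ (E q).V (E q).h0 (E q).b0 (-(l + 1)) V τ)
            (rhoD N (bD d (E q).br p.2) * nm ν / Q) with hS
    have e1 : ∀ q : X, ∑ y : Fin (nq q) × ((E q).K × ((E q).J × Fin km)),
        κq q y.1 * kR ξ l μ d (E q) y.2 * End699.tw (ηq q y.1) (l + 1) ν *
          PsiF M (End699.tw (ψD q y.2.1) (-(l + 2))) ν
            (Wd ξ (E q).V (E q).h0 (E q).b0 (-(l + 1)) V τ)
            (rhoD N (bD d (E q).br y.2.2) * nm ν / Q) =
        (if N ∣ xr q + ν then (1 : ℂ) else 0) * S q := by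
      intro q
      rw [hκq q ν hν.1 hνM', hS, Finset.sum_mul_sum, Fintype.sum_prod_type]
      refine Finset.sum_congr rfl fun i _ => Finset.sum_congr rfl fun p _ => ?_
      unfold End699.tw
      ring
    rw [Finset.sum_congr rfl fun q _ => e1 q, Finset.sum_eq_single q0]
    · rw [if_pos hx0, one_mul]
    · intro q _ hq
      rw [if_neg (fun h => hq (hxq q h)), zero_mul]
    · intro h; exact absurd (Finset.mem_univ _) h

end Crest.Agent.R017.EndA92

namespace Crest.Agent.R017.FinA266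

open Crest.Agent.R012 Crest.Agent.R012.Eis Crest.Agent.R012.K695 Crest.Agent.R012.Gauss880
open Crest.Agent.R017.Loc266
open Crest.Agent.R012.Parseval499 Crest.Agent.R017.Orth681
open Crest.Agent.R017.Sx440 Crest.Agent.R017.Sx545 Crest.Agent.R017.Kub664 Crest.Agent.R017.Tw266
open Crest.Agent.R017.Rw266 Crest.Agent.R017.GG90
open Crest.Agent.R017.GLm74 Crest.Agent.R017.GLn74 Crest.Agent.R017.Glue681
open Crest.Agent.R017.Xn590 Crest.Agent.R017.QS411 Crest.Agent.R017.Norm358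
open Crest.Agent.R017.EndA92 Crest.Agent.R017.Wt92 Crest.Agent.R017.Coef92
open Crest.Agent.R017.XiI590 (lin datN_lin datN_zero)
open Crest.Agent.R017.End699 (HC)

variable {M A e m1 R0 m : Eis} {ψ0 ψ ξ : Eis → ℂ} {r t : ℕ} {c : ℂ} {s : ℂ}

/-- **`StepPure`** from the lag identities and the end. -/
theorem stepPureQ_of
    (hE : ∀ (M : Eis) (ψ0 : Eis → ℂ) (l : ℤ), (36 : Eis) ∣ M → HC M ψ0 → l ≠ -1 →
      EndHyp M ψ0 l → A590.HasFEQ M ψ0 l)
    (hL : ∀ {M : Eis} {ψ0 : Eis → ℂ} {r t : ℕ} {A e : Eis} {ψ : Eis → ℂ} {m1 R0 m : Eis}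
      {ξ : Eis → ℂ} {c : ℂ}, DatA M ψ0 r t A e ψ m1 R0 m ξ c → LagsD r t A ψ R0 m ξ) :
    A590.StepPureQ := by
  intro M h36 ψ0 h0 hP l hl
  obtain ⟨r, t, A, e, ψ, m1, R0, m, ξ, c, D⟩ := exists_datA h36 h0 hP
  exact hE M ψ0 l h36 h0 hl (D.endHyp hl (hL D))

end Crest.Agent.R017.FinA266

namespace Crest.Agent.R017.BTop347

open Crest.Agent.R012.Eis

/-- **`StepPureQ`** -/
theorem stepPureQ : A590.StepPureQ :=
  FinA266.stepPureQ_of EndA92.hasFEQ_of_endHyp NH499.lagsD

/-- **section A** with `l' = -(l + 2)` -/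
theorem secAQ (M : Crest.Agent.R012.Eis) (h : (36 : Crest.Agent.R012.Eis) ∣ M) : A590.F2xQ M :=
  A590.f2xQ_of_stepPure A590.thetaP stepPureQ M h

end Crest.Agent.R017.BTop347
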