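import Crest.Agent.R017.BDefs3_770

/-!
# Row 17, top: D-OUT and the natural bound for a class `Q` of data (helper986)

* `D3b θ r y δ η P`, `N3b θ r y δ η η' P` : the bodies of `DOUT3i`, `NatNP3` at one `P`
* `DOUT3iQ Q`, `DOUT3Q Q`, `NatNP3Q Q`
-/

set_option autoImplicit false

noncomputable section

open MeasureTheory Complex Set
open scoped ComplexConjugate ContDiff

namespace Crest.Agent.R017.B770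

open Crest.Agent.R012 Crest.Agent.R012.Eis Crest.Agent.R012.Mob705 Crest.Agent.R012.Gauss880
open Crest.Agent.R017.End699 Crest.Agent.R017.Sx440 Crest.Agent.R017.Sx545
open Crest.Agent.R017.Asm986

/-- the body of `DOUT3i` at `P` -/
def D3b (θ : ℝ) (r : ℕ) (y δ η : ℝ) (P : DPar) : Prop :=
  ∀ ε C₁ : ℝ, 0 < ε → 0 < C₁ → ∃ C A : ℝ, 0 ≤ C ∧ 0 ≤ A ∧
    ∀ (Q₀ Q : ℝ), 1 ≤ Q → Q ≤ Q₀ → ∀ κ : ℝ, -1 ≤ κ → κ ≤ δ * Real.log Q₀ →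
    ∀ (J : Finset (Fin r)) (H : ℝ), 0 < H → H ≤ Q₀ ^ (1 / 2 + (y + δ) + η) →
    ∀ d₁ d₂ d₃ e : Eis, d₁ ≠ 0 → d₂ ≠ 0 → d₃ ≠ 0 → Sm P.n e →
      (∀ p : Eis, Prime p → p ∣ e → p ^ 5 ∣ e) →
      Q * nm e ≤ C₁ * Q₀ * (CJ r y Q₀ J * Real.exp κ / Q₀ ^ (y + δ)) →
    ∀ (t₁ t₂ τ : ℝ) (𝒟 : Finset Eis), (∀ q ∈ 𝒟, Sm P.n q ∧ Squarefree q) →
    ∀ u v : Eis → ℝ, (∀ q, 0 ≤ u q ∧ u q ≤ C₁) → (∀ q, 0 ≤ v q ∧ v q ≤ C₁) →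
      ∑ q ∈ 𝒟, ‖P.ds r y Q₀ (κ - u q) J (Q * Real.exp (-(v q))) H d₁ d₂ d₃ e t₁ t₂ τ q‖ ≤
        C * ((nm d₁ : ℝ) * nm d₂ * nm d₃ * nm e * Q₀) ^ ε * (1 + |t₁| + |t₂| + |τ|) ^ A *
          TgB θ η (if δ / 2 * Real.log Q₀ ≤ κ then η else -η) (y + δ) Q₀ Q H
            (CJ r y Q₀ J * Real.exp κ)

/-- `DOUT3i` for the data in `Q` -/
def DOUT3iQ (Q : DPar → Prop) (θ : ℝ) (r : ℕ) (y δ η : ℝ) : Prop :=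
  ∀ P : DPar, P.OK → Q P → D3b θ r y δ η P

/-- `DOUT3` for the data in `Q` -/
def DOUT3Q (Q : DPar → Prop) (θ : ℝ) : Prop :=
  ∃ (r : ℕ) (y δ η : ℝ), 0 < r ∧ 0 < y ∧ 0 < δ ∧ y + δ < 1 ∧ δ ≤ 1 / 1000 ∧ 10 * δ ≤ y / r ∧
    0 < η ∧ η ≤ δ / 16 ∧ DOUT3iQ Q θ r y δ η

/-- the body of `NatNP3` at `P` -/
def N3b (θ : ℝ) (r : ℕ) (y δ η η' : ℝ) (P : DPar) : Prop := by
  classical
  exact ∀ ε : ℝ, 0 < ε → ∃ C A : ℝ, 0 ≤ C ∧ 0 ≤ A ∧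
    ∀ (Q₀ Q : ℝ), 1 ≤ Q → Q ≤ Q₀ → (nm P.n : ℝ) * Q₀ ^ δ * 9 < Q₀ ^ (y / r) →
    ∀ H : ℝ, 0 < H → H ≤ Q₀ ^ (1 / 2 + (y + δ) + η) → ∀ t₁ t₂ τ : ℝ,
      ‖∑' k : Eis, (if k ≠ 0 ∧ NPk P.n P.φ P.l₁ k then
        P.wk τ H k * NSumS P.h₀ P.h r y Q₀ (δ * Real.log Q₀) Finset.univ P.n
          (twt P.ψ P.l₂ t₂) (twt P.φ P.l₁ t₁) P.V Q k else 0)‖ ≤
        C * Q₀ ^ ε * (1 + |t₁| + |t₂| + |τ|) ^ A *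
          TgB θ η' η' (y + δ) Q₀ Q H (Q₀ ^ (y + δ))

/-- `NatNP3` for the data in `Q` -/
def NatNP3Q (Q : DPar → Prop) (θ : ℝ) (r : ℕ) (y δ η η' : ℝ) : Prop :=
  ∀ P : DPar, P.OK → Q P → N3b θ r y δ η η' P

theorem dout3i_iff {θ : ℝ} {r : ℕ} {y δ η : ℝ} :
    DOUT3i θ r y δ η ↔ ∀ P : DPar, P.OK → D3b θ r y δ η P := Iff.rfl

theorem natNP3_iff {θ : ℝ} {r : ℕ} {y δ η η' : ℝ} :
    NatNP3 θ r y δ η η' ↔ ∀ P : DPar, P.OK → N3b θ r y δ η η' P := Iff.rfl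

theorem dout3Q_mono {Q Q' : DPar → Prop} (h : ∀ P : DPar, P.OK → Q' P → Q P) {θ : ℝ}
    (H : DOUT3Q Q θ) : DOUT3Q Q' θ := by
  obtain ⟨r, y, δ, η, h1, h2, h3, h4, h5, h6, h7, h8, h9⟩ := H
  exact ⟨r, y, δ, η, h1, h2, h3, h4, h5, h6, h7, h8, fun P hP hQ => h9 P hP (h P hP hQ)⟩

theorem dout3Q_of {Q : DPar → Prop} {θ : ℝ} (H : DOUT3 θ) : DOUT3Q Q θ := by
  obtain ⟨r, y, δ, η, h1, h2, h3, h4, h5, h6, h7, h8, h9⟩ := H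
  exact ⟨r, y, δ, η, h1, h2, h3, h4, h5, h6, h7, h8, fun P hP _ => h9 P hP⟩

end Crest.Agent.R017.B770
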