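import Crest.Agent.R017.L7J_47
import Crest.Agent.R017.DefQ_986

/-!
# Row 17, section B, L7 for `j ≠ -4` (helper347)

Copies of `L7I_47`, `L7J_47` from `NatNP3Q (fun P => P.l₁ ≠ -4)`:
* `PropL7Q`, `propL7Q`
-/

set_option autoImplicit false

noncomputable section

open MeasureTheory Complex Set Filter
open scoped ComplexConjugate ContDiff Classical

namespace Crest.Agent.R017.L747

open Crest.Agent.R012 Crest.Agent.R012.Eis
open Crest.Agent.R012.Weight600 (osc norm_osc)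
open Crest.Agent.R017.End699 Crest.Agent.R017.B770 Crest.Agent.R017.FE47 Crest.Agent.R017.Sx545
open Crest.Agent.R017.Sx440 Crest.Agent.R017.Asm986 Crest.Agent.R017.L7858

/-- **L7** for `j ≠ -4` -/
def PropL7Q (θ : ℝ) (r : ℕ) (y δ η η' : ℝ) : Prop :=
  ∀ (M m₀ : Eis), (36 : Eis) ∣ M → Rad0 M m₀ → ∀ (ψ : Eis → ℂ) (l : ℤ) (F : FData), HC M ψ →
    F.OK M → FE M ψ l F → 4 * F.l' + F.j = -4 → F.j ≠ -4 →
    ∀ (h₀ h : ℝ → ℂ), HW h₀ → HW h → ∀ V om : ℝ → ℂ, SW V → SW om →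
    ∀ ε d : ℝ, 0 < ε → 0 < d → 6 * d ≤ η → 6 * d ≤ η' → d ≤ 1 / 100 → ∃ C Q₁ : ℝ, 0 ≤ C ∧
      ∀ Q : ℝ, Q₁ ≤ Q →
        ‖∑ j, F.cL j * DL3 h₀ h r y δ Q M m₀ F.ξ (tw ψ l) V om
            (Q ^ (1 / 2 + (y + δ) + d) / F.qL j) (Q / F.qL j)‖ *
          (Q ^ (1 / 2 + (y + δ) + d) / Real.sqrt Q) ≤
        C * Q ^ ε * (Q ^ ((1 / 2 + (y + δ)) / 3 + (y + δ) + θ) * Q ^ (5 * d - η'))

set_option maxHeartbeats 2000000 in
/-- **bound for the separated double sums**, from `NatNP3`. -/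
theorem EE_boundQ {θ y δ η₁ η' : ℝ} {r : ℕ} (hN : NatNP3Q (fun P => P.l₁ ≠ -4) θ r y δ η₁ η') (hθ : 5 / 6 ≤ θ)
    (hr : 0 < r) (hy : 0 < y) (hδ : 0 < δ) {M M' m₀ : Eis} (h36 : (36 : Eis) ∣ M)
    (hm : Rad0 M m₀) (hMM : M ∣ M') (hrad : ∀ p : Eis, Prime p → p ∣ M' → p ∣ M)
    {η ψ' : Eis → ℂ} (hη : HC M' η) (hψ' : HC M' ψ') {j l' : ℤ} (hj : j ≠ 0)
    (hj4 : j ≠ -4)
    (hlj : 4 * l' + j = -4)
    {h₀ h : ℝ → ℂ} (hh₀ : HW h₀) (hh : HW h) {R : ℝ} (hR : 0 ≤ R) {ε d : ℝ} (hε : 0 < ε)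
    (hd : 0 < d) (hd6 : 6 * d ≤ η₁) :
    ∃ (J : ℕ) (C : ℝ), 0 ≤ C ∧ ∀ (q : ℕ) (Q : ℝ), 1 ≤ Q →
      (nm (9 * M') : ℝ) * Q ^ δ * 9 < Q ^ (y / r) → ∀ (n : ℕ) (t t' : ℝ),
      ‖EE (SS r y Q (δ * Real.log Q) M) (aS h₀ h r y Q (δ * Real.log Q) m₀) (cS r) M (ch m₀ η) j
        (w2 R) (gam r y Q + δ * Real.log Q -
          Real.log (Q ^ (1 / 2 + (y + δ) + d) / (27 * nm m₀ * Q))) (t - 4 * t') (-t)
        (twt ψ' l' t') V00 (Real.exp n)‖ ≤ (1 + |t|) ^ J * (1 + |t'|) ^ J *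
      (C * (Real.exp (gam r y Q + δ * Real.log Q -
          Real.log (Q ^ (1 / 2 + (y + δ) + d) / (27 * nm m₀ * Q))) *
        (Q ^ (-(y + δ) + ε + ((1 / 2 + (y + δ)) / 3 + (y + δ) + θ) - η' + d - 1) *
          Real.exp (1 / 2 * n) + Q ^ (y + δ - q) * Real.exp ((2 + q) * n)))) := by
  have h2 : (2 : Eis) ∣ M := dvd_trans ⟨18, by norm_num⟩ h36
  have h3 : (3 : Eis) ∣ M := dvd_trans ⟨12, by norm_num⟩ h36
  have hM'0 : M' ≠ 0 := hη.q0
  have hM0 : M ≠ 0 := fun h0 => hM'0 (zero_dvd_iff.mp (h0 ▸ hMM))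
  have hχ := hc_ch h36 hm hMM hrad hη
  have hPok := pp_ok hh₀ hh h36 hm hMM hrad hη hψ' hj hlj
  obtain ⟨Cn, An, hCn, hAn, hnat⟩ := hN _ hPok hj4 ε hε
  set J₁ := ⌈An⌉₊ with hJ₁
  have hAJ : An ≤ J₁ := Nat.le_ceil An
  have hm₀ : (0 : ℝ) < nm m₀ := by exact_mod_cast nm_pos.mpr hm.prim.ne_zero
  have hnM' : (0 : ℝ) < nm M' := by exact_mod_cast nm_pos.mpr hM'0
  set σ := y + δ with hσ
  set mn := (1 / 2 + σ) / 3 + σ + θ with hmn
  have hσ0 : 0 < σ := by positivity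
  have hmn0 : 0 < mn := by positivity
  -- the exponent `A`
  obtain ⟨A, hA3, hAb⟩ : ∃ A : ℕ, 3 ≤ A ∧ 3 + 3 * σ + η₁ + η' ≤ (η₁ - d) * ((A : ℝ) - 1) := by
    have h1 : 0 < η₁ - d := by linarith
    obtain ⟨A, hA⟩ := exists_nat_ge ((3 + 3 * σ + η₁ + η') / (η₁ - d) + 1)
    refine ⟨max A 3, le_max_right _ _, ?_⟩
    have h5 : (A : ℝ) ≤ ((max A 3 : ℕ) : ℝ) := by exact_mod_cast le_max_left _ _
    have h6 : (3 + 3 * σ + η₁ + η') / (η₁ - d) ≤ ((max A 3 : ℕ) : ℝ) - 1 := by linarith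
    rw [div_le_iff₀ h1] at h6
    linarith
  obtain ⟨Cg, Jg, hCg, hgs⟩ := gs_le (cd_w2 R) (cs_w2 hR) ((r : ℝ) + 1) hj A J₁
  obtain ⟨Cb, hCb, hcrb⟩ := crude_blk r hh₀ hh M'
  obtain ⟨Cs, hCs, hcrs⟩ := crude_GS r hh₀ hh hR
  obtain ⟨Ct, hCt, htgb⟩ := tgb_sum hA3 (θ := θ) (σ := σ) (d := d) (η' := η')
    (C₃ := 3 * nm M' / (27 * nm m₀)) hθ hd.le (by positivity)
  obtain ⟨Cr, hCr, hcru⟩ := crude_sum hA3
  set C₃ := (3 * nm M' / (27 * nm m₀) : ℝ) with hC₃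
  have hC₃0 : 0 < C₃ := by positivity
  set cg := Real.exp (gam r 0 1) with hcg
  have hcg0 : 0 < cg := Real.exp_pos _
  set D₁ := Cn * 3 ^ J₁ * Ct / cg with hD₁
  set D₂ := Cb * Cr * cg * C₃ ^ ((A : ℝ) - 1) with hD₂
  have hD₁0 : 0 ≤ D₁ := by positivity
  have hD₂0 : 0 ≤ D₂ := by positivity
  refine ⟨J₁ + Jg, Cg * 4 ^ Jg * (D₁ + D₂) + Cs * cg, by positivity, ?_⟩
  intro q Q hQ hQM n t t'
  have hQ0 : 0 < Q := by linarith
  set κ₀ := δ * Real.log Q with hκ₀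
  have hκ₀0 : 0 ≤ κ₀ := mul_nonneg hδ.le (Real.log_nonneg hQ)
  have hexpκ : Real.exp κ₀ = Q ^ δ := by
    rw [Real.rpow_def_of_pos hQ0, hκ₀, mul_comm]
  have hMQ : (nm M : ℝ) * Real.exp κ₀ * 9 < Q ^ (y / r) := by
    refine lt_of_le_of_lt ?_ hQM
    rw [hexpκ]
    have : (nm M : ℝ) ≤ nm (9 * M') := by
      exact_mod_cast Div277.nm_le_of_dvd (mul_ne_zero (by decide) hM'0) (hMM.mul_left 9)
    gcongr
  set γ := gam r y Q + κ₀ with hγ
  have hexpγ : Real.exp γ = cg * Q ^ σ := exp_gam hr y δ hQ0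
  set X := Q ^ (1 / 2 + σ + d) / (27 * nm m₀ * Q) with hX
  have hX0 : 0 < X := by positivity
  set ka := γ - Real.log X with hka
  have hff : ∀ b, Sm M b → ‖twt ψ' l' t' b‖ ≤ 1 := fun b hb =>
    L7858.norm_twt_le hb.ne_zero (hψ'.char.norm_le hb.prim) l' t'
  have hφφ : ∀ b, IsPrim b → ‖(fun c => sy m₀ c) b‖ ≤ 1 := fun b hb =>
    (hc_left h36 hm hMM hM'0 hrad).char.norm_le hb
  have hχχ : ∀ b, IsPrim b → ‖ch m₀ η b‖ ≤ 1 := fun b hb => hχ.char.norm_le hb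
  set B := Real.exp n with hB
  have hB1 : 1 ≤ B := Real.one_le_exp (Nat.cast_nonneg n)
  have hB0 : 0 < B := by linarith
  have hTt : 1 ≤ 1 + |t| := one_le_T t
  have hTt' : 1 ≤ 1 + |t'| := one_le_T t'
  rw [EE_SS]
  have hgoal : (1 + |t|) ^ (J₁ + Jg) * (1 + |t'|) ^ (J₁ + Jg) =
      ((1 + |t|) * (1 + |t'|)) ^ J₁ * ((1 + |t|) * (1 + |t'|)) ^ Jg := by
    rw [mul_pow, mul_pow, pow_add, pow_add]; ring
  rw [hgoal]
  set TT := (1 + |t|) * (1 + |t'|) with hTT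
  have hTT1 : 1 ≤ TT := one_le_mul_of_one_le_of_one_le hTt hTt'
  set E₁ := -σ + ε + mn - η' + d - 1 with hE₁
  have hT1 : 1 ≤ TT ^ J₁ := one_le_pow₀ hTT1
  have hT2 : 1 ≤ TT ^ Jg := one_le_pow₀ hTT1
  rcases lt_or_ge Q B with hBQ | hBQ
  · -- large `B`
    have h5 := hcrs M h2 (ch m₀ η) (twt ψ' l' t') (fun c => sy m₀ c) hχχ hff hφφ y Q κ₀ hy.le hQ
      0 (-t) B hB1 j ka (t - 4 * t')
    rw [hexpγ] at h5
    have h6 : B ^ 2 ≤ Q ^ (-(q : ℝ)) * Real.exp ((2 + q) * n) := by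
      have h7 : Real.exp ((2 + q) * n) = B ^ 2 * B ^ q := by
        rw [hB, ← Real.exp_nat_mul, ← Real.exp_nat_mul, ← Real.exp_add]
        congr 1; push_cast; ring
      have h8 : Q ^ q ≤ B ^ q := by gcongr
      rw [h7, Real.rpow_neg hQ0.le, Real.rpow_natCast, ← div_eq_inv_mul, le_div_iff₀ (by positivity)]
      gcongr
    have h9 : Q ^ (σ - q) = Q ^ σ * Q ^ (-(q : ℝ)) := by
      rw [← Real.rpow_add hQ0]; congr 1
    calc _ ≤ Cs * Real.exp ka * (cg * Q ^ σ) * B ^ 2 := h5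
      _ ≤ Cs * Real.exp ka * (cg * Q ^ σ) * (Q ^ (-(q : ℝ)) * Real.exp ((2 + q) * n)) := by gcongr
      _ = 1 * 1 * ((0 + Cs * cg) * (Real.exp ka * (0 + Q ^ (σ - q) * Real.exp ((2 + q) * n)))) := by
          rw [h9]; ring
      _ ≤ TT ^ J₁ * TT ^ Jg * ((Cg * 4 ^ Jg * (D₁ + D₂) + Cs * cg) * (Real.exp ka *
          (Q ^ E₁ * Real.exp (1 / 2 * n) + Q ^ (σ - q) * Real.exp ((2 + q) * n)))) := by
          gcongr
          · positivity
          · positivity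
  · -- the main range
    set b := B / Q with hb
    have hb0 : 0 < b := by positivity
    have hb1 : b ≤ 1 := by rw [hb, div_le_one hQ0]; exact hBQ
    have hbQ : b * Q = B := by rw [hb]; field_simp
    set H₁ := Q ^ (1 / 2 + σ + η₁) with hH₁
    have hH₁0 : 0 < H₁ := Real.rpow_pos_of_pos hQ0 _
    set s0 := -Real.log B - γ + ka - Real.log (3 * nm M') with hs0
    have hexps : Real.exp (-s0) = C₃ * b * Q ^ (1 / 2 + σ + d) := by
      have e : -s0 = Real.log B + Real.log X + Real.log (3 * nm M') := by rw [hs0, hka]; ring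
      rw [e, Real.exp_add, Real.exp_add, Real.exp_log hB0, Real.exp_log hX0,
        Real.exp_log (by positivity), hX, hC₃, hb]
      field_simp
    set K₁ := (Real.sqrt B)⁻¹ * Real.exp (-γ) * Cn * Q ^ ε * 3 ^ J₁ with hK₁
    set K₂ := Cb * Real.exp γ * B ^ 2 with hK₂
    have hK₁0 : 0 ≤ K₁ := by positivity
    have hK₂0 : 0 ≤ K₂ := by positivity
    obtain ⟨g1, g2⟩ := htgb Q b s0 hQ hb0 hb1 hexps
    obtain ⟨r1, r2⟩ := hcru s0 H₁ hH₁0
    have e1 : ∀ m : ℕ, kw A s0 m * (K₁ * TgB θ η' η' σ Q (b * Q) (Real.exp m) (Q ^ σ) +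
        K₂ * (Real.exp m * (Real.exp m / H₁) ^ ((A : ℝ) - 2))) =
        K₁ * (kw A s0 m * TgB θ η' η' σ Q (b * Q) (Real.exp m) (Q ^ σ)) +
        K₂ * (kw A s0 m * (Real.exp m * (Real.exp m / H₁) ^ ((A : ℝ) - 2))) := fun m => by ring
    have hsum : Summable fun m : ℕ => kw A s0 m *
        (K₁ * TgB θ η' η' σ Q (b * Q) (Real.exp m) (Q ^ σ) +
        K₂ * (Real.exp m * (Real.exp m / H₁) ^ ((A : ℝ) - 2))) :=
      ((g1.mul_left K₁).add (r1.mul_left K₂)).congr fun m => (e1 m).symm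
    have hgood := goodS h2 hM0 hrad hh hQ hκ₀0 hMQ (h₀ := h₀) (fun c => sy m₀ c) 0 (-t)
    have hlog : ∀ x ∈ L7858.SS r y Q κ₀ M, alS h₀ h r y Q κ₀ (fun c => sy m₀ c) 0 (-t) x ≠ 0 →
        |Real.log (nm (cS r x)) - γ| ≤ (r : ℝ) + 1 := by
      intro x hx hne
      unfold alS at hne
      exact logS hh₀ hh hx (left_ne_zero_of_mul hne)
    have hblk : ∀ (m : ℕ) (s : ℝ), ‖blk h00 1 (3 / 2) (L7858.SS r y Q κ₀ M)
        (alS h₀ h r y Q κ₀ (fun c => sy m₀ c) 0 (-t)) (cS r) M M' (ch m₀ η) (twt ψ' l' t') V00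
        ⌊Real.exp (3 / 2) * B⌋₊ B γ j m s‖ ≤
        (K₁ * TgB θ η' η' σ Q (b * Q) (Real.exp m) (Q ^ σ) +
        K₂ * (Real.exp m * (Real.exp m / H₁) ^ ((A : ℝ) - 2))) * TT ^ J₁ * (1 + |s|) ^ J₁ := by
      intro m s
      have hs1 : 1 ≤ 1 + |s| := one_le_T s
      have hs2 : 1 ≤ (1 + |s|) ^ J₁ := one_le_pow₀ hs1
      have hTG0 : 0 ≤ TgB θ η' η' σ Q (b * Q) (Real.exp m) (Q ^ σ) := by
        unfold TgB; positivity
      have hCR0 : 0 ≤ Real.exp m * (Real.exp m / H₁) ^ ((A : ℝ) - 2) := by positivity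
      rcases le_or_gt (Real.exp m) H₁ with hm | hm
      · rw [blk_eq h₀ h r h3 hMM hrad hχ hj y Q κ₀ γ hB0 t' (-t) m s, norm_mul, norm_osc, one_mul,
          norm_mul, Complex.norm_real, Real.norm_of_nonneg (by positivity)]
        have h7 := hnat Q B hB1 hBQ hQM (Real.exp m) (Real.exp_pos _) hm (-t - s) (t' - s) s
        have h8 : (1 + |-t - s| + |t' - s| + |s|) ^ An ≤ 3 ^ J₁ * (TT ^ J₁ * (1 + |s|) ^ J₁) := by
          have h9 : 1 ≤ 1 + |-t - s| + |t' - s| + |s| := by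
            have := abs_nonneg (-t - s)
            have := abs_nonneg (t' - s)
            have := abs_nonneg s
            linarith
          calc (1 + |-t - s| + |t' - s| + |s|) ^ An ≤ (1 + |-t - s| + |t' - s| + |s|) ^ J₁ :=
                rpow_T h9 hAJ
            _ ≤ (3 * (1 + |t|) * (1 + |t'|) * (1 + |s|)) ^ J₁ := by
                gcongr
                exact T3 t t' s
            _ = _ := by rw [hTT, mul_pow, mul_pow, mul_pow, mul_pow]; ring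
        rw [← hbQ] at h7
        calc (Real.sqrt B)⁻¹ * Real.exp (-(gam r y Q + κ₀)) * _
            ≤ (Real.sqrt B)⁻¹ * Real.exp (-(gam r y Q + κ₀)) * (Cn * Q ^ ε *
                (3 ^ J₁ * (TT ^ J₁ * (1 + |s|) ^ J₁)) *
                TgB θ η' η' σ Q (b * Q) (Real.exp m) (Q ^ σ)) := by
              rw [← hbQ]
              gcongr
              exact h7.trans (by gcongr)
          _ = (K₁ * TgB θ η' η' σ Q (b * Q) (Real.exp m) (Q ^ σ) + 0) * TT ^ J₁ *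
                (1 + |s|) ^ J₁ := by
              rw [hK₁, hγ]; ring
          _ ≤ _ := by
              gcongr
              positivity
      · have h7 := hcrb M h2 (ch m₀ η) (twt ψ' l' t') (fun c => sy m₀ c) hχ hff hφφ y Q κ₀ hy.le
          hQ 0 (-t) B γ hB1 j m s
        have h8 : 1 ≤ (Real.exp m / H₁) ^ ((A : ℝ) - 2) := by
          apply Real.one_le_rpow
          · rw [one_le_div hH₁0]; exact hm.le
          · have : (3 : ℝ) ≤ A := by exact_mod_cast hA3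
            linarith
        calc _ ≤ Cb * Real.exp m * Real.exp (gam r y Q + κ₀) * B ^ 2 := h7
          _ = (0 + K₂ * (Real.exp m * 1)) * 1 * 1 := by rw [hK₂, hγ]; ring
          _ ≤ _ := by
              gcongr
              positivity
    have h5 := hgs (L7858.SS r y Q κ₀ M) (alS h₀ h r y Q κ₀ (fun c => sy m₀ c) 0 (-t)) (cS r) M M'
      h2 hMM hrad (ch m₀ η) (twt ψ' l' t') hχ hgood γ hlog ka (t - 4 * t') B hB0 _ _ hblk hsum
    refine h5.trans ?_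
    have h6 : ∑' m : ℕ, kw A s0 m * (K₁ * TgB θ η' η' σ Q (b * Q) (Real.exp m) (Q ^ σ) +
        K₂ * (Real.exp m * (Real.exp m / H₁) ^ ((A : ℝ) - 2))) ≤
        (D₁ + D₂) * (Q ^ E₁ * Real.exp (1 / 2 * n)) := by
      rw [tsum_congr e1, (g1.mul_left K₁).tsum_add (r1.mul_left K₂), tsum_mul_left, tsum_mul_left,
        add_mul]
      have hsB : Real.sqrt B = Real.exp (1 / 2 * n) := by
        rw [hB, Real.sqrt_eq_rpow, ← Real.exp_mul]; congr 1; ring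
      have hsB0 : 0 < Real.sqrt B := Real.sqrt_pos.mpr hB0
      have hBB : B = Real.sqrt B * Real.sqrt B := (Real.mul_self_sqrt hB0.le).symm
      refine add_le_add ?_ ?_
      · calc K₁ * _ ≤ K₁ * (Ct * (Q ^ ((1 / 2 + σ) / 3 + σ + θ - η' + d) * b)) := by gcongr
          _ = _ := by
              rw [hK₁, hD₁, ← hsB, Real.exp_neg, hexpγ]
              have e2 : Q ^ E₁ = (Q ^ σ)⁻¹ * Q ^ ε * Q ^ ((1 / 2 + σ) / 3 + σ + θ - η' + d) *
                  Q⁻¹ := by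
                rw [← Real.rpow_neg hQ0.le, ← Real.rpow_neg_one, ← Real.rpow_add hQ0,
                  ← Real.rpow_add hQ0, ← Real.rpow_add hQ0, hE₁, hmn]
                congr 1; ring
              have e3 : b = Real.sqrt B * Real.sqrt B * Q⁻¹ := by
                rw [hb, div_eq_mul_inv, ← hBB]
              rw [e2, e3]
              field_simp
      · calc K₂ * _ ≤ K₂ * (Cr * (H₁ * (Real.exp (-s0) / H₁) ^ ((A : ℝ) - 1))) := by gcongr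
          _ ≤ D₂ * (Q ^ E₁ * Real.exp (1 / 2 * n)) := by
              have hA1 : 0 ≤ (A : ℝ) - 1 := by
                have : (3 : ℝ) ≤ A := by exact_mod_cast hA3
                linarith
              have e2 : Real.exp (-s0) / H₁ ≤ C₃ * Q ^ (d - η₁) := by
                rw [hexps, div_le_iff₀ hH₁0, hH₁]
                have e4 : Q ^ (1 / 2 + σ + d) = Q ^ (d - η₁) * Q ^ (1 / 2 + σ + η₁) := by
                  rw [← Real.rpow_add hQ0]; congr 1; ring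
                rw [e4]
                calc C₃ * b * (Q ^ (d - η₁) * Q ^ (1 / 2 + σ + η₁))
                    ≤ C₃ * 1 * (Q ^ (d - η₁) * Q ^ (1 / 2 + σ + η₁)) := by gcongr
                  _ = _ := by ring
              have e3 : (Real.exp (-s0) / H₁) ^ ((A : ℝ) - 1) ≤
                  C₃ ^ ((A : ℝ) - 1) * Q ^ (-(3 + 3 * σ + η₁ + η')) := by
                calc (Real.exp (-s0) / H₁) ^ ((A : ℝ) - 1) ≤ (C₃ * Q ^ (d - η₁)) ^ ((A : ℝ) - 1) := by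
                      gcongr
                  _ = C₃ ^ ((A : ℝ) - 1) * Q ^ ((d - η₁) * ((A : ℝ) - 1)) := by
                      rw [Real.mul_rpow hC₃0.le (Real.rpow_nonneg hQ0.le _),
                        ← Real.rpow_mul hQ0.le]
                  _ ≤ _ := by
                      gcongr
                      linarith
              have e5 : B ^ 2 ≤ Q ^ (3 / 2 : ℝ) * Real.exp (1 / 2 * n) := by
                have h10 : B ^ 2 = B ^ (3 / 2 : ℝ) * Real.sqrt B := by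
                  rw [Real.sqrt_eq_rpow, ← Real.rpow_add hB0, ← Real.rpow_natCast]
                  norm_num
                rw [h10, ← hsB]
                gcongr
              have e6 : Q ^ σ * Q ^ (3 / 2 : ℝ) * Q ^ (1 / 2 + σ + η₁) *
                  Q ^ (-(3 + 3 * σ + η₁ + η')) ≤ Q ^ E₁ := by
                rw [← Real.rpow_add hQ0, ← Real.rpow_add hQ0, ← Real.rpow_add hQ0]
                apply Real.rpow_le_rpow_of_exponent_le hQ
                rw [hE₁]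
                linarith
              calc K₂ * (Cr * (H₁ * (Real.exp (-s0) / H₁) ^ ((A : ℝ) - 1)))
                  ≤ (Cb * (cg * Q ^ σ) * (Q ^ (3 / 2 : ℝ) * Real.exp (1 / 2 * n))) *
                    (Cr * (Q ^ (1 / 2 + σ + η₁) *
                      (C₃ ^ ((A : ℝ) - 1) * Q ^ (-(3 + 3 * σ + η₁ + η'))))) := by
                    rw [hK₂, hexpγ]
                    gcongr
                _ = D₂ * ((Q ^ σ * Q ^ (3 / 2 : ℝ) * Q ^ (1 / 2 + σ + η₁) *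
                  Q ^ (-(3 + 3 * σ + η₁ + η'))) * Real.exp (1 / 2 * n)) := by
                    rw [hD₂]; ring
                _ ≤ _ := by gcongr
    have h7 : (1 + |t - 4 * t'|) ^ Jg ≤ 4 ^ Jg * TT ^ Jg := by
      rw [← mul_pow, hTT]
      gcongr
      have := T4 t t'
      linarith
    have hnn : 0 ≤ ∑' m : ℕ, kw A s0 m * (K₁ * TgB θ η' η' σ Q (b * Q) (Real.exp m) (Q ^ σ) +
        K₂ * (Real.exp m * (Real.exp m / H₁) ^ ((A : ℝ) - 2))) := by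
      refine tsum_nonneg fun m => mul_nonneg (kw_nonneg _ _ _) ?_
      have : 0 ≤ TgB θ η' η' σ Q (b * Q) (Real.exp m) (Q ^ σ) := by unfold TgB; positivity
      positivity
    calc Cg * (1 + |t - 4 * t'|) ^ Jg * TT ^ J₁ * (Real.exp ka * _)
        ≤ Cg * (4 ^ Jg * TT ^ Jg) * TT ^ J₁ * (Real.exp ka *
          ((D₁ + D₂) * (Q ^ E₁ * Real.exp (1 / 2 * n)))) := by gcongr
      _ = TT ^ J₁ * TT ^ Jg * ((Cg * 4 ^ Jg * (D₁ + D₂) + 0) * (Real.exp ka *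
          (Q ^ E₁ * Real.exp (1 / 2 * n) + 0))) := by ring
      _ ≤ _ := by
          gcongr
          · positivity
          · positivity

set_option maxHeartbeats 1000000 in
/-- **L7**. -/
theorem propL7Q {θ y δ η₁ η' : ℝ} {r : ℕ} (hN : NatNP3Q (fun P => P.l₁ ≠ -4) θ r y δ η₁ η') (hθ : 5 / 6 ≤ θ)
    (hr : 0 < r) (hy : 0 < y) (hδ : 0 < δ) (hδy : δ < y / r) : PropL7Q θ r y δ η₁ η' := by
  intro M m₀ h36 hm ψ l F hψ hOK hFE hrel hj4 h₀ h hh₀ hh V om hV hom ε d hε hd hd1 hd2 hd3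
  have h2 : (2 : Eis) ∣ M := dvd_trans ⟨18, by norm_num⟩ h36
  obtain ⟨R, hR, hdual⟩ := dual_bound hOK hFE h2 hm hV hom (R₀ := (r : ℝ) + 1) (by positivity)
  choose J C hC hEE using fun i : Fin F.n =>
    EE_boundQ hN hθ hr hy hδ h36 hm hOK.dvd hOK.rad (hOK.η i) (hOK.ψ' i) hOK.j0 hj4 hrel hh₀ hh hR
      hε hd hd1
  set σ := y + δ with hσ
  set mn := (1 / 2 + σ) / 3 + σ + θ with hmn
  have hσ0 : 0 < σ := by positivity
  have hmn0 : 0 < mn := by positivity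
  obtain ⟨q, hq⟩ : ∃ q : ℕ, 3 + 2 * σ + η' ≤ 4 * d * q := by
    obtain ⟨q, hq⟩ := exists_nat_ge ((3 + 2 * σ + η') / (4 * d))
    refine ⟨q, ?_⟩
    rw [div_le_iff₀ (by positivity)] at hq
    linarith
  obtain ⟨C₀, hC₀, hfin⟩ := hdual (q + 3) (∑ i, J i)
  obtain ⟨S₁, hS₁, hs₁⟩ := scale_b (N := q + 3) (α := 1 / 2) (by norm_num)
    (by push_cast; have : (0 : ℝ) ≤ q := Nat.cast_nonneg q; linarith)
  obtain ⟨S₂, hS₂, hs₂⟩ := scale_b (N := q + 3) (α := 2 + q) (by positivity)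
    (by push_cast; linarith)
  obtain ⟨Q₁, hQ₁, hlarge⟩ := exists_large (c := (nm (9 * F.M') : ℝ)) hδy
  have hm₀ : (0 : ℝ) < nm m₀ := by exact_mod_cast nm_pos.mpr hm.prim.ne_zero
  set c₁ := Real.exp (gam r 0 1) * (27 * nm m₀) with hc₁
  have hc₁0 : 0 < c₁ := by positivity
  set Cf := ∑ i, C₀ * C i * c₁⁻¹ * (S₁ * (c₁ ^ 4 * F.ρ i) ^ (1 / 2 : ℝ) +
    S₂ * (c₁ ^ 4 * F.ρ i) ^ (2 + q : ℝ)) with hCf
  have hρ : ∀ i, 0 < F.ρ i := hOK.ρ
  have hCf0 : 0 ≤ Cf := by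
    refine Finset.sum_nonneg fun i _ => ?_
    have := hρ i
    have := hC i
    positivity
  refine ⟨Cf, Q₁, hCf0, fun Q hQQ => ?_⟩
  have hQ : 1 ≤ Q := hQ₁.trans hQQ
  have hQ0 : 0 < Q := by linarith
  have hQM := hlarge Q hQQ
  set K := Q ^ (1 / 2 + σ + d) with hK
  have hK0 : 0 < K := Real.rpow_pos_of_pos hQ0 _
  set X := K / (27 * nm m₀ * Q) with hX
  have hX0 : 0 < X := by positivity
  set γ := gam r y Q + δ * Real.log Q with hγ
  have hexpγ : Real.exp γ = Real.exp (gam r 0 1) * Q ^ σ := exp_gam hr y δ hQ0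
  have hka : Real.exp (γ - Real.log X) = c₁ * Q ^ (1 / 2 - d) := by
    have e1 : Q ^ σ * Q / K = Q ^ (1 / 2 - d) := by
      rw [div_eq_iff hK0.ne', hK, ← Real.rpow_add hQ0]
      nth_rewrite 2 [← Real.rpow_one Q]
      rw [← Real.rpow_add hQ0]
      congr 1; ring
    rw [Real.exp_sub, Real.exp_log hX0, hexpγ, hX, hc₁, ← e1]
    field_simp
  have hlog : ∀ x ∈ L7858.SS r y Q (δ * Real.log Q) M, aS h₀ h r y Q (δ * Real.log Q) m₀ x ≠ 0 →
      cS r x ≠ 0 ∧ |Real.log (nm (cS r x)) - γ| ≤ (r : ℝ) + 1 := by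
    intro x hx hne
    unfold aS at hne
    exact ⟨(isPrim_cS hx).ne_zero, logS hh₀ hh hx (left_ne_zero_of_mul hne)⟩
  set ka := γ - Real.log X with hkad
  set E₁ := -σ + ε + mn - η' + d - 1 with hE₁
  set N := q + 3 with hNq
  set Bf : Fin F.n → ℕ → ℝ := fun i n => C i * (Real.exp ka *
    (Q ^ E₁ * Real.exp (1 / 2 * n) + Q ^ (σ - q) * Real.exp ((2 + q) * n))) with hBf
  -- the scales of `b`
  have hY : ∀ i, Real.exp (4 * ka - Real.log (Q / F.ρ i)) =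
      c₁ ^ 4 * F.ρ i * Q ^ (1 - 4 * d) := by
    intro i
    have e1 : Real.exp (4 * ka) = c₁ ^ 4 * Q ^ (2 - 4 * d) := by
      rw [show (4 : ℝ) = ((4 : ℕ) : ℝ) by norm_num, Real.exp_nat_mul, hka, mul_pow,
        ← Real.rpow_natCast (Q ^ (1 / 2 - d)), ← Real.rpow_mul hQ0.le]
      congr 2
      push_cast; ring
    rw [Real.exp_sub, Real.exp_log (div_pos hQ0 (hρ i)), e1]
    have e2 : Q ^ (2 - 4 * d) = Q ^ (1 - 4 * d) * Q := by
      rw [← Real.rpow_add_one hQ0.ne']; congr 1; ring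
    rw [e2]
    have := (hρ i).ne'
    field_simp
  have hYp : ∀ i, 0 < c₁ ^ 4 * F.ρ i * Q ^ (1 - 4 * d) := fun i => by
    have := hρ i
    positivity
  have hsplit : ∀ i (n : ℕ), Real.exp (-(((N : ℕ) : ℝ) * |n - 4 * ka + Real.log (Q / F.ρ i)|)) *
      Bf i n = (C i * Real.exp ka) * (Q ^ E₁ *
        (Real.exp (-(((N : ℕ) : ℝ) * |n - 4 * ka + Real.log (Q / F.ρ i)|)) * Real.exp (1 / 2 * n)) +
        Q ^ (σ - q) * (Real.exp (-(((N : ℕ) : ℝ) * |n - 4 * ka + Real.log (Q / F.ρ i)|)) *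
          Real.exp ((2 + q) * n))) := by
    intro i n
    rw [hBf]; ring
  have hsumm : ∀ i, Summable fun n : ℕ =>
      Real.exp (-(((N : ℕ) : ℝ) * |n - 4 * ka + Real.log (Q / F.ρ i)|)) * Bf i n := by
    intro i
    obtain ⟨u1, -⟩ := hs₁ ka _ _ (hYp i) (hY i)
    obtain ⟨u2, -⟩ := hs₂ ka _ _ (hYp i) (hY i)
    exact (((u1.mul_left (Q ^ E₁)).add (u2.mul_left (Q ^ (σ - q)))).mul_left
      (C i * Real.exp ka)).congr fun n => (hsplit i n).symm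
  have hbd : ∀ i (n : ℕ) (t t' : ℝ), ‖EE (L7858.SS r y Q (δ * Real.log Q) M)
      (aS h₀ h r y Q (δ * Real.log Q) m₀) (cS r) M (fun a => sy a m₀ * F.η i a) F.j (w2 R) ka
      (t - 4 * t') (-t) (twt (F.ψ' i) F.l' t') V00 (Real.exp n)‖ ≤
      (1 + |t|) ^ (∑ i, J i) * (1 + |t'|) ^ (∑ i, J i) * Bf i n := by
    intro i n t t'
    have h5 := hEE i q Q hQ hQM n t t'
    have hJ : J i ≤ ∑ i, J i := Finset.single_le_sum (fun _ _ => Nat.zero_le _) (Finset.mem_univ i)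
    have hBf0 : 0 ≤ Bf i n := by
      have := hC i
      rw [hBf]; positivity
    have t1 := one_le_T t
    have t2 := one_le_T t'
    have t3 : (1 + |t|) ^ J i * (1 + |t'|) ^ J i * Bf i n ≤
        (1 + |t|) ^ (∑ i, J i) * (1 + |t'|) ^ (∑ i, J i) * Bf i n := by gcongr
    exact h5.trans t3
  have hmain := hfin (L7858.SS r y Q (δ * Real.log Q) M) (aS h₀ h r y Q (δ * Real.log Q) m₀)
    (cS r) γ X Q hX0 hQ0 hlog Bf hsumm hbd
  have hlhs : ∑ j, F.cL j * DL3 h₀ h r y δ Q M m₀ F.ξ (End699.tw ψ l) V om (K / F.qL j)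
      (Q / F.qL j) = ∑ j, F.cL j * ∑ p ∈ L7858.SS r y Q (δ * Real.log Q) M,
        aS h₀ h r y Q (δ * Real.log Q) m₀ p * ∑' a : Eis, End699.ext (fun a => sy a m₀) a *
          sy a (cS r p) * Psi M F.ξ (End699.tw ψ l) a (W0 V om X a (cS r p)) (Q / F.qL j) := by
    refine Finset.sum_congr rfl fun j _ => ?_
    rw [DL3_eq]
    have hqj : F.qL j ≠ 0 := by have := hOK.qL j; linarith
    have e : K / F.qL j / (27 * nm m₀ * (Q / F.qL j)) = X := by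
      rw [hX]; field_simp
    rw [e]
  rw [hlhs]
  have hi : ∀ i, ∑' n : ℕ, Real.exp (-(((N : ℕ) : ℝ) * |n - 4 * ka + Real.log (Q / F.ρ i)|)) *
      Bf i n ≤ (C i * Real.exp ka) * (Q ^ E₁ * (S₁ * (c₁ ^ 4 * F.ρ i * Q ^ (1 - 4 * d)) ^ (1 / 2 : ℝ)) +
        Q ^ (σ - q) * (S₂ * (c₁ ^ 4 * F.ρ i * Q ^ (1 - 4 * d)) ^ (2 + q : ℝ))) := by
    intro i
    obtain ⟨u1, v1⟩ := hs₁ ka _ _ (hYp i) (hY i)
    obtain ⟨u2, v2⟩ := hs₂ ka _ _ (hYp i) (hY i)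
    rw [tsum_congr (hsplit i), tsum_mul_left, (u1.mul_left (Q ^ E₁)).tsum_add
      (u2.mul_left (Q ^ (σ - q))), tsum_mul_left, tsum_mul_left]
    have := hC i
    gcongr
  -- the powers of `Q`
  have hpow : ∀ i, Q * Real.exp (-(2 * ka)) * ((C i * Real.exp ka) *
      (Q ^ E₁ * (S₁ * (c₁ ^ 4 * F.ρ i * Q ^ (1 - 4 * d)) ^ (1 / 2 : ℝ)) +
        Q ^ (σ - q) * (S₂ * (c₁ ^ 4 * F.ρ i * Q ^ (1 - 4 * d)) ^ (2 + q : ℝ)))) *
      (K / Real.sqrt Q) ≤ (C i * c₁⁻¹ * (S₁ * (c₁ ^ 4 * F.ρ i) ^ (1 / 2 : ℝ) +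
        S₂ * (c₁ ^ 4 * F.ρ i) ^ (2 + q : ℝ))) * (Q ^ ε * (Q ^ mn * Q ^ (5 * d - η'))) := by
    intro i
    have hρi := hρ i
    have hCi := hC i
    have e1 : Real.exp (-(2 * ka)) * Real.exp ka = c₁⁻¹ * Q ^ (-(1 / 2 - d)) := by
      rw [← Real.exp_add, show -(2 * ka) + ka = -ka by ring, Real.exp_neg, hka, mul_inv,
        Real.rpow_neg hQ0.le]
    have e2 : K / Real.sqrt Q = Q ^ (σ + d) := by
      rw [Real.sqrt_eq_rpow, hK, ← Real.rpow_sub hQ0]; congr 1; ring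
    have e3 : ∀ α : ℝ, (c₁ ^ 4 * F.ρ i * Q ^ (1 - 4 * d)) ^ α =
        (c₁ ^ 4 * F.ρ i) ^ α * Q ^ ((1 - 4 * d) * α) := fun α => by
      rw [Real.mul_rpow (by positivity) (by positivity), ← Real.rpow_mul hQ0.le]
    have p1 : Q * Q ^ (-(1 / 2 - d)) * Q ^ (σ + d) * Q ^ E₁ * Q ^ ((1 - 4 * d) * (1 / 2)) ≤
        Q ^ ε * (Q ^ mn * Q ^ (5 * d - η')) := by
      nth_rewrite 1 [← Real.rpow_one Q]
      rw [← Real.rpow_add hQ0, ← Real.rpow_add hQ0, ← Real.rpow_add hQ0, ← Real.rpow_add hQ0,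
        ← Real.rpow_add hQ0, ← Real.rpow_add hQ0]
      apply Real.rpow_le_rpow_of_exponent_le hQ
      rw [hE₁]
      linarith
    have p2 : Q * Q ^ (-(1 / 2 - d)) * Q ^ (σ + d) * Q ^ (σ - q) * Q ^ ((1 - 4 * d) * (2 + q)) ≤
        Q ^ ε * (Q ^ mn * Q ^ (5 * d - η')) := by
      nth_rewrite 1 [← Real.rpow_one Q]
      rw [← Real.rpow_add hQ0, ← Real.rpow_add hQ0, ← Real.rpow_add hQ0, ← Real.rpow_add hQ0,
        ← Real.rpow_add hQ0, ← Real.rpow_add hQ0]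
      apply Real.rpow_le_rpow_of_exponent_le hQ
      nlinarith
    rw [e2, e3, e3]
    calc _ = (C i * (Real.exp (-(2 * ka)) * Real.exp ka)) * (Q * Q ^ (σ + d) *
          (Q ^ E₁ * (S₁ * ((c₁ ^ 4 * F.ρ i) ^ (1 / 2 : ℝ) * Q ^ ((1 - 4 * d) * (1 / 2)))) +
          Q ^ (σ - q) * (S₂ * ((c₁ ^ 4 * F.ρ i) ^ (2 + q : ℝ) *
            Q ^ ((1 - 4 * d) * (2 + q)))))) := by ring
      _ = C i * c₁⁻¹ * (S₁ * (c₁ ^ 4 * F.ρ i) ^ (1 / 2 : ℝ) *
            (Q * Q ^ (-(1 / 2 - d)) * Q ^ (σ + d) * Q ^ E₁ * Q ^ ((1 - 4 * d) * (1 / 2))) +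
          S₂ * (c₁ ^ 4 * F.ρ i) ^ (2 + q : ℝ) *
            (Q * Q ^ (-(1 / 2 - d)) * Q ^ (σ + d) * Q ^ (σ - q) *
              Q ^ ((1 - 4 * d) * (2 + q)))) := by rw [e1]; ring
      _ ≤ C i * c₁⁻¹ * (S₁ * (c₁ ^ 4 * F.ρ i) ^ (1 / 2 : ℝ) *
            (Q ^ ε * (Q ^ mn * Q ^ (5 * d - η'))) +
          S₂ * (c₁ ^ 4 * F.ρ i) ^ (2 + q : ℝ) *
            (Q ^ ε * (Q ^ mn * Q ^ (5 * d - η')))) := by gcongr
      _ = _ := by ring
  calc _ ≤ (C₀ * (Q * Real.exp (-(2 * ka))) * ∑ i, ((C i * Real.exp ka) *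
      (Q ^ E₁ * (S₁ * (c₁ ^ 4 * F.ρ i * Q ^ (1 - 4 * d)) ^ (1 / 2 : ℝ)) +
        Q ^ (σ - q) * (S₂ * (c₁ ^ 4 * F.ρ i * Q ^ (1 - 4 * d)) ^ (2 + q : ℝ))))) *
        (K / Real.sqrt Q) := by
        gcongr
        refine hmain.trans ?_
        gcongr with i _
        exact hi i
    _ = C₀ * ∑ i, Q * Real.exp (-(2 * ka)) * ((C i * Real.exp ka) *
      (Q ^ E₁ * (S₁ * (c₁ ^ 4 * F.ρ i * Q ^ (1 - 4 * d)) ^ (1 / 2 : ℝ)) +
        Q ^ (σ - q) * (S₂ * (c₁ ^ 4 * F.ρ i * Q ^ (1 - 4 * d)) ^ (2 + q : ℝ)))) *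
      (K / Real.sqrt Q) := by
        rw [Finset.mul_sum, Finset.sum_mul, Finset.mul_sum]
        exact Finset.sum_congr rfl fun i _ => by ring
    _ ≤ C₀ * ∑ i, (C i * c₁⁻¹ * (S₁ * (c₁ ^ 4 * F.ρ i) ^ (1 / 2 : ℝ) +
        S₂ * (c₁ ^ 4 * F.ρ i) ^ (2 + q : ℝ))) * (Q ^ ε * (Q ^ mn * Q ^ (5 * d - η'))) :=
        mul_le_mul_of_nonneg_left (Finset.sum_le_sum fun i _ => hpow i) hC₀
    _ = _ := by
        rw [hCf, Finset.mul_sum, Finset.sum_mul, Finset.sum_mul]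
        exact Finset.sum_congr rfl fun i _ => by ring

end Crest.Agent.R017.L747
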