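import Crest.Agent.R017.NPLd_699
import Crest.Agent.R017.DefQ_986

/-!
# Row 17, section B, leaf NPL from `NatNP3Q (fun P => P.l₁ ≠ -4)` (helper347)

Copies of `NPLb_699`, `NPLd_699`.
-/

set_option autoImplicit false

noncomputable section

open MeasureTheory Complex Set Filter Topology
open scoped ComplexConjugate ContDiff

namespace Crest.Agent.R017.NPL699

open Crest.Agent.R012 Crest.Agent.R012.Eis Crest.Agent.R012.Mob705 Crest.Agent.R012.Gauss880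
open Crest.Agent.R012.PSer47
open Crest.Agent.R012.Weight600 (osc norm_osc)
open Crest.Agent.R017.FE47 (h00)
open Crest.Agent.R017.End699 Crest.Agent.R017.Sx440 Crest.Agent.R017.Sx545 Crest.Agent.R017.B770
open Crest.Agent.R017.Asm986 Crest.Agent.R017.BEndA699
open Crest.Agent.R017.L6106 (SF mem_SF)

variable {M m₀ : Eis}

lemma pl_ne {h₀ h V : ℝ → ℂ} {M m₀ : Eis} {ψ : Eis → ℂ} {l : ℤ} :
    (PL h₀ h V M m₀ ψ l).l₁ ≠ -4 := by
  show (0 : ℤ) ≠ -4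
  decide

open Classical in
/-- **the dyadic sums** -/
theorem dyadicQ {θ : ℝ} (hθ : 0 ≤ θ) (hθ1 : θ ≤ 1) {r : ℕ} {y δ η η' : ℝ} (hδ : 0 ≤ δ)
    (hN : NatNP3Q (fun P => P.l₁ ≠ -4) θ r y δ η η')
    {h₀ h V : ℝ → ℂ} (hh₀ : HW h₀) (hh : HW h) (hV : SW V) (h36 : (36 : Eis) ∣ M)
    (hr : Rad0 M m₀) {ψ : Eis → ℂ} (hψ : HC M ψ) (l : ℤ) {ε : ℝ} (hε : 0 < ε) :
    ∃ (C : ℝ) (A : ℕ) (R : ℝ), 0 ≤ C ∧ 1 ≤ R ∧ ∀ Q₀ Q : ℝ, R ≤ Q₀ → 0 < Q → Q ≤ Q₀ →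
      (nm M : ℝ) * Q₀ ^ δ * 9 < Q₀ ^ (y / r) → ∀ n : ℕ, Real.exp n ≤ Q₀ ^ (1 / 2 + (y + δ) + η) →
      ∀ t : ℝ, ‖∑' k : Eis, if k ≠ 0 ∧ ¬ Prn M k then
          Weight600.pw t (nm k) * (h00 (Real.log (nm k) - n) : ℂ) *
            (FE47.DM (3 * m₀) (fun a => sy a m₀) k *
              NSumS h₀ h r y Q₀ (δ * Real.log Q₀) Finset.univ M (tw ψ l) (fun _ => 1) V Q k)
          else 0‖ ≤
        (1 + |t|) ^ A * (C * Q₀ ^ ε * TgB θ η' η' (y + δ) Q₀ Q (Real.exp n) (Q₀ ^ (y + δ))) := by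
  obtain ⟨Bv, R, hBv, hR1, hVB, hRV⟩ := NatZ571.SW.bounds hV
  have hR0 : 0 < R := by linarith
  have hVR : SW (fun x => V (R * x)) := sw_scale hV hR0
  obtain ⟨C₁, A₁, hC₁, hA₁, H₁⟩ := hN (PL h₀ h V M m₀ ψ l) (PL_ok hh₀ hh hV h36 hr hψ l) pl_ne ε hε
  obtain ⟨C₂, A₂, hC₂, hA₂, H₂⟩ := hN (PL h₀ h (fun x => V (R * x)) M m₀ ψ l)
    (PL_ok hh₀ hh hVR h36 hr hψ l) pl_ne ε hε
  have hM0 := L6106.Rad0.M_ne hr
  refine ⟨C₁ + C₂ * R, ⌈max A₁ A₂⌉₊, R, by positivity, hR1, ?_⟩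
  intro Q₀ Q hRQ₀ hQ hQQ₀ hMQ n hn t
  have hQ₀1 : 1 ≤ Q₀ := hR1.trans hRQ₀
  have hQ₀0 : 0 < Q₀ := by linarith
  set Cc : ℝ := Q₀ ^ (y + δ) with hCc
  have hCc0 : 0 ≤ Cc := by positivity
  have hT0 := TgB_nonneg (θ := θ) (η₁ := η') (η₂ := η') (y₀ := y + δ) (H := Real.exp n) hQ₀0 hQ.le
    hCc0 (Real.exp_pos _).le
  have h1t : (1 : ℝ) ≤ 1 + |t| := by linarith [abs_nonneg t]
  have pwr : ∀ A : ℝ, A ≤ max A₁ A₂ → (1 + |t|) ^ A ≤ (1 + |t|) ^ ⌈max A₁ A₂⌉₊ := by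
    intro A hA
    rw [← Real.rpow_natCast]
    exact Real.rpow_le_rpow_of_exponent_le h1t (hA.trans (Nat.le_ceil _))
  -- the general identity
  have gen : ∀ (W : ℝ → ℂ) (Q' : ℝ), (∑' k : Eis, if k ≠ 0 ∧ ¬ Prn M k then
          Weight600.pw t (nm k) * (h00 (Real.log (nm k) - n) : ℂ) *
            (FE47.DM (3 * m₀) (fun a => sy a m₀) k *
              NSumS h₀ h r y Q₀ (δ * Real.log Q₀) Finset.univ M (tw ψ l) (fun _ => 1) W Q' k)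
          else 0) =
      ∑' k : Eis, (if k ≠ 0 ∧ NPk (PL h₀ h W M m₀ ψ l).n (PL h₀ h W M m₀ ψ l).φ
          (PL h₀ h W M m₀ ψ l).l₁ k then
        (PL h₀ h W M m₀ ψ l).wk t (Real.exp n) k *
          NSumS (PL h₀ h W M m₀ ψ l).h₀ (PL h₀ h W M m₀ ψ l).h r y Q₀ (δ * Real.log Q₀)
          Finset.univ (PL h₀ h W M m₀ ψ l).n
          (twt (PL h₀ h W M m₀ ψ l).ψ (PL h₀ h W M m₀ ψ l).l₂ 0)
          (twt (PL h₀ h W M m₀ ψ l).φ (PL h₀ h W M m₀ ψ l).l₁ 0) (PL h₀ h W M m₀ ψ l).V Q' k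
        else 0) := by
    intro W Q'
    refine tsum_congr fun k => ?_
    have e0 : (k ≠ 0 ∧ ¬ Prn M k) ↔ (k ≠ 0 ∧ NPk M (prin0 M) 0 k) := by
      unfold Prn; rw [not_not]
    by_cases hk : k ≠ 0 ∧ ¬ Prn M k
    · rw [if_pos hk]
      have hk' := e0.mp hk
      have : (PL h₀ h W M m₀ ψ l).n = M := rfl
      rw [if_pos (show k ≠ 0 ∧ NPk (PL h₀ h W M m₀ ψ l).n (PL h₀ h W M m₀ ψ l).φ
          (PL h₀ h W M m₀ ψ l).l₁ k from hk'), wk_eq t n hk.1]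
      change _ = _ * NSumS h₀ h r y Q₀ (δ * Real.log Q₀) Finset.univ M (twt ψ l 0)
        (twt (prin0 M) 0 0) W Q' k
      rw [twt_zero', twt_zero', tw_zero, NSumS_one_eq hh hδ hQ₀1 hM0 hMQ]
      ring
    · rw [if_neg hk, if_neg (show ¬ (k ≠ 0 ∧ NPk (PL h₀ h W M m₀ ψ l).n (PL h₀ h W M m₀ ψ l).φ
          (PL h₀ h W M m₀ ψ l).l₁ k) from fun h => hk (e0.mpr h))]
  by_cases hQ1 : 1 ≤ Q
  · rw [gen]
    have h3 := H₁ Q₀ Q hQ1 hQQ₀ hMQ (Real.exp n) (Real.exp_pos _) hn 0 0 t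
    refine h3.trans ?_
    rw [abs_zero, add_zero, add_zero]
    have h4 := pwr A₁ (le_max_left _ _)
    have h5 : C₁ ≤ C₁ + C₂ * R := by
      have : 0 ≤ C₂ * R := by positivity
      linarith
    calc C₁ * Q₀ ^ ε * (1 + |t|) ^ A₁ * TgB θ η' η' (y + δ) Q₀ Q (Real.exp n) Cc
        = (1 + |t|) ^ A₁ * (C₁ * Q₀ ^ ε * TgB θ η' η' (y + δ) Q₀ Q (Real.exp n) Cc) := by ring
      _ ≤ _ := by gcongr
  · rw [not_le] at hQ1
    by_cases hRQ : 1 ≤ R * Q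
    · have e1 : ∀ k : Eis,
          NSumS h₀ h r y Q₀ (δ * Real.log Q₀) Finset.univ M (tw ψ l) (fun _ => 1) V Q k =
          NSumS h₀ h r y Q₀ (δ * Real.log Q₀) Finset.univ M (tw ψ l) (fun _ => 1)
            (fun x => V (R * x)) (R * Q) k := fun k => NSumS_scale hR0 k
      simp only [e1]
      rw [gen]
      have h3 := H₂ Q₀ (R * Q) hRQ (by nlinarith) hMQ (Real.exp n) (Real.exp_pos _) hn 0 0 t
      refine h3.trans ?_
      rw [abs_zero, add_zero, add_zero]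
      have h4 := pwr A₂ (le_max_right _ _)
      have h5 := TgB_Q (θ := θ) (η₁ := η') (η₂ := η') (y₀ := y + δ) (H := Real.exp n) hQ₀0 hQ
        hCc0 (Real.exp_pos _).le hR1 hθ hθ1
      calc C₂ * Q₀ ^ ε * (1 + |t|) ^ A₂ * TgB θ η' η' (y + δ) Q₀ (R * Q) (Real.exp n) Cc
          ≤ C₂ * Q₀ ^ ε * (1 + |t|) ^ A₂ * (R * TgB θ η' η' (y + δ) Q₀ Q (Real.exp n) Cc) := by
            gcongr
        _ = (1 + |t|) ^ A₂ * ((C₂ * R) * Q₀ ^ ε * TgB θ η' η' (y + δ) Q₀ Q (Real.exp n) Cc) := by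
            ring
        _ ≤ _ := by
            gcongr
            linarith
    · have e1 : ∀ k : Eis,
          NSumS h₀ h r y Q₀ (δ * Real.log Q₀) Finset.univ M (tw ψ l) (fun _ => 1) V Q k = 0 := by
        intro k
        unfold NSumS
        refine Finset.sum_eq_zero fun c _ => ?_
        rw [Finset.sum_eq_zero, mul_zero]
        intro p _
        have : ∀ b : Eis, (if Sm M b then tw ψ l b * tk k b (c * ∏ i, p i) * V (nm b / Q)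
            else 0) = 0 := by
          intro b
          split_ifs with hb
          · have hb1 : (1 : ℝ) ≤ nm b := by
              exact_mod_cast nm_pos.mpr hb.1.ne_zero
            have : V (nm b / Q) = 0 := by
              by_contra hne
              have h6 := hRV _ hne
              rw [div_le_iff₀ hQ] at h6
              linarith
            rw [this, mul_zero]
          · rfl
        simp only [this, tsum_zero, mul_zero]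
      simp only [e1, mul_zero, ite_self, tsum_zero, norm_zero]
      positivity

set_option maxHeartbeats 1000000 in
open Classical in
/-- the bound for one `e` -/
theorem e_boundQ {θ : ℝ} (hθ : 7 / 8 < θ) (hθ1 : θ ≤ 1) {r : ℕ} (hr0 : 0 < r) {y δ η η' : ℝ}
    (hy : 0 < y) (hδ : 0 < δ) (hyδ : y + δ < 1) (hη : 0 < η)
    (hN : NatNP3Q (fun P => P.l₁ ≠ -4) θ r y δ η η')
    {h₀ h V om : ℝ → ℂ} (hh₀ : HW h₀) (hh : HW h) (hV : SW V) (hom : SW om)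
    (h36 : (36 : Eis) ∣ M) (hr : Rad0 M m₀) {ψ : Eis → ℂ} (hψ : HC M ψ) (l : ℤ)
    (hf : ∀ b, Sm M b → ‖End699.tw ψ l b‖ ≤ 1) {d ε q : ℝ} (hd : 0 < d) (hdη : d ≤ η / 2)
    (hd1 : d ≤ 1 / 2) (hε : 0 < ε) (hq : 1 ≤ q) :
    ∃ C R : ℝ, 0 ≤ C ∧ ∀ Q : ℝ, R ≤ Q → 1 ≤ Q → (nm M : ℝ) * Q ^ δ * 9 < Q ^ (y / r) →
      ∀ e : Eis, Sm M e →
      (nm e : ℝ) ^ 5 * ‖∑' k : Eis, (if ¬ Prn M k then
        Wk h₀ h r y δ Q M m₀ (End699.tw ψ l) V om (Q ^ (1 / 2 + (y + δ) + d) / q) (Q / q) e k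
          else 0)‖ ≤
      C * (Q ^ (2 * ε + ((1 / 2 + (y + δ)) / 3 + (y + δ) + θ - η' + d)) + 1) *
        (nm e : ℝ) ^ (-(5 / 4) : ℝ) := by
  obtain ⟨C₁, A, R, hC₁, hR1, Hd⟩ := dyadicQ (by linarith : (0 : ℝ) ≤ θ) hθ1 hδ.le hN hh₀ hh hV
    h36 hr hψ l hε
  obtain ⟨Ct, hCt, Ht⟩ := NSumS_triv hh₀ hh hV r hr0 y δ
  set A' : ℕ := ⌈15 / η⌉₊ + 2 with hA'
  obtain ⟨C₃, hC₃, Hk⟩ := UrA699.kcore hom A A'
  obtain ⟨y₀, hy₀⟩ : ∃ y₀ : ℝ, y₀ = y + δ := ⟨_, rfl⟩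
  have hy₀0 : 0 < y₀ := by rw [hy₀]; linarith
  have hy₀1 : y₀ < 1 := by rw [hy₀]; exact hyδ
  rw [← hy₀] at Hd Ht ⊢
  have h2M : (2 : Eis) ∣ M := Dvd.dvd.trans ⟨18, by norm_num⟩ h36
  have hH := L6106.hc_m0 hr.prim
  refine ⟨C₃ * (1 + (2 + η) / ε) * C₁ * 3 + C₃ * (nm (3 * m₀) * (Ct * (4 * Real.exp 1 ^ A'))), R,
    by positivity, ?_⟩
  intro Q hRQ hQ1 hMQ e he
  have hQ0 : 0 < Q := by linarith
  have hq0 : 0 < q := by linarith
  have hn1 : (1 : ℝ) ≤ nm e := by exact_mod_cast nm_pos.mpr he.1.ne_zero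
  set n : ℝ := (nm e : ℝ) with hn
  have hn0 : 0 < n := by linarith
  set K : ℝ := Q ^ (1 / 2 + y₀ + d) / q with hK
  have hK0 : 0 < K := by positivity
  set X : ℝ := K / n ^ 6 with hX
  have hX0 : 0 < X := by positivity
  have hXle : X ≤ Q ^ (1 / 2 + y₀ + d) / n ^ 6 := by
    rw [hX, hK]
    gcongr
    exact div_le_self (by positivity) hq
  set Qe : ℝ := Q / q / n ^ 6 with hQe
  have hQe0 : 0 < Qe := by positivity
  have hQe1 : Qe ≤ Q / n ^ 6 := by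
    rw [hQe]
    gcongr
    exact div_le_self hQ0.le hq
  have hQe2 : Qe ≤ Q := hQe1.trans (div_le_self hQ0.le (one_le_pow₀ hn1))
  set G : Eis → ℂ := fun k => FE47.DM (3 * m₀) (fun a => sy a m₀) k *
    NSumS h₀ h r y Q (δ * Real.log Q) Finset.univ M (End699.tw ψ l) (fun _ => 1) V Qe k with hG
  -- the sum
  have hsum : (∑' k : Eis, (if ¬ Prn M k then
        Wk h₀ h r y δ Q M m₀ (End699.tw ψ l) V om K (Q / q) e k else 0)) =
      ∑' k : Eis, if k ≠ 0 ∧ ¬ Prn M k then G k * Ur om (nm k / X) else 0 := by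
    refine tsum_congr fun k => ?_
    have e1 : (nm k : ℝ) * n ^ 6 / K = nm k / X := by rw [hX]; field_simp
    by_cases hk : k = 0
    · have h0 : Wk h₀ h r y δ Q M m₀ (End699.tw ψ l) V om K (Q / q) e k = 0 := by
        unfold Wk
        rw [hk, DM_zero h36 hr, zero_mul, zero_mul]
      rw [h0, ite_self, if_neg (fun h => h.1 hk)]
    · by_cases hp : Prn M k
      · rw [if_neg (not_not.mpr hp), if_neg (fun h => h.2 hp)]
      · rw [if_pos hp, if_pos ⟨hk, hp⟩]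
        unfold Wk
        rw [← hn, e1, hG]
        ring
  -- the trivial bound
  set B₀ : ℝ := nm (3 * m₀) * (Ct * Q ^ 2 * Q ^ (3 / 2 : ℝ)) with hB₀
  have hGb : ∀ k, ‖G k‖ ≤ B₀ := by
    intro k
    rw [hG, hB₀]
    simp only
    rw [norm_mul]
    have h1 := FE47.norm_DM_le hH k
    have h2 := Ht M (End699.tw ψ l) (fun _ => 1) h2M hf (fun _ => by simp) Q Qe hQ1 hQe0 k
    have h3 : Ct * Qe ^ 2 * Q ^ (3 / 2 * y₀) ≤ Ct * Q ^ 2 * Q ^ (3 / 2 : ℝ) := by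
      have h4 : Q ^ (3 / 2 * y₀) ≤ Q ^ (3 / 2 : ℝ) :=
        Real.rpow_le_rpow_of_exponent_le hQ1 (by linarith)
      gcongr
    exact mul_le_mul h1 (h2.trans h3) (norm_nonneg _) (Nat.cast_nonneg _)
  -- the cut
  set L : ℝ := (1 / 2 + y₀ + η) * Real.log Q with hL
  have hlog : 0 ≤ Real.log Q := Real.log_nonneg hQ1
  have hL0 : 0 ≤ L := by positivity
  set N : ℕ := ⌊L⌋₊ with hNdef
  have hexpL : Real.exp L = Q ^ (1 / 2 + y₀ + η) := by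
    rw [hL, Real.rpow_def_of_pos hQ0, mul_comm]
  set T : ℝ := C₁ * Q ^ ε * TgB θ η' η' y₀ Q Qe X (Q ^ y₀) with hT
  have hTg0 := TgB_nonneg (θ := θ) (η₁ := η') (η₂ := η') (y₀ := y₀) (Cc := Q ^ y₀) hQ0 hQe0.le
    (by positivity) hX0.le
  have hT0 : 0 ≤ T := by positivity
  have hmain : ∀ n' ≤ N, ∀ t : ℝ, ‖∑' k : Eis, if k ≠ 0 ∧ ¬ Prn M k then
      Weight600.pw t (nm k) * (h00 (Real.log (nm k) - n') : ℂ) * G k else 0‖ ≤
      (1 + |t|) ^ A * ((1 + Real.exp n' / X) * T) := by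
    intro n' hn' t
    have h1 : Real.exp n' ≤ Q ^ (1 / 2 + y₀ + η) := by
      rw [← hexpL]
      apply Real.exp_le_exp.mpr
      exact (Nat.cast_le.mpr hn').trans (Nat.floor_le hL0)
    refine (Hd Q Qe hRQ hQe0 hQe2 hMQ n' h1 t).trans ?_
    refine mul_le_mul_of_nonneg_left ?_ (by positivity)
    have h2 := TgB_H (θ := θ) (η₁ := η') (η₂ := η') (y₀ := y₀) (Cc := Q ^ y₀) hQ0 hQe0.le
      (by positivity) (Real.exp_pos n').le hX0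
    calc C₁ * Q ^ ε * TgB θ η' η' y₀ Q Qe (Real.exp n') (Q ^ y₀)
        ≤ C₁ * Q ^ ε * ((1 + Real.exp n' / X) * TgB θ η' η' y₀ Q Qe X (Q ^ y₀)) := by gcongr
      _ = _ := by rw [hT]; ring
  have hk : ‖∑' k : Eis, if k ≠ 0 ∧ ¬ Prn M k then G k * Ur om (nm k / X) else 0‖ ≤
      C₃ * ((N + 1) * T + B₀ * (X / Real.exp N) ^ A' * (1 + X) ^ 2) := by
    have h1 := Hk (fun k => ¬ Prn M k) G X B₀ T N hX0 hT0 hGb
      (fun n' hn' t => by convert hmain n' hn' t)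
    convert h1
  rw [hsum]
  -- the first part
  have hN1 : (N : ℝ) + 1 ≤ (1 + (2 + η) / ε) * Q ^ ε := by
    have h1 : (N : ℝ) ≤ L := Nat.floor_le hL0
    have h2 : L ≤ (2 + η) * (Q ^ ε / ε) := by
      rw [hL]
      have := Real.log_le_rpow_div hQ0.le hε
      gcongr
      linarith
    have h3 : 1 ≤ Q ^ ε := Real.one_le_rpow hQ1 hε.le
    calc (N : ℝ) + 1 ≤ (2 + η) * (Q ^ ε / ε) + Q ^ ε := by linarith
      _ = _ := by ring
  have hp1 : n ^ 5 * (C₃ * ((N + 1) * T)) ≤ C₃ * (1 + (2 + η) / ε) * C₁ * 3 *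
      Q ^ (2 * ε + ((1 / 2 + y₀) / 3 + y₀ + θ - η' + d)) * n ^ (-(5 / 4) : ℝ) := by
    have h1 := target_e (η' := η') hθ hQ1 hn1 hd.le hX0.le hXle hQe0.le hQe1
    have h2 : Q ^ (2 * ε + ((1 / 2 + y₀) / 3 + y₀ + θ - η' + d)) =
        Q ^ ε * Q ^ ε * Q ^ ((1 / 2 + y₀) / 3 + y₀ + θ - η' + d) := by
      rw [← Real.rpow_add hQ0, ← Real.rpow_add hQ0]; ring_nf
    rw [h2]
    calc n ^ 5 * (C₃ * ((N + 1) * T))
        = C₃ * ((N : ℝ) + 1) * (C₁ * Q ^ ε) * (n ^ 5 * TgB θ η' η' y₀ Q Qe X (Q ^ y₀)) := by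
          rw [hT]; ring
      _ ≤ C₃ * ((1 + (2 + η) / ε) * Q ^ ε) * (C₁ * Q ^ ε) *
          (3 * Q ^ ((1 / 2 + y₀) / 3 + y₀ + θ - η' + d) * n ^ (-(5 / 4) : ℝ)) := by gcongr
      _ = _ := by ring
  -- the tail
  have hp2 : n ^ 5 * (C₃ * (B₀ * (X / Real.exp N) ^ A' * (1 + X) ^ 2)) ≤
      C₃ * (nm (3 * m₀) * (Ct * (4 * Real.exp 1 ^ A'))) * n ^ (-(5 / 4) : ℝ) := by
    have h1 : X / Real.exp N ≤ Real.exp 1 * Q ^ (-(η / 2)) * (n ^ 6)⁻¹ := by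
      have h2 : Q ^ (1 / 2 + y₀ + η) / Real.exp 1 ≤ Real.exp N := by
        rw [← hexpL, ← Real.exp_sub]
        exact Real.exp_le_exp.mpr (by linarith [Nat.lt_floor_add_one L])
      rw [div_le_iff₀ (Real.exp_pos _)]
      have h3 : Real.exp 1 * Q ^ (-(η / 2)) * (n ^ 6)⁻¹ * (Q ^ (1 / 2 + y₀ + η) / Real.exp 1) ≤
          Real.exp 1 * Q ^ (-(η / 2)) * (n ^ 6)⁻¹ * Real.exp N := by gcongr
      refine le_trans ?_ h3
      have h4 : Real.exp 1 * Q ^ (-(η / 2)) * (n ^ 6)⁻¹ * (Q ^ (1 / 2 + y₀ + η) / Real.exp 1) =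
          Q ^ (1 / 2 + y₀ + η / 2) / n ^ 6 := by
        have h5 : Q ^ (-(η / 2)) * Q ^ (1 / 2 + y₀ + η) = Q ^ (1 / 2 + y₀ + η / 2) := by
          rw [← Real.rpow_add hQ0]; ring_nf
        rw [← h5]
        field_simp
      rw [h4]
      refine hXle.trans ?_
      have h5 : Q ^ (1 / 2 + y₀ + d) ≤ Q ^ (1 / 2 + y₀ + η / 2) :=
        Real.rpow_le_rpow_of_exponent_le hQ1 (by linarith)
      gcongr
    have h6 : (X / Real.exp N) ^ A' ≤ Real.exp 1 ^ A' * Q ^ (-(15 / 2) : ℝ) * (n ^ 12)⁻¹ := by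
      have h7 : (X / Real.exp N) ^ A' ≤ (Real.exp 1 * Q ^ (-(η / 2)) * (n ^ 6)⁻¹) ^ A' :=
        pow_le_pow_left₀ (by positivity) h1 _
      refine h7.trans ?_
      rw [mul_pow, mul_pow]
      have h8 : (Q ^ (-(η / 2))) ^ A' ≤ Q ^ (-(15 / 2) : ℝ) := by
        rw [← Real.rpow_natCast, ← Real.rpow_mul hQ0.le]
        apply Real.rpow_le_rpow_of_exponent_le hQ1
        have h9 : 15 / η ≤ (A' : ℝ) := by
          rw [hA']; push_cast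
          linarith [Nat.le_ceil (15 / η)]
        rw [div_le_iff₀ hη] at h9
        linarith
      have h10 : ((n ^ 6)⁻¹) ^ A' ≤ (n ^ 12)⁻¹ := by
        have h11 : (n ^ 6)⁻¹ ≤ 1 := inv_le_one_of_one_le₀ (one_le_pow₀ hn1)
        calc ((n ^ 6)⁻¹) ^ A' ≤ ((n ^ 6)⁻¹) ^ 2 :=
              pow_le_pow_of_le_one (by positivity) h11 (by rw [hA']; omega)
          _ = (n ^ 12)⁻¹ := by rw [← inv_pow, ← inv_pow, ← pow_mul]
      gcongr
    have h12 : (1 + X) ^ 2 ≤ 4 * Q ^ (4 : ℝ) := by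
      have h13 : X ≤ Q ^ (2 : ℝ) := by
        refine hXle.trans ((div_le_self (by positivity) (one_le_pow₀ hn1)).trans ?_)
        exact Real.rpow_le_rpow_of_exponent_le hQ1 (by linarith)
      have h14 : (1 : ℝ) ≤ Q ^ (2 : ℝ) := Real.one_le_rpow hQ1 (by norm_num)
      have h15 : Q ^ (4 : ℝ) = (Q ^ (2 : ℝ)) ^ 2 := by
        rw [← Real.rpow_natCast, ← Real.rpow_mul hQ0.le]; norm_num
      rw [h15]
      calc (1 + X) ^ 2 ≤ (Q ^ (2 : ℝ) + Q ^ (2 : ℝ)) ^ 2 := by gcongr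
        _ = _ := by ring
    have h16 : Q ^ 2 * Q ^ (3 / 2 : ℝ) * Q ^ (-(15 / 2) : ℝ) * Q ^ (4 : ℝ) = 1 := by
      have : Q ^ 2 = Q ^ (2 : ℝ) := by exact_mod_cast (Real.rpow_natCast Q 2).symm
      rw [this, ← Real.rpow_add hQ0, ← Real.rpow_add hQ0, ← Real.rpow_add hQ0]
      norm_num
    have h17 : n ^ 5 * (n ^ 12)⁻¹ ≤ n ^ (-(5 / 4) : ℝ) := by
      have h18 : n ^ 5 * (n ^ 12)⁻¹ = n ^ (-7 : ℝ) := by
        have e1 : n ^ (-7 : ℝ) = (n ^ 7)⁻¹ := by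
          rw [Real.rpow_neg hn0.le]
          congr 1
          exact_mod_cast Real.rpow_natCast n 7
        rw [e1]
        field_simp
      rw [h18]
      exact Real.rpow_le_rpow_of_exponent_le hn1 (by norm_num)
    calc n ^ 5 * (C₃ * (B₀ * (X / Real.exp N) ^ A' * (1 + X) ^ 2))
        ≤ n ^ 5 * (C₃ * (B₀ * (Real.exp 1 ^ A' * Q ^ (-(15 / 2) : ℝ) * (n ^ 12)⁻¹) *
          (4 * Q ^ (4 : ℝ)))) := by gcongr
      _ = C₃ * (nm (3 * m₀) * (Ct * (4 * Real.exp 1 ^ A'))) *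
          (Q ^ 2 * Q ^ (3 / 2 : ℝ) * Q ^ (-(15 / 2) : ℝ) * Q ^ (4 : ℝ)) *
          (n ^ 5 * (n ^ 12)⁻¹) := by rw [hB₀]; ring
      _ ≤ C₃ * (nm (3 * m₀) * (Ct * (4 * Real.exp 1 ^ A'))) * 1 * n ^ (-(5 / 4) : ℝ) := by
          rw [h16]
          gcongr
      _ = _ := by ring
  have hfin : n ^ 5 * ‖∑' k : Eis, if k ≠ 0 ∧ ¬ Prn M k then G k * Ur om (nm k / X) else 0‖ ≤
      n ^ 5 * (C₃ * ((N + 1) * T)) +
        n ^ 5 * (C₃ * (B₀ * (X / Real.exp N) ^ A' * (1 + X) ^ 2)) := by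
    rw [← mul_add, ← mul_add]
    exact mul_le_mul_of_nonneg_left hk (by positivity)
  refine hfin.trans ((add_le_add hp1 hp2).trans ?_)
  set E := Q ^ (2 * ε + ((1 / 2 + y₀) / 3 + y₀ + θ - η' + d)) with hE
  have hE0 : 0 < E := by positivity
  have hn54 : 0 < n ^ (-(5 / 4) : ℝ) := by positivity
  have c1 : 0 ≤ C₃ * (1 + (2 + η) / ε) * C₁ * 3 := by positivity
  have c2 : 0 ≤ C₃ * (nm (3 * m₀) * (Ct * (4 * Real.exp 1 ^ A'))) := by positivity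
  nlinarith [mul_nonneg c1 hn54.le, mul_nonneg (mul_nonneg c2 hE0.le) hn54.le]

/-- **NPL** -/
theorem leafNPLQ {θ : ℝ} {r : ℕ} {y δ η η' : ℝ} (hθ : 7 / 8 < θ) (hθ1 : θ ≤ 1) (hr0 : 0 < r)
    (hy : 0 < y) (hδ : 0 < δ) (hyδ : y + δ < 1) (h10 : 10 * δ ≤ y / r) (hη : 0 < η) (hη' : 0 < η')
    (hN : NatNP3Q (fun P => P.l₁ ≠ -4) θ r y δ η η') : PropNPL3 θ r y δ := by
  classical
  refine ⟨min (min (η / 2) (η' / 4)) (1 / 2), by positivity, fun d hd hdle => ?_⟩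
  have hd1 : d ≤ η / 2 := (hdle.trans (min_le_left _ _)).trans (min_le_left _ _)
  have hd2 : d ≤ η' / 4 := (hdle.trans (min_le_left _ _)).trans (min_le_right _ _)
  have hd3 : d ≤ 1 / 2 := hdle.trans (min_le_right _ _)
  refine ⟨min (η' / 2) (1 / 2), by positivity, ?_⟩
  intro M m₀ h36 hr ψ l hψ hl ξ hξ h₀ h hh₀ hh om hom V hV q hq
  have hf : ∀ b, Sm M b → ‖End699.tw ψ l b‖ ≤ 1 := by
    intro b hb
    unfold End699.tw
    rw [norm_mul]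
    exact mul_le_one₀ (hψ.char.norm_le hb.1) (norm_nonneg _) (norm_ang_le l b)
  obtain ⟨C, R, hC, H⟩ := e_boundQ hθ hθ1 hr0 hy hδ hyδ hη hN hh₀ hh hV hom h36 hr hψ l hf hd hd1
    hd3 (show 0 < η' / 8 by linarith) hq
  obtain ⟨Bv, R', hBv, hR'1, hVB, hRV⟩ := NatZ571.SW.bounds hV
  set S : ℝ := ∑' e : Eis, (nm e : ℝ) ^ (-(5 / 4) : ℝ) with hS
  have hSs : Summable (fun e : Eis => (nm e : ℝ) ^ (-(5 / 4) : ℝ)) :=
    LatSum413.summable_nm_rpow (by norm_num)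
  have hS0 : 0 ≤ S := tsum_nonneg fun e => by positivity
  -- the threshold
  have hev : ∀ᶠ Q : ℝ in Filter.atTop, R ≤ Q ∧ 1 ≤ Q ∧ (nm M : ℝ) * Q ^ δ * 9 < Q ^ (y / r) := by
    have hyr : 0 < y / r - δ := by linarith
    have ht := tendsto_rpow_atTop hyr
    filter_upwards [ht.eventually_gt_atTop ((nm M : ℝ) * 9), Filter.eventually_gt_atTop 0,
      Filter.eventually_ge_atTop R, Filter.eventually_ge_atTop 1] with Q b1 b2 b3 b4
    refine ⟨b3, b4, ?_⟩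
    have b5 : Q ^ (y / r) = Q ^ (y / r - δ) * Q ^ δ := by
      rw [← Real.rpow_add b2]; ring_nf
    rw [b5]
    have b6 : 0 < Q ^ δ := by positivity
    nlinarith
  obtain ⟨Q₁, hQ₁⟩ := Filter.eventually_atTop.mp hev
  refine ⟨2 * C * S, Q₁, fun Q hQ => ?_⟩
  obtain ⟨hRQ, hQ1, hMQ⟩ := hQ₁ Q hQ
  have hQ0 : 0 < Q := by linarith
  have hq0 : 0 < q := by linarith
  have hK0 : 0 < Q ^ (1 / 2 + (y + δ) + d) / q := by positivity
  have hQq : 0 < Q / q := by positivity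
  refine ⟨LK3_split hV hom hr hK0 hQq _, ?_⟩
  rw [LK3_eq hRV hQq]
  set E : ℝ := Q ^ (2 * (η' / 8) + ((1 / 2 + (y + δ)) / 3 + (y + δ) + θ - η' + d)) with hE
  have h1 : ∀ e ∈ SF M ⌊R' * (Q / q)⌋₊, ‖ξ e * (nm e : ℂ) ^ 5 * ∑' k : Eis,
      @ite ℂ (¬ Prn M k) (Classical.propDecidable _)
      (Wk h₀ h r y δ Q M m₀ (End699.tw ψ l) V om (Q ^ (1 / 2 + (y + δ) + d) / q) (Q / q) e k)
        0‖ ≤ C * (E + 1) * (nm e : ℝ) ^ (-(5 / 4) : ℝ) := by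
    intro e he
    have h2 := H Q hRQ hQ1 hMQ e (mem_SF.mp he).2
    have h9 : (∑' k : Eis, @ite ℂ (¬ Prn M k) (Classical.propDecidable _)
        (Wk h₀ h r y δ Q M m₀ (End699.tw ψ l) V om (Q ^ (1 / 2 + (y + δ) + d) / q) (Q / q) e k)
        0) = ∑' k : Eis, if ¬ Prn M k then
        Wk h₀ h r y δ Q M m₀ (End699.tw ψ l) V om (Q ^ (1 / 2 + (y + δ) + d) / q) (Q / q) e k
        else 0 := by
      refine tsum_congr fun k => ?_
      by_cases hp : Prn M k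
      · simp [hp]
      · simp [hp]
    rw [h9]
    refine le_trans ?_ h2
    rw [norm_mul, norm_mul, norm_pow, Complex.norm_natCast]
    refine mul_le_mul_of_nonneg_right ?_ (norm_nonneg _)
    exact mul_le_of_le_one_left (by positivity) (hξ e)
  refine (norm_sum_le_of_le _ h1).trans ?_
  rw [← Finset.mul_sum]
  have h3 : ∑ e ∈ SF M ⌊R' * (Q / q)⌋₊, (nm e : ℝ) ^ (-(5 / 4) : ℝ) ≤ S :=
    hSs.sum_le_tsum _ (fun e _ => by positivity)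
  have h4 : (Q ^ (1 / 2 + (y + δ) + d)) ^ (1 / 3 : ℝ) *
      Q ^ ((y + δ) + θ - min (η' / 2) (1 / 2)) =
      Q ^ ((1 / 2 + (y + δ) + d) / 3 + ((y + δ) + θ - min (η' / 2) (1 / 2))) := by
    rw [← Real.rpow_mul hQ0.le, ← Real.rpow_add hQ0]; ring_nf
  have m1 : min (η' / 2) (1 / 2) ≤ η' / 2 := min_le_left _ _
  have m2 : min (η' / 2) (1 / 2) ≤ 1 / 2 := min_le_right _ _
  have h5 : E ≤ Q ^ ((1 / 2 + (y + δ) + d) / 3 + ((y + δ) + θ - min (η' / 2) (1 / 2))) := by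
    rw [hE]
    apply Real.rpow_le_rpow_of_exponent_le hQ1
    linarith
  have h6 : 1 ≤ Q ^ ((1 / 2 + (y + δ) + d) / 3 + ((y + δ) + θ - min (η' / 2) (1 / 2))) := by
    apply Real.one_le_rpow hQ1
    linarith
  rw [mul_assoc (2 * C * S), h4]
  set F := Q ^ ((1 / 2 + (y + δ) + d) / 3 + ((y + δ) + θ - min (η' / 2) (1 / 2))) with hF
  have hE0 : 0 ≤ E := by positivity
  calc C * (E + 1) * ∑ e ∈ SF M ⌊R' * (Q / q)⌋₊, (nm e : ℝ) ^ (-(5 / 4) : ℝ)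
      ≤ C * (F + F) * S := by gcongr
    _ = _ := by ring

end Crest.Agent.R017.NPL699
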