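import Crest.Agent.R017.NV7_986
import Crest.Agent.R017.DefQ_986

/-!
# Row 17, leaf L3 for a class `Q` of data (helper986)

* `n3b_of` : `NatNP3` at `P` from `DOUT3i` at the data `DPar.sc P n`
* `natNP3Q_of` : `DOUT3iQ Q → NatNP3Q Q`
-/

set_option autoImplicit false

noncomputable section

open scoped ComplexConjugate ContDiff

namespace Crest.Agent.R017.Asm986

open Crest.Agent.R012 Crest.Agent.R012.Eis Crest.Agent.R012.PSer47 Crest.Agent.R012.Div277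
open Crest.Agent.R017.End699 Crest.Agent.R017.Sx545 Crest.Agent.R017.B770

/-- D-OUT for all `Q > 0`. -/
theorem dout3_extb {θ : ℝ} {r : ℕ} {y δ η : ℝ} (hθ : θ ≤ 1) {P : DPar}
    (hD : ∀ n, D3b θ r y δ η (DPar.sc P n)) (hP : P.OK) {ε C₁ : ℝ} (hε : 0 < ε) (hC₁ : 0 < C₁) :
    ∃ C A : ℝ, 0 ≤ C ∧ 0 ≤ A ∧
    ∀ (Q₀ Q : ℝ), 0 < Q → Q ≤ Q₀ → 2 ≤ Q₀ → ∀ κ : ℝ, -1 ≤ κ → κ ≤ δ * Real.log Q₀ →
    ∀ (J : Finset (Fin r)) (H : ℝ), 0 < H → H ≤ Q₀ ^ (1 / 2 + (y + δ) + η) →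
    ∀ d₁ d₂ d₃ e : Eis, d₁ ≠ 0 → d₂ ≠ 0 → d₃ ≠ 0 → Sm P.n e →
      (∀ p : Eis, Prime p → p ∣ e → p ^ 5 ∣ e) →
      Q * nm e ≤ C₁ * Q₀ * (CJ r y Q₀ J * Real.exp κ / Q₀ ^ (y + δ)) →
    ∀ (t₁ t₂ τ : ℝ) (𝒟 : Finset Eis), (∀ D ∈ 𝒟, Sm P.n D ∧ Squarefree D) →
    ∀ u v : Eis → ℝ, (∀ D, 0 ≤ u D ∧ u D ≤ C₁) → (∀ D, 0 ≤ v D ∧ v D ≤ C₁) →
      ∑ D ∈ 𝒟, ‖P.ds r y Q₀ (κ - u D) J (Q * Real.exp (-(v D))) H d₁ d₂ d₃ e t₁ t₂ τ D‖ ≤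
        C * ((nm d₁ : ℝ) * nm d₂ * nm d₃ * nm e * Q₀) ^ ε * (1 + |t₁| + |t₂| + |τ|) ^ A *
          TgB θ η (if δ / 2 * Real.log Q₀ ≤ κ then η else -η) (y + δ) Q₀ Q H
            (CJ r y Q₀ J * Real.exp κ) := by
  classical
  obtain ⟨β, hβ1, hβ⟩ := sw_bound hP.V
  obtain ⟨N, hN⟩ := pow_unbounded_of_one_lt β (one_lt_two (α := ℝ))
  have hC₁' : 0 < 2 ^ (N + 2) * C₁ := by positivity
  have hC₁le : C₁ ≤ 2 ^ (N + 2) * C₁ := by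
    have : (1 : ℝ) ≤ 2 ^ (N + 2) := one_le_pow₀ one_le_two
    nlinarith
  choose C A hC0 hA0 hC using fun n : ℕ =>
    hD n ε (2 ^ (N + 2) * C₁) hε hC₁'
  set A' : ℝ := ∑ n ∈ Finset.range (N + 2), A n with hA'
  refine ⟨∑ n ∈ Finset.range (N + 2), (2 : ℝ) ^ n * C n, A', ?_, ?_, ?_⟩
  · exact Finset.sum_nonneg fun n _ => mul_nonneg (by positivity) (hC0 n)
  · exact Finset.sum_nonneg fun n _ => hA0 n
  intro Q₀ Q hQ hQQ₀ hQ₀ κ hκ1 hκ2 J H hH hHle d₁ d₂ d₃ e hd₁ hd₂ hd₃ he he5 hQle t₁ t₂ τ 𝒟 h𝒟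
    u v hu hv
  have hQ₀0 : 0 ≤ Q₀ := by linarith
  set T : ℝ := 1 + |t₁| + |t₂| + |τ| with hT
  have hT1 : 1 ≤ T := by
    have := abs_nonneg t₁
    have := abs_nonneg t₂
    have := abs_nonneg τ
    rw [hT]; linarith
  have hT0 : 0 ≤ T := by linarith
  have hCJ := CJ_nonneg (r := r) (y := y) hQ₀0 J
  have hCc : 0 ≤ CJ r y Q₀ J * Real.exp κ := by positivity
  set η₂ : ℝ := (if δ / 2 * Real.log Q₀ ≤ κ then η else -η) with hη₂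
  set E₁ : ℝ := ((nm d₁ : ℝ) * nm d₂ * nm d₃ * nm e * Q₀) ^ ε with hE₁
  have hE₁0 : 0 ≤ E₁ := by positivity
  have hR0 : 0 ≤ (∑ n ∈ Finset.range (N + 2), (2 : ℝ) ^ n * C n) * E₁ * T ^ A' *
          TgB θ η η₂ (y + δ) Q₀ Q H (CJ r y Q₀ J * Real.exp κ) := by
    have h1 : 0 ≤ ∑ n ∈ Finset.range (N + 2), (2 : ℝ) ^ n * C n :=
      Finset.sum_nonneg fun n _ => mul_nonneg (by positivity) (hC0 n)
    have h2 := TgB_nonneg (θ := θ) (η₁ := η) (η₂ := η₂) (y₀ := y + δ) hQ₀0 hQ.le hH.le hCc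
    positivity
  by_cases hβQ : β * Q < 1
  · refine (Finset.sum_nonpos fun D _ => ?_).trans hR0
    have hv1 : Real.exp (-(v D)) ≤ 1 := Real.exp_le_one_iff.mpr (by linarith [(hv D).1])
    rw [DPar.ds_zero P hβ (mul_pos hQ (Real.exp_pos _)) (lt_of_le_of_lt ?_ hβQ), norm_zero]
    have : Q * Real.exp (-(v D)) ≤ Q := mul_le_of_le_one_right hQ.le hv1
    nlinarith
  push Not at hβQ
  -- choose `n`
  have hn : ∃ n < N + 2, 1 ≤ (2 : ℝ) ^ n * Q ∧ (2 : ℝ) ^ n * Q ≤ Q₀ := by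
    by_cases hQ1 : 1 ≤ Q
    · exact ⟨0, by omega, by simpa using hQ1, by simpa using hQQ₀⟩
    · push Not at hQ1
      have h1 : 1 ≤ Q⁻¹ := (one_le_inv₀ hQ).mpr hQ1.le
      obtain ⟨m, hm1, hm2⟩ := exists_nat_pow_near h1 (one_lt_two (α := ℝ))
      have hm3 : (2 : ℝ) ^ m * Q ≤ 1 := by
        calc (2 : ℝ) ^ m * Q ≤ Q⁻¹ * Q := by gcongr
          _ = 1 := inv_mul_cancel₀ hQ.ne'
      have hm4 : 1 ≤ (2 : ℝ) ^ (m + 1) * Q := by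
        calc 1 = Q⁻¹ * Q := (inv_mul_cancel₀ hQ.ne').symm
          _ ≤ (2 : ℝ) ^ (m + 1) * Q := by gcongr
      refine ⟨m + 1, ?_, hm4, ?_⟩
      · have h3 : (2 : ℝ) ^ m < 2 ^ N := by
          refine hm1.trans_lt (lt_of_le_of_lt ?_ hN)
          rw [inv_le_iff_one_le_mul₀ hQ]; exact hβQ
        have := (pow_lt_pow_iff_right₀ (one_lt_two (α := ℝ))).mp h3
        omega
      · calc (2 : ℝ) ^ (m + 1) * Q = 2 * (2 ^ m * Q) := by ring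
          _ ≤ 2 * 1 := by gcongr
          _ ≤ Q₀ := by linarith
  obtain ⟨n, hnN, hn1, hn2⟩ := hn
  have hpow : (2 : ℝ) ^ n ≤ 2 ^ (N + 2) := pow_le_pow_right₀ (by norm_num) (by omega)
  have hQle' : (2 : ℝ) ^ n * Q * nm e ≤
      2 ^ (N + 2) * C₁ * Q₀ * (CJ r y Q₀ J * Real.exp κ / Q₀ ^ (y + δ)) := by
    calc (2 : ℝ) ^ n * Q * nm e = 2 ^ n * (Q * nm e) := by ring
      _ ≤ 2 ^ (N + 2) * (C₁ * Q₀ * (CJ r y Q₀ J * Real.exp κ / Q₀ ^ (y + δ))) :=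
          mul_le_mul hpow hQle (by positivity) (by positivity)
      _ = _ := by ring
  have key := hC n Q₀ ((2 : ℝ) ^ n * Q) hn1 hn2 κ hκ1 hκ2 J H hH hHle d₁ d₂ d₃ e hd₁ hd₂ hd₃
    he he5 hQle' t₁ t₂ τ 𝒟 h𝒟 u v (fun D => ⟨(hu D).1, (hu D).2.trans hC₁le⟩)
    (fun D => ⟨(hv D).1, (hv D).2.trans hC₁le⟩)
  have e1 : ∀ D, P.ds r y Q₀ (κ - u D) J (Q * Real.exp (-(v D))) H d₁ d₂ d₃ e t₁ t₂ τ D =
      (DPar.sc P n).ds r y Q₀ (κ - u D) J ((2 : ℝ) ^ n * Q * Real.exp (-(v D))) H d₁ d₂ d₃ e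
        t₁ t₂ τ D := by
    intro D
    rw [DPar.ds_sc P n, mul_assoc]
  simp only [e1]
  refine key.trans ?_
  have h1 : TgB θ η η₂ (y + δ) Q₀ ((2 : ℝ) ^ n * Q) H (CJ r y Q₀ J * Real.exp κ) ≤
      (2 : ℝ) ^ n * TgB θ η η₂ (y + δ) Q₀ Q H (CJ r y Q₀ J * Real.exp κ) :=
    TgB_mul_Q hQ₀0 hQ.le hH.le hCc (one_le_pow₀ one_le_two) hθ
  have h2 : T ^ A n ≤ T ^ A' := by
    apply Real.rpow_le_rpow_of_exponent_le hT1
    exact Finset.single_le_sum (f := fun n => A n) (fun i _ => hA0 _)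
      (Finset.mem_range.mpr hnN)
  have h3 : (2 : ℝ) ^ n * C n ≤ ∑ n ∈ Finset.range (N + 2), (2 : ℝ) ^ n * C n :=
    Finset.single_le_sum (f := fun n => (2 : ℝ) ^ n * C n)
      (fun i _ => mul_nonneg (by positivity) (hC0 i)) (Finset.mem_range.mpr hnN)
  have h4 := TgB_nonneg (θ := θ) (η₁ := η) (η₂ := η₂) (y₀ := y + δ) hQ₀0 hQ.le hH.le hCc
  have h5 := TgB_nonneg (θ := θ) (η₁ := η) (η₂ := η₂) (y₀ := y + δ) (Q := (2 : ℝ) ^ n * Q)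
    hQ₀0 (by positivity) hH.le hCc
  have hCn := hC0 n
  calc C n * E₁ * T ^ A n *
        TgB θ η η₂ (y + δ) Q₀ ((2 : ℝ) ^ n * Q) H (CJ r y Q₀ J * Real.exp κ)
      ≤ C n * E₁ * T ^ A' *
        ((2 : ℝ) ^ n * TgB θ η η₂ (y + δ) Q₀ Q H (CJ r y Q₀ J * Real.exp κ)) := by gcongr
    _ = ((2 : ℝ) ^ n * C n) * E₁ * T ^ A' *
        TgB θ η η₂ (y + δ) Q₀ Q H (CJ r y Q₀ J * Real.exp κ) := by ring
    _ ≤ _ := by gcongr

/-- D-OUT with an indexed outer sum -/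
theorem dout3_idxb {θ : ℝ} {r : ℕ} {y δ η : ℝ} (hθ : θ ≤ 1) {P : DPar}
    (hD : ∀ n, D3b θ r y δ η (DPar.sc P n)) (hP : P.OK) {ε C₁ : ℝ} (hε : 0 < ε) (hC₁ : 0 < C₁) :
    ∃ C A : ℝ, 0 ≤ C ∧ 0 ≤ A ∧
    ∀ (Q₀ Q : ℝ), 0 < Q → Q ≤ Q₀ → 2 ≤ Q₀ → ∀ κ : ℝ, -1 ≤ κ → κ ≤ δ * Real.log Q₀ →
    ∀ (J : Finset (Fin r)) (H : ℝ), 0 < H → H ≤ Q₀ ^ (1 / 2 + (y + δ) + η) →
    ∀ d₁ d₂ d₃ e : Eis, d₁ ≠ 0 → d₂ ≠ 0 → d₃ ≠ 0 → Sm P.n e →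
      (∀ p : Eis, Prime p → p ∣ e → p ^ 5 ∣ e) →
      Q * nm e ≤ C₁ * Q₀ * (CJ r y Q₀ J * Real.exp κ / Q₀ ^ (y + δ)) →
    ∀ (t₁ t₂ τ : ℝ) (ι : Type) (S : Finset ι) (D : ι → Eis), Set.InjOn D S →
      (∀ i ∈ S, Sm P.n (D i) ∧ Squarefree (D i)) → ∀ kp qp : ι → ℝ,
      (∀ i ∈ S, κ - C₁ ≤ kp i ∧ kp i ≤ κ) →
      (∀ i ∈ S, 0 < qp i ∧ Q * Real.exp (-C₁) ≤ qp i ∧ qp i ≤ Q) →
      ∑ i ∈ S, ‖P.ds r y Q₀ (kp i) J (qp i) H d₁ d₂ d₃ e t₁ t₂ τ (D i)‖ ≤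
        C * ((nm d₁ : ℝ) * nm d₂ * nm d₃ * nm e * Q₀) ^ ε * (1 + |t₁| + |t₂| + |τ|) ^ A *
          TgB θ η (if δ / 2 * Real.log Q₀ ≤ κ then η else -η) (y + δ) Q₀ Q H
            (CJ r y Q₀ J * Real.exp κ) := by
  classical
  obtain ⟨C, A, hC0, hA0, hC⟩ := dout3_extb hθ hD hP hε hC₁
  refine ⟨C, A, hC0, hA0, ?_⟩
  intro Q₀ Q hQ hQQ₀ hQ₀ κ hκ1 hκ2 J H hH hHle d₁ d₂ d₃ e hd₁ hd₂ hd₃ he he5 hQle t₁ t₂ τ ι S D
    hinj hDS kp qp hkp hqp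
  set u : Eis → ℝ := fun x => if h : ∃ i ∈ S, D i = x then κ - kp h.choose else 0 with hu
  set v : Eis → ℝ := fun x => if h : ∃ i ∈ S, D i = x then Real.log (Q / qp h.choose) else 0
    with hv
  have key := hC Q₀ Q hQ hQQ₀ hQ₀ κ hκ1 hκ2 J H hH hHle d₁ d₂ d₃ e hd₁ hd₂ hd₃ he he5 hQle t₁ t₂ τ
    (S.image D) (fun x hx => by
      obtain ⟨i, hi, rfl⟩ := Finset.mem_image.mp hx
      exact hDS i hi) u v (fun x => by
      simp only [hu]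
      split_ifs with h
      · have := hkp _ h.choose_spec.1
        constructor <;> linarith [this.1, this.2]
      · exact ⟨le_rfl, hC₁.le⟩) (fun x => by
      simp only [hv]
      split_ifs with h
      · obtain ⟨a1, a2, a3⟩ := hqp _ h.choose_spec.1
        constructor
        · exact Real.log_nonneg (by rw [le_div_iff₀ a1]; linarith)
        · rw [Real.log_le_iff_le_exp (by positivity), div_le_iff₀ a1]
          calc Q = Real.exp C₁ * (Q * Real.exp (-C₁)) := by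
                rw [mul_comm Q, ← mul_assoc, ← Real.exp_add]; simp
            _ ≤ _ := by gcongr
      · exact ⟨le_rfl, hC₁.le⟩)
  refine le_trans (le_of_eq ?_) key
  rw [Finset.sum_image hinj]
  refine Finset.sum_congr rfl fun i hi => ?_
  have hex : ∃ j ∈ S, D j = D i := ⟨i, hi, rfl⟩
  have hch : hex.choose = i := hinj hex.choose_spec.1 hi hex.choose_spec.2
  have e1 : u (D i) = κ - kp i := by
    simp only [hu]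
    rw [dif_pos hex, hch]
  have e2 : v (D i) = Real.log (Q / qp i) := by
    simp only [hv]
    rw [dif_pos hex, hch]
  obtain ⟨a1, a2, a3⟩ := hqp i hi
  rw [e1, e2]
  have e3 : κ - (κ - kp i) = kp i := by ring
  have e4 : Q * Real.exp (-Real.log (Q / qp i)) = qp i := by
    rw [Real.exp_neg, Real.exp_log (by positivity)]
    field_simp
  rw [e3, e4]

open Classical in
/-- **L3** at one `P` -/
theorem n3b_of {θ : ℝ} {r : ℕ} {y δ η : ℝ} (hθ : 7 / 8 < θ) (hθ1 : θ ≤ 1) (hr : 0 < r)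
    (hy : 0 < y) (hδ : 0 < δ) (hyδ : y + δ < 1) (hδ1 : δ ≤ 1 / 1000) (hη : 0 < η)
    (hηδ : η ≤ δ / 16) {P : DPar} (hP : P.OK) (hD : ∀ n, D3b θ r y δ η (DPar.sc P n)) :
    N3b θ r y δ η η P := by
  intro ε hε
  obtain ⟨β, hβ1, hβ⟩ := sw_bound hP.V
  obtain ⟨B₀, hB₀⟩ := hP.h.bounded
  obtain ⟨B, hBe⟩ : ∃ B : ℝ, B = max 1 B₀ := ⟨_, rfl⟩
  have hB1 : 1 ≤ B := by rw [hBe]; exact le_max_left _ _
  have hB : ∀ u, ‖P.h u‖ ≤ B := fun u => (hB₀ u).trans (by rw [hBe]; exact le_max_right _ _)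
  obtain ⟨db, eb, Eb, kp, W, hW0, hW, hs1, hs2, hs3⟩ := TkPow848.tkPow3
  obtain ⟨E, hE⟩ : ∃ E : ℝ, EE' r = E := ⟨_, rfl⟩
  have hE1 : 1 ≤ E := by rw [← hE]; exact one_le_EE' r
  obtain ⟨C₁, hC₁⟩ : ∃ C₁ : ℝ, C₁ = 2 * (3 * E) ^ r := ⟨_, rfl⟩
  have hC₁0 : 0 < C₁ := by rw [hC₁]; positivity
  have hε' : 0 < ε / 16 := by positivity
  obtain ⟨C, A, hC0, hA0, hDI⟩ := dout3_idxb hθ1 hD hP hε' hC₁0
  obtain ⟨C₂, hC₂0, hC₂⟩ := keyN_bound (ε := ε / 2) (by positivity)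
  -- the weights of `b`
  obtain ⟨w, hwe⟩ : ∃ w : Eis → ℝ, w = fun b => if Sm 2 b ∧ Pf b then
    W b * wb θ (nm b) (nm (db b)) else 0 := ⟨_, rfl⟩
  have hw0 : ∀ b, 0 ≤ w b := by
    intro b
    have := hW0 b
    rw [hwe]
    dsimp only
    split_ifs
    · unfold wb; positivity
    · exact le_rfl
  have hws : Summable w := by
    have h := (hs1.add hs2).add (hs3 θ hθ)
    refine h.congr fun b => ?_
    rw [hwe]
    dsimp only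
    split_ifs
    · unfold wb; ring
    · ring
  have hWs0 : 0 ≤ ∑' b, w b := tsum_nonneg hw0
  have hBE1 : 1 ≤ 54 * (B * E) := by nlinarith
  have hKE : 0 ≤ (9 * β ^ 4 * E ^ r) ^ (ε / 16) := by positivity
  refine ⟨2 ^ r * (2 ^ r * (C * (9 * β ^ 4 * E ^ r) ^ (ε / 16) *
    (2 * (54 * (B * E)) ^ r * C₂) * ∑' b, w b)), A, by positivity, hA0, ?_⟩
  intro Q₀ Q hQ1 hQQ₀ hMQ H hH hHle t₁ t₂ τ
  have hQ : 0 < Q := by linarith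
  have hQ₀1 : 1 ≤ Q₀ := hQ1.trans hQQ₀
  have hQ₀0 : 0 < Q₀ := by linarith
  have hn1 := one_le_nmR hP.φ.q0
  have hδ1' : δ ≤ 1 := by linarith
  have hy1 : y ≤ 1 := by linarith
  have hQδ : 1 ≤ Q₀ ^ δ := Real.one_le_rpow hQ₀1 hδ.le
  have hQ₀2 : 2 ≤ Q₀ := by
    by_contra hlt
    push Not at hlt
    have hr1 : (1 : ℝ) ≤ r := by exact_mod_cast hr
    have h1 : y / r ≤ 1 := by
      rw [div_le_one (by linarith)]; linarith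
    have h2 : Q₀ ^ (y / r) ≤ Q₀ := by
      calc Q₀ ^ (y / r) ≤ Q₀ ^ (1 : ℝ) := Real.rpow_le_rpow_of_exponent_le hQ₀1 h1
        _ = Q₀ := Real.rpow_one _
    nlinarith
  obtain ⟨κ₀, hκ₀⟩ : ∃ κ₀ : ℝ, κ₀ = δ * Real.log Q₀ := ⟨_, rfl⟩
  have hκ₀0 : 0 ≤ κ₀ := by
    rw [hκ₀]; exact mul_nonneg hδ.le (Real.log_nonneg hQ₀1)
  have hexpκ : Real.exp κ₀ = Q₀ ^ δ := by
    rw [hκ₀, Real.rpow_def_of_pos hQ₀0, mul_comm]
  obtain ⟨Pp, hPp⟩ : ∃ Pp : ℝ, Q₀ ^ (y / r) = Pp := ⟨_, rfl⟩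
  have hMQ' : (nm P.n : ℝ) * Real.exp κ₀ * 9 < Q₀ ^ (y / r) := by rw [hexpκ]; exact hMQ
  have hMQp : (nm P.n : ℝ) * Real.exp κ₀ * 9 < Pp := by rw [← hPp]; exact hMQ'
  have hT0 : 0 ≤ (1 + |t₁| + |t₂| + |τ|) ^ A := by positivity
  have hTg0 : 0 ≤ TgB θ η η (y + δ) Q₀ Q H (Q₀ ^ (y + δ)) :=
    TgB_nonneg hQ₀0.le hQ.le hH.le (by positivity)
  -- the sum over `a'`, `n`
  obtain ⟨N, hN⟩ : ∃ N : ℝ, N = (∑ a ∈ primBall ⌊Real.exp (κ₀ + 1)⌋₊, (nm a : ℝ)⁻¹) *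
            (Nat.log 2 ⌊Real.exp (κ₀ + 1)⌋₊ + 1) := ⟨_, rfl⟩
  have hNle : N ≤ C₂ * Q₀ ^ (ε / 2) := by
    rw [hN]
    apply hC₂ Q₀ hQ₀1
    refine (Nat.floor_le (Real.exp_pos _).le).trans ?_
    have h3 := exp_one_lt_three
    have h4 : Real.exp κ₀ ≤ Q₀ := by
      rw [hexpκ]
      calc Q₀ ^ δ ≤ Q₀ ^ (1 : ℝ) := Real.rpow_le_rpow_of_exponent_le hQ₀1 hδ1'
        _ = Q₀ := Real.rpow_one _
    have h5 : 0 < Real.exp 1 := Real.exp_pos _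
    rw [Real.exp_add]
    calc Real.exp κ₀ * Real.exp 1 ≤ Q₀ * 3 := mul_le_mul h4 h3.le h5.le hQ₀0.le
      _ = _ := by ring
  have hN0 : 0 ≤ N := by
    rw [hN]
    exact mul_nonneg (Finset.sum_nonneg fun _ _ => by positivity) (by positivity)
  obtain ⟨K₀, hK₀⟩ : ∃ K₀ : ℝ, K₀ = C * ((9 * β ^ 4 * E ^ r) * Q₀ ^ 8) ^ (ε / 16) *
      (1 + |t₁| + |t₂| + |τ|) ^ A := ⟨_, rfl⟩
  have hK₀0 : 0 ≤ K₀ := by rw [hK₀]; positivity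
  -- the bound for one `b`
  have hone : ∀ J' ∈ (Finset.univ : Finset (Fin r)).powerset, ∀ b ∈ Bf P.n (β * Q),
      ∀ I ∈ (Finset.univ : Finset J').powerset,
      ∑ x ∈ SS0 P r y Q₀ κ₀ J' b, ‖cf P r y Q₀ t₁ t₂ x.1.1 x.2 b x.1.2 I‖ *
            ‖kSum P.n P.φ P.l₁ (P.wk τ H)
              (tr6 P r y Q₀ κ₀ Q t₁ t₂ J' x.1.1 x.2 b x.1.2 I)‖ ≤
      (K₀ * (2 * (54 * (B * E)) ^ r * N) * TgB θ η η (y + δ) Q₀ Q H (Q₀ ^ (y + δ))) * w b := by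
    intro J' _ b hbB I _
    rw [mem_Bf (by positivity)] at hbB
    obtain ⟨⟨hb1, hb2⟩, hb3, hb4⟩ := hbB
    have h2n : (2 : Eis) ∣ P.n := (Dvd.intro 18 (by norm_num)).trans hP.n36
    have hbS : Sm 2 b := hb3.mono h2n
    obtain ⟨w1, w2, w3, w4, w5, w6, w7, w8, w9⟩ := hW b hbS hb4
    have hbQ : (nm b : ℝ) ≤ β * Q₀ := hb1.trans (by gcongr)
    have hmr : J'.card ≤ r := by
      calc J'.card ≤ (Finset.univ : Finset (Fin r)).card := Finset.card_le_univ _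
        _ = r := by simp
    calc _ ≤ ∑ x ∈ SS0 P r y Q₀ κ₀ J' b, ‖cf P r y Q₀ t₁ t₂ x.1.1 x.2 b x.1.2 I‖ *
          ∑ t ∈ Eb b, ‖kp b t‖ * ‖dsx P r y Q₀ κ₀ Q H t₁ t₂ τ I b (db b) (eb b) t x‖ :=
          Finset.sum_le_sum fun x hx => mul_le_mul_of_nonneg_left
            (tr6_le hP hH I hb3 w1 w3 w7 w8 hx) (norm_nonneg _)
      _ = ∑ t ∈ Eb b, ‖kp b t‖ * ∑ x ∈ SS0 P r y Q₀ κ₀ J' b,
          ‖cf P r y Q₀ t₁ t₂ x.1.1 x.2 b x.1.2 I‖ *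
            ‖dsx P r y Q₀ κ₀ Q H t₁ t₂ τ I b (db b) (eb b) t x‖ := by
          simp only [Finset.mul_sum]
          rw [Finset.sum_comm]
          refine Finset.sum_congr rfl fun t _ => Finset.sum_congr rfl fun x _ => ?_
          ring
      _ ≤ ∑ t ∈ Eb b, ‖kp b t‖ * (K₀ * (2 * (54 * (B * E)) ^ J'.card * N) *
          wb θ (nm b) (nm (db b)) * TgB θ η η (y + δ) Q₀ Q H (Q₀ ^ (y + δ))) := by
          refine Finset.sum_le_sum fun t ht => mul_le_mul_of_nonneg_left ?_ (norm_nonneg _)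
          rw [hK₀, hN]
          exact sum_SS0 hP hθ hθ1 hr hy1 hδ hδ1' hη hηδ hε'.le hC0 hE hC₁ hDI hB hB1 hβ1 hQ₀2 hQ
            hQQ₀ hκ₀ hPp hMQp hH hHle t₁ t₂ τ I hb3 hbQ w1 w2 w4 w5 (w6 t ht).1 (w6 t ht).2
      _ = (∑ t ∈ Eb b, ‖kp b t‖) * (K₀ * (2 * (54 * (B * E)) ^ J'.card * N) *
          wb θ (nm b) (nm (db b)) * TgB θ η η (y + δ) Q₀ Q H (Q₀ ^ (y + δ))) := by
          rw [Finset.sum_mul]
      _ ≤ W b * (K₀ * (2 * (54 * (B * E)) ^ r * N) *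
          wb θ (nm b) (nm (db b)) * TgB θ η η (y + δ) Q₀ Q H (Q₀ ^ (y + δ))) := by
          have hwb0 : 0 ≤ wb θ (nm b) (nm (db b)) := by unfold wb; positivity
          have hpow : (54 * (B * E)) ^ J'.card ≤ (54 * (B * E)) ^ r :=
            pow_le_pow_right₀ hBE1 hmr
          have hq0 : 0 ≤ (54 * (B * E)) ^ J'.card := by positivity
          apply mul_le_mul w9 _ _ (hW0 b)
          · apply mul_le_mul_of_nonneg_right _ hTg0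
            apply mul_le_mul_of_nonneg_right _ hwb0
            apply mul_le_mul_of_nonneg_left _ hK₀0
            apply mul_le_mul_of_nonneg_right _ hN0
            linarith
          · positivity
      _ = _ := by
          rw [hwe]
          dsimp only
          rw [if_pos ⟨hbS, hb4⟩]; ring
  -- assembly
  have hmain := norm_kSum_le (β := β) (H := H) (τ := τ) (t₁ := t₁) (t₂ := t₂) hP hr hy hQ₀1 hκ₀0 hQ
    hMQ' hβ (by linarith) hH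
  rw [hκ₀] at hmain
  have hLHS : ‖∑' k : Eis, (if k ≠ 0 ∧ NPk P.n P.φ P.l₁ k then
        P.wk τ H k * NSumS P.h₀ P.h r y Q₀ (δ * Real.log Q₀) Finset.univ P.n
          (twt P.ψ P.l₂ t₂) (twt P.φ P.l₁ t₁) P.V Q k else 0)‖ ≤
      ∑ J' ∈ (Finset.univ : Finset (Fin r)).powerset, ∑ b ∈ Bf P.n (β * Q),
        ∑ I ∈ (Finset.univ : Finset J').powerset,
        (K₀ * (2 * (54 * (B * E)) ^ r * N) * TgB θ η η (y + δ) Q₀ Q H (Q₀ ^ (y + δ))) * w b := by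
    refine le_trans (le_of_eq rfl) (hmain.trans ?_)
    refine Finset.sum_le_sum fun J' hJ' => Finset.sum_le_sum fun b hb =>
      Finset.sum_le_sum fun I hI => ?_
    rw [← hκ₀]
    exact hone J' hJ' b hb I hI
  refine hLHS.trans ?_
  obtain ⟨Tg, hTg⟩ : ∃ Tg, Tg = TgB θ η η (y + δ) Q₀ Q H (Q₀ ^ (y + δ)) := ⟨_, rfl⟩
  rw [← hTg]
  rw [← hTg] at hTg0
  have hX0 : 0 ≤ K₀ * (2 * (54 * (B * E)) ^ r * N) * Tg := by positivity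
  have hcard : ∀ J' : Finset (Fin r), (((Finset.univ : Finset J').powerset.card : ℕ) : ℝ) ≤
      2 ^ r := by
    intro J'
    rw [Finset.card_powerset, Finset.card_univ, Fintype.card_coe]
    push_cast
    apply pow_le_pow_right₀ (by norm_num)
    calc J'.card ≤ (Finset.univ : Finset (Fin r)).card := Finset.card_le_univ _
      _ = r := by simp
  have hb2 : ∀ J' ∈ (Finset.univ : Finset (Fin r)).powerset, ∑ b ∈ Bf P.n (β * Q),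
        ∑ _I ∈ (Finset.univ : Finset J').powerset,
        (K₀ * (2 * (54 * (B * E)) ^ r * N) * Tg) * w b ≤
      2 ^ r * ((K₀ * (2 * (54 * (B * E)) ^ r * N) * Tg) * ∑' b, w b) := by
    intro J' _
    calc _ = ((Finset.univ : Finset J').powerset.card : ℝ) *
          ((K₀ * (2 * (54 * (B * E)) ^ r * N) * Tg) * ∑ b ∈ Bf P.n (β * Q), w b) := by
          rw [Finset.mul_sum, Finset.mul_sum]
          refine Finset.sum_congr rfl fun b _ => ?_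
          rw [Finset.sum_const, nsmul_eq_mul]
      _ ≤ 2 ^ r * ((K₀ * (2 * (54 * (B * E)) ^ r * N) * Tg) * ∑' b, w b) := by
          have h1 : ∑ b ∈ Bf P.n (β * Q), w b ≤ ∑' b, w b := hws.sum_le_tsum _ fun b _ => hw0 b
          have h2 : 0 ≤ ∑ b ∈ Bf P.n (β * Q), w b := Finset.sum_nonneg fun b _ => hw0 b
          exact mul_le_mul (hcard J') (mul_le_mul_of_nonneg_left h1 hX0) (mul_nonneg hX0 h2)
            (by positivity)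
  refine (Finset.sum_le_sum hb2).trans ?_
  rw [Finset.sum_const, nsmul_eq_mul]
  have hcr : (((Finset.univ : Finset (Fin r)).powerset.card : ℕ) : ℝ) = 2 ^ r := by
    rw [Finset.card_powerset]; simp
  rw [hcr]
  have hKeq : K₀ = C * (9 * β ^ 4 * E ^ r) ^ (ε / 16) * Q₀ ^ (ε / 2) *
      (1 + |t₁| + |t₂| + |τ|) ^ A := by
    rw [hK₀, Real.mul_rpow (by positivity) (by positivity), ← Real.rpow_natCast_mul hQ₀0.le]
    have : ((8 : ℕ) : ℝ) * (ε / 16) = ε / 2 := by push_cast; ring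
    rw [this]; ring
  have hfin : K₀ * (2 * (54 * (B * E)) ^ r * N) ≤
      (C * (9 * β ^ 4 * E ^ r) ^ (ε / 16) * (2 * (54 * (B * E)) ^ r * C₂)) * Q₀ ^ ε *
        (1 + |t₁| + |t₂| + |τ|) ^ A := by
    have h1 : K₀ * (2 * (54 * (B * E)) ^ r * N) ≤
        K₀ * (2 * (54 * (B * E)) ^ r * (C₂ * Q₀ ^ (ε / 2))) := by gcongr
    refine h1.trans (le_of_eq ?_)
    rw [hKeq]
    have h2 : Q₀ ^ ε = Q₀ ^ (ε / 2) * Q₀ ^ (ε / 2) := by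
      rw [← Real.rpow_add hQ₀0]; ring_nf
    rw [h2]; ring
  calc (2 : ℝ) ^ r * (2 ^ r * ((K₀ * (2 * (54 * (B * E)) ^ r * N) * Tg) * ∑' b, w b))
      ≤ 2 ^ r * (2 ^ r * (((C * (9 * β ^ 4 * E ^ r) ^ (ε / 16) *
        (2 * (54 * (B * E)) ^ r * C₂)) * Q₀ ^ ε *
        (1 + |t₁| + |t₂| + |τ|) ^ A * Tg) * ∑' b, w b)) := by gcongr
    _ = _ := by ring

/-- **L3** for the data in `Q` -/
theorem natNP3Q_of {Q : DPar → Prop} (hQ : ∀ P n, Q P → Q (DPar.sc P n)) {θ : ℝ} {r : ℕ}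
    {y δ η : ℝ} (hθ : 7 / 8 < θ) (hθ1 : θ ≤ 1) (hr : 0 < r) (hy : 0 < y) (hδ : 0 < δ)
    (hyδ : y + δ < 1) (hδ1 : δ ≤ 1 / 1000) (hη : 0 < η) (hηδ : η ≤ δ / 16)
    (hD : DOUT3iQ Q θ r y δ η) : NatNP3Q Q θ r y δ η η :=
  fun P hP hQP => n3b_of hθ hθ1 hr hy hδ hyδ hδ1 hη hηδ hP fun n =>
    hD (DPar.sc P n) (DPar.sc_ok hP n) (hQ P n hQP)

/-- **L3** for the data with `l₁ ≠ j` -/
theorem natNP3Q_ne {j : ℤ} {θ : ℝ} {r : ℕ} {y δ η : ℝ} (hθ : 7 / 8 < θ) (hθ1 : θ ≤ 1)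
    (hr : 0 < r) (hy : 0 < y) (hδ : 0 < δ) (hyδ : y + δ < 1) (hδ1 : δ ≤ 1 / 1000) (hη : 0 < η)
    (hηδ : η ≤ δ / 16) (hD : DOUT3iQ (fun P => P.l₁ ≠ j) θ r y δ η) :
    NatNP3Q (fun P => P.l₁ ≠ j) θ r y δ η η :=
  natNP3Q_of (Q := fun P => P.l₁ ≠ j) (fun _ _ h => h) hθ hθ1 hr hy hδ hyδ hδ1 hη hηδ hD

end Crest.Agent.R017.Asm986
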