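import Crest.Agent.R017.BAll_770
import Crest.Agent.R017.BTopB_347
import Crest.Agent.R017.BTopL_347
import Crest.Agent.R017.BTopN_347
import Crest.Agent.R017.NVQ_986

/-!
# Row 17: the master derivation with data `l₁ ≠ -4` (helper347)

The contraction step uses only the frequencies `l ≥ 0` (the others by conjugation), where the dual
angular type `j = 4 (l + 1) ≥ 4`; so `D-OUT` is needed only for `l₁ ≠ -4`.
* `s23_of_Q4 : (∀ θ, 7/8 < θ → θ ≤ 1 → PF univ θ → DOUT3Q (fun P => P.l₁ ≠ -4) θ) → S23`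
-/

set_option autoImplicit false

noncomputable section

open MeasureTheory Complex Set
open scoped ComplexConjugate ContDiff

namespace Crest.Agent.R017.BEndA699

open Crest.Agent.R012 Crest.Agent.R012.Eis Crest.Agent.R012.Mob705 Crest.Agent.R012.Gauss880
open Crest.Agent.R012.PSer47
open Crest.Agent.R017.End699 Crest.Agent.R017.B770
open Crest.Agent.R017.Sx545 (Sm)

theorem pf_of_pointwise0 {θ δ : ℝ} (hδ : 1 / 2 ≤ θ - δ) (hPF : PF Set.univ θ)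
    (hstep : ∀ (l : ℤ) (q : Eis) (χ : Eis → ℂ), 0 ≤ l → HC q χ → ∀ ρ : ℂ, θ - δ < ρ.re →
      ρ.re ≤ θ → (NP q χ l ∨ ρ ≠ 1) →
      ∃ q', q' ≠ 0 ∧ q ∣ q' ∧ LH q' (fun b => χ b * prin0 q' b) l ρ ≠ 0) :
    PF Set.univ (θ - δ) := by
  -- first the nonnegative frequencies
  have key : ∀ (l : ℤ) (q : Eis) (χ : Eis → ℂ), 0 ≤ l → HC q χ → ∀ ρ : ℂ, θ - δ < ρ.re →
      (NP q χ l ∨ ρ ≠ 1) → LH q χ l ρ ≠ 0 := by
    intro l q χ hl h ρ hρ h1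
    rcases lt_or_ge θ ρ.re with h2 | h2
    · exact hPF l (Set.mem_univ l) q χ h ρ h2 h1
    · obtain ⟨q', h3, h4, h5⟩ := hstep l q χ hl h ρ hρ h2 h1
      exact LH_ne_zero_of_changeMod h h3 h4 l (by linarith) h1 h5
  intro l _ q χ h z hz h1
  by_cases hl : l < 0
  · have h1' : NP q (cj χ) (-l) ∨ conj z ≠ 1 := by
      rcases h1 with h1 | h1
      · exact Or.inl h1.cj
      · right
        intro h2
        apply h1
        have := congrArg conj h2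
        rwa [Complex.conj_conj, map_one] at this
    have h6 := key (-l) q (cj χ) (by omega) h.cj (conj z)
      (by rw [Complex.conj_re]; exact hz) h1'
    exact LH_ne_zero_of_conj h l (by linarith) h1 h6
  · exact key l q χ (by omega) h z hz h1

set_option maxHeartbeats 1000000 in
/-- **the contraction step** from its parts -/
theorem stepBQ_of (hL6 : PropL6') (hF2 : ∀ M : Eis, (36 : Eis) ∣ M → A590.F2xQ M) {θ : ℝ}
    (hθ : 7 / 8 < θ) (hPF : PF Set.univ θ)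
    (hyp : ∃ (r : ℕ) (y₁ δ₀ η η' : ℝ), 0 < r ∧ 0 < y₁ ∧ 0 < δ₀ ∧ 10 * δ₀ ≤ y₁ / r ∧ 0 < η ∧
      0 < η' ∧ L747.PropL7Q θ r y₁ δ₀ η η' ∧ PropL5' θ r y₁ δ₀ ∧ PropNPL3 θ r y₁ δ₀ ∧
      PropPLOW r y₁) :
    ∃ δ > 0, PF Set.univ (θ - δ) := by
  obtain ⟨r, y₁, δ₀, η, η', hr, hy₁, hδ₀, h10, hη, hη', hL7, ⟨P₀, d₁, hd₁, hL5⟩, ⟨d₂, hd₂, hNP⟩,
    h, hh, c, Q₀, hc, hlow⟩ := hyp
  obtain ⟨h₀, hh₀, hN₀⟩ := exists_h0
  obtain ⟨y, hy'⟩ : ∃ y : ℝ, y = y₁ + δ₀ := ⟨_, rfl⟩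
  unfold L747.PropL7Q at hL7
  simp only [← hy'] at hL7 hL5 hNP
  have hy : 0 < y := by rw [hy']; linarith
  set d : ℝ := min (min d₁ d₂) (min (min (η / 6) (η' / 6)) (1 / 100)) with hdd
  have hd : 0 < d := by
    rw [hdd]
    exact lt_min (lt_min hd₁ hd₂) (lt_min (lt_min (by linarith) (by linarith)) (by norm_num))
  have hda : d ≤ d₁ := (min_le_left _ _).trans (min_le_left _ _)
  have hdb : d ≤ d₂ := (min_le_left _ _).trans (min_le_right _ _)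
  have hdc : 6 * d ≤ η := by
    have : d ≤ η / 6 := ((min_le_right _ _).trans (min_le_left _ _)).trans (min_le_left _ _)
    linarith
  have hdc' : 6 * d ≤ η' := by
    have : d ≤ η' / 6 := ((min_le_right _ _).trans (min_le_left _ _)).trans (min_le_right _ _)
    linarith
  have hde : d ≤ 1 / 100 := (min_le_right _ _).trans (min_le_right _ _)
  obtain ⟨d₃, hd₃, hL5⟩ := hL5 d hd hda
  obtain ⟨d₄, hd₄, hNP⟩ := hNP d hd hdb
  set d₀ : ℝ := min (min d₃ d₄) (d / 4) with hd₀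
  have hd₀0 : 0 < d₀ := lt_min (lt_min hd₃ hd₄) (by linarith)
  have hd₀3 : d₀ ≤ d₃ := (min_le_left _ _).trans (min_le_left _ _)
  have hd₀4 : d₀ ≤ d₄ := (min_le_left _ _).trans (min_le_right _ _)
  have hd₀d : d₀ ≤ d / 4 := min_le_right _ _
  set δ : ℝ := min (d₀ / 2) (1 / 24) with hδ
  have hδ0 : 0 < δ := lt_min (by linarith) (by norm_num)
  have hδ1 : δ ≤ d₀ / 2 := min_le_left _ _
  have hδ2 : δ ≤ 1 / 24 := min_le_right _ _
  refine ⟨δ, hδ0, pf_of_pointwise0 (by linarith) hPF ?_⟩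
  intro l q χ hl0 hχ ρ hρ hρθ h1
  have hl : l ≠ -1 := by omega
  -- the modulus
  set M : Eis := 36 * q * ((P₀.factorial : ℕ) : Eis) with hM
  have h36' : (36 : Eis) ≠ 0 := by
    intro h0
    have e : (36 : Eis) = 9 * 4 := by norm_num
    have e4 : (4 : Eis) ≠ 0 := by
      intro h4
      have := congrArg QuadraticAlgebra.re h4
      have e5 : (4 : Eis) = ((4 : ℕ) : Eis) := by norm_num
      rw [e5, QuadraticAlgebra.re_natCast] at this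
      simp at this
    exact mul_ne_zero nine_ne_zero e4 (e ▸ h0)
  have hfac : ((P₀.factorial : ℕ) : Eis) ≠ 0 := by
    intro h0
    have := congrArg QuadraticAlgebra.re h0
    rw [QuadraticAlgebra.re_natCast] at this
    simp at this
    exact Nat.factorial_ne_zero _ this
  have hM0 : M ≠ 0 := mul_ne_zero (mul_ne_zero h36' hχ.q0) hfac
  have hqM : q ∣ M := ⟨36 * ((P₀.factorial : ℕ) : Eis), by rw [hM]; ring⟩
  have h36 : (36 : Eis) ∣ M := ⟨q * ((P₀.factorial : ℕ) : Eis), by rw [hM]; ring⟩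
  have hP : ∀ p : Eis, Prime p → nm p ≤ P₀ → p ∣ M := fun p hp hnp =>
    (prime_dvd_factorial hp hnp).trans ⟨36 * q, by rw [hM]; ring⟩
  refine ⟨M, hM0, hqM, ?_⟩
  have hψ0 := hχ.changeMod hM0 hqM
  set ψ : Eis → ℂ := End699.ext (fun b => χ b * prin0 M b) with hψdef
  have hψ : HC M ψ := HC.ext' hψ0
  have h1' : NP M ψ l ∨ ρ ≠ 1 := by
    rcases h1 with h1 | h1
    · exact Or.inl (np_ext (h1.changeMod hχ hM0))
    · exact Or.inr h1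
  rw [← LH_ext]
  have hrad := rad0_m0 h36 hM0
  set m₀ : Eis := ∏ p ∈ pp M, p with hm₀
  obtain ⟨F, hF, hFE, hrel, hrel2⟩ := hF2 M h36 l hl ψ hψ
  have hj4 : F.j ≠ -4 := by omega
  -- the weights
  obtain ⟨V, v1, v2, v3, v4, v5, v6, v7⟩ := exists_bump (s₀ := ρ) (by linarith) (α := 1 / 2)
    (β := 1) (by norm_num) (by norm_num)
  obtain ⟨om, o1, o2, o3, o4, o5, o6, o7⟩ := exists_bump (s₀ := 1) (by simp) (α := 1) (β := 2)
    (by norm_num) (by norm_num)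
  have swOf : ∀ {W : ℝ → ℝ} {a b : ℝ}, 0 ≤ a → ContDiff ℝ ∞ W → HasCompactSupport W →
      tsupport W ⊆ Ioo a b → SW (fun y => (W y : ℂ)) := by
    intro W a b ha w1 w2 w3
    have hts : tsupport (fun y => (W y : ℂ)) ⊆ tsupport W := by
      apply closure_mono
      intro y hy
      simp only [Function.mem_support] at hy ⊢
      intro h0
      exact hy (by rw [h0]; simp)
    refine ⟨Complex.ofRealCLM.contDiff.comp w1, ?_, fun y hy => ?_⟩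
    · exact w2.of_isClosed_subset (isClosed_tsupport _) hts
    · exact lt_of_le_of_lt ha (w3 (hts hy)).1
  have hV : SW (fun y => (V y : ℂ)) := swOf (by norm_num) v1 v2 v5
  have hom : SW (fun y => (om y : ℂ)) := swOf (by norm_num) o1 o2 o5
  have hNN : NN (fun y => (om y : ℂ)) := by
    refine ⟨fun y => ⟨by simpa using o3 y, by simp⟩, ?_⟩
    by_contra hcon
    push Not at hcon
    apply o7
    have : (fun y => (om y : ℂ)) = fun _ => 0 := funext hcon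
    rw [this]
    simp [mellin]
  set V' : ℝ → ℂ := fun y => (V y : ℂ) with hV'
  set om' : ℝ → ℂ := fun y => (om y : ℂ) with hom'
  -- the inputs
  obtain ⟨e, κ, hκ, hAC, hdom, hL5'⟩ :=
    hL5 M m₀ h36 hrad hP ψ l hψ hl F.ξ hF.ξle hF.ξ1 h₀ h hh₀ hh hN₀ om' hom hNN
  choose C5 Q5 h5 using fun j => hL5' V' hV (F.qL j) (hF.qL j)
  choose CN QN hN using fun j =>
    hNP M m₀ h36 hrad ψ l hψ hl F.ξ hF.ξle h₀ h hh₀ hh om' hom V' hV (F.qL j) (hF.qL j)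
  obtain ⟨C7, Q7, hC7, h7⟩ := hL7 M m₀ h36 hrad ψ l F hψ hF hFE hrel hj4 h₀ h hh₀ hh V' om' hV hom
    (d / 4) d (by linarith) hd hdc hdc' hde
  have hqpos : ∀ j, 0 < F.qL j := fun j => by linarith [hF.qL j]
  -- the constant
  set B : ℝ := C7 + ∑ j, ‖F.cL j‖ * (2 * Real.sqrt 3 * Real.sqrt (F.qL j)) *
    (|C5 j| + |CN j|) with hB
  have hB0 : 0 ≤ B := by positivity
  have hr' : (0 : ℝ) < r := by exact_mod_cast hr
  -- the threshold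
  have hev : ∀ᶠ Q : ℝ in Filter.atTop, 1 < Q ∧ Q₀ ≤ Q ∧ (∀ j, Q5 j ≤ Q) ∧ (∀ j, QN j ≤ Q) ∧
      Q7 ≤ Q ∧ (nm M : ℝ) * Q ^ δ₀ * 9 < Q ^ (y₁ / r) := by
    have hyr : 0 < y₁ / r - δ₀ := by linarith
    have ht := tendsto_rpow_atTop hyr
    have t1 := Filter.eventually_ge_atTop Q7
    have t2 : ∀ᶠ Q : ℝ in Filter.atTop, (nm M : ℝ) * Q ^ δ₀ * 9 < Q ^ (y₁ / r) := by
      filter_upwards [ht.eventually_gt_atTop ((nm M : ℝ) * 9), Filter.eventually_gt_atTop 0]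
        with Q b1 b2
      have b3 : Q ^ (y₁ / r) = Q ^ (y₁ / r - δ₀) * Q ^ δ₀ := by
        rw [← Real.rpow_add b2]; ring_nf
      rw [b3]
      have b4 : 0 < Q ^ δ₀ := by positivity
      nlinarith
    filter_upwards [Filter.eventually_gt_atTop 1, Filter.eventually_ge_atTop Q₀,
      Filter.eventually_all.mpr (fun j => Filter.eventually_ge_atTop (Q5 j)),
      Filter.eventually_all.mpr (fun j => Filter.eventually_ge_atTop (QN j)), t1, t2]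
      with Q a1 a2 a3 a4 a5 a6
    exact ⟨a1, a2, a3, a4, a5, a6⟩
  obtain ⟨Q₁, hQ₁⟩ := Filter.eventually_atTop.mp hev
  refine LH_ne_zero_of_SQ hψ (sw_rw hV) hAC hdom hF.qL hF.nz (θ := θ - δ)
    (C := B / (2 * Real.sqrt 3 * ‖κ‖ * c) / (d₀ / 2 / r) ^ r) (Q₁ := Q₁) (by linarith) ?_
    (by linarith) h1' v7
  intro Q hQ
  obtain ⟨a1, a2, a3, a4, a5, a6⟩ := hQ₁ Q hQ
  have hQ0 : 0 < Q := by linarith
  set K : ℝ := Q ^ (1 / 2 + y + d) with hK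
  have hK0 : 0 < K := by positivity
  have hsQ : 0 < Real.sqrt Q := Real.sqrt_pos.mpr hQ0
  set A1 : ℂ := ((Q ^ δ₀ : ℝ) : ℂ) * Amp h r y₁ Q Finset.univ (fun _ => 1) with hA1
  set S : Fin F.nL → ℂ := fun j => SQ e V' ψ l (Q / F.qL j) with hS
  set T : ℂ := ∑ j, F.cL j * ((F.qL j ^ (1 / 6 : ℝ) : ℝ) : ℂ) * S j with hT
  set Lj : Fin F.nL → ℂ := fun j => LK3 h₀ h r y₁ δ₀ Q M m₀ F.ξ (tw ψ l) V' om' (fun _ => True)
    (K / F.qL j) (Q / F.qL j) with hLj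
  set R : ℝ := K ^ (1 / 3 : ℝ) * Q ^ (y + θ - d₀) with hR
  have hR0 : 0 ≤ R := by positivity
  -- the error terms
  have hEj : ∀ j, ‖Lj j - κ * (((K / F.qL j) ^ (1 / 3 : ℝ) : ℝ) : ℂ) * A1 * S j‖ ≤
      (|C5 j| + |CN j|) * R := by
    intro j
    obtain ⟨b1, b2⟩ := hN j Q (a4 j)
    have b3 : ‖LK3 h₀ h r y₁ δ₀ Q M m₀ F.ξ (tw ψ l) V' om' (Prn M) (K / F.qL j) (Q / F.qL j) -
        κ * (((K / F.qL j) ^ (1 / 3 : ℝ) : ℝ) : ℂ) * A1 * S j‖ ≤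
        C5 j * K ^ (1 / 3 : ℝ) * Q ^ (y + θ - d₃) := by
      refine le_of_eq_of_le ?_ (h5 j Q (a3 j))
      rw [hA1, hS]
      congr 2
      ring
    have b4 : C5 j * K ^ (1 / 3 : ℝ) * Q ^ (y + θ - d₃) ≤ |C5 j| * R := by
      rw [hR, mul_assoc]
      have : Q ^ (y + θ - d₃) ≤ Q ^ (y + θ - d₀) :=
        Real.rpow_le_rpow_of_exponent_le a1.le (by linarith)
      have := le_abs_self (C5 j)
      gcongr
    have b5 : CN j * K ^ (1 / 3 : ℝ) * Q ^ (y + θ - d₄) ≤ |CN j| * R := by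
      rw [hR, mul_assoc]
      have : Q ^ (y + θ - d₄) ≤ Q ^ (y + θ - d₀) :=
        Real.rpow_le_rpow_of_exponent_le a1.le (by linarith)
      have := le_abs_self (CN j)
      gcongr
    have b6 : Lj j - κ * (((K / F.qL j) ^ (1 / 3 : ℝ) : ℝ) : ℂ) * A1 * S j =
        (LK3 h₀ h r y₁ δ₀ Q M m₀ F.ξ (tw ψ l) V' om' (Prn M) (K / F.qL j) (Q / F.qL j) -
          κ * (((K / F.qL j) ^ (1 / 3 : ℝ) : ℝ) : ℂ) * A1 * S j) +
        LK3 h₀ h r y₁ δ₀ Q M m₀ F.ξ (tw ψ l) V' om' (fun k => ¬ Prn M k) (K / F.qL j)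
          (Q / F.qL j) := by
      rw [hLj]
      simp only
      rw [b1]; ring
    rw [b6]
    refine (norm_add_le _ _).trans ?_
    linarith
  -- the exact identity
  have hid : (∑ j, F.cL j * DL3 h₀ h r y₁ δ₀ Q M m₀ F.ξ (tw ψ l) V' om' (K / F.qL j) (Q / F.qL j)) *
      ((K / Real.sqrt Q : ℝ) : ℂ) =
      ∑ j, F.cL j * ((2 * Real.sqrt 3 * Real.sqrt (F.qL j) : ℝ) : ℂ) * Lj j := by
    rw [Finset.sum_mul]
    apply Finset.sum_congr rfl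
    intro j _
    rw [hL6 h₀ h hh₀ hh r y₁ δ₀ Q M m₀ hr hy₁ hδ₀ a1.le h36 hrad a6 F.ξ (tw ψ l) hF.ξle
      (norm_tw_ext_le hψ0 l) V' om' hV hom (K / F.qL j) (Q / F.qL j)
      (div_pos hK0 (hqpos j)) (div_pos hQ0 (hqpos j))]
    have e1 : 2 * Real.sqrt 3 * (Real.sqrt (Q / F.qL j) / (K / F.qL j)) * (K / Real.sqrt Q) =
        2 * Real.sqrt 3 * Real.sqrt (F.qL j) := by
      have hq1 := hqpos j
      have hsq : 0 < Real.sqrt (F.qL j) := Real.sqrt_pos.mpr hq1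
      rw [Real.sqrt_div hQ0.le]
      have e2 : F.qL j = Real.sqrt (F.qL j) * Real.sqrt (F.qL j) :=
        (Real.mul_self_sqrt hq1.le).symm
      field_simp
      rw [sq]
      exact e2
    rw [← e1]
    push_cast
    ring
  have hmain : (∑ j, F.cL j * DL3 h₀ h r y₁ δ₀ Q M m₀ F.ξ (tw ψ l) V' om' (K / F.qL j) (Q / F.qL j)) *
      ((K / Real.sqrt Q : ℝ) : ℂ) =
      ((2 * Real.sqrt 3 * K ^ (1 / 3 : ℝ) : ℝ) : ℂ) * κ * A1 * T +
      ∑ j, F.cL j * ((2 * Real.sqrt 3 * Real.sqrt (F.qL j) : ℝ) : ℂ) *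
        (Lj j - κ * (((K / F.qL j) ^ (1 / 3 : ℝ) : ℝ) : ℂ) * A1 * S j) := by
    rw [hid, hT, Finset.mul_sum, ← Finset.sum_add_distrib]
    apply Finset.sum_congr rfl
    intro j _
    have e1 : Real.sqrt (F.qL j) * (K / F.qL j) ^ (1 / 3 : ℝ) =
        K ^ (1 / 3 : ℝ) * F.qL j ^ (1 / 6 : ℝ) := by
      have hq1 := hqpos j
      rw [Real.sqrt_eq_rpow, Real.div_rpow hK0.le hq1.le]
      have e2 : F.qL j ^ (1 / 2 : ℝ) = F.qL j ^ (1 / 3 : ℝ) * F.qL j ^ (1 / 6 : ℝ) := by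
        rw [← Real.rpow_add hq1]; norm_num
      rw [e2]
      field_simp
    have e3 : ((Real.sqrt (F.qL j) : ℝ) : ℂ) * (((K / F.qL j) ^ (1 / 3 : ℝ) : ℝ) : ℂ) =
        ((K ^ (1 / 3 : ℝ) : ℝ) : ℂ) * ((F.qL j ^ (1 / 6 : ℝ) : ℝ) : ℂ) := by
      rw [← Complex.ofReal_mul, e1, Complex.ofReal_mul]
    push_cast at e3 ⊢
    linear_combination (2 * (Real.sqrt 3 : ℂ) * F.cL j * κ * A1 * S j) * e3
  -- the bound
  have hb7 := h7 Q a5
  have hb7' : ‖(∑ j, F.cL j * DL3 h₀ h r y₁ δ₀ Q M m₀ F.ξ (tw ψ l) V' om' (K / F.qL j)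
      (Q / F.qL j)) * ((K / Real.sqrt Q : ℝ) : ℂ)‖ ≤ C7 * R := by
    rw [norm_mul, Complex.norm_real, Real.norm_of_nonneg (by positivity)]
    refine hb7.trans ?_
    rw [mul_assoc]
    have e1 := exp7' (η' := η') (y := y) (θ := θ) hd hdc' a1.le
    calc C7 * (Q ^ (d / 4) * (Q ^ ((1 / 2 + y) / 3 + y + θ) * Q ^ (5 * d - η')))
        ≤ C7 * (K ^ (1 / 3 : ℝ) * Q ^ (y + θ - d / 4)) := by gcongr
      _ ≤ C7 * (K ^ (1 / 3 : ℝ) * Q ^ (y + θ - d₀)) := by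
          have : Q ^ (y + θ - d / 4) ≤ Q ^ (y + θ - d₀) :=
            Real.rpow_le_rpow_of_exponent_le a1.le (by linarith)
          gcongr
      _ = C7 * R := by rw [hR]
  have hsum : ‖∑ j, F.cL j * ((2 * Real.sqrt 3 * Real.sqrt (F.qL j) : ℝ) : ℂ) *
        (Lj j - κ * (((K / F.qL j) ^ (1 / 3 : ℝ) : ℝ) : ℂ) * A1 * S j)‖ ≤
      (∑ j, ‖F.cL j‖ * (2 * Real.sqrt 3 * Real.sqrt (F.qL j)) * (|C5 j| + |CN j|)) * R := by
    rw [Finset.sum_mul]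
    refine norm_sum_le_of_le _ fun j _ => ?_
    rw [norm_mul, norm_mul, Complex.norm_real, Real.norm_of_nonneg (by positivity), mul_assoc
      (‖F.cL j‖ * (2 * Real.sqrt 3 * Real.sqrt (F.qL j)))]
    have := hEj j
    gcongr
  have hfin : 2 * Real.sqrt 3 * K ^ (1 / 3 : ℝ) * ‖κ‖ * ‖A1‖ * ‖T‖ ≤ B * R := by
    have e1 : ((2 * Real.sqrt 3 * K ^ (1 / 3 : ℝ) : ℝ) : ℂ) * κ * A1 * T =
        (∑ j, F.cL j * DL3 h₀ h r y₁ δ₀ Q M m₀ F.ξ (tw ψ l) V' om' (K / F.qL j) (Q / F.qL j)) *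
          ((K / Real.sqrt Q : ℝ) : ℂ) -
        ∑ j, F.cL j * ((2 * Real.sqrt 3 * Real.sqrt (F.qL j) : ℝ) : ℂ) *
          (Lj j - κ * (((K / F.qL j) ^ (1 / 3 : ℝ) : ℝ) : ℂ) * A1 * S j) := by
      rw [hmain]; ring
    have e2 : ‖((2 * Real.sqrt 3 * K ^ (1 / 3 : ℝ) : ℝ) : ℂ) * κ * A1 * T‖ =
        2 * Real.sqrt 3 * K ^ (1 / 3 : ℝ) * ‖κ‖ * ‖A1‖ * ‖T‖ := by
      rw [norm_mul, norm_mul, norm_mul, Complex.norm_real, Real.norm_of_nonneg (by positivity)]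
    rw [← e2, e1]
    refine (norm_sub_le _ _).trans ((add_le_add hb7' hsum).trans (le_of_eq ?_))
    rw [hB]; ring
  -- division by the amplifier
  have hlogQ : 0 < Real.log Q := Real.log_pos a1
  have hA1low : c * Q ^ y * (Real.log Q ^ r)⁻¹ ≤ ‖A1‖ := by
    have b1 := hlow Q a2
    rw [hA1, norm_mul, Complex.norm_real, Real.norm_of_nonneg (by positivity)]
    have b2 : Q ^ y = Q ^ δ₀ * Q ^ y₁ := by rw [← Real.rpow_add hQ0, hy']; ring_nf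
    calc c * Q ^ y * (Real.log Q ^ r)⁻¹ = Q ^ δ₀ * (c * Q ^ y₁ * (Real.log Q ^ r)⁻¹) := by
          rw [b2]; ring
      _ ≤ _ := by gcongr
  have hκ' : 0 < ‖κ‖ := norm_pos_iff.mpr hκ
  have h3 : (0 : ℝ) < Real.sqrt 3 := by positivity
  have hstep1 : 2 * Real.sqrt 3 * K ^ (1 / 3 : ℝ) * ‖κ‖ * (c * Q ^ y * (Real.log Q ^ r)⁻¹) * ‖T‖ ≤
      B * R := by
    refine le_trans ?_ hfin
    gcongr
  have hT1 : ‖T‖ ≤ B / (2 * Real.sqrt 3 * ‖κ‖ * c) * (Real.log Q ^ r * Q ^ (θ - d₀)) := by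
    have hRe : R = K ^ (1 / 3 : ℝ) * (Q ^ y * Q ^ (θ - d₀)) := by
      rw [hR, ← Real.rpow_add hQ0]; ring_nf
    rw [hRe] at hstep1
    have hpos : 0 < 2 * Real.sqrt 3 * K ^ (1 / 3 : ℝ) * ‖κ‖ * (c * Q ^ y *
        (Real.log Q ^ r)⁻¹) := by positivity
    have h4 : ‖T‖ ≤ B * (K ^ (1 / 3 : ℝ) * (Q ^ y * Q ^ (θ - d₀))) /
        (2 * Real.sqrt 3 * K ^ (1 / 3 : ℝ) * ‖κ‖ * (c * Q ^ y * (Real.log Q ^ r)⁻¹)) := by
      rw [le_div_iff₀ hpos]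
      linarith
    refine h4.trans (le_of_eq ?_)
    field_simp
  have hlp := log_pow_le hr (x := d₀ / 2) (by linarith) a1
  calc ‖T‖ ≤ B / (2 * Real.sqrt 3 * ‖κ‖ * c) * (Real.log Q ^ r * Q ^ (θ - d₀)) := hT1
    _ ≤ B / (2 * Real.sqrt 3 * ‖κ‖ * c) *
        (Q ^ (d₀ / 2) / (d₀ / 2 / r) ^ r * Q ^ (θ - d₀)) := by gcongr
    _ = B / (2 * Real.sqrt 3 * ‖κ‖ * c) / (d₀ / 2 / r) ^ r *
        (Q ^ (d₀ / 2) * Q ^ (θ - d₀)) := by ring
    _ = B / (2 * Real.sqrt 3 * ‖κ‖ * c) / (d₀ / 2 / r) ^ r * Q ^ (θ - d₀ / 2) := by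
        rw [← Real.rpow_add hQ0]; ring_nf
    _ ≤ B / (2 * Real.sqrt 3 * ‖κ‖ * c) / (d₀ / 2 / r) ^ r * Q ^ (θ - δ) := by
        have h5' : Q ^ (θ - d₀ / 2) ≤ Q ^ (θ - δ) :=
          Real.rpow_le_rpow_of_exponent_le a1.le (by linarith)
        gcongr

end Crest.Agent.R017.BEndA699

namespace Crest.Agent.R017.BTop347

open Crest.Agent.R017.End699 Crest.Agent.R017.B770

/-- **one contraction step** from `D-OUT` for `l₁ ≠ -4` -/
theorem stepQ {θ : ℝ} (hθ : 7 / 8 < θ) (hθ1 : θ ≤ 1) (hPF : PF Set.univ θ)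
    (hD : DOUT3Q (fun P => P.l₁ ≠ -4) θ) : ∃ δ > 0, PF Set.univ (θ - δ) := by
  refine BEndA699.stepBQ_of L6106.propL6' secAQ hθ hPF ?_
  obtain ⟨r, y, δ, η, hr, hy, hδ, hyδ, hδ1, h10, hη, hηδ, hD⟩ := hD
  have hNP := Asm986.natNP3Q_ne hθ hθ1 hr hy hδ hyδ hδ1 hη hηδ hD
  exact ⟨r, y, δ, η, η, hr, hy, hδ, h10, hη, hη,
    L747.propL7Q hNP (by linarith) hr hy hδ (by linarith),
    BAll770.leafL5 θ r y δ hθ hθ1 hPF hr hy hδ hδ1 h10,
    NPL699.leafNPLQ hθ hθ1 hr hy hδ hyδ h10 hη hη hNP,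
    Master3.propPLOW' hr hy⟩

/-- **`S0023`** from `D-OUT` for `l₁ ≠ -4` -/
theorem s23_of_Q4 (hD : ∀ θ : ℝ, 7 / 8 < θ → θ ≤ 1 → PF Set.univ θ →
    DOUT3Q (fun P => P.l₁ ≠ -4) θ) : S23 := by
  refine s23_of_nz ?_
  refine nz_of_pf (S := Set.univ) (Set.mem_univ 0) (pf_bootstrap fun θ hθ hθ1 hPF => ?_)
  exact stepQ hθ hθ1 hPF (hD θ hθ hθ1 hPF)

/-- **`S0022`** from `D-OUT` for `l₁ ≠ -4` -/
theorem s22_of_Q4 (hD : ∀ θ : ℝ, 7 / 8 < θ → θ ≤ 1 → PF Set.univ θ →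
    DOUT3Q (fun P => P.l₁ ≠ -4) θ) : S22 := s22_of_s23 (s23_of_Q4 hD)

end Crest.Agent.R017.BTop347
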