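import Crest.Agent.R017.BoxP2_271

/-!
# Row 17, D.box: the principal part of `DOUT3` (helper271)
-/

set_option autoImplicit false

noncomputable section

open MeasureTheory Complex Set
open scoped ComplexConjugate ContDiff

namespace Crest.Agent.R017.BoxP271

open Crest.Agent.R012 Crest.Agent.R012.Eis Crest.Agent.R012.Mob705 Crest.Agent.R012.Gauss880
open Crest.Agent.R012.PSer47 Crest.Agent.R012.Div277 Crest.Agent.R012.Weight600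
open Crest.Agent.R017.End699 Crest.Agent.R017.Sx545 Crest.Agent.R017.B770
open Crest.Agent.R017.Asm986 Crest.Agent.R017.HBS271 Crest.Agent.R017.Sup271
open Crest.Agent.R017.NatP401 (exists_cubefree dvd_of_sq_dvd_cube principal_unique card_principal)

lemma norm_ang_le1 (l : ℤ) {b : Eis} (hb : b ≠ 0) : ‖ang l b‖ ≤ 1 := by
  have h : ‖toC b‖ ≠ 0 := norm_ne_zero_iff.mpr (toC_ne_zero hb)
  unfold ang
  rw [norm_zpow, norm_div, Complex.norm_real, norm_norm, div_self h, one_zpow]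

lemma norm_sy_le' (k e : Eis) (he : IsPrim e) : ‖sy k e‖ ≤ 1 := by
  exact (Char766.isChar_sy k).norm_le he

/-- bound of the weight -/
lemma norm_wk_le (P : DPar) (hP : P.OK) {B : ℝ} (hB : ∀ x, ‖P.U x‖ ≤ B) (τ H : ℝ) {k : Eis}
    (hk : k ≠ 0) : ‖P.wk τ H k‖ ≤ nm P.n₃ * B := by
  have hB0 : 0 ≤ B := (norm_nonneg _).trans (hB 0)
  have h1 := FE47.norm_DM_le hP.χ₃ k
  have h2 := norm_ang_le1 P.l₃ hk
  have hk0 : nm k ≠ 0 := (nm_pos.mpr hk).ne'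
  have h3 : ‖(nm k : ℂ) ^ (I * (τ : ℂ))‖ = 1 := by
    rw [Complex.norm_natCast_cpow_of_pos (nm_pos.mpr hk)]
    simp
  unfold DPar.wk
  rw [norm_mul, norm_mul, norm_mul, h3, mul_one]
  calc ‖FE47.DM P.n₃ P.χ₃ k‖ * ‖ang P.l₃ k‖ * ‖P.U (nm k / H)‖ ≤ nm P.n₃ * 1 * B := by
        gcongr
        exact hB _
    _ = _ := by ring

lemma sw_bdd {V : ℝ → ℂ} (hV : SW V) : ∃ B, 0 ≤ B ∧ ∀ x, ‖V x‖ ≤ B := by
  obtain ⟨B, hB⟩ := hV.smooth.continuous.bounded_above_of_compact_support hV.cpt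
  exact ⟨B, (norm_nonneg _).trans (hB 0), hB⟩

lemma sm_prim {m c : Eis} (h : Sm m c) : IsPrim c := h.1

lemma CJ_pos {r : ℕ} {y Q₀ : ℝ} (hQ : 0 < Q₀) (J : Finset (Fin r)) : 0 < CJ r y Q₀ J :=
  Real.rpow_pos_of_pos hQ _

lemma CJ_le {r : ℕ} {y Q₀ : ℝ} (hr : 0 < r) (hy : 0 ≤ y) (hQ : 1 ≤ Q₀) (J : Finset (Fin r)) :
    CJ r y Q₀ J ≤ Q₀ ^ y := by
  unfold CJ
  refine Real.rpow_le_rpow_of_exponent_le hQ ?_
  have h1 : (J.card : ℝ) ≤ r := by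
    have := Finset.card_le_univ J
    rw [Fintype.card_fin] at this
    exact_mod_cast this
  have hr' : (0 : ℝ) < r := by exact_mod_cast hr
  calc y / r * J.card ≤ y / r * r := by gcongr
    _ = y := by field_simp

lemma X_facts {a b c d Q : ℝ} (ha : 1 ≤ a) (hb : 1 ≤ b) (hc : 1 ≤ c) (hd : 1 ≤ d) (hQ : 1 ≤ Q) :
    Q ≤ a * b * c * d * Q ∧ a ≤ a * b * c * d * Q ∧ b ≤ a * b * c * d * Q := by
  have h1 : 1 ≤ a * b := one_le_mul_of_one_le_of_one_le ha hb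
  have h2 : 1 ≤ a * b * c := one_le_mul_of_one_le_of_one_le h1 hc
  have h3 : 1 ≤ a * b * c * d := one_le_mul_of_one_le_of_one_le h2 hd
  refine ⟨le_mul_of_one_le_left (by linarith) h3, ?_, ?_⟩
  · calc a = a * 1 * 1 * 1 * 1 := by ring
      _ ≤ _ := by gcongr
  · calc b = 1 * b * 1 * 1 * 1 := by ring
      _ ≤ _ := by gcongr

lemma Z_facts {β X H Q₀ : ℝ} (hβ : 1 ≤ β) (hX : 1 ≤ X) (hQX : Q₀ ≤ X) (hQ : 1 ≤ Q₀)
    (hH : 0 < H) (hHQ : H ≤ Q₀ ^ 2) : X ≤ β * X ^ 3 ∧ β * H ≤ β * X ^ 3 := by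
  have h1 : X ≤ X ^ 3 := by
    calc X = X ^ 1 := (pow_one X).symm
      _ ≤ X ^ 3 := pow_le_pow_right₀ hX (by norm_num)
  have h2 : Q₀ ^ 2 ≤ X ^ 3 := by
    calc Q₀ ^ 2 ≤ X ^ 2 := by gcongr
      _ ≤ X ^ 3 := pow_le_pow_right₀ hX (by norm_num)
  refine ⟨h1.trans (le_mul_of_one_le_left (by positivity) hβ), ?_⟩
  have : H ≤ X ^ 3 := hHQ.trans h2
  gcongr

lemma fin_alg {K0 Kc T zs E cj q h A1 B1 Cj Qs b x TG : ℝ} (hK0 : 0 ≤ K0) (hKc : 0 ≤ Kc)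
    (hT : 0 ≤ T) (hzs : 0 ≤ zs) (hE : 0 ≤ E) (hcj : 0 ≤ cj) (hq : 0 ≤ q) (hh : 0 ≤ h)
    (hA : A1 ≤ zs * zs) (hB0 : 0 ≤ B1) (hB : B1 ≤ zs * zs * T) (hCj0 : 0 ≤ Cj)
    (hCj : Cj ≤ cj * zs) (hQs0 : 0 ≤ Qs) (hQs : Qs ≤ q * zs) (hb : zs ^ 9 ≤ b * x)
    (hTG0 : h * q * cj * E ≤ TG) :
    (K0 * (T * A1 * E) * (B1 * Cj) * (B1 * Qs)) * (Kc * (zs * h)) ≤
      K0 * Kc * b * x * T ^ 3 * TG := by
  have h1 : B1 * Cj ≤ (zs * zs * T) * (cj * zs) := by gcongr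
  have h2 : B1 * Qs ≤ (zs * zs * T) * (q * zs) := by gcongr
  have h3 : T * A1 * E ≤ T * (zs * zs) * E := by gcongr
  have h4 : K0 * (T * A1 * E) ≤ K0 * (T * (zs * zs) * E) := by gcongr
  have h5 : K0 * (T * A1 * E) * (B1 * Cj) ≤
      K0 * (T * (zs * zs) * E) * ((zs * zs * T) * (cj * zs)) :=
    mul_le_mul h4 h1 (by positivity) (by positivity)
  have h6 := mul_le_mul h5 h2 (by positivity) (by positivity)
  have h7 := mul_le_mul_of_nonneg_right h6 (show 0 ≤ Kc * (zs * h) by positivity)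
  refine h7.trans ?_
  have hzz : 0 ≤ zs ^ 9 := by positivity
  have e : K0 * (T * (zs * zs) * E) * (zs * zs * T * (cj * zs)) * (zs * zs * T * (q * zs)) *
      (Kc * (zs * h)) = K0 * Kc * T ^ 3 * (zs ^ 9 * (h * q * cj * E)) := by ring
  rw [e]
  have h8 : zs ^ 9 * (h * q * cj * E) ≤ (b * x) * TG :=
    mul_le_mul hb hTG0 (by positivity) (hzz.trans hb)
  calc K0 * Kc * T ^ 3 * (zs ^ 9 * (h * q * cj * E)) ≤ K0 * Kc * T ^ 3 * ((b * x) * TG) :=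
        mul_le_mul_of_nonneg_left h8 (by positivity)
    _ = _ := by ring

open Classical in
/-- **the part of `DOUT3` over the `k` with `ψ χ_k` principal** -/
theorem princ_part {θ : ℝ} (hθ : 7 / 8 < θ) (hθ1 : θ ≤ 1) (hPF : PF Set.univ θ) {r : ℕ}
    {y δ η : ℝ} (hr : 0 < r) (hy : 0 < y) (hδ : 0 < δ) (hyδ : y + δ < 1) (hδ2 : δ ≤ 1 / 1000)
    (hη : 0 < η) (hη2 : η ≤ δ / 16) (P : DPar) (hP : P.OK) {ε C₁ : ℝ} (hε : 0 < ε)
    (hC₁ : 0 < C₁) : ∃ C A : ℝ, 0 ≤ C ∧ 0 ≤ A ∧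
    ∀ (Q₀ Q : ℝ), 1 ≤ Q → Q ≤ Q₀ → ∀ κ : ℝ, -1 ≤ κ → κ ≤ δ * Real.log Q₀ →
    ∀ (J : Finset (Fin r)) (H : ℝ), 0 < H → H ≤ Q₀ ^ (1 / 2 + (y + δ) + η) →
    ∀ d₁ d₂ d₃ e : Eis, d₁ ≠ 0 → d₂ ≠ 0 → d₃ ≠ 0 → Sm P.n e →
    ∀ (t₁ t₂ τ : ℝ) (𝒟 : Finset Eis), (∀ q ∈ 𝒟, Sm P.n q ∧ Squarefree q) →
    ∀ u v : Eis → ℝ, (∀ q, 0 ≤ u q ∧ u q ≤ C₁) → (∀ q, 0 ≤ v q ∧ v q ≤ C₁) →
      ∑ q ∈ 𝒟, ‖∑' k : Eis, if k ≠ 0 ∧ q ^ 2 ∣ k ∧
          (NPk P.n P.φ P.l₁ k ∧ ¬ NPm P.n P.ψ P.l₂ k) then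
        P.wk τ H k * (prin0 d₃ k * sy k e) *
          (P.am r y Q₀ (κ - u q) J d₁ t₁ k * P.mo (Q * Real.exp (-(v q))) d₂ t₂ k) else 0‖ ≤
        C * ((nm d₁ : ℝ) * nm d₂ * nm d₃ * nm e * Q₀) ^ ε * (1 + |t₁| + |t₂| + |τ|) ^ A *
          TgB θ η (if δ / 2 * Real.log Q₀ ≤ κ then η else -η) (y + δ) Q₀ Q H
            (CJ r y Q₀ J * Real.exp κ) := by
  -- small exponent
  obtain ⟨s, hs0, hs1, hs2⟩ : ∃ s : ℝ, 0 < s ∧ s ≤ 1 ∧ 27 * s ≤ ε := by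
    refine ⟨min 1 (ε / 27), by positivity, min_le_left _ _, ?_⟩
    have := min_le_right (1 : ℝ) (ε / 27)
    linarith
  have hθ' : 1 / 2 < θ := by linarith
  obtain ⟨Cm, hCm0, hCm⟩ := mo_le hθ' hθ1 hPF hs0 hs1 P.l₂ hP.V C₁
  obtain ⟨Ca, hCa0, hCa⟩ := amp_le hθ' hθ1 hPF hs0 hs1 P.l₁ hP.h r hy.le
  obtain ⟨Cs, hCs0, hCs⟩ := as_le hP.h₀ P.l₁ P.n P.φ hP.φ hP.ψ P.l₂ hs0
  obtain ⟨Ct, hCt1, hCt⟩ := tau_le_rpow hs0
  obtain ⟨β, hβ1, hβ⟩ := Asm986.sw_bound hP.U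
  obtain ⟨BU, hBU0, hBU⟩ := sw_bdd hP.U
  have hn1 : (1 : ℝ) ≤ nm P.n := by exact_mod_cast nm_pos.mpr hP.φ.q0
  set K0 : ℝ := (nm P.n₃ * BU) * (Cs * (Ca * ((nm P.n : ℝ) ^ 2) ^ s) *
    (Cm * ((nm P.n : ℝ) ^ 2) ^ s)) with hK0
  have hK00 : 0 ≤ K0 := by positivity
  refine ⟨K0 * (18 * β * Ct) * β ^ (9 * s), 3, by positivity, by norm_num, ?_⟩
  intro Q₀ Q hQ hQQ κ hκ1 hκ2 J H hH hH2 d₁ d₂ d₃ e hd₁ hd₂ hd₃ he t₁ t₂ τ 𝒟 h𝒟 u v hu hv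
  have hQ₀ : 1 ≤ Q₀ := hQ.trans hQQ
  have hQ₀0 : 0 < Q₀ := by linarith
  have hL0 : 0 ≤ Real.log Q₀ := Real.log_nonneg hQ₀
  have hCJ := CJ_pos (r := r) (y := y) hQ₀0 J
  have hm1 : (1 : ℝ) ≤ nm d₁ := by exact_mod_cast nm_pos.mpr hd₁
  have hm2 : (1 : ℝ) ≤ nm d₂ := by exact_mod_cast nm_pos.mpr hd₂
  have hm3 : (1 : ℝ) ≤ nm d₃ := by exact_mod_cast nm_pos.mpr hd₃
  have hm4 : (1 : ℝ) ≤ nm e := by exact_mod_cast nm_pos.mpr he.1.ne_zero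
  set X : ℝ := (nm d₁ : ℝ) * nm d₂ * nm d₃ * nm e * Q₀ with hX
  obtain ⟨hXQ, hXd1, hXd2⟩ := X_facts hm1 hm2 hm3 hm4 hQ₀
  rw [← hX] at hXQ hXd1 hXd2
  have hX1 : 1 ≤ X := hQ₀.trans hXQ
  set T : ℝ := 1 + |t₁| + |t₂| + |τ| with hT
  have a1 := abs_nonneg t₁
  have a2 := abs_nonneg t₂
  have a3 := abs_nonneg τ
  have hT1 : 1 ≤ T := by rw [hT]; linarith
  have hTt1 : 1 + |t₁| ≤ T := by rw [hT]; linarith
  have hTt2 : 1 + |t₂| ≤ T := by rw [hT]; linarith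
  -- `Z`
  set Z : ℝ := β * X ^ 3 with hZ
  have hHQ : H ≤ Q₀ ^ 2 := by
    refine hH2.trans ?_
    rw [← Real.rpow_natCast]
    refine Real.rpow_le_rpow_of_exponent_le hQ₀ ?_
    push_cast
    linarith
  obtain ⟨hZX, hβH⟩ := Z_facts hβ1 hX1 hXQ hQ₀ hH hHQ
  rw [← hZ] at hZX hβH
  have hZ1 : 1 ≤ Z := hX1.trans hZX
  have hZ0 : 0 ≤ Z := by linarith
  set N : ℕ := ⌊β * H⌋₊ with hN
  have hNβ : (N : ℝ) ≤ β * H := Nat.floor_le (by positivity)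
  have hNZ : (N : ℝ) ≤ Z := hNβ.trans hβH
  -- the sum is trivial if `N = 0`
  set a : ℝ := if δ / 2 * Real.log Q₀ ≤ κ then 3 / 4 else 1 with ha
  have ha' : a = 1 ∨ a = 3 / 4 := by
    rw [ha]; split_ifs
    · exact Or.inr rfl
    · exact Or.inl rfl
  have ha0 : 0 ≤ a := by rcases ha' with h | h <;> rw [h] <;> norm_num
  set W : ℝ := K0 * (T * (Z * Z) ^ s * Real.exp (a * κ)) * ((Z * Z * T) ^ s *
    CJ r y Q₀ J ^ (θ + s)) * ((Z * Z * T) ^ s * Q ^ (θ + s)) with hW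
  have hW0 : 0 ≤ W := by positivity
  have hq := sum_q_le (N := N) (𝒟 := 𝒟) (fun q hq => (h𝒟 q hq).1.1)
    (c1 := fun k => NPk P.n P.φ P.l₁ k) (c2 := fun k => NPm P.n P.ψ P.l₂ k)
    (F := fun q k => P.wk τ H k * (prin0 d₃ k * sy k e) *
      (P.am r y Q₀ (κ - u q) J d₁ t₁ k * P.mo (Q * Real.exp (-(v q))) d₂ t₂ k))
    (W := W) hW0 ?_ ?_
  rotate_left
  · intro q k hk
    have h0 : P.U (nm k / H) = 0 := by
      by_contra hne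
      have h1 := (hβ _ hne).2
      rw [div_le_iff₀ hH] at h1
      have h2 : nm k ≤ N := Nat.le_floor h1
      omega
    unfold DPar.wk
    rw [h0]; ring
  · intro q hq k hk hc hkN
    have hkN' : (nm k : ℝ) ≤ Z := le_trans (by exact_mod_cast hkN) hNZ
    have hk1 : (1 : ℝ) ≤ nm k := by exact_mod_cast nm_pos.mpr hk
    have b1 := norm_wk_le P hP hBU τ H hk
    have b2 : ‖prin0 d₃ k * sy k e‖ ≤ 1 := by
      rw [norm_mul]
      refine mul_le_one₀ ?_ (norm_nonneg _) (norm_sy_le' k e he.1)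
      unfold prin0; split_ifs <;> simp
    have b3 : ‖P.am r y Q₀ (κ - u q) J d₁ t₁ k‖ ≤
        (Cs * (T * (Z * Z) ^ s * Real.exp (a * κ))) *
          ((Ca * ((nm P.n : ℝ) ^ 2) ^ s) * ((Z * Z * T) ^ s * CJ r y Q₀ J ^ (θ + s))) := by
      unfold DPar.am
      rw [norm_mul]
      have c1 := hCs k d₁ hk hd₁ hc.1 hc.2 (κ - u q) t₁ a ha'
      have c2 := hCa P.n P.φ hP.φ d₁ k hd₁ hk hc.1 t₁ Q₀ hQ₀ J
      have c3 : Cs * ((1 + |t₁|) * ((nm k : ℝ) * nm d₁) ^ s * Real.exp (a * (κ - u q))) ≤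
          Cs * (T * (Z * Z) ^ s * Real.exp (a * κ)) := by
        have hu' := (hu q).1
        have : nm d₁ ≤ Z := hXd1.trans hZX
        gcongr
        linarith
      have c4 : Ca * (((nm P.n : ℝ) ^ 2 * nm d₁) * nm k * (1 + |t₁|)) ^ s *
          CJ r y Q₀ J ^ (θ + s) ≤
          (Ca * ((nm P.n : ℝ) ^ 2) ^ s) * ((Z * Z * T) ^ s * CJ r y Q₀ J ^ (θ + s)) := by
        have h1 : (((nm P.n : ℝ) ^ 2 * nm d₁) * nm k * (1 + |t₁|)) ^ s ≤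
            ((nm P.n : ℝ) ^ 2) ^ s * (Z * Z * T) ^ s := by
          rw [← Real.mul_rpow (by positivity) (by positivity)]
          refine Real.rpow_le_rpow (by positivity) ?_ hs0.le
          have : (nm d₁ : ℝ) ≤ Z := hXd1.trans hZX
          calc ((nm P.n : ℝ) ^ 2 * nm d₁) * nm k * (1 + |t₁|) ≤
              ((nm P.n : ℝ) ^ 2 * Z) * Z * T := by gcongr
            _ = _ := by ring
        calc _ ≤ Ca * (((nm P.n : ℝ) ^ 2) ^ s * (Z * Z * T) ^ s) * CJ r y Q₀ J ^ (θ + s) := by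
              gcongr
          _ = _ := by ring
      exact mul_le_mul (c1.trans c3) (c2.trans c4) (norm_nonneg _) (by positivity)
    have b4 : ‖P.mo (Q * Real.exp (-(v q))) d₂ t₂ k‖ ≤
        (Cm * ((nm P.n : ℝ) ^ 2) ^ s) * ((Z * Z * T) ^ s * Q ^ (θ + s)) := by
      unfold DPar.mo
      refine (hCm P.n P.ψ hP.ψ d₂ k hd₂ hk t₂ Q (v q) hQ (hv q).1 (hv q).2).trans ?_
      have h1 : (((nm P.n : ℝ) ^ 2 * nm d₂) * nm k * (1 + |t₂|)) ^ s ≤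
          ((nm P.n : ℝ) ^ 2) ^ s * (Z * Z * T) ^ s := by
        rw [← Real.mul_rpow (by positivity) (by positivity)]
        refine Real.rpow_le_rpow (by positivity) ?_ hs0.le
        have : (nm d₂ : ℝ) ≤ Z := hXd2.trans hZX
        calc ((nm P.n : ℝ) ^ 2 * nm d₂) * nm k * (1 + |t₂|) ≤
            ((nm P.n : ℝ) ^ 2 * Z) * Z * T := by gcongr
          _ = _ := by ring
      calc _ ≤ Cm * (((nm P.n : ℝ) ^ 2) ^ s * (Z * Z * T) ^ s) * Q ^ (θ + s) := by gcongr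
        _ = _ := by ring
    have b5 : ‖P.wk τ H k * (prin0 d₃ k * sy k e)‖ ≤ (nm P.n₃ * BU) * 1 := by
      rw [norm_mul]
      exact mul_le_mul b1 b2 (norm_nonneg _) (by positivity)
    have b6 := mul_le_mul b3 b4 (norm_nonneg _) (by positivity)
    rw [← norm_mul] at b6
    have b7 := mul_le_mul b5 b6 (norm_nonneg _) (by positivity)
    rw [← norm_mul] at b7
    refine b7.trans (le_of_eq ?_)
    rw [hW, hK0]; ring
  refine hq.trans ?_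
  -- number of principal `k`
  have hS : ∑ k ∈ (ball N).filter (fun k => k ≠ 0 ∧
      (NPk P.n P.φ P.l₁ k ∧ ¬ NPm P.n P.ψ P.l₂ k)), (tau k : ℝ) ≤
      (18 * β * Ct) * (Z ^ s * H ^ (1 / 3 : ℝ)) := by
    have h1 : ∀ k ∈ (ball N).filter (fun k => k ≠ 0 ∧
        (NPk P.n P.φ P.l₁ k ∧ ¬ NPm P.n P.ψ P.l₂ k)), (tau k : ℝ) ≤ Ct * Z ^ s := by
      intro k hk
      rw [Finset.mem_filter, mem_ball] at hk
      refine (hCt k hk.2.1).trans ?_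
      have : (nm k : ℝ) ≤ Z := le_trans (by exact_mod_cast hk.1) hNZ
      gcongr
    refine (Finset.sum_le_card_nsmul _ _ _ h1).trans ?_
    rw [nsmul_eq_mul]
    by_cases hN1 : 1 ≤ N
    · have h2 := card_npm hP.ψ P.l₂ hN1 ((ball N).filter (fun k => k ≠ 0 ∧
        (NPk P.n P.φ P.l₁ k ∧ ¬ NPm P.n P.ψ P.l₂ k))) (by
          intro k hk
          rw [Finset.mem_filter] at hk
          exact ⟨hk.1, hk.2.1, hk.2.2.2⟩)
      have h3 : (N : ℝ) ^ (1 / 3 : ℝ) ≤ β * H ^ (1 / 3 : ℝ) := by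
        calc (N : ℝ) ^ (1 / 3 : ℝ) ≤ (β * H) ^ (1 / 3 : ℝ) := by gcongr
          _ = β ^ (1 / 3 : ℝ) * H ^ (1 / 3 : ℝ) := Real.mul_rpow (by linarith) hH.le
          _ ≤ β * H ^ (1 / 3 : ℝ) := by
              gcongr
              calc β ^ (1 / 3 : ℝ) ≤ β ^ (1 : ℝ) :=
                    Real.rpow_le_rpow_of_exponent_le hβ1 (by norm_num)
                _ = β := Real.rpow_one β
      calc _ ≤ (18 * (N : ℝ) ^ (1 / 3 : ℝ)) * (Ct * Z ^ s) := by gcongr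
        _ ≤ (18 * (β * H ^ (1 / 3 : ℝ))) * (Ct * Z ^ s) := by gcongr
        _ = _ := by ring
    · have hN0 : N = 0 := by omega
      have hemp : (ball N).filter (fun k => k ≠ 0 ∧
          (NPk P.n P.φ P.l₁ k ∧ ¬ NPm P.n P.ψ P.l₂ k)) = ∅ := by
        rw [Finset.filter_eq_empty_iff]
        intro k hk hc
        rw [mem_ball, hN0] at hk
        exact absurd (nm_pos.mpr hc.1) (by omega)
      rw [hemp, Finset.card_empty]
      have : 0 < Z ^ s := by positivity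
      simp only [Nat.cast_zero, zero_mul]
      positivity
  refine (mul_le_mul_of_nonneg_left hS hW0).trans ?_
  -- exponents
  have hTg := third_mono (θ := θ) (y₀ := y + δ) (δ := δ) (η := η) (a := a)
    (η₂ := if δ / 2 * Real.log Q₀ ≤ κ then η else -η) (Q₀ := Q₀) (Q := Q) (H := H)
    (c := CJ r y Q₀ J) (κ := κ) hθ hθ1 hδ (by linarith) hη hη2 hQ₀ (by linarith) hH hCJ hH2 hκ2
    (by
      rw [ha]
      split_ifs with h
      · exact Or.inr ⟨rfl, rfl, h⟩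
      · exact Or.inl ⟨rfl, rfl⟩)
  have hTg0 : 0 ≤ TgB θ η (if δ / 2 * Real.log Q₀ ≤ κ then η else -η) (y + δ) Q₀ Q H
      (CJ r y Q₀ J * Real.exp κ) := le_trans (by positivity) hTg
  -- the `ε`-factors
  have hCJZ : CJ r y Q₀ J ≤ Z := by
    refine (CJ_le hr hy.le hQ₀ J).trans ?_
    calc Q₀ ^ y ≤ Q₀ ^ (1 : ℝ) := Real.rpow_le_rpow_of_exponent_le hQ₀ (by linarith)
      _ = Q₀ := Real.rpow_one _
      _ ≤ Z := hXQ.trans hZX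
  have hQZ : Q ≤ Z := hQQ.trans (hXQ.trans hZX)
  have f1 : CJ r y Q₀ J ^ (θ + s) ≤ CJ r y Q₀ J ^ θ * Z ^ s := by
    rw [Real.rpow_add hCJ]
    gcongr
  have f2 : Q ^ (θ + s) ≤ Q ^ θ * Z ^ s := by
    rw [Real.rpow_add (by linarith)]
    gcongr
  have f3 : (Z * Z) ^ s = Z ^ s * Z ^ s := Real.mul_rpow hZ0 hZ0
  have f4 : (Z * Z * T) ^ s ≤ Z ^ s * Z ^ s * T := by
    rw [Real.mul_rpow (by positivity) (by linarith), f3]
    have : T ^ s ≤ T := by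
      calc T ^ s ≤ T ^ (1 : ℝ) := Real.rpow_le_rpow_of_exponent_le hT1 hs1
        _ = T := Real.rpow_one T
    gcongr
  have f5 : (Z ^ s) ^ 9 ≤ β ^ (9 * s) * X ^ ε := by
    rw [← Real.rpow_natCast, ← Real.rpow_mul hZ0, hZ, Real.mul_rpow (by linarith) (by positivity),
      ← Real.rpow_natCast, ← Real.rpow_mul (by linarith)]
    have g1 : β ^ (s * ((9 : ℕ) : ℝ)) = β ^ (9 * s) := by rw [mul_comm]; norm_num
    rw [g1]
    have g2 : (X ^ ((3 : ℕ) : ℝ)) ^ (s * ((9 : ℕ) : ℝ)) ≤ X ^ ε := by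
      rw [← Real.rpow_mul (by linarith)]
      refine Real.rpow_le_rpow_of_exponent_le hX1 ?_
      push_cast
      linarith
    rw [← Real.rpow_mul (by linarith)] at g2
    exact mul_le_mul_of_nonneg_left g2 (by positivity)
  have hT3 : T ^ (3 : ℝ) = T ^ 3 := by
    rw [show (3 : ℝ) = ((3 : ℕ) : ℝ) by norm_num, Real.rpow_natCast]
  have hZs : 0 ≤ Z ^ s := by positivity
  have hE0 : 0 ≤ Real.exp (a * κ) := (Real.exp_pos _).le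
  have hcj0 : 0 ≤ CJ r y Q₀ J ^ θ := Real.rpow_nonneg hCJ.le _
  have hq0 : 0 ≤ Q ^ θ := Real.rpow_nonneg (by linarith) _
  have hh0 : 0 ≤ H ^ (1 / 3 : ℝ) := Real.rpow_nonneg hH.le _
  have hB0 : 0 ≤ (Z * Z * T) ^ s := Real.rpow_nonneg (mul_nonneg (mul_nonneg hZ0 hZ0)
    (by linarith)) _
  have hcj1 : 0 ≤ CJ r y Q₀ J ^ (θ + s) := Real.rpow_nonneg hCJ.le _
  have hq1 : 0 ≤ Q ^ (θ + s) := Real.rpow_nonneg (by linarith) _
  have hKc : 0 ≤ 18 * β * Ct := by positivity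
  have hT0 : 0 ≤ T := by linarith
  have hfin := fin_alg hK00 hKc hT0 hZs hE0 hcj0 hq0 hh0 f3.le hB0 f4 hcj1 f1 hq1 f2 f5 hTg
  rw [hT3]
  exact hfin

end Crest.Agent.R017.BoxP271
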