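import Crest.Agent.R017.Two7_939

/-!
# Row 17: separation of lengths (helper813)

`gw h Y t b = N(b)^{it} h(log N(b) - log Y)` : the weight of a piece of length `Y`, height `t`.

* `gw_sep` : a weight of arbitrary length is a superposition of weights whose lengths are on the
  grid `e^{cn}`
* `sep_int`, `sep_one` : square form for a family of linear forms, the length may depend on the
  member of the family
* `sep_list` : the same for multilinear forms, several pieces at once
-/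

set_option autoImplicit false

noncomputable section

open Complex MeasureTheory Filter Topology
open scoped ContDiff

namespace Crest.Agent.R017.HSep813

open Crest.Agent.R012 Crest.Agent.R012.Eis
open Crest.Agent.R012.Weight600 (osc norm_osc ker)
open Crest.Agent.R012.PSer47
open Crest.Agent.R017.End699 Crest.Agent.R017.FE47 Crest.Agent.R017.Two939

/-- the weight of a piece of length `Y`, height `t` -/
def gw (h : ℝ → ℝ) (Y t : ℝ) (b : Eis) : ℂ :=
  osc t (Real.log (nm b)) * cx h (Real.log (nm b) - Real.log Y)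

lemma log_nm_nonneg' {b : Eis} (hb : b ≠ 0) : 0 ≤ Real.log (nm b) := by
  apply Real.log_nonneg
  exact_mod_cast nm_pos.2 hb

/-- partition of unity and Fourier inversion -/
lemma gw_sep {h : ℝ → ℝ} {c : ℝ} (hpu : PU h c) {R : ℝ} (hR : ∀ u, cx h u ≠ 0 → |u| ≤ R) {Y : ℝ}
    (S : Finset ℕ) (hS : ∀ n : ℕ, |c * n - Real.log Y| ≤ 2 * R → n ∈ S) (t : ℝ) {b : Eis}
    (hb : b ≠ 0) :
    gw h Y t b = ∑ n ∈ S, ∫ u : ℝ, (ker (cx h) u * osc u (-Real.log Y)) *
      gw h (Real.exp (c * n)) (t + u) b := by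
  set x := Real.log (nm b) with hx
  have hx0 : 0 ≤ x := log_nm_nonneg' hb
  have hR' : ∀ u, h u ≠ 0 → |u| ≤ R := fun u hu => hR u (by
    unfold cx
    exact_mod_cast hu)
  have h1 := hpu.one x hx0
  have h2 : h (x - Real.log Y) = ∑ n ∈ S, h (x - c * n) * h (x - Real.log Y) := by
    have h3 : ∑' n : ℕ, h (x - c * n) * h (x - Real.log Y) =
        ∑ n ∈ S, h (x - c * n) * h (x - Real.log Y) := by
      apply tsum_eq_sum
      intro n hn
      by_contra h0
      apply hn
      apply hS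
      have ha := hR' _ (left_ne_zero_of_mul h0)
      have hb' := hR' _ (right_ne_zero_of_mul h0)
      have : c * n - Real.log Y = (x - Real.log Y) - (x - c * n) := by ring
      rw [this]
      calc |(x - Real.log Y) - (x - c * n)| ≤ |x - Real.log Y| + |x - c * n| := abs_sub _ _
        _ ≤ 2 * R := by linarith
    rw [← h3, tsum_mul_right, h1, one_mul]
  have hinv := Weight600.inversion_smooth (cd_cx hpu.cd) (cs_cx hpu.cs) (x - Real.log Y)
  have key : ∀ n : ℕ, ∫ u : ℝ, (ker (cx h) u * osc u (-Real.log Y)) *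
      gw h (Real.exp (c * n)) (t + u) b =
      osc t x * ((h (x - c * n) * h (x - Real.log Y) : ℝ) : ℂ) := by
    intro n
    have e1 : ∀ u : ℝ, (ker (cx h) u * osc u (-Real.log Y)) *
        gw h (Real.exp (c * n)) (t + u) b =
        (ker (cx h) u * osc u (x - Real.log Y)) * (osc t x * (h (x - c * n) : ℂ)) := by
      intro u
      unfold gw cx
      rw [Real.log_exp, Weight600.osc_add_left, ← hx]
      have e2 : osc u (x - Real.log Y) = osc u x * osc u (-Real.log Y) := by
        rw [← Weight600.osc_add_right]; rfl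
      rw [e2]
      ring
    simp_rw [e1]
    rw [integral_mul_const, hinv]
    unfold cx
    push_cast
    ring
  rw [Finset.sum_congr rfl fun n _ => key n]
  rw [← Finset.mul_sum]
  unfold gw cx
  rw [← hx]
  conv_lhs => rw [h2]
  push_cast
  rfl

lemma continuous_gw (h : ℝ → ℝ) (Y : ℝ) (b : Eis) : Continuous fun t => gw h Y t b := by
  unfold gw
  exact (Weight600.continuous_osc_left _).mul continuous_const

lemma norm_gw_le {h : ℝ → ℝ} {A : ℝ} (hA : ∀ u, ‖cx h u‖ ≤ A) (Y t : ℝ) (b : Eis) :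
    ‖gw h Y t b‖ ≤ A := by
  unfold gw
  rw [norm_mul, norm_osc, one_mul]
  exact hA _

/-- a linear form in the weight -/
def LF {β : Type} (h : ℝ → ℝ) (T : Finset β) (g : β → Eis) (φ : β → ℂ) (Y t : ℝ) : ℂ :=
  ∑ b ∈ T, φ b * gw h Y t (g b)

lemma continuous_LF {β : Type} (h : ℝ → ℝ) (T : Finset β) (g : β → Eis) (φ : β → ℂ) (Y : ℝ) :
    Continuous fun t => LF h T g φ Y t :=
  continuous_finsetSum _ fun b _ => continuous_const.mul (continuous_gw h Y (g b))

lemma norm_LF_le {β : Type} {h : ℝ → ℝ} {A : ℝ} (hA : ∀ u, ‖cx h u‖ ≤ A) (T : Finset β)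
    (g : β → Eis) (φ : β → ℂ) (Y t : ℝ) : ‖LF h T g φ Y t‖ ≤ ∑ b ∈ T, ‖φ b‖ * A := by
  refine (norm_sum_le _ _).trans (Finset.sum_le_sum fun b _ => ?_)
  rw [norm_mul]
  exact mul_le_mul_of_nonneg_left (norm_gw_le hA _ _ _) (norm_nonneg _)

lemma LF_sep {β : Type} {h : ℝ → ℝ} {c : ℝ} (hpu : PU h c) {R : ℝ}
    (hR : ∀ u, cx h u ≠ 0 → |u| ≤ R) {Y : ℝ} (S : Finset ℕ)
    (hS : ∀ n : ℕ, |c * n - Real.log Y| ≤ 2 * R → n ∈ S) (t : ℝ) (T : Finset β) (g : β → Eis)
    (hg : ∀ b ∈ T, g b ≠ 0) (φ : β → ℂ) :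
    LF h T g φ Y t = ∑ n ∈ S, ∫ u : ℝ, (ker (cx h) u * osc u (-Real.log Y)) *
      LF h T g φ (Real.exp (c * n)) (t + u) := by
  have hki := Weight600.ker_integrable (cd_cx hpu.cd) (cs_cx hpu.cs)
  have hint : ∀ (n : ℕ) (b : β), Integrable (fun u : ℝ =>
      (ker (cx h) u * osc u (-Real.log Y)) * (φ b * gw h (Real.exp (c * n)) (t + u) (g b))) := by
    intro n b
    obtain ⟨A, hA⟩ : ∃ A, ∀ u, ‖cx h u‖ ≤ A :=
      (cs_cx hpu.cs).exists_bound_of_continuous (cd_cx hpu.cd).continuous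
    refine (integrable_mul_osc hki _).mul_bdd (c := ‖φ b‖ * A)
      ((continuous_const.mul ((continuous_gw h (Real.exp (c * n)) (g b)).comp
        (continuous_const.add continuous_id)))).aestronglyMeasurable
      (Eventually.of_forall fun u => ?_)
    rw [norm_mul]
    exact mul_le_mul_of_nonneg_left (norm_gw_le hA _ _ _) (norm_nonneg _)
  have e1 : ∀ n ∈ S, ∫ u : ℝ, (ker (cx h) u * osc u (-Real.log Y)) *
      LF h T g φ (Real.exp (c * n)) (t + u) = ∑ b ∈ T,
      ∫ u : ℝ, (ker (cx h) u * osc u (-Real.log Y)) *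
        (φ b * gw h (Real.exp (c * n)) (t + u) (g b)) := by
    intro n _
    rw [← integral_finsetSum _ fun b _ => hint n b]
    congr 1
    funext u
    rw [LF, Finset.mul_sum]
  rw [Finset.sum_congr rfl e1, Finset.sum_comm]
  unfold LF
  refine Finset.sum_congr rfl fun b hb => ?_
  rw [gw_sep hpu hR S hS t (hg b hb), Finset.mul_sum]
  refine Finset.sum_congr rfl fun n _ => ?_
  rw [← integral_const_mul]
  congr 1
  funext u
  ring

/-- square form for one linear form -/
lemma LF_sep_sq {β : Type} {h : ℝ → ℝ} {c : ℝ} (hpu : PU h c) {R : ℝ}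
    (hR : ∀ u, cx h u ≠ 0 → |u| ≤ R) {Y : ℝ} (S : Finset ℕ)
    (hS : ∀ n : ℕ, |c * n - Real.log Y| ≤ 2 * R → n ∈ S) (t : ℝ) (T : Finset β) (g : β → Eis)
    (hg : ∀ b ∈ T, g b ≠ 0) (φ : β → ℂ) :
    ‖LF h T g φ Y t‖ ^ 2 ≤ (S.card : ℝ) * (∫ u, ‖ker (cx h) u‖) *
      ∑ n ∈ S, ∫ u : ℝ, ‖ker (cx h) u‖ * ‖LF h T g φ (Real.exp (c * n)) (t + u)‖ ^ 2 := by
  have hki := Weight600.ker_integrable (cd_cx hpu.cd) (cs_cx hpu.cs)
  have hI : 0 ≤ ∫ u, ‖ker (cx h) u‖ := integral_nonneg fun _ => norm_nonneg _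
  rw [LF_sep hpu hR S hS t T g hg φ]
  refine (CR2.norm_sum_sq_le_card S _).trans ?_
  rw [mul_assoc]
  have hcard0 : (0 : ℝ) ≤ (S.card : ℝ) := Nat.cast_nonneg _
  refine mul_le_mul_of_nonneg_left ?_ hcard0
  rw [Finset.mul_sum]
  refine Finset.sum_le_sum fun n _ => ?_
  obtain ⟨A, hA⟩ : ∃ A, ∀ u, ‖cx h u‖ ≤ A :=
    (cs_cx hpu.cs).exists_bound_of_continuous (cd_cx hpu.cd).continuous
  set C := ∑ b ∈ T, ‖φ b‖ * A with hCd
  have hC : ∀ u, ‖LF h T g φ (Real.exp (c * n)) u‖ ≤ C := fun u => norm_LF_le hA T g φ _ u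
  have hcont : Continuous fun u => LF h T g φ (Real.exp (c * n)) (t + u) :=
    (continuous_LF h T g φ (Real.exp (c * n))).comp (continuous_const.add continuous_id)
  have i1 : Integrable (fun u : ℝ => ‖ker (cx h) u‖ *
      ‖LF h T g φ (Real.exp (c * n)) (t + u)‖) :=
    hki.norm.mul_bdd (c := C) hcont.norm.aestronglyMeasurable
      (Eventually.of_forall fun u => by rw [norm_norm]; exact hC _)
  have i2 : Integrable (fun u : ℝ => ‖ker (cx h) u‖ *
      ‖LF h T g φ (Real.exp (c * n)) (t + u)‖ ^ 2) :=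
    hki.norm.mul_bdd (c := C ^ 2) (hcont.norm.pow 2).aestronglyMeasurable
      (Eventually.of_forall fun u => by
        rw [norm_pow, norm_norm]
        have := hC (t + u)
        gcongr)
  have h1 : ‖∫ u : ℝ, (ker (cx h) u * osc u (-Real.log Y)) *
      LF h T g φ (Real.exp (c * n)) (t + u)‖ ≤
      ∫ u : ℝ, ‖ker (cx h) u‖ * ‖LF h T g φ (Real.exp (c * n)) (t + u)‖ := by
    refine (norm_integral_le_integral_norm _).trans (le_of_eq ?_)
    congr 1
    funext u
    rw [norm_mul, norm_mul, norm_osc, mul_one]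
  have h2 : 0 ≤ ∫ u : ℝ, ‖ker (cx h) u‖ * ‖LF h T g φ (Real.exp (c * n)) (t + u)‖ :=
    integral_nonneg fun _ => by positivity
  refine (pow_le_pow_left₀ (norm_nonneg _) h1 2).trans ?_
  refine sq_le_of_forall h2 hI fun θ hθ => ?_
  rw [← integral_const_mul, ← integral_const_mul, ← integral_const_mul, ← integral_add
    (hki.norm.const_mul _) (i2.const_mul _)]
  apply integral_mono (i1.const_mul _) ((hki.norm.const_mul _).add (i2.const_mul _))
  intro u
  simp only [Pi.add_apply]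
  set x := ‖LF h T g φ (Real.exp (c * n)) (t + u)‖
  have h3 : 2 * x ≤ θ + θ⁻¹ * x ^ 2 := by
    have h4 : 0 ≤ θ⁻¹ * (θ - x) ^ 2 := by positivity
    have h5 : θ⁻¹ * (θ - x) ^ 2 = θ - 2 * x + θ⁻¹ * x ^ 2 := by field_simp; ring
    linarith
  nlinarith [mul_le_mul_of_nonneg_left h3 (norm_nonneg (ker (cx h) u))]

/-! ### the grid -/

/-- grid points near `y₀` -/
def grid (c y₀ W : ℝ) : Finset ℕ :=
  (Finset.range (⌈(y₀ + W) / c⌉₊ + 1)).filter (fun n : ℕ => |c * n - y₀| ≤ W)

lemma mem_grid {c y₀ W : ℝ} (hc : 0 < c) {n : ℕ} : n ∈ grid c y₀ W ↔ |c * n - y₀| ≤ W := by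
  unfold grid
  rw [Finset.mem_filter, Finset.mem_range]
  refine ⟨fun h => h.2, fun hn => ⟨?_, hn⟩⟩
  have h1 := (abs_le.mp hn).2
  have h2 : (n : ℝ) ≤ (y₀ + W) / c := by
    rw [le_div_iff₀ hc]; linarith
  have h3 : (n : ℝ) ≤ ⌈(y₀ + W) / c⌉₊ := h2.trans (Nat.le_ceil _)
  have h4 : n ≤ ⌈(y₀ + W) / c⌉₊ := by exact_mod_cast h3
  omega

lemma card_grid {c y₀ W : ℝ} (hc : 0 < c) (hW : 0 ≤ W) :
    ((grid c y₀ W).card : ℝ) ≤ 2 * W / c + 1 := by
  rcases (grid c y₀ W).eq_empty_or_nonempty with he | hne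
  · rw [he, Finset.card_empty]
    push_cast
    positivity
  · set a := (grid c y₀ W).min' hne with ha
    set b := (grid c y₀ W).max' hne with hb
    have ha' := (grid c y₀ W).min'_mem hne
    have hb' := (grid c y₀ W).max'_mem hne
    have hsub : grid c y₀ W ⊆ Finset.Icc a b := fun n hn =>
      Finset.mem_Icc.mpr ⟨(grid c y₀ W).min'_le n hn, (grid c y₀ W).le_max' n hn⟩
    have h1 : ((grid c y₀ W).card : ℝ) ≤ (b : ℝ) - a + 1 := by
      have h2 := Finset.card_le_card hsub
      rw [Nat.card_Icc] at h2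
      have hab : a ≤ b := (grid c y₀ W).min'_le b hb'
      have h3 : ((grid c y₀ W).card : ℝ) ≤ ((b + 1 - a : ℕ) : ℝ) := by exact_mod_cast h2
      rw [Nat.cast_sub (by omega)] at h3
      push_cast at h3
      linarith
    have h4 := (abs_le.mp ((mem_grid hc).1 ha')).1
    have h5 := (abs_le.mp ((mem_grid hc).1 hb')).2
    have h7 : (b : ℝ) - a ≤ 2 * W / c := by
      rw [le_div_iff₀ hc]; linarith
    linarith

/-! ### families -/

/-- **one piece, a family of forms, lengths depending on the member**: integral form. -/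
theorem sep_int {h : ℝ → ℝ} {c : ℝ} (hpu : PU h c) {R : ℝ} (hR0 : 0 ≤ R)
    (hR : ∀ u, cx h u ≠ 0 → |u| ≤ R) {ρ : ℝ} (hρ : 0 ≤ ρ) {ι β : Type} (K : Finset ι)
    (T : Finset β) (g : β → Eis) (hg : ∀ b ∈ T, g b ≠ 0) (φ : ι → β → ℂ) (Y : ι → ℝ) (y₀ t : ℝ)
    (hY : ∀ k ∈ K, |Real.log (Y k) - y₀| ≤ ρ) :
    ∑ k ∈ K, ‖LF h T g (φ k) (Y k) t‖ ^ 2 ≤
      (2 * (2 * R + ρ) / c + 1) * (∫ u, ‖ker (cx h) u‖) *
        ∑ n ∈ grid c y₀ (2 * R + ρ), ∫ u : ℝ, ‖ker (cx h) u‖ *
          ∑ k ∈ K, ‖LF h T g (φ k) (Real.exp (c * n)) (t + u)‖ ^ 2 := by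
  have hc := hpu.cpos
  have hki := Weight600.ker_integrable (cd_cx hpu.cd) (cs_cx hpu.cs)
  have hI : 0 ≤ ∫ u, ‖ker (cx h) u‖ := integral_nonneg fun _ => norm_nonneg _
  set S := grid c y₀ (2 * R + ρ) with hS
  have hcard : (S.card : ℝ) ≤ 2 * (2 * R + ρ) / c + 1 := card_grid hc (by positivity)
  obtain ⟨A, hA⟩ : ∃ A, ∀ u, ‖cx h u‖ ≤ A :=
    (cs_cx hpu.cs).exists_bound_of_continuous (cd_cx hpu.cd).continuous
  have i2 : ∀ (n : ℕ) (k : ι), Integrable (fun u : ℝ => ‖ker (cx h) u‖ *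
      ‖LF h T g (φ k) (Real.exp (c * n)) (t + u)‖ ^ 2) := by
    intro n k
    have hcont : Continuous fun u => LF h T g (φ k) (Real.exp (c * n)) (t + u) :=
      (continuous_LF h T g (φ k) (Real.exp (c * n))).comp (continuous_const.add continuous_id)
    refine hki.norm.mul_bdd (c := (∑ b ∈ T, ‖φ k b‖ * A) ^ 2)
      (hcont.norm.pow 2).aestronglyMeasurable (Eventually.of_forall fun u => ?_)
    rw [norm_pow, norm_norm]
    have := norm_LF_le hA T g (φ k) (Real.exp (c * n)) (t + u)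
    gcongr
  have h1 : ∀ k ∈ K, ‖LF h T g (φ k) (Y k) t‖ ^ 2 ≤
      (2 * (2 * R + ρ) / c + 1) * (∫ u, ‖ker (cx h) u‖) *
        ∑ n ∈ S, ∫ u : ℝ, ‖ker (cx h) u‖ *
          ‖LF h T g (φ k) (Real.exp (c * n)) (t + u)‖ ^ 2 := by
    intro k hk
    have h2 := LF_sep_sq hpu hR (Y := Y k) S (fun n hn => by
      rw [hS, mem_grid hc]
      have h3 := hY k hk
      have e : c * n - y₀ = (c * n - Real.log (Y k)) + (Real.log (Y k) - y₀) := by ring
      rw [e]
      exact (abs_add_le _ _).trans (add_le_add hn h3)) t T g hg (φ k)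
    refine h2.trans ?_
    have h4 : 0 ≤ ∑ n ∈ S, ∫ u : ℝ, ‖ker (cx h) u‖ *
          ‖LF h T g (φ k) (Real.exp (c * n)) (t + u)‖ ^ 2 :=
      Finset.sum_nonneg fun n _ => integral_nonneg fun u => by positivity
    gcongr
  refine (Finset.sum_le_sum h1).trans (le_of_eq ?_)
  rw [← Finset.mul_sum, Finset.sum_comm]
  congr 1
  refine Finset.sum_congr rfl fun n _ => ?_
  rw [← integral_finsetSum _ fun k _ => i2 n k]
  congr 1
  funext u
  rw [Finset.mul_sum]

/-- `∫ ‖ker‖ (1+|u|)^M < ∞` -/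
lemma ker_mom {h : ℝ → ℝ} {c : ℝ} (hpu : PU h c) (M : ℝ) : ∃ C : ℝ, 0 ≤ C ∧
    ∀ (B : ℝ) (f : ℝ → ℝ), 0 ≤ B → (∀ u, 0 ≤ f u ∧ f u ≤ B * (1 + |u|) ^ M) →
      ∫ u : ℝ, ‖ker (cx h) u‖ * f u ≤ C * B := by
  set K : ℕ := ⌈M⌉₊ + 2 with hK
  obtain ⟨Ck, hCk, hdec⟩ := Weight600.ker_decay (cd_cx hpu.cd) (cs_cx hpu.cs) K
  set I2 := ∫ s : ℝ, ((1 + |s|) ^ 2)⁻¹ with hI2
  have hI2n : 0 ≤ I2 := integral_nonneg fun _ => by positivity
  refine ⟨Ck * I2, by positivity, fun B f hB hf => ?_⟩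
  have h1 : ∀ u : ℝ, ‖ker (cx h) u‖ * f u ≤ (Ck * B) * ((1 + |u|) ^ 2)⁻¹ := by
    intro u
    have hu1 : 1 ≤ 1 + |u| := by linarith [abs_nonneg u]
    have hu0 : 0 < 1 + |u| := by linarith
    have h4 := hdec u
    have h5 : ‖ker (cx h) u‖ ≤ Ck * ((1 + |u|) ^ K)⁻¹ := by
      rw [← div_eq_mul_inv, le_div_iff₀ (by positivity)]
      exact h4
    have h6 : ((1 + |u|) ^ K)⁻¹ * (1 + |u|) ^ M ≤ ((1 + |u|) ^ 2)⁻¹ := by
      rw [← Real.rpow_natCast (1 + |u|) K, ← Real.rpow_neg hu0.le, ← Real.rpow_add hu0,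
        ← Real.rpow_natCast (1 + |u|) 2, ← Real.rpow_neg hu0.le]
      apply Real.rpow_le_rpow_of_exponent_le hu1
      have := Nat.le_ceil M
      rw [hK]
      push_cast
      linarith
    calc ‖ker (cx h) u‖ * f u ≤ (Ck * ((1 + |u|) ^ K)⁻¹) * (B * (1 + |u|) ^ M) := by
          have := hf u
          gcongr
          · exact this.1
          · exact this.2
      _ = (Ck * B) * (((1 + |u|) ^ K)⁻¹ * (1 + |u|) ^ M) := by ring
      _ ≤ _ := by gcongr
  have hint : Integrable (fun u : ℝ => (Ck * B) * ((1 + |u|) ^ 2)⁻¹) :=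
    (integrable_wt le_rfl).const_mul _
  calc ∫ u : ℝ, ‖ker (cx h) u‖ * f u ≤ ∫ u : ℝ, (Ck * B) * ((1 + |u|) ^ 2)⁻¹ :=
        integral_mono_of_nonneg (Eventually.of_forall fun u =>
          mul_nonneg (norm_nonneg _) (hf u).1) hint (Eventually.of_forall h1)
    _ = Ck * I2 * B := by rw [integral_const_mul]; ring

/-- **one piece, a family of forms**: bounds on the grid give bounds for all lengths. -/
theorem sep_one {h : ℝ → ℝ} {c : ℝ} (hpu : PU h c) {R : ℝ} (hR0 : 0 ≤ R)
    (hR : ∀ u, cx h u ≠ 0 → |u| ≤ R) {ρ : ℝ} (hρ : 0 ≤ ρ) (M : ℝ) : ∃ C : ℝ, 0 ≤ C ∧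
    ∀ (ι β : Type) (K : Finset ι) (T : Finset β) (g : β → Eis), (∀ b ∈ T, g b ≠ 0) →
    ∀ (φ : ι → β → ℂ) (Y : ι → ℝ) (y₀ t B : ℝ), 0 ≤ B →
      (∀ k ∈ K, |Real.log (Y k) - y₀| ≤ ρ) →
      (∀ (n : ℕ) (s : ℝ), |c * n - y₀| ≤ 2 * R + ρ →
        ∑ k ∈ K, ‖LF h T g (φ k) (Real.exp (c * n)) (t + s)‖ ^ 2 ≤ B * (1 + |s|) ^ M) →
      ∑ k ∈ K, ‖LF h T g (φ k) (Y k) t‖ ^ 2 ≤ C * B := by
  obtain ⟨C0, hC0, hmom⟩ := ker_mom hpu M
  have hc := hpu.cpos
  have hI : 0 ≤ ∫ u, ‖ker (cx h) u‖ := integral_nonneg fun _ => norm_nonneg _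
  set W := 2 * (2 * R + ρ) / c + 1 with hW
  have hW0 : 0 ≤ W := by positivity
  refine ⟨W * (∫ u, ‖ker (cx h) u‖) * (W * C0), by positivity, ?_⟩
  intro ι β K T g hg φ Y y₀ t B hB hY hyp
  refine (sep_int hpu hR0 hR hρ K T g hg φ Y y₀ t hY).trans ?_
  have h1 : ∀ n ∈ grid c y₀ (2 * R + ρ), ∫ u : ℝ, ‖ker (cx h) u‖ *
          ∑ k ∈ K, ‖LF h T g (φ k) (Real.exp (c * n)) (t + u)‖ ^ 2 ≤ C0 * B := by
    intro n hn
    exact hmom B _ hB fun u => ⟨by positivity, hyp n u ((mem_grid hc).1 hn)⟩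
  have h2 : ∑ n ∈ grid c y₀ (2 * R + ρ), ∫ u : ℝ, ‖ker (cx h) u‖ *
          ∑ k ∈ K, ‖LF h T g (φ k) (Real.exp (c * n)) (t + u)‖ ^ 2 ≤ W * (C0 * B) := by
    refine (Finset.sum_le_sum h1).trans ?_
    rw [Finset.sum_const, nsmul_eq_mul]
    have := card_grid (y₀ := y₀) hc (W := 2 * R + ρ) (by positivity)
    gcongr
  calc W * (∫ u, ‖ker (cx h) u‖) * _ ≤ W * (∫ u, ‖ker (cx h) u‖) * (W * (C0 * B)) := by
        gcongr
    _ = _ := by ring

/-! ### several pieces -/

/-- a multilinear form in the weights of several pieces -/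
def MF {I : Type} [Fintype I] (h : ℝ → ℝ) (T : Finset (I → Eis)) (φ : (I → Eis) → ℂ)
    (Y t : I → ℝ) : ℂ :=
  ∑ b ∈ T, φ b * ∏ i, gw h (Y i) (t i) (b i)

open Classical in
/-- **several pieces, a family of forms**: bounds on the grid give bounds for all lengths. -/
theorem sep_list {h : ℝ → ℝ} {c : ℝ} (hpu : PU h c) {R : ℝ} (hR0 : 0 ≤ R)
    (hR : ∀ u, cx h u ≠ 0 → |u| ≤ R) {ρ : ℝ} (hρ : 0 ≤ ρ) (M : ℝ) : ∃ C : ℝ, 0 ≤ C ∧
    ∀ (I : Type) [Fintype I] (ι : Type) (K : Finset ι) (T : Finset (I → Eis)),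
      (∀ b ∈ T, ∀ i, b i ≠ 0) →
    ∀ (φ : ι → (I → Eis) → ℂ) (Y : ι → I → ℝ) (y₀ t : I → ℝ) (B : ℝ), 0 ≤ B →
      (∀ k ∈ K, ∀ i, |Real.log (Y k i) - y₀ i| ≤ ρ) →
      (∀ (n : I → ℕ) (s : I → ℝ), (∀ i, |c * n i - y₀ i| ≤ 2 * R + ρ) →
        ∑ k ∈ K, ‖MF h T (φ k) (fun i => Real.exp (c * n i)) (fun i => t i + s i)‖ ^ 2 ≤
          B * ∏ i, (1 + |s i|) ^ M) →
      ∑ k ∈ K, ‖MF h T (φ k) (Y k) t‖ ^ 2 ≤ C ^ Fintype.card I * B := by
  obtain ⟨C, hC, hone⟩ := sep_one hpu hR0 hR hρ M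
  refine ⟨C, hC, ?_⟩
  intro I _ ι K T hT φ Y y₀ t B hB hY hyp
  -- the pieces in `J` already have their true lengths
  have key : ∀ J : Finset I, ∀ (n : I → ℕ) (s : I → ℝ),
      (∀ i, |c * n i - y₀ i| ≤ 2 * R + ρ) →
      ∑ k ∈ K, ‖MF h T (φ k) (fun i => if i ∈ J then Y k i else Real.exp (c * n i))
        (fun i => if i ∈ J then t i else t i + s i)‖ ^ 2 ≤
          C ^ J.card * B * ∏ i ∈ Jᶜ, (1 + |s i|) ^ M := by
    intro J
    induction J using Finset.induction_on with
    | empty =>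
      intro n s hn
      simpa using hyp n s hn
    | insert j J hj ih =>
      intro n s hn
      set B' := C ^ J.card * B * ∏ i ∈ (insert j J)ᶜ, (1 + |s i|) ^ M with hB'
      have hprod : ∀ s' : I → ℝ, 0 ≤ ∏ i ∈ (insert j J)ᶜ, (1 + |s' i|) ^ M := fun s' =>
        Finset.prod_nonneg fun i _ => Real.rpow_nonneg (by positivity) _
      have hB'0 : 0 ≤ B' := by
        have := hprod s
        positivity
      -- the coefficient without the weight of the piece `j`
      set φ' : ι → (I → Eis) → ℂ := fun k b => φ k b *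
        ∏ i ∈ Finset.univ.erase j, gw h (if i ∈ J then Y k i else Real.exp (c * n i))
          (if i ∈ J then t i else t i + s i) (b i) with hφ'
      have hMF : ∀ (k : ι) (Yj tj : ℝ), MF h T (φ k)
          (fun i => if i = j then Yj else if i ∈ J then Y k i else Real.exp (c * n i))
          (fun i => if i = j then tj else if i ∈ J then t i else t i + s i) =
          LF h T (fun b => b j) (φ' k) Yj tj := by
        intro k Yj tj
        unfold MF LF
        refine Finset.sum_congr rfl fun b _ => ?_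
        rw [← Finset.mul_prod_erase Finset.univ _ (Finset.mem_univ j), hφ']
        simp only [if_pos]
        have e : ∏ i ∈ Finset.univ.erase j, gw h (if i = j then Yj else if i ∈ J then Y k i else
            Real.exp (c * n i)) (if i = j then tj else if i ∈ J then t i else t i + s i) (b i) =
            ∏ i ∈ Finset.univ.erase j, gw h (if i ∈ J then Y k i else Real.exp (c * n i))
              (if i ∈ J then t i else t i + s i) (b i) := by
          refine Finset.prod_congr rfl fun i hi => ?_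
          rw [Finset.mem_erase] at hi
          rw [if_neg hi.1, if_neg hi.1]
        rw [e]
        ring
      have e1 : ∀ k ∈ K, MF h T (φ k)
          (fun i => if i ∈ insert j J then Y k i else Real.exp (c * n i))
          (fun i => if i ∈ insert j J then t i else t i + s i) =
          LF h T (fun b => b j) (φ' k) (Y k j) (t j) := by
        intro k _
        rw [← hMF k (Y k j) (t j)]
        congr 1
        · funext i
          by_cases hi : i = j
          · subst hi; simp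
          · simp [hi, Finset.mem_insert]
        · funext i
          by_cases hi : i = j
          · subst hi; simp
          · simp [hi, Finset.mem_insert]
      have h2 := hone ι (I → Eis) K T (fun b => b j) (fun b hb => hT b hb j) φ'
        (fun k => Y k j) (y₀ j) (t j) B' hB'0 (fun k hk => hY k hk j) (fun m u hm => by
          have h3 := ih (Function.update n j m) (Function.update s j u) (fun i => by
            by_cases hi : i = j
            · subst hi; simpa using hm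
            · simpa [Function.update_of_ne hi] using hn i)
          have e2 : ∀ k : ι, MF h T (φ k)
              (fun i => if i ∈ J then Y k i else Real.exp (c * Function.update n j m i))
              (fun i => if i ∈ J then t i else t i + Function.update s j u i) =
              LF h T (fun b => b j) (φ' k) (Real.exp (c * m)) (t j + u) := by
            intro k
            rw [← hMF k (Real.exp (c * m)) (t j + u)]
            congr 1
            · funext i
              by_cases hi : i = j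
              · subst hi; simp [hj]
              · simp [hi, Function.update_of_ne hi]
            · funext i
              by_cases hi : i = j
              · subst hi; simp [hj]
              · simp [hi, Function.update_of_ne hi]
          simp_rw [e2] at h3
          refine h3.trans (le_of_eq ?_)
          have hcompl : Jᶜ = insert j (insert j J)ᶜ := by
            ext i
            simp only [Finset.mem_compl, Finset.mem_insert, not_or]
            by_cases hi : i = j
            · subst hi; simp [hj]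
            · simp [hi]
          rw [hcompl, Finset.prod_insert (by simp), Function.update_self, hB']
          have e3 : ∏ i ∈ (insert j J)ᶜ, (1 + |Function.update s j u i|) ^ M =
              ∏ i ∈ (insert j J)ᶜ, (1 + |s i|) ^ M := by
            refine Finset.prod_congr rfl fun i hi => ?_
            rw [Finset.mem_compl, Finset.mem_insert, not_or] at hi
            rw [Function.update_of_ne hi.1]
          rw [e3]
          ring)
      rw [Finset.sum_congr rfl fun k hk => by rw [e1 k hk]]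
      refine h2.trans (le_of_eq ?_)
      rw [hB', Finset.card_insert_of_notMem hj, pow_succ]
      ring
  rcases Classical.em (∃ n : I → ℕ, ∀ i, |c * n i - y₀ i| ≤ 2 * R + ρ) with ⟨n, hn⟩ | hne
  · have h1 := key Finset.univ n 0 hn
    simpa using h1
  · -- no grid points: the forms vanish
    push Not at hne
    have hz : ∃ i, ∀ m : ℕ, 2 * R + ρ < |c * m - y₀ i| := by
      by_contra hcon
      push Not at hcon
      choose n hn using hcon
      obtain ⟨i, hi⟩ := hne n
      exact absurd (hn i) (not_le.2 hi)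
    obtain ⟨i, hi⟩ := hz
    have hzero : ∀ k ∈ K, MF h T (φ k) (Y k) t = 0 := by
      intro k hk
      refine Finset.sum_eq_zero fun b hb => ?_
      have h1 := gw_sep hpu hR (Y := Y k i) ∅ (fun m hm => by
        exfalso
        have h3 := hY k hk i
        have e : c * m - y₀ i = (c * m - Real.log (Y k i)) + (Real.log (Y k i) - y₀ i) := by ring
        have h4 := hi m
        rw [e] at h4
        exact absurd (h4.trans_le ((abs_add_le _ _).trans (add_le_add hm h3))) (lt_irrefl _))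
        (t i) (hT b hb i)
      rw [Finset.sum_empty] at h1
      rw [Finset.prod_eq_zero (Finset.mem_univ i) h1, mul_zero]
    rw [Finset.sum_eq_zero fun k hk => by rw [hzero k hk]; simp]
    positivity

end Crest.Agent.R017.HSep813
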