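import Crest.Agent.R017.HP2_842
import Crest.Agent.R017.HSep_813

/-!
# Row 17, sides: typed pieces (helper842)

* `Pc` : a piece (type `1, μ, μ², prime, δ`; character `ψ`; length `Y`; height `t`)
* `pc h P b = u(b) ψ(b) gw h Y t b`
* `pc_mul` : `pc h P (a b) = sc P a * pc h (P.sub a) b` for ALL primary `a` and all `b`
* `cv_sub_pc` : the same for families
* `lamQ_support`, `norm_lamQ_le`
-/

set_option autoImplicit false
set_option linter.unusedSectionVars false
set_option linter.unusedVariables false

noncomputable section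

open Complex
open scoped ComplexConjugate

namespace Crest.Agent.R017.HP842

open Crest.Agent.R012 Crest.Agent.R012.Eis Crest.Agent.R012.LS2 Crest.Agent.R012.Gauss880
open Crest.Agent.R012.Mob705
open Crest.Agent.R012.PSer47 (padiv mem_padiv IsChar)
open Crest.Agent.R012.Weight600 (osc norm_osc osc_add_right)
open Crest.Agent.R012.Div277 (tau dvs mem_dvs tau_le_rpow)
open Crest.Agent.R017.CM106 Crest.Agent.R017.FE47 Crest.Agent.R017.End699
open Crest.Agent.R017.HSep813 (gw norm_gw_le)

/-- types of arithmetic factors -/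
inductive UT | one | mu | sq | pr | del
  deriving DecidableEq

open Classical in
/-- the arithmetic factor -/
def uv : UT → Eis → ℂ
  | .one, _ => 1
  | .mu, b => (muE b : ℂ)
  | .sq, b => if Squarefree b then 1 else 0
  | .pr, b => if Prime b then 1 else 0
  | .del, b => if b = 1 then 1 else 0

/-- a piece -/
structure Pc where
  u : UT
  ψ : Eis → ℂ
  Y : ℝ
  t : ℝ

open Classical in
/-- the coefficients of a piece -/
def pc (h : ℝ → ℝ) (P : Pc) (b : Eis) : ℂ :=
  if IsPrim b then uv P.u b * P.ψ b * gw h P.Y P.t b else 0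

open Classical in
/-- the type after taking out `a` -/
def UT.sub (u : UT) (a : Eis) : UT := if u = .pr ∧ a ≠ 1 then .del else u

/-- the character after taking out `a` -/
def psub (u : UT) (ψ : Eis → ℂ) (a : Eis) : Eis → ℂ :=
  if u = .mu ∨ u = .sq then fun b => ψ b * prin0 a b else ψ

/-- the piece after taking out `a` -/
def Pc.sub (P : Pc) (a : Eis) : Pc := ⟨P.u.sub a, psub P.u P.ψ a, P.Y / nm a, P.t⟩

/-- the scalar -/
def sc (P : Pc) (a : Eis) : ℂ := uv P.u a * P.ψ a * osc P.t (Real.log (nm a))

/-- the scalar for the type `pr` at `a = 1` -/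
def sc' (P : Pc) (a : Eis) : ℂ := by
  classical exact if a = 1 then 1 else sc P a

lemma eq_one_of_isUnit {a : Eis} (ha : IsPrim a) (h : IsUnit a) : a = 1 :=
  ha.eq_of_associated isPrim_one (associated_one_iff_isUnit.mpr h)

lemma mul_eq_one {a b : Eis} (ha : IsPrim a) (hb : IsPrim b) : a * b = 1 ↔ a = 1 ∧ b = 1 := by
  constructor
  · intro h
    exact ⟨eq_one_of_isUnit ha (IsUnit.of_mul_eq_one b h),
      eq_one_of_isUnit hb (IsUnit.of_mul_eq_one a (by rw [mul_comm]; exact h))⟩
  · rintro ⟨rfl, rfl⟩; simp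

lemma prime_mul_iff' {a b : Eis} (ha : IsPrim a) (hb : IsPrim b) (h1 : a ≠ 1) :
    Prime (a * b) ↔ Prime a ∧ b = 1 := by
  constructor
  · intro h
    have h2 : ¬ IsUnit a := fun h => h1 (eq_one_of_isUnit ha h)
    have h3 : IsUnit b := (h.irreducible.isUnit_or_isUnit rfl).resolve_left h2
    have h4 := eq_one_of_isUnit hb h3
    subst h4
    rw [mul_one] at h
    exact ⟨h, rfl⟩
  · rintro ⟨h, rfl⟩; rwa [mul_one]

lemma gw_mul {h : ℝ → ℝ} {Y : ℝ} (hY : 0 < Y) (t : ℝ) {a b : Eis} (ha : a ≠ 0) (hb : b ≠ 0) :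
    gw h Y t (a * b) = osc t (Real.log (nm a)) * gw h (Y / nm a) t b := by
  have na : (nm a : ℝ) ≠ 0 := by exact_mod_cast (nm_pos.2 ha).ne'
  have nb : (nm b : ℝ) ≠ 0 := by exact_mod_cast (nm_pos.2 hb).ne'
  unfold gw
  rw [nm_mul, Nat.cast_mul, Real.log_mul na nb, osc_add_right, Real.log_div hY.ne' na]
  have : Real.log (nm a) + Real.log (nm b) - Real.log Y =
      Real.log (nm b) - (Real.log Y - Real.log (nm a)) := by ring
  rw [this]
  ring

/-- **exact sub-sequences of a piece** -/
theorem pc_mul (h : ℝ → ℝ) {P : Pc} (hψ : IsChar P.ψ) (hY : 0 < P.Y) {a : Eis} (ha : IsPrim a)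
    (b : Eis) : pc h P (a * b) = sc' P a * pc h (P.sub a) b := by
  classical
  by_cases hb : IsPrim b
  · have hab : IsPrim (a * b) := ha.mul hb
    by_cases h1 : a = 1
    · subst h1
      have e1 : P.sub 1 = ⟨P.u, psub P.u P.ψ 1, P.Y, P.t⟩ := by
        unfold Pc.sub UT.sub
        simp
      unfold sc'
      rw [if_pos rfl, one_mul, one_mul, e1]
      unfold pc
      rw [if_pos hb, if_pos hb]
      have e2 : psub P.u P.ψ 1 b = P.ψ b := by
        unfold psub
        split_ifs
        · show P.ψ b * prin0 1 b = P.ψ b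
          unfold prin0
          rw [if_pos isCoprime_one_right, mul_one]
        · rfl
      show uv P.u b * P.ψ b * gw h P.Y P.t b = uv P.u b * psub P.u P.ψ 1 b * gw h P.Y P.t b
      rw [e2]
    · unfold sc'
      rw [if_neg h1]
      unfold pc
      rw [if_pos hab, if_pos hb, gw_mul hY P.t ha.ne_zero hb.ne_zero, hψ.mul a b ha hb]
      unfold sc
      have key : uv P.u (a * b) * P.ψ b = uv P.u a * (uv (P.sub a).u b * (P.sub a).ψ b) := by
        unfold Pc.sub UT.sub psub
        obtain ⟨u, ψ, Y, t⟩ := P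
        cases u with
        | one => simp [uv]
        | mu =>
          simp only [uv, true_or, if_true, reduceCtorEq, false_and, if_false]
          unfold prin0
          by_cases hc : IsCoprime b a
          · rw [if_pos hc, muE_mul ha.ne_zero hb.ne_zero hc.symm]
            push_cast; ring
          · rw [if_neg hc, muE_mul_of_not_coprime (fun h => hc h.symm)]
            push_cast; ring
        | sq =>
          simp only [uv, or_true, if_true, reduceCtorEq, false_and, if_false]
          unfold prin0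
          by_cases hc : IsCoprime b a
          · rw [if_pos hc, mul_one]
            have : Squarefree (a * b) ↔ Squarefree a ∧ Squarefree b := by
              rw [squarefree_mul_iff]
              exact ⟨fun h => h.2, fun h => ⟨hc.symm.isRelPrime, h⟩⟩
            by_cases h2 : Squarefree a
            · by_cases h3 : Squarefree b
              · rw [if_pos (this.2 ⟨h2, h3⟩), if_pos h2, if_pos h3]; ring
              · rw [if_neg (fun h => h3 (this.1 h).2), if_neg h3]; ring
            · rw [if_neg (fun h => h2 (this.1 h).1), if_neg h2]; ring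
          · rw [if_neg hc]
            have : ¬ Squarefree (a * b) := by
              intro h
              rw [squarefree_mul_iff] at h
              exact hc (isRelPrime_iff_isCoprime.1 h.1).symm
            rw [if_neg this]; ring
        | pr =>
          simp only [uv, ne_eq, h1, not_false_eq_true, and_self, if_true, reduceCtorEq, or_self,
            if_false, prime_mul_iff' ha hb h1]
          by_cases h2 : Prime a
          · by_cases h3 : b = 1
            · simp [h2, h3]
            · simp [h3]
          · simp [h2]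
        | del =>
          simp only [uv, reduceCtorEq, false_and, if_false, or_self, mul_eq_one ha hb]
          simp [h1]
      calc uv P.u (a * b) * (P.ψ a * P.ψ b) * (osc P.t (Real.log (nm a)) * gw h (P.Y / nm a) P.t b)
          = (uv P.u (a * b) * P.ψ b) * (P.ψ a * osc P.t (Real.log (nm a)) *
            gw h (P.Y / nm a) P.t b) := by ring
        _ = _ := by
          rw [key]
          unfold Pc.sub
          ring
  · have hab : ¬ IsPrim (a * b) := fun h => hb (h.of_mul_left ha)
    unfold pc
    rw [if_neg hab, if_neg hb, mul_zero]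

lemma norm_uv_le (u : UT) (b : Eis) : ‖uv u b‖ ≤ 1 := by
  classical
  cases u with
  | one => simp [uv]
  | mu =>
    simp only [uv]
    rw [Complex.norm_intCast]
    have := abs_muE b
    have h2 : |muE b| ≤ 1 := by rw [this]; split_ifs <;> simp
    exact_mod_cast h2
  | sq => simp only [uv]; split_ifs <;> simp
  | pr => simp only [uv]; split_ifs <;> simp
  | del => simp only [uv]; split_ifs <;> simp

lemma norm_sc'_le {P : Pc} (hψ : IsChar P.ψ) {a : Eis} (ha : IsPrim a) : ‖sc' P a‖ ≤ 1 := by
  classical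
  unfold sc'
  split_ifs
  · simp
  · unfold sc
    rw [norm_mul, norm_mul, norm_osc, mul_one]
    exact mul_le_one₀ (norm_uv_le _ _) (norm_nonneg _) (hψ.norm_le ha)

lemma prin0_isChar (q : Eis) : IsChar (prin0 q) where
  one := by unfold prin0; rw [if_pos isCoprime_one_left]
  mul a b _ _ := by
    classical
    unfold prin0
    by_cases ha : IsCoprime a q
    · by_cases hb : IsCoprime b q
      · rw [if_pos ha, if_pos hb, if_pos (ha.mul_left hb), one_mul]
      · rw [if_neg hb, if_neg (fun h => hb (h.of_mul_left_right)), mul_zero]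
    · rw [if_neg ha, if_neg (fun h => ha (h.of_mul_left_left)), zero_mul]
  norm a _ := by
    unfold prin0
    split_ifs <;> simp

lemma isChar_psub (u : UT) {ψ : Eis → ℂ} (hψ : IsChar ψ) (a : Eis) : IsChar (psub u ψ a) := by
  unfold psub
  split_ifs
  · exact hψ.mul' (prin0_isChar a)
  · exact hψ

/-- admissible piece -/
structure Pc.OK (P : Pc) : Prop where
  ch : IsChar P.ψ
  Y0 : 0 < P.Y

lemma Pc.OK.sub {P : Pc} (hP : P.OK) {a : Eis} (ha : IsPrim a) : (P.sub a).OK where
  ch := isChar_psub _ hP.ch a
  Y0 := by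
    have : (0 : ℝ) < nm a := by exact_mod_cast nm_pos.2 ha.ne_zero
    exact div_pos hP.Y0 this

lemma FS_pc {h : ℝ → ℝ} {R : ℝ} (hR : ∀ u, cx h u ≠ 0 → |u| ≤ R) {P : Pc} (hP : P.OK) :
    FS (pc h P) where
  fin := by
    classical
    refine Set.Finite.subset (primBall ⌊Real.exp (Real.log P.Y + R)⌋₊).finite_toSet ?_
    intro b hb
    have hb' : pc h P b ≠ 0 := hb
    unfold pc at hb'
    split_ifs at hb' with hp
    · rw [Finset.mem_coe, mem_primBall]
      refine ⟨?_, hp⟩
      have h1 : gw h P.Y P.t b ≠ 0 := right_ne_zero_of_mul hb'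
      unfold gw at h1
      have h2 := hR _ (right_ne_zero_of_mul h1)
      have h3 : (0 : ℝ) < nm b := by exact_mod_cast nm_pos.2 hp.ne_zero
      have h4 : Real.log (nm b) ≤ Real.log P.Y + R := by
        have := (abs_le.1 h2).2
        linarith
      rw [Nat.le_floor_iff (Real.exp_pos _).le]
      calc (nm b : ℝ) = Real.exp (Real.log (nm b)) := (Real.exp_log h3).symm
        _ ≤ _ := Real.exp_le_exp.2 h4
    · exact absurd rfl hb'
  prim := fun m hm => by
    classical
    by_contra h0
    apply hm
    unfold pc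
    rw [if_neg h0]

/-! ### families of pieces -/

variable {ι : Type*} [Fintype ι] [DecidableEq ι]

/-- the sequence of a side -/
def al (h : ℝ → ℝ) (s : ι → Pc) : Eis → ℂ := cv (fun i => pc h (s i))

/-- sub-sides -/
def ssub (s : ι → Pc) (x : ι → Eis) : ι → Pc := fun i => (s i).sub (x i)

/-- the scalar of a sub-side -/
def scS (s : ι → Pc) (x : ι → Eis) : ℂ := ∏ i, sc' (s i) (x i)

lemma cv_smul (c : ι → ℂ) (f : ι → Eis → ℂ) :
    cv (fun i b => c i * f i b) = fun n => (∏ i, c i) * cv f n := by
  funext n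
  unfold cv
  rw [Finset.mul_sum]
  refine Finset.sum_congr rfl fun x _ => ?_
  rw [Finset.prod_mul_distrib]

/-- **sub-sides are exact** -/
theorem cv_sub_pc {h : ℝ → ℝ} {s : ι → Pc} (hs : ∀ i, (s i).OK) {x : ι → Eis}
    (hx : ∀ i, IsPrim (x i)) :
    cv (fun i => sub (pc h (s i)) (x i)) = fun n => scS s x * al h (ssub s x) n := by
  have e : (fun i => sub (pc h (s i)) (x i)) = fun i b => sc' (s i) (x i) *
      pc h ((s i).sub (x i)) b := by
    funext i b
    exact pc_mul h (hs i).ch (hs i).Y0 (hx i) b
  rw [e, cv_smul]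
  rfl

lemma norm_scS_le {s : ι → Pc} (hs : ∀ i, (s i).OK) {x : ι → Eis} (hx : ∀ i, IsPrim (x i)) :
    ‖scS s x‖ ≤ 1 := by
  unfold scS
  rw [norm_prod]
  exact Finset.prod_le_one (fun i _ => norm_nonneg _) fun i _ => norm_sc'_le (hs i).ch (hx i)

/-! ### support and size of `lamQ` -/

lemma norm_lamQ_le (q : Eis) (a : ι → Eis) : ‖lamQ q a‖ ≤ ∏ i, (tau (a i) : ℝ) := by
  classical
  unfold lamQ lamT
  refine (norm_sum_le _ _).trans ?_
  have h1 : ∀ p ∈ Fintype.piFinset (fun i => padiv (a i)),
      ‖(∏ i, (muE (p i).1 : ℂ)) * Th q (∏ i, (p i).2)‖ ≤ 1 := by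
    intro p _
    rw [norm_mul, norm_prod]
    refine mul_le_one₀ ?_ (norm_nonneg _) ?_
    · exact Finset.prod_le_one (fun i _ => norm_nonneg _) fun i _ => norm_uv_le .mu _
    · unfold Th; split_ifs <;> simp
  refine (Finset.sum_le_sum h1).trans ?_
  rw [Finset.sum_const, nsmul_eq_mul, mul_one, Fintype.card_piFinset]
  push_cast
  refine Finset.prod_le_prod (fun i _ => Nat.cast_nonneg _) fun i _ => ?_
  norm_cast
  unfold tau
  refine Finset.card_le_card_of_injOn (fun p => p.1) ?_ ?_
  · intro p hp
    have hp' := mem_padiv.1 (Finset.mem_coe.1 hp)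
    rw [Finset.mem_coe]
    have hb : IsPrim (a i) := hp'.1 ▸ hp'.2.1.mul hp'.2.2
    rw [mem_dvs hb.ne_zero]
    exact ⟨hp'.2.1, hp'.1 ▸ dvd_mul_right _ _⟩
  · intro p hp p' hp' e
    have h1 := mem_padiv.1 (Finset.mem_coe.1 hp)
    have h2 := mem_padiv.1 (Finset.mem_coe.1 hp')
    have e' : p.1 = p'.1 := e
    refine Prod.ext e' ?_
    apply mul_left_cancel₀ h1.2.1.ne_zero
    rw [h1.1, e', h2.1]

end Crest.Agent.R017.HP842
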