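import Crest.Agent.R017.BoxP2_271
import Crest.Agent.R017.HP3_842

/-!
# Row 17: sup rule for typed pieces (helper271)

`sup_gen` : `PF univ θ → ‖∑_b u(b) χ(b) ang^l(b) osc(t log nm b) h(log nm b - z)‖ ≤ C (nm q (1+|t|))^ε e^{(θ+ε) z}`
for all types `u = 1, μ, μ², prime, δ`, `χ ang^l` nonprincipal.
`sup_pc`, `sup_pc_conj` : the same for `CS (pc h P) k`.
-/

set_option autoImplicit false

noncomputable section

open MeasureTheory Complex Set
open scoped ComplexConjugate ContDiff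

namespace Crest.Agent.R017.SupPc271

open Crest.Agent.R012 Crest.Agent.R012.Eis Crest.Agent.R012.Mob705 Crest.Agent.R012.Gauss880
open Crest.Agent.R012.PSer47 Crest.Agent.R012.Div277 Crest.Agent.R012.Weight600
open Crest.Agent.R017.End699 Crest.Agent.R017.B770 Crest.Agent.R017.Sup271
open Crest.Agent.R017.FE47 Crest.Agent.R017.HP842 Crest.Agent.R017.CM106
open Crest.Agent.R017.HSep813 (gw)
open Crest.Agent.R017.HB645 (hh hh_left hh_right sum_hh_eq_one abs_lt_of_hh contDiff_hh)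
open Crest.Agent.R017.BoxP271 Crest.Agent.R017.Asm986

lemma log_nm_nonneg'' {b : Eis} (hb : IsPrim b) : 0 ≤ Real.log (nm b) :=
  Real.log_nonneg (by exact_mod_cast nm_pos.mpr hb.ne_zero)

/-- number of natural numbers in an interval -/
lemma card_near (K : ℕ) (z r : ℝ) (hr : 0 ≤ r) :
    (((Finset.range (K + 1)).filter (fun n : ℕ => |(n : ℝ) - z| ≤ r)).card : ℝ) ≤ 2 * r + 1 := by
  by_cases hz : z + r < 0
  · have : (Finset.range (K + 1)).filter (fun n : ℕ => |(n : ℝ) - z| ≤ r) = ∅ := by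
      rw [Finset.filter_eq_empty_iff]
      intro n _ h
      have h1 := (abs_le.mp h).2
      have h2 : (0 : ℝ) ≤ n := Nat.cast_nonneg n
      linarith
    rw [this]
    simp
    linarith
  · push Not at hz
    have hsub : (Finset.range (K + 1)).filter (fun n : ℕ => |(n : ℝ) - z| ≤ r) ⊆
        Finset.Icc ⌈z - r⌉₊ ⌊z + r⌋₊ := by
      intro n hn
      rw [Finset.mem_filter] at hn
      have h1 := abs_le.mp hn.2
      rw [Finset.mem_Icc]
      exact ⟨Nat.ceil_le.mpr (by linarith), Nat.le_floor (by linarith)⟩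
    have h1 : (((Finset.range (K + 1)).filter (fun n : ℕ => |(n : ℝ) - z| ≤ r)).card : ℝ) ≤
        ((⌊z + r⌋₊ + 1 - ⌈z - r⌉₊ : ℕ) : ℝ) := by
      have := Finset.card_le_card hsub
      rw [Nat.card_Icc] at this
      exact_mod_cast this
    refine h1.trans ?_
    rcases le_total ⌈z - r⌉₊ (⌊z + r⌋₊ + 1) with h | h
    · rw [Nat.cast_sub h]
      push_cast
      have h2 : ((⌊z + r⌋₊ : ℕ) : ℝ) ≤ z + r := Nat.floor_le hz
      have h3 : z - r ≤ ((⌈z - r⌉₊ : ℕ) : ℝ) := Nat.le_ceil _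
      linarith
    · rw [Nat.sub_eq_zero_of_le h]
      push_cast
      linarith

/-- from the natural scales to all scales -/
theorem PS_of_pieces {h : ℝ → ℝ} {R : ℝ} (hR0 : 0 ≤ R) (hR : ∀ u, h u ≠ 0 → |u| ≤ R)
    {f : Eis → ℂ} {t a B z : ℝ} (ha : 0 ≤ a) (hB : 0 ≤ B)
    (hyp : ∀ n M : ℕ, Real.exp (n + 1) < M + 1 →
      ‖∑ b ∈ primBall M, f b * (osc t (Real.log (nm b)) *
        ((hh (Real.log (nm b) - n) : ℂ) * cx h (Real.log (nm b) - z)))‖ ≤ B * Real.exp (a * n)) :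
    ‖PS (cx h) f z t‖ ≤ (2 * R + 3) * (B * Real.exp (a * (z + R + 1))) := by
  classical
  set K : ℕ := ⌈z + R⌉₊ with hK
  set M : ℕ := ⌈Real.exp (K + 1)⌉₊ with hM
  have hM1 : Real.exp (K + 1) ≤ M := Nat.le_ceil _
  have hsupp : ∀ b, IsPrim b → cx h (Real.log (nm b) - z) ≠ 0 →
      Real.log (nm b) ≤ K ∧ |Real.log (nm b) - z| ≤ R := by
    intro b hb h0
    have h1 : h (Real.log (nm b) - z) ≠ 0 := by
      intro h2; apply h0; unfold cx; rw [h2]; simp
    have h2 := hR _ h1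
    have h3 := (abs_le.mp h2).2
    exact ⟨(by linarith : Real.log (nm b) ≤ z + R).trans (Nat.le_ceil _), h2⟩
  have e1 : PS (cx h) f z t = ∑ b ∈ primBall M, f b * (osc t (Real.log (nm b)) *
      cx h (Real.log (nm b) - z)) := by
    unfold FE47.PS
    rw [tsum_eq_sum (s := primBall M)]
    · refine Finset.sum_congr rfl fun b hb => ?_
      simp only [End699.ext, if_pos (mem_primBall.mp hb).2]
    · intro b hb
      by_cases hp : IsPrim b
      · by_cases h0 : cx h (Real.log (nm b) - z) = 0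
        · rw [h0]; ring
        · exfalso
          apply hb
          rw [mem_primBall]
          refine ⟨?_, hp⟩
          have h1 := (hsupp b hp h0).1
          have hb1 : (0 : ℝ) < nm b := by exact_mod_cast nm_pos.mpr hp.ne_zero
          rw [Real.log_le_iff_le_exp hb1] at h1
          have h2 : (nm b : ℝ) ≤ M := by
            refine h1.trans (le_trans (Real.exp_le_exp.mpr (by linarith)) hM1)
          exact_mod_cast h2
      · simp [End699.ext, hp]
  have e2 : ∀ b ∈ primBall M, f b * (osc t (Real.log (nm b)) * cx h (Real.log (nm b) - z)) =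
      ∑ n ∈ Finset.range (K + 1), f b * (osc t (Real.log (nm b)) *
        ((hh (Real.log (nm b) - n) : ℂ) * cx h (Real.log (nm b) - z))) := by
    intro b hb
    have hp := (mem_primBall.mp hb).2
    by_cases h0 : cx h (Real.log (nm b) - z) = 0
    · rw [h0]; simp
    · have h1 := sum_hh_eq_one (log_nm_nonneg'' hp) (hsupp b hp h0).1
      have h2 : ∑ n ∈ Finset.range (K + 1), (hh (Real.log (nm b) - n) : ℂ) = 1 := by
        have := congrArg (fun x : ℝ => (x : ℂ)) h1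
        push_cast at this
        exact this
      calc _ = f b * (osc t (Real.log (nm b)) *
            ((∑ n ∈ Finset.range (K + 1), (hh (Real.log (nm b) - n) : ℂ)) *
              cx h (Real.log (nm b) - z))) := by rw [h2, one_mul]
        _ = _ := by rw [Finset.sum_mul, Finset.mul_sum, Finset.mul_sum]
  rw [e1, Finset.sum_congr rfl e2, Finset.sum_comm]
  have e3 : ∑ n ∈ Finset.range (K + 1), ∑ b ∈ primBall M, f b * (osc t (Real.log (nm b)) *
        ((hh (Real.log (nm b) - n) : ℂ) * cx h (Real.log (nm b) - z))) =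
      ∑ n ∈ (Finset.range (K + 1)).filter (fun n : ℕ => |(n : ℝ) - z| ≤ R + 1),
        ∑ b ∈ primBall M, f b * (osc t (Real.log (nm b)) *
        ((hh (Real.log (nm b) - n) : ℂ) * cx h (Real.log (nm b) - z))) := by
    symm
    refine Finset.sum_subset (Finset.filter_subset _ _) fun n hn hn2 => ?_
    refine Finset.sum_eq_zero fun b hb => ?_
    have hp := (mem_primBall.mp hb).2
    by_cases h0 : cx h (Real.log (nm b) - z) = 0
    · rw [h0]; ring
    · by_cases h1 : hh (Real.log (nm b) - n) = 0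
      · rw [h1]; simp
      · exfalso
        apply hn2
        rw [Finset.mem_filter]
        refine ⟨hn, ?_⟩
        have h2 := abs_lt.mp (abs_lt_of_hh h1)
        have h3 := abs_le.mp (hsupp b hp h0).2
        rw [abs_le]
        constructor <;> linarith [h2.1, h2.2, h3.1, h3.2]
  rw [e3]
  refine (norm_sum_le _ _).trans ?_
  have h4 : ∀ n ∈ (Finset.range (K + 1)).filter (fun n : ℕ => |(n : ℝ) - z| ≤ R + 1),
      ‖∑ b ∈ primBall M, f b * (osc t (Real.log (nm b)) *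
        ((hh (Real.log (nm b) - n) : ℂ) * cx h (Real.log (nm b) - z)))‖ ≤
      B * Real.exp (a * (z + R + 1)) := by
    intro n hn
    rw [Finset.mem_filter, Finset.mem_range] at hn
    have hn1 : (n : ℝ) ≤ K := by exact_mod_cast Nat.lt_succ_iff.mp hn.1
    have h5 := hyp n M (by
      have : Real.exp (n + 1) ≤ Real.exp (K + 1) := Real.exp_le_exp.mpr (by linarith)
      linarith)
    refine h5.trans ?_
    have h6 := (abs_le.mp hn.2).2
    have h7 : (n : ℝ) ≤ z + R + 1 := by linarith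
    gcongr
  refine (Finset.sum_le_card_nsmul _ _ _ h4).trans ?_
  rw [nsmul_eq_mul]
  refine mul_le_mul_of_nonneg_right ?_ (by positivity)
  refine (card_near K z (R + 1) (by linarith)).trans ?_
  linarith

lemma osc_eq_cpow (t : ℝ) {b : Eis} (hb : IsPrim b) :
    osc t (Real.log (nm b)) = (nm b : ℂ) ^ ((t * Complex.I : ℂ)) := by
  have := pw_eq_cpow (t := t) (nm_ne_zero_of_prim hb)
  unfold Weight600.pw at this
  exact this

lemma cx_supp {h : ℝ → ℝ} {R : ℝ} (hR : ∀ u, h u ≠ 0 → |u| ≤ R) :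
    (∀ u ≤ -(R + 1), cx h u = 0) ∧ (∀ u, R + 1 ≤ u → cx h u = 0) := by
  constructor
  · intro u hu
    unfold cx
    have : h u = 0 := by
      by_contra h0
      have := (abs_le.mp (hR u h0)).1
      linarith
    rw [this]; simp
  · intro u hu
    unfold cx
    have : h u = 0 := by
      by_contra h0
      have := (abs_le.mp (hR u h0)).2
      linarith
    rw [this]; simp

lemma sg_cx {h : ℝ → ℝ} (hd : ContDiff ℝ ∞ h) {R : ℝ} (hR : ∀ u, h u ≠ 0 → |u| ≤ R) :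
    SG (cx h) :=
  sg_of_const (Complex.ofRealCLM.contDiff.comp hd) (cx_supp hR).1 (cx_supp hR).2

lemma exists_R {h : ℝ → ℝ} (hc : HasCompactSupport h) : ∃ R : ℝ, 0 ≤ R ∧ ∀ u, h u ≠ 0 → |u| ≤ R := by
  obtain ⟨r, hr⟩ := hc.isCompact.isBounded.subset_closedBall 0
  refine ⟨max r 0, le_max_right _ _, fun u hu => ?_⟩
  have h1 := hr (subset_tsupport h hu)
  rw [Metric.mem_closedBall, dist_zero_right, Real.norm_eq_abs] at h1
  exact h1.trans (le_max_left _ _)

/-- type `1` -/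
theorem sup_one {θ ε : ℝ} (hθ : 1 / 2 < θ) (hθ1 : θ ≤ 1) (hPF : PF Set.univ θ)
    (hε : 0 < ε) (hε1 : ε ≤ 1) (l : ℤ) {h : ℝ → ℝ} (hd : ContDiff ℝ ∞ h)
    (hc : HasCompactSupport h) :
    ∃ C : ℝ, 0 ≤ C ∧ ∀ (q : Eis) (χ : Eis → ℂ), HC q χ → NP q χ l → ∀ t z : ℝ,
      ‖PS (cx h) (tw χ l) z t‖ ≤ C * (((nm q : ℝ) * (1 + |t|)) ^ ε * Real.exp ((θ + ε) * z)) := by
  obtain ⟨R, hR0, hR⟩ := exists_R hc
  obtain ⟨C, hC0, hC⟩ := pf_PS hθ hθ1 hPF hε hε1 (Set.mem_univ l) hw_hh (sg_cx hd hR)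
  refine ⟨(2 * R + 3) * (C * Real.exp ((θ + ε) * (R + 1))), by positivity,
    fun q χ hq hnp t z => ?_⟩
  have h1 := PS_of_pieces hR0 hR (f := tw χ l) (t := t) (a := θ + ε)
    (B := C * ((nm q : ℝ) * (1 + |t|)) ^ ε) (z := z) (by linarith) (by positivity) (by
      intro n M hM
      refine le_trans (le_of_eq ?_) (hC q χ hq hnp t z n (Nat.cast_nonneg n) M hM)
      congr 1
      refine Finset.sum_congr rfl fun b hb => ?_
      rw [osc_eq_cpow t (mem_primBall.mp hb).2])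
  refine h1.trans (le_of_eq ?_)
  rw [show (θ + ε) * (z + R + 1) = (θ + ε) * (R + 1) + (θ + ε) * z by ring, Real.exp_add]
  ring

/-- type `μ` -/
theorem sup_mu {θ ε : ℝ} (hθ : 1 / 2 < θ) (hθ1 : θ ≤ 1) (hPF : PF Set.univ θ)
    (hε : 0 < ε) (hε1 : ε ≤ 1) (l : ℤ) {h : ℝ → ℝ} (hd : ContDiff ℝ ∞ h)
    (hc : HasCompactSupport h) :
    ∃ C : ℝ, 0 ≤ C ∧ ∀ (q : Eis) (χ : Eis → ℂ), HC q χ → ∀ t z : ℝ,
      ‖PS (cx h) (fun b => (muE b : ℂ) * tw χ l b) z t‖ ≤
        C * (((nm q : ℝ) * (1 + |t|)) ^ ε * Real.exp ((θ + ε) * z)) := by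
  obtain ⟨R, hR0, hR⟩ := exists_R hc
  obtain ⟨C, hC0, hC⟩ := pf_PM hθ hθ1 hPF hε hε1 (Set.mem_univ l) hw_hh (sg_cx hd hR)
  refine ⟨(2 * R + 3) * (C * Real.exp ((θ + ε) * (R + 1))), by positivity,
    fun q χ hq t z => ?_⟩
  have h1 := PS_of_pieces hR0 hR (f := fun b => (muE b : ℂ) * tw χ l b) (t := t) (a := θ + ε)
    (B := C * ((nm q : ℝ) * (1 + |t|)) ^ ε) (z := z) (by linarith) (by positivity) (by
      intro n M hM
      refine le_trans (le_of_eq ?_) (hC q χ hq t z n (Nat.cast_nonneg n) M hM)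
      congr 1
      refine Finset.sum_congr rfl fun b hb => ?_
      rw [osc_eq_cpow t (mem_primBall.mp hb).2])
  refine h1.trans (le_of_eq ?_)
  rw [show (θ + ε) * (z + R + 1) = (θ + ε) * (R + 1) + (θ + ε) * z by ring, Real.exp_add]
  ring

/-- type prime -/
theorem sup_pr {θ ε : ℝ} (hθ : 1 / 2 < θ) (hθ1 : θ ≤ 1) (hPF : PF Set.univ θ)
    (hε : 0 < ε) (hε1 : ε ≤ 1) (l : ℤ) {h : ℝ → ℝ} (hd : ContDiff ℝ ∞ h)
    (hc : HasCompactSupport h) :
    ∃ C : ℝ, 0 ≤ C ∧ ∀ (q : Eis) (χ : Eis → ℂ), HC q χ → NP q χ l → ∀ t z : ℝ,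
      ‖PS (cx h) (fun b => uv .pr b * tw χ l b) z t‖ ≤
        C * (((nm q : ℝ) * (1 + |t|)) ^ ε * Real.exp ((θ + ε) * z)) := by
  classical
  obtain ⟨R, hR0, hR⟩ := exists_R hc
  obtain ⟨C, hC0, hC⟩ := PSup271.pf_PP hθ hθ1 hPF hε hε1 (Set.mem_univ l) hw_hh (sg_cx hd hR)
  refine ⟨(2 * R + 3) * (C * Real.exp ((θ + ε) * (R + 1))), by positivity,
    fun q χ hq hnp t z => ?_⟩
  have h1 := PS_of_pieces hR0 hR (f := fun b => uv .pr b * tw χ l b) (t := t) (a := θ + ε)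
    (B := C * ((nm q : ℝ) * (1 + |t|)) ^ ε) (z := z) (by linarith) (by positivity) (by
      intro n M hM
      refine le_trans (le_of_eq ?_) (hC q χ hq hnp t z n (Nat.cast_nonneg n) M hM)
      congr 1
      unfold PLog255.primes
      rw [Finset.sum_filter]
      refine Finset.sum_congr rfl fun b hb => ?_
      rw [osc_eq_cpow t (mem_primBall.mp hb).2]
      by_cases hs : Prime b <;> simp [uv, hs])
  refine h1.trans (le_of_eq ?_)
  rw [show (θ + ε) * (z + R + 1) = (θ + ε) * (R + 1) + (θ + ε) * z by ring, Real.exp_add]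
  ring

/-- type `μ²` -/
theorem sup_sq {θ ε : ℝ} (hθ : 1 / 2 < θ) (hθ1 : θ ≤ 1) (hPF : PF Set.univ θ)
    (hε : 0 < ε) (hε1 : ε ≤ 1) (l : ℤ) {h : ℝ → ℝ} (hd : ContDiff ℝ ∞ h)
    (hc : HasCompactSupport h) :
    ∃ C : ℝ, 0 ≤ C ∧ ∀ (q : Eis) (χ : Eis → ℂ), HC q χ → NP q χ l → ∀ t z : ℝ,
      ‖PS (cx h) (fun b => uv .sq b * tw χ l b) z t‖ ≤
        C * (((nm q : ℝ) * (1 + |t|)) ^ ε * Real.exp ((θ + ε) * z)) := by
  classical
  obtain ⟨C, hC0, hC⟩ := sup_one hθ hθ1 hPF hε hε1 l hd hc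
  have hsum := LatSum413.summable_nm_rpow (s := 2 * (θ + ε)) (by linarith)
  set Z : ℝ := ∑' z : Eis, (nm z : ℝ) ^ (-(2 * (θ + ε))) with hZ
  have hZ0 : 0 ≤ Z := tsum_nonneg fun z => by positivity
  refine ⟨C * Z, by positivity, fun q χ hq hnp t z => ?_⟩
  have hch : IsChar (tw χ l) := hq.isChar_tw l
  have hcc : HasCompactSupport (cx h) := by
    unfold cx
    exact hc.comp_left (g := fun x : ℝ => (x : ℂ)) Complex.ofReal_zero
  obtain ⟨N, hN⟩ := FY813.FS_eq hcc hch z t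
  have e0 : PS (cx h) (fun b => uv .sq b * tw χ l b) z t = FY813.FS (cx h) (tw χ l) z t := by
    unfold FY813.FS
    refine PS_congr (fun b _ => ?_) _ _
    by_cases hs : Squarefree b <;> simp [uv, hs]
  rw [e0, hN]
  refine (norm_sum_le _ _).trans ?_
  have hB0 : 0 ≤ C * (((nm q : ℝ) * (1 + |t|)) ^ ε * Real.exp ((θ + ε) * z)) := by positivity
  calc ∑ d ∈ primBall N, ‖(muE d : ℂ) * (tw χ l (d ^ 2) * osc t (Real.log (nm (d ^ 2))) *
        PS (cx h) (tw χ l) (z - Real.log (nm (d ^ 2))) t)‖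
      ≤ ∑ d ∈ primBall N, (C * (((nm q : ℝ) * (1 + |t|)) ^ ε * Real.exp ((θ + ε) * z))) *
          (nm d : ℝ) ^ (-(2 * (θ + ε))) := by
        refine Finset.sum_le_sum fun d hd' => ?_
        have hdp : IsPrim d := (mem_primBall.mp hd').2
        have hd2 : IsPrim (d ^ 2) := by rw [sq]; exact hdp.mul hdp
        have hn0 : (0 : ℝ) < nm d := by exact_mod_cast nm_pos.mpr hdp.ne_zero
        have hmu : ‖(muE d : ℂ)‖ ≤ 1 := norm_uv_le .mu d
        have h2 := hC q χ hq hnp t (z - Real.log (nm (d ^ 2)))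
        have e1 : Real.exp ((θ + ε) * (z - Real.log (nm (d ^ 2)))) =
            Real.exp ((θ + ε) * z) * (nm d : ℝ) ^ (-(2 * (θ + ε))) := by
          rw [mul_sub, sub_eq_add_neg, Real.exp_add, FY813.nm_sq, Real.log_pow,
            Real.rpow_def_of_pos hn0]
          congr 2
          push_cast; ring
        rw [e1] at h2
        rw [norm_mul, norm_mul, norm_mul, norm_osc, mul_one]
        calc ‖(muE d : ℂ)‖ * (‖tw χ l (d ^ 2)‖ * ‖PS (cx h) (tw χ l)
              (z - Real.log (nm (d ^ 2))) t‖)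
            ≤ 1 * (1 * ‖PS (cx h) (tw χ l) (z - Real.log (nm (d ^ 2))) t‖) := by
              gcongr
              exact hch.norm_le hd2
          _ = ‖PS (cx h) (tw χ l) (z - Real.log (nm (d ^ 2))) t‖ := by ring
          _ ≤ _ := h2
          _ = _ := by ring
    _ = (C * (((nm q : ℝ) * (1 + |t|)) ^ ε * Real.exp ((θ + ε) * z))) *
          ∑ d ∈ primBall N, (nm d : ℝ) ^ (-(2 * (θ + ε))) := by rw [Finset.mul_sum]
    _ ≤ (C * (((nm q : ℝ) * (1 + |t|)) ^ ε * Real.exp ((θ + ε) * z))) * Z := by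
        refine mul_le_mul_of_nonneg_left ?_ hB0
        exact hsum.sum_le_tsum _ fun z _ => by positivity
    _ = _ := by ring

/-- type `δ` -/
theorem sup_del {a : ℝ} (ha : 0 ≤ a) {h : ℝ → ℝ} (hd : ContDiff ℝ ∞ h)
    (hc : HasCompactSupport h) :
    ∃ C : ℝ, 0 ≤ C ∧ ∀ f : Eis → ℂ, (∀ b, IsPrim b → ‖f b‖ ≤ 1) → ∀ t z : ℝ,
      ‖PS (cx h) (fun b => uv .del b * f b) z t‖ ≤ C * Real.exp (a * z) := by
  classical
  obtain ⟨R, hR0, hR⟩ := exists_R hc
  obtain ⟨B, hB⟩ := hd.continuous.bounded_above_of_compact_support hc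
  have hB0 : 0 ≤ B := (norm_nonneg _).trans (hB 0)
  refine ⟨B * Real.exp (a * R), by positivity, fun f hf t z => ?_⟩
  have e1 : PS (cx h) (fun b => uv .del b * f b) z t = f 1 * (osc t 0 * cx h (0 - z)) := by
    unfold FE47.PS
    rw [tsum_eq_single 1]
    · simp [End699.ext, isPrim_one, uv, nm_one]
    · intro b hb
      by_cases hp : IsPrim b
      · simp [End699.ext, hp, uv, hb]
      · simp [End699.ext, hp]
  rw [e1, norm_mul, norm_mul, norm_osc, one_mul]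
  by_cases h0 : h (0 - z) = 0
  · unfold cx
    rw [h0]
    simp only [Complex.ofReal_zero, norm_zero, mul_zero]
    positivity
  · have h1 := (abs_le.mp (hR _ h0)).2
    have h2 : ‖cx h (0 - z)‖ ≤ B := by
      unfold cx
      rw [Complex.norm_real]
      exact hB _
    calc ‖f 1‖ * ‖cx h (0 - z)‖ ≤ 1 * B := mul_le_mul (hf 1 isPrim_one) h2 (norm_nonneg _)
          zero_le_one
      _ = B * 1 := by ring
      _ ≤ B * (Real.exp (a * R) * Real.exp (a * z)) := by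
          refine mul_le_mul_of_nonneg_left ?_ hB0
          rw [← Real.exp_add]
          apply Real.one_le_exp
          nlinarith
      _ = _ := by ring

/-- **sup rule, all types** -/
theorem sup_gen {θ ε : ℝ} (hθ : 1 / 2 < θ) (hθ1 : θ ≤ 1) (hPF : PF Set.univ θ)
    (hε : 0 < ε) (hε1 : ε ≤ 1) (l : ℤ) {h : ℝ → ℝ} (hd : ContDiff ℝ ∞ h)
    (hc : HasCompactSupport h) :
    ∃ C : ℝ, 0 ≤ C ∧ ∀ (u : UT) (q : Eis) (χ : Eis → ℂ), HC q χ → NP q χ l → ∀ t z : ℝ,
      ‖PS (cx h) (fun b => uv u b * tw χ l b) z t‖ ≤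
        C * (((nm q : ℝ) * (1 + |t|)) ^ ε * Real.exp ((θ + ε) * z)) := by
  classical
  obtain ⟨C1, h10, h1⟩ := sup_one hθ hθ1 hPF hε hε1 l hd hc
  obtain ⟨C2, h20, h2⟩ := sup_mu hθ hθ1 hPF hε hε1 l hd hc
  obtain ⟨C3, h30, h3⟩ := sup_sq hθ hθ1 hPF hε hε1 l hd hc
  obtain ⟨C4, h40, h4⟩ := sup_pr hθ hθ1 hPF hε hε1 l hd hc
  obtain ⟨C5, h50, h5⟩ := sup_del (a := θ + ε) (by linarith) hd hc
  refine ⟨C1 + C2 + C3 + C4 + C5, by positivity, fun u q χ hq hnp t z => ?_⟩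
  have hq1 : (1 : ℝ) ≤ nm q := by exact_mod_cast nm_pos.mpr hq.q0
  have hX : 1 ≤ ((nm q : ℝ) * (1 + |t|)) ^ ε :=
    Real.one_le_rpow (by nlinarith [abs_nonneg t]) hε.le
  have hW : 0 ≤ ((nm q : ℝ) * (1 + |t|)) ^ ε * Real.exp ((θ + ε) * z) := by positivity
  have hmono : ∀ c : ℝ, c ≤ C1 + C2 + C3 + C4 + C5 →
      c * (((nm q : ℝ) * (1 + |t|)) ^ ε * Real.exp ((θ + ε) * z)) ≤
      (C1 + C2 + C3 + C4 + C5) * (((nm q : ℝ) * (1 + |t|)) ^ ε * Real.exp ((θ + ε) * z)) :=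
    fun c hc => mul_le_mul_of_nonneg_right hc hW
  cases u with
  | one =>
    refine le_trans (le_of_eq ?_) ((h1 q χ hq hnp t z).trans (hmono C1 (by linarith)))
    congr 1
    refine PS_congr (fun b _ => ?_) _ _
    simp [uv]
  | mu =>
    refine le_trans (le_of_eq ?_) ((h2 q χ hq t z).trans (hmono C2 (by linarith)))
    rfl
  | sq => exact (h3 q χ hq hnp t z).trans (hmono C3 (by linarith))
  | pr => exact (h4 q χ hq hnp t z).trans (hmono C4 (by linarith))
  | del =>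
    refine (h5 (tw χ l) (fun b hb => (hq.isChar_tw l).norm_le hb) t z).trans ?_
    refine le_trans ?_ (hmono C5 (by linarith))
    refine mul_le_mul_of_nonneg_left ?_ h50
    exact le_mul_of_one_le_left (Real.exp_pos _).le hX

/-! ### typed pieces -/

lemma CS_pc (h : ℝ → ℝ) (P : Pc) (k : Eis) :
    CS (pc h P) k = PS (cx h) (fun b => uv P.u b * (P.ψ b * sy k b)) (Real.log P.Y) P.t := by
  unfold CM106.CS FE47.PS pc HSep813.gw
  refine tsum_congr fun b => ?_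
  by_cases hb : IsPrim b
  · simp only [End699.ext, if_pos hb]
    ring
  · simp [End699.ext, hb]

lemma nm_mod (n d k : Eis) : (nm (n * (n * d) * (9 * k)) : ℝ) =
    81 * ((nm n : ℝ) ^ 2 * nm d * nm k) := by
  have h9 : nm (9 : Eis) = 81 := by decide
  rw [nm_mul, nm_mul, nm_mul, nm_mul, h9]
  push_cast; ring

lemma np_mchS {n : Eis} {ψ : Eis → ℂ} (hψ : HC n ψ) {l : ℤ} {d k : Eis} (hd : d ≠ 0)
    (hk : k ≠ 0) (h : NPm n ψ l k) :
    NP (n * (n * d) * (9 * k)) (mch ψ (n * d) (fun q => sy k q)) l := by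
  unfold NPm at h
  have hc : HC (n * (9 * k)) (fun b => ψ b * sy k b) := hψ.mul (hc_sy hk)
  have hq' : n * (n * d) * (9 * k) ≠ 0 := by
    have h9 : (9 : Eis) ≠ 0 := nine_ne_zero
    have := hψ.q0
    positivity
  rcases h.changeMod hc hq' with h1 | ⟨a, ha1, ha2, ha3⟩
  · left; exact h1
  · right
    refine ⟨a, ha1, ha2, ?_⟩
    unfold prin0 at ha3
    beta_reduce at ha3 ⊢
    rw [if_pos ha2, mul_one] at ha3
    have hcop : IsCoprime a (n * d) := ha2.of_mul_right_left.of_mul_right_right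
    unfold mch prin0
    rw [if_pos hcop, mul_one]
    exact ha3

lemma np_mchA {n : Eis} {φ : Eis → ℂ} (hφ : HC n φ) {l : ℤ} {d k : Eis} (hd : d ≠ 0)
    (hk : k ≠ 0) (h : NPk n φ l k) :
    NP (n * (n * d) * (9 * k)) (mch φ (n * d) (fun q => conj (sy k q))) l := by
  unfold NPk at h
  have hc : HC (n * (9 * k)) (fun b => φ b * conj (sy k b)) := hφ.mul (hc_sy hk).conj
  have hq' : n * (n * d) * (9 * k) ≠ 0 := by
    have h9 : (9 : Eis) ≠ 0 := nine_ne_zero
    have := hφ.q0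
    positivity
  rcases h.changeMod hc hq' with h1 | ⟨a, ha1, ha2, ha3⟩
  · left; exact h1
  · right
    refine ⟨a, ha1, ha2, ?_⟩
    unfold prin0 at ha3
    beta_reduce at ha3 ⊢
    rw [if_pos ha2, mul_one] at ha3
    have hcop : IsCoprime a (n * d) := ha2.of_mul_right_left.of_mul_right_right
    unfold mch prin0
    rw [if_pos hcop, mul_one]
    exact ha3

lemma tw_prin0 {M : Eis} {φ : Eis → ℂ} (hφ : HC M φ) (l : ℤ) (D : Eis) {q : Eis}
    (hq : IsPrim q) : tw φ l q * prin0 D q = tw φ l q * prin0 (M * D) q := by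
  by_cases h : IsCoprime q M
  · unfold prin0
    by_cases h2 : IsCoprime q D
    · rw [if_pos h2, if_pos (h.mul_right h2)]
    · rw [if_neg h2, if_neg fun h3 => h2 h3.of_mul_right_right]
  · have h0 : φ q = 0 := hφ.van q hq h
    unfold End699.tw
    rw [h0]; ring

lemma rpow81' {ε : ℝ} (a b c d : ℝ) (ha : 0 ≤ a) (hb : 0 ≤ b) (hc : 0 ≤ c) (hd : 0 ≤ d) :
    (81 * (a * b * c) * d) ^ ε = 81 ^ ε * (a * b * c * d) ^ ε := by
  rw [show 81 * (a * b * c) * d = 81 * (a * b * c * d) by ring,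
    Real.mul_rpow (by norm_num) (by positivity)]

/-- **sup rule, pieces of the Möbius sum** (character `ψ ang^l 1_{(b,d)=1}`) -/
theorem sup_pcS {θ ε : ℝ} (hθ : 1 / 2 < θ) (hθ1 : θ ≤ 1) (hPF : PF Set.univ θ)
    (hε : 0 < ε) (hε1 : ε ≤ 1) (l : ℤ) {h : ℝ → ℝ} (hd : ContDiff ℝ ∞ h)
    (hc : HasCompactSupport h) :
    ∃ C : ℝ, 0 ≤ C ∧ ∀ (n : Eis) (ψ : Eis → ℂ), HC n ψ → ∀ d k : Eis, d ≠ 0 → k ≠ 0 →
      NPm n ψ l k → ∀ P : Pc, 0 < P.Y → (∀ b, IsPrim b → P.ψ b = tw ψ l b * prin0 d b) →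
      ‖CS (pc h P) k‖ ≤
        C * (((nm n : ℝ) ^ 2 * nm d * nm k * (1 + |P.t|)) ^ ε * P.Y ^ (θ + ε)) := by
  obtain ⟨C, hC0, hC⟩ := sup_gen hθ hθ1 hPF hε hε1 l hd hc
  refine ⟨C * 81 ^ ε, by positivity, fun n ψ hψ d k hd0 hk hnp P hY hP => ?_⟩
  have h1 := hC P.u _ _ (hc_mch hψ hd0 hk) (np_mchS hψ hd0 hk hnp) P.t (Real.log P.Y)
  rw [nm_mod, rpow81' _ _ _ _ (by positivity) (by positivity) (by positivity) (by positivity)] at h1
  have e1 : CS (pc h P) k = PS (cx h) (fun b => uv P.u b *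
      tw (mch ψ (n * d) (fun q => sy k q)) l b) (Real.log P.Y) P.t := by
    rw [CS_pc]
    refine PS_congr (fun b hb => ?_) _ _
    rw [hP b hb, tw_prin0 hψ l d hb]
    unfold mch End699.tw
    ring
  rw [e1]
  refine h1.trans (le_of_eq ?_)
  rw [Real.rpow_def_of_pos hY, mul_comm (Real.log P.Y)]
  ring

lemma PS_conj (h : ℝ → ℝ) (f : Eis → ℂ) (z t : ℝ) :
    conj (PS (cx h) f z t) = PS (cx h) (fun b => conj (f b)) z (-t) := by
  unfold FE47.PS
  rw [Complex.conj_tsum]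
  refine tsum_congr fun b => ?_
  by_cases hb : IsPrim b
  · simp only [End699.ext, if_pos hb, map_mul]
    have e1 : conj (osc t (Real.log (nm b))) = osc (-t) (Real.log (nm b)) := by
      unfold osc
      rw [← Complex.exp_conj]
      congr 1
      rw [map_mul, Complex.conj_ofReal, Complex.conj_I]
      push_cast; ring
    have e2 : conj (cx h (Real.log (nm b) - z)) = cx h (Real.log (nm b) - z) := by
      unfold cx
      exact Complex.conj_ofReal _
    rw [e1, e2]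
  · simp [End699.ext, hb]

lemma conj_uv (u : UT) (b : Eis) : conj (uv u b) = uv u b := by
  classical
  cases u <;> simp only [uv] <;> (try split_ifs) <;> simp

/-- **sup rule, pieces of the amplifier** (character `conj (φ ang^l) 1_{(b,d)=1}`) -/
theorem sup_pcA {θ ε : ℝ} (hθ : 1 / 2 < θ) (hθ1 : θ ≤ 1) (hPF : PF Set.univ θ)
    (hε : 0 < ε) (hε1 : ε ≤ 1) (l : ℤ) {h : ℝ → ℝ} (hd : ContDiff ℝ ∞ h)
    (hc : HasCompactSupport h) :
    ∃ C : ℝ, 0 ≤ C ∧ ∀ (n : Eis) (φ : Eis → ℂ), HC n φ → ∀ d k : Eis, d ≠ 0 → k ≠ 0 →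
      NPk n φ l k → ∀ P : Pc, 0 < P.Y → (∀ b, IsPrim b → P.ψ b = conj (tw φ l b) * prin0 d b) →
      ‖CS (pc h P) k‖ ≤
        C * (((nm n : ℝ) ^ 2 * nm d * nm k * (1 + |P.t|)) ^ ε * P.Y ^ (θ + ε)) := by
  obtain ⟨C, hC0, hC⟩ := sup_gen hθ hθ1 hPF hε hε1 l hd hc
  refine ⟨C * 81 ^ ε, by positivity, fun n φ hφ d k hd0 hk hnp P hY hP => ?_⟩
  have h1 := hC P.u _ _ (hc_mch' hφ hd0 hk) (np_mchA hφ hd0 hk hnp) (-P.t) (Real.log P.Y)
  rw [nm_mod, rpow81' _ _ _ _ (by positivity) (by positivity) (by positivity) (by positivity),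
    abs_neg] at h1
  have e1 : ‖CS (pc h P) k‖ = ‖PS (cx h) (fun b => uv P.u b *
      tw (mch φ (n * d) (fun q => conj (sy k q))) l b) (Real.log P.Y) (-P.t)‖ := by
    rw [← RCLike.norm_conj (CS (pc h P) k), CS_pc, PS_conj]
    congr 1
    refine PS_congr (fun b hb => ?_) _ _
    rw [hP b hb, map_mul, map_mul, map_mul, Complex.conj_conj, conj_uv, conj_prin0,
      tw_prin0 hφ l d hb]
    unfold mch End699.tw
    ring
  rw [e1]
  refine h1.trans (le_of_eq ?_)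
  rw [Real.rpow_def_of_pos hY, mul_comm (Real.log P.Y)]
  ring

end Crest.Agent.R017.SupPc271
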