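import Crest.Agent.R017.TwoDefs_939
import Crest.Agent.R017.EndF_699
import Crest.Agent.R017.EndE3_699

/-!
# Row 17: two-factor theorem (1): the family members (helper939)

* `hc_SM`      : `χ (e/·)₃` is a character modulo `9 M` for `e ∈ SM M`
* `exists_dec` : `k = e k₁ k₂² m³`
* `P_eq_cop`   : the smooth sum of `k` = sum with the coprimality condition `(b, m) = 1`
* `PSfix`      : bounded smooth sums for a fixed nonprincipal character
-/

set_option autoImplicit false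

noncomputable section

open Complex MeasureTheory Filter Topology
open scoped ContDiff

namespace Crest.Agent.R017.Two939

open Crest.Agent.R012 Crest.Agent.R012.Eis Crest.Agent.R012.LS2 Crest.Agent.R012.Gauss880
open Crest.Agent.R012.Po581
open Crest.Agent.R012.Weight600 (osc norm_osc)
open Crest.Agent.R012.PSer47
open Crest.Agent.R017.End699 Crest.Agent.R017.FE47

/-! ### characters of smooth modulus -/

lemma sy_per_SM {M : Eis} {e : Eis} (he : e ∈ SM M) {a b : Eis} (ha : IsPrim a)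
    (hb : IsPrim b) (hd : 9 * M ∣ a - b) : sy e a = sy e b := by
  obtain ⟨he0, hp⟩ := he
  induction e using UniqueFactorizationMonoid.induction_on_prime with
  | h₁ => exact absurd rfl he0
  | h₂ u hu =>
    refine Sym645.sy_periodic hu.ne_zero ha hb (dvd_trans ?_ hd)
    exact mul_dvd_mul_left 9 (hu.dvd)
  | h₃ x p hx hpr ih =>
    rw [Char766.sy_mul_left ha, Char766.sy_mul_left hb]
    rw [ih hx fun q hq h => hp q hq (h.mul_left p)]
    congr 1
    refine Sym645.sy_periodic hpr.ne_zero ha hb (dvd_trans ?_ hd)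
    exact mul_dvd_mul_left 9 (hp p hpr (dvd_mul_right p x))

lemma isCoprime_nine_mul' {M a : Eis} (ha : IsPrim a) : IsCoprime a (9 * M) ↔ IsCoprime a M :=
  End699.isCoprime_nine_mul ha

/-- `χ (e/·)₃` modulo `9 M` -/
theorem hc_SM {M : Eis} {χ : Eis → ℂ} (h : HC M χ) {e : Eis} (he : e ∈ SM M) :
    HC (9 * M) (fun b => χ b * sy e b) where
  q0 := mul_ne_zero nine_ne_zero h.q0
  three := h.three.mul_left 9
  char := h.char.mul' (hc_sy he.1).char
  per a b ha hb hd := by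
    rw [h.per a b ha hb ((dvd_mul_left M 9).trans hd), sy_per_SM he ha hb hd]
  van a ha hc := by
    rw [h.van a ha fun h' => hc ((isCoprime_nine_mul' ha).mpr h'), zero_mul]

/-- `k = e k₁ k₂² m³` -/
theorem exists_dec {M : Eis} (h3 : (3 : Eis) ∣ M) {k : Eis} (hk : k ≠ 0) :
    ∃ e ∈ SM M, ∃ k1 k2 m : Eis, IsPrim k1 ∧ IsPrim k2 ∧ IsPrim m ∧ Squarefree k1 ∧ Squarefree k2 ∧
      IsCoprime k1 k2 ∧ IsCoprime (k1 * k2) M ∧ IsCoprime m M ∧ k = e * k1 * k2 ^ 2 * m ^ 3 := by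
  obtain ⟨e, he, b, hb, rfl⟩ := exists_decomp h3 hk
  obtain ⟨k1, k2, m, h1, h2, hm, s1, s2, hc, hbe⟩ := Char766.exists_prim_cubic_decomp hb.1
  have hbM := hb.2
  rw [hbe] at hbM
  have hk1 : IsCoprime k1 M := (hbM.of_mul_left_left).of_mul_left_left
  have hk2 : IsCoprime k2 M := IsCoprime.of_isCoprime_of_dvd_left
    ((hbM.of_mul_left_left).of_mul_left_right) (dvd_pow_self k2 two_ne_zero)
  have hmM : IsCoprime m M := IsCoprime.of_isCoprime_of_dvd_left
    (hbM.of_mul_left_right) (dvd_pow_self m three_ne_zero)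
  exact ⟨e, he, k1, k2, m, h1, h2, hm, s1, s2, hc, hk1.mul_left hk2, hmM, by rw [hbe]; ring⟩

open Classical in
/-- the smooth sum of `k = e k₁ k₂² m³` -/
theorem P_eq_cop (h : ℝ → ℝ) (χ : Eis → ℂ) (l : ℤ) {e k1 k2 m : Eis} (p1 : IsPrim k1)
    (p2 : IsPrim k2) (Y t : ℝ) :
    P h χ l (e * k1 * k2 ^ 2 * m ^ 3) Y t =
      PS (cx h) (fun b => if IsCoprime b m then
        XK (fun b => χ b * sy e b) (kap k1 k2) l b else 0) (Real.log Y) t := by
  unfold P
  refine PS_congr (fun b hb => ?_) _ _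
  unfold XK
  rw [Char766.sy_mul_left hb]
  have e1 : sy (e * k1 * k2 ^ 2) b = sy e b * kap k1 k2 b := by
    rw [kap_eq_sy p1 p2 hb, mul_assoc, Char766.sy_mul_left hb]
  rw [e1]
  by_cases hc : IsCoprime b m
  · rw [if_pos hc, Char766.sy_cube_left hb hc.symm]
    ring
  · rw [if_neg hc, Char766.sy_eq_zero hb fun h' => hc
      (h'.of_isCoprime_of_dvd_left (dvd_pow_self m three_ne_zero)).symm]
    ring

/-- the smooth sum of `k' = e k₁ k₂²` -/
theorem P_eq_kap (h : ℝ → ℝ) (χ : Eis → ℂ) (l : ℤ) {e k1 k2 : Eis} (p1 : IsPrim k1)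
    (p2 : IsPrim k2) (Y t : ℝ) :
    P h χ l (e * k1 * k2 ^ 2) Y t =
      PS (cx h) (XK (fun b => χ b * sy e b) (kap k1 k2) l) (Real.log Y) t := by
  unfold P
  refine PS_congr (fun b hb => ?_) _ _
  unfold XK
  have e1 : sy (e * k1 * k2 ^ 2) b = sy e b * kap k1 k2 b := by
    rw [kap_eq_sy p1 p2 hb, mul_assoc, Char766.sy_mul_left hb]
  rw [e1]
  ring

/-! ### a fixed nonprincipal character -/

lemma fC_gt_zero (w : ℝ → ℂ) {l : ℤ} (hl : l ≠ 0) (t : ℝ) : fC (gt w l t) 0 = 0 := by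
  have hl' : (l : ℂ) ≠ 0 := by exact_mod_cast hl
  set ζ : ℂ := cexp (((Real.pi / l : ℝ) : ℂ) * I) with hζ
  have h1 : ‖ζ‖ = 1 := by rw [hζ]; exact Complex.norm_exp_ofReal_mul_I _
  have h2 : ζ ^ (-l) = -1 := by
    rw [hζ, ← Complex.exp_int_mul]
    have : ((-l : ℤ) : ℂ) * (((Real.pi / l : ℝ) : ℂ) * I) = -(Real.pi * I) := by
      push_cast
      field_simp
    rw [this, Complex.exp_neg, Complex.exp_pi_mul_I]
    norm_num
  have h3 := fC_rot (f := gt w l t) (fun ζ hζ z => gt_rot w l t hζ z) h1 0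
  rw [mul_zero, h2] at h3
  linear_combination (1 / 2) * h3

lemma sumMod_ext_eq_zero {q : Eis} {χ : Eis → ℂ} (hχ : HC q χ) (hnp : NP q χ 0) :
    sumMod q (End699.ext χ) = 0 := by
  have h1 := hnp.cc_eq_zero hχ
  unfold cc mden at h1
  rw [if_pos rfl] at h1
  obtain ⟨k, hk, h2, -⟩ := sumMod_one_eq hχ.q0 hχ.three
  rw [h2, div_eq_zero_iff] at h1
  rcases h1 with h1 | h1
  · exact h1
  · exfalso
    have : (k : ℂ) ≠ 0 := by exact_mod_cast hk.ne'
    exact this h1

lemma zero_freq {q : Eis} {χ : Eis → ℂ} {l : ℤ} (hχ : HC q χ) (hnp : NP q χ l) (w : ℝ → ℂ) (t : ℝ) :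
    dualSum q (End699.ext χ) 0 * fC (gt w l t) 0 = 0 := by
  by_cases hl : l = 0
  · subst hl
    have h1 : dualSum q (End699.ext χ) 0 = sumMod q (End699.ext χ) := by
      unfold dualSum
      refine sumMod_congr fun a => ?_
      have : dl 0 = 0 := by simp [dl]
      rw [this, zero_div, zero_mul, eC_zero', mul_one]
    rw [h1, sumMod_ext_eq_zero hχ hnp, zero_mul]
  · rw [fC_gt_zero w hl, mul_zero]

/-- bounded smooth sums -/
theorem PSfix {w : ℝ → ℂ} (hw1 : ContDiff ℝ ∞ w) (hw2 : HasCompactSupport w) (l : ℤ) :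
    ∃ C : ℝ, 0 ≤ C ∧ ∀ (q : Eis) (χ : Eis → ℂ), HC q χ → NP q χ l → ∀ κ t : ℝ,
      ‖PS w (XK χ (fun _ => 1) l) κ t‖ ≤ C * (1 + |t|) ^ 4 * (nm q : ℝ) ^ 2 := by
  obtain ⟨C0, hC0, h0⟩ := norm_PS_le hw1.continuous hw2
  obtain ⟨C1, hC1, h1⟩ := fC_tws_decay 4 (gf w l) (ad_gf hw1 hw2 l)
  have hsum := LatSum413.summable_nm_rpow (s := 2) (by norm_num)
  set S2 := ∑' z : Eis, (nm z : ℝ) ^ (-(2 : ℝ)) with hS2
  have hS20 : 0 ≤ S2 := tsum_nonneg fun z => by positivity
  refine ⟨C0 + 18 * C1 * S2, by positivity, fun q χ hχ hnp κ t => ?_⟩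
  have hq : (1 : ℝ) ≤ nm q := by
    have := nm_pos.mpr hχ.q0
    exact_mod_cast this
  have hq0 : (0 : ℝ) < nm q := by linarith
  have ht : 1 ≤ 1 + |t| := by linarith [abs_nonneg t]
  have ht4 : 1 ≤ (1 + |t|) ^ 4 := one_le_pow₀ ht
  have hq2 : 1 ≤ (nm q : ℝ) ^ 2 := one_le_pow₀ hq
  rcases lt_or_ge κ 0 with hκ | hκ
  · have h2 := h0 (XK χ (fun _ => 1) l) (fun b hb => by
      unfold XK
      rw [mul_one, norm_mul]
      calc ‖χ b‖ * ‖ang l b‖ ≤ 1 * 1 := by
            gcongr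
            · exact hχ.char.norm_le hb
            · exact (ang_isChar l).norm_le hb
        _ = 1 := one_mul 1) κ t
    have h3 : Real.exp κ ≤ 1 := Real.exp_le_one_iff.mpr hκ.le
    calc _ ≤ C0 * Real.exp κ := h2
      _ ≤ C0 * 1 := by gcongr
      _ ≤ (C0 + 18 * C1 * S2) * 1 * 1 := by
          have : 0 ≤ 18 * C1 * S2 := by positivity
          linarith
      _ ≤ _ := by gcongr
  · set X := Real.exp κ with hX
    have hX1 : 1 ≤ X := Real.one_le_exp hκ
    have hX0 : 0 < X := by linarith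
    have hsX : 0 < Real.sqrt X := Real.sqrt_pos.mpr hX0
    have had : Ad (gt w l t) := (ad_gf hw1 hw2 l).tws t
    have hS := had.scale hX0
    have hP := poisson_periodic hS.toS hχ.q0 (perMod_iff.mpr hχ.pmod)
    rw [Ad.coe_toS] at hP
    have hP' : ∑' x : Eis, End699.ext χ x * (fun _ => (1 : ℂ)) x * fX (gt w l t) X (toC x) =
        ((2 / (Real.sqrt 3 * nm q) : ℝ) : ℂ) *
        ∑' k : Eis, dualSum q (End699.ext χ) k * fC (fX (gt w l t) X) (dl k / toC q) := by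
      rw [← hP]
      exact tsum_congr fun x => by simp
    rw [PS_eq_tsum, hP', norm_mul, norm_osc, one_mul, norm_mul, Complex.norm_real,
      Real.norm_of_nonneg (by positivity)]
    have hterm : ∀ k : Eis, ‖dualSum q (End699.ext χ) k * fC (fX (gt w l t) X) (dl k / toC q)‖ ≤
        (9 * C1 * (1 + |t|) ^ 4 * (nm q : ℝ) ^ 3) * (nm k : ℝ) ^ (-(2 : ℝ)) := by
      intro k
      by_cases hk : k = 0
      · subst hk
        have e0 : dl 0 / toC q = 0 := by simp [dl]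
        rw [e0, fC_fX _ hX0, mul_zero, ← mul_assoc, mul_comm (dualSum q _ 0), mul_assoc,
          zero_freq hχ hnp, mul_zero, norm_zero]
        positivity
      · have hk0 : (0 : ℝ) < nm k := by
          have := nm_pos.mpr hk
          exact_mod_cast this
        have hdual : ‖dualSum q (End699.ext χ) k‖ ≤ nm q := norm_DM_le hχ k
        rw [fC_fX _ hX0, norm_mul, norm_mul, Complex.norm_real, Real.norm_of_nonneg hX0.le]
        set ξ : ℂ := ((Real.sqrt X : ℝ) : ℂ) * (dl k / toC q) with hξ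
        have hn2 : ‖ξ‖ ^ 2 = X * (nm k / (3 * nm q)) := by
          rw [hξ, norm_mul, mul_pow, Complex.norm_real, Real.norm_of_nonneg hsX.le,
            Real.sq_sqrt hX0.le, norm_div, div_pow, norm_toC_sq]
          unfold dl
          rw [norm_div, div_pow, norm_toC_sq, norm_iS3, Real.sq_sqrt (by norm_num)]
          field_simp
        have hn4 : ‖ξ‖ ^ 4 = X ^ 2 * ((nm k : ℝ) ^ 2 / (9 * (nm q : ℝ) ^ 2)) := by
          calc ‖ξ‖ ^ 4 = (‖ξ‖ ^ 2) ^ 2 := by ring
            _ = _ := by rw [hn2]; field_simp; ring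
        have hpos : 0 < ‖ξ‖ ^ 4 := by rw [hn4]; positivity
        have h3 : ‖fC (gt w l t) ξ‖ ≤ C1 * (1 + |t|) ^ 4 / ‖ξ‖ ^ 4 := by
          rw [le_div_iff₀ hpos]
          have := h1 t ξ
          unfold gt
          linarith
        have hr : (nm k : ℝ) ^ (-(2 : ℝ)) = ((nm k : ℝ) ^ 2)⁻¹ := by
          rw [Real.rpow_neg hk0.le, Real.rpow_two]
        calc ‖dualSum q (End699.ext χ) k‖ * (X * ‖fC (gt w l t) ξ‖)
            ≤ nm q * (X * (C1 * (1 + |t|) ^ 4 / ‖ξ‖ ^ 4)) := by gcongr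
          _ = (9 * C1 * (1 + |t|) ^ 4 * (nm q : ℝ) ^ 3) * (nm k : ℝ) ^ (-(2 : ℝ)) * X⁻¹ := by
              rw [hn4, hr]; field_simp
          _ ≤ (9 * C1 * (1 + |t|) ^ 4 * (nm q : ℝ) ^ 3) * (nm k : ℝ) ^ (-(2 : ℝ)) * 1 := by
              gcongr
              exact inv_le_one_of_one_le₀ hX1
          _ = _ := mul_one _
    have hn := tsum_of_norm_bounded (hsum.mul_left (9 * C1 * (1 + |t|) ^ 4 * (nm q : ℝ) ^ 3)).hasSum hterm
    rw [tsum_mul_left, ← hS2] at hn
    have h3 : (1 : ℝ) ≤ Real.sqrt 3 := by rw [Real.one_le_sqrt]; norm_num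
    calc 2 / (Real.sqrt 3 * nm q) * ‖∑' k : Eis, dualSum q (End699.ext χ) k *
          fC (fX (gt w l t) X) (dl k / toC q)‖
        ≤ 2 / (1 * nm q) * (9 * C1 * (1 + |t|) ^ 4 * (nm q : ℝ) ^ 3 * S2) := by gcongr
      _ = 18 * C1 * S2 * (1 + |t|) ^ 4 * (nm q : ℝ) ^ 2 := by field_simp; ring
      _ ≤ _ := by
          gcongr
          linarith

end Crest.Agent.R017.Two939
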