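import Crest.Agent.R017.BxT_986
import Crest.Agent.R017.Two1_939
import Crest.Agent.R017.BoxP3_271
import Crest.Agent.R017.SupPc_271

/-!
# Row 17, R8 (E5): the `k` with `φ conj χ_k` principal are added back (helper271)

* `one_bad` : a smooth piece with `ψ χ_k` nonprincipal, `φ conj χ_k` principal, is `O(X^ε)`
* `bad_k` : the total contribution of these `k` to a signed box
-/

set_option autoImplicit false

noncomputable section

open Complex MeasureTheory Filter Topology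
open scoped ContDiff ComplexConjugate

namespace Crest.Agent.R017.BadK271

open Crest.Agent.R012 Crest.Agent.R012.Eis Crest.Agent.R012.Gauss880
open Crest.Agent.R012.Weight600 (osc norm_osc)
open Crest.Agent.R012.LS2 (bl mem_bl)
open Crest.Agent.R012.PSer47 Crest.Agent.R012.Div277 Crest.Agent.R012.Mob705
open Crest.Agent.R017.CM106 (CS)
open Crest.Agent.R017.End699 Crest.Agent.R017.FE47 Crest.Agent.R017.Two939
open Crest.Agent.R017.B770 Crest.Agent.R017.Sup271 Crest.Agent.R017.Bx986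
open Crest.Agent.R017.HP842 (UT Pc pc)
open Crest.Agent.R017.SupPc271
open Crest.Agent.R017.BoxP271 (norm_sy_le' norm_wk_le sw_bdd)

/-- at a `k` with `φ conj χ_k` principal, `χ_k = φ` on the elements coprime to the modulus -/
lemma sy_eq_of_bad {n : Eis} {φ : Eis → ℂ} {l : ℤ} {k : Eis} (hbad : ¬ NPk n φ l k) {b : Eis}
    (hb : IsPrim b) (hc : IsCoprime b (n * (9 * k))) : sy k b = φ b := by
  unfold NPk NP at hbad
  push Not at hbad
  have h1 := hbad.2 b hb hc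
  have hkb : IsCoprime k b :=
    (hc.of_isCoprime_of_dvd_right ⟨n * 9, by ring⟩).symm
  have h2 : ‖sy k b‖ = 1 := Char766.norm_sy hb hkb
  have h3 : conj (sy k b) * sy k b = 1 := by
    rw [← Complex.normSq_eq_conj_mul_self, Complex.normSq_eq_norm_sq, h2]
    simp
  calc sy k b = (φ b * conj (sy k b)) * sy k b := by rw [h1, one_mul]
    _ = φ b * (conj (sy k b) * sy k b) := by ring
    _ = φ b := by rw [h3, mul_one]

/-- **a smooth piece at a bad `k`** -/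
theorem one_bad {w : ℝ → ℂ} (hw1 : ContDiff ℝ ∞ w) (hw2 : HasCompactSupport w) {n : Eis}
    {φ ψ : Eis → ℂ} (hφ : HC n φ) (hψ : HC n ψ) (l₁ l₂ : ℤ) {ε : ℝ} (hε : 0 < ε) :
    ∃ C : ℝ, 1 ≤ C ∧ ∀ k : Eis, k ≠ 0 → ¬ NPk n φ l₁ k → NPm n ψ l₂ k → ∀ d : Eis, d ≠ 0 →
      ∀ z t : ℝ, ‖PS w (fun b => tw ψ l₂ b * prin0 d b * sy k b) z t‖ ≤
        C * ((nm d : ℝ) * nm k) ^ ε * (1 + |t|) ^ 4 := by
  classical
  obtain ⟨C1, hC1, h1⟩ := PSfix hw1 hw2 l₂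
  obtain ⟨C2, hC2, h2⟩ := tau_le_rpow hε
  have hnn : HC (n * n) (fun b => ψ b * φ b) := hψ.mul hφ
  refine ⟨C2 * (C1 * (nm (n * n) : ℝ) ^ 2) + 1, by
    have : 0 ≤ C2 * (C1 * (nm (n * n) : ℝ) ^ 2) := by positivity
    linarith, fun k hk hbad hnp d hd z t => ?_⟩
  have h9 : ∀ b, IsPrim b → IsCoprime b n → IsCoprime b k → IsCoprime b (n * (9 * k)) := by
    intro b _ hbn hbk
    have h3 : IsCoprime b 3 := hbn.of_isCoprime_of_dvd_right hψ.three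
    have h9 : IsCoprime b 9 := by
      have := h3.mul_right h3
      norm_num at this
      exact this
    exact hbn.mul_right (h9.mul_right hbk)
  have hnp' : NP (n * n) (fun b => ψ b * φ b) l₂ := by
    rcases hnp with h | ⟨a, ha, hac, hne⟩
    · exact Or.inl h
    · have hcn : IsCoprime a n := hac.of_isCoprime_of_dvd_right ⟨9 * k, rfl⟩
      refine Or.inr ⟨a, ha, hcn.mul_right hcn, ?_⟩
      intro h
      apply hne
      change ψ a * sy k a = 1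
      rw [sy_eq_of_bad hbad ha hac]
      exact h
  set X : Eis → ℂ := XK (fun b => ψ b * φ b) (fun _ => 1) l₂ with hX
  have hXc : IsChar X := by
    have h := (hψ.char.mul' hφ.char).mul' (ang_isChar l₂)
    have e : X = fun b => ψ b * φ b * ang l₂ b := by
      funext b
      rw [hX]
      unfold XK
      ring
    rw [e]
    exact h
  have e2 : PS w (fun b => tw ψ l₂ b * prin0 d b * sy k b) z t =
      PS w (fun b => if IsCoprime b (k * d) then X b else 0) z t := by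
    refine PS_congr (fun b hb => ?_) _ _
    have eX : X b = ψ b * φ b * ang l₂ b := by
      rw [hX]; unfold XK; ring
    rw [eX]
    unfold tw
    by_cases hbn : IsCoprime b n
    swap
    · rw [hψ.van b hb hbn]
      simp
    by_cases hbk : IsCoprime b k
    · rw [sy_eq_of_bad hbad hb (h9 b hb hbn hbk)]
      unfold prin0
      by_cases hbd : IsCoprime b d
      · rw [if_pos hbd, if_pos (hbk.mul_right hbd)]
        ring
      · rw [if_neg hbd, if_neg fun h' : IsCoprime b (k * d) => hbd h'.of_mul_right_right]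
        ring
    · rw [Char766.sy_eq_zero hb fun h' => hbk h'.symm,
        if_neg fun h' : IsCoprime b (k * d) => hbk h'.of_mul_right_left]
      ring
  rw [e2]
  have hkd : k * d ≠ 0 := mul_ne_zero hk hd
  have hnd : (0 : ℝ) ≤ (nm d : ℝ) * nm k := by positivity
  have hτ : (tau (k * d) : ℝ) ≤ C2 * ((nm d : ℝ) * nm k) ^ ε := by
    refine (h2 _ hkd).trans (le_of_eq ?_)
    rw [nm_mul]; push_cast
    rw [mul_comm (nm k : ℝ)]
  have h4 := norm_PS_cop_le hw2 hXc hkd z t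
  refine h4.trans ?_
  calc ∑ g ∈ (dvs (k * d)).filter Squarefree, ‖PS w X (z - Real.log (nm g)) t‖
      ≤ ∑ g ∈ (dvs (k * d)).filter Squarefree, C1 * (1 + |t|) ^ 4 * (nm (n * n) : ℝ) ^ 2 :=
        Finset.sum_le_sum fun g _ => h1 _ _ hnn hnp' _ _
    _ = ((dvs (k * d)).filter Squarefree).card * (C1 * (1 + |t|) ^ 4 * (nm (n * n) : ℝ) ^ 2) := by
        rw [Finset.sum_const, nsmul_eq_mul]
    _ ≤ (C2 * ((nm d : ℝ) * nm k) ^ ε) * (C1 * (1 + |t|) ^ 4 * (nm (n * n) : ℝ) ^ 2) := by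
        gcongr
        refine le_trans ?_ hτ
        unfold tau
        exact_mod_cast Finset.card_filter_le _ _
    _ = (C2 * (C1 * (nm (n * n) : ℝ) ^ 2)) * ((nm d : ℝ) * nm k) ^ ε * (1 + |t|) ^ 4 := by ring
    _ ≤ _ := by
        gcongr
        linarith

/-! ### lists of pieces -/

lemma norm_χS_le {P : DPar} (hP : P.OK) (d : Eis) {b : Eis} (hb : IsPrim b) : ‖χS P d b‖ ≤ 1 := by
  unfold χS tw
  have h1 := hP.ψ.char.norm_le hb
  have h2 := (ang_isChar P.l₂).norm_le hb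
  have h3 : ‖prin0 d b‖ ≤ 1 := by unfold prin0; split_ifs <;> simp
  rw [norm_mul, norm_mul]
  exact mul_le_one₀ (mul_le_one₀ h1 (norm_nonneg _) h2) (norm_nonneg _) h3

lemma norm_χA_le {P : DPar} (hP : P.OK) (d : Eis) {b : Eis} (hb : IsPrim b) : ‖χA P d b‖ ≤ 1 := by
  unfold χA tw
  have h1 := hP.φ.char.norm_le hb
  have h2 := (ang_isChar P.l₁).norm_le hb
  have h3 : ‖prin0 d b‖ ≤ 1 := by unfold prin0; split_ifs <;> simp
  rw [norm_mul, RCLike.norm_conj, norm_mul]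
  exact mul_le_one₀ (mul_le_one₀ h1 (norm_nonneg _) h2) (norm_nonneg _) h3

/-- the trivial bound -/
lemma CS_triv {h : ℝ → ℝ} {c₀ : ℝ} (hpu : PU h c₀) : ∃ C : ℝ, 1 ≤ C ∧ ∀ (p : Pc) (k : Eis),
    (∀ b, IsPrim b → ‖p.ψ b‖ ≤ 1) → 0 < p.Y → ‖CS (pc h p) k‖ ≤ C * p.Y := by
  obtain ⟨C, hC, hb⟩ := norm_PS_le (cd_cx hpu.cd).continuous (cs_cx hpu.cs)
  refine ⟨C + 1, by linarith, fun p k hψ hY => ?_⟩
  rw [CS_pc]
  refine (hb _ (fun b hb => ?_) _ _).trans ?_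
  · have h1 := HP842.norm_uv_le p.u b
    have h3 := norm_sy_le' k b hb
    rw [norm_mul, norm_mul]
    exact mul_le_one₀ h1 (by positivity) (mul_le_one₀ (hψ b hb) (norm_nonneg _) h3)
  · rw [Real.exp_log hY]
    nlinarith

/-- products over lists of near pieces -/
lemma prod_near {ρ M : ℝ} {F G : Pc → ℝ} (hF : ∀ p, 0 ≤ F p) (hG : ∀ d, 0 ≤ G d) {ps ds : List Pc}
    (h : List.Forall₂ (Nr ρ) ps ds)
    (hb : ∀ p d, d ∈ ds → Nr ρ p d → F p ≤ G d * (1 + |p.t - d.t|) ^ M) :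
    (ps.map F).prod ≤ (ds.map G).prod * cost M ps ds := by
  induction h with
  | nil => simp
  | @cons p d ps ds hpd _ ih =>
    have ih' := ih fun p' d' hd' hn => hb p' d' (List.mem_cons_of_mem _ hd') hn
    have h1 := hb p d List.mem_cons_self hpd
    have h2 : 0 ≤ (ps.map F).prod := List.prod_nonneg fun a ha => by
      obtain ⟨q, _, rfl⟩ := List.mem_map.1 ha
      exact hF q
    rw [List.map_cons, List.map_cons, List.prod_cons, List.prod_cons, cost_cons]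
    calc F p * (ps.map F).prod ≤ (G d * (1 + |p.t - d.t|) ^ M) *
          ((ds.map G).prod * cost M ps ds) := by
          refine mul_le_mul h1 ih' h2 ?_
          exact mul_nonneg (hG d) (by positivity)
      _ = _ := by ring

/-- the bounds of the pieces at a bad `k` : `E₁` smooth pieces, `E₂ Y` the others -/
def GB (E₁ E₂ : ℝ) (d : Pc) : ℝ := if d.u = .one then E₁ * (1 + |d.t|) ^ (4 : ℝ) else E₂ * d.Y

lemma Y_le_of_Nr {ρ : ℝ} {p d : Pc} (h : Nr ρ p d) (hd : 0 < d.Y) : p.Y ≤ Real.exp ρ * d.Y := by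
  have h1 := (abs_le.1 h.near).2
  have h2 : Real.log p.Y ≤ ρ + Real.log d.Y := by linarith
  have h3 := Real.exp_le_exp.2 h2
  rwa [Real.exp_log h.Y0, Real.exp_add, Real.exp_log hd] at h3

lemma one_add_abs_le (a b : ℝ) : 1 + |a| ≤ (1 + |b|) * (1 + |a - b|) := by
  have h1 := abs_sub_abs_le_abs_sub a b
  have h2 := abs_nonneg b
  have h3 := abs_nonneg (a - b)
  nlinarith

/-- the product of the pieces of the Möbius sum at a bad `k` -/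
lemma prod_dsS (P : DPar) (d₂ : Eis) (t₂ E₁ E₂ : ℝ) {j : ℕ} (c : Fin (j - 1) ⊕ Fin j → ℕ) :
    ((dsS P d₂ t₂ c).map (GB E₁ E₂)).prod = (E₁ * (1 + |t₂|) ^ (4 : ℝ)) ^ (j - 1) *
      (E₂ ^ j * Real.exp (∑ i, (c (Sum.inr i) : ℝ))) := by
  unfold dsS
  rw [List.map_append, List.prod_append, List.map_ofFn, List.map_ofFn, List.prod_ofFn,
    List.prod_ofFn]
  congr 1
  · simp only [Function.comp_apply, GB, if_true]
    rw [Finset.prod_const, Finset.card_univ, Fintype.card_fin]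
  · have e : ∀ i : Fin j, (GB E₁ E₂ ∘ fun i : Fin j =>
        (⟨.mu, χS P d₂, Real.exp (c (Sum.inr i)), t₂⟩ : Pc)) i = E₂ * Real.exp (c (Sum.inr i)) := by
      intro i
      simp [GB]
    rw [Finset.prod_congr rfl fun i _ => e i, Finset.prod_mul_distrib, Finset.prod_const,
      Finset.card_univ, Fintype.card_fin, Real.exp_sum]

/-- the product of the pieces of the amplifier -/
lemma prod_dsA (P : DPar) (r : ℕ) (y Q₀ κ : ℝ) (J : Finset (Fin r)) (d₁ : Eis) (t₁ E₁ E₂ : ℝ) :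
    ((dsA P r y Q₀ κ J d₁ t₁).map (GB E₁ E₂)).prod = E₂ * Real.exp κ *
      (E₂ ^ J.card * Real.exp (∑ i ∈ J, kap r y Q₀ i)) := by
  unfold dsA
  rw [List.map_cons, List.prod_cons, List.map_map, Finset.prod_map_toList]
  congr 1
  have e : ∀ i ∈ J, (GB E₁ E₂ ∘ fun i : Fin r =>
      (⟨.pr, χA P d₁, Real.exp (kap r y Q₀ i), -t₁⟩ : Pc)) i = E₂ * Real.exp (kap r y Q₀ i) := by
    intro i _
    simp [GB]
  rw [Finset.prod_congr rfl e, Finset.prod_mul_distrib, Finset.prod_const, Real.exp_sum]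

lemma sum_kap_le {r : ℕ} {y Q₀ : ℝ} (hQ : 0 < Q₀) (J : Finset (Fin r)) :
    Real.exp (∑ i ∈ J, kap r y Q₀ i) ≤ Real.exp (3 * r ^ 2) * CJ r y Q₀ J := by
  unfold B770.kap CJ
  rw [Finset.sum_add_distrib, Finset.sum_const, Real.exp_add, nsmul_eq_mul, mul_comm]
  refine mul_le_mul ?_ (le_of_eq ?_) (Real.exp_pos _).le (Real.exp_pos _).le
  · apply Real.exp_le_exp.2
    calc ∑ i ∈ J, (3 * (i : ℕ) : ℝ) ≤ ∑ _i ∈ J, (3 * r : ℝ) := by
          refine Finset.sum_le_sum fun i _ => ?_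
          have : ((i : ℕ) : ℝ) ≤ r := by exact_mod_cast i.2.le
          linarith
      _ = J.card * (3 * r) := by rw [Finset.sum_const, nsmul_eq_mul]
      _ ≤ r * (3 * r) := by
          have : (J.card : ℝ) ≤ r := by
            have h := Finset.card_le_univ J
            rw [Fintype.card_fin] at h
            exact_mod_cast h
          gcongr
      _ = 3 * r ^ 2 := by ring
  · rw [Real.rpow_def_of_pos hQ]
    congr 1
    ring

/-- the bad `k` -/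
def Bad (P : DPar) (k : Eis) : Prop := NPm P.n P.ψ P.l₂ k ∧ ¬ NPk P.n P.φ P.l₁ k

/-- the summand of a signed separated box -/
def TB (P : DPar) (h : ℝ → ℝ) (τ H : ℝ) (d₃ e : Eis) (ps qs : List Pc) (k : Eis) : ℂ :=
  P.wk τ H k * (prin0 d₃ k * sy k e) * ((ps.map fun p => CS (pc h p) k).prod *
    conj ((qs.map fun p => CS (pc h p) k).prod))

lemma norm_list_prod (l : List ℂ) : ‖l.prod‖ = (l.map norm).prod := by
  induction l with
  | nil => simp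
  | cons a l ih => rw [List.prod_cons, norm_mul, ih, List.map_cons, List.prod_cons]

/-- the pieces of a box, at a bad `k` -/
lemma piece_bad (P : DPar) (hP : P.OK) {h : ℝ → ℝ} {ρ s Ca Cb K : ℝ} (hs0 : 0 < s)
    (hCa : 1 ≤ Ca) (hCb : 1 ≤ Cb)
    (ha : ∀ k : Eis, k ≠ 0 → ¬ NPk P.n P.φ P.l₁ k → NPm P.n P.ψ P.l₂ k → ∀ d : Eis, d ≠ 0 →
      ∀ z t : ℝ, ‖PS (cx h) (fun b => tw P.ψ P.l₂ b * prin0 d b * sy k b) z t‖ ≤
        Ca * ((nm d : ℝ) * nm k) ^ s * (1 + |t|) ^ 4)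
    (hb : ∀ (p : Pc) (k : Eis), (∀ b, IsPrim b → ‖p.ψ b‖ ≤ 1) → 0 < p.Y →
      ‖CS (pc h p) k‖ ≤ Cb * p.Y)
    {d₂ : Eis} (hd₂ : d₂ ≠ 0) {k : Eis} (hk0 : k ≠ 0) (hkK : (nm k : ℝ) ≤ K) (hbad : Bad P k)
    {p d : Pc} (hdY : 0 < d.Y) (hψ : ∀ b, IsPrim b → ‖d.ψ b‖ ≤ 1)
    (hone : d.u = .one → d.ψ = χS P d₂) (hn : Nr ρ p d) :
    ‖CS (pc h p) k‖ ≤ GB (Ca * ((nm d₂ : ℝ) * (1 + K)) ^ s) (Cb * Real.exp ρ) d *
      (1 + |p.t - d.t|) ^ (4 : ℝ) := by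
  have hpt : 1 ≤ 1 + |p.t - d.t| := by linarith [abs_nonneg (p.t - d.t)]
  have hd2 : (1 : ℝ) ≤ nm d₂ := by exact_mod_cast nm_pos.mpr hd₂
  have hK0 : (0 : ℝ) ≤ K := le_trans (by positivity) hkK
  unfold GB
  split_ifs with hu
  · have h1 := ha k hk0 hbad.2 hbad.1 d₂ hd₂ (Real.log p.Y) p.t
    have e1 : ‖CS (pc h p) k‖ =
        ‖PS (cx h) (fun b => tw P.ψ P.l₂ b * prin0 d₂ b * sy k b) (Real.log p.Y) p.t‖ := by
      rw [CS_pc, hn.u, hu, hn.ψ, hone hu]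
      congr 1
      refine PS_congr (fun b _ => ?_) _ _
      simp only [χS, HP842.uv]
      ring
    rw [e1]
    refine h1.trans ?_
    have h2 := one_add_abs_le p.t d.t
    have h3 : (1 + |p.t|) ^ 4 ≤ (1 + |d.t|) ^ (4 : ℝ) * (1 + |p.t - d.t|) ^ (4 : ℝ) := by
      have e4 : ∀ x : ℝ, x ^ (4 : ℝ) = x ^ (4 : ℕ) := fun x => by
        rw [← Real.rpow_natCast]; norm_num
      rw [e4, e4, ← mul_pow]
      gcongr
    have h4 : ((nm d₂ : ℝ) * nm k) ^ s ≤ ((nm d₂ : ℝ) * (1 + K)) ^ s := by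
      have : (nm k : ℝ) ≤ 1 + K := by linarith
      gcongr
    calc Ca * ((nm d₂ : ℝ) * nm k) ^ s * (1 + |p.t|) ^ 4 ≤
        Ca * ((nm d₂ : ℝ) * (1 + K)) ^ s *
          ((1 + |d.t|) ^ (4 : ℝ) * (1 + |p.t - d.t|) ^ (4 : ℝ)) := by gcongr
      _ = _ := by ring
  · have h1 := hb p k (by rw [hn.ψ]; exact hψ) hn.Y0
    have h2 := Y_le_of_Nr hn hdY
    have h3 : (1 : ℝ) ≤ (1 + |p.t - d.t|) ^ (4 : ℝ) := Real.one_le_rpow hpt (by norm_num)
    calc ‖CS (pc h p) k‖ ≤ Cb * p.Y := h1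
      _ ≤ Cb * (Real.exp ρ * d.Y) := by gcongr
      _ = (Cb * Real.exp ρ * d.Y) * 1 := by ring
      _ ≤ _ := by gcongr

open Classical in
/-- **the contribution of the bad `k` to a signed separated box** -/
theorem bad_k (P : DPar) (hP : P.OK) {h : ℝ → ℝ} {c₀ : ℝ} (hpu : PU h c₀) {ρ : ℝ} (hρ : 0 ≤ ρ)
    (r L : ℕ) {ε : ℝ} (hε : 0 < ε) : ∃ C : ℝ, 0 ≤ C ∧
    ∀ (Q₀ κ y K : ℝ), 0 < Q₀ → 0 < K → ∀ (J : Finset (Fin r)) (H : ℝ),
    ∀ (d₁ d₂ d₃ e : Eis), d₂ ≠ 0 → IsPrim e → ∀ (t₁ t₂ τ : ℝ) (𝒟 : Finset Eis),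
      (∀ q ∈ 𝒟, IsPrim q) →
    ∀ j : ℕ, j ≤ L → ∀ (c : Fin (j - 1) ⊕ Fin j → ℕ) (ps qs : List Pc),
      List.Forall₂ (Nr ρ) ps (dsS P d₂ t₂ c) →
      List.Forall₂ (Nr ρ) qs (dsA P r y Q₀ κ J d₁ t₁) →
      ∑ q ∈ 𝒟, ∑ k ∈ (bl K).filter fun k => q ^ 2 ∣ k ∧ Bad P k, ‖TB P h τ H d₃ e ps qs k‖ ≤
        C * ((nm d₂ : ℝ) * (1 + K)) ^ ε * (1 + |t₂|) ^ (4 * L : ℝ) *
          (cost 4 ps (dsS P d₂ t₂ c) * cost 4 qs (dsA P r y Q₀ κ J d₁ t₁)) *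
          (K ^ (1 / 3 : ℝ) * Real.exp (∑ i, (c (Sum.inr i) : ℝ)) * (Real.exp κ * CJ r y Q₀ J)) := by
  obtain ⟨BU, hBU0, hBU⟩ := sw_bdd hP.U
  set s : ℝ := ε / (L + 1) with hs
  have hs0 : 0 < s := by positivity
  obtain ⟨Ca, hCa, ha⟩ := one_bad (cd_cx hpu.cd) (cs_cx hpu.cs) hP.φ hP.ψ P.l₁ P.l₂ hs0
  obtain ⟨Cb, hCb, hb⟩ := CS_triv hpu
  obtain ⟨Cτ, hCτ, hτ⟩ := tau_le_rpow hs0
  set E₂ : ℝ := Cb * Real.exp ρ with hE₂
  have hE2 : 1 ≤ E₂ := one_le_mul_of_one_le_of_one_le hCb (Real.one_le_exp hρ)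
  have hn3 : (0 : ℝ) ≤ nm P.n₃ := by positivity
  refine ⟨(nm P.n₃ * BU) * ((Ca ^ L * E₂ ^ L) * (E₂ * E₂ ^ r * Real.exp (3 * r ^ 2))) *
    (Cτ * 18), by positivity, ?_⟩
  intro Q₀ κ y K hQ₀ hK J H d₁ d₂ d₃ e hd₂ he t₁ t₂ τ 𝒟 h𝒟 j hj c ps qs hps hqs
  have hd2 : (1 : ℝ) ≤ nm d₂ := by exact_mod_cast nm_pos.mpr hd₂
  have hH1 : (1 : ℝ) ≤ 1 + K := by linarith
  set X : ℝ := (nm d₂ : ℝ) * (1 + K) with hX
  have hX1 : 1 ≤ X := one_le_mul_of_one_le_of_one_le hd2 hH1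
  have ht : 1 ≤ 1 + |t₂| := by linarith [abs_nonneg t₂]
  set E₁ : ℝ := Ca * X ^ s with hE₁
  have hXs : 1 ≤ X ^ s := Real.one_le_rpow hX1 hs0.le
  have hE1 : 1 ≤ E₁ := one_le_mul_of_one_le_of_one_le hCa hXs
  have hCJ : 0 < CJ r y Q₀ J := by unfold CJ; positivity
  have hGB0 : ∀ d : Pc, 0 < d.Y → 0 ≤ GB E₁ E₂ d := by
    intro d hd
    unfold GB
    split_ifs <;> positivity
  set cS := cost 4 ps (dsS P d₂ t₂ c) with hcS
  set cA := cost 4 qs (dsA P r y Q₀ κ J d₁ t₁) with hcA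
  have hcS0 : 0 ≤ cS := cost_nonneg _ _ _
  have hcA0 : 0 ≤ cA := cost_nonneg _ _ _
  set ES := Real.exp (∑ i, (c (Sum.inr i) : ℝ)) with hES
  -- the bound at one `k`
  have hone : ∀ k ∈ (bl K).filter fun k => Bad P k, ‖TB P h τ H d₃ e ps qs k‖ ≤
      (nm P.n₃ * BU) * (((Ca ^ L * E₂ ^ L) * (E₂ * E₂ ^ r * Real.exp (3 * r ^ 2))) *
        (X ^ (s * L) * (1 + |t₂|) ^ (4 * L : ℝ) * (cS * cA) * (ES * (Real.exp κ * CJ r y Q₀ J)))) := by
    intro k hk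
    rw [Finset.mem_filter, mem_bl hK.le] at hk
    obtain ⟨⟨hk0, hkK⟩, hbad⟩ := hk
    have w1 := norm_wk_le P hP hBU τ H hk0
    have w2 : ‖prin0 d₃ k * sy k e‖ ≤ 1 := by
      rw [norm_mul]
      refine mul_le_one₀ ?_ (norm_nonneg _) (norm_sy_le' k e he)
      unfold prin0; split_ifs <;> simp
    have hS : (ps.map fun p => ‖CS (pc h p) k‖).prod ≤
        ((dsS P d₂ t₂ c).map fun d => |GB E₁ E₂ d|).prod * cS := by
      refine prod_near (fun _ => norm_nonneg _) (fun _ => abs_nonneg _) hps fun p d hd hn => ?_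
      have hdd : 0 < d.Y ∧ (∀ b, IsPrim b → ‖d.ψ b‖ ≤ 1) ∧ d.ψ = χS P d₂ := by
        unfold dsS at hd
        rcases List.mem_append.1 hd with hd | hd
        · obtain ⟨i, rfl⟩ := (List.mem_ofFn' _ _).1 hd
          exact ⟨Real.exp_pos _, fun b hb' => norm_χS_le hP d₂ hb', rfl⟩
        · obtain ⟨i, rfl⟩ := (List.mem_ofFn' _ _).1 hd
          exact ⟨Real.exp_pos _, fun b hb' => norm_χS_le hP d₂ hb', rfl⟩
      rw [abs_of_nonneg (hGB0 d hdd.1)]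
      exact piece_bad P hP hs0 hCa hCb ha hb hd₂ hk0 hkK hbad hdd.1 hdd.2.1 (fun _ => hdd.2.2) hn
    have hA : (qs.map fun p => ‖CS (pc h p) k‖).prod ≤
        ((dsA P r y Q₀ κ J d₁ t₁).map fun d => |GB E₁ E₂ d|).prod * cA := by
      refine prod_near (fun _ => norm_nonneg _) (fun _ => abs_nonneg _) hqs fun p d hd hn => ?_
      have hdd : 0 < d.Y ∧ (∀ b, IsPrim b → ‖d.ψ b‖ ≤ 1) ∧ d.u ≠ .one := by
        unfold dsA at hd
        rcases List.mem_cons.1 hd with rfl | hd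
        · exact ⟨Real.exp_pos _, fun b hb' => norm_χA_le hP d₁ hb', by simp⟩
        · obtain ⟨i, _, rfl⟩ := List.mem_map.1 hd
          exact ⟨Real.exp_pos _, fun b hb' => norm_χA_le hP d₁ hb', by simp⟩
      rw [abs_of_nonneg (hGB0 d hdd.1)]
      exact piece_bad P hP hs0 hCa hCb ha hb hd₂ hk0 hkK hbad hdd.1 hdd.2.1
        (fun h => absurd h hdd.2.2) hn
    have hSa : ((dsS P d₂ t₂ c).map fun d => |GB E₁ E₂ d|) = (dsS P d₂ t₂ c).map (GB E₁ E₂) := by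
      refine List.map_congr_left fun d hd => abs_of_nonneg (hGB0 d ?_)
      unfold dsS at hd
      rcases List.mem_append.1 hd with hd | hd
      · obtain ⟨i, rfl⟩ := (List.mem_ofFn' _ _).1 hd
        exact Real.exp_pos _
      · obtain ⟨i, rfl⟩ := (List.mem_ofFn' _ _).1 hd
        exact Real.exp_pos _
    have hAa : ((dsA P r y Q₀ κ J d₁ t₁).map fun d => |GB E₁ E₂ d|) =
        (dsA P r y Q₀ κ J d₁ t₁).map (GB E₁ E₂) := by
      refine List.map_congr_left fun d hd => abs_of_nonneg (hGB0 d ?_)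
      unfold dsA at hd
      rcases List.mem_cons.1 hd with rfl | hd
      · exact Real.exp_pos _
      · obtain ⟨i, _, rfl⟩ := List.mem_map.1 hd
        exact Real.exp_pos _
    rw [hSa, prod_dsS] at hS
    rw [hAa, prod_dsA] at hA
    have hS' : (ps.map fun p => ‖CS (pc h p) k‖).prod ≤
        ((Ca ^ L * X ^ (s * L)) * (1 + |t₂|) ^ (4 * L : ℝ) * (E₂ ^ L * ES)) * cS := by
      refine hS.trans (mul_le_mul_of_nonneg_right ?_ hcS0)
      have hT : 1 ≤ (1 + |t₂|) ^ (4 : ℝ) := Real.one_le_rpow ht (by norm_num)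
      have h1 : (E₁ * (1 + |t₂|) ^ (4 : ℝ)) ^ (j - 1) ≤ (E₁ * (1 + |t₂|) ^ (4 : ℝ)) ^ L :=
        pow_le_pow_right₀ (one_le_mul_of_one_le_of_one_le hE1 hT) (by omega)
      have h2 : E₂ ^ j ≤ E₂ ^ L := pow_le_pow_right₀ hE2 hj
      have h3 : (E₁ * (1 + |t₂|) ^ (4 : ℝ)) ^ L =
          (Ca ^ L * X ^ (s * L)) * (1 + |t₂|) ^ (4 * L : ℝ) := by
        rw [mul_pow, hE₁, mul_pow, Real.rpow_mul (by linarith), Real.rpow_natCast,
          Real.rpow_mul (by linarith), Real.rpow_natCast]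
      rw [← h3]
      gcongr
    have hA' : (qs.map fun p => ‖CS (pc h p) k‖).prod ≤
        (E₂ * Real.exp κ * (E₂ ^ r * (Real.exp (3 * r ^ 2) * CJ r y Q₀ J))) * cA := by
      refine hA.trans (mul_le_mul_of_nonneg_right ?_ hcA0)
      have h1 : E₂ ^ J.card ≤ E₂ ^ r := pow_le_pow_right₀ hE2 (by
        have h := Finset.card_le_univ J
        rwa [Fintype.card_fin] at h)
      have h2 := sum_kap_le (r := r) (y := y) hQ₀ J
      gcongr
    have hprod : ‖TB P h τ H d₃ e ps qs k‖ = ‖P.wk τ H k‖ * ‖prin0 d₃ k * sy k e‖ *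
        ((ps.map fun p => ‖CS (pc h p) k‖).prod * (qs.map fun p => ‖CS (pc h p) k‖).prod) := by
      unfold TB
      simp only [norm_mul, RCLike.norm_conj, norm_list_prod, List.map_map]
      rfl
    rw [hprod]
    have hp0 : 0 ≤ (ps.map fun p => ‖CS (pc h p) k‖).prod := List.prod_nonneg fun a ha => by
      obtain ⟨q, _, rfl⟩ := List.mem_map.1 ha
      exact norm_nonneg _
    have hq0 : 0 ≤ (qs.map fun p => ‖CS (pc h p) k‖).prod := List.prod_nonneg fun a ha => by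
      obtain ⟨q, _, rfl⟩ := List.mem_map.1 ha
      exact norm_nonneg _
    calc ‖P.wk τ H k‖ * ‖prin0 d₃ k * sy k e‖ *
        ((ps.map fun p => ‖CS (pc h p) k‖).prod * (qs.map fun p => ‖CS (pc h p) k‖).prod)
        ≤ (nm P.n₃ * BU) * 1 *
          ((((Ca ^ L * X ^ (s * L)) * (1 + |t₂|) ^ (4 * L : ℝ) * (E₂ ^ L * ES)) * cS) *
            ((E₂ * Real.exp κ * (E₂ ^ r * (Real.exp (3 * r ^ 2) * CJ r y Q₀ J))) * cA)) := by
          gcongr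
      _ = _ := by ring
  -- the number of pairs
  set S := (bl K).filter fun k => Bad P k with hSdef
  set V : ℝ := (nm P.n₃ * BU) * (((Ca ^ L * E₂ ^ L) * (E₂ * E₂ ^ r * Real.exp (3 * r ^ 2))) *
        (X ^ (s * L) * (1 + |t₂|) ^ (4 * L : ℝ) * (cS * cA) *
          (ES * (Real.exp κ * CJ r y Q₀ J)))) with hV
  have hV0 : 0 ≤ V := by positivity
  have hsum : ∑ q ∈ 𝒟, ∑ k ∈ (bl K).filter fun k => q ^ 2 ∣ k ∧ Bad P k,
      ‖TB P h τ H d₃ e ps qs k‖ ≤ ∑ k ∈ S, ((𝒟.filter fun q => q ^ 2 ∣ k).card : ℝ) * V := by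
    calc ∑ q ∈ 𝒟, ∑ k ∈ (bl K).filter fun k => q ^ 2 ∣ k ∧ Bad P k, ‖TB P h τ H d₃ e ps qs k‖
        = ∑ q ∈ 𝒟, ∑ k ∈ S, if q ^ 2 ∣ k then ‖TB P h τ H d₃ e ps qs k‖ else 0 := by
          refine Finset.sum_congr rfl fun q _ => ?_
          rw [← Finset.sum_filter, hSdef, Finset.filter_filter]
          refine Finset.sum_congr ?_ fun _ _ => rfl
          ext k
          simp only [Finset.mem_filter]
          tauto
      _ = ∑ k ∈ S, ∑ q ∈ 𝒟, if q ^ 2 ∣ k then ‖TB P h τ H d₃ e ps qs k‖ else 0 := Finset.sum_comm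
      _ ≤ ∑ k ∈ S, ((𝒟.filter fun q => q ^ 2 ∣ k).card : ℝ) * V := by
          refine Finset.sum_le_sum fun k hk => ?_
          rw [← Finset.sum_filter, Finset.sum_const, nsmul_eq_mul]
          exact mul_le_mul_of_nonneg_left (hone k hk) (Nat.cast_nonneg _)
  refine hsum.trans ?_
  rcases lt_or_ge K 1 with hK1 | hK1
  · have hemp : S = ∅ := by
      rw [hSdef, Finset.filter_eq_empty_iff]
      intro k hk
      rw [mem_bl hK.le] at hk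
      have : (1 : ℝ) ≤ nm k := by exact_mod_cast nm_pos.mpr hk.1
      linarith
    rw [hemp, Finset.sum_empty]
    positivity
  have hcount : ∀ k ∈ S, ((𝒟.filter fun q => q ^ 2 ∣ k).card : ℝ) ≤ Cτ * X ^ s := by
    intro k hk
    rw [hSdef, Finset.mem_filter, mem_bl hK.le] at hk
    have h1 : (𝒟.filter fun q => q ^ 2 ∣ k).card ≤ tau k := by
      unfold tau
      refine Finset.card_le_card fun q hq => ?_
      rw [Finset.mem_filter] at hq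
      rw [mem_dvs hk.1.1]
      exact ⟨h𝒟 q hq.1, (dvd_pow_self q two_ne_zero).trans hq.2⟩
    calc ((𝒟.filter fun q => q ^ 2 ∣ k).card : ℝ) ≤ tau k := by exact_mod_cast h1
      _ ≤ Cτ * (nm k : ℝ) ^ s := hτ k hk.1.1
      _ ≤ Cτ * X ^ s := by
          have h2 : (nm k : ℝ) ≤ X := by
            rw [hX]
            calc (nm k : ℝ) ≤ 1 * (1 + K) := by linarith [hk.1.2]
              _ ≤ _ := by gcongr
          gcongr
  have hcard : (S.card : ℝ) ≤ 18 * K ^ (1 / 3 : ℝ) := by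
    have h1 : 1 ≤ ⌊K⌋₊ := by rwa [Nat.one_le_floor_iff]
    have h2 := NatP401.card_principal hP.φ P.l₁ h1 S fun k hk => by
      rw [hSdef, Finset.mem_filter, mem_bl hK.le] at hk
      refine ⟨?_, hk.1.1, hk.2.2⟩
      rw [mem_ball]
      exact Nat.le_floor hk.1.2
    refine h2.trans ?_
    have h3 : (⌊K⌋₊ : ℝ) ≤ K := Nat.floor_le hK.le
    gcongr
  calc ∑ k ∈ S, ((𝒟.filter fun q => q ^ 2 ∣ k).card : ℝ) * V ≤ ∑ _k ∈ S, (Cτ * X ^ s) * V :=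
        Finset.sum_le_sum fun k hk => mul_le_mul_of_nonneg_right (hcount k hk) hV0
    _ = S.card * ((Cτ * X ^ s) * V) := by rw [Finset.sum_const, nsmul_eq_mul]
    _ ≤ (18 * K ^ (1 / 3 : ℝ)) * ((Cτ * X ^ s) * V) := by
        refine mul_le_mul_of_nonneg_right hcard ?_
        positivity
    _ = _ := by
        have e1 : X ^ ε = X ^ s * X ^ (s * L) := by
          rw [← Real.rpow_add (by linarith)]
          congr 1
          rw [hs]
          field_simp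
          ring
        rw [e1, hV]
        ring

open Classical in
/-- the bad `k` are added back, one `q` -/
lemma split_bad (P : DPar) {β : ℝ} (hβ : 0 < β) (hβU : ∀ x, β < x → P.U x = 0)
    {h : ℝ → ℝ} {H : ℝ} (hH : 0 < H) (τ : ℝ) (d₃ e : Eis) (ps qs : List Pc) (q : Eis) :
    ‖∑' k : Eis, if k ≠ 0 ∧ q ^ 2 ∣ k ∧ P.NP2 k then TB P h τ H d₃ e ps qs k else 0‖ ≤
      ‖∑' k : Eis, if k ≠ 0 ∧ q ^ 2 ∣ k ∧ NPm P.n P.ψ P.l₂ k then TB P h τ H d₃ e ps qs k else 0‖ +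
      ∑ k ∈ (bl (β * H)).filter fun k => q ^ 2 ∣ k ∧ Bad P k, ‖TB P h τ H d₃ e ps qs k‖ := by
  have hβH : 0 < β * H := mul_pos hβ hH
  have hz : ∀ k ∉ bl (β * H), k ≠ 0 → TB P h τ H d₃ e ps qs k = 0 := by
    intro k hk hk0
    have h2 : β * H < nm k := by
      by_contra h3
      exact hk ((mem_bl hβH.le).2 ⟨hk0, not_lt.1 h3⟩)
    have h3 : P.U (nm k / H) = 0 := hβU _ (by rwa [lt_div_iff₀ hH])
    unfold TB DPar.wk
    rw [h3]
    simp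
  have e1 : ∑' k : Eis, (if k ≠ 0 ∧ q ^ 2 ∣ k ∧ P.NP2 k then TB P h τ H d₃ e ps qs k else 0) =
      ∑ k ∈ bl (β * H), if q ^ 2 ∣ k ∧ P.NP2 k then TB P h τ H d₃ e ps qs k else 0 := by
    rw [tsum_eq_sum (s := bl (β * H))]
    · refine Finset.sum_congr rfl fun k hk => ?_
      rw [mem_bl hβH.le] at hk
      simp [hk.1]
    · intro k hk
      split_ifs with hc
      · exact hz k hk hc.1
      · rfl
  have e2 : ∑' k : Eis, (if k ≠ 0 ∧ q ^ 2 ∣ k ∧ NPm P.n P.ψ P.l₂ k then TB P h τ H d₃ e ps qs k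
      else 0) = ∑ k ∈ bl (β * H), if q ^ 2 ∣ k ∧ NPm P.n P.ψ P.l₂ k then TB P h τ H d₃ e ps qs k
      else 0 := by
    rw [tsum_eq_sum (s := bl (β * H))]
    · refine Finset.sum_congr rfl fun k hk => ?_
      rw [mem_bl hβH.le] at hk
      simp [hk.1]
    · intro k hk
      split_ifs with hc
      · exact hz k hk hc.1
      · rfl
  have e3 : ∑ k ∈ bl (β * H), (if q ^ 2 ∣ k ∧ P.NP2 k then TB P h τ H d₃ e ps qs k else 0) =
      ∑ k ∈ bl (β * H), (if q ^ 2 ∣ k ∧ NPm P.n P.ψ P.l₂ k then TB P h τ H d₃ e ps qs k else 0) -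
      ∑ k ∈ (bl (β * H)).filter fun k => q ^ 2 ∣ k ∧ Bad P k, TB P h τ H d₃ e ps qs k := by
    rw [Finset.sum_filter, ← Finset.sum_sub_distrib]
    refine Finset.sum_congr rfl fun k _ => ?_
    unfold DPar.NP2 Bad
    by_cases h1 : q ^ 2 ∣ k <;> by_cases h2 : NPm P.n P.ψ P.l₂ k <;>
      by_cases h3 : NPk P.n P.φ P.l₁ k <;> simp [h1, h2, h3]
  rw [e1, e2, e3]
  refine (norm_sub_le _ _).trans ?_
  gcongr
  exact norm_sum_le _ _

open Classical in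
/-- **E5: the bad `k` are added back** -/
theorem add_bad (P : DPar) (hP : P.OK) {h : ℝ → ℝ} {c₀ : ℝ} (hpu : PU h c₀) {ρ : ℝ} (hρ : 0 ≤ ρ)
    (r L : ℕ) {ε : ℝ} (hε : 0 < ε) : ∃ C : ℝ, 0 ≤ C ∧
    ∀ (Q₀ κ y : ℝ), 0 < Q₀ → ∀ (J : Finset (Fin r)) (H : ℝ), 0 < H →
    ∀ (d₁ d₂ d₃ e : Eis), d₂ ≠ 0 → IsPrim e → ∀ (t₁ t₂ τ : ℝ) (𝒟 : Finset Eis),
      (∀ q ∈ 𝒟, IsPrim q) →
    ∀ j : ℕ, j ≤ L → ∀ (c : Fin (j - 1) ⊕ Fin j → ℕ) (ps qs : List Pc),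
      List.Forall₂ (Nr ρ) ps (dsS P d₂ t₂ c) →
      List.Forall₂ (Nr ρ) qs (dsA P r y Q₀ κ J d₁ t₁) →
      ∑ q ∈ 𝒟, ‖∑' k : Eis, if k ≠ 0 ∧ q ^ 2 ∣ k ∧ P.NP2 k then
          P.wk τ H k * (prin0 d₃ k * sy k e) * ((ps.map fun p => CS (pc h p) k).prod *
            conj ((qs.map fun p => CS (pc h p) k).prod)) else 0‖ ≤
        ∑ q ∈ 𝒟, ‖∑' k : Eis, if k ≠ 0 ∧ q ^ 2 ∣ k ∧ NPm P.n P.ψ P.l₂ k then
          P.wk τ H k * (prin0 d₃ k * sy k e) * ((ps.map fun p => CS (pc h p) k).prod *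
            conj ((qs.map fun p => CS (pc h p) k).prod)) else 0‖ +
        C * ((nm d₂ : ℝ) * (1 + H)) ^ ε * (1 + |t₂|) ^ (4 * L : ℝ) *
          (cost 4 ps (dsS P d₂ t₂ c) * cost 4 qs (dsA P r y Q₀ κ J d₁ t₁)) *
          (H ^ (1 / 3 : ℝ) * Real.exp (∑ i, (c (Sum.inr i) : ℝ)) * (Real.exp κ * CJ r y Q₀ J)) := by
  obtain ⟨β, hβ, hβU⟩ := exists_supp hP.U
  obtain ⟨C, hC, hb⟩ := bad_k P hP hpu hρ r L hε
  refine ⟨C * (1 + β) ^ ε * β ^ (1 / 3 : ℝ), by positivity, ?_⟩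
  intro Q₀ κ y hQ₀ J H hH d₁ d₂ d₃ e hd₂ he t₁ t₂ τ 𝒟 h𝒟 j hj c ps qs hps hqs
  have hβH : 0 < β * H := mul_pos hβ hH
  have h1 := hb Q₀ κ y (β * H) hQ₀ hβH J H d₁ d₂ d₃ e hd₂ he t₁ t₂ τ 𝒟 h𝒟 j hj c ps qs hps hqs
  have h2 : ∑ q ∈ 𝒟, ‖∑' k : Eis, if k ≠ 0 ∧ q ^ 2 ∣ k ∧ P.NP2 k then
      TB P h τ H d₃ e ps qs k else 0‖ ≤
      ∑ q ∈ 𝒟, ‖∑' k : Eis, if k ≠ 0 ∧ q ^ 2 ∣ k ∧ NPm P.n P.ψ P.l₂ k then
        TB P h τ H d₃ e ps qs k else 0‖ +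
      ∑ q ∈ 𝒟, ∑ k ∈ (bl (β * H)).filter fun k => q ^ 2 ∣ k ∧ Bad P k,
        ‖TB P h τ H d₃ e ps qs k‖ := by
    rw [← Finset.sum_add_distrib]
    exact Finset.sum_le_sum fun q _ => split_bad P hβ hβU hH τ d₃ e ps qs q
  refine h2.trans ?_
  refine add_le_add le_rfl (h1.trans ?_)
  have hcS0 : 0 ≤ cost 4 ps (dsS P d₂ t₂ c) := cost_nonneg _ _ _
  have hcA0 : 0 ≤ cost 4 qs (dsA P r y Q₀ κ J d₁ t₁) := cost_nonneg _ _ _
  have hCJ : 0 < CJ r y Q₀ J := by unfold CJ; positivity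
  have ht : 0 ≤ 1 + |t₂| := by positivity
  have e1 : ((nm d₂ : ℝ) * (1 + β * H)) ^ ε ≤ (1 + β) ^ ε * ((nm d₂ : ℝ) * (1 + H)) ^ ε := by
    rw [← Real.mul_rpow (by positivity) (by positivity)]
    refine Real.rpow_le_rpow (by positivity) ?_ hε.le
    have : 1 + β * H ≤ (1 + β) * (1 + H) := by nlinarith
    calc (nm d₂ : ℝ) * (1 + β * H) ≤ nm d₂ * ((1 + β) * (1 + H)) := by gcongr
      _ = _ := by ring
  have e2 : (β * H) ^ (1 / 3 : ℝ) = β ^ (1 / 3 : ℝ) * H ^ (1 / 3 : ℝ) :=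
    Real.mul_rpow hβ.le hH.le
  rw [e2]
  calc C * ((nm d₂ : ℝ) * (1 + β * H)) ^ ε * (1 + |t₂|) ^ (4 * L : ℝ) *
        (cost 4 ps (dsS P d₂ t₂ c) * cost 4 qs (dsA P r y Q₀ κ J d₁ t₁)) *
        (β ^ (1 / 3 : ℝ) * H ^ (1 / 3 : ℝ) * Real.exp (∑ i, (c (Sum.inr i) : ℝ)) *
          (Real.exp κ * CJ r y Q₀ J))
      ≤ C * ((1 + β) ^ ε * ((nm d₂ : ℝ) * (1 + H)) ^ ε) * (1 + |t₂|) ^ (4 * L : ℝ) *
        (cost 4 ps (dsS P d₂ t₂ c) * cost 4 qs (dsA P r y Q₀ κ J d₁ t₁)) *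
        (β ^ (1 / 3 : ℝ) * H ^ (1 / 3 : ℝ) * Real.exp (∑ i, (c (Sum.inr i) : ℝ)) *
          (Real.exp κ * CJ r y Q₀ J)) := by gcongr
    _ = _ := by ring

open Classical in
/-- **E5, class N: the sum over all `k`** -/
theorem add_bad_N (P : DPar) (hP : P.OK) (hN : ∀ k, k ≠ 0 → NPm P.n P.ψ P.l₂ k) {h : ℝ → ℝ}
    {c₀ : ℝ} (hpu : PU h c₀) {ρ : ℝ} (hρ : 0 ≤ ρ) (r L : ℕ) {ε : ℝ} (hε : 0 < ε) :
    ∃ C : ℝ, 0 ≤ C ∧
    ∀ (Q₀ κ y : ℝ), 0 < Q₀ → ∀ (J : Finset (Fin r)) (H : ℝ), 0 < H →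
    ∀ (d₁ d₂ d₃ e : Eis), d₂ ≠ 0 → IsPrim e → ∀ (t₁ t₂ τ : ℝ) (𝒟 : Finset Eis),
      (∀ q ∈ 𝒟, IsPrim q) →
    ∀ j : ℕ, j ≤ L → ∀ (c : Fin (j - 1) ⊕ Fin j → ℕ) (ps qs : List Pc),
      List.Forall₂ (Nr ρ) ps (dsS P d₂ t₂ c) →
      List.Forall₂ (Nr ρ) qs (dsA P r y Q₀ κ J d₁ t₁) →
      ∑ q ∈ 𝒟, ‖∑' k : Eis, if k ≠ 0 ∧ q ^ 2 ∣ k ∧ P.NP2 k then
          P.wk τ H k * (prin0 d₃ k * sy k e) * ((ps.map fun p => CS (pc h p) k).prod *
            conj ((qs.map fun p => CS (pc h p) k).prod)) else 0‖ ≤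
        ∑ q ∈ 𝒟, ‖∑' k : Eis, if k ≠ 0 ∧ q ^ 2 ∣ k then
          P.wk τ H k * (prin0 d₃ k * sy k e) * ((ps.map fun p => CS (pc h p) k).prod *
            conj ((qs.map fun p => CS (pc h p) k).prod)) else 0‖ +
        C * ((nm d₂ : ℝ) * (1 + H)) ^ ε * (1 + |t₂|) ^ (4 * L : ℝ) *
          (cost 4 ps (dsS P d₂ t₂ c) * cost 4 qs (dsA P r y Q₀ κ J d₁ t₁)) *
          (H ^ (1 / 3 : ℝ) * Real.exp (∑ i, (c (Sum.inr i) : ℝ)) * (Real.exp κ * CJ r y Q₀ J)) := by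
  obtain ⟨C, hC, h1⟩ := add_bad P hP hpu hρ r L hε
  refine ⟨C, hC, ?_⟩
  intro Q₀ κ y hQ₀ J H hH d₁ d₂ d₃ e hd₂ he t₁ t₂ τ 𝒟 h𝒟 j hj c ps qs hps hqs
  refine (h1 Q₀ κ y hQ₀ J H hH d₁ d₂ d₃ e hd₂ he t₁ t₂ τ 𝒟 h𝒟 j hj c ps qs hps hqs).trans
    (le_of_eq ?_)
  congr 1
  refine Finset.sum_congr rfl fun q _ => ?_
  congr 1
  refine tsum_congr fun k => ?_
  by_cases hk : k ≠ 0
  · simp [hk, hN k hk]
  · simp [hk]

end Crest.Agent.R017.BadK271
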