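import Crest.Agent.R017.E5k_54

/-!
# Row 17, R8 / P1: the structured function with small powerful parts (helper828)

* `PTb ι Y B₀` : powerful tuples with `N(∏ β) ≤ B₀`
* `SSb` : the structured function over `PTb` (helper957's filter)
* `prod_subb` : the error, with the coefficient `c` only for `β ∈ PTb`
-/

set_option autoImplicit false

noncomputable section

open Finset
open scoped ComplexConjugate

namespace Crest.Agent.R017.SSb828

open Crest.Agent.R012 Crest.Agent.R012.Eis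
open Crest.Agent.R012.LS2 (S)
open Crest.Agent.R017.CM106 (CS)
open Crest.Agent.R017.E2440 (TE StE)
open Crest.Agent.R017.E5k54 (PT alb SS)

variable {ι : Type*} [Fintype ι]

/-- the powerful tuples of norm `≤ B₀` -/
def PTb (ι : Type*) [Fintype ι] (Y : ℕ) (B₀ : ℝ) : Finset (ι → Eis) := by
  classical
  exact (PT ι Y).filter (fun β => (nm (∏ i, β i) : ℝ) ≤ B₀)

lemma mem_PTb {Y : ℕ} {B₀ : ℝ} {β : ι → Eis} :
    β ∈ PTb ι Y B₀ ↔ β ∈ PT ι Y ∧ (nm (∏ i, β i) : ℝ) ≤ B₀ := by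
  classical
  unfold PTb
  rw [mem_filter]

lemma PTb_sub (Y : ℕ) (B₀ : ℝ) : PTb ι Y B₀ ⊆ PT ι Y := fun _ h => (mem_PTb.1 h).1

/-- **the structured function of the natural product `∏ CS (f i)`, small powerful parts** -/
def SSb (f : ι → Eis → ℂ) (Y : ℕ) (B₀ E0 : ℝ) (J : Finset (Eis × Eis)) (om : Eis × Eis → ℂ)
    (k : Eis) : ℂ :=
  ∑ β ∈ PTb ι Y B₀, sy k (∏ i, β i) * StE E0 J om (alb f β) k

open Classical in
/-- the coefficient -/
def cb (c : ℂ) (B₀ : ℝ) (β : ι → Eis) : ℂ := if (nm (∏ i, β i) : ℝ) ≤ B₀ then c else 0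

lemma cb_of_le {c : ℂ} {B₀ : ℝ} {β : ι → Eis} (h : (nm (∏ i, β i) : ℝ) ≤ B₀) : cb c B₀ β = c :=
  if_pos h

lemma cb_of_lt {c : ℂ} {B₀ : ℝ} {β : ι → Eis} (h : B₀ < (nm (∏ i, β i) : ℝ)) : cb c B₀ β = 0 :=
  if_neg (not_le.2 h)

lemma norm_cb_le (c : ℂ) (B₀ : ℝ) (β : ι → Eis) : ‖cb c B₀ β‖ ≤ ‖c‖ := by
  unfold cb
  split_ifs
  · exact le_rfl
  · simp

/-- **the error** -/
theorem prod_subb {f : ι → Eis → ℂ} {Y : ℕ} (hf : ∀ i m, f i m ≠ 0 → IsPrim m ∧ nm m ≤ Y)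
    (c : ℂ) (B₀ E0 : ℝ) (J : Finset (Eis × Eis)) (om : Eis × Eis → ℂ) (k : Eis) :
    ∏ i, CS (f i) k - c * SSb f Y B₀ E0 J om k =
      ∑ β ∈ PT ι Y, sy k (∏ i, β i) * (CS (alb f β) k - cb c B₀ β * StE E0 J om (alb f β) k) := by
  classical
  have h1 := E5k54.prod_sub hf 0 E0 J om k
  rw [zero_mul, sub_zero] at h1
  rw [h1]
  unfold SSb PTb
  rw [Finset.mul_sum, sum_filter, ← Finset.sum_sub_distrib]
  refine Finset.sum_congr rfl fun β _ => ?_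
  unfold cb
  split_ifs
  · ring
  · ring

/-- a bound for every `β` -/
theorem norm_SSb_le {f : ι → Eis → ℂ} (Y : ℕ) (B₀ E0 : ℝ) (J : Finset (Eis × Eis))
    (om : Eis × Eis → ℂ) (k : Eis) :
    ‖SSb f Y B₀ E0 J om k‖ ≤ ∑ β ∈ PT ι Y, ‖sy k (∏ i, β i) * StE E0 J om (alb f β) k‖ := by
  unfold SSb
  refine (norm_sum_le _ _).trans ?_
  exact sum_le_sum_of_subset_of_nonneg (PTb_sub Y B₀) fun _ _ _ => norm_nonneg _

/-- linear in the weight -/
theorem SSb_sum {f : ι → Eis → ℂ} (Y : ℕ) (B₀ E0 : ℝ) (J : Finset (Eis × Eis)) {τ : Type*}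
    (T : Finset τ) (om : τ → Eis × Eis → ℂ) (k : Eis) :
    SSb f Y B₀ E0 J (fun x => ∑ t ∈ T, om t x) k = ∑ t ∈ T, SSb f Y B₀ E0 J (om t) k := by
  classical
  unfold SSb
  rw [sum_comm]
  refine sum_congr rfl fun β _ => ?_
  rw [← mul_sum]
  congr 1
  unfold StE
  rw [sum_comm]
  refine sum_congr rfl fun x _ => ?_
  rw [sum_mul]

end Crest.Agent.R017.SSb828
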