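import Crest.Agent.R017.HBIb_146
import Crest.Agent.R012.PSer_47
import Crest.Agent.R012.Mob_705

/-!
# Row 17, leaf HBI (helper146), part c: the Heath-Brown majorant on primary elements

* `cutC` : the smooth cut-off (`1` on `x ≤ 1`, `0` on `x ≥ 2`), `wd x = cutC x - cutC (2x)` the
  dyadic weight, supported in `[1/2, 2]`, `∑_k wd (x/2^k) = 1` for `x ≥ 1`.
* `PN ψ k t = ∑_b ψ(b) wd(N b/2^k) N(b)^{it}`,
  `MN ψ z l t = ∑_b μ(b) ψ(b) cutC(N b/z) wd(N b/2^l) N(b)^{it}`
* `hbi` : pointwise majorant of `∑_b μ(b) ψ(b) v(log(N b/Q))`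
* `hbi_sum` : weighted mean over a family of characters.
-/

set_option autoImplicit false

noncomputable section

open Finset MeasureTheory Complex Crest.Agent.R012.Weight600
open scoped ContDiff

namespace Crest.Agent.R017.HBI146

open Crest.Agent.R012 Crest.Agent.R012.Eis Crest.Agent.R012.PSer47

/-! ### The smooth cut-off -/

/-- `1` for `x ≤ 1`, `0` for `x ≥ 2`, smooth, values in `[0,1]` -/
def cutR (x : ℝ) : ℝ := 1 - Real.smoothTransition (x - 1)

/-- complex version -/
def cutC (x : ℝ) : ℂ := (cutR x : ℂ)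

/-- dyadic weight -/
def wd (x : ℝ) : ℂ := dw cutC x

lemma cutR_nonneg (x : ℝ) : 0 ≤ cutR x := by
  have := Real.smoothTransition.le_one (x - 1)
  unfold cutR; linarith

lemma cutR_le_one (x : ℝ) : cutR x ≤ 1 := by
  have := Real.smoothTransition.nonneg (x - 1)
  unfold cutR; linarith

lemma cut_cutC : Cut cutC where
  one x hx := by
    unfold cutC cutR
    rw [Real.smoothTransition.zero_of_nonpos (by linarith)]; simp
  zero x hx := by
    unfold cutC cutR
    rw [Real.smoothTransition.one_of_one_le (by linarith)]; simp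

lemma contDiff_cutR : ContDiff ℝ ∞ cutR :=
  contDiff_const.sub (Real.smoothTransition.contDiff.comp (contDiff_id.sub contDiff_const))

lemma contDiff_cutC : ContDiff ℝ ∞ cutC :=
  Complex.ofRealCLM.contDiff.comp contDiff_cutR

lemma contDiff_wd : ContDiff ℝ ∞ wd := by
  have h : wd = fun x => cutC x - cutC (2 * x) := by ext x; rfl
  rw [h]
  exact contDiff_cutC.sub (contDiff_cutC.comp (contDiff_const.mul contDiff_id))

lemma wd_zero_of_le {x : ℝ} (hx : x ≤ 1 / 2) : wd x = 0 := cut_cutC.dw_small hx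

lemma wd_zero_of_ge {x : ℝ} (hx : 2 ≤ x) : wd x = 0 := cut_cutC.dw_large hx

lemma norm_wd_le (x : ℝ) : ‖wd x‖ ≤ 1 := by
  have h : wd x = ((cutR x - cutR (2 * x) : ℝ) : ℂ) := by
    unfold wd dw cutC; push_cast; rfl
  rw [h, Complex.norm_real, Real.norm_eq_abs, abs_le]
  have h1 := cutR_nonneg x
  have h2 := cutR_le_one x
  have h3 := cutR_nonneg (2 * x)
  have h4 := cutR_le_one (2 * x)
  constructor <;> linarith

/-- the dyadic weight in the logarithmic variable -/
lemma contDiff_wd_exp : ContDiff ℝ ∞ (fun u : ℝ => wd (Real.exp u)) :=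
  contDiff_wd.comp Real.contDiff_exp

lemma hasCompactSupport_wd_exp : HasCompactSupport (fun u : ℝ => wd (Real.exp u)) := by
  apply HasCompactSupport.intro (isCompact_Icc (a := -Real.log 2) (b := Real.log 2))
  intro u hu
  rw [Set.mem_Icc, not_and_or] at hu
  rcases hu with hu | hu
  · push Not at hu
    apply wd_zero_of_le
    have : Real.exp u ≤ Real.exp (-Real.log 2) := Real.exp_le_exp.mpr hu.le
    rw [Real.exp_neg, Real.exp_log (by norm_num)] at this
    linarith
  · push Not at hu
    apply wd_zero_of_ge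
    have : Real.exp (Real.log 2) ≤ Real.exp u := Real.exp_le_exp.mpr hu.le
    rwa [Real.exp_log (by norm_num)] at this

/-! ### Pushed arithmetic functions -/

/-- arithmetic function attached to a function on primary elements -/
def pf (f : Eis → ℂ) : ArithmeticFunction ℂ := ⟨push f, push_zero f⟩

lemma pf_apply (f : Eis → ℂ) (n : ℕ) : pf f n = push f n := rfl

lemma sum_padiv_mu {b : Eis} (hb : IsPrim b) :
    ∑ p ∈ padiv b, (muE p.1 : ℂ) = if b = 1 then 1 else 0 := by
  have h1 := sum_padiv hb (fun c => (muE c : ℝ))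
  have h2 : ∑ c ∈ pdiv b, (muE c : ℝ) = if b = 1 then 1 else 0 := by
    have h3 := Mob705.sum_dvs_muE_one hb
    have h4 : pdiv b = Div277.dvs b := rfl
    rw [h4]
    have h5 := congrArg (Int.cast : ℤ → ℝ) h3
    push_cast at h5
    rw [h5]
  rw [h2] at h1
  have h6 := congrArg (Complex.ofReal) h1
  push_cast at h6
  rw [h6]
  split_ifs <;> simp

open scoped LSeries.notation in
/-- `ψ * (μ ψ) = 1` -/
theorem pf_mul_mu {ψ : Eis → ℂ} (h : IsChar ψ) :
    pf ψ * pf (fun b => (muE b : ℂ) * ψ b) = 1 := by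
  rw [mul_comm]
  ext n
  rcases Nat.eq_zero_or_pos n with rfl | hn
  · simp
  have hn' : n ≠ 0 := hn.ne'
  have e0 : (pf (fun b => (muE b : ℂ) * ψ b) * pf ψ) n =
      ((push fun b => (muE b : ℂ) * ψ b) ⍟ push ψ) n := by
    rw [← ArithmeticFunction.coe_mul]; rfl
  rw [e0, push_conv _ _ hn']
  have e1 : push (fun b => ∑ p ∈ padiv b, (muE p.1 : ℂ) * ψ p.1 * ψ p.2) n =
      push (fun b => if b = 1 then 1 else 0) n := by
    unfold push
    apply Finset.sum_congr rfl
    intro b hb
    have hbp := (mem_fib.mp hb).2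
    have e2 : ∑ p ∈ padiv b, (muE p.1 : ℂ) * ψ p.1 * ψ p.2 =
        ∑ p ∈ padiv b, (muE p.1 : ℂ) * ψ b := by
      apply Finset.sum_congr rfl
      intro p hp
      rw [mem_padiv] at hp
      rw [← hp.1, h.mul _ _ hp.2.1 hp.2.2]; ring
    beta_reduce
    rw [e2, ← Finset.sum_mul, sum_padiv_mu hbp]
    split_ifs with h1
    · rw [h1, h.one, one_mul]
    · rw [zero_mul]
  rw [e1]
  unfold push
  by_cases hn1 : n = 1
  · subst hn1
    rw [fib_one]; simp
  · rw [ArithmeticFunction.one_apply_ne hn1]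
    apply Finset.sum_eq_zero
    intro b hb
    have := (mem_fib.mp hb).1
    rw [if_neg]
    rintro rfl
    rw [nm_one] at this
    exact hn1 this.symm

/-- sums of pushed functions against a function of the norm -/
lemma sum_push_mul (f : Eis → ℂ) (g : ℕ → ℂ) (N : ℕ) :
    ∑ n ∈ Finset.Icc 1 N, push f n * g n = ∑ b ∈ primBall N, f b * g (nm b) := by
  rw [← sum_push]
  apply Finset.sum_congr rfl
  intro n _
  unfold push
  rw [Finset.sum_mul]
  apply Finset.sum_congr rfl
  intro b hb
  have := (mem_fib.mp hb).1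
  subst this
  rfl

/-! ### The pieces -/

/-- smooth piece of length `2^k` at height `t` -/
def PN (ψ : Eis → ℂ) (k : ℕ) (t : ℝ) : ℂ :=
  ∑ b ∈ primBall (2 ^ (k + 1)), ψ b * (wd ((nm b : ℝ) / 2 ^ k) * pw t (nm b))

/-- Möbius piece of length `2^l`, smoothly cut at `z`, at height `t` -/
def MN (ψ : Eis → ℂ) (z l : ℕ) (t : ℝ) : ℂ :=
  ∑ b ∈ primBall (2 ^ (l + 1)), (muE b : ℂ) * ψ b * (cutC ((nm b : ℝ) / z) *
    (wd ((nm b : ℝ) / 2 ^ l) * pw t (nm b)))

lemma DP_pc_pf (f : Eis → ℂ) (W : ℕ → ℂ) (k : ℕ) (t : ℝ) :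
    DP (pc cutC (tr (pf f) W) k) t =
      ∑ b ∈ primBall (2 ^ (k + 1)), f b * (W (nm b) * (wd ((nm b : ℝ) / 2 ^ k) * pw t (nm b))) := by
  have hB : ∀ n, 2 ^ (k + 1) < n → pc cutC (tr (pf f) W) k n = 0 := by
    intro n hn
    rw [pc_apply]
    have : dw cutC ((n : ℝ) / 2 ^ k) = 0 := by
      apply cut_cutC.dw_large
      rw [le_div_iff₀ (by positivity)]
      have h : ((2 ^ (k + 1) : ℕ) : ℝ) < n := by exact_mod_cast hn
      push_cast [pow_succ] at h
      linarith
    rw [this, mul_zero]
  rw [DP_eq hB, ← sum_push_mul f (fun n => W n * (wd ((n : ℝ) / 2 ^ k) * pw t n))]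
  have h0 : Finset.range (2 ^ (k + 1) + 1) = insert 0 (Finset.Icc 1 (2 ^ (k + 1))) := by
    ext n
    have := Nat.one_le_two_pow (n := k + 1)
    simp only [Finset.mem_range, Finset.mem_insert, Finset.mem_Icc]
    omega
  rw [h0, Finset.sum_insert (by simp)]
  rw [ArithmeticFunction.map_zero, zero_mul, zero_add]
  apply Finset.sum_congr rfl
  intro n _
  rw [pc_apply, tr_apply, pf_apply]
  unfold wd
  ring

lemma tr_one (f : ArithmeticFunction ℂ) : tr f (fun _ => 1) = f := by
  ext n; simp

lemma DP_pc_PN (ψ : Eis → ℂ) (k : ℕ) (t : ℝ) : DP (pc cutC (pf ψ) k) t = PN ψ k t := by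
  have h := DP_pc_pf ψ (fun _ => 1) k t
  rw [tr_one] at h
  rw [h]
  unfold PN
  simp

lemma DP_pc_MN (ψ : Eis → ℂ) (z l : ℕ) (t : ℝ) :
    DP (pc cutC (tr (pf (fun b => (muE b : ℂ) * ψ b)) (fun n => cutC ((n : ℝ) / z))) l) t =
      MN ψ z l t := by
  rw [DP_pc_pf]; rfl

open Classical in
/-- **HBI** on primary elements.  `v` smooth, supported in `[α, β]` (logarithmic variable). -/
theorem hbi {v : ℝ → ℂ} (h1 : ContDiff ℝ ∞ v) (h2 : HasCompactSupport v) {α β : ℝ}
    (hv : ∀ u, v u ≠ 0 → α ≤ u ∧ u ≤ β) {Q : ℝ} (hQ : 0 < Q) {r L z B : ℕ} (hz : 1 ≤ z)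
    (hr : Q * Real.exp β < ((z + 1) ^ r : ℕ)) (hL : Q * Real.exp β ≤ 2 ^ L)
    (hB : Q * Real.exp β ≤ B) {ψ : Eis → ℂ} (hψ : IsChar ψ) :
    ‖∑ b ∈ primBall B, (muE b : ℂ) * ψ b * v (Real.log (nm b / Q))‖ ≤
      ∑ j ∈ Finset.range r, (r.choose (j + 1) : ℝ) *
      ∑ k ∈ Fintype.piFinset (fun _ : Fin j => Finset.range (L + 1)),
      ∑ l ∈ Fintype.piFinset (fun _ : Fin (j + 1) => Finset.range (L + 1)),
        if Compat (Q * Real.exp α) (Q * Real.exp β) (2 * z) j k l then
          ∫ t, ‖ker v t‖ * ((∏ i, ‖PN ψ (k i) t‖) * ∏ i, ‖MN ψ z (l i) t‖)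
        else 0 := by
  have hW : ∀ n ≤ z, (fun n : ℕ => cutC ((n : ℝ) / z)) n = 1 := by
    intro n hn
    apply cut_cutC.one
    rw [div_le_one (by exact_mod_cast hz)]
    exact_mod_cast hn
  have hWZ : ∀ n, 2 * z < n → (fun n : ℕ => cutC ((n : ℝ) / z)) n = 0 := by
    intro n hn
    apply cut_cutC.zero
    rw [le_div_iff₀ (by exact_mod_cast hz)]
    exact_mod_cast hn.le
  have h := HBI (pf_mul_mu hψ) hW hWZ cut_cutC h1 h2 hv hQ hr hL
  simp_rw [DP_pc_PN, DP_pc_MN] at h
  refine le_trans (le_of_eq ?_) h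
  congr 1
  rw [← sum_push_mul (fun b => (muE b : ℂ) * ψ b) (fun n => v (Real.log (n / Q)))]
  symm
  apply tsum_eq_sum
  intro n hn
  rw [Finset.mem_Icc] at hn
  rcases Nat.eq_zero_or_pos n with rfl | hpos
  · simp
  · by_cases h3 : v (Real.log (n / Q)) = 0
    · rw [h3, mul_zero]
    · exfalso
      apply hn
      refine ⟨hpos, ?_⟩
      have hn' : (0 : ℝ) < n := by exact_mod_cast hpos
      obtain ⟨_, h4⟩ := hv _ h3
      have h5 : Real.exp (Real.log (n / Q)) = n / Q := Real.exp_log (by positivity)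
      have h6 := Real.exp_le_exp.mpr h4
      rw [h5, div_le_iff₀ hQ] at h6
      have h7 : (n : ℝ) ≤ B := by linarith
      exact_mod_cast h7

/-! ### Continuity of the pieces and the mean over a family -/

lemma continuous_PN (ψ : Eis → ℂ) (k : ℕ) : Continuous (PN ψ k) := by
  unfold PN
  exact continuous_finsetSum _ fun b _ => continuous_const.mul
    (continuous_const.mul (continuous_pw_left _))

lemma continuous_MN (ψ : Eis → ℂ) (z l : ℕ) : Continuous (MN ψ z l) := by
  unfold MN
  exact continuous_finsetSum _ fun b _ => continuous_const.mul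
    (continuous_const.mul (continuous_const.mul (continuous_pw_left _)))

lemma norm_PN_le (ψ : Eis → ℂ) (k : ℕ) (t : ℝ) :
    ‖PN ψ k t‖ ≤ ∑ b ∈ primBall (2 ^ (k + 1)), ‖ψ b‖ := by
  unfold PN
  refine (norm_sum_le _ _).trans (Finset.sum_le_sum fun b _ => ?_)
  rw [norm_mul, norm_mul, norm_pw, mul_one]
  exact mul_le_of_le_one_right (norm_nonneg _) (norm_wd_le _)

open Classical in
/-- **HBI, mean version.**  `c h ≥ 0`; if for all compatible tuples and all `t`
`∑_h c_h ∏|PN| ∏|MN| ≤ G (1+|t|)^A` then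
`∑_h c_h |M_h| ≤ 2^r (∫ |ker v| (1+|t|)^A) (L+1)^(2r-1) G`. -/
theorem hbi_sum {v : ℝ → ℂ} (h1 : ContDiff ℝ ∞ v) (h2 : HasCompactSupport v) {α β : ℝ}
    (hv : ∀ u, v u ≠ 0 → α ≤ u ∧ u ≤ β) {Q : ℝ} (hQ : 0 < Q) {r L z B : ℕ} (hz : 1 ≤ z)
    (hr : Q * Real.exp β < ((z + 1) ^ r : ℕ)) (hL : Q * Real.exp β ≤ 2 ^ L)
    (hB : Q * Real.exp β ≤ B) {ι : Type*} (S : Finset ι) (c : ι → ℝ) (hc : ∀ i ∈ S, 0 ≤ c i)
    (ψ : ι → Eis → ℂ) (hψ : ∀ i ∈ S, IsChar (ψ i)) (A : ℕ) {G : ℝ} (hG0 : 0 ≤ G)
    (hG : ∀ j < r, ∀ (k : Fin j → ℕ) (l : Fin (j + 1) → ℕ), (∀ i, k i ≤ L) → (∀ i, l i ≤ L) →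
      Compat (Q * Real.exp α) (Q * Real.exp β) (2 * z) j k l → ∀ t : ℝ,
      ∑ h ∈ S, c h * ((∏ i, ‖PN (ψ h) (k i) t‖) * ∏ i, ‖MN (ψ h) z (l i) t‖) ≤
        G * (1 + |t|) ^ A) :
    ∑ h ∈ S, c h * ‖∑ b ∈ primBall B, (muE b : ℂ) * ψ h b * v (Real.log (nm b / Q))‖ ≤
      2 ^ r * (∫ t, ‖ker v t‖ * (1 + |t|) ^ A) * (L + 1 : ℝ) ^ (2 * r) * G := by
  -- integrability of the kernel against powers
  have hint : Integrable (fun t : ℝ => ‖ker v t‖ * (1 + |t|) ^ A) := by
    obtain ⟨C, hC, hd⟩ := ker_decay h1 h2 (A + 2)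
    have hk : Continuous (ker v) :=
      continuous_ker (h1.continuous.integrable_of_hasCompactSupport h2)
    have hi2 : Integrable (fun t : ℝ => C * (1 + t ^ 2)⁻¹) :=
      integrable_inv_one_add_sq.const_mul C
    refine hi2.mono' ?_ ?_
    · exact ((hk.norm).mul ((continuous_const.add continuous_abs).pow A)).aestronglyMeasurable
    · refine Filter.Eventually.of_forall fun t => ?_
      have h0 : (0 : ℝ) ≤ 1 + |t| := by positivity
      rw [Real.norm_of_nonneg (by positivity)]
      have h3 := hd t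
      have h4 : (0 : ℝ) < 1 + t ^ 2 := by positivity
      rw [← div_eq_mul_inv, le_div_iff₀ h4]
      refine le_trans ?_ h3
      have h5 : 1 + t ^ 2 ≤ (1 + |t|) ^ 2 := by
        rw [add_sq, sq_abs]; nlinarith [abs_nonneg t]
      calc ‖ker v t‖ * (1 + |t|) ^ A * (1 + t ^ 2)
          ≤ ‖ker v t‖ * (1 + |t|) ^ A * (1 + |t|) ^ 2 := by gcongr
        _ = ‖ker v t‖ * (1 + |t|) ^ (A + 2) := by rw [pow_add]; ring
  set J : ℝ := ∫ t, ‖ker v t‖ * (1 + |t|) ^ A with hJ
  have hJ0 : 0 ≤ J := integral_nonneg fun t => by positivity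
  -- sum the pointwise bound
  have hstep : ∑ h ∈ S, c h * ‖∑ b ∈ primBall B, (muE b : ℂ) * ψ h b *
        v (Real.log (nm b / Q))‖ ≤
      ∑ j ∈ Finset.range r, (r.choose (j + 1) : ℝ) *
      ∑ k ∈ Fintype.piFinset (fun _ : Fin j => Finset.range (L + 1)),
      ∑ l ∈ Fintype.piFinset (fun _ : Fin (j + 1) => Finset.range (L + 1)),
        if Compat (Q * Real.exp α) (Q * Real.exp β) (2 * z) j k l then J * G else 0 := by
    calc _ ≤ ∑ h ∈ S, c h * (∑ j ∈ Finset.range r, (r.choose (j + 1) : ℝ) *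
      ∑ k ∈ Fintype.piFinset (fun _ : Fin j => Finset.range (L + 1)),
      ∑ l ∈ Fintype.piFinset (fun _ : Fin (j + 1) => Finset.range (L + 1)),
        if Compat (Q * Real.exp α) (Q * Real.exp β) (2 * z) j k l then
          ∫ t, ‖ker v t‖ * ((∏ i, ‖PN (ψ h) (k i) t‖) * ∏ i, ‖MN (ψ h) z (l i) t‖)
        else 0) := by
          apply Finset.sum_le_sum
          intro h hh
          exact mul_le_mul_of_nonneg_left (hbi h1 h2 hv hQ hz hr hL hB (hψ h hh)) (hc h hh)
      _ = ∑ j ∈ Finset.range r, (r.choose (j + 1) : ℝ) *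
      ∑ k ∈ Fintype.piFinset (fun _ : Fin j => Finset.range (L + 1)),
      ∑ l ∈ Fintype.piFinset (fun _ : Fin (j + 1) => Finset.range (L + 1)),
        ∑ h ∈ S, c h * (if Compat (Q * Real.exp α) (Q * Real.exp β) (2 * z) j k l then
          ∫ t, ‖ker v t‖ * ((∏ i, ‖PN (ψ h) (k i) t‖) * ∏ i, ‖MN (ψ h) z (l i) t‖)
        else 0) := by
          simp only [Finset.mul_sum]
          rw [Finset.sum_comm]
          apply Finset.sum_congr rfl
          intro j _
          rw [Finset.sum_comm]
          apply Finset.sum_congr rfl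
          intro k _
          rw [Finset.sum_comm]
          apply Finset.sum_congr rfl
          intro l _
          apply Finset.sum_congr rfl
          intro h _
          ring
      _ ≤ _ := by
          apply Finset.sum_le_sum
          intro j hj
          rw [Finset.mem_range] at hj
          apply mul_le_mul_of_nonneg_left _ (Nat.cast_nonneg _)
          apply Finset.sum_le_sum
          intro k hk
          apply Finset.sum_le_sum
          intro l hl
          rw [Fintype.mem_piFinset] at hk hl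
          by_cases hcomp : Compat (Q * Real.exp α) (Q * Real.exp β) (2 * z) j k l
          · simp only [if_pos hcomp]
            have hk' : ∀ i, k i ≤ L := fun i => by
              have := hk i; rw [Finset.mem_range] at this; omega
            have hl' : ∀ i, l i ≤ L := fun i => by
              have := hl i; rw [Finset.mem_range] at this; omega
            have hc1 : ∀ h ∈ S, Integrable (fun t => ‖ker v t‖ *
                ((∏ i, ‖PN (ψ h) (k i) t‖) * ∏ i, ‖MN (ψ h) z (l i) t‖)) := by
              intro h _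
              have hcont : Continuous (fun t => (∏ i, ‖PN (ψ h) (k i) t‖) *
                  ∏ i, ‖MN (ψ h) z (l i) t‖) :=
                (continuous_finsetProd _ fun i _ => (continuous_PN _ _).norm).mul
                  (continuous_finsetProd _ fun i _ => (continuous_MN _ _ _).norm)
              obtain ⟨K, hK⟩ : ∃ K : ℝ, ∀ t, ‖(∏ i, ‖PN (ψ h) (k i) t‖) *
                  ∏ i, ‖MN (ψ h) z (l i) t‖‖ ≤ K := by
                refine ⟨(∏ i, ∑ b ∈ primBall (2 ^ (k i + 1)), ‖ψ h b‖) *
                  ∏ i, ∑ b ∈ primBall (2 ^ (l i + 1)), ‖(muE b : ℂ) * ψ h b *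
                    (cutC ((nm b : ℝ) / z) * wd ((nm b : ℝ) / 2 ^ (l i)))‖, fun t => ?_⟩
                rw [norm_mul, norm_prod, norm_prod]
                simp only [norm_norm]
                apply mul_le_mul
                · exact Finset.prod_le_prod (fun i _ => norm_nonneg _)
                    (fun i _ => norm_PN_le _ _ _)
                · apply Finset.prod_le_prod (fun i _ => norm_nonneg _)
                  intro i _
                  unfold MN
                  refine (norm_sum_le _ _).trans (Finset.sum_le_sum fun b _ => ?_)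
                  rw [← mul_assoc (cutC _), ← mul_assoc, norm_mul _ (pw _ _), norm_pw, mul_one]
                · exact Finset.prod_nonneg fun i _ => norm_nonneg _
                · exact Finset.prod_nonneg fun i _ => Finset.sum_nonneg fun b _ => norm_nonneg _
              exact (ker_integrable h1 h2).norm.mul_bdd (c := K)
                hcont.aestronglyMeasurable (Filter.Eventually.of_forall hK)
            calc ∑ h ∈ S, c h * ∫ t, ‖ker v t‖ *
                  ((∏ i, ‖PN (ψ h) (k i) t‖) * ∏ i, ‖MN (ψ h) z (l i) t‖)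
                = ∫ t, ‖ker v t‖ * ∑ h ∈ S, c h *
                  ((∏ i, ‖PN (ψ h) (k i) t‖) * ∏ i, ‖MN (ψ h) z (l i) t‖) := by
                  rw [← Finset.sum_congr rfl fun h _ => integral_const_mul (c h) _,
                    ← integral_finsetSum _ fun h hh => (hc1 h hh).const_mul (c h)]
                  congr 1
                  ext t
                  rw [Finset.mul_sum]
                  apply Finset.sum_congr rfl
                  intro h _
                  ring
              _ ≤ ∫ t, ‖ker v t‖ * (1 + |t|) ^ A * G := by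
                  apply integral_mono
                  · have := integrable_finsetSum S fun h hh => (hc1 h hh).const_mul (c h)
                    refine this.congr (Filter.Eventually.of_forall fun t => ?_)
                    simp only
                    rw [Finset.mul_sum]
                    apply Finset.sum_congr rfl
                    intro h _
                    ring
                  · exact hint.mul_const G
                  · intro t
                    have := hG j hj k l hk' hl' hcomp t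
                    calc _ ≤ ‖ker v t‖ * (G * (1 + |t|) ^ A) :=
                          mul_le_mul_of_nonneg_left this (norm_nonneg _)
                      _ = _ := by ring
              _ = J * G := by rw [integral_mul_const, hJ]
          · simp only [if_neg hcomp, mul_zero, Finset.sum_const_zero, le_refl]
  refine hstep.trans ?_
  have hJG : 0 ≤ J * G := mul_nonneg hJ0 hG0
  have hL1 : (1 : ℝ) ≤ L + 1 := by
    have : (0 : ℝ) ≤ L := Nat.cast_nonneg L
    linarith
  have hj : ∀ j ∈ Finset.range r, (r.choose (j + 1) : ℝ) *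
      ∑ k ∈ Fintype.piFinset (fun _ : Fin j => Finset.range (L + 1)),
      ∑ l ∈ Fintype.piFinset (fun _ : Fin (j + 1) => Finset.range (L + 1)),
        (if Compat (Q * Real.exp α) (Q * Real.exp β) (2 * z) j k l then J * G else 0) ≤
      (r.choose (j + 1) : ℝ) * ((L + 1 : ℝ) ^ (2 * r) * (J * G)) := by
    intro j hj
    rw [Finset.mem_range] at hj
    apply mul_le_mul_of_nonneg_left _ (Nat.cast_nonneg _)
    calc _ ≤ ∑ k ∈ Fintype.piFinset (fun _ : Fin j => Finset.range (L + 1)),
        ∑ l ∈ Fintype.piFinset (fun _ : Fin (j + 1) => Finset.range (L + 1)), J * G := by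
          apply Finset.sum_le_sum
          intro k _
          apply Finset.sum_le_sum
          intro l _
          split_ifs
          · exact le_rfl
          · exact hJG
      _ = (L + 1 : ℝ) ^ (2 * j + 1) * (J * G) := by
          simp only [Finset.sum_const, Fintype.card_piFinset_const, Finset.card_range,
            Finset.card_univ, Fintype.card_fin, nsmul_eq_mul]
          push_cast
          ring
      _ ≤ _ := by
          apply mul_le_mul_of_nonneg_right _ hJG
          exact pow_le_pow_right₀ hL1 (by omega)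
  refine (Finset.sum_le_sum hj).trans ?_
  rw [← Finset.sum_mul]
  have hch : ∑ j ∈ Finset.range r, (r.choose (j + 1) : ℝ) ≤ 2 ^ r := by
    have h3 := Nat.sum_range_choose r
    rw [Finset.sum_range_succ'] at h3
    have h4 : ((∑ j ∈ Finset.range r, r.choose (j + 1) : ℕ) : ℝ) ≤ ((2 ^ r : ℕ) : ℝ) := by
      exact_mod_cast (by omega : (∑ j ∈ Finset.range r, r.choose (j + 1)) ≤ 2 ^ r)
    push_cast at h4
    exact h4
  have h0 : 0 ≤ (L + 1 : ℝ) ^ (2 * r) * (J * G) := by positivity
  calc _ ≤ 2 ^ r * ((L + 1 : ℝ) ^ (2 * r) * (J * G)) := mul_le_mul_of_nonneg_right hch h0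
    _ = _ := by ring

end Crest.Agent.R017.HBI146
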