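import Crest.Agent.R017.FE10_47
import Crest.Agent.R017.HBIc_146

/-!
# Row 17: functional equation of the smooth family sums (11): the Heath-Brown pieces `PN`

`PN_eq_PS` : the smooth pieces of `HBIc_146` are `PS (cx hD) ψ (k log 2) t`.
`pu_hD` : the dyadic partition is a `PU` with step `log 2`.
`PN_FE`, `PN_FE_ms`, `PN_PV` : reflection, mean-square reflection, Pólya–Vinogradov for them.
-/

set_option autoImplicit false

noncomputable section

open Complex MeasureTheory Filter Topology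
open scoped SchwartzMap ContDiff

namespace Crest.Agent.R017.FE47

open Crest.Agent.R012 Crest.Agent.R012.Eis Crest.Agent.R012.Po581 Crest.Agent.R012.Gauss880
open Crest.Agent.R012.PSer47
open Crest.Agent.R012.Weight600 (osc norm_osc pw)
open Crest.Agent.R017.End699 Crest.Agent.R017.HBI146

/-- the dyadic weight in the logarithmic variable -/
def hD (u : ℝ) : ℝ := cutR (Real.exp u) - cutR (2 * Real.exp u)

lemma cx_hD (u : ℝ) : cx hD u = HBI146.wd (Real.exp u) := by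
  unfold cx hD HBI146.wd dw cutC
  push_cast
  rfl

lemma hD_supp {u : ℝ} (h : cx hD u ≠ 0) : |u| ≤ Real.log 2 := by
  rw [cx_hD] at h
  rw [abs_le]
  constructor
  · by_contra hh
    push Not at hh
    apply h
    apply wd_zero_of_le
    have : Real.exp u ≤ Real.exp (-Real.log 2) := Real.exp_le_exp.mpr hh.le
    rw [Real.exp_neg, Real.exp_log (by norm_num)] at this
    linarith
  · by_contra hh
    push Not at hh
    apply h
    apply wd_zero_of_ge
    have : Real.exp (Real.log 2) ≤ Real.exp u := Real.exp_le_exp.mpr hh.le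
    rwa [Real.exp_log (by norm_num)] at this

lemma contDiff_hD : ContDiff ℝ ∞ hD :=
  (contDiff_cutR.comp Real.contDiff_exp).sub
    (contDiff_cutR.comp (contDiff_const.mul Real.contDiff_exp))

lemma hasCompactSupport_hD : HasCompactSupport hD := by
  apply HasCompactSupport.intro (isCompact_Icc (a := -Real.log 2) (b := Real.log 2))
  intro u hu
  by_contra hh
  apply hu
  have h1 : cx hD u ≠ 0 := by
    unfold cx
    exact_mod_cast hh
  exact abs_le.mp (hD_supp h1)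

lemma cutR_of_le {x : ℝ} (hx : x ≤ 1) : cutR x = 1 := by
  unfold cutR
  rw [Real.smoothTransition.zero_of_nonpos (by linarith)]; ring

lemma cutR_of_ge {x : ℝ} (hx : 2 ≤ x) : cutR x = 0 := by
  unfold cutR
  rw [Real.smoothTransition.one_of_one_le (by linarith)]; ring

lemma exp_mul_log_two (n : ℕ) : Real.exp (Real.log 2 * n) = 2 ^ n := by
  rw [mul_comm, Real.exp_nat_mul, Real.exp_log (by norm_num)]

/-- the dyadic partition of unity -/
theorem pu_hD : PU hD (Real.log 2) where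
  cpos := Real.log_pos (by norm_num)
  cd := contDiff_hD
  cs := hasCompactSupport_hD
  one v hv := by
    have key : ∀ n : ℕ, hD (v - Real.log 2 * n) =
        -(cutR (2 * Real.exp v / 2 ^ n) - cutR (2 * Real.exp v / 2 ^ (n + 1))) := by
      intro n
      unfold hD
      rw [Real.exp_sub, exp_mul_log_two]
      have e1 : 2 * Real.exp v / 2 ^ (n + 1) = Real.exp v / 2 ^ n := by
        rw [pow_succ]; field_simp
      have e2 : 2 * (Real.exp v / 2 ^ n) = 2 * Real.exp v / 2 ^ n := by ring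
      rw [e1, e2]; ring
    obtain ⟨N, hN⟩ := pow_unbounded_of_one_lt (2 * Real.exp v) (by norm_num : (1 : ℝ) < 2)
    have hz : ∀ n : ℕ, n ∉ Finset.range N → hD (v - Real.log 2 * n) = 0 := by
      intro n hn
      rw [Finset.mem_range, not_lt] at hn
      have h1 : (2 : ℝ) ^ N ≤ 2 ^ n := pow_le_pow_right₀ (by norm_num) hn
      have h2 : (2 : ℝ) ^ n ≤ 2 ^ (n + 1) := pow_le_pow_right₀ (by norm_num) (by omega)
      rw [key, cutR_of_le, cutR_of_le]
      · ring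
      · rw [div_le_one (by positivity)]; linarith
      · rw [div_le_one (by positivity)]; linarith
    rw [tsum_eq_sum hz, Finset.sum_congr rfl fun n _ => key n, Finset.sum_neg_distrib,
      Finset.sum_range_sub' (fun n : ℕ => cutR (2 * Real.exp v / 2 ^ n))]
    have h1 : (1 : ℝ) ≤ Real.exp v := Real.one_le_exp hv
    rw [cutR_of_ge (by rw [pow_zero, div_one]; linarith), cutR_of_le]
    · ring
    · rw [div_le_one (by positivity)]; exact hN.le

/-- the smooth Heath-Brown pieces are the smooth sums `PS` -/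
theorem PN_eq_PS (ψ : Eis → ℂ) (k : ℕ) (t : ℝ) :
    PN ψ k t = PS (cx hD) ψ (Real.log 2 * k) t := by
  rw [PS_eq_sum (R := Real.log 2) (fun u hu => hD_supp hu) ψ _ t (N := 2 ^ (k + 1))]
  · unfold PN
    refine Finset.sum_congr rfl fun b hb => ?_
    rw [mem_primBall] at hb
    have h1 := one_le_nm hb.2
    rw [cx_hD, Real.exp_sub, exp_mul_log_two, Real.exp_log (by linarith)]
    unfold Weight600.pw
    ring
  · have e : Real.log 2 * k + Real.log 2 = Real.log 2 * ((k + 1 : ℕ) : ℝ) := by push_cast; ring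
    rw [e, exp_mul_log_two]
    push_cast
    linarith

/-- averaged smooth piece -/
def TP (ψ : Eis → ℂ) (K n : ℕ) : ℝ := ∫ t : ℝ, ((1 + |t|) ^ K)⁻¹ * ‖PN ψ n t‖

lemma TP_eq (ψ : Eis → ℂ) (K n : ℕ) : TP ψ K n = TN hD ψ K (Real.log 2 * n) := by
  unfold TP TN
  simp_rw [PN_eq_PS]

lemma exp_scale (n k : ℕ) : Real.exp (Real.log 2 * n + Real.log 2 * k) = 2 ^ (n + k) := by
  rw [Real.exp_add, exp_mul_log_two, exp_mul_log_two, pow_add]

/-- **Reflection of the smooth Heath-Brown pieces.** -/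
theorem PN_FE (l : ℤ) {A K : ℕ} (hA : 2 ≤ A) (hK : 2 ≤ K) {ε : ℝ} (hε : 0 < ε) (hε1 : ε < 1) :
    ∃ (C : ℝ) (J : ℕ), 0 ≤ C ∧ ∀ (M : Eis) (χ : Eis → ℂ) (c₁ : Eis) (κ : Eis → ℂ),
      Mem M χ c₁ κ → ∀ (k : ℕ) (t : ℝ),
      ‖PN (XK χ κ l) k t‖ ≤ C * (1 + |t|) ^ J * cM A ε M * (2 ^ k / Real.sqrt (nm c₁)) *
        ∑' n : ℕ, wz ε A ((2 : ℝ) ^ (n + k) / nm c₁) * TP (XK χ κ l) K n := by
  obtain ⟨C, J, hC, hF⟩ := FE_major (cd_cx contDiff_hD) (cs_cx hasCompactSupport_hD) l pu_hD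
    hA hK hε hε1
  refine ⟨C, J, hC, fun M χ c₁ κ hm k t => ?_⟩
  have h1 := hF M χ hm.hc c₁ κ hm.prim hm.cop hm.ch hm.primitive hm.zero (Real.log 2 * k) t
  simp_rw [exp_scale, ← TP_eq] at h1
  rw [PN_eq_PS]
  rw [exp_mul_log_two] at h1
  exact h1

lemma summable_TP {ε : ℝ} (hε : 0 < ε) (hε1 : ε < 1) {A K : ℕ} (hA : 1 ≤ A) (hK : 2 ≤ K)
    {Ξ : Eis → ℂ} (hΞ : ∀ b, IsPrim b → ‖Ξ b‖ ≤ 1) (k : ℕ) {Q : ℝ} (hQ : 0 < Q) :
    Summable (fun n : ℕ => wz ε A (2 ^ (n + k) / Q) * TP Ξ K n) := by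
  have h1 := summable_wz contDiff_hD.continuous hasCompactSupport_hD pu_hD.cpos hε hε1 hA hK hΞ
    (Real.log 2 * k - Real.log Q)
  refine h1.congr fun n => ?_
  rw [TP_eq, ← add_sub_assoc, Real.exp_sub, Real.exp_log hQ, exp_scale]

/-- **Pólya–Vinogradov** for the smooth Heath-Brown pieces, rapid decay beyond the conductor. -/
theorem PN_PV (l : ℤ) (A : ℕ) :
    ∃ (C : ℝ) (J : ℕ), 0 ≤ C ∧ ∀ (M : Eis) (χ : Eis → ℂ) (c₁ : Eis) (κ : Eis → ℂ),
      Mem M χ c₁ κ → ∀ (k : ℕ) (t : ℝ),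
      ‖PN (XK χ κ l) k t‖ ≤ C * (1 + |t|) ^ J * cM (A + 2) (1 / 2) M *
        (Real.sqrt (nm c₁) * ((1 + (2 : ℝ) ^ k / nm c₁) ^ A)⁻¹) := by
  obtain ⟨C, J, hC, hF⟩ := PV (cd_cx contDiff_hD) (cs_cx hasCompactSupport_hD) l A
  refine ⟨C, J, hC, fun M χ c₁ κ hm k t => ?_⟩
  have h1 := hF M χ hm.hc c₁ κ hm.prim hm.cop hm.ch hm.primitive hm.zero (Real.log 2 * k) t
  rw [PN_eq_PS]
  rw [exp_mul_log_two] at h1
  exact h1

/-- **Mean-square reflection** of the smooth Heath-Brown pieces, arbitrary weights `B i ≥ 0`. -/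
theorem PN_FE_ms (l : ℤ) {A K : ℕ} (hA : 2 ≤ A) (hK : 2 ≤ K) {ε : ℝ} (hε : 0 < ε)
    (hε1 : ε < 1) : ∃ (C : ℝ) (J : ℕ), 0 ≤ C ∧ ∀ (ι : Type) (S : Finset ι) (B : ι → ℝ)
      (M : ι → Eis) (χ : ι → Eis → ℂ) (c₁ : ι → Eis) (κ : ι → Eis → ℂ),
      (∀ i ∈ S, 0 ≤ B i) → (∀ i ∈ S, Mem (M i) (χ i) (c₁ i) (κ i)) → ∀ Q lam' D : ℝ, 0 < Q →
      (∀ i ∈ S, Q ≤ lam' * nm (c₁ i) ∧ (nm (c₁ i) : ℝ) ≤ Q) → (∀ i ∈ S, cM A ε (M i) ≤ D) →
      ∀ (k : ℕ) (t : ℝ),
      ∑ i ∈ S, B i * ‖PN (XK (χ i) (κ i) l) k t‖ ^ 2 ≤ C * (1 + |t|) ^ J * D ^ 2 *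
        (lam' * (2 ^ k) ^ 2 / Q * (Q / 2 ^ k) ^ ε) *
          ∑' n : ℕ, wz ε A (2 ^ (n + k) / Q) *
            ∫ t' : ℝ, ((1 + |t'|) ^ K)⁻¹ *
              ∑ i ∈ S, B i * ‖PN (XK (χ i) (κ i) l) n t'‖ ^ 2 := by
  obtain ⟨C, J, hC, hF⟩ := FE_ms (cd_cx contDiff_hD) (cs_cx hasCompactSupport_hD) l pu_hD
    hA hK hε hε1
  refine ⟨C, J, hC, fun ι S B M χ c₁ κ hB hm Q lam' D hQ hQc hD k t => ?_⟩
  have h1 := hF ι S B M χ c₁ κ hB hm Q lam' D hQ hQc hD (Real.log 2 * k) t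
  simp_rw [exp_scale, ← PN_eq_PS] at h1
  have e : Real.exp (2 * (Real.log 2 * k)) = (2 ^ k) ^ 2 := by
    rw [← exp_mul_log_two, ← Real.exp_nat_mul]
    push_cast
    ring_nf
  rw [e, exp_mul_log_two] at h1
  exact h1

end Crest.Agent.R017.FE47
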