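import Crest.Agent.R017.CM1_106
import Crest.Agent.R012.PSer_47
import Crest.Agent.R012.Weight_600
import Crest.Agent.R012.Mob_705

/-!
# Row 17, sides: convolutions of finite families (helper842)

* `Tu g` : tuples of primary elements with product `g`
* `cv f b = ∑_{x ∈ Tu b} ∏ i, f i (x i)`
* `cv_mul` : `cv f (g k) = ∑_{x ∈ Tu g} cv (fun i => sub (f i) (x i)) k` for coprime `g, k`
* `sum_cv`, `CS_cv`, `TG_cv`
-/

set_option autoImplicit false

noncomputable section

open Complex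
open scoped ComplexConjugate

namespace Crest.Agent.R017.HP842

open Crest.Agent.R012 Crest.Agent.R012.Eis Crest.Agent.R012.LS2 Crest.Agent.R012.Gauss880
open Crest.Agent.R012.Div277 (tau dvs mem_dvs tau_le_rpow)
open Crest.Agent.R017.CM106

set_option linter.unusedSectionVars false
set_option linter.unusedVariables false

variable {ι : Type*} [Fintype ι] [DecidableEq ι]

open Classical in
/-- tuples of primary elements with product `g` -/
def Tu (ι : Type*) [Fintype ι] [DecidableEq ι] (g : Eis) : Finset (ι → Eis) :=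
  (Fintype.piFinset fun _ => dvs g).filter (fun x => ∏ i, x i = g)

lemma isPrim_prod {s : Finset ι} {x : ι → Eis} (hx : ∀ i, IsPrim (x i)) :
    IsPrim (∏ i ∈ s, x i) := by
  classical
  induction s using Finset.induction_on with
  | empty => simpa using isPrim_one
  | insert a s ha ih =>
    rw [Finset.prod_insert ha]
    exact (hx a).mul ih

lemma mem_Tu {g : Eis} {x : ι → Eis} :
    x ∈ Tu ι g ↔ (∀ i, IsPrim (x i)) ∧ ∏ i, x i = g := by
  unfold Tu
  rw [Finset.mem_filter, Fintype.mem_piFinset]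
  constructor
  · rintro ⟨h1, h2⟩
    exact ⟨fun i => Div277.isPrim_of_mem_dvs (h1 i), h2⟩
  · rintro ⟨h1, h2⟩
    have hg : IsPrim g := h2 ▸ isPrim_prod h1
    refine ⟨fun i => ?_, h2⟩
    rw [mem_dvs hg.ne_zero]
    refine ⟨h1 i, ?_⟩
    rw [← h2]
    exact Finset.dvd_prod_of_mem _ (Finset.mem_univ i)

lemma Tu_empty {g : Eis} (hg : ¬ IsPrim g) : Tu ι g = ∅ := by
  rw [Finset.eq_empty_iff_forall_notMem]
  intro x hx
  rw [mem_Tu] at hx
  exact hg (hx.2 ▸ isPrim_prod hx.1)

lemma card_Tu_le (g : Eis) : (Tu ι g).card ≤ tau g ^ Fintype.card ι := by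
  unfold Tu
  refine (Finset.card_filter_le _ _).trans ?_
  rw [Fintype.card_piFinset]
  simp [tau]

/-- the convolution of a finite family -/
def cv (f : ι → Eis → ℂ) (b : Eis) : ℂ := ∑ x ∈ Tu ι b, ∏ i, f i (x i)

lemma cv_not_prim {f : ι → Eis → ℂ} {b : Eis} (hb : ¬ IsPrim b) : cv f b = 0 := by
  unfold cv; rw [Tu_empty hb, Finset.sum_empty]

lemma prim_ext {a b : Eis} (ha : IsPrim a) (hb : IsPrim b) (h1 : a ∣ b) (h2 : b ∣ a) : a = b :=
  ha.eq_of_associated hb (associated_of_dvd_dvd h1 h2)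

/-- factorizations along a coprime product are unique -/
lemma cop_unique {g k a b a' b' : Eis} (h : IsCoprime g k) (ha : IsPrim a) (ha' : IsPrim a')
    (hb : IsPrim b) (h1 : a ∣ g) (h2 : b ∣ k) (h1' : a' ∣ g) (h2' : b' ∣ k)
    (e : a * b = a' * b') : a = a' ∧ b = b' := by
  have c1 : IsCoprime a b' := (h.of_isCoprime_of_dvd_left h1).of_isCoprime_of_dvd_right h2'
  have c2 : IsCoprime a' b := (h.of_isCoprime_of_dvd_left h1').of_isCoprime_of_dvd_right h2
  have d1 : a ∣ a' := c1.dvd_of_dvd_mul_right (e ▸ dvd_mul_right a b)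
  have d2 : a' ∣ a := c2.dvd_of_dvd_mul_right (e ▸ dvd_mul_right a' b')
  have h3 := prim_ext ha ha' d1 d2
  subst h3
  exact ⟨rfl, mul_left_cancel₀ ha.ne_zero e⟩

/-- **sub-sequences of convolutions** -/
theorem cv_mul (f : ι → Eis → ℂ) {g k : Eis} (hg : IsPrim g) (hk : IsPrim k)
    (h : IsCoprime g k) :
    cv f (g * k) = ∑ x ∈ Tu ι g, cv (fun i => sub (f i) (x i)) k := by
  classical
  unfold cv
  rw [← Finset.sum_product' (Tu ι g) (Tu ι k)
    (fun x z => ∏ i, sub (f i) (x i) (z i))]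
  symm
  refine Finset.sum_bij (fun p _ => fun i => p.1 i * p.2 i) ?_ ?_ ?_ ?_
  · rintro ⟨x, z⟩ hp
    rw [Finset.mem_product, mem_Tu, mem_Tu] at hp
    rw [mem_Tu]
    refine ⟨fun i => (hp.1.1 i).mul (hp.2.1 i), ?_⟩
    rw [Finset.prod_mul_distrib, hp.1.2, hp.2.2]
  · rintro ⟨x, z⟩ hp ⟨x', z'⟩ hp' e
    rw [Finset.mem_product, mem_Tu, mem_Tu] at hp hp'
    have hx : ∀ i, x i ∣ g := fun i => by
      rw [← hp.1.2]; exact Finset.dvd_prod_of_mem _ (Finset.mem_univ i)
    have hz : ∀ i, z i ∣ k := fun i => by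
      rw [← hp.2.2]; exact Finset.dvd_prod_of_mem _ (Finset.mem_univ i)
    have hx' : ∀ i, x' i ∣ g := fun i => by
      rw [← hp'.1.2]; exact Finset.dvd_prod_of_mem _ (Finset.mem_univ i)
    have hz' : ∀ i, z' i ∣ k := fun i => by
      rw [← hp'.2.2]; exact Finset.dvd_prod_of_mem _ (Finset.mem_univ i)
    have key : ∀ i, x i = x' i ∧ z i = z' i := fun i =>
      cop_unique h (hp.1.1 i) (hp'.1.1 i) (hp.2.1 i) (hx i) (hz i) (hx' i) (hz' i)
        (congrFun e i)
    exact Prod.ext (funext fun i => (key i).1) (funext fun i => (key i).2)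
  · intro y hy
    rw [mem_Tu] at hy
    have hd : ∀ i, ∃ a b, IsPrim a ∧ IsPrim b ∧ a ∣ g ∧ b ∣ k ∧ y i = a * b := fun i =>
      Div277.exists_prim_factor (hy.1 i)
        (by rw [← hy.2]; exact Finset.dvd_prod_of_mem _ (Finset.mem_univ i))
    choose a b ha hb hag hbk hab using hd
    have pa : IsPrim (∏ i, a i) := isPrim_prod ha
    have pb : IsPrim (∏ i, b i) := isPrim_prod hb
    have e : (∏ i, a i) * ∏ i, b i = g * k := by
      rw [← Finset.prod_mul_distrib, ← hy.2]
      exact Finset.prod_congr rfl fun i _ => (hab i).symm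
    have c1 : IsCoprime (∏ i, a i) k := by
      refine IsCoprime.prod_left fun i _ => ?_
      exact h.of_isCoprime_of_dvd_left (hag i)
    have c2 : IsCoprime g (∏ i, b i) := by
      refine IsCoprime.prod_right fun i _ => ?_
      exact h.of_isCoprime_of_dvd_right (hbk i)
    have d1 : (∏ i, a i) ∣ g := c1.dvd_of_dvd_mul_right (e ▸ dvd_mul_right _ _)
    have d2 : g ∣ ∏ i, a i := c2.dvd_of_dvd_mul_right (e ▸ dvd_mul_right _ _)
    have h3 : ∏ i, a i = g := prim_ext pa hg d1 d2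
    have h4 : ∏ i, b i = k := by
      rw [h3] at e
      exact mul_left_cancel₀ hg.ne_zero e
    refine ⟨(a, b), ?_, ?_⟩
    · rw [Finset.mem_product, mem_Tu, mem_Tu]
      exact ⟨⟨ha, h3⟩, ⟨hb, h4⟩⟩
    · funext i
      exact (hab i).symm
  · rintro ⟨x, z⟩ _
    rfl

/-! ### finite sums -/

/-- all members of the family vanish outside `primBall X` -/
def Bd (X : ℕ) (f : ι → Eis → ℂ) : Prop := ∀ i b, f i b ≠ 0 → b ∈ primBall X

lemma exists_Bd {f : ι → Eis → ℂ} (hf : ∀ i, FS (f i)) : ∃ X : ℕ, Bd X f := by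
  classical
  have h1 : ∀ i, ∃ X : ℕ, ∀ b, f i b ≠ 0 → nm b ≤ X := by
    intro i
    refine ⟨(hf i).fin.toFinset.sup nm, fun b hb => ?_⟩
    exact Finset.le_sup (f := nm) ((Set.Finite.mem_toFinset _).2 hb)
  choose X hX using h1
  refine ⟨Finset.univ.sup X, fun i b hb => ?_⟩
  rw [mem_primBall]
  exact ⟨(hX i b hb).trans (Finset.le_sup (f := X) (Finset.mem_univ i)), (hf i).prim b hb⟩

lemma Bd.mono {X X' : ℕ} (h : X ≤ X') {f : ι → Eis → ℂ} (hf : Bd X f) : Bd X' f := by
  intro i b hb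
  have := hf i b hb
  rw [mem_primBall] at this ⊢
  exact ⟨this.1.trans h, this.2⟩

lemma cv_ne_zero {f : ι → Eis → ℂ} {X : ℕ} (hf : Bd X f) {b : Eis} (hb : cv f b ≠ 0) :
    IsPrim b ∧ ∃ x ∈ Fintype.piFinset (fun _ : ι => primBall X), ∏ i, x i = b := by
  have h1 : IsPrim b := by
    by_contra h; exact hb (cv_not_prim h)
  refine ⟨h1, ?_⟩
  unfold cv at hb
  obtain ⟨x, hx, hx0⟩ := Finset.exists_ne_zero_of_sum_ne_zero hb
  rw [mem_Tu] at hx
  refine ⟨x, ?_, hx.2⟩
  rw [Fintype.mem_piFinset]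
  intro i
  refine hf i _ ?_
  intro h0
  exact hx0 (Finset.prod_eq_zero (Finset.mem_univ i) h0)

lemma FS_cv {f : ι → Eis → ℂ} (hf : ∀ i, FS (f i)) : FS (cv f) where
  fin := by
    classical
    obtain ⟨X, hX⟩ := exists_Bd hf
    refine Set.Finite.subset
      (((Fintype.piFinset (fun _ : ι => primBall X)).image (fun x => ∏ i, x i)).finite_toSet) ?_
    intro b hb
    obtain ⟨_, x, hx, hx2⟩ := cv_ne_zero hX hb
    rw [Finset.mem_coe, Finset.mem_image]
    exact ⟨x, hx, hx2⟩
  prim := fun m hm => by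
    by_contra h; exact hm (cv_not_prim h)

/-- **sums over a convolution** -/
theorem sum_cv {f : ι → Eis → ℂ} {X : ℕ} (hf : Bd X f) (F : Eis → ℂ) :
    ∑' b : Eis, cv f b * F b =
      ∑ x ∈ Fintype.piFinset (fun _ : ι => primBall X), (∏ i, f i (x i)) * F (∏ i, x i) := by
  classical
  set A := Fintype.piFinset (fun _ : ι => primBall X) with hA
  set B := A.image (fun x => ∏ i, x i) with hB
  have e1 : ∑' b : Eis, cv f b * F b = ∑ b ∈ B, cv f b * F b := by
    refine tsum_eq_sum fun b hb => ?_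
    by_cases h : cv f b = 0
    · rw [h, zero_mul]
    · exfalso
      obtain ⟨_, x, hx, hx2⟩ := cv_ne_zero hf h
      exact hb (Finset.mem_image.2 ⟨x, hx, hx2⟩)
  rw [e1]
  rw [← Finset.sum_fiberwise_of_maps_to (s := A) (t := B) (g := fun x => ∏ i, x i)
    (fun x hx => Finset.mem_image_of_mem _ hx)]
  refine Finset.sum_congr rfl fun b _ => ?_
  unfold cv
  rw [Finset.sum_mul]
  symm
  have e2 : ∑ x ∈ A.filter (fun x => ∏ i, x i = b), (∏ i, f i (x i)) * F (∏ i, x i) =
      ∑ x ∈ A.filter (fun x => ∏ i, x i = b), (∏ i, f i (x i)) * F b := by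
    refine Finset.sum_congr rfl fun x hx => ?_
    rw [(Finset.mem_filter.1 hx).2]
  rw [e2]
  refine Finset.sum_subset ?_ ?_
  · intro x hx
    rw [Finset.mem_filter, hA, Fintype.mem_piFinset] at hx
    rw [mem_Tu]
    exact ⟨fun i => ((mem_primBall).1 (hx.1 i)).2, hx.2⟩
  · intro x hx hne
    rw [mem_Tu] at hx
    have : ∃ i, f i (x i) = 0 := by
      by_contra hcon
      push Not at hcon
      apply hne
      rw [Finset.mem_filter, hA, Fintype.mem_piFinset]
      exact ⟨fun i => hf i _ (hcon i), hx.2⟩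
    obtain ⟨i, hi⟩ := this
    rw [Finset.prod_eq_zero (Finset.mem_univ i) hi, zero_mul]

lemma sy_prod_right {s : Finset ι} {x : ι → Eis} (hx : ∀ i, IsPrim (x i)) (l : Eis) :
    sy l (∏ i ∈ s, x i) = ∏ i ∈ s, sy l (x i) := by
  classical
  induction s using Finset.induction_on with
  | empty => simp [Sym645.sy_one_right]
  | insert a s ha ih =>
    rw [Finset.prod_insert ha, Finset.prod_insert ha,
      Sym645.syFacts.mul_right _ _ _ (hx a) (isPrim_prod hx), ih]

/-- the character side factors -/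
theorem CS_cv {f : ι → Eis → ℂ} (hf : ∀ i, FS (f i)) (k : Eis) :
    CS (cv f) k = ∏ i, CS (f i) k := by
  classical
  obtain ⟨X, hX⟩ := exists_Bd hf
  unfold CS
  rw [sum_cv hX]
  have e1 : ∀ i, ∑' m : Eis, f i m * sy k m = ∑ m ∈ primBall X, f i m * sy k m := by
    intro i
    refine tsum_eq_sum fun b hb => ?_
    have : f i b = 0 := by
      by_contra h; exact hb (hX i b h)
    rw [this, zero_mul]
  simp_rw [e1]
  rw [Finset.prod_univ_sum]
  refine Finset.sum_congr rfl fun x hx => ?_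
  rw [Fintype.mem_piFinset] at hx
  have hxp : ∀ i, IsPrim (x i) := fun i => ((mem_primBall).1 (hx i)).2
  rw [sy_prod_right hxp, Finset.prod_mul_distrib]

/-! ### arbitrary kernels -/

/-- sums against a kernel `K` -/
def KS (K : Eis → Eis → ℂ) (α : Eis → ℂ) (l : Eis) : ℂ := ∑' m : Eis, α m * K l m

/-- the two properties of the kernels `G n * conj (sy h n)` and `Dk h n` -/
structure Ker (K : Eis → Eis → ℂ) : Prop where
  mul : ∀ h w m : Eis, IsPrim w → Squarefree w → IsPrim m →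
    K h (w * m) = (G w * conj (sy h w)) * K (h * w) m
  cop : ∀ h m : Eis, IsPrim m → ¬ IsCoprime m h → K h m = 0

/-- the generic kernel -/
def Kg (h n : Eis) : ℂ := G n * conj (sy h n)

lemma ker_Kg : Ker Kg where
  mul h w m hw _ hm := by unfold Kg; exact TG_term hw hm
  cop h m hm hc := by
    unfold Kg
    have : sy h m = 0 := (syG.eq_zero h m hm).2 (fun h' => hc h'.symm)
    rw [this, map_zero, mul_zero]

lemma KS_Kg (α : Eis → ℂ) (l : Eis) : KS Kg α l = TG α l := rfl

/-- restriction to the elements coprime to `q` -/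
def cop (q : Eis) (α : Eis → ℂ) (n : Eis) : ℂ := by
  classical exact if IsCoprime n q then α n else 0

lemma FS.cop {α : Eis → ℂ} (h : FS α) (q : Eis) : FS (cop q α) where
  fin := h.fin.subset fun n hn h0 => hn (by
    have h0' : α n = 0 := h0
    unfold HP842.cop; rw [h0']; simp)
  prim := fun m hm => h.prim m (fun h0 => hm (by unfold HP842.cop; rw [h0]; simp))

end Crest.Agent.R017.HP842
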