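import Crest.Agent.R017.HSepG_813
import Crest.Agent.R017.FE11_47
import Crest.Agent.R017.HP1_842

/-!
# Row 17: short windows in `log N(n)` (helper813)

* `ew A η s = η (1 + η|s|)^(-A)`, `WK C η A φ` : `φ u = ∫ k s e^{isu} ds` with `|k| ≤ C ew A η`
* `windows` : partition of unity of `|u - x₀| ≤ R` into `≤ C/η` windows of length `η`
* `win_sq`, `win_sum` : removal of a window from linear forms (mean squares)
* `TG_windows`, `CS_windows`, `TG_win`, `CS_win` : the same for `TG`, `CS`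
* `absorb` : the absorption lemma
-/

set_option autoImplicit false

noncomputable section

open Complex MeasureTheory Filter Topology
open scoped ContDiff

namespace Crest.Agent.R017.Win813

open Crest.Agent.R012 Crest.Agent.R012.Eis Crest.Agent.R012.Gauss880
open Crest.Agent.R012.Weight600 (osc norm_osc ker pw)
open Crest.Agent.R017.FE47 Crest.Agent.R017.HSep813
open Crest.Agent.R017.CM106 (CS TG FS)

/-! ### the weight `ew` -/

/-- the decay weight of the windows -/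
def ew (A : ℕ) (η s : ℝ) : ℝ := η * ((1 + η * |s|) ^ A)⁻¹

lemma ew_nonneg {A : ℕ} {η : ℝ} (hη : 0 < η) (s : ℝ) : 0 ≤ ew A η s := by
  unfold ew; positivity

lemma continuous_ew (A : ℕ) {η : ℝ} (hη : 0 < η) : Continuous (ew A η) := by
  unfold ew
  refine continuous_const.mul (Continuous.inv₀ (by fun_prop) fun s => ?_)
  positivity

lemma integrable_base {A : ℕ} (hA : 2 ≤ A) : Integrable fun s : ℝ => ((1 + |s|) ^ A)⁻¹ := by
  have h : Integrable fun s : ℝ => (1 + ‖s‖) ^ (-(2 : ℝ)) :=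
    integrable_one_add_norm (by simp)
  refine Integrable.mono' h (Continuous.aestronglyMeasurable
    (Continuous.inv₀ (by fun_prop) fun s => by positivity)) (Eventually.of_forall fun s => ?_)
  rw [Real.norm_of_nonneg (by positivity), Real.rpow_neg (by positivity), Real.norm_eq_abs]
  have h1 : (1 : ℝ) ≤ 1 + |s| := by linarith [abs_nonneg s]
  have h2 : (1 + |s|) ^ (2 : ℝ) ≤ (1 + |s|) ^ A := by
    rw [show (2 : ℝ) = ((2 : ℕ) : ℝ) by norm_num, Real.rpow_natCast]
    exact pow_le_pow_right₀ h1 hA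
  exact inv_anti₀ (by positivity) h2

/-- the constant `∫ (1+|s|)^(-A)` -/
def iA (A : ℕ) : ℝ := ∫ s : ℝ, ((1 + |s|) ^ A)⁻¹

lemma iA_nonneg (A : ℕ) : 0 ≤ iA A := integral_nonneg fun _ => by positivity

lemma ew_eq (A : ℕ) {η : ℝ} (hη : 0 < η) (s : ℝ) : ew A η s = η * ((1 + |η * s|) ^ A)⁻¹ := by
  unfold ew; rw [abs_mul, abs_of_pos hη]

lemma integrable_ew {A : ℕ} (hA : 2 ≤ A) {η : ℝ} (hη : 0 < η) : Integrable (ew A η) := by
  have h := ((integrable_base hA).comp_mul_left' hη.ne').const_mul η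
  refine h.congr (Eventually.of_forall fun s => ?_)
  simp only [ew_eq A hη s]

lemma integral_ew (A : ℕ) {η : ℝ} (hη : 0 < η) : ∫ s, ew A η s = iA A := by
  simp_rw [ew_eq A hη]
  rw [integral_const_mul]
  have h := MeasureTheory.Measure.integral_comp_mul_left (fun v : ℝ => ((1 + |v|) ^ A)⁻¹) η
  rw [h, abs_of_pos (inv_pos.mpr hη), smul_eq_mul, ← mul_assoc, mul_inv_cancel₀ hη.ne', one_mul]
  rfl

/-! ### windows -/

/-- the kernel condition -/
def WK (C η : ℝ) (A : ℕ) (φ : ℝ → ℝ) : Prop :=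
  ∃ k : ℝ → ℂ, Continuous k ∧ (∀ s, ‖k s‖ ≤ C * ew A η s) ∧ ∀ u, ((φ u : ℝ) : ℂ) = ∫ s, k s * osc s u

lemma log2_pos : (0 : ℝ) < Real.log 2 := Real.log_pos (by norm_num)

lemma log2_le : Real.log 2 ≤ 1 := by
  have := Real.log_two_lt_d9; linarith

/-- one window -/
def wi (σ p : ℝ) (u : ℝ) : ℝ := hD ((u - p) / σ)

lemma wi_supp {σ p u : ℝ} (hσ : 0 < σ) (h : wi σ p u ≠ 0) : |u - p| ≤ σ * Real.log 2 := by
  have h1 : cx hD ((u - p) / σ) ≠ 0 := by
    unfold cx; unfold wi at h; exact_mod_cast h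
  have h2 := hD_supp h1
  rwa [abs_div, abs_of_pos hσ, div_le_iff₀ hσ, mul_comm] at h2

lemma wi_ker (A : ℕ) : ∃ C : ℝ, 0 ≤ C ∧ ∀ η p : ℝ, 0 < η → WK C η A (wi (η / 2) p) := by
  obtain ⟨C0, hC0, hdec⟩ := Weight600.ker_decay (cd_cx contDiff_hD) (cs_cx hasCompactSupport_hD) A
  refine ⟨C0 * 2 ^ A, by positivity, fun η p hη => ?_⟩
  have hσ : 0 < η / 2 := by positivity
  set σ := η / 2 with hσd
  have hki := Weight600.ker_integrable (cd_cx contDiff_hD) (cs_cx hasCompactSupport_hD)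
  have hkc : Continuous (ker (cx hD)) := Weight600.continuous_ker
    ((cd_cx contDiff_hD).continuous.integrable_of_hasCompactSupport (cs_cx hasCompactSupport_hD))
  refine ⟨fun s => (σ : ℂ) * (ker (cx hD) (σ * s) * osc s (-p)), ?_, fun s => ?_, fun u => ?_⟩
  · exact continuous_const.mul ((hkc.comp (continuous_const.mul continuous_id)).mul
      (Weight600.continuous_osc_left _))
  · rw [norm_mul, norm_mul, norm_osc, mul_one, Complex.norm_real, Real.norm_of_nonneg hσ.le]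
    have h1 := hdec (σ * s)
    have h2 : (1 + η * |s|) ≤ 2 * (1 + |σ * s|) := by
      rw [abs_mul, abs_of_pos hσ, hσd]; nlinarith [abs_nonneg s]
    have h3 : (1 + η * |s|) ^ A ≤ 2 ^ A * (1 + |σ * s|) ^ A := by
      rw [← mul_pow]; exact pow_le_pow_left₀ (by positivity) h2 A
    unfold ew
    have hp : 0 < (1 + η * |s|) ^ A := by positivity
    have h4 : ‖ker (cx hD) (σ * s)‖ * (1 + η * |s|) ^ A ≤ C0 * 2 ^ A := by
      calc ‖ker (cx hD) (σ * s)‖ * (1 + η * |s|) ^ A ≤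
          ‖ker (cx hD) (σ * s)‖ * (2 ^ A * (1 + |σ * s|) ^ A) :=
            mul_le_mul_of_nonneg_left h3 (norm_nonneg _)
        _ = (‖ker (cx hD) (σ * s)‖ * (1 + |σ * s|) ^ A) * 2 ^ A := by ring
        _ ≤ C0 * 2 ^ A := mul_le_mul_of_nonneg_right h1 (by positivity)
    have h5 : ‖ker (cx hD) (σ * s)‖ ≤ C0 * 2 ^ A * ((1 + η * |s|) ^ A)⁻¹ := by
      rw [← div_eq_mul_inv, le_div_iff₀ hp]; exact h4
    calc σ * ‖ker (cx hD) (σ * s)‖ ≤ η * (C0 * 2 ^ A * ((1 + η * |s|) ^ A)⁻¹) := by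
          apply mul_le_mul _ h5 (norm_nonneg _) hη.le
          rw [hσd]; linarith
      _ = _ := by ring
  · have h1 := Weight600.inversion_smooth (cd_cx contDiff_hD) (cs_cx hasCompactSupport_hD)
      ((u - p) / σ)
    have e1 : ((wi σ p u : ℝ) : ℂ) = cx hD ((u - p) / σ) := rfl
    rw [e1, ← h1]
    have h2 := MeasureTheory.Measure.integral_comp_mul_left
      (fun v : ℝ => ker (cx hD) v * osc v ((u - p) / σ)) σ
    rw [abs_of_pos (inv_pos.mpr hσ)] at h2
    have e2 : (fun s : ℝ => (σ : ℂ) * (ker (cx hD) (σ * s) * osc s (-p)) * osc s u) =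
        fun s : ℝ => (σ : ℂ) * (ker (cx hD) (σ * s) * osc (σ * s) ((u - p) / σ)) := by
      funext s
      have e3 : osc (σ * s) ((u - p) / σ) = osc s (-p) * osc s u := by
        rw [← Weight600.osc_add_right]
        unfold osc
        congr 2
        rw [show σ * s * ((u - p) / σ) = s * (-p + u) by field_simp; ring]
      rw [e3]; ring
    rw [e2, integral_const_mul, h2, Complex.real_smul]
    rw [← mul_assoc, ← Complex.ofReal_mul, mul_inv_cancel₀ hσ.ne', Complex.ofReal_one, one_mul]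

/-- **short windows**: partition of unity of `|u - x₀| ≤ R` into at most `C/η` windows of
length `η`, whose kernels are `≤ C η (1 + η|s|)^(-A)`. -/
theorem windows (R : ℝ) (hR : 0 ≤ R) (A : ℕ) : ∃ C : ℝ, 1 ≤ C ∧ ∀ η : ℝ, 0 < η → η ≤ 1 → ∀ x₀ : ℝ,
    ∃ (I : Finset ℕ) (φ : ℕ → ℝ → ℝ) (c : ℕ → ℝ), (I.card : ℝ) ≤ C / η ∧
      (∀ u, |u - x₀| ≤ R → ∑ i ∈ I, φ i u = 1) ∧
      (∀ i ∈ I, |c i - x₀| ≤ R + 1) ∧
      (∀ i u, φ i u ≠ 0 → |u - c i| ≤ η / 2) ∧ ∀ i, WK C η A (φ i) := by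
  obtain ⟨C0, hC0, hk⟩ := wi_ker A
  have hl := log2_pos
  refine ⟨max C0 (4 * R / Real.log 2 + 2), le_max_of_le_right ?_, fun η hη hη1 x₀ => ?_⟩
  · have : 0 ≤ 4 * R / Real.log 2 := by positivity
    linarith
  set σ := η / 2 with hσd
  have hσ : 0 < σ := by positivity
  set N : ℕ := ⌊4 * R / (η * Real.log 2)⌋₊ + 2 with hN
  refine ⟨Finset.range N, fun i => wi σ (x₀ - R + σ * (Real.log 2 * i)),
    fun i => x₀ - R + σ * (Real.log 2 * i), ?_, fun u hu => ?_, fun i hi => ?_, fun i u h => ?_,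
    fun i => ?_⟩
  · rw [Finset.card_range, hN]
    push_cast
    have h1 : (⌊4 * R / (η * Real.log 2)⌋₊ : ℝ) ≤ 4 * R / (η * Real.log 2) :=
      Nat.floor_le (by positivity)
    have h2 : 4 * R / (η * Real.log 2) + 2 ≤ (4 * R / Real.log 2 + 2) / η := by
      rw [add_div, div_div, mul_comm η]
      have : 2 ≤ 2 / η := by rw [le_div_iff₀ hη]; linarith
      linarith
    refine (by linarith : (⌊4 * R / (η * Real.log 2)⌋₊ : ℝ) + 2 ≤ _).trans
      (div_le_div_of_nonneg_right (le_max_right C0 _) hη.le)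
  · have hu' := abs_le.mp hu
    set v := (u - x₀ + R) / σ with hv
    have hv0 : 0 ≤ v := by
      rw [hv]; apply div_nonneg _ hσ.le; linarith [hu'.1]
    have h1 := pu_hD.one v hv0
    rw [tsum_eq_sum (s := Finset.range N)] at h1
    · rw [← h1]
      refine Finset.sum_congr rfl fun i _ => ?_
      show hD ((u - (x₀ - R + σ * (Real.log 2 * i))) / σ) = hD (v - Real.log 2 * i)
      have e : (u - (x₀ - R + σ * (Real.log 2 * i))) / σ = v - Real.log 2 * i := by
        rw [hv]; field_simp; ring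
      rw [e]
    · intro i hi
      rw [Finset.mem_range, not_lt] at hi
      by_contra hne
      have h2 : cx hD (v - Real.log 2 * i) ≠ 0 := by
        unfold cx; exact_mod_cast hne
      have h3 := (abs_le.mp (hD_supp h2)).1
      have h4 : v ≤ 4 * R / η := by
        rw [hv, hσd, div_le_div_iff₀ (by positivity) hη]
        nlinarith [hu'.2]
      have h5 : Real.log 2 * i ≤ 4 * R / η + Real.log 2 := by linarith
      have h6 : (i : ℝ) ≤ 4 * R / (η * Real.log 2) + 1 := by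
        have : 4 * R / (η * Real.log 2) + 1 = (4 * R / η + Real.log 2) / Real.log 2 := by
          field_simp
        rw [this, le_div_iff₀ hl]; linarith
      have h7 : (N : ℝ) ≤ i := by exact_mod_cast hi
      have h8 : 4 * R / (η * Real.log 2) < (⌊4 * R / (η * Real.log 2)⌋₊ : ℝ) + 1 :=
        Nat.lt_floor_add_one _
      rw [hN] at h7
      push_cast at h7
      linarith
  · rw [Finset.mem_range, hN] at hi
    have h1 : (i : ℝ) ≤ 4 * R / (η * Real.log 2) + 1 := by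
      have h2 : (i : ℝ) ≤ (⌊4 * R / (η * Real.log 2)⌋₊ : ℝ) + 1 := by
        have : i ≤ ⌊4 * R / (η * Real.log 2)⌋₊ + 1 := by omega
        exact_mod_cast this
      have h3 : (⌊4 * R / (η * Real.log 2)⌋₊ : ℝ) ≤ 4 * R / (η * Real.log 2) :=
        Nat.floor_le (by positivity)
      linarith
    have h4 : σ * (Real.log 2 * i) ≤ 2 * R + σ * Real.log 2 := by
      have h5 : σ * (Real.log 2 * i) ≤ σ * (Real.log 2 * (4 * R / (η * Real.log 2) + 1)) :=
        mul_le_mul_of_nonneg_left (mul_le_mul_of_nonneg_left h1 hl.le) hσ.le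
      have h6 : σ * (Real.log 2 * (4 * R / (η * Real.log 2) + 1)) = 2 * R + σ * Real.log 2 := by
        rw [hσd]; field_simp; ring
      linarith
    have h7 : 0 ≤ σ * (Real.log 2 * i) := by positivity
    have h8 : σ * Real.log 2 ≤ 1 := by
      have := log2_le
      rw [hσd]; nlinarith
    rw [abs_le]
    constructor <;> linarith
  · have h1 := wi_supp hσ h
    have h2 := log2_le
    refine h1.trans ?_
    rw [hσd]; nlinarith
  · obtain ⟨k, h1, h2, h3⟩ := hk η (x₀ - R + σ * (Real.log 2 * i)) hη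
    refine ⟨k, h1, fun s => (h2 s).trans ?_, h3⟩
    exact mul_le_mul_of_nonneg_right (le_max_left _ _) (ew_nonneg hη s)

/-! ### removal of a window -/

/-- a linear form with a height -/
def HF {β : Type} (T : Finset β) (g : β → Eis) (a : β → ℂ) (t : ℝ) : ℂ :=
  ∑ b ∈ T, a b * pw t (nm (g b))

/-- the same with a window -/
def HW {β : Type} (φ : ℝ → ℝ) (T : Finset β) (g : β → Eis) (a : β → ℂ) (t : ℝ) : ℂ :=
  ∑ b ∈ T, a b * ((φ (Real.log (nm (g b))) : ℂ) * pw t (nm (g b)))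

lemma continuous_HF {β : Type} (T : Finset β) (g : β → Eis) (a : β → ℂ) :
    Continuous fun t => HF T g a t :=
  continuous_finsetSum _ fun _ _ => continuous_const.mul (Weight600.continuous_pw_left _)

lemma norm_HF_le {β : Type} (T : Finset β) (g : β → Eis) (a : β → ℂ) (t : ℝ) :
    ‖HF T g a t‖ ≤ ∑ b ∈ T, ‖a b‖ := by
  refine (norm_sum_le _ _).trans (Finset.sum_le_sum fun b _ => ?_)
  rw [norm_mul, Weight600.norm_pw, mul_one]

lemma HW_eq {C η : ℝ} {A : ℕ} (hη : 0 < η) (hA : 2 ≤ A) {φ : ℝ → ℝ} {k : ℝ → ℂ}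
    (hk1 : Continuous k) (hk2 : ∀ s, ‖k s‖ ≤ C * ew A η s)
    (hk3 : ∀ u, ((φ u : ℝ) : ℂ) = ∫ s, k s * osc s u) {β : Type} (T : Finset β) (g : β → Eis)
    (a : β → ℂ) (t : ℝ) : HW φ T g a t = ∫ s, k s * HF T g a (t + s) := by
  have hki : Integrable k := ((integrable_ew hA hη).const_mul C).mono' hk1.aestronglyMeasurable
    (Eventually.of_forall hk2)
  have hi : ∀ b ∈ T, Integrable fun s => k s * (a b * pw (t + s) (nm (g b))) := fun b _ => by
    refine hki.mul_bdd (c := ‖a b‖) (Continuous.aestronglyMeasurable ?_)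
      (Eventually.of_forall fun s => ?_)
    · exact continuous_const.mul ((Weight600.continuous_pw_left _).comp
        (continuous_const.add continuous_id))
    · rw [norm_mul, Weight600.norm_pw, mul_one]
  unfold HW HF
  simp_rw [Finset.mul_sum]
  rw [integral_finsetSum _ hi]
  refine Finset.sum_congr rfl fun b _ => ?_
  rw [hk3, ← integral_mul_const, ← integral_const_mul]
  congr 1
  funext s
  unfold pw
  rw [Weight600.osc_add_left]
  ring

theorem win_sq {C η : ℝ} {A : ℕ} (_hC : 0 ≤ C) (hη : 0 < η) (hA : 2 ≤ A) {φ : ℝ → ℝ}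
    (hφ : WK C η A φ) {β : Type} (T : Finset β) (g : β → Eis) (a : β → ℂ) (t : ℝ) :
    ‖HW φ T g a t‖ ^ 2 ≤ C ^ 2 * iA A * ∫ s, ew A η s * ‖HF T g a (t + s)‖ ^ 2 := by
  obtain ⟨k, hk1, hk2, hk3⟩ := hφ
  have hei := integrable_ew hA hη
  set M := ∑ b ∈ T, ‖a b‖ with hM
  have hcont : Continuous fun s => HF T g a (t + s) :=
    (continuous_HF T g a).comp (continuous_const.add continuous_id)
  have hb : ∀ s, ‖HF T g a (t + s)‖ ≤ M := fun s => norm_HF_le T g a _
  have i1 : Integrable (fun s : ℝ => ew A η s * ‖HF T g a (t + s)‖) :=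
    hei.mul_bdd (c := M) hcont.norm.aestronglyMeasurable
      (Eventually.of_forall fun u => by rw [norm_norm]; exact hb _)
  have i2 : Integrable (fun s : ℝ => ew A η s * ‖HF T g a (t + s)‖ ^ 2) :=
    hei.mul_bdd (c := M ^ 2) (hcont.norm.pow 2).aestronglyMeasurable
      (Eventually.of_forall fun u => by
        rw [norm_pow, norm_norm]
        exact pow_le_pow_left₀ (norm_nonneg _) (hb u) 2)
  have h1 : ‖HW φ T g a t‖ ≤ C * ∫ s, ew A η s * ‖HF T g a (t + s)‖ := by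
    rw [HW_eq hη hA hk1 hk2 hk3, ← integral_const_mul]
    refine norm_integral_le_of_norm_le (i1.const_mul C) (Eventually.of_forall fun s => ?_)
    rw [norm_mul, ← mul_assoc]
    exact mul_le_mul_of_nonneg_right (hk2 s) (norm_nonneg _)
  have h2 : 0 ≤ ∫ s, ew A η s * ‖HF T g a (t + s)‖ :=
    integral_nonneg fun s => mul_nonneg (ew_nonneg hη s) (norm_nonneg _)
  have h3 : (∫ s, ew A η s * ‖HF T g a (t + s)‖) ^ 2 ≤
      iA A * ∫ s, ew A η s * ‖HF T g a (t + s)‖ ^ 2 := by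
    refine sq_le_of_forall h2 (iA_nonneg A) fun θ hθ => ?_
    rw [← integral_ew A hη, ← integral_const_mul, ← integral_const_mul, ← integral_const_mul,
      ← integral_add (hei.const_mul _) (i2.const_mul _)]
    apply integral_mono (i1.const_mul _) ((hei.const_mul _).add (i2.const_mul _))
    intro u
    simp only [Pi.add_apply]
    set x := ‖HF T g a (t + u)‖
    have h3 : 2 * x ≤ θ + θ⁻¹ * x ^ 2 := by
      have h4 : 0 ≤ θ⁻¹ * (θ - x) ^ 2 := by positivity
      have h5 : θ⁻¹ * (θ - x) ^ 2 = θ - 2 * x + θ⁻¹ * x ^ 2 := by field_simp; ring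
      linarith
    nlinarith [mul_le_mul_of_nonneg_left h3 (ew_nonneg (A := A) hη u)]
  calc ‖HW φ T g a t‖ ^ 2 ≤ (C * ∫ s, ew A η s * ‖HF T g a (t + s)‖) ^ 2 :=
        pow_le_pow_left₀ (norm_nonneg _) h1 2
    _ = C ^ 2 * (∫ s, ew A η s * ‖HF T g a (t + s)‖) ^ 2 := by ring
    _ ≤ C ^ 2 * (iA A * ∫ s, ew A η s * ‖HF T g a (t + s)‖ ^ 2) :=
        mul_le_mul_of_nonneg_left h3 (by positivity)
    _ = _ := by ring

lemma integrable_HF {A : ℕ} (hA : 2 ≤ A) {η : ℝ} (hη : 0 < η) {β : Type} (T : Finset β)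
    (g : β → Eis) (a : β → ℂ) (t : ℝ) :
    Integrable (fun s : ℝ => ew A η s * ‖HF T g a (t + s)‖ ^ 2) := by
  have hcont : Continuous fun s => HF T g a (t + s) :=
    (continuous_HF T g a).comp (continuous_const.add continuous_id)
  exact (integrable_ew hA hη).mul_bdd (c := (∑ b ∈ T, ‖a b‖) ^ 2)
      (hcont.norm.pow 2).aestronglyMeasurable
      (Eventually.of_forall fun u => by
        rw [norm_pow, norm_norm]
        exact pow_le_pow_left₀ (norm_nonneg _) (norm_HF_le T g a _) 2)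

/-- **families of forms** -/
theorem win_sum {C η : ℝ} {A : ℕ} (hC : 0 ≤ C) (hη : 0 < η) (hA : 2 ≤ A) {φ : ℝ → ℝ}
    (hφ : WK C η A φ) {ι β : Type} (K : Finset ι) (W : ι → ℝ) (hW : ∀ k ∈ K, 0 ≤ W k)
    (T : Finset β) (g : β → Eis) (a : ι → β → ℂ) (t : ℝ) :
    ∑ k ∈ K, W k * ‖HW φ T g (a k) t‖ ^ 2 ≤
      C ^ 2 * iA A * ∫ s, ew A η s * ∑ k ∈ K, W k * ‖HF T g (a k) (t + s)‖ ^ 2 := by
  have e : (fun s => ew A η s * ∑ k ∈ K, W k * ‖HF T g (a k) (t + s)‖ ^ 2) =
      fun s => ∑ k ∈ K, W k * (ew A η s * ‖HF T g (a k) (t + s)‖ ^ 2) := by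
    funext s; rw [Finset.mul_sum]; exact Finset.sum_congr rfl fun k _ => by ring
  rw [e, integral_finsetSum _ fun k _ => (integrable_HF hA hη T g (a k) t).const_mul (W k),
    Finset.mul_sum]
  refine Finset.sum_le_sum fun k hk => ?_
  rw [integral_const_mul]
  calc W k * ‖HW φ T g (a k) t‖ ^ 2 ≤
      W k * (C ^ 2 * iA A * ∫ s, ew A η s * ‖HF T g (a k) (t + s)‖ ^ 2) :=
        mul_le_mul_of_nonneg_left (win_sq hC hη hA hφ T g (a k) t) (hW k hk)
    _ = _ := by ring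

/-! ### forms of the type `KS` (in particular `CS`, `TG`) -/

open Crest.Agent.R017.HP842 (KS)

/-- the part of the sequence in a window -/
def wn (φ : ℝ → ℝ) (α : Eis → ℂ) : Eis → ℂ := fun n => α n * (φ (Real.log (nm n)) : ℂ)

lemma wn_ne {φ : ℝ → ℝ} {α : Eis → ℂ} {n : Eis} (h : wn φ α n ≠ 0) :
    α n ≠ 0 ∧ φ (Real.log (nm n)) ≠ 0 := by
  unfold wn at h
  refine ⟨left_ne_zero_of_mul h, fun h0 => h ?_⟩
  rw [h0]; simp

lemma FS_wn {φ : ℝ → ℝ} {α : Eis → ℂ} (h : FS α) : FS (wn φ α) where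
  fin := h.fin.subset fun _ hn => (wn_ne hn).1
  prim := fun m hm => h.prim m (wn_ne hm).1

lemma FS_pw {α : Eis → ℂ} (h : FS α) (t : ℝ) : FS (fun n => α n * pw t (nm n)) where
  fin := h.fin.subset fun _ hn => left_ne_zero_of_mul hn
  prim := fun m hm => h.prim m (left_ne_zero_of_mul hm)

lemma wn_pw (φ : ℝ → ℝ) (α : Eis → ℂ) (t : ℝ) :
    wn φ (fun n => α n * pw t (nm n)) = fun n => wn φ α n * pw t (nm n) := by
  funext n; unfold wn; ring

/-- the bound of a window function -/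
lemma WK.le {C η : ℝ} {A : ℕ} {φ : ℝ → ℝ} (h : WK C η A φ) (hη : 0 < η) (hA : 2 ≤ A) (u : ℝ) :
    |φ u| ≤ C * iA A := by
  obtain ⟨k, -, hk2, hk3⟩ := h
  have h1 : ‖((φ u : ℝ) : ℂ)‖ ≤ ∫ s, C * ew A η s := by
    rw [hk3]
    refine norm_integral_le_of_norm_le ((integrable_ew hA hη).const_mul C)
      (Eventually.of_forall fun s => ?_)
    rw [norm_mul, norm_osc, mul_one]
    exact hk2 s
  rwa [integral_const_mul, integral_ew A hη, Complex.norm_real, Real.norm_eq_abs] at h1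

lemma supp_fin {α : Eis → ℂ} (h : FS α) {e : Eis} (he : e ≠ 0) :
    ∃ T : Finset Eis, (∀ m, α (e * m) ≠ 0 → m ∈ T) ∧ ∀ m ∈ T, α (e * m) ≠ 0 := by
  have hf : (Function.support fun m => α (e * m)).Finite :=
    h.fin.preimage (f := fun m => e * m) (fun x _ y _ hxy => mul_left_cancel₀ he hxy)
  refine ⟨hf.toFinset, fun m hm => hf.mem_toFinset.mpr hm, fun m hm => ?_⟩
  exact hf.mem_toFinset.mp hm

lemma pw_split {e m : Eis} (he : e ≠ 0) (hm : m ≠ 0) (t : ℝ) :
    pw t (nm (e * m)) = pw t (nm e) * pw t (nm m) := by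
  have h1 : ((nm e : ℕ) : ℝ) ≠ 0 := by exact_mod_cast (nm_pos.2 he).ne'
  have h2 : ((nm m : ℕ) : ℝ) ≠ 0 := by exact_mod_cast (nm_pos.2 hm).ne'
  rw [nm_mul]; push_cast
  exact Weight600.pw_mul h1 h2 t

lemma KS_HF (K : Eis → Eis → ℂ) {α : Eis → ℂ} (h : FS α) {e : Eis} (he : e ≠ 0) {T : Finset Eis}
    (hT : ∀ m, α (e * m) ≠ 0 → m ∈ T) (hT' : ∀ m ∈ T, α (e * m) ≠ 0) (t : ℝ) (l : Eis) :
    ‖KS K (fun m => α (e * m) * pw t (nm m)) l‖ =
      ‖HF T (fun m => e * m) (fun m => α (e * m) * K l m) t‖ := by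
  have e1 : KS K (fun m => α (e * m) * pw t (nm m)) l =
      ∑ m ∈ T, α (e * m) * pw t (nm m) * K l m := by
    unfold HP842.KS
    refine tsum_eq_sum fun m hm => ?_
    have : α (e * m) = 0 := by
      by_contra h; exact hm (hT m h)
    simp [this]
  have e2 : HF T (fun m => e * m) (fun m => α (e * m) * K l m) t =
      pw t (nm e) * ∑ m ∈ T, α (e * m) * pw t (nm m) * K l m := by
    unfold HF
    rw [Finset.mul_sum]
    refine Finset.sum_congr rfl fun m hm => ?_
    have hm0 : m ≠ 0 := fun h0 => (h.prim _ (hT' m hm)).ne_zero (by rw [h0, mul_zero])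
    rw [pw_split he hm0]; ring
  rw [e1, e2, norm_mul, Weight600.norm_pw, one_mul]

lemma KS_HW (K : Eis → Eis → ℂ) (φ : ℝ → ℝ) {α : Eis → ℂ} (h : FS α) {e : Eis} (he : e ≠ 0)
    {T : Finset Eis} (hT : ∀ m, α (e * m) ≠ 0 → m ∈ T) (hT' : ∀ m ∈ T, α (e * m) ≠ 0) (t : ℝ)
    (l : Eis) : ‖KS K (fun m => wn φ α (e * m) * pw t (nm m)) l‖ =
      ‖HW φ T (fun m => e * m) (fun m => α (e * m) * K l m) t‖ := by
  have e1 : KS K (fun m => wn φ α (e * m) * pw t (nm m)) l =
      ∑ m ∈ T, wn φ α (e * m) * pw t (nm m) * K l m := by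
    unfold HP842.KS
    refine tsum_eq_sum fun m hm => ?_
    have : α (e * m) = 0 := by
      by_contra h; exact hm (hT m h)
    simp [wn, this]
  have e2 : HW φ T (fun m => e * m) (fun m => α (e * m) * K l m) t =
      pw t (nm e) * ∑ m ∈ T, wn φ α (e * m) * pw t (nm m) * K l m := by
    unfold HW
    rw [Finset.mul_sum]
    refine Finset.sum_congr rfl fun m hm => ?_
    have hm0 : m ≠ 0 := fun h0 => (h.prim _ (hT' m hm)).ne_zero (by rw [h0, mul_zero])
    rw [pw_split he hm0]; unfold wn; ring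
  rw [e1, e2, norm_mul, Weight600.norm_pw, one_mul]

/-- **(W3)** removal of a window, mean squares with nonnegative weights -/
theorem KS_win {C η : ℝ} {A : ℕ} (hC : 0 ≤ C) (hη : 0 < η) (hA : 2 ≤ A) {φ : ℝ → ℝ}
    (hφ : WK C η A φ) (K : Eis → Eis → ℂ) {α : Eis → ℂ} (h : FS α) {e : Eis} (he : e ≠ 0)
    {ι : Type} (S : Finset ι) (W : ι → ℝ) (hW : ∀ x ∈ S, 0 ≤ W x) (l : ι → Eis) (t : ℝ) :
    ∑ x ∈ S, W x * ‖KS K (fun m => wn φ α (e * m) * pw t (nm m)) (l x)‖ ^ 2 ≤
      C ^ 2 * iA A * ∫ s, ew A η s *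
        ∑ x ∈ S, W x * ‖KS K (fun m => α (e * m) * pw (t + s) (nm m)) (l x)‖ ^ 2 := by
  obtain ⟨T, hT, hT'⟩ := supp_fin h he
  simp_rw [KS_HW K φ h he hT hT', KS_HF K h he hT hT']
  exact win_sum hC hη hA hφ S W hW T (fun m => e * m) (fun x m => α (e * m) * K (l x) m) t

/-- **(W2)** -/
theorem KS_windows {I : Finset ℕ} {φ : ℕ → ℝ → ℝ} (K : Eis → Eis → ℂ) {α : Eis → ℂ} (h : FS α)
    (hφ : ∀ n, α n ≠ 0 → ∑ i ∈ I, φ i (Real.log (nm n)) = 1) {e : Eis} (he : e ≠ 0)
    {ι : Type} (S : Finset ι) (W : ι → ℝ) (hW : ∀ x ∈ S, 0 ≤ W x) (l : ι → Eis) (t : ℝ) :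
    ∑ x ∈ S, W x * ‖KS K (fun m => α (e * m) * pw t (nm m)) (l x)‖ ^ 2 ≤
      (I.card : ℝ) * ∑ i ∈ I, ∑ x ∈ S,
        W x * ‖KS K (fun m => wn (φ i) α (e * m) * pw t (nm m)) (l x)‖ ^ 2 := by
  obtain ⟨T, hT, hT'⟩ := supp_fin h he
  have e0 : ∀ x, KS K (fun m => α (e * m) * pw t (nm m)) (l x) =
      ∑ i ∈ I, KS K (fun m => wn (φ i) α (e * m) * pw t (nm m)) (l x) := by
    intro x
    have e1 : KS K (fun m => α (e * m) * pw t (nm m)) (l x) =
        ∑ m ∈ T, α (e * m) * pw t (nm m) * K (l x) m := by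
      unfold HP842.KS
      refine tsum_eq_sum fun m hm => ?_
      have : α (e * m) = 0 := by
        by_contra h; exact hm (hT m h)
      simp [this]
    have e2 : ∀ i, KS K (fun m => wn (φ i) α (e * m) * pw t (nm m)) (l x) =
        ∑ m ∈ T, wn (φ i) α (e * m) * pw t (nm m) * K (l x) m := by
      intro i
      unfold HP842.KS
      refine tsum_eq_sum fun m hm => ?_
      have : α (e * m) = 0 := by
        by_contra h; exact hm (hT m h)
      simp [wn, this]
    rw [e1, Finset.sum_congr rfl fun i _ => e2 i, Finset.sum_comm]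
    refine Finset.sum_congr rfl fun m hm => ?_
    have h1 := hφ _ (hT' m hm)
    unfold wn
    have h2 : (∑ i ∈ I, (φ i (Real.log (nm (e * m))) : ℂ)) = 1 := by
      rw [← Complex.ofReal_sum, h1, Complex.ofReal_one]
    calc α (e * m) * pw t (nm m) * K (l x) m
        = (∑ i ∈ I, (φ i (Real.log (nm (e * m))) : ℂ)) *
          (α (e * m) * pw t (nm m) * K (l x) m) := by rw [h2, one_mul]
      _ = _ := by rw [Finset.sum_mul]; exact Finset.sum_congr rfl fun i _ => by ring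
  rw [Finset.sum_comm, Finset.mul_sum]
  refine Finset.sum_le_sum fun x hx => ?_
  rw [e0]
  have h3 := CR2.norm_sum_sq_le_card I
    (fun i => KS K (fun m => wn (φ i) α (e * m) * pw t (nm m)) (l x))
  calc W x * ‖∑ i ∈ I, KS K (fun m => wn (φ i) α (e * m) * pw t (nm m)) (l x)‖ ^ 2 ≤
      W x * ((I.card : ℝ) * ∑ i ∈ I,
        ‖KS K (fun m => wn (φ i) α (e * m) * pw t (nm m)) (l x)‖ ^ 2) :=
        mul_le_mul_of_nonneg_left h3 (hW x hx)
    _ = _ := by rw [Finset.mul_sum, Finset.mul_sum, Finset.mul_sum]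
                exact Finset.sum_congr rfl fun i _ => by ring

/-! ### absorption -/

lemma ew_shift {A J : ℕ} (hAJ : J + 2 ≤ A) {η : ℝ} (hη : 0 < η) (s t : ℝ) :
    ew A η s * (1 + η * |t + s|) ^ J ≤ (1 + η * |t|) ^ J * ew 2 η s := by
  have h1 : 1 + η * |t + s| ≤ (1 + η * |t|) * (1 + η * |s|) := by
    have h2 := abs_add_le t s
    have h3 := mul_le_mul_of_nonneg_left h2 hη.le
    have h4 : 0 ≤ η * |t| * (η * |s|) := by positivity
    nlinarith
  have h5 : (1 + η * |t + s|) ^ J ≤ (1 + η * |t|) ^ J * (1 + η * |s|) ^ J := by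
    rw [← mul_pow]; exact pow_le_pow_left₀ (by positivity) h1 J
  unfold ew
  have h6 : (1 + η * |s|) ^ J * ((1 + η * |s|) ^ A)⁻¹ ≤ ((1 + η * |s|) ^ 2)⁻¹ := by
    have hp : (0 : ℝ) < 1 + η * |s| := by positivity
    have h7 : (1 + η * |s|) ^ J * (1 + η * |s|) ^ 2 ≤ (1 + η * |s|) ^ A := by
      rw [← pow_add]
      exact pow_le_pow_right₀ (by linarith [mul_nonneg hη.le (abs_nonneg s)]) hAJ
    rw [← div_eq_mul_inv, div_le_iff₀ (by positivity), inv_mul_eq_div, le_div_iff₀ (by positivity)]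
    exact h7
  calc η * ((1 + η * |s|) ^ A)⁻¹ * (1 + η * |t + s|) ^ J ≤
      η * ((1 + η * |s|) ^ A)⁻¹ * ((1 + η * |t|) ^ J * (1 + η * |s|) ^ J) :=
        mul_le_mul_of_nonneg_left h5 (by positivity)
    _ = (1 + η * |t|) ^ J * (η * ((1 + η * |s|) ^ J * ((1 + η * |s|) ^ A)⁻¹)) := by ring
    _ ≤ (1 + η * |t|) ^ J * (η * ((1 + η * |s|) ^ 2)⁻¹) :=
        mul_le_mul_of_nonneg_left (mul_le_mul_of_nonneg_left h6 hη.le) (by positivity)

/-- **(W4)** absorption, for a finite family `F i` of functions of the height -/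
theorem absorb {ι : Type} [Fintype ι] {A J : ℕ} (hAJ : J + 2 ≤ A) {η a b E₀ T₀ : ℝ} (hη : 0 < η)
    (ha : 0 ≤ a) (hb : 0 ≤ b) (hE : 0 ≤ E₀) (F : ι → ℝ → ℝ) (hF0 : ∀ i t, 0 ≤ F i t)
    (hFm : ∀ i, AEStronglyMeasurable (F i)) (hFb : ∀ i t, F i t ≤ T₀)
    (h : ∀ i t, F i t ≤ E₀ * (1 + η * |t|) ^ J + a * (∑ j, ∫ s, ew A η s * F j (t + s)) +
      b * ∑ j, F j t)
    (hab : (Fintype.card ι : ℝ) * (a * iA 2 + b) ≤ 1 / 2) (i : ι) (t : ℝ) :
    F i t ≤ 2 * E₀ * (1 + η * |t|) ^ J := by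
  have hT0 : 0 ≤ T₀ := (hF0 i t).trans (hFb i t)
  have hA : 2 ≤ A := by omega
  have one_le : ∀ t : ℝ, (1 : ℝ) ≤ (1 + η * |t|) ^ J := fun t =>
    one_le_pow₀ (by linarith [mul_nonneg hη.le (abs_nonneg t)])
  have key : ∀ n : ℕ, ∀ i t, F i t ≤ (2 * E₀ + T₀ / 2 ^ n) * (1 + η * |t|) ^ J := by
    intro n
    induction n with
    | zero =>
      intro i t
      rw [pow_zero, div_one]
      calc F i t ≤ T₀ := hFb i t
        _ ≤ (2 * E₀ + T₀) * 1 := by linarith
        _ ≤ _ := mul_le_mul_of_nonneg_left (one_le t) (by positivity)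
    | succ n ih =>
      intro i t
      set M := 2 * E₀ + T₀ / 2 ^ n with hM
      have hM0 : 0 ≤ M := by positivity
      set w := (1 + η * |t|) ^ J with hw
      have hw0 : 0 ≤ w := by positivity
      have h1 : ∀ j, ∫ s, ew A η s * F j (t + s) ≤ M * w * iA 2 := by
        intro j
        have hm : AEStronglyMeasurable (fun s => F j (t + s)) :=
          (hFm j).comp_quasiMeasurePreserving
            (measurePreserving_add_left volume t).quasiMeasurePreserving
        have i1 : Integrable fun s => ew A η s * F j (t + s) :=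
          (integrable_ew hA hη).mul_bdd (c := T₀) hm (Eventually.of_forall fun s => by
            rw [Real.norm_of_nonneg (hF0 j _)]; exact hFb j _)
        calc ∫ s, ew A η s * F j (t + s) ≤ ∫ s, M * w * ew 2 η s := by
              refine integral_mono i1 ((integrable_ew le_rfl hη).const_mul _) fun s => ?_
              calc ew A η s * F j (t + s) ≤ ew A η s * (M * (1 + η * |t + s|) ^ J) :=
                    mul_le_mul_of_nonneg_left (ih j (t + s)) (ew_nonneg hη s)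
                _ = M * (ew A η s * (1 + η * |t + s|) ^ J) := by ring
                _ ≤ M * (w * ew 2 η s) :=
                    mul_le_mul_of_nonneg_left (ew_shift hAJ hη s t) hM0
                _ = _ := by ring
          _ = M * w * iA 2 := by rw [integral_const_mul, integral_ew 2 hη]
      have h2 : ∑ j, ∫ s, ew A η s * F j (t + s) ≤ (Fintype.card ι : ℝ) * (M * w * iA 2) := by
        calc (∑ j, ∫ s, ew A η s * F j (t + s)) ≤ ∑ _j : ι, M * w * iA 2 :=
              Finset.sum_le_sum fun j _ => h1 j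
          _ = _ := by rw [Finset.sum_const, Finset.card_univ, nsmul_eq_mul]
      have h3 : ∑ j, F j t ≤ (Fintype.card ι : ℝ) * (M * w) := by
        calc ∑ j, F j t ≤ ∑ _j : ι, M * w := Finset.sum_le_sum fun j _ => ih j t
          _ = _ := by rw [Finset.sum_const, Finset.card_univ, nsmul_eq_mul]
      have h4 : E₀ * w + a * ((Fintype.card ι : ℝ) * (M * w * iA 2)) +
          b * ((Fintype.card ι : ℝ) * (M * w)) =
          (E₀ + (Fintype.card ι : ℝ) * (a * iA 2 + b) * M) * w := by ring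
      have h5 : (Fintype.card ι : ℝ) * (a * iA 2 + b) * M ≤ 1 / 2 * M :=
        mul_le_mul_of_nonneg_right hab hM0
      have h6 : E₀ + 1 / 2 * M = 2 * E₀ + T₀ / 2 ^ (n + 1) := by
        rw [hM, pow_succ]; field_simp; ring
      calc F i t ≤ E₀ * w + a * (∑ j, ∫ s, ew A η s * F j (t + s)) + b * ∑ j, F j t := h i t
        _ ≤ E₀ * w + a * ((Fintype.card ι : ℝ) * (M * w * iA 2)) +
            b * ((Fintype.card ι : ℝ) * (M * w)) := by
            exact add_le_add (add_le_add le_rfl (mul_le_mul_of_nonneg_left h2 ha))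
              (mul_le_mul_of_nonneg_left h3 hb)
        _ = (E₀ + (Fintype.card ι : ℝ) * (a * iA 2 + b) * M) * w := h4
        _ ≤ (2 * E₀ + T₀ / 2 ^ (n + 1)) * w := by
            apply mul_le_mul_of_nonneg_right _ hw0
            linarith
  have hlim : Tendsto (fun n : ℕ => (2 * E₀ + T₀ / 2 ^ n) * (1 + η * |t|) ^ J) atTop
      (𝓝 ((2 * E₀ + 0) * (1 + η * |t|) ^ J)) := by
    refine Tendsto.mul_const _ (Tendsto.const_add _ ?_)
    have h7 := (tendsto_pow_atTop_nhds_zero_of_lt_one (r := (1 / 2 : ℝ)) (by norm_num)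
      (by norm_num)).const_mul T₀
    rw [mul_zero] at h7
    refine h7.congr fun n => ?_
    rw [one_div, inv_pow, div_eq_mul_inv]
  rw [add_zero] at hlim
  exact ge_of_tendsto' hlim fun n => key n i t

end Crest.Agent.R017.Win813
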