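import Crest.Agent.R017.StD_828
import Crest.Agent.R017.Win_813

/-!
# Row 17, R8/P1: removal of the level weights (helper828)

* `wD i u = hD (u - i log 2)`, `oD J z = Σ_{i ∈ J} wD i (log N z)`
* `multi_win` : mean squares of linear forms with the weight `oD J (g b)`, localised in a second
  variable `l b`
-/

set_option autoImplicit false

noncomputable section

open Finset MeasureTheory
open scoped ComplexConjugate

namespace Crest.Agent.R017.StE828

open Crest.Agent.R012 Crest.Agent.R012.Eis Crest.Agent.R012.Div277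
open Crest.Agent.R012.Weight600 (osc norm_osc pw)
open Crest.Agent.R017.FE47 Crest.Agent.R017.Win813

/-- the dyadic windows of the level -/
def wD (i : ℕ) (u : ℝ) : ℝ := hD (u - Real.log 2 * i)

/-- the weight with the windows `i ∈ J` -/
def oD (J : Finset ℕ) (z : Eis) : ℂ := ∑ i ∈ J, ((wD i (Real.log (nm z)) : ℝ) : ℂ)

lemma hD_ne {u : ℝ} (h : hD u ≠ 0) : |u| ≤ Real.log 2 := by
  apply hD_supp
  unfold cx
  exact_mod_cast h

lemma hD_zero_of_le {u : ℝ} (h : u ≤ -Real.log 2) : hD u = 0 := by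
  have h1 : cx hD u = 0 := by
    rw [cx_hD]
    apply HBI146.wd_zero_of_le
    have : Real.exp u ≤ Real.exp (-Real.log 2) := Real.exp_le_exp.mpr h
    rw [Real.exp_neg, Real.exp_log (by norm_num)] at this
    linarith
  unfold cx at h1
  exact_mod_cast h1

lemma hD_zero_of_ge {u : ℝ} (h : Real.log 2 ≤ u) : hD u = 0 := by
  have h1 : cx hD u = 0 := by
    rw [cx_hD]
    apply HBI146.wd_zero_of_ge
    have : Real.exp (Real.log 2) ≤ Real.exp u := Real.exp_le_exp.mpr h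
    rwa [Real.exp_log (by norm_num)] at this
  unfold cx at h1
  exact_mod_cast h1

lemma wD_ne {i : ℕ} {u : ℝ} (h : wD i u ≠ 0) : |u - Real.log 2 * i| ≤ Real.log 2 := hD_ne h

lemma hD_bd (u : ℝ) : ‖((hD u : ℝ) : ℂ)‖ ≤ 1 := by
  rw [Complex.norm_real, Real.norm_eq_abs]
  unfold hD
  have h1 := HBI146.cutR_nonneg (Real.exp u)
  have h2 := HBI146.cutR_le_one (Real.exp u)
  have h3 := HBI146.cutR_nonneg (2 * Real.exp u)
  have h4 := HBI146.cutR_le_one (2 * Real.exp u)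
  rw [abs_le]
  constructor <;> linarith

lemma wD_WK (A : ℕ) : ∃ C : ℝ, 0 ≤ C ∧ ∀ i : ℕ, WK C 2 A (wD i) := by
  obtain ⟨C, hC, h⟩ := wi_ker A
  refine ⟨C, hC, fun i => ?_⟩
  have h1 := h 2 (Real.log 2 * i) (by norm_num)
  have e : wi (2 / 2) (Real.log 2 * i) = wD i := by
    funext u
    unfold wi wD
    rw [div_self two_ne_zero, div_one]
  rwa [e] at h1

/-- the windows below `M` are a partition of unity on `[0, (M - 1) log 2]` -/
lemma sum_wD {M : ℕ} {u : ℝ} (h0 : 0 ≤ u) (hM : u + Real.log 2 ≤ Real.log 2 * M) :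
    ∑ i ∈ range M, wD i u = 1 := by
  have h1 := pu_hD.one u h0
  rw [← h1]
  symm
  refine tsum_eq_sum fun i hi => ?_
  rw [mem_range, not_lt] at hi
  by_contra hne
  have h2 := (abs_le.mp (hD_ne hne)).1
  have hl := log2_pos
  have h3 : Real.log 2 * M ≤ Real.log 2 * i :=
    mul_le_mul_of_nonneg_left (by exact_mod_cast hi) hl.le
  exact hne (hD_zero_of_le (by linarith))

lemma log_nm_nonneg (z : Eis) : 0 ≤ Real.log (nm z) := by
  rcases Nat.eq_zero_or_pos (nm z) with h | h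
  · rw [h]; simp
  · exact Real.log_nonneg (by exact_mod_cast h)

lemma oD_zero {n : ℕ} {z : Eis} (h : Real.log 2 * n ≤ Real.log (nm z)) :
    oD (range n) z = 0 := by
  unfold oD
  refine Finset.sum_eq_zero fun i hi => ?_
  have hl := log2_pos
  have h1 : (i : ℝ) + 1 ≤ n := by exact_mod_cast mem_range.1 hi
  have h2 : wD i (Real.log (nm z)) = 0 := by
    unfold wD
    apply hD_zero_of_ge
    nlinarith
  rw [h2]; simp

lemma oD_one {n : ℕ} {z : Eis} (h : Real.log (nm z) + Real.log 2 ≤ Real.log 2 * n) :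
    oD (range n) z = 1 := by
  unfold oD
  rw [← Complex.ofReal_sum, sum_wD (log_nm_nonneg z) h, Complex.ofReal_one]

/-- the localisation -/
def lD (I : Finset ℕ) (z : Eis) : ℂ := ∑ i ∈ I, ((wD i (Real.log (nm z)) : ℝ) : ℂ)

/-- **removal of the level weight**, localised in a second variable -/
theorem multi_win {A : ℕ} (hA : 2 ≤ A) : ∃ C : ℝ, 0 ≤ C ∧ ∀ {β ι : Type} (T : Finset β)
    (g l : β → Eis) (I J : Finset ℕ) (K : Finset ι) (W : ι → ℝ)
    (a : ι → β → ℂ), (∀ k ∈ K, 0 ≤ W k) →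
    ∑ k ∈ K, W k * ‖∑ b ∈ T, a k b * (lD I (l b) * oD J (g b))‖ ^ 2 ≤
      C * (I.card * (J.card : ℝ) ^ 2) * ∑ i ∈ I, ∫ s, ew A 2 s * ∑ k ∈ K, W k *
        ‖HF T g (fun b => a k b * ((wD i (Real.log (nm (l b))) : ℝ) : ℂ)) s‖ ^ 2 := by
  classical
  obtain ⟨C₀, hC₀, hk⟩ := wD_WK A
  have hiA := iA_nonneg A
  refine ⟨C₀ ^ 2 * iA A, by positivity, ?_⟩
  intro β ι T g l I J K W a hW
  have e : ∀ k, ∑ b ∈ T, a k b * (lD I (l b) * oD J (g b)) = ∑ p ∈ I ×ˢ J, HW (wD p.2) T g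
      (fun b => a k b * ((wD p.1 (Real.log (nm (l b))) : ℝ) : ℂ)) 0 := by
    intro k
    unfold HW
    rw [sum_comm]
    refine sum_congr rfl fun b hb => ?_
    unfold lD oD
    rw [sum_mul_sum, ← sum_product', mul_sum]
    refine sum_congr rfl fun p _ => ?_
    rw [Weight600.pw_zero_left]
    ring
  have hcard : ((I ×ˢ J).card : ℝ) = I.card * J.card := by
    rw [card_product]; push_cast; ring
  have h2 : ∀ k ∈ K, W k * ‖∑ b ∈ T, a k b * (lD I (l b) * oD J (g b))‖ ^ 2 ≤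
      (I.card * J.card : ℝ) * ∑ p ∈ I ×ˢ J, W k * ‖HW (wD p.2) T g
        (fun b => a k b * ((wD p.1 (Real.log (nm (l b))) : ℝ) : ℂ)) 0‖ ^ 2 := by
    intro k hk'
    rw [e k, ← mul_sum, ← mul_assoc, mul_comm (I.card * J.card : ℝ), mul_assoc]
    refine mul_le_mul_of_nonneg_left ?_ (hW k hk')
    rw [← hcard]
    exact (pow_le_pow_left₀ (norm_nonneg _) (norm_sum_le _ _) 2).trans sq_sum_le_card_mul_sum_sq
  refine (sum_le_sum h2).trans ?_
  rw [← mul_sum, sum_comm]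
  have h5 : ∀ p ∈ I ×ˢ J, ∑ k ∈ K, W k * ‖HW (wD p.2) T g
      (fun b => a k b * ((wD p.1 (Real.log (nm (l b))) : ℝ) : ℂ)) 0‖ ^ 2 ≤
      C₀ ^ 2 * iA A * ∫ s, ew A 2 s * ∑ k ∈ K, W k *
        ‖HF T g (fun b => a k b * ((wD p.1 (Real.log (nm (l b))) : ℝ) : ℂ)) s‖ ^ 2 := by
    intro p _
    have h6 := win_sum hC₀ (by norm_num : (0 : ℝ) < 2) hA (hk p.2) K W hW T g
      (fun k b => a k b * ((wD p.1 (Real.log (nm (l b))) : ℝ) : ℂ)) 0
    simpa only [zero_add] using h6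
  refine (mul_le_mul_of_nonneg_left (sum_le_sum h5) (by positivity)).trans (le_of_eq ?_)
  rw [sum_product]
  simp only [sum_const, nsmul_eq_mul]
  rw [← mul_sum, ← mul_sum]
  ring

end Crest.Agent.R017.StE828
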