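import Crest.Agent.R017.E5L2_770
import Crest.Agent.R017.SSb_828
import Crest.Agent.R017.StE_828

/-!
# Row 17, R8: the official structured function (helper770, text of helper828)

* `JS n` : the classes of norm `≤ 2^n`;  `SfO` : the structured function of the near-equal boxes
* `at_SfO` : `SfO` at a base datum in helper828's form, `at_SfO54` in helper54's form
* `strU_SfO`, `tailU_SfO` : `StrU`, `TailU` from one level
-/

set_option autoImplicit false

noncomputable section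

open Finset
open scoped ComplexConjugate

namespace Crest.Agent.R017.Sf770

open Crest.Agent.R012 Crest.Agent.R012.Eis
open Crest.Agent.R017.HP842 (Pc pc)
open Crest.Agent.R017.B770 Crest.Agent.R017.Prov71
open Crest.Agent.R017.E5B71 Crest.Agent.R017.E5P571
open Crest.Agent.R017.C70 (JW OKJ okJ_JW)
open Crest.Agent.R017.StD828 (ln)
open Crest.Agent.R017.StE828 (wD oD)
open Crest.Agent.R017.E5L770

/-- the classes of norm `≤ 2^n` (no cut of the square part) -/
def JS (n : ℕ) : Finset (Eis × Eis) := JW (Real.sqrt (2 ^ n)) (1 / 10) (2 ^ n)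

lemma okJ_JS (n : ℕ) : OKJ (JS n) := okJ_JW _ _ _

lemma lv_eq (x : Eis × Eis) : lv x = Real.log (nm (ln x)) := rfl

lemma omL_eq (i : ℕ) (x : Eis × Eis) : omL i x = ((wD i (Real.log (nm (ln x))) : ℝ) : ℂ) := rfl

lemma omP_eq (n : ℕ) (x : Eis × Eis) : omP n x = oD (range n) (ln x) := rfl

lemma PTb_eq (ι : Type*) [Fintype ι] (Y : ℕ) (B0 : ℝ) : SSb828.PTb ι Y B0 = SSb54.PTb ι Y B0 := rfl

lemma SSb_eq {ι : Type*} [Fintype ι] (f : ι → Eis → ℂ) (Y : ℕ) (B0 E0 : ℝ)
    (J : Finset (Eis × Eis)) (om : Eis × Eis → ℂ) (k : Eis) :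
    SSb828.SSb f Y B0 E0 J om k = SSb54.SSb B0 f Y E0 J om k := rfl

variable {Λ : Type*} (π : Λ → DPar) (h : ℝ → ℝ)

/-- **the official structured function** -/
def SfO (e0 r : ℝ) : SF Λ := SfP π h e0 r bfO (fun l N z => JS (nL l N z)) nL

/-- **one level of the official structured function** -/
def SfOV (e0 r : ℝ) (i : ℕ) : SF Λ := SfV π h e0 r bfO (fun l N z => JS (nL l N z)) i

/-- number of levels of a base datum -/
def nO (a : Bd) : ℕ := nL a.l (a3 a) a.z

theorem at_SfO (e0 r : ℝ) (lam : Λ × Eis) (a : Bd) (k : Eis) :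
    SF.at (SfO π h e0 r) lam a k = (pC : ℂ) *
      SSb828.SSb (fun i : Fin 3 => pc h (Pt (π lam.1) lam.2 ((![a.us 2, a.us 3, a.us 4] : _) i)))
        ⌊Real.exp (a3 a + r)⌋₊ (Real.exp (a3 a + a.z - a.l / 2)) (Real.exp (e0 * a.l))
        (JS (nO a)) (fun x => oD (range (nO a)) (ln x)) k := by
  unfold SF.at SfO SfP SfJ
  simp only [sum_a3]
  rfl

theorem at_SfO54 (e0 r : ℝ) (lam : Λ × Eis) (a : Bd) (k : Eis) :
    SF.at (SfO π h e0 r) lam a k = (pC : ℂ) *
      SSb54.SST (SSb54.PTb (Fin 3) ⌊Real.exp (a3 a + r)⌋₊ (Real.exp (a3 a + a.z - a.l / 2)))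
        (fun i : Fin 3 => pc h (Pt (π lam.1) lam.2 ((![a.us 2, a.us 3, a.us 4] : _) i)))
        (Real.exp (e0 * a.l)) (JS (nO a)) (fun x => oD (range (nO a)) (ln x)) k := by
  rw [at_SfO]
  rfl

/-- top level of a base datum (828's `topS`) -/
def tO (a : Bd) : ℝ := min (2 * a3 a - a.l) (3 / 4 * a3 a) + 11 / 5 * a.z

lemma nO_eq (a : Bd) : nO a = ⌊tO a / Real.log 2⌋₊ + 1 := rfl

/-- the plateau covers the top level -/
lemma lt_nO (a : Bd) : tO a ≤ Real.log 2 * nO a := by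
  have h2 : 0 < Real.log 2 := Real.log_pos (by norm_num)
  rw [nO_eq]
  push_cast
  have h := Nat.lt_floor_add_one (tO a / Real.log 2)
  rw [div_lt_iff₀ h2] at h
  linarith

lemma nO_le {a : Bd} (h0 : 0 ≤ tO a) : Real.log 2 * nO a ≤ tO a + Real.log 2 := by
  have h2 : 0 < Real.log 2 := Real.log_pos (by norm_num)
  rw [nO_eq]
  push_cast
  have h := Nat.floor_le (a := tO a / Real.log 2) (by positivity)
  rw [le_div_iff₀ h2] at h
  linarith

/-- **StrU for the official structured function** -/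
theorem strU_SfO (hP : ∀ lam, (π lam).OK) {θ A d μ : ℝ} (hA : 2 / 3 ≤ A) (e0 r : ℝ)
    (H : UB (lev (Real.log 2) S5) Dq (fun lam a ps => MidF π h (SfOV π h e0 r a.2) lam a.1 ps)
      (SqL A d) (alL al5) fun q => T5 θ (dn q.1, q.2) - μ) :
    StrU π h θ (SfO π h e0 r) A d μ :=
  strU_of_lev π h hP hA e0 r bfO _ H

/-- **TailU for the official structured function** -/
theorem tailU_SfO {θ A d μ : ℝ} (hA : 2 / 3 ≤ A) (e0 r : ℝ)
    (H : ∀ R : Λ → ℝ, (∀ lam, 0 ≤ R lam) →
      UB (lev (Real.log 2) S5) Dq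
        (fun lam a ps => TailS π h (SfOV π h e0 r a.2) R lam a.1 ps)
        (SqL A d) (alL al5) fun q => T5 θ (dn q.1, q.2) - μ) :
    TailU π h θ (SfO π h e0 r) A d μ :=
  tailU_of_lev π h hA e0 r bfO _ H

end Crest.Agent.R017.Sf770
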