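import Crest.Agent.R017.E4zf_92
import Crest.Agent.R017.Sf_770

/-!
# Row 17, C70/E4 (x-side): the window of helper770 is full (helper679)

* `jfull_JS` : helper92's `JFull` at `JS ∘ nL`
-/

set_option autoImplicit false

noncomputable section

open Finset

namespace Crest.Agent.R017.E4zm679

open Crest.Agent.R012 Crest.Agent.R012.Eis Crest.Agent.R012.Mob705
open Crest.Agent.R017.C70 (JW JC)
open Crest.Agent.R017.E5L770
open Crest.Agent.R017.Sf770 (JS)
open Crest.Agent.R017.E4zf92 (JFull)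

open Classical in
lemma mem_JS {n : ℕ} {d j : Eis} (hd : IsPrim d) (hs : Squarefree d) (hj : JC j)
    (h : (nm (j * d ^ 2) : ℝ) ≤ 2 ^ n) : (d, j) ∈ JS n := by
  have hj0 : j ≠ 0 := E5b54.JC_ne_zero hj
  have h0 : j * d ^ 2 ≠ 0 := mul_ne_zero hj0 (pow_ne_zero 2 hd.ne_zero)
  have h1 : (1 : ℝ) ≤ nm (j * d ^ 2) := by exact_mod_cast nm_pos.mpr h0
  have hj1 : (1 : ℝ) ≤ nm j := by exact_mod_cast nm_pos.mpr hj0
  have e : (nm (j * d ^ 2) : ℝ) = nm j * (nm d : ℝ) ^ 2 := by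
    rw [nm_mul, nm_pow]
    push_cast
    rfl
  have h2 : (nm d : ℝ) ≤ Real.sqrt (2 ^ n) := by
    refine Real.le_sqrt_of_sq_le (le_trans ?_ h)
    rw [e]
    exact le_mul_of_one_le_left (by positivity) hj1
  have h3 : (nm j : ℝ) ≤ 2 ^ n := by
    refine le_trans ?_ h
    exact_mod_cast Div277.nm_le_of_dvd h0 (dvd_mul_right _ _)
  unfold Sf770.JS JW
  rw [mem_filter, mem_product, mem_primBall, mem_ball]
  exact ⟨⟨⟨Nat.le_floor h2, hd⟩, Nat.le_floor h3⟩, hs, hj, by linarith, h⟩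

/-- **the window is full** -/
theorem jfull_JS : JFull (fun l N z => JS (nL l N z)) :=
  fun _ _ _ _ _ hd hs hj h => mem_JS hd hs hj h

end Crest.Agent.R017.E4zm679
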