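import Crest.Agent.R017.P1g_54

/-!
# Row 17, R8/P1 (helper54): the official form

* `parOK_Sq5` : the parents of the exact square
* `P1_of` : `P1 π h (SfP π h e0 r bfO Jo nL) A d` from `P10` and `P1M` over `ParS A d`, `LS0 d`
-/

set_option autoImplicit false

noncomputable section

namespace Crest.Agent.R017.P1t54

open Crest.Agent.R012 Crest.Agent.R012.Eis
open Crest.Agent.R017.FE47 (PU cx)
open Crest.Agent.R017.P1l54 Crest.Agent.R017.P1g54
open Crest.Agent.R017.B770 Crest.Agent.R017.Prov71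
open Crest.Agent.R017.E5B71 Crest.Agent.R017.E5L770

/-- the parents: the configurations of the exact square -/
def ParS (A d : ℝ) : Set (Fin 3 ⊕ Fin 5 → ℝ) := {p | ∃ w, Sq5 A d p w}

/-- the loss -/
def LS0 (d : ℝ) (p : Fin 3 ⊕ Fin 5 → ℝ) : ℝ :=
  max 0 (5 / 4 * cN p - cκ p) + 3 / 4 * d * cκ p

lemma parOK_Sq5 {A d : ℝ} (hA : 9 / 10 ≤ A) {p : Fin 3 ⊕ Fin 5 → ℝ} (hp : p ∈ ParS A d) :
    ParOK p := by
  obtain ⟨w, hw⟩ := hp
  have hκ0 := hw.κ0
  have hκp : 0 < cκ p := by linarith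
  obtain ⟨a1, a2, a3, a4⟩ := hw.anti
  have hq := hw.q
  have hmo := hw.w0 .mo
  have hnear := hw.near
  have hAκ : 9 / 10 * cκ p ≤ A * cκ p := mul_le_mul_of_nonneg_right hA hκp.le
  have eN : cN p = cu p 2 + cu p 3 + cu p 4 := rfl
  have eM : cM p = cu p 0 + cu p 1 := rfl
  have h4 : 0 ≤ cu p 4 := by linarith
  have hx0 : 0 ≤ cx' p := by
    have := hw.tl.adm.1
    rw [div_nonneg_iff] at this
    rcases this with h | h
    · exact h.1
    · linarith [h.2]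
  have hx1 : cx' p ≤ w .am := by
    have := hw.tl.adm.2.1
    rwa [div_le_div_iff_of_pos_right hκp] at this
  refine ⟨hκ0, hw.κ1, fun i => ?_, by linarith, by linarith, hx0, hx1.trans hw.c⟩
  fin_cases i
  · show 0 ≤ cu p 0; linarith
  · show 0 ≤ cu p 1; linarith
  · show 0 ≤ cu p 2; linarith
  · show 0 ≤ cu p 3; linarith
  · exact h4

/-- **P1, official form** -/
theorem P1_of {Λ : Type*} {π : Λ → DPar} (hπ : ∀ l, (π l).OK) {h : ℝ → ℝ} {c : ℝ} (hpu : PU h c)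
    {Rh : ℝ} (hRh0 : 0 ≤ Rh) (hRh : ∀ u, cx h u ≠ 0 → |u| ≤ Rh) {e0 r : ℝ} (he0 : 0 ≤ e0)
    (he1 : e0 ≤ 1) (hr : Rh ≤ r) {A d : ℝ} (hd : 0 ≤ d) (hA : 9 / 10 ≤ A)
    (h8 : P10 π h e0 (ParS A d) (LS0 d)) (h9 : P1M π h e0 (ParS A d) (LS0 d)) :
    P1 π h (SfP π h e0 r bfO Jo nL) A d := by
  intro R hR
  have h1 := P1g hπ hpu hRh0 hRh he0 he1 hr (Par := ParS A d) (L0 := LS0 d)
    (fun p hp => parOK_Sq5 hA hp) (fun p hp => by
      obtain ⟨w, hw⟩ := hp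
      have := hw.κ0
      unfold LS0
      have : 0 ≤ 3 / 4 * d * cκ p := by
        apply mul_nonneg (by linarith); linarith
      linarith [le_max_left 0 (5 / 4 * cN p - cκ p)]) h8 h9 R hR
  have e : (fun q : (Fin 3 ⊕ Fin 5 → ℝ) × (Kd → ℝ) => cκ q.1 + cN q.1 + cx' q.1 + LS0 d q.1) =
      E1x d := by
    funext q
    unfold LS0 E1x
    ring
  rw [e] at h1
  exact h1

end Crest.Agent.R017.P1t54
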