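import Crest.Agent.R017.ExpRules_911

/-!
# Row 17, section D: complete families, definition (helper702)

`r` : exponents over the cube-free `k`; `rc` : exponents over **all** admissible `k`.
-/

set_option autoImplicit false

namespace Crest.Agent.R017.ExpC702

open Crest.Agent.R017.ER911

/-- complete families (all admissible `k`) from cube-free ones -/
structure ExpC (r rc : EF) : Prop where
  le : ∀ (κ : ℝ) (Y : Multiset ℝ) (m a E : ℝ), 0 ≤ κ → Ok Y m a →
    (∀ κ' : ℝ, 0 ≤ κ' → κ' ≤ κ → r κ' Y m a + (κ - κ') / 3 ≤ E) → rc κ Y m a ≤ E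

/-- complete ideal side from the cube-free bounds -/
theorem ExpC.ideal {r rc : EF} (C : ExpC r rc) {κ m a e : ℝ} {Y : Multiset ℝ} (hκ : 0 ≤ κ)
    (hY : Ok Y m a)
    (h : ∀ κ' : ℝ, 0 ≤ κ' → κ' ≤ κ → r κ' Y m a ≤ κ' + (Y.sum + m + a) + e + 2 / 3 * (κ - κ')) :
    rc κ Y m a ≤ κ + (Y.sum + m + a) + e :=
  C.le κ Y m a _ hκ hY fun κ' h0 h1 => by linarith [h κ' h0 h1]

end Crest.Agent.R017.ExpC702
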