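import Mathlib

/-!
# Row 17, R8: the real side of `P1`, domain and closed forms (helper904)

Base `H` (family `K = 1`); `Y` = three lumps `y₃ ≥ y₄ ≥ y₅ = u`, `N = y₃ + y₄ + u`, amplifier
share `x`, `n = N + x`, `θ = 7/8 + d`.

* `Dm`    : the (simplified) domain; `Sq5` (helper71) lies in it
* `vt`    : top level (mismatch levels included); `L0` : allowed loss
* `Chd`   : children (shortenings) of total length `≤ n - δ`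
* `r3`    : character side at family `i`: two-factor theorem for two lumps, the third one flipped
  before the pointwise bound, the granular share pointwise
* `prs`   : pairs `(B, d)`, `N B ~ b`, `N d ~ i`: merged on the character side, or
  Poisson – merge – Poisson (both orders, both diagonals)
* `Wm`    : norm of the large sieve with squares
-/

set_option autoImplicit false

noncomputable section

namespace Crest.Agent.R017.P1R904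

/-- the domain (`y₃, y₄, u` lumps, `x` granular share, `d = θ - 7/8`) -/
structure Dm (y₃ y₄ u x d : ℝ) : Prop where
  u4 : u ≤ y₄
  y43 : y₄ ≤ y₃
  u0 : 11 / 50 ≤ u
  y3 : y₃ ≤ 29 / 100
  N1 : y₃ + y₄ + u ≤ 102 / 125
  near : 99 / 100 ≤ y₃ + y₄ + 2 * u
  x0 : 0 ≤ x
  x1 : x ≤ 1 / 50
  adm : x = 0 ∨ (y₃ + y₄ + u + x ≤ 4 / 5 ∧ 2 * (y₃ + y₄ + u) + 5 * x ≤ 161 / 100)
  d0 : 0 ≤ d
  d1 : d ≤ 1 / 40

/-- top level (helper828's `topS`, and the mismatch levels `+ 2 x`) -/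
def vt (N x : ℝ) : ℝ := min (2 * N - 1) (3 / 4 * N) + 5 * x

/-- allowed loss of `P1` -/
def L0 (N : ℝ) : ℝ := max 0 (5 / 4 * N - 1) / 3

/-- shortened sides, at least `δ` removed -/
structure Chd (y₃ y₄ u x δ z₁ z₂ z₃ x' : ℝ) : Prop where
  z10 : 0 ≤ z₁
  z20 : 0 ≤ z₂
  z30 : 0 ≤ z₃
  x0 : 0 ≤ x'
  z1 : z₁ ≤ y₃
  z2 : z₂ ≤ y₄
  z3 : z₃ ≤ u
  x1 : x' ≤ x
  tot : z₁ + z₂ + z₃ + x' + δ ≤ y₃ + y₄ + u + x

/-- third lump: `min(z, i - z)`, the best of the three -/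
def l3 (i z₁ z₂ z₃ : ℝ) : ℝ :=
  min (min z₁ (i - z₁)) (min (min z₂ (i - z₂)) (min z₃ (i - z₃)))

/-- character side, lumps `≤ i` -/
def r3 (d i z₁ z₂ z₃ x : ℝ) : ℝ :=
  i + (z₁ + z₂ + z₃ + x) + (3 / 4 + 2 * d) * (l3 i z₁ z₂ z₃ + x)

/-- norm `max(K-side, i-side, HB)` with squares `g` -/
def Wm (v i g : ℝ) : ℝ :=
  min (max (v + 2 * g) (max i (2 / 3 * (v + i + g)))) (max (v + g) (2 * i - g))

/-- **(R3d)** structured part, removed part `δ ≤ 3/25` (`δ = 0` : (R3)), `φ` : the variable `f`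
summed inside (family `i ≤ i_* + φ`, further `φ` removed) -/
def R3d : Prop := ∀ y₃ y₄ u x d v δ φ i z₁ z₂ z₃ x' : ℝ, Dm y₃ y₄ u x d → 0 ≤ v →
  v ≤ vt (y₃ + y₄ + u) x → 0 ≤ δ → δ ≤ 3 / 25 → 0 ≤ φ → Chd y₃ y₄ u x (δ + φ) z₁ z₂ z₃ x' →
  z₁ ≤ i → z₂ ≤ i → z₃ ≤ i → i ≤ v + (y₃ + y₄ + u + x) - 1 + φ →
  r3 d i z₁ z₂ z₃ x' + (v + (y₃ + y₄ + u + x) - 1 + φ - i) / 3 + 2 * δ +
    max 0 (2 * v - 1 - δ) / 2 + 3 / 100 ≤
    (1 + v + 4 * (y₃ + y₄ + u + x)) / 3 + L0 (y₃ + y₄ + u)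

/-- **(T3d)** no structured part, removed part `δ ≥ 3/25`; `t = v' + n' + min z + x'` -/
def T3d : Prop := ∀ y₃ y₄ u x d v δ z₁ z₂ z₃ x' : ℝ, Dm y₃ y₄ u x d → 0 ≤ v →
  v ≤ vt (y₃ + y₄ + u) x → 3 / 25 ≤ δ → 2 * δ ≤ v → Chd y₃ y₄ u x δ z₁ z₂ z₃ x' →
  2 / 3 - (v - 2 * δ) / 3 - ((y₃ + y₄ + u + x) - δ) / 3 + δ +
    (v - 2 * δ + (z₁ + z₂ + z₃ + x') + (min z₁ (min z₂ z₃) + x')) +
    max 0 (2 * v - 1 - δ) / 3 + 3 / 100 ≤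
    1 + (y₃ + y₄ + u + x) + L0 (y₃ + y₄ + u)

/-- right side of (R2): `2 (1 + n + L) - T`, `T = 2/3 + t - (v + n)/3` the Gauss part at level `v`
with `t = 2 n` (flat) up to `v = min (2 n - 1) (3/4 n)`, slope `1/3` above -/
def E2 (v n L : ℝ) : ℝ := min (1 + n + L) ((4 + n + v) / 3 + 2 * L)

/-- **(R2)** cross term: pairs `(B, d)`, either merged or by Poisson – merge – Poisson -/
def R2 : Prop := ∀ y₃ y₄ u x d v b g i z₁ z₂ z₃ x' : ℝ, Dm y₃ y₄ u x d → 0 ≤ v →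
  v ≤ vt (y₃ + y₄ + u) x → 0 ≤ b → 0 ≤ g → 2 * g ≤ i → i ≤ v + (y₃ + y₄ + u + x) - 1 + b →
  i ≤ 1 - 2 * b → Chd y₃ y₄ u x (b + g) z₁ z₂ z₃ x' →
  -- merged
  ((z₁ ≤ i + 2 * b → z₂ ≤ i + 2 * b → z₃ ≤ i + 2 * b →
      Wm v i g - i + r3 d (i + 2 * b) z₁ z₂ z₃ x' + 1 / 500 ≤
        E2 v (y₃ + y₄ + u + x) (L0 (y₃ + y₄ + u))) ∨
  -- Poisson – merge – Poisson, `b ≤ i`
    (b ≤ i ∧ Wm v i g - i + max (i + b + (z₁ + z₂ + z₃ + x')) (2 * (z₁ + z₂ + z₃ + x') + b) +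
        1 / 500 ≤ E2 v (y₃ + y₄ + u + x) (L0 (y₃ + y₄ + u)) ∧
      (z₁ ≤ i - b → z₂ ≤ i - b → z₃ ≤ i - b →
        Wm v i g - i + (b + r3 d (i - b) z₁ z₂ z₃ x') + 1 / 500 ≤
          E2 v (y₃ + y₄ + u + x) (L0 (y₃ + y₄ + u)))) ∨
  -- the other order, `i ≤ b`
    (i ≤ b ∧ Wm v i g - i + max (i + b + (z₁ + z₂ + z₃ + x')) (2 * (z₁ + z₂ + z₃ + x') + i) +
        1 / 500 ≤ E2 v (y₃ + y₄ + u + x) (L0 (y₃ + y₄ + u)) ∧
      (z₁ ≤ b - i → z₂ ≤ b - i → z₃ ≤ b - i →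
        Wm v i g - i + (i + r3 d (b - i) z₁ z₂ z₃ x') + 1 / 500 ≤
          E2 v (y₃ + y₄ + u + x) (L0 (y₃ + y₄ + u)))))

end Crest.Agent.R017.P1R904
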