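import Crest.Agent.R017.SideC_777
import Crest.Agent.R017.ExpCdef_702
import Crest.Agent.R017.P1Dm_904

/-!
# Row 17, R8 / P1 (G2): three natural lumps and a granular share, every family length (helper986)

* `fL y κ` = length of the flipped lump
* `flip12` : flips with a bound function of slope in `[1, 2]`
* `rA`, `rH`, `r3` : closed forms, `r_three` : the bound for the cube-free family
* `rc_three` : the complete family (`k` admissible), `r3_slope`
-/

set_option autoImplicit false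

noncomputable section

namespace Crest.Agent.R017.RM986

open Crest.Agent.R017.ER911 Crest.Agent.R017.SC777 Crest.Agent.R017.ExpC702

variable {θ d : ℝ} {r s rc : EF}

/-- length of the flipped lump -/
def fL (y κ : ℝ) : ℝ := max 0 (min y (κ - y))

lemma fL_nonneg (y κ : ℝ) : 0 ≤ fL y κ := le_max_left _ _

lemma fL_le {y κ : ℝ} (hy : 0 ≤ y) (hκ : 0 ≤ κ) : fL y κ ≤ min y κ := by
  unfold fL
  refine max_le (le_min hy hκ) (le_min (min_le_left _ _) ?_)
  exact (min_le_right _ _).trans (by linarith)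

lemma fL_half {y κ : ℝ} (hκ : 0 ≤ κ) : 2 * fL y κ ≤ κ := by
  unfold fL
  rcases le_total 0 (min y (κ - y)) with h | h
  · rw [max_eq_right h]
    have h1 := min_le_left y (κ - y)
    have h2 := min_le_right y (κ - y)
    linarith
  · rw [max_eq_left h]; linarith

/-- a bound function of slope in `[1, 2]` -/
structure Sl12 (G : ℝ → ℝ) : Prop where
  lo : ∀ u v : ℝ, 0 ≤ u → u ≤ v → G u + (v - u) ≤ G v
  hi : ∀ u v : ℝ, 0 ≤ u → u ≤ v → G v ≤ G u + 2 * (v - u)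

/-- **one flip** -/
theorem flip12 (R : ExpRules θ r s) {κ y m a : ℝ} {Y : Multiset ℝ} (hκ : 0 ≤ κ) (hy : 0 ≤ y)
    (hY : Ok Y m a) {G : ℝ → ℝ} (hG : Sl12 G)
    (H : ∀ z : ℝ, 0 ≤ z → 2 * z ≤ κ → r κ (z ::ₘ Y) m a ≤ G z) :
    r κ (y ::ₘ Y) m a ≤ min y κ - fL y κ + G (fL y κ) := by
  refine R.flip κ y Y m a _ hκ hy hY ?_ ?_
  · intro y' h0 h1 h2
    refine (H y' h0 h2).trans ?_
    rcases le_total y (κ - y) with h | h
    · have e1 : fL y κ = y := by unfold fL; rw [min_eq_left h, max_eq_right hy]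
      have e2 : min y κ = y := min_eq_left (by linarith)
      rw [e1, e2]
      have := hG.lo y' y h0 h1
      linarith
    · rcases le_total y κ with h3 | h3
      · have e1 : fL y κ = κ - y := by unfold fL; rw [min_eq_right h, max_eq_right (by linarith)]
        have e2 : min y κ = y := min_eq_left h3
        rw [e1, e2]
        rcases le_total y' (κ - y) with h4 | h4
        · have := hG.lo y' (κ - y) h0 h4
          linarith
        · have := hG.hi (κ - y) y' (by linarith) h4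
          linarith
      · have e1 : fL y κ = 0 := by
          unfold fL; rw [min_eq_right h, max_eq_left (by linarith)]
        have e2 : min y κ = κ := min_eq_right h3
        rw [e1, e2]
        have := hG.hi 0 y' le_rfl h0
        linarith
  · intro y' t h1 h2 h3 ht ht'
    have h4 := H (κ - t - y') (by linarith) (by linarith)
    have hy' : 0 ≤ y' := by linarith
    rcases le_total y (κ - y) with h | h
    · have e1 : fL y κ = y := by unfold fL; rw [min_eq_left h, max_eq_right hy]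
      have e2 : min y κ = y := min_eq_left (by linarith)
      rw [e1, e2]
      have := hG.lo (κ - t - y') y (by linarith) (by linarith)
      linarith
    · rcases le_total y κ with h5 | h5
      · have e1 : fL y κ = κ - y := by unfold fL; rw [min_eq_right h, max_eq_right (by linarith)]
        have e2 : min y κ = y := min_eq_left h5
        rw [e1, e2]
        rcases le_total (κ - t - y') (κ - y) with h6 | h6
        · have := hG.lo (κ - t - y') (κ - y) (by linarith) h6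
          linarith
        · have := hG.hi (κ - y) (κ - t - y') (by linarith) h6
          linarith
      · have e1 : fL y κ = 0 := by
          unfold fL; rw [min_eq_right h, max_eq_left (by linarith)]
        have e2 : min y κ = κ := min_eq_right h5
        rw [e1, e2]
        have := hG.hi 0 (κ - t - y') le_rfl (by linarith)
        linarith

/-! ### the pair with granular mass, at any two lumps -/

/-- excess of `{y₁, y₂ | m, a}` over the ideal bound, `σ = y₁ + y₂` -/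
def eX (κ σ m a : ℝ) : ℝ :=
  min (m + a) (max 0 (max (m + a - 7 / 9 * (κ - σ)) (a + 3 / 4 * m + 1 / 3 * σ - 2 / 3 * κ)))

lemma eX_nonneg {κ σ m a : ℝ} (hm : 0 ≤ m) (ha : 0 ≤ a) : 0 ≤ eX κ σ m a :=
  le_min (by linarith) (le_max_left _ _)

lemma eX_mono {κ σ σ' m a : ℝ} (h : σ ≤ σ') : eX κ σ m a ≤ eX κ σ' m a := by
  unfold eX
  refine min_le_min le_rfl (max_le_max le_rfl (max_le_max ?_ ?_)) <;> linarith

lemma eX_lip {κ σ σ' m a : ℝ} (h : σ ≤ σ') : eX κ σ' m a ≤ eX κ σ m a + 7 / 9 * (σ' - σ) := by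
  unfold eX
  have h0 : 0 ≤ 7 / 9 * (σ' - σ) := by linarith
  rw [← min_add_add_right, ← max_add_add_right, ← max_add_add_right]
  refine min_le_min (by linarith) (max_le_max (by linarith) (max_le_max ?_ ?_)) <;> linarith

/-- **the pair** `{y₁, y₂ | m, a}` at any two lumps -/
theorem pair_le (R : ExpRules (7 / 8 + d) r s) (hd : 0 ≤ d) {κ y₁ y₂ m a : ℝ} (hκ : 0 ≤ κ)
    (h1 : 0 ≤ y₁) (h2 : 0 ≤ y₂) (hm : 0 ≤ m) (ha : 0 ≤ a) (k1 : y₁ ≤ κ) (k2 : y₂ ≤ κ) :
    r κ {y₁, y₂} m a ≤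
      κ + (y₁ + y₂) + (m + a) + 2 * d * (m + a) + 3 / 4 * eX κ (y₁ + y₂) m a := by
  have hs := sup_all R hκ h1 h2 hm ha k1 k2
  rcases le_total (m + a)
    (max 0 (max (m + a - 7 / 9 * (κ - (y₁ + y₂))) (a + 3 / 4 * m + 1 / 3 * (y₁ + y₂) - 2 / 3 * κ)))
    with h | h
  · have e : eX κ (y₁ + y₂) m a = m + a := by unfold eX; exact min_eq_left h
    rw [e]; linarith
  · have e : eX κ (y₁ + y₂) m a = max 0 (max (m + a - 7 / 9 * (κ - (y₁ + y₂)))
        (a + 3 / 4 * m + 1 / 3 * (y₁ + y₂) - 2 / 3 * κ)) := by unfold eX; exact min_eq_right h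
    rcases le_total (y₁ + y₂) κ with hσ | hσ
    · rw [e]
      set M := max 0 (max (m + a - 7 / 9 * (κ - (y₁ + y₂)))
        (a + 3 / 4 * m + 1 / 3 * (y₁ + y₂) - 2 / 3 * κ)) with hM
      have g0 : 0 ≤ M := le_max_left _ _
      have g1 : m + a - 7 / 9 * (κ - (y₁ + y₂)) ≤ M := (le_max_left _ _).trans (le_max_right _ _)
      have g2 : a + 3 / 4 * m + 1 / 3 * (y₁ + y₂) - 2 / 3 * κ ≤ M :=
        (le_max_right _ _).trans (le_max_right _ _)
      have := side79a R hd (κ := κ) (e := M) h1 h2 hm ha hσ g0 g1 (by linarith) hκ le_rfl k1 k2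
      linarith
    · have g : m + a ≤ eX κ (y₁ + y₂) m a := by
        unfold eX
        refine le_min le_rfl (le_trans ?_ (le_max_right _ _))
        refine le_trans ?_ (le_max_left _ _)
        linarith
      linarith

/-! ### closed forms -/

/-- pair `y₁, y₂` by (TF) / the `7/9`-rule, the third lump pointwise, all lumps flipped -/
def rA (d κ y₁ y₂ y₃ m a : ℝ) : ℝ :=
  κ + (min y₁ κ + min y₂ κ + min y₃ κ) + (m + a) + (3 / 4 + 2 * d) * fL y₃ κ + 2 * d * (m + a) +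
    3 / 4 * eX κ (fL y₁ κ + fL y₂ κ) m a

/-- the large sieve bound -/
def hb (κ n : ℝ) : ℝ := max (κ + n) (max (2 * n + κ / 3) (n + 2 / 3 * (κ + n)))

/-- all lumps flipped, large sieve -/
def rH (κ y₁ y₂ y₃ m a : ℝ) : ℝ :=
  (min y₁ κ - fL y₁ κ) + (min y₂ κ - fL y₂ κ) + (min y₃ κ - fL y₃ κ) +
    hb κ (fL y₁ κ + fL y₂ κ + fL y₃ κ + (m + a))

/-- **the closed form** -/
def r3 (d κ y₁ y₂ y₃ m a : ℝ) : ℝ :=
  min (rH κ y₁ y₂ y₃ m a)
    (min (rA d κ y₁ y₂ y₃ m a) (min (rA d κ y₁ y₃ y₂ m a) (rA d κ y₂ y₃ y₁ m a)))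

lemma sl_lin (A c : ℝ) (h1 : 1 ≤ c) (h2 : c ≤ 2) : Sl12 (fun z => A + c * z) where
  lo u v _ h := by nlinarith
  hi u v _ h := by nlinarith

lemma sl_eX (A κ σ m a : ℝ) :
    Sl12 (fun z => A + z + 3 / 4 * eX κ (z + σ) m a) where
  lo u v _ h := by
    have := eX_mono (κ := κ) (m := m) (a := a) (show u + σ ≤ v + σ by linarith)
    show A + u + 3 / 4 * eX κ (u + σ) m a + (v - u) ≤ A + v + 3 / 4 * eX κ (v + σ) m a
    linarith
  hi u v _ h := by
    have := eX_lip (κ := κ) (m := m) (a := a) (show u + σ ≤ v + σ by linarith)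
    show A + v + 3 / 4 * eX κ (v + σ) m a ≤ A + u + 3 / 4 * eX κ (u + σ) m a + 2 * (v - u)
    linarith

lemma hb_lo {κ u v : ℝ} (h : u ≤ v) : hb κ u + (v - u) ≤ hb κ v := by
  unfold hb
  rw [← max_add_add_right, ← max_add_add_right]
  refine max_le_max (by linarith) (max_le_max (by linarith) (by linarith))

lemma hb_hi {κ u v : ℝ} (h : u ≤ v) : hb κ v ≤ hb κ u + 2 * (v - u) := by
  unfold hb
  rw [← max_add_add_right, ← max_add_add_right]
  refine max_le_max (by linarith) (max_le_max (by linarith) (by linarith))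

lemma sl_hb (A κ n : ℝ) : Sl12 (fun z => A + hb κ (z + n)) where
  lo u v _ h := by
    have := hb_lo (κ := κ) (show u + n ≤ v + n by linarith)
    show A + hb κ (u + n) + (v - u) ≤ A + hb κ (v + n)
    linarith
  hi u v _ h := by
    have := hb_hi (κ := κ) (show u + n ≤ v + n by linarith)
    show A + hb κ (v + n) ≤ A + hb κ (u + n) + 2 * (v - u)
    linarith

lemma ok3 {y₁ y₂ y₃ m a : ℝ} (h1 : 0 ≤ y₁) (h2 : 0 ≤ y₂) (h3 : 0 ≤ y₃) (hm : 0 ≤ m)
    (ha : 0 ≤ a) : Ok {y₁, y₂, y₃} m a := by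
  refine ⟨fun y hy => ?_, hm, ha⟩
  simp only [Multiset.insert_eq_cons, Multiset.mem_cons, Multiset.mem_singleton] at hy
  rcases hy with rfl | rfl | rfl
  · exact h1
  · exact h2
  · exact h3

lemma ok2 {y₁ y₂ m a : ℝ} (h1 : 0 ≤ y₁) (h2 : 0 ≤ y₂) (hm : 0 ≤ m)
    (ha : 0 ≤ a) : Ok {y₁, y₂} m a := by
  refine ⟨fun y hy => ?_, hm, ha⟩
  simp only [Multiset.insert_eq_cons, Multiset.mem_cons, Multiset.mem_singleton] at hy
  rcases hy with rfl | rfl
  · exact h1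
  · exact h2

lemma rot1 (p q t : ℝ) : ({p, q, t} : Multiset ℝ) = t ::ₘ {p, q} := by
  have h : ({q, t} : Multiset ℝ) = {t, q} := Multiset.pair_comm q t
  show p ::ₘ {q, t} = t ::ₘ p ::ₘ {q}
  rw [h]
  exact Multiset.cons_swap p t {q}

lemma rot2 (p q t : ℝ) : ({p, q, t} : Multiset ℝ) = q ::ₘ {p, t} := by
  show p ::ₘ q ::ₘ {t} = q ::ₘ p ::ₘ {t}
  rw [Multiset.cons_swap]

/-- three flips: a bound at flipped lumps with slopes in `[1, 2]` -/
theorem flips3 (R : ExpRules θ r s) {κ y₁ y₂ y₃ m a : ℝ} (hκ : 0 ≤ κ) (h1 : 0 ≤ y₁)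
    (h2 : 0 ≤ y₂) (h3 : 0 ≤ y₃) (hm : 0 ≤ m) (ha : 0 ≤ a) {G : ℝ → ℝ → ℝ → ℝ}
    (s1 : ∀ v w, 0 ≤ v → 0 ≤ w → Sl12 (fun u => G u v w))
    (s2 : ∀ u w, 0 ≤ u → 0 ≤ w → Sl12 (fun v => G u v w))
    (s3 : ∀ u v, 0 ≤ u → 0 ≤ v → Sl12 (fun w => G u v w))
    (H : ∀ u v w : ℝ, 0 ≤ u → 0 ≤ v → 0 ≤ w → 2 * u ≤ κ → 2 * v ≤ κ → 2 * w ≤ κ →
      r κ {u, v, w} m a ≤ G u v w) :
    r κ {y₁, y₂, y₃} m a ≤ (min y₁ κ - fL y₁ κ) + (min y₂ κ - fL y₂ κ) + (min y₃ κ - fL y₃ κ) +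
      G (fL y₁ κ) (fL y₂ κ) (fL y₃ κ) := by
  -- third lump
  have k3 : ∀ u v : ℝ, 0 ≤ u → 0 ≤ v → 2 * u ≤ κ → 2 * v ≤ κ →
      r κ {u, v, y₃} m a ≤ (min y₃ κ - fL y₃ κ) + G u v (fL y₃ κ) := by
    intro u v hu hv hu2 hv2
    rw [rot1]
    refine flip12 R hκ h3 (ok2 hu hv hm ha) (s3 u v hu hv) fun z hz hz2 => ?_
    rw [← rot1]
    exact H u v z hu hv hz hu2 hv2 hz2
  have k2 : ∀ u : ℝ, 0 ≤ u → 2 * u ≤ κ →
      r κ {u, y₂, y₃} m a ≤ (min y₂ κ - fL y₂ κ) + (min y₃ κ - fL y₃ κ) +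
        G u (fL y₂ κ) (fL y₃ κ) := by
    intro u hu hu2
    rw [rot2]
    have hS : Sl12 (fun z => (min y₃ κ - fL y₃ κ) + G u z (fL y₃ κ)) := by
      have := s2 u (fL y₃ κ) hu (fL_nonneg _ _)
      refine ⟨fun p q hp hpq => ?_, fun p q hp hpq => ?_⟩
      · have := this.lo p q hp hpq
        show (min y₃ κ - fL y₃ κ) + G u p (fL y₃ κ) + (q - p) ≤ (min y₃ κ - fL y₃ κ) +
          G u q (fL y₃ κ)
        have e : G u p (fL y₃ κ) + (q - p) ≤ G u q (fL y₃ κ) := this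
        linarith
      · have := this.hi p q hp hpq
        show (min y₃ κ - fL y₃ κ) + G u q (fL y₃ κ) ≤ (min y₃ κ - fL y₃ κ) +
          G u p (fL y₃ κ) + 2 * (q - p)
        have e : G u q (fL y₃ κ) ≤ G u p (fL y₃ κ) + 2 * (q - p) := this
        linarith
    have := flip12 R hκ h2 (ok2 hu h3 hm ha) hS fun z hz hz2 => by
      rw [← rot2]
      exact k3 u z hu hz hu2 hz2
    linarith
  have hS : Sl12 (fun z => (min y₂ κ - fL y₂ κ) + (min y₃ κ - fL y₃ κ) +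
      G z (fL y₂ κ) (fL y₃ κ)) := by
    have := s1 (fL y₂ κ) (fL y₃ κ) (fL_nonneg _ _) (fL_nonneg _ _)
    refine ⟨fun p q hp hpq => ?_, fun p q hp hpq => ?_⟩
    · have e : G p (fL y₂ κ) (fL y₃ κ) + (q - p) ≤ G q (fL y₂ κ) (fL y₃ κ) := this.lo p q hp hpq
      show (min y₂ κ - fL y₂ κ) + (min y₃ κ - fL y₃ κ) + G p (fL y₂ κ) (fL y₃ κ) + (q - p) ≤
        (min y₂ κ - fL y₂ κ) + (min y₃ κ - fL y₃ κ) + G q (fL y₂ κ) (fL y₃ κ)
      linarith
    · have e : G q (fL y₂ κ) (fL y₃ κ) ≤ G p (fL y₂ κ) (fL y₃ κ) + 2 * (q - p) :=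
        this.hi p q hp hpq
      show (min y₂ κ - fL y₂ κ) + (min y₃ κ - fL y₃ κ) + G q (fL y₂ κ) (fL y₃ κ) ≤
        (min y₂ κ - fL y₂ κ) + (min y₃ κ - fL y₃ κ) + G p (fL y₂ κ) (fL y₃ κ) + 2 * (q - p)
      linarith
  have := flip12 R hκ h1 (ok2 h2 h3 hm ha) hS fun z hz hz2 => by
    exact k2 z hz hz2
  have e : (y₁ ::ₘ ({y₂, y₃} : Multiset ℝ)) = {y₁, y₂, y₃} := rfl
  rw [e] at this
  linarith

theorem le_rH (R : ExpRules θ r s) {κ y₁ y₂ y₃ m a : ℝ} (hκ : 0 ≤ κ) (h1 : 0 ≤ y₁)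
    (h2 : 0 ≤ y₂) (h3 : 0 ≤ y₃) (hm : 0 ≤ m) (ha : 0 ≤ a) :
    r κ {y₁, y₂, y₃} m a ≤ rH κ y₁ y₂ y₃ m a := by
  refine (flips3 R (G := fun u v w => hb κ (u + v + w + (m + a))) hκ h1 h2 h3 hm ha ?_ ?_ ?_
    ?_).trans le_rfl
  · intro v w _ _
    have := sl_hb 0 κ (v + w + (m + a))
    refine ⟨fun p q hp hpq => ?_, fun p q hp hpq => ?_⟩
    · have := this.lo p q hp hpq
      simp only [zero_add] at this
      have e1 : p + v + w + (m + a) = p + (v + w + (m + a)) := by ring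
      have e2 : q + v + w + (m + a) = q + (v + w + (m + a)) := by ring
      show hb κ (p + v + w + (m + a)) + (q - p) ≤ hb κ (q + v + w + (m + a))
      rw [e1, e2]; exact this
    · have := this.hi p q hp hpq
      simp only [zero_add] at this
      have e1 : p + v + w + (m + a) = p + (v + w + (m + a)) := by ring
      have e2 : q + v + w + (m + a) = q + (v + w + (m + a)) := by ring
      show hb κ (q + v + w + (m + a)) ≤ hb κ (p + v + w + (m + a)) + 2 * (q - p)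
      rw [e1, e2]; exact this
  · intro u w _ _
    have := sl_hb 0 κ (u + w + (m + a))
    refine ⟨fun p q hp hpq => ?_, fun p q hp hpq => ?_⟩
    · have := this.lo p q hp hpq
      simp only [zero_add] at this
      have e1 : u + p + w + (m + a) = p + (u + w + (m + a)) := by ring
      have e2 : u + q + w + (m + a) = q + (u + w + (m + a)) := by ring
      show hb κ (u + p + w + (m + a)) + (q - p) ≤ hb κ (u + q + w + (m + a))
      rw [e1, e2]; exact this
    · have := this.hi p q hp hpq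
      simp only [zero_add] at this
      have e1 : u + p + w + (m + a) = p + (u + w + (m + a)) := by ring
      have e2 : u + q + w + (m + a) = q + (u + w + (m + a)) := by ring
      show hb κ (u + q + w + (m + a)) ≤ hb κ (u + p + w + (m + a)) + 2 * (q - p)
      rw [e1, e2]; exact this
  · intro u v _ _
    have := sl_hb 0 κ (u + v + (m + a))
    refine ⟨fun p q hp hpq => ?_, fun p q hp hpq => ?_⟩
    · have := this.lo p q hp hpq
      simp only [zero_add] at this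
      have e1 : u + v + p + (m + a) = p + (u + v + (m + a)) := by ring
      have e2 : u + v + q + (m + a) = q + (u + v + (m + a)) := by ring
      show hb κ (u + v + p + (m + a)) + (q - p) ≤ hb κ (u + v + q + (m + a))
      rw [e1, e2]; exact this
    · have := this.hi p q hp hpq
      simp only [zero_add] at this
      have e1 : u + v + p + (m + a) = p + (u + v + (m + a)) := by ring
      have e2 : u + v + q + (m + a) = q + (u + v + (m + a)) := by ring
      show hb κ (u + v + q + (m + a)) ≤ hb κ (u + v + p + (m + a)) + 2 * (q - p)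
      rw [e1, e2]; exact this
  · intro u v w hu hv hw _ _ _
    have := R.hbC κ {u, v, w} m a hκ (ok3 hu hv hw hm ha)
    have e : ({u, v, w} : Multiset ℝ).sum + m + a = u + v + w + (m + a) := by
      simp only [Multiset.insert_eq_cons, Multiset.sum_cons, Multiset.sum_singleton]; ring
    rw [e] at this
    exact this

theorem le_rA (R : ExpRules (7 / 8 + d) r s) (hd : 0 ≤ d) (hd8 : d ≤ 1 / 8)
    {κ y₁ y₂ y₃ m a : ℝ} (hκ : 0 ≤ κ) (h1 : 0 ≤ y₁)
    (h2 : 0 ≤ y₂) (h3 : 0 ≤ y₃) (hm : 0 ≤ m) (ha : 0 ≤ a) :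
    r κ {y₁, y₂, y₃} m a ≤ rA d κ y₁ y₂ y₃ m a := by
  have key := flips3 R (G := fun u v w => κ + (m + a) + 2 * d * (m + a) +
      (7 / 4 + 2 * d) * w + (u + v + 3 / 4 * eX κ (u + v) m a)) hκ h1 h2 h3 hm ha ?_ ?_ ?_ ?_
  · unfold rA
    linarith
  · intro v w _ _
    refine ⟨fun p q hp hpq => ?_, fun p q hp hpq => ?_⟩
    · have := eX_mono (κ := κ) (m := m) (a := a) (show p + v ≤ q + v by linarith)
      show κ + (m + a) + 2 * d * (m + a) + (7 / 4 + 2 * d) * w +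
        (p + v + 3 / 4 * eX κ (p + v) m a) + (q - p) ≤ κ + (m + a) + 2 * d * (m + a) +
        (7 / 4 + 2 * d) * w + (q + v + 3 / 4 * eX κ (q + v) m a)
      linarith
    · have := eX_lip (κ := κ) (m := m) (a := a) (show p + v ≤ q + v by linarith)
      show κ + (m + a) + 2 * d * (m + a) + (7 / 4 + 2 * d) * w +
        (q + v + 3 / 4 * eX κ (q + v) m a) ≤ κ + (m + a) + 2 * d * (m + a) +
        (7 / 4 + 2 * d) * w + (p + v + 3 / 4 * eX κ (p + v) m a) + 2 * (q - p)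
      linarith
  · intro u w _ _
    refine ⟨fun p q hp hpq => ?_, fun p q hp hpq => ?_⟩
    · have := eX_mono (κ := κ) (m := m) (a := a) (show u + p ≤ u + q by linarith)
      show κ + (m + a) + 2 * d * (m + a) + (7 / 4 + 2 * d) * w +
        (u + p + 3 / 4 * eX κ (u + p) m a) + (q - p) ≤ κ + (m + a) + 2 * d * (m + a) +
        (7 / 4 + 2 * d) * w + (u + q + 3 / 4 * eX κ (u + q) m a)
      linarith
    · have := eX_lip (κ := κ) (m := m) (a := a) (show u + p ≤ u + q by linarith)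
      show κ + (m + a) + 2 * d * (m + a) + (7 / 4 + 2 * d) * w +
        (u + q + 3 / 4 * eX κ (u + q) m a) ≤ κ + (m + a) + 2 * d * (m + a) +
        (7 / 4 + 2 * d) * w + (u + p + 3 / 4 * eX κ (u + p) m a) + 2 * (q - p)
      linarith
  · intro u v _ _
    refine ⟨fun p q hp hpq => ?_, fun p q hp hpq => ?_⟩
    · show κ + (m + a) + 2 * d * (m + a) + (7 / 4 + 2 * d) * p +
        (u + v + 3 / 4 * eX κ (u + v) m a) + (q - p) ≤ κ + (m + a) + 2 * d * (m + a) +
        (7 / 4 + 2 * d) * q + (u + v + 3 / 4 * eX κ (u + v) m a)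
      have : 0 ≤ d * (q - p) := mul_nonneg hd (by linarith)
      linarith
    · show κ + (m + a) + 2 * d * (m + a) + (7 / 4 + 2 * d) * q +
        (u + v + 3 / 4 * eX κ (u + v) m a) ≤ κ + (m + a) + 2 * d * (m + a) +
        (7 / 4 + 2 * d) * p + (u + v + 3 / 4 * eX κ (u + v) m a) + 2 * (q - p)
      have : d * (q - p) ≤ 1 / 8 * (q - p) := mul_le_mul_of_nonneg_right hd8 (by linarith)
      linarith
  · intro u v w hu hv hw hu2 hv2 hw2
    rw [rot1]
    have e1 := R.supS κ w {u, v} m a hκ hw (ok2 hu hv hm ha)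
    have e2 := pair_le R hd hκ hu hv hm ha (by linarith) (by linarith)
    have e3 : 2 * (7 / 8 + d) * w = (7 / 4 + 2 * d) * w := by ring
    show r κ (w ::ₘ {u, v}) m a ≤ κ + (m + a) + 2 * d * (m + a) + (7 / 4 + 2 * d) * w +
      (u + v + 3 / 4 * eX κ (u + v) m a)
    linarith

/-- **three lumps, cube-free family, every length** -/
theorem r_three (R : ExpRules (7 / 8 + d) r s) (hd : 0 ≤ d) (hd8 : d ≤ 1 / 8)
    {κ y₁ y₂ y₃ m a : ℝ} (hκ : 0 ≤ κ) (h1 : 0 ≤ y₁)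
    (h2 : 0 ≤ y₂) (h3 : 0 ≤ y₃) (hm : 0 ≤ m) (ha : 0 ≤ a) :
    r κ {y₁, y₂, y₃} m a ≤ r3 d κ y₁ y₂ y₃ m a := by
  unfold r3
  refine le_min (le_rH R hκ h1 h2 h3 hm ha) (le_min (le_rA R hd hd8 hκ h1 h2 h3 hm ha)
    (le_min ?_ ?_))
  · have e : ({y₁, y₂, y₃} : Multiset ℝ) = {y₁, y₃, y₂} := by
      show y₁ ::ₘ {y₂, y₃} = y₁ ::ₘ {y₃, y₂}
      rw [Multiset.pair_comm]
    rw [e]
    exact le_rA R hd hd8 hκ h1 h3 h2 hm ha
  · have e : ({y₁, y₂, y₃} : Multiset ℝ) = {y₂, y₃, y₁} := by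
      rw [rot1 y₂ y₃ y₁]
      rfl
    rw [e]
    exact le_rA R hd hd8 hκ h2 h3 h1 hm ha

/-! ### slope in the family -/

lemma min_lo {y κ κ' : ℝ} (h : κ' ≤ κ) : min y κ' ≤ min y κ := min_le_min le_rfl h

lemma fL_mono {y κ κ' : ℝ} (h : κ' ≤ κ) : fL y κ' ≤ fL y κ := by
  unfold fL
  exact max_le_max le_rfl (min_le_min le_rfl (by linarith))

lemma rA_slope {d κ κ' y₁ y₂ y₃ m a : ℝ} (hd : 0 ≤ d) (h : κ' ≤ κ) :
    rA d κ' y₁ y₂ y₃ m a + (κ - κ') / 3 ≤ rA d κ y₁ y₂ y₃ m a := by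
  unfold rA
  have e1 := min_lo (y := y₁) h
  have e2 := min_lo (y := y₂) h
  have e3 := min_lo (y := y₃) h
  have e4 : (3 / 4 + 2 * d) * fL y₃ κ' ≤ (3 / 4 + 2 * d) * fL y₃ κ :=
    mul_le_mul_of_nonneg_left (fL_mono h) (by linarith)
  have e5 : eX κ' (fL y₁ κ' + fL y₂ κ') m a ≤ eX κ (fL y₁ κ + fL y₂ κ) m a + 7 / 9 * (κ - κ') := by
    have f1 : eX κ' (fL y₁ κ' + fL y₂ κ') m a ≤
        eX κ (fL y₁ κ' + fL y₂ κ') m a + 7 / 9 * (κ - κ') := by
      unfold eX
      rw [← min_add_add_right, ← max_add_add_right, ← max_add_add_right]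
      refine min_le_min (by linarith) (max_le_max (by linarith) (max_le_max ?_ ?_)) <;> linarith
    have f2 := eX_mono (κ := κ) (m := m) (a := a)
      (show fL y₁ κ' + fL y₂ κ' ≤ fL y₁ κ + fL y₂ κ by
        linarith [fL_mono (y := y₁) h, fL_mono (y := y₂) h])
    linarith
  linarith

lemma rH_slope {κ κ' y₁ y₂ y₃ m a : ℝ} (h : κ' ≤ κ) :
    rH κ' y₁ y₂ y₃ m a + (κ - κ') / 3 ≤ rH κ y₁ y₂ y₃ m a := by
  unfold rH
  have e1 := min_lo (y := y₁) h
  have e2 := min_lo (y := y₂) h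
  have e3 := min_lo (y := y₃) h
  have f1 := fL_mono (y := y₁) h
  have f2 := fL_mono (y := y₂) h
  have f3 := fL_mono (y := y₃) h
  have g1 : hb κ' (fL y₁ κ' + fL y₂ κ' + fL y₃ κ' + (m + a)) + (κ - κ') / 3 ≤
      hb κ (fL y₁ κ' + fL y₂ κ' + fL y₃ κ' + (m + a)) := by
    unfold hb
    rw [← max_add_add_right, ← max_add_add_right]
    refine max_le_max (by linarith) (max_le_max (by linarith) (by linarith))
  have g2 := hb_lo (κ := κ) (show fL y₁ κ' + fL y₂ κ' + fL y₃ κ' + (m + a) ≤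
    fL y₁ κ + fL y₂ κ + fL y₃ κ + (m + a) by linarith)
  linarith

/-- **slope at least `1/3` in the family** -/
lemma r3_slope {d κ κ' y₁ y₂ y₃ m a : ℝ} (hd : 0 ≤ d) (h : κ' ≤ κ) :
    r3 d κ' y₁ y₂ y₃ m a + (κ - κ') / 3 ≤ r3 d κ y₁ y₂ y₃ m a := by
  unfold r3
  rw [← min_add_add_right, ← min_add_add_right, ← min_add_add_right]
  exact min_le_min (rH_slope h) (min_le_min (rA_slope hd h)
    (min_le_min (rA_slope hd h) (rA_slope hd h)))

/-- **three lumps, complete family of admissible `k`** -/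
theorem rc_three (R : ExpRules (7 / 8 + d) r s) (C : ExpC r rc) (hd : 0 ≤ d) (hd8 : d ≤ 1 / 8)
    {κ y₁ y₂ y₃ m a : ℝ} (hκ : 0 ≤ κ) (h1 : 0 ≤ y₁)
    (h2 : 0 ≤ y₂) (h3 : 0 ≤ y₃) (hm : 0 ≤ m) (ha : 0 ≤ a) :
    rc κ {y₁, y₂, y₃} m a ≤ r3 d κ y₁ y₂ y₃ m a := by
  refine C.le κ {y₁, y₂, y₃} m a _ hκ (ok3 h1 h2 h3 hm ha) fun κ' h0 h => ?_
  have := r_three R hd hd8 h0 h1 h2 h3 hm ha (κ := κ')
  linarith [r3_slope (y₁ := y₁) (y₂ := y₂) (y₃ := y₃) (m := m) (a := a) hd h]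

/-! ### the simple form of helper904 -/

lemma eX_le {κ σ m a : ℝ} : eX κ σ m a ≤ m + a := min_le_left _ _

/-- `r₃ ≤ i + n + (3/4 + 2 d)(min(z_j, i - z_j)⁺ + x)` for the third lump -/
lemma r3_le_904 {d κ y₁ y₂ y₃ m a : ℝ} (hd : 0 ≤ d) :
    r3 d κ y₁ y₂ y₃ m a ≤ κ + (y₁ + y₂ + y₃) + (m + a) +
      (3 / 4 + 2 * d) * (min (fL y₁ κ) (min (fL y₂ κ) (fL y₃ κ)) + (m + a)) := by
  have key : ∀ p q t : ℝ, rA d κ p q t m a ≤ κ + (p + q + t) + (m + a) +
      (3 / 4 + 2 * d) * (fL t κ + (m + a)) := by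
    intro p q t
    unfold rA
    have h1 := min_le_left p κ
    have h2 := min_le_left q κ
    have h3 := min_le_left t κ
    have h4 := eX_le (κ := κ) (σ := fL p κ + fL q κ) (m := m) (a := a)
    linarith
  have hc : 0 ≤ 3 / 4 + 2 * d := by linarith
  have k1 := key y₁ y₂ y₃
  have k2 := key y₁ y₃ y₂
  have k3 := key y₂ y₃ y₁
  rcases min_choice (fL y₁ κ) (min (fL y₂ κ) (fL y₃ κ)) with h | h
  · rw [h]
    refine le_trans ?_ (k3.trans (le_of_eq (by ring)))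
    unfold r3
    exact (min_le_right _ _).trans ((min_le_right _ _).trans (min_le_right _ _))
  · rw [h]
    rcases min_choice (fL y₂ κ) (fL y₃ κ) with h' | h'
    · rw [h']
      refine le_trans ?_ (k2.trans (le_of_eq (by ring)))
      unfold r3
      exact (min_le_right _ _).trans ((min_le_right _ _).trans (min_le_left _ _))
    · rw [h']
      refine le_trans ?_ k1
      unfold r3
      exact (min_le_right _ _).trans (min_le_left _ _)

/-! ### bridge to helper904's closed form -/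

lemma fL_eq {y κ : ℝ} (hy : 0 ≤ y) (hκ : 0 ≤ κ) : fL y κ = min (min y κ) (κ - min y κ) := by
  unfold fL
  rcases le_total y κ with h | h
  · rw [min_eq_left h, max_eq_right (le_min hy (by linarith))]
  · rw [min_eq_right h, sub_self, min_eq_right (show κ - y ≤ y by linarith), min_eq_right hκ,
      max_eq_left (by linarith)]

/-- `r3 ≤ P1R904.r3` with the lumps cut at the family -/
lemma r3_le_P1 {d κ y₁ y₂ y₃ m a : ℝ} (hκ : 0 ≤ κ) (h1 : 0 ≤ y₁) (h2 : 0 ≤ y₂)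
    (h3 : 0 ≤ y₃) :
    r3 d κ y₁ y₂ y₃ m a ≤ P1R904.r3 d κ (min y₁ κ) (min y₂ κ) (min y₃ κ) (m + a) := by
  have key : ∀ p q t : ℝ, rA d κ p q t m a ≤ κ + (min p κ + min q κ + min t κ) + (m + a) +
      (3 / 4 + 2 * d) * (fL t κ + (m + a)) := by
    intro p q t
    unfold rA
    have h4 := eX_le (κ := κ) (σ := fL p κ + fL q κ) (m := m) (a := a)
    linarith
  have k1 := key y₁ y₂ y₃
  have k2 := key y₁ y₃ y₂
  have k3 := key y₂ y₃ y₁
  unfold P1R904.r3 P1R904.l3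
  rw [← fL_eq h1 hκ, ← fL_eq h2 hκ, ← fL_eq h3 hκ]
  rcases min_choice (fL y₁ κ) (min (fL y₂ κ) (fL y₃ κ)) with h | h
  · rw [h]
    refine le_trans ?_ (k3.trans (le_of_eq (by ring)))
    unfold r3
    exact (min_le_right _ _).trans ((min_le_right _ _).trans (min_le_right _ _))
  · rw [h]
    rcases min_choice (fL y₂ κ) (fL y₃ κ) with h' | h'
    · rw [h']
      refine le_trans ?_ (k2.trans (le_of_eq (by ring)))
      unfold r3
      exact (min_le_right _ _).trans ((min_le_right _ _).trans (min_le_left _ _))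
    · rw [h']
      refine le_trans ?_ (k1.trans (le_of_eq (by ring)))
      unfold r3
      exact (min_le_right _ _).trans (min_le_left _ _)

/-- **bridge**: cube-free family, lumps not longer than the family -/
theorem r_le_P1 (R : ExpRules (7 / 8 + d) r s) (hd : 0 ≤ d) (hd8 : d ≤ 1 / 8)
    {i z₁ z₂ z₃ m a : ℝ} (hi : 0 ≤ i) (h1 : 0 ≤ z₁) (h2 : 0 ≤ z₂) (h3 : 0 ≤ z₃) (hm : 0 ≤ m)
    (ha : 0 ≤ a) (k1 : z₁ ≤ i) (k2 : z₂ ≤ i) (k3 : z₃ ≤ i) :
    r i {z₁, z₂, z₃} m a ≤ P1R904.r3 d i z₁ z₂ z₃ (m + a) := by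
  have := (r_three R hd hd8 hi h1 h2 h3 hm ha).trans (r3_le_P1 hi h1 h2 h3)
  rwa [min_eq_left k1, min_eq_left k2, min_eq_left k3] at this

/-- **bridge**: complete family of admissible `k`, any lumps (cut at the family) -/
theorem rc_le_P1 (R : ExpRules (7 / 8 + d) r s) (C : ExpC r rc) (hd : 0 ≤ d) (hd8 : d ≤ 1 / 8)
    {i z₁ z₂ z₃ m a : ℝ} (hi : 0 ≤ i) (h1 : 0 ≤ z₁) (h2 : 0 ≤ z₂) (h3 : 0 ≤ z₃) (hm : 0 ≤ m)
    (ha : 0 ≤ a) :
    rc i {z₁, z₂, z₃} m a ≤
      P1R904.r3 d i (min z₁ i) (min z₂ i) (min z₃ i) (m + a) :=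
  (rc_three R C hd hd8 hi h1 h2 h3 hm ha).trans (r3_le_P1 hi h1 h2 h3)

end Crest.Agent.R017.RM986
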