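import Crest.Agent.R017.P1E_904
import Crest.Agent.R017.RM3a_986

/-!
# Row 17, E3 of `P1`: the real side of the character moments near the region (helper571)

* `R3near` : the line of the structured part with tolerance `t`, homogeneous form
-/

set_option autoImplicit false
set_option linter.unusedVariables false

noncomputable section

namespace Crest.Agent.R017.RnP571

/-- the domain of the parents, homogeneous (`D = d k`) -/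
structure Dh (k y₃ y₄ u x D : ℝ) : Prop where
  k0 : 0 < k
  u4 : u ≤ y₄
  y43 : y₄ ≤ y₃
  u0 : 11 / 50 * k ≤ u
  y3 : y₃ + x ≤ 61 / 200 * k
  N1 : y₃ + y₄ + u ≤ 102 / 125 * k
  near : 99 / 100 * k ≤ y₃ + y₄ + 2 * u
  x0 : 0 ≤ x
  adm : (8 * x ≤ D ∧ (x = 0 ∨ y₃ + y₄ + u + x ≤ 4 / 5 * k)) ∨
    (3 / 4 * k ≤ y₃ + y₄ + u ∧ x + 2 * D ≤ 1 / 36 * k ∧
      x + 7 / 10 * (y₃ + y₄ + u) ≤ 199 / 360 * k)
  d0 : 0 ≤ D
  d1 : D ≤ 1 / 40 * k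

set_option maxHeartbeats 4000000 in
/-- the linear core: `S` bounds `l + x'` -/
lemma core {k y₃ y₄ u x D t p v v₀ δ e i n x' S : ℝ} (hD : Dh k y₃ y₄ u x D) (t0 : 0 ≤ t)
    (t1 : t ≤ k / 20000) (p0 : k / 2 - 2 * x - t ≤ p) (p1 : p ≤ y₃ + y₄ + u + x + t)
    (v1 : v ≤ 2 * (y₃ + y₄ + u) - k + 3 * x + t) (v2 : v ≤ 3 / 4 * (y₃ + y₄ + u) + 3 * x + t)
    (v3 : v₀ ≤ v) (δ0 : 0 ≤ δ) (δ1 : δ ≤ k / 10 + t) (e0 : 0 ≤ e) (e1 : e ≤ k / 64 + t)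
    (x0' : 0 ≤ x') (x1' : x' ≤ x + t) (hn : n ≤ p - δ - e + t) (i0 : 0 ≤ i)
    (hi : i ≤ v + p - k + t) (s1 : S - x' ≤ u + t) (s2 : 3 * (S - x') ≤ n - x')
    (s3 : 2 * (S - x') ≤ i) :
    2 / 3 * k - v / 3 + 5 / 3 * δ + 2 * e + max 0 (v + v₀ - k - δ) / 2 +
      max 0 (v₀ - p - δ) / 2 + 2 / 3 * (p - δ) + (i + 3 / 4 * S + 61 / 100 * D) +
      (v + p - k - i) / 3 + k / 400 ≤ k + p + max 0 (5 / 4 * (y₃ + y₄ + u) - k) / 3 := by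
  obtain ⟨k0, u4, y43, u0, y3, N1, near, x0, adm, d0, d1⟩ := hD
  have hL1 : 0 ≤ max 0 (5 / 4 * (y₃ + y₄ + u) - k) := le_max_left _ _
  have hL2 : 5 / 4 * (y₃ + y₄ + u) - k ≤ max 0 (5 / 4 * (y₃ + y₄ + u) - k) := le_max_right _ _
  generalize max 0 (5 / 4 * (y₃ + y₄ + u) - k) = Lm at hL1 hL2 ⊢
  rcases adm with ⟨a0, rfl | a1⟩ | ⟨a1, a2, a3⟩ <;>
  rcases le_total 0 (v + v₀ - k - δ) with h | h <;> rcases le_total 0 (v₀ - p - δ) with h' | h' <;>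
  first
  | (rw [max_eq_right h, max_eq_right h']; linarith)
  | (rw [max_eq_left h, max_eq_right h']; linarith)
  | (rw [max_eq_right h, max_eq_left h']; linarith)
  | (rw [max_eq_left h, max_eq_left h']; linarith)

set_option maxHeartbeats 4000000 in
/-- the principal part -/
lemma core2 {k y₃ y₄ u x D t p v v₀ δ e x' : ℝ} (hD : Dh k y₃ y₄ u x D) (t0 : 0 ≤ t)
    (t1 : t ≤ k / 20000) (p0 : k / 2 - 2 * x - t ≤ p) (p1 : p ≤ y₃ + y₄ + u + x + t)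
    (v1 : v ≤ 2 * (y₃ + y₄ + u) - k + 3 * x + t) (v2 : v ≤ 3 / 4 * (y₃ + y₄ + u) + 3 * x + t)
    (v3 : v₀ ≤ v) (v4 : 0 ≤ v + t) (δ0 : 0 ≤ δ) (δ1 : δ ≤ k / 10 + t) (e0 : 0 ≤ e)
    (e1 : e ≤ k / 64 + t) (x0' : 0 ≤ x') (x1' : x' ≤ x + t) :
    2 / 3 * k - v / 3 + 5 / 3 * δ + 2 * e + max 0 (v + v₀ - k - δ) / 2 +
      max 0 (v₀ - p - δ) / 2 + 2 / 3 * (p - δ) + max 0 ((v + p - k) / 3 + x') + k / 400 ≤
      k + p + max 0 (5 / 4 * (y₃ + y₄ + u) - k) / 3 := by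
  obtain ⟨k0, u4, y43, u0, y3, N1, near, x0, adm, d0, d1⟩ := hD
  have hL1 : 0 ≤ max 0 (5 / 4 * (y₃ + y₄ + u) - k) := le_max_left _ _
  have hL2 : 5 / 4 * (y₃ + y₄ + u) - k ≤ max 0 (5 / 4 * (y₃ + y₄ + u) - k) := le_max_right _ _
  generalize max 0 (5 / 4 * (y₃ + y₄ + u) - k) = Lm at hL1 hL2 ⊢
  have h0 : max 0 ((v + p - k) / 3 + x') = 0 ∨
      max 0 ((v + p - k) / 3 + x') = (v + p - k) / 3 + x' := max_choice _ _
  have h1 : max 0 (v + v₀ - k - δ) = 0 ∨ max 0 (v + v₀ - k - δ) = v + v₀ - k - δ :=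
    max_choice _ _
  have h2 : max 0 (v₀ - p - δ) = 0 ∨ max 0 (v₀ - p - δ) = v₀ - p - δ := max_choice _ _
  rcases h0 with h0 | h0 <;> rcases h1 with h1 | h1 <;> rcases h2 with h2 | h2 <;>
    rw [h0, h1, h2] <;>
    rcases adm with ⟨a0, rfl | a1⟩ | ⟨a1, a2, a3⟩ <;> linarith

/-- the exponent of the number of the children -/
def Gt (k p v v₀ δ e Lm : ℝ) : ℝ :=
  k + p + Lm / 3 - k / 400 - (2 / 3 * k - v / 3 + 5 / 3 * δ + 2 * e +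
    max 0 (v + v₀ - k - δ) / 2 + max 0 (v₀ - p - δ) / 2 + 2 / 3 * (p - δ))

/-- the data of a pair `(d, e)`, relative to `k`, tolerance `t` -/
structure Rg (k y₃ y₄ u x t p v v₀ δ e : ℝ) : Prop where
  t0 : 0 ≤ t
  t1 : t ≤ k / 20000
  p0 : k / 2 - 2 * x - t ≤ p
  p1 : p ≤ y₃ + y₄ + u + x + t
  v1 : v ≤ 2 * (y₃ + y₄ + u) - k + 3 * x + t
  v2 : v ≤ 3 / 4 * (y₃ + y₄ + u) + 3 * x + t
  v3 : v₀ ≤ v
  v4 : 0 ≤ v + t
  δ0 : 0 ≤ δ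
  δ1 : δ ≤ k / 10 + t
  e0 : 0 ≤ e
  e1 : e ≤ k / 64 + t

lemma Gt_nonneg {k y₃ y₄ u x D t p v v₀ δ e : ℝ} (hD : Dh k y₃ y₄ u x D)
    (hr : Rg k y₃ y₄ u x t p v v₀ δ e) :
    0 ≤ Gt k p v v₀ δ e (max 0 (5 / 4 * (y₃ + y₄ + u) - k)) := by
  have h := core2 hD hr.t0 hr.t1 hr.p0 hr.p1 hr.v1 hr.v2 hr.v3 hr.v4 hr.δ0 hr.δ1 hr.e0 hr.e1
    le_rfl (by have := hD.x0; have := hr.t0; linarith)
  have h2 : 0 ≤ max 0 ((v + p - k) / 3 + 0) := le_max_left _ _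
  unfold Gt
  linarith

/-- **the claims of the children** -/
theorem claim_le {d k y₃ y₄ u x t p v v₀ δ e i z₁ z₂ z₃ x' : ℝ}
    (hD : Dh k y₃ y₄ u x (d * k)) (hr : Rg k y₃ y₄ u x t p v v₀ δ e) (i0 : 0 ≤ i)
    (hi : i ≤ v + p - k + t) (z10 : 0 ≤ z₁) (z20 : 0 ≤ z₂) (z30 : 0 ≤ z₃) (z3 : z₃ ≤ u + t)
    (x0' : 0 ≤ x') (x1' : x' ≤ x + t) (hn : z₁ + z₂ + z₃ + x' ≤ p - δ - e + t) :
    max (RM986.r3 d i z₁ z₂ z₃ 0 x') (i / 3 + 2 * x' + 2 * (7 / 8 + d) * 0) +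
      (v + p - k - i) / 3 ≤
      Gt k p v v₀ δ e (max 0 (5 / 4 * (y₃ + y₄ + u) - k)) + (z₁ + z₂ + z₃ + x') := by
  have hk := hD.k0
  have hdk := hD.d0
  have hd0 : 0 ≤ d := by
    by_contra h0
    push Not at h0
    nlinarith
  rw [← max_add_add_right]
  refine max_le ?_ ?_
  · have h1 := RM986.r3_le_P1 (d := d) (m := 0) (a := x') i0 z10 z20 z30
    set ζ₁ := min z₁ i
    set ζ₂ := min z₂ i
    set ζ₃ := min z₃ i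
    have a1 : ζ₁ ≤ z₁ := min_le_left _ _
    have a2 : ζ₂ ≤ z₂ := min_le_left _ _
    have a3 : ζ₃ ≤ z₃ := min_le_left _ _
    obtain ⟨l1, l2, l3, l4, l5, l6⟩ := P1F904.l3_le i ζ₁ ζ₂ ζ₃
    unfold P1R904.r3 at h1
    rw [zero_add] at h1
    generalize P1R904.l3 i ζ₁ ζ₂ ζ₃ = l at h1 l1 l2 l3 l4 l5 l6
    have hS : l + x' ≤ 305 / 1000 * k := by
      obtain ⟨k0, u4, y43, u0, y3, N1, near, x0, adm, d0, d1⟩ := hD
      have ht := hr.t1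
      rcases adm with ⟨a0, -⟩ | ⟨-, a2', -⟩ <;> linarith
    have hdS : (3 / 4 + 2 * d) * (l + x') ≤ 3 / 4 * (l + x') + 61 / 100 * (d * k) := by
      have := mul_le_mul_of_nonneg_left hS hd0
      nlinarith
    have key := core (S := l + x') hD hr.t0 hr.t1 hr.p0 hr.p1 hr.v1 hr.v2 hr.v3 hr.δ0 hr.δ1
      hr.e0 hr.e1 x0' x1' hn i0 hi (by linarith) (by linarith) (by linarith)
    unfold Gt
    linarith
  · have key := core2 hD hr.t0 hr.t1 hr.p0 hr.p1 hr.v1 hr.v2 hr.v3 hr.v4 hr.δ0 hr.δ1 hr.e0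
      hr.e1 x0' x1'
    have h2 : (v + p - k) / 3 + x' ≤ max 0 ((v + p - k) / 3 + x') := le_max_right _ _
    unfold Gt
    linarith

end Crest.Agent.R017.RnP571
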