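import Crest.Agent.R017.P1DomS_918
import Crest.Agent.R017.P1t_54
import Crest.Agent.R017.RnPa_571

/-!
# Row 17, R8 (helper744): helper571's domain `Dh` on the parents `ParS A d`
-/

set_option autoImplicit false

noncomputable section

namespace Crest.Agent.R017.E3Nx744

open Crest.Agent.R017.Prov71
open Crest.Agent.R017.E5B71
open Crest.Agent.R017.P1t54 (ParS)
open Crest.Agent.R017.RnP571 (Dh)

/-- **the parents are in helper571's domain** -/
theorem dh_sq5 {A d : ℝ} (hd : 0 ≤ d) (hd1 : d ≤ 1 / 8) (hA : A ≤ 1) (hA1 : 16 * (1 - A) ≤ d)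
    {p : Fin 3 ⊕ Fin 5 → ℝ} (hp : p ∈ ParS A d) :
    Dh (cκ p) (cu p 2) (cu p 3) (cu p 4) (cx' p) (d * cκ p) := by
  obtain ⟨w, hw⟩ := hp
  have hκ := hw.κpos
  obtain ⟨u4, y43, u0, y3, N1, near, x0, adm, d0, d1⟩ := hw.dp hd hd1 hA hA1
  have e3 : cu p 2 / cκ p + cu p 3 / cκ p + cu p 4 / cκ p =
      (cu p 2 + cu p 3 + cu p 4) / cκ p := by ring
  have en : cu p 2 / cκ p + cu p 3 / cκ p + 2 * (cu p 4 / cκ p) =
      (cu p 2 + cu p 3 + 2 * cu p 4) / cκ p := by ring
  rw [e3] at N1 adm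
  rw [en] at near
  have ea : cu p 2 / cκ p + cx' p / cκ p = (cu p 2 + cx' p) / cκ p := by ring
  rw [ea] at y3
  rw [div_le_div_iff_of_pos_right hκ] at u4 y43
  rw [le_div_iff₀ hκ] at u0 near x0
  rw [div_le_iff₀ hκ] at y3 N1
  refine ⟨hκ, u4, y43, u0, ?_, N1, near, by linarith, ?_, by positivity, ?_⟩
  · nlinarith
  · rcases adm with ⟨a1, a2⟩ | ⟨a1, a2, a3⟩
    · left
      constructor
      · rw [← mul_div_assoc, div_le_iff₀ hκ] at a1
        linarith
      · rcases a2 with a2 | a2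
        · left
          rcases div_eq_zero_iff.1 a2 with h' | h'
          · exact h'
          · exact absurd h' hκ.ne'
        · right
          rw [← add_div, div_le_iff₀ hκ] at a2
          linarith
    · right
      rw [le_div_iff₀ hκ] at a1
      have e1 : cx' p / cκ p + 7 / 10 * ((cu p 2 + cu p 3 + cu p 4) / cκ p) =
          (cx' p + 7 / 10 * (cu p 2 + cu p 3 + cu p 4)) / cκ p := by ring
      rw [e1, div_le_iff₀ hκ] at a3
      have e2 : cx' p / cκ p + 2 * d = (cx' p + 2 * (d * cκ p)) / cκ p := by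
        field_simp
      rw [e2, div_le_iff₀ hκ] at a2
      exact ⟨a1, by linarith, by linarith⟩
  · nlinarith

end Crest.Agent.R017.E3Nx744
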