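import Crest.Agent.R017.X6C4_180

/-!
# Row 17, exceptional class, X6 (C), part 5 (helper180): the functional equation of the
theta sums, one S-unit frequency

* `PP σ u F A = Σ_{h prim} th (σ u h) F (N h / A)`
* `DD w K = Σ_{d prim, cube-free} th (w d) N(d)^(-1/3) K d`
* `PP_eq` : main term + finitely many dual sums `DD (δ σ u)`, coefficients independent of `u`
-/

set_option autoImplicit false
set_option linter.unusedVariables false

noncomputable section

open Complex MeasureTheory Set Filter Topology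
open scoped ComplexConjugate ContDiff

namespace Crest.Agent.R017.X6C180

open Crest.Agent.R012 Crest.Agent.R012.Eis Crest.Agent.R012.Sym645
open Crest.Agent.R012.Parseval499 (frq s3 toC_s3_ne)
open Crest.Agent.R017.FE47 (SM BM)
open Crest.Agent.R017.Xi590 Crest.Agent.R017.Xn590
open Crest.Agent.R017.F1
open Crest.Agent.R017.PX764

/-- `N(d)^(-1/3)` -/
def n13 (d : Eis) : ℝ := (nm d : ℝ) ^ (-(1 : ℝ) / 3)

lemma n13_nonneg (a : Eis) : 0 ≤ n13 a := by unfold n13; positivity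

/-- the sum over primary `h` at the frequency `σ u`. -/
def PP (σ u : Eis) (F : ℝ → ℂ) (A : ℝ) : ℂ := by
  classical
  exact ∑' h : Eis, if IsPrim h then th (σ * u * h) * F (nm h / A) else 0

/-- the dual sum. -/
def DD (w : Eis) (K : ℂ → ℂ) : ℂ := by
  classical
  exact ∑' d : Eis, if IsPrim d ∧ CF d then th (w * d) * (n13 d : ℂ) * K (toC d) else 0

/-- no square of a primary prime divides `v` -/
def NSq (v : Eis) : Prop := ∀ p : Eis, Prime p → IsPrim p → ¬ p ^ 2 ∣ v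

lemma NSq_of {s u : Eis} (hs : s ∈ SM 3) (hu : Squarefree u) : NSq (s * u) := by
  intro p hpp hp hd
  have hcop : IsCoprime (p ^ 2) s := (SM3_coprime hs hp).symm.pow_left
  have h2 := hcop.dvd_of_dvd_mul_left hd
  exact hpp.not_isUnit (hu p (by rw [← pow_two]; exact h2))

lemma th_cf {v d : Eis} (hv : NSq v) (hd : IsPrim d) (hcf : CF d) :
    th (v * d) = th v * conj (gs v d) * (n23 d : ℂ) := by
  unfold th
  rw [rho_cf rho_rel _ d le_rfl hd hcf v (fun p hpp hp _ => hv p hpp hp)]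
  ring

/-- Gauss sum series at `w` in terms of the theta coefficients. -/
lemma th_Cg_rc {w : Eis} (hw : NSq w) (φ : ℂ → ℂ) (v : ℂ) :
    th w * Cg w (rc φ v) = DD w (fun x => φ (v / x)) := by
  classical
  unfold Cg DD
  rw [← tsum_mul_left]
  refine tsum_congr fun d => ?_
  by_cases hd : IsPrim d
  · rw [if_pos hd]
    by_cases hcf : CF d
    · rw [if_pos ⟨hd, hcf⟩, th_cf hw hd hcf]
      unfold rc
      rw [norm_toC_sq]
      have hN : (0 : ℝ) < nm d := by exact_mod_cast nm_pos.2 hd.ne_zero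
      have e1 : (nm d : ℝ)⁻¹ = n23 d * n13 d := by
        unfold n23 n13
        rw [← Real.rpow_add hN, ← Real.rpow_neg_one]
        norm_num
      rw [e1]
      push_cast
      ring
    · rw [if_neg (fun h => hcf h.2), gs_ncf hd hcf (fun p hpp hp _ => hw p hpp hp)]
      simp
  · rw [if_neg hd, if_neg (fun h => hd h.1), mul_zero]

/-! ### the weight -/

/-- `V₁ y = y^(-2/3) F y` -/
def V1 (F : ℝ → ℂ) (y : ℝ) : ℂ := ((y ^ (-(2 / 3) : ℝ) : ℝ) : ℂ) * F y

lemma wt_V1 {F : ℝ → ℂ} (h : M49.Wt F) : M49.Wt (V1 F) where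
  smooth := by
    obtain ⟨a, b, ha, hab, hs⟩ := h.supp
    rw [contDiff_iff_contDiffAt]
    intro x
    rcases lt_or_ge x a with hx | hx
    · have h0 : V1 F =ᶠ[𝓝 x] fun _ => 0 := by
        filter_upwards [gt_mem_nhds hx] with y hy
        simp [V1, hs y (Or.inl hy)]
      exact (contDiffAt_const (c := (0 : ℂ))).congr_of_eventuallyEq h0
    · have hx0 : x ≠ 0 := (ha.trans_le hx).ne'
      unfold V1
      refine ContDiffAt.mul ?_ h.smooth.contDiffAt
      exact Complex.ofRealCLM.contDiff.contDiffAt.comp x (Real.contDiffAt_rpow_const_of_ne hx0)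
  supp := by
    obtain ⟨a, b, ha, hab, hs⟩ := h.supp
    exact ⟨a, b, ha, hab, fun x hx => by unfold V1; rw [hs x hx, mul_zero]⟩

lemma mellin_V1 (F : ℝ → ℂ) :
    mellin (V1 F) ((4 / 3 : ℝ) : ℂ) = mellin F ((2 / 3 : ℝ) : ℂ) := by
  unfold mellin
  refine setIntegral_congr_fun measurableSet_Ioi fun t ht => ?_
  have ht0 : (0 : ℝ) < t := ht
  have e1 : ((t : ℂ)) ^ (((4 / 3 : ℝ) : ℂ) - 1) = ((t ^ ((4 / 3 : ℝ) - 1) : ℝ) : ℂ) := by
    rw [Complex.ofReal_cpow ht0.le]; push_cast; rfl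
  have e2 : ((t : ℂ)) ^ (((2 / 3 : ℝ) : ℂ) - 1) = ((t ^ ((2 / 3 : ℝ) - 1) : ℝ) : ℂ) := by
    rw [Complex.ofReal_cpow ht0.le]; push_cast; rfl
  simp only [smul_eq_mul]
  rw [e1, e2]
  unfold V1
  rw [← mul_assoc, ← Complex.ofReal_mul, ← Real.rpow_add ht0]
  norm_num

/-- the kernel function of the dual side -/
def WF (F : ℝ → ℂ) : ℂ → ℂ := Wf (rV (V1 F))

/-- the test function -/
def fA (F : ℝ → ℂ) (A : ℝ) (x : ℂ) : ℂ :=
  ((A ^ (-(2 / 3) : ℝ) : ℝ) : ℂ) * dl ((Real.sqrt A : ℝ) : ℂ) (rV (V1 F)) x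

lemma sqrtA_ne {A : ℝ} (hA : 0 < A) : ((Real.sqrt A : ℝ) : ℂ) ≠ 0 := by
  have := Real.sqrt_pos.mpr hA
  exact_mod_cast this.ne'

lemma ev_fA {F : ℝ → ℂ} (hF : M49.Wt F) {A : ℝ} (hA : 0 < A) : Ev (fA F A) :=
  ((ev_rV (wt_V1 hF)).dl (sqrtA_ne hA)).const_mul _

lemma fA_eq {F : ℝ → ℂ} {A : ℝ} (hA : 0 < A) {x : ℂ} (hx : x ≠ 0) :
    fA F A x = (((‖x‖ ^ 2) ^ (-(2 / 3) : ℝ) : ℝ) : ℂ) * F (‖x‖ ^ 2 / A) := by
  have hn : 0 < ‖x‖ := norm_pos_iff.mpr hx
  have e1 : ‖x / ((Real.sqrt A : ℝ) : ℂ)‖ ^ 2 = ‖x‖ ^ 2 / A := by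
    rw [norm_div, div_pow, Complex.norm_real, Real.norm_of_nonneg (Real.sqrt_nonneg _),
      Real.sq_sqrt hA.le]
  unfold fA dl rV V1
  rw [e1, ← mul_assoc, ← Complex.ofReal_mul, Real.div_rpow (by positivity) hA.le]
  have hAp : A ^ (-(2 / 3) : ℝ) ≠ 0 := (Real.rpow_pos_of_pos hA _).ne'
  rw [mul_div_cancel₀ _ hAp]

/-- the primary sum as a Gauss sum series -/
lemma PP_eq_Cg {F : ℝ → ℂ} (hF : M49.Wt F) {σ u : Eis} (hw : NSq (σ * u)) {A : ℝ} (hA : 0 < A) :
    PP σ u F A = th (σ * u) * Cg (σ * u) (fL (fA F A)) := by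
  classical
  obtain ⟨a, b, ha, hab, hs⟩ := hF.supp
  have hFS : FSp (fun h : Eis => F ((nm h : ℝ) / A)) := by
    refine ⟨⌈b * A⌉₊, fun h hh => ?_⟩
    have h1 : (nm h : ℝ) / A ≤ b := by
      by_contra hc
      push Not at hc
      exact hh (hs _ (Or.inr hc))
    rw [div_le_iff₀ hA] at h1
    exact_mod_cast h1.trans (Nat.le_ceil _)
  have h1 := thS rho_rel hw hFS
  have h2 : PP σ u F A = (∑' h : Eis, if IsPrim h then rho (σ * u * h) * F ((nm h : ℝ) / A)
      else 0) / (cD : ℂ) := by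
    unfold PP
    rw [← tsum_div_const]
    refine tsum_congr fun h => ?_
    split_ifs
    · unfold th; ring
    · rw [zero_div]
  rw [h2, h1]
  unfold th
  rw [mul_div_right_comm]
  congr 1
  unfold Cg
  refine tsum_congr fun d => ?_
  by_cases hd : IsPrim d
  · rw [if_pos hd, if_pos hd, fL_eq_prim (ev_fA hF hA), ← tsum_mul_left]
    congr 1
    refine tsum_congr fun e => ?_
    by_cases he : IsPrim e
    · rw [if_pos he, if_pos he]
      have hNd : (0 : ℝ) < nm d := by exact_mod_cast nm_pos.2 hd.ne_zero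
      have hNe : (0 : ℝ) < nm e := by exact_mod_cast nm_pos.2 he.ne_zero
      have hne : toC e ^ 3 * toC d ≠ 0 := by
        refine mul_ne_zero (pow_ne_zero 3 ?_) ?_
        · rw [Ne, toC_eq_zero]; exact he.ne_zero
        · rw [Ne, toC_eq_zero]; exact hd.ne_zero
      rw [fA_eq hA hne]
      have e1 : ‖toC e ^ 3 * toC d‖ ^ 2 = (nm e : ℝ) ^ 3 * nm d := by
        rw [norm_mul, norm_pow, mul_pow, ← norm_toC_sq, ← norm_toC_sq]; ring
      have e2 : (nm (d * e ^ 3) : ℝ) = (nm e : ℝ) ^ 3 * nm d := by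
        rw [nm_mul, nm_pow]; push_cast; ring
      rw [e1, e2]
      have e3 : (nm e : ℝ) ^ 2 * ((nm e : ℝ) ^ 3 * nm d) ^ (-(2 / 3) : ℝ) = n23 d := by
        rw [Real.mul_rpow (by positivity) hNd.le, ← mul_assoc]
        have e4 : ((nm e : ℝ) ^ 3) ^ (-(2 / 3) : ℝ) = ((nm e : ℝ) ^ 2)⁻¹ := by
          rw [← Real.rpow_natCast, ← Real.rpow_mul hNe.le, ← Real.rpow_natCast, ← Real.rpow_neg hNe.le]
          norm_num
        rw [e4, mul_inv_cancel₀ (by positivity), one_mul]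
        unfold n23
        norm_num
      rw [← e3]
      push_cast
      ring
    · rw [if_neg he, if_neg he, mul_zero]
  · rw [if_neg hd, if_neg hd]

end Crest.Agent.R017.X6C180
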