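import Crest.Agent.R017.LBa_48
import Crest.Agent.R017.X6C5_180

/-!
# Row 17, C.REMg, (LB), part c (helper48): the T-sums

`TS` : the sum of all squares of the coefficients, weights `N(j)^(-1/3) N(e) τ(e)⁴`
`TS_le_EH` : `K^(2/3) TS ≤ C (K/X) EH`
-/

set_option autoImplicit false

noncomputable section

open Complex MeasureTheory
open scoped ComplexConjugate Classical

namespace Crest.Agent.R017.LBx48

open Crest.Agent.R012 Crest.Agent.R012.Eis Crest.Agent.R012.MC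
open Crest.Agent.R012.LS2 (S mem_S)
open Crest.Agent.R012.Div277 (tau)
open Crest.Agent.R017.PX764 (Gh n6)
open Crest.Agent.R017.CM106 (CS TG FS)
open Crest.Agent.R017.E1551 hiding tau
open Crest.Agent.R017.C70 (JW JC OKJ)
open Crest.Agent.R017.E2440 (TE)
open Crest.Agent.R017.X6C180 (n13)

/-- the sum of the squares of the coefficients -/
def TS (Y : ℝ) (J : Finset (Eis × Eis)) (α : Eis → ℂ) : ℝ :=
  ∑ x ∈ J, n13 x.2 * ∑ e ∈ S Y, (nm e * (tau e : ℝ) ^ 4) * ‖TE α x e‖ ^ 2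

lemma TS_nonneg (Y : ℝ) (J : Finset (Eis × Eis)) (α : Eis → ℂ) : 0 ≤ TS Y J α :=
  Finset.sum_nonneg fun _ _ => mul_nonneg (X6C180.n13_nonneg _)
    (Finset.sum_nonneg fun _ _ => by positivity)

lemma TE_zero_of_not {Y : ℝ} (hY : 0 ≤ Y) {α : Eis → ℂ} (hα : ∀ n, α n ≠ 0 → n ∈ S Y)
    {δ : Eis} (hδ : IsPrim δ) (hn : δ ∉ S Y) (κ e : Eis) : TE α (δ, κ) e = 0 := by
  unfold E2440.TE
  refine (tsum_congr fun k => ?_).trans tsum_zero
  have : α (δ * k) = 0 := by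
    by_contra h
    exact hn (Dual2813.S_of_dvd hY (hα _ h) hδ (dvd_mul_right δ k))
  show (if e ∣ k ∧ IsCoprime κ (δ * k) then α (δ * k) * ((n6 k : ℂ) * Gh κ k) else 0) = 0
  rw [this]; simp

/-- **the T-sums through `EH`** -/
theorem TS_le_EH (R : ℝ) (hR : 0 ≤ R) (A : ℕ) (hA : 2 ≤ A) : ∃ C : ℝ, 0 ≤ C ∧
    ∀ (Y X K D Y₀ Z : ℝ), 1 ≤ Y → 0 < X → 0 < K → ∀ α : Eis → ℂ, Adm Y X R α →
      K ^ (2 / 3 : ℝ) * TS Y (JW D Y₀ Z) α ≤ C * (K / X) * EH A K X Y Z α := by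
  obtain ⟨C₀, hC₀, hTE⟩ := norm_TE_sq_le R hR A hA
  refine ⟨C₀, hC₀, fun Y X K D Y₀ Z hY hX hK α hα => ?_⟩
  have hY0 : 0 ≤ Y := by linarith
  set J := JW D Y₀ Z with hJ
  -- pointwise
  set f : Eis → Eis → Eis → ℝ := fun δ j e =>
    (nm δ * tau δ * (tau e : ℝ) ^ 4) * (nm e * (lm K X δ j * Wf A α δ j e)) with hf
  have hf0 : ∀ δ j e, 0 ≤ f δ j e := fun δ j e => mul_nonneg (by positivity)
    (mul_nonneg (Nat.cast_nonneg _) (mul_nonneg (lm_nonneg hK.le hX.le _ _)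
      (Wf_nonneg _ _ _ _ _)))
  have hpt : ∀ x ∈ J, K ^ (2 / 3 : ℝ) * (n13 x.2 * ∑ e ∈ S Y,
      (nm e * (tau e : ℝ) ^ 4) * ‖TE α x e‖ ^ 2) ≤
      if x.1 ∈ S Y then C₀ * (K / X) * ∑ e ∈ S Y, f x.1 x.2 e else 0 := by
    intro x hx
    have hx' := hx
    rw [hJ] at hx'
    unfold JW at hx'
    rw [Finset.mem_filter, Finset.mem_product, mem_primBall] at hx'
    obtain ⟨⟨⟨-, hδ⟩, -⟩, -, hjc, -, -⟩ := hx'
    have hδn := nmpos hδ.ne_zero
    have hj0 := (E5b54.JC_cf hjc).1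
    have hjn := nmpos hj0
    by_cases hS : x.1 ∈ S Y
    · rw [if_pos hS, Finset.mul_sum, Finset.mul_sum, Finset.mul_sum]
      refine Finset.sum_le_sum fun e he => ?_
      have hep := ((mem_S hY0).1 he).2.1
      have h1 := hTE Y X hY0 hX α hα x.1 x.2 e hδ hep
      have hW := Wf_nonneg (A : ℝ) α x.1 x.2 e
      have hXδ : 0 < X / nm x.1 := by positivity
      have e0 : K ^ (2 / 3 : ℝ) * n13 x.2 * (X / nm x.1) ^ (-(1 / 3) : ℝ) =
          (K / X) * (nm x.1 * lm K X x.1 x.2) / 3 := by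
        unfold lm X6C180.n13
        have a1 : (K * nm x.2) ^ (-(1 / 3) : ℝ) = K ^ (2 / 3 : ℝ) / K *
            (nm x.2 : ℝ) ^ (-(1 : ℝ) / 3) := by
          rw [Real.mul_rpow hK.le hjn.le]
          have b1 : K ^ (-(1 / 3) : ℝ) = K ^ (2 / 3 : ℝ) / K := by
            rw [show (-(1 / 3) : ℝ) = 2 / 3 - 1 by norm_num, Real.rpow_sub hK, Real.rpow_one]
          rw [b1]
          congr 2
          norm_num
        have a2 : (X / nm x.1) ^ (-(1 / 3) : ℝ) = (X / nm x.1) ^ (2 / 3 : ℝ) / (X / nm x.1) := by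
          rw [show (-(1 / 3) : ℝ) = 2 / 3 - 1 by norm_num, Real.rpow_sub hXδ, Real.rpow_one]
        rw [a1, a2]
        field_simp
      have t1 : (1 : ℝ) ≤ tau x.1 := by exact_mod_cast Div277.one_le_tau hδ.ne_zero
      have hl := lm_nonneg hK.le hX.le x.1 x.2
      calc K ^ (2 / 3 : ℝ) * (n13 x.2 * ((nm e * (tau e : ℝ) ^ 4) * ‖TE α x e‖ ^ 2)) ≤
            K ^ (2 / 3 : ℝ) * (n13 x.2 * ((nm e * (tau e : ℝ) ^ 4) *
              (C₀ * (X / nm x.1) ^ (-(1 / 3) : ℝ) * Wf A α x.1 x.2 e))) := by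
            have := X6C180.n13_nonneg x.2
            have e1 : x = (x.1, x.2) := rfl
            rw [e1]
            gcongr
        _ = C₀ * (K ^ (2 / 3 : ℝ) * n13 x.2 * (X / nm x.1) ^ (-(1 / 3) : ℝ)) *
            ((nm e * (tau e : ℝ) ^ 4) * Wf A α x.1 x.2 e) := by ring
        _ = C₀ * (K / X) * ((nm x.1 * 1 * (tau e : ℝ) ^ 4) *
            (nm e * (lm K X x.1 x.2 * Wf A α x.1 x.2 e))) / 3 := by rw [e0]; ring
        _ ≤ C₀ * (K / X) * ((nm x.1 * tau x.1 * (tau e : ℝ) ^ 4) *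
            (nm e * (lm K X x.1 x.2 * Wf A α x.1 x.2 e))) / 3 := by gcongr
        _ ≤ C₀ * (K / X) * f x.1 x.2 e := by
            have := hf0 x.1 x.2 e
            simp only [hf] at this ⊢
            have h5 : 0 ≤ C₀ * (K / X) * ((nm x.1 * tau x.1 * (tau e : ℝ) ^ 4) *
              (nm e * (lm K X x.1 x.2 * Wf A α x.1 x.2 e))) := by positivity
            linarith
    · rw [if_neg hS]
      refine le_of_eq ?_
      have : ∀ e ∈ S Y, (nm e * (tau e : ℝ) ^ 4) * ‖TE α x e‖ ^ 2 = 0 := by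
        intro e _
        have : TE α x e = 0 := TE_zero_of_not hY0 hα.sup hδ hS x.2 e
        rw [this]; simp
      rw [Finset.sum_congr rfl this]; simp
  unfold TS
  rw [Finset.mul_sum]
  refine (Finset.sum_le_sum hpt).trans ?_
  rw [← Finset.sum_filter, ← Finset.mul_sum]
  refine mul_le_mul_of_nonneg_left ?_ (by positivity)
  -- regroup by `δ`
  unfold EH
  rw [Finset.sum_product]
  have h1 : ∀ δ ∈ S Y, ∑ x ∈ (J.filter (fun x => x.1 ∈ S Y)).filter (fun x => x.1 = δ),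
      ∑ e ∈ S Y, f x.1 x.2 e ≤ ∑ e ∈ S Y, (nm δ * tau δ * (tau e : ℝ) ^ 4) *
        (nm e * LJ A K X Z α δ e) := by
    intro δ hδ
    have hδp := ((mem_S hY0).1 hδ).2.1
    have hδn := nmpos hδp.ne_zero
    rw [Finset.sum_comm]
    refine Finset.sum_le_sum fun e _ => ?_
    set T := (J.filter (fun x => x.1 ∈ S Y)).filter (fun x => x.1 = δ) with hT
    have hinj : Set.InjOn (fun x : Eis × Eis => x.2) (T : Set (Eis × Eis)) := by
      intro x hx y hy hxy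
      have hx' := (Finset.mem_filter.mp hx).2
      have hy' := (Finset.mem_filter.mp hy).2
      exact Prod.ext (hx'.trans hy'.symm) hxy
    have e1 : ∑ x ∈ T, f x.1 x.2 e = ∑ j ∈ T.image (fun x => x.2), f δ j e := by
      rw [Finset.sum_image hinj]
      refine Finset.sum_congr rfl fun x hx => ?_
      rw [(Finset.mem_filter.mp hx).2]
    rw [e1]
    have e2 : (nm δ * tau δ * (tau e : ℝ) ^ 4) * (nm e * LJ A K X Z α δ e) =
        ∑ j ∈ BF (Z / (nm δ : ℝ) ^ 2), f δ j e := by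
      unfold LJ
      rw [Finset.mul_sum, Finset.mul_sum]
    rw [e2]
    refine Finset.sum_le_sum_of_subset_of_nonneg ?_ fun j _ _ => hf0 _ _ _
    intro j hj
    obtain ⟨x, hx, rfl⟩ := Finset.mem_image.mp hj
    have hx1 := Finset.mem_filter.mp hx
    have hx2 := (Finset.mem_filter.mp hx1.1).1
    rw [hJ] at hx2
    unfold JW at hx2
    rw [Finset.mem_filter] at hx2
    obtain ⟨-, -, h3, -, h4⟩ := hx2
    rw [mem_BF]
    refine ⟨E5b54.JC_cf h3, ?_⟩
    rw [le_div_iff₀ (by positivity)]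
    rw [hx1.2, nm_mul, nm_pow] at h4
    exact_mod_cast h4
  rw [← Finset.sum_fiberwise_of_maps_to (s := J.filter (fun x => x.1 ∈ S Y)) (t := S Y)
    (g := fun x => x.1) (fun x hx => (Finset.mem_filter.mp hx).2)]
  exact Finset.sum_le_sum h1

end Crest.Agent.R017.LBx48
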