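import Crest.Agent.R017.I1c_146
import Crest.Agent.R017.E1zc_551
import Crest.Agent.R017.LBb_48

/-!
# Row 17, block C70, the assembly (I1) (helper146): the defects in the currency of the T-moments

* `TE_pt` : `K^(2/3) n13 x₂ |TE α x e|² ≤ C (K/X) (N x₁ · lm · Wf)`
* `TJ c` : the T-functional with weights `c x e`; `Df_le_TJ`, `Dfw_le_TJ`
* **`I1S`** : `(I1)` with all defects as T-functionals
* **`TJ_le`** : `TJ` as one number from the dyadic blocks (551's `JB`)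
-/

set_option autoImplicit false

noncomputable section

open Finset MeasureTheory
open scoped ComplexConjugate Classical

namespace Crest.Agent.R017.I1146

open Crest.Agent.R012 Crest.Agent.R012.Eis Crest.Agent.R012.MC Crest.Agent.R012.Gauss880
open Crest.Agent.R012.LS2 (S mem_S)
open Crest.Agent.R012.Mob705 (mu pdiv mem_pdiv PE kap0)
open Crest.Agent.R012.Weight600 (pw)
open Crest.Agent.R017.CM106 (CS FS TG)
open Crest.Agent.R017.C70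
open Crest.Agent.R017.E1551
open Crest.Agent.R017.SqLoc829 (JE)
open Crest.Agent.R017.DgB829 (HS HS_nonneg)
open Crest.Agent.R017.E2440 (TE StE)
open Crest.Agent.R017.LB48 (CrP GrP)
open Crest.Agent.R017.X6C180 (n13)

/-- **pointwise conversion** -/
theorem TE_pt (R : ℝ) (hR : 0 ≤ R) (A : ℕ) (hA : 2 ≤ A) : ∃ C : ℝ, 0 ≤ C ∧
    ∀ (Y X K : ℝ), 0 ≤ Y → 0 < X → 0 < K → ∀ α : Eis → ℂ, Adm Y X R α →
      ∀ (x : Eis × Eis) (e : Eis), IsPrim x.1 → x.2 ≠ 0 → IsPrim e →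
      K ^ (2 / 3 : ℝ) * (n13 x.2 * ‖TE α x e‖ ^ 2) ≤
        C * (K / X) * ((nm x.1 * lm K X x.1 x.2) * Wf A α x.1 x.2 e) := by
  obtain ⟨C₀, hC₀, hTE⟩ := LBx48.norm_TE_sq_le R hR A hA
  refine ⟨C₀, hC₀, fun Y X K hY hX hK α hα x e hδ hj0 hep => ?_⟩
  have hδn := nmpos hδ.ne_zero
  have hjn := nmpos hj0
  have h1 := hTE Y X hY hX α hα x.1 x.2 e hδ hep
  have hW := Wf_nonneg (A : ℝ) α x.1 x.2 e
  have hXδ : 0 < X / nm x.1 := by positivity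
  have e0 : K ^ (2 / 3 : ℝ) * n13 x.2 * (X / nm x.1) ^ (-(1 / 3) : ℝ) =
      (K / X) * (nm x.1 * lm K X x.1 x.2) / 3 := by
    unfold lm X6C180.n13
    have a1 : (K * nm x.2) ^ (-(1 / 3) : ℝ) = K ^ (2 / 3 : ℝ) / K *
        (nm x.2 : ℝ) ^ (-(1 : ℝ) / 3) := by
      rw [Real.mul_rpow hK.le hjn.le]
      have b1 : K ^ (-(1 / 3) : ℝ) = K ^ (2 / 3 : ℝ) / K := by
        rw [show (-(1 / 3) : ℝ) = 2 / 3 - 1 by norm_num, Real.rpow_sub hK, Real.rpow_one]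
      rw [b1]
      congr 2
      norm_num
    have a2 : (X / nm x.1) ^ (-(1 / 3) : ℝ) = (X / nm x.1) ^ (2 / 3 : ℝ) / (X / nm x.1) := by
      rw [show (-(1 / 3) : ℝ) = 2 / 3 - 1 by norm_num, Real.rpow_sub hXδ, Real.rpow_one]
    rw [a1, a2]
    field_simp
  have hl := lm_nonneg hK.le hX.le x.1 x.2
  have hn := X6C180.n13_nonneg x.2
  calc K ^ (2 / 3 : ℝ) * (n13 x.2 * ‖TE α x e‖ ^ 2) ≤
        K ^ (2 / 3 : ℝ) * (n13 x.2 *
          (C₀ * (X / nm x.1) ^ (-(1 / 3) : ℝ) * Wf A α x.1 x.2 e)) := by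
        have e1 : x = (x.1, x.2) := rfl
        rw [e1]
        gcongr
    _ = C₀ * (K ^ (2 / 3 : ℝ) * n13 x.2 * (X / nm x.1) ^ (-(1 / 3) : ℝ)) *
        Wf A α x.1 x.2 e := by ring
    _ = C₀ * (K / X) * ((nm x.1 * lm K X x.1 x.2) * Wf A α x.1 x.2 e) / 3 := by rw [e0]; ring
    _ ≤ _ := by
        have h5 : 0 ≤ C₀ * (K / X) * ((nm x.1 * lm K X x.1 x.2) * Wf A α x.1 x.2 e) := by
          positivity
        linarith

/-- **the T-functional**, weights `c x e` -/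
def TJ (c : Eis × Eis → Eis → ℝ) (A K X Y : ℝ) (J : Finset (Eis × Eis)) (α : Eis → ℂ) : ℝ :=
  ∑ x ∈ J, ∑ t ∈ S Y, if IsCoprime x.2 t then
    c x t * ((nm x.1 * lm K X x.1 x.2) * Wf A α x.1 x.2 t) else 0

lemma TE_zero_e {α : Eis → ℂ} {x : Eis × Eis} {e : Eis} (h : ¬ IsCoprime x.2 e) :
    TE α x e = 0 := by
  unfold E2440.TE
  refine (tsum_congr fun m => ?_).trans tsum_zero
  refine if_neg fun h1 => h ?_
  exact h1.2.of_mul_right_right.of_isCoprime_of_dvd_right h1.1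

/-- a weighted second moment through `TJ` -/
theorem W_le_TJ (R : ℝ) (hR : 0 ≤ R) (A : ℕ) (hA : 2 ≤ A) : ∃ C : ℝ, 0 ≤ C ∧
    ∀ (Y X K : ℝ), 0 ≤ Y → 0 < X → 0 < K → ∀ α : Eis → ℂ, Adm Y X R α →
      ∀ (J : Finset (Eis × Eis)), OKJ J → ∀ c : Eis × Eis → Eis → ℝ, (∀ x t, 0 ≤ c x t) →
      K ^ (2 / 3 : ℝ) * ∑ x ∈ J, n13 x.2 * ∑ t ∈ S Y, c x t * ‖TE α x t‖ ^ 2 ≤
        C * (K / X) * TJ c A K X Y J α := by
  obtain ⟨C, hC, h⟩ := TE_pt R hR A hA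
  refine ⟨C, hC, fun Y X K hY hX hK α hα J hJ c hc => ?_⟩
  unfold TJ
  rw [Finset.mul_sum, Finset.mul_sum]
  refine Finset.sum_le_sum fun x hx => ?_
  have hx0 : x.2 ≠ 0 := (E5b54.JC_cf (hJ.jc x hx)).1
  rw [Finset.mul_sum, Finset.mul_sum, Finset.mul_sum]
  refine Finset.sum_le_sum fun t ht => ?_
  have htp := ((mem_S hY).1 ht).2.1
  by_cases hcop : IsCoprime x.2 t
  · rw [if_pos hcop]
    have h1 := mul_le_mul_of_nonneg_left (h Y X K hY hX hK α hα x t (hJ.prim x hx) hx0 htp)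
      (hc x t)
    refine le_of_eq_of_le ?_ (h1.trans (le_of_eq ?_)) <;> ring
  · rw [if_neg hcop, TE_zero_e hcop]
    simp

/-- the weights of the defect -/
def cD (E0 : ℝ) (om : Eis × Eis → ℂ) (x : Eis × Eis) (t : Eis) : ℝ :=
  (Div277.tau t : ℝ) / nm t * (if t ∈ S E0 then ‖1 - om x‖ ^ 2 else 1)

lemma cD_nonneg (E0 : ℝ) (om : Eis × Eis → ℂ) (x : Eis × Eis) (t : Eis) : 0 ≤ cD E0 om x t := by
  unfold cD
  split_ifs <;> positivity

/-- the weights of the defect, smooth window -/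
def cDw (E0 : ℝ) (Om : ℕ → ℝ) (lam : ℝ) (x : Eis × Eis) (t : Eis) : ℝ :=
  (Div277.tau t : ℝ) / nm t *
    (Om (nm (x.2 * x.1 ^ 2)) * (1 - Om (nm (x.2 * x.1 ^ 2))) *
      (lam + (if t ∈ S E0 then 0 else lam⁻¹)) +
        Om (nm (x.2 * x.1 ^ 2)) ^ 2 * (if t ∈ S E0 then 0 else 1))

lemma Df_eq {Y E0 : ℝ} (hY : 0 ≤ Y) {α : Eis → ℂ} (hα : ∀ n, α n ≠ 0 → n ∈ S Y)
    {J : Finset (Eis × Eis)} (hJ : OKJ J) (om : Eis × Eis → ℂ) :
    Df Y E0 J om α = ∑ x ∈ J, n13 x.2 * ∑ t ∈ S Y, cD E0 om x t * ‖TE α x t‖ ^ 2 := by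
  unfold Df
  refine Finset.sum_congr rfl fun x hx => ?_
  congr 1
  rw [← Finset.sum_filter_add_sum_filter_not (S Y) (fun t => t ∈ S E0)]
  congr 1
  · have h1 : ∑ t ∈ S E0, (Div277.tau t : ℝ) / nm t * ‖TE α x t‖ ^ 2 =
        ∑ t ∈ (S Y).filter (fun t => t ∈ S E0), (Div277.tau t : ℝ) / nm t * ‖TE α x t‖ ^ 2 := by
      symm
      refine Finset.sum_subset (fun t ht => (Finset.mem_filter.1 ht).2) fun t ht ht' => ?_
      have h2 : t ∉ S Y := fun h => ht' (Finset.mem_filter.2 ⟨h, ht⟩)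
      have h3 : IsPrim t := by
        unfold LS2.S at ht
        rw [Finset.mem_filter, mem_primBall] at ht
        exact ht.1.2
      rw [TE_zero hY hα (hJ.prim x hx) h3 h2]
      simp
    rw [h1, Finset.mul_sum]
    refine Finset.sum_congr rfl fun t ht => ?_
    unfold cD
    rw [if_pos (Finset.mem_filter.1 ht).2]
    ring
  · refine Finset.sum_congr rfl fun t ht => ?_
    unfold cD
    rw [if_neg (Finset.mem_filter.1 ht).2]
    ring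

lemma Dfw_eq {Y E0 : ℝ} {α : Eis → ℂ} {J : Finset (Eis × Eis)} (Om : ℕ → ℝ) (lam : ℝ) :
    Dfw Y E0 J Om lam α = ∑ x ∈ J, n13 x.2 * ∑ t ∈ S Y, cDw E0 Om lam x t * ‖TE α x t‖ ^ 2 := by
  unfold Dfw M2t M2o
  refine Finset.sum_congr rfl fun x hx => ?_
  congr 1
  rw [Finset.sum_filter, Finset.mul_sum, Finset.mul_sum, ← Finset.sum_add_distrib,
    Finset.mul_sum, Finset.mul_sum, ← Finset.sum_add_distrib]
  refine Finset.sum_congr rfl fun t _ => ?_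
  unfold cDw
  by_cases h : t ∈ S E0
  · rw [if_pos h, if_pos h, if_neg (fun h' => h' h)]; ring
  · rw [if_neg h, if_neg h, if_pos h]; ring

lemma cDw_nonneg (E0 : ℝ) {Om : ℕ → ℝ} (h0 : ∀ n, 0 ≤ Om n) (h1 : ∀ n, Om n ≤ 1) {lam : ℝ}
    (hl : 0 ≤ lam) (x : Eis × Eis) (t : Eis) : 0 ≤ cDw E0 Om lam x t := by
  unfold cDw
  have a0 := h0 (nm (x.2 * x.1 ^ 2))
  have a1 : 0 ≤ 1 - Om (nm (x.2 * x.1 ^ 2)) := by linarith [h1 (nm (x.2 * x.1 ^ 2))]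
  split_ifs <;> positivity

lemma HS_le {Y : ℝ} (hY : 1 ≤ Y) : HS Y ≤ 100 * (1 + Real.log Y) := sum_inv_S551 hY

/-- **(I1) with the defects as T-functionals.** -/
theorem I1S {w : ℝ → ℝ} (hw : Wgt w) (hw0 : ∀ x, 0 ≤ w x) {R : ℝ} (hR : 0 ≤ R) {A : ℕ} {B : ℝ}
    (hA : 2 ≤ A) (hB : 1 ≤ B) : ∃ C : ℝ, 0 ≤ C ∧ ∀ (K X Y D Y₀ Y₁ E0 : ℝ) (I : ℕ), 0 < K →
      0 < X → 1 ≤ Y → 0 ≤ D → 0 < Y₁ → 0 ≤ E0 → (Y₁ ≤ D ^ 2 ∨ Y ≤ D) → Y₁ < 2 ^ I →
      ∀ α : Eis → ℂ, Adm Y X R α → ∀ (om : Eis × Eis → ℂ) (Q : Eis → Prop) (et e₃ : ℝ),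
      ‖CrP w K α (fun k => if Q k then 0 else StE E0 (JW D Y₀ Y₁) om α k)‖ ≤ et →
      GrP w K (fun k => if Q k then StE E0 (JW D Y₀ Y₁) om α k else 0) ≤
        c3 w K * (X3 Y E0 (JW D Y₀ Y₁) om α).re + e₃ →
      ∑' k : Eis, (if IsPrim k ∧ Q k then
        w (nm k / K) * ‖CS α k - (pC : ℂ) * StE E0 (JW D Y₀ Y₁) om α k‖ ^ 2 else 0) ≤
      Dg w K Y α + C * (1 + Real.log Y) * (K / X) * (E1e A B K X Y D Y₀ Y₁ α +
        TJ (cD E0 om) A K X Y (JW D Y₀ Y₁) α) +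
        2 * pC * (E2s w K E0 D Y₀ Y₁ I om α + et) + pC ^ 2 * e₃ := by
  have hA1 : (1 : ℝ) < A := by exact_mod_cast hA
  obtain ⟨C₁, hC₁, h1⟩ := I1 hw hw0 hR hA1 hB
  obtain ⟨C₂, hC₂, h2⟩ := W_le_TJ R hR A hA
  have hm := Cst401.mel_nonneg hw0
  have hk := Cst401.kap0_pos
  have hP := Cst401.pC_pos
  set C₃ := pC ^ 2 * (kap0 * mel w (2 / 3)) * 100 * C₂ with hC₃
  refine ⟨C₁ + C₃, by positivity, fun K X Y D Y₀ Y₁ E0 I hK hX hY hD hY₁ hE0 hDY hI α hα om Q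
    et e₃ ht h3 => ?_⟩
  have hY0 : 0 ≤ Y := by linarith
  have hlog := Real.log_nonneg hY
  refine (h1 K X Y D Y₀ Y₁ E0 I hK hX hY hD hY₁ hE0 hDY hI α hα om Q et e₃ ht h3).trans ?_
  have hJ := okJ_JW D Y₀ Y₁
  have h4 := h2 Y X K hY0 hX hK α hα (JW D Y₀ Y₁) hJ (cD E0 om) (cD_nonneg E0 om)
  rw [← Df_eq hY0 hα.sup hJ om] at h4
  have hT0 : 0 ≤ TJ (cD E0 om) A K X Y (JW D Y₀ Y₁) α := by
    unfold TJ
    refine Finset.sum_nonneg fun x _ => Finset.sum_nonneg fun t _ => ?_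
    split_ifs
    · exact mul_nonneg (cD_nonneg _ _ _ _) (mul_nonneg (mul_nonneg (Nat.cast_nonneg _)
        (lm_nonneg hK.le hX.le _ _)) (Wf_nonneg _ _ _ _ _))
    · exact le_rfl
  have hE0' : 0 ≤ E1e A B K X Y D Y₀ Y₁ α := by
    unfold E1e
    have a1 : 0 ≤ ∑ κ ∈ JE D Y₀ Y₁ 1, min 1 (lm K X 1 κ) * Wb A α κ :=
      Finset.sum_nonneg fun κ _ => mul_nonneg (le_min zero_le_one (lm_nonneg hK.le hX.le _ _))
        (Wb_nonneg _ _ _)
    have a2 := Lo_nonneg (A := A) hK.le hX.le Y₀ α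
    have a3 : 0 ≤ EU A K X Y Y₀ Y₁ α := by
      unfold EU
      refine Finset.sum_nonneg fun p _ => mul_nonneg (by positivity)
        (mul_nonneg (by positivity) (add_nonneg ?_ ?_))
      · unfold UJ
        exact Finset.sum_nonneg fun κ _ => mul_nonneg (le_min zero_le_one
          (lm_nonneg hK.le (div_nonneg hX.le (Nat.cast_nonneg _)) _ _)) (Wb_nonneg _ _ _)
      · unfold UL
        exact Finset.sum_nonneg fun κ _ => mul_nonneg
          (lm_nonneg hK.le (div_nonneg hX.le (Nat.cast_nonneg _)) _ _) (Wb_nonneg _ _ _)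
    have a4 : 0 ≤ (1 + Ct Y) * Et A B K X Y Y₁ α :=
      mul_nonneg (by linarith [Ct_nonneg Y]) (Et_nonneg hK.le hX.le hY₁.le _)
    linarith
  have h5 : pC ^ 2 * c3 w K * (HS Y * Df Y E0 (JW D Y₀ Y₁) om α) ≤
      C₃ * (1 + Real.log Y) * (K / X) * TJ (cD E0 om) A K X Y (JW D Y₀ Y₁) α := by
    have e1 : pC ^ 2 * c3 w K * (HS Y * Df Y E0 (JW D Y₀ Y₁) om α) =
        pC ^ 2 * (kap0 * mel w (2 / 3)) * (HS Y *
          (K ^ (2 / 3 : ℝ) * Df Y E0 (JW D Y₀ Y₁) om α)) := by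
      unfold c3; ring
    rw [e1]
    have hH := HS_le hY
    have hH0 := HS_nonneg Y
    have h6 : 0 ≤ C₂ * (K / X) * TJ (cD E0 om) A K X Y (JW D Y₀ Y₁) α := by positivity
    calc pC ^ 2 * (kap0 * mel w (2 / 3)) * (HS Y * (K ^ (2 / 3 : ℝ) *
          Df Y E0 (JW D Y₀ Y₁) om α)) ≤
          pC ^ 2 * (kap0 * mel w (2 / 3)) * ((100 * (1 + Real.log Y)) *
            (C₂ * (K / X) * TJ (cD E0 om) A K X Y (JW D Y₀ Y₁) α)) := by
          refine mul_le_mul_of_nonneg_left ?_ (by positivity)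
          refine (mul_le_mul_of_nonneg_left h4 hH0).trans (mul_le_mul_of_nonneg_right hH h6)
      _ = _ := by rw [hC₃]; ring
  have h7 : 0 ≤ C₁ * (1 + Real.log Y) * (K / X) * TJ (cD E0 om) A K X Y (JW D Y₀ Y₁) α := by
    positivity
  have h8 : 0 ≤ C₃ * (1 + Real.log Y) * (K / X) * E1e A B K X Y D Y₀ Y₁ α := by positivity
  have e2 : (C₁ + C₃) * (1 + Real.log Y) * (K / X) * (E1e A B K X Y D Y₀ Y₁ α +
      TJ (cD E0 om) A K X Y (JW D Y₀ Y₁) α) =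
      C₁ * (1 + Real.log Y) * (K / X) * E1e A B K X Y D Y₀ Y₁ α +
      C₃ * (1 + Real.log Y) * (K / X) * TJ (cD E0 om) A K X Y (JW D Y₀ Y₁) α +
      C₁ * (1 + Real.log Y) * (K / X) * TJ (cD E0 om) A K X Y (JW D Y₀ Y₁) α +
      C₃ * (1 + Real.log Y) * (K / X) * E1e A B K X Y D Y₀ Y₁ α := by ring
  rw [e2]
  linarith

/-! ### the functional from its dyadic blocks -/

lemma CF_mul {a b : Eis} (ha : CF a) (hb : CF b) (h : IsCoprime a b) : CF (a * b) := by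
  refine ⟨mul_ne_zero ha.1 hb.1, fun p hp hd => ?_⟩
  have hd1 : p ∣ a * b := (dvd_pow_self p (by norm_num)).trans hd
  rcases hp.dvd_or_dvd hd1 with h1 | h1
  · have h2 : IsCoprime (p ^ 3) b := (h.of_isCoprime_of_dvd_left h1).pow_left
    exact ha.2 p hp (h2.dvd_of_dvd_mul_right hd)
  · have h2 : IsCoprime (p ^ 3) a := (h.symm.of_isCoprime_of_dvd_left h1).pow_left
    exact hb.2 p hp (h2.dvd_of_dvd_mul_left hd)

lemma CF_sqf {t : Eis} (ht0 : t ≠ 0) (ht : Squarefree t) : CF t := by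
  refine ⟨ht0, fun p hp hd => ?_⟩
  have h1 : p * p ∣ t := (Dvd.intro p (by ring)).trans hd
  exact hp.not_isUnit (ht p h1)

lemma mem_TH {Y Z : ℝ} {Q : Eis → Prop} {x : Eis × Eis} : x ∈ TH Y Z Q ↔
    (x.1 ∈ S Y ∧ Q x.1) ∧ (CF x.2 ∧ (nm x.2 : ℝ) ≤ Z) ∧ CF (x.2 * x.1) := by
  unfold TH
  simp only [Finset.mem_filter, Finset.mem_product, mem_BF]
  tauto

/-- `δ` fixed -/
theorem gen_h {A J : ℝ} (hA : J + 1 < A) (hJ : 0 ≤ J) {Y Z' M : ℝ} (hY : 1 ≤ Y) (hM : 0 ≤ M)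
    {α : Eis → ℂ} (hα : ∀ n, α n ≠ 0 → n ∈ S Y) {h : Eis} (hh : IsPrim h) {Q : Eis → Prop}
    {ω : Eis → Eis → ℝ} (hω0 : ∀ U κ, 0 ≤ ω U κ) {Ω : ℝ → ℝ → ℝ}
    (hΩ : ∀ B V, 0 < B → 0 < V → 0 ≤ Ω B V)
    (hω : ∀ U κ B V, U ∈ S Y → κ ≠ 0 → (nm U : ℝ) ≤ B → B < 2 * nm U → (nm κ : ℝ) ≤ V →
      V < 2 * nm κ → ω U κ ≤ Ω B V)
    (hyp : ∀ B V, 1 ≤ B → B ≤ Y → 1 ≤ V → V ≤ Z' → ∀ t,
      Ω B V * JB Y α Q h B V t ≤ M * (1 + |t|) ^ J) :
    ∑ x ∈ TH Y Z' Q, ω x.1 x.2 * Wb A (sg α (h * x.1)) (x.2 * x.1) ≤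
      (∫ t, jb (A - J) t) * (1 + 2 * Real.log Y) * (1 + 2 * Real.log (max 1 Z')) * M := by
  have hY0 : 0 ≤ Y := by linarith
  have hI : 0 ≤ ∫ t, jb (A - J) t := integral_nonneg fun t => (jb_pos _ t).le
  have hlY := Real.log_nonneg hY
  have hlZ := Real.log_nonneg (le_max_left 1 Z')
  by_cases hZ1 : 1 ≤ Z'
  swap
  · have hz : TH Y Z' Q = ∅ := by
      rw [Finset.eq_empty_iff_forall_notMem]
      intro x hx
      obtain ⟨h1, -⟩ := Finset.mem_filter.mp hx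
      have h2 := mem_BF.mp (Finset.mem_product.mp h1).2
      exact hZ1 ((nm_ge_one h2.1.1).trans h2.2)
    rw [hz, Finset.sum_empty]
    positivity
  rw [max_eq_right hZ1]
  have hUp : ∀ x ∈ TH Y Z' Q, x.1 ∈ S Y ∧ CF x.2 ∧ (nm x.2 : ℝ) ≤ Z' := by
    intro x hx
    obtain ⟨h1, -⟩ := Finset.mem_filter.mp hx
    have h2 := Finset.mem_product.mp h1
    exact ⟨(Finset.mem_filter.mp h2.1).1, mem_BF.mp h2.2⟩
  have h1 := dyad2 (T := TH Y Z' Q) (n₁ := fun x => (nm x.1 : ℝ)) (n₂ := fun x => (nm x.2 : ℝ))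
    (ω := fun x => ω x.1 x.2)
    (f := fun x => Wb A (sg α (h * x.1)) (x.2 * x.1)) (Z₁ := Y) (Z₂ := Z')
    (D := M * ∫ t, jb (A - J) t) hY hZ1 (by positivity) (fun x _ => Wb_nonneg _ _ _)
    (fun x _ => hω0 _ _)
    (fun x hx => by
      have := (mem_S hY0).1 (hUp x hx).1
      exact ⟨nm_ge_one this.2.1.ne_zero, this.1⟩)
    (fun x hx => ⟨nm_ge_one (hUp x hx).2.1.1, (hUp x hx).2.2⟩)
    (Ω := Ω) hΩ
    (fun x hx B V h1 h2 h3 h4 => hω x.1 x.2 B V (hUp x hx).1 (hUp x hx).2.1.1 h1 h2 h3 h4)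
    (fun B V hB1 hB2 hV1 hV2 => by
      have hB0 : 0 < B := by linarith
      have hV0 : 0 < V := by linarith
      rw [TH_filter hV2]
      rcases (hΩ B V hB0 hV0).eq_or_lt with h0 | h0
      · rw [← h0, zero_mul]; positivity
      have h5 := sum_Wb_TH hA hJ hY0 hα hh (V := V) (Q₀ := M / Ω B V)
        (Q := fun U => B / 2 < (nm U : ℝ) ∧ (nm U : ℝ) ≤ B ∧ Q U)
        (fun t => by
          have h2 := hyp B V hB1 hB2 hV1 hV2 t
          unfold JB at h2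
          rw [div_mul_eq_mul_div, le_div_iff₀ h0, mul_comm]
          refine le_trans (le_of_eq ?_) h2
          congr!)
      calc Ω B V * _ ≤ Ω B V * (M / Ω B V * ∫ t, jb (A - J) t) :=
            mul_le_mul_of_nonneg_left h5 h0.le
        _ = _ := by field_simp)
  refine h1.trans (le_of_eq ?_)
  ring

/-- `TJ` through the joint index sets -/
lemma TJ_le_TH {c : Eis × Eis → Eis → ℝ} (hc : ∀ x t, 0 ≤ c x t) {A K X Y D Y₀ Z : ℝ}
    (hK : 0 < K) (hX : 0 < X) (hY : 0 ≤ Y) {α : Eis → ℂ} (hα : ∀ n, α n ≠ 0 → n ∈ S Y) :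
    TJ c A K X Y (JW D Y₀ Z) α ≤ ∑ δ ∈ S Y, ∑ x ∈ TH Y (Z / (nm δ : ℝ) ^ 2) (fun _ => True),
      (c (δ, x.2) x.1 * (nm δ * lm K X δ x.2)) * Wb A (sg α (δ * x.1)) (x.2 * x.1) := by
  set J := JW D Y₀ Z with hJ
  set f : Eis → Eis → Eis → ℝ := fun δ j t =>
    (c (δ, j) t * (nm δ * lm K X δ j)) * Wb A (sg α (δ * t)) (j * t) with hf
  have hf0 : ∀ δ j t, 0 ≤ f δ j t := fun δ j t => mul_nonneg (mul_nonneg (hc _ _)
    (mul_nonneg (Nat.cast_nonneg _) (lm_nonneg hK.le hX.le _ _))) (Wb_nonneg _ _ _)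
  have eW : ∀ δ j t : Eis, Wf A α δ j t = Wb A (sg α (δ * t)) (j * t) := by
    intro δ j t
    unfold Wf Wb Vt sg
    refine integral_congr_ae (Filter.Eventually.of_forall fun s => ?_)
    simp only [mul_assoc]
  have hpt : ∀ x ∈ J, (∑ t ∈ S Y, if IsCoprime x.2 t then
      c x t * ((nm x.1 * lm K X x.1 x.2) * Wf A α x.1 x.2 t) else 0) ≤
      if x.1 ∈ S Y then ∑ t ∈ (S Y).filter (fun t => IsCoprime x.2 t), f x.1 x.2 t else 0 := by
    intro x hx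
    have hx' := hx
    rw [hJ] at hx'
    unfold JW at hx'
    rw [Finset.mem_filter, Finset.mem_product, mem_primBall] at hx'
    obtain ⟨⟨⟨-, hδ⟩, -⟩, -, hjc, -, -⟩ := hx'
    by_cases hS : x.1 ∈ S Y
    · rw [if_pos hS, Finset.sum_filter]
      refine le_of_eq (Finset.sum_congr rfl fun t _ => ?_)
      split_ifs
      · simp only [hf]
        rw [eW]
        ring
      · rfl
    · rw [if_neg hS]
      refine le_of_eq (Finset.sum_eq_zero fun t _ => ?_)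
      split_ifs
      · have hz : Wf A α x.1 x.2 t = 0 := Wf_zero (fun m => by
          by_contra h0
          exact hS (Dual2813.S_of_dvd hY (hα _ h0) hδ (dvd_mul_right _ _))) x.2
        rw [hz]; ring
      · rfl
  unfold TJ
  refine (Finset.sum_le_sum hpt).trans ?_
  rw [← Finset.sum_filter]
  have hmaps : ∀ x ∈ J.filter (fun x => x.1 ∈ S Y), x.1 ∈ S Y := fun x hx =>
    (Finset.mem_filter.mp hx).2
  rw [← Finset.sum_fiberwise_of_maps_to hmaps]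
  refine Finset.sum_le_sum fun δ hδ => ?_
  set T := (J.filter (fun x => x.1 ∈ S Y)).filter (fun x => x.1 = δ) with hT
  have hinj : Set.InjOn (fun x : Eis × Eis => x.2) (T : Set (Eis × Eis)) := by
    intro x hx y hy hxy
    have hx' := (Finset.mem_filter.mp hx).2
    have hy' := (Finset.mem_filter.mp hy).2
    exact Prod.ext (hx'.trans hy'.symm) hxy
  have e1 : ∑ x ∈ T, ∑ t ∈ (S Y).filter (fun t => IsCoprime x.2 t), f x.1 x.2 t =
      ∑ j ∈ T.image (fun x => x.2), ∑ t ∈ (S Y).filter (fun t => IsCoprime j t), f δ j t := by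
    rw [Finset.sum_image hinj]
    refine Finset.sum_congr rfl fun x hx => ?_
    rw [(Finset.mem_filter.mp hx).2]
  rw [e1]
  have e2 := sum_TH Y (Z / (nm δ : ℝ) ^ 2) (fun _ => True) (fun U κ => f δ κ U)
  have e3 : ∑ x ∈ TH Y (Z / (nm δ : ℝ) ^ 2) (fun _ => True),
      (c (δ, x.2) x.1 * (nm δ * lm K X δ x.2)) * Wb A (sg α (δ * x.1)) (x.2 * x.1) =
      ∑ x ∈ TH Y (Z / (nm δ : ℝ) ^ 2) (fun _ => True), f δ x.2 x.1 := rfl
  rw [e3, Finset.sum_sigma']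
  have hsub : ((T.image (fun x => x.2)).sigma fun j => (S Y).filter (fun t => IsCoprime j t)).image
      (fun s => (s.2, s.1)) ⊆ TH Y (Z / (nm δ : ℝ) ^ 2) (fun _ => True) := by
    intro y hy
    obtain ⟨s, hs, rfl⟩ := Finset.mem_image.mp hy
    rw [Finset.mem_sigma] at hs
    obtain ⟨hs1, hs2⟩ := hs
    obtain ⟨x, hx, hxs⟩ := Finset.mem_image.mp hs1
    have hx1 := Finset.mem_filter.mp hx
    have hx2 := (Finset.mem_filter.mp hx1.1).1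
    rw [hJ] at hx2
    unfold JW at hx2
    rw [Finset.mem_filter] at hx2
    obtain ⟨-, -, h3, -, h4⟩ := hx2
    obtain ⟨ht1, ht2⟩ := Finset.mem_filter.mp hs2
    have ht3 := (mem_S hY).1 ht1
    have hδn := nmpos ((mem_S hY).1 hδ).2.1.ne_zero
    have hCF : CF s.1 := hxs ▸ E5b54.JC_cf h3
    refine mem_TH.mpr ⟨⟨ht1, trivial⟩, ⟨hCF, ?_⟩, CF_mul hCF (CF_sqf ht3.2.1.ne_zero ht3.2.2) ht2⟩
    show (nm s.1 : ℝ) ≤ Z / (nm δ : ℝ) ^ 2
    rw [le_div_iff₀ (by positivity), ← hxs]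
    rw [hx1.2, nm_mul, nm_pow] at h4
    exact_mod_cast h4
  refine le_trans ?_ (Finset.sum_le_sum_of_subset_of_nonneg hsub fun y _ _ => hf0 _ _ _)
  rw [Finset.sum_image]
  intro a _ b _ hab
  obtain ⟨a1, a2⟩ := a
  obtain ⟨b1, b2⟩ := b
  simp only [Prod.mk.injEq] at hab
  obtain ⟨h1, h2⟩ := hab
  subst h1; subst h2; rfl

/-- **`TJ` as one number.** -/
theorem TJ_le {A J ε : ℝ} (hA : J + 1 < A) (hJ : 0 ≤ J) (hε : 0 < ε) : ∃ C : ℝ, 0 ≤ C ∧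
    ∀ (P K X Y D Y₀ Z M : ℝ) (α : Eis → ℂ), 1 ≤ P → 0 < K → 0 < X → 1 ≤ Y → Y ≤ P → Z ≤ P →
      0 ≤ M → (∀ n, α n ≠ 0 → n ∈ S Y) →
      ∀ (c : Eis × Eis → Eis → ℝ), (∀ x t, 0 ≤ c x t) →
      ∀ (cb : Eis → ℝ → ℝ → ℝ), (∀ δ B V, 0 ≤ cb δ B V) →
      (∀ δ ∈ S Y, ∀ t ∈ S Y, ∀ j : Eis, j ≠ 0 → ∀ B V : ℝ, (nm t : ℝ) ≤ B → B < 2 * nm t →
        (nm j : ℝ) ≤ V → V < 2 * nm j → c (δ, j) t ≤ cb δ B V) →
      (∀ δ ∈ S Y, ∀ B V, 1 ≤ B → B ≤ Y → 1 ≤ V → V ≤ Z / (nm δ : ℝ) ^ 2 → ∀ t,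
        cb δ B V * (nm δ * (yv K X δ V)⁻¹) * JB Y α (fun _ => True) δ B V t ≤
          M / nm δ * (1 + |t|) ^ J) →
      TJ c A K X Y (JW D Y₀ Z) α ≤ C * P ^ ε * M := by
  obtain ⟨C₄, hC₄, hlg⟩ := PInv255.one_add_log_pow_le 3 ε hε
  set I := ∫ t, jb (A - J) t with hIdef
  have hI : 0 ≤ I := integral_nonneg fun t => (jb_pos _ t).le
  refine ⟨1600 * I * C₄, by positivity, fun P K X Y D Y₀ Z M α hP hK hX hY hYP hZP hM hα c hc cb
    hcb hccb hyp => ?_⟩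
  have hY0 : 0 ≤ Y := by linarith
  have hlP := Real.log_nonneg hP
  have hlY := Real.log_nonneg hY
  have hlYP : Real.log Y ≤ Real.log P := Real.log_le_log (by linarith) hYP
  refine (TJ_le_TH hc hK hX hY0 hα).trans ?_
  have hδb : ∀ δ ∈ S Y, ∑ x ∈ TH Y (Z / (nm δ : ℝ) ^ 2) (fun _ => True),
      (c (δ, x.2) x.1 * (nm δ * lm K X δ x.2)) * Wb A (sg α (δ * x.1)) (x.2 * x.1) ≤
      (1 / (nm δ : ℝ)) * (4 * I * (1 + 2 * Real.log P) * (1 + 2 * Real.log P) * M) := by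
    intro δ hδ
    have hδp := ((mem_S hY0).1 hδ).2.1
    have hδn := nmpos hδp.ne_zero
    have hδ1 : (1 : ℝ) ≤ nm δ := nm_ge_one hδp.ne_zero
    have h1 := gen_h (A := A) (J := J) hA hJ (Y := Y) (Z' := Z / (nm δ : ℝ) ^ 2)
      (M := 4 * (M / nm δ)) hY (by positivity) hα hδp (Q := fun _ => True)
      (ω := fun U κ => if U ∈ S Y ∧ κ ≠ 0 then c (δ, κ) U * (nm δ * lm K X δ κ) else 0)
      (fun U κ => by
        split_ifs
        · exact mul_nonneg (hc _ _) (mul_nonneg hδn.le (lm_nonneg hK.le hX.le _ _))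
        · exact le_rfl)
      (Ω := fun B V => cb δ B V * (nm δ * (4 * (yv K X δ V)⁻¹)))
      (fun B V hB hV => mul_nonneg (hcb _ _ _) (by
        have := yv_pos hK hX hV hδp.ne_zero
        positivity))
      (fun U κ B V hU hκ h2 h3 h4 h5 => by
        rw [if_pos ⟨hU, hκ⟩]
        have h6 := lm_block hK hX hδp.ne_zero hκ h4 h5
        have h7 := hccb δ hδ U hU κ hκ B V h2 h3 h4 h5
        have h8 := lm_nonneg hK.le hX.le δ κ
        calc c (δ, κ) U * (nm δ * lm K X δ κ) ≤ cb δ B V * (nm δ * lm K X δ κ) :=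
              mul_le_mul_of_nonneg_right h7 (by positivity)
          _ ≤ _ := mul_le_mul_of_nonneg_left (mul_le_mul_of_nonneg_left h6 hδn.le)
              (hcb _ _ _))
      (fun B V hB1 hB2 hV1 hV2 t => by
        have h2 := hyp δ hδ B V hB1 hB2 hV1 hV2 t
        have e : cb δ B V * (nm δ * (4 * (yv K X δ V)⁻¹)) * JB Y α (fun _ => True) δ B V t =
            4 * (cb δ B V * (nm δ * (yv K X δ V)⁻¹) * JB Y α (fun _ => True) δ B V t) := by ring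
        rw [e]
        have e2 : 4 * (M / nm δ) * (1 + |t|) ^ J = 4 * (M / nm δ * (1 + |t|) ^ J) := by ring
        rw [e2]
        linarith)
    have e1 : ∑ x ∈ TH Y (Z / (nm δ : ℝ) ^ 2) (fun _ => True),
        (c (δ, x.2) x.1 * (nm δ * lm K X δ x.2)) * Wb A (sg α (δ * x.1)) (x.2 * x.1) =
        ∑ x ∈ TH Y (Z / (nm δ : ℝ) ^ 2) (fun _ => True),
        (if x.1 ∈ S Y ∧ x.2 ≠ 0 then c (δ, x.2) x.1 * (nm δ * lm K X δ x.2) else 0) *
          Wb A (sg α (δ * x.1)) (x.2 * x.1) := by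
      refine Finset.sum_congr rfl fun x hx => ?_
      have h2 := mem_TH.mp hx
      rw [if_pos ⟨h2.1.1, h2.2.1.1.1⟩]
    rw [e1]
    refine h1.trans ?_
    have h4 : Real.log (max 1 (Z / (nm δ : ℝ) ^ 2)) ≤ Real.log P := by
      refine Real.log_le_log (lt_of_lt_of_le one_pos (le_max_left _ _)) (max_le hP ?_)
      rw [div_le_iff₀ (by positivity)]
      nlinarith [one_le_pow₀ hδ1 (n := 2)]
    have h5 := Real.log_nonneg (le_max_left 1 (Z / (nm δ : ℝ) ^ 2))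
    calc I * (1 + 2 * Real.log Y) * (1 + 2 * Real.log (max 1 (Z / (nm δ : ℝ) ^ 2))) *
          (4 * (M / nm δ)) ≤
          I * (1 + 2 * Real.log P) * (1 + 2 * Real.log P) * (4 * (M / nm δ)) := by
          gcongr
      _ = _ := by ring
  refine (Finset.sum_le_sum hδb).trans ?_
  rw [← Finset.sum_mul]
  have hs : ∑ δ ∈ S Y, 1 / (nm δ : ℝ) ≤ 100 * (1 + Real.log P) :=
    (sum_inv_S551 hY).trans (by linarith)
  have hl4 := hlg P hP
  have h6 : 0 ≤ 4 * I * (1 + 2 * Real.log P) * (1 + 2 * Real.log P) * M := by positivity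
  refine (mul_le_mul_of_nonneg_right hs h6).trans ?_
  have h7 : (1 + 2 * Real.log P) ≤ 2 * (1 + Real.log P) := by linarith
  calc 100 * (1 + Real.log P) * (4 * I * (1 + 2 * Real.log P) * (1 + 2 * Real.log P) * M) ≤
        100 * (1 + Real.log P) * (4 * I * (2 * (1 + Real.log P)) * (2 * (1 + Real.log P)) * M) := by
        gcongr
    _ = 1600 * I * M * (1 + Real.log P) ^ 3 := by ring
    _ ≤ 1600 * I * M * (C₄ * P ^ ε) := mul_le_mul_of_nonneg_left hl4 (by positivity)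
    _ = _ := by ring

end Crest.Agent.R017.I1146
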