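import Crest.Agent.R017.X6B3_848
import Crest.Agent.R012.Mob_705
import Crest.Agent.R012.LatW_413
import Crest.Agent.R012.Schw2_922

/-!
# Row 17, the direct side with a compensated weight (helper502): the smooth count

`cnt` : `∑ c primary, (c,m)=1, G(log (N c / Y)) = (2π/(9√3)) Y PE(m) ∫ G(y) e^y dy + O(S Σ_{g | m} min(Y_g, Y_g^{-A}))`,
`Y_g = Y / N g`, uniformly in `Y > 0`, `m ≠ 0`, and in `G` (`TF`, finitely many derivatives `≤ S`).
`two` : two scales, compensated.  `cnt3`, `two3` : the same for the cubes `c^3`.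
-/

set_option autoImplicit false

noncomputable section

open MeasureTheory Complex Set Filter Topology
open scoped SchwartzMap FourierTransform ContDiff

namespace Crest.Agent.R017.PrW502

open Crest.Agent.R012 Crest.Agent.R012.Eis Crest.Agent.R012.Po581
open Crest.Agent.R012.Mob705 (mu pdiv mem_pdiv sum_mu_coprime PE PE_eq_sum)
open Crest.Agent.R012.Div277 (tau)
open Crest.Agent.R017.Xi590
open Crest.Agent.R017.X6B848
open Crest.Agent.R017.X6545 (TF Bd)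

/-! ### the Schwartz function `z ↦ G(log |z|²)` -/

lemma tf_neg {F : ℝ → ℂ} (h : TF F) : TF (fun y => F (-y)) where
  smooth := h.smooth.comp contDiff_neg
  supp := fun y hy => h.supp _ (by rwa [abs_neg])

lemma bd_neg {F : ℝ → ℂ} {k : ℕ} {S : ℝ} (h : Bd F k S) : Bd (fun y => F (-y)) k S := by
  intro i hi y
  rw [iteratedDeriv_comp_neg, norm_smul]
  simp only [norm_pow, norm_neg, norm_one, one_pow, one_mul]
  exact h i hi _

lemma m4 : (-4 : ℝ) ≠ 0 := by norm_num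

/-- `z ↦ F(log |z|²)` off `0` -/
def g0 (F : ℝ → ℂ) : ℂ → ℂ := Xi590.gI (fyw (-4) (fun y => F (-y)))

lemma g0_apply (F : ℝ → ℂ) {z : ℂ} (hz : z ≠ 0) : g0 F z = F (Real.log (‖z‖ ^ 2)) := by
  unfold g0
  rw [gI_fyw]
  have hp : 0 < ‖z‖ := norm_pos_iff.mpr hz
  have h1 : G0 (-4) z = 1 := by
    unfold G0
    rw [neg_neg, show (4 : ℝ) = ((4 : ℕ) : ℝ) by norm_num, Real.rpow_natCast]
    exact inv_mul_cancel₀ (by positivity)
  rw [h1, one_smul, Function.comp_apply, neg_neg]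

lemma cs_g0 {F : ℝ → ℂ} (h : TF F) : CS (g0 F) := (CS_fyw m4 (tf_neg h)).gI

/-- decay of the Fourier transform, uniform in `F` -/
lemma fC_dec (A : ℕ) : ∃ (N : ℕ) (C : ℝ), 0 ≤ C ∧ ∀ (F : ℝ → ℂ) (S : ℝ), TF F → Bd F N S → ∀ ξ,
    ‖fC (g0 F) ξ‖ * (1 + ‖ξ‖) ^ A ≤ C * S := by
  obtain ⟨N, C, hC, h⟩ := BD.dec gr_Pg (BD.map gr_Pg (BD_fyw m4) fCL) A
  refine ⟨N, C, hC, fun F S hF hB ξ => ?_⟩
  have := h ⟨fun y => F (-y), tf_neg hF⟩ S (bd_neg hB) ξ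
  rw [fCL_apply, fCS_apply, CS.S_coe] at this
  exact this

lemma fC_zero (F : ℝ → ℂ) :
    fC (g0 F) 0 = (Real.pi : ℂ) * ∫ y : ℝ, F y * ((Real.exp y : ℝ) : ℂ) := by
  unfold fC
  have e1 : ∫ z : ℂ, g0 F z * eC (-(0 * z)) =
      ∫ z : ℂ, (fun t : ℝ => F (Real.log t)) (‖z‖ ^ 2) := by
    refine integral_congr_ae ?_
    have h0 : ∀ᵐ z : ℂ, z ≠ 0 := by
      rw [ae_iff]
      simp
    filter_upwards [h0] with z hz
    rw [zero_mul, neg_zero, eC_zero', mul_one, g0_apply F hz]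
  have e2 := Schw922.integral_radial (fun t : ℝ => F (Real.log t))
  rw [e1]
  refine e2.trans ?_
  congr 1
  have h2 := integral_image_eq_integral_abs_deriv_smul (s := univ) MeasurableSet.univ
    (fun x _ => (Real.hasDerivAt_exp x).hasDerivWithinAt) (Real.exp_injective.injOn)
    (fun t : ℝ => F (Real.log t))
  rw [image_univ, Real.range_exp] at h2
  rw [h2]
  simp only [Measure.restrict_univ, abs_of_pos (Real.exp_pos _), Real.log_exp]
  refine integral_congr_ae (Eventually.of_forall fun y => ?_)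
  simp only [Complex.real_smul]
  ring

/-! ### Poisson summation -/

/-- the sum over all primary numbers (as `1 + 3 y`) -/
def P0 (F : ℝ → ℂ) (Y : ℝ) : ℂ := ∑' y : Eis, F (Real.log (nm (1 + 3 * y) / Y))

lemma one_add_ne (y : Eis) : (1 + 3 * y : Eis) ≠ 0 := by
  have h : IsPrim (1 + 3 * y) := ⟨y, by ring⟩
  exact h.ne_zero

lemma toC_three : toC (3 : Eis) = 3 := map_ofNat toC 3

lemma P0_eq {F : ℝ → ℂ} (h : TF F) {Y : ℝ} (hY : 0 < Y) :
    P0 F Y = ((2 * Y / (9 * Real.sqrt 3) : ℝ) : ℂ) *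
      ∑' k : Eis, fC (g0 F) (dl k / (3 / ((Real.sqrt Y : ℝ) : ℂ))) *
        eC (dl k / (3 / ((Real.sqrt Y : ℝ) : ℂ)) * (1 / ((Real.sqrt Y : ℝ) : ℂ))) := by
  have hsY : 0 < Real.sqrt Y := Real.sqrt_pos.mpr hY
  have hsC : ((Real.sqrt Y : ℝ) : ℂ) ≠ 0 := by exact_mod_cast hsY.ne'
  have hq : (3 / ((Real.sqrt Y : ℝ) : ℂ)) ≠ 0 := div_ne_zero (by norm_num) hsC
  have hp := poisson_schwartz (cs_g0 h).S hq (1 / ((Real.sqrt Y : ℝ) : ℂ))
  rw [CS.S_coe] at hp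
  have e1 : ∀ y : Eis, g0 F (3 / ((Real.sqrt Y : ℝ) : ℂ) * toC y + 1 / ((Real.sqrt Y : ℝ) : ℂ)) =
      F (Real.log (nm (1 + 3 * y) / Y)) := by
    intro y
    have e2 : 3 / ((Real.sqrt Y : ℝ) : ℂ) * toC y + 1 / ((Real.sqrt Y : ℝ) : ℂ) =
        toC (1 + 3 * y) / ((Real.sqrt Y : ℝ) : ℂ) := by
      rw [map_add, map_one, map_mul, toC_three]
      field_simp
      ring
    have e3 : toC (1 + 3 * y) / ((Real.sqrt Y : ℝ) : ℂ) ≠ 0 :=
      div_ne_zero (Po581.toC_ne_zero (one_add_ne y)) hsC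
    rw [e2, g0_apply F e3, norm_div, div_pow, norm_toC_sq, Complex.norm_real,
      Real.norm_of_nonneg hsY.le, Real.sq_sqrt hY.le]
  unfold P0
  simp_rw [e1] at hp
  rw [hp]
  congr 2
  rw [norm_div, Complex.norm_real, Real.norm_of_nonneg hsY.le, div_pow, Real.sq_sqrt hY.le]
  have : ‖(3 : ℂ)‖ = 3 := by norm_num
  rw [this]
  have h3 : Real.sqrt 3 ≠ 0 := by positivity
  field_simp
  ring

lemma norm_dl' (k : Eis) : ‖dl k‖ ^ 2 = nm k / 3 := by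
  unfold dl
  rw [norm_div, norm_iS3, div_pow, norm_toC_sq, Real.sq_sqrt (by norm_num)]

/-- the error of the Poisson formula -/
lemma P0_far (B : ℕ) (hB : 2 ≤ B) : ∃ (N : ℕ) (C : ℝ), 0 ≤ C ∧ ∀ (F : ℝ → ℂ) (S : ℝ), TF F →
    Bd F N S → ∀ Y : ℝ, 0 < Y →
      ‖P0 F Y - ((2 * Y / (9 * Real.sqrt 3) : ℝ) : ℂ) * fC (g0 F) 0‖ ≤ C * S * (Y * (Y⁻¹) ^ B) := by
  obtain ⟨N, C, hC, hdec⟩ := fC_dec (2 * B)
  have hsum : Summable fun k : Eis => (nm k : ℝ) ^ (-(B : ℝ)) :=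
    LatSum413.summable_nm_rpow (by exact_mod_cast (by omega : 1 < B))
  have hT0 : 0 ≤ ∑' k : Eis, (nm k : ℝ) ^ (-(B : ℝ)) := tsum_nonneg fun k => by positivity
  refine ⟨N, C * 27 ^ B * ∑' k : Eis, (nm k : ℝ) ^ (-(B : ℝ)), by positivity,
    fun F S hF hS Y hY => ?_⟩
  have hS0 : 0 ≤ S := (norm_nonneg _).trans (hS 0 (Nat.zero_le _) 0)
  have hsY : 0 < Real.sqrt Y := Real.sqrt_pos.mpr hY
  have hsC : ((Real.sqrt Y : ℝ) : ℂ) ≠ 0 := by exact_mod_cast hsY.ne'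
  have hq : (3 / ((Real.sqrt Y : ℝ) : ℂ)) ≠ 0 := div_ne_zero (by norm_num) hsC
  set q : ℂ := 3 / ((Real.sqrt Y : ℝ) : ℂ) with hqd
  set t : ℂ := 1 / ((Real.sqrt Y : ℝ) : ℂ) with htd
  have hnq : ‖q‖ ^ 2 = 9 / Y := by
    rw [hqd, norm_div, Complex.norm_real, Real.norm_of_nonneg hsY.le, div_pow, Real.sq_sqrt hY.le]
    have : ‖(3 : ℂ)‖ = 3 := by norm_num
    rw [this]; norm_num
  set φ : Eis → ℂ := fun k => fC (g0 F) (dl k / q) * eC (dl k / q * t) with hφ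
  have hb : ∀ k : Eis, k ≠ 0 → ‖φ k‖ ≤ C * S * 27 ^ B * (Y⁻¹) ^ B * (nm k : ℝ) ^ (-(B : ℝ)) := by
    intro k hk
    have hnk : (0 : ℝ) < nm k := by exact_mod_cast nm_pos.2 hk
    have h1 := hdec F S hF hS (dl k / q)
    have h2 : ‖dl k / q‖ ^ 2 = nm k * Y / 27 := by
      rw [norm_div, div_pow, norm_dl', hnq]
      field_simp
      norm_num
    have h3 : (nm k * Y / 27) ^ B ≤ (1 + ‖dl k / q‖) ^ (2 * B) := by
      rw [pow_mul, ← h2]
      gcongr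
      linarith
    have h4 : 0 < (nm k * Y / 27) ^ B := by positivity
    have h5 : ‖φ k‖ = ‖fC (g0 F) (dl k / q)‖ := by
      rw [hφ]
      simp only
      rw [norm_mul, eC_norm, mul_one]
    rw [h5]
    have h6 : ‖fC (g0 F) (dl k / q)‖ * (nm k * Y / 27) ^ B ≤ C * S :=
      (mul_le_mul_of_nonneg_left h3 (norm_nonneg _)).trans h1
    rw [← le_div_iff₀ h4] at h6
    refine h6.trans (le_of_eq ?_)
    rw [Real.rpow_neg hnk.le, Real.rpow_natCast, inv_pow, div_pow, mul_pow]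
    field_simp
  have hsφ : Summable φ := by
    refine Summable.of_norm_bounded_eventually
      (hsum.mul_left (C * S * 27 ^ B * (Y⁻¹) ^ B)) ?_
    have : {k : Eis | ¬ (‖φ k‖ ≤ C * S * 27 ^ B * (Y⁻¹) ^ B * (nm k : ℝ) ^ (-(B : ℝ)))} ⊆ {0} := by
      intro k hk
      by_contra h
      exact hk (hb k h)
    exact (Set.finite_singleton (0 : Eis)).subset this
  have e1 : P0 F Y - ((2 * Y / (9 * Real.sqrt 3) : ℝ) : ℂ) * fC (g0 F) 0 =
      ((2 * Y / (9 * Real.sqrt 3) : ℝ) : ℂ) * ∑' k : Eis, (if k = 0 then 0 else φ k) := by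
    rw [P0_eq hF hY]
    have h7 := hsφ.tsum_eq_add_tsum_ite 0
    have h8 : φ 0 = fC (g0 F) 0 := by
      rw [hφ]
      simp only
      rw [show dl 0 = 0 by unfold dl; rw [map_zero, zero_div], zero_div, zero_mul, eC_zero', mul_one]
    rw [show (∑' k : Eis, fC (g0 F) (dl k / q) * eC (dl k / q * t)) = ∑' k, φ k from rfl, h7, h8]
    ring
  rw [e1, norm_mul, Complex.norm_real, Real.norm_of_nonneg (by positivity)]
  have h9 : ‖∑' k : Eis, (if k = 0 then 0 else φ k)‖ ≤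
      C * S * 27 ^ B * (Y⁻¹) ^ B * ∑' k : Eis, (nm k : ℝ) ^ (-(B : ℝ)) := by
    rw [← tsum_mul_left]
    refine tsum_of_norm_bounded ((hsum.mul_left _).hasSum) fun k => ?_
    by_cases hk : k = 0
    · rw [if_pos hk, norm_zero]; positivity
    · rw [if_neg hk]; exact hb k hk
  have h10 : 2 * Y / (9 * Real.sqrt 3) ≤ Y := by
    rw [div_le_iff₀ (by positivity)]
    have : 1 ≤ Real.sqrt 3 := by
      rw [show (1 : ℝ) = Real.sqrt 1 by simp]
      exact Real.sqrt_le_sqrt (by norm_num)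
    nlinarith
  calc 2 * Y / (9 * Real.sqrt 3) * ‖∑' k : Eis, (if k = 0 then 0 else φ k)‖
      ≤ Y * (C * S * 27 ^ B * (Y⁻¹) ^ B * ∑' k : Eis, (nm k : ℝ) ^ (-(B : ℝ))) := by gcongr
    _ = _ := by ring

/-- small scales: the sum is empty -/
lemma P0_small {F : ℝ → ℂ} (h : TF F) {Y : ℝ} (hY : 0 < Y) (hY2 : Y < Real.exp (-2)) :
    P0 F Y = 0 := by
  unfold P0
  have : ∀ y : Eis, F (Real.log (nm (1 + 3 * y) / Y)) = 0 := by
    intro y
    apply h.supp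
    have h1 : (1 : ℝ) ≤ nm (1 + 3 * y) := by exact_mod_cast nm_pos.2 (one_add_ne y)
    have h2 : 2 < Real.log (nm (1 + 3 * y) / Y) := by
      rw [Real.lt_log_iff_exp_lt (by positivity), lt_div_iff₀ hY]
      calc Real.exp 2 * Y < Real.exp 2 * Real.exp (-2) := by gcongr
        _ = 1 := by rw [← Real.exp_add]; norm_num
        _ ≤ _ := h1
    exact h2.trans_le (le_abs_self _)
  simp [this]

/-- **all scales** -/
theorem P0_bd (A : ℕ) : ∃ (N : ℕ) (C : ℝ), 0 ≤ C ∧ ∀ (F : ℝ → ℂ) (S : ℝ), TF F → Bd F N S →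
    ∀ Y : ℝ, 0 < Y → ‖P0 F Y - ((2 * Y / (9 * Real.sqrt 3) : ℝ) : ℂ) * fC (g0 F) 0‖ ≤
      C * S * min Y ((Y⁻¹) ^ A) := by
  obtain ⟨N1, C1, hC1, h1⟩ := P0_far (A + 2) (by omega)
  obtain ⟨N0, C0, hC0, h0⟩ := fC_dec 0
  refine ⟨max N1 N0, (C1 + C0) * Real.exp 2 ^ (A + 2), by positivity, fun F S hF hS Y hY => ?_⟩
  have hS0 : 0 ≤ S := (norm_nonneg _).trans (hS 0 (Nat.zero_le _) 0)
  have a0 := h0 F S hF (fun i hi => hS i (hi.trans (le_max_right _ _))) 0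
  rw [pow_zero, mul_one] at a0
  have a1 := h1 F S hF (fun i hi => hS i (hi.trans (le_max_left _ _))) Y hY
  have hE : 1 ≤ Real.exp 2 := Real.one_le_exp (by norm_num)
  have h10 : 2 * Y / (9 * Real.sqrt 3) ≤ Y := by
    rw [div_le_iff₀ (by positivity)]
    have : 1 ≤ Real.sqrt 3 := by
      rw [show (1 : ℝ) = Real.sqrt 1 by simp]
      exact Real.sqrt_le_sqrt (by norm_num)
    nlinarith
  rcases lt_or_ge Y (Real.exp (-2)) with hs | hs
  · rw [P0_small hF hY hs, zero_sub, norm_neg, norm_mul, Complex.norm_real,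
      Real.norm_of_nonneg (by positivity)]
    have hY1 : Y ≤ 1 := hs.le.trans (Real.exp_le_one_iff.mpr (by norm_num))
    have h2 : (1 : ℝ) ≤ (Y⁻¹) ^ A := one_le_pow₀ ((one_le_inv₀ hY).mpr hY1)
    have h3 : Y ≤ min Y ((Y⁻¹) ^ A) := le_min le_rfl (hY1.trans h2)
    calc 2 * Y / (9 * Real.sqrt 3) * ‖fC (g0 F) 0‖ ≤ Y * (C0 * S) := by gcongr
      _ ≤ min Y ((Y⁻¹) ^ A) * ((C1 + C0) * Real.exp 2 ^ (A + 2) * S) := by
          have : C0 * S ≤ (C1 + C0) * Real.exp 2 ^ (A + 2) * S := by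
            have h5 : 1 ≤ Real.exp 2 ^ (A + 2) := one_le_pow₀ hE
            have h6 : C0 ≤ (C1 + C0) * Real.exp 2 ^ (A + 2) := by nlinarith
            gcongr
          gcongr
      _ = _ := by ring
  · have hi : Y⁻¹ ≤ Real.exp 2 := by
      rw [inv_le_comm₀ hY (Real.exp_pos _), ← Real.exp_neg]
      exact hs
    have hi0 : 0 < Y⁻¹ := inv_pos.mpr hY
    have h2 : Y * (Y⁻¹) ^ (A + 2) ≤ Real.exp 2 ^ (A + 2) * Y := by
      have : (Y⁻¹) ^ (A + 2) ≤ Real.exp 2 ^ (A + 2) := by gcongr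
      nlinarith
    have h3 : Y * (Y⁻¹) ^ (A + 2) ≤ Real.exp 2 ^ (A + 2) * (Y⁻¹) ^ A := by
      have e : Y * (Y⁻¹) ^ (A + 2) = Y⁻¹ * (Y⁻¹) ^ A := by
        rw [pow_add, pow_two]
        field_simp
      rw [e]
      have : Y⁻¹ ≤ Real.exp 2 ^ (A + 2) :=
        hi.trans (le_self_pow₀ hE (by omega))
      gcongr
    have h4 : Y * (Y⁻¹) ^ (A + 2) ≤ Real.exp 2 ^ (A + 2) * min Y ((Y⁻¹) ^ A) := by
      rcases min_choice Y ((Y⁻¹) ^ A) with h | h <;> rw [h]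
      · exact h2
      · exact h3
    calc _ ≤ C1 * S * (Y * (Y⁻¹) ^ (A + 2)) := a1
      _ ≤ (C1 + C0) * S * (Real.exp 2 ^ (A + 2) * min Y ((Y⁻¹) ^ A)) := by
          have : C1 * S ≤ (C1 + C0) * S := by gcongr; linarith
          have h5 : 0 ≤ Y * (Y⁻¹) ^ (A + 2) := by positivity
          gcongr
      _ = _ := by ring

/-! ### Moebius -/

lemma supp_fin {F : ℝ → ℂ} (h : TF F) {Y : ℝ} (hY : 0 < Y) :
    {c : Eis | c ≠ 0 ∧ F (Real.log (nm c / Y)) ≠ 0}.Finite := by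
  refine (MC.finite_nm_le (Real.exp 2 * Y)).subset fun c hc => ?_
  have hn : (0 : ℝ) < nm c := by exact_mod_cast nm_pos.2 hc.1
  have h1 : |Real.log (nm c / Y)| ≤ 2 := by
    by_contra hlt
    exact hc.2 (h.supp _ (not_le.mp hlt))
  have h2 : nm c / Y ≤ Real.exp 2 := by
    rw [← Real.log_le_iff_le_exp (by positivity)]
    exact (le_abs_self _).trans h1
  rwa [div_le_iff₀ hY] at h2

open Classical in
/-- multiples of `g` -/
lemma tsum_dvd {F : ℝ → ℂ} {g : Eis} (hg : IsPrim g) {Y : ℝ} :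
    ∑' c : Eis, (if IsPrim c ∧ g ∣ c then F (Real.log (nm c / Y)) else 0) = P0 F (Y / nm g) := by
  have hg0 := hg.ne_zero
  have hinj : Function.Injective fun y : Eis => g * (1 + 3 * y) := by
    intro a b hab
    have h1 := mul_left_cancel₀ hg0 hab
    have h2 : (3 : Eis) * a = 3 * b := add_left_cancel h1
    exact mul_left_cancel₀ (by intro h; have := congrArg nm h; revert this; decide) h2
  have hsupp : Function.support (fun c : Eis =>
      (if IsPrim c ∧ g ∣ c then F (Real.log (nm c / Y)) else 0)) ⊆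
      Set.range fun y : Eis => g * (1 + 3 * y) := by
    intro c hc
    rw [Function.mem_support] at hc
    by_contra h
    apply hc
    rw [if_neg]
    rintro ⟨h1, e, rfl⟩
    apply h
    have he : IsPrim e := by
      have h2 : e - 1 = (g * e - 1) - (g - 1) * e := by ring
      have h3 : (3 : Eis) ∣ g * e - 1 := h1
      have h4 : (3 : Eis) ∣ g - 1 := hg
      show (3 : Eis) ∣ e - 1
      rw [h2]
      exact dvd_sub h3 (h4.mul_right e)
    obtain ⟨y, hy⟩ := he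
    exact ⟨y, by simp only; rw [← hy]; ring⟩
  rw [← hinj.tsum_eq hsupp]
  unfold P0
  refine tsum_congr fun y => ?_
  have h1 : IsPrim (1 + 3 * y) := ⟨y, by ring⟩
  have hn : (nm g : ℝ) ≠ 0 := by exact_mod_cast (nm_pos.2 hg0).ne'
  rw [if_pos ⟨hg.mul h1, dvd_mul_right _ _⟩, nm_mul]
  congr 2
  push_cast
  field_simp

open Classical in
lemma mobius_cnt {F : ℝ → ℂ} (h : TF F) {m : Eis} (hm : m ≠ 0) {Y : ℝ} (hY : 0 < Y) :
    ∑' c : Eis, (if IsPrim c ∧ IsCoprime c m then F (Real.log (nm c / Y)) else 0) =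
      ∑ g ∈ pdiv m, ((mu g : ℤ) : ℂ) * P0 F (Y / nm g) := by
  have e1 : ∀ c : Eis, (if IsPrim c ∧ IsCoprime c m then F (Real.log (nm c / Y)) else 0) =
      ∑ g ∈ pdiv m, ((mu g : ℤ) : ℂ) * (if IsPrim c ∧ g ∣ c then F (Real.log (nm c / Y)) else 0) := by
    intro c
    by_cases hc : IsPrim c
    · have h1 := sum_mu_coprime hc hm
      have h2 : ((∑ d ∈ pdiv m, (if d ∣ c then mu d else 0) : ℤ) : ℂ) =
          ((if IsCoprime c m then 1 else 0 : ℤ) : ℂ) := by rw [h1]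
      calc (if IsPrim c ∧ IsCoprime c m then F (Real.log (nm c / Y)) else 0)
          = ((if IsCoprime c m then 1 else 0 : ℤ) : ℂ) * F (Real.log (nm c / Y)) := by
            by_cases hco : IsCoprime c m <;> simp [hc, hco]
        _ = ((∑ d ∈ pdiv m, (if d ∣ c then mu d else 0) : ℤ) : ℂ) * F (Real.log (nm c / Y)) := by
            rw [h2]
        _ = _ := by
            rw [Int.cast_sum, Finset.sum_mul]
            refine Finset.sum_congr rfl fun g _ => ?_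
            by_cases hd : g ∣ c <;> simp [hc, hd]
    · simp [hc]
  simp_rw [e1]
  rw [Summable.tsum_finsetSum]
  · refine Finset.sum_congr rfl fun g hg => ?_
    rw [tsum_mul_left, tsum_dvd (Div277.isPrim_of_mem_dvs hg)]
  · intro g _
    refine Summable.mul_left _ ?_
    refine summable_of_hasFiniteSupport ((supp_fin h hY).subset fun c hc => ?_)
    rw [Function.mem_support] at hc
    by_cases hh : IsPrim c ∧ g ∣ c
    · rw [if_pos hh] at hc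
      exact ⟨hh.1.ne_zero, hc⟩
    · rw [if_neg hh] at hc
      exact absurd rfl hc

/-- the error at the level `g` -/
def er (A : ℕ) (m : Eis) (Y : ℝ) : ℝ :=
  ∑ g ∈ pdiv m, |(mu g : ℝ)| * min (Y / nm g) ((Y / nm g)⁻¹ ^ A)

/-- the coprime count -/
def Cn (F : ℝ → ℂ) (m : Eis) (Y : ℝ) : ℂ := by
  classical
  exact ∑' c : Eis, if IsPrim c ∧ IsCoprime c m then F (Real.log (nm c / Y)) else 0

/-- **the smooth count of the primary numbers prime to `m`** -/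
theorem cnt (A : ℕ) : ∃ (N : ℕ) (C : ℝ), 0 ≤ C ∧ ∀ (F : ℝ → ℂ) (S : ℝ), TF F → Bd F N S →
    ∀ (m : Eis) (Y : ℝ), m ≠ 0 → 0 < Y →
      ‖Cn F m Y - ((2 * Real.pi / (9 * Real.sqrt 3) * Y * PE m : ℝ) : ℂ) *
        ∫ y : ℝ, F y * ((Real.exp y : ℝ) : ℂ)‖ ≤ C * S * er A m Y := by
  obtain ⟨N, C, hC, hb⟩ := P0_bd A
  refine ⟨N, C, hC, fun F S hF hS m Y hm hY => ?_⟩
  have e1 : ((2 * Real.pi / (9 * Real.sqrt 3) * Y * PE m : ℝ) : ℂ) *
        ∫ y : ℝ, F y * ((Real.exp y : ℝ) : ℂ) =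
      ∑ g ∈ pdiv m, ((mu g : ℤ) : ℂ) *
        (((2 * (Y / nm g) / (9 * Real.sqrt 3) : ℝ) : ℂ) * fC (g0 F) 0) := by
    rw [fC_zero, PE_eq_sum hm]
    push_cast
    rw [Finset.mul_sum, Finset.sum_mul]
    refine Finset.sum_congr rfl fun g _ => ?_
    ring
  unfold Cn
  rw [e1, mobius_cnt hF hm hY, ← Finset.sum_sub_distrib]
  refine (norm_sum_le _ _).trans ?_
  unfold er
  rw [Finset.mul_sum]
  refine Finset.sum_le_sum fun g hg => ?_
  have hgp := Div277.isPrim_of_mem_dvs hg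
  have hn : (0 : ℝ) < nm g := by exact_mod_cast nm_pos.2 hgp.ne_zero
  rw [← mul_sub, norm_mul]
  have h1 := hb F S hF hS (Y / nm g) (by positivity)
  have h2 : ‖((mu g : ℤ) : ℂ)‖ = |(mu g : ℝ)| := by
    rw [Complex.norm_intCast]
  rw [h2]
  calc |(mu g : ℝ)| * ‖P0 F (Y / nm g) - ((2 * (Y / nm g) / (9 * Real.sqrt 3) : ℝ) : ℂ) *
        fC (g0 F) 0‖ ≤ |(mu g : ℝ)| * (C * S * min (Y / nm g) ((Y / nm g)⁻¹ ^ A)) := by gcongr
    _ = _ := by ring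

lemma er_nonneg (A : ℕ) (m : Eis) {Y : ℝ} (hY : 0 ≤ Y) : 0 ≤ er A m Y := by
  unfold er
  refine Finset.sum_nonneg fun g _ => ?_
  have : (0 : ℝ) ≤ Y / nm g := by positivity
  have h2 : 0 ≤ min (Y / nm g) ((Y / nm g)⁻¹ ^ A) := le_min this (by positivity)
  positivity

lemma er_le_tau (A : ℕ) (m : Eis) {Y : ℝ} (hY : 0 < Y) : er A m Y ≤ tau m := by
  unfold er tau
  rw [Finset.card_eq_sum_ones]
  push_cast
  refine Finset.sum_le_sum fun g hg => ?_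
  have hgp := Div277.isPrim_of_mem_dvs hg
  have hn : (0 : ℝ) < nm g := by exact_mod_cast nm_pos.2 hgp.ne_zero
  have h1 : |(mu g : ℝ)| ≤ 1 := by
    have := Mob705.abs_mu_le_one g
    exact_mod_cast this
  have h2 : min (Y / nm g) ((Y / nm g)⁻¹ ^ A) ≤ 1 := by
    rcases le_total (Y / nm g) 1 with h | h
    · exact (min_le_left _ _).trans h
    · exact (min_le_right _ _).trans (pow_le_one₀ (by positivity) (inv_le_one_of_one_le₀ h))
  have h3 : 0 ≤ min (Y / nm g) ((Y / nm g)⁻¹ ^ A) :=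
    le_min (by positivity) (by positivity)
  calc |(mu g : ℝ)| * min (Y / nm g) ((Y / nm g)⁻¹ ^ A) ≤ 1 * 1 :=
        mul_le_mul h1 h2 h3 (by norm_num)
    _ = 1 := one_mul 1

/-- if all squarefree divisors of `m` are small, the error is negligible -/
lemma er_le_small (A : ℕ) (m : Eis) {Y Z : ℝ} (hY : 0 < Y) (hZ : 0 < Z)
    (h : ∀ g ∈ pdiv m, Squarefree g → Z ≤ Y / nm g) : er A m Y ≤ tau m * (Z⁻¹) ^ A := by
  unfold er tau
  rw [Finset.card_eq_sum_ones]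
  push_cast
  rw [Finset.sum_mul]
  refine Finset.sum_le_sum fun g hg => ?_
  have hgp := Div277.isPrim_of_mem_dvs hg
  have hn : (0 : ℝ) < nm g := by exact_mod_cast nm_pos.2 hgp.ne_zero
  by_cases hsq : Squarefree g
  · have h1 : |(mu g : ℝ)| ≤ 1 := by
      have := Mob705.abs_mu_le_one g
      exact_mod_cast this
    have h2 := h g hg hsq
    have h3 : (Y / nm g)⁻¹ ^ A ≤ (Z⁻¹) ^ A := by gcongr
    have h4 : 0 ≤ min (Y / nm g) ((Y / nm g)⁻¹ ^ A) := le_min (by positivity) (by positivity)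
    exact mul_le_mul h1 ((min_le_right _ _).trans h3) h4 (by norm_num)
  · rw [Mob705.mu_of_not_squarefree hsq]
    simp only [Int.cast_zero, abs_zero, zero_mul]
    positivity

/-- **two scales, compensated** -/
theorem two (A : ℕ) : ∃ (N : ℕ) (C : ℝ), 0 ≤ C ∧ ∀ (F : ℝ → ℂ) (S : ℝ), TF F → Bd F N S →
    ∀ (m : Eis) (Y Y' : ℝ), m ≠ 0 → 0 < Y → 0 < Y' →
      ‖Cn F m Y - ((Y / Y' : ℝ) : ℂ) * Cn F m Y'‖ ≤ C * S * (er A m Y + Y / Y' * er A m Y') := by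
  obtain ⟨N, C, hC, hb⟩ := cnt A
  refine ⟨N, C, hC, fun F S hF hS m Y Y' hm hY hY' => ?_⟩
  have h1 := hb F S hF hS m Y hm hY
  have h2 := hb F S hF hS m Y' hm hY'
  set I := ∫ y : ℝ, F y * ((Real.exp y : ℝ) : ℂ)
  have e1 : Cn F m Y - ((Y / Y' : ℝ) : ℂ) * Cn F m Y' =
      (Cn F m Y - ((2 * Real.pi / (9 * Real.sqrt 3) * Y * PE m : ℝ) : ℂ) * I) -
        ((Y / Y' : ℝ) : ℂ) *
          (Cn F m Y' - ((2 * Real.pi / (9 * Real.sqrt 3) * Y' * PE m : ℝ) : ℂ) * I) := by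
    have : ((2 * Real.pi / (9 * Real.sqrt 3) * Y * PE m : ℝ) : ℂ) =
        ((Y / Y' : ℝ) : ℂ) * ((2 * Real.pi / (9 * Real.sqrt 3) * Y' * PE m : ℝ) : ℂ) := by
      rw [← Complex.ofReal_mul]
      congr 1
      field_simp
    rw [this]
    ring
  rw [e1]
  refine (norm_sub_le _ _).trans ?_
  rw [norm_mul, Complex.norm_real, Real.norm_of_nonneg (by positivity)]
  calc _ ≤ C * S * er A m Y + Y / Y' * (C * S * er A m Y') := by gcongr
    _ = _ := by ring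

/-! ### cubes -/

/-- `∑ c primary, (c,m) = 1, F(log (N c³ / X))` -/
def Cn3 (F : ℝ → ℂ) (m : Eis) (X : ℝ) : ℂ := by
  classical
  exact ∑' c : Eis, if IsPrim c ∧ IsCoprime c m then F (Real.log ((nm c : ℝ) ^ 3 / X)) else 0

lemma tf_3 {F : ℝ → ℂ} (h : TF F) : TF (fun y => F (3 * y)) where
  smooth := h.smooth.comp (contDiff_const.mul contDiff_id)
  supp := fun y hy => h.supp _ (by rw [abs_mul, abs_of_pos (by norm_num : (0 : ℝ) < 3)]; linarith)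

lemma bd_3 {F : ℝ → ℂ} (hF : TF F) {k : ℕ} {S : ℝ} (h : Bd F k S) :
    Bd (fun y => F (3 * y)) k (3 ^ k * S) := by
  intro i hi y
  have h1 : iteratedDeriv i (fun y => F (3 * y)) y = (3 : ℝ) ^ i • iteratedDeriv i F (3 * y) := by
    have := iteratedDeriv_comp_const_smul (n := i) (f := F)
      (hF.smooth.of_le (by exact_mod_cast le_top)) (3 : ℝ)
    exact congrFun this y
  rw [h1, norm_smul, norm_pow, Real.norm_of_nonneg (by norm_num : (0 : ℝ) ≤ 3)]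
  have h2 := h i hi (3 * y)
  have h3 : (3 : ℝ) ^ i ≤ 3 ^ k := pow_le_pow_right₀ (by norm_num) hi
  have h4 := norm_nonneg (iteratedDeriv i F (3 * y))
  calc (3 : ℝ) ^ i * ‖iteratedDeriv i F (3 * y)‖ ≤ 3 ^ k * S := by gcongr

lemma Cn3_eq {F : ℝ → ℂ} {m : Eis} {X : ℝ} (hX : 0 < X) :
    Cn3 F m X = Cn (fun y => F (3 * y)) m (X ^ ((1 : ℝ) / 3)) := by
  unfold Cn3 Cn
  refine tsum_congr fun c => ?_
  by_cases h : IsPrim c ∧ IsCoprime c m
  · rw [if_pos h, if_pos h]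
    have hn : (0 : ℝ) < nm c := by exact_mod_cast nm_pos.2 h.1.ne_zero
    congr 1
    have hX3 : 0 < X ^ ((1 : ℝ) / 3) := by positivity
    rw [Real.log_div (by positivity) hX.ne', Real.log_div hn.ne' hX3.ne', Real.log_rpow hX,
      Real.log_pow]
    push_cast
    ring
  · rw [if_neg h, if_neg h]

lemma int_3 (F : ℝ → ℂ) : ∫ y : ℝ, F (3 * y) * ((Real.exp y : ℝ) : ℂ) =
    (1 / 3 : ℂ) * ∫ x : ℝ, F x * ((Real.exp (x / 3) : ℝ) : ℂ) := by
  have h := Measure.integral_comp_mul_left (fun x : ℝ => F x * ((Real.exp (x / 3) : ℝ) : ℂ)) (3 : ℝ)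
  have e : ∀ y : ℝ, F (3 * y) * ((Real.exp (3 * y / 3) : ℝ) : ℂ) = F (3 * y) * ((Real.exp y : ℝ) : ℂ) := by
    intro y
    rw [mul_div_cancel_left₀ _ (by norm_num : (3 : ℝ) ≠ 0)]
  simp only [e] at h
  rw [h, Complex.real_smul]
  congr 1
  rw [abs_of_pos (by norm_num)]
  push_cast
  ring

/-- **the smooth count of the cubes** `c³`, `c` primary and prime to `m` -/
theorem cnt3 (A : ℕ) : ∃ (N : ℕ) (C : ℝ), 0 ≤ C ∧ ∀ (F : ℝ → ℂ) (S : ℝ), TF F → Bd F N S →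
    ∀ (m : Eis) (X : ℝ), m ≠ 0 → 0 < X →
      ‖Cn3 F m X - ((2 * Real.pi / (27 * Real.sqrt 3) * X ^ ((1 : ℝ) / 3) * PE m : ℝ) : ℂ) *
        ∫ x : ℝ, F x * ((Real.exp (x / 3) : ℝ) : ℂ)‖ ≤ C * S * er A m (X ^ ((1 : ℝ) / 3)) := by
  obtain ⟨N, C, hC, h⟩ := cnt A
  refine ⟨N, C * 3 ^ N, by positivity, fun F S hF hS m X hm hX => ?_⟩
  have h1 := h _ _ (tf_3 hF) (bd_3 hF hS) m (X ^ ((1 : ℝ) / 3)) hm (by positivity)
  rw [Cn3_eq hX]
  rw [int_3] at h1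
  have e : ((2 * Real.pi / (27 * Real.sqrt 3) * X ^ ((1 : ℝ) / 3) * PE m : ℝ) : ℂ) *
        ∫ x : ℝ, F x * ((Real.exp (x / 3) : ℝ) : ℂ) =
      ((2 * Real.pi / (9 * Real.sqrt 3) * X ^ ((1 : ℝ) / 3) * PE m : ℝ) : ℂ) *
        ((1 / 3 : ℂ) * ∫ x : ℝ, F x * ((Real.exp (x / 3) : ℝ) : ℂ)) := by
    push_cast
    ring
  rw [e]
  refine h1.trans (le_of_eq ?_)
  ring

/-- two scales for the cubes -/
theorem two3' (A : ℕ) : ∃ (N : ℕ) (C : ℝ), 0 ≤ C ∧ ∀ (F : ℝ → ℂ) (S : ℝ), TF F → Bd F N S →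
    ∀ (m : Eis) (X X' : ℝ), m ≠ 0 → 0 < X → 0 < X' →
      ‖Cn3 F m X - (((X / X') ^ ((1 : ℝ) / 3) : ℝ) : ℂ) * Cn3 F m X'‖ ≤
        C * S * (er A m (X ^ ((1 : ℝ) / 3)) + (X / X') ^ ((1 : ℝ) / 3) *
          er A m (X' ^ ((1 : ℝ) / 3))) := by
  obtain ⟨N, C, hC, h⟩ := two A
  refine ⟨N, C * 3 ^ N, by positivity, fun F S hF hS m X X' hm hX hX' => ?_⟩
  have h1 := h _ _ (tf_3 hF) (bd_3 hF hS) m (X ^ ((1 : ℝ) / 3)) (X' ^ ((1 : ℝ) / 3)) hm
    (by positivity) (by positivity)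
  rw [Cn3_eq hX, Cn3_eq hX', Real.div_rpow hX.le hX'.le]
  refine h1.trans (le_of_eq ?_)
  ring

open Classical in
lemma supp3 {F : ℝ → ℂ} (h : TF F) (m : Eis) {X : ℝ} (hX : 0 < X) :
    Summable fun c : Eis => if IsPrim c ∧ IsCoprime c m then F (Real.log ((nm c : ℝ) ^ 3 / X)) else 0 := by
  refine summable_of_hasFiniteSupport ((MC.finite_nm_le (Real.exp 2 * X)).subset fun c hc => ?_)
  rw [Function.mem_support] at hc
  by_cases hh : IsPrim c ∧ IsCoprime c m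
  · rw [if_pos hh] at hc
    have hn1 : (1 : ℝ) ≤ nm c := by exact_mod_cast nm_pos.2 hh.1.ne_zero
    have h1 : |Real.log ((nm c : ℝ) ^ 3 / X)| ≤ 2 := by
      by_contra hlt
      exact hc (h.supp _ (not_le.mp hlt))
    have h2 : (nm c : ℝ) ^ 3 / X ≤ Real.exp 2 := by
      rw [← Real.log_le_iff_le_exp (by positivity)]
      exact (le_abs_self _).trans h1
    rw [div_le_iff₀ hX] at h2
    have h3 : (nm c : ℝ) ≤ (nm c : ℝ) ^ 3 := le_self_pow₀ hn1 (by norm_num)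
    exact h3.trans h2
  · rw [if_neg hh] at hc
    exact absurd rfl hc

/-- the compensated weight -/
def F1 (F : ℝ → ℂ) (h : ℝ) (x : ℝ) : ℂ := F x - ((Real.exp (h / 3) : ℝ) : ℂ) * F (x + h)

lemma Cn3_F1 {F : ℝ → ℂ} (hF : TF F) (m : Eis) {X : ℝ} (hX : 0 < X) (h : ℝ) :
    Cn3 (F1 F h) m X = Cn3 F m X - ((Real.exp (h / 3) : ℝ) : ℂ) * Cn3 F m (X * Real.exp (-h)) := by
  classical
  have hE := Real.exp_pos (-h)
  unfold Cn3
  rw [← tsum_mul_left, ← (supp3 hF m hX).tsum_sub ((supp3 hF m (by positivity)).mul_left _)]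
  refine tsum_congr fun c => ?_
  by_cases hc : IsPrim c ∧ IsCoprime c m
  · rw [if_pos hc, if_pos hc, if_pos hc]
    have hn : (0 : ℝ) < nm c := by exact_mod_cast nm_pos.2 hc.1.ne_zero
    unfold F1
    congr 3
    rw [← div_div, Real.log_div (by positivity) hE.ne', Real.log_exp]
    ring
  · rw [if_neg hc, if_neg hc, if_neg hc, mul_zero, sub_zero]

/-- **PrW: the compensated weight on the cubes** -/
theorem prW (A : ℕ) : ∃ (N : ℕ) (C : ℝ), 0 ≤ C ∧ ∀ (F : ℝ → ℂ) (S : ℝ), TF F → Bd F N S →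
    ∀ (m : Eis) (X h : ℝ), m ≠ 0 → 0 < X →
      ‖Cn3 (F1 F h) m X‖ ≤ C * S * (er A m (X ^ ((1 : ℝ) / 3)) + Real.exp (h / 3) *
          er A m ((X * Real.exp (-h)) ^ ((1 : ℝ) / 3))) := by
  obtain ⟨N, C, hC, hb⟩ := two3' A
  refine ⟨N, C, hC, fun F S hF hS m X h hm hX => ?_⟩
  have h1 := hb F S hF hS m X (X * Real.exp (-h)) hm hX (by positivity)
  have e : (X / (X * Real.exp (-h))) ^ ((1 : ℝ) / 3) = Real.exp (h / 3) := by
    rw [div_mul_cancel_left₀ hX.ne', ← Real.exp_neg, neg_neg, ← Real.exp_mul]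
    congr 1
    ring
  rw [e] at h1
  rw [Cn3_F1 hF m hX]
  exact h1

/-- in particular -/
theorem prW_tau : ∃ (N : ℕ) (C : ℝ), 0 ≤ C ∧ ∀ (F : ℝ → ℂ) (S : ℝ), TF F → Bd F N S →
    ∀ (m : Eis) (X h : ℝ), m ≠ 0 → 0 < X →
      ‖Cn3 (F1 F h) m X‖ ≤ C * S * (1 + Real.exp (h / 3)) * tau m := by
  obtain ⟨N, C, hC, hb⟩ := prW 0
  refine ⟨N, C, hC, fun F S hF hS m X h hm hX => ?_⟩
  have hS0 : 0 ≤ S := (norm_nonneg _).trans (hS 0 (Nat.zero_le _) 0)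
  have h1 := hb F S hF hS m X h hm hX
  have h2 := er_le_tau 0 m (Y := X ^ ((1 : ℝ) / 3)) (by positivity)
  have h3 := er_le_tau 0 m (Y := (X * Real.exp (-h)) ^ ((1 : ℝ) / 3)) (by positivity)
  calc _ ≤ _ := h1
    _ ≤ C * S * (tau m + Real.exp (h / 3) * tau m) := by gcongr
    _ = _ := by ring

/-! ### twists `N(c)^{iτ}` -/

/-- `F(x) e^{iτx}` -/
def twF (τ : ℝ) (F : ℝ → ℂ) (x : ℝ) : ℂ := cexp ((τ * x : ℝ) * I) * F x

lemma cd_osc (τ : ℝ) : ContDiff ℝ ((⊤ : ℕ∞) : WithTop ℕ∞) fun x : ℝ => cexp ((τ * x : ℝ) * I) := by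
  have h1 : ContDiff ℝ ((⊤ : ℕ∞) : WithTop ℕ∞) fun x : ℝ => (((τ * x : ℝ) : ℂ) * I) :=
    (Complex.ofRealCLM.contDiff.comp (contDiff_const.mul contDiff_id)).mul contDiff_const
  exact Complex.contDiff_exp.comp h1 |>.of_le le_rfl

lemma tf_tw {F : ℝ → ℂ} (h : TF F) (τ : ℝ) : TF (twF τ F) where
  smooth := (cd_osc τ).mul h.smooth
  supp := fun y hy => by unfold twF; rw [h.supp y hy, mul_zero]

lemma iter_osc (τ : ℝ) (n : ℕ) : iteratedDeriv n (fun x : ℝ => cexp ((τ * x : ℝ) * I)) =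
    fun x : ℝ => ((τ : ℂ) * I) ^ n * cexp ((τ * x : ℝ) * I) := by
  induction n with
  | zero => simp
  | succ n ih =>
    rw [iteratedDeriv_succ, ih]
    funext x
    have h1 : HasDerivAt (fun x : ℝ => (((τ * x : ℝ) : ℂ) * I)) ((τ : ℂ) * I) x := by
      have h2 : HasDerivAt (fun x : ℝ => τ * x) τ x := by
        simpa using (hasDerivAt_id x).const_mul τ
      exact (h2.ofReal_comp).mul_const I
    have h3 := (h1.cexp).const_mul (((τ : ℂ) * I) ^ n)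
    rw [h3.deriv]
    ring

lemma bd_tw {F : ℝ → ℂ} (hF : TF F) {k : ℕ} {S : ℝ} (h : Bd F k S) (τ : ℝ) :
    Bd (twF τ F) k ((2 * (1 + |τ|)) ^ k * S) := by
  intro n hn y
  have hS0 : 0 ≤ S := (norm_nonneg _).trans (h 0 (Nat.zero_le _) 0)
  have e : iteratedDeriv n (twF τ F) y = ∑ i ∈ Finset.range (n + 1), (n.choose i : ℂ) *
      iteratedDeriv i (fun x : ℝ => cexp ((τ * x : ℝ) * I)) y * iteratedDeriv (n - i) F y := by
    unfold twF
    exact iteratedDeriv_fun_mul ((cd_osc τ).contDiffAt.of_le (by exact_mod_cast le_top))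
      (hF.smooth.contDiffAt.of_le (by exact_mod_cast le_top))
  rw [e]
  have hb : ∀ i ∈ Finset.range (n + 1), ‖(n.choose i : ℂ) *
      iteratedDeriv i (fun x : ℝ => cexp ((τ * x : ℝ) * I)) y * iteratedDeriv (n - i) F y‖ ≤
      (n.choose i : ℝ) * ((1 + |τ|) ^ n * S) := by
    intro i hi
    have hi' : i ≤ n := Nat.lt_succ_iff.mp (Finset.mem_range.mp hi)
    rw [norm_mul, norm_mul, iter_osc, norm_mul, norm_pow, norm_mul, Complex.norm_I, mul_one,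
      Complex.norm_real, Complex.norm_exp_ofReal_mul_I, mul_one, Complex.norm_natCast,
      Real.norm_eq_abs, mul_assoc]
    have h1 : |τ| ^ i ≤ (1 + |τ|) ^ n :=
      (pow_le_pow_left₀ (abs_nonneg τ) (by linarith) i).trans
        (pow_le_pow_right₀ (by linarith [abs_nonneg τ]) hi')
    have h2 := h (n - i) ((Nat.sub_le _ _).trans hn) y
    gcongr
  refine (norm_sum_le _ _).trans ((Finset.sum_le_sum hb).trans ?_)
  rw [← Finset.sum_mul]
  have h3 : ∑ i ∈ Finset.range (n + 1), (n.choose i : ℝ) = 2 ^ n := by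
    exact_mod_cast Nat.sum_range_choose n
  rw [h3]
  have h4 : (2 : ℝ) ^ n ≤ 2 ^ k := pow_le_pow_right₀ (by norm_num) hn
  have h5 : (1 + |τ|) ^ n ≤ (1 + |τ|) ^ k := pow_le_pow_right₀ (by linarith [abs_nonneg τ]) hn
  calc (2 : ℝ) ^ n * ((1 + |τ|) ^ n * S) ≤ 2 ^ k * ((1 + |τ|) ^ k * S) := by gcongr
    _ = _ := by rw [mul_pow]; ring

/-- twisted, one scale: the Mellin transform is at `1/3 + iτ` -/
theorem cnt3t (A : ℕ) : ∃ (N : ℕ) (C : ℝ), 0 ≤ C ∧ ∀ (F : ℝ → ℂ) (S : ℝ), TF F → Bd F N S →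
    ∀ (m : Eis) (X τ : ℝ), m ≠ 0 → 0 < X →
      ‖Cn3 (twF τ F) m X - ((2 * Real.pi / (27 * Real.sqrt 3) * X ^ ((1 : ℝ) / 3) * PE m : ℝ) : ℂ) *
        ∫ x : ℝ, twF τ F x * ((Real.exp (x / 3) : ℝ) : ℂ)‖ ≤
          C * S * (1 + |τ|) ^ N * er A m (X ^ ((1 : ℝ) / 3)) := by
  obtain ⟨N, C, hC, h⟩ := cnt3 A
  refine ⟨N, C * 2 ^ N, by positivity, fun F S hF hS m X τ hm hX => ?_⟩
  refine (h _ _ (tf_tw hF τ) (bd_tw hF hS τ) m X hm hX).trans (le_of_eq ?_)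
  rw [mul_pow]
  ring

/-- twisted, two scales (`F1` of the twisted function) -/
theorem prWt (A : ℕ) : ∃ (N : ℕ) (C : ℝ), 0 ≤ C ∧ ∀ (F : ℝ → ℂ) (S : ℝ), TF F → Bd F N S →
    ∀ (m : Eis) (X h τ : ℝ), m ≠ 0 → 0 < X →
      ‖Cn3 (F1 (twF τ F) h) m X‖ ≤ C * S * (1 + |τ|) ^ N * (er A m (X ^ ((1 : ℝ) / 3)) +
          Real.exp (h / 3) * er A m ((X * Real.exp (-h)) ^ ((1 : ℝ) / 3))) := by
  obtain ⟨N, C, hC, hb⟩ := prW A
  refine ⟨N, C * 2 ^ N, by positivity, fun F S hF hS m X h τ hm hX => ?_⟩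
  refine (hb _ _ (tf_tw hF τ) (bd_tw hF hS τ) m X h hm hX).trans (le_of_eq ?_)
  rw [mul_pow]
  ring

end Crest.Agent.R017.PrW502
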