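import Crest.Agent.R017.E2u_440
import Crest.Agent.R017.PrW_502

/-!
# Row 17, exceptional class, LB_ex (590 #20257, #22930 (X4)): the two exact pieces (helper385)

* `CrQ F Q K α u` : the cross sum over the primary `k` with a predicate `Q`
* `CrQ_split` : `CrQ (GF F) Q K = CrQ (GF (Fh F h)) Q K + e^(h/3) CrQ (GF F) Q (K e^(-h))`
* `CrQ_not` : all `k` = `Q` + `¬ Q`
* `cub_bd` : the primary cubes with the compensated weight: no power of `K`
* `cross_np` : the assembly for `Q = NCube`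
-/

set_option autoImplicit false
set_option linter.unusedVariables false
set_option linter.unusedSectionVars false

noncomputable section

open Complex MeasureTheory
open scoped ComplexConjugate

namespace Crest.Agent.R017.Ex385

open Crest.Agent.R012 Crest.Agent.R012.Eis Crest.Agent.R012.GaussLoc283
open Crest.Agent.R012.Mob705 hiding pb mem_pb
open Crest.Agent.R012.Div277
open Crest.Agent.R012.LS2 (S mem_S)
open Crest.Agent.R017.PX764 (th Gh n6 cD)
open Crest.Agent.R017.X6C180 (Sg fA cM n13 GF)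
open Crest.Agent.R017.X6545 (TF Bd)
open Crest.Agent.R017.X6W180 (TF1 tf1_tf)
open Crest.Agent.R017.CM106 (CS FS sub)
open Crest.Agent.R017.E2440
open Crest.Agent.R017.PrW502 (Cn3 prW_tau)

/-- the cross sum over the primary `k` with `Q k` -/
def CrQ (F : ℝ → ℂ) (Q : Eis → Prop) (K : ℝ) (α u : Eis → ℂ) : ℂ := by
  classical
  exact ∑' k : Eis, if IsPrim k ∧ Q k then F ((nm k : ℝ) / K) * (CS α k * conj (u k)) else 0

lemma nm_pos' {k : Eis} (h : k ≠ 0) : (0 : ℝ) < nm k := by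
  have := one_le_nm h
  linarith

lemma fin_CrQ {F : ℝ → ℂ} (hF : ∃ B : ℝ, ∀ x, F x ≠ 0 → x ≤ B) {K : ℝ} (hK : 0 < K)
    (Q : Eis → Prop) {_ : DecidablePred Q} (g : Eis → ℂ) :
    (Function.support fun k : Eis => if Q k then F ((nm k : ℝ) / K) * g k else 0).Finite := by
  refine (fin_wt hF hK (one_ne_zero : (1 : Eis) ≠ 0) g).subset fun k hk => ?_
  rw [Function.mem_support] at hk ⊢
  intro h
  apply hk
  rw [one_mul] at h
  split_ifs
  · rw [mul_comm]; exact h
  · rfl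

lemma sum_CrQ {F : ℝ → ℂ} (hF : ∃ B : ℝ, ∀ x, F x ≠ 0 → x ≤ B) {K : ℝ} (hK : 0 < K)
    (Q : Eis → Prop) {_ : DecidablePred Q} (g : Eis → ℂ) :
    Summable fun k : Eis => if Q k then F ((nm k : ℝ) / K) * g k else 0 :=
  summable_of_hasFiniteSupport (fin_CrQ hF hK Q g)

lemma bdd_GF {F : ℝ → ℂ} (hF : TF F) : ∃ B : ℝ, ∀ x, GF F x ≠ 0 → x ≤ B := by
  refine ⟨Real.exp 2, fun x hx => ?_⟩
  unfold X6C180.GF at hx
  split_ifs at hx with h
  · have h1 : |Real.log x| ≤ 2 := by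
      by_contra hc
      exact hx (hF.supp _ (not_le.mp hc))
    rw [← Real.log_le_iff_le_exp h]
    exact (le_abs_self _).trans h1
  · exact absurd rfl hx

lemma bdd_Fh {F : ℝ → ℂ} (hF : TF F) {h : ℝ} (hh : 0 ≤ h) :
    ∃ B : ℝ, ∀ x, GF (Fh F h) x ≠ 0 → x ≤ B := by
  refine ⟨Real.exp 2, fun x hx => ?_⟩
  unfold X6C180.GF at hx
  split_ifs at hx with h0
  · by_contra hc
    apply hx
    have h1 : 2 < Real.log x := by rwa [Real.lt_log_iff_exp_lt h0, ← not_le]
    unfold Fh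
    rw [hF.supp _ (h1.trans_le (le_abs_self _)), hF.supp _ ((by linarith : 2 < Real.log x + h).trans_le
      (le_abs_self _))]
    ring
  · exact absurd rfl hx

/-- the weight, split -/
lemma GF_split (F : ℝ → ℂ) (h : ℝ) {K : ℝ} (hK : 0 < K) (n : ℝ) :
    GF F (n / K) = GF (Fh F h) (n / K) + ((Real.exp (h / 3) : ℝ) : ℂ) *
      GF F (n / (K * Real.exp (-h))) := by
  have e : n / (K * Real.exp (-h)) = n / K * Real.exp h := by
    rw [Real.exp_neg]; field_simp
  rw [e, GF_Fh]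
  unfold G2
  ring

/-- **the second scale** -/
theorem CrQ_split {F : ℝ → ℂ} (hF : TF F) {h : ℝ} (hh : 0 ≤ h) (Q : Eis → Prop) {K : ℝ} (hK : 0 < K)
    (α u : Eis → ℂ) :
    CrQ (GF F) Q K α u = CrQ (GF (Fh F h)) Q K α u +
      ((Real.exp (h / 3) : ℝ) : ℂ) * CrQ (GF F) Q (K * Real.exp (-h)) α u := by
  classical
  have hE := Real.exp_pos (-h)
  have hK' : 0 < K * Real.exp (-h) := by positivity
  unfold CrQ
  have s1 : Summable fun k : Eis => if IsPrim k ∧ Q k then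
      GF (Fh F h) ((nm k : ℝ) / K) * (CS α k * conj (u k)) else 0 :=
    sum_CrQ (bdd_Fh hF hh) hK (fun k => IsPrim k ∧ Q k) (fun k => CS α k * conj (u k))
  have s2 : Summable fun k : Eis => ((Real.exp (h / 3) : ℝ) : ℂ) * if IsPrim k ∧ Q k then
      GF F ((nm k : ℝ) / (K * Real.exp (-h))) * (CS α k * conj (u k)) else 0 :=
    (sum_CrQ (bdd_GF hF) hK' (fun k => IsPrim k ∧ Q k) (fun k => CS α k * conj (u k))).mul_left _
  rw [← tsum_mul_left]
  refine Eq.trans (tsum_congr fun k => ?_) (s1.tsum_add s2)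
  by_cases hk : IsPrim k ∧ Q k
  · rw [if_pos hk, if_pos hk, if_pos hk, GF_split F h hK]
    ring
  · rw [if_neg hk, if_neg hk, if_neg hk, mul_zero, add_zero]

/-- all `k` -/
theorem CrQ_not {F : ℝ → ℂ} (hF : ∃ B : ℝ, ∀ x, F x ≠ 0 → x ≤ B) (Q : Eis → Prop) {K : ℝ}
    (hK : 0 < K) (α u : Eis → ℂ) :
    CrQ F (fun _ => True) K α u = CrQ F Q K α u + CrQ F (fun k => ¬ Q k) K α u := by
  classical
  unfold CrQ
  have s1 : Summable fun k : Eis => if IsPrim k ∧ Q k then
      F ((nm k : ℝ) / K) * (CS α k * conj (u k)) else 0 :=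
    sum_CrQ hF hK (fun k => IsPrim k ∧ Q k) (fun k => CS α k * conj (u k))
  refine Eq.trans (tsum_congr fun k => ?_) (s1.tsum_add
    (sum_CrQ hF hK (fun k => IsPrim k ∧ (fun k => ¬ Q k) k) (fun k => CS α k * conj (u k))))
  by_cases hk : IsPrim k
  · by_cases hq : Q k <;> simp [hk, hq]
  · simp [hk]

lemma CrQ_congr {F : ℝ → ℂ} {Q Q' : Eis → Prop} (h : ∀ k, IsPrim k → (Q k ↔ Q' k)) (K : ℝ)
    (α u : Eis → ℂ) : CrQ F Q K α u = CrQ F Q' K α u := by
  classical
  unfold CrQ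
  refine tsum_congr fun k => ?_
  by_cases hk : IsPrim k
  · by_cases hq : Q k
    · rw [if_pos ⟨hk, hq⟩, if_pos ⟨hk, (h k hk).mp hq⟩]
    · rw [if_neg (fun h' => hq h'.2), if_neg (fun h' => hq ((h k hk).mpr h'.2))]
  · rw [if_neg (fun h' => hk h'.1), if_neg (fun h' => hk h'.1)]

/-! ### cubes -/

/-- a primary cube -/
def Cub (k : Eis) : Prop := ∃ c : Eis, IsPrim c ∧ k = c ^ 3

lemma cube_inj' {m n : Eis} (hm : IsPrim m) (hn : IsPrim n) (h : m ^ 3 = n ^ 3) : m = n := by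
  have h1 : (m - n) * (m ^ 2 + m * n + n ^ 2) = 0 := by
    have : (m - n) * (m ^ 2 + m * n + n ^ 2) = m ^ 3 - n ^ 3 := by ring
    rw [this, h, sub_self]
  rcases mul_eq_zero.mp h1 with h2 | h2
  · exact sub_eq_zero.mp h2
  · -- `m ^ 2 + m n + n ^ 2 = (m - w n) (m - w² n)`
    have hw : (w : Eis) ^ 2 + w + 1 = 0 := by
      rw [w_sq]; apply ext' <;> simp
    have h3 : (m - w * n) * (m - w ^ 2 * n) = 0 := by
      have h4 : (m - w * n) * (m - w ^ 2 * n) = m ^ 2 + m * n + n ^ 2 - (w ^ 2 + w + 1) * (m * n) +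
          (w - 1) * (w ^ 2 + w + 1) * n ^ 2 := by ring
      rw [h4, hw, h2]; ring
    have key : ∀ u : Eis, IsUnit u → m = u * n → m = n := by
      intro u hu hmu
      have hup : IsPrim u := (hmu ▸ hm).of_mul_right hn
      rw [hmu, Mob705.isPrim_eq_one_of_isUnit hup hu, one_mul]
    rcases mul_eq_zero.mp h3 with h5 | h5
    · exact key w isUnit_w (sub_eq_zero.mp h5)
    · exact key (w ^ 2) (isUnit_w.pow 2) (sub_eq_zero.mp h5)

lemma cub_iff {k : Eis} (hk : IsPrim k) : ¬ Cub k ↔ T411.NCube k := by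
  constructor
  · intro h
    refine ⟨hk.ne_zero, fun m hm => h ?_⟩
    have h1 : ¬ lam ∣ m := fun hd => hk.not_lam_dvd (by
      rw [hm]; exact dvd_pow hd (by norm_num))
    obtain ⟨u, hu⟩ := exists_unit_mul_isPrim h1
    refine ⟨u * m, hu, ?_⟩
    have h2 : IsPrim ((u : Eis) ^ 3 * k) := by
      have := hu.pow 3
      rw [mul_pow, ← hm] at this
      exact this
    have h3 : (u : Eis) ^ 3 = 1 :=
      Mob705.isPrim_eq_one_of_isUnit (h2.of_mul_right hk) (u.isUnit.pow 3)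
    rw [mul_pow, h3, one_mul, ← hm]
  · rintro ⟨-, h⟩ ⟨c, -, hc⟩
    exact h c hc

open Classical in
/-- the cubes as a sum over `c` -/
lemma CrQ_cub (F : ℝ → ℂ) (K : ℝ) (α u : Eis → ℂ) :
    CrQ F Cub K α u = ∑' c : Eis, if IsPrim c then
      F ((nm (c ^ 3) : ℝ) / K) * (CS α (c ^ 3) * conj (u (c ^ 3))) else 0 := by
  set g : Eis → ℂ := fun k => if IsPrim k ∧ Cub k then
    F ((nm k : ℝ) / K) * (CS α k * conj (u k)) else 0 with hg
  have hinj : Function.Injective fun c : {c : Eis // IsPrim c} => (c : Eis) ^ 3 := by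
    intro a b hab
    exact Subtype.ext (cube_inj' a.2 b.2 hab)
  have hsupp : Function.support g ⊆ Set.range fun c : {c : Eis // IsPrim c} => (c : Eis) ^ 3 := by
    intro k hk
    rw [Function.mem_support] at hk
    by_contra hc
    apply hk
    rw [hg]
    dsimp only
    rw [if_neg]
    rintro ⟨-, c, h1, h2⟩
    exact hc ⟨⟨c, h1⟩, h2.symm⟩
  have h1 : CrQ F Cub K α u = ∑' k, g k := rfl
  rw [h1, ← hinj.tsum_eq hsupp]
  have h2 : ∀ c : {c : Eis // IsPrim c}, g ((c : Eis) ^ 3) =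
      (fun c : Eis => F ((nm (c ^ 3) : ℝ) / K) * (CS α (c ^ 3) * conj (u (c ^ 3)))) c := by
    intro c
    simp only [hg]
    rw [if_pos ⟨c.2.pow 3, ⟨c, c.2, rfl⟩⟩]
  refine (tsum_congr h2).trans ?_
  refine (tsum_subtype {c : Eis | IsPrim c}
    (fun c : Eis => F ((nm (c ^ 3) : ℝ) / K) * (CS α (c ^ 3) * conj (u (c ^ 3))))).trans ?_
  refine tsum_congr fun c => ?_
  rw [Set.indicator_apply]
  rfl

open Classical in
/-- `CS` at a cube -/
lemma CS_cube {α : Eis → ℂ} (hα : FS α) (c : Eis) :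
    CS α (c ^ 3) = ∑ n ∈ hα.fin.toFinset, if IsCoprime c n then α n else 0 := by
  unfold CM106.CS
  rw [tsum_eq_sum (s := hα.fin.toFinset)]
  · refine Finset.sum_congr rfl fun n hn => ?_
    rw [Set.Finite.mem_toFinset, Function.mem_support] at hn
    have hp := hα.prim n hn
    split_ifs with h
    · rw [Char766.sy_cube_left hp h, mul_one]
    · rw [Char766.sy_eq_zero hp (fun h' => h ((IsCoprime.pow_left_iff (by norm_num)).mp h')),
        mul_zero]
  · intro n hn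
    rw [Set.Finite.mem_toFinset, Function.mem_support, not_not] at hn
    rw [hn, zero_mul]

open Classical in
/-- `StT` at a cube -/
lemma StT_cube {E0 : ℝ} (hE0 : 0 ≤ E0) {J : Finset (Eis × Eis)} (hJ : ∀ x ∈ J, IsPrim x.1)
    (om : Eis × Eis → ℂ) (T : Eis × Eis → Eis → ℂ) {c : Eis} (hc : IsPrim c) :
    conj (StT E0 J om T (c ^ 3)) = ∑ x ∈ J, ∑ e ∈ S E0, if IsCoprime c x.1 ∧ e ∣ c then
      conj (om x) * (th x.2 * ((mu e : ℂ) * conj (T x e))) else 0 := by
  unfold StT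
  rw [map_sum]
  refine Finset.sum_congr rfl fun x hx => ?_
  have h1 : sy (c ^ 3) x.1 = if IsCoprime c x.1 then 1 else 0 := by
    split_ifs with h
    · exact Char766.sy_cube_left (hJ x hx) h
    · exact Char766.sy_eq_zero (hJ x hx)
        (fun h' => h ((IsCoprime.pow_left_iff (by norm_num)).mp h'))
  rw [h1, PX764.th_cube hc, map_mul, map_mul, map_mul, map_sum, Complex.conj_conj,
    Finset.sum_filter, Finset.mul_sum, Finset.mul_sum]
  refine Finset.sum_congr rfl fun e he => ?_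
  have hes : Squarefree e := ((mem_S hE0).mp he).2.2
  have h2 : e ∣ c ^ 3 ↔ e ∣ c := ⟨fun h => hes.isRadical 3 c h, fun h => dvd_pow h (by norm_num)⟩
  by_cases h3 : IsCoprime c x.1
  · by_cases h4 : e ∣ c
    · rw [if_pos h3, if_pos (h2.mpr h4), if_pos ⟨h3, h4⟩, map_one, map_mul, map_intCast]
      ring
    · have h5 : ¬ (IsCoprime c x.1 ∧ e ∣ c) := fun h => h4 h.2
      have h6 : ¬ e ∣ c ^ 3 := fun h => h4 (h2.mp h)
      rw [if_neg h5, if_neg h6]
      ring
  · have h5 : ¬ (IsCoprime c x.1 ∧ e ∣ c) := fun h => h3 h.1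
    rw [if_neg h5, if_neg h3, map_zero]
    ring

open Classical in
/-- the count with a divisor -/
lemma cnt_dvd (G : ℝ → ℂ) {m e : Eis} (he : IsPrim e) {K : ℝ} (hK : 0 < K) :
    (∑' c : Eis, if IsPrim c ∧ IsCoprime c m ∧ e ∣ c then G (Real.log ((nm c : ℝ) ^ 3 / K)) else 0) =
      if IsCoprime e m then Cn3 G m (K / (nm e : ℝ) ^ 3) else 0 := by
  have he0 := he.ne_zero
  have hen := nm_pos' he0
  set g : Eis → ℂ := fun c => if IsPrim c ∧ IsCoprime c m ∧ e ∣ c then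
    G (Real.log ((nm c : ℝ) ^ 3 / K)) else 0 with hg
  have hinj : Function.Injective fun c : Eis => e * c := fun a b hab => mul_left_cancel₀ he0 hab
  have hsupp : Function.support g ⊆ Set.range fun c : Eis => e * c := by
    intro c hc
    rw [Function.mem_support] at hc
    by_contra h
    apply hc
    rw [hg]
    dsimp only
    rw [if_neg]
    rintro ⟨-, -, b, rfl⟩
    exact h ⟨b, rfl⟩
  rw [show (∑' c : Eis, if IsPrim c ∧ IsCoprime c m ∧ e ∣ c then
    G (Real.log ((nm c : ℝ) ^ 3 / K)) else 0) = ∑' c, g c from rfl, ← hinj.tsum_eq hsupp]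
  split_ifs with hem
  · unfold PrW502.Cn3
    refine tsum_congr fun c => ?_
    simp only [hg]
    have h1 : (IsPrim (e * c) ∧ IsCoprime (e * c) m ∧ e ∣ e * c) ↔ (IsPrim c ∧ IsCoprime c m) :=
      ⟨fun h => ⟨h.1.of_mul_left he, h.2.1.of_mul_left_right⟩,
        fun h => ⟨he.mul h.1, hem.mul_left h.2, dvd_mul_right _ _⟩⟩
    by_cases h2 : IsPrim c ∧ IsCoprime c m
    · rw [if_pos (h1.mpr h2), if_pos h2, nm_mul]
      congr 2
      push_cast
      field_simp
    · rw [if_neg (fun h => h2 (h1.mp h)), if_neg h2]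
  · rw [← tsum_zero (α := ℂ) (β := Eis)]
    refine tsum_congr fun c => ?_
    simp only [hg]
    rw [if_neg]
    rintro ⟨-, h, -⟩
    exact hem h.of_mul_left_left

open Classical in
set_option maxHeartbeats 1000000 in
/-- **the primary cubes, compensated weight** : no power of `K` -/
theorem cub_bd : ∃ (k : ℕ) (C : ℝ), 0 ≤ C ∧ ∀ (F : ℝ → ℂ) (Sf : ℝ), TF F → Bd F k Sf →
    ∀ (h K E0 : ℝ), 0 ≤ h → 0 < K → 0 ≤ E0 → ∀ (α : Eis → ℂ) (hα : FS α) (J : Finset (Eis × Eis)),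
    (∀ x ∈ J, IsPrim x.1) → ∀ (om : Eis × Eis → ℂ) (T : Eis × Eis → Eis → ℂ),
      ‖CrQ (GF (Fh F h)) Cub K α (StT E0 J om T)‖ ≤ C * Sf * (1 + Real.exp (h / 3)) *
        ∑ x ∈ J, ‖om x‖ * ‖th x.2‖ * (∑ e ∈ S E0, ‖T x e‖) *
          ∑ n ∈ hα.fin.toFinset, ‖α n‖ * (tau (n * x.1) : ℝ) := by
  obtain ⟨N, C, hC, hb⟩ := prW_tau
  refine ⟨N, C, hC, fun F Sf hF hS h K E0 hh hK hE0 α hα J hJ om T => ?_⟩
  set Ts := hα.fin.toFinset with hTs
  have hTp : ∀ n ∈ Ts, IsPrim n := fun n hn => by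
    rw [hTs, Set.Finite.mem_toFinset, Function.mem_support] at hn
    exact hα.prim n hn
  have hSf : 0 ≤ Sf := (norm_nonneg _).trans (hS 0 (Nat.zero_le _) 0)
  -- the coefficient
  set co : Eis × Eis → Eis → Eis → ℂ := fun x e n =>
    α n * (conj (om x) * (th x.2 * ((mu e : ℂ) * conj (T x e)))) with hco
  have hW : ∀ c : Eis, IsPrim c → GF (Fh F h) ((nm (c ^ 3) : ℝ) / K) =
      Fh F h (Real.log ((nm c : ℝ) ^ 3 / K)) := by
    intro c hc
    have h1 := nm_pos' hc.ne_zero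
    unfold X6C180.GF
    rw [nm_pow]
    push_cast
    rw [if_pos (by positivity)]
  have hexp : CrQ (GF (Fh F h)) Cub K α (StT E0 J om T) = ∑ x ∈ J, ∑ e ∈ S E0, ∑ n ∈ Ts,
      co x e n * ∑' c : Eis, if IsPrim c ∧ IsCoprime c (n * x.1) ∧ e ∣ c then
        Fh F h (Real.log ((nm c : ℝ) ^ 3 / K)) else 0 := by
    rw [CrQ_cub]
    have hfin : ∀ g : Eis → ℂ, (Function.support fun c : Eis => if IsPrim c then
        Fh F h (Real.log ((nm c : ℝ) ^ 3 / K)) * g c else 0).Finite := by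
      intro g
      obtain ⟨B, hB⟩ := bdd_Fh hF hh
      refine (finite_nm_le ⌊B * K⌋₊).subset fun c hc => ?_
      rw [Function.mem_support] at hc
      by_cases hp : IsPrim c
      · rw [if_pos hp] at hc
        have h1 : GF (Fh F h) ((nm (c ^ 3) : ℝ) / K) ≠ 0 := by
          rw [hW c hp]
          exact left_ne_zero_of_mul hc
        have h2 := hB _ h1
        rw [div_le_iff₀ hK] at h2
        refine Nat.le_floor (le_trans ?_ h2)
        have h3 : 1 ≤ nm c := by
          have := one_le_nm hp.ne_zero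
          exact_mod_cast this
        rw [nm_pow]
        exact_mod_cast Nat.le_self_pow (by norm_num) _
      · rw [if_neg hp] at hc
        exact absurd rfl hc
    have hs : ∀ x ∈ J, ∀ e ∈ S E0, ∀ n ∈ Ts, Summable fun c : Eis => co x e n *
        (if IsPrim c ∧ IsCoprime c (n * x.1) ∧ e ∣ c then
          Fh F h (Real.log ((nm c : ℝ) ^ 3 / K)) else 0) := by
      intro x _ e _ n _
      refine summable_of_hasFiniteSupport ((hfin fun _ => 1).subset fun c hc => ?_)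
      rw [Function.mem_support] at hc ⊢
      intro h0
      apply hc
      by_cases h1 : IsPrim c ∧ IsCoprime c (n * x.1) ∧ e ∣ c
      · rw [if_pos h1.1, mul_one] at h0
        rw [if_pos h1, h0, mul_zero]
      · rw [if_neg h1, mul_zero]
    have e1 : ∀ c : Eis, (if IsPrim c then GF (Fh F h) ((nm (c ^ 3) : ℝ) / K) *
        (CS α (c ^ 3) * conj (StT E0 J om T (c ^ 3))) else 0) =
        ∑ x ∈ J, ∑ e ∈ S E0, ∑ n ∈ Ts, co x e n *
          (if IsPrim c ∧ IsCoprime c (n * x.1) ∧ e ∣ c then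
            Fh F h (Real.log ((nm c : ℝ) ^ 3 / K)) else 0) := by
      intro c
      by_cases hc : IsPrim c
      · rw [if_pos hc, hW c hc, StT_cube hE0 hJ om T hc, CS_cube hα c, Finset.mul_sum,
          Finset.mul_sum]
        refine Finset.sum_congr rfl fun x hx => ?_
        rw [Finset.mul_sum, Finset.mul_sum]
        refine Finset.sum_congr rfl fun e he => ?_
        rw [Finset.sum_mul, Finset.mul_sum]
        refine Finset.sum_congr rfl fun n hn => ?_
        by_cases h1 : IsCoprime c n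
        · by_cases h2 : IsCoprime c x.1 ∧ e ∣ c
          · rw [if_pos h1, if_pos h2, if_pos ⟨hc, h1.mul_right h2.1, h2.2⟩]
            simp only [hco]
            ring
          · have h3 : ¬ (IsPrim c ∧ IsCoprime c (n * x.1) ∧ e ∣ c) :=
              fun h' => h2 ⟨h'.2.1.of_mul_right_right, h'.2.2⟩
            rw [if_neg h2, if_neg h3]
            ring
        · have h3 : ¬ (IsPrim c ∧ IsCoprime c (n * x.1) ∧ e ∣ c) :=
            fun h' => h1 h'.2.1.of_mul_right_left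
          rw [if_neg h1, if_neg h3]
          ring
      · rw [if_neg hc]
        symm
        refine Finset.sum_eq_zero fun x _ => Finset.sum_eq_zero fun e _ =>
          Finset.sum_eq_zero fun n _ => ?_
        rw [if_neg (fun h' => hc h'.1), mul_zero]
    rw [tsum_congr e1, Summable.tsum_finsetSum fun x hx => summable_sum fun e he =>
      summable_sum fun n hn => hs x hx e he n hn]
    refine Finset.sum_congr rfl fun x hx => ?_
    rw [Summable.tsum_finsetSum fun e he => summable_sum fun n hn => hs x hx e he n hn]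
    refine Finset.sum_congr rfl fun e he => ?_
    rw [Summable.tsum_finsetSum fun n hn => hs x hx e he n hn]
    refine Finset.sum_congr rfl fun n hn => ?_
    rw [tsum_mul_left]
  have hb1 : ∀ x ∈ J, ∀ e ∈ S E0, ∀ n ∈ Ts,
      ‖∑' c : Eis, if IsPrim c ∧ IsCoprime c (n * x.1) ∧ e ∣ c then
        Fh F h (Real.log ((nm c : ℝ) ^ 3 / K)) else 0‖ ≤
      C * Sf * (1 + Real.exp (h / 3)) * tau (n * x.1) := by
    intro x hx e he n hn
    have hep : IsPrim e := ((mem_S hE0).mp he).2.1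
    have hen := nm_pos' hep.ne_zero
    rw [cnt_dvd (Fh F h) hep hK]
    split_ifs with hcop
    · exact hb F Sf hF hS (n * x.1) (K / (nm e : ℝ) ^ 3) h
        (mul_ne_zero (hTp n hn).ne_zero (hJ x hx).ne_zero) (by positivity)
    · rw [norm_zero]; positivity
  rw [hexp]
  refine (norm_sum_le _ _).trans ?_
  rw [Finset.mul_sum]
  refine Finset.sum_le_sum fun x hx => ?_
  refine (norm_sum_le _ _).trans ?_
  have e2 : C * Sf * (1 + Real.exp (h / 3)) * (‖om x‖ * ‖th x.2‖ * (∑ e ∈ S E0, ‖T x e‖) *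
      ∑ n ∈ Ts, ‖α n‖ * (tau (n * x.1) : ℝ)) = ∑ e ∈ S E0, ∑ n ∈ Ts,
      (‖α n‖ * (‖om x‖ * (‖th x.2‖ * ‖T x e‖))) *
        (C * Sf * (1 + Real.exp (h / 3)) * tau (n * x.1)) := by
    set V := ∑ n ∈ Ts, ‖α n‖ * (tau (n * x.1) : ℝ) with hV
    have e3 : ∀ e ∈ S E0, ∑ n ∈ Ts, (‖α n‖ * (‖om x‖ * (‖th x.2‖ * ‖T x e‖))) *
        (C * Sf * (1 + Real.exp (h / 3)) * tau (n * x.1)) =
        C * Sf * (1 + Real.exp (h / 3)) * (‖om x‖ * ‖th x.2‖ * V) * ‖T x e‖ := by
      intro e _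
      rw [hV, Finset.mul_sum, Finset.mul_sum, Finset.sum_mul]
      exact Finset.sum_congr rfl fun n _ => by ring
    rw [Finset.sum_congr rfl e3, ← Finset.mul_sum]
    ring
  rw [e2]
  refine Finset.sum_le_sum fun e he => (norm_sum_le _ _).trans (Finset.sum_le_sum fun n hn => ?_)
  rw [norm_mul]
  refine mul_le_mul ?_ (hb1 x hx e he n hn) (norm_nonneg _) (by positivity)
  simp only [hco]
  rw [norm_mul, norm_mul, norm_mul, norm_mul, RCLike.norm_conj, RCLike.norm_conj]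
  have h1 := norm_mu_le e
  have h2 : ‖((mu e : ℤ) : ℂ)‖ * ‖T x e‖ ≤ ‖T x e‖ :=
    mul_le_of_le_one_left (norm_nonneg _) h1
  gcongr

/-- **the cross sum over the non-cubes** -/
theorem cross_np : ∃ (k : ℕ) (C : ℝ), 0 ≤ C ∧ ∀ (F : ℝ → ℂ) (Sf : ℝ), TF F → Bd F k Sf →
    ∀ (h K E0 : ℝ), 0 ≤ h → 0 < K → 0 ≤ E0 → ∀ (α : Eis → ℂ) (hα : FS α) (J : Finset (Eis × Eis)),
    (∀ x ∈ J, IsPrim x.1) → ∀ (om : Eis × Eis → ℂ) (T : Eis × Eis → Eis → ℂ),
      ‖CrQ (GF F) T411.NCube K α (StT E0 J om T) -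
        CrQ (GF (Fh F h)) (fun _ => True) K α (StT E0 J om T)‖ ≤
      Real.exp (h / 3) * ‖CrQ (GF F) T411.NCube (K * Real.exp (-h)) α (StT E0 J om T)‖ +
      C * Sf * (1 + Real.exp (h / 3)) *
        ∑ x ∈ J, ‖om x‖ * ‖th x.2‖ * (∑ e ∈ S E0, ‖T x e‖) *
          ∑ n ∈ hα.fin.toFinset, ‖α n‖ * (tau (n * x.1) : ℝ) := by
  obtain ⟨k, C, hC, hb⟩ := cub_bd
  refine ⟨k, C, hC, fun F Sf hF hS h K E0 hh hK hE0 α hα J hJ om T => ?_⟩
  have h1 := CrQ_split hF hh T411.NCube hK α (StT E0 J om T)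
  have h2 := CrQ_not (bdd_Fh hF hh) Cub hK α (StT E0 J om T)
  have h3 : CrQ (GF (Fh F h)) (fun k => ¬ Cub k) K α (StT E0 J om T) =
      CrQ (GF (Fh F h)) T411.NCube K α (StT E0 J om T) :=
    CrQ_congr (fun k hk => cub_iff hk) K α _
  have h4 := hb F Sf hF hS h K E0 hh hK hE0 α hα J hJ om T
  have e : CrQ (GF F) T411.NCube K α (StT E0 J om T) -
      CrQ (GF (Fh F h)) (fun _ => True) K α (StT E0 J om T) =
      ((Real.exp (h / 3) : ℝ) : ℂ) * CrQ (GF F) T411.NCube (K * Real.exp (-h)) α (StT E0 J om T) -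
      CrQ (GF (Fh F h)) Cub K α (StT E0 J om T) := by
    rw [h1, h2, h3]; ring
  rw [e]
  refine (norm_sub_le _ _).trans ?_
  rw [norm_mul, Complex.norm_real, Real.norm_of_nonneg (Real.exp_pos _).le]
  linarith

end Crest.Agent.R017.Ex385
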