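import Crest.Agent.R017.DgC_829

/-!
# Row 17, block C70, leaf E3 (helper829): the exact diagonal, part D: `Tj`, `St`, `XJ`

* `aj α δ j` : the coefficients of `Tj`, `Tj_eq` : `Tj α δ j k = DT Y Y (aj α δ j) k`
* `XJw J om α` : `XJ` with the weights `‖om x‖²`; `XJw_one`
* **`diag_XJ`** : `Σ_x ‖om x‖² Σ'_k φ(N k/X) |th(jk)|² |DT E₀|² = κ₀ X^(2/3) (∫ t^(-1/3) φ) XJw + O`
-/

set_option autoImplicit false

noncomputable section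

open scoped Classical ComplexConjugate
open MeasureTheory

namespace Crest.Agent.R017.DgB829

open Crest.Agent.R012 Crest.Agent.R012.Eis Crest.Agent.R012.T3_85
open Crest.Agent.R012.LS2 (S mem_S)
open Crest.Agent.R012.Mob705 (mu pdiv mem_pdiv abs_mu_le_one mu_of_not_squarefree mu_one
  sum_mu_coprime PE PE_pos sig sig_pos cop mem_cop kap0 kap0_pos)
open Crest.Agent.R012.Div277 (tau)
open Crest.Agent.R012.Gauss880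
open Crest.Agent.R017.E1551 (nmpos)
open Crest.Agent.R017.PX764 (th n6 n6_mul n6_pos Gh)
open Crest.Agent.R017.C70
open Crest.Agent.R017.GrC829 (Wt)
open Crest.Agent.R017.GrE579 (GDE GDE_cop cbF_of_sqf JC.ne_zero)
open Crest.Agent.R017.DgA829

/-- the coefficients of one index -/
def aj (α : Eis → ℂ) (δ j m : Eis) : ℂ :=
  if IsCoprime j (δ * m) then α (δ * m) * ((n6 m : ℂ) * Gh j m) else 0

/-- `α` is supported on `S Y` -/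
def Sup (α : Eis → ℂ) (Y : ℝ) : Prop := ∀ n, α n ≠ 0 → n ∈ S Y

lemma aj_supp {α : Eis → ℂ} {Y : ℝ} (hY : 0 ≤ Y) (hα : Sup α Y) {δ j m : Eis} (hδ : IsPrim δ)
    (h : aj α δ j m ≠ 0) : m ∈ S Y ∧ IsCoprime m δ ∧ IsCoprime j m ∧ IsCoprime j δ := by
  unfold aj at h
  split_ifs at h with h1
  · have h2 := hα _ (left_ne_zero_of_mul h)
    have h3 := (mem_S hY).1 h2
    have hm : IsPrim m := h3.2.1.of_mul_left hδ
    refine ⟨Dual2813.S_of_dvd hY h2 hm (dvd_mul_left _ _), ?_, h1.of_mul_right_right,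
      h1.of_mul_right_left⟩
    exact ((squarefree_mul_iff.mp h3.2.2).1.isCoprime).symm
  · exact absurd rfl h

/-- the coprime sums are the untruncated `DT` -/
theorem Tj_eq {α : Eis → ℂ} {Y : ℝ} (hY : 0 ≤ Y) (hα : Sup α Y) {δ j k : Eis} (hδ : IsPrim δ)
    (hk : IsPrim k) (hkd : IsCoprime k δ) : Tj α δ j k = DT Y Y (aj α δ j) k := by
  rw [DT_full hY _ hk]
  unfold Tj
  rw [tsum_eq_sum (s := S Y)]
  · refine Finset.sum_congr rfl fun m _ => ?_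
    unfold aj
    by_cases h1 : IsCoprime k m
    · by_cases h2 : IsCoprime j (δ * m)
      · rw [if_pos ⟨hkd.mul_right h1, h2⟩, if_pos h1, if_pos h2]
      · rw [if_neg (fun h => h2 h.2), if_pos h1, if_neg h2]
    · rw [if_neg (fun h => h1 h.1.of_mul_right_right), if_neg h1]
  · intro m hm
    by_contra h
    refine hm (aj_supp hY hα (j := j) hδ ?_).1
    unfold aj
    split_ifs at h with h1
    · rwa [if_pos h1.2]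
    · exact absurd rfl h

/-- `XJ` with the weights `‖om x‖²` -/
def XJw (J : Finset (Eis × Eis)) (om : Eis × Eis → ℂ) (α : Eis → ℂ) : ℂ :=
  ∑ x ∈ J, ((‖om x‖ ^ 2 : ℝ) : ℂ) * ((((nm x.2 : ℝ) ^ (-(1 : ℝ) / 3) : ℝ) : ℂ) *
    ∑' m₁ : Eis, ∑' m₂ : Eis, if IsCoprime x.2 (x.1 * m₁ * m₂) then
      ((PE (x.1 * m₁ * m₂) : ℝ) : ℂ) * (α (x.1 * m₁) * ((n6 m₁ : ℂ) * Gh x.2 m₁)) *
        conj (α (x.1 * m₂) * ((n6 m₂ : ℂ) * Gh x.2 m₂)) else 0)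

lemma XJw_one (J : Finset (Eis × Eis)) (α : Eis → ℂ) : XJw J (fun _ => 1) α = XJ J α := by
  unfold XJw XJ
  refine Finset.sum_congr rfl fun x _ => ?_
  simp

/-- the inner double sum through `aj` -/
lemma inner_XJ {α : Eis → ℂ} {Y : ℝ} (hY : 0 ≤ Y) (hα : Sup α Y) {δ j : Eis} (hδ : IsPrim δ) :
    (∑' m₁ : Eis, ∑' m₂ : Eis, if IsCoprime j (δ * m₁ * m₂) then
      ((PE (δ * m₁ * m₂) : ℝ) : ℂ) * (α (δ * m₁) * ((n6 m₁ : ℂ) * Gh j m₁)) *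
        conj (α (δ * m₂) * ((n6 m₂ : ℂ) * Gh j m₂)) else 0) =
    ((PE δ : ℝ) : ℂ) * ∑ m₁ ∈ S Y, ∑ m₂ ∈ S Y,
      ((PE (m₁ * m₂) : ℝ) : ℂ) * (aj α δ j m₁ * conj (aj α δ j m₂)) := by
  have key : ∀ m₁ m₂ : Eis, (if IsCoprime j (δ * m₁ * m₂) then
      ((PE (δ * m₁ * m₂) : ℝ) : ℂ) * (α (δ * m₁) * ((n6 m₁ : ℂ) * Gh j m₁)) *
        conj (α (δ * m₂) * ((n6 m₂ : ℂ) * Gh j m₂)) else 0) =
      ((PE δ : ℝ) : ℂ) * (((PE (m₁ * m₂) : ℝ) : ℂ) * (aj α δ j m₁ * conj (aj α δ j m₂))) := by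
    intro m₁ m₂
    by_cases z1 : α (δ * m₁) = 0
    · unfold aj; rw [z1]; simp
    by_cases z2 : α (δ * m₂) = 0
    · unfold aj; rw [z2]; simp
    have s1 := (mem_S hY).1 (hα _ z1)
    have s2 := (mem_S hY).1 (hα _ z2)
    have q1 : IsPrim m₁ := s1.2.1.of_mul_left hδ
    have q2 : IsPrim m₂ := s2.2.1.of_mul_left hδ
    have c1 : IsCoprime δ m₁ := (squarefree_mul_iff.mp s1.2.2).1.isCoprime
    have c2 : IsCoprime δ m₂ := (squarefree_mul_iff.mp s2.2.2).1.isCoprime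
    have hP : PE (δ * m₁ * m₂) = PE δ * PE (m₁ * m₂) := by
      rw [mul_assoc]
      exact FYm571.PE_mul hδ.ne_zero (mul_ne_zero q1.ne_zero q2.ne_zero) (c1.mul_right c2)
    unfold aj
    by_cases h1 : IsCoprime j (δ * m₁)
    · by_cases h2 : IsCoprime j (δ * m₂)
      · rw [if_pos (h1.mul_right h2.of_mul_right_right), if_pos h1, if_pos h2, hP]
        push_cast
        ring
      · rw [if_neg, if_neg h2]
        · simp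
        · intro h
          exact h2 (h.of_mul_right_left.of_mul_right_left.mul_right h.of_mul_right_right)
    · rw [if_neg (fun h => h1 h.of_mul_right_left), if_neg h1]
      simp
  have hz : ∀ m, m ∉ S Y → aj α δ j m = 0 := by
    intro m hm
    by_contra h
    exact hm (aj_supp hY hα hδ h).1
  simp_rw [key]
  rw [tsum_eq_sum (s := S Y) (fun m₁ hm => by simp [hz m₁ hm]), Finset.mul_sum]
  refine Finset.sum_congr rfl fun m₁ _ => ?_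
  rw [tsum_eq_sum (s := S Y) (fun m₂ hm => by simp [hz m₂ hm]), Finset.mul_sum]

lemma DT_zero (E₀ Y : ℝ) (k : Eis) : DT E₀ Y (fun _ => 0) k = 0 := by
  unfold DT TT
  simp

variable {φ : ℝ → ℂ} {a₀ b₀ D : ℝ}

/-- the first error term of one index -/
def R1 (a₀ b₀ D X E₀ Y : ℝ) (α : Eis → ℂ) (x : Eis × Eis) : ℝ :=
  Ec a₀ b₀ D X x.2 x.1 * (∑ t ∈ S E₀, (tau t : ℝ) ^ 2 * (nm t : ℝ) ^ (-(1 : ℝ) / 4) *
    ‖TT Y (aj α x.1 x.2) t‖) ^ 2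

/-- the weighted sum of `|TT|²` over `t` -/
def M2 (Y : ℝ) (α : Eis → ℂ) (x : Eis × Eis) : ℝ :=
  (nm x.2 : ℝ) ^ (-(1 : ℝ) / 3) * ∑ t ∈ S Y, (tau t : ℝ) / nm t * ‖TT Y (aj α x.1 x.2) t‖ ^ 2

/-- the weighted sum of `|TT|²` over `t ∉ S E₀` -/
def M2o (E₀ Y : ℝ) (α : Eis → ℂ) (x : Eis × Eis) : ℝ :=
  (nm x.2 : ℝ) ^ (-(1 : ℝ) / 3) *
    ∑ t ∈ S Y, (tau t : ℝ) / nm t * out E₀ (fun t => ‖TT Y (aj α x.1 x.2) t‖) t ^ 2

lemma M2_nonneg (Y : ℝ) (α : Eis → ℂ) (x : Eis × Eis) : 0 ≤ M2 Y α x := by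
  unfold M2; positivity

lemma M2o_nonneg (E₀ Y : ℝ) (α : Eis → ℂ) (x : Eis × Eis) : 0 ≤ M2o E₀ Y α x := by
  unfold M2o; positivity

/-- **one index** -/
theorem diag_one (h : Wt φ a₀ b₀ D) {X : ℝ} (hX : 0 < X) {E₀ Y : ℝ} (hE : 0 ≤ E₀) (hEY : E₀ ≤ Y)
    {α : Eis → ℂ} (hα : Sup α Y) {x : Eis × Eis} (hδ : IsPrim x.1) (hj : JC x.2)
    {lam : ℝ} (hl : 0 < lam) :
    ‖MS φ X x.2 x.1 (DT E₀ Y (aj α x.1 x.2)) -
      (((kap0 * X ^ (2 / 3 : ℝ) : ℝ) : ℂ) *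
      ∫ t in Set.Ioi (0 : ℝ), ((t ^ (-(1 : ℝ) / 3) : ℝ) : ℂ) * φ t) *
      ((((nm x.2 : ℝ) ^ (-(1 : ℝ) / 3) : ℝ) : ℂ) *
        ∑' m₁ : Eis, ∑' m₂ : Eis, if IsCoprime x.2 (x.1 * m₁ * m₂) then
      ((PE (x.1 * m₁ * m₂) : ℝ) : ℂ) * (α (x.1 * m₁) * ((n6 m₁ : ℂ) * Gh x.2 m₁)) *
        conj (α (x.1 * m₂) * ((n6 m₂ : ℂ) * Gh x.2 m₂)) else 0)‖ ≤
      R1 a₀ b₀ D X E₀ Y α x + (kap0 * X ^ (2 / 3 : ℝ)) *
        ‖∫ t in Set.Ioi (0 : ℝ), ((t ^ (-(1 : ℝ) / 3) : ℝ) : ℂ) * φ t‖ *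
        (HS Y * (lam * M2o E₀ Y α x + lam⁻¹ * M2 Y α x)) := by
  have hY : 0 ≤ Y := hE.trans hEY
  have hk0 := kap0_pos
  have hj0 := JC.ne_zero hj
  have hHS := HS_nonneg Y
  rw [inner_XJ hY hα hδ]
  by_cases hc : IsCoprime x.2 x.1
  · have h1 := diag_main h hX hj hδ.ne_zero hc hE hEY (aj α x.1 x.2)
      (fun m hm => ⟨(aj_supp hY hα hδ hm).2.1, (aj_supp hY hα hδ hm).2.2.1⟩) hl
    have e1 : (((kap0 * PE x.1 * (nm x.2 : ℝ) ^ (-(1 : ℝ) / 3) * X ^ (2 / 3 : ℝ) : ℝ) : ℂ) *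
      ∫ t in Set.Ioi (0 : ℝ), ((t ^ (-(1 : ℝ) / 3) : ℝ) : ℂ) * φ t) *
        ∑ m₁ ∈ S Y, ∑ m₂ ∈ S Y, ((PE (m₁ * m₂) : ℝ) : ℂ) *
          (aj α x.1 x.2 m₁ * conj (aj α x.1 x.2 m₂)) =
      (((kap0 * X ^ (2 / 3 : ℝ) : ℝ) : ℂ) *
      ∫ t in Set.Ioi (0 : ℝ), ((t ^ (-(1 : ℝ) / 3) : ℝ) : ℂ) * φ t) *
      ((((nm x.2 : ℝ) ^ (-(1 : ℝ) / 3) : ℝ) : ℂ) * (((PE x.1 : ℝ) : ℂ) *
        ∑ m₁ ∈ S Y, ∑ m₂ ∈ S Y, ((PE (m₁ * m₂) : ℝ) : ℂ) *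
          (aj α x.1 x.2 m₁ * conj (aj α x.1 x.2 m₂)))) := by
      push_cast
      ring
    rw [e1] at h1
    refine h1.trans (add_le_add le_rfl ?_)
    have hP1 : PE x.1 ≤ 1 := Mob705.PE_le_one x.1
    have hP0 := PE_pos x.1
    have hM := M2_nonneg Y α x
    have hMo := M2o_nonneg E₀ Y α x
    set I := ‖∫ t in Set.Ioi (0 : ℝ), ((t ^ (-(1 : ℝ) / 3) : ℝ) : ℂ) * φ t‖ with hI
    have hI0 : 0 ≤ I := norm_nonneg _
    have e2 : kap0 * PE x.1 * (nm x.2 : ℝ) ^ (-(1 : ℝ) / 3) * X ^ (2 / 3 : ℝ) * I *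
        (HS Y * (lam * ∑ t ∈ S Y, (tau t : ℝ) / nm t *
            out E₀ (fun t => ‖TT Y (aj α x.1 x.2) t‖) t ^ 2 +
          lam⁻¹ * ∑ t ∈ S Y, (tau t : ℝ) / nm t * ‖TT Y (aj α x.1 x.2) t‖ ^ 2)) =
        PE x.1 * (kap0 * X ^ (2 / 3 : ℝ) * I *
          (HS Y * (lam * M2o E₀ Y α x + lam⁻¹ * M2 Y α x))) := by
      unfold M2o M2
      ring
    rw [e2]
    have h3 : 0 ≤ kap0 * X ^ (2 / 3 : ℝ) * I *
          (HS Y * (lam * M2o E₀ Y α x + lam⁻¹ * M2 Y α x)) := by positivity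
    calc _ ≤ 1 * (kap0 * X ^ (2 / 3 : ℝ) * I *
          (HS Y * (lam * M2o E₀ Y α x + lam⁻¹ * M2 Y α x))) :=
          mul_le_mul_of_nonneg_right hP1 h3
      _ = _ := one_mul _
  · have hz : aj α x.1 x.2 = fun _ => 0 := by
      funext m
      by_contra h
      exact hc (aj_supp hY hα hδ h).2.2.2
    have hEc := Ec_nonneg h hX (b := x.1) hj0
    have hM := M2_nonneg Y α x
    have hMo := M2o_nonneg E₀ Y α x
    have e3 : MS φ X x.2 x.1 (DT E₀ Y (aj α x.1 x.2)) = 0 := by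
      rw [MS_fin h hX]
      refine Finset.sum_eq_zero fun k _ => ?_
      rw [hz, DT_zero]
      simp
    rw [e3, hz]
    simp only [map_zero, mul_zero, Finset.sum_const_zero, sub_zero, norm_zero]
    unfold R1
    positivity

/-- **the diagonal of the structured function with weights** -/
theorem diag_XJ (h : Wt φ a₀ b₀ D) {X : ℝ} (hX : 0 < X) {E₀ Y : ℝ} (hE : 0 ≤ E₀) (hEY : E₀ ≤ Y)
    {α : Eis → ℂ} (hα : Sup α Y) {J : Finset (Eis × Eis)} (hJ : OKJ J) (om : Eis × Eis → ℂ)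
    {lam : ℝ} (hl : 0 < lam) :
    ‖∑ x ∈ J, ((‖om x‖ ^ 2 : ℝ) : ℂ) * MS φ X x.2 x.1 (DT E₀ Y (aj α x.1 x.2)) -
      (((kap0 * X ^ (2 / 3 : ℝ) : ℝ) : ℂ) *
      ∫ t in Set.Ioi (0 : ℝ), ((t ^ (-(1 : ℝ) / 3) : ℝ) : ℂ) * φ t) * XJw J om α‖ ≤
      ∑ x ∈ J, ‖om x‖ ^ 2 * R1 a₀ b₀ D X E₀ Y α x + (kap0 * X ^ (2 / 3 : ℝ)) *
        ‖∫ t in Set.Ioi (0 : ℝ), ((t ^ (-(1 : ℝ) / 3) : ℝ) : ℂ) * φ t‖ *
        (HS Y * (lam * ∑ x ∈ J, ‖om x‖ ^ 2 * M2o E₀ Y α x +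
          lam⁻¹ * ∑ x ∈ J, ‖om x‖ ^ 2 * M2 Y α x)) := by
  set I := ∫ t in Set.Ioi (0 : ℝ), ((t ^ (-(1 : ℝ) / 3) : ℝ) : ℂ) * φ t with hI
  unfold XJw
  rw [Finset.mul_sum, ← Finset.sum_sub_distrib]
  refine (norm_sum_le _ _).trans ?_
  have e1 : ∑ x ∈ J, ‖om x‖ ^ 2 * R1 a₀ b₀ D X E₀ Y α x + (kap0 * X ^ (2 / 3 : ℝ)) * ‖I‖ *
        (HS Y * (lam * ∑ x ∈ J, ‖om x‖ ^ 2 * M2o E₀ Y α x +
          lam⁻¹ * ∑ x ∈ J, ‖om x‖ ^ 2 * M2 Y α x)) =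
      ∑ x ∈ J, ‖om x‖ ^ 2 * (R1 a₀ b₀ D X E₀ Y α x + (kap0 * X ^ (2 / 3 : ℝ)) * ‖I‖ *
        (HS Y * (lam * M2o E₀ Y α x + lam⁻¹ * M2 Y α x))) := by
    simp_rw [mul_add, Finset.sum_add_distrib, Finset.mul_sum]
    congr 2 <;>
    · refine Finset.sum_congr rfl fun x _ => ?_
      ring
  rw [e1]
  refine Finset.sum_le_sum fun x hx => ?_
  have h1 := diag_one h hX hE hEY hα (hJ.prim x hx) (hJ.jc x hx) hl
  rw [← hI] at h1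
  have e2 : ∀ A B C : ℂ, ((‖om x‖ ^ 2 : ℝ) : ℂ) * A - B * (((‖om x‖ ^ 2 : ℝ) : ℂ) * C) =
      ((‖om x‖ ^ 2 : ℝ) : ℂ) * (A - B * C) := fun A B C => by ring
  rw [e2, norm_mul, Complex.norm_real, Real.norm_of_nonneg (by positivity)]
  exact mul_le_mul_of_nonneg_left h1 (by positivity)

end Crest.Agent.R017.DgB829
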