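import Crest.Agent.R017.E2r_440
import Crest.Agent.R017.DgD_829

/-!
# Row 17, block C70, leaf E2, part x (helper440): the main term of the cross form and `XJ`

* `TE_eq_TT`, `UE_eq` : `TE`, `UE` through 829's `TT`
* `half_tail` : the half truncated double sum
* `XJl J om α` : `XJ` with weights `om x`
* `E2main` : `Σ_x Σ_e conj(om x) mu e conj(TE) MX = cM K^{2/3} mellin F (2/3) XJl J (conj om) α + tail`
-/

set_option autoImplicit false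
set_option linter.unusedVariables false
set_option linter.unusedSectionVars false

noncomputable section

open Complex MeasureTheory
open scoped ComplexConjugate Classical

namespace Crest.Agent.R017.E2440

open Crest.Agent.R012 Crest.Agent.R012.Eis Crest.Agent.R012.GaussLoc283
open Crest.Agent.R012.Mob705 hiding pb mem_pb
open Crest.Agent.R012.Div277
open Crest.Agent.R012.LS2 (S mem_S)
open Crest.Agent.R017.PX764 (th Gh n6 cD)
open Crest.Agent.R017.X6C180 (Sg fA cM n13 GF)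
open Crest.Agent.R017.CM106 (CS FS sub)
open Crest.Agent.R017.C70 (JC CbF OKJ XJ)
open Crest.Agent.R017.GrB829 (IsC)
open Crest.Agent.R017.DgB829 (TT aj Sup aj_supp HS HS_nonneg out out_nonneg S_mono lcm_bilinear
  full_sum M2 M2o M2_nonneg M2o_nonneg inner_XJ)
open Crest.Agent.R017.DgA829 (lc inner_lcm)

lemma cM_nn : 0 ≤ cM := by
  unfold X6C180.cM
  have := PX764.pC_pos
  positivity

lemma TE_eq_TT {α : Eis → ℂ} {Y : ℝ} (hY : 0 ≤ Y) (hα : Sup α Y) {x : Eis × Eis}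
    (hδ : IsPrim x.1) (e : Eis) : TE α x e = TT Y (aj α x.1 x.2) e := by
  unfold TE DgB829.TT
  rw [tsum_eq_sum (s := S Y)]
  · refine Finset.sum_congr rfl fun m _ => ?_
    unfold DgB829.aj
    by_cases h1 : e ∣ m
    · by_cases h2 : IsCoprime x.2 (x.1 * m)
      · rw [if_pos ⟨h1, h2⟩, if_pos h1, if_pos h2]
      · rw [if_neg (fun h => h2 h.2), if_pos h1, if_neg h2]
    · rw [if_neg (fun h => h1 h.1), if_neg h1]
  · intro m hm
    by_contra h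
    apply hm
    have h1 : aj α x.1 x.2 m ≠ 0 := by
      unfold DgB829.aj
      by_cases h2 : IsCoprime x.2 (x.1 * m)
      · rw [if_pos h2]
        intro h3
        apply h
        rw [h3]
        simp
      · exfalso
        exact h (if_neg (fun h3 => h2 h3.2))
    exact (aj_supp hY hα hδ h1).1

/-- `UE` through `TT` -/
lemma UE_eq {α : Eis → ℂ} {Y : ℝ} (hY : 0 ≤ Y) (hα : Sup α Y) {x : Eis × Eis}
    (hδ : IsPrim x.1) (hjδ : IsCoprime x.2 x.1) {e : Eis} (he : IsPrim e) (hes : Squarefree e) :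
    UE α x e / (nm e : ℂ) = ∑ t ∈ S Y, (mu t : ℂ) * ((nm (lc e t) : ℝ) : ℂ)⁻¹ *
      TT Y (aj α x.1 x.2) t := by
  have h1 : UE α x e = ∑ m ∈ S Y, if IsCoprime e m then
      ((PE m : ℝ) : ℂ) * aj α x.1 x.2 m else 0 := by
    unfold UE
    rw [tsum_eq_sum (s := S Y)]
    · refine Finset.sum_congr rfl fun m hm => ?_
      have hm' := (mem_S hY).1 hm
      by_cases h1 : IsCoprime e m
      · rw [if_pos h1.symm, if_pos h1]
        unfold DgB829.aj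
        by_cases h2 : IsCoprime x.2 (x.1 * m)
        · rw [if_pos h2]
        · rw [if_neg h2]
          have h3 : ¬ IsCoprime x.2 m := fun h => h2 (hjδ.mul_right h)
          rw [PX764.Gh_zero hm'.2.1 h3]
          ring
      · rw [if_neg (fun h => h1 h.symm), if_neg h1]
    · intro m hm
      by_cases h0 : α (x.1 * m) = 0
      · rw [h0]; simp
      · exfalso
        apply hm
        have h2 := hα _ h0
        have h3 := (mem_S hY).1 h2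
        exact Dual2813.S_of_dvd hY h2 (h3.2.1.of_mul_left hδ) (dvd_mul_left _ _)
  have h2 : ∀ t ∈ S Y, (mu t : ℂ) * ((nm (lc e t) : ℝ) : ℂ)⁻¹ * TT Y (aj α x.1 x.2) t =
      ∑ m ∈ S Y, (if t ∣ m then (((mu t : ℝ) / nm (lc e t) : ℝ) : ℂ) else 0) *
        aj α x.1 x.2 m := by
    intro t _
    unfold DgB829.TT
    rw [Finset.mul_sum]
    refine Finset.sum_congr rfl fun m _ => ?_
    split_ifs
    · push_cast
      ring
    · ring
  rw [h1, Finset.sum_congr rfl h2, Finset.sum_comm, Finset.sum_div]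
  refine Finset.sum_congr rfl fun m hm => ?_
  have hm' := (mem_S hY).1 hm
  rw [← Finset.sum_mul, DgB829.sum_dvd_pdiv hY hm (fun t => (((mu t : ℝ) / nm (lc e t) : ℝ) : ℂ)),
    ← Complex.ofReal_sum, inner_lcm he hm'.2.1 hes hm'.2.2]
  split_ifs
  · push_cast
    ring
  · simp

/-- the half truncated double sum -/
theorem half_tail {E₀ Y : ℝ} (hE : 0 ≤ E₀) (hEY : E₀ ≤ Y) (T : Eis → ℂ) {lam : ℝ} (hl : 0 < lam) :
    ‖∑ t ∈ S E₀, ∑ t' ∈ S Y, ((mu t : ℂ) * (mu t' : ℂ) * (T t' * conj (T t))) *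
        ((nm (lc t t') : ℝ) : ℂ)⁻¹ -
      ∑ t ∈ S Y, ∑ t' ∈ S Y, ((mu t : ℂ) * (mu t' : ℂ) * (T t' * conj (T t))) *
        ((nm (lc t t') : ℝ) : ℂ)⁻¹‖ ≤
      HS Y * (lam / 2 * ∑ t ∈ S Y, (tau t : ℝ) / nm t * out E₀ (fun t => ‖T t‖) t ^ 2 +
        lam⁻¹ / 2 * ∑ t ∈ S Y, (tau t : ℝ) / nm t * ‖T t‖ ^ 2) := by
  have hY : 0 ≤ Y := hE.trans hEY
  have hs := S_mono hE hEY
  have hu : ∀ t, 0 ≤ ‖T t‖ := fun t => norm_nonneg _
  have ho := out_nonneg (E₀ := E₀) hu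
  have h1 : ∑ t ∈ S E₀, ∑ t' ∈ S Y, ((mu t : ℂ) * (mu t' : ℂ) * (T t' * conj (T t))) *
        ((nm (lc t t') : ℝ) : ℂ)⁻¹ = ∑ t ∈ S Y, if t ∈ S E₀ then
      ∑ t' ∈ S Y, ((mu t : ℂ) * (mu t' : ℂ) * (T t' * conj (T t))) *
        ((nm (lc t t') : ℝ) : ℂ)⁻¹ else 0 := by
    rw [← Finset.sum_filter, Finset.filter_mem_eq_inter, Finset.inter_eq_right.mpr hs]
  rw [h1, ← Finset.sum_sub_distrib]
  refine le_trans ?_ (lcm_bilinear hY _ _ ho hu hl)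
  refine (norm_sum_le _ _).trans (Finset.sum_le_sum fun t ht => ?_)
  by_cases h2 : t ∈ S E₀
  · rw [if_pos h2, sub_self, norm_zero]
    refine Finset.sum_nonneg fun t' _ => ?_
    have := ho t
    positivity
  · rw [if_neg h2, zero_sub, norm_neg]
    refine (norm_sum_le _ _).trans (Finset.sum_le_sum fun t' _ => ?_)
    have e1 : out E₀ (fun t => ‖T t‖) t = ‖T t‖ := if_neg h2
    rw [e1, norm_mul, norm_mul, norm_mul, norm_mul, RCLike.norm_conj, norm_inv,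
      Complex.norm_real, Real.norm_of_nonneg (Nat.cast_nonneg _), div_eq_mul_inv]
    refine mul_le_mul_of_nonneg_right ?_ (by positivity)
    calc ‖(mu t : ℂ)‖ * ‖(mu t' : ℂ)‖ * (‖T t'‖ * ‖T t‖)
        ≤ 1 * 1 * (‖T t'‖ * ‖T t‖) := by
          have := norm_mu_le t
          have := norm_mu_le t'
          gcongr
      _ = _ := by ring

/-- `XJ` with weights -/
def XJl (J : Finset (Eis × Eis)) (om : Eis × Eis → ℂ) (α : Eis → ℂ) : ℂ :=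
  ∑ x ∈ J, om x * ((((nm x.2 : ℝ) ^ (-(1 : ℝ) / 3) : ℝ) : ℂ) *
    ∑' m₁ : Eis, ∑' m₂ : Eis, if IsCoprime x.2 (x.1 * m₁ * m₂) then
      ((PE (x.1 * m₁ * m₂) : ℝ) : ℂ) * (α (x.1 * m₁) * ((n6 m₁ : ℂ) * Gh x.2 m₁)) *
        conj (α (x.1 * m₂) * ((n6 m₂ : ℂ) * Gh x.2 m₂)) else 0)

lemma XJl_one (J : Finset (Eis × Eis)) (α : Eis → ℂ) : XJl J (fun _ => 1) α = XJ J α := by
  unfold XJl C70.XJ
  refine Finset.sum_congr rfl fun x _ => ?_
  simp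

lemma arith_one {c n P I D H a b : ℝ} (hc : 0 ≤ c) (hn : 0 ≤ n) (hP : 0 ≤ P) (hP1 : P ≤ 1)
    (hI : 0 ≤ I) (hD : 0 ≤ D) (h : D ≤ H * (a + b)) :
    c * n * P * I * D ≤ c * I * (H * (a * n + b * n)) := by
  have h1 : P * D ≤ H * (a + b) := by
    calc P * D ≤ 1 * D := mul_le_mul_of_nonneg_right hP1 hD
      _ = D := one_mul D
      _ ≤ _ := h
  calc c * n * P * I * D = (c * n * I) * (P * D) := by ring
    _ ≤ (c * n * I) * (H * (a + b)) := mul_le_mul_of_nonneg_left h1 (by positivity)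
    _ = _ := by ring

/-- one index -/
theorem main_one {α : Eis → ℂ} (hs : ∀ n, α n ≠ 0 → Squarefree n) {E₀ Y : ℝ} (hE : 0 ≤ E₀)
    (hEY : E₀ ≤ Y) (hα : Sup α Y) {x : Eis × Eis} (hδ : IsPrim x.1)
    (F : ℝ → ℂ) {K : ℝ} (hK : 0 < K) {lam : ℝ} (hl : 0 < lam) :
    ‖∑ e ∈ S E₀, (mu e : ℂ) * conj (TE α x e) * MX α x e F K -
      (((cM * K ^ (2 / 3 : ℝ) : ℝ) : ℂ) * mellin F ((2 / 3 : ℝ) : ℂ)) *
      ((((nm x.2 : ℝ) ^ (-(1 : ℝ) / 3) : ℝ) : ℂ) *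
    ∑' m₁ : Eis, ∑' m₂ : Eis, if IsCoprime x.2 (x.1 * m₁ * m₂) then
      ((PE (x.1 * m₁ * m₂) : ℝ) : ℂ) * (α (x.1 * m₁) * ((n6 m₁ : ℂ) * Gh x.2 m₁)) *
        conj (α (x.1 * m₂) * ((n6 m₂ : ℂ) * Gh x.2 m₂)) else 0)‖ ≤
      (cM * K ^ (2 / 3 : ℝ)) * ‖mellin F ((2 / 3 : ℝ) : ℂ)‖ *
        (HS Y * (lam * M2o E₀ Y α x + lam⁻¹ * M2 Y α x)) := by
  have hY : 0 ≤ Y := hE.trans hEY
  have hcM := cM_nn
  have hHS := HS_nonneg Y
  have hM := M2_nonneg Y α x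
  have hMo := M2o_nonneg E₀ Y α x
  rw [inner_XJ hY hα hδ]
  by_cases hc : IsCoprime x.2 x.1
  · set T : Eis → ℂ := TT Y (aj α x.1 x.2) with hT
    have h1 : ∀ e ∈ S E₀, (mu e : ℂ) * conj (TE α x e) * MX α x e F K =
        (((cM * K ^ (2 / 3 : ℝ) * n13 x.2 * PE x.1 : ℝ) : ℂ) * mellin F ((2 / 3 : ℝ) : ℂ)) *
          ∑ t' ∈ S Y, ((mu e : ℂ) * (mu t' : ℂ) * (T t' * conj (T e))) *
            ((nm (lc e t') : ℝ) : ℂ)⁻¹ := by
      intro e he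
      have he' := (mem_S hE).1 he
      have hU := UE_eq hY hα hδ hc he'.2.1 he'.2.2
      have hne : (nm e : ℂ) ≠ 0 := nmC_ne he'.2.1.ne_zero
      have e2 : ∑ t' ∈ S Y, ((mu e : ℂ) * (mu t' : ℂ) * (T t' * conj (T e))) *
            ((nm (lc e t') : ℝ) : ℂ)⁻¹ = (mu e : ℂ) * conj (T e) * (UE α x e / (nm e : ℂ)) := by
        rw [hU, Finset.mul_sum]
        refine Finset.sum_congr rfl fun t' _ => ?_
        ring
      have e7 : TE α x e = T e := TE_eq_TT hY hα hδ e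
      rw [e2, e7]
      unfold MX
      push_cast
      field_simp
    rw [Finset.sum_congr rfl h1, ← Finset.mul_sum]
    have hfull := full_sum hY (aj α x.1 x.2)
    have e3 : ∑ t ∈ S Y, ∑ t' ∈ S Y, ((mu t : ℂ) * (mu t' : ℂ) * (T t' * conj (T t))) *
        ((nm (lc t t') : ℝ) : ℂ)⁻¹ = ∑ m₁ ∈ S Y, ∑ m₂ ∈ S Y, ((PE (m₁ * m₂) : ℝ) : ℂ) *
          (aj α x.1 x.2 m₁ * conj (aj α x.1 x.2 m₂)) := by
      rw [← hfull, Finset.sum_comm]
      refine Finset.sum_congr rfl fun t ht => Finset.sum_congr rfl fun t' ht' => ?_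
      rw [DgA829.lc_comm ((mem_S hY).1 ht').2.1 ((mem_S hY).1 ht).2.1]
      ring
    have e4 : (((cM * K ^ (2 / 3 : ℝ) : ℝ) : ℂ) * mellin F ((2 / 3 : ℝ) : ℂ)) *
      ((((nm x.2 : ℝ) ^ (-(1 : ℝ) / 3) : ℝ) : ℂ) * (((PE x.1 : ℝ) : ℂ) *
        ∑ m₁ ∈ S Y, ∑ m₂ ∈ S Y, ((PE (m₁ * m₂) : ℝ) : ℂ) *
          (aj α x.1 x.2 m₁ * conj (aj α x.1 x.2 m₂)))) =
      (((cM * K ^ (2 / 3 : ℝ) * n13 x.2 * PE x.1 : ℝ) : ℂ) * mellin F ((2 / 3 : ℝ) : ℂ)) *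
        ∑ t ∈ S Y, ∑ t' ∈ S Y, ((mu t : ℂ) * (mu t' : ℂ) * (T t' * conj (T t))) *
        ((nm (lc t t') : ℝ) : ℂ)⁻¹ := by
      rw [e3]
      unfold X6C180.n13
      push_cast
      ring
    rw [e4, ← mul_sub, norm_mul, norm_mul, Complex.norm_real]
    have hP1 : PE x.1 ≤ 1 := Mob705.PE_le_one x.1
    have hP0 := PE_pos x.1
    have hn : 0 ≤ n13 x.2 := X6C180.n13_nonneg _
    rw [Real.norm_of_nonneg (by positivity)]
    have h3 := half_tail hE hEY T hl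
    set I := ‖mellin F ((2 / 3 : ℝ) : ℂ)‖ with hI
    have hI0 : 0 ≤ I := norm_nonneg _
    set s1 := ∑ t ∈ S Y, (tau t : ℝ) / nm t * out E₀ (fun t => ‖T t‖) t ^ 2 with hs1
    set s2 := ∑ t ∈ S Y, (tau t : ℝ) / nm t * ‖T t‖ ^ 2 with hs2
    have hs10 : 0 ≤ s1 := Finset.sum_nonneg fun t _ =>
      mul_nonneg (div_nonneg (Nat.cast_nonneg _) (Nat.cast_nonneg _)) (sq_nonneg _)
    have hs20 : 0 ≤ s2 := Finset.sum_nonneg fun t _ =>
      mul_nonneg (div_nonneg (Nat.cast_nonneg _) (Nat.cast_nonneg _)) (sq_nonneg _)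
    have e5 : M2o E₀ Y α x = n13 x.2 * s1 := rfl
    have e6 : M2 Y α x = n13 x.2 * s2 := rfl
    rw [e5, e6]
    have hl' : 0 < lam⁻¹ := inv_pos.mpr hl
    have a1 : lam / 2 * s1 ≤ lam * s1 := mul_le_mul_of_nonneg_right (by linarith) hs10
    have a2 : lam⁻¹ / 2 * s2 ≤ lam⁻¹ * s2 := mul_le_mul_of_nonneg_right (by linarith) hs20
    have h5 := h3.trans (mul_le_mul_of_nonneg_left (add_le_add a1 a2) hHS)
    have h6 := arith_one (c := cM * K ^ (2 / 3 : ℝ)) (by positivity) hn hP0.le hP1 hI0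
      (norm_nonneg _) h5
    refine h6.trans (le_of_eq ?_)
    ring
  · have hz : aj α x.1 x.2 = fun _ => 0 := by
      funext m
      by_contra h
      exact hc (aj_supp hY hα hδ h).2.2.2
    have hT0 : ∀ e, TE α x e = 0 := by
      intro e
      rw [TE_eq_TT hY hα hδ, hz]
      unfold DgB829.TT
      simp
    have e3 : ∑ e ∈ S E₀, (mu e : ℂ) * conj (TE α x e) * MX α x e F K = 0 :=
      Finset.sum_eq_zero fun e _ => by rw [hT0]; simp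
    rw [e3, hz]
    simp only [map_zero, mul_zero, Finset.sum_const_zero, sub_zero, norm_zero]
    positivity

/-- **the main term of the cross form** -/
theorem E2main {α : Eis → ℂ} (hs : ∀ n, α n ≠ 0 → Squarefree n) {E₀ Y : ℝ} (hE : 0 ≤ E₀)
    (hEY : E₀ ≤ Y) (hα : Sup α Y) {J : Finset (Eis × Eis)} (hJ : OKJ J) (om : Eis × Eis → ℂ)
    (F : ℝ → ℂ) {K : ℝ} (hK : 0 < K) {lam : ℝ} (hl : 0 < lam) :
    ‖∑ x ∈ J, ∑ e ∈ S E₀, conj (om x) * ((mu e : ℂ) * conj (TE α x e) * MX α x e F K) -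
      (((cM * K ^ (2 / 3 : ℝ) : ℝ) : ℂ) * mellin F ((2 / 3 : ℝ) : ℂ)) *
        XJl J (fun x => conj (om x)) α‖ ≤
      (cM * K ^ (2 / 3 : ℝ)) * ‖mellin F ((2 / 3 : ℝ) : ℂ)‖ *
        (HS Y * (lam * ∑ x ∈ J, ‖om x‖ * M2o E₀ Y α x +
          lam⁻¹ * ∑ x ∈ J, ‖om x‖ * M2 Y α x)) := by
  unfold XJl
  rw [Finset.mul_sum, ← Finset.sum_sub_distrib]
  refine (norm_sum_le _ _).trans ?_
  have e1 : (cM * K ^ (2 / 3 : ℝ)) * ‖mellin F ((2 / 3 : ℝ) : ℂ)‖ *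
        (HS Y * (lam * ∑ x ∈ J, ‖om x‖ * M2o E₀ Y α x +
          lam⁻¹ * ∑ x ∈ J, ‖om x‖ * M2 Y α x)) =
      ∑ x ∈ J, ‖om x‖ * ((cM * K ^ (2 / 3 : ℝ)) * ‖mellin F ((2 / 3 : ℝ) : ℂ)‖ *
        (HS Y * (lam * M2o E₀ Y α x + lam⁻¹ * M2 Y α x))) := by
    rw [Finset.mul_sum, Finset.mul_sum, ← Finset.sum_add_distrib, Finset.mul_sum,
      Finset.mul_sum]
    exact Finset.sum_congr rfl fun x _ => by ring
  rw [e1]
  refine Finset.sum_le_sum fun x hx => ?_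
  have h1 := main_one hs hE hEY hα (hJ.prim x hx) F hK hl
  rw [← Finset.mul_sum]
  set W := ∑ e ∈ S E₀, (mu e : ℂ) * conj (TE α x e) * MX α x e F K
  calc _ = ‖conj (om x) * (W - (((cM * K ^ (2 / 3 : ℝ) : ℝ) : ℂ) *
      mellin F ((2 / 3 : ℝ) : ℂ)) *
      ((((nm x.2 : ℝ) ^ (-(1 : ℝ) / 3) : ℝ) : ℂ) *
    ∑' m₁ : Eis, ∑' m₂ : Eis, if IsCoprime x.2 (x.1 * m₁ * m₂) then
      ((PE (x.1 * m₁ * m₂) : ℝ) : ℂ) * (α (x.1 * m₁) * ((n6 m₁ : ℂ) * Gh x.2 m₁)) *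
        conj (α (x.1 * m₂) * ((n6 m₂ : ℂ) * Gh x.2 m₂)) else 0))‖ := by
        congr 1
        ring
    _ = ‖om x‖ * ‖W - _‖ := by rw [norm_mul, RCLike.norm_conj]
    _ ≤ _ := mul_le_mul_of_nonneg_left h1 (norm_nonneg _)

end Crest.Agent.R017.E2440
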