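import Crest.Agent.R017.E2u_440
import Crest.Agent.R017.E2x_440

/-!
# Row 17, block C70, leaf E2, part v (helper440): the compensated weight in the cross form

* `bs_GF`, `bs_Fh` : bounded support
* `mellin_Fh`, `MX_Fh`, `Mn_Fh` : the main terms
* `VX_Fh`, `cross_Fh` : the two scales
-/

set_option autoImplicit false
set_option linter.unusedVariables false
set_option linter.unusedSectionVars false

noncomputable section

open Complex MeasureTheory
open scoped ComplexConjugate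

namespace Crest.Agent.R017.E2440

open Crest.Agent.R012 Crest.Agent.R012.Eis Crest.Agent.R012.GaussLoc283
open Crest.Agent.R012.Mob705 hiding pb mem_pb
open Crest.Agent.R012.Div277
open Crest.Agent.R012.LS2 (S mem_S)
open Crest.Agent.R017.PX764 (th Gh n6 cD)
open Crest.Agent.R017.F1
open Crest.Agent.R017.X6C180 (Sg fA WF V1 cM n13 IX dl' om' GF)
open Crest.Agent.R017.X6545 (TF Bd)
open Crest.Agent.R017.X6W180 (TF1 tf1_tf)
open Crest.Agent.R017.CM106 (sub CS FS)

lemma bs_wt {G : ℝ → ℂ} (hG : M49.Wt G) : ∃ B : ℝ, ∀ x, G x ≠ 0 → x ≤ B := by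
  obtain ⟨a, b, -, -, hs⟩ := hG.supp
  refine ⟨b, fun x hx => ?_⟩
  by_contra h
  exact hx (hs x (Or.inr (not_le.mp h)))

lemma bs_GF {F : ℝ → ℂ} (hF : TF F) : ∃ B : ℝ, ∀ x, GF F x ≠ 0 → x ≤ B := bs_wt (X6C180.wt_GF hF)

lemma bs_Fh {F : ℝ → ℂ} (hF : TF F) {h : ℝ} (hh : 0 ≤ h) :
    ∃ B : ℝ, ∀ x, GF (Fh F h) x ≠ 0 → x ≤ B := by
  rw [GF_Fh]
  exact bs_wt (wt_G2 hF hh)

/-- the two scales, pointwise -/
lemma GF_split (F : ℝ → ℂ) (h : ℝ) (x : ℝ) : GF F x =
    GF (Fh F h) x + ((Real.exp (h / 3) : ℝ) : ℂ) * GF F (x * Real.exp h) := by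
  rw [GF_Fh]
  unfold G2
  ring

lemma scale_arg (h K x : ℝ) : x / K * Real.exp h = x / (K * Real.exp (-h)) := by
  rw [Real.exp_neg, div_mul_eq_mul_div, div_mul_eq_div_div_swap, div_inv_eq_mul]

lemma mellin_conv {G : ℝ → ℂ} (hG : M49.Wt G) (s : ℂ) : MellinConvergent G s := by
  obtain ⟨a, b, ha, hab, hs⟩ := hG.supp
  unfold MellinConvergent
  have h1 : IntegrableOn (fun t : ℝ => (t : ℂ) ^ (s - 1) • G t) (Set.Icc a b) := by
    simp only [smul_eq_mul]
    refine ContinuousOn.integrableOn_Icc ?_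
    refine ContinuousOn.mul ?_ hG.smooth.continuous.continuousOn
    refine ContinuousOn.cpow Complex.continuous_ofReal.continuousOn continuousOn_const ?_
    intro x hx
    exact Complex.ofReal_mem_slitPlane.mpr (ha.trans_le hx.1)
  have h2 : IntegrableOn (fun t : ℝ => (t : ℂ) ^ (s - 1) • G t) (Set.Ioi 0 \ Set.Icc a b) := by
    refine IntegrableOn.congr_fun (f := fun _ => (0 : ℂ)) integrableOn_zero ?_
      (measurableSet_Ioi.diff measurableSet_Icc)
    intro x hx
    have hx' : x < a ∨ b < x := by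
      by_contra hc
      push Not at hc
      exact hx.2 ⟨hc.1, hc.2⟩
    simp only
    rw [hs x hx', smul_zero]
  refine (h1.union h2).mono_set ?_
  intro x hx
  by_cases hxi : x ∈ Set.Icc a b
  · exact Or.inl hxi
  · exact Or.inr ⟨hx, hxi⟩

/-- the Mellin transform of the compensated weight at `2/3` -/
lemma mellin_Fh {F : ℝ → ℂ} (hF : TF F) (h : ℝ) : mellin (GF (Fh F h)) ((2 / 3 : ℝ) : ℂ) =
    ((1 - Real.exp (-(h / 3)) : ℝ) : ℂ) * mellin (GF F) ((2 / 3 : ℝ) : ℂ) := by
  have hG := X6C180.wt_GF hF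
  have hc : MellinConvergent (GF F) ((2 / 3 : ℝ) : ℂ) := mellin_conv hG _
  have hpos := Real.exp_pos h
  have hc2 : MellinConvergent (fun x => GF F (x * Real.exp h)) ((2 / 3 : ℝ) : ℂ) := by
    have := (MellinConvergent.comp_mul_left (f := GF F) (s := ((2 / 3 : ℝ) : ℂ)) hpos).mpr hc
    simpa [mul_comm] using this
  have e1 : mellin (fun x => GF F (x * Real.exp h)) ((2 / 3 : ℝ) : ℂ) =
      ((Real.exp (-(2 * h / 3)) : ℝ) : ℂ) * mellin (GF F) ((2 / 3 : ℝ) : ℂ) := by
    have h1 := mellin_comp_mul_left (GF F) ((2 / 3 : ℝ) : ℂ) hpos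
    have h2 : (fun x => GF F (x * Real.exp h)) = fun x => GF F (Real.exp h * x) := by
      funext x; rw [mul_comm]
    rw [h2, h1, smul_eq_mul]
    congr 1
    rw [← Complex.ofReal_neg, ← Complex.ofReal_cpow hpos.le, ← Real.exp_mul]
    congr 2
    ring
  have e2 : GF (Fh F h) = fun x => GF F x +
      (-((Real.exp (h / 3) : ℝ) : ℂ)) • GF F (x * Real.exp h) := by
    rw [GF_Fh]
    funext x
    unfold G2
    rw [smul_eq_mul]
  rw [e2]
  have h3 : HasMellin (fun x => GF F x + (-((Real.exp (h / 3) : ℝ) : ℂ)) • GF F (x * Real.exp h))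
      ((2 / 3 : ℝ) : ℂ) (mellin (GF F) ((2 / 3 : ℝ) : ℂ) +
        mellin (fun x => (-((Real.exp (h / 3) : ℝ) : ℂ)) • GF F (x * Real.exp h))
          ((2 / 3 : ℝ) : ℂ)) := hasMellin_add hc (hc2.const_smul _)
  rw [h3.2, mellin_const_smul, e1, smul_eq_mul]
  have e3 : Real.exp (h / 3) * Real.exp (-(2 * h / 3)) = Real.exp (-(h / 3)) := by
    rw [← Real.exp_add]; congr 1; ring
  rw [← e3]
  push_cast
  ring

lemma MX_Fh (α : Eis → ℂ) (x : Eis × Eis) (e : Eis) {F : ℝ → ℂ} (hF : TF F) (h K : ℝ) :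
    MX α x e (GF (Fh F h)) K = ((1 - Real.exp (-(h / 3)) : ℝ) : ℂ) * MX α x e (GF F) K := by
  unfold MX
  rw [mellin_Fh hF h]
  ring

lemma Mn_Fh (α : Eis → ℂ) (σ E r ν : Eis) {F : ℝ → ℂ} (hF : TF F) (h A : ℝ) :
    Mn α σ E r ν (GF (Fh F h)) A = ((1 - Real.exp (-(h / 3)) : ℝ) : ℂ) *
      Mn α σ E r ν (GF F) A := by
  unfold Mn
  split_ifs
  · rw [mellin_Fh hF h]
    ring
  · rw [mul_zero]

/-- the two scales of `VX` -/
lemma VX_Fh (α : Eis → ℂ) (x : Eis × Eis) {e : Eis} (he : e ≠ 0) {F : ℝ → ℂ} (hF : TF F) {h K : ℝ}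
    (hh : 0 ≤ h) (hK : 0 < K) :
    VX α x e (GF F) K = VX α x e (GF (Fh F h)) K +
      ((Real.exp (h / 3) : ℝ) : ℂ) * VX α x e (GF F) (K * Real.exp (-h)) := by
  classical
  have hK' : 0 < K * Real.exp (-h) := by positivity
  have s1 : Summable fun k : Eis => if IsPrim k then th (x.2 * (e * k)) * (conj (sy (e * k) x.1) *
      CS α (e * k)) * GF (Fh F h) ((nm (e * k) : ℝ) / K) else 0 := by
    refine summable_of_hasFiniteSupport ((fin_wt (bs_Fh hF hh) hK he (fun k => if IsPrim k then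
      th (x.2 * (e * k)) * (conj (sy (e * k) x.1) * CS α (e * k)) else 0)).subset fun k hk => ?_)
    rw [Function.mem_support] at hk ⊢
    intro h0
    apply hk
    rw [← h0]
    split_ifs <;> ring
  have s2 : Summable fun k : Eis => if IsPrim k then th (x.2 * (e * k)) * (conj (sy (e * k) x.1) *
      CS α (e * k)) * GF F ((nm (e * k) : ℝ) / (K * Real.exp (-h))) else 0 := by
    refine summable_of_hasFiniteSupport ((fin_wt (bs_GF hF) hK' he (fun k => if IsPrim k then
      th (x.2 * (e * k)) * (conj (sy (e * k) x.1) * CS α (e * k)) else 0)).subset fun k hk => ?_)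
    rw [Function.mem_support] at hk ⊢
    intro h0
    apply hk
    rw [← h0]
    split_ifs <;> ring
  unfold VX
  rw [← tsum_mul_left, ← s1.tsum_add (s2.mul_left _)]
  refine tsum_congr fun k => ?_
  split_ifs
  · rw [GF_split F h ((nm (e * k) : ℝ) / K), scale_arg]
    ring
  · ring

open Classical in
/-- the two scales of a weighted `k`-sum -/
lemma cross_Fh (g : Eis → ℂ) {F : ℝ → ℂ} (hF : TF F) {h K : ℝ} (hh : 0 ≤ h) (hK : 0 < K) :
    (∑' k : Eis, if IsPrim k then GF F ((nm k : ℝ) / K) * g k else 0) =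
      (∑' k : Eis, if IsPrim k then GF (Fh F h) ((nm k : ℝ) / K) * g k else 0) +
      ((Real.exp (h / 3) : ℝ) : ℂ) *
        ∑' k : Eis, (if IsPrim k then GF F ((nm k : ℝ) / (K * Real.exp (-h))) * g k else 0) := by
  have hK' : 0 < K * Real.exp (-h) := by positivity
  have s1 : Summable fun k : Eis => if IsPrim k then GF (Fh F h) ((nm k : ℝ) / K) * g k else 0 := by
    refine summable_of_hasFiniteSupport ((fin_wt (bs_Fh hF hh) hK (one_ne_zero : (1 : Eis) ≠ 0)
      (fun k => if IsPrim k then g k else 0)).subset fun k hk => ?_)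
    rw [Function.mem_support] at hk ⊢
    intro h0
    apply hk
    rw [one_mul] at h0
    rw [← h0]
    split_ifs <;> ring
  have s2 : Summable fun k : Eis => if IsPrim k then
      GF F ((nm k : ℝ) / (K * Real.exp (-h))) * g k else 0 := by
    refine summable_of_hasFiniteSupport ((fin_wt (bs_GF hF) hK' (one_ne_zero : (1 : Eis) ≠ 0)
      (fun k => if IsPrim k then g k else 0)).subset fun k hk => ?_)
    rw [Function.mem_support] at hk ⊢
    intro h0
    apply hk
    rw [one_mul] at h0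
    rw [← h0]
    split_ifs <;> ring
  rw [← tsum_mul_left, ← s1.tsum_add (s2.mul_left _)]
  refine tsum_congr fun k => ?_
  split_ifs
  · rw [GF_split F h ((nm k : ℝ) / K), scale_arg]
    ring
  · ring

end Crest.Agent.R017.E2440
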