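import Crest.Agent.R017.E1za_551

/-!
# Row 17, block C70 (exact square), leaf E1, part zb (helper551): the errors as sums over pairs
`(h, U)` and cube-free frequencies `κ U` (leaf EPJ)

The class `j` at `G` is the cube-free class `tau j G = κ U` with `G = e U`, `j = κ e²`,
`h = e δ`: the errors `EG` are sums over `(h, U) ≠ (1, 1)` and `κ`, `N(κ) ≤ Y₁ / N(h)²`, of
`N(h) N(U) min(1, λ(κ U)) Wb (sg α (h U)) (κ U)`.

* `UJ`, `UL`, `EPJ`
-/

set_option autoImplicit false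

noncomputable section

open Complex MeasureTheory
open scoped ComplexConjugate Classical

namespace Crest.Agent.R017.E1551

open Crest.Agent.R012 Crest.Agent.R012.Eis Crest.Agent.R012.MC
open Crest.Agent.R012.LS2 (S mem_S)
open Crest.Agent.R012.Mob705 (pdiv PE)
open Crest.Agent.R012.Weight600 (pw)
open Crest.Agent.R017.CM106 (CS TG)
open Crest.Agent.R017.Dual2813 (S_of_dvd)

/-- the classes `κ` with `κ U` cube-free -/
def BU (Z : ℝ) (U : Eis) : Finset Eis := (BF Z).filter (fun κ => CF (κ * U))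

lemma mem_BU {Z : ℝ} {U κ : Eis} : κ ∈ BU Z U ↔ (CF κ ∧ (nm κ : ℝ) ≤ Z) ∧ CF (κ * U) := by
  unfold BU
  rw [Finset.mem_filter, mem_BF]

lemma BU_mono {Z Z' : ℝ} (h : Z ≤ Z') (U : Eis) : BU Z U ⊆ BU Z' U := by
  intro κ hκ
  rw [mem_BU] at hκ ⊢
  exact ⟨⟨hκ.1.1, hκ.1.2.trans h⟩, hκ.2⟩

/-- the finite errors of `(h, U)` -/
def UJ (A K X Z : ℝ) (α : Eis → ℂ) (h U : Eis) : ℝ :=
  ∑ κ ∈ BU (Z / (nm h : ℝ) ^ 2) U,
    min 1 (lm K (X / nm (h * U)) 1 (κ * U)) * Wb A (sg α (h * U)) (κ * U)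

/-- the low tails of `(h, U)` -/
def UL (A K X Z : ℝ) (α : Eis → ℂ) (h U : Eis) : ℝ :=
  ∑ κ ∈ BU (Z / (nm h : ℝ) ^ 2) U,
    lm K (X / nm (h * U)) 1 (κ * U) * Wb A (sg α (h * U)) (κ * U)

lemma UJ_nonneg {A K X Z : ℝ} (hK : 0 ≤ K) (hX : 0 ≤ X) (α : Eis → ℂ) (h U : Eis) :
    0 ≤ UJ A K X Z α h U :=
  Finset.sum_nonneg fun _ _ => mul_nonneg (le_min zero_le_one
    (lm_nonneg hK (div_nonneg hX (Nat.cast_nonneg _)) _ _)) (Wb_nonneg _ _ _)

lemma UL_nonneg {A K X Z : ℝ} (hK : 0 ≤ K) (hX : 0 ≤ X) (α : Eis → ℂ) (h U : Eis) :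
    0 ≤ UL A K X Z α h U :=
  Finset.sum_nonneg fun _ _ => mul_nonneg
    (lm_nonneg hK (div_nonneg hX (Nat.cast_nonneg _)) _ _) (Wb_nonneg _ _ _)

lemma UJ_mono {A K X Z Z' : ℝ} (hK : 0 ≤ K) (hX : 0 ≤ X) (hZ : Z ≤ Z') (α : Eis → ℂ)
    (h U : Eis) : UJ A K X Z α h U ≤ UJ A K X Z' α h U := by
  unfold UJ
  refine Finset.sum_le_sum_of_subset_of_nonneg (BU_mono (by gcongr) _) fun _ _ _ =>
    mul_nonneg (le_min zero_le_one
      (lm_nonneg hK (div_nonneg hX (Nat.cast_nonneg _)) _ _)) (Wb_nonneg _ _ _)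

lemma Wb_sg_zero {A : ℝ} {α : Eis → ℂ} {g : Eis} (h : ∀ m, α (g * m) = 0) (r : Eis) :
    Wb A (sg α g) r = 0 := by
  unfold Wb Vt TG sg
  simp [h]

lemma UJ_zero {A K X Z : ℝ} {α : Eis → ℂ} {h U : Eis} (h0 : ∀ m, α (h * (U * m)) = 0) :
    UJ A K X Z α h U = 0 := by
  unfold UJ
  have : ∀ m, α (h * U * m) = 0 := fun m => by rw [mul_assoc]; exact h0 m
  simp only [Wb_sg_zero this, mul_zero, Finset.sum_const_zero]

lemma UL_zero {A K X Z : ℝ} {α : Eis → ℂ} {h U : Eis} (h0 : ∀ m, α (h * (U * m)) = 0) :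
    UL A K X Z α h U = 0 := by
  unfold UL
  have : ∀ m, α (h * U * m) = 0 := fun m => by rw [mul_assoc]; exact h0 m
  simp only [Wb_sg_zero this, mul_zero, Finset.sum_const_zero]

/-! ### the classes at `G` -/

/-- regrouping of a finite sum over classes at `G`: `G = e U`, `j = κ e²`, `tau j G = κ U` -/
lemma tau_sum_le {Y Z : ℝ} (hY : 0 ≤ Y) {G : Eis} (hG : G ∈ S Y)
    {f : Eis → ℝ} {F : Eis → Eis → Eis → ℝ} (hF : ∀ e U κ, 0 ≤ F e U κ)
    (h : ∀ j κ, CF j → j = κ * g2 j G ^ 2 → tau j G = κ * g1 j G →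
      f j ≤ F (g2 j G) (g1 j G) κ) :
    ∑ j ∈ BF Z, f j ≤ ∑ e ∈ S Y, ∑ U ∈ S Y,
      if e * U = G then ∑ κ ∈ BU (Z / (nm e : ℝ) ^ 2) U, F e U κ else 0 := by
  have hGS := (mem_S hY).1 hG
  have hG0 := hGS.2.1.ne_zero
  have hsq : Squarefree G := hGS.2.2
  have hgS : ∀ j ∈ BF Z, g2 j G ∈ S Y := fun j _ =>
    S_of_dvd hY hG (g2_prim j G) (g2_dvd_self hGS.2.1 hsq)
  rw [← Finset.sum_fiberwise_of_maps_to (t := S Y) (g := fun j => g2 j G) hgS]
  refine Finset.sum_le_sum fun e he => ?_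
  have he' := (mem_S hY).1 he
  have he0 := he'.2.1.ne_zero
  have hnn : ∀ U ∈ S Y, 0 ≤ (if e * U = G then
      ∑ κ ∈ BU (Z / (nm e : ℝ) ^ 2) U, F e U κ else 0) := by
    intro U _
    split_ifs
    · exact Finset.sum_nonneg fun _ _ => hF _ _ _
    · exact le_rfl
  by_cases hed : e ∣ G
  · obtain ⟨U, hU⟩ := hed
    have hUp : IsPrim U := IsPrim.of_mul_left (by rw [← hU]; exact hGS.2.1) he'.2.1
    have hUS : U ∈ S Y := S_of_dvd hY hG hUp (by rw [hU]; exact dvd_mul_left _ _)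
    refine le_trans ?_ (Finset.single_le_sum hnn hUS)
    rw [if_pos hU.symm]
    have hg1 : ∀ j ∈ (BF Z).filter (fun j => g2 j G = e), g1 j G = U := by
      intro j hj
      have h2 := (Finset.mem_filter.mp hj).2
      have h3 := g1_mul_g2 (κ := j) hGS.2.1 hsq
      rw [h2] at h3
      apply mul_right_cancel₀ he0
      rw [h3, hU, mul_comm]
    have hdiv : ∀ j ∈ (BF Z).filter (fun j => g2 j G = e), j = (j / e ^ 2) * e ^ 2 := by
      intro j hj
      have h2 := (Finset.mem_filter.mp hj).2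
      have h3 := div_mul_g2 j G
      rw [h2] at h3
      exact h3.symm
    have htau : ∀ j ∈ (BF Z).filter (fun j => g2 j G = e), tau j G = (j / e ^ 2) * U := by
      intro j hj
      have h2 := (Finset.mem_filter.mp hj).2
      unfold tau
      rw [h2, hg1 j hj]
    have hle : ∑ j ∈ (BF Z).filter (fun j => g2 j G = e), f j ≤
        ∑ j ∈ (BF Z).filter (fun j => g2 j G = e), F e U (j / e ^ 2) := by
      refine Finset.sum_le_sum fun j hj => ?_
      have h2 := (Finset.mem_filter.mp hj).2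
      have hcf := (mem_BF.mp (Finset.mem_filter.mp hj).1).1
      have := h j (j / e ^ 2) hcf (by rw [h2]; exact hdiv j hj)
        (by rw [hg1 j hj]; exact htau j hj)
      rwa [h2, hg1 j hj] at this
    refine hle.trans ?_
    have hinj : Set.InjOn (fun j => j / e ^ 2)
        ((BF Z).filter (fun j => g2 j G = e) : Set Eis) := by
      intro j hj j' hj' hj3
      have e1 := hdiv j hj
      have e2 := hdiv j' hj'
      simp only at hj3
      rw [e1, e2, hj3]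
    rw [← Finset.sum_image (f := fun κ => F e U κ) (g := fun j => j / e ^ 2) hinj]
    refine Finset.sum_le_sum_of_subset_of_nonneg ?_ fun _ _ _ => hF _ _ _
    intro κ hκ
    obtain ⟨j, hj, rfl⟩ := Finset.mem_image.mp hκ
    obtain ⟨hcf, hle2⟩ := mem_BF.mp (Finset.mem_filter.mp hj).1
    have e1 := hdiv j hj
    have hcf2 : CF (j / e ^ 2) := by
      have : CF (e ^ 2 * (j / e ^ 2)) := by rw [mul_comm, ← e1]; exact hcf
      exact cf_of_mul this
    refine mem_BU.mpr ⟨⟨hcf2, ?_⟩, ?_⟩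
    · have h4 := congrArg nm e1
      rw [nm_mul, nm_pow] at h4
      have h5 : (nm j : ℝ) = nm (j / e ^ 2) * (nm e : ℝ) ^ 2 := by exact_mod_cast h4
      have he1 := nmpos he0
      show (nm (j / e ^ 2) : ℝ) ≤ _
      rw [le_div_iff₀ (by positivity), ← h5]
      exact hle2
    · show CF (j / e ^ 2 * U)
      rw [← htau j hj]
      exact cf_tau hcf
  · have : (BF Z).filter (fun j => g2 j G = e) = ∅ := by
      rw [Finset.filter_eq_empty_iff]
      intro j hj hj2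
      exact hed (by rw [← hj2]; exact g2_dvd_self hGS.2.1 hsq)
    rw [this, Finset.sum_empty]
    exact Finset.sum_nonneg hnn

/-- the errors of `(δ, G)` in cube-free frequencies -/
lemma WJ_le_UJ {A K X Y Z : ℝ} (hK : 0 < K) (hX : 0 < X) (hY : 0 ≤ Y) {α : Eis → ℂ}
    (hα : ∀ n, α n ≠ 0 → n ∈ S Y) {δ G : Eis} (hδ : δ ∈ S Y) (hG : G ∈ S Y) :
    nm δ * WJ A K X Z α δ G ≤ ∑ e ∈ S Y, ∑ U ∈ S Y, if e * U = G then
      nm U * (nm (e * δ) * UJ A K X Z α (e * δ) U) else 0 := by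
  have hδS := (mem_S hY).1 hδ
  have hGS := (mem_S hY).1 hG
  have hδ1 := nmpos hδS.2.1.ne_zero
  have h0 := tau_sum_le (Z := Z / (nm δ : ℝ) ^ 2) hY hG
    (f := fun j => nm δ * (min (nm G : ℝ) (lm K X δ j) * Wf A α δ j G))
    (F := fun e U κ => nm U * (nm (e * δ) * (min 1 (lm K (X / nm (e * δ * U)) 1 (κ * U)) *
      Wb A (sg α (e * δ * U)) (κ * U))))
    (fun e U κ => mul_nonneg (Nat.cast_nonneg _) (mul_nonneg (Nat.cast_nonneg _)
      (mul_nonneg (le_min zero_le_one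
      (lm_nonneg hK.le (div_nonneg hX.le (Nat.cast_nonneg _)) _ _)) (Wb_nonneg _ _ _))))
    (fun j κ hj h1 h2 => by
      have e1 := Wf_eq_Wb (A := A) hY hα hδS.2.1 hGS.2.1 hGS.2.2 j
      have e2 := lm_tau hK hX hδS.2.1.ne_zero hj.1 hGS.2.1 hGS.2.2
      have e3 := g1_mul_g2 (κ := j) hGS.2.1 hGS.2.2
      have e4 : g2 j G * δ * g1 j G = δ * G := by
        conv_rhs => rw [← e3]
        ring
      rw [e1, e2, e4, h2]
      have hW := Wb_nonneg A (sg α (δ * G)) (κ * g1 j G)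
      have hl0 : 0 ≤ lm K (X / nm (δ * G)) 1 (κ * g1 j G) :=
        lm_nonneg hK.le (div_nonneg hX.le (Nat.cast_nonneg _)) _ _
      generalize lm K (X / nm (δ * G)) 1 (κ * g1 j G) = l at *
      generalize Wb A (sg α (δ * G)) (κ * g1 j G) = W at *
      have e5 : (nm G : ℝ) = nm (g1 j G) * nm (g2 j G) := by
        rw [← Nat.cast_mul, ← nm_mul, e3]
      have hb1 := nm_ge_one (g2_prim j G).ne_zero
      have ha1 := nm_ge_one (g1_prim j G).ne_zero
      rw [e5, nm_mul]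
      push_cast
      generalize (nm (g1 j G) : ℝ) = a at *
      generalize (nm (g2 j G) : ℝ) = b at *
      generalize (nm δ : ℝ) = v at *
      have h3 : min (a * b) (a * l) ≤ a * (b * min 1 l) := by
        have h4 : min (a * b) (a * l) = a * min b l := by
          rw [mul_min_of_nonneg _ _ (by linarith)]
        rw [h4]
        refine mul_le_mul_of_nonneg_left ?_ (by linarith)
        rw [mul_min_of_nonneg _ _ (by linarith), mul_one]
        exact min_le_min le_rfl (le_mul_of_one_le_left hl0 hb1)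
      calc v * (min (a * b) (a * l) * W) ≤ v * ((a * (b * min 1 l)) * W) := by gcongr
        _ = a * (b * v * (min 1 l * W)) := by ring)
  rw [WJ, Finset.mul_sum]
  refine h0.trans (le_of_eq ?_)
  refine Finset.sum_congr rfl fun e he => Finset.sum_congr rfl fun U _ => ?_
  have he0 := nmpos ((mem_S hY).1 he).2.1.ne_zero
  split_ifs
  · unfold UJ
    rw [Finset.mul_sum, Finset.mul_sum]
    refine Finset.sum_congr ?_ fun _ _ => rfl
    congr 1
    rw [nm_mul]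
    push_cast
    rw [div_div]
    congr 1
    ring
  · rfl

lemma LJ_le_UL {A K X Y Z : ℝ} (hK : 0 < K) (hX : 0 < X) (hY : 0 ≤ Y) {α : Eis → ℂ}
    (hα : ∀ n, α n ≠ 0 → n ∈ S Y) {δ G : Eis} (hδ : δ ∈ S Y) (hG : G ∈ S Y) :
    nm δ * LJ A K X Z α δ G ≤ ∑ e ∈ S Y, ∑ U ∈ S Y, if e * U = G then
      nm U * (nm (e * δ) * UL A K X Z α (e * δ) U) else 0 := by
  have hδS := (mem_S hY).1 hδ
  have hGS := (mem_S hY).1 hG
  have hδ1 := nmpos hδS.2.1.ne_zero
  have h0 := tau_sum_le (Z := Z / (nm δ : ℝ) ^ 2) hY hG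
    (f := fun j => nm δ * (lm K X δ j * Wf A α δ j G))
    (F := fun e U κ => nm U * (nm (e * δ) * (lm K (X / nm (e * δ * U)) 1 (κ * U) *
      Wb A (sg α (e * δ * U)) (κ * U))))
    (fun e U κ => mul_nonneg (Nat.cast_nonneg _) (mul_nonneg (Nat.cast_nonneg _)
      (mul_nonneg
      (lm_nonneg hK.le (div_nonneg hX.le (Nat.cast_nonneg _)) _ _) (Wb_nonneg _ _ _))))
    (fun j κ hj h1 h2 => by
      have e1 := Wf_eq_Wb (A := A) hY hα hδS.2.1 hGS.2.1 hGS.2.2 j
      have e2 := lm_tau hK hX hδS.2.1.ne_zero hj.1 hGS.2.1 hGS.2.2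
      have e3 := g1_mul_g2 (κ := j) hGS.2.1 hGS.2.2
      have e4 : g2 j G * δ * g1 j G = δ * G := by
        conv_rhs => rw [← e3]
        ring
      rw [e1, e2, e4, h2]
      have hW := Wb_nonneg A (sg α (δ * G)) (κ * g1 j G)
      have hl0 : 0 ≤ lm K (X / nm (δ * G)) 1 (κ * g1 j G) :=
        lm_nonneg hK.le (div_nonneg hX.le (Nat.cast_nonneg _)) _ _
      generalize lm K (X / nm (δ * G)) 1 (κ * g1 j G) = l at *
      generalize Wb A (sg α (δ * G)) (κ * g1 j G) = W at *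
      have hb1 := nm_ge_one (g2_prim j G).ne_zero
      have ha1 := nm_ge_one (g1_prim j G).ne_zero
      rw [nm_mul]
      push_cast
      generalize (nm (g1 j G) : ℝ) = a at *
      generalize (nm (g2 j G) : ℝ) = b at *
      generalize (nm δ : ℝ) = v at *
      have ha0 : 0 ≤ a := by linarith
      have h5 : 0 ≤ a * (v * (l * W)) := by positivity
      calc v * (a * l * W) = 1 * (a * (v * (l * W))) := by ring
        _ ≤ b * (a * (v * (l * W))) := mul_le_mul_of_nonneg_right hb1 h5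
        _ = a * (b * v * (l * W)) := by ring)
  rw [LJ, Finset.mul_sum]
  refine h0.trans (le_of_eq ?_)
  refine Finset.sum_congr rfl fun e he => Finset.sum_congr rfl fun U _ => ?_
  have he0 := nmpos ((mem_S hY).1 he).2.1.ne_zero
  split_ifs
  · unfold UL
    rw [Finset.mul_sum, Finset.mul_sum]
    refine Finset.sum_congr ?_ fun _ _ => rfl
    congr 1
    rw [nm_mul]
    push_cast
    rw [div_div]
    congr 1
    ring
  · rfl

/-- the errors of all `(h, U) ≠ (1, 1)`, cube-free frequencies -/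
def EU (A K X Y Y₀ Y₁ : ℝ) (α : Eis → ℂ) : ℝ :=
  ∑ p ∈ (S Y ×ˢ S Y).erase (1, 1),
    ((Div277.tau p.1 : ℝ) ^ 7 * (Div277.tau p.2 : ℝ) ^ 4) * ((nm p.1 * nm p.2) *
      (UJ A K X Y₁ α p.1 p.2 + UL A K X Y₀ α p.1 p.2))

lemma tau_ge_one {n : Eis} (hn : n ≠ 0) : (1 : ℝ) ≤ Div277.tau n := by
  have h1 : (Div277.tau 1 : ℝ) ≤ Div277.tau n := by
    exact_mod_cast Div277.tau_le_of_dvd hn (one_dvd n)
  rwa [tau_one551] at h1

/-- **leaf EPJ**: all errors, cube-free frequencies `κ U` -/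
theorem EPJ {A K X Y Y₀ Y₁ : ℝ} (hK : 0 < K) (hX : 0 < X) (hY : 0 ≤ Y) {α : Eis → ℂ}
    (hα : ∀ n, α n ≠ 0 → n ∈ S Y) : EG A K X Y Y₀ Y₁ α ≤ EU A K X Y Y₀ Y₁ α := by
  set N : Eis → Eis → ℝ := fun h U => UJ A K X Y₁ α h U + UL A K X Y₀ α h U with hN
  have hN0 : ∀ h U, 0 ≤ N h U := fun h U =>
    add_nonneg (UJ_nonneg hK.le hX.le α h U) (UL_nonneg hK.le hX.le α h U)
  have hW : ∀ δ ∈ S Y, ∀ G ∈ S Y, nm δ * (WJ A K X Y₁ α δ G + LJ A K X Y₀ α δ G) ≤
      ∑ e ∈ S Y, ∑ U ∈ S Y, if e * U = G then nm U * (nm (e * δ) * N (e * δ) U) else 0 := by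
    intro δ hδ G hG
    have a1 := WJ_le_UJ (A := A) (Z := Y₁) hK hX hY hα hδ hG
    have a2 := LJ_le_UL (A := A) (Z := Y₀) hK hX hY hα hδ hG
    rw [mul_add]
    refine (add_le_add a1 a2).trans (le_of_eq ?_)
    rw [← Finset.sum_add_distrib]
    refine Finset.sum_congr rfl fun e _ => ?_
    rw [← Finset.sum_add_distrib]
    refine Finset.sum_congr rfl fun U _ => ?_
    split_ifs
    · simp only [hN]; ring
    · ring
  -- swap the coordinates
  have e1 : EG A K X Y Y₀ Y₁ α = ∑ p ∈ (S Y ×ˢ S Y).erase (1, 1),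
      ((Div277.tau p.2 : ℝ) * (Div277.tau p.1 : ℝ) ^ 4) *
        (nm p.2 * (WJ A K X Y₁ α p.2 p.1 + LJ A K X Y₀ α p.2 p.1)) := by
    unfold EG
    refine Finset.sum_bij' (fun p _ => (p.2, p.1)) (fun p _ => (p.2, p.1)) ?_ ?_ ?_ ?_ ?_
    · intro p hp
      have h1 := Finset.mem_erase.mp hp
      have h2 := Finset.mem_product.mp h1.2
      refine Finset.mem_erase.mpr ⟨fun h3 => h1.1 ?_, Finset.mem_product.mpr ⟨h2.2, h2.1⟩⟩
      have h4 : p.2 = 1 := congrArg Prod.fst h3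
      have h5 : p.1 = 1 := congrArg Prod.snd h3
      exact Prod.ext h5 h4
    · intro p hp
      have h1 := Finset.mem_erase.mp hp
      have h2 := Finset.mem_product.mp h1.2
      refine Finset.mem_erase.mpr ⟨fun h3 => h1.1 ?_, Finset.mem_product.mpr ⟨h2.2, h2.1⟩⟩
      have h4 : p.2 = 1 := congrArg Prod.fst h3
      have h5 : p.1 = 1 := congrArg Prod.snd h3
      exact Prod.ext h5 h4
    · intro p _; rfl
    · intro p _; rfl
    · intro p _; ring
  rw [e1]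
  have h2 : ∀ p ∈ (S Y ×ˢ S Y).erase (1, 1), ((Div277.tau p.2 : ℝ) * (Div277.tau p.1 : ℝ) ^ 4) *
        (nm p.2 * (WJ A K X Y₁ α p.2 p.1 + LJ A K X Y₀ α p.2 p.1)) ≤
      ((Div277.tau p.2 : ℝ) * (Div277.tau p.1 : ℝ) ^ 4) * (∑ e ∈ S Y, ∑ U ∈ S Y,
        if e * U = p.1 then nm U * (nm (e * p.2) * N (e * p.2) U) else 0) := by
    intro p hp
    have hp2 := Finset.mem_product.mp (Finset.mem_of_mem_erase hp)
    exact mul_le_mul_of_nonneg_left (hW _ hp2.2 _ hp2.1) (by positivity)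
  refine (Finset.sum_le_sum h2).trans ?_
  have h3 := sum_regroup (Y := Y) (a := fun G δ => (Div277.tau δ : ℝ) * (Div277.tau G : ℝ) ^ 4)
    (b := fun e U δ => nm U * (nm (e * δ) * N (e * δ) U))
    (c := fun e U δ => (Div277.tau δ : ℝ) * ((Div277.tau e : ℝ) * Div277.tau U) ^ 4)
    (fun e U δ => mul_nonneg (Nat.cast_nonneg _) (mul_nonneg (Nat.cast_nonneg _) (hN0 _ _)))
    (fun e U δ => by positivity)
    (fun e U δ => by
      have : (Div277.tau (e * U) : ℝ) ≤ Div277.tau e * Div277.tau U := by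
        exact_mod_cast Div277.tau_mul_le e U
      gcongr)
  refine h3.trans ?_
  set M : Eis → Eis → ℝ := fun U h => ((Div277.tau U : ℝ) ^ 3 * (Div277.tau h : ℝ) ^ 3) *
    (nm h * N h U) with hM
  have hM0 : ∀ U h, 0 ≤ M U h := fun U h =>
    mul_nonneg (by positivity) (mul_nonneg (Nat.cast_nonneg _) (hN0 _ _))
  have h4 : ∑ q ∈ Q3 Y, ((Div277.tau q.2.2 : ℝ) * ((Div277.tau q.1 : ℝ) *
        Div277.tau q.2.1) ^ 4) * (nm q.2.1 * (nm (q.1 * q.2.2) * N (q.1 * q.2.2) q.2.1)) ≤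
      ∑ q ∈ Q3 Y, ((Div277.tau q.1 : ℝ) * Div277.tau q.2.1 * (Div277.tau q.2.2 : ℝ) ^ 2) *
        (nm q.2.1 * M q.2.1 (q.1 * q.2.2)) := by
    refine Finset.sum_le_sum fun q hq => ?_
    obtain ⟨hq1, -⟩ := Finset.mem_filter.mp hq
    have hq3 := Finset.mem_product.mp hq1
    have hq4 := Finset.mem_product.mp hq3.2
    have dg := (mem_S hY).1 hq3.1
    have dL := (mem_S hY).1 hq4.2
    have hL0 := dL.2.1.ne_zero
    have hg0 := dg.2.1.ne_zero
    have t1 : (Div277.tau q.1 : ℝ) ≤ Div277.tau (q.1 * q.2.2) := by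
      exact_mod_cast Div277.tau_le_of_dvd (mul_ne_zero hg0 hL0) (dvd_mul_right _ _)
    have t2 := tau_ge_one hL0
    have hN' := hN0 (q.1 * q.2.2) q.2.1
    simp only [hM]
    generalize N (q.1 * q.2.2) q.2.1 = NN at *
    generalize (Div277.tau (q.1 * q.2.2) : ℝ) = th at *
    have t0 : (0 : ℝ) ≤ Div277.tau q.1 := Nat.cast_nonneg _
    have t3 : (0 : ℝ) ≤ Div277.tau q.2.1 := Nat.cast_nonneg _
    generalize (Div277.tau q.1 : ℝ) = te at *
    generalize (Div277.tau q.2.1 : ℝ) = tU at *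
    generalize (Div277.tau q.2.2 : ℝ) = td at *
    have n1 : (0 : ℝ) ≤ nm q.2.1 := Nat.cast_nonneg _
    have n2 : (0 : ℝ) ≤ nm (q.1 * q.2.2) := Nat.cast_nonneg _
    generalize (nm q.2.1 : ℝ) = nU at *
    generalize (nm (q.1 * q.2.2) : ℝ) = nh at *
    have h5 : td * (te * tU) ^ 4 ≤ (te * tU * td ^ 2) * (tU ^ 3 * th ^ 3) := by
      have h6 : te ^ 3 ≤ th ^ 3 := by gcongr
      have h7 : td ≤ td ^ 2 := by nlinarith
      have td0 : 0 ≤ td := by linarith
      calc td * (te * tU) ^ 4 = (te * tU * td) * (tU ^ 3 * te ^ 3) := by ring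
        _ ≤ (te * tU * td ^ 2) * (tU ^ 3 * th ^ 3) := by gcongr
    calc td * (te * tU) ^ 4 * (nU * (nh * NN)) ≤
          ((te * tU * td ^ 2) * (tU ^ 3 * th ^ 3)) * (nU * (nh * NN)) :=
          mul_le_mul_of_nonneg_right h5 (by positivity)
      _ = _ := by ring
  refine h4.trans ?_
  have h5 := sum_triple_le (M := M) (α := α) hY hα hM0 (fun U h h0 => by
    have h1 : ∀ m, α (h * (U * m)) = 0 := fun m => by
      have := h0 m
      rwa [show U * (h * m) = h * (U * m) by ring] at this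
    simp only [hM, hN]
    rw [UJ_zero h1, UL_zero h1, add_zero, mul_zero, mul_zero])
  refine h5.trans (le_of_eq ?_)
  unfold EU
  refine Finset.sum_bij' (fun p _ => (p.2, p.1)) (fun p _ => (p.2, p.1)) ?_ ?_ ?_ ?_ ?_
  · intro p hp
    have h1 := Finset.mem_erase.mp hp
    have h2 := Finset.mem_product.mp h1.2
    refine Finset.mem_erase.mpr ⟨fun h3 => h1.1 ?_, Finset.mem_product.mpr ⟨h2.2, h2.1⟩⟩
    have h4 : p.2 = 1 := congrArg Prod.fst h3
    have h5 : p.1 = 1 := congrArg Prod.snd h3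
    exact Prod.ext h5 h4
  · intro p hp
    have h1 := Finset.mem_erase.mp hp
    have h2 := Finset.mem_product.mp h1.2
    refine Finset.mem_erase.mpr ⟨fun h3 => h1.1 ?_, Finset.mem_product.mpr ⟨h2.2, h2.1⟩⟩
    have h4 : p.2 = 1 := congrArg Prod.fst h3
    have h5 : p.1 = 1 := congrArg Prod.snd h3
    exact Prod.ext h5 h4
  · intro p _; rfl
  · intro p _; rfl
  · intro p _
    simp only [hM, hN]
    ring

end Crest.Agent.R017.E1551
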