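import Crest.Agent.R017.I1a_146
import Crest.Agent.R017.E1zb_551

/-!
# Row 17, block C70, the assembly (I1) (helper146): the concrete form

* `E1u` : 551's unsigned E1 in the window `JW`, errors regrouped (`EU`)
* `E2s` : the error of 440's `E2fin` for `J = JW D Y₀ Y₁`
* `I1` : **`Σ_{k ∈ Q} w |CS α - pC StE|² ≤ Dg + (E1) + 2 pC (E2 + tail) + pC² (E3) + defect`**
* `LB` : the lower bound for the smooth square (positivity, RG) with the same error terms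
-/

set_option autoImplicit false

noncomputable section

open Finset
open scoped ComplexConjugate Classical

namespace Crest.Agent.R017.I1146

open Crest.Agent.R012 Crest.Agent.R012.Eis Crest.Agent.R012.MC Crest.Agent.R012.Gauss880
open Crest.Agent.R012.LS2 (S mem_S)
open Crest.Agent.R012.Mob705 (mu pdiv mem_pdiv PE kap0)
open Crest.Agent.R012.Div277 (tau)
open Crest.Agent.R017.CM106 (CS FS)
open Crest.Agent.R017.C70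
open Crest.Agent.R017.E1551 (Adm SqP Dg cP one_mem_S E1_final EP EP_le2 EU EPJ EG Wb Lo Et Ct WS
  Mn_JE lm Et_nonneg Ct_nonneg)
open Crest.Agent.R017.DgB829 (HS HS_nonneg)
open Crest.Agent.R017.E2440 (TE StE E2fin Jb prs C4 Qs)
open Crest.Agent.R017.LB48 (CrP GrP)
open Crest.Agent.R017.SqLoc829 (JE JE_cf)

/-- the error of `E1` in the window, without the factor `C (1 + log Y) (K/X)` -/
def E1e (A B K X Y D Y₀ Y₁ : ℝ) (α : Eis → ℂ) : ℝ :=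
  (∑ κ ∈ JE D Y₀ Y₁ 1, min 1 (lm K X 1 κ) * Wb A α κ + Lo A K X Y₀ α +
    EU A K X Y Y₀ Y₁ α) + (1 + Ct Y) * Et A B K X Y Y₁ α

/-- **E1, unsigned, regrouped errors.** -/
theorem E1u {w : ℝ → ℝ} (hw : Wgt w) {R : ℝ} (hR : 0 ≤ R) {A B : ℝ} (hA : 1 < A)
    (hB : 1 ≤ B) : ∃ C : ℝ, 0 ≤ C ∧ ∀ K X Y D Y₀ Y₁ : ℝ, 0 < K → 0 < X → 1 ≤ Y → 0 < Y₁ →
      ((0 ≤ D ∧ Y₁ ≤ D ^ 2) ∨ Y ≤ D) → ∀ α : Eis → ℂ, Adm Y X R α →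
      ‖((SqP w K α : ℝ) : ℂ) - ((Dg w K Y α : ℝ) : ℂ) -
        ((2 * cP w * K ^ (2 / 3 : ℝ) : ℝ) : ℂ) * XJ (JW D Y₀ Y₁) α‖ ≤
        C * (1 + Real.log Y) * (K / X) * E1e A B K X Y D Y₀ Y₁ α := by
  obtain ⟨C, hC, h1⟩ := E1_final hw hR hA hB
  refine ⟨C, hC, fun K X Y D Y₀ Y₁ hK hX hY hY₁ hD α hα => ?_⟩
  have hY0 : 0 ≤ Y := by linarith
  have hlog := Real.log_nonneg hY
  have h2 := h1 K X Y hK hX hY α hα (JE D Y₀ Y₁) (fun d κ hκ => JE_cf κ hκ)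
  rw [Mn_JE hY0 hα.sup] at h2
  refine h2.trans (mul_le_mul_of_nonneg_left ?_ (by positivity))
  have h3 := EP_le2 (Y₀ := Y₀) hA hB hK hX hY hY₁ hD one_pos hα.sup
  have h4 := EPJ (A := A) (Y₀ := Y₀) (Y₁ := Y₁) hK hX hY0 hα.sup
  have h5 : ∑ d ∈ S Y, (nm d * (Div277.tau d : ℝ) *
      ∑ L ∈ S Y, (Div277.tau L : ℝ) ^ 2 * WS A B K X α (JE D Y₀ Y₁ d) d L) =
      EP A B K X Y 1 α (JE D Y₀ Y₁) := by
    have h1S := one_mem_S hY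
    unfold EP
    rw [← Finset.add_sum_erase (S Y) _ h1S, inv_one, one_mul, one_mul, ← add_assoc]
    congr 1
    rw [← Finset.add_sum_erase (S Y) _ h1S]
    simp only [nm_one, E1551.tau_one551, Nat.cast_one, one_mul, one_pow]
  rw [h5]
  unfold E1e
  rw [inv_one, one_mul, one_mul] at h3
  linarith

/-- the error of the cross form -/
def E2s (w : ℝ → ℝ) (K E0 D Y₀ Y₁ : ℝ) (I : ℕ) (om : Eis × Eis → ℂ) (α : Eis → ℂ) : ℝ :=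
  ∑ δ ∈ S D, ∑ i ∈ Finset.range I, ∑ e ∈ S E0,
    Real.sqrt (∑ x ∈ Jb (JW D Y₀ Y₁) δ (Y₁ / 2 ^ i), ‖om x‖ ^ 2 * ‖TE α x e‖ ^ 2) *
    ∑ y ∈ prs δ, ∑ A ∈ pdiv y.1,
      Real.sqrt (∑ c ∈ C4, ∑ j₂ ∈ S (Real.sqrt (Y₁ / 2 ^ i)),
        Qs α δ e (Y₁ / 2 ^ i) K (fun x => ((w x : ℝ) : ℂ)) y A c j₂)

lemma FS_of {Y : ℝ} (hY : 0 ≤ Y) {α : Eis → ℂ} (hα : ∀ n, α n ≠ 0 → n ∈ S Y) : FS α where
  fin := (S Y).finite_toSet.subset fun n hn => hα n hn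
  prim m hm := ((mem_S hY).1 (hα m hm)).2.1

lemma JW_mem {D Y₀ Y₁ : ℝ} (hD : 0 ≤ D) (hY₁ : 0 < Y₁) {I : ℕ} (hI : Y₁ < 2 ^ I)
    (x : Eis × Eis) (hx : x ∈ JW D Y₀ Y₁) :
    x.1 ∈ S D ∧ (nm x.2 : ℝ) ≤ Y₁ ∧ Y₁ / 2 ^ I < nm x.2 := by
  have hok := okJ_JW D Y₀ Y₁
  have h1 := hok.prim x hx
  have h2 := hok.sqf x hx
  have h3 := hok.jc x hx
  have hx' := hx
  unfold JW at hx'
  rw [mem_filter, mem_product, mem_primBall] at hx'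
  obtain ⟨⟨⟨h4, -⟩, -⟩, -, -, -, h5⟩ := hx'
  have hj0 : x.2 ≠ 0 := by
    obtain ⟨c, hc, j, hj, -, he⟩ := h3
    rw [he]
    refine mul_ne_zero ?_ hj.ne_zero
    rcases hc with rfl | rfl | rfl | rfl <;> decide
  have h6 : (1 : ℝ) ≤ nm x.2 := by exact_mod_cast nm_pos.2 hj0
  have h7 : (1 : ℝ) ≤ nm x.1 := by exact_mod_cast nm_pos.2 h1.ne_zero
  refine ⟨(mem_S hD).2 ⟨(Nat.le_floor_iff hD).1 h4, h1, h2⟩, ?_, ?_⟩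
  · rw [nm_mul, nm_pow] at h5
    push_cast at h5
    nlinarith [one_le_pow₀ h7 (n := 2)]
  · rw [div_lt_iff₀ (by positivity)]
    have : (1 : ℝ) ≤ 2 ^ I := one_le_pow₀ (by norm_num)
    nlinarith

/-- the cross form -/
theorem E2u {w : ℝ → ℝ} (hw : Wgt w) {K E0 Y D Y₀ Y₁ : ℝ} (hK : 0 < K) (hE0 : 0 ≤ E0)
    (hY : 0 ≤ Y) (hD : 0 ≤ D) (hY₁ : 0 < Y₁) {I : ℕ} (hI : Y₁ < 2 ^ I) {α : Eis → ℂ}
    (hα : ∀ n, α n ≠ 0 → n ∈ S Y) (om : Eis × Eis → ℂ) :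
    ‖CrP w K α (StE E0 (JW D Y₀ Y₁) om α) -
      ((pC * (kap0 * mel w (2 / 3) * K ^ (2 / 3 : ℝ)) : ℝ) : ℂ) *
        X2 Y E0 (JW D Y₀ Y₁) om α‖ ≤ E2s w K E0 D Y₀ Y₁ I om α := by
  have hF : ∃ B : ℝ, ∀ x, (fun x => ((w x : ℝ) : ℂ)) x ≠ 0 → x ≤ B := by
    obtain ⟨r, hr⟩ := hw.cpt.isBounded.subset_closedBall 0
    refine ⟨r, fun x hx => ?_⟩
    have h1 : x ∈ Function.support w := by
      intro h0
      exact hx (by simp [h0])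
    have h2 := hr (subset_tsupport _ h1)
    rw [Metric.mem_closedBall, dist_zero_right, Real.norm_eq_abs] at h2
    exact (le_abs_self x).trans h2
  have h := E2fin (FS_of hY hα) (fun n hn => ((mem_S hY).1 (hα n hn)).2.2) hE0 hY₁.le hK hF
    (D := S D) (fun δ hδ => ⟨((mem_S hD).1 hδ).2.1, ((mem_S hD).1 hδ).2.2⟩) (I := I)
    (okJ_JW D Y₀ Y₁) (fun x hx => JW_mem hD hY₁ hI x hx) om
  rw [cross_main hY hα (okJ_JW D Y₀ Y₁) hE0 om, Cst401.mellin_eq] at h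
  refine le_trans (le_of_eq ?_) h
  congr 2
  rw [Cst401.cM_eq, ← Complex.ofReal_mul]
  congr 2
  ring

/-- the constant of the Gram form -/
def c3 (w : ℝ → ℝ) (K : ℝ) : ℝ := kap0 * mel w (2 / 3) * K ^ (2 / 3 : ℝ)

lemma c3_nonneg {w : ℝ → ℝ} (hw0 : ∀ x, 0 ≤ w x) {K : ℝ} (hK : 0 < K) : 0 ≤ c3 w K := by
  unfold c3
  have := Cst401.kap0_pos
  have := Cst401.mel_nonneg hw0
  positivity

/-- **(I1)**, `Q` = the kept `k`. -/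
theorem I1 {w : ℝ → ℝ} (hw : Wgt w) (hw0 : ∀ x, 0 ≤ w x) {R : ℝ} (hR : 0 ≤ R) {A B : ℝ}
    (hA : 1 < A) (hB : 1 ≤ B) : ∃ C : ℝ, 0 ≤ C ∧ ∀ (K X Y D Y₀ Y₁ E0 : ℝ) (I : ℕ), 0 < K → 0 < X →
      1 ≤ Y → 0 ≤ D → 0 < Y₁ → 0 ≤ E0 → (Y₁ ≤ D ^ 2 ∨ Y ≤ D) → Y₁ < 2 ^ I →
      ∀ α : Eis → ℂ, Adm Y X R α → ∀ (om : Eis × Eis → ℂ) (Q : Eis → Prop) (et e₃ : ℝ),
      ‖CrP w K α (fun k => if Q k then 0 else StE E0 (JW D Y₀ Y₁) om α k)‖ ≤ et →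
      GrP w K (fun k => if Q k then StE E0 (JW D Y₀ Y₁) om α k else 0) ≤
        c3 w K * (X3 Y E0 (JW D Y₀ Y₁) om α).re + e₃ →
      ∑' k : Eis, (if IsPrim k ∧ Q k then
        w (nm k / K) * ‖CS α k - (pC : ℂ) * StE E0 (JW D Y₀ Y₁) om α k‖ ^ 2 else 0) ≤
      Dg w K Y α + C * (1 + Real.log Y) * (K / X) * E1e A B K X Y D Y₀ Y₁ α +
        2 * pC * (E2s w K E0 D Y₀ Y₁ I om α + et) + pC ^ 2 * e₃ +
        pC ^ 2 * c3 w K * (HS Y * Df Y E0 (JW D Y₀ Y₁) om α) := by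
  obtain ⟨C, hC, h1⟩ := E1u hw hR hA hB
  refine ⟨C, hC, fun K X Y D Y₀ Y₁ E0 I hK hX hY hD hY₁ hE0 hDY hI α hα om Q et e₃ ht h3 => ?_⟩
  have hY0 : 0 ≤ Y := by linarith
  have hP := Cst401.pC_pos
  have hc := c3_nonneg hw0 hK
  have a1 := h1 K X Y D Y₀ Y₁ hK hX hY hY₁ (hDY.imp (fun h => ⟨hD, h⟩) id) α hα
  have a2 := E2u (Y₀ := Y₀) hw hK hE0 hY0 hD hY₁ hI hα.sup om
  have a3 : |SqP w K α - Dg w K Y α - pC ^ 2 * c3 w K * (XJ (JW D Y₀ Y₁) α).re| ≤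
      C * (1 + Real.log Y) * (K / X) * E1e A B K X Y D Y₀ Y₁ α := by
    have e1 : SqP w K α - Dg w K Y α - pC ^ 2 * c3 w K * (XJ (JW D Y₀ Y₁) α).re =
        (((SqP w K α : ℝ) : ℂ) - ((Dg w K Y α : ℝ) : ℂ) -
        ((2 * cP w * K ^ (2 / 3 : ℝ) : ℝ) : ℂ) * XJ (JW D Y₀ Y₁) α).re := by
      rw [Complex.sub_re, Complex.sub_re, Complex.ofReal_re, Complex.ofReal_re,
        Complex.re_ofReal_mul, Cst401.two_cP hw]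
      unfold c3
      ring
    rw [e1]
    exact (Complex.abs_re_le_norm _).trans a1
  have a4 := core hw hw0 hK α (StE E0 (JW D Y₀ Y₁) om α) Q hP.le a3 a2 ht h3
  have a5 := core_cut hw hw0 hK α (StE E0 (JW D Y₀ Y₁) om α) Q pC
  have a6 := comb_le hY0 hα.sup (okJ_JW D Y₀ Y₁) E0 om
  have a7 : pC ^ 2 * c3 w K * ((XJ (JW D Y₀ Y₁) α).re - 2 * (X2 Y E0 (JW D Y₀ Y₁) om α).re +
      (X3 Y E0 (JW D Y₀ Y₁) om α).re) ≤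
      pC ^ 2 * c3 w K * (HS Y * Df Y E0 (JW D Y₀ Y₁) om α) :=
    mul_le_mul_of_nonneg_left a6 (by positivity)
  linarith

/-- **the lower bound for the smooth square**: `2 cP K^(2/3) XJ - SqP` (input of 551 / 813). -/
theorem LB {w : ℝ → ℝ} (hw : Wgt w) (hw0 : ∀ x, 0 ≤ w x) {K Y D Y₀ Y₁ E0 : ℝ} {I : ℕ}
    (hK : 0 < K) (hY : 0 ≤ Y) (hD : 0 ≤ D) (hY₁ : 0 < Y₁) (hE0 : 0 ≤ E0) (hI : Y₁ < 2 ^ I)
    {α : Eis → ℂ} (hα : ∀ n, α n ≠ 0 → n ∈ S Y) (om : Eis × Eis → ℂ) (Q : Eis → Prop)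
    {et e₃ : ℝ}
    (ht : ‖CrP w K α (fun k => if Q k then 0 else StE E0 (JW D Y₀ Y₁) om α k)‖ ≤ et)
    (h3 : GrP w K (fun k => if Q k then StE E0 (JW D Y₀ Y₁) om α k else 0) ≤
        c3 w K * (X3 Y E0 (JW D Y₀ Y₁) om α).re + e₃) :
    2 * cP w * K ^ (2 / 3 : ℝ) * (XJ (JW D Y₀ Y₁) α).re - SqP w K α ≤
      2 * pC * (E2s w K E0 D Y₀ Y₁ I om α + et) + pC ^ 2 * e₃ +
        pC ^ 2 * c3 w K * (HS Y * Df Y E0 (JW D Y₀ Y₁) om α) := by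
  have hP := Cst401.pC_pos
  have hc := c3_nonneg hw0 hK
  have a2 := E2u (Y₀ := Y₀) hw hK hE0 hY hD hY₁ hI hα om
  have a4 := core_lb hw hw0 hK α (StE E0 (JW D Y₀ Y₁) om α) Q (Z₁ := XJ (JW D Y₀ Y₁) α)
    (c₃ := c3 w K) hP.le a2 ht h3
  have a6 := comb_le hY hα (okJ_JW D Y₀ Y₁) E0 om
  have a7 : pC ^ 2 * c3 w K * ((XJ (JW D Y₀ Y₁) α).re - 2 * (X2 Y E0 (JW D Y₀ Y₁) om α).re +
      (X3 Y E0 (JW D Y₀ Y₁) om α).re) ≤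
      pC ^ 2 * c3 w K * (HS Y * Df Y E0 (JW D Y₀ Y₁) om α) :=
    mul_le_mul_of_nonneg_left a6 (by positivity)
  have e1 : 2 * cP w * K ^ (2 / 3 : ℝ) * (XJ (JW D Y₀ Y₁) α).re =
      pC ^ 2 * c3 w K * (XJ (JW D Y₀ Y₁) α).re := by
    rw [Cst401.two_cP hw]
    unfold c3
    ring
  rw [e1]
  linarith

end Crest.Agent.R017.I1146
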