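import Crest.Agent.R017.WDec_180
import Crest.Agent.R017.E2ex_385
import Crest.Agent.R017.E2v_440
import Crest.Agent.R017.I1b_146

/-!
# Row 17, weights (helper180): the cross sum of a general weight through the pieces

* `WD` : the data of a decomposition, `exists_WD`
* `CrQ_dec`, `CrQ_eq_CrP`, `mel_dec`
* `CrP_h` : the two scales for a general weight
* `E2e` : the right side of 440's `E2fin`; `E2_any` : `E2` for any weight of bounded support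
* `E2_dec` : `E2` for a general weight by the pieces
* `E2_h` : `E2` for the compensated pieces
-/

set_option autoImplicit false
set_option linter.unusedVariables false

noncomputable section

open Complex MeasureTheory
open scoped ComplexConjugate ContDiff Classical

namespace Crest.Agent.R017.WDec180

open Crest.Agent.R012 Crest.Agent.R012.Eis Crest.Agent.R012.MC
open Crest.Agent.R012.LS2 (S mem_S)
open Crest.Agent.R012.Mob705 (mu pdiv kap0)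
open Crest.Agent.R017.CM106 (CS FS)
open Crest.Agent.R017.C70 (JW OKJ okJ_JW)
open Crest.Agent.R017.X6C180 (GF cM)
open Crest.Agent.R017.X6545 (TF Bd)
open Crest.Agent.R017.X6W180 (TF1 tf1_tf)
open Crest.Agent.R017.E2440 (TE StE MX E2fin Jb prs C4 Qs Fh mellin_Fh mellin_conv bs_GF bs_Fh)
open Crest.Agent.R017.Ex385 (CrQ CrQ_split CrQ_not)
open Crest.Agent.R017.LB48 (CrP)
open Crest.Agent.R017.I1146 (X2 cross_main FS_of JW_mem)

/-- the data of a decomposition -/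
structure WD (w : ℝ → ℝ) (N : ℕ) (M : ℝ) (F : ℕ → ℝ → ℂ) : Prop where
  M0 : 0 ≤ M
  tf : ∀ i, TF1 (F i)
  bd : ∀ k : ℕ, ∃ S : ℝ, 0 ≤ S ∧ ∀ i < N, Bd (F i) k S
  eq : ∀ x : ℝ, ((w x : ℝ) : ℂ) = ∑ i ∈ Finset.range N, GF (F i) (x * Real.exp (M - i))

theorem exists_WD {w : ℝ → ℝ} (hw : Wgt w) : ∃ (N : ℕ) (M : ℝ) (F : ℕ → ℝ → ℂ), WD w N M F := by
  obtain ⟨N, M, F, h1, h2, h3, h4⟩ := wgt_pieces hw
  exact ⟨N, M, F, h1, h2, h3, h4⟩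

/-- the scale of a piece -/
def sc (K M : ℝ) (i : ℕ) : ℝ := K * Real.exp (i - M)

lemma sc_pos {K : ℝ} (hK : 0 < K) (M : ℝ) (i : ℕ) : 0 < sc K M i := by
  unfold sc; positivity

lemma sc_arg {K : ℝ} (hK : 0 < K) (M : ℝ) (i : ℕ) (n : ℝ) :
    n / K * Real.exp (M - i) = n / sc K M i := by
  unfold sc
  have h : Real.exp (M - i) * Real.exp (i - M) = 1 := by
    rw [← Real.exp_add]; simp
  have h1 := Real.exp_pos ((i : ℝ) - M)
  rw [div_mul_eq_mul_div, div_eq_div_iff hK.ne' (by positivity)]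
  calc n * Real.exp (M - i) * (K * Real.exp (i - M)) =
        n * K * (Real.exp (M - i) * Real.exp (i - M)) := by ring
    _ = n * K := by rw [h, mul_one]

variable {w : ℝ → ℝ} {N : ℕ} {M : ℝ} {F : ℕ → ℝ → ℂ}

/-- **the cross sum by pieces** -/
theorem CrQ_dec (h : WD w N M F) (Q : Eis → Prop) {K : ℝ} (hK : 0 < K) (α u : Eis → ℂ) :
    CrQ (fun x => ((w x : ℝ) : ℂ)) Q K α u =
      ∑ i ∈ Finset.range N, CrQ (GF (F i)) Q (sc K M i) α u := by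
  unfold Ex385.CrQ
  rw [← Summable.tsum_finsetSum fun i _ => Ex385.sum_CrQ (Ex385.bdd_GF (tf1_tf (h.tf i)))
    (sc_pos hK M i) (fun k => IsPrim k ∧ Q k) (fun k => CS α k * conj (u k))]
  refine tsum_congr fun k => ?_
  beta_reduce
  by_cases hk : IsPrim k ∧ Q k
  · rw [if_pos hk, h.eq, Finset.sum_mul]
    refine Finset.sum_congr rfl fun i _ => ?_
    rw [if_pos hk, sc_arg hK]
  · rw [if_neg hk]
    symm
    exact Finset.sum_eq_zero fun i _ => if_neg hk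

lemma CrQ_eq_CrP (w : ℝ → ℝ) (Q : Eis → Prop) (K : ℝ) (α u : Eis → ℂ) :
    CrQ (fun x => ((w x : ℝ) : ℂ)) Q K α u = CrP w K α (fun k => if Q k then u k else 0) := by
  unfold Ex385.CrQ LB48.CrP
  refine tsum_congr fun k => ?_
  beta_reduce
  by_cases h1 : IsPrim k
  · by_cases h2 : Q k
    · rw [if_pos ⟨h1, h2⟩, if_pos h1, if_pos h2]
    · rw [if_neg (fun h => h2 h.2), if_pos h1, if_neg h2]
      simp
  · rw [if_neg (fun h => h1 h.1), if_neg h1]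

lemma CrQ_true (w : ℝ → ℝ) (K : ℝ) (α u : Eis → ℂ) :
    CrQ (fun x => ((w x : ℝ) : ℂ)) (fun _ => True) K α u = CrP w K α u := by
  rw [CrQ_eq_CrP]
  simp

/-- the mains add up -/
theorem mel_dec (h : WD w N M F) {K : ℝ} (hK : 0 < K) :
    ∑ i ∈ Finset.range N, (((cM * (sc K M i) ^ (2 / 3 : ℝ) : ℝ) : ℂ) *
      mellin (GF (F i)) ((2 / 3 : ℝ) : ℂ)) =
      ((pC * (kap0 * mel w (2 / 3) * K ^ (2 / 3 : ℝ)) : ℝ) : ℂ) := by
  have hc : ∀ i, MellinConvergent (GF (F i)) ((2 / 3 : ℝ) : ℂ) := fun i =>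
    mellin_conv (X6C180.wt_GF (tf1_tf (h.tf i))) _
  have hp : ∀ i : ℕ, 0 < Real.exp (M - i) := fun i => Real.exp_pos _
  have hc2 : ∀ i : ℕ, MellinConvergent (fun x => GF (F i) (x * Real.exp (M - i)))
      ((2 / 3 : ℝ) : ℂ) := by
    intro i
    have := (MellinConvergent.comp_mul_left (f := GF (F i)) (s := ((2 / 3 : ℝ) : ℂ))
      (hp i)).mpr (hc i)
    simpa [mul_comm] using this
  have e1 : ∀ i : ℕ, mellin (fun x => GF (F i) (x * Real.exp (M - i))) ((2 / 3 : ℝ) : ℂ) =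
      ((Real.exp (-(2 / 3 * (M - i))) : ℝ) : ℂ) * mellin (GF (F i)) ((2 / 3 : ℝ) : ℂ) := by
    intro i
    have h1 := mellin_comp_mul_left (GF (F i)) ((2 / 3 : ℝ) : ℂ) (hp i)
    have h2 : (fun x => GF (F i) (x * Real.exp (M - i))) =
        fun x => GF (F i) (Real.exp (M - i) * x) := by
      funext x; rw [mul_comm]
    rw [h2, h1, smul_eq_mul]
    congr 1
    rw [← Complex.ofReal_neg, ← Complex.ofReal_cpow (hp i).le, ← Real.exp_mul]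
    congr 2
    ring
  have e2 : mellin (fun x => ((w x : ℝ) : ℂ)) ((2 / 3 : ℝ) : ℂ) =
      ∑ i ∈ Finset.range N, mellin (fun x => GF (F i) (x * Real.exp (M - i)))
        ((2 / 3 : ℝ) : ℂ) := by
    unfold mellin
    rw [← integral_finsetSum _ fun i _ => ?_]
    · refine setIntegral_congr_fun measurableSet_Ioi fun t _ => ?_
      simp only
      rw [h.eq, Finset.smul_sum]
    · exact hc2 i
  rw [Cst401.mellin_eq] at e2
  have e3 : ∀ i ∈ Finset.range N, (((cM * (sc K M i) ^ (2 / 3 : ℝ) : ℝ) : ℂ) *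
      mellin (GF (F i)) ((2 / 3 : ℝ) : ℂ)) = ((cM * K ^ (2 / 3 : ℝ) : ℝ) : ℂ) *
        mellin (fun x => GF (F i) (x * Real.exp (M - i))) ((2 / 3 : ℝ) : ℂ) := by
    intro i _
    rw [e1]
    have h1 : (sc K M i) ^ (2 / 3 : ℝ) = K ^ (2 / 3 : ℝ) * Real.exp (-(2 / 3 * (M - i))) := by
      unfold sc
      rw [Real.mul_rpow hK.le (Real.exp_pos _).le, ← Real.exp_mul]
      congr 2
      ring
    rw [h1]
    push_cast
    ring
  rw [Finset.sum_congr rfl e3, ← Finset.mul_sum, ← e2, Cst401.cM_eq, ← Complex.ofReal_mul]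
  congr 1
  ring

/-- **the two scales for a general weight** -/
theorem CrP_h (h : WD w N M F) {η : ℝ} (hη : 0 ≤ η) {K : ℝ} (hK : 0 < K) (α u : Eis → ℂ) :
    CrP w K α u = ∑ i ∈ Finset.range N, CrQ (GF (Fh (F i) η)) (fun _ => True) (sc K M i) α u +
      ((Real.exp (η / 3) : ℝ) : ℂ) * CrP w (K * Real.exp (-η)) α u := by
  have hK' : 0 < K * Real.exp (-η) := by positivity
  rw [← CrQ_true, ← CrQ_true, CrQ_dec h _ hK, CrQ_dec h _ hK', Finset.mul_sum,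
    ← Finset.sum_add_distrib]
  refine Finset.sum_congr rfl fun i _ => ?_
  have h1 := CrQ_split (tf1_tf (h.tf i)) hη (fun _ => True) (sc_pos hK M i) α u
  have e : sc K M i * Real.exp (-η) = sc (K * Real.exp (-η)) M i := by
    unfold sc; ring
  rw [e] at h1
  exact h1

/-- the right side of `E2fin` -/
def E2e (Ft : ℝ → ℂ) (K E0 : ℝ) (Ds : Finset Eis) (V : ℝ) (I : ℕ) (J : Finset (Eis × Eis))
    (om : Eis × Eis → ℂ) (α : Eis → ℂ) : ℝ :=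
  ∑ δ ∈ Ds, ∑ i ∈ Finset.range I, ∑ e ∈ S E0,
    Real.sqrt (∑ x ∈ Jb J δ (V / 2 ^ i), ‖om x‖ ^ 2 * ‖TE α x e‖ ^ 2) *
    ∑ y ∈ prs δ, ∑ A ∈ pdiv y.1,
      Real.sqrt (∑ c ∈ C4, ∑ j₂ ∈ S (Real.sqrt (V / 2 ^ i)),
        Qs α δ e (V / 2 ^ i) K Ft y A c j₂)

/-- `E2` for any weight of bounded support -/
theorem E2_any {Ft : ℝ → ℂ} (hF : ∃ B : ℝ, ∀ x, Ft x ≠ 0 → x ≤ B) {K E0 Y D Y₀ Y₁ : ℝ}
    (hK : 0 < K) (hE0 : 0 ≤ E0) (hY : 0 ≤ Y) (hD : 0 ≤ D) (hY₁ : 0 < Y₁) {I : ℕ}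
    (hI : Y₁ < 2 ^ I) {α : Eis → ℂ} (hα : ∀ n, α n ≠ 0 → n ∈ S Y) (om : Eis × Eis → ℂ) :
    ‖CrQ Ft (fun _ => True) K α (StE E0 (JW D Y₀ Y₁) om α) -
      (((cM * K ^ (2 / 3 : ℝ) : ℝ) : ℂ) * mellin Ft ((2 / 3 : ℝ) : ℂ)) *
        X2 Y E0 (JW D Y₀ Y₁) om α‖ ≤ E2e Ft K E0 (S D) Y₁ I (JW D Y₀ Y₁) om α := by
  have h := E2fin (FS_of hY hα) (fun n hn => ((mem_S hY).1 (hα n hn)).2.2) hE0 hY₁.le hK hF
    (D := S D) (fun δ hδ => ⟨((mem_S hD).1 hδ).2.1, ((mem_S hD).1 hδ).2.2⟩) (I := I)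
    (okJ_JW D Y₀ Y₁) (fun x hx => JW_mem hD hY₁ hI x hx) om
  rw [cross_main hY hα (okJ_JW D Y₀ Y₁) hE0 om] at h
  have e : CrQ Ft (fun _ => True) K α (StE E0 (JW D Y₀ Y₁) om α) =
      ∑' k : Eis, if IsPrim k then Ft ((nm k : ℝ) / K) *
        (CS α k * conj (StE E0 (JW D Y₀ Y₁) om α k)) else 0 := by
    unfold Ex385.CrQ
    refine tsum_congr fun k => ?_
    by_cases h1 : IsPrim k
    · rw [if_pos ⟨h1, trivial⟩, if_pos h1]
    · rw [if_neg (fun h => h1 h.1), if_neg h1]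
  rw [e]
  unfold E2e
  convert h using 5

/-- **`E2` for a general weight** -/
theorem E2_dec (h : WD w N M F) {K E0 Y D Y₀ Y₁ : ℝ} (hK : 0 < K) (hE0 : 0 ≤ E0)
    (hY : 0 ≤ Y) (hD : 0 ≤ D) (hY₁ : 0 < Y₁) {I : ℕ} (hI : Y₁ < 2 ^ I) {α : Eis → ℂ}
    (hα : ∀ n, α n ≠ 0 → n ∈ S Y) (om : Eis × Eis → ℂ) :
    ‖CrP w K α (StE E0 (JW D Y₀ Y₁) om α) -
      ((pC * (kap0 * mel w (2 / 3) * K ^ (2 / 3 : ℝ)) : ℝ) : ℂ) *
        X2 Y E0 (JW D Y₀ Y₁) om α‖ ≤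
      ∑ i ∈ Finset.range N, E2e (GF (F i)) (sc K M i) E0 (S D) Y₁ I (JW D Y₀ Y₁) om α := by
  rw [← CrQ_true, CrQ_dec h _ hK, ← mel_dec h hK, Finset.sum_mul, ← Finset.sum_sub_distrib]
  refine (norm_sum_le _ _).trans (Finset.sum_le_sum fun i _ => ?_)
  exact E2_any (bs_GF (tf1_tf (h.tf i))) (sc_pos hK M i) hE0 hY hD hY₁ hI hα om

/-- **`E2` for the compensated pieces** -/
theorem E2_h (h : WD w N M F) {η : ℝ} (hη : 0 ≤ η) {K E0 Y D Y₀ Y₁ : ℝ} (hK : 0 < K)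
    (hE0 : 0 ≤ E0) (hY : 0 ≤ Y) (hD : 0 ≤ D) (hY₁ : 0 < Y₁) {I : ℕ} (hI : Y₁ < 2 ^ I)
    {α : Eis → ℂ} (hα : ∀ n, α n ≠ 0 → n ∈ S Y) (om : Eis × Eis → ℂ) :
    ‖CrP w K α (StE E0 (JW D Y₀ Y₁) om α) -
      ((pC * (kap0 * mel w (2 / 3) * K ^ (2 / 3 : ℝ)) : ℝ) : ℂ) *
        X2 Y E0 (JW D Y₀ Y₁) om α‖ ≤
      ∑ i ∈ Finset.range N, E2e (GF (Fh (F i) η)) (sc K M i) E0 (S D) Y₁ I (JW D Y₀ Y₁) om α +
      Real.exp (η / 3) * ‖CrP w (K * Real.exp (-η)) α (StE E0 (JW D Y₀ Y₁) om α)‖ +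
      Real.exp (-(η / 3)) * ‖((pC * (kap0 * mel w (2 / 3) * K ^ (2 / 3 : ℝ)) : ℝ) : ℂ) *
        X2 Y E0 (JW D Y₀ Y₁) om α‖ := by
  set St := StE E0 (JW D Y₀ Y₁) om α with hSt
  set Z := X2 Y E0 (JW D Y₀ Y₁) om α with hZ
  set m := ((pC * (kap0 * mel w (2 / 3) * K ^ (2 / 3 : ℝ)) : ℝ) : ℂ) with hm
  have h1 := CrP_h h hη hK α St
  -- the mains
  have h2 : ∀ i : ℕ, ((cM * (sc K M i) ^ (2 / 3 : ℝ) : ℝ) : ℂ) *
      mellin (GF (Fh (F i) η)) ((2 / 3 : ℝ) : ℂ) = ((1 - Real.exp (-(η / 3)) : ℝ) : ℂ) *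
        (((cM * (sc K M i) ^ (2 / 3 : ℝ) : ℝ) : ℂ) * mellin (GF (F i)) ((2 / 3 : ℝ) : ℂ)) := by
    intro i
    rw [mellin_Fh (tf1_tf (h.tf i)) η]
    ring
  have h3 : ∑ i ∈ Finset.range N, ((cM * (sc K M i) ^ (2 / 3 : ℝ) : ℝ) : ℂ) *
      mellin (GF (Fh (F i) η)) ((2 / 3 : ℝ) : ℂ) = ((1 - Real.exp (-(η / 3)) : ℝ) : ℂ) * m := by
    rw [Finset.sum_congr rfl fun i _ => h2 i, ← Finset.mul_sum, mel_dec h hK]
  have h4 : ‖∑ i ∈ Finset.range N, CrQ (GF (Fh (F i) η)) (fun _ => True) (sc K M i) α St -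
      ((1 - Real.exp (-(η / 3)) : ℝ) : ℂ) * m * Z‖ ≤
      ∑ i ∈ Finset.range N, E2e (GF (Fh (F i) η)) (sc K M i) E0 (S D) Y₁ I
        (JW D Y₀ Y₁) om α := by
    rw [← h3, Finset.sum_mul, ← Finset.sum_sub_distrib]
    refine (norm_sum_le _ _).trans (Finset.sum_le_sum fun i _ => ?_)
    exact E2_any (bs_Fh (tf1_tf (h.tf i)) hη) (sc_pos hK M i) hE0 hY hD hY₁ hI hα om
  have h5 : CrP w K α St - m * Z =
      (∑ i ∈ Finset.range N, CrQ (GF (Fh (F i) η)) (fun _ => True) (sc K M i) α St -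
        ((1 - Real.exp (-(η / 3)) : ℝ) : ℂ) * m * Z) +
      ((Real.exp (η / 3) : ℝ) : ℂ) * CrP w (K * Real.exp (-η)) α St -
      ((Real.exp (-(η / 3)) : ℝ) : ℂ) * (m * Z) := by
    rw [h1]
    push_cast
    ring
  rw [h5]
  refine (norm_sub_le _ _).trans ?_
  have h6 := norm_add_le (∑ i ∈ Finset.range N, CrQ (GF (Fh (F i) η)) (fun _ => True)
    (sc K M i) α St - ((1 - Real.exp (-(η / 3)) : ℝ) : ℂ) * m * Z)
    (((Real.exp (η / 3) : ℝ) : ℂ) * CrP w (K * Real.exp (-η)) α St)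
  rw [norm_mul (((Real.exp (η / 3) : ℝ) : ℂ)) _, Complex.norm_real,
    Real.norm_of_nonneg (Real.exp_pos _).le] at h6
  rw [norm_mul (((Real.exp (-(η / 3)) : ℝ) : ℂ)) _, Complex.norm_real,
    Real.norm_of_nonneg (Real.exp_pos _).le]
  linarith

/-- the two scales with a predicate -/
theorem CrP_hQ (h : WD w N M F) {η : ℝ} (hη : 0 ≤ η) (Q : Eis → Prop) {K : ℝ} (hK : 0 < K)
    (α u : Eis → ℂ) :
    CrP w K α (fun k => if Q k then u k else 0) =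
      ∑ i ∈ Finset.range N, CrQ (GF (Fh (F i) η)) (fun _ => True) (sc K M i) α u -
      ∑ i ∈ Finset.range N, CrQ (GF (Fh (F i) η)) (fun k => ¬ Q k) (sc K M i) α u +
      ((Real.exp (η / 3) : ℝ) : ℂ) *
        CrP w (K * Real.exp (-η)) α (fun k => if Q k then u k else 0) := by
  have hK' : 0 < K * Real.exp (-η) := by positivity
  rw [← CrQ_eq_CrP, ← CrQ_eq_CrP, CrQ_dec h _ hK, CrQ_dec h _ hK', Finset.mul_sum,
    ← Finset.sum_sub_distrib, ← Finset.sum_add_distrib]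
  refine Finset.sum_congr rfl fun i _ => ?_
  have h1 := CrQ_split (tf1_tf (h.tf i)) hη Q (sc_pos hK M i) α u
  have e : sc K M i * Real.exp (-η) = sc (K * Real.exp (-η)) M i := by
    unfold sc; ring
  rw [e] at h1
  have h2 := CrQ_not (bs_Fh (tf1_tf (h.tf i)) hη) Q (sc_pos hK M i) α u
  rw [h1, h2]
  ring

/-- **`cross_ex`** : the cross sum over any set `Q`, two scales (960 #23951 (2)) -/
theorem cross_ex (h : WD w N M F) {η : ℝ} (hη : 0 ≤ η) (Q : Eis → Prop) {K E0 Y D Y₀ Y₁ : ℝ}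
    (hK : 0 < K) (hE0 : 0 ≤ E0) (hY : 0 ≤ Y) (hD : 0 ≤ D) (hY₁ : 0 < Y₁) {I : ℕ}
    (hI : Y₁ < 2 ^ I) {α : Eis → ℂ} (hα : ∀ n, α n ≠ 0 → n ∈ S Y) (om : Eis × Eis → ℂ) :
    ‖CrP w K α (fun k => if Q k then StE E0 (JW D Y₀ Y₁) om α k else 0) -
      ((pC * (kap0 * mel w (2 / 3) * K ^ (2 / 3 : ℝ)) : ℝ) : ℂ) *
        X2 Y E0 (JW D Y₀ Y₁) om α‖ ≤
      ∑ i ∈ Finset.range N, E2e (GF (Fh (F i) η)) (sc K M i) E0 (S D) Y₁ I (JW D Y₀ Y₁) om α +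
      ∑ i ∈ Finset.range N, ‖CrQ (GF (Fh (F i) η)) (fun k => ¬ Q k) (sc K M i) α
        (StE E0 (JW D Y₀ Y₁) om α)‖ +
      Real.exp (η / 3) * ‖CrP w (K * Real.exp (-η)) α
        (fun k => if Q k then StE E0 (JW D Y₀ Y₁) om α k else 0)‖ +
      Real.exp (-(η / 3)) * ‖((pC * (kap0 * mel w (2 / 3) * K ^ (2 / 3 : ℝ)) : ℝ) : ℂ) *
        X2 Y E0 (JW D Y₀ Y₁) om α‖ := by
  set St := StE E0 (JW D Y₀ Y₁) om α with hSt
  set Z := X2 Y E0 (JW D Y₀ Y₁) om α with hZ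
  set m := ((pC * (kap0 * mel w (2 / 3) * K ^ (2 / 3 : ℝ)) : ℝ) : ℂ) with hm
  have h1 := CrP_hQ h hη Q hK α St
  have h2 : ∀ i : ℕ, ((cM * (sc K M i) ^ (2 / 3 : ℝ) : ℝ) : ℂ) *
      mellin (GF (Fh (F i) η)) ((2 / 3 : ℝ) : ℂ) = ((1 - Real.exp (-(η / 3)) : ℝ) : ℂ) *
        (((cM * (sc K M i) ^ (2 / 3 : ℝ) : ℝ) : ℂ) * mellin (GF (F i)) ((2 / 3 : ℝ) : ℂ)) := by
    intro i
    rw [mellin_Fh (tf1_tf (h.tf i)) η]
    ring
  have h3 : ∑ i ∈ Finset.range N, ((cM * (sc K M i) ^ (2 / 3 : ℝ) : ℝ) : ℂ) *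
      mellin (GF (Fh (F i) η)) ((2 / 3 : ℝ) : ℂ) = ((1 - Real.exp (-(η / 3)) : ℝ) : ℂ) * m := by
    rw [Finset.sum_congr rfl fun i _ => h2 i, ← Finset.mul_sum, mel_dec h hK]
  set A1 := ∑ i ∈ Finset.range N, CrQ (GF (Fh (F i) η)) (fun _ => True) (sc K M i) α St with hA1
  set A2 := ∑ i ∈ Finset.range N, CrQ (GF (Fh (F i) η)) (fun k => ¬ Q k) (sc K M i) α St with hA2
  set A3 := CrP w (K * Real.exp (-η)) α (fun k => if Q k then St k else 0) with hA3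
  have h4 : ‖A1 - ((1 - Real.exp (-(η / 3)) : ℝ) : ℂ) * m * Z‖ ≤
      ∑ i ∈ Finset.range N, E2e (GF (Fh (F i) η)) (sc K M i) E0 (S D) Y₁ I
        (JW D Y₀ Y₁) om α := by
    rw [hA1, ← h3, Finset.sum_mul, ← Finset.sum_sub_distrib]
    refine (norm_sum_le _ _).trans (Finset.sum_le_sum fun i _ => ?_)
    exact E2_any (bs_Fh (tf1_tf (h.tf i)) hη) (sc_pos hK M i) hE0 hY hD hY₁ hI hα om
  have h5 : ‖A2‖ ≤ ∑ i ∈ Finset.range N, ‖CrQ (GF (Fh (F i) η)) (fun k => ¬ Q k)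
      (sc K M i) α St‖ := norm_sum_le _ _
  have e : CrP w K α (fun k => if Q k then St k else 0) - m * Z =
      (A1 - ((1 - Real.exp (-(η / 3)) : ℝ) : ℂ) * m * Z) - A2 +
      ((Real.exp (η / 3) : ℝ) : ℂ) * A3 - ((Real.exp (-(η / 3)) : ℝ) : ℂ) * (m * Z) := by
    rw [h1]
    push_cast
    ring
  rw [e]
  have n1 := norm_sub_le ((A1 - ((1 - Real.exp (-(η / 3)) : ℝ) : ℂ) * m * Z) - A2 +
      ((Real.exp (η / 3) : ℝ) : ℂ) * A3) (((Real.exp (-(η / 3)) : ℝ) : ℂ) * (m * Z))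
  have n2 := norm_add_le ((A1 - ((1 - Real.exp (-(η / 3)) : ℝ) : ℂ) * m * Z) - A2)
    (((Real.exp (η / 3) : ℝ) : ℂ) * A3)
  have n3 := norm_sub_le (A1 - ((1 - Real.exp (-(η / 3)) : ℝ) : ℂ) * m * Z) A2
  rw [norm_mul (((Real.exp (η / 3) : ℝ) : ℂ)) A3, Complex.norm_real,
    Real.norm_of_nonneg (Real.exp_pos _).le] at n2
  rw [norm_mul (((Real.exp (-(η / 3)) : ℝ) : ℂ)) _, Complex.norm_real,
    Real.norm_of_nonneg (Real.exp_pos _).le] at n1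
  linarith

end Crest.Agent.R017.WDec180
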