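import Crest.Agent.R017.LBe_48
import Crest.Agent.R017.WDec2_180
import Crest.Agent.R017.I1e_146

/-!
# Row 17, block C70, the assembly (I1) (helper146): the cross form with level weights

* `rho K X δ e V = min 1 (N(e) yv K X δ V)` : the level weight;  `TR` : the T-moment;
  `RP` : the R-functional of E2 with level weights
* `crossP` : the cross error of `E2fin` through `TR` and `RP`
* **`E2P`** : E2 for a general weight (180's pieces)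
-/

set_option autoImplicit false

noncomputable section

open Complex MeasureTheory
open scoped ComplexConjugate Classical

namespace Crest.Agent.R017.I1146

open Crest.Agent.R012 Crest.Agent.R012.Eis Crest.Agent.R012.MC
open Crest.Agent.R012.LS2 (S mem_S)
open Crest.Agent.R012.Mob705 (pdiv mem_pdiv kap0 mu PE)
open Crest.Agent.R012.Div277 (dvs mem_dvs)
open Crest.Agent.R017.PX764 (Gh n6 th)
open Crest.Agent.R017.X6C180 (n13 cM GF)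
open Crest.Agent.R017.CM106 (CS TG FS)
open Crest.Agent.R017.E1551 hiding tau Dg
open Crest.Agent.R017.C70 (JW JC OKJ okJ_JW)
open Crest.Agent.R017.E2440 (TE StE StT TOK tok_TE E2finG Jb MX AX ApM AX_ApM QsG_ApM cM_nn Qs)
open Crest.Agent.R017.LBx48 (R2 neb sum_blk Jb_empty sqrt_mul_le prim_of_S)
open Crest.Agent.R017.Ex385 (CrQ)
open Crest.Agent.R017.WDec180 (WD sc sc_pos E2e E2_dec)
open Crest.Agent.R017.LB48 (CrP GrP)

/-! ### the weight -/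

/-- the level weight -/
def rho (K X : ℝ) (δ e : Eis) (V : ℝ) : ℝ := min 1 (nm e * yv K X δ V)

lemma rho_le_one (K X : ℝ) (δ e : Eis) (V : ℝ) : rho K X δ e V ≤ 1 := min_le_left _ _

lemma rho_pos {K X : ℝ} (hK : 0 < K) (hX : 0 < X) {δ e : Eis} (hδ : δ ≠ 0) (he : e ≠ 0) {V : ℝ}
    (hV : 0 < V) : 0 < rho K X δ e V :=
  lt_min one_pos (mul_pos (by exact_mod_cast nm_pos.2 he) (yv_pos hK hX hV hδ))

lemma rho_nonneg {K X : ℝ} (hK : 0 ≤ K) (hX : 0 ≤ X) (δ e : Eis) {V : ℝ} (hV : 0 ≤ V) :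
    0 ≤ rho K X δ e V := by
  unfold rho E1551.yv
  positivity

lemma rho_mono {K X : ℝ} (hK : 0 ≤ K) (hX : 0 ≤ X) (δ : Eis) {e e' : Eis}
    (h : (nm e : ℝ) ≤ nm e') {V : ℝ} (hV : 0 ≤ V) : rho K X δ e V ≤ rho K X δ e' V := by
  unfold rho
  refine min_le_min_left _ (mul_le_mul_of_nonneg_right h ?_)
  unfold E1551.yv
  positivity

lemma rho_two {K X : ℝ} (hK : 0 ≤ K) (hX : 0 ≤ X) (δ e : Eis) {V V' : ℝ} (hV : 0 ≤ V')
    (h0 : 0 ≤ V) (h : V ≤ 2 * V') : rho K X δ e V ≤ 2 * rho K X δ e V' := by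
  have h1 : yv K X δ V ≤ 2 * yv K X δ V' := by
    unfold E1551.yv
    have h2 : (K * V) ^ (1 / 3 : ℝ) ≤ 2 * (K * V') ^ (1 / 3 : ℝ) := by
      have h3 : K * V ≤ 8 * (K * V') := by nlinarith [mul_nonneg hK hV]
      calc (K * V) ^ (1 / 3 : ℝ) ≤ (8 * (K * V')) ^ (1 / 3 : ℝ) :=
            Real.rpow_le_rpow (mul_nonneg hK h0) h3 (by norm_num)
        _ = 2 * (K * V') ^ (1 / 3 : ℝ) := by
            rw [Real.mul_rpow (by norm_num) (mul_nonneg hK hV)]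
            congr 1
            rw [show (8 : ℝ) = 2 ^ (3 : ℝ) by norm_num, ← Real.rpow_mul (by norm_num)]
            norm_num
    calc (K * V) ^ (1 / 3 : ℝ) * (X / nm δ) ^ (-(2 / 3) : ℝ) ≤
          (2 * (K * V') ^ (1 / 3 : ℝ)) * (X / nm δ) ^ (-(2 / 3) : ℝ) :=
          mul_le_mul_of_nonneg_right h2 (by positivity)
      _ = _ := by ring
  unfold rho
  rw [mul_min_of_nonneg _ _ (by norm_num : (0 : ℝ) ≤ 2)]
  refine min_le_min (by norm_num) ?_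
  calc (nm e : ℝ) * yv K X δ V ≤ nm e * (2 * yv K X δ V') :=
        mul_le_mul_of_nonneg_left h1 (Nat.cast_nonneg _)
    _ = _ := by ring

/-! ### the functionals -/

/-- **the R-functional of E2 with level weights** -/
def RP (α : Eis → ℂ) (κ : ℝ) (F : ℝ → ℂ) (K X : ℝ) (D : Finset Eis) (I : ℕ) (E0 Z : ℝ) : ℝ :=
  ∑ δ ∈ D, ∑ i ∈ neb δ Z Z I, ∑ e ∈ S E0,
    (κ ^ (-(2 / 3) : ℝ) * (Z / 2 ^ i) ^ (1 / 3 : ℝ) / rho K X δ e (Z / 2 ^ i)) *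
      R2 α κ F δ e (Z / 2 ^ i) ^ 2

/-- the T-moment with level weights -/
def TR (K X : ℝ) (J : Finset (Eis × Eis)) (E0 : ℝ) (U : Eis × Eis → Eis → ℂ) : ℝ :=
  ∑ x ∈ J, n13 x.2 * ∑ e ∈ S E0, rho K X x.1 e (nm x.2) * ‖U x e‖ ^ 2

lemma TR_nonneg {K X : ℝ} (hK : 0 ≤ K) (hX : 0 ≤ X) (J : Finset (Eis × Eis)) (E0 : ℝ)
    (U : Eis × Eis → Eis → ℂ) : 0 ≤ TR K X J E0 U :=
  Finset.sum_nonneg fun x _ => mul_nonneg (X6C180.n13_nonneg _)
    (Finset.sum_nonneg fun _ _ => mul_nonneg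
      (rho_nonneg hK hX _ _ (Nat.cast_nonneg _)) (by positivity))

lemma RP_nonneg {κ K X Z : ℝ} (hκ : 0 ≤ κ) (hK : 0 ≤ K) (hX : 0 ≤ X) (hZ : 0 ≤ Z)
    (α : Eis → ℂ) (F : ℝ → ℂ) (D : Finset Eis) (I : ℕ) (E0 : ℝ) :
    0 ≤ RP α κ F K X D I E0 Z := by
  unfold RP
  refine Finset.sum_nonneg fun δ _ => Finset.sum_nonneg fun i _ => Finset.sum_nonneg fun e _ => ?_
  have := rho_nonneg hK hX δ e (V := Z / 2 ^ i) (by positivity)
  positivity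

set_option maxHeartbeats 1000000 in
/-- **the cross error with level weights** -/
theorem crossP {κ K X θ Z D Y₀ E0 : ℝ} (hκ : 0 < κ) (hK : 0 < K) (hX : 0 < X) (hθ : 0 < θ)
    (hZ : 0 < Z) (α' : Eis → ℂ) (U : Eis × Eis → Eis → ℂ) {Ds : Finset Eis}
    (hDs : ∀ δ ∈ Ds, IsPrim δ ∧ Squarefree δ) (I : ℕ) {om : Eis × Eis → ℂ}
    (hom : ∀ x, ‖om x‖ ≤ 1) (F : ℝ → ℂ) :
    ∑ δ ∈ Ds, ∑ i ∈ Finset.range I, ∑ e ∈ S E0,
      Real.sqrt (∑ x ∈ Jb (JW D Y₀ Z) δ (Z / 2 ^ i), ‖om x‖ ^ 2 * ‖U x e‖ ^ 2) *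
        R2 α' κ F δ e (Z / 2 ^ i) ≤
      2 * θ * (κ ^ (2 / 3 : ℝ) * TR K X (JW D Y₀ Z) E0 U) +
        θ⁻¹ * RP α' κ F K X Ds I E0 Z := by
  set J := JW D Y₀ Z with hJ
  set g : Eis → Eis × Eis → ℝ := fun e x =>
    n13 x.2 * (rho K X x.1 e (nm x.2) * ‖U x e‖ ^ 2)
    with hg
  have hg0 : ∀ e x, 0 ≤ g e x := fun e x => by
    simp only [hg]
    have := X6C180.n13_nonneg x.2
    have := rho_nonneg hK.le hX.le x.1 e (V := (nm x.2 : ℝ)) (Nat.cast_nonneg _)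
    positivity
  have hκ3 : 0 < κ ^ (2 / 3 : ℝ) := by positivity
  have hone : ∀ δ ∈ Ds, ∀ i ∈ Finset.range I, ∀ e ∈ S E0,
      Real.sqrt (∑ x ∈ Jb J δ (Z / 2 ^ i), ‖om x‖ ^ 2 * ‖U x e‖ ^ 2) *
        R2 α' κ F δ e (Z / 2 ^ i) ≤
      2 * θ * κ ^ (2 / 3 : ℝ) * ∑ x ∈ Jb J δ (Z / 2 ^ i), g e x +
      (if (nm δ : ℝ) ^ 2 * (Z / 2 ^ i) < 2 * Z then
        θ⁻¹ * ((κ ^ (-(2 / 3) : ℝ) * (Z / 2 ^ i) ^ (1 / 3 : ℝ) / rho K X δ e (Z / 2 ^ i)) *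
          R2 α' κ F δ e (Z / 2 ^ i) ^ 2) else 0) := by
    intro δ hδ i hi e he
    have hep := prim_of_S he
    by_cases hn : (nm δ : ℝ) ^ 2 * (Z / 2 ^ i) < 2 * Z
    swap
    · rw [hJ, Jb_empty (hDs δ hδ).1 (not_lt.mp hn), Finset.sum_empty, Finset.sum_empty,
        Real.sqrt_zero, zero_mul, mul_zero, if_neg hn, add_zero]
    rw [if_pos hn]
    have hVi : 0 < Z / 2 ^ i := by positivity
    set W := Z / 2 ^ i with hW
    set r := R2 α' κ F δ e W with hr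
    set t := ∑ x ∈ Jb J δ W, ‖om x‖ ^ 2 * ‖U x e‖ ^ 2 with ht
    have ht0 : 0 ≤ t := Finset.sum_nonneg fun _ _ => by positivity
    have hW3 : 0 < W ^ (-(1 / 3) : ℝ) := by positivity
    have hρ := rho_pos hK hX (hDs δ hδ).1.ne_zero hep.ne_zero hVi
    set ρ := rho K X δ e W with hρdef
    set ω := 2 * θ * ρ * κ ^ (2 / 3 : ℝ) * W ^ (-(1 / 3) : ℝ) with hω
    have hω0 : 0 < ω := by positivity
    refine (sqrt_mul_le (r := r) ht0 hω0).trans ?_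
    have a1 : ω * t / 2 ≤ 2 * θ * κ ^ (2 / 3 : ℝ) * ∑ x ∈ Jb J δ W, g e x := by
      have e1 : ω * t / 2 = θ * κ ^ (2 / 3 : ℝ) * (W ^ (-(1 / 3) : ℝ) * ρ * t) := by
        rw [hω]; ring
      have e2 : 2 * θ * κ ^ (2 / 3 : ℝ) * ∑ x ∈ Jb J δ W, g e x =
          θ * κ ^ (2 / 3 : ℝ) * (2 * ∑ x ∈ Jb J δ W, g e x) := by ring
      rw [e1, e2]
      refine mul_le_mul_of_nonneg_left ?_ (by positivity)
      rw [ht, Finset.mul_sum, Finset.mul_sum]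
      refine Finset.sum_le_sum fun x hx => ?_
      unfold E2440.Jb at hx
      rw [Finset.mem_filter] at hx
      obtain ⟨hx1, hx2, hx3, hx4⟩ := hx
      have hxn : (0 : ℝ) < nm x.2 := lt_of_le_of_lt (by positivity) hx3
      have h3 : W ^ (-(1 / 3) : ℝ) ≤ n13 x.2 := by
        unfold X6C180.n13
        rw [show (-(1 : ℝ) / 3) = (-(1 / 3) : ℝ) by norm_num]
        exact Real.rpow_le_rpow_of_nonpos hxn hx4 (by norm_num)
      have h4 : ρ ≤ 2 * rho K X x.1 e (nm x.2) := by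
        rw [hρdef, hx2]
        exact rho_two hK.le hX.le δ e hxn.le hVi.le (by linarith)
      have h5 : ‖om x‖ ^ 2 ≤ 1 := pow_le_one₀ (norm_nonneg _) (hom x)
      have h6 := rho_nonneg hK.le hX.le x.1 e (V := (nm x.2 : ℝ)) (Nat.cast_nonneg _)
      have h8 := X6C180.n13_nonneg x.2
      simp only [hg]
      calc W ^ (-(1 / 3) : ℝ) * ρ * (‖om x‖ ^ 2 * ‖U x e‖ ^ 2) ≤
            n13 x.2 * (2 * rho K X x.1 e (nm x.2)) * (1 * ‖U x e‖ ^ 2) := by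
            gcongr
        _ = _ := by ring
    have a2 : r ^ 2 / ω / 2 ≤ θ⁻¹ * ((κ ^ (-(2 / 3) : ℝ) * W ^ (1 / 3 : ℝ) / ρ) * r ^ 2) := by
      have e1 : κ ^ (-(2 / 3) : ℝ) = (κ ^ (2 / 3 : ℝ))⁻¹ := by
        rw [Real.rpow_neg hκ.le]
      have e2 : W ^ (-(1 / 3) : ℝ) = (W ^ (1 / 3 : ℝ))⁻¹ := by
        rw [Real.rpow_neg hVi.le]
      have hW4 : 0 < W ^ (1 / 3 : ℝ) := by positivity
      have e3 : r ^ 2 / ω / 2 = 1 / 4 * (θ⁻¹ * ((κ ^ (-(2 / 3) : ℝ) * W ^ (1 / 3 : ℝ) / ρ) *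
          r ^ 2)) := by
        rw [hω, e1, e2]
        field_simp
        ring
      rw [e3]
      have : 0 ≤ θ⁻¹ * ((κ ^ (-(2 / 3) : ℝ) * W ^ (1 / 3 : ℝ) / ρ) * r ^ 2) := by
        have : 0 < θ⁻¹ := inv_pos.mpr hθ
        positivity
      linarith
    rw [add_div]
    exact add_le_add a1 a2
  refine (Finset.sum_le_sum fun δ hδ => Finset.sum_le_sum fun i hi =>
    Finset.sum_le_sum fun e he => hone δ hδ i hi e he).trans ?_
  simp_rw [Finset.sum_add_distrib]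
  refine add_le_add ?_ (le_of_eq ?_)
  · have e1 : ∀ δ ∈ Ds, ∀ i ∈ Finset.range I, ∑ e ∈ S E0, 2 * θ * κ ^ (2 / 3 : ℝ) *
        ∑ x ∈ Jb J δ (Z / 2 ^ i), g e x = 2 * θ * κ ^ (2 / 3 : ℝ) *
          ∑ x ∈ Jb J δ (Z / 2 ^ i), ∑ e ∈ S E0, g e x := by
      intro δ _ i _
      rw [← Finset.mul_sum, Finset.sum_comm]
    rw [Finset.sum_congr rfl fun δ hδ => Finset.sum_congr rfl fun i hi => e1 δ hδ i hi]
    simp_rw [← Finset.mul_sum]
    rw [← mul_assoc]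
    refine mul_le_mul_of_nonneg_left ?_ (by positivity)
    refine (sum_blk Ds hZ.le I (f := fun x => ∑ e ∈ S E0, g e x)
      fun x => Finset.sum_nonneg fun e _ => hg0 e x).trans (le_of_eq ?_)
    unfold TR
    refine Finset.sum_congr rfl fun x _ => ?_
    simp only [hg]
    rw [Finset.mul_sum]
  · unfold RP neb
    simp_rw [Finset.mul_sum, Finset.sum_filter]
    refine Finset.sum_congr rfl fun δ _ => Finset.sum_congr rfl fun i _ => ?_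
    split_ifs
    · rfl
    · exact Finset.sum_const_zero

/-- the weight of `TR` -/
def cR (K X E0 : ℝ) (x : Eis × Eis) (t : Eis) : ℝ :=
  if t ∈ S E0 then rho K X x.1 t (nm x.2) else 0

lemma cR_nonneg {K X : ℝ} (hK : 0 ≤ K) (hX : 0 ≤ X) (E0 : ℝ) (x : Eis × Eis) (t : Eis) :
    0 ≤ cR K X E0 x t := by
  unfold cR
  split_ifs
  · exact rho_nonneg hK hX _ _ (Nat.cast_nonneg _)
  · exact le_rfl

/-- `TR` through the T-functional -/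
theorem TR_le (R : ℝ) (hR : 0 ≤ R) (A : ℕ) (hA : 2 ≤ A) : ∃ C : ℝ, 0 ≤ C ∧
    ∀ (Y X K E0 : ℝ), 0 ≤ Y → 0 < X → 0 < K → ∀ α : Eis → ℂ, Adm Y X R α →
      ∀ (J : Finset (Eis × Eis)), OKJ J →
      K ^ (2 / 3 : ℝ) * TR K X J E0 (TE α) ≤ C * (K / X) * TJ (cR K X E0) A K X Y J α := by
  obtain ⟨C, hC, H⟩ := W_le_TJ R hR A hA
  refine ⟨C, hC, fun Y X K E0 hY hX hK α hα J hJ => ?_⟩
  refine le_trans ?_ (H Y X K hY hX hK α hα J hJ (cR K X E0) (cR_nonneg hK.le hX.le E0))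
  refine mul_le_mul_of_nonneg_left ?_ (by positivity)
  unfold TR
  refine Finset.sum_le_sum fun x hx => mul_le_mul_of_nonneg_left ?_ (X6C180.n13_nonneg _)
  have h1 : ∑ e ∈ S E0, rho K X x.1 e (nm x.2) * ‖TE α x e‖ ^ 2 =
      ∑ e ∈ (S Y).filter (fun e => e ∈ S E0), rho K X x.1 e (nm x.2) * ‖TE α x e‖ ^ 2 := by
    symm
    refine Finset.sum_subset (fun e he => (Finset.mem_filter.1 he).2) fun e he he' => ?_
    have h2 : e ∉ S Y := fun h => he' (Finset.mem_filter.2 ⟨h, he⟩)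
    rw [TE_zero hY hα.sup (hJ.prim x hx) (prim_of_S he) h2]
    simp
  rw [h1, Finset.sum_filter]
  refine le_of_eq (Finset.sum_congr rfl fun e _ => ?_)
  unfold cR
  split_ifs
  · rfl
  · rw [zero_mul]

/-- **E2 for a general weight, level weights.** -/
theorem E2P {w : ℝ → ℝ} {N : ℕ} {M : ℝ} {F : ℕ → ℝ → ℂ} (h : WD w N M F) (R : ℝ) (hR : 0 ≤ R)
    (A : ℕ) (hA : 2 ≤ A) : ∃ C : ℝ, 0 ≤ C ∧
    ∀ (Y X K D Y₀ Z E0 : ℝ) (I : ℕ), 0 ≤ Y → 0 < X → 0 < K → 0 ≤ D → 0 < Z → Z < 2 ^ I →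
      0 ≤ E0 → ∀ α : Eis → ℂ, Adm Y X R α → ∀ om : Eis × Eis → ℂ, (∀ x, ‖om x‖ ≤ 1) →
      ‖CrP w K α (StE E0 (JW D Y₀ Z) om α) -
        ((pC * c3 w K : ℝ) : ℂ) * X2 Y E0 (JW D Y₀ Z) om α‖ ≤
      C * (K / X) * TJ (cR K X E0) A K X Y (JW D Y₀ Z) α +
        ∑ i ∈ Finset.range N, RP α (sc K M i) (GF (F i)) K X (S D) I E0 Z := by
  obtain ⟨C₁, hC₁, H₁⟩ := TR_le R hR A hA
  refine ⟨(∑ i ∈ Finset.range N, 2 * (Real.exp (i - M)) ^ (2 / 3 : ℝ)) * C₁,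
    mul_nonneg (Finset.sum_nonneg fun _ _ => by positivity) hC₁, ?_⟩
  intro Y X K D Y₀ Z E0 I hY hX hK hD hZ hI hE0 α hα om hom
  have h1 := E2_dec (Y₀ := Y₀) h hK hE0 hY hD hZ hI hα.sup om
  have h2 := H₁ Y X K E0 hY hX hK α hα (JW D Y₀ Z) (okJ_JW D Y₀ Z)
  refine h1.trans ?_
  have h3 : ∀ i ∈ Finset.range N, E2e (GF (F i)) (sc K M i) E0 (S D) Z I (JW D Y₀ Z) om α ≤
      2 * (Real.exp (i - M)) ^ (2 / 3 : ℝ) *
        (C₁ * ((K / X) * TJ (cR K X E0) A K X Y (JW D Y₀ Z) α)) +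
        RP α (sc K M i) (GF (F i)) K X (S D) I E0 Z := by
    intro i _
    have hs := sc_pos hK M i
    have h4 := crossP (Y₀ := Y₀) (D := D) (E0 := E0) hs hK hX one_pos hZ α (TE α) (Ds := S D)
      (fun δ hδ => ⟨((mem_S hD).1 hδ).2.1, ((mem_S hD).1 hδ).2.2⟩) I hom (GF (F i))
    have e1 : (sc K M i) ^ (2 / 3 : ℝ) = (Real.exp (i - M)) ^ (2 / 3 : ℝ) * K ^ (2 / 3 : ℝ) := by
      unfold WDec180.sc
      rw [Real.mul_rpow hK.le (Real.exp_pos _).le]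
      ring
    rw [e1, inv_one, one_mul, mul_one] at h4
    refine h4.trans ?_
    have h5 : 0 ≤ 2 * (Real.exp (i - M)) ^ (2 / 3 : ℝ) := by positivity
    have h6 := mul_le_mul_of_nonneg_left h2 h5
    refine add_le_add (le_trans (le_of_eq ?_) (h6.trans (le_of_eq ?_))) le_rfl
    · ring
    · ring
  refine (Finset.sum_le_sum h3).trans ?_
  rw [Finset.sum_add_distrib, ← Finset.sum_mul]
  refine add_le_add (le_of_eq ?_) le_rfl
  ring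

/-! ### the R-functional from the inner double sums -/

lemma one_le_tau1 {n : Eis} (hn : IsPrim n) : (1 : ℝ) ≤ Div277.tau n := by
  have : 1 ∈ dvs n := (mem_dvs hn.ne_zero).2 ⟨isPrim_one, one_dvd _⟩
  have h : 0 < (dvs n).card := Finset.card_pos.mpr ⟨1, this⟩
  unfold Div277.tau
  exact_mod_cast h

lemma card_prs_le (δ : Eis) : ((E2440.prs δ).card : ℝ) ≤ (Div277.tau δ : ℝ) ^ 2 := by
  have h1 : (E2440.prs δ).card ≤ (dvs δ).card * (dvs δ).card := by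
    unfold E2440.prs
    refine (Finset.card_filter_le _ _).trans (le_of_eq ?_)
    rw [Finset.card_product]
  have e : (Div277.tau δ : ℝ) = (dvs δ).card := rfl
  rw [e, sq]
  exact_mod_cast h1

lemma card_pdiv_le {δ : Eis} (hδ : IsPrim δ) {y : Eis × Eis} (hy : y ∈ E2440.prs δ) :
    ((pdiv y.1).card : ℝ) ≤ Div277.tau δ := by
  have hy' := (E2440.mem_prs hδ).1 hy
  have h1 : pdiv y.1 ⊆ dvs δ := by
    intro a ha
    have hp : IsPrim y.1 := hy'.1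
    have ha' := (mem_pdiv hp.ne_zero).1 ha
    rw [mem_dvs hδ.ne_zero]
    exact ⟨ha'.1, ha'.2.trans ⟨y.2, hy'.2.2.symm⟩⟩
  have e : (Div277.tau δ : ℝ) = (dvs δ).card := rfl
  rw [e]
  exact_mod_cast Finset.card_le_card h1

set_option maxHeartbeats 1000000 in
/-- **`RP` from a uniform bound of the inner double sums** -/
theorem RP_Qs {ε : ℝ} (hε : 0 < ε) : ∃ C : ℝ, 0 ≤ C ∧
    ∀ (P κ K X D Z E0 Rn : ℝ) (I : ℕ), 1 ≤ P → 0 < κ → 0 < K → 0 < X → 0 ≤ D → D ≤ P →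
      0 < Z → 0 ≤ E0 → E0 ≤ P → (2 : ℝ) ^ I ≤ P → 0 ≤ Rn → ∀ (α : Eis → ℂ) (F : ℝ → ℂ),
      (∀ δ ∈ S D, ∀ i ∈ neb δ Z Z I, ∀ e ∈ S E0, ∀ y ∈ E2440.prs δ, ∀ a ∈ pdiv y.1,
        ∑ c ∈ E2440.C4, ∑ j₂ ∈ S (Real.sqrt (Z / 2 ^ i)), Qs α δ e (Z / 2 ^ i) κ F y a c j₂ ≤
          Rn * rho K X δ e (Z / 2 ^ i) *
            (κ ^ (2 / 3 : ℝ) * (Z / 2 ^ i) ^ (-(1 / 3) : ℝ) / (nm δ * nm e))) →
      RP α κ F K X (S D) I E0 Z ≤ C * P ^ ε * Rn := by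
  obtain ⟨k, hk⟩ : ∃ k : ℕ, k = 2 ^ 6 := ⟨_, rfl⟩
  obtain ⟨C₁, hC₁, H₁⟩ := PInv255.one_add_log_pow_le (k + k + 1) ε hε
  obtain ⟨c₀, hc₀, hc₀1⟩ : ∃ c₀ : ℝ, c₀ = 100 ^ k ∧ 0 ≤ c₀ := ⟨_, rfl, by positivity⟩
  refine ⟨c₀ * c₀ * 2 * C₁, by positivity, ?_⟩
  intro P κ K X D Z E0 Rn I hP hκ hK hX hD hDP hZ hE0 hEP hI hRn α F hQ
  have hlP := Real.log_nonneg hP
  set L := 1 + Real.log P with hL
  have hL0 : 0 ≤ L := by rw [hL]; linarith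
  set N := ⌊P⌋₊ with hN
  have hN1 : (1 : ℝ) ≤ N := by exact_mod_cast Nat.le_floor (by exact_mod_cast hP)
  have hNP : (N : ℝ) ≤ P := Nat.floor_le (by linarith)
  have hlN : Real.log N ≤ Real.log P := Real.log_le_log (by linarith) hNP
  have hsub : ∀ E : ℝ, E ≤ P → S E ⊆ Div277.nz N := fun E hE x hx => by
    unfold LS2.S at hx
    have h1 := (Finset.mem_filter.1 hx).1
    rw [mem_primBall] at h1
    exact Div277.primBall_subset_nz N (mem_primBall.2 ⟨h1.1.trans (Nat.floor_le_floor hE), h1.2⟩)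
  have hsum := Div277.sum_tau_pow_div_le 6 N
  have hsum' : ∑ n ∈ Div277.nz N, ((Div277.tau n : ℝ) ^ 6 / nm n) ≤
      c₀ * L ^ k := by
    refine hsum.trans ?_
    rw [← hk, mul_pow, hc₀]
    have hl0 : 0 ≤ Real.log (N : ℝ) := Real.log_nonneg hN1
    have h1 : 1 + Real.log N ≤ L := by rw [hL]; linarith
    exact mul_le_mul_of_nonneg_left (pow_le_pow_left₀ (by linarith) h1 k) (by positivity)
  have hterm : ∀ δ ∈ S D, ∀ i ∈ neb δ Z Z I, ∀ e ∈ S E0,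
      (κ ^ (-(2 / 3) : ℝ) * (Z / 2 ^ i) ^ (1 / 3 : ℝ) / rho K X δ e (Z / 2 ^ i)) *
        R2 α κ F δ e (Z / 2 ^ i) ^ 2 ≤
      Rn * (((Div277.tau δ : ℝ) ^ 6 / nm δ) * ((Div277.tau e : ℝ) ^ 6 / nm e)) := by
    intro δ hδ i hi e he
    have hδp := prim_of_S hδ
    have hep := prim_of_S he
    have hV : 0 < Z / 2 ^ i := by positivity
    set V := Z / 2 ^ i with hVdef
    have hρ := rho_pos hK hX hδp.ne_zero hep.ne_zero hV
    set ρ := rho K X δ e V with hρd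
    have hδn := nmpos hδp.ne_zero
    have hen := nmpos hep.ne_zero
    set Q0 := Rn * ρ * (κ ^ (2 / 3 : ℝ) * V ^ (-(1 / 3) : ℝ) / (nm δ * nm e)) with hQ0
    have hQ00 : 0 ≤ Q0 := by positivity
    have hτ : (1 : ℝ) ≤ Div277.tau δ := one_le_tau1 hδp
    have h1 : R2 α κ F δ e V ≤ (Div277.tau δ : ℝ) ^ 3 * Real.sqrt Q0 := by
      unfold LBx48.R2
      have h2 : ∀ y ∈ E2440.prs δ, ∑ a ∈ pdiv y.1, Real.sqrt (∑ c ∈ E2440.C4,
          ∑ j₂ ∈ S (Real.sqrt V), Qs α δ e V κ F y a c j₂) ≤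
          (Div277.tau δ : ℝ) * Real.sqrt Q0 := by
        intro y hy
        refine (Finset.sum_le_sum fun a ha => Real.sqrt_le_sqrt (hQ δ hδ i hi e he y hy a ha)).trans
          ?_
        rw [Finset.sum_const, nsmul_eq_mul]
        exact mul_le_mul_of_nonneg_right (card_pdiv_le hδp hy) (Real.sqrt_nonneg _)
      refine (Finset.sum_le_sum h2).trans ?_
      rw [Finset.sum_const, nsmul_eq_mul]
      have h3 := card_prs_le δ
      calc ((E2440.prs δ).card : ℝ) * ((Div277.tau δ : ℝ) * Real.sqrt Q0) ≤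
            (Div277.tau δ : ℝ) ^ 2 * ((Div277.tau δ : ℝ) * Real.sqrt Q0) :=
            mul_le_mul_of_nonneg_right h3 (by positivity)
        _ = _ := by ring
    have h0 : 0 ≤ R2 α κ F δ e V := by
      unfold LBx48.R2
      exact Finset.sum_nonneg fun _ _ => Finset.sum_nonneg fun _ _ => Real.sqrt_nonneg _
    have h4 : R2 α κ F δ e V ^ 2 ≤ (Div277.tau δ : ℝ) ^ 6 * Q0 := by
      calc R2 α κ F δ e V ^ 2 ≤ ((Div277.tau δ : ℝ) ^ 3 * Real.sqrt Q0) ^ 2 :=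
            pow_le_pow_left₀ h0 h1 2
        _ = (Div277.tau δ : ℝ) ^ 6 * Real.sqrt Q0 ^ 2 := by ring
        _ = _ := by rw [Real.sq_sqrt hQ00]
    have hc : 0 ≤ κ ^ (-(2 / 3) : ℝ) * V ^ (1 / 3 : ℝ) / ρ := by positivity
    refine (mul_le_mul_of_nonneg_left h4 hc).trans ?_
    have e1 : κ ^ (-(2 / 3) : ℝ) = (κ ^ (2 / 3 : ℝ))⁻¹ := by rw [Real.rpow_neg hκ.le]
    have e2 : V ^ (-(1 / 3) : ℝ) = (V ^ (1 / 3 : ℝ))⁻¹ := by rw [Real.rpow_neg hV.le]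
    have hk3 : 0 < κ ^ (2 / 3 : ℝ) := by positivity
    have hV3 : 0 < V ^ (1 / 3 : ℝ) := by positivity
    have e3 : κ ^ (-(2 / 3) : ℝ) * V ^ (1 / 3 : ℝ) / ρ * ((Div277.tau δ : ℝ) ^ 6 * Q0) =
        Rn * (((Div277.tau δ : ℝ) ^ 6 / nm δ) * (1 / nm e)) := by
      rw [hQ0, e1, e2]
      field_simp
    rw [e3]
    have hτe : (1 : ℝ) ≤ (Div277.tau e : ℝ) ^ 6 := one_le_pow₀ (one_le_tau1 hep)
    gcongr
  unfold RP
  have h5 : ∑ δ ∈ S D, ∑ i ∈ neb δ Z Z I, ∑ e ∈ S E0,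
      (κ ^ (-(2 / 3) : ℝ) * (Z / 2 ^ i) ^ (1 / 3 : ℝ) / rho K X δ e (Z / 2 ^ i)) *
        R2 α κ F δ e (Z / 2 ^ i) ^ 2 ≤
      ∑ δ ∈ S D, ∑ _i ∈ Finset.range I, ∑ e ∈ S E0,
        Rn * (((Div277.tau δ : ℝ) ^ 6 / nm δ) * ((Div277.tau e : ℝ) ^ 6 / nm e)) := by
    refine Finset.sum_le_sum fun δ hδ => ?_
    refine (Finset.sum_le_sum fun i hi => Finset.sum_le_sum fun e he =>
      hterm δ hδ i hi e he).trans ?_
    refine Finset.sum_le_sum_of_subset_of_nonneg (Finset.filter_subset _ _) fun i _ _ =>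
      Finset.sum_nonneg fun e _ => by positivity
  refine h5.trans ?_
  have h6 : ∑ δ ∈ S D, ∑ _i ∈ Finset.range I, ∑ e ∈ S E0,
        Rn * (((Div277.tau δ : ℝ) ^ 6 / nm δ) * ((Div277.tau e : ℝ) ^ 6 / nm e)) =
      Rn * I * ((∑ δ ∈ S D, (Div277.tau δ : ℝ) ^ 6 / nm δ) *
        ∑ e ∈ S E0, (Div277.tau e : ℝ) ^ 6 / nm e) := by
    rw [Finset.sum_mul_sum, Finset.mul_sum]
    refine Finset.sum_congr rfl fun δ _ => ?_
    rw [Finset.sum_const, Finset.card_range, nsmul_eq_mul, Finset.mul_sum, Finset.mul_sum]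
    refine Finset.sum_congr rfl fun e _ => ?_
    ring
  rw [h6]
  have h7 : ∀ E : ℝ, E ≤ P → ∑ δ ∈ S E, (Div277.tau δ : ℝ) ^ 6 / nm δ ≤
      c₀ * L ^ k := fun E hE =>
    (Finset.sum_le_sum_of_subset_of_nonneg (hsub E hE) fun _ _ _ => by positivity).trans hsum'
  have hI' : (I : ℝ) ≤ 2 * L := by
    have h8 : (I : ℝ) * Real.log 2 ≤ Real.log P := by
      rw [← Real.log_pow]
      exact Real.log_le_log (by positivity) hI
    have h9 : (1 : ℝ) / 2 ≤ Real.log 2 := by linarith [Real.log_two_gt_d9]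
    have h10 : (I : ℝ) * (1 / 2) ≤ I * Real.log 2 :=
      mul_le_mul_of_nonneg_left h9 (Nat.cast_nonneg _)
    linarith
  have h11 : 0 ≤ ∑ e ∈ S E0, (Div277.tau e : ℝ) ^ 6 / nm e :=
    Finset.sum_nonneg fun _ _ => by positivity
  calc Rn * I * ((∑ δ ∈ S D, (Div277.tau δ : ℝ) ^ 6 / nm δ) *
        ∑ e ∈ S E0, (Div277.tau e : ℝ) ^ 6 / nm e) ≤
      Rn * (2 * L) * ((c₀ * L ^ k) * (c₀ * L ^ k)) :=
        mul_le_mul (mul_le_mul_of_nonneg_left hI' hRn)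
          (mul_le_mul (h7 D hDP) (h7 E0 hEP) h11 (by positivity))
          (mul_nonneg (Finset.sum_nonneg fun _ _ => by positivity) h11) (by positivity)
    _ = c₀ * c₀ * 2 * L ^ (k + k + 1) * Rn := by
        rw [pow_add, pow_add, pow_one]
        ring
    _ ≤ c₀ * c₀ * 2 * (C₁ * P ^ ε) * Rn :=
        mul_le_mul_of_nonneg_right (mul_le_mul_of_nonneg_left (H₁ P hP) (by positivity)) hRn
    _ = _ := by ring

end Crest.Agent.R017.I1146
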