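import Crest.Agent.R017.I1l_146
import Crest.Agent.R017.I1m_146

/-!
# Row 17, block C70, the assembly (I1) (helper146): `(I1)` for lists, E2 with level weights

* `TJR` : the T-moment with level weights for lists, from `FlatL`
* **`I1LP`** : `(I1)` for a dominated sequence: `C X^ε K e^n (1 + F + F₂)`, the R-functional `RP`,
  the cross tail `et` and the Gram error `e₃`
* **`I1LPT`** : the same for the twisted list
-/

set_option autoImplicit false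

noncomputable section

open Finset MeasureTheory
open scoped ComplexConjugate Classical

namespace Crest.Agent.R017.I1146

open Crest.Agent.R012 Crest.Agent.R012.Eis Crest.Agent.R012.MC Crest.Agent.R012.Gauss880
open Crest.Agent.R012.LS2 (S mem_S)
open Crest.Agent.R012.Weight600 (pw)
open Crest.Agent.R017.CM106 (CS FS TG)
open Crest.Agent.R017.C70
open Crest.Agent.R017.HP842 (Pc pc sqc alL)
open Crest.Agent.R017.B770
open Crest.Agent.R017.FE47 (PU cx)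
open Crest.Agent.R017.Prov71
open Crest.Agent.R017.Leg381 (Pf alF SF LF natl alF_natl)
open Crest.Agent.R017.E1551
open Crest.Agent.R017.E2440 (StE)
open Crest.Agent.R017.LB48 (CrP GrP)
open Crest.Agent.R017.Rough381 (VF)
open Crest.Agent.R017.X6C180 (GF)
open Crest.Agent.R017.WDec180 (WD sc)

/-- the T-moment with level weights, `c` bounded by the weight -/
theorem TJR {h : ℝ → ℝ} {c : ℝ} (hpu : PU h c) (N : ℕ) {ε M B₂ : ℝ} (hε : 0 < ε) (hM : 0 ≤ M)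
    (hB₂ : 0 < B₂) {ν Dd : ℝ} (hν : 1 ≤ ν) (hDd : 0 ≤ Dd) {A : ℕ} (hA : (N : ℝ) * M + 1 < A) :
    ∃ C r : ℝ, 0 ≤ C ∧ 0 ≤ r ∧ ∀ X : ℝ, 3 ≤ X → ∀ (P : DPar), P.OK → ∀ (q : Eis) (ps : List Pq),
      ps.length ≤ N → (∀ p ∈ ps, 0 ≤ p.z ∧ p.z ≤ Real.log X) →
      ∀ (K Y D Y₀ Z T E0 F : ℝ), 0 < K → 1 ≤ Y → Y ≤ X ^ B₂ → 0 < Z → Z * ν ≤ X →
      Real.log (Z * ν) ≤ T → 0 ≤ F → FlatL h P q ps (X ^ B₂) r M (Real.log K) T F →
      ∀ al : Eis → ℂ, Dom ν Dd (sqc q (alF 1 1 P h (natl ps))) al →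
      (∀ n, al n ≠ 0 → n ∈ S Y) →
      TJ (cR K (Real.exp (LN ps)) E0) A K (Real.exp (LN ps)) Y (JW D Y₀ Z) al ≤
        C * X ^ ε * (F * Real.exp (2 * LN ps)) := by
  set a₁ : ℝ := B₂ + 1 with ha₁
  have ha₁0 : 0 < a₁ := by positivity
  set ε' : ℝ := ε / (2 * a₁) with hε'
  have hε'0 : 0 < ε' := by positivity
  have hε2 : 0 < ε / 2 := by positivity
  obtain ⟨Cb, rb, hCb, hrb, Hb⟩ := numL hpu N hB₂.le hε2 hM
  obtain ⟨C₁, hC₁, H₁⟩ := TJ_le (A := A) (J := (N : ℝ) * M) (ε := ε') hA (by positivity) hε'0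
  refine ⟨C₁ * (Dd * ν ^ (1 / 3 : ℝ) * Cb), rb, by positivity, hrb, ?_⟩
  intro X hX P hP q ps hN hz K Y D Y₀ Z T E0 F hK0 hY1 hYu hZ hZX hT hF hcl al hdom hsup
  have hX1 : (1 : ℝ) ≤ X := by linarith
  have hX0 : 0 < X := by linarith
  have hY0 : 0 < Y := by linarith
  have hν0 : 0 < ν := by linarith
  set n := LN ps with hn
  set ν₃ : ℝ := ν ^ (1 / 3 : ℝ) with hν₃
  have hν₃1 : 1 ≤ ν₃ := Real.one_le_rpow hν (by norm_num)
  set Pb : ℝ := X ^ a₁ with hPb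
  have hPb1 : 1 ≤ Pb := Real.one_le_rpow hX1 ha₁0.le
  have hYPb : Y ≤ Pb := hYu.trans (Real.rpow_le_rpow_of_exponent_le hX1 (by rw [ha₁]; linarith))
  have hXPb : X ≤ Pb := by
    calc X = X ^ (1 : ℝ) := (Real.rpow_one X).symm
      _ ≤ _ := Real.rpow_le_rpow_of_exponent_le hX1 (by rw [ha₁]; linarith)
  have hPe : Pb ^ ε' = X ^ (ε / 2) := by
    rw [hPb, ← Real.rpow_mul hX0.le]
    congr 1
    rw [hε']
    field_simp
  have hXe : X ^ (ε / 2) * X ^ (ε / 2) = X ^ ε := by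
    rw [← Real.rpow_add hX0]; congr 1; ring
  have hZPb : Z ≤ Pb := (le_mul_of_one_le_right hZ.le hν).trans (hZX.trans hXPb)
  have key := H₁ Pb K (Real.exp n) Y D Y₀ Z
    (Dd * ν₃ * (Cb * X ^ (ε / 2) * (F * Real.exp (2 * n)))) al hPb1 hK0 (Real.exp_pos n) hY1 hYPb
    hZPb (by positivity) hsup (cR K (Real.exp n) E0)
    (cR_nonneg hK0.le (Real.exp_pos n).le E0)
    (fun δ B V => min 1 (|B| * (yv K (Real.exp n) δ |V|)))
    (fun δ B V => by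
      have : 0 ≤ yv K (Real.exp n) δ |V| := by
        unfold E1551.yv
        positivity
      positivity)
    (fun δ hδ t ht j hj B V hB1 hB2 hV1 hV2 => by
      have hBn : 0 ≤ B := (Nat.cast_nonneg _).trans hB1
      have hVn : 0 ≤ V := (Nat.cast_nonneg _).trans hV1
      have h0 : (0 : ℝ) ≤ min 1 (|B| * (yv K (Real.exp n) δ |V|)) := by
        have : 0 ≤ yv K (Real.exp n) δ |V| := by
          unfold E1551.yv
          positivity
        positivity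
      unfold cR
      split_ifs
      · unfold rho
        rw [abs_of_nonneg hBn, abs_of_nonneg hVn]
        refine min_le_min_left _ (mul_le_mul hB1 ?_ ?_ hBn)
        · unfold E1551.yv
          refine mul_le_mul_of_nonneg_right (Real.rpow_le_rpow (by positivity)
            (mul_le_mul_of_nonneg_left hV1 hK0.le) (by norm_num)) (by positivity)
        · unfold E1551.yv
          positivity
      · exact h0)
    (fun δ hδ B V hB1 hB2 hV1 hV2 t => by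
      obtain ⟨h2, h1, -⟩ := (mem_S hY0.le).1 hδ
      have hδn : (0 : ℝ) < nm δ := by exact_mod_cast nm_pos.2 h1.ne_zero
      have hδ1 : (1 : ℝ) ≤ nm δ := by exact_mod_cast nm_pos.2 h1.ne_zero
      have hV0 : 0 < V := by linarith
      have hB0 : 0 < B := by linarith
      have hVν : 1 ≤ V * ν := one_le_mul_of_one_le_of_one_le hV1 hν
      have hVZ : V ≤ Z := hV2.trans (div_le_self hZ.le (one_le_pow₀ hδ1))
      have hVX : V * ν ≤ X := (mul_le_mul_of_nonneg_right hVZ hν0.le).trans hZX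
      have hVT : Real.log (V * ν) ≤ T - 2 * Real.log (nm δ) := by
        have h3 := Real.log_le_log hV0 hV2
        rw [Real.log_div hZ.ne' (by positivity), Real.log_pow] at h3
        push_cast at h3
        rw [Real.log_mul hV0.ne' hν0.ne']
        rw [Real.log_mul hZ.ne' hν0.ne'] at hT
        linarith
      have h5 := Hb X hX P hP q ps hN hz K T F hK0 hF hcl δ h1 (h2.trans hYu) B (V * ν)
        Y t (fun _ => True) hB1 (hB2.trans hYu) hVν hVX hY0.le hVT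
      rw [yv_nu hK0.le δ hV0.le hν0.le] at h5
      have h6 := hdom.jb Y (fun _ => True) δ B V t h1 hY0.le hV1
      have hy := yv_pos hK0 (Real.exp_pos n) hV0 h1.ne_zero
      set y := yv K (Real.exp n) δ V with hydef
      have hν₃0 : 0 < ν₃ := by linarith
      rw [abs_of_pos hB0, abs_of_pos hV0, ← hydef]
      have h7 : max B⁻¹ (ν₃ * y) ≤ ν₃ * max B⁻¹ y := by
        refine max_le ?_ (mul_le_mul_of_nonneg_left (le_max_right _ _) (by linarith))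
        calc B⁻¹ ≤ ν₃ * B⁻¹ := le_mul_of_one_le_left (by positivity) hν₃1
          _ ≤ _ := mul_le_mul_of_nonneg_left (le_max_left _ _) (by linarith)
      have h8 : min 1 (B * y) * y⁻¹ * max B⁻¹ y ≤ 1 := by
        rcases le_total B⁻¹ y with h | h
        · rw [max_eq_right h]
          calc min 1 (B * y) * y⁻¹ * y = min 1 (B * y) := by field_simp
            _ ≤ 1 := min_le_left _ _
        · rw [max_eq_left h]
          calc min 1 (B * y) * y⁻¹ * B⁻¹ ≤ (B * y) * y⁻¹ * B⁻¹ := by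
                have := min_le_right 1 (B * y)
                gcongr
            _ = 1 := by field_simp
      have hmn : 0 ≤ min 1 (B * y) := by positivity
      calc min 1 (B * y) * (nm δ * y⁻¹) * JB Y al (fun _ => True) δ B V t ≤
            min 1 (B * y) * (nm δ * y⁻¹) * (Dd * (Cb * X ^ (ε / 2) *
              (F * Real.exp (2 * n)) / (nm δ : ℝ) ^ 2 * (ν₃ * max B⁻¹ y) *
                (1 + |t|) ^ ((N : ℝ) * M))) := by
            refine mul_le_mul_of_nonneg_left (h6.trans (mul_le_mul_of_nonneg_left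
              (h5.trans ?_) hDd)) (by positivity)
            have h9 : 0 ≤ Cb * X ^ (ε / 2) * (F * Real.exp (2 * n)) / (nm δ : ℝ) ^ 2 := by
              positivity
            exact mul_le_mul_of_nonneg_right (mul_le_mul_of_nonneg_left h7 h9) (by positivity)
        _ = (min 1 (B * y) * y⁻¹ * max B⁻¹ y) * (Dd * ν₃ * (Cb * X ^ (ε / 2) *
              (F * Real.exp (2 * n))) / nm δ * (1 + |t|) ^ ((N : ℝ) * M)) := by
            field_simp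
        _ ≤ 1 * (Dd * ν₃ * (Cb * X ^ (ε / 2) *
              (F * Real.exp (2 * n))) / nm δ * (1 + |t|) ^ ((N : ℝ) * M)) :=
            mul_le_mul_of_nonneg_right h8 (by positivity)
        _ = _ := one_mul _)
  refine key.trans (le_of_eq ?_)
  rw [hPe]
  calc C₁ * X ^ (ε / 2) * (Dd * ν₃ * (Cb * X ^ (ε / 2) * (F * Real.exp (2 * n)))) =
        C₁ * (Dd * ν₃ * Cb) * (X ^ (ε / 2) * X ^ (ε / 2)) * (F * Real.exp (2 * n)) := by ring
    _ = _ := by rw [hXe]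

lemma FlatL.monoT {h : ℝ → ℝ} {P : DPar} {q : Eis} {ps : List Pq} {G r M κ T T' F : ℝ}
    (hT : T ≤ T') (H : FlatL h P q ps G r M κ T' F) : FlatL h P q ps G r M κ T F :=
  fun g hg hG b l ps' hb hl hc h1 h2 => H g hg hG b l ps' hb hl hc h1 (by linarith)

set_option maxHeartbeats 1000000 in
/-- **(I1) for a sequence dominated by a natural list, E2 with level weights.** -/
theorem I1LP {w : ℝ → ℝ} (hw : Wgt w) (hw0 : ∀ x, 0 ≤ w x) {Nw : ℕ} {Mw : ℝ} {Fw : ℕ → ℝ → ℂ}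
    (hWD : WD w Nw Mw Fw) {h : ℝ → ℝ} {c : ℝ} (hpu : PU h c)
    (N : ℕ) {R₁ : ℝ} (hR₁ : 0 ≤ R₁) (hR : ∀ u, cx h u ≠ 0 → |u| ≤ R₁) {ε e₁ M B₂ : ℝ}
    (hε : 0 < ε) (he₁ : 0 < e₁) (hM : 0 ≤ M) (hB₂ : 0 < B₂) {ν Dd : ℝ} (hν : 1 ≤ ν)
    (hDd : 0 ≤ Dd) :
    ∃ C r : ℝ, 0 ≤ C ∧ 0 ≤ r ∧ ∀ X : ℝ, 3 ≤ X → ∀ (P : DPar), P.OK → ∀ (q : Eis) (ps : List Pq),
      ps.length ≤ N → (∀ p ∈ ps, 0 ≤ p.z ∧ p.z ≤ Real.log X) → LN ps ≤ Real.log X →
      ∀ (K Y D Y₀ Y₁ D' Y₁' T₀ E0 F F₂ : ℝ) (I : ℕ), 1 ≤ K →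
      Real.exp (LN ps + N * R₁ + 1) ≤ Y → Y ≤ X ^ B₂ → 0 ≤ D → 0 < Y₁ → D ≤ D' → Y₁ ≤ Y₁' →
      Y₁' ≤ D' ^ 2 → Y₁' * ν ≤ X → Real.exp (2 * LN ps) * X ^ e₁ ≤ K * Y₁' → Y₀ < 1 → 0 < E0 →
      Y₁ < 2 ^ I → 0 < T₀ → 0 ≤ F → 0 ≤ F₂ →
      FlatO h P q ps r M (Real.log K) (Real.log (Y₁' * ν)) F →
      FlatL h P q ps (X ^ B₂) r M (Real.log K) (Real.log (Y₁' * ν)) F →
      Tail h P q ps (X ^ B₂) r M (Real.log K) (Real.log (Y₁' * ν)) (Real.log T₀) (Real.log E0)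
        F₂ → ∀ al : Eis → ℂ, Dom ν Dd (sqc q (alF 1 1 P h (natl ps))) al →
      ∀ om : Eis × Eis → ℂ, (∀ x, ‖1 - om x‖ ≤ 1) → (∀ x, ‖om x‖ ≤ 1) →
      (∀ x : Eis × Eis, (nm (x.2 * x.1 ^ 2) : ℝ) ≤ T₀ → om x = 1) →
      (∀ x ∈ JW D' Y₀ Y₁', x ∉ JW D Y₀ Y₁ → om x = 0) → ∀ (Q : Eis → Prop) (et e₃ : ℝ),
      ‖CrP w K al (fun k => if Q k then 0 else StE E0 (JW D Y₀ Y₁) om al k)‖ ≤ et →
      GrP w K (fun k => if Q k then StE E0 (JW D Y₀ Y₁) om al k else 0) ≤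
        c3 w K * (X3 Y E0 (JW D Y₀ Y₁) om al).re + e₃ →
      ∑' k : Eis, (if IsPrim k ∧ Q k then w (nm k / K) *
        ‖CS al k - (pC : ℂ) * StE E0 (JW D Y₀ Y₁) om al k‖ ^ 2 else 0) ≤
      C * X ^ ε * (K * Real.exp (LN ps)) * (1 + F + F₂) +
        2 * pC * (∑ i ∈ Finset.range Nw,
          RP al (sc K Mw i) (GF (Fw i)) K (Real.exp (LN ps)) (S D) I E0 Y₁ + et) +
        pC ^ 2 * e₃ := by
  have hN0 : (0 : ℝ) ≤ N := Nat.cast_nonneg _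
  have hP0 := Cst401.pC_pos
  set A : ℕ := ⌈(N : ℝ) * M⌉₊ + 2 with hA
  have hA2 : 2 ≤ A := by omega
  have hJA : (N : ℝ) * M + 1 < A := by
    have h1 := Nat.le_ceil ((N : ℝ) * M)
    rw [hA]
    push_cast
    linarith
  obtain ⟨C₁, r₁, hC₁, hr₁, H₁⟩ := I1LX hw hw0 hpu N hR₁ hR hε he₁ hM hB₂ hν hDd
  obtain ⟨C₂, r₂, hC₂, hr₂, H₂⟩ := TJR hpu N hε hM hB₂ hν hDd hJA
  obtain ⟨C₃, hC₃, H₃⟩ := E2P hWD (2 * (N * R₁)) (by positivity) A hA2
  refine ⟨C₁ + 2 * pC * (C₃ * C₂), max r₁ r₂, by positivity, le_max_of_le_left hr₁, ?_⟩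
  intro X hX P hP q ps hN hz hLX K Y D Y₀ Y₁ D' Y₁' T₀ E0 F F₂ I hK hYl hYu hD hY₁ hDD hYY hYD
    hYX hKX hY₀ hE0 hI hT₀ hF hF₂ hco hcl htl al hdom om hom1 homb hom homJ Q et e₃ ht he
  have hX1 : (1 : ℝ) ≤ X := by linarith
  have hX0 : 0 < X := by linarith
  have hK0 : 0 < K := by linarith
  set n := LN ps with hn
  have hn0 : 0 ≤ n := by
    rw [hn]
    unfold LN
    refine List.sum_nonneg fun x hx => ?_
    obtain ⟨p, hp, rfl⟩ := List.mem_map.1 hx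
    exact (hz p hp).1
  set α := sqc q (alF 1 1 P h (natl ps)) with hα
  have hY1 : 1 ≤ Y := le_trans (Real.one_le_exp (by positivity)) hYl
  have hY0 : 0 < Y := by linarith
  have hadm₀ : Adm Y (Real.exp n) (2 * (N * R₁)) α := Adm_list hR₁ hR P q hN
    (le_trans (Real.exp_le_exp.2 (by linarith)) hYl)
  have hne : ∀ m, al m ≠ 0 → α m ≠ 0 := fun m hm h0 => hm (norm_le_zero_iff.1 (by
    have := hdom.le m
    rw [h0, norm_zero] at this
    exact this))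
  have hadm : Adm Y (Real.exp n) (2 * (N * R₁)) al :=
    ⟨fun m hm => hadm₀.sup m (hne m hm), fun m hm => hadm₀.win m (hne m hm)⟩
  have hY₁'0 : 0 < Y₁' := hY₁.trans_le hYY
  have hν0 : 0 < ν := by linarith
  have hY1ν : Y₁ * ν ≤ Y₁' * ν := mul_le_mul_of_nonneg_right hYY hν0.le
  -- the T-moment
  have b1 := H₂ X hX P hP q ps hN hz K Y D Y₀ Y₁ (Real.log (Y₁' * ν)) E0 F hK0 hY1 hYu hY₁
    (hY1ν.trans hYX) (Real.log_le_log (by positivity) hY1ν) hF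
    (hcl.mono (le_max_right r₁ r₂)) al hdom hadm.sup
  have b2 := H₃ Y (Real.exp n) K D Y₀ Y₁ E0 I hY0.le (Real.exp_pos n) hK0 hD hY₁ hI hE0.le al
    hadm om homb
  set RR := ∑ i ∈ Finset.range Nw, RP al (sc K Mw i) (GF (Fw i)) K (Real.exp n) (S D) I E0 Y₁
    with hRR
  have hKn : K / Real.exp n * (F * Real.exp (2 * n)) = (K * Real.exp n) * F := by
    have : Real.exp (2 * n) = Real.exp n * Real.exp n := by rw [two_mul, Real.exp_add]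
    rw [this]
    field_simp
  have b3 : C₃ * (K / Real.exp n) * TJ (cR K (Real.exp n) E0) A K (Real.exp n) Y
      (JW D Y₀ Y₁) al ≤ C₃ * C₂ * X ^ ε * (K * Real.exp n) * F := by
    calc _ ≤ C₃ * (K / Real.exp n) * (C₂ * X ^ ε * (F * Real.exp (2 * n))) :=
          mul_le_mul_of_nonneg_left b1 (by positivity)
      _ = C₃ * C₂ * X ^ ε * (K / Real.exp n * (F * Real.exp (2 * n))) := by ring
      _ = _ := by rw [hKn]; ring
  have hcross : ‖CrP w K al (fun k => if Q k then StE E0 (JW D Y₀ Y₁) om al k else 0) -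
      ((pC * c3 w K : ℝ) : ℂ) * X2 Y E0 (JW D Y₀ Y₁) om al‖ ≤
      C₃ * C₂ * X ^ ε * (K * Real.exp n) * F + RR + et := by
    have e1 : CrP w K al (fun k => if Q k then StE E0 (JW D Y₀ Y₁) om al k else 0) =
        CrP w K al (StE E0 (JW D Y₀ Y₁) om al) -
          CrP w K al (fun k => if Q k then 0 else StE E0 (JW D Y₀ Y₁) om al k) :=
      LB48.CrP_cut hw hK0 al (StE E0 (JW D Y₀ Y₁) om al) Q
    rw [e1]
    have e2 : CrP w K al (StE E0 (JW D Y₀ Y₁) om al) -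
          CrP w K al (fun k => if Q k then 0 else StE E0 (JW D Y₀ Y₁) om al k) -
        ((pC * c3 w K : ℝ) : ℂ) * X2 Y E0 (JW D Y₀ Y₁) om al =
        (CrP w K al (StE E0 (JW D Y₀ Y₁) om al) -
          ((pC * c3 w K : ℝ) : ℂ) * X2 Y E0 (JW D Y₀ Y₁) om al) -
          CrP w K al (fun k => if Q k then 0 else StE E0 (JW D Y₀ Y₁) om al k) := by ring
    rw [e2]
    refine (norm_sub_le _ _).trans (add_le_add (b2.trans (add_le_add b3 le_rfl)) ht)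
  have key := H₁ X hX P hP q ps hN hz hLX K Y D Y₀ Y₁ D' Y₁' T₀ E0 F F₂ hK hYl hYu hD hY₁ hDD hYY
    hYD hYX hKX hY₀ hE0 hT₀ hF hF₂ (hco.mono (le_max_left r₁ r₂)) (hcl.mono (le_max_left r₁ r₂))
    (htl.mono (le_max_left r₁ r₂)) al hdom om hom1 hom homJ Q _ e₃ hcross he
  refine key.trans ?_
  have h5 : 2 * pC * (C₃ * C₂ * X ^ ε * (K * Real.exp n) * F) ≤
      2 * pC * (C₃ * C₂) * X ^ ε * (K * Real.exp n) * (1 + F + F₂) := by
    have h6 : 0 ≤ 2 * pC * (C₃ * C₂) * X ^ ε * (K * Real.exp n) := by positivity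
    calc 2 * pC * (C₃ * C₂ * X ^ ε * (K * Real.exp n) * F) =
          2 * pC * (C₃ * C₂) * X ^ ε * (K * Real.exp n) * F := by ring
      _ ≤ _ := mul_le_mul_of_nonneg_left (by linarith) h6
  have e9 : (C₁ + 2 * pC * (C₃ * C₂)) * X ^ ε * (K * Real.exp n) * (1 + F + F₂) =
      C₁ * X ^ ε * (K * Real.exp n) * (1 + F + F₂) +
      2 * pC * (C₃ * C₂) * X ^ ε * (K * Real.exp n) * (1 + F + F₂) := by ring
  rw [e9]
  have e10 : 2 * pC * (C₃ * C₂ * X ^ ε * (K * Real.exp n) * F + RR + et) =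
      2 * pC * (C₃ * C₂ * X ^ ε * (K * Real.exp n) * F) + 2 * pC * (RR + et) := by ring
  rw [e10]
  linarith

open Crest.Agent.R017.E5B71 (Pt) in
/-- **(I1) for natural lists twisted by an `S`-unit `s`, E2 with level weights.** -/
theorem I1LPT {w : ℝ → ℝ} (hw : Wgt w) (hw0 : ∀ x, 0 ≤ w x) {Nw : ℕ} {Mw : ℝ} {Fw : ℕ → ℝ → ℂ}
    (hWD : WD w Nw Mw Fw) {h : ℝ → ℝ} {c : ℝ} (hpu : PU h c)
    (N : ℕ) {R₁ : ℝ} (hR₁ : 0 ≤ R₁) (hR : ∀ u, cx h u ≠ 0 → |u| ≤ R₁) {ε e₁ M B₂ : ℝ}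
    (hε : 0 < ε) (he₁ : 0 < e₁) (hM : 0 ≤ M) (hB₂ : 0 < B₂) {s : Eis} (hs0 : s ≠ 0) :
    ∃ C r : ℝ, 0 ≤ C ∧ 0 ≤ r ∧ ∀ X : ℝ, 3 ≤ X → ∀ (P : DPar), P.OK → s ∈ FE47.SM P.n →
      ∀ (q : Eis) (ps : List Pq),
      ps.length ≤ N → (∀ p ∈ ps, 0 ≤ p.z ∧ p.z ≤ Real.log X) → LN ps ≤ Real.log X →
      ∀ (K Y D Y₀ Y₁ D' Y₁' T₀ E0 F F₂ : ℝ) (I : ℕ), 1 ≤ K →
      Real.exp (LN ps + N * R₁ + 1) ≤ Y → Y ≤ X ^ B₂ → 0 ≤ D → 0 < Y₁ → D ≤ D' → Y₁ ≤ Y₁' →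
      Y₁' ≤ D' ^ 2 → Y₁' * (nm s : ℝ) ^ 2 ≤ X → Real.exp (2 * LN ps) * X ^ e₁ ≤ K * Y₁' →
      Y₀ < 1 → 0 < E0 → Y₁ < 2 ^ I → 0 < T₀ → 0 ≤ F → 0 ≤ F₂ →
      FlatO h P q ps r M (Real.log K) (Real.log (Y₁' * (nm s : ℝ) ^ 2)) F →
      FlatL h P q ps (X ^ B₂) r M (Real.log K) (Real.log (Y₁' * (nm s : ℝ) ^ 2)) F →
      Tail h P q ps (X ^ B₂) r M (Real.log K) (Real.log (Y₁' * (nm s : ℝ) ^ 2)) (Real.log T₀)
        (Real.log E0) F₂ →
      ∀ om : Eis × Eis → ℂ, (∀ x, ‖1 - om x‖ ≤ 1) → (∀ x, ‖om x‖ ≤ 1) →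
      (∀ x : Eis × Eis, (nm (x.2 * x.1 ^ 2) : ℝ) ≤ T₀ → om x = 1) →
      (∀ x ∈ JW D' Y₀ Y₁', x ∉ JW D Y₀ Y₁ → om x = 0) → ∀ (Q : Eis → Prop) (et e₃ : ℝ),
      ‖CrP w K (sqc q (alL h (ps.map (Pt P s)))) (fun k => if Q k then 0 else
          StE E0 (JW D Y₀ Y₁) om (sqc q (alL h (ps.map (Pt P s)))) k)‖ ≤ et →
      GrP w K (fun k => if Q k then
          StE E0 (JW D Y₀ Y₁) om (sqc q (alL h (ps.map (Pt P s)))) k else 0) ≤
        c3 w K * (X3 Y E0 (JW D Y₀ Y₁) om (sqc q (alL h (ps.map (Pt P s))))).re + e₃ →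
      ∑' k : Eis, (if IsPrim k ∧ Q k then w (nm k / K) *
        ‖CS (sqc q (alL h (ps.map (Pt P s)))) k -
          (pC : ℂ) * StE E0 (JW D Y₀ Y₁) om (sqc q (alL h (ps.map (Pt P s)))) k‖ ^ 2 else 0) ≤
      C * X ^ ε * (K * Real.exp (LN ps)) * (1 + F + F₂) +
        2 * pC * (∑ i ∈ Finset.range Nw, RP (sqc q (alL h (ps.map (Pt P s)))) (sc K Mw i)
          (GF (Fw i)) K (Real.exp (LN ps)) (S D) I E0 Y₁ + et) +
        pC ^ 2 * e₃ := by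
  obtain ⟨C, r, hC, hr, H⟩ := I1LP hw hw0 hWD hpu N hR₁ hR hε he₁ hM hB₂
    (one_le_pow₀ (nm_ne hs0) (n := 2)) (Nat.cast_nonneg (ds s).card)
  refine ⟨C, r, hC, hr, ?_⟩
  intro X hX P hP hs q ps hN hz hLX K Y D Y₀ Y₁ D' Y₁' T₀ E0 F F₂ I hK hYl hYu hD hY₁ hDD hYY hYD
    hYX hKX hY₀ hE0 hI hT₀ hF hF₂ hco hcl htl om hom1 homb hom homJ Q et e₃ ht he
  exact H X hX P hP q ps hN hz hLX K Y D Y₀ Y₁ D' Y₁' T₀ E0 F F₂ I hK hYl hYu hD hY₁ hDD hYY hYD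
    hYX hKX hY₀ hE0 hI hT₀ hF hF₂ hco hcl htl _ (dom_list hP h hs q ps) om hom1 homb hom homJ Q
    et e₃ ht he

end Crest.Agent.R017.I1146
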