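import Crest.Agent.R017.I1o_146
import Crest.Agent.R017.I1n_146

/-!
# Row 17, block C70, the assembly (I1) (helper146): `(I1)` for lists, E2 with adapted weights

* `rhoS Tg κ Sh` : the weight adapted to the T-numbers `Sh`;  `LipS`, `rw_rhoS`
* `CellS` : the T-claims `Sh (log N g) b (level)`;  `numS` : joint blocks;  `TJG` : the T-moment
* **`I1LG`** : `(I1)` for a dominated sequence;  **`I1LGT`** : for the twisted list
-/

set_option autoImplicit false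

noncomputable section

open Finset MeasureTheory
open scoped ComplexConjugate Classical

namespace Crest.Agent.R017.I1146

open Crest.Agent.R012 Crest.Agent.R012.Eis Crest.Agent.R012.MC Crest.Agent.R012.Gauss880
open Crest.Agent.R012.LS2 (S mem_S)
open Crest.Agent.R012.Weight600 (pw)
open Crest.Agent.R017.CM106 (CS FS TG)
open Crest.Agent.R017.C70
open Crest.Agent.R017.HP842 (Pc pc sqc alL)
open Crest.Agent.R017.B770
open Crest.Agent.R017.FE47 (PU cx)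
open Crest.Agent.R017.Prov71
open Crest.Agent.R017.Leg381 (Pf alF SF LF natl alF_natl)
open Crest.Agent.R017.E1551
open Crest.Agent.R017.E2440 (StE)
open Crest.Agent.R017.LB48 (CrP GrP)
open Crest.Agent.R017.Rough381 (VF)
open Crest.Agent.R017.X6C180 (GF)
open Crest.Agent.R017.WDec180 (WD sc)

/-! ### the adapted weight -/

/-- Lipschitz in `(b, v)` -/
def LipS (L : ℝ) (Sh : ℝ → ℝ → ℝ → ℝ) : Prop :=
  ∀ γ b v b' v', Sh γ b v ≤ Sh γ b' v' + L * (|b - b'| + |v - v'|)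

/-- **the weight adapted to the T-numbers** (`κ = log K`) -/
def rhoS (Tg κ : ℝ) (Sh : ℝ → ℝ → ℝ → ℝ) (δ e : Eis) (V : ℝ) : ℝ :=
  Real.exp (Tg + (κ + Real.log V) / 3 - 4 / 3 * Real.log (nm δ) -
    Sh (Real.log (nm δ)) (Real.log (nm e)) (Real.log V))

lemma rw_rhoS {L : ℝ} {Sh : ℝ → ℝ → ℝ → ℝ} (h : LipS L Sh) (hL : 0 ≤ L) (Tg κ : ℝ) :
    RW (rhoS Tg κ Sh) (Real.exp (1 + L)) where
  pos _ _ _ := Real.exp_pos _
  two δ e V V' h0 h1 h2 := by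
    unfold rhoS
    rw [← Real.exp_add]
    refine Real.exp_le_exp.2 ?_
    have hl : Real.log V ≤ Real.log V' + Real.log 2 := by
      rw [← Real.log_mul h0.ne' (by norm_num)]
      exact Real.log_le_log (h0.trans_le h1) (by linarith)
    have hl' : Real.log V' ≤ Real.log V := Real.log_le_log h0 h1
    have h3 := h (Real.log (nm δ)) (Real.log (nm e)) (Real.log V') (Real.log (nm e)) (Real.log V)
    rw [sub_self, abs_zero, zero_add, abs_sub_comm, abs_of_nonneg (by linarith)] at h3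
    have h4 : Real.log 2 ≤ 1 := by
      have := Real.log_two_lt_d9
      linarith
    have h5 : L * (Real.log V - Real.log V') ≤ L * 1 :=
      mul_le_mul_of_nonneg_left (by linarith) hL
    linarith

/-- **the T-claims**: `e ~ exp b`, level `l - b`, up to `b ≤ E` -/
def CellS (h : ℝ → ℝ) (P : DPar) (q : Eis) (ps : List Pq) (G r M T E F : ℝ)
    (Sh : ℝ → ℝ → ℝ → ℝ) : Prop :=
  ∀ g : Eis, IsPrim g → (nm g : ℝ) ≤ G → ∀ (b l : ℝ) (ps' : List Pq), 0 ≤ b → b ≤ E + r → 0 ≤ l →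
    List.Forall₂ (ChN r) ps' ps → |LN ps' - (LN ps - Real.log (nm g) - b)| ≤ r →
    l ≤ T - 2 * Real.log (nm g) + b + r →
    SN (q * g) P h l ps' ≤ F * cN ps' ps ^ M * Real.exp (Sh (Real.log (nm g)) b (l - b))

/-- **the numbers of the joint blocks** -/
theorem numS {h : ℝ → ℝ} {c : ℝ} (hpu : PU h c) (N : ℕ) {B₀ : ℝ} (hB₀ : 0 ≤ B₀) {ε : ℝ}
    (hε : 0 < ε) {M : ℝ} (hM : 0 ≤ M) {L : ℝ} (hL : 0 ≤ L) :
    ∃ C r : ℝ, 1 ≤ C ∧ 0 ≤ r ∧ ∀ X : ℝ, 3 ≤ X →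
    ∀ (P : DPar), P.OK → ∀ (q : Eis) (ps : List Pq), ps.length ≤ N →
    (∀ p ∈ ps, 0 ≤ p.z ∧ p.z ≤ Real.log X) → ∀ (T E F : ℝ) (Sh : ℝ → ℝ → ℝ → ℝ), 0 ≤ F →
    LipS L Sh → CellS h P q ps (X ^ B₀) (r + 1) M T E F Sh →
    ∀ g : Eis, IsPrim g → (nm g : ℝ) ≤ X ^ B₀ →
    ∀ (B V Y t : ℝ) (Q : Eis → Prop), 1 ≤ B → B ≤ X ^ B₀ → Real.log B ≤ E + 1 → 1 ≤ V → V ≤ X →
    0 ≤ Y → Real.log V ≤ T - 2 * Real.log (nm g) →
    JB Y (sqc q (alF 1 1 P h (natl ps))) Q g B V t ≤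
      C * X ^ ε * F * Real.exp (Sh (Real.log (nm g)) (Real.log B) (Real.log V)) *
        (1 + |t|) ^ ((N : ℝ) * M) := by
  obtain ⟨C, r, hC, hr, H⟩ := numJ hpu N hB₀ hε hM
  refine ⟨C * Real.exp (r + L * (2 * r)), 2 * r, ?_, by positivity, ?_⟩
  · have : 1 ≤ Real.exp (r + L * (2 * r)) := Real.one_le_exp (by positivity)
    nlinarith
  intro X hX P hP q ps hN hz T E F Sh hF hLip hcl g hg hgX B V Y t Q hB1 hBX hBE hV1 hVX hY hVT
  have hb0 : 0 ≤ Real.log B := Real.log_nonneg hB1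
  have key := H X hX P hP q ps hN hz g hg hgX B V Y t Q hB1 hBX hV1 hVX hY F
    (Sh (Real.log (nm g)) (Real.log B) (Real.log V) + (r + L * (2 * r))) hF ?_
  · refine key.trans (le_of_eq ?_)
    rw [Real.exp_add]
    ring
  · intro l ps' hl hch h1 h2
    obtain ⟨h1a, h1b⟩ := abs_le.1 h1
    obtain ⟨h2a, h2b⟩ := abs_le.1 h2
    have h7 := hcl g hg hgX (Real.log B) l ps' hb0 (by linarith) hl
      (hch.imp fun _ _ hc => ⟨hc.1, hc.2.1, hc.2.2.1,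
        hc.2.2.2.1, hc.2.2.2.2.trans (by linarith)⟩) (h1.trans (by linarith)) (by linarith)
    refine h7.trans ?_
    have h8 := hLip (Real.log (nm g)) (Real.log B) (l - Real.log B) (Real.log B) (Real.log V)
    rw [sub_self, abs_zero, zero_add] at h8
    have h9 : |l - Real.log B - Real.log V| ≤ 2 * r := by
      rw [abs_le]
      constructor <;> linarith
    have h10 := mul_le_mul_of_nonneg_left h9 hL
    refine mul_le_mul_of_nonneg_left (Real.exp_le_exp.2 (by linarith))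
      (mul_nonneg hF (Real.rpow_nonneg (cN_nonneg _ _) _))

/-- **the T-moment with the adapted weight** -/
theorem TJG {h : ℝ → ℝ} {c : ℝ} (hpu : PU h c) (N : ℕ) {ε M B₂ : ℝ} (hε : 0 < ε) (hM : 0 ≤ M)
    (hB₂ : 0 < B₂) {ν Dd : ℝ} (hν : 1 ≤ ν) (hDd : 0 ≤ Dd) {A : ℕ} (hA : (N : ℝ) * M + 1 < A)
    {L : ℝ} (hL : 0 ≤ L) :
    ∃ C r : ℝ, 0 ≤ C ∧ 0 ≤ r ∧ ∀ X : ℝ, 3 ≤ X → ∀ (P : DPar), P.OK → ∀ (q : Eis) (ps : List Pq),
      ps.length ≤ N → (∀ p ∈ ps, 0 ≤ p.z ∧ p.z ≤ Real.log X) →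
      ∀ (K Y D Y₀ Z T E0 Tg F : ℝ) (Sh : ℝ → ℝ → ℝ → ℝ), 0 < K → 1 ≤ Y → Y ≤ X ^ B₂ → 0 < Z →
      Z * ν ≤ X → Real.log (Z * ν) ≤ T → 0 < E0 → 0 ≤ F → LipS L Sh →
      CellS h P q ps (X ^ B₂) r M T (Real.log E0) F Sh →
      ∀ al : Eis → ℂ, Dom ν Dd (sqc q (alF 1 1 P h (natl ps))) al →
      (∀ n, al n ≠ 0 → n ∈ S Y) →
      TJ (cG (rhoS Tg (Real.log K) Sh) E0) A K (Real.exp (LN ps)) Y (JW D Y₀ Z) al ≤
        C * X ^ ε * (F * Real.exp (Tg + 2 / 3 * LN ps)) := by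
  set a₁ : ℝ := B₂ + 1 with ha₁
  have ha₁0 : 0 < a₁ := by positivity
  set ε' : ℝ := ε / (2 * a₁) with hε'
  have hε'0 : 0 < ε' := by positivity
  have hε2 : 0 < ε / 2 := by positivity
  obtain ⟨Cb, rb, hCb, hrb, Hb⟩ := numS hpu N hB₂.le hε2 hM hL
  obtain ⟨C₁, hC₁, H₁⟩ := TJ_le (A := A) (J := (N : ℝ) * M) (ε := ε') hA (by positivity) hε'0
  set lν := Real.log ν with hlν
  have hlν0 : 0 ≤ lν := Real.log_nonneg hν
  set Kc : ℝ := Real.exp (1 + L + L * 3 + L * lν) with hKc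
  refine ⟨C₁ * (Dd * Kc * Cb), rb + 1, by positivity, by positivity, ?_⟩
  intro X hX P hP q ps hN hz K Y D Y₀ Z T E0 Tg F Sh hK0 hY1 hYu hZ hZX hT hE0 hF hLip hcl al hdom
    hsup
  have hX1 : (1 : ℝ) ≤ X := by linarith
  have hX0 : 0 < X := by linarith
  have hY0 : 0 < Y := by linarith
  have hν0 : 0 < ν := by linarith
  set n := LN ps with hn
  set κ := Real.log K with hκ
  set Pb : ℝ := X ^ a₁ with hPb
  have hPb1 : 1 ≤ Pb := Real.one_le_rpow hX1 ha₁0.le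
  have hYPb : Y ≤ Pb := hYu.trans (Real.rpow_le_rpow_of_exponent_le hX1 (by rw [ha₁]; linarith))
  have hXPb : X ≤ Pb := by
    calc X = X ^ (1 : ℝ) := (Real.rpow_one X).symm
      _ ≤ _ := Real.rpow_le_rpow_of_exponent_le hX1 (by rw [ha₁]; linarith)
  have hPe : Pb ^ ε' = X ^ (ε / 2) := by
    rw [hPb, ← Real.rpow_mul hX0.le]
    congr 1
    rw [hε']
    field_simp
  have hXe : X ^ (ε / 2) * X ^ (ε / 2) = X ^ ε := by
    rw [← Real.rpow_add hX0]; congr 1; ring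
  have hZPb : Z ≤ Pb := (le_mul_of_one_le_right hZ.le hν).trans (hZX.trans hXPb)
  have hrw := rw_rhoS hLip hL Tg κ
  have hl2 : Real.log 2 ≤ 1 := by
    have := Real.log_two_lt_d9
    linarith
  have key := H₁ Pb K (Real.exp n) Y D Y₀ Z
    (Dd * Kc * (Cb * X ^ (ε / 2) * (F * Real.exp (Tg + 2 / 3 * n)))) al hPb1 hK0
    (Real.exp_pos n) hY1 hYPb
    hZPb (by positivity) hsup (cG (rhoS Tg κ Sh) E0)
    (cG_nonneg hrw E0)
    (fun δ B V => if Real.log B ≤ Real.log E0 + 1 then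
      Real.exp (1 + L + L * 3) * Real.exp (Tg + (κ + Real.log V) / 3 - 4 / 3 * Real.log (nm δ) -
        Sh (Real.log (nm δ)) (Real.log B) (Real.log V)) else 0)
    (fun δ B V => by
      split_ifs
      · positivity
      · exact le_rfl)
    (fun δ hδ t ht j hj B V hB1 hB2 hV1 hV2 => by
      have htp := ((mem_S hY0.le).1 ht).2.1
      have ht0 : (0 : ℝ) < nm t := by exact_mod_cast nm_pos.2 htp.ne_zero
      have hj0 : (0 : ℝ) < nm j := by exact_mod_cast nm_pos.2 hj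
      unfold cG
      by_cases hE : t ∈ S E0
      swap
      · rw [if_neg hE]
        split_ifs
        · positivity
        · exact le_rfl
      rw [if_pos hE]
      have htE := ((mem_S hE0.le).1 hE).1
      have hbt : Real.log (nm t) ≤ Real.log B := Real.log_le_log ht0 hB1
      have hbt2 : Real.log B ≤ Real.log (nm t) + Real.log 2 := by
        rw [← Real.log_mul ht0.ne' (by norm_num)]
        exact Real.log_le_log (ht0.trans_le hB1) (by linarith)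
      have hvt : Real.log (nm j) ≤ Real.log V := Real.log_le_log hj0 hV1
      have hvt2 : Real.log V ≤ Real.log (nm j) + Real.log 2 := by
        rw [← Real.log_mul hj0.ne' (by norm_num)]
        exact Real.log_le_log (hj0.trans_le hV1) (by linarith)
      have hlE : Real.log (nm t) ≤ Real.log E0 := Real.log_le_log ht0 htE
      rw [if_pos (by linarith)]
      unfold rhoS
      rw [← Real.exp_add]
      refine Real.exp_le_exp.2 ?_
      have h3 := hLip (Real.log (nm δ)) (Real.log B) (Real.log V) (Real.log (nm t))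
        (Real.log (nm j))
      rw [abs_of_nonneg (by linarith), abs_of_nonneg (by linarith)] at h3
      have h5 : L * (Real.log B - Real.log (nm t) + (Real.log V - Real.log (nm j))) ≤ L * 2 :=
        mul_le_mul_of_nonneg_left (by linarith) hL
      show Tg + (κ + Real.log (nm j)) / 3 - 4 / 3 * Real.log (nm δ) -
        Sh (Real.log (nm δ)) (Real.log (nm t)) (Real.log (nm j)) ≤ _
      linarith)
    (fun δ hδ B V hB1 hB2 hV1 hV2 t => by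
      obtain ⟨h2, h1, -⟩ := (mem_S hY0.le).1 hδ
      have hδn : (0 : ℝ) < nm δ := by exact_mod_cast nm_pos.2 h1.ne_zero
      have hδ1 : (1 : ℝ) ≤ nm δ := by exact_mod_cast nm_pos.2 h1.ne_zero
      have hV0 : 0 < V := by linarith
      have hB0 : 0 < B := by linarith
      by_cases hBE : Real.log B ≤ Real.log E0 + 1
      swap
      · rw [if_neg hBE]
        simp only [zero_mul]
        positivity
      rw [if_pos hBE]
      have hVν : 1 ≤ V * ν := one_le_mul_of_one_le_of_one_le hV1 hν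
      have hVZ : V ≤ Z := hV2.trans (div_le_self hZ.le (one_le_pow₀ hδ1))
      have hVX : V * ν ≤ X := (mul_le_mul_of_nonneg_right hVZ hν0.le).trans hZX
      have hVT : Real.log (V * ν) ≤ T - 2 * Real.log (nm δ) := by
        have h3 := Real.log_le_log hV0 hV2
        rw [Real.log_div hZ.ne' (by positivity), Real.log_pow] at h3
        push_cast at h3
        rw [Real.log_mul hV0.ne' hν0.ne']
        rw [Real.log_mul hZ.ne' hν0.ne'] at hT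
        linarith
      have h5 := Hb X hX P hP q ps hN hz T (Real.log E0) F Sh hF hLip hcl δ h1 (h2.trans hYu) B
        (V * ν) Y t (fun _ => True) hB1 (hB2.trans hYu) hBE hVν hVX hY0.le hVT
      have h6 := hdom.jb Y (fun _ => True) δ B V t h1 hY0.le hV1
      have hlVν : Real.log (V * ν) = Real.log V + lν := by
        rw [Real.log_mul hV0.ne' hν0.ne']
      have h7 : Real.exp (Sh (Real.log (nm δ)) (Real.log B) (Real.log (V * ν))) ≤
          Real.exp (L * lν) *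
            Real.exp (Sh (Real.log (nm δ)) (Real.log B) (Real.log V)) := by
        rw [← Real.exp_add]
        refine Real.exp_le_exp.2 ?_
        have h3 := hLip (Real.log (nm δ)) (Real.log B) (Real.log (V * ν)) (Real.log B)
          (Real.log V)
        rw [sub_self, abs_zero, zero_add, hlVν, add_sub_cancel_left, abs_of_nonneg hlν0] at h3
        rw [hlVν]
        linarith
      set s₀ := Sh (Real.log (nm δ)) (Real.log B) (Real.log V) with hs₀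
      have hyv : nm δ * (yv K (Real.exp n) δ V)⁻¹ =
          Real.exp (Real.log (nm δ) - ((κ + Real.log V) / 3 -
            2 / 3 * (n - Real.log (nm δ)))) := by
        rw [yv_exp hK0 hV0 n h1.ne_zero, ← Real.exp_neg]
        calc (nm δ : ℝ) * Real.exp (-((Real.log K + Real.log V) / 3 -
              2 / 3 * (n - Real.log (nm δ)))) =
              Real.exp (Real.log (nm δ)) * Real.exp (-((Real.log K + Real.log V) / 3 -
              2 / 3 * (n - Real.log (nm δ)))) := by rw [Real.exp_log hδn]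
          _ = _ := by rw [← Real.exp_add, hκ]; congr 1
      have h8 : Real.exp (Tg + (κ + Real.log V) / 3 - 4 / 3 * Real.log (nm δ) - s₀) *
          (nm δ * (yv K (Real.exp n) δ V)⁻¹) * Real.exp s₀ =
          Real.exp (Tg + 2 / 3 * n) / nm δ := by
        rw [hyv, ← Real.exp_add, ← Real.exp_add]
        have e1 : Real.exp (Tg + 2 / 3 * n) / nm δ =
            Real.exp (Tg + 2 / 3 * n - Real.log (nm δ)) := by
          rw [Real.exp_sub, Real.exp_log hδn]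
        rw [e1]
        congr 1
        ring
      have hKc' : Kc = Real.exp (1 + L + L * 3) * Real.exp (L * lν) := by
        rw [hKc, ← Real.exp_add]
      have hyn : 0 ≤ nm δ * (yv K (Real.exp n) δ V)⁻¹ := by rw [hyv]; positivity
      calc Real.exp (1 + L + L * 3) * Real.exp (Tg + (κ + Real.log V) / 3 -
            4 / 3 * Real.log (nm δ) - s₀) * (nm δ * (yv K (Real.exp n) δ V)⁻¹) *
            JB Y al (fun _ => True) δ B V t ≤
          Real.exp (1 + L + L * 3) * Real.exp (Tg + (κ + Real.log V) / 3 -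
            4 / 3 * Real.log (nm δ) - s₀) * (nm δ * (yv K (Real.exp n) δ V)⁻¹) *
            (Dd * (Cb * X ^ (ε / 2) * F * (Real.exp (L * lν) * Real.exp s₀) *
              (1 + |t|) ^ ((N : ℝ) * M))) := by
            refine mul_le_mul_of_nonneg_left (h6.trans (mul_le_mul_of_nonneg_left
              (h5.trans ?_) hDd)) (by positivity)
            have h9 : 0 ≤ Cb * X ^ (ε / 2) * F := by positivity
            exact mul_le_mul_of_nonneg_right (mul_le_mul_of_nonneg_left h7 h9) (by positivity)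
        _ = (Real.exp (Tg + (κ + Real.log V) / 3 - 4 / 3 * Real.log (nm δ) - s₀) *
              (nm δ * (yv K (Real.exp n) δ V)⁻¹) * Real.exp s₀) *
              (Dd * Kc * (Cb * X ^ (ε / 2) * F) * (1 + |t|) ^ ((N : ℝ) * M)) := by
            rw [hKc']; ring
        _ = _ := by rw [h8]; ring)
  refine key.trans (le_of_eq ?_)
  rw [hPe]
  calc C₁ * X ^ (ε / 2) * (Dd * Kc * (Cb * X ^ (ε / 2) * (F * Real.exp (Tg + 2 / 3 * n)))) =
        C₁ * (Dd * Kc * Cb) * (X ^ (ε / 2) * X ^ (ε / 2)) * (F * Real.exp (Tg + 2 / 3 * n)) := by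
          ring
    _ = _ := by rw [hXe]

lemma CellS.mono {h : ℝ → ℝ} {P : DPar} {q : Eis} {ps : List Pq} {G r r' M T E F : ℝ}
    {Sh : ℝ → ℝ → ℝ → ℝ} (hr : r ≤ r') (H : CellS h P q ps G r' M T E F Sh) :
    CellS h P q ps G r M T E F Sh :=
  fun g hg hG b l ps' hb hbE hl hc h1 h2 => H g hg hG b l ps' hb (by linarith) hl
    (hc.imp fun _ _ hc => ⟨hc.1, hc.2.1, hc.2.2.1, hc.2.2.2.1, hc.2.2.2.2.trans (by linarith)⟩)
    (h1.trans hr) (by linarith)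

set_option maxHeartbeats 1000000 in
/-- **(I1) for a sequence dominated by a natural list, E2 with the adapted weight.** -/
theorem I1LG {w : ℝ → ℝ} (hw : Wgt w) (hw0 : ∀ x, 0 ≤ w x) {Nw : ℕ} {Mw : ℝ} {Fw : ℕ → ℝ → ℂ}
    (hWD : WD w Nw Mw Fw) {h : ℝ → ℝ} {c : ℝ} (hpu : PU h c)
    (N : ℕ) {R₁ : ℝ} (hR₁ : 0 ≤ R₁) (hR : ∀ u, cx h u ≠ 0 → |u| ≤ R₁) {ε e₁ M B₂ : ℝ}
    (hε : 0 < ε) (he₁ : 0 < e₁) (hM : 0 ≤ M) (hB₂ : 0 < B₂) {ν Dd : ℝ} (hν : 1 ≤ ν)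
    (hDd : 0 ≤ Dd) {L : ℝ} (hL : 0 ≤ L) :
    ∃ C r : ℝ, 0 ≤ C ∧ 0 ≤ r ∧ ∀ X : ℝ, 3 ≤ X → ∀ (P : DPar), P.OK → ∀ (q : Eis) (ps : List Pq),
      ps.length ≤ N → (∀ p ∈ ps, 0 ≤ p.z ∧ p.z ≤ Real.log X) → LN ps ≤ Real.log X →
      ∀ (K Y D Y₀ Y₁ D' Y₁' T₀ E0 F F₂ Tg Fs : ℝ) (Sh : ℝ → ℝ → ℝ → ℝ) (I : ℕ), 1 ≤ K →
      Real.exp (LN ps + N * R₁ + 1) ≤ Y → Y ≤ X ^ B₂ → 0 ≤ D → 0 < Y₁ → D ≤ D' → Y₁ ≤ Y₁' →
      Y₁' ≤ D' ^ 2 → Y₁' * ν ≤ X → Real.exp (2 * LN ps) * X ^ e₁ ≤ K * Y₁' → Y₀ < 1 → 0 < E0 →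
      Y₁ < 2 ^ I → 0 < T₀ → 0 ≤ F → 0 ≤ F₂ → 0 ≤ Fs → LipS L Sh →
      CellS h P q ps (X ^ B₂) r M (Real.log (Y₁ * ν)) (Real.log E0) Fs Sh →
      FlatO h P q ps r M (Real.log K) (Real.log (Y₁' * ν)) F →
      FlatL h P q ps (X ^ B₂) r M (Real.log K) (Real.log (Y₁' * ν)) F →
      Tail h P q ps (X ^ B₂) r M (Real.log K) (Real.log (Y₁' * ν)) (Real.log T₀) (Real.log E0)
        F₂ → ∀ al : Eis → ℂ, Dom ν Dd (sqc q (alF 1 1 P h (natl ps))) al →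
      ∀ om : Eis × Eis → ℂ, (∀ x, ‖1 - om x‖ ≤ 1) → (∀ x, ‖om x‖ ≤ 1) →
      (∀ x : Eis × Eis, (nm (x.2 * x.1 ^ 2) : ℝ) ≤ T₀ → om x = 1) →
      (∀ x ∈ JW D' Y₀ Y₁', x ∉ JW D Y₀ Y₁ → om x = 0) → ∀ (Q : Eis → Prop) (et e₃ : ℝ),
      ‖CrP w K al (fun k => if Q k then 0 else StE E0 (JW D Y₀ Y₁) om al k)‖ ≤ et →
      GrP w K (fun k => if Q k then StE E0 (JW D Y₀ Y₁) om al k else 0) ≤
        c3 w K * (X3 Y E0 (JW D Y₀ Y₁) om al).re + e₃ →
      ∑' k : Eis, (if IsPrim k ∧ Q k then w (nm k / K) *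
        ‖CS al k - (pC : ℂ) * StE E0 (JW D Y₀ Y₁) om al k‖ ^ 2 else 0) ≤
      C * X ^ ε * (K * Real.exp (LN ps)) * (1 + F + F₂) +
        C * X ^ ε * (K / Real.exp (LN ps)) * (Fs * Real.exp (Tg + 2 / 3 * LN ps)) +
        2 * pC * (∑ i ∈ Finset.range Nw,
          RPg (rhoS Tg (Real.log K) Sh) al (sc K Mw i) (GF (Fw i)) (S D) I E0 Y₁ + et) +
        pC ^ 2 * e₃ := by
  have hN0 : (0 : ℝ) ≤ N := Nat.cast_nonneg _
  have hP0 := Cst401.pC_pos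
  set A : ℕ := ⌈(N : ℝ) * M⌉₊ + 2 with hA
  have hA2 : 2 ≤ A := by omega
  have hJA : (N : ℝ) * M + 1 < A := by
    have h1 := Nat.le_ceil ((N : ℝ) * M)
    rw [hA]
    push_cast
    linarith
  obtain ⟨C₁, r₁, hC₁, hr₁, H₁⟩ := I1LX hw hw0 hpu N hR₁ hR hε he₁ hM hB₂ hν hDd
  obtain ⟨C₂, r₂, hC₂, hr₂, H₂⟩ := TJG hpu N hε hM hB₂ hν hDd hJA hL
  obtain ⟨C₃, hC₃, H₃⟩ := E2G hWD (2 * (N * R₁)) (by positivity) A hA2
    (Real.exp_pos (1 + L)).le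
  refine ⟨C₁ + 2 * pC * (C₃ * C₂), max r₁ r₂, by positivity, le_max_of_le_left hr₁, ?_⟩
  intro X hX P hP q ps hN hz hLX K Y D Y₀ Y₁ D' Y₁' T₀ E0 F F₂ Tg Fs Sh I hK hYl hYu hD hY₁ hDD hYY
    hYD hYX hKX hY₀ hE0 hI hT₀ hF hF₂ hFs hLip hcs hco hcl htl al hdom om hom1 homb hom homJ Q et e₃
    ht he
  have hX1 : (1 : ℝ) ≤ X := by linarith
  have hX0 : 0 < X := by linarith
  have hK0 : 0 < K := by linarith
  set n := LN ps with hn
  have hn0 : 0 ≤ n := by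
    rw [hn]
    unfold LN
    refine List.sum_nonneg fun x hx => ?_
    obtain ⟨p, hp, rfl⟩ := List.mem_map.1 hx
    exact (hz p hp).1
  set α := sqc q (alF 1 1 P h (natl ps)) with hα
  have hY1 : 1 ≤ Y := le_trans (Real.one_le_exp (by positivity)) hYl
  have hY0 : 0 < Y := by linarith
  have hadm₀ : Adm Y (Real.exp n) (2 * (N * R₁)) α := Adm_list hR₁ hR P q hN
    (le_trans (Real.exp_le_exp.2 (by linarith)) hYl)
  have hne : ∀ m, al m ≠ 0 → α m ≠ 0 := fun m hm h0 => hm (norm_le_zero_iff.1 (by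
    have := hdom.le m
    rw [h0, norm_zero] at this
    exact this))
  have hadm : Adm Y (Real.exp n) (2 * (N * R₁)) al :=
    ⟨fun m hm => hadm₀.sup m (hne m hm), fun m hm => hadm₀.win m (hne m hm)⟩
  have hY₁'0 : 0 < Y₁' := hY₁.trans_le hYY
  have hν0 : 0 < ν := by linarith
  have hY1ν : Y₁ * ν ≤ Y₁' * ν := mul_le_mul_of_nonneg_right hYY hν0.le
  -- the T-moment
  have b1 := H₂ X hX P hP q ps hN hz K Y D Y₀ Y₁ (Real.log (Y₁ * ν)) E0 Tg Fs Sh hK0 hY1 hYu hY₁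
    (hY1ν.trans hYX) le_rfl hE0 hFs hLip
    (hcs.mono (le_max_right r₁ r₂)) al hdom hadm.sup
  have b2 := H₃ (rhoS Tg (Real.log K) Sh) (rw_rhoS hLip hL Tg (Real.log K)) Y (Real.exp n) K D Y₀
    Y₁ E0 I hY0.le (Real.exp_pos n) hK0 hD hY₁ hI hE0.le al
    hadm om homb
  set RR := ∑ i ∈ Finset.range Nw, RPg (rhoS Tg (Real.log K) Sh) al (sc K Mw i) (GF (Fw i)) (S D)
    I E0 Y₁ with hRR
  set GG := (K / Real.exp n) * (Fs * Real.exp (Tg + 2 / 3 * n)) with hGG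
  have hGG0 : 0 ≤ GG := by positivity
  have b3 : C₃ * (K / Real.exp n) * TJ (cG (rhoS Tg (Real.log K) Sh) E0) A K (Real.exp n) Y
      (JW D Y₀ Y₁) al ≤ C₃ * C₂ * X ^ ε * GG := by
    calc _ ≤ C₃ * (K / Real.exp n) * (C₂ * X ^ ε * (Fs * Real.exp (Tg + 2 / 3 * n))) :=
          mul_le_mul_of_nonneg_left b1 (by positivity)
      _ = C₃ * C₂ * X ^ ε * GG := by rw [hGG]; ring
  have hcross : ‖CrP w K al (fun k => if Q k then StE E0 (JW D Y₀ Y₁) om al k else 0) -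
      ((pC * c3 w K : ℝ) : ℂ) * X2 Y E0 (JW D Y₀ Y₁) om al‖ ≤
      C₃ * C₂ * X ^ ε * GG + RR + et := by
    have e1 : CrP w K al (fun k => if Q k then StE E0 (JW D Y₀ Y₁) om al k else 0) =
        CrP w K al (StE E0 (JW D Y₀ Y₁) om al) -
          CrP w K al (fun k => if Q k then 0 else StE E0 (JW D Y₀ Y₁) om al k) :=
      LB48.CrP_cut hw hK0 al (StE E0 (JW D Y₀ Y₁) om al) Q
    rw [e1]
    have e2 : CrP w K al (StE E0 (JW D Y₀ Y₁) om al) -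
          CrP w K al (fun k => if Q k then 0 else StE E0 (JW D Y₀ Y₁) om al k) -
        ((pC * c3 w K : ℝ) : ℂ) * X2 Y E0 (JW D Y₀ Y₁) om al =
        (CrP w K al (StE E0 (JW D Y₀ Y₁) om al) -
          ((pC * c3 w K : ℝ) : ℂ) * X2 Y E0 (JW D Y₀ Y₁) om al) -
          CrP w K al (fun k => if Q k then 0 else StE E0 (JW D Y₀ Y₁) om al k) := by ring
    rw [e2]
    refine (norm_sub_le _ _).trans (add_le_add (b2.trans (add_le_add b3 le_rfl)) ht)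
  have key := H₁ X hX P hP q ps hN hz hLX K Y D Y₀ Y₁ D' Y₁' T₀ E0 F F₂ hK hYl hYu hD hY₁ hDD hYY
    hYD hYX hKX hY₀ hE0 hT₀ hF hF₂ (hco.mono (le_max_left r₁ r₂)) (hcl.mono (le_max_left r₁ r₂))
    (htl.mono (le_max_left r₁ r₂)) al hdom om hom1 hom homJ Q _ e₃ hcross he
  refine key.trans ?_
  have e9 : (C₁ + 2 * pC * (C₃ * C₂)) * X ^ ε * (K * Real.exp n) * (1 + F + F₂) =
      C₁ * X ^ ε * (K * Real.exp n) * (1 + F + F₂) +
      2 * pC * (C₃ * C₂) * X ^ ε * (K * Real.exp n) * (1 + F + F₂) := by ring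
  have e8 : (C₁ + 2 * pC * (C₃ * C₂)) * X ^ ε * (K / Real.exp n) *
      (Fs * Real.exp (Tg + 2 / 3 * n)) =
      C₁ * X ^ ε * GG + 2 * pC * (C₃ * C₂) * X ^ ε * GG := by rw [hGG]; ring
  rw [e9, e8]
  have e10 : 2 * pC * (C₃ * C₂ * X ^ ε * GG + RR + et) =
      2 * pC * (C₃ * C₂) * X ^ ε * GG + 2 * pC * (RR + et) := by ring
  rw [e10]
  have h5 : 0 ≤ 2 * pC * (C₃ * C₂) * X ^ ε * (K * Real.exp n) * (1 + F + F₂) := by positivity
  have h6 : 0 ≤ C₁ * X ^ ε * GG := by positivity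
  linarith

open Crest.Agent.R017.E5B71 (Pt) in
/-- **(I1) for natural lists twisted by an `S`-unit `s`, E2 with the adapted weight.** -/
theorem I1LGT {w : ℝ → ℝ} (hw : Wgt w) (hw0 : ∀ x, 0 ≤ w x) {Nw : ℕ} {Mw : ℝ} {Fw : ℕ → ℝ → ℂ}
    (hWD : WD w Nw Mw Fw) {h : ℝ → ℝ} {c : ℝ} (hpu : PU h c)
    (N : ℕ) {R₁ : ℝ} (hR₁ : 0 ≤ R₁) (hR : ∀ u, cx h u ≠ 0 → |u| ≤ R₁) {ε e₁ M B₂ : ℝ}
    (hε : 0 < ε) (he₁ : 0 < e₁) (hM : 0 ≤ M) (hB₂ : 0 < B₂) {s : Eis} (hs0 : s ≠ 0) {L : ℝ}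
    (hL : 0 ≤ L) :
    ∃ C r : ℝ, 0 ≤ C ∧ 0 ≤ r ∧ ∀ X : ℝ, 3 ≤ X → ∀ (P : DPar), P.OK → s ∈ FE47.SM P.n →
      ∀ (q : Eis) (ps : List Pq),
      ps.length ≤ N → (∀ p ∈ ps, 0 ≤ p.z ∧ p.z ≤ Real.log X) → LN ps ≤ Real.log X →
      ∀ (K Y D Y₀ Y₁ D' Y₁' T₀ E0 F F₂ Tg Fs : ℝ) (Sh : ℝ → ℝ → ℝ → ℝ) (I : ℕ), 1 ≤ K →
      Real.exp (LN ps + N * R₁ + 1) ≤ Y → Y ≤ X ^ B₂ → 0 ≤ D → 0 < Y₁ → D ≤ D' → Y₁ ≤ Y₁' →
      Y₁' ≤ D' ^ 2 → Y₁' * (nm s : ℝ) ^ 2 ≤ X → Real.exp (2 * LN ps) * X ^ e₁ ≤ K * Y₁' →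
      Y₀ < 1 → 0 < E0 → Y₁ < 2 ^ I → 0 < T₀ → 0 ≤ F → 0 ≤ F₂ → 0 ≤ Fs →
      LipS L Sh →
      CellS h P q ps (X ^ B₂) r M (Real.log (Y₁ * (nm s : ℝ) ^ 2)) (Real.log E0) Fs Sh →
      FlatO h P q ps r M (Real.log K) (Real.log (Y₁' * (nm s : ℝ) ^ 2)) F →
      FlatL h P q ps (X ^ B₂) r M (Real.log K) (Real.log (Y₁' * (nm s : ℝ) ^ 2)) F →
      Tail h P q ps (X ^ B₂) r M (Real.log K) (Real.log (Y₁' * (nm s : ℝ) ^ 2)) (Real.log T₀)
        (Real.log E0) F₂ →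
      ∀ om : Eis × Eis → ℂ, (∀ x, ‖1 - om x‖ ≤ 1) → (∀ x, ‖om x‖ ≤ 1) →
      (∀ x : Eis × Eis, (nm (x.2 * x.1 ^ 2) : ℝ) ≤ T₀ → om x = 1) →
      (∀ x ∈ JW D' Y₀ Y₁', x ∉ JW D Y₀ Y₁ → om x = 0) → ∀ (Q : Eis → Prop) (et e₃ : ℝ),
      ‖CrP w K (sqc q (alL h (ps.map (Pt P s)))) (fun k => if Q k then 0 else
          StE E0 (JW D Y₀ Y₁) om (sqc q (alL h (ps.map (Pt P s)))) k)‖ ≤ et →
      GrP w K (fun k => if Q k then
          StE E0 (JW D Y₀ Y₁) om (sqc q (alL h (ps.map (Pt P s)))) k else 0) ≤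
        c3 w K * (X3 Y E0 (JW D Y₀ Y₁) om (sqc q (alL h (ps.map (Pt P s))))).re + e₃ →
      ∑' k : Eis, (if IsPrim k ∧ Q k then w (nm k / K) *
        ‖CS (sqc q (alL h (ps.map (Pt P s)))) k -
          (pC : ℂ) * StE E0 (JW D Y₀ Y₁) om (sqc q (alL h (ps.map (Pt P s)))) k‖ ^ 2 else 0) ≤
      C * X ^ ε * (K * Real.exp (LN ps)) * (1 + F + F₂) +
        C * X ^ ε * (K / Real.exp (LN ps)) * (Fs * Real.exp (Tg + 2 / 3 * LN ps)) +
        2 * pC * (∑ i ∈ Finset.range Nw, RPg (rhoS Tg (Real.log K) Sh)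
          (sqc q (alL h (ps.map (Pt P s)))) (sc K Mw i) (GF (Fw i)) (S D) I E0 Y₁ + et) +
        pC ^ 2 * e₃ := by
  obtain ⟨C, r, hC, hr, H⟩ := I1LG hw hw0 hWD hpu N hR₁ hR hε he₁ hM hB₂
    (one_le_pow₀ (nm_ne hs0) (n := 2)) (Nat.cast_nonneg (ds s).card) hL
  refine ⟨C, r, hC, hr, ?_⟩
  intro X hX P hP hs q ps hN hz hLX K Y D Y₀ Y₁ D' Y₁' T₀ E0 F F₂ Tg Fs Sh I hK hYl hYu hD hY₁ hDD
    hYY hYD hYX hKX hY₀ hE0 hI hT₀ hF hF₂ hFs hLip hcs hco hcl htl om hom1 homb hom homJ Q et e₃ ht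
    he
  exact H X hX P hP q ps hN hz hLX K Y D Y₀ Y₁ D' Y₁' T₀ E0 F F₂ Tg Fs Sh I hK hYl hYu hD hY₁ hDD
    hYY hYD hYX hKX hY₀ hE0 hI hT₀ hF hF₂ hFs hLip hcs hco hcl htl _ (dom_list hP h hs q ps) om hom1 homb hom homJ Q
    et e₃ ht he

end Crest.Agent.R017.I1146
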