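import Crest.Agent.R017.RGb_64
import Crest.Agent.R017.E1w_551

/-!
# Row 17, C.REMg (RG), glue (helper64), part c: twists, subsequences, the small divisors

* `shT t ps` : the list with all heights shifted by `t` (`alF_shT`)
* `tws_sg` : the subsequences of `sqc q (alF ..)`, twisted
* `sub_numX`, `sub_num`, `sub_num0` : the subsequences of a flagged list from a claim
-/

set_option autoImplicit false

noncomputable section

open Complex
open scoped ComplexConjugate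

namespace Crest.Agent.R017.RG64

open Crest.Agent.R012 Crest.Agent.R012.Eis Crest.Agent.R012.LS2 Crest.Agent.R012.Gauss880
open Crest.Agent.R012.Div277 (dvs mem_dvs isPrim_of_mem_dvs dvs_zero)
open Crest.Agent.R012.Weight600 (osc pw)
open Crest.Agent.R017.CM106 Crest.Agent.R017.HP842 Crest.Agent.R017.FE47
open Crest.Agent.R017.End699 hiding pw
open Crest.Agent.R017.B770
open Crest.Agent.R017.TP320 (conv)
open Crest.Agent.R017.Prov71
open Crest.Agent.R017.Rough381 (VF VF_nonneg)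
open Crest.Agent.R017.Leg381
open Crest.Agent.R017.E1551 (sg tws)

/-! ### shift of the heights -/

/-- the list with all heights shifted -/
def shT (t : ℝ) (ps : List Pf) : List Pf := ps.map fun p => ({p.1 with t := p.1.t + t}, p.2)

lemma shT_length (t : ℝ) (ps : List Pf) : (shT t ps).length = ps.length := by
  unfold shT; rw [List.length_map]

lemma LF_shT (t : ℝ) (ps : List Pf) : LF (shT t ps) = LF ps := by
  unfold LF shT
  rw [List.map_map]
  rfl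

lemma NT_shT {t : ℝ} {ps : List Pf} (h : NT ps) : NT (shT t ps) := by
  intro p hp
  obtain ⟨q, hq, rfl⟩ := List.mem_map.1 hp
  exact h q hq

lemma SbL_shT {s t : ℝ} {ps : List Pf} {ps₀ : List Pq} (h : SbL s ps ps₀) :
    SbL s (shT t ps) ps₀ := by
  unfold SbL at h ⊢
  induction h with
  | nil => exact List.Forall₂.nil
  | cons h1 _ ih => exact List.Forall₂.cons h1 ih

lemma Ht_shT (t : ℝ) (ps : List Pf) : Ht (shT t ps) ≤ Ht ps * (1 + |t|) ^ ps.length := by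
  induction ps with
  | nil => simp [shT]
  | cons p ps ih =>
    have e : shT t (p :: ps) = ({p.1 with t := p.1.t + t}, p.2) :: shT t ps := rfl
    rw [e, Ht_cons, Ht_cons, List.length_cons]
    have h1 : 1 + |p.1.t + t| ≤ (1 + |p.1.t|) * (1 + |t|) := by
      have := abs_add_le p.1.t t
      nlinarith [abs_nonneg p.1.t, abs_nonneg t]
    have h0 : 0 ≤ Ht (shT t ps) := by linarith [one_le_Ht (shT t ps)]
    calc (1 + |p.1.t + t|) * Ht (shT t ps) ≤ ((1 + |p.1.t|) * (1 + |t|)) *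
          (Ht ps * (1 + |t|) ^ ps.length) := mul_le_mul h1 ih h0 (by positivity)
      _ = _ := by ring

lemma osc_add_t (s t u : ℝ) : osc (s + t) u = osc s u * osc t u := by
  unfold osc
  rw [← Complex.exp_add]
  congr 1
  push_cast
  ring

lemma pc_shift (h : ℝ → ℝ) (P : DPar) (p : Pq) (t : ℝ) (n : Eis) :
    pc h (({p with t := p.t + t} : Pq).pc P) n = pc h (p.pc P) n * pw t (nm n) := by
  unfold pc
  by_cases hn : IsPrim n
  · rw [if_pos hn, if_pos hn]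
    unfold HSep813.gw pw
    simp only [Pq.pc_u, Pq.pc_Y, Pq.pc_t, Pq.pc_ψ]
    rw [osc_add_t]
    ring
  · rw [if_neg hn, if_neg hn, zero_mul]

lemma pw_mul' (t : ℝ) {a b : Eis} (ha : a ≠ 0) (hb : b ≠ 0) :
    pw t (nm (a * b)) = pw t (nm a) * pw t (nm b) := by
  unfold pw osc
  have h1 : (0 : ℝ) < nm a := by exact_mod_cast nm_pos.2 ha
  have h2 : (0 : ℝ) < nm b := by exact_mod_cast nm_pos.2 hb
  rw [nm_mul]
  push_cast
  rw [Real.log_mul h1.ne' h2.ne', ← Complex.exp_add]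
  congr 1
  push_cast
  ring

lemma norm_pw (t x : ℝ) : ‖pw t x‖ = 1 := by
  unfold pw osc
  exact Complex.norm_exp_ofReal_mul_I _

lemma conv_pw (f g : Eis → ℂ) (t : ℝ) (n : Eis) :
    conv (fun n => f n * pw t (nm n)) (fun n => g n * pw t (nm n)) n =
      conv f g n * pw t (nm n) := by
  unfold conv
  by_cases hn : n = 0
  · subst hn; rw [dvs_zero, Finset.sum_empty, Finset.sum_empty, zero_mul]
  rw [Finset.sum_mul]
  refine Finset.sum_congr rfl fun d hd => ?_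
  have h1 := TP320.mul_div_of_mem hd
  have hd0 := (isPrim_of_mem_dvs hd).ne_zero
  have hq0 : n / d ≠ 0 := by
    intro h0
    rw [h0, mul_zero] at h1
    exact hn h1.symm
  have h2 : pw t (nm n) = pw t (nm d) * pw t (nm (n / d)) := by
    conv_lhs => rw [← h1]
    exact pw_mul' t hd0 hq0
  rw [h2]
  ring

lemma alF_shT (z D0 : ℝ) (P : DPar) (h : ℝ → ℝ) (t : ℝ) (ps : List Pf) (n : Eis) :
    alF z D0 P h (shT t ps) n = alF z D0 P h ps n * pw t (nm n) := by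
  induction ps generalizing n with
  | nil =>
    show dl n = dl n * pw t (nm n)
    unfold dl
    split_ifs with h1
    · rw [h1, nm_one]
      unfold pw osc
      simp
    · simp
  | cons p ps ih =>
    have e1 : alF z D0 P h (shT t (p :: ps)) =
        conv (fpc z D0 h (({p.1 with t := p.1.t + t} : Pq).pc P) p.2)
          (alF z D0 P h (shT t ps)) := rfl
    have e2 : alF z D0 P h (p :: ps) = conv (fpc z D0 h (p.1.pc P) p.2) (alF z D0 P h ps) := rfl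
    have e3 : alF z D0 P h (shT t ps) = fun n => alF z D0 P h ps n * pw t (nm n) :=
      funext fun n => ih n
    have e4 : fpc z D0 h (({p.1 with t := p.1.t + t} : Pq).pc P) p.2 =
        fun n => fpc z D0 h (p.1.pc P) p.2 n * pw t (nm n) := by
      funext n
      unfold fpc
      rw [pc_shift]
      ring
    rw [e1, e2, e3, e4, conv_pw]

/-! ### subsequences -/

lemma Th_mul_any (q g m : Eis) : Th q (g * m) = Th q g * Th (q * g) m := by
  classical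
  unfold Th
  by_cases h : Squarefree (g * m) ∧ IsCoprime (g * m) q
  · rw [if_pos h]
    obtain ⟨h1, h2⟩ := h
    rw [squarefree_mul_iff] at h1
    rw [IsCoprime.mul_left_iff] at h2
    rw [if_pos ⟨h1.2.1, h2.1⟩, if_pos ⟨h1.2.2, IsCoprime.mul_right h2.2
      (isRelPrime_iff_isCoprime.1 h1.1).symm⟩, one_mul]
  · rw [if_neg h]
    by_cases ha : Squarefree g ∧ IsCoprime g q
    · rw [if_pos ha, one_mul, if_neg]
      rintro ⟨h3, h4⟩
      rw [IsCoprime.mul_right_iff] at h4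
      exact h ⟨squarefree_mul_iff.2 ⟨h4.2.symm.isRelPrime, ha.1, h3⟩,
        IsCoprime.mul_left_iff.2 ⟨ha.2, h4.1⟩⟩
    · rw [if_neg ha, zero_mul]

lemma norm_Th_le (q n : Eis) : ‖Th q n‖ ≤ 1 := by
  classical
  unfold Th
  split_ifs <;> simp

lemma TG_const_mul (c : ℂ) (w : Eis → ℂ) (l : Eis) : TG (fun n => c * w n) l = c * TG w l := by
  unfold TG
  rw [← tsum_mul_left]
  exact tsum_congr fun m => by ring

lemma VF_const_mul_le (L : ℝ) {c : ℂ} (hc : ‖c‖ ≤ 1) (w : Eis → ℂ) :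
    VF L (fun n => c * w n) ≤ VF L w := by
  unfold VF
  refine Finset.sum_le_sum fun j _ => ?_
  rw [TG_const_mul, norm_mul, mul_pow]
  have : ‖c‖ ^ 2 ≤ 1 := pow_le_one₀ (norm_nonneg _) hc
  exact mul_le_of_le_one_left (by positivity) this

/-- the twisted subsequence at `g` -/
lemma tws_sg (z D0 : ℝ) (P : DPar) (h : ℝ → ℝ) (ps : List Pf) (q : Eis) {g : Eis} (hg : g ≠ 0)
    (t : ℝ) (hprim : ∀ n, alF z D0 P h ps n ≠ 0 → IsPrim n) :
    tws (sg (sqc q (alF z D0 P h ps)) g) t =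
      fun m => (Th q g * pw (-t) (nm g)) *
        sqc (q * g) (CM106.sub (alF z D0 P h (shT t ps)) g) m := by
  funext m
  show Th q (g * m) * alF z D0 P h ps (g * m) * pw t (nm m) =
    (Th q g * pw (-t) (nm g)) * (Th (q * g) m * alF z D0 P h (shT t ps) (g * m))
  rw [alF_shT, Th_mul_any]
  by_cases h0 : alF z D0 P h ps (g * m) = 0
  · rw [h0]; simp
  have hm : m ≠ 0 := right_ne_zero_of_mul (hprim _ h0).ne_zero
  rw [pw_mul' t hg hm]
  have h1 : pw (-t) (nm g) * pw t (nm g) = 1 := by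
    unfold pw osc
    rw [← Complex.exp_add, ← add_mul]
    have : (((-t) * Real.log (nm g) : ℝ) : ℂ) + ((t * Real.log (nm g) : ℝ) : ℂ) = 0 := by
      push_cast; ring
    rw [this, zero_mul, Complex.exp_zero]
  calc Th q g * Th (q * g) m * alF z D0 P h ps (g * m) * pw t (nm m) =
      Th q g * Th (q * g) m * alF z D0 P h ps (g * m) * pw t (nm m) *
        (pw (-t) (nm g) * pw t (nm g)) := by rw [h1, mul_one]
    _ = _ := by ring

lemma VF_tws_sg_le (z D0 : ℝ) (P : DPar) (h : ℝ → ℝ) (ps : List Pf) (q : Eis) {g : Eis}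
    (hg : g ≠ 0) (t V : ℝ) (hprim : ∀ n, alF z D0 P h ps n ≠ 0 → IsPrim n) :
    VF V (tws (sg (sqc q (alF z D0 P h ps)) g) t) ≤
      VF V (sqc (q * g) (CM106.sub (alF z D0 P h (shT t ps)) g)) := by
  rw [tws_sg z D0 P h ps q hg t hprim]
  refine VF_const_mul_le V ?_ _
  rw [norm_mul, norm_pw, mul_one]
  exact norm_Th_le _ _

/-- the sequence of a flagged list -/
lemma FS_alF {h : ℝ → ℝ} (hh : Bump h) {P : DPar} (hP : P.OK) (z D0 : ℝ) (ps : List Pf) :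
    FS (alF z D0 P h ps) := by
  unfold alF
  refine HP842.FS_cvL fun f hf => ?_
  obtain ⟨p, hp', rfl⟩ := List.mem_map.1 hf
  have h1 := fs_pc hh (Pq.ok hP p.1)
  refine ⟨h1.fin.subset fun n hn => ?_, fun n hn => h1.prim n ?_⟩
  · exact left_ne_zero_of_mul hn
  · exact left_ne_zero_of_mul hn

/-- exponents of the subsequences -/
lemma fl_sub {κ k m γ l m' r : ℝ} (hl : |l - (k + m - γ - m')| ≤ r) (hm : m' ≤ m - γ + r)
    (hr : 0 ≤ r) :
    fl κ l m' ≤ (2 * m - 2 * γ + max 0 ((k - 2 * m + 2 * γ + κ) / 3) + r) + (m' + γ - m) := by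
  unfold fl
  have h1 := (abs_le.1 hl).2
  set M0 := max 0 ((k - 2 * m + 2 * γ + κ) / 3) with hM0
  have h2 : (k - 2 * m + 2 * γ + κ) / 3 ≤ M0 := le_max_right _ _
  have h3 : 0 ≤ M0 := le_max_left _ _
  rcases le_total 0 ((l - 2 * m' + κ) / 3) with h | h
  · rw [max_eq_right h]
    linarith
  · rw [max_eq_left h]
    linarith

/-- heights of a shifted list -/
lemma Ht_shT_rpow {J : ℝ} (hJ : 0 ≤ J) (t : ℝ) {ps : List Pf} {N : ℕ} (hlen : ps.length ≤ N) :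
    Ht (shT t ps) ^ J ≤ Ht ps ^ J * (1 + |t|) ^ ((N : ℝ) * J) := by
  have hHt0 := one_le_Ht ps
  have h2 : Ht (shT t ps) ≤ Ht ps * (1 + |t|) ^ N := by
    refine (Ht_shT t ps).trans ?_
    have h3 : (1 + |t|) ^ ps.length ≤ (1 + |t|) ^ N :=
      pow_le_pow_right₀ (by linarith [abs_nonneg t]) hlen
    exact mul_le_mul_of_nonneg_left h3 (by linarith)
  calc Ht (shT t ps) ^ J ≤ (Ht ps * (1 + |t|) ^ N) ^ J :=
        Real.rpow_le_rpow (by linarith [one_le_Ht (shT t ps)]) h2 hJ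
    _ = Ht ps ^ J * ((1 + |t|) ^ N) ^ J := Real.mul_rpow (by linarith) (by positivity)
    _ = Ht ps ^ J * (1 + |t|) ^ ((N : ℝ) * J) := by
        rw [← Real.rpow_natCast, ← Real.rpow_mul (by positivity)]

/-- exponents of the subsequences, slope form -/
lemma ex_sub {κ k m γ l m' r : ℝ} (hl : |l - (k + m - γ - m')| ≤ r) :
    4 / 3 * m' + (l + κ) / 3 ≤ (4 / 3 * (m - γ) + (k + κ) / 3 + r) + (m' + γ - m) := by
  have h1 := (abs_le.1 hl).2
  have h2 : 0 ≤ r := (abs_nonneg _).trans hl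
  linarith

/-- **the subsequences** of a flagged list from a claim -/
theorem sub_numX {h : ℝ → ℝ} {c : ℝ} (hpu : PU h c) (N : ℕ) {B₀ : ℝ} (hB₀ : 0 ≤ B₀) {ε : ℝ}
    (hε : 0 < ε) {J : ℝ} (hJ : 0 ≤ J) : ∃ C r : ℝ, 1 ≤ C ∧ 0 ≤ r ∧ ∀ X : ℝ, 3 ≤ X →
    ∀ D : Dat, D.P.OK → D.h = h → 1 ≤ D.D0 → D.J = J → D.ps₀.length ≤ N →
    ∀ (E : ℝ → ℝ → ℝ) (B s a Q q₀ σ' lo T : ℝ), 0 ≤ B → Real.exp r ≤ q₀ →
    ClX E D (Ge lo) B (s + r) (a + r) (Q * q₀) σ' →
    ∀ (q g : Eis) (ps : List Pf) (t V : ℝ), IsPrim q → (nm q : ℝ) * Real.exp (LF ps) ≤ Q →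
    IsPrim g → (nm g : ℝ) ≤ X ^ B₀ → SbL s ps D.ps₀ → LF ps ≤ Real.log X →
    (∀ x : ℝ, x ≤ LF ps - Real.log (nm g) + r → (g ≠ 1 → 1 ≤ D.z → NT ps →
      x ≤ LF ps - min (Real.log D.z) (Real.log D.D0) + r) → x ≤ σ') →
    lo + Real.log (nm g) + N * Real.log D.D0 + r ≤ LF ps →
    1 ≤ V → V ≤ X → Real.log V ≤ D.v + (D.n - LF ps) + a + Real.log (nm g) →
    (∀ l m' : ℝ, |l - (Real.log V + LF ps - Real.log (nm g) - m')| ≤ r →
      m' ≤ LF ps - Real.log (nm g) + r → E l m' ≤ T + (m' + Real.log (nm g) - LF ps)) →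
    VF V (tws (sg (sqc q (alF D.z D.D0 D.P D.h ps)) g) t) ≤
      C * X ^ ε * B * Ht ps ^ J * (1 + |t|) ^ ((N : ℝ) * J) * Real.exp T := by
  obtain ⟨C, r, hC, hr, H⟩ := sub_list hpu N hB₀ hε hJ
  refine ⟨C, r, hC, hr, ?_⟩
  intro X hX D hP hh hD0 hDJ hN E B s a Q q₀ σ' lo T hB hq₀ hCl q g ps t V hq hqQ hg hgX hps
    hLX hσ hlo hV hVX hk hT
  have hX1 : (1 : ℝ) ≤ X := by linarith
  have hBump := bump_of_cs hpu.cs
  have hprim : ∀ n, alF D.z D.D0 D.P D.h ps n ≠ 0 → IsPrim n := by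
    rw [hh]; exact (FS_alF hBump hP D.z D.D0 ps).prim
  refine (VF_tws_sg_le D.z D.D0 D.P D.h ps q hg.ne_zero t V hprim).trans ?_
  have hlen : ps.length ≤ N := hps.length ▸ hN
  have hV0 : 0 < V := by linarith
  have hng : (0 : ℝ) < nm g := by exact_mod_cast nm_pos.2 hg.ne_zero
  set k := Real.log V with hkd
  have hk0 : 0 ≤ k := Real.log_nonneg hV
  have hkX : k ≤ Real.log X := Real.log_le_log hV0 hVX
  set γ := Real.log (nm g) with hγ
  have heγ : Real.exp γ = nm g := Real.exp_log hng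
  set m := LF ps with hm
  set ps₁ := shT t ps with hps₁
  have hps₁' : SbL s ps₁ D.ps₀ := SbL_shT hps
  have hz := hps₁'.z_nonneg
  have hlen₁ : ps₁.length ≤ N := by rw [hps₁, shT_length]; exact hlen
  have hLF₁ : LF ps₁ = m := LF_shT t ps
  have hHt1 := one_le_Ht ps₁
  have hHt0 := one_le_Ht ps
  have key := H X hX D.P hP D.z D.D0 q hD0 g hg hgX k ps₁ hk0 hkX hlen₁
    (fun p hp => ⟨hz p hp, (z_le_LF hz p hp).trans (by rw [hLF₁]; exact hLX)⟩)
    (B * Ht ps₁ ^ J * Real.exp T) (by positivity) ?_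
  · have e1 : Real.exp k = V := Real.exp_log hV0
    rw [e1, ← hh] at key
    refine key.trans ?_
    have h1 : Ht ps₁ ^ J ≤ Ht ps ^ J * (1 + |t|) ^ ((N : ℝ) * J) := Ht_shT_rpow hJ t hlen
    have hE : 0 ≤ C * X ^ ε := by positivity
    calc C * X ^ ε * (B * Ht ps₁ ^ J * Real.exp T) ≤
          C * X ^ ε * (B * (Ht ps ^ J * (1 + |t|) ^ ((N : ℝ) * J)) * Real.exp T) := by gcongr
      _ = _ := by ring
  · intro l ps' hl hch h1 h2 h3 h4
    rw [hLF₁] at h1 h2 h3 h4 ⊢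
    have hps' := hps₁'.childG hch
    have hcst := cstF_nonneg ps' ps₁
    have hq' : IsPrim (q * g) := hq.mul hg
    have hqQ' : (nm (q * g) : ℝ) * Real.exp (LF ps') ≤ Q * q₀ := by
      rw [nm_mul]; push_cast
      have h5 : (nm g : ℝ) * Real.exp (LF ps') ≤ Real.exp m * Real.exp r := by
        rw [← heγ, ← Real.exp_add, ← Real.exp_add]
        exact Real.exp_le_exp.2 (by linarith)
      calc (nm q : ℝ) * nm g * Real.exp (LF ps') = nm q * (nm g * Real.exp (LF ps')) := by ring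
        _ ≤ nm q * (Real.exp m * Real.exp r) := mul_le_mul_of_nonneg_left h5 (Nat.cast_nonneg _)
        _ = (nm q * Real.exp m) * Real.exp r := by ring
        _ ≤ Q * q₀ := mul_le_mul hqQ hq₀ (Real.exp_pos _).le ((by positivity : (0 : ℝ) ≤
            nm q * Real.exp m).trans hqQ)
    have hc1 := hCl (q * g) ps' l hq' hqQ' (by
        show lo ≤ LF ps'
        linarith) hps' (hσ _ h1 fun a1 a2 a3 => h3 a1 a2 fun p hp => NT_shT a3 p hp) hl (by
        have := (abs_le.1 h4).2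
        linarith)
    have hHt' : Ht ps' ^ J ≤ Ht ps₁ ^ J * cstF ps' ps₁ ^ J := by
      rw [← Real.mul_rpow (by linarith) hcst]
      exact Real.rpow_le_rpow (by linarith [one_le_Ht ps']) (Ht_le_cst hch) hJ
    have hfl := hT l (LF ps') h4 h1
    rw [hDJ] at hc1
    rw [hh] at hc1
    refine hc1.trans ?_
    have hE : Real.exp (E l (LF ps')) ≤ Real.exp T * Real.exp (LF ps' + γ - m) := by
      rw [← Real.exp_add]
      exact Real.exp_le_exp.2 hfl
    calc B * Ht ps' ^ J * Real.exp (E l (LF ps')) ≤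
          B * (Ht ps₁ ^ J * cstF ps' ps₁ ^ J) * (Real.exp T * Real.exp (LF ps' + γ - m)) := by
          gcongr
      _ = _ := by ring

/-- **the subsequences**, flat claims -/
theorem sub_num {h : ℝ → ℝ} {c : ℝ} (hpu : PU h c) (N : ℕ) {B₀ : ℝ} (hB₀ : 0 ≤ B₀) {ε : ℝ}
    (hε : 0 < ε) {J : ℝ} (hJ : 0 ≤ J) : ∃ C r : ℝ, 1 ≤ C ∧ 0 ≤ r ∧ ∀ X : ℝ, 3 ≤ X →
    ∀ D : Dat, D.P.OK → D.h = h → 1 ≤ D.D0 → D.J = J → D.ps₀.length ≤ N →
    ∀ (B s a Q q₀ σ' lo : ℝ), 0 ≤ B → Real.exp r ≤ q₀ →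
    Cl D (Ge lo) B (s + r) (a + r) (Q * q₀) σ' →
    ∀ (q g : Eis) (ps : List Pf) (t V : ℝ), IsPrim q → (nm q : ℝ) * Real.exp (LF ps) ≤ Q →
    IsPrim g → (nm g : ℝ) ≤ X ^ B₀ → SbL s ps D.ps₀ → LF ps ≤ Real.log X →
    (∀ x : ℝ, x ≤ LF ps - Real.log (nm g) + r → (g ≠ 1 → 1 ≤ D.z → NT ps →
      x ≤ LF ps - min (Real.log D.z) (Real.log D.D0) + r) → x ≤ σ') →
    lo + Real.log (nm g) + N * Real.log D.D0 + r ≤ LF ps →
    1 ≤ V → V ≤ X → Real.log V ≤ D.v + (D.n - LF ps) + a + Real.log (nm g) →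
    VF V (tws (sg (sqc q (alF D.z D.D0 D.P D.h ps)) g) t) ≤
      C * X ^ ε * B * Ht ps ^ J * (1 + |t|) ^ ((N : ℝ) * J) *
        Real.exp (2 * LF ps - 2 * Real.log (nm g) +
          max 0 ((Real.log V - 2 * LF ps + 2 * Real.log (nm g) + D.κ) / 3)) := by
  obtain ⟨C, r, hC, hr, H⟩ := sub_numX hpu N hB₀ hε hJ
  refine ⟨C * Real.exp r, r, ?_, hr, ?_⟩
  · have : 1 ≤ Real.exp r := Real.one_le_exp hr
    nlinarith
  intro X hX D hP hh hD0 hDJ hN B s a Q q₀ σ' lo hB hq₀ hCl q g ps t V hq hqQ hg hgX hps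
    hLX hσ hlo hV hVX hk
  have := H X hX D hP hh hD0 hDJ hN (fl D.κ) B s a Q q₀ σ' lo
    (2 * LF ps - 2 * Real.log (nm g) +
      max 0 ((Real.log V - 2 * LF ps + 2 * Real.log (nm g) + D.κ) / 3) + r) hB hq₀ hCl q g ps t V
    hq hqQ hg hgX hps hLX hσ hlo hV hVX hk (fun l m' h1 h2 => fl_sub h1 h2 hr)
  refine this.trans (le_of_eq ?_)
  rw [Real.exp_add _ r]
  ring

/-- **the subsequences**, slope claims -/
theorem sub_num0 {h : ℝ → ℝ} {c : ℝ} (hpu : PU h c) (N : ℕ) {B₀ : ℝ} (hB₀ : 0 ≤ B₀) {ε : ℝ}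
    (hε : 0 < ε) {J : ℝ} (hJ : 0 ≤ J) : ∃ C r : ℝ, 1 ≤ C ∧ 0 ≤ r ∧ ∀ X : ℝ, 3 ≤ X →
    ∀ D : Dat, D.P.OK → D.h = h → 1 ≤ D.D0 → D.J = J → D.ps₀.length ≤ N →
    ∀ (B s a Q q₀ σ' lo : ℝ), 0 ≤ B → Real.exp r ≤ q₀ →
    ClX (fun k m => 4 / 3 * m + (k + D.κ) / 3) D (Ge lo) B (s + r) (a + r) (Q * q₀) σ' →
    ∀ (q g : Eis) (ps : List Pf) (t V : ℝ), IsPrim q → (nm q : ℝ) * Real.exp (LF ps) ≤ Q →
    IsPrim g → (nm g : ℝ) ≤ X ^ B₀ → SbL s ps D.ps₀ → LF ps ≤ Real.log X →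
    (∀ x : ℝ, x ≤ LF ps - Real.log (nm g) + r → x ≤ σ') →
    lo + Real.log (nm g) + N * Real.log D.D0 + r ≤ LF ps →
    1 ≤ V → V ≤ X → Real.log V ≤ D.v + (D.n - LF ps) + a + Real.log (nm g) →
    VF V (tws (sg (sqc q (alF D.z D.D0 D.P D.h ps)) g) t) ≤
      C * X ^ ε * B * Ht ps ^ J * (1 + |t|) ^ ((N : ℝ) * J) *
        Real.exp (4 / 3 * (LF ps - Real.log (nm g)) + (Real.log V + D.κ) / 3) := by
  obtain ⟨C, r, hC, hr, H⟩ := sub_numX hpu N hB₀ hε hJ
  refine ⟨C * Real.exp r, r, ?_, hr, ?_⟩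
  · have : 1 ≤ Real.exp r := Real.one_le_exp hr
    nlinarith
  intro X hX D hP hh hD0 hDJ hN B s a Q q₀ σ' lo hB hq₀ hCl q g ps t V hq hqQ hg hgX hps
    hLX hσ hlo hV hVX hk
  have := H X hX D hP hh hD0 hDJ hN _ B s a Q q₀ σ' lo
    (4 / 3 * (LF ps - Real.log (nm g)) + (Real.log V + D.κ) / 3 + r) hB hq₀ hCl q g ps t V
    hq hqQ hg hgX hps hLX (fun x h1 _ => hσ x h1) hlo hV hVX hk (fun l m' h1 _ => ex_sub h1)
  refine this.trans (le_of_eq ?_)
  rw [Real.exp_add _ r]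
  ring

end Crest.Agent.R017.RG64
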