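import Crest.Agent.R017.Leg9_381
import Crest.Agent.R017.RGc_64
import Crest.Agent.R017.E1zc_551

/-!
# Row 17, RG3 (helper381): the merged rule in the notation of E1

* `JB_list` : the joint block `(g; B, V)` at the twist `t` from natural children
* `big_sub` : the same for lists derived from a base list, heights separated
-/

set_option autoImplicit false
set_option linter.unusedSectionVars false
set_option linter.unusedVariables false

noncomputable section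

open Complex
open scoped ComplexConjugate

namespace Crest.Agent.R017.RG64

open Crest.Agent.R012 Crest.Agent.R012.Eis Crest.Agent.R012.LS2 Crest.Agent.R012.Gauss880
open Crest.Agent.R012.Div277 (dvs mem_dvs isPrim_of_mem_dvs dvs_zero)
open Crest.Agent.R012.Weight600 (osc pw)
open Crest.Agent.R017.CM106 Crest.Agent.R017.HP842 Crest.Agent.R017.FE47
open Crest.Agent.R017.End699 hiding pw
open Crest.Agent.R017.B770
open Crest.Agent.R017.Prov71
open Crest.Agent.R017.Rough381 (VF VF_nonneg)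
open Crest.Agent.R017.Leg381
open Crest.Agent.R017.E1551 (sg tws JB BU BF mem_BF)

/-- the Gauss sums of a twisted subsequence -/
lemma norm_TG_tws_sg_le (z D0 : ℝ) (P : DPar) (h : ℝ → ℝ) (ps : List Pf) (q : Eis) {g : Eis}
    (hg : g ≠ 0) (t : ℝ) (hprim : ∀ n, alF z D0 P h ps n ≠ 0 → IsPrim n) (r : Eis) :
    ‖TG (tws (sg (sqc q (alF z D0 P h ps)) g) t) r‖ ≤
      ‖TG (sqc (q * g) (CM106.sub (alF z D0 P h (shT t ps)) g)) r‖ := by
  rw [tws_sg z D0 P h ps q hg t hprim, TG_const_mul, norm_mul]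
  refine mul_le_of_le_one_left (norm_nonneg _) ?_
  rw [norm_mul, norm_pw, mul_one]
  exact norm_Th_le _ _

/-- no common factors -/
lemma TG_tws_sg_zero (q : Eis) (w : Eis → ℂ) {g U : Eis} (hgU : ¬ IsCoprime g U) (t : ℝ)
    (r : Eis) : TG (tws (sg (sqc q w) (g * U)) t) r = 0 := by
  have e : tws (sg (sqc q w) (g * U)) t = fun _ => 0 := by
    funext m
    show Th q (g * U * m) * w (g * U * m) * pw t (nm m) = 0
    have : Th q (g * U * m) = 0 := by
      by_contra hT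
      have h1 := (Th_ne_zero hT).1
      have h2 : Squarefree (g * U) := h1.squarefree_of_dvd (dvd_mul_right _ _)
      rw [squarefree_mul_iff] at h2
      exact hgU (isRelPrime_iff_isCoprime.1 h2.1)
    rw [this, zero_mul, zero_mul]
  rw [e]
  unfold TG
  simp

open Classical in
/-- **the joint block from natural children** -/
theorem JB_list {h : ℝ → ℝ} {c : ℝ} (hpu : PU h c) (N : ℕ) {B₀ : ℝ} (hB₀ : 0 ≤ B₀) {ε : ℝ}
    (hε : 0 < ε) {M : ℝ} (hM : 0 ≤ M) : ∃ C r : ℝ, 1 ≤ C ∧ 0 ≤ r ∧ ∀ X : ℝ, 3 ≤ X →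
    ∀ (P : DPar), P.OK → ∀ (z D0 : ℝ) (q : Eis), 1 ≤ D0 →
    ∀ g : Eis, IsPrim g → (nm g : ℝ) ≤ X ^ B₀ →
    ∀ (B V Y t : ℝ) (Q : Eis → Prop), 1 ≤ B → B ≤ X ^ B₀ → 1 ≤ V → V ≤ X → 0 ≤ Y →
    ∀ ps : List Pf, ps.length ≤ N →
    (∀ p ∈ ps, 0 ≤ p.1.z ∧ p.1.z ≤ Real.log X) → ∀ Bd : ℝ, 0 ≤ Bd →
    (∀ (l : ℝ) (ps' : List Pf), 0 ≤ l → List.Forall₂ (ChG r) ps' (shT t ps) →
      (∀ p ∈ ps', p.2 = false) →
      LF ps' ≤ LF ps - Real.log (nm g) - Real.log B + r →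
      LF ps - Real.log (nm g) - Real.log B - N * Real.log D0 - r ≤ LF ps' →
      |l - (Real.log V + LF ps - Real.log (nm g) - LF ps')| ≤ r →
      SF z D0 (q * g) P h l ps' ≤ Bd * cstF ps' (shT t ps) ^ M *
        Real.exp (LF ps' + Real.log (nm g) + Real.log B - LF ps)) →
    JB Y (sqc q (alF z D0 P h ps)) Q g B V t ≤ C * X ^ ε * Bd := by
  obtain ⟨C, r, hC, hr, H⟩ := merge_list hpu N hB₀ hε hM
  refine ⟨C, r, hC, hr, ?_⟩
  intro X hX P hP z D0 q hD0 g hg hgX B V Y t Q hB1 hBX hV1 hVX hY ps hlen hps Bd hBd hyp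
  have hBump := bump_of_cs hpu.cs
  have hprim : ∀ n, alF z D0 P h ps n ≠ 0 → IsPrim n := (FS_alF hBump hP z D0 ps).prim
  have hB0 : 0 < B := by linarith
  have hV0 : 0 < V := by linarith
  have hX0 : 0 < X := by linarith
  have hLF : LF (shT t ps) = LF ps := LF_shT t ps
  have heV : Real.exp (Real.log V) = V := Real.exp_log hV0
  have hlB : Real.log B ≤ B₀ * Real.log X := by
    rw [← Real.log_rpow hX0]
    exact Real.log_le_log hB0 hBX
  set Us : Finset Eis := (S Y).filter (fun U => (B / 2 < nm U ∧ nm U ≤ B ∧ Q U) ∧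
    IsCoprime g U) with hUs
  have key := H X hX P hP z D0 q hD0 g hg hgX (Real.log B) Us (Real.log_nonneg hB1) hlB
    (fun U hU => by
      obtain ⟨h1, ⟨h2, h3, _⟩, h4⟩ := Finset.mem_filter.1 hU
      have hUp := ((mem_S hY).1 h1).2.1
      have hU0 : (0 : ℝ) < nm U := by exact_mod_cast nm_pos.2 hUp.ne_zero
      refine ⟨hUp, h4, ?_⟩
      rw [abs_le]
      have h5 : Real.log (nm U) ≤ Real.log B := Real.log_le_log hU0 h3
      have h6 : Real.log B - Real.log 2 ≤ Real.log (nm U) := by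
        rw [← Real.log_div hB0.ne' two_ne_zero]
        exact Real.log_le_log (by positivity) h2.le
      have h7 := Real.log_two_lt_d9
      constructor <;> linarith)
    (Real.log V) (shT t ps) (Real.log_nonneg hV1) (Real.log_le_log hV0 hVX)
    (by rw [shT_length]; exact hlen)
    (fun p hp => by
      obtain ⟨p', hp', rfl⟩ := List.mem_map.1 hp
      exact hps p' hp') Bd hBd
    (fun l ps' hl hch hnat h1 h2 h3 => by
      rw [hLF] at h1 h2 h3 ⊢
      exact hyp l ps' hl hch hnat h1 h2 h3)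
  refine le_trans ?_ key
  rw [heV]
  unfold JB
  have e1 : ∑ U ∈ (S Y).filter (fun U => B / 2 < nm U ∧ nm U ≤ B ∧ Q U), ∑ κ ∈ BU V U,
      ‖TG (tws (sg (sqc q (alF z D0 P h ps)) (g * U)) t) (κ * U)‖ ^ 2 =
      ∑ U ∈ Us, ∑ κ ∈ BU V U,
      ‖TG (tws (sg (sqc q (alF z D0 P h ps)) (g * U)) t) (κ * U)‖ ^ 2 := by
    symm
    refine Finset.sum_subset (fun U hU => ?_) fun U hU hne => ?_
    · obtain ⟨a1, a2, _⟩ := Finset.mem_filter.1 hU
      exact Finset.mem_filter.2 ⟨a1, a2⟩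
    · have hcon : ¬ IsCoprime g U := by
        intro hcop
        obtain ⟨a1, a2⟩ := Finset.mem_filter.1 hU
        exact hne (Finset.mem_filter.2 ⟨a1, a2, hcop⟩)
      refine Finset.sum_eq_zero fun κ _ => ?_
      rw [TG_tws_sg_zero q _ hcon t, norm_zero]
      norm_num
  rw [e1]
  refine Finset.sum_le_sum fun U hU => ?_
  obtain ⟨h1, _, h4⟩ := Finset.mem_filter.1 hU
  have hUp := ((mem_S hY).1 h1).2.1
  have hg' : g * U ≠ 0 := (hg.mul hUp).ne_zero
  have hsub : BU V U ⊆ (bl V).filter (fun κ => CubeFree (κ * U)) := by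
    intro κ hκ
    unfold BU at hκ
    obtain ⟨h5, h6⟩ := Finset.mem_filter.1 hκ
    rw [mem_BF] at h5
    rw [Finset.mem_filter, mem_bl hV0.le]
    exact ⟨⟨h5.1.1, h5.2⟩, h6⟩
  calc ∑ κ ∈ BU V U, ‖TG (tws (sg (sqc q (alF z D0 P h ps)) (g * U)) t) (κ * U)‖ ^ 2 ≤
        ∑ κ ∈ BU V U,
          ‖TG (sqc (q * (g * U)) (CM106.sub (alF z D0 P h (shT t ps)) (g * U))) (κ * U)‖ ^ 2 := by
        refine Finset.sum_le_sum fun κ _ => ?_
        exact pow_le_pow_left₀ (norm_nonneg _)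
          (norm_TG_tws_sg_le z D0 P h ps q hg' t hprim (κ * U)) 2
    _ ≤ _ := Finset.sum_le_sum_of_subset_of_nonneg hsub fun _ _ _ => by positivity

/-- **the large divisors**: joint blocks of derived lists from natural lists -/
theorem big_sub {h : ℝ → ℝ} {c : ℝ} (hpu : PU h c) (N : ℕ) {B₀ : ℝ} (hB₀ : 0 ≤ B₀) {ε : ℝ}
    (hε : 0 < ε) {J : ℝ} (hJ : 0 ≤ J) : ∃ C r : ℝ, 1 ≤ C ∧ 0 ≤ r ∧ ∀ X : ℝ, 3 ≤ X →
    ∀ D : Dat, D.P.OK → D.h = h → 1 ≤ D.D0 → D.J = J → D.ps₀.length ≤ N →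
    ∀ (s Q : ℝ), 0 ≤ Q →
    ∀ (q g : Eis) (ps : List Pf) (B V Y t : ℝ) (Qp : Eis → Prop), IsPrim q → (nm q : ℝ) ≤ Q →
    IsPrim g → (nm g : ℝ) ≤ X ^ B₀ → SbL s ps D.ps₀ → LF ps ≤ Real.log X →
    1 ≤ B → B ≤ X ^ B₀ → 1 ≤ V → V ≤ X → 0 ≤ Y → ∀ B₁ E : ℝ, 0 ≤ B₁ →
    (∀ (q' : Eis) (ps' : List Pf) (l : ℝ), IsPrim q' → (nm q' : ℝ) ≤ Q * X ^ B₀ →
      (∀ p ∈ ps', p.2 = false) → SbL (s + r) ps' D.ps₀ → 0 ≤ l →
      LF ps' ≤ LF ps - Real.log (nm g) - Real.log B + r →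
      LF ps - Real.log (nm g) - Real.log B - N * Real.log D.D0 - r ≤ LF ps' →
      |l - (Real.log V + LF ps - Real.log (nm g) - LF ps')| ≤ r →
      SF D.z D.D0 q' D.P D.h l ps' ≤ B₁ * Ht ps' ^ J *
        Real.exp (E + (LF ps' + Real.log (nm g) + Real.log B - LF ps))) →
    JB Y (sqc q (alF D.z D.D0 D.P D.h ps)) Qp g B V t ≤
      C * X ^ ε * B₁ * Ht ps ^ J * (1 + |t|) ^ ((N : ℝ) * J) * Real.exp E := by
  obtain ⟨C, r, hC, hr, H⟩ := JB_list hpu N hB₀ hε hJ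
  refine ⟨C, r, hC, hr, ?_⟩
  intro X hX D hP hh hD0 hDJ hN s Q hQ q g ps B V Y t Qp hq hqQ hg hgX hps hLX hB1 hBX hV1 hVX
    hY B₁ E hB₁ hyp
  have hX1 : (1 : ℝ) ≤ X := by linarith
  have hlen : ps.length ≤ N := hps.length ▸ hN
  have hz := hps.z_nonneg
  set ps₁ := shT t ps with hps₁
  have hps₁' : SbL s ps₁ D.ps₀ := SbL_shT hps
  have hHt1 := one_le_Ht ps₁
  have hHt0 := one_le_Ht ps
  have key := H X hX D.P hP D.z D.D0 q hD0 g hg hgX B V Y t Qp hB1 hBX hV1 hVX hY ps hlen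
    (fun p hp => ⟨hz p hp, (z_le_LF hz p hp).trans hLX⟩) (B₁ * Ht ps₁ ^ J * Real.exp E)
    (by positivity) ?_
  · rw [← hh] at key
    refine key.trans ?_
    have h1 : Ht ps₁ ^ J ≤ Ht ps ^ J * (1 + |t|) ^ ((N : ℝ) * J) := by
      have h2 : Ht ps₁ ≤ Ht ps * (1 + |t|) ^ N := by
        refine (Ht_shT t ps).trans ?_
        have h3 : (1 + |t|) ^ ps.length ≤ (1 + |t|) ^ N :=
          pow_le_pow_right₀ (by linarith [abs_nonneg t]) hlen
        exact mul_le_mul_of_nonneg_left h3 (by linarith)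
      calc Ht ps₁ ^ J ≤ (Ht ps * (1 + |t|) ^ N) ^ J :=
            Real.rpow_le_rpow (by linarith) h2 hJ
        _ = Ht ps ^ J * ((1 + |t|) ^ N) ^ J := Real.mul_rpow (by linarith) (by positivity)
        _ = Ht ps ^ J * (1 + |t|) ^ ((N : ℝ) * J) := by
            rw [← Real.rpow_natCast, ← Real.rpow_mul (by positivity)]
    calc C * X ^ ε * (B₁ * Ht ps₁ ^ J * Real.exp E) ≤
          C * X ^ ε * (B₁ * (Ht ps ^ J * (1 + |t|) ^ ((N : ℝ) * J)) * Real.exp E) := by gcongr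
      _ = _ := by ring
  · intro l ps' hl hch hnat h1 h2 h3
    have hps' := hps₁'.childG hch
    have hcst := cstF_nonneg ps' ps₁
    have hq' : IsPrim (q * g) := hq.mul hg
    have hqQ' : (nm (q * g) : ℝ) ≤ Q * X ^ B₀ := by
      rw [nm_mul]; push_cast
      exact mul_le_mul hqQ hgX (Nat.cast_nonneg _) hQ
    have hc1 := hyp (q * g) ps' l hq' hqQ' hnat hps' hl h1 h2 h3
    have hHt' : Ht ps' ^ J ≤ Ht ps₁ ^ J * cstF ps' ps₁ ^ J := by
      rw [← Real.mul_rpow (by linarith) hcst]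
      exact Real.rpow_le_rpow (by linarith [one_le_Ht ps']) (Ht_le_cst hch) hJ
    rw [hh] at hc1
    refine hc1.trans ?_
    rw [Real.exp_add E]
    calc B₁ * Ht ps' ^ J * (Real.exp E *
          Real.exp (LF ps' + Real.log (nm g) + Real.log B - LF ps)) ≤
          B₁ * (Ht ps₁ ^ J * cstF ps' ps₁ ^ J) * (Real.exp E *
            Real.exp (LF ps' + Real.log (nm g) + Real.log B - LF ps)) := by gcongr
      _ = _ := by ring

end Crest.Agent.R017.RG64
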