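import Crest.Agent.R017.I1g_146
import Crest.Agent.R017.Leg10_381
import Crest.Agent.R017.AL_813

/-!
# Row 17, block C70, the assembly (I1) (helper146): natural lists, the numbers of the T-side

* `ChN`, `LN`, `cN`, `SN` : children, total length, cost of the heights, cube-free Gauss moment
* `FlatO`, `FlatL` : the flat claims;  `Tail` : the claims for the tails of the main forms
* `num0`, `numL`, `numT` : the numbers of `I1WN`
-/

set_option autoImplicit false

noncomputable section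

open Finset MeasureTheory
open scoped ComplexConjugate Classical

namespace Crest.Agent.R017.I1146

open Crest.Agent.R012 Crest.Agent.R012.Eis Crest.Agent.R012.MC Crest.Agent.R012.Gauss880
open Crest.Agent.R012.LS2 (S mem_S)
open Crest.Agent.R012.Weight600 (pw)
open Crest.Agent.R017.CM106 (CS FS TG)
open Crest.Agent.R017.HP842 (Pc pc sqc alL)
open Crest.Agent.R017.B770
open Crest.Agent.R017.FE47 (PU cx)
open Crest.Agent.R017.Prov71
open Crest.Agent.R017.Leg381 (Pf alF SF LF natl alF_natl cstF ChG sub_list)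
open Crest.Agent.R017.RG64 (shT LF_shT VF_tws_sg_le FS_alF JB_list shT_length)
open Crest.Agent.R017.E1551 (sg tws JB yv yv_pos Adm)
open Crest.Agent.R017.Rough381 (VF)

/-- children of natural pieces -/
def ChN (r : ℝ) (p' p : Pq) : Prop :=
  p'.kd = p.kd ∧ p'.d = p.d ∧ (p.u = .one → p'.u = .one) ∧ 0 ≤ p'.z ∧ p'.z ≤ p.z + r

/-- total length -/
def LN (ps : List Pq) : ℝ := (ps.map fun p => p.z).sum

/-- cost of the heights -/
def cN (ps' ps : List Pq) : ℝ :=
  (List.zipWith (fun p' p : Pq => 1 + |p'.t - p.t|) ps' ps).prod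

/-- the cube-free Gauss moment of a natural list, prime to `q` -/
def SN (q : Eis) (P : DPar) (h : ℝ → ℝ) (l : ℝ) (ps : List Pq) : ℝ :=
  VF (Real.exp l) (sqc q (alL h (ps.map (Pq.pc P))))

lemma SN_eq (z D0 : ℝ) (q : Eis) (P : DPar) (h : ℝ → ℝ) (l : ℝ) (ps : List Pq) :
    SF z D0 q P h l (natl ps) = SN q P h l ps := by
  unfold SF SN
  rw [alF_natl]

lemma LF_natl (ps : List Pq) : LF (natl ps) = LN ps := by
  unfold LF natl LN
  rw [List.map_map]
  rfl

lemma cN_nonneg (ps' ps : List Pq) : 0 ≤ cN ps' ps := by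
  unfold cN
  refine List.prod_nonneg fun x hx => ?_
  obtain ⟨i, hi, rfl⟩ := List.getElem_of_mem hx
  rw [List.getElem_zipWith]
  positivity

/-- natural children of a shifted list -/
lemma child_conv {r t : ℝ} {ps : List Pq} : ∀ {ps' : List Pf},
    List.Forall₂ (ChG r) ps' (shT t (natl ps)) → (∀ p ∈ ps', p.2 = false) →
    ∃ ps'' : List Pq, ps' = natl ps'' ∧ List.Forall₂ (ChN r) ps'' ps ∧
      cN ps'' ps ≤ cstF ps' (shT t (natl ps)) * (1 + |t|) ^ ps.length := by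
  induction ps with
  | nil =>
    intro ps' h _
    have e : shT t (natl []) = [] := rfl
    rw [e] at h
    cases h
    exact ⟨[], rfl, List.Forall₂.nil, by simp [cN, cstF, e]⟩
  | cons p ps ih =>
    intro ps' h hf
    have e : shT t (natl (p :: ps)) = ({p with t := p.t + t}, false) :: shT t (natl ps) := rfl
    rw [e] at h
    cases h with
    | cons h1 h2 =>
      rename_i a l
      obtain ⟨ps'', e1, h3, h4⟩ := ih h2 fun x hx => hf x (List.mem_cons_of_mem _ hx)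
      have ha : a.2 = false := hf a List.mem_cons_self
      refine ⟨a.1 :: ps'', ?_, List.Forall₂.cons ?_ h3, ?_⟩
      · rw [e1]
        show a :: natl ps'' = (a.1, false) :: natl ps''
        rw [← ha]
      · exact ⟨h1.1, h1.2.1, h1.2.2.1, h1.2.2.2.1, h1.2.2.2.2.1⟩
      · have e2 : cN (a.1 :: ps'') (p :: ps) = (1 + |a.1.t - p.t|) * cN ps'' ps := by
          unfold cN
          rw [List.zipWith_cons_cons, List.prod_cons]
        have e3 : cstF (a :: l) (shT t (natl (p :: ps))) =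
            (1 + |a.1.t - (p.t + t)|) * cstF l (shT t (natl ps)) := by
          rw [e]
          unfold cstF
          rw [List.zipWith_cons_cons, List.prod_cons]
        rw [e2, e3, List.length_cons, pow_succ]
        have h5 : 1 + |a.1.t - p.t| ≤ (1 + |a.1.t - (p.t + t)|) * (1 + |t|) := by
          have e4 : a.1.t - p.t = (a.1.t - (p.t + t)) + t := by ring
          have h6 := abs_add_le (a.1.t - (p.t + t)) t
          rw [← e4] at h6
          nlinarith [abs_nonneg (a.1.t - (p.t + t)), abs_nonneg t]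
        calc (1 + |a.1.t - p.t|) * cN ps'' ps ≤
              ((1 + |a.1.t - (p.t + t)|) * (1 + |t|)) *
                (cstF l (shT t (natl ps)) * (1 + |t|) ^ ps.length) :=
              mul_le_mul h5 h4 (cN_nonneg _ _) (by positivity)
          _ = _ := by ring

/-- **the flat claim at the list itself** : `s₀(l; n') ≤ 2 n' + max 0 ((l + κ - 2 n')/3)`,
`l ≤ T` -/
def FlatO (h : ℝ → ℝ) (P : DPar) (q : Eis) (ps : List Pq) (r M κ T F : ℝ) : Prop :=
  ∀ (l : ℝ) (ps' : List Pq), 0 ≤ l → List.Forall₂ (ChN r) ps' ps → |LN ps' - LN ps| ≤ r →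
    l ≤ T + r → SN q P h l ps' ≤ F * cN ps' ps ^ M *
      Real.exp (2 * LN ps' + max 0 ((l - 2 * LN ps' + κ) / 3))

/-- **the flat claims for the joint blocks** : `n' = n - log (nm g) - b`,
`s₀(l; n') ≤ 2 n' + max 0 ((l + κ - 2 n')/3) + b`, `l ≤ T - 2 log (nm g) + b` -/
def FlatL (h : ℝ → ℝ) (P : DPar) (q : Eis) (ps : List Pq) (G r M κ T F : ℝ) : Prop :=
  ∀ g : Eis, IsPrim g → (nm g : ℝ) ≤ G → ∀ (b l : ℝ) (ps' : List Pq), 0 ≤ b → 0 ≤ l →
    List.Forall₂ (ChN r) ps' ps → |LN ps' - (LN ps - Real.log (nm g) - b)| ≤ r →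
    l ≤ T - 2 * Real.log (nm g) + b + r →
    SN (q * g) P h l ps' ≤ F * cN ps' ps ^ M *
      Real.exp (2 * LN ps' + max 0 ((l - 2 * LN ps' + κ) / 3) + b)

/-- **the claims for the tails of the main forms**: `e ~ exp b`, level `l`;
`s₀(l; n') ≤ (4/3) n' + (l + κ)/3 + 2 b`, needed if `b ≥ E` or above the plateau `T₀` -/
def Tail (h : ℝ → ℝ) (P : DPar) (q : Eis) (ps : List Pq) (G r M κ T T₀ E F : ℝ) : Prop :=
  ∀ g : Eis, IsPrim g → (nm g : ℝ) ≤ G → ∀ (b l : ℝ) (ps' : List Pq), 0 ≤ b → 0 ≤ l →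
    List.Forall₂ (ChN r) ps' ps → |LN ps' - (LN ps - Real.log (nm g) - b)| ≤ r →
    l ≤ T - 2 * Real.log (nm g) + b + r →
    (E ≤ b ∨ T₀ ≤ l - b + 2 * Real.log (nm g) + 4 * r) →
    SN (q * g) P h l ps' ≤ F * cN ps' ps ^ M *
      Real.exp (4 / 3 * LN ps' + (l + κ) / 3 + 2 * b)

lemma FlatL.toO {h : ℝ → ℝ} {P : DPar} {q : Eis} {ps : List Pq} {G r M κ T F : ℝ} (hG : 1 ≤ G)
    (H : FlatL h P q ps G r M κ T F) : FlatO h P q ps r M κ T F := by
  intro l ps' hl hc h1 h2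
  have h3 := H 1 isPrim_one (by rw [nm_one, Nat.cast_one]; exact hG) 0 l ps' le_rfl hl hc
    (by rw [nm_one, Nat.cast_one, Real.log_one, sub_zero, sub_zero]; exact h1)
    (by rw [nm_one, Nat.cast_one, Real.log_one]; linarith)
  rw [mul_one, add_zero] at h3
  exact h3

lemma cN_rpow {M : ℝ} (hM : 0 ≤ M) {N : ℕ} {t : ℝ} {ps ps'' : List Pq} {ps' : List Pf}
    (hN : ps.length ≤ N)
    (h : cN ps'' ps ≤ cstF ps' (shT t (natl ps)) * (1 + |t|) ^ ps.length) :
    cN ps'' ps ^ M ≤ cstF ps' (shT t (natl ps)) ^ M * (1 + |t|) ^ ((N : ℝ) * M) := by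
  have h0 := RG64.cstF_nonneg ps' (shT t (natl ps))
  have ht : (1 : ℝ) ≤ 1 + |t| := by linarith [abs_nonneg t]
  calc cN ps'' ps ^ M ≤ (cstF ps' (shT t (natl ps)) * (1 + |t|) ^ ps.length) ^ M :=
        Real.rpow_le_rpow (cN_nonneg _ _) h hM
    _ = cstF ps' (shT t (natl ps)) ^ M * ((1 + |t|) ^ ps.length) ^ M :=
        Real.mul_rpow h0 (by positivity)
    _ ≤ cstF ps' (shT t (natl ps)) ^ M * ((1 + |t|) ^ N) ^ M := by
        refine mul_le_mul_of_nonneg_left (Real.rpow_le_rpow (by positivity)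
          (pow_le_pow_right₀ ht hN) hM) (Real.rpow_nonneg h0 _)
    _ = _ := by
        rw [← Real.rpow_natCast (1 + |t|) N, ← Real.rpow_mul (by positivity)]

lemma len_z {X : ℝ} {t : ℝ} {ps : List Pq} (h : ∀ p ∈ ps, 0 ≤ p.z ∧ p.z ≤ Real.log X) :
    ∀ p ∈ shT t (natl ps), 0 ≤ p.1.z ∧ p.1.z ≤ Real.log X := by
  intro p hp
  unfold shT natl at hp
  rw [List.map_map, List.mem_map] at hp
  obtain ⟨a, ha, rfl⟩ := hp
  exact h a ha

lemma len_z' {X : ℝ} {ps : List Pq} (h : ∀ p ∈ ps, 0 ≤ p.z ∧ p.z ≤ Real.log X) :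
    ∀ p ∈ natl ps, 0 ≤ p.1.z ∧ p.1.z ≤ Real.log X := by
  intro p hp
  unfold natl at hp
  rw [List.mem_map] at hp
  obtain ⟨a, ha, rfl⟩ := hp
  exact h a ha

lemma shT_natl_false (t : ℝ) (ps : List Pq) : ∀ p ∈ shT t (natl ps), p.2 = false := by
  intro p hp
  unfold shT natl at hp
  rw [List.map_map, List.mem_map] at hp
  obtain ⟨a, -, rfl⟩ := hp
  rfl

lemma false_of_child {r : ℝ} {ps₁ : List Pf} : ∀ {ps' : List Pf},
    List.Forall₂ (ChG r) ps' ps₁ → (∀ p ∈ ps₁, p.2 = false) → ∀ p ∈ ps', p.2 = false := by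
  induction ps₁ with
  | nil => intro ps' h _; cases h; simp
  | cons a l ih =>
    intro ps' h hf
    cases h with
    | cons h1 h2 =>
      rename_i b m
      intro p hp
      rcases List.mem_cons.1 hp with rfl | hp
      · exact h1.2.2.2.2.2 (hf a List.mem_cons_self)
      · exact ih h2 (fun x hx => hf x (List.mem_cons_of_mem _ hx)) p hp

lemma length_natl (ps : List Pq) : (natl ps).length = ps.length := by
  unfold natl; rw [List.length_map]

/-- **the first numbers** (`g = 1`). -/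
theorem num0 {h : ℝ → ℝ} {c : ℝ} (hpu : PU h c) (N : ℕ) {B₀ : ℝ} (hB₀ : 0 ≤ B₀) {ε : ℝ}
    (hε : 0 < ε) {M : ℝ} (hM : 0 ≤ M) : ∃ C r : ℝ, 1 ≤ C ∧ 0 ≤ r ∧ ∀ X : ℝ, 3 ≤ X →
    ∀ (P : DPar), P.OK → ∀ (q : Eis) (ps : List Pq), ps.length ≤ N →
    (∀ p ∈ ps, 0 ≤ p.z ∧ p.z ≤ Real.log X) → ∀ (K T F : ℝ), 0 < K → 0 ≤ F →
    FlatO h P q ps r M (Real.log K) T F → ∀ V t : ℝ, 1 ≤ V → V ≤ X →
    Real.log V ≤ T →
    VF V (tws (sqc q (alF 1 1 P h (natl ps))) t) ≤
      C * X ^ ε * (F * Real.exp (2 * LN ps)) *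
        max 1 ((V * K / Real.exp (LN ps) ^ 2) ^ (1 / 3 : ℝ)) *
        (1 + |t|) ^ ((N : ℝ) * M) := by
  obtain ⟨C, r, hC, hr, H⟩ := sub_list hpu N hB₀ hε hM
  refine ⟨C * Real.exp r, 2 * r, ?_, by positivity, ?_⟩
  · have : 1 ≤ Real.exp r := Real.one_le_exp hr
    nlinarith
  intro X hX P hP q ps hN hz K T F hK hF hcl V t hV1 hVX hVT
  have hX1 : (1 : ℝ) ≤ X := by linarith
  have hBump := bump_of_cs hpu.cs
  have hprim : ∀ n, alF 1 1 P h (natl ps) n ≠ 0 → IsPrim n := (FS_alF hBump hP 1 1 _).prim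
  have esg : sg (sqc q (alF 1 1 P h (natl ps))) 1 = sqc q (alF 1 1 P h (natl ps)) := by
    funext m
    show sqc q (alF 1 1 P h (natl ps)) (1 * m) = _
    rw [one_mul]
  have h0 := VF_tws_sg_le 1 1 P h (natl ps) q (isPrim_one).ne_zero t V hprim
  rw [esg] at h0
  refine h0.trans ?_
  have hV0 : 0 < V := by linarith
  set k := Real.log V with hkd
  have hk0 : 0 ≤ k := Real.log_nonneg hV1
  have hkX : k ≤ Real.log X := Real.log_le_log hV0 hVX
  set m := LN ps with hm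
  have hLF₁ : LF (shT t (natl ps)) = m := by rw [LF_shT, LF_natl]
  have hlen₁ : (shT t (natl ps)).length ≤ N := by rw [shT_length, length_natl]; exact hN
  have hl1 : Real.log (nm (1 : Eis)) = 0 := by rw [nm_one, Nat.cast_one, Real.log_one]
  set M0 := max 0 ((k - 2 * m + 2 * 0 + Real.log K) / 3) with hM0
  have key := H X hX P hP 1 1 q le_rfl 1 isPrim_one
    (by rw [nm_one, Nat.cast_one]; exact Real.one_le_rpow hX1 hB₀) k (shT t (natl ps)) hk0 hkX
    hlen₁ (len_z hz)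
    (F * (1 + |t|) ^ ((N : ℝ) * M) * Real.exp (2 * m + M0 + r)) (by positivity) ?_
  · have e1 : Real.exp k = V := Real.exp_log hV0
    rw [e1] at key
    refine key.trans (le_of_eq ?_)
    have e2 : Real.exp (2 * m + M0 + r) =
        Real.exp (2 * m) *
          max 1 ((V * K / Real.exp m ^ 2) ^ (1 / 3 : ℝ)) * Real.exp r := by
      have e3 : max 1 ((V * K / Real.exp m ^ 2) ^ (1 / 3 : ℝ)) = Real.exp M0 := by
        have e4 : (V * K / Real.exp m ^ 2) ^ (1 / 3 : ℝ) =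
            Real.exp ((k - 2 * m + 2 * 0 + Real.log K) / 3) := by
          have e5 : V * K / Real.exp m ^ 2 =
              Real.exp (k - 2 * m + 2 * 0 + Real.log K) := by
            rw [Real.exp_add, Real.exp_log hK, Real.exp_add, Real.exp_sub, e1, mul_zero,
              Real.exp_zero]
            have e7 : Real.exp (2 * m) = Real.exp m ^ 2 := by rw [two_mul, Real.exp_add]; ring
            rw [e7]
            field_simp
          rw [e5, ← Real.exp_mul]
          congr 1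
          ring
        rw [e4, hM0]
        have h0 : Real.exp 0 = 1 := Real.exp_zero
        rw [← h0]
        exact (Real.exp_monotone.map_max).symm
      rw [e3, Real.exp_add, Real.exp_add]
    rw [e2]
    ring
  · intro l ps' hl hch h1 h2 _ h4
    rw [hLF₁, hl1] at h1 h2 h4 ⊢
    rw [Real.log_one, mul_zero] at h2
    obtain ⟨ps'', rfl, h5, h6⟩ := child_conv hch (false_of_child hch (shT_natl_false t ps))
    rw [mul_one, SN_eq]
    rw [LF_natl] at h1 h2 h4 ⊢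
    have h4' := abs_le.1 h4
    have h12 : |LN ps'' - LN ps| ≤ 2 * r := by
      rw [abs_le]
      constructor <;> linarith
    have h7 := hcl l ps'' hl (h5.imp fun _ _ hc => ⟨hc.1, hc.2.1, hc.2.2.1, hc.2.2.2.1,
      hc.2.2.2.2.trans (by linarith)⟩) h12 (by linarith)
    have h8 := cN_rpow hM hN h6
    have h9 := RG64.fl_sub (κ := Real.log K) h4 (by linarith) hr
    unfold RG64.fl at h9
    have h10 := Real.rpow_nonneg (RG64.cstF_nonneg (natl ps'') (shT t (natl ps))) M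
    calc SN q P h l ps'' ≤ F * cN ps'' ps ^ M *
          Real.exp (2 * LN ps'' + max 0 ((l - 2 * LN ps'' + Real.log K) / 3)) := h7
      _ ≤ F * (cstF (natl ps'') (shT t (natl ps)) ^ M * (1 + |t|) ^ ((N : ℝ) * M)) *
          Real.exp ((2 * m + max 0 ((k - 2 * m + 2 * 0 + Real.log K) / 3) + r) +
            (LN ps'' + 0 - m)) := by
          have h11 := Real.exp_le_exp.2 (h9.trans (le_of_eq (by ring_nf)) : _ ≤
            (2 * m + max 0 ((k - 2 * m + 2 * 0 + Real.log K) / 3) + r) + (LN ps'' + 0 - m))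
          gcongr
      _ = _ := by
          rw [Real.exp_add]
          ring

/-- **the joint blocks**, in exponent form. -/
theorem numJ {h : ℝ → ℝ} {c : ℝ} (hpu : PU h c) (N : ℕ) {B₀ : ℝ} (hB₀ : 0 ≤ B₀) {ε : ℝ}
    (hε : 0 < ε) {M : ℝ} (hM : 0 ≤ M) : ∃ C r : ℝ, 1 ≤ C ∧ 0 ≤ r ∧ ∀ X : ℝ, 3 ≤ X →
    ∀ (P : DPar), P.OK → ∀ (q : Eis) (ps : List Pq), ps.length ≤ N →
    (∀ p ∈ ps, 0 ≤ p.z ∧ p.z ≤ Real.log X) → ∀ g : Eis, IsPrim g → (nm g : ℝ) ≤ X ^ B₀ →
    ∀ (B V Y t : ℝ) (Q : Eis → Prop), 1 ≤ B → B ≤ X ^ B₀ → 1 ≤ V → V ≤ X → 0 ≤ Y →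
    ∀ (F E : ℝ), 0 ≤ F →
    (∀ (l : ℝ) (ps' : List Pq), 0 ≤ l → List.Forall₂ (ChN r) ps' ps →
      |LN ps' - (LN ps - Real.log (nm g) - Real.log B)| ≤ r →
      |l - (Real.log V + LN ps - Real.log (nm g) - LN ps')| ≤ r →
      SN (q * g) P h l ps' ≤ F * cN ps' ps ^ M *
        Real.exp (E + (LN ps' + Real.log (nm g) + Real.log B - LN ps))) →
    JB Y (sqc q (alF 1 1 P h (natl ps))) Q g B V t ≤
      C * X ^ ε * F * (1 + |t|) ^ ((N : ℝ) * M) * Real.exp E := by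
  obtain ⟨C, r, hC, hr, H⟩ := JB_list hpu N hB₀ hε hM
  refine ⟨C, r, hC, hr, ?_⟩
  intro X hX P hP q ps hN hz g hg hgX B V Y t Q hB1 hBX hV1 hVX hY F E hF hyp
  have key := H X hX P hP 1 1 q le_rfl g hg hgX B V Y t Q hB1 hBX hV1 hVX hY (natl ps)
    (by rw [length_natl]; exact hN) (len_z' hz)
    (F * (1 + |t|) ^ ((N : ℝ) * M) * Real.exp E) (by positivity) ?_
  · refine key.trans (le_of_eq ?_)
    ring
  · intro l ps' hl hch hf h1 h2 h4
    obtain ⟨ps'', rfl, h5, h6⟩ := child_conv hch hf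
    rw [SN_eq]
    rw [LF_natl, LF_natl] at h1 h2 h4
    rw [LF_natl, LF_natl]
    have h7 := hyp l ps'' hl h5 (by
      rw [abs_le]
      rw [Real.log_one] at h2
      constructor <;> linarith) h4
    have h8 := cN_rpow hM hN h6
    have h10 := Real.rpow_nonneg (RG64.cstF_nonneg (natl ps'') (shT t (natl ps))) M
    calc SN (q * g) P h l ps'' ≤ F * cN ps'' ps ^ M *
          Real.exp (E + (LN ps'' + Real.log (nm g) + Real.log B - LN ps)) := h7
      _ ≤ F * (cstF (natl ps'') (shT t (natl ps)) ^ M * (1 + |t|) ^ ((N : ℝ) * M)) *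
          Real.exp (E + (LN ps'' + Real.log (nm g) + Real.log B - LN ps)) := by
          gcongr
      _ = _ := by
          rw [Real.exp_add]
          ring

lemma yv_exp {K V : ℝ} (hK : 0 < K) (hV : 0 < V) (m : ℝ) {g : Eis} (hg : g ≠ 0) :
    yv K (Real.exp m) g V = Real.exp ((Real.log K + Real.log V) / 3 -
      2 / 3 * (m - Real.log (nm g))) := by
  have hgn : (0 : ℝ) < nm g := by exact_mod_cast nm_pos.2 hg
  unfold E1551.yv
  have e1 : (K * V) ^ (1 / 3 : ℝ) = Real.exp ((Real.log K + Real.log V) / 3) := by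
    rw [Real.rpow_def_of_pos (by positivity), Real.log_mul hK.ne' hV.ne']
    congr 1
    ring
  have e2 : (Real.exp m / nm g) ^ (-(2 / 3) : ℝ) =
      Real.exp (-(2 / 3 * (m - Real.log (nm g)))) := by
    rw [Real.rpow_def_of_pos (by positivity), Real.log_div (Real.exp_pos m).ne' hgn.ne',
      Real.log_exp]
    congr 1
    ring
  rw [e1, e2, ← Real.exp_add]
  congr 1

/-- **the second numbers** (`(L)` of `I1WN`). -/
theorem numL {h : ℝ → ℝ} {c : ℝ} (hpu : PU h c) (N : ℕ) {B₀ : ℝ} (hB₀ : 0 ≤ B₀) {ε : ℝ}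
    (hε : 0 < ε) {M : ℝ} (hM : 0 ≤ M) : ∃ C r : ℝ, 1 ≤ C ∧ 0 ≤ r ∧ ∀ X : ℝ, 3 ≤ X →
    ∀ (P : DPar), P.OK → ∀ (q : Eis) (ps : List Pq), ps.length ≤ N →
    (∀ p ∈ ps, 0 ≤ p.z ∧ p.z ≤ Real.log X) → ∀ (K T F : ℝ), 0 < K → 0 ≤ F →
    FlatL h P q ps (X ^ B₀) r M (Real.log K) T F →
    ∀ g : Eis, IsPrim g → (nm g : ℝ) ≤ X ^ B₀ →
    ∀ (B V Y t : ℝ) (Q : Eis → Prop), 1 ≤ B → B ≤ X ^ B₀ → 1 ≤ V → V ≤ X → 0 ≤ Y →
    Real.log V ≤ T - 2 * Real.log (nm g) →
    JB Y (sqc q (alF 1 1 P h (natl ps))) Q g B V t ≤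
      C * X ^ ε * (F * Real.exp (2 * LN ps)) / (nm g : ℝ) ^ 2 *
        max B⁻¹ (yv K (Real.exp (LN ps)) g V) * (1 + |t|) ^ ((N : ℝ) * M) := by
  obtain ⟨C, r, hC, hr, H⟩ := numJ hpu N hB₀ hε hM
  refine ⟨C * Real.exp r, 2 * r, ?_, by positivity, ?_⟩
  · have : 1 ≤ Real.exp r := Real.one_le_exp hr
    nlinarith
  intro X hX P hP q ps hN hz K T F hK hF hcl g hg hgX B V Y t Q hB1 hBX hV1 hVX hY hVT
  have hgn : (0 : ℝ) < nm g := by exact_mod_cast nm_pos.2 hg.ne_zero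
  have hg1 : (1 : ℝ) ≤ nm g := by exact_mod_cast nm_pos.2 hg.ne_zero
  have hB0 : 0 < B := by linarith
  have hV0 : 0 < V := by linarith
  set γ := Real.log (nm g) with hγ
  set b := Real.log B with hb
  set k := Real.log V with hk
  set m := LN ps with hm
  have hb0 : 0 ≤ b := Real.log_nonneg hB1
  set y := (Real.log K + k) / 3 - 2 / 3 * (m - γ) with hy
  have key := H X hX P hP q ps hN hz g hg hgX B V Y t Q hB1 hBX hV1 hVX hY F
    (2 * m - 2 * γ + max (-b) y + r) hF ?_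
  · refine key.trans (le_of_eq ?_)
    have e1 : Real.exp (2 * m - 2 * γ + max (-b) y + r) =
        Real.exp (2 * m) / (nm g : ℝ) ^ 2 * max B⁻¹ (yv K (Real.exp m) g V) * Real.exp r := by
      rw [yv_exp hK hV0 m hg.ne_zero, Real.exp_add, Real.exp_add, Real.exp_sub]
      have e6 : Real.exp (2 * γ) = (nm g : ℝ) ^ 2 := by
        rw [two_mul, Real.exp_add, hγ, Real.exp_log hgn]; ring
      have e7 : Real.exp (max (-b) y) = max B⁻¹ (Real.exp y) := by
        rw [Real.exp_monotone.map_max, Real.exp_neg, hb, Real.exp_log hB0]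
      rw [e6, e7]
    rw [e1]
    ring
  · intro l ps' hl hch h1 h2
    obtain ⟨h1a, h1b⟩ := abs_le.1 h1
    obtain ⟨h2a, h2b⟩ := abs_le.1 h2
    have h7 := hcl g hg hgX b l ps' hb0 hl (hch.imp fun _ _ hc => ⟨hc.1, hc.2.1, hc.2.2.1,
      hc.2.2.2.1, hc.2.2.2.2.trans (by linarith)⟩) (h1.trans (by linarith)) (by linarith)
    refine h7.trans ?_
    have h8 : 2 * LN ps' + max 0 ((l - 2 * LN ps' + Real.log K) / 3) + b ≤
        2 * m - 2 * γ + max (-b) y + r + (LN ps' + γ + b - m) := by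
      have h9 : -b ≤ max (-b) y := le_max_left _ _
      have h10 : y ≤ max (-b) y := le_max_right _ _
      rcases le_total 0 ((l - 2 * LN ps' + Real.log K) / 3) with h | h
      · rw [max_eq_right h]
        linarith
      · rw [max_eq_left h]
        linarith
    exact mul_le_mul_of_nonneg_left (Real.exp_le_exp.2 h8)
      (mul_nonneg hF (Real.rpow_nonneg (cN_nonneg _ _) _))

/-- **the third numbers** (the tails of the main forms). -/
theorem numT {h : ℝ → ℝ} {c : ℝ} (hpu : PU h c) (N : ℕ) {B₀ : ℝ} (hB₀ : 0 ≤ B₀) {ε : ℝ}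
    (hε : 0 < ε) {M : ℝ} (hM : 0 ≤ M) : ∃ C r : ℝ, 1 ≤ C ∧ 0 ≤ r ∧ ∀ X : ℝ, 3 ≤ X →
    ∀ (P : DPar), P.OK → ∀ (q : Eis) (ps : List Pq), ps.length ≤ N →
    (∀ p ∈ ps, 0 ≤ p.z ∧ p.z ≤ Real.log X) → ∀ (K T T₀ E F : ℝ), 0 < K → 0 ≤ F →
    Tail h P q ps (X ^ B₀) r M (Real.log K) T T₀ E F →
    ∀ g : Eis, IsPrim g → (nm g : ℝ) ≤ X ^ B₀ →
    ∀ (B V Y t : ℝ) (Q : Eis → Prop), 1 ≤ B → B ≤ X ^ B₀ → 1 ≤ V → V ≤ X → 0 ≤ Y →
    Real.log V ≤ T - 2 * Real.log (nm g) → (E ≤ Real.log B ∨ T₀ ≤ Real.log V + 2 * Real.log (nm g)) →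
    B⁻¹ * (nm g * (yv K (Real.exp (LN ps)) g V)⁻¹) *
      JB Y (sqc q (alF 1 1 P h (natl ps))) Q g B V t ≤
      C * X ^ ε * (F * Real.exp (2 * LN ps)) / nm g * (1 + |t|) ^ ((N : ℝ) * M) := by
  obtain ⟨C, r, hC, hr, H⟩ := numJ hpu N hB₀ hε hM
  refine ⟨C * Real.exp r, 2 * r, ?_, by positivity, ?_⟩
  · have : 1 ≤ Real.exp r := Real.one_le_exp hr
    nlinarith
  intro X hX P hP q ps hN hz K T T₀ E F hK hF hcl g hg hgX B V Y t Q hB1 hBX hV1 hVX hY hVT hET
  have hgn : (0 : ℝ) < nm g := by exact_mod_cast nm_pos.2 hg.ne_zero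
  have hB0 : 0 < B := by linarith
  have hV0 : 0 < V := by linarith
  set γ := Real.log (nm g) with hγ
  set b := Real.log B with hb
  set k := Real.log V with hk
  set m := LN ps with hm
  have hb0 : 0 ≤ b := Real.log_nonneg hB1
  set y := (Real.log K + k) / 3 - 2 / 3 * (m - γ) with hy
  have key := H X hX P hP q ps hN hz g hg hgX B V Y t Q hB1 hBX hV1 hVX hY F
    (2 * m + b + y - 2 * γ + r) hF ?_
  · have e1 : B⁻¹ * (nm g * (yv K (Real.exp m) g V)⁻¹) = Real.exp (γ - b - y) := by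
      rw [yv_exp hK hV0 m hg.ne_zero, ← Real.exp_neg, Real.exp_sub, Real.exp_sub, hγ,
        Real.exp_log hgn, hb, Real.exp_log hB0, Real.exp_neg]
      ring
    rw [e1]
    calc Real.exp (γ - b - y) * JB Y (sqc q (alF 1 1 P h (natl ps))) Q g B V t ≤
          Real.exp (γ - b - y) * (C * X ^ ε * F * (1 + |t|) ^ ((N : ℝ) * M) *
            Real.exp (2 * m + b + y - 2 * γ + r)) :=
          mul_le_mul_of_nonneg_left key (Real.exp_pos _).le
      _ = C * X ^ ε * F * (1 + |t|) ^ ((N : ℝ) * M) *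
          (Real.exp (γ - b - y) * Real.exp (2 * m + b + y - 2 * γ + r)) := by ring
      _ = C * X ^ ε * F * (1 + |t|) ^ ((N : ℝ) * M) *
          (Real.exp (2 * m) / nm g * Real.exp r) := by
          congr 1
          rw [← Real.exp_add]
          have e2 : γ - b - y + (2 * m + b + y - 2 * γ + r) = 2 * m - γ + r := by ring
          rw [e2, Real.exp_add, Real.exp_sub, hγ, Real.exp_log hgn]
      _ = _ := by ring
  · intro l ps' hl hch h1 h2
    obtain ⟨h1a, h1b⟩ := abs_le.1 h1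
    obtain ⟨h2a, h2b⟩ := abs_le.1 h2
    have h7 := hcl g hg hgX b l ps' hb0 hl (hch.imp fun _ _ hc => ⟨hc.1, hc.2.1, hc.2.2.1,
      hc.2.2.2.1, hc.2.2.2.2.trans (by linarith)⟩) (h1.trans (by linarith)) (by linarith) (by
      rcases hET with h | h
      · exact Or.inl h
      · right
        linarith)
    refine h7.trans ?_
    have h8 : 4 / 3 * LN ps' + (l + Real.log K) / 3 + 2 * b ≤
        2 * m + b + y - 2 * γ + r + (LN ps' + γ + b - m) := by
      rw [hy]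
      linarith
    exact mul_le_mul_of_nonneg_left (Real.exp_le_exp.2 h8)
      (mul_nonneg hF (Real.rpow_nonneg (cN_nonneg _ _) _))

end Crest.Agent.R017.I1146
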