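import Crest.Agent.R017.FNEa_708
import Crest.Agent.R017.I1h_146

/-!
# Row 17, R8 / P1: the T-inputs of `(I1)` (helper708), `FlatL`, `Tail`, `TailM` for actual lists

* `TailM`      : the claims for the tails of the mismatch (helper828)
* `R5`         : the region of the parents
* `flat_bundle`: **`FE2` ⇒ `FlatL`, `Tail`, `TailM`** for every parent list near the region
-/

set_option autoImplicit false
set_option linter.unusedSectionVars false

noncomputable section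

open Set

namespace Crest.Agent.R017.TM708

open Crest.Agent.R012 Crest.Agent.R012.Eis
open Crest.Agent.R017.FE47 (PU)
open Crest.Agent.R017.CM106
open Crest.Agent.R017.XG702 (Pcs BG)
open Crest.Agent.R017.XT71 (Sys Win mx le_mx one_le_mx)
open Crest.Agent.R017.Prov71
open Crest.Agent.R017.B770
open Crest.Agent.R017.ER911
open Crest.Agent.R017.HP842 (Pc pc)
open Crest.Agent.R017.I1146 (ChN LN cN SN FlatO FlatL Tail)

/-! ### homogeneity -/

lemma gv_hom {L : ℝ} (hL : 0 ≤ L) (v b n : ℝ) : gv (L * v) (L * b) (L * n) = L * gv v b n := by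
  unfold gv
  rw [← mul_max_of_nonneg _ _ hL]
  ring

lemma eF_hom {L : ℝ} (hL : 0 ≤ L) (K v n : ℝ) : eF (L * K) (L * v) (L * n) = L * eF K v n := by
  unfold eF
  have e1 : 3 / 2 * (L * v) = L * (3 / 2 * v) := by ring
  have e2 : 4 / 3 * (L * n) + (max (L * K) (L * (3 / 2 * v)) + L * v) / 3 =
      L * (4 / 3 * n + (max K (3 / 2 * v) + v) / 3) := by
    rw [← mul_max_of_nonneg _ _ hL]; ring
  rw [e1, e2, mul_max_of_nonneg _ _ hL]
  congr 1
  ring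

lemma eH_hom {L : ℝ} (hL : 0 ≤ L) (K v n : ℝ) : eH (L * K) (L * v) (L * n) = L * eH K v n := by
  unfold eH
  rw [eF_hom hL, ← mul_add, mul_max_of_nonneg _ _ hL]

lemma kW_hom {L : ℝ} (hL : 0 ≤ L) (K v n w : ℝ) :
    kW (L * K) (L * v) (L * n) (L * w) = L * kW K v n w := by
  unfold kW
  rw [mul_max_of_nonneg _ _ hL]
  congr 1
  ring

lemma eW_hom {L : ℝ} (hL : 0 ≤ L) (K v n w : ℝ) :
    eW (L * K) (L * v) (L * n) (L * w) = L * eW K v n w := by
  unfold eW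
  rw [kW_hom hL, eH_hom hL]

lemma tHB_hom {L : ℝ} (hL : 0 ≤ L) (v n : ℝ) : tHB (L * v) (L * n) = L * tHB v n := by
  unfold tHB
  rw [mul_max_of_nonneg _ _ hL, mul_max_of_nonneg _ _ hL]
  congr 1
  · ring
  · congr 1 <;> ring

lemma tCT_hom {L : ℝ} (hL : 0 ≤ L) (v a b c w : ℝ) :
    tCT (L * v) (L * a) (L * b) (L * c) (L * w) = L * tCT v a b c w := by
  unfold tCT
  rw [show L * v + (L * c + L * w) = L * (v + (c + w)) by ring,
    show L * a + L * b = L * (a + b) by ring, gv_hom hL]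
  ring

lemma tCP_hom {L : ℝ} (hL : 0 ≤ L) (d v a b c w : ℝ) :
    tCP d (L * v) (L * a) (L * b) (L * c) (L * w) = L * tCP d v a b c w := by
  unfold tCP
  rw [show L * v + L * c = L * (v + c) by ring,
    show L * a + L * b + L * w + (3 / 2 + 72 / 5 * d) * (L * w) =
      L * (a + b + w + (3 / 2 + 72 / 5 * d) * w) by ring,
    show L * a + L * b + L * w = L * (a + b + w) by ring, gv_hom hL]
  ring

lemma tP_hom {L : ℝ} (hL : 0 ≤ L) (d v a b c w : ℝ) :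
    tP d (L * v) (L * a) (L * b) (L * c) (L * w) = L * tP d v a b c w := by
  unfold tP
  rw [show 2 * (L * w) = L * (2 * w) by ring, ← mul_max_of_nonneg _ _ hL,
    show L * a + L * b + L * c + L * w + 3 / 4 * (L * max c (2 * w)) +
      24 / 5 * d * (L * max c (2 * w) + L * w) =
      L * (a + b + c + w + 3 / 4 * max c (2 * w) + 24 / 5 * d * (max c (2 * w) + w)) by ring,
    show L * a + L * b + L * c + L * w = L * (a + b + c + w) by ring, gv_hom hL]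

lemma tAll_hom {L : ℝ} (hL : 0 ≤ L) (d v a b c w : ℝ) :
    tAll d (L * v) (L * a) (L * b) (L * c) (L * w) = L * tAll d v a b c w := by
  unfold tAll tCT3 tCP3 tP3
  simp only [tCT_hom hL, tCP_hom hL, tP_hom hL, mul_min_of_nonneg _ _ hL]
  rw [show L * a + L * b + L * c + L * w = L * (a + b + c + w) by ring, tHB_hom hL]

/-! ### children -/

lemma one_le_cN {r : ℝ} : ∀ {ps' ps : List Pq}, List.Forall₂ (ChN r) ps' ps → 1 ≤ cN ps' ps := by
  intro ps' ps h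
  induction h with
  | nil => unfold cN; simp
  | cons h1 h2 ih =>
    rename_i a b l₁ l₂
    unfold cN at ih ⊢
    rw [List.zipWith_cons_cons, List.prod_cons]
    have := abs_nonneg (a.t - b.t)
    nlinarith

lemma ht_child {r H : ℝ} (hH : 0 ≤ H) {ps' ps : List Pq} (h : List.Forall₂ (ChN r) ps' ps)
    (hp : ∀ p ∈ ps, 1 + |p.t| ≤ H) : ∀ p ∈ ps', 1 + |p.t| ≤ cN ps' ps * H := by
  induction h with
  | nil => simp
  | cons h1 h2 ih =>
    rename_i a b l₁ l₂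
    have e : cN (a :: l₁) (b :: l₂) = (1 + |a.t - b.t|) * cN l₁ l₂ := by
      unfold cN
      rw [List.zipWith_cons_cons, List.prod_cons]
    have hc := one_le_cN h2
    have hb := hp b List.mem_cons_self
    have h0 := abs_nonneg (a.t - b.t)
    intro p hp'
    rw [e]
    rcases List.mem_cons.1 hp' with rfl | hp'
    · have h3 : |p.t| ≤ |p.t - b.t| + |b.t| := by
        have := abs_add_le (p.t - b.t) b.t
        rwa [sub_add_cancel] at this
      have h4 := abs_nonneg b.t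
      calc 1 + |p.t| ≤ (1 + |p.t - b.t|) * (1 + |b.t|) := by nlinarith
        _ ≤ (1 + |p.t - b.t|) * H := mul_le_mul_of_nonneg_left hb (by positivity)
        _ = (1 + |p.t - b.t|) * 1 * H := by ring
        _ ≤ (1 + |p.t - b.t|) * cN l₁ l₂ * H := by gcongr
    · have h3 := ih (fun q hq => hp q (List.mem_cons_of_mem _ hq)) p hp'
      have h4 : 0 ≤ cN l₁ l₂ * H := by positivity
      calc 1 + |p.t| ≤ cN l₁ l₂ * H := h3
        _ ≤ (1 + |a.t - b.t|) * (cN l₁ l₂ * H) := by nlinarith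
        _ = _ := by ring

lemma LN_child {r : ℝ} {ps' ps : List Pq} (h : List.Forall₂ (ChN r) ps' ps) :
    LN ps' ≤ LN ps + ps.length * r := by
  unfold LN
  induction h with
  | nil => simp
  | cons h1 h2 ih =>
    rename_i a b l₁ l₂
    rw [List.map_cons, List.map_cons, List.sum_cons, List.sum_cons, List.length_cons]
    push_cast
    have := h1.2.2.2.2
    linarith

lemma mem_child {r : ℝ} {ps' ps : List Pq} (h : List.Forall₂ (ChN r) ps' ps) :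
    ∀ p' ∈ ps', ∃ p ∈ ps, ChN r p' p := by
  induction h with
  | nil => simp
  | cons h1 h2 ih =>
    rename_i a b l₁ l₂
    intro p' hp'
    rcases List.mem_cons.1 hp' with rfl | hp'
    · exact ⟨b, List.mem_cons_self, h1⟩
    · obtain ⟨p, hp, hc⟩ := ih p' hp'
      exact ⟨p, List.mem_cons_of_mem _ hp, hc⟩

/-- the claims for the tails of the mismatch (helper828) -/
def TailM (h : ℝ → ℝ) (P : DPar) (q : Eis) (ps : List Pq) (G r M κ T T₀ E c₀ F : ℝ) : Prop :=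
  ∀ g : Eis, IsPrim g → (nm g : ℝ) ≤ G → ∀ (c b l : ℝ) (ps' : List Pq), 0 ≤ c → c ≤ c₀ →
    2 * c ≤ Real.log (nm g) → 0 ≤ b → 0 ≤ l → List.Forall₂ (ChN r) ps' ps →
    |LN ps' - (LN ps - Real.log (nm g) - b)| ≤ r →
    l ≤ T - 2 * Real.log (nm g) + 5 * c + b + r →
    (E ≤ b + c + r ∨ T₀ ≤ l - b + 2 * Real.log (nm g) - 2 * c + r) →
    SN (q * g) P h l ps' ≤ F * cN ps' ps ^ M *
      Real.exp (4 / 3 * LN ps' + (l + κ) / 3 + 2 * b)

/-- the flat claims at the cells of the mismatch (helper828) -/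
def FlatM (h : ℝ → ℝ) (P : DPar) (q : Eis) (ps : List Pq) (G r M κ T c₀ F : ℝ) : Prop :=
  ∀ g : Eis, IsPrim g → (nm g : ℝ) ≤ G → ∀ (c b l : ℝ) (ps' : List Pq), 0 ≤ c → c ≤ c₀ →
    2 * c ≤ Real.log (nm g) → 0 ≤ b → 0 ≤ l → List.Forall₂ (ChN r) ps' ps →
    |LN ps' - (LN ps - Real.log (nm g) - b)| ≤ r →
    l ≤ T - 2 * Real.log (nm g) + 5 * c + b + r →
    SN (q * g) P h l ps' ≤ F * cN ps' ps ^ M *
      Real.exp (2 * LN ps' + max 0 ((l - 2 * LN ps' + κ) / 3) + b)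

/-- the cells of the `T`-numbers (helper146) -/
def SBc (h : ℝ → ℝ) (P : DPar) (q : Eis) (ps : List Pq) (G r M T E : ℝ) (Φ : ℝ → ℝ) : Prop :=
  ∀ g : Eis, IsPrim g → (nm g : ℝ) ≤ G → ∀ (b l : ℝ) (ps' : List Pq), 0 ≤ b → 0 ≤ l →
    List.Forall₂ (ChN r) ps' ps → |LN ps' - (LN ps - Real.log (nm g) - b)| ≤ r →
    l ≤ T - 2 * Real.log (nm g) + b + r →
    SN (q * g) P h l ps' ≤ cN ps' ps ^ M * (Φ (l + 2 * Real.log (nm g) - b) *
      Real.exp (-2 * Real.log (nm g) - 5 / 6 * b + 2 * max 0 (b - E)))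

/-- flat `Φ` -/
def ΦF (n κ F v : ℝ) : ℝ := F * Real.exp (2 * n + max 0 ((v - 2 * n + κ) / 3))

/-- slope `Φ`, loss `κ / 30` -/
def ΦS (n κ F v : ℝ) : ℝ := F * Real.exp (4 / 3 * n + (v + κ) / 3 + κ / 30)

/-- **the region of the parents** (homogeneous) -/
structure R5 (b : Fin 5 → ℝ) : Prop where
  k0 : 0 ≤ b 0
  y1 : 0 ≤ b 1
  y2 : 0 ≤ b 2
  y3 : 0 ≤ b 3
  x0 : 0 ≤ b 4
  hN : b 1 + b 2 + b 3 ≤ 102 / 125 * b 0
  x1 : b 4 ≤ 1 / 36 * b 0
  adm : b 4 ≤ 0 ∨ (b 1 + b 2 + b 3 + b 4 ≤ 4 / 5 * b 0 ∧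
    2 * (b 1 + b 2 + b 3) + 5 * b 4 ≤ 59 / 36 * b 0 ∧
    2 * (b 1 + b 2 + b 3) + 6 * b 4 ≤ 5 / 3 * b 0)

lemma R5.T5_le {b : Fin 5 → ℝ} (h : R5 b) : T5 b ≤ 23 / 36 * b 0 := by
  obtain ⟨k0, y1, y2, y3, x0, hN, x1, adm⟩ := h
  unfold T5
  have h1 := min_le_left (2 * (b 1 + b 2 + b 3) - b 0) (3 / 4 * (b 1 + b 2 + b 3))
  have h2 := min_le_right (2 * (b 1 + b 2 + b 3) - b 0) (3 / 4 * (b 1 + b 2 + b 3))
  rcases adm with h | ⟨h3, h4, h5⟩ <;> linarith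

lemma R5.T5x_le {b : Fin 5 → ℝ} (h : R5 b) : T5 b + b 4 ≤ 2 / 3 * b 0 := by
  obtain ⟨k0, y1, y2, y3, x0, hN, x1, adm⟩ := h
  unfold T5
  have h1 := min_le_left (2 * (b 1 + b 2 + b 3) - b 0) (3 / 4 * (b 1 + b 2 + b 3))
  have h2 := min_le_right (2 * (b 1 + b 2 + b 3) - b 0) (3 / 4 * (b 1 + b 2 + b 3))
  rcases adm with h | ⟨h3, h4, h5⟩ <;> linarith

/-- the loss -/
def L5 (b : Fin 5 → ℝ) : ℝ := (K5 b - b 0) / 3

lemma L5_nonneg (b : Fin 5 → ℝ) : 0 ≤ L5 b := by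
  unfold L5 K5
  have := le_max_left (b 0) (5 / 4 * (b 1 + b 2 + b 3))
  linarith

/-- **the parent data** : three marked lumps and amplifier pieces near the point `b` -/
structure PD (X τ B H : ℝ) (N : ℕ) (b : Fin 5 → ℝ) (q : Eis) (us : Fin 3 → Pq) (gs : List Pq)
    (κ : ℝ) : Prop where
  q0 : q ≠ 0
  qB : (nm q : ℝ) ≤ X ^ B
  H1 : 1 ≤ H
  lump : ∀ i, (us i).kd = .mo ∧ (us i).u = .one
  us0 : ∀ i, 0 ≤ (us i).z
  usB : ∀ i, (nm (us i).d : ℝ) ≤ X ^ B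
  usH : ∀ i, 1 + |(us i).t| ≤ H
  z1 : (us 0).z ≤ (b 1 + τ) * Real.log X
  z2 : (us 1).z ≤ (b 2 + τ) * Real.log X
  z3 : (us 2).z ≤ (b 3 + τ) * Real.log X
  am : ∀ p ∈ gs, p.kd = .am ∧ 0 ≤ p.z ∧ p.z ≤ τ * Real.log X ∧ (nm p.d : ℝ) ≤ X ^ B ∧
    1 + |p.t| ≤ H
  len : gs.length ≤ N
  x : LN gs ≤ (b 4 + τ) * Real.log X
  k : |κ - b 0 * Real.log X| ≤ τ * Real.log X

variable {Λ : Type*} {π : Λ → DPar} {h : ℝ → ℝ} {d : ℝ} {rr : EF}

/-- a natural list prime to `q` -/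
lemma SN_eq_S0p {q : Eis} (hq : q ≠ 0) (P : DPar) (h : ℝ → ℝ) (l : ℝ) (ps : List Pq) :
    SN q P h l ps = S0p P h l (ps.map (Pq.tw q)) := by
  rw [← I1146.SN_eq 1 1 q P h l ps, SF_natl hq]

lemma rpow_exp {X e : ℝ} (hX : 1 < X) : X ^ e = Real.exp (Real.log X * e) := by
  rw [Real.rpow_def_of_pos (by linarith)]

/-- **the moments of the children** -/
theorem child_le {c₀ : ℝ} (hpu : PU h c₀) (hP : ∀ lam, (π lam).OK)
    (R : ExpRules (7 / 8 + d) rr (ex Dq fun lam => Sp (π lam) h)) (hd : 0 ≤ d) (hd1 : d ≤ 1 / 8)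
    {D5 : Set (Fin 5 → ℝ)} (hD : IsCompact D5) {ℓ : (Fin 5 → ℝ) → ℝ} (hℓ : Continuous ℓ)
    (hFE : FE2L (ex Dq fun lam => S0p (π lam) h) D5 ℓ) {ε : ℝ} (hε : 0 < ε) :
    ∃ σ : ℝ, 0 < σ ∧ ∀ (lam : Λ) (N : ℕ) (B : ℝ), ∃ M : ℕ, ∀ r : ℝ, 0 ≤ r → ∃ X₀ : ℝ, 1 < X₀ ∧
      ∀ X : ℝ, X₀ ≤ X → ∀ b ∈ D5, ∀ (q : Eis) (us : Fin 3 → Pq) (gs : List Pq) (κ H : ℝ),
      PD X (σ / 2) B H N b q us gs κ → ∀ g : Eis, IsPrim g → (nm g : ℝ) ≤ X ^ B →
      ∀ (l : ℝ) (ps' : List Pq), 0 ≤ l →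
      List.Forall₂ (ChN r) ps' ([us 0, us 1, us 2] ++ gs) →
      l + LN ps' ≤ (T5 b + (b 1 + b 2 + b 3 + b 4) + σ) * Real.log X →
      ∃ z₁ z₂ z₃ w : ℝ, 0 ≤ z₁ ∧ 0 ≤ z₂ ∧ 0 ≤ z₃ ∧ 0 ≤ w ∧ z₁ ≤ (us 0).z + r ∧
        z₂ ≤ (us 1).z + r ∧ z₃ ≤ (us 2).z + r ∧ w ≤ LN gs + N * r ∧
        z₁ + z₂ + z₃ + w = LN ps' ∧
        SN (q * g) (π lam) h l ps' ≤ (cN ps' ([us 0, us 1, us 2] ++ gs) * H) ^ M *
          Real.exp (min (eW (Real.log X * K5 b) l (LN ps') w + Real.log X * ℓ b)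
            (tAll d l z₁ z₂ z₃ w) + ε * Real.log X) := by
  obtain ⟨σ, hσ, G⟩ := ne_near hpu hP R hd hd1 hD hℓ hFE hε
  refine ⟨σ, hσ, fun lam N B => ?_⟩
  obtain ⟨M, X₀, hX₀, G1⟩ := G lam N (|B| + |B|)
  refine ⟨M, fun r hr => ⟨max X₀ (Real.exp (2 * ((N + 1) * r) / σ)),
    lt_of_lt_of_le hX₀ (le_max_left _ _), ?_⟩⟩
  intro X hX b hb q us gs κ H hPD g hg hgB l ps' hl hch hlev
  have hX0' : X₀ ≤ X := (le_max_left _ _).trans hX
  have hX1 : 1 < X := by linarith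
  have hX0 : 0 < X := by linarith
  set L := Real.log X with hLd
  have hL : 0 < L := Real.log_pos hX1
  have hrL : (N + 1) * r ≤ σ / 2 * L := by
    have h1 : Real.exp (2 * ((N + 1) * r) / σ) ≤ X := (le_max_right _ _).trans hX
    have h2 : 2 * ((N + 1) * r) / σ ≤ L := by
      have := Real.log_le_log (Real.exp_pos _) h1
      rwa [Real.log_exp] at this
    rw [div_le_iff₀ hσ] at h2
    linarith
  have hN0 : (0 : ℝ) ≤ N := Nat.cast_nonneg N
  have hr1 : r ≤ σ / 2 * L := by nlinarith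
  have hNr : (N : ℝ) * r ≤ σ / 2 * L := by nlinarith
  -- the shape of the child
  have hch0 := hch
  simp only [List.cons_append, List.nil_append] at hch
  obtain ⟨v0, l1, c0, hx1, rfl⟩ := List.forall₂_cons_right_iff.1 hch
  obtain ⟨v1, l2, c1, hx2, rfl⟩ := List.forall₂_cons_right_iff.1 hx1
  obtain ⟨v2, gs', c2, hx3, rfl⟩ := List.forall₂_cons_right_iff.1 hx2
  have hqg : q * g ≠ 0 := mul_ne_zero hPD.q0 hg.ne_zero
  have hBB : X ^ B ≤ X ^ |B| := Real.rpow_le_rpow_of_exponent_le hX1.le (le_abs_self B)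
  have hB1 : 1 ≤ X ^ |B| := Real.one_le_rpow hX1.le (abs_nonneg B)
  have hB2 : X ^ |B| ≤ X ^ (|B| + |B|) :=
    Real.rpow_le_rpow_of_exponent_le hX1.le (by linarith [abs_nonneg B])
  have hBs : X ^ B ≤ X ^ (|B| + |B|) := hBB.trans hB2
  set K := cN (v0 :: v1 :: v2 :: gs') ([us 0, us 1, us 2] ++ gs) * H with hK
  have hc1 := one_le_cN hch0
  have hK1 : 1 ≤ K := by
    have := hPD.H1
    nlinarith
  have hKt : ∀ p ∈ v0 :: v1 :: v2 :: gs', 1 + |p.t| ≤ K := by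
    refine ht_child (by linarith [hPD.H1]) hch0 ?_
    intro p hp
    rcases List.mem_append.1 hp with hp | hp
    · simp only [List.mem_cons, List.not_mem_nil, or_false] at hp
      rcases hp with rfl | rfl | rfl <;> exact hPD.usH _
    · exact (hPD.am p hp).2.2.2.2
  have hgs' : ∀ p ∈ gs', p.kd = .am ∧ 0 ≤ p.z ∧ p.z ≤ σ * L ∧ (nm p.d : ℝ) ≤
      X ^ (|B| + |B|) := by
    intro p hp
    obtain ⟨p₀, hp₀, hc⟩ := mem_child hx3 p hp
    obtain ⟨a1, a2, a3, a4, -⟩ := hPD.am p₀ hp₀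
    exact ⟨hc.1.trans a1, hc.2.2.2.1, by linarith [hc.2.2.2.2], by rw [hc.2.1]; exact a4.trans hBs⟩
  have hLgs := LN_child hx3
  have hlen : gs'.length ≤ N := by rw [hx3.length_eq]; exact hPD.len
  have hw : LN gs' ≤ (b 4 + σ) * L := by
    have h1 := hPD.x
    have h2 : (gs.length : ℝ) * r ≤ N * r :=
      mul_le_mul_of_nonneg_right (by exact_mod_cast hPD.len) hr
    linarith
  have hw0 : 0 ≤ LN gs' := by
    unfold LN
    refine List.sum_nonneg fun x hx => ?_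
    obtain ⟨p, hp, rfl⟩ := List.mem_map.1 hx
    exact (hgs' p hp).2.1
  have hz : ∀ {y c z : ℝ}, z ≤ (c + σ / 2) * L → y ≤ z + r → y ≤ (c + σ) * L := by
    intro y c z h1 h2
    linarith
  have hLN : LN (v0 :: v1 :: v2 :: gs') = v0.z + v1.z + v2.z + LN gs' := by
    unfold LN
    simp only [List.map_cons, List.sum_cons]
    ring
  set a : T3 := ⟨l, ![v0, v1, v2], q * g⟩ with ha
  have hmk : a.mk' = [v0, v1, v2] := rfl
  have haok : a.ok := by
    refine ⟨fun i => ?_, hqg⟩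
    fin_cases i
    · exact ⟨⟨c0.1.trans (hPD.lump 0).1, c0.2.2.1 (hPD.lump 0).2⟩, c0.2.2.2.1⟩
    · exact ⟨⟨c1.1.trans (hPD.lump 1).1, c1.2.2.1 (hPD.lump 1).2⟩, c1.2.2.2.1⟩
    · exact ⟨⟨c2.1.trans (hPD.lump 2).1, c2.2.2.1 (hPD.lump 2).2⟩, c2.2.2.2.1⟩
  have hs2 : S3.s₂ a ≤ X ^ (|B| + |B|) := by
    refine max_le ?_ ?_
    · show (nm (q * g) : ℝ) ≤ _
      rw [nm_mul, Real.rpow_add hX0]
      push_cast
      exact mul_le_mul (hPD.qB.trans hBB) (hgB.trans hBB) (Nat.cast_nonneg _) (by positivity)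
    · rw [XT71.mx_le (hB1.trans hB2), hmk]
      intro p hp
      simp only [List.mem_cons, List.not_mem_nil, or_false] at hp
      rcases hp with rfl | rfl | rfl
      · rw [Dq_s2, c0.2.1]; exact (hPD.usB 0).trans hBs
      · rw [Dq_s2, c1.2.1]; exact (hPD.usB 1).trans hBs
      · rw [Dq_s2, c2.2.1]; exact (hPD.usB 2).trans hBs
  have hs1 : S3.s₁ a ≤ K := by
    show mx Dq.s1 a.mk' ≤ K
    rw [XT71.mx_le hK1, hmk]
    intro p hp
    refine hKt p ?_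
    simp only [List.mem_cons, List.not_mem_nil, or_false] at hp ⊢
    tauto
  have key := G1 X hX0' b hb a gs' haok hlen hgs' hs2 hl (hz hPD.z1 c0.2.2.2.2)
    (hz hPD.z2 c1.2.2.2.2) (hz hPD.z3 c2.2.2.2.2) hw (by
      rw [hLN] at hlev
      show l ≤ _ - (v0.z + v1.z + v2.z + LN gs')
      linarith) K hK1 hs1 (fun p hp => hKt p (by simp [hp]))
  refine ⟨v0.z, v1.z, v2.z, LN gs', c0.2.2.2.1, c1.2.2.2.1, c2.2.2.2.1, hw0, c0.2.2.2.2,
    c1.2.2.2.2, c2.2.2.2.2, ?_, hLN.symm, ?_⟩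
  · have h2 : (gs.length : ℝ) * r ≤ N * r :=
      mul_le_mul_of_nonneg_right (by exact_mod_cast hPD.len) hr
    linarith
  rw [SN_eq_S0p hqg]
  refine key.trans (le_of_eq ?_)
  congr 1
  rw [rpow_exp hX1, ← hLd]
  congr 1
  have e0 : ∀ y : ℝ, L * (y / L) = y := fun y => by field_simp
  have e1 : L * eW (K5 b) (l / L) (v0.z / L + v1.z / L + v2.z / L + LN gs' / L) (LN gs' / L) =
      eW (L * K5 b) l (LN (v0 :: v1 :: v2 :: gs')) (LN gs') := by
    rw [← eW_hom hL.le, e0, e0, hLN]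
    congr 1
    rw [← add_div, ← add_div, ← add_div, e0]
  have e2 : L * tAll d (l / L) (v0.z / L) (v1.z / L) (v2.z / L) (LN gs' / L) =
      tAll d l v0.z v1.z v2.z (LN gs') := by
    rw [← tAll_hom hL.le, e0, e0, e0, e0, e0]
  rw [← e1, ← e2, mul_add, mul_min_of_nonneg _ _ hL.le, mul_add]
  show _ = _ + ε * L
  rw [mul_comm ε L]
  rfl

/-- arithmetic of the last step -/
lemma fin_conv {X S c H A V ε e₁ e₂ l₀ M : ℝ} {M₀ : ℕ} (hX : 1 < X) (hc : 1 ≤ c) (hH : 1 ≤ H)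
    (hM : (M₀ : ℝ) ≤ M) (h1 : S ≤ (c * H) ^ M₀ * Real.exp (A + e₁ * Real.log X))
    (h2 : A ≤ V + (l₀ + e₂) * Real.log X) (he : e₁ + e₂ ≤ ε) :
    S ≤ H ^ M₀ * X ^ (l₀ + ε) * c ^ M * Real.exp V := by
  have hL : 0 < Real.log X := Real.log_pos hX
  have h3 : c ^ M₀ ≤ c ^ M := by
    rw [← Real.rpow_natCast]
    exact Real.rpow_le_rpow_of_exponent_le hc hM
  have h4 : Real.exp (A + e₁ * Real.log X) ≤ X ^ (l₀ + ε) * Real.exp V := by
    rw [rpow_exp hX, ← Real.exp_add]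
    refine Real.exp_le_exp.2 ?_
    nlinarith
  calc S ≤ (c * H) ^ M₀ * Real.exp (A + e₁ * Real.log X) := h1
    _ ≤ (c ^ M * H ^ M₀) * (X ^ (l₀ + ε) * Real.exp V) := by
        rw [mul_pow]
        have : 0 ≤ H ^ M₀ := by positivity
        exact mul_le_mul (mul_le_mul_of_nonneg_right h3 this) h4 (Real.exp_pos _).le
          (mul_nonneg (Real.rpow_nonneg (by linarith) _) this)
    _ = _ := by ring

set_option maxHeartbeats 1600000 in
/-- **the cells of a parent near the region** : `T ≤ T5 b + τ`; all bounds in the units of `log X`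
(`L = log X`), `V` = the bound to be proved for the exponents -/
theorem cell_le {c₀ : ℝ} (hpu : PU h c₀) (hP : ∀ lam, (π lam).OK)
    (R : ExpRules (7 / 8 + d) rr (ex Dq fun lam => Sp (π lam) h)) (hd : 0 ≤ d) (hd1 : d ≤ 1 / 40)
    {D5 : Set (Fin 5 → ℝ)} (hD : IsCompact D5)
    {ℓ : (Fin 5 → ℝ) → ℝ} (hℓ : Continuous ℓ) (hℓ0 : ∀ b ∈ D5, 0 ≤ ℓ b)
    (hFE : FE2L (ex Dq fun lam => S0p (π lam) h) D5 ℓ) {ε : ℝ} (hε : 0 < ε) :
    ∃ τ : ℝ, 0 < τ ∧ τ ≤ ε ∧ ∀ (lam : Λ) (N : ℕ) (B : ℝ), ∃ M₀ : ℕ, ∀ r : ℝ, 0 ≤ r →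
      ∃ X₀ : ℝ, 1 < X₀ ∧ ∀ X : ℝ, X₀ ≤ X →
      (N + 1) * r ≤ τ * Real.log X ∧
      ∀ b ∈ D5, ∀ (q : Eis) (us : Fin 3 → Pq) (gs : List Pq) (κ H : ℝ),
      PD X τ B H N b q us gs κ → ∀ T : ℝ, T ≤ (T5 b + τ) * Real.log X → ∀ M : ℝ, (M₀ : ℝ) ≤ M →
      ∀ g : Eis, IsPrim g → (nm g : ℝ) ≤ X ^ B → ∀ (c β l : ℝ) (ps' : List Pq), 0 ≤ c →
      c ≤ Real.log X * b 4 + τ * Real.log X → 2 * c ≤ Real.log (nm g) → 0 ≤ β → 0 ≤ l →
      List.Forall₂ (ChN r) ps' ([us 0, us 1, us 2] ++ gs) →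
      |LN ps' - (LN ([us 0, us 1, us 2] ++ gs) - Real.log (nm g) - β)| ≤ r →
      l ≤ T - 2 * Real.log (nm g) + 5 * c + β + r → ∀ V : ℝ,
      (∀ z₁ z₂ z₃ w : ℝ, 0 ≤ z₁ → 0 ≤ z₂ → 0 ≤ z₃ → 0 ≤ w →
        w ≤ Real.log X * b 4 + 4 * (τ * Real.log X) → z₁ + z₂ + z₃ + w = LN ps' →
        LN ps' ≤ Real.log X * (b 1 + b 2 + b 3) + Real.log X * b 4 - Real.log (nm g) - β +
          5 * (τ * Real.log X) →
        z₁ ≤ (us 0).z + r → z₂ ≤ (us 1).z + r → z₃ ≤ (us 2).z + r →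
        min (eW (Real.log X * K5 b) l (LN ps') w) (tAll d l z₁ z₂ z₃ w) ≤
          V + Real.log X * L5 b + 200 * (τ * Real.log X)) →
      SN (q * g) (π lam) h l ps' ≤ H ^ M₀ * X ^ (L5 b + ℓ b + ε) *
        cN ps' ([us 0, us 1, us 2] ++ gs) ^ M * Real.exp V := by
  obtain ⟨σ, hσ, G⟩ := child_le hpu hP R hd (by linarith) hD hℓ hFE (half_pos hε)
  set τ := min (σ / 20) (ε / 400) with hτd
  have hτ : 0 < τ := lt_min (by positivity) (by positivity)
  have hτσ : τ ≤ σ / 20 := min_le_left _ _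
  have hτε : τ ≤ ε / 400 := min_le_right _ _
  refine ⟨τ, hτ, by linarith, fun lam N B => ?_⟩
  obtain ⟨M₀, G'⟩ := G lam N B
  refine ⟨M₀, fun r hr => ?_⟩
  obtain ⟨X₀, hX₀, G1⟩ := G' r hr
  refine ⟨max X₀ (Real.exp ((N + 1) * r / τ)), lt_of_lt_of_le hX₀ (le_max_left _ _), ?_⟩
  intro X hX
  have hX0' : X₀ ≤ X := (le_max_left _ _).trans hX
  have hX1 : 1 < X := by linarith
  set L := Real.log X with hLd
  have hL : 0 < L := Real.log_pos hX1
  have hN0 : (0 : ℝ) ≤ N := Nat.cast_nonneg N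
  have hNrL : (N + 1) * r ≤ τ * L := by
    have h1 : Real.exp ((N + 1) * r / τ) ≤ X := (le_max_right _ _).trans hX
    have h2 : (N + 1) * r / τ ≤ L := by
      have := Real.log_le_log (Real.exp_pos _) h1
      rwa [Real.log_exp] at this
    rw [div_le_iff₀ hτ] at h2
    linarith
  refine ⟨hNrL, ?_⟩
  intro b hb q us gs κ H hPD T hT M hM g hg hgB c β l ps' hc hcx hcγ hβ hl hch hn hlev V hV
  have hrL : r ≤ τ * L := by nlinarith
  have hNr : N * r ≤ τ * L := by nlinarith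
  have hℓb := mul_nonneg hL.le (hℓ0 b hb)
  have hPD' : PD X (σ / 2) B H N b q us gs κ := by
    have hm : ∀ {c : ℝ}, (c + τ) * L ≤ (c + σ / 2) * L := fun {c} =>
      mul_le_mul_of_nonneg_right (by linarith) hL.le
    have hm0 : τ * L ≤ σ / 2 * L := mul_le_mul_of_nonneg_right (by linarith) hL.le
    exact ⟨hPD.q0, hPD.qB, hPD.H1, hPD.lump, hPD.us0, hPD.usB, hPD.usH, hPD.z1.trans hm,
      hPD.z2.trans hm, hPD.z3.trans hm, fun p hp => ⟨(hPD.am p hp).1, (hPD.am p hp).2.1,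
        (hPD.am p hp).2.2.1.trans hm0, (hPD.am p hp).2.2.2⟩, hPD.len, hPD.x.trans hm,
      hPD.k.trans hm0⟩
  set ps := [us 0, us 1, us 2] ++ gs with hps
  -- the length of the parent
  have hLNp : LN ps ≤ L * (b 1 + b 2 + b 3) + L * b 4 + 4 * (τ * L) := by
    have e : LN ps = (us 0).z + (us 1).z + (us 2).z + LN gs := by
      rw [hps]
      unfold LN
      simp only [List.cons_append, List.nil_append, List.map_cons, List.sum_cons]
      ring
    rw [e]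
    have h1 := hPD.z1
    have h2 := hPD.z2
    have h3 := hPD.z3
    have h4 := hPD.x
    rw [← hLd] at h1 h2 h3 h4
    linarith
  set t := τ * L with ht
  have ht0 : 0 ≤ t := by positivity
  have hT' : T ≤ L * T5 b + t := by rw [ht]; linarith
  have hγ : 0 ≤ Real.log (nm g) := Real.log_nonneg (by exact_mod_cast nm_pos.2 hg.ne_zero)
  set γ := Real.log (nm g)
  obtain ⟨hn1, hn2⟩ := abs_le.1 hn
  obtain ⟨z₁, z₂, z₃, w, h1, h2, h3, hw, hm1, hm2, hm3, hwx, hsum, key⟩ :=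
    G1 X hX0' b hb q us gs κ H hPD' g hg
    hgB l ps' hl hch (by
      have : 20 * t ≤ σ * L := by rw [ht]; nlinarith
      rw [← hLd]
      linarith)
  have h4 := hV z₁ z₂ z₃ w h1 h2 h3 hw (by
    have := hPD.x
    rw [← hLd] at this
    linarith) hsum (by linarith) hm1 hm2 hm3
  refine fin_conv (e₁ := ε / 2) (e₂ := 200 * τ) hX1 (one_le_cN hch) hPD.H1 hM key ?_
    (by linarith)
  have h5 : (L5 b + ℓ b + 200 * τ) * L = L * L5 b + L * ℓ b + 200 * t := by rw [ht]; ring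
  rw [← hLd, h5]
  have h6 : min (eW (L * K5 b) l (LN ps') w + L * ℓ b) (tAll d l z₁ z₂ z₃ w) ≤
      min (eW (L * K5 b) l (LN ps') w) (tAll d l z₁ z₂ z₃ w) + L * ℓ b := by
    rcases le_total (eW (L * K5 b) l (LN ps') w) (tAll d l z₁ z₂ z₃ w) with h | h
    · rw [min_eq_left h]; exact min_le_left _ _
    · rw [min_eq_right h]; exact (min_le_right _ _).trans (by linarith)
  linarith

/-- the T-inputs of `(I1)` for one parent -/
structure FB (h : ℝ → ℝ) (P : DPar) (q : Eis) (ps : List Pq) (G r M κ T k x L3 τ F : ℝ) :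
    Prop where
  flat : FlatL h P q ps G r M κ T F
  flatM : ∀ c₀ : ℝ, c₀ ≤ x → FlatM h P q ps G r M κ T c₀ F
  tail : ∀ T₀ E : ℝ, k / 64 - τ ≤ E → 2 * LN ps - κ ≤ T₀ + L3 + τ →
    Tail h P q ps G r M κ T T₀ E F
  tailM : ∀ T₀ E c₀ : ℝ, k / 20 - τ ≤ E → c₀ ≤ x → 2 * LN ps - κ ≤ T₀ + L3 + τ →
    TailM h P q ps G r M κ T T₀ E c₀ F
  sbF : ∀ E : ℝ, 0 ≤ E → E ≤ k / 20 + τ → T + E ≤ 2 / 3 * k + τ →
    SBc h P q ps G r M T E (ΦF (LN ps) κ F)
  sbS : ∀ E : ℝ, 0 ≤ E → E ≤ k / 20 + τ → SBc h P q ps G r M T E (ΦS (LN ps) κ F)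

set_option maxHeartbeats 1600000 in
/-- **`FE2L` gives all T-inputs of `(I1)`** (`FE2` : `ℓ = 0`) : `b` = parent coordinates in units of
`log X`, every parent list within `τ log X` of the region -/
theorem flat_bundle {c₀ : ℝ} (hpu : PU h c₀) (hP : ∀ lam, (π lam).OK)
    (R : ExpRules (7 / 8 + d) rr (ex Dq fun lam => Sp (π lam) h)) (hd : 0 ≤ d) (hd1 : d ≤ 1 / 40)
    {D5 : Set (Fin 5 → ℝ)} (hD : IsCompact D5) (hR : ∀ b ∈ D5, R5 b)
    {ℓ : (Fin 5 → ℝ) → ℝ} (hℓ : Continuous ℓ) (hℓ0 : ∀ b ∈ D5, 0 ≤ ℓ b)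
    (hFE : FE2L (ex Dq fun lam => S0p (π lam) h) D5 ℓ) {ε : ℝ} (hε : 0 < ε) :
    ∃ τ : ℝ, 0 < τ ∧ ∀ (lam : Λ) (N : ℕ) (B : ℝ), ∃ M₀ : ℕ, ∀ r : ℝ, 0 ≤ r →
      ∃ X₀ : ℝ, 1 < X₀ ∧
      ∀ X : ℝ, X₀ ≤ X → ∀ b ∈ D5, ∀ (q : Eis) (us : Fin 3 → Pq) (gs : List Pq) (κ H : ℝ),
      PD X τ B H N b q us gs κ → ∀ T : ℝ, T ≤ (T5 b + τ) * Real.log X → ∀ θ : ℝ, 0 ≤ θ →
      T ≤ (K5 b - (b 1 + b 2 + b 3) / 2 - b 4 + 3 * θ + τ) * Real.log X → ∀ M : ℝ, (M₀ : ℝ) ≤ M →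
      (b 0 / 2 - 2 * b 4 - τ) * Real.log X ≤ LN ([us 0, us 1, us 2] ++ gs) →
      FB h (π lam) q ([us 0, us 1, us 2] ++ gs) (X ^ B) r M κ T (Real.log X * b 0)
        (Real.log X * b 4 + τ * Real.log X) (Real.log X * (3 * L5 b)) (τ * Real.log X)
        (H ^ M₀ * X ^ (L5 b + θ + ℓ b + ε)) := by
  obtain ⟨τ, hτ, hτε, G⟩ := cell_le hpu hP R hd hd1 hD hℓ hℓ0 hFE hε
  refine ⟨τ, hτ, fun lam N B => ?_⟩
  obtain ⟨M₀, G'⟩ := G lam N B
  refine ⟨M₀, fun r hr => ?_⟩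
  obtain ⟨X₀, hX₀, G1⟩ := G' r hr
  refine ⟨X₀, hX₀, ?_⟩
  intro X hX b hb q us gs κ H hPD T hT θ hθ hTθ M hM hmin
  obtain ⟨hNrL, G2⟩ := G1 X hX
  replace G2 := G2 b hb q us gs κ H hPD T hT M hM
  have hX1 : 1 < X := by linarith
  set L := Real.log X with hLd
  have hL : 0 < L := Real.log_pos hX1
  have hθL : 0 ≤ L * θ := mul_nonneg hL.le hθ
  have toθ : ∀ {S c V : ℝ}, S ≤ H ^ M₀ * X ^ (L5 b + ℓ b + ε) * c * Real.exp (V + L * θ) →
      S ≤ H ^ M₀ * X ^ (L5 b + θ + ℓ b + ε) * c * Real.exp V := by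
    intro S c V h
    refine h.trans (le_of_eq ?_)
    have e1 : X ^ (L5 b + θ + ℓ b + ε) = X ^ (L5 b + ℓ b + ε) * Real.exp (L * θ) := by
      rw [rpow_exp hX1, rpow_exp hX1, ← Real.exp_add, ← hLd]
      congr 1
      ring
    rw [e1, Real.exp_add]
    ring
  have hN0 : (0 : ℝ) ≤ N := Nat.cast_nonneg N
  have hrL : r ≤ τ * L := by nlinarith
  have hRb := hR b hb
  have hT5 := mul_le_mul_of_nonneg_left hRb.T5_le hL.le
  have hT5x := mul_le_mul_of_nonneg_left hRb.T5x_le hL.le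
  have hK5 : b 0 ≤ K5 b := le_max_left _ _
  have hK5L := mul_le_mul_of_nonneg_left hK5 hL.le
  have hk0L := mul_nonneg hL.le hRb.k0
  have hx0L := mul_nonneg hL.le hRb.x0
  have hL5 : L5 b = (K5 b - b 0) / 3 := rfl
  have hL50 := mul_nonneg hL.le (L5_nonneg b)
  have hx1L := mul_le_mul_of_nonneg_left hRb.x1 hL.le
  have hNL := mul_le_mul_of_nonneg_left hRb.hN hL.le
  obtain ⟨hk1, hk2⟩ := abs_le.1 hPD.k
  rw [← hLd] at hk1 hk2
  set ps := [us 0, us 1, us 2] ++ gs with hps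
  set t := τ * L with ht
  have ht0 : 0 ≤ t := by positivity
  have hT' : T ≤ L * T5 b + t := by rw [ht]; linarith
  have hTN : T + L * (b 1 + b 2 + b 3) / 2 + L * b 4 ≤
      L * b 0 + 3 * (L * L5 b + L * θ) + t := by
    rw [hL5, ht]
    have e : (K5 b - (b 1 + b 2 + b 3) / 2 - b 4 + 3 * θ + τ) * L =
      L * K5 b - L * (b 1 + b 2 + b 3) / 2 - L * b 4 + 3 * (L * θ) + τ * L := by ring
    rw [e] at hTθ
    linarith
  have hadm : L * b 4 ≤ 0 ∨ (L * (b 1 + b 2 + b 3) + L * b 4 ≤ 4 / 5 * (L * b 0) ∧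
      2 * (L * (b 1 + b 2 + b 3)) + 5 * (L * b 4) ≤ 59 / 36 * (L * b 0)) := by
    rcases hRb.adm with h | ⟨h, h', -⟩
    · exact Or.inl (mul_nonpos_of_nonneg_of_nonpos hL.le h)
    · right
      have e1 := mul_le_mul_of_nonneg_left h hL.le
      have e2 := mul_le_mul_of_nonneg_left h' hL.le
      constructor <;> linarith
  have hadm' : L * b 4 ≤ 0 ∨ L * (b 1 + b 2 + b 3) + L * b 4 ≤ 4 / 5 * (L * b 0) :=
    hadm.imp id And.left
  have hmin' : L * b 0 / 2 - 2 * (L * b 4) - t ≤ LN ps := by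
    have e : (b 0 / 2 - 2 * b 4 - τ) * L = L * b 0 / 2 - 2 * (L * b 4) - t := by rw [ht]; ring
    linarith
  have hKL : L * K5 b ≤ L * b 0 + 3 * (L * L5 b + L * θ) := by rw [hL5]; linarith
  have hLθ0 : 0 ≤ L * L5 b + L * θ := by positivity
  have hcc : ∀ c : ℝ, 0 ≤ c → c ≤ L * b 4 + t →
      ∃ c', 0 ≤ c' ∧ c' ≤ c ∧ c ≤ c' + t ∧ c' ≤ L * b 4 := by
    intro c hc hcx
    refine ⟨min c (L * b 4), le_min hc hx0L, min_le_left _ _, ?_, min_le_right _ _⟩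
    rcases min_cases c (L * b 4) with ⟨h, -⟩ | ⟨h, -⟩ <;> rw [h] <;> linarith
  have hγ0 : ∀ g : Eis, IsPrim g → 0 ≤ Real.log (nm g : ℝ) := fun g hg =>
    Real.log_nonneg (by exact_mod_cast nm_pos.2 hg.ne_zero)
  -- the flat cells
  have flat : ∀ g : Eis, IsPrim g → (nm g : ℝ) ≤ X ^ B → ∀ (c β l : ℝ) (ps' : List Pq), 0 ≤ c →
      c ≤ L * b 4 + t → 2 * c ≤ Real.log (nm g) → 0 ≤ β → 0 ≤ l →
      List.Forall₂ (ChN r) ps' ps → |LN ps' - (LN ps - Real.log (nm g) - β)| ≤ r →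
      l ≤ T - 2 * Real.log (nm g) + 5 * c + β + r →
      SN (q * g) (π lam) h l ps' ≤ H ^ M₀ * X ^ (L5 b + θ + ℓ b + ε) * cN ps' ps ^ M *
        Real.exp (2 * LN ps' + max 0 ((l - 2 * LN ps' + κ) / 3) + β) := by
    intro g hg hgB c β l ps' hc hcx hcγ hβ hl hch hn hlev
    obtain ⟨hn1, hn2⟩ := abs_le.1 hn
    obtain ⟨c', hc', hcc, hcc', hcx'⟩ := hcc c hc hcx
    refine toθ (G2 g hg hgB c β l ps' hc hcx hcγ hβ hl hch hn hlev _ ?_)
    intro z₁ z₂ z₃ w h1 h2 h3 hw hwx hsum hnx _ _ _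
    refine (min_le_left _ _).trans ?_
    have h4 := kW_cell (K' := L * K5 b) (κ := L * b 0) (L := L * L5 b + L * θ) (T := T)
      (γ := Real.log (nm g)) (b := β) (c := c') (l := l) (n := LN ps') (w := w) (x := L * b 4)
      (N := L * (b 1 + b 2 + b 3)) (t := 12 * t) (by positivity) hKL hβ (by linarith)
      (hγ0 g hg) hc' (by linarith) (by linarith) (by linarith) (by linarith)
    have h5 := eW_flat (κ := L * b 0) (K' := L * K5 b) (L := L * L5 b + L * θ) (T := T)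
      (γ := Real.log (nm g)) (b := β) (c := c') (l := l) (n := LN ps') (t := 12 * t)
      (p := LN ps) (by positivity) h4 hKL hβ hc' (by linarith) (by linarith) (by linarith)
      hLθ0 (by linarith) (by linarith)
    unfold eW
    have h6 : max 0 ((l - 2 * LN ps' + L * b 0) / 3) ≤
        max 0 ((l - 2 * LN ps' + κ) / 3) + t / 3 := by
      refine max_le ?_ ?_
      · have := le_max_left 0 ((l - 2 * LN ps' + κ) / 3)
        linarith
      · have := le_max_right 0 ((l - 2 * LN ps' + κ) / 3)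
        linarith
    linarith
  -- the tails
  have tail : ∀ T₀ E : ℝ, 2 * LN ps - κ ≤ T₀ + L * (3 * L5 b) + t →
      ∀ g : Eis, IsPrim g → (nm g : ℝ) ≤ X ^ B → ∀ (c β l : ℝ) (ps' : List Pq), 0 ≤ c →
      c ≤ L * b 4 + t → 2 * c ≤ Real.log (nm g) → 0 ≤ β → 0 ≤ l →
      List.Forall₂ (ChN r) ps' ps → |LN ps' - (LN ps - Real.log (nm g) - β)| ≤ r →
      l ≤ T - 2 * Real.log (nm g) + 5 * c + β + r →
      ((c = 0 ∧ L * b 0 / 64 - t ≤ E ∧ E ≤ β) ∨ (L * b 0 / 20 - t ≤ E ∧ E ≤ β + c + r) ∨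
        T₀ ≤ l - β + 2 * Real.log (nm g) - 2 * c + 4 * r) →
      SN (q * g) (π lam) h l ps' ≤ H ^ M₀ * X ^ (L5 b + θ + ℓ b + ε) * cN ps' ps ^ M *
        Real.exp (4 / 3 * LN ps' + (l + κ) / 3 + 2 * β) := by
    intro T₀ E hT₀ g hg hgB c β l ps' hc hcx hcγ hβ hl hch hn hlev hor
    obtain ⟨hn1, hn2⟩ := abs_le.1 hn
    obtain ⟨c', hc', hcc, hcc', hcx'⟩ := hcc c hc hcx
    refine toθ (G2 g hg hgB c β l ps' hc hcx hcγ hβ hl hch hn hlev _ ?_)
    intro z₁ z₂ z₃ w h1 h2 h3 hw hwx hsum hnx _ _ _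
    have h4 := kW_cell (K' := L * K5 b) (κ := L * b 0) (L := L * L5 b + L * θ) (T := T)
      (γ := Real.log (nm g)) (b := β) (c := c') (l := l) (n := LN ps') (w := w) (x := L * b 4)
      (N := L * (b 1 + b 2 + b 3)) (t := 12 * t) (by positivity) hKL hβ (by linarith)
      (hγ0 g hg) hc' (by linarith) (by linarith) (by linarith) (by linarith)
    unfold eW
    rcases hor with ⟨rfl, hE, hor⟩ | ⟨hE, hor⟩ | hor
    · have h5 := mixW_tail (κ := L * b 0) (K' := L * K5 b) (L := L * L5 b + L * θ)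
        (N := L * (b 1 + b 2 + b 3)) (x := L * b 4) (d := d) (T := T) (γ := Real.log (nm g))
        (b := β) (l := l) (n := LN ps') (p := LN ps) (t := 12 * t) (z₁ := z₁) (z₂ := z₂)
        (z₃ := z₃) (w := w) (by positivity) hk0L h4 hLθ0 hKL hK5L (by linarith) hx0L (by linarith)
        hadm' (by linarith) (by linarith) hβ h1 h2 h3 hw (by linarith) hsum (by linarith)
        (by linarith) (by linarith) (by linarith) (by linarith)
      linarith
    · refine (min_le_right _ _).trans ?_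
      have h5 := tAll_tail (κ := L * b 0) (N := L * (b 1 + b 2 + b 3)) (x := L * b 4) (d := d)
        (T := T) (γ := Real.log (nm g)) (b := β) (c := c') (l := l) (p := LN ps) (t := 16 * t)
        (z₁ := z₁) (z₂ := z₂) (z₃ := z₃) (w := w) (by positivity) hk0L hd hd1 (by linarith)
        hx0L (by linarith) hadm hβ hc' hcx' (by linarith) (by linarith)
        h1 h2 h3 hw (by linarith) (by linarith) (by linarith) (by linarith) (by linarith)
        (by linarith)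
      rw [hsum] at h5
      linarith
    · refine (min_le_left _ _).trans ?_
      have h5 := eW_tail (κ := L * b 0) (K' := L * K5 b) (L := L * L5 b + L * θ) (T := T)
        (T₀ := T₀) (γ := Real.log (nm g)) (b := β) (c := c') (l := l) (n := LN ps') (p := LN ps)
        (t := 12 * t) (by positivity) h4 hKL hβ hc' (by linarith) (by linarith)
        (by linarith) (by linarith) (by linarith) (by linarith) (by linarith) (by linarith) hLθ0
      linarith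
  -- the cells of the T-numbers
  have toSB : ∀ {S F c y A B E : ℝ}, S ≤ F * c * Real.exp y → y = A + B →
      S ≤ c * (F * Real.exp A * Real.exp B) := by
    intro S F c y A B E h e
    refine h.trans (le_of_eq ?_)
    rw [e, Real.exp_add]; ring
  refine ⟨?_, ?_, ?_, ?_, ?_, ?_⟩
  · intro g hg hgB β l ps' hβ hl hch hn hlev
    exact flat g hg hgB 0 β l ps' le_rfl (by linarith) (by linarith [hγ0 g hg]) hβ hl hch hn
      (by linarith)
  · intro c₀ hc₀ g hg hgB c β l ps' hc hcc₀ hcγ hβ hl hch hn hlev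
    exact flat g hg hgB c β l ps' hc (hcc₀.trans hc₀) hcγ hβ hl hch hn hlev
  · intro T₀ E hE hT₀ g hg hgB β l ps' hβ hl hch hn hlev hor
    refine tail T₀ E hT₀ g hg hgB 0 β l ps' le_rfl (by linarith) (by linarith [hγ0 g hg]) hβ hl
      hch hn (by linarith) ?_
    rcases hor with h | h
    · exact Or.inl ⟨rfl, hE, h⟩
    · exact Or.inr (Or.inr (by linarith))
  · intro T₀ E c₀ hE hc₀ hT₀ g hg hgB c β l ps' hc hcc₀ hcγ hβ hl hch hn hlev hor
    refine tail T₀ E hT₀ g hg hgB c β l ps' hc (hcc₀.trans hc₀) hcγ hβ hl hch hn hlev ?_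
    rcases hor with h | h
    · exact Or.inr (Or.inl ⟨hE, h⟩)
    · exact Or.inr (Or.inr (by linarith))
  · intro E hE0 hE1 hTE g hg hgB β l ps' hβ hl hch hn hlev
    obtain ⟨hn1, hn2⟩ := abs_le.1 hn
    have hγ := hγ0 g hg
    unfold ΦF
    refine toSB (E := E) (toθ (G2 g hg hgB 0 β l ps' le_rfl (by linarith) (by linarith) hβ hl
      hch hn (by linarith) (2 * LN ps + max 0 ((l + 2 * Real.log (nm g) - β - 2 * LN ps + κ) / 3) +
        (-2 * Real.log (nm g) - 5 / 6 * β + 2 * max 0 (β - E)) + L * θ) ?_)) rfl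
    intro z₁ z₂ z₃ w h1 h2 h3 hw hwx hsum hnx _ _ _
    refine (min_le_left _ _).trans ?_
    have h4 := kW_cell (K' := L * K5 b) (κ := L * b 0) (L := L * L5 b + L * θ) (T := T)
      (γ := Real.log (nm g)) (b := β) (c := 0) (l := l) (n := LN ps') (w := w) (x := L * b 4)
      (N := L * (b 1 + b 2 + b 3)) (t := 12 * t) (by positivity) hKL hβ (by linarith)
      (hγ0 g hg) le_rfl (by linarith) (by linarith) (by linarith) (by linarith)
    unfold eW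
    have h5 := mixW_sflat (κ := L * b 0) (K' := L * K5 b) (L := L * L5 b + L * θ) (T := T)
      (γ := Real.log (nm g)) (b := β) (l := l) (n := LN ps') (t := 12 * t)
      (p := LN ps) (E := E) (by positivity) hk0L h4 hLθ0 hKL hK5L hγ hβ hE0 (by linarith)
      (by linarith) (by linarith) (by linarith) (by linarith) (by linarith)
    have h6 : max 0 ((l + 2 * Real.log (nm g) - β - 2 * LN ps + L * b 0) / 3) ≤
        max 0 ((l + 2 * Real.log (nm g) - β - 2 * LN ps + κ) / 3) + t / 3 := by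
      refine max_le ?_ ?_
      · have := le_max_left 0 ((l + 2 * Real.log (nm g) - β - 2 * LN ps + κ) / 3)
        linarith
      · have := le_max_right 0 ((l + 2 * Real.log (nm g) - β - 2 * LN ps + κ) / 3)
        linarith
    linarith
  · intro E hE0 hE1 g hg hgB β l ps' hβ hl hch hn hlev
    obtain ⟨hn1, hn2⟩ := abs_le.1 hn
    have hγ := hγ0 g hg
    unfold ΦS
    refine toSB (E := E) (toθ (G2 g hg hgB 0 β l ps' le_rfl (by linarith) (by linarith) hβ hl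
      hch hn (by linarith) (4 / 3 * LN ps + (l + 2 * Real.log (nm g) - β + κ) / 3 + κ / 30 +
        (-2 * Real.log (nm g) - 5 / 6 * β + 2 * max 0 (β - E)) + L * θ) ?_)) rfl
    intro z₁ z₂ z₃ w h1 h2 h3 hw hwx hsum hnx _ _ _
    have h4 := kW_cell (K' := L * K5 b) (κ := L * b 0) (L := L * L5 b + L * θ) (T := T)
      (γ := Real.log (nm g)) (b := β) (c := 0) (l := l) (n := LN ps') (w := w) (x := L * b 4)
      (N := L * (b 1 + b 2 + b 3)) (t := 12 * t) (by positivity) hKL hβ (by linarith)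
      (hγ0 g hg) le_rfl (by linarith) (by linarith) (by linarith) (by linarith)
    unfold eW
    have h5 := mixW_slope (κ := L * b 0) (K' := L * K5 b) (L := L * L5 b + L * θ)
      (N := L * (b 1 + b 2 + b 3)) (x := L * b 4) (d := d) (T := T) (γ := Real.log (nm g))
      (b := β) (l := l) (n := LN ps') (p := LN ps) (t := 12 * t) (E := E) (z₁ := z₁) (z₂ := z₂)
      (z₃ := z₃) (w := w) (by positivity) hk0L h4 hLθ0 hKL hK5L (by linarith) hx0L (by linarith)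
      hadm' hγ hβ hE0 (by linarith) h1 h2 h3 hw (by linarith) hsum (by linarith)
      (by linarith) (by linarith) (by linarith) (by linarith) (by linarith) (by linarith)
    linarith

end Crest.Agent.R017.TM708
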