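import Crest.Agent.R017.RGz_545
import Crest.Agent.R017.FNEb_708

/-!
# Row 17, P1: the flat claims, far part (helper708)

children `{A, B, C | w}` with `A + B + 2 C ≤ K`, `K = max (K5 b) (3/2 v)`: from the RG fields
(helper590, helper777)

* `Far`      : the region
* `far_core` : abstract side conditions
* `far_ln`   : the lines of the side conditions on the region
-/

set_option autoImplicit false

noncomputable section

namespace Crest.Agent.R017.FN708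

open Crest.Agent.R017.ER911 Crest.Agent.R017.SC777 Crest.Agent.R017.TM708

variable {d : ℝ} {r s s₀ : EF}

/-- the region of the far children, family `K`, level `v` -/
structure Far (K v n A B C w : ℝ) : Prop where
  K0 : 0 ≤ K
  v0 : 0 ≤ v
  C0 : 0 ≤ C
  CA : C ≤ A
  CB : C ≤ B
  w0 : 0 ≤ w
  w36 : 36 * w ≤ K
  sig : A + B + 2 * C ≤ K
  n1 : n = A + B + C + w
  n5 : 5 * n ≤ 4 * K
  vn : 12 * (v + n) ≤ 17 * K
  v23 : 3 * v ≤ 2 * K

/-- a longer family -/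
theorem Far.mono {K K' v n A B C w : ℝ} (h : Far K v n A B C w) (hK : K ≤ K') :
    Far K' v n A B C w := by
  obtain ⟨K0, v0, C0, CA, CB, w0, w36, sig, n1, n5, vn, v23⟩ := h
  exact ⟨by linarith, v0, C0, CA, CB, w0, by linarith, by linarith, n1, by linarith, by linarith,
    by linarith⟩

/-- **the lines on the far region** -/
theorem far_ln {K v n A B C w : ℝ} (h : Far K v n A B C w) (h2 : n + K < 2 * v + 3 * C)
    {K' v' n' E c F S D M C₁ w₁ : ℝ} (hc : 0 ≤ c) (hK : K ≤ K')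
    (hS : S = v + n - K / 3) (hn0 : 0 ≤ n') (hn' : n' ≤ n) (hC0 : 0 ≤ C₁) (hC1 : C₁ ≤ C)
    (hw0 : 0 ≤ w₁) (hw1 : w₁ ≤ w) (hwc : w₁ ≤ 3 * C₁) (hF : D + M ≤ F) (v0 : 0 ≤ v')
    (v23 : 3 * v' + 300 * c ≤ 2 * K') (vs : v' + n' ≤ S + K' / 3)
    (l0 : 4 / 3 * n' + (v' + K') / 3 + F ≤ E) : Ln K' v' n' E C₁ w₁ D M := by
  obtain ⟨K0, v0', C0, CA, CB, w0, w36, sig, n1, n5, vn, v23'⟩ := h
  constructor
  all_goals linarith

/-- **all levels of a far child**, abstract side conditions -/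
theorem far_core {Q : ℝ → ℝ → Multiset ℝ → ℝ → ℝ → ℝ → Prop} (R : ExpRules (7 / 8 + d) r s)
    (S₀ : ExpS0 s s₀) {K A B C m a c μ F v n : ℝ} (H : T3Hy d K A B C m a c μ F)
    (G : ExpRGy (7 / 8 + d) c r s₀ Q) (hQ : QAll3 Q r K A B C m a c F)
    (hf : Far K v n A B C (m + a)) (hm : 0 ≤ m) (ha : 0 ≤ a)
    (v23 : 3 * v + 300 * c ≤ 2 * K) (hd2 : 2 * v ≤ n + K)
    (hSR : StW K A B C m a K A B C m a n → n + K < 2 * v + 3 * C →
      QRepD Q c F (v + n - K / 3) (2 * n + 2 * K - v) K A B C m a n ∧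
      (IHyp r c F K A B C m a →
        QSubD Q c F (v + n - K / 3) (2 * n + 2 * K - v) K A B C m a)) :
    s₀ v {A, B, C} m a ≤ 4 / 3 * n + (K + v) / 3 + F := by
  have hf' := hf
  obtain ⟨K0, v0, C0, CA, CB, w0, w36, sig, n1, n5, vn, _⟩ := hf'
  have hc0 := H.c0
  have hF := H.hF
  have hμ0 := H.μ0
  have hcκ := H.cκ
  have hd := H.d0
  have hd8 := H.d8
  have hD0 : 0 ≤ 2 * d * (C + m + a) := mul_nonneg (mul_nonneg two_pos.le H.d0) H.g0
  have hA : 0 ≤ A := C0.trans CA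
  have hB : 0 ≤ B := C0.trans CB
  have hok : Ok {A, B, C} m a := ok3 hA hB C0 hm ha
  have hn1 : n = A + B + C + m + a := by linarith
  have hs : Sub3 A B C m a A B C m a :=
    ⟨hA, le_rfl, hB, le_rfl, C0, le_rfl, hm, le_rfl, ha, le_rfl⟩
  by_cases h1 : n + K < 2 * v + 3 / 2 * c ∨ 2 * (n + v) ≤ K ∨ 2 * n ≤ v
  · exact ls_y R S₀ hc0.le hok hn1 v0 (by linarith) (by linarith) (by linarith) hd2 h1
      (by linarith)
  push Not at h1
  obtain ⟨g1, g2, g3⟩ := h1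
  rcases le_or_gt (v + C) ((A + B + m + a + K) / 2) with h | h2
  · have := lump3 R S₀ H.toT3H hs C0 hA hB le_rfl (by ring) (by
      show A ::ₘ B ::ₘ {C} = C ::ₘ A ::ₘ {B}
      rw [Multiset.cons_swap C A]
      congr 1
      exact Multiset.pair_comm B C) le_rfl v0 h
    rw [← hn1] at this
    linarith
  have h2' : n + K < 2 * v + 3 * C := by linarith
  rcases lt_or_ge (3 * C) (m + a) with h3 | h3
  · have t1 := (S₀.le v {A, B, C} m a v0 hok).trans (s_tAll R hd (by linarith) hA hB C0 hm ha v0)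
    have t2 : tAll d v A B C (m + a) ≤ tP d v A B C (m + a) :=
      (min_le_right _ _).trans ((min_le_right _ _).trans (min_le_left _ _))
    have t3 : max C (2 * (m + a)) = 2 * (m + a) := max_eq_right (by linarith)
    have t4 : 8 * d * (2 * (m + a) + (m + a)) ≤ 1 * (2 * (m + a) + (m + a)) :=
      mul_le_mul_of_nonneg_right hd8 (by linarith)
    have t5 : tP d v A B C (m + a) = v + (A + B + C + (m + a)) := by
      unfold tP
      rw [t3, gv_of_le (by linarith)]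
    linarith
  rcases le_or_gt v (2 * n - K) with h4 | h4
  · have := key_all_y R S₀ H G hQ le_rfl hs v0 (by linarith)
    rw [← hn1] at this
    exact this
  have hS : StW K A B C m a K A B C m a n :=
    ⟨le_rfl, hs, hn1, h3, by linarith, by linarith, by linarith⟩
  obtain ⟨q1, q2⟩ := hSR hS h2'
  exact bess_all_y R S₀ H G hQ hS q1 q2 le_rfl hs hn1
    ⟨v0, v23, hd2, by linarith, by linarith, by linarith⟩

/-- the static side conditions at a far child -/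
theorem far_stat {PA : ℝ → ℝ → Multiset ℝ → ℝ → ℝ → ℝ → Prop} (hPA : RGB545.PAL d PA)
    (R : ExpRules (7 / 8 + d) r s) {K A B C m a c μ F v n : ℝ}
    (H : T3Hy d K A B C m a c (2 * μ) F) (hF : 2 * d * (C + m + a) + 2 * μ + 400 * c ≤ F)
    (hf : Far K v n A B C (m + a)) (hm : 0 ≤ m) (ha : 0 ≤ a) (hS : StW K A B C m a K A B C m a n)
    (h2 : n + K < 2 * v + 3 * C) :
    QStat (RGB545.QL3P (7 / 8 + d) r s₀ PA c μ) r s₀ c μ F (v + n - K / 3) (2 * n + 2 * K - v)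
      K A B C m a n := by
  intro K' v' z₁ z₂ z₃ m₂ a₂ n₂ E hKK hsw hz12 hL hdd hsq
  obtain ⟨p0, p0', p6, p3, p7, p4, p8, p5, hn2, hn21⟩ := hsw
  obtain ⟨⟨v0, v23, d2, vs, sx, l0⟩, vv⟩ := hL
  have hd := H.d0
  have hd8 := H.d8
  have hc0 := H.c0
  have hμ0 := H.μ0
  have hcκ := H.cκ
  have hw3 := hS.w1
  have hw0 := hf.w0
  have hC0 := hf.C0
  have hw36 := hf.w36
  have hsig := hf.sig
  have hn1 := hf.n1
  have hn5 := hf.n5
  have hK0 := hf.K0
  have hln : Ln K' v' n₂ E C (m + a) (2 * d * (C + m + a)) (2 * μ) := by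
    refine far_ln hf h2 hc0.le hKK rfl (by linarith) hn21 hC0 le_rfl hw0 le_rfl hw3 (by linarith)
      v0 v23 vs l0
  have hreg : RGB545.RegW K (A + B) C m a n K' v' n₂ E (2 * d * (C + m + a)) (2 * μ) 0 := by
    refine ⟨hln, hm, ha, ?_, ?_, ?_, ?_, ?_, ?_, ?_, ?_, ?_, ?_⟩ <;> linarith
  refine RGB545.QL3P_ln R hd hd8 hln (by linarith) (by linarith) ?_
    (hPA.regW _ _ _ _ _ _ _ _ _ _ _ _ _ hreg (by linarith) (by linarith) le_rfl)
    p0 p0' p6 p7 p8 hz12 p3 p4 p5 (by linarith) hn2 hdd hsq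
  exact mul_le_mul_of_nonneg_left (by linarith) (by linarith)

/-- **all levels of a far child** -/
theorem far3 (R : ExpRules (7 / 8 + d) r s) (Rm : ExpRGFz (7 / 8 + d) r s s₀) (hd : 0 ≤ d)
    (hd8 : 8 * d ≤ 1) {K v n A B C m a : ℝ} (hf : Far K v n A B C (m + a)) (hm : 0 ≤ m)
    (ha : 0 ≤ a) (hd2 : 2 * v ≤ n + K) :
    s₀ v {A, B, C} m a ≤ 4 / 3 * n + (K + v) / 3 + 2 * d * (C + m + a) := by
  obtain ⟨PA, hPA', Rg⟩ := Rm.rgf
  have hPA := hPA' R
  rw [add_sub_cancel_left] at hPA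
  refine le_of_forall_pos_le_add fun ε hε => ?_
  obtain ⟨c, μ, hc, hcμ, hδ, G⟩ := Rg (ε / 1000) (by positivity)
  have hf' := hf.mono (K' := K + 500 * (ε / 1000)) (by linarith)
  obtain ⟨K0, v0, C0, CA, CB, w0, w36, sig, n1, n5, vn, v23⟩ := hf
  have H : T3Hy d (K + 500 * (ε / 1000)) A B C m a c (2 * μ)
      (2 * d * (C + m + a) + 2 * μ + 400 * c) := by
    refine ⟨?_, ?_, ?_, ?_⟩
    · constructor <;> first | assumption | linarith
    · linarith
    · linarith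
    · linarith [mul_nonneg (mul_nonneg two_pos.le hd) (show 0 ≤ C + m + a by linarith)]
  have HK : T3K (K + 500 * (ε / 1000)) A B C m a := by
    constructor <;> linarith
  have h := far_core R Rm.toExpS0 H G
    (QAll3_of R Rm.toExpS0 H (by linarith) G
      fun _ _ _ _ _ _ _ hS => RGB545.QL3P_stat hPA R H HK (by linarith) le_rfl hS) hf' hm
    ha (by linarith) (by linarith) (fun hS h2 => by
      have hq := far_stat (s₀ := s₀) hPA R H le_rfl hf' hm ha hS h2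
      exact ⟨hq.rep R Rm.toExpS0 H hS, fun IH =>
        hq.sub R Rm.toExpS0 H (by linarith) G hS IH⟩)
  linarith

/-- the third condition on the parents : `T5 + N + x ≤ 17/12 K5` -/
def R5s (b : Fin 5 → ℝ) : Prop := b 4 ≤ 0 ∨ 3 * (b 1 + b 2 + b 3) + 6 * b 4 ≤ 29 / 12 * b 0

/-- **the near part of the flat claims**: pure lists with `z₁ + z₂ + z₃ + min z > K5 b` -/
def NearL (s₀ : EF) (D5 : Set (Fin 5 → ℝ)) (ℓ : (Fin 5 → ℝ) → ℝ) : Prop :=
  ∀ b ∈ D5, ∀ v z₁ z₂ z₃ n : ℝ, 0 ≤ v → 0 ≤ z₃ → z₃ ≤ z₂ → z₂ ≤ z₁ → n = z₁ + z₂ + z₃ →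
    z₁ ≤ max (b 1) (max (b 2) (b 3)) → z₁ + z₂ + z₃ ≤ b 1 + b 2 + b 3 → K5 b < n + z₃ →
    v ≤ T5 b + (b 1 + b 2 + b 3 + b 4 - n) →
    s₀ v {z₁, z₂, z₃} 0 0 ≤
      max (2 * n) (4 / 3 * n + (max (K5 b) (v + n / 2) + v) / 3) + ℓ b

/-- the region `Far` from the facts about the parents -/
lemma far_of {b : Fin 5 → ℝ} (h5 : R5 b) (h5s : R5s b) {v A B C w : ℝ} (v0 : 0 ≤ v)
    (C0 : 0 ≤ C) (CA : C ≤ A) (CB : C ≤ B) (w0 : 0 ≤ w) (hw : w ≤ b 4)
    (hN : A + B + C ≤ b 1 + b 2 + b 3)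
    (hv : v ≤ T5 b + (b 1 + b 2 + b 3 + b 4 - (A + B + C + w)))
    (hs : A + B + 2 * C ≤ max (K5 b) (3 / 2 * v)) :
    Far (max (K5 b) (3 / 2 * v)) v (A + B + C + w) A B C w := by
  obtain ⟨k0, y1, y2, y3, x0, hN', x1, adm⟩ := h5
  obtain ⟨K, hK⟩ : ∃ K, K = max (K5 b) (3 / 2 * v) := ⟨_, rfl⟩
  have hK1 : K5 b ≤ K := by rw [hK]; exact le_max_left _ _
  have hK2 : 3 / 2 * v ≤ K := by rw [hK]; exact le_max_right _ _
  have hk1 : b 0 ≤ K5 b := le_max_left _ _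
  have hk2 : 5 / 4 * (b 1 + b 2 + b 3) ≤ K5 b := le_max_right _ _
  have m1 := min_le_left (2 * (b 1 + b 2 + b 3) - b 0) (3 / 4 * (b 1 + b 2 + b 3))
  have m2 := min_le_right (2 * (b 1 + b 2 + b 3) - b 0) (3 / 4 * (b 1 + b 2 + b 3))
  unfold T5 at hv
  rw [← hK] at hs ⊢
  refine ⟨by linarith, v0, C0, CA, CB, w0, by linarith, hs, rfl, ?_, ?_, by linarith⟩
  · rcases adm with h | ⟨h, -, -⟩ <;> linarith
  · rcases h5s with h | h
    · linarith
    · linarith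

/-- large sieve: very short children -/
lemma short_le (R : ExpRules (7 / 8 + d) r s) (S₀ : ExpS0 s s₀) {v z₁ z₂ z₃ w : ℝ} (v0 : 0 ≤ v)
    (h1 : 0 ≤ z₁) (h2 : 0 ≤ z₂) (h3 : 0 ≤ z₃) (hw : 0 ≤ w)
    (hv : 2 * (z₁ + z₂ + z₃ + w) ≤ v) :
    s₀ v {z₁, z₂, z₃} 0 w ≤ v + (z₁ + z₂ + z₃ + w) := by
  have hok : Ok {z₁, z₂, z₃} 0 w := ok3 h1 h2 h3 le_rfl hw
  have hl1 := S₀.le v {z₁, z₂, z₃} 0 w v0 hok
  have hl2 := R.hbG v {z₁, z₂, z₃} 0 w v0 hok
  rw [sum3] at hl2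
  refine hl1.trans (hl2.trans (max_le ?_ (max_le ?_ ?_))) <;> linarith

lemma sw1 (a b c : ℝ) : ({a, b, c} : Multiset ℝ) = {b, a, c} := Multiset.cons_swap _ _ _

lemma sw2 (a b c : ℝ) : ({a, b, c} : Multiset ℝ) = {a, c, b} := by
  show a ::ₘ {b, c} = a ::ₘ {c, b}
  congr 1
  exact Multiset.pair_comm b c

/-- **the flat claims from the near part** -/
theorem FE2L_of_near (R : ExpRules (7 / 8 + d) r s) (Rm : ExpRGFz (7 / 8 + d) r s s₀)
    (hd : 0 ≤ d) (hd8 : 8 * d ≤ 1) {D5 : Set (Fin 5 → ℝ)} (h5 : ∀ b ∈ D5, R5 b)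
    (h5s : ∀ b ∈ D5, R5s b) {ℓ : (Fin 5 → ℝ) → ℝ}
    (hℓ : ∀ b ∈ D5, 2 * d * ((b 1 + b 2 + b 3) / 3 + b 4) ≤ ℓ b) (hN : NearL s₀ D5 ℓ) :
    FE2L s₀ D5 ℓ := by
  -- ordered children
  have main : ∀ b ∈ D5, ∀ v A B C w : ℝ, 0 ≤ v → 0 ≤ C → C ≤ B → B ≤ A → 0 ≤ w → w ≤ b 4 →
      A ≤ max (b 1) (max (b 2) (b 3)) → A + B + C ≤ b 1 + b 2 + b 3 →
      v ≤ T5 b + (b 1 + b 2 + b 3 + b 4 - (A + B + C + w)) →
      s₀ v {A, B, C} 0 w ≤ eW (K5 b) v (A + B + C + w) w + ℓ b := by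
    intro b hb v A B C w hv hC hCB hBA hw hw4 hA hsum hlev
    have hR5 := h5 b hb
    have hℓb := hℓ b hb
    have hd0 : 0 ≤ 2 * d * ((b 1 + b 2 + b 3) / 3 + b 4) :=
      mul_nonneg (by linarith) (by linarith [hR5.y1, hR5.y2, hR5.y3, hR5.x0])
    rcases lt_or_ge ((A + B + C + w) + max (K5 b) (3 / 2 * v)) (2 * v) with hsh | hsh
    · have h1 := le_max_right (K5 b) (3 / 2 * v)
      have h2 := short_le R Rm.toExpS0 (z₁ := A) (z₂ := B) (z₃ := C) (w := w) hv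
        (by linarith) (by linarith) hC hw (by linarith)
      have h3 : v + (A + B + C + w) ≤ eW (K5 b) v (A + B + C + w) w := le_max_right _ _
      linarith
    rcases le_or_gt (A + B + 2 * C) (max (K5 b) (3 / 2 * v)) with hfar | hnear
    · have hf := far_of hR5 (h5s b hb) hv hC (hCB.trans hBA) hCB hw hw4 hsum hlev hfar
      have h1 := far3 R Rm hd hd8 (m := 0) (a := w) (by rw [zero_add]; exact hf) le_rfl hw
        (by linarith)
      have h2 : 2 * d * (C + 0 + w) ≤ 2 * d * ((b 1 + b 2 + b 3) / 3 + b 4) :=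
        mul_le_mul_of_nonneg_left (by linarith) (by linarith)
      have h3 : 4 / 3 * (A + B + C + w) + (max (K5 b) (3 / 2 * v) + v) / 3 ≤
          eW (K5 b) v (A + B + C + w) w :=
        ((le_max_right _ _).trans (le_max_left _ _)).trans (eH_le_eW _ _ _ _)
      linarith
    · have hk0 : K5 b < A + B + 2 * C := lt_of_le_of_lt (le_max_left _ _) hnear
      have hcau := Rm.toExpS0.cau v {A, B, C} 0 w 0 w hv
        (ok3 (by linarith) (by linarith) hC le_rfl hw) le_rfl le_rfl hw le_rfl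
      rw [sub_zero, sub_self, zero_add] at hcau
      have hnl := hN b hb (v + w) A B C (A + B + C) (by linarith) hC hCB hBA rfl hA hsum
        (by linarith) (by linarith)
      have h4 : max (2 * (A + B + C)) (4 / 3 * (A + B + C) +
          (max (K5 b) (v + w + (A + B + C) / 2) + (v + w)) / 3) + w ≤
          eW (K5 b) v (A + B + C + w) w := by
        obtain ⟨κ, hκ⟩ : ∃ κ, κ = kW (K5 b) v (A + B + C + w) w := ⟨_, rfl⟩
        have hκ' : max (K5 b) (v + w + (A + B + C) / 2) = κ := by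
          rw [hκ, kW]
          congr 1
          ring
        have g1 : 2 * (A + B + C + w) ≤ eW (K5 b) v (A + B + C + w) w :=
          (le_max_left _ _).trans (le_max_left _ _)
        have g2 : 4 / 3 * (A + B + C + w) + (max κ (3 / 2 * v) + v) / 3 ≤
          eW (K5 b) v (A + B + C + w) w := by
          rw [hκ]
          exact (le_max_right _ _).trans (le_max_left _ _)
        have g3 := le_max_left κ (3 / 2 * v)
        rw [hκ']
        rcases max_cases (2 * (A + B + C)) (4 / 3 * (A + B + C) + (κ + (v + w)) / 3) with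
          ⟨h, -⟩ | ⟨h, -⟩ <;> rw [h] <;> linarith
      linarith
  intro b hb v z₁ z₂ z₃ w hv h10 h11 h20 h21 h30 h31 hw hw4 hlev
  have m1 : z₁ ≤ max (b 1) (max (b 2) (b 3)) := h11.trans (le_max_left _ _)
  have m2 : z₂ ≤ max (b 1) (max (b 2) (b 3)) := h21.trans ((le_max_left _ _).trans
    (le_max_right _ _))
  have m3 : z₃ ≤ max (b 1) (max (b 2) (b 3)) := h31.trans ((le_max_right _ _).trans
    (le_max_right _ _))
  have conv : ∀ A B C : ℝ, ({A, B, C} : Multiset ℝ) = {z₁, z₂, z₃} → 0 ≤ C → C ≤ B → B ≤ A →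
      A ≤ max (b 1) (max (b 2) (b 3)) → A + B + C = z₁ + z₂ + z₃ →
      s₀ v {z₁, z₂, z₃} 0 w ≤ eW (K5 b) v (z₁ + z₂ + z₃ + w) w + ℓ b := by
    intro A B C he hC hCB hBA hA hs
    have := main b hb v A B C w hv hC hCB hBA hw hw4 hA (by linarith) (by rw [hs]; exact hlev)
    rwa [he, hs] at this
  rcases le_total z₁ z₂ with a | a
  · rcases le_total z₂ z₃ with a' | a'
    · exact conv z₃ z₂ z₁ (by rw [sw1 z₃ z₂ z₁, sw2 z₂ z₃ z₁, sw1 z₂ z₁ z₃])
        h10 a a' m3 (by ring)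
    · rcases le_total z₁ z₃ with a'' | a''
      · exact conv z₂ z₃ z₁ (by rw [sw2 z₂ z₃ z₁, sw1 z₂ z₁ z₃]) h10 a'' a' m2 (by ring)
      · exact conv z₂ z₁ z₃ (sw1 z₂ z₁ z₃) h30 a'' a m2 (by ring)
  · rcases le_total z₁ z₃ with a' | a'
    · exact conv z₃ z₁ z₂ (by rw [sw1 z₃ z₁ z₂, sw2 z₁ z₃ z₂]) h20 a a' m3 (by ring)
    · rcases le_total z₂ z₃ with a'' | a''
      · exact conv z₁ z₃ z₂ (sw2 z₁ z₃ z₂) h20 a'' a' m1 (by ring)
      · exact conv z₁ z₂ z₃ rfl h30 a'' a m1 rfl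

end Crest.Agent.R017.FN708
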