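import Crest.Agent.R017.FNEg_708
import Crest.Agent.R017.FNEf_708

/-!
# Row 17, R8: `T`-numbers of pure lists at their own family (helper90)

* `K0 v n z`  : the own family, `z` = bound for the lumps
* `Gt d v n z`: the number
* `NearOwn`   : the near claim at the own family (helper73, helper126, helper708)
* `own_gt`    : every list `{z₁, z₂, z₃}`, every level, from `AllT`, the far lists, the short lists and
  `NearOwn`
* `own_all`   : the same from the rules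
-/

set_option autoImplicit false

noncomputable section

namespace Crest.Agent.R017.OwA90

open Crest.Agent.R017.ER911 Crest.Agent.R017.SC777
open Crest.Agent.R017.TM708 (tAll tCT tCT3 gv gv_eq tAll_le_CT3)
open Crest.Agent.R017.TK708 (AllT allT_of)
open Crest.Agent.R017.FN708 (Far far3 short_le)

variable {d : ℝ} {r s s₀ : EF}

/-- **own family** of a list of level `v`, length `n`, lumps at most `z` -/
def K0 (v n z : ℝ) : ℝ := max (5 / 4 * n) (max (v + n / 2) (max (3 / 2 * v) (200 / 61 * z)))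

/-- **the number** -/
def Gt (d v n z : ℝ) : ℝ :=
  min (max (max (2 * n) (v + n)) (4 / 3 * n + (v + K0 v n z) / 3) + 2 / 3 * d * n)
    (max (v + 4 / 3 * n) (5 / 3 * n + v / 3))

lemma K0_a (v n z : ℝ) : 5 / 4 * n ≤ K0 v n z := le_max_left _ _
lemma K0_b (v n z : ℝ) : v + n / 2 ≤ K0 v n z := (le_max_left _ _).trans (le_max_right _ _)
lemma K0_c (v n z : ℝ) : 3 / 2 * v ≤ K0 v n z :=
  (le_max_left _ _).trans ((le_max_right _ _).trans (le_max_right _ _))
lemma K0_d (v n z : ℝ) : 200 / 61 * z ≤ K0 v n z :=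
  (le_max_right _ _).trans ((le_max_right _ _).trans (le_max_right _ _))

lemma K0_mono {v v' n n' z z' : ℝ} (hv : v ≤ v') (hn : n ≤ n') (hz : z ≤ z') :
    K0 v n z ≤ K0 v' n' z' := by
  unfold K0
  exact max_le_max (by linarith) (max_le_max (by linarith) (max_le_max (by linarith)
    (by linarith)))

/-- monotone in the bound for the lumps -/
lemma Gt_mono {d v n z z' : ℝ} (hz : z ≤ z') : Gt d v n z ≤ Gt d v n z' := by
  unfold Gt
  have h := K0_mono (le_refl v) (le_refl n) hz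
  exact min_le_min (by
    have : max (max (2 * n) (v + n)) (4 / 3 * n + (v + K0 v n z) / 3) ≤
        max (max (2 * n) (v + n)) (4 / 3 * n + (v + K0 v n z') / 3) :=
      max_le_max le_rfl (by linarith)
    linarith) le_rfl

lemma Gt_cont (d : ℝ) : Continuous fun q : Fin 3 → ℝ => Gt d (q 0) (q 1) (q 2) := by
  unfold Gt K0
  fun_prop

/-- the number of the lists of the family `Fin 4` -/
lemma Gt_cont4 (d : ℝ) : Continuous fun q : Fin 4 → ℝ =>
    Gt d (q 0) (q 1 + q 2 + q 3) (max (q 1) (max (q 2) (q 3))) := by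
  unfold Gt K0
  fun_prop

/-- slope one in the level -/
lemma Gt_slope {d v σ n z : ℝ} (hσ : 0 ≤ σ) : Gt d (v + σ) n z ≤ Gt d v n z + σ := by
  have hK : K0 (v + σ) n z ≤ K0 v n z + 3 / 2 * σ := by
    have h1 := K0_a v n z
    have h2 := K0_b v n z
    have h3 := K0_c v n z
    have h4 := K0_d v n z
    exact max_le (by linarith) (max_le (by linarith) (max_le (by linarith) (by linarith)))
  unfold Gt
  rw [min_add]
  refine min_le_min ?_ ?_
  · have h1 := le_max_left (max (2 * n) (v + n)) (4 / 3 * n + (v + K0 v n z) / 3)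
    have h2 := le_max_right (max (2 * n) (v + n)) (4 / 3 * n + (v + K0 v n z) / 3)
    have h3 := (le_max_left (2 * n) (v + n)).trans h1
    have h4 := (le_max_right (2 * n) (v + n)).trans h1
    have : max (max (2 * n) (v + σ + n)) (4 / 3 * n + (v + σ + K0 (v + σ) n z) / 3) ≤
        max (max (2 * n) (v + n)) (4 / 3 * n + (v + K0 v n z) / 3) + σ :=
      max_le (max_le (by linarith) (by linarith)) (by linarith)
    linarith
  · have h1 := le_max_left (v + 4 / 3 * n) (5 / 3 * n + v / 3)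
    have h2 := le_max_right (v + 4 / 3 * n) (5 / 3 * n + v / 3)
    exact max_le (by linarith) (by linarith)

/-- **the near claim at the own family** -/
def NearOwn (d : ℝ) (s₀ : EF) : Prop :=
  ∀ K v z₁ z₂ z₃ : ℝ, 0 < K → 0 ≤ v → 0 ≤ z₃ → z₃ ≤ z₂ → z₂ ≤ z₁ →
    K < z₁ + z₂ + 2 * z₃ → 5 * (z₁ + z₂ + z₃) ≤ 4 * K → v + (z₁ + z₂ + z₃) / 2 ≤ K →
    200 * z₁ ≤ 61 * K →
    s₀ v {z₁, z₂, z₃} 0 0 ≤ max (2 * (z₁ + z₂ + z₃)) (4 / 3 * (z₁ + z₂ + z₃) + (K + v) / 3) +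
      2 * d * z₃

/-- **the far claim** -/
def FarOwn (d : ℝ) (s₀ : EF) : Prop :=
  ∀ K v A B C : ℝ, Far K v (A + B + C) A B C 0 → 2 * v ≤ A + B + C + K →
    s₀ v {A, B, C} 0 0 ≤ 4 / 3 * (A + B + C) + (K + v) / 3 + 2 * d * C

/-- short lists -/
def ShOwn (s₀ : EF) : Prop :=
  ∀ v z₁ z₂ z₃ : ℝ, 0 ≤ v → 0 ≤ z₁ → 0 ≤ z₂ → 0 ≤ z₃ → 2 * (z₁ + z₂ + z₃) ≤ v →
    s₀ v {z₁, z₂, z₃} 0 0 ≤ v + (z₁ + z₂ + z₃)

/-- sorted lists -/
theorem own_sorted (hA : AllT d s₀) (hF : FarOwn d s₀) (hS : ShOwn s₀) (hN : NearOwn d s₀)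
    (hd : 0 ≤ d) {v A B C z : ℝ} (hv : 0 ≤ v) (hC : 0 ≤ C) (hCB : C ≤ B) (hBA : B ≤ A)
    (hz : A ≤ z) : s₀ v {A, B, C} 0 0 ≤ Gt d v (A + B + C) z := by
  obtain ⟨n, hn⟩ : ∃ n, n = A + B + C := ⟨_, rfl⟩
  obtain ⟨K, hK⟩ : ∃ K, K = K0 v n z := ⟨_, rfl⟩
  have k1 : 5 / 4 * n ≤ K := hK ▸ K0_a v n z
  have k2 : v + n / 2 ≤ K := hK ▸ K0_b v n z
  have k3 : 3 / 2 * v ≤ K := hK ▸ K0_c v n z
  have k4 : 200 / 61 * z ≤ K := hK ▸ K0_d v n z
  have hdn : 2 * d * C ≤ 2 / 3 * d * n := by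
    have := mul_le_mul_of_nonneg_left (show C ≤ n / 3 by linarith) (show 0 ≤ 2 * d by linarith)
    linarith
  rw [← hn]
  unfold Gt
  rw [← hK]
  have m1 := le_max_left (max (2 * n) (v + n)) (4 / 3 * n + (v + K) / 3)
  have m2 := le_max_right (max (2 * n) (v + n)) (4 / 3 * n + (v + K) / 3)
  have m3 := (le_max_left (2 * n) (v + n)).trans m1
  have m4 := (le_max_right (2 * n) (v + n)).trans m1
  have hdn0 : 0 ≤ 2 / 3 * d * n := by
    have : 0 ≤ n := by linarith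
    positivity
  refine le_min ?_ ?_
  · rcases le_total (2 * v) (n + K) with h2 | h2
    · rcases le_or_gt (n + C) K with hf | hf
      · have hfar : Far K v (A + B + C) A B C 0 :=
          ⟨by linarith, hv, hC, by linarith, hCB, le_rfl, by linarith, by linarith, by ring,
            by linarith, by linarith, by linarith⟩
        have := hF K v A B C hfar (by linarith)
        rw [← hn] at this
        linarith
      · have := hN K v A B C (by linarith) hv hC hCB hBA (by linarith) (by linarith)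
          (by linarith) (by linarith)
        rw [← hn] at this
        have h3 : max (2 * n) (4 / 3 * n + (K + v) / 3) ≤
            max (max (2 * n) (v + n)) (4 / 3 * n + (v + K) / 3) :=
          max_le m3 (by rw [add_comm K v]; exact m2)
        linarith
    · have := hS v A B C hv (by linarith) (by linarith) hC (by linarith)
      rw [← hn] at this
      linarith
  · have h1 := (hA v A B C 0 0 hv (by linarith) (by linarith) hC le_rfl le_rfl).trans
      ((tAll_le_CT3 _ _ _ _ _ _).trans (min_le_left _ _))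
    refine h1.trans ?_
    unfold tCT
    rw [gv_eq]
    have e1 := le_max_left (v + 4 / 3 * n) (5 / 3 * n + v / 3)
    have e2 := le_max_right (v + 4 / 3 * n) (5 / 3 * n + v / 3)
    have h3 : max (v + (C + (0 + 0)) + (A + B)) (A + B + (2 * (A + B) + (v + (C + (0 + 0)))) / 3) ≤
        max (v + 4 / 3 * n) (5 / 3 * n + v / 3) - C :=
      max_le (by linarith) (by linarith)
    linarith

/-- **every list** -/
theorem own_gt (hA : AllT d s₀) (hF : FarOwn d s₀) (hS : ShOwn s₀) (hN : NearOwn d s₀)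
    (hd : 0 ≤ d) {v z₁ z₂ z₃ z : ℝ} (hv : 0 ≤ v) (h1 : 0 ≤ z₁) (h2 : 0 ≤ z₂) (h3 : 0 ≤ z₃)
    (q1 : z₁ ≤ z) (q2 : z₂ ≤ z) (q3 : z₃ ≤ z) :
    s₀ v {z₁, z₂, z₃} 0 0 ≤ Gt d v (z₁ + z₂ + z₃) z := by
  have key : ∀ A B C : ℝ, ({A, B, C} : Multiset ℝ) = {z₁, z₂, z₃} → A + B + C = z₁ + z₂ + z₃ →
      0 ≤ C → C ≤ B → B ≤ A → A ≤ z → s₀ v {z₁, z₂, z₃} 0 0 ≤ Gt d v (z₁ + z₂ + z₃) z := by
    intro A B C he hs hC hCB hBA hz
    rw [← he, ← hs]
    exact own_sorted hA hF hS hN hd hv hC hCB hBA hz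
  have c12 : ∀ a b c : ℝ, ({a, b, c} : Multiset ℝ) = {b, a, c} := fun a b c => by
    simp only [Multiset.insert_eq_cons]
    exact Multiset.cons_swap a b {c}
  have c23 : ∀ a b c : ℝ, ({a, b, c} : Multiset ℝ) = {a, c, b} := fun a b c => by
    simp only [Multiset.insert_eq_cons]
    rw [show (b ::ₘ ({c} : Multiset ℝ)) = c ::ₘ {b} from Multiset.cons_swap b c 0]
  rcases le_total z₁ z₂ with a | a
  · rcases le_total z₂ z₃ with b | b
    · exact key z₃ z₂ z₁ (by rw [c23 z₃ z₂ z₁, c12 z₃ z₁ z₂, c23 z₁ z₃ z₂]) (by ring) h1 a b q3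
    · rcases le_total z₁ z₃ with c | c
      · exact key z₂ z₃ z₁ (by rw [c23 z₂ z₃ z₁, c12 z₂ z₁ z₃]) (by ring) h1 c b q2
      · exact key z₂ z₁ z₃ (c12 z₂ z₁ z₃) (by ring) h3 c a q2
  · rcases le_total z₁ z₃ with b | b
    · exact key z₃ z₁ z₂ (by rw [c12 z₃ z₁ z₂, c23 z₁ z₃ z₂]) (by ring) h2 a b q3
    · rcases le_total z₂ z₃ with c | c
      · exact key z₁ z₃ z₂ (c23 z₁ z₃ z₂) (by ring) h2 c b q1
      · exact key z₁ z₂ z₃ rfl rfl h3 c a q1

/-- **from the rules** -/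
theorem own_all (R : ExpRules (7 / 8 + d) r s) (Rm : ExpRGFz (7 / 8 + d) r s s₀) (hd : 0 ≤ d)
    (hd8 : 8 * d ≤ 1) (hN : NearOwn d s₀) {v z₁ z₂ z₃ z : ℝ} (hv : 0 ≤ v) (h1 : 0 ≤ z₁)
    (h2 : 0 ≤ z₂) (h3 : 0 ≤ z₃) (q1 : z₁ ≤ z) (q2 : z₂ ≤ z) (q3 : z₃ ≤ z) :
    s₀ v {z₁, z₂, z₃} 0 0 ≤ Gt d v (z₁ + z₂ + z₃) z := by
  refine own_gt (allT_of R Rm.toExpS0 hd (by linarith)) ?_ ?_ hN hd hv h1 h2 h3 q1 q2 q3
  · intro K v A B C hf h2v
    have := far3 R Rm hd hd8 (m := 0) (a := 0) (by rw [zero_add]; exact hf) le_rfl le_rfl h2v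
    have e : 2 * d * (C + 0 + 0) = 2 * d * C := by ring
    linarith
  · intro v z₁ z₂ z₃ hv h1 h2 h3 hs
    have := short_le R Rm.toExpS0 (w := 0) hv h1 h2 h3 le_rfl (by linarith)
    linarith

end Crest.Agent.R017.OwA90
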