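import Crest.Agent.R017.TER_792
import Crest.Agent.R017.OwA_90
import Crest.Agent.R017.I1p_146

/-!
# Row 17, the T-claims of one natural triple with helper90's own number (helper48)

* `Gt_hom`, `Gt_lip` : homogeneity and the Lipschitz bound of `Gt`
* `snk_own` : all children, any kernel
* `cell_own` : `CellS` of one natural triple
-/

set_option autoImplicit false
set_option linter.unusedVariables false

noncomputable section

open scoped ComplexConjugate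

namespace Crest.Agent.R017.CGt48

open Crest.Agent.R012 Crest.Agent.R012.Eis
open Crest.Agent.R017.XG702 (Pcs)
open Crest.Agent.R017.XT71 (Sys mx le_mx)
open Crest.Agent.R017.HP842 (Pc pc Ker Kg)
open Crest.Agent.R017.FE47 (PU cx)
open Crest.Agent.R017.Prov71 hiding K0
open Crest.Agent.R017.B770
open Crest.Agent.R017.ER911
open Crest.Agent.R017.I1146 (ChN LN cN SN CellS)
open Crest.Agent.R017.I1K764 (SNK)
open Crest.Agent.R017.TEM792 (LD)
open Crest.Agent.R017.TEX792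
open Crest.Agent.R017.TM708
open Crest.Agent.R017.TK708 (Wd tq tq_K)
open Crest.Agent.R017.XS0298 (S0K)
open Crest.Agent.R017.OwA90 (Gt K0 Gt_cont4 Gt_slope K0_a K0_b K0_c K0_d)

/-- homogeneity -/
lemma Gt_hom {d s : ℝ} (hs : 0 ≤ s) (v n z : ℝ) :
    Gt d (s * v) (s * n) (s * z) = s * Gt d v n z := by
  have hK : K0 (s * v) (s * n) (s * z) = s * K0 v n z := by
    unfold K0
    rw [mul_max_of_nonneg _ _ hs, mul_max_of_nonneg _ _ hs, mul_max_of_nonneg _ _ hs]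
    congr 1
    · ring
    congr 1
    · ring
    congr 1
    · ring
    · ring
  unfold Gt
  rw [hK, mul_min_of_nonneg _ _ hs, mul_add, mul_max_of_nonneg _ _ hs, mul_max_of_nonneg _ _ hs,
    mul_max_of_nonneg _ _ hs]
  congr 1
  · congr 1
    · congr 1
      · congr 1
        · ring
        · ring
      · ring
    · ring
  · congr 1
    · ring
    · ring

/-- the Lipschitz bound -/
lemma Gt_lip {d v n z n' z' t : ℝ} (hd : 0 ≤ d) (ht : 0 ≤ t) (hn : n' ≤ n + t)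
    (hz : z' ≤ z + t) : Gt d v n' z' ≤ Gt d v n z + (3 + d) * t := by
  have hdt : 0 ≤ d * t := mul_nonneg hd ht
  have hK : K0 v n' z' ≤ K0 v n z + 4 * t := by
    have h1 := K0_a v n z
    have h2 := K0_b v n z
    have h3 := K0_c v n z
    have h4 := K0_d v n z
    exact max_le (by linarith) (max_le (by linarith) (max_le (by linarith) (by linarith)))
  have hdn : 2 / 3 * d * n' ≤ 2 / 3 * d * n + d * t := by nlinarith
  unfold Gt
  rw [← min_add_add_right]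
  refine min_le_min ?_ ?_
  · have h1 := le_max_left (max (2 * n) (v + n)) (4 / 3 * n + (v + K0 v n z) / 3)
    have h2 := le_max_right (max (2 * n) (v + n)) (4 / 3 * n + (v + K0 v n z) / 3)
    have h3 := (le_max_left (2 * n) (v + n)).trans h1
    have h4 := (le_max_right (2 * n) (v + n)).trans h1
    have : max (max (2 * n') (v + n')) (4 / 3 * n' + (v + K0 v n' z') / 3) ≤
        max (max (2 * n) (v + n)) (4 / 3 * n + (v + K0 v n z) / 3) + 3 * t :=
      max_le (max_le (by linarith) (by linarith)) (by linarith)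
    linarith
  · have h1 := le_max_left (v + 4 / 3 * n) (5 / 3 * n + v / 3)
    have h2 := le_max_right (v + 4 / 3 * n) (5 / 3 * n + v / 3)
    exact max_le (by linarith) (by linarith)

/-- **the numbers of the claims** -/
def ShG (d p z γ b v : ℝ) : ℝ := Gt d (v + min b (p - γ)) (max 0 (p - γ - b)) z

/-- the number of one child -/
lemma Gt_child {d p z γ b l n' z' r : ℝ} (hd : 0 ≤ d) (hr : 0 ≤ r) (hn0 : 0 ≤ n')
    (hn : |n' - (p - γ - b)| ≤ r) (hz : z' ≤ z + r) :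
    Gt d l n' z' ≤ ShG d p z γ b (l - b) + (4 + d) * r := by
  obtain ⟨h1, h2⟩ := abs_le.1 hn
  have h3 := le_max_left 0 (p - γ - b)
  have h4 := le_max_right 0 (p - γ - b)
  have e1 := Gt_lip (v := l) (n := max 0 (p - γ - b)) (z := z) hd hr (by linarith : n' ≤ _ + r) hz
  set σ := b - min b (p - γ) with hσ
  have hσ0 : 0 ≤ σ := sub_nonneg.2 (min_le_left _ _)
  have hσr : σ ≤ r := by
    rw [hσ]
    rcases min_choice b (p - γ) with h | h <;> rw [h] <;> linarith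
  have e2 := Gt_slope (d := d) (v := l - b + min b (p - γ)) (n := max 0 (p - γ - b)) (z := z) hσ0
  have e3 : l - b + min b (p - γ) + σ = l := by rw [hσ]; ring
  rw [e3] at e2
  unfold ShG
  linarith

variable {Λ : Type*} {π : Λ → DPar} {h : ℝ → ℝ}

/-- **all children of one natural triple** -/
theorem snk_own {Kn : Eis → Eis → ℂ} (hW : Wd fun lam => S0K Kn (π lam) h) {d : ℝ} (hd : 0 ≤ d)
    (hown : ∀ v z₁ z₂ z₃ : ℝ, 0 ≤ v → 0 ≤ z₁ → 0 ≤ z₂ → 0 ≤ z₃ →
      ex Dq (fun lam => S0K Kn (π lam) h) v {z₁, z₂, z₃} 0 0 ≤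
        Gt d v (z₁ + z₂ + z₃) (max z₁ (max z₂ z₃)))
    {ε : ℝ} (hε : 0 < ε) {B₂ : ℝ} (hB₂ : 0 < B₂) (lam : Λ) (B : ℝ) : ∃ M : ℕ, ∀ r : ℝ, 0 ≤ r →
    ∃ X₀ : ℝ, 3 ≤ X₀ ∧ ∀ X : ℝ, X₀ ≤ X → ∀ H : ℝ, 1 ≤ H → ∀ us : Fin 3 → Pq,
      (∀ i, Dq.lump (us i) ∧ 0 ≤ (us i).z ∧ (us i).z ≤ Real.log X ∧ (nm (us i).d : ℝ) ≤ X ^ B ∧
        1 + |(us i).t| ≤ H) → ∀ z : ℝ, (∀ i, (us i).z ≤ z) →
      ∀ q : Eis, q ≠ 0 → (nm q : ℝ) ≤ X ^ B →
      ∀ g : Eis, IsPrim g → (nm g : ℝ) ≤ X ^ B₂ → ∀ (b l : ℝ) (ps' : List Pq), 0 ≤ b →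
      b ≤ B₂ * Real.log X + r → 0 ≤ l → List.Forall₂ (ChN r) ps' [us 0, us 1, us 2] →
      |LN ps' - (LN [us 0, us 1, us 2] - Real.log (nm g) - b)| ≤ r →
      l ≤ B₂ * Real.log X - 2 * Real.log (nm g) + b + r →
      SNK Kn (q * g) (π lam) h l ps' ≤ H ^ M * X ^ ε * cN ps' [us 0, us 1, us 2] ^ (M : ℝ) *
        Real.exp (ShG d (LN [us 0, us 1, us 2]) z (Real.log (nm g)) b (l - b)) := by
  set K : ℝ := 1 + |B| + B₂ with hK
  have hB := abs_nonneg B
  have hBle := le_abs_self B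
  have hK1 : 1 ≤ K := by rw [hK]; linarith
  set Kb : ℝ := 2 * B₂ + 2 with hKb
  obtain ⟨σ, hσ, G1⟩ := own_near hW (bx4_compact Kb) (fun q hq i => ((mem_bx4.1 hq) i).1)
    (Gt_cont4 d) (fun q hq => hown _ _ _ _ ((mem_bx4.1 hq) 0).1 ((mem_bx4.1 hq) 1).1
      ((mem_bx4.1 hq) 2).1 ((mem_bx4.1 hq) 3).1) (show 0 < ε / 2 by positivity)
  obtain ⟨M, X₁, hX₁, G2⟩ := G1 lam (5 * K)
  refine ⟨M, fun r hr => ?_⟩
  obtain ⟨X₂, hX₂, G3⟩ := TEX792.const_le (Real.exp ((4 + d) * r)) (ε / 2) (by positivity)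
  refine ⟨max (max X₁ X₂) (max 3 (Real.exp (2 * r))),
    (le_max_left _ _).trans (le_max_right _ _), ?_⟩
  intro X hX H hH us hus z hz q hq hqX g hg hgX b l ps' hb hbE hl hch hLN hlT
  have hXX1 : X₁ ≤ X := ((le_max_left _ _).trans (le_max_left _ _)).trans hX
  have hXX2 : X₂ ≤ X := ((le_max_right _ _).trans (le_max_left _ _)).trans hX
  have hX3 : 3 ≤ X := ((le_max_left _ _).trans (le_max_right _ _)).trans hX
  have hXr : Real.exp (2 * r) ≤ X := ((le_max_right _ _).trans (le_max_right _ _)).trans hX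
  have hX1 : 1 < X := by linarith
  have hX0 : 0 < X := by linarith
  set L := Real.log X with hL
  have hL0 : 0 < L := Real.log_pos hX1
  have hrL : 2 * r ≤ L := (Real.le_log_iff_exp_le hX0).2 hXr
  have elist : List.ofFn us = [us 0, us 1, us 2] := by simp [List.ofFn_succ]
  have hLD : LD X K H us (fun _ => 1) :=
    { lump := fun i => (hus i).1
      z0 := fun i => (hus i).2.1
      zK := fun i => (hus i).2.2.1.trans (le_mul_of_one_le_left hL0.le hK1)
      dK := fun i => (hus i).2.2.2.1.trans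
        (Real.rpow_le_rpow_of_exponent_le hX1.le (by linarith))
      tH := fun i => (hus i).2.2.2.2
      bp := fun i => isPrim_one
      bK := fun i => by
        rw [nm_one]
        push_cast
        exact Real.one_le_rpow hX1.le (by linarith) }
  have hQ0 : q * g ≠ 0 := mul_ne_zero hq hg.ne_zero
  have hQX : (nm (q * g) : ℝ) ≤ X ^ (5 * K) := by
    rw [nm_mul]
    push_cast
    calc (nm q : ℝ) * nm g ≤ X ^ B * X ^ B₂ := by gcongr
      _ = X ^ (B + B₂) := by rw [← Real.rpow_add hX0]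
      _ ≤ X ^ (5 * K) := Real.rpow_le_rpow_of_exponent_le hX1.le (by linarith)
  rw [← elist] at hch
  obtain ⟨a, ha1, ha2, hps, haok, hs2, hs1, hz', hLa⟩ :=
    child3 (l := l) hX1 hK1 hH hLD hQ0 hQX hch
  rw [elist] at hs1 hch
  have hev : S3.ev X a = ![l / L, (a.us 0).z / L, (a.us 1).z / L, (a.us 2).z / L] := by
    rw [← ha1]
    rfl
  have hgn : (1 : ℝ) ≤ nm g := by exact_mod_cast nm_pos.2 hg.ne_zero
  have hγ0 : 0 ≤ Real.log (nm g) := Real.log_nonneg hgn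
  have hlK : l ≤ Kb * L := by
    rw [hKb]
    nlinarith
  have hzK : ∀ i, (a.us i).z ≤ Kb * L := fun i => by
    have h1 := (hz' i).2
    have h2 := (hus i).2.2.1
    have h3 : 0 ≤ B₂ * L := by positivity
    rw [hKb]
    nlinarith
  have hKL : ∀ {y : ℝ}, y ≤ Kb * L → y / L ≤ Kb := fun h => by rwa [div_le_iff₀ hL0]
  have hmem : S3.ev X a ∈ bx4 Kb := by
    rw [mem_bx4, hev]
    intro i
    fin_cases i
    · exact ⟨div_nonneg hl hL0.le, hKL hlK⟩
    · exact ⟨div_nonneg (hz' 0).1 hL0.le, hKL (hzK 0)⟩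
    · exact ⟨div_nonneg (hz' 1).1 hL0.le, hKL (hzK 1)⟩
    · exact ⟨div_nonneg (hz' 2).1 hL0.le, hKL (hzK 2)⟩
  have hc1 := one_le_cN hch
  have hK1' : 1 ≤ cN ps' [us 0, us 1, us 2] * H := one_le_mul_of_one_le_of_one_le hc1 hH
  have key := G2 X hXX1 a haok hs2 ⟨_, hmem, by rw [dist_self]; exact hσ.le⟩ _ hK1' hs1
  rw [ha1, ha2, ← hps] at key
  have e1 := tq_K (π := π) (h := h) Kn hQ0 lam l ps'
  unfold TK708.tq at e1
  rw [← e1]
  refine key.trans ?_
  have hG : L * Gt d (S3.ev X a 0) (S3.ev X a 1 + S3.ev X a 2 + S3.ev X a 3)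
      (max (S3.ev X a 1) (max (S3.ev X a 2) (S3.ev X a 3))) =
      Gt d l (LN ps') (max (a.us 0).z (max (a.us 1).z (a.us 2).z)) := by
    rw [← Gt_hom hL0.le, hev]
    show Gt d (L * (l / L)) (L * ((a.us 0).z / L + (a.us 1).z / L + (a.us 2).z / L))
      (L * max ((a.us 0).z / L) (max ((a.us 1).z / L) ((a.us 2).z / L))) = _
    rw [mul_max_of_nonneg _ _ hL0.le, mul_max_of_nonneg _ _ hL0.le, mul_add, mul_add,
      mul_div_cancel₀ _ hL0.ne', mul_div_cancel₀ _ hL0.ne', mul_div_cancel₀ _ hL0.ne',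
      mul_div_cancel₀ _ hL0.ne', hLa]
  have hn0 : 0 ≤ LN ps' := by
    rw [hLa]
    have h0 := (hz' 0).1
    have h1 := (hz' 1).1
    have h2 := (hz' 2).1
    linarith
  have hzm : max (a.us 0).z (max (a.us 1).z (a.us 2).z) ≤ z + r := by
    refine max_le ?_ (max_le ?_ ?_)
    · have := (hz' 0).2; have := hz 0; linarith
    · have := (hz' 1).2; have := hz 1; linarith
    · have := (hz' 2).2; have := hz 2; linarith
  have hch2 := Gt_child (l := l) hd hr hn0 hLN hzm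
  have hX3' := G3 X hXX2
  have hexp : X ^ (Gt d (S3.ev X a 0) (S3.ev X a 1 + S3.ev X a 2 + S3.ev X a 3)
      (max (S3.ev X a 1) (max (S3.ev X a 2) (S3.ev X a 3))) + ε / 2) ≤
      X ^ ε * Real.exp (ShG d (LN [us 0, us 1, us 2]) z (Real.log (nm g)) b (l - b)) := by
    rw [Real.rpow_add hX0, Real.rpow_def_of_pos hX0, ← hL, hG]
    calc Real.exp (Gt d l (LN ps') (max (a.us 0).z (max (a.us 1).z (a.us 2).z))) * X ^ (ε / 2)
        ≤ (Real.exp (ShG d (LN [us 0, us 1, us 2]) z (Real.log (nm g)) b (l - b)) *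
          X ^ (ε / 2)) * X ^ (ε / 2) := by
          refine mul_le_mul_of_nonneg_right ?_ (by positivity)
          refine (Real.exp_le_exp.2 hch2).trans ?_
          rw [Real.exp_add]
          exact mul_le_mul_of_nonneg_left hX3' (Real.exp_pos _).le
      _ = Real.exp (ShG d (LN [us 0, us 1, us 2]) z (Real.log (nm g)) b (l - b)) *
          (X ^ (ε / 2) * X ^ (ε / 2)) := by ring
      _ = _ := by
          rw [← Real.rpow_add hX0, add_halves, mul_comm]
  calc (cN ps' [us 0, us 1, us 2] * H) ^ M * _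
      ≤ (cN ps' [us 0, us 1, us 2] * H) ^ M * (X ^ ε *
        Real.exp (ShG d (LN [us 0, us 1, us 2]) z (Real.log (nm g)) b (l - b))) :=
        mul_le_mul_of_nonneg_left hexp (by positivity)
    _ = _ := by
        rw [mul_pow, Real.rpow_natCast]
        ring

/-- **`CellS` of one natural triple** -/
theorem cell_own {c₀ : ℝ} (hpu : PU h c₀) (hP : ∀ lam, (π lam).OK) {d : ℝ} (hd : 0 ≤ d)
    (hown : ∀ v z₁ z₂ z₃ : ℝ, 0 ≤ v → 0 ≤ z₁ → 0 ≤ z₂ → 0 ≤ z₃ →
      ex Dq (fun lam => S0p (π lam) h) v {z₁, z₂, z₃} 0 0 ≤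
        Gt d v (z₁ + z₂ + z₃) (max z₁ (max z₂ z₃)))
    {ε : ℝ} (hε : 0 < ε) {B₂ : ℝ} (hB₂ : 0 < B₂) (lam : Λ) (B : ℝ) : ∃ M : ℕ, ∀ r : ℝ, 0 ≤ r →
    ∃ X₀ : ℝ, 3 ≤ X₀ ∧ ∀ X : ℝ, X₀ ≤ X → ∀ H : ℝ, 1 ≤ H → ∀ us : Fin 3 → Pq,
      (∀ i, Dq.lump (us i) ∧ 0 ≤ (us i).z ∧ (us i).z ≤ Real.log X ∧ (nm (us i).d : ℝ) ≤ X ^ B ∧
        1 + |(us i).t| ≤ H) → ∀ z : ℝ, (∀ i, (us i).z ≤ z) →
      CellS h (π lam) 1 [us 0, us 1, us 2] (X ^ B₂) r M (B₂ * Real.log X) (B₂ * Real.log X)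
        (H ^ M * X ^ ε) (fun γ b v => Gt d (v + min b (LN [us 0, us 1, us 2] - γ))
          (max 0 (LN [us 0, us 1, us 2] - γ - b)) z) := by
  obtain ⟨M, G⟩ := snk_own (Kn := Kg) (TK708.wd_N hpu hP) hd hown hε hB₂ lam (max B 0)
  refine ⟨M, fun r hr => ?_⟩
  obtain ⟨X₀, hX₀, G2⟩ := G r hr
  refine ⟨X₀, hX₀, fun X hX H hH us hus z hz => ?_⟩
  intro g hg hgX b l ps' hb hbE hl hch hLN hlT
  have hX1 : 1 ≤ X := by linarith
  have key := G2 X hX H hH us (fun i => ⟨(hus i).1, (hus i).2.1, (hus i).2.2.1,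
    (hus i).2.2.2.1.trans (Real.rpow_le_rpow_of_exponent_le hX1 (le_max_left _ _)),
    (hus i).2.2.2.2⟩) z hz 1 one_ne_zero (by
      rw [nm_one]
      push_cast
      exact Real.one_le_rpow hX1 (le_max_right _ _)) g hg hgX b l ps' hb hbE hl hch hLN hlT
  exact key

end Crest.Agent.R017.CGt48
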