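import Crest.Agent.R017.ET4c_90

/-!
# Row 17, REST (helper405): helper90's `t_sum` without the line of the diagonal

* `LnF` : the real lines of the `T`-part
* **`tf_sum`** : the `T`- and the `R`-part of all levels
-/

set_option autoImplicit false

noncomputable section

open Finset MeasureTheory
open scoped ComplexConjugate Classical ContDiff

namespace Crest.Agent.R017.ETf405

open Crest.Agent.R012 Crest.Agent.R012.Eis Crest.Agent.R012.MC
open Crest.Agent.R012.LS2 (S mem_S bl)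
open Crest.Agent.R017.CM106 (CS FS TG)
open Crest.Agent.R017.C70
open Crest.Agent.R017.HB645 (hh hh_nonneg hh_le_one abs_lt_of_hh)
open Crest.Agent.R017.E1551 hiding tau Dg
open Crest.Agent.R017.E3D579 (TE0)
open Crest.Agent.R017.E3T829 (cg)
open Crest.Agent.R017.E3M829 (Tal)
open Crest.Agent.R017.E3F548 (XE XE_nonneg)
open Crest.Agent.R017.E3Kc548 (LI mem_LI card_LI)
open Crest.Agent.R017.E3Z548 (TN TN_nonneg JV JVc mem_JV FH FH_nonneg LVn)
open Crest.Agent.R017.E3N146 (cLS cTT LVn_le CF_of_JC)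
open Crest.Agent.R017.TNj90
open Crest.Agent.R017.ET490
open Crest.Agent.R017.E3Hf290 (RN2F RN2F_nonneg)
open Crest.Agent.R017.E2440 (TE StE StT)
open Crest.Agent.R017.Mode405 (Slp)
open Crest.Agent.R017.PX764 (n6)
open Crest.Agent.R017.R3571 (RMm)
open Crest.Agent.R012.Weight600 (pw)

/-- the cube-free lines and the diagonal with the slot `E1 = exp e` -/
def lw0f (k v h e : ℝ) : ℝ := max (2 / 3 * k - (h + v) / 3) (2 / 3 * v + e)

/-- the real lines with the slot `E1 = exp e` -/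
structure LnF (Sh : ℝ → ℝ → ℝ → ℝ) (k v h p E δ t e G : ℝ) : Prop where
  c0 : ∀ b l : ℝ, 0 ≤ b → 0 ≤ l → l ≤ v - 2 * δ + t →
    lw0f k v h e + Sh δ b l + 2 * δ - max 0 (b - E) - p / 3 ≤ G
  c1 : ∀ b l : ℝ, 0 ≤ b → 0 ≤ l → l ≤ v - 2 * δ + t →
    lw1 k v h + Sh δ b l + 2 * δ - max 0 (b - E) + (v - 2 * δ - l) / 3 - p / 3 ≤ G

lemma lw0f_lip {k v h h' e : ℝ} : lw0f k v h e ≤ lw0f k v h' e + 1 / 3 * |h - h'| := by
  unfold lw0f
  have h0 := abs_nonneg (h - h')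
  have h1 := neg_abs_le (h - h')
  have e2 := le_max_left (2 / 3 * k - (h' + v) / 3) (2 / 3 * v + e)
  have e3 := le_max_right (2 / 3 * k - (h' + v) / 3) (2 / 3 * v + e)
  refine max_le ?_ ?_ <;> linarith

/-- the coefficient of the cube-free lines with the slot -/
lemma FH_cLSf {k h v e : ℝ} (hk : 3 * e ≤ k) :
    FH (Real.exp k) (Real.exp h) (Real.exp v) *
      cLS (Real.exp k) (Real.exp h) (Real.exp v) (Real.exp v) (Real.exp e) 1 1 ≤
        3 * Real.exp (lw0f k v h e) := by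
  unfold E3N146.cLS
  rw [FH_exp, div_self (Real.exp_pos v).ne', mul_one, one_pow, mul_one, mul_one, mul_one]
  have e0 : Real.exp h * Real.exp v ^ 2 * Real.exp v * Real.exp e ^ 3 / Real.exp k ^ 2 =
      Real.exp (h + 3 * v + 3 * e - 2 * k) := by
    rw [← Real.exp_nat_mul, ← Real.exp_nat_mul, ← Real.exp_nat_mul, ← Real.exp_add,
      ← Real.exp_add, ← Real.exp_add, ← Real.exp_sub]
    congr 1
    push_cast
    ring
  have e1 : Real.exp v / Real.exp k = Real.exp (v - k) := by rw [Real.exp_sub]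
  have e2 : Real.exp e ^ 2 = Real.exp (2 * e) := by
    rw [← Real.exp_nat_mul]; norm_num
  rw [e0, e1, e2, ← Real.exp_mul, ← Real.exp_mul]
  have e4 : Real.exp (2 / 3 * k - (h + v) / 3) * (1 + Real.exp (h * (1 / 3)) *
      Real.exp (v - k) * Real.exp (2 * e) + Real.exp ((h + 3 * v + 3 * e - 2 * k) * (1 / 3))) =
      Real.exp (2 / 3 * k - (h + v) / 3) + Real.exp (2 / 3 * v - k / 3 + 2 * e) +
        Real.exp (2 / 3 * v + e) := by
    have a1 : Real.exp (2 / 3 * v - k / 3 + 2 * e) = Real.exp (2 / 3 * k - (h + v) / 3) *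
        (Real.exp (h * (1 / 3)) * Real.exp (v - k) * Real.exp (2 * e)) := by
      rw [← Real.exp_add, ← Real.exp_add, ← Real.exp_add]; congr 1; ring
    have a2 : Real.exp (2 / 3 * v + e) = Real.exp (2 / 3 * k - (h + v) / 3) *
        Real.exp ((h + 3 * v + 3 * e - 2 * k) * (1 / 3)) := by
      rw [← Real.exp_add]; congr 1; ring
    rw [a1, a2]
    ring
  rw [e4]
  have q := le_max_right (2 / 3 * k - (h + v) / 3) (2 / 3 * v + e)
  refine exp3 _ _ _ _ ?_ ?_ ?_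
  · exact le_max_left _ _
  · refine le_trans ?_ q
    linarith
  · exact q

/-- **one level** : the `T`-part with the slot -/
theorem tf_lines {R : ℝ} (hR : 0 ≤ R) {ε J B₂ : ℝ} (hε : 0 < ε) (hJ : 0 ≤ J) (hB₂ : 0 < B₂)
    {Lh : ℝ} (hLh : 0 ≤ Lh) (c : ℝ) (hc : 1 ≤ c) :
    ∃ C : ℝ, 0 ≤ C ∧ ∀ X : ℝ, 3 ≤ X → ∀ (p Y v k e E0 F G : ℝ) (Sh : ℝ → ℝ → ℝ → ℝ),
      1 ≤ Y → Y ≤ X ^ B₂ → Real.exp 1 * c * Real.exp v ≤ X ^ B₂ → 0 < E0 → E0 ≤ X ^ B₂ →
      0 ≤ F → 3 * e ≤ k → ∀ al : Eis → ℂ, JBc Y (Real.exp 1 * c * Real.exp v) F J Sh al →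
      Adm Y (Real.exp p) R al → ∀ (Ds EE : Finset Eis) (hf : ℝ → ℝ) (Yg : ℝ)
        (RN : Eis → Eis → ℝ),
      (∀ x y, hf x ≤ hf y + Lh * |x - y|) →
      (∀ d ∈ Ds, IsPrim d ∧ (nm d : ℝ) ≤ X ^ B₂) → (∀ e ∈ EE, e ∈ S E0) →
      (∀ d ∈ Ds, LnF Sh k v (hf (Real.log (nm d))) p (Real.log E0) (Real.log (nm d))
        (Real.log c + 1) e G) →
      ∑ d ∈ Ds, ∑ f ∈ EE, (nm f : ℝ)⁻¹ * LVn (fun d _ n => al (d * n)) {d} {f} c Yg
          (Real.exp k) (Real.exp (hf (Real.log (nm d)))) (Real.exp v) (Real.exp v)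
          (Real.exp e) 1 1 (RN d f) ≤
        C * X ^ ε * F * Real.exp G + ∑ d ∈ Ds, ∑ f ∈ EE, (nm f : ℝ)⁻¹ *
          (FH (Real.exp k) (Real.exp (hf (Real.log (nm d)))) (Real.exp v) * RN d f) := by
  obtain ⟨C₁, hC₁, H₁⟩ := LVTj hR hε hJ hB₂ (Lφ := 2 / 3 * Lh) (by positivity)
  set t := Real.log c + 1 with ht
  have hlc : 0 ≤ Real.log c := Real.log_nonneg hc
  have hc0 : 0 < c := by linarith
  refine ⟨C₁ * Real.exp (Real.log 3 + t / 3), by positivity, ?_⟩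
  intro X hX p Y v k e E0 F G Sh hY1 hYu hWX hE0 hE0X hF hk al hjb hadm Ds EE hf Yg RN hlip hDs
    hEE hln
  have hX0 : 0 < X := by linarith
  have hlW : Real.log (Real.exp 1 * c * Real.exp v) = v + t := by
    rw [Real.log_mul (by positivity) (Real.exp_pos _).ne', Real.log_mul (Real.exp_pos _).ne' hc0.ne',
      Real.log_exp, Real.log_exp]
    rw [ht]; ring
  have he3 : Real.exp (Real.log 3) = 3 := Real.exp_log (by norm_num)
  have hcc : c ≤ Real.exp 1 * c := le_mul_of_one_le_left hc0.le (Real.one_le_exp zero_le_one)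
  have hpG : Real.exp (-(p / 3)) * Real.exp (G + p / 3 + Real.log 3 + t / 3) =
      Real.exp (Real.log 3 + t / 3) * Real.exp G := by
    rw [← Real.exp_add, ← Real.exp_add]; congr 1; ring
  have h13 : 0 ≤ Real.log 3 := Real.log_nonneg (by norm_num)
  have k1 := H₁ X hX p Y c (Real.exp 1 * c) (Real.exp v) E0 F Sh hY1 hYu (Real.exp_pos v) hcc hWX
      hE0 hE0X hF al hjb hadm Ds EE (G + p / 3 + Real.log 3 + t / 3)
      (fun δ => Real.log 3 + lw0f k v (hf δ) e) (fun δ => Real.log 3 + lw1 k v (hf δ))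
      (fun d _ n => al (d * n)) (fun d _ => Real.exp (hf (Real.log (nm d)))) RN Yg (Real.exp k)
      (Real.exp v) (Real.exp e) 1 1 (fun x y => by
        have h1 := lw0f_lip (k := k) (v := v) (h := hf x) (h' := hf y) (e := e)
        have h2 : |hf x - hf y| ≤ Lh * |x - y| := abs_le.2 ⟨by
          have := hlip y x
          rw [abs_sub_comm] at this
          linarith, by linarith [hlip x y]⟩
        have h3 : 0 ≤ Lh * |x - y| := by positivity
        show Real.log 3 + lw0f k v (hf x) e ≤ Real.log 3 + lw0f k v (hf y) e +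
          2 / 3 * Lh * |x - y|
        linarith) (fun x y => by
        have h1 := lw1_lip (k := k) (v := v) (h := hf x) (h' := hf y)
        have h2 : |hf x - hf y| ≤ Lh * |x - y| := abs_le.2 ⟨by
          have := hlip y x
          rw [abs_sub_comm] at this
          linarith, by linarith [hlip x y]⟩
        show Real.log 3 + lw1 k v (hf x) ≤ Real.log 3 + lw1 k v (hf y) + 2 / 3 * Lh * |x - y|
        linarith) hDs hEE (fun _ _ _ _ => rfl) (Real.exp_pos k) (fun _ _ => Real.exp_pos _)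
      (fun d _ e _ => by
        unfold E3N146.cLS
        positivity) (fun d _ f _ => by
        refine (FH_cLSf hk).trans (le_of_eq ?_)
        rw [Real.exp_add, he3]) (fun d _ f _ => by
        refine (FH_cTT _ _ _).trans (le_of_eq ?_)
        rw [Real.exp_add, he3]) (fun d hd b l hb hl hlv => by
        rw [hlW] at hlv
        have := (hln d hd).c0 b l hb hl (by linarith)
        linarith) (fun d hd b l hb hl hlv => by
        rw [hlW] at hlv ⊢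
        have := (hln d hd).c1 b l hb hl (by linarith)
        linarith)
  refine k1.trans (add_le_add ?_ le_rfl)
  calc C₁ * X ^ ε * F * Real.exp (-(p / 3)) * Real.exp (G + p / 3 + Real.log 3 + t / 3) =
      C₁ * X ^ ε * F * (Real.exp (-(p / 3)) * Real.exp (G + p / 3 + Real.log 3 + t / 3)) := by
        ring
    _ = _ := by rw [hpG]; ring
    _ ≤ _ := le_rfl

/-- **the `T`- and the `R`-part of all levels** -/
theorem tf_sum {R0 : ℝ} (hR0 : 0 ≤ R0) {ε J B₂ : ℝ} (hε : 0 < ε) (hJ : 0 ≤ J) (hB₂ : 1 ≤ B₂)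
    {Lh : ℝ} (hLh : 0 ≤ Lh) (c : ℝ) (hc : 1 ≤ c) :
    ∃ C : ℝ, 0 ≤ C ∧ ∀ Z : ℝ, 3 ≤ Z → ∀ (D Y₀ Y₁ Y k e p E0 F G MR Yg : ℝ) (Q : Eis → Prop)
      (al : Eis → ℂ) (hf : ℕ → ℝ → ℝ) (RN : ℕ → Eis → Eis → ℝ) (Sh : ℝ → ℝ → ℝ → ℝ),
      1 ≤ Y → Y ≤ Z ^ B₂ → 0 ≤ Y₁ → Y₁ ≤ Z → Real.exp 2 * c * Y₁ ≤ Z ^ B₂ → 0 < E0 → E0 ≤ Z →
      0 ≤ F → 0 ≤ MR → 3 * e ≤ k → JBc Y (Real.exp 2 * c * Y₁) F J Sh al →
      Adm Y (Real.exp p) R0 al →
      (∀ i ∈ LI Y₀ Y₁, ∀ x y, hf i x ≤ hf i y + Lh * |x - y|) →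
      (∀ i ∈ LI Y₀ Y₁, ∀ δ : ℝ, 0 ≤ δ → 2 * δ ≤ Real.log Y₁ →
        LnF Sh k i (hf i δ) p (Real.log E0) δ (Real.log c + 1) e G) →
      (∀ i ∈ LI Y₀ Y₁, ∀ d ∈ (JW D Y₀ Y₁).image Prod.fst, ∀ f ∈ (S E0).filter Q,
        FH (Real.exp k) (Real.exp (hf i (Real.log (nm d)))) (Real.exp i) * RN i d f ≤
          MR / (nm d * nm f)) →
      ∑ f ∈ (S E0).filter Q, ∑ i ∈ LI Y₀ Y₁, ∑ d ∈ (JW D Y₀ Y₁).image Prod.fst,
        (nm f : ℝ)⁻¹ * LVn (fun d _ n => al (d * n)) {d} {f} c Yg (Real.exp k)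
          (Real.exp (hf i (Real.log (nm d)))) (Real.exp i) (Real.exp i) (Real.exp e) 1 1
          (RN i d f) ≤ C * Z ^ ε * (F * Real.exp G + MR) := by
  obtain ⟨C₁, hC₁, H₁⟩ := tf_lines hR0 (half_pos hε) hJ (by linarith : 0 < B₂) hLh c hc
  obtain ⟨C₂, hC₂, H₂⟩ := log_pow2 (half_pos hε)
  refine ⟨(2 + 1 / (ε / 2)) * (C₁ + C₂), by positivity, ?_⟩
  intro Z hZ D Y₀ Y₁ Y k e p E0 F G MR Yg Q al hf RN Sh hY1 hYu hY10 hY1Z hWX hE0 hE0Z hF hMR hk
    hjb hadm hlip hln hrn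
  have hZ0 : 0 < Z := by linarith
  have hc0 : 0 < c := by linarith
  have hZB : Z ≤ Z ^ B₂ := by
    have := Real.rpow_le_rpow_of_exponent_le (by linarith : (1 : ℝ) ≤ Z) hB₂
    rwa [Real.rpow_one] at this
  set Ds := (JW D Y₀ Y₁).image Prod.fst with hDsd
  have hDs : ∀ d ∈ Ds, IsPrim d ∧ (nm d : ℝ) ≤ Z ∧ 0 ≤ Real.log (nm d) ∧
      2 * Real.log (nm d) ≤ Real.log Y₁ ∧ d ∈ S Z := by
    intro d hd
    obtain ⟨h1, h2, h3, h4⟩ := JW_fst hd
    have h5 : (nm d : ℝ) ≤ Z := by nlinarith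
    refine ⟨h1, h5, Real.log_nonneg h3, ?_, (mem_S hZ0.le).mpr ⟨h5, h1, h2⟩⟩
    have := Real.log_le_log (by positivity) h4
    rw [Real.log_pow] at this
    exact_mod_cast this
  have hEE : ∀ f ∈ (S E0).filter Q, f ∈ S E0 := fun f hf => (mem_filter.mp hf).1
  have hlev : ∀ i ∈ LI Y₀ Y₁, ∑ d ∈ Ds, ∑ f ∈ (S E0).filter Q,
      (nm f : ℝ)⁻¹ * LVn (fun d _ n => al (d * n)) {d} {f} c Yg (Real.exp k)
          (Real.exp (hf i (Real.log (nm d)))) (Real.exp i) (Real.exp i) (Real.exp e) 1 1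
          (RN i d f) ≤ (C₁ + C₂) * Z ^ (ε / 2) * (F * Real.exp G + MR) := by
    intro i hi
    obtain ⟨-, -, hi3⟩ := mem_LI hi
    have hW : Real.exp 1 * c * Real.exp i ≤ Real.exp 2 * c * Y₁ := by
      have e2 : Real.exp 2 = Real.exp 1 * Real.exp 1 := by rw [← Real.exp_add]; norm_num
      rw [e2]
      calc Real.exp 1 * c * Real.exp i ≤ Real.exp 1 * c * (Real.exp 1 * Y₁) := by gcongr
        _ = _ := by ring
    have k1 := H₁ Z hZ p Y i k e E0 F G Sh hY1 hYu (hW.trans hWX) hE0 (hE0Z.trans hZB) hF hk al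
      (hjb.mono hW) hadm Ds ((S E0).filter Q) (hf i) Yg (RN i) (hlip i hi)
      (fun d hd => ⟨(hDs d hd).1, (hDs d hd).2.1.trans hZB⟩) hEE
      (fun d hd => hln i hi _ (hDs d hd).2.2.1 (hDs d hd).2.2.2.1)
    have k2 := r_sum (by linarith : (1 : ℝ) ≤ Z) hE0Z hE0.le hMR
      (fun d hd => (hDs d hd).2.2.2.2) hEE (hrn i hi)
    have k3 := mul_le_mul_of_nonneg_left (H₂ Z (by linarith)) hMR
    refine k1.trans ((add_le_add le_rfl (k2.trans k3)).trans ?_)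
    have a1 : 0 ≤ C₂ * Z ^ (ε / 2) * (F * Real.exp G) := by positivity
    have a2 : 0 ≤ C₁ * Z ^ (ε / 2) * MR := by positivity
    nlinarith
  have hcard := card_LI Y₀ (by linarith : (1 : ℝ) ≤ Z) hY10 hY1Z (half_pos hε)
  have hsw : ∑ f ∈ (S E0).filter Q, ∑ i ∈ LI Y₀ Y₁, ∑ d ∈ Ds,
        (nm f : ℝ)⁻¹ * LVn (fun d _ n => al (d * n)) {d} {f} c Yg (Real.exp k)
          (Real.exp (hf i (Real.log (nm d)))) (Real.exp i) (Real.exp i) (Real.exp e) 1 1
          (RN i d f) = ∑ i ∈ LI Y₀ Y₁, ∑ d ∈ Ds, ∑ f ∈ (S E0).filter Q,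
        (nm f : ℝ)⁻¹ * LVn (fun d _ n => al (d * n)) {d} {f} c Yg (Real.exp k)
          (Real.exp (hf i (Real.log (nm d)))) (Real.exp i) (Real.exp i) (Real.exp e) 1 1
          (RN i d f) := by
    rw [sum_comm]
    exact sum_congr rfl fun i _ => sum_comm
  rw [hsw]
  have hFG : 0 ≤ F * Real.exp G + MR := by positivity
  calc _ ≤ ∑ i ∈ LI Y₀ Y₁, (C₁ + C₂) * Z ^ (ε / 2) * (F * Real.exp G + MR) :=
        sum_le_sum hlev
    _ = (LI Y₀ Y₁).card * ((C₁ + C₂) * Z ^ (ε / 2) * (F * Real.exp G + MR)) := by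
        rw [sum_const, nsmul_eq_mul]
    _ ≤ ((2 + 1 / (ε / 2)) * Z ^ (ε / 2)) * ((C₁ + C₂) * Z ^ (ε / 2) * (F * Real.exp G + MR)) :=
        mul_le_mul_of_nonneg_right hcard (by positivity)
    _ = _ := by
        have : Z ^ (ε / 2) * Z ^ (ε / 2) = Z ^ ε := by
          rw [← Real.rpow_add hZ0]; congr 1; ring
        rw [← this]; ring


end Crest.Agent.R017.ETf405
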