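import Crest.Agent.R017.P1D_176

/-!
# Row 17, R8: the diagonal of REST (helper702)

The part of the structured function which is not treated by E4: `e`-blocks `X^b` with
`4 b ≥ top - v` and `β`-blocks with `2 β ≥ top - v`, `top = min (2N-1) (3/4 N) + 9/4 x`, by the
plain second moment, target lowered by `3/4 x` as in `P1D176.MD`.

* `MDr`, `mdr` : the diagonal at an `e`-block of a child of length `p`
* the lines `R3D`, `T3D`, `TtD` of `P1D_176` hold for all levels `0 ≤ v ≤ vS`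
-/

set_option autoImplicit false

noncomputable section

namespace Crest.Agent.R017.RstR702

open Crest.Agent.R017.P1R904
open Crest.Agent.R017.P1F904 (Dp vS ChP l3_le l3_nonneg L0_ge vt_le vS_le)
open Crest.Agent.R017.P1E904 (DpW r3_leW)

/-- the level below which E4 works -/
def topN (N x : ℝ) : ℝ := min (2 * N - 1) (3 / 4 * N) + 9 / 4 * x

/-- the family of the `T`-numbers: parent family or own family -/
def KR (N l n z : ℝ) : ℝ := max (5 / 4 * N) (max (l + n / 2) (max (3 / 2 * l) (200 / 61 * z)))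

/-- **(M)** the diagonal of REST -/
def MDr : Prop := ∀ y₃ y₄ u x d p v b z t K : ℝ, DpW y₃ y₄ u x d →
  0 ≤ p → p ≤ y₃ + y₄ + u → 0 ≤ v → v ≤ topN (y₃ + y₄ + u) x → 0 ≤ b → b ≤ 1 / 64 → b ≤ p →
  (topN (y₃ + y₄ + u) x - v ≤ 4 * b ∨
    topN (y₃ + y₄ + u) x - v ≤ 2 * (y₃ + y₄ + u - p)) →
  z ≤ y₃ → K ≤ KR (y₃ + y₄ + u) (v + b) (p - b) z →
  t ≤ max (2 * (p - b)) (4 / 3 * (p - b) + (K + (v + b)) / 3) + 2 / 3 * d * (p - b) →
  2 / 3 - v / 3 - p / 3 - b + t ≤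
    1 + p - 3 / 4 * x + max 0 (5 / 4 * (y₃ + y₄ + u) - 1) + 3 / 4 * d

lemma topN_le {N x v : ℝ} (h : v ≤ topN N x) :
    v ≤ 2 * N - 1 + 9 / 4 * x ∧ v ≤ 3 / 4 * N + 9 / 4 * x := by
  unfold topN at h
  constructor
  · linarith [min_le_left (2 * N - 1) (3 / 4 * N)]
  · linarith [min_le_right (2 * N - 1) (3 / 4 * N)]

theorem mdr : MDr := by
  intro y₃ y₄ u x d p v b z t K hD p0 pn v0 hv b0 b1 bp hR hz hK ht
  obtain ⟨u4, y43, u0, hy3, N1, near, hx0, adm, d0, d1⟩ := hD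
  obtain ⟨hv1, hv2⟩ := topN_le hv
  have hL1 := le_max_left 0 (5 / 4 * (y₃ + y₄ + u) - 1)
  have hL2 := le_max_right 0 (5 / 4 * (y₃ + y₄ + u) - 1)
  generalize max 0 (5 / 4 * (y₃ + y₄ + u) - 1) = L at hL1 hL2 ⊢
  -- the loss in `d`
  have hd : 2 / 3 * d * (p - b) ≤ 2 / 3 * (102 / 125) * d := by
    nlinarith
  have hK' : K ≤ 1 + 6 * b - 9 / 4 * x + 3 * L + 3 / 8 * d := by
    refine hK.trans ?_
    unfold KR
    refine max_le ?_ (max_le ?_ (max_le ?_ ?_))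
    · rcases adm with ⟨a0, rfl | a1⟩ | ⟨a1, a2, a3⟩ <;> linarith
    · rcases adm with ⟨a0, rfl | a1⟩ | ⟨a1, a2, a3⟩ <;> linarith
    · rcases adm with ⟨a0, rfl | a1⟩ | ⟨a1, a2, a3⟩ <;> linarith
    · linarith
  rcases le_max_iff.1 (show t - 2 / 3 * d * (p - b) ≤ max (2 * (p - b))
    (4 / 3 * (p - b) + (K + (v + b)) / 3) by linarith) with h1 | h1
  · unfold topN at hR
    rcases le_total (2 * (y₃ + y₄ + u) - 1) (3 / 4 * (y₃ + y₄ + u)) with h | h
    · rw [min_eq_left h] at hR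
      rcases hR with hR | hR <;> rcases adm with ⟨a0, rfl | a1⟩ | ⟨a1, a2, a3⟩ <;> linarith
    · rw [min_eq_right h] at hR
      rcases hR with hR | hR <;> rcases adm with ⟨a0, rfl | a1⟩ | ⟨a1, a2, a3⟩ <;> linarith
  · linarith

end Crest.Agent.R017.RstR702
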