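import Crest.Agent.R017.P1Q_904
import Crest.Agent.R017.RstR_702

/-!
# Row 17, REST: the choice of `H(d)` for one natural triple, target lowered by `3/4 x` (helper702)

Second moment of one level `v ≤ min (2N-k) (3/4 N) + 9/4 x` of a natural triple of length `p ≤ N`
(no share), target `k + p + LR`, `LR = LQ - 3/4 x`. `l` = level, `n` = length of the child,
`b` = common divisor, `M = max 0 (b - k/64)`.
* `hS` : the exponent of `H`;  `tS` : the (T1)-line, `thS` : `H² V³ ≤ K²`;  `mS` : the diagonal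
* `coreR`, `coreR2` : the structured part, second form, `e ≤ k/64`
-/

set_option autoImplicit false
set_option linter.unusedVariables false

noncomputable section

namespace Crest.Agent.R017.RstQ702

open Crest.Agent.R017.RnP571 (Dh)
open Crest.Agent.R017.P1Q904

/-- the allowed loss, lowered by `3/4 x` -/
def LR (N k D x : ℝ) : ℝ := max 0 (5 / 4 * N - k) + 3 / 4 * D - 3 / 4 * x

/-- the shift -/
def XS (N k x : ℝ) : ℝ := 9 / 4 * x - 3 * max 0 (5 / 4 * N - k)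

/-- the exponent of `H` -/
def hS (k v p δ s : ℝ) : ℝ :=
  max (min (2 * v - 4 * δ - k + s) (max 0 (4 / 3 * (p - δ) - k + s))) (p - δ - k + s)

/-- the family -/
def K0 (l n z : ℝ) : ℝ := max (5 / 4 * n) (max (l + n / 2) (max (3 / 2 * l) (200 / 61 * z)))

/-- the number of the `T`-side (without the loss) -/
def tS (l n z : ℝ) : ℝ :=
  min (max (2 * n) (4 / 3 * n + (K0 l n z + l) / 3)) (max (l + 4 / 3 * n) (5 / 3 * n + l / 3))

lemma hS_ge (k v p δ s : ℝ) : p - δ - k + s ≤ hS k v p δ s ∧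
    (2 * v - 4 * δ - k + s ≤ hS k v p δ s ∨
      (0 ≤ hS k v p δ s ∧ 4 / 3 * (p - δ) - k + s ≤ hS k v p δ s)) := by
  unfold hS
  refine ⟨le_max_right _ _, ?_⟩
  rcases min_choice (2 * v - 4 * δ - k + s) (max 0 (4 / 3 * (p - δ) - k + s)) with h | h
  · left; rw [h]; exact le_max_left _ _
  · right; rw [h]
    exact ⟨(le_max_left _ _).trans (le_max_left _ _), (le_max_right _ _).trans (le_max_left _ _)⟩

lemma hS_le (k v p δ s : ℝ) :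
    (hS k v p δ s = p - δ - k + s) ∨
    (hS k v p δ s ≤ 2 * v - 4 * δ - k + s ∧
    (hS k v p δ s ≤ 0 ∨ hS k v p δ s ≤ 4 / 3 * (p - δ) - k + s)) := by
  unfold hS
  rcases le_total (min (2 * v - 4 * δ - k + s) (max 0 (4 / 3 * (p - δ) - k + s)))
    (p - δ - k + s) with h | h
  · left
    exact max_eq_right h
  · right
    rw [max_eq_left h]
    refine ⟨min_le_left _ _, ?_⟩
    rcases max_choice 0 (4 / 3 * (p - δ) - k + s) with h | h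
    · left; rw [h]; exact min_le_right _ _
    · right; rw [h]; exact min_le_right _ _

lemma tS_cases (l n z : ℝ) : (tS l n z ≤ l + 4 / 3 * n ∨ tS l n z ≤ 5 / 3 * n + l / 3) ∧
    (tS l n z ≤ 2 * n ∨ tS l n z ≤ 4 / 3 * n + (K0 l n z + l) / 3) := by
  unfold tS
  exact ⟨le_max_iff.1 (min_le_right _ _), le_max_iff.1 (min_le_left _ _)⟩

/-- the family is paid by the budget -/
lemma K0_le {k y₃ y₄ u x D t p v δ b l n z : ℝ} (hD : Dh k y₃ y₄ u x D)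
    (t0 : 0 ≤ t) (p1 : p ≤ y₃ + y₄ + u + t) (v1 : v ≤ 2 * (y₃ + y₄ + u) - k + 9 / 4 * x + t)
    (v2 : v ≤ 3 / 4 * (y₃ + y₄ + u) + 9 / 4 * x + t) (δ0 : 0 ≤ δ) (b0 : 0 ≤ b)
    (hl : l ≤ v - 2 * δ + b + t) (hn : n ≤ p - δ - b + t) (hz : z ≤ y₃ + t) :
    K0 l n z ≤ k + 3 / 2 * b - XS (y₃ + y₄ + u) k x + 3 / 8 * D + 5 * t := by
  obtain ⟨k0, u4, y43, u0, y3, N1, near, x0, adm, d0, d1⟩ := hD
  have hL1 := le_max_left 0 (5 / 4 * (y₃ + y₄ + u) - k)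
  have hL2 := le_max_right 0 (5 / 4 * (y₃ + y₄ + u) - k)
  unfold XS K0
  generalize max 0 (5 / 4 * (y₃ + y₄ + u) - k) = L at hL1 hL2 ⊢
  refine max_le ?_ (max_le ?_ (max_le ?_ ?_))
  · rcases adm with ⟨a0, rfl | a1⟩ | ⟨a1, a2, a3⟩ <;> linarith
  · rcases adm with ⟨a0, rfl | a1⟩ | ⟨a1, a2, a3⟩ <;> linarith
  · rcases adm with ⟨a0, rfl | a1⟩ | ⟨a1, a2, a3⟩ <;> linarith
  · linarith

/-- the loss of the claims -/
lemma loss_le {D k n p t : ℝ} (k0 : 0 < k) (D0 : 0 ≤ D) (D1 : D ≤ 1 / 40 * k) (t0 : 0 ≤ t)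
    (hn : n ≤ 102 / 125 * k + 2 * t) : 2 / 3 * (D / k) * n ≤ 2 / 3 * (102 / 125) * D + t := by
  have h1 : 0 ≤ D / k := by positivity
  have h2 : D / k ≤ 1 / 40 := by rw [div_le_iff₀ k0]; exact D1
  have h3 : D / k * k = D := by field_simp
  nlinarith [mul_le_mul_of_nonneg_left hn h1, mul_le_mul_of_nonneg_right h2 t0]

/-- **(T1)** at every level `l ≤ v - 2 δ + b` -/
theorem tS_le {k y₃ y₄ u x D t p v δ b l n z : ℝ} (hD : Dh k y₃ y₄ u x D)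
    (t0 : 0 ≤ t) (t1 : t ≤ k / 20000) (p1 : p ≤ y₃ + y₄ + u + t)
    (v1 : v ≤ 2 * (y₃ + y₄ + u) - k + 9 / 4 * x + t)
    (v2 : v ≤ 3 / 4 * (y₃ + y₄ + u) + 9 / 4 * x + t) (δ0 : 0 ≤ δ) (b0 : 0 ≤ b)
    (hl : l ≤ v - 2 * δ + b + t) (hn0 : 0 ≤ n) (hn : n ≤ p - δ - b + t) (hz : z ≤ y₃ + t) :
    2 / 3 * k - (hS k v p δ (XS (y₃ + y₄ + u) k x) + v) / 3 + (tS l n z + 2 / 3 * (D / k) * n) +
      2 * δ + (v - 2 * δ - (l - b)) / 3 - p / 3 ≤ k + p + LR (y₃ + y₄ + u) k D x + 10 * t := by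
  have hK := K0_le hD t0 p1 v1 v2 δ0 b0 hl hn hz
  obtain ⟨h1, h2⟩ := hS_ge k v p δ (XS (y₃ + y₄ + u) k x)
  obtain ⟨hT1, hT2⟩ := tS_cases l n z
  obtain ⟨k0, u4, y43, u0, y3, N1, near, x0, adm, d0, d1⟩ := hD
  have hloss := loss_le k0 d0 d1 t0 (show n ≤ 102 / 125 * k + 2 * t by linarith) (p := p)
  unfold LR
  unfold XS at *
  generalize hS k v p δ (9 / 4 * x - 3 * max 0 (5 / 4 * (y₃ + y₄ + u) - k)) = h at *
  generalize K0 l n z = K at *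
  generalize tS l n z = T at *
  generalize max 0 (5 / 4 * (y₃ + y₄ + u) - k) = L at *
  rcases hT1 with hT1 | hT1
  swap
  · linarith
  rcases h2 with h2 | ⟨h2, h3⟩
  · linarith
  · rcases hT2 with hT2 | hT2 <;> linarith

/-- `H² V³ ≤ K²` -/
theorem thS {k y₃ y₄ u x D t p v δ : ℝ} (hD : Dh k y₃ y₄ u x D)
    (t0 : 0 ≤ t) (t1 : t ≤ k / 20000) (p1 : p ≤ y₃ + y₄ + u + t)
    (v1 : v ≤ 2 * (y₃ + y₄ + u) - k + 9 / 4 * x + t)
    (v2 : v ≤ 3 / 4 * (y₃ + y₄ + u) + 9 / 4 * x + t) (δ0 : 0 ≤ δ) :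
    2 * hS k v p δ (XS (y₃ + y₄ + u) k x) + 3 * v + k / 100 ≤ 2 * k := by
  have hh := hS_le k v p δ (XS (y₃ + y₄ + u) k x)
  obtain ⟨k0, u4, y43, u0, y3, N1, near, x0, adm, d0, d1⟩ := hD
  have hL1 := le_max_left 0 (5 / 4 * (y₃ + y₄ + u) - k)
  have hL2 := le_max_right 0 (5 / 4 * (y₃ + y₄ + u) - k)
  unfold XS at *
  generalize hS k v p δ (9 / 4 * x - 3 * max 0 (5 / 4 * (y₃ + y₄ + u) - k)) = h at *
  generalize max 0 (5 / 4 * (y₃ + y₄ + u) - k) = L at *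
  rcases hh with hh | ⟨hh1, hh2⟩
  · rcases adm with ⟨a0, rfl | a1⟩ | ⟨a1, a2, a3⟩ <;> linarith
  · rcases hh2 with hh2 | hh2 <;> rcases adm with ⟨a0, rfl | a1⟩ | ⟨a1, a2, a3⟩ <;> linarith

/-- **(M)** the diagonal: `4 b ≥ top - v` or `2 (N - p) ≥ top - v` -/
theorem mS_le {k y₃ y₄ u x D t p v δ b l n z : ℝ} (hD : Dh k y₃ y₄ u x D)
    (t0 : 0 ≤ t) (t1 : t ≤ k / 20000) (p1 : p ≤ y₃ + y₄ + u + t)
    (v1 : v ≤ 2 * (y₃ + y₄ + u) - k + 9 / 4 * x + t)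
    (v2 : v ≤ 3 / 4 * (y₃ + y₄ + u) + 9 / 4 * x + t) (δ0 : 0 ≤ δ) (b0 : 0 ≤ b)
    (hR : min (2 * (y₃ + y₄ + u) - k) (3 / 4 * (y₃ + y₄ + u)) + 9 / 4 * x - v ≤ 4 * b + t ∨
      min (2 * (y₃ + y₄ + u) - k) (3 / 4 * (y₃ + y₄ + u)) + 9 / 4 * x - v ≤
        2 * (y₃ + y₄ + u - p) + t)
    (hl : l ≤ v - 2 * δ + b + t) (hn0 : 0 ≤ n) (hn : n ≤ p - δ - b + t) (hz : z ≤ y₃ + t) :
    2 / 3 * k - v / 3 + (tS l n z + 2 / 3 * (D / k) * n) + 2 * δ - p / 3 ≤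
      k + p + LR (y₃ + y₄ + u) k D x + 10 * t := by
  have hK := K0_le hD t0 p1 v1 v2 δ0 b0 hl hn hz
  obtain ⟨hT1, hT2⟩ := tS_cases l n z
  obtain ⟨k0, u4, y43, u0, y3, N1, near, x0, adm, d0, d1⟩ := hD
  have hloss := loss_le k0 d0 d1 t0 (show n ≤ 102 / 125 * k + 2 * t by linarith) (p := p)
  have hL1 := le_max_left 0 (5 / 4 * (y₃ + y₄ + u) - k)
  have hL2 := le_max_right 0 (5 / 4 * (y₃ + y₄ + u) - k)
  unfold LR
  unfold XS at *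
  generalize K0 l n z = K at *
  generalize tS l n z = T at *
  generalize max 0 (5 / 4 * (y₃ + y₄ + u) - k) = L at *
  rcases hT2 with hT2 | hT2
  · rcases le_total (2 * (y₃ + y₄ + u) - k) (3 / 4 * (y₃ + y₄ + u)) with h | h
    · rw [min_eq_left h] at hR
      rcases hR with hR | hR <;> rcases adm with ⟨a0, rfl | a1⟩ | ⟨a1, a2, a3⟩ <;> linarith
    · rw [min_eq_right h] at hR
      rcases hR with hR | hR <;> rcases adm with ⟨a0, rfl | a1⟩ | ⟨a1, a2, a3⟩ <;> linarith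
  · linarith

set_option maxHeartbeats 8000000 in
/-- **the structured part, second form** (`w = log (H V)`, `S` bounds the smallest lump) -/
lemma coreR {k y₃ y₄ u x D t p v w δ e i n S : ℝ} (hD : Dh k y₃ y₄ u x D) (t0 : 0 ≤ t)
    (t1 : t ≤ k / 20000) (p1 : p ≤ y₃ + y₄ + u + t)
    (v1 : v ≤ 2 * (y₃ + y₄ + u) - k + 9 / 4 * x + t)
    (v2 : v ≤ 3 / 4 * (y₃ + y₄ + u) + 9 / 4 * x + t)
    (hw : w ≤ v + hS k v p δ (XS (y₃ + y₄ + u) k x) + t) (hL : 0 ≤ w + v - k - δ + t)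
    (δ0 : 0 ≤ δ) (e0 : 0 ≤ e) (e1 : e ≤ k / 64 + t)
    (hn : n ≤ p - δ - e + t) (i0 : 0 ≤ i)
    (hi : i ≤ w + p - k + t) (s1 : S ≤ u + t) (s2 : 3 * S ≤ n)
    (s3 : 2 * S ≤ i) :
    2 / 3 * k - w / 3 + 5 / 3 * δ + 2 * e + gQ (w + v - k - δ) (w + p - k) + 2 / 3 * (p - δ) +
      (i + 3 / 4 * S + 61 / 100 * D) + (w + p - k - i) / 3 + k / 200 ≤
      k + p + LR (y₃ + y₄ + u) k D x := by
  have hh := hS_le k v p δ (XS (y₃ + y₄ + u) k x)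
  have hg := gQ_cases (w + v - k - δ) (w + p - k)
  have hL1 := le_max_left 0 (5 / 4 * (y₃ + y₄ + u) - k)
  have hL2 := le_max_right 0 (5 / 4 * (y₃ + y₄ + u) - k)
  unfold LR
  unfold XS at *
  generalize hS k v p δ (9 / 4 * x - 3 * max 0 (5 / 4 * (y₃ + y₄ + u) - k)) = h at *
  generalize max 0 (5 / 4 * (y₃ + y₄ + u) - k) = L at *
  generalize gQ (w + v - k - δ) (w + p - k) = g at *
  obtain ⟨k0, u4, y43, u0, y3, N1, near, x0, adm, d0, d1⟩ := hD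
  rcases hg with rfl | rfl | rfl | rfl <;> rcases hh with hh | ⟨hh1, hh2 | hh2⟩ <;>
    rcases adm with ⟨a0, rfl | a1⟩ | ⟨a1, a2, a3⟩ <;> linarith

set_option maxHeartbeats 8000000 in
/-- the principal part -/
lemma coreR2 {k y₃ y₄ u x D t p v w δ e : ℝ} (hD : Dh k y₃ y₄ u x D) (t0 : 0 ≤ t)
    (t1 : t ≤ k / 20000) (p0 : k / 2 - 2 * x - t ≤ p) (p1 : p ≤ y₃ + y₄ + u + t)
    (v1 : v ≤ 2 * (y₃ + y₄ + u) - k + 9 / 4 * x + t)
    (v2 : v ≤ 3 / 4 * (y₃ + y₄ + u) + 9 / 4 * x + t)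
    (hw : w ≤ v + hS k v p δ (XS (y₃ + y₄ + u) k x) + t) (hL : 0 ≤ w + v - k - δ + t)
    (δ0 : 0 ≤ δ) (e0 : 0 ≤ e) (e1 : e ≤ k / 64 + t) :
    2 / 3 * k - w / 3 + 5 / 3 * δ + 2 * e + gQ (w + v - k - δ) (w + p - k) + 2 / 3 * (p - δ) +
      max 0 ((w + p - k) / 3) + k / 200 ≤ k + p + LR (y₃ + y₄ + u) k D x := by
  have hh := hS_le k v p δ (XS (y₃ + y₄ + u) k x)
  have hg := gQ_cases (w + v - k - δ) (w + p - k)
  have hL1 := le_max_left 0 (5 / 4 * (y₃ + y₄ + u) - k)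
  have hL2 := le_max_right 0 (5 / 4 * (y₃ + y₄ + u) - k)
  unfold LR
  unfold XS at *
  generalize hS k v p δ (9 / 4 * x - 3 * max 0 (5 / 4 * (y₃ + y₄ + u) - k)) = h at *
  generalize max 0 (5 / 4 * (y₃ + y₄ + u) - k) = L at *
  generalize gQ (w + v - k - δ) (w + p - k) = g at *
  have h0 : max 0 ((w + p - k) / 3) = 0 ∨ max 0 ((w + p - k) / 3) = (w + p - k) / 3 :=
    max_choice _ _
  obtain ⟨k0, u4, y43, u0, y3, N1, near, x0, adm, d0, d1⟩ := hD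
  rcases h0 with h0 | h0 <;> rw [h0] <;>
  rcases hg with rfl | rfl | rfl | rfl <;> rcases hh with hh | ⟨hh1, hh2 | hh2⟩ <;>
    rcases adm with ⟨a0, rfl | a1⟩ | ⟨a1, a2, a3⟩ <;> linarith

end Crest.Agent.R017.RstQ702
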