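import Crest.Agent.R017.RnPe_571
import Crest.Agent.R017.RstQ_702

/-!
# Row 17, REST: the `R`-half for the triples without amplifier (helper405)

* `lnr_S` : helper702's lines `coreR`, `coreR2` give the real line `LnR`
* **`rn2_S`** : helper571's `rn2_Q` with the exponent `hS` of `H` and the target with `LR`
-/

set_option autoImplicit false
set_option linter.unusedVariables false

noncomputable section

open Finset

namespace Crest.Agent.R017.RnS405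

open Crest.Agent.R012 Crest.Agent.R012.Eis
open Crest.Agent.R012.LS2 (S mem_S bl mem_bl)
open Crest.Agent.R017.FE47 (PU SM)
open Crest.Agent.R017.CM106
open Crest.Agent.R017.XG702 (Pcs BG)
open Crest.Agent.R017.Prov71
open Crest.Agent.R017.B770
open Crest.Agent.R017.ER911 Crest.Agent.R017.ExpC702
open Crest.Agent.R017.XPD571 (RP0)
open Crest.Agent.R017.HP842 (Pc pc sqc al alL)
open Crest.Agent.R017.E5B71 (Pt)
open Crest.Agent.R017.RM986 (Plain)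
open Crest.Agent.R017.R3571 (RMm)
open Crest.Agent.R017.Mode405 (Slp)
open Crest.Agent.R017.PX764 (n6)
open Crest.Agent.R017.E3Z548 (FH)
open Crest.Agent.R017.E3Sz579 (Ld Md)
open Crest.Agent.R017.E3Hf290 (RN2F)
open Crest.Agent.R017.TM708 (PD)
open Crest.Agent.R017.I1146 (LN)
open Crest.Agent.R017.P1Q904 (gQ)
open Crest.Agent.R017.RnP571
open Crest.Agent.R017.RstQ702 (LR XS hS coreR coreR2)

set_option maxHeartbeats 1600000 in
/-- **the real line** -/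
theorem lnr_S {d k k' y₃ y₄ u x t p v h δ e z₁ z₂ z₃ w : ℝ} (hD : Dh k y₃ y₄ u x (d * k))
    (t0 : 0 ≤ t) (t1 : t ≤ k / 80000) (hk : |k' - k| ≤ t) (p0 : k / 2 - 2 * x - t ≤ p)
    (p1 : p ≤ y₃ + y₄ + u + 4 * t) (v1 : v ≤ 2 * (y₃ + y₄ + u) - k + 9 / 4 * x + t)
    (v2 : v ≤ 3 / 4 * (y₃ + y₄ + u) + 9 / 4 * x + t)
    (hh : h ≤ hS k v p δ (XS (y₃ + y₄ + u) k x) + t) (hL : 0 ≤ h + 2 * v - k' - δ)
    (δ0 : 0 ≤ δ) (e0 : 0 ≤ e) (e1 : e ≤ k / 64 + t) (z3 : z₃ ≤ u + t) (w1 : w ≤ t) :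
    LnR (EN d) g2 (k + p + LR (y₃ + y₄ + u) k (d * k) x) k' v h p δ e z₁ z₂ z₃ w t := by
  obtain ⟨hkk, hkk'⟩ := abs_le.1 hk
  have hk0 := hD.k0
  have hdk := hD.d0
  have hd0 : 0 ≤ d := by
    by_contra h0
    push Not at h0
    nlinarith
  set s : ℝ := k' - k with hs
  set W : ℝ := v + h - s with hW
  have a1 : h + 2 * v - k' - δ = W + v - k - δ := by rw [hW, hs]; ring
  have a2 : p + v + h - k' = W + p - k := by rw [hW, hs]; ring
  have hg : g2 (h + 2 * v - k' - δ) (p + v + h - k') = gQ (W + v - k - δ) (W + p - k) := by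
    rw [g2_eq, a1, a2]
  have hNn : Nn g2 k' v h p δ e = 2 / 3 * k - W / 3 + 5 / 3 * δ + 2 * e +
      gQ (W + v - k - δ) (W + p - k) + 2 / 3 * (p - δ) + s / 3 := by
    unfold Nn
    rw [hg, hW, hs]
    ring
  have t4 : 4 * t ≤ k / 20000 := by linarith
  have t40 : 0 ≤ 4 * t := by linarith
  have b1 : k / 2 - 2 * x - 4 * t ≤ p := by linarith
  have b2 : v ≤ 2 * (y₃ + y₄ + u) - k + 9 / 4 * x + 4 * t := by linarith
  have b3 : v ≤ 3 / 4 * (y₃ + y₄ + u) + 9 / 4 * x + 4 * t := by linarith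
  have b4 : W ≤ v + hS k v p δ (XS (y₃ + y₄ + u) k x) + 4 * t := by
    rw [hW]; linarith
  have b5 : 0 ≤ W + v - k - δ + 4 * t := by rw [← a1]; linarith
  have b6 : e ≤ k / 64 + 4 * t := by linarith
  have core2 := coreR2 hD t40 t4 b1 p1 b2 b3 b4 b5 δ0 e0 b6
  refine ⟨?_, ?_⟩
  · have h2 : 0 ≤ max 0 ((W + p - k) / 3) := le_max_left _ _
    rw [hNn]
    linarith
  · intro i q₁ q₂ q₃ x' i0 hi q10 q1 q20 q2 q30 q3 x0' x1 hn
    rw [hNn, a2]
    rw [a2] at hi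
    unfold EN
    have hx1 : x' ≤ 2 * t := by linarith
    have hn' : q₁ + q₂ + q₃ + x' ≤ p - δ - e + 4 * t := by linarith
    have hi' : i ≤ W + p - k + 4 * t := by linarith
    have key1 : RM986.r3 d i q₁ q₂ q₃ 0 x' + (W + p - k - i) / 3 +
        (2 / 3 * k - W / 3 + 5 / 3 * δ + 2 * e + gQ (W + v - k - δ) (W + p - k) +
          2 / 3 * (p - δ) + s / 3) ≤
        k + p + LR (y₃ + y₄ + u) k (d * k) x + (q₁ + q₂ + q₃ + x') := by
      have h1 := RM986.r3_le_P1 (d := d) (m := 0) (a := x') i0 q10 q20 q30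
      set ζ₁ := min q₁ i
      set ζ₂ := min q₂ i
      set ζ₃ := min q₃ i
      have c1 : ζ₁ ≤ q₁ := min_le_left _ _
      have c2 : ζ₂ ≤ q₂ := min_le_left _ _
      have c3 : ζ₃ ≤ q₃ := min_le_left _ _
      obtain ⟨l1, l2, l3, l4, l5, l6⟩ := P1F904.l3_le i ζ₁ ζ₂ ζ₃
      unfold P1R904.r3 at h1
      rw [zero_add] at h1
      generalize P1R904.l3 i ζ₁ ζ₂ ζ₃ = l at h1 l1 l2 l3 l4 l5 l6
      have hS : l + x' ≤ 305 / 1000 * k := by
        obtain ⟨k0, u4, y43, u0, y3, N1, near, x0, adm, d0, d1⟩ := hD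
        linarith
      have hdS : (3 / 4 + 2 * d) * (l + x') ≤ 3 / 4 * (l + x') + 61 / 100 * (d * k) := by
        have := mul_le_mul_of_nonneg_left hS hd0
        nlinarith
      have key := coreR (S := l) (i := i) (n := q₁ + q₂ + q₃ + x') hD t40 t4 p1 b2
        b3 b4 b5 δ0 e0 b6 hn' i0 hi' (by linarith) (by linarith) (by linarith)
      linarith
    have key2 : i / 3 + 2 * x' + 2 * (7 / 8 + d) * 0 + (W + p - k - i) / 3 +
        (2 / 3 * k - W / 3 + 5 / 3 * δ + 2 * e + gQ (W + v - k - δ) (W + p - k) +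
          2 / 3 * (p - δ) + s / 3) ≤
        k + p + LR (y₃ + y₄ + u) k (d * k) x + (q₁ + q₂ + q₃ + x') := by
      have h2 : (W + p - k) / 3 ≤ max 0 ((W + p - k) / 3) := le_max_right _ _
      linarith
    rcases max_choice (RM986.r3 d i q₁ q₂ q₃ 0 x') (i / 3 + 2 * x' + 2 * (7 / 8 + d) * 0) with
      h0 | h0 <;> rw [h0]
    · exact key1
    · exact key2

section

variable {Λ : Type*} {π : Λ → DPar} {h : ℝ → ℝ}

/-- **(RH) and the number of the structured part**, `H (d, e)` at most `exp hS` where the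
structured part is not empty -/
theorem rn2_S {c₀ : ℝ} (hpu : PU h c₀) (hP : ∀ lam, (π lam).OK) {s : EF} {dd : ℝ}
    (R : ExpRules (7 / 8 + dd) (ex Dq (fun lam => Rp (π lam) h)) s)
    (hcolP : ∀ (i : ℝ) (u : List ℝ) (m a : ℝ), 0 ≤ i → Okl u m a →
      BG Dq (RP0 π h) i u (wt m a) (2 * a + 2 * (7 / 8 + dd) * m)) (hd : 0 ≤ dd)
    (hd8 : dd ≤ 1 / 8) {ε : ℝ} (hε : 0 < ε) (hε1 : ε ≤ 1 / 160000) :
    ∃ τ : ℝ, 0 < τ ∧ τ ≤ ε ∧ ∀ (lam : Λ) (t : Eis), t ≠ 0 → ∀ (B : ℝ),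
      ∃ (M a A₀ : ℕ), 1 ≤ a ∧ ∀ c : ℝ, 1 ≤ c → ∃ X₀ : ℝ, 1 < X₀ ∧ ∀ X : ℝ, X₀ ≤ X →
      ∀ (b : Fin 5 → ℝ) (q : Eis) (us : Fin 3 → Pq) (κ H : ℝ),
      PD X τ B H 0 b q us [] κ → Dh (b 0) (b 1) (b 2) (b 3) (b 4) (dd * b 0) → 1 / 2 ≤ b 0 →
      b 0 ≤ 2 → (b 0 / 2 - 2 * b 4 - ε) * Real.log X ≤ LN [us 0, us 1, us 2] →
      ∀ (K V : ℝ) (Hf : Eis → Eis → ℝ), 0 < K → 0 < V → (∀ d e, 0 < Hf d e) →
      |Real.log K - b 0 * Real.log X| ≤ ε * Real.log X →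
      Real.log V ≤ (min (2 * (b 1 + b 2 + b 3) - b 0) (3 / 4 * (b 1 + b 2 + b 3)) +
        9 / 4 * b 4 + ε) * Real.log X →
      ∀ Pr : Eis → Eis → Prop,
      (∀ d e, Pr d e → IsPrim d ∧ IsPrim e ∧ (nm d : ℝ) ≤ X ^ B ∧ (nm e : ℝ) ≤ X ^ B) →
      (∀ d e, Pr d e → Real.log (nm e) ≤ (b 0 / 64 + ε) * Real.log X) →
      (∀ d e, Pr d e → Real.exp (LN [us 0, us 1, us 2]) * V * Hf d e / K ≤ X ^ (8 : ℝ)) →
      (∀ d e, Pr d e → 1 ≤ Ld K V (Hf d e) d →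
        Real.log (Hf d e) ≤ (hS (b 0) (Real.log V / Real.log X)
          (LN [us 0, us 1, us 2] / Real.log X) (Real.log (nm d) / Real.log X)
          (XS (b 1 + b 2 + b 3) (b 0) (b 4)) + ε) * Real.log X) →
      ∃ W0 : Eis → Eis → ℝ → ℝ, (∀ d e, Slp a (W0 d e)) ∧
      (∀ A : ℕ, A₀ ≤ A → ∀ d e, Pr d e → ∀ γ φ, IsPrim γ → IsPrim φ → (nm φ : ℝ) ≤ X ^ B →
        ∀ P : ℝ, 0 < P → (nm γ : ℝ) * n6 γ ^ 2 * ∑ k ∈ bl P, RMm A (fun j =>
            sqc q (alL h ([us 0, us 1, us 2].map (Pt (π lam) t))) (d * j)) e γ φ k ≤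
          W0 d e P) ∧
      ∀ d e, Pr d e →
        FH K (Hf d e) V * RN2F c K V (Real.exp (LN [us 0, us 1, us 2])) Hf W0 d e ≤
        H ^ M * X ^ (b 0 + LN [us 0, us 1, us 2] / Real.log X +
          LR (b 1 + b 2 + b 3) (b 0) (dd * b 0) (b 4) + ε) / (nm d * nm e) := by
  have PL : Plain (fun _ k => k ≠ 0) π h ((8 : ℝ) + 2) (EN dd) :=
    RM986.rm_RF hpu hP R hcolP hd hd8 _
  have hcE : Continuous (fun q : (Fin 4 → ℝ) × (Kd → ℝ) =>
      EN dd (q.1 0) (q.1 1) (q.1 2) (q.1 3) (q.2 .mo) (q.2 .am)) := RM986.cont_E3c dd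
  obtain ⟨τ, hτ0, hτε, HR⟩ := rn2_pd hpu hP (Kc := 8) (by norm_num) PL hcE hε (by linarith)
  refine ⟨τ, hτ0, hτε, fun lam t ht B => ?_⟩
  obtain ⟨M, a, A₀, ha, HR⟩ := HR lam t ht 0 B
  refine ⟨M, a, A₀, ha, fun c hc => ?_⟩
  obtain ⟨X₁, hX₁, HR⟩ := HR c hc
  refine ⟨X₁, hX₁, ?_⟩
  intro X hX b q us κ H hPD hD hb0 hb02 hp0 K V Hf hK hV hHf hKb hVb Pr hPr he hsz hHQ
  have hX1 : 1 < X := by linarith
  have hL : 0 < Real.log X := Real.log_pos hX1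
  set L := Real.log X with hLd
  have hbi : ∀ i, b i + τ ≤ 8 := by
    obtain ⟨k0, u4, y43, u0, y3, N1, near, x0, adm, d0, d1⟩ := hD
    have hu0 : 0 ≤ b 3 := by linarith
    intro i
    fin_cases i
    · show b 0 + τ ≤ 8; linarith
    · show b 1 + τ ≤ 8; linarith
    · show b 2 + τ ≤ 8; linarith
    · show b 3 + τ ≤ 8; linarith
    · show b 4 + τ ≤ 8; linarith
  have hn : LN [us 0, us 1, us 2] = (us 0).z + (us 1).z + (us 2).z := by
    unfold I1146.LN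
    simp only [List.map_cons, List.sum_cons, List.map_nil, List.sum_nil]
    ring
  have hnil : LN ([] : List Pq) = 0 := by
    unfold I1146.LN
    simp
  set p : ℝ := LN [us 0, us 1, us 2] / L with hp
  set v : ℝ := Real.log V / L with hv
  have hpL : p * L = LN [us 0, us 1, us 2] := div_mul_cancel₀ _ hL.ne'
  have g1 : b 0 / 2 - 2 * b 4 - ε ≤ p := by
    rw [hp, le_div_iff₀ hL]; exact hp0
  have g2' : p ≤ b 1 + b 2 + b 3 + 4 * ε := by
    rw [hp, div_le_iff₀ hL, hn]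
    have h1 := hPD.z1
    have h2 := hPD.z2
    have h3 := hPD.z3
    have h5 : τ * L ≤ ε * L := mul_le_mul_of_nonneg_right hτε hL.le
    have h6 : 0 ≤ ε * L := by positivity
    linarith
  have g3 : v ≤ min (2 * (b 1 + b 2 + b 3) - b 0) (3 / 4 * (b 1 + b 2 + b 3)) + 9 / 4 * b 4 +
      ε := by
    rw [hv, div_le_iff₀ hL]; exact hVb
  have g4 : v ≤ 2 * (b 1 + b 2 + b 3) - b 0 + 9 / 4 * b 4 + ε := by
    have := min_le_left (2 * (b 1 + b 2 + b 3) - b 0) (3 / 4 * (b 1 + b 2 + b 3))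
    linarith
  have g5 : v ≤ 3 / 4 * (b 1 + b 2 + b 3) + 9 / 4 * b 4 + ε := by
    have := min_le_right (2 * (b 1 + b 2 + b 3) - b 0) (3 / 4 * (b 1 + b 2 + b 3))
    linarith
  have g6 : |Real.log K / L - b 0| ≤ ε := by
    have e1 : Real.log K / L - b 0 = (Real.log K - b 0 * L) / L := by field_simp
    rw [e1, abs_div, abs_of_pos hL, div_le_iff₀ hL]
    exact hKb
  refine HR X hX b q us [] κ H hPD hbi K V Hf (fun _ _ => b 0 + p +
    LR (b 1 + b 2 + b 3) (b 0) (dd * b 0) (b 4)) hK hV hHf Pr hPr hsz ?_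
  intro d e hde h1
  obtain ⟨pd, pe, hdB, ne⟩ := hPr d e hde
  have nd1 : (1 : ℝ) ≤ nm d := by exact_mod_cast nm_pos.2 pd.ne_zero
  have ne1 : (1 : ℝ) ≤ nm e := by exact_mod_cast nm_pos.2 pe.ne_zero
  have hHf0 := hHf d e
  show LnR (EN dd) g2 (b 0 + p + LR (b 1 + b 2 + b 3) (b 0) (dd * b 0) (b 4))
    (Real.log K / L) v (Real.log (Hf d e) / L) p (Real.log (nm d) / L) (Real.log (nm e) / L)
    ((us 0).z / L) ((us 1).z / L) ((us 2).z / L) (LN ([] : List Pq) / L) ε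
  refine lnr_S hD hε.le (by linarith) g6 g1 g2' g4 g5 ?_ ?_
    (div_nonneg (Real.log_nonneg nd1) hL.le) (div_nonneg (Real.log_nonneg ne1) hL.le) ?_ ?_ ?_
  · rw [div_le_iff₀ hL]
    exact hHQ d e hde h1
  · have h2 := Real.log_nonneg h1
    rw [log_Ld hK hV hHf0 pd.ne_zero] at h2
    unfold lL at h2
    have e1 : Real.log (Hf d e) / L + 2 * v - Real.log K / L - Real.log (nm d) / L =
        (Real.log (Hf d e) + 2 * Real.log V - Real.log K - Real.log (nm d)) / L := by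
      rw [hv]; ring
    rw [e1]
    exact div_nonneg h2 hL.le
  · rw [div_le_iff₀ hL]
    exact he d e hde
  · rw [div_le_iff₀ hL]
    have h5 : τ * L ≤ ε * L := mul_le_mul_of_nonneg_right hτε hL.le
    have := hPD.z3
    linarith
  · rw [hnil, zero_div]
    exact hε.le

end

end Crest.Agent.R017.RnS405
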