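import Crest.Agent.R017.E2q_440

/-!
# Row 17, block C70, leaf E2, part r (helper440): general coefficients, general approximants

* `StT E0 J om T k` : the structured function with arbitrary coefficients `T x e`
* `TOK T` : `T x e ≠ 0` implies `(x.2, x.1) = (x.2, e) = (e, x.1) = 1`
* `APX` : approximants of `VV`; `AX Ap x e` their sum; `QsG` the sums of squares
* `E2finG` : the cross form minus `AX`
-/

set_option autoImplicit false
set_option linter.unusedVariables false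
set_option linter.unusedSectionVars false

noncomputable section

open Complex MeasureTheory
open scoped ComplexConjugate

namespace Crest.Agent.R017.E2440

open Crest.Agent.R012 Crest.Agent.R012.Eis Crest.Agent.R012.GaussLoc283
open Crest.Agent.R012.Mob705 hiding pb mem_pb
open Crest.Agent.R012.Div277
open Crest.Agent.R012.LS2 (S mem_S)
open Crest.Agent.R017.Sx545 (Sm sm_one_iff)
open Crest.Agent.R017.PX764 (th Gh n6 cD)
open Crest.Agent.R017.F1
open Crest.Agent.R017.X6C180 (Sg fA cM n13 GF)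
open Crest.Agent.R017.X6545 (TF Bd)
open Crest.Agent.R017.X6W180 (TF1 tf1_tf)
open Crest.Agent.R017.CM106 (CS FS sub)
open Crest.Agent.R017.C70 (JC CbF OKJ)
open Crest.Agent.R017.GrB829 (IsC)

/-- the structured function with arbitrary coefficients -/
def StT (E0 : ℝ) (J : Finset (Eis × Eis)) (om : Eis × Eis → ℂ) (T : Eis × Eis → Eis → ℂ)
    (k : Eis) : ℂ := by
  classical
  exact ∑ x ∈ J, om x * (sy k x.1 * conj (th (x.2 * k)) *
    ∑ e ∈ (S E0).filter (fun e => e ∣ k), (mu e : ℂ) * T x e)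

lemma StT_TE (E0 : ℝ) (J : Finset (Eis × Eis)) (om : Eis × Eis → ℂ) (α : Eis → ℂ) (k : Eis) :
    StT E0 J om (TE α) k = StE E0 J om α k := rfl

/-- admissible coefficients -/
def TOK (T : Eis × Eis → Eis → ℂ) : Prop := ∀ x e, T x e ≠ 0 →
  IsCoprime x.2 x.1 ∧ IsCoprime x.2 e ∧ IsCoprime e x.1

lemma tok_TE {α : Eis → ℂ} (hs : ∀ n, α n ≠ 0 → Squarefree n) : TOK (TE α) :=
  fun _ _ h => TE_ne hs h

/-- approximants `Ap δ e (g, ν) A c j₂ r` of
`VV (ag α δ g) c (e A j₂) r ν F (K / nm (e A j₂))` -/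
abbrev APX := Eis → Eis → Eis × Eis → Eis → Eis → Eis → Eis → ℂ

/-- the approximant `Mn` -/
def ApM (α : Eis → ℂ) (F : ℝ → ℂ) (K : ℝ) : APX := fun δ e y A c j₂ r =>
  Mn (ag α δ y.1) c (e * A * j₂) r y.2 F (K / nm (e * A * j₂))

/-- the sum of the approximants -/
def AX (Ap : APX) (x : Eis × Eis) (e : Eis) : ℂ :=
  ∑ y ∈ prs x.1, ∑ A ∈ pdiv y.1, (mu A : ℂ) * (conj (sy (e * A * (jd x.2).2.2) y.2) *
    Ap x.1 e y A (jd x.2).1 (jd x.2).2.2 ((jd x.2).2.1 * (e * A)))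

lemma AX_ApM {α : Eis → ℂ} (hα : FS α) (hs : ∀ n, α n ≠ 0 → Squarefree n) {x : Eis × Eis}
    (hδ : IsPrim x.1) (hδs : Squarefree x.1) (hx : JC x.2) {e : Eis} (he : IsPrim e) (F : ℝ → ℂ)
    {K : ℝ} (hK : 0 < K) : AX (ApM α F K) x e = MX α x e F K :=
  MX_eq hα hs hδ hδs (jd_spec hx) he F hK

lemma AX_add (Ap Ap' : APX) (x : Eis × Eis) (e : Eis) :
    AX (fun δ e y A c j₂ r => Ap δ e y A c j₂ r + Ap' δ e y A c j₂ r) x e =
      AX Ap x e + AX Ap' x e := by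
  unfold AX
  rw [← Finset.sum_add_distrib]
  refine Finset.sum_congr rfl fun y _ => ?_
  rw [← Finset.sum_add_distrib]
  exact Finset.sum_congr rfl fun A _ => by ring

/-- the sums of squares -/
def QsG (α : Eis → ℂ) (δ e : Eis) (Y K : ℝ) (F : ℝ → ℂ) (Ap : APX) (y : Eis × Eis)
    (A c j₂ : Eis) : ℝ := by
  classical
  exact ∑ r ∈ (S (RR Y e A c j₂)).filter (fun r => IsCoprime r y.2 ∧ RR Y e A c j₂ / 2 < nm r),
    ‖VV (ag α δ y.1) c (e * A * j₂) r y.2 F (K / nm (e * A * j₂)) - Ap δ e y A c j₂ r‖ ^ 2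

lemma QsG_nonneg (α : Eis → ℂ) (δ e : Eis) (Y K : ℝ) (F : ℝ → ℂ) (Ap : APX) (y : Eis × Eis)
    (A c j₂ : Eis) : 0 ≤ QsG α δ e Y K F Ap y A c j₂ := Finset.sum_nonneg fun _ _ => by positivity

lemma QsG_ApM (α : Eis → ℂ) (δ e : Eis) (Y K : ℝ) (F : ℝ → ℂ) (y : Eis × Eis) (A c j₂ : Eis) :
    QsG α δ e Y K F (ApM α F K) y A c j₂ = Qs α δ e Y K F y A c j₂ := rfl

/-- **the cross form** -/
theorem cross_eqT {α : Eis → ℂ} (T : Eis × Eis → Eis → ℂ) {F : ℝ → ℂ} (hF : ∃ B : ℝ, ∀ x, F x ≠ 0 → x ≤ B) {K : ℝ}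
    (hK : 0 < K) {E0 : ℝ} (hE0 : 0 ≤ E0) (J : Finset (Eis × Eis)) (om : Eis × Eis → ℂ) :
    (∑' k : Eis, by classical exact if IsPrim k then F ((nm k : ℝ) / K) *
      (CS α k * conj (StT E0 J om T k)) else 0) =
      ∑ x ∈ J, ∑ e ∈ S E0, conj (om x) * ((mu e : ℂ) * conj (T x e) * VX α x e F K) := by
  classical
  have hfin : ∀ g : Eis → ℂ, (Function.support fun k : Eis => g k * F ((nm k : ℝ) / K)).Finite := by
    intro g
    have := fin_wt hF hK (one_ne_zero : (1 : Eis) ≠ 0) g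
    simpa using this
  have h1 : ∀ k : Eis, (if IsPrim k then F ((nm k : ℝ) / K) *
      (CS α k * conj (StT E0 J om T k)) else 0) =
      ∑ x ∈ J, ∑ e ∈ S E0, conj (om x) * ((mu e : ℂ) * conj (T x e) *
        (if IsPrim k ∧ e ∣ k then th (x.2 * k) * (conj (sy k x.1) * CS α k) *
          F ((nm k : ℝ) / K) else 0)) := by
    intro k
    by_cases hk : IsPrim k
    · rw [if_pos hk]
      unfold StT
      rw [map_sum, Finset.mul_sum, Finset.mul_sum]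
      refine Finset.sum_congr rfl fun x _ => ?_
      rw [map_mul, map_mul, map_mul, map_sum, Finset.sum_filter, Complex.conj_conj,
        Finset.mul_sum, Finset.mul_sum, Finset.mul_sum, Finset.mul_sum]
      refine Finset.sum_congr rfl fun e _ => ?_
      by_cases he : e ∣ k
      · rw [if_pos he, if_pos ⟨hk, he⟩, map_mul, map_intCast]
        ring
      · rw [if_neg he, if_neg (fun h => he h.2), mul_zero, mul_zero]
        ring
    · rw [if_neg hk]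
      symm
      refine Finset.sum_eq_zero fun x _ => Finset.sum_eq_zero fun e _ => ?_
      rw [if_neg (fun h => hk h.1), mul_zero, mul_zero]
  rw [tsum_congr h1]
  have hs : ∀ x ∈ J, ∀ e ∈ S E0, Summable fun k : Eis => conj (om x) * ((mu e : ℂ) *
      conj (T x e) * (if IsPrim k ∧ e ∣ k then th (x.2 * k) * (conj (sy k x.1) * CS α k) *
          F ((nm k : ℝ) / K) else 0)) := by
    intro x _ e _
    refine summable_of_hasFiniteSupport ((hfin (fun k => conj (om x) * ((mu e : ℂ) *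
      conj (T x e) * (if IsPrim k ∧ e ∣ k then th (x.2 * k) * (conj (sy k x.1) * CS α k)
        else 0)))).subset fun k hk => ?_)
    rw [Function.mem_support] at hk ⊢
    intro h
    apply hk
    rw [← h]
    split_ifs
    · ring
    · ring
  rw [Summable.tsum_finsetSum (fun x hx => summable_sum fun e he => hs x hx e he)]
  refine Finset.sum_congr rfl fun x hx => ?_
  rw [Summable.tsum_finsetSum (fun e he => hs x hx e he)]
  refine Finset.sum_congr rfl fun e he => ?_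
  have hep : IsPrim e := ((mem_S hE0).mp he).2.1
  rw [tsum_mul_left, tsum_mul_left, tsum_mult hep]
  rfl

/-- embedding of a block into the sums of `E2core` -/
lemma block_leG {α : Eis → ℂ} {δ e : Eis} {Y K : ℝ} (hY : 0 ≤ Y) {F : ℝ → ℂ} (Ap : APX) {y : Eis × Eis}
    {A : Eis} (hδ : IsPrim δ) (he : IsPrim e) (hes : Squarefree e) (heδ : IsCoprime e δ)
    (hδs : Squarefree δ) (hy : y ∈ prs δ) (hA : A ∈ pdiv y.1) {J : Finset (Eis × Eis)}
    (hJ : ∀ x ∈ J, x.1 = δ ∧ JC x.2 ∧ IsCoprime x.2 δ ∧ IsCoprime x.2 e ∧ Y / 2 < nm x.2 ∧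
      (nm x.2 : ℝ) ≤ Y) :
    ∑ x ∈ J, ‖VV (ag α δ y.1) (jd x.2).1 (e * A * (jd x.2).2.2) ((jd x.2).2.1 * (e * A)) y.2 F
        (K / nm (e * A * (jd x.2).2.2)) -
      Ap δ e y A (jd x.2).1 (jd x.2).2.2 ((jd x.2).2.1 * (e * A))‖ ^ 2 ≤
      ∑ c ∈ C4, ∑ j₂ ∈ S (Real.sqrt Y), QsG α δ e Y K F Ap y A c j₂ := by
  classical
  rw [mem_prs hδ] at hy
  obtain ⟨hy1, hy2, hy3⟩ := hy
  have hA' := (mem_pdiv hy1.ne_zero).mp hA
  have hAδ : A ∣ δ := hA'.2.trans (hy3 ▸ dvd_mul_right _ _)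
  have hAs : Squarefree A := hδs.squarefree_of_dvd hAδ
  have heA : IsCoprime e A := heδ.of_isCoprime_of_dvd_right hAδ
  have heAs : Squarefree (e * A) := squarefree_mul_iff.mpr ⟨heA.isRelPrime, hes, hAs⟩
  have heA0 : (0 : ℝ) < nm (e * A) := by
    have := one_le_nm (mul_ne_zero he.ne_zero hA'.1.ne_zero); linarith
  set f : (Σ _ : Eis × Eis, Eis) → ℝ := fun t =>
    ‖VV (ag α δ y.1) t.1.1 (e * A * t.1.2) t.2 y.2 F (K / nm (e * A * t.1.2)) -
      Ap δ e y A t.1.1 t.1.2 t.2‖ ^ 2 with hf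
  set φ : Eis × Eis → (Σ _ : Eis × Eis, Eis) := fun x =>
    ⟨((jd x.2).1, (jd x.2).2.2), (jd x.2).2.1 * (e * A)⟩ with hφ
  set Tt : Finset (Σ _ : Eis × Eis, Eis) := (C4 ×ˢ S (Real.sqrt Y)).sigma (fun p =>
    (S (RR Y e A p.1 p.2)).filter (fun r => IsCoprime r y.2 ∧ RR Y e A p.1 p.2 / 2 < nm r)) with hTt
  have e1 : ∑ c ∈ C4, ∑ j₂ ∈ S (Real.sqrt Y), QsG α δ e Y K F Ap y A c j₂ = ∑ t ∈ Tt, f t := by
    rw [hTt, Finset.sum_sigma, Finset.sum_product]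
    rfl
  rw [e1]
  have hinj : Set.InjOn φ (J : Set (Eis × Eis)) := by
    intro a ha b hb hab
    have ha' := hJ a ha
    have hb' := hJ b hb
    simp only [hφ, Sigma.mk.injEq, Prod.mk.injEq, heq_eq_eq] at hab
    obtain ⟨⟨h1, h2⟩, h3⟩ := hab
    have h4 : (jd a.2).2.1 = (jd b.2).2.1 :=
      mul_right_cancel₀ (mul_ne_zero he.ne_zero hA'.1.ne_zero) h3
    refine Prod.ext (ha'.1.trans hb'.1.symm) ?_
    rw [(jd_spec ha'.2.1).eq, (jd_spec hb'.2.1).eq, h1, h2, h4]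
  have hmaps : J.image φ ⊆ Tt := by
    intro t ht
    rw [Finset.mem_image] at ht
    obtain ⟨x, hx, rfl⟩ := ht
    obtain ⟨hx1, hx2, hx3, hx4, hx5, hx6⟩ := hJ x hx
    have hD := jd_spec hx2
    set c := (jd x.2).1
    set j₁ := (jd x.2).2.1
    set j₂ := (jd x.2).2.2
    have hc0 : (0 : ℝ) < nm c := by have := one_le_nm hD.ic.ne_zero; linarith
    have hc1 : (1 : ℝ) ≤ nm c := one_le_nm hD.ic.ne_zero
    have hj1 : (1 : ℝ) ≤ nm j₁ := one_le_nm hD.p1.ne_zero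
    have hj2 : (1 : ℝ) ≤ nm j₂ := one_le_nm hD.p2.ne_zero
    have hnm : (nm x.2 : ℝ) = nm c * (nm j₁ * (nm j₂ : ℝ) ^ 2) := by
      rw [hD.eq, nm_mul, nm_mul, nm_pow]
      push_cast
      ring
    have hr : (nm (j₁ * (e * A)) : ℝ) = nm j₁ * nm (e * A) := by
      rw [nm_mul j₁]; push_cast; ring
    have hd1 : c ∣ x.2 := by rw [hD.eq]; exact dvd_mul_right _ _
    have hd2 : j₁ ∣ x.2 := by rw [hD.eq]; exact ⟨c * j₂ ^ 2, by ring⟩
    rw [hTt, Finset.mem_sigma, Finset.mem_product, Finset.mem_filter]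
    refine ⟨⟨mem_C4.mpr hD.ic, ?_⟩, ?_, ?_, ?_⟩
    · rw [mem_S (Real.sqrt_nonneg _)]
      refine ⟨?_, hD.p2, hD.s2⟩
      apply Real.le_sqrt_of_sq_le
      rw [hnm] at hx6
      nlinarith [mul_le_mul hc1 hj1 (by norm_num) hc0.le, sq_nonneg (nm j₂ : ℝ)]
    · have hRpos : 0 ≤ RR Y e A c j₂ := by unfold RR; positivity
      rw [mem_S hRpos]
      refine ⟨?_, hD.p1.mul (he.mul hA'.1), ?_⟩
      · show (nm (j₁ * (e * A)) : ℝ) ≤ RR Y e A c j₂
        rw [hr]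
        unfold RR
        rw [le_div_iff₀ (by positivity)]
        calc (nm j₁ : ℝ) * (nm (e * A) : ℝ) * ((nm c : ℝ) * (nm j₂ : ℝ) ^ 2) =
              (nm (e * A) : ℝ) * ((nm c : ℝ) * ((nm j₁ : ℝ) * (nm j₂ : ℝ) ^ 2)) := by ring
          _ = (nm (e * A) : ℝ) * (nm x.2 : ℝ) := by rw [hnm]
          _ ≤ (nm (e * A) : ℝ) * Y := mul_le_mul_of_nonneg_left hx6 heA0.le
          _ = Y * (nm (e * A) : ℝ) := by ring
      · have h1 : IsCoprime j₁ e := hx4.of_isCoprime_of_dvd_left hd2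
        have h2 : IsCoprime j₁ A :=
          (hx3.of_isCoprime_of_dvd_left hd2).of_isCoprime_of_dvd_right hAδ
        exact squarefree_mul_iff.mpr ⟨(h1.mul_right h2).isRelPrime, hD.s1, heAs⟩
    · have hν : y.2 ∣ δ := hy3 ▸ dvd_mul_left _ _
      have h1 : IsCoprime j₁ y.2 :=
        (hx3.of_isCoprime_of_dvd_left hd2).of_isCoprime_of_dvd_right hν
      have h2 : IsCoprime e y.2 := heδ.of_isCoprime_of_dvd_right hν
      have h3 : IsCoprime y.1 y.2 := by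
        rw [← hy3] at hδs
        exact (squarefree_mul_iff.mp hδs).1.isCoprime
      exact h1.mul_left (h2.mul_left (h3.of_isCoprime_of_dvd_left hA'.2))
    · show RR Y e A c j₂ / 2 < (nm (j₁ * (e * A)) : ℝ)
      rw [hr]
      unfold RR
      rw [div_div, div_lt_iff₀ (by positivity)]
      calc Y * (nm (e * A) : ℝ) = 2 * (Y / 2) * (nm (e * A) : ℝ) := by ring
        _ < 2 * (nm x.2 : ℝ) * (nm (e * A) : ℝ) := by
            refine mul_lt_mul_of_pos_right ?_ heA0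
            linarith
        _ = (nm j₁ : ℝ) * (nm (e * A) : ℝ) * ((nm c : ℝ) * (nm j₂ : ℝ) ^ 2 * 2) := by
            rw [hnm]; ring
  calc _ = ∑ x ∈ J, f (φ x) := rfl
    _ = ∑ t ∈ J.image φ, f t := (Finset.sum_image hinj).symm
    _ ≤ ∑ t ∈ Tt, f t := Finset.sum_le_sum_of_subset_of_nonneg hmaps fun t _ _ => by
        simp only [hf]; positivity

/-- **one block** -/
theorem E2blkG {α : Eis → ℂ} (hα : FS α) (hs : ∀ n, α n ≠ 0 → Squarefree n) {δ e : Eis}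
    (hδ : IsPrim δ) (hδs : Squarefree δ) (he : IsPrim e) (hes : Squarefree e) {Y K : ℝ}
    (hY : 0 ≤ Y) (hK : 0 < K) {F : ℝ → ℂ} (hF : ∃ B : ℝ, ∀ x, F x ≠ 0 → x ≤ B)
    {J : Finset (Eis × Eis)}
    (hJ : ∀ x ∈ J, x.1 = δ ∧ JC x.2 ∧ Y / 2 < nm x.2 ∧ (nm x.2 : ℝ) ≤ Y) (om : Eis × Eis → ℂ)
    {T : Eis × Eis → Eis → ℂ} (hT : TOK T) (Ap : APX) :
    ‖∑ x ∈ J, conj (om x) * ((mu e : ℂ) * conj (T x e) * (VX α x e F K - AX Ap x e))‖ ≤
      Real.sqrt (∑ x ∈ J, ‖om x‖ ^ 2 * ‖T x e‖ ^ 2) *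
      ∑ y ∈ prs δ, ∑ A ∈ pdiv y.1,
        Real.sqrt (∑ c ∈ C4, ∑ j₂ ∈ S (Real.sqrt Y), QsG α δ e Y K F Ap y A c j₂) := by
  classical
  set TT : ℝ := ∑ x ∈ J, ‖om x‖ ^ 2 * ‖T x e‖ ^ 2 with hTT
  set J' : Finset (Eis × Eis) := J.filter (fun x => T x e ≠ 0) with hJ'
  have hsum : ∑ x ∈ J, conj (om x) * ((mu e : ℂ) * conj (T x e) *
      (VX α x e F K - AX Ap x e)) = ∑ x ∈ J', conj (om x) * ((mu e : ℂ) * conj (T x e) *
      (VX α x e F K - AX Ap x e)) := by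
    rw [hJ', Finset.sum_filter]
    refine Finset.sum_congr rfl fun x _ => ?_
    by_cases h : T x e = 0
    · rw [if_neg (by simp [h]), h]; simp
    · rw [if_pos h]
  rw [hsum]
  have hJm : ∀ x ∈ J', x.1 = δ ∧ JC x.2 ∧ IsCoprime x.2 δ ∧ IsCoprime x.2 e ∧ Y / 2 < nm x.2 ∧
      (nm x.2 : ℝ) ≤ Y := by
    intro x hx
    rw [hJ', Finset.mem_filter] at hx
    obtain ⟨h1, h2, h3, h4⟩ := hJ x hx.1
    obtain ⟨h5, h6, h7⟩ := hT x e hx.2
    rw [h1] at h5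
    exact ⟨h1, h2, h5, h6, h3, h4⟩
  by_cases hne : J'.Nonempty
  swap
  · rw [Finset.not_nonempty_iff_eq_empty.mp hne, Finset.sum_empty, norm_zero]
    exact mul_nonneg (Real.sqrt_nonneg _) (Finset.sum_nonneg fun _ _ =>
      Finset.sum_nonneg fun _ _ => Real.sqrt_nonneg _)
  have heδ : IsCoprime e δ := by
    obtain ⟨x, hx⟩ := hne
    have h1 := hJm x hx
    rw [hJ', Finset.mem_filter] at hx
    have h2 := (hT x e hx.2).2.2
    rwa [h1.1] at h2
  set q : Eis × Eis → Eis × Eis → Eis → ℝ := fun x y A =>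
    ‖VV (ag α δ y.1) (jd x.2).1 (e * A * (jd x.2).2.2) ((jd x.2).2.1 * (e * A)) y.2 F
        (K / nm (e * A * (jd x.2).2.2)) -
      Ap δ e y A (jd x.2).1 (jd x.2).2.2 ((jd x.2).2.1 * (e * A))‖ with hq
  have hpt : ∀ x ∈ J', ‖conj (om x) * ((mu e : ℂ) * conj (T x e) *
      (VX α x e F K - AX Ap x e))‖ ≤ ∑ y ∈ prs δ, ∑ A ∈ pdiv y.1,
        (‖om x‖ * ‖T x e‖) * q x y A := by
    intro x hx
    obtain ⟨h1, h2, h3, h4, -, -⟩ := hJm x hx
    have hD := jd_spec h2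
    have e1 := VX_eq hα hs (x := x) (e := e) (by rw [h1]; exact hδ) (by rw [h1]; exact hδs) hD he
      (by rw [h1]; exact h3) h4 (by rw [h1]; exact heδ) hF hK
    have e2 : AX Ap x e = ∑ y ∈ prs δ, ∑ A ∈ pdiv y.1, (mu A : ℂ) *
        (conj (sy (e * A * (jd x.2).2.2) y.2) *
          Ap δ e y A (jd x.2).1 (jd x.2).2.2 ((jd x.2).2.1 * (e * A))) := by
      unfold AX
      rw [h1]
    rw [h1] at e1
    have e3 : VX α x e F K - AX Ap x e = ∑ y ∈ prs δ, ∑ A ∈ pdiv y.1, (mu A : ℂ) *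
        (conj (sy (e * A * (jd x.2).2.2) y.2) *
        (VV (ag α δ y.1) (jd x.2).1 (e * A * (jd x.2).2.2) ((jd x.2).2.1 * (e * A)) y.2 F
          (K / nm (e * A * (jd x.2).2.2)) -
        Ap δ e y A (jd x.2).1 (jd x.2).2.2 ((jd x.2).2.1 * (e * A)))) := by
      rw [e1, e2, ← Finset.sum_sub_distrib]
      refine Finset.sum_congr rfl fun y _ => ?_
      rw [← Finset.sum_sub_distrib]
      exact Finset.sum_congr rfl fun A _ => by ring
    have e4 : ‖VX α x e F K - AX Ap x e‖ ≤ ∑ y ∈ prs δ, ∑ A ∈ pdiv y.1, q x y A := by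
      rw [e3]
      refine (norm_sum_le _ _).trans (Finset.sum_le_sum fun y hy => ?_)
      refine (norm_sum_le _ _).trans (Finset.sum_le_sum fun A hA => ?_)
      rw [norm_mul, norm_mul, RCLike.norm_conj]
      have hy2 : IsPrim y.2 := ((mem_prs hδ).mp hy).2.1
      have a1 := norm_mu_le A
      have a2 := norm_sy_le1 (k := e * A * (jd x.2).2.2) hy2
      have a3 : 0 ≤ q x y A := norm_nonneg _
      calc _ ≤ 1 * (1 * q x y A) := mul_le_mul a1 (mul_le_mul_of_nonneg_right a2 a3)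
            (mul_nonneg (norm_nonneg _) a3) zero_le_one
        _ = q x y A := by ring
    rw [norm_mul, norm_mul, norm_mul, RCLike.norm_conj, RCLike.norm_conj]
    have a1 := norm_mu_le e
    calc ‖om x‖ * (‖((mu e : ℤ) : ℂ)‖ * ‖T x e‖ * ‖VX α x e F K - AX Ap x e‖)
        ≤ ‖om x‖ * (1 * ‖T x e‖ * ∑ y ∈ prs δ, ∑ A ∈ pdiv y.1, q x y A) := by
          refine mul_le_mul_of_nonneg_left ?_ (norm_nonneg _)
          refine mul_le_mul (mul_le_mul_of_nonneg_right a1 (norm_nonneg _)) e4 (norm_nonneg _)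
            (by positivity)
      _ = _ := by
          rw [one_mul, ← mul_assoc, Finset.mul_sum]
          refine Finset.sum_congr rfl fun y _ => ?_
          rw [Finset.mul_sum]
  refine (norm_sum_le _ _).trans ((Finset.sum_le_sum hpt).trans ?_)
  rw [Finset.sum_comm, Finset.mul_sum]
  refine Finset.sum_le_sum fun y hy => ?_
  rw [Finset.sum_comm, Finset.mul_sum]
  refine Finset.sum_le_sum fun A hA => ?_
  refine (Real.sum_mul_le_sqrt_mul_sqrt _ _ _).trans ?_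
  refine mul_le_mul (Real.sqrt_le_sqrt ?_) (Real.sqrt_le_sqrt ?_) (Real.sqrt_nonneg _)
    (Real.sqrt_nonneg _)
  · have : ∀ x ∈ J', (‖om x‖ * ‖T x e‖) ^ 2 = ‖om x‖ ^ 2 * ‖T x e‖ ^ 2 := fun x _ => by ring
    rw [Finset.sum_congr rfl this, hTT]
    exact Finset.sum_le_sum_of_subset_of_nonneg (Finset.filter_subset _ _) fun _ _ _ => by
      positivity
  · exact block_leG hY Ap hδ he hes heδ hδs hy hA hJm

/-- **E2** : the cross form minus its main term through the sums `Qs` -/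
theorem E2finG {α : Eis → ℂ} (hα : FS α) (hs : ∀ n, α n ≠ 0 → Squarefree n) {K E0 Y : ℝ}
    (hE0 : 0 ≤ E0) (hY : 0 ≤ Y) (hK : 0 < K) {F : ℝ → ℂ} (hF : ∃ B : ℝ, ∀ x, F x ≠ 0 → x ≤ B)
    {D : Finset Eis} (hD : ∀ δ ∈ D, IsPrim δ ∧ Squarefree δ) {I : ℕ} {J : Finset (Eis × Eis)}
    (hJ : OKJ J) (hJD : ∀ x ∈ J, x.1 ∈ D ∧ (nm x.2 : ℝ) ≤ Y ∧ Y / 2 ^ I < nm x.2)
    (om : Eis × Eis → ℂ) {T : Eis × Eis → Eis → ℂ} (hT : TOK T) (Ap : APX) :
    ‖(∑' k : Eis, by classical exact if IsPrim k then F ((nm k : ℝ) / K) *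
        (CS α k * conj (StT E0 J om T k)) else 0) -
      ∑ x ∈ J, ∑ e ∈ S E0, conj (om x) * ((mu e : ℂ) * conj (T x e) * AX Ap x e)‖ ≤
      ∑ δ ∈ D, ∑ i ∈ Finset.range I, ∑ e ∈ S E0,
        Real.sqrt (∑ x ∈ Jb J δ (Y / 2 ^ i), ‖om x‖ ^ 2 * ‖T x e‖ ^ 2) *
        ∑ y ∈ prs δ, ∑ A ∈ pdiv y.1,
          Real.sqrt (∑ c ∈ C4, ∑ j₂ ∈ S (Real.sqrt (Y / 2 ^ i)),
            QsG α δ e (Y / 2 ^ i) K F Ap y A c j₂) := by
  classical
  rw [cross_eqT T hF hK hE0 J om, ← Finset.sum_sub_distrib]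
  have h1 : ∀ x ∈ J, ∑ e ∈ S E0, conj (om x) * ((mu e : ℂ) * conj (T x e) * VX α x e F K) -
      ∑ e ∈ S E0, conj (om x) * ((mu e : ℂ) * conj (T x e) * AX Ap x e) =
      ∑ e ∈ S E0, conj (om x) * ((mu e : ℂ) * conj (T x e) *
        (VX α x e F K - AX Ap x e)) := by
    intro x _
    rw [← Finset.sum_sub_distrib]
    exact Finset.sum_congr rfl fun e _ => by ring
  rw [Finset.sum_congr rfl h1, sum_blocks hY hJD]
  refine (norm_sum_le _ _).trans (Finset.sum_le_sum fun δ hδ => ?_)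
  refine (norm_sum_le _ _).trans (Finset.sum_le_sum fun i hi => ?_)
  rw [Finset.sum_comm]
  refine (norm_sum_le _ _).trans (Finset.sum_le_sum fun e he => ?_)
  obtain ⟨-, hep, hes⟩ := (mem_S hE0).mp he
  refine E2blkG hα hs (hD δ hδ).1 (hD δ hδ).2 hep hes (by positivity) hK hF ?_ om hT Ap
  intro x hx
  unfold Jb at hx
  rw [Finset.mem_filter] at hx
  exact ⟨hx.2.1, hJ.jc x hx.1, hx.2.2.1, hx.2.2.2⟩

end Crest.Agent.R017.E2440
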