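import Crest.Agent.R012.MFinal_49
import Crest.Agent.R012.LS2Elt_381
import Crest.Agent.R012.LS2Spec_381

/-!
# Row 17, exceptional class, part 1 (helper764): the bias-corrected kernel

* `rho`, `th h = rho h / (pC Dsf)` : the residues (all frequencies `h`), `th 1 = 1`
* `th_mul` : `th (h a) = conj (G a conj (sy h a)) N(a)^(-1/6) th h` (`a` squarefree primary, prime
  to `h`), `th_cube`, `th_lam3`, `th_neg`, `th_two`
* `Dk h n = G n conj (sy h n) - pC th(h) N(n)^(-1/6) [n squarefree, (n, h) = 1]`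
* `Dk_mul` : `Dk h (w m) = G w conj (sy h w) Dk (h w) m` (rule C, exact)
* `Dk_cube` : `Dk (h e³) n = Dk h n` for `(e, n) = 1`
-/

set_option autoImplicit false

noncomputable section

open scoped ComplexConjugate

namespace Crest.Agent.R017.PX764

open Crest.Agent.R012 Crest.Agent.R012.Eis Crest.Agent.R012.Gauss880

/-- the residues -/
def rho : Eis → ℂ := Classical.choose MFinal49.m_final

lemma rho_MS : M49.MS rho := (Classical.choose_spec MFinal49.m_final).1

lemma rho_rel : M49.RhoRel rho := (Classical.choose_spec MFinal49.m_final).2.1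

lemma rho_RhoOne : M49.RhoOne rho := (Classical.choose_spec MFinal49.m_final).2.2

/-- the normalising constant -/
def cD : ℝ := pC * M49.Dsf

lemma pC_pos : 0 < pC := by
  unfold pC
  have := Real.Gamma_pos_of_pos (show (0 : ℝ) < 2 / 3 by norm_num)
  positivity

lemma Dsf_pos : 0 < M49.Dsf := by
  rw [Rho777.Dsf_eq]
  unfold MC.Dc
  have := Rho777.Zk_pos
  rw [Rho777.Zk_eq] at this
  positivity

lemma cD_pos : 0 < cD := mul_pos pC_pos Dsf_pos

/-- the normalised theta coefficients -/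
def th (h : Eis) : ℂ := rho h / (cD : ℂ)

lemma cD_ne : (cD : ℂ) ≠ 0 := by exact_mod_cast cD_pos.ne'

lemma th_one : th 1 = 1 := by
  unfold th
  have h : rho 1 = ((pC * M49.Dsf : ℝ) : ℂ) := rho_RhoOne
  rw [h]
  exact div_self cD_ne

lemma th_neg (h : Eis) : th (-h) = th h := by
  unfold th; rw [Sg51.rho_neg rho_MS]

lemma th_lam3 (h : Eis) : th (lam ^ 3 * h) = th h := by
  unfold th; rw [Sg51.rho_lam3 rho_MS]

lemma th_cube {k : Eis} (hk : IsPrim k) (h : Eis) : th (h * k ^ 3) = th h := by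
  unfold th; rw [Rho777.rho_cube_pow rho_rel hk]

lemma th_two {p h : Eis} (hp : Prime p) (hpp : IsPrim p) (hh : ¬ p ∣ h) : th (h * p ^ 2) = 0 := by
  unfold th; rw [rho_rel.two_p p h hp hpp hh, zero_div]

/-! ### the multiplication law -/

/-- `G(a) conj (sy h a)`, the normalised Gauss sum at frequency `h` -/
def Gh (h a : Eis) : ℂ := G a * conj (sy h a)

lemma gs_sqrt {h a : Eis} (ha : IsPrim a) (hs : Squarefree a) :
    gs h a / ((Real.sqrt (nm a) : ℝ) : ℂ) = Gh h a := by
  rw [gs_eq_G syG ha hs]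
  unfold Gh
  have := sqrt_nm_ne_zero ha.ne_zero
  field_simp

lemma Gh_one (h : Eis) : Gh h 1 = 1 := by
  unfold Gh
  have h1 : G (1 : Eis) = 1 := by
    have h3 := G_mul_conj syG isPrim_one squarefree_one
    have h4 := G_mul syG isPrim_one isPrim_one isCoprime_one_left
    rw [mul_one, Sym645.sy_one_right, map_one, mul_one] at h4
    have h5 : G (1 : Eis) ≠ 0 := left_ne_zero_of_mul_eq_one h3
    exact (mul_right_cancel₀ h5 (by rw [one_mul]; exact h4)).symm
  have h6 : sy h 1 = 1 := by simp [sy, UniqueFactorizationMonoid.factors_one]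
  rw [h1, h6]; simp

lemma Gh_mul {h a b : Eis} (ha : IsPrim a) (hb : IsPrim b) :
    Gh h (a * b) = Gh h a * Gh (h * a) b := by
  unfold Gh
  rw [G_mul_all syG ha hb, syG.mul_right h a b ha hb, syG.mul_left h a b hb]
  simp only [map_mul]
  ring

lemma norm_G_one {a : Eis} (ha : IsPrim a) (hs : Squarefree a) : ‖G a‖ = 1 := by
  have h := G_mul_conj syG ha hs
  rw [Complex.mul_conj, Complex.normSq_eq_norm_sq] at h
  have h2 : ‖G a‖ ^ 2 = 1 := by exact_mod_cast h
  nlinarith [norm_nonneg (G a)]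

lemma norm_sy_one {h a : Eis} (ha : IsPrim a) (hc : IsCoprime h a) : ‖sy h a‖ = 1 := by
  have h1 := syG.cube h a ha hc
  have h2 : ‖sy h a‖ ^ 3 = 1 := by rw [← norm_pow, h1, norm_one]
  exact (pow_eq_one_iff_of_nonneg (norm_nonneg _) (by norm_num)).mp h2

lemma norm_Gh_one {h a : Eis} (ha : IsPrim a) (hs : Squarefree a) (hc : IsCoprime h a) :
    ‖Gh h a‖ = 1 := by
  unfold Gh
  rw [norm_mul, RCLike.norm_conj, norm_G_one ha hs, norm_sy_one ha hc, one_mul]

lemma Gh_mul_conj {h a : Eis} (ha : IsPrim a) (hs : Squarefree a) (hc : IsCoprime h a) :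
    Gh h a * conj (Gh h a) = 1 := by
  rw [Complex.mul_conj, Complex.normSq_eq_norm_sq, norm_Gh_one ha hs hc]; simp

lemma Gh_zero {h a : Eis} (ha : IsPrim a) (hc : ¬ IsCoprime h a) : Gh h a = 0 := by
  unfold Gh
  rw [(syG.eq_zero h a ha).mpr hc]; simp

lemma Gh_not_sqf {h a : Eis} (ha : IsPrim a) (hs : ¬ Squarefree a) : Gh h a = 0 := by
  unfold Gh
  rw [G_eq_zero syG ha hs, zero_mul]

/-- `N(a)^(-1/6)` -/
def n6 (a : Eis) : ℝ := (nm a : ℝ) ^ (-(1 : ℝ) / 6)

lemma n6_mul (a b : Eis) : n6 (a * b) = n6 a * n6 b := by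
  unfold n6
  rw [nm_mul]
  push_cast
  rw [Real.mul_rpow (Nat.cast_nonneg _) (Nat.cast_nonneg _)]

lemma n6_one : n6 1 = 1 := by unfold n6; rw [nm_one]; simp

lemma n6_pos {a : Eis} (ha : a ≠ 0) : 0 < n6 a := by
  unfold n6
  have : (0 : ℝ) < nm a := by exact_mod_cast nm_pos.2 ha
  positivity

lemma n6_le_one {a : Eis} (ha : a ≠ 0) : n6 a ≤ 1 := by
  unfold n6
  apply Real.rpow_le_one_of_one_le_of_nonpos _ (by norm_num)
  exact_mod_cast nm_pos.2 ha

lemma rho_mul {a : Eis} (ha : IsPrim a) (h : Eis) : Squarefree a → IsCoprime h a →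
    rho (h * a) = conj (Gh h a) * (n6 a : ℂ) * rho h := by
  refine Sym645.prim_induction ?_ ?_ ha
  · intro _ _
    rw [Gh_one, n6_one]; simp
  · intro p b hp hpp hb ih hsf hc
    have hsb : Squarefree b := hsf.of_mul_right
    have hsp : Squarefree p := hsf.of_mul_left
    have hcp : IsCoprime h p := hc.of_mul_right_left
    have hcb : IsCoprime h b := hc.of_mul_right_right
    have hpb : ¬ p ∣ b := by
      intro h
      obtain ⟨t, rfl⟩ := h
      exact hp.not_isUnit (hsf p ⟨t, by ring⟩)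
    have hph : ¬ p ∣ h := fun hd => hp.not_isUnit (hcp.symm.isUnit_of_dvd' dvd_rfl hd)
    have hprb : ¬ p ∣ h * b := fun hd => (hp.dvd_or_dvd hd).elim hph hpb
    rw [show h * (p * b) = (h * b) * p by ring, rho_rel.one_p p (h * b) hp hpp hprb,
      gs_sqrt hpp hsp, ih hsb hcb, mul_comm p b, Gh_mul hb hpp, n6_mul]
    have e : (((nm p : ℝ) ^ (-(1 : ℝ) / 6) : ℝ) : ℂ) = (n6 p : ℂ) := rfl
    rw [e]
    simp only [map_mul]
    push_cast
    ring

/-- **the multiplication law of the theta coefficients** -/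
theorem th_mul {h a : Eis} (ha : IsPrim a) (hs : Squarefree a) (hc : IsCoprime h a) :
    th (h * a) = conj (Gh h a) * (n6 a : ℂ) * th h := by
  unfold th
  rw [rho_mul ha h hs hc]; ring

/-- `Gh h a · th (h a) = N(a)^(-1/6) th h` -/
theorem Gh_th {h a : Eis} (ha : IsPrim a) (hs : Squarefree a) (hc : IsCoprime h a) :
    Gh h a * th (h * a) = (n6 a : ℂ) * th h := by
  rw [th_mul ha hs hc]
  have := Gh_mul_conj ha hs hc
  linear_combination ((n6 a : ℂ) * th h) * this

/-! ### the kernel -/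

open Classical in
/-- the model: `N(n)^(-1/6)` on squarefree `n` prime to `h` -/
def md (h n : Eis) : ℝ := if Squarefree n ∧ IsCoprime n h then n6 n else 0

/-- **the bias-corrected kernel** -/
def Dk (h n : Eis) : ℂ := Gh h n - (pC : ℂ) * th h * (md h n : ℂ)

lemma md_nonneg {h n : Eis} (hn : n ≠ 0) : 0 ≤ md h n := by
  unfold md; split_ifs
  · exact (n6_pos hn).le
  · exact le_rfl

lemma md_le_one {h n : Eis} (hn : n ≠ 0) : md h n ≤ 1 := by
  unfold md; split_ifs
  · exact n6_le_one hn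
  · exact zero_le_one

lemma sqf_mul {a b : Eis} (h : IsCoprime a b) : Squarefree (a * b) ↔ Squarefree a ∧ Squarefree b := by
  refine ⟨fun hs => ⟨hs.of_mul_left, hs.of_mul_right⟩, fun hs => ?_⟩
  rw [squarefree_mul_iff]
  exact ⟨h.isRelPrime, hs.1, hs.2⟩

lemma not_sqf_of_not_coprime {a b : Eis} (ha : a ≠ 0) (h : ¬ IsCoprime a b) :
    ¬ Squarefree (a * b) := by
  intro hsf
  apply h
  refine isCoprime_of_prime_dvd (fun h0 => ha h0.1) (fun p hp hpa hpb => ?_)
  exact hp.not_isUnit (hsf p (mul_dvd_mul hpa hpb))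

/-- **Rule (C), exact.** -/
theorem Dk_mul {h w m : Eis} (hw : IsPrim w) (hs : Squarefree w) (hm : IsPrim m) :
    Dk h (w * m) = Gh h w * Dk (h * w) m := by
  classical
  unfold Dk
  rw [Gh_mul hw hm]
  by_cases hwm : IsCoprime w m
  · by_cases hwh : IsCoprime h w
    · have e1 := Gh_th hw hs hwh
      have e2 : (md h (w * m) : ℂ) = (n6 w : ℂ) * (md (h * w) m : ℂ) := by
        unfold md
        have h1 : (Squarefree (w * m) ∧ IsCoprime (w * m) h) ↔
            (Squarefree m ∧ IsCoprime m (h * w)) := by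
          rw [sqf_mul hwm, IsCoprime.mul_left_iff, IsCoprime.mul_right_iff]
          constructor
          · rintro ⟨⟨_, a⟩, _, b⟩; exact ⟨a, b, hwm.symm⟩
          · rintro ⟨a, b, _⟩; exact ⟨⟨hs, a⟩, hwh.symm, b⟩
        by_cases hc : Squarefree m ∧ IsCoprime m (h * w)
        · rw [if_pos (h1.2 hc), if_pos hc, n6_mul]; push_cast; ring
        · rw [if_neg (fun hh => hc (h1.1 hh)), if_neg hc]; simp
      rw [e2]
      linear_combination ((pC : ℂ) * (md (h * w) m : ℂ)) * e1
    · have e1 : Gh h w = 0 := Gh_zero hw hwh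
      have e2 : md h (w * m) = 0 := by
        unfold md
        rw [if_neg]
        rintro ⟨_, hc⟩
        exact hwh (IsCoprime.of_mul_left_left hc).symm
      rw [e1, e2]; simp
  · have e0 : ¬ IsCoprime (h * w) m := fun hc => hwm (IsCoprime.of_mul_left_right hc)
    have e1 : Gh (h * w) m = 0 := Gh_zero hm e0
    have e2 : md h (w * m) = 0 := by
      unfold md
      rw [if_neg]
      rintro ⟨hc, _⟩
      exact not_sqf_of_not_coprime hw.ne_zero hwm hc
    have e3 : md (h * w) m = 0 := by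
      unfold md
      rw [if_neg]
      rintro ⟨_, hc⟩
      exact e0 hc.symm
    rw [e1, e2, e3]; simp

lemma sy_cube_left {e n : Eis} (hn : IsPrim n) (h : Eis) (hc : IsCoprime e n) :
    sy (h * e ^ 3) n = sy h n := by
  have h3 : sy (e ^ 3) n = 1 := by
    rw [pow_succ, pow_two, syG.mul_left _ _ _ hn, syG.mul_left _ _ _ hn]
    have := syG.cube e n hn hc
    rw [← this]; ring
  rw [syG.mul_left _ _ _ hn, h3, mul_one]

lemma unit_cube {u : Eis} (hu : IsUnit u) : u ^ 3 = 1 ∨ u ^ 3 = -1 := by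
  obtain ⟨i, -, rfl | rfl⟩ := isUnit_exists hu
  · left; rw [← pow_mul, mul_comm, pow_mul, w_cube, one_pow]
  · right
    have : (-w ^ i) ^ 3 = -((w ^ 3) ^ i) := by ring
    rw [this, w_cube, one_pow]

/-- cubes of arbitrary elements (units, powers of `λ` included) do not change `th` -/
theorem th_cube_all {e : Eis} (he : e ≠ 0) (h : Eis) : th (h * e ^ 3) = th h := by
  obtain ⟨k, u, m, hu, hm, rfl⟩ := CharSum852.exists_decomp he
  have hcu : (u : Eis) ^ 3 = 1 ∨ (u : Eis) ^ 3 = -1 := unit_cube hu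
  have e1 : h * (lam ^ k * (u * m)) ^ 3 = (u ^ 3 * (lam ^ (3 * k) * h)) * m ^ 3 := by ring
  rw [e1, th_cube hm]
  have e2 : ∀ (j : ℕ) (x : Eis), th (lam ^ (3 * j) * x) = th x := by
    intro j
    induction j with
    | zero => intro x; simp
    | succ j ih =>
      intro x
      rw [show lam ^ (3 * (j + 1)) * x = lam ^ 3 * (lam ^ (3 * j) * x) by ring, th_lam3, ih]
  rcases hcu with h1 | h1
  · rw [h1, one_mul, e2]
  · rw [h1, neg_one_mul, th_neg, e2]

/-- **Rule (Mono), exact.** -/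
theorem Dk_cube {e h n : Eis} (he : e ≠ 0) (hn : IsPrim n) (hc : IsCoprime e n) :
    Dk (h * e ^ 3) n = Dk h n := by
  classical
  unfold Dk Gh md
  rw [sy_cube_left hn h hc, th_cube_all he]
  have h1 : IsCoprime n (h * e ^ 3) ↔ IsCoprime n h := by
    rw [IsCoprime.mul_right_iff]
    exact ⟨fun h => h.1, fun h => ⟨h, hc.symm.pow_right⟩⟩
  simp only [h1]

/-- the twisted product of the bias and of the kernel -/
theorem th_conj_Gh {h n : Eis} (hn : IsPrim n) (hs : Squarefree n) (hc : IsCoprime h n) :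
    th h * conj (Gh h n) = ((nm n : ℝ) ^ ((1 : ℝ) / 6) : ℝ) * th (h * n) := by
  rw [th_mul hn hs hc]
  have h0 : (0 : ℝ) < nm n := by exact_mod_cast nm_pos.2 hn.ne_zero
  have h1 : (((nm n : ℝ) ^ ((1 : ℝ) / 6) : ℝ) : ℂ) * (n6 n : ℂ) = 1 := by
    unfold n6
    rw [← Complex.ofReal_mul, ← Real.rpow_add h0]
    norm_num
  linear_combination (-(th h * conj (Gh h n))) * h1

end Crest.Agent.R017.PX764
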