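import Crest.Agent.R017.CM1_106
import Crest.Agent.R017.PX1_764

/-!
# Row 17, R8 (near-equal 5-boxes), common definitions of C70 (helper54)

`k` runs over primary elements. `α` : squarefree primary support. `th` = 764's theta coefficient,
`Gh j m = G m conj (sy j m)`, `n6 m = N(m)^(-1/6)`.

* `JC j` : the cube-free frequencies with a main term (`j = c j'`, `c ∈ {1, 3, 3w, 3w²}`)
* `OKJ J` : admissible finite index sets of pairs `(δ, j)`; `JW D Y₀ Y₁` : the window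
  `N δ ≤ D`, `Y₀ < N(j δ²) ≤ Y₁`
* `Tj α δ j k` : `∑_m α(δ m) N(m)^(-1/6) Gh j m`, `(k, δ m) = (j, δ m) = 1`
* `St J om α k` : the structured function
* `XJ J α` : the common main form of `|E α|²`, `⟨E α, St⟩`, `|St|²` (for `om = 1`)
-/

set_option autoImplicit false

noncomputable section

open Finset
open scoped ComplexConjugate

namespace Crest.Agent.R017.C70

open Crest.Agent.R012 Crest.Agent.R012.Eis Crest.Agent.R012.Mob705 Crest.Agent.R012.Gauss880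
open Crest.Agent.R017.CM106 Crest.Agent.R017.PX764

/-- cube-free -/
def CbF (j : Eis) : Prop := ∀ p : Eis, Prime p → ¬ p ^ 3 ∣ j

/-- the cube-free frequencies with a main term -/
def JC (j : Eis) : Prop :=
  ∃ c : Eis, (c = 1 ∨ c = 3 ∨ c = 3 * w ∨ c = 3 * w ^ 2) ∧ ∃ j' : Eis, IsPrim j' ∧ CbF j' ∧
    j = c * j'

/-- admissible index sets -/
structure OKJ (J : Finset (Eis × Eis)) : Prop where
  prim : ∀ x ∈ J, IsPrim x.1
  sqf : ∀ x ∈ J, Squarefree x.1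
  jc : ∀ x ∈ J, JC x.2

open Classical in
/-- the window -/
def JW (D Y₀ Y₁ : ℝ) : Finset (Eis × Eis) :=
  ((primBall ⌊D⌋₊) ×ˢ (ball ⌊Y₁⌋₊)).filter fun x => Squarefree x.1 ∧ JC x.2 ∧
    Y₀ < nm (x.2 * x.1 ^ 2) ∧ (nm (x.2 * x.1 ^ 2) : ℝ) ≤ Y₁

open Classical in
lemma okJ_JW (D Y₀ Y₁ : ℝ) : OKJ (JW D Y₀ Y₁) where
  prim := fun x hx => by
    unfold JW at hx
    rw [mem_filter, mem_product, mem_primBall] at hx
    exact hx.1.1.2
  sqf := fun x hx => by
    unfold JW at hx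
    rw [mem_filter] at hx
    exact hx.2.1
  jc := fun x hx => by
    unfold JW at hx
    rw [mem_filter] at hx
    exact hx.2.2.1

open Classical in
/-- the inner sum -/
def Tj (α : Eis → ℂ) (δ j k : Eis) : ℂ :=
  ∑' m : Eis, if IsCoprime k (δ * m) ∧ IsCoprime j (δ * m) then
    α (δ * m) * ((n6 m : ℂ) * Gh j m) else 0

/-- **the structured function** (`k` primary) -/
def St (J : Finset (Eis × Eis)) (om : Eis × Eis → ℂ) (α : Eis → ℂ) (k : Eis) : ℂ :=
  ∑ x ∈ J, om x * (sy k x.1 * conj (th (x.2 * k)) * Tj α x.1 x.2 k)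

open Classical in
/-- **the common main form** -/
def XJ (J : Finset (Eis × Eis)) (α : Eis → ℂ) : ℂ :=
  ∑ x ∈ J, (((nm x.2 : ℝ) ^ (-(1 : ℝ) / 3) : ℝ) : ℂ) *
    ∑' m₁ : Eis, ∑' m₂ : Eis, if IsCoprime x.2 (x.1 * m₁ * m₂) then
      ((PE (x.1 * m₁ * m₂) : ℝ) : ℂ) * (α (x.1 * m₁) * ((n6 m₁ : ℂ) * Gh x.2 m₁)) *
        conj (α (x.1 * m₂) * ((n6 m₂ : ℂ) * Gh x.2 m₂)) else 0

end Crest.Agent.R017.C70
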