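import Crest.Agent.R017.E1i_551
import Crest.Agent.R017.C70Defs_54

/-!
# Row 17, C.REMg and R8: the lower bound for the smooth square (helper48)

Bessel's inequality for the smooth square `SqP` (helper551) and an arbitrary test function `u`:

* `CrP w K α u` : the cross sum, `GrP w K u` : the Gram sum (over primary `k`)
* `bessel` : `0 ≤ SqP - 2 Re (conj c * CrP) + |c|² GrP`
* `lbs` : `CrP = c₂ M + O(R₂)`, `GrP ≤ c₃ M + R₃` imply
  `(c₂² / c₃) M - SqP ≤ 2 (c₂ / c₃) R₂ + (c₂ / c₃)² R₃`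
* `SqP_sub` : the exact expansion of the square of the difference
* `XJ_real` : the common main form is real
-/

set_option autoImplicit false

noncomputable section

open Complex
open scoped ComplexConjugate

namespace Crest.Agent.R017.LB48

open Crest.Agent.R012 Crest.Agent.R012.Eis Crest.Agent.R012.MC Crest.Agent.R012.Gauss880
open Crest.Agent.R012.Mob705
open Crest.Agent.R017.CM106 Crest.Agent.R017.E1551 Crest.Agent.R017.C70

open Classical in
/-- cross sum -/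
def CrP (w : ℝ → ℝ) (K : ℝ) (α u : Eis → ℂ) : ℂ :=
  ∑' k : Eis, if IsPrim k then ((w (nm k / K) : ℝ) : ℂ) * (CS α k * conj (u k)) else 0

open Classical in
/-- Gram sum -/
def GrP (w : ℝ → ℝ) (K : ℝ) (u : Eis → ℂ) : ℝ :=
  ∑' k : Eis, if IsPrim k then w (nm k / K) * ‖u k‖ ^ 2 else 0

variable {w : ℝ → ℝ} {K : ℝ}

open Classical in
lemma summable_wR (hw : Wgt w) (hK : 0 < K) (F : Eis → ℝ) :
    Summable fun k : Eis => if IsPrim k then w (nm k / K) * F k else 0 := by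
  refine summable_of_hasFiniteSupport ((hw.finite_support hK).subset fun k hk h0 => hk ?_)
  have : w (nm k / K) = 0 := h0
  simp [this]

open Classical in
lemma summable_wC (hw : Wgt w) (hK : 0 < K) (F : Eis → ℂ) :
    Summable fun k : Eis => if IsPrim k then ((w (nm k / K) : ℝ) : ℂ) * F k else 0 := by
  refine summable_of_hasFiniteSupport ((hw.finite_support hK).subset fun k hk h0 => hk ?_)
  have : w (nm k / K) = 0 := h0
  simp [this]

/-- `|a - c u|² = |a|² - 2 Re (conj c a conj u) + |c|² |u|²` -/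
lemma norm_sub_mul_sq (a c u : ℂ) :
    ‖a - c * u‖ ^ 2 = ‖a‖ ^ 2 - 2 * (conj c * (a * conj u)).re + ‖c‖ ^ 2 * ‖u‖ ^ 2 := by
  rw [← Complex.normSq_eq_norm_sq, ← Complex.normSq_eq_norm_sq, ← Complex.normSq_eq_norm_sq,
    ← Complex.normSq_eq_norm_sq, Complex.normSq_sub, Complex.normSq_mul]
  have : (a * conj (c * u)).re = (conj c * (a * conj u)).re := by
    rw [map_mul]; congr 1; ring
  rw [this]; ring

open Classical in
/-- **the exact expansion** -/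
theorem SqP_sub (hw : Wgt w) (hK : 0 < K) (α u : Eis → ℂ) (c : ℂ) :
    ∑' k : Eis, (if IsPrim k then w (nm k / K) * ‖CS α k - c * u k‖ ^ 2 else 0) =
      SqP w K α - 2 * (conj c * CrP w K α u).re + ‖c‖ ^ 2 * GrP w K u := by
  have s1 := summable_wR hw hK (fun k => ‖CS α k‖ ^ 2)
  have s2 := summable_wC hw hK (fun k => CS α k * conj (u k))
  have s3 := summable_wR hw hK (fun k => ‖u k‖ ^ 2)
  have s4 : Summable fun k : Eis =>
      (conj c * (if IsPrim k then ((w (nm k / K) : ℝ) : ℂ) * (CS α k * conj (u k)) else 0)).re :=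
    (Complex.hasSum_re (s2.mul_left (conj c)).hasSum).summable
  have e1 : (conj c * CrP w K α u).re = ∑' k : Eis,
      (conj c * (if IsPrim k then ((w (nm k / K) : ℝ) : ℂ) * (CS α k * conj (u k)) else 0)).re := by
    unfold CrP
    rw [← tsum_mul_left, Complex.re_tsum (s2.mul_left (conj c))]
  rw [e1]
  unfold SqP GrP
  rw [← tsum_mul_left, ← tsum_mul_left, ← s1.tsum_sub (s4.mul_left 2),
    ← (s1.sub (s4.mul_left 2)).tsum_add (s3.mul_left (‖c‖ ^ 2))]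
  refine tsum_congr fun k => ?_
  split_ifs with hk
  · rw [norm_sub_mul_sq]
    have : (conj c * (((w (nm k / K) : ℝ) : ℂ) * (CS α k * conj (u k)))).re =
        w (nm k / K) * (conj c * (CS α k * conj (u k))).re := by
      rw [show conj c * (((w (nm k / K) : ℝ) : ℂ) * (CS α k * conj (u k))) =
        ((w (nm k / K) : ℝ) : ℂ) * (conj c * (CS α k * conj (u k))) by ring, Complex.re_ofReal_mul]
    rw [this]; ring
  · simp

/-- **Bessel** -/
theorem bessel (hw : Wgt w) (hw0 : ∀ x, 0 ≤ w x) (hK : 0 < K) (α u : Eis → ℂ) (c : ℂ) :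
    0 ≤ SqP w K α - 2 * (conj c * CrP w K α u).re + ‖c‖ ^ 2 * GrP w K u := by
  classical
  rw [← SqP_sub hw hK]
  refine tsum_nonneg fun k => ?_
  split_ifs
  · exact mul_nonneg (hw0 _) (by positivity)
  · exact le_rfl

lemma GrP_nonneg (hw0 : ∀ x, 0 ≤ w x) (u : Eis → ℂ) : 0 ≤ GrP w K u := by
  classical
  unfold GrP
  refine tsum_nonneg fun k => ?_
  split_ifs
  · exact mul_nonneg (hw0 _) (by positivity)
  · exact le_rfl

/-- **the lower bound for the smooth square** -/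
theorem lbs (hw : Wgt w) (hw0 : ∀ x, 0 ≤ w x) (hK : 0 < K) (α u : Eis → ℂ) {c₂ c₃ M R₂ R₃ : ℝ}
    (hc₂ : 0 ≤ c₂) (hc₃ : 0 < c₃) (hX : ‖CrP w K α u - ((c₂ * M : ℝ) : ℂ)‖ ≤ R₂)
    (hG : GrP w K u ≤ c₃ * M + R₃) :
    c₂ ^ 2 / c₃ * M - SqP w K α ≤ 2 * (c₂ / c₃) * R₂ + (c₂ / c₃) ^ 2 * R₃ := by
  have hb := bessel hw hw0 hK α u ((c₂ / c₃ : ℝ) : ℂ)
  have hq : 0 ≤ c₂ / c₃ := by positivity
  rw [Complex.conj_ofReal, Complex.re_ofReal_mul, Complex.norm_real, Real.norm_of_nonneg hq] at hb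
  have h1 : c₂ * M - R₂ ≤ (CrP w K α u).re := by
    have h2 := (Complex.abs_re_le_norm (CrP w K α u - ((c₂ * M : ℝ) : ℂ))).trans hX
    rw [Complex.sub_re, Complex.ofReal_re] at h2
    linarith [(abs_le.1 h2).1]
  have h3 : c₂ / c₃ * (c₂ * M - R₂) ≤ c₂ / c₃ * (CrP w K α u).re :=
    mul_le_mul_of_nonneg_left h1 hq
  have h4 : (c₂ / c₃) ^ 2 * GrP w K u ≤ (c₂ / c₃) ^ 2 * (c₃ * M + R₃) :=
    mul_le_mul_of_nonneg_left hG (by positivity)
  have e1 : (c₂ / c₃) ^ 2 * (c₃ * M) = c₂ ^ 2 / c₃ * M := by field_simp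
  have e2 : c₂ / c₃ * (c₂ * M) = c₂ ^ 2 / c₃ * M := by field_simp
  nlinarith

/-- the test function restricted to a set of `k` -/
theorem CrP_cut (hw : Wgt w) (hK : 0 < K) (α u : Eis → ℂ) (Q : Eis → Prop) [DecidablePred Q] :
    CrP w K α (fun k => if Q k then u k else 0) =
      CrP w K α u - CrP w K α (fun k => if Q k then 0 else u k) := by
  classical
  rw [eq_sub_iff_add_eq]
  unfold CrP
  rw [← (summable_wC hw hK _).tsum_add (summable_wC hw hK _)]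
  refine tsum_congr fun k => ?_
  by_cases h1 : IsPrim k
  · by_cases h2 : Q k <;> simp [h1, h2]
  · simp [h1]

/-- **with a cut**: `Q` = the kept `k` -/
theorem lbs_cut (hw : Wgt w) (hw0 : ∀ x, 0 ≤ w x) (hK : 0 < K) (α u : Eis → ℂ) (Q : Eis → Prop)
    [DecidablePred Q] {c₂ c₃ M R₂ R₃ Rt : ℝ}
    (hc₂ : 0 ≤ c₂) (hc₃ : 0 < c₃) (hX : ‖CrP w K α u - ((c₂ * M : ℝ) : ℂ)‖ ≤ R₂)
    (ht : ‖CrP w K α (fun k => if Q k then 0 else u k)‖ ≤ Rt)
    (hG : GrP w K (fun k => if Q k then u k else 0) ≤ c₃ * M + R₃) :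
    c₂ ^ 2 / c₃ * M - SqP w K α ≤ 2 * (c₂ / c₃) * (R₂ + Rt) + (c₂ / c₃) ^ 2 * R₃ := by
  refine lbs hw hw0 hK α _ hc₂ hc₃ ?_ hG
  rw [CrP_cut hw hK]
  calc ‖CrP w K α u - CrP w K α (fun k => if Q k then 0 else u k) - ((c₂ * M : ℝ) : ℂ)‖
      = ‖(CrP w K α u - ((c₂ * M : ℝ) : ℂ)) - CrP w K α (fun k => if Q k then 0 else u k)‖ := by
        congr 1; ring
    _ ≤ R₂ + Rt := (norm_sub_le _ _).trans (add_le_add hX ht)

/-! ### the common main form is real -/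

lemma XJ_real {J : Finset (Eis × Eis)} {α : Eis → ℂ} (hα : (Function.support α).Finite)
    (hJ : OKJ J) : conj (XJ J α) = XJ J α := by
  classical
  unfold XJ
  rw [map_sum]
  refine Finset.sum_congr rfl fun x hx => ?_
  rw [map_mul, Complex.conj_ofReal]
  congr 1
  let F : Eis → Eis → ℂ := fun m₁ m₂ => if IsCoprime x.2 (x.1 * m₁ * m₂) then
      ((PE (x.1 * m₁ * m₂) : ℝ) : ℂ) * (α (x.1 * m₁) * ((PX764.n6 m₁ : ℂ) * PX764.Gh x.2 m₁)) *
        conj (α (x.1 * m₂) * ((PX764.n6 m₂ : ℂ) * PX764.Gh x.2 m₂)) else 0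
  have hx0 : x.1 ≠ 0 := (hJ.prim x hx).ne_zero
  have hfin : (Function.support fun m => α (x.1 * m)).Finite := by
    refine Set.Finite.subset (hα.preimage (f := fun m => x.1 * m)
      ((mul_right_injective₀ hx0).injOn)) fun m hm => ?_
    exact hm
  set T : Finset Eis := hfin.toFinset with hT
  have hT0 : ∀ m, m ∉ T → α (x.1 * m) = 0 := by
    intro m hm
    by_contra h
    exact hm (by rw [hT]; simpa using h)
  have e1 : ∀ G : Eis → Eis → ℂ, (∀ m₁ m₂, m₁ ∉ T → G m₁ m₂ = 0) →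
      (∀ m₁ m₂, m₂ ∉ T → G m₁ m₂ = 0) →
      ∑' m₁ : Eis, ∑' m₂ : Eis, G m₁ m₂ = ∑ m₁ ∈ T, ∑ m₂ ∈ T, G m₁ m₂ := by
    intro G h1 h2
    rw [tsum_eq_sum (s := T)]
    · exact Finset.sum_congr rfl fun m₁ _ => tsum_eq_sum (s := T) fun m₂ h => h2 m₁ m₂ h
    · intro m₁ h
      rw [tsum_congr fun m₂ => h1 m₁ m₂ h, tsum_zero]
  have f1 : ∀ m₁ m₂, m₁ ∉ T → F m₁ m₂ = 0 := by
    intro m₁ m₂ h
    simp only [F]
    rw [hT0 m₁ h]; simp
  have f2 : ∀ m₁ m₂, m₂ ∉ T → F m₁ m₂ = 0 := by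
    intro m₁ m₂ h
    simp only [F]
    rw [hT0 m₂ h]; simp
  show conj (∑' m₁ : Eis, ∑' m₂ : Eis, F m₁ m₂) = ∑' m₁ : Eis, ∑' m₂ : Eis, F m₁ m₂
  rw [e1 F f1 f2, map_sum]
  simp_rw [map_sum]
  rw [Finset.sum_comm]
  refine Finset.sum_congr rfl fun m₁ _ => Finset.sum_congr rfl fun m₂ _ => ?_
  simp only [F]
  have hc : IsCoprime x.2 (x.1 * m₂ * m₁) ↔ IsCoprime x.2 (x.1 * m₁ * m₂) := by
    rw [show x.1 * m₂ * m₁ = x.1 * m₁ * m₂ by ring]
  by_cases h : IsCoprime x.2 (x.1 * m₁ * m₂)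
  · rw [if_pos h, if_pos (hc.2 h)]
    simp only [map_mul, Complex.conj_ofReal, Complex.conj_conj]
    rw [show x.1 * m₂ * m₁ = x.1 * m₁ * m₂ by ring]
    ring
  · rw [if_neg h, if_neg (fun h' => h (hc.1 h'))]; simp

end Crest.Agent.R017.LB48
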