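import Crest.Agent.R017.E5Q_571
import Crest.Agent.R017.E2r_440
import Crest.Agent.R017.LB_48

/-!
# Row 17, C.REMg: the large cubes (helper813), R22 (1) of helper49

* `lamT E1 T` : the Moebius coefficient of the large cubes
* `sum_cube_lamT` : `∑_{T³ ∣ k} lamT E1 T = [k is not cut at E1]`
* `sum_notCut` : a sum over the `k` which are not cut through complete sums over `T³ k'`
* `StE_cubeT` : the structured function at `T³ k` is a structured function `StT`
* `CrP_tail` : the cross sum over the `k` which are not cut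
-/

set_option autoImplicit false

noncomputable section

open Complex
open scoped ComplexConjugate

namespace Crest.Agent.R017.CubL813

open Crest.Agent.R012 Crest.Agent.R012.Eis Crest.Agent.R012.Mob705
open Crest.Agent.R012.Div277 (tau dvs mem_dvs isPrim_of_mem_dvs dvs_zero one_le_tau)
open Crest.Agent.R012.LS2 (S mem_S)
open Crest.Agent.R017.CM106 Crest.Agent.R017.FE47 Crest.Agent.R017.End699
open Crest.Agent.R017.C70 (CbF OKJ JC)
open Crest.Agent.R017.E2440 (TE StE StT TOK tok_TE)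
open Crest.Agent.R017.E5Q571 (Cut dvd_of_cube_dvd sqf_dvd_cube CS_cube)
open Crest.Agent.R017.LB48 (CrP)
open Crest.Agent.R012.MC
open Crest.Agent.R017.PX764 (th)

/-! ### the coefficient -/

open Classical in
/-- the Moebius coefficient of the large cubes -/
def lamT (E1 : ℝ) (T : Eis) : ℤ :=
  ∑ d ∈ (dvs T).filter (fun d => E1 < (nm d : ℝ)), muE (T / d)

lemma mul_div_mem {d n : Eis} (hd : d ∈ dvs n) : d * (n / d) = n := by
  by_cases hn : n = 0
  · subst hn
    rw [dvs_zero] at hd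
    exact absurd hd (Finset.notMem_empty _)
  obtain ⟨h1, c, rfl⟩ := (mem_dvs hn).1 hd
  rw [mul_div_cancel_left₀ _ h1.ne_zero]

lemma prim_div {d n : Eis} (hn : IsPrim n) (hd : d ∈ dvs n) : IsPrim (n / d) := by
  have h := mul_div_mem hd
  have h1 : IsPrim (d * (n / d)) := by rw [h]; exact hn
  exact IsPrim.of_mul_left h1 (isPrim_of_mem_dvs hd)

lemma abs_muE_le_one (n : Eis) : |muE n| ≤ 1 := by
  rw [abs_muE]; split_ifs <;> norm_num

lemma abs_lamT_le (E1 : ℝ) (T : Eis) : |lamT E1 T| ≤ tau T := by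
  classical
  unfold lamT
  refine (Finset.abs_sum_le_sum_abs _ _).trans ?_
  calc ∑ d ∈ (dvs T).filter (fun d => E1 < (nm d : ℝ)), |muE (T / d)| ≤
        ∑ d ∈ (dvs T).filter (fun d => E1 < (nm d : ℝ)), (1 : ℤ) :=
        Finset.sum_le_sum fun d _ => abs_muE_le_one _
    _ = (((dvs T).filter (fun d => E1 < (nm d : ℝ))).card : ℤ) := by simp
    _ ≤ tau T := by
        unfold tau
        exact_mod_cast Finset.card_filter_le _ _

lemma norm_lamT_le (E1 : ℝ) (T : Eis) : ‖(lamT E1 T : ℂ)‖ ≤ tau T := by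
  rw [Complex.norm_intCast]
  exact_mod_cast abs_lamT_le E1 T

lemma lamT_small {E1 : ℝ} {T : Eis} (h : (nm T : ℝ) ≤ E1) : lamT E1 T = 0 := by
  classical
  by_cases hT : T = 0
  · subst hT
    unfold lamT
    rw [dvs_zero, Finset.filter_empty, Finset.sum_empty]
  unfold lamT
  rw [Finset.filter_false_of_mem, Finset.sum_empty]
  intro d hd h1
  have h2 : (nm d : ℝ) ≤ nm T := by
    exact_mod_cast Div277.nm_le_of_dvd hT ((mem_dvs hT).1 hd).2
  linarith

open Classical in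
/-- `∑_{T ∣ e} lamT E1 T = [E1 < nm e]` -/
theorem sum_lamT (E1 : ℝ) {e : Eis} (he : IsPrim e) :
    ∑ T ∈ dvs e, lamT E1 T = if E1 < (nm e : ℝ) then 1 else 0 := by
  have hn := he.ne_zero
  have e1 : ∑ T ∈ dvs e, lamT E1 T =
      ∑ d ∈ (dvs e).filter (fun d => E1 < (nm d : ℝ)), ∑ u ∈ dvs (e / d), muE u := by
    unfold lamT
    rw [Finset.sum_sigma', Finset.sum_sigma']
    refine Finset.sum_bij' (fun p _ => ⟨p.2, p.1 / p.2⟩) (fun p _ => ⟨p.1 * p.2, p.1⟩) ?_ ?_ ?_ ?_ ?_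
    · rintro ⟨T, d⟩ h
      rw [Finset.mem_sigma, Finset.mem_filter] at h
      obtain ⟨h1, h2, h3⟩ := h
      obtain ⟨hT, hTe⟩ := (mem_dvs hn).1 h1
      obtain ⟨hd, hdT⟩ := (mem_dvs hT.ne_zero).1 h2
      have h4 := mul_div_mem h2
      have hde : d ∣ e := hdT.trans hTe
      have h5 : d ∈ dvs e := (mem_dvs hn).2 ⟨hd, hde⟩
      have h6 := mul_div_mem h5
      have h7 : IsPrim (T / d) := prim_div hT h2
      have h8 : IsPrim (e / d) := prim_div he h5
      rw [Finset.mem_sigma, Finset.mem_filter]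
      refine ⟨⟨h5, h3⟩, (mem_dvs h8.ne_zero).2 ⟨h7, ?_⟩⟩
      obtain ⟨c, hc⟩ := hTe
      refine ⟨c, mul_left_cancel₀ hd.ne_zero ?_⟩
      rw [h6, ← mul_assoc, h4, hc]
    · rintro ⟨d, u⟩ h
      rw [Finset.mem_sigma, Finset.mem_filter] at h
      obtain ⟨⟨h1, h3⟩, h2⟩ := h
      have h6 := mul_div_mem h1
      obtain ⟨hd, hde⟩ := (mem_dvs hn).1 h1
      have h8 : IsPrim (e / d) := prim_div he h1
      obtain ⟨hu, hue⟩ := (mem_dvs h8.ne_zero).1 h2
      rw [Finset.mem_sigma, Finset.mem_filter]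
      refine ⟨(mem_dvs hn).2 ⟨hd.mul hu, ?_⟩, (mem_dvs (hd.mul hu).ne_zero).2
        ⟨hd, dvd_mul_right _ _⟩, h3⟩
      rw [← h6]
      exact mul_dvd_mul_left d hue
    · rintro ⟨T, d⟩ h
      rw [Finset.mem_sigma, Finset.mem_filter] at h
      simp only [mul_div_mem h.2.1]
    · rintro ⟨d, u⟩ h
      rw [Finset.mem_sigma, Finset.mem_filter] at h
      have hd := ((mem_dvs hn).1 h.1.1).1
      simp only [mul_div_cancel_left₀ _ hd.ne_zero]
    · rintro ⟨T, d⟩ _
      rfl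
  rw [e1]
  have e2 : ∀ d ∈ (dvs e).filter (fun d => E1 < (nm d : ℝ)), ∑ u ∈ dvs (e / d), muE u =
      if d = e then 1 else 0 := by
    intro d hd
    have hd' := (Finset.mem_filter.1 hd).1
    have h6 := mul_div_mem hd'
    have hdp := ((mem_dvs hn).1 hd').1
    have h8 : IsPrim (e / d) := prim_div he hd'
    rw [sum_dvs_muE_one h8]
    congr 1
    apply propext
    constructor
    · intro h; rw [h, mul_one] at h6; exact h6
    · intro h
      rw [h]
      exact EuclideanDomain.div_self hn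
  rw [Finset.sum_congr rfl e2, Finset.sum_ite_eq' ((dvs e).filter (fun d => E1 < (nm d : ℝ))) e
    (fun _ => (1 : ℤ))]
  congr 1
  apply propext
  rw [Finset.mem_filter, mem_dvs hn]
  exact ⟨fun h => h.2, fun h => ⟨⟨he, dvd_rfl⟩, h⟩⟩

lemma cube_dvd_iff {j e T : Eis} (hj : IsPrim j) (he : IsPrim e) (hT : IsPrim T) (hcf : CbF j) :
    T ^ 3 ∣ j * e ^ 3 ↔ T ∣ e :=
  ⟨dvd_of_cube_dvd hj he hT hcf, fun h => Dvd.dvd.mul_left (pow_dvd_pow_of_dvd h 3) _⟩

open Classical in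
/-- **the indicator of the large cubes** -/
theorem sum_cube_lamT (E1 : ℝ) {k : Eis} (hk : IsPrim k) {N : ℕ}
    (hN : ∀ T, IsPrim T → T ^ 3 ∣ k → nm T ≤ N) :
    ∑ T ∈ (primBall N).filter (fun T => T ^ 3 ∣ k), lamT E1 T = if Cut E1 k then 0 else 1 := by
  obtain ⟨j, e, hj, he, hcf, hke⟩ := E5b54.exists_cf_prim hk
  have e1 : (primBall N).filter (fun T => T ^ 3 ∣ k) = dvs e := by
    ext T
    rw [Finset.mem_filter, mem_primBall, mem_dvs he.ne_zero]
    constructor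
    · rintro ⟨⟨_, hT⟩, h⟩
      exact ⟨hT, (cube_dvd_iff hj he hT hcf).1 (hke ▸ h)⟩
    · rintro ⟨hT, h⟩
      have h1 : T ^ 3 ∣ k := by rw [hke]; exact (cube_dvd_iff hj he hT hcf).2 h
      exact ⟨⟨hN T hT h1, hT⟩, h1⟩
  rw [e1, sum_lamT E1 he]
  have e2 : Cut E1 k ↔ (nm e : ℝ) ≤ E1 := by
    constructor
    · intro h
      exact h e he ⟨j, by rw [hke]; ring⟩
    · intro h f hf hfk
      have h1 : f ∣ e := dvd_of_cube_dvd hj he hf hcf (hke ▸ hfk)
      have h2 : (nm f : ℝ) ≤ nm e := by exact_mod_cast Div277.nm_le_of_dvd he.ne_zero h1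
      linarith
  by_cases h : Cut E1 k
  · rw [if_pos h, if_neg (not_lt.2 (e2.1 h))]
  · rw [if_neg h, if_pos (not_le.1 fun h' => h (e2.2 h'))]

/-! ### sums over the `k` which are not cut -/

lemma tsum_cube {T : Eis} (hT : IsPrim T) (F : Eis → ℂ) :
    (∑' k : Eis, by classical exact if IsPrim k ∧ T ^ 3 ∣ k then F k else 0) =
      ∑' k : Eis, by classical exact if IsPrim k then F (T ^ 3 * k) else 0 := by
  classical
  have hT0 : T ^ 3 ≠ 0 := pow_ne_zero _ hT.ne_zero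
  have hT3 : IsPrim (T ^ 3) := by
    rw [pow_succ, pow_two]; exact (hT.mul hT).mul hT
  set g : Eis → Eis := fun k => T ^ 3 * k with hg
  have hinj : Function.Injective g := fun a b h => mul_left_cancel₀ hT0 h
  have h1 : ∀ k, (if IsPrim k then F (T ^ 3 * k) else 0) =
      (fun k : Eis => if IsPrim k ∧ T ^ 3 ∣ k then F k else 0) (g k) := by
    intro k
    simp only [hg]
    by_cases hk : IsPrim k
    · rw [if_pos hk, if_pos ⟨hT3.mul hk, dvd_mul_right _ _⟩]
    · rw [if_neg hk, if_neg fun h => hk (IsPrim.of_mul_left h.1 hT3)]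
  rw [tsum_congr h1]
  refine (hinj.tsum_eq ?_).symm
  intro k hk
  rw [Function.mem_support] at hk
  by_cases h : IsPrim k ∧ T ^ 3 ∣ k
  · obtain ⟨c, hc⟩ := h.2
    exact ⟨c, hc.symm⟩
  · exact absurd (if_neg h) hk

open Classical in
/-- **the sum over the `k` which are not cut** -/
theorem sum_notCut (E1 : ℝ) {F : Eis → ℂ} {X : ℕ} (hF : ∀ k, F k ≠ 0 → nm k ≤ X) {N : ℕ}
    (hN : ∀ T : Eis, nm T ^ 3 ≤ X → nm T ≤ N) :
    (∑' k : Eis, if IsPrim k ∧ ¬ Cut E1 k then F k else 0) =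
      ∑ T ∈ (primBall N).filter (fun T => E1 < (nm T : ℝ)), (lamT E1 T : ℂ) *
        ∑' k : Eis, if IsPrim k then F (T ^ 3 * k) else 0 := by
  have h1 : ∀ k : Eis, (if IsPrim k ∧ ¬ Cut E1 k then F k else 0) =
      ∑ T ∈ primBall N, (lamT E1 T : ℂ) * (if IsPrim k ∧ T ^ 3 ∣ k then F k else 0) := by
    intro k
    by_cases hk : IsPrim k
    · by_cases hF0 : F k = 0
      · rw [hF0]
        simp
      have hkX := hF k hF0
      have hN' : ∀ T, IsPrim T → T ^ 3 ∣ k → nm T ≤ N := by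
        intro T hT h
        apply hN
        rw [← nm_pow]
        exact (Div277.nm_le_of_dvd hk.ne_zero h).trans hkX
      have h2 := sum_cube_lamT E1 hk hN'
      have h3 : ∑ T ∈ primBall N, (lamT E1 T : ℂ) * (if IsPrim k ∧ T ^ 3 ∣ k then F k else 0) =
          ((∑ T ∈ (primBall N).filter (fun T => T ^ 3 ∣ k), lamT E1 T : ℤ) : ℂ) * F k := by
        push_cast
        rw [Finset.sum_filter, Finset.sum_mul]
        refine Finset.sum_congr rfl fun T _ => ?_
        by_cases h : T ^ 3 ∣ k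
        · rw [if_pos ⟨hk, h⟩, if_pos h]
        · rw [if_neg fun h' => h h'.2, if_neg h, mul_zero, zero_mul]
      rw [h3, h2]
      by_cases hc : Cut E1 k
      · rw [if_neg fun h => h.2 hc, if_pos hc]; simp
      · rw [if_pos ⟨hk, hc⟩, if_neg hc]; simp
    · rw [if_neg fun h => hk h.1]
      symm
      refine Finset.sum_eq_zero fun T _ => ?_
      rw [if_neg fun h => hk h.1, mul_zero]
  rw [tsum_congr h1]
  have hfin : ∀ T : Eis, Summable fun k : Eis =>
      (lamT E1 T : ℂ) * (if IsPrim k ∧ T ^ 3 ∣ k then F k else 0) := by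
    intro T
    refine summable_of_hasFiniteSupport ((primBall X).finite_toSet.subset fun k hk => ?_)
    rw [Function.mem_support] at hk
    have h2 := right_ne_zero_of_mul hk
    by_cases h : IsPrim k ∧ T ^ 3 ∣ k
    · rw [if_pos h] at h2
      rw [Finset.mem_coe, mem_primBall]
      exact ⟨hF k h2, h.1⟩
    · rw [if_neg h] at h2
      exact absurd rfl h2
  rw [Summable.tsum_finsetSum fun T _ => hfin T]
  rw [Finset.sum_filter]
  refine Finset.sum_congr rfl fun T hT => ?_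
  have hTp := (mem_primBall.1 hT).2
  rw [tsum_mul_left]
  split_ifs with h
  · rw [← tsum_cube hTp]
  · rw [lamT_small (not_lt.1 h)]
    simp

/-! ### the structured function at `T³ k` -/

/-- splitting of a squarefree divisor of `T k` -/
lemma exists_split {t T k : Eis} (ht : IsPrim t) (hs : Squarefree t) (h : t ∣ T * k) :
    ∃ e₀ e : Eis, IsPrim e₀ ∧ IsPrim e ∧ t = e₀ * e ∧ e₀ ∣ T ∧ e ∣ k ∧ IsCoprime e T := by
  obtain ⟨g, T₁, t₁, hg, ht₁, hT, htt, hc⟩ := X6D502.exists_gcd T ht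
  have hg0 := hg.ne_zero
  have h1 : t₁ ∣ T₁ * k := by
    obtain ⟨c, hc'⟩ := h
    refine ⟨c, mul_left_cancel₀ hg0 ?_⟩
    calc g * (T₁ * k) = (g * T₁) * k := by ring
      _ = T * k := by rw [← hT]
      _ = t * c := hc'
      _ = (g * t₁) * c := by rw [← htt]
      _ = g * (t₁ * c) := by ring
  have h2 : t₁ ∣ k := hc.symm.dvd_of_dvd_mul_left h1
  have h3 : IsCoprime g t₁ := by
    have h4 : Squarefree (g * t₁) := htt ▸ hs
    exact isRelPrime_iff_isCoprime.1 (squarefree_mul_iff.1 h4).1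
  refine ⟨g, t₁, hg, ht₁, htt, ⟨T₁, hT⟩, h2, ?_⟩
  rw [hT]
  exact IsCoprime.mul_right h3.symm hc.symm

lemma split_unique {T e₀ e e₀' e' : Eis} (h₀ : IsPrim e₀) (h₀' : IsPrim e₀')
    (h : e₀ * e = e₀' * e') (hT : e₀ ∣ T) (hT' : e₀' ∣ T) (hc : IsCoprime e T)
    (hc' : IsCoprime e' T) : e₀ = e₀' ∧ e = e' := by
  have h1 : e₀ ∣ e₀' := by
    have : IsCoprime e₀ e' := (hc'.symm).of_isCoprime_of_dvd_left hT
    exact this.dvd_of_dvd_mul_right (h ▸ dvd_mul_right e₀ e)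
  have h2 : e₀' ∣ e₀ := by
    have : IsCoprime e₀' e := (hc.symm).of_isCoprime_of_dvd_left hT'
    exact this.dvd_of_dvd_mul_right (h.symm ▸ dvd_mul_right e₀' e')
  have h3 : e₀ = e₀' := h₀.eq_of_associated h₀' (associated_of_dvd_dvd h1 h2)
  subst h3
  exact ⟨rfl, mul_left_cancel₀ h₀.ne_zero h⟩

open Classical in
/-- the coefficients of the structured function at `T³ k` -/
def TT (T : Eis) (E0 : ℝ) (A : Eis × Eis → Eis → ℂ) (x : Eis × Eis) (e : Eis) : ℂ :=
  prin0 T e * ∑ e₀ ∈ (dvs T).filter (fun e₀ => (nm (e₀ * e) : ℝ) ≤ E0),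
    (mu e₀ : ℂ) * A x (e₀ * e)

lemma tok_TT {T : Eis} {E0 : ℝ} {A : Eis × Eis → Eis → ℂ} (hA : TOK A) : TOK (TT T E0 A) := by
  classical
  intro x e h
  unfold TT at h
  obtain ⟨e₀, _, h1⟩ := Finset.exists_ne_zero_of_sum_ne_zero (right_ne_zero_of_mul h)
  obtain ⟨h2, h3, h4⟩ := hA x (e₀ * e) (right_ne_zero_of_mul h1)
  exact ⟨h2, (IsCoprime.mul_right_iff.1 h3).2, (IsCoprime.mul_left_iff.1 h4).2⟩

open Classical in
/-- the Moebius sum over the divisors of `T k` -/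
theorem sum_dvd_mul {E0 : ℝ} (hE0 : 0 ≤ E0) {T : Eis} (hT : IsPrim T) (k : Eis) (F : Eis → ℂ) :
    ∑ t ∈ (S E0).filter (fun t => t ∣ T * k), (mu t : ℂ) * F t =
      ∑ e ∈ (S E0).filter (fun e => e ∣ k), (mu e : ℂ) * (prin0 T e *
        ∑ e₀ ∈ (dvs T).filter (fun e₀ => (nm (e₀ * e) : ℝ) ≤ E0), (mu e₀ : ℂ) * F (e₀ * e)) := by
  set P : Finset (Eis × Eis) := ((S E0).filter (fun e => e ∣ k) ×ˢ dvs T).filter
    (fun p => IsCoprime p.1 T ∧ (nm (p.2 * p.1) : ℝ) ≤ E0 ∧ Squarefree p.2) with hP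
  have e1 : ∑ e ∈ (S E0).filter (fun e => e ∣ k), (mu e : ℂ) * (prin0 T e *
        ∑ e₀ ∈ (dvs T).filter (fun e₀ => (nm (e₀ * e) : ℝ) ≤ E0), (mu e₀ : ℂ) * F (e₀ * e)) =
      ∑ p ∈ P, (mu (p.2 * p.1) : ℂ) * F (p.2 * p.1) := by
    conv_rhs => rw [hP, Finset.sum_filter, Finset.sum_product]
    refine Finset.sum_congr rfl fun e he => ?_
    obtain ⟨h1, _⟩ := Finset.mem_filter.1 he
    have hep := ((mem_S hE0).1 h1).2.1
    rw [Finset.mul_sum, Finset.mul_sum, Finset.sum_filter]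
    refine Finset.sum_congr rfl fun e₀ he₀ => ?_
    have he₀' := (mem_dvs hT.ne_zero).1 he₀
    by_cases hc : IsCoprime e T
    · by_cases hn : (nm (e₀ * e) : ℝ) ≤ E0
      · by_cases hs : Squarefree e₀
        · rw [if_pos hn, if_pos ⟨hc, hn, hs⟩]
          unfold prin0
          rw [if_pos hc]
          have h2 : IsCoprime e₀ e := (hc.symm).of_isCoprime_of_dvd_left he₀'.2
          rw [show mu (e₀ * e) = mu e₀ * mu e from
            muE_mul he₀'.1.ne_zero hep.ne_zero h2]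
          push_cast
          ring
        · rw [if_pos hn, if_neg fun h => hs h.2.2, mu_of_not_squarefree hs]
          simp
      · rw [if_neg hn, if_neg fun h => hn h.2.1]
    · have h9 : ¬ (IsCoprime (e, e₀).1 T ∧ (nm ((e, e₀).2 * (e, e₀).1) : ℝ) ≤ E0 ∧
          Squarefree (e, e₀).2) := fun h => hc h.1
      rw [if_neg h9]
      unfold prin0
      rw [if_neg hc]
      simp
  rw [e1]
  symm
  refine Finset.sum_bij (fun p _ => p.2 * p.1) ?_ ?_ ?_ ?_
  · rintro ⟨e, e₀⟩ hp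
    rw [hP, Finset.mem_filter, Finset.mem_product, Finset.mem_filter] at hp
    obtain ⟨⟨⟨h1, h2⟩, h3⟩, h4, h5, h6⟩ := hp
    obtain ⟨-, hep, hes⟩ := (mem_S hE0).1 h1
    obtain ⟨h7, h8⟩ := (mem_dvs hT.ne_zero).1 h3
    simp only at h4 h5 h6 h8 ⊢
    rw [Finset.mem_filter, mem_S hE0]
    refine ⟨⟨h5, h7.mul hep, ?_⟩, mul_dvd_mul h8 h2⟩
    rw [squarefree_mul_iff]
    exact ⟨((h4.symm).of_isCoprime_of_dvd_left h8).isRelPrime, h6, hes⟩
  · rintro ⟨e, e₀⟩ hp ⟨e', e₀'⟩ hp' h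
    rw [hP, Finset.mem_filter, Finset.mem_product, Finset.mem_filter] at hp hp'
    obtain ⟨h1, h2⟩ := (mem_dvs hT.ne_zero).1 hp.1.2
    obtain ⟨h1', h2'⟩ := (mem_dvs hT.ne_zero).1 hp'.1.2
    obtain ⟨h3, h4⟩ := split_unique h1 h1' h h2 h2' hp.2.1 hp'.2.1
    simp only at h3 h4
    rw [h3, h4]
  · intro t ht
    rw [Finset.mem_filter] at ht
    obtain ⟨h1, h2⟩ := ht
    obtain ⟨h3, h4, h5⟩ := (mem_S hE0).1 h1
    obtain ⟨e₀, e, he₀, he, rfl, h6, h7, h8⟩ := exists_split h4 h5 h2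
    rw [squarefree_mul_iff] at h5
    refine ⟨(e, e₀), ?_, rfl⟩
    rw [hP, Finset.mem_filter, Finset.mem_product, Finset.mem_filter, mem_S hE0,
      mem_dvs hT.ne_zero]
    refine ⟨⟨⟨⟨?_, he, h5.2.2⟩, h7⟩, he₀, h6⟩, h8, h3, h5.2.1⟩
    refine le_trans ?_ h3
    rw [nm_mul]
    exact_mod_cast Nat.le_mul_of_pos_left _ (nm_pos.2 he₀.ne_zero)
  · rintro ⟨e, e₀⟩ _
    rfl

open Classical in
/-- **the structured function at `T³ k`** -/
theorem StE_cubeT {T : Eis} (hT : IsPrim T) (k : Eis) {E0 : ℝ} (hE0 : 0 ≤ E0)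
    {J : Finset (Eis × Eis)} (hJ : OKJ J) (om : Eis × Eis → ℂ) (A : Eis × Eis → Eis → ℂ) :
    StT E0 J om A (T ^ 3 * k) =
      StT E0 J (fun x => om x * prin0 T x.1) (TT T E0 A) k := by
  unfold E2440.StT
  refine Finset.sum_congr rfl fun x hx => ?_
  rw [mul_comm (T ^ 3) k, Lbc298.sy_mul_cube' (hJ.prim x hx), ← mul_assoc x.2 k,
    PX764.th_cube_all hT.ne_zero]
  have h1 : (S E0).filter (fun t => t ∣ k * T ^ 3) = (S E0).filter (fun t => t ∣ T * k) := by
    refine Finset.filter_congr fun t ht => ?_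
    have hs : Squarefree t := by
      unfold S at ht
      exact (Finset.mem_filter.1 ht).2
    rw [mul_comm k, sqf_dvd_cube hs]
  rw [h1, sum_dvd_mul hE0 hT k]
  unfold TT
  ring

/-! ### the cross sum -/

/-- **the cross sum over the `k` which are not cut** -/
theorem CrP_tail {w : ℝ → ℝ} {K : ℝ} (hK : 0 < K) (E1 : ℝ) {α : Eis → ℂ}
    (hα : ∀ m, α m ≠ 0 → IsPrim m) (u : Eis → ℂ) {N : ℕ}
    (hN : ∀ T : Eis, w ((nm T : ℝ) / K) ≠ 0 → nm T ≤ N) :
    CrP w K α (fun k => by classical exact if Cut E1 k then 0 else u k) =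
      ∑ T ∈ (by classical exact (primBall N).filter (fun T => E1 < (nm T : ℝ))),
        (lamT E1 T : ℂ) * CrP w (K / (nm T : ℝ) ^ 3) (fun m => α m * prin0 T m)
          (fun k => u (T ^ 3 * k)) := by
  classical
  set F : Eis → ℂ := fun k => ((w (nm k / K) : ℝ) : ℂ) * (CS α k * conj (u k)) with hF
  have h1 : CrP w K α (fun k => if Cut E1 k then 0 else u k) =
      ∑' k : Eis, if IsPrim k ∧ ¬ Cut E1 k then F k else 0 := by
    unfold LB48.CrP
    refine tsum_congr fun k => ?_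
    by_cases hk : IsPrim k
    · by_cases hc : Cut E1 k
      · rw [if_pos hk, if_neg fun h => h.2 hc]
        simp only [if_pos hc, map_zero, mul_zero]
      · rw [if_pos hk, if_pos ⟨hk, hc⟩]
        simp only [hF, if_neg hc]
    · rw [if_neg hk, if_neg fun h => hk h.1]
  have hF' : ∀ k, F k ≠ 0 → nm k ≤ N := fun k hk => hN k fun h0 => by
    apply hk
    simp only [hF]
    rw [h0]; simp
  rw [h1, sum_notCut E1 (F := F) (X := N) hF' (N := N) fun T hT => ?_]
  · refine Finset.sum_congr rfl fun T hT => ?_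
    have hTp := (mem_primBall.1 (Finset.mem_filter.1 hT).1).2
    have hT0 : (0 : ℝ) < nm T := by exact_mod_cast nm_pos.2 hTp.ne_zero
    congr 1
    unfold LB48.CrP
    refine tsum_congr fun k => ?_
    by_cases hk : IsPrim k
    · rw [if_pos hk, if_pos hk]
      simp only [hF]
      rw [CS_cube hα]
      have e3 : (nm (T ^ 3 * k) : ℝ) / K = (nm k : ℝ) / (K / (nm T : ℝ) ^ 3) := by
        rw [nm_mul, nm_pow]
        push_cast
        field_simp
      rw [e3]
    · rw [if_neg hk, if_neg hk]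
  · by_cases h0 : nm T = 0
    · omega
    · have : nm T ≤ nm T ^ 3 := Nat.le_self_pow (by norm_num) _
      omega

/-- **the cross sum of the structured function over the `k` which are not cut** -/
theorem CrP_tailS {w : ℝ → ℝ} {K : ℝ} (hK : 0 < K) (E1 : ℝ) {E0 : ℝ}
    (hE0 : 0 ≤ E0) {α : Eis → ℂ} (hα : ∀ m, α m ≠ 0 → IsPrim m) {J : Finset (Eis × Eis)}
    (hJ : OKJ J) (om : Eis × Eis → ℂ) (A : Eis × Eis → Eis → ℂ) {N : ℕ}
    (hN : ∀ T : Eis, w ((nm T : ℝ) / K) ≠ 0 → nm T ≤ N) :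
    CrP w K α (fun k => by classical exact if Cut E1 k then 0 else StT E0 J om A k) =
      ∑ T ∈ (by classical exact (primBall N).filter (fun T => E1 < (nm T : ℝ))),
        (lamT E1 T : ℂ) * CrP w (K / (nm T : ℝ) ^ 3) (fun m => α m * prin0 T m)
          (StT E0 J (fun x => om x * prin0 T x.1) (TT T E0 A)) := by
  classical
  rw [CrP_tail hK E1 hα _ hN]
  refine Finset.sum_congr rfl fun T hT => ?_
  have hTp := (mem_primBall.1 (Finset.mem_filter.1 hT).1).2
  congr 2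
  funext k
  exact StE_cubeT hTp k hE0 hJ om A

end Crest.Agent.R017.CubL813
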