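import Crest.Agent.R017.E3Kg_548
import Crest.Agent.R017.CubL_813

/-!
# Row 17, R8 (E3t) (helper548): the Gram sum of the structured function at `m³ k`

* `afm` : the sequence of the divisor `e0` of the cube
* `StT_m3` : the structured function at `m³ k` through the divisors `e0 ∣ m`
* `ET4aQ` : the second moment over cube-free `k ∈ [ρ K, K]` at `m³ k`, conclusion of `Z2s` at
  `f = e0 e`, `f` in any range; `ET4a` all `f`; `StE_sub` the range `E1 < N f`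
-/

set_option autoImplicit false
set_option linter.unusedVariables false

noncomputable section

open Finset
open scoped Classical ComplexConjugate ContDiff

namespace Crest.Agent.R017.ET4a548

open Crest.Agent.R012 Crest.Agent.R012.Eis Crest.Agent.R012.Div277
open Crest.Agent.R012.MC (Wgt)
open Crest.Agent.R012.LS2 (S mem_S bl)
open Crest.Agent.R012.Mob705 (mu)
open Crest.Agent.R012.Weight600 (pw)
open Crest.Agent.R017.C70 (JC OKJ JW okJ_JW CbF)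
open Crest.Agent.R017.CM106 (CS FS)
open Crest.Agent.R017.HB645 (hh)
open Crest.Agent.R017.E3D579 (TE0)
open Crest.Agent.R017.E1551 (nmpos)
open Crest.Agent.R017.E3A164 (SteT)
open Crest.Agent.R017.E3M829 (TC Tal Cut)
open Crest.Agent.R017.E3F548
open Crest.Agent.R017.E3T1579 (T3)
open Crest.Agent.R017.E3T829 (cg hE RR)
open Crest.Agent.R017.E3Z548
open Crest.Agent.R017.E3Kc548 Crest.Agent.R017.E3Ke548
open Crest.Agent.R017.Mode405 (Slp)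
open Crest.Agent.R017.E3Sx579 (RHR)
open Crest.Agent.R017.E3Sz579 (Ld Md Ld_nonneg Md_nonneg)
open Crest.Agent.R017.E3Hf290 (RN2F RN2F_nonneg)
open Crest.Agent.R017.E2440 (TE StE StT)
open Crest.Agent.R017.End699 (prin0)
open Crest.Agent.R017.CubL813 (StE_cubeT split_unique)
open Crest.Agent.R017.PX764 (th Gh n6)
open Crest.Agent.R017.R3571 (RMm RMm_nonneg rm)

/-! ### the sequence -/

/-- the sequence of the divisor `e0` of the cube, range `Q` of `e0 e` -/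
def afm (α : Eis → ℂ) (m : Eis) (Q : Eis → Prop) (e0 d e n : Eis) : ℂ :=
  if IsPrim n ∧ IsPrim d ∧ IsCoprime d m ∧ (IsCoprime e m ∧ Q (e0 * e)) ∧ e0 ∣ n then α (d * n)
  else 0

section afm

variable {α : Eis → ℂ} {Q : Eis → Prop} {m e0 d e j : Eis}

lemma afm_ne {n : Eis} (h : afm α m Q e0 d e n ≠ 0) :
    (IsPrim n ∧ IsPrim d ∧ IsCoprime d m ∧ (IsCoprime e m ∧ Q (e0 * e)) ∧ e0 ∣ n) ∧ α (d * n) ≠ 0 := by
  unfold afm at h
  split_ifs at h with h1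
  · exact ⟨h1, h⟩
  · exact absurd rfl h

lemma FS_afm (hα : FS α) (d e : Eis) : FS (afm α m Q e0 d e) where
  prim := fun n hn => (afm_ne hn).1.1
  fin := by
    by_cases hd : d = 0
    · refine Set.Finite.subset Set.finite_empty fun n hn => ?_
      exact absurd hd (afm_ne hn).1.2.1.ne_zero
    · refine Set.Finite.subset (hα.fin.preimage (f := fun n => d * n)
        (fun a _ b _ h => mul_left_cancel₀ hd h)) fun n hn => ?_
      exact (afm_ne hn).2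

lemma afm_sqf (hs : ∀ n, α n ≠ 0 → Squarefree n) {n : Eis} (h : afm α m Q e0 d e n ≠ 0) :
    Squarefree n := (hs _ (afm_ne h).2).of_mul_right

lemma afm_win {X R0 : ℝ} (hw : ∀ n, α n ≠ 0 → |Real.log (nm n) - Real.log X| ≤ R0) {n : Eis}
    (h : afm α m Q e0 d e n ≠ 0) : |Real.log (nm d * nm n) - Real.log X| ≤ R0 := by
  have := hw _ (afm_ne h).2
  rwa [nm_mul, Nat.cast_mul] at this

lemma TC_afm (hs : ∀ n, α n ≠ 0 → Squarefree n) : TC (T3 (afm α m Q e0)) := by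
  intro d e j h
  obtain ⟨n, h1, h2, h3⟩ := T3_ne h
  have h4 := (afm_ne h3).2
  have h5 : IsCoprime d n := (squarefree_mul_iff.mp (hs _ h4)).1.isCoprime
  exact ⟨h2.of_mul_right_right.of_isCoprime_of_dvd_right h1, h2.of_mul_right_left,
    (h5.of_isCoprime_of_dvd_right h1).symm⟩

lemma afm_bad (h : ¬ (IsPrim d ∧ IsCoprime d m ∧ (IsCoprime e m ∧ Q (e0 * e)))) : afm α m Q e0 d e = 0 := by
  funext n
  by_contra hne
  exact h ⟨(afm_ne hne).1.2.1, (afm_ne hne).1.2.2.1, (afm_ne hne).1.2.2.2.1⟩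

lemma prim_right (hp : ∀ n, α n ≠ 0 → IsPrim n) (hd : IsPrim d) {n : Eis} (h : α (d * n) ≠ 0) :
    IsPrim n := (hp _ h).of_mul_left hd

lemma mul_dvd_iff' {e0 e m n : Eis} (h0 : e0 ∣ m) (he : IsCoprime e m) :
    (e ∣ n ∧ e0 ∣ n) ↔ e0 * e ∣ n := by
  have hc : IsCoprime e0 e := (he.of_isCoprime_of_dvd_right h0).symm
  exact ⟨fun h => hc.mul_dvd h.2 h.1, fun h => ⟨(dvd_mul_left e e0).trans h,
    (dvd_mul_right e0 e).trans h⟩⟩

/-- every line of `afm` at `e` is the line of `α` at `e0 e` -/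
lemma TE0_afm (hp : ∀ n, α n ≠ 0 → IsPrim n) (h0 : e0 ∣ m) (hd : IsPrim d)
    (hdm : IsCoprime d m) (heq : IsCoprime e m ∧ Q (e0 * e)) (γ δ j : Eis) :
    TE0 (cg γ (afm α m Q e0 d e)) δ j e = TE0 (cg γ (fun n => α (d * n))) δ j (e0 * e) := by
  obtain ⟨he, hq⟩ := heq
  unfold TE0
  refine tsum_congr fun n => ?_
  unfold cg afm
  by_cases hα : α (d * n) = 0
  · simp [hα]
  · have hn := prim_right hp hd hα
    have hk := mul_dvd_iff' (n := n) h0 he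
    by_cases h1 : e0 ∣ n
    · by_cases h2 : e ∣ n
      · have h3 : e0 * e ∣ n := hk.mp ⟨h2, h1⟩
        simp only [hn, hd, hdm, he, hq, h1, h2, h3, and_self, if_true, true_and]
      · have h3 : ¬ e0 * e ∣ n := fun h => h2 (hk.mpr h).1
        simp only [h2, h3, false_and, if_false]
    · have h3 : ¬ e0 * e ∣ n := fun h => h1 (hk.mpr h).2
      simp only [h1, h3, and_false, false_and, if_false, ite_self, zero_mul]

lemma TE0_bad (h : ¬ (IsPrim d ∧ IsCoprime d m ∧ (IsCoprime e m ∧ Q (e0 * e)))) (γ δ j : Eis) :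
    TE0 (cg γ (afm α m Q e0 d e)) δ j e = 0 := by
  rw [afm_bad h]
  unfold TE0 cg
  simp

lemma norm_TE0_afm (hp : ∀ n, α n ≠ 0 → IsPrim n) (h0 : e0 ∣ m) (γ δ j : Eis) :
    ‖TE0 (cg γ (afm α m Q e0 d e)) δ j e‖ ≤ ‖TE0 (cg γ (fun n => α (d * n))) δ j (e0 * e)‖ := by
  by_cases h : IsPrim d ∧ IsCoprime d m ∧ (IsCoprime e m ∧ Q (e0 * e))
  · rw [TE0_afm hp h0 h.1 h.2.1 h.2.2]
  · rw [TE0_bad h, norm_zero]
    exact norm_nonneg _

lemma cg_one' (b : Eis → ℂ) : cg 1 b = b := by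
  funext n
  unfold cg
  rw [if_pos isCoprime_one_right]

/-- the coefficient of `e0` -/
lemma T3_afm (hp : ∀ n, α n ≠ 0 → IsPrim n) (h0 : e0 ∣ m) (hd : IsPrim d) (e j : Eis) :
    T3 (afm α m Q e0) d e j =
      prin0 m d * (prin0 m e * if Q (e0 * e) then TE α (d, j) (e0 * e) else 0) := by
  unfold T3 prin0
  by_cases h1 : IsCoprime d m
  · by_cases h2 : IsCoprime e m
    · by_cases h3 : Q (e0 * e)
      · have h := TE0_afm hp h0 hd h1 ⟨h2, h3⟩ 1 d j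
        rw [cg_one', cg_one'] at h
        rw [if_pos h1, if_pos h2, if_pos h3, one_mul, one_mul, h]
        rfl
      · have h := TE0_bad (α := α) (Q := Q) (m := m) (e0 := e0) (d := d) (e := e)
          (fun h => h3 h.2.2.2) 1 d j
        rw [cg_one'] at h
        rw [if_neg h3, mul_zero, mul_zero, h]
    · have h := TE0_bad (α := α) (Q := Q) (m := m) (e0 := e0) (d := d) (e := e)
        (fun h => h2 h.2.2.1) 1 d j
      rw [cg_one'] at h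
      rw [if_neg h2, zero_mul, mul_zero, h]
  · have h := TE0_bad (α := α) (Q := Q) (m := m) (e0 := e0) (d := d) (e := e)
        (fun h => h1 h.2.1) 1 d j
    rw [cg_one'] at h
    rw [if_neg h1, zero_mul, h]

lemma norm_T3_afm (hp : ∀ n, α n ≠ 0 → IsPrim n) (h0 : e0 ∣ m) (hd : IsPrim d) (e j : Eis) :
    ‖T3 (afm α m Q e0) d e j‖ ≤ ‖Tal α d (e0 * e) j‖ := by
  have h := norm_TE0_afm (α := α) (Q := Q) (m := m) (e0 := e0) (d := d) (e := e) hp h0 1 d j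
  rwa [cg_one', cg_one'] at h

lemma RMm_zero (A : ℝ) (e γ π r : Eis) : RMm A (0 : Eis → ℂ) e γ π r = 0 := by
  unfold RMm CS
  simp

lemma RMm_afm (hp : ∀ n, α n ≠ 0 → IsPrim n) (h0 : e0 ∣ m) (hd : IsPrim d)
    (heq : IsCoprime e m ∧ Q (e0 * e)) (A : ℝ) (γ π r : Eis) :
    RMm A (afm α m Q e0 d e) e γ π r ≤ RMm A (fun n => α (d * n)) (e0 * e) γ π r := by
  obtain ⟨he, hq⟩ := heq
  by_cases hdm : IsCoprime d m
  · refine le_of_eq ?_
    unfold RMm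
    congr 1
    funext t
    congr 3
    congr 1
    funext k
    congr 1
    unfold afm
    by_cases hα : α (d * (γ * k)) = 0
    · simp [hα]
    · have hn := prim_right hp hd hα
      have hk := mul_dvd_iff' (n := γ * k) h0 he
      by_cases h1 : e0 ∣ γ * k
      · by_cases h2 : e ∣ γ * k
        · have h3 : e0 * e ∣ γ * k := hk.mp ⟨h2, h1⟩
          simp only [hn, hd, hdm, he, hq, h1, h2, h3, and_self, if_true, true_and]
        · have h3 : ¬ e0 * e ∣ γ * k := fun h => h2 (hk.mpr h).1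
          simp only [h2, h3, false_and, if_false]
      · have h3 : ¬ e0 * e ∣ γ * k := fun h => h1 (hk.mpr h).2
        simp only [h1, h3, and_false, false_and, if_false, ite_self, zero_mul]
  · rw [afm_bad fun h => hdm h.2.1, RMm_zero]
    exact RMm_nonneg _ _ _ _ _ _

end afm

/-! ### the divisors -/

/-- the divisors `e0` -/
def Pm (m : Eis) (E0 : ℝ) : Finset Eis :=
  (dvs m).filter fun e0 => Squarefree e0 ∧ (nm e0 : ℝ) ≤ E0

lemma mem_Pm {m : Eis} (hm : m ≠ 0) {E0 : ℝ} {e0 : Eis} :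
    e0 ∈ Pm m E0 ↔ (IsPrim e0 ∧ e0 ∣ m) ∧ Squarefree e0 ∧ (nm e0 : ℝ) ≤ E0 := by
  unfold Pm
  rw [mem_filter, mem_dvs hm]

lemma mem_Sdiv {E0 : ℝ} (hE0 : 0 ≤ E0) {e0 e : Eis} (h0 : IsPrim e0) :
    e ∈ S (E0 / nm e0) ↔ e ∈ S E0 ∧ (nm (e0 * e) : ℝ) ≤ E0 := by
  have hp := nmpos h0.ne_zero
  have h1 : (1 : ℝ) ≤ nm e0 := by exact_mod_cast nm_pos.mpr h0.ne_zero
  rw [mem_S (by positivity), mem_S hE0, le_div_iff₀ hp, nm_mul, Nat.cast_mul, mul_comm (nm e0 : ℝ)]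
  constructor
  · rintro ⟨h2, h3, h4⟩
    refine ⟨⟨le_trans ?_ h2, h3, h4⟩, h2⟩
    exact le_mul_of_one_le_right (Nat.cast_nonneg _) h1
  · rintro ⟨⟨-, h3, h4⟩, h2⟩
    exact ⟨h2, h3, h4⟩

/-- the front -/
theorem StT_m3 {α : Eis → ℂ} (hp : ∀ n, α n ≠ 0 → IsPrim n) (Q : Eis → Prop) {m : Eis}
    (hm : IsPrim m) {E0 : ℝ}
    (hE0 : 0 ≤ E0) {J : Finset (Eis × Eis)} (hJ : OKJ J) (om : Eis × Eis → ℂ) (k : Eis) :
    StT E0 J om (fun x e => if Q e then TE α x e else 0) (m ^ 3 * k) =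
      ∑ e0 ∈ Pm m E0, (muE e0 : ℂ) * SteT J om (E0 / nm e0) (T3 (afm α m Q e0)) k := by
  obtain ⟨T, hT⟩ : ∃ T : Eis × Eis → Eis → ℂ, T = fun x e => if Q e then TE α x e else 0 :=
    ⟨_, rfl⟩
  rw [← hT]
  have h1 : StT E0 J om T (m ^ 3 * k) =
      StT E0 J (fun x => om x * prin0 m x.1) (CubL813.TT m E0 T) k :=
    StE_cubeT hm k hE0 hJ om T
  rw [h1]
  unfold E2440.StT E3A164.SteT
  rw [sum_congr rfl fun e0 _ => mul_sum _ _ _, sum_comm]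
  refine sum_congr rfl fun x hx => ?_
  have hd := hJ.prim x hx
  have key : prin0 m x.1 * ∑ e ∈ (S E0).filter (fun e => e ∣ k), (muE e : ℂ) *
        CubL813.TT m E0 T x e =
      ∑ e0 ∈ Pm m E0, (muE e0 : ℂ) * ∑ e ∈ (S (E0 / nm e0)).filter (fun e => e ∣ k),
        (muE e : ℂ) * T3 (afm α m Q e0) x.1 e x.2 := by
    have e1 : ∀ e0 ∈ Pm m E0, (muE e0 : ℂ) *
        ∑ e ∈ (S (E0 / nm e0)).filter (fun e => e ∣ k), (muE e : ℂ) * T3 (afm α m Q e0) x.1 e x.2 =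
        ∑ e ∈ (S E0).filter (fun e => e ∣ k), if (nm (e0 * e) : ℝ) ≤ E0 then
          (muE e0 : ℂ) * ((muE e : ℂ) * T3 (afm α m Q e0) x.1 e x.2) else 0 := by
      intro e0 he0
      obtain ⟨⟨h2, h3⟩, h4, h5⟩ := (mem_Pm hm.ne_zero).mp he0
      rw [mul_sum, ← sum_filter, filter_filter]
      refine sum_congr ?_ fun _ _ => rfl
      ext e
      rw [mem_filter, mem_filter, mem_Sdiv hE0 h2]
      tauto
    rw [sum_congr rfl e1]
    have e2 : ∑ e0 ∈ Pm m E0, ∑ e ∈ (S E0).filter (fun e => e ∣ k),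
          (if (nm (e0 * e) : ℝ) ≤ E0 then
            (muE e0 : ℂ) * ((muE e : ℂ) * T3 (afm α m Q e0) x.1 e x.2) else 0) =
        ∑ e0 ∈ dvs m, ∑ e ∈ (S E0).filter (fun e => e ∣ k),
          if (nm (e0 * e) : ℝ) ≤ E0 then
            (muE e0 : ℂ) * ((muE e : ℂ) * T3 (afm α m Q e0) x.1 e x.2) else 0 := by
      unfold Pm
      refine sum_filter_of_ne fun e0 he0 hne => ?_
      obtain ⟨e, he, hne2⟩ := exists_ne_zero_of_sum_ne_zero hne
      have h2 := ((mem_dvs hm.ne_zero).mp he0).1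
      have he' := (mem_S hE0).mp (mem_filter.mp he).1
      split_ifs at hne2 with h3
      · refine ⟨?_, le_trans ?_ h3⟩
        · by_contra hsq
          apply hne2
          rw [show muE e0 = 0 from Mob705.mu_of_not_squarefree hsq]
          simp
        · rw [nm_mul]
          exact_mod_cast Nat.le_mul_of_pos_right _ (nm_pos.2 he'.2.1.ne_zero)
      · exact absurd rfl hne2
    rw [e2, sum_comm, mul_sum]
    refine sum_congr rfl fun e he => ?_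
    unfold CubL813.TT
    rw [sum_filter, mul_sum, mul_sum, mul_sum]
    refine sum_congr rfl fun e0 he0 => ?_
    have h2 := (mem_dvs hm.ne_zero).mp he0
    split_ifs with h3
    · rw [T3_afm hp h2.2 hd, hT]
      show _ = (muE e0 : ℂ) * ((muE e : ℂ) * (prin0 m x.1 * (prin0 m e *
        if Q (e0 * e) then TE α x (e0 * e) else 0)))
      ring
    · ring
  have e3 : om x * prin0 m x.1 * (sy k x.1 * conj (th (x.2 * k)) *
      ∑ e ∈ (S E0).filter (fun e => e ∣ k), (muE e : ℂ) * CubL813.TT m E0 T x e) =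
      om x * (sy k x.1 * conj (th (x.2 * k))) * (prin0 m x.1 *
      ∑ e ∈ (S E0).filter (fun e => e ∣ k), (muE e : ℂ) * CubL813.TT m E0 T x e) := by ring
  have e4 := e3.trans (congrArg _ key)
  refine e4.trans ?_
  rw [mul_sum]
  refine sum_congr rfl fun e0 _ => by ring


/-! ### the weight and the cut -/

/-- a weight -/
lemma exists_wr {ρ : ℝ} (hρ : 0 < ρ) (hρ1 : ρ ≤ 1) : ∃ w : ℝ → ℝ, Wgt w ∧ (∀ x, 0 ≤ w x) ∧
    ∀ x, ρ ≤ x → x ≤ 1 → 1 ≤ w x := by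
  let f : ContDiffBump ((ρ / 2 + 1) / 2 : ℝ) :=
    ⟨(1 - ρ / 2) / 2, (1 - ρ / 2) / 2 + ρ / 4, by linarith, by linarith⟩
  refine ⟨f, ⟨f.contDiff, f.hasCompactSupport, ?_⟩, fun x => f.nonneg, fun x h1 h2 => ?_⟩
  · rw [f.tsupport_eq]
    intro x hx
    rw [Metric.mem_closedBall, Real.dist_eq] at hx
    have h3 : |x - (ρ / 2 + 1) / 2| ≤ (1 - ρ / 2) / 2 + ρ / 4 := hx
    have := (abs_le.mp h3).1
    exact Set.mem_Ioi.mpr (by linarith)
  · have h3 : f x = 1 := by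
      refine f.one_of_mem_closedBall ?_
      rw [Metric.mem_closedBall, Real.dist_eq]
      show |x - (ρ / 2 + 1) / 2| ≤ (1 - ρ / 2) / 2
      rw [abs_le]
      constructor <;> linarith
    exact h3.ge

lemma Cut_of_CbF {k : Eis} (hk : CbF k) : Cut 1 k := by
  intro e he hek
  by_contra h
  have h1 : e ≠ 1 := by
    rintro rfl
    apply h
    simp
  obtain ⟨p, hp, hpe⟩ := Mob705.exists_pp_dvd_of_isPrim he h1
  exact hk p hp.2 ((pow_dvd_pow_of_dvd hpe 3).trans hek)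

/-- a finite sum over cube-free `k` through the smooth sum -/
lemma sum_le_smooth {w : ℝ → ℝ} (hw : Wgt w) (hw0 : ∀ x, 0 ≤ w x) {ρ : ℝ}
    (hw1 : ∀ x, ρ ≤ x → x ≤ 1 → 1 ≤ w x) {K : ℝ} (hK : 0 < K) {KK : Finset Eis}
    (hKK : ∀ k ∈ KK, IsPrim k ∧ CbF k ∧ ρ * K ≤ nm k ∧ (nm k : ℝ) ≤ K) (F : Eis → ℂ) :
    ∑ k ∈ KK, ‖F k‖ ^ 2 ≤ ∑' k : Eis, if IsPrim k ∧ Cut 1 k then
      w ((nm k : ℝ) / K) * ‖F k‖ ^ 2 else 0 := by
  have hnn : ∀ k : Eis, 0 ≤ (if IsPrim k ∧ Cut 1 k then w ((nm k : ℝ) / K) * ‖F k‖ ^ 2 else 0) := by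
    intro k
    split_ifs
    · exact mul_nonneg (hw0 _) (by positivity)
    · exact le_rfl
  have hsum : Summable fun k : Eis => if IsPrim k ∧ Cut 1 k then
      w ((nm k : ℝ) / K) * ‖F k‖ ^ 2 else 0 := by
    obtain ⟨B, hB⟩ := hw.cpt.isCompact.isBounded.subset_closedBall (0 : ℝ)
    refine summable_of_hasFiniteSupport ((E2440.finite_nm_le ⌊B * K⌋₊).subset fun k hk => ?_)
    rw [Function.mem_support] at hk
    have h1 : w ((nm k : ℝ) / K) ≠ 0 := by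
      intro h
      apply hk
      rw [h, zero_mul, ite_self]
    have h2 := hB (subset_tsupport _ (Function.mem_support.mpr h1))
    rw [Metric.mem_closedBall, Real.dist_eq, sub_zero] at h2
    have h3 := (abs_le.mp h2).2
    rw [div_le_iff₀ hK] at h3
    exact Nat.le_floor h3
  refine le_trans (sum_le_sum fun k hk => ?_) (hsum.sum_le_tsum KK fun k _ => hnn k)
  obtain ⟨h1, h2, h3, h4⟩ := hKK k hk
  rw [if_pos ⟨h1, Cut_of_CbF h2⟩]
  have h5 : 1 ≤ w ((nm k : ℝ) / K) := hw1 _ ((le_div_iff₀ hK).mpr h3) ((div_le_one hK).mpr h4)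
  exact le_mul_of_one_le_left (by positivity) h5

/-! ### the numbers -/

section numbers

variable {α : Eis → ℂ} {Q : Eis → Prop} {m e0 : Eis}

lemma nm_gcd {e : Eis} (h0 : e0 ∣ m) (he : IsCoprime e m) :
    nm (EuclideanDomain.gcd (e0 * e) m) = nm e0 := by
  set g := EuclideanDomain.gcd (e0 * e) m with hg
  have h1 : g ∣ e0 * e := EuclideanDomain.gcd_dvd_left _ _
  have h2 : g ∣ m := EuclideanDomain.gcd_dvd_right _ _
  have h3 : IsCoprime g e := (he.of_isCoprime_of_dvd_right h2).symm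
  have h4 : g ∣ e0 := h3.dvd_of_dvd_mul_right h1
  have h5 : e0 ∣ g := EuclideanDomain.dvd_gcd (dvd_mul_right _ _) h0
  exact nm_eq_of_associated (associated_of_dvd_dvd h4 h5)

/-- the `T`-numbers at `e` and at `e0 e` -/
lemma TN_afm (hp : ∀ n, α n ≠ 0 → IsPrim n) (h0 : e0 ∣ m) (h0p : IsPrim e0) (d : Eis) {e : Eis}
    (he : IsPrim e) {om : Eis → ℝ} (hom : ∀ γ, 0 ≤ om γ) (Gs : Finset Eis)
    (A : Eis → Eis → Finset Eis) (dl : Eis → Eis) :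
    (nm e : ℝ)⁻¹ * TN (afm α m Q e0) (fun e => (nm e : ℝ)) {d} {e} om Gs A dl ≤
      (nm (e0 * e) : ℝ)⁻¹ * TN (fun d _ n => α (d * n)) (fun e => (nm e : ℝ)) {d} {e0 * e} om Gs A
        dl := by
  unfold TN
  rw [sum_singleton, sum_singleton, sum_singleton, sum_singleton]
  have h1 := nmpos he.ne_zero
  have h2 := nmpos (h0p.mul he).ne_zero
  have e1 : ∀ (x : ℝ) (y u : ℝ), x ≠ 0 → x⁻¹ * (y * x * u) = y * u := by
    intro x y u hx
    field_simp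
  rw [e1 _ _ _ h1.ne', e1 _ _ _ h2.ne']
  refine mul_le_mul_of_nonneg_left (sum_le_sum fun γ _ => mul_le_mul_of_nonneg_left
    (sum_le_sum fun j _ => ?_) (hom γ)) (by positivity)
  exact pow_le_pow_left₀ (norm_nonneg _) (norm_TE0_afm hp h0 γ (dl d) j) 2

/-- the number of one side at `e` and at `e0 e` -/
lemma LVn_afm (hp : ∀ n, α n ≠ 0 → IsPrim n) (h0 : e0 ∣ m) (h0p : IsPrim e0) (d : Eis) {e : Eis}
    (he : IsPrim e) {c Y K V X : ℝ} (hK : 0 ≤ K) (hV : 0 ≤ V)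
    {H H' : Eis → Eis → ℝ} {W W' : Eis → Eis → ℝ → ℝ} (hH : 0 ≤ H d (e0 * e))
    (hHH : H' d e = H d (e0 * e)) (hWW : W' d e = W d (e0 * e)) :
    (nm e : ℝ)⁻¹ * LVn (afm α m Q e0) {d} {e} c Y K (H' d e) V V 1 1 1 (RN2F c K V X H' W' d e) ≤
      (nm (e0 * e) : ℝ)⁻¹ * LVn (fun d _ n => α (d * n)) {d} {e0 * e} c Y K (H d (e0 * e)) V V
        1 1 1 (RN2F c K V X H W d (e0 * e)) := by
  have h1 := nmpos he.ne_zero
  have h2 := nmpos (h0p.mul he).ne_zero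
  have t0 := TN_afm (Q := Q) hp h0 h0p d he (om := fun _ => (1 : ℝ)) (fun _ => zero_le_one) {1} (JVc c V) id
  have t1 := TN_afm (Q := Q) hp h0 h0p d he (om := fun γ => (nm γ : ℝ)⁻¹) (fun _ => by positivity)
    (primBall ⌊Y⌋₊) (JV c V) (fun _ => 1)
  have t2 := TN_afm (Q := Q) hp h0 h0p d he (om := fun γ => (nm γ : ℝ) ^ (-(1 / 2) : ℝ))
    (fun _ => by positivity) (primBall ⌊Y⌋₊) (JV c V) (fun _ => 1)
  have t3 : (nm e : ℝ)⁻¹ * RN2F c K V X H' W' d e =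
      (nm (e0 * e) : ℝ)⁻¹ * RN2F c K V X H W d (e0 * e) := by
    unfold RN2F
    rw [hHH, hWW]
    have e1 : ∀ (x : ℝ) (y u : ℝ), x ≠ 0 → x⁻¹ * (y * x * u) = y * u := by
      intro x y u hx
      field_simp
    rw [e1 _ _ _ h1.ne', e1 _ _ _ h2.ne']
  rw [hHH]
  have hF : 0 ≤ FH K (H d (e0 * e)) V := FH_nonneg hK hH hV
  unfold LVn
  have x0 : 0 ≤ 1 + (H d (e0 * e) * (V / V)) ^ (1 / 3 : ℝ) * (V / K) * (1 ^ 2 * 1 ^ 2 * 1) +
      (H d (e0 * e) * V ^ 2 * V * 1 ^ 3 * 1 ^ 2 / K ^ 2) ^ (1 / 3 : ℝ) := by positivity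
  have x1 : 0 ≤ 1 + (H d (e0 * e) ^ 2 * V ^ 3 / K ^ 2) ^ (1 / 3 : ℝ) := by positivity
  have x2 : 0 ≤ (H d (e0 * e) ^ 2 * V ^ 3 / K ^ 2) ^ (1 / 2 : ℝ) := by positivity
  have key := mul_le_mul_of_nonneg_left (add_le_add (add_le_add (add_le_add
    (mul_le_mul_of_nonneg_left t0 x0) (mul_le_mul_of_nonneg_left t1 x1))
    (mul_le_mul_of_nonneg_left t2 x2)) t3.le) hF
  refine le_trans (le_of_eq ?_) (key.trans (le_of_eq ?_)) <;> ring

/-- the diagonal -/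
lemma XE_afm (hp : ∀ n, α n ≠ 0 → IsPrim n) (h0 : e0 ∣ m) {J : Finset (Eis × Eis)} (hJ : OKJ J)
    (om : Eis × Eis → ℂ) (e : Eis) :
    XE J om (T3 (afm α m Q e0)) e ≤ XE J om (Tal α) (e0 * e) := by
  unfold XE
  refine sum_le_sum fun x hx => mul_le_mul_of_nonneg_left (mul_le_mul_of_nonneg_left ?_
    (by positivity)) (by positivity)
  exact pow_le_pow_left₀ (norm_nonneg _) (norm_T3_afm hp h0 (hJ.prim x hx) e x.2) 2

end numbers

/-! ### the re-indexing -/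

lemma mul_mem_S {m : Eis} (hm : m ≠ 0) {E0 : ℝ} (hE0 : 0 ≤ E0) {e0 e : Eis} (h0 : e0 ∈ Pm m E0)
    (he : e ∈ S (E0 / nm e0)) (hc : IsCoprime e m) : e0 * e ∈ S E0 := by
  obtain ⟨⟨h1, h2⟩, h3, h4⟩ := (mem_Pm hm).mp h0
  obtain ⟨h5, h6⟩ := (mem_Sdiv hE0 h1).mp he
  obtain ⟨-, h7, h8⟩ := (mem_S hE0).mp h5
  refine (mem_S hE0).mpr ⟨h6, h1.mul h7, squarefree_mul_iff.mpr ⟨?_, h3, h8⟩⟩
  exact ((hc.of_isCoprime_of_dvd_right h2).symm).isRelPrime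

theorem reindex (Q : Eis → Prop) {m : Eis} (hm : m ≠ 0) {E0 : ℝ} (hE0 : 0 ≤ E0) {F : Eis → ℝ}
    (hF : ∀ f, 0 ≤ F f) :
    ∑ e0 ∈ Pm m E0, ∑ e ∈ (S (E0 / nm e0)).filter (fun e => IsCoprime e m ∧ Q (e0 * e)),
      F (e0 * e) ≤ ∑ f ∈ (S E0).filter Q, F f := by
  rw [sum_sigma']
  have hinj : Set.InjOn (fun p : (_ : Eis) × Eis => p.1 * p.2)
      ((Pm m E0).sigma fun e0 => (S (E0 / nm e0)).filter
        (fun e => IsCoprime e m ∧ Q (e0 * e))) := by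
    rintro ⟨e0, e⟩ hp ⟨e0', e'⟩ hp' h
    rw [Finset.mem_coe, mem_sigma, mem_filter] at hp hp'
    obtain ⟨h1, h2, h3⟩ := hp
    obtain ⟨h1', h2', h3'⟩ := hp'
    have q := (mem_Pm hm).mp h1
    have q' := (mem_Pm hm).mp h1'
    obtain ⟨r1, r2⟩ := split_unique q.1.1 q'.1.1 h q.1.2 q'.1.2 h3.1 h3'.1
    simp only at r1 r2
    rw [r1, r2]
  rw [← sum_image (f := F) hinj]
  refine sum_le_sum_of_subset_of_nonneg (fun f hf => ?_) fun f _ _ => hF f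
  obtain ⟨p, hp, rfl⟩ := mem_image.mp hf
  rw [mem_sigma, mem_filter] at hp
  exact mem_filter.mpr ⟨mul_mem_S hm hE0 hp.1 hp.2.1 hp.2.2.1, hp.2.2.2⟩

lemma Slp_zero (a : ℕ) : Slp a (fun _ => (0 : ℝ)) where
  nonneg := fun _ _ => le_rfl
  low := fun _ _ _ _ => by simp
  dbl := fun _ _ => by simp

/-! ### the theorem -/

/-- **(E3t), square-free part: the second moment over the cube-free `k ∈ [ρ K, K]` at `m³ k`,
range `Q` of `f = e0 e`** -/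
theorem ET4aQ {ρ : ℝ} (hρ : 0 < ρ) (hρ1 : ρ ≤ 1) {R0 : ℝ} (hR0 : 0 ≤ R0) (a A₁ : ℕ)
    (hA₁ : 1 < A₁) {ε : ℝ} (hε : 0 < ε) (hε1 : ε ≤ 1) :
    ∃ (A : ℕ) (c C : ℝ), 1 ≤ c ∧ 1 ≤ C ∧
    ∀ (Om : ℝ → ℂ) (Mb : ℝ), 0 ≤ Mb → ContDiff ℝ ∞ Om →
      (∀ n ≤ A + 2, ∀ x, ‖iteratedDeriv n Om x‖ ≤ Mb) →
    ∀ (τ : ℝ) (κ : ℂ), ‖κ‖ ≤ 1 → ∀ (Z : ℝ), 1 ≤ Z → ∀ (D Y₀ Y₁ : ℝ)
      (om : Eis × Eis → ℂ) (α : Eis → ℂ) (Q : Eis → Prop) (E0 R K X : ℝ) (m : Eis)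
      (KK : Finset Eis)
      (H : ℕ → Eis → Eis → ℝ) (W0 : ℕ → Eis → Eis → ℝ → ℝ),
      FS α → (∀ n, α n ≠ 0 → Squarefree n) →
      (∀ n, α n ≠ 0 → |Real.log (nm n) - Real.log X| ≤ R0) →
      IsPrim m → (nm m : ℝ) ≤ Z → 0 ≤ D → 0 ≤ Y₁ →
      (∀ x ∈ JW D Y₀ Y₁, om x = κ * (Om (Real.log (nm (x.2 * x.1 ^ 2))) * pw τ (nm x.2))) →
      (∀ i ∈ LI Y₀ Y₁, ∀ n : ℕ, 0 < n → hh (Real.log n - i) ≠ 0 → Om (Real.log n) ≠ 0 →
        Y₀ < n ∧ (n : ℝ) ≤ Y₁) →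
      0 < K → K ≤ Z → (∀ k ∈ KK, IsPrim k ∧ CbF k ∧ ρ * K ≤ nm k ∧ (nm k : ℝ) ≤ K) →
      0 ≤ R → R ≤ Z → 0 ≤ E0 → E0 ≤ Z → Y₁ ≤ Z →
      (∀ x ∈ JW D Y₀ Y₁, (nm x.1 : ℝ) ≤ Z) → (∀ x ∈ JW D Y₀ Y₁, (nm x.2 : ℝ) ≤ R) →
      0 < X → X ≤ Z ^ 5 → (∀ i d f, 0 < H i d f) → (∀ i ∈ LI Y₀ Y₁, c * Real.exp i ≤ Z ^ 5) →
      (∀ i ∈ LI Y₀ Y₁, ∀ d ∈ S (Z ^ 5), ∀ f ∈ (S E0).filter Q,
        c * (H i d f * Real.exp i ^ 2) ≤ K * X) →
      (∀ i d f, Slp a (W0 i d f)) →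
      (∀ i ∈ LI Y₀ Y₁, ∀ d ∈ (JW D Y₀ Y₁).image Prod.fst, ∀ f ∈ (S E0).filter Q, ∀ γ π,
        IsPrim γ → IsPrim π → (nm π : ℝ) ≤ c * Z ^ 300 → ∀ P : ℝ, 0 < P →
        (nm γ : ℝ) * n6 γ ^ 2 * ∑ r ∈ bl P, RMm A₁ (fun n => α (d * n)) f γ π r ≤ W0 i d f P) →
      ∑ k ∈ KK, ‖StT E0 (JW D Y₀ Y₁) om (fun x e => if Q e then TE α x e else 0) (m ^ 3 * k)‖ ^ 2 ≤
      C * Z ^ ε * (K ^ (2 / 3 : ℝ) * ∑ f ∈ (S E0).filter Q, (((nm (EuclideanDomain.gcd f m) : ℝ) / nm f +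
        (R / K ^ 2) ^ (1 / 6 : ℝ) * (nm f : ℝ) ^ (1 / 2 : ℝ) + R / K) *
          XE (JW D Y₀ Y₁) om (Tal α) f) +
      Mb ^ 2 * (1 + |τ|) ^ A * ∑ f ∈ (S E0).filter Q, ∑ i ∈ LI Y₀ Y₁, ∑ d ∈ (JW D Y₀ Y₁).image Prod.fst,
        (nm f : ℝ)⁻¹ * LVn (fun d _ n => α (d * n)) {d} {f} c (Z ^ 5) K (H i d f) (Real.exp i)
          (Real.exp i) 1 1 1 (RN2F c K (Real.exp i) X (H i) (W0 i) d f)) := by
  have hε2 : 0 < ε / 2 := by positivity
  obtain ⟨w, hw, hw0, hw1⟩ := exists_wr hρ hρ1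
  obtain ⟨A, c, C1, hc, hC1, h⟩ := E3Kg548.Z2s hw hw0 hR0 a A₁ hA₁ hε2 (by linarith)
  obtain ⟨C2, hC2, htau⟩ := tau_le_rpow hε2
  refine ⟨A, c, C2 * C1, hc, one_le_mul_of_one_le_of_one_le hC2 hC1, ?_⟩
  intro Om Mb hMb hOm hOb τ κ hκ Z hZ D Y₀ Y₁ om α Q E0 R K X m KK H W0 hα hsq hwin hm hmZ hD hY hom
    hwn hK hKZ hKK hR0' hRZ hE0 hE0Z hYZ hJ1 hJ2 hX hXZ hH hcV hKX hS hRH
  have hZ0 : (0 : ℝ) < Z := by linarith
  have hp : ∀ n, α n ≠ 0 → IsPrim n := fun n hn => hα.prim n hn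
  have hJ := okJ_JW D Y₀ Y₁
  obtain ⟨M, hMd⟩ : ∃ M, M = Mb ^ 2 * (1 + |τ|) ^ A := ⟨_, rfl⟩
  have hM : 0 ≤ M := by rw [hMd]; positivity
  obtain ⟨G, hG⟩ : ∃ G : Eis → ℝ, G = fun f => ((nm (EuclideanDomain.gcd f m) : ℝ) / nm f +
        (R / K ^ 2) ^ (1 / 6 : ℝ) * (nm f : ℝ) ^ (1 / 2 : ℝ) + R / K) *
          XE (JW D Y₀ Y₁) om (Tal α) f := ⟨_, rfl⟩
  obtain ⟨L, hL⟩ : ∃ L : Eis → ℝ, L = fun f => ∑ i ∈ LI Y₀ Y₁,
      ∑ d ∈ (JW D Y₀ Y₁).image Prod.fst,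
        (nm f : ℝ)⁻¹ * LVn (fun d _ n => α (d * n)) {d} {f} c (Z ^ 5) K (H i d f) (Real.exp i)
          (Real.exp i) 1 1 1 (RN2F c K (Real.exp i) X (H i) (W0 i) d f) := ⟨_, rfl⟩
  have hR2 : ∀ (i : ℕ) (d f : Eis), 0 ≤ RN2F c K (Real.exp i) X (H i) (W0 i) d f := fun i d f => by
    have hh := hH i d f
    have he3 := Real.exp_pos (i : ℝ)
    have hI : 0 < c * (X * Real.exp i * H i d f / K) := by positivity
    exact RN2F_nonneg (Ld_nonneg hK hh d) (Md_nonneg (by linarith) hK he3 hh hX d)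
      (by positivity) ((hS i d f).nonneg _ hI)
  have hG0 : ∀ f, 0 ≤ G f := fun f => by
    rw [hG]
    exact mul_nonneg (by positivity) (XE_nonneg _ _ _ _)
  have hL0 : ∀ f, 0 ≤ L f := fun f => by
    rw [hL]
    exact sum_nonneg fun i _ => sum_nonneg fun d _ => mul_nonneg (by positivity)
      (LVn_nonneg hK.le (hH i d f).le (Real.exp_pos _).le (Real.exp_pos _).le zero_le_one
        zero_le_one (hR2 i d f))
  -- one divisor
  have h1 : ∀ e0 ∈ Pm m E0, ∑ k ∈ KK, ‖SteT (JW D Y₀ Y₁) om (E0 / nm e0) (T3 (afm α m Q e0)) k‖ ^ 2 ≤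
      C1 * Z ^ (ε / 2) * (K ^ (2 / 3 : ℝ) *
        ∑ e ∈ (S (E0 / nm e0)).filter (fun e => IsCoprime e m ∧ Q (e0 * e)), G (e0 * e) +
        M * ∑ e ∈ (S (E0 / nm e0)).filter (fun e => IsCoprime e m ∧ Q (e0 * e)), L (e0 * e)) := by
    intro e0 he0
    obtain ⟨⟨q1, q2⟩, q3, q4⟩ := (mem_Pm hm.ne_zero).mp he0
    have n1 : (1 : ℝ) ≤ nm e0 := by exact_mod_cast nm_pos.mpr q1.ne_zero
    obtain ⟨H', hH'd⟩ : ∃ H' : ℕ → Eis → Eis → ℝ, H' = fun i d e =>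
      if IsCoprime e m ∧ Q (e0 * e) then H i d (e0 * e) else K * X / (c * Real.exp i ^ 2) := ⟨_, rfl⟩
    obtain ⟨W', hW'd⟩ : ∃ W' : ℕ → Eis → Eis → ℝ → ℝ, W' = fun i d e =>
      if IsCoprime e m ∧ Q (e0 * e) then W0 i d (e0 * e) else fun _ => 0 := ⟨_, rfl⟩
    have hH'1 : ∀ {e}, IsCoprime e m ∧ Q (e0 * e) → ∀ i d, H' i d e = H i d (e0 * e) := fun {e} he i d => by
      rw [hH'd]; exact if_pos he
    have hH'2 : ∀ {e}, ¬ (IsCoprime e m ∧ Q (e0 * e)) → ∀ i d,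
        H' i d e = K * X / (c * Real.exp i ^ 2) := fun {e} he i d => by
      rw [hH'd]; exact if_neg he
    have hW'1 : ∀ {e}, IsCoprime e m ∧ Q (e0 * e) → ∀ i d, W' i d e = W0 i d (e0 * e) := fun {e} he i d => by
      rw [hW'd]; exact if_pos he
    have hW'2 : ∀ {e}, ¬ (IsCoprime e m ∧ Q (e0 * e)) → ∀ i d, W' i d e = fun _ => 0 := fun {e} he i d => by
      rw [hW'd]; exact if_neg he
    have hH'0 : ∀ i d e, 0 < H' i d e := fun i d e => by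
      by_cases he : IsCoprime e m ∧ Q (e0 * e)
      · rw [hH'1 he]; exact hH _ _ _
      · rw [hH'2 he]
        have := Real.exp_pos (i : ℝ)
        positivity
    have hW'S : ∀ i d e, Slp a (W' i d e) := fun i d e => by
      by_cases he : IsCoprime e m ∧ Q (e0 * e)
      · rw [hW'1 he]; exact hS _ _ _
      · rw [hW'2 he]; exact Slp_zero a
    have k := h Om Mb hMb hOm hOb τ κ hκ Z hZ D Y₀ Y₁ om (T3 (afm α m Q e0)) (afm α m Q e0)
      (E0 / nm e0) 1 R 1 K X H' W' (TC_afm hsq) (fun d e => FS_afm hα d e)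
      (fun x hx e he => rfl) hD hY hom hwn hK hKZ hR0' hRZ le_rfl hZ (by positivity)
      ((div_le_self hE0 n1).trans hE0Z) zero_le_one hZ hYZ hJ1 hJ2 hX hXZ hH'0 hcV
      (fun i hi d hd e he => by
        by_cases hc' : IsCoprime e m ∧ Q (e0 * e)
        · rw [hH'1 hc']
          exact hKX i hi d hd _ (mem_filter.mpr
            ⟨mul_mem_S hm.ne_zero hE0 he0 he hc'.1, hc'.2⟩)
        · rw [hH'2 hc']
          have := Real.exp_pos (i : ℝ)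
          refine le_of_eq ?_
          field_simp)
      (fun d hd e he n hn => afm_sqf hsq hn)
      (fun d hd e he n hn => afm_win hwin hn) hW'S
      (fun i hi ρ' hρ' γ π hγ hπ hπm P hP => by
        unfold RR at hρ'
        obtain ⟨r1, r2⟩ := mem_product.mp hρ'
        obtain ⟨x, hx, hx1⟩ := mem_image.mp r1
        by_cases hc' : IsCoprime ρ'.2 m ∧ Q (e0 * ρ'.2)
        · rw [hW'1 hc']
          refine le_trans ?_ (hRH i hi ρ'.1 r1 (e0 * ρ'.2) (mem_filter.mpr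
            ⟨mul_mem_S hm.ne_zero hE0 he0 r2 hc'.1, hc'.2⟩) γ π hγ hπ hπm P hP)
          refine mul_le_mul_of_nonneg_left (sum_le_sum fun r _ => ?_) (by positivity)
          exact RMm_afm hp q2 (hx1 ▸ hJ.prim x hx) hc' _ _ _ _
        · rw [hW'2 hc', afm_bad (fun h => hc' h.2.2)]
          simp only [RMm_zero, sum_const_zero, mul_zero, le_refl])
    refine (sum_le_smooth hw hw0 hw1 hK hKK _).trans (k.trans ?_)
    refine mul_le_mul_of_nonneg_left (add_le_add (mul_le_mul_of_nonneg_left ?_ (by positivity)) ?_)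
      (by positivity)
    · -- the diagonal
      rw [sum_filter]
      refine sum_le_sum fun e he => ?_
      have he' := (mem_Sdiv hE0 q1).mp he
      have hep := ((mem_S hE0).mp he'.1).2.1
      split_ifs with hc'
      · rw [hG]
        have g1 : (nm (e0 * e) : ℝ) = nm e0 * nm e := by rw [nm_mul, Nat.cast_mul]
        have g2 : (nm e : ℝ) ^ (-1 : ℝ) = (nm (EuclideanDomain.gcd (e0 * e) m) : ℝ) / nm (e0 * e) := by
          have := nmpos hep.ne_zero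
          have := nmpos q1.ne_zero
          rw [nm_gcd q2 hc'.1, g1, Real.rpow_neg_one]
          field_simp
        have g3 : (nm e : ℝ) ≤ nm (e0 * e) := by
          rw [g1]
          exact le_mul_of_one_le_left (Nat.cast_nonneg _) n1
        refine mul_le_mul ?_ (XE_afm hp q2 hJ om e) (XE_nonneg _ _ _ _) (by positivity)
        rw [g2]
        have g4 : (nm e : ℝ) ^ (1 / 2 : ℝ) ≤ (nm (e0 * e) : ℝ) ^ (1 / 2 : ℝ) :=
          Real.rpow_le_rpow (Nat.cast_nonneg _) g3 (by norm_num)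
        have g5 := mul_le_mul_of_nonneg_left g4 (by positivity : 0 ≤ (R / K ^ 2) ^ (1 / 6 : ℝ))
        have g6 : (1 : ℝ) ^ 2 * 1 ^ 2 * R / K = R / K := by ring
        rw [g6]
        linarith
      · have g1 : XE (JW D Y₀ Y₁) om (T3 (afm α m Q e0)) e = 0 := by
          unfold XE
          refine sum_eq_zero fun x hx => ?_
          have : T3 (afm α m Q e0) x.1 e x.2 = 0 := by
            have hb := TE0_bad (α := α) (Q := Q) (m := m) (e0 := e0) (d := x.1) (e := e)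
              (fun h => hc' h.2.2) 1 x.1 x.2
            rwa [cg_one'] at hb
          rw [this]
          simp
        rw [g1, mul_zero]
    · -- the modes
      rw [← hMd]
      refine mul_le_mul_of_nonneg_left ?_ hM
      rw [sum_filter]
      refine sum_le_sum fun e he => ?_
      have he' := (mem_Sdiv hE0 q1).mp he
      have hep := ((mem_S hE0).mp he'.1).2.1
      split_ifs with hc'
      · rw [hL]
        refine sum_le_sum fun i _ => sum_le_sum fun d _ => ?_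
        exact LVn_afm hp q2 q1 d hep hK.le (Real.exp_pos _).le (hH _ _ _).le (hH'1 hc' i d)
          (hW'1 hc' i d)
      · refine (sum_eq_zero fun i _ => sum_eq_zero fun d _ => ?_).le
        have z0 : ∀ (om' : Eis → ℝ) (Gs : Finset Eis) (As : Eis → Eis → Finset Eis)
            (dl : Eis → Eis), TN (afm α m Q e0) (fun e => (nm e : ℝ)) {d} {e} om' Gs As dl = 0 := by
          intro om' Gs As dl
          unfold TN
          rw [sum_singleton, sum_singleton]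
          have : ∀ γ j, ‖TE0 (cg γ (afm α m Q e0 d e)) (dl d) j e‖ ^ 2 = 0 := fun γ j => by
            rw [TE0_bad (fun h => hc' h.2.2), norm_zero]
            norm_num
          simp only [this, sum_const_zero, mul_zero]
        have z1 : RN2F c K (Real.exp i) X (H' i) (W' i) d e = 0 := by
          unfold RN2F
          rw [hW'2 hc']
          simp
        unfold LVn
        rw [z0, z0, z0, z1]
        simp
  -- the sum over the divisors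
  have hcard : ((Pm m E0).card : ℝ) ≤ C2 * Z ^ (ε / 2) := by
    have c1 : ((Pm m E0).card : ℝ) ≤ tau m := by
      unfold Pm tau
      exact_mod_cast card_filter_le _ _
    refine c1.trans ((htau m hm.ne_zero).trans ?_)
    exact mul_le_mul_of_nonneg_left (Real.rpow_le_rpow (Nat.cast_nonneg _) hmZ hε2.le)
      (by linarith)
  have h2 : ∑ k ∈ KK, ‖StT E0 (JW D Y₀ Y₁) om (fun x e => if Q e then TE α x e else 0) (m ^ 3 * k)‖ ^ 2 ≤
      (Pm m E0).card * ∑ e0 ∈ Pm m E0,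
        ∑ k ∈ KK, ‖SteT (JW D Y₀ Y₁) om (E0 / nm e0) (T3 (afm α m Q e0)) k‖ ^ 2 := by
    rw [sum_comm, mul_sum]
    refine sum_le_sum fun k _ => ?_
    rw [StT_m3 hp Q hm hE0 hJ om k]
    refine (pow_le_pow_left₀ (norm_nonneg _) (norm_sum_le _ _) 2).trans ?_
    refine (sq_sum_le_card_mul_sum_sq).trans ?_
    refine mul_le_mul_of_nonneg_left (sum_le_sum fun e0 _ => ?_) (Nat.cast_nonneg _)
    refine pow_le_pow_left₀ (norm_nonneg _) ?_ 2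
    rw [norm_mul]
    have : ‖(muE e0 : ℂ)‖ ≤ 1 := by
      rw [Complex.norm_intCast]
      exact_mod_cast CubL813.abs_muE_le_one e0
    exact mul_le_of_le_one_left (norm_nonneg _) this
  have h3 := sum_le_sum h1
  have h4 : ∑ e0 ∈ Pm m E0, C1 * Z ^ (ε / 2) * (K ^ (2 / 3 : ℝ) *
        ∑ e ∈ (S (E0 / nm e0)).filter (fun e => IsCoprime e m ∧ Q (e0 * e)), G (e0 * e) +
        M * ∑ e ∈ (S (E0 / nm e0)).filter (fun e => IsCoprime e m ∧ Q (e0 * e)), L (e0 * e)) ≤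
      C1 * Z ^ (ε / 2) * (K ^ (2 / 3 : ℝ) * ∑ f ∈ (S E0).filter Q, G f + M * ∑ f ∈ (S E0).filter Q, L f) := by
    rw [← mul_sum, sum_add_distrib, ← mul_sum, ← mul_sum]
    exact mul_le_mul_of_nonneg_left (add_le_add (mul_le_mul_of_nonneg_left
      (reindex Q hm.ne_zero hE0 hG0) (by positivity)) (mul_le_mul_of_nonneg_left
      (reindex Q hm.ne_zero hE0 hL0) hM)) (by positivity)
  have hS0 : 0 ≤ K ^ (2 / 3 : ℝ) * ∑ f ∈ (S E0).filter Q, G f + M * ∑ f ∈ (S E0).filter Q, L f :=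
    add_nonneg (mul_nonneg (by positivity) (sum_nonneg fun f _ => hG0 f))
      (mul_nonneg hM (sum_nonneg fun f _ => hL0 f))
  have h5 := h2.trans (mul_le_mul hcard (h3.trans h4) (sum_nonneg fun e0 _ => sum_nonneg fun k _ =>
    by positivity) (by positivity))
  refine h5.trans (le_of_eq ?_)
  have hze : (Z ^ (ε / 2)) * Z ^ (ε / 2) = Z ^ ε := by
    rw [← Real.rpow_add hZ0]; congr 1; ring
  rw [← hze, ← hMd, hG, hL]
  ring

lemma filt_true (s : Finset Eis) {inst : DecidablePred fun _ : Eis => True} :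
    @Finset.filter _ (fun _ => True) inst s = s := by
  ext f
  simp

/-- **all `f`** -/
theorem ET4a {ρ : ℝ} (hρ : 0 < ρ) (hρ1 : ρ ≤ 1) {R0 : ℝ} (hR0 : 0 ≤ R0) (a A₁ : ℕ)
    (hA₁ : 1 < A₁) {ε : ℝ} (hε : 0 < ε) (hε1 : ε ≤ 1) :
    ∃ (A : ℕ) (c C : ℝ), 1 ≤ c ∧ 1 ≤ C ∧
    ∀ (Om : ℝ → ℂ) (Mb : ℝ), 0 ≤ Mb → ContDiff ℝ ∞ Om →
      (∀ n ≤ A + 2, ∀ x, ‖iteratedDeriv n Om x‖ ≤ Mb) →
    ∀ (τ : ℝ) (κ : ℂ), ‖κ‖ ≤ 1 → ∀ (Z : ℝ), 1 ≤ Z → ∀ (D Y₀ Y₁ : ℝ)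
      (om : Eis × Eis → ℂ) (α : Eis → ℂ) (E0 R K X : ℝ) (m : Eis) (KK : Finset Eis)
      (H : ℕ → Eis → Eis → ℝ) (W0 : ℕ → Eis → Eis → ℝ → ℝ),
      FS α → (∀ n, α n ≠ 0 → Squarefree n) →
      (∀ n, α n ≠ 0 → |Real.log (nm n) - Real.log X| ≤ R0) →
      IsPrim m → (nm m : ℝ) ≤ Z → 0 ≤ D → 0 ≤ Y₁ →
      (∀ x ∈ JW D Y₀ Y₁, om x = κ * (Om (Real.log (nm (x.2 * x.1 ^ 2))) * pw τ (nm x.2))) →
      (∀ i ∈ LI Y₀ Y₁, ∀ n : ℕ, 0 < n → hh (Real.log n - i) ≠ 0 → Om (Real.log n) ≠ 0 →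
        Y₀ < n ∧ (n : ℝ) ≤ Y₁) →
      0 < K → K ≤ Z → (∀ k ∈ KK, IsPrim k ∧ CbF k ∧ ρ * K ≤ nm k ∧ (nm k : ℝ) ≤ K) →
      0 ≤ R → R ≤ Z → 0 ≤ E0 → E0 ≤ Z → Y₁ ≤ Z →
      (∀ x ∈ JW D Y₀ Y₁, (nm x.1 : ℝ) ≤ Z) → (∀ x ∈ JW D Y₀ Y₁, (nm x.2 : ℝ) ≤ R) →
      0 < X → X ≤ Z ^ 5 → (∀ i d f, 0 < H i d f) → (∀ i ∈ LI Y₀ Y₁, c * Real.exp i ≤ Z ^ 5) →
      (∀ i ∈ LI Y₀ Y₁, ∀ d ∈ S (Z ^ 5), ∀ f ∈ S E0, c * (H i d f * Real.exp i ^ 2) ≤ K * X) →
      (∀ i d f, Slp a (W0 i d f)) →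
      (∀ i ∈ LI Y₀ Y₁, ∀ d ∈ (JW D Y₀ Y₁).image Prod.fst, ∀ f ∈ S E0, ∀ γ π, IsPrim γ →
        IsPrim π → (nm π : ℝ) ≤ c * Z ^ 300 → ∀ P : ℝ, 0 < P →
        (nm γ : ℝ) * n6 γ ^ 2 * ∑ r ∈ bl P, RMm A₁ (fun n => α (d * n)) f γ π r ≤ W0 i d f P) →
      ∑ k ∈ KK, ‖StE E0 (JW D Y₀ Y₁) om α (m ^ 3 * k)‖ ^ 2 ≤
      C * Z ^ ε * (K ^ (2 / 3 : ℝ) * ∑ f ∈ S E0, (((nm (EuclideanDomain.gcd f m) : ℝ) / nm f +
        (R / K ^ 2) ^ (1 / 6 : ℝ) * (nm f : ℝ) ^ (1 / 2 : ℝ) + R / K) *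
          XE (JW D Y₀ Y₁) om (Tal α) f) +
      Mb ^ 2 * (1 + |τ|) ^ A * ∑ f ∈ S E0, ∑ i ∈ LI Y₀ Y₁, ∑ d ∈ (JW D Y₀ Y₁).image Prod.fst,
        (nm f : ℝ)⁻¹ * LVn (fun d _ n => α (d * n)) {d} {f} c (Z ^ 5) K (H i d f) (Real.exp i)
          (Real.exp i) 1 1 1 (RN2F c K (Real.exp i) X (H i) (W0 i) d f)) := by
  obtain ⟨A, c, C, hc, hC, h⟩ := ET4aQ hρ hρ1 hR0 a A₁ hA₁ hε hε1
  refine ⟨A, c, C, hc, hC, ?_⟩
  intro Om Mb hMb hOm hOb τ κ hκ Z hZ D Y₀ Y₁ om α E0 R K X m KK H W0 hα hsq hwin hm hmZ hD hY hom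
    hwn hK hKZ hKK hR0' hRZ hE0 hE0Z hYZ hJ1 hJ2 hX hXZ hH hcV hKX hS hRH
  have k := h Om Mb hMb hOm hOb τ κ hκ Z hZ D Y₀ Y₁ om α (fun _ => True) E0 R K X m KK H W0 hα
    hsq hwin hm hmZ hD hY hom hwn hK hKZ hKK hR0' hRZ hE0 hE0Z hYZ hJ1 hJ2 hX hXZ hH hcV
    (fun i hi d hd f hf => hKX i hi d hd f (by rwa [filt_true] at hf)) hS
    (fun i hi d hd f hf => hRH i hi d hd f (by rwa [filt_true] at hf))
  simp only [filt_true, if_true] at k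
  exact k

/-- the difference of two truncations -/
lemma StE_sub {E1 E2 : ℝ} (h1 : 0 ≤ E1) (h12 : E1 ≤ E2) (J : Finset (Eis × Eis))
    (om : Eis × Eis → ℂ) (α : Eis → ℂ) (k : Eis) :
    StE E2 J om α k - StE E1 J om α k =
      StT E2 J om (fun x e => if E1 < (nm e : ℝ) then TE α x e else 0) k := by
  unfold E2440.StE E2440.StT
  rw [← sum_sub_distrib]
  refine sum_congr rfl fun x _ => ?_
  have e0 : (S E1).filter (fun e => e ∣ k) =
      ((S E2).filter (fun e => e ∣ k)).filter (fun e => (nm e : ℝ) ≤ E1) := by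
    ext e
    simp only [mem_filter, mem_S h1, mem_S (h1.trans h12)]
    constructor
    · rintro ⟨⟨r1, r2, r3⟩, r4⟩
      exact ⟨⟨⟨r1.trans h12, r2, r3⟩, r4⟩, r1⟩
    · rintro ⟨⟨⟨r1, r2, r3⟩, r4⟩, r5⟩
      exact ⟨⟨r5, r2, r3⟩, r4⟩
  have e1 := sum_filter_add_sum_filter_not ((S E2).filter (fun e => e ∣ k))
    (fun e => (nm e : ℝ) ≤ E1) (fun e => (mu e : ℂ) * TE α x e)
  rw [← e0] at e1
  have e2 : ∑ e ∈ (S E2).filter (fun e => e ∣ k), (mu e : ℂ) *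
      (if E1 < (nm e : ℝ) then TE α x e else 0) =
      ∑ e ∈ ((S E2).filter (fun e => e ∣ k)).filter (fun e => ¬ (nm e : ℝ) ≤ E1),
        (mu e : ℂ) * TE α x e := by
    rw [sum_filter (fun e => ¬ (nm e : ℝ) ≤ E1)]
    refine sum_congr rfl fun e _ => ?_
    by_cases h : (nm e : ℝ) ≤ E1
    · rw [if_neg (not_lt.mpr h), if_neg (not_not.mpr h), mul_zero]
    · rw [if_pos (not_le.mp h), if_pos h]
  rw [e2, ← e1]
  ring

end Crest.Agent.R017.ET4a548
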