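import Crest.Agent.R017.E3Hi_290

/-!
# Row 17, R8 (E3): the numbers of one level at `K / m^3`, `H / m^3` (helper579)

* `FH_div`, `Ld_div`, `Md_div`, `Mxd_div`, `RNF_div`, `RN2F_div`, `RNXF_div`, `RN2XF_div` : the `R`-part
* `LVn_div` : `LVn (K / m^3) (H / m^3) V V' E1 = m⁻¹ LVn K H V V' (m E1)`
-/

set_option autoImplicit false

noncomputable section

open Finset
open scoped Classical ComplexConjugate

namespace Crest.Agent.R017.RnS579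

open Crest.Agent.R012 Crest.Agent.R012.Eis
open Crest.Agent.R017.E3Z548
open Crest.Agent.R017.E3Sz579 (Ld Md)
open Crest.Agent.R017.E3Sx744 (Mxd)
open Crest.Agent.R017.E3Hd290 (RNF)
open Crest.Agent.R017.E3Hf290 (RN2F)
open Crest.Agent.R017.E3Hh290 (RNXF)
open Crest.Agent.R017.E3Hi290 (RN2XF)

variable {K H V V' X m : ℝ}

lemma H_re (hK : 0 < K) (hm : 0 < m) (H : ℝ) : H * (K / m ^ 3) / K = H / m ^ 3 := by
  have := pow_pos hm 3
  field_simp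

lemma cube_rpow (hm : 0 < m) (s : ℝ) : (m ^ 3) ^ s = m ^ (3 * s) := by
  rw [← Real.rpow_natCast, ← Real.rpow_mul hm.le]
  norm_num

lemma FH_div (hK : 0 ≤ K) (hH : 0 ≤ H) (hV : 0 ≤ V) (hm : 0 < m) :
    FH (K / m ^ 3) (H / m ^ 3) V = m⁻¹ * FH K H V := by
  unfold FH
  have hm3 := pow_pos hm 3
  have e1 : H / m ^ 3 * V = (H * V) / m ^ 3 := by ring
  rw [e1, Real.div_rpow hK hm3.le, Real.div_rpow (mul_nonneg hH hV) hm3.le, cube_rpow hm,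
    cube_rpow hm]
  have e2 : m ^ (3 * (2 / 3) : ℝ) = m ^ 2 := by
    rw [← Real.rpow_natCast]; norm_num
  have e3 : m ^ (3 * (-(1 / 3)) : ℝ) = m⁻¹ := by
    rw [← Real.rpow_neg_one]; norm_num
  rw [e2, e3]
  field_simp

lemma Ld_div (hm : 0 < m) (d : Eis) : Ld (K / m ^ 3) V (H / m ^ 3) d = Ld K V H d := by
  unfold Ld
  have hm3 := (pow_pos hm 3).ne'
  have e1 : H / m ^ 3 * V ^ 2 = H * V ^ 2 / m ^ 3 := by ring
  have e2 : K / m ^ 3 * (nm d : ℝ) = K * nm d / m ^ 3 := by ring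
  rw [e1, e2, div_div_div_cancel_right₀ hm3]

lemma I_div (hm : 0 < m) : X * V * (H / m ^ 3) / (K / m ^ 3) = X * V * H / K := by
  have hm3 := (pow_pos hm 3).ne'
  have e1 : X * V * (H / m ^ 3) = X * V * H / m ^ 3 := by ring
  rw [e1, div_div_div_cancel_right₀ hm3]

lemma Ld_raw (hm : 0 < m) (d : Eis) :
    H / m ^ 3 * V ^ 2 / (K / m ^ 3 * nm d) = H * V ^ 2 / (K * nm d) := Ld_div hm d

lemma Md_div (hm : 0 < m) (c : ℝ) (d : Eis) :
    Md c (K / m ^ 3) V (H / m ^ 3) X d = Md c K V H X d := by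
  unfold Md
  rw [Ld_raw hm, I_div hm]

lemma Mxd_div (hm : 0 < m) (c : ℝ) (d : Eis) :
    Mxd c (K / m ^ 3) V (H / m ^ 3) X d = Mxd c K V H X d := by
  unfold Mxd
  rw [Ld_raw hm, I_div hm]

variable {c : ℝ} {H₀ : Eis → Eis → ℝ} {d e : Eis}

lemma RNF_div (hm : 0 < m) (W0 : Eis → Eis → ℝ → ℝ) :
    RNF c (K / m ^ 3) V X (fun d e => H₀ d e / m ^ 3) W0 d e = RNF c K V X H₀ W0 d e := by
  unfold RNF
  simp only [Ld_div hm, Md_div hm, I_div hm]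

lemma RN2F_div (hm : 0 < m) (W0 : Eis → Eis → ℝ → ℝ) :
    RN2F c (K / m ^ 3) V X (fun d e => H₀ d e / m ^ 3) W0 d e = RN2F c K V X H₀ W0 d e := by
  unfold RN2F
  simp only [Ld_div hm, Md_div hm, I_div hm]

lemma RNXF_div (hm : 0 < m) (W0 : Bool → Eis → Eis → ℝ → ℝ) :
    RNXF c (K / m ^ 3) V X (fun d e => H₀ d e / m ^ 3) W0 d e = RNXF c K V X H₀ W0 d e := by
  unfold RNXF
  simp only [Ld_div hm, Md_div hm, Mxd_div hm, I_div hm]

lemma RN2XF_div (hm : 0 < m) (W0 : Bool → Eis → Eis → ℝ → ℝ) :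
    RN2XF c (K / m ^ 3) V X (fun d e => H₀ d e / m ^ 3) W0 d e = RN2XF c K V X H₀ W0 d e := by
  unfold RN2XF
  simp only [Ld_div hm, Md_div hm, Mxd_div hm, I_div hm]

/-- the condition on `H` -/
lemma KX_div (hm : 0 < m) {c V X : ℝ} (h : c * (H * V ^ 2) ≤ K * X) :
    c * (H / m ^ 3 * V ^ 2) ≤ K / m ^ 3 * X := by
  have hm3 := pow_pos hm 3
  have e1 : c * (H / m ^ 3 * V ^ 2) = c * (H * V ^ 2) / m ^ 3 := by ring
  have e2 : K / m ^ 3 * X = K * X / m ^ 3 := by ring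
  rw [e1, e2]
  exact div_le_div_of_nonneg_right h hm3.le

/-- **the numbers of one level at `K / m^3`, `H / m^3`** -/
theorem LVn_div (hK : 0 < K) (hH : 0 < H) (hV : 0 < V) (hV' : 0 < V') (hm : 0 < m)
    (af : Eis → Eis → Eis → ℂ) (Ds EE : Finset Eis) (c Y E1 B G1 RN : ℝ) :
    LVn af Ds EE c Y (K / m ^ 3) (H / m ^ 3) V V' E1 B G1 RN =
      m⁻¹ * LVn af Ds EE c Y K H V V' (m * E1) B G1 RN := by
  have hm3 := pow_pos hm 3
  unfold LVn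
  rw [FH_div hK.le hH.le hV.le hm]
  have a1 : (H / m ^ 3 * (V / V')) ^ (1 / 3 : ℝ) * (V' / (K / m ^ 3)) * (E1 ^ 2 * B ^ 2 * G1) =
      (H * (V / V')) ^ (1 / 3 : ℝ) * (V' / K) * ((m * E1) ^ 2 * B ^ 2 * G1) := by
    have e1 : H / m ^ 3 * (V / V') = H * (V / V') / m ^ 3 := by ring
    have e2 : m ^ (3 * (1 / 3) : ℝ) = m := by
      rw [show (3 * (1 / 3) : ℝ) = 1 by norm_num, Real.rpow_one]
    rw [e1, Real.div_rpow (by positivity) hm3.le, cube_rpow hm, e2]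
    field_simp
  have a2 : (H / m ^ 3 * V ^ 2 * V' * E1 ^ 3 * B ^ 2 / (K / m ^ 3) ^ 2) ^ (1 / 3 : ℝ) =
      (H * V ^ 2 * V' * (m * E1) ^ 3 * B ^ 2 / K ^ 2) ^ (1 / 3 : ℝ) := by
    congr 1
    field_simp
  have a3 : (H / m ^ 3) ^ 2 * V ^ 3 / (K / m ^ 3) ^ 2 = H ^ 2 * V ^ 3 / K ^ 2 := by
    field_simp
  rw [a1, a2, a3]
  ring

end Crest.Agent.R017.RnS579
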