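import Crest.Agent.R017.E3He_290

/-!
# Row 17, block C70, leaf E3 (S-sum) (helper290, after helper579): one pair of levels from (RH),
both forms of the structured numbers, `H` a function of `(d, e)` per side

* `RN2F` : the `R`-number;  `PAIR_RHF2'`, `PAIR_RHF2`
-/

set_option autoImplicit false
set_option linter.unusedVariables false

noncomputable section

open Finset
open scoped ComplexConjugate Classical ContDiff

namespace Crest.Agent.R017.E3Hf290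

open Crest.Agent.R012 Crest.Agent.R012.Eis Crest.Agent.R012.MC
open Crest.Agent.R012.LS2 (S mem_S bl mem_bl)
open Crest.Agent.R012.Mob705 (pb mem_pb pdiv mem_pdiv)
open Crest.Agent.R017.CM106 (CS FS)
open Crest.Agent.R017.C70 (JC OKJ)
open Crest.Agent.R017.E3A164 (Yp Ys Cs mem_Cs)
open Crest.Agent.R017.GrB829 (IsC)
open Crest.Agent.R017.PX764 (n6)
open Crest.Agent.R017.E3M829 (TC)
open Crest.Agent.R017.E3T829
open Crest.Agent.R017.E3T1579 (T3 WQ)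
open Crest.Agent.R017.E3T2579 (wL w1L)
open Crest.Agent.R017.E3F548 (pc MPTr isC_ne)
open Crest.Agent.R017.Mode405
open Crest.Agent.R017.E3Sw290 (TU MBU kZ)
open Crest.Agent.R017.E3Sx579 (RHR slp_mono)
open Crest.Agent.R017.E3Sy290
open Crest.Agent.R017.E3Z548
open Crest.Agent.R017.E3Sz579
open Crest.Agent.R017.E3Ha290 Crest.Agent.R017.E3Hb290 Crest.Agent.R017.E3Hc290
open Crest.Agent.R017.E3Hd290 Crest.Agent.R017.E3He290

/-- the `R`-number at `(d, e)`, both forms -/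
def RN2F (c K V X : ℝ) (H : Eis → Eis → ℝ) (W0 : Eis → Eis → ℝ → ℝ) (d e : Eis) : ℝ :=
  (nm d : ℝ) ^ (2 / 3 : ℝ) * nm e * ((if 1 ≤ Ld K V (H d e) d then
    G2 (Ld K V (H d e) d) (Md c K V (H d e) X d) (X * V * H d e / K) else 0) *
      W0 d e (c * (X * V * H d e / K)))

lemma RN2F_nonneg {c K V X : ℝ} {H : Eis → Eis → ℝ} {W0 : Eis → Eis → ℝ → ℝ} {d e : Eis}
    (hL : 0 ≤ Ld K V (H d e) d) (hM : 0 ≤ Md c K V (H d e) X d) (hI : 0 ≤ X * V * H d e / K)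
    (hW : 0 ≤ W0 d e (c * (X * V * H d e / K))) : 0 ≤ RN2F c K V X H W0 d e := by
  unfold RN2F
  refine mul_nonneg (by positivity) (mul_nonneg ?_ hW)
  split_ifs
  · exact G2_nonneg hL hM hI
  · exact le_rfl

lemma Z_exp2 {Z CZ C₂ η ε : ℝ} (hZ : 1 ≤ Z) (hCZ : 1 ≤ CZ) (hC₂ : 0 ≤ C₂) (hη : 0 < η)
    (hη1 : 11 * η ≤ 1) (hηε : 828 * η ≤ ε) :
    (CZ * Z ^ 75) ^ (3 * (3 * η)) * Z ^ (3 * η) * (1 + C₂ * (CZ * Z ^ 75) ^ (2 * η)) ≤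
      (1 + C₂) * CZ * Z ^ ε := by
  have hZ0 : 0 < Z := by linarith
  have hCZ0 : 0 < CZ := by linarith
  have h75 : 1 ≤ Z ^ 75 := one_le_pow₀ hZ
  have hm : 1 ≤ CZ * Z ^ 75 := one_le_mul_of_one_le_of_one_le hCZ h75
  have hm0 : 0 < CZ * Z ^ 75 := by linarith
  have h1 : 1 ≤ (CZ * Z ^ 75) ^ (2 * η) := Real.one_le_rpow hm (by positivity)
  have h2 : 1 + C₂ * (CZ * Z ^ 75) ^ (2 * η) ≤ (1 + C₂) * (CZ * Z ^ 75) ^ (2 * η) := by nlinarith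
  have e1 : (CZ * Z ^ 75) ^ (3 * (3 * η)) * (CZ * Z ^ 75) ^ (2 * η) =
      CZ ^ (11 * η) * Z ^ (825 * η) := by
    rw [← Real.rpow_add hm0, show 3 * (3 * η) + 2 * η = 11 * η by ring,
      Real.mul_rpow hCZ0.le (by positivity), ← Real.rpow_natCast Z 75, ← Real.rpow_mul hZ0.le]
    congr 2
    push_cast
    ring
  have h3 : CZ ^ (11 * η) ≤ CZ := by
    calc CZ ^ (11 * η) ≤ CZ ^ (1 : ℝ) := Real.rpow_le_rpow_of_exponent_le hCZ hη1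
      _ = CZ := Real.rpow_one _
  have h4 : Z ^ (825 * η) * Z ^ (3 * η) ≤ Z ^ ε := by
    rw [← Real.rpow_add hZ0]
    exact Real.rpow_le_rpow_of_exponent_le hZ (by linarith)
  calc (CZ * Z ^ 75) ^ (3 * (3 * η)) * Z ^ (3 * η) * (1 + C₂ * (CZ * Z ^ 75) ^ (2 * η))
      ≤ (CZ * Z ^ 75) ^ (3 * (3 * η)) * Z ^ (3 * η) *
        ((1 + C₂) * (CZ * Z ^ 75) ^ (2 * η)) := by gcongr
    _ = (1 + C₂) * ((CZ * Z ^ 75) ^ (3 * (3 * η)) * (CZ * Z ^ 75) ^ (2 * η)) *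
        Z ^ (3 * η) := by ring
    _ = (1 + C₂) * CZ ^ (11 * η) * (Z ^ (825 * η) * Z ^ (3 * η)) := by rw [e1]; ring
    _ ≤ (1 + C₂) * CZ * Z ^ ε := by gcongr

set_option maxHeartbeats 4000000 in
/-- **one pair of levels from (RH), both forms**, `H` a function of `(d, e)` per side; the
hypotheses only for the `d` present -/
theorem PAIR_RHF2' {Rw : ℝ} (hRw : 0 ≤ Rw) {h : ℝ → ℝ} (hh : ContDiff ℝ ∞ h)
    (hhc : HasCompactSupport h) {w1 : ℝ → ℝ} (hW1 : Wgt w1)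
    (hw : ∀ x, w1 x ≠ 0 → 0 < x ∧ |Real.log x| ≤ Rw)
    (hw1 : ∀ x, 0 < x → h (Real.log x) ≠ 0 → w1 x = 1) {R0 : ℝ} (hR0 : 0 ≤ R0) (a A₁ : ℕ)
    (hA₁ : 1 < A₁) {b₀ : ℝ} (hb₀ : 0 ≤ b₀) {ε : ℝ} (hε : 0 < ε) (hε1 : ε ≤ 1) :
    ∃ (A₀ : ℕ) (c : ℝ), 1 ≤ c ∧ ∀ A : ℕ, A₀ ≤ A → ∀ Bw : ℕ, 4 ≤ Bw → ∃ C : ℝ, 0 ≤ C ∧
    ∀ (Om Om' : ℝ → ℂ) (Mb : ℝ), 0 ≤ Mb → ContDiff ℝ ∞ Om → ContDiff ℝ ∞ Om' →
      (∀ n ≤ A + 2, ∀ x, ‖iteratedDeriv n Om x‖ ≤ Mb) →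
      (∀ n ≤ A + 2, ∀ x, ‖iteratedDeriv n Om' x‖ ≤ Mb) →
    ∀ (V V' τ : ℝ) (κ κ' : ℂ), 0 < V → 0 < V' → ‖κ‖ ≤ 1 → ‖κ'‖ ≤ 1 →
    ∀ (Z : ℝ), 1 ≤ Z → ∀ (Pr : Yp → Yp → Prop) (J : Finset (Eis × Eis))
      (om om' : Eis × Eis → ℂ) (af : Eis → Eis → Eis → ℂ) (EE : Finset Eis)
      (E0 E1 R B K X G1 G1' : ℝ) (H H' : Eis → Eis → ℝ) (W0 W0' : Eis → Eis → ℝ → ℝ),
      TC (T3 af) → (∀ d e, FS (af d e)) → OKJ J → (∀ d e, e ∉ EE → ∀ j, T3 af d e j = 0) →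
      0 < K → 0 ≤ R → R ≤ Z → 0 ≤ B → B ≤ Z → 0 ≤ E1 → E1 ≤ Z →
      (∀ x ∈ J, (nm x.1 : ℝ) ≤ Z) → (∀ x ∈ J, (nm x.2 : ℝ) ≤ R) →
      WQ J om E0 R (wL κ h Om τ V) → WQ J om' E0 R (wL κ' h Om' τ V') →
      0 < X → (∀ d e, 0 < H d e) → (∀ d e, 0 < H' d e) → 0 ≤ G1 → 0 ≤ G1' →
      K ≤ Z ^ 5 → X ≤ Z ^ 5 → c * V ≤ Z ^ 5 → c * V' ≤ Z ^ 5 →
      (∀ d ∈ S (Z ^ 5), ∀ e ∈ EE, c * (H d e * V ^ 2) ≤ K * X) →
      (∀ d ∈ S (Z ^ 5), ∀ e ∈ EE, c * (H' d e * V' ^ 2) ≤ K * X) →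
      (Real.sqrt (c * V) ≤ G1 ∨ (ClsP Pr J E0 R ∧ 1 ≤ G1)) →
      (Real.sqrt (c * V') ≤ G1' ∨ (ClsP Pr J E0 R ∧ 1 ≤ G1')) →
      (∀ d ∈ J.image Prod.fst, ∀ e ∈ EE, ∀ n, af d e n ≠ 0 → Squarefree n) →
      (∀ d ∈ J.image Prod.fst, ∀ e ∈ EE, ∀ n, af d e n ≠ 0 →
        |Real.log (nm d * nm n) - Real.log X| ≤ R0) →
      (∀ d e, Slp a (W0 d e)) → (∀ d e, Slp a (W0' d e)) →
      RHR (c * Z ^ 300) A₁ (RR J EE) af W0 → RHR (c * Z ^ 300) A₁ (RR J EE) af W0' →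
      ∑ q ∈ S R, ∑ t ∈ pb E1, MPTr Pr A Bw K B V V' (Z ^ 5) J om om' (T3 af) E0 R b₀ q t ≤
        C * Mb ^ 2 * (1 + |τ|) ^ A * Z ^ ε * (hE EE *
          (LVH af (J.image Prod.fst) EE c (Z ^ 5) K H V V' E1 B G1 (RN2F c K V X H W0) +
          LVH af (J.image Prod.fst) EE c (Z ^ 5) K H' V' V E1 B G1' (RN2F c K V' X H' W0'))) := by
  -- the constants
  obtain ⟨cs, hcsd⟩ : ∃ cs, cs = Real.exp Rw := ⟨_, rfl⟩
  have hcs : 1 ≤ cs := by rw [hcsd]; exact Real.one_le_exp hRw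
  have hcs0 : 0 < cs := by linarith
  have hwcs : Wgt (fun y => w1 (cs * y)) := by
    have h1 := hW1.scale (A := cs⁻¹) (by positivity)
    have e : (fun x => w1 (x / cs⁻¹)) = fun y => w1 (cs * y) := by
      funext x
      rw [div_inv_eq_mul, mul_comm]
    rwa [e] at h1
  have hw1' : ∀ y, w1 (cs * y) ≠ 0 → y ≤ 1 := fun y hy => w_le hw hcsd.ge hy
  obtain ⟨η, hη⟩ : ∃ η, η = ε / 1656 := ⟨_, rfl⟩
  have hη0 : 0 < η := by rw [hη]; positivity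
  have hη1 : 11 * η ≤ 1 := by rw [hη]; linarith
  obtain ⟨C0, hC0, hMB⟩ := MB_A (w := fun y => w1 (cs * y)) hwcs hw1' hη0
  obtain ⟨C₂, c₁, A₀, hC₂, hc₁, hS12⟩ := S12_A (w := fun y => w1 (cs * y)) hwcs hw1' hR0 a A₁ hA₁
    hη0 hcs
  obtain ⟨CR, hCR, hPZ⟩ := RPH2_of hη0
  obtain ⟨CZ, hCZd⟩ : ∃ CZ, CZ = kZ 59049 b₀ + 2 * Real.exp R0 + 2 := ⟨_, rfl⟩
  have hkZ : 0 ≤ kZ 59049 b₀ := by unfold E3Sw290.kZ; positivity
  have hCZ2 : 2 ≤ CZ := by rw [hCZd]; linarith [Real.exp_pos R0]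
  have hCZ1 : 1 ≤ CZ := by linarith
  have he2 : 1 ≤ 4 * Real.exp (2 * R0 + 3) + 1 := by linarith [Real.exp_pos (2 * R0 + 3)]
  obtain ⟨cw', hcwd⟩ : ∃ cw', cw' = c₁ * (4 * Real.exp (2 * R0 + 3) + 1) * CZ ^ 4 := ⟨_, rfl⟩
  have p2 : 1 ≤ c₁ * (4 * Real.exp (2 * R0 + 3) + 1) := one_le_mul_of_one_le_of_one_le hc₁ he2
  have p3 : 1 ≤ CZ ^ 4 := one_le_pow₀ hCZ1
  have hcw' : 1 ≤ cw' := by rw [hcwd]; exact one_le_mul_of_one_le_of_one_le p2 p3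
  have q2 : c₁ ≤ cw' := by
    rw [hcwd, mul_assoc]
    exact le_mul_of_one_le_right (by linarith) (one_le_mul_of_one_le_of_one_le he2 p3)
  have q3 : 4 * Real.exp (2 * R0 + 3) + 1 ≤ cw' := by
    rw [hcwd]
    calc 4 * Real.exp (2 * R0 + 3) + 1 ≤ c₁ * (4 * Real.exp (2 * R0 + 3) + 1) :=
          le_mul_of_one_le_left (by linarith) hc₁
      _ ≤ _ := le_mul_of_one_le_right (by linarith) p3
  have q4 : CZ ^ 4 ≤ cw' := by
    rw [hcwd]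
    exact le_mul_of_one_le_left (by linarith) p2
  obtain ⟨c, hcd⟩ : ∃ c, c = cw' * cs := ⟨_, rfl⟩
  have hcwc : cw' ≤ c := by rw [hcd]; exact le_mul_of_one_le_right (by linarith) hcs
  have hcsc : cs ≤ c := by rw [hcd]; exact le_mul_of_one_le_left (by linarith) hcw'
  have hc1 : 1 ≤ c := hcw'.trans hcwc
  refine ⟨A₀ + 2, c, hc1, ?_⟩
  intro A hA Bw hBw
  obtain ⟨C, hC, hP⟩ := PAIRF (A := A) (Bw := Bw) (by omega) hBw hRw hh hhc hw hw1 (cw := cw')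
    (cs := cs) (b₀ := b₀) hcw' hcs hcsd.ge hb₀ (ε := 3 * η) (by positivity) (by linarith)
  refine ⟨C * (C0 * cs ^ 2) * ((1 + C₂) * CZ) * (3 + CR), by positivity, ?_⟩
  intro Om Om' Mb hMb hOm hOm' hOb hOb' V V' τ κ κ' hV hV' hκ hκ' Z hZ Pr J om om' af EE E0 E1 R B
    K X G1 G1' H H' W0 W0' hT haf hJ hEE hK hR0' hRZ hB0 hBZ hE10 hE1 hJ1 hJ2 hwq hwq' hX hH hH' hG1 hG1'
    hKz hXz hVz hVz' hKX hKX' hcl hcl' hsf hwin hS hS' hRH hRH'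
  have hZ0 : 0 < Z := by linarith
  have hz : 1 ≤ Z ^ 5 := one_le_pow₀ hZ
  obtain ⟨Zm, hZmd⟩ : ∃ Zm, Zm = CZ * Z ^ 75 := ⟨_, rfl⟩
  have h75 : 1 ≤ Z ^ 75 := one_le_pow₀ hZ
  have hZm : 1 ≤ Zm := by rw [hZmd]; exact one_le_mul_of_one_le_of_one_le hCZ1 h75
  have hZm75 : Z ^ 75 ≤ Zm := by
    rw [hZmd]; exact le_mul_of_one_le_left (by positivity) hCZ1
  have hZm75' : 2 * Z ^ 75 ≤ Zm := by
    rw [hZmd]; exact mul_le_mul_of_nonneg_right hCZ2 (by positivity)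
  have hz75 : Z ^ 5 ≤ Z ^ 75 := pow_le_pow_right₀ hZ (by norm_num)
  have hz15 : 2 * ((Z ^ 5) ^ 3) ^ 5 ≤ Zm := by
    rw [← pow_mul, ← pow_mul]
    exact hZm75'
  have hkZm : kZ 59049 b₀ * (Z ^ 5) ^ 10 ≤ Zm := by
    rw [hZmd, ← pow_mul]
    have h1 : kZ 59049 b₀ ≤ CZ := by rw [hCZd]; linarith [Real.exp_pos R0]
    have h2 : Z ^ (5 * 10) ≤ Z ^ 75 := pow_le_pow_right₀ hZ (by norm_num)
    exact mul_le_mul h1 h2 (by positivity) (by linarith)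
  have hXm : 2 * ((Z ^ 5) ^ 3) ^ 2 * (Real.exp R0 * X) ≤ Zm := by
    have h1 : 2 * Real.exp R0 ≤ CZ := by rw [hCZd]; linarith [Real.exp_pos R0]
    calc 2 * ((Z ^ 5) ^ 3) ^ 2 * (Real.exp R0 * X)
        = ((Z ^ 5) ^ 3) ^ 2 * (2 * Real.exp R0 * X) := by ring
      _ ≤ ((Z ^ 5) ^ 3) ^ 2 * (CZ * Z ^ 5) := by gcongr
      _ = CZ * Z ^ 35 := by ring
      _ ≤ CZ * Z ^ 75 := by
          refine mul_le_mul_of_nonneg_left ?_ (by linarith)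
          exact pow_le_pow_right₀ hZ (by norm_num)
      _ = Zm := hZmd.symm
  have hπ : Zm ^ 4 ≤ c * Z ^ 300 := by
    rw [hZmd, mul_pow, ← pow_mul]
    exact mul_le_mul_of_nonneg_right (q4.trans hcwc) (by positivity)
  have hcsV2 : ∀ V : ℝ, 0 < V → c * V ≤ Z ^ 5 → 2 * (cs * V) ≤ Zm := fun V hV h => by
    have h1 := (mul_le_mul_of_nonneg_right hcsc hV.le).trans h
    linarith
  have hcsV : ∀ V : ℝ, 0 < V → c * V ≤ Z ^ 5 → cs * V ≤ Zm := fun V hV h => by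
    have h1 := hcsV2 V hV h
    have h2 : 0 < cs * V := by positivity
    linarith
  have hKXs : ∀ H V : ℝ, 0 < H → 0 < V → c * (H * V ^ 2) ≤ K * X →
      4 * (H * V ^ 2) * Real.exp (2 * R0 + 3) < K * X := by
    intro H V hH hV h
    have h1 : 0 < H * V ^ 2 := by positivity
    have h2 : (4 * Real.exp (2 * R0 + 3) + 1) * (H * V ^ 2) ≤ c * (H * V ^ 2) :=
      mul_le_mul_of_nonneg_right (q3.trans hcwc) h1.le
    nlinarith
  have hHK : ∀ H V : ℝ, 0 < H → 0 < V → c * (H * V ^ 2) ≤ K * X → H * V ^ 2 / K ≤ Zm := by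
    intro H V hH hV h
    have h1 : 0 < H * V ^ 2 := by positivity
    have h2 : H * V ^ 2 ≤ c * (H * V ^ 2) := le_mul_of_one_le_left h1.le hc1
    have h3 : H * V ^ 2 / K ≤ X := by
      rw [div_le_iff₀ hK]; linarith
    linarith
  -- the structured numbers
  set W1 : Eis → Eis → ℝ := fun d e => C₂ * Zm ^ (2 * η) * W0 d e (c * (X * V * H d e / K)) with
    hW1d
  set W1' : Eis → Eis → ℝ := fun d e => C₂ * Zm ^ (2 * η) * W0' d e (c * (X * V' * H' d e / K))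
    with hW1d'
  have hc0 : 0 < c := by linarith
  have hI0 : ∀ d e, 0 < X * V * H d e / K := fun d e => by
    have := hH d e
    positivity
  have hI0' : ∀ d e, 0 < X * V' * H' d e / K := fun d e => by
    have := hH' d e
    positivity
  have hI : ∀ d e, 0 < c * (X * V * H d e / K) := fun d e => mul_pos hc0 (hI0 d e)
  have hI' : ∀ d e, 0 < c * (X * V' * H' d e / K) := fun d e => mul_pos hc0 (hI0' d e)
  have hCZm : 0 ≤ C₂ * Zm ^ (2 * η) := by positivity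
  have n0 : ∀ d e, 0 ≤ W0 d e (c * (X * V * H d e / K)) := fun d e =>
    (hS d e).nonneg _ (hI d e)
  have n0' : ∀ d e, 0 ≤ W0' d e (c * (X * V' * H' d e / K)) := fun d e =>
    (hS' d e).nonneg _ (hI' d e)
  have hW10 : ∀ d e, 0 ≤ W1 d e := fun d e => mul_nonneg hCZm (n0 d e)
  have hW10' : ∀ d e, 0 ≤ W1' d e := fun d e => mul_nonneg hCZm (n0' d e)
  have hA2 : (2 : ℝ) ≤ (A : ℝ) := by exact_mod_cast (by omega : 2 ≤ A)
  have hAA : ((A₀ : ℕ) : ℝ) ≤ (A : ℝ) := by exact_mod_cast (by omega : A₀ ≤ A)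
  obtain ⟨w, hwd⟩ : ∃ w : ℝ → ℝ, w = fun y => w1 (cs * y) := ⟨_, rfl⟩
  rw [← hwd] at hMB hS12
  obtain ⟨Bs, hBsd⟩ : ∃ Bs : UT → ℝ, Bs = fun t => BsA η w A cs K V (H t.1 t.2.1) af t :=
    ⟨_, rfl⟩
  obtain ⟨Bs', hBsd'⟩ : ∃ Bs' : UT → ℝ, Bs' = fun t => BsA η w A cs K V' (H' t.1 t.2.1) af t :=
    ⟨_, rfl⟩
  have hBs0 : ∀ t, 0 ≤ Bs t := fun t => by rw [hBsd]; exact BsA_nonneg _ _ _ _ _ _ _ _ _
  have hBs0' : ∀ t, 0 ≤ Bs' t := fun t => by rw [hBsd']; exact BsA_nonneg _ _ _ _ _ _ _ _ _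
  have hmono : ∀ (χ : Eis → ℂ) (V H : ℝ) (Bs : UT → ℝ) (t : UT), 0 < V → 0 < H → 0 ≤ Bs t →
      MBU χ w A (3 * η) C0 1 cs K V H af Bs Zm t →
      MBU χ w A (3 * η) C0 cw' cs K V H af Bs Zm t := by
    intro χ V H Bs t hV hH hB h
    refine MB_mono (by linarith) hC0.le le_rfl zero_le_one hcw' ?_ ?_ hB le_rfl h
    · unfold E3Sw290.YU E3Sw290.ZU
      positivity
    · unfold E3Sw290.LtU E3Sw290.YU E3Sw290.ZU
      positivity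
  have hM1 : MB1H w1 A (3 * η) C0 cw' cs K V H af (Z ^ 5) EE Bs Zm := by
    intro k k' hk hk' t ht hY
    have h1 := hMB A hA2 cs (Z ^ 5) Zm K V (H t.1 t.2.1) hcs hz hZm hK hV (hH _ _)
      (hcsV V hV hVz) (hHK _ V (hH _ _) hV (hKX t.1 ht.d t.2.1 ht.e)) EE af t ht hY ((k, k'), false)
      (mem_CC hk hk' _)
    have e1 : chi ((k, k'), false) = pc k k' := by funext m; simp [chi]
    rw [e1] at h1
    rw [← hwd]
    refine hmono _ _ _ _ _ hV (hH _ _) (hBs0 t) ?_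
    rw [hBsd]
    exact h1
  have hM2 : MB2H w1 A (3 * η) C0 cw' cs K V' H' af (Z ^ 5) EE Bs' Zm := by
    intro k k' hk hk' t ht hY
    have h1 := hMB A hA2 cs (Z ^ 5) Zm K V' (H' t.1 t.2.1) hcs hz hZm hK hV' (hH' _ _)
      (hcsV V' hV' hVz') (hHK _ V' (hH' _ _) hV' (hKX' t.1 ht.d t.2.1 ht.e)) EE af t ht hY
      ((k, k'), true) (mem_CC hk hk' _)
    have e1 : chi ((k, k'), true) = fun m => conj (pc k k' m) := by funext m; simp [chi]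
    rw [e1] at h1
    rw [← hwd]
    refine hmono _ _ _ _ _ hV' (hH' _ _) (hBs0' t) ?_
    rw [hBsd']
    exact h1
  have hz15' : 1 ≤ (Z ^ 5) ^ 3 := one_le_pow₀ hz
  have hne : ∀ d ∈ J.image Prod.fst, d ∈ S (Z ^ 5) ∧ d ≠ 0 := by
    intro d hd
    obtain ⟨y, hy, rfl⟩ := mem_image.mp hd
    have pd := hJ.prim y hy
    refine ⟨(mem_S (by positivity)).2 ⟨(hJ1 y hy).trans ?_, pd, ?_⟩, pd.ne_zero⟩
    · calc Z = Z ^ 1 := (pow_one Z).symm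
        _ ≤ Z ^ 5 := pow_le_pow_right₀ hZ (by norm_num)
    · exact hJ.sqf y hy
  have hforms : ∀ (V : ℝ) (H : Eis → Eis → ℝ) (W0 : Eis → Eis → ℝ → ℝ), 0 < V →
      (∀ d e, 0 < H d e) → c * V ≤ Z ^ 5 →
      (∀ d ∈ S (Z ^ 5), ∀ e ∈ EE, c * (H d e * V ^ 2) ≤ K * X) → (∀ d e, Slp a (W0 d e)) →
      RHR (c * Z ^ 300) A₁ (RR J EE) af W0 →
      ∀ d ∈ J.image Prod.fst, ∀ e ∈ EE,
        S1h ((Z ^ 5) ^ 3) {(d, e)} (fun _ => Ld K V (H d e) d) (fun _ => Md c K V (H d e) X d)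
          (fun d e => C₂ * Zm ^ (2 * η) * W0 d e (c * (X * V * H d e / K)))
          (fun t => BsA η w A cs K V (H t.1 t.2.1) af t) ∧
        S2h ((Z ^ 5) ^ 3) {(d, e)} (fun _ => Ld K V (H d e) d) (X * V * H d e / K)
          (fun d e => C₂ * Zm ^ (2 * η) * W0 d e (c * (X * V * H d e / K)))
          (fun t => BsA η w A cs K V (H t.1 t.2.1) af t) := by
    intro V H W0 hV hH hVz hKX hS hRH d hd e he
    obtain ⟨hdS, hd0⟩ := hne d hd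
    have hHd := hH d e
    have hρ : (d, e) ∈ RR J EE := by
      unfold RR
      exact mem_product.mpr ⟨hd, he⟩
    obtain ⟨s1, s2⟩ := hS12 A hAA ((Z ^ 5) ^ 3) Zm K V (H d e) X hz15' hz15 hK hV hHd hX
      (hKXs _ V hHd hV (hKX d hdS e he)) (hcsV2 V hV hVz) hXm {(d, e)} af
      (fun ρ hρ' => haf _ _)
      (fun ρ hρ' n hn => by
        rw [mem_singleton] at hρ'
        subst hρ'
        exact hsf d hd e he n hn)
      (fun ρ hρ' n hn => by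
        rw [mem_singleton] at hρ'
        subst hρ'
        exact hwin d hd e he n hn) W0 hS
      (fun ρ hρ' γ π hγ hπ' hn P hP => by
        rw [mem_singleton] at hρ'
        subst hρ'
        exact hRH (d, e) hρ γ π hγ hπ' (hn.trans hπ) P hP)
      (fun ρ hρ' => by
        rw [mem_singleton] at hρ'
        subst hρ'
        exact hd0)
    have hW : C₂ * Zm ^ (2 * η) * W0 d e (c₁ * (X * V * H d e / K)) ≤
        C₂ * Zm ^ (2 * η) * W0 d e (c * (X * V * H d e / K)) := by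
      have hIp : 0 < X * V * H d e / K := by positivity
      refine mul_le_mul_of_nonneg_left ?_ hCZm
      exact slp_mono (hS d e) (mul_pos (by linarith) hIp)
        (mul_le_mul_of_nonneg_right (q2.trans hcwc) hIp.le)
    constructor
    · intro t ht hR
      have hR' := hR
      rw [mem_singleton, Prod.mk.injEq] at hR'
      obtain ⟨r1, r2⟩ := hR'
      have k := s1 t ht hR
      beta_reduce at k ⊢
      rw [r1, r2] at k ⊢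
      refine k.trans ?_
      have hk := kU_nonneg t
      have hIp : 0 < X * V * H d e / K := by positivity
      have hM : cs * (H d e * V ^ 2 / (K * nm d)) * (X * V * H d e / K) ^ (-(1 / 2) : ℝ) ≤
          Md c K V (H d e) X d := by
        unfold E3Sz579.Md
        gcongr
      have hM0 : 0 ≤ Md c K V (H d e) X d := Md_nonneg hc0.le hK hV hHd hX d
      change (if _ ≤ Ld K V (H d e) d then _ else _) ≤ (if _ ≤ Ld K V (H d e) d then _ else _)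
      split_ifs
      · refine mul_le_mul ?_ hW ?_ (by positivity)
        · exact add_le_add le_rfl (mul_le_mul_of_nonneg_right hM hk)
        · exact mul_nonneg hCZm ((hS d e).nonneg _ (mul_pos (by linarith) hIp))
      · exact le_rfl
    · intro ρ hρ' q hq k hk g hg F hF Δ hΔ Kp hKp
      have k := s2 ρ hρ' q hq k hk g hg F hF Δ hΔ Kp hKp
      rw [mem_singleton] at hρ'
      subst hρ'
      refine le_trans ?_ (k.trans ?_)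
      · exact le_rfl
      · refine mul_le_mul_of_nonneg_left hW ?_
        have hIp : 0 < X * V * H d e / K := by positivity
        unfold E3T829.F2
        positivity
  obtain ⟨ρ, hρd⟩ : ∃ ρ, ρ = CR * (Z ^ 5) ^ η := ⟨_, rfl⟩
  have hρ0 : 0 ≤ ρ := by rw [hρd]; positivity
  have hρ1 : 3 + ρ ≤ (3 + CR) * Z ^ (ε / 2) := by
    have e1 : (Z ^ 5) ^ η = Z ^ (5 * η) := by
      rw [← Real.rpow_natCast, ← Real.rpow_mul hZ0.le]
      push_cast; rfl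
    have e2 : Z ^ (5 * η) ≤ Z ^ (ε / 2) := by
      refine Real.rpow_le_rpow_of_exponent_le hZ ?_
      rw [hη]; linarith
    have e3 : 1 ≤ Z ^ (ε / 2) := Real.one_le_rpow hZ (by positivity)
    rw [hρd, e1]
    nlinarith
  have hR1 : RPH J EE (Z ^ 5) K H V Bs ρ
      (fun d e => (C₂ * Zm ^ (2 * η)) * RN2F c K V X H W0 d e) := by
    have k := hPZ (Z ^ 5) hz J EE K V H (fun d e => Ld K V (H d e) d)
      (fun d e => Md c K V (H d e) X d) (fun d e => X * V * H d e / K) W1 Bs hK.le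
      (fun d e => (hH d e).le) hV.le hW10
      (fun d e => Ld_nonneg hK (hH d e) d) (fun d e => Md_nonneg hc0.le hK hV (hH d e) hX d)
      hI0 hBs0 (fun d hd e he => by
        rw [hBsd]
        exact hforms V H W0 hV hH hVz hKX hS hRH d hd e he)
    rw [← hρd] at k
    have e : (fun d e => (C₂ * Zm ^ (2 * η)) * RN2F c K V X H W0 d e) = fun d e =>
        (nm d : ℝ) ^ (2 / 3 : ℝ) * nm e * ((if 1 ≤ Ld K V (H d e) d then
          G2 (Ld K V (H d e) d) (Md c K V (H d e) X d) (X * V * H d e / K) else 0) * W1 d e) := by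
      funext d e
      unfold RN2F
      rw [hW1d]
      ring
    rw [e]
    exact k
  have hR2 : RPH J EE (Z ^ 5) K H' V' Bs' ρ
      (fun d e => (C₂ * Zm ^ (2 * η)) * RN2F c K V' X H' W0' d e) := by
    have k := hPZ (Z ^ 5) hz J EE K V' H' (fun d e => Ld K V' (H' d e) d)
      (fun d e => Md c K V' (H' d e) X d) (fun d e => X * V' * H' d e / K) W1' Bs' hK.le
      (fun d e => (hH' d e).le) hV'.le hW10'
      (fun d e => Ld_nonneg hK (hH' d e) d) (fun d e => Md_nonneg hc0.le hK hV' (hH' d e) hX d)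
      hI0' hBs0' (fun d hd e he => by
        rw [hBsd']
        exact hforms V' H' W0' hV' hH' hVz' hKX' hS' hRH' d hd e he)
    rw [← hρd] at k
    have e : (fun d e => (C₂ * Zm ^ (2 * η)) * RN2F c K V' X H' W0' d e) = fun d e =>
        (nm d : ℝ) ^ (2 / 3 : ℝ) * nm e * ((if 1 ≤ Ld K V' (H' d e) d then
          G2 (Ld K V' (H' d e) d) (Md c K V' (H' d e) X d) (X * V' * H' d e / K) else 0) *
            W1' d e) := by
      funext d e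
      unfold RN2F
      rw [hW1d']
      ring
    rw [e]
    exact k
  have nR : ∀ d e, 0 ≤ RN2F c K V X H W0 d e := fun d e =>
    RN2F_nonneg (Ld_nonneg hK (hH d e) d) (Md_nonneg hc0.le hK hV (hH d e) hX d) (hI0 d e).le
      (n0 d e)
  have nR' : ∀ d e, 0 ≤ RN2F c K V' X H' W0' d e := fun d e =>
    RN2F_nonneg (Ld_nonneg hK (hH' d e) d) (Md_nonneg hc0.le hK hV' (hH' d e) hX d)
      (hI0' d e).le (n0' d e)
  have key := hP Om Om' Mb hMb hOm hOm' hOb hOb' V V' τ κ κ' hV hV' hκ hκ' Z hZ Pr J om om' af EE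
    E0 E1 R B K X G1 G1' C0 Zm ρ H H' (fun d e => (C₂ * Zm ^ (2 * η)) * RN2F c K V X H W0 d e)
    (fun d e => (C₂ * Zm ^ (2 * η)) * RN2F c K V' X H' W0' d e)
    Bs Bs' hT haf hJ hEE hK hR0' hRZ hB0 hBZ hE10 hE1 hJ1 hJ2
    hwq hwq' hX hH hH' hC0 hG1 hG1' hKz (by rw [← hcd]; exact hVz) (by rw [← hcd]; exact hVz') hZm
    hkZm (by rw [← hcd]; exact hcl) (by rw [← hcd]; exact hcl') hBs0 hBs0' hM1 hM2 hρ0
    (fun d e => mul_nonneg hCZm (nR d e)) (fun d e => mul_nonneg hCZm (nR' d e)) hR1 hR2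
  rw [← hcd] at key
  refine key.trans ?_
  -- the numbers
  have l1 := LVH_smul (af := af) (Ds := J.image Prod.fst) (EE := EE) (c := c) (Y := Z ^ 5)
    (RN := RN2F c K V X H W0) (k := C₂ * Zm ^ (2 * η)) hK hH hV hV' hE10 hB0 hG1 nR hCZm
  have l2 := LVH_smul (af := af) (Ds := J.image Prod.fst) (EE := EE) (c := c) (Y := Z ^ 5)
    (RN := RN2F c K V' X H' W0') (k := C₂ * Zm ^ (2 * η)) hK hH' hV' hV hE10 hB0 hG1' nR' hCZm
  have ly1 := LVH_nonneg (af := af) (Ds := J.image Prod.fst) (EE := EE) (c := c) (Y := Z ^ 5)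
    (E1 := E1) (B := B) hK.le (fun d e => (hH d e).le) hV.le hV'.le hE10 hG1 nR
  have ly2 := LVH_nonneg (af := af) (Ds := J.image Prod.fst) (EE := EE) (c := c) (Y := Z ^ 5)
    (E1 := E1) (B := B) hK.le (fun d e => (hH' d e).le) hV'.le hV.le hE10 hG1' nR'
  have hz1 := Z_exp2 (Z := Z) (CZ := CZ) (C₂ := C₂) (η := η) (ε := ε / 2) hZ hCZ1 hC₂ hη0 hη1
    (by rw [hη]; linarith)
  rw [← hZmd] at hz1
  generalize LVH af (J.image Prod.fst) EE c (Z ^ 5) K H V V' E1 B G1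
    (fun d e => (C₂ * Zm ^ (2 * η)) * RN2F c K V X H W0 d e) = x1 at *
  generalize LVH af (J.image Prod.fst) EE c (Z ^ 5) K H' V' V E1 B G1'
    (fun d e => (C₂ * Zm ^ (2 * η)) * RN2F c K V' X H' W0' d e) = x2 at *
  generalize LVH af (J.image Prod.fst) EE c (Z ^ 5) K H V V' E1 B G1 (RN2F c K V X H W0) = y1 at *
  generalize LVH af (J.image Prod.fst) EE c (Z ^ 5) K H' V' V E1 B G1'
    (RN2F c K V' X H' W0') = y2 at *
  have hfin := fin_alg (cs := cs) (F := Mb ^ 2 * (1 + |τ|) ^ A * (3 + ρ))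
    (a := Zm ^ (3 * (3 * η))) (b := Z ^ (3 * η)) hC hC0.le (hE_nonneg EE) (by positivity)
    (by positivity) l1 l2 hz1 ly1 ly2
  have hhE := hE_nonneg EE
  have hlast : C * (C0 * cs ^ 2) * ((1 + C₂) * CZ * Z ^ (ε / 2)) *
      (Mb ^ 2 * (1 + |τ|) ^ A * (3 + ρ)) * (hE EE * (y1 + y2)) ≤
      C * (C0 * cs ^ 2) * ((1 + C₂) * CZ * Z ^ (ε / 2)) *
      (Mb ^ 2 * (1 + |τ|) ^ A * ((3 + CR) * Z ^ (ε / 2))) * (hE EE * (y1 + y2)) := by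
    refine mul_le_mul_of_nonneg_right ?_ (by positivity)
    refine mul_le_mul_of_nonneg_left ?_ (by positivity)
    exact mul_le_mul_of_nonneg_left hρ1 (by positivity)
  have ehalf : Z ^ ε = Z ^ (ε / 2) * Z ^ (ε / 2) := by
    rw [← Real.rpow_add hZ0]; congr 1; ring
  rw [ehalf]
  refine le_trans (le_of_eq ?_) (hfin.trans (hlast.trans (le_of_eq ?_))) <;> ring

/-- **one pair of levels from (RH), both forms**, `H` a function of `(d, e)` per side (the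
hypotheses of `PAIR_RHF`) -/
theorem PAIR_RHF2 {Rw : ℝ} (hRw : 0 ≤ Rw) {h : ℝ → ℝ} (hh : ContDiff ℝ ∞ h)
    (hhc : HasCompactSupport h) {w1 : ℝ → ℝ} (hW1 : Wgt w1)
    (hw : ∀ x, w1 x ≠ 0 → 0 < x ∧ |Real.log x| ≤ Rw)
    (hw1 : ∀ x, 0 < x → h (Real.log x) ≠ 0 → w1 x = 1) {R0 : ℝ} (hR0 : 0 ≤ R0) (a A₁ : ℕ)
    (hA₁ : 1 < A₁) {b₀ : ℝ} (hb₀ : 0 ≤ b₀) {ε : ℝ} (hε : 0 < ε) (hε1 : ε ≤ 1) :
    ∃ (A₀ : ℕ) (c : ℝ), 1 ≤ c ∧ ∀ A : ℕ, A₀ ≤ A → ∀ Bw : ℕ, 4 ≤ Bw → ∃ C : ℝ, 0 ≤ C ∧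
    ∀ (Om Om' : ℝ → ℂ) (Mb : ℝ), 0 ≤ Mb → ContDiff ℝ ∞ Om → ContDiff ℝ ∞ Om' →
      (∀ n ≤ A + 2, ∀ x, ‖iteratedDeriv n Om x‖ ≤ Mb) →
      (∀ n ≤ A + 2, ∀ x, ‖iteratedDeriv n Om' x‖ ≤ Mb) →
    ∀ (V V' τ : ℝ) (κ κ' : ℂ), 0 < V → 0 < V' → ‖κ‖ ≤ 1 → ‖κ'‖ ≤ 1 →
    ∀ (Z : ℝ), 1 ≤ Z → ∀ (Pr : Yp → Yp → Prop) (J : Finset (Eis × Eis))
      (om om' : Eis × Eis → ℂ) (af : Eis → Eis → Eis → ℂ) (EE : Finset Eis)
      (E0 E1 R B K X G1 G1' : ℝ) (H H' : Eis → Eis → ℝ) (W0 W0' : Eis → Eis → ℝ → ℝ),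
      TC (T3 af) → (∀ d e, FS (af d e)) → OKJ J → (∀ d e, e ∉ EE → ∀ j, T3 af d e j = 0) →
      0 < K → 0 ≤ R → R ≤ Z → 0 ≤ B → B ≤ Z → 0 ≤ E1 → E1 ≤ Z →
      (∀ x ∈ J, (nm x.1 : ℝ) ≤ Z) → (∀ x ∈ J, (nm x.2 : ℝ) ≤ R) →
      WQ J om E0 R (wL κ h Om τ V) → WQ J om' E0 R (wL κ' h Om' τ V') →
      0 < X → (∀ d e, 0 < H d e) → (∀ d e, 0 < H' d e) → 0 ≤ G1 → 0 ≤ G1' →
      K ≤ Z ^ 5 → X ≤ Z ^ 5 → c * V ≤ Z ^ 5 → c * V' ≤ Z ^ 5 →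
      (∀ d ∈ S (Z ^ 5), ∀ e ∈ EE, c * (H d e * V ^ 2) ≤ K * X) →
      (∀ d ∈ S (Z ^ 5), ∀ e ∈ EE, c * (H' d e * V' ^ 2) ≤ K * X) →
      (Real.sqrt (c * V) ≤ G1 ∨ (ClsP Pr J E0 R ∧ 1 ≤ G1)) →
      (Real.sqrt (c * V') ≤ G1' ∨ (ClsP Pr J E0 R ∧ 1 ≤ G1')) →
      (∀ d ∈ S (Z ^ 5), ∀ e ∈ EE, ∀ n, af d e n ≠ 0 → Squarefree n) →
      (∀ d ∈ S (Z ^ 5), ∀ e ∈ EE, ∀ n, af d e n ≠ 0 →
        |Real.log (nm d * nm n) - Real.log X| ≤ R0) →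
      (∀ d e, Slp a (W0 d e)) → (∀ d e, Slp a (W0' d e)) →
      RHd (Z ^ 5) (c * Z ^ 300) A₁ EE af W0 → RHd (Z ^ 5) (c * Z ^ 300) A₁ EE af W0' →
      ∑ q ∈ S R, ∑ t ∈ pb E1, MPTr Pr A Bw K B V V' (Z ^ 5) J om om' (T3 af) E0 R b₀ q t ≤
        C * Mb ^ 2 * (1 + |τ|) ^ A * Z ^ ε * (hE EE *
          (LVH af (J.image Prod.fst) EE c (Z ^ 5) K H V V' E1 B G1 (RN2F c K V X H W0) +
          LVH af (J.image Prod.fst) EE c (Z ^ 5) K H' V' V E1 B G1' (RN2F c K V' X H' W0'))) := by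
  obtain ⟨A₀, c, hc, hP⟩ := PAIR_RHF2' hRw hh hhc hW1 hw hw1 hR0 a A₁ hA₁ hb₀ hε hε1
  refine ⟨A₀, c, hc, ?_⟩
  intro A hA Bw hBw
  obtain ⟨C, hC, hP'⟩ := hP A hA Bw hBw
  refine ⟨C, hC, ?_⟩
  intro Om Om' Mb hMb hOm hOm' hOb hOb' V V' τ κ κ' hV hV' hκ hκ' Z hZ Pr J om om' af EE E0 E1 R B
    K X G1 G1' H H' W0 W0' hT haf hJ hEE hK hR0' hRZ hB0 hBZ hE10 hE1 hJ1 hJ2 hwq hwq' hX hH hH'
    hG1 hG1' hKz hXz hVz hVz' hKX hKX' hcl hcl' hsf hwin hS hS' hRH hRH'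
  have hne : ∀ d ∈ J.image Prod.fst, d ∈ S (Z ^ 5) := by
    intro d hd
    obtain ⟨y, hy, rfl⟩ := mem_image.mp hd
    refine (mem_S (by positivity)).2 ⟨(hJ1 y hy).trans ?_, hJ.prim y hy, hJ.sqf y hy⟩
    calc Z = Z ^ 1 := (pow_one Z).symm
      _ ≤ Z ^ 5 := pow_le_pow_right₀ hZ (by norm_num)
  have hRR : ∀ W : Eis → Eis → ℝ → ℝ, RHd (Z ^ 5) (c * Z ^ 300) A₁ EE af W →
      RHR (c * Z ^ 300) A₁ (RR J EE) af W := by
    intro W hW ρ hρ γ π hγ hπ hn P hP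
    unfold RR at hρ
    rw [mem_product] at hρ
    exact hW ρ.1 (hne _ hρ.1) ρ.2 hρ.2 γ π hγ hπ hn P hP
  exact hP' Om Om' Mb hMb hOm hOm' hOb hOb' V V' τ κ κ' hV hV' hκ hκ' Z hZ Pr J om om' af EE
    E0 E1 R B K X G1 G1' H H' W0 W0' hT haf hJ hEE hK hR0' hRZ hB0 hBZ hE10 hE1 hJ1 hJ2 hwq hwq'
    hX hH hH' hG1 hG1' hKz hXz hVz hVz' hKX hKX' hcl hcl'
    (fun d hd => hsf d (hne d hd)) (fun d hd => hwin d (hne d hd)) hS hS' (hRR _ hRH)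
    (hRR _ hRH')

end Crest.Agent.R017.E3Hf290
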