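import Crest.Agent.R017.E3Ke_548
import Crest.Agent.R017.E3Hf_290

/-!
# Row 17, R8 (E3) (Z2) (helper548): the non-sharp Gram sum, second form

* `Z2s` : from helper290's `PAIR_RHF2'`; the hypotheses only at the `(d, e)` of the window
-/

set_option autoImplicit false
set_option linter.unusedVariables false

noncomputable section

open Finset
open scoped Classical ComplexConjugate ContDiff

namespace Crest.Agent.R017.E3Kg548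

open Crest.Agent.R012 Crest.Agent.R012.Eis Crest.Agent.R012.Div277
open Crest.Agent.R012.MC (Wgt)
open Crest.Agent.R012.LS2 (S mem_S)
open Crest.Agent.R012.Mob705 (pb mem_pb pdiv mem_pdiv)
open Crest.Agent.R012.Weight600 (pw)
open Crest.Agent.R017.C70 (JC OKJ JW okJ_JW)
open Crest.Agent.R017.CM106 (CS FS)
open Crest.Agent.R017.HB645 (hh hh_nonneg hh_le_one abs_lt_of_hh contDiff_hh sum_hh_eq_one)
open Crest.Agent.R017.E3D579 (TE0)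
open Crest.Agent.R017.E1551 (nmpos)
open Crest.Agent.R017.E3A164 (Yp Ys SteT)
open Crest.Agent.R017.E3M829 (TC Tal Cut)
open Crest.Agent.R017.E3F548
open Crest.Agent.R017.E3T1579 (T3 WQ)
open Crest.Agent.R017.E3T2579 (wL)
open Crest.Agent.R017.E3T829 (hE hE_nonneg RR)
open Crest.Agent.R017.E3Z548
open Crest.Agent.R017.E3Kc548 Crest.Agent.R017.E3Ke548
open Crest.Agent.R017.Mode405 (Slp)
open Crest.Agent.R017.E3Sx579 (RHR)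
open Crest.Agent.R017.E3Sz579 (Ld Md Ld_nonneg Md_nonneg)
open Crest.Agent.R017.E3Hb290 (LVH)
open Crest.Agent.R017.E3Hf290 (RN2F RN2F_nonneg PAIR_RHF2')

/-- **(Z2), the second form** -/
theorem Z2s {w : ℝ → ℝ} (hw : Wgt w) (hw0 : ∀ x, 0 ≤ w x) {R0 : ℝ} (hR0 : 0 ≤ R0) (a A₁ : ℕ)
    (hA₁ : 1 < A₁) {ε : ℝ} (hε : 0 < ε) (hε1 : ε ≤ 1) :
    ∃ (A : ℕ) (c C : ℝ), 1 ≤ c ∧ 1 ≤ C ∧
    ∀ (Om : ℝ → ℂ) (Mb : ℝ), 0 ≤ Mb → ContDiff ℝ ∞ Om →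
      (∀ n ≤ A + 2, ∀ x, ‖iteratedDeriv n Om x‖ ≤ Mb) →
    ∀ (τ : ℝ) (κ : ℂ), ‖κ‖ ≤ 1 → ∀ (Z : ℝ), 1 ≤ Z → ∀ (D Y₀ Y₁ : ℝ)
      (om : Eis × Eis → ℂ) (T : Eis → Eis → Eis → ℂ) (af : Eis → Eis → Eis → ℂ)
      (E0 E1 R B K X : ℝ) (H : ℕ → Eis → Eis → ℝ) (W0 : ℕ → Eis → Eis → ℝ → ℝ),
      TC (T3 af) → (∀ d e, FS (af d e)) →
      (∀ x ∈ JW D Y₀ Y₁, ∀ e ∈ S E0, T x.1 e x.2 = T3 af x.1 e x.2) → 0 ≤ D → 0 ≤ Y₁ →
      (∀ x ∈ JW D Y₀ Y₁, om x = κ * (Om (Real.log (nm (x.2 * x.1 ^ 2))) * pw τ (nm x.2))) →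
      (∀ i ∈ LI Y₀ Y₁, ∀ n : ℕ, 0 < n → hh (Real.log n - i) ≠ 0 → Om (Real.log n) ≠ 0 →
        Y₀ < n ∧ (n : ℝ) ≤ Y₁) →
      0 < K → K ≤ Z → 0 ≤ R → R ≤ Z → 1 ≤ B → B ≤ Z → 0 ≤ E0 → E0 ≤ Z → 0 ≤ E1 → E1 ≤ Z → Y₁ ≤ Z →
      (∀ x ∈ JW D Y₀ Y₁, (nm x.1 : ℝ) ≤ Z) → (∀ x ∈ JW D Y₀ Y₁, (nm x.2 : ℝ) ≤ R) →
      0 < X → X ≤ Z ^ 5 → (∀ i d e, 0 < H i d e) → (∀ i ∈ LI Y₀ Y₁, c * Real.exp i ≤ Z ^ 5) →
      (∀ i ∈ LI Y₀ Y₁, ∀ d ∈ S (Z ^ 5), ∀ e ∈ S E0, c * (H i d e * Real.exp i ^ 2) ≤ K * X) →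
      (∀ d ∈ (JW D Y₀ Y₁).image Prod.fst, ∀ e ∈ S E0, ∀ n, af d e n ≠ 0 → Squarefree n) →
      (∀ d ∈ (JW D Y₀ Y₁).image Prod.fst, ∀ e ∈ S E0, ∀ n, af d e n ≠ 0 →
        |Real.log (nm d * nm n) - Real.log X| ≤ R0) →
      (∀ i d e, Slp a (W0 i d e)) →
      (∀ i ∈ LI Y₀ Y₁, RHR (c * Z ^ 300) A₁ (RR (JW D Y₀ Y₁) (S E0)) af (W0 i)) →
      (∑' k : Eis, if IsPrim k ∧ Cut E1 k then
        w ((nm k : ℝ) / K) * ‖SteT (JW D Y₀ Y₁) om E0 T k‖ ^ 2 else 0) ≤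
      C * Z ^ ε * (K ^ (2 / 3 : ℝ) * ∑ e ∈ S E0, (((nm e : ℝ) ^ (-1 : ℝ) +
        (R / K ^ 2) ^ (1 / 6 : ℝ) * (nm e : ℝ) ^ (1 / 2 : ℝ) + E1 ^ 2 * B ^ 2 * R / K) *
          XE (JW D Y₀ Y₁) om T e) +
      Mb ^ 2 * (1 + |τ|) ^ A * ∑ e ∈ S E0, ∑ i ∈ LI Y₀ Y₁, ∑ d ∈ (JW D Y₀ Y₁).image Prod.fst,
        (nm e : ℝ)⁻¹ * LVn af {d} {e} c (Z ^ 5) K (H i d e) (Real.exp i) (Real.exp i) E1 B 1
          (RN2F c K (Real.exp i) X (H i) (W0 i) d e)) := by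
  have hε2 : 0 < ε / 2 := by positivity
  obtain ⟨w1, hW1, hw1s, hw1e⟩ := exists_w1
  obtain ⟨b₀, hb0, hcore⟩ := Z2core hw hw0 hε2
  obtain ⟨A₀, c, hc, hpair⟩ := PAIR_RHF2' (Rw := 3) (by norm_num) contDiff_hh hhc hW1 hw1s hw1e hR0 a A₁
    hA₁ hb0 hε2 (by linarith)
  obtain ⟨C1, hC1, h1⟩ := hcore 3 (max A₀ 2) 4 (by norm_num) (by omega) (by norm_num)
  obtain ⟨C2, hC2, h2⟩ := hpair (max A₀ 2) (le_max_left _ _) 4 le_rfl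
  refine ⟨max A₀ 2, c, C1 * (1 + 2 * C2), hc,
    one_le_mul_of_one_le_of_one_le hC1 (by linarith), ?_⟩
  intro Om Mb hMb hOm hOb τ κ hκ Z hZ D Y₀ Y₁ om T af E0 E1 R B K X H W0 hT haf hTT hD hY0 hom hwn
    hK hKZ hR0' hRZ hB hBZ hE0 hE0Z hE1 hE1Z hYZ hJ1 hJ2 hX hXZ hH hcV hKX hsf hwin hS hRH
  have hZ0 : (0 : ℝ) < Z := by linarith
  have hB0 : 0 ≤ B := by linarith
  obtain ⟨A, hA⟩ : ∃ A, A = max A₀ 2 := ⟨_, rfl⟩
  rw [← hA] at h1 h2 hOb ⊢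
  have hJ := okJ_JW D Y₀ Y₁
  obtain ⟨F, hF⟩ : ∃ F : ℕ → Eis → Eis → ℝ, F = fun i e d =>
      (nm e : ℝ)⁻¹ * LVn af {d} {e} c (Z ^ 5) K (H i d e) (Real.exp i) (Real.exp i) E1 B 1
          (RN2F c K (Real.exp i) X (H i) (W0 i) d e) := ⟨_, rfl⟩
  have key := h1 D Y₀ Y₁ om T af K R Z B E0 E1 (2 * C2 * Mb ^ 2 * (1 + |τ|) ^ A * Z ^ (ε / 2)) F hT
    hTT hK hZ hKZ hR0' hRZ hB hE0 hE0Z hE1 hY0 hYZ hJ1 hJ2 (by
      intro e he b i hi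
      have hsub : ∀ x ∈ Jat (JW D Y₀ Y₁) b, x ∈ JW D Y₀ Y₁ := fun x hx => (mem_filter.mp hx).1
      have hWQ := WQ_Jat (omk_WQ (κ := κ) (Om := Om) (τ := τ) (E0 := E0) (R := R) hD hY0 hom i
        (hwn i hi)) hJ b
      have hTa : TC (T3 (afat af e)) := by rw [← T3_Tat]; exact TC_Tat hT e
      have haf' : afat af e = fun d e' m => if e' = e then af d e' m else 0 := rfl
      have haf2 : ∀ d, afat af e d e = af d e := fun d => by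
        funext m
        simp [afat]
      have himg : ∀ {d}, d ∈ (Jat (JW D Y₀ Y₁) b).image Prod.fst →
          d ∈ (JW D Y₀ Y₁).image Prod.fst := fun {d} hd => by
        obtain ⟨x, hx, rfl⟩ := mem_image.mp hd
        exact mem_image_of_mem _ (hsub x hx)
      have hRHe : RHR (c * Z ^ 300) A₁ (RR (Jat (JW D Y₀ Y₁) b) {e}) (afat af e) (W0 i) := by
        intro ρ hρ γ π hγ hπ hπm P hP
        unfold RR at hρ
        obtain ⟨hρ1, hρ2⟩ := mem_product.mp hρ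
        have hρe := mem_singleton.mp hρ2
        have hmem : ρ ∈ RR (JW D Y₀ Y₁) (S E0) := by
          unfold RR
          exact mem_product.mpr ⟨himg hρ1, hρe ▸ he⟩
        have hafe : afat af e ρ.1 ρ.2 = af ρ.1 ρ.2 := by
          rw [hρe]; exact haf2 ρ.1
        rw [hafe]
        exact hRH i hi ρ hmem γ π hγ hπ hπm P hP
      have p := h2 Om Om Mb hMb hOm hOm hOb hOb (Real.exp i) (Real.exp i) τ κ κ (Real.exp_pos _)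
        (Real.exp_pos _) hκ hκ Z hZ Pg (Jat (JW D Y₀ Y₁) b) (omk om i) (omk om i) (afat af e) {e}
        E0 E1 R B K X 1 1 (H i) (H i) (W0 i) (W0 i) hTa (FS_afat haf e) (OKJ_Jat hJ b)
        (EE_afat af e) hK hR0' hRZ hB0 hBZ hE1 hE1Z (fun x hx => hJ1 x (hsub x hx))
        (fun x hx => hJ2 x (hsub x hx)) hWQ hWQ hX (hH i) (hH i) zero_le_one zero_le_one
        (hKZ.trans (le_self_pow₀ hZ (by norm_num))) hXZ (hcV i hi) (hcV i hi)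
        (fun d hd e' he' => by rw [mem_singleton.mp he']; exact hKX i hi d hd e he)
        (fun d hd e' he' => by rw [mem_singleton.mp he']; exact hKX i hi d hd e he)
        (Or.inr ⟨ClsP_Jat hJ b E0 R, le_rfl⟩) (Or.inr ⟨ClsP_Jat hJ b E0 R, le_rfl⟩)
        (fun d hd e' he' n hn => by
          rw [mem_singleton.mp he', haf2] at hn
          exact hsf d (himg hd) e he n hn)
        (fun d hd e' he' n hn => by
          rw [mem_singleton.mp he', haf2] at hn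
          exact hwin d (himg hd) e he n hn)
        (hS i) (hS i) hRHe hRHe
      refine p.trans (le_of_eq ?_)
      have e4 : hE {e} = (nm e : ℝ)⁻¹ := by
        unfold hE
        rw [sum_singleton, one_div]
      rw [LVH_afat, e4, hF, ← mul_sum]
      ring)
  refine key.trans ?_
  have hze : (Z ^ (ε / 2)) * Z ^ (ε / 2) = Z ^ ε := by
    rw [← Real.rpow_add hZ0]; congr 1; ring
  have hz1 : 1 ≤ Z ^ (ε / 2) := Real.one_le_rpow hZ hε2.le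
  have hF0 : ∀ i e d, 0 ≤ F i e d := fun i e d => by
    rw [hF]
    have hh := hH i d e
    have hI : 0 < c * (X * Real.exp i * H i d e / K) := by
      have := Real.exp_pos (i : ℝ)
      positivity
    have he3 := Real.exp_pos (i : ℝ)
    exact mul_nonneg (by positivity) (LVn_nonneg hK.le hh.le (Real.exp_pos _).le
      (Real.exp_pos _).le hE1 zero_le_one (RN2F_nonneg (Ld_nonneg hK hh d)
        (Md_nonneg (by linarith) hK (Real.exp_pos _) hh hX d) (by positivity)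
        ((hS i d e).nonneg _ hI)))
  rw [show (∑ e ∈ S E0, ∑ i ∈ LI Y₀ Y₁, ∑ d ∈ (JW D Y₀ Y₁).image Prod.fst,
        (nm e : ℝ)⁻¹ * LVn af {d} {e} c (Z ^ 5) K (H i d e) (Real.exp i) (Real.exp i) E1 B 1
          (RN2F c K (Real.exp i) X (H i) (W0 i) d e)) =
      ∑ e ∈ S E0, ∑ i ∈ LI Y₀ Y₁, ∑ d ∈ (JW D Y₀ Y₁).image Prod.fst, F i e d by rw [hF]]
  have hS2 : 0 ≤ ∑ e ∈ S E0, ∑ i ∈ LI Y₀ Y₁, ∑ d ∈ (JW D Y₀ Y₁).image Prod.fst, F i e d :=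
    sum_nonneg fun e _ => sum_nonneg fun i _ => sum_nonneg fun d _ => hF0 i e d
  have hS1 : 0 ≤ K ^ (2 / 3 : ℝ) * ∑ e ∈ S E0, (((nm e : ℝ) ^ (-1 : ℝ) +
        (R / K ^ 2) ^ (1 / 6 : ℝ) * (nm e : ℝ) ^ (1 / 2 : ℝ) + E1 ^ 2 * B ^ 2 * R / K) *
          XE (JW D Y₀ Y₁) om T e) :=
    mul_nonneg (by positivity) (sum_nonneg fun e _ => mul_nonneg (by positivity)
      (XE_nonneg _ _ _ _))
  obtain ⟨S1, hS1d⟩ : ∃ S1, S1 = K ^ (2 / 3 : ℝ) * ∑ e ∈ S E0, (((nm e : ℝ) ^ (-1 : ℝ) +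
        (R / K ^ 2) ^ (1 / 6 : ℝ) * (nm e : ℝ) ^ (1 / 2 : ℝ) + E1 ^ 2 * B ^ 2 * R / K) *
          XE (JW D Y₀ Y₁) om T e) := ⟨_, rfl⟩
  obtain ⟨S2, hS2d⟩ : ∃ S2, S2 = ∑ e ∈ S E0, ∑ i ∈ LI Y₀ Y₁,
      ∑ d ∈ (JW D Y₀ Y₁).image Prod.fst, F i e d := ⟨_, rfl⟩
  rw [← hS2d] at hS2 ⊢
  rw [← hS1d] at hS1 ⊢
  obtain ⟨z, hz⟩ : ∃ z, z = Z ^ (ε / 2) := ⟨_, rfl⟩
  rw [← hz] at hze hz1 ⊢
  rw [← hze]
  have hM : 0 ≤ Mb ^ 2 * (1 + |τ|) ^ A := by positivity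
  obtain ⟨M, hMd⟩ : ∃ M, M = Mb ^ 2 * (1 + |τ|) ^ A := ⟨_, rfl⟩
  rw [← hMd] at hM ⊢
  rw [show 2 * C2 * Mb ^ 2 * (1 + |τ|) ^ A * z = 2 * C2 * M * z by rw [hMd]; ring]
  have hz0 : 0 ≤ z := by linarith
  have hMS : 0 ≤ M * S2 := mul_nonneg hM hS2
  have a1 : S1 ≤ (1 + 2 * C2) * z * S1 := by
    have : 1 ≤ (1 + 2 * C2) * z := one_le_mul_of_one_le_of_one_le (by linarith) hz1
    exact le_mul_of_one_le_left hS1 this
  have a2 : 2 * C2 * M * z * S2 ≤ (1 + 2 * C2) * z * (M * S2) := by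
    have : 0 ≤ z * (M * S2) := mul_nonneg hz0 hMS
    nlinarith
  calc C1 * z * (S1 + 2 * C2 * M * z * S2) ≤
      C1 * z * ((1 + 2 * C2) * z * S1 + (1 + 2 * C2) * z * (M * S2)) :=
        mul_le_mul_of_nonneg_left (add_le_add a1 a2) (by positivity)
    _ = C1 * (1 + 2 * C2) * (z * z) * (S1 + M * S2) := by ring

end Crest.Agent.R017.E3Kg548
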