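import Crest.Agent.R017.E3Bu_271
import Crest.Agent.R017.E3Kg_548

/-!
# Row 17, R8 (E3) (helper579, after helper271 and helper548): the full Gram sum, second form

* `gram_MPTb` : helper271's `gram_MPTt` with `b₀` before the parameters of the modes
* `Z1F` : the Gram sum with the main term; the error in the numbers of one level
-/

set_option autoImplicit false
set_option linter.unusedVariables false

noncomputable section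

open Finset
open scoped Classical ComplexConjugate ContDiff

namespace Crest.Agent.R017.Z1F579

open Crest.Agent.R012 Crest.Agent.R012.Eis
open Crest.Agent.R012.Mob705 (pb mem_pb pdiv mem_pdiv)
open Crest.Agent.R012.MC (Wgt)
open Crest.Agent.R012.LS2 (S mem_S)
open Crest.Agent.R012.Weight600 (pw)
open Crest.Agent.R017.C70 (JC OKJ JW okJ_JW)
open Crest.Agent.R017.CM106 (CS FS)
open Crest.Agent.R017.HB645 (hh hh_nonneg hh_le_one abs_lt_of_hh contDiff_hh sum_hh_eq_one)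
open Crest.Agent.R017.E3D579 (TE0)
open Crest.Agent.R017.E1551 (nmpos)
open Crest.Agent.R017.GrB829 (IsC)
open Crest.Agent.R012.Mob705 (kap0)
open Crest.Agent.R017.E3A164 (Yp Ys SteT)
open Crest.Agent.R017.E3M829 (TC TF Cut Iw XT Tal BT)
open Crest.Agent.R017.E3F548
open Crest.Agent.R017.E3B271
open Crest.Agent.R017.E3T1579 (T3 WQ)
open Crest.Agent.R017.E3T2579 (wL)
open Crest.Agent.R017.E3T829 (hE hE_nonneg RR)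
open Crest.Agent.R017.E3Z548
open Crest.Agent.R017.E3Kc548 Crest.Agent.R017.E3Ke548
open Crest.Agent.R017.Mode405 (Slp)
open Crest.Agent.R017.E3Sx579 (RHR)
open Crest.Agent.R017.E3Sz579 (Ld Md Ld_nonneg Md_nonneg)
open Crest.Agent.R017.E3Hb290 (LVH)
open Crest.Agent.R017.E3Hf290 (RN2F RN2F_nonneg PAIR_RHF2')

set_option maxHeartbeats 1000000 in
/-- helper271's `gram_MPTt`, order of the constants -/
theorem gram_MPTb {w : ℝ → ℝ} (hw : Wgt w) (hw0 : ∀ x, 0 ≤ w x) {ε : ℝ} (hε : 0 < ε) :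
    ∃ b₀ : ℝ, 0 ≤ b₀ ∧ ∀ (Rw : ℝ) (A Bw : ℕ), 0 ≤ Rw → 1 < A → 1 < Bw →
    ∃ C : ℝ, 1 ≤ C ∧ ∀ (ι : Type) (I : Finset ι)
    (J : Finset (Eis × Eis)) (om : Eis × Eis → ℂ) (omi : ι → Eis × Eis → ℂ)
    (T : Eis → Eis → Eis → ℂ), TC T → OKJ J → (∀ x ∈ J, om x = ∑ i ∈ I, omi i x) →
    ∀ (V : ι → ℝ), (∀ i ∈ I, 0 < V i) →
    (∀ i ∈ I, ∀ x ∈ J, omi i x ≠ 0 →
      |Real.log (nm (x.2 * x.1 ^ 2)) - Real.log (V i)| ≤ Rw / 2) →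
    ∀ (K R Z E0 E1 : ℝ), 0 < K → 1 ≤ Z → K ≤ Z → 0 ≤ R → R ≤ Z → 0 ≤ E0 → E0 ≤ Z →
    1 ≤ E1 → E1 ≤ Z → (∀ x ∈ J, (nm x.1 : ℝ) ≤ Z) → (∀ x ∈ J, (nm x.2 : ℝ) ≤ R) →
    (∑' k : Eis, if IsPrim k ∧ Cut E1 k then
        w ((nm k : ℝ) / K) * ‖SteT J om E0 T k‖ ^ 2 else 0) ≤
      kap0 * K ^ (2 / 3 : ℝ) * Iw w * XT J om E0 T +
      C * Z ^ ε * (K ^ (2 / 3 : ℝ) *
        ((R / K ^ 2) ^ (1 / 6 : ℝ) * TF (1 / 2) J om E0 T + E1⁻¹ * TF (-1) J om E0 T) +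
        (K ^ (-(1 : ℝ) / 3) * E1 ^ 2 * R) * ∑ x ∈ J, EF om T E0 x) +
      C * ∑ k ∈ range (Nat.log 2 ⌊E1⌋₊ + 1), ∑ i ∈ I, ∑ j ∈ I, ∑ q ∈ S R,
        ∑ t ∈ pb (E1 / 2 ^ k),
        MPT A Bw K (2 ^ (k + 1)) (V i) (V j) (Z ^ 5) J (omi i) (omi j) T E0 R b₀ q t := by
  have hε2 : 0 < ε / 2 := by positivity
  obtain ⟨C1, b₀, hC1, hb0, h1⟩ := gram_OPt hw hw0 hε
  refine ⟨b₀, hb0, fun Rw A Bw hRw hA hBw => ?_⟩
  obtain ⟨C2, hC2, h2⟩ := OFF_le hw hRw hA hBw hε2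
  have hlog : ∀ E1 Z : ℝ, 1 ≤ E1 → E1 ≤ Z →
      ((Nat.log 2 ⌊E1⌋₊ + 1 : ℕ) : ℝ) ≤ (2 + 4 / ε) * Z ^ (ε / 2) := by
    intro E1 Z hE1 hE1Z
    have hZ1 : 1 ≤ Z := hE1.trans hE1Z
    have hf0 : ⌊E1⌋₊ ≠ 0 := by
      have : 1 ≤ ⌊E1⌋₊ := (Nat.one_le_floor_iff _).mpr hE1
      omega
    have a1 : (2 : ℝ) ^ (Nat.log 2 ⌊E1⌋₊) ≤ Z := by
      have b1 : 2 ^ (Nat.log 2 ⌊E1⌋₊) ≤ ⌊E1⌋₊ := Nat.pow_log_le_self 2 hf0
      have b2 : ((2 ^ (Nat.log 2 ⌊E1⌋₊) : ℕ) : ℝ) ≤ ⌊E1⌋₊ := by exact_mod_cast b1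
      push_cast at b2
      exact (b2.trans (Nat.floor_le (by linarith))).trans hE1Z
    have a2 : (Nat.log 2 ⌊E1⌋₊ : ℝ) * Real.log 2 ≤ Real.log Z := by
      have := Real.log_le_log (by positivity) a1
      rwa [Real.log_pow] at this
    have a3 : (1 : ℝ) / 2 ≤ Real.log 2 := by linarith [Real.log_two_gt_d9]
    have a4 : (Nat.log 2 ⌊E1⌋₊ : ℝ) ≤ 2 * Real.log Z := by
      have : (0 : ℝ) ≤ (Nat.log 2 ⌊E1⌋₊ : ℝ) := Nat.cast_nonneg _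
      nlinarith
    have a5 := E3M829.log_Z hε2 hZ1
    have a6 : 1 ≤ Z ^ (ε / 2) := Real.one_le_rpow hZ1 hε2.le
    have a7 : 0 ≤ Real.log Z := Real.log_nonneg hZ1
    push_cast
    have e : (1 + 1 / (ε / 2)) * Z ^ (ε / 2) * 2 = (2 + 4 / ε) * Z ^ (ε / 2) := by
      field_simp
      ring
    nlinarith
  refine ⟨C1 + C2 * (1 + (2 + 4 / ε) * 16), ?_, ?_⟩
  · have : 0 ≤ C2 * ((2 + 4 / ε) * 16) := by positivity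
    nlinarith
  intro ι I J om omi T hT hJ hom V hV hJV K R Z E0 E1 hK hZ hKZ hR0 hRZ hE0 hE0Z hE1 hE1Z hJ1 hJ2
  have hZ0 : (0 : ℝ) < Z := by linarith
  have hE10 : 0 < E1 := by linarith
  have k1 := h1 K Z R E0 E1 hK hZ hKZ hE0 hE0Z hRZ hE10 J hJ hJ1 hJ2 om T hT
  have kb := OP_blocks (w := w) (K := K) (R := R) (E0 := E0) (b₀ := b₀) (J := J) (om := om)
    (T := T) hK.le hE1
  set N := Nat.log 2 ⌊E1⌋₊ + 1 with hN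
  set F := ∑ x ∈ J, EF om T E0 x with hF
  have t3 : 0 ≤ F := sum_nonneg fun x _ => EF_nonneg om T E0 x
  have k2 : ∀ k ∈ range N, ∑ q ∈ S R, ∑ t ∈ pb (E1 / 2 ^ k),
      OP w K (2 ^ (k + 1)) J om T E0 R b₀ q t ≤
      C2 * (∑ i ∈ I, ∑ j ∈ I, ∑ q ∈ S R, ∑ t ∈ pb (E1 / 2 ^ k),
        MPT A Bw K (2 ^ (k + 1)) (V i) (V j) (Z ^ 5) J (omi i) (omi j) T E0 R b₀ q t) +
      C2 * Z ^ (ε / 2) * (4 * (K ^ (-(1 : ℝ) / 3) * E1 ^ 2 * R)) * F := by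
    intro k _
    have := h2 ι I J om omi T hT hJ hom V hV hJV K R Z (2 ^ (k + 1)) E0 (E1 / 2 ^ k) b₀ hK hZ hR0
      hRZ (one_le_pow₀ (by norm_num)) (by positivity) hJ1 hJ2
    refine this.trans (le_of_eq ?_)
    have e : K ^ (-(1 : ℝ) / 3) * (E1 / 2 ^ k) ^ 2 * (2 ^ (k + 1)) ^ 2 * R =
        4 * (K ^ (-(1 : ℝ) / 3) * E1 ^ 2 * R) := by
      rw [pow_succ]
      field_simp
      ring
    rw [e]
  have k3 := kb.trans (sum_le_sum k2)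
  rw [sum_add_distrib, ← mul_sum, sum_const, card_range, nsmul_eq_mul] at k3
  have hlogN := hlog E1 Z hE1 hE1Z
  rw [← hN] at hlogN
  have t1 := E3M829.TF_nonneg (1 / 2) J om E0 T
  have t2 := E3M829.TF_nonneg (-1) J om E0 T
  have hRK : 0 ≤ (R / K ^ 2) ^ (1 / 6 : ℝ) := by positivity
  have hi : 0 < E1⁻¹ := inv_pos.mpr hE10
  set a := K ^ (2 / 3 : ℝ) *
      ((R / K ^ 2) ^ (1 / 6 : ℝ) * TF (1 / 2) J om E0 T + E1⁻¹ * TF (-1) J om E0 T) with ha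
  have ha0 : 0 ≤ a := by positivity
  set g := K ^ (-(1 : ℝ) / 3) * E1 ^ 2 * R with hg
  have hg0 : 0 ≤ g := by positivity
  set M := ∑ k ∈ range N, ∑ i ∈ I, ∑ j ∈ I, ∑ q ∈ S R, ∑ t ∈ pb (E1 / 2 ^ k),
        MPT A Bw K (2 ^ (k + 1)) (V i) (V j) (Z ^ 5) J (omi i) (omi j) T E0 R b₀ q t with hM
  have hM0 : 0 ≤ M := sum_nonneg fun k _ => sum_nonneg fun i hi => sum_nonneg fun j hj =>
    sum_nonneg fun q hq => sum_nonneg fun t _ =>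
      MPT_nonneg A Bw _ _ _ hK.le hJ (hV i hi) (hV j hj) (SR_prim hq).1
  have hz : Z ^ ε = Z ^ (ε / 2) * Z ^ (ε / 2) := by
    rw [← Real.rpow_add hZ0]
    congr 1; ring
  have hz1 : 1 ≤ Z ^ (ε / 2) := Real.one_le_rpow hZ hε2.le
  have a1 : C1 * Z ^ ε * K ^ (2 / 3 : ℝ) *
      ((R / K ^ 2) ^ (1 / 6 : ℝ) * TF (1 / 2) J om E0 T + E1⁻¹ * TF (-1) J om E0 T) =
      C1 * Z ^ ε * a := by rw [ha]; ring
  rw [a1] at k1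
  have hZε : 0 ≤ Z ^ ε := by positivity
  have c0 : 0 ≤ C2 := by linarith
  have hL : 0 ≤ (2 + 4 / ε) * 16 := by positivity
  have a2 : (N : ℝ) * (C2 * Z ^ (ε / 2) * (4 * g) * F) ≤
      (C1 + C2 * (1 + (2 + 4 / ε) * 16)) * Z ^ ε * (g * F) := by
    have b1 : (N : ℝ) * (C2 * Z ^ (ε / 2) * (4 * g) * F) ≤
        ((2 + 4 / ε) * Z ^ (ε / 2)) * (C2 * Z ^ (ε / 2) * (4 * g) * F) :=
      mul_le_mul_of_nonneg_right hlogN (by positivity)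
    refine b1.trans ?_
    have e1 : ((2 + 4 / ε) * Z ^ (ε / 2)) * (C2 * Z ^ (ε / 2) * (4 * g) * F) =
        (C2 * ((2 + 4 / ε) * 4)) * Z ^ ε * (g * F) := by rw [hz]; ring
    rw [e1]
    have hgF : 0 ≤ g * F := by positivity
    have hcc : C2 * ((2 + 4 / ε) * 4) ≤ C1 + C2 * (1 + (2 + 4 / ε) * 16) := by
      have : 0 ≤ C2 * (2 + 4 / ε) := by positivity
      nlinarith
    gcongr
  have a3 : C2 * M ≤ (C1 + C2 * (1 + (2 + 4 / ε) * 16)) * M := by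
    refine mul_le_mul_of_nonneg_right ?_ hM0
    have : 0 ≤ C2 * ((2 + 4 / ε) * 16) := by positivity
    nlinarith
  have a4 : C1 * Z ^ ε * a ≤ (C1 + C2 * (1 + (2 + 4 / ε) * 16)) * Z ^ ε * a := by
    have : C1 ≤ C1 + C2 * (1 + (2 + 4 / ε) * 16) := by
      have : 0 ≤ C2 * (1 + (2 + 4 / ε) * 16) := by positivity
      linarith
    gcongr
  have e5 : (C1 + C2 * (1 + (2 + 4 / ε) * 16)) * Z ^ ε * (a + g * F) =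
      (C1 + C2 * (1 + (2 + 4 / ε) * 16)) * Z ^ ε * a +
      (C1 + C2 * (1 + (2 + 4 / ε) * 16)) * Z ^ ε * (g * F) := by ring
  rw [e5]
  linarith


/-! ### congruences -/

section

variable {J : Finset (Eis × Eis)} {om : Eis × Eis → ℂ} {T T' : Eis → Eis → Eis → ℂ} {E0 : ℝ}

lemma BT_congr {U U' : Eis → ℂ} (h : ∀ t ∈ S E0, U t = U' t) : BT E0 U U = BT E0 U' U' := by
  unfold E3M829.BT
  refine sum_congr rfl fun t ht => sum_congr rfl fun t' ht' => ?_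
  rw [h t ht, h t' ht']

lemma XT_congr (h : ∀ x ∈ J, ∀ e ∈ S E0, T x.1 e x.2 = T' x.1 e x.2) :
    XT J om E0 T = XT J om E0 T' := by
  unfold E3M829.XT
  refine sum_congr rfl fun x hx => ?_
  rw [BT_congr (E0 := E0) (U := fun t => T x.1 t x.2) (U' := fun t => T' x.1 t x.2)
    fun t ht => h x hx t ht]

lemma TF_congr (h : ∀ x ∈ J, ∀ e ∈ S E0, T x.1 e x.2 = T' x.1 e x.2) (s : ℝ) :
    TF s J om E0 T = TF s J om E0 T' := by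
  unfold E3M829.TF
  refine sum_congr rfl fun x hx => ?_
  rw [sum_congr rfl fun e he => by rw [h x hx e he]]

end

/-! ### monotonicity of the number of one side -/

section

variable {af : Eis → Eis → Eis → ℂ} {Ds EE : Finset Eis} {c Y K H V V' V₂ E1 E1' B B' G1 RN : ℝ}

/-- the number of one side is monotone in `V'` and in `E1`, `B` -/
lemma LVn_mono (hK : 0 < K) (hH : 0 < H) (hV : 0 < V) (hV' : 0 < V') (hVV : V' ≤ V₂)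
    (hE : 0 ≤ E1) (hE' : 0 ≤ E1') (hG : 0 ≤ G1) (h2 : E1 ^ 2 * B ^ 2 ≤ E1' ^ 2 * B' ^ 2)
    (h3 : E1 ^ 3 * B ^ 2 ≤ E1' ^ 3 * B' ^ 2) :
    LVn af Ds EE c Y K H V V' E1 B G1 RN ≤ LVn af Ds EE c Y K H V V₂ E1' B' G1 RN := by
  have hne : ∀ e : Eis, (0 : ℝ) ≤ nm e := fun e => Nat.cast_nonneg _
  have t0 := TN_nonneg af hne Ds EE (om := fun _ => (1 : ℝ))
    (fun _ => zero_le_one) {1} (JVc c V) id
  have hF := FH_nonneg hK.le hH.le hV.le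
  have hV2 : 0 < V₂ := hV'.trans_le hVV
  unfold E3Z548.LVn
  refine mul_le_mul_of_nonneg_left ?_ hF
  refine add_le_add (add_le_add (add_le_add ?_ le_rfl) le_rfl) le_rfl
  refine mul_le_mul_of_nonneg_right ?_ t0
  have k1 : ∀ W : ℝ, 0 < W → (H * (V / W)) ^ (1 / 3 : ℝ) * (W / K) =
      (H * V) ^ (1 / 3 : ℝ) * (W ^ (2 / 3 : ℝ) / K) := by
    intro W hW
    have e1 : (H * (V / W)) ^ (1 / 3 : ℝ) = (H * V) ^ (1 / 3 : ℝ) * W ^ (-(1 / 3) : ℝ) := by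
      rw [show H * (V / W) = (H * V) * W⁻¹ by ring, Real.mul_rpow (by positivity) (by positivity),
        Real.inv_rpow hW.le, Real.rpow_neg hW.le]
    have e2 : W ^ (-(1 / 3) : ℝ) * W = W ^ (2 / 3 : ℝ) := by
      conv_lhs => rw [← Real.rpow_one W]
      rw [← Real.rpow_mul hW.le, ← Real.rpow_add hW]
      norm_num
    rw [e1, ← e2]
    ring
  have k2 : 0 ≤ E1 ^ 2 * B ^ 2 := by positivity
  have k3 : 0 ≤ E1' ^ 2 * B' ^ 2 := k2.trans h2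
  refine add_le_add (add_le_add le_rfl ?_) ?_
  · rw [k1 V' hV', k1 V₂ hV2]
    have k4 : V' ^ (2 / 3 : ℝ) ≤ V₂ ^ (2 / 3 : ℝ) := Real.rpow_le_rpow hV'.le hVV (by norm_num)
    have k5 : E1 ^ 2 * B ^ 2 * G1 ≤ E1' ^ 2 * B' ^ 2 * G1 := mul_le_mul_of_nonneg_right h2 hG
    gcongr
  · refine Real.rpow_le_rpow (by positivity) ?_ (by norm_num)
    refine div_le_div_of_nonneg_right ?_ (by positivity)
    calc H * V ^ 2 * V' * E1 ^ 3 * B ^ 2 = (H * V ^ 2) * (V' * (E1 ^ 3 * B ^ 2)) := by ring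
      _ ≤ (H * V ^ 2) * (V₂ * (E1' ^ 3 * B' ^ 2)) := by
          refine mul_le_mul_of_nonneg_left ?_ (by positivity)
          exact mul_le_mul hVV h3 (by positivity) hV2.le
      _ = _ := by ring

lemma LVH_mono {H : Eis → Eis → ℝ} {RN : Eis → Eis → ℝ} (hK : 0 < K) (hH : ∀ d e, 0 < H d e)
    (hV : 0 < V) (hV' : 0 < V')
    (hVV : V' ≤ V₂) (hE : 0 ≤ E1) (hE' : 0 ≤ E1') (hG : 0 ≤ G1)
    (h2 : E1 ^ 2 * B ^ 2 ≤ E1' ^ 2 * B' ^ 2) (h3 : E1 ^ 3 * B ^ 2 ≤ E1' ^ 3 * B' ^ 2) :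
    LVH af Ds EE c Y K H V V' E1 B G1 RN ≤ LVH af Ds EE c Y K H V V₂ E1' B' G1 RN := by
  unfold E3Hb290.LVH
  exact sum_le_sum fun d _ => sum_le_sum fun e _ =>
    LVn_mono hK (hH d e) hV hV' hVV hE hE' hG h2 h3

end

/-! ### the Gram sum -/

/-- the sum of the weights `1 / N(e)` -/
lemma hE_Z {ε : ℝ} (hε : 0 < ε) {E0 Z : ℝ} (hE0 : 1 ≤ E0) (hEZ : E0 ≤ Z) :
    hE (S E0) ≤ 200 * (1 + 1 / ε) * Z ^ ε := by
  have hZ : 1 ≤ Z := hE0.trans hEZ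
  have h1 : hE (S E0) ≤ 200 * (1 + Real.log E0) := DgB829.HS_le hE0
  have h2 : Real.log E0 ≤ Real.log Z := Real.log_le_log (by linarith) hEZ
  have h3 := E3M829.log_Z hε hZ
  linarith

lemma log_two_le {ε : ℝ} (hε : 0 < ε) {E1 Z : ℝ} (hE1 : 1 ≤ E1) (hE1Z : E1 ≤ Z) :
    ((Nat.log 2 ⌊E1⌋₊ + 1 : ℕ) : ℝ) ≤ (2 + 2 / ε) * Z ^ ε := by
  have hZ1 : 1 ≤ Z := hE1.trans hE1Z
  have hf0 : ⌊E1⌋₊ ≠ 0 := by
    have : 1 ≤ ⌊E1⌋₊ := (Nat.one_le_floor_iff _).mpr hE1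
    omega
  have a1 : (2 : ℝ) ^ (Nat.log 2 ⌊E1⌋₊) ≤ Z := by
    have b1 : 2 ^ (Nat.log 2 ⌊E1⌋₊) ≤ ⌊E1⌋₊ := Nat.pow_log_le_self 2 hf0
    have b2 : ((2 ^ (Nat.log 2 ⌊E1⌋₊) : ℕ) : ℝ) ≤ ⌊E1⌋₊ := by exact_mod_cast b1
    push_cast at b2
    exact (b2.trans (Nat.floor_le (by linarith))).trans hE1Z
  have a2 : (Nat.log 2 ⌊E1⌋₊ : ℝ) * Real.log 2 ≤ Real.log Z := by
    have := Real.log_le_log (by positivity) a1
    rwa [Real.log_pow] at this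
  have a3 : (1 : ℝ) / 2 ≤ Real.log 2 := by linarith [Real.log_two_gt_d9]
  have a4 : (Nat.log 2 ⌊E1⌋₊ : ℝ) ≤ 2 * Real.log Z := by
    have : (0 : ℝ) ≤ (Nat.log 2 ⌊E1⌋₊ : ℝ) := Nat.cast_nonneg _
    nlinarith
  have a5 := E3M829.log_Z hε hZ1
  have a6 : 1 ≤ Z ^ ε := Real.one_le_rpow hZ1 hε.le
  have a7 : 0 ≤ Real.log Z := Real.log_nonneg hZ1
  push_cast
  have e : (1 + 1 / ε) * Z ^ ε * 2 = (2 + 2 / ε) * Z ^ ε := by ring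
  nlinarith

set_option maxHeartbeats 1000000 in
/-- **the Gram sum with its main term, second form** -/
theorem Z1F {w : ℝ → ℝ} (hw : Wgt w) (hw0 : ∀ x, 0 ≤ w x) {R0 : ℝ} (hR0 : 0 ≤ R0) (a A₁ : ℕ)
    (hA₁ : 1 < A₁) {ε : ℝ} (hε : 0 < ε) (hε1 : ε ≤ 1) :
    ∃ (A : ℕ) (c C : ℝ), 1 ≤ c ∧ 1 ≤ C ∧
    ∀ (Om : ℝ → ℂ) (Mb : ℝ), 0 ≤ Mb → ContDiff ℝ ∞ Om →
      (∀ n ≤ A + 2, ∀ x, ‖iteratedDeriv n Om x‖ ≤ Mb) →
    ∀ (τ : ℝ) (κ : ℂ), ‖κ‖ ≤ 1 → ∀ (Z : ℝ), 1 ≤ Z → ∀ (D Y₀ Y₁ : ℝ)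
      (om : Eis × Eis → ℂ) (T : Eis → Eis → Eis → ℂ) (af : Eis → Eis → Eis → ℂ)
      (E0 E1 R K X : ℝ) (H : ℕ → Eis → Eis → ℝ) (W0 : ℕ → Eis → Eis → ℝ → ℝ),
      TC (T3 af) → (∀ d e, FS (af d e)) → (∀ d e, e ∉ S E0 → ∀ j, T3 af d e j = 0) →
      (∀ x ∈ JW D Y₀ Y₁, ∀ e ∈ S E0, T x.1 e x.2 = T3 af x.1 e x.2) → 0 ≤ D → 0 < Y₁ →
      (∀ x ∈ JW D Y₀ Y₁, om x = κ * (Om (Real.log (nm (x.2 * x.1 ^ 2))) * pw τ (nm x.2))) →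
      (∀ i ∈ LI Y₀ Y₁, ∀ n : ℕ, 0 < n → hh (Real.log n - i) ≠ 0 → Om (Real.log n) ≠ 0 →
        Y₀ < n ∧ (n : ℝ) ≤ Y₁) →
      0 < K → K ≤ Z → 0 ≤ R → R ≤ Z → 0 ≤ E0 → E0 ≤ Z → 1 ≤ E1 → 2 * E1 ≤ Z → Y₁ ≤ Z →
      (∀ x ∈ JW D Y₀ Y₁, (nm x.1 : ℝ) ≤ Z) → (∀ x ∈ JW D Y₀ Y₁, (nm x.2 : ℝ) ≤ R) →
      0 < X → X ≤ Z ^ 5 → (∀ i d e, 0 < H i d e) → (∀ i ∈ LI Y₀ Y₁, c * Real.exp i ≤ Z ^ 5) →
      (∀ i ∈ LI Y₀ Y₁, ∀ d ∈ S (Z ^ 5), ∀ e ∈ S E0, c * (H i d e * Real.exp i ^ 2) ≤ K * X) →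
      (∀ d ∈ (JW D Y₀ Y₁).image Prod.fst, ∀ e ∈ S E0, ∀ n, af d e n ≠ 0 → Squarefree n) →
      (∀ d ∈ (JW D Y₀ Y₁).image Prod.fst, ∀ e ∈ S E0, ∀ n, af d e n ≠ 0 →
        |Real.log (nm d * nm n) - Real.log X| ≤ R0) →
      (∀ i d e, Slp a (W0 i d e)) →
      (∀ i ∈ LI Y₀ Y₁, RHR (c * Z ^ 300) A₁ (RR (JW D Y₀ Y₁) (S E0)) af (W0 i)) →
      (∑' k : Eis, if IsPrim k ∧ Cut E1 k then
        w ((nm k : ℝ) / K) * ‖SteT (JW D Y₀ Y₁) om E0 T k‖ ^ 2 else 0) ≤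
      kap0 * K ^ (2 / 3 : ℝ) * Iw w * XT (JW D Y₀ Y₁) om E0 T +
      C * Z ^ ε * (K ^ (2 / 3 : ℝ) *
        ((R / K ^ 2) ^ (1 / 6 : ℝ) * TF (1 / 2) (JW D Y₀ Y₁) om E0 T +
          E1⁻¹ * TF (-1) (JW D Y₀ Y₁) om E0 T) +
        (K ^ (-(1 : ℝ) / 3) * E1 ^ 2 * R) * ∑ x ∈ JW D Y₀ Y₁, EF om T E0 x +
        Mb ^ 2 * (1 + |τ|) ^ A * (hE (S E0) * ∑ i ∈ LI Y₀ Y₁,
          ∑ d ∈ (JW D Y₀ Y₁).image Prod.fst, ∑ e ∈ S E0,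
            LVn af {d} {e} c (Z ^ 5) K (H i d e) (Real.exp i) (Real.exp 1 * Y₁) E1 2
              (Real.sqrt (c * Real.exp i)) (RN2F c K (Real.exp i) X (H i) (W0 i) d e))) := by
  have hε3 : 0 < ε / 3 := by positivity
  obtain ⟨b₀, hb₀, h0⟩ := gram_MPTb hw hw0 hε3
  obtain ⟨w1, hW1, hw1a, hw1b⟩ := exists_w1
  obtain ⟨A₀, c, hc, h2⟩ := PAIR_RHF2' (by norm_num : (0 : ℝ) ≤ 3) contDiff_hh hhc hW1 hw1a hw1b
    hR0 a A₁ hA₁ hb₀ hε3 (by linarith)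
  obtain ⟨C2, hC2, h2⟩ := h2 (A₀ + 2) (by omega) 4 (by norm_num)
  obtain ⟨C1, hC1, h1⟩ := h0 3 (A₀ + 2) 4 (by norm_num) (by omega) (by norm_num)
  obtain ⟨A, hAd⟩ : ∃ A, A = A₀ + 2 := ⟨_, rfl⟩
  rw [← hAd] at h1 h2
  obtain ⟨ν, hν⟩ : ∃ ν : ℝ, ν = ε / 6 := ⟨_, rfl⟩
  have hν0 : 0 < ν := by rw [hν]; positivity
  obtain ⟨L, hL⟩ : ∃ L : ℝ, L = (2 + 2 / ν) * (2 + 1 / ν) := ⟨_, rfl⟩
  have hL0 : 0 ≤ L := by rw [hL]; positivity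
  refine ⟨A, c, C1 + 2 * C1 * C2 * L, hc, ?_, ?_⟩
  · have : 0 ≤ 2 * C1 * C2 * L := by positivity
    linarith
  intro Om Mb hMb hOm hOb τ κ hκ Z hZ D Y₀ Y₁ om T af E0 E1 R K X H W0 hT haf hEE hTT hD hY1 hom
    hwn hK hKZ hR0' hRZ hE0 hE0Z hE1 hE1Z hYZ hJ1 hJ2 hX hXZ hH hcV hKX hsf hwin hS hRH
  have hZ0 : 0 < Z := by linarith
  have hJ := okJ_JW D Y₀ Y₁
  have hE10 : 0 < E1 := by linarith
  have hc0 : 0 < c := by linarith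
  obtain ⟨Vt, hVt⟩ : ∃ Vt : ℝ, Vt = Real.exp 1 * Y₁ := ⟨_, rfl⟩
  have hVt0 : 0 < Vt := by rw [hVt]; positivity
  obtain ⟨P, hP⟩ : ∃ P : ℕ → ℝ, P = fun i => ∑ d ∈ (JW D Y₀ Y₁).image Prod.fst, ∑ e ∈ S E0,
            LVn af {d} {e} c (Z ^ 5) K (H i d e) (Real.exp i) (Real.exp 1 * Y₁) E1 2
              (Real.sqrt (c * Real.exp i)) (RN2F c K (Real.exp i) X (H i) (W0 i) d e) := ⟨_, rfl⟩
  have hP0 : ∀ i, 0 ≤ P i := fun i => by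
    rw [hP]
    refine sum_nonneg fun d _ => sum_nonneg fun e _ => ?_
    have hh := hH i d e
    have he3 := Real.exp_pos (i : ℝ)
    have hI : 0 < c * (X * Real.exp i * H i d e / K) := by positivity
    exact LVn_nonneg hK.le hh.le he3.le (by positivity) hE10.le (Real.sqrt_nonneg _)
      (RN2F_nonneg (Ld_nonneg hK hh d) (Md_nonneg hc0.le hK he3 hh hX d) (by positivity)
        ((hS i d e).nonneg _ hI))
  have hM : 0 ≤ Mb ^ 2 * (1 + |τ|) ^ A := by positivity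
  have key := h1 ℕ (LI Y₀ Y₁) (JW D Y₀ Y₁) om (omk om) (T3 af) hT hJ
    (fun x hx => om_sum hx) (fun i => Real.exp i) (fun i _ => Real.exp_pos _)
    (fun i _ x _ h => omk_win (by norm_num) h) K R Z E0 E1 hK hZ hKZ hR0' hRZ hE0 hE0Z hE1
    (by linarith) hJ1 hJ2
  have hpair : ∀ k ∈ range (Nat.log 2 ⌊E1⌋₊ + 1), ∀ i ∈ LI Y₀ Y₁, ∀ j ∈ LI Y₀ Y₁,
      ∑ q ∈ S R, ∑ t ∈ pb (E1 / 2 ^ k),
        MPT A 4 K (2 ^ (k + 1)) (Real.exp i) (Real.exp j) (Z ^ 5) (JW D Y₀ Y₁) (omk om i)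
          (omk om j) (T3 af) E0 R b₀ q t ≤
      C2 * (Mb ^ 2 * (1 + |τ|) ^ A) * Z ^ (ε / 3) * (hE (S E0) * (P i + P j)) := by
    intro k hk i hi j hj
    have hk2 : (2 : ℝ) ^ k ≤ E1 := by
      have b1 : k ≤ Nat.log 2 ⌊E1⌋₊ := by rw [mem_range] at hk; omega
      have hf0 : ⌊E1⌋₊ ≠ 0 := by
        have : 1 ≤ ⌊E1⌋₊ := (Nat.one_le_floor_iff _).mpr hE1
        omega
      have b2 : 2 ^ k ≤ ⌊E1⌋₊ :=
        (Nat.pow_le_pow_right (by norm_num) b1).trans (Nat.pow_log_le_self 2 hf0)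
      have b3 : ((2 ^ k : ℕ) : ℝ) ≤ ⌊E1⌋₊ := by exact_mod_cast b2
      push_cast at b3
      exact b3.trans (Nat.floor_le hE10.le)
    have hk1 : (1 : ℝ) ≤ 2 ^ k := one_le_pow₀ (by norm_num)
    have hEk : E1 / 2 ^ k ≤ E1 := div_le_self hE10.le hk1
    have hEk0 : 0 ≤ E1 / 2 ^ k := by positivity
    have p := h2 Om Om Mb hMb hOm hOm hOb hOb (Real.exp i) (Real.exp j) τ κ κ (Real.exp_pos _)
      (Real.exp_pos _) hκ hκ Z hZ (fun _ _ => True) (JW D Y₀ Y₁) (omk om i) (omk om j) af (S E0)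
      E0 (E1 / 2 ^ k) R (2 ^ (k + 1)) K X (Real.sqrt (c * Real.exp i))
      (Real.sqrt (c * Real.exp j)) (H i) (H j) (W0 i) (W0 j) hT haf hJ hEE hK hR0' hRZ
      (by positivity) (by rw [pow_succ]; linarith) hEk0 (by linarith) hJ1 hJ2
      (omk_WQ hD hY1.le hom i (hwn i hi)) (omk_WQ hD hY1.le hom j (hwn j hj)) hX (hH i) (hH j)
      (Real.sqrt_nonneg _) (Real.sqrt_nonneg _) (hKZ.trans (le_self_pow₀ hZ (by norm_num))) hXZ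
      (hcV i hi) (hcV j hj) (hKX i hi) (hKX j hj) (Or.inl le_rfl) (Or.inl le_rfl) hsf hwin
      (hS i) (hS j) (hRH i hi) (hRH j hj)
    have e2 : (E1 / 2 ^ k) ^ 2 * (2 ^ (k + 1)) ^ 2 = E1 ^ 2 * 2 ^ 2 := by
      rw [← mul_pow, ← mul_pow, show E1 / 2 ^ k * 2 ^ (k + 1) = E1 * 2 by
        rw [pow_succ]; field_simp]
    have e3 : (E1 / 2 ^ k) ^ 3 * (2 ^ (k + 1)) ^ 2 ≤ E1 ^ 3 * 2 ^ 2 := by
      calc (E1 / 2 ^ k) ^ 3 * (2 ^ (k + 1)) ^ 2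
          = (E1 / 2 ^ k) * ((E1 / 2 ^ k) ^ 2 * (2 ^ (k + 1)) ^ 2) := by ring
        _ = (E1 / 2 ^ k) * (E1 ^ 2 * 2 ^ 2) := by rw [e2]
        _ ≤ E1 * (E1 ^ 2 * 2 ^ 2) := mul_le_mul_of_nonneg_right hEk (by positivity)
        _ = _ := by ring
    have m : ∀ i ∈ LI Y₀ Y₁, ∀ j ∈ LI Y₀ Y₁,
        LVH af ((JW D Y₀ Y₁).image Prod.fst) (S E0) c (Z ^ 5) K (H i) (Real.exp i) (Real.exp j)
          (E1 / 2 ^ k) (2 ^ (k + 1)) (Real.sqrt (c * Real.exp i))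
          (RN2F c K (Real.exp i) X (H i) (W0 i)) ≤ P i := by
      intro i hi j hj
      rw [hP]
      exact LVH_mono hK (hH i) (Real.exp_pos _) (Real.exp_pos _) (mem_LI hj).2.2 hEk0 hE10.le
        (Real.sqrt_nonneg _) e2.le e3
    have hsum : ∑ q ∈ S R, ∑ t ∈ pb (E1 / 2 ^ k),
        MPT A 4 K (2 ^ (k + 1)) (Real.exp i) (Real.exp j) (Z ^ 5) (JW D Y₀ Y₁) (omk om i)
          (omk om j) (T3 af) E0 R b₀ q t = ∑ q ∈ S R, ∑ t ∈ pb (E1 / 2 ^ k),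
        MPTr (fun _ _ => True) A 4 K (2 ^ (k + 1)) (Real.exp i) (Real.exp j) (Z ^ 5)
          (JW D Y₀ Y₁) (omk om i) (omk om j) (T3 af) E0 R b₀ q t :=
      sum_congr rfl fun q _ => sum_congr rfl fun t _ => MPT_eq _ _ _ _ _ _ _ _ _ _ _ _ _ _ _ _
    rw [hsum]
    refine p.trans ?_
    rw [show C2 * Mb ^ 2 * (1 + |τ|) ^ A * Z ^ (ε / 3) =
      C2 * (Mb ^ 2 * (1 + |τ|) ^ A) * Z ^ (ε / 3) by ring]
    refine mul_le_mul_of_nonneg_left ?_ (by positivity)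
    exact mul_le_mul_of_nonneg_left (add_le_add (m i hi j hj) (m j hj i hi)) (hE_nonneg _)
  -- the sums
  obtain ⟨Q, hQ⟩ : ∃ Q, Q = C2 * (Mb ^ 2 * (1 + |τ|) ^ A) * Z ^ (ε / 3) * hE (S E0) := ⟨_, rfl⟩
  have hhE := hE_nonneg (S E0)
  have hQ0 : 0 ≤ Q := by rw [hQ]; positivity
  have hSP : 0 ≤ ∑ i ∈ LI Y₀ Y₁, P i := sum_nonneg fun i _ => hP0 i
  have hcard := card_LI Y₀ hZ hY1.le hYZ hν0
  have hlog := log_two_le hν0 hE1 (by linarith : E1 ≤ Z)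
  have hsums : ∑ k ∈ range (Nat.log 2 ⌊E1⌋₊ + 1), ∑ i ∈ LI Y₀ Y₁, ∑ j ∈ LI Y₀ Y₁, ∑ q ∈ S R,
      ∑ t ∈ pb (E1 / 2 ^ k), MPT A 4 K (2 ^ (k + 1)) (Real.exp i) (Real.exp j) (Z ^ 5)
        (JW D Y₀ Y₁) (omk om i) (omk om j) (T3 af) E0 R b₀ q t ≤
      (L * Z ^ (ε / 3)) * (Q * (2 * ∑ i ∈ LI Y₀ Y₁, P i)) := by
    have s1 : ∀ k ∈ range (Nat.log 2 ⌊E1⌋₊ + 1), ∑ i ∈ LI Y₀ Y₁, ∑ j ∈ LI Y₀ Y₁, ∑ q ∈ S R,
      ∑ t ∈ pb (E1 / 2 ^ k), MPT A 4 K (2 ^ (k + 1)) (Real.exp i) (Real.exp j) (Z ^ 5)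
        (JW D Y₀ Y₁) (omk om i) (omk om j) (T3 af) E0 R b₀ q t ≤
        Q * (2 * (((LI Y₀ Y₁).card : ℝ) * ∑ i ∈ LI Y₀ Y₁, P i)) := by
      intro k hk
      have s2 : ∑ i ∈ LI Y₀ Y₁, ∑ j ∈ LI Y₀ Y₁, Q * (P i + P j) =
          Q * (2 * (((LI Y₀ Y₁).card : ℝ) * ∑ i ∈ LI Y₀ Y₁, P i)) := by
        simp only [← mul_sum, sum_add_distrib, sum_const, nsmul_eq_mul]
        ring
      rw [← s2]
      refine sum_le_sum fun i hi => sum_le_sum fun j hj => (hpair k hk i hi j hj).trans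
        (le_of_eq ?_)
      rw [hQ]; ring
    refine (sum_le_sum s1).trans ?_
    rw [sum_const, card_range, nsmul_eq_mul]
    have e1 : Z ^ (ε / 3) = Z ^ ν * Z ^ ν := by
      rw [← Real.rpow_add hZ0, hν]; congr 1; ring
    have hz : 0 ≤ Z ^ ν := by positivity
    have hcard0 : (0 : ℝ) ≤ (LI Y₀ Y₁).card := Nat.cast_nonneg _
    have hprod : ((Nat.log 2 ⌊E1⌋₊ + 1 : ℕ) : ℝ) * ((LI Y₀ Y₁).card : ℝ) ≤ L * Z ^ (ε / 3) := by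
      refine (mul_le_mul hlog hcard hcard0 (by positivity)).trans (le_of_eq ?_)
      rw [e1, hL]; ring
    calc ((Nat.log 2 ⌊E1⌋₊ + 1 : ℕ) : ℝ) *
          (Q * (2 * (((LI Y₀ Y₁).card : ℝ) * ∑ i ∈ LI Y₀ Y₁, P i)))
        = (((Nat.log 2 ⌊E1⌋₊ + 1 : ℕ) : ℝ) * ((LI Y₀ Y₁).card : ℝ)) *
          (Q * (2 * ∑ i ∈ LI Y₀ Y₁, P i)) := by ring
      _ ≤ _ := mul_le_mul_of_nonneg_right hprod (by positivity)
  -- back to `T`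
  have hL2 : (∑' k : Eis, if IsPrim k ∧ Cut E1 k then
        w ((nm k : ℝ) / K) * ‖SteT (JW D Y₀ Y₁) om E0 T k‖ ^ 2 else 0) =
      ∑' k : Eis, if IsPrim k ∧ Cut E1 k then
        w ((nm k : ℝ) / K) * ‖SteT (JW D Y₀ Y₁) om E0 (T3 af) k‖ ^ 2 else 0 := by
    refine tsum_congr fun k => ?_
    rw [E3Ke548.SteT_congr hTT k]
  rw [hL2, XT_congr hTT, TF_congr hTT, TF_congr hTT,
    sum_congr rfl fun x hx => EF_congr (om := om) hTT hx]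
  refine key.trans ?_
  have hzz : Z ^ ε = Z ^ (ε / 3) * Z ^ (ε / 3) * Z ^ (ε / 3) := by
    rw [← Real.rpow_add hZ0, ← Real.rpow_add hZ0]; congr 1; ring
  have hz1 : 1 ≤ Z ^ (ε / 3) := Real.one_le_rpow hZ hε3.le
  obtain ⟨z, hz⟩ : ∃ z, z = Z ^ (ε / 3) := ⟨_, rfl⟩
  obtain ⟨Er, hEr⟩ : ∃ Er, Er = K ^ (2 / 3 : ℝ) *
        ((R / K ^ 2) ^ (1 / 6 : ℝ) * TF (1 / 2) (JW D Y₀ Y₁) om E0 (T3 af) +
          E1⁻¹ * TF (-1) (JW D Y₀ Y₁) om E0 (T3 af)) +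
        (K ^ (-(1 : ℝ) / 3) * E1 ^ 2 * R) * ∑ x ∈ JW D Y₀ Y₁, EF om (T3 af) E0 x := ⟨_, rfl⟩
  have hEr0 : 0 ≤ Er := by
    have t1 := E3M829.TF_nonneg (1 / 2) (JW D Y₀ Y₁) om E0 (T3 af)
    have t2 := E3M829.TF_nonneg (-1) (JW D Y₀ Y₁) om E0 (T3 af)
    have t3 : 0 ≤ ∑ x ∈ JW D Y₀ Y₁, EF om (T3 af) E0 x := sum_nonneg fun x _ => EF_nonneg _ _ _ x
    rw [hEr]
    positivity
  have hPs : ∑ i ∈ LI Y₀ Y₁, ∑ d ∈ (JW D Y₀ Y₁).image Prod.fst, ∑ e ∈ S E0,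
            LVn af {d} {e} c (Z ^ 5) K (H i d e) (Real.exp i) (Real.exp 1 * Y₁) E1 2
              (Real.sqrt (c * Real.exp i)) (RN2F c K (Real.exp i) X (H i) (W0 i) d e) =
      ∑ i ∈ LI Y₀ Y₁, P i := by rw [hP]
  rw [hPs, ← hEr, add_assoc]
  refine add_le_add le_rfl ?_
  obtain ⟨SP, hSPd⟩ : ∃ SP, SP = ∑ i ∈ LI Y₀ Y₁, P i := ⟨_, rfl⟩
  rw [← hSPd] at hsums hSP ⊢
  obtain ⟨M, hMd⟩ : ∃ M, M = Mb ^ 2 * (1 + |τ|) ^ A := ⟨_, rfl⟩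
  rw [← hMd] at hM hQ ⊢
  rw [← hz] at hsums hzz hz1 hQ ⊢
  rw [hzz]
  have hz0 : 0 ≤ z := by linarith
  have hMS : 0 ≤ M * (hE (S E0) * SP) := by positivity
  have a1 : C1 * z * Er ≤ (C1 + 2 * C1 * C2 * L) * (z * z * z) * Er := by
    have b1 : C1 ≤ C1 + 2 * C1 * C2 * L := by
      have : 0 ≤ 2 * C1 * C2 * L := by positivity
      linarith
    have b2 : z ≤ z * z * z := by nlinarith
    have : C1 * z ≤ (C1 + 2 * C1 * C2 * L) * (z * z * z) := by gcongr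
    exact mul_le_mul_of_nonneg_right this hEr0
  have a2 : C1 * ((L * z) * (Q * (2 * SP))) ≤
      (C1 + 2 * C1 * C2 * L) * (z * z * z) * (M * (hE (S E0) * SP)) := by
    have b1 : C1 * ((L * z) * (Q * (2 * SP))) =
        (2 * C1 * C2 * L) * (z * z) * (M * (hE (S E0) * SP)) := by rw [hQ]; ring
    rw [b1]
    have b2 : z * z ≤ z * z * z := by nlinarith [mul_nonneg hz0 hz0]
    have b3 : 2 * C1 * C2 * L ≤ C1 + 2 * C1 * C2 * L := by linarith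
    gcongr
  have hC10 : 0 ≤ C1 := by linarith
  calc C1 * z * Er + C1 * _ ≤ (C1 + 2 * C1 * C2 * L) * (z * z * z) * Er +
        (C1 + 2 * C1 * C2 * L) * (z * z * z) * (M * (hE (S E0) * SP)) :=
        add_le_add a1 ((mul_le_mul_of_nonneg_left hsums hC10).trans a2)
    _ = _ := by ring

end Crest.Agent.R017.Z1F579
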