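import Crest.Agent.R017.RstM_290
import Crest.Agent.R017.CutN_290

/-!
# Row 17, R8 (REST) (helper290): the front of one level, `CutN290.CutQ0` at the official window

* `rst_front` : `M2` of the `e`-blocks `E1 < N e ≤ E0` of level `i < n` over the cut
-/

set_option autoImplicit false
set_option linter.unusedVariables false

noncomputable section

open Finset
open scoped Classical ComplexConjugate ContDiff

namespace Crest.Agent.R017.RstF290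

open Crest.Agent.R012 Crest.Agent.R012.Eis Crest.Agent.R012.Div277
open Crest.Agent.R012.MC (Wgt)
open Crest.Agent.R012.LS2 (S mem_S bl)
open Crest.Agent.R012.Mob705 (pb mem_pb)
open Crest.Agent.R012.Weight600 (pw)
open Crest.Agent.R017.C70 (JC OKJ JW okJ_JW CbF)
open Crest.Agent.R017.CM106 (CS FS)
open Crest.Agent.R017.HB645 (hh)
open Crest.Agent.R017.E1551 (nmpos)
open Crest.Agent.R017.E3M829 (TC Tal Cut)
open Crest.Agent.R017.E3F548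
open Crest.Agent.R017.E3Z548
open Crest.Agent.R017.E3Kc548 Crest.Agent.R017.E3Ke548
open Crest.Agent.R017.Mode405 (Slp)
open Crest.Agent.R017.E3Sz579 (Ld Md Ld_nonneg Md_nonneg)
open Crest.Agent.R017.E2440 (TE StE StT)
open Crest.Agent.R017.PX764 (n6)
open Crest.Agent.R017.R3571 (RMm)
open Crest.Agent.R017.E3Hf290 (RN2F RN2F_nonneg)
open Crest.Agent.R017.RstM290
open Crest.Agent.R017.E5L770 (omL)
open Crest.Agent.R017.P1e54 (M2)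
open Crest.Agent.R017.P1k54 (uM wM wgt_wM wM_nonneg)
open Crest.Agent.R017.Hi754 (StD)

set_option maxHeartbeats 1000000 in
/-- **the front of one level**: window `(2 ^ i / 4, 2 * 2 ^ i]`, `E1 < N f ≤ E0`, cut `Ec` -/
theorem rst_front (Rw : ℝ) {R0 : ℝ} (hR0 : 0 ≤ R0) (a A₁ : ℕ)
    (hA₁ : 1 < A₁) {ε : ℝ} (hε : 0 < ε) (hε1 : ε ≤ 1) :
    ∃ (c C c2 : ℝ), 1 ≤ c ∧ 1 ≤ C ∧ 1 ≤ c2 ∧
    ∀ (Z : ℝ), 1 ≤ Z → ∀ (i n : ℕ), i < n → (2 : ℝ) ^ n ≤ Z →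
    ∀ (D Y₀ Y₁ : ℝ), Y₀ = 2 ^ i / 4 → Y₁ = 2 * 2 ^ i → D = Real.sqrt Y₁ →
    ∀ (α : Eis → ℂ) (E1 E0 Ec K X : ℝ) (H : ℕ → Eis → Eis → ℝ)
      (W0 : ℕ → Eis → Eis → ℝ → ℝ),
      FS α → (∀ n, α n ≠ 0 → Squarefree n) →
      (∀ n, α n ≠ 0 → |Real.log (nm n) - Real.log X| ≤ R0) →
      1 ≤ K → c2 * K ≤ Z → 1 ≤ Ec → Ec ≤ Z → 0 ≤ E1 → E1 ≤ E0 → E0 ≤ Z →
      0 < X → X ≤ Z ^ 5 → (∀ j d f, 0 < H j d f) →
      (∀ j ∈ LI Y₀ Y₁, ∀ d ∈ S (Z ^ 5), ∀ f ∈ (S E0).filter (fun f => E1 < (nm f : ℝ)),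
        c * (H j d f * Real.exp j ^ 2) ≤ K * X) →
      (∀ j d f, Slp a (W0 j d f)) →
      (∀ j ∈ LI Y₀ Y₁, ∀ d ∈ (JW D Y₀ Y₁).image Prod.fst,
        ∀ f ∈ (S E0).filter (fun f => E1 < (nm f : ℝ)), ∀ γ π,
        IsPrim γ → IsPrim π → (nm π : ℝ) ≤ c * Z ^ 300 → ∀ P : ℝ, 0 < P →
        (nm γ : ℝ) * n6 γ ^ 2 * ∑ r ∈ bl P, RMm A₁ (fun n => α (d * n)) f γ π r ≤
          W0 j d f P) →
      M2 (uM Rw K Ec) (StD E1 E0 (JW (Real.sqrt (2 ^ n)) (1 / 10) (2 ^ n)) (omL i) α) ≤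
      C * Z ^ ε * (K ^ (2 / 3 : ℝ) * ∑ f ∈ (S E0).filter (fun f => E1 < (nm f : ℝ)),
        (((nm f : ℝ)⁻¹ + (Y₁ / K ^ 2) ^ (1 / 6 : ℝ) * (nm f : ℝ) ^ (1 / 2 : ℝ) +
          Ec ^ 2 * Y₁ / K) * XE (JW D Y₀ Y₁) (omL i) (Tal α) f) +
      ∑ f ∈ (S E0).filter (fun f => E1 < (nm f : ℝ)), ∑ j ∈ LI Y₀ Y₁,
        ∑ d ∈ (JW D Y₀ Y₁).image Prod.fst,
        (nm f : ℝ)⁻¹ * LVn (fun d _ n => α (d * n)) {d} {f} c (Z ^ 5) K (H j d f) (Real.exp j)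
          (Real.exp j) Ec 1 1 (RN2F c K (Real.exp j) X (H j) (W0 j) d f)) := by
  obtain ⟨A, c, C, c2, hc, hC, hc2, h⟩ := CutN290.CutQ0 (wgt_wM Rw) (wM_nonneg Rw) hR0 a A₁ hA₁
    hε hε1
  obtain ⟨Mb, hMb, hOb⟩ := OmL_bd (A + 2)
  have hc3 : 1 ≤ max c2 (3 * c) := hc2.trans (le_max_left _ _)
  refine ⟨c, C * max 1 (Mb ^ 2), max c2 (3 * c), hc,
    one_le_mul_of_one_le_of_one_le hC (le_max_left _ _), hc3, ?_⟩
  intro Z hZ i n hin h2n D Y₀ Y₁ hY₀ hY₁ hD α E1 E0 Ec K X H W0 hα hsq hwin hK hKZ hEc hEcZ hE1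
    hE10 hE0Z hX hXZ hH hKX hS hRH
  have hZ0 : (0 : ℝ) < Z := by linarith
  have hK0 : 0 < K := by linarith
  have hE0 : 0 ≤ E0 := hE1.trans hE10
  have hp : (1 : ℝ) ≤ 2 ^ i := one_le_pow₀ (by norm_num)
  have hY1 : 0 ≤ Y₁ := by rw [hY₁]; positivity
  have hYZ : Y₁ ≤ Z := by
    rw [hY₁, ← pow_succ']
    exact (pow_le_pow_right₀ (by norm_num) hin).trans h2n
  have hK1 : c2 * K ≤ Z := (mul_le_mul_of_nonneg_right (le_max_left _ _) hK0.le).trans hKZ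
  have h3c : 3 * c ≤ Z := by
    have h1 : 3 * c * 1 ≤ max c2 (3 * c) * K :=
      mul_le_mul (le_max_right _ _) hK zero_le_one (by linarith)
    linarith
  have hcV : ∀ j ∈ LI Y₀ Y₁, c * Real.exp j ≤ Z ^ 5 := by
    intro j hj
    obtain ⟨-, -, h2⟩ := mem_LI hj
    have he : Real.exp 1 < 3 := lt_trans Real.exp_one_lt_d9 (by norm_num)
    have h3 : Real.exp j ≤ 3 * Z :=
      h2.trans (mul_le_mul he.le hYZ hY1 (by norm_num))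
    have h4 : c * Real.exp j ≤ Z * Z := by
      calc c * Real.exp j ≤ c * (3 * Z) := mul_le_mul_of_nonneg_left h3 (by linarith)
        _ = (3 * c) * Z := by ring
        _ ≤ Z * Z := mul_le_mul_of_nonneg_right h3c hZ0.le
    refine h4.trans ?_
    calc Z * Z = Z ^ 2 := by ring
      _ ≤ Z ^ 5 := pow_le_pow_right₀ hZ (by norm_num)
  have key := h (OmL i) Mb hMb (contDiff_OmL i) (fun m hm x => hOb i m hm x) 0 1 (by simp) Z hZ D Y₀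
    Y₁ (omL i) α (fun f => E1 < (nm f : ℝ)) E0 Y₁ Ec K X H W0 hα hsq hwin hEc hEcZ
    (by rw [hD]; exact Real.sqrt_nonneg _) hY1 (fun x _ => OmL_form i x)
    (fun j _ n hn _ hne => by
      obtain ⟨b1, b2⟩ := OmL_win hn hne
      exact ⟨by rw [hY₀]; exact b1, by rw [hY₁]; exact b2⟩)
    hK0 hK1 hY1 hYZ hE0 hE0Z hYZ (fun x hx => (JW_size hD hY1 hx).1.trans hYZ)
    (fun x hx => (JW_size hD hY1 hx).2) hX hXZ hH hcV hKX hS hRH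
  have eL : M2 (uM Rw K Ec) (StD E1 E0 (JW (Real.sqrt (2 ^ n)) (1 / 10) (2 ^ n)) (omL i) α) =
      ∑' k : Eis, if IsPrim k ∧ Cut Ec k then wM Rw ((nm k : ℝ) / K) *
        ‖StT E0 (JW D Y₀ Y₁) (omL i) (fun x e => if E1 < (nm e : ℝ) then TE α x e else 0) k‖ ^ 2
          else 0 := by
    rw [M2_uM]
    refine tsum_congr fun k => ?_
    unfold Hi754.StD
    rw [ET4a548.StE_sub hE1 hE10, StT_win hin hY₀ hY₁ hD]
  rw [eL]
  refine key.trans ?_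
  simp only [abs_zero, add_zero, one_pow, mul_one]
  obtain ⟨L, hL⟩ : ∃ L : ℝ, L = ∑ f ∈ (S E0).filter (fun f => E1 < (nm f : ℝ)),
        ∑ j ∈ LI Y₀ Y₁, ∑ d ∈ (JW D Y₀ Y₁).image Prod.fst,
        (nm f : ℝ)⁻¹ * LVn (fun d _ n => α (d * n)) {d} {f} c (Z ^ 5) K (H j d f) (Real.exp j)
          (Real.exp j) Ec 1 1 (RN2F c K (Real.exp j) X (H j) (W0 j) d f) := ⟨_, rfl⟩
  obtain ⟨T, hT⟩ : ∃ T : ℝ, T = K ^ (2 / 3 : ℝ) *
      ∑ f ∈ (S E0).filter (fun f => E1 < (nm f : ℝ)),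
        (((nm f : ℝ)⁻¹ + (Y₁ / K ^ 2) ^ (1 / 6 : ℝ) * (nm f : ℝ) ^ (1 / 2 : ℝ) +
          Ec ^ 2 * Y₁ / K) * XE (JW D Y₀ Y₁) (omL i) (Tal α) f) := ⟨_, rfl⟩
  rw [← hL, ← hT]
  have hL0 : 0 ≤ L := by
    rw [hL]
    refine sum_nonneg fun f _ => sum_nonneg fun j _ =>
      sum_nonneg fun d _ => mul_nonneg (by positivity) (LVn_nonneg hK0.le (hH j d f).le
        (Real.exp_pos _).le (Real.exp_pos _).le (by linarith) zero_le_one ?_)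
    have hh := hH j d f
    have he3 := Real.exp_pos (j : ℝ)
    have hI : 0 < c * (X * Real.exp j * H j d f / K) := by positivity
    exact RN2F_nonneg (Ld_nonneg hK0 hh d) (Md_nonneg (by linarith) hK0 he3 hh hX d)
        (by positivity) ((hS j d f).nonneg _ hI)
  have hT0 : 0 ≤ T := by
    rw [hT]
    refine mul_nonneg (by positivity) (sum_nonneg fun f _ => mul_nonneg ?_ (XE_nonneg _ _ _ _))
    have : 0 ≤ Y₁ / K ^ 2 := by positivity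
    positivity
  have hm : 1 ≤ max 1 (Mb ^ 2) := le_max_left _ _
  have hm2 : Mb ^ 2 ≤ max 1 (Mb ^ 2) := le_max_right _ _
  have h5 : T + Mb ^ 2 * L ≤ max 1 (Mb ^ 2) * (T + L) := by
    rw [mul_add]
    exact add_le_add (le_mul_of_one_le_left hT0 hm) (mul_le_mul_of_nonneg_right hm2 hL0)
  calc C * Z ^ ε * (T + Mb ^ 2 * L) ≤ C * Z ^ ε * (max 1 (Mb ^ 2) * (T + L)) :=
        mul_le_mul_of_nonneg_left h5 (by positivity)
    _ = C * max 1 (Mb ^ 2) * Z ^ ε * (T + L) := by ring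

end Crest.Agent.R017.RstF290
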