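import Crest.Agent.R017.E3Nc_146

/-!
# Row 17, REST (helper405): the diagonal of the `e`-blocks

* **`XEw`** : `Σ_{E1 < N f} XE(f) ≤ C X^ε F e^(-n/3) e^m` for a dominated sequence, joint numbers
  only for the blocks `b ≥ log E1`
-/

set_option autoImplicit false

noncomputable section

open Finset MeasureTheory
open scoped ComplexConjugate Classical

namespace Crest.Agent.R017.XEw405

open Crest.Agent.R012 Crest.Agent.R012.Eis Crest.Agent.R012.MC
open Crest.Agent.R012.LS2 (S mem_S)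
open Crest.Agent.R017.CM106 (CS FS TG)
open Crest.Agent.R017.C70
open Crest.Agent.R017.HP842 (Pc pc sqc alL)
open Crest.Agent.R017.B770
open Crest.Agent.R017.FE47 (PU cx)
open Crest.Agent.R017.Prov71
open Crest.Agent.R017.Leg381 (Pf alF SF LF natl alF_natl)
open Crest.Agent.R017.I1146 (ChN LN cN SN Dom cN_nonneg CellS LipS numS)
open Crest.Agent.R017.E1551 hiding tau Dg
open Crest.Agent.R017.E3D579 (TE0)
open Crest.Agent.R017.E3T829 (cg)
open Crest.Agent.R017.OT551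
open Crest.Agent.R017.E3N146 (CF_of_JC)
open Crest.Agent.R017.E3F548 (XE)
open Crest.Agent.R017.E3M829 (Tal)

/-- the coefficient without the condition at `d` -/
lemma norm_Tal_le (α : Eis → ℂ) (d f j : Eis) : ‖Tal α d f j‖ ≤ ‖T1 α d j f‖ := by
  unfold E3M829.Tal T1
  by_cases h : IsCoprime j d
  · refine le_of_eq ?_
    congr 1
    unfold E2440.TE
    refine tsum_congr fun m => ?_
    have e1 : IsCoprime j (d * m) ↔ IsCoprime j (1 * m) := by
      rw [one_mul]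
      exact ⟨fun h1 => h1.of_mul_right_right, fun h1 => h.mul_right h1⟩
    show (if f ∣ m ∧ IsCoprime j (d * m) then α (d * m) * _ else 0) =
      if f ∣ m ∧ IsCoprime j (1 * m) then sg α d (1 * m) * _ else 0
    unfold sg
    rw [one_mul] at e1 ⊢
    by_cases h2 : f ∣ m ∧ IsCoprime j m
    · rw [if_pos h2, if_pos ⟨h2.1, e1.2 h2.2⟩]
    · rw [if_neg h2, if_neg fun h3 => h2 ⟨h3.1, e1.1 h3.2⟩]
  · have : E2440.TE α (d, j) f = 0 := by
      unfold E2440.TE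
      refine (tsum_congr fun m => ?_).trans tsum_zero
      exact if_neg fun h1 => h h1.2.of_mul_right_left
    rw [this, norm_zero]
    exact norm_nonneg _

set_option maxHeartbeats 4000000 in
/-- **the diagonal, blocks above `E1`** -/
theorem XEw {h : ℝ → ℝ} {c : ℝ} (hpu : PU h c) (N : ℕ) {R : ℝ} (hR : 0 ≤ R) {ε M B₂ : ℝ}
    (hε : 0 < ε) (hM : 0 ≤ M) (hB₂ : 0 < B₂) {ν Dd : ℝ} (hν : 1 ≤ ν) (hDd : 0 ≤ Dd) {L : ℝ}
    (hL : 0 ≤ L) :
    ∃ C r : ℝ, 0 ≤ C ∧ 0 ≤ r ∧ ∀ X : ℝ, 3 ≤ X → ∀ (P : DPar), P.OK → ∀ (q : Eis) (ps : List Pq),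
      ps.length ≤ N → (∀ p ∈ ps, 0 ≤ p.z ∧ p.z ≤ Real.log X) →
      ∀ (Y W T F : ℝ) (Sh : ℝ → ℝ → ℝ → ℝ), 1 ≤ Y → Y ≤ X ^ B₂ → W * ν ≤ X →
      Real.log (W * ν) ≤ T → 0 ≤ F → LipS L Sh →
      CellS h P q ps (X ^ B₂) r M T (B₂ * Real.log X) F Sh →
      ∀ al : Eis → ℂ, Dom ν Dd (sqc q (alF 1 1 P h (natl ps))) al →
      Adm Y (Real.exp (LN ps)) R al → ∀ (E1 V₀ m : ℝ) (EE : Finset Eis)
        (J : Finset (Eis × Eis)) (om : Eis × Eis → ℂ), OKJ J → 0 ≤ E1 → 0 < V₀ →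
      (∀ x, ‖om x‖ ≤ 1) →
      (∀ x ∈ J, om x ≠ 0 → V₀ ≤ nm (x.2 * x.1 ^ 2) ∧ (nm (x.2 * x.1 ^ 2) : ℝ) ≤ W) →
      (∀ e ∈ EE, IsPrim e ∧ Squarefree e ∧ E1 < nm e) →
      (∀ d, IsPrim d → ∀ b v : ℝ, 0 ≤ b → Real.log E1 ≤ b → 0 ≤ v →
        v ≤ Real.log W - 2 * Real.log (nm d) →
        -(Real.log V₀ / 3) + Sh (Real.log (nm d)) b v + 2 * Real.log (nm d) ≤ m) →
      ∑ f ∈ EE, XE J om (Tal al) f ≤
        C * X ^ ε * F * Real.exp (-(LN ps / 3)) * Real.exp m := by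
  set a₁ : ℝ := B₂ + 1 with ha₁
  have ha₁0 : 0 < a₁ := by positivity
  set ε' : ℝ := ε / (2 * a₁) with hε'
  have hε'0 : 0 < ε' := by positivity
  have hε2 : 0 < ε / 2 := by positivity
  set A : ℕ := ⌈(N : ℝ) * M⌉₊ + 2 with hA
  have hA2 : 2 ≤ A := by omega
  have hJ0 : 0 ≤ (N : ℝ) * M := by positivity
  have hJA : (N : ℝ) * M + 1 < A := by
    have h1 := Nat.le_ceil ((N : ℝ) * M)
    rw [hA]
    push_cast
    linarith
  obtain ⟨Cb, rb, hCb, hrb, Hb⟩ := numS hpu N hB₂.le hε2 hM hL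
  obtain ⟨C₁, hC₁, H₁⟩ := T1_sum R hR A hA2 (J := (N : ℝ) * M) hJA hJ0
  obtain ⟨C₂, hC₂, H₂⟩ := logs hε'0
  set lν := Real.log ν with hlν
  have hlν0 : 0 ≤ lν := Real.log_nonneg hν
  refine ⟨C₁ * 100 * C₂ * (Dd * Real.exp (L * lν) * Cb), rb + 1, by positivity, by positivity, ?_⟩
  intro X hX P hP q ps hN hz Y W T F Sh hY1 hYu hWX hWT hF hLip hcl al hdom hadm E1 V₀ m EE J om
    hJ hE1 hV₀ hom1 hlev hEE hm
  have hX1 : (1 : ℝ) ≤ X := by linarith
  have hX0 : 0 < X := by linarith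
  have hY0 : 0 < Y := by linarith
  have hν0 : 0 < ν := by linarith
  set n := LN ps with hn
  set Pb : ℝ := X ^ a₁ with hPb
  have hPb1 : 1 ≤ Pb := Real.one_le_rpow hX1 ha₁0.le
  have hYPb : Y ≤ Pb := hYu.trans (Real.rpow_le_rpow_of_exponent_le hX1 (by rw [ha₁]; linarith))
  have hXPb : X ≤ Pb := by
    calc X = X ^ (1 : ℝ) := (Real.rpow_one X).symm
      _ ≤ _ := Real.rpow_le_rpow_of_exponent_le hX1 (by rw [ha₁]; linarith)
  have hPe : Pb ^ ε' = X ^ (ε / 2) := by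
    rw [hPb, ← Real.rpow_mul hX0.le]
    congr 1
    rw [hε']
    field_simp
  have hXe : X ^ (ε / 2) * X ^ (ε / 2) = X ^ ε := by
    rw [← Real.rpow_add hX0]; congr 1; ring
  have hWPb : W ≤ Pb := by
    rcases le_total W 0 with h0 | h0
    · linarith
    · exact (le_mul_of_one_le_right h0 hν).trans (hWX.trans hXPb)
  set Mn : ℝ := Dd * Real.exp (L * lν) * (Cb * X ^ (ε / 2) * F) * Real.exp m with hMn
  have hMn0 : 0 ≤ Mn := by positivity
  have hexn : Real.exp n ^ (-(1 / 3) : ℝ) = Real.exp (-(n / 3)) := by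
    rw [← Real.exp_mul]; congr 1; ring
  have hlP := Real.log_nonneg hPb1
  have hlY := Real.log_nonneg hY1
  have hlYP : Real.log Y ≤ Real.log Pb := Real.log_le_log hY0 hYPb
  -- the joint numbers of `al`
  have hjb : ∀ d ∈ S Y, ∀ B V, 1 ≤ B → B ≤ Y → E1 < B → 1 ≤ V → V ≤ W / (nm d : ℝ) ^ 2 →
      ∀ t : ℝ, (V₀ / (nm d : ℝ) ^ 2) ^ (-(1 / 3) : ℝ) * JB Y al (fun _ => True) d B V t ≤
        (Mn * (nm d : ℝ) ^ (-(4 / 3) : ℝ)) * (1 + |t|) ^ ((N : ℝ) * M) := by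
    intro d hd B V hB1 hB2 hBE hV1 hV2 t
    obtain ⟨h2, h1, -⟩ := (mem_S hY0.le).1 hd
    have hdn : (0 : ℝ) < nm d := by exact_mod_cast nm_pos.2 h1.ne_zero
    have hd1 : (1 : ℝ) ≤ nm d := by exact_mod_cast nm_pos.2 h1.ne_zero
    have hV0 : 0 < V := by linarith
    have hB0 : 0 < B := by linarith
    have hVν : 1 ≤ V * ν := one_le_mul_of_one_le_of_one_le hV1 hν
    have hVd : V * (nm d : ℝ) ^ 2 ≤ W := (le_div_iff₀ (by positivity)).mp hV2
    have hW0 : 0 < W := lt_of_lt_of_le (by positivity) hVd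
    have hVW : V ≤ W := (le_mul_of_one_le_right hV0.le (one_le_pow₀ hd1)).trans hVd
    have hVX : V * ν ≤ X := (mul_le_mul_of_nonneg_right hVW hν0.le).trans hWX
    have hVT0 : Real.log V + 2 * Real.log (nm d) ≤ Real.log W := by
      have h3 := Real.log_le_log (by positivity) hVd
      rw [Real.log_mul hV0.ne' (by positivity), Real.log_pow] at h3
      push_cast at h3
      exact h3
    have hVT : Real.log (V * ν) ≤ T - 2 * Real.log (nm d) := by
      rw [Real.log_mul hV0.ne' hν0.ne']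
      rw [Real.log_mul hW0.ne' hν0.ne'] at hWT
      linarith
    have hlB : Real.log B ≤ B₂ * Real.log X + 1 := by
      have h3 := Real.log_le_log hB0 (hB2.trans hYu)
      rw [Real.log_rpow hX0] at h3
      linarith
    have h5 := Hb X hX P hP q ps hN hz T (B₂ * Real.log X) F Sh hF hLip hcl d h1
      (h2.trans hYu) B (V * ν) Y t (fun _ => True) hB1 (hB2.trans hYu) hlB hVν hVX hY0.le hVT
    have h6 := hdom.jb Y (fun _ => True) d B V t h1 hY0.le hV1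
    have hlVν : Real.log (V * ν) = Real.log V + lν := by
      rw [Real.log_mul hV0.ne' hν0.ne']
    have h7 : Real.exp (Sh (Real.log (nm d)) (Real.log B) (Real.log (V * ν))) ≤
        Real.exp (L * lν) * Real.exp (Sh (Real.log (nm d)) (Real.log B) (Real.log V)) := by
      rw [← Real.exp_add]
      refine Real.exp_le_exp.2 ?_
      have h3 := hLip (Real.log (nm d)) (Real.log B) (Real.log (V * ν)) (Real.log B)
        (Real.log V)
      rw [sub_self, abs_zero, zero_add, hlVν, add_sub_cancel_left, abs_of_nonneg hlν0] at h3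
      rw [hlVν]
      linarith
    have hlE : Real.log E1 ≤ Real.log B := by
      rcases hE1.eq_or_lt with h0 | h0
      · rw [← h0, Real.log_zero]
        exact Real.log_nonneg hB1
      · exact Real.log_le_log h0 hBE.le
    have h8 := hm d h1 (Real.log B) (Real.log V) (Real.log_nonneg hB1) hlE
      (Real.log_nonneg hV1) (by linarith)
    have h9 : (V₀ / (nm d : ℝ) ^ 2) ^ (-(1 / 3) : ℝ) *
        Real.exp (Sh (Real.log (nm d)) (Real.log B) (Real.log V)) ≤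
        Real.exp m * (nm d : ℝ) ^ (-(4 / 3) : ℝ) := by
      rw [Real.rpow_def_of_pos (by positivity), Real.rpow_def_of_pos hdn, ← Real.exp_add,
        ← Real.exp_add, Real.log_div hV₀.ne' (by positivity), Real.log_pow]
      refine Real.exp_le_exp.2 ?_
      push_cast
      linarith
    have h10 : 0 ≤ (V₀ / (nm d : ℝ) ^ 2) ^ (-(1 / 3) : ℝ) := by positivity
    calc (V₀ / (nm d : ℝ) ^ 2) ^ (-(1 / 3) : ℝ) * JB Y al (fun _ => True) d B V t ≤
          (V₀ / (nm d : ℝ) ^ 2) ^ (-(1 / 3) : ℝ) *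
          (Dd * (Cb * X ^ (ε / 2) * F * Real.exp (Sh (Real.log (nm d)) (Real.log B)
            (Real.log (V * ν))) * (1 + |t|) ^ ((N : ℝ) * M))) :=
          mul_le_mul_of_nonneg_left (h6.trans (mul_le_mul_of_nonneg_left h5 hDd)) h10
      _ ≤ (V₀ / (nm d : ℝ) ^ 2) ^ (-(1 / 3) : ℝ) *
          (Dd * (Cb * X ^ (ε / 2) * F * (Real.exp (L * lν) *
            Real.exp (Sh (Real.log (nm d)) (Real.log B) (Real.log V))) *
            (1 + |t|) ^ ((N : ℝ) * M))) := by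
          have h11 : 0 ≤ Cb * X ^ (ε / 2) * F := by positivity
          refine mul_le_mul_of_nonneg_left (mul_le_mul_of_nonneg_left
            (mul_le_mul_of_nonneg_right (mul_le_mul_of_nonneg_left h7 h11) (by positivity)) hDd)
            h10
      _ = (Dd * Real.exp (L * lν) * (Cb * X ^ (ε / 2) * F)) *
          ((V₀ / (nm d : ℝ) ^ 2) ^ (-(1 / 3) : ℝ) *
            Real.exp (Sh (Real.log (nm d)) (Real.log B) (Real.log V))) *
            (1 + |t|) ^ ((N : ℝ) * M) := by ring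
      _ ≤ (Dd * Real.exp (L * lν) * (Cb * X ^ (ε / 2) * F)) *
          (Real.exp m * (nm d : ℝ) ^ (-(4 / 3) : ℝ)) * (1 + |t|) ^ ((N : ℝ) * M) := by
          have h11 : 0 ≤ Dd * Real.exp (L * lν) * (Cb * X ^ (ε / 2) * F) := by positivity
          exact mul_le_mul_of_nonneg_right (mul_le_mul_of_nonneg_left h9 h11) (by positivity)
      _ = _ := by rw [hMn]; ring
  -- one `d`
  set J' := J.filter fun x => om x ≠ 0 with hJ'
  set Ds := J'.image Prod.fst with hDs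
  have hDsp : ∀ d ∈ Ds, IsPrim d := by
    intro d hd
    obtain ⟨x, hx, rfl⟩ := mem_image.1 hd
    exact hJ.prim x (mem_filter.1 hx).1
  set ω : Eis → Eis → Eis → ℝ := fun d u κ =>
    if E1 < (nm u : ℝ) ∧ V₀ ≤ (nm κ : ℝ) * (nm d : ℝ) ^ 2 then (nm κ : ℝ) ^ (-(1 / 3) : ℝ) else 0
    with hω
  have hω0 : ∀ d u κ, 0 ≤ ω d u κ := fun d u κ => by
    simp only [hω]; split_ifs; exacts [by positivity, le_rfl]
  have h1 : ∑ f ∈ EE, XE J om (Tal al) f ≤ ∑ d ∈ Ds, ∑ κ ∈ BF (W / (nm d : ℝ) ^ 2),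
      ∑ u ∈ EE, ω d u κ * ‖T1 al d κ u‖ ^ 2 := by
    unfold E3F548.XE
    rw [sum_comm]
    have e1 : ∑ x ∈ J, ∑ f ∈ EE, ‖om x‖ ^ 2 * ((nm x.2 : ℝ) ^ (-(1 : ℝ) / 3) *
          ‖Tal al x.1 f x.2‖ ^ 2) ≤
        ∑ x ∈ J', ∑ u ∈ EE, ω x.1 u x.2 * ‖T1 al x.1 x.2 u‖ ^ 2 := by
      have e2 : ∑ x ∈ J, ∑ f ∈ EE, ‖om x‖ ^ 2 * ((nm x.2 : ℝ) ^ (-(1 : ℝ) / 3) *
          ‖Tal al x.1 f x.2‖ ^ 2) = ∑ x ∈ J', ∑ f ∈ EE, ‖om x‖ ^ 2 *
            ((nm x.2 : ℝ) ^ (-(1 : ℝ) / 3) * ‖Tal al x.1 f x.2‖ ^ 2) := by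
        symm
        refine sum_filter_of_ne fun x hx hne h0 => hne ?_
        rw [h0]
        simp
      rw [e2]
      refine sum_le_sum fun x hx => sum_le_sum fun u hu => ?_
      obtain ⟨hxJ, hx0⟩ := mem_filter.1 hx
      obtain ⟨hl1, hl2⟩ := hlev x hxJ hx0
      have e3 : ω x.1 u x.2 = (nm x.2 : ℝ) ^ (-(1 / 3) : ℝ) := by
        simp only [hω]
        refine if_pos ⟨(hEE u hu).2.2, ?_⟩
        rw [nm_mul, nm_pow] at hl1
        push_cast at hl1
        exact hl1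
      rw [e3, show (-(1 : ℝ) / 3) = (-(1 / 3) : ℝ) by norm_num]
      have e4 : ‖om x‖ ^ 2 ≤ 1 := pow_le_one₀ (norm_nonneg _) (hom1 x)
      have e5 := pow_le_pow_left₀ (norm_nonneg _) (norm_Tal_le al x.1 u x.2) 2
      calc ‖om x‖ ^ 2 * ((nm x.2 : ℝ) ^ (-(1 / 3) : ℝ) * ‖Tal al x.1 u x.2‖ ^ 2) ≤
            1 * ((nm x.2 : ℝ) ^ (-(1 / 3) : ℝ) * ‖T1 al x.1 x.2 u‖ ^ 2) :=
            mul_le_mul e4 (mul_le_mul_of_nonneg_left e5 (by positivity)) (by positivity)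
              zero_le_one
        _ = _ := one_mul _
    refine e1.trans ?_
    rw [← sum_fiberwise_of_maps_to (s := J') (t := Ds) (g := Prod.fst)
      (fun x hx => mem_image_of_mem _ hx)]
    refine sum_le_sum fun d _ => ?_
    have e5 : ∑ x ∈ J' with x.1 = d, ∑ u ∈ EE, ω x.1 u x.2 * ‖T1 al x.1 x.2 u‖ ^ 2 =
        ∑ κ ∈ (J'.filter fun x => x.1 = d).image Prod.snd,
          ∑ u ∈ EE, ω d u κ * ‖T1 al d κ u‖ ^ 2 := by
      rw [sum_image]
      · refine sum_congr rfl fun x hx => ?_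
        rw [(mem_filter.1 hx).2]
      · intro x hx y hy hxy
        have hx' := (mem_filter.1 hx).2
        have hy' := (mem_filter.1 hy).2
        exact Prod.ext (hx'.trans hy'.symm) hxy
    rw [e5]
    refine sum_le_sum_of_subset_of_nonneg ?_ fun κ _ _ => sum_nonneg fun u _ =>
      mul_nonneg (hω0 _ _ _) (by positivity)
    intro κ hκ
    obtain ⟨x, hx, rfl⟩ := mem_image.1 hκ
    obtain ⟨hx', rfl⟩ := mem_filter.1 hx
    obtain ⟨hxJ, hx0⟩ := mem_filter.1 hx'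
    obtain ⟨hl1, hl2⟩ := hlev x hxJ hx0
    refine mem_BF.2 ⟨CF_of_JC (hJ.jc x hxJ), ?_⟩
    have hdn : (0 : ℝ) < nm x.1 := by exact_mod_cast nm_pos.2 (hJ.prim x hxJ).ne_zero
    rw [le_div_iff₀ (by positivity)]
    rw [nm_mul, nm_pow] at hl2
    push_cast at hl2
    exact hl2
  have h2 : ∀ d ∈ Ds, ∑ κ ∈ BF (W / (nm d : ℝ) ^ 2), ∑ u ∈ EE, ω d u κ * ‖T1 al d κ u‖ ^ 2 ≤
      if d ∈ S Y then 1 / (nm d : ℝ) * (C₁ * Real.exp (-(n / 3)) * Mn *
        ((1 + 2 * Real.log Pb) * (1 + 2 * Real.log Pb))) else 0 := by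
    intro d hd
    have hdp := hDsp d hd
    have hdn : (0 : ℝ) < nm d := by exact_mod_cast nm_pos.2 hdp.ne_zero
    have hd1 : (1 : ℝ) ≤ nm d := by exact_mod_cast nm_pos.2 hdp.ne_zero
    by_cases hS : d ∈ S Y
    swap
    · rw [if_neg hS]
      refine le_of_eq (sum_eq_zero fun κ _ => sum_eq_zero fun u _ => ?_)
      rw [T1_zero_d hY0.le hadm.sup hdp hS]; simp
    rw [if_pos hS]
    have a4 : ∑ κ ∈ BF (W / (nm d : ℝ) ^ 2), ∑ u ∈ EE, ω d u κ * ‖T1 al d κ u‖ ^ 2 ≤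
        ∑ κ ∈ BF (W / (nm d : ℝ) ^ 2), ∑ u ∈ S Y, ω d u κ * ‖T1 al d κ u‖ ^ 2 := by
      refine sum_le_sum fun κ _ => ?_
      have hz' : ∑ u ∈ EE, ω d u κ * ‖T1 al d κ u‖ ^ 2 =
          ∑ u ∈ EE.filter (fun u => u ∈ S Y), ω d u κ * ‖T1 al d κ u‖ ^ 2 := by
        symm
        refine sum_subset (filter_subset _ _) fun u hu hn' => ?_
        have h5 : u ∉ S Y := fun h => hn' (mem_filter.mpr ⟨hu, h⟩)
        rw [T1_zero_e hY0.le hadm.sup hdp κ (hEE u hu).1 h5]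
        simp
      rw [hz']
      exact sum_le_sum_of_subset_of_nonneg
        (fun u hu => (mem_filter.mp hu).2) fun u _ _ => mul_nonneg (hω0 _ _ _) (by positivity)
    have a5 := H₁ Y (Real.exp n) (W / (nm d : ℝ) ^ 2) (Mn * (nm d : ℝ) ^ (-(4 / 3) : ℝ)) hY1
      (Real.exp_pos n) (by positivity) al hadm d hdp (ω d) (hω0 d)
      (fun B V => if E1 < B then (V₀ / (nm d : ℝ) ^ 2) ^ (-(1 / 3) : ℝ) else 0)
      (fun B V hB hV => by
        show 0 ≤ if E1 < B then (V₀ / (nm d : ℝ) ^ 2) ^ (-(1 / 3) : ℝ) else 0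
        split_ifs; exacts [by positivity, le_rfl])
      (fun U κ B V hU hκ h3 h4 h5 h6 => by
        show ω d U κ ≤ if E1 < B then (V₀ / (nm d : ℝ) ^ 2) ^ (-(1 / 3) : ℝ) else 0
        simp only [hω]
        by_cases hc : E1 < (nm U : ℝ) ∧ V₀ ≤ (nm κ : ℝ) * (nm d : ℝ) ^ 2
        · rw [if_pos hc, if_pos (hc.1.trans_le h3)]
          refine Real.rpow_le_rpow_of_nonpos (by positivity) ?_ (by norm_num)
          rw [div_le_iff₀ (by positivity)]
          exact hc.2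
        · rw [if_neg hc]
          split_ifs; exacts [by positivity, le_rfl])
      (fun B V hB1 hB2 hV1 hV2 t => by
        show (if E1 < B then (V₀ / (nm d : ℝ) ^ 2) ^ (-(1 / 3) : ℝ) else 0) * _ ≤ _
        by_cases hc : E1 < B
        · rw [if_pos hc]
          exact hjb d hS B V hB1 hB2 hc hV1 hV2 t
        · rw [if_neg hc, zero_mul]
          positivity)
    have a6 : Real.log (max 1 (W / (nm d : ℝ) ^ 2)) ≤ Real.log Pb := by
      refine Real.log_le_log (lt_of_lt_of_le one_pos (le_max_left _ _)) (max_le hPb1 ?_)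
      rw [div_le_iff₀ (by positivity)]
      exact hWPb.trans (le_mul_of_one_le_right (by linarith) (one_le_pow₀ hd1))
    have a7 := Real.log_nonneg (le_max_left 1 (W / (nm d : ℝ) ^ 2))
    have a8 : (Real.exp n / nm d) ^ (-(1 / 3) : ℝ) * (nm d : ℝ) ^ (-(4 / 3) : ℝ) =
        1 / nm d * Real.exp (-(n / 3)) := by
      rw [Real.div_rpow (Real.exp_pos _).le hdn.le, hexn, Real.rpow_neg hdn.le, div_inv_eq_mul,
        mul_assoc, ← Real.rpow_add hdn]
      norm_num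
      rw [Real.rpow_neg_one]
      ring
    refine (a4.trans a5).trans ?_
    calc C₁ * (Real.exp n / nm d) ^ (-(1 / 3) : ℝ) * ((1 + 2 * Real.log Y) *
          (1 + 2 * Real.log (max 1 (W / (nm d : ℝ) ^ 2))) *
          (Mn * (nm d : ℝ) ^ (-(4 / 3) : ℝ))) ≤
          C₁ * (Real.exp n / nm d) ^ (-(1 / 3) : ℝ) * ((1 + 2 * Real.log Pb) *
          (1 + 2 * Real.log Pb) * (Mn * (nm d : ℝ) ^ (-(4 / 3) : ℝ))) := by
          gcongr
      _ = ((Real.exp n / nm d) ^ (-(1 / 3) : ℝ) * (nm d : ℝ) ^ (-(4 / 3) : ℝ)) *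
          (C₁ * Mn * ((1 + 2 * Real.log Pb) * (1 + 2 * Real.log Pb))) := by ring
      _ = _ := by
          rw [a8]; ring
  refine h1.trans ((sum_le_sum h2).trans ?_)
  rw [← sum_filter, ← sum_mul]
  have hs : ∑ δ ∈ Ds.filter (fun d => d ∈ S Y), 1 / (nm δ : ℝ) ≤ 100 * (1 + Real.log Pb) :=
    (sum_le_sum_of_subset_of_nonneg (fun d hd => (mem_filter.mp hd).2)
      fun _ _ _ => by positivity).trans ((sum_inv_S551 hY1).trans (by linarith))
  have h9 := H₂ Pb hPb1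
  calc (∑ δ ∈ Ds.filter (fun d => d ∈ S Y), 1 / (nm δ : ℝ)) *
        (C₁ * Real.exp (-(n / 3)) * Mn * ((1 + 2 * Real.log Pb) * (1 + 2 * Real.log Pb))) ≤
        (100 * (1 + Real.log Pb)) *
        (C₁ * Real.exp (-(n / 3)) * Mn * ((1 + 2 * Real.log Pb) * (1 + 2 * Real.log Pb))) := by
        gcongr
    _ = C₁ * 100 * Real.exp (-(n / 3)) * Mn *
        ((1 + Real.log Pb) * ((1 + 2 * Real.log Pb) * (1 + 2 * Real.log Pb))) := by ring
    _ ≤ C₁ * 100 * Real.exp (-(n / 3)) * Mn * (C₂ * Pb ^ ε') := by gcongr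
    _ = C₁ * 100 * C₂ * (Dd * Real.exp (L * lν) * Cb) * (X ^ (ε / 2) * X ^ (ε / 2)) * F *
        Real.exp (-(n / 3)) * Real.exp m := by rw [hPe, hMn]; ring
    _ = _ := by rw [hXe]

end Crest.Agent.R017.XEw405
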