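import Crest.Agent.R017.RSTa_405
import Crest.Agent.R017.RnS_405
import Crest.Agent.R017.XEw_405
import Crest.Agent.R017.ETf_405
import Crest.Agent.R017.RstF_290
import Crest.Agent.R017.CGt_48

/-!
# Row 17, REST (helper405): the core, one level of one natural triple

* **`rst_core`** : the second moment of the `e`-blocks `E1 < N e ≤ E0` of one level below the top,
  over the cut `K^(1/20)`
-/

set_option autoImplicit false
set_option linter.unusedVariables false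

noncomputable section

open Finset
open scoped Classical ComplexConjugate

namespace Crest.Agent.R017.RST405

open Crest.Agent.R012 Crest.Agent.R012.Eis
open Crest.Agent.R012.LS2 (S mem_S bl mem_bl)
open Crest.Agent.R017.FE47 (PU cx SM)
open Crest.Agent.R017.C70
open Crest.Agent.R017.CM106 (CS FS)
open Crest.Agent.R017.XG702 (Pcs BG)
open Crest.Agent.R017.Prov71
open Crest.Agent.R017.B770
open Crest.Agent.R017.ER911 Crest.Agent.R017.ExpC702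
open Crest.Agent.R017.XPD571 (RP0)
open Crest.Agent.R017.HP842 (Pc pc sqc al alL)
open Crest.Agent.R017.E5B71 (Pt)
open Crest.Agent.R017.R3571 (RMm)
open Crest.Agent.R017.Mode405 (Slp)
open Crest.Agent.R017.PX764 (n6)
open Crest.Agent.R017.E3Z548 (FH LVn)
open Crest.Agent.R017.E3Sz579 (Ld Md)
open Crest.Agent.R017.E3Hf290 (RN2F)
open Crest.Agent.R017.E3Kc548 (LI mem_LI)
open Crest.Agent.R017.E3F548 (XE XE_nonneg)
open Crest.Agent.R017.E3M829 (Tal)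
open Crest.Agent.R017.E2440 (TE StE StT)
open Crest.Agent.R017.TM708 (PD)
open Crest.Agent.R017.Leg381 (Pf alF SF LF natl alF_natl)
open Crest.Agent.R017.I1146 (LN ChN cN Dom CellS LipS Adm_list dom_list FS_of)
open Crest.Agent.R017.E1551 (Adm)
open Crest.Agent.R017.TNj90 (JBc jbc_of_cell)
open Crest.Agent.R017.ET490 (lw1)
open Crest.Agent.R017.ETf405 (lw0f LnF tf_sum)
open Crest.Agent.R017.RnP571 (Dh)
open Crest.Agent.R017.RnS405 (rn2_S)
open Crest.Agent.R017.RstQ702 (LR XS hS thS)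
open Crest.Agent.R017.OwA90 (Gt)
open Crest.Agent.R017.XEw405 (XEw)
open Crest.Agent.R017.RstF290 (rst_front)
open Crest.Agent.R017.RstM290 (LI_abs JW_size)
open Crest.Agent.R017.CGt48 (cell_own)
open Crest.Agent.R017.E5L770 (omL wL lv)
open Crest.Agent.R017.P1e54 (M2)
open Crest.Agent.R017.P1k54 (uM)
open Crest.Agent.R017.Hi754 (StD)

/-! ### scaling -/

lemma hS_smul {k v p δ s L : ℝ} (hL : 0 ≤ L) :
    hS (k * L) (v * L) (p * L) (δ * L) (s * L) = hS k v p δ s * L := by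
  unfold hS
  rw [max_mul_of_nonneg _ _ hL, min_mul_of_nonneg _ _ hL, max_mul_of_nonneg _ _ hL, zero_mul]
  have e1 : 2 * (v * L) - 4 * (δ * L) - k * L + s * L = (2 * v - 4 * δ - k + s) * L := by ring
  have e2 : 4 / 3 * (p * L - δ * L) - k * L + s * L = (4 / 3 * (p - δ) - k + s) * L := by ring
  have e3 : p * L - δ * L - k * L + s * L = (p - δ - k + s) * L := by ring
  rw [e1, e2, e3]

lemma XS_smul {N k x L : ℝ} (hL : 0 ≤ L) : XS (N * L) (k * L) (x * L) = XS N k x * L := by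
  unfold XS
  have e1 : 5 / 4 * (N * L) - k * L = (5 / 4 * N - k) * L := by ring
  have e2 : max 0 ((5 / 4 * N - k) * L) = max 0 (5 / 4 * N - k) * L := by
    rw [max_mul_of_nonneg _ _ hL, zero_mul]
  rw [e1, e2]
  ring

lemma LR_smul {N k D x L : ℝ} (hL : 0 ≤ L) :
    LR (N * L) (k * L) (D * L) (x * L) = LR N k D x * L := by
  unfold LR
  have e1 : 5 / 4 * (N * L) - k * L = (5 / 4 * N - k) * L := by ring
  have e2 : max 0 ((5 / 4 * N - k) * L) = max 0 (5 / 4 * N - k) * L := by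
    rw [max_mul_of_nonneg _ _ hL, zero_mul]
  rw [e1, e2]
  ring

/-! ### small facts -/

lemma PD_mono {X τ τ' B B' H : ℝ} {N : ℕ} {b : Fin 5 → ℝ} {q : Eis} {us : Fin 3 → Pq} {κ : ℝ}
    (h : PD X τ B H N b q us [] κ) (hX : 1 ≤ X) (hτ : τ ≤ τ') (hB : B ≤ B') :
    PD X τ' B' H N b q us [] κ := by
  have hL : 0 ≤ Real.log X := Real.log_nonneg hX
  have m : ∀ c : ℝ, (c + τ) * Real.log X ≤ (c + τ') * Real.log X := fun c =>
    mul_le_mul_of_nonneg_right (by linarith) hL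
  have r : X ^ B ≤ X ^ B' := Real.rpow_le_rpow_of_exponent_le hX hB
  exact ⟨h.q0, h.qB.trans r, h.H1, h.lump, h.us0, fun i => (h.usB i).trans r, h.usH,
    h.z1.trans (m _), h.z2.trans (m _), h.z3.trans (m _), fun p hp => by simp at hp, h.len,
    h.x.trans (m _), h.k.trans (mul_le_mul_of_nonneg_right hτ hL)⟩

lemma cell_mono {h : ℝ → ℝ} {P : DPar} {q : Eis} {ps : List Pq} {G r r' M T E F : ℝ}
    {Sh : ℝ → ℝ → ℝ → ℝ} (hc : CellS h P q ps G r' M T E F Sh) (hr : r ≤ r') :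
    CellS h P q ps G r M T E F Sh := by
  intro g hg hgG b l ps' hb hbE hl hch hLN hlT
  refine hc g hg hgG b l ps' hb (by linarith) hl (hch.imp fun p' p hp => ?_) (by linarith)
    (by linarith)
  exact ⟨hp.1, hp.2.1, hp.2.2.1, hp.2.2.2.1, by have := hp.2.2.2.2; linarith⟩

lemma adm_dom {ν D Y X R : ℝ} {be al : Eis → ℂ} (hd : Dom ν D be al) (h : Adm Y X R be) :
    Adm Y X R al := by
  have key : ∀ n, al n ≠ 0 → be n ≠ 0 := fun n hn h0 => by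
    have := hd.le n
    rw [h0, norm_zero] at this
    exact hn (norm_le_zero_iff.1 this)
  exact ⟨fun n hn => h.sup n (key n hn), fun n hn => h.win n (key n hn)⟩

lemma slp_zero (a : ℕ) : Slp a fun _ => (0 : ℝ) where
  nonneg _ _ := le_rfl
  low _ _ _ _ := by simp
  dbl _ _ := by simp

lemma omL_le_one (i : ℕ) (x : Eis × Eis) : ‖omL i x‖ ≤ 1 := by
  unfold E5L770.omL E5L770.wL FE47.hD
  rw [Complex.norm_real, Real.norm_eq_abs, abs_le]
  have h1 := HBI146.cutR_nonneg (Real.exp (lv x - Real.log 2 * i))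
  have h2 := HBI146.cutR_le_one (Real.exp (lv x - Real.log 2 * i))
  have h3 := HBI146.cutR_nonneg (2 * Real.exp (lv x - Real.log 2 * i))
  have h4 := HBI146.cutR_le_one (2 * Real.exp (lv x - Real.log 2 * i))
  constructor <;> linarith

/-- the frame of the lines -/
lemma fr_of {L T τ p w : ℝ} {b : Fin 5 → ℝ} {dd : ℝ} (hL : 0 < L)
    (hDh : Dh (b 0) (b 1) (b 2) (b 3) (b 4) (dd * b 0)) (hb0 : 1 / 2 ≤ b 0) (hT0 : 0 ≤ T)
    (hT1 : T ≤ L / 40000) (hτ : τ * L ≤ T / 8) (p0 : (b 0 / 2 - 2 * b 4 - τ) * L ≤ p)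
    (p1 : p ≤ (b 1 + b 2 + b 3 + 3 * τ) * L)
    (hw : w ≤ (min (2 * (b 1 + b 2 + b 3) - b 0) (3 / 4 * (b 1 + b 2 + b 3)) + 9 / 4 * b 4 + τ) *
      L) {v δ : ℝ} (hv : v ≤ w + T / 8) (δ0 : 0 ≤ δ) (δ1 : 2 * δ ≤ v + T) :
    Fr (b 0 * L) (b 1 * L) (b 2 * L) (b 3 * L) (b 4 * L) (dd * b 0 * L) T p v δ dd := by
  have m1 : (min (2 * (b 1 + b 2 + b 3) - b 0) (3 / 4 * (b 1 + b 2 + b 3)) + 9 / 4 * b 4 + τ) * L ≤
      (2 * (b 1 + b 2 + b 3) - b 0 + 9 / 4 * b 4 + τ) * L :=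
    mul_le_mul_of_nonneg_right (by
      linarith [min_le_left (2 * (b 1 + b 2 + b 3) - b 0) (3 / 4 * (b 1 + b 2 + b 3))]) hL.le
  have m2 : (min (2 * (b 1 + b 2 + b 3) - b 0) (3 / 4 * (b 1 + b 2 + b 3)) + 9 / 4 * b 4 + τ) * L ≤
      (3 / 4 * (b 1 + b 2 + b 3) + 9 / 4 * b 4 + τ) * L :=
    mul_le_mul_of_nonneg_right (by
      linarith [min_le_right (2 * (b 1 + b 2 + b 3) - b 0) (3 / 4 * (b 1 + b 2 + b 3))]) hL.le
  have m3 : 1 / 2 * L ≤ b 0 * L := mul_le_mul_of_nonneg_right hb0 hL.le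
  have hb : 0 < b 0 := by linarith
  refine ⟨Dh_smul hDh hL, hT0, by linarith, by linarith, by linarith, by linarith, by linarith, δ0,
    δ1, ?_⟩
  field_simp

section

variable {Λ : Type*} {π : Λ → DPar} {h : ℝ → ℝ}

set_option maxHeartbeats 8000000 in
/-- **the core of REST, class N** -/
theorem rst_core {c₀ Rh : ℝ} (hpu : PU h c₀) (hP : ∀ lam, (π lam).OK) (hRh0 : 0 ≤ Rh)
    (hRh : ∀ u, cx h u ≠ 0 → |u| ≤ Rh) {s : EF} {dd : ℝ}
    (R : ExpRules (7 / 8 + dd) (ex Dq (fun lam => Rp (π lam) h)) s)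
    (hcolP : ∀ (i : ℝ) (u : List ℝ) (m a : ℝ), 0 ≤ i → Okl u m a →
      BG Dq (RP0 π h) i u (wt m a) (2 * a + 2 * (7 / 8 + dd) * m)) (hd : 0 ≤ dd)
    (hd8 : dd ≤ 1 / 8)
    (hown : ∀ v z₁ z₂ z₃ : ℝ, 0 ≤ v → 0 ≤ z₁ → 0 ≤ z₂ → 0 ≤ z₃ →
      ex Dq (fun lam => S0p (π lam) h) v {z₁, z₂, z₃} 0 0 ≤
        Gt dd v (z₁ + z₂ + z₃) (max z₁ (max z₂ z₃)))
    {ε : ℝ} (hε : 0 < ε) (hε1 : ε ≤ 1 / 160000) :
    ∃ τ : ℝ, 0 < τ ∧ τ ≤ ε ∧ ∀ (lam : Λ) (t : Eis), t ∈ SM (π lam).n → ∀ Rw : ℝ, 0 ≤ Rw →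
      ∀ B : ℝ, ∃ (M : ℕ) (X₀ : ℝ), 1 < X₀ ∧ ∀ X : ℝ, X₀ ≤ X →
      ∀ (b : Fin 5 → ℝ) (us : Fin 3 → Pq) (κ H : ℝ),
      PD X τ B H 0 b 1 us [] κ → Dh (b 0) (b 1) (b 2) (b 3) (b 4) (dd * b 0) → 1 / 2 ≤ b 0 →
      b 0 ≤ 1 → (b 0 / 2 - 2 * b 4 - τ) * Real.log X ≤ LN [us 0, us 1, us 2] →
      ∀ (i n : ℕ), i < n → (2 : ℝ) ^ n ≤ X ^ B →
      Real.log 2 * i ≤ (min (2 * (b 1 + b 2 + b 3) - b 0) (3 / 4 * (b 1 + b 2 + b 3)) +
        9 / 4 * b 4 + τ) * Real.log X →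
      ∀ E1 E0 : ℝ, 0 ≤ E1 → E1 ≤ E0 → 1 ≤ E0 → Real.log E0 ≤ (b 0 / 64 + τ) * Real.log X →
      (∀ x : ℝ, 0 ≤ x → Real.log E1 ≤ x →
        (min (2 * (b 1 + b 2 + b 3) - b 0) (3 / 4 * (b 1 + b 2 + b 3)) + 9 / 4 * b 4) *
          Real.log X - Real.log 2 * i ≤ 4 * x + τ * Real.log X ∨
        (min (2 * (b 1 + b 2 + b 3) - b 0) (3 / 4 * (b 1 + b 2 + b 3)) + 9 / 4 * b 4) *
          Real.log X - Real.log 2 * i ≤
          2 * ((b 1 + b 2 + b 3) * Real.log X - LN [us 0, us 1, us 2]) + τ * Real.log X) →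
      M2 (uM Rw (Real.exp κ) (Real.exp (κ / 20)))
        (StD E1 E0 (JW (Real.sqrt (2 ^ n)) (1 / 10) (2 ^ n)) (omL i)
          (sqc 1 (alL h ([us 0, us 1, us 2].map (Pt (π lam) t))))) ≤
        H ^ M * X ^ (b 0 + LN [us 0, us 1, us 2] / Real.log X +
          LR (b 1 + b 2 + b 3) (b 0) (dd * b 0) (b 4) + ε) := by
  obtain ⟨ε₁, hε₁⟩ : ∃ e, e = ε / 160 := ⟨_, rfl⟩
  have hε₁0 : 0 < ε₁ := by rw [hε₁]; positivity
  obtain ⟨τ₁, hτ₁0, hτ₁ε, HR0⟩ := rn2_S hpu hP R hcolP hd hd8 (ε := ε / 4) (by positivity)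
    (by linarith)
  obtain ⟨τ, hτ⟩ : ∃ τ, τ = min τ₁ (ε₁ / 8) := ⟨_, rfl⟩
  have hτ0 : 0 < τ := by rw [hτ]; exact lt_min hτ₁0 (by positivity)
  have hττ : τ ≤ τ₁ := by rw [hτ]; exact min_le_left _ _
  have hτε : τ ≤ ε₁ / 8 := by rw [hτ]; exact min_le_right _ _
  refine ⟨τ, hτ0, by linarith, ?_⟩
  intro lam t ht Rw hRw B
  have ht0 : t ≠ 0 := ht.1
  obtain ⟨c₁, hc₁⟩ : ∃ c, c = max B 2 := ⟨_, rfl⟩
  have hc₁2 : 2 ≤ c₁ := by rw [hc₁]; exact le_max_right _ _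
  have hc₁B : B ≤ c₁ := by rw [hc₁]; exact le_max_left _ _
  have hc₁0 : 0 < c₁ := by linarith only [hc₁2]
  obtain ⟨ν, hν⟩ : ∃ ν : ℝ, ν = (nm t : ℝ) ^ 2 := ⟨_, rfl⟩
  have hν1 : 1 ≤ ν := by
    rw [hν]
    exact one_le_pow₀ (by exact_mod_cast nm_pos.2 ht0)
  obtain ⟨Dd, hDd⟩ : ∃ D : ℝ, D = ((I1146.ds t).card : ℝ) := ⟨_, rfl⟩
  have hDd0 : 0 ≤ Dd := by rw [hDd]; positivity
  have hε16 : 0 < ε / 16 := by positivity
  obtain ⟨M₁, a, A₀, ha, HR⟩ := HR0 lam t ht0 (300 * c₁ + 1)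
  obtain ⟨c, C₂, c2, hc, hC₂, hc2, HF⟩ := rst_front Rw (R0 := (3 : ℕ) * Rh) (by positivity) a
    (A₀ + 2) (by omega) (ε := ε / 16 / c₁) (by positivity) (by
      rw [div_le_one hc₁0]; linarith only [hε1, hc₁2])
  obtain ⟨X₁, hX₁, HR⟩ := HR c hc
  obtain ⟨M₂, HC⟩ := cell_own hpu hP hd hown hε16 (B₂ := 2) (by norm_num) lam B
  obtain ⟨C₃, hC₃, HT⟩ := tf_sum (R0 := 2 * ((3 : ℕ) * Rh)) (by positivity) hε16
    (J := ((3 : ℕ) : ℝ) * M₂) (by positivity) (B₂ := 2) (by norm_num) (Lh := 4) (by norm_num) c hc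
  obtain ⟨C₄, r₄, hC₄, hr₄, HJ⟩ := jbc_of_cell hpu 3 hε16 (M := (M₂ : ℝ)) (by positivity)
    (B₂ := 2) (by norm_num) hν1 hDd0 (L := 8) (by norm_num)
  obtain ⟨C₅, r₅, hC₅, hr₅, HX⟩ := XEw hpu 3 (R := 2 * ((3 : ℕ) * Rh)) (by positivity) hε16
    (M := (M₂ : ℝ)) (by positivity) (B₂ := 2) (by norm_num) hν1 hDd0 (L := 8) (by norm_num)
  obtain ⟨X₂, hX₂, HC⟩ := HC (max r₄ r₅) (hr₄.trans (le_max_left _ _))
  obtain ⟨Ct, hCt⟩ : ∃ C : ℝ, C = C₂ * (3 * C₅ + C₃ * C₄ + C₃) := ⟨_, rfl⟩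
  have hCt0 : 0 ≤ Ct := by rw [hCt]; positivity
  obtain ⟨lc, hlc⟩ : ∃ l, l = Real.log c := ⟨_, rfl⟩
  obtain ⟨lc2, hlc2⟩ : ∃ l, l = Real.log c2 := ⟨_, rfl⟩
  obtain ⟨lν, hlν⟩ : ∃ l, l = Real.log ν := ⟨_, rfl⟩
  obtain ⟨lC, hlC⟩ : ∃ l, l = Real.log (1 + Ct) := ⟨_, rfl⟩
  have hlc0 : 0 ≤ lc := by rw [hlc]; exact Real.log_nonneg hc
  have hlc20 : 0 ≤ lc2 := by rw [hlc2]; exact Real.log_nonneg hc2
  have hlν0 : 0 ≤ lν := by rw [hlν]; exact Real.log_nonneg hν1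
  have hlC0 : 0 ≤ lC := by rw [hlC]; exact Real.log_nonneg (by linarith only [hCt0])
  have ec : c = Real.exp lc := by rw [hlc, Real.exp_log (by linarith only [hc])]
  have ec2 : c2 = Real.exp lc2 := by rw [hlc2, Real.exp_log (by linarith only [hc2])]
  have eν : ν = Real.exp lν := by rw [hlν, Real.exp_log (by linarith only [hν1])]
  have eC : 1 + Ct = Real.exp lC := by rw [hlC, Real.exp_log (by linarith only [hCt0])]
  obtain ⟨Cst, hCst⟩ : ∃ C : ℝ, C = 100 + lc + lc2 + lν + lC + 3 * Rh := ⟨_, rfl⟩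
  refine ⟨M₁ + M₂, max (max X₁ X₂) (max 3 (Real.exp (Cst * 8 / ε₁))),
    lt_max_of_lt_right (lt_max_of_lt_left (by norm_num)), ?_⟩
  intro X hX b us κ H hPD hDh hb0 hb01 hp0 i n hin h2n hi E1 E0 hE10 hE1E0 hE01 hE0l hcond
  have hXX₁ : X₁ ≤ X := ((le_max_left _ _).trans (le_max_left _ _)).trans hX
  have hXX₂ : X₂ ≤ X := ((le_max_right _ _).trans (le_max_left _ _)).trans hX
  have hX3 : 3 ≤ X := ((le_max_left _ _).trans (le_max_right _ _)).trans hX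
  have hXe : Real.exp (Cst * 8 / ε₁) ≤ X :=
    ((le_max_right _ _).trans (le_max_right _ _)).trans hX
  have hX1 : 1 < X := by linarith only [hX3]
  have hX0 : 0 < X := by linarith only [hX3]
  obtain ⟨L, hLd⟩ : ∃ L, L = Real.log X := ⟨_, rfl⟩
  have eX : X = Real.exp L := by rw [hLd, Real.exp_log hX0]
  rw [← hLd] at hp0 hi hE0l hcond ⊢
  have hL : 0 < L := by rw [hLd]; exact Real.log_pos hX1
  obtain ⟨T, hT⟩ : ∃ T, T = ε₁ * L := ⟨_, rfl⟩
  have hT0 : 0 ≤ T := by rw [hT]; positivity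
  have hCT : Cst ≤ T / 8 := by
    have h1 : Cst * 8 / ε₁ ≤ L := by
      rw [hLd]
      have := Real.log_le_log (Real.exp_pos _) hXe
      rwa [Real.log_exp] at this
    rw [div_le_iff₀ hε₁0] at h1
    rw [hT]
    linarith only [h1]
  have hCT' : 100 + lc + lc2 + lν + lC + 3 * Rh ≤ T / 8 := by rw [← hCst]; exact hCT
  have hT1 : T ≤ L / 40000 := by
    rw [hT, hε₁]
    have h1 := mul_le_mul_of_nonneg_right hε1 hL.le
    linarith only [h1, hL]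
  have hτL : τ * L ≤ T / 8 := by
    have := mul_le_mul_of_nonneg_right hτε hL.le
    rw [hT]; linarith only [this]
  have hτL0 : 0 ≤ τ * L := by positivity
  -- the data
  obtain ⟨p, hp⟩ : ∃ p, p = LN [us 0, us 1, us 2] := ⟨_, rfl⟩
  have hpz : p = (us 0).z + (us 1).z + (us 2).z := by
    rw [hp]
    unfold I1146.LN
    simp only [List.map_cons, List.sum_cons, List.map_nil, List.sum_nil]
    ring
  rw [← hp] at hp0 hcond ⊢
  have z1 := hPD.z1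
  have z2 := hPD.z2
  have z3 := hPD.z3
  rw [← hLd] at z1 z2 z3
  have u0 := hPD.us0 0
  have u1 := hPD.us0 1
  have u2 := hPD.us0 2
  have hp00 : 0 ≤ p := by rw [hpz]; positivity
  have hp1 : p ≤ (b 1 + b 2 + b 3 + 3 * τ) * L := by rw [hpz]; linarith only [z1, z2, z3]
  have hk := hPD.k
  rw [← hLd] at hk
  obtain ⟨k1, k2⟩ := abs_le.1 hk
  have hDh' := hDh
  obtain ⟨q0, qu4, qy43, qu0, qy3, qN1, qnear, qx0, qadm, qd0, qd1⟩ := hDh'
  have bL : 0 ≤ b 0 * L := by positivity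
  have bL1 : b 0 * L ≤ L := mul_le_of_le_one_left hL.le hb01
  have bL2 : 1 / 2 * L ≤ b 0 * L := mul_le_mul_of_nonneg_right hb0 hL.le
  have hb1L : b 2 * L ≤ b 1 * L := mul_le_mul_of_nonneg_right qy43 hL.le
  have hb2L : b 3 * L ≤ b 2 * L := mul_le_mul_of_nonneg_right qu4 hL.le
  have hb3L : 0 ≤ b 3 * L := mul_nonneg (by linarith only [qu0, hb0]) hL.le
  have hNL : (b 1 + b 2 + b 3) * L ≤ 102 / 125 * (b 0 * L) := by
    have := mul_le_mul_of_nonneg_right qN1 hL.le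
    linarith only [this]
  have hpL : p ≤ 17 / 20 * L := by linarith only [hp1, hNL, bL1, hτL, hT1, hL]
  obtain ⟨lw, hlw⟩ : ∃ l : ℝ, l = Real.log 2 * i := ⟨_, rfl⟩
  rw [← hlw] at hi hcond
  have hlog2 : Real.log 2 < 0.6931471808 := Real.log_two_lt_d9
  have hlog20 : 0 < Real.log 2 := Real.log_pos (by norm_num)
  have hlw0 : 0 ≤ lw := by rw [hlw]; positivity
  have e2i : (2 : ℝ) ^ i = Real.exp lw := by
    rw [hlw, mul_comm, Real.exp_nat_mul, Real.exp_log (by norm_num)]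
  have hFr : ∀ v δ : ℝ, v ≤ lw + T / 8 → 0 ≤ δ → 2 * δ ≤ v + T →
      Fr (b 0 * L) (b 1 * L) (b 2 * L) (b 3 * L) (b 4 * L) (dd * b 0 * L) T p v δ dd :=
    fun v δ h1 h2 h3 => fr_of hL hDh hb0 hT0 hT1 hτL hp0 hp1 hi h1 h2 h3
  have hlw7 : lw ≤ 7 / 10 * (b 0 * L) :=
    (hFr lw 0 (by linarith only [hT0]) le_rfl (by linarith only [hlw0, hT0])).v_le.1
  -- the window
  obtain ⟨Y₀, hY₀⟩ : ∃ Y : ℝ, Y = 2 ^ i / 4 := ⟨_, rfl⟩
  obtain ⟨Y₁, hY₁⟩ : ∃ Y : ℝ, Y = 2 * 2 ^ i := ⟨_, rfl⟩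
  obtain ⟨D, hD⟩ : ∃ D : ℝ, D = Real.sqrt Y₁ := ⟨_, rfl⟩
  have eY₁ : Y₁ = Real.exp (lw + Real.log 2) := by
    rw [hY₁, e2i, Real.exp_add, Real.exp_log (by norm_num)]; ring
  have eY₀ : Y₀ = Real.exp (lw - 2 * Real.log 2) := by
    rw [hY₀, e2i, Real.exp_sub, two_mul, Real.exp_add, Real.exp_log (by norm_num)]; norm_num
  have hY₁0 : 0 < Y₁ := by rw [eY₁]; exact Real.exp_pos _
  have hY₀0 : 0 < Y₀ := by rw [eY₀]; exact Real.exp_pos _
  have lY₁ : Real.log Y₁ = lw + Real.log 2 := by rw [eY₁, Real.log_exp]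
  have lY₀ : Real.log Y₀ = lw - 2 * Real.log 2 := by rw [eY₀, Real.log_exp]
  have hYX : Y₁ ≤ X := by rw [eY₁, eX]; exact Real.exp_le_exp.2 (by linarith only [hlw7, bL1, hlog2, hCT', hlc0, hlc20, hlν0, hlC0, hRh0, hT1, hL])
  have hX2 : X ^ (2 : ℝ) = Real.exp (2 * L) := by
    rw [eX, ← Real.exp_mul]; congr 1; ring
  have hexpX : ∀ x : ℝ, X ^ x = Real.exp (L * x) := fun x => by
    rw [eX, ← Real.exp_mul]
  -- the sequence
  obtain ⟨al, hal⟩ : ∃ al : Eis → ℂ,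
    al = sqc 1 (alL h ([us 0, us 1, us 2].map (Pt (π lam) t))) := ⟨_, rfl⟩
  rw [← hal]
  obtain ⟨Y, hY⟩ : ∃ Y : ℝ, Y = Real.exp (p + (3 : ℕ) * Rh) := ⟨_, rfl⟩
  have hY1 : 1 ≤ Y := by rw [hY]; exact Real.one_le_exp (by positivity)
  have hYu : Y ≤ X ^ (2 : ℝ) := by
    rw [hY, hX2]
    refine Real.exp_le_exp.2 ?_
    push_cast
    linarith only [hpL, hCT', hlc0, hlc20, hlν0, hlC0, hRh0, hT1, hL]
  have hlen : ([us 0, us 1, us 2] : List Pq).length ≤ 3 := le_rfl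
  have hdom : Dom ν Dd (sqc 1 (alF 1 1 (π lam) h (natl [us 0, us 1, us 2]))) al := by
    rw [hν, hDd, hal]
    exact dom_list (hP lam) h ht 1 [us 0, us 1, us 2]
  have hadm : Adm Y (Real.exp p) (2 * ((3 : ℕ) * Rh)) al := by
    refine adm_dom hdom ?_
    rw [hp]
    exact Adm_list hRh0 hRh (π lam) 1 hlen (by rw [hY, hp])
  have hY0 : 0 ≤ Y := by linarith only [hY1]
  have hzl : ∀ i : Fin 3, (us i).z ≤ (b 1 + τ) * L := by
    intro j
    fin_cases j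
    · show (us 0).z ≤ _; linarith only [z1]
    · show (us 1).z ≤ _; linarith only [z2, hb1L]
    · show (us 2).z ≤ _; linarith only [z3, hb1L, hb2L]
  have hzL : (b 1 + τ) * L ≤ L := by
    have h1 := mul_le_mul_of_nonneg_right qy3 hL.le
    have h2 := mul_nonneg qx0 hL.le
    linarith only [h1, h2, bL1, hτL, hT1, hL]
  have hz : ∀ q ∈ [us 0, us 1, us 2], 0 ≤ q.z ∧ q.z ≤ Real.log X := by
    intro q hq
    simp only [List.mem_cons, List.not_mem_nil, or_false] at hq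
    rw [← hLd]
    rcases hq with rfl | rfl | rfl
    · exact ⟨u0, (hzl 0).trans hzL⟩
    · exact ⟨u1, (hzl 1).trans hzL⟩
    · exact ⟨u2, (hzl 2).trans hzL⟩
  obtain ⟨z, hzd⟩ : ∃ z, z = (b 1 + τ) * L := ⟨_, rfl⟩
  obtain ⟨F₀, hF₀⟩ : ∃ F : ℝ, F = H ^ M₂ * X ^ (ε / 16) := ⟨_, rfl⟩
  have hH1 := hPD.H1
  have hH0 : 0 < H := by linarith only [hH1]
  have hF00 : 0 ≤ F₀ := by rw [hF₀]; positivity
  have hcell : CellS h (π lam) 1 [us 0, us 1, us 2] (X ^ (2 : ℝ)) (max r₄ r₅) M₂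
      (2 * Real.log X) (2 * Real.log X) F₀ (Sh dd p z) := by
    rw [hF₀, hp]
    exact HC X hXX₂ H hH1 us (fun j => ⟨hPD.lump j, hPD.us0 j, by
      rw [← hLd]; exact (hzl j).trans hzL, hPD.usB j, hPD.usH j⟩) z (by rw [hzd]; exact hzl)
  have hLip : LipS 8 (Sh dd p z) := fun γ x v x' v' => Sh_lip hd hd8 γ x v x' v'
  have hWX : Real.exp 2 * c * Y₁ * ν ≤ X := by
    rw [ec, eY₁, eν, eX, ← Real.exp_add, ← Real.exp_add, ← Real.exp_add]
    exact Real.exp_le_exp.2 (by linarith only [hlw7, bL1, hlog2, hCT', hlc0, hlc20, hlν0, hlC0, hRh0, hT1, hL])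
  have hWT : Real.log (Real.exp 2 * c * Y₁ * ν) ≤ 2 * Real.log X := by
    have := Real.log_le_log (by positivity) hWX
    have h2 : 0 ≤ Real.log X := by rw [← hLd]; exact hL.le
    linarith only [this, h2]
  have hjb : JBc Y (Real.exp 2 * c * Y₁) (C₄ * X ^ (ε / 16) * F₀) (((3 : ℕ) : ℝ) * M₂)
      (Sh dd p z) al :=
    HJ X hX3 (π lam) (hP lam) 1 [us 0, us 1, us 2] hlen hz Y (Real.exp 2 * c * Y₁)
      (2 * Real.log X) F₀ (Sh dd p z) hY1 hYu hWX hWT hF00 hLip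
      (cell_mono hcell (le_max_left _ _)) al hdom
  -- the exponent of `H`
  obtain ⟨hf, hhf⟩ : ∃ f : ℕ → ℝ → ℝ, f = fun (j : ℕ) (δ : ℝ) => hS (b 0 * L) (j : ℝ) p δ
    (XS (b 1 * L + b 2 * L + b 3 * L) (b 0 * L) (b 4 * L)) := ⟨_, rfl⟩
  have hfj : ∀ (j : ℕ) (δ : ℝ), hf j δ = hS (b 0 * L) (j : ℝ) p δ
    (XS (b 1 * L + b 2 * L + b 3 * L) (b 0 * L) (b 4 * L)) := fun j δ => by rw [hhf]
  have hjlw : ∀ j ∈ LI Y₀ Y₁, lw - 4 ≤ j ∧ (j : ℝ) ≤ lw + 4 := fun j hj => by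
    have h1 := abs_le.1 (LI_abs hY₀ hY₁ hj)
    rw [← hlw] at h1
    constructor <;> linarith only [h1.1, h1.2]
  have hkx : ∀ j ∈ LI Y₀ Y₁, ∀ δ : ℝ, 0 ≤ δ →
      hf j δ + 2 * j + b 0 * L / 100 ≤ b 0 * L + p ∧ hf j δ ≤ b 0 * L := fun j hj δ hδ => by
    have f0 := hFr j 0 (by linarith only [(hjlw j hj).2, hCT', hlc0, hlc20, hlν0, hlC0, hRh0]) le_rfl (by
      have : (0 : ℝ) ≤ j := Nat.cast_nonneg j
      linarith only [this, hT0])
    rw [hfj]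
    exact kx_le f0.hD hT0 f0.t1 f0.p0 f0.p1 f0.v1 f0.v2 hδ
  obtain ⟨Q, hQ⟩ : ∃ Q : Eis → Prop, Q = fun f => E1 < (nm f : ℝ) := ⟨_, rfl⟩
  obtain ⟨T0, hT0d⟩ : ∃ T0, T0 = b 0 + p / L + LR (b 1 + b 2 + b 3) (b 0) (dd * b 0) (b 4) :=
    ⟨_, rfl⟩
  rw [← hT0d]
  obtain ⟨MR, hMR⟩ : ∃ MR : ℝ, MR = H ^ M₁ * X ^ (T0 + ε / 4) := ⟨_, rfl⟩
  have hMR0 : 0 ≤ MR := by rw [hMR]; positivity
  have hE00 : 0 < E0 := by linarith only [hE01]
  have lE0 : E0 = Real.exp (Real.log E0) := (Real.exp_log hE00).symm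
  have hE0L : Real.log E0 ≤ L := by linarith only [hE0l, bL1, bL, hτL, hT1, hL]
  have hE0X : E0 ≤ X := by rw [lE0, eX]; exact Real.exp_le_exp.2 hE0L
  -- the `R`-side at every level
  have hW0 : ∀ j : ℕ, ∃ W0 : Eis → Eis → ℝ → ℝ, (∀ d e, Slp a (W0 d e)) ∧
      (j ∈ LI Y₀ Y₁ → (∀ d ∈ (JW D Y₀ Y₁).image Prod.fst, ∀ f ∈ (S E0).filter Q, ∀ γ φ,
        IsPrim γ → IsPrim φ → (nm φ : ℝ) ≤ X ^ (300 * c₁ + 1) → ∀ P : ℝ, 0 < P →
        (nm γ : ℝ) * n6 γ ^ 2 * ∑ k ∈ bl P, RMm ((A₀ + 2 : ℕ) : ℝ) (fun m => al (d * m)) f γ φ k ≤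
          W0 d f P) ∧
        ∀ d ∈ (JW D Y₀ Y₁).image Prod.fst, ∀ f ∈ (S E0).filter Q,
          FH (Real.exp κ) (Real.exp (hf j (Real.log (nm d)))) (Real.exp j) *
            RN2F c (Real.exp κ) (Real.exp j) (Real.exp p)
              (fun d _ => Real.exp (hf j (Real.log (nm d)))) W0 d f ≤
            MR / (nm d * nm f)) := by
    intro j
    by_cases hj : j ∈ LI Y₀ Y₁
    swap
    · exact ⟨fun _ _ _ => 0, fun _ _ => slp_zero a, fun h => absurd h hj⟩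
    obtain ⟨j1, j2⟩ := hjlw j hj
    have hXB : X ≤ X ^ (300 * c₁ + 1) := by
      calc X = X ^ (1 : ℝ) := (Real.rpow_one X).symm
        _ ≤ _ := Real.rpow_le_rpow_of_exponent_le hX1.le (by linarith only [hc₁0])
    obtain ⟨W0, w1, w2, w3⟩ := HR X hXX₁ b 1 us κ H (PD_mono hPD hX1.le hττ (by linarith only [hc₁B, hc₁0])) hDh hb0
      (by linarith only [hb01]) (by
        rw [← hLd, ← hp]
        refine le_trans ?_ hp0
        exact mul_le_mul_of_nonneg_right (by linarith only [hτε, hε₁, hε]) hL.le) (Real.exp κ) (Real.exp j)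
      (fun d _ => Real.exp (hf j (Real.log (nm d)))) (Real.exp_pos _) (Real.exp_pos _)
      (fun _ _ => Real.exp_pos _) (by
        rw [Real.log_exp, ← hLd]
        refine hk.trans (mul_le_mul_of_nonneg_right (by linarith only [hτε, hε₁, hε]) hL.le)) (by
        rw [Real.log_exp, ← hLd]
        have h1 : (min (2 * (b 1 + b 2 + b 3) - b 0) (3 / 4 * (b 1 + b 2 + b 3)) + 9 / 4 * b 4 +
            ε / 4) * L = (min (2 * (b 1 + b 2 + b 3) - b 0) (3 / 4 * (b 1 + b 2 + b 3)) +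
            9 / 4 * b 4 + τ) * L + (ε / 4 * L - τ * L) := by ring
        have h2 : ε / 4 * L = 40 * T := by rw [hT, hε₁]; ring
        rw [h1, h2]
        linarith only [hi, j2, hτL, hτL0, hCT', hlc0, hlc20, hlν0, hlC0, hRh0, hT0])
      (fun d e => IsPrim d ∧ IsPrim e ∧ (nm d : ℝ) ≤ X ^ (300 * c₁ + 1) ∧ (nm e : ℝ) ≤ E0)
      (fun d e hde => ⟨hde.1, hde.2.1, hde.2.2.1, (hde.2.2.2.trans hE0X).trans hXB⟩)
      (fun d e hde => by
        have h1 : (0 : ℝ) < nm e := by exact_mod_cast nm_pos.2 hde.2.1.ne_zero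
        have h2 := Real.log_le_log h1 hde.2.2.2
        rw [← hLd]
        refine (h2.trans hE0l).trans (mul_le_mul_of_nonneg_right (by linarith only [hτε, hε₁, hε]) hL.le))
      (fun d e hde => by
        have hδ : 0 ≤ Real.log (nm d) := Real.log_natCast_nonneg _
        have h1 := (hkx j hj _ hδ).2
        rw [← hp, ← Real.exp_add, ← Real.exp_add, ← Real.exp_sub, hexpX]
        exact Real.exp_le_exp.2 (by linarith only [h1, hpL, j2, hlw7, bL1, bL, k1, hτL, hT1, hL, hCT', hlc0, hlc20, hlν0, hlC0, hRh0]))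
      (fun d e hde _ => by
        rw [Real.log_exp, Real.log_exp, ← hLd, ← hp, hfj]
        have e1 := hS_smul (k := b 0) (v := (j : ℝ) / L) (p := p / L)
          (δ := Real.log (nm d) / L) (s := XS (b 1 + b 2 + b 3) (b 0) (b 4)) hL.le
        rw [div_mul_cancel₀ _ hL.ne', div_mul_cancel₀ _ hL.ne', div_mul_cancel₀ _ hL.ne',
          ← XS_smul hL.le] at e1
        have e2 : b 1 * L + b 2 * L + b 3 * L = (b 1 + b 2 + b 3) * L := by ring
        rw [e2, e1, add_mul]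
        have : 0 ≤ ε / 4 * L := by positivity
        linarith only [this])
    refine ⟨W0, w1, fun _ => ⟨?_, ?_⟩⟩
    · intro d hd' f hf' γ φ hγ hφ hφX P hP0
      obtain ⟨d1, d2, d3, d4⟩ := ET490.JW_fst hd'
      have hdX : (nm d : ℝ) ≤ X := by nlinarith only [d3, d4, hYX]
      have hfS := (mem_S hE00.le).1 (mem_filter.1 hf').1
      have := w2 (A₀ + 2) (by omega) d f ⟨d1, hfS.2.1, hdX.trans hXB, hfS.1⟩ γ φ hγ hφ hφX P hP0
      rw [hal]
      exact this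
    · intro d hd' f hf'
      obtain ⟨d1, d2, d3, d4⟩ := ET490.JW_fst hd'
      have hdX : (nm d : ℝ) ≤ X := by nlinarith only [d3, d4, hYX]
      have hfS := (mem_S hE00.le).1 (mem_filter.1 hf').1
      have := w3 d f ⟨d1, hfS.2.1, hdX.trans hXB, hfS.1⟩
      rw [← hp, ← hLd, ← hT0d, ← hMR] at this
      exact this
  choose W0 hW1 hW2 using hW0
  -- the front
  obtain ⟨Z, hZ⟩ : ∃ Z : ℝ, Z = X ^ c₁ := ⟨_, rfl⟩
  have hZ1 : 1 ≤ Z := by rw [hZ]; exact Real.one_le_rpow hX1.le hc₁0.le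
  have eZ : Z = Real.exp (L * c₁) := by rw [hZ, hexpX]
  have hLc : 2 * L ≤ L * c₁ := by
    have := mul_le_mul_of_nonneg_left hc₁2 hL.le
    linarith only [this]
  have hXZ : X ^ (2 : ℝ) ≤ Z := by rw [hX2, eZ]; exact Real.exp_le_exp.2 hLc
  have hXZ1 : X ≤ Z := by
    rw [eX, eZ]; exact Real.exp_le_exp.2 (by linarith only [hLc, hL])
  have hZ5 : ∀ x : ℝ, x ≤ L * c₁ → Real.exp x ≤ Z ^ 5 := fun x hx => by
    calc Real.exp x ≤ Z := by rw [eZ]; exact Real.exp_le_exp.2 hx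
      _ ≤ Z ^ 5 := le_self_pow₀ hZ1 (by norm_num)
  have front := HF Z hZ1 i n hin (h2n.trans (by
      rw [hZ]; exact Real.rpow_le_rpow_of_exponent_le hX1.le hc₁B)) D Y₀ Y₁ hY₀ hY₁ hD al E1 E0
    (Real.exp (κ / 20)) (Real.exp κ) (Real.exp p)
    (fun j d _ => Real.exp (hf j (Real.log (nm d)))) W0
    (FS_of hY0 hadm.sup) (fun n hn => ((mem_S hY0).1 (hadm.sup n hn)).2.2)
    (fun n hn => by
      have := hadm.win n hn
      exact this.trans (le_of_eq (by ring)))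
    (Real.one_le_exp (by linarith only [k1, bL2, hτL, hT1, hL])) (by
      rw [ec2, ← Real.exp_add, eZ]
      exact Real.exp_le_exp.2 (by linarith only [k2, bL1, hτL, hT1, hL, hLc, hCT', hlc0, hlc20, hlν0, hlC0, hRh0]))
    (Real.one_le_exp (by linarith only [k1, bL2, hτL, hT1, hL])) (by
      rw [eZ]
      exact Real.exp_le_exp.2 (by linarith only [k1, k2, bL1, bL2, hτL, hT1, hL, hLc])) hE10 hE1E0 (hE0X.trans hXZ1)
    (Real.exp_pos _) (hZ5 p (by linarith only [hpL, hLc, hL])) (fun _ _ _ => Real.exp_pos _)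
    (fun j hj d hd' f hf' => by
      have hδ : 0 ≤ Real.log (nm d) := Real.log_natCast_nonneg _
      have h1 := (hkx j hj _ hδ).1
      have e1 : Real.exp (j : ℝ) ^ 2 = Real.exp (2 * j) := by
        rw [← Real.exp_nat_mul]; norm_num
      rw [ec, e1, ← Real.exp_add, ← Real.exp_add, ← Real.exp_add]
      exact Real.exp_le_exp.2 (by linarith only [h1, k1, bL2, hτL, hT1, hL, hCT', hlc0, hlc20, hlν0, hlC0, hRh0]))
    (fun j d f => hW1 j d f)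
    (fun j hj d hd' f hf' γ φ hγ hφ hφc P hP0 => by
      rw [hQ] at hW2
      refine (hW2 j hj).1 d hd' f hf' γ φ hγ hφ ?_ P hP0
      refine hφc.trans ?_
      have e1 : Z ^ 300 = Real.exp (300 * (L * c₁)) := by
        rw [eZ, ← Real.exp_nat_mul]; norm_num
      rw [ec, e1, ← Real.exp_add, hexpX]
      refine Real.exp_le_exp.2 ?_
      have : L * (300 * c₁ + 1) = 300 * (L * c₁) + L := by ring
      rw [this]
      linarith only [hCT', hlc0, hlc20, hlν0, hlC0, hRh0, hT1, hL, hT0])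
  refine front.trans ?_
  -- the target
  obtain ⟨G, hG⟩ : ∃ G : ℝ, G = b 0 * L + p + LR (b 1 * L + b 2 * L + b 3 * L) (b 0 * L)
    (dd * b 0 * L) (b 4 * L) + 12 * T := ⟨_, rfl⟩
  have hGe : Real.exp G = X ^ (T0 + 12 * ε₁) := by
    rw [hexpX, hG, hT0d, hT]
    congr 1
    have e2 : b 1 * L + b 2 * L + b 3 * L = (b 1 + b 2 + b 3) * L := by ring
    rw [e2, LR_smul hL.le]
    have e3 : L * (p / L) = p := by field_simp
    linear_combination (-1 : ℝ) * e3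
  -- the `T`-part
  have hTpart := HT X hX3 D Y₀ Y₁ Y κ (κ / 20) p E0 (C₄ * X ^ (ε / 16) * F₀) G MR (Z ^ 5) Q al hf
    (fun j d f => RN2F c (Real.exp κ) (Real.exp j) (Real.exp p)
      (fun d _ => Real.exp (hf j (Real.log (nm d)))) (W0 j) d f) (Sh dd p z) hY1 hYu hY₁0.le hYX
    (by
      rw [ec, eY₁, hX2, ← Real.exp_add, ← Real.exp_add]
      exact Real.exp_le_exp.2 (by linarith only [hlw7, bL1, hlog2, hCT', hlc0, hlc20, hlν0, hlC0, hRh0, hT1, hL])) hE00 hE0X (by positivity) hMR0 (by linarith only [k1, bL2, hτL, hT1, hL]) hjb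
    hadm (fun j hj x y => by
      rw [hfj, hfj]
      exact hS_lip _ _ _ _ _ _)
    (fun j hj δ hδ h2δ => by
      obtain ⟨j1, j2⟩ := hjlw j hj
      rw [lY₁] at h2δ
      have fr := hFr j δ (by linarith only [j2, hCT', hlc0, hlc20, hlν0, hlC0, hRh0]) hδ
        (by linarith only [h2δ, j1, hlog2, hCT', hlc0, hlc20, hlν0, hlC0, hRh0, hT0])
      have hth := thS (p := p) (v := (j : ℝ)) (δ := δ) fr.hD hT0 fr.t1 fr.p1 fr.v1 fr.v2 hδ
      rw [← hfj] at hth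
      have hzt : z ≤ b 1 * L + T := by rw [hzd]; linarith only [hτL, hT0]
      refine ⟨fun x l hx hl hle => ?_, fun x l hx hl hle => ?_⟩
      · have l1 := fr.lineT (b := x) (v' := l) (z := z) hx hl (by linarith only [hle, hlc, hCT', hlc0, hlc20, hlν0, hlC0, hRh0, hT0]) hzt
        have l2 := fr.lineS (b := x) (v' := l) (z := z) hx hl (by linarith only [hle, hlc, hCT', hlc0, hlc20, hlν0, hlC0, hRh0, hT0]) hzt
        rw [← hfj] at l1
        have m0 := le_max_left 0 (x - Real.log E0)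
        unfold ETf405.lw0f
        rcases max_choice (2 / 3 * κ - (hf j δ + j) / 3) (2 / 3 * (j : ℝ) + κ / 20) with h0 | h0
        · rw [h0, hG]; linarith only [l1, l2, m0, k1, k2, hτL, hτL0, hT0, hle, hlc, hl, hx, hδ, hCT', hlc0, hlc20, hlν0, hlC0, hRh0]
        · rw [h0, hG]; linarith only [l1, l2, m0, k1, k2, hτL, hτL0, hT0, hle, hlc, hl, hx, hδ, hCT', hlc0, hlc20, hlν0, hlC0, hRh0]
      · have l1 := fr.lineT (b := x) (v' := l) (z := z) hx hl (by linarith only [hle, hlc, hCT', hlc0, hlc20, hlν0, hlC0, hRh0, hT0]) hzt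
        rw [← hfj] at l1
        have m0 := le_max_left 0 (x - Real.log E0)
        have m1 : lw1 κ j (hf j δ) ≤ 2 / 3 * (b 0 * L) - (hf j δ + j) / 3 + T := by
          unfold ET490.lw1
          refine max_le (by linarith only [hth, k1, k2, hτL, hτL0, hT0, bL])
            (max_le (by linarith only [hth, k1, k2, hτL, hτL0, hT0, bL])
              (by linarith only [hth, k1, k2, hτL, hτL0, hT0, bL]))
        rw [hG]
        linarith only [l1, m0, m1, k1, k2, hτL, hτL0, hT0, hle, hlc, hl, hx, hδ, hCT', hlc0, hlc20, hlν0, hlC0, hRh0])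
    (fun j hj d hd' f hf' => (hW2 j hj).2 d hd' f hf')
  rw [hQ] at hTpart
  -- the diagonal
  have hXpart := HX X hX3 (π lam) (hP lam) 1 [us 0, us 1, us 2] hlen hz Y Y₁ (2 * Real.log X) F₀
    (Sh dd p z) hY1 hYu (by
      rw [eY₁, eν, eX, ← Real.exp_add]
      exact Real.exp_le_exp.2 (by linarith only [hlw7, bL1, hlog2, hCT', hlc0, hlc20, hlν0, hlC0, hRh0, hT1, hL])) (by
      rw [eY₁, eν, ← Real.exp_add, Real.log_exp, ← hLd]
      linarith only [hlw7, bL1, hlog2, hCT', hlc0, hlc20, hlν0, hlC0, hRh0, hT1, hL]) hF00 hLip (cell_mono hcell (le_max_right _ _)) al hdom (by rw [← hp]; exact hadm)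
    E1 Y₀ (G - 2 / 3 * κ + p / 3) ((S E0).filter fun f => E1 < (nm f : ℝ)) (JW D Y₀ Y₁) (omL i)
    (okJ_JW D Y₀ Y₁) hE10 hY₀0 (omL_le_one i) (fun x hx _ => by
      have h1 := (RstM290.mem_JW2 (by rw [hD]; exact Real.sqrt_nonneg _) (by
        rw [hD, Real.sq_sqrt hY₁0.le])).1 hx
      exact ⟨h1.2.2.2.1.le, h1.2.2.2.2⟩) (fun e he => by
      obtain ⟨h1, h2⟩ := mem_filter.1 he
      obtain ⟨h3, h4, h5⟩ := (mem_S hE00.le).1 h1
      exact ⟨h4, h5, h2⟩) (fun d hd' x v hx hxE hv hvW => by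
      have hδ : 0 ≤ Real.log (nm d) := Real.log_natCast_nonneg _
      rw [lY₁] at hvW
      rw [lY₀]
      have fr := hFr lw (Real.log (nm d)) (by linarith only [hT0]) hδ
        (by linarith only [hvW, hv, hlog2, hCT', hlc0, hlc20, hlν0, hlC0, hRh0, hT0])
      have hzt : z ≤ b 1 * L + T := by rw [hzd]; linarith only [hτL, hT0]
      have e2 : b 1 * L + b 2 * L + b 3 * L = (b 1 + b 2 + b 3) * L := by ring
      have e3 : min (2 * (b 1 * L + b 2 * L + b 3 * L) - b 0 * L)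
          (3 / 4 * (b 1 * L + b 2 * L + b 3 * L)) =
          min (2 * (b 1 + b 2 + b 3) - b 0) (3 / 4 * (b 1 + b 2 + b 3)) * L := by
        rw [min_mul_of_nonneg _ _ hL.le]
        congr 1 <;> ring
      have l1 := fr.lineM (b := x) (v' := v) (z := z) hx hv (by linarith only [hvW, hv, hlog2, hCT', hlc0, hlc20, hlν0, hlC0, hRh0, hT0]) hzt (by
        rw [e3]
        rcases hcond x hx hxE with h0 | h0
        · left; linarith only [h0, hτL, hT0]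
        · right; rw [e2]; linarith only [h0, hτL, hT0])
      rw [hG]
      linarith only [l1, k1, k2, hτL, hτL0, hT0, hlog2, hlog20, hvW, hv, hx, hδ, hCT', hlc0, hlc20, hlν0, hlC0, hRh0])
  rw [← hp] at hXpart
  -- the coefficients of the diagonal
  have hcf : ∀ f ∈ (S E0).filter (fun f => E1 < (nm f : ℝ)),
      (nm f : ℝ)⁻¹ + (Y₁ / Real.exp κ ^ 2) ^ (1 / 6 : ℝ) * (nm f : ℝ) ^ (1 / 2 : ℝ) +
        Real.exp (κ / 20) ^ 2 * Y₁ / Real.exp κ ≤ 3 := by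
    intro f hf'
    obtain ⟨h3, h4, h5⟩ := (mem_S hE00.le).1 (mem_filter.1 hf').1
    have f1 : (1 : ℝ) ≤ nm f := by exact_mod_cast nm_pos.2 h4.ne_zero
    have f0 : (0 : ℝ) < nm f := by linarith only [f1]
    have lf := Real.log_le_log f0 h3
    have a1 : (nm f : ℝ)⁻¹ ≤ 1 := inv_le_one_of_one_le₀ f1
    have a2 : (Y₁ / Real.exp κ ^ 2) ^ (1 / 6 : ℝ) * (nm f : ℝ) ^ (1 / 2 : ℝ) ≤ 1 := by
      have e1 : Y₁ / Real.exp κ ^ 2 = Real.exp (lw + Real.log 2 - 2 * κ) := by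
        rw [eY₁, Real.exp_sub, ← Real.exp_nat_mul]; norm_num
      have e2 : (nm f : ℝ) = Real.exp (Real.log (nm f)) := (Real.exp_log f0).symm
      rw [e1, e2, ← Real.exp_mul, ← Real.exp_mul, ← Real.exp_add]
      refine Real.exp_le_one_iff.2 ?_
      linarith only [hlw7, bL1, bL2, hlog2, k1, k2, hτL, hτL0, hT1, hL, lf, hE0l, hCT', hlc0, hlc20, hlν0, hlC0, hRh0]
    have a3 : Real.exp (κ / 20) ^ 2 * Y₁ / Real.exp κ ≤ 1 := by
      have e1 : Real.exp (κ / 20) ^ 2 * Y₁ / Real.exp κ =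
          Real.exp (2 * (κ / 20) + (lw + Real.log 2) - κ) := by
        have e0 : Real.exp (κ / 20) ^ 2 = Real.exp (2 * (κ / 20)) := by
          rw [← Real.exp_nat_mul]; norm_num
        rw [e0, eY₁, ← Real.exp_add, ← Real.exp_sub]
      rw [e1]
      refine Real.exp_le_one_iff.2 ?_
      linarith only [hlw7, bL1, bL2, hlog2, k1, k2, hτL, hτL0, hT1, hL, hCT', hlc0, hlc20, hlν0, hlC0, hRh0]
    linarith only [a1, a2, a3]
  have hX1part : Real.exp κ ^ (2 / 3 : ℝ) * ∑ f ∈ (S E0).filter (fun f => E1 < (nm f : ℝ)),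
      (((nm f : ℝ)⁻¹ + (Y₁ / Real.exp κ ^ 2) ^ (1 / 6 : ℝ) * (nm f : ℝ) ^ (1 / 2 : ℝ) +
        Real.exp (κ / 20) ^ 2 * Y₁ / Real.exp κ) * XE (JW D Y₀ Y₁) (omL i) (Tal al) f) ≤
      3 * C₅ * X ^ (ε / 16) * F₀ * Real.exp G := by
    have s1 : ∑ f ∈ (S E0).filter (fun f => E1 < (nm f : ℝ)),
      (((nm f : ℝ)⁻¹ + (Y₁ / Real.exp κ ^ 2) ^ (1 / 6 : ℝ) * (nm f : ℝ) ^ (1 / 2 : ℝ) +
        Real.exp (κ / 20) ^ 2 * Y₁ / Real.exp κ) * XE (JW D Y₀ Y₁) (omL i) (Tal al) f) ≤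
        3 * (C₅ * X ^ (ε / 16) * F₀ * Real.exp (-(p / 3)) *
          Real.exp (G - 2 / 3 * κ + p / 3)) := by
      refine le_trans ?_ (mul_le_mul_of_nonneg_left hXpart (by norm_num : (0 : ℝ) ≤ 3))
      rw [mul_sum]
      exact sum_le_sum fun f hf' => mul_le_mul_of_nonneg_right (hcf f hf') (XE_nonneg _ _ _ _)
    refine (mul_le_mul_of_nonneg_left s1 (by positivity)).trans (le_of_eq ?_)
    have e1 : Real.exp κ ^ (2 / 3 : ℝ) * (Real.exp (-(p / 3)) *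
        Real.exp (G - 2 / 3 * κ + p / 3)) = Real.exp G := by
      rw [← Real.exp_mul, ← Real.exp_add, ← Real.exp_add]
      congr 1; ring
    calc Real.exp κ ^ (2 / 3 : ℝ) * (3 * (C₅ * X ^ (ε / 16) * F₀ * Real.exp (-(p / 3)) *
          Real.exp (G - 2 / 3 * κ + p / 3))) = 3 * C₅ * X ^ (ε / 16) * F₀ *
          (Real.exp κ ^ (2 / 3 : ℝ) * (Real.exp (-(p / 3)) *
          Real.exp (G - 2 / 3 * κ + p / 3))) := by ring
      _ = _ := by rw [e1]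
  -- the constants
  obtain ⟨A, hA⟩ : ∃ A : ℝ, A = X ^ (ε / 16) := ⟨_, rfl⟩
  have hA1 : 1 ≤ A := by rw [hA]; exact Real.one_le_rpow hX1.le (by positivity)
  obtain ⟨BB, hBB⟩ : ∃ B : ℝ, B = X ^ (T0 + ε / 4) := ⟨_, rfl⟩
  have hB0 : 0 < BB := by rw [hBB]; positivity
  have hGB : Real.exp G ≤ BB := by
    rw [hGe, hBB]
    exact Real.rpow_le_rpow_of_exponent_le hX1.le (by rw [hε₁]; linarith only [hε])
  obtain ⟨HM, hHM⟩ : ∃ H' : ℝ, H' = H ^ (M₁ + M₂) := ⟨_, rfl⟩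
  have hHM1 : H ^ M₁ ≤ HM := by rw [hHM]; exact pow_le_pow_right₀ hH1 (by omega)
  have hHM2 : H ^ M₂ ≤ HM := by rw [hHM]; exact pow_le_pow_right₀ hH1 (by omega)
  have hHM0 : 0 < HM := by rw [hHM]; positivity
  have hZA : Z ^ (ε / 16 / c₁) = A := by
    rw [hZ, ← Real.rpow_mul hX0.le, hA]
    congr 1
    field_simp
  have hF₀A : F₀ ≤ HM * A := by
    rw [hF₀, ← hA]
    exact mul_le_mul_of_nonneg_right hHM2 (by linarith only [hA1])
  have hMRB : MR ≤ HM * BB := by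
    rw [hMR, ← hBB]
    exact mul_le_mul_of_nonneg_right hHM1 hB0.le
  rw [← hA] at hTpart hX1part
  have hA0 : 0 ≤ A := by linarith only [hA1]
  have hAA : A ≤ A ^ 3 := le_self_pow₀ hA1 (by norm_num)
  have hAA2 : A ^ 2 ≤ A ^ 3 := pow_le_pow_right₀ hA1 (by norm_num)
  have b1 : 3 * C₅ * A * F₀ * Real.exp G ≤ 3 * C₅ * (A ^ 3 * (HM * BB)) := by
    calc 3 * C₅ * A * F₀ * Real.exp G ≤ 3 * C₅ * A * (HM * A) * BB := by gcongr
      _ = 3 * C₅ * (A ^ 2 * (HM * BB)) := by ring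
      _ ≤ _ := by gcongr
  have b2 : C₃ * A * (C₄ * A * F₀ * Real.exp G + MR) ≤
      (C₃ * C₄ + C₃) * (A ^ 3 * (HM * BB)) := by
    calc C₃ * A * (C₄ * A * F₀ * Real.exp G + MR) ≤
          C₃ * A * (C₄ * A * (HM * A) * BB + HM * BB) := by gcongr
      _ = C₃ * C₄ * (A ^ 3 * (HM * BB)) + C₃ * (A * (HM * BB)) := by ring
      _ ≤ C₃ * C₄ * (A ^ 3 * (HM * BB)) + C₃ * (A ^ 3 * (HM * BB)) := by gcongr
      _ = _ := by ring
  rw [hZA]
  have b3 := add_le_add (hX1part.trans b1) (hTpart.trans b2)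
  refine (mul_le_mul_of_nonneg_left b3 (by positivity)).trans ?_
  have e4 : C₂ * A * (3 * C₅ * (A ^ 3 * (HM * BB)) + (C₃ * C₄ + C₃) * (A ^ 3 * (HM * BB))) =
      Ct * (A ^ 4 * (HM * BB)) := by rw [hCt]; ring
  rw [e4]
  have e5 : Ct ≤ X ^ (ε / 4) := by
    calc Ct ≤ 1 + Ct := by linarith only [hCt0]
      _ = Real.exp lC := eC
      _ ≤ _ := by
        rw [hexpX]
        refine Real.exp_le_exp.2 ?_
        have : L * (ε / 4) = 40 * T := by rw [hT, hε₁]; ring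
        rw [this]
        linarith only [hCT', hlc0, hlc20, hlν0, hlC0, hRh0, hT0]
  have e6 : A ^ 4 = X ^ (ε / 4) := by
    rw [hA, ← Real.rpow_natCast, ← Real.rpow_mul hX0.le]
    congr 1
    push_cast
    ring
  calc Ct * (A ^ 4 * (HM * BB)) ≤ X ^ (ε / 4) * (X ^ (ε / 4) * (HM * X ^ (T0 + ε / 4))) := by
        rw [e6, hBB]
        gcongr
    _ = HM * X ^ (T0 + ε / 4 + ε / 4 + ε / 4) := by
        have e7 : X ^ (T0 + ε / 4 + ε / 4 + ε / 4) =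
            X ^ (ε / 4) * (X ^ (ε / 4) * X ^ (T0 + ε / 4)) := by
          rw [← Real.rpow_add hX0, ← Real.rpow_add hX0]
          congr 1
          ring
        rw [e7]
        ring
    _ ≤ HM * X ^ (T0 + ε) := by
        refine mul_le_mul_of_nonneg_left ?_ hHM0.le
        exact Real.rpow_le_rpow_of_exponent_le hX1.le (by linarith only [hε])
    _ = _ := by rw [hHM]

end

end Crest.Agent.R017.RST405
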