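import Crest.Agent.R017.P10d_146
import Crest.Agent.R017.P1t_54
import Crest.Agent.R017.FNEb_708

/-!
# Row 17, R8 / P1: the frame of the children (helper146)

* **`s8_frame`** : the premises of `UB S8 Dq` and `okC` give helper708's frame `PD`, the sizes and the
  number of levels
-/

set_option autoImplicit false

noncomputable section

open Finset
open scoped Classical

namespace Crest.Agent.R017.P10146

open Crest.Agent.R012 Crest.Agent.R012.Eis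
open Crest.Agent.R017.B770
open Crest.Agent.R017.FE47 (SM)
open Crest.Agent.R017.Prov71
open Crest.Agent.R017.XG702 (Pcs)
open Crest.Agent.R017.XT71 (Sys Win mx)
open Crest.Agent.R017.I1146 (LN)
open Crest.Agent.R017.E5B71 Crest.Agent.R017.E5L770
open Crest.Agent.R017.P1l54
open Crest.Agent.R017.TM708 (PD R5)

lemma mass_am' {X : ℝ} {ps : List Pq} (h : ∀ p ∈ ps, p.kd = .am) :
    Dq.mass X ps .am = LN ps / Real.log X := by
  induction ps with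
  | nil => simp [Pcs.mass, LN]
  | cons p ps ih =>
    rw [Pcs.mass_cons, ih fun q hq => h q (List.mem_cons_of_mem _ hq), if_pos]
    · unfold LN Pcs.nl
      rw [List.map_cons, List.sum_cons, add_div]
      rfl
    · rw [Dq_kind, h p List.mem_cons_self]

lemma LN_cl' (a : Bc) (qs : List Pq) :
    LN (cl a qs) = (a.2 0).z + (a.2 1).z + (a.2 2).z + LN qs := by
  unfold cl LN
  simp [List.ofFn_succ]
  ring

/-- **the frame of a child** -/
structure F8 (X δ L : ℝ) (p : Fin 3 ⊕ Fin 5 → ℝ) (pq : ℝ) (a : Bc) (qs : List Pq) : Prop where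
  hκ : |a.1.l - cκ p * L| ≤ δ * L
  hx : |a.1.z - cx' p * L| ≤ δ * L
  hN : |a3 a.1 - cN p * L| ≤ 3 * (δ * L)
  hn : |LN (cl a qs) - pq * L| ≤ 4 * (δ * L)
  lo : (cκ p / 2 - 2 * cx' p) * L - 4 * (δ * L) ≤ LN (cl a qs)
  hi : LN (cl a qs) ≤ (cN p + cx' p) * L + 4 * (δ * L)
  us0 : |(a.1.us 2).z - cu p 2 * L| ≤ δ * L
  us1 : |(a.1.us 3).z - cu p 3 * L| ≤ δ * L
  us2 : |(a.1.us 4).z - cu p 4 * L| ≤ δ * L
  top : Real.log 2 * nO a.1 ≤ max 0 (top5 p) * L + 20 * (δ * L) + Real.log 2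

theorem s8_frame {Par : Set (Fin 3 ⊕ Fin 5 → ℝ)} {P : DPar} {s : Eis} {X δ δ' B τ : ℝ} {N : ℕ}
    {a : Bc} {qs : List Pq} (hX1 : 1 < X) (hδ : 0 ≤ δ) (hτ : 100 * δ ≤ τ) (hδ' : 0 ≤ δ')
    (hlen : qs.length ≤ N) (hgl : ∀ p ∈ qs, Dq.lump p ∨ Dq.nl X p ≤ δ)
    {q : ((Fin 3 ⊕ Fin 5) ⊕ Fin 3 → ℝ) × (Kd → ℝ)} (hq : q ∈ Dom8 Par)
    (hw : Win S8 q.1 δ N B δ' X a) (hm : ∀ t, |Dq.mass X qs t - q.2 t| ≤ δ)
    (hg : Dq.Good X δ' B qs) (hl : ∀ p ∈ qs, Dq.lump p → (S8.ev X a, Dq.nl X p) ∈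
      (∅ : Set (((Fin 3 ⊕ Fin 5) ⊕ Fin 3 → ℝ) × ℝ))) (hok : okC P s a qs) :
    F8 X δ (Real.log X) (fun i => q.1 (.inl i)) (∑ i : Fin 3, q.1 (.inr i) + q.2 .am) a qs ∧
      PD X τ (max B 3) (X ^ δ') N (bP (fun i => q.1 (.inl i))) 1 a.2 qs a.1.l := by
  obtain ⟨hbok, hsm, hlmp, hamq⟩ := hok
  obtain ⟨hq1, hq2, hq3, hq4, hq5, hq6⟩ := hq
  set p : Fin 3 ⊕ Fin 5 → ℝ := fun i => q.1 (.inl i) with hp
  set L := Real.log X with hL
  have hL0' : 0 < L := Real.log_pos hX1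
  have hev : ∀ i, |S8.ev X a i - q.1 i| ≤ δ := hw.ev
  have hdiv : ∀ {z c : ℝ}, |z / L - c| ≤ δ → |z - c * L| ≤ δ * L := by
    intro z c h1
    have h2 : z - c * L = (z / L - c) * L := by field_simp
    rw [h2, abs_mul, abs_of_pos hL0']
    exact mul_le_mul_of_nonneg_right h1 hL0'.le
  have hk : |a.1.l - cκ p * L| ≤ δ * L := hdiv (hev (.inl (.inl 0)))
  have hz : |a.1.z - cx' p * L| ≤ δ * L := hdiv (hev (.inl (.inl 1)))
  have hu2 : |(a.1.us 2).z - cu p 2 * L| ≤ δ * L := hdiv (hev (.inl (.inr 2)))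
  have hu3 : |(a.1.us 3).z - cu p 3 * L| ≤ δ * L := hdiv (hev (.inl (.inr 3)))
  have hu4 : |(a.1.us 4).z - cu p 4 * L| ≤ δ * L := hdiv (hev (.inl (.inr 4)))
  have hv0 : |(a.2 0).z - q.1 (.inr 0) * L| ≤ δ * L := hdiv (hev (.inr 0))
  have hv1 : |(a.2 1).z - q.1 (.inr 1) * L| ≤ δ * L := hdiv (hev (.inr 1))
  have hv2 : |(a.2 2).z - q.1 (.inr 2) * L| ≤ δ * L := hdiv (hev (.inr 2))
  have hma : |LN qs - q.2 .am * L| ≤ δ * L := by
    have h1 := hm .am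
    rw [mass_am' hamq] at h1
    exact hdiv h1
  have hA : |a3 a.1 - cN p * L| ≤ 3 * (δ * L) := by
    have e1 : a3 a.1 - cN p * L = ((a.1.us 2).z - cu p 2 * L) + ((a.1.us 3).z - cu p 3 * L) +
        ((a.1.us 4).z - cu p 4 * L) := by unfold E5L770.a3 cN; ring
    rw [e1]
    refine (abs_add_le _ _).trans ?_
    have := abs_add_le ((a.1.us 2).z - cu p 2 * L) ((a.1.us 3).z - cu p 3 * L)
    linarith
  obtain ⟨k1, k2⟩ := abs_le.1 hk
  obtain ⟨z1, z2⟩ := abs_le.1 hz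
  obtain ⟨v01, v02⟩ := abs_le.1 hv0
  obtain ⟨v11, v12⟩ := abs_le.1 hv1
  obtain ⟨v21, v22⟩ := abs_le.1 hv2
  obtain ⟨m1, m2⟩ := abs_le.1 hma
  have w0 : 0 ≤ q.1 (.inr 0) ∧ q.1 (.inr 0) ≤ cu p 2 := hq2 0
  have w1 : 0 ≤ q.1 (.inr 1) ∧ q.1 (.inr 1) ≤ cu p 3 := hq2 1
  have w2 : 0 ≤ q.1 (.inr 2) ∧ q.1 (.inr 2) ≤ cu p 4 := hq2 2
  have hcN : cN p = cu p 2 + cu p 3 + cu p 4 := rfl
  have hS3 : ∑ i : Fin 3, q.1 (.inr i) = q.1 (.inr 0) + q.1 (.inr 1) + q.1 (.inr 2) :=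
    Fin.sum_univ_three _
  rw [hS3] at hq6
  have hnz : LN (cl a qs) = (a.2 0).z + (a.2 1).z + (a.2 2).z + LN qs := LN_cl' a qs
  have hδL : 0 ≤ δ * L := by positivity
  have w0L := mul_le_mul_of_nonneg_right w0.2 hL0'.le
  have w1L := mul_le_mul_of_nonneg_right w1.2 hL0'.le
  have w2L := mul_le_mul_of_nonneg_right w2.2 hL0'.le
  have hq5L := mul_le_mul_of_nonneg_right hq5 hL0'.le
  have hq6L := mul_le_mul_of_nonneg_right hq6 hL0'.le
  have hBB : B ≤ max B 3 := le_max_left _ _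
  have hB0 : (0 : ℝ) ≤ max B 3 := (by norm_num : (0 : ℝ) ≤ 3).trans (le_max_right _ _)
  have hs1 : ∀ i, Dq.s1 (a.2 i) ≤ X ^ δ' := by
    intro i
    have h1 : mx Dq.s1 (List.ofFn a.2) ≤ X ^ δ' := (le_max_right _ _).trans hw.s₁
    exact (XT71.le_mx (List.mem_ofFn.2 ⟨i, rfl⟩)).trans h1
  have hs2 : ∀ i, Dq.s2 (a.2 i) ≤ X ^ (max B 3) := by
    intro i
    have h1 : mx Dq.s2 (List.ofFn a.2) ≤ X ^ B := (le_max_right _ _).trans hw.s₂
    exact ((XT71.le_mx (List.mem_ofFn.2 ⟨i, rfl⟩)).trans h1).trans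
      (Real.rpow_le_rpow_of_exponent_le hX1.le hBB)
  have hgran : ∀ p' ∈ qs, p'.z ≤ δ * L := by
    intro p' hp'
    rcases hgl p' hp' with h1 | h1
    · exact absurd (hl p' hp' h1) (Set.notMem_empty _)
    · unfold Pcs.nl at h1
      rw [div_le_iff₀ hL0'] at h1
      exact h1
  have hτL : 100 * (δ * L) ≤ τ * L := by
    have := mul_le_mul_of_nonneg_right hτ hL0'.le
    linarith
  refine ⟨⟨hk, hz, hA, ?_, ?_, ?_, hu2, hu3, hu4, ?_⟩, ?_⟩
  · rw [hS3, hnz, abs_le]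
    constructor <;> linarith
  · rw [hnz]
    linarith
  · rw [hnz, hcN]
    linarith
  · have hz0 : 0 ≤ a.1.z := hbok.2.1
    have h1 : nO a.1 = nL a.1.l (a3 a.1) a.1.z := rfl
    rw [h1]
    refine (nL_le hX1 a.1).trans ?_
    have h2 : top5 (S5.ev X a.1) ≤ top5 p + 10 * δ :=
      top5_lip _ _ δ hδ fun i => hev (.inl i)
    have h3 : max 0 (top5 (S5.ev X a.1)) ≤ max 0 (top5 p) + 10 * δ := by
      refine max_le ?_ ?_
      · have := le_max_left 0 (top5 p)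
        linarith
      · have := le_max_right 0 (top5 p)
        linarith
    have h4 := mul_le_mul_of_nonneg_right h3 hL0'.le
    linarith
  · refine ⟨one_ne_zero, ?_, Real.one_le_rpow hX1.le hδ', fun i => (hlmp i).1,
      fun i => (hlmp i).2, fun i => hs2 i, fun i => hs1 i, ?_, ?_, ?_, ?_, hlen, ?_, ?_⟩
    · rw [nm_one, Nat.cast_one]
      exact Real.one_le_rpow hX1.le hB0
    · show _ ≤ (cu p 2 + τ) * L
      linarith
    · show _ ≤ (cu p 3 + τ) * L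
      linarith
    · show _ ≤ (cu p 4 + τ) * L
      linarith
    · intro p' hp'
      obtain ⟨s1', s2', z0'⟩ := hg p' hp'
      refine ⟨hamq p' hp', z0', ?_, s2'.trans (Real.rpow_le_rpow_of_exponent_le hX1.le hBB), s1'⟩
      have := hgran p' hp'
      rw [← hL]
      linarith
    · show _ ≤ (cx' p + τ) * L
      linarith
    · show |_ - cκ p * L| ≤ τ * L
      refine hk.trans ?_
      linarith

end Crest.Agent.R017.P10146
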