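import Crest.Agent.R017.Hi9a_48
import Crest.Agent.R017.S8pd_146
import Crest.Agent.R017.RstQ_702

/-!
# Row 17, REST (class N): the UB wrap of `HNDg` and `HNBg` (helper695)

* `RstCore` : one level of one natural triple, `e`-blocks between `E1` and `E0` (helper405's text)
* `hnd_of`, `hnb_of` : `RstCore` implies `HNDg`, `HNBg`
-/

set_option autoImplicit false

noncomputable section

open Finset
open scoped Classical

namespace Crest.Agent.R017.RstU695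

open Crest.Agent.R012 Crest.Agent.R012.Eis
open Crest.Agent.R017.B770
open Crest.Agent.R017.C70
open Crest.Agent.R017.FE47 (SM)
open Crest.Agent.R017.HP842 (Pc pc sqc alL)
open Crest.Agent.R017.Prov71
open Crest.Agent.R017.XG702 (Pcs)
open Crest.Agent.R017.XT71 (Sys Win mx)
open Crest.Agent.R017.I1146 (LN)
open Crest.Agent.R017.UM71
open Crest.Agent.R017.E5B71 Crest.Agent.R017.E5P571 Crest.Agent.R017.E5L770
open Crest.Agent.R017.E2440 (StE)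
open Crest.Agent.R017.P1e54 Crest.Agent.R017.P1f54 Crest.Agent.R017.P1k54 Crest.Agent.R017.P1l54
open Crest.Agent.R017.P10146
open Crest.Agent.R017.TM708 (PD)
open Crest.Agent.R017.RnP571 (Dh)
open Crest.Agent.R017.Hi154 Crest.Agent.R017.Hi754 Crest.Agent.R017.Hi948

/-- **one level of one natural triple** (helper405's `rst_core`) -/
def RstCore {Λ : Type*} (π : Λ → DPar) (h : ℝ → ℝ) (dd : ℝ) : Prop :=
  ∀ ε : ℝ, 0 < ε → ε ≤ 1 / 160000 → ∃ τ : ℝ, 0 < τ ∧ τ ≤ ε ∧ ∀ (lam : Λ) (t : Eis),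
    t ∈ SM (π lam).n → ∀ Rw : ℝ, 0 ≤ Rw → ∀ B : ℝ, ∃ (M : ℕ) (X₀ : ℝ), 1 < X₀ ∧ ∀ X : ℝ, X₀ ≤ X →
    ∀ (b : Fin 5 → ℝ) (us : Fin 3 → Pq) (κ H : ℝ), PD X τ B H 0 b 1 us [] κ →
    Dh (b 0) (b 1) (b 2) (b 3) (b 4) (dd * b 0) → 1 / 2 ≤ b 0 → b 0 ≤ 1 →
    (b 0 / 2 - 2 * b 4 - τ) * Real.log X ≤ LN [us 0, us 1, us 2] →
    ∀ i n : ℕ, i < n → (2 : ℝ) ^ n ≤ X ^ B →
    Real.log 2 * (i : ℝ) ≤ (min (2 * (b 1 + b 2 + b 3) - b 0) (3 / 4 * (b 1 + b 2 + b 3)) +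
      9 / 4 * b 4 + τ) * Real.log X →
    ∀ E1 E0 : ℝ, 0 ≤ E1 → E1 ≤ E0 → 1 ≤ E0 → Real.log E0 ≤ (b 0 / 64 + τ) * Real.log X →
    (∀ x : ℝ, 0 ≤ x → Real.log E1 ≤ x →
      (min (2 * (b 1 + b 2 + b 3) - b 0) (3 / 4 * (b 1 + b 2 + b 3)) + 9 / 4 * b 4) *
          Real.log X - Real.log 2 * (i : ℝ) ≤ 4 * x + τ * Real.log X ∨
      (min (2 * (b 1 + b 2 + b 3) - b 0) (3 / 4 * (b 1 + b 2 + b 3)) + 9 / 4 * b 4) *
          Real.log X - Real.log 2 * (i : ℝ) ≤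
        2 * ((b 1 + b 2 + b 3) * Real.log X - LN [us 0, us 1, us 2]) + τ * Real.log X) →
    M2 (uM Rw (Real.exp κ) (Real.exp (κ / 20)))
      (StD E1 E0 (JW (Real.sqrt (2 ^ n)) (1 / 10) (2 ^ n)) (omL i)
        (sqc 1 (alL h ([us 0, us 1, us 2].map (Pt (π lam) t))))) ≤
      H ^ M * X ^ (b 0 + LN [us 0, us 1, us 2] / Real.log X +
        RstQ702.LR (b 1 + b 2 + b 3) (b 0) (dd * b 0) (b 4) + ε)

/-- the low level, as a function of the parents -/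
def lw (p : Fin 3 ⊕ Fin 5 → ℝ) : ℝ :=
  min (2 * cN p - cκ p) (3 / 4 * cN p) + 9 / 4 * cx' p

/-- what the wrap needs of the parents -/
structure PS (dd : ℝ) (Par : Set (Fin 3 ⊕ Fin 5 → ℝ)) (hi LH : (Fin 3 ⊕ Fin 5 → ℝ) → ℝ) :
    Prop where
  ok : ∀ p ∈ Par, ParOK p
  dh : ∀ p ∈ Par, Dh (cκ p) (cu p 2) (cu p 3) (cu p 4) (cx' p) (dd * cκ p)
  hi : ∀ p ∈ Par, hi p ≤ lw p
  lh : ∀ p ∈ Par, RstQ702.LR (cN p) (cκ p) (dd * cκ p) (cx' p) ≤ LH p

section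

variable {Λ : Type*} {π : Λ → DPar} {h : ℝ → ℝ} {dd e0 : ℝ}
  {Par : Set (Fin 3 ⊕ Fin 5 → ℝ)} {lo hi LH : (Fin 3 ⊕ Fin 5 → ℝ) → ℝ}

/-- **the common wrap** -/
theorem wrap {E1f : ℝ → ℝ} (hP : PS dd Par hi LH) (H0 : RstCore π h dd)
    (he0 : 0 ≤ e0) (he1 : e0 ≤ 1 / 64)
    (hE1 : ∀ l, 0 ≤ l → 0 ≤ E1f l ∧ E1f l ≤ Real.exp (e0 * l))
    {Dom : Set ((Option ((Fin 3 ⊕ Fin 5) ⊕ Fin 3) → ℝ) × (Kd → ℝ))}
    (hDom : Dom ⊆ DomH Par lo hi)
    (hgap : ∀ q ∈ Dom, ∀ (L δ : ℝ), 0 < L → 0 ≤ δ → δ ≤ 1 → ∀ (l v Z : ℝ), 0 ≤ l → 0 ≤ v →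
      |l - cκ (fun i => q.1 (some (.inl i))) * L| ≤ δ * L → |v - q.1 none * L| ≤ δ * L →
      |Z - (∑ i : Fin 3, q.1 (some (.inr i))) * L| ≤ 4 * (δ * L) →
      ∀ x : ℝ, 0 ≤ x → Real.log (E1f l) ≤ x →
      lw (fun i => q.1 (some (.inl i))) * L - v ≤ 4 * x + 20 * δ * L ∨
      lw (fun i => q.1 (some (.inl i))) * L - v ≤
        2 * (cN (fun i => q.1 (some (.inl i))) * L - Z) + 20 * δ * L)
    (R : Λ → ℝ) (hR : ∀ lam, 0 ≤ R lam) :
    UB (lev (Real.log 2) S8) Dq (HnGg π h E1f e0 R) Dom ∅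
      (fun q => cκ (fun i => q.1 (some (.inl i))) +
        ∑ i : Fin 3, q.1 (some (.inr i)) + LH (fun i => q.1 (some (.inl i)))) := by
  intro ε hε
  set ε₁ : ℝ := min (ε / 8) (1 / 160000) with hε₁
  have hε1 : 0 < ε₁ := lt_min (by linarith) (by norm_num)
  have hε1' : ε₁ ≤ ε / 8 := min_le_left _ _
  obtain ⟨τ, hτ, hτε, K⟩ := H0 ε₁ hε1 (min_le_right _ _)
  have hτ1 : τ ≤ 1 / 160000 := hτε.trans (min_le_right _ _)
  set δ : ℝ := τ / 400 with hδ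
  have hδ0 : 0 < δ := by positivity
  have hδτ : 400 * δ = τ := by rw [hδ]; ring
  refine ⟨δ, hδ0, fun lam N B => ?_⟩
  obtain ⟨lam, t⟩ := lam
  by_cases ht : t ∈ SM (π lam).n
  swap
  · refine ⟨1, one_pos, 2, by norm_num, fun X hX a ps _ _ q _ _ _ _ _ => ?_⟩
    have hX0 : (0 : ℝ) < X := by linarith
    have h1 : HnGg π h E1f e0 R (lam, t) a ps = 0 := by
      unfold HnGg HnG
      rw [if_neg (c := okC (π (lam, t).1) (lam, t).2 a.1 [])
        (fun hok => ht hok.2.1)]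
      simp
    rw [h1]
    positivity
  obtain ⟨M, X₁, hX₁, K1⟩ := K lam t ht (R lam) (hR lam) (max B 3)
  have hM : (0 : ℝ) < (M : ℝ) + 1 := by positivity
  set δ' : ℝ := ε₁ / ((M : ℝ) + 1) with hδ'
  have hδ'0 : 0 < δ' := by positivity
  refine ⟨δ', hδ'0, max X₁ (Real.exp 1), lt_max_of_lt_left hX₁, ?_⟩
  intro X hX a ps _ _ q hq hw _ _ _
  have hXX : X₁ ≤ X := (le_max_left _ _).trans hX
  have hXe : Real.exp 1 ≤ X := (le_max_right _ _).trans hX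
  have hX1 : 1 < X := by linarith
  have hX0 : 0 < X := by linarith
  have hL1 : 1 ≤ Real.log X := by
    rw [Real.le_log_iff_exp_le hX0]; exact hXe
  set L := Real.log X with hL
  have hL0 : 0 < L := by linarith
  have hpos : 0 ≤ X ^ ((fun q : (Option ((Fin 3 ⊕ Fin 5) ⊕ Fin 3) → ℝ) × (Kd → ℝ) =>
      cκ (fun i => q.1 (some (.inl i))) + ∑ i : Fin 3, q.1 (some (.inr i)) +
        LH (fun i => q.1 (some (.inl i)))) q + ε) := by positivity
  unfold HnGg HnG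
  by_cases hga : a.2 < nO a.1.1
  swap
  · rw [if_neg hga]; exact hpos
  rw [if_pos hga]
  by_cases hok : okC (π lam) t a.1 []
  swap
  · rw [if_neg hok]; exact hpos
  rw [if_pos hok]
  obtain ⟨d1, d2, d3, d4, d5, d6⟩ := hDom hq
  have hPok := hP.ok _ d1
  have hq8 : ((fun i => q.1 (some i), (0 : Kd → ℝ)) :
      ((Fin 3 ⊕ Fin 5) ⊕ Fin 3 → ℝ) × (Kd → ℝ)) ∈ Dom8 Par := by
    refine ⟨d1, d2, rfl, le_rfl, hPok.x0, ?_⟩
    show cκ (fun i => q.1 (some (.inl i))) / 2 ≤ ∑ i : Fin 3, q.1 (some (.inr i)) + (0 : ℝ) +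
      2 * cx' (fun i => q.1 (some (.inl i)))
    linarith
  have hw8 : Win S8 (fun i => q.1 (some i)) δ N B δ' X a.1 :=
    ⟨fun i => hw.ev (some i), hw.g, hw.n, hw.s₁, hw.s₂⟩
  obtain ⟨F, D⟩ := s8_frame (Par := Par) (P := π lam) (s := t) (X := X) (δ := δ) (δ' := δ')
    (B := B) (τ := τ) (N := N) (a := a.1) (qs := []) hX1 hδ0.le (by linarith) hδ'0.le
    (Nat.zero_le _) (by simp) hq8 hw8 (by
      intro t'
      simp [Pcs.mass]
      exact hδ0.le) (by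
      intro p hp
      simp at hp) (by simp) hok
  set p : Fin 3 ⊕ Fin 5 → ℝ := fun i => q.1 (some (.inl i)) with hp
  have hF : F8 X δ L p (∑ i : Fin 3, q.1 (some (.inr i)) + 0) a.1 [] := F
  have hcl : cl a.1 [] = [a.1.2 0, a.1.2 1, a.1.2 2] := by
    unfold cl
    simp [List.ofFn_succ]
  have D0 : PD X τ (max B 3) (X ^ δ') 0 (bP p) 1 a.1.2 [] a.1.1.l :=
    { D with len := le_rfl }
  have hl0 : 0 ≤ a.1.1.l := by
    have h1 := (abs_le.1 hF.hκ).1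
    have h2 := hPok.κ0
    nlinarith
  -- the level
  have hv : |Real.log 2 * (a.2 : ℝ) - q.1 none * L| ≤ δ * L := by
    have h1 : |Real.log 2 * (a.2 : ℝ) / L - q.1 none| ≤ δ := hw.ev none
    have h2 : Real.log 2 * (a.2 : ℝ) - q.1 none * L =
        (Real.log 2 * (a.2 : ℝ) / L - q.1 none) * L := by
      field_simp
    rw [h2, abs_mul, abs_of_pos hL0]
    exact mul_le_mul_of_nonneg_right h1 hL0.le
  have hn4 := hF.hn
  rw [hcl, add_zero] at hn4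
  have hlo := hF.lo
  rw [hcl] at hlo
  have hδL : 0 ≤ δ * L := by positivity
  have hτL : τ * L = 400 * (δ * L) := by rw [← hδτ]; ring
  have hlow : q.1 none ≤ lw p := d6.trans (hP.hi _ d1)
  have hlowL := mul_le_mul_of_nonneg_right hlow hL0.le
  have hC := K1 X hXX (bP p) a.1.2 a.1.1.l (X ^ δ') D0 (hP.dh _ d1)
    (by show 1 / 2 ≤ cκ p; linarith [hPok.κ0]) hPok.κ1
    (by
      show (cκ p / 2 - 2 * cx' p - τ) * L ≤ _
      nlinarith) a.2 (nO a.1.1) hga (by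
      have h1 := hF.top
      have h2 : top5 p ≤ 3 / 2 := by
        unfold top5
        have := min_le_right (2 * cN p - cκ p) (3 / 4 * cN p)
        linarith [hPok.N1, hPok.x1]
      have h3 : max 0 (top5 p) ≤ 3 / 2 := max_le (by norm_num) h2
      have h4 := mul_le_mul_of_nonneg_right h3 hL0.le
      have h5 : Real.log 2 ≤ 1 := by
        have := Real.log_two_lt_d9; linarith
      have h6 : (nO a.1.1 : ℝ) * Real.log 2 ≤ max B 3 * L := by
        have h7 : (3 : ℝ) * L ≤ max B 3 * L :=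
          mul_le_mul_of_nonneg_right (le_max_right _ _) hL0.le
        have h8 : 20 * (δ * L) ≤ 1 / 4 * L := by
          have : 20 * δ ≤ 1 / 4 := by linarith
          nlinarith
        linarith [mul_comm (Real.log 2) (nO a.1.1 : ℝ)]
      have h9 : (2 : ℝ) ^ (nO a.1.1) = Real.exp ((nO a.1.1 : ℝ) * Real.log 2) := by
        rw [mul_comm, Real.exp_mul, Real.exp_log two_pos, Real.rpow_natCast]
      rw [h9, Real.rpow_def_of_pos hX0, ← hL]
      refine Real.exp_le_exp.2 ?_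
      linarith [mul_comm L (max B 3)])
    (by
      show _ ≤ (lw p + τ) * L
      have := (abs_le.1 hv).2
      nlinarith)
    (E1f a.1.1.l) (Real.exp (e0 * a.1.1.l)) (hE1 _ hl0).1 (hE1 _ hl0).2
    (Real.one_le_exp (by positivity))
    (by
      rw [Real.log_exp]
      show _ ≤ (cκ p / 64 + τ) * L
      have h1 := (abs_le.1 hF.hκ).2
      have h2 : e0 * a.1.1.l ≤ 1 / 64 * a.1.1.l := mul_le_mul_of_nonneg_right he1 hl0
      nlinarith)
    (by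
      intro x hx hx1
      have h1 := hgap q hq L δ hL0 hδ0.le (by linarith) a.1.1.l (Real.log 2 * (a.2 : ℝ))
        (LN [a.1.2 0, a.1.2 1, a.1.2 2]) hl0 (by positivity) hF.hκ hv hn4 x hx hx1
      have h2 : 20 * δ * L ≤ τ * L := by nlinarith
      rcases h1 with h1 | h1
      · left
        show lw p * L - _ ≤ _
        linarith
      · right
        show lw p * L - _ ≤ 2 * (cN p * L - _) + _
        linarith)
  have hlist : (List.ofFn a.1.2) = [a.1.2 0, a.1.2 1, a.1.2 2] := by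
    simp [List.ofFn_succ]
  have hJo : Jo a.1.1.l (a3 a.1.1) a.1.1.z =
      JW (Real.sqrt (2 ^ nO a.1.1)) (1 / 10) (2 ^ nO a.1.1) := rfl
  rw [hlist, hJo]
  refine hC.trans ?_
  have e1 : (X ^ δ') ^ M = X ^ (δ' * M) := by
    rw [← Real.rpow_natCast, ← Real.rpow_mul hX0.le]
  rw [e1, ← Real.rpow_add hX0]
  refine Real.rpow_le_rpow_of_exponent_le hX1.le ?_
  have h1 : δ' * M ≤ ε₁ := by
    rw [hδ', div_mul_eq_mul_div, div_le_iff₀ hM]
    nlinarith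
  have h2 : LN [a.1.2 0, a.1.2 1, a.1.2 2] / L ≤ ∑ i : Fin 3, q.1 (some (.inr i)) + 4 * δ := by
    rw [div_le_iff₀ hL0]
    have := (abs_le.1 hn4).2
    nlinarith
  have h3 : RstQ702.LR (cN p) (cκ p) (dd * cκ p) (cx' p) ≤ LH p := hP.lh _ d1
  have h4 : 4 * δ ≤ ε / 8 := by linarith
  show δ' * M + (cκ p + LN [a.1.2 0, a.1.2 1, a.1.2 2] / L +
      RstQ702.LR (cN p) (cκ p) (dd * cκ p) (cx' p) + ε₁) ≤
    cκ p + ∑ i : Fin 3, q.1 (some (.inr i)) + LH p + ε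
  linarith

/-- **`HNDg`** -/
theorem hnd_of {e1 : ℝ} (hP : PS dd Par hi LH) (H0 : RstCore π h dd)
    (h01 : 0 ≤ e1) (h1 : e1 ≤ e0) (he1 : e0 ≤ 1 / 64)
    (hlo : ∀ p ∈ Par, lw p - lo p ≤ 4 * e1 * cκ p) :
    HNDg π h e1 e0 Par lo hi LH := by
  intro R hR
  rw [← hnGg_D]
  refine wrap (lo := lo) hP H0 (h01.trans h1) he1 (fun l hl => ⟨(Real.exp_pos _).le, ?_⟩)
    le_rfl ?_ R hR
  · exact Real.exp_le_exp.2 (mul_le_mul_of_nonneg_right h1 hl)
  · intro q hq L δ hL hδ hδ1 l v Z hl hv0 hκ hv hZ x hx hx1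
    left
    rw [Real.log_exp] at hx1
    obtain ⟨d1, d2, d3, d4, d5, d6⟩ := hq
    have g1 := hlo _ d1
    have g2 := mul_le_mul_of_nonneg_right g1 hL.le
    have g3 := mul_le_mul_of_nonneg_right d5 hL.le
    have g4 := (abs_le.1 hκ).1
    have g5 := (abs_le.1 hv).1
    have g6 : e1 * (cκ (fun i => q.1 (some (.inl i))) * L) ≤ e1 * (l + δ * L) :=
      mul_le_mul_of_nonneg_left (by linarith) h01
    have g7 : e1 * (δ * L) ≤ 1 * (δ * L) :=
      mul_le_mul_of_nonneg_right (by linarith) (by positivity)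
    nlinarith

/-- **`HNBg`** -/
theorem hnb_of {b : ℝ} (hP : PS dd Par hi LH) (H0 : RstCore π h dd)
    (h01 : 0 ≤ e0) (he1 : e0 ≤ 1 / 64)
    (hlo : ∀ p ∈ Par, lw p - lo p ≤ 2 * b * cκ p) :
    HNBg π h e0 b Par lo hi LH := by
  intro R hR
  rw [← hnGg_C]
  refine wrap (lo := lo) hP H0 h01 he1 (fun l hl => ⟨le_rfl, (Real.exp_pos _).le⟩)
    (fun q hq => hq.1) ?_ R hR
  intro q hq L δ hL hδ hδ1 l v Z hl hv0 hκ hv hZ x hx hx1
  right
  obtain ⟨⟨d1, d2, d3, d4, d5, d6⟩, dz⟩ := hq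
  have hx0 := (hP.ok _ d1).x0
  have g1 := hlo _ d1
  have g5 := (abs_le.1 hv).1
  have g8 := (abs_le.1 hZ).2
  set p : Fin 3 ⊕ Fin 5 → ℝ := fun i => q.1 (some (.inl i)) with hp
  set z : ℝ := ∑ i : Fin 3, q.1 (some (.inr i)) with hz
  have hδL : 0 ≤ δ * L := by positivity
  rcases le_max_iff.1 dz with k1 | k1
  · have g2 : lw p - q.1 none ≤ 2 * (cN p - z) := by linarith
    have g3 := mul_le_mul_of_nonneg_right g2 hL.le
    nlinarith
  · have g2 : lw p ≤ 2 * (cN p - z) := by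
      unfold lw
      have := min_le_left (2 * cN p - cκ p) (3 / 4 * cN p)
      linarith
    have g3 := mul_le_mul_of_nonneg_right g2 hL.le
    nlinarith

end

end Crest.Agent.R017.RstU695
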