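import Crest.Agent.R017.Two1_939
import Crest.Agent.R017.PLow2_271

/-!
# Row 17, the small amplifier factor `F_Y` (1): smooth sums over squarefree elements (helper813)

`FS w Ξ κ t = ∑_{b primary squarefree} Ξ(b) nm(b)^{it} w(log nm b - κ)`.

* `FS_eq`       : `FS` = `∑_d μ(d) Ξ(d²) nm(d²)^{it} PS(κ - 2 log nm d)`
* `FS_le`       : `|FS| ≤ C B^{1/4} e^{3κ/4}` if all smooth sums are `≤ B`
* `FS_small`    : for `k = k₀ m³` with `φ conj χ_k ang^l` nonprincipal:
  `|FS| ≤ C (1+|t|) (nm n · nm k₀)^{1/2} τ(m) e^{3κ/4}`  (unconditional).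
-/

set_option autoImplicit false

noncomputable section

open Complex MeasureTheory Filter Topology
open scoped ContDiff ComplexConjugate

namespace Crest.Agent.R017.FY813

open Crest.Agent.R012 Crest.Agent.R012.Eis Crest.Agent.R012.Gauss880
open Crest.Agent.R012.Weight600 (osc norm_osc)
open Crest.Agent.R012.PSer47 Crest.Agent.R012.Div277 Crest.Agent.R012.Mob705
open Crest.Agent.R017.End699 Crest.Agent.R017.FE47 Crest.Agent.R017.Two939

open Classical in
/-- smooth sum over squarefree primary elements -/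
def FS (w : ℝ → ℂ) (Ξ : Eis → ℂ) (κ t : ℝ) : ℂ :=
  PS w (fun b => if Squarefree b then Ξ b else 0) κ t

lemma one_le_nm' {b : Eis} (hb : IsPrim b) : (1 : ℝ) ≤ nm b := by
  have := nm_pos.mpr hb.ne_zero
  exact_mod_cast this

lemma nm_sq (d : Eis) : (nm (d ^ 2) : ℝ) = (nm d : ℝ) ^ 2 := by
  rw [sq, nm_mul]; push_cast; ring

open Classical in
theorem FS_eq {w : ℝ → ℂ} (hw : HasCompactSupport w) {Ξ : Eis → ℂ} (hΞ : IsChar Ξ) (κ t : ℝ) :
    ∃ N : ℕ, FS w Ξ κ t = ∑ d ∈ primBall N, (muE d : ℂ) * (Ξ (d ^ 2) *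
      osc t (Real.log (nm (d ^ 2))) * PS w Ξ (κ - Real.log (nm (d ^ 2))) t) := by
  obtain ⟨N, hN⟩ := PS_support hw κ
  refine ⟨N, ?_⟩
  have e1 : ∀ b : Eis, End699.ext (fun b => if Squarefree b then Ξ b else 0) b *
      (osc t (Real.log (nm b)) * w (Real.log (nm b) - κ)) =
      ∑ d ∈ primBall N, (muE d : ℂ) * (if d ^ 2 ∣ b then End699.ext Ξ b *
        (osc t (Real.log (nm b)) * w (Real.log (nm b) - κ)) else 0) := by
    intro b
    by_cases hb : IsPrim b
    · by_cases h0 : w (Real.log (nm b) - κ) = 0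
      · rw [h0]; simp
      · have hbN := hN b hb h0
        have h := sum_muE_sq hb
        have hsub : ∑ d ∈ dvs b, (if d ^ 2 ∣ b then muE d else 0) =
            ∑ d ∈ primBall N, (if d ^ 2 ∣ b then muE d else 0) := by
          refine Finset.sum_subset ?_ ?_
          · intro d hd
            have h1 := isPrim_of_mem_dvs hd
            have h2 := dvd_of_mem_dvs hd
            rw [mem_primBall] at hbN ⊢
            exact ⟨(nm_le_of_dvd hb.ne_zero h2).trans hbN.1, h1⟩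
          · intro d hd hnd
            rw [if_neg]
            intro h2
            apply hnd
            rw [mem_primBall] at hd
            rw [mem_dvs hb.ne_zero]
            exact ⟨hd.2, (dvd_pow_self d two_ne_zero).trans h2⟩
        rw [hsub] at h
        have h' : (∑ d ∈ primBall N, (muE d : ℂ) * (if d ^ 2 ∣ b then (1 : ℂ) else 0)) =
            if Squarefree b then 1 else 0 := by
          have h2 := congrArg (fun z : ℤ => (z : ℂ)) h
          simp only [Int.cast_sum] at h2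
          have h3 : ((if Squarefree b then (1 : ℤ) else 0 : ℤ) : ℂ) =
              if Squarefree b then 1 else 0 := by split_ifs <;> simp
          rw [← h3, ← h2]
          refine Finset.sum_congr rfl fun d _ => ?_
          split_ifs <;> simp
        have e2 : ∑ d ∈ primBall N, (muE d : ℂ) * (if d ^ 2 ∣ b then End699.ext Ξ b *
          (osc t (Real.log (nm b)) * w (Real.log (nm b) - κ)) else 0) =
          (∑ d ∈ primBall N, (muE d : ℂ) * (if d ^ 2 ∣ b then (1 : ℂ) else 0)) * (End699.ext Ξ b *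
          (osc t (Real.log (nm b)) * w (Real.log (nm b) - κ))) := by
          rw [Finset.sum_mul]
          refine Finset.sum_congr rfl fun d _ => ?_
          split_ifs <;> ring
        rw [e2, h']
        simp only [End699.ext, if_pos hb]
        split_ifs <;> ring
    · simp [End699.ext, hb]
  unfold FS PS
  rw [tsum_congr e1, Summable.tsum_finsetSum]
  · refine Finset.sum_congr rfl fun d hd => ?_
    have hdp : IsPrim d := (mem_primBall.mp hd).2
    have hd2 : IsPrim (d ^ 2) := by rw [sq]; exact hdp.mul hdp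
    rw [tsum_mul_left, tsum_dvd hΞ hd2]
    rfl
  · intro d _
    refine Summable.mul_left _ ?_
    refine summable_of_ne_finset_zero (s := primBall N) fun b hb => ?_
    by_cases hp : IsPrim b
    · by_cases h0 : w (Real.log (nm b) - κ) = 0
      · rw [h0]; simp
      · exact absurd (hN b hp h0) hb
    · simp [End699.ext, hp]

/-- `Z = ∑ nm z^{-3/2}` -/
def Z32 : ℝ := ∑' z : Eis, (nm z : ℝ) ^ (-(3 / 2) : ℝ)

lemma Z32_nonneg : 0 ≤ Z32 := tsum_nonneg fun z => by positivity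

/-- if all smooth sums are `≤ B`, the sums over squarefree elements are `≤ C B^{1/4} e^{3κ/4}`. -/
theorem FS_le {w : ℝ → ℂ} (h1 : Continuous w) (h2 : HasCompactSupport w) :
    ∃ C : ℝ, 0 ≤ C ∧ ∀ Ξ : Eis → ℂ, IsChar Ξ → ∀ (B t : ℝ), 0 ≤ B →
      (∀ κ', ‖PS w Ξ κ' t‖ ≤ B) → ∀ κ : ℝ,
      ‖FS w Ξ κ t‖ ≤ C * (B ^ (1 / 4 : ℝ) * Real.exp (3 / 4 * κ)) := by
  obtain ⟨C0, hC0, h0⟩ := norm_PS_le h1 h2
  refine ⟨C0 ^ (3 / 4 : ℝ) * Z32, by have := Z32_nonneg; positivity, fun Ξ hΞ B t hB hP κ => ?_⟩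
  obtain ⟨N, hN⟩ := FS_eq h2 hΞ κ t
  rw [hN]
  refine (norm_sum_le _ _).trans ?_
  have hsum := LatSum413.summable_nm_rpow (s := 3 / 2) (by norm_num)
  calc ∑ d ∈ primBall N, ‖(muE d : ℂ) * (Ξ (d ^ 2) *
      osc t (Real.log (nm (d ^ 2))) * PS w Ξ (κ - Real.log (nm (d ^ 2))) t)‖
      ≤ ∑ d ∈ primBall N, (C0 ^ (3 / 4 : ℝ) * (B ^ (1 / 4 : ℝ) * Real.exp (3 / 4 * κ))) *
          (nm d : ℝ) ^ (-(3 / 2) : ℝ) := by
        refine Finset.sum_le_sum fun d hd => ?_
        have hdp : IsPrim d := (mem_primBall.mp hd).2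
        have hd2 : IsPrim (d ^ 2) := by rw [sq]; exact hdp.mul hdp
        have hn1 := one_le_nm' hdp
        have hn0 : (0 : ℝ) < nm d := by linarith
        have hmu : ‖(muE d : ℂ)‖ ≤ 1 := by
          rw [Complex.norm_intCast]
          have h3 := abs_muE d
          have h4 : |muE d| ≤ 1 := by rw [h3]; split_ifs <;> norm_num
          exact_mod_cast h4
        set x := ‖PS w Ξ (κ - Real.log (nm (d ^ 2))) t‖ with hx
        have hx0 : 0 ≤ x := norm_nonneg _
        have hxB : x ≤ B := hP _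
        have hxC : x ≤ C0 * (Real.exp κ * (nm d : ℝ) ^ (-(2 : ℝ))) := by
          have h5 := h0 Ξ (fun b hb => hΞ.norm_le hb) (κ - Real.log (nm (d ^ 2))) t
          refine h5.trans (le_of_eq ?_)
          rw [Real.exp_sub, Real.exp_log (by rw [nm_sq]; positivity), nm_sq,
            Real.rpow_neg hn0.le, Real.rpow_two, div_eq_mul_inv]
        have hx1 : x = x ^ (1 / 4 : ℝ) * x ^ (3 / 4 : ℝ) := by
          rw [← Real.rpow_add_of_nonneg hx0 (by norm_num) (by norm_num)]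
          norm_num
        have hx2 : x ≤ B ^ (1 / 4 : ℝ) * (C0 * (Real.exp κ * (nm d : ℝ) ^ (-(2 : ℝ)))) ^
            (3 / 4 : ℝ) := by
          rw [hx1]
          gcongr
        have e3 : (C0 * (Real.exp κ * (nm d : ℝ) ^ (-(2 : ℝ)))) ^ (3 / 4 : ℝ) =
            C0 ^ (3 / 4 : ℝ) * (Real.exp (3 / 4 * κ) * (nm d : ℝ) ^ (-(3 / 2) : ℝ)) := by
          rw [Real.mul_rpow hC0 (by positivity), Real.mul_rpow (by positivity) (by positivity),
            ← Real.exp_mul, ← Real.rpow_mul hn0.le]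
          norm_num
          left; left; ring_nf
        rw [e3] at hx2
        rw [norm_mul, norm_mul, norm_mul, norm_osc, mul_one]
        calc ‖(muE d : ℂ)‖ * (‖Ξ (d ^ 2)‖ * x) ≤ 1 * (1 * x) := by
              gcongr
              exact hΞ.norm_le hd2
          _ = x := by ring
          _ ≤ _ := hx2
          _ = _ := by ring
    _ = (C0 ^ (3 / 4 : ℝ) * (B ^ (1 / 4 : ℝ) * Real.exp (3 / 4 * κ))) *
          ∑ d ∈ primBall N, (nm d : ℝ) ^ (-(3 / 2) : ℝ) := by rw [Finset.mul_sum]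
    _ ≤ (C0 ^ (3 / 4 : ℝ) * (B ^ (1 / 4 : ℝ) * Real.exp (3 / 4 * κ))) * Z32 := by
        gcongr
        exact hsum.sum_le_tsum _ fun z _ => by positivity
    _ = _ := by ring

open Classical in
/-- **`F_Y` is small for small kernels**, unconditionally. -/
theorem FS_small {w : ℝ → ℂ} (hw1 : ContDiff ℝ ∞ w) (hw2 : HasCompactSupport w) (l : ℤ) :
    ∃ C : ℝ, 0 ≤ C ∧ ∀ (n : Eis) (φ : Eis → ℂ), HC n φ → ∀ k₀ m : Eis, k₀ ≠ 0 → IsPrim m →
      B770.NPk n φ l (k₀ * m ^ 3) → ∀ κ t : ℝ,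
      ‖FS w (fun b => φ b * conj (sy (k₀ * m ^ 3) b) * ang l b) κ t‖ ≤
        C * ((1 + |t|) * ((nm n : ℝ) * nm k₀) ^ (1 / 2 : ℝ) * tau m * Real.exp (3 / 4 * κ)) := by
  obtain ⟨C1, hC1, h1⟩ := PSfix hw1 hw2 l
  obtain ⟨C2, hC2, h2⟩ := FS_le hw1.continuous hw2
  refine ⟨C2 * (C1 * 81 ^ 2) ^ (1 / 4 : ℝ), by positivity, fun n φ hφ k₀ m hk₀ hm hnp κ t => ?_⟩
  have hHC : HC (n * (9 * k₀)) (fun b => φ b * conj (sy k₀ b)) := PLow271.HC.conj_sy hφ hk₀
  have hnp' : NP (n * (9 * k₀)) (fun b => φ b * conj (sy k₀ b)) l := by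
    rcases hnp with h | ⟨a, ha, hac, hne⟩
    · exact Or.inl h
    · refine Or.inr ⟨a, ha, ?_, ?_⟩
      · refine hac.of_isCoprime_of_dvd_right ?_
        exact ⟨m ^ 3, by ring⟩
      · have hcm : IsCoprime m a := by
          have hd : m ∣ n * (9 * (k₀ * m ^ 3)) := ⟨n * 9 * k₀ * m ^ 2, by ring⟩
          exact (hac.of_isCoprime_of_dvd_right hd).symm
        intro h
        apply hne
        change φ a * conj (sy (k₀ * m ^ 3) a) = 1
        rw [Char766.sy_mul_left ha, Char766.sy_cube_left ha hcm, mul_one]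
        exact h
  have e1 : ∀ b : Eis, IsPrim b → φ b * conj (sy (k₀ * m ^ 3) b) * ang l b =
      if IsCoprime b m then XK (fun b => φ b * conj (sy k₀ b)) (fun _ => 1) l b else 0 := by
    intro b hb
    unfold XK
    rw [Char766.sy_mul_left hb]
    by_cases hc : IsCoprime b m
    · rw [if_pos hc, Char766.sy_cube_left hb hc.symm]
      ring_nf
    · rw [if_neg hc, Char766.sy_eq_zero hb fun h' => hc
        (h'.of_isCoprime_of_dvd_left (dvd_pow_self m three_ne_zero)).symm]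
      simp
  set X : Eis → ℂ := XK (fun b => φ b * conj (sy k₀ b)) (fun _ => 1) l with hX
  have hχ : IsChar X := (hHC.char.mul' isChar_one).mul' (ang_isChar l)
  have hχ' : IsChar (fun b => X b * prin0 m b) := hχ.mul' (isChar_prin0 m)
  have e2 : FS w (fun b => φ b * conj (sy (k₀ * m ^ 3) b) * ang l b) κ t =
      FS w (fun b => X b * prin0 m b) κ t := by
    unfold FS
    refine PS_congr (fun b hb => ?_) _ _
    beta_reduce
    rw [e1 b hb]
    unfold prin0
    split_ifs <;> simp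
  have e3 : ∀ κ', PS w (fun b => X b * prin0 m b) κ' t =
      PS w (fun b => if IsCoprime b m then X b else 0) κ' t := fun κ' => by
    refine PS_congr (fun b _ => ?_) _ _
    unfold prin0
    split_ifs <;> simp
  have hm0 : m ≠ 0 := hm.ne_zero
  have hτ1 : (1 : ℝ) ≤ tau m := by exact_mod_cast one_le_tau hm0
  have ht : 0 ≤ |t| := abs_nonneg t
  have hN0 : 0 ≤ (nm n : ℝ) * nm k₀ := by positivity
  have hB : ∀ κ', ‖PS w (fun b => X b * prin0 m b) κ' t‖ ≤
      tau m * (C1 * (1 + |t|) ^ 4 * (nm (n * (9 * k₀)) : ℝ) ^ 2) := by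
    intro κ'
    rw [e3]
    refine (norm_PS_cop_le hw2 hχ hm0 κ' t).trans ?_
    calc ∑ d ∈ (dvs m).filter Squarefree, ‖PS w X (κ' - Real.log (nm d)) t‖
        ≤ ∑ d ∈ (dvs m).filter Squarefree, C1 * (1 + |t|) ^ 4 * (nm (n * (9 * k₀)) : ℝ) ^ 2 :=
          Finset.sum_le_sum fun d _ => h1 _ _ hHC hnp' _ _
      _ = ((dvs m).filter Squarefree).card * (C1 * (1 + |t|) ^ 4 * (nm (n * (9 * k₀)) : ℝ) ^ 2) := by
          rw [Finset.sum_const, nsmul_eq_mul]
      _ ≤ _ := by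
          gcongr
          unfold tau
          exact_mod_cast Finset.card_filter_le _ _
  rw [e2]
  have h3 := h2 _ hχ' _ t (by positivity) hB κ
  refine h3.trans (le_of_eq_of_le ?_ (mul_le_mul_of_nonneg_left (b := (1 + |t|) *
    ((nm n : ℝ) * nm k₀) ^ (1 / 2 : ℝ) * (tau m : ℝ) ^ (1 / 4 : ℝ) * Real.exp (3 / 4 * κ)) ?_
    (by positivity : (0 : ℝ) ≤ C2 * (C1 * 81 ^ 2) ^ (1 / 4 : ℝ))))
  · have e4 : (nm (n * (9 * k₀)) : ℝ) = 81 * ((nm n : ℝ) * nm k₀) := by
      rw [nm_mul, nm_mul]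
      have : nm 9 = 81 := by decide
      rw [this]; push_cast; ring
    rw [e4]
    have e5 : (tau m : ℝ) * (C1 * (1 + |t|) ^ 4 * (81 * ((nm n : ℝ) * nm k₀)) ^ 2) =
        (C1 * 81 ^ 2) * ((1 + |t|) ^ 4 * (((nm n : ℝ) * nm k₀) ^ 2 * tau m)) := by ring
    have e8 : ((C1 * 81 ^ 2) * ((1 + |t|) ^ 4 * (((nm n : ℝ) * nm k₀) ^ 2 * tau m))) ^ (1 / 4 : ℝ) =
        (C1 * 81 ^ 2) ^ (1 / 4 : ℝ) * (((1 + |t|) ^ 4) ^ (1 / 4 : ℝ) *
          ((((nm n : ℝ) * nm k₀) ^ 2) ^ (1 / 4 : ℝ) * (tau m : ℝ) ^ (1 / 4 : ℝ))) := by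
      rw [Real.mul_rpow (x := C1 * 81 ^ 2) (by positivity) (by positivity),
        Real.mul_rpow (x := (1 + |t|) ^ 4) (by positivity) (by positivity),
        Real.mul_rpow (x := ((nm n : ℝ) * nm k₀) ^ 2) (by positivity) (by positivity)]
    rw [e5, e8]
    have e6 : ((1 + |t|) ^ 4) ^ (1 / 4 : ℝ) = 1 + |t| := by
      rw [← Real.rpow_natCast, ← Real.rpow_mul (by positivity)]
      norm_num
    have e7 : (((nm n : ℝ) * nm k₀) ^ 2) ^ (1 / 4 : ℝ) = ((nm n : ℝ) * nm k₀) ^ (1 / 2 : ℝ) := by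
      rw [← Real.rpow_natCast, ← Real.rpow_mul hN0]
      norm_num
    rw [e6, e7]
    ring
  · gcongr
    calc (tau m : ℝ) ^ (1 / 4 : ℝ) ≤ (tau m : ℝ) ^ (1 : ℝ) :=
          Real.rpow_le_rpow_of_exponent_le hτ1 (by norm_num)
      _ = _ := Real.rpow_one _

end Crest.Agent.R017.FY813
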