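import Crest.Agent.R017.BoxDefs_271
import Crest.Agent.R017.FY1_813
import Crest.Agent.R017.NatPB_401

/-!
# Row 17, D.box: the `k` with `ψ χ_k` principal (1): pointwise tools (helper271)
-/

set_option autoImplicit false

noncomputable section

open MeasureTheory Complex Set
open scoped ComplexConjugate ContDiff

namespace Crest.Agent.R017.BoxP271

open Crest.Agent.R012 Crest.Agent.R012.Eis Crest.Agent.R012.Mob705 Crest.Agent.R012.Gauss880
open Crest.Agent.R012.PSer47 Crest.Agent.R012.Div277 Crest.Agent.R012.Weight600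
open Crest.Agent.R017.End699 Crest.Agent.R017.Sx545 Crest.Agent.R017.B770
open Crest.Agent.R017.Asm986 Crest.Agent.R017.HBS271 Crest.Agent.R017.Sup271
open Crest.Agent.R017.NatP401 (exists_cubefree dvd_of_sq_dvd_cube principal_unique card_principal)

/-! ### principal twists -/

/-- all principal twists are `n₀ z³` -/
lemma principal_form {M : Eis} {φ : Eis → ℂ} (hc : HC M φ) (l : ℤ) :
    ∃ n₀ : Eis, n₀ ≠ 0 ∧ ∀ k, k ≠ 0 → ¬ NPk M φ l k → ∃ z, z ≠ 0 ∧ k = n₀ * z ^ 3 := by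
  classical
  by_cases h : ∃ k0, k0 ≠ 0 ∧ ¬ NPk M φ l k0
  · obtain ⟨k0, h0, hp0⟩ := h
    obtain ⟨n, m, rfl, hn, hm, hcf⟩ := exists_cubefree _ le_rfl h0
    refine ⟨n, hn, fun k hk0' hpk => ?_⟩
    obtain ⟨t, ht⟩ := principal_unique hc hk0' h0 hpk hp0
    have h1 : (m ^ 2) ^ 3 ∣ t ^ 3 := by
      rw [← ht]
      exact ⟨k * n ^ 2, by ring⟩
    have h2 : m ^ 2 ∣ t :=
      (UniqueFactorizationMonoid.pow_dvd_pow_iff_dvd (n := 3) (by norm_num)).mp h1
    obtain ⟨s, rfl⟩ := h2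
    have h3 : k * n ^ 2 = s ^ 3 := by
      have hm6 : (m ^ 6 : Eis) ≠ 0 := pow_ne_zero _ hm
      apply mul_left_cancel₀ hm6
      linear_combination ht
    have h4 : n ^ 2 ∣ s ^ 3 := ⟨k, by rw [← h3]; ring⟩
    obtain ⟨z, rfl⟩ := dvd_of_sq_dvd_cube _ le_rfl hn hcf h4
    have h5 : k = n * z ^ 3 := by
      have hn2 : (n ^ 2 : Eis) ≠ 0 := pow_ne_zero _ hn
      apply mul_left_cancel₀ hn2
      linear_combination h3
    refine ⟨z, ?_, h5⟩
    rintro rfl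
    apply hk0'
    rw [h5]; ring
  · push Not at h
    exact ⟨1, one_ne_zero, fun k hk hp => absurd (h k hk) hp⟩

lemma npk_of_npm {n : Eis} {ψ : Eis → ℂ} {l : ℤ} {k : Eis} (h : ¬ NPm n ψ l k) :
    ¬ NPk n (fun b => conj (ψ b)) l k := by
  unfold NPm NPk NP at *
  push Not at h ⊢
  refine ⟨h.1, fun a ha hca => ?_⟩
  have h1 := congrArg conj (h.2 a ha hca)
  rw [map_mul, map_one] at h1
  exact h1

lemma card_npm {n : Eis} {ψ : Eis → ℂ} (hc : HC n ψ) (l : ℤ) {H : ℕ} (hH : 1 ≤ H)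
    (S : Finset Eis) (hS : ∀ k ∈ S, k ∈ ball H ∧ k ≠ 0 ∧ ¬ NPm n ψ l k) :
    (S.card : ℝ) ≤ 18 * (H : ℝ) ^ (1 / 3 : ℝ) :=
  card_principal hc.conj l hH S fun k hk => ⟨(hS k hk).1, (hS k hk).2.1, npk_of_npm (hS k hk).2.2⟩

/-! ### symbols of cubes -/

/-- the squarefree kernel prime to `λ` -/
def rd (z : Eis) : Eis := ∏ p ∈ pp z, p

lemma rd_prim (z : Eis) : IsPrim (rd z) := (ppSet_pp z).isPrim_prod

lemma nm_rd_le {z : Eis} (hz : z ≠ 0) : nm (rd z) ≤ nm z := nm_le_of_dvd hz (prod_pp_dvd z)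

lemma sy_cube_prin {n₀ z d b : Eis} (hz : z ≠ 0) (hd : d ≠ 0) (hb : IsPrim b) :
    prin0 d b * sy (n₀ * z ^ 3) b = sy (n₀ * (rd (z * d)) ^ 3) b := by
  have hzd : z * d ≠ 0 := mul_ne_zero hz hd
  rw [Char766.sy_mul_left hb, Char766.sy_mul_left hb]
  by_cases hcop : IsCoprime b (z * d)
  · have h1 : IsCoprime b z := hcop.of_mul_right_left
    have h2 : IsCoprime b d := hcop.of_mul_right_right
    have h3 : IsCoprime b (rd (z * d)) := hcop.of_isCoprime_of_dvd_right (prod_pp_dvd _)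
    rw [Char766.sy_cube_left hb h1.symm, Char766.sy_cube_left hb h3.symm]
    unfold prin0
    rw [if_pos h2, one_mul]
  · have h1 : ∃ p, Mob705.IsPP p ∧ p ∣ b ∧ p ∣ z * d := by
      rw [isCoprime_iff_pp hb] at hcop
      push Not at hcop
      exact hcop
    obtain ⟨p, hp, hpb, hpzd⟩ := h1
    have hpm : p ∣ rd (z * d) := Finset.dvd_prod_of_mem _ ((mem_pp hzd).mpr ⟨hp, hpzd⟩)
    have h2 : ¬ IsCoprime (rd (z * d) ^ 3) b := fun h =>
      hp.prime.not_isUnit (h.isUnit_of_dvd' (hpm.trans (dvd_pow_self _ (by norm_num))) hpb)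
    rw [Char766.sy_eq_zero hb h2, mul_zero]
    rcases (hp.prime.dvd_or_dvd hpzd) with h3 | h3
    · have h4 : ¬ IsCoprime (z ^ 3) b := fun h =>
        hp.prime.not_isUnit (h.isUnit_of_dvd' (h3.trans (dvd_pow_self _ (by norm_num))) hpb)
      rw [Char766.sy_eq_zero hb h4, mul_zero, mul_zero]
    · have h4 : ¬ IsCoprime b d := fun h => hp.prime.not_isUnit (h.isUnit_of_dvd' hpb h3)
      unfold prin0
      rw [if_neg h4, zero_mul]

lemma conj_prin0 (d b : Eis) : conj (prin0 d b) = prin0 d b := by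
  unfold prin0; split_ifs <;> simp

/-! ### the smooth squarefree piece -/

lemma AS_congr {h : ℝ → ℂ} {κ : ℝ} {f g : Eis → ℂ} (hfg : ∀ b, IsPrim b → f b = g b) :
    AS h κ f = AS h κ g := by
  classical
  unfold AS
  refine Finset.sum_congr rfl fun c hc => ?_
  unfold sqB at hc
  rw [Finset.mem_filter, mem_primBall] at hc
  rw [hfg c hc.1.2]

lemma norm_AS_le {h : ℝ → ℂ} {B : ℝ} (hB : ∀ u, ‖h u‖ ≤ B) {f : Eis → ℂ}
    (hf : ∀ b, IsPrim b → ‖f b‖ ≤ 1) (κ : ℝ) : ‖AS h κ f‖ ≤ 18 * Real.exp (κ + 1) * B := by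
  classical
  have hB0 : 0 ≤ B := (norm_nonneg _).trans (hB 0)
  unfold AS
  refine (norm_sum_le _ _).trans ?_
  have h1 : ∀ c ∈ sqB κ, ‖f c * h (Real.log (nm c) - κ)‖ ≤ B := by
    intro c hc
    unfold sqB at hc
    rw [Finset.mem_filter, mem_primBall] at hc
    rw [norm_mul]
    calc _ ≤ 1 * B := mul_le_mul (hf c hc.1.2) (hB _) (norm_nonneg _) zero_le_one
      _ = B := one_mul _
  refine (Finset.sum_le_card_nsmul _ _ _ h1).trans ?_
  rw [nsmul_eq_mul]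
  refine mul_le_mul_of_nonneg_right ?_ hB0
  have h2 : (sqB κ).card ≤ 18 * ⌊Real.exp (κ + 1)⌋₊ := by
    unfold sqB
    exact (Finset.card_filter_le _ _).trans (card_primBall_le' _)
  calc ((sqB κ).card : ℝ) ≤ ((18 * ⌊Real.exp (κ + 1)⌋₊ : ℕ) : ℝ) := by exact_mod_cast h2
    _ = 18 * (⌊Real.exp (κ + 1)⌋₊ : ℝ) := by push_cast; ring
    _ ≤ _ := by
        gcongr
        exact Nat.floor_le (Real.exp_pos _).le

lemma HW.cpt {h : ℝ → ℂ} (hh : HW h) : HasCompactSupport h := by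
  refine HasCompactSupport.intro (isCompact_Icc (a := -1) (b := 1)) fun u hu => ?_
  by_contra h0
  exact hu (abs_le.mp (hh.supp u h0))

open Classical in
lemma AS_eq_FS {h : ℝ → ℂ} (hh : HW h) (Ξ : Eis → ℂ) (κ t : ℝ) :
    AS h κ (fun c => Ξ c * (nm c : ℂ) ^ (I * t)) = FY813.FS h Ξ κ t := by
  unfold FY813.FS FE47.PS AS sqB
  rw [tsum_eq_sum (s := primBall ⌊Real.exp (κ + 1)⌋₊), Finset.sum_filter]
  · refine Finset.sum_congr rfl fun b hb => ?_
    have hbp := (mem_primBall.mp hb).2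
    have hb0 := nm_ne_zero_of_prim hbp
    have e := pw_eq_cpow (t := t) hb0
    unfold Weight600.pw at e
    simp only [End699.ext, if_pos hbp]
    rw [e, mul_comm (t : ℂ) Complex.I]
    split_ifs <;> ring
  · intro b hb
    by_cases hbp : IsPrim b
    · have h0 : h (Real.log (nm b) - κ) = 0 := by
        by_contra hne
        apply hb
        rw [mem_primBall]
        refine ⟨Nat.le_floor ?_, hbp⟩
        have h1 := (abs_le.mp (hh.supp _ hne)).2
        have hb1 : (0 : ℝ) < nm b := by exact_mod_cast Nat.pos_of_ne_zero (nm_ne_zero_of_prim hbp)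
        rw [← Real.log_le_iff_le_exp hb1]
        linarith
      rw [h0, mul_zero, mul_zero]
    · simp [End699.ext, hbp]

lemma npk_rd {n : Eis} {φ : Eis → ℂ} (hφ : HC n φ) {l : ℤ} {n₀ z d : Eis} (hn₀ : n₀ ≠ 0)
    (hz : z ≠ 0) (hd : d ≠ 0) (h : NPk n φ l (n₀ * z ^ 3)) :
    NPk n φ l (n₀ * (rd (z * d)) ^ 3) := by
  unfold NPk at h ⊢
  have hk : n₀ * z ^ 3 ≠ 0 := mul_ne_zero hn₀ (pow_ne_zero _ hz)
  have hk' : n₀ * rd (z * d) ^ 3 ≠ 0 := mul_ne_zero hn₀ (pow_ne_zero _ (rd_prim _).ne_zero)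
  have hc : HC (n * (9 * (n₀ * z ^ 3))) (fun b => φ b * conj (sy (n₀ * z ^ 3) b)) :=
    hφ.mul (hc_sy hk).conj
  have hq' : (n * (9 * (n₀ * rd (z * d) ^ 3))) * (z * d) ≠ 0 := by
    have h9 : (9 : Eis) ≠ 0 := nine_ne_zero
    have := hφ.q0
    have := mul_ne_zero h9 hk'
    positivity
  rcases h.changeMod hc hq' with h1 | ⟨a, ha1, ha2, ha3⟩
  · left; exact h1
  · right
    refine ⟨a, ha1, ha2.of_mul_right_left, ?_⟩
    have hcop : IsCoprime a d := ha2.of_mul_right_right.of_mul_right_right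
    beta_reduce at ha3 ⊢
    have e1 : prin0 d a = 1 := by unfold prin0; rw [if_pos hcop]
    have e2 := sy_cube_prin (n₀ := n₀) hz hd ha1
    rw [e1, one_mul] at e2
    rw [← e2]
    unfold prin0 at ha3
    rw [if_pos ha2, mul_one] at ha3
    exact ha3

/-- **the smooth squarefree piece at `k = n₀ z³`** is small -/
theorem AS_small {h : ℝ → ℂ} (hh : HW h) (l : ℤ) : ∃ C : ℝ, 0 ≤ C ∧
    ∀ (n : Eis) (φ : Eis → ℂ), HC n φ → ∀ n₀ z d : Eis, n₀ ≠ 0 → z ≠ 0 → d ≠ 0 →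
      NPk n φ l (n₀ * z ^ 3) → ∀ κ t : ℝ,
      ‖AS h κ (fun c => twt φ l t c * prin0 d c * conj (sy (n₀ * z ^ 3) c))‖ ≤
        C * ((1 + |t|) * ((nm n : ℝ) * nm n₀) ^ (1 / 2 : ℝ) * tau (rd (z * d)) *
          Real.exp (3 / 4 * κ)) := by
  obtain ⟨C, hC0, hC⟩ := FY813.FS_small hh.cd (HW.cpt hh) l
  refine ⟨C, hC0, fun n φ hφ n₀ z d hn₀ hz hd hnp κ t => ?_⟩
  have h1 := hC n φ hφ n₀ (rd (z * d)) hn₀ (rd_prim _) (npk_rd hφ hn₀ hz hd hnp) κ t
  refine le_trans (le_of_eq ?_) h1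
  congr 1
  rw [← AS_eq_FS hh]
  refine AS_congr fun b hb => ?_
  have e := sy_cube_prin (n₀ := n₀) hz hd hb
  have e2 := congrArg conj e
  rw [map_mul, conj_prin0] at e2
  rw [← e2]
  unfold twt End699.tw
  ring

end Crest.Agent.R017.BoxP271
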