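import Crest.Agent.R017.Prov_71

/-!
# Row 17, provider spine: the sup rules at the level of `BG` (helper271)

* `Sup1 θ D R` : `R l (p :: ps) ≤ C (s₁ s₂ e^{|l|})^ε e^{(2θ+ε) len p} R l ps`
* `BG_sup`, `BG_supS` : the fields `sup`, `supS` of `BRules`
-/

set_option autoImplicit false

noncomputable section

namespace Crest.Agent.R017.XSup271

open Crest.Agent.R017.XG702
open Crest.Agent.R017.Prov71

variable {Pc Lam : Type*} {D : Pcs Pc Kd} {R : Lam → ℝ → List Pc → ℝ}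

/-- removal of one piece, pointwise bound -/
def Sup1 {τ : Type*} (θ : ℝ) (D : Pcs Pc τ) (R : ℝ → List Pc → ℝ) : Prop :=
  ∀ ε : ℝ, 0 < ε → ∃ C : ℝ, 1 ≤ C ∧ ∀ (l : ℝ) (p : Pc) (ps : List Pc), 0 ≤ D.len p →
    R l (p :: ps) ≤ C * (max 1 (D.s1 p) * max 1 (D.s2 p) * Real.exp |l|) ^ ε *
      Real.exp ((2 * θ + ε) * D.len p) * R l ps

lemma Sup1.list {τ : Type*} [DecidableEq τ] {θ : ℝ} {D : Pcs Pc τ} {R : ℝ → List Pc → ℝ}
    (hθ : 0 ≤ θ) (hR : ∀ l ps, 0 ≤ R l ps) (h : Sup1 θ D R) {ε : ℝ} (hε : 0 < ε) :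
    ∃ C : ℝ, 1 ≤ C ∧ ∀ (X δ' B : ℝ) (l : ℝ) (gs ps : List Pc), 1 ≤ X → 0 ≤ δ' → 0 ≤ B →
      D.Good X δ' B gs →
      R l (gs ++ ps) ≤ (C * (X ^ δ' * X ^ B * Real.exp |l|) ^ ε) ^ gs.length *
        Real.exp ((2 * θ + ε) * (gs.map D.len).sum) * R l ps := by
  obtain ⟨C, hC1, hC⟩ := h ε hε
  refine ⟨C, hC1, fun X δ' B l gs ps hX hδ' hB hg => ?_⟩
  induction gs with
  | nil => simp
  | cons g gs ih =>
    have hg' : D.Good X δ' B gs := fun p hp => hg p (List.mem_cons_of_mem _ hp)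
    obtain ⟨h1, h2, h3⟩ := hg g List.mem_cons_self
    have ih' := ih hg'
    have h4 := hC l g (gs ++ ps) h3
    have hX1 : (1 : ℝ) ≤ X ^ δ' := Real.one_le_rpow hX hδ'
    have hX2 : (1 : ℝ) ≤ X ^ B := Real.one_le_rpow hX hB
    have h5 : max 1 (D.s1 g) ≤ X ^ δ' := max_le hX1 h1
    have h6 : max 1 (D.s2 g) ≤ X ^ B := max_le hX2 h2
    have hm1 : (0 : ℝ) ≤ max 1 (D.s1 g) := le_max_of_le_left zero_le_one
    have hm2 : (0 : ℝ) ≤ max 1 (D.s2 g) := le_max_of_le_left zero_le_one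
    have h7 : C * (max 1 (D.s1 g) * max 1 (D.s2 g) * Real.exp |l|) ^ ε ≤
        C * (X ^ δ' * X ^ B * Real.exp |l|) ^ ε := by gcongr
    rw [List.cons_append, List.length_cons, List.map_cons, List.sum_cons, pow_succ, mul_add,
      Real.exp_add]
    calc R l (g :: (gs ++ ps)) ≤ C * (max 1 (D.s1 g) * max 1 (D.s2 g) * Real.exp |l|) ^ ε *
          Real.exp ((2 * θ + ε) * D.len g) * R l (gs ++ ps) := h4
      _ ≤ C * (X ^ δ' * X ^ B * Real.exp |l|) ^ ε * Real.exp ((2 * θ + ε) * D.len g) *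
          ((C * (X ^ δ' * X ^ B * Real.exp |l|) ^ ε) ^ gs.length *
            Real.exp ((2 * θ + ε) * (gs.map D.len).sum) * R l ps) := by
          have hr := hR l (gs ++ ps)
          gcongr
      _ = _ := by ring

/-- the total length of a list of pieces of two kinds -/
lemma sum_len {X : ℝ} (hX : 1 < X) (gs : List Pc) :
    (gs.map D.len).sum = (D.mass X gs .mo + D.mass X gs .am) * Real.log X := by
  have hl : Real.log X ≠ 0 := (Real.log_pos hX).ne'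
  induction gs with
  | nil => simp
  | cons g gs ih =>
    rw [List.map_cons, List.sum_cons, ih, Pcs.mass_cons, Pcs.mass_cons]
    have h1 : D.len g = D.nl X g * Real.log X := by
      unfold Pcs.nl
      field_simp
    rw [h1]
    cases hk : D.kind g <;> simp <;> ring

lemma wt_add (m a b c : ℝ) (t : Kd) : wt m a t = wt b c t + wt (m - b) (a - c) t := by
  cases t <;> simp [wt]

/-- `X^{...}` bookkeeping -/
lemma pow_bound {C X δ' B κ k θ' ε₁ : ℝ} {N n : ℕ} (hC : 1 ≤ C) (hX : 1 ≤ X) (hδ' : 0 ≤ δ')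
    (hB : 0 ≤ B) (hk : |k| ≤ κ) (hε : 0 ≤ ε₁) (hn : n ≤ N) :
    (C * (X ^ δ' * X ^ B * Real.exp |k * Real.log X|) ^ ε₁) ^ n ≤
      C ^ N * X ^ ((δ' + B + κ) * ε₁ * N) := by
  have hX0 : 0 < X := by linarith
  have hlog : 0 ≤ Real.log X := Real.log_nonneg hX
  have h1 : Real.exp |k * Real.log X| ≤ X ^ κ := by
    rw [Real.rpow_def_of_pos hX0, abs_mul, abs_of_nonneg hlog, mul_comm]
    exact Real.exp_le_exp.mpr (mul_le_mul_of_nonneg_left hk hlog)
  have h2 : (X ^ δ' * X ^ B * Real.exp |k * Real.log X|) ^ ε₁ ≤ X ^ ((δ' + B + κ) * ε₁) := by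
    rw [Real.rpow_mul hX0.le, Real.rpow_add hX0, Real.rpow_add hX0]
    gcongr
  have h3 : (1 : ℝ) ≤ (X ^ δ' * X ^ B * Real.exp |k * Real.log X|) ^ ε₁ := by
    refine Real.one_le_rpow ?_ hε
    have a1 : (1 : ℝ) ≤ X ^ δ' := Real.one_le_rpow hX hδ'
    have a2 : (1 : ℝ) ≤ X ^ B := Real.one_le_rpow hX hB
    have a3 : (1 : ℝ) ≤ Real.exp |k * Real.log X| := Real.one_le_exp (abs_nonneg _)
    exact one_le_mul_of_one_le_of_one_le (one_le_mul_of_one_le_of_one_le a1 a2) a3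
  have h4 : (1 : ℝ) ≤ C * (X ^ δ' * X ^ B * Real.exp |k * Real.log X|) ^ ε₁ :=
    one_le_mul_of_one_le_of_one_le hC h3
  calc (C * (X ^ δ' * X ^ B * Real.exp |k * Real.log X|) ^ ε₁) ^ n ≤
      (C * (X ^ δ' * X ^ B * Real.exp |k * Real.log X|) ^ ε₁) ^ N := pow_le_pow_right₀ h4 hn
    _ = C ^ N * ((X ^ δ' * X ^ B * Real.exp |k * Real.log X|) ^ ε₁) ^ N := mul_pow _ _ _
    _ ≤ C ^ N * (X ^ ((δ' + B + κ) * ε₁)) ^ N := by gcongr
    _ = _ := by
        rw [← Real.rpow_natCast (X ^ ((δ' + B + κ) * ε₁)) N, ← Real.rpow_mul hX0.le]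

/-- constants are absorbed -/
lemma exists_X {C : ℝ} (hC : 1 ≤ C) {ε : ℝ} (hε : 0 < ε) : ∃ X₀ : ℝ, 1 < X₀ ∧
    ∀ X : ℝ, X₀ ≤ X → C ≤ X ^ ε := by
  refine ⟨max 2 (C ^ (1 / ε)), lt_of_lt_of_le one_lt_two (le_max_left _ _), fun X hX => ?_⟩
  have hC0 : 0 ≤ C := by linarith
  calc C = (C ^ (1 / ε)) ^ ε := by
        rw [← Real.rpow_mul hC0, one_div_mul_cancel hε.ne', Real.rpow_one]
    _ ≤ X ^ ε := Real.rpow_le_rpow (by positivity) ((le_max_right _ _).trans hX) hε.le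

lemma fin_exp {θ s δ ε δ'' B' κ N v e : ℝ} (hs0 : 0 ≤ s) (hδ : 0 ≤ δ) (hδ1 : δ ≤ 1)
    (hd'' : δ'' ≤ 1) (hN : 0 ≤ N)
    (hs2 : s * ((1 + B' + (κ + 1)) * N + (v + 4) + 1) ≤ ε / 4)
    (hd3 : 4 * δ * (2 * θ + 1) ≤ ε / 4) :
    ε / 4 + (δ'' + B' + (κ + 1)) * s * N + (2 * θ + s) * (v + 4 * δ) + (e + ε / 4) ≤
      2 * θ * v + e + ε := by
  have e1 : (δ'' + B' + (κ + 1)) * s * N ≤ (1 + B' + (κ + 1)) * s * N := by gcongr
  have e2 : s * δ ≤ s := mul_le_of_le_one_right hs0 hδ1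
  nlinarith

/-- **field `sup`** -/
theorem BG_sup {θ : ℝ} (hθ : 0 ≤ θ) (hperm : Pinv R) (hR : ∀ lam l ps, 0 ≤ R lam l ps)
    (hS : ∀ lam, Sup1 θ D (R lam)) (κ : ℝ) (u : List ℝ) (m a b c e : ℝ) (hκ : 0 ≤ κ) (hu : Okl u m a)
    (hb : 0 ≤ b) (hbm : b ≤ m) (hc : 0 ≤ c) (hca : c ≤ a)
    (h : BG D R κ u (wt (m - b) (a - c)) e) : BG D R κ u (wt m a) (2 * θ * (b + c) + e) := by
  intro ε hε
  obtain ⟨δ₂, hδ₂, L₂⟩ := h (ε / 4) (by positivity)
  set δ : ℝ := min (δ₂ / 2) (min 1 (ε / (16 * (2 * θ + 1)))) with hδdef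
  have hδ : 0 < δ := by positivity
  have hd1 : δ ≤ δ₂ / 2 := min_le_left _ _
  have hd2 : δ ≤ 1 := (min_le_right _ _).trans (min_le_left _ _)
  have hd3 : δ ≤ ε / (16 * (2 * θ + 1)) := (min_le_right _ _).trans (min_le_right _ _)
  have hd3' : 4 * δ * (2 * θ + 1) ≤ ε / 4 := by
    rw [le_div_iff₀ (by positivity)] at hd3
    linarith
  refine ⟨δ, hδ, fun lam N B => ?_⟩
  set B' : ℝ := max B 0 with hB'
  have hB'0 : 0 ≤ B' := le_max_right _ _
  obtain ⟨δ', hδ', X₂, hX₂, H⟩ := L₂ lam N B'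
  set δ'' : ℝ := min δ' 1 with hδ''
  have hδ''0 : 0 < δ'' := by positivity
  -- the small exponent
  set s : ℝ := min 1 (ε / (4 * ((1 + B' + (κ + 1)) * N + (b + c + 4) + 1))) with hs
  have hN0 : (0 : ℝ) ≤ N := Nat.cast_nonneg N
  have hbc : 0 ≤ b + c := by linarith
  have hden : 0 < (1 + B' + (κ + 1)) * N + (b + c + 4) + 1 := by positivity
  have hs0 : 0 < s := by positivity
  have hs1 : s ≤ 1 := min_le_left _ _
  have hs2 : s * ((1 + B' + (κ + 1)) * N + (b + c + 4) + 1) ≤ ε / 4 := by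
    have : s ≤ ε / (4 * ((1 + B' + (κ + 1)) * N + (b + c + 4) + 1)) := min_le_right _ _
    rw [le_div_iff₀ (by positivity)] at this
    linarith
  obtain ⟨C, hC1, hC⟩ := Sup1.list hθ (hR lam) (hS lam) hs0
  obtain ⟨X₁, hX₁, hX₁'⟩ := exists_X (one_le_pow₀ (n := N) hC1) (show 0 < ε / 4 by positivity)
  refine ⟨δ'', hδ''0, max X₁ X₂, lt_max_of_lt_left hX₁, fun X hX k us gs hk hus hgs hgood => ?_⟩
  have hXX₁ : X₁ ≤ X := (le_max_left _ _).trans hX
  have hXX₂ : X₂ ≤ X := (le_max_right _ _).trans hX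
  have hX1 : 1 < X := hX₁.trans_le hXX₁
  have hX0 : 0 < X := by linarith
  have hlog : 0 < Real.log X := Real.log_pos hX1
  have hnl : ∀ g ∈ gs, 0 ≤ D.nl X g := fun g hg =>
    div_nonneg (hgood g (List.mem_append_right _ hg)).2.2 hlog.le
  have hgs' : D.Gran X δ N gs (fun t => wt b c t + wt (m - b) (a - c) t) := by
    refine ⟨hgs.1, hgs.2.1, fun t => ?_⟩
    have := hgs.2.2 t
    rwa [wt_add m a b c t] at this
  obtain ⟨g₁, g₂, hp, hg₁, hg₂⟩ := Gran_split hδ.le hnl (wt_nonneg hb hc)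
    (wt_nonneg (by linarith) (by linarith)) hgs'
  have hperm' : (us ++ gs).Perm (g₁ ++ (us ++ g₂)) := by
    have h1 : (us ++ gs).Perm (us ++ (g₁ ++ g₂)) := hp.append_left us
    have h2 : (us ++ (g₁ ++ g₂)).Perm (g₁ ++ (us ++ g₂)) := by
      rw [← List.append_assoc, ← List.append_assoc]
      exact List.perm_append_comm.append_right g₂
    exact h1.trans h2
  have hgoodB : ∀ p ∈ us ++ gs, D.s1 p ≤ X ^ δ'' ∧ D.s2 p ≤ X ^ B' ∧ 0 ≤ D.len p := fun p hp' =>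
    ⟨(hgood p hp').1, (hgood p hp').2.1.trans
      (Real.rpow_le_rpow_of_exponent_le hX1.le (le_max_left _ _)), (hgood p hp').2.2⟩
  have hG1 : D.Good X δ'' B' g₁ := fun p hp' => hgoodB p
    (hperm'.mem_iff.mpr (List.mem_append_left _ hp'))
  have hG2 : D.Good X δ' B' (us ++ g₂) := fun p hp' => by
    have h1 := hgoodB p (hperm'.mem_iff.mpr (List.mem_append_right _ hp'))
    exact ⟨h1.1.trans (Real.rpow_le_rpow_of_exponent_le hX1.le (min_le_left _ _)), h1.2⟩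
  have h1 := hC X δ'' B' (k * Real.log X) g₁ (us ++ g₂) hX1.le hδ''0.le hB'0 hG1
  have h2 := H X hXX₂ k us g₂ (hk.trans (by linarith)) (Near_mono hus (by linarith))
    (Gran_mono hg₂ (by linarith) le_rfl) hG2
  rw [hperm _ _ _ _ hperm']
  have hk' : |k| ≤ κ + 1 := by
    have h3 := abs_sub_abs_le_abs_sub k κ
    rw [abs_of_nonneg hκ] at h3
    linarith
  have h3 := pow_bound (C := C) (X := X) (δ' := δ'') (B := B') (κ := κ + 1) (k := k)
    (θ' := θ) (ε₁ := s) (N := N) (n := g₁.length) hC1 hX1.le hδ''0.le hB'0 hk' hs0.le hg₁.1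
  have hmass : D.mass X g₁ .mo + D.mass X g₁ .am ≤ b + c + 4 * δ := by
    have a1 := (abs_le.mp (hg₁.2.2 .mo)).2
    have a2 := (abs_le.mp (hg₁.2.2 .am)).2
    simp only [wt] at a1 a2
    linarith
  have hmass0 : 0 ≤ D.mass X g₁ .mo + D.mass X g₁ .am := by
    have hn1 : ∀ g ∈ g₁, 0 ≤ D.nl X g := fun g hg =>
      hnl g (hp.mem_iff.mpr (List.mem_append_left _ hg))
    exact add_nonneg (mass_nonneg hn1 _) (mass_nonneg hn1 _)
  have h4 : Real.exp ((2 * θ + s) * (g₁.map D.len).sum) ≤ X ^ ((2 * θ + s) * (b + c + 4 * δ)) := by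
    rw [sum_len hX1, Real.rpow_def_of_pos hX0]
    apply Real.exp_le_exp.mpr
    calc (2 * θ + s) * ((D.mass X g₁ .mo + D.mass X g₁ .am) * Real.log X) ≤
          (2 * θ + s) * ((b + c + 4 * δ) * Real.log X) := by gcongr
      _ = _ := by ring
  calc R lam (k * Real.log X) (g₁ ++ (us ++ g₂))
      ≤ (C * (X ^ δ'' * X ^ B' * Real.exp |k * Real.log X|) ^ s) ^ g₁.length *
        Real.exp ((2 * θ + s) * (g₁.map D.len).sum) * R lam (k * Real.log X) (us ++ g₂) := h1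
    _ ≤ (C ^ N * X ^ ((δ'' + B' + (κ + 1)) * s * N)) * X ^ ((2 * θ + s) * (b + c + 4 * δ)) *
        X ^ (e + ε / 4) := by
        have := hR lam (k * Real.log X) (us ++ g₂)
        gcongr
    _ ≤ (X ^ (ε / 4) * X ^ ((δ'' + B' + (κ + 1)) * s * N)) * X ^ ((2 * θ + s) * (b + c + 4 * δ)) *
        X ^ (e + ε / 4) := by
        gcongr
        exact hX₁' X hXX₁
    _ = X ^ (ε / 4 + (δ'' + B' + (κ + 1)) * s * N + (2 * θ + s) * (b + c + 4 * δ) +
        (e + ε / 4)) := by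
        rw [← Real.rpow_add hX0, ← Real.rpow_add hX0, ← Real.rpow_add hX0]
    _ ≤ _ := by
        refine Real.rpow_le_rpow_of_exponent_le hX1.le ?_
        exact fin_exp hs0.le hδ.le hd2 (min_le_right _ _) hN0 hs2 hd3'

/-- **field `supS`** -/
theorem BG_supS {θ : ℝ} (hθ : 0 ≤ θ) (hR : ∀ lam l ps, 0 ≤ R lam l ps)
    (hS : ∀ lam, Sup1 θ D (R lam)) (κ y : ℝ) (u : List ℝ) (m a e : ℝ) (hκ : 0 ≤ κ) (hy : 0 ≤ y)
    (h : BG D R κ u (wt m a) e) : BG D R κ (y :: u) (wt m a) (2 * θ * y + e) := by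
  intro ε hε
  obtain ⟨δ₂, hδ₂, L₂⟩ := h (ε / 4) (by positivity)
  set δ : ℝ := min δ₂ (min 1 (ε / (16 * (2 * θ + 1)))) with hδdef
  have hδ : 0 < δ := by positivity
  have hd1 : δ ≤ δ₂ := min_le_left _ _
  have hd2 : δ ≤ 1 := (min_le_right _ _).trans (min_le_left _ _)
  have hd3 : δ ≤ ε / (16 * (2 * θ + 1)) := (min_le_right _ _).trans (min_le_right _ _)
  have hd3' : 4 * δ * (2 * θ + 1) ≤ ε / 4 := by
    rw [le_div_iff₀ (by positivity)] at hd3
    linarith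
  refine ⟨δ, hδ, fun lam N B => ?_⟩
  set B' : ℝ := max B 0 with hB'
  have hB'0 : 0 ≤ B' := le_max_right _ _
  obtain ⟨δ', hδ', X₂, hX₂, H⟩ := L₂ lam N B'
  set δ'' : ℝ := min δ' 1 with hδ''
  have hδ''0 : 0 < δ'' := by positivity
  set s : ℝ := min 1 (ε / (4 * ((1 + B' + (κ + 1)) + (y + 4) + 1))) with hs
  have hden : 0 < (1 + B' + (κ + 1)) + (y + 4) + 1 := by positivity
  have hs0 : 0 < s := by positivity
  have hs1 : s ≤ 1 := min_le_left _ _
  have hs2 : s * ((1 + B' + (κ + 1)) + (y + 4) + 1) ≤ ε / 4 := by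
    have : s ≤ ε / (4 * ((1 + B' + (κ + 1)) + (y + 4) + 1)) := min_le_right _ _
    rw [le_div_iff₀ (by positivity)] at this
    linarith
  obtain ⟨C, hC1, hC⟩ := Sup1.list hθ (hR lam) (hS lam) hs0
  obtain ⟨X₁, hX₁, hX₁'⟩ := exists_X (one_le_pow₀ (n := 1) hC1) (show 0 < ε / 4 by positivity)
  refine ⟨δ'', hδ''0, max X₁ X₂, lt_max_of_lt_left hX₁, fun X hX k us gs hk hus hgs hgood => ?_⟩
  have hXX₁ : X₁ ≤ X := (le_max_left _ _).trans hX
  have hXX₂ : X₂ ≤ X := (le_max_right _ _).trans hX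
  have hX1 : 1 < X := hX₁.trans_le hXX₁
  have hX0 : 0 < X := by linarith
  have hlog : 0 < Real.log X := Real.log_pos hX1
  unfold Pcs.Near at hus
  cases hus with
  | cons hp hus' =>
    rename_i p us'
    have hgoodB : ∀ q ∈ (p :: us') ++ gs, D.s1 q ≤ X ^ δ'' ∧ D.s2 q ≤ X ^ B' ∧ 0 ≤ D.len q :=
      fun q hq => ⟨(hgood q hq).1, (hgood q hq).2.1.trans
        (Real.rpow_le_rpow_of_exponent_le hX1.le (le_max_left _ _)), (hgood q hq).2.2⟩
    have hG1 : D.Good X δ'' B' [p] := fun q hq => hgoodB q (by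
      rw [List.mem_singleton] at hq
      subst hq
      simp)
    have hG2 : D.Good X δ' B' (us' ++ gs) := fun q hq => by
      have h1 := hgoodB q (by rw [List.cons_append]; exact List.mem_cons_of_mem _ hq)
      exact ⟨h1.1.trans (Real.rpow_le_rpow_of_exponent_le hX1.le (min_le_left _ _)), h1.2⟩
    have h1 := hC X δ'' B' (k * Real.log X) [p] (us' ++ gs) hX1.le hδ''0.le hB'0 hG1
    have h2 := H X hXX₂ k us' gs (hk.trans (by linarith)) (Near_mono hus' (by linarith))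
      (Gran_mono hgs (by linarith) le_rfl) hG2
    have hk' : |k| ≤ κ + 1 := by
      have h3 := abs_sub_abs_le_abs_sub k κ
      rw [abs_of_nonneg hκ] at h3
      linarith
    have h3 := pow_bound (C := C) (X := X) (δ' := δ'') (B := B') (κ := κ + 1) (k := k)
      (θ' := θ) (ε₁ := s) (N := 1) (n := [p].length) hC1 hX1.le hδ''0.le hB'0 hk' hs0.le le_rfl
    have hlen : ([p].map D.len).sum ≤ (y + 4 * δ) * Real.log X := by
      have a1 := (abs_le.mp hp.2).2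
      have a2 : D.len p = D.nl X p * Real.log X := by
        unfold Pcs.nl
        field_simp
      simp only [List.map_cons, List.map_nil, List.sum_cons, List.sum_nil, add_zero]
      rw [a2]
      have : D.nl X p ≤ y + 4 * δ := by linarith
      gcongr
    have h4 : Real.exp ((2 * θ + s) * ([p].map D.len).sum) ≤ X ^ ((2 * θ + s) * (y + 4 * δ)) := by
      rw [Real.rpow_def_of_pos hX0]
      apply Real.exp_le_exp.mpr
      calc (2 * θ + s) * ([p].map D.len).sum ≤ (2 * θ + s) * ((y + 4 * δ) * Real.log X) := by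
            gcongr
        _ = _ := by ring
    calc R lam (k * Real.log X) ([p] ++ (us' ++ gs))
        ≤ (C * (X ^ δ'' * X ^ B' * Real.exp |k * Real.log X|) ^ s) ^ [p].length *
          Real.exp ((2 * θ + s) * ([p].map D.len).sum) * R lam (k * Real.log X) (us' ++ gs) := h1
      _ ≤ (C ^ 1 * X ^ ((δ'' + B' + (κ + 1)) * s * (1 : ℕ))) * X ^ ((2 * θ + s) * (y + 4 * δ)) *
          X ^ (e + ε / 4) := by
          have := hR lam (k * Real.log X) (us' ++ gs)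
          gcongr
      _ ≤ (X ^ (ε / 4) * X ^ ((δ'' + B' + (κ + 1)) * s * (1 : ℕ))) *
          X ^ ((2 * θ + s) * (y + 4 * δ)) * X ^ (e + ε / 4) := by
          gcongr
          exact hX₁' X hXX₁
      _ = X ^ (ε / 4 + (δ'' + B' + (κ + 1)) * s * (1 : ℕ) + (2 * θ + s) * (y + 4 * δ) +
          (e + ε / 4)) := by
          rw [← Real.rpow_add hX0, ← Real.rpow_add hX0, ← Real.rpow_add hX0]
      _ ≤ _ := by
          refine Real.rpow_le_rpow_of_exponent_le hX1.le ?_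
          exact fin_exp hs0.le hδ.le hd2 (min_le_right _ _) (by norm_num)
            (by simpa using hs2) hd3'

end Crest.Agent.R017.XSup271
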