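import Crest.Agent.R017.SupPc_271
import Crest.Agent.R017.XSup_271
import Crest.Agent.R017.ProvI_71

/-!
# Row 17, provider: the fields `sup`, `supS` for the literal instance (helper271)
-/

set_option autoImplicit false

noncomputable section

open Complex Set
open scoped ComplexConjugate ContDiff

namespace Crest.Agent.R017.SupI271

open Crest.Agent.R012 Crest.Agent.R012.Eis Crest.Agent.R012.LS2
open Crest.Agent.R017.CM106 Crest.Agent.R017.FE47 Crest.Agent.R017.End699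
open Crest.Agent.R017.XG702 (Pcs BG)
open Crest.Agent.R017.B770 Crest.Agent.R017.Prov71 Crest.Agent.R017.XSup271
open Crest.Agent.R017.HP842 (UT Pc pc)
open Crest.Agent.R017.SupPc271

/-- **pointwise sup bound of a piece of the provider** -/
theorem sup_pq {θ ε : ℝ} (hθ : 1 / 2 < θ) (hθ1 : θ ≤ 1) (hPF : PF Set.univ θ)
    (hε : 0 < ε) (hε1 : ε ≤ 1) {h : ℝ → ℝ} (hd : ContDiff ℝ ∞ h) (hc : HasCompactSupport h)
    {P : DPar} (hP : P.OK) :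
    ∃ C : ℝ, 1 ≤ C ∧ ∀ (p : Pq) (k : Eis), k ≠ 0 → P.NP2 k →
      ‖CS (pc h (p.pc P)) k‖ ≤
        C * (((nm p.d : ℝ) * nm k * (1 + |p.t|)) ^ ε * Real.exp ((θ + ε) * p.z)) := by
  obtain ⟨C1, h10, h1⟩ := sup_pcS hθ hθ1 hPF hε hε1 P.l₂ hd hc
  obtain ⟨C2, h20, h2⟩ := sup_pcA hθ hθ1 hPF hε hε1 P.l₁ hd hc
  refine ⟨1 + (C1 + C2) * ((nm P.n : ℝ) ^ 2) ^ ε, ?_, fun p k hk hnp => ?_⟩
  · have : 0 ≤ (C1 + C2) * ((nm P.n : ℝ) ^ 2) ^ ε := by positivity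
    linarith
  have e1 : ((nm P.n : ℝ) ^ 2 * nm p.d * nm k * (1 + |p.t|)) ^ ε =
      ((nm P.n : ℝ) ^ 2) ^ ε * ((nm p.d : ℝ) * nm k * (1 + |p.t|)) ^ ε := by
    rw [← Real.mul_rpow (by positivity) (by positivity)]
    ring_nf
  have e2 : (Real.exp p.z) ^ (θ + ε) = Real.exp ((θ + ε) * p.z) := by
    rw [← Real.exp_mul]; congr 1; ring
  have hW : 0 ≤ ((nm p.d : ℝ) * nm k * (1 + |p.t|)) ^ ε * Real.exp ((θ + ε) * p.z) := by
    positivity
  have key : ∀ c : ℝ, 0 ≤ c → c ≤ C1 + C2 →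
      c * (((nm P.n : ℝ) ^ 2 * nm p.d * nm k * (1 + |p.t|)) ^ ε * (Real.exp p.z) ^ (θ + ε)) ≤
      (1 + (C1 + C2) * ((nm P.n : ℝ) ^ 2) ^ ε) *
        (((nm p.d : ℝ) * nm k * (1 + |p.t|)) ^ ε * Real.exp ((θ + ε) * p.z)) := by
    intro c hc0 hc1
    rw [e1, e2]
    have h3 : 0 ≤ ((nm P.n : ℝ) ^ 2) ^ ε := by positivity
    calc c * (((nm P.n : ℝ) ^ 2) ^ ε * ((nm p.d : ℝ) * nm k * (1 + |p.t|)) ^ ε *
          Real.exp ((θ + ε) * p.z)) = (c * ((nm P.n : ℝ) ^ 2) ^ ε) *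
          (((nm p.d : ℝ) * nm k * (1 + |p.t|)) ^ ε * Real.exp ((θ + ε) * p.z)) := by ring
      _ ≤ _ := by
          refine mul_le_mul_of_nonneg_right ?_ hW
          have : c * ((nm P.n : ℝ) ^ 2) ^ ε ≤ (C1 + C2) * ((nm P.n : ℝ) ^ 2) ^ ε := by gcongr
          linarith
  cases hkd : p.kd with
  | mo =>
    refine (h1 P.n P.ψ hP.ψ p.d k p.d0 hk hnp.2 (p.pc P) (Real.exp_pos _) ?_).trans
      (key C1 h10 (by linarith))
    intro b _
    simp only [Pq.pc_ψ, hkd, chK]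
    rfl
  | am =>
    refine (h2 P.n P.φ hP.φ p.d k p.d0 hk hnp.1 (p.pc P) (Real.exp_pos _) ?_).trans
      (key C2 h20 (by linarith))
    intro b _
    simp only [Pq.pc_ψ, hkd, chK]
    rfl

/-- `Sup1` for the second moment over any set of admissible `k` -/
theorem sup1_RQ {θ : ℝ} (hθ : 1 / 2 < θ) (hθ1 : θ ≤ 1) (hPF : PF Set.univ θ)
    {h : ℝ → ℝ} (hd : ContDiff ℝ ∞ h) (hc : HasCompactSupport h) {P : DPar} (hP : P.OK)
    {Q : Eis → Prop} (hQ : ∀ k, Q k → P.NP2 k) :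
    Sup1 θ Dq (fun l ps => RQ Q h l (ps.map (Pq.pc P))) := by
  classical
  intro ε hε
  set s : ℝ := min 1 (ε / 2) with hs
  have hs0 : 0 < s := by positivity
  have hs1 : s ≤ 1 := min_le_left _ _
  have hs2 : 2 * s ≤ ε := by have := min_le_right (1 : ℝ) (ε / 2); linarith
  obtain ⟨C, hC1, hC⟩ := sup_pq hθ hθ1 hPF hs0 hs1 hd hc hP
  refine ⟨C ^ 2, one_le_pow₀ hC1, fun l p ps hlen => ?_⟩
  simp only [Dq_len, Dq_s1, Dq_s2] at hlen ⊢
  unfold RQ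
  rw [Finset.mul_sum]
  refine Finset.sum_le_sum fun k hk => ?_
  rw [Finset.mem_filter, mem_bl (Real.exp_pos _).le] at hk
  rw [List.map_cons, List.map_cons, List.prod_cons]
  refine mul_le_mul_of_nonneg_right ?_ (List.prod_nonneg ?_)
  · have h1 := hC p k hk.1.1 (hQ k hk.2)
    have hd1 : (1 : ℝ) ≤ nm p.d := by exact_mod_cast nm_pos.mpr p.d0
    have ht1 : 1 ≤ 1 + |p.t| := by linarith [abs_nonneg p.t]
    have hk1 : (1 : ℝ) ≤ nm k := by exact_mod_cast nm_pos.mpr hk.1.1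
    have hk2 : (nm k : ℝ) ≤ Real.exp |l| := hk.1.2.trans (Real.exp_le_exp.mpr (le_abs_self l))
    have e1 : max 1 (1 + |p.t|) = 1 + |p.t| := max_eq_right ht1
    have e2 : max 1 (nm p.d : ℝ) = nm p.d := max_eq_right hd1
    rw [e1, e2]
    set Z : ℝ := (1 + |p.t|) * nm p.d * Real.exp |l| with hZ
    have hZ1 : 1 ≤ Z := by
      rw [hZ]
      exact one_le_mul_of_one_le_of_one_le (one_le_mul_of_one_le_of_one_le ht1 hd1)
        (Real.one_le_exp (abs_nonneg l))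
    have h2 : ((nm p.d : ℝ) * nm k * (1 + |p.t|)) ^ s ≤ Z ^ s := by
      refine Real.rpow_le_rpow (by positivity) ?_ hs0.le
      rw [hZ]
      calc (nm p.d : ℝ) * nm k * (1 + |p.t|) ≤ (nm p.d : ℝ) * Real.exp |l| * (1 + |p.t|) := by
            gcongr
        _ = _ := by ring
    have h3 : ‖CS (pc h (p.pc P)) k‖ ≤ C * (Z ^ s * Real.exp ((θ + s) * p.z)) := by
      refine h1.trans ?_
      gcongr
    calc ‖CS (pc h (p.pc P)) k‖ ^ 2 ≤ (C * (Z ^ s * Real.exp ((θ + s) * p.z))) ^ 2 := by gcongr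
      _ = C ^ 2 * (Z ^ s) ^ 2 * (Real.exp ((θ + s) * p.z)) ^ 2 := by ring
      _ = C ^ 2 * Z ^ (2 * s) * Real.exp ((2 * θ + 2 * s) * p.z) := by
          rw [← Real.rpow_natCast (Z ^ s) 2, ← Real.rpow_mul (by linarith), ← Real.exp_nat_mul]
          push_cast
          rw [show s * 2 = 2 * s by ring,
            show 2 * ((θ + s) * p.z) = (2 * θ + 2 * s) * p.z by ring]
      _ ≤ C ^ 2 * Z ^ ε * Real.exp ((2 * θ + ε) * p.z) := by
          have h4 : Z ^ (2 * s) ≤ Z ^ ε := Real.rpow_le_rpow_of_exponent_le hZ1 hs2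
          have h5 : (2 * θ + 2 * s) * p.z ≤ (2 * θ + ε) * p.z := by
            refine mul_le_mul_of_nonneg_right ?_ hlen
            linarith
          gcongr
  · intro a ha
    obtain ⟨q, _, rfl⟩ := List.mem_map.1 ha
    positivity

theorem sup1_Rp {θ : ℝ} (hθ : 1 / 2 < θ) (hθ1 : θ ≤ 1) (hPF : PF Set.univ θ)
    {h : ℝ → ℝ} {c : ℝ} (hh : PU h c) {P : DPar} (hP : P.OK) : Sup1 θ Dq (Rp P h) :=
  sup1_RQ hθ hθ1 hPF hh.cd hh.cs hP fun _ hk => hk.1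

theorem sup1_Rc {θ : ℝ} (hθ : 1 / 2 < θ) (hθ1 : θ ≤ 1) (hPF : PF Set.univ θ)
    {h : ℝ → ℝ} {c : ℝ} (hh : PU h c) {P : DPar} (hP : P.OK) : Sup1 θ Dq (Rc P h) :=
  sup1_RQ hθ hθ1 hPF hh.cd hh.cs hP fun _ hk => hk

/-- **field `sup` of `BRules`** for any family of parameters -/
theorem sup_271 {θ : ℝ} (hθ : 1 / 2 < θ) (hθ1 : θ ≤ 1) (hPF : PF Set.univ θ)
    {h : ℝ → ℝ} {c₀ : ℝ} (hh : PU h c₀) {Lam : Type*} (π : Lam → DPar) (hP : ∀ lam, (π lam).OK) :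
    ∀ (κ : ℝ) (u : List ℝ) (m a b c e : ℝ), 0 ≤ κ → Okl u m a → 0 ≤ b → b ≤ m → 0 ≤ c →
      c ≤ a → BG Dq (fun lam => Rp (π lam) h) κ u (wt (m - b) (a - c)) e →
      BG Dq (fun lam => Rp (π lam) h) κ u (wt m a) (2 * θ * (b + c) + e) :=
  fun κ u m a b c e hκ hu hb hbm hc hca H =>
    BG_sup (by linarith) (pinv_Rp π h) (fun lam => Rp_nonneg (π lam) h)
      (fun lam => sup1_Rp hθ hθ1 hPF hh (hP lam)) κ u m a b c e hκ hu hb hbm hc hca H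

/-- **field `supS` of `BRules`** for any family of parameters -/
theorem supS_271 {θ : ℝ} (hθ : 1 / 2 < θ) (hθ1 : θ ≤ 1) (hPF : PF Set.univ θ)
    {h : ℝ → ℝ} {c₀ : ℝ} (hh : PU h c₀) {Lam : Type*} (π : Lam → DPar) (hP : ∀ lam, (π lam).OK) :
    ∀ (κ y : ℝ) (u : List ℝ) (m a e : ℝ), 0 ≤ κ → 0 ≤ y → Okl u m a →
      BG Dq (fun lam => Rp (π lam) h) κ u (wt m a) e →
      BG Dq (fun lam => Rp (π lam) h) κ (y :: u) (wt m a) (2 * θ * y + e) :=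
  fun κ y u m a e hκ hy _ H =>
    BG_supS (by linarith) (fun lam => Rp_nonneg (π lam) h)
      (fun lam => sup1_Rp hθ hθ1 hPF hh (hP lam)) κ y u m a e hκ hy H

end Crest.Agent.R017.SupI271
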