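import Crest.Agent.R017.StrFin_858
import Crest.Agent.R017.RstU_695
import Crest.Agent.R017.RSTb_405
import Crest.Agent.R017.DhS_744
import Crest.Agent.R017.XCol_298

/-!
# Row 17, T.3 : the high levels of `StrU`, class N (helper858)

* `ps_of` : the exact square satisfies helper695's `PS`
* `hi_of` : `HNDg`, `HNBg` at all the cuts from `RstCore`
* `core_N` : helper405's `rst_core` at `πN`
* `hi_N` : the field `hi` of `StrIn`
-/

set_option autoImplicit false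

noncomputable section

namespace Crest.Agent.R017.HiN858

open Crest.Agent.R012 Crest.Agent.R012.Eis
open Crest.Agent.R017.FE47 (PU cx)
open Crest.Agent.R017.Sup271 (NPm)
open Crest.Agent.R017.B770 Crest.Agent.R017.Prov71
open Crest.Agent.R017.ER911 Crest.Agent.R017.SC777
open Crest.Agent.R017.E5B71 Crest.Agent.R017.E5L770
open Crest.Agent.R017.E5H319 Crest.Agent.R017.E5Hg48
open Crest.Agent.R017.End699 (PF)
open Crest.Agent.R017.Fin4 Crest.Agent.R017.Fin5 Crest.Agent.R017.Fin6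
open Crest.Agent.R017.P1l54 (Jo)
open Crest.Agent.R017.P1t54 (ParS)
open Crest.Agent.R017.Sg986 (AA AA_lt AA_eq AA_ge)
open Crest.Agent.R017.NrA986 (NearAll)
open Crest.Agent.R017.E4U164 (low5)
open Crest.Agent.R017.RstU695 (PS RstCore hnd_of hnb_of)

/-- the exact square satisfies `PS` -/
theorem ps_of {A d : ℝ} (hd : 0 ≤ d) (hd1 : d ≤ 1 / 8) (hA : 99 / 100 ≤ A) (hA0 : A ≤ 1)
    (hA1 : 16 * (1 - A) ≤ d) : PS d (ParS A d) top5 (LR d) where
  ok p hp := by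
    obtain ⟨w, hw⟩ := hp
    exact (parOK_sq hA hw).1
  dh p hp := E3Nx744.dh_sq5 hd hd1 hA0 hA1 hp
  hi p hp := by
    obtain ⟨w, hw⟩ := hp
    have hx0 : 0 ≤ cx' p := hw.x0
    unfold top5 RstU695.lw
    linarith
  lh p hp := by
    unfold RstQ702.LR LR
    linarith

variable {Λ : Type*} {π : Λ → DPar} {h : ℝ → ℝ}

/-- **the high levels from the core** -/
theorem hi_of {A d : ℝ} (hd : 0 < d) (hd1 : d ≤ 1 / 8) (hA : 99 / 100 ≤ A) (hA0 : A ≤ 1)
    (hA1 : 16 * (1 - A) ≤ d) (H : RstCore π h d) :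
    ∃ σ : ℝ, 0 < σ ∧ 2 * σ ≤ d ∧
    (∀ t, 0 < t → t ≤ 1 → t / 4 < 1 / 64 → Hi948.HNDg π h (t / 4) (1 / 64) (ParS A d)
      (loT low5 d t σ) top5 (LR d)) ∧
    ∀ t, 0 < t → t ≤ 1 → Hi948.HNBg π h (1 / 64) (t / 2) (ParS A d)
      (loT low5 d t σ) top5 (LR d) := by
  have hP := ps_of hd.le hd1 hA hA0 hA1
  have hlo : ∀ t : ℝ, ∀ p ∈ ParS A d, RstU695.lw p - loT low5 d t (d / 2) p ≤ t * cκ p := by
    intro t p hp
    have h1 := (hP.ok p hp).κ1
    have e : RstU695.lw p = low5 p := rfl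
    unfold loT
    rw [e]
    nlinarith
  refine ⟨d / 2, by linarith, by linarith, fun t ht ht1 h4 => ?_, fun t ht ht1 => ?_⟩
  · exact hnd_of hP H (by linarith) h4.le le_rfl fun p hp => by
      have := hlo t p hp
      linarith
  · exact hnb_of hP H (by norm_num) le_rfl fun p hp => by
      have := hlo t p hp
      linarith

/-- **the core at `πN`** -/
theorem core_N {d : ℝ} (hd : 0 < d) (hd1 : d ≤ 1 / 42) {h : ℝ → ℝ} {c₀ : ℝ} (hpu : PU h c₀)
    (hPF : PF Set.univ (7 / 8 + d)) (hB : BunA d h) (hR : RecA d h) {r : ℝ} (hr0 : 0 ≤ r)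
    (hr : ∀ u : ℝ, cx h u ≠ 0 → |u| ≤ r)
    (hnear : NearAll d (ex Dq (fun lam => S0p (πN lam) h))) : RstCore πN h d := by
  have P : BunN d h := hB _ πN πN_ok πN_cl
  have G := hR _ πN πN_ok πN_cl clo_πN
  have hown := NrA986.own_of_near P.rules G hd.le (by linarith) hnear
  intro ε hε hε1
  exact RST405.rst_core hpu πN_ok hr0 hr P.rules
    (Col298.colP (by linarith) (by linarith) hPF hpu πN πN_ok fun lam k hk => πN_cl lam k hk)
    hd.le (by linarith) hown hε hε1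

/-- **the field `hi` of `StrIn`** -/
theorem hi_N {d : ℝ} (hd : 0 < d) (hd1 : d ≤ 1 / 42) {h : ℝ → ℝ} {c₀ : ℝ} (hpu : PU h c₀)
    (hPF : PF Set.univ (7 / 8 + d)) (hB : BunA d h) (hR : RecA d h) {r : ℝ} (hr0 : 0 ≤ r)
    (hr : ∀ u : ℝ, cx h u ≠ 0 → |u| ≤ r)
    (hnear : NearAll d (ex Dq (fun lam => S0p (πN lam) h))) :
    ∃ σ : ℝ, 0 < σ ∧ 2 * σ ≤ d ∧
    (∀ t, 0 < t → t ≤ 1 → t / 4 < 1 / 64 → Hi948.HNDg πN h (t / 4) (1 / 64) (ParS (AA d) d)
      (loT low5 d t σ) top5 (LR d)) ∧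
    ∀ t, 0 < t → t ≤ 1 → Hi948.HNBg πN h (1 / 64) (t / 2) (ParS (AA d) d)
      (loT low5 d t σ) top5 (LR d) :=
  hi_of hd (by linarith) (by linarith [AA_ge hd1]) (AA_lt hd).le (AA_eq d)
    (core_N hd hd1 hpu hPF hB hR hr0 hr hnear)

end Crest.Agent.R017.HiN858
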