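import Crest.Agent.R017.P1DomS_918
import Crest.Agent.R017.R8Bud_918

/-!
# Row 17, section D, R8: the box of the real lines of `E4` (`StrU`), helper918

`Bx4 μ d r N M u a c x v` : everything that `Sq5 A d p w` and the window
`0 ≤ v ≤ min (2N - κ) (3/4 N) + 9/4 x` give in base `H` (`r = 1 / κ`, `N = u₃ + u₄ + u₅`,
`M = u₁ + u₂`, `u = u₅`, `a = w .mo`, `c = w .am`, `x` = share, `v` = level)

* `bx4`    : the theorem;  `Bx4.v34` : the level is at most `3/4 N`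
* `two_T5` : the target
-/

set_option autoImplicit false

noncomputable section

namespace Crest.Agent.R017.Bx918

open Crest.Agent.R017.Prov71 Crest.Agent.R017.R8C918 Crest.Agent.R017.R8T70
open Crest.Agent.R017.E5B71

/-- **the box of the real lines of `E4`** (base `H`) -/
structure Bx4 (μ d r N M u a c x v : ℝ) : Prop where
  d0 : 0 ≤ d
  d42 : d ≤ 1 / 42
  μ0 : 0 ≤ μ
  μd : 16 * μ ≤ d
  r1 : 1 ≤ r
  r28 : 28 * r ≤ 31
  u0 : 2 / 9 ≤ u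
  u5 : 3 * u ≤ N
  MN : 2 * N ≤ 3 * M
  Mu : N - u ≤ M
  near : 1 - μ ≤ N + u
  N34 : 3 / 4 ≤ N
  N84 : 103 * N ≤ 84
  a0 : 0 ≤ a
  a12 : 12 * a ≤ 1
  c0 : 0 ≤ c
  cr : 3 * c ≤ r
  D : N + M + a - c ≤ r
  P : N + M + a + c ≤ 5 / 3 * r
  q43 : N + M + a ≤ 4 / 3 * r
  adm : Adm N c x
  need : x ≤ max 0 (a + c - 7 / 9 * (1 - M))
  shr : x = 0 ∨ (x + 2 * d ≤ 1 / 36 ∧ x + 7 / 10 * N ≤ 199 / 360 ∧ N + x ≤ 15 / 19)
  sq : LS N M a c x + 2 * d * (a + c) ≤ Al d r (N + M + a) c - 1 / 4 * d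
  sqE : LSe r N M a c x + 2 * d * (a + c) ≤ Al d r (N + M + a) c - 1 / 4 * d
  sq2 : 3 / 4 * max 0 (a + c - x - 7 / 9 * (1 - M)) + max 0 (5 / 4 * N - 1) +
    2 * d * (a + c) ≤ Al d r (N + M + a) c - d
  na : ∀ y, Adm N c y → Al d r (N + M + a) c - d ≤ LA N M u (a + c) y + 2 * d * (a + c)
  v0 : 0 ≤ v
  vt : v ≤ min (2 * N - 1) (3 / 4 * N) + 9 / 4 * x

/-- the level is in the flat range of the `T`-moment -/
theorem Bx4.v34 {μ d r N M u a c x v : ℝ} (B : Bx4 μ d r N M u a c x v) : v ≤ 3 / 4 * N := by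
  have h1 := min_le_left (2 * N - 1) (3 / 4 * N)
  have h2 := min_le_right (2 * N - 1) (3 / 4 * N)
  have h3 := B.vt
  have h4 := B.N34
  have h5 := B.d0
  rcases B.shr with h | ⟨e1, e2, e3⟩
  · rw [h] at h3; linarith
  · linarith

/-- top of the low levels of the exact square -/
def top9 (p : Fin 3 ⊕ Fin 5 → ℝ) : ℝ := min (2 * cN p - cκ p) (3 / 4 * cN p) + 9 / 4 * cx' p

/-- **the low levels of the exact square are boxes** -/
theorem bx4 {A d : ℝ} {p : Fin 3 ⊕ Fin 5 → ℝ} {w : Kd → ℝ} {v : ℝ} (hd : 0 ≤ d)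
    (hd1 : d ≤ 1 / 8) (hA : A ≤ 1) (hA1 : 16 * (1 - A) ≤ d) (h : Sq5 A d p w) (hv0 : 0 ≤ v)
    (hv : v ≤ top9 p) :
    Bx4 (1 - A) d (1 / cκ p) (cN p / cκ p) (cM p / cκ p)
      (cu p 4 / cκ p) (w .mo / cκ p) (w .am / cκ p) (cx' p / cκ p) (v / cκ p) := by
  have hκ := h.κpos
  have B := h.nab hd hd1 hA1
  have Bx := h.toNr5.box
  obtain ⟨f1, f2, f3, f4⟩ := B.facts
  rw [cN_div] at f3 f4
  have hs := h.shrA hd hd1 hA1
  have hM : cN p / cκ p - cu p 4 / cκ p ≤ cM p / cκ p := by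
    rw [← cN_div, ← cM_div]
    have h1 := B.h23
    have h2 := B.h34
    have h3 := B.h12
    linarith
  have hq : cN p / cκ p + cM p / cκ p + w .mo / cκ p ≤ 4 / 3 * (1 / cκ p) := by
    have h1 := h.q
    rw [← add_div, ← add_div, mul_one_div]
    exact div_le_div_of_nonneg_right h1 hκ.le
  have hsh : cx' p / cκ p = 0 ∨ (cx' p / cκ p + 2 * d ≤ 1 / 36 ∧
      cx' p / cκ p + 7 / 10 * (cN p / cκ p) ≤ 199 / 360 ∧
      cN p / cκ p + cx' p / cκ p ≤ 15 / 19) := by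
    rcases hs with h1 | ⟨h1, h2, h3, h4⟩
    · left; rw [h1, zero_div]
    · right; exact ⟨h1, h2, h4⟩
  have hvt : v / cκ p ≤ min (2 * (cN p / cκ p) - 1) (3 / 4 * (cN p / cκ p)) +
      9 / 4 * (cx' p / cκ p) := by
    have e : (min (2 * (cN p / cκ p) - 1) (3 / 4 * (cN p / cκ p)) + 9 / 4 * (cx' p / cκ p)) *
        cκ p = top9 p := by
      unfold top9
      rw [add_mul, min_mul_of_nonneg _ _ hκ.le]
      congr 1
      · congr 1 <;> field_simp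
      · field_simp
    rw [div_le_iff₀ hκ, e]
    exact hv
  exact ⟨hd, B.dle, by linarith, hA1, B.r1, B.r2, f1, Bx.u5, Bx.MN, hM, Bx.sig, f4,
    by linarith, B.a0, B.a1, B.c0, B.cr, Bx.D, Bx.P, hq, h.tl.adm, h.need, hsh, h.tl.sq, h.sqE,
    h.sq2, h.na, div_nonneg hv0 hκ.le, hvt⟩

/-- **the target in base `H`** : `2 T5 = κ (2 + (q + c) + Al)` -/
theorem two_T5 {d : ℝ} {q : (Fin 3 ⊕ Fin 5 → ℝ) × (Kd → ℝ)} (h0 : 0 < cκ q.1) :
    2 * T5 (7 / 8 + d) q = cκ q.1 * (2 + (cN q.1 / cκ q.1 + cM q.1 / cκ q.1 +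
      q.2 .mo / cκ q.1 + q.2 .am / cκ q.1) + Al d (1 / cκ q.1)
        (cN q.1 / cκ q.1 + cM q.1 / cκ q.1 + q.2 .mo / cκ q.1) (q.2 .am / cκ q.1)) := by
  have h1 := Al_Tg (d := d) (q := cN q.1 + cM q.1 + q.2 .mo) (c := q.2 .am) h0
  have h2 : T5 (7 / 8 + d) q = Cone59.Tg2 (7 / 8 + d) (cκ q.1)
      (cN q.1 + cM q.1 + q.2 .mo) (q.2 .am) := by
    unfold T5 Cone59.Tg Cone59.Tg2
    norm_num
  have e1 : (cN q.1 + cM q.1 + q.2 .mo) / cκ q.1 =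
      cN q.1 / cκ q.1 + cM q.1 / cκ q.1 + q.2 .mo / cκ q.1 := by
    rw [add_div, add_div]
  rw [e1] at h1
  rw [mul_add, mul_add, h1, h2]
  field_simp
  ring

end Crest.Agent.R017.Bx918
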