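import Crest.Agent.R017.NSb4_986
import Crest.Agent.R017.Eul_571
import Crest.Agent.R012.Dec_766

/-!
# Row 17, section B: powerful part of the natural sums, `PowS θ` from `TkAlg` (helper571)
-/

set_option autoImplicit false

noncomputable section

open MeasureTheory Complex Set
open scoped ComplexConjugate ContDiff

namespace Crest.Agent.R017.PowS571

open Crest.Agent.R012 Crest.Agent.R012.Eis Crest.Agent.R012.Mob705
open Crest.Agent.R017.End699 Crest.Agent.R017.Sx545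
open Crest.Agent.R017.B770 Crest.Agent.R017.Eul571 Crest.Agent.R012.Div277
open Crest.Agent.R017.Asm986

/-! ### multiplicative functions from local data -/

/-- `∏_{p ∣ b} φ p (v_p b)` -/
def mulf {X : Type*} [CommMonoid X] (φ : Eis → ℕ → X) (b : Eis) : X :=
  ∏ p ∈ pp b, φ p (multiplicity p b)

lemma mulf_one {X : Type*} [CommMonoid X] (φ : Eis → ℕ → X) : mulf φ 1 = 1 := by
  unfold mulf
  rw [pp_one, Finset.prod_empty]

lemma mult_pow_mul {p b : Eis} (hp : Prime p) {k : ℕ} (hpb : ¬ p ∣ b) :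
    multiplicity p (p ^ k * b) = k := by
  have hb0 : b ≠ 0 := fun h => hpb (h ▸ dvd_zero p)
  refine multiplicity_eq_of_dvd_of_not_dvd (dvd_mul_right _ _) ?_
  intro h
  rw [pow_succ] at h
  exact hpb ((mul_dvd_mul_iff_left (pow_ne_zero k hp.ne_zero)).mp h)

lemma mult_other {p q b : Eis} (hp : IsPP p) (hq : IsPP q) (hpq : p ≠ q) {k : ℕ} (hb : b ≠ 0) :
    multiplicity q (p ^ k * b) = multiplicity q b := by
  have hqp : ¬ q ∣ p ^ k := fun h => hpq (hq.eq_of_dvd hp (hq.prime.dvd_of_dvd_pow h)).symm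
  have hfin : FiniteMultiplicity q (p ^ k * b) :=
    FiniteMultiplicity.of_prime_left hq.prime (mul_ne_zero (pow_ne_zero _ hp.ne_zero) hb)
  rw [multiplicity_mul hq.prime hfin, multiplicity_eq_zero.mpr hqp, zero_add]

lemma mulf_mul {X : Type*} [CommMonoid X] (φ : Eis → ℕ → X) {p b : Eis} (hp : IsPP p) {k : ℕ}
    (hk : 1 ≤ k) (hb : b ≠ 0) (hpb : ¬ p ∣ b) : mulf φ (p ^ k * b) = φ p k * mulf φ b := by
  classical
  unfold mulf
  have h1 : pp (p ^ k * b) = insert p (pp b) := by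
    rw [pp_mul (pow_ne_zero _ hp.ne_zero) hb, pp_pow hp.ne_zero (by omega), pp_prime hp]
    rfl
  have h2 : p ∉ pp b := fun h => hpb (dvd_of_mem_pp h)
  rw [h1, Finset.prod_insert h2, mult_pow_mul hp.prime hpb]
  congr 1
  refine Finset.prod_congr rfl fun q hq => ?_
  rw [mult_other hp (isPP_of_mem_pp hq) (fun h => h2 (h ▸ hq)) hb]

lemma mulf_pow {X : Type*} [CommMonoid X] (φ : Eis → ℕ → X) {p : Eis} (hp : IsPP p) {k : ℕ}
    (hk : 1 ≤ k) : mulf φ (p ^ k) = φ p k := by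
  have h := mulf_mul φ hp hk one_ne_zero (fun h => hp.prime.not_isUnit (isUnit_of_dvd_one h))
  rw [mul_one, mulf_one, mul_one] at h
  exact h

/-! ### the data -/

/-- `S b = ∏ p^{s(j)}`, `p^j ∥ b` -/
def SS (b : Eis) : Eis := mulf (fun p j => p ^ sE j) b

/-- the local weight -/
def om0 (p : Eis) (j : ℕ) : ℝ := if j % 4 = 1 ∨ j % 6 = 0 then Real.sqrt (nm p) else 0

/-- `ω b` -/
def om (b : Eis) : ℝ := mulf om0 b

lemma om0_nonneg (p : Eis) (j : ℕ) : 0 ≤ om0 p j := by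
  unfold om0
  split_ifs
  · exact Real.sqrt_nonneg _
  · exact le_rfl

lemma om_nonneg (b : Eis) : 0 ≤ om b := Finset.prod_nonneg fun _ _ => om0_nonneg _ _

lemma isPrim_SS (b : Eis) : IsPrim (SS b) := by
  unfold SS mulf
  refine Finset.prod_induction _ IsPrim (fun a b ha hb => ha.mul hb) isPrim_one ?_
  intro p hp
  exact (isPP_of_mem_pp hp).isPrim.pow _

lemma coprime_SS {b x : Eis} (h : IsCoprime b x) : IsCoprime (SS b) x := by
  unfold SS mulf
  refine IsCoprime.prod_left fun p hp => ?_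
  exact (h.of_isCoprime_of_dvd_left (dvd_of_mem_pp hp)).pow_left

lemma SS_ne_zero (b : Eis) : SS b ≠ 0 := (isPrim_SS b).ne_zero

lemma pf_mul {p b : Eis} (hp : IsPP p) {k : ℕ} (hk : 1 ≤ k) (hpb : ¬ p ∣ b)
    (h : Pf (p ^ k * b)) : 2 ≤ k ∧ Pf b := by
  constructor
  · by_contra hlt
    have h1 : k = 1 := by omega
    subst h1
    have := h p hp.prime ((dvd_pow_self p one_ne_zero).mul_right b)
    rw [pow_one, pow_two] at this
    exact hpb ((mul_dvd_mul_iff_left hp.ne_zero).mp this)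
  · intro q hq hqb
    have h2 := h q hq (Dvd.dvd.mul_left hqb _)
    have hqp : ¬ q ∣ p ^ k := by
      intro h3
      have h4 := hq.dvd_of_dvd_pow h3
      have h5 : p ∣ q := (hq.associated_of_dvd hp.prime h4).symm.dvd
      exact hpb (h5.trans hqb)
    exact hq.pow_dvd_of_dvd_mul_left 2 hqp h2

lemma pf_pow {p : Eis} (hp : IsPP p) {k : ℕ} (hk : 2 ≤ k) : Pf (p ^ k) := by
  intro q hq hqp
  have h1 := hq.dvd_of_dvd_pow hqp
  exact (pow_dvd_pow_of_dvd h1 2).trans (pow_dvd_pow p hk)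

lemma pf_of_mul {p b : Eis} (hp : IsPP p) {k : ℕ} (hk : 2 ≤ k) (h : Pf b) : Pf (p ^ k * b) := by
  intro q hq hqb
  rcases hq.dvd_or_dvd hqb with h1 | h1
  · exact (pf_pow hp hk q hq h1).mul_right _
  · exact (h q hq h1).mul_left _

/-- the local bound -/
lemma tk_pow_le (H : TkAlg) {k p : Eis} (hp : Sm 2 p) (hpp : Prime p) {j : ℕ} (hj : 2 ≤ j) :
    (¬ p ^ sE j ∣ k → tk k (p ^ j) 1 = 0) ∧
      ‖tk k (p ^ j) 1‖ ≤ (nm (p ^ sE j) : ℝ) * om0 p j := by
  refine ⟨fun h => H.pow1 k p j hp hpp hj h, ?_⟩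
  unfold om0
  split_ifs with h
  · refine (H.pow2 k p j hp hpp hj).trans (le_of_eq ?_)
    have hq : (0 : ℝ) < nm p := by exact_mod_cast nm_pos.mpr hp.ne_zero
    rw [nm_pow, Real.rpow_add hq, Real.rpow_natCast, Real.sqrt_eq_rpow]
    push_cast
    rfl
  · push Not at h
    rw [H.pow0 k p j hp hpp hj h.1 h.2, norm_zero, mul_zero]

open Classical in
theorem tk_le (H : TkAlg) (k : Eis) : ∀ b, Sm 2 b → Pf b →
    ‖tk k b 1‖ ≤ if SS b ∣ k then (nm (SS b) : ℝ) * om b else 0 := by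
  intro b hb
  refine Sm.induction_coprime (m := 2) (P := fun b => Pf b →
    ‖tk k b 1‖ ≤ if SS b ∣ k then (nm (SS b) : ℝ) * om b else 0) ?_ ?_ b hb
  · intro _
    have h1 : SS 1 = 1 := mulf_one _
    have h2 : om 1 = 1 := mulf_one _
    rw [h1, h2, if_pos (one_dvd k), H.one]
    simp
  · intro p j b₁ hp hpp hj hb₁ hpb₁ ih hPf
    have hPP : IsPP p := ⟨hp.1, hpp⟩
    obtain ⟨h2, hPf₁⟩ := pf_mul hPP hj hpb₁ hPf
    have ih' := ih hPf₁
    have hm := H.mul k (p ^ j) b₁ 1 1 (hp.pow j) hb₁ (Sm.one 2) (Sm.one 2)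
      (by rw [mul_one, mul_one]; exact Res.coprime_pow hpp hpb₁ j)
    rw [mul_one] at hm
    have hS : SS (p ^ j * b₁) = p ^ sE j * SS b₁ := mulf_mul _ hPP hj hb₁.ne_zero hpb₁
    have ho : om (p ^ j * b₁) = om0 p j * om b₁ := mulf_mul _ hPP hj hb₁.ne_zero hpb₁
    obtain ⟨hl1, hl2⟩ := tk_pow_le H (k := k) hp hpp h2
    have hcop : IsCoprime (p ^ sE j) (SS b₁) :=
      (coprime_SS (Res.coprime_pow hpp hpb₁ (sE j)).symm).symm
    rw [hm, norm_mul, hS, ho]
    by_cases hd : p ^ sE j ∣ k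
    · by_cases hd' : SS b₁ ∣ k
      · rw [if_pos hd'] at ih'
        rw [if_pos (hcop.mul_dvd hd hd')]
        calc ‖tk k (p ^ j) 1‖ * ‖tk k b₁ 1‖ ≤
              ((nm (p ^ sE j) : ℝ) * om0 p j) * ((nm (SS b₁) : ℝ) * om b₁) :=
              mul_le_mul hl2 ih' (norm_nonneg _)
                (mul_nonneg (Nat.cast_nonneg _) (om0_nonneg _ _))
          _ = _ := by rw [nm_mul]; push_cast; ring
      · rw [if_neg hd'] at ih'
        have : ‖tk k b₁ 1‖ = 0 := le_antisymm ih' (norm_nonneg _)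
        rw [this, mul_zero, if_neg (fun h => hd' ((dvd_mul_left _ _).trans h))]
    · rw [hl1 hd, norm_zero, zero_mul]
      rw [if_neg (fun h => hd ((dvd_mul_right _ _).trans h))]

/-! ### summability -/

open Classical in
/-- the summand -/
def FF (a σ : ℝ) (b : Eis) : ℝ :=
  if Pf b then (nm (SS b) : ℝ) ^ a * om b * (nm b : ℝ) ^ (-σ) else 0

lemma FF_nonneg (a σ : ℝ) (b : Eis) : 0 ≤ FF a σ b := by
  unfold FF
  split_ifs
  · have := om_nonneg b
    positivity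
  · exact le_rfl

lemma FF_mul (a σ : ℝ) {p b : Eis} (hp : IsPP p) {k : ℕ} (hk : 1 ≤ k) (hb : Sm 2 b)
    (hpb : ¬ p ∣ b) : FF a σ (p ^ k * b) ≤ FF a σ (p ^ k) * FF a σ b := by
  by_cases hPf : Pf (p ^ k * b)
  · obtain ⟨h2, hPf₁⟩ := pf_mul hp hk hpb hPf
    have hpk := pf_pow hp h2
    unfold FF
    rw [if_pos hPf, if_pos hPf₁, if_pos hpk]
    have hS : SS (p ^ k * b) = SS (p ^ k) * SS b := by
      rw [show SS (p ^ k * b) = p ^ sE k * SS b from mulf_mul _ hp hk hb.ne_zero hpb,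
        show SS (p ^ k) = p ^ sE k from mulf_pow _ hp hk]
    have ho : om (p ^ k * b) = om (p ^ k) * om b := by
      rw [show om (p ^ k * b) = om0 p k * om b from mulf_mul _ hp hk hb.ne_zero hpb,
        show om (p ^ k) = om0 p k from mulf_pow _ hp hk]
    rw [hS, ho, nm_mul, nm_mul]
    push_cast
    rw [Real.mul_rpow (Nat.cast_nonneg _) (Nat.cast_nonneg _),
      Real.mul_rpow (by positivity) (Nat.cast_nonneg _)]
    apply le_of_eq
    ring
  · unfold FF
    rw [if_neg hPf]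
    have := FF_nonneg a σ (p ^ k)
    have := FF_nonneg a σ b
    unfold FF at *
    positivity

/-- good exponents: local decay -/
def Dec (a σ : ℝ) : Prop := ∀ j : ℕ, 2 ≤ j → (j % 4 = 1 ∨ j % 6 = 0) →
  a * (sE j : ℝ) + 1 / 2 - σ * j ≤ -(11 / 10) - ((j : ℝ) - 5) / 20 ∧ 5 ≤ j

lemma FF_pow_le {a σ : ℝ} (hD : Dec a σ) {p : Eis} (hp : IsPP p) {j : ℕ} (hj : 1 ≤ j) :
    FF a σ (p ^ j) ≤ (nm p : ℝ) ^ (-(11 / 10 : ℝ)) * (((4 : ℝ) ^ (-(1 / 20 : ℝ))) ^ j *
        ((4 : ℝ) ^ (1 / 20 : ℝ)) ^ 5) := by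
  have hq : (4 : ℝ) ≤ nm p := by exact_mod_cast IsPP.four_le_nm hp
  have hq0 : (0 : ℝ) < nm p := by linarith
  have hR : 0 ≤ (nm p : ℝ) ^ (-(11 / 10 : ℝ)) * (((4 : ℝ) ^ (-(1 / 20 : ℝ))) ^ j *
        ((4 : ℝ) ^ (1 / 20 : ℝ)) ^ 5) := by positivity
  unfold FF
  by_cases h1 : j = 1
  · subst h1
    rw [if_neg]
    · exact hR
    · intro h
      have h2 := h p hp.prime (by rw [pow_one])
      rw [pow_one, pow_two] at h2
      have h3 : p * p ∣ p * 1 := by rwa [mul_one]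
      exact hp.prime.not_isUnit (isUnit_of_dvd_one ((mul_dvd_mul_iff_left hp.ne_zero).mp h3))
  have h2 : 2 ≤ j := by omega
  rw [if_pos (pf_pow hp h2), show SS (p ^ j) = p ^ sE j from mulf_pow _ hp hj,
    show om (p ^ j) = om0 p j from mulf_pow _ hp hj]
  unfold om0
  by_cases hs : j % 4 = 1 ∨ j % 6 = 0
  · obtain ⟨he, h5⟩ := hD j h2 hs
    have h5' : (5 : ℝ) ≤ j := by exact_mod_cast h5
    rw [if_pos hs, nm_pow, nm_pow]
    push_cast
    calc (((nm p : ℝ) ^ sE j) ^ a * Real.sqrt (nm p)) * ((nm p : ℝ) ^ j) ^ (-σ)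
        = (nm p : ℝ) ^ (a * (sE j : ℝ) + 1 / 2 - σ * j) := by
          rw [Real.sqrt_eq_rpow, ← Real.rpow_natCast, ← Real.rpow_mul hq0.le,
            ← Real.rpow_natCast, ← Real.rpow_mul hq0.le, ← Real.rpow_add hq0,
            ← Real.rpow_add hq0]
          congr 1; ring
      _ ≤ (nm p : ℝ) ^ (-(11 / 10) - ((j : ℝ) - 5) / 20) :=
          Real.rpow_le_rpow_of_exponent_le (by linarith) he
      _ = (nm p : ℝ) ^ (-(11 / 10 : ℝ)) * (nm p : ℝ) ^ (-(((j : ℝ) - 5) / 20)) := by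
          rw [← Real.rpow_add hq0]; congr 1
      _ ≤ (nm p : ℝ) ^ (-(11 / 10 : ℝ)) * (4 : ℝ) ^ (-(((j : ℝ) - 5) / 20)) := by
          refine mul_le_mul_of_nonneg_left ?_ (by positivity)
          exact Real.rpow_le_rpow_of_nonpos (by norm_num) hq (by linarith)
      _ = _ := by
          congr 1
          rw [← Real.rpow_natCast, ← Real.rpow_mul (by norm_num), ← Real.rpow_natCast,
            ← Real.rpow_mul (by norm_num), ← Real.rpow_add (by norm_num)]
          congr 1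
          push_cast
          ring
  · rw [if_neg hs, mul_zero, zero_mul]
    exact hR

open Classical in
theorem summable_FF {a σ : ℝ} (hD : Dec a σ) :
    Summable (fun b => if Sm 2 b ∧ Pf b then
      (nm (SS b) : ℝ) ^ a * om b * (nm b : ℝ) ^ (-σ) else 0) := by
  obtain ⟨U, hU0, hU⟩ := sum_nm_rpow_le (s := 11 / 10) (by norm_num)
  set r : ℝ := (4 : ℝ) ^ (-(1 / 20 : ℝ)) with hr
  set c5 : ℝ := ((4 : ℝ) ^ (1 / 20 : ℝ)) ^ 5 with hc5
  have hr0 : 0 ≤ r := by positivity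
  have hr1 : r < 1 := Real.rpow_lt_one_of_one_lt_of_neg (by norm_num) (by norm_num)
  have hc50 : 0 ≤ c5 := by positivity
  have h1r : 0 < 1 - r := by linarith
  set D : ℝ := (1 - r)⁻¹ * c5 with hDd
  have hD0 : 0 ≤ D := by positivity
  have hmain := eul_sum_le (m := 2) (F := FF a σ)
    (u := fun p => (nm p : ℝ) ^ (-(11 / 10 : ℝ)) * D) (U := U * D)
    (fun b _ => FF_nonneg a σ b)
    (by
      unfold FF
      have h1 : SS 1 = 1 := mulf_one _
      have h2 : om 1 = 1 := mulf_one _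
      rw [h1, h2]
      split_ifs
      · simp
      · norm_num)
    (fun p k b hp hpp hk hb hpb => FF_mul a σ ⟨hp.1, hpp⟩ hk hb hpb)
    (by
      intro p hp hpp K
      calc ∑ k ∈ Finset.Icc 1 K, FF a σ (p ^ k)
          ≤ ∑ k ∈ Finset.Icc 1 K, (nm p : ℝ) ^ (-(11 / 10 : ℝ)) * (r ^ k * c5) :=
            Finset.sum_le_sum fun k hk => FF_pow_le hD ⟨hp.1, hpp⟩ (Finset.mem_Icc.mp hk).1
        _ = (nm p : ℝ) ^ (-(11 / 10 : ℝ)) * ((∑ k ∈ Finset.Icc 1 K, r ^ k) * c5) := by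
            rw [Finset.sum_mul, Finset.mul_sum]
        _ ≤ (nm p : ℝ) ^ (-(11 / 10 : ℝ)) * ((1 - r)⁻¹ * c5) := by
            refine mul_le_mul_of_nonneg_left (mul_le_mul_of_nonneg_right ?_ hc50) (by positivity)
            rw [← tsum_geometric_of_lt_one hr0 hr1]
            exact (summable_geometric_of_lt_one hr0 hr1).sum_le_tsum _ (fun k _ => by positivity))
    (by
      intro P _
      rw [← Finset.sum_mul]
      exact mul_le_mul_of_nonneg_right (hU P) hD0)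
  have hnn : ∀ b, 0 ≤ (if Sm 2 b ∧ Pf b then
      (nm (SS b) : ℝ) ^ a * om b * (nm b : ℝ) ^ (-σ) else 0) := by
    intro b
    split_ifs
    · have := om_nonneg b
      positivity
    · exact le_rfl
  refine summable_of_sum_le (c := Real.exp (U * D)) hnn fun u => ?_
  set X : ℕ := u.sup nm with hX
  calc ∑ b ∈ u, (if Sm 2 b ∧ Pf b then (nm (SS b) : ℝ) ^ a * om b * (nm b : ℝ) ^ (-σ) else 0)
      = ∑ b ∈ u.filter (Sm 2), FF a σ b := by
        rw [Finset.sum_filter]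
        refine Finset.sum_congr rfl fun b _ => ?_
        unfold FF
        by_cases h1 : Sm 2 b <;> by_cases h2 : Pf b <;> simp [h1, h2]
    _ ≤ ∑ b ∈ (primBall X).filter (Sm 2), FF a σ b := by
        refine Finset.sum_le_sum_of_subset_of_nonneg ?_ (fun b _ _ => FF_nonneg a σ b)
        intro b hb
        rw [Finset.mem_filter] at hb ⊢
        refine ⟨mem_primBall.mpr ⟨?_, hb.2.1⟩, hb.2⟩
        exact Finset.le_sup (f := nm) hb.1
    _ ≤ Real.exp (U * D) := hmain X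

lemma sE_le' (j : ℕ) : (4 * sE j : ℝ) ≤ 3 * j := by
  have : (4 * sE j : ℤ) ≤ 3 * j := by
    unfold sE
    split_ifs with h <;> omega
  exact_mod_cast this

lemma dec_half : Dec 0 (1 / 2) := by
  intro j h2 h
  have h5 : 5 ≤ j := by omega
  have h5' : (5 : ℝ) ≤ j := by exact_mod_cast h5
  exact ⟨by linarith, h5⟩

lemma dec_theta {θ : ℝ} (hθ : 7 / 8 < θ) : Dec (5 / 6) θ := by
  intro j h2 h
  have h5 : 5 ≤ j := by omega
  have h5' : (5 : ℝ) ≤ j := by exact_mod_cast h5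
  refine ⟨?_, h5⟩
  have hθj : 7 / 8 * (j : ℝ) ≤ θ * j := by nlinarith
  rcases eq_or_ne j 5 with rfl | h5'
  · have : sE 5 = 3 := by decide
    rw [this] at *
    norm_num at hθj ⊢
    linarith
  rcases eq_or_ne j 6 with rfl | h6'
  · have : sE 6 = 4 := by decide
    rw [this] at *
    norm_num at hθj ⊢
    linarith
  · have h9 : 9 ≤ j := by omega
    have h9' : (9 : ℝ) ≤ j := by exact_mod_cast h9
    have := sE_le' j
    linarith

/-- **`PowS θ`** -/
theorem powS (H : TkAlg) {θ : ℝ} (hθ : 7 / 8 < θ) : PowS θ := by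
  refine ⟨SS, om, om_nonneg, fun b hb hPf => ⟨isPrim_SS b, fun x hx => coprime_SS hx,
    fun k _ => tk_le H k b hb hPf⟩, ?_, summable_FF (dec_theta hθ)⟩
  have h := summable_FF dec_half
  simpa using h

end Crest.Agent.R017.PowS571
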