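import Crest.Agent.R017.NatPD_401
import Crest.Agent.R017.NSb1_986
import Crest.Agent.R017.PowS_571

/-!
# Row 17, section B, leaf L3a (A): powerful × squarefree decomposition; tuples

* `exists_pfsf`, `pfsf_unique`, `sum_pfsf` : `b = u v`, `u` powerful, `v` squarefree, coprime
* `sum_tup_split` : summing a product over the positions outside `S`
-/

set_option autoImplicit false

noncomputable section

open Complex
open scoped ComplexConjugate

namespace Crest.Agent.R017.NSx545

open Crest.Agent.R012 Crest.Agent.R012.Eis Crest.Agent.R012.Mob705 Crest.Agent.R012.Div277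
open Crest.Agent.R012.PSer47 (IsChar)
open Crest.Agent.R017.End699 Crest.Agent.R017.Sx545 Crest.Agent.R017.B770
open Crest.Agent.R017.Asm986 Crest.Agent.R017.PowS571

lemma pf_one : Pf 1 := fun _ hp h => absurd (isUnit_of_dvd_one h) hp.not_isUnit

lemma exists_pfsf : ∀ (n : ℕ) {b : Eis}, nm b ≤ n → IsPrim b →
    ∃ u v, IsPrim u ∧ IsPrim v ∧ b = u * v ∧ Pf u ∧ Squarefree v ∧ IsCoprime u v := by
  intro n
  induction n with
  | zero =>
    intro b hb hp
    exact absurd (nm_eq_zero.mp (Nat.le_zero.mp hb)) hp.ne_zero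
  | succ n ih =>
    intro b hb hp
    by_cases h1 : b = 1
    · exact ⟨1, 1, isPrim_one, isPrim_one, by rw [h1, one_mul], pf_one, squarefree_one,
        isCoprime_one_left⟩
    · obtain ⟨p, hpp, hpb⟩ := exists_pp_dvd_of_isPrim hp h1
      obtain ⟨j, c, hbc, hpc, hc⟩ := NatP401.exists_pow_mul hpp hp
      have hj : 1 ≤ j := by
        by_contra hcon
        have : j = 0 := by omega
        rw [this, pow_zero, one_mul] at hbc
        exact hpc (hbc ▸ hpb)
      have hcn : nm c ≤ n := by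
        rw [hbc, nm_mul, nm_pow] at hb
        have h2 := hpp.one_lt_nm
        have h3 : 0 < nm c := nm_pos.mpr hc.ne_zero
        have h4 : 2 ≤ nm p ^ j := by
          calc 2 ≤ nm p := h2
            _ = nm p ^ 1 := (pow_one _).symm
            _ ≤ nm p ^ j := Nat.pow_le_pow_right (by omega) hj
        nlinarith
      obtain ⟨u, v, hu, hv, rfl, hpf, hsf, hco⟩ := ih hcn hc
      have hpu : ¬ p ∣ u := fun h => hpc (h.mul_right v)
      have hpv : ¬ p ∣ v := fun h => hpc (h.mul_left u)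
      have hcu : IsCoprime p u := hpp.isCoprime_iff.mpr hpu
      have hcv : IsCoprime p v := hpp.isCoprime_iff.mpr hpv
      rcases Nat.lt_or_ge j 2 with h2 | h2
      · have hj1 : j = 1 := by omega
        subst hj1
        refine ⟨u, p * v, hu, hpp.isPrim.mul hv, by rw [hbc]; ring, hpf, ?_, ?_⟩
        · exact (squarefree_mul_iff).mpr ⟨hcv.isRelPrime, hpp.prime.squarefree, hsf⟩
        · exact hcu.symm.mul_right hco
      · exact ⟨p ^ j * u, v, (hpp.isPrim.pow j).mul hu, hv, by rw [hbc]; ring,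
          pf_of_mul hpp h2 hpf, hsf, (hcv.pow_left).mul_left hco⟩

lemma pfsf_dvd {u v u' v' : Eis} (hu : IsPrim u) (hpf : Pf u)
    (hsf' : Squarefree v') (hco' : IsCoprime u' v') (h : u * v = u' * v') : u ∣ u' := by
  have h1 : IsCoprime u v' := by
    rw [isCoprime_iff_pp hu]
    intro p hp hpu hpv'
    have h2 : p ^ 2 ∣ u' * v' := h ▸ (hpf p hp.prime hpu).mul_right v
    have h3 : ¬ p ∣ u' := fun h3 => hp.prime.not_isUnit (hco'.isUnit_of_dvd' h3 hpv')
    have h4 : p ^ 2 ∣ v' := hp.prime.pow_dvd_of_dvd_mul_left 2 h3 h2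
    rw [pow_two] at h4
    exact hp.prime.not_isUnit (hsf' p h4)
  exact h1.dvd_of_dvd_mul_right (h ▸ dvd_mul_right u v)

lemma pfsf_unique {u v u' v' : Eis} (hu : IsPrim u) (hu' : IsPrim u') (hpf : Pf u) (hpf' : Pf u')
    (hsf : Squarefree v) (hsf' : Squarefree v') (hco : IsCoprime u v) (hco' : IsCoprime u' v')
    (h : u * v = u' * v') : u = u' ∧ v = v' := by
  have h3 : u = u' := hu.eq_of_associated hu' (associated_of_dvd_dvd
    (pfsf_dvd hu hpf hsf' hco' h) (pfsf_dvd hu' hpf' hsf hco h.symm))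
  subst h3
  exact ⟨rfl, mul_left_cancel₀ hu.ne_zero h⟩

open Classical in
/-- summation over `b = u v`, `u` powerful, `v` squarefree. -/
lemma sum_pfsf (X : ℕ) (F : Eis → ℂ) :
    ∑ b ∈ primBall X, F b = ∑ u ∈ (primBall X).filter Pf,
      ∑ v ∈ (primBall X).filter (fun v => Squarefree v ∧ IsCoprime u v ∧ nm (u * v) ≤ X),
        F (u * v) := by
  rw [Finset.sum_sigma']
  symm
  refine Finset.sum_bij (fun x _ => x.1 * x.2) ?_ ?_ ?_ ?_
  · rintro ⟨u, v⟩ h
    simp only [Finset.mem_sigma, Finset.mem_filter, mem_primBall] at h ⊢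
    exact ⟨h.2.2.2.2, h.1.1.2.mul h.2.1.2⟩
  · rintro ⟨u, v⟩ h ⟨u', v'⟩ h' e
    simp only [Finset.mem_sigma, Finset.mem_filter, mem_primBall] at h h'
    obtain ⟨e1, e2⟩ := pfsf_unique h.1.1.2 h'.1.1.2 h.1.2 h'.1.2 h.2.2.1 h'.2.2.1 h.2.2.2.1
      h'.2.2.2.1 e
    subst e1; subst e2; rfl
  · intro b hb
    rw [mem_primBall] at hb
    obtain ⟨u, v, hu, hv, rfl, hk, hsf, hc⟩ := exists_pfsf _ le_rfl hb.2
    have h1 : nm u ≤ X := (nm_le_of_dvd (hu.mul hv).ne_zero (dvd_mul_right _ _)).trans hb.1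
    have h2 : nm v ≤ X := (nm_le_of_dvd (hu.mul hv).ne_zero (dvd_mul_left _ _)).trans hb.1
    refine ⟨⟨u, v⟩, ?_, rfl⟩
    simp only [Finset.mem_sigma, Finset.mem_filter, mem_primBall]
    exact ⟨⟨⟨h1, hu⟩, hk⟩, ⟨h2, hv⟩, hsf, hc, hb.1⟩
  · intros; rfl

/-! ### tuples -/

section tuples

variable {ι : Type*} [DecidableEq ι]

/-- extension of a tuple by `1`. -/
def ex (J : Finset ι) (p : ∀ _ : J, Eis) (i : ι) : Eis := if h : i ∈ J then p ⟨i, h⟩ else 1

lemma ex_coe (J : Finset ι) (p : ∀ _ : J, Eis) (i : J) : ex J p i = p i := by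
  unfold ex; rw [dif_pos i.2]

lemma prod_ex {M : Type*} [CommMonoid M] (J : Finset ι) (p : ∀ _ : J, Eis) (f : ι → Eis → M) :
    ∏ i : J, f i (p i) = ∏ i ∈ J, f i (ex J p i) := by
  rw [← Finset.prod_coe_sort J]
  exact Finset.prod_congr rfl fun i _ => by rw [ex_coe]

/-- restriction of a tuple. -/
def res {S J : Finset ι} (h : S ⊆ J) (p : ∀ _ : J, Eis) : ∀ _ : S, Eis := fun i => p ⟨i, h i.2⟩

lemma ex_res {S J : Finset ι} (h : S ⊆ J) (p : ∀ _ : J, Eis) {i : ι} (hi : i ∈ S) :
    ex S (res h p) i = ex J p i := by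
  unfold ex res
  rw [dif_pos hi, dif_pos (h hi)]

open Classical in
/-- summing the product over the positions outside `S`. -/
theorem sum_tup_split (t : ι → Finset Eis) {S J : Finset ι} (hS : S ⊆ J)
    (Φ : (∀ _ : S, Eis) → ℂ) (A : ι → Eis → ℂ) :
    ∑ p ∈ Fintype.piFinset (fun i : J => t i), Φ (res hS p) * ∏ i ∈ J \ S, A i (ex J p i) =
      (∑ z ∈ Fintype.piFinset (fun i : S => t i), Φ z) * ∏ i ∈ J \ S, ∑ q ∈ t i, A i q := by
  have hmem : ∀ p ∈ Fintype.piFinset (fun i : J => t i),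
      res hS p ∈ Fintype.piFinset (fun i : S => t i) := by
    intro p hp
    rw [Fintype.mem_piFinset] at hp ⊢
    intro i
    exact hp ⟨i, hS i.2⟩
  have h1 : ∀ p ∈ Fintype.piFinset (fun i : J => t i),
      Φ (res hS p) * ∏ i ∈ J \ S, A i (ex J p i) =
      ∑ z ∈ Fintype.piFinset (fun i : S => t i),
        Φ z * (if res hS p = z then ∏ i ∈ J \ S, A i (ex J p i) else 0) := by
    intro p hp
    rw [Finset.sum_eq_single (res hS p)]
    · rw [if_pos rfl]
    · intro z _ hz
      rw [if_neg (fun h => hz h.symm), mul_zero]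
    · intro h; exact absurd (hmem p hp) h
  rw [Finset.sum_congr rfl h1, Finset.sum_comm, Finset.sum_mul]
  refine Finset.sum_congr rfl fun z hz => ?_
  rw [← Finset.mul_sum]
  congr 1
  rw [Fintype.mem_piFinset] at hz
  have h2 : ∀ p ∈ Fintype.piFinset (fun i : J => t i),
      (if res hS p = z then ∏ i ∈ J \ S, A i (ex J p i) else 0) =
      ∏ i : J, (if (i : ι) ∈ S then (if p i = ex S z i then (1 : ℂ) else 0) else A i (p i)) := by
    intro p _
    rw [prod_ex J p (fun i q => if i ∈ S then (if q = ex S z i then (1 : ℂ) else 0) else A i q)]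
    rw [← Finset.prod_sdiff hS]
    have e1 : ∏ i ∈ J \ S, (if i ∈ S then (if ex J p i = ex S z i then (1 : ℂ) else 0)
        else A i (ex J p i)) = ∏ i ∈ J \ S, A i (ex J p i) :=
      Finset.prod_congr rfl fun i hi => by rw [if_neg (Finset.mem_sdiff.mp hi).2]
    have e2 : ∏ i ∈ S, (if i ∈ S then (if ex J p i = ex S z i then (1 : ℂ) else 0)
        else A i (ex J p i)) = if res hS p = z then 1 else 0 := by
      by_cases h : res hS p = z
      · rw [if_pos h]
        refine Finset.prod_eq_one fun i hi => ?_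
        rw [if_pos hi, if_pos]
        rw [← h, ex_res hS p hi]
      · rw [if_neg h]
        have : ∃ i : S, res hS p i ≠ z i := by
          by_contra hcon
          push Not at hcon
          exact h (funext hcon)
        obtain ⟨i, hi⟩ := this
        apply Finset.prod_eq_zero i.2
        rw [if_pos i.2, if_neg]
        rw [← ex_res hS p i.2, ex_coe, ex_coe]
        exact hi
    rw [e1, e2]
    by_cases h : res hS p = z
    · rw [if_pos h, if_pos h, mul_one]
    · rw [if_neg h, if_neg h, mul_zero]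
  rw [Finset.sum_congr rfl h2]
  have h3 := Finset.prod_univ_sum (fun i : J => t i)
    (fun (i : J) (q : Eis) => if (i : ι) ∈ S then (if q = ex S z i then (1 : ℂ) else 0) else A i q)
  rw [← h3, Finset.prod_coe_sort J (fun i => ∑ q ∈ t i,
    if i ∈ S then (if q = ex S z i then (1 : ℂ) else 0) else A i q), ← Finset.prod_sdiff hS]
  have e1 : ∏ i ∈ J \ S, ∑ q ∈ t i,
      (if i ∈ S then (if q = ex S z i then (1 : ℂ) else 0) else A i q) =
      ∏ i ∈ J \ S, ∑ q ∈ t i, A i q :=
    Finset.prod_congr rfl fun i hi => Finset.sum_congr rfl fun q _ => by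
      rw [if_neg (Finset.mem_sdiff.mp hi).2]
  have e2 : ∏ i ∈ S, ∑ q ∈ t i,
      (if i ∈ S then (if q = ex S z i then (1 : ℂ) else 0) else A i q) = 1 := by
    refine Finset.prod_eq_one fun i hi => ?_
    have : ∀ q ∈ t i, (if i ∈ S then (if q = ex S z i then (1 : ℂ) else 0) else A i q) =
        if q = ex S z i then 1 else 0 := fun q _ => by rw [if_pos hi]
    rw [Finset.sum_congr rfl this, Finset.sum_ite_eq', if_pos]
    have := hz ⟨i, hi⟩
    rwa [← ex_coe S z ⟨i, hi⟩] at this
  rw [e1, e2, mul_one]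

end tuples

end Crest.Agent.R017.NSx545
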