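import Crest.Agent.R017.TPDefs_320
import Crest.Agent.R017.NSxA_545

/-!
# Row 17, side-level rule (P): from squarefree to natural sums (helper813)

* `sum_pf_le` : `∑_{u powerful} N(u)^{-1/2-δ} < ∞`
* `CS_conv`, `P_eq_CS`
* `CS_conv_split`, `CS_w2_split` : the natural two-piece sum as a sum of squarefree ones
* `VC_w2_le`, `natSq` : item (D)
-/

set_option autoImplicit false

noncomputable section

open Complex Filter Topology
open scoped ComplexConjugate ContDiff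

namespace Crest.Agent.R017.TPD813

open Crest.Agent.R012 Crest.Agent.R012.Eis Crest.Agent.R012.Mob705 Crest.Agent.R012.Div277
open Crest.Agent.R012.LS2 Crest.Agent.R012.Gauss880
open Crest.Agent.R012.Weight600 (osc norm_osc)
open Crest.Agent.R012.PSer47 (IsChar ang_isChar)
open Crest.Agent.R017.End699 Crest.Agent.R017.FE47 Crest.Agent.R017.Sx545 Crest.Agent.R017.B770
open Crest.Agent.R017.Asm986 Crest.Agent.R017.PowS571 Crest.Agent.R017.Eul571
open Crest.Agent.R017.Two939 Crest.Agent.R017.TP320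
open Crest.Agent.R017.CM106 (CS FS sub)

/-! ### powerful elements -/

lemma four_le {p : Eis} (hp : Mob705.IsPP p) : (4 : ℝ) ≤ nm p := by
  exact_mod_cast Mob705.IsPP.four_le_nm hp

open Classical in
/-- `∑_{u powerful} N(u)^{-1/2-δ}` converges -/
lemma sum_pf_le {δ : ℝ} (hδ : 0 < δ) : ∃ C : ℝ, 0 ≤ C ∧ ∀ X : ℕ,
    ∑ u ∈ (primBall X).filter Pf, (nm u : ℝ) ^ (-(1 / 2 + δ)) ≤ C := by
  obtain ⟨U, hU0, hU⟩ := sum_nm_rpow_le (s := 1 + 2 * δ) (by linarith)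
  set F : Eis → ℝ := fun b => if Pf b then (nm b : ℝ) ^ (-(1 / 2 + δ)) else 0 with hF
  have hF0 : ∀ b, 0 ≤ F b := by
    intro b
    rw [hF]
    beta_reduce
    split_ifs
    · positivity
    · exact le_rfl
  have hpow : ∀ {p : Eis}, Mob705.IsPP p → ∀ {k : ℕ}, 1 ≤ k →
      F (p ^ k) ≤ (nm p : ℝ) ^ (-(1 + 2 * δ)) * (4 * (1 / 2) ^ k) := by
    intro p hp k hk
    have hq := four_le hp
    have hq0 : (0 : ℝ) < nm p := by linarith
    rw [hF]
    beta_reduce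
    by_cases h1 : k = 1
    · subst h1
      rw [if_neg]
      · positivity
      · intro h
        have h2 := h p hp.prime (by rw [pow_one])
        rw [pow_one, pow_two] at h2
        have h3 : p * p ∣ p * 1 := by rwa [mul_one]
        exact hp.prime.not_isUnit
          (isUnit_of_dvd_one ((mul_dvd_mul_iff_left hp.isPrim.ne_zero).mp h3))
    have h2 : 2 ≤ k := by omega
    rw [if_pos (pf_pow hp h2), nm_pow]
    push_cast
    obtain ⟨j, rfl⟩ : ∃ j, k = j + 2 := ⟨k - 2, by omega⟩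
    have h3 : ((nm p : ℝ) ^ (j + 2)) ^ (-(1 / 2 + δ)) =
        (nm p : ℝ) ^ (-(1 + 2 * δ)) * ((nm p : ℝ) ^ (-(1 / 2 + δ))) ^ j := by
      rw [← Real.rpow_natCast, ← Real.rpow_mul hq0.le, ← Real.rpow_natCast,
        ← Real.rpow_mul hq0.le, ← Real.rpow_add hq0]
      congr 1
      push_cast
      ring
    have h4 : (nm p : ℝ) ^ (-(1 / 2 + δ)) ≤ 1 / 2 := by
      calc (nm p : ℝ) ^ (-(1 / 2 + δ)) ≤ (nm p : ℝ) ^ (-(1 / 2 : ℝ)) :=
            Real.rpow_le_rpow_of_exponent_le (by linarith) (by linarith)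
        _ ≤ (4 : ℝ) ^ (-(1 / 2 : ℝ)) := Real.rpow_le_rpow_of_nonpos (by norm_num) hq (by norm_num)
        _ = 1 / 2 := by
            rw [Real.rpow_neg (by norm_num), ← Real.sqrt_eq_rpow,
              show (4 : ℝ) = 2 ^ 2 by norm_num, Real.sqrt_sq (by norm_num)]
            norm_num
    rw [h3]
    have h5 : ((nm p : ℝ) ^ (-(1 / 2 + δ))) ^ j ≤ (1 / 2) ^ j :=
      pow_le_pow_left₀ (by positivity) h4 j
    have h6 : (4 : ℝ) * (1 / 2) ^ (j + 2) = (1 / 2) ^ j := by rw [pow_add]; ring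
    rw [h6]
    exact mul_le_mul_of_nonneg_left h5 (by positivity)
  have hmain := fun X => eul_sum_le (m := 1) (F := F)
    (u := fun p => (nm p : ℝ) ^ (-(1 + 2 * δ)) * 4) (U := U * 4)
    (fun b _ => hF0 b)
    (by
      rw [hF]
      beta_reduce
      split_ifs
      · simp [nm_one]
      · norm_num)
    (by
      intro p k b hp hpp hk hb hpb
      have hP : Mob705.IsPP p := ⟨hp.1, hpp⟩
      by_cases h : Pf (p ^ k * b)
      · obtain ⟨h2, hb2⟩ := pf_mul hP hk hpb h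
        rw [hF]
        beta_reduce
        rw [if_pos h, if_pos (pf_pow hP h2), if_pos hb2, nm_mul]
        push_cast
        rw [Real.mul_rpow (Nat.cast_nonneg _) (Nat.cast_nonneg _)]
      · have : F (p ^ k * b) = 0 := by rw [hF]; beta_reduce; rw [if_neg h]
        rw [this]
        exact mul_nonneg (hF0 _) (hF0 _))
    (by
      intro p hp hpp K
      have hP : Mob705.IsPP p := ⟨hp.1, hpp⟩
      calc ∑ k ∈ Finset.Icc 1 K, F (p ^ k)
          ≤ ∑ k ∈ Finset.Icc 1 K, (nm p : ℝ) ^ (-(1 + 2 * δ)) * (4 * (1 / 2) ^ k) :=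
            Finset.sum_le_sum fun k hk => hpow hP (Finset.mem_Icc.mp hk).1
        _ = (nm p : ℝ) ^ (-(1 + 2 * δ)) * (4 * ∑ k ∈ Finset.Icc 1 K, (1 / 2 : ℝ) ^ k) := by
            rw [← Finset.mul_sum, ← Finset.mul_sum]
        _ ≤ (nm p : ℝ) ^ (-(1 + 2 * δ)) * (4 * 1) := by
            have h1 : ∑ k ∈ Finset.Icc 1 K, (1 / 2 : ℝ) ^ k ≤ 1 := by
              have e : ∀ K : ℕ, ∑ k ∈ Finset.Icc 1 K, (1 / 2 : ℝ) ^ k = 1 - (1 / 2) ^ K := by
                intro K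
                induction K with
                | zero => simp
                | succ K ih =>
                  rw [Finset.sum_Icc_succ_top (by omega), ih, pow_succ]
                  ring
              rw [e]
              have : (0 : ℝ) ≤ (1 / 2) ^ K := by positivity
              linarith
            gcongr
        _ = _ := by ring)
    (by
      intro P _
      rw [← Finset.sum_mul]
      have := hU P
      linarith) X
  refine ⟨Real.exp (U * 4), (Real.exp_pos _).le, fun X => le_trans (le_of_eq ?_) (hmain X)⟩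
  rw [Finset.sum_filter, Finset.sum_filter]
  refine Finset.sum_congr rfl fun b hb => ?_
  have hb' : Sm 1 b := ⟨(mem_primBall.mp hb).2, isCoprime_one_right⟩
  rw [if_pos hb']

/-! ### convolutions -/

lemma fs_conv {a b : Eis → ℂ} (ha : FS a) (hb : FS b) : FS (conv a b) := by
  classical
  set A := ha.fin.toFinset
  set B := hb.fin.toFinset
  have hmem : ∀ n, conv a b n ≠ 0 → ∃ x y, a x ≠ 0 ∧ b y ≠ 0 ∧ x * y = n := by
    intro n hn
    unfold conv at hn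
    obtain ⟨d, hd, hne⟩ := Finset.exists_ne_zero_of_sum_ne_zero hn
    exact ⟨d, n / d, left_ne_zero_of_mul hne, right_ne_zero_of_mul hne, mul_div_of_mem hd⟩
  refine ⟨?_, ?_⟩
  · refine ((A ×ˢ B).image (fun p => p.1 * p.2)).finite_toSet.subset ?_
    intro n hn
    obtain ⟨x, y, hx, hy, rfl⟩ := hmem n hn
    rw [Finset.mem_coe, Finset.mem_image]
    exact ⟨(x, y), Finset.mem_product.2
      ⟨ha.fin.mem_toFinset.2 hx, hb.fin.mem_toFinset.2 hy⟩, rfl⟩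
  · intro n hn
    obtain ⟨x, y, hx, hy, rfl⟩ := hmem n hn
    exact (ha.prim _ hx).mul (hb.prim _ hy)

/-- the character side of a convolution -/
lemma CS_conv {a b : Eis → ℂ} (ha : FS a) (hb : FS b) (k : Eis) :
    CS (conv a b) k = CS a k * CS b k := by
  classical
  set A := ha.fin.toFinset
  set B := hb.fin.toFinset
  have hA : ∀ x, a x ≠ 0 → x ∈ A := fun x hx => ha.fin.mem_toFinset.2 hx
  have hB : ∀ x, b x ≠ 0 → x ∈ B := fun x hx => hb.fin.mem_toFinset.2 hx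
  unfold CS
  rw [tsum_conv ha hb]
  have h1 : ∑' p : Eis × Eis, a p.1 * b p.2 * sy k (p.1 * p.2) =
      ∑ p ∈ A ×ˢ B, a p.1 * b p.2 * sy k (p.1 * p.2) := by
    apply tsum_eq_sum
    intro p hp
    by_contra h0
    apply hp
    have h3 := left_ne_zero_of_mul h0
    exact Finset.mem_product.2 ⟨hA _ (left_ne_zero_of_mul h3), hB _ (right_ne_zero_of_mul h3)⟩
  have h2 : ∑' m : Eis, a m * sy k m = ∑ m ∈ A, a m * sy k m := by
    apply tsum_eq_sum
    intro m hm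
    by_contra h0
    exact hm (hA _ (left_ne_zero_of_mul h0))
  have h3 : ∑' m : Eis, b m * sy k m = ∑ m ∈ B, b m * sy k m := by
    apply tsum_eq_sum
    intro m hm
    by_contra h0
    exact hm (hB _ (left_ne_zero_of_mul h0))
  rw [h1, h2, h3, Finset.sum_mul_sum, ← Finset.sum_product']
  refine Finset.sum_congr rfl fun p hp => ?_
  rw [Finset.mem_product] at hp
  have p1 := ha.prim _ (ha.fin.mem_toFinset.1 hp.1)
  have p2 := hb.prim _ (hb.fin.mem_toFinset.1 hp.2)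
  rw [syG.mul_right _ _ _ p1 p2]
  ring

lemma fs_cfa {h : ℝ → ℝ} (hh : HasCompactSupport h) (χ : Eis → ℂ) (l : ℤ) (Y t : ℝ) :
    FS (cfa h χ l Y t) := by
  obtain ⟨N, hN⟩ := cfa_support hh χ l Y
  refine ⟨(primBall N).finite_toSet.subset fun b hb => hN t b hb, fun b hb => ?_⟩
  exact (mem_primBall.mp (hN t b hb)).2

lemma fs_w2 {h : ℝ → ℝ} (hh : HasCompactSupport h) (χ : Eis → ℂ) (l : ℤ) (Z1 Z2 t1 t2 : ℝ) :
    FS (w2 h χ l Z1 Z2 t1 t2) := fs_conv (fs_cfa hh χ l Z1 t1) (fs_cfa hh χ l Z2 t2)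

/-- the smooth sums of `TwoDefs_939` -/
lemma P_eq_CS (h : ℝ → ℝ) (χ : Eis → ℂ) (l : ℤ) (k : Eis) (Y t : ℝ) :
    P h χ l k Y t = CS (cfa h χ l Y t) k := by
  unfold P PS CS cfa XK End699.ext
  refine tsum_congr fun b => ?_
  by_cases hb : IsPrim b
  · rw [if_pos hb, if_pos hb]; ring
  · rw [if_neg hb, if_neg hb]; ring

lemma P_sq (h : ℝ → ℝ) (hh : HasCompactSupport h) (χ : Eis → ℂ) (l : ℤ) (k : Eis)
    (Y1 Y2 t1 t2 : ℝ) :
    P h χ l k Y1 t1 * P h χ l k Y2 t2 = CS (w2 h χ l Y1 Y2 t1 t2) k := by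
  rw [w2, CS_conv (fs_cfa hh χ l Y1 t1) (fs_cfa hh χ l Y2 t2), P_eq_CS, P_eq_CS]

lemma V4_eq (h : ℝ → ℝ) (hh : HasCompactSupport h) (χ : Eis → ℂ) (l : ℤ) (K Y t : ℝ) :
    V4 h χ l K Y t = VC K (w2 h χ l Y Y t t) / (K * Y ^ 2) := by
  unfold V4 VC
  congr 1
  refine Finset.sum_congr rfl fun k _ => ?_
  rw [← P_sq h hh, norm_mul]
  ring

lemma W2_eq (h : ℝ → ℝ) (hh : HasCompactSupport h) (χ : Eis → ℂ) (l : ℤ) (K Z1 Z2 t1 t2 : ℝ) :
    W2 h χ l K Z1 Z2 t1 t2 = VC K (w2 h χ l Z1 Z2 t1 t2) / (K * Z1 * Z2) := by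
  unfold W2 VC
  congr 1
  refine Finset.sum_congr rfl fun k _ => ?_
  rw [← P_sq h hh, norm_mul]
  ring

/-! ### the splitting -/

lemma eq_of_dd {a b : Eis} (ha : IsPrim a) (hb : IsPrim b) (h1 : a ∣ b) (h2 : b ∣ a) :
    a = b := ha.eq_of_associated hb (associated_of_dvd_dvd h1 h2)

lemma sum_dvs_mul {A : Type*} [AddCommMonoid A] {b c : Eis} (hb : b ≠ 0) (hc : c ≠ 0)
    (h : IsCoprime b c) (F : Eis → A) :
    ∑ e ∈ dvs (b * c), F e = ∑ e₁ ∈ dvs b, ∑ e₂ ∈ dvs c, F (e₁ * e₂) := by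
  classical
  rw [← Finset.sum_product']
  symm
  refine Finset.sum_nbij (fun p => p.1 * p.2) ?_ ?_ ?_ (fun _ _ => rfl)
  · intro p hp
    rw [Finset.mem_product, mem_dvs hb, mem_dvs hc] at hp
    rw [mem_dvs (mul_ne_zero hb hc)]
    exact ⟨hp.1.1.mul hp.2.1, mul_dvd_mul hp.1.2 hp.2.2⟩
  · intro p hp p' hp' heq
    rw [Finset.mem_coe, Finset.mem_product, mem_dvs hb, mem_dvs hc] at hp hp'
    simp only at heq
    have c1 : IsCoprime p.1 p'.2 :=
      (h.of_isCoprime_of_dvd_left hp.1.2).of_isCoprime_of_dvd_right hp'.2.2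
    have c2 : IsCoprime p'.1 p.2 :=
      (h.of_isCoprime_of_dvd_left hp'.1.2).of_isCoprime_of_dvd_right hp.2.2
    have d1 : p.1 ∣ p'.1 := c1.dvd_of_dvd_mul_right (heq ▸ dvd_mul_right _ _)
    have d2 : p'.1 ∣ p.1 := c2.dvd_of_dvd_mul_right (heq ▸ dvd_mul_right _ _)
    have e1 : p.1 = p'.1 := eq_of_dd hp.1.1 hp'.1.1 d1 d2
    have e2 : p.2 = p'.2 := by
      rw [e1] at heq
      exact mul_left_cancel₀ hp'.1.1.ne_zero heq
    exact Prod.ext e1 e2
  · intro d hd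
    rw [Finset.mem_coe, mem_dvs (mul_ne_zero hb hc)] at hd
    obtain ⟨x, y, hx, hy, hxb, hyc, rfl⟩ := exists_prim_factor hd.1 hd.2
    exact ⟨(x, y), by
      rw [Finset.mem_coe, Finset.mem_product, mem_dvs hb, mem_dvs hc]
      exact ⟨⟨hx, hxb⟩, ⟨hy, hyc⟩⟩, rfl⟩

/-- convolutions at a coprime product -/
lemma conv_mul (a b : Eis → ℂ) {u v : Eis} (hu : u ≠ 0) (hv : v ≠ 0) (h : IsCoprime u v) :
    conv a b (u * v) = ∑ d ∈ dvs u, conv (sub a d) (sub b (u / d)) v := by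
  unfold conv
  rw [sum_dvs_mul hu hv h]
  refine Finset.sum_congr rfl fun d hd => Finset.sum_congr rfl fun e he => ?_
  have h1 := mul_div_of_mem hd
  have h2 := mul_div_of_mem he
  have hd0 := (isPrim_of_mem_dvs hd).ne_zero
  have he0 := (isPrim_of_mem_dvs he).ne_zero
  have h3 : u * v / (d * e) = (u / d) * (v / e) := by
    have e1 : u * v = (d * e) * ((u / d) * (v / e)) := by
      calc u * v = (d * (u / d)) * (e * (v / e)) := by rw [h1, h2]
        _ = _ := by ring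
    rw [e1, mul_div_left' (mul_ne_zero hd0 he0)]
  rw [h3]
  rfl

lemma conv_smul (a b : Eis → ℂ) (c d : ℂ) (n : Eis) :
    conv (fun x => c * a x) (fun x => d * b x) n = (c * d) * conv a b n := by
  unfold conv
  rw [Finset.mul_sum]
  refine Finset.sum_congr rfl fun x _ => ?_
  ring

lemma CS_smul (c : ℂ) (a : Eis → ℂ) (k : Eis) : CS (fun x => c * a x) k = c * CS a k := by
  unfold CS
  rw [← tsum_mul_left]
  refine tsum_congr fun m => ?_
  ring

lemma sq_smul (q : Eis) (c : ℂ) (w : Eis → ℂ) :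
    sq q (fun x => c * w x) = fun x => c * sq q w x := by
  funext n
  unfold TP320.sq
  split_ifs
  · rfl
  · rw [mul_zero]

open Classical in
/-- **the natural sum as a sum of squarefree ones** -/
theorem CS_conv_split {a b : Eis → ℂ} {N1 N2 : ℕ}
    (ha : ∀ x, a x ≠ 0 → x ∈ primBall N1) (hb : ∀ x, b x ≠ 0 → x ∈ primBall N2) (k : Eis) :
    CS (conv a b) k = ∑ u ∈ (primBall (N1 * N2)).filter Pf, ∑ d ∈ dvs u,
      sy k u * CS (sq u (conv (sub a d) (sub b (u / d)))) k := by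
  set X := N1 * N2
  have hsup : ∀ n, conv a b n ≠ 0 → n ∈ primBall X := by
    intro n hn
    unfold conv at hn
    obtain ⟨d, hd, hne⟩ := Finset.exists_ne_zero_of_sum_ne_zero hn
    have h1 := mem_primBall.mp (ha _ (left_ne_zero_of_mul hne))
    have h2 := mem_primBall.mp (hb _ (right_ne_zero_of_mul hne))
    rw [mem_primBall, ← mul_div_of_mem hd, nm_mul]
    exact ⟨Nat.mul_le_mul h1.1 h2.1, h1.2.mul h2.2⟩
  have h1 : CS (conv a b) k = ∑ n ∈ primBall X, conv a b n * sy k n := by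
    unfold CS
    apply tsum_eq_sum
    intro n hn
    by_contra h0
    exact hn (hsup n (left_ne_zero_of_mul h0))
  rw [h1, NSx545.sum_pfsf X (fun n => conv a b n * sy k n)]
  refine Finset.sum_congr rfl fun u hu => ?_
  rw [Finset.mem_filter, mem_primBall] at hu
  have hu0 := hu.1.2.ne_zero
  have h2 : ∀ v ∈ (primBall X).filter (fun v => Squarefree v ∧ IsCoprime u v ∧ nm (u * v) ≤ X),
      conv a b (u * v) * sy k (u * v) =
      ∑ d ∈ dvs u, sy k u * (conv (sub a d) (sub b (u / d)) v * sy k v) := by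
    intro v hv
    rw [Finset.mem_filter, mem_primBall] at hv
    rw [conv_mul a b hu0 hv.1.2.ne_zero hv.2.2.1, syG.mul_right _ _ _ hu.1.2 hv.1.2,
      Finset.sum_mul]
    refine Finset.sum_congr rfl fun d _ => ?_
    ring
  rw [Finset.sum_congr rfl h2, Finset.sum_comm]
  refine Finset.sum_congr rfl fun d hd => ?_
  rw [← Finset.mul_sum]
  congr 1
  unfold CS
  symm
  have h3 : ∀ v, sq u (conv (sub a d) (sub b (u / d))) v * sy k v ≠ 0 →
      v ∈ (primBall X).filter (fun v => Squarefree v ∧ IsCoprime u v ∧ nm (u * v) ≤ X) := by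
    intro v hv
    have hv1 := left_ne_zero_of_mul hv
    unfold TP320.sq at hv1
    by_cases hc : IsPrim v ∧ Squarefree v ∧ IsCoprime v u
    · rw [if_pos hc] at hv1
      unfold conv at hv1
      obtain ⟨e, he, hne⟩ := Finset.exists_ne_zero_of_sum_ne_zero hv1
      have h4 := mem_primBall.mp (ha _ (left_ne_zero_of_mul hne))
      have h5 := mem_primBall.mp (hb _ (right_ne_zero_of_mul hne))
      have h6 : nm (u * v) ≤ X := by
        have e1 : u * v = (d * e) * ((u / d) * (v / e)) := by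
          calc u * v = (d * (u / d)) * (e * (v / e)) := by
                rw [mul_div_of_mem hd, mul_div_of_mem he]
            _ = _ := by ring
        rw [e1, nm_mul]
        exact Nat.mul_le_mul h4.1 h5.1
      have h7 : nm v ≤ X := (nm_le_of_dvd (mul_ne_zero hu0 hc.1.ne_zero)
        (dvd_mul_left _ _)).trans h6
      rw [Finset.mem_filter, mem_primBall]
      exact ⟨⟨h7, hc.1⟩, hc.2.1, hc.2.2.symm, h6⟩
    · rw [if_neg hc] at hv1
      exact absurd rfl hv1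
  rw [tsum_eq_sum (s := (primBall X).filter
    (fun v => Squarefree v ∧ IsCoprime u v ∧ nm (u * v) ≤ X)) (fun v hv => by
      by_contra h0
      exact hv (h3 v h0))]
  refine Finset.sum_congr rfl fun v hv => ?_
  rw [Finset.mem_filter, mem_primBall] at hv
  have : IsPrim v ∧ Squarefree v ∧ IsCoprime v u := ⟨hv.1.2, hv.2.1, hv.2.2.1.symm⟩
  unfold TP320.sq
  rw [if_pos this]

/-! ### the two-piece sequence -/

/-- the scalar of `cfa_mul` -/
def gc (χ : Eis → ℂ) (l : ℤ) (t : ℝ) (d : Eis) : ℂ := χ d * ang l d * osc t (Real.log (nm d))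

lemma norm_gc_le {M : Eis} {χ : Eis → ℂ} (hχ : HC M χ) (l : ℤ) (t : ℝ) {d : Eis}
    (hd : IsPrim d) : ‖gc χ l t d‖ ≤ 1 := by
  unfold gc
  rw [norm_mul, norm_mul, norm_osc, mul_one]
  have h1 := hχ.char.norm_le hd
  have h3 : ‖ang l d‖ ≤ 1 := (ang_isChar l).norm_le hd
  calc ‖χ d‖ * ‖ang l d‖ ≤ 1 * 1 := by gcongr
    _ = 1 := by ring

lemma sub_cfa (h : ℝ → ℝ) {M : Eis} {χ : Eis → ℂ} (hχ : HC M χ) (l : ℤ) {d : Eis}
    (hd : IsPrim d) {Y : ℝ} (hY : 0 < Y) (t : ℝ) :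
    sub (cfa h χ l Y t) d = fun x => gc χ l t d * cfa h χ l (Y / nm d) t x := by
  funext x
  exact cfa_mul hχ l hd hY t x

lemma prim_div {u d : Eis} (hu : IsPrim u) (hd : d ∈ dvs u) : IsPrim (u / d) := by
  have h1 := mul_div_of_mem hd
  have h2 := isPrim_of_mem_dvs hd
  exact (P355.isPrim_mul_iff h2).mp (by rw [h1]; exact hu)

open Classical in
theorem CS_w2_split (h : ℝ → ℝ) {M : Eis} {χ : Eis → ℂ} (hχ : HC M χ) (l : ℤ) {Y1 Y2 t1 t2 : ℝ}
    (hY1 : 0 < Y1) (hY2 : 0 < Y2) {N1 N2 : ℕ} (hN1 : ∀ x, cfa h χ l Y1 t1 x ≠ 0 → x ∈ primBall N1)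
    (hN2 : ∀ x, cfa h χ l Y2 t2 x ≠ 0 → x ∈ primBall N2) (k : Eis) :
    CS (w2 h χ l Y1 Y2 t1 t2) k = ∑ u ∈ (primBall (N1 * N2)).filter Pf, ∑ d ∈ dvs u,
      (sy k u * (gc χ l t1 d * gc χ l t2 (u / d))) *
        CS (sq u (w2 h χ l (Y1 / nm d) (Y2 / nm (u / d)) t1 t2)) k := by
  unfold w2
  rw [CS_conv_split hN1 hN2 k]
  refine Finset.sum_congr rfl fun u hu => Finset.sum_congr rfl fun d hd => ?_
  rw [Finset.mem_filter, mem_primBall] at hu
  rw [sub_cfa h hχ l (isPrim_of_mem_dvs hd) hY1 t1, sub_cfa h hχ l (prim_div hu.1.2 hd) hY2 t2]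
  have e : conv (fun x => gc χ l t1 d * cfa h χ l (Y1 / nm d) t1 x)
      (fun x => gc χ l t2 (u / d) * cfa h χ l (Y2 / nm (u / d)) t2 x) =
      fun n => (gc χ l t1 d * gc χ l t2 (u / d)) *
        conv (cfa h χ l (Y1 / nm d) t1) (cfa h χ l (Y2 / nm (u / d)) t2) n := by
    funext n
    exact conv_smul _ _ _ _ n
  rw [e, sq_smul, CS_smul]
  ring

/-- the support of `cfa` -/
lemma cfa_nm_le {h : ℝ → ℝ} {R : ℝ} (hR : ∀ u, cx h u ≠ 0 → |u| ≤ R) {χ : Eis → ℂ} {l : ℤ}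
    {Y : ℝ} (hY : 0 < Y) {t : ℝ} {b : Eis} (hb : cfa h χ l Y t b ≠ 0) :
    b ∈ primBall ⌊Real.exp R * Y⌋₊ := by
  have hp : IsPrim b := by
    by_contra hp
    exact hb (cfa_prim hp)
  have h1 : cx h (Real.log (nm b) - Real.log Y) ≠ 0 := by
    unfold cfa at hb
    exact right_ne_zero_of_mul (right_ne_zero_of_mul hb)
  have h2 := (abs_le.mp (hR _ h1)).2
  have hb0 : (0 : ℝ) < nm b := by exact_mod_cast nm_pos.2 hp.ne_zero
  rw [mem_primBall]
  refine ⟨?_, hp⟩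
  rw [Nat.le_floor_iff (by positivity)]
  have h3 : Real.log (nm b) ≤ R + Real.log Y := by linarith
  calc (nm b : ℝ) = Real.exp (Real.log (nm b)) := (Real.exp_log hb0).symm
    _ ≤ Real.exp (R + Real.log Y) := Real.exp_le_exp.mpr h3
    _ = Real.exp R * Y := by rw [Real.exp_add, Real.exp_log hY]

/-- weighted Cauchy inequality -/
lemma cauchy_w {α : Type*} (s : Finset α) (w : α → ℝ) (hw : ∀ x ∈ s, 0 < w x) (c X : α → ℂ)
    (hc : ∀ x ∈ s, ‖c x‖ ≤ 1) :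
    ‖∑ x ∈ s, c x * X x‖ ^ 2 ≤ (∑ x ∈ s, (w x)⁻¹) * ∑ x ∈ s, w x * ‖X x‖ ^ 2 := by
  have h1 : ‖∑ x ∈ s, c x * X x‖ ≤ ∑ x ∈ s, Real.sqrt (w x)⁻¹ * (Real.sqrt (w x) * ‖X x‖) := by
    refine (norm_sum_le _ _).trans (Finset.sum_le_sum fun x hx => ?_)
    have hx0 := hw x hx
    rw [norm_mul, ← mul_assoc, ← Real.sqrt_mul (by positivity), inv_mul_cancel₀ hx0.ne',
      Real.sqrt_one]
    exact mul_le_mul_of_nonneg_right (hc x hx) (norm_nonneg _)
  have h2 := Finset.sum_mul_sq_le_sq_mul_sq s (fun x => Real.sqrt (w x)⁻¹)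
    (fun x => Real.sqrt (w x) * ‖X x‖)
  calc ‖∑ x ∈ s, c x * X x‖ ^ 2
      ≤ (∑ x ∈ s, Real.sqrt (w x)⁻¹ * (Real.sqrt (w x) * ‖X x‖)) ^ 2 :=
        pow_le_pow_left₀ (norm_nonneg _) h1 2
    _ ≤ _ := h2
    _ = _ := by
        congr 1
        · exact Finset.sum_congr rfl fun x hx => Real.sq_sqrt (by have := hw x hx; positivity)
        · refine Finset.sum_congr rfl fun x hx => ?_
          rw [mul_pow, Real.sq_sqrt (hw x hx).le]

open Classical in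
/-- **(D), general form**: the second moment of the natural two-piece sum from the squarefree
ones. -/
theorem VC_w2_le {h : ℝ → ℝ} {c : ℝ} (hpu : PU h c) {ε : ℝ} (hε : 0 < ε) : ∃ C : ℝ, 0 < C ∧
    ∀ (M : Eis) (χ : Eis → ℂ), HC M χ → ∀ (l : ℤ) (K Y1 Y2 t1 t2 A : ℝ), 1 ≤ Y1 → 1 ≤ Y2 → 0 ≤ A →
      (∀ q : Eis, IsPrim q → (nm q : ℝ) ≤ C * (Y1 * Y2) → ∀ Z1 Z2 : ℝ, 0 < Z1 → Z1 ≤ Y1 → 0 < Z2 →
        Z2 ≤ Y2 → VC K (sq q (w2 h χ l Z1 Z2 t1 t2)) ≤ A * Z1 * Z2) →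
      VC K (w2 h χ l Y1 Y2 t1 t2) ≤ C * (Y1 * Y2) ^ ε * (A * Y1 * Y2) := by
  obtain ⟨R, hR0, hR⟩ : ∃ R : ℝ, 0 ≤ R ∧ ∀ u, cx h u ≠ 0 → |u| ≤ R := by
    obtain ⟨R, hR⟩ := (cs_cx hpu.cs).isCompact.isBounded.subset_closedBall (0 : ℝ)
    refine ⟨max R 0, le_max_right _ _, fun u hu => ?_⟩
    have h1 : u ∈ tsupport (cx h) := subset_tsupport _ hu
    have h2 := hR h1
    rw [Metric.mem_closedBall, dist_zero_right, Real.norm_eq_abs] at h2
    exact h2.trans (le_max_left _ _)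
  obtain ⟨Ct, hCt, htau⟩ := tau_le_rpow (ε := ε / 4) (by positivity)
  obtain ⟨C1, hC1, hpf⟩ := sum_pf_le (δ := ε / 4) (by positivity)
  set E := Real.exp (2 * R) with hE
  have hE0 : 0 < E := Real.exp_pos _
  set S1 := Ct * C1 with hS1
  have hS10 : 0 ≤ S1 := by positivity
  refine ⟨E + S1 ^ 2 * E ^ ε + 1, by positivity, ?_⟩
  intro M χ hχ l K Y1 Y2 t1 t2 A hY1 hY2 hA hyp
  have hY10 : 0 < Y1 := by linarith
  have hY20 : 0 < Y2 := by linarith
  set N1 := ⌊Real.exp R * Y1⌋₊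
  set N2 := ⌊Real.exp R * Y2⌋₊
  set X := N1 * N2 with hX
  have hXle : (X : ℝ) ≤ E * (Y1 * Y2) := by
    rw [hX]
    push_cast
    have h1 : (N1 : ℝ) ≤ Real.exp R * Y1 := Nat.floor_le (by positivity)
    have h2 : (N2 : ℝ) ≤ Real.exp R * Y2 := Nat.floor_le (by positivity)
    calc (N1 : ℝ) * N2 ≤ (Real.exp R * Y1) * (Real.exp R * Y2) := by gcongr
      _ = (Real.exp R * Real.exp R) * (Y1 * Y2) := by ring
      _ = E * (Y1 * Y2) := by rw [← Real.exp_add, hE]; congr 2; ring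
  set I := ((primBall X).filter Pf).sigma (fun u => dvs u) with hI
  have hmemI : ∀ x ∈ I, IsPrim x.1 ∧ nm x.1 ≤ X ∧ x.2 ∈ dvs x.1 := by
    intro x hx
    rw [hI, Finset.mem_sigma, Finset.mem_filter, mem_primBall] at hx
    exact ⟨hx.1.1.2, hx.1.1.1, hx.2⟩
  have hpos : ∀ x ∈ I, (0 : ℝ) < nm x.1 := fun x hx => by
    exact_mod_cast nm_pos.2 (hmemI x hx).1.ne_zero
  -- the sum of the inverse weights
  have hSum : ∑ x ∈ I, (nm x.1 : ℝ) ^ (-(1 / 2 + ε / 2)) ≤ S1 := by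
    rw [hI, Finset.sum_sigma]
    calc ∑ u ∈ (primBall X).filter Pf, ∑ _d ∈ dvs u, (nm u : ℝ) ^ (-(1 / 2 + ε / 2))
        = ∑ u ∈ (primBall X).filter Pf, (tau u : ℝ) * (nm u : ℝ) ^ (-(1 / 2 + ε / 2)) := by
          refine Finset.sum_congr rfl fun u _ => ?_
          rw [Finset.sum_const, nsmul_eq_mul, tau]
      _ ≤ ∑ u ∈ (primBall X).filter Pf, Ct * (nm u : ℝ) ^ (-(1 / 2 + ε / 4)) := by
          refine Finset.sum_le_sum fun u hu => ?_
          rw [Finset.mem_filter, mem_primBall] at hu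
          have hu0 : (0 : ℝ) < nm u := by exact_mod_cast nm_pos.2 hu.1.2.ne_zero
          calc (tau u : ℝ) * (nm u : ℝ) ^ (-(1 / 2 + ε / 2))
              ≤ (Ct * (nm u : ℝ) ^ (ε / 4)) * (nm u : ℝ) ^ (-(1 / 2 + ε / 2)) := by
                have := htau u hu.1.2.ne_zero
                gcongr
            _ = Ct * (nm u : ℝ) ^ (-(1 / 2 + ε / 4)) := by
                rw [mul_assoc, ← Real.rpow_add hu0]
                congr 2; ring
      _ = Ct * ∑ u ∈ (primBall X).filter Pf, (nm u : ℝ) ^ (-(1 / 2 + ε / 4)) := by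
          rw [Finset.mul_sum]
      _ ≤ Ct * C1 := by
          have := hpf X
          gcongr
  -- pointwise Cauchy
  set Z : (Σ _ : Eis, Eis) → Eis → ℂ := fun x =>
    sq x.1 (w2 h χ l (Y1 / nm x.2) (Y2 / nm (x.1 / x.2)) t1 t2) with hZ
  have hpt : ∀ k ∈ bl K, ‖CS (w2 h χ l Y1 Y2 t1 t2) k‖ ^ 2 ≤
      S1 * ∑ x ∈ I, (nm x.1 : ℝ) ^ (1 / 2 + ε / 2) * ‖CS (Z x) k‖ ^ 2 := by
    intro k _
    rw [CS_w2_split h hχ l hY10 hY20 (fun x hx => cfa_nm_le hR hY10 hx)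
      (fun x hx => cfa_nm_le hR hY20 hx) k, Finset.sum_sigma']
    refine (cauchy_w I (fun x => (nm x.1 : ℝ) ^ (1 / 2 + ε / 2)) (fun x hx => by
      have := hpos x hx; positivity)
      (fun x => sy k x.1 * (gc χ l t1 x.2 * gc χ l t2 (x.1 / x.2)))
      (fun x => CS (Z x) k) (fun x hx => ?_)).trans ?_
    · obtain ⟨h1, _, h3⟩ := hmemI x hx
      rw [norm_mul, norm_mul]
      have a1 : ‖sy k x.1‖ ≤ 1 := Two939.norm_sy_le h1
      have a2 := norm_gc_le hχ l t1 (isPrim_of_mem_dvs h3)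
      have a3 := norm_gc_le hχ l t2 (prim_div h1 h3)
      calc ‖sy k x.1‖ * (‖gc χ l t1 x.2‖ * ‖gc χ l t2 (x.1 / x.2)‖) ≤ 1 * (1 * 1) := by gcongr
        _ = 1 := by ring
    · have h1 : ∑ x ∈ I, ((nm x.1 : ℝ) ^ (1 / 2 + ε / 2))⁻¹ ≤ S1 := by
        refine le_trans (le_of_eq (Finset.sum_congr rfl fun x hx => ?_)) hSum
        rw [Real.rpow_neg (hpos x hx).le]
      have h2 : 0 ≤ ∑ x ∈ I, (nm x.1 : ℝ) ^ (1 / 2 + ε / 2) * ‖CS (Z x) k‖ ^ 2 :=
        Finset.sum_nonneg fun x _ => by positivity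
      gcongr
  -- the sum over `k`
  have hVC : VC K (w2 h χ l Y1 Y2 t1 t2) ≤
      S1 * ∑ x ∈ I, (nm x.1 : ℝ) ^ (1 / 2 + ε / 2) * VC K (Z x) := by
    unfold VC
    refine (Finset.sum_le_sum hpt).trans (le_of_eq ?_)
    rw [← Finset.mul_sum, Finset.sum_comm]
    congr 1
    exact Finset.sum_congr rfl fun x _ => by rw [Finset.mul_sum]
  have hZle : ∀ x ∈ I, (nm x.1 : ℝ) ^ (1 / 2 + ε / 2) * VC K (Z x) ≤
      (A * Y1 * Y2) * ((E * (Y1 * Y2)) ^ ε * (nm x.1 : ℝ) ^ (-(1 / 2 + ε / 2))) := by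
    intro x hx
    obtain ⟨h1, h2, h3⟩ := hmemI x hx
    have hx0 := hpos x hx
    have hd1 := one_le_nm (isPrim_of_mem_dvs h3)
    have hd2 := one_le_nm (prim_div h1 h3)
    have hxX : (nm x.1 : ℝ) ≤ E * (Y1 * Y2) := le_trans (by exact_mod_cast h2) hXle
    have hS0 : 0 ≤ S1 ^ 2 * E ^ ε := by positivity
    have hb := hyp x.1 h1 (hxX.trans (by
      have : 0 ≤ (S1 ^ 2 * E ^ ε + 1) * (Y1 * Y2) := by positivity
      nlinarith)) (Y1 / nm x.2) (Y2 / nm (x.1 / x.2)) (by positivity)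
      (div_le_self hY10.le hd1) (by positivity) (div_le_self hY20.le hd2)
    have e1 : A * (Y1 / nm x.2) * (Y2 / nm (x.1 / x.2)) = (A * Y1 * Y2) * (nm x.1 : ℝ)⁻¹ := by
      have e2 : (nm x.1 : ℝ) = nm x.2 * nm (x.1 / x.2) := by
        conv_lhs => rw [← mul_div_of_mem h3, nm_mul]
        push_cast
        rfl
      rw [e2]
      field_simp
    rw [e1] at hb
    have hA0 : 0 ≤ A * Y1 * Y2 := by positivity
    calc (nm x.1 : ℝ) ^ (1 / 2 + ε / 2) * VC K (Z x)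
        ≤ (nm x.1 : ℝ) ^ (1 / 2 + ε / 2) * ((A * Y1 * Y2) * (nm x.1 : ℝ)⁻¹) := by gcongr
      _ = (A * Y1 * Y2) * ((nm x.1 : ℝ) ^ ε * (nm x.1 : ℝ) ^ (-(1 / 2 + ε / 2))) := by
          rw [← Real.rpow_neg_one, ← Real.rpow_add hx0]
          have : (nm x.1 : ℝ) ^ (1 / 2 + ε / 2) * ((A * Y1 * Y2) * (nm x.1 : ℝ) ^ (-1 : ℝ)) =
              (A * Y1 * Y2) * ((nm x.1 : ℝ) ^ (1 / 2 + ε / 2) * (nm x.1 : ℝ) ^ (-1 : ℝ)) := by ring
          rw [this, ← Real.rpow_add hx0]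
          congr 2; ring
      _ ≤ _ := by gcongr
  calc VC K (w2 h χ l Y1 Y2 t1 t2)
      ≤ S1 * ∑ x ∈ I, (nm x.1 : ℝ) ^ (1 / 2 + ε / 2) * VC K (Z x) := hVC
    _ ≤ S1 * ∑ x ∈ I, (A * Y1 * Y2) *
          ((E * (Y1 * Y2)) ^ ε * (nm x.1 : ℝ) ^ (-(1 / 2 + ε / 2))) :=
        mul_le_mul_of_nonneg_left (Finset.sum_le_sum hZle) hS10
    _ = S1 * ((A * Y1 * Y2) * ((E * (Y1 * Y2)) ^ ε *
          ∑ x ∈ I, (nm x.1 : ℝ) ^ (-(1 / 2 + ε / 2)))) := by
        rw [← Finset.mul_sum, ← Finset.mul_sum]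
    _ ≤ S1 * ((A * Y1 * Y2) * ((E * (Y1 * Y2)) ^ ε * S1)) := by gcongr
    _ = S1 ^ 2 * E ^ ε * ((Y1 * Y2) ^ ε * (A * Y1 * Y2)) := by
        rw [Real.mul_rpow hE0.le (by positivity)]
        ring
    _ ≤ (E + S1 ^ 2 * E ^ ε + 1) * ((Y1 * Y2) ^ ε * (A * Y1 * Y2)) := by
        gcongr
        linarith
    _ = _ := by ring

/-- **(D)** of 320: the fourth moment of the smooth sums from the squarefree two-piece sums. -/
theorem natSq {h : ℝ → ℝ} {c : ℝ} (hpu : PU h c) {M : Eis} {χ : Eis → ℂ} (hχ : HC M χ) (l : ℤ)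
    {ε : ℝ} (hε : 0 < ε) : ∃ C : ℝ, 0 < C ∧ ∀ K Y t A : ℝ, 1 ≤ K → 1 ≤ Y → 0 ≤ A →
      (∀ q : Eis, IsPrim q → (nm q : ℝ) ≤ C * Y ^ 2 → ∀ Z1 Z2 : ℝ, 0 < Z1 → Z1 ≤ Y → 0 < Z2 →
        Z2 ≤ Y → VC K (sq q (w2 h χ l Z1 Z2 t t)) ≤ A * Z1 * Z2) →
      V4 h χ l K Y t ≤ C * Y ^ ε * (A / K) := by
  obtain ⟨C, hC, hb⟩ := VC_w2_le hpu (ε := ε / 2) (by positivity)
  refine ⟨C, hC, fun K Y t A hK hY hA hyp => ?_⟩
  have hY0 : 0 < Y := by linarith
  have hK0 : 0 < K := by linarith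
  have h1 := hb M χ hχ l K Y Y t t A hY hY hA (fun q hq hq2 => hyp q hq (by
    rwa [pow_two]))
  rw [V4_eq h hpu.cs, div_le_iff₀ (by positivity)]
  refine h1.trans (le_of_eq ?_)
  have e1 : (Y * Y) ^ (ε / 2) = Y ^ ε := by
    rw [Real.mul_rpow hY0.le hY0.le, ← Real.rpow_add hY0]
    congr 1; ring
  rw [e1]
  field_simp

end Crest.Agent.R017.TPD813
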