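import Crest.Agent.R017.E5a_54
import Crest.Agent.R017.HP3_842
import Crest.Agent.R017.TPD_813

/-!
# Row 17, R8, leaf E5 (helper54), part d

* `sqc_eq_cv` : the squarefree convolution is 842's `cv` restricted to squarefree `n` prime to `b`
* `sum_pf_tuples` : `∑_{β, ∏ β powerful} N(∏ β)^{-1/2-δ}` is bounded
* `sum_pf_tuples'` : `∑_{β, ∏ β powerful, β_i ∈ primBall X} N(∏ β)^{-1/2} ≤ C X^ε`
-/

set_option autoImplicit false

noncomputable section

open Finset
open scoped ComplexConjugate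

namespace Crest.Agent.R017.E5d54

open Crest.Agent.R012 Crest.Agent.R012.Eis Crest.Agent.R012.Mob705
open Crest.Agent.R012.Div277 (tau dvs mem_dvs tau_le_rpow)
open Crest.Agent.R017.CM106 Crest.Agent.R017.Asm986

variable {ι : Type*} [Fintype ι] [DecidableEq ι]

lemma mem_Tu' {g : Eis} (hg : g ≠ 0) {x : ι → Eis} :
    x ∈ HP842.Tu ι g ↔ (∀ i, x i ∈ dvs g) ∧ ∏ i, x i = g := by
  rw [HP842.mem_Tu]
  constructor
  · rintro ⟨h1, h2⟩
    refine ⟨fun i => (mem_dvs hg).mpr ⟨h1 i, ?_⟩, h2⟩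
    rw [← h2]
    exact Finset.dvd_prod_of_mem _ (Finset.mem_univ i)
  · rintro ⟨h1, h2⟩
    exact ⟨fun i => Div277.isPrim_of_mem_dvs (h1 i), h2⟩

open Classical in
theorem sqc_eq_cv (f : ι → Eis → ℂ) (b n : Eis) :
    E554.sqc f b n = if Squarefree n ∧ IsCoprime n b then HP842.cv f n else 0 := by
  unfold E554.sqc
  split_ifs with h
  · unfold HP842.cv
    refine Finset.sum_congr ?_ fun _ _ => rfl
    ext x
    have e1 := mem_Tu' (ι := ι) h.1.ne_zero (x := x)
    rw [e1]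
    simp only [Finset.mem_filter, Fintype.mem_piFinset]
  · rfl

open Classical in
/-- powerful tuples -/
theorem sum_pf_tuples (ι : Type*) [Fintype ι] [DecidableEq ι] {δ : ℝ} (hδ : 0 < δ) :
    ∃ C : ℝ, 0 ≤ C ∧ ∀ X : ℕ,
      ∑ β ∈ (Fintype.piFinset fun _ : ι => primBall X).filter (fun β => Pf (∏ i, β i)),
        (nm (∏ i, β i) : ℝ) ^ (-(1 / 2 + δ)) ≤ C := by
  obtain ⟨C₀, hC₀, h0⟩ := TPD813.sum_pf_le (δ := δ / 2) (by linarith)
  obtain ⟨C₁, hC₁, h1⟩ := tau_le_rpow (ε := δ / 2 / (Fintype.card ι + 1)) (by positivity)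
  set n := Fintype.card ι with hn
  refine ⟨C₁ ^ n * C₀, by positivity, fun X => ?_⟩
  set S := (Fintype.piFinset fun _ : ι => primBall X).filter (fun β => Pf (∏ i, β i)) with hS
  set T := (primBall (X ^ n)).filter Pf with hT
  have hmap : ∀ β ∈ S, (∏ i, β i) ∈ T := by
    intro β hβ
    rw [hS, mem_filter, Fintype.mem_piFinset] at hβ
    rw [hT, mem_filter]
    refine ⟨?_, hβ.2⟩
    rw [mem_primBall]
    refine ⟨?_, E554.isPrim_prod fun i _ => (mem_primBall.mp (hβ.1 i)).2⟩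
    have e : nm (∏ i, β i) = ∏ i, nm (β i) := by
      induction (Finset.univ : Finset ι) using Finset.induction_on with
      | empty => simp [nm_one]
      | insert a s ha ih => rw [prod_insert ha, prod_insert ha, nm_mul, ih]
    rw [e]
    calc ∏ i, nm (β i) ≤ ∏ _i : ι, X :=
          Finset.prod_le_prod' fun i _ => (mem_primBall.mp (hβ.1 i)).1
      _ = X ^ n := by rw [prod_const, card_univ]
  calc ∑ β ∈ S, (nm (∏ i, β i) : ℝ) ^ (-(1 / 2 + δ))
      = ∑ u ∈ T, ∑ β ∈ S.filter (fun β => ∏ i, β i = u), (nm (∏ i, β i) : ℝ) ^ (-(1 / 2 + δ)) :=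
        (sum_fiberwise_of_maps_to hmap _).symm
    _ ≤ ∑ u ∈ T, C₁ ^ n * (nm u : ℝ) ^ (-(1 / 2 + δ / 2)) := by
        refine sum_le_sum fun u hu => ?_
        rw [hT, mem_filter] at hu
        have hu0 : u ≠ 0 := (mem_primBall.mp hu.1).2.ne_zero
        have hup : (0 : ℝ) < nm u := by exact_mod_cast nm_pos.mpr hu0
        have hu1 : (1 : ℝ) ≤ nm u := by exact_mod_cast nm_pos.mpr hu0
        have e1 : ∑ β ∈ S.filter (fun β => ∏ i, β i = u), (nm (∏ i, β i) : ℝ) ^ (-(1 / 2 + δ)) =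
            ((S.filter (fun β => ∏ i, β i = u)).card : ℝ) * (nm u : ℝ) ^ (-(1 / 2 + δ)) := by
          rw [sum_congr rfl (g := fun _ => (nm u : ℝ) ^ (-(1 / 2 + δ))) fun β hβ => by
            rw [(mem_filter.mp hβ).2], sum_const, nsmul_eq_mul]
        rw [e1]
        have e2 : (S.filter (fun β => ∏ i, β i = u)).card ≤ tau u ^ n := by
          refine (card_le_card ?_).trans (HP842.card_Tu_le (ι := ι) u)
          intro β hβ
          rw [mem_filter, hS, mem_filter, Fintype.mem_piFinset] at hβ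
          rw [HP842.mem_Tu]
          exact ⟨fun i => (mem_primBall.mp (hβ.1.1 i)).2, hβ.2⟩
        have e3 : ((S.filter (fun β => ∏ i, β i = u)).card : ℝ) ≤
            C₁ ^ n * (nm u : ℝ) ^ (δ / 2) := by
          have h2 := h1 u hu0
          calc ((S.filter (fun β => ∏ i, β i = u)).card : ℝ) ≤ (tau u : ℝ) ^ n := by
                exact_mod_cast e2
            _ ≤ (C₁ * (nm u : ℝ) ^ (δ / 2 / (n + 1))) ^ n :=
                pow_le_pow_left₀ (Nat.cast_nonneg _) h2 n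
            _ = C₁ ^ n * (nm u : ℝ) ^ (δ / 2 / (n + 1) * n) := by
                rw [mul_pow, ← Real.rpow_natCast ((nm u : ℝ) ^ (δ / 2 / (n + 1))) n,
                  ← Real.rpow_mul hup.le]
            _ ≤ C₁ ^ n * (nm u : ℝ) ^ (δ / 2) := by
                refine mul_le_mul_of_nonneg_left ?_ (by positivity)
                refine Real.rpow_le_rpow_of_exponent_le hu1 ?_
                have hn1 : (0 : ℝ) < n + 1 := by positivity
                rw [div_mul_eq_mul_div, div_le_iff₀ hn1]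
                nlinarith
        calc ((S.filter (fun β => ∏ i, β i = u)).card : ℝ) * (nm u : ℝ) ^ (-(1 / 2 + δ))
            ≤ (C₁ ^ n * (nm u : ℝ) ^ (δ / 2)) * (nm u : ℝ) ^ (-(1 / 2 + δ)) :=
              mul_le_mul_of_nonneg_right e3 (by positivity)
          _ = C₁ ^ n * (nm u : ℝ) ^ (-(1 / 2 + δ / 2)) := by
              rw [mul_assoc, ← Real.rpow_add hup]
              congr 2
              ring
    _ = C₁ ^ n * ∑ u ∈ T, (nm u : ℝ) ^ (-(1 / 2 + δ / 2)) := by rw [mul_sum]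
    _ ≤ C₁ ^ n * C₀ := mul_le_mul_of_nonneg_left (h0 (X ^ n)) (by positivity)

open Classical in
/-- the same at the exponent `1/2` with `X^ε` -/
theorem sum_pf_tuples' (ι : Type*) [Fintype ι] [DecidableEq ι] {ε : ℝ} (hε : 0 < ε) :
    ∃ C : ℝ, 0 ≤ C ∧ ∀ X : ℕ, 1 ≤ X →
      ∑ β ∈ (Fintype.piFinset fun _ : ι => primBall X).filter (fun β => Pf (∏ i, β i)),
        (nm (∏ i, β i) : ℝ) ^ (-(1 / 2) : ℝ) ≤ C * (X : ℝ) ^ ε := by
  set n := Fintype.card ι with hn
  obtain ⟨C, hC, h⟩ := sum_pf_tuples ι (δ := ε / (n + 1)) (by positivity)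
  refine ⟨C, hC, fun X hX => ?_⟩
  have hX1 : (1 : ℝ) ≤ X := by exact_mod_cast hX
  have key : ∀ β ∈ (Fintype.piFinset fun _ : ι => primBall X).filter (fun β => Pf (∏ i, β i)),
      (nm (∏ i, β i) : ℝ) ^ (-(1 / 2) : ℝ) ≤
        (nm (∏ i, β i) : ℝ) ^ (-(1 / 2 + ε / (n + 1))) * (X : ℝ) ^ ε := by
    intro β hβ
    rw [mem_filter, Fintype.mem_piFinset] at hβ
    have hp : IsPrim (∏ i, β i) := E554.isPrim_prod fun i _ => (mem_primBall.mp (hβ.1 i)).2
    have h0 : (0 : ℝ) < nm (∏ i, β i) := by exact_mod_cast nm_pos.mpr hp.ne_zero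
    have e : nm (∏ i, β i) = ∏ i, nm (β i) := by
      induction (Finset.univ : Finset ι) using Finset.induction_on with
      | empty => simp [nm_one]
      | insert a s ha ih => rw [prod_insert ha, prod_insert ha, nm_mul, ih]
    have hle : (nm (∏ i, β i) : ℝ) ≤ (X : ℝ) ^ n := by
      have : nm (∏ i, β i) ≤ X ^ n := by
        rw [e]
        calc ∏ i, nm (β i) ≤ ∏ _i : ι, X :=
              Finset.prod_le_prod' fun i _ => (mem_primBall.mp (hβ.1 i)).1
          _ = X ^ n := by rw [prod_const, card_univ]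
      exact_mod_cast this
    have e1 : (nm (∏ i, β i) : ℝ) ^ (-(1 / 2) : ℝ) =
        (nm (∏ i, β i) : ℝ) ^ (-(1 / 2 + ε / (n + 1))) * (nm (∏ i, β i) : ℝ) ^ (ε / (n + 1)) := by
      rw [← Real.rpow_add h0]; congr 1; ring
    rw [e1]
    refine mul_le_mul_of_nonneg_left ?_ (by positivity)
    calc (nm (∏ i, β i) : ℝ) ^ (ε / (n + 1)) ≤ ((X : ℝ) ^ n) ^ (ε / (n + 1)) :=
          Real.rpow_le_rpow h0.le hle (by positivity)
      _ = (X : ℝ) ^ ((n : ℝ) * (ε / (n + 1))) := by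
          rw [← Real.rpow_natCast (X : ℝ) n, ← Real.rpow_mul (by linarith)]
      _ ≤ (X : ℝ) ^ ε := by
          refine Real.rpow_le_rpow_of_exponent_le hX1 ?_
          have hn1 : (0 : ℝ) < n + 1 := by positivity
          rw [mul_div_assoc', div_le_iff₀ hn1]
          nlinarith
  refine (sum_le_sum key).trans ?_
  rw [← sum_mul]
  exact mul_le_mul_of_nonneg_right (h X) (by positivity)

end Crest.Agent.R017.E5d54
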