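import Crest.Agent.R017.CM1_106
import Crest.Agent.R017.NSxA_545

/-!
# Row 17, R8 assembly (E5), step E0: natural products of character sums in terms of squarefree
convolutions (helper54)

* `sqc g b` : the squarefree convolution of the `g i`, prime to `b`
* `prod_CS` : `∏ CS (f i) k = ∑_{β, ∏ β powerful} sy k (∏ β) * CS (sqc (sub (f i) (β i)) (∏ β)) k`
-/

set_option autoImplicit false

noncomputable section

open Finset
open scoped ComplexConjugate

namespace Crest.Agent.R017.E554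

open Crest.Agent.R012 Crest.Agent.R012.Eis Crest.Agent.R012.Mob705 Crest.Agent.R012.Div277
open Crest.Agent.R017.Asm986 Crest.Agent.R017.CM106 Crest.Agent.R017.NSx545

variable {ι : Type*} [Fintype ι]

open Classical in
/-- the squarefree convolution, prime to `b` -/
def sqc (g : ι → Eis → ℂ) (b n : Eis) : ℂ :=
  if Squarefree n ∧ IsCoprime n b then
    ∑ a ∈ (Fintype.piFinset fun _ : ι => dvs n).filter (fun a => ∏ i, a i = n), ∏ i, g i (a i)
  else 0

lemma isPrim_prod {κ : Type*} {s : Finset κ} {a : κ → Eis} (h : ∀ i ∈ s, IsPrim (a i)) :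
    IsPrim (∏ i ∈ s, a i) := by
  classical
  induction s using Finset.induction_on with
  | empty => simpa using isPrim_one
  | insert i s hi ih =>
    rw [Finset.prod_insert hi]
    exact (h i (Finset.mem_insert_self _ _)).mul
      (ih fun j hj => h j (Finset.mem_insert_of_mem hj))

lemma sy_prod {κ : Type*} {s : Finset κ} {a : κ → Eis} (h : ∀ i ∈ s, IsPrim (a i)) (k : Eis) :
    sy k (∏ i ∈ s, a i) = ∏ i ∈ s, sy k (a i) := by
  classical
  induction s using Finset.induction_on with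
  | empty => simp
  | insert i s hi ih =>
    rw [Finset.prod_insert hi, Finset.prod_insert hi,
      Sym645.sy_mul_right k (h i (Finset.mem_insert_self _ _)).ne_zero
        (isPrim_prod fun j hj => h j (Finset.mem_insert_of_mem hj)).ne_zero,
      ih fun j hj => h j (Finset.mem_insert_of_mem hj)]

lemma nm_prod {κ : Type*} (s : Finset κ) (a : κ → Eis) : nm (∏ i ∈ s, a i) = ∏ i ∈ s, nm (a i) := by
  classical
  induction s using Finset.induction_on with
  | empty => simp
  | insert i s hi ih => rw [Finset.prod_insert hi, Finset.prod_insert hi, nm_mul, ih]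

lemma CS_eq {f : Eis → ℂ} {X : ℕ} (hf : ∀ m, f m ≠ 0 → IsPrim m ∧ nm m ≤ X) (k : Eis) :
    CS f k = ∑ m ∈ primBall X, f m * sy k m := by
  unfold CS
  refine tsum_eq_sum fun m hm => ?_
  by_contra h
  have h1 : f m ≠ 0 := fun h0 => h (by rw [h0, zero_mul])
  exact hm (mem_primBall.mpr ⟨(hf m h1).2, (hf m h1).1⟩)

lemma sum_eq_of_ne {α M : Type*} [AddCommMonoid M] {s t : Finset α} {F : α → M}
    (h : ∀ a, F a ≠ 0 → (a ∈ s ↔ a ∈ t)) : ∑ a ∈ s, F a = ∑ a ∈ t, F a := by
  classical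
  rw [← Finset.sum_filter_ne_zero s, ← Finset.sum_filter_ne_zero t]
  refine Finset.sum_congr ?_ fun _ _ => rfl
  ext a
  simp only [Finset.mem_filter]
  constructor
  · rintro ⟨h1, h2⟩; exact ⟨(h a h2).mp h1, h2⟩
  · rintro ⟨h1, h2⟩; exact ⟨(h a h2).mpr h1, h2⟩

open Classical in
/-- the character sum of a squarefree convolution -/
lemma CS_sqc {g : ι → Eis → ℂ} {X : ℕ} (hg : ∀ i m, g i m ≠ 0 → IsPrim m ∧ nm m ≤ X) (b k : Eis) :
    CS (sqc g b) k = ∑ a ∈ (Fintype.piFinset fun _ : ι => primBall X).filter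
      (fun a => Squarefree (∏ i, a i) ∧ IsCoprime (∏ i, a i) b),
        ∏ i, (g i (a i) * sy k (a i)) := by
  have hsupp : ∀ n, sqc g b n ≠ 0 → IsPrim n ∧ nm n ≤ X ^ Fintype.card ι := by
    intro n hn
    unfold sqc at hn
    split_ifs at hn with h
    · obtain ⟨a, ha, hne⟩ := Finset.exists_ne_zero_of_sum_ne_zero hn
      rw [Finset.mem_filter, Fintype.mem_piFinset] at ha
      have h1 : ∀ i, IsPrim (a i) ∧ nm (a i) ≤ X := fun i =>
        hg i _ fun h0 => hne (Finset.prod_eq_zero (Finset.mem_univ i) h0)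
      rw [← ha.2]
      refine ⟨isPrim_prod fun i _ => (h1 i).1, ?_⟩
      rw [nm_prod, Fintype.card, ← Finset.prod_const]
      exact Finset.prod_le_prod' fun i _ => (h1 i).2
    · exact absurd rfl hn
  rw [CS_eq hsupp]
  have e1 : ∀ n ∈ primBall (X ^ Fintype.card ι), sqc g b n * sy k n =
      ∑ a ∈ (Fintype.piFinset fun _ : ι => primBall X).filter
        (fun a => Squarefree (∏ i, a i) ∧ IsCoprime (∏ i, a i) b),
        if ∏ i, a i = n then ∏ i, (g i (a i) * sy k (a i)) else 0 := by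
    intro n hn
    rw [mem_primBall] at hn
    rw [← Finset.sum_filter]
    unfold sqc
    split_ifs with h
    · rw [Finset.sum_mul]
      have e2 : ∀ a ∈ (Fintype.piFinset fun _ : ι => dvs n).filter (fun a => ∏ i, a i = n),
          (∏ i, g i (a i)) * sy k n = ∏ i, (g i (a i) * sy k (a i)) := by
        intro a ha
        rw [Finset.mem_filter, Fintype.mem_piFinset] at ha
        rw [Finset.prod_mul_distrib, ← sy_prod (fun i _ => ((mem_dvs hn.2.ne_zero).mp (ha.1 i)).1),
          ha.2]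
      rw [Finset.sum_congr rfl e2]
      refine sum_eq_of_ne fun a ha => ?_
      have h1 : ∀ i, IsPrim (a i) ∧ nm (a i) ≤ X := fun i =>
        hg i _ fun h0 => ha (Finset.prod_eq_zero (Finset.mem_univ i) (by rw [h0, zero_mul]))
      simp only [Finset.mem_filter, Fintype.mem_piFinset]
      constructor
      · rintro ⟨h2, h3⟩
        rw [h3]
        exact ⟨⟨fun i => mem_primBall.mpr ⟨(h1 i).2, (h1 i).1⟩, h⟩, rfl⟩
      · rintro ⟨-, h3⟩
        refine ⟨fun i => (mem_dvs hn.2.ne_zero).mpr ⟨(h1 i).1, ?_⟩, h3⟩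
        rw [← h3]
        exact Finset.dvd_prod_of_mem a (Finset.mem_univ i)
    · rw [zero_mul]
      symm
      refine Finset.sum_eq_zero fun a ha => ?_
      simp only [Finset.mem_filter] at ha
      exact absurd (ha.2 ▸ ha.1.2) h
  rw [Finset.sum_congr rfl e1, Finset.sum_comm]
  refine Finset.sum_congr rfl fun a ha => ?_
  rw [Finset.mem_filter, Fintype.mem_piFinset] at ha
  rw [Finset.sum_ite_eq, if_pos]
  rw [mem_primBall]
  refine ⟨?_, isPrim_prod fun i _ => (mem_primBall.mp (ha.1 i)).2⟩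
  rw [nm_prod, Fintype.card, ← Finset.prod_const]
  exact Finset.prod_le_prod' fun i _ => (mem_primBall.mp (ha.1 i)).1

/-! ### the splitting of a tuple -/

lemma isCoprime_of_dvd' {a b u v : Eis} (h : IsCoprime u v) (ha : a ∣ u) (hb : b ∣ v) :
    IsCoprime a b := (h.of_isCoprime_of_dvd_left ha).of_isCoprime_of_dvd_right hb

/-- existence -/
lemma exists_split {n : ι → Eis} (hn : ∀ i, IsPrim (n i)) :
    ∃ β a : ι → Eis, (∀ i, IsPrim (β i) ∧ IsPrim (a i) ∧ n i = β i * a i) ∧ Pf (∏ i, β i) ∧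
      Squarefree (∏ i, a i) ∧ IsCoprime (∏ i, a i) (∏ i, β i) := by
  classical
  obtain ⟨u, v, hu, hv, huv, hpf, hsf, hco⟩ :=
    exists_pfsf _ le_rfl (isPrim_prod (s := Finset.univ) fun i _ => hn i)
  have h1 : ∀ i, ∃ x y, IsPrim x ∧ IsPrim y ∧ x ∣ u ∧ y ∣ v ∧ n i = x * y := fun i =>
    exists_prim_factor (hn i) (huv ▸ Finset.dvd_prod_of_mem n (Finset.mem_univ i))
  choose β a hβ ha hβu hav hna using h1
  have h2 : (∏ i, β i) * ∏ i, a i = u * v := by
    rw [← Finset.prod_mul_distrib, ← huv]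
    exact Finset.prod_congr rfl fun i _ => (hna i).symm
  have h3 : IsCoprime (∏ i, β i) v := IsCoprime.prod_left fun i _ =>
    isCoprime_of_dvd' hco (hβu i) dvd_rfl
  have h4 : IsCoprime u (∏ i, a i) := IsCoprime.prod_right fun i _ =>
    isCoprime_of_dvd' hco dvd_rfl (hav i)
  have hP : IsPrim (∏ i, β i) := isPrim_prod fun i _ => hβ i
  have h5 : ∏ i, β i = u := by
    refine hP.eq_of_associated hu (associated_of_dvd_dvd ?_ ?_)
    · exact h3.dvd_of_dvd_mul_right (h2 ▸ dvd_mul_right _ _)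
    · exact h4.dvd_of_dvd_mul_right (h2 ▸ dvd_mul_right _ _)
  have h6 : ∏ i, a i = v := by
    rw [h5] at h2
    exact mul_left_cancel₀ hu.ne_zero h2
  refine ⟨β, a, fun i => ⟨hβ i, ha i, hna i⟩, ?_, ?_, ?_⟩
  · rwa [h5]
  · rwa [h6]
  · rw [h5, h6]; exact hco.symm

/-- uniqueness -/
lemma split_unique {β a β' a' : ι → Eis} (hβ : ∀ i, IsPrim (β i)) (ha : ∀ i, IsPrim (a i))
    (hβ' : ∀ i, IsPrim (β' i)) (ha' : ∀ i, IsPrim (a' i)) (h : ∀ i, β i * a i = β' i * a' i)
    (hp : Pf (∏ i, β i)) (hp' : Pf (∏ i, β' i)) (hs : Squarefree (∏ i, a i))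
    (hs' : Squarefree (∏ i, a' i)) (hc : IsCoprime (∏ i, a i) (∏ i, β i))
    (hc' : IsCoprime (∏ i, a' i) (∏ i, β' i)) : β = β' ∧ a = a' := by
  classical
  have h1 : (∏ i, β i) * ∏ i, a i = (∏ i, β' i) * ∏ i, a' i := by
    rw [← Finset.prod_mul_distrib, ← Finset.prod_mul_distrib]
    exact Finset.prod_congr rfl fun i _ => h i
  obtain ⟨e1, e2⟩ := pfsf_unique (isPrim_prod fun i _ => hβ i) (isPrim_prod fun i _ => hβ' i)
    hp hp' hs hs' hc.symm hc'.symm h1
  have key : ∀ i, β i = β' i ∧ a i = a' i := by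
    intro i
    have d1 : β i ∣ ∏ i, β i := Finset.dvd_prod_of_mem β (Finset.mem_univ i)
    have d2 : a i ∣ ∏ i, a i := Finset.dvd_prod_of_mem a (Finset.mem_univ i)
    have d3 : β' i ∣ ∏ i, β' i := Finset.dvd_prod_of_mem β' (Finset.mem_univ i)
    have d4 : a' i ∣ ∏ i, a' i := Finset.dvd_prod_of_mem a' (Finset.mem_univ i)
    have c1 : IsCoprime (β i) (a' i) := (isCoprime_of_dvd' hc (d4.trans e2.symm.dvd) d1).symm
    have c2 : IsCoprime (β' i) (a i) := (isCoprime_of_dvd' hc' (d2.trans e2.dvd) d3).symm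
    have h3 : β i ∣ β' i := c1.dvd_of_dvd_mul_right (h i ▸ dvd_mul_right _ _)
    have h4 : β' i ∣ β i := c2.dvd_of_dvd_mul_right (h i ▸ dvd_mul_right _ _)
    have h5 : β i = β' i := (hβ i).eq_of_associated (hβ' i) (associated_of_dvd_dvd h3 h4)
    refine ⟨h5, ?_⟩
    have h6 := h i
    rw [h5] at h6
    exact mul_left_cancel₀ (hβ' i).ne_zero h6
  exact ⟨funext fun i => (key i).1, funext fun i => (key i).2⟩

open Classical in
/-- **natural product = sum over powerful parts of squarefree convolutions** -/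
theorem prod_CS {f : ι → Eis → ℂ} {X : ℕ} (hf : ∀ i m, f i m ≠ 0 → IsPrim m ∧ nm m ≤ X)
    (k : Eis) :
    ∏ i, CS (f i) k = ∑ β ∈ (Fintype.piFinset fun _ : ι => primBall X).filter
      (fun β => Pf (∏ i, β i)),
        sy k (∏ i, β i) * CS (sqc (fun i => sub (f i) (β i)) (∏ i, β i)) k := by
  have e0 : ∏ i, CS (f i) k = ∑ n ∈ Fintype.piFinset fun _ : ι => primBall X,
      ∏ i, (f i (n i) * sy k (n i)) := by
    rw [Finset.prod_congr rfl fun i _ => CS_eq (hf i) k, Finset.prod_univ_sum]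
  rw [e0]
  have e1 : ∀ β ∈ (Fintype.piFinset fun _ : ι => primBall X).filter (fun β => Pf (∏ i, β i)),
      sy k (∏ i, β i) * CS (sqc (fun i => sub (f i) (β i)) (∏ i, β i)) k =
      ∑ a ∈ (Fintype.piFinset fun _ : ι => primBall X).filter
        (fun a => Squarefree (∏ i, a i) ∧ IsCoprime (∏ i, a i) (∏ i, β i)),
        ∏ i, (f i (β i * a i) * sy k (β i * a i)) := by
    intro β hβ
    rw [Finset.mem_filter, Fintype.mem_piFinset] at hβ
    have hβ' : ∀ i, IsPrim (β i) := fun i => (mem_primBall.mp (hβ.1 i)).2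
    rw [CS_sqc (X := X) ?_, Finset.mul_sum]
    · refine Finset.sum_congr rfl fun a ha => ?_
      rw [Finset.mem_filter, Fintype.mem_piFinset] at ha
      rw [sy_prod (fun i _ => hβ' i), ← Finset.prod_mul_distrib]
      refine Finset.prod_congr rfl fun i _ => ?_
      rw [Sym645.sy_mul_right k (hβ' i).ne_zero (mem_primBall.mp (ha.1 i)).2.ne_zero]
      unfold sub
      ring
    · intro i m hm
      have h1 := hf i _ hm
      refine ⟨h1.1.of_mul_left (hβ' i), ?_⟩
      exact (nm_le_of_dvd h1.1.ne_zero (dvd_mul_left _ _)).trans h1.2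
  rw [Finset.sum_congr rfl e1, Finset.sum_sigma']
  symm
  refine Finset.sum_bij_ne_zero (fun x _ _ => fun i => x.1 i * x.2 i) ?_ ?_ ?_ ?_
  · rintro ⟨β, a⟩ h hne
    simp only [Finset.mem_sigma, Finset.mem_filter, Fintype.mem_piFinset, mem_primBall] at h ⊢
    intro i
    have h1 : f i (β i * a i) ≠ 0 := fun h0 =>
      hne (Finset.prod_eq_zero (Finset.mem_univ i) (by rw [h0, zero_mul]))
    exact ⟨(hf i _ h1).2, (hf i _ h1).1⟩
  · rintro ⟨β, a⟩ h hne ⟨β', a'⟩ h' hne' e
    simp only [Finset.mem_sigma, Finset.mem_filter, Fintype.mem_piFinset, mem_primBall] at h h'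
    obtain ⟨e1, e2⟩ := split_unique (fun i => (h.1.1 i).2) (fun i => (h.2.1 i).2)
      (fun i => (h'.1.1 i).2) (fun i => (h'.2.1 i).2) (fun i => congrFun e i) h.1.2 h'.1.2
      h.2.2.1 h'.2.2.1 h.2.2.2 h'.2.2.2
    subst e1; subst e2; rfl
  · intro n hn hne
    rw [Fintype.mem_piFinset] at hn
    obtain ⟨β, a, h1, h2, h3, h4⟩ := exists_split fun i => (mem_primBall.mp (hn i)).2
    refine ⟨⟨β, a⟩, ?_, ?_, ?_⟩
    · simp only [Finset.mem_sigma, Finset.mem_filter, Fintype.mem_piFinset, mem_primBall]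
      refine ⟨⟨fun i => ⟨?_, (h1 i).1⟩, h2⟩, fun i => ⟨?_, (h1 i).2.1⟩, h3, h4⟩
      · refine (nm_le_of_dvd (mem_primBall.mp (hn i)).2.ne_zero ?_).trans (mem_primBall.mp (hn i)).1
        exact ⟨a i, (h1 i).2.2⟩
      · refine (nm_le_of_dvd (mem_primBall.mp (hn i)).2.ne_zero ?_).trans (mem_primBall.mp (hn i)).1
        exact ⟨β i, by rw [(h1 i).2.2, mul_comm]⟩
    · simp only
      have : ∏ i, (f i (β i * a i) * sy k (β i * a i)) = ∏ i, (f i (n i) * sy k (n i)) :=
        Finset.prod_congr rfl fun i _ => by rw [(h1 i).2.2]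
      rw [this]; exact hne
    · exact funext fun i => (h1 i).2.2.symm
  · rintro ⟨β, a⟩ h hne
    rfl

end Crest.Agent.R017.E554
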