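import Crest.Agent.R017.E2m_440
import Crest.Agent.R017.E5a_54

/-!
# Row 17, R8, leaf E5 (helper54), part k: the middle term

* `Core n s J c G` : `Σ_{k prim, (k,n)=1, s ∣ k} G k Σ_{x ∈ J} c x sy k δ conj th(j k)`
  (arbitrary coefficients `c`: input of 164's `e4k`)
* `StE_core` : a `k`-sum against the truncated structured function is `Σ_{e ≤ E0} mu e Core`
* `SS` : the structured function of a natural product of typed pieces
* `mid_le` : the middle term of the signed sum
-/

set_option autoImplicit false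

noncomputable section

open Finset Complex
open scoped ComplexConjugate

namespace Crest.Agent.R017.E5k54

open Crest.Agent.R012 Crest.Agent.R012.Eis
open Crest.Agent.R012.Mob705 hiding pb mem_pb
open Crest.Agent.R012.LS2 (S mem_S)
open Crest.Agent.R017.PX764 (th Gh n6)
open Crest.Agent.R017.CM106 (CS FS sub)
open Crest.Agent.R017.E2440 (TE StE)
open Crest.Agent.R017.DgA829 (lc lc_prim lc_dvd)

/-- the core sum: arbitrary coefficients on the frequencies -/
def Core (n s : Eis) (J : Finset (Eis × Eis)) (c : Eis × Eis → ℂ) (G : Eis → ℂ) : ℂ := by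
  classical
  exact ∑' k : Eis, if IsPrim k ∧ IsCoprime k n ∧ s ∣ k then
    G k * ∑ x ∈ J, c x * (sy k x.1 * conj (th (x.2 * k))) else 0

open Classical in
/-- the structured function as a combination of ungated sums -/
lemma StE_eq (E0 : ℝ) (J : Finset (Eis × Eis)) (om : Eis × Eis → ℂ) (α : Eis → ℂ) (k : Eis) :
    StE E0 J om α k = ∑ e ∈ S E0, if e ∣ k then (mu e : ℂ) *
        ∑ x ∈ J, (om x * TE α x e) * (sy k x.1 * conj (th (x.2 * k))) else 0 := by
  classical
  unfold StE
  rw [← Finset.sum_filter]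
  simp_rw [Finset.mul_sum]
  rw [Finset.sum_comm]
  refine Finset.sum_congr rfl fun e _ => Finset.sum_congr rfl fun x _ => ?_
  ring

lemma tsum_fin {G : Eis → ℂ} (hG : (Function.support G).Finite) (p : Eis → Prop)
    [DecidablePred p] (F : Eis → ℂ) : Summable fun k : Eis => if p k then G k * F k else 0 := by
  classical
  refine summable_of_hasFiniteSupport (hG.subset fun k hk => ?_)
  rw [Function.mem_support] at hk ⊢
  intro h
  apply hk
  split_ifs
  · rw [h, zero_mul]
  · rfl

open Classical in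
/-- **the middle term through cores** -/
theorem StE_core {n s : Eis} (hs : IsPrim s) {G : Eis → ℂ} (hG : (Function.support G).Finite)
    (E0 : ℝ) (J : Finset (Eis × Eis)) (om : Eis × Eis → ℂ) (α : Eis → ℂ) :
    (∑' k : Eis, if IsPrim k ∧ IsCoprime k n ∧ s ∣ k then
      G k * StE E0 J om α k else 0) =
      ∑ e ∈ S E0, (mu e : ℂ) * Core n (lc s e) J (fun x => om x * TE α x e) G := by
  classical
  have h1 : ∀ k : Eis, (if IsPrim k ∧ IsCoprime k n ∧ s ∣ k then G k * StE E0 J om α k else 0) =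
      ∑ e ∈ S E0, (mu e : ℂ) * (if IsPrim k ∧ IsCoprime k n ∧ lc s e ∣ k then
        G k * ∑ x ∈ J, (om x * TE α x e) * (sy k x.1 * conj (th (x.2 * k))) else 0) := by
    intro k
    by_cases hk : IsPrim k ∧ IsCoprime k n ∧ s ∣ k
    · rw [if_pos hk, StE_eq, Finset.mul_sum]
      refine Finset.sum_congr rfl fun e he => ?_
      have hep : IsPrim e := (mem_primBall.mp (Finset.mem_filter.mp he).1).2
      have hd : (IsPrim k ∧ IsCoprime k n ∧ lc s e ∣ k) ↔ e ∣ k := by
        rw [lc_dvd hs hep]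
        exact ⟨fun h => h.2.2.2, fun h => ⟨hk.1, hk.2.1, hk.2.2, h⟩⟩
      by_cases h : e ∣ k
      · rw [if_pos h, if_pos (hd.mpr h)]; ring
      · rw [if_neg h, if_neg (fun h' => h (hd.mp h'))]; ring
    · rw [if_neg hk]
      symm
      refine Finset.sum_eq_zero fun e he => ?_
      have hep : IsPrim e := (mem_primBall.mp (Finset.mem_filter.mp he).1).2
      rw [if_neg, mul_zero]
      rintro ⟨a, b, c⟩
      exact hk ⟨a, b, ((lc_dvd hs hep k).mp c).1⟩
  have hsm : ∀ e ∈ S E0, Summable fun k : Eis => (mu e : ℂ) *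
      (if IsPrim k ∧ IsCoprime k n ∧ lc s e ∣ k then
        G k * ∑ x ∈ J, (om x * TE α x e) * (sy k x.1 * conj (th (x.2 * k))) else 0) := fun e _ =>
    (tsum_fin hG (fun k => IsPrim k ∧ IsCoprime k n ∧ lc s e ∣ k)
      (fun k => ∑ x ∈ J, (om x * TE α x e) * (sy k x.1 * conj (th (x.2 * k))))).mul_left _
  rw [tsum_congr h1, Summable.tsum_finsetSum hsm]
  refine Finset.sum_congr rfl fun e _ => ?_
  rw [tsum_mul_left]
  congr 1

/-! ### the structured function of a natural product -/

variable {ι : Type*} [Fintype ι]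

/-- the powerful tuples -/
def PT (ι : Type*) [Fintype ι] (Y : ℕ) : Finset (ι → Eis) := by
  classical
  exact (Fintype.piFinset fun _ : ι => primBall Y).filter (fun β => Asm986.Pf (∏ i, β i))

/-- the squarefree sequence at `β` -/
def alb (f : ι → Eis → ℂ) (β : ι → Eis) : Eis → ℂ := E554.sqc (fun i => sub (f i) (β i)) (∏ i, β i)

/-- **the structured function of the natural product `∏ CS (f i)`** -/
def SS (f : ι → Eis → ℂ) (Y : ℕ) (E0 : ℝ) (J : Finset (Eis × Eis)) (om : Eis × Eis → ℂ)
    (k : Eis) : ℂ :=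
  ∑ β ∈ PT ι Y, sy k (∏ i, β i) * StE E0 J om (alb f β) k

/-- the error: on `k` the product minus the structured function is the sum of the errors of the
squarefree sequences -/
theorem prod_sub {f : ι → Eis → ℂ} {Y : ℕ} (hf : ∀ i m, f i m ≠ 0 → IsPrim m ∧ nm m ≤ Y)
    (c : ℂ) (E0 : ℝ) (J : Finset (Eis × Eis)) (om : Eis × Eis → ℂ) (k : Eis) :
    ∏ i, CS (f i) k - c * SS f Y E0 J om k =
      ∑ β ∈ PT ι Y, sy k (∏ i, β i) * (CS (alb f β) k - c * StE E0 J om (alb f β) k) := by
  classical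
  rw [E554.prod_CS hf, SS, Finset.mul_sum]
  unfold PT
  rw [← Finset.sum_sub_distrib]
  refine Finset.sum_congr rfl fun β _ => ?_
  unfold alb
  ring

open Classical in
/-- **the middle term**: bound by cores -/
theorem mid_le {n s : Eis} (hs : IsPrim s) {G : Eis → ℂ} (hG : (Function.support G).Finite)
    (f : ι → Eis → ℂ) (Y : ℕ) (E0 : ℝ) (J : Finset (Eis × Eis)) (om : Eis × Eis → ℂ) :
    ‖∑' k : Eis, if IsPrim k ∧ IsCoprime k n ∧ s ∣ k then
      G k * SS f Y E0 J om k else 0‖ ≤
      ∑ β ∈ PT ι Y, ∑ e ∈ S E0,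
        ‖Core n (lc s e) J (fun x => om x * TE (alb f β) x e) (fun k => G k * sy k (∏ i, β i))‖ := by
  classical
  have h1 : ∀ k : Eis, (if IsPrim k ∧ IsCoprime k n ∧ s ∣ k then G k * SS f Y E0 J om k else 0) =
      ∑ β ∈ PT ι Y, (if IsPrim k ∧ IsCoprime k n ∧ s ∣ k then
        (G k * sy k (∏ i, β i)) * StE E0 J om (alb f β) k else 0) := by
    intro k
    by_cases hk : IsPrim k ∧ IsCoprime k n ∧ s ∣ k
    · rw [if_pos hk, SS, Finset.mul_sum]
      refine Finset.sum_congr rfl fun β _ => ?_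
      rw [if_pos hk]; ring
    · rw [if_neg hk]
      symm
      exact Finset.sum_eq_zero fun β _ => if_neg hk
  have hG' : ∀ β : ι → Eis, (Function.support fun k => G k * sy k (∏ i, β i)).Finite := fun β =>
    hG.subset fun k hk => by
      rw [Function.mem_support] at hk ⊢
      intro h
      exact hk (by rw [h, zero_mul])
  have hsm : ∀ β ∈ PT ι Y, Summable fun k : Eis =>
      (if IsPrim k ∧ IsCoprime k n ∧ s ∣ k then
        (G k * sy k (∏ i, β i)) * StE E0 J om (alb f β) k else 0) := fun β _ =>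
    tsum_fin (hG' β) (fun k => IsPrim k ∧ IsCoprime k n ∧ s ∣ k)
      (fun k => StE E0 J om (alb f β) k)
  rw [tsum_congr h1, Summable.tsum_finsetSum hsm]
  refine (norm_sum_le _ _).trans (Finset.sum_le_sum fun β _ => ?_)
  rw [StE_core hs (hG' β)]
  refine (norm_sum_le _ _).trans (Finset.sum_le_sum fun e _ => ?_)
  rw [norm_mul]
  have hmu : ‖((mu e : ℤ) : ℂ)‖ ≤ 1 := by
    exact norm_muE_le e
  calc ‖((mu e : ℤ) : ℂ)‖ * _ ≤ 1 * _ := mul_le_mul_of_nonneg_right hmu (norm_nonneg _)
    _ = _ := one_mul _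

end Crest.Agent.R017.E5k54
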