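import Crest.Agent.R017.StD_828
import Crest.Agent.R017.E5k_54
import Crest.Agent.R017.E5d_54

/-!
# Row 17, R8/P1 at list level, part 1 (helper54)

`f : κ → _` the three lumps, `fa : ι → _` the amplifier pieces, `u` a nonnegative weight on `k`.

* `err_mul` : `∏ CS fa (∏ CS f - c SS f)` as a sum over the powerful tuples `β`, `γ` and over `g`
* `err_le` : second moment, with weights `N(β)^{1/2+δ} N(γ)^{1/2+δ} N(g)^{1+δ}`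
-/

set_option autoImplicit false

noncomputable section

open Finset
open scoped ComplexConjugate

namespace Crest.Agent.R017.P1e54

open Crest.Agent.R012 Crest.Agent.R012.Eis Crest.Agent.R012.Div277
open Crest.Agent.R012.Mob705 hiding pb mem_pb
open Crest.Agent.R012.LS2 (S mem_S)
open Crest.Agent.R017.CM106 Crest.Agent.R017.C70
open Crest.Agent.R017.StC828 (SqS cvc)
open Crest.Agent.R017.StD828 (ln Tm)
open Crest.Agent.R017.E2440 (TE StE)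
open Crest.Agent.R017.E3A164 (SteT)
open Crest.Agent.R017.E5k54 (PT alb SS)

variable {ι κ : Type*} [Fintype ι] [Fintype κ]

/-! ### support of `alb` -/

lemma alb_ne {f : ι → Eis → ℂ} {β : ι → Eis} {n : Eis} (h : alb f β n ≠ 0) :
    Squarefree n ∧ IsCoprime n (∏ i, β i) ∧ ∃ a : ι → Eis, ∏ i, a i = n ∧
      ∀ i, f i (β i * a i) ≠ 0 := by
  classical
  unfold alb E554.sqc at h
  split_ifs at h with h1
  · obtain ⟨a, ha, hne⟩ := Finset.exists_ne_zero_of_sum_ne_zero h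
    refine ⟨h1.1, h1.2, a, (mem_filter.1 ha).2, fun i => ?_⟩
    exact Finset.prod_ne_zero_iff.1 hne i (mem_univ i)
  · exact absurd rfl h

lemma alb_prim {f : ι → Eis → ℂ} (hf : ∀ i m, f i m ≠ 0 → IsPrim m) {β : ι → Eis}
    (hβ : ∀ i, IsPrim (β i)) {n : Eis} (h : alb f β n ≠ 0) : IsPrim n := by
  obtain ⟨-, -, a, rfl, ha⟩ := alb_ne h
  exact E554.isPrim_prod fun i _ => (hf i _ (ha i)).of_mul_left (hβ i)

lemma alb_nm {f : ι → Eis → ℂ} {Z : ι → ℝ} (hf : ∀ i m, f i m ≠ 0 → IsPrim m ∧ (nm m : ℝ) ≤ Z i)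
    {β : ι → Eis} {n : Eis} (h : alb f β n ≠ 0) :
    (nm n : ℝ) * nm (∏ i, β i) ≤ ∏ i, Z i := by
  obtain ⟨-, -, a, rfl, ha⟩ := alb_ne h
  rw [E554.nm_prod, E554.nm_prod]
  push_cast
  rw [← Finset.prod_mul_distrib]
  refine Finset.prod_le_prod (fun i _ => by positivity) fun i _ => ?_
  have := (hf i _ (ha i)).2
  rw [nm_mul] at this
  push_cast at this
  linarith

lemma one_le_nm {a : Eis} (ha : IsPrim a) : (1 : ℝ) ≤ nm a := by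
  exact_mod_cast nm_pos.2 ha.ne_zero

lemma alb_mem_S {f : ι → Eis → ℂ} {Z : ι → ℝ}
    (hf : ∀ i m, f i m ≠ 0 → IsPrim m ∧ (nm m : ℝ) ≤ Z i) {β : ι → Eis}
    (hβ : ∀ i, IsPrim (β i)) {Y : ℝ} (hY : ∏ i, Z i ≤ Y) (hY0 : 0 ≤ Y) {n : Eis}
    (h : alb f β n ≠ 0) : n ∈ S Y := by
  refine (mem_S hY0).2 ⟨?_, alb_prim (fun i m hm => (hf i m hm).1) hβ h, (alb_ne h).1⟩
  have h1 := alb_nm hf h
  have h2 : (1 : ℝ) ≤ nm (∏ i, β i) := one_le_nm (E554.isPrim_prod fun i _ => hβ i)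
  calc (nm n : ℝ) ≤ nm n * nm (∏ i, β i) := le_mul_of_one_le_right (Nat.cast_nonneg _) h2
    _ ≤ _ := h1.trans hY

lemma FS_alb {f : ι → Eis → ℂ} {Z : ι → ℝ}
    (hf : ∀ i m, f i m ≠ 0 → IsPrim m ∧ (nm m : ℝ) ≤ Z i) {β : ι → Eis}
    (hβ : ∀ i, IsPrim (β i)) : FS (alb f β) where
  fin := ((S (max (∏ i, Z i) 0)).finite_toSet).subset fun n hn =>
    alb_mem_S hf hβ (le_max_left _ _) (le_max_right _ _) hn
  prim := fun m hm => alb_prim (fun i m hm => (hf i m hm).1) hβ hm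

lemma SqS_alb (f : ι → Eis → ℂ) (β : ι → Eis) : SqS (alb f β) := fun _ hn => (alb_ne hn).1

lemma mem_PT {Y : ℕ} {β : ι → Eis} (h : β ∈ PT ι Y) : ∀ i, IsPrim (β i) := by
  classical
  unfold PT at h
  rw [mem_filter, Fintype.mem_piFinset] at h
  exact fun i => (mem_primBall.mp (h.1 i)).2

/-! ### the identity -/

/-- the sequence of the product -/
def rho (Z : ℝ) (f : κ → Eis → ℂ) (fa : ι → Eis → ℂ) (β : κ → Eis) (γ : ι → Eis) (g : Eis) :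
    Eis → ℂ := cvc Z (sub (alb fa γ) g) (sub (alb f β) g)

theorem err_mul {f : κ → Eis → ℂ} {fa : ι → Eis → ℂ} {Y : ℕ} {Zf : κ → ℝ} {Za : ι → ℝ} {Z : ℝ}
    (hf : ∀ i m, f i m ≠ 0 → IsPrim m ∧ nm m ≤ Y) (hfa : ∀ i m, fa i m ≠ 0 → IsPrim m ∧ nm m ≤ Y)
    (hf' : ∀ i m, f i m ≠ 0 → IsPrim m ∧ (nm m : ℝ) ≤ Zf i)
    (hfa' : ∀ i m, fa i m ≠ 0 → IsPrim m ∧ (nm m : ℝ) ≤ Za i) (hZ : ∏ i, Za i ≤ Z) (hZ0 : 0 ≤ Z)
    {D Y₀ Y₁ D' Y₀' Y₁' : ℝ} (hD : 0 ≤ D) (h0 : Y₀ < 1) (hY1 : 0 ≤ Y₁) (h1 : Y₁ ≤ D ^ 2)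
    (hD' : 0 ≤ D') (h0' : Y₀' < 1) (h1' : Y₁' ≤ D' ^ 2) (hYY : Y₁ * Z ^ 2 ≤ Y₁') {o : Eis → ℂ}
    (ho : ∀ z, o z ≠ 0 → (nm z : ℝ) ≤ Y₁) {E0 : ℝ} (hE : 0 ≤ E0) (c : ℂ) (k : Eis) :
    (∏ i, CS (fa i) k) * (∏ j, CS (f j) k - c * SS f Y E0 (JW D Y₀ Y₁) (fun x => o (ln x)) k) =
      ∑ β ∈ PT κ Y, ∑ γ ∈ PT ι Y, ∑ g ∈ S Z, sy k (∏ j, β j) * sy k (∏ i, γ i) *
        (sy k g * (sy k g * (CS (rho Z f fa β γ g) k -
          c * StE E0 (JW D Y₀ Y₁) (fun x => o (ln x)) (rho Z f fa β γ g) k) -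
          c * SteT (JW D' Y₀' Y₁') (fun _ => 1) (E0 * Z)
            (Tm E0 Z o (alb fa γ) (alb f β) g) k)) := by
  classical
  rw [E5k54.prod_sub hf]
  have e1 : ∏ i, CS (fa i) k = ∑ γ ∈ PT ι Y, sy k (∏ i, γ i) * CS (alb fa γ) k := by
    rw [E554.prod_CS hfa]; rfl
  rw [e1, Finset.sum_mul_sum, Finset.sum_comm]
  refine sum_congr rfl fun β hβ => sum_congr rfl fun γ hγ => ?_
  have h2 := StD828.mul_hyb hZ0 (η := alb fa γ) (fun a ha => alb_mem_S hfa' (mem_PT hγ) hZ hZ0 ha)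
    (FS_alb hf' (mem_PT hβ)) (SqS_alb f β) k hD h0 hY1 h1 hD' h0' h1' hYY ho hE c
  calc sy k (∏ i, γ i) * CS (alb fa γ) k * (sy k (∏ j, β j) * (CS (alb f β) k -
        c * StE E0 (JW D Y₀ Y₁) (fun x => o (ln x)) (alb f β) k))
      = sy k (∏ j, β j) * sy k (∏ i, γ i) * (CS (alb fa γ) k * (CS (alb f β) k -
        c * StE E0 (JW D Y₀ Y₁) (fun x => o (ln x)) (alb f β) k)) := by ring
    _ = _ := by
        rw [h2, Finset.mul_sum]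
        rfl

/-! ### second moments -/

/-- the second moment with the weight `u` -/
def M2 (u : Eis → ℝ) (F : Eis → ℂ) : ℝ := ∑' k : Eis, u k * ‖F k‖ ^ 2

lemma M2_nonneg {u : Eis → ℝ} (h0 : ∀ k, 0 ≤ u k) (F : Eis → ℂ) : 0 ≤ M2 u F :=
  tsum_nonneg fun k => mul_nonneg (h0 k) (sq_nonneg _)

lemma summ_u {u : Eis → ℝ} (hu : (Function.support u).Finite) (F : Eis → ℝ) :
    Summable fun k => u k * F k :=
  summable_of_hasFiniteSupport (hu.subset fun k hk => by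
    rw [Function.mem_support] at hk ⊢
    exact fun h => hk (by rw [h, zero_mul]))

/-- Cauchy with weights -/
lemma norm_sq_sum_le {α : Type*} (s : Finset α) (x : α → ℂ) (W : α → ℝ) (hW : ∀ i ∈ s, 0 < W i) :
    ‖∑ i ∈ s, x i‖ ^ 2 ≤ (∑ i ∈ s, W i) * ∑ i ∈ s, (W i)⁻¹ * ‖x i‖ ^ 2 := by
  have h1 : ‖∑ i ∈ s, x i‖ ≤ ∑ i ∈ s, Real.sqrt (W i) * (Real.sqrt (W i)⁻¹ * ‖x i‖) := by
    refine (norm_sum_le _ _).trans (sum_le_sum fun i hi => ?_)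
    rw [← mul_assoc, ← Real.sqrt_mul (hW i hi).le, mul_inv_cancel₀ (hW i hi).ne', Real.sqrt_one,
      one_mul]
  refine (pow_le_pow_left₀ (norm_nonneg _) h1 2).trans ?_
  refine (Finset.sum_mul_sq_le_sq_mul_sq s _ _).trans (le_of_eq ?_)
  congr 1
  · exact sum_congr rfl fun i hi => Real.sq_sqrt (hW i hi).le
  · refine sum_congr rfl fun i hi => ?_
    rw [mul_pow, Real.sq_sqrt (inv_nonneg.2 (hW i hi).le)]

lemma M2_sum_le {α : Type*} {u : Eis → ℝ} (h0 : ∀ k, 0 ≤ u k) (hu : (Function.support u).Finite)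
    (s : Finset α) (x : α → Eis → ℂ) (W : α → ℝ) (hW : ∀ i ∈ s, 0 < W i) :
    M2 u (fun k => ∑ i ∈ s, x i k) ≤ (∑ i ∈ s, W i) * ∑ i ∈ s, (W i)⁻¹ * M2 u (x i) := by
  have h1 : M2 u (fun k => ∑ i ∈ s, x i k) ≤
      ∑' k, u k * ((∑ i ∈ s, W i) * ∑ i ∈ s, (W i)⁻¹ * ‖x i k‖ ^ 2) :=
    Summable.tsum_le_tsum (fun k => mul_le_mul_of_nonneg_left
      (norm_sq_sum_le s (fun i => x i k) W hW) (h0 k)) (summ_u hu _) (summ_u hu _)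
  refine h1.trans (le_of_eq ?_)
  have h2 : ∀ k, u k * ((∑ i ∈ s, W i) * ∑ i ∈ s, (W i)⁻¹ * ‖x i k‖ ^ 2) =
      ∑ i ∈ s, (∑ i ∈ s, W i) * ((W i)⁻¹ * (u k * ‖x i k‖ ^ 2)) := by
    intro k
    rw [mul_sum, mul_sum]
    exact sum_congr rfl fun i _ => by ring
  rw [tsum_congr h2, Summable.tsum_finsetSum fun i _ => ((summ_u hu _).mul_left _).mul_left _,
    mul_sum]
  refine sum_congr rfl fun i _ => ?_
  rw [tsum_mul_left, tsum_mul_left]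
  rfl

lemma M2_mono {u : Eis → ℝ} (h0 : ∀ k, 0 ≤ u k) (hu : (Function.support u).Finite)
    {F G : Eis → ℂ} (h : ∀ k, ‖F k‖ ≤ ‖G k‖) : M2 u F ≤ M2 u G :=
  Summable.tsum_le_tsum (fun k => mul_le_mul_of_nonneg_left
    (pow_le_pow_left₀ (norm_nonneg _) (h k) 2) (h0 k)) (summ_u hu _) (summ_u hu _)

lemma M2_sub_le {u : Eis → ℝ} (h0 : ∀ k, 0 ≤ u k) (hu : (Function.support u).Finite)
    (F G : Eis → ℂ) (c : ℂ) :
    M2 u (fun k => F k - c * G k) ≤ 2 * (M2 u F + ‖c‖ ^ 2 * M2 u G) := by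
  have h1 : M2 u (fun k => F k - c * G k) ≤
      ∑' k, (2 * (u k * ‖F k‖ ^ 2) + 2 * ‖c‖ ^ 2 * (u k * ‖G k‖ ^ 2)) := by
    refine Summable.tsum_le_tsum (fun k => ?_) (summ_u hu _)
      (((summ_u hu _).mul_left _).add ((summ_u hu _).mul_left _))
    have h2 : ‖F k - c * G k‖ ≤ ‖F k‖ + ‖c‖ * ‖G k‖ := by
      refine (norm_sub_le _ _).trans ?_
      rw [norm_mul]
    have h3 : ‖F k - c * G k‖ ^ 2 ≤ 2 * ‖F k‖ ^ 2 + 2 * ‖c‖ ^ 2 * ‖G k‖ ^ 2 := by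
      have h4 := pow_le_pow_left₀ (norm_nonneg _) h2 2
      nlinarith [sq_nonneg (‖F k‖ - ‖c‖ * ‖G k‖)]
    have h5 := mul_le_mul_of_nonneg_left h3 (h0 k)
    linarith
  refine h1.trans (le_of_eq ?_)
  rw [((summ_u hu _).mul_left _).tsum_add ((summ_u hu _).mul_left _), tsum_mul_left,
    tsum_mul_left]
  unfold M2
  ring

/-- the sum of the weights -/
lemma sum_S_le {δ : ℝ} (hδ : 0 < δ) : ∃ C : ℝ, 0 ≤ C ∧ ∀ Z : ℝ,
    ∑ g ∈ S Z, (nm g : ℝ) ^ (-(1 + δ)) ≤ C := by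
  have hs := LatSum413.summable_nm_rpow (s := 1 + δ) (by linarith)
  refine ⟨_, tsum_nonneg fun g => ?_, fun Z => hs.sum_le_tsum (S Z) fun g _ => ?_⟩
  · positivity
  · positivity

/-- the weight of a term -/
def wt (δ : ℝ) (β : κ → Eis) (γ : ι → Eis) (g : Eis) : ℝ :=
  (nm (∏ j, β j) : ℝ) ^ (-(1 / 2 + δ)) * (nm (∏ i, γ i) : ℝ) ^ (-(1 / 2 + δ)) *
    (nm g : ℝ) ^ (-(1 + δ))

lemma wt_pos {δ : ℝ} {β : κ → Eis} {γ : ι → Eis} {g : Eis} (hβ : ∀ i, IsPrim (β i))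
    (hγ : ∀ i, IsPrim (γ i)) (hg : IsPrim g) : 0 < wt δ β γ g := by
  have h1 := one_le_nm (E554.isPrim_prod fun i (_ : i ∈ univ) => hβ i)
  have h2 := one_le_nm (E554.isPrim_prod fun i (_ : i ∈ univ) => hγ i)
  have h3 := one_le_nm hg
  unfold wt
  have a1 : (0 : ℝ) < nm (∏ j, β j) := by linarith
  have a2 : (0 : ℝ) < nm (∏ j, γ j) := by linarith
  have a3 : (0 : ℝ) < nm g := by linarith
  positivity

lemma sum_wt_le (ι κ : Type*) [Fintype ι] [Fintype κ] {δ : ℝ} (hδ : 0 < δ) :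
    ∃ C : ℝ, 0 ≤ C ∧ ∀ (Y : ℕ) (Z : ℝ),
      ∑ β ∈ PT κ Y, ∑ γ ∈ PT ι Y, ∑ g ∈ S Z, wt δ β γ g ≤ C := by
  classical
  obtain ⟨C1, hC1, h1⟩ := E5d54.sum_pf_tuples κ hδ
  obtain ⟨C2, hC2, h2⟩ := E5d54.sum_pf_tuples ι hδ
  obtain ⟨C3, hC3, h3⟩ := sum_S_le hδ
  refine ⟨C1 * C2 * C3, by positivity, fun Y Z => ?_⟩
  have e1 : ∑ β ∈ PT κ Y, ∑ γ ∈ PT ι Y, ∑ g ∈ S Z, wt δ β γ g =
      (∑ β ∈ PT κ Y, (nm (∏ j, β j) : ℝ) ^ (-(1 / 2 + δ))) *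
        (∑ γ ∈ PT ι Y, (nm (∏ i, γ i) : ℝ) ^ (-(1 / 2 + δ))) *
          ∑ g ∈ S Z, (nm g : ℝ) ^ (-(1 + δ)) := by
    rw [sum_mul_sum, sum_mul]
    refine sum_congr rfl fun β _ => ?_
    rw [sum_mul]
    refine sum_congr rfl fun γ _ => ?_
    rw [mul_sum]
    rfl
  rw [e1]
  have b1 : ∑ β ∈ PT κ Y, (nm (∏ j, β j) : ℝ) ^ (-(1 / 2 + δ)) ≤ C1 := by
    unfold PT; exact h1 Y
  have b2 : ∑ γ ∈ PT ι Y, (nm (∏ i, γ i) : ℝ) ^ (-(1 / 2 + δ)) ≤ C2 := by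
    unfold PT; exact h2 Y
  have n2 : 0 ≤ ∑ γ ∈ PT ι Y, (nm (∏ i, γ i) : ℝ) ^ (-(1 / 2 + δ)) :=
    sum_nonneg fun _ _ => by positivity
  have n3 : 0 ≤ ∑ g ∈ S Z, (nm g : ℝ) ^ (-(1 + δ)) := sum_nonneg fun _ _ => by positivity
  exact mul_le_mul (mul_le_mul b1 b2 n2 hC1) (h3 Z) n3 (by positivity)

lemma norm_sy_le (k : Eis) {a : Eis} (ha : IsPrim a) : ‖sy k a‖ ≤ 1 := CM106.norm_sy_le' ha

/-- **the second moment of the amplified error** -/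
theorem err_le (ι κ : Type*) [Fintype ι] [Fintype κ] {δ : ℝ} (hδ : 0 < δ) :
    ∃ C : ℝ, 0 ≤ C ∧ ∀ {f : κ → Eis → ℂ} {fa : ι → Eis → ℂ} {Y : ℕ} {Zf : κ → ℝ} {Za : ι → ℝ}
      {Z : ℝ}, (∀ i m, f i m ≠ 0 → IsPrim m ∧ nm m ≤ Y) →
      (∀ i m, fa i m ≠ 0 → IsPrim m ∧ nm m ≤ Y) →
      (∀ i m, f i m ≠ 0 → IsPrim m ∧ (nm m : ℝ) ≤ Zf i) →
      (∀ i m, fa i m ≠ 0 → IsPrim m ∧ (nm m : ℝ) ≤ Za i) → ∏ i, Za i ≤ Z → 0 ≤ Z →
      ∀ {D Y₀ Y₁ D' Y₀' Y₁' : ℝ}, 0 ≤ D → Y₀ < 1 → 0 ≤ Y₁ → Y₁ ≤ D ^ 2 → 0 ≤ D' → Y₀' < 1 →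
      Y₁' ≤ D' ^ 2 → Y₁ * Z ^ 2 ≤ Y₁' → ∀ {o : Eis → ℂ}, (∀ z, o z ≠ 0 → (nm z : ℝ) ≤ Y₁) →
      ∀ {E0 : ℝ}, 0 ≤ E0 → ∀ (c : ℂ) {u : Eis → ℝ}, (∀ k, 0 ≤ u k) →
      (Function.support u).Finite →
      M2 u (fun k => (∏ i, CS (fa i) k) *
        (∏ j, CS (f j) k - c * SS f Y E0 (JW D Y₀ Y₁) (fun x => o (ln x)) k)) ≤
      C * ∑ β ∈ PT κ Y, ∑ γ ∈ PT ι Y, ∑ g ∈ S Z, (wt δ β γ g)⁻¹ *
        (M2 u (fun k => CS (rho Z f fa β γ g) k -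
            c * StE E0 (JW D Y₀ Y₁) (fun x => o (ln x)) (rho Z f fa β γ g) k) +
          ‖c‖ ^ 2 * M2 u (SteT (JW D' Y₀' Y₁') (fun _ => 1) (E0 * Z)
            (Tm E0 Z o (alb fa γ) (alb f β) g))) := by
  classical
  obtain ⟨C, hC, hw⟩ := sum_wt_le ι κ hδ
  refine ⟨C * 2, by positivity, ?_⟩
  intro f fa Y Zf Za Z hf hfa hf' hfa' hZ hZ0 D Y₀ Y₁ D' Y₀' Y₁' hD h0 hY1 h1 hD' h0' h1' hYY o ho
    E0 hE c u hu0 hu
  set T : Finset ((κ → Eis) × (ι → Eis) × Eis) := PT κ Y ×ˢ (PT ι Y ×ˢ S Z) with hT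
  set x : (κ → Eis) × (ι → Eis) × Eis → Eis → ℂ := fun t k =>
    sy k (∏ j, t.1 j) * sy k (∏ i, t.2.1 i) *
        (sy k t.2.2 * (sy k t.2.2 * (CS (rho Z f fa t.1 t.2.1 t.2.2) k -
          c * StE E0 (JW D Y₀ Y₁) (fun x => o (ln x)) (rho Z f fa t.1 t.2.1 t.2.2) k) -
          c * SteT (JW D' Y₀' Y₁') (fun _ => 1) (E0 * Z)
            (Tm E0 Z o (alb fa t.2.1) (alb f t.1) t.2.2) k)) with hx
  have e1 : (fun k => (∏ i, CS (fa i) k) *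
        (∏ j, CS (f j) k - c * SS f Y E0 (JW D Y₀ Y₁) (fun x => o (ln x)) k)) =
      fun k => ∑ t ∈ T, x t k := by
    funext k
    rw [err_mul hf hfa hf' hfa' hZ hZ0 hD h0 hY1 h1 hD' h0' h1' hYY ho hE c k, hT, sum_product]
    refine sum_congr rfl fun β _ => ?_
    rw [sum_product]
  have hW : ∀ t ∈ T, 0 < wt δ t.1 t.2.1 t.2.2 := by
    intro t ht
    rw [hT, mem_product, mem_product] at ht
    exact wt_pos (mem_PT ht.1) (mem_PT ht.2.1) ((mem_S hZ0).1 ht.2.2).2.1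
  rw [e1]
  refine (M2_sum_le hu0 hu T x (fun t => wt δ t.1 t.2.1 t.2.2) hW).trans ?_
  have hsum : ∑ t ∈ T, wt δ t.1 t.2.1 t.2.2 ≤ C := by
    rw [hT, sum_product]
    simp_rw [sum_product]
    exact hw Y Z
  have key : ∀ t ∈ T, (wt δ t.1 t.2.1 t.2.2)⁻¹ * M2 u (x t) ≤ 2 * ((wt δ t.1 t.2.1 t.2.2)⁻¹ *
      (M2 u (fun k => CS (rho Z f fa t.1 t.2.1 t.2.2) k -
            c * StE E0 (JW D Y₀ Y₁) (fun x => o (ln x)) (rho Z f fa t.1 t.2.1 t.2.2) k) +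
          ‖c‖ ^ 2 * M2 u (SteT (JW D' Y₀' Y₁') (fun _ => 1) (E0 * Z)
            (Tm E0 Z o (alb fa t.2.1) (alb f t.1) t.2.2)))) := by
    intro t ht
    have ht' := ht
    rw [hT, mem_product, mem_product] at ht'
    have g1 : IsPrim t.2.2 := ((mem_S hZ0).1 ht'.2.2).2.1
    have h2 : M2 u (x t) ≤ M2 u (fun k => (sy k t.2.2 * (CS (rho Z f fa t.1 t.2.1 t.2.2) k -
          c * StE E0 (JW D Y₀ Y₁) (fun x => o (ln x)) (rho Z f fa t.1 t.2.1 t.2.2) k)) -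
          c * SteT (JW D' Y₀' Y₁') (fun _ => 1) (E0 * Z)
            (Tm E0 Z o (alb fa t.2.1) (alb f t.1) t.2.2) k) := by
      refine M2_mono hu0 hu fun k => ?_
      rw [hx]
      simp only [norm_mul]
      have s1 := norm_sy_le k (E554.isPrim_prod fun i (_ : i ∈ univ) => mem_PT ht'.1 i)
      have s2 := norm_sy_le k (E554.isPrim_prod fun i (_ : i ∈ univ) => mem_PT ht'.2.1 i)
      have s3 := norm_sy_le k g1
      have s12 : ‖sy k (∏ j, t.1 j)‖ * ‖sy k (∏ i, t.2.1 i)‖ ≤ 1 :=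
        mul_le_one₀ s1 (norm_nonneg _) s2
      have s123 : ‖sy k (∏ j, t.1 j)‖ * ‖sy k (∏ i, t.2.1 i)‖ * ‖sy k t.2.2‖ ≤ 1 :=
        mul_le_one₀ s12 (norm_nonneg _) s3
      rw [← mul_assoc]
      exact mul_le_of_le_one_left (norm_nonneg _) s123
    have h3 := M2_sub_le hu0 hu (fun k => sy k t.2.2 * (CS (rho Z f fa t.1 t.2.1 t.2.2) k -
          c * StE E0 (JW D Y₀ Y₁) (fun x => o (ln x)) (rho Z f fa t.1 t.2.1 t.2.2) k))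
      (SteT (JW D' Y₀' Y₁') (fun _ => 1) (E0 * Z)
            (Tm E0 Z o (alb fa t.2.1) (alb f t.1) t.2.2)) c
    have h4 : M2 u (fun k => sy k t.2.2 * (CS (rho Z f fa t.1 t.2.1 t.2.2) k -
          c * StE E0 (JW D Y₀ Y₁) (fun x => o (ln x)) (rho Z f fa t.1 t.2.1 t.2.2) k)) ≤
        M2 u (fun k => CS (rho Z f fa t.1 t.2.1 t.2.2) k -
          c * StE E0 (JW D Y₀ Y₁) (fun x => o (ln x)) (rho Z f fa t.1 t.2.1 t.2.2) k) := by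
      refine M2_mono hu0 hu fun k => ?_
      rw [norm_mul]
      exact mul_le_of_le_one_left (norm_nonneg _) (norm_sy_le k g1)
    have hWi : 0 ≤ (wt δ t.1 t.2.1 t.2.2)⁻¹ := inv_nonneg.2 (hW t ht).le
    have h5 := mul_le_mul_of_nonneg_left ((h2.trans h3).trans
      (mul_le_mul_of_nonneg_left (add_le_add_left h4 _) (by norm_num : (0 : ℝ) ≤ 2))) hWi
    refine h5.trans (le_of_eq ?_)
    ring
  have hnn : 0 ≤ ∑ t ∈ T, (wt δ t.1 t.2.1 t.2.2)⁻¹ * M2 u (x t) :=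
    sum_nonneg fun t ht => mul_nonneg (inv_nonneg.2 (hW t ht).le) (M2_nonneg hu0 _)
  refine (mul_le_mul hsum (sum_le_sum key) hnn hC).trans (le_of_eq ?_)
  rw [← mul_sum, ← mul_assoc, hT, sum_product]
  congr 1
  refine sum_congr rfl fun β _ => ?_
  rw [sum_product]

end Crest.Agent.R017.P1e54
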