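import Crest.Agent.R017.XHe_512

/-!
# Row 17, C70/E4 (version 7): the frame of one block of `XNumU` (helper512)

* `BFr` : sizes and facts of one block, one exponent
* **`blk_frame`** : `BFr` at the data of `XNumC`
-/

set_option autoImplicit false

noncomputable section

open Complex Finset
open scoped ComplexConjugate

namespace Crest.Agent.R017.XHn512

open Crest.Agent.R012 Crest.Agent.R012.Eis
open Crest.Agent.R012.Mob705 hiding pb mem_pb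
open Crest.Agent.R017.Sx545 (Sm)
open Crest.Agent.R017.CM106 (FS CS)
open Crest.Agent.R017.FE47 (PU SM)
open Crest.Agent.R017.C70 (OKJ)
open Crest.Agent.R017.End699 (HC)
open Crest.Agent.R017.B770
open Crest.Agent.R017.Prov71
open Crest.Agent.R017.E4352 (Dat4)
open Crest.Agent.R017.E5B71
open Crest.Agent.R017.E5L770
open Crest.Agent.R017.E5k54 (alb)
open Crest.Agent.R017.E4D164
open Crest.Agent.R017.E4J352
open Crest.Agent.R017.E4U164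
open Crest.Agent.R017.E4R70
open Crest.Agent.R017.E4RH858 (Pf pf Facts kl)
open Crest.Agent.R017.E4Dic352
open Crest.Agent.R017.E4St352
open Crest.Agent.R017.E4F858 (R1S R2S)
open Crest.Agent.R017.JxS679 (sk)
open Crest.Agent.R017.YsU61 (TwOK)
open Crest.Agent.R017.Str699 (nu0)

variable {Λ : Type*}

/-- **sizes and facts of one block**, one exponent `Bb`; `t` = the term of the class `z'` -/
structure BFr (π : Λ → DPar) (h : ℝ → ℝ) (lam : Λ × Eis) (Jf : ℝ → ℝ → ℝ → Finset (Eis × Eis))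
    (a : Bd × ℕ) (x : Dt) (Bb X κ₀ η : ℝ) (c : E4J352.Win) (P : Pf) (β τ₁ : Eis)
    (𝒥 : Finset (Tm (x.O π lam Jf a))) (t : Tm (x.O π lam Jf a)) (z z' : Cls) : Prop where
  κ0 : 8 / 9 ≤ κ₀
  κ1 : κ₀ ≤ 1
  /-- the facts of the terms -/
  tm : ∀ t ∈ 𝒥, Facts (π lam.1).n₃ t ∧ t.OK (π lam.1).n₃ 1 ∧ t.In lD c ∧ pf t = P ∧
      bo3 t = β ∧ kl (x.g * x.e₀ * x.t) t.k = τ₁ ∧ IsCoprime (t.R * t.R') t.o.1.1
  kk : ∀ t ∈ 𝒥, (nm t.k : ℝ) ≤ X ^ Bb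
  ll : ∀ o : x.O π lam Jf a, 1 ≤ lD o ∧ lD o ≤ X ^ Bb
  ii : (2 : ℝ) ^ a.2 ≤ X ^ Bb
  n₃ : (nm (π lam.1).n₃ : ℝ) ≤ X ^ Bb
  /-- `BlkX` -/
  blk : BlkX π lam Jf a x (4 * Bb + 1) X c.nkk c.nlam P (sk (x.g * x.e₀ * x.t) t.k) β
      (𝒥.image fun t => t.o) (fun k => kl (x.g * x.e₀ * x.t) k = τ₁)
  s0 : sk (x.g * x.e₀ * x.t) t.k ≠ 0
  zf : ZF z (κ₀ * Real.log X) x a.2 (sk (x.g * x.e₀ * x.t) t.k) (lg t.k)
      (lg (nu0 t.o.1.1 t.o.1.2)) (R1S (pf t) + 2 * R2S (pf t))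
  nr : NrHB η z z'
  lR : lg (P.R * P.R') = R1S (pf t) + 2 * R2S (pf t)
  w1 : (2 : ℝ) ^ c.nkk ≤ Real.exp (lg t.k)
  w1' : Real.exp (lg t.k) ≤ 2 ^ (c.nkk + 1)
  w2 : kG x + 2 * kY x + 3 * kW x + kC x + lg (nu0 t.o.1.1 t.o.1.2) ≤
      (c.nlam + 1) * Real.log 2
  w3 : c.nlam * Real.log 2 ≤ kG x + 2 * kY x + 3 * kW x + kC x + lg (nu0 t.o.1.1 t.o.1.2) +
      11 * Real.log 2
  /-- the support of the `x`-side -/
  sm : ∀ o y, x.v π h lam Jf a o y ≠ 0 → Sm (π lam.1).n₃ y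
  hc : HC (π lam.1).n₃ (fun k => conj ((π lam.1).χ₃ k))

set_option maxHeartbeats 1000000 in
/-- **the frame of a block at the data of `XNumC`** -/
theorem blk_frame {π : Λ → DPar} {h : ℝ → ℝ} {c₀ : ℝ} (hh : PU h c₀)
    (hP : ∀ lam, (π lam).OK) {A : ℝ} (hA : 2 / 3 ≤ A) (d e0 r : ℝ) (Bf : ℝ → ℝ → ℝ → ℝ)
    {Jf : ℝ → ℝ → ℝ → Finset (Eis × Eis)} (hJf : ∀ l N z, OKJ (Jf l N z)) (lam : Λ × Eis)
    (N : ℕ) (B : ℝ) : ∃ Bb X₀ : ℝ, 3 ≤ Bb ∧ 2 ≤ X₀ ∧ ∀ X : ℝ, X₀ ≤ X →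
    ∀ δ δ' ε' η : ℝ, δ ≤ 1 / 2 → δ' ≤ 1 → ε' ≤ 1 → 0 ≤ η → η ≤ 1 / 2 →
    ∀ (a : Bd × ℕ) (ps : List Pq) (q : (Option (Fin 3 ⊕ Fin 5) → ℝ) × (Kd → ℝ)),
      FrL A d δ δ' B X N a ps q → a.1.ok → lam.2 ∈ SM (π lam.1).n → a.1.okP (π lam.1) →
    ∀ x : Dt, x.OK (π lam.1) Bf e0 r ε' X a.1 →
    ∀ (h₁ : FS (b1 (π lam.1) h lam.2 ps)) (h₂ : FS (b2 (π lam.1) h lam.2 a.1 ps)),
    ∀ (G : Eis → ℂ) (c : E4J352.Win) (P : Pf) (β : Eis) (τ : Eis × Eis × Eis)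
      (𝒥 : Finset (Tm (x.O π lam Jf a))),
      (∀ t ∈ 𝒥, t.OK (π lam.1).n₃ 1 ∧
        t.val 1 lD (x.v π h lam Jf a) (x.w π h lam Jf a ps h₁ h₂) G ≠ 0 ∧ t.In lD c ∧
        pf t = P ∧ bo3 t = β ∧ soL x (fN (π lam.1).n₃ (x.E a.1)) t = τ) →
    ∀ t ∈ 𝒥, ∀ (f1 f2 D1' l' m : Eis) (sc : ℝ) (z' : Cls),
      Nm918.Near η (zTr (cκ (dn q.1) * Real.log X) a.2 x (fN (π lam.1).n₃ (x.E a.1)) t
        f1 f2 D1' l' m sc) z' →
      z'.Ok d (1 / cκ (dn q.1)) (cN (dn q.1) / cκ (dn q.1)) (cM (dn q.1) / cκ (dn q.1))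
        (q.2 .mo / cκ (dn q.1)) (q.2 .am / cκ (dn q.1)) (cx' (dn q.1) / cκ (dn q.1)) →
      z'.ky ≤ 1 →
      BFr π h lam Jf a x Bb X (cκ (dn q.1)) η c P β τ.1 𝒥 t
        (zTr (cκ (dn q.1) * Real.log X) a.2 x (fN (π lam.1).n₃ (x.E a.1)) t
          f1 f2 D1' l' m sc) z' := by
  classical
  obtain ⟨A0, C0, X₂, hA0, hC0, hX₂, HS⟩ := E4Us512.szU hh hP d hA e0 r Bf hJf lam N B 1 one_pos
  obtain ⟨Bb, hBb⟩ : ∃ Bb : ℝ, Bb = max (max B 3) A0 := ⟨_, rfl⟩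
  have hBb1 : B ≤ Bb := by rw [hBb]; exact (le_max_left _ _).trans (le_max_left _ _)
  have hBb3 : 3 ≤ Bb := by rw [hBb]; exact (le_max_right _ _).trans (le_max_left _ _)
  have hBbA : A0 ≤ Bb := by rw [hBb]; exact le_max_right _ _
  refine ⟨Bb, max X₂ (2 ^ 28), hBb3, le_max_of_le_right (by norm_num), ?_⟩
  intro X hXX δ δ' ε' η hδ2 hδ' hε' hη hηb a ps q hF ha hlam haP x hx h₁ h₂ G c P β τ 𝒥 h𝒥 t ht
    f1 f2 D1' l' m sc z' hN hok hky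
  have hXX₂ : X₂ ≤ X := (le_max_left _ _).trans hXX
  have hX28 : (2 : ℝ) ^ 28 ≤ X := (le_max_right _ _).trans hXX
  have hX2 : 2 ≤ X := le_trans (by norm_num) hX28
  have hX1 : 1 < X := by linarith
  have hX0 : 0 < X := by linarith
  have hL0 : 0 < Real.log X := Real.log_pos hX1
  have hSq : Sq5 A d (dn q.1) q.2 := by
    have hdom := hF.dom
    unfold SqL DomL at hdom
    exact hdom.1
  have hκ89 : 8 / 9 ≤ cκ (dn q.1) := hSq.κ0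
  have hκ1 : cκ (dn q.1) ≤ 1 := hSq.κ1
  obtain ⟨κ₀, hκ₀⟩ : ∃ κ₀ : ℝ, κ₀ = cκ (dn q.1) := ⟨_, rfl⟩
  rw [← hκ₀] at hN hok hκ89 hκ1
  rw [← hκ₀]
  have hκ0 : 0 < κ₀ := by linarith
  obtain ⟨SF, SD0⟩ := HS X hXX₂ a ps q δ δ' hδ2 hδ' hF ha hlam haP
  have SD := SD0 x (hx.mono hX1.le hε') h₁ h₂
  have hn : (π lam.1).n₃ ≠ 0 := (hP lam.1).χ₃.q0
  have hXB : X ^ A0 ≤ X ^ Bb := Real.rpow_le_rpow_of_exponent_le hX1.le hBbA
  have h𝒥' : ∀ t ∈ 𝒥, Facts (π lam.1).n₃ t ∧ t.OK (π lam.1).n₃ 1 ∧ t.In lD c ∧ pf t = P ∧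
      bo3 t = β ∧ kl (x.g * x.e₀ * x.t) t.k = τ.1 ∧ IsCoprime (t.R * t.R') t.o.1.1 := by
    intro t ht
    obtain ⟨g1, g2, g3, g4, g5, g6⟩ := h𝒥 t ht
    have hFt := E4RH858.facts SD.dat g1 g2
    refine ⟨hFt, g1, g3, g4, g5, ?_, cop_RS hJf ha haP hn hx hFt g2⟩
    rw [← g6]
    rfl
  have hk1 := k_le_one hok hky
  have hkt : (nm t.k : ℝ) ≤ X ^ (2 : ℝ) := by
    obtain ⟨g1, -⟩ := h𝒥 t ht
    have hk0 : (0 : ℝ) < nm t.k := by exact_mod_cast nm_pos.mpr g1.sk.ne_zero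
    have e1 := (abs_le.mp hN.k).1
    have e2 : lg t.k / (κ₀ * Real.log X) ≤ 2 := by
      have e3 : (zTr (κ₀ * Real.log X) a.2 x (fN (π lam.1).n₃ (x.E a.1)) t
        f1 f2 D1' l' m sc).k = lg t.k / (κ₀ * Real.log X) := rfl
      rw [e3] at e1
      linarith
    rw [div_le_iff₀ (by positivity)] at e2
    have e4 : Real.log (nm t.k) ≤ 2 * Real.log X := by
      have : κ₀ * Real.log X ≤ Real.log X := by nlinarith
      have e5 : lg t.k = Real.log (nm t.k) := rfl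
      linarith
    rw [← Real.log_le_log_iff hk0 (by positivity), Real.log_rpow hX0]
    exact e4
  have hkk : ∀ t'' ∈ 𝒥, (nm t''.k : ℝ) ≤ X ^ Bb := by
    intro t'' ht''
    obtain ⟨-, -, w1, -⟩ := h𝒥 t ht
    obtain ⟨-, -, w2, -⟩ := h𝒥 t'' ht''
    have e1 := w2.hkk.2
    have e2 := w1.hkk.1
    have e3 : (nm t''.k : ℝ) ≤ 2 * nm t.k := by
      rw [pow_succ] at e1
      linarith
    calc (nm t''.k : ℝ) ≤ 2 * nm t.k := e3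
      _ ≤ X * X ^ (2 : ℝ) := by gcongr
      _ = X ^ (3 : ℝ) := by
          nth_rewrite 1 [← Real.rpow_one X]
          rw [← Real.rpow_add hX0]
          norm_num
      _ ≤ X ^ Bb := Real.rpow_le_rpow_of_exponent_le hX1.le hBb3
  have hll : ∀ o : x.O π lam Jf a, 1 ≤ lD o ∧ lD o ≤ X ^ Bb := fun o =>
    ⟨(SD.dat.lam1 o).1, ((SD.dat.lam1 o).2).trans hXB⟩
  have hii : (2 : ℝ) ^ a.2 ≤ X ^ Bb := by
    have hFr := E4Us512.fr_of_frL hA hδ2 hX1 hF ha haP hBb1 hBb3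
    have e1 := hFr.lv
    rw [← Real.log_le_log_iff (by positivity) (by positivity), Real.log_pow, Real.log_rpow hX0]
    linarith
  obtain ⟨hFt, g1, g3, hpf, -⟩ := h𝒥' t ht
  obtain ⟨w1, w2, w3⟩ := win_of hJf ha haP hx g3 g1.sk.ne_zero
  have hLg : κ₀ * Real.log X ≠ 0 := (mul_pos hκ0 hL0).ne'
  have hXBb : 0 < X ^ Bb := Real.rpow_pos_of_pos hX0 _
  have hXBb1 : 1 ≤ X ^ Bb := Real.one_le_rpow hX1.le (by linarith)
  have hp : X * (X ^ Bb) ^ 4 = X ^ (4 * Bb + 1) := by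
    rw [← Real.rpow_natCast, ← Real.rpow_mul hX0.le]
    nth_rewrite 1 [← Real.rpow_one X]
    rw [← Real.rpow_add hX0]
    congr 1
    push_cast
    ring
  have hp1 : X * X ^ Bb ≤ X ^ (4 * Bb + 1) := by
    refine le_trans (mul_le_mul_of_nonneg_left ?_ hX0.le) hp.le
    exact le_self_pow₀ hXBb1 (by norm_num)
  refine ⟨hκ89, hκ1, h𝒥', hkk, hll, hii, SF.n₃.trans hXB, ?_, (JxS679.sk_prim _ _).ne_zero,
    zf_tr hJf ha haP hx hLg t (fN (π lam.1).n₃ (x.E a.1)) f1 f2 D1' l' m sc, nr_of_near hN,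
    lgR_of hFt hpf, w1, ?_, w2, w3, fun o y hy => (SD.dat.hv o).sm y hy, (hP lam.1).χ₃.conj⟩
  · refine blkX_of h𝒥'
      (fun t ht => (mul_le_mul hX2 (hkk t ht) (Nat.cast_nonneg _) hX0.le).trans hp1)
      (fun t ht => (mul_le_mul hX2 (hll t.o).2 (by unfold lD; positivity) hX0.le).trans hp1)
      ((V_le hJf ha haP hx t.o).trans ?_)
      ((mul_le_mul hX2 hii (by positivity) hX0.le).trans hp1) ht
    have h5 : lD t.o ^ 3 ≤ (X ^ Bb) ^ 3 :=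
      pow_le_pow_left₀ (by unfold lD; positivity) (hll t.o).2 3
    calc 2 ^ 28 * (2 ^ a.2 * lD t.o ^ 3) ≤ X * (X ^ Bb * (X ^ Bb) ^ 3) := by
          have : (0 : ℝ) ≤ lD t.o ^ 3 := by unfold lD; positivity
          gcongr
      _ = X * (X ^ Bb) ^ 4 := by ring
      _ = _ := hp
  · have hk0 : (0 : ℝ) < nm t.k := by exact_mod_cast nm_pos.mpr g1.sk.ne_zero
    have e1 := g3.hkk.2
    unfold E4Dic352.lg
    rw [Real.exp_log hk0]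
    exact e1.le

end Crest.Agent.R017.XHn512
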