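import Crest.Agent.R017.E4zl_679
import Crest.Agent.R017.XHf_512
import Crest.Agent.R017.P1e_54

/-!
# Row 17, C70/E4 (x-side): the hypotheses of one block from helper512's frame (helper679)

* `fs_f3` : the sequence of class N is finitely supported
* `xbk_bfr`, `xbk_frame` : `XBk` from helper512's frame `BFr`
* `xmo_bk` : **the moments of a block from `Cells` and `Phis`**, constants absorbed
-/

set_option autoImplicit false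
set_option linter.unusedSectionVars false

noncomputable section

open Complex Finset
open scoped ComplexConjugate Classical

namespace Crest.Agent.R017.E4zn679

open Crest.Agent.R012 Crest.Agent.R012.Eis
open Crest.Agent.R012.Mob705 hiding pb mem_pb kap
open Crest.Agent.R012.LS2 (S mem_S)
open Crest.Agent.R017.Sx545 (Sm)
open Crest.Agent.R017.CM106 (CS FS)
open Crest.Agent.R017.C70 (CbF JC OKJ)
open Crest.Agent.R017.End699 (HC)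
open Crest.Agent.R017.E5B71 Crest.Agent.R017.E4D164
open Crest.Agent.R017.B770 (DPar)
open Crest.Agent.R017.Prov71
open Crest.Agent.R017.E5L770
open Crest.Agent.R017.E4U164
open Crest.Agent.R017.E4352
open Crest.Agent.R017.E5k54 (alb)
open Crest.Agent.R017.E4J352 (Tm Win gx)
open Crest.Agent.R017.E4RH858 (Pf pf Facts kl)
open Crest.Agent.R017.E4y92 (Dk)
open Crest.Agent.R017.E4zc92
open Crest.Agent.R017.E4zf92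
open Crest.Agent.R017.E4zg92
open Crest.Agent.R017.JxL679 (NatS)
open Crest.Agent.R017.JxS679 (sk sk_prim)
open Crest.Agent.R017.XHn512
open Crest.Agent.R017.XSd512 (XMo)
open Crest.Agent.R017.Mode405 (Mul1)
open Crest.Agent.R017.E4zh679
open Crest.Agent.R017.E4zk679
open Crest.Agent.R017.E4zl679

/-- the sequence of class N -/
lemma fs_f3 {P : DPar} {h : ℝ → ℝ} {t : Eis} {a : Bd} (hh : Bump h) {β : Fin 3 → Eis}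
    (hβ : ∀ i, IsPrim (β i)) : FS (alb (f3 P h t a) β) := by
  obtain ⟨R, hR⟩ := hh
  exact P1e54.FS_alb (fun i m hm => HP842.pc_support hR (Real.exp_pos _) hm) hβ

section blk

variable {Λ : Type*} {π : Λ → DPar} {h : ℝ → ℝ} {lam : Λ × Eis}
  {Jf : ℝ → ℝ → ℝ → Finset (Eis × Eis)} {a : Bd × ℕ} {x : Dt} {Bf : ℝ → ℝ → ℝ → ℝ}
  {e0 r ε' XX : ℝ} {α : Eis → ℂ}

/-- **`XBk` from helper512's `BFr`**, any `α` -/
theorem xbk_bfr {X Bb κ₀ η : ℝ} (hX : 1 ≤ X) (hBb : 0 ≤ Bb) (hP0 : (π lam.1).OK)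
    (hJf : ∀ l N z, OKJ (Jf l N z)) (hF : JFull Jf)
    (hx : x.OK (π lam.1) Bf e0 r ε' XX a.1) (ha : a.1.ok) (hP : a.1.okP (π lam.1))
    (hlv : a.2 < nL a.1.l (a3 a.1) a.1.z) (hα : FS α)
    {c : Win} {P : Pf} {β τ₁ : Eis} {𝒥 : Finset (Tm (x.O π lam Jf a))}
    {t t' : Tm (x.O π lam Jf a)} {z z' : E4R70.Cls}
    (hB : BFr π h lam Jf a x Bb X κ₀ η c P β τ₁ 𝒥 t z z') (ht : t ∈ 𝒥) (ht' : t' ∈ 𝒥)
    {Oc : Finset (x.O π lam Jf a)} (hOc : ∀ o, o ∈ Oc ↔ ∃ t ∈ 𝒥, t.o = o)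
    {g₁ g₂ : Eis} (hg : x.g' = g₁ * g₂ ^ 2) (g1 : PrI (π lam.1).n₃ g₁) (g1q : Squarefree g₁)
    (g2 : PrI (π lam.1).n₃ g₂) (g1n : nm g₁ ≤ nm (π lam.1).n₃) {G : Eis → ℂ} (hG : Mul1 G) :
    XBk π lam Jf a x α (4 * Bb + 1) X c.nkk c.nlam P (sk (x.g * x.e₀ * x.t) t.k) β
      Oc (fun k => kl (x.g * x.e₀ * x.t) k = τ₁) g₁ g₂ t'.D1 (E4RH858.b1 t') G := by
  have hOc' : Oc = 𝒥.image fun t => t.o := by
    ext o
    rw [hOc, mem_image]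
  obtain ⟨hF', hok', -, hpf', -⟩ := hB.tm t' ht'
  obtain ⟨r1, r2, r3⟩ := pri_pf hF' hpf'
  refine ⟨hP0, ha, hP, ⟨Bf, e0, r, ε', XX, hx⟩, hJf, hF, hlv, hα, hX, by linarith, ?_,
    ⟨t.o, (hOc _).mpr ⟨t, ht, rfl⟩⟩, ?_, hg, g1, g1q, g2, g1n, r1, hF'.sb1.prim, hok'.pD1, hG,
    sk_prim _ _⟩
  · rw [hOc']
    convert hB.blk
  · exact hB.n₃.trans (Real.rpow_le_rpow_of_exponent_le hX (by linarith))

end blk

set_option maxHeartbeats 1000000 in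
/-- **`XBk` at the data of `XNumC`** -/
theorem xbk_frame {Λ : Type*} {π : Λ → DPar} {h : ℝ → ℝ} {c₀ : ℝ} (hh : FE47.PU h c₀)
    (hP : ∀ lam, (π lam).OK) {A : ℝ} (hA : 2 / 3 ≤ A) (d e0 r : ℝ) (Bf : ℝ → ℝ → ℝ → ℝ)
    {Jf : ℝ → ℝ → ℝ → Finset (Eis × Eis)} (hJf : ∀ l N z, OKJ (Jf l N z)) (hF : JFull Jf)
    (lam : Λ × Eis) (N : ℕ) (B : ℝ) : ∃ Bb X₀ : ℝ, 3 ≤ Bb ∧ 2 ≤ X₀ ∧ ∀ X : ℝ, X₀ ≤ X →
    ∀ δ δ' ε' η : ℝ, δ ≤ 1 / 2 → δ' ≤ 1 → ε' ≤ 1 → 0 ≤ η → η ≤ 1 / 2 →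
    ∀ (a : Bd × ℕ) (ps : List Pq) (q : (Option (Fin 3 ⊕ Fin 5) → ℝ) × (Kd → ℝ)),
      FrL A d δ δ' B X N a ps q → a.1.ok → lam.2 ∈ FE47.SM (π lam.1).n → a.1.okP (π lam.1) →
    ∀ x : Dt, x.OK (π lam.1) Bf e0 r ε' X a.1 →
    ∀ (h₁ : FS (b1 (π lam.1) h lam.2 ps)) (h₂ : FS (b2 (π lam.1) h lam.2 a.1 ps)),
    ∀ (G : Eis → ℂ) (c : E4J352.Win) (P : Pf) (β : Eis) (τ : Eis × Eis × Eis)
      (𝒥 : Finset (Tm (x.O π lam Jf a))),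
      (∀ t ∈ 𝒥, t.OK (π lam.1).n₃ 1 ∧
        t.val 1 lD (x.v π h lam Jf a) (x.w π h lam Jf a ps h₁ h₂) G ≠ 0 ∧ t.In lD c ∧
        pf t = P ∧ bo3 t = β ∧ soL x (fN (π lam.1).n₃ (x.E a.1)) t = τ) →
    ∀ t ∈ 𝒥, ∀ (f1 f2 D1' l' m : Eis) (sc : ℝ) (z' : E4R70.Cls),
      Nm918.Near η (E4St352.zTr (cκ (dn q.1) * Real.log X) a.2 x (fN (π lam.1).n₃ (x.E a.1)) t
        f1 f2 D1' l' m sc) z' →
      z'.Ok d (1 / cκ (dn q.1)) (cN (dn q.1) / cκ (dn q.1)) (cM (dn q.1) / cκ (dn q.1))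
        (q.2 .mo / cκ (dn q.1)) (q.2 .am / cκ (dn q.1)) (cx' (dn q.1) / cκ (dn q.1)) →
      z'.ky ≤ 1 →
      BFr π h lam Jf a x Bb X (cκ (dn q.1)) η c P β τ.1 𝒥 t
        (E4St352.zTr (cκ (dn q.1) * Real.log X) a.2 x (fN (π lam.1).n₃ (x.E a.1)) t
          f1 f2 D1' l' m sc) z' ∧
      ∃ g₁ g₂ : Eis, x.g' = g₁ * g₂ ^ 2 ∧ ∀ (M' : Eis) (χ : Eis → ℂ) (j : ℤ) (ξ : ℝ),
        HC M' χ → ∀ t' ∈ 𝒥, ∀ Oc : Finset (x.O π lam Jf a), (∀ o, o ∈ Oc ↔ ∃ t ∈ 𝒥, t.o = o) →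
        XBk π lam Jf a x (alb (f3 (π lam.1) h lam.2 a.1) x.β) (4 * Bb + 1) X c.nkk c.nlam P
          (sk (x.g * x.e₀ * x.t) t.k) β Oc (fun k => kl (x.g * x.e₀ * x.t) k = τ.1) g₁ g₂ t'.D1
          (E4RH858.b1 t') (gx χ j ξ) := by
  obtain ⟨Bb, X₀, hBb, hX₀, H⟩ := blk_frame hh hP hA d e0 r Bf hJf lam N B
  refine ⟨Bb, X₀, hBb, hX₀, ?_⟩
  intro X hX δ δ' ε' η hδ hδ' hε' hη hη2 a ps q hFr ha hlam haP x hx h₁ h₂ G c P β τ 𝒥 h𝒥 t ht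
    f1 f2 D1' l' m sc z' hN hok hky
  have hB := H X hX δ δ' ε' η hδ hδ' hε' hη hη2 a ps q hFr ha hlam haP x hx h₁ h₂ G c P β τ 𝒥 h𝒥
    t ht f1 f2 D1' l' m sc z' hN hok hky
  refine ⟨hB, ?_⟩
  have hn : (π lam.1).n₃ ≠ 0 := (hP lam.1).χ₃.q0
  obtain ⟨g₁, g₂, hg, g1, g1q, g2, g1n⟩ := dec_g' hx hn
  refine ⟨g₁, g₂, hg, ?_⟩
  intro M' χ j ξ hχ t' ht' Oc hOc
  exact xbk_bfr (by linarith) (by linarith) (hP lam.1) hJf hF hx ha haP hFr.lvl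
    (fs_f3 (bump_of_cs hh.cs) (P1e54.mem_PT (SSb54.mem_PTb.mp hx.β).1)) hB ht ht' hOc hg g1 g1q g2 g1n (mul1_gx hχ j ξ)

/-- **the moments of one block from the cells and the numbers**, constants absorbed -/
theorem xmo_bk {ε Bb cw : ℝ} (hε : 0 < ε) (hBb : 0 ≤ Bb) (hcw : 1 ≤ cw) : ∃ X₀ : ℝ, 1 < X₀ ∧
    ∀ X : ℝ, X₀ ≤ X → ∀ {Λ : Type*} (π : Λ → DPar) (lam : Λ × Eis)
    (Jf : ℝ → ℝ → ℝ → Finset (Eis × Eis))
    (a : Bd × ℕ) (x : Dt) (α : Eis → ℂ) (nkk nl : ℕ) (Pp : Pf) (s₁ β₀ : Eis)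
    (Oc : Finset (x.O π lam Jf a)) (Pk : Eis → Prop) (g₁ g₂ D b : Eis) (G G₀ : Eis → ℂ),
    XBk π lam Jf a x α (4 * Bb + 1) X nkk nl Pp s₁ β₀ Oc Pk g₁ g₂ D b G →
    (∀ y, Sm (π lam.1).n₃ y → G₀ y = G y) →
    ∀ d : XD, d = dBX π lam Jf a x α (4 * Bb + 1) X nkk Pp g₁ g₂ D b G →
    ∀ (B S₁ : ℝ) (A : Fin 4 → (Fin 12 → ℕ) → Eis × Eis → ℝ), 1 ≤ B → B ≤ X ^ (4 * Bb + 1) →
    0 ≤ S₁ → (∀ j n k, 0 ≤ A j n k) → (∀ j n e r, j ≠ 3 → A j n (e, r) = A j n (e, 1)) →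
    (∀ (Mb' Ek : ℝ) (bm' : Eis × Eis → Eis → ℂ),
      d.x.HO cw (Oc.image Subtype.val) (vC d.x d.P d.kk d.κ') bm' d.kk d.κ' d.qc Mb' Ek →
      Cells d cw (Oc.image Subtype.val) bm' A s₁) →
    Phis d cw 1 1 B (2 * 2 ^ nl) (2 ^ nl) x.m β₀ s₁ A S₁ →
    XMo (π lam.1).n₃ (vG π lam Jf a x α) G₀ Pp Oc nkk Pk D b (fun _ _ => 1) ≤ X ^ ε * S₁ ∧
    ∀ (Mb : ℝ), 0 ≤ Mb → ∀ bm : x.O π lam Jf a → Eis → ℂ, (∀ o ∈ Oc, NatS B Mb (bm o)) →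
      XMo (π lam.1).n₃ (vG π lam Jf a x α) G₀ Pp Oc nkk Pk D b
        (fun o k => ‖CS (bm o) k‖ ^ 2) ≤ X ^ ε * (Mb * S₁) := by
  obtain ⟨A1, hA1⟩ : ∃ A1 : ℝ, A1 = 4 * Bb + 1 := ⟨_, rfl⟩
  have hA0 : 0 < A1 := by linarith
  have hε1 : 0 < ε / (6 * A1) := by positivity
  obtain ⟨C, hC, H⟩ := xmo_LT hε1 hcw
  refine ⟨max 2 ((C + 1) ^ (2 / ε)), lt_max_of_lt_left (by norm_num), ?_⟩
  intro X hXX Λ π lam Jf a x α nkk nl Pp s₁ β₀ Oc Pk g₁ g₂ D b G G₀ hbk hGG d hd B S₁ A hB hBX hS₁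
    hAn hA3 hcell hphi
  have h2 : (2 : ℝ) ≤ X := (le_max_left _ _).trans hXX
  have hX1 : 1 ≤ X := by linarith
  have hX0 : 0 < X := by linarith
  rw [← hA1] at hbk hBX hd
  have key := H π lam Jf a x α A1 X nkk nl Pp s₁ β₀ Oc Pk g₁ g₂ D b G G₀ hbk hGG
    B S₁ A hB hBX hS₁ hAn hA3 (by rw [← hd]; exact hcell) (by rw [← hd]; exact hphi)
  have hCX : C * ((X ^ A1) ^ 3) ^ (ε / (6 * A1)) ≤ X ^ ε := by
    have e1 : ((X ^ A1) ^ 3) ^ (ε / (6 * A1)) = X ^ (ε / 2) := by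
      rw [← Real.rpow_natCast, ← Real.rpow_mul hX0.le, ← Real.rpow_mul hX0.le]
      congr 1
      push_cast
      field_simp
      norm_num
    have e2 : C ≤ X ^ (ε / 2) := by
      have h1 : (C + 1) ^ (2 / ε) ≤ X := (le_max_right _ _).trans hXX
      calc C ≤ C + 1 := by linarith
        _ = ((C + 1) ^ (2 / ε)) ^ (ε / 2) := by
            rw [← Real.rpow_mul (by linarith)]
            have : 2 / ε * (ε / 2) = 1 := by field_simp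
            rw [this, Real.rpow_one]
        _ ≤ X ^ (ε / 2) := Real.rpow_le_rpow (by positivity) h1 (by positivity)
    rw [e1]
    calc C * X ^ (ε / 2) ≤ X ^ (ε / 2) * X ^ (ε / 2) :=
          mul_le_mul_of_nonneg_right e2 (by positivity)
      _ = X ^ ε := by
          rw [← Real.rpow_add hX0]
          congr 1
          ring
  obtain ⟨k1, k2⟩ := key
  refine ⟨k1.trans (mul_le_mul_of_nonneg_right hCX hS₁), fun Mb hMb bm hbm => ?_⟩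
  exact (k2 Mb hMb bm hbm).trans (mul_le_mul_of_nonneg_right hCX (by positivity))

end Crest.Agent.R017.E4zn679
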