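import Crest.Agent.R017.XLc_842

/-!
# Row 17, E4 (x-side, structured): the sizes of a block and the facts of a cell (helper842)

* `BSz` : the sizes of a block against the class `z'`
* `cel_of` : `Cel` from helper92's relations of a class vector
* `ih_le` : the exponent of the family of the R-number
-/

set_option autoImplicit false
set_option maxHeartbeats 1000000

noncomputable section

namespace Crest.Agent.R017.XL842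

open Crest.Agent.R017.E4R70

/-- **the sizes of a block**: `c = log 2 / log X`, `m` the types, `γ = lg g₁`, `ρ1, ρ2` the parts of
the divisor of the prefix, `ς = lg s₁`; `q'` = `nk (q₁²) nm q₂ nm D` -/
structure BSz (X κ₀ τ : ℝ) (z' : Cls) (N mx : ℝ) (m : Fin 2 → Fin 3 → ℕ) (γ ρ1 ρ2 ς : ℕ)
    (Bo Bo' V κ Nα Bm q' c₀ g₁ g₂ : ℝ) : Prop where
  τ0 : 0 ≤ τ
  c1 : 20 * lx X 2 ≤ τ
  Y0 : |m 0 1 * lx X 2 - κ₀ * z'.Y0| ≤ τ
  Y1 : |m 1 1 * lx X 2 - κ₀ * z'.Y1| ≤ τ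
  c02 : |m 0 2 * lx X 2 - κ₀ * z'.c02| ≤ τ
  c12 : |m 1 2 * lx X 2 - κ₀ * z'.c12| ≤ τ
  G : m 0 0 * lx X 2 ≤ κ₀ * (z'.G + z'.s0) + τ
  W : m 1 0 * lx X 2 ≤ κ₀ * (z'.W + z'.sW) + τ
  R1 : |ρ1 * lx X 2 - κ₀ * z'.R1| ≤ τ
  R2 : |ρ2 * lx X 2 - κ₀ * z'.R2| ≤ τ
  γt : γ * lx X 2 ≤ τ
  s1 : min (ς * lx X 2) (m 0 0 * lx X 2) ≤ κ₀ * z'.s1 + τ
  Bo0 : 0 < Bo
  Bo0' : 0 < Bo'
  nu : lx X Bo ≤ (m 0 0 + 2 * (m 0 1 + m 1 1) + 3 * m 1 0 + m 0 2 + 2 * m 1 2) * lx X 2 +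
    κ₀ * z'.nu + τ
  nu' : (m 0 0 + 2 * (m 0 1 + m 1 1) + 3 * m 1 0 + m 0 2 + 2 * m 1 2) * lx X 2 +
    κ₀ * z'.nu - τ ≤ lx X Bo'
  V : |lx X V - κ₀ * z'.v| ≤ τ
  k : |lx X κ - κ₀ * z'.k| ≤ τ
  Nα : |lx X Nα - κ₀ * (N - z'.β)| ≤ τ
  Bm0 : 0 < Bm
  Bm : lx X Bm ≤ mx + τ
  q' : lx X q' ≤ κ₀ * (z'.η + z'.b1 + z'.F + z'.lq) + τ
  c₀ : |lx X c₀| ≤ τ
  g₁ : |lx X g₁| ≤ τ
  g₂ : |lx X g₂| ≤ τ

section

variable {X κ₀ τ : ℝ} {z' : Cls} {N mx : ℝ} {m : Fin 2 → Fin 3 → ℕ} {γ ρ1 ρ2 ς : ℕ}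
  {Bo Bo' V κ Nα Bm q' c₀ g₁ g₂ : ℝ}

lemma lx2_pos (hX : 1 < X) : 0 < lx X 2 :=
  div_pos (Real.log_pos (by norm_num)) (Real.log_pos hX)

/-- **the facts of a cell** -/
theorem cel_of (hX : 1 < X) (H : BSz X κ₀ τ z' N mx m γ ρ1 ρ2 ς Bo Bo' V κ Nα Bm q' c₀ g₁ g₂)
    {n : Fin 12 → ℕ} {nus nR nU : ℕ}
    (S1 : m 0 0 + m 0 1 + m 0 2 + 2 * (m 1 0 + m 1 1 + m 1 2) ≤ n 0)
    (S2 : n 0 ≤ m 0 0 + m 0 1 + m 0 2 + 2 * (m 1 0 + m 1 1 + m 1 2) + 8)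
    (P1 : n 3 + m 0 0 + m 1 2 + 2 * (m 0 1 + m 1 0) ≤
      m 0 1 + m 1 1 + 2 * (m 0 2 + m 1 2) + γ + n 5 + 2 * n 1 + 9)
    (P2 : m 0 1 + m 1 1 + 2 * (m 0 2 + m 1 2) + γ + n 5 + 2 * n 1 ≤
      n 3 + m 0 0 + m 1 2 + 2 * (m 0 1 + m 1 0) + 6)
    (σ1 : n 5 ≤ m 0 0 + m 1 2 + 1) (σ2 : m 0 0 + m 1 2 ≤ γ + n 5 + 1)
    (w1 : ρ2 + nR ≤ n 7) (w2 : n 7 ≤ ρ2 + nR + 1) (u1 : n 6 + nR ≤ ρ1 + nU + 1)
    (u2 : ρ1 + nU ≤ n 6 + nR + 1) (s1 : nus + nR + nU ≤ n 4) (s2 : n 4 ≤ nus + nR + nU + 2)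
    (us1 : nus ≤ n 5) (us2 : nus ≤ ς + m 1 2 + 1)
    (hBm : (2 : ℝ) ^ (n 8 + n 9 + n 11) ≤ Bm) (hBo : (2 : ℝ) ^ (n 0 + n 1) ≤ Bo)
    (hBo' : Bo' ≤ (2 : ℝ) ^ (n 0 + n 1 + 2)) {q : ℝ}
    (hq : lx X q ≤ 2 * (n 5 * lx X 2) + n 4 * lx X 2 + lx X q' + 4 * τ) :
    Cel (20 * τ) κ₀ z' (m 0 0 * lx X 2) (ρ1 * lx X 2) (ρ2 * lx X 2) mx
      (n 0 * lx X 2) (n 1 * lx X 2) (n 3 * lx X 2) (n 4 * lx X 2) (n 5 * lx X 2) (n 6 * lx X 2)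
      (n 7 * lx X 2) (n 8 * lx X 2) (n 9 * lx X 2) (n 10 * lx X 2) (n 11 * lx X 2) (lx X q)
      (lx X c₀) (lx X g₁) (lx X g₂) (nus * lx X 2) (lx X V) ∧
    nus * lx X 2 ≤ κ₀ * (z'.c12 + z'.s1) + 20 * τ := by
  have hc := lx2_pos hX
  have e1 := lx_mono hX (by positivity) hBm
  have e2 := lx_mono hX (by positivity) hBo
  have e3 := lx_mono hX H.Bo0' hBo'
  rw [lx_pow] at e1 e2 e3
  push_cast at e1 e2 e3
  set c := lx X 2 with hcd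
  have cast : ∀ a b : ℕ, a ≤ b → (a : ℝ) * c ≤ b * c := fun a b h =>
    mul_le_mul_of_nonneg_right (by exact_mod_cast h) hc.le
  have S1' := cast _ _ S1
  have S2' := cast _ _ S2
  have P1' := cast _ _ P1
  have P2' := cast _ _ P2
  have σ1' := cast _ _ σ1
  have σ2' := cast _ _ σ2
  have w1' := cast _ _ w1
  have w2' := cast _ _ w2
  have u1' := cast _ _ u1
  have u2' := cast _ _ u2
  have s1' := cast _ _ s1
  have s2' := cast _ _ s2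
  have us1' := cast _ _ us1
  have us2' := cast _ _ us2
  push_cast at S1' S2' P1' P2' σ1' σ2' w1' w2' u1' u2' s1' s2' us1' us2'
  have hτ := H.τ0
  have h1 := H.c1
  have hY0 := abs_le.mp H.Y0
  have hY1 := abs_le.mp H.Y1
  have h02 := abs_le.mp H.c02
  have h12 := abs_le.mp H.c12
  have hG := H.G
  have hW := H.W
  have hR1 := abs_le.mp H.R1
  have hR2 := abs_le.mp H.R2
  have hγ := H.γt
  have hnu := H.nu
  have hnu' := H.nu'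
  have hV := abs_le.mp H.V
  have hBm1 := H.Bm
  have hq' := H.q'
  have k1 : κ₀ * (z'.Y0 + 2 * z'.Y1 + 2 * (z'.W + z'.sW) + z'.c02 + 2 * z'.c12) =
      κ₀ * z'.Y0 + 2 * (κ₀ * z'.Y1) + 2 * (κ₀ * (z'.W + z'.sW)) + κ₀ * z'.c02 +
        2 * (κ₀ * z'.c12) := by ring
  have k2 : κ₀ * (z'.nu + z'.Y0 + (z'.W + z'.sW)) = κ₀ * z'.nu + κ₀ * z'.Y0 +
      κ₀ * (z'.W + z'.sW) := by ring
  have k3 : κ₀ * (z'.Y0 + z'.Y1 + 2 * (z'.c02 + z'.c12 + z'.nu)) = κ₀ * z'.Y0 + κ₀ * z'.Y1 +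
      2 * (κ₀ * z'.c02 + κ₀ * z'.c12 + κ₀ * z'.nu) := by ring
  have k4 : κ₀ * (z'.c12 + z'.s1) = κ₀ * z'.c12 + κ₀ * z'.s1 := by ring
  have n1u : (n 1 : ℝ) * c ≤ (m 0 1 + m 1 0) * c + κ₀ * z'.nu + τ := by linarith
  have n1l : (m 0 1 + m 1 0) * c + κ₀ * z'.nu - 2 * τ ≤ (n 1 : ℝ) * c := by linarith
  refine ⟨?_, ?_⟩
  · exact {
      τ0 := by linarith
      os0 := by positivity
      gp := by positivity
      hp := by positivity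
      δp := by positivity
      ct := H.c₀.trans (by linarith)
      g1t := H.g₁.trans (by linarith)
      g2t := H.g₂.trans (by linarith)
      r1t := H.R1.trans (by linarith)
      r2t := H.R2.trans (by linarith)
      w0 := by linarith [(Nat.cast_nonneg nR : (0 : ℝ) ≤ nR), mul_nonneg (Nat.cast_nonneg nR : (0 : ℝ) ≤ nR) hc.le]
      s0 := by linarith [mul_nonneg (Nat.cast_nonneg nU : (0 : ℝ) ≤ nU) hc.le]
      ut := by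
        rw [abs_le]
        constructor <;> linarith
      S_le := by
        rw [k1]
        linarith
      ν_le := by
        rw [k2]
        linarith
      P_le := by
        rw [k3, abs_le]
        constructor <;> linarith
      σ_le := by
        rw [abs_le]
        constructor <;> linarith
      kG_le := by linarith
      q_le := by linarith
      xt := by linarith
      V_le := H.V.trans (by linarith) }
  · rw [k4]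
    have h3 := H.s1
    rcases min_le_iff.mp h3 with h4 | h4
    · linarith
    · linarith

/-- **the exponent of the family** -/
theorem ih_le (hX : 1 < X) (H : BSz X κ₀ τ z' N mx m γ ρ1 ρ2 ς Bo Bo' V κ Nα Bm q' c₀ g₁ g₂)
    {n : Fin 12 → ℕ}
    (S1 : m 0 0 + m 0 1 + m 0 2 + 2 * (m 1 0 + m 1 1 + m 1 2) ≤ n 0)
    (b2 : n 2 ≤ m 0 1 + m 1 0 + 1)
    (P1 : n 3 + m 0 0 + m 1 2 + 2 * (m 0 1 + m 1 0) ≤
      m 0 1 + m 1 1 + 2 * (m 0 2 + m 1 2) + γ + n 5 + 2 * n 1 + 9)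
    (σ1 : n 5 ≤ m 0 0 + m 1 2 + 1) (hBo : (2 : ℝ) ^ (n 0 + n 1) ≤ Bo)
    {k2 Nb L Nn : ℝ} (hk2 : (2 : ℝ) ^ (n 1 + m 1 2) ≤ k2 * 2 ^ (n 2 + 1)) (h2 : 0 < k2)
    (hNb : 0 < Nb) (hL : 0 < L) (hNn : 0 < Nn) :
    lx X (8192 * (Nb * L / Nn) * (2 ^ n 3) ^ 2 / (k2 * 2 ^ m 0 2) ^ 3) ≤
      lx X Nb - lx X Nn + lx X L +
        (2 * (κ₀ * (z'.Y0 + z'.Y1)) + κ₀ * (z'.c02 + z'.c12 + z'.nu)) + 30 * τ := by
  have hc := lx2_pos hX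
  have e0 : lx X 8192 = 13 * lx X 2 := by
    rw [show (8192 : ℝ) = 2 ^ 13 by norm_num, lx_pow]
    push_cast
    ring
  have e1 : lx X (8192 * (Nb * L / Nn) * (2 ^ n 3) ^ 2 / (k2 * 2 ^ m 0 2) ^ 3) =
      13 * lx X 2 + (lx X Nb + lx X L - lx X Nn) + 2 * (n 3 * lx X 2) -
        3 * (lx X k2 + m 0 2 * lx X 2) := by
    rw [lx_div (by positivity) (by positivity), lx_mul (by positivity) (by positivity),
      lx_mul (by positivity) (by positivity), lx_div (by positivity) hNn, lx_mul hNb hL,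
      lx_pow, lx_pow (2 : ℝ) (n 3), lx_pow (k2 * _), lx_mul h2 (by positivity), lx_pow, e0]
    push_cast
    ring
  have e2 := lx_mono hX (by positivity) hk2
  rw [lx_mul h2 (by positivity), lx_pow, lx_pow] at e2
  have e3 := lx_mono hX (by positivity) hBo
  rw [lx_pow] at e3
  push_cast at e2 e3
  rw [e1]
  set c := lx X 2 with hcd
  have cast : ∀ a b : ℕ, a ≤ b → (a : ℝ) * c ≤ b * c := fun a b h =>
    mul_le_mul_of_nonneg_right (by exact_mod_cast h) hc.le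
  have S1' := cast _ _ S1
  have b2' := cast _ _ b2
  have P1' := cast _ _ P1
  have σ1' := cast _ _ σ1
  push_cast at S1' b2' P1' σ1'
  have hτ := H.τ0
  have h1 := H.c1
  have hY0 := abs_le.mp H.Y0
  have hY1 := abs_le.mp H.Y1
  have h02 := abs_le.mp H.c02
  have h12 := abs_le.mp H.c12
  have hγ := H.γt
  have hnu := H.nu
  have k3 : 2 * (κ₀ * (z'.Y0 + z'.Y1)) + κ₀ * (z'.c02 + z'.c12 + z'.nu) =
      2 * (κ₀ * z'.Y0) + 2 * (κ₀ * z'.Y1) + κ₀ * z'.c02 + κ₀ * z'.c12 + κ₀ * z'.nu := by ring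
  have n1u : (n 1 : ℝ) * c ≤ (m 0 1 + m 1 0) * c + κ₀ * z'.nu + τ := by linarith
  rw [k3]
  linarith

end

end Crest.Agent.R017.XL842
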