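import Crest.Agent.R017.E4zp_92
import Crest.Agent.R017.E4zn_679
import Crest.Agent.R017.XLe_842

/-!
# Row 17, C70/E4 (x-side): the sizes of a block at a class near the true one (helper92)

* `near_mul`, `near_le` : one number
* `fX_*` : the sizes, units `log X`
-/

set_option autoImplicit false
set_option linter.unusedSectionVars false
set_option linter.unusedVariables false
set_option maxHeartbeats 400000

noncomputable section

open Complex Finset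
open scoped ComplexConjugate

namespace Crest.Agent.R017.E4zq92

open Crest.Agent.R012 Crest.Agent.R012.Eis
open Crest.Agent.R012.Mob705 hiding pb mem_pb kap
open Crest.Agent.R017.Sx545 (Sm)
open Crest.Agent.R017.CM106 (CS FS)
open Crest.Agent.R017.C70 (OKJ)
open Crest.Agent.R017.Mode405 (nk nk_le_nm nk_ge_one)
open Crest.Agent.R017.E5B71 Crest.Agent.R017.E4D164
open Crest.Agent.R017.Prov71
open Crest.Agent.R017.B770 (DPar)
open Crest.Agent.R017.E5L770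
open Crest.Agent.R017.E4U164
open Crest.Agent.R017.E5k54 (alb)
open Crest.Agent.R017.GrB829 (IsC)
open Crest.Agent.R017.E4352 (PrI)
open Crest.Agent.R017.E4J352 (Tm Win inW)
open Crest.Agent.R017.E4RH858 (Pf pf Facts kl)
open Crest.Agent.R017.E4F858 (R1S R2S)
open Crest.Agent.R017.E4Dic352
open Crest.Agent.R017.E4St352
open Crest.Agent.R017.E4R70 (Cls)
open Crest.Agent.R017.Nm918 (Near)
open Crest.Agent.R017.Str699 (nu0)
open Crest.Agent.R017.JxS679 (sk)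
open Crest.Agent.R017.E4zg92 (rrk)
open Crest.Agent.R017.XHn512
open Crest.Agent.R017.XL842 (lx)
open Crest.Agent.R017.E4zc92
open Crest.Agent.R017.E4zl679 (dBX XBk)
open Crest.Agent.R017.E4zp92

lemma lx2 (X : ℝ) : lx X 2 = Real.log 2 / Real.log X := rfl

section one

variable {X κ₀ η : ℝ} (hX : 1 < X) (hκ0 : 0 ≤ κ₀) (hκ1 : κ₀ ≤ 1)
include hX hκ0 hκ1

/-- one number -/
lemma near_mul {u u' y : ℝ} (h : κ₀ * Real.log X * u = y) (hn : |u' - u| ≤ η) :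
    |y / Real.log X - κ₀ * u'| ≤ η := by
  have hL : 0 < Real.log X := Real.log_pos hX
  have e : y / Real.log X - κ₀ * u' = -(κ₀ * (u' - u)) := by
    rw [← h]
    field_simp
    ring
  rw [e, abs_neg, abs_mul, abs_of_nonneg hκ0]
  calc κ₀ * |u' - u| ≤ 1 * η := mul_le_mul hκ1 hn (abs_nonneg _) zero_le_one
    _ = η := one_mul η

lemma near_le {u u' y δ : ℝ} (h : y ≤ κ₀ * Real.log X * u) (hn : u ≤ u' + δ) (hδ : 0 ≤ δ) :
    y / Real.log X ≤ κ₀ * u' + δ := by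
  have hL : 0 < Real.log X := Real.log_pos hX
  rw [div_le_iff₀ hL]
  refine h.trans ?_
  have h1 : κ₀ * u ≤ κ₀ * u' + δ := by
    have := mul_le_mul_of_nonneg_left hn hκ0
    nlinarith
  have := mul_le_mul_of_nonneg_right h1 hL.le
  calc κ₀ * Real.log X * u = κ₀ * u * Real.log X := by ring
    _ ≤ _ := this

end one

lemma lx_nm {X : ℝ} (y : Eis) : lx X (nm y) = lg y / Real.log X := rfl

/-- integer logarithms in the unit -/
lemma nlogX {X : ℝ} (hX : 1 < X) {y : Eis} (hy : y ≠ 0) :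
    (E4X92.lg y : ℝ) * lx X 2 ≤ lg y / Real.log X ∧
      lg y / Real.log X ≤ (E4X92.lg y : ℝ) * lx X 2 + lx X 2 := by
  have hL : 0 < Real.log X := Real.log_pos hX
  obtain ⟨h1, h2⟩ := nlog hy
  rw [lx2]
  constructor
  · rw [← mul_div_assoc]
    exact div_le_div_of_nonneg_right h1 hL.le
  · have e : (E4X92.lg y : ℝ) * (Real.log 2 / Real.log X) + Real.log 2 / Real.log X =
        ((E4X92.lg y : ℝ) + 1) * Real.log 2 / Real.log X := by ring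
    rw [e]
    exact div_le_div_of_nonneg_right h2 hL.le

section blk

variable {Λ : Type*} {π : Λ → DPar} {h : ℝ → ℝ} {lam : Λ × Eis}
  {Jf : ℝ → ℝ → ℝ → Finset (Eis × Eis)}
  {a : Bd × ℕ} {x : Dt} {Bb X κ₀ η : ℝ} {c : Win} {P : Pf} {β τ₁ : Eis}
  {𝒥 : Finset (Tm (x.O π lam Jf a))} {t t' : Tm (x.O π lam Jf a)} {z' : Cls}
  {f f1 f2 f3 D1' Z'' l' m z₀ : Eis} {sc : ℝ}

/-- the fields of the class not in `ZF` -/
lemma zTr_Lg {Lg : ℝ} (hL : Lg ≠ 0) {i : ℕ} {OO : Finset (Eis × Eis)} {t : Tm OO} :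
    Lg * (zTr Lg i x f t f1 f2 D1' l' m sc).η = lg D1' ∧
    Lg * (zTr Lg i x f t f1 f2 D1' l' m sc).b1 = beS t f2 ∧
    Lg * (zTr Lg i x f t f1 f2 D1' l' m sc).F = lg f1 ∧
    Lg * (zTr Lg i x f t f1 f2 D1' l' m sc).lq = lqS (pf t) + bfS t f2 ∧
    Lg * (zTr Lg i x f t f1 f2 D1' l' m sc).R1 = R1S (pf t) ∧
    Lg * (zTr Lg i x f t f1 f2 D1' l' m sc).R2 = R2S (pf t) ∧
    Lg * (zTr Lg i x f t f1 f2 D1' l' m sc).β = lg (∏ i, x.β i) := by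
  unfold zTr
  refine ⟨?_, ?_, ?_, ?_, ?_, ?_, ?_⟩ <;> field_simp

variable (hX : 1 < X)
  (F : BFr π h lam Jf a x Bb X κ₀ η c P β τ₁ 𝒥 t (zTr (κ₀ * Real.log X) a.2 x f t f1 f2 D1' l' m sc)
    z')
  (N : Near η (zTr (κ₀ * Real.log X) a.2 x f t f1 f2 D1' l' m sc) z')
include hX F N

/-- the types -/
lemma fX_m : |x.m 0 1 * lx X 2 - κ₀ * z'.Y0| ≤ η ∧ |x.m 1 1 * lx X 2 - κ₀ * z'.Y1| ≤ η ∧
    |x.m 0 2 * lx X 2 - κ₀ * z'.c02| ≤ η ∧ |x.m 1 2 * lx X 2 - κ₀ * z'.c12| ≤ η ∧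
    x.m 0 0 * lx X 2 ≤ κ₀ * (z'.G + z'.s0) + 3 * η ∧
    x.m 1 0 * lx X 2 ≤ κ₀ * (z'.W + z'.sW) + 2 * η := by
  have h0 : 0 ≤ κ₀ := by linarith [F.κ0]
  have h1 := F.κ1
  have hη : 0 ≤ η := (abs_nonneg _).trans N.v
  have e : ∀ n : ℕ, (n : ℝ) * lx X 2 = n * Real.log 2 / Real.log X := fun n => by
    rw [lx2]; ring
  rw [e, e, e, e, e, e]
  refine ⟨near_mul hX h0 h1 F.zf.Y0 N.Y0, near_mul hX h0 h1 F.zf.Y1 N.Y1,
    near_mul hX h0 h1 F.zf.c02 N.c02, near_mul hX h0 h1 F.zf.c12 N.c12, ?_, ?_⟩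
  · refine near_le hX h0 h1 (u := _) F.zf.G ?_ (by linarith)
    have a1 := abs_le.mp N.G
    have a2 := abs_le.mp N.s
    have a3 := abs_le.mp N.sW
    unfold Cls.s0
    linarith [a1.1, a2.1, a3.2]
  · refine near_le hX h0 h1 (u := _) F.zf.W ?_ (by linarith)
    have a1 := abs_le.mp N.W
    have a3 := abs_le.mp N.sW
    linarith [a1.1, a3.1]

/-- the level and the frequency -/
lemma fX_v : |lx X ((2 : ℝ) ^ a.2) - κ₀ * z'.v| ≤ η := by
  have h0 : 0 ≤ κ₀ := by linarith [F.κ0]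
  have e : lx X ((2 : ℝ) ^ a.2) = Real.log 2 * a.2 / Real.log X := by
    unfold XL842.lx
    rw [Real.log_pow]
    ring
  rw [e]
  exact near_mul hX h0 F.κ1 F.zf.v N.v

lemma fX_κ : |lx X ((2 : ℝ) ^ c.nkk - 1 / 2) - κ₀ * z'.k| ≤ η + 2 * lx X 2 := by
  have h0 : 0 ≤ κ₀ := by linarith [F.κ0]
  have hL : 0 < Real.log X := Real.log_pos hX
  have hc := XL842.lx2_pos hX
  have h1 := abs_le.mp (near_mul hX h0 F.κ1 F.zf.k N.k)
  have hp : (1 : ℝ) ≤ 2 ^ c.nkk := one_le_pow₀ (by norm_num)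
  have g1 : Real.log ((2 : ℝ) ^ c.nkk - 1 / 2) ≤ c.nkk * Real.log 2 := by
    rw [← Real.log_pow]
    exact Real.log_le_log (by linarith) (by linarith)
  have g2 : c.nkk * Real.log 2 - Real.log 2 ≤ Real.log ((2 : ℝ) ^ c.nkk - 1 / 2) := by
    rw [← Real.log_pow, ← Real.log_div (by positivity) (by norm_num)]
    exact Real.log_le_log (by positivity) (by linarith)
  have w1 : c.nkk * Real.log 2 ≤ lg t.k := by
    have := F.w1
    rw [← Real.exp_log (show (0 : ℝ) < 2 ^ c.nkk by positivity)] at this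
    have := Real.exp_le_exp.mp this
    rwa [Real.log_pow] at this
  have w2 : lg t.k ≤ (c.nkk + 1) * Real.log 2 := by
    have := F.w1'
    rw [← Real.exp_log (show (0 : ℝ) < 2 ^ (c.nkk + 1) by positivity)] at this
    have := Real.exp_le_exp.mp this
    rw [Real.log_pow] at this
    push_cast at this
    exact this
  have e : lx X 2 = Real.log 2 / Real.log X := rfl
  have k1 : lx X ((2 : ℝ) ^ c.nkk - 1 / 2) ≤ lg t.k / Real.log X := by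
    unfold XL842.lx
    exact div_le_div_of_nonneg_right (g1.trans w1) hL.le
  have k2 : lg t.k / Real.log X - 2 * lx X 2 ≤ lx X ((2 : ℝ) ^ c.nkk - 1 / 2) := by
    rw [e, ← mul_div_assoc, ← sub_div]
    unfold XL842.lx
    exact div_le_div_of_nonneg_right (by linarith) hL.le
  rw [abs_le]
  constructor <;> linarith [h1.1, h1.2]

/-- the fixed part of `s` -/
lemma fX_s1 : min (E4X92.lg (sk (x.g * x.e₀ * x.t) t.k) : ℝ) (x.m 0 0) * lx X 2 ≤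
    κ₀ * z'.s1 + η := by
  have h0 : 0 ≤ κ₀ := by linarith [F.κ0]
  have hL : 0 < Real.log X := Real.log_pos hX
  have h1 := abs_le.mp (near_mul hX h0 F.κ1 F.zf.s1 N.s1)
  have h2 := (nlog F.s0).1
  have h3 : min (E4X92.lg (sk (x.g * x.e₀ * x.t) t.k) : ℝ) (x.m 0 0) * Real.log 2 ≤
      min (lg (sk (x.g * x.e₀ * x.t) t.k)) (kG x) := by
    have l2 : 0 ≤ Real.log 2 := Real.log_nonneg (by norm_num)
    refine le_min ?_ ?_
    · exact (mul_le_mul_of_nonneg_right (min_le_left _ _) l2).trans h2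
    · exact mul_le_mul_of_nonneg_right (min_le_right _ _) l2
  have h4 : min (E4X92.lg (sk (x.g * x.e₀ * x.t) t.k) : ℝ) (x.m 0 0) * lx X 2 ≤
      min (lg (sk (x.g * x.e₀ * x.t) t.k)) (kG x) / Real.log X := by
    rw [lx2]
    rw [← mul_div_assoc]
    exact div_le_div_of_nonneg_right h3 hL.le
  linarith [h1.2]

/-- the window of the outer parameter -/
lemma fX_Bo : (x.m 0 0 + 2 * (x.m 0 1 + x.m 1 1) + 3 * x.m 1 0 + x.m 0 2 + 2 * x.m 1 2 : ℝ) *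
      lx X 2 + κ₀ * z'.nu ≤ (c.nlam + 1) * lx X 2 + η ∧
    (c.nlam : ℝ) * lx X 2 ≤
      (x.m 0 0 + 2 * (x.m 0 1 + x.m 1 1) + 3 * x.m 1 0 + x.m 0 2 + 2 * x.m 1 2 : ℝ) * lx X 2 +
        κ₀ * z'.nu + 11 * lx X 2 + η := by
  have h0 : 0 ≤ κ₀ := by linarith [F.κ0]
  have hL : 0 < Real.log X := Real.log_pos hX
  have h1 := abs_le.mp (near_mul hX h0 F.κ1 F.zf.nu N.nu)
  have w2 := div_le_div_of_nonneg_right F.w2 hL.le
  have w3 := div_le_div_of_nonneg_right F.w3 hL.le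
  have e1 : (kG x + 2 * kY x + 3 * kW x + kC x + lg (nu0 t.o.1.1 t.o.1.2)) / Real.log X =
      (x.m 0 0 + 2 * (x.m 0 1 + x.m 1 1) + 3 * x.m 1 0 + x.m 0 2 + 2 * x.m 1 2 : ℝ) * lx X 2 +
        lg (nu0 t.o.1.1 t.o.1.2) / Real.log X := by
    unfold kG kY kW kC
    rw [lx2]
    ring
  have e2 : ((c.nlam : ℝ) + 1) * Real.log 2 / Real.log X = (c.nlam + 1) * lx X 2 := by
    rw [lx2]; ring
  have e3 : (c.nlam : ℝ) * Real.log 2 / Real.log X = c.nlam * lx X 2 := by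
    rw [lx2]; ring
  have e4 : (kG x + 2 * kY x + 3 * kW x + kC x + lg (nu0 t.o.1.1 t.o.1.2) + 11 * Real.log 2) /
      Real.log X =
      (x.m 0 0 + 2 * (x.m 0 1 + x.m 1 1) + 3 * x.m 1 0 + x.m 0 2 + 2 * x.m 1 2 : ℝ) * lx X 2 +
        lg (nu0 t.o.1.1 t.o.1.2) / Real.log X + 11 * lx X 2 := by
    unfold kG kY kW kC
    rw [lx2]
    ring
  rw [e1, e2] at w2
  rw [e3, e4] at w3
  constructor <;> linarith [h1.1, h1.2]

/-- the parts of the divisor of the prefix -/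
lemma fX_R (ht : t ∈ 𝒥) : |(E4X92.lg (rrk 1 (P.R * P.R')) : ℝ) * lx X 2 - κ₀ * z'.R1| ≤ η + lx X 2 ∧
    |(E4X92.lg (rrk 2 (P.R * P.R')) : ℝ) * lx X 2 - κ₀ * z'.R2| ≤ η + lx X 2 := by
  have h0 : 0 ≤ κ₀ := by linarith [F.κ0]
  have hL : 0 < Real.log X := Real.log_pos hX
  have hLg : κ₀ * Real.log X ≠ 0 := by
    have : 0 < κ₀ := by linarith [F.κ0]
    positivity
  obtain ⟨hF, -, -, hpf, -⟩ := F.tm t ht
  obtain ⟨-, -, -, -, z5, z6, -⟩ := zTr_Lg (x := x) (f := f) (f1 := f1) (f2 := f2) (D1' := D1')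
    (l' := l') (m := m) (sc := sc) hLg (i := a.2) (t := t)
  have h1 := abs_le.mp (near_mul hX h0 F.κ1 z5 N.R1)
  have h2 := abs_le.mp (near_mul hX h0 F.κ1 z6 N.R2)
  have r1 := lg_rrk1 hF
  have r2 := lg_rrk2 hF
  rw [← r1] at h1
  rw [← r2] at h2
  rw [hpf] at h1 h2
  obtain ⟨a1, a2⟩ := nlogX hX (E4zg92.rrk_prim 1 (P.R * P.R')).ne_zero
  obtain ⟨a3, a4⟩ := nlogX hX (E4zg92.rrk_prim 2 (P.R * P.R')).ne_zero
  have hc := XL842.lx2_pos hX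
  constructor <;> rw [abs_le] <;> constructor <;> linarith [h1.1, h1.2, h2.1, h2.2]

/-- **the fixed frequency factor** -/
lemma fX_q (ht : t ∈ 𝒥) (ht' : t' ∈ 𝒥)
    (hS : Spl (π lam.1).n₃ f z₀ t f1 f2 f3 D1' Z'' l' m) :
    lx X (nk ((E4RH858.b1 t' ^ 2 * P.b) ^ 2) * nm t'.D1) ≤
      κ₀ * (z'.η + z'.b1 + z'.F + z'.lq) + 4 * η + 2 * lx X 2 := by
  have h0 : 0 ≤ κ₀ := by linarith [F.κ0]
  have hL : 0 < Real.log X := Real.log_pos hX
  have hLg : κ₀ * Real.log X ≠ 0 := by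
    have : 0 < κ₀ := by linarith [F.κ0]
    positivity
  obtain ⟨hF, hok, hIn, hpf, -⟩ := F.tm t ht
  obtain ⟨hF', hok', hIn', hpf', -⟩ := F.tm t' ht'
  obtain ⟨z1, z2, z3, z4, -, -, -⟩ := zTr_Lg (x := x) (f := f) (f1 := f1) (f2 := f2) (D1' := D1')
    (l' := l') (m := m) (sc := sc) hLg (i := a.2) (t := t)
  have k1 := (abs_le.mp (near_mul hX h0 F.κ1 z1 N.η)).2
  have k2 := (abs_le.mp (near_mul hX h0 F.κ1 z2 N.b1)).2
  have k3 := (abs_le.mp (near_mul hX h0 F.κ1 z3 N.F)).2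
  have k4 := (abs_le.mp (near_mul hX h0 F.κ1 z4 N.lq)).2
  have hD : t.D1 ≠ 0 := hok.pD1.ne_zero
  have hD' : t'.D1 ≠ 0 := hok'.pD1.ne_zero
  have eD : lg t.D1 = lg f1 + lg D1' := by
    rw [hS.hD] at hD ⊢
    exact lg_mul (left_ne_zero_of_mul hD) (right_ne_zero_of_mul hD)
  have win : ∀ {n : ℕ} {y y' : Eis}, y ≠ 0 → y' ≠ 0 → inW n (nm y) → inW n (nm y') →
      lg y' ≤ lg y + Real.log 2 := by
    intro n y y' hy hy' w1 w2
    have e1 : (nm y' : ℝ) ≤ 2 * nm y := by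
      have a1 := w2.2
      have a2 := w1.1
      rw [pow_succ] at a1
      linarith
    have e2 := Real.log_le_log (nm_pos' hy') e1
    rw [Real.log_mul (by norm_num) (nm_pos' hy).ne'] at e2
    unfold E4Dic352.lg
    linarith
  have w1 := win hD hD' hIn.h1 hIn'.h1
  have hbt : t.b ≠ 0 := by
    rw [hF.b]
    exact mul_ne_zero (pow_ne_zero _ hF.sb1.ne_zero) hF.sb.ne_zero
  have hbt' : t'.b ≠ 0 := by
    rw [hF'.b]
    exact mul_ne_zero (pow_ne_zero _ hF'.sb1.ne_zero) hF'.sb.ne_zero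
  have w2 := win hbt hbt' hIn.hb hIn'.hb
  rw [lgb hF, lgb hF', hpf, hpf'] at w2
  have q1 := nk_b hF'
  rw [hpf'] at q1
  have q0 : (E4RH858.b1 t' ^ 2 * P.b) ^ 2 ≠ 0 := by
    rw [← hpf']
    exact pow_ne_zero _ (mul_ne_zero (pow_ne_zero _ hF'.sb1.ne_zero) hF'.sb.ne_zero)
  have q2 := nk_ge_one q0
  have q3 : Real.log (nk ((E4RH858.b1 t' ^ 2 * P.b) ^ 2)) ≤ lg (E4RH858.b1 t') + lqS P := by
    have := Real.log_le_log (by linarith) q1
    rwa [Real.log_exp] at this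
  have q4 := lg_b1 t f2
  have l2 : 0 ≤ Real.log 2 := Real.log_nonneg (by norm_num)
  have q5 : Real.log (nk ((E4RH858.b1 t' ^ 2 * P.b) ^ 2) * nm t'.D1) ≤
      lg D1' + beS t f2 + lg f1 + (lqS (pf t) + bfS t f2) + 2 * Real.log 2 := by
    rw [Real.log_mul (by linarith) (nm_pos' hD').ne', hpf]
    have : Real.log (nm t'.D1) = lg t'.D1 := rfl
    rw [this]
    linarith
  have q6 := div_le_div_of_nonneg_right q5 hL.le
  have e1 : (lg D1' + beS t f2 + lg f1 + (lqS (pf t) + bfS t f2) + 2 * Real.log 2) / Real.log X =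
      lg D1' / Real.log X + beS t f2 / Real.log X + lg f1 / Real.log X +
        (lqS (pf t) + bfS t f2) / Real.log X + 2 * lx X 2 := by
    rw [lx2]; ring
  rw [e1] at q6
  have e2 : κ₀ * (z'.η + z'.b1 + z'.F + z'.lq) = κ₀ * z'.η + κ₀ * z'.b1 + κ₀ * z'.F +
    κ₀ * z'.lq := by ring
  rw [e2]
  have e3 : lx X (nk ((E4RH858.b1 t' ^ 2 * P.b) ^ 2) * nm t'.D1) =
      Real.log (nk ((E4RH858.b1 t' ^ 2 * P.b) ^ 2) * nm t'.D1) / Real.log X := rfl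
  rw [e3]
  linarith

end blk

/-- constants -/
lemma lx_const {X τ y : ℝ} (hX : 1 < X) (h1 : 1 ≤ y) (h2 : y ≤ X ^ τ) : |lx X y| ≤ τ := by
  have h0 : 0 < X := by linarith
  have hL : 0 < Real.log X := Real.log_pos hX
  have e : 0 ≤ lx X y := div_nonneg (Real.log_nonneg h1) hL.le
  rw [abs_of_nonneg e]
  exact XL842.lx_le_of hX (by linarith) h2

section fin

variable {Λ : Type*} {π : Λ → DPar} {h : ℝ → ℝ} {lam : Λ × Eis}
  {Jf : ℝ → ℝ → ℝ → Finset (Eis × Eis)}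
  {a : Bd × ℕ} {x : Dt} {Bb A1 X κ₀ η τ Nn mx Nα Bm : ℝ} {c : Win} {P : Pf} {β τ₁ : Eis}
  {𝒥 : Finset (Tm (x.O π lam Jf a))} {t t' : Tm (x.O π lam Jf a)} {z' : Cls}
  {f f1 f2 f3 D1' Z'' l' m z₀ : Eis} {sc : ℝ} {α : Eis → ℂ} {G : Eis → ℂ}
  {Oc : Finset (x.O π lam Jf a)} {Pk : Eis → Prop} {g₁ g₂ : Eis} {s₁ β₀ : Eis}

/-- **the sizes of a block at a class near the true one** -/
theorem bsz_of (hX : 1 < X)
    (F : BFr π h lam Jf a x Bb X κ₀ η c P β τ₁ 𝒥 t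
      (zTr (κ₀ * Real.log X) a.2 x f t f1 f2 D1' l' m sc) z')
    (N : Near η (zTr (κ₀ * Real.log X) a.2 x f t f1 f2 D1' l' m sc) z')
    (hS : Spl (π lam.1).n₃ f z₀ t f1 f2 f3 D1' Z'' l' m) (ht : t ∈ 𝒥) (ht' : t' ∈ 𝒥)
    (hB : XBk π lam Jf a x α A1 X c.nkk c.nlam P s₁ β₀ Oc Pk g₁ g₂ t'.D1 (E4RH858.b1 t') G)
    (hm : ∀ p, IsPP p → multiplicity p x.g' ≤ 3)
    (hτ : 8 * η + 20 * lx X 2 ≤ τ) (h9 : 9 ≤ X ^ τ) (hn : (nm (π lam.1).n₃ : ℝ) ≤ X ^ τ)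
    (hBm1 : 1 ≤ Bm) (hBm : Bm ≤ X ^ (mx + η)) (hNα : |lx X Nα - κ₀ * (Nn - z'.β)| ≤ τ)
    {d : XD} (hd : d = dBX π lam Jf a x α A1 X c.nkk P g₁ g₂ t'.D1 (E4RH858.b1 t') G) :
    XL842.BSz X κ₀ τ z' Nn mx x.m (E4X92.lg d.g₁) (E4X92.lg (rrk 1 d.Pr))
      (E4X92.lg (rrk 2 d.Pr)) (E4X92.lg (sk (x.g * x.e₀ * x.t) t.k)) (2 * 2 ^ c.nlam)
      (2 ^ c.nlam) d.V d.κ Nα Bm (nk (d.b ^ 2) * nm d.D) (nm d.c₀) (nm d.g₁) (nm d.g₂) := by
  have hc := XL842.lx2_pos hX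
  have hη : 0 ≤ η := (abs_nonneg _).trans N.v
  have hL : 0 < Real.log X := Real.log_pos hX
  have e1 : d.g₁ = g₁ := by rw [hd]; rfl
  have e2 : d.g₂ = g₂ := by rw [hd]; rfl
  have e3 : d.c₀ = x.c₀ := by rw [hd]; rfl
  have e4 : d.Pr = P.R * P.R' := by rw [hd]; rfl
  have e5 : d.V = 2 ^ a.2 := by rw [hd]; rfl
  have e6 : d.κ = 2 ^ c.nkk - 1 / 2 := by rw [hd]; rfl
  have e7 : d.b = E4RH858.b1 t' ^ 2 * P.b := by rw [hd]; rfl
  have e8 : d.D = t'.D1 := by rw [hd]; rfl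
  rw [e1, e2, e3, e4, e5, e6, e7, e8]
  obtain ⟨m1, m2, m3, m4, m5, m6⟩ := fX_m hX F N
  obtain ⟨b1, b2⟩ := fX_Bo hX F N
  obtain ⟨r1, r2⟩ := fX_R hX F N ht
  have hn0 : (π lam.1).n₃ ≠ 0 := hB.hP0.χ₃.q0
  have c1 : |lx X (nm x.c₀)| ≤ τ := by
    obtain ⟨Bf, e0, r, ε, XX, hx⟩ := hB.hx
    obtain ⟨q1, q2⟩ := nm_isC (mem_C4.mp hx.c₀)
    refine lx_const hX (by exact_mod_cast q1) (le_trans ?_ h9)
    exact_mod_cast q2
  have c2 : |lx X (nm g₁)| ≤ τ :=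
    lx_const hX (by exact_mod_cast nm_pos.mpr hB.g1.1.ne_zero)
      (le_trans (by exact_mod_cast hB.g1n) hn)
  have c3 : |lx X (nm g₂)| ≤ τ :=
    lx_const hX (by exact_mod_cast nm_pos.mpr hB.g2.1.ne_zero)
      (le_trans (by exact_mod_cast g2_le hn0 hm hB.hg hB.g1.1 hB.g2) hn)
  exact {
    τ0 := by linarith
    c1 := by linarith
    Y0 := m1.trans (by linarith)
    Y1 := m2.trans (by linarith)
    c02 := m3.trans (by linarith)
    c12 := m4.trans (by linarith)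
    G := m5.trans (by linarith)
    W := m6.trans (by linarith)
    R1 := r1.trans (by linarith)
    R2 := r2.trans (by linarith)
    γt := by
      have := (nlogX hX hB.g1.1.ne_zero).1
      have := (abs_le.mp c2).2
      rw [lx_nm] at this
      linarith
    s1 := by
      have := fX_s1 hX F N
      rw [← min_mul_of_nonneg _ _ hc.le]
      linarith
    Bo0 := by positivity
    Bo0' := by positivity
    nu := by
      have e : lx X (2 * 2 ^ c.nlam) = (c.nlam + 1) * lx X 2 := by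
        rw [XL842.lx_mul (by norm_num) (by positivity), XL842.lx_pow]
        ring
      rw [e]
      linarith
    nu' := by
      rw [XL842.lx_pow]
      linarith
    V := (fX_v hX F N).trans (by linarith)
    k := (fX_κ hX F N).trans (by linarith)
    Nα := hNα
    Bm0 := by linarith
    Bm := (XL842.lx_le_of hX (by linarith) hBm).trans (by linarith)
    q' := (fX_q hX F N ht ht' hS).trans (by linarith)
    c₀ := c1
    g₁ := c2
    g₂ := c3 }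

/-- the fixed frequency is almost cube-free if the block has a term -/
lemma g'_of_val (hJ : ∀ l N z, OKJ (Jf l N z)) (ha : a.1.ok) (hP : a.1.okP (π lam.1))
    {Bf : ℝ → ℝ → ℝ → ℝ} {e0 r ε X' : ℝ}
    (hx : x.OK (π lam.1) Bf e0 r ε X' a.1) {w : x.O π lam Jf a → Eis → ℂ}
    (hv : t.val 1 lD (x.v π h lam Jf a) w G ≠ 0) :
    ∀ p, IsPP p → multiplicity p x.g' ≤ 3 := by
  intro p hp
  obtain ⟨-, hxs, -⟩ := E4RH858.val_ne hv
  obtain ⟨x1, -, -, hx1⟩ := E4RH858.xs_ne hxs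
  exact g'_mult hJ ha hP hx hx1 hp

/-- the window of `α` -/
lemma Nα_of (hX : 1 < X)
    (F : BFr π h lam Jf a x Bb X κ₀ η c P β τ₁ 𝒥 t
      (zTr (κ₀ * Real.log X) a.2 x f t f1 f2 D1' l' m sc) z')
    (N : Near η (zTr (κ₀ * Real.log X) a.2 x f t f1 f2 D1' l' m sc) z')
    {δ C n₀ : ℝ} {q : (Option (Fin 3 ⊕ Fin 5) → ℝ) × (Kd → ℝ)}
    {ps : List Pq} (V : FrV δ (Real.log X) a ps q)
    (hN : |Real.log Nα - ((a.1.us 2).z + (a.1.us 3).z + (a.1.us 4).z - lg (∏ i, x.β i))| ≤ C) :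
    |lx X Nα - κ₀ * (cN (dn q.1) / κ₀ - z'.β)| ≤ 3 * δ + η + C / Real.log X := by
  have h0 : 0 < κ₀ := by linarith [F.κ0]
  have hL : 0 < Real.log X := Real.log_pos hX
  have hLg : κ₀ * Real.log X ≠ 0 := by positivity
  obtain ⟨-, -, -, -, -, -, z7⟩ := zTr_Lg (x := x) (f := f) (f1 := f1) (f2 := f2) (D1' := D1')
    (l' := l') (m := m) (sc := sc) hLg (i := a.2) (t := t)
  have k1 := abs_le.mp (near_mul hX h0.le F.κ1 z7 N.β)
  have div : ∀ {y c' : ℝ}, |y - c' * Real.log X| ≤ δ * Real.log X → |y / Real.log X - c'| ≤ δ := by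
    intro y c' h
    have e : y / Real.log X - c' = (y - c' * Real.log X) / Real.log X := by field_simp
    rw [e, abs_div, abs_of_pos hL, div_le_iff₀ hL]
    exact h
  have u2 := abs_le.mp (div (V.u 2))
  have u3 := abs_le.mp (div (V.u 3))
  have u4 := abs_le.mp (div (V.u 4))
  have hN' : |Real.log Nα / Real.log X - ((a.1.us 2).z / Real.log X + (a.1.us 3).z / Real.log X +
      (a.1.us 4).z / Real.log X - lg (∏ i, x.β i) / Real.log X)| ≤ C / Real.log X := by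
    have e : Real.log Nα / Real.log X - ((a.1.us 2).z / Real.log X + (a.1.us 3).z / Real.log X +
      (a.1.us 4).z / Real.log X - lg (∏ i, x.β i) / Real.log X) = (Real.log Nα -
        ((a.1.us 2).z + (a.1.us 3).z + (a.1.us 4).z - lg (∏ i, x.β i))) / Real.log X := by
      ring
    rw [e, abs_div, abs_of_pos hL]
    exact div_le_div_of_nonneg_right hN hL.le
  have h4 := abs_le.mp hN'
  have eN : cN (dn q.1) = cu (dn q.1) 2 + cu (dn q.1) 3 + cu (dn q.1) 4 := rfl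
  have e5 : κ₀ * (cN (dn q.1) / κ₀ - z'.β) = cN (dn q.1) - κ₀ * z'.β := by
    field_simp
  have e6 : lx X Nα = Real.log Nα / Real.log X := rfl
  rw [e5, eN, e6, abs_le]
  constructor <;> linarith [h4.1, h4.2, k1.1, k1.2, u2.1, u2.2, u3.1, u3.2, u4.1, u4.2]

end fin

set_option maxHeartbeats 800000 in
/-- **the sizes of a block at the data of helper681's `BlkC`** -/
theorem bsz_blk {Λ : Type*} {π : Λ → DPar} {h : ℝ → ℝ} (hP : ∀ lam, (π lam).OK)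
    {Jf : ℝ → ℝ → ℝ → Finset (Eis × Eis)} (hJf : ∀ l N z, OKJ (Jf l N z)) {τ : ℝ} (hτ : 0 < τ)
    (C : ℝ) (lam : Λ × Eis) : ∃ X₀ : ℝ, 1 < X₀ ∧ ∀ X : ℝ, X₀ ≤ X →
    ∀ δ δ' ε' η : ℝ, δ ≤ η → 16 * η ≤ τ →
    ∀ (A d e0 r B : ℝ) (N : ℕ) (Bf : ℝ → ℝ → ℝ → ℝ)
      (a : Bd × ℕ) (ps : List Pq) (q : (Option (Fin 3 ⊕ Fin 5) → ℝ) × (Kd → ℝ)),
      FrL A d δ δ' B X N a ps q → a.1.ok → a.1.okP (π lam.1) →
    ∀ x : Dt, x.OK (π lam.1) Bf e0 r ε' X a.1 →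
    ∀ (w : x.O π lam Jf a → Eis → ℂ) (G : Eis → ℂ)
      (c : E4J352.Win) (P : Pf) (β τ₁ : Eis) (𝒥 : Finset (Tm (x.O π lam Jf a))),
    ∀ t ∈ 𝒥, t.val 1 lD (x.v π h lam Jf a) w G ≠ 0 →
    ∀ f1 f2 f3 D1' Z'' l' m : Eis,
      Spl (π lam.1).n₃ (fN (π lam.1).n₃ (x.E a.1)) x.z t f1 f2 f3 D1' Z'' l' m →
    ∀ (z' : Cls) (sc : ℝ) (Bb : ℝ),
      Near η (zTr (cκ (dn q.1) * Real.log X) a.2 x (fN (π lam.1).n₃ (x.E a.1)) t
        f1 f2 D1' l' m sc) z' →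
      BFr π h lam Jf a x Bb X (cκ (dn q.1)) η c P β τ₁ 𝒥 t
        (zTr (cκ (dn q.1) * Real.log X) a.2 x (fN (π lam.1).n₃ (x.E a.1)) t f1 f2 D1' l' m sc)
        z' →
    ∀ t' ∈ 𝒥, ∀ (α : Eis → ℂ) (A1 : ℝ) (s₁ β₀ : Eis) (Oc : Finset (x.O π lam Jf a))
      (Pk : Eis → Prop) (g₁ g₂ : Eis) (G' : Eis → ℂ),
      XBk π lam Jf a x α A1 X c.nkk c.nlam P s₁ β₀ Oc Pk g₁ g₂ t'.D1 (E4RH858.b1 t') G' →
    ∀ d₀ : XD, d₀ = dBX π lam Jf a x α A1 X c.nkk P g₁ g₂ t'.D1 (E4RH858.b1 t') G' →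
    ∀ mx Bm : ℝ, 1 ≤ Bm → Bm ≤ X ^ (mx + η) →
    ∀ Nα : ℝ,
      |Real.log Nα - ((a.1.us 2).z + (a.1.us 3).z + (a.1.us 4).z - lg (∏ i, x.β i))| ≤ C →
    XL842.BSz X (cκ (dn q.1)) τ z' (cN (dn q.1) / cκ (dn q.1)) mx x.m (E4X92.lg d₀.g₁)
      (E4X92.lg (rrk 1 d₀.Pr)) (E4X92.lg (rrk 2 d₀.Pr))
      (E4X92.lg (sk (x.g * x.e₀ * x.t) t.k)) (2 * 2 ^ c.nlam) (2 ^ c.nlam) d₀.V d₀.κ Nα Bm
      (nk (d₀.b ^ 2) * nm d₀.D) (nm d₀.c₀) (nm d₀.g₁) (nm d₀.g₂) := by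
  obtain ⟨K, hK⟩ : ∃ K : ℝ, K = 40 + 4 * |C| + Real.log (nm (π lam.1).n₃) := ⟨_, rfl⟩
  have hn0 : (π lam.1).n₃ ≠ 0 := (hP lam.1).χ₃.q0
  have hln : 0 ≤ Real.log (nm (π lam.1).n₃) := Real.log_natCast_nonneg _
  have hC0 := abs_nonneg C
  refine ⟨max 2 (Real.exp (K / τ)), lt_max_of_lt_left (by norm_num), ?_⟩
  intro X hXX δ δ' ε' η hδ hη A d e0 r B N Bf a ps q hFr ha haP x hx w G c P β τ₁ 𝒥 t ht hval
    f1 f2 f3 D1' Z'' l' m hS z' sc Bb hN hF t' ht' α A1 s₁ β₀ Oc Pk g₁ g₂ G' hB d₀ hd₀ mx Bm hBm1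
    hBm Nα hNα
  have hX2 : 2 ≤ X := (le_max_left _ _).trans hXX
  have hX1 : 1 < X := by linarith
  have hX0 : 0 < X := by linarith
  have hL : 0 < Real.log X := Real.log_pos hX1
  have hKL : K ≤ τ * Real.log X := by
    have h1 : Real.exp (K / τ) ≤ X := (le_max_right _ _).trans hXX
    have h2 := (Real.le_log_iff_exp_le hX0).mpr h1
    rw [div_le_iff₀ hτ] at h2
    linarith
  have l2 : Real.log 2 < 0.6931471808 := Real.log_two_lt_d9
  have hc : 20 * lx X 2 ≤ τ / 2 := by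
    rw [lx2, ← mul_div_assoc, div_le_iff₀ hL]
    rw [hK] at hKL
    nlinarith
  have h9 : (9 : ℝ) ≤ X ^ τ := by
    rw [Real.rpow_def_of_pos hX0, ← Real.log_le_iff_le_exp (by norm_num)]
    have e9 : Real.log 9 ≤ 8 := by
      have := Real.log_le_sub_one_of_pos (show (0 : ℝ) < 9 by norm_num)
      linarith
    rw [hK] at hKL
    nlinarith
  have hn : (nm (π lam.1).n₃ : ℝ) ≤ X ^ τ := by
    rw [Real.rpow_def_of_pos hX0, ← Real.log_le_iff_le_exp (nm_pos' hn0)]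
    rw [hK] at hKL
    nlinarith
  have hCL : C / Real.log X ≤ τ / 4 := by
    rw [div_le_iff₀ hL]
    have := le_abs_self C
    rw [hK] at hKL
    nlinarith
  have hV := frV hFr hX1
  have k := Nα_of hX1 hF hN (C := C) (n₀ := 0) hV hNα
  refine bsz_of hX1 hF hN hS ht ht' hB (g'_of_val hJf ha haP hx hval) ?_ h9 hn hBm1 hBm ?_ hd₀
  · linarith
  · refine k.trans ?_
    have hη0 : 0 ≤ η := (abs_nonneg _).trans hN.v
    linarith

/-- helper164's window -/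
lemma nα_164 (a : Bd) (x : Dt) :
    |Real.log (Real.exp (a3 a - Real.log (nm (∏ i, x.β i)))) -
      ((a.us 2).z + (a.us 3).z + (a.us 4).z - lg (∏ i, x.β i))| ≤ 0 := by
  rw [Real.log_exp]
  have e : a3 a - Real.log (nm (∏ i, x.β i)) -
      ((a.us 2).z + (a.us 3).z + (a.us 4).z - lg (∏ i, x.β i)) = 0 := by
    unfold a3 lg
    ring
  rw [e, abs_zero]

end Crest.Agent.R017.E4zq92
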