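import Crest.Agent.R017.E4Xb_681
import Crest.Agent.R017.E4Xg_92

/-!
# Row 17, block C70, leaf E4 (x-side): the bounds of the cells in the sizes of the class (helper681)

* `AA` : the four numbers of a class
* `cell_cls` : the bound of a cell, numbers of the class
* `cell_field` : **the field `cell` of `XF.HCF`**
-/

set_option autoImplicit false
set_option linter.unusedVariables false
set_option maxHeartbeats 400000

noncomputable section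

open Complex MeasureTheory
open scoped ComplexConjugate Classical ContDiff

namespace Crest.Agent.R017.E4Xb681

open Crest.Agent.R012 Crest.Agent.R012.Eis Crest.Agent.R012.MC
open Crest.Agent.R012.LS2 (S mem_S bl mem_bl)
open Crest.Agent.R012.Div277 (dvs mem_dvs isPrim_of_mem_dvs dvd_of_mem_dvs tau tau_le_rpow)
open Crest.Agent.R012.Mob705 (mu pdiv mem_pdiv)
open Crest.Agent.R012.NonCube52 (Ker kv Good kc kc_spec kc_nm kv_ne_zero one_le_nmkv)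
open Crest.Agent.R012.Weight600 (pw osc)
open Crest.Agent.R017.PX764 (n6 Gh)
open Crest.Agent.R017.CM106 (CS TG FS)
open Crest.Agent.R017.E1551 (nmpos jb jb_pos nm_ge_one summable_wF)
open Crest.Agent.R017.BD829
open Crest.Agent.R017.E3P842
open Crest.Agent.R017.E3D579
open Crest.Agent.R017.E3Sd579
open Crest.Agent.R017.Mode405
open Crest.Agent.R017.Mps347 (PoHWp)
open Crest.Agent.R017.E3q681 hiding TD TD_nonneg
open Crest.Agent.R017.E4v92 (FF WW)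
open Crest.Agent.R017.E4z92 (OKs cZ QQ RQ As Ss mem_As mem_Ss)
open Crest.Agent.R017.E4zz92 (Tu PP)
open Crest.Agent.R017.E4F266 (IP IP_mem)
open Crest.Agent.R017.E4352 (rd dvd_rd)
open Crest.Agent.R017.E4579 (SupB)
open Crest.Agent.R017.E4X92
open Gauss880 (syG)

/-! ### the kernel of the frequency -/

lemma nk_le_nm {y : Eis} (hy : y ≠ 0) : (nk y : ℝ) ≤ nm y := by
  obtain ⟨g, hn, he, -⟩ := kc_spec hy
  unfold nk
  exact_mod_cast Div277.nm_le_of_dvd hy ⟨(kc y).2 ^ 3, he⟩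

/-- the kernel of the frequency -/
lemma nk_Qa (x : XF) (a : Tu) (hQ : Qa x a ≠ 0) : (nk (Qa x a ^ 2) : ℝ) ≤
    ((nm x.c₀ : ℝ) * nm x.g₁) ^ 2 * nk (x.q₁ ^ 2) * (nm x.q₂ * nm x.D) *
      (nm (a.us * a.τ) : ℝ) ^ 2 * nm a.s := by
  have e : Qa x a ^ 2 = (((x.c₀ * x.g₁) ^ 2 * (x.q₂ * x.D) * (a.us * a.τ) ^ 2 * a.s) * x.q₁ ^ 2) *
      (x.q₂ * x.D * a.s) ^ 3 := by
    unfold Qa QQ; ring
  have h2 : Qa x a ^ 2 ≠ 0 := pow_ne_zero _ hQ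
  rw [e] at h2
  have h3 := left_ne_zero_of_mul h2
  have h4 := right_ne_zero_of_mul h2
  have h5 := left_ne_zero_of_mul h3
  have h6 := right_ne_zero_of_mul h3
  rw [e, nk_mul_cube h3 (by
    intro h0; exact h4 (by rw [h0]; ring))]
  have h7 : (nk (((x.c₀ * x.g₁) ^ 2 * (x.q₂ * x.D) * (a.us * a.τ) ^ 2 * a.s) * x.q₁ ^ 2) : ℝ) ≤
      nk ((x.c₀ * x.g₁) ^ 2 * (x.q₂ * x.D) * (a.us * a.τ) ^ 2 * a.s) * nk (x.q₁ ^ 2) := by
    exact_mod_cast nk_mul_le h5 h6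
  refine h7.trans ?_
  have h8 := nk_le_nm h5
  calc (nk ((x.c₀ * x.g₁) ^ 2 * (x.q₂ * x.D) * (a.us * a.τ) ^ 2 * a.s) : ℝ) * nk (x.q₁ ^ 2) ≤
      nm ((x.c₀ * x.g₁) ^ 2 * (x.q₂ * x.D) * (a.us * a.τ) ^ 2 * a.s) * nk (x.q₁ ^ 2) :=
        mul_le_mul_of_nonneg_right h8 (by unfold nk; positivity)
    _ = _ := by
        simp only [nm_mul, nm_pow]
        push_cast
        ring

/-! ### the numbers of a class -/

/-- the length of the moduli -/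
def Kc (x : XF) (n : Fin 12 → ℕ) : ℝ := x.κ / ((2 : ℝ) ^ n 4) ^ 2

/-- the length of the inner coefficients -/
def Nbn (x : XF) (Nα : ℝ) (n : Fin 12 → ℕ) : ℝ := Nα * (2 ^ n 9 * 2 ^ n 6) / x.En n

/-- the size of the moved factors -/
def mn (n : Fin 12 → ℕ) : ℝ := 2 ^ n 10 * 2 ^ n 11

/-- the kernel of the frequency -/
def qn (x : XF) (n : Fin 12 → ℕ) : ℝ :=
  ((nm x.c₀ : ℝ) * nm x.g₁) ^ 2 * nk (x.q₁ ^ 2) * (nm x.q₂ * nm x.D) * ((2 : ℝ) ^ n 5) ^ 2 *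
    2 ^ n 4

/-- **the numbers of a class** -/
def AA (x : XF) (E Nα L W1 : ℝ) (n : Fin 12 → ℕ) : Fin 4 → ℝ :=
  ![E,
    E * (Th (Kc x n) (x.Nn n) (qn x n) L * (1 + L * x.Nn n ^ (-(1 / 2) : ℝ)) +
      x.Nn n * mn n ^ 2 / Kc x n + x.Nn n * mn n / Kc x n ^ (2 / 3 : ℝ)),
    E * (Th (Kc x n) (x.Nn n) (qn x n) L * (L * x.Nn n ^ (-(1 / 2) : ℝ))),
    E * (Th (Kc x n) (x.Nn n) (qn x n) L *
      ((Real.sqrt L + Real.sqrt (L * x.Nn n / Nbn x Nα n)) * W1))]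

section real

variable {K K' N N' q L W1 Nb Nb' m₀ : ℝ}

lemma Th_cmp (hK : 0 < K') (hN : 0 < N) (hq : 0 ≤ q) (hL : 0 < L) (h1 : K' ≤ 4 * K) (h2 : N ≤ N') :
    Th K N (8 * q) L ≤ 4 * Th K' N' q L := by
  unfold Th
  have hK0 : 0 < K := by linarith
  have e : (4 : ℝ) = 64 ^ (1 / 3 : ℝ) := by
    have h : (64 : ℝ) = 4 ^ (3 : ℝ) := by norm_num
    rw [h, ← Real.rpow_mul (by norm_num)]
    norm_num
  rw [e, ← Real.mul_rpow (by norm_num) (by positivity)]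
  refine Real.rpow_le_rpow (by positivity) ?_ (by norm_num)
  calc N ^ 2 * (8 * q) / (K * L) ≤ N' ^ 2 * (8 * q) / (K' / 4 * L) := by
        have : K' / 4 ≤ K := by linarith
        gcongr
    _ = 32 * (N' ^ 2 * q / (K' * L)) := by field_simp; ring
    _ ≤ 64 * (N' ^ 2 * q / (K' * L)) := by
        have : 0 ≤ N' ^ 2 * q / (K' * L) := by positivity
        linarith

lemma inv_sqrt_cmp (hN : 0 < N') (h : N' ≤ 128 * N) :
    N ^ (-(1 / 2) : ℝ) ≤ 12 * N' ^ (-(1 / 2) : ℝ) := by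
  calc N ^ (-(1 / 2) : ℝ) ≤ (N' / 144) ^ (-(1 / 2) : ℝ) :=
        Real.rpow_le_rpow_of_nonpos (by positivity) (by linarith) (by norm_num)
    _ = 12 * N' ^ (-(1 / 2) : ℝ) := by
        rw [Real.div_rpow hN.le (by norm_num)]
        have : (144 : ℝ) ^ (-(1 / 2) : ℝ) = 1 / 12 := by
          have h : (144 : ℝ) = 12 ^ (2 : ℝ) := by norm_num
          rw [h, ← Real.rpow_mul (by norm_num)]
          norm_num
        rw [this]; field_simp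

/-- the linear part -/
lemma A1_cmp (hK : 0 < K') (hN : 0 < N) (hN' : 0 < N') (hq : 0 ≤ q) (hL : 0 < L) (hm : 0 < m₀)
    (h1 : K' ≤ 4 * K) (h2 : N ≤ N') (h3 : N' ≤ 128 * N) :
    36 * Th K N (8 * q) L * (1 + L * N ^ (-(1 / 2) : ℝ)) + 432 * (N * m₀ ^ 2 / K) +
        36 * (N * m₀ / K ^ (2 / 3 : ℝ)) ≤
      1728 * (Th K' N' q L * (1 + L * N' ^ (-(1 / 2) : ℝ)) + N' * m₀ ^ 2 / K' +
        N' * m₀ / K' ^ (2 / 3 : ℝ)) := by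
  have hK0 : 0 < K := by linarith
  have a1 := Th_cmp hK hN hq hL h1 h2
  have a2 := inv_sqrt_cmp hN' h3
  have t0 := Th_nonneg (N := N') hK hL hq
  have b1 : 36 * Th K N (8 * q) L * (1 + L * N ^ (-(1 / 2) : ℝ)) ≤
      1728 * (Th K' N' q L * (1 + L * N' ^ (-(1 / 2) : ℝ))) := by
    calc 36 * Th K N (8 * q) L * (1 + L * N ^ (-(1 / 2) : ℝ)) ≤
          36 * (4 * Th K' N' q L) * (1 + L * (12 * N' ^ (-(1 / 2) : ℝ))) := by gcongr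
      _ ≤ 36 * (4 * Th K' N' q L) * (12 * (1 + L * N' ^ (-(1 / 2) : ℝ))) := by
          refine mul_le_mul_of_nonneg_left ?_ (by positivity)
          have : 0 ≤ L * N' ^ (-(1 / 2) : ℝ) := by positivity
          linarith
      _ = _ := by ring
  have b2 : 432 * (N * m₀ ^ 2 / K) ≤ 1728 * (N' * m₀ ^ 2 / K') := by
    calc 432 * (N * m₀ ^ 2 / K) ≤ 432 * (N' * m₀ ^ 2 / (K' / 4)) := by
          have : K' / 4 ≤ K := by linarith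
          gcongr
      _ = _ := by field_simp; ring
  have b3 : 36 * (N * m₀ / K ^ (2 / 3 : ℝ)) ≤ 1728 * (N' * m₀ / K' ^ (2 / 3 : ℝ)) := by
    have c1 : K' ^ (2 / 3 : ℝ) ≤ 4 * K ^ (2 / 3 : ℝ) := by
      calc K' ^ (2 / 3 : ℝ) ≤ (4 * K) ^ (2 / 3 : ℝ) := Real.rpow_le_rpow hK.le h1 (by norm_num)
        _ = 4 ^ (2 / 3 : ℝ) * K ^ (2 / 3 : ℝ) := Real.mul_rpow (by norm_num) hK0.le
        _ ≤ 4 * K ^ (2 / 3 : ℝ) := by
            have : (4 : ℝ) ^ (2 / 3 : ℝ) ≤ 4 ^ (1 : ℝ) :=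
              Real.rpow_le_rpow_of_exponent_le (by norm_num) (by norm_num)
            rw [Real.rpow_one] at this
            have h4 : 0 ≤ K ^ (2 / 3 : ℝ) := by positivity
            gcongr
    have c2 : 0 < K' ^ (2 / 3 : ℝ) := by positivity
    calc 36 * (N * m₀ / K ^ (2 / 3 : ℝ)) ≤ 36 * (N' * m₀ / (K' ^ (2 / 3 : ℝ) / 4)) := by
          have : K' ^ (2 / 3 : ℝ) / 4 ≤ K ^ (2 / 3 : ℝ) := by linarith
          gcongr
      _ = 144 * (N' * m₀ / K' ^ (2 / 3 : ℝ)) := by field_simp; ring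
      _ ≤ _ := by
          have : 0 ≤ N' * m₀ / K' ^ (2 / 3 : ℝ) := by positivity
          linarith
  linarith

lemma A2_cmp (hK : 0 < K') (hN : 0 < N) (hN' : 0 < N') (hq : 0 ≤ q) (hL : 0 < L)
    (h1 : K' ≤ 4 * K) (h2 : N ≤ N') (h3 : N' ≤ 128 * N) :
    36 * Th K N (8 * q) L * (L * N ^ (-(1 / 2) : ℝ)) ≤
      1728 * (Th K' N' q L * (L * N' ^ (-(1 / 2) : ℝ))) := by
  have a1 := Th_cmp hK hN hq hL h1 h2
  have a2 := inv_sqrt_cmp hN' h3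
  have t0 := Th_nonneg (N := N') hK hL hq
  calc 36 * Th K N (8 * q) L * (L * N ^ (-(1 / 2) : ℝ)) ≤
        36 * (4 * Th K' N' q L) * (L * (12 * N' ^ (-(1 / 2) : ℝ))) := by gcongr
    _ = _ := by ring

lemma A3_cmp (hK : 0 < K') (hN : 0 < N) (hq : 0 ≤ q) (hL : 0 < L) (hW : 0 ≤ W1) (hNb' : 0 < Nb')
    (h1 : K' ≤ 4 * K) (h2 : N ≤ N') (h4 : Nb' ≤ 8 * Nb) :
    18 * Th K N (8 * q) L * ((Real.sqrt L + Real.sqrt (L * N / Nb)) * W1) ≤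
      1728 * (Th K' N' q L * ((Real.sqrt L + Real.sqrt (L * N' / Nb')) * W1)) := by
  have a1 := Th_cmp hK hN hq hL h1 h2
  have t0 := Th_nonneg (N := N') hK hL hq
  have hNb : 0 < Nb := by linarith
  have hN'0 : 0 < N' := by linarith
  have c1 : Real.sqrt (L * N / Nb) ≤ 3 * Real.sqrt (L * N' / Nb') := by
    have e : (3 : ℝ) * Real.sqrt (L * N' / Nb') = Real.sqrt (9 * (L * N' / Nb')) := by
      rw [Real.sqrt_mul (by norm_num)]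
      congr 1
      rw [show (9 : ℝ) = 3 ^ 2 by norm_num, Real.sqrt_sq (by norm_num)]
    rw [e]
    refine Real.sqrt_le_sqrt ?_
    calc L * N / Nb ≤ L * N' / (Nb' / 8) := by
          have : Nb' / 8 ≤ Nb := by linarith
          gcongr
      _ = 8 * (L * N' / Nb') := by field_simp
      _ ≤ 9 * (L * N' / Nb') := by
          have : 0 ≤ L * N' / Nb' := by positivity
          linarith
  calc 18 * Th K N (8 * q) L * ((Real.sqrt L + Real.sqrt (L * N / Nb)) * W1) ≤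
        18 * (4 * Th K' N' q L) * ((3 * Real.sqrt L + 3 * Real.sqrt (L * N' / Nb')) * W1) := by
          have := Real.sqrt_nonneg L
          gcongr
          linarith
    _ = 216 * (Th K' N' q L * ((Real.sqrt L + Real.sqrt (L * N' / Nb')) * W1)) := by ring
    _ ≤ _ := by
        have := Real.sqrt_nonneg L
        have : 0 ≤ Th K' N' q L * ((Real.sqrt L + Real.sqrt (L * N' / Nb')) * W1) := by positivity
        linarith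

end real

lemma Kc_pos {x : XF} (h : 0 < x.κ) (n : Fin 12 → ℕ) : 0 < Kc x n := by
  unfold Kc; positivity

lemma Nn_pos {x : XF} (hV : 0 < x.V) (hc : x.c₀ ≠ 0) (hg : x.g₂ ≠ 0) (n : Fin 12 → ℕ) :
    0 < x.Nn n := by
  have h1 := nmpos hc
  have h2 := nmpos hg
  unfold XF.Nn XF.Jn XF.En
  positivity

lemma Nbn_pos {x : XF} {Nα : ℝ} (hN : 0 < Nα) (hg : x.g₂ ≠ 0) (n : Fin 12 → ℕ) :
    0 < Nbn x Nα n := by
  have h2 := nmpos hg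
  unfold Nbn XF.En
  positivity

lemma nk_nonneg' (y : Eis) : 0 ≤ nk y := by unfold nk; positivity

lemma qn_nonneg (x : XF) (n : Fin 12 → ℕ) : 0 ≤ qn x n := by
  have := nk_nonneg' (x.q₁ ^ 2)
  unfold qn; positivity

lemma mn_pos (n : Fin 12 → ℕ) : 0 < mn n := by unfold mn; positivity

/-- the numbers are nonnegative -/
lemma AA_nonneg {x : XF} {E Nα L W1 : ℝ} (hκ : 0 < x.κ) (hV : 0 < x.V) (hc : x.c₀ ≠ 0)
    (hg : x.g₂ ≠ 0) (hE : 0 ≤ E) (hN : 0 < Nα) (hL : 0 < L) (hW : 0 ≤ W1) (n : Fin 12 → ℕ)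
    (j : Fin 4) : 0 ≤ AA x E Nα L W1 n j := by
  have h1 := Kc_pos hκ n
  have h2 := Nn_pos hV hc hg n
  have h3 := Nbn_pos hN hg n
  have h4 := qn_nonneg x n
  have h5 := mn_pos n
  have h6 := Th_nonneg (N := x.Nn n) h1 hL h4
  have h7 := Real.sqrt_nonneg L
  have h8 := Real.sqrt_nonneg (L * x.Nn n / Nbn x Nα n)
  unfold AA
  fin_cases j
  · exact hE
  · simp only [Fin.mk_one, Matrix.cons_val_one, Matrix.cons_val_zero]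
    positivity
  · simp only [Fin.reduceFinMk, Matrix.cons_val]
    positivity
  · simp only [Fin.reduceFinMk, Matrix.cons_val]
    positivity

/-! ### the sizes of a cell and of its class -/

section sizes

variable {x : XF} {a : Tu} {Nα Rw : ℝ} {nδ nμ : ℕ} {i : Eis × Eis}

lemma Nh_cmp (hx : XC x a Nα Rw) (hi : FI x a nδ nμ i) (hP : PP (x.Sf a.q) x.g₁ a.ν (a.us * a.τ) ≠ 0) :
    Nh x a nδ ≤ x.Nn (x.vec a nδ nμ) ∧ x.Nn (x.vec a nδ nμ) ≤ 128 * Nh x a nδ := by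
  have hF := FF_ne hi
  have hV := hx.V0
  have c0 := nmpos hx.c0
  have g0 := nmpos hx.g2.ne_zero
  have l3 := pow_lg_le hP
  have u3 := le_pow_lg (PP (x.Sf a.q) x.g₁ a.ν (a.us * a.τ))
  have l6 := pow_lg_le hx.hs.hu.ne_zero
  have u6 := le_pow_lg a.u
  have l7 := pow_lg_le hx.hs.hw.ne_zero
  have u7 := le_pow_lg a.w
  have l8 := pow_lg_le hx.g.ne_zero
  have u8 := le_pow_lg a.g
  have l9 := pow_lg_le hx.h.ne_zero
  have u9 := le_pow_lg a.h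
  set P : ℝ := (nm (PP (x.Sf a.q) x.g₁ a.ν (a.us * a.τ)) : ℝ) with hPd
  have e1 : Nh x a nδ = x.V / (nm x.c₀ * P * ((nm x.g₂ : ℝ) * (nm a.w * nm a.g)) ^ 2 *
      (nm a.u * nm a.h) * 4 ^ nδ) := by
    unfold Nh Vp
    rw [x.nm_FFa, div_div]
    simp only [nm_mul]
    push_cast
    rfl
  have e2 : x.Nn (x.vec a nδ nμ) = x.V / (nm x.c₀ * (2 ^ lg (PP (x.Sf a.q) x.g₁ a.ν (a.us * a.τ)) *
      (2 ^ lg a.h * 2 ^ lg a.u)) * ((nm x.g₂ : ℝ) * (2 ^ lg a.w * (2 ^ lg a.g * 2 ^ nδ))) ^ 2) := rfl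
  have e4 : (4 : ℝ) ^ nδ = (2 ^ nδ) ^ 2 := by
    rw [← pow_mul, mul_comm, pow_mul]; norm_num
  have pw : nm a.w = nm a.w := rfl
  have d0 : (0 : ℝ) < 2 ^ lg (PP (x.Sf a.q) x.g₁ a.ν (a.us * a.τ)) := by positivity
  have hPp : 0 < P := lt_of_lt_of_le d0 l3
  have n6 := nmpos hx.hs.hu.ne_zero
  have n7 := nmpos hx.hs.hw.ne_zero
  have n8 := nmpos hx.g.ne_zero
  have n9 := nmpos hx.h.ne_zero
  rw [e1, e2, e4]
  constructor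
  · refine div_le_div_of_nonneg_left hV.le (by positivity) ?_
    calc (nm x.c₀ : ℝ) * (2 ^ lg (PP (x.Sf a.q) x.g₁ a.ν (a.us * a.τ)) *
        (2 ^ lg a.h * 2 ^ lg a.u)) * ((nm x.g₂ : ℝ) * (2 ^ lg a.w * (2 ^ lg a.g * 2 ^ nδ))) ^ 2
        ≤ (nm x.c₀ : ℝ) * (P * (nm a.h * nm a.u)) *
          ((nm x.g₂ : ℝ) * (nm a.w * (nm a.g * 2 ^ nδ))) ^ 2 := by gcongr
      _ = _ := by ring
  · rw [← mul_div_assoc, div_le_div_iff₀ (by positivity) (by positivity)]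
    calc x.V * (nm x.c₀ * P * ((nm x.g₂ : ℝ) * (nm a.w * nm a.g)) ^ 2 *
          (nm a.u * nm a.h) * (2 ^ nδ) ^ 2)
        ≤ x.V * (nm x.c₀ * (2 * 2 ^ lg (PP (x.Sf a.q) x.g₁ a.ν (a.us * a.τ))) *
          ((nm x.g₂ : ℝ) * (2 * 2 ^ lg a.w * (2 * 2 ^ lg a.g))) ^ 2 *
          (2 * 2 ^ lg a.u * (2 * 2 ^ lg a.h)) * (2 ^ nδ) ^ 2) := by gcongr
      _ = _ := by ring

lemma K_cmp (hx : XC x a Nα Rw) : Kc x (x.vec a nδ nμ) ≤ 4 * (x.κ / nm a.s ^ 2) := by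
  have l4 := pow_lg_le hx.hs.hs.ne_zero
  have u4 := le_pow_lg a.s
  have n4 := nmpos hx.hs.hs.ne_zero
  have e : Kc x (x.vec a nδ nμ) = x.κ / ((2 : ℝ) ^ lg a.s) ^ 2 := rfl
  rw [e, ← mul_div_assoc, div_le_div_iff₀ (by positivity) (by positivity)]
  have := hx.κ0
  calc x.κ * (nm a.s : ℝ) ^ 2 ≤ x.κ * (2 * 2 ^ lg a.s) ^ 2 := by gcongr
    _ = _ := by ring

lemma Nb_cmp (hx : XC x a Nα Rw) : Nbh x a Nα nδ ≤ 2 * Nbn x Nα (x.vec a nδ nμ) ∧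
    Nbn x Nα (x.vec a nδ nμ) ≤ 8 * Nbh x a Nα nδ := by
  have hN := hx.Nα0
  have g0 := nmpos hx.g2.ne_zero
  have l6 := pow_lg_le hx.hs.hu.ne_zero
  have u6 := le_pow_lg a.u
  have l7 := pow_lg_le hx.hs.hw.ne_zero
  have u7 := le_pow_lg a.w
  have l8 := pow_lg_le hx.g.ne_zero
  have u8 := le_pow_lg a.g
  have l9 := pow_lg_le hx.h.ne_zero
  have u9 := le_pow_lg a.h
  have n6 := nmpos hx.hs.hu.ne_zero
  have n7 := nmpos hx.hs.hw.ne_zero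
  have n8 := nmpos hx.g.ne_zero
  have n9 := nmpos hx.h.ne_zero
  have e1 : Nbh x a Nα nδ = Nα * (nm a.h * nm a.u) / ((nm x.g₂ : ℝ) * (nm a.w * nm a.g) *
      (2 * 2 ^ nδ)) := by
    unfold Nbh
    simp only [nm_mul]
    push_cast
    rfl
  have e2 : Nbn x Nα (x.vec a nδ nμ) = Nα * (2 ^ lg a.h * 2 ^ lg a.u) /
      ((nm x.g₂ : ℝ) * (2 ^ lg a.w * (2 ^ lg a.g * 2 ^ nδ))) := rfl
  rw [e1, e2]
  constructor
  · rw [← mul_div_assoc, div_le_div_iff₀ (by positivity) (by positivity)]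
    calc Nα * (nm a.h * nm a.u) * ((nm x.g₂ : ℝ) * (2 ^ lg a.w * (2 ^ lg a.g * 2 ^ nδ)))
        ≤ Nα * (2 * 2 ^ lg a.h * (2 * 2 ^ lg a.u)) *
          ((nm x.g₂ : ℝ) * (nm a.w * (nm a.g * 2 ^ nδ))) := by gcongr
      _ = _ := by ring
  · rw [← mul_div_assoc, div_le_div_iff₀ (by positivity) (by positivity)]
    calc Nα * (2 ^ lg a.h * 2 ^ lg a.u) * ((nm x.g₂ : ℝ) * (nm a.w * nm a.g) * (2 * 2 ^ nδ))
        ≤ Nα * (nm a.h * nm a.u) *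
          ((nm x.g₂ : ℝ) * (2 * 2 ^ lg a.w * (2 * 2 ^ lg a.g)) * (2 * 2 ^ nδ)) := by gcongr
      _ = _ := by ring

lemma q_cmp (hx : XC x a Nα Rw) : (nk (Qa x a ^ 2) : ℝ) ≤ 8 * qn x (x.vec a nδ nμ) ∧
    8 * qn x (x.vec a nδ nμ) ≤ 16 * x.Y ^ 24 := by
  have hY := hx.Y1
  have e1 := hx.c0
  have e2 := hx.g1.ne_zero
  have e3 := hx.hs.hus.ne_zero
  have e4 := hx.τ.ne_zero
  have e5 := hx.q1.ne_zero
  have e6 := hx.q2.ne_zero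
  have e7 := hx.D.ne_zero
  have e8 := hx.hs.hs.ne_zero
  have hQne : Qa x a ≠ 0 := by
    unfold Qa QQ
    exact mul_ne_zero (mul_ne_zero (mul_ne_zero e1 e2) (mul_ne_zero e3 e4))
      (mul_ne_zero (mul_ne_zero e5 (pow_ne_zero _ e6)) (mul_ne_zero (pow_ne_zero _ e7)
        (pow_ne_zero _ e8)))
  have l4 := pow_lg_le e8
  have u4 := le_pow_lg a.s
  have l5 := pow_lg_le (mul_ne_zero e3 e4)
  have u5 := le_pow_lg (a.us * a.τ)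
  have nk0 := nk_nonneg' (x.q₁ ^ 2)
  have ev : qn x (x.vec a nδ nμ) = ((nm x.c₀ : ℝ) * nm x.g₁) ^ 2 * nk (x.q₁ ^ 2) *
    (nm x.q₂ * nm x.D) * ((2 : ℝ) ^ lg (a.us * a.τ)) ^ 2 * 2 ^ lg a.s := rfl
  rw [ev]
  constructor
  · refine (nk_Qa x a hQne).trans ?_
    calc ((nm x.c₀ : ℝ) * nm x.g₁) ^ 2 * nk (x.q₁ ^ 2) * (nm x.q₂ * nm x.D) *
          (nm (a.us * a.τ) : ℝ) ^ 2 * nm a.s
        ≤ ((nm x.c₀ : ℝ) * nm x.g₁) ^ 2 * nk (x.q₁ ^ 2) * (nm x.q₂ * nm x.D) *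
          (2 * 2 ^ lg (a.us * a.τ)) ^ 2 * (2 * 2 ^ lg a.s) := by gcongr
      _ = _ := by ring
  · have h1 := hx.c0Y
    have h2 := hx.g1Y
    have h3 := hx.q1Y
    have h4 := hx.q2Y
    have h5 := hx.DY
    have h6 : (2 : ℝ) ^ lg (a.us * a.τ) ≤ x.Y ^ 2 := by
      refine l5.trans ?_
      rw [nm_mul]; push_cast
      calc (nm a.us : ℝ) * nm a.τ ≤ x.Y * x.Y :=
            mul_le_mul hx.usY hx.τY (Nat.cast_nonneg _) (by linarith)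
        _ = _ := by ring
    have h7 : (2 : ℝ) ^ lg a.s ≤ 2 * x.Y := by
      refine l4.trans ?_
      have ns := nm_ge_one e8
      have : (nm a.s : ℝ) ≤ nm a.s ^ 2 := le_self_pow₀ ns (by norm_num)
      linarith [hx.s2, hx.κY]
    have hY0 : 0 ≤ x.Y := by linarith
    have h8 : (nk (x.q₁ ^ 2) : ℝ) ≤ x.Y ^ 2 := by
      refine (nk_le_nm (pow_ne_zero 2 e5)).trans ?_
      rw [nm_pow]; push_cast
      exact pow_le_pow_left₀ (Nat.cast_nonneg _) h3 2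
    calc 8 * (((nm x.c₀ : ℝ) * nm x.g₁) ^ 2 * nk (x.q₁ ^ 2) * (nm x.q₂ * nm x.D) *
          (2 ^ lg (a.us * a.τ)) ^ 2 * 2 ^ lg a.s)
        ≤ 8 * ((x.Y * x.Y) ^ 2 * x.Y ^ 2 * (x.Y * x.Y) * (x.Y ^ 2) ^ 2 * (2 * x.Y)) := by gcongr
      _ = 16 * x.Y ^ 13 := by ring
      _ ≤ 16 * x.Y ^ 24 := by
          have := pow_le_pow_right₀ hY (show 13 ≤ 24 by norm_num)
          linarith

end sizes

/-! ### the bound of a cell, numbers of the class -/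

lemma CB4.mono {x : XF} {cw : ℝ} {bm : Eis → ℂ} {k : ℂ} {κ' : Eis → ℂ} {a : Tu} {nδ nμ : ℕ}
    {A0 A1 A2 A3 B0 B1 B2 B3 : ℝ} (hκ : 0 ≤ x.κ) (hnn : ∀ i ∈ x.cell a nδ nμ, 0 ≤ x.nn a i.1)
    (h : CB4 x cw bm k κ' a nδ nμ A0 A1 A2 A3) (h0 : A0 ≤ B0) (h1 : A1 ≤ B1) (h2 : A2 ≤ B2)
    (h3 : A3 ≤ B3) : x.CB4 cw bm k κ' a nδ nμ B0 B1 B2 B3 := by
  unfold CB4 at h
  unfold XF.CB4
  refine h.trans (mul_le_mul_of_nonneg_left (Finset.sum_le_sum fun i hi => ?_) (by positivity))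
  unfold gb4 XF.gb4
  have hn := hnn i hi
  have t0 : 0 ≤ TD (cw * x.nn a i.1) (x.Rr a i) (x.cf a i.1) := TD_nonneg _ _ _
  have t1 := E3q681.TW_nonneg 1 (cw * x.nn a i.1) (x.cf a i.1)
  have t2 := E3q681.TW_nonneg (1 / 2) (cw * x.nn a i.1) (x.cf a i.1)
  have e0 : E3q681.TD (cw * x.nn a i.1) (Ri x a i) (x.cf a i.1) =
      TD (cw * x.nn a i.1) (x.Rr a i) (x.cf a i.1) := rfl
  rw [e0]
  refine mul_le_mul_of_nonneg_left ?_ (by positivity)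
  gcongr

variable {OK : ℝ → ℝ → Eis → Set Tst → Prop} {G : Eis → Prop} {ψ χ : Eis → ℂ} {w1 : ℝ → ℝ}
  {h : ℝ → ℝ}

/-- **the bound of a cell**, the numbers of the class -/
theorem cell_cls (hOK : OKW OK) (hχ : Mul1 χ) (hw1W : Wgt w1)
    (hP : PoHWp OK nfo G ψ χ (w6 w1)) {Rw : ℝ} (hRw : 0 ≤ Rw) (aS A : ℕ) (hA : 1 < A) {R₀ : ℝ}
    (hR₀ : 0 ≤ R₀) (hh : ContDiff ℝ ∞ h) (hhc : HasCompactSupport h)
    (hw : ∀ x, w1 x ≠ 0 → 0 < x ∧ |Real.log x| ≤ R₀)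
    (hw1 : ∀ x, 0 < x → h (Real.log x) ≠ 0 → w1 x = 1) {ε : ℝ} (hε : 0 < ε) :
    ∃ (C c cw : ℝ) (A' : ℕ), 0 ≤ C ∧ 1 ≤ c ∧ 1 ≤ cw ∧ 1 < A' ∧
      ∀ (x : XF) (a : Tu) (bm κ' : Eis → ℂ) (k : ℂ) (nδ nμ : ℕ) (Nα L W1 Mo τ₀ τg : ℝ)
        (Om₀ : ℝ → ℂ), XC x a Nα Rw → (∀ y, IsPrim y → x.g₀ y = χ y * pw τg (nm y)) →
        (∀ t, 0 < t → x.Om t = ((h (Real.log t - Real.log x.V) : ℝ) : ℂ) *
          (Om₀ (Real.log t) * pw τ₀ t)) → ContDiff ℝ ∞ Om₀ →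
        (∀ n ≤ A' + 2, ∀ u, ‖iteratedDeriv n Om₀ u‖ ≤ Mo) → 0 ≤ Mo → 0 < L → 0 ≤ W1 →
        (∀ i ∈ x.cell a nδ nμ, x.cz bm k κ' a i ≠ 0 →
          (1 ≤ L → 8 * (L * Real.exp Rw) < Nbn x Nα (x.vec a nδ nμ) ∧
            RXk (a.h * a.u) OK ψ aS A c (Zc R₀ x.Y ^ 3) (Nb0 x a Nα i.1)
              (2048 * (Nbn x Nα (x.vec a nδ nμ) * L / x.Nn (x.vec a nδ nμ))) (x.Rr a i) 1
              (cb x a i.1) W1) ∧
          GXk (a.h * a.u) G (x.Rr a i) (cb x a i.1)) →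
        x.CB4 cw bm k κ' a nδ nμ
          (AA x (C * x.Y ^ ε * ((1 + |τg - τ₀|) ^ A' * Mo ^ 2)) Nα L W1 (x.vec a nδ nμ) 0)
          (AA x (C * x.Y ^ ε * ((1 + |τg - τ₀|) ^ A' * Mo ^ 2)) Nα L W1 (x.vec a nδ nμ) 1)
          (AA x (C * x.Y ^ ε * ((1 + |τg - τ₀|) ^ A' * Mo ^ 2)) Nα L W1 (x.vec a nδ nμ) 2)
          (AA x (C * x.Y ^ ε * ((1 + |τg - τ₀|) ^ A' * Mo ^ 2)) Nα L W1 (x.vec a nδ nμ) 3) := by
  obtain ⟨C, c, cw, A', hC, hc, hcw, hA', hcell⟩ := cell_XB hOK hχ hw1W hP hRw aS A hA hR₀ hh hhc hw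
    hw1 hε
  refine ⟨C * 1728, c, cw, A', by positivity, hc, hcw, hA', ?_⟩
  intro x a bm κ' k nδ nμ Nα L W1 Mo τ₀ τg Om₀ hx hg hOm hOmC hOmB hMo hL hW1 hRX
  have hY1 := hx.Y1
  have hY0 : 0 < x.Y := by linarith
  by_cases hne : (x.cell a nδ nμ).Nonempty
  swap
  · rw [Finset.not_nonempty_iff_eq_empty] at hne
    unfold XF.CB4 AQ
    rw [hne]
    simp
  obtain ⟨i₀, hi₀⟩ := hne
  have f0 := cell_FI hx hi₀
  have hF := FF_ne f0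
  have hPP : PP (x.Sf a.q) x.g₁ a.ν (a.us * a.τ) ≠ 0 := by
    intro h0
    apply hF
    unfold XF.FFa
    rw [E4zz92.FF_eq, h0, mul_zero]
  set n := x.vec a nδ nμ with hn
  obtain ⟨n1, n2⟩ := Nh_cmp hx f0 hPP
  obtain ⟨b1, b2⟩ := Nb_cmp (nδ := nδ) (nμ := nμ) hx
  obtain ⟨q1, q2⟩ := q_cmp (nδ := nδ) (nμ := nμ) hx
  have k1 := K_cmp (nδ := nδ) (nμ := nμ) hx
  rw [← hn] at n1 n2 b1 b2 q1 q2 k1
  have hVp := Vp_pos hx hF
  have hNh : 0 < Nh x a nδ := by unfold Nh; positivity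
  have hNn : 0 < x.Nn n := by linarith
  have hNb := Nbn_pos hx.Nα0 hx.g2.ne_zero n
  have hKc := Kc_pos hx.κ0 n
  have hq := qn_nonneg x n
  have hm := mn_pos n
  have hmn : (2 : ℝ) ^ nδ * 2 ^ nμ = mn n := rfl
  have hmain := hcell x a bm κ' k nδ nμ Nα (8 * qn x n) L W1 Mo τ₀ τg Om₀ hx hg hOm hOmC hOmB hMo hL
    hW1 (by positivity) (fun i hi hz => by
      obtain ⟨g1, g2⟩ := hRX i hi hz
      refine ⟨q1, q2, fun h1L => ?_, g2⟩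
      obtain ⟨g3, g4⟩ := g1 h1L
      refine ⟨by linarith, RXk.mono g4 ?_⟩
      calc 8 * Nbh x a Nα nδ * L / Nh x a nδ ≤ 8 * (2 * Nbn x Nα n) * L / (x.Nn n / 128) := by
            have : x.Nn n / 128 ≤ Nh x a nδ := by linarith
            gcongr
        _ = _ := by field_simp; ring)
  set E₀ : ℝ := C * x.Y ^ ε * ((1 + |τg - τ₀|) ^ A' * Mo ^ 2) with hE₀
  have hE₀0 : 0 ≤ E₀ := by positivity
  have eE : C * 1728 * x.Y ^ ε * ((1 + |τg - τ₀|) ^ A' * Mo ^ 2) = 1728 * E₀ := by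
    rw [hE₀]; ring
  rw [eE]
  refine CB4.mono hx.κ0.le (fun i hi => by linarith [(cell_FI hx hi).nn]) hmain ?_ ?_ ?_ ?_
  · show E₀ ≤ 1728 * E₀
    linarith
  · show _ ≤ 1728 * E₀ * _
    have := A1_cmp (L := L) (m₀ := mn n) hKc hNh hNn hq hL hm k1 n1 n2
    rw [hmn]
    calc _ ≤ E₀ * (1728 * _) := mul_le_mul_of_nonneg_left this hE₀0
      _ = _ := by ring
  · show _ ≤ 1728 * E₀ * _
    have := A2_cmp (L := L) hKc hNh hNn hq hL k1 n1 n2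
    calc _ ≤ E₀ * (1728 * _) := mul_le_mul_of_nonneg_left this hE₀0
      _ = _ := by ring
  · show _ ≤ 1728 * E₀ * _
    have := A3_cmp (L := L) hKc hNh hq hL hW1 hNb k1 n1 b2
    calc _ ≤ E₀ * (1728 * _) := mul_le_mul_of_nonneg_left this hE₀0
      _ = _ := by ring

/-! ### the field `cell` of `XF.HCF` -/

/-- the sizes of the data -/
structure XS (x : XF) (Nα Rw : ℝ) : Prop where
  c0Y : (nm x.c₀ : ℝ) ≤ x.Y
  M0 : x.M ≠ 0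
  MY : (nm x.M : ℝ) ≤ x.Y
  q1Y : (nm x.q₁ : ℝ) ≤ x.Y
  q2Y : (nm x.q₂ : ℝ) ≤ x.Y
  DY : (nm x.D : ℝ) ≤ x.Y
  q : x.q ≠ 0
  qY : (nm x.q : ℝ) ≤ x.Y
  αY : ∀ n, x.α n ≠ 0 → (nm n : ℝ) ≤ x.Y
  αW : Win x.α (Real.log Nα) Rw
  Nα0 : 0 < Nα
  NαY : Nα ≤ x.Y

section field

variable {x : XF} {cw : ℝ} {OO : Finset (Eis × Eis)} {v' bm : Eis × Eis → Eis → ℂ}
  {kk : Eis × Eis → ℂ} {κ' : Eis × Eis → Eis → ℂ} {qc : Eis → Eis} {Mb Ek Nα Rw : ℝ}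

/-- the sizes of a tuple of the total -/
lemma XC_of (H : x.HO cw OO v' bm kk κ' qc Mb Ek) (hS : XS x Nα Rw) {o : Eis × Eis} (ho : o ∈ OO)
    {s τ g h : Eis} (hs : s ∈ Ss x.M x.κ) (hτ : τ ∈ dvs (rd o.1)) (hg : g ∈ S x.Y) (hh : h ∈ S x.Y)
    (hd : ∃ us u w, OKs x.R s o.1 us u w) : XC x (x.tu qc o s τ g h 1) Nα Rw := by
  have hx := H.ok
  have hY : 0 ≤ x.Y := by linarith [hx.Y1]
  obtain ⟨o1, o2, o3, o4⟩ := H.o1 o ho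
  obtain ⟨p1, p2, p3, p4, p5⟩ := H.oq o ho
  obtain ⟨us, u, w, hd0⟩ := hd
  have hd' := dsf_spec hd0
  have e1 : x.Sf (x.tu qc o s τ g h 1).q = o.1 := p3
  have hτp : IsPrim τ := isPrim_of_mem_dvs hτ
  have hτd := (dvd_rd o1.ne_zero hτp).mp (dvd_of_mem_dvs hτ)
  obtain ⟨s1, s2, s3, s4⟩ := mem_Ss hs
  have hus : (dsf x.R s o.1).1 ∣ o.1 :=
    E4zz92.dvd_of_primes hd'.huq.of_mul_left hd'.husS
  have hτo : τ ∣ o.1 := E4zz92.dvd_of_primes hτd.1 hτd.2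
  have ns : (0 : ℝ) ≤ nm s := Nat.cast_nonneg _
  exact {
    Y1 := hx.Y1, V0 := hx.V0, VY := hx.VY, κ0 := H.κ0, κY := H.κY, X0 := H.X0, XY := H.XY
    c0 := hx.c0, c0Y := hS.c0Y, M0 := hS.M0, MY := hS.MY, g1 := hx.g₁, g1Y := hx.gY, g2 := hx.g₂
    q1 := H.q1, q1Y := hS.q1Y, q2 := H.q2, q2Y := hS.q2Y, D := H.D, DY := hS.DY, q := hS.q
    qY := hS.qY, α := hx.α, αY := hS.αY, αW := hS.αW, Nα0 := hS.Nα0, NαY := hS.NαY
    S := by rw [e1]; exact o1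
    SY := by rw [e1]; exact o3
    ν := o2
    νY := o4
    hs := by rw [e1]; exact hd'
    usY := by
      refine le_trans ?_ o3
      exact_mod_cast Div277.nm_le_of_dvd o1.ne_zero hus
    τ := hτp
    τY := by
      refine le_trans ?_ o3
      exact_mod_cast Div277.nm_le_of_dvd o1.ne_zero hτo
    g := ((mem_S hY).1 hg).2.1
    h := ((mem_S hY).1 hh).2.1
    hY := ((mem_S hY).1 hh).1
    s2 := by
      show (nm s : ℝ) ^ 2 ≤ 2 * x.κ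
      have h1 : (nm s : ℝ) ^ 2 ≤ (Real.sqrt (2 * x.κ)) ^ 2 := pow_le_pow_left₀ ns s4 2
      rwa [Real.sq_sqrt (by have := H.κ0; positivity)] at h1 }

end field

/-- **the field `cell` of `XF.HCF`** -/
theorem cell_field (hOK : OKW OK) (hχ : Mul1 χ) (hw1W : Wgt w1)
    (hP : PoHWp OK nfo G ψ χ (w6 w1)) {Rw : ℝ} (hRw : 0 ≤ Rw) (aS A : ℕ) (hA : 1 < A) {R₀ : ℝ}
    (hR₀ : 0 ≤ R₀) (hh : ContDiff ℝ ∞ h) (hhc : HasCompactSupport h)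
    (hw : ∀ x, w1 x ≠ 0 → 0 < x ∧ |Real.log x| ≤ R₀)
    (hw1 : ∀ x, 0 < x → h (Real.log x) ≠ 0 → w1 x = 1) {ε : ℝ} (hε : 0 < ε) :
    ∃ (C c cw : ℝ) (A' : ℕ), 0 ≤ C ∧ 1 ≤ c ∧ 1 ≤ cw ∧ 1 < A' ∧
      ∀ (x : XF) (OO : Finset (Eis × Eis)) (v' bm : Eis × Eis → Eis → ℂ) (kk : Eis × Eis → ℂ)
        (κ' : Eis × Eis → Eis → ℂ) (qc : Eis → Eis) (Mb Ek Nα Mo τ₀ τg : ℝ) (Om₀ : ℝ → ℂ)
        (L W1 : (Fin 12 → ℕ) → ℝ) (Cl : Tu → Prop) (Ps : Eis → Prop),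
        x.HO cw OO v' bm kk κ' qc Mb Ek → XS x Nα Rw →
        (∀ y, IsPrim y → x.g₀ y = χ y * pw τg (nm y)) →
        (∀ t, 0 < t → x.Om t = ((h (Real.log t - Real.log x.V) : ℝ) : ℂ) *
          (Om₀ (Real.log t) * pw τ₀ t)) → ContDiff ℝ ∞ Om₀ →
        (∀ n ≤ A' + 2, ∀ u, ‖iteratedDeriv n Om₀ u‖ ≤ Mo) → 0 ≤ Mo →
        (∀ n, 0 < L n) → (∀ n, 0 ≤ W1 n) →
        (∀ o ∈ OO, ∀ s ∈ Ss x.M x.κ, Ps s → ∀ τ ∈ dvs (rd o.1), ∀ g ∈ S x.Y, ∀ h ∈ S x.Y,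
          Cl (x.tu qc o s τ g h 1) → ∃ us u w, OKs x.R s o.1 us u w) →
        (∀ o ∈ OO, ∀ s ∈ Ss x.M x.κ, Ps s → ∀ τ ∈ dvs (rd o.1), ∀ g ∈ S x.Y, ∀ h ∈ S x.Y,
          ∀ a : Tu, a = x.tu qc o s τ g h 1 → Cl a → XC x a Nα Rw → ∀ nδ nμ : ℕ,
          ∀ i ∈ x.cell a nδ nμ, x.cz (bm o) (kk o) (κ' o) a i ≠ 0 →
          (1 ≤ L (x.vec a nδ nμ) →
            8 * (L (x.vec a nδ nμ) * Real.exp Rw) < Nbn x Nα (x.vec a nδ nμ) ∧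
            RXk (a.h * a.u) OK ψ aS A c (Zc R₀ x.Y ^ 3) (Nb0 x a Nα i.1)
              (2048 * (Nbn x Nα (x.vec a nδ nμ) * L (x.vec a nδ nμ) / x.Nn (x.vec a nδ nμ)))
              (x.Rr a i) 1 (cb x a i.1) (W1 (x.vec a nδ nμ))) ∧
          GXk (a.h * a.u) G (x.Rr a i) (cb x a i.1)) →
        ∀ o ∈ OO, ∀ s ∈ Ss x.M x.κ, Ps s → ∀ τ ∈ dvs (rd o.1), ∀ g ∈ S x.Y, ∀ h ∈ S x.Y,
          ∀ a : Tu, a = x.tu qc o s τ g h 1 → Cl a → ∀ nδ nμ : ℕ,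
          x.CB4 cw (bm o) (kk o) (κ' o) a nδ nμ
            (AA x (C * x.Y ^ ε * ((1 + |τg - τ₀|) ^ A' * Mo ^ 2)) Nα (L (x.vec a nδ nμ))
              (W1 (x.vec a nδ nμ)) (x.vec a nδ nμ) 0)
            (AA x (C * x.Y ^ ε * ((1 + |τg - τ₀|) ^ A' * Mo ^ 2)) Nα (L (x.vec a nδ nμ))
              (W1 (x.vec a nδ nμ)) (x.vec a nδ nμ) 1)
            (AA x (C * x.Y ^ ε * ((1 + |τg - τ₀|) ^ A' * Mo ^ 2)) Nα (L (x.vec a nδ nμ))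
              (W1 (x.vec a nδ nμ)) (x.vec a nδ nμ) 2)
            (AA x (C * x.Y ^ ε * ((1 + |τg - τ₀|) ^ A' * Mo ^ 2)) Nα (L (x.vec a nδ nμ))
              (W1 (x.vec a nδ nμ)) (x.vec a nδ nμ) 3) := by
  obtain ⟨C, c, cw, A', hC, hc, hcw, hA', hcell⟩ := cell_cls hOK hχ hw1W hP hRw aS A hA hR₀ hh hhc hw
    hw1 hε
  refine ⟨C, c, cw, A', hC, hc, hcw, hA', ?_⟩
  intro x OO v' bm kk κ' qc Mb Ek Nα Mo τ₀ τg Om₀ L W1 Cl Ps H hS hg hOm hOmC hOmB hMo hL hW1 hdec hRX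
    o ho s hs hPs τ hτ g hg' h' hh' a ha hCl nδ nμ
  have hXC : XC x a Nα Rw := by
    rw [ha]
    rw [ha] at hCl
    exact XC_of H hS ho hs hτ hg' hh' (hdec o ho s hs hPs τ hτ g hg' h' hh' hCl)
  exact hcell x a (bm o) (κ' o) (kk o) nδ nμ Nα (L (x.vec a nδ nμ)) (W1 (x.vec a nδ nμ)) Mo τ₀ τg
    Om₀ hXC hg hOm hOmC hOmB hMo (hL _) (hW1 _)
    (hRX o ho s hs hPs τ hτ g hg' h' hh' a ha hCl hXC nδ nμ)

end Crest.Agent.R017.E4Xb681
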