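import Crest.Agent.R017.E4zj_92

/-!
# Row 17, block C70, leaf E4 (x-side): the total over a block (helper92)

* `hcr_of` : the hypotheses `XF.HCR`
* `xclass` : **the moments of a block of the structured `x`-side**
-/

set_option autoImplicit false
set_option linter.unusedVariables false
set_option linter.unusedSimpArgs false
set_option maxHeartbeats 400000

noncomputable section

open Finset

namespace Crest.Agent.R017.E4zg92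

open Crest.Agent.R012 Crest.Agent.R012.Eis Crest.Agent.R012.Mob705
open Crest.Agent.R012.LS2 (S mem_S)
open Crest.Agent.R012.Div277 (dvs mem_dvs isPrim_of_mem_dvs dvd_of_mem_dvs nm_le_of_dvd tau
  tau_le_rpow)
open Crest.Agent.R017.Sx545 (Sm)
open Crest.Agent.R017.C70 (CbF JC)
open Crest.Agent.R017.E4352 (PrI rd dvd_rd)
open Crest.Agent.R017.GrB829 (IsC)
open Crest.Agent.R017.E4579 (SupB bpt bco bpt_prim bco_prim bpt_mul_bco bpt_sup bco_cop)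
open Crest.Agent.R017.E4v92 (FF AA AA_spec)
open Crest.Agent.R017.E4z92 (OKs Ss mem_Ss)
open Crest.Agent.R017.E4zc92
open Crest.Agent.R017.E4RG858 (fm pow_dvd_iff dvd_iff_mult mult_mul mult_pow mult_eq_zero fac)
open Crest.Agent.R017.Str699 (b3 mult_sqf mult_JC mult_isC mult_self pS_prim ppSet_pp isC_ne)
open Crest.Agent.R017.E4U164 (pS)
open Crest.Agent.R017.E4zf92 (PC)
open Crest.Agent.R017.E4F266 (IP IP_mem)
open Crest.Agent.R017.E4zz92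
open Crest.Agent.R017.E4X92

open Classical in
/-- the first parts of the outer parameters -/
def _root_.Crest.Agent.R017.E4zc92.XD.Bs (d : XD) (β₀ : Eis) : Finset Eis :=
  (dvs d.x.F0).image (fun e => e * β₀)

/-- **the cells** (helper681, helper770) -/
def Cells (d : XD) (cw : ℝ) (OO : Finset (Eis × Eis)) (bm : Eis × Eis → Eis → ℂ)
    (A : Fin 4 → (Fin 12 → ℕ) → Eis × Eis → ℝ) (s₁ : Eis) : Prop :=
  ∀ o ∈ OO, ∀ s ∈ Ss d.x.M d.x.κ, PsF d.x.F0 s₁ s → ∀ τ ∈ dvs (rd o.1), ∀ g ∈ S d.x.Y,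
    ∀ h ∈ S d.x.Y, ∀ a : Tu, a = d.x.tu d.qc o s τ g h 1 → ClS d.x d.P s₁ a → ∀ nδ nμ : ℕ,
    d.x.CB4 cw (bm o) (d.kk o) (d.κ' o) a nδ nμ
      (A 0 (d.x.vec a nδ nμ) (d.x.ky d.Kf a nδ nμ)) (A 1 (d.x.vec a nδ nμ) (d.x.ky d.Kf a nδ nμ))
      (A 2 (d.x.vec a nδ nμ) (d.x.ky d.Kf a nδ nμ)) (A 3 (d.x.vec a nδ nμ) (d.x.ky d.Kf a nδ nμ))

/-- **the numbers of the classes** (helper842) -/
def Phis (d : XD) (cw Mb Ek Bm Bo Bo' : ℝ) (m : Fin 2 → Fin 3 → ℕ) (β₀ s₁ : Eis)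
    (A : Fin 4 → (Fin 12 → ℕ) → Eis × Eis → ℝ) (S₁ : ℝ) : Prop :=
  ∀ (n : Fin 12 → ℕ) (k : Eis × Eis) (nus nR nU : ℕ),
    Rel m (lg d.g₁) (lg (rrk 1 d.Pr)) (lg (rrk 2 d.Pr)) (lg s₁) n nus nR nU →
    KRel m β₀ n k → d.Pr = rrk 1 d.Pr * rrk 2 d.Pr ^ 2 → 1 / 2 ≤ d.x.Nn n →
    ((2 : ℝ) ^ n 4) ^ 2 ≤ 2 * d.κ → (2 : ℝ) ^ (n 8 + n 9 + n 11) ≤ Bm →
    (2 : ℝ) ^ (n 0 + n 1) ≤ Bo → Bo' ≤ (2 : ℝ) ^ (n 0 + n 1 + 2) →
    d.x.PhiR cw Mb Ek A (YsC d.g₁ m) n k ≤ S₁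

section inst

variable {d : XD} {OO : Finset (Eis × Eis)} {m : Fin 2 → Fin 3 → ℕ} {β₀ s₁ : Eis} {cw : ℝ}
  {bm : Eis × Eis → Eis → ℂ} {Mb Ek Bm Bo Bo' : ℝ} {A : Fin 4 → (Fin 12 → ℕ) → Eis × Eis → ℝ} {S₁ : ℝ}

lemma F0_ne (h : d.OK) : d.x.F0 ≠ 0 := ((h.g.mul h.e₀).mul h.t).ne_zero

open Classical in
/-- the facts on the tuples: the key -/
lemma key_facts (C : XC d OO m β₀) {o : Eis × Eis} (hm : o ∈ OO) {s τ g h : Eis} {a : Tu}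
    (ha : a = d.x.tu d.qc o s τ g h 1) (nδ nμ : ℕ) :
    IsPrim (Ak (d.x.ky d.Kf a nδ nμ)) ∧ d.x.ky d.Kf a nδ nμ ∈ d.Ad ∧
      Ak (d.x.ky d.Kf a nδ nμ) ∣ PP (d.x.Sf a.q) d.x.g₁ a.ν (a.us * a.τ) := by
  have hF0 := F0_ne C.h
  have hY := C.h.Y1
  have e1 : d.x.Sf a.q = o.1 := by rw [ha]; exact (qc_spec C.ho hm).2
  have e2 : a.ν = o.2 := by rw [ha]; rfl
  obtain ⟨h1, h2⟩ := qc_spec C.ho hm
  obtain ⟨h3, h4⟩ := C.h.Q _ h1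
  obtain ⟨h5, h6, h7⟩ := sf_facts C.h h3
  have eq : a.q = d.qc o.1 := by rw [ha]; rfl
  by_cases hT : TF (d.sf a.q) d.c₀ d.g₁ a.ν (a.us * a.τ)
  · have ek : d.x.ky d.Kf a nδ nμ = (pS 0 1 (d.sf a.q) (FF (d.sf a.q) d.c₀ d.g₁ a.ν (a.us * a.τ)) *
        pS 0 2 (d.sf a.q) (FF (d.sf a.q) d.c₀ d.g₁ a.ν (a.us * a.τ)) ^ 2,
        bco (d.sf a.q) a.ν * pS 1 2 (d.sf a.q) (FF (d.sf a.q) d.c₀ d.g₁ a.ν (a.us * a.τ))) := by
      unfold XF.ky XD.Kf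
      rw [if_pos hT]
    rw [ek]
    have q0 : ∀ b c, IsPrim (pS b c (d.sf a.q) (FF (d.sf a.q) d.c₀ d.g₁ a.ν (a.us * a.τ))) :=
      fun b c => pS_prim b c _ _
    have hco := bco_prim hT.hS hT.hν
    refine ⟨((q0 0 1).mul ((q0 0 2).pow 2)).mul ((hco.mul (q0 1 2)).pow 2), ?_, hT.Ak_dvd⟩
    unfold XD.Ad
    rw [mem_product]
    rw [← eq] at h6 h7
    refine ⟨mem_image.mpr ⟨(pS 0 1 (d.sf a.q) (FF (d.sf a.q) d.c₀ d.g₁ a.ν (a.us * a.τ)),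
      pS 0 2 (d.sf a.q) (FF (d.sf a.q) d.c₀ d.g₁ a.ν (a.us * a.τ))), mem_product.mpr
        ⟨(mem_dvs hF0).mpr ⟨q0 0 1, pS0_dvd hT.hS h6 h7 1⟩,
          (mem_dvs hF0).mpr ⟨q0 0 2, pS0_dvd hT.hS h6 h7 2⟩⟩, rfl⟩,
      mem_primBall.mpr ⟨Nat.le_floor ?_, hco.mul (q0 1 2)⟩⟩
    have k1 : (nm (bco (d.sf a.q) a.ν) : ℝ) ≤ d.Y := by
      refine le_trans ?_ (C.ho.νY o hm)
      rw [← e2]
      exact_mod_cast nm_le_of_dvd hT.hν.ne_zero (bco_dvd' hT.hS hT.hν)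
    have k2 : (nm (pS 1 2 (d.sf a.q) (FF (d.sf a.q) d.c₀ d.g₁ a.ν (a.us * a.τ))) : ℝ) ≤ d.Y := by
      refine le_trans ?_ (C.ho.SY o hm)
      rw [← e1]
      exact_mod_cast nm_le_of_dvd hT.hS.ne_zero (pS_dvd' hT.hS 1 2)
    rw [nm_mul, pow_two]
    push_cast
    gcongr
  · have ek : d.x.ky d.Kf a nδ nμ = (1, 1) := by
      unfold XF.ky XD.Kf
      rw [if_neg hT]
    rw [ek]
    have e3 : Ak ((1 : Eis), (1 : Eis)) = 1 := by unfold Ak; norm_num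
    rw [e3]
    refine ⟨isPrim_one, ?_, one_dvd _⟩
    unfold XD.Ad
    rw [mem_product]
    refine ⟨mem_image.mpr ⟨(1, 1), mem_product.mpr ⟨(mem_dvs hF0).mpr ⟨isPrim_one, one_dvd _⟩,
      (mem_dvs hF0).mpr ⟨isPrim_one, one_dvd _⟩⟩, by norm_num⟩,
      mem_primBall.mpr ⟨Nat.le_floor ?_, isPrim_one⟩⟩
    rw [nm_one]
    have : (1 : ℝ) ≤ d.Y ^ 2 := one_le_pow₀ hY
    exact_mod_cast this

/-- **the relations of a tuple with a nonzero coefficient** -/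
theorem rel_of (C : XC d OO m β₀) (hs₁ : IsPrim s₁) {o : Eis × Eis} (hm : o ∈ OO)
    {s τ g h : Eis} (hs : s ∈ Ss d.x.M d.x.κ) (hτ : τ ∈ dvs (rd o.1)) (hg : g ∈ S d.x.Y)
    (hh : h ∈ S d.x.Y) (hbm : ∀ k, bm o k ≠ 0 → (nm k : ℝ) ≤ Bm)
    {a : Tu} (ha : a = d.x.tu d.qc o s τ g h 1) (hc : ClS d.x d.P s₁ a)
    {i : Eis × Eis} (hi : i ∈ d.x.gd a) (hco : IsCoprime a.us a.τ)
    (hcz : d.x.cz (bm o) (d.kk o) (d.κ' o) a i ≠ 0)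
    (H : d.x.HO cw OO (vC d.x d.P d.kk d.κ') bm d.kk d.κ' d.qc Mb Ek) :
    TF (d.x.Sf a.q) d.c₀ d.g₁ a.ν (a.us * a.τ) ∧
    PC m (d.x.Sf a.q) (FF (d.x.Sf a.q) d.c₀ d.g₁ a.ν (a.us * a.τ)) ∧
    (∃ nus nR nU, Rel m (lg d.g₁) (lg (rrk 1 d.Pr)) (lg (rrk 2 d.Pr)) (lg s₁)
      (d.x.vec a (lg i.1) (lg i.2)) nus nR nU) ∧
    d.Pr = rrk 1 d.Pr * rrk 2 d.Pr ^ 2 ∧ 1 / 2 ≤ d.x.Nn (d.x.vec a (lg i.1) (lg i.2)) ∧
    ((2 : ℝ) ^ lg a.s) ^ 2 ≤ 2 * d.κ ∧ (2 : ℝ) ^ (lg a.g + lg a.h + lg i.2) ≤ Bm := by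
  obtain ⟨hcl, hps⟩ := hc
  obtain ⟨z1, z2⟩ := cz_eY hcz
  have hT := tf_of C hm hτ ha hcl hco z1 z2
  have e1 : d.x.Sf a.q = o.1 := by rw [ha]; exact (qc_spec C.ho hm).2
  have es : a.s = s := by rw [ha]; rfl
  have eg : a.g = g := by rw [ha]; rfl
  have eh : a.h = h := by rw [ha]; rfl
  have eq : a.q = d.qc o.1 := by rw [ha]; rfl
  obtain ⟨⟨us, u, w, hs0⟩, h1, h2⟩ := hcl
  have hs' := dsf_spec hs0
  have hO : OKs d.Pr a.s (d.x.Sf a.q) a.us a.u a.w := by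
    have e4 : dsf d.x.R a.s (d.x.Sf a.q) = (a.us, a.u, a.w) := by
      rw [e1]
      rw [ha]
      rfl
    rw [e4] at hs'
    exact hs'
  obtain ⟨hsp, hsq, -, hsκ⟩ := mem_Ss hs
  rw [← es] at hsp hsq hsκ
  have hRp : IsPrim d.Pr := C.h.R.1
  have hRS : IsCoprime d.Pr (d.x.Sf a.q) := by rw [e1]; exact C.R o hm
  have hPC : PC m (d.x.Sf a.q) (FF (d.x.Sf a.q) d.c₀ d.g₁ a.ν (a.us * a.τ)) := by
    have h3 := h1
    rw [C.P] at h3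
    exact h3
  obtain ⟨⟨r1, r2⟩, ⟨r3, r4, r5⟩, ⟨r6, r7⟩, r8, r9⟩ := rel_P hT hPC
  have q1 := sR_prim d.Pr a.s
  have q2 := sU_prim d.Pr (d.x.Sf a.q) a.s
  have w1 := congrArg nm (oks_w hO hRp hsq hRS)
  have w2 := congrArg nm (oks_u hO hRp hsq hRS)
  have w3 := congrArg nm (oks_s hO hRp hsq hRS)
  simp only [nm_mul] at w1 w2 w3
  have hPr1 := rrk_prim 1 d.Pr
  have hPr2 := rrk_prim 2 d.Pr
  have lw := lo_lg hO.hw.ne_zero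
  have uw := up_lg a.w
  have lu := lo_lg hO.hu.ne_zero
  have uu := up_lg a.u
  have ls := lo_lg hsp.ne_zero
  have us' := up_lg a.s
  have lus := lo_lg hO.hus.ne_zero
  have uus := up_lg a.us
  have lR := lo_lg q1.ne_zero
  have uR := up_lg (sR d.Pr a.s)
  have lU := lo_lg q2.ne_zero
  have uU := up_lg (sU d.Pr (d.x.Sf a.q) a.s)
  have l1 := lo_lg hPr1.ne_zero
  have u1 := up_lg (rrk 1 d.Pr)
  have l2 := lo_lg hPr2.ne_zero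
  have u2 := up_lg (rrk 2 d.Pr)
  rw [w1] at lw uw
  rw [w3] at ls us'
  have c1 := lo_up lw (u2.mul uR)
  have c2 := lo_up (l2.mul lR) uw
  have c3 := lo_up ls (uus.mul (uR.mul uU))
  have c4 := lo_up (lus.mul (lR.mul lU)) us'
  have c5 : Up (nm a.u * nm (sR d.Pr a.s)) _ := uu.mul uR
  have c6 : Lo (nm a.u * nm (sR d.Pr a.s)) _ := lu.mul lR
  rw [w2] at c5 c6
  have c7 := lo_up (l1.mul lU) c5
  have c8 := lo_up c6 (u1.mul uU)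
  have c9 : lg (sR d.Pr a.s) ≤ lg (rrk 1 d.Pr) := by
    unfold lg
    exact Nat.log_mono_right (nm_le_of_dvd hPr1.ne_zero (sR_dvd hO hRp hsq hRS))
  have c10 : lg a.us ≤ lg (a.us * a.τ) := by
    unfold lg
    exact Nat.log_mono_right (nm_le_of_dvd hT.hσ.ne_zero (dvd_mul_right _ _))
  obtain ⟨k1, k2⟩ := qc_spec C.ho hm
  obtain ⟨k3, k4⟩ := C.h.Q _ k1
  obtain ⟨k5, k6, k7⟩ := sf_facts C.h k3
  rw [← eq] at k3 k4 k6 k7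
  have d1 := us_dvd hT hO hRp hsq hRS k3 k4 k6 k7 (fun p hp hd hF => hps hsp hsq p hp hd hF)
  have c11 : lg a.us ≤ lg s₁ + m 1 2 + 1 := by
    have h3 := nm_le_of_dvd (mul_ne_zero hs₁.ne_zero (pS_prim _ _ _ _).ne_zero) d1
    rw [nm_mul] at h3
    have h4 : Up (nm a.us) (lg s₁ + 1 + (m 1 2 + 1)) :=
      lt_of_le_of_lt h3 ((up_lg s₁).mul (hPC 1 2).2)
    have := lo_up lus h4
    omega
  -- the length
  have hoky := oky_of H hm hs hτ hg hh (by rw [← es, ← e1]; exact hs') (by rw [← ha]; exact hi)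
    (by
      have : (dsf d.x.R s o.1).1 = a.us := by rw [ha]; rfl
      rw [this]
      have e5 : a.τ = τ := by rw [ha]; rfl
      rw [← e5]
      exact hco)
  have hB : Bd d.x (d.x.tu d.qc o s τ g h i.1) (d.x.vec a (lg i.1) (lg i.2)) := by
    refine bd_of (nμ := lg i.2) ?_
    rw [ha]
    rfl
  have hnn := nn_le H.ok hoky.a hB
  have hn := hoky.a.hn
  refine ⟨hT, hPC, ⟨lg a.us, lg (sR d.Pr a.s), lg (sU d.Pr (d.x.Sf a.q) a.s), ?_⟩,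
    oks_R hO hRp hsq hRS, hn.trans hnn, ?_, ?_⟩
  · refine ⟨r1, r2, r3, r4, r5, r6, r7, r8, r9, ?_, ?_, ?_, ?_, ?_, ?_, c10, c11, c9⟩
    · show _ ≤ lg a.w
      omega
    · show lg a.w ≤ _
      omega
    · show lg a.u + _ ≤ _
      omega
    · show _ ≤ lg a.u + _ + 1
      omega
    · show _ ≤ lg a.s
      omega
    · show lg a.s ≤ _
      omega
  · have h3 : (2 : ℝ) ^ lg a.s ≤ nm a.s := pow_lg_le hsp.ne_zero
    have h4 : (0 : ℝ) ≤ 2 * d.x.κ := by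
      have := H.κ0
      linarith
    calc ((2 : ℝ) ^ lg a.s) ^ 2 ≤ (Real.sqrt (2 * d.x.κ)) ^ 2 := by
          gcongr
          exact h3.trans hsκ
      _ = 2 * d.κ := Real.sq_sqrt h4
  · have h3 : bm o (g * (h * i.2)) ≠ 0 := by
      intro h0
      apply hcz
      unfold XF.cz E4z92.cZ
      have h4 : E4F266.eP (fun _ => 1) (fun m => bm o m * sy (a.s ^ 2) m) a.g a.h i = 0 := by
        unfold E4F266.eP
        rw [eg, eh]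
        simp [h0]
      rw [h4, zero_mul]
    have h4 := hbm _ h3
    refine le_trans ?_ h4
    have hY0 : 0 ≤ d.x.Y := H.X0.trans H.XY
    have g1 := ((mem_S hY0).1 hg).2.1
    have g2 := ((mem_S hY0).1 hh).2.1
    have g3 : IsPrim i.2 := hoky.m.of_mul_left g1 |>.of_mul_left g2
    have f1 := pow_lg_le g1.ne_zero
    have f2 := pow_lg_le g2.ne_zero
    have f3 := pow_lg_le g3.ne_zero
    rw [nm_mul, nm_mul, pow_add, pow_add, eg, eh]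
    push_cast
    calc (2 : ℝ) ^ lg g * 2 ^ lg h * 2 ^ lg i.2 ≤ nm g * nm h * nm i.2 := by gcongr
      _ = _ := by ring

open Classical in
/-- **the hypotheses `XF.HCR`** -/
theorem hcr_of (C : XC d OO m β₀) (hs₁ : IsPrim s₁)
    (hO : ∀ o ∈ OO, Bo' ≤ (nm o.1 : ℝ) * nm o.2 ∧ (nm o.1 : ℝ) * nm o.2 ≤ Bo)
    (hbm : ∀ o ∈ OO, ∀ k, bm o k ≠ 0 → (nm k : ℝ) ≤ Bm)
    (H : d.x.HO cw OO (vC d.x d.P d.kk d.κ') bm d.kk d.κ' d.qc Mb Ek)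
    (hA0 : ∀ j n k, 0 ≤ A j n k) (hA3 : ∀ j n e r, j ≠ 3 → A j n (e, r) = A j n (e, 1))
    (hcell : Cells d cw OO bm A s₁) (hPhi : Phis d cw Mb Ek Bm Bo Bo' m β₀ s₁ A S₁) (hS₁ : 0 ≤ S₁) :
    d.x.HCR cw OO (vC d.x d.P d.kk d.κ') bm d.kk d.κ' d.qc Mb Ek A d.Kf (d.Bs β₀)
      (YsC d.g₁ m) d.Ad (ClS d.x d.P s₁) (PsF d.x.F0 s₁) S₁ where
  clP := fun a h => h.2
  jc := fun a h => h.1.2.2
  arr := fun o ho s hs hP τ hτ g hg h hh i hi hc =>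
    arr_of (hd_of C.h C.ho) (bm o) ho hτ hh hi hc.1
  arr0 := fun o ho s hs hP τ hτ g hg h hh i hi hc => by
    refine arr0_of (hd_of C.h C.ho) C.h.R.1 (fun o ho y hy => ?_) (bm o) ho hs hτ hi
      fun h' => hc ⟨h', hP⟩
    exact (v_facts C.h C.ho ho hy).2.1
  dec := fun o ho s hs hP τ hτ g hg h hh hc => dec_of (hd_of C.h C.ho) ho hc.1
  cell := hcell
  hA0 := hA0
  hBs := fun o ho => by
    obtain ⟨k1, k2⟩ := qc_spec C.ho ho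
    obtain ⟨k3, k4⟩ := C.h.Q _ k1
    obtain ⟨k5, k6, k7⟩ := sf_facts C.h k3
    rw [k2] at k6 k7
    obtain ⟨e, he, h1⟩ := bpt_eq_b3 (o1_prim C.h C.ho ho) (C.h2 o ho) (C.ho.ν o ho).1
      (C.ho.νq o ho) k6 k7 (F0_ne C.h)
    unfold XD.Bs
    rw [mem_image]
    exact ⟨e, he, by rw [h1, C.b o ho]⟩
  hAf := fun o ho s hs hP τ hτ g hg h hh a ha hc nδ nμ => key_facts C ho ha nδ nμ
  hPhi := fun o ho s hs hP τ hτ g hg h hh a ha hc i hi hco hcz => by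
    obtain ⟨hT, hPC, ⟨nus, nR, nU, hrel⟩, hR, hN, hK, hB⟩ :=
      rel_of C hs₁ ho hs hτ hg hh (hbm o ho) ha hc hi hco hcz H
    have e1 : d.x.Sf a.q = o.1 := by rw [ha]; exact (qc_spec C.ho ho).2
    have e2 : a.ν = o.2 := by rw [ha]; rfl
    have hk : d.x.ky d.Kf a (lg i.1) (lg i.2) =
        (pS 0 1 (d.sf a.q) (FF (d.sf a.q) d.c₀ d.g₁ a.ν (a.us * a.τ)) *
        pS 0 2 (d.sf a.q) (FF (d.sf a.q) d.c₀ d.g₁ a.ν (a.us * a.τ)) ^ 2,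
        bco (d.sf a.q) a.ν * pS 1 2 (d.sf a.q) (FF (d.sf a.q) d.c₀ d.g₁ a.ν (a.us * a.τ))) := by
      unfold XF.ky XD.Kf
      exact if_pos hT
    have hkr := krel_of (n := d.x.vec a (lg i.1) (lg i.2)) (β₀ := β₀) hT hPC
      (by rw [e1, e2]; exact C.b o ho) rfl rfl rfl
    rw [hk]
    have hS := o1_prim C.h C.ho ho
    have hν := (C.ho.ν o ho).1
    obtain ⟨b1, b2⟩ := hO o ho
    refine hPhi _ _ nus nR nU hrel hkr hR hN hK hB ?_ ?_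
    · show (2 : ℝ) ^ (lg (d.x.Sf a.q) + lg a.ν) ≤ Bo
      rw [e1, e2, pow_add]
      refine le_trans ?_ b2
      have f1 := pow_lg_le hS.ne_zero
      have f2 := pow_lg_le hν.ne_zero
      gcongr
    · show Bo' ≤ (2 : ℝ) ^ (lg (d.x.Sf a.q) + lg a.ν + 2)
      rw [e1, e2, pow_add, pow_add]
      refine b1.trans ?_
      have f1 := le_pow_lg o.1
      have f2 := le_pow_lg o.2
      calc (nm o.1 : ℝ) * nm o.2 ≤ (2 * 2 ^ lg o.1) * (2 * 2 ^ lg o.2) := by gcongr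
        _ = _ := by ring
  hYs := fun o ho s hs hP τ hτ g hg h hh a ha hc i hi hco hcz y hy hyq hyd => by
    obtain ⟨hT, hPC, ⟨nus, nR, nU, hrel⟩, hR, hN, hK, hB⟩ :=
      rel_of C hs₁ ho hs hτ hg hh (hbm o ho) ha hc hi hco hcz H
    have hk : d.x.ky d.Kf a (lg i.1) (lg i.2) =
        (pS 0 1 (d.sf a.q) (FF (d.sf a.q) d.c₀ d.g₁ a.ν (a.us * a.τ)) *
        pS 0 2 (d.sf a.q) (FF (d.sf a.q) d.c₀ d.g₁ a.ν (a.us * a.τ)) ^ 2,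
        bco (d.sf a.q) a.ν * pS 1 2 (d.sf a.q) (FF (d.sf a.q) d.c₀ d.g₁ a.ν (a.us * a.τ))) := by
      unfold XF.ky XD.Kf
      exact if_pos hT
    rw [hk]
    exact ys_of hT hPC rfl rfl hy hyq hyd
  hA3 := hA3
  hAd := fun k hk => by
    unfold XD.Ad at hk
    exact (mem_primBall.mp (mem_product.mp hk).2).2.ne_zero
  Sx0 := hS₁

end inst

lemma PhiR_smul (x : XF) (cw Mb Ek : ℝ) (A : Fin 4 → (Fin 12 → ℕ) → Eis × Eis → ℝ)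
    (Ys : (Fin 12 → ℕ) → Eis → Finset Eis) (n : Fin 12 → ℕ) (k : Eis × Eis) :
    x.PhiR cw Mb Ek A Ys n k = Ek * x.PhiR cw Mb 1 A Ys n k := by
  unfold XF.PhiR
  ring

/-- the sum of the inverse norms -/
lemma sum_inv {ε : ℝ} (hε : 0 < ε) : ∃ C : ℝ, 0 ≤ C ∧ ∀ Y : ℝ, 1 ≤ Y →
    ∑ r ∈ primBall ⌊Y ^ 2⌋₊, (nm r : ℝ)⁻¹ ≤ C * Y ^ ε := by
  refine ⟨100 * (1 + 2 / ε), by positivity, ?_⟩
  intro Y hY
  have hY0 : 0 < Y := by linarith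
  have hY2 : 1 ≤ Y ^ 2 := one_le_pow₀ hY
  have hT8 : ∑ g ∈ primBall ⌊Y ^ 2⌋₊, (nm g : ℝ)⁻¹ ≤ 100 * (1 + Real.log ⌊Y ^ 2⌋₊) := by
    have := Crest.Agent.R012.Div277.sum_inv_primBall_le ⌊Y ^ 2⌋₊
    simpa [one_div] using this
  refine hT8.trans ?_
  have hn : 1 ≤ ⌊Y ^ 2⌋₊ := Nat.le_floor (by exact_mod_cast hY2)
  have h2 : Real.log ⌊Y ^ 2⌋₊ ≤ 2 * (Y ^ ε / ε) := by
    refine (Real.log_le_log (by exact_mod_cast hn) (Nat.floor_le (by positivity))).trans ?_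
    rw [Real.log_pow]
    push_cast
    exact mul_le_mul_of_nonneg_left (Real.log_le_rpow_div hY0.le hε) (by norm_num)
  have h3 : 1 ≤ Y ^ ε := Real.one_le_rpow hY hε.le
  calc 100 * (1 + Real.log ⌊Y ^ 2⌋₊) ≤ 100 * (1 * Y ^ ε + 2 * (Y ^ ε / ε)) := by linarith
    _ = _ := by ring

open Classical in
/-- **the moments of a block of the structured `x`-side** -/
theorem xclass {ε : ℝ} (hε : 0 < ε) {cw : ℝ} (hcw : 1 ≤ cw) : ∃ C : ℝ, 0 ≤ C ∧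
    ∀ (d : XD) (OO : Finset (Eis × Eis)) (m : Fin 2 → Fin 3 → ℕ) (β₀ s₁ : Eis)
      (bm : Eis × Eis → Eis → ℂ) (Mb Bm Bo Bo' : ℝ) (A : Fin 4 → (Fin 12 → ℕ) → Eis × Eis → ℝ)
      (Pk : Eis → Prop) (S₁ : ℝ),
      XC d OO m β₀ → IsPrim s₁ → 0 ≤ Mb →
      (∀ o ∈ OO, ∀ k, bm o k ≠ 0 → k ∈ S d.Y ∧ (nm k : ℝ) ≤ Bm) →
      (∀ o ∈ OO, ∀ g ∈ S d.Y, ∀ h ∈ S d.Y, ∑ μ ∈ S d.Y, ‖bm o (g * (h * μ))‖ ^ 2 ≤
        Mb / ((nm g : ℝ) * nm h)) →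
      (∀ a s, Pk (a * s ^ 2) → IsPrim s → Squarefree s → ∀ p, Prime p → p ∣ s →
        p ∣ d.g * d.e₀ * d.t → p ∣ s₁) →
      (∀ o ∈ OO, Bo' ≤ (nm o.1 : ℝ) * nm o.2 ∧ (nm o.1 : ℝ) * nm o.2 ≤ Bo) →
      (∀ j n k, 0 ≤ A j n k) → (∀ j n e r, j ≠ 3 → A j n (e, r) = A j n (e, 1)) →
      Cells d cw OO bm A s₁ → Phis d cw Mb 1 Bm Bo Bo' m β₀ s₁ A S₁ → 0 ≤ S₁ →
      ∑ o ∈ OO, XMbP d.M (vC d.x d.P d.kk d.κ' o) (bm o) Pk d.κ ≤ C * d.Y ^ ε * S₁ := by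
  set η := ε / 7 with hη
  have hη0 : 0 < η := by rw [hη]; positivity
  obtain ⟨C1, hC1, h1⟩ := xtotalR hη0 hcw
  obtain ⟨C2, hC2, h2⟩ := tau_le_rpow hη0
  obtain ⟨C3, hC3, h3⟩ := sum_inv hη0
  have hC20 : 0 ≤ C2 := by linarith
  refine ⟨C1 * (C2 * (C2 ^ 2 * (1 + C3)) * C2 ^ 2), by positivity, ?_⟩
  intro d OO m β₀ s₁ bm Mb Bm Bo Bo' A Pk S₁ C hs₁ hMb hbm hM hPk hO hA0 hA3 hcell hPhi hS₁
  have hY1 := C.h.Y1
  have hY0 : 0 < d.Y := by linarith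
  have hYη : 1 ≤ d.Y ^ η := Real.one_le_rpow hY1 hη0.le
  have hF0 := F0_ne C.h
  -- the outer coefficient
  set Ek : ℝ := (C2 * d.Y ^ η) ^ 2 with hEk
  have hEk0 : 0 ≤ Ek := by positivity
  have hEk1 : ∀ o ∈ OO, ((dvs o.1).card : ℝ) ^ 2 ≤ Ek := by
    intro o ho
    have hS := o1_prim C.h C.ho ho
    have h4 := h2 o.1 hS.ne_zero
    have h5 : (C2 * (nm o.1 : ℝ) ^ η) ≤ C2 * d.Y ^ η := by
      refine mul_le_mul_of_nonneg_left ?_ hC20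
      exact Real.rpow_le_rpow (Nat.cast_nonneg _) (C.ho.SY o ho) hη0.le
    rw [hEk]
    exact pow_le_pow_left₀ (Nat.cast_nonneg _) (h4.trans h5) 2
  have H := ho_of C.h C.ho hcw (bm := bm) hMb hEk1 hEk0 (fun o ho k hk => (hbm o ho k hk).1) hM
  have hPhi' : Phis d cw Mb Ek Bm Bo Bo' m β₀ s₁ A (Ek * S₁) := by
    intro n k nus nR nU g1 g2 g3 g4 g5 g6 g7 g8
    rw [PhiR_smul]
    exact mul_le_mul_of_nonneg_left (hPhi n k nus nR nU g1 g2 g3 g4 g5 g6 g7 g8) hEk0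
  have HC := hcr_of C hs₁ hO (fun o ho k hk => (hbm o ho k hk).2) H hA0 hA3 hcell hPhi'
    (mul_nonneg hEk0 hS₁)
  have h4 := h1 d.x OO (vC d.x d.P d.kk d.κ') bm d.kk d.κ' d.qc Mb Ek A d.Kf (d.Bs β₀)
    (YsC d.g₁ m) d.Ad (ClS d.x d.P s₁) Pk (PsF d.x.F0 s₁) (Ek * S₁) H HC
    (fun a s h hs hsq p hp hd hF => hPk a s h hs hsq p hp hd hF)
  refine h4.trans ?_
  -- the cardinalities
  have hτ : ((dvs d.x.F0).card : ℝ) ≤ C2 * d.Y ^ η := by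
    refine (h2 _ hF0).trans (mul_le_mul_of_nonneg_left ?_ hC20)
    exact Real.rpow_le_rpow (Nat.cast_nonneg _) C.h.FY hη0.le
  have hB : ((d.Bs β₀).card : ℝ) ≤ C2 * d.Y ^ η := by
    refine le_trans ?_ hτ
    unfold XD.Bs
    exact_mod_cast card_image_le
  have hD : ((((dvs d.x.F0 ×ˢ dvs d.x.F0).image (fun z => z.1 * z.2 ^ 2)).card : ℕ) : ℝ) ≤
      (C2 * d.Y ^ η) ^ 2 := by
    refine le_trans (b := (((dvs d.x.F0 ×ˢ dvs d.x.F0).card : ℕ) : ℝ)) ?_ ?_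
    · exact_mod_cast card_image_le
    · rw [card_product, pow_two]
      push_cast
      exact mul_le_mul hτ hτ (Nat.cast_nonneg _) (by positivity)
  have hA1 : (((d.Ad.image Prod.fst).card : ℕ) : ℝ) ≤ (C2 * d.Y ^ η) ^ 2 := by
    refine le_trans ?_ hD
    have h5 : d.Ad.image Prod.fst ⊆
        (dvs d.x.F0 ×ˢ dvs d.x.F0).image (fun z => z.1 * z.2 ^ 2) := by
      intro z hz
      obtain ⟨k, hk, rfl⟩ := mem_image.mp hz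
      unfold XD.Ad at hk
      exact (mem_product.mp hk).1
    exact_mod_cast card_le_card h5
  have hA2 : ∑ k ∈ d.Ad, (nm k.2 : ℝ)⁻¹ ≤ (C2 * d.Y ^ η) ^ 2 * (C3 * d.Y ^ η) := by
    unfold XD.Ad
    rw [sum_product]
    dsimp only
    rw [sum_const, nsmul_eq_mul]
    exact mul_le_mul hD (h3 d.Y hY1) (sum_nonneg fun r _ => by positivity) (by positivity)
  have hW : (((d.Ad.image Prod.fst).card : ℕ) : ℝ) + ∑ k ∈ d.Ad, (nm k.2 : ℝ)⁻¹ ≤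
      (C2 * d.Y ^ η) ^ 2 * ((1 + C3) * d.Y ^ η) := by
    calc _ ≤ (C2 * d.Y ^ η) ^ 2 + (C2 * d.Y ^ η) ^ 2 * (C3 * d.Y ^ η) := add_le_add hA1 hA2
      _ = (C2 * d.Y ^ η) ^ 2 * (1 + C3 * d.Y ^ η) := by ring
      _ ≤ (C2 * d.Y ^ η) ^ 2 * (1 * d.Y ^ η + C3 * d.Y ^ η) := by gcongr; linarith
      _ = _ := by ring
  have hW0 : 0 ≤ (((d.Ad.image Prod.fst).card : ℕ) : ℝ) + ∑ k ∈ d.Ad, (nm k.2 : ℝ)⁻¹ :=
    add_nonneg (Nat.cast_nonneg _) (sum_nonneg fun r _ => by positivity)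
  have hYx : d.x.Y = d.Y := rfl
  rw [hYx]
  calc C1 * d.Y ^ η * (((d.Bs β₀).card : ℝ) * ((((d.Ad.image Prod.fst).card : ℕ) : ℝ) +
        ∑ k ∈ d.Ad, (nm k.2 : ℝ)⁻¹) * (Ek * S₁))
      ≤ C1 * d.Y ^ η * ((C2 * d.Y ^ η) * ((C2 * d.Y ^ η) ^ 2 * ((1 + C3) * d.Y ^ η)) *
          (Ek * S₁)) := by gcongr
    _ = C1 * (C2 * (C2 ^ 2 * (1 + C3)) * C2 ^ 2) * (d.Y ^ η) ^ 7 * S₁ := by
        rw [hEk]; ring
    _ = _ := by
        have : (d.Y ^ η) ^ 7 = d.Y ^ ε := by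
          rw [← Real.rpow_natCast, ← Real.rpow_mul hY0.le]
          congr 1
          rw [hη]; push_cast; ring
        rw [this]

end Crest.Agent.R017.E4zg92
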