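import Crest.Agent.R017.XLd_842
import Crest.Agent.R017.E4zk_92
import Crest.Agent.R017.E4Xh_681

/-!
# Row 17, E4 (x-side, structured): the numbers of the classes (helper842)

* `Lf`, `Lg` : the dual length of a class
* `TNum` : the `T`-numbers of the classes (helper743)
* `phis_LT`, `phis_PV` : helper92's `Phis` from the closers `XLTX`, `XPV`
-/

set_option autoImplicit false
set_option maxHeartbeats 2000000

noncomputable section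

namespace Crest.Agent.R017.XL842

open Crest.Agent.R012 Crest.Agent.R012.Eis
open Crest.Agent.R017.E4R70
open Crest.Agent.R017.E4zc92
open Crest.Agent.R017.E4X92
open Crest.Agent.R017.E4zg92
open Crest.Agent.R017.PX764 (th)
open Crest.Agent.R017.E4Xb681 (AA Kc Nbn mn qn)
open Crest.Agent.R017.Mode405 (nk)

/-- the dual length of a class: `Ls`, cut at the length of the coefficients -/
def Lf (x : XF) (X lt : ℝ) (ρ1 ρ2 : ℕ) (Nα Rw : ℝ) (n : Fin 12 → ℕ) : ℝ :=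
  if Ls X lt ρ1 ρ2 n < 1 ∨ 8 * (Ls X lt ρ1 ρ2 n * Real.exp Rw) < Nbn x Nα n then
    Ls X lt ρ1 ρ2 n else 1 / 2

/-- the dual length of a class without `R`-part -/
def Lg (X lt : ℝ) (ρ1 ρ2 : ℕ) (n : Fin 12 → ℕ) : ℝ :=
  if Ls X lt ρ1 ρ2 n < 1 then Ls X lt ρ1 ρ2 n else 1 / 2

lemma Lf_pos {X : ℝ} (hX : 0 < X) (x : XF) (lt : ℝ) (ρ1 ρ2 : ℕ) (Nα Rw : ℝ) (n : Fin 12 → ℕ) :
    0 < Lf x X lt ρ1 ρ2 Nα Rw n := by
  unfold Lf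
  split_ifs
  · exact Ls_pos hX _ _ _
  · norm_num

lemma Lf_nbn {X : ℝ} (x : XF) (lt : ℝ) (ρ1 ρ2 : ℕ) (Nα Rw : ℝ) (n : Fin 12 → ℕ)
    (h : 1 ≤ Lf x X lt ρ1 ρ2 Nα Rw n) :
    8 * (Lf x X lt ρ1 ρ2 Nα Rw n * Real.exp Rw) < Nbn x Nα n := by
  unfold Lf at h ⊢
  split_ifs at h ⊢ with h1
  · rcases h1 with h1 | h1
    · linarith
    · exact h1
  · norm_num at h

lemma Lg_pos {X : ℝ} (hX : 0 < X) (lt : ℝ) (ρ1 ρ2 : ℕ) (n : Fin 12 → ℕ) :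
    0 < Lg X lt ρ1 ρ2 n := by
  unfold Lg
  split_ifs
  · exact Ls_pos hX _ _ _
  · norm_num

lemma Lg_lt {X : ℝ} (lt : ℝ) (ρ1 ρ2 : ℕ) (n : Fin 12 → ℕ) : Lg X lt ρ1 ρ2 n < 1 := by
  unfold Lg
  split_ifs with h
  · exact h
  · norm_num

/-- the length of the cube parts -/
def Yb (m : Fin 2 → Fin 3 → ℕ) (n : Fin 12 → ℕ) : ℕ := m 1 1 + m 1 2 + 2 + (n 1 - n 2 + 1)

/-- **the `T`-numbers of the classes** (helper743's `tn_phi`) -/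
def TNum (d : XD) (cw X T0 Nα F τ Bo : ℝ) (m : Fin 2 → Fin 3 → ℕ) (β₀ s₁ : Eis) : Prop :=
  ∀ (n : Fin 12 → ℕ) (k : Eis × Eis) (nus nR nU : ℕ),
    Rel m (lg d.g₁) (lg (rrk 1 d.Pr)) (lg (rrk 2 d.Pr)) (lg s₁) n nus nR nU → KRel m β₀ n k →
    1 / 2 ≤ d.x.Nn n → (2 : ℝ) ^ (n 0 + n 1) ≤ Bo →
    TSD d.x.α d.x.e₀ d.x.c₀ (d.x.Ee n) (d.x.Ln cw n) ≤
      X ^ (T0 - 2 / 3 * lx X (d.x.En n) - lx X Nα / 3 + τ) ∧
    TSR d.x.α d.x.e₀ d.x.c₀ 1 (d.x.Ee n) (YsC d.g₁ m n k.1) (d.x.Ln cw n) ≤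
      X ^ (T0 + min F (lx X ((2 : ℝ) ^ Yb m n)) - 2 / 3 * lx X (d.x.En n) - lx X Nα / 3 + τ) ∧
    TSR d.x.α d.x.e₀ d.x.c₀ (1 / 2) (d.x.Ee n) (YsC d.g₁ m n k.1) (d.x.Ln cw n) ≤
      X ^ (T0 + (F + min F (lx X ((2 : ℝ) ^ Yb m n))) / 2 - 2 / 3 * lx X (d.x.En n) -
        lx X Nα / 3 + τ)

section

variable {X κ₀ τ : ℝ} {z' : Cls} {kG r1 r2 x os c0 g1 g2 q V : ℝ} {ρ1 ρ2 : ℕ} {n : Fin 12 → ℕ}

/-- the dual length of a cell -/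
lemma ls_lc {lt : ℝ} (hX : 1 < X)
    (C : Cel τ κ₀ z' kG r1 r2 x (n 0 * lx X 2) (n 1 * lx X 2) (n 3 * lx X 2) (n 4 * lx X 2)
      (n 5 * lx X 2) (n 6 * lx X 2) (n 7 * lx X 2) (n 8 * lx X 2) (n 9 * lx X 2)
      (n 10 * lx X 2) (n 11 * lx X 2) q c0 g1 g2 os V)
    (hr1 : r1 = ρ1 * lx X 2) (hr2 : r2 = ρ2 * lx X 2) :
    |lx X (Ls X lt ρ1 ρ2 n) - Lc lt (n 9 * lx X 2) (max 0 (n 7 * lx X 2 - r2))
      (max 0 (n 4 * lx X 2 - os - (n 7 * lx X 2 - r2))) (n 8 * lx X 2) (n 10 * lx X 2)| ≤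
      6 * (15 * τ) := by
  have hτ := C.τ0
  have p2 : ∀ j : ℕ, lx X ((2 : ℝ) ^ j) = j * lx X 2 := fun j => by rw [lx_pow]
  have a1 := abs_le.mp C.ut
  have a2 := C.w0
  have a3 := C.s0
  rw [lx_Ls hX]
  simp only [p2]
  unfold Lc
  have m1 : max 0 (n 7 * lx X 2 - r2) ≤ n 7 * lx X 2 - r2 + τ :=
    max_le (by linarith) (by linarith)
  have m1' := le_max_right 0 (n 7 * lx X 2 - r2)
  have m2 : max 0 (n 4 * lx X 2 - os - (n 7 * lx X 2 - r2)) ≤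
      n 4 * lx X 2 - os - (n 7 * lx X 2 - r2) + τ :=
    max_le (by linarith) (by linarith)
  have m2' := le_max_right 0 (n 4 * lx X 2 - os - (n 7 * lx X 2 - r2))
  rw [abs_le, ← hr1, ← hr2]
  constructor <;> linarith [a1.1, a1.2]

lemma lt_one_of_lx {y : ℝ} (hX : 1 < X) (h : lx X y < 0) : y < 1 := by
  by_contra h1
  rw [not_lt] at h1
  have : 0 ≤ lx X y := div_nonneg (Real.log_nonneg h1) (Real.log_pos hX).le
  linarith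

lemma lt_of_lx {y y' : ℝ} (hX : 1 < X) (hy' : 0 < y') (h : lx X y < lx X y') : y < y' := by
  by_contra h1
  rw [not_lt] at h1
  exact absurd (lx_mono hX hy' h1) (not_le.mpr h)

end

open Crest.Agent.R017.GrB829 (IsC) in
/-- the size of the kernel at `c₀` -/
lemma th_isC : ∃ C : ℝ, 1 ≤ C ∧ ∀ c : Eis, IsC c → ‖th c‖ ≤ C := by
  refine ⟨1 + ‖th 1‖ + ‖th 3‖ + ‖th (3 * w)‖ + ‖th (3 * w ^ 2)‖, ?_, ?_⟩
  · have := norm_nonneg (th 1); have := norm_nonneg (th 3)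
    have := norm_nonneg (th (3 * w)); have := norm_nonneg (th (3 * w ^ 2))
    linarith
  · intro c hc
    have := norm_nonneg (th 1); have := norm_nonneg (th 3)
    have := norm_nonneg (th (3 * w)); have := norm_nonneg (th (3 * w ^ 2))
    rcases hc with rfl | rfl | rfl | rfl <;> linarith

/-- the supply of the `R`-number against `rr3` -/
lemma w_le {δ₀ u u' ih N n e τ₁ : ℝ} (hd0 : 0 ≤ δ₀) (hd8 : δ₀ ≤ 1 / 8) (hN : |N - n| ≤ τ₁)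
    (hu : u ≤ u' + τ₁) :
    max ih (ih / 3) + (3 / 4 + 2 * δ₀) * max 0 (min u (ih / 2)) + 2 / 3 * (N - e) ≤
      rr3 δ₀ ih (n - e) u' - (n - e) / 3 + 2 * τ₁ := by
  have h1 := (abs_le.mp hN).2
  have h0 : 0 ≤ τ₁ := (abs_nonneg _).trans hN
  have h2 : max 0 (min u (ih / 2)) ≤ max 0 (min u' (ih / 2)) + τ₁ := by
    refine max_le (by linarith [le_max_left (0 : ℝ) (min u' (ih / 2))]) ?_
    have : min u (ih / 2) ≤ min u' (ih / 2) + τ₁ := by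
      rcases le_total u' (ih / 2) with h | h
      · rw [min_eq_left h]
        exact (min_le_left _ _).trans hu
      · rw [min_eq_right h]
        exact (min_le_right _ _).trans (by linarith)
    linarith [le_max_right (0 : ℝ) (min u' (ih / 2))]
  have h3 : (3 / 4 + 2 * δ₀) * max 0 (min u (ih / 2)) ≤
      (3 / 4 + 2 * δ₀) * max 0 (min u' (ih / 2)) + τ₁ := by
    calc _ ≤ (3 / 4 + 2 * δ₀) * (max 0 (min u' (ih / 2)) + τ₁) :=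
          mul_le_mul_of_nonneg_left h2 (by linarith)
      _ = (3 / 4 + 2 * δ₀) * max 0 (min u' (ih / 2)) + (3 / 4 + 2 * δ₀) * τ₁ := by ring
      _ ≤ _ := by
          have : (3 / 4 + 2 * δ₀) * τ₁ ≤ 1 * τ₁ := mul_le_mul_of_nonneg_right (by linarith) h0
          linarith
  unfold rr3
  linarith

section

variable {X κ₀ τ N mx Nα Bm Bo Bo' cw E_ : ℝ} {z' : Cls} {m : Fin 2 → Fin 3 → ℕ} {β₀ s₁ : Eis}
  {d : XD}

/-- the closer gives the lines -/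
theorem lines_of_LT {δ₀ u' T0 T ρ f g ex : ℝ} (hτ : 20 * τ ≤ 1 / 25 - 1 / 30) (hτ0 : 0 ≤ τ)
    (hd0 : 0 ≤ δ₀) (hd : δ₀ ≤ 1 / 8) (hκ : 0 ≤ κ₀) (hR1 : 0 ≤ z'.R1) (hs : 0 ≤ z'.s)
    (hN : |lx X Nα - κ₀ * (N - z'.β)| ≤ τ) (hT : T ≤ T0)
    (HC : XLTX δ₀ (κ₀ * z'.k) (κ₀ * z'.v1) (κ₀ * z'.N1 N) (κ₀ * (N - z'.β)) (κ₀ * z'.R1)
      (κ₀ * z'.R2) u' (κ₀ * z'.lqt) (κ₀ * z'.sh) (κ₀ * z'.cnt) T ρ f g mx ex) :
    ∃ lt : ℝ, Lines δ₀ (κ₀ * z'.k) (κ₀ * z'.v1) (lx X Nα) 0 (κ₀ * z'.R1) (κ₀ * z'.R2) u'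
      (κ₀ * z'.lqt) (κ₀ * (z'.Y0 + z'.Y1)) (κ₀ * (z'.c02 + z'.c12 + z'.nu)) T0 ρ f g mx
      (ex + 5 * τ) lt False := by
  have h1 : κ₀ * z'.N1 N ≤ κ₀ * (N - z'.β) := by
    have : z'.N1 N ≤ N - z'.β := by unfold Cls.N1; linarith
    exact mul_le_mul_of_nonneg_left this hκ
  obtain ⟨lt, H⟩ := lines_LT (n := lx X Nα) (y1 := κ₀ * (z'.Y0 + z'.Y1))
    (y2 := κ₀ * (z'.c02 + z'.c12 + z'.nu)) hτ hτ0 hd0 hd HC (mul_nonneg hκ hR1) h1 hN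
    (by unfold Cls.sh; ring) (by unfold Cls.cnt; ring)
  obtain ⟨c1, c2, c3, c4, c5, c6⟩ := H
  refine ⟨lt, c1, c2, c3, c4, c5, ?_⟩
  rcases c6 with c6 | ⟨c6, c7⟩
  · exact Or.inl c6
  · exact Or.inr ⟨c6, by linarith⟩

/-- **one class** -/
lemma phi_cls {lt T0 δ₀ u' f g ex L W1 : ℝ} {W0 : Prop} (hX : 1 < X)
    (H : BSz X κ₀ τ z' N mx m (lg d.g₁) (lg (rrk 1 d.Pr)) (lg (rrk 2 d.Pr)) (lg s₁) Bo Bo' d.V
      d.κ Nα Bm (nk (d.b ^ 2) * nm d.D) (nm d.c₀) (nm d.g₁) (nm d.g₂))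
    (hd : d.OK) (hNα : 0 < Nα) (hE : 0 ≤ E_) (hth : ‖th d.c₀‖ ≤ X ^ τ)
    (hd0 : 0 ≤ δ₀) (hd8 : δ₀ ≤ 1 / 8)
    (HL : Lines δ₀ (κ₀ * z'.k) (κ₀ * z'.v1) (lx X Nα) 0 (κ₀ * z'.R1) (κ₀ * z'.R2) u'
      (κ₀ * z'.lqt) (κ₀ * (z'.Y0 + z'.Y1)) (κ₀ * (z'.c02 + z'.c12 + z'.nu)) T0
      (κ₀ * (z'.c12 + z'.s1)) f g mx ex lt W0) (hfg : f ≤ g)
    {n : Fin 12 → ℕ} {k : Eis × Eis} {nus nR nU : ℕ}
    (R : Rel m (lg d.g₁) (lg (rrk 1 d.Pr)) (lg (rrk 2 d.Pr)) (lg s₁) n nus nR nU)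
    (K : KRel m β₀ n k) (hBm : (2 : ℝ) ^ (n 8 + n 9 + n 11) ≤ Bm)
    (hBo : (2 : ℝ) ^ (n 0 + n 1) ≤ Bo) (hBo' : Bo' ≤ (2 : ℝ) ^ (n 0 + n 1 + 2))
    (hL : L = Ls X lt (lg (rrk 1 d.Pr)) (lg (rrk 2 d.Pr)) n)
    (hW0 : 0 ≤ W1) (hWz : W0 → W1 = 0) (hWz' : ¬ 1 ≤ L → W1 = 0)
    (hW : 1 ≤ L → W1 ≤ X ^ (rr3 δ₀ (lx X (8192 * (Nbn d.x Nα n * L / d.x.Nn n) * (2 ^ n 3) ^ 2 /
        ((nm k.2 : ℝ) * 2 ^ m 0 2) ^ 3)) (lx X Nα - lx X (d.x.En n)) u' -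
      (lx X Nα - lx X (d.x.En n)) / 3 + τ))
    {TD T1 T2 M : ℝ} (hTD0 : 0 ≤ TD) (hT10 : 0 ≤ T1) (hT20 : 0 ≤ T2)
    (hTD : TD ≤ X ^ (T0 - 2 / 3 * lx X (d.x.En n) - lx X Nα / 3 + 20 * τ))
    (hT1 : T1 ≤ X ^ (T0 + f - 2 / 3 * lx X (d.x.En n) - lx X Nα / 3 + 20 * τ))
    (hT2 : T2 ≤ X ^ (T0 + g - 2 / 3 * lx X (d.x.En n) - lx X Nα / 3 + 20 * τ))
    (hM : M ≤ AA d.x E_ Nα L W1 n 0 * TD + AA d.x E_ Nα L W1 n 1 * T1 +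
      AA d.x E_ Nα L W1 n 2 * T2 +
        nm k.2 * (AA d.x E_ Nα L W1 n 3 * (d.x.En n * (d.x.Jn n / nm (Ak k))))) :
    d.κ * (1 * 1 * ‖th d.c₀‖ ^ 2 * d.V ^ (-(1 / 3) : ℝ) * d.x.Base n * M) ≤
      E_ * X ^ (κ₀ * (z'.k + 2 * z'.lam) + (T0 - κ₀ * (z'.v + z'.us) / 3 -
        κ₀ * (N - z'.β) / 3) + ex - mx + 50000 * τ) := by
  have hX0 : 0 < X := by linarith
  have hτ := H.τ0
  have hc := lx2_pos hX
  have up : ∀ a b : ℝ, a ≤ b → X ^ a ≤ X ^ b := fun a b h =>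
    Real.rpow_le_rpow_of_exponent_le hX.le h
  have pc0 : (0 : ℝ) < nm d.c₀ := by exact_mod_cast nm_pos.mpr (Str699.isC_ne hd.c₀)
  have pg1 : (0 : ℝ) < nm d.g₁ := by exact_mod_cast nm_pos.mpr hd.g₁.1.ne_zero
  have pg2 : (0 : ℝ) < nm d.g₂ := by exact_mod_cast nm_pos.mpr hd.g₂.1.ne_zero
  have pD : (0 : ℝ) < nm d.D := by exact_mod_cast nm_pos.mpr hd.D.ne_zero
  have pb : (0 : ℝ) < nk (d.b ^ 2) :=
    lt_of_lt_of_le one_pos (Mode405.nk_ge_one (pow_ne_zero _ hd.b.ne_zero))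
  have pk2 : (0 : ℝ) < nm k.2 := by exact_mod_cast nm_pos.mpr K.p2.ne_zero
  have pk1 : (0 : ℝ) < nm k.1 := by exact_mod_cast nm_pos.mpr K.p1.ne_zero
  have pV := hd.V0
  have pκ := hd.κ0
  have pE : 0 < d.x.En n := by
    show (0 : ℝ) < nm d.g₂ * (2 ^ n 7 * (2 ^ n 8 * 2 ^ n 10)); positivity
  have pJ : 0 < d.x.Jn n := by unfold XF.Jn; positivity
  have pN : 0 < d.x.Nn n := by
    show 0 < d.V / (nm d.c₀ * d.x.Jn n * d.x.En n ^ 2); positivity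
  have pNb : 0 < Nbn d.x Nα n := by unfold Nbn; positivity
  have pL : 0 < L := by rw [hL]; exact Ls_pos hX0 _ _ _
  have pq : 0 < qn d.x n := by
    show (0 : ℝ) < ((nm d.c₀ : ℝ) * nm d.g₁) ^ 2 * nk (d.b ^ 2) * (nm (1 : Eis) * nm d.D) *
      ((2 : ℝ) ^ n 5) ^ 2 * 2 ^ n 4
    rw [nm_one]
    positivity
  have hq : lx X (qn d.x n) ≤ 2 * (n 5 * lx X 2) + n 4 * lx X 2 +
      lx X (nk (d.b ^ 2) * nm d.D) + 4 * τ := by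
    have e : qn d.x n = (((nm d.c₀ : ℝ) * nm d.g₁) ^ 2 * (nk (d.b ^ 2) * nm d.D)) *
        (((2 : ℝ) ^ n 5) ^ 2 * 2 ^ n 4) := by
      show ((nm d.c₀ : ℝ) * nm d.g₁) ^ 2 * nk (d.b ^ 2) * (nm (1 : Eis) * nm d.D) *
        ((2 : ℝ) ^ n 5) ^ 2 * 2 ^ n 4 = _
      rw [nm_one]
      push_cast
      ring
    have pQ : 0 < nk (d.b ^ 2) * (nm d.D : ℝ) := by positivity
    rw [e]
    generalize nk (d.b ^ 2) * (nm d.D : ℝ) = Q' at pQ ⊢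
    rw [lx_mul (by positivity) (by positivity), lx_mul (by positivity) pQ,
      lx_pow, lx_mul pc0 pg1, lx_mul (by positivity) (by positivity), lx_pow ((2 : ℝ) ^ n 5),
      lx_pow (2 : ℝ) (n 5), lx_pow (2 : ℝ) (n 4)]
    have h1 := (abs_le.mp H.c₀).2
    have h2 := (abs_le.mp H.g₁).2
    push_cast
    linarith
  obtain ⟨C, hos⟩ := cel_of hX H R.S1 R.S2 R.P1 R.P2 R.σ1 R.σ2 R.w1 R.w2 R.u1 R.u2 R.s1 R.s2
    R.us1 R.us2 hBm hBo hBo' hq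
  have hk2A : (nm k.2 : ℝ) ≤ nm (Ak k) := by
    have : nm k.2 ≤ nm (Ak k) := by
      unfold Ak
      rw [nm_mul, nm_pow]
      have h1 : 1 ≤ nm k.1 := nm_pos.mpr K.p1.ne_zero
      have h2 : 1 ≤ nm k.2 := nm_pos.mpr K.p2.ne_zero
      nlinarith [Nat.mul_le_mul h1 (Nat.mul_le_mul h2 (le_refl (nm k.2))), pow_two (nm k.2)]
    exact_mod_cast this
  have pA : (0 : ℝ) < nm (Ak k) := lt_of_lt_of_le pk2 hk2A
  have key := phi_core hX (κ := d.κ) (V := d.V) (c0 := nm d.c₀) (g1 := nm d.g₁) (g2 := nm d.g₂)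
    (q := qn d.x n) (Nα := Nα) (E_ := E_) (L := L) (W1 := W1) (TD := TD) (T1 := T1) (T2 := T2)
    (k2 := nm k.2) (kA := nm (Ak k)) (θ := ‖th d.c₀‖) (Mb := X ^ mx) (Ek := 1) (n := n)
    (En := d.x.En n) (Jn := d.x.Jn n) (Nn := d.x.Nn n) (Kc := Kc d.x n) (Nb := Nbn d.x Nα n)
    (mn := mn n) (Bs := d.x.Base n) (τ := 20 * τ) (ρ1 := lg (rrk 1 d.Pr))
    (ρ2 := lg (rrk 2 d.Pr)) (mx := mx) rfl rfl rfl rfl rfl rfl rfl pκ pV pc0 pg1 pg2 pq hNα hE C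
    rfl rfl (by positivity) (up _ _ (by linarith)) zero_le_one
    (Real.one_le_rpow hX.le (by linarith)) (norm_nonneg _) (hth.trans (up _ _ (by linarith)))
    pk2.le hk2A pA hfg hd0 hd8 hL (HL.shift H.k) hos hTD0 hT10 hT20 hTD hT1 hT2 hW0 hWz hWz'
    (ih := lx X (8192 * (Nbn d.x Nα n * L / d.x.Nn n) * (2 ^ n 3) ^ 2 /
        ((nm k.2 : ℝ) * 2 ^ m 0 2) ^ 3))
    (by
      have r1 : (2 : ℝ) ^ (n 1 + m 1 2) ≤ (nm k.2 : ℝ) * 2 ^ (n 2 + 1) := by exact_mod_cast K.r1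
      have := ih_le hX H R.S1 R.b2 R.P1 R.σ1 hBo r1 pk2 pNb pL pN
      linarith)
    (fun h => (hW h).trans (up _ _ (by linarith)))
  -- the bound of the class
  have hB0 : 0 ≤ d.x.Base n := by unfold XF.Base; positivity
  have e0 : d.κ * (X ^ mx * 1 * ‖th d.c₀‖ ^ 2 * d.V ^ (-(1 / 3) : ℝ) * d.x.Base n * M) ≤
      E_ * (8 * X ^ (lx X d.κ + 2 * (κ₀ * z'.lam) + T0 - (lx X d.V + κ₀ * z'.us) / 3 -
        lx X Nα / 3 + (ex + τ) + 2000 * (20 * τ))) := by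
    refine le_trans ?_ key
    gcongr
    exact hM
  have e8 : (8 : ℝ) ≤ X ^ τ := by
    refine le_rpow_of_lx hX (by norm_num) ?_
    rw [show (8 : ℝ) = 2 ^ 3 by norm_num, lx_pow]
    push_cast
    linarith [H.c1]
  have h1 := abs_le.mp H.k
  have h2 := abs_le.mp H.V
  have h3 := abs_le.mp H.Nα
  have e1 : 8 * X ^ (lx X d.κ + 2 * (κ₀ * z'.lam) + T0 - (lx X d.V + κ₀ * z'.us) / 3 -
        lx X Nα / 3 + (ex + τ) + 2000 * (20 * τ)) ≤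
      X ^ (κ₀ * (z'.k + 2 * z'.lam) + (T0 - κ₀ * (z'.v + z'.us) / 3 -
        κ₀ * (N - z'.β) / 3) + ex + 50000 * τ) := by
    calc _ ≤ X ^ τ * X ^ (lx X d.κ + 2 * (κ₀ * z'.lam) + T0 - (lx X d.V + κ₀ * z'.us) / 3 -
        lx X Nα / 3 + (ex + τ) + 2000 * (20 * τ)) := by gcongr
      _ = X ^ (τ + (lx X d.κ + 2 * (κ₀ * z'.lam) + T0 - (lx X d.V + κ₀ * z'.us) / 3 -
        lx X Nα / 3 + (ex + τ) + 2000 * (20 * τ))) := by rw [← Real.rpow_add hX0]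
      _ ≤ _ := up _ _ (by linarith [h1.2, h2.1, h3.1])
  have e2 : d.κ * (1 * 1 * ‖th d.c₀‖ ^ 2 * d.V ^ (-(1 / 3) : ℝ) * d.x.Base n * M) =
      X ^ (-mx) * (d.κ * (X ^ mx * 1 * ‖th d.c₀‖ ^ 2 * d.V ^ (-(1 / 3) : ℝ) * d.x.Base n * M)) := by
    have : X ^ (-mx) * X ^ mx = 1 := by
      rw [← Real.rpow_add hX0]; simp
    calc _ = 1 * (d.κ * (1 * 1 * ‖th d.c₀‖ ^ 2 * d.V ^ (-(1 / 3) : ℝ) * d.x.Base n * M)) :=
          (one_mul _).symm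
      _ = (X ^ (-mx) * X ^ mx) * (d.κ * (1 * 1 * ‖th d.c₀‖ ^ 2 * d.V ^ (-(1 / 3) : ℝ) *
        d.x.Base n * M)) := by rw [this]
      _ = _ := by ring
  rw [e2]
  calc X ^ (-mx) * (d.κ * (X ^ mx * 1 * ‖th d.c₀‖ ^ 2 * d.V ^ (-(1 / 3) : ℝ) * d.x.Base n * M)) ≤
      X ^ (-mx) * (E_ * X ^ (κ₀ * (z'.k + 2 * z'.lam) + (T0 - κ₀ * (z'.v + z'.us) / 3 -
        κ₀ * (N - z'.β) / 3) + ex + 50000 * τ)) :=
        mul_le_mul_of_nonneg_left (e0.trans (mul_le_mul_of_nonneg_left e1 hE)) (by positivity)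
    _ = E_ * (X ^ (-mx) * X ^ (κ₀ * (z'.k + 2 * z'.lam) + (T0 - κ₀ * (z'.v + z'.us) / 3 -
        κ₀ * (N - z'.β) / 3) + ex + 50000 * τ)) := by ring
    _ = _ := by
        rw [← Real.rpow_add hX0]
        congr 2
        ring

/-- the length of the cube parts -/
lemma yb_le {γ ρ1 ρ2 ς : ℕ} {V κ q' c₀ g₁ g₂ : ℝ} (hX : 1 < X)
    (H : BSz X κ₀ τ z' N mx m γ ρ1 ρ2 ς Bo Bo' V κ Nα Bm q' c₀ g₁ g₂)
    {n : Fin 12 → ℕ} {nus nR nU : ℕ} (R : Rel m γ ρ1 ρ2 ς n nus nR nU)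
    (hBo : (2 : ℝ) ^ (n 0 + n 1) ≤ Bo) :
    lx X ((2 : ℝ) ^ Yb m n) ≤ κ₀ * (z'.Y1 + z'.c12 + z'.nu) + 10 * τ := by
  have hc := lx2_pos hX
  have e3 := lx_mono hX (by positivity) hBo
  rw [lx_pow] at e3 ⊢
  unfold Yb
  have hsub : ((n 1 - n 2 : ℕ) : ℝ) = n 1 - n 2 := by rw [Nat.cast_sub R.ν1]
  push_cast at e3 ⊢
  rw [hsub]
  set c := lx X 2 with hcd
  have cast : ∀ a b : ℕ, a ≤ b → (a : ℝ) * c ≤ b * c := fun a b h =>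
    mul_le_mul_of_nonneg_right (by exact_mod_cast h) hc.le
  have S1' := cast _ _ R.S1
  have b1' := cast _ _ R.b1
  push_cast at S1' b1'
  have hτ := H.τ0
  have h1 := H.c1
  have hY1 := abs_le.mp H.Y1
  have h12 := abs_le.mp H.c12
  have hnu := H.nu
  linarith

/-- **the numbers of the classes**, closer `XLTX` -/
theorem phis_LT {lt T0 δ₀ u' F f g ex Rw : ℝ} (hX : 1 < X) (hτ : 3000 * τ < 1 / 30)
    (H : BSz X κ₀ τ z' N mx m (lg d.g₁) (lg (rrk 1 d.Pr)) (lg (rrk 2 d.Pr)) (lg s₁) Bo Bo' d.V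
      d.κ Nα Bm (nk (d.b ^ 2) * nm d.D) (nm d.c₀) (nm d.g₁) (nm d.g₂))
    (hd : d.OK) (hNα : 0 < Nα) (hE : 0 ≤ E_) (hth : ‖th d.c₀‖ ≤ X ^ τ)
    (hRw : Real.exp Rw ≤ X ^ τ) (hd0 : 0 ≤ δ₀) (hd8 : δ₀ ≤ 1 / 8)
    (HL : Lines δ₀ (κ₀ * z'.k) (κ₀ * z'.v1) (lx X Nα) 0 (κ₀ * z'.R1) (κ₀ * z'.R2) u'
      (κ₀ * z'.lqt) (κ₀ * (z'.Y0 + z'.Y1)) (κ₀ * (z'.c02 + z'.c12 + z'.nu)) T0
      (κ₀ * (z'.c12 + z'.s1)) f g mx ex lt False) (hfg : f ≤ g)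
    (hf : min F (κ₀ * (z'.Y1 + z'.c12 + z'.nu)) ≤ f + τ)
    (hg : (F + min F (κ₀ * (z'.Y1 + z'.c12 + z'.nu))) / 2 ≤ g + τ)
    (HT : TNum d cw X T0 Nα F τ Bo m β₀ s₁)
    {W1 : (Fin 12 → ℕ) → Eis × Eis → ℝ} (hW0 : ∀ n k, 0 ≤ W1 n k)
    (hWz : ∀ n k, ¬ 1 ≤ Lf d.x X lt (lg (rrk 1 d.Pr)) (lg (rrk 2 d.Pr)) Nα Rw n → W1 n k = 0)
    (hW : ∀ n k, KRel m β₀ n k → 1 ≤ Lf d.x X lt (lg (rrk 1 d.Pr)) (lg (rrk 2 d.Pr)) Nα Rw n →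
      W1 n k ≤ X ^ (rr3 δ₀ (lx X (8192 * (Nbn d.x Nα n *
        Lf d.x X lt (lg (rrk 1 d.Pr)) (lg (rrk 2 d.Pr)) Nα Rw n / d.x.Nn n) * (2 ^ n 3) ^ 2 /
        ((nm k.2 : ℝ) * 2 ^ m 0 2) ^ 3)) (lx X Nα - lx X (d.x.En n)) u' -
      (lx X Nα - lx X (d.x.En n)) / 3 + τ)) :
    Phis d cw 1 1 Bm Bo Bo' m β₀ s₁
      (fun j n k => AA d.x E_ Nα (Lf d.x X lt (lg (rrk 1 d.Pr)) (lg (rrk 2 d.Pr)) Nα Rw n)
        (W1 n k) n j)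
      (E_ * X ^ (κ₀ * (z'.k + 2 * z'.lam) + (T0 - κ₀ * (z'.v + z'.us) / 3 -
        κ₀ * (N - z'.β) / 3) + ex - mx + 50000 * τ)) := by
  intro n k nus nR nU R K hPr hNn hs hBm hBo hBo'
  have hX0 : 0 < X := by linarith
  have hτ0 := H.τ0
  have hc := lx2_pos hX
  have up : ∀ a b : ℝ, a ≤ b → X ^ a ≤ X ^ b := fun a b h =>
    Real.rpow_le_rpow_of_exponent_le hX.le h
  have pg2 : (0 : ℝ) < nm d.g₂ := by exact_mod_cast nm_pos.mpr hd.g₂.1.ne_zero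
  have pE : 0 < d.x.En n := by
    show (0 : ℝ) < nm d.g₂ * (2 ^ n 7 * (2 ^ n 8 * 2 ^ n 10)); positivity
  have pNb : 0 < Nbn d.x Nα n := by unfold Nbn; positivity
  have hyb := yb_le hX H R hBo
  obtain ⟨t1, t2, t3⟩ := HT n k nus nR nU R K hNn hBo
  -- the dual length
  have hL : Lf d.x X lt (lg (rrk 1 d.Pr)) (lg (rrk 2 d.Pr)) Nα Rw n =
      Ls X lt (lg (rrk 1 d.Pr)) (lg (rrk 2 d.Pr)) n := by
    unfold Lf
    refine if_pos (Or.inr ?_)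
    rcases HL.c6 with h | ⟨h6, -⟩
    · exact h.elim
    obtain ⟨q', hq'⟩ : ∃ q' : ℝ, lx X q' ≤ 2 * (n 5 * lx X 2) + n 4 * lx X 2 +
        lx X (nk (d.b ^ 2) * nm d.D) + 4 * τ := by
      refine ⟨X ^ (2 * (n 5 * lx X 2) + n 4 * lx X 2 + lx X (nk (d.b ^ 2) * nm d.D) + 4 * τ), ?_⟩
      rw [lx_rpow_self hX]
    obtain ⟨C, -⟩ := cel_of hX H R.S1 R.S2 R.P1 R.P2 R.σ1 R.σ2 R.w1 R.w2 R.u1 R.u2 R.s1 R.s2
      R.us1 R.us2 hBm hBo hBo' hq'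
    have hl := ls_lc (lt := lt) hX C rfl rfl
    have CC := C.ce (k := lx X d.κ) (n := lx X Nα) (s0 := 0)
    have hlb := CE.lb CC (lt := lt) (m := 1 / 30) hl h6
    have eE : lx X (d.x.En n) = Ec (lx X (nm d.g₂)) (n 7 * lx X 2) (n 8 * lx X 2)
        (n 10 * lx X 2) := by
      show lx X ((nm d.g₂ : ℝ) * (2 ^ n 7 * (2 ^ n 8 * 2 ^ n 10))) = _
      rw [lx_mul pg2 (by positivity), lx_mul (by positivity) (by positivity),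
        lx_mul (by positivity) (by positivity), lx_pow, lx_pow, lx_pow]
      unfold Ec
      ring
    have eNb : lx X (Nbn d.x Nα n) = Nbc (lx X Nα) 0 (lx X (nm d.g₂)) (n 7 * lx X 2)
        (n 8 * lx X 2) (n 10 * lx X 2) (n 9 * lx X 2) (n 6 * lx X 2) := by
      unfold Nbn Nbc
      rw [lx_div (by positivity) pE, lx_mul hNα (by positivity),
        lx_mul (by positivity) (by positivity), eE, lx_pow, lx_pow]
      ring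
    refine lt_of_lx hX pNb ?_
    have hLp : 0 < Ls X lt (lg (rrk 1 d.Pr)) (lg (rrk 2 d.Pr)) n := Ls_pos hX0 _ _ _
    have e8 : lx X 8 = 3 * lx X 2 := by
      rw [show (8 : ℝ) = 2 ^ 3 by norm_num, lx_pow]
      push_cast
      ring
    have hR : lx X (Real.exp Rw) ≤ τ := lx_le_of hX (Real.exp_pos _) hRw
    rw [lx_mul (by norm_num) (by positivity), lx_mul hLp (Real.exp_pos _), e8, eNb]
    have := H.c1
    linarith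
  have key := phi_cls (k := k) (W1 := W1 n k) hX H hd hNα hE hth hd0 hd8 HL hfg R K hBm hBo
    hBo' hL
    (hW0 n k) (fun h => h.elim) (hWz n k) (hW n k K)
    (TD := TSD d.x.α d.x.e₀ d.x.c₀ (d.x.Ee n) (d.x.Ln cw n))
    (T1 := TSR d.x.α d.x.e₀ d.x.c₀ 1 (d.x.Ee n) (YsC d.g₁ m n k.1) (d.x.Ln cw n))
    (T2 := TSR d.x.α d.x.e₀ d.x.c₀ (1 / 2) (d.x.Ee n) (YsC d.g₁ m n k.1) (d.x.Ln cw n))
    (TSD_nonneg _ _ _ _ _) (TSR_nonneg _ _ _ _ _ _ _) (TSR_nonneg _ _ _ _ _ _ _)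
    (t1.trans (up _ _ (by linarith)))
    (t2.trans (up _ _ (by
      have : min F (lx X ((2 : ℝ) ^ Yb m n)) ≤ min F (κ₀ * (z'.Y1 + z'.c12 + z'.nu)) + 10 * τ := by
        rcases le_total F (κ₀ * (z'.Y1 + z'.c12 + z'.nu)) with h | h
        · rw [min_eq_left h]
          exact (min_le_left _ _).trans (by linarith)
        · rw [min_eq_right h]
          exact (min_le_right _ _).trans hyb
      linarith)))
    (t3.trans (up _ _ (by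
      have : min F (lx X ((2 : ℝ) ^ Yb m n)) ≤ min F (κ₀ * (z'.Y1 + z'.c12 + z'.nu)) + 10 * τ := by
        rcases le_total F (κ₀ * (z'.Y1 + z'.c12 + z'.nu)) with h | h
        · rw [min_eq_left h]
          exact (min_le_left _ _).trans (by linarith)
        · rw [min_eq_right h]
          exact (min_le_right _ _).trans hyb
      linarith)))
    (le_refl _)
  exact key

/-- **the numbers of the classes**, closer `XPV` -/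
theorem phis_PV {T0 δ₀ F f ex : ℝ} (hX : 1 < X)
    (H : BSz X κ₀ τ z' N mx m (lg d.g₁) (lg (rrk 1 d.Pr)) (lg (rrk 2 d.Pr)) (lg s₁) Bo Bo' d.V
      d.κ Nα Bm (nk (d.b ^ 2) * nm d.D) (nm d.c₀) (nm d.g₁) (nm d.g₂))
    (hd : d.OK) (hNα : 0 < Nα) (hE : 0 ≤ E_) (hth : ‖th d.c₀‖ ≤ X ^ τ)
    (hv1 : 0 ≤ κ₀ * z'.v1)
    (HC : XPV (κ₀ * z'.k) (κ₀ * z'.v1) (κ₀ * z'.lqt) (κ₀ * (z'.c12 + z'.s1)) f mx ex)
    (hf : min F (κ₀ * (z'.Y1 + z'.c12 + z'.nu)) ≤ f + τ)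
    (HT : TNum d cw X T0 Nα F τ Bo m β₀ s₁)
    {A : Fin 4 → (Fin 12 → ℕ) → Eis × Eis → ℝ}
    (hA0 : ∀ n k, A 0 n k ≤ E_)
    (hA1 : ∀ n k, A 1 n k ≤ AA d.x E_ Nα (Lg X (-(2000 * τ)) (lg (rrk 1 d.Pr))
      (lg (rrk 2 d.Pr)) n) 0 n 1)
    (hA2 : ∀ n k, A 2 n k = 0) (hA3 : ∀ n k, A 3 n k = 0) :
    Phis d cw 1 1 Bm Bo Bo' m β₀ s₁ A
      (E_ * X ^ (κ₀ * (z'.k + 2 * z'.lam) + (T0 - κ₀ * (z'.v + z'.us) / 3 -
        κ₀ * (N - z'.β) / 3) + ex - mx + 60000 * τ)) := by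
  intro n k nus nR nU R K hPr hNn hs hBm hBo hBo'
  have hX0 : 0 < X := by linarith
  have hτ0 := H.τ0
  have hc := lx2_pos hX
  have hτp : 0 < τ := by linarith [H.c1]
  have up : ∀ a b : ℝ, a ≤ b → X ^ a ≤ X ^ b := fun a b h =>
    Real.rpow_le_rpow_of_exponent_le hX.le h
  have hyb := yb_le hX H R hBo
  obtain ⟨t1, t2, -⟩ := HT n k nus nR nU R K hNn hBo
  have HL := lines_PV (d := 0) (n := lx X Nα) (R1 := κ₀ * z'.R1) (R2 := κ₀ * z'.R2) (u' := 0)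
    (y1 := κ₀ * (z'.Y0 + z'.Y1)) (y2 := κ₀ * (z'.c02 + z'.c12 + z'.nu)) (T0 := T0) (fg := f)
    (t := 2000 * τ) (by positivity) (by linarith) HC True trivial
  -- the dual length
  have hL : Lg X (-(2000 * τ)) (lg (rrk 1 d.Pr)) (lg (rrk 2 d.Pr)) n =
      Ls X (-(2000 * τ)) (lg (rrk 1 d.Pr)) (lg (rrk 2 d.Pr)) n := by
    unfold Lg
    refine if_pos ?_
    obtain ⟨q', hq'⟩ : ∃ q' : ℝ, lx X q' ≤ 2 * (n 5 * lx X 2) + n 4 * lx X 2 +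
        lx X (nk (d.b ^ 2) * nm d.D) + 4 * τ := by
      refine ⟨X ^ (2 * (n 5 * lx X 2) + n 4 * lx X 2 + lx X (nk (d.b ^ 2) * nm d.D) + 4 * τ), ?_⟩
      rw [lx_rpow_self hX]
    obtain ⟨C, -⟩ := cel_of hX H R.S1 R.S2 R.P1 R.P2 R.σ1 R.σ2 R.w1 R.w2 R.u1 R.u2 R.s1 R.s2
      R.us1 R.us2 hBm hBo hBo' hq'
    have hl := (abs_le.mp (ls_lc (lt := -(2000 * τ)) hX C rfl rfl)).2
    refine lt_one_of_lx hX ?_
    unfold Lc at hl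
    have a1 := le_max_left 0 (n 7 * lx X 2 - (lg (rrk 2 d.Pr)) * lx X 2)
    have a2 := le_max_left 0 (n 4 * lx X 2 - nus * lx X 2 -
      (n 7 * lx X 2 - (lg (rrk 2 d.Pr)) * lx X 2))
    have a3 := C.gp
    have a4 := C.hp
    have a5 := C.δp
    linarith
  have hlt := Lg_lt (X := X) (-(2000 * τ)) (lg (rrk 1 d.Pr)) (lg (rrk 2 d.Pr)) n
  have hTp0 := TSD_nonneg d.x.α d.x.e₀ d.x.c₀ (d.x.Ee n) (d.x.Ln cw n)
  have hTp1 := TSR_nonneg d.x.α d.x.e₀ d.x.c₀ 1 (d.x.Ee n) (YsC d.g₁ m n k.1) (d.x.Ln cw n)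
  have key := phi_cls (k := k) (W1 := 0) (T2 := 0) (L := Lg X (-(2000 * τ)) (lg (rrk 1 d.Pr))
    (lg (rrk 2 d.Pr)) n) hX H hd hNα hE hth (le_refl 0) (by norm_num) HL (le_refl f) R K
    hBm hBo hBo' hL (le_refl 0) (fun _ => rfl) (fun _ => rfl)
    (fun h => absurd h (not_le.mpr hlt))
    (TD := TSD d.x.α d.x.e₀ d.x.c₀ (d.x.Ee n) (d.x.Ln cw n))
    (T1 := TSR d.x.α d.x.e₀ d.x.c₀ 1 (d.x.Ee n) (YsC d.g₁ m n k.1) (d.x.Ln cw n))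
    hTp0 hTp1 (le_refl 0)
    (t1.trans (up _ _ (by linarith)))
    (t2.trans (up _ _ (by
      have : min F (lx X ((2 : ℝ) ^ Yb m n)) ≤ min F (κ₀ * (z'.Y1 + z'.c12 + z'.nu)) + 10 * τ := by
        rcases le_total F (κ₀ * (z'.Y1 + z'.c12 + z'.nu)) with h | h
        · rw [min_eq_left h]
          exact (min_le_left _ _).trans (by linarith)
        · rw [min_eq_right h]
          exact (min_le_right _ _).trans hyb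
      linarith)))
    (by positivity)
    (M := d.x.MomR cw k (YsC d.g₁ m n k.1) n (A 0 n k) (A 1 n k) (A 2 n k) (A 3 n k))
    (by
      unfold XF.MomR
      rw [hA2, hA3]
      have e3 : AA d.x E_ Nα (Lg X (-(2000 * τ)) (lg (rrk 1 d.Pr)) (lg (rrk 2 d.Pr)) n) 0 n 3 =
          0 := by
        show E_ * (_ * (_ * 0)) = 0
        ring
      rw [e3]
      have e0 : AA d.x E_ Nα (Lg X (-(2000 * τ)) (lg (rrk 1 d.Pr)) (lg (rrk 2 d.Pr)) n) 0 n 0 =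
          E_ := rfl
      rw [e0]
      have i0 := mul_le_mul_of_nonneg_right (hA0 n k) hTp0
      have i1 := mul_le_mul_of_nonneg_right (hA1 n k) hTp1
      simp only [zero_mul, mul_zero, add_zero]
      exact add_le_add i0 i1)
  refine le_trans key ?_
  refine mul_le_mul_of_nonneg_left (up _ _ (by linarith)) hE

end

end Crest.Agent.R017.XL842
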