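import Crest.Agent.R017.E4RI_858

/-!
# Row 17, C70/E4 version 7: the exponents of one term (helper352)

The components of a term as real numbers: `lg x = log (nm x)`, sums over the primes of the prefix.

* `alS`, `BS`, `bS`, `tauS`, `lqS`, `RS`, `lS`, `mS`, `eS` : 393's nine sums
* `wP_eq` : the weight of a prefix
* `bkP`, `cP` : cube-free kernel of `b'`
* `dir_log`, `fe_log` : the ranges
* `Spl` : the splittings of 792's `YG_move`; `spl_*`
-/

set_option autoImplicit false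
set_option linter.unusedSectionVars false

noncomputable section

open Complex
open scoped ComplexConjugate

namespace Crest.Agent.R017.E4Dic352

open Crest.Agent.R012 Crest.Agent.R012.Eis Crest.Agent.R012.Mob705
open Crest.Agent.R012.Div277 (nm_le_of_dvd)
open Crest.Agent.R017.Sx545 Crest.Agent.R017.CM106 Crest.Agent.R017.C70
open Crest.Agent.R017.E4352 Crest.Agent.R017.E4J352
open Crest.Agent.R017.E4RG858 (fm pow_dvd_iff dvd_iff_mult mult_mul mult_pow mult_eq_zero fac rho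
  rho_nonneg)
open Crest.Agent.R017.E4RH858

/-- logarithm of the norm -/
def lg (x : Eis) : ℝ := Real.log (nm x)

lemma lg_one : lg 1 = 0 := by unfold lg; rw [nm_one]; simp

lemma lg_nonneg (x : Eis) : 0 ≤ lg x := Real.log_natCast_nonneg _

lemma nm_ne {x : Eis} (h : x ≠ 0) : (nm x : ℝ) ≠ 0 := by
  have := nm_pos.mpr h
  positivity

lemma nm_pos' {x : Eis} (h : x ≠ 0) : (0 : ℝ) < nm x := by exact_mod_cast nm_pos.mpr h

lemma lg_mul {a b : Eis} (ha : a ≠ 0) (hb : b ≠ 0) : lg (a * b) = lg a + lg b := by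
  unfold lg
  rw [nm_mul, Nat.cast_mul, Real.log_mul (nm_ne ha) (nm_ne hb)]

lemma lg_pow (a : Eis) (n : ℕ) : lg (a ^ n) = n * lg a := by
  unfold lg
  rw [nm_pow, Nat.cast_pow, Real.log_pow]

lemma exp_lg {x : Eis} (h : x ≠ 0) : Real.exp (lg x) = nm x := Real.exp_log (nm_pos' h)

lemma lg_prod {S : Finset Eis} (hS : ∀ p ∈ S, p ≠ 0) (k : Eis → ℕ) :
    lg (∏ p ∈ S, p ^ k p) = ∑ p ∈ S, (k p : ℝ) * lg p := by
  classical
  induction S using Finset.induction_on with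
  | empty => simp [lg_one]
  | insert a S ha ih =>
    have h0 : ∀ p ∈ S, p ≠ 0 := fun p hp => hS p (Finset.mem_insert_of_mem hp)
    rw [Finset.prod_insert ha, Finset.sum_insert ha, lg_mul
      (pow_ne_zero _ (hS a (Finset.mem_insert_self _ _)))
      (Finset.prod_ne_zero_iff.mpr fun p hp => pow_ne_zero _ (h0 p hp)), lg_pow, ih h0]

lemma ne_of_mem {S : Finset Eis} (hS : PPSet S) : ∀ p ∈ S, p ≠ 0 := fun p hp =>
  (hS p hp).prime.ne_zero

lemma lg_prod1 {S : Finset Eis} (hS : ∀ p ∈ S, p ≠ 0) : lg (∏ p ∈ S, p) = ∑ p ∈ S, lg p := by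
  have h := lg_prod hS (fun _ => 1)
  simpa using h

lemma lg_fac {n : Eis} (hn : IsPrim n) {S : Finset Eis} (hS : PPSet S) (h : pp n ⊆ S) :
    lg n = ∑ p ∈ S, (multiplicity p n : ℝ) * lg p := by
  conv_lhs => rw [fac hn hS h]
  exact lg_prod (ne_of_mem hS) _

/-- a partial factorization -/
lemma lg_ge {n : Eis} (hn : IsPrim n) {S : Finset Eis} (hS : PPSet S) :
    ∑ p ∈ S, (multiplicity p n : ℝ) * lg p ≤ lg n := by
  classical
  have h1 : PPSet (S ∪ pp n) := by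
    intro p hp
    rcases Finset.mem_union.mp hp with h | h
    · exact hS p h
    · exact isPP_of_mem_pp h
  rw [lg_fac hn h1 Finset.subset_union_right]
  exact Finset.sum_le_sum_of_subset_of_nonneg Finset.subset_union_left
    fun p _ _ => mul_nonneg (Nat.cast_nonneg _) (lg_nonneg p)

/-! ### the sums over the primes of a prefix -/

/-- the primes of a prefix -/
abbrev SP (P : Pf) : Finset Eis := pp (P.B * P.b)

/-- `∑ 2 (1 - rho)` -/
def alS (P : Pf) : ℝ := ∑ p ∈ SP P,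
  2 * (1 - rho (multiplicity p (P.F * P.R' * P.Z')) (multiplicity p P.b)) * lg p

/-- `∑ v_B` -/
def BS (P : Pf) : ℝ := ∑ p ∈ SP P, (multiplicity p P.B : ℝ) * lg p

/-- `∑ v_b` -/
def bS (P : Pf) : ℝ := ∑ p ∈ SP P, (multiplicity p P.b : ℝ) * lg p

/-- `∑ (v_b mod 3)` -/
def tauS (P : Pf) : ℝ := ∑ p ∈ SP P, ((multiplicity p P.b % 3 : ℕ) : ℝ) * lg p

/-- `∑ (2 v_b mod 3)` -/
def lqS (P : Pf) : ℝ := ∑ p ∈ SP P, ((2 * multiplicity p P.b % 3 : ℕ) : ℝ) * lg p

/-- `∑ v_R` -/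
def RS (P : Pf) : ℝ := ∑ p ∈ SP P, ((multiplicity p P.R + multiplicity p P.R' : ℕ) : ℝ) * lg p

/-- `∑ v_l` -/
def lS (P : Pf) (l : Eis) : ℝ := ∑ p ∈ SP P, (multiplicity p l : ℝ) * lg p

open Classical in
/-- `∑ [p ∣ e₀]` -/
def eS (e₀ : Eis) (P : Pf) : ℝ := ∑ p ∈ SP P, (if p ∣ e₀ then 1 else 0) * lg p

lemma sum_nonneg' {S : Finset Eis} {g : Eis → ℝ} (h : ∀ p ∈ S, 0 ≤ g p) :
    0 ≤ ∑ p ∈ S, g p * lg p := Finset.sum_nonneg fun p hp => mul_nonneg (h p hp) (lg_nonneg p)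

lemma rho_le (a k : ℕ) : rho a k ≤ 1 := by
  unfold rho
  split_ifs <;> norm_num

lemma alS_nonneg (P : Pf) : 0 ≤ alS P := sum_nonneg' fun p _ => by
  have := rho_le (multiplicity p (P.F * P.R' * P.Z')) (multiplicity p P.b)
  linarith
lemma BS_nonneg (P : Pf) : 0 ≤ BS P := sum_nonneg' fun _ _ => Nat.cast_nonneg _
lemma bS_nonneg (P : Pf) : 0 ≤ bS P := sum_nonneg' fun _ _ => Nat.cast_nonneg _
lemma tauS_nonneg (P : Pf) : 0 ≤ tauS P := sum_nonneg' fun _ _ => Nat.cast_nonneg _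
lemma lqS_nonneg (P : Pf) : 0 ≤ lqS P := sum_nonneg' fun _ _ => Nat.cast_nonneg _
lemma RS_nonneg (P : Pf) : 0 ≤ RS P := sum_nonneg' fun _ _ => Nat.cast_nonneg _
lemma lS_nonneg (P : Pf) (l : Eis) : 0 ≤ lS P l := sum_nonneg' fun _ _ => Nat.cast_nonneg _
lemma eS_nonneg (e₀ : Eis) (P : Pf) : 0 ≤ eS e₀ P := sum_nonneg' fun _ _ => by
  split_ifs <;> norm_num

open Classical in
/-- **the weight of a prefix** -/
theorem wP_eq (e₀ : Eis) (P : Pf) : wP e₀ P = Real.exp (alS P / 2 - eS e₀ P) := by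
  have hS : PPSet (SP P) := ppSet_pp _
  have h0 := ne_of_mem hS
  have h1 : (nm (r0 e₀ P) : ℝ) = Real.exp (∑ p ∈ SP P, (if p ∣ e₀ then 0 else 1) * lg p) := by
    have h2 : r0 e₀ P ≠ 0 := by
      unfold r0
      exact Finset.prod_ne_zero_iff.mpr fun p hp => h0 p (Finset.mem_filter.mp hp).1
    rw [← exp_lg h2]
    congr 1
    unfold r0
    rw [lg_prod1 fun p hp => h0 p (Finset.mem_filter.mp hp).1, Finset.sum_filter]
    refine Finset.sum_congr rfl fun p _ => ?_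
    split_ifs <;> simp
  have h2 : rat P = Real.exp (∑ p ∈ SP P,
      -rho (multiplicity p (P.F * P.R' * P.Z')) (multiplicity p P.b) * lg p) := by
    rw [Real.exp_sum]
    unfold rat
    refine Finset.prod_congr rfl fun p hp => ?_
    rw [Real.rpow_def_of_pos (nm_pos' (h0 p hp))]
    unfold lg
    rw [mul_comm]
  unfold wP
  rw [h1, h2, ← Real.exp_add]
  congr 1
  unfold alS eS
  rw [Finset.sum_div, ← Finset.sum_add_distrib, ← Finset.sum_sub_distrib]
  refine Finset.sum_congr rfl fun p _ => ?_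
  split_ifs <;> ring

/-! ### the cube-free kernel of `b'` -/

/-- the cube-free kernel of `b'` -/
def bkP (P : Pf) : Eis := ∏ p ∈ SP P, p ^ (multiplicity p P.b % 3)

/-- the cube root of the rest -/
def cP (P : Pf) : Eis := ∏ p ∈ SP P, p ^ (multiplicity p P.b / 3)

lemma prim_bkP (P : Pf) : IsPrim (bkP P) := prim_pow (ppSet_pp _) _

lemma prim_cP (P : Pf) : IsPrim (cP P) := prim_pow (ppSet_pp _) _

lemma lg_bkP (P : Pf) : lg (bkP P) = tauS P := lg_prod (ne_of_mem (ppSet_pp _)) _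

variable {O : Type} {M : Eis} {t : Tm O}

section facts

variable (h : Facts M t)
include h

lemma pp_sub {n : Eis} (hn : n ∣ (pf t).B * (pf t).b) : pp n ⊆ SP (pf t) :=
  pp_mono (mul_ne_zero h.sB.ne_zero h.sb.ne_zero) hn

lemma b_eq : (pf t).b = bkP (pf t) * cP (pf t) ^ 3 := by
  have h1 := fac h.sb.prim (ppSet_pp ((pf t).B * (pf t).b)) (pp_sub h (dvd_mul_left _ _))
  conv_lhs => rw [h1]
  unfold bkP cP
  rw [← Finset.prod_pow, ← Finset.prod_mul_distrib]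
  refine Finset.prod_congr rfl fun p _ => ?_
  rw [← pow_mul, ← pow_add]
  congr 1
  omega

/-- the shape of 61's prefix -/
lemma b_eq' : t.b = b1 t ^ 2 * (bkP (pf t) * cP (pf t) ^ 3) := by
  rw [← b_eq h]; exact h.b

lemma lgB : lg t.B = BS (pf t) :=
  lg_fac (n := (pf t).B) h.sB.prim (ppSet_pp _) (pp_sub h (dvd_mul_right _ _))

lemma lgb' : lg (pf t).b = bS (pf t) :=
  lg_fac h.sb.prim (ppSet_pp _) (pp_sub h (dvd_mul_left _ _))

lemma lgb : lg t.b = 2 * lg (b1 t) + bS (pf t) := by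
  rw [h.b, lg_mul (pow_ne_zero _ h.sb1.ne_zero) h.sb.ne_zero, lg_pow, lgb' h]
  push_cast
  ring

lemma sub_of_PrI {q n : Eis} (hq : q ∣ (pf t).B * (pf t).b) (hn : PrI q n) :
    pp n ⊆ SP (pf t) := by
  intro p hp
  have h1 := isPP_of_mem_pp hp
  exact (mem_pp (mul_ne_zero h.sB.ne_zero h.sb.ne_zero)).mpr
    ⟨h1, (hn.2 p h1.prime (dvd_of_mem_pp hp)).trans hq⟩

lemma lgR : lg (t.R * t.R') = RS (pf t) := by
  have h1 := lg_fac h.pR.1 (ppSet_pp _) (sub_of_PrI h (dvd_mul_right _ _) h.pR)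
  have h2 := lg_fac h.pR'.1 (ppSet_pp _) (sub_of_PrI h (dvd_mul_left _ _) h.pR')
  have h3 : lg (t.R * t.R') = lg (pf t).R + lg (pf t).R' :=
    lg_mul h.pR.1.ne_zero h.pR'.1.ne_zero
  rw [h3, h1, h2, ← Finset.sum_add_distrib]
  unfold RS
  refine Finset.sum_congr rfl fun p _ => ?_
  push_cast
  ring

end facts

/-! ### the ranges -/

/-- exponent of the frequency with its outer factor -/
def kap (lam : O → ℝ) (t : Tm O) : ℝ := Real.log (lam t.o * nm t.k)

variable {lam : O → ℝ}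

/-- **the direct range** -/
theorem dir_log (h : Facts M t) (hD : t.D1 ≠ 0) (hk : t.k ≠ 0) (hlam : 0 < lam t.o) {K : ℝ}
    {sw : Eis → Eis → Eis → Eis → Eis → Prop} (hr : rngD sw lam K t) :
    kap lam t + 2 * lg t.D1 + 3 * BS (pf t) + 2 * lg (b1 t) + bS (pf t) ≤ Real.log K := by
  have h1 := hr.2
  rw [h.D0, one_mul] at h1
  have hB : t.B ≠ 0 := h.sB.ne_zero
  have hb : t.b ≠ 0 := by rw [h.b]; exact mul_ne_zero (pow_ne_zero _ h.sb1.ne_zero) h.sb.ne_zero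
  have e : lam t.o * (nm (t.D1 ^ 2 * t.B ^ 3 * (t.b * t.k)) : ℝ) =
      (lam t.o * nm t.k) * ((nm t.D1 : ℝ) ^ 2 * (nm t.B : ℝ) ^ 3 * nm t.b) := by
    rw [nm_mul, nm_mul, nm_mul, nm_pow, nm_pow]
    push_cast
    ring
  have p1 := nm_pos' hD
  have p2 := nm_pos' hB
  have p3 := nm_pos' hb
  have p4 := nm_pos' hk
  have h2 : Real.log (lam t.o * (nm (t.D1 ^ 2 * t.B ^ 3 * (t.b * t.k)) : ℝ)) =
      kap lam t + (2 * lg t.D1 + 3 * lg t.B + lg t.b) := by
    have q1 : (nm t.D1 : ℝ) ^ 2 * (nm t.B : ℝ) ^ 3 ≠ 0 := by positivity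
    rw [e, Real.log_mul (mul_pos hlam p4).ne' (mul_ne_zero q1 p3.ne'),
      Real.log_mul q1 p3.ne', Real.log_mul (pow_ne_zero 2 p1.ne') (pow_ne_zero 3 p2.ne'),
      Real.log_pow, Real.log_pow]
    unfold kap lg
    push_cast
    ring
  have h3 : Real.log (lam t.o * (nm (t.D1 ^ 2 * t.B ^ 3 * (t.b * t.k)) : ℝ)) ≤ Real.log K := by
    refine Real.log_le_log ?_ h1
    rw [e]
    positivity
  rw [h2, lgB h, lgb h] at h3
  linarith

/-- **the dual range** -/
theorem fe_log (h : Facts M t) (hD : t.D1 ≠ 0) (hk : t.k ≠ 0) (hlam : 0 < lam t.o) {L : ℝ}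
    (hL : 0 < L) {sw : Eis → Eis → Eis → Eis → Eis → Prop} (hr : rngF sw lam L t) :
    kap lam t + 2 * lg (b1 t) + bS (pf t) ≤ Real.log L + lg t.D1 := by
  have h1 := hr.2
  rw [h.D0, one_mul] at h1
  have hb : t.b ≠ 0 := by rw [h.b]; exact mul_ne_zero (pow_ne_zero _ h.sb1.ne_zero) h.sb.ne_zero
  have e : lam t.o * (nm (t.b * t.k) : ℝ) = (lam t.o * nm t.k) * nm t.b := by
    rw [nm_mul]
    push_cast
    ring
  have p1 := nm_pos' hD
  have p3 := nm_pos' hb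
  have p4 := nm_pos' hk
  have h2 : Real.log (lam t.o * (nm (t.b * t.k) : ℝ)) = kap lam t + lg t.b := by
    rw [e, Real.log_mul (by positivity) (by positivity)]
    rfl
  have h3 : Real.log (lam t.o * (nm (t.b * t.k) : ℝ)) ≤ Real.log (L * nm t.D1) := by
    refine Real.log_le_log ?_ h1
    rw [e]
    positivity
  rw [h2, lgb h, Real.log_mul hL.ne' p1.ne'] at h3
  change _ ≤ Real.log L + lg t.D1 at h3
  linarith

/-- the logarithm of the `y`-frequency -/
theorem lg_freq (h : Facts M t) {ν : Eis} (hν : ν ≠ 0) (hD : t.D1 ≠ 0) (hk : t.k ≠ 0) :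
    lg (t.k * ν * t.D1 ^ 2 * (b1 t ^ 2 * bkP (pf t))) =
      lg t.k + lg ν + 2 * lg t.D1 + 2 * lg (b1 t) + tauS (pf t) := by
  have h1 := h.sb1.ne_zero
  have h2 := (prim_bkP (pf t)).ne_zero
  rw [lg_mul (mul_ne_zero (mul_ne_zero hk hν) (pow_ne_zero _ hD))
    (mul_ne_zero (pow_ne_zero _ h1) h2), lg_mul (mul_ne_zero hk hν) (pow_ne_zero _ hD),
    lg_mul hk hν, lg_mul (pow_ne_zero _ h1) h2, lg_pow, lg_pow, lg_bkP]
  push_cast
  ring

/-! ### the splittings -/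

/-- the splittings of 792's `YG_move` -/
structure Spl (M e₀ z : Eis) (t : Tm O) (f1 f2 f3 D1' Z'' l m : Eis) : Prop where
  hf : e₀ = f1 * f2 * f3
  s1 : Sm M f1
  s2 : Sm M f2
  s3 : Sm M f3
  hD : t.D1 = f1 * D1'
  hZ : t.Z * t.Z' = f2 * Z''
  c3 : IsCoprime f3 t.D1
  c3' : IsCoprime f3 (t.B * t.b)
  p2 : PrI (t.B * t.b) f2
  pl : IsPrim l
  pm : IsPrim m
  hl : l * m ^ 2 = z * Z''
  pz : PrI M z

open Classical in
/-- the primes of `b₁` outside `f2` -/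
def beS (t : Tm O) (f2 : Eis) : ℝ := ∑ p ∈ s1 t, (if p ∣ f2 then 0 else 1) * lg p

open Classical in
/-- the primes of `b₁` in `f2` -/
def bfS (t : Tm O) (f2 : Eis) : ℝ := ∑ p ∈ s1 t, (if p ∣ f2 then 1 else 0) * lg p

lemma beS_nonneg (t : Tm O) (f2 : Eis) : 0 ≤ beS t f2 := sum_nonneg' fun _ _ => by
  split_ifs <;> norm_num

lemma bfS_nonneg (t : Tm O) (f2 : Eis) : 0 ≤ bfS t f2 := sum_nonneg' fun _ _ => by
  split_ifs <;> norm_num

lemma lg_b1 (t : Tm O) (f2 : Eis) : lg (b1 t) = beS t f2 + bfS t f2 := by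
  unfold b1 beS bfS
  rw [lg_prod1 (ne_of_mem (ps1 t)), ← Finset.sum_add_distrib]
  refine Finset.sum_congr rfl fun p _ => ?_
  split_ifs <;> ring

section spl

variable {e₀ z f1 f2 f3 D1' Z'' l m : Eis}

variable (s : Spl M e₀ z t f1 f2 f3 D1' Z'' l m) (h : Facts M t) (hok : t.OK M 1)
include s h hok

lemma spl_nz : Z'' ≠ 0 := by
  intro h0
  have h1 := s.hZ
  rw [h0, mul_zero] at h1
  exact mul_ne_zero hok.pZ.1.ne_zero hok.pZ'.1.ne_zero h1

lemma spl_e0 : e₀ ≠ 0 := by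
  rw [s.hf]
  exact mul_ne_zero (mul_ne_zero s.s1.ne_zero s.s2.ne_zero) s.s3.ne_zero

/-- **the local facts of a splitting** -/
lemma spl_loc {p : Eis} (hp : p ∈ pp (t.B * t.b)) :
    multiplicity p f2 = multiplicity p e₀ ∧
    multiplicity p t.Z + multiplicity p t.Z' =
      multiplicity p e₀ + (multiplicity p l + 2 * multiplicity p m) := by
  have hpp := (isPP_of_mem_pp hp).prime
  have hpd := dvd_of_mem_pp hp
  have nZ := hok.pZ.1.ne_zero
  have nZ' := hok.pZ'.1.ne_zero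
  have nZ2 := spl_nz s h hok
  have sBb : Sm M (t.B * t.b) := hok.gb.2.1.mul hok.sb
  have hpM : ¬ p ∣ M := fun h1 => hpp.not_isUnit (sBb.cop.isUnit_of_dvd' hpd h1)
  have hpz : ¬ p ∣ z := fun h1 => hpM (s.pz.2 p hpp h1)
  have hpD : ¬ p ∣ t.D1 := by
    intro h1
    by_cases h2 : p ∈ s1 t
    · have h3 : p ∣ b1 t := Finset.dvd_prod_of_mem _ h2
      exact hpp.not_isUnit (h.c1D.isUnit_of_dvd' h3 h1)
    · have h3 : p ∈ s2 t := by
        rw [mem_s2]
        exact ⟨hp, fun h4 => h2 (mem_s1.mpr ⟨hp, h4⟩)⟩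
      rw [← h.ps] at h3
      exact hpp.not_isUnit (h.cD.isUnit_of_dvd' (dvd_of_mem_pp h3) h1)
  have hp1 : multiplicity p f1 = 0 := mult_eq_zero hpp s.s1.ne_zero fun h1 => hpD (by
    rw [s.hD]; exact h1.mul_right _)
  have hp3 : multiplicity p f3 = 0 := mult_eq_zero hpp s.s3.ne_zero fun h1 =>
    hpp.not_isUnit (s.c3'.isUnit_of_dvd' h1 hpd)
  have e1 : multiplicity p e₀ = multiplicity p f2 := by
    rw [s.hf, mult_mul hpp (mul_ne_zero s.s1.ne_zero s.s2.ne_zero) s.s3.ne_zero,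
      mult_mul hpp s.s1.ne_zero s.s2.ne_zero, hp1, hp3]
    omega
  refine ⟨e1.symm, ?_⟩
  have e2 : multiplicity p t.Z + multiplicity p t.Z' = multiplicity p f2 + multiplicity p Z'' := by
    rw [← mult_mul hpp nZ nZ', s.hZ, mult_mul hpp s.s2.ne_zero nZ2]
  have e3 : multiplicity p l + 2 * multiplicity p m = multiplicity p Z'' := by
    have h1 : multiplicity p (l * m ^ 2) = multiplicity p (z * Z'') := by rw [s.hl]
    rw [mult_mul hpp s.pl.ne_zero (pow_ne_zero _ s.pm.ne_zero), mult_pow hpp s.pm.ne_zero,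
      mult_mul hpp s.pz.1.ne_zero nZ2, mult_eq_zero hpp s.pz.1.ne_zero hpz] at h1
    omega
  rw [e1, e3]
  exact e2

/-- the primes of `b₁` -/
lemma spl_b1 {p : Eis} (hp : p ∈ s1 t) : multiplicity p m = 0 ∧
    ((p ∣ f2 ∧ multiplicity p l = 0 ∧ multiplicity p f2 = 1) ∨
      (¬ p ∣ f2 ∧ multiplicity p l = 1 ∧ multiplicity p f2 = 0)) := by
  obtain ⟨h1, h2⟩ := mem_s1.mp hp
  have hpp := (isPP_of_mem_pp h1).prime
  obtain ⟨h3, h4⟩ := spl_loc s h hok h1
  have h5 := h2.2.2.2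
  rw [mult_mul hpp hok.pZ.1.ne_zero hok.pZ'.1.ne_zero] at h5
  refine ⟨by omega, ?_⟩
  by_cases h6 : p ∣ f2
  · have h7 := (dvd_iff_mult hpp s.s2.ne_zero).mp h6
    exact Or.inl ⟨h6, by omega, by omega⟩
  · have h7 := mult_eq_zero hpp s.s2.ne_zero h6
    exact Or.inr ⟨h6, by omega, h7⟩

/-- the primes of the prefix -/
lemma spl_pf {p : Eis} (hp : p ∈ SP (pf t)) :
    multiplicity p (pf t).Z + multiplicity p (pf t).Z' =
      multiplicity p e₀ + (multiplicity p l + 2 * multiplicity p m) := by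
  have h1 : p ∈ s2 t := by rw [← h.ps]; exact hp
  rw [h.mZ p h1]
  exact (spl_loc s h hok (s2_sub t h1)).2

lemma sum_s12 (g : Eis → ℝ) : ∑ p ∈ pp (t.B * t.b), g p * lg p =
    (∑ p ∈ s1 t, g p * lg p) + ∑ p ∈ SP (pf t), g p * lg p := by
  classical
  have e : SP (pf t) = s2 t := h.ps
  rw [e]
  unfold s1 s2
  exact (Finset.sum_filter_add_sum_filter_not _ _ _).symm

/-- **the length taken from the amplifier side** -/
theorem spl_l : beS t f2 + lS (pf t) l ≤ lg l := by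
  refine le_trans (le_of_eq ?_) (lg_ge s.pl (ppSet_pp (t.B * t.b)))
  rw [sum_s12 s h hok]
  unfold beS lS
  congr 1
  refine Finset.sum_congr rfl fun p hp => ?_
  rcases (spl_b1 s h hok hp).2 with ⟨h1, h2, -⟩ | ⟨h1, h2, -⟩
  · rw [if_pos h1, h2]; simp
  · rw [if_neg h1, h2]; simp

/-- **the length taken from the two-lump side** -/
theorem spl_m : lS (pf t) m ≤ lg m := by
  refine le_trans (le_of_eq ?_) (lg_ge s.pm (ppSet_pp (t.B * t.b)))
  rw [sum_s12 s h hok]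
  unfold lS
  have e : ∑ p ∈ s1 t, (multiplicity p m : ℝ) * lg p = 0 := by
    refine Finset.sum_eq_zero fun p hp => ?_
    rw [(spl_b1 s h hok hp).1]
    simp
  rw [e, zero_add]

/-- **the budget of the kernel** -/
theorem spl_e : lg f1 + bfS t f2 + eS e₀ (pf t) ≤ lg e₀ := by
  have h1 : lg e₀ = lg f1 + lg f2 + lg f3 := by
    rw [s.hf, lg_mul (mul_ne_zero s.s1.ne_zero s.s2.ne_zero) s.s3.ne_zero,
      lg_mul s.s1.ne_zero s.s2.ne_zero]
  have h2 := lg_nonneg f3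
  have h3 : bfS t f2 + eS e₀ (pf t) ≤ lg f2 := by
    refine le_trans ?_ (lg_ge s.s2.prim (ppSet_pp (t.B * t.b)))
    rw [sum_s12 s h hok]
    unfold bfS eS
    refine add_le_add (Finset.sum_le_sum fun p hp => ?_) (Finset.sum_le_sum fun p hp => ?_)
    · rcases (spl_b1 s h hok hp).2 with ⟨h1, -, h2⟩ | ⟨h1, -, h2⟩
      · rw [if_pos h1, h2]; simp
      · rw [if_neg h1, h2]; simp
    · have h4 : p ∈ s2 t := by rw [← h.ps]; exact hp
      have h5 := (spl_loc s h hok (s2_sub t h4)).1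
      refine mul_le_mul_of_nonneg_right ?_ (lg_nonneg p)
      split_ifs with h6
      · have h7 := (dvd_iff_mult (isPP_of_mem_pp hp).prime (spl_e0 s h hok)).mp h6
        rw [h5]
        exact_mod_cast h7
      · exact Nat.cast_nonneg _
  linarith

end spl

end Crest.Agent.R017.E4Dic352
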