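import Crest.Agent.R017.E4LxC_266

/-!
# Row 17, C70/E4, case L with an arbitrary cubic character of level `M` (helper858), the machine

Copy of `E4LxB_266` (helper266) with S-unit data: all characters of the dual side are `(t/·)` with
`t` composed of primes of `M`.

* `SC M g` : `g b = sy t b` on `Sm M`, `t ∈ SM M`
* `RepC`, `HasC` : representations with S-unit data
* `step0`, `step1`, `step2` : adding a prime, the character acquires `(p/·)^e`, `e = 0, 1, 2`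
* `HasC.transfer` : change of the modulus
-/

set_option autoImplicit false

noncomputable section

open Complex MeasureTheory Set Filter Topology
open scoped ComplexConjugate ContDiff

namespace Crest.Agent.R017.E4LC858

open Crest.Agent.R012 Crest.Agent.R012.Eis Crest.Agent.R012.GaussLoc283
open Crest.Agent.R012.Gauss880 (syG)
open Crest.Agent.R017.FE47 (SM)
open Crest.Agent.R017.F1
open Crest.Agent.R017.X6C180 (IX dl' om' dl_SU SU.SM)
open Crest.Agent.R017.Sx545 (Sm sm_one_iff)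
open Crest.Agent.R017.End699 (HC)
open Crest.Agent.R017.A590
open Crest.Agent.R017.E2440 (NT DS Dcy c0 c1)
open Crest.Agent.R017.B770 (SW Rad0)
open Crest.Agent.R017.C590
open Crest.Agent.R017.E4352 (Law WT)
open Crest.Agent.R017.E4L266
open Crest.Agent.R017.E4X266

variable {M M₁ M' p u : Eis} {j l' : ℤ} {mm : (ℝ → ℂ) → ℝ → ℂ} {S S' : Eis → ℂ}
  {P : (ℝ → ℝ → ℂ) → Prop}

/-- characters `(t/·)` with `t` composed of primes of `M` -/
def SC (M : Eis) (g : Eis → ℂ) : Prop := ∃ t ∈ SM M, ∀ b, Sm M b → g b = sy t b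

lemma sm_mul_mem {M a b : Eis} (ha : a ∈ SM M) (hb : b ∈ SM M) : a * b ∈ SM M :=
  ⟨mul_ne_zero ha.1 hb.1, fun p hp hd => (hp.dvd_or_dvd hd).elim (ha.2 p hp) (hb.2 p hp)⟩

lemma one_mem_SM (M : Eis) : (1 : Eis) ∈ SM M :=
  ⟨one_ne_zero, fun _ hp hd => absurd (isUnit_of_dvd_one hd) hp.not_isUnit⟩

lemma SC.one (M : Eis) : SC M (fun _ => (1 : ℂ)) :=
  ⟨1, one_mem_SM M, fun _ hb => (syAx.one_left hb.1).symm⟩

lemma SC.mul {g g' : Eis → ℂ} (h : SC M g) (h' : SC M g') : SC M (fun b => g b * g' b) := by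
  obtain ⟨t, ht, h1⟩ := h
  obtain ⟨t', ht', h1'⟩ := h'
  refine ⟨t * t', sm_mul_mem ht ht', fun b hb => ?_⟩
  show g b * g' b = _
  rw [h1 b hb, h1' b hb, syAx.mul_left t t' b hb.1]

lemma SC.low {g : Eis → ℂ} (h : SC M₁ g) (hM : M₁ ∣ M) (hS : ∀ b, Sm M b → Sm M₁ b) : SC M g := by
  obtain ⟨t, ht, h1⟩ := h
  exact ⟨t, ⟨ht.1, fun p hp hd => (ht.2 p hp hd).trans hM⟩, fun b hb => h1 b (hS b hb)⟩

lemma SC.congr {g g' : Eis → ℂ} (h : SC M g) (hg : ∀ b, Sm M b → g' b = g b) : SC M g' := by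
  obtain ⟨t, ht, h1⟩ := h
  exact ⟨t, ht, fun b hb => (hg b hb).trans (h1 b hb)⟩

lemma SC.rst (hcop : ∀ b, Sm M b → IsCoprime b M') {g : Eis → ℂ} (h : SC M g) :
    SC M (Rst M' g) := h.congr fun b hb => Rst_of (hcop b hb)

/-- representation with main term, S-unit data -/
def RepC (P : (ℝ → ℝ → ℂ) → Prop) (M M' : Eis) (j l' : ℤ) (mm : (ℝ → ℂ) → ℝ → ℂ) (S : Eis → ℂ)
    (F : (ℝ → ℂ) → Eis → ℝ → ℝ → ℂ) : Prop :=
  ∃ (ι : Type) (_ : Fintype ι) (κ : ι → ℂ) (η ψ' : ι → Eis → ℂ) (ρ : ι → ℝ),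
    (∀ i, HC M' (η i) ∧ SC M (η i)) ∧ (∀ i, HC M' (ψ' i) ∧ SC M (ψ' i)) ∧ (∀ i, 0 < ρ i) ∧
    ∀ V : ℝ → ℂ, SW V → ∃ W : ι → ℝ → ℝ → ℂ, (∀ i, P (W i)) ∧
      ∀ u : Eis, Sm M u → ∀ Q : ℝ, 0 < Q → ∀ τ : ℝ,
        F V u Q τ = MT (mm V τ) (S u) Q + (Q : ℂ) * ∑ i, κ i * End699.tw (η i) j u *
          D3 M (End699.tw (ψ' i) l') u (W i τ) (ρ i * nm u / Q)

lemma RepC.congr {F G : (ℝ → ℂ) → Eis → ℝ → ℝ → ℂ} (hF : RepC P M M' j l' mm S F)
    (h : ∀ V, SW V → ∀ u, Sm M u → ∀ Q : ℝ, 0 < Q → ∀ τ, G V u Q τ = F V u Q τ)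
    (hS : ∀ u, Sm M u → S' u = S u) : RepC P M M' j l' mm S' G := by
  obtain ⟨ι, iι, κ, η, ψ', ρ, h1, h2, h3, h4⟩ := hF
  refine ⟨ι, iι, κ, η, ψ', ρ, h1, h2, h3, fun V hV => ?_⟩
  obtain ⟨W, hW, h5⟩ := h4 V hV
  refine ⟨W, hW, fun u hu Q hQ τ => ?_⟩
  rw [h V hV u hu Q hQ τ, h5 u hu Q hQ τ, hS u hu]

lemma RepC.add {F G : (ℝ → ℂ) → Eis → ℝ → ℝ → ℂ} (hF : RepC P M M' j l' mm S F)
    (hG : RepC P M M' j l' mm S' G) :
    RepC P M M' j l' mm (fun u => S u + S' u) (fun V u Q τ => F V u Q τ + G V u Q τ) := by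
  obtain ⟨ι, iι, κ, η, ψ', ρ, h1, h2, h3, h4⟩ := hF
  obtain ⟨ι2, iι2, κ2, η2, ψ2, ρ2, g1, g2, g3, g4⟩ := hG
  refine ⟨ι ⊕ ι2, inferInstance, Sum.elim κ κ2, Sum.elim η η2, Sum.elim ψ' ψ2, Sum.elim ρ ρ2,
    ?_, ?_, ?_, fun V hV => ?_⟩
  · rintro (i | i)
    · exact h1 i
    · exact g1 i
  · rintro (i | i)
    · exact h2 i
    · exact g2 i
  · rintro (i | i)
    · exact h3 i
    · exact g3 i
  · obtain ⟨W, hW, h5⟩ := h4 V hV
    obtain ⟨W2, hW2, g5⟩ := g4 V hV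
    refine ⟨Sum.elim W W2, ?_, fun u hu Q hQ τ => ?_⟩
    · rintro (i | i)
      · exact hW i
      · exact hW2 i
    · beta_reduce
      rw [Fintype.sum_sum_type, h5 u hu Q hQ τ, g5 u hu Q hQ τ]
      simp only [Sum.elim_inl, Sum.elim_inr]
      unfold MT
      ring

lemma RepC.cmul (hM0 : M' ≠ 0) (h3 : (3 : Eis) ∣ M') (hcop : ∀ b, Sm M b → IsCoprime b M')
    {F : (ℝ → ℂ) → Eis → ℝ → ℝ → ℂ} (hF : RepC P M M' j l' mm S F) (c : ℂ) {g : Eis → ℂ}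
    (hg : Uni M' g) (hgS : SC M g) :
    RepC P M M' j l' mm (fun u => c * g u * S u) (fun V u Q τ => c * g u * F V u Q τ) := by
  obtain ⟨ι, iι, κ, η, ψ', ρ, h1, h2, h3', h4⟩ := hF
  refine ⟨ι, iι, fun i => c * κ i, fun i => Rst M' (fun a => η i a * g a), ψ', ρ,
    fun i => ⟨hc_rst hM0 h3 ((uni_of_HC (h1 i).1).mul' hg), ((h1 i).2.mul hgS).rst hcop⟩,
    h2, h3', fun V hV => ?_⟩
  obtain ⟨W, hW, h5⟩ := h4 V hV
  refine ⟨W, hW, fun u hu Q hQ τ => ?_⟩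
  have e : ∀ i, c * κ i * End699.tw (Rst M' (fun a => η i a * g a)) j u *
      D3 M (End699.tw (ψ' i) l') u (W i τ) (ρ i * nm u / Q) =
      (c * g u) * (κ i * End699.tw (η i) j u *
        D3 M (End699.tw (ψ' i) l') u (W i τ) (ρ i * nm u / Q)) := by
    intro i
    rw [tw_rst hcop _ _ hu]
    unfold End699.tw
    ring
  beta_reduce
  rw [Finset.sum_congr rfl fun i _ => e i, ← Finset.mul_sum, h5 u hu Q hQ τ]
  unfold MT
  ring

lemma RepC.dil {F : (ℝ → ℂ) → Eis → ℝ → ℝ → ℂ} (hF : RepC P M M' j l' mm S F) {t : ℝ}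
    (ht : 0 < t) :
    RepC P M M' j l' mm (fun u => (((t ^ (4 / 3 : ℝ))⁻¹ : ℝ) : ℂ) * S u)
      (fun V u Q τ => F V u (Q / t) τ) := by
  obtain ⟨ι, iι, κ, η, ψ', ρ, h1, h2, h3, h4⟩ := hF
  refine ⟨ι, iι, fun i => (t : ℂ)⁻¹ * κ i, η, ψ', fun i => ρ i * t, h1, h2,
    fun i => mul_pos (h3 i) ht, fun V hV => ?_⟩
  obtain ⟨W, hW, h5⟩ := h4 V hV
  refine ⟨W, hW, fun u hu Q hQ τ => ?_⟩
  have e : ∀ i, (t : ℂ)⁻¹ * κ i * End699.tw (η i) j u *
      D3 M (End699.tw (ψ' i) l') u (W i τ) (ρ i * t * nm u / Q) =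
      (t : ℂ)⁻¹ * (κ i * End699.tw (η i) j u *
        D3 M (End699.tw (ψ' i) l') u (W i τ) (ρ i * nm u / (Q / t))) := by
    intro i
    have : ρ i * t * nm u / Q = ρ i * nm u / (Q / t) := by
      rw [div_div_eq_mul_div]; ring
    rw [this]
    ring
  beta_reduce
  rw [Finset.sum_congr rfl fun i _ => e i, ← Finset.mul_sum, h5 u hu (Q / t) (div_pos hQ ht) τ]
  unfold MT
  rw [Real.div_rpow hQ.le ht.le]
  push_cast
  ring

/-- the S-unit data of a dual datum -/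
structure SD {ι : Type} (M : Eis) (D : Dt3 ι) : Prop where
  j : D.j = 0
  l' : D.l' = 0
  η : ∀ i, SC M (D.η i)
  ψ' : ∀ i, SC M (D.ψ' i)

/-- functional equation with exact main term and S-unit data -/
def HasC (P : (ℝ → ℝ → ℂ) → Prop) (M : Eis) (ψ : Eis → ℂ) (mm : (ℝ → ℂ) → ℝ → ℂ)
    (S : Eis → ℂ) : Prop :=
  ∃ (ι : Type) (_ : Fintype ι) (D : Dt3 ι), (D.OK M ∧ SD M D) ∧ LY3 P M ψ 0 D mm S

lemma rep_baseC (hP : ∀ W, P W → ∀ τ, WB (W τ)) (h : Ext3 M M₁ p) {v : ℕ} (hv : M = p ^ v * M₁)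
    {ι : Type} [Fintype ι] {D : Dt3 ι} (hD : D.OK M₁) (hSD : SD M₁ D)
    {ψ₁ : Eis → ℂ} {l : ℤ} (hFE : LY3 P M₁ ψ₁ l D mm S)
    (hcop : ∀ b, Sm M b → IsCoprime b (D.M' * p ^ v))
    (i a : ℕ) (K : ℂ) {hh g₁ g₂ : Eis → ℂ} (u0 : Uni (D.M' * p ^ v) hh)
    (u1 : Uni (D.M' * p ^ v) g₁) (u2 : Uni (D.M' * p ^ v) g₂)
    (s0 : SC M hh) (s1 : SC M g₁) (s2 : SC M g₂)
    (hsplit : ∀ χ : Eis → ℂ, (∀ a b, Sm M₁ a → Sm M₁ b → χ (a * b) = χ a * χ b) →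
      (∀ k, Sm M₁ k → ‖χ k‖ ≤ 1) → ∀ W : ℝ → ℂ, WB W → ∀ u, Sm M u → ∀ Y : ℝ, 0 < Y →
      D3 M₁ χ (u * p ^ i) W Y = D3 M (fun d => χ d * g₁ d) u W Y +
        K * hh u * (χ (p ^ a) * ((nm p : ℂ) ^ a)⁻¹) *
          D3 M (fun d => χ d * g₂ d) u W (Y / (nm p : ℝ) ^ a)) :
    RepC P M (D.M' * p ^ v) D.j D.l' mm (fun u => S (u * p ^ i)) (fun V u Q τ =>
      N3 M₁ (End699.tw ψ₁ l) (u * p ^ i) (fun y => (y : ℂ) ^ (I * τ) * V y) Q) := by
  have hM0 : D.M' * p ^ v ≠ 0 := mul_ne_zero hD.ne (pow_ne_zero _ h.pr.ne_zero)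
  have h3 : (3 : Eis) ∣ D.M' * p ^ v := (h.three.trans hD.dvd).mul_right _
  have hq := h.q_pos
  have hM1 : M₁ ∣ M := ⟨p ^ v, by rw [hv]; ring⟩
  have v1 : ∀ i, Uni (D.M' * p ^ v) (D.η i) := fun i => (uni_of_HC (hD.η i)).mono (dvd_mul_right _ _)
  have v2 : ∀ i, Uni (D.M' * p ^ v) (D.ψ' i) :=
    fun i => (uni_of_HC (hD.ψ' i)).mono (dvd_mul_right _ _)
  have w1 : ∀ i, SC M (D.η i) := fun i => (hSD.η i).low hM1 fun b hb => h.low hb
  have w2 : ∀ i, SC M (D.ψ' i) := fun i => (hSD.ψ' i).low hM1 fun b hb => h.low hb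
  refine ⟨ι ⊕ ι, inferInstance,
    Sum.elim (fun x => D.κ x * End699.tw (D.η x) D.j (p ^ i))
      (fun x => D.κ x * End699.tw (D.η x) D.j (p ^ i) * K *
        (End699.tw (D.ψ' x) D.l' (p ^ a) * ((nm p : ℂ) ^ a)⁻¹)),
    Sum.elim (fun x => Rst (D.M' * p ^ v) (D.η x))
      (fun x => Rst (D.M' * p ^ v) (fun b => D.η x b * hh b)),
    Sum.elim (fun x => Rst (D.M' * p ^ v) (fun b => D.ψ' x b * g₁ b))
      (fun x => Rst (D.M' * p ^ v) (fun b => D.ψ' x b * g₂ b)),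
    Sum.elim (fun x => D.ρ x * nm (p ^ i)) (fun x => D.ρ x * nm (p ^ i) / (nm p : ℝ) ^ a),
    ?_, ?_, ?_, fun V hV => ?_⟩
  · rintro (x | x)
    · exact ⟨hc_rst hM0 h3 (v1 x), (w1 x).rst hcop⟩
    · exact ⟨hc_rst hM0 h3 ((v1 x).mul' u0), ((w1 x).mul s0).rst hcop⟩
  · rintro (x | x)
    · exact ⟨hc_rst hM0 h3 ((v2 x).mul' u1), ((w2 x).mul s1).rst hcop⟩
    · exact ⟨hc_rst hM0 h3 ((v2 x).mul' u2), ((w2 x).mul s2).rst hcop⟩
  · have hpi : (0 : ℝ) < nm (p ^ i) := by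
      exact_mod_cast nm_pos.mpr (pow_ne_zero i h.pr.ne_zero)
    rintro (x | x)
    · exact mul_pos (hD.ρ x) hpi
    · exact div_pos (mul_pos (hD.ρ x) hpi) (by positivity)
  · obtain ⟨W, hW, h5⟩ := hFE V hV
    refine ⟨Sum.elim W W, ?_, fun u hu Q hQ τ => ?_⟩
    · rintro (x | x)
      · exact hW x
      · exact hW x
    · have hup : Sm M₁ (u * p ^ i) := (h.low hu).mul (h.sp.pow i)
      beta_reduce
      rw [h5 (u * p ^ i) hup Q hQ τ]
      congr 1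
      rw [Fintype.sum_sum_type]
      simp only [Sum.elim_inl, Sum.elim_inr]
      rw [← Finset.sum_add_distrib]
      congr 1
      refine Finset.sum_congr rfl fun x _ => ?_
      have hY : 0 < D.ρ x * nm (u * p ^ i) / Q := by
        have h6 : (0 : ℝ) < nm (u * p ^ i) := by exact_mod_cast nm_pos.mpr hup.ne_zero
        have := hD.ρ x
        positivity
      have hmul : ∀ a b, Sm M₁ a → Sm M₁ b → End699.tw (D.ψ' x) D.l' (a * b) =
          End699.tw (D.ψ' x) D.l' a * End699.tw (D.ψ' x) D.l' b :=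
        fun a b ha hb => tw_mul (hD.ψ' x) D.l' ha.1 hb.1
      rw [hsplit (End699.tw (D.ψ' x) D.l') hmul (fun k hk => norm_tw_le' (hD.ψ' x) D.l' hk.1)
        (W x τ) (hP _ (hW x) τ) u hu _ hY, tw_mul (hD.η x) D.j hu.1 (h.sp.pow i).1,
        tw_rst hcop _ _ hu, tw_rst hcop _ _ hu]
      have e1 : D.ρ x * (nm (u * p ^ i) : ℝ) / Q = D.ρ x * nm (p ^ i) * nm u / Q := by
        rw [nm_mul]; push_cast; ring
      have e2 : D.ρ x * (nm (p ^ i) : ℝ) * nm u / Q / (nm p : ℝ) ^ a =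
          D.ρ x * nm (p ^ i) / (nm p : ℝ) ^ a * nm u / Q := by ring
      have f1 : ∀ (g : Eis → ℂ) (Y : ℝ),
          D3 M (End699.tw (Rst (D.M' * p ^ v) (fun b => D.ψ' x b * g b)) D.l') u (W x τ) Y =
          D3 M (fun d => End699.tw (D.ψ' x) D.l' d * g d) u (W x τ) Y := by
        intro g Y
        refine D3_congr (fun b hb => ?_) u _ _
        rw [tw_rst hcop _ _ hb]
        unfold End699.tw
        ring
      rw [f1, f1, e1, e2]
      unfold End699.tw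
      ring

/-- **adding a prime** (the character acquires `(p/·)^e`, `e ≤ 2`) -/
theorem stepC (hP : ∀ W, P W → ∀ τ, WB (W τ)) (h : Ext3 M M₁ p) {v : ℕ} (hv0 : v ≠ 0)
    (hv : M = p ^ v * M₁) {ψ₁ : Eis → ℂ} (hψ₁ : HC M₁ ψ₁) (H : HasC P M₁ ψ₁ mm S)
    {e : ℕ} (he : e ≤ 2) {ψ : Eis → ℂ} (hψ : ∀ b, Sm M b → ψ b = ψ₁ b * sy p b ^ e)
    (hS0 : e = 0 → ∀ u, Sm M u → S' u = S u - c0 p u * ψ₁ p *
      ((((nm p : ℝ)) ^ (4 / 3 : ℝ))⁻¹ : ℝ) * S (u * p))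
    (hS1 : e = 1 → ∀ u, Sm M u → S' u = S (u * p) - c1 p u * ψ₁ (p ^ 2) *
      ((((nm p : ℝ) ^ 2) ^ (4 / 3 : ℝ))⁻¹ : ℝ) * S u)
    (hS2 : e = 2 → ∀ u, Sm M u → S' u = S (u * p ^ 2)) :
    HasC P M ψ mm S' := by
  obtain ⟨ι, iι, D, ⟨hD, hSD⟩, hFE⟩ := H
  have hM0 : D.M' * p ^ v ≠ 0 := mul_ne_zero hD.ne (pow_ne_zero _ h.pr.ne_zero)
  have h3 : (3 : Eis) ∣ D.M' * p ^ v := (h.three.trans hD.dvd).mul_right _
  have hpM : p ∣ D.M' * p ^ v := (dvd_pow_self p hv0).mul_left _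
  have hpMM : p ∣ M := hv ▸ (dvd_pow_self p hv0).mul_right _
  have hrad : ∀ r : Eis, Prime r → r ∣ D.M' * p ^ v → r ∣ M := by
    intro r hr hrd
    rcases hr.dvd_or_dvd hrd with h5 | h5
    · rw [hv]; exact (hD.rad r hr h5).mul_left _
    · rw [hv]; exact h5.mul_right _
  have hcop : ∀ b, Sm M b → IsCoprime b (D.M' * p ^ v) := by
    intro b hb
    refine isCoprime_of_prime_dvd (fun h' => hM0 h'.2) (fun r hr h5 h6 => ?_)
    exact hr.not_isUnit (hb.2.isUnit_of_dvd' h5 (hrad r hr h6))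
  set M'' := D.M' * p ^ v with hM''
  have hq := h.q_pos
  have hpS : ∀ k : ℕ, p ^ k ∈ SM M := fun k =>
    ⟨pow_ne_zero _ h.pr.ne_zero, fun r hr hd => (hr.dvd_of_dvd_pow hd).trans hpMM⟩
  have so : SC M (fun _ => (1 : ℂ)) := SC.one M
  have sr : ∀ k : ℕ, SC M (fun b => sy p b ^ k) := fun k =>
    ⟨p ^ k, hpS k, fun b hb => (syAx.pow_left p hb.1 k).symm⟩
  have sr1 : SC M (fun b => sy p b) := ⟨p ^ 1, hpS 1, fun b _ => by rw [pow_one]⟩
  have sl : SC M (fun b => sy b p) := sr1.congr fun b hb => syAx.recip b p hb.1 h.sp.1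
  have slc : SC M (fun b => conj (sy b p)) := by
    refine (sr 2).congr fun b hb => ?_
    rw [syAx.recip b p hb.1 h.sp.1]
    have h1 : sy p b ^ 3 = 1 := syG.cube p b hb.1 (h.cop hb)
    have h2 : sy p b * conj (sy p b) = 1 := by
      rw [Complex.mul_conj, Complex.normSq_eq_norm_sq, syAx.norm_eq_one hb.1 (h.cop hb)]; simp
    calc conj (sy p b) = sy p b ^ 3 * conj (sy p b) := by rw [h1, one_mul]
      _ = sy p b ^ 2 * (sy p b * conj (sy p b)) := by ring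
      _ = _ := by rw [h2, mul_one]
  have uo : Uni M'' (fun _ => (1 : ℂ)) :=
    { one := rfl, mul := fun _ _ _ _ => by norm_num, norm := fun _ _ => norm_one,
      per := fun _ _ _ _ _ => rfl }
  have ul : Uni M'' (fun b => sy b p) :=
    { one := syAx.one_left h.sp.1
      mul := fun a b _ _ => syAx.mul_left a b p h.sp.1
      norm := fun a ha => syAx.norm_eq_one h.sp.1 (IsCoprime.of_isCoprime_of_dvd_right ha.2 hpM)
      per := fun a b _ _ hab => syAx.congr a b p h.sp.1 (hpM.trans hab) }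
  have ur : Uni M'' (fun b => sy p b) :=
    { one := ul.one ▸ (syAx.recip p 1 h.sp.1 isPrim_one)
      mul := fun a b ha hb => by
        rw [syAx.recip p (a * b) h.sp.1 (ha.1.mul hb.1), syAx.recip p a h.sp.1 ha.1,
          syAx.recip p b h.sp.1 hb.1]
        exact ul.mul a b ha hb
      norm := fun a ha => by rw [syAx.recip p a h.sp.1 ha.1]; exact ul.norm a ha
      per := fun a b ha hb hab => by
        rw [syAx.recip p a h.sp.1 ha.1, syAx.recip p b h.sp.1 hb.1]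
        exact ul.per a b ha hb hab }
  set sq : ℂ := ((Real.sqrt (nm p) : ℝ) : ℂ) with hsq
  have R0 : RepC P M M'' D.j D.l' mm (fun u => S (u * p ^ 0)) (fun V u Q τ =>
      N3 M₁ (End699.tw ψ₁ 0) (u * p ^ 0) (fun y => (y : ℂ) ^ (I * τ) * V y) Q) := by
    refine rep_baseC hP h hv hD hSD hFE hcop 0 1 (sq * conj (G p)) ul uo ur sl so sr1 ?_
    intro χ hmul hb W hW u hu Y hY
    have := D3_zero h hmul hb hW hu hY
    simp only [pow_zero, mul_one, pow_one]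
    rw [this]
    unfold c0
    ring
  have R1 : RepC P M M'' D.j D.l' mm (fun u => S (u * p ^ 1)) (fun V u Q τ =>
      N3 M₁ (End699.tw ψ₁ 0) (u * p ^ 1) (fun y => (y : ℂ) ^ (I * τ) * V y) Q) := by
    refine rep_baseC hP h hv hD hSD hFE hcop 1 2 ((nm p : ℂ) * sq * G p) ul.conj' ur uo
      slc sr1 so ?_
    intro χ hmul hb W hW u hu Y hY
    have := D3_one h hmul hb hW hu hY
    simp only [pow_one, mul_one]
    rw [this]
    unfold c1
    ring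
  have R2 : RepC P M M'' D.j D.l' mm (fun u => S (u * p ^ 2)) (fun V u Q τ =>
      N3 M₁ (End699.tw ψ₁ 0) (u * p ^ 2) (fun y => (y : ℂ) ^ (I * τ) * V y) Q) := by
    refine rep_baseC hP h hv hD hSD hFE hcop 2 3 (-(nm p : ℂ) ^ 2) uo (ur.pow 2) (ur.pow 2)
      so (sr 2) (sr 2) ?_
    intro χ hmul hb W hW u hu Y hY
    have := D3_two h hmul hb hW hu hY
    rw [this]
    ring
  have hmul : ∀ a b, Sm M₁ a → Sm M₁ b → End699.tw ψ₁ 0 (a * b) =
      End699.tw ψ₁ 0 a * End699.tw ψ₁ 0 b := fun a b ha hb => tw_mul hψ₁ 0 ha.1 hb.1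
  have hb : ∀ k, Sm M₁ k → ‖End699.tw ψ₁ 0 k‖ ≤ 1 := fun k hk => norm_tw_le' hψ₁ 0 hk.1
  have hψ' : ∀ b, Sm M b → End699.tw ψ 0 b = End699.tw ψ₁ 0 b * sy p b ^ e := by
    intro b hb
    rw [tw_zero, tw_zero, hψ b hb]
  have fin : RepC P M M'' D.j D.l' mm S' (fun V u Q τ =>
      N3 M (End699.tw ψ 0) u (fun y => (y : ℂ) ^ (I * τ) * V y) Q) → HasC P M ψ mm S' := by
    rintro ⟨κι, iκ, κ, η, ψ', ρ, a1, a2, a3, a4⟩
    refine ⟨κι, iκ, ⟨M'', κ, η, ψ', D.j, D.l', ρ⟩, ⟨?_, ?_⟩, a4⟩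
    · exact
        { ne := hM0
          dvd := by rw [hv, hM'', mul_comm (p ^ v) M₁]; exact mul_dvd_mul_right hD.dvd _
          rad := hrad
          η := fun i => (a1 i).1
          ψ' := fun i => (a2 i).1
          ρ := a3 }
    · exact ⟨hSD.j, hSD.l', fun i => (a1 i).2, fun i => (a2 i).2⟩
  refine fin ?_
  interval_cases e
  · have e := (R1.dil hq).cmul hM0 h3 hcop (-(sq * conj (G p)) * End699.tw ψ₁ 0 p) ul sl
    refine (R0.add e).congr (fun V hV u hu Q hQ τ => ?_) (fun u hu => ?_)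
    · rw [N3_congr (fun b hb => by rw [hψ' b hb, pow_zero, mul_one]) u _ _,
        N3_zero h hmul hb (vb_of_sw hV τ) hu hQ]
      simp only [pow_zero, mul_one, pow_one]
      unfold c0
      ring
    · rw [hS0 rfl u hu]
      simp only [pow_zero, mul_one, pow_one]
      rw [tw_zero]
      unfold c0
      ring
  · have e := ((R0.dil (pow_pos hq 2)).cmul hM0 h3 hcop
      (-((nm p : ℂ) * sq * G p) * End699.tw ψ₁ 0 (p ^ 2)) ul.conj' slc)
    refine (R1.add e).congr (fun V hV u hu Q hQ τ => ?_) (fun u hu => ?_)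
    · rw [N3_congr (fun b hb => by rw [hψ' b hb, pow_one]) u _ _,
        N3_one h hmul hb (vb_of_sw hV τ) hu hQ]
      simp only [pow_zero, mul_one, pow_one]
      unfold c1
      ring
    · rw [hS1 rfl u hu]
      simp only [pow_zero, mul_one, pow_one]
      rw [tw_zero]
      unfold c1
      ring
  · refine R2.congr (fun V hV u hu Q hQ τ => ?_) (fun u hu => hS2 rfl u hu)
    rw [N3_congr (fun b hb => hψ' b hb) u _ _, N3_two h hmul hb (vb_of_sw hV τ) hu hQ]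

/-- change of the modulus -/
lemma HasC.transfer {M M₁ : Eis} (hM0 : M ≠ 0) (hS : Sm M = Sm M₁)
    (hr : ∀ p : Eis, Prime p → p ∣ M₁ → p ∣ M) {ψ : Eis → ℂ}
    (h : HasC P M₁ ψ mm S) : HasC P M ψ mm S := by
  obtain ⟨ι, iι, D, ⟨hD, hSD⟩, hFE⟩ := h
  set M'' : Eis := D.M' * M with hM''
  have h0 : M'' ≠ 0 := mul_ne_zero hD.ne hM0
  have hrad : ∀ p : Eis, Prime p → p ∣ M'' → p ∣ M := by
    intro p hp hd
    rcases hp.dvd_or_dvd hd with h1 | h1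
    · exact hr p hp (hD.rad p hp h1)
    · exact h1
  have hcop : ∀ b, Sm M b → IsCoprime b M'' := by
    intro b hb
    refine isCoprime_of_prime_dvd (fun h' => h0 h'.2) (fun r hr h5 h6 => ?_)
    exact hr.not_isUnit (hb.2.isUnit_of_dvd' h5 (hrad r hr h6))
  by_cases he : IsEmpty ι
  · refine ⟨ι, iι, ⟨M'', D.κ, D.η, D.ψ', D.j, D.l', D.ρ⟩, ⟨?_, ?_⟩, ?_⟩
    · exact
        { ne := h0
          dvd := dvd_mul_left _ _
          rad := hrad
          η := fun i => he.elim i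
          ψ' := fun i => he.elim i
          ρ := fun i => he.elim i }
    · exact ⟨hSD.j, hSD.l', fun i => he.elim i, fun i => he.elim i⟩
    · unfold LY3 N3 D3 E2440.NT E2440.DS at hFE ⊢
      rw [hS]
      exact hFE
  rw [not_isEmpty_iff] at he
  have h3 : (3 : Eis) ∣ M'' := ((hD.η he.some).three).mul_right _
  have u1 : ∀ i, Uni M'' (D.η i) := fun i => (uni_of_HC (hD.η i)).mono (dvd_mul_right _ _)
  have u2 : ∀ i, Uni M'' (D.ψ' i) := fun i => (uni_of_HC (hD.ψ' i)).mono (dvd_mul_right _ _)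
  have tr : ∀ {g : Eis → ℂ}, SC M₁ g → SC M g := by
    rintro g ⟨t, ht, h1⟩
    exact ⟨t, ⟨ht.1, fun p hp hd => hr p hp (ht.2 p hp hd)⟩, fun b hb => h1 b (hS ▸ hb)⟩
  refine ⟨ι, iι, ⟨M'', D.κ, fun i => Rst M'' (D.η i), fun i => Rst M'' (D.ψ' i), D.j, D.l', D.ρ⟩,
    ⟨?_, ?_⟩, ?_⟩
  · exact
      { ne := h0
        dvd := dvd_mul_left _ _
        rad := hrad
        η := fun i => hc_rst h0 h3 (u1 i)
        ψ' := fun i => hc_rst h0 h3 (u2 i)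
        ρ := hD.ρ }
  · exact ⟨hSD.j, hSD.l', fun i => (tr (hSD.η i)).rst hcop, fun i => (tr (hSD.ψ' i)).rst hcop⟩
  · intro V hV
    obtain ⟨W, hW, h5⟩ := hFE V hV
    refine ⟨W, hW, fun u hu Q hQ τ => ?_⟩
    have hu1 : Sm M₁ u := hS ▸ hu
    have hN : ∀ (V : ℝ → ℂ), N3 M (End699.tw ψ 0) u V Q = N3 M₁ (End699.tw ψ 0) u V Q := by
      intro V
      unfold N3 E2440.NT E2440.DS
      rw [hS]
    have hDD : ∀ (χ : Eis → ℂ) (W : ℝ → ℂ) (Y : ℝ), D3 M χ u W Y = D3 M₁ χ u W Y := by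
      intro χ W Y
      unfold D3 E2440.DS
      rw [hS]
    rw [hN, h5 u hu1 Q hQ τ]
    congr 2
    refine Finset.sum_congr rfl fun i _ => ?_
    rw [tw_rst hcop _ _ hu]
    have f1 : D3 M (End699.tw (Rst M'' (D.ψ' i)) D.l') u (W i τ) (D.ρ i * nm u / Q) =
        D3 M (End699.tw (D.ψ' i) D.l') u (W i τ) (D.ρ i * nm u / Q) :=
      D3_congr (fun b hb => by rw [tw_rst hcop _ _ hb]; rfl) u _ _
    show _ = D.κ i * (D.η i u * ang D.j u) *
      D3 M (End699.tw (Rst M'' (D.ψ' i)) D.l') u (W i τ) (D.ρ i * nm u / Q)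
    rw [f1, hDD]
    rfl

end Crest.Agent.R017.E4LC858
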