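import Mathlib

/-!
# Row 17, R8, leaf E5 (helper54), part c: abstract algebra of the assembly

* `sq_sub`       : `∑ W |f - c g|² = ∑ W |f|² - 2 Re (conj c ∑ W f conj g) + |c|² ∑ W |g|²`
* `square_err`   : if the three sums have main terms `c₁ X`, `c₂ X`, `c₃ X` with `c₁ c₃ = |c₂|²`,
  `c = c₂ / c₃`, then only the error terms are left
* `split_sum`    : `∑_q |∑_{k ∈ F q} ω f A| ≤ (∑ τ W |f - c g|²)^{1/2} (∑ τ W |A|²)^{1/2} + |c| ∑_q |∑ ω g A|`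
-/

set_option autoImplicit false

noncomputable section

open Finset
open scoped ComplexConjugate

namespace Crest.Agent.R017.E5c54

variable {κ σ : Type*}

theorem sq_sub (s : Finset κ) (W : κ → ℝ) (f g : κ → ℂ) (c : ℂ) :
    ∑ k ∈ s, W k * ‖f k - c * g k‖ ^ 2 =
      ∑ k ∈ s, W k * ‖f k‖ ^ 2 - 2 * (conj c * ∑ k ∈ s, (W k : ℂ) * (f k * conj (g k))).re +
        ‖c‖ ^ 2 * ∑ k ∈ s, W k * ‖g k‖ ^ 2 := by
  rw [mul_sum, Complex.re_sum, mul_sum, mul_sum, ← sum_sub_distrib, ← sum_add_distrib]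
  refine sum_congr rfl fun k _ => ?_
  have h : ‖f k - c * g k‖ ^ 2 = ‖f k‖ ^ 2 - 2 * (conj c * (f k * conj (g k))).re +
      ‖c‖ ^ 2 * ‖g k‖ ^ 2 := by
    rw [← Complex.normSq_eq_norm_sq, ← Complex.normSq_eq_norm_sq, ← Complex.normSq_eq_norm_sq,
      ← Complex.normSq_eq_norm_sq, Complex.normSq_sub, Complex.normSq_mul, map_mul]
    have : f k * (conj c * conj (g k)) = conj c * (f k * conj (g k)) := by ring
    rw [this]
    ring
  rw [h]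
  have h2 : (conj c * ((W k : ℂ) * (f k * conj (g k)))).re =
      W k * (conj c * (f k * conj (g k))).re := by
    have : conj c * ((W k : ℂ) * (f k * conj (g k))) = (W k : ℂ) * (conj c * (f k * conj (g k))) := by
      ring
    rw [this, Complex.re_ofReal_mul]
  rw [h2]
  ring

/-- completing the square: the main terms cancel -/
theorem square_err {A B D : ℝ} {P : ℂ} {c₁ c₃ X e₁ e₃ : ℝ} {c₂ e₂ : ℂ}
    (hA : A = c₁ * X + e₁) (hP : P = c₂ * X + e₂) (hD : D = c₃ * X + e₃) (h3 : c₃ ≠ 0)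
    (h : c₁ * c₃ = ‖c₂‖ ^ 2) (hB : B = A - 2 * (conj (c₂ / c₃) * P).re + ‖c₂ / (c₃ : ℂ)‖ ^ 2 * D) :
    B = e₁ - 2 * (conj (c₂ / c₃) * e₂).re + ‖c₂ / (c₃ : ℂ)‖ ^ 2 * e₃ := by
  have hn : ‖c₂ / (c₃ : ℂ)‖ ^ 2 = ‖c₂‖ ^ 2 / c₃ ^ 2 := by
    rw [norm_div, div_pow, Complex.norm_real, Real.norm_eq_abs, sq_abs]
  have hre : (conj (c₂ / (c₃ : ℂ)) * c₂).re = ‖c₂‖ ^ 2 / c₃ := by
    rw [map_div₀, Complex.conj_ofReal, div_mul_eq_mul_div, Complex.conj_mul']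
    rw [show ((‖c₂‖ : ℂ) ^ 2 / (c₃ : ℂ)) = (((‖c₂‖ ^ 2 / c₃ : ℝ)) : ℂ) by push_cast; rfl]
    exact Complex.ofReal_re _
  have hP2 : (conj (c₂ / (c₃ : ℂ)) * P).re = ‖c₂‖ ^ 2 / c₃ * X + (conj (c₂ / (c₃ : ℂ)) * e₂).re := by
    rw [hP, mul_add, Complex.add_re]
    congr 1
    rw [show conj (c₂ / (c₃ : ℂ)) * (c₂ * (X : ℂ)) = (X : ℂ) * (conj (c₂ / (c₃ : ℂ)) * c₂) by ring,
      Complex.re_ofReal_mul, hre]
    ring
  rw [hB, hP2, hA, hD, hn, ← h]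
  field_simp
  ring

/-- the split of a (sum over `q` of a) weighted sum -/
theorem split_sum (Q : Finset σ) (s : Finset κ) (F : σ → κ → Prop) [∀ q k, Decidable (F q k)]
    (W T : κ → ℝ) (hW : ∀ k ∈ s, 0 ≤ W k) (hT : ∀ k ∈ s, ((Q.filter fun q => F q k).card : ℝ) ≤ T k)
    (om : σ → κ → ℂ) (hom : ∀ q ∈ Q, ∀ k ∈ s, ‖om q k‖ ≤ W k) (f g A : κ → ℂ) (c : ℂ) :
    ∑ q ∈ Q, ‖∑ k ∈ s.filter (F q), om q k * (f k * A k)‖ ≤
      Real.sqrt (∑ k ∈ s, T k * W k * ‖f k - c * g k‖ ^ 2) *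
        Real.sqrt (∑ k ∈ s, T k * W k * ‖A k‖ ^ 2) +
      ‖c‖ * ∑ q ∈ Q, ‖∑ k ∈ s.filter (F q), om q k * (g k * A k)‖ := by
  have hT0 : ∀ k ∈ s, 0 ≤ T k := fun k hk => (Nat.cast_nonneg _).trans (hT k hk)
  have e1 : ∀ q ∈ Q, ‖∑ k ∈ s.filter (F q), om q k * (f k * A k)‖ ≤
      ∑ k ∈ s.filter (F q), W k * (‖f k - c * g k‖ * ‖A k‖) +
        ‖c‖ * ‖∑ k ∈ s.filter (F q), om q k * (g k * A k)‖ := by
    intro q hq
    have : ∑ k ∈ s.filter (F q), om q k * (f k * A k) =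
        ∑ k ∈ s.filter (F q), om q k * ((f k - c * g k) * A k) +
          c * ∑ k ∈ s.filter (F q), om q k * (g k * A k) := by
      rw [mul_sum, ← sum_add_distrib]
      exact sum_congr rfl fun k _ => by ring
    rw [this]
    refine (norm_add_le _ _).trans (add_le_add ?_ (le_of_eq (norm_mul _ _)))
    refine (norm_sum_le _ _).trans (sum_le_sum fun k hk => ?_)
    rw [norm_mul, norm_mul]
    exact mul_le_mul_of_nonneg_right (hom q hq k (mem_filter.mp hk).1) (by positivity)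
  refine (sum_le_sum e1).trans ?_
  rw [sum_add_distrib, mul_sum]
  refine add_le_add ?_ le_rfl
  have e2 : ∑ q ∈ Q, ∑ k ∈ s.filter (F q), W k * (‖f k - c * g k‖ * ‖A k‖) =
      ∑ k ∈ s, ((Q.filter fun q => F q k).card : ℝ) * (W k * (‖f k - c * g k‖ * ‖A k‖)) := by
    simp_rw [sum_filter]
    rw [sum_comm]
    refine sum_congr rfl fun k _ => ?_
    rw [← sum_filter, sum_const, nsmul_eq_mul]
  rw [e2]
  have e3 : ∑ k ∈ s, ((Q.filter fun q => F q k).card : ℝ) * (W k * (‖f k - c * g k‖ * ‖A k‖)) ≤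
      ∑ k ∈ s, (Real.sqrt (T k * W k) * ‖f k - c * g k‖) * (Real.sqrt (T k * W k) * ‖A k‖) := by
    refine sum_le_sum fun k hk => ?_
    have h1 : 0 ≤ T k * W k := mul_nonneg (hT0 k hk) (hW k hk)
    calc ((Q.filter fun q => F q k).card : ℝ) * (W k * (‖f k - c * g k‖ * ‖A k‖))
        ≤ T k * (W k * (‖f k - c * g k‖ * ‖A k‖)) :=
          mul_le_mul_of_nonneg_right (hT k hk) (mul_nonneg (hW k hk) (by positivity))
      _ = (Real.sqrt (T k * W k) * Real.sqrt (T k * W k)) * (‖f k - c * g k‖ * ‖A k‖) := by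
          rw [Real.mul_self_sqrt h1]; ring
      _ = _ := by ring
  refine e3.trans ?_
  refine (Real.sum_mul_le_sqrt_mul_sqrt _ _ _).trans (le_of_eq ?_)
  congr 2
  · refine sum_congr rfl fun k hk => ?_
    rw [mul_pow, Real.sq_sqrt (mul_nonneg (hT0 k hk) (hW k hk))]
  · refine sum_congr rfl fun k hk => ?_
    rw [mul_pow, Real.sq_sqrt (mul_nonneg (hT0 k hk) (hW k hk))]

end Crest.Agent.R017.E5c54
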