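import Crest.Agent.R017.E5T_54
import Crest.Agent.R017.E5c_54

/-!
# Row 17, R8: the analytic inequality of the signed near-equal boxes (helper571)

* `SgF n W d₃ e F q` : `∑ W(k) 1_{(k,d₃)=1} sy k e F(k)` over the primary `k` prime to `n`, `q² ∣ k`
  (`SgP_eq : SgP = SgF` by `rfl`)
* `MS n W e F s` : `∑ W(k) sy k e F(k)` over the multiples of `s`;
  `MS_eq` : `k = s k₁`, `SgF_moeb` : Möbius in `(k, d₃) = 1`
* `split_main` : **the analytic inequality**: Cauchy for `F - ∑ S_v` on the cut `k`, tails, and for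
  every level `v` and every `(q, g)` either the absolute or the natural signed sum
-/

set_option autoImplicit false

noncomputable section

open Complex Finset
open scoped ComplexConjugate

namespace Crest.Agent.R017.E5P571

open Crest.Agent.R012 Crest.Agent.R012.Eis Crest.Agent.R012.Mob705
open Crest.Agent.R017.CM106 Crest.Agent.R017.FE47 Crest.Agent.R017.End699
open Crest.Agent.R017.Sx545 (Sm)
open Crest.Agent.R017.HP842 (Pc pc)
open Crest.Agent.R017.E5T54
open Crest.Agent.R012.Div277 (dvs tau mem_dvs)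

open Classical in
/-- signed sum over the multiples of `q²` -/
def SgF (n : Eis) (W : Eis → ℂ) (d₃ e : Eis) (F : Eis → ℂ) (q : Eis) : ℂ :=
  ∑' k : Eis, if IsPrim k ∧ IsCoprime k n ∧ q ^ 2 ∣ k then
    W k * (prin0 d₃ k * sy k e) * F k else 0

open Classical in
/-- signed sum over the primary `k` prime to `n` -/
def SgG (n : Eis) (W : Eis → ℂ) (e : Eis) (F : Eis → ℂ) : ℂ :=
  ∑' k : Eis, if IsPrim k ∧ IsCoprime k n then W k * sy k e * F k else 0

open Classical in
/-- the same over the multiples of `s` -/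
def MS (n : Eis) (W : Eis → ℂ) (e : Eis) (F : Eis → ℂ) (s : Eis) : ℂ :=
  ∑' k : Eis, if IsPrim k ∧ IsCoprime k n ∧ s ∣ k then W k * sy k e * F k else 0

open Classical in
/-- absolute sum over the multiples of `s` in the ball -/
def AS (n : Eis) (X : ℕ) (F : Eis → ℂ) (s : Eis) : ℝ :=
  ∑ k ∈ (primBall X).filter (fun k => IsCoprime k n ∧ s ∣ k), ‖F k‖

open Classical in
/-- restriction -/
def res (cut : Eis → Prop) (F : Eis → ℂ) (k : Eis) : ℂ := if cut k then F k else 0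

lemma SgP_eq (n : Eis) (W : Eis → ℂ) (h : ℝ → ℝ) (d₃ e : Eis) (ps qs : List Pc) (q : Eis) :
    SgP n W h d₃ e ps qs q = SgF n W d₃ e (fun k => (ps.map fun p => CS (pc h p) k).prod *
      conj ((qs.map fun p => CS (pc h p) k).prod)) q := rfl

lemma prin0_one_or (d k : Eis) : prin0 d k = 1 ∨ prin0 d k = 0 := by
  unfold prin0
  split_ifs
  · exact Or.inl rfl
  · exact Or.inr rfl

lemma norm_prin0 (d k : Eis) : ‖prin0 d k‖ ≤ 1 := by
  rcases prin0_one_or d k with h | h <;> rw [h] <;> simp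

/-- `k = s k₁` -/
theorem MS_eq {n s e : Eis} (hs : Sm n s) (he : IsPrim e) (W F : Eis → ℂ) :
    MS n W e F s = sy s e * SgG n (fun k => W (s * k)) e (fun k => F (s * k)) := by
  classical
  have hinj : Function.Injective (fun k : Eis => s * k) := fun a b h =>
    mul_left_cancel₀ hs.ne_zero h
  unfold MS SgG
  rw [← tsum_mul_left]
  have h1 := hinj.tsum_eq (f := fun k : Eis => if IsPrim k ∧ IsCoprime k n ∧ s ∣ k then
      W k * sy k e * F k else 0)
    (by
      intro k hk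
      rw [Function.mem_support] at hk
      split_ifs at hk with h
      · obtain ⟨c, rfl⟩ := h.2.2
        exact ⟨c, rfl⟩
      · exact absurd rfl hk)
  rw [← h1]
  refine tsum_congr fun k => ?_
  simp only
  by_cases hk : IsPrim k ∧ IsCoprime k n
  · rw [if_pos hk, if_pos ⟨hs.prim.mul hk.1, hs.cop.mul_left hk.2, dvd_mul_right _ _⟩,
      Gauss880.syG.mul_left _ _ _ he]
    ring
  · rw [if_neg hk, if_neg, mul_zero]
    rintro ⟨h1, h2, -⟩
    exact hk ⟨h1.of_mul_left hs.prim, h2.of_mul_left_right⟩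

/-- the primary squarefree divisors of `d` prime to `n` -/
def Gd (n d : Eis) : Finset Eis := by
  classical
  exact (dvs d).filter fun g => Squarefree g ∧ IsCoprime g n

lemma mem_Gd {n d : Eis} (hd : d ≠ 0) {g : Eis} : g ∈ Gd n d ↔ Sm n g ∧ Squarefree g ∧ g ∣ d := by
  classical
  unfold Gd
  rw [mem_filter, mem_dvs hd]
  constructor
  · rintro ⟨⟨h1, h2⟩, h3, h4⟩
    exact ⟨⟨h1, h4⟩, h3, h2⟩
  · rintro ⟨h1, h2, h3⟩
    exact ⟨⟨h1.1, h3⟩, h2, h1.2⟩

open Classical in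
/-- Möbius detection of `(k, d) = 1` -/
lemma prin0_eq_sum {n d : Eis} (hd : d ≠ 0) {k : Eis} (hk : IsPrim k) (hkn : IsCoprime k n) :
    prin0 d k = ∑ g ∈ Gd n d, if g ∣ k then ((muE g : ℤ) : ℂ) else 0 := by
  have h := sum_mu_coprime hk hd
  have h2 : ((∑ g ∈ pdiv d, (if g ∣ k then mu g else 0) : ℤ) : ℂ) =
      ((if IsCoprime k d then 1 else 0 : ℤ) : ℂ) := by rw [h]
  push_cast at h2
  have h3 : prin0 d k = if IsCoprime k d then 1 else 0 := by
    unfold prin0; congr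
  rw [h3, ← h2]
  symm
  refine Finset.sum_subset ?_ ?_
  · intro g hg
    rw [mem_Gd hd] at hg
    exact (Mob705.mem_pdiv hd).2 ⟨hg.1.1, hg.2.2⟩
  · intro g hg hg'
    rw [Mob705.mem_pdiv hd] at hg
    split_ifs with hgk
    · by_cases hs : Squarefree g
      · exact absurd ((mem_Gd hd).2 ⟨⟨hg.1, hkn.of_isCoprime_of_dvd_left hgk⟩, hs, hg.2⟩) hg'
      · have h1 : ((mu g : ℤ) : ℂ) = 0 := by
          rw [mu_of_not_squarefree hs]; simp
        exact h1
    · rfl

section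

variable {n e : Eis} {W : Eis → ℂ} {X : ℕ}

lemma summable_ball (hW : ∀ k, W k ≠ 0 → nm k ≤ X) (Q : Eis → Prop) [DecidablePred Q]
    (G : Eis → ℂ) :
    Summable fun k : Eis => if Q k then W k * G k else 0 := by
  refine summable_of_ne_finset_zero (s := ball X) fun k hk => ?_
  have : W k = 0 := by
    by_contra h
    exact hk (mem_ball.2 (hW k h))
  rw [this, zero_mul, ite_self]

open Classical in
/-- a signed sum as a finite sum -/
lemma tsum_ball (hW : ∀ k, W k ≠ 0 → nm k ≤ X) (Q : Eis → Prop)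
    (G : Eis → ℂ) :
    (∑' k : Eis, if IsPrim k ∧ Q k then W k * G k else 0) =
      ∑ k ∈ (primBall X).filter Q, W k * G k := by
  rw [tsum_eq_sum (s := primBall X)]
  · rw [sum_filter]
    refine sum_congr rfl fun k hk => ?_
    have := (mem_primBall.1 hk).2
    simp [this]
  · intro k hk
    split_ifs with h
    · have : W k = 0 := by
        by_contra h'
        exact hk (mem_primBall.2 ⟨hW k h', h.1⟩)
      rw [this, zero_mul]
    · rfl

open Classical in
/-- **Möbius in `(k, d₃) = 1`** -/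
theorem SgF_moeb {d₃ : Eis} (hd : d₃ ≠ 0) (hW : ∀ k, W k ≠ 0 → nm k ≤ X)
    (F : Eis → ℂ) {q : Eis} :
    SgF n W d₃ e F q = if IsCoprime q d₃ then
      ∑ g ∈ Gd n d₃, ((muE g : ℤ) : ℂ) * MS n W e F (q ^ 2 * g) else 0 := by
  split_ifs with hq
  · unfold SgF MS
    simp_rw [← tsum_mul_left]
    rw [← Summable.tsum_finsetSum]
    · refine tsum_congr fun k => ?_
      by_cases hk : IsPrim k ∧ IsCoprime k n ∧ q ^ 2 ∣ k
      · rw [if_pos hk, prin0_eq_sum hd hk.1 hk.2.1]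
        rw [sum_mul, mul_sum, sum_mul]
        refine sum_congr rfl fun g hg => ?_
        rw [mem_Gd hd] at hg
        have hqg : IsCoprime (q ^ 2) g :=
          (hq.pow_left).of_isCoprime_of_dvd_right hg.2.2
        by_cases hgk : g ∣ k
        · rw [if_pos hgk, if_pos ⟨hk.1, hk.2.1, hqg.mul_dvd hk.2.2 hgk⟩]
          ring
        · rw [if_neg hgk, if_neg]
          · simp
          · rintro ⟨-, -, h⟩
            exact hgk ((dvd_mul_left _ _).trans h)
      · rw [if_neg hk]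
        symm
        refine sum_eq_zero fun g _ => ?_
        rw [if_neg, mul_zero]
        rintro ⟨h1, h2, h3⟩
        exact hk ⟨h1, h2, (dvd_mul_right _ _).trans h3⟩
    · intro g _
      refine Summable.mul_left _ ?_
      simp only [mul_assoc]
      exact summable_ball hW (fun k => IsPrim k ∧ IsCoprime k n ∧ q ^ 2 * g ∣ k)
        (fun k => sy k e * F k)
  · unfold SgF
    refine (tsum_congr fun k => ?_).trans tsum_zero
    split_ifs with hk
    · have : prin0 d₃ k = 0 := by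
        unfold prin0
        rw [if_neg]
        intro h
        have h1 : IsCoprime (q ^ 2) d₃ := h.of_isCoprime_of_dvd_left hk.2.2
        exact hq ((IsCoprime.pow_left_iff (by norm_num)).1 h1)
      rw [this]
      ring
    · rfl

lemma norm_muE (g : Eis) : ‖((muE g : ℤ) : ℂ)‖ ≤ 1 := by
  rw [Complex.norm_intCast]
  have := abs_muE g
  have h2 : |muE g| ≤ 1 := by
    rw [this]; split_ifs <;> norm_num
  exact_mod_cast h2

open Classical in
theorem norm_SgF_le {d₃ : Eis} (hd : d₃ ≠ 0) (hW : ∀ k, W k ≠ 0 → nm k ≤ X)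
    (F : Eis → ℂ) {q : Eis} :
    ‖SgF n W d₃ e F q‖ ≤ if IsCoprime q d₃ then
      ∑ g ∈ Gd n d₃, ‖MS n W e F (q ^ 2 * g)‖ else 0 := by
  rw [SgF_moeb hd hW]
  split_ifs with hq
  · refine (norm_sum_le _ _).trans (sum_le_sum fun g _ => ?_)
    rw [norm_mul]
    exact mul_le_of_le_one_left (norm_nonneg _) (norm_muE g)
  · simp

lemma norm_sy_le (x c : Eis) : ‖sy x c‖ ≤ 1 := CF61.norm_sy_le x c

open Classical in
/-- absolute bound of `MS` -/
lemma norm_MS_le (hW : ∀ k, W k ≠ 0 → nm k ≤ X) {w0 : ℝ} (hw0 : ∀ k, ‖W k‖ ≤ w0)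
    (F : Eis → ℂ) (s : Eis) : ‖MS n W e F s‖ ≤ w0 * AS n X F s := by
  have h1 : MS n W e F s = ∑ k ∈ (primBall X).filter (fun k => IsCoprime k n ∧ s ∣ k),
      W k * (sy k e * F k) := by
    have h0 := tsum_ball hW (fun k => IsCoprime k n ∧ s ∣ k) (fun k => sy k e * F k)
    refine Eq.trans ?_ (h0.trans ?_)
    · unfold MS
      refine tsum_congr fun k => ?_
      simp only [mul_assoc]
      congr
    · refine sum_congr ?_ fun _ _ => rfl
      ext k
      simp only [mem_filter]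
  rw [h1]
  unfold AS
  rw [mul_sum]
  refine (norm_sum_le _ _).trans (sum_le_sum fun k _ => ?_)
  rw [norm_mul, norm_mul]
  have h2 := hw0 k
  have h3 := norm_sy_le k e
  have h4 : ‖sy k e‖ * ‖F k‖ ≤ ‖F k‖ := mul_le_of_le_one_left (norm_nonneg _) h3
  exact mul_le_mul h2 h4 (by positivity) ((norm_nonneg _).trans h2)

/-- linearity -/
lemma MS_add (hW : ∀ k, W k ≠ 0 → nm k ≤ X) (F G : Eis → ℂ) (s : Eis) :
    MS n W e (fun k => F k + G k) s = MS n W e F s + MS n W e G s := by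
  classical
  unfold MS
  rw [← Summable.tsum_add]
  · refine tsum_congr fun k => ?_
    split_ifs
    · ring
    · ring
  · simp only [mul_assoc]
    exact summable_ball hW (fun k => IsPrim k ∧ IsCoprime k n ∧ s ∣ k) (fun k => sy k e * F k)
  · simp only [mul_assoc]
    exact summable_ball hW (fun k => IsPrim k ∧ IsCoprime k n ∧ s ∣ k) (fun k => sy k e * G k)

open Classical in
/-- absolute bound of `SgF` -/
lemma norm_SgF_le_abs (hW : ∀ k, W k ≠ 0 → nm k ≤ X) {w0 : ℝ} (hw0 : ∀ k, ‖W k‖ ≤ w0)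
    (d₃ : Eis) (F : Eis → ℂ) (q : Eis) : ‖SgF n W d₃ e F q‖ ≤ w0 * AS n X F (q ^ 2) := by
  have h1 : SgF n W d₃ e F q = ∑ k ∈ (primBall X).filter (fun k => IsCoprime k n ∧ q ^ 2 ∣ k),
      W k * ((prin0 d₃ k * sy k e) * F k) := by
    have h0 := tsum_ball hW (fun k => IsCoprime k n ∧ q ^ 2 ∣ k)
      (fun k => (prin0 d₃ k * sy k e) * F k)
    refine Eq.trans ?_ (h0.trans ?_)
    · unfold SgF
      refine tsum_congr fun k => ?_
      simp only [mul_assoc]
    · refine sum_congr ?_ fun _ _ => rfl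
      ext k
      simp only [mem_filter]
  rw [h1]
  unfold AS
  rw [mul_sum]
  refine (norm_sum_le _ _).trans (sum_le_sum fun k _ => ?_)
  rw [norm_mul, norm_mul, norm_mul]
  have h2 := hw0 k
  have h3 : ‖prin0 d₃ k‖ * ‖sy k e‖ ≤ 1 :=
    mul_le_one₀ (norm_prin0 _ _) (norm_nonneg _) (norm_sy_le k e)
  have h4 : ‖prin0 d₃ k‖ * ‖sy k e‖ * ‖F k‖ ≤ ‖F k‖ := mul_le_of_le_one_left (norm_nonneg _) h3
  exact mul_le_mul h2 h4 (by positivity) ((norm_nonneg _).trans h2)

lemma SgF_add (hW : ∀ k, W k ≠ 0 → nm k ≤ X) (d₃ : Eis) (F G : Eis → ℂ) (q : Eis) :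
    SgF n W d₃ e (fun k => F k + G k) q = SgF n W d₃ e F q + SgF n W d₃ e G q := by
  classical
  unfold SgF
  rw [← Summable.tsum_add]
  · refine tsum_congr fun k => ?_
    split_ifs
    · ring
    · ring
  · simp only [mul_assoc]
    exact summable_ball hW (fun k => IsPrim k ∧ IsCoprime k n ∧ q ^ 2 ∣ k)
      (fun k => prin0 d₃ k * (sy k e * F k))
  · simp only [mul_assoc]
    exact summable_ball hW (fun k => IsPrim k ∧ IsCoprime k n ∧ q ^ 2 ∣ k)
      (fun k => prin0 d₃ k * (sy k e * G k))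

end

/-! ### multiplicities -/

open Classical in
/-- the primary `k` prime to `n` in the ball -/
def PB (n : Eis) (X : ℕ) : Finset Eis := (primBall X).filter fun k => IsCoprime k n

lemma mem_PB {n : Eis} {X : ℕ} {k : Eis} : k ∈ PB n X ↔ nm k ≤ X ∧ IsPrim k ∧ IsCoprime k n := by
  simp only [PB, mem_filter, mem_primBall, and_assoc]

lemma AS_nonneg (n : Eis) (X : ℕ) (F : Eis → ℂ) (s : Eis) : 0 ≤ AS n X F s := by
  unfold AS
  positivity

open Classical in
/-- the multiplicity of `q² ∣ k` -/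
lemma sum_AS_le {n : Eis} {X : ℕ} {T : ℝ} (hT : ∀ k, IsPrim k → nm k ≤ X → (tau k : ℝ) ≤ T)
    (F : Eis → ℂ) {D : Finset Eis} (hD : ∀ q ∈ D, IsPrim q) :
    ∑ q ∈ D, AS n X F (q ^ 2) ≤ T * ∑ k ∈ PB n X, ‖F k‖ := by
  unfold AS
  have e1 : ∀ q ∈ D, ∑ k ∈ (primBall X).filter (fun k => IsCoprime k n ∧ q ^ 2 ∣ k), ‖F k‖ =
      ∑ k ∈ PB n X, if q ^ 2 ∣ k then ‖F k‖ else 0 := by
    intro q _
    rw [← sum_filter]
    refine sum_congr ?_ fun _ _ => rfl
    ext k
    simp only [mem_filter, PB, and_assoc]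
  rw [sum_congr rfl e1, sum_comm, mul_sum]
  refine sum_le_sum fun k hk => ?_
  rw [mem_PB] at hk
  rw [← sum_filter, sum_const, nsmul_eq_mul]
  refine mul_le_mul_of_nonneg_right ?_ (norm_nonneg _)
  refine le_trans ?_ (hT k hk.2.1 hk.1)
  have h1 : (D.filter fun q => q ^ 2 ∣ k) ⊆ dvs k := by
    intro q hq
    rw [mem_filter] at hq
    rw [mem_dvs hk.2.1.ne_zero]
    exact ⟨hD q hq.1, (dvd_pow_self q (by norm_num)).trans hq.2⟩
  have h2 := card_le_card h1
  unfold tau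
  exact_mod_cast h2

/-- product of the character sums of a list -/
def PC (h : ℝ → ℝ) (ps : List Pc) (k : Eis) : ℂ := (ps.map fun p => CS (pc h p) k).prod

lemma PC_append (h : ℝ → ℝ) (ps qs : List Pc) (k : Eis) :
    PC h (ps ++ qs) k = PC h ps k * PC h qs k := by
  unfold PC
  rw [List.map_append, List.prod_append]

/-- the factor `B` -/
def BB (h : ℝ → ℝ) (bs q1 q2 : List Pc) (k : Eis) : ℂ :=
  PC h bs k * conj (PC h (q1 ++ q2) k)

open Classical in
/-- **the analytic inequality** -/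
theorem sgP_split {ε : ℝ} (hε : 0 < ε) : ∃ C : ℝ, 0 ≤ C ∧
    ∀ (n d₃ e : Eis) (W : Eis → ℂ) (Kx : ℝ) (D : Finset Eis) (cut : Eis → Prop) (h : ℝ → ℝ)
      (as bs q1 q2 : List Pc) (S : Eis → ℂ), d₃ ≠ 0 → 1 ≤ Kx → (∀ k, W k ≠ 0 → (nm k : ℝ) ≤ Kx) →
      (∀ k, ‖W k‖ ≤ 1) → (∀ q ∈ D, IsPrim q) →
      ∑ q ∈ D, ‖SgP n W h d₃ e (as ++ bs) (q1 ++ q2) q‖ ≤
        C * Kx ^ ε * (Real.sqrt (∑ k ∈ (PB n ⌊Kx⌋₊).filter cut,
            ‖PC h as k - S k‖ ^ 2 * ‖PC h q1 k‖ ^ 2) *
          Real.sqrt (∑ k ∈ (PB n ⌊Kx⌋₊).filter cut, ‖PC h bs k‖ ^ 2 * ‖PC h q2 k‖ ^ 2)) +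
        ∑ q ∈ D.filter (fun q => IsCoprime q d₃), ∑ g ∈ Gd n d₃,
          ‖MS n W e (fun k => S k * BB h bs q1 q2 k) (q ^ 2 * g)‖ +
        C * Kx ^ ε * (∑ k ∈ (PB n ⌊Kx⌋₊).filter (fun k => ¬ cut k),
            ‖PC h as k‖ * ‖BB h bs q1 q2 k‖ +
          ∑ k ∈ (PB n ⌊Kx⌋₊).filter (fun k => ¬ cut k), ‖S k‖ * ‖BB h bs q1 q2 k‖) := by
  obtain ⟨C, hC, hτ⟩ := Div277.tau_le_rpow hε
  refine ⟨C, by linarith, ?_⟩
  intro n d₃ e W Kx D cut h as bs q1 q2 S hd hK hW hW1 hD
  set X := ⌊Kx⌋₊ with hX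
  have hWX : ∀ k, W k ≠ 0 → nm k ≤ X := fun k hk => Nat.le_floor (hW k hk)
  have hT : ∀ k, IsPrim k → nm k ≤ X → (tau k : ℝ) ≤ C * Kx ^ ε := by
    intro k hk hkX
    refine (hτ k hk.ne_zero).trans ?_
    have h1 : (nm k : ℝ) ≤ Kx := (Nat.cast_le.2 hkX).trans (Nat.floor_le (by linarith))
    gcongr
  set F : Eis → ℂ := fun k => PC h as k with hF
  set B : Eis → ℂ := fun k => BB h bs q1 q2 k with hB
  have hsplit : ∀ q, SgP n W h d₃ e (as ++ bs) (q1 ++ q2) q =
      SgF n W d₃ e (fun k => (F k - S k) * B k) q + SgF n W d₃ e (fun k => S k * B k) q := by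
    intro q
    rw [← SgF_add hWX, SgP_eq]
    congr 1
    funext k
    have h1 := PC_append h as bs k
    unfold PC at h1
    rw [h1]
    simp only [hF, hB, BB, PC]
    ring
  calc ∑ q ∈ D, ‖SgP n W h d₃ e (as ++ bs) (q1 ++ q2) q‖
      ≤ ∑ q ∈ D, (AS n X (fun k => (F k - S k) * B k) (q ^ 2) +
          if IsCoprime q d₃ then ∑ g ∈ Gd n d₃, ‖MS n W e (fun k => S k * B k) (q ^ 2 * g)‖
          else 0) := by
        refine sum_le_sum fun q _ => ?_
        rw [hsplit q]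
        refine (norm_add_le _ _).trans (add_le_add ?_ (norm_SgF_le hd hWX _))
        have := norm_SgF_le_abs (n := n) (e := e) hWX hW1 d₃ (fun k => (F k - S k) * B k) q
        rwa [one_mul] at this
    _ = ∑ q ∈ D, AS n X (fun k => (F k - S k) * B k) (q ^ 2) +
        ∑ q ∈ D.filter (fun q => IsCoprime q d₃), ∑ g ∈ Gd n d₃,
          ‖MS n W e (fun k => S k * B k) (q ^ 2 * g)‖ := by
        rw [sum_add_distrib, sum_filter]
    _ ≤ C * Kx ^ ε * ∑ k ∈ PB n X, ‖(F k - S k) * B k‖ +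
        ∑ q ∈ D.filter (fun q => IsCoprime q d₃), ∑ g ∈ Gd n d₃,
          ‖MS n W e (fun k => S k * B k) (q ^ 2 * g)‖ := by
        gcongr
        exact sum_AS_le hT _ hD
    _ ≤ _ := by
        have hT0 : 0 ≤ C * Kx ^ ε := by positivity
        have e1 : ∑ k ∈ PB n X, ‖(F k - S k) * B k‖ =
            ∑ k ∈ (PB n X).filter cut, ‖(F k - S k) * B k‖ +
              ∑ k ∈ (PB n X).filter (fun k => ¬ cut k), ‖(F k - S k) * B k‖ :=
          (sum_filter_add_sum_filter_not _ _ _).symm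
        have e2 : ∑ k ∈ (PB n X).filter cut, ‖(F k - S k) * B k‖ ≤
            Real.sqrt (∑ k ∈ (PB n X).filter cut, ‖PC h as k - S k‖ ^ 2 * ‖PC h q1 k‖ ^ 2) *
            Real.sqrt (∑ k ∈ (PB n X).filter cut, ‖PC h bs k‖ ^ 2 * ‖PC h q2 k‖ ^ 2) := by
          have h1 := Real.sum_mul_le_sqrt_mul_sqrt ((PB n X).filter cut)
            (fun k => ‖PC h as k - S k‖ * ‖PC h q1 k‖) (fun k => ‖PC h bs k‖ * ‖PC h q2 k‖)
          simp only [mul_pow] at h1
          refine le_trans (le_of_eq ?_) h1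
          refine sum_congr rfl fun k _ => ?_
          simp only [hF, hB, BB, PC_append, norm_mul, map_mul, RCLike.norm_conj]
          ring
        have e3 : ∑ k ∈ (PB n X).filter (fun k => ¬ cut k), ‖(F k - S k) * B k‖ ≤
            ∑ k ∈ (PB n X).filter (fun k => ¬ cut k), ‖F k‖ * ‖B k‖ +
              ∑ k ∈ (PB n X).filter (fun k => ¬ cut k), ‖S k‖ * ‖B k‖ := by
          rw [← sum_add_distrib]
          refine sum_le_sum fun k _ => ?_
          rw [norm_mul, ← add_mul]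
          exact mul_le_mul_of_nonneg_right (norm_sub_le _ _) (norm_nonneg _)
        have e4 := mul_le_mul_of_nonneg_left (add_le_add e2 e3) hT0
        rw [← e1] at e4
        rw [mul_add] at e4
        linarith

end Crest.Agent.R017.E5P571
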