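import Crest.Agent.R017.SU_770
import Crest.Agent.R017.HP3_842
import Crest.Agent.R017.Two1_939

/-!
# Row 17: from all `k` to primary `k'` (helper770), part 2

* `tws_congr` : `sy (s k') b = sy s b * sy k' b`
* `Pc.tw`, `CS_tw` : the piece twisted by `sy s`
* `NPm_mul`, `NPk_mul`, `NP2_mul` : the nonprincipality conditions at `s k'`
* `exists_reps` : finitely many twists
* `sum_bl_split` : `∑_{k ∈ bl K} F k = ∑_s ∑_{k'} F (s k')`
* `box_split` : bound of a sum over `bl K` from the sums over primary `k'` for finitely many twists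
-/

set_option autoImplicit false

noncomputable section

open Complex
open scoped ComplexConjugate

namespace Crest.Agent.R017.SU770

open Crest.Agent.R012 Crest.Agent.R012.Eis Crest.Agent.R012.Mob705 Crest.Agent.R012.Gauss880
open Crest.Agent.R012.LS2
open Crest.Agent.R012.PSer47 (IsChar)
open Crest.Agent.R017.End699 Crest.Agent.R017.CM106 Crest.Agent.R017.HP842
open Crest.Agent.R017.FE47 Crest.Agent.R017.B770 Crest.Agent.R017.HBS271 Crest.Agent.R017.Sup271

/-! ### twists -/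

/-- the piece twisted by `sy s` -/
def tw1 (P : Pc) (s : Eis) : Pc := ⟨P.u, fun b => P.ψ b * sy s b, P.Y, P.t⟩

theorem CS_tw (h : ℝ → ℝ) (P : Pc) (s k : Eis) : CS (pc h P) (s * k) = CS (pc h (tw1 P s)) k := by
  unfold CS
  refine tsum_congr fun b => ?_
  unfold pc tw1
  by_cases hb : IsPrim b
  · rw [if_pos hb, if_pos hb, Char766.sy_mul_left hb]
    ring
  · rw [if_neg hb, if_neg hb, zero_mul, zero_mul]

theorem hc_tw1 {n : Eis} {P : Pc} (h : HC n P.ψ) {s : Eis} (hs : s ∈ SM n) :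
    HC (9 * n) (tw1 P s).ψ := Two939.hc_SM h hs

lemma SM.ne_zero {n s : Eis} (hs : s ∈ SM n) : s ≠ 0 := hs.1

/-- coprimality to `n * (9 * (s * k))` -/
lemma cop_iff {n s k : Eis} (hs : s ∈ SM n) {b : Eis} (hb : IsPrim b) :
    IsCoprime b (n * (9 * (s * k))) ↔ IsCoprime b (9 * n * (9 * k)) := by
  have h9 : ∀ x : Eis, IsCoprime b (9 * x) ↔ IsCoprime b x := fun x =>
    End699.isCoprime_nine_mul hb
  rw [IsCoprime.mul_right_iff, h9, IsCoprime.mul_right_iff, IsCoprime.mul_right_iff, h9, h9]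
  constructor
  · rintro ⟨h1, h2, h3⟩; exact ⟨h1, h3⟩
  · rintro ⟨h1, h3⟩; exact ⟨h1, FE47.SM.coprime hs h1, h3⟩

theorem NPm_mul {n s k : Eis} {ψ : Eis → ℂ} {l : ℤ} (hs : s ∈ SM n) :
    NPm n ψ l (s * k) ↔ NPm (9 * n) (fun b => ψ b * sy s b) l k := by
  unfold NPm NP
  refine or_congr Iff.rfl ⟨?_, ?_⟩
  · rintro ⟨a, h1, h2, h3⟩
    refine ⟨a, h1, (cop_iff hs h1).mp h2, ?_⟩
    beta_reduce at h3 ⊢
    rwa [Char766.sy_mul_left h1, ← mul_assoc] at h3
  · rintro ⟨a, h1, h2, h3⟩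
    refine ⟨a, h1, (cop_iff hs h1).mpr h2, ?_⟩
    beta_reduce at h3 ⊢
    rwa [Char766.sy_mul_left h1, ← mul_assoc]

theorem NPk_mul {n s k : Eis} {φ : Eis → ℂ} {l : ℤ} (hs : s ∈ SM n) :
    NPk n φ l (s * k) ↔ NPk (9 * n) (fun b => φ b * conj (sy s b)) l k := by
  unfold NPk NP
  refine or_congr Iff.rfl ⟨?_, ?_⟩
  · rintro ⟨a, h1, h2, h3⟩
    refine ⟨a, h1, (cop_iff hs h1).mp h2, ?_⟩
    beta_reduce at h3 ⊢
    rwa [Char766.sy_mul_left h1, map_mul, ← mul_assoc] at h3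
  · rintro ⟨a, h1, h2, h3⟩
    refine ⟨a, h1, (cop_iff hs h1).mpr h2, ?_⟩
    beta_reduce at h3 ⊢
    rwa [Char766.sy_mul_left h1, map_mul, ← mul_assoc]

/-- `s` and `t` give the same twist on the primary elements prime to `n` -/
def SameTw (n s t : Eis) : Prop := ∀ b, IsPrim b → IsCoprime b n → sy s b = sy t b

lemma cop_cong {n s t k : Eis} (hs : s ∈ SM n) (ht : t ∈ SM n) {b : Eis} (hb : IsPrim b) :
    IsCoprime b (n * (9 * (s * k))) ↔ IsCoprime b (n * (9 * (t * k))) := by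
  rw [cop_iff hs hb, cop_iff ht hb]

theorem NPm_same {n s t k : Eis} {ψ : Eis → ℂ} {l : ℤ} (hs : s ∈ SM n) (ht : t ∈ SM n)
    (hst : SameTw n s t) : NPm n ψ l (s * k) ↔ NPm n ψ l (t * k) := by
  unfold NPm NP
  have key : ∀ a, IsPrim a → IsCoprime a (n * (9 * (s * k))) →
      sy (s * k) a = sy (t * k) a := by
    intro a h1 h2
    rw [Char766.sy_mul_left h1, Char766.sy_mul_left h1,
      hst a h1 (IsCoprime.mul_right_iff.mp h2).1]
  refine or_congr Iff.rfl ⟨?_, ?_⟩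
  · rintro ⟨a, h1, h2, h3⟩
    refine ⟨a, h1, (cop_cong hs ht h1).mp h2, ?_⟩
    beta_reduce at h3 ⊢
    rwa [← key a h1 h2]
  · rintro ⟨a, h1, h2, h3⟩
    have h2' := (cop_cong hs ht h1).mpr h2
    refine ⟨a, h1, h2', ?_⟩
    beta_reduce at h3 ⊢
    rwa [key a h1 h2']

theorem NPk_same {n s t k : Eis} {φ : Eis → ℂ} {l : ℤ} (hs : s ∈ SM n) (ht : t ∈ SM n)
    (hst : SameTw n s t) : NPk n φ l (s * k) ↔ NPk n φ l (t * k) := by
  unfold NPk NP
  have key : ∀ a, IsPrim a → IsCoprime a (n * (9 * (s * k))) →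
      sy (s * k) a = sy (t * k) a := by
    intro a h1 h2
    rw [Char766.sy_mul_left h1, Char766.sy_mul_left h1,
      hst a h1 (IsCoprime.mul_right_iff.mp h2).1]
  refine or_congr Iff.rfl ⟨?_, ?_⟩
  · rintro ⟨a, h1, h2, h3⟩
    refine ⟨a, h1, (cop_cong hs ht h1).mp h2, ?_⟩
    beta_reduce at h3 ⊢
    rwa [← key a h1 h2]
  · rintro ⟨a, h1, h2, h3⟩
    have h2' := (cop_cong hs ht h1).mpr h2
    refine ⟨a, h1, h2', ?_⟩
    beta_reduce at h3 ⊢
    rwa [key a h1 h2']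

theorem CS_same (h : ℝ → ℝ) {n s t : Eis} {P : Pc} (hP : ∀ b, IsPrim b → ¬ IsCoprime b n → P.ψ b = 0)
    (hst : SameTw n s t) (k : Eis) : CS (pc h P) (s * k) = CS (pc h P) (t * k) := by
  unfold CS
  refine tsum_congr fun b => ?_
  unfold pc
  by_cases hb : IsPrim b
  · rw [if_pos hb]
    by_cases hc : IsCoprime b n
    · rw [Char766.sy_mul_left hb, Char766.sy_mul_left hb, hst b hb hc]
    · rw [hP b hb hc, mul_zero, zero_mul, zero_mul, zero_mul]
  · rw [if_neg hb, zero_mul, zero_mul]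

/-! ### finitely many twists -/

lemma finite_vals : Set.Finite {z : ℂ | z = 0 ∨ z ^ 3 = 1} := by
  have h1 : {z : ℂ | z = 0 ∨ z ^ 3 = 1} = {0} ∪ {z | z ^ 3 = 1} := by
    ext z; simp
  rw [h1]
  refine (Set.finite_singleton _).union ?_
  refine Set.Finite.subset (Polynomial.nthRootsFinset 3 (1 : ℂ)).finite_toSet fun z hz => ?_
  rw [Finset.mem_coe, Polynomial.mem_nthRootsFinset (by norm_num)]
  exact hz

theorem exists_reps {n : Eis} (hn : n ≠ 0) : ∃ T : Finset Eis, (∀ t ∈ T, t ∈ SM n) ∧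
    ∀ s ∈ SM n, ∃ t ∈ T, SameTw n s t := by
  classical
  set V : Set ℂ := {z : ℂ | z = 0 ∨ z ^ 3 = 1} with hV
  have : Finite V := finite_vals
  set R : Finset Eis := ball (nm (9 * n)) with hR
  have hval : ∀ (s b : Eis), IsPrim b → sy s b ∈ V := by
    intro s b hb
    by_cases h : IsCoprime s b
    · exact Or.inr (Char766.sy_cube hb h)
    · exact Or.inl (Char766.sy_eq_zero hb h)
  let Φ : SM n → (R → V) := fun s r =>
    if h : IsPrim (r : Eis) then ⟨sy s.1 r.1, hval _ _ h⟩ else ⟨0, Or.inl rfl⟩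
  have : Finite (Set.range Φ) := Set.toFinite _
  have : Fintype (Set.range Φ) := Fintype.ofFinite _
  refine ⟨Finset.univ.image fun y : Set.range Φ => ((y.2.choose : SM n) : Eis), ?_, ?_⟩
  · intro t ht
    rw [Finset.mem_image] at ht
    obtain ⟨y, -, rfl⟩ := ht
    exact (y.2.choose).2
  · intro s hs
    set y : Set.range Φ := ⟨Φ ⟨s, hs⟩, ⟨⟨s, hs⟩, rfl⟩⟩ with hy
    refine ⟨_, Finset.mem_image_of_mem _ (Finset.mem_univ y), ?_⟩
    intro b hb hbn
    have h1 : Φ y.2.choose = Φ ⟨s, hs⟩ := y.2.choose_spec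
    -- reduce `b` modulo `9 n`
    set r : Eis := b - 9 * n * quo b (9 * n) with hr
    have h9n : (9 : Eis) * n ≠ 0 := mul_ne_zero nine_ne_zero hn
    have hrlt : nm r < nm (9 * n) := nm_sub_quo_lt b h9n
    have hrR : r ∈ R := by rw [hR, mem_ball]; exact hrlt.le
    have hdvd : 9 * n ∣ b - r := ⟨quo b (9 * n), by rw [hr]; ring⟩
    have h39 : (3 : Eis) ∣ 9 * n := ⟨3 * n, by ring⟩
    have hrp : IsPrim r := by
      unfold IsPrim at hb ⊢
      have : r - 1 = (b - 1) - (b - r) := by ring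
      rw [this]
      exact dvd_sub hb (h39.trans hdvd)
    have h2 := congrFun h1 ⟨r, hrR⟩
    simp only [Φ, dif_pos hrp] at h2
    have h3 : sy (y.2.choose : SM n).1 r = sy s r := congrArg Subtype.val h2
    rw [Two939.sy_per_SM hs hb hrp hdvd, Two939.sy_per_SM (y.2.choose).2 hb hrp hdvd, h3]

/-! ### splitting of sums over `bl K` -/

open Classical in
/-- primary elements of norm at most `K`, prime to `n` -/
def pbn (n : Eis) (K : ℝ) : Finset Eis := (primBall ⌊K⌋₊).filter fun k => IsCoprime k n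

lemma mem_pbn {n k : Eis} {K : ℝ} (hK : 0 ≤ K) :
    k ∈ pbn n K ↔ (nm k : ℝ) ≤ K ∧ IsPrim k ∧ IsCoprime k n := by
  classical
  unfold pbn
  rw [Finset.mem_filter, mem_primBall, Nat.le_floor_iff hK]
  tauto

theorem sum_bl_split {n : Eis} (h3 : (3 : Eis) ∣ n) (F : Eis → ℝ) {K : ℝ} (hK : 0 ≤ K) :
    ∑ k ∈ bl K, F k = ∑ s ∈ SU n ⌊K⌋₊, ∑ k ∈ pbn n (K / nm s), F (s * k) := by
  classical
  set G : Eis → ℂ := fun k => if (nm k : ℝ) ≤ K then (F k : ℂ) else 0 with hG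
  have hGn : ∀ k, G k ≠ 0 → nm k ≤ ⌊K⌋₊ := by
    intro k hk
    rw [Nat.le_floor_iff hK]
    by_contra hne
    apply hk
    simp only [hG]
    rw [if_neg hne]
  have h1 := tsum_split h3 G hGn
  have h2 : ∑' k : Eis, (if k ≠ 0 then G k else 0) = ((∑ k ∈ bl K, F k : ℝ) : ℂ) := by
    rw [tsum_eq_sum (s := bl K)]
    · push_cast
      refine Finset.sum_congr rfl fun k hk => ?_
      obtain ⟨h5, h4⟩ := (mem_bl hK).mp hk
      rw [if_pos h5]
      simp only [hG]
      rw [if_pos h4]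
    · intro k hk
      split_ifs with h0
      · simp only [hG]
        rw [if_neg]
        intro h4
        exact hk ((mem_bl hK).mpr ⟨h0, h4⟩)
      · rfl
  have h3' : ∀ s ∈ SU n ⌊K⌋₊, (∑' k' : Eis, if IsPrim k' ∧ IsCoprime k' n then G (s * k') else 0) =
      ((∑ k ∈ pbn n (K / nm s), F (s * k) : ℝ) : ℂ) := by
    intro s hs
    have hs0 : s ≠ 0 := (mem_SU.mp hs).2.1
    have hsn : (0 : ℝ) < nm s := by exact_mod_cast nm_pos.mpr hs0
    have hKs : 0 ≤ K / nm s := by positivity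
    rw [tsum_eq_sum (s := pbn n (K / nm s))]
    · push_cast
      refine Finset.sum_congr rfl fun k hk => ?_
      obtain ⟨h4, h5, h6⟩ := (mem_pbn hKs).mp hk
      rw [if_pos ⟨h5, h6⟩]
      simp only [hG]
      rw [if_pos]
      rw [nm_mul, Nat.cast_mul]
      rw [le_div_iff₀ hsn] at h4
      linarith
    · intro k hk
      split_ifs with h0
      · simp only [hG]
        rw [if_neg]
        intro h4
        apply hk
        rw [mem_pbn hKs]
        refine ⟨?_, h0.1, h0.2⟩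
        rw [nm_mul, Nat.cast_mul] at h4
        rw [le_div_iff₀ hsn]
        linarith
      · rfl
  rw [h2, Finset.sum_congr rfl h3'] at h1
  exact_mod_cast h1

/-- **box split**: a nonnegative function `F` of `k` which only depends on the twist. -/
theorem box_split {n : Eis} (hn : n ≠ 0) (h3 : (3 : Eis) ∣ n) {ε : ℝ} (hε : 0 < ε) :
    ∃ (C : ℝ) (T : Finset Eis), 0 ≤ C ∧ (∀ t ∈ T, t ∈ SM n) ∧ (∀ s ∈ SM n, ∃ t ∈ T, SameTw n s t) ∧
      ∀ (F : Eis → ℝ), (∀ s ∈ SM n, ∀ t ∈ SM n, SameTw n s t → ∀ k, IsPrim k → IsCoprime k n →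
        F (s * k) ≤ F (t * k)) → ∀ K B a : ℝ, 1 ≤ K → 0 ≤ B → 0 ≤ a →
      (∀ t ∈ T, ∀ K', 1 ≤ K' → K' ≤ K → ∑ k ∈ pbn n K', F (t * k) ≤ B * K' ^ a) →
      ∑ k ∈ bl K, F k ≤ C * K ^ ε * (B * K ^ a) := by
  obtain ⟨C, hC, hcard⟩ := card_SU hε hn
  obtain ⟨T, hT1, hT2⟩ := exists_reps hn
  refine ⟨C, T, hC, hT1, hT2, fun F hF K B a hK hB ha hb => ?_⟩
  have hK0 : (0 : ℝ) < K := by linarith
  rw [sum_bl_split h3 F hK0.le]
  have hfl : ((⌊K⌋₊ : ℕ) : ℝ) ≤ K := Nat.floor_le hK0.le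
  calc ∑ s ∈ SU n ⌊K⌋₊, ∑ k ∈ pbn n (K / nm s), F (s * k) ≤
      ∑ s ∈ SU n ⌊K⌋₊, B * K ^ a := by
        refine Finset.sum_le_sum fun s hs => ?_
        obtain ⟨hs1, hs2⟩ := mem_SU.mp hs
        obtain ⟨t, ht, hst⟩ := hT2 s hs2
        have hsn : (1 : ℝ) ≤ nm s := by exact_mod_cast nm_pos.mpr hs2.1
        have hsK : (nm s : ℝ) ≤ K := le_trans (by exact_mod_cast hs1) hfl
        have hK1 : 1 ≤ K / nm s := by rw [le_div_iff₀ (by linarith)]; linarith
        have hK2 : K / nm s ≤ K := div_le_self hK0.le hsn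
        calc ∑ k ∈ pbn n (K / nm s), F (s * k) ≤ ∑ k ∈ pbn n (K / nm s), F (t * k) := by
              refine Finset.sum_le_sum fun k hk => ?_
              obtain ⟨-, h5, h6⟩ := (mem_pbn (by linarith)).mp hk
              exact hF s hs2 t (hT1 t ht) hst k h5 h6
          _ ≤ B * (K / nm s) ^ a := hb t ht _ hK1 hK2
          _ ≤ B * K ^ a := by
              refine mul_le_mul_of_nonneg_left ?_ hB
              exact Real.rpow_le_rpow (by linarith) hK2 ha
    _ = ((SU n ⌊K⌋₊).card : ℝ) * (B * K ^ a) := by rw [Finset.sum_const, nsmul_eq_mul]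
    _ ≤ C * K ^ ε * (B * K ^ a) := by
        refine mul_le_mul_of_nonneg_right ?_ (by positivity)
        refine (hcard ⌊K⌋₊).trans ?_
        refine mul_le_mul_of_nonneg_left ?_ hC
        exact Real.rpow_le_rpow (by positivity) hfl hε.le

open Classical in
/-- the product of the character sums of a list of pieces, over `k` with `Q k` -/
def PF1 (h : ℝ → ℝ) (Q : Eis → Prop) (ps : List Pc) (k : Eis) : ℝ :=
  if Q k then (ps.map fun P => ‖CS (pc h P) k‖).prod else 0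

/-- the hypothesis of `box_split` for products of character sums -/
theorem PF1_same (h : ℝ → ℝ) {n : Eis} {Q : Eis → Prop} {ps : List Pc}
    (hps : ∀ P ∈ ps, ∀ b, IsPrim b → ¬ IsCoprime b n → P.ψ b = 0)
    (hQ : ∀ s ∈ SM n, ∀ t ∈ SM n, SameTw n s t → ∀ k, IsPrim k → IsCoprime k n →
      (Q (s * k) ↔ Q (t * k))) :
    ∀ s ∈ SM n, ∀ t ∈ SM n, SameTw n s t → ∀ k, IsPrim k → IsCoprime k n →
      PF1 h Q ps (s * k) ≤ PF1 h Q ps (t * k) := by
  intro s hs t ht hst k hk hkn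
  unfold PF1
  have e1 : (ps.map fun P => ‖CS (pc h P) (s * k)‖) = ps.map fun P => ‖CS (pc h P) (t * k)‖ := by
    refine List.map_congr_left fun P hP => ?_
    rw [CS_same h (hps P hP) hst]
  rw [e1]
  by_cases hq : Q (s * k)
  · rw [if_pos hq, if_pos ((hQ s hs t ht hst k hk hkn).mp hq)]
  · rw [if_neg hq, if_neg fun h => hq ((hQ s hs t ht hst k hk hkn).mpr h)]

/-- at `t k'`: the twisted pieces -/
theorem PF1_tw (h : ℝ → ℝ) (Q : Eis → Prop) (ps : List Pc) (t k : Eis) :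
    PF1 h Q ps (t * k) = PF1 h (fun k => Q (t * k)) (ps.map fun P => tw1 P t) k := by
  unfold PF1
  have e1 : (ps.map fun P => ‖CS (pc h P) (t * k)‖) =
      (ps.map fun P => tw1 P t).map fun P => ‖CS (pc h P) k‖ := by
    rw [List.map_map]
    refine List.map_congr_left fun P _ => ?_
    rw [CS_tw]
    rfl
  rw [e1]

end Crest.Agent.R017.SU770
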