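import Crest.Agent.R017.P6_271
import Crest.Agent.R017.SU2_770
import Crest.Agent.R017.BL5d_868

/-!
# Row 17, R8 (E5), part P5: from all `k` to primary `k` (helper271)

* `moP P t ps`, `amP P t ps` : the typed pieces of the two kinds, twisted by `sy t`
* `VV_tw` : `VV P h ps (t k) = ∏ CS (moP) k * conj (∏ CS (amP) k)`, `VV_same`
* `SgA_eq` : exact splitting over the `S`-units
* `norm_SgA_le` : `‖SgA‖ ≤ nm n₃ ∑_s ‖SgP ... (H / nm s)‖`
-/

set_option autoImplicit false

noncomputable section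

open Complex MeasureTheory Filter Topology
open scoped ContDiff ComplexConjugate

namespace Crest.Agent.R017.E5S271

open Crest.Agent.R012 Crest.Agent.R012.Eis Crest.Agent.R012.Gauss880
open Crest.Agent.R012.LS2 (bl mem_bl)
open Crest.Agent.R012.PSer47 Crest.Agent.R012.Div277 Crest.Agent.R012.Mob705
open Crest.Agent.R017.CM106 (CS)
open Crest.Agent.R017.End699 Crest.Agent.R017.FE47 Crest.Agent.R017.Two939
open Crest.Agent.R017.B770 Crest.Agent.R017.Sup271 Crest.Agent.R017.Bx986
open Crest.Agent.R017.HP842 (UT Pc pc)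
open Crest.Agent.R017.SU770
open Crest.Agent.R017.Prov71 Crest.Agent.R017.XG702 Crest.Agent.R017.ER911
open Crest.Agent.R017.E5T54 Crest.Agent.R017.BadK271
open Crest.Agent.R017.Sx545 (Sm)
open Crest.Agent.R017.BoxP271 (norm_sy_le')

/-- the Möbius pieces, twisted by `sy t` -/
def moP (P : DPar) (t : Eis) (ps : List Pq) : List Pc :=
  (ps.filter fun p => p.kd = .mo).map fun p => tw1 (p.pc P) t

/-- the amplifier pieces, twisted by `sy t` -/
def amP (P : DPar) (t : Eis) (ps : List Pq) : List Pc :=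
  (ps.filter fun p => p.kd = .am).map fun p => tw1 (p.pc P) t

@[simp] lemma moP_nil (P : DPar) (t : Eis) : moP P t [] = [] := rfl
@[simp] lemma amP_nil (P : DPar) (t : Eis) : amP P t [] = [] := rfl

lemma moP_append (P : DPar) (t : Eis) (ps qs : List Pq) :
    moP P t (ps ++ qs) = moP P t ps ++ moP P t qs := by
  unfold moP; rw [List.filter_append, List.map_append]

lemma amP_append (P : DPar) (t : Eis) (ps qs : List Pq) :
    amP P t (ps ++ qs) = amP P t ps ++ amP P t qs := by
  unfold amP; rw [List.filter_append, List.map_append]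

lemma moP_perm {P : DPar} {t : Eis} {ps qs : List Pq} (h : ps.Perm qs) :
    (moP P t ps).Perm (moP P t qs) := (h.filter _).map _

lemma amP_perm {P : DPar} {t : Eis} {ps qs : List Pq} (h : ps.Perm qs) :
    (amP P t ps).Perm (amP P t qs) := (h.filter _).map _

/-- **the value at `t k`** -/
theorem VV_tw (P : DPar) (h : ℝ → ℝ) (ps : List Pq) (t k : Eis) :
    VV P h ps (t * k) = ((moP P t ps).map fun p => CS (pc h p) k).prod *
      conj ((amP P t ps).map fun p => CS (pc h p) k).prod := by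
  induction ps with
  | nil => simp [VV]
  | cons p ps ih =>
    have e : VV P h (p :: ps) (t * k) = Vp P h (t * k) p * VV P h ps (t * k) := by simp [VV]
    rw [e, ih]
    cases hk : p.kd with
    | mo =>
      have e1 : moP P t (p :: ps) = tw1 (p.pc P) t :: moP P t ps := by
        unfold moP; rw [List.filter_cons_of_pos (by simp [hk]), List.map_cons]
      have e2 : amP P t (p :: ps) = amP P t ps := by
        unfold amP; rw [List.filter_cons_of_neg (by simp [hk])]
      have e3 : Vp P h (t * k) p = CS (pc h (tw1 (p.pc P) t)) k := by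
        rw [← CS_tw]
        unfold Vp
        rw [hk]
      rw [e1, e2, e3, List.map_cons, List.prod_cons]
      ring
    | am =>
      have e1 : moP P t (p :: ps) = moP P t ps := by
        unfold moP; rw [List.filter_cons_of_neg (by simp [hk])]
      have e2 : amP P t (p :: ps) = tw1 (p.pc P) t :: amP P t ps := by
        unfold amP; rw [List.filter_cons_of_pos (by simp [hk]), List.map_cons]
      have e3 : Vp P h (t * k) p = conj (CS (pc h (tw1 (p.pc P) t)) k) := by
        rw [← CS_tw]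
        unfold Vp
        rw [hk]
      rw [e1, e2, e3, List.map_cons, List.prod_cons, map_mul]
      ring

lemma chK_van {P : DPar} (hP : P.OK) (κ : Kd) {b : Eis} (hb : IsPrim b)
    (hc : ¬ IsCoprime b P.n) : chK P κ b = 0 := by
  cases κ with
  | mo => simp only [chK]; rw [hP.ψ.van b hb hc, zero_mul]
  | am => simp only [chK]; rw [hP.φ.van b hb hc, zero_mul, map_zero]

/-- the value depends on the twist only -/
theorem VV_same {P : DPar} (hP : P.OK) (h : ℝ → ℝ) (ps : List Pq) {s t : Eis}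
    (hst : SameTw P.n s t) (k : Eis) : VV P h ps (s * k) = VV P h ps (t * k) := by
  unfold VV
  congr 1
  refine List.map_congr_left fun p _ => ?_
  have e : CS (pc h (p.pc P)) (s * k) = CS (pc h (p.pc P)) (t * k) :=
    CS_same h (fun b hb hc => by rw [Pq.pc_ψ]; simp only; rw [chK_van hP _ hb hc, zero_mul]) hst k
  unfold Vp
  cases p.kd with
  | mo => exact e
  | am => exact congrArg (starRingEnd ℂ) e

/-- the twist of a piece is a piece with a character of the same kind -/
lemma isChar_tw {P : DPar} (hP : P.OK) {t : Eis} (p : Pq) :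
    IsChar (tw1 (p.pc P) t).ψ := by
  have h1 : IsChar (p.pc P).ψ := (p.ok hP).ch
  exact h1.mul' (Char766.isChar_sy t)

open Classical in
/-- **exact splitting over the `S`-units** -/
theorem SgA_eq {P : DPar} (hP : P.OK) {β : ℝ} (hβ : 0 < β) (hβU : ∀ x, β < x → P.U x = 0)
    {h : ℝ → ℝ} {H : ℝ} (hH : 0 < H) (τ : ℝ) (d₃ : Eis) {e : Eis} (he : IsPrim e) (ps : List Pq)
    {q : Eis} (hq : Sm P.n q) :
    SgA P h τ H d₃ e ps q = ∑ s ∈ SU P.n ⌊β * H⌋₊, (DPar.ws P τ s * (prin0 d₃ s * sy s e)) *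
      ∑' k : Eis, if IsPrim k ∧ IsCoprime k P.n ∧ q ^ 2 ∣ k then
        DPar.wp P τ (H / nm s) k * (prin0 d₃ k * sy k e) * VV P h ps (s * k) else 0 := by
  have h3 : (3 : Eis) ∣ P.n := Dvd.dvd.trans ⟨12, by norm_num⟩ hP.n36
  set F : Eis → ℂ := fun k => if q ^ 2 ∣ k then
    P.wk τ H k * (prin0 d₃ k * sy k e) * VV P h ps k else 0 with hF
  have hFz : ∀ k, F k ≠ 0 → nm k ≤ ⌊β * H⌋₊ := by
    intro k hk
    rw [Nat.le_floor_iff (by positivity)]
    by_contra hne
    push Not at hne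
    apply hk
    have h3' : P.U (nm k / H) = 0 := hβU _ (by rwa [lt_div_iff₀ hH])
    simp only [hF]
    unfold DPar.wk
    rw [h3']
    simp
  have e1 : SgA P h τ H d₃ e ps q = ∑' k : Eis, if k ≠ 0 then F k else 0 := by
    unfold SgA
    refine tsum_congr fun k => ?_
    simp only [hF]
    by_cases h1 : k ≠ 0 <;> by_cases h2 : q ^ 2 ∣ k <;> simp [h1, h2]
  rw [e1, tsum_split h3 F hFz]
  refine Finset.sum_congr rfl fun s hs => ?_
  rw [← tsum_mul_left]
  refine tsum_congr fun k => ?_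
  have hsn := (mem_SU.mp hs).2
  by_cases hk : IsPrim k ∧ IsCoprime k P.n
  swap
  · rw [if_neg hk, if_neg (fun h' => hk ⟨h'.1, h'.2.1⟩), mul_zero]
  rw [if_pos hk]
  have hqs : IsCoprime (q ^ 2) s := by
    have := FE47.SM.coprime hsn hq.2
    exact this.pow_left
  have hdvd : q ^ 2 ∣ s * k ↔ q ^ 2 ∣ k := ⟨fun h' => hqs.dvd_of_dvd_mul_left h',
    fun h' => h'.mul_left s⟩
  simp only [hF]
  by_cases hqk : q ^ 2 ∣ k
  · rw [if_pos (hdvd.mpr hqk), if_pos ⟨hk.1, hk.2, hqk⟩, wk_mul hP τ H s hk.1 hk.2,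
      L5.prin0_mul_right, Char766.sy_mul_left he]
    ring
  · rw [if_neg fun h' => hqk (hdvd.mp h'), if_neg fun h' => hqk h'.2.2, mul_zero]

open Classical in
/-- the signed sum over the primary `k` in terms of the values at `t k` -/
lemma SgP_eq_VV (P : DPar) (h : ℝ → ℝ) (n : Eis) (W : Eis → ℂ) (d₃ e : Eis) (ps : List Pq)
    (t q : Eis) : SgP n W h d₃ e (moP P t ps) (amP P t ps) q =
      ∑' k : Eis, if IsPrim k ∧ IsCoprime k n ∧ q ^ 2 ∣ k then
        W k * (prin0 d₃ k * sy k e) * VV P h ps (t * k) else 0 := by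
  unfold SgP
  refine tsum_congr fun k => ?_
  rw [VV_tw]

/-- **P5**: the signed sum from the signed sums over primary `k` -/
theorem norm_SgA_le {P : DPar} (hP : P.OK) {β : ℝ} (hβ : 0 < β) (hβU : ∀ x, β < x → P.U x = 0)
    {rep : Eis → Eis} (hrep : ∀ s ∈ SM P.n, SameTw P.n s (rep s))
    {h : ℝ → ℝ} {H : ℝ} (hH : 0 < H) (τ : ℝ) (d₃ : Eis) {e : Eis} (he : IsPrim e) (ps : List Pq)
    {q : Eis} (hq : Sm P.n q) :
    ‖SgA P h τ H d₃ e ps q‖ ≤ nm P.n₃ * ∑ s ∈ SU P.n ⌊β * H⌋₊,
      ‖SgP P.n (DPar.wp P τ (H / nm s)) h d₃ e (moP P (rep s) ps) (amP P (rep s) ps) q‖ := by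
  classical
  rw [SgA_eq hP hβ hβU hH τ d₃ he ps hq, Finset.mul_sum]
  refine (norm_sum_le _ _).trans (Finset.sum_le_sum fun s hs => ?_)
  have hsn := (mem_SU.mp hs).2
  have e1 : (∑' k : Eis, if IsPrim k ∧ IsCoprime k P.n ∧ q ^ 2 ∣ k then
        DPar.wp P τ (H / nm s) k * (prin0 d₃ k * sy k e) * VV P h ps (s * k) else 0) =
      SgP P.n (DPar.wp P τ (H / nm s)) h d₃ e (moP P (rep s) ps) (amP P (rep s) ps) q := by
    rw [SgP_eq_VV]
    refine tsum_congr fun k => ?_
    rw [VV_same hP h ps (hrep s hsn)]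
  rw [e1, norm_mul]
  refine mul_le_mul_of_nonneg_right ?_ (norm_nonneg _)
  rw [norm_mul]
  have h1 := norm_ws_le hP.χ₃ τ hsn.1
  have h2 : ‖prin0 d₃ s * sy s e‖ ≤ 1 := by
    rw [norm_mul]
    refine mul_le_one₀ ?_ (norm_nonneg _) (norm_sy_le' s e he)
    unfold prin0; split_ifs <;> simp
  calc ‖DPar.ws P τ s‖ * ‖prin0 d₃ s * sy s e‖ ≤ nm P.n₃ * 1 := by gcongr
    _ = _ := mul_one _

end Crest.Agent.R017.E5S271
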