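import Crest.Agent.R017.UM_71
import Crest.Agent.R017.E5P_571
import Crest.Agent.R017.SU2_770
import Crest.Agent.R017.R8Bud_918
import Crest.Agent.R017.E5S_271

/-!
# Row 17, R8 / E5: the assembly P8 of the signed near-equal boxes, literal Props (helper71)

* `UB` : uniform bound over all lists of pieces near a compact domain of configurations
* `Bd`, `S5` : base datum of a near-equal box (family, amplifier share `x` of the three-lump side,
  five smooth pieces, `d₃`, `e`, `τ`, `𝒟`) and its exponent vector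
* `PrimF` (signed sum over primary `k`), `ErrF` (error moment), `MidF` (structured middle term),
  `TailS` (tail with the structured function), `TailC` (tail of the box)
* `SqDom` : the configurations which have to be closed by the exact square
* `P1`, `StrU`, `TailU`, `AbsU` : the inputs;  `Sf` = the structured function (arbitrary here)
* v2 : `Sq5` with helper70/918's `TlO` in the normalised variables; `P1` as a uniform bound (`UB`)
* v3 : `κ ≥ 8/9`; `Sq5` with `sqE` (helper918, twist `e`) and `na` (not closed absolutely)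
* v4 : `ErrF` with the lower cut `e^{l - R} ≤ N k`; `MoD` with `Adm` (helper372)
* v5 : `Sq5` with `need` (helper904, helper918: the share `x` is not larger than necessary);
  `ErrF` only for lists of amplifier pieces (helper54)
* v6 : `E1x` with the full `max 0 (5/4 N - κ)`, `Sq5` with `sq2` (helper957: cross tail in `P1`)
* v7 : `need` without slack (helper957: `certO3`)
* v8 : `E1x d` with the loss `3/4 d κ`, `sq2` with `- d`
* v9 : `TailS` with the lower cut of `ErrF` (helper47)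
-/

set_option autoImplicit false

noncomputable section

open Set
open scoped ComplexConjugate

namespace Crest.Agent.R017.E5B71

open Crest.Agent.R012 Crest.Agent.R012.Eis Crest.Agent.R012.Mob705
open Crest.Agent.R017.CM106 Crest.Agent.R017.FE47 Crest.Agent.R017.End699
open Crest.Agent.R017.Sx545 (Sm)
open Crest.Agent.R017.XG702 (Pcs)
open Crest.Agent.R017.XT71 (Sys Win mx)
open Crest.Agent.R017.UM71
open Crest.Agent.R017.HP842 (Pc pc)
open Crest.Agent.R017.B770 Crest.Agent.R017.Prov71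
open Crest.Agent.R017.SU770 (tw1)
open Crest.Agent.R017.E5T54 Crest.Agent.R017.E5P571

variable {A Pc' ι τ Λ : Type*} [DecidableEq τ]

/-- **uniform bound** over all lists near `Dom`; every lump `p` satisfies `(ev, nl p) ∈ al` -/
def UB (S : Sys A ι) (D : Pcs Pc' τ) (Ψ : Λ → A → List Pc' → ℝ)
    (Dom : Set ((ι → ℝ) × (τ → ℝ))) (al : Set ((ι → ℝ) × ℝ))
    (E : (ι → ℝ) × (τ → ℝ) → ℝ) : Prop :=
  ∀ ε : ℝ, 0 < ε → ∃ δ : ℝ, 0 < δ ∧ ∀ (lam : Λ) (N : ℕ) (B : ℝ), ∃ δ' : ℝ, 0 < δ' ∧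
    ∃ X₀ : ℝ, 1 < X₀ ∧ ∀ X : ℝ, X₀ ≤ X → ∀ (a : A) (ps : List Pc'), ps.length ≤ N →
      (∀ p ∈ ps, D.lump p ∨ D.nl X p ≤ δ) → ∀ q ∈ Dom, Win S q.1 δ N B δ' X a →
      (∀ t, |D.mass X ps t - q.2 t| ≤ δ) → D.Good X δ' B ps →
      (∀ p ∈ ps, D.lump p → (S.ev X a, D.nl X p) ∈ al) → Ψ lam a ps ≤ X ^ (E q + ε)

/-- `UB` from configurations, for a positive functional with removable pieces -/
theorem ub_of_bgb [Fintype ι] [Fintype τ] {S : Sys A ι} {D : Pcs Pc' τ} (t₀ : τ)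
    {Ψ : Λ → A → List Pc' → ℝ} (h0 : ∀ lam l ps, 0 ≤ Ψ lam l ps)
    (hperm : ∀ lam l ps qs, ps.Perm qs → Ψ lam l ps = Ψ lam l qs) (hs1 : ∀ p, 0 ≤ D.s1 p)
    (hrem : ∀ lam, ∃ (C : ℝ) (A : ℕ), 1 ≤ C ∧ ∀ l p ps,
      Ψ lam l (p :: ps) ≤ C * (1 + D.s1 p) ^ A * Real.exp (D.len p) * Ψ lam l ps)
    (hkind : ∀ p, D.lump p → D.kind p = t₀) {Dom : Set ((ι → ℝ) × (τ → ℝ))}
    (hDom : IsCompact Dom) (hnn : ∀ q ∈ Dom, ∀ t, 0 ≤ q.2 t)
    (hdown : ∀ q ∈ Dom, ∀ b, 0 ≤ b → b ≤ q.2 t₀ →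
      (q.1, Function.update q.2 t₀ (q.2 t₀ - b)) ∈ Dom) {E : (ι → ℝ) × (τ → ℝ) → ℝ}
    (hE : Continuous E)
    (hEm : ∀ q ∈ Dom, ∀ b, 0 ≤ b → b ≤ q.2 t₀ →
      E (q.1, Function.update q.2 t₀ (q.2 t₀ - b)) ≤ E q)
    {al : Set ((ι → ℝ) × ℝ)} (hal : IsClosed al)
    (hbox : ∀ (p : ι → ℝ) (u : List ℝ) (w : τ → ℝ), (∀ x ∈ u, 0 < x) → (∀ t, 0 ≤ w t) →
      (p, XG702.tot t₀ u.sum w) ∈ Dom → (∀ x ∈ u, (p, x) ∈ al) →
      BGB S D Ψ p u w (E (p, XG702.tot t₀ u.sum w))) :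
    UB S D Ψ Dom al E := by
  intro ε hε
  obtain ⟨δ, hδ, K⟩ := topB (S := S) (D := D) t₀ h0 hperm hs1 hrem hkind hDom hnn hdown hE hEm
    (μ := 0) (Al := fun n => {p | ∀ i, (p.1, p.2 i) ∈ al})
    (fun n => by
      have : {p : (ι → ℝ) × (Fin n → ℝ) | ∀ i, (p.1, p.2 i) ∈ al} =
          ⋂ i, (fun p : (ι → ℝ) × (Fin n → ℝ) => (p.1, p.2 i)) ⁻¹' al := by
        ext p; simp
      rw [this]
      exact isClosed_iInter fun i => hal.preimage (by fun_prop))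
    (fun p u w hu hw hD hA => by
      rw [sub_zero]
      refine hbox p u w hu hw hD fun x hx => ?_
      obtain ⟨i, rfl⟩ := List.get_of_mem hx
      exact hA i)
    (μ' := -ε) (by linarith)
  refine ⟨δ, hδ, fun lam N B => ?_⟩
  obtain ⟨δ', hδ', X₀, hX₀, K'⟩ := K lam N B
  refine ⟨δ', hδ', X₀, hX₀, fun X hX a ps h1 h2 q hq hw hm hg hl => ?_⟩
  have := K' X hX a ps h1 h2 q hq hw hm hg (fun us hsub hus i =>
    hl _ (hsub.subset (List.get_mem us i)) (hus _ (List.get_mem us i)))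
  rwa [sub_neg_eq_add] at this

/-! ### data -/

/-- base datum of a near-equal box; `z` = length of the amplifier share of the three-lump side -/
structure Bd where
  l : ℝ
  z : ℝ
  us : Fin 5 → Pq
  d₃ : Eis
  e : Eis
  τ : ℝ
  𝒟 : Finset Eis

/-- the five marked pieces are smooth and not short -/
def Bd.ok (a : Bd) : Prop :=
  (∀ i, Dq.lump (a.us i) ∧ 0 ≤ (a.us i).z) ∧ 0 ≤ a.z ∧ a.d₃ ≠ 0

/-- the twist `e` and the outer sum: `e` primary prime to `n`, `p ∣ e → p⁵ ∣ e` -/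
def Bd.okP (P : DPar) (a : Bd) : Prop :=
  Sm P.n a.e ∧ (∀ p : Eis, Prime p → p ∣ a.e → p ^ 5 ∣ a.e) ∧ ∀ q ∈ a.𝒟, Sm P.n q ∧ Squarefree q

/-- exponent vector: `inl 0` = family, `inl 1` = amplifier share, `inl 2` = the twist `e`,
`inr i` = smooth pieces -/
def S5 : Sys Bd (Fin 3 ⊕ Fin 5) where
  ev X a := Sum.elim ![a.l / Real.log X, a.z / Real.log X, Real.log (nm a.e) / Real.log X]
    (fun i => Dq.nl X (a.us i))
  g _ := 1
  n _ := 0
  s₁ a := max (1 + |a.τ|) (mx Dq.s1 (List.ofFn a.us))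
  s₂ a := max (nm a.d₃) (mx Dq.s2 (List.ofFn a.us))

/-- typed piece, twisted by the `S`-unit `t` -/
def Pt (P : DPar) (t : Eis) (p : Pq) : Pc := tw1 (p.pc P) t

open Classical in
/-- Möbius pieces -/
def moL (ps : List Pq) : List Pq := ps.filter fun p => p.kd = .mo

open Classical in
/-- amplifier pieces -/
def amL (ps : List Pq) : List Pq := ps.filter fun p => p.kd = .am

/-- the three-lump side -/
def as3 (a : Bd) : List Pq := [a.us 2, a.us 3, a.us 4]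

/-- the two-lump side -/
def bs2 (a : Bd) (ps : List Pq) : List Pq := a.us 0 :: a.us 1 :: moL ps

variable (π : Λ → DPar) (h : ℝ → ℝ)

/-- structured functions: data `lam`, `S`-unit `t`, family `l`, the three pieces, share `z` -/
abbrev SF (Λ : Type*) := Λ → Eis → ℝ → (Fin 3 → Pq) → ℝ → Eis → ℂ

/-- the structured function of a base datum -/
def SF.at (Sf : SF Λ) (lam : Λ × Eis) (a : Bd) : Eis → ℂ :=
  Sf lam.1 lam.2 a.l ![a.us 2, a.us 3, a.us 4] a.z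

/-- the weight, family `e^l` -/
def Wt (P : DPar) (a : Bd) : Eis → ℂ := SU770.DPar.wp P a.τ (Real.exp a.l)

open Classical in
/-- **the signed sum over primary `k`** (twist by the `S`-unit `lam.2`) -/
def PrimF (lam : Λ × Eis) (a : Bd) (ps : List Pq) : ℝ :=
  if a.ok ∧ lam.2 ∈ SM (π lam.1).n ∧ a.okP (π lam.1) then
    ∑ q ∈ a.𝒟, ‖SgP (π lam.1).n (Wt (π lam.1) a) h a.d₃ a.e
      ((as3 a ++ bs2 a ps).map (Pt (π lam.1) lam.2)) ((amL ps).map (Pt (π lam.1) lam.2)) q‖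
  else 0

/-- no large cube divides `k` -/
def cutE (E₁ : ℝ) (k : Eis) : Prop := ∀ c : Eis, IsPrim c → c ^ 3 ∣ k → (nm c : ℝ) ≤ E₁

/-- the cut: `c³ ∣ k → N c ≤ K^{1/20}`, and neither character principal at `t k` -/
def cutN (P : DPar) (t : Eis) (l : ℝ) (k : Eis) : Prop :=
  cutE (Real.exp (l / 20)) k ∧ P.NP2 (t * k)

open Classical in
/-- **the error moment** over the cut `k`, `e^{l - R} ≤ N k ≤ e^{l + R}`; `q₁` = amplifier
pieces -/
def ErrF (Sf : SF Λ) (R : Λ → ℝ) (lam : Λ × Eis) (a : Bd) (q₁ : List Pq) : ℝ :=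
  if a.ok ∧ lam.2 ∈ SM (π lam.1).n ∧ ∀ p ∈ q₁, p.kd = .am then
    ∑ k ∈ (PB (π lam.1).n ⌊Real.exp (a.l + R lam.1)⌋₊).filter
        (fun k => cutE (Real.exp (a.l / 20)) k ∧ Real.exp (a.l - R lam.1) ≤ nm k),
      ‖PC h ((as3 a).map (Pt (π lam.1) lam.2)) k - Sf.at lam a k‖ ^ 2 *
        ‖PC h (q₁.map (Pt (π lam.1) lam.2)) k‖ ^ 2
  else 0

open Classical in
/-- **the structured middle term** -/
def MidF (Sf : SF Λ) (lam : Λ × Eis) (a : Bd) (ps : List Pq) : ℝ :=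
  if a.ok ∧ lam.2 ∈ SM (π lam.1).n ∧ a.okP (π lam.1) then
    ∑ q ∈ a.𝒟.filter (fun q => IsCoprime q a.d₃), ∑ g ∈ Gd (π lam.1).n a.d₃,
      ‖MS (π lam.1).n (Wt (π lam.1) a) a.e (fun k => Sf.at lam a k *
        BB h ((bs2 a ps).map (Pt (π lam.1) lam.2)) ((amL ps).map (Pt (π lam.1) lam.2)) [] k)
          (q ^ 2 * g)‖
  else 0

open Classical in
/-- **tail with the structured function** : `k` not in the cut, `e^{l - R} ≤ N k` -/
def TailS (Sf : SF Λ) (R : Λ → ℝ) (lam : Λ × Eis) (a : Bd) (ps : List Pq) : ℝ :=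
  if a.ok ∧ lam.2 ∈ SM (π lam.1).n then
    ∑ k ∈ (PB (π lam.1).n ⌊Real.exp (a.l + R lam.1)⌋₊).filter
        (fun k => ¬ cutN (π lam.1) lam.2 a.l k ∧ Real.exp (a.l - R lam.1) ≤ nm k),
      ‖Sf.at lam a k‖ *
      (‖PC h ((bs2 a ps).map (Pt (π lam.1) lam.2)) k‖ *
        ‖PC h ((amL ps).map (Pt (π lam.1) lam.2)) k‖)
  else 0

open Classical in
/-- **tail of the box** -/
def TailC (R : Λ → ℝ) (lam : Λ × Eis) (a : Bd) (ps : List Pq) : ℝ :=
  if a.ok ∧ lam.2 ∈ SM (π lam.1).n then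
    ∑ k ∈ (PB (π lam.1).n ⌊Real.exp (a.l + R lam.1)⌋₊).filter
        (fun k => ¬ cutN (π lam.1) lam.2 a.l k), ‖PC h ((as3 a).map (Pt (π lam.1) lam.2)) k‖ *
      (‖PC h ((bs2 a ps).map (Pt (π lam.1) lam.2)) k‖ *
        ‖PC h ((amL ps).map (Pt (π lam.1) lam.2)) k‖)
  else 0

open Classical in
/-- **second moment of the two-lump side** : `ps` = small lumps, granular Möbius pieces and the
remaining amplifier pieces -/
def MomF (R : Λ → ℝ) (lam : Λ × Eis) (a : Bd) (ps : List Pq) : ℝ :=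
  if a.ok ∧ lam.2 ∈ SM (π lam.1).n then
    ∑ k ∈ (PB (π lam.1).n ⌊Real.exp (a.l + R lam.1)⌋₊).filter (fun k => (π lam.1).NP2 (lam.2 * k)),
      ‖PC h ((a.us 0 :: a.us 1 :: ps).map (Pt (π lam.1) lam.2)) k‖ ^ 2
  else 0

/-! ### domains (not normalised: base `X = K₀`) -/

/-- `κ` -/
def cκ (p : Fin 3 ⊕ Fin 5 → ℝ) : ℝ := p (.inl 0)
/-- `x` -/
def cx' (p : Fin 3 ⊕ Fin 5 → ℝ) : ℝ := p (.inl 1)
/-- `log N(e)` -/
def ce (p : Fin 3 ⊕ Fin 5 → ℝ) : ℝ := p (.inl 2)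
/-- `u_i` -/
def cu (p : Fin 3 ⊕ Fin 5 → ℝ) (i : Fin 5) : ℝ := p (.inr i)
/-- `N = u₃ + u₄ + u₅` -/
def cN (p : Fin 3 ⊕ Fin 5 → ℝ) : ℝ := cu p 2 + cu p 3 + cu p 4
/-- `M = u₁ + u₂` -/
def cM (p : Fin 3 ⊕ Fin 5 → ℝ) : ℝ := cu p 0 + cu p 1

/-- near-equal configurations; `w` = masses of the unmarked pieces -/
structure Nr5 (A : ℝ) (p : Fin 3 ⊕ Fin 5 → ℝ) (w : Kd → ℝ) : Prop where
  κ0 : 8 / 9 ≤ cκ p
  κ1 : cκ p ≤ 1
  anti : cu p 1 ≤ cu p 0 ∧ cu p 2 ≤ cu p 1 ∧ cu p 3 ≤ cu p 2 ∧ cu p 4 ≤ cu p 3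
  w0 : ∀ t, 0 ≤ w t
  near : A * cκ p ≤ cN p + cu p 4
  q : cN p + cM p + w .mo ≤ 4 / 3
  c : w .am ≤ 1 / 3
  e0 : 0 ≤ ce p
  D : cN p + cM p + w .mo + ce p - w .am ≤ 1

/-- **the configurations of the exact square** (`θ = 7/8 + d`) : helper918's `TlO` in base `H` -/
structure Sq5 (A d : ℝ) (p : Fin 3 ⊕ Fin 5 → ℝ) (w : Kd → ℝ) : Prop extends Nr5 A p w where
  κ31 : 28 ≤ 31 * cκ p
  a12 : 12 * w .mo ≤ cκ p
  tl : R8C918.TlO d (cN p / cκ p) (cM p / cκ p) (cu p 4 / cκ p) (w .mo / cκ p) (w .am / cκ p)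
    (cx' p / cκ p) (R8C918.Al d (1 / cκ p) (cN p / cκ p + cM p / cκ p + w .mo / cκ p)
      (w .am / cκ p) - 1 / 4 * d)
  /-- the budget with the twist `e` -/
  sqE : R8C918.LSe (1 / cκ p) (cN p / cκ p) (cM p / cκ p) (w .mo / cκ p) (w .am / cκ p)
    (cx' p / cκ p) + 2 * d * (w .mo / cκ p + w .am / cκ p) ≤
      R8C918.Al d (1 / cκ p) (cN p / cκ p + cM p / cκ p + w .mo / cκ p) (w .am / cκ p) - 1 / 4 * d
  /-- the share is not larger than necessary -/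
  need : cx' p / cκ p ≤ max 0 (w .mo / cκ p + w .am / cκ p - 7 / 9 * (1 - cM p / cκ p))
  /-- the budget with the full positivity term (cross tail of the error moment) -/
  sq2 : 3 / 4 * max 0 (w .mo / cκ p + w .am / cκ p - cx' p / cκ p - 7 / 9 * (1 - cM p / cκ p)) +
    max 0 (5 / 4 * (cN p / cκ p) - 1) + 2 * d * (w .mo / cκ p + w .am / cκ p) ≤
      R8C918.Al d (1 / cκ p) (cN p / cκ p + cM p / cκ p + w .mo / cκ p) (w .am / cκ p) - d
  /-- not closed absolutely (with slack `d`), for any share `y` -/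
  na : ∀ y, R8C918.Adm (cN p / cκ p) (w .am / cκ p) y →
    R8C918.Al d (1 / cκ p) (cN p / cκ p + cM p / cκ p + w .mo / cκ p) (w .am / cκ p) - d ≤
      R8C918.LA (cN p / cκ p) (cM p / cκ p) (cu p 4 / cκ p) (w .mo / cκ p + w .am / cκ p) y +
        2 * d * (w .mo / cκ p + w .am / cκ p)

/-- the configurations closed absolutely (two sides), base `H` -/
structure Ab5 (A d : ℝ) (p : Fin 3 ⊕ Fin 5 → ℝ) (w : Kd → ℝ) : Prop extends Nr5 A p w where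
  ab : R8C918.Abs (cN p / cκ p) (cM p / cκ p) (cu p 4 / cκ p) (w .mo / cκ p) (w .am / cκ p)
    (2 * d * (w .mo / cκ p + w .am / cκ p))
    (R8C918.Al d (1 / cκ p) (cN p / cκ p + cM p / cκ p + w .mo / cκ p) (w .am / cκ p) - d)

/-- unmarked lumps are not longer than the fifth one -/
def al5 : Set ((Fin 3 ⊕ Fin 5 → ℝ) × ℝ) := {p | p.2 ≤ cu p.1 4}

/-- the domains as sets -/
def SqD (A d : ℝ) : Set ((Fin 3 ⊕ Fin 5 → ℝ) × (Kd → ℝ)) := {q | Sq5 A d q.1 q.2}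

/-- the absolute domain -/
def AbD (A d : ℝ) : Set ((Fin 3 ⊕ Fin 5 → ℝ) × (Kd → ℝ)) := {q | Ab5 A d q.1 q.2}

/-- near-equal configurations with share `x = 0` -/
def NrD (A : ℝ) : Set ((Fin 3 ⊕ Fin 5 → ℝ) × (Kd → ℝ)) := {q | Nr5 A q.1 q.2 ∧ cx' q.1 = 0}

/-- target `Tg θ (1/3)` -/
def T5 (θ : ℝ) (q : (Fin 3 ⊕ Fin 5 → ℝ) × (Kd → ℝ)) : ℝ :=
  Cone59.Tg θ (1 / 3) (cκ q.1) (cN q.1 + cM q.1 + q.2 .mo) (q.2 .am)

/-- the configurations `(p, (0, x))` of the three-lump side -/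
def SqD1 (A d : ℝ) : Set ((Fin 3 ⊕ Fin 5 → ℝ) × (Kd → ℝ)) :=
  {q | (∃ w, Sq5 A d q.1 w) ∧ q.2 .mo = 0 ∧ q.2 .am = cx' q.1}

/-- exponent of the error moment -/
def E1x (d : ℝ) (q : (Fin 3 ⊕ Fin 5 → ℝ) × (Kd → ℝ)) : ℝ :=
  cκ q.1 + cN q.1 + cx' q.1 + max 0 (5 / 4 * cN q.1 - cκ q.1) + 3 / 4 * d * cκ q.1

/-- **P1** : the error moment, `q₁` = granular amplifier pieces of total length `z` -/
def P1 (Sf : SF Λ) (A d : ℝ) : Prop :=
  ∀ R : Λ → ℝ, (∀ lam, 0 ≤ R lam) → UB S5 Dq (ErrF π h Sf R) (SqD1 A d) al5 (E1x d)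

/-- **StrU** : the structured middle term, all lists -/
def StrU (θ : ℝ) (Sf : SF Λ) (A d μ : ℝ) : Prop :=
  UB S5 Dq (MidF π h Sf) (SqD A d) al5 (fun q => T5 θ q - μ)

/-- **TailU** : the tail with the structured function, all lists -/
def TailU (θ : ℝ) (Sf : SF Λ) (A d μ : ℝ) : Prop :=
  ∀ R : Λ → ℝ, (∀ lam, 0 ≤ R lam) → UB S5 Dq (TailS π h Sf R) (SqD A d) al5 (fun q => T5 θ q - μ)

/-- **TailCU** : the tail of the box (`T₃`), all lists -/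
def TailCU (θ : ℝ) (A d μ : ℝ) : Prop :=
  ∀ R : Λ → ℝ, (∀ lam, 0 ≤ R lam) → UB S5 Dq (TailC π h R) (SqD A d) al5 (fun q => T5 θ q - μ)

/-- exponent of the two-lump side -/
def E2x (d : ℝ) (q : (Fin 3 ⊕ Fin 5 → ℝ) × (Kd → ℝ)) : ℝ :=
  cκ q.1 + cM q.1 + q.2 .mo + q.2 .am +
    3 / 4 * max 0 (q.2 .mo + q.2 .am - 7 / 9 * (cκ q.1 - cM q.1)) + 2 * d * (q.2 .mo + q.2 .am)

/-- the configurations of the two-lump side : `w` = (Möbius mass, remaining amplifier mass) -/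
def MoD (A : ℝ) : Set ((Fin 3 ⊕ Fin 5 → ℝ) × (Kd → ℝ)) :=
  {q | Nr5 A q.1 (fun t => match t with | .mo => q.2 .mo | .am => q.2 .am + cx' q.1) ∧
    0 ≤ cx' q.1 ∧ 0 ≤ q.2 .am ∧ (cx' q.1 ≤ 0 ∨ cN q.1 + cx' q.1 ≤ 4 / 5 * cκ q.1) ∧
    28 ≤ 31 * cκ q.1 ∧ 12 * q.2 .mo ≤ cκ q.1}

/-- **MomU** : the second moment of the two-lump side, all lists -/
def MomU (A d : ℝ) : Prop := ∀ R : Λ → ℝ, (∀ lam, 0 ≤ R lam) → UB S5 Dq (MomF π h R) (MoD A) al5 (E2x d)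

/-- **AbsU** : the absolute closure of the signed sum over primary `k`, all lists -/
def AbsU (θ A d μ : ℝ) : Prop := UB S5 Dq (PrimF π h) (AbD A d) al5 (fun q => T5 θ q - μ)

/-- **PrimU** : the signed sum over primary `k`, all near-equal lists -/
def PrimU (θ A μ : ℝ) : Prop := UB S5 Dq (PrimF π h) (NrD A) al5 (fun q => T5 θ q - μ)

end Crest.Agent.R017.E5B71
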