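import Crest.Agent.R017.TwP_61
import Crest.Agent.R017.Two1_939
import Crest.Agent.R017.E5BDefs_71
import Crest.Agent.R017.E4LCa_858

/-!
# Row 17, E4: the parameters of the lists twisted by an `S`-unit (helper61)

* `tU P t` : `Pt P t p = p.pc (tU P t)`; `tU_OK` (case D), `classN_tU`
* `dual_dir`, `dual_L`, `dual_R` : class N of the dual lists for the direct half, for case L
  (858's `SD`), for case R (`D.j = - P.l₃`)
-/

set_option autoImplicit false

noncomputable section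

open Complex
open scoped ComplexConjugate

namespace Crest.Agent.R017.TwP61

open Crest.Agent.R012 Crest.Agent.R012.Eis Crest.Agent.R012.Mob705 Crest.Agent.R012.Gauss880
open Crest.Agent.R012.PSer47 (IsChar)
open Crest.Agent.R017.End699 Crest.Agent.R017.B770 Crest.Agent.R017.Sup271
open Crest.Agent.R017.Prov71 (Kd chK LamN Pq)
open Crest.Agent.R017.FE47 (SM)
open Crest.Agent.R017.SU770 (tw1)
open Crest.Agent.R017.E5B71 (Pt)
open Crest.Agent.R017.Sx545 (Sm)
open Crest.Agent.R017.C590 (Dt3)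
open Crest.Agent.R017.E4LC858 (SD SC)

/-- the parameters twisted by the `S`-unit `t` -/
def tU (P : DPar) (t : Eis) : DPar where
  h₀ := P.h₀
  h := P.h
  V := P.V
  U := fun _ => 0
  n := 9 * P.n
  φ := fun b => P.φ b * conj (sy t b)
  ψ := fun b => P.ψ b * sy t b
  n₃ := 9 * P.n
  χ₃ := prin0 (9 * P.n)
  l₁ := P.l₁
  l₂ := P.l₂
  l₃ := 0

/-- **the twisted pieces are pieces of `tU P t`** -/
theorem Pt_eq (P : DPar) (t : Eis) (p : Pq) : Pt P t p = p.pc (tU P t) := by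
  unfold Pt tw1 Pq.pc
  congr 1
  funext b
  rcases p with ⟨kd, u, d, d0, z, ξ⟩
  cases kd
  · show P.ψ b * ang P.l₂ b * prin0 d b * sy t b = P.ψ b * sy t b * ang P.l₂ b * prin0 d b
    ring
  · show conj (P.φ b * ang P.l₁ b) * prin0 d b * sy t b =
      conj (P.φ b * conj (sy t b) * ang P.l₁ b) * prin0 d b
    simp only [map_mul, Complex.conj_conj]
    ring

theorem map_Pt (P : DPar) (t : Eis) (ps : List Pq) : ps.map (Pt P t) = ps.map (Pq.pc (tU P t)) :=
  List.map_congr_left fun p _ => Pt_eq P t p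

theorem tU_OK {P : DPar} (hP : P.OK) {t : Eis} (ht : t ∈ SM P.n) : (tU P t).OK where
  h₀ := hP.h₀
  h := hP.h
  V := hP.V
  U := ⟨contDiff_const, HasCompactSupport.zero, by
    have h0 : tsupport (fun _ : ℝ => (0 : ℂ)) = ∅ := by
      rw [tsupport_eq_empty_iff]
      rfl
    show tsupport (fun _ : ℝ => (0 : ℂ)) ⊆ _
    rw [h0]
    exact Set.empty_subset _⟩
  n36 := hP.n36.mul_left _
  φ := by
    have h1 := (Two939.hc_SM hP.φ.conj ht).conj
    have e : (fun b => P.φ b * conj (sy t b)) =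
        fun b => conj ((fun a => (fun c => conj (P.φ c)) a * sy t a) b) := by
      funext b
      simp
    show HC (9 * P.n) (fun b => P.φ b * conj (sy t b))
    rw [e]
    exact h1
  ψ := Two939.hc_SM hP.ψ ht
  χ₃ := hc_prin0 (mul_ne_zero (by decide) hP.φ.q0) (hP.φ.three.mul_left _)
  rad p _ := Iff.rfl
  cases := Or.inr (Or.inr (Or.inr rfl))

/-- class N -/
theorem classN_tU {P : DPar} (hN : ∀ k : Eis, k ≠ 0 → NPm P.n P.ψ P.l₂ k) {t : Eis}
    (ht : t ∈ SM P.n) : ∀ k : Eis, k ≠ 0 → NPm (tU P t).n (tU P t).ψ (tU P t).l₂ k := by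
  intro k hk
  rcases hN (k * t) (mul_ne_zero hk ht.1) with h | ⟨a, ha, hac, hne⟩
  · exact Or.inl h
  right
  have h1 : IsCoprime a P.n := hac.of_isCoprime_of_dvd_right ⟨9 * (k * t), rfl⟩
  have h9 : IsCoprime a (9 * k) := hac.of_isCoprime_of_dvd_right ⟨P.n * t, by ring⟩
  have h99 : IsCoprime a 9 := h9.of_mul_right_left
  refine ⟨a, ha, (h99.mul_right h1).mul_right h9, ?_⟩
  intro h0
  apply hne
  have e1 : P.ψ a * sy t a * sy k a = 1 := h0
  show P.ψ a * sy (k * t) a = 1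
  rw [Char766.sy_mul_left ha, ← e1]
  ring

/-! ### the dual lists -/

/-- class N, the direct half -/
theorem dual_dir {P : DPar} (hN : ∀ k : Eis, k ≠ 0 → NPm P.n P.ψ P.l₂ k) {t : Eis}
    (ht : t ∈ SM P.n) {M : Eis} (hM0 : M ≠ 0) (hM : ∀ p : Eis, Prime p → p ∣ M → p ∣ P.n) :
    ∀ k : Eis, k ≠ 0 → NPm (twP (tU P t) M (prin0 M) 0).n (twP (tU P t) M (prin0 M) 0).ψ
      (twP (tU P t) M (prin0 M) 0).l₂ k := by
  refine classN_tw_L (classN_tU hN ht) (t := 1) one_ne_zero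
    (fun p hp hd => (hM p hp hd).mul_left _) hM0 fun u hu hc => ?_
  unfold prin0
  rw [if_pos hc.of_mul_right_right]
  exact (GaussLoc283.syAx.one_left hu).symm

/-- class N, case L -/
theorem dual_L {P : DPar} (hN : ∀ k : Eis, k ≠ 0 → NPm P.n P.ψ P.l₂ k) {t : Eis}
    (ht : t ∈ SM P.n) {M : Eis} (hM : ∀ p : Eis, Prime p → p ∣ M → p ∣ P.n) {ι : Type}
    [Fintype ι] {D : Dt3 ι} (hD : D.OK M) (hS : SD M D) (i : ι) :
    ∀ k : Eis, k ≠ 0 → NPm (twP (tU P t) D.M' (D.η i) D.j).n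
      (twP (tU P t) D.M' (D.η i) D.j).ψ (twP (tU P t) D.M' (D.η i) D.j).l₂ k := by
  obtain ⟨s, hs, he⟩ := hS.η i
  rw [hS.j]
  refine classN_tw_L (classN_tU hN ht) (t := s) hs.1
    (fun p hp hd => (hM p hp (hD.rad p hp hd)).mul_left _) hD.ne fun u hu hc => ?_
  exact he u ⟨hu, hc.of_mul_right_right.of_isCoprime_of_dvd_right hD.dvd⟩

/-- class N, case R -/
theorem dual_R {P : DPar} (hR : P.CaseR) {t : Eis} {M' : Eis} {η : Eis → ℂ} {j : ℤ}
    (hj : j = -P.l₃) :
    ∀ k : Eis, k ≠ 0 → NPm (twP (tU P t) M' η j).n (twP (tU P t) M' η j).ψ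
      (twP (tU P t) M' η j).l₂ k := by
  subst hj
  exact classN_tw_R (P := tU P t) (l₂_ne_of_caseR hR)

end Crest.Agent.R017.TwP61
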