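import Crest.Agent.R017.YsCh_61
import Crest.Agent.R017.TwQ_61
import Crest.Agent.R017.E4Uv_512
import Crest.Agent.R017.E4Dic_352
import Crest.Agent.R017.Str3_699

/-!
# Row 17, StrU: the `y`-side at the data of `JBU`, class N (helper61)

* `TwOK` : the twists of a family (principal one: direct half; `TG7`: dual half)
* `dual_N` : class N of the dual lists
* `YsC` : the `y`-side of one prefix of 164's data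
* `YsCT` : the same with the trivial bound `YT` as an alternative
* `ysUT`, `ysU` : `YsCT`, `YsC` for finitely many twists, from `ys_choiceT`
-/

set_option autoImplicit false

noncomputable section

open Finset Complex
open scoped ComplexConjugate

namespace Crest.Agent.R017.YsU61

open Crest.Agent.R012 Crest.Agent.R012.Eis
open Crest.Agent.R012.Mob705 hiding pb mem_pb
open Crest.Agent.R017.Sx545 (Sm)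
open Crest.Agent.R017.CM106 (FS CS)
open Crest.Agent.R017.C70 (OKJ)
open Crest.Agent.R017.FE47 (PU SM)
open Crest.Agent.R017.End699 (HC prin0 hc_prin0)
open Crest.Agent.R017.Sup271 (NPm)
open Crest.Agent.R017.XT71 (mx le_mx)
open Crest.Agent.R017.XG702 (Pcs)
open Crest.Agent.R017.HP842 (alL)
open Crest.Agent.R017.B770
open Crest.Agent.R017.Prov71
open Crest.Agent.R017.Rough381
open Crest.Agent.R017.ER911 Crest.Agent.R017.ExpC702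
open Crest.Agent.R017.E4352 (PrI Dat4)
open Crest.Agent.R017.E5B71
open Crest.Agent.R017.E5L770
open Crest.Agent.R017.E4D164
open Crest.Agent.R017.E4J352
open Crest.Agent.R017.E4U164
open Crest.Agent.R017.E4Us512
open Crest.Agent.R017.E4ap783 (TG7)
open Crest.Agent.R017.E4RH858 (Pf pf Facts facts Sz sz)
open Crest.Agent.R017.E4Dic352 (bkP cP prim_bkP prim_cP Spl)
open Crest.Agent.R017.JyF744 (nu2 yK)
open Crest.Agent.R017.TwP61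
open Crest.Agent.R017.YU61 Crest.Agent.R017.YM61
open Crest.Agent.R017.YsM61

/-- the twists of the family : the principal one (direct half), `TG7` (dual half) -/
def TwOK (P : DPar) (t : (Eis → ℂ) × ℤ) : Prop :=
  t = (prin0 P.n₃, 0) ∨ TG7 P.n₃ (-P.l₃) t

/-- **class N of the dual lists** -/
theorem dual_N {P : DPar} (hP : P.OK) (hN : ∀ k : Eis, k ≠ 0 → NPm P.n P.ψ P.l₂ k)
    (hD : ¬ P.CaseD) {u : Eis} (hu : u ∈ SM P.n) {t : (Eis → ℂ) × ℤ} (ht : TwOK P t) :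
    ∃ M' : Eis, HC M' t.1 ∧ (∀ p : Eis, Prime p → p ∣ M' → p ∣ P.n₃) ∧
      ∀ k : Eis, k ≠ 0 → NPm (twP (tU P u) M' t.1 t.2).n (twP (tU P u) M' t.1 t.2).ψ
        (twP (tU P u) M' t.1 t.2).l₂ k := by
  rcases ht with rfl | ⟨⟨M', h0, hdvd, hrad, hη⟩, hl, hj⟩
  · exact ⟨P.n₃, hc_prin0 hP.χ₃.q0 hP.χ₃.three, fun _ _ h => h,
      dual_dir hN hu hP.χ₃.q0 fun p hp hd => (hP.rad p hp).1 hd⟩
  · refine ⟨M', hη, hrad, ?_⟩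
    have hL0 : P.l₃ = 0 → ∀ k : Eis, k ≠ 0 → NPm (twP (tU P u) M' t.1 t.2).n
        (twP (tU P u) M' t.1 t.2).ψ (twP (tU P u) M' t.1 t.2).l₂ k := by
      intro h3
      obtain ⟨h2, s, hs, he⟩ := hl (by rw [h3, neg_zero])
      rw [h2]
      refine classN_tw_L (classN_tU hN hu) (t := s) hs.1
        (fun p hp hd => ((hP.rad p hp).1 (hrad p hp hd)).mul_left _) h0 fun v hv hc => ?_
      exact he v ⟨hv, hc.of_mul_right_right.of_isCoprime_of_dvd_right hdvd⟩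
    rcases hP.cases with h | h | h | h
    · exact hL0 h.2.1
    · exact dual_R h hj
    · exfalso
      rcases hN 1 one_ne_zero with h' | ⟨a, ha, hac, hne⟩
      · exact h' h.2.1
      · apply hne
        show P.ψ a * sy 1 a = 1
        rw [h.2.2.2.1, GaussLoc283.syAx.one_left ha]
        unfold prin0
        rw [if_pos hac.of_mul_right_left, mul_one]
    · exact absurd h hD

section

variable {Λ : Type*} (π : Λ → DPar) (h : ℝ → ℝ)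

/-- **the `y`-side of one prefix of the data** `x : Dt` -/
def YsC (A d e0 r : ℝ) (Bf : ℝ → ℝ → ℝ → ℝ) (Jf : ℝ → ℝ → ℝ → Finset (Eis × Eis))
    (K R₁ ε σ ρ : ℝ) (lam : Λ × Eis) (N : ℕ) (B E B₁ : ℝ) (tt : (Eis → ℂ) × ℤ) (M₀ : ℕ)
    (δ₁ X₀ : ℝ) : Prop :=
  ∀ X : ℝ, X₀ ≤ X → ∀ δ δ' ε' : ℝ, δ ≤ σ / 4 → δ' ≤ δ₁ → ε' ≤ E →
  ∀ (a : Bd × ℕ) (ps : List Pq) (q : (Option (Fin 3 ⊕ Fin 5) → ℝ) × (Kd → ℝ)),
    FrL A d δ δ' B X N a ps q → a.1.ok → lam.2 ∈ SM (π lam.1).n → a.1.okP (π lam.1) →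
  ∀ x : Dt, x.OK (π lam.1) Bf e0 r ε' X a.1 →
  ∀ (h₁ : FS (b1 (π lam.1) h lam.2 ps)) (h₂ : FS (b2 (π lam.1) h lam.2 a.1 ps)) (ξ : ℝ)
    (G : Eis → ℂ), (∀ y, Sm (π lam.1).n₃ y → G y = gx tt.1 tt.2 ξ y) →
  ∀ (Pp : Pf) (b0 : Eis) (kn : Tm (x.O π lam Jf a) → Eis) (𝒥 : Finset (Tm (x.O π lam Jf a))),
    IsPrim b0 →
    (∀ t ∈ 𝒥, t.OK (π lam.1).n₃ 1 ∧
      t.val 1 lD (x.v π h lam Jf a) (x.w π h lam Jf a ps h₁ h₂) G ≠ 0 ∧ pf t = Pp ∧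
      t.k * nu2 t.o = kn t * b0 ^ 3 ∧ (∀ p : Eis, Prime p → p ∣ b0 → p ∣ nu2 t.o) ∧
      (nm (yK nu2 t) : ℝ) ≤ X ^ B₁) →
  ∀ l : ℝ, 0 ≤ l → Real.exp l ≤ X ^ B₁ →
    (∀ t ∈ 𝒥, (nm (yF kn E4RH858.b1 (bkP Pp) t) : ℝ) ≤ Real.exp l) →
  ∀ Wx : Tm (x.O π lam Jf a) → ℝ, (∀ t ∈ 𝒥, 0 ≤ Wx t) → ∀ S₀ : ℝ, 0 ≤ S₀ →
    (∀ t ∈ 𝒥, ∀ f1 f2 f3 D1' Z'' l' m : Eis,
      Spl (π lam.1).n₃ (fN (π lam.1).n₃ (x.E a.1)) x.z t f1 f2 f3 D1' Z'' l' m →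
      IsCoprime (D1' * Z'') b0 →
      Real.log (nm l') + Real.log (nm D1') ≤ Ls (amL ps) + ρ * Real.log X →
      Real.log (nm m) ≤ (a.1.us 0).z + (a.1.us 1).z + Ls (moL ps) + ρ * Real.log X →
      ∃ κ Mv qv wv y mx e Sx : ℝ,
        Nom K (σ / 4) (Real.log X) l ((a.1.us 0).z + (a.1.us 1).z) (Real.log (nm m))
          (Ls (moL ps)) (Ls (amL ps)) (Real.log (nm l') + Real.log (nm D1')) κ Mv qv wv y mx ∧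
        GoodYM d κ Mv qv wv y e ∧ 0 ≤ Sx ∧ Sx * X ^ e ≤ S₀ ^ 2 ∧
        XSide h (tU (π lam.1) lam.2) (amL ps) (π lam.1).n₃
          (Pp.B * (bkP Pp * cP Pp ^ 3) * b0) tt.1 tt.2 ξ x.z 𝒥 (yF kn E4RH858.b1 (bkP Pp)) Wx
          (Real.log X) σ R₁ (Real.log (nm l') + Real.log (nm D1')) mx Sx) →
    ∑ t ∈ 𝒥, Wx t * ‖t.ys (x.w π h lam Jf a ps h₁ h₂) G‖ ≤ (1 + |ξ|) ^ M₀ * X ^ ε * S₀

/-- **the `y`-side of one prefix of the data** `x : Dt`, with the trivial bound `YT` (few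
frequencies) as an alternative -/
def YsCT (A d e0 r : ℝ) (Bf : ℝ → ℝ → ℝ → ℝ) (Jf : ℝ → ℝ → ℝ → Finset (Eis × Eis))
    (K R₁ ε σ ρ : ℝ) (lam : Λ × Eis) (N : ℕ) (B E B₁ : ℝ) (tt : (Eis → ℂ) × ℤ) (M₀ : ℕ)
    (δ₁ X₀ : ℝ) : Prop :=
  ∀ X : ℝ, X₀ ≤ X → ∀ δ δ' ε' : ℝ, δ ≤ σ / 4 → δ' ≤ δ₁ → ε' ≤ E →
  ∀ (a : Bd × ℕ) (ps : List Pq) (q : (Option (Fin 3 ⊕ Fin 5) → ℝ) × (Kd → ℝ)),
    FrL A d δ δ' B X N a ps q → a.1.ok → lam.2 ∈ SM (π lam.1).n → a.1.okP (π lam.1) →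
  ∀ x : Dt, x.OK (π lam.1) Bf e0 r ε' X a.1 →
  ∀ (h₁ : FS (b1 (π lam.1) h lam.2 ps)) (h₂ : FS (b2 (π lam.1) h lam.2 a.1 ps)) (ξ : ℝ)
    (G : Eis → ℂ), (∀ y, Sm (π lam.1).n₃ y → G y = gx tt.1 tt.2 ξ y) →
  ∀ (Pp : Pf) (b0 : Eis) (kn : Tm (x.O π lam Jf a) → Eis) (𝒥 : Finset (Tm (x.O π lam Jf a))),
    IsPrim b0 →
    (∀ t ∈ 𝒥, t.OK (π lam.1).n₃ 1 ∧
      t.val 1 lD (x.v π h lam Jf a) (x.w π h lam Jf a ps h₁ h₂) G ≠ 0 ∧ pf t = Pp ∧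
      t.k * nu2 t.o = kn t * b0 ^ 3 ∧ (∀ p : Eis, Prime p → p ∣ b0 → p ∣ nu2 t.o) ∧
      (nm (yK nu2 t) : ℝ) ≤ X ^ B₁) →
  ∀ l : ℝ, 0 ≤ l → Real.exp l ≤ X ^ B₁ →
    (∀ t ∈ 𝒥, (nm (yF kn E4RH858.b1 (bkP Pp) t) : ℝ) ≤ Real.exp l) →
  ∀ Wx : Tm (x.O π lam Jf a) → ℝ, (∀ t ∈ 𝒥, 0 ≤ Wx t) → ∀ S₀ : ℝ, 0 ≤ S₀ →
    (∀ t ∈ 𝒥, ∀ f1 f2 f3 D1' Z'' l' m : Eis,
      Spl (π lam.1).n₃ (fN (π lam.1).n₃ (x.E a.1)) x.z t f1 f2 f3 D1' Z'' l' m →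
      IsCoprime (D1' * Z'') b0 →
      Real.log (nm l') + Real.log (nm D1') ≤ Ls (amL ps) + ρ * Real.log X →
      Real.log (nm m) ≤ (a.1.us 0).z + (a.1.us 1).z + Ls (moL ps) + ρ * Real.log X →
      ∃ κ Mv qv wv y mx e Sx : ℝ,
        Nom K (σ / 4) (Real.log X) l ((a.1.us 0).z + (a.1.us 1).z) (Real.log (nm m))
          (Ls (moL ps)) (Ls (amL ps)) (Real.log (nm l') + Real.log (nm D1')) κ Mv qv wv y mx ∧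
        (GoodYM d κ Mv qv wv y e ∨
          YT 𝒥 (yF kn E4RH858.b1 (bkP Pp)) X Mv qv wv e) ∧ 0 ≤ Sx ∧ Sx * X ^ e ≤ S₀ ^ 2 ∧
        XSide h (tU (π lam.1) lam.2) (amL ps) (π lam.1).n₃
          (Pp.B * (bkP Pp * cP Pp ^ 3) * b0) tt.1 tt.2 ξ x.z 𝒥 (yF kn E4RH858.b1 (bkP Pp)) Wx
          (Real.log X) σ R₁ (Real.log (nm l') + Real.log (nm D1')) mx Sx) →
    ∑ t ∈ 𝒥, Wx t * ‖t.ys (x.w π h lam Jf a ps h₁ h₂) G‖ ≤ (1 + |ξ|) ^ M₀ * X ^ ε * S₀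

end

/-! ### lists -/

lemma mass_am (X : ℝ) (ps : List Pq) : Dq.mass X ps .am = Ls (amL ps) / Real.log X := by
  classical
  induction ps with
  | nil =>
    unfold amL Ls
    simp
  | cons p ps ih =>
    rw [Pcs.mass_cons, ih]
    unfold amL Ls at *
    by_cases hp : p.kd = .am
    · rw [List.filter_cons_of_pos (by simpa using hp), List.map_cons, List.sum_cons,
        if_pos (show Dq.kind p = Kd.am from hp), add_div]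
      rfl
    · rw [List.filter_cons_of_neg (by simpa using hp), if_neg (show ¬ Dq.kind p = Kd.am from hp),
        zero_add]

lemma mem_amL {ps : List Pq} {p : Pq} : p ∈ amL ps ↔ p ∈ ps ∧ p.kd = .am := by
  classical
  unfold amL
  rw [List.mem_filter]
  simp

lemma mem_moL {ps : List Pq} {p : Pq} : p ∈ moL ps ↔ p ∈ ps ∧ p.kd = .mo := by
  classical
  unfold moL
  rw [List.mem_filter]
  simp

lemma ww_congr {M z ν : Eis} {b₁ b₁' b₂ b₂' : Eis → ℂ} (e₁ : b₁ = b₁') (e₂ : b₂ = b₂')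
    (h₁ : FS b₁) (h₁' : FS b₁') (h₂ : FS b₂) (h₂' : FS b₂') :
    ww M b₁ b₂ (h₁.fin.toFinset ×ˢ h₂.fin.toFinset) z ν =
      ww M b₁' b₂' (h₁'.fin.toFinset ×ˢ h₂'.fin.toFinset) z ν := by
  subst e₁ e₂
  rfl

lemma cop_of_rad {M b ν : Eis} (hb : IsPrim b) (hν : Sm M ν)
    (hr : ∀ p : Eis, Prime p → p ∣ b → p ∣ ν) : Sm M b := by
  refine ⟨hb, isCoprime_of_prime_dvd (fun h0 => hb.ne_zero h0.1) fun p hp hpb hpM => ?_⟩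
  exact hp.not_isUnit (hν.2.isUnit_of_dvd' (hr p hp hpb) hpM)

section

variable {Λ Λ' : Type*} {π : Λ → DPar} {π' : Λ' → DPar} {h : ℝ → ℝ} {c₀ : ℝ} (hpu : PU h c₀)
  (hP : ∀ lam, (π lam).OK) (hN : ∀ lam k, k ≠ 0 → NPm (π lam).n (π lam).ψ (π lam).l₂ k)
  (hP' : ∀ lam, (π' lam).OK) (hN' : ∀ lam k, k ≠ 0 → NPm (π' lam).n (π' lam).ψ (π' lam).l₂ k)
  (hcov : ∀ P : DPar, P.OK → (∀ k : Eis, k ≠ 0 → NPm P.n P.ψ P.l₂ k) → ∃ lam, π' lam = P)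
  {r s : EF} {A d : ℝ} (R : ExpRules (7 / 8 + d) r s)
  (C : ExpC r (ex Dq (fun lam => Rc (π' lam) h)))

include hpu hP hN hP' hN' hcov R C

set_option maxHeartbeats 2000000 in
/-- one twist -/
theorem ysU1 (hd : 0 ≤ d) (hd8 : d ≤ 1 / 8) (hA : 2 / 3 ≤ A) {K : ℝ} (hK : 1 ≤ K) (e0 r0 : ℝ)
    (Bf : ℝ → ℝ → ℝ → ℝ) {Jf : ℝ → ℝ → ℝ → Finset (Eis × Eis)}
    (hJf : ∀ l N z, OKJ (Jf l N z)) {ε : ℝ} (hε : 0 < ε) :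
    ∃ σ₀ R₁ : ℝ, 0 < σ₀ ∧ 0 ≤ R₁ ∧ ∀ σ : ℝ, 0 < σ → σ ≤ σ₀ → ∀ ρ : ℝ, 0 < ρ →
    ∀ (lam : Λ × Eis) (N : ℕ) (B E B₁ : ℝ), 0 ≤ B₁ → ∀ tt : (Eis → ℂ) × ℤ,
      ¬ (π lam.1).CaseD → TwOK (π lam.1) tt →
    ∃ (M₀ : ℕ) (δ₁ X₀ : ℝ), 0 < δ₁ ∧ 3 ≤ X₀ ∧
      YsCT π h A d e0 r0 Bf Jf K R₁ ε σ ρ lam N B E B₁ tt M₀ δ₁ X₀ := by
  classical
  obtain ⟨σ₁, R₁, hσ₁, hR₁, V⟩ := ys_choiceT hpu hP' hN' R C hd hd8 (K := K) (by linarith)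
    (ε := ε / 2) (by linarith)
  refine ⟨min σ₁ 1, R₁, lt_min hσ₁ one_pos, hR₁, ?_⟩
  intro σ hσ hσσ ρ hρ lam N B E B₁ hB₁ tt hD htt
  have hσ₁' : σ ≤ σ₁ := hσσ.trans (min_le_left _ _)
  have hσ1 : σ ≤ 1 := hσσ.trans (min_le_right _ _)
  by_cases hSM : lam.2 ∈ SM (π lam.1).n
  swap
  · refine ⟨0, 1, 3, one_pos, le_rfl, ?_⟩
    intro X _ δ δ' ε' _ _ _ a ps q _ _ hs
    exact absurd hs hSM
  obtain ⟨M', hη, hrad, hcl⟩ := dual_N (hP lam.1) (hN lam.1) hD hSM htt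
  set P : DPar := tU (π lam.1) lam.2 with hPd
  have hPok : P.OK := tU_OK (hP lam.1) hSM
  obtain ⟨l', hl'⟩ := hcov (twP P M' tt.1 tt.2) (twP_OK hPok hη tt.2) hcl
  obtain ⟨A₀, C₀, X₁, hA₀, -, hX₁, D⟩ := dt_dat4 hpu (d := d) hA e0 r0 Bf hJf lam (hP lam.1) N B E
    1 one_pos
  set B₂ : ℝ := |B| + 3 + 14 * A₀ + B₁ + 1 with hB₂
  have hBabs := abs_nonneg B
  have hBle := le_abs_self B
  have hB₂0 : 0 ≤ B₂ := by rw [hB₂]; linarith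
  obtain ⟨M₀, X₂, hX₂, V⟩ := V σ hσ hσ₁' ρ hρ l' N B₂ hB₂0
  have hM₀ : (0 : ℝ) ≤ M₀ := Nat.cast_nonneg _
  refine ⟨M₀, ε / (2 * (M₀ + 1)), max (max 3 X₁) (max X₂ (nm (π lam.1).n₃)), by positivity,
    (le_max_left _ _).trans (le_max_left _ _), ?_⟩
  intro X hX δ δ' ε' hδ hδ' hε' a ps q hF ha _ haP x hx h₁ h₂ ξ G hG Pp b0 kn 𝒥 hb0 hJ l hl0 hlX
    hKle Wx hWx S₀ hS₀ hyp
  have hX3 : 3 ≤ X := ((le_max_left _ _).trans (le_max_left _ _)).trans hX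
  have hXX₁ : X₁ ≤ X := ((le_max_right _ _).trans (le_max_left _ _)).trans hX
  have hXX₂ : X₂ ≤ X := ((le_max_left _ _).trans (le_max_right _ _)).trans hX
  have hXn : (nm (π lam.1).n₃ : ℝ) ≤ X := ((le_max_right _ _).trans (le_max_right _ _)).trans hX
  have hX1 : 1 < X := by linarith
  have hX0 : 0 < X := by linarith
  have hlog : 0 < Real.log X := Real.log_pos hX1
  have hRHS : 0 ≤ (1 + |ξ|) ^ M₀ * X ^ ε * S₀ := by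
    have := abs_nonneg ξ
    positivity
  rcases Finset.eq_empty_or_nonempty 𝒥 with h𝒥 | ⟨t₀, ht₀⟩
  · rw [h𝒥, Finset.sum_empty]
    exact hRHS
  have hmono : ∀ y, y ≤ B₂ → X ^ y ≤ X ^ B₂ := fun y hy =>
    Real.rpow_le_rpow_of_exponent_le hX1.le hy
  have hδ2 : δ ≤ 1 / 2 := by linarith
  obtain ⟨-, D⟩ := D X hXX₁ δ δ' ε' hδ2 hε' a ps q hF ha haP
  obtain ⟨hDat, -, -, -, -, -⟩ := D x hx h₁ h₂
  have hFr := fr_of_frL hA hδ2 hX1 hF ha haP (B₁ := max B 3) (le_max_left _ _) (le_max_right _ _)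
  have hB3 : max B 3 ≤ B₂ := max_le (by rw [hB₂]; linarith) (by rw [hB₂]; linarith)
  have hBB : B ≤ B₂ := (le_max_left _ _).trans hB3
  -- the outer set
  have hOO : ∀ o ∈ x.O π lam Jf a, IsPrim o.1 ∧ IsPrim o.2 := by
    intro o ho
    obtain ⟨g1, g2, -⟩ := Str699.o_spec hJf ha haP hx ⟨o, ho⟩
    exact ⟨g1, g2⟩
  have hSO : ∀ o ∈ x.O π lam Jf a, Sm (π lam.1).n₃ (o.1 * o.2) := by
    intro o ho
    have ho' := ho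
    unfold Dt.O OD OU at ho'
    exact (Finset.mem_filter.1 ho').2
  have hMne : (π lam.1).n₃ ≠ 0 := (hP lam.1).χ₃.q0
  have hE : IsPrim (x.E a.1) := haP.1.1.mul (T3_prim _ hx.β)
  have he₀ : Sm (π lam.1).n₃ (fN (π lam.1).n₃ (x.E a.1)) := (fM_spec hMne hE).2.1
  have hfac : ∀ t ∈ 𝒥, Facts (π lam.1).n₃ t := fun t ht =>
    facts hDat (hJ t ht).1 (hJ t ht).2.1
  obtain ⟨k1, k2, k3, k4, k5, k6⟩ := hJ t₀ ht₀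
  have hSb0 : Sm (π lam.1).n₃ b0 := cop_of_rad hb0 (hSO _ t₀.o.2) k5
  have hf0 := hfac t₀ ht₀
  have hsz : Sz ((X ^ A₀) ^ 7) Pp := by rw [← k3]; exact sz hDat k1 k2
  have hBp : Sm (π lam.1).n₃ Pp.B := by rw [← k3]; exact hf0.sB
  have hbp : Pp.b = bkP Pp * cP Pp ^ 3 := by rw [← k3]; exact E4Dic352.b_eq hf0
  have hbS : Sm (π lam.1).n₃ Pp.b := by rw [← k3]; exact hf0.sb
  have hMB : (π lam.1).n₃ * (Pp.B * (bkP Pp * cP Pp ^ 3) * b0) ≠ 0 := by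
    rw [← hbp]
    exact mul_ne_zero hMne (mul_ne_zero (mul_ne_zero hBp.ne_zero hbS.ne_zero) hb0.ne_zero)
  have hyK0 : yK nu2 t₀ ≠ 0 := by
    unfold yK
    rw [D0_one k1, one_mul]
    have hk0 := (JyF744.OK.pk k1).ne_zero
    have hν := (hSO _ t₀.o.2).ne_zero
    exact mul_ne_zero (mul_ne_zero (mul_ne_zero hk0 hν) (pow_ne_zero 2 k1.pD1.ne_zero))
      k1.sb.ne_zero
  have hb0X : (nm b0 : ℝ) ≤ X ^ B₁ := by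
    refine le_trans ?_ k6
    have hdv : b0 ∣ yK nu2 t₀ := by
      unfold yK
      rw [k4]
      exact ⟨kn t₀ * b0 ^ 2 * (t₀.D0 * t₀.D1) ^ 2 * t₀.b, by ring⟩
    exact_mod_cast Div277.nm_le_of_dvd hyK0 hdv
  have hmod : (nm ((π lam.1).n₃ * (Pp.B * (bkP Pp * cP Pp ^ 3) * b0)) : ℝ) ≤ X ^ B₂ := by
    rw [← hbp, nm_mul, nm_mul, nm_mul]
    push_cast
    have h1 := hsz.B
    have h2 := hsz.b
    have h3 : (X ^ A₀) ^ 7 = X ^ (7 * A₀) := by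
      rw [mul_comm, Real.rpow_mul hX0.le]
      exact_mod_cast (Real.rpow_natCast (X ^ A₀) 7).symm
    rw [h3] at h1 h2
    calc (nm (π lam.1).n₃ : ℝ) * ((nm Pp.B : ℝ) * nm Pp.b * nm b0)
        ≤ X ^ (1 : ℝ) * (X ^ (7 * A₀) * X ^ (7 * A₀) * X ^ B₁) := by
          rw [Real.rpow_one]
          gcongr
      _ = X ^ (1 + (7 * A₀ + 7 * A₀ + B₁)) := by
          rw [Real.rpow_add hX0, Real.rpow_add hX0, Real.rpow_add hX0]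
      _ ≤ X ^ B₂ := hmono _ (by rw [hB₂]; linarith)
  -- the lists
  have e1 : b1 (π lam.1) h lam.2 ps = alL h ((amL ps).map (Pq.pc P)) := by
    unfold E4U164.b1
    rw [map_Pt]
  have e2 : b2 (π lam.1) h lam.2 a.1 ps =
      alL h ((a.1.us 0 :: a.1.us 1 :: moL ps).map (Pq.pc P)) := by
    unfold E4U164.b2
    rw [map_Pt]
    rfl
  have h₁' : FS (alL h ((amL ps).map (Pq.pc P))) := e1 ▸ h₁
  have h₂' : FS (alL h ((a.1.us 0 :: a.1.us 1 :: moL ps).map (Pq.pc P))) := e2 ▸ h₂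
  have hs1 : ∀ j, 1 + |(a.1.us j).t| ≤ X ^ δ' := by
    intro j
    have h1 : max (1 + |a.1.τ|) (mx Dq.s1 (List.ofFn a.1.us)) ≤ X ^ δ' := hF.win.s₁
    have h2 : Dq.s1 (a.1.us j) ≤ mx Dq.s1 (List.ofFn a.1.us) :=
      le_mx (List.mem_ofFn.2 ⟨j, rfl⟩)
    exact (h2.trans (le_max_right _ _)).trans h1
  have hs2 : ∀ j, (nm (a.1.us j).d : ℝ) ≤ X ^ B₂ := by
    intro j
    have h1 : max (nm a.1.d₃ : ℝ) (mx Dq.s2 (List.ofFn a.1.us)) ≤ X ^ B := hF.win.s₂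
    have h2 : Dq.s2 (a.1.us j) ≤ mx Dq.s2 (List.ofFn a.1.us) :=
      le_mx (List.mem_ofFn.2 ⟨j, rfl⟩)
    exact ((h2.trans (le_max_right _ _)).trans h1).trans (hmono _ hBB)
  have hzB : ∀ {z : ℝ}, z ≤ max B 3 * Real.log X → z ≤ B₂ * Real.log X := fun hz =>
    hz.trans (mul_le_mul_of_nonneg_right hB3 hlog.le)
  have hps : ∀ p ∈ ps, 0 ≤ p.z ∧ p.z ≤ B₂ * Real.log X ∧ (nm p.d : ℝ) ≤ X ^ B₂ ∧
      1 + |p.t| ≤ X ^ δ' := by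
    intro p hp
    obtain ⟨g1, g2, g3⟩ := hF.good p hp
    exact ⟨g3, hzB (hFr.p p hp), g2.trans (hmono _ hBB), g1⟩
  have hlen1 : (amL ps).length ≤ N := (List.length_filter_le _ _).trans hF.len
  have hlen2 : (moL ps).length ≤ N := (List.length_filter_le _ _).trans hF.len
  have hdom := hF.dom
  unfold SqL DomL at hdom
  have hSq : Sq5 A d (dn q.1) q.2 := hdom.1
  have hLs : Ls (amL ps) ≤ K * Real.log X := by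
    have h1 := (abs_le.1 (hF.mass .am)).2
    rw [mass_am] at h1
    have h2 := hSq.c
    have h3 : Ls (amL ps) / Real.log X ≤ K := by linarith
    rwa [div_le_iff₀ hlog] at h3
  have main := V X hXX₂ P (isChar_chK hPok) hPok (a.1.us 0) (a.1.us 1) (amL ps) (moL ps)
    (ha.1 0).1 (ha.1 1).1 hlen1 hlen2 (fun p hp => (mem_amL.1 hp).2)
    (fun p hp => (mem_moL.1 hp).2)
    (by
      intro p hp
      obtain ⟨g1, g2⟩ := mem_amL.1 hp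
      rcases hF.lum p g1 with g3 | g3
      · rw [((Dq_lump _).1 g3).1] at g2
        exact absurd g2 (by decide)
      · exact g3.trans hδ)
    (by
      intro p hp
      rcases hF.lum p (mem_moL.1 hp).1 with g3 | g3
      · exact Or.inl g3
      · exact Or.inr (g3.trans (by linarith)))
    hLs (X ^ δ')
    (by
      intro p hp
      rcases List.mem_cons.1 hp with rfl | hp
      · exact ⟨(ha.1 0).2, hzB (hFr.u 0), hs2 0, hs1 0⟩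
      rcases List.mem_cons.1 hp with rfl | hp
      · exact ⟨(ha.1 1).2, hzB (hFr.u 1), hs2 1, hs1 1⟩
      rcases List.mem_append.1 hp with hp | hp
      · exact hps p (mem_amL.1 hp).1
      · exact hps p (mem_moL.1 hp).1)
    (π lam.1).n₃ M' Pp.B (bkP Pp) (cP Pp) b0 x.z (fN (π lam.1).n₃ (x.E a.1)) tt.1 tt.2 ξ hMB hmod
    (prim_bkP Pp) (prim_cP Pp) hSb0 he₀ hx.z hη hrad
    (by
      intro b hb
      rw [hl']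
      exact chK_tw_am P M' tt.1 tt.2 hb)
    (by
      intro b hb
      rw [hl']
      exact chK_tw_mo P M' tt.1 tt.2 hb)
    h₁' h₂' (x.O π lam Jf a) hOO lD (x.v π h lam Jf a) (x.w π h lam Jf a ps h₁ h₂)
    (dat4_mono hDat (hmono _ (by rw [hB₂]; linarith)))
    (by
      intro o
      unfold Dt.w wX wI
      rw [ww_congr e1 e2 h₁ h₁' h₂ h₂']
      rfl)
    G hG E4RH858.b1 kn 𝒥
    (by
      intro t ht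
      obtain ⟨g1, g2, g3, g4, g5, g6⟩ := hJ t ht
      have hf := hfac t ht
      refine ⟨g1, g2, ⟨?_, E4RH858.prim_b1 t, ?_⟩, g4, g5, g6.trans (hmono _ (by
        rw [hB₂]; linarith))⟩
      · rw [← g3]
        rfl
      · rw [← g3]
        exact E4Dic352.b_eq' hf)
    l hl0 (hlX.trans (hmono _ (by rw [hB₂]; linarith))) hKle Wx hWx S₀ hS₀
    (by
      intro t ht f1 f2 f3 D1' Z'' g1 g2 g3 g4 g5 g6 g7 g8 g9 g10 m₁ m₂ hm₁ hm₂ hm hfe₁ hfe₂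
      exact hyp t ht f1 f2 f3 D1' Z'' m₁ m₂ ⟨g1, g2, g3, g4, g5, g6, g7, g8, g9, hm₁, hm₂, hm,
        hx.z⟩ g10 hfe₁ hfe₂)
  refine main.trans ?_
  have hXδ : (X ^ δ') ^ M₀ ≤ X ^ (ε / 2) := by
    have e3 : (X ^ δ') ^ M₀ = X ^ (δ' * M₀) := by
      rw [Real.rpow_mul hX0.le, Real.rpow_natCast]
    rw [e3]
    refine Real.rpow_le_rpow_of_exponent_le hX1.le ?_
    calc δ' * M₀ ≤ ε / (2 * (M₀ + 1)) * M₀ := mul_le_mul_of_nonneg_right hδ' hM₀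
      _ = ε / 2 * (M₀ / (M₀ + 1)) := by field_simp
      _ ≤ ε / 2 * 1 := by
          refine mul_le_mul_of_nonneg_left ?_ (by positivity)
          rw [div_le_one (by positivity)]
          linarith
      _ = ε / 2 := mul_one _
  have hξ : 0 ≤ (1 + |ξ|) ^ M₀ := by
    have := abs_nonneg ξ
    positivity
  calc (X ^ δ' * (1 + |ξ|)) ^ M₀ * X ^ (ε / 2) * S₀
      = (1 + |ξ|) ^ M₀ * ((X ^ δ') ^ M₀ * X ^ (ε / 2)) * S₀ := by rw [mul_pow]; ring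
    _ ≤ (1 + |ξ|) ^ M₀ * (X ^ (ε / 2) * X ^ (ε / 2)) * S₀ := by gcongr
    _ = (1 + |ξ|) ^ M₀ * X ^ ε * S₀ := by
        rw [← Real.rpow_add hX0]
        congr 3
        ring

omit hpu hP hN hP' hN' hcov R C in
lemma YsC.mono {e0 r0 : ℝ} {Bf : ℝ → ℝ → ℝ → ℝ} {Jf : ℝ → ℝ → ℝ → Finset (Eis × Eis)}
    {K R₁ ε σ ρ : ℝ} {lam : Λ × Eis} {N : ℕ} {B E B₁ : ℝ} {tt : (Eis → ℂ) × ℤ} {M₀ M₁ : ℕ}
    {δ₁ δ₂ X₀ X₁ : ℝ} (H : YsC π h A d e0 r0 Bf Jf K R₁ ε σ ρ lam N B E B₁ tt M₀ δ₁ X₀)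
    (hM : M₀ ≤ M₁) (hδ : δ₂ ≤ δ₁) (hX : X₀ ≤ X₁) (h0 : 0 ≤ X₀) :
    YsC π h A d e0 r0 Bf Jf K R₁ ε σ ρ lam N B E B₁ tt M₁ δ₂ X₁ := by
  intro X hXX δ δ' ε' g1 g2 g3 a ps q hF ha hs haP x hx h₁ h₂ ξ G hG Pp b0 kn 𝒥 hb0 hJ l hl0 hlX
    hKle Wx hWx S₀ hS₀ hyp
  refine (H X (hX.trans hXX) δ δ' ε' g1 (g2.trans hδ) g3 a ps q hF ha hs haP x hx h₁ h₂ ξ G hG Pp
    b0 kn 𝒥 hb0 hJ l hl0 hlX hKle Wx hWx S₀ hS₀ hyp).trans ?_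
  have hX0 : 0 ≤ X := h0.trans (hX.trans hXX)
  have h1 : (1 + |ξ|) ^ M₀ ≤ (1 + |ξ|) ^ M₁ :=
    pow_le_pow_right₀ (by linarith [abs_nonneg ξ]) hM
  have h2 : 0 ≤ X ^ ε := Real.rpow_nonneg hX0 _
  gcongr

omit hpu hP hN hP' hN' hcov R C in
lemma YsCT.mono {e0 r0 : ℝ} {Bf : ℝ → ℝ → ℝ → ℝ} {Jf : ℝ → ℝ → ℝ → Finset (Eis × Eis)}
    {K R₁ ε σ ρ : ℝ} {lam : Λ × Eis} {N : ℕ} {B E B₁ : ℝ} {tt : (Eis → ℂ) × ℤ} {M₀ M₁ : ℕ}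
    {δ₁ δ₂ X₀ X₁ : ℝ} (H : YsCT π h A d e0 r0 Bf Jf K R₁ ε σ ρ lam N B E B₁ tt M₀ δ₁ X₀)
    (hM : M₀ ≤ M₁) (hδ : δ₂ ≤ δ₁) (hX : X₀ ≤ X₁) (h0 : 0 ≤ X₀) :
    YsCT π h A d e0 r0 Bf Jf K R₁ ε σ ρ lam N B E B₁ tt M₁ δ₂ X₁ := by
  intro X hXX δ δ' ε' g1 g2 g3 a ps q hF ha hs haP x hx h₁ h₂ ξ G hG Pp b0 kn 𝒥 hb0 hJ l hl0 hlX
    hKle Wx hWx S₀ hS₀ hyp
  refine (H X (hX.trans hXX) δ δ' ε' g1 (g2.trans hδ) g3 a ps q hF ha hs haP x hx h₁ h₂ ξ G hG Pp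
    b0 kn 𝒥 hb0 hJ l hl0 hlX hKle Wx hWx S₀ hS₀ hyp).trans ?_
  have hX0 : 0 ≤ X := h0.trans (hX.trans hXX)
  have h1 : (1 + |ξ|) ^ M₀ ≤ (1 + |ξ|) ^ M₁ :=
    pow_le_pow_right₀ (by linarith [abs_nonneg ξ]) hM
  have h2 : 0 ≤ X ^ ε := Real.rpow_nonneg hX0 _
  gcongr

omit hpu hP hN hP' hN' hcov R C in
lemma YsCT.toC {e0 r0 : ℝ} {Bf : ℝ → ℝ → ℝ → ℝ} {Jf : ℝ → ℝ → ℝ → Finset (Eis × Eis)}
    {K R₁ ε σ ρ : ℝ} {lam : Λ × Eis} {N : ℕ} {B E B₁ : ℝ} {tt : (Eis → ℂ) × ℤ} {M₀ : ℕ}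
    {δ₁ X₀ : ℝ} (H : YsCT π h A d e0 r0 Bf Jf K R₁ ε σ ρ lam N B E B₁ tt M₀ δ₁ X₀) :
    YsC π h A d e0 r0 Bf Jf K R₁ ε σ ρ lam N B E B₁ tt M₀ δ₁ X₀ := by
  intro X hXX δ δ' ε' g1 g2 g3 a ps q hF ha hs haP x hx h₁ h₂ ξ G hG Pp b0 kn 𝒥 hb0 hJ l hl0 hlX
    hKle Wx hWx S₀ hS₀ hyp
  refine H X hXX δ δ' ε' g1 g2 g3 a ps q hF ha hs haP x hx h₁ h₂ ξ G hG Pp b0 kn 𝒥 hb0 hJ l hl0
    hlX hKle Wx hWx S₀ hS₀ ?_
  intro t ht f1 f2 f3 D1' Z'' l' m k1 k2 k3 k4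
  obtain ⟨κ, Mv, qv, wv, y, mx, e, Sx, m1, m2, m3, m4, m5⟩ :=
    hyp t ht f1 f2 f3 D1' Z'' l' m k1 k2 k3 k4
  exact ⟨κ, Mv, qv, wv, y, mx, e, Sx, m1, Or.inl m2, m3, m4, m5⟩

/-- **the `y`-side at the data of `JBU`**, finitely many twists, with the alternative `YT` -/
theorem ysUT (hd : 0 ≤ d) (hd8 : d ≤ 1 / 8) (hA : 2 / 3 ≤ A) {K : ℝ} (hK : 1 ≤ K) (e0 r0 : ℝ)
    (Bf : ℝ → ℝ → ℝ → ℝ) {Jf : ℝ → ℝ → ℝ → Finset (Eis × Eis)}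
    (hJf : ∀ l N z, OKJ (Jf l N z)) {ε : ℝ} (hε : 0 < ε) :
    ∃ σ₀ R₁ : ℝ, 0 < σ₀ ∧ 0 ≤ R₁ ∧ ∀ σ : ℝ, 0 < σ → σ ≤ σ₀ → ∀ ρ : ℝ, 0 < ρ →
    ∀ (lam : Λ × Eis) (N : ℕ) (B E B₁ : ℝ), 0 ≤ B₁ → ∀ T : Finset ((Eis → ℂ) × ℤ),
      ¬ (π lam.1).CaseD → (∀ tt ∈ T, TwOK (π lam.1) tt) →
    ∃ (M₀ : ℕ) (δ₁ X₀ : ℝ), 0 < δ₁ ∧ 3 ≤ X₀ ∧ ∀ tt ∈ T,
      YsCT π h A d e0 r0 Bf Jf K R₁ ε σ ρ lam N B E B₁ tt M₀ δ₁ X₀ := by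
  classical
  obtain ⟨σ₀, R₁, hσ₀, hR₁, V⟩ := ysU1 hpu hP hN hP' hN' hcov R C hd hd8 hA hK e0 r0 Bf hJf hε
  refine ⟨σ₀, R₁, hσ₀, hR₁, ?_⟩
  intro σ hσ hσσ ρ hρ lam N B E B₁ hB₁ T hD
  induction T using Finset.induction_on with
  | empty => exact fun _ => ⟨0, 1, 3, one_pos, le_rfl, fun tt htt => absurd htt (by simp)⟩
  | insert t T _ ih =>
    intro hT
    obtain ⟨M₁, δ₁, X₁, hδ₁, hX₁, H₁⟩ := V σ hσ hσσ ρ hρ lam N B E B₁ hB₁ t hD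
      (hT t (Finset.mem_insert_self _ _))
    obtain ⟨M₂, δ₂, X₂, hδ₂, hX₂, H₂⟩ := ih fun tt htt => hT tt (Finset.mem_insert_of_mem htt)
    refine ⟨max M₁ M₂, min δ₁ δ₂, max X₁ X₂, lt_min hδ₁ hδ₂, hX₁.trans (le_max_left _ _), ?_⟩
    intro tt htt
    rcases Finset.mem_insert.1 htt with rfl | htt
    · exact H₁.mono (le_max_left _ _) (min_le_left _ _) (le_max_left _ _) (by linarith)
    · exact (H₂ tt htt).mono (le_max_right _ _) (min_le_right _ _) (le_max_right _ _)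
        (by linarith)

/-- **the `y`-side at the data of `JBU`**, finitely many twists -/
theorem ysU (hd : 0 ≤ d) (hd8 : d ≤ 1 / 8) (hA : 2 / 3 ≤ A) {K : ℝ} (hK : 1 ≤ K) (e0 r0 : ℝ)
    (Bf : ℝ → ℝ → ℝ → ℝ) {Jf : ℝ → ℝ → ℝ → Finset (Eis × Eis)}
    (hJf : ∀ l N z, OKJ (Jf l N z)) {ε : ℝ} (hε : 0 < ε) :
    ∃ σ₀ R₁ : ℝ, 0 < σ₀ ∧ 0 ≤ R₁ ∧ ∀ σ : ℝ, 0 < σ → σ ≤ σ₀ → ∀ ρ : ℝ, 0 < ρ →
    ∀ (lam : Λ × Eis) (N : ℕ) (B E B₁ : ℝ), 0 ≤ B₁ → ∀ T : Finset ((Eis → ℂ) × ℤ),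
      ¬ (π lam.1).CaseD → (∀ tt ∈ T, TwOK (π lam.1) tt) →
    ∃ (M₀ : ℕ) (δ₁ X₀ : ℝ), 0 < δ₁ ∧ 3 ≤ X₀ ∧ ∀ tt ∈ T,
      YsC π h A d e0 r0 Bf Jf K R₁ ε σ ρ lam N B E B₁ tt M₀ δ₁ X₀ := by
  obtain ⟨σ₀, R₁, hσ₀, hR₁, V⟩ := ysUT hpu hP hN hP' hN' hcov R C hd hd8 hA hK e0 r0 Bf hJf hε
  refine ⟨σ₀, R₁, hσ₀, hR₁, fun σ hσ hσσ ρ hρ lam N B E B₁ hB₁ T hD hT => ?_⟩
  obtain ⟨M₀, δ₁, X₀, g1, g2, g3⟩ := V σ hσ hσσ ρ hρ lam N B E B₁ hB₁ T hD hT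
  exact ⟨M₀, δ₁, X₀, g1, g2, fun tt htt => (g3 tt htt).toC⟩

end

end Crest.Agent.R017.YsU61
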