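import Crest.Agent.R017.RXp_770
import Crest.Agent.R017.YsU_61

/-!
# Row 17, block C70, leaf E4 (x-side): class N of the R-side at the twists of the family (helper347)

* `rwN_tw` : `TwOK P t` ⟹ class N of `rwP P M' t.1 t.2` (outside `l₁ = -4`)
-/

set_option autoImplicit false
set_option linter.unusedVariables false

noncomputable section

open Complex
open scoped ComplexConjugate

namespace Crest.Agent.R017.XLg347

open Crest.Agent.R012 Crest.Agent.R012.Eis
open Crest.Agent.R017.End699 (HC prin0 hc_prin0)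
open Crest.Agent.R017.Sup271 (NPm)
open Crest.Agent.R017.B770
open Crest.Agent.R017.E4ap783 (TG7)
open Crest.Agent.R017.YsU61 (TwOK)
open Crest.Agent.R017.RXn770

/-- **class N of the R-side at the twists of the family** -/
theorem rwN_tw {P : DPar} (hP : P.OK) (hN : ∀ k : Eis, k ≠ 0 → NPm P.n P.ψ P.l₂ k)
    (hD : ¬ P.CaseD) (h4 : P.l₁ ≠ -4) {t : (Eis → ℂ) × ℤ} (ht : TwOK P t) :
    ∃ M' : Eis, HC M' t.1 ∧ (∀ p : Eis, Prime p → p ∣ M' → p ∣ P.n₃) ∧
      ∀ k : Eis, k ≠ 0 → NPm (rwP P M' t.1 t.2).n (rwP P M' t.1 t.2).ψ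
        (rwP P M' t.1 t.2).l₂ k := by
  have hrad0 : ∀ p : Eis, Prime p → p ∣ P.n₃ → p ∣ P.n := fun p hp hd => (hP.rad p hp).1 hd
  rcases ht with rfl | ⟨⟨M', h0, hdvd, hrad, hη⟩, hl, hj⟩
  · refine ⟨P.n₃, hc_prin0 hP.χ₃.q0 hP.χ₃.three, fun _ _ h => h, ?_⟩
    refine classN_rw_L hN (t := 1) one_ne_zero hrad0 hP.χ₃.q0 fun u hu hc => ?_
    show prin0 P.n₃ u = sy 1 u
    rw [GaussLoc283.syAx.one_left hu]
    unfold prin0
    rw [if_pos hc.of_mul_right_right]
  · refine ⟨M', hη, hrad, ?_⟩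
    have hL0 : P.l₃ = 0 → ∀ k : Eis, k ≠ 0 → NPm (rwP P M' t.1 t.2).n
        (rwP P M' t.1 t.2).ψ (rwP P M' t.1 t.2).l₂ k := by
      intro h3
      obtain ⟨h2, s, hs, he⟩ := hl (by rw [h3, neg_zero])
      rw [h2]
      refine classN_rw_L hN (t := s) hs.1 (fun p hp hd => hrad0 p hp (hrad p hp hd)) h0
        fun v hv hc => ?_
      exact he v ⟨hv, hc.of_mul_right_right.of_isCoprime_of_dvd_right hdvd⟩
    rcases hP.cases with h | h | h | h
    · exact hL0 h.2.1
    · refine classN_rw_R ?_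
      obtain ⟨h1, h3, h5⟩ := h
      rw [hj, h3, neg_neg]
      omega
    · exfalso
      rcases hN 1 one_ne_zero with h' | ⟨a, ha, hac, hne⟩
      · exact h' h.2.1
      · apply hne
        show P.ψ a * sy 1 a = 1
        rw [h.2.2.2.1, GaussLoc283.syAx.one_left ha]
        unfold prin0
        rw [if_pos hac.of_mul_right_left, mul_one]
    · exact absurd h hD

end Crest.Agent.R017.XLg347
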