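import Crest.Agent.R017.E4d1_401

/-!
# Row 17, block C70, leaf E4, dual side (helper401), part 2: algebra

* `dvd_sq_of_gs` : `b` powerful, `gs u b ≠ 0` ⟹ `b ∣ u²`
* `bs b X`, `sum_bs` : `x = g x'`, `g ∣ b^∞`, `(x', b) = 1`
-/

set_option autoImplicit false

noncomputable section

open Complex MeasureTheory
open scoped ComplexConjugate ContDiff

namespace Crest.Agent.R017.E4401

open Crest.Agent.R012 Crest.Agent.R012.Eis Crest.Agent.R012.GaussLoc283 Crest.Agent.R012.Mob705
open Crest.Agent.R012.Div277 (nm_le_of_dvd)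
open Crest.Agent.R017.Asm986 (Pf)
open Crest.Agent.R017.NSx545 (exists_pfsf pfsf_unique)

/-- `gs u b ≠ 0`, `b` powerful ⟹ `b ∣ u²` -/
theorem dvd_sq_of_gs : ∀ (n : ℕ) {b : Eis}, nm b ≤ n → IsPrim b → Pf b → ∀ {u : Eis},
    gs u b ≠ 0 → b ∣ u ^ 2 := by
  intro n
  induction n with
  | zero =>
    intro b hb hp
    exact absurd (nm_eq_zero.mp (Nat.le_zero.mp hb)) hp.ne_zero
  | succ n ih =>
    intro b hb hp hpf u hu
    by_cases h1 : b = 1
    · rw [h1]; exact one_dvd _
    · obtain ⟨p, hpp, hpb⟩ := exists_pp_dvd_of_isPrim hp h1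
      obtain ⟨j, c, hbc, hpc, hc⟩ := NatP401.exists_pow_mul hpp hp
      have hj : 2 ≤ j := by
        by_contra hcon
        have h2 : p ^ 2 ∣ b := hpf p hpp.prime hpb
        rcases Nat.lt_or_ge j 1 with h3 | h3
        · have : j = 0 := by omega
          rw [this, pow_zero, one_mul] at hbc
          exact hpc (hbc ▸ hpb)
        · have : j = 1 := by omega
          rw [hbc, this, pow_one, pow_two, mul_dvd_mul_iff_left hpp.ne_zero] at h2
          exact hpc h2
      have hcp : IsCoprime p c := hpp.isCoprime_iff.mpr hpc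
      have hcn : nm c ≤ n := by
        rw [hbc, nm_mul, nm_pow] at hb
        have h2 := hpp.one_lt_nm
        have h3 : 0 < nm c := nm_pos.mpr hc.ne_zero
        have h4 : 2 ≤ nm p ^ j := by
          calc 2 ≤ nm p := h2
            _ = nm p ^ 1 := (pow_one _).symm
            _ ≤ nm p ^ j := Nat.pow_le_pow_right (by omega) (by omega)
        nlinarith
      have hpfc : Pf c := by
        intro q hq hqc
        have h2 : q ^ 2 ∣ p ^ j * c := hbc ▸ hpf q hq (hbc ▸ hqc.mul_left _)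
        have h3 : IsCoprime (q ^ 2) (p ^ j) := by
          apply IsCoprime.pow
          have : ¬ q ∣ p := by
            intro h
            have h4 := (hq.irreducible.dvd_irreducible_iff_associated hpp.prime.irreducible).mp h
            exact hpc (h4.symm.dvd.trans hqc)
          exact (hq.irreducible.coprime_iff_not_dvd).mpr this
        exact h3.dvd_of_dvd_mul_left h2
      rw [hbc, gs_mul' syAx _ (hpp.isPrim.pow j) hc hcp.pow_left] at hu
      have hu1 := left_ne_zero_of_mul hu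
      have hu2 := right_ne_zero_of_mul hu
      obtain ⟨k, rfl⟩ : ∃ k, j = k + 1 := ⟨j - 1, by omega⟩
      have h5 : p ^ k ∣ u := by
        by_contra h
        exact hu1 (gs_pow_of_not_dvd syAx hpp.isPrim h)
      have h6 : p ^ (k + 1) ∣ u ^ 2 := by
        have h7 : (p ^ k) ^ 2 ∣ u ^ 2 := pow_dvd_pow_of_dvd h5 2
        rw [← pow_mul] at h7
        exact (pow_dvd_pow p (by omega)).trans h7
      have h8 : c ∣ u ^ 2 := by
        have h9 := ih hcn hc hpfc hu2
        rw [mul_pow] at h9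
        exact (hcp.symm.pow_right.pow_right).dvd_of_dvd_mul_right h9
      rw [hbc]
      exact (hcp.pow_left).mul_dvd h6 h8

/-! ### extraction of the `b`-part -/

open Classical in
/-- primary `g ∣ b^∞`, `nm g ≤ X` -/
def bs (b : Eis) (X : ℕ) : Finset Eis :=
  (primBall X).filter (fun g => ∀ p : Eis, Prime p → p ∣ g → p ∣ b)

lemma mem_bs {b : Eis} {X : ℕ} {g : Eis} :
    g ∈ bs b X ↔ (nm g ≤ X ∧ IsPrim g) ∧ ∀ p : Eis, Prime p → p ∣ g → p ∣ b := by
  classical
  unfold bs
  rw [Finset.mem_filter, mem_primBall]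

lemma exists_bs (b : Eis) : ∀ (n : ℕ) {x : Eis}, nm x ≤ n → IsPrim x →
    ∃ g y, IsPrim g ∧ IsPrim y ∧ x = g * y ∧ (∀ p : Eis, Prime p → p ∣ g → p ∣ b) ∧
      IsCoprime y b := by
  intro n
  induction n with
  | zero =>
    intro x hx hp
    exact absurd (nm_eq_zero.mp (Nat.le_zero.mp hx)) hp.ne_zero
  | succ n ih =>
    intro x hx hp
    by_cases hc : IsCoprime x b
    · exact ⟨1, x, isPrim_one, hp, (one_mul x).symm,
        fun p hpp h => absurd (isUnit_of_dvd_one h) hpp.not_isUnit, hc⟩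
    · rw [isCoprime_iff_pp hp] at hc
      push Not at hc
      obtain ⟨p, hpp, ⟨z, hz⟩, hpb⟩ := hc
      have hzp : IsPrim z := (hz ▸ hp : IsPrim (p * z)).of_mul_left hpp.isPrim
      have hzn : nm z ≤ n := by
        rw [hz, nm_mul] at hx
        have h2 := hpp.one_lt_nm
        have h3 : 0 < nm z := nm_pos.mpr hzp.ne_zero
        nlinarith
      obtain ⟨g, y, hg, hy, hgy, h1, h2⟩ := ih hzn hzp
      refine ⟨p * g, y, hpp.isPrim.mul hg, hy, by rw [hz, hgy]; ring, fun q hq hqd => ?_, h2⟩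
      rcases hq.dvd_or_dvd hqd with h | h
      · exact h.trans hpb
      · exact h1 q hq h

lemma bs_dvd {b g y g' y' : Eis} (hg : IsPrim g) (h1 : ∀ p : Eis, Prime p → p ∣ g → p ∣ b)
    (h2 : IsCoprime y' b) (h : g * y = g' * y') : g ∣ g' := by
  have h3 : IsCoprime g y' := by
    rw [isCoprime_iff_pp hg]
    intro p hp hpg hpy
    exact hp.prime.not_isUnit (h2.isUnit_of_dvd' hpy (h1 p hp.prime hpg))
  exact h3.dvd_of_dvd_mul_right (h ▸ dvd_mul_right g y)

lemma bs_unique {b g y g' y' : Eis} (hg : IsPrim g) (hg' : IsPrim g')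
    (h1 : ∀ p : Eis, Prime p → p ∣ g → p ∣ b) (h1' : ∀ p : Eis, Prime p → p ∣ g' → p ∣ b)
    (h2 : IsCoprime y b) (h2' : IsCoprime y' b) (h : g * y = g' * y') : g = g' ∧ y = y' := by
  have h3 : g = g' := hg.eq_of_associated hg' (associated_of_dvd_dvd (bs_dvd hg h1 h2' h)
    (bs_dvd hg' h1' h2 h.symm))
  subst h3
  exact ⟨rfl, mul_left_cancel₀ hg.ne_zero h⟩

open Classical in
/-- **extraction of the `b`-part** -/
theorem sum_bs (b : Eis) {X : ℕ} {A : Eis → ℂ} (hA : ∀ x, A x ≠ 0 → x ∈ primBall X)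
    (F : Eis → ℂ) :
    ∑ x ∈ primBall X, A x * F x =
      ∑ g ∈ bs b X, ∑ x ∈ primBall X, (if IsCoprime x b then A (g * x) else 0) * F (g * x) := by
  rw [Finset.sum_sigma']
  symm
  refine Finset.sum_bij_ne_zero (fun q _ _ => q.1 * q.2) ?_ ?_ ?_ ?_
  · rintro ⟨g, y⟩ h1 h2
    have h3 := left_ne_zero_of_mul h2
    have h4 : IsCoprime y b := by
      by_contra h
      rw [if_neg h] at h3
      exact h3 rfl
    rw [if_pos h4] at h3
    exact hA _ h3
  · rintro ⟨g, y⟩ h1 h2 ⟨g', y'⟩ h1' h2' e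
    rw [Finset.mem_sigma, mem_bs, mem_primBall] at h1 h1'
    have h3 : IsCoprime y b := by
      by_contra h
      apply h2
      simp only
      rw [if_neg h, zero_mul]
    have h3' : IsCoprime y' b := by
      by_contra h
      apply h2'
      simp only
      rw [if_neg h, zero_mul]
    obtain ⟨e1, e2⟩ := bs_unique h1.1.1.2 h1'.1.1.2 h1.1.2 h1'.1.2 h3 h3' e
    simp only at e1 e2
    subst e1; subst e2; rfl
  · intro x hx hx0
    rw [mem_primBall] at hx
    obtain ⟨g, y, hg, hy, rfl, h1, h2⟩ := exists_bs b _ le_rfl hx.2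
    have hn1 : nm g ≤ X := (nm_le_of_dvd hx.2.ne_zero (dvd_mul_right _ _)).trans hx.1
    have hn2 : nm y ≤ X := (nm_le_of_dvd hx.2.ne_zero (dvd_mul_left _ _)).trans hx.1
    refine ⟨⟨g, y⟩, ?_, ?_, rfl⟩
    · rw [Finset.mem_sigma, mem_bs, mem_primBall]
      exact ⟨⟨⟨hn1, hg⟩, h1⟩, ⟨hn2, hy⟩⟩
    · simp only
      rw [if_pos h2]
      exact hx0
  · rintro ⟨g, y⟩ h1 h2
    have h3 : IsCoprime y b := by
      by_contra h
      apply h2
      simp only
      rw [if_neg h, zero_mul]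
    simp only
    rw [if_pos h3]

end Crest.Agent.R017.E4401
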