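import Crest.Agent.R017.E4defs_352
import Crest.Agent.R017.E4d2_401

/-!
# Row 17, C70/E4, leaf `LCnt` (helper401): counting `R ∣ q^∞`
-/

set_option autoImplicit false

noncomputable section

open Complex

namespace Crest.Agent.R017.E4401

open Crest.Agent.R012 Crest.Agent.R012.Eis Crest.Agent.R012.Mob705
open Crest.Agent.R012.Div277
open Crest.Agent.R017.E4352

open Classical in
/-- primary numbers up to `X` all of whose primary primes are in `P` -/
def ns (P : Finset Eis) (X : ℝ) : Finset Eis :=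
  (primBall ⌊X⌋₊).filter fun R => ∀ p : Eis, IsPP p → p ∣ R → p ∈ P

lemma mem_ns {P : Finset Eis} {X : ℝ} {R : Eis} (hX : 0 ≤ X) :
    R ∈ ns P X ↔ ((nm R : ℝ) ≤ X ∧ IsPrim R) ∧ ∀ p : Eis, IsPP p → p ∣ R → p ∈ P := by
  classical
  unfold ns
  rw [Finset.mem_filter, mem_primBall, Nat.le_floor_iff hX]

/-- Rankin -/
theorem card_ns {ε : ℝ} (hε : 0 < ε) (P : Finset Eis) : PPSet P → ∀ X : ℝ, 0 ≤ X →
    ((ns P X).card : ℝ) ≤ ((1 - (4 : ℝ) ^ (-ε))⁻¹) ^ P.card * X ^ ε := by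
  classical
  have hr0 : (0 : ℝ) < (4 : ℝ) ^ (-ε) := Real.rpow_pos_of_pos (by norm_num) _
  have hr1 : (4 : ℝ) ^ (-ε) < 1 := Real.rpow_lt_one_of_one_lt_of_neg (by norm_num) (by linarith)
  induction P using Finset.induction_on with
  | empty =>
    intro _ X hX
    rw [Finset.card_empty, pow_zero, one_mul]
    have h1 : ns ∅ X ⊆ if 1 ≤ X then {1} else ∅ := by
      intro R hR
      rw [mem_ns hX] at hR
      have h2 : R = 1 := by
        by_contra h
        obtain ⟨p, hp, hpR⟩ := exists_pp_dvd_of_isPrim hR.1.2 h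
        exact absurd (hR.2 p hp hpR) (Finset.notMem_empty _)
      subst h2
      have h3 : (1 : ℝ) ≤ X := by
        have := hR.1.1
        rwa [show nm (1 : Eis) = 1 by simp, Nat.cast_one] at this
      rw [if_pos h3]
      exact Finset.mem_singleton_self _
    by_cases h : 1 ≤ X
    · rw [if_pos h] at h1
      have h2 := Finset.card_le_card h1
      rw [Finset.card_singleton] at h2
      calc ((ns ∅ X).card : ℝ) ≤ 1 := by exact_mod_cast h2
        _ ≤ X ^ ε := Real.one_le_rpow h hε.le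
    · rw [if_neg h] at h1
      have h2 := Finset.card_le_card h1
      rw [Finset.card_empty] at h2
      calc ((ns ∅ X).card : ℝ) ≤ 0 := by exact_mod_cast h2
        _ ≤ X ^ ε := by positivity
  | insert p P hp ih =>
    intro hP X hX
    have hPP : PPSet P := fun q hq => hP q (Finset.mem_insert_of_mem hq)
    have hpp : IsPP p := hP p (Finset.mem_insert_self _ _)
    have hp4 : (4 : ℝ) ≤ nm p := by exact_mod_cast hpp.four_le_nm
    have hsub : ns (insert p P) X ⊆ (Finset.range (⌊X⌋₊ + 1)).biUnion fun n =>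
        (ns P (X / nm p ^ n)).image fun R => p ^ n * R := by
      intro R hR
      rw [mem_ns hX] at hR
      obtain ⟨⟨h1, h2⟩, h3⟩ := hR
      obtain ⟨j, c, hbc, hpc, hc⟩ := NatP401.exists_pow_mul hpp h2
      have hnR : (nm R : ℝ) = (nm p : ℝ) ^ j * nm c := by
        rw [hbc, nm_mul, nm_pow]; push_cast; ring
      have hc1 : (1 : ℝ) ≤ nm c := by exact_mod_cast nm_pos.mpr hc.ne_zero
      have hpj : (0 : ℝ) < (nm p : ℝ) ^ j := by positivity
      rw [Finset.mem_biUnion]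
      refine ⟨j, ?_, ?_⟩
      · rw [Finset.mem_range, Nat.lt_succ_iff, Nat.le_floor_iff hX]
        have h4 : (j : ℝ) ≤ (nm p : ℝ) ^ j := by
          have h5 : (j : ℝ) < (2 : ℝ) ^ j := by exact_mod_cast Nat.lt_two_pow_self
          have h6 : (2 : ℝ) ^ j ≤ (nm p : ℝ) ^ j := pow_le_pow_left₀ (by norm_num) (by linarith) j
          linarith
        nlinarith
      · rw [Finset.mem_image]
        refine ⟨c, ?_, hbc.symm⟩
        rw [mem_ns (by positivity)]
        refine ⟨⟨?_, hc⟩, fun q hq hqc => ?_⟩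
        · rw [le_div_iff₀ hpj]; rw [hnR] at h1; linarith [mul_comm (nm c : ℝ) ((nm p : ℝ) ^ j)]
        · have h5 := h3 q hq (hbc ▸ hqc.mul_left _)
          rcases Finset.mem_insert.mp h5 with h6 | h6
          · exact absurd (h6 ▸ hqc) hpc
          · exact h6
    have hterm : ∀ n : ℕ, ((ns P (X / nm p ^ n)).card : ℝ) ≤
        (((1 - (4 : ℝ) ^ (-ε))⁻¹) ^ P.card * X ^ ε) * ((4 : ℝ) ^ (-ε)) ^ n := by
      intro n
      refine (ih hPP _ (by positivity)).trans ?_
      have hc0 : 0 ≤ ((1 - (4 : ℝ) ^ (-ε))⁻¹) ^ P.card :=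
        pow_nonneg (inv_nonneg.mpr (by linarith)) _
      rw [mul_assoc]
      refine mul_le_mul_of_nonneg_left ?_ hc0
      rw [Real.div_rpow hX (by positivity), div_eq_mul_inv]
      refine mul_le_mul_of_nonneg_left ?_ (by positivity)
      rw [← Real.rpow_neg (by positivity), ← Real.rpow_natCast, ← Real.rpow_natCast,
        ← Real.rpow_mul (by positivity), ← Real.rpow_mul (by norm_num)]
      have h7 : (4 : ℝ) ^ (-ε * (n : ℝ)) = ((4 : ℝ) ^ (ε * n))⁻¹ := by
        rw [← Real.rpow_neg (by norm_num)]; congr 1; ring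
      have h8 : (nm p : ℝ) ^ ((n : ℝ) * -ε) = ((nm p : ℝ) ^ (ε * n))⁻¹ := by
        rw [← Real.rpow_neg (by positivity)]; congr 1; ring
      rw [h7, h8]
      exact inv_anti₀ (by positivity) (Real.rpow_le_rpow (by norm_num) hp4 (by positivity))
    have hgeo : ∑ n ∈ Finset.range (⌊X⌋₊ + 1), ((4 : ℝ) ^ (-ε)) ^ n ≤ (1 - (4 : ℝ) ^ (-ε))⁻¹ := by
      rw [← tsum_geometric_of_lt_one hr0.le hr1]
      exact (summable_geometric_of_lt_one hr0.le hr1).sum_le_tsum _ (fun n _ => by positivity)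
    calc ((ns (insert p P) X).card : ℝ)
        ≤ (((Finset.range (⌊X⌋₊ + 1)).biUnion fun n =>
            (ns P (X / nm p ^ n)).image fun R => p ^ n * R).card : ℝ) := by
          exact_mod_cast Finset.card_le_card hsub
      _ ≤ ∑ n ∈ Finset.range (⌊X⌋₊ + 1), ((ns P (X / nm p ^ n)).card : ℝ) := by
          have h1 := (Finset.card_biUnion_le (s := Finset.range (⌊X⌋₊ + 1))
            (t := fun n => (ns P (X / nm p ^ n)).image fun R => p ^ n * R)).trans
            (Finset.sum_le_sum fun n _ => Finset.card_image_le)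
          exact_mod_cast h1
      _ ≤ ∑ n ∈ Finset.range (⌊X⌋₊ + 1),
            (((1 - (4 : ℝ) ^ (-ε))⁻¹) ^ P.card * X ^ ε) * ((4 : ℝ) ^ (-ε)) ^ n :=
          Finset.sum_le_sum fun n _ => hterm n
      _ = (((1 - (4 : ℝ) ^ (-ε))⁻¹) ^ P.card * X ^ ε) *
            ∑ n ∈ Finset.range (⌊X⌋₊ + 1), ((4 : ℝ) ^ (-ε)) ^ n := by rw [Finset.mul_sum]
      _ ≤ (((1 - (4 : ℝ) ^ (-ε))⁻¹) ^ P.card * X ^ ε) * (1 - (4 : ℝ) ^ (-ε))⁻¹ :=
          mul_le_mul_of_nonneg_left hgeo (mul_nonneg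
            (pow_nonneg (inv_nonneg.mpr (by linarith)) _) (by positivity))
      _ = ((1 - (4 : ℝ) ^ (-ε))⁻¹) ^ (insert p P).card * X ^ ε := by
          rw [Finset.card_insert_of_notMem hp, pow_succ]; ring

/-- `2^{ω(n)} ≤ τ(n)` -/
lemma two_pow_pp_le {n : Eis} (hn : n ≠ 0) : 2 ^ (pp n).card ≤ tau n := by
  classical
  rw [← Finset.card_powerset, tau]
  refine Finset.card_le_card_of_injOn (fun S => ∏ p ∈ S, p) ?_ ?_
  · intro S hS
    rw [Finset.mem_coe, Finset.mem_powerset] at hS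
    have hS' : PPSet S := (ppSet_pp n).subset hS
    rw [Finset.mem_coe, mem_dvs hn]
    exact ⟨hS'.isPrim_prod, hS'.prod_dvd.2 fun p hp => dvd_of_mem_pp (hS hp)⟩
  · intro S hS T hT h
    rw [Finset.mem_coe, Finset.mem_powerset] at hS hT
    have hS' : PPSet S := (ppSet_pp n).subset hS
    have hT' : PPSet T := (ppSet_pp n).subset hT
    have h1 : pp (∏ p ∈ S, p) = S := hS'.pp_prod
    have h2 : pp (∏ p ∈ T, p) = T := hT'.pp_prod
    simp only at h
    rw [← h1, h, h2]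

/-- **counting** -/
theorem lCnt : LCnt := by
  classical
  intro ε hε
  have hε2 : 0 < ε / 2 := by positivity
  have hr0 : (0 : ℝ) < (4 : ℝ) ^ (-(ε / 2)) := Real.rpow_pos_of_pos (by norm_num) _
  have hr1 : (4 : ℝ) ^ (-(ε / 2)) < 1 :=
    Real.rpow_lt_one_of_one_lt_of_neg (by norm_num) (by linarith)
  set c : ℝ := (1 - (4 : ℝ) ^ (-(ε / 2)))⁻¹ with hc
  have hc0 : 0 ≤ c := inv_nonneg.mpr (by linarith)
  obtain ⟨k, hk⟩ := pow_unbounded_of_one_lt c (show (1 : ℝ) < 2 by norm_num)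
  obtain ⟨C, hC1, hC⟩ := tau_le_rpow (show 0 < ε / (2 * (k + 1)) by positivity)
  refine ⟨C ^ k, by positivity, fun q X hX hq hqX => ?_⟩
  have hX0 : 0 < X := by linarith
  have hq1 : (1 : ℝ) ≤ nm q := by exact_mod_cast nm_pos.mpr hq
  have h1 : (((primBall ⌊X⌋₊).filter fun R => PrI q R).card : ℝ) ≤ (ns (pp q) X).card := by
    have : (primBall ⌊X⌋₊).filter (fun R => PrI q R) ⊆ ns (pp q) X := by
      intro R hR
      rw [Finset.mem_filter, mem_primBall, Nat.le_floor_iff hX0.le] at hR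
      rw [mem_ns hX0.le]
      exact ⟨hR.1, fun p hp hpR => (mem_pp hq).mpr ⟨hp, hR.2.2 p hp.prime hpR⟩⟩
    exact_mod_cast Finset.card_le_card this
  have h2 := card_ns hε2 (pp q) (ppSet_pp q) X hX0.le
  have h3 : c ^ (pp q).card ≤ C ^ k * X ^ (ε / 2) := by
    calc c ^ (pp q).card ≤ ((2 : ℝ) ^ k) ^ (pp q).card := pow_le_pow_left₀ hc0 hk.le _
      _ = ((2 : ℝ) ^ (pp q).card) ^ k := by rw [← pow_mul, ← pow_mul, mul_comm]
      _ ≤ ((tau q : ℕ) : ℝ) ^ k :=
          pow_le_pow_left₀ (by positivity) (by exact_mod_cast two_pow_pp_le hq) _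
      _ ≤ (C * (nm q : ℝ) ^ (ε / (2 * (k + 1)))) ^ k :=
          pow_le_pow_left₀ (by positivity) (hC q hq) _
      _ = C ^ k * (nm q : ℝ) ^ (ε / (2 * (k + 1)) * k) := by
          rw [mul_pow, Real.rpow_mul (by positivity), Real.rpow_natCast]
      _ ≤ C ^ k * X ^ (ε / 2) := by
          refine mul_le_mul_of_nonneg_left ?_ (by positivity)
          have h4 : ε / (2 * ((k : ℝ) + 1)) * k ≤ ε / 2 := by
            rw [div_mul_eq_mul_div, div_le_div_iff₀ (by positivity) (by norm_num)]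
            nlinarith
          calc (nm q : ℝ) ^ (ε / (2 * ((k : ℝ) + 1)) * k) ≤ (nm q : ℝ) ^ (ε / 2) :=
                Real.rpow_le_rpow_of_exponent_le hq1 h4
            _ ≤ X ^ (ε / 2) := Real.rpow_le_rpow (by positivity) hqX hε2.le
  calc (((primBall ⌊X⌋₊).filter fun R => PrI q R).card : ℝ) ≤ (ns (pp q) X).card := h1
    _ ≤ c ^ (pp q).card * X ^ (ε / 2) := h2
    _ ≤ C ^ k * X ^ (ε / 2) * X ^ (ε / 2) := mul_le_mul_of_nonneg_right h3 (by positivity)
    _ = C ^ k * X ^ ε := by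
        rw [mul_assoc, ← Real.rpow_add hX0]; congr 2; ring

end Crest.Agent.R017.E4401
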