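import Crest.Agent.R017.E4m_164
import Crest.Agent.R017.E4C_401

/-!
# Row 17, R8 / E5, consumer of E4 : counting (helper164)

* `sum_pf` : `Σ_{n powerful} N(n)^{-1/2} ≤ C X^ε`
* `sum_PT` : the same over the powerful tuples
* `card_Gd_le`, `card_MC_le`, `sum_S_inv`
* `sum_mid` : the sum over the data of `mid_E4L`
-/

set_option autoImplicit false

noncomputable section

open Finset

namespace Crest.Agent.R017.E4U164

open Crest.Agent.R012 Crest.Agent.R012.Eis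
open Crest.Agent.R012.Mob705 hiding pb mem_pb
open Crest.Agent.R012.Div277
open Crest.Agent.R012.LS2 (S mem_S)
open Crest.Agent.R017.Sx545 (Sm)
open Crest.Agent.R017.E4352 (PrI LCnt)
open Crest.Agent.R017.E5k54 (PT)
open Crest.Agent.R017.E5P571 (Gd mem_Gd)
open Crest.Agent.R017.E4D164
open Crest.Agent.R017.Asm986 (Pf)

/-! ### powerful numbers -/

lemma one_le_nm {a : Eis} (ha : IsPrim a) : (1 : ℝ) ≤ nm a := by
  exact_mod_cast nm_pos.2 ha.ne_zero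

lemma sum_inv_le' (X : ℕ) : ∑ x ∈ primBall X, (nm x : ℝ)⁻¹ ≤ 100 * (1 + Real.log X) := by
  have := Div277.sum_inv_primBall_le X
  simpa [one_div] using this

lemma dvd_of_sqf' {N : Eis} {m : Eis} : Squarefree m → (∀ p : Eis, Prime p → p ∣ m → p ∣ N) →
    m ∣ N := by
  refine UniqueFactorizationMonoid.induction_on_prime
    (P := fun m => Squarefree m → (∀ p : Eis, Prime p → p ∣ m → p ∣ N) → m ∣ N) m ?_ ?_ ?_
  · intro h
    exact absurd h not_squarefree_zero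
  · intro u hu _ _
    exact hu.dvd
  · intro a p ha hp ih hsf hdv
    have h1 : Squarefree a := hsf.squarefree_of_dvd (dvd_mul_left _ _)
    have h2 : ¬ p ∣ a := by
      rintro ⟨b, rfl⟩
      exact hp.not_isUnit (hsf p ⟨b, by ring⟩)
    have h3 : IsCoprime p a := hp.irreducible.coprime_iff_not_dvd.mpr h2
    exact h3.mul_dvd (hdv p hp (dvd_mul_right _ _))
      (ih h1 fun q hq hqa => hdv q hq (hqa.mul_left _))

/-- a powerful `n` is `r ν² e³` with `r ∣ e` -/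
lemma pf_dec {n : Eis} (hn : IsPrim n) (hp : Pf n) : ∃ r ν e : Eis, IsPrim r ∧ IsPrim ν ∧
    IsPrim e ∧ n = r * ν ^ 2 * e ^ 3 ∧ r ∣ e := by
  obtain ⟨h1, h2, h3, h4, h5, h6, h7⟩ := sd_spec hn
  refine ⟨(sd n).1, (sd n).2.1, (sd n).2.2, h1, h3, h6, h7, ?_⟩
  refine dvd_of_sqf' h2 fun p hpp hpd => ?_
  by_contra hpe
  have hd : p ∣ n := by
    rw [h7]; exact (hpd.mul_right _).mul_right _
  have hd2 := hp p hpp hd
  have hc : IsCoprime p ((sd n).2.1) := (h5.of_isCoprime_of_dvd_left hpd)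
  have hce : IsCoprime p ((sd n).2.2) := hpp.irreducible.coprime_iff_not_dvd.mpr hpe
  have hd3 : p ^ 2 ∣ (sd n).1 := by
    rw [h7] at hd2
    have e1 : IsCoprime (p ^ 2) ((sd n).2.2 ^ 3) := hce.pow
    have e2 : IsCoprime (p ^ 2) ((sd n).2.1 ^ 2) := hc.pow
    exact e2.dvd_of_dvd_mul_right (e1.dvd_of_dvd_mul_right hd2)
  rw [pow_two] at hd3
  exact hpp.not_isUnit (h2 p hd3)

theorem sum_pf {ε : ℝ} (hε : 0 < ε) : ∃ C : ℝ, 0 ≤ C ∧ ∀ (X : ℝ), 1 ≤ X → ∀ T : Finset Eis,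
    (∀ n ∈ T, IsPrim n ∧ Pf n ∧ (nm n : ℝ) ≤ X) →
      ∑ n ∈ T, (nm n : ℝ) ^ (-(1 / 2) : ℝ) ≤ C * X ^ ε := by
  classical
  obtain ⟨C, hC, hτ⟩ := tau_le_rpow (half_pos hε)
  refine ⟨C * (100 * (1 + ((2 : ℕ) : ℝ) / (ε / 2))) ^ 2, by positivity, fun X hX T hT => ?_⟩
  have hX0 : 0 ≤ X := by linarith
  choose! r ν e hr hν he hdec hre using fun n (hn : n ∈ T) => pf_dec (hT n hn).1 (hT n hn).2.1
  have hinj : Set.InjOn (fun n => (ν n, e n, r n)) (T : Set Eis) := by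
    intro a ha b hb hab
    simp only [Prod.mk.injEq] at hab
    rw [hdec a ha, hdec b hb, hab.1, hab.2.1, hab.2.2]
  have hb : ∀ n ∈ T, (nm n : ℝ) ^ (-(1 / 2) : ℝ) ≤ (nm (ν n) : ℝ)⁻¹ * (nm (e n) : ℝ)⁻¹ := by
    intro n hn
    have h1 := one_le_nm (hν n hn)
    have h2 := one_le_nm (he n hn)
    have h3 := one_le_nm (hr n hn)
    have e1 : (nm n : ℝ) = nm (r n) * (nm (ν n) : ℝ) ^ 2 * (nm (e n) : ℝ) ^ 3 := by
      conv_lhs => rw [hdec n hn]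
      simp only [nm_mul, nm_pow]
      push_cast
      ring
    have e2 : ((nm (ν n) : ℝ) * nm (e n)) ^ 2 ≤ nm n := by
      rw [e1]
      have : (nm (e n) : ℝ) ^ 2 ≤ (nm (e n) : ℝ) ^ 3 := pow_le_pow_right₀ h2 (by norm_num)
      calc ((nm (ν n) : ℝ) * nm (e n)) ^ 2 = 1 * (nm (ν n) : ℝ) ^ 2 * (nm (e n) : ℝ) ^ 2 := by ring
        _ ≤ _ := by gcongr
    have h0 : (0 : ℝ) < nm (ν n) * nm (e n) := by positivity
    rw [← mul_inv, Real.rpow_neg (Nat.cast_nonneg _), ← Real.sqrt_eq_rpow]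
    exact inv_anti₀ h0 (Real.le_sqrt_of_sq_le e2)
  have hle : ∀ n ∈ T, (nm (ν n) : ℝ) ≤ X ∧ (nm (e n) : ℝ) ≤ X := by
    intro n hn
    have hn0 := (hT n hn).1.ne_zero
    constructor
    · refine le_trans ?_ (hT n hn).2.2
      exact_mod_cast nm_le_of_dvd hn0 (by
        conv_rhs => rw [hdec n hn]
        exact ((dvd_pow_self _ (by norm_num)).mul_left _).mul_right _)
    · refine le_trans ?_ (hT n hn).2.2
      exact_mod_cast nm_le_of_dvd hn0 (by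
        conv_rhs => rw [hdec n hn]
        exact (dvd_pow_self _ (by norm_num)).mul_left _)
  have hlog : 0 ≤ Real.log (⌊X⌋₊ : ℝ) := Real.log_natCast_nonneg _
  have hlogX : Real.log (⌊X⌋₊ : ℝ) ≤ Real.log X := by
    have : (1 : ℝ) ≤ ⌊X⌋₊ := by exact_mod_cast Nat.le_floor (by exact_mod_cast hX)
    exact Real.log_le_log (by linarith) (Nat.floor_le hX0)
  calc ∑ n ∈ T, (nm n : ℝ) ^ (-(1 / 2) : ℝ)
      ≤ ∑ n ∈ T, (nm (ν n) : ℝ)⁻¹ * (nm (e n) : ℝ)⁻¹ := sum_le_sum hb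
    _ = ∑ x ∈ T.image (fun n => (ν n, e n, r n)), (nm x.1 : ℝ)⁻¹ * (nm x.2.1 : ℝ)⁻¹ := by
        rw [sum_image hinj]
    _ ≤ ∑ x ∈ primBall ⌊X⌋₊ ×ˢ (primBall ⌊X⌋₊).sigma (fun e => dvs e) |>.image
          (fun y => (y.1, y.2.1, y.2.2)), (nm x.1 : ℝ)⁻¹ * (nm x.2.1 : ℝ)⁻¹ := by
        refine sum_le_sum_of_subset_of_nonneg ?_ fun _ _ _ => by positivity
        intro x hx
        obtain ⟨n, hn, rfl⟩ := mem_image.mp hx
        refine mem_image.mpr ⟨(ν n, ⟨e n, r n⟩), ?_, rfl⟩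
        rw [mem_product, mem_sigma]
        refine ⟨mem_primBall.mpr ⟨Nat.le_floor (hle n hn).1, hν n hn⟩,
          mem_primBall.mpr ⟨Nat.le_floor (hle n hn).2, he n hn⟩, ?_⟩
        exact (mem_dvs (he n hn).ne_zero).mpr ⟨hr n hn, hre n hn⟩
    _ = ∑ y ∈ primBall ⌊X⌋₊ ×ˢ (primBall ⌊X⌋₊).sigma (fun e => dvs e),
          (nm y.1 : ℝ)⁻¹ * (nm y.2.1 : ℝ)⁻¹ := by
        refine sum_image ?_
        rintro ⟨a, b, c⟩ - ⟨a', b', c'⟩ - h
        simp only [Prod.mk.injEq] at h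
        obtain ⟨rfl, rfl, rfl⟩ := h
        rfl
    _ = (∑ a ∈ primBall ⌊X⌋₊, (nm a : ℝ)⁻¹) *
          ∑ b ∈ primBall ⌊X⌋₊, (nm b : ℝ)⁻¹ * tau b := by
        rw [sum_product, sum_mul]
        refine sum_congr rfl fun a _ => ?_
        rw [sum_sigma, mul_sum]
        refine sum_congr rfl fun b _ => ?_
        simp only [sum_const, nsmul_eq_mul]
        unfold tau
        ring
    _ ≤ (100 * (1 + Real.log X)) * (100 * (1 + Real.log X) * (C * X ^ (ε / 2))) := by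
        have h1 : ∑ a ∈ primBall ⌊X⌋₊, (nm a : ℝ)⁻¹ ≤ 100 * (1 + Real.log X) :=
          (sum_inv_le' _).trans (by linarith)
        have h2 : ∑ b ∈ primBall ⌊X⌋₊, (nm b : ℝ)⁻¹ * tau b ≤
            100 * (1 + Real.log X) * (C * X ^ (ε / 2)) := by
          calc _ ≤ ∑ b ∈ primBall ⌊X⌋₊, (nm b : ℝ)⁻¹ * (C * X ^ (ε / 2)) := by
                refine sum_le_sum fun b hb => ?_
                rw [mem_primBall] at hb
                refine mul_le_mul_of_nonneg_left ((hτ b hb.2.ne_zero).trans ?_) (by positivity)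
                have : (nm b : ℝ) ≤ X := (Nat.le_floor_iff hX0).mp hb.1
                gcongr
            _ = (∑ b ∈ primBall ⌊X⌋₊, (nm b : ℝ)⁻¹) * (C * X ^ (ε / 2)) := by rw [sum_mul]
            _ ≤ _ := by
                refine mul_le_mul_of_nonneg_right h1 (by positivity)
        have h3 : 0 ≤ Real.log X := Real.log_nonneg hX
        gcongr
    _ = C * X ^ (ε / 2) * (100 * (1 + Real.log X)) ^ 2 := by ring
    _ ≤ C * X ^ (ε / 2) * ((100 * (1 + ((2 : ℕ) : ℝ) / (ε / 2))) ^ 2 * X ^ (ε / 2)) := by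
        gcongr
        exact poly_log_le 2 hX (half_pos hε)
    _ = C * (100 * (1 + ((2 : ℕ) : ℝ) / (ε / 2))) ^ 2 * X ^ ε := by
        have : X ^ ε = X ^ (ε / 2) * X ^ (ε / 2) := by
          rw [← Real.rpow_add (by linarith)]; congr 1; ring
        rw [this]; ring

/-- **powerful tuples** -/
theorem sum_PT (ι : Type*) [Fintype ι] {ε : ℝ} (hε : 0 < ε) : ∃ C : ℝ, 0 ≤ C ∧ ∀ (X : ℝ) (Y : ℕ),
    1 ≤ X → (Y : ℝ) ^ (Fintype.card ι) ≤ X →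
      ∑ β ∈ PT ι Y, (nm (∏ i, β i) : ℝ) ^ (-(1 / 2) : ℝ) ≤ C * X ^ ε := by
  classical
  set k := Fintype.card ι with hk
  have hδ : 0 < ε / (2 * (k + 1)) := by positivity
  obtain ⟨C₁, hC₁, hτ⟩ := tau_le_rpow hδ
  obtain ⟨C₂, hC₂, H⟩ := sum_pf (half_pos hε)
  refine ⟨C₁ ^ k * C₂, by positivity, fun X Y hX hY => ?_⟩
  have hX0 : 0 ≤ X := by linarith
  have hPT : ∀ β ∈ PT ι Y, (∀ i, IsPrim (β i)) ∧ Pf (∏ i, β i) ∧ (nm (∏ i, β i) : ℝ) ≤ X := by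
    intro β hβ
    unfold PT at hβ
    rw [mem_filter, Fintype.mem_piFinset] at hβ
    refine ⟨fun i => (mem_primBall.mp (hβ.1 i)).2, hβ.2, le_trans ?_ hY⟩
    have h1 : nm (∏ i, β i) = ∏ i, nm (β i) := map_prod nmHom β univ
    rw [h1]
    push_cast
    calc ∏ i, (nm (β i) : ℝ) ≤ ∏ _i : ι, (Y : ℝ) := by
          refine prod_le_prod (fun _ _ => Nat.cast_nonneg _) fun i _ => ?_
          exact_mod_cast (mem_primBall.mp (hβ.1 i)).1
      _ = (Y : ℝ) ^ k := by rw [prod_const, card_univ]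
  set T : Finset Eis := (PT ι Y).image (fun β => ∏ i, β i) with hT
  have hTp : ∀ n ∈ T, IsPrim n ∧ Pf n ∧ (nm n : ℝ) ≤ X := by
    intro n hn
    obtain ⟨β, hβ, rfl⟩ := mem_image.mp hn
    exact ⟨prim_prodI _ _ (hPT β hβ).1, (hPT β hβ).2⟩
  have hfib : ∀ n ∈ T, (((PT ι Y).filter (fun β => ∏ i, β i = n)).card : ℝ) ≤
      C₁ ^ k * X ^ (ε / 2) := by
    intro n hn
    have hn0 := (hTp n hn).1.ne_zero
    have h1 : (PT ι Y).filter (fun β => ∏ i, β i = n) ⊆ Fintype.piFinset fun _ : ι => dvs n := by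
      intro β hβ
      rw [mem_filter] at hβ
      rw [Fintype.mem_piFinset]
      intro i
      rw [mem_dvs hn0]
      exact ⟨(hPT β hβ.1).1 i, hβ.2 ▸ dvd_prod_of_mem _ (mem_univ i)⟩
    have h2 : ((Fintype.piFinset fun _ : ι => dvs n).card : ℝ) = (tau n : ℝ) ^ k := by
      rw [Fintype.card_piFinset, prod_const, card_univ]
      push_cast
      rfl
    have h3 : (tau n : ℝ) ≤ C₁ * X ^ (ε / (2 * (k + 1))) := by
      refine (hτ n hn0).trans ?_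
      have := (hTp n hn).2.2
      gcongr
    calc (((PT ι Y).filter (fun β => ∏ i, β i = n)).card : ℝ)
        ≤ ((Fintype.piFinset fun _ : ι => dvs n).card : ℝ) := by exact_mod_cast card_le_card h1
      _ = (tau n : ℝ) ^ k := h2
      _ ≤ (C₁ * X ^ (ε / (2 * (k + 1)))) ^ k := by gcongr
      _ = C₁ ^ k * X ^ (ε / (2 * (k + 1)) * k) := by
          rw [mul_pow, ← Real.rpow_natCast (X ^ _), ← Real.rpow_mul hX0]
      _ ≤ C₁ ^ k * X ^ (ε / 2) := by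
          have : ε / (2 * (k + 1)) * k ≤ ε / 2 := by
            rw [div_mul_eq_mul_div, div_le_div_iff₀ (by positivity) (by norm_num)]
            nlinarith
          gcongr
  calc ∑ β ∈ PT ι Y, (nm (∏ i, β i) : ℝ) ^ (-(1 / 2) : ℝ)
      = ∑ n ∈ T, ∑ β ∈ (PT ι Y).filter (fun β => ∏ i, β i = n),
          (nm (∏ i, β i) : ℝ) ^ (-(1 / 2) : ℝ) := by
        rw [sum_fiberwise_of_maps_to]
        exact fun β hβ => mem_image_of_mem _ hβ
    _ ≤ ∑ n ∈ T, C₁ ^ k * X ^ (ε / 2) * (nm n : ℝ) ^ (-(1 / 2) : ℝ) := by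
        refine sum_le_sum fun n hn => ?_
        rw [sum_congr rfl fun β hβ => by rw [(mem_filter.mp hβ).2], sum_const, nsmul_eq_mul]
        exact mul_le_mul_of_nonneg_right (hfib n hn) (by positivity)
    _ = C₁ ^ k * X ^ (ε / 2) * ∑ n ∈ T, (nm n : ℝ) ^ (-(1 / 2) : ℝ) := by rw [mul_sum]
    _ ≤ C₁ ^ k * X ^ (ε / 2) * (C₂ * X ^ (ε / 2)) := by
        gcongr
        exact H X hX T hTp
    _ = C₁ ^ k * C₂ * X ^ ε := by
        have : X ^ ε = X ^ (ε / 2) * X ^ (ε / 2) := by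
          rw [← Real.rpow_add (by linarith)]; congr 1; ring
        rw [this]; ring

/-! ### the other sums -/

lemma card_Gd_le {ε : ℝ} (hε : 0 < ε) : ∃ C : ℝ, 0 ≤ C ∧ ∀ (X : ℝ) (n d : Eis), 1 ≤ X → d ≠ 0 →
    (nm d : ℝ) ≤ X → ((Gd n d).card : ℝ) ≤ C * X ^ ε := by
  classical
  obtain ⟨C, hC, hτ⟩ := tau_le_rpow hε
  refine ⟨C, by linarith, fun X n d hX hd hdX => ?_⟩
  have h1 : (Gd n d).card ≤ tau d := by
    unfold Gd tau
    exact card_filter_le _ _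
  have h2 : ((Gd n d).card : ℝ) ≤ tau d := by exact_mod_cast h1
  refine h2.trans ((hτ d hd).trans ?_)
  gcongr

lemma card_MC_le {ε : ℝ} (hε : 0 < ε) : ∃ C : ℝ, 0 ≤ C ∧ ∀ (X : ℝ) (M : Eis) (N : ℕ), 1 ≤ X →
    M ≠ 0 → (nm M : ℝ) ≤ X → (N : ℝ) ≤ X → ((MC M N).card : ℝ) ≤ C * X ^ ε := by
  classical
  obtain ⟨C, hC, H⟩ := E4401.lCnt ε hε
  refine ⟨C, hC, fun X M N hX hM hMX hN => ?_⟩
  refine le_trans ?_ (H M X hX hM hMX)
  have : MC M N ⊆ (primBall ⌊X⌋₊).filter fun R => PrI M R := by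
    intro g hg
    rw [mem_MC] at hg
    rw [mem_filter, mem_primBall]
    exact ⟨⟨hg.1.trans (Nat.le_floor hN), hg.2.1⟩, hg.2⟩
  have h2 := card_le_card this
  exact_mod_cast h2

lemma sum_S_inv {ε : ℝ} (hε : 0 < ε) : ∃ C : ℝ, 0 ≤ C ∧ ∀ (X E0 : ℝ), 1 ≤ X → E0 ≤ X →
    ∑ e ∈ S E0, (nm e : ℝ)⁻¹ ≤ C * X ^ ε := by
  classical
  refine ⟨100 * (1 + 1 / ε), by positivity, fun X E0 hX hE => ?_⟩
  have h1 : ∑ e ∈ S E0, (nm e : ℝ)⁻¹ ≤ ∑ e ∈ primBall ⌊X⌋₊, (nm e : ℝ)⁻¹ := by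
    refine sum_le_sum_of_subset_of_nonneg ?_ fun _ _ _ => by positivity
    intro e he
    unfold LS2.S at he
    rw [mem_filter, mem_primBall] at he
    rw [mem_primBall]
    exact ⟨he.1.1.trans (Nat.floor_le_floor hE), he.1.2⟩
  refine h1.trans ((sum_inv_le' _).trans ?_)
  have hlogX : Real.log (⌊X⌋₊ : ℝ) ≤ Real.log X := by
    have : (1 : ℝ) ≤ ⌊X⌋₊ := by exact_mod_cast Nat.le_floor (by exact_mod_cast hX)
    exact Real.log_le_log (by linarith) (Nat.floor_le (by linarith))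
  have h2 := poly_log_le 1 hX hε
  simp only [pow_one, Nat.cast_one] at h2
  linarith

/-! ### the sum over the data -/

/-- **the sum over the data of `mid_E4L`** -/
theorem sum_mid (ι : Type*) [Fintype ι] {ε : ℝ} (hε : 0 < ε) : ∃ C : ℝ, 0 ≤ C ∧
    ∀ (X T cst E0 : ℝ) (Y N₁ N₂ : ℕ) (n M d e : Eis) (𝒯 : Finset (ι → Eis)) (F : Eis → (ι → Eis) → Eis → Eis → Eis →
      Eis → Eis → ℝ), 𝒯 ⊆ PT ι Y → 1 ≤ X → 0 ≤ T → 0 ≤ cst → (Y : ℝ) ^ (Fintype.card ι) ≤ X → E0 ≤ X →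
      (N₁ : ℝ) ≤ X → (N₂ : ℝ) ≤ X → M ≠ 0 → (nm M : ℝ) ≤ X → d ≠ 0 → (nm d : ℝ) ≤ X → IsPrim e →
      (nm e : ℝ) ≤ X →
      (∀ g ∈ Gd n d, ∀ β ∈ 𝒯, ∀ e₀ ∈ S E0, ∀ t ∈ Gd n (tS (e * ∏ i, β i)), ∀ c₀ ∈ C4,
        ∀ g' ∈ MC M N₁, ∀ z ∈ MC M N₂,
          (nm (∏ i, β i) : ℝ) ^ (1 / 2 : ℝ) * (nm e₀ : ℝ) * F g β e₀ t c₀ g' z ≤ T) →
      ∑ g ∈ Gd n d, cst * ∑ β ∈ 𝒯, ∑ e₀ ∈ S E0, ∑ t ∈ Gd n (tS (e * ∏ i, β i)),
        ∑ c₀ ∈ C4, ∑ g' ∈ MC M N₁, ∑ z ∈ MC M N₂, F g β e₀ t c₀ g' z ≤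
      C * X ^ ε * (cst * T) := by
  classical
  have hδ : 0 < ε / 7 := by positivity
  obtain ⟨Cp, hCp, Hp⟩ := sum_PT ι hδ
  obtain ⟨Cg, hCg, Hg⟩ := card_Gd_le hδ
  obtain ⟨Cm, hCm, Hm⟩ := card_MC_le hδ
  obtain ⟨Cs, hCs, Hs⟩ := sum_S_inv hδ
  refine ⟨Cg * (Cp * (Cs * (Cg * (4 * (Cm * Cm))))), by positivity, ?_⟩
  intro X T cst E0 Y N₁ N₂ n M d e 𝒯 F hTT hX hT hcst hY hE0 hN₁ hN₂ hM hMX hd hdX he heX H
  have hX0 : 0 < X := by linarith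
  set a : ℝ := X ^ (ε / 7) with ha
  have ha1 : 1 ≤ a := Real.one_le_rpow hX hδ.le
  have hPT : ∀ β ∈ 𝒯, IsPrim (∏ i, β i) ∧ (nm (∏ i, β i) : ℝ) ≤ X := by
    intro β hβ
    replace hβ := hTT hβ
    unfold PT at hβ
    rw [mem_filter, Fintype.mem_piFinset] at hβ
    refine ⟨prim_prodI _ _ fun i => (mem_primBall.mp (hβ.1 i)).2, le_trans ?_ hY⟩
    have h1 : nm (∏ i, β i) = ∏ i, nm (β i) := map_prod nmHom β univ
    rw [h1]
    push_cast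
    calc ∏ i, (nm (β i) : ℝ) ≤ ∏ _i : ι, (Y : ℝ) := by
          refine prod_le_prod (fun _ _ => Nat.cast_nonneg _) fun i _ => ?_
          exact_mod_cast (mem_primBall.mp (hβ.1 i)).1
      _ = (Y : ℝ) ^ (Fintype.card ι) := by rw [prod_const, card_univ]
  have hC4 : (C4.card : ℝ) ≤ 4 := by
    have : C4.card ≤ 4 := by
      unfold C4
      exact Finset.card_le_four
    exact_mod_cast this
  have hT4 : ∀ g ∈ Gd n d, ∀ β ∈ 𝒯, ∀ e₀ ∈ S E0, ∀ t ∈ Gd n (tS (e * ∏ i, β i)),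
      ∑ c₀ ∈ C4, ∑ g' ∈ MC M N₁, ∑ z ∈ MC M N₂, F g β e₀ t c₀ g' z ≤
      (4 * (Cm * Cm)) * a ^ 2 * ((nm (∏ i, β i) : ℝ) ^ (-(1 / 2) : ℝ) * (nm e₀ : ℝ)⁻¹ * T) := by
    intro g hg β hβ e₀ he₀ t ht
    have hb := one_le_nm (hPT β hβ).1
    have he₀p : IsPrim e₀ := (mem_primBall.mp (Finset.mem_filter.mp he₀).1).2
    have he1 := one_le_nm he₀p
    set Q : ℝ := (nm (∏ i, β i) : ℝ) ^ (-(1 / 2) : ℝ) * (nm e₀ : ℝ)⁻¹ * T with hQ
    have hQ0 : 0 ≤ Q := by positivity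
    have h1 : ∀ c₀ ∈ C4, ∀ g' ∈ MC M N₁, ∀ z ∈ MC M N₂, F g β e₀ t c₀ g' z ≤ Q := by
      intro c₀ hc₀ g' hg' z hz
      have h2 := H g hg β hβ e₀ he₀ t ht c₀ hc₀ g' hg' z hz
      have hb0 : (0 : ℝ) < nm (∏ i, β i) := by linarith
      have h3 : 0 < (nm (∏ i, β i) : ℝ) ^ (1 / 2 : ℝ) * (nm e₀ : ℝ) := by
        have := Real.rpow_pos_of_pos hb0 (1 / 2 : ℝ)
        positivity
      rw [← le_div_iff₀' h3] at h2
      refine h2.trans (le_of_eq ?_)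
      rw [hQ, Real.rpow_neg hb0.le]
      field_simp
    have hm1 := Hm X M N₁ hX hM hMX hN₁
    have hm2 := Hm X M N₂ hX hM hMX hN₂
    calc ∑ c₀ ∈ C4, ∑ g' ∈ MC M N₁, ∑ z ∈ MC M N₂, F g β e₀ t c₀ g' z
        ≤ ∑ c₀ ∈ C4, ∑ g' ∈ MC M N₁, ∑ z ∈ MC M N₂, Q := by
          refine sum_le_sum fun c₀ hc => sum_le_sum fun g' hg' => sum_le_sum fun z hz => ?_
          exact h1 c₀ hc g' hg' z hz
      _ = C4.card * ((MC M N₁).card * ((MC M N₂).card * Q)) := by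
          simp only [sum_const, nsmul_eq_mul]
      _ ≤ 4 * ((Cm * a) * ((Cm * a) * Q)) := by gcongr
      _ = _ := by ring
  calc ∑ g ∈ Gd n d, cst * ∑ β ∈ 𝒯, ∑ e₀ ∈ S E0, ∑ t ∈ Gd n (tS (e * ∏ i, β i)),
        ∑ c₀ ∈ C4, ∑ g' ∈ MC M N₁, ∑ z ∈ MC M N₂, F g β e₀ t c₀ g' z
      ≤ ∑ g ∈ Gd n d, cst * ∑ β ∈ 𝒯, ∑ e₀ ∈ S E0, ∑ t ∈ Gd n (tS (e * ∏ i, β i)),
          (4 * (Cm * Cm)) * a ^ 2 * ((nm (∏ i, β i) : ℝ) ^ (-(1 / 2) : ℝ) *
            (nm e₀ : ℝ)⁻¹ * T) := by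
        refine sum_le_sum fun g hg => mul_le_mul_of_nonneg_left ?_ hcst
        exact sum_le_sum fun β hβ => sum_le_sum fun e₀ he₀ => sum_le_sum fun t ht =>
          hT4 g hg β hβ e₀ he₀ t ht
    _ ≤ ∑ g ∈ Gd n d, cst * ∑ β ∈ 𝒯, ∑ e₀ ∈ S E0, (Cg * (4 * (Cm * Cm))) * a ^ 4 *
          ((nm (∏ i, β i) : ℝ) ^ (-(1 / 2) : ℝ) * (nm e₀ : ℝ)⁻¹ * T) := by
        refine sum_le_sum fun g hg => mul_le_mul_of_nonneg_left ?_ hcst
        refine sum_le_sum fun β hβ => sum_le_sum fun e₀ he₀ => ?_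
        have hE := he.mul (hPT β hβ).1
        have h1 : (nm (tS (e * ∏ i, β i)) : ℝ) ≤ X ^ 2 := by
          have h2 : tS (e * ∏ i, β i) ∣ e * ∏ i, β i :=
            (dvd_pow_self _ (by norm_num)).trans (tS_dvd hE)
          have h3 := nm_le_of_dvd hE.ne_zero h2
          have h4 : (nm (tS (e * ∏ i, β i)) : ℝ) ≤ nm e * nm (∏ i, β i) := by
            rw [nm_mul] at h3
            exact_mod_cast h3
          refine h4.trans ?_
          rw [pow_two]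
          have := (hPT β hβ).2
          gcongr
        have h2 := Hg (X ^ 2) n _ (one_le_pow₀ hX) (tS_prim hE).ne_zero h1
        have h3 : (X ^ 2) ^ (ε / 7) = a ^ 2 := by
          rw [ha, ← Real.rpow_natCast, ← Real.rpow_natCast, ← Real.rpow_mul hX0.le,
            ← Real.rpow_mul hX0.le]
          congr 1; ring
        rw [h3] at h2
        rw [sum_const, nsmul_eq_mul]
        have h5 : 0 ≤ (4 * (Cm * Cm)) * a ^ 2 * ((nm (∏ i, β i) : ℝ) ^ (-(1 / 2) : ℝ) *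
            (nm e₀ : ℝ)⁻¹ * T) := by positivity
        refine (mul_le_mul_of_nonneg_right h2 h5).trans (le_of_eq ?_)
        ring
    _ = ∑ g ∈ Gd n d, cst * ((Cg * (4 * (Cm * Cm))) * a ^ 4 * T *
          ((∑ β ∈ 𝒯, (nm (∏ i, β i) : ℝ) ^ (-(1 / 2) : ℝ)) *
            ∑ e₀ ∈ S E0, (nm e₀ : ℝ)⁻¹)) := by
        refine sum_congr rfl fun g _ => ?_
        congr 1
        rw [sum_mul_sum, mul_sum]
        refine sum_congr rfl fun β _ => ?_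
        rw [mul_sum]
        refine sum_congr rfl fun e₀ _ => ?_
        ring
    _ ≤ ∑ g ∈ Gd n d, cst * ((Cg * (4 * (Cm * Cm))) * a ^ 4 * T * ((Cp * a) * (Cs * a))) := by
        refine sum_le_sum fun g _ => mul_le_mul_of_nonneg_left ?_ hcst
        have h1 : ∑ β ∈ 𝒯, (nm (∏ i, β i) : ℝ) ^ (-(1 / 2) : ℝ) ≤ Cp * X ^ (ε / 7) :=
          (sum_le_sum_of_subset_of_nonneg hTT fun _ _ _ => by positivity).trans (Hp X Y hX hY)
        have h2 := Hs X E0 hX hE0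
        have h3 : (0 : ℝ) ≤ ∑ e₀ ∈ S E0, (nm e₀ : ℝ)⁻¹ := sum_nonneg fun _ _ => by positivity
        gcongr
    _ = (Gd n d).card * (cst * ((Cg * (4 * (Cm * Cm))) * a ^ 4 * T * ((Cp * a) * (Cs * a)))) := by
        rw [sum_const, nsmul_eq_mul]
    _ ≤ (Cg * a) * (cst * ((Cg * (4 * (Cm * Cm))) * a ^ 4 * T * ((Cp * a) * (Cs * a)))) := by
        gcongr
        exact Hg X n d hX hd hdX
    _ = Cg * (Cp * (Cs * (Cg * (4 * (Cm * Cm))))) * a ^ 7 * (cst * T) := by ring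
    _ = _ := by
        congr 2
        rw [ha, ← Real.rpow_natCast, ← Real.rpow_mul hX0.le]
        congr 1
        push_cast
        ring

end Crest.Agent.R017.E4U164
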