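import Crest.Agent.R017.E4p_164

/-!
# Row 17, C70, leaf E4: the fixed symbol `f` moved to the `y`-side (helper164)

* `mulw f w Y = [f ∣ Y] w (Y/f)`
* `E4L_one` : `E4L M f .. v w = E4L M 1 .. v (mulw f w)`
* `mulw_ww` : `mulw f (ww ..)` is the push-forward of `f n m²`
* `dat4_one`, `u_bound_one`
-/

set_option autoImplicit false

noncomputable section

open Finset Complex
open scoped ComplexConjugate

namespace Crest.Agent.R017.E4D164

open Crest.Agent.R012 Crest.Agent.R012.Eis Crest.Agent.R012.GaussLoc283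
open Crest.Agent.R012.Mob705 hiding pb mem_pb
open Crest.Agent.R012.Div277
open Crest.Agent.R017.Sx545 (Sm)
open Crest.Agent.R017.CM106
open Crest.Agent.R017.PX764 (th Gh n6)
open Crest.Agent.R017.C70 Crest.Agent.R017.GrB829 Crest.Agent.R017.GrD829
open Crest.Agent.R017.E2440
open Crest.Agent.R017.End699 (HC)
open Crest.Agent.R017.E4352 (SSm nf PrI XF Dat4)
open Crest.Agent.R017.E4579 (bpt bco)
open Crest.Agent.R017.E4K164 (dc dc_spec rd rd_prim jc_ne_zero)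

open Classical in
/-- `w` on the multiples of `f` -/
def mulw (f : Eis) (w : Eis → ℂ) (Y : Eis) : ℂ := if f ∣ Y then w (Y / f) else 0

lemma mulw_mul {f : Eis} (hf : f ≠ 0) (w : Eis → ℂ) (y : Eis) : mulw f w (f * y) = w y := by
  unfold mulw
  rw [if_pos (dvd_mul_right f y)]
  congr 1
  exact mul_div_cancel_left₀ y hf

lemma mulw_ne {f : Eis} (hf : f ≠ 0) {w : Eis → ℂ} {Y : Eis} (h : mulw f w Y ≠ 0) :
    ∃ y, Y = f * y ∧ w y ≠ 0 := by
  by_cases hd : f ∣ Y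
  · obtain ⟨y, rfl⟩ := hd
    rw [mulw_mul hf] at h
    exact ⟨y, rfl, h⟩
  · unfold mulw at h
    rw [if_neg hd] at h
    exact absurd rfl h

lemma tsum_mulw {f : Eis} (hf : f ≠ 0) (w G : Eis → ℂ) :
    ∑' Y : Eis, mulw f w Y * G Y = ∑' y : Eis, w y * G (f * y) := by
  have hinj : Function.Injective (fun y : Eis => f * y) := mul_right_injective₀ hf
  rw [← hinj.tsum_eq (f := fun Y => mulw f w Y * G Y)]
  · exact tsum_congr fun y => by rw [mulw_mul hf]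
  · intro Y hY
    obtain ⟨y, rfl, -⟩ := mulw_ne hf (left_ne_zero_of_mul (Function.mem_support.mp hY))
    exact ⟨y, rfl⟩

/-- **the fixed symbol moved to the `y`-side** -/
theorem E4L_one {M f : Eis} (hf : f ≠ 0) (ψ : Eis → ℂ) (l : ℤ) (V : ℝ → ℂ) (K : ℝ) {O : Type}
    [Fintype O] (lam : O → ℝ) (v w : O → Eis → ℂ) :
    E4L M f ψ l V K lam v w = E4L M 1 ψ l V K lam v (fun o => mulw f (w o)) := by
  unfold E4L
  refine Finset.sum_congr rfl fun o _ => ?_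
  refine tsum_congr fun x => ?_
  congr 1
  rw [tsum_mulw hf (w o) (fun Y => NT (M * (1 * Y)) (1 * x * Y)
    (fun k => End699.tw ψ l k * V (nm k * lam o / K)))]
  refine tsum_congr fun y => ?_
  have e1 : M * (1 * (f * y)) = M * (f * y) := by ring
  have e2 : 1 * x * (f * y) = f * x * y := by ring
  rw [e1, e2]

open Classical in
/-- the push-forward of `f X` -/
lemma mulw_pu {B : Type*} {M f g : Eis} (hf : Sm M f) (hg : PrI M g) (I : Finset B)
    (X : B → Eis) (a : B → ℂ) (Y : Eis) :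
    mulw f (pu M I X a g) Y = pu M I (fun i => f * X i) a g Y := by
  have hf0 := hf.ne_zero
  by_cases hd : f ∣ Y
  · obtain ⟨y, rfl⟩ := hd
    rw [mulw_mul hf0]
    unfold pu
    have h1 : Sm M (f * y) ↔ Sm M y := by
      constructor
      · intro h
        exact ⟨h.1.of_mul_left hf.1, h.2.of_mul_left_right⟩
      · intro h
        exact ⟨hf.1.mul h.1, hf.2.mul_left h.2⟩
    by_cases hy : Sm M y
    · rw [if_pos hy, if_pos (h1.mpr hy)]
      refine Finset.sum_congr ?_ fun _ _ => rfl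
      ext i
      simp only [Finset.mem_filter]
      constructor
      · rintro ⟨hi, h⟩
        exact ⟨hi, by rw [h]; ring⟩
      · rintro ⟨hi, h⟩
        refine ⟨hi, mul_left_cancel₀ hf0 ?_⟩
        rw [h]; ring
    · rw [if_neg hy, if_neg (fun h => hy (h1.mp h))]
  · unfold mulw
    rw [if_neg hd]
    symm
    by_contra h
    obtain ⟨hY, i, -, h2, -⟩ := pu_ne h
    apply hd
    have h3 : f ∣ g * Y := by rw [← h2]; exact dvd_mul_right _ _
    have h4 : IsCoprime f g := (cop_PrI hg hf.2).symm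
    exact h4.dvd_of_dvd_mul_left h3

/-- `mulw f` of the `y`-side sequence -/
theorem mulw_wI {M f z : Eis} (hf : Sm M f) (hz : PrI M z) (b₁ b₂ : Eis → ℂ)
    (L : Finset (Eis × Eis)) (o : Eis × Eis) :
    mulw f (wI M b₁ b₂ L z o) =
      pu M L (fun p => f * (p.1 * p.2 ^ 2)) (cb b₁ b₂ (o.1 * o.2)) z := by
  funext Y
  exact mulw_pu hf hz L (fun p => p.1 * p.2 ^ 2) (cb b₁ b₂ (o.1 * o.2)) Y

variable {A : Type*} {M : Eis} {ψ : Eis → ℂ} {l : ℤ} {f : Eis} {I : Finset A} {s δ j : A → Eis}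
  {c : A → ℂ} {c₀ g : Eis} {o : Eis × Eis}

/-- the standing conditions with `f` on the `y`-side -/
theorem dat4_one {ψ : Eis → ℂ} (hψ : HC M ψ) (hI : OKI I s δ j c) (hf : Sm M f) (hg : PrI M g)
    {z : Eis} (hz : PrI M z) {b₁ b₂ : Eis → ℂ} (h₁ : FS b₁) (h₂ : FS b₂) {X V N₂ Cv Cw : ℝ}
    (hX : 1 ≤ X) (hcard : (I.card : ℝ) ≤ X)
    (hV : ∀ i ∈ I, c i ≠ 0 → (nm (j i) : ℝ) * nm (δ i) ^ 2 * nm (s i) ^ 2 ≤ V) (hVX : V ≤ X)
    (hs : ∀ i ∈ I, (nm (s i * (dc (j i)).2.2) : ℝ) ≤ X)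
    (hN₂ : ∀ n m, b₁ n ≠ 0 → b₂ m ≠ 0 → (nm (n * m ^ 2) : ℝ) ≤ N₂) (hNX : nm f * N₂ ≤ X)
    (hCv0 : 0 ≤ Cv) (hcv : ∀ i ∈ I, ‖c i‖ * Bth * (nm (s i * (dc (j i)).2.2) : ℝ) ≤ Cv)
    (hCv : I.card * Cv ≤ X) (hCw0 : 0 ≤ Cw) (hcw : ∀ n m, ‖b₁ n‖ * ‖b₂ m‖ ≤ Cw)
    (hCw : ((h₁.fin.toFinset ×ˢ h₂.fin.toFinset).card : ℝ) * Cw ≤ X) :
    Dat4 M 1 (O := OU M I s j) (fun o => (nm (o.1.1 * o.1.2) : ℝ))
      (fun o => vI M ψ l f I s δ j c c₀ g o.1)
      (fun o => mulw f (wI M b₁ b₂ (h₁.fin.toFinset ×ˢ h₂.fin.toFinset) z o.1)) X where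
  X1 := hX
  card := by
    rw [Fintype.card_coe]
    exact le_trans (by exact_mod_cast card_OU) hcard
  lam1 o := by
    obtain ⟨i, hi, h1, h2, h3⟩ := mem_OU o
    refine ⟨one_le_nm h3.ne_zero, ?_⟩
    rw [← h1, ← h2]
    exact hs i hi
  hf := ⟨⟨isPrim_one, isCoprime_one_left⟩, by rw [nm_one]; exact_mod_cast hX⟩
  hv o := ssm_vI hψ.q0 hI hg
  hw o := by
    rw [mulw_wI hf hz]
    refine ssm_pu hψ.q0 (fun p hp => ?_) hz
    rw [Finset.mem_product, Set.Finite.mem_toFinset, Set.Finite.mem_toFinset] at hp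
    exact hf.1.mul ((h₁.prim _ hp.1).mul ((h₂.prim _ hp.2).pow 2))
  vx o x h := ⟨cbf_vI hI h, (nm_vI hI hg.1 hV h).trans hVX⟩
  wy o y h := by
    obtain ⟨y', rfl, h'⟩ := mulw_ne hf.ne_zero h
    refine le_trans ?_ hNX
    rw [nm_mul]
    push_cast
    have := nm_wI hz.1 hN₂ h'
    gcongr
  vb o x := by
    classical
    refine le_trans ?_ hCv
    have h1 : ‖pu M (II I s j c₀ o.1) (XI δ j) (cI ψ l f s δ j c) g x‖ ≤
        (II I s j c₀ o.1).card * Cv := norm_pu_le (fun i hi => by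
      unfold II at hi
      exact (norm_cI_le hψ hI hf.1 (Finset.mem_filter.mp hi).1).trans
        (hcv i (Finset.mem_filter.mp hi).1)) hCv0
    refine h1.trans (mul_le_mul_of_nonneg_right ?_ hCv0)
    have h2 : (II I s j c₀ o.1).card ≤ I.card := by
      unfold II
      exact Finset.card_filter_le _ _
    exact_mod_cast h2
  wb o y := by
    refine le_trans ?_ hCw
    rw [mulw_wI hf hz]
    exact norm_pu_le (fun p hp => by
      rw [Finset.mem_product, Set.Finite.mem_toFinset, Set.Finite.mem_toFinset] at hp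
      exact (norm_cb_le (h₁.prim _ hp.1) (h₂.prim _ hp.2)).trans (hcw _ _)) hCw0

/-- the `U`-bound with `f` on the `y`-side -/
theorem u_bound_one (hI : OKI I s δ j c) (hf : f ≠ 0) (hg : IsPrim g) {z : Eis} (hz : IsPrim z)
    {b₁ b₂ : Eis → ℂ} {L : Finset (Eis × Eis)} {V N₂ : ℝ} (hV0 : 0 ≤ V)
    (hV : ∀ i ∈ I, c i ≠ 0 → (nm (j i) : ℝ) * nm (δ i) ^ 2 * nm (s i) ^ 2 ≤ V)
    (hN₂ : ∀ n m, b₁ n ≠ 0 → b₂ m ≠ 0 → (nm (n * m ^ 2) : ℝ) ≤ N₂) (o : OU M I s j) {x y : Eis}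
    (hx : vI M ψ l f I s δ j c c₀ g o.1 x ≠ 0) (hy : mulw f (wI M b₁ b₂ L z o.1) y ≠ 0) :
    (nm (1 * x * y) : ℝ) * (nm (o.1.1 * o.1.2) : ℝ) ^ 2 ≤ nm f * V * N₂ := by
  obtain ⟨y', rfl, h'⟩ := mulw_ne hf hy
  have h := u_bound hI hg hz hV0 hV hN₂ o hx h'
  rw [show (1 : Eis) * x * (f * y') = f * x * y' by ring]
  exact h

end Crest.Agent.R017.E4D164
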