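import Crest.Agent.R017.E5k_54

/-!
# Row 17, R8/E5: the structured function over small powerful tuples (helper54)

helper957: the window of the full list is too long for the tuples `β` with a large product, so the
structured function runs only over `N(∏ β) ≤ B₀`, `B₀ = e^{N + z - l/2}`.

* `SST T f` : the structured function over a finite set `T` of tuples, `SS = SST (PT ι Y)`
* `PTb ι Y B0`, `SSb B0 f Y`
* `prod_subT` : the error, with the constant `c` on `T` and `0` off `T`
* `SST_sum`, `SST_congr`, `SST_restrict` : linearity in `om`;  `midT_le` : the middle term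
-/

set_option autoImplicit false

noncomputable section

open Finset
open scoped ComplexConjugate

namespace Crest.Agent.R017.SSb54

open Crest.Agent.R012 Crest.Agent.R012.Eis
open Crest.Agent.R012.Mob705 hiding pb mem_pb
open Crest.Agent.R012.LS2 (S mem_S)
open Crest.Agent.R017.CM106 (CS FS sub)
open Crest.Agent.R017.E2440 (TE StE)
open Crest.Agent.R017.E5k54
open Crest.Agent.R017.DgA829 (lc)

variable {ι : Type*} [Fintype ι]

/-- the structured function over the tuples `β ∈ T` -/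
def SST (T : Finset (ι → Eis)) (f : ι → Eis → ℂ) (E0 : ℝ) (J : Finset (Eis × Eis))
    (om : Eis × Eis → ℂ) (k : Eis) : ℂ :=
  ∑ β ∈ T, sy k (∏ i, β i) * StE E0 J om (alb f β) k

lemma SS_eq (f : ι → Eis → ℂ) (Y : ℕ) (E0 : ℝ) (J : Finset (Eis × Eis)) (om : Eis × Eis → ℂ)
    (k : Eis) : SS f Y E0 J om k = SST (PT ι Y) f E0 J om k := rfl

/-- the powerful tuples with small product -/
def PTb (ι : Type*) [Fintype ι] (Y : ℕ) (B0 : ℝ) : Finset (ι → Eis) := by
  classical
  exact (PT ι Y).filter fun β => (nm (∏ i, β i) : ℝ) ≤ B0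

lemma mem_PTb {Y : ℕ} {B0 : ℝ} {β : ι → Eis} :
    β ∈ PTb ι Y B0 ↔ β ∈ PT ι Y ∧ (nm (∏ i, β i) : ℝ) ≤ B0 := by
  classical
  unfold PTb
  rw [mem_filter]

lemma PTb_sub (Y : ℕ) (B0 : ℝ) : PTb ι Y B0 ⊆ PT ι Y := fun _ h => (mem_PTb.1 h).1

/-- **the structured function over the small tuples** -/
def SSb (B0 : ℝ) (f : ι → Eis → ℂ) (Y : ℕ) (E0 : ℝ) (J : Finset (Eis × Eis))
    (om : Eis × Eis → ℂ) (k : Eis) : ℂ :=
  SST (PTb ι Y B0) f E0 J om k

open Classical in
/-- **the error**: the constant is `c` on `T` and `0` off `T` -/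
theorem prod_subT {f : ι → Eis → ℂ} {Y : ℕ} (hf : ∀ i m, f i m ≠ 0 → IsPrim m ∧ nm m ≤ Y)
    {T : Finset (ι → Eis)} (hT : T ⊆ PT ι Y) (c : ℂ) (E0 : ℝ) (J : Finset (Eis × Eis))
    (om : Eis × Eis → ℂ) (k : Eis) :
    ∏ i, CS (f i) k - c * SST T f E0 J om k =
      ∑ β ∈ PT ι Y, sy k (∏ i, β i) *
        (CS (alb f β) k - (if β ∈ T then c else 0) * StE E0 J om (alb f β) k) := by
  have h1 : SST T f E0 J om k = ∑ β ∈ PT ι Y, (if β ∈ T then (1 : ℂ) else 0) *
      (sy k (∏ i, β i) * StE E0 J om (alb f β) k) := by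
    unfold SST
    have h2 : ∀ β ∈ PT ι Y, (if β ∈ T then (1 : ℂ) else 0) *
        (sy k (∏ i, β i) * StE E0 J om (alb f β) k) =
        if β ∈ T then sy k (∏ i, β i) * StE E0 J om (alb f β) k else 0 := by
      intro β _
      split_ifs <;> simp
    rw [Finset.sum_congr rfl h2, ← Finset.sum_filter, Finset.filter_mem_eq_inter,
      Finset.inter_eq_right.2 hT]
  rw [E554.prod_CS hf, h1, Finset.mul_sum]
  unfold PT
  rw [← Finset.sum_sub_distrib]
  refine Finset.sum_congr rfl fun β _ => ?_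
  unfold alb
  split_ifs <;> ring

/-! ### linearity -/

variable {κ : Type*}

lemma StE_sum (I : Finset κ) (E0 : ℝ) (J : Finset (Eis × Eis)) (om : κ → Eis × Eis → ℂ)
    (α : Eis → ℂ) (k : Eis) :
    StE E0 J (fun x => ∑ i ∈ I, om i x) α k = ∑ i ∈ I, StE E0 J (om i) α k := by
  classical
  unfold StE
  rw [Finset.sum_comm]
  refine Finset.sum_congr rfl fun x _ => ?_
  rw [Finset.sum_mul]

lemma StE_congr (E0 : ℝ) {J : Finset (Eis × Eis)} {om om' : Eis × Eis → ℂ}
    (h : ∀ x ∈ J, om x = om' x) (α : Eis → ℂ) (k : Eis) : StE E0 J om α k = StE E0 J om' α k := by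
  classical
  unfold StE
  exact Finset.sum_congr rfl fun x hx => by rw [h x hx]

lemma SST_sum (I : Finset κ) (T : Finset (ι → Eis)) (f : ι → Eis → ℂ) (E0 : ℝ)
    (J : Finset (Eis × Eis)) (om : κ → Eis × Eis → ℂ) (k : Eis) :
    SST T f E0 J (fun x => ∑ i ∈ I, om i x) k = ∑ i ∈ I, SST T f E0 J (om i) k := by
  classical
  unfold SST
  simp_rw [StE_sum, Finset.mul_sum]
  rw [Finset.sum_comm]

lemma SST_congr (T : Finset (ι → Eis)) (f : ι → Eis → ℂ) (E0 : ℝ) {J : Finset (Eis × Eis)}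
    {om om' : Eis × Eis → ℂ} (h : ∀ x ∈ J, om x = om' x) (k : Eis) :
    SST T f E0 J om k = SST T f E0 J om' k := by
  unfold SST
  exact Finset.sum_congr rfl fun β _ => by rw [StE_congr E0 h]

/-- classes with `om x = 0` may be dropped -/
lemma SST_restrict (T : Finset (ι → Eis)) (f : ι → Eis → ℂ) (E0 : ℝ) (J : Finset (Eis × Eis))
    (P : Eis × Eis → Prop) [DecidablePred P] {om : Eis × Eis → ℂ}
    (h : ∀ x ∈ J, om x ≠ 0 → P x) (k : Eis) :
    SST T f E0 (J.filter P) om k = SST T f E0 J om k := by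
  classical
  unfold SST
  refine Finset.sum_congr rfl fun β _ => ?_
  congr 1
  unfold StE
  rw [Finset.sum_filter]
  refine Finset.sum_congr rfl fun x hx => ?_
  split_ifs with hP
  · rfl
  · have h0 : om x = 0 := by
      by_contra h0
      exact hP (h x hx h0)
    rw [h0, zero_mul]

/-! ### the middle term -/

open Classical in
/-- **the middle term**: bound by cores -/
theorem midT_le {n s : Eis} (hs : IsPrim s) {G : Eis → ℂ} (hG : (Function.support G).Finite)
    (T : Finset (ι → Eis)) (f : ι → Eis → ℂ) (E0 : ℝ) (J : Finset (Eis × Eis))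
    (om : Eis × Eis → ℂ) :
    ‖∑' k : Eis, if IsPrim k ∧ IsCoprime k n ∧ s ∣ k then
      G k * SST T f E0 J om k else 0‖ ≤
      ∑ β ∈ T, ∑ e ∈ S E0,
        ‖Core n (lc s e) J (fun x => om x * TE (alb f β) x e) (fun k => G k * sy k (∏ i, β i))‖ := by
  classical
  have h1 : ∀ k : Eis, (if IsPrim k ∧ IsCoprime k n ∧ s ∣ k then G k * SST T f E0 J om k else 0) =
      ∑ β ∈ T, (if IsPrim k ∧ IsCoprime k n ∧ s ∣ k then
        (G k * sy k (∏ i, β i)) * StE E0 J om (alb f β) k else 0) := by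
    intro k
    by_cases hk : IsPrim k ∧ IsCoprime k n ∧ s ∣ k
    · rw [if_pos hk, SST, Finset.mul_sum]
      refine Finset.sum_congr rfl fun β _ => ?_
      rw [if_pos hk]; ring
    · rw [if_neg hk]
      symm
      exact Finset.sum_eq_zero fun β _ => if_neg hk
  have hG' : ∀ β : ι → Eis, (Function.support fun k => G k * sy k (∏ i, β i)).Finite := fun β =>
    hG.subset fun k hk => by
      rw [Function.mem_support] at hk ⊢
      intro h
      exact hk (by rw [h, zero_mul])
  have hsm : ∀ β ∈ T, Summable fun k : Eis =>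
      (if IsPrim k ∧ IsCoprime k n ∧ s ∣ k then
        (G k * sy k (∏ i, β i)) * StE E0 J om (alb f β) k else 0) := fun β _ =>
    tsum_fin (hG' β) (fun k => IsPrim k ∧ IsCoprime k n ∧ s ∣ k)
      (fun k => StE E0 J om (alb f β) k)
  rw [tsum_congr h1, Summable.tsum_finsetSum hsm]
  refine (norm_sum_le _ _).trans (Finset.sum_le_sum fun β _ => ?_)
  rw [StE_core hs (hG' β)]
  refine (norm_sum_le _ _).trans (Finset.sum_le_sum fun e _ => ?_)
  rw [norm_mul]
  calc ‖((mu e : ℤ) : ℂ)‖ * _ ≤ 1 * _ :=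
        mul_le_mul_of_nonneg_right (norm_muE_le e) (norm_nonneg _)
    _ = _ := one_mul _

end Crest.Agent.R017.SSb54
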