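import Crest.Agent.R017.E5A_71
import Crest.Agent.R017.E5k_54
import Crest.Agent.R017.SSb_54
import Crest.Agent.R017.C70Defs_54
import Crest.Agent.R017.FE11_47

/-!
# Row 17, R8: the level split of the structured function (helper770)

* `StE_sum`, `SS_sum`, `StE_congr`, `SS_congr`, `StE_filter`, `SS_filter` : linearity in `om`
* v2 (helper957, helper54): the structured function runs over the small powerful tuples,
  `SSb54.SSb (exp (Bf l N z))`, official `Bf = bfO`, `bfO l N z = N + z - l/2`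
* `SfJ` : the structured function with general data, `at_sum` : its linearity
* `midF_sum`, `tailS_sum` : `MidF`, `TailS` are bounded by the sums over the parts of `om`
* `lv x` : level of a class, `wL i` : the smooth dyadic window, uniformly bounded derivatives
* `SfP` : the structured function with the plateau, `SfV` : one level
* `midF_lev`, `tailS_lev` : the level split
-/

set_option autoImplicit false

noncomputable section

open Finset Complex
open scoped ComplexConjugate ContDiff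

namespace Crest.Agent.R017.E5L770

open Crest.Agent.R012 Crest.Agent.R012.Eis
open Crest.Agent.R012.Mob705 hiding pb mem_pb
open Crest.Agent.R012.LS2 (S mem_S)
open Crest.Agent.R017.PX764 (th Gh n6)
open Crest.Agent.R017.CM106 (CS FS sub)
open Crest.Agent.R017.HP842 (Pc pc)
open Crest.Agent.R017.B770 Crest.Agent.R017.Prov71
open Crest.Agent.R017.E2440 (TE StE)
open Crest.Agent.R017.E5k54 (SS PT)
open Crest.Agent.R017.SSb54 (SST SSb PTb)
open Crest.Agent.R017.E5B71 Crest.Agent.R017.E5P571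
open Crest.Agent.R017.FE47 (hD contDiff_hD hasCompactSupport_hD)

/-! ### linearity -/

variable {κ : Type*}

lemma StE_sum (I : Finset κ) (E0 : ℝ) (J : Finset (Eis × Eis)) (om : κ → Eis × Eis → ℂ)
    (α : Eis → ℂ) (k : Eis) :
    StE E0 J (fun x => ∑ i ∈ I, om i x) α k = ∑ i ∈ I, StE E0 J (om i) α k := by
  classical
  unfold StE
  rw [Finset.sum_comm]
  refine Finset.sum_congr rfl fun x _ => ?_
  rw [Finset.sum_mul]

lemma StE_congr (E0 : ℝ) {J : Finset (Eis × Eis)} {om om' : Eis × Eis → ℂ}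
    (h : ∀ x ∈ J, om x = om' x) (α : Eis → ℂ) (k : Eis) : StE E0 J om α k = StE E0 J om' α k := by
  classical
  unfold StE
  exact Finset.sum_congr rfl fun x hx => by rw [h x hx]

lemma StE_filter (E0 : ℝ) (J : Finset (Eis × Eis)) (P : Eis × Eis → Prop) [DecidablePred P]
    (om : Eis × Eis → ℂ) (α : Eis → ℂ) (k : Eis) :
    StE E0 (J.filter P) om α k = StE E0 J (fun x => if P x then om x else 0) α k := by
  classical
  unfold StE
  rw [Finset.sum_filter]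
  refine Finset.sum_congr rfl fun x _ => ?_
  by_cases hx : P x
  · simp only [if_pos hx]
  · simp only [if_neg hx, zero_mul]

/-- classes with `om x = 0` may be dropped -/
lemma StE_restrict (E0 : ℝ) (J : Finset (Eis × Eis)) (P : Eis × Eis → Prop) [DecidablePred P]
    {om : Eis × Eis → ℂ} (h : ∀ x ∈ J, om x ≠ 0 → P x) (α : Eis → ℂ) (k : Eis) :
    StE E0 (J.filter P) om α k = StE E0 J om α k := by
  rw [StE_filter]
  refine StE_congr E0 (fun x hx => ?_) α k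
  by_cases hx' : P x
  · exact if_pos hx'
  · rw [if_neg hx']
    by_contra h0
    exact hx' (h x hx fun h1 => h0 h1.symm)

variable {ι : Type*} [Fintype ι]

lemma SS_sum (I : Finset κ) (f : ι → Eis → ℂ) (Y : ℕ) (E0 : ℝ) (J : Finset (Eis × Eis))
    (om : κ → Eis × Eis → ℂ) (k : Eis) :
    SS f Y E0 J (fun x => ∑ i ∈ I, om i x) k = ∑ i ∈ I, SS f Y E0 J (om i) k := by
  classical
  unfold SS
  simp_rw [StE_sum, Finset.mul_sum]
  rw [Finset.sum_comm]

lemma SS_congr (f : ι → Eis → ℂ) (Y : ℕ) (E0 : ℝ) {J : Finset (Eis × Eis)}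
    {om om' : Eis × Eis → ℂ} (h : ∀ x ∈ J, om x = om' x) (k : Eis) :
    SS f Y E0 J om k = SS f Y E0 J om' k := by
  unfold SS
  exact Finset.sum_congr rfl fun β _ => by rw [StE_congr E0 h]

lemma SS_filter (f : ι → Eis → ℂ) (Y : ℕ) (E0 : ℝ) (J : Finset (Eis × Eis))
    (P : Eis × Eis → Prop) [DecidablePred P] (om : Eis × Eis → ℂ) (k : Eis) :
    SS f Y E0 (J.filter P) om k = SS f Y E0 J (fun x => if P x then om x else 0) k := by
  unfold SS
  exact Finset.sum_congr rfl fun β _ => by rw [StE_filter]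

/-- classes with `om x = 0` may be dropped -/
lemma SS_restrict (f : ι → Eis → ℂ) (Y : ℕ) (E0 : ℝ) (J : Finset (Eis × Eis))
    (P : Eis × Eis → Prop) [DecidablePred P] {om : Eis × Eis → ℂ}
    (h : ∀ x ∈ J, om x ≠ 0 → P x) (k : Eis) :
    SS f Y E0 (J.filter P) om k = SS f Y E0 J om k := by
  unfold SS
  exact Finset.sum_congr rfl fun β _ => by rw [StE_restrict E0 J P h]

lemma SSb_sum (I : Finset κ) (B0 : ℝ) (f : ι → Eis → ℂ) (Y : ℕ) (E0 : ℝ)
    (J : Finset (Eis × Eis)) (om : κ → Eis × Eis → ℂ) (k : Eis) :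
    SSb B0 f Y E0 J (fun x => ∑ i ∈ I, om i x) k = ∑ i ∈ I, SSb B0 f Y E0 J (om i) k :=
  SSb54.SST_sum I _ f E0 J om k

lemma SSb_congr (B0 : ℝ) (f : ι → Eis → ℂ) (Y : ℕ) (E0 : ℝ) {J : Finset (Eis × Eis)}
    {om om' : Eis × Eis → ℂ} (h : ∀ x ∈ J, om x = om' x) (k : Eis) :
    SSb B0 f Y E0 J om k = SSb B0 f Y E0 J om' k :=
  SSb54.SST_congr _ f E0 h k

/-- classes with `om x = 0` may be dropped -/
lemma SSb_restrict (B0 : ℝ) (f : ι → Eis → ℂ) (Y : ℕ) (E0 : ℝ) (J : Finset (Eis × Eis))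
    (P : Eis × Eis → Prop) [DecidablePred P] {om : Eis × Eis → ℂ}
    (h : ∀ x ∈ J, om x ≠ 0 → P x) (k : Eis) :
    SSb B0 f Y E0 (J.filter P) om k = SSb B0 f Y E0 J om k :=
  SSb54.SST_restrict _ f E0 J P h k

/-! ### structured functions -/

/-- the official cut of the powerful tuples: `N(∏ β) ≤ e^{N + z - l/2}` -/
def bfO (l N z : ℝ) : ℝ := N + z - l / 2

variable {Λ : Type*} (π : Λ → DPar) (h : ℝ → ℝ)

/-- **structured function, general data** : `Jf l N z`, `omf l N z`, `N` = length of the three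
lumps -/
def SfJ (e0 r : ℝ) (Bf : ℝ → ℝ → ℝ → ℝ) (Jf : ℝ → ℝ → ℝ → Finset (Eis × Eis))
    (omf : ℝ → ℝ → ℝ → Eis × Eis → ℂ) : SF Λ := fun lam t l ps z k =>
  (pC : ℂ) * SSb (Real.exp (Bf l (∑ i, (ps i).z) z)) (fun i : Fin 3 => pc h (Pt (π lam) t (ps i)))
    ⌊Real.exp ((∑ i, (ps i).z) + r)⌋₊ (Real.exp (e0 * l)) (Jf l (∑ i, (ps i).z) z)
    (omf l (∑ i, (ps i).z) z) k

/-- length of the three lumps -/
def a3 (a : Bd) : ℝ := (a.us 2).z + (a.us 3).z + (a.us 4).z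

lemma sum_a3 (a : Bd) : ∑ i, ((![a.us 2, a.us 3, a.us 4] : Fin 3 → Pq) i).z = a3 a := by
  rw [Fin.sum_univ_three]; rfl

lemma at_sum (e0 r : ℝ) (Bf : ℝ → ℝ → ℝ → ℝ) (Jf : ℝ → ℝ → ℝ → Finset (Eis × Eis))
    (omf : ℝ → ℝ → ℝ → Eis × Eis → ℂ) (omi : κ → ℝ → ℝ → ℝ → Eis × Eis → ℂ)
    (lam : Λ × Eis) (a : Bd) (I : Finset κ)
    (hI : ∀ x ∈ Jf a.l (a3 a) a.z, omf a.l (a3 a) a.z x = ∑ i ∈ I, omi i a.l (a3 a) a.z x)
    (k : Eis) : SF.at (SfJ π h e0 r Bf Jf omf) lam a k =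
      ∑ i ∈ I, SF.at (SfJ π h e0 r Bf Jf (omi i)) lam a k := by
  unfold SF.at SfJ
  rw [← Finset.mul_sum, sum_a3]
  congr 1
  rw [SSb_congr _ _ _ _ hI, SSb_sum]

/-! ### the middle term -/

section MS

variable {n : Eis} {W : Eis → ℂ} {e : Eis} {X : ℕ}

lemma MS_sum (hW : ∀ k, W k ≠ 0 → nm k ≤ X) (I : Finset κ) (F : κ → Eis → ℂ) (G : Eis → ℂ)
    (s : Eis) : MS n W e (fun k => (∑ i ∈ I, F i k) * G k) s =
      ∑ i ∈ I, MS n W e (fun k => F i k * G k) s := by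
  classical
  induction I using Finset.induction_on with
  | empty =>
    simp only [Finset.sum_empty, zero_mul]
    unfold MS
    simp
  | insert i I hi ih =>
    rw [Finset.sum_insert hi, ← ih, ← MS_add hW]
    congr 1
    funext k
    rw [Finset.sum_insert hi, add_mul]

end MS

theorem midF_le_sum {lam : Λ × Eis} (hP : (π lam.1).OK) (a : Bd) (ps : List Pq)
    (I : Finset κ) (Sf : SF Λ) (Sfi : κ → SF Λ)
    (hS : ∀ k, SF.at Sf lam a k = ∑ i ∈ I, SF.at (Sfi i) lam a k) :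
    MidF π h Sf lam a ps ≤ ∑ i ∈ I, MidF π h (Sfi i) lam a ps := by
  classical
  unfold MidF
  split_ifs with hc
  · obtain ⟨R, C, hR, hC, hs, -⟩ := wp_bd hP
    have hW : ∀ k, Wt (π lam.1) a k ≠ 0 → nm k ≤ ⌊Real.exp R * Real.exp a.l⌋₊ := fun k hk =>
      Nat.le_floor (hs _ _ k (Real.exp_pos _) hk).1
    have h1 : ∀ s : Eis, ‖MS (π lam.1).n (Wt (π lam.1) a) a.e (fun k => Sf.at lam a k *
        BB h ((bs2 a ps).map (Pt (π lam.1) lam.2)) ((amL ps).map (Pt (π lam.1) lam.2)) [] k) s‖ ≤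
        ∑ i ∈ I, ‖MS (π lam.1).n (Wt (π lam.1) a) a.e (fun k => (Sfi i).at lam a k *
        BB h ((bs2 a ps).map (Pt (π lam.1) lam.2)) ((amL ps).map (Pt (π lam.1) lam.2)) [] k)
          s‖ := by
      intro s
      simp_rw [hS]
      rw [MS_sum hW I (fun i k => (Sfi i).at lam a k)]
      exact norm_sum_le _ _
    refine (Finset.sum_le_sum fun q _ => Finset.sum_le_sum fun g _ => h1 (q ^ 2 * g)).trans
      (le_of_eq ?_)
    rw [Finset.sum_congr rfl fun q _ => Finset.sum_comm, Finset.sum_comm]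
  · simp

theorem tailS_le_sum (R : Λ → ℝ) (lam : Λ × Eis) (a : Bd) (ps : List Pq) (I : Finset κ)
    (Sf : SF Λ) (Sfi : κ → SF Λ) (hS : ∀ k, SF.at Sf lam a k = ∑ i ∈ I, SF.at (Sfi i) lam a k) :
    TailS π h Sf R lam a ps ≤ ∑ i ∈ I, TailS π h (Sfi i) R lam a ps := by
  classical
  unfold TailS
  split_ifs with hc
  · rw [Finset.sum_comm]
    refine Finset.sum_le_sum fun k _ => ?_
    rw [hS, ← Finset.sum_mul]
    exact mul_le_mul_of_nonneg_right (norm_sum_le _ _) (by positivity)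
  · simp

/-- **the middle term is bounded by the parts of `om`** -/
theorem midF_sum (e0 r : ℝ) (Bf : ℝ → ℝ → ℝ → ℝ) (Jf : ℝ → ℝ → ℝ → Finset (Eis × Eis))
    (omf : ℝ → ℝ → ℝ → Eis × Eis → ℂ) (omi : κ → ℝ → ℝ → ℝ → Eis × Eis → ℂ) {lam : Λ × Eis}
    (hP : (π lam.1).OK) (a : Bd) (ps : List Pq) (I : Finset κ)
    (hI : ∀ x ∈ Jf a.l (a3 a) a.z, omf a.l (a3 a) a.z x = ∑ i ∈ I, omi i a.l (a3 a) a.z x) :
    MidF π h (SfJ π h e0 r Bf Jf omf) lam a ps ≤
      ∑ i ∈ I, MidF π h (SfJ π h e0 r Bf Jf (omi i)) lam a ps :=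
  midF_le_sum π h hP a ps _ _ _ fun k => at_sum π h e0 r Bf Jf omf omi lam a I hI k

/-- **the tail is bounded by the parts of `om`** -/
theorem tailS_sum (e0 r : ℝ) (Bf : ℝ → ℝ → ℝ → ℝ) (Jf : ℝ → ℝ → ℝ → Finset (Eis × Eis))
    (omf : ℝ → ℝ → ℝ → Eis × Eis → ℂ) (omi : κ → ℝ → ℝ → ℝ → Eis × Eis → ℂ) (R : Λ → ℝ)
    (lam : Λ × Eis) (a : Bd) (ps : List Pq) (I : Finset κ)
    (hI : ∀ x ∈ Jf a.l (a3 a) a.z, omf a.l (a3 a) a.z x = ∑ i ∈ I, omi i a.l (a3 a) a.z x) :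
    TailS π h (SfJ π h e0 r Bf Jf omf) R lam a ps ≤
      ∑ i ∈ I, TailS π h (SfJ π h e0 r Bf Jf (omi i)) R lam a ps :=
  tailS_le_sum π h R lam a ps _ _ _ fun k => at_sum π h e0 r Bf Jf omf omi lam a I hI k

/-! ### smooth windows -/

/-- level of a class -/
def lv (x : Eis × Eis) : ℝ := Real.log (nm (x.2 * x.1 ^ 2))

lemma lv_nonneg (x : Eis × Eis) : 0 ≤ lv x := Real.log_natCast_nonneg _

/-- the dyadic window of level `log 2 * i` -/
def wL (i : ℕ) (u : ℝ) : ℝ := hD (u - Real.log 2 * i)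

lemma contDiff_wL (i : ℕ) : ContDiff ℝ ∞ (wL i) :=
  contDiff_hD.comp (contDiff_id.sub contDiff_const)

lemma wL_supp {i : ℕ} {u : ℝ} (hu : wL i u ≠ 0) : |u - Real.log 2 * i| ≤ Real.log 2 := by
  apply FE47.hD_supp
  unfold wL at hu
  unfold FE47.cx
  exact_mod_cast hu

lemma contDiff_wLc (i : ℕ) : ContDiff ℝ ∞ fun u => (wL i u : ℂ) :=
  Complex.ofRealCLM.contDiff.comp (contDiff_wL i)

lemma trans_bd {E : Type*} [NormedAddCommGroup E] [NormedSpace ℝ E] {F : ℝ → E}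
    (h0 : ContDiff ℝ ∞ F) (hs : HasCompactSupport F) (m : ℕ) :
    ∃ C : ℝ, 0 ≤ C ∧ ∀ c u : ℝ, ‖iteratedDeriv m (fun u => F (u - c)) u‖ ≤ C := by
  have h1 : Continuous (iteratedDeriv m F) :=
    h0.continuous_iteratedDeriv m (by exact_mod_cast le_top)
  have h2 : HasCompactSupport (iteratedDeriv m F) := by
    clear h1
    induction m with
    | zero => simpa using hs
    | succ m ih => rw [iteratedDeriv_succ]; exact ih.deriv
  obtain ⟨C, hC⟩ := h1.bounded_above_of_compact_support h2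
  refine ⟨C, (norm_nonneg _).trans (hC 0), fun c u => ?_⟩
  rw [congrFun (iteratedDeriv_comp_sub_const m F c) u]
  exact hC _

/-- **derivatives bounded uniformly in the level** -/
theorem wL_bd (m : ℕ) : ∃ C : ℝ, 0 ≤ C ∧ ∀ (i : ℕ) (u : ℝ), ‖iteratedDeriv m (wL i) u‖ ≤ C := by
  obtain ⟨C, hC, h⟩ := trans_bd contDiff_hD hasCompactSupport_hD m
  exact ⟨C, hC, fun i u => h (Real.log 2 * i) u⟩

/-- the same for the complex window -/
theorem wLc_bd (m : ℕ) : ∃ C : ℝ, 0 ≤ C ∧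
    ∀ (i : ℕ) (u : ℝ), ‖iteratedDeriv m (fun u => (wL i u : ℂ)) u‖ ≤ C := by
  have h0 : ContDiff ℝ ∞ fun u => (hD u : ℂ) := Complex.ofRealCLM.contDiff.comp contDiff_hD
  have hs : HasCompactSupport fun u => (hD u : ℂ) :=
    hasCompactSupport_hD.comp_left (g := fun x : ℝ => (x : ℂ)) Complex.ofReal_zero
  obtain ⟨C, hC, h⟩ := trans_bd h0 hs m
  exact ⟨C, hC, fun i u => h (Real.log 2 * i) u⟩

/-- the part of `om` at level `i` -/
def omL (i : ℕ) (x : Eis × Eis) : ℂ := (wL i (lv x) : ℂ)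

lemma omL_supp {i : ℕ} {x : Eis × Eis} (hx : omL i x ≠ 0) :
    |lv x - Real.log 2 * i| ≤ Real.log 2 := by
  apply wL_supp
  intro h0
  apply hx
  unfold omL
  rw [h0, Complex.ofReal_zero]

/-- the plateau with `n` levels (828's `omS`) -/
def omP (n : ℕ) (x : Eis × Eis) : ℂ := ∑ i ∈ range n, omL i x

/-- the classes of level `i` -/
def Jv (J : Finset (Eis × Eis)) (i : ℕ) : Finset (Eis × Eis) := by
  classical
  exact J.filter fun x => |lv x - Real.log 2 * i| ≤ Real.log 2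

lemma mem_Jv {J : Finset (Eis × Eis)} {i : ℕ} {x : Eis × Eis} :
    x ∈ Jv J i ↔ x ∈ J ∧ |lv x - Real.log 2 * i| ≤ Real.log 2 := by
  classical
  unfold Jv
  rw [mem_filter]

/-- the window may be restricted to the classes of level `i` -/
theorem StE_Jv (E0 : ℝ) (J : Finset (Eis × Eis)) (i : ℕ) (α : Eis → ℂ) (k : Eis) :
    StE E0 (Jv J i) (omL i) α k = StE E0 J (omL i) α k := by
  classical
  exact StE_restrict E0 J _ (fun x _ hx => omL_supp hx) α k

theorem SS_Jv (f : ι → Eis → ℂ) (Y : ℕ) (E0 : ℝ) (J : Finset (Eis × Eis)) (i : ℕ) (k : Eis) :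
    SS f Y E0 (Jv J i) (omL i) k = SS f Y E0 J (omL i) k := by
  classical
  exact SS_restrict f Y E0 J _ (fun x _ hx => omL_supp hx) k

theorem SSb_Jv (B0 : ℝ) (f : ι → Eis → ℂ) (Y : ℕ) (E0 : ℝ) (J : Finset (Eis × Eis)) (i : ℕ)
    (k : Eis) : SSb B0 f Y E0 (Jv J i) (omL i) k = SSb B0 f Y E0 J (omL i) k := by
  classical
  exact SSb_restrict B0 f Y E0 J _ (fun x _ hx => omL_supp hx) k

theorem SST_Jv (T : Finset (ι → Eis)) (f : ι → Eis → ℂ) (E0 : ℝ) (J : Finset (Eis × Eis)) (i : ℕ)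
    (k : Eis) : SST T f E0 (Jv J i) (omL i) k = SST T f E0 J (omL i) k := by
  classical
  exact SSb54.SST_restrict T f E0 J _ (fun x _ hx => omL_supp hx) k

/-- **one level of the structured function** -/
def SfV (e0 r : ℝ) (Bf : ℝ → ℝ → ℝ → ℝ) (Jf : ℝ → ℝ → ℝ → Finset (Eis × Eis)) (i : ℕ) : SF Λ :=
  SfJ π h e0 r Bf Jf fun _ _ _ => omL i

/-- **the structured function with the plateau** : `nf l N z` levels -/
def SfP (e0 r : ℝ) (Bf : ℝ → ℝ → ℝ → ℝ) (Jf : ℝ → ℝ → ℝ → Finset (Eis × Eis)) (nf : ℝ → ℝ → ℝ → ℕ) : SF Λ :=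
  SfJ π h e0 r Bf Jf fun l N z => omP (nf l N z)

/-- **the level split of the middle term** -/
theorem midF_lev (e0 r : ℝ) (Bf : ℝ → ℝ → ℝ → ℝ) (Jf : ℝ → ℝ → ℝ → Finset (Eis × Eis)) (nf : ℝ → ℝ → ℝ → ℕ)
    {lam : Λ × Eis} (hP : (π lam.1).OK) (a : Bd) (ps : List Pq) :
    MidF π h (SfP π h e0 r Bf Jf nf) lam a ps ≤
      ∑ i ∈ range (nf a.l (a3 a) a.z), MidF π h (SfV π h e0 r Bf Jf i) lam a ps :=
  midF_sum π h e0 r Bf Jf _ (fun i _ _ _ => omL i) hP a ps _ fun _ _ => rfl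

/-- **the level split of the tail** -/
theorem tailS_lev (e0 r : ℝ) (Bf : ℝ → ℝ → ℝ → ℝ) (Jf : ℝ → ℝ → ℝ → Finset (Eis × Eis)) (nf : ℝ → ℝ → ℝ → ℕ)
    (R : Λ → ℝ) (lam : Λ × Eis) (a : Bd) (ps : List Pq) :
    TailS π h (SfP π h e0 r Bf Jf nf) R lam a ps ≤
      ∑ i ∈ range (nf a.l (a3 a) a.z), TailS π h (SfV π h e0 r Bf Jf i) R lam a ps :=
  tailS_sum π h e0 r Bf Jf _ (fun i _ _ _ => omL i) R lam a ps _ fun _ _ => rfl

end Crest.Agent.R017.E5L770
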