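import Crest.Agent.R017.E4n_164
import Crest.Agent.R017.E4q_164
import Crest.Agent.R017.E5L_770
import Crest.Agent.R017.E4Ua_164

/-!
# Row 17, R8 / E5, consumer of E4 : the middle term of one level (helper164)

* `MS_coreT`, `mid_E4LT` : `MS_core`, `mid_E4L` for 54's `SST` (any finite set of tuples)
* `MS_zero`, `QK` : only `q` with `N(q)² ≤ K` matter
* `midF_K` : `MidF` through `EL`, outer set `QK a K`
* `b1`, `b2`, `f3` : the arrays; `midV` : `MidF` of one level `SfV`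
-/

set_option autoImplicit false

noncomputable section

open Finset Complex
open scoped ComplexConjugate

namespace Crest.Agent.R017.E4U164

open Crest.Agent.R012 Crest.Agent.R012.Eis Crest.Agent.R012.GaussLoc283
open Crest.Agent.R012.Mob705 hiding pb mem_pb
open Crest.Agent.R012.Div277
open Crest.Agent.R012.LS2 (S mem_S)
open Crest.Agent.R017.Sx545 (Sm)
open Crest.Agent.R017.CM106
open Crest.Agent.R017.PX764 (th Gh n6)
open Crest.Agent.R017.C70 (OKJ)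
open Crest.Agent.R017.E2440
open Crest.Agent.R017.End699 (HC)
open Crest.Agent.R017.HP842 (Pc pc alL)
open Crest.Agent.R017.E5k54 (Core StE_core PT alb)
open Crest.Agent.R017.E5P571 (MS Gd mem_Gd PC BB)
open Crest.Agent.R017.DgA829 (lc lc_prim lc_dvd)
open Crest.Agent.R017.SSb54 (SST SSb PTb mem_PTb PTb_sub)
open Crest.Agent.R017.E5B71
open Crest.Agent.R017.B770 (DPar)
open Crest.Agent.R017.Prov71
open Crest.Agent.R017.FE47 (SM)
open Crest.Agent.R017.SU770 (tw1)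
open Crest.Agent.R017.E4D164
open Crest.Agent.R017.E5L770

/-! ### `MS` through cores, general set of tuples -/

section T

variable {B : Type*} {ι : Type*} [Fintype ι]

open Classical in
/-- `MS` against the structured function -/
theorem MS_coreT {n M : Eis} {ψ : Eis → ℂ} (hM : M ≠ 0) (l : ℤ) {V : ℝ → ℂ} {K : ℝ} (hK : 0 < K)
    (hV : ∀ y, 1 < y → V y = 0) {W : Eis → ℂ}
    (hW : ∀ k, IsPrim k → IsCoprime k n → W k = End699.tw ψ l k * V (nm k / K))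
    {e : Eis} (he : IsPrim e) {s : Eis} (hs : IsPrim s) (cst : ℂ) (fl : ι → Eis → ℂ)
    {T : Finset (ι → Eis)} (hT : ∀ β ∈ T, IsPrim (∏ i, β i)) {E0 : ℝ} (hE0 : 0 ≤ E0) (J : Finset (Eis × Eis)) (om : Eis × Eis → ℂ) (b₁ b₂ : Eis → ℂ) :
    MS n W e (fun k => cst * SST T fl E0 J om k * (CS b₂ k * conj (CS b₁ k))) s =
      cst * ∑ β ∈ T, ∑ e₀ ∈ S E0, ∑ t ∈ Gd n (tS (e * ∏ i, β i)),
        ((mu e₀ : ℂ) * ((muE t : ℤ) : ℂ)) *
          Core n (lc (lc s e₀) t) J (fun x => om x * TE (alb fl β) x e₀)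
            (fun k => Wk (psE M ψ (e * ∏ i, β i)) l (fN M (e * ∏ i, β i)) V K k *
              (conj (CS b₁ k) * CS b₂ k)) := by
  have hβp := hT
  set GG : (ι → Eis) → Eis → ℂ := fun β k =>
    Wk (psE M ψ (e * ∏ i, β i)) l (fN M (e * ∏ i, β i)) V K k *
      (conj (CS b₁ k) * CS b₂ k) with hGG
  have hfin : ∀ β, (Function.support (GG β)).Finite := by
    intro β
    refine (fin_le K).subset fun k hk => ?_
    rw [Set.mem_ofPred_eq]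
    by_contra h
    apply hk
    show Wk _ l _ V K k * _ = 0
    unfold Wk
    rw [hV _ ((one_lt_div hK).mpr (not_le.mp h))]
    ring
  have hfin2 : ∀ β, (Function.support (fun k => GG β k *
      if IsCoprime k (tS (e * ∏ i, β i)) then 1 else 0)).Finite := fun β =>
    (hfin β).subset fun k hk => left_ne_zero_of_mul hk
  have h1 : ∀ k : Eis, (if IsPrim k ∧ IsCoprime k n ∧ s ∣ k then
      W k * sy k e * (cst * SST T fl E0 J om k * (CS b₂ k * conj (CS b₁ k))) else 0) =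
      ∑ β ∈ T, cst * (if IsPrim k ∧ IsCoprime k n ∧ s ∣ k then
        (GG β k * if IsCoprime k (tS (e * ∏ i, β i)) then 1 else 0) *
          StE E0 J om (alb fl β) k else 0) := by
    intro k
    split_ifs with hk
    · rw [SST, Finset.mul_sum, Finset.sum_mul, Finset.mul_sum]
      refine Finset.sum_congr rfl fun β hβ => ?_
      have h2 := Wk_E (M := M) (ψ := ψ) hM (he.mul (hβp β hβ)) l V K k
      have h3 : sy k (e * ∏ i, β i) = sy k e * sy k (∏ i, β i) :=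
        syAx.mul_right _ _ _ he (hβp β hβ)
      rw [h3] at h2
      have h4 : W k = End699.tw ψ l k * V (nm k / K) := hW k hk.1 hk.2.1
      rw [hGG]
      simp only
      calc W k * sy k e * (cst * (sy k (∏ i, β i) * StE E0 J om (alb fl β) k) *
            (CS b₂ k * conj (CS b₁ k)))
          = cst * ((End699.tw ψ l k * V (nm k / K) * (sy k e * sy k (∏ i, β i))) *
              (conj (CS b₁ k) * CS b₂ k) * StE E0 J om (alb fl β) k) := by rw [h4]; ring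
        _ = _ := by rw [h2]; ring
    · simp
  have hsm : ∀ β ∈ T, Summable fun k : Eis => cst *
      (if IsPrim k ∧ IsCoprime k n ∧ s ∣ k then
        (GG β k * if IsCoprime k (tS (e * ∏ i, β i)) then 1 else 0) *
          StE E0 J om (alb fl β) k else 0) := fun β _ =>
    (E5k54.tsum_fin (hfin2 β) (fun k => IsPrim k ∧ IsCoprime k n ∧ s ∣ k) _).mul_left _
  unfold MS
  rw [tsum_congr h1, Summable.tsum_finsetSum hsm, Finset.mul_sum]
  refine Finset.sum_congr rfl fun β hβ => ?_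
  rw [tsum_mul_left, StE_core hs (hfin2 β), Finset.mul_sum, Finset.mul_sum]
  refine Finset.sum_congr rfl fun e₀ he₀ => ?_
  have he₀p : IsPrim e₀ := (mem_primBall.mp (Finset.mem_filter.mp he₀).1).2
  rw [Core_cop (lc_prim hs he₀p) (tS_prim (he.mul (hβp β hβ))) J _ (hfin β), Finset.mul_sum,
    Finset.mul_sum, Finset.mul_sum]
  refine Finset.sum_congr rfl fun t _ => ?_
  ring

open Classical in
/-- **the middle term through `E4L`** -/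
theorem mid_E4LT {n M : Eis} (hn : ∀ p : Eis, Prime p → p ∣ n → p ∣ M) (hn0 : n ≠ 0)
    {ψ : Eis → ℂ} (hψ : HC M ψ) (l : ℤ) {V : ℝ → ℂ} {K : ℝ} (hK : 0 < K)
    (hV : ∀ y, 1 < y → V y = 0) {W : Eis → ℂ}
    (hW : ∀ k, IsPrim k → IsCoprime k n → W k = End699.tw ψ l k * V (nm k / K))
    {e : Eis} (he : IsPrim e) {Q : Finset B} {s : B → Eis} (hs : ∀ b ∈ Q, IsPrim (s b)) (cst : ℂ)
    (fl : ι → Eis → ℂ) {T : Finset (ι → Eis)} (hT : ∀ β ∈ T, IsPrim (∏ i, β i)) {E0 : ℝ} (hE0 : 0 ≤ E0) {J : Finset (Eis × Eis)} (hJ : OKJ J)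
    (om : Eis × Eis → ℂ) {b₁ b₂ : Eis → ℂ} (h₁ : FS b₁) (h₂ : FS b₂) {N₁ N₂ : ℕ}
    (hN₁ : ∀ e₀ t, IsPrim e₀ → IsPrim t → (nm e₀ : ℝ) ≤ E0 →
      (∃ β ∈ T, t ∣ tS (e * ∏ i, β i)) →
      ∀ i ∈ Q ×ˢ J, nm (XI jD (jJ (sE s e₀ t)) i) ≤ N₁)
    (hN₂ : ∀ n m, b₁ n ≠ 0 → b₂ m ≠ 0 → nm (n * m ^ 2) ≤ N₂) :
    ∃ ε : B → ℂ, (∀ b, ‖ε b‖ = 1) ∧
    ∑ b ∈ Q, ‖MS n W e (fun k => cst * SST T fl E0 J om k * (CS b₂ k * conj (CS b₁ k))) (s b)‖ ≤
      ‖cst‖ * ∑ β ∈ T, ∑ e₀ ∈ S E0, ∑ t ∈ Gd n (tS (e * ∏ i, β i)),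
        ∑ c₀ ∈ C4, ∑ g ∈ MC M N₁, ∑ z ∈ MC M N₂, (K : ℝ) ^ (-(2 / 3) : ℝ) *
          ‖EL M ψ l V K Q s ε J om b₁ b₂ (h₁.fin.toFinset ×ˢ h₂.fin.toFinset)
            (e * ∏ i, β i) (alb fl β) e₀ t c₀ g z‖ := by
  have hM := hψ.q0
  set F : Eis → ℂ := fun k => cst * SST T fl E0 J om k * (CS b₂ k * conj (CS b₁ k)) with hF
  set ε : B → ℂ := fun b => ph (MS n W e F (s b)) with hε
  refine ⟨ε, fun b => norm_ph _, ?_⟩
  have hβp := hT
  -- the sum with phases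
  have h1 : ((∑ b ∈ Q, ‖MS n W e F (s b)‖ : ℝ) : ℂ) = cst * ∑ β ∈ T, ∑ e₀ ∈ S E0,
      ∑ t ∈ Gd n (tS (e * ∏ i, β i)), ((mu e₀ : ℂ) * ((muE t : ℤ) : ℂ)) *
        ∑ b ∈ Q, Core n (sE s e₀ t b) J (cE ε om (alb fl β) e₀ b)
          (fun k => Wk (psE M ψ (e * ∏ i, β i)) l (fN M (e * ∏ i, β i)) V K k *
            (conj (CS b₁ k) * CS b₂ k)) := by
    push_cast
    have e1 : ∀ b ∈ Q, ((‖MS n W e F (s b)‖ : ℝ) : ℂ) = cst * ∑ β ∈ T, ∑ e₀ ∈ S E0,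
        ∑ t ∈ Gd n (tS (e * ∏ i, β i)), ((mu e₀ : ℂ) * ((muE t : ℤ) : ℂ)) *
        Core n (sE s e₀ t b) J (cE ε om (alb fl β) e₀ b)
          (fun k => Wk (psE M ψ (e * ∏ i, β i)) l (fN M (e * ∏ i, β i)) V K k *
            (conj (CS b₁ k) * CS b₂ k)) := by
      intro b hb
      have e2 : ((‖MS n W e F (s b)‖ : ℝ) : ℂ) = ε b * MS n W e F (s b) := (ph_mul _).symm
      rw [e2, hF, MS_coreT hM l hK hV hW he (hs b hb) cst fl hT hE0 J om b₁ b₂]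
      rw [← mul_assoc, mul_comm (ε b) cst, mul_assoc, Finset.mul_sum]
      congr 1
      refine Finset.sum_congr rfl fun β _ => ?_
      rw [Finset.mul_sum]
      refine Finset.sum_congr rfl fun e₀ _ => ?_
      rw [Finset.mul_sum]
      refine Finset.sum_congr rfl fun t _ => ?_
      have e3 : ∀ (s' : Eis) (G : Eis → ℂ), Core n s' J (cE ε om (alb fl β) e₀ b) G =
          ε b * Core n s' J (fun x => om x * TE (alb fl β) x e₀) G := by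
        intro s' G
        unfold Core
        rw [← tsum_mul_left]
        refine tsum_congr fun k => ?_
        split_ifs
        · rw [Finset.mul_sum, Finset.mul_sum, Finset.mul_sum]
          refine Finset.sum_congr rfl fun x _ => ?_
          unfold cE
          ring
        · simp
      rw [e3]
      unfold sE
      ring
    rw [Finset.sum_congr rfl e1, ← Finset.mul_sum]
    congr 1
    rw [Finset.sum_comm]
    refine Finset.sum_congr rfl fun β _ => ?_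
    rw [Finset.sum_comm]
    refine Finset.sum_congr rfl fun e₀ _ => ?_
    rw [Finset.sum_comm]
    refine Finset.sum_congr rfl fun t _ => ?_
    rw [Finset.mul_sum]
  have h0 : 0 ≤ ∑ b ∈ Q, ‖MS n W e F (s b)‖ := Finset.sum_nonneg fun _ _ => norm_nonneg _
  have h2 : ∑ b ∈ Q, ‖MS n W e F (s b)‖ = ‖((∑ b ∈ Q, ‖MS n W e F (s b)‖ : ℝ) : ℂ)‖ := by
    rw [Complex.norm_real, Real.norm_of_nonneg h0]
  rw [h2, h1, norm_mul]
  refine mul_le_mul_of_nonneg_left ?_ (norm_nonneg _)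
  refine (norm_sum_le _ _).trans (Finset.sum_le_sum fun β hβ => ?_)
  refine (norm_sum_le _ _).trans (Finset.sum_le_sum fun e₀ he₀ => ?_)
  refine (norm_sum_le _ _).trans (Finset.sum_le_sum fun t ht => ?_)
  have hE := he.mul (hβp β hβ)
  have htm := (mem_Gd (tS_prim hE).ne_zero).mp ht
  have he₀p : IsPrim e₀ := (mem_primBall.mp (Finset.mem_filter.mp he₀).1).2
  have hμ1 : ‖(mu e₀ : ℂ)‖ ≤ 1 := norm_muE_le e₀
  have hμ2 : ‖((muE t : ℤ) : ℂ)‖ ≤ 1 := norm_muE_le t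
  rw [norm_mul, norm_mul]
  have h3 : ‖(mu e₀ : ℂ)‖ * ‖((muE t : ℤ) : ℂ)‖ ≤ 1 := by
    calc _ ≤ (1 : ℝ) * 1 := mul_le_mul hμ1 hμ2 (norm_nonneg _) zero_le_one
      _ = 1 := one_mul 1
  have hse : ∀ b ∈ Q, IsPrim (sE s e₀ t b) := fun b hb =>
    lc_prim (lc_prim (hs b hb) he₀p) htm.1.1
  have h4 := coreJ hn hn0 (hc_psE hψ hE) l hK hV hse hJ
    (c := cE ε om (alb fl β) e₀) (fun b _ x _ hx => TE_cop (by
      unfold cE at hx
      exact right_ne_zero_of_mul (right_ne_zero_of_mul hx))) h₁ h₂ (fM_spec hM hE).2.1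
    (fun i hi => hN₁ e₀ t he₀p htm.1.1 ((mem_S hE0).mp he₀).1 ⟨β, hβ, htm.2.2⟩ i hi) hN₂
  rw [h4]
  refine (mul_le_mul_of_nonneg_right h3 (norm_nonneg _)).trans ?_
  rw [one_mul]
  refine (norm_sum_le _ _).trans (Finset.sum_le_sum fun c₀ _ => ?_)
  refine (norm_sum_le _ _).trans (Finset.sum_le_sum fun g _ => ?_)
  refine (norm_sum_le _ _).trans (Finset.sum_le_sum fun z _ => ?_)
  rw [RCLike.norm_conj, norm_mul, Complex.norm_real, Real.norm_of_nonneg (by positivity)]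
  exact le_rfl

end T

/-! ### large `q` do not matter -/

open Classical in
lemma MS_zero {n : Eis} {W : Eis → ℂ} {e : Eis} {F : Eis → ℂ} {s : Eis}
    (h : ∀ k, IsPrim k → IsCoprime k n → s ∣ k → W k = 0) : MS n W e F s = 0 := by
  unfold E5P571.MS
  refine (tsum_congr fun k => ?_).trans tsum_zero
  split_ifs with hk
  · rw [h k hk.1 hk.2.1 hk.2.2]; ring
  · rfl

open Classical in
/-- the outer set -/
def QK (a : Bd) (K : ℝ) : Finset Eis :=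
  a.𝒟.filter (fun q => IsCoprime q a.d₃ ∧ (nm q : ℝ) ^ 2 ≤ K)

lemma mem_QK {a : Bd} {K : ℝ} {q : Eis} :
    q ∈ QK a K ↔ q ∈ a.𝒟 ∧ IsCoprime q a.d₃ ∧ (nm q : ℝ) ^ 2 ≤ K := by
  classical
  unfold QK
  rw [mem_filter]

variable {Λ : Type*} {ι : Type*} [Fintype ι]

open Classical in
/-- **71's structured middle term through `E4L`**, bounded outer set -/
theorem midF_K {π : Λ → DPar} {h : ℝ → ℝ} {Sf : SF Λ} {lam : Λ × Eis} {a : Bd} {ps : List Pq}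
    (hP : (π lam.1).OK) {R : ℝ} (hR : 0 < R) (hU : ∀ y, R < y → (π lam.1).U y = 0)
    (cst : ℂ) (fl : ι → Eis → ℂ) {T : Finset (ι → Eis)}
    (hT : ∀ β ∈ T, IsPrim (∏ i, β i)) {E0 : ℝ} (hE0 : 0 ≤ E0) {J : Finset (Eis × Eis)}
    (hJ : OKJ J) (om : Eis × Eis → ℂ) {b₁ b₂ : Eis → ℂ} (h₁ : FS b₁) (h₂ : FS b₂)
    (hSf : ∀ k, IsPrim k → Sf.at lam a k = cst * SST T fl E0 J om k)
    (hb₁ : ∀ k, IsPrim k → PC h ((amL ps).map (Pt (π lam.1) lam.2)) k = CS b₁ k)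
    (hb₂ : ∀ k, IsPrim k → PC h ((bs2 a ps).map (Pt (π lam.1) lam.2)) k = CS b₂ k)
    {N₁ N₂ : ℕ}
    (hN₁ : ∀ g e₀ t, IsPrim g → g ∣ a.d₃ → IsPrim e₀ → IsPrim t → (nm e₀ : ℝ) ≤ E0 →
      (∃ β ∈ T, t ∣ tS (a.e * ∏ i, β i)) →
      ∀ i ∈ (QK a (R * Real.exp a.l)) ×ˢ J,
        nm (XI jD (jJ (sE (fun q => q ^ 2 * g) e₀ t)) i) ≤ N₁)
    (hN₂ : ∀ n m, b₁ n ≠ 0 → b₂ m ≠ 0 → nm (n * m ^ 2) ≤ N₂) :
    ∃ ε : Eis → Eis → ℂ, (∀ g q, ‖ε g q‖ = 1) ∧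
    MidF π h Sf lam a ps ≤
      ∑ g ∈ Gd (π lam.1).n a.d₃,
      ‖cst‖ * ∑ β ∈ T, ∑ e₀ ∈ S E0, ∑ t ∈ Gd (π lam.1).n (tS (a.e * ∏ i, β i)),
        ∑ c₀ ∈ C4, ∑ g' ∈ MC (π lam.1).n₃ N₁, ∑ z ∈ MC (π lam.1).n₃ N₂,
          (R * Real.exp a.l : ℝ) ^ (-(2 / 3) : ℝ) *
          ‖EL (π lam.1).n₃ (fun k => conj ((π lam.1).χ₃ k)) (π lam.1).l₃
            (Vt (π lam.1).U a.τ R (R * Real.exp a.l)) (R * Real.exp a.l)
            (QK a (R * Real.exp a.l)) (fun q => q ^ 2 * g) (ε g) J om b₁ b₂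
            (h₁.fin.toFinset ×ˢ h₂.fin.toFinset)
            (a.e * ∏ i, β i) (alb fl β) e₀ t c₀ g' z‖ := by
  set P := π lam.1 with hPdef
  set K : ℝ := R * Real.exp a.l with hKdef
  have hK : 0 < K := mul_pos hR (Real.exp_pos _)
  by_cases hcond : a.ok ∧ lam.2 ∈ SM (π lam.1).n ∧ a.okP (π lam.1)
  swap
  · refine ⟨fun _ _ => 1, fun _ _ => norm_one, ?_⟩
    unfold MidF
    rw [if_neg hcond]
    exact Finset.sum_nonneg fun _ _ => by positivity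
  obtain ⟨hok, hSM, hokP⟩ := hcond
  have hψ : HC P.n₃ (fun k => conj (P.χ₃ k)) := hP.χ₃.conj
  have hn : ∀ p : Eis, Prime p → p ∣ P.n → p ∣ P.n₃ := fun p hp hd => (hP.rad p hp).mpr hd
  have hn0 : P.n ≠ 0 := hP.φ.q0
  have hV : ∀ y, 1 < y → Vt P.U a.τ R K y = 0 := by
    intro y hy
    unfold Vt
    rw [hU _ (by nlinarith), mul_zero]
  have hW : ∀ k, IsPrim k → IsCoprime k P.n →
      Wt P a k = End699.tw (fun k => conj (P.χ₃ k)) P.l₃ k * Vt P.U a.τ R K (nm k / K) := by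
    intro k _ _
    unfold Wt SU770.DPar.wp End699.tw Vt
    have e1 : K * ((nm k : ℝ) / K) = nm k := by field_simp
    have e2 : R * ((nm k : ℝ) / K) = (nm k : ℝ) / Real.exp a.l := by
      rw [hKdef]
      field_simp
    rw [e1, e2]
    push_cast
    ring
  have he : IsPrim a.e := hokP.1.1
  have hq : ∀ q ∈ QK a K, IsPrim q := fun q hq =>
    (hokP.2.2 q (mem_QK.mp hq).1).1.1
  have hd3 : a.d₃ ≠ 0 := hok.2.2
  have key : ∀ g : Eis, ∃ ε : Eis → ℂ, (∀ q, ‖ε q‖ = 1) ∧ (g ∈ Gd P.n a.d₃ →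
      ∑ q ∈ QK a K,
        ‖MS P.n (Wt P a) a.e (fun k => cst * SST T fl E0 J om k * (CS b₂ k * conj (CS b₁ k)))
          (q ^ 2 * g)‖ ≤
      ‖cst‖ * ∑ β ∈ T, ∑ e₀ ∈ S E0, ∑ t ∈ Gd P.n (tS (a.e * ∏ i, β i)),
        ∑ c₀ ∈ C4, ∑ g' ∈ MC P.n₃ N₁, ∑ z ∈ MC P.n₃ N₂, (K : ℝ) ^ (-(2 / 3) : ℝ) *
          ‖EL P.n₃ (fun k => conj (P.χ₃ k)) P.l₃ (Vt P.U a.τ R K) K
            (QK a K) (fun q => q ^ 2 * g) ε J om b₁ b₂
            (h₁.fin.toFinset ×ˢ h₂.fin.toFinset)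
            (a.e * ∏ i, β i) (alb fl β) e₀ t c₀ g' z‖) := by
    intro g
    by_cases hg : g ∈ Gd P.n a.d₃
    · have hgm := (mem_Gd hd3).mp hg
      obtain ⟨ε, h1, h2⟩ := mid_E4LT (B := Eis) hn hn0 hψ P.l₃ hK hV hW he
        (Q := QK a K) (s := fun q => q ^ 2 * g)
        (fun q hq' => ((hq q hq').pow 2).mul hgm.1.1) cst fl hT hE0 hJ om h₁ h₂ (N₁ := N₁)
        (N₂ := N₂) (fun e₀ t he₀ ht hle hex i hi =>
          hN₁ g e₀ t hgm.1.1 hgm.2.2 he₀ ht hle hex i hi) hN₂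
      exact ⟨ε, h1, fun _ => h2⟩
    · exact ⟨fun _ => 1, fun _ => norm_one, fun h => absurd h hg⟩
  choose ε h1 h2 using key
  refine ⟨ε, h1, ?_⟩
  unfold MidF
  rw [if_pos ⟨hok, hSM, hokP⟩, Finset.sum_comm]
  refine Finset.sum_le_sum fun g hg => ?_
  have hgm := (mem_Gd hd3).mp hg
  refine le_trans (le_of_eq ?_) (h2 g hg)
  have hsub : QK a K ⊆ a.𝒟.filter (fun q => IsCoprime q a.d₃) := by
    intro q hq'
    rw [mem_QK] at hq'
    exact mem_filter.mpr ⟨hq'.1, hq'.2.1⟩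
  rw [← Finset.sum_subset hsub]
  · refine Finset.sum_congr rfl fun q _ => ?_
    congr 1
    refine MS_congr (fun k hk => ?_) _
    unfold BB
    rw [hSf k hk, List.append_nil, hb₁ k hk, hb₂ k hk]
  · intro q hq1 hq2
    rw [mem_filter] at hq1
    rw [norm_eq_zero]
    refine MS_zero fun k hk hkn hdk => ?_
    rw [hW k hk hkn, hV, mul_zero]
    rw [one_lt_div hK]
    have hqp : IsPrim q := (hokP.2.2 q hq1.1).1.1
    have h3 : K < (nm q : ℝ) ^ 2 := by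
      by_contra hle
      exact hq2 (mem_QK.mpr ⟨hq1.1, hq1.2, not_lt.mp hle⟩)
    have h4 : nm (q ^ 2) ≤ nm k := nm_le_of_dvd hk.ne_zero ((dvd_mul_right _ _).trans hdk)
    rw [nm_pow] at h4
    have h5 : (nm q : ℝ) ^ 2 ≤ nm k := by exact_mod_cast h4
    linarith

/-! ### the arrays -/

section arrays

variable (P : DPar) (h : ℝ → ℝ) (t : Eis) (a : Bd) (ps : List Pq)

/-- the amplifier side -/
def b1 : Eis → ℂ := alL h ((amL ps).map (Pt P t))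

/-- the two-lump side -/
def b2 : Eis → ℂ := alL h ((bs2 a ps).map (Pt P t))

/-- the three-lump side -/
def f3 (i : Fin 3) : Eis → ℂ := pc h (Pt P t ((![a.us 2, a.us 3, a.us 4] : Fin 3 → Pq) i))

lemma ok_Pt (hP : P.OK) (p : Pq) : (Pt P t p).OK where
  ch := (Pq.ok hP p).ch.mul' (Char766.isChar_sy t)
  Y0 := (Pq.ok hP p).Y0

variable {P h t a ps}

lemma fs_b1 (hP : P.OK) (hh : Bump h) : FS (b1 P h t ps) := by
  refine fs_alL hh fun p hp => ?_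
  obtain ⟨q, -, rfl⟩ := List.mem_map.1 hp
  exact ok_Pt P t hP q

lemma fs_b2 (hP : P.OK) (hh : Bump h) : FS (b2 P h t a ps) := by
  refine fs_alL hh fun p hp => ?_
  obtain ⟨q, -, rfl⟩ := List.mem_map.1 hp
  exact ok_Pt P t hP q

lemma CS_b1 (hP : P.OK) (hh : Bump h) (k : Eis) :
    PC h ((amL ps).map (Pt P t)) k = CS (b1 P h t ps) k := by
  unfold b1
  rw [CS_alL hh fun p hp => by
    obtain ⟨q, -, rfl⟩ := List.mem_map.1 hp
    exact ok_Pt P t hP q]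
  rfl

lemma CS_b2 (hP : P.OK) (hh : Bump h) (k : Eis) :
    PC h ((bs2 a ps).map (Pt P t)) k = CS (b2 P h t a ps) k := by
  unfold b2
  rw [CS_alL hh fun p hp => by
    obtain ⟨q, -, rfl⟩ := List.mem_map.1 hp
    exact ok_Pt P t hP q]
  rfl

end arrays

/-! ### one level -/

/-- the bound of the three-lump side -/
def Y3 (a : Bd) (r : ℝ) : ℕ := ⌊Real.exp (a3 a + r)⌋₊

/-- the tuples -/
def T3 (Bf : ℝ → ℝ → ℝ → ℝ) (a : Bd) (r : ℝ) : Finset (Fin 3 → Eis) :=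
  PTb (Fin 3) (Y3 a r) (Real.exp (Bf a.l (a3 a) a.z))

lemma PT_prim {ι' : Type*} [Fintype ι'] {Y : ℕ} {β : ι' → Eis} (h : β ∈ PT ι' Y) :
    IsPrim (∏ i, β i) := by
  classical
  unfold E5k54.PT at h
  rw [Finset.mem_filter, Fintype.mem_piFinset] at h
  exact prim_prodI _ _ fun i => (mem_primBall.mp (h.1 i)).2

lemma T3_prim {Bf : ℝ → ℝ → ℝ → ℝ} {a : Bd} {r : ℝ} : ∀ β ∈ T3 Bf a r, IsPrim (∏ i, β i) :=
  fun _ hβ => PT_prim (mem_PTb.mp hβ).1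

/-- the classes of one level -/
def J3 (Jf : ℝ → ℝ → ℝ → Finset (Eis × Eis)) (a : Bd) (i : ℕ) : Finset (Eis × Eis) :=
  Jv (Jf a.l (a3 a) a.z) i

lemma okJ3 {Jf : ℝ → ℝ → ℝ → Finset (Eis × Eis)} (hJf : ∀ l N z, OKJ (Jf l N z)) (a : Bd) (i : ℕ) :
    OKJ (J3 Jf a i) where
  prim x hx := (hJf _ _ _).prim x (mem_Jv.mp hx).1
  sqf x hx := (hJf _ _ _).sqf x (mem_Jv.mp hx).1
  jc x hx := (hJf _ _ _).jc x (mem_Jv.mp hx).1

theorem at_SfV (π : Λ → DPar) (h : ℝ → ℝ) (e0 r : ℝ) (Bf : ℝ → ℝ → ℝ → ℝ) (Jf : ℝ → ℝ → ℝ → Finset (Eis × Eis)) (i : ℕ)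
    (lam : Λ × Eis) (a : Bd) (k : Eis) :
    SF.at (SfV π h e0 r Bf Jf i) lam a k =
      (pC : ℂ) * SST (T3 Bf a r) (f3 (π lam.1) h lam.2 a) (Real.exp (e0 * a.l)) (J3 Jf a i)
        (omL i) k := by
  unfold SF.at SfV SfJ J3 T3
  rw [SST_Jv, sum_a3]
  rfl

open Classical in
/-- **the middle term of one level** -/
theorem midV {π : Λ → DPar} {h : ℝ → ℝ} (hh : Bump h) {lam : Λ × Eis} (hP : (π lam.1).OK)
    {R : ℝ} (hR : 0 < R) (hU : ∀ y, R < y → (π lam.1).U y = 0) (e0 r : ℝ)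
    (Bf : ℝ → ℝ → ℝ → ℝ) {Jf : ℝ → ℝ → ℝ → Finset (Eis × Eis)} (hJf : ∀ l N z, OKJ (Jf l N z)) (i : ℕ) (a : Bd)
    (ps : List Pq) {N₁ N₂ : ℕ}
    (hN₁ : ∀ g e₀ t, IsPrim g → g ∣ a.d₃ → IsPrim e₀ → IsPrim t →
      (nm e₀ : ℝ) ≤ Real.exp (e0 * a.l) →
      (∃ β ∈ T3 Bf a r, t ∣ tS (a.e * ∏ i, β i)) →
      ∀ x ∈ (QK a (R * Real.exp a.l)) ×ˢ J3 Jf a i,
        nm (XI jD (jJ (sE (fun q => q ^ 2 * g) e₀ t)) x) ≤ N₁)
    (hN₂ : ∀ n m, b1 (π lam.1) h lam.2 ps n ≠ 0 → b2 (π lam.1) h lam.2 a ps m ≠ 0 →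
      nm (n * m ^ 2) ≤ N₂) :
    ∃ ε : Eis → Eis → ℂ, (∀ g q, ‖ε g q‖ = 1) ∧
    MidF π h (SfV π h e0 r Bf Jf i) lam a ps ≤
      ∑ g ∈ Gd (π lam.1).n a.d₃,
      ‖(pC : ℂ)‖ * ∑ β ∈ T3 Bf a r, ∑ e₀ ∈ S (Real.exp (e0 * a.l)),
        ∑ t ∈ Gd (π lam.1).n (tS (a.e * ∏ i, β i)),
        ∑ c₀ ∈ C4, ∑ g' ∈ MC (π lam.1).n₃ N₁, ∑ z ∈ MC (π lam.1).n₃ N₂,
          (R * Real.exp a.l : ℝ) ^ (-(2 / 3) : ℝ) *
          ‖EL (π lam.1).n₃ (fun k => conj ((π lam.1).χ₃ k)) (π lam.1).l₃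
            (Vt (π lam.1).U a.τ R (R * Real.exp a.l)) (R * Real.exp a.l)
            (QK a (R * Real.exp a.l)) (fun q => q ^ 2 * g) (ε g) (J3 Jf a i) (omL i)
            (b1 (π lam.1) h lam.2 ps) (b2 (π lam.1) h lam.2 a ps)
            ((fs_b1 (t := lam.2) (ps := ps) hP hh).fin.toFinset ×ˢ
              (fs_b2 (t := lam.2) (a := a) (ps := ps) hP hh).fin.toFinset)
            (a.e * ∏ i, β i) (alb (f3 (π lam.1) h lam.2 a) β) e₀ t c₀ g' z‖ :=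
  midF_K hP hR hU (pC : ℂ) (f3 (π lam.1) h lam.2 a) T3_prim (Real.exp_pos _).le
    (okJ3 hJf a i) (omL i) (fs_b1 hP hh) (fs_b2 hP hh) (fun k _ => at_SfV π h e0 r Bf Jf i lam a k)
    (fun k _ => CS_b1 hP hh k) (fun k _ => CS_b2 hP hh k) hN₁ hN₂

end Crest.Agent.R017.E4U164
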