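import Crest.Agent.R017.VFalb_436
import Crest.Agent.R017.TwQ_61
import Crest.Agent.R017.E4Ub_164

/-!
# Row 17, E4 : the dictionary of the T-energy (helper436)

* `f3_eq`    : 164's three-lump side as pieces of 61's `tU P t`
* `Adm_alb`  : `alb f β` is admissible at the scale `exp (Σ z - log N(∏ β))`
* `J3_win`, `omL_bd` : the window and the bound of `omL i` on `J3`
* `T3_spec`  : the tuples of `T3`
* `VF_f3`    : `VF_alb` for the three-lump side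
-/

set_option autoImplicit false

noncomputable section

open Finset
open scoped ComplexConjugate

namespace Crest.Agent.R017.VFa436

open Crest.Agent.R012 Crest.Agent.R012.Eis Crest.Agent.R012.LS2 Crest.Agent.R012.Gauss880
open Crest.Agent.R012.Mob705 hiding pb mem_pb
open Crest.Agent.R012.Weight600 (osc pw)
open Crest.Agent.R017.CM106 (FS TG)
open Crest.Agent.R017.HP842 Crest.Agent.R017.FE47
open Crest.Agent.R017.End699 (prin0)
open Crest.Agent.R017.B770 Crest.Agent.R017.Prov71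
open Crest.Agent.R017.Rough381 (VF)
open Crest.Agent.R017.I1146 (ChN LN cN SN)
open Crest.Agent.R017.E5k54 (alb PT)
open Crest.Agent.R017.P1e54 (alb_ne alb_prim)
open Crest.Agent.R017.E1551 (sg tws Adm)
open Crest.Agent.R017.E5B71 (Bd Pt)
open Crest.Agent.R017.E5L770 (omL Jv mem_Jv lv a3 wLc_bd)
open Crest.Agent.R017.SSb54 (PTb mem_PTb)
open Crest.Agent.R017.E4U164 (f3 T3 J3 Y3)
open Crest.Agent.R017.TwP61 (tU Pt_eq tU_OK)

/-! ### the three-lump side -/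

/-- the three lumps -/
def us3 (a : Bd) : Fin 3 → Pq := ![a.us 2, a.us 3, a.us 4]

/-- **164's three-lump side** -/
theorem f3_eq (P : DPar) (h : ℝ → ℝ) (t : Eis) (a : Bd) :
    f3 P h t a = fun i => pc h ((us3 a i).pc (tU P t)) := by
  funext i
  unfold f3
  rw [Pt_eq]
  rfl

lemma sum_us3 (a : Bd) : ∑ i, (us3 a i).z = a3 a := E5L770.sum_a3 a

/-! ### admissibility -/

variable {n : ℕ}

/-- the support of a piece -/
lemma pc_win {h : ℝ → ℝ} {R : ℝ} (hR : ∀ u, cx h u ≠ 0 → |u| ≤ R) (P : DPar) (p : Pq) {m : Eis}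
    (hm : pc h (p.pc P) m ≠ 0) : IsPrim m ∧ |Real.log (nm m) - p.z| ≤ R := by
  have h1 := pc_prim hm
  refine ⟨h1, ?_⟩
  unfold pc at hm
  rw [if_pos h1] at hm
  have h2 : HSep813.gw h (p.pc P).Y (p.pc P).t m ≠ 0 := right_ne_zero_of_mul hm
  unfold HSep813.gw at h2
  have h3 := hR _ (right_ne_zero_of_mul h2)
  rwa [Pq.pc_Y, Real.log_exp] at h3

/-- **`alb` is admissible** -/
theorem Adm_alb {h : ℝ → ℝ} {R : ℝ} (hR0 : 0 ≤ R) (hR : ∀ u, cx h u ≠ 0 → |u| ≤ R) {N : ℕ}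
    (P : DPar) (p : Fin n → Pq) (hn : n ≤ N) {β : Fin n → Eis} (hβ : ∀ i, IsPrim (β i)) {Y : ℝ}
    (hY : Real.exp (∑ i, (p i).z - Real.log (nm (∏ i, β i)) + N * R) ≤ Y) :
    Adm Y (Real.exp (∑ i, (p i).z - Real.log (nm (∏ i, β i)))) (2 * (N * R))
      (alb (fun i => pc h ((p i).pc P)) β) := by
  have key : ∀ m, alb (fun i => pc h ((p i).pc P)) β m ≠ 0 → IsPrim m ∧ Squarefree m ∧
      |Real.log (nm m) - (∑ i, (p i).z - Real.log (nm (∏ i, β i)))| ≤ N * R := by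
    intro m hm
    obtain ⟨h1, -, x, hx, hne⟩ := alb_ne (f := fun i => pc h ((p i).pc P)) (β := β) hm
    have h2 : IsPrim m := alb_prim (f := fun i => pc h ((p i).pc P))
      (fun i m hm => pc_prim hm) hβ hm
    refine ⟨h2, h1, ?_⟩
    have h3 : ∀ i, IsPrim (β i * x i) ∧ |Real.log (nm (β i * x i)) - (p i).z| ≤ R := fun i =>
      pc_win hR P (p i) (hne i)
    have hxp : ∀ i, IsPrim (x i) := fun i => (h3 i).1.of_mul_left (hβ i)
    have hbp : ∀ i, (0 : ℝ) < nm (β i) := fun i => by exact_mod_cast nm_pos.2 (hβ i).ne_zero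
    have hxpos : ∀ i, (0 : ℝ) < nm (x i) := fun i => by exact_mod_cast nm_pos.2 (hxp i).ne_zero
    have e1 : Real.log (nm m) = ∑ i, Real.log (nm (x i)) := by
      rw [← hx, nm_prodF, Real.log_prod fun i _ => (hxpos i).ne']
    have e2 : Real.log (nm (∏ i, β i)) = ∑ i, Real.log (nm (β i)) := by
      rw [nm_prodF, Real.log_prod fun i _ => (hbp i).ne']
    have e3 : Real.log (nm m) - (∑ i, (p i).z - Real.log (nm (∏ i, β i))) =
        ∑ i, (Real.log (nm (β i * x i)) - (p i).z) := by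
      have e4 : ∀ i ∈ (univ : Finset (Fin n)), Real.log (nm (β i * x i)) - (p i).z =
          Real.log (nm (β i)) + Real.log (nm (x i)) - (p i).z := by
        intro i _
        rw [nm_mul]
        push_cast
        rw [Real.log_mul (hbp i).ne' (hxpos i).ne']
      rw [e1, e2, sum_congr rfl e4, sum_sub_distrib, sum_add_distrib]
      ring
    rw [e3]
    refine (abs_sum_le_sum_abs _ _).trans ((sum_le_sum fun i _ => (h3 i).2).trans ?_)
    rw [sum_const, card_univ, Fintype.card_fin, nsmul_eq_mul]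
    exact mul_le_mul_of_nonneg_right (by exact_mod_cast hn) hR0
  have hY0 : 0 ≤ Y := (Real.exp_pos _).le.trans hY
  refine ⟨fun m hm => ?_, fun m hm => ?_⟩
  · obtain ⟨h1, h2, h3⟩ := key m hm
    refine (mem_S hY0).2 ⟨le_trans ?_ hY, h1, h2⟩
    have h4 : (0 : ℝ) < nm m := by exact_mod_cast nm_pos.2 h1.ne_zero
    rw [← Real.exp_log h4]
    exact Real.exp_le_exp.2 (by linarith [(abs_le.1 h3).2])
  · obtain ⟨-, -, h3⟩ := key m hm
    rw [Real.log_exp]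
    linarith

/-! ### the classes of one level -/

lemma two_pow_exp (i : ℕ) : Real.exp (Real.log 2 * i) = 2 ^ i := by
  rw [Real.exp_mul, Real.exp_log two_pos, Real.rpow_natCast]

/-- **the window of a level** -/
theorem Jv_win {J : Finset (Eis × Eis)} (hJ : C70.OKJ J) {i : ℕ} {x : Eis × Eis}
    (hx : x ∈ Jv J i) :
    (2 : ℝ) ^ i / 2 ≤ nm (x.2 * x.1 ^ 2) ∧ (nm (x.2 * x.1 ^ 2) : ℝ) ≤ 2 * 2 ^ i := by
  obtain ⟨h1, h2⟩ := mem_Jv.1 hx
  have h0 : x.2 * x.1 ^ 2 ≠ 0 := by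
    refine mul_ne_zero ?_ (pow_ne_zero 2 (hJ.prim x h1).ne_zero)
    exact (E5b54.JC_cf (hJ.jc x h1)).1
  have hp : (0 : ℝ) < nm (x.2 * x.1 ^ 2) := by exact_mod_cast nm_pos.2 h0
  have h3 := abs_le.1 h2
  unfold E5L770.lv at h3
  have e2 : Real.exp (Real.log 2) = 2 := Real.exp_log two_pos
  constructor
  · have h4 : Real.exp (Real.log 2 * i - Real.log 2) ≤
        Real.exp (Real.log (nm (x.2 * x.1 ^ 2))) := Real.exp_le_exp.2 (by linarith)
    rw [Real.exp_log hp, Real.exp_sub, two_pow_exp, e2] at h4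
    exact h4
  · have h4 : Real.exp (Real.log (nm (x.2 * x.1 ^ 2))) ≤
        Real.exp (Real.log 2 + Real.log 2 * i) := Real.exp_le_exp.2 (by linarith)
    rw [Real.exp_log hp, Real.exp_add, two_pow_exp, e2] at h4
    exact h4

/-- **the window functions are bounded** -/
theorem omL_bd : ∃ B : ℝ, 0 ≤ B ∧ ∀ (i : ℕ) (x : Eis × Eis), ‖omL i x‖ ≤ B := by
  obtain ⟨B, hB, H⟩ := wLc_bd 0
  refine ⟨B, hB, fun i x => ?_⟩
  have := H i (lv x)
  rw [iteratedDeriv_zero] at this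
  exact this

/-- the tuples of `T3` -/
theorem T3_spec {Bf : ℝ → ℝ → ℝ → ℝ} {a : Bd} {r : ℝ} {β : Fin 3 → Eis} (hβ : β ∈ T3 Bf a r) :
    (∀ i, IsPrim (β i)) ∧ (nm (∏ i, β i) : ℝ) ≤ Real.exp (Bf a.l (a3 a) a.z) := by
  obtain ⟨h1, h2⟩ := mem_PTb.1 hβ
  exact ⟨P1e54.mem_PT h1, h2⟩

/-! ### the three-lump side -/

/-- the three-lump side is admissible -/
theorem Adm_f3 {h : ℝ → ℝ} {R : ℝ} (hR0 : 0 ≤ R) (hR : ∀ u, cx h u ≠ 0 → |u| ≤ R) (P : DPar)
    (t : Eis) (a : Bd) {β : Fin 3 → Eis} (hβ : ∀ i, IsPrim (β i)) {Y : ℝ}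
    (hY : Real.exp (a3 a - Real.log (nm (∏ i, β i)) + 3 * R) ≤ Y) :
    Adm Y (Real.exp (a3 a - Real.log (nm (∏ i, β i)))) (2 * (3 * R)) (alb (f3 P h t a) β) := by
  rw [f3_eq]
  have := Adm_alb (N := 3) (Y := Y) hR0 hR (tU P t) (us3 a) le_rfl hβ (by
    rw [sum_us3]
    push_cast
    exact hY)
  rw [sum_us3] at this
  push_cast at this
  exact this

/-- **`VF_alb` for the three-lump side** -/
theorem VF_f3 {h : ℝ → ℝ} {c : ℝ} (hpu : PU h c) {B₀ : ℝ} (hB₀ : 0 ≤ B₀) {ε : ℝ}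
    (hε : 0 < ε) {M : ℝ} (hM : 0 ≤ M) : ∃ C r : ℝ, 1 ≤ C ∧ 0 ≤ r ∧ ∀ X : ℝ, 1 ≤ X →
    ∀ (P : DPar), P.OK → ∀ t₀ ∈ SM P.n, ∀ (q : Eis) (a : Bd),
    (∀ i, (us3 a i).z ≤ B₀ * Real.log X) → ∀ β : Fin 3 → Eis, (∀ i, IsPrim (β i)) →
    ∀ g : Eis, IsPrim g → Squarefree g → (nm g : ℝ) ≤ X ^ B₀ →
    ∀ k t : ℝ, 0 ≤ k → k ≤ B₀ * Real.log X → ∀ Bd : ℝ, 0 ≤ Bd →
    (∀ (l : ℝ) (ps' : List Pq), 0 ≤ l → List.Forall₂ (ChN r) ps' (List.ofFn (us3 a)) →
      |LN ps' - (a3 a - Real.log (nm (∏ i, β i)) - Real.log (nm g))| ≤ r →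
      |l - k| ≤ r →
      SN ((∏ i, β i) * g * q) (tU P t₀) h l ps' ≤ Bd * cN ps' (List.ofFn (us3 a)) ^ M) →
    VF (Real.exp k) (fun m => tws (sg (alb (f3 P h t₀ a) β) g) t m * prin0 q m) ≤
      C * X ^ ε * (Bd * (1 + |t|) ^ (3 * M)) := by
  obtain ⟨C, r, hC, hr, H⟩ := VF_alb hpu 3 hB₀ hε hM
  refine ⟨C, r, hC, hr, ?_⟩
  intro X hX P hP t₀ ht₀ q a hz β hβ g hg hgs hgX k t hk hkX Bd hBd hyp
  rw [f3_eq]
  have := H X hX (tU P t₀) (tU_OK hP ht₀) q 3 (us3 a) le_rfl hz β hβ g hg hgs hgX k t hk hkX Bd hBd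
    (by rw [LN_ofFn, sum_us3]; exact hyp)
  push_cast at this
  exact this

end Crest.Agent.R017.VFa436
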