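import Crest.Agent.R017.XLgB_347
import Crest.Agent.R017.XLgC_347
import Crest.Agent.R017.XLgL_347

/-!
# Row 17, block C70, leaf E4 (x-side): the cells of `XNumC LTc` at the frame (helper347)

* **`cells_frN`** : `cells_LT` at the data of one frame, class N
-/

set_option autoImplicit false
set_option linter.unusedVariables false
set_option maxHeartbeats 400000

noncomputable section

open Complex Finset
open scoped ComplexConjugate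

namespace Crest.Agent.R017.XLg347

open Crest.Agent.R012 Crest.Agent.R012.Eis Crest.Agent.R012.Mob705
open Crest.Agent.R017.CM106 (CS TG FS)
open Crest.Agent.R017.FE47 (PU SM)
open Crest.Agent.R017.End699 (HC)
open Crest.Agent.R017.B770
open Crest.Agent.R017.Sup271 (NPm)
open Crest.Agent.R017.Prov71
open Crest.Agent.R017.HP842 (Pc pc)
open Crest.Agent.R017.E5k54 (alb)
open Crest.Agent.R017.E5B71
open Crest.Agent.R017.E5L770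
open Crest.Agent.R017.E4U164
open Crest.Agent.R017.E4Us512
open Crest.Agent.R017.TEM792 (LD nL)
open Crest.Agent.R017.E4zc92
open Crest.Agent.R017.E4X92
open Crest.Agent.R017.E4zg92 hiding XC
open Crest.Agent.R017.E4Xb681 (XS AA Nbn)
open Crest.Agent.R017.YsU61 (TwOK)
open Crest.Agent.R017.RXn770

/-- **the cells of `XNumC LTc`, class N** -/
theorem cells_frN {h : ℝ → ℝ} {c₀ : ℝ} (hpu : PU h c₀) {d : ℝ} (hd : 0 ≤ d) (hd8 : d ≤ 1 / 8)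
    (HR : RCl (fun P : LamN => P.1) h d) {Λ : Type*} {π : Λ → DPar} (hP : ∀ lam, (π lam).OK)
    (hcl : ∀ lam, ∀ k : Eis, k ≠ 0 → NPm (π lam).n (π lam).ψ (π lam).l₂ k)
    (hQ : ∀ lam, (π lam).CaseD ∨ (π lam).l₁ ≠ -4) {A : ℝ} (hA : 2 / 3 ≤ A) (e0 r : ℝ)
    {Rw : ℝ} (hRw : 0 ≤ Rw) {ε : ℝ} (hε : 0 < ε) (lam : Λ × Eis) (N : ℕ) (B A1 : ℝ)
    (tt : (Eis → ℂ) × ℤ) (hD : ¬ (π lam.1).CaseD) (hs : lam.2 ∈ SM (π lam.1).n)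
    (ht : TwOK (π lam.1) tt) :
    ∃ (Mη : Eis) (M : ℕ) (C cw : ℝ) (A' : ℕ) (X₀ : ℝ), HC Mη tt.1 ∧
      (∀ p : Eis, Prime p → p ∣ Mη → p ∣ (π lam.1).n₃) ∧ 0 ≤ C ∧ 1 ≤ cw ∧ 1 < A' ∧ 1 < X₀ ∧
      ∀ X : ℝ, X₀ ≤ X → ∀ δ δ' : ℝ, δ ≤ 1 / 2 → 0 ≤ δ' →
      ∀ (a : Bd × ℕ) (ps : List Pq) (q : (Option (Fin 3 ⊕ Fin 5) → ℝ) × (Kd → ℝ)),
      FrL A d δ δ' B X N a ps q → a.1.ok → a.1.okP (π lam.1) →
      ∀ (Bf : ℝ → ℝ → ℝ → ℝ) (ε' X' : ℝ) (x : Dt), x.OK (π lam.1) Bf e0 r ε' X' a.1 →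
      ∀ dd : XD, dd.x.α = alb (f3 (π lam.1) h lam.2 a.1) x.β → dd.x.Y ≤ (X ^ A1) ^ 3 →
      ∀ (OO : Finset (Eis × Eis)) (m : Fin 2 → Fin 3 → ℕ) (β₀ s₁ : Eis) (l : ℕ)
        (ξ Nα : ℝ), E4zg92.XC dd OO m β₀ → dd.x.V = 2 ^ l →
        dd.x.g₀ = E4Bd783.gx tt.1 tt.2 ξ →
        dd.x.Om = (fun t => ((E5L770.wL l (Real.log t) : ℝ) : ℂ)) → XS dd.x Nα Rw →
        (∀ n, IsCoprime n dd.x.M → IsCoprime n Mη) →
        (∀ n, dd.x.α n ≠ 0 → IsCoprime n Mη) →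
      ∀ L : (Fin 12 → ℕ) → ℝ, (∀ n, 0 < L n) →
        (∀ n, 1 ≤ L n → 8 * (L n * Real.exp Rw) < Nbn dd.x Nα n) →
      ∀ (bm : Eis × Eis → Eis → ℂ) (Mb Ek : ℝ),
        dd.x.HO cw OO (vC dd.x dd.P dd.kk dd.κ') bm dd.kk dd.κ' dd.qc Mb Ek →
        Cells dd cw OO bm
          (fun i n k => AA dd.x (C * dd.x.Y ^ ε * (1 + |ξ|) ^ A') Nα (L n)
            (Wn dd.x X (X ^ δ') d (cu (dn q.1) 4 + δ)
              (nL X ![a.1.us 2, a.1.us 3, a.1.us 4] x.β) ε Nα M m L n k) n i) s₁ := by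
  have h4 : (π lam.1).l₁ ≠ -4 := (hQ lam.1).resolve_left hD
  obtain ⟨Mη, hη, hrad, hNP⟩ := rwN_tw (hP lam.1) (hcl lam.1) hD h4 ht
  obtain ⟨K₁, X₁, hK₁, hX₁, HL⟩ := XLgL347.ld_of hA d e0 r N B
  obtain ⟨K, hK⟩ : ∃ K : ℝ, K = max K₁ (3 * A1) := ⟨_, rfl⟩
  have hKK : K₁ ≤ K := by rw [hK]; exact le_max_left _ _
  have hK3 : 3 * A1 ≤ K := by rw [hK]; exact le_max_right _ _
  have hK1 : 1 ≤ K := hK₁.trans hKK
  obtain ⟨M, C, cw, A', hC, hcw, hA', H1⟩ := cells_LT hpu hd hd8 HR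
    (⟨π lam.1, hP lam.1, hcl lam.1⟩ : LamN) hη tt.2
    (fun p hp hpd => ((hP lam.1).rad p hp).1 (hrad p hp hpd)) hNP hε hK1 hRw
  obtain ⟨X₂, hX₂, H2⟩ := H1 lam.2 hs.1
  refine ⟨Mη, M, C, cw, A', max X₁ X₂, hη, hrad, hC, hcw, hA', lt_max_of_lt_left hX₁, ?_⟩
  intro X hX δ δ' hδ hδ' a ps q hFr ha haP Bf ε' X' x hx dd hα hY OO m β₀ s₁ l ξ Nα hXC hV hg₀
    hOm hS hcM hcα L hL hLN bm Mb Ek HO
  have hX1' : X₁ ≤ X := (le_max_left _ _).trans hX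
  have hX2' : X₂ ≤ X := (le_max_right _ _).trans hX
  have hX1 : 1 < X := lt_of_lt_of_le hX₁ hX1'
  have hX0 : 0 < X := by linarith
  have hlog : 0 < Real.log X := Real.log_pos hX1
  obtain ⟨-, -, HL2⟩ := HL X hX1' δ δ' hδ a ps q hFr ha (π lam.1) haP
  obtain ⟨hLD, -⟩ := HL2 Bf ε' X' x hx
  have hH : 1 ≤ X ^ δ' := Real.one_le_rpow hX1.le hδ'
  have hbot : ∃ i, ((![a.1.us 2, a.1.us 3, a.1.us 4] : Fin 3 → Pq) i).z ≤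
      (cu (dn q.1) 4 + δ) * Real.log X := by
    obtain ⟨i, hi⟩ := XLgL347.z_bot hFr
    exact ⟨i, (div_le_iff₀ hlog).1 hi⟩
  have hYK : dd.x.Y ≤ X ^ K := by
    refine hY.trans ?_
    rw [← Real.rpow_natCast, ← Real.rpow_mul hX0.le]
    refine Real.rpow_le_rpow_of_exponent_le hX1.le ?_
    push_cast
    linarith
  exact H2 X hX2' (X ^ δ') hH _ _ (LD_mono hX1 hKK hLD) _ hbot dd OO m β₀ s₁ l ξ Nα hXC hV hg₀
    hOm hS hcM hcα hα hYK L _ hL (fun n k => Wn_nonneg hX0.le (by linarith) _ _ _ _ _ _ _ _ _ _)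
    hLN (fun n k h1L => (Wn_eq h1L).ge) bm Mb Ek HO

end Crest.Agent.R017.XLg347
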