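import Crest.Agent.R017.E4defs_352

/-!
# Row 17, E4: the dual bilinear bound `LBd` (helper783)

From the common lemma `BWx` (sum over `IxS` with weights; 47 / 858), `LSep` (92) and `LStr` (401).
-/

set_option autoImplicit false

noncomputable section

open Complex MeasureTheory
open scoped ComplexConjugate

namespace Crest.Agent.R017.E4Bd783

open Crest.Agent.R012 Crest.Agent.R012.Eis Crest.Agent.R012.Mob705 Crest.Agent.R012.Gauss880
open Crest.Agent.R012.Div277 Crest.Agent.R012.PSer47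
open Crest.Agent.R017.Sx545 Crest.Agent.R017.CM106 Crest.Agent.R017.C70 Crest.Agent.R017.C590
open Crest.Agent.R017.End699 Crest.Agent.R017.B770 Crest.Agent.R017.Sx440
open Crest.Agent.R017.E4352 Crest.Agent.R017.E2440

/-! ### the twist -/

/-- the twist `η ang^J N^{iξ}` -/
def gx (η : Eis → ℂ) (J : ℤ) (ξ : ℝ) (y : Eis) : ℂ := End699.tw η J y * (nm y : ℂ) ^ (I * ξ)

lemma gx_isChar {q : Eis} {η : Eis → ℂ} (h : HC q η) (J : ℤ) (ξ : ℝ) : IsChar (gx η J ξ) := by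
  have h1 := (h.isChar_tw J).mul' (nmTwist_isChar ξ)
  have e : gx η J ξ = fun b => End699.tw η J b * (nm b : ℂ) ^ (ξ * I) := by
    funext y
    unfold gx
    rw [mul_comm I]
  rw [e]
  exact h1

lemma nm_cpow {y : Eis} (hy : y ≠ 0) (ξ : ℝ) :
    (nm y : ℂ) ^ (I * ξ) = Complex.exp (I * ξ * (Real.log (nm y) : ℝ)) := by
  have h0 : (nm y : ℂ) ≠ 0 := by
    exact_mod_cast (nm_pos.mpr hy).ne'
  rw [Complex.cpow_def_of_ne_zero h0, mul_comm]
  congr 1
  rw [Complex.ofReal_log (Nat.cast_nonneg _)]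
  simp

lemma tws_gx {R b : Eis} {v g : Eis → ℂ} (hg : IsChar g) (hR : IsPrim R)
    (hv : ∀ x, v x ≠ 0 → IsPrim x) (y : Eis) :
    tws R b (fun y => sy y b) (fun x => v x * g x) y =
      g R * tws R b (fun y => sy y b * g y) v y := by
  unfold E4352.tws
  split_ifs with h
  · dsimp only
    by_cases h0 : v (R * y) = 0
    · rw [h0]; ring
    · have h1 : IsPrim (R * y) := hv _ h0
      have h2 : IsPrim y := h1.of_mul_left hR
      rw [hg.mul _ _ hR h2]
      ring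
  · rw [mul_zero]

lemma sd_gx {R b k : Eis} {v g : Eis → ℂ} (hg : IsChar g) (hR : IsPrim R)
    (hv : ∀ x, v x ≠ 0 → IsPrim x) :
    ‖Sd (tws R b (fun y => sy y b) (fun x => v x * g x)) k‖ ≤
      ‖Sd (tws R b (fun y => sy y b * g y) v) k‖ := by
  unfold Sd
  have e : ∀ x, tws R b (fun y => sy y b) (fun x => v x * g x) x * conj (gs x k) =
      g R * (tws R b (fun y => sy y b * g y) v x * conj (gs x k)) := by
    intro x
    rw [tws_gx hg hR hv]
    ring
  rw [tsum_congr e, tsum_mul_left, norm_mul]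
  exact mul_le_of_le_one_left (norm_nonneg _) (hg.norm_le hR)

lemma cs_gx {R b k : Eis} {v g : Eis → ℂ} (hg : IsChar g) (hR : IsPrim R)
    (hv : ∀ x, v x ≠ 0 → IsPrim x) :
    ‖CS (tws R b (fun y => sy y b) (fun x => v x * g x)) k‖ ≤
      ‖CS (tws R b (fun y => sy y b * g y) v) k‖ := by
  unfold CS
  have e : ∀ x, tws R b (fun y => sy y b) (fun x => v x * g x) x * sy k x =
      g R * (tws R b (fun y => sy y b * g y) v x * sy k x) := by
    intro x
    rw [tws_gx hg hR hv]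
    ring
  rw [tsum_congr e, tsum_mul_left, norm_mul]
  exact mul_le_of_le_one_left (norm_nonneg _) (hg.norm_le hR)

lemma twC_gx {M' b : Eis} {J : ℤ} {η : Eis → ℂ} (h : HC M' η) (hb : IsPrim b) (ξ : ℝ) :
    TwC M' J b ξ (fun y => sy y b * gx η J ξ y) := by
  refine ⟨b, 1, η, J, hb, isPrim_one, fun p _ hp => by simpa using hp, h, Or.inr rfl, fun y => ?_⟩
  unfold gx
  rw [Char766.sy_one_right, map_one]
  ring

/-! ### the dual series: truncation -/

open Classical in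
/-- index set -/
def DK (M : Eis) (K l : ℝ) : Finset Eis :=
  (primBall ⌊K⌋₊).filter (fun d => Sm M d ∧ (nm d : ℝ) * l ≤ K)

open Classical in
lemma mem_DK {M d : Eis} {K l : ℝ} (hl : 1 ≤ l) : d ∈ DK M K l ↔ Sm M d ∧ (nm d : ℝ) * l ≤ K := by
  unfold DK
  rw [Finset.mem_filter, mem_primBall]
  refine ⟨fun h => h.2, fun h => ⟨⟨?_, h.1.prim⟩, h⟩⟩
  refine Nat.le_floor ?_
  have := h.2
  have h1 : (0 : ℝ) ≤ nm d := Nat.cast_nonneg _
  nlinarith

open Classical in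
lemma d3_tail {M : Eis} {χ : Eis → ℂ} (hχ : ∀ d, IsPrim d → ‖χ d‖ ≤ 1) {W : ℝ → ℂ} {B : ℝ} {n : ℕ}
    (hB : 0 ≤ B) (hW : ∀ y : ℝ, 0 < y → ‖W y‖ ≤ B * (y ^ (n + 2))⁻¹) {u : Eis} {Y K P l : ℝ}
    (hY : 0 < Y) (hK : 0 < K) (hP : 0 < P) (hl : 1 ≤ l) (hYP : Y * l ≤ P) :
    ‖D3 M χ u W Y - ∑ d ∈ DK M K l, conj (gs u d) * (χ d * (nm d : ℂ)⁻¹ * W (nm d / Y))‖ ≤
      B * (P / K) ^ n * P ^ 2 * K0 := by
  set F : Eis → ℂ := fun d => if Sm M d then
    conj (gs u d) * (χ d * (nm d : ℂ)⁻¹ * W (nm d / Y)) else 0 with hF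
  set G : Eis → ℂ := fun d => if d ∈ DK M K l then 0 else F d with hG
  have hbd : ∀ d, ‖G d‖ ≤ (B * (P / K) ^ n * P ^ 2) * ((nm d : ℝ) ^ 2)⁻¹ := by
    intro d
    have hc : 0 ≤ (B * (P / K) ^ n * P ^ 2) * ((nm d : ℝ) ^ 2)⁻¹ := by positivity
    simp only [hG, hF]
    split_ifs with h1 h2
    · rw [norm_zero]; exact hc
    · have hd := h2.ne_zero
      have hn := one_le_nm hd
      have hn0 : (0 : ℝ) < nm d := by linarith
      have hKd : K < nm d * l := by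
        by_contra hcon
        exact h1 ((mem_DK hl).mpr ⟨h2, not_lt.mp hcon⟩)
      have hW1 := hW (nm d / Y) (by positivity)
      have e1 : ((nm d / Y : ℝ) ^ (n + 2))⁻¹ = (Y / nm d) ^ n * (Y / nm d) ^ 2 := by
        rw [← pow_add, ← inv_pow, inv_div]
      have h3 : Y / nm d ≤ P / K := by
        rw [div_le_div_iff₀ hn0 hK]
        have : Y * K ≤ Y * (nm d * l) := mul_le_mul_of_nonneg_left hKd.le hY.le
        nlinarith [mul_le_mul_of_nonneg_right hYP hn0.le]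
      have h4 : Y / nm d ≤ P / nm d := by
        apply div_le_div_of_nonneg_right _ hn0.le
        nlinarith
      have h5 : ‖W (nm d / Y)‖ ≤ B * ((P / K) ^ n * (P / nm d) ^ 2) := by
        refine hW1.trans ?_
        rw [e1]
        gcongr
      rw [norm_mul, norm_mul, norm_mul, RCLike.norm_conj, norm_inv, Complex.norm_natCast]
      have h6 : ‖gs u d‖ ≤ nm d := GaussLoc283.norm_gs_le GaussLoc283.syAx u h2.prim
      calc ‖gs u d‖ * (‖χ d‖ * (nm d : ℝ)⁻¹ * ‖W (nm d / Y)‖)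
          ≤ nm d * (1 * (nm d : ℝ)⁻¹ * (B * ((P / K) ^ n * (P / nm d) ^ 2))) := by
            have := hχ d h2.prim
            gcongr
        _ = _ := by
            field_simp
    · rw [norm_zero]; exact hc
  have hGs : Summable G := Summable.of_norm_bounded (summable_nm2.mul_left _) hbd
  have h1 : HasSum (fun d => if d ∈ DK M K l then F d else 0) (∑ d ∈ DK M K l, F d) := by
    have h0 : HasSum (fun d => if d ∈ DK M K l then F d else 0)
        (∑ d ∈ DK M K l, if d ∈ DK M K l then F d else 0) :=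
      hasSum_sum_of_ne_finset_zero fun d hd => if_neg hd
    rwa [Finset.sum_congr rfl (fun d hd => if_pos hd)] at h0
  have h2 : HasSum F (∑' d, G d + ∑ d ∈ DK M K l, F d) := by
    have h3 := hGs.hasSum.add h1
    have e : (fun d => G d + if d ∈ DK M K l then F d else 0) = F := by
      funext d
      simp only [hG]
      split_ifs <;> simp
    rwa [e] at h3
  have h4 : D3 M χ u W Y = ∑' d, F d := by
    unfold D3 E2440.DS
    rfl
  have h5 : ∑ d ∈ DK M K l, conj (gs u d) * (χ d * (nm d : ℂ)⁻¹ * W (nm d / Y)) =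
      ∑ d ∈ DK M K l, F d := by
    refine Finset.sum_congr rfl fun d hd => ?_
    simp only [hF]
    rw [if_pos ((mem_DK hl).mp hd).1]
  rw [h4, h5, h2.tsum_eq, add_sub_cancel_right]
  refine (tsum_of_norm_bounded (summable_nm2.mul_left _).hasSum hbd).trans (le_of_eq ?_)
  rw [tsum_mul_left]
  rfl

/-! ### the separation of a finite sum -/

lemma sum_sep {ι : Type*} (s : Finset ι) (a c : ι → ℂ) (σ : ι → ℝ) {h : ℝ → ℂ} (hc : Continuous h)
    (hi : Integrable h) (he : ∀ i ∈ s, a i ≠ 0 → c i = ∫ ξ : ℝ, h ξ * Complex.exp (I * ξ * σ i))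
    {G : ℝ → ℝ} (hG : Integrable G)
    (hb : ∀ ξ : ℝ, ‖h ξ‖ * ‖∑ i ∈ s, a i * Complex.exp (I * ξ * σ i)‖ ≤ G ξ) :
    ‖∑ i ∈ s, a i * c i‖ ≤ ∫ ξ, G ξ := by
  have h1 : ∀ i, Integrable (fun ξ : ℝ => h ξ * Complex.exp (I * ξ * σ i)) := by
    intro i
    refine hi.norm.mono' ?_ (Filter.Eventually.of_forall fun ξ => ?_)
    · exact (hc.mul (by fun_prop)).aestronglyMeasurable
    · rw [norm_mul]
      have : ‖Complex.exp (I * ξ * σ i)‖ = 1 := by
        rw [show I * (ξ : ℂ) * σ i = ((ξ * σ i : ℝ) : ℂ) * I by push_cast; ring]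
        exact Complex.norm_exp_ofReal_mul_I _
      rw [this, mul_one]
  have h2 : ∑ i ∈ s, a i * c i =
      ∫ ξ : ℝ, h ξ * ∑ i ∈ s, a i * Complex.exp (I * ξ * σ i) := by
    have e : ∀ ξ : ℝ, h ξ * ∑ i ∈ s, a i * Complex.exp (I * ξ * σ i) =
        ∑ i ∈ s, a i * (h ξ * Complex.exp (I * ξ * σ i)) := by
      intro ξ
      rw [Finset.mul_sum]
      exact Finset.sum_congr rfl fun i _ => by ring
    simp_rw [e]
    rw [integral_finsetSum _ fun i _ => (h1 i).const_mul _]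
    refine Finset.sum_congr rfl fun i hi => ?_
    rw [integral_const_mul]
    by_cases h0 : a i = 0
    · rw [h0, zero_mul, zero_mul]
    · rw [← he i hi h0]
  rw [h2]
  refine norm_integral_le_of_norm_le hG (Filter.Eventually.of_forall fun ξ => ?_)
  rw [norm_mul]
  exact hb ξ

/-! ### the common lemma -/

/-- the common lemma (47 / 858), as a hypothesis -/
def BWx : Prop := ∀ ε : ℝ, 0 < ε → ∃ C : ℝ, 0 ≤ C ∧
  ∀ (M f : Eis) (O : Type) (_ : Fintype O) (lam : O → ℝ) (v w : O → Eis → ℂ) (X K : ℝ)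
    (Bd : ℝ → ℝ → ℝ) (S : ℝ) (g : Eis → Eis → ℂ), Dat4 M f lam v w X → 0 < K → K ≤ X ^ 2 →
    0 ≤ S → BdC Bd →
    (∀ b R Z κ, Sm M b → PrI b R → PrI b Z → (∀ p : Eis, Prime p → p ∣ b → p ∣ f * R * Z) →
      0 < κ → PBo M lam b R Z (g b) v w κ ≤ Bd κ (nm (rd Z))) →
    (∀ b₁ b₃ κ : ℝ, 1 ≤ b₁ → 1 ≤ b₃ → 1 / 4 ≤ κ → κ * b₁ ^ 2 * b₃ ^ 3 ≤ K →
      b₁ ^ (1 / 2 : ℝ) * b₃ * κ ^ (-(1 / 2) : ℝ) * Bd κ (b₁ * b₃) ≤ S) →
    ∑ o, ∑ d ∈ DK M K (lam o), ((nm d : ℝ) * lam o)⁻¹ *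
      ∑ i ∈ IxS f d X, ‖gs (f * i.2.1 * i.2.2) i.1.1‖ *
        (‖Sd (tws i.2.1 i.1.1 (g i.1.1) (v o)) i.1.2‖ *
          ‖CS (tws i.2.2 i.1.1 (g i.1.1) (w o)) i.1.2‖) ≤ C * X ^ ε * S

section main

variable {M f : Eis} {O : Type} [Fintype O] {lam : O → ℝ} {v w : O → Eis → ℂ} {X : ℝ}

open Classical in
lemma mem_IxS {d : Eis} {i : (Eis × Eis) × (Eis × Eis)} (hi : i ∈ IxS f d X) :
    IsPrim i.2.1 ∧ IsPrim i.2.2 ∧ IsPrim i.1.1 ∧ IsPrim i.1.2 := by
  unfold IxS at hi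
  rw [Finset.mem_filter, Finset.mem_product, Finset.mem_product] at hi
  exact ⟨hi.2.2.2.2.2.1.1, hi.2.2.2.2.2.2.1.1, isPrim_of_mem_dvs hi.1.1.1, isPrim_of_mem_dvs hi.1.1.2⟩

lemma lstr_gx (hL : LStr) (D : Dat4 M f lam v w X) {g : Eis → ℂ} (hg : IsChar g) (o : O) {d : Eis}
    (hd : Sm M d) :
    ‖∑' x : Eis, (v o x * g x) * ∑' y : Eis, (w o y * g y) * conj (gs (f * x * y) d)‖ ≤
      ∑ i ∈ IxS f d X, ‖gs (f * i.2.1 * i.2.2) i.1.1‖ *
        (‖Sd (tws i.2.1 i.1.1 (fun y => sy y i.1.1 * g y) (v o)) i.1.2‖ *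
          ‖CS (tws i.2.2 i.1.1 (fun y => sy y i.1.1 * g y) (w o)) i.1.2‖) := by
  have hs : ∀ {c : Eis → ℂ}, SSm M c → SSm M (fun x => c x * g x) := fun {c} hc =>
    ⟨hc.fin.subset fun x hx h0 => hx (by simp [show c x = 0 from h0]),
      fun y hy => hc.sm y (left_ne_zero_of_mul hy)⟩
  refine (hL M f d (fun x => v o x * g x) (fun y => w o y * g y) X D.hf.1 hd (hs (D.hv o))
    (hs (D.hw o)) (fun x hx => D.vx o x (left_ne_zero_of_mul hx))
    (fun y hy => D.wy o y (left_ne_zero_of_mul hy))).trans ?_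
  refine Finset.sum_le_sum fun i hi => ?_
  obtain ⟨h1, h2, -, -⟩ := mem_IxS hi
  refine mul_le_mul_of_nonneg_left ?_ (norm_nonneg _)
  exact mul_le_mul (sd_gx hg h1 fun x hx => ((D.hv o).sm x hx).prim)
    (cs_gx hg h2 fun x hx => ((D.hw o).sm x hx).prim) (norm_nonneg _) (norm_nonneg _)

end main

lemma wt_one {m n : ℕ} {B : ℝ} {W : ℝ → ℂ} (hB : 0 ≤ B) (hn : 1 ≤ n) (h : WT m n B W) :
    WT m 1 B W := by
  refine ⟨h.smooth, fun k hk y hy => (h.dec k hk y hy).trans ?_⟩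
  apply mul_le_mul_of_nonneg_left _ hB
  rcases le_or_gt y 1 with h1 | h1
  · rw [pow_one]
    have : 1 ≤ y⁻¹ := (one_le_inv₀ hy).mpr h1
    rw [min_eq_left this]
    exact min_le_left _ _
  · apply min_le_min le_rfl
    apply inv_anti₀ (by positivity)
    exact pow_le_pow_right₀ h1.le hn

lemma wt_norm {m n : ℕ} {B : ℝ} {W : ℝ → ℂ} (hB : 0 ≤ B) (h : WT m n B W) {y : ℝ} (hy : 0 < y) :
    ‖W y‖ ≤ B * (y ^ n)⁻¹ := by
  have h1 := h.dec 0 (Nat.zero_le _) y hy
  rw [iteratedDeriv_zero, Real.exp_log hy] at h1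
  exact h1.trans (mul_le_mul_of_nonneg_left (min_le_right _ _) hB)

lemma int_two : Integrable (fun ξ : ℝ => (1 + |ξ|) ^ (-(2 : ℝ))) := by
  have := integrable_one_add_norm (E := ℝ) (μ := volume) (r := 2) (by simp)
  simpa [Real.norm_eq_abs] using this

/-- the sum at one height -/
lemma height {M M' f : Eis} {J : ℤ} {η : Eis → ℂ} {O : Type} [Fintype O] {lam : O → ℝ}
    {v w : O → Eis → ℂ} {X K A CB ε S ξ : ℝ} {Bd : ℝ → ℝ → ℝ} (hη : HC M' η)
    (hCB : ∀ (M f : Eis) (O : Type) (_ : Fintype O) (lam : O → ℝ) (v w : O → Eis → ℂ) (X K : ℝ)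
      (Bd : ℝ → ℝ → ℝ) (S : ℝ) (g : Eis → Eis → ℂ), Dat4 M f lam v w X → 0 < K → K ≤ X ^ 2 →
      0 ≤ S → BdC Bd →
      (∀ b R Z κ, Sm M b → PrI b R → PrI b Z → (∀ p : Eis, Prime p → p ∣ b → p ∣ f * R * Z) →
        0 < κ → PBo M lam b R Z (g b) v w κ ≤ Bd κ (nm (rd Z))) →
      (∀ b₁ b₃ κ : ℝ, 1 ≤ b₁ → 1 ≤ b₃ → 1 / 4 ≤ κ → κ * b₁ ^ 2 * b₃ ^ 3 ≤ K →
        b₁ ^ (1 / 2 : ℝ) * b₃ * κ ^ (-(1 / 2) : ℝ) * Bd κ (b₁ * b₃) ≤ S) →
      ∑ o, ∑ d ∈ DK M K (lam o), ((nm d : ℝ) * lam o)⁻¹ *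
        ∑ i ∈ IxS f d X, ‖gs (f * i.2.1 * i.2.2) i.1.1‖ *
          (‖Sd (tws i.2.1 i.1.1 (g i.1.1) (v o)) i.1.2‖ *
            ‖CS (tws i.2.2 i.1.1 (g i.1.1) (w o)) i.1.2‖) ≤ CB * X ^ ε * S)
    (hStr : LStr) (D : Dat4 M f lam v w X) (hK : 0 < K) (hKX : K ≤ X ^ 2) (hS : 0 ≤ S)
    (hBd : BdC Bd)
    (hPB : ∀ b R Z g ξ κ, Sm M b → PrI b R → PrI b Z →
        (∀ p : Eis, Prime p → p ∣ b → p ∣ f * R * Z) → TwC M' J b ξ g → 0 < κ →
        PBo M lam b R Z g v w κ ≤ (1 + |ξ|) ^ A * Bd κ (nm (rd Z)))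
    (hnum : ∀ b₁ b₃ κ : ℝ, 1 ≤ b₁ → 1 ≤ b₃ → 1 / 4 ≤ κ → κ * b₁ ^ 2 * b₃ ^ 3 ≤ K →
        b₁ ^ (1 / 2 : ℝ) * b₃ * κ ^ (-(1 / 2) : ℝ) * Bd κ (b₁ * b₃) ≤ S) :
    ∑ o, ∑ d ∈ DK M K (lam o), ((nm d : ℝ) * lam o)⁻¹ *
      ‖∑' x : Eis, (v o x * gx η J ξ x) * ∑' y : Eis, (w o y * gx η J ξ y) *
        conj (gs (f * x * y) d)‖ ≤ CB * X ^ ε * ((1 + |ξ|) ^ A * S) := by
  have hξ : 0 ≤ (1 + |ξ|) ^ A := by positivity
  refine le_trans ?_ (hCB M f O _ lam v w X K (fun κ z => (1 + |ξ|) ^ A * Bd κ z)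
    ((1 + |ξ|) ^ A * S) (fun b y => sy y b * gx η J ξ y) D hK hKX (by positivity)
    ⟨fun κ z => mul_nonneg hξ (hBd.nn κ z), fun κ z z' h1 h2 =>
      mul_le_mul_of_nonneg_left (hBd.anti κ z z' h1 h2) hξ⟩
    (fun b R Z κ hb hR hZ hp hκ => hPB b R Z _ ξ κ hb hR hZ hp (twC_gx hη hb.prim ξ) hκ)
    (fun b₁ b₃ κ h1 h3 hκ h => ?_))
  · refine Finset.sum_le_sum fun o _ => Finset.sum_le_sum fun d hd => ?_
    have hd' := ((mem_DK (D.lam1 o).1).mp hd).1
    have := (D.lam1 o).1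
    exact mul_le_mul_of_nonneg_left (lstr_gx hStr D (gx_isChar hη J ξ) o hd') (by positivity)
  · have := mul_le_mul_of_nonneg_left (hnum b₁ b₃ κ h1 h3 hκ h) hξ
    refine le_trans (le_of_eq ?_) this
    ring

/-- the term identity -/
lemma term_eq {f : Eis} {J : ℤ} {η : Eis → ℂ} {M' : Eis} (hη : HC M' η) {vx wy q c G : ℂ}
    {x y : Eis} (hf : IsPrim f) (hx : vx ≠ 0 → IsPrim x) (hy : wy ≠ 0 → IsPrim y) {ξ e : ℝ} :
    vx * (wy * (q * (End699.tw η J (f * x * y) * (G * c)))) *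
      Complex.exp (I * ξ * ((e - Real.log (nm f) - Real.log (nm x) - Real.log (nm y) : ℝ) : ℂ)) =
    (q * (c * (Complex.exp (I * ξ * e) * gx η J (-ξ) f))) *
      ((vx * gx η J (-ξ) x) * ((wy * gx η J (-ξ) y) * G)) := by
  by_cases h1 : vx = 0
  · rw [h1]; ring
  by_cases h2 : wy = 0
  · rw [h2]; ring
  have hx' := hx h1
  have hy' := hy h2
  have ht := hη.isChar_tw J
  rw [ht.mul _ _ (hf.mul hx') hy', ht.mul _ _ hf hx']
  unfold gx
  rw [nm_cpow hf.ne_zero, nm_cpow hx'.ne_zero, nm_cpow hy'.ne_zero]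
  have e1 : Complex.exp (I * ξ * ((e - Real.log (nm f) - Real.log (nm x) - Real.log (nm y) : ℝ) :
      ℂ)) = Complex.exp (I * ξ * e) * (Complex.exp (I * ((-ξ : ℝ) : ℂ) * (Real.log (nm f) : ℝ)) *
        (Complex.exp (I * ((-ξ : ℝ) : ℂ) * (Real.log (nm x) : ℝ)) *
          Complex.exp (I * ((-ξ : ℝ) : ℂ) * (Real.log (nm y) : ℝ)))) := by
    rw [← Complex.exp_add, ← Complex.exp_add, ← Complex.exp_add]
    congr 1
    push_cast
    ring
  rw [e1]
  ring

lemma norm_exp_I (a b : ℝ) : ‖Complex.exp (I * a * b)‖ = 1 := by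
  rw [show I * (a : ℂ) * b = ((a * b : ℝ) : ℂ) * I by push_cast; ring]
  exact Complex.norm_exp_ofReal_mul_I _

set_option maxHeartbeats 2000000 in
open Classical in
/-- **L7d** from the common lemma, the separation of the weight and the separation at one `d` -/
theorem lBd (hBW : BWx) (hSep : LSep) (hStr : LStr) : LBd := by
  intro M M' J η ψ' l' ρ hη hψ hMM hM0 hrad hρ ε A hε hA
  obtain ⟨CB, hCB0, hCB⟩ := hBW (ε / 2) (by positivity)
  set J₂ : ℕ := ⌈A⌉₊ + 2 with hJ₂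
  obtain ⟨CS₁, hCS0, hCS⟩ := hSep J₂ (by omega)
  set e₁ : ℝ := min ε 1 with he₁
  have he₁0 : 0 < e₁ := lt_min hε one_pos
  set n : ℕ := ⌈(8 + A) / e₁⌉₊ with hn
  have hnA : 8 + A ≤ e₁ * n := by
    have := Nat.le_ceil ((8 + A) / e₁)
    rw [div_le_iff₀ he₁0] at this
    linarith
  set I2 : ℝ := ∫ ξ : ℝ, (1 + |ξ|) ^ (-(2 : ℝ)) with hI2
  have hI20 : 0 ≤ I2 := integral_nonneg fun ξ => by positivity
  set CL : ℝ := 5 * (2 / ε) + |Real.log ρ| + 1 with hCL
  have hCL0 : 0 ≤ CL := by positivity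
  have hK00 := K0_nonneg
  refine ⟨CB * (CS₁ * CL * I2) + 10 ^ 4 * (K0 * ρ ^ (n + 2)), J₂ + 2, n + 2, by positivity, ?_⟩
  intro f O _ lam v w X Q Kd B W Bd S D hXQ hQX hKd hKdX hB hS hBd hW hsup hPB hnum
  have hX1 := D.X1
  have hX0 : 0 < X := by linarith
  have hQ0 : 0 < Q := lt_of_lt_of_le (inv_pos.mpr hX0) hXQ
  set K : ℝ := Kd * X ^ e₁ with hK
  have hXe1 : 1 ≤ X ^ e₁ := Real.one_le_rpow hX1 he₁0.le
  have hK0 : 0 < K := by positivity
  have hKX : K ≤ X ^ 2 := by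
    have : X ^ e₁ ≤ X := by
      calc X ^ e₁ ≤ X ^ (1 : ℝ) := Real.rpow_le_rpow_of_exponent_le hX1 (min_le_right _ _)
        _ = X := Real.rpow_one X
    rw [sq]
    exact mul_le_mul hKdX this (by positivity) hX0.le
  have hlam : ∀ o, 0 < lam o := fun o => lt_of_lt_of_le one_pos (D.lam1 o).1
  have hf0 : f ≠ 0 := D.hf.1.ne_zero
  set PX := primBall ⌊X⌋₊ with hPX
  have hPv : ∀ o x, v o x ≠ 0 → x ∈ PX := fun o x hx => by
    rw [hPX, mem_primBall]
    exact ⟨Nat.le_floor (D.vx o x hx).2, ((D.hv o).sm x hx).prim⟩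
  have hPw : ∀ o x, w o x ≠ 0 → x ∈ PX := fun o x hx => by
    rw [hPX, mem_primBall]
    exact ⟨Nat.le_floor (D.wy o x hx), ((D.hw o).sm x hx).prim⟩
  -- the pieces
  set Y : O → Eis → Eis → ℝ := fun o x y => ρ * nm (f * x * y) / (Q / lam o) with hY
  set m : O → Eis → Eis → ℂ := fun o x y => ∑ d ∈ DK M K (lam o), conj (gs (f * x * y) d) *
    (End699.tw ψ' l' d * (nm d : ℂ)⁻¹ * W (nm d / Y o x y)) with hm
  set T : ℝ := B * (ρ * Kd / K) ^ n * (ρ * Kd) ^ 2 * K0 with hT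
  have hχ : ∀ d, IsPrim d → ‖End699.tw ψ' l' d‖ ≤ 1 := fun d hd => (hψ.isChar_tw l').norm_le hd
  have hηn : ∀ d, IsPrim d → ‖End699.tw η J d‖ ≤ 1 := fun d hd => (hη.isChar_tw J).norm_le hd
  have hpr : ∀ o x y, v o x ≠ 0 → w o y ≠ 0 → IsPrim (f * x * y) := fun o x y h1 h2 =>
    (D.hf.1.prim.mul ((D.hv o).sm x h1).prim).mul ((D.hw o).sm y h2).prim
  have hYpos : ∀ o x y, v o x ≠ 0 → w o y ≠ 0 → 0 < Y o x y := fun o x y h1 h2 => by
    have h3 : (0 : ℝ) < nm (f * x * y) := by exact_mod_cast nm_pos.mpr (hpr o x y h1 h2).ne_zero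
    have h4 := hlam o
    simp only [hY]
    positivity
  have htail : ∀ o x y, v o x ≠ 0 → w o y ≠ 0 →
      ‖D3 M (End699.tw ψ' l') (f * x * y) W (Y o x y) - m o x y‖ ≤ T := by
    intro o x y h1 h2
    refine d3_tail hχ hB (fun z hz => wt_norm hB hW hz) (hYpos o x y h1 h2) hK0 (by positivity)
      (D.lam1 o).1 ?_
    simp only [hY]
    have h3 := hsup o x y h1 h2
    have h4 := hlam o
    rw [div_div_eq_mul_div, div_mul_eq_mul_div, div_le_iff₀ hQ0]
    calc ρ * (nm (f * x * y) : ℝ) * lam o * lam o = ρ * (nm (f * x * y) * lam o ^ 2) := by ring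
      _ ≤ ρ * (Kd * Q) := by gcongr
      _ = ρ * Kd * Q := by ring
  -- splitting
  have hsplit : ∑ o, ∑' x : Eis, v o x * ∑' y : Eis, w o y * (((Q / lam o : ℝ) : ℂ) *
        (End699.tw η J (f * x * y) *
          D3 M (End699.tw ψ' l') (f * x * y) W (ρ * nm (f * x * y) / (Q / lam o)))) =
      (∑ o, ∑ x ∈ PX, ∑ y ∈ PX, v o x * (w o y * (((Q / lam o : ℝ) : ℂ) *
        (End699.tw η J (f * x * y) * m o x y)))) +
      ∑ o, ∑ x ∈ PX, ∑ y ∈ PX, v o x * (w o y * (((Q / lam o : ℝ) : ℂ) *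
        (End699.tw η J (f * x * y) *
          (D3 M (End699.tw ψ' l') (f * x * y) W (Y o x y) - m o x y)))) := by
    rw [← Finset.sum_add_distrib]
    refine Finset.sum_congr rfl fun o _ => ?_
    rw [← Finset.sum_add_distrib, tsum_eq_sum (s := PX) (fun x hx => by
      have : v o x = 0 := by
        by_contra h
        exact hx (hPv o x h)
      rw [this, zero_mul])]
    refine Finset.sum_congr rfl fun x _ => ?_
    rw [← Finset.sum_add_distrib, tsum_eq_sum (s := PX) (fun y hy => by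
      have : w o y = 0 := by
        by_contra h
        exact hy (hPw o y h)
      rw [this, zero_mul]), Finset.mul_sum]
    refine Finset.sum_congr rfl fun y _ => ?_
    simp only [hY]
    ring
  rw [hsplit]
  -- the tail
  have hcard : ((PX.card : ℕ) : ℝ) ≤ 100 * X := by
    refine (Lat277.card_primBall_le _).trans ?_
    have := Nat.floor_le hX0.le
    linarith
  have hb2 : ‖∑ o, ∑ x ∈ PX, ∑ y ∈ PX, v o x * (w o y * (((Q / lam o : ℝ) : ℂ) *
        (End699.tw η J (f * x * y) *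
          (D3 M (End699.tw ψ' l') (f * x * y) W (Y o x y) - m o x y))))‖ ≤
      10 ^ 4 * (K0 * ρ ^ (n + 2)) * (B * X ^ (-A)) := by
    have hT0 : 0 ≤ T := by positivity
    have h1 : ‖∑ o, ∑ x ∈ PX, ∑ y ∈ PX, v o x * (w o y * (((Q / lam o : ℝ) : ℂ) *
        (End699.tw η J (f * x * y) *
          (D3 M (End699.tw ψ' l') (f * x * y) W (Y o x y) - m o x y))))‖ ≤
        ∑ _o : O, ∑ _x ∈ PX, ∑ _y ∈ PX, X * (X * (X * (1 * T))) := by
      refine (norm_sum_le _ _).trans (Finset.sum_le_sum fun o _ => ?_)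
      refine (norm_sum_le _ _).trans (Finset.sum_le_sum fun x _ => ?_)
      refine (norm_sum_le _ _).trans (Finset.sum_le_sum fun y _ => ?_)
      by_cases h1 : v o x = 0
      · rw [h1, zero_mul, norm_zero]; positivity
      by_cases h2 : w o y = 0
      · rw [h2, zero_mul, mul_zero, norm_zero]; positivity
      rw [norm_mul, norm_mul, norm_mul, norm_mul]
      have h3 : ‖((Q / lam o : ℝ) : ℂ)‖ ≤ X := by
        rw [Complex.norm_real, Real.norm_eq_abs, abs_of_nonneg (by have := hlam o; positivity)]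
        rw [div_le_iff₀ (hlam o)]
        have := (D.lam1 o).1
        nlinarith
      have h4 := htail o x y h1 h2
      have h5 := hηn _ (hpr o x y h1 h2)
      have h6 := D.vb o x
      have h7 := D.wb o y
      gcongr
    refine h1.trans ?_
    simp only [Finset.sum_const, nsmul_eq_mul, Finset.card_univ]
    have h2 : ρ * Kd / K = ρ * X ^ (-e₁) := by
      rw [hK, Real.rpow_neg hX0.le]
      field_simp
    have h3 : T ≤ B * (K0 * ρ ^ (n + 2)) * (X ^ (-(e₁ * n)) * X ^ 2) := by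
      have h4 : (X ^ (-e₁)) ^ n = X ^ (-(e₁ * n)) := by
        rw [← Real.rpow_natCast, ← Real.rpow_mul hX0.le]
        congr 1
        ring
      rw [hT, h2, mul_pow, h4, mul_pow ρ Kd]
      have h5 : Kd ^ 2 ≤ X ^ 2 := by gcongr
      calc B * (ρ ^ n * X ^ (-(e₁ * n))) * (ρ ^ 2 * Kd ^ 2) * K0
          = B * (K0 * ρ ^ (n + 2)) * (X ^ (-(e₁ * n)) * Kd ^ 2) := by ring
        _ ≤ _ := by gcongr
    have h6 : X ^ (-(e₁ * n)) * X ^ 8 ≤ X ^ (-A) := by
      rw [← Real.rpow_natCast X 8, ← Real.rpow_add hX0]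
      apply Real.rpow_le_rpow_of_exponent_le hX1
      push_cast
      linarith
    calc (Fintype.card O : ℝ) * ((PX.card : ℝ) * ((PX.card : ℝ) * (X * (X * (X * (1 * T))))))
        ≤ X * ((100 * X) * ((100 * X) * (X * (X * (X * (1 *
            (B * (K0 * ρ ^ (n + 2)) * (X ^ (-(e₁ * n)) * X ^ 2)))))))) := by
          have := D.card
          gcongr
      _ = 10 ^ 4 * (K0 * ρ ^ (n + 2)) * (B * (X ^ (-(e₁ * n)) * X ^ 8)) := by ring
      _ ≤ _ := by gcongr
  -- the main part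
  set L : ℝ := 5 * Real.log X + |Real.log ρ| + 1 with hL
  have hlogX : 0 ≤ Real.log X := Real.log_nonneg hX1
  have hL1 : 1 ≤ L := by
    have := abs_nonneg (Real.log ρ)
    rw [hL]; linarith
  obtain ⟨h, hc, hh, hsep⟩ := hCS B W (wt_one hB (by omega) hW) L hL1
  have hA2 : A - J₂ ≤ -2 := by
    have := Nat.le_ceil A
    rw [hJ₂]; push_cast; linarith
  have hi : Integrable h := by
    refine (int_two.const_mul (CS₁ * B * L)).mono' hc.aestronglyMeasurable
      (Filter.Eventually.of_forall fun ξ => (hh ξ).trans ?_)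
    have h1 : (0 : ℝ) ≤ CS₁ * B * L := by positivity
    apply mul_le_mul_of_nonneg_left _ h1
    apply Real.rpow_le_rpow_of_exponent_le (by linarith [abs_nonneg ξ])
    linarith
  have hb1 : ‖∑ o, ∑ x ∈ PX, ∑ y ∈ PX, v o x * (w o y * (((Q / lam o : ℝ) : ℂ) *
        (End699.tw η J (f * x * y) * m o x y)))‖ ≤
      ∫ ξ : ℝ, (CS₁ * B * L * (Q * (CB * X ^ (ε / 2) * S))) * (1 + |ξ|) ^ (-(2 : ℝ)) := by
    have hflat : ∑ o, ∑ x ∈ PX, ∑ y ∈ PX, v o x * (w o y * (((Q / lam o : ℝ) : ℂ) *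
        (End699.tw η J (f * x * y) * m o x y))) =
        ∑ i ∈ (Finset.univ : Finset O).sigma (fun o => DK M K (lam o) ×ˢ (PX ×ˢ PX)),
          (v i.1 i.2.2.1 * (w i.1 i.2.2.2 * (((Q / lam i.1 : ℝ) : ℂ) *
            (End699.tw η J (f * i.2.2.1 * i.2.2.2) * (conj (gs (f * i.2.2.1 * i.2.2.2) i.2.1) *
              (End699.tw ψ' l' i.2.1 * (nm i.2.1 : ℂ)⁻¹)))))) *
            W (nm i.2.1 / Y i.1 i.2.2.1 i.2.2.2) := by
      rw [Finset.sum_sigma]
      refine Finset.sum_congr rfl fun o _ => ?_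
      rw [Finset.sum_product, Finset.sum_comm' (s := DK M K (lam o)) (t := fun _ => PX ×ˢ PX)
        (t' := PX ×ˢ PX) (s' := fun _ => DK M K (lam o)) (by intro a b; tauto),
        Finset.sum_product]
      refine Finset.sum_congr rfl fun x _ => Finset.sum_congr rfl fun y _ => ?_
      simp only [hm]
      rw [Finset.mul_sum, Finset.mul_sum, Finset.mul_sum, Finset.mul_sum]
      refine Finset.sum_congr rfl fun d _ => ?_
      ring
    rw [hflat]
    refine sum_sep _ _ _ (fun i => (Real.log (nm i.2.1) - Real.log ρ - Real.log (lam i.1) +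
      Real.log Q) - Real.log (nm f) - Real.log (nm i.2.2.1) - Real.log (nm i.2.2.2)) hc hi ?_
      (int_two.const_mul _) ?_
    · rintro ⟨o, d, x, y⟩ hi0 ha
      dsimp only at ha ⊢
      rw [Finset.mem_sigma, Finset.mem_product] at hi0
      have h1 : v o x ≠ 0 := left_ne_zero_of_mul ha
      have h2 : w o y ≠ 0 := left_ne_zero_of_mul (right_ne_zero_of_mul ha)
      have hd := ((mem_DK (D.lam1 o).1).mp hi0.2.1).1
      have hx := ((D.hv o).sm x h1).prim
      have hy := ((D.hw o).sm y h2).prim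
      have n1 : (1 : ℝ) ≤ nm d := one_le_nm hd.ne_zero
      have n2 : (1 : ℝ) ≤ nm x := one_le_nm hx.ne_zero
      have n3 : (1 : ℝ) ≤ nm y := one_le_nm hy.ne_zero
      have n4 : (1 : ℝ) ≤ nm f := one_le_nm hf0
      have n5 := (D.lam1 o)
      have p5 := hlam o
      have hs : Real.exp ((Real.log (nm d) - Real.log ρ - Real.log (lam o) +
          Real.log Q) - Real.log (nm f) - Real.log (nm x) - Real.log (nm y)) =
          nm d / Y o x y := by
        simp only [hY]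
        rw [Real.exp_sub, Real.exp_sub, Real.exp_sub, Real.exp_add, Real.exp_sub, Real.exp_sub,
          Real.exp_log (by linarith), Real.exp_log hρ, Real.exp_log p5, Real.exp_log hQ0,
          Real.exp_log (by linarith), Real.exp_log (by linarith), Real.exp_log (by linarith),
          nm_mul, nm_mul]
        push_cast
        field_simp
      rw [← hs]
      refine hsep _ ?_
      have l1 : 0 ≤ Real.log (nm d) := Real.log_nonneg n1
      have l2 : Real.log (nm x) ≤ Real.log X :=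
        Real.log_le_log (by linarith) (D.vx o x h1).2
      have l3 : Real.log (nm y) ≤ Real.log X :=
        Real.log_le_log (by linarith) (D.wy o y h2)
      have l4 : Real.log (nm f) ≤ Real.log X :=
        Real.log_le_log (by linarith) D.hf.2
      have l5 : Real.log (lam o) ≤ Real.log X := Real.log_le_log p5 n5.2
      have l6 : -Real.log X ≤ Real.log Q := by
        rw [← Real.log_inv]
        exact Real.log_le_log (inv_pos.mpr hX0) hXQ
      have l7 := le_abs_self (Real.log ρ)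
      rw [hL]
      linarith
    · intro ξ
      have hnum' : ∀ b₁ b₃ κ : ℝ, 1 ≤ b₁ → 1 ≤ b₃ → 1 / 4 ≤ κ → κ * b₁ ^ 2 * b₃ ^ 3 ≤ K →
          b₁ ^ (1 / 2 : ℝ) * b₃ * κ ^ (-(1 / 2) : ℝ) * Bd κ (b₁ * b₃) ≤ S := by
        intro b₁ b₃ κ h1 h3 hκ h4
        refine hnum b₁ b₃ κ h1 h3 hκ (h4.trans ?_)
        rw [hK]
        apply mul_le_mul_of_nonneg_left _ hKd.le
        exact Real.rpow_le_rpow_of_exponent_le hX1 (min_le_left _ _)
      have hh1 := height (ξ := -ξ) hη hCB hStr D hK0 hKX hS hBd hPB hnum'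
      rw [abs_neg] at hh1
      have hsum : ‖∑ i ∈ (Finset.univ : Finset O).sigma (fun o => DK M K (lam o) ×ˢ (PX ×ˢ PX)),
          (v i.1 i.2.2.1 * (w i.1 i.2.2.2 * (((Q / lam i.1 : ℝ) : ℂ) *
            (End699.tw η J (f * i.2.2.1 * i.2.2.2) * (conj (gs (f * i.2.2.1 * i.2.2.2) i.2.1) *
              (End699.tw ψ' l' i.2.1 * (nm i.2.1 : ℂ)⁻¹)))))) *
            Complex.exp (I * ξ * (((Real.log (nm i.2.1) - Real.log ρ - Real.log (lam i.1) +
      Real.log Q) - Real.log (nm f) - Real.log (nm i.2.2.1) - Real.log (nm i.2.2.2) : ℝ) : ℂ))‖ ≤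
          Q * (CB * X ^ (ε / 2) * ((1 + |ξ|) ^ A * S)) := by
        rw [Finset.sum_sigma]
        refine (norm_sum_le _ _).trans ?_
        refine le_trans ?_ (mul_le_mul_of_nonneg_left hh1 hQ0.le)
        rw [Finset.mul_sum]
        refine Finset.sum_le_sum fun o _ => ?_
        rw [Finset.sum_product]
        refine (norm_sum_le _ _).trans ?_
        rw [Finset.mul_sum]
        refine Finset.sum_le_sum fun d hd => ?_
        have hd' := ((mem_DK (D.lam1 o).1).mp hd).1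
        have e2 : ∑ z ∈ PX ×ˢ PX, (v o z.1 * (w o z.2 * (((Q / lam o : ℝ) : ℂ) *
            (End699.tw η J (f * z.1 * z.2) * (conj (gs (f * z.1 * z.2) d) *
              (End699.tw ψ' l' d * (nm d : ℂ)⁻¹)))))) *
            Complex.exp (I * ξ * (((Real.log (nm d) - Real.log ρ - Real.log (lam o) +
      Real.log Q) - Real.log (nm f) - Real.log (nm z.1) - Real.log (nm z.2) : ℝ) : ℂ)) =
          (((Q / lam o : ℝ) : ℂ) * ((End699.tw ψ' l' d * (nm d : ℂ)⁻¹) *
            (Complex.exp (I * ξ * ((Real.log (nm d) - Real.log ρ - Real.log (lam o) +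
              Real.log Q : ℝ) : ℂ)) * gx η J (-ξ) f))) *
            ∑' x : Eis, (v o x * gx η J (-ξ) x) * ∑' y : Eis, (w o y * gx η J (-ξ) y) *
              conj (gs (f * x * y) d) := by
          rw [Finset.sum_product, tsum_eq_sum (s := PX) (fun x hx => by
            have : v o x = 0 := by
              by_contra h
              exact hx (hPv o x h)
            rw [this, zero_mul, zero_mul]), Finset.mul_sum]
          refine Finset.sum_congr rfl fun x _ => ?_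
          rw [tsum_eq_sum (s := PX) (fun y hy => by
            have : w o y = 0 := by
              by_contra h
              exact hy (hPw o y h)
            rw [this, zero_mul, zero_mul]), Finset.mul_sum, Finset.mul_sum]
          refine Finset.sum_congr rfl fun y _ => ?_
          exact term_eq hη D.hf.1.prim (fun h1 => ((D.hv o).sm x h1).prim)
            (fun h1 => ((D.hw o).sm y h1).prim)
        dsimp only
        rw [e2, norm_mul]
        refine (mul_le_mul_of_nonneg_right (b := ‖((Q / lam o : ℝ) : ℂ) *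
          ((End699.tw ψ' l' d * (nm d : ℂ)⁻¹) *
            (Complex.exp (I * ξ * ((Real.log (nm d) - Real.log ρ - Real.log (lam o) +
              Real.log Q : ℝ) : ℂ)) * gx η J (-ξ) f))‖) (c := Q * ((nm d : ℝ) * lam o)⁻¹) ?_
                (norm_nonneg _)).trans (le_of_eq (mul_assoc _ _ _))
        rw [norm_mul, norm_mul, norm_mul, norm_mul, norm_exp_I, norm_inv, Complex.norm_natCast,
          Complex.norm_real, Real.norm_eq_abs, abs_of_nonneg (by have := hlam o; positivity)]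
        have g1 := (gx_isChar hη J (-ξ)).norm_le D.hf.1.prim
        have g2 := hχ d hd'.prim
        have g3 := hlam o
        calc Q / lam o * (‖End699.tw ψ' l' d‖ * (nm d : ℝ)⁻¹ * (1 * ‖gx η J (-ξ) f‖))
            ≤ Q / lam o * (1 * (nm d : ℝ)⁻¹ * (1 * 1)) := by gcongr
          _ = _ := by
            rw [mul_inv]
            ring
      have hA3 : (1 + |ξ|) ^ (-(J₂ : ℝ)) * (1 + |ξ|) ^ A ≤ (1 + |ξ|) ^ (-(2 : ℝ)) := by
        have h0 : 0 < 1 + |ξ| := by positivity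
        rw [← Real.rpow_add h0]
        apply Real.rpow_le_rpow_of_exponent_le (by linarith [abs_nonneg ξ])
        linarith
      refine (mul_le_mul (hh ξ) hsum (norm_nonneg _) (by positivity)).trans ?_
      calc (CS₁ * B * L * (1 + |ξ|) ^ (-(J₂ : ℝ))) *
            (Q * (CB * X ^ (ε / 2) * ((1 + |ξ|) ^ A * S)))
          = (CS₁ * B * L * (Q * (CB * X ^ (ε / 2) * S))) *
            ((1 + |ξ|) ^ (-(J₂ : ℝ)) * (1 + |ξ|) ^ A) := by ring
        _ ≤ _ := by gcongr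
  rw [integral_const_mul] at hb1
  have hLX : L ≤ CL * X ^ (ε / 2) := by
    have h1 : Real.log X ≤ X ^ (ε / 2) / (ε / 2) := Real.log_le_rpow_div hX0.le (by positivity)
    have h2 : 1 ≤ X ^ (ε / 2) := Real.one_le_rpow hX1 (by positivity)
    have h3 := abs_nonneg (Real.log ρ)
    have e : X ^ (ε / 2) / (ε / 2) = (2 / ε) * X ^ (ε / 2) := by field_simp
    rw [e] at h1
    rw [hL, hCL]
    nlinarith
  refine (norm_add_le _ _).trans ?_
  refine (add_le_add hb1 hb2).trans ?_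
  have hXε : X ^ (ε / 2) * X ^ (ε / 2) = X ^ ε := by
    rw [← Real.rpow_add hX0]; congr 1; ring
  have hXε1 : 1 ≤ X ^ ε := Real.one_le_rpow hX1 hε.le
  have hXA : 0 ≤ X ^ (-A) := by positivity
  have k1 : CS₁ * B * L * (Q * (CB * X ^ (ε / 2) * S)) * I2 ≤
      CB * (CS₁ * CL * I2) * (X ^ ε * (B * (Q * S))) := by
    calc CS₁ * B * L * (Q * (CB * X ^ (ε / 2) * S)) * I2
        ≤ CS₁ * B * (CL * X ^ (ε / 2)) * (Q * (CB * X ^ (ε / 2) * S)) * I2 := by gcongr
      _ = CB * (CS₁ * CL * I2) * ((X ^ (ε / 2) * X ^ (ε / 2)) * (B * (Q * S))) := by ring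
      _ = _ := by rw [hXε]
  have k2 : 10 ^ 4 * (K0 * ρ ^ (n + 2)) * (B * X ^ (-A)) ≤
      10 ^ 4 * (K0 * ρ ^ (n + 2)) * (X ^ ε * (B * X ^ (-A))) := by
    apply mul_le_mul_of_nonneg_left _ (by positivity)
    exact le_mul_of_one_le_left (by positivity) hXε1
  refine (add_le_add k1 k2).trans ?_
  have t1 : 0 ≤ CB * (CS₁ * CL * I2) := by positivity
  have t2 : 0 ≤ 10 ^ 4 * (K0 * ρ ^ (n + 2)) := by positivity
  have t3 : 0 ≤ X ^ ε * (B * (Q * S)) := by positivity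
  have t4 : 0 ≤ X ^ ε * (B * X ^ (-A)) := by positivity
  calc CB * (CS₁ * CL * I2) * (X ^ ε * (B * (Q * S))) +
        10 ^ 4 * (K0 * ρ ^ (n + 2)) * (X ^ ε * (B * X ^ (-A)))
      ≤ (CB * (CS₁ * CL * I2) + 10 ^ 4 * (K0 * ρ ^ (n + 2))) *
        (X ^ ε * (B * (Q * S)) + X ^ ε * (B * X ^ (-A))) := by
        nlinarith [mul_nonneg t1 t4, mul_nonneg t2 t3]
    _ = _ := by ring

end Crest.Agent.R017.E4Bd783
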