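import Crest.Agent.R017.ModeG2_405

/-!
# Row 17: the modes with a twist on the test side, part G (helper347, after helper405's ModeG)

* `PoHWp OK nfn G ψ χ w` : the structured bound, tests of `b ψ`
* `block2_lep` : the block bound
-/

set_option autoImplicit false

noncomputable section

open Complex MeasureTheory
open scoped ComplexConjugate

namespace Crest.Agent.R017.Mps347

open Crest.Agent.R012 Crest.Agent.R012.Eis Crest.Agent.R012.MC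
open Crest.Agent.R012.LS2 (S mem_S bl mem_bl)
open Crest.Agent.R012.LS448 (one_le_nm')
open Crest.Agent.R012.NonCube52 (Ker kv Good kc kc_spec kc_nm kv_ne_zero one_le_nmkv)
open Crest.Agent.R012.Mob705 (mu pdiv mem_pdiv sum_mu_coprime abs_mu_le_one)
open Crest.Agent.R012.Weight600 (pw)
open Crest.Agent.R017.CM106 (CS TG FS)
open Crest.Agent.R017.BD829 (TT EQ Win EQ_nonneg)
open Crest.Agent.R017.E1551 (jb jb_pos nmpos)
open Crest.Agent.R017.DgB829 (HS HS_le HS_nonneg)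
open Crest.Agent.R017.Mode405

/-- **the structured bound** at one level, for a class of tests, with a twist `ψ` on the test side
and a support condition `G` -/
def PoHWp (OK : ℝ → ℝ → Eis → Set Tst → Prop) (nfn : ℝ → ℝ → ℝ) (G : Eis → Prop) (ψ χ : Eis → ℂ)
    (w : ℝ → ℝ) : Prop :=
  ∀ R : ℝ, 0 ≤ R → ∀ a A : ℕ, 1 < A → ∀ ε : ℝ, 0 < ε → ∃ (C c : ℝ) (J : ℕ), 0 ≤ C ∧ 1 ≤ c ∧
    ∀ Z N X lam : ℝ, 1 ≤ Z → 0 < N → N ≤ Z → 0 < X → X ≤ Z → 1 ≤ X * Z → 1 ≤ lam → lam ≤ Z →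
      lam * Real.exp R < N →
    ∀ (ka : Eis) (𝒯 : Set Tst), OK Z N ka 𝒯 →
    ∀ {ι : Type} (Q : Finset ι) (b : ι → Eis → ℂ) (Xq : ι → ℝ),
      (∀ q ∈ Q, X / 64 ≤ Xq q ∧ Xq q ≤ X) →
      (∀ q ∈ Q, ∀ n, b q n ≠ 0 → n ∈ S Z) → (∀ q ∈ Q, ∀ n, b q n ≠ 0 → G n) →
      (∀ q ∈ Q, Win (b q) (Real.log N) R) →
    ∀ W : ℝ → ℝ, Slp a W →
      (∀ τ ∈ 𝒯, ∀ P : ℝ, 1 ≤ P → ∑ q ∈ Q, TV τ A (fun m => b q m * ψ m) P ≤ W P) →
    ∀ W1 : ℝ, 0 ≤ W1 → W (c * Il N lam X) ≤ W1 →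
    ∀ t : ℝ, ∑ q ∈ Q, ∑ κ ∈ KSa lam ka, ‖XS χ w (Xq q) t (b q) κ‖ ^ 2 ≤
      C * Z ^ ε * (1 + |t|) ^ J * (X * nfn lam (Il N lam X) * W1)

/-- without a twist -/
lemma PoHWp.of {OK : ℝ → ℝ → Eis → Set Tst → Prop} {nfn : ℝ → ℝ → ℝ} {χ : Eis → ℂ} {w : ℝ → ℝ}
    (h : PoHW OK nfn χ w) : PoHWp OK nfn (fun _ => True) (fun _ => 1) χ w := by
  intro R hR a A hA ε hε
  obtain ⟨C, c, J, hC, hc, H⟩ := h R hR a A hA ε hε
  refine ⟨C, c, J, hC, hc, ?_⟩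
  intro Z N X lam h1 h2 h3 h4 h5 h6 h7 h8 h9 ka 𝒯 hT ι Q b Xq hX hS _ hW W hSl hyp
  simp only [mul_one] at hyp
  exact H Z N X lam h1 h2 h3 h4 h5 h6 h7 h8 h9 ka 𝒯 hT Q b Xq hX hS hW W hSl hyp

lemma bs_psi (b : Eis → ℂ) (s : Eis) (ψ : Eis → ℂ) :
    (fun m => bs b s m * ψ m) = bs (fun m => b m * ψ m) s := by
  funext m
  unfold bs
  ring

set_option maxHeartbeats 2000000 in
/-- **the block bound**, threshold rule -/
theorem block2_lep {OK : ℝ → ℝ → Eis → Set Tst → Prop} (hOK : OKW OK)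
    {nfn : ℝ → ℝ → ℝ} (hnfn : NFok nfn) {G : Eis → Prop} {ψ χ : Eis → ℂ} {w : ℝ → ℝ}
    (hP : PoHWp OK nfn G ψ χ w) {R : ℝ} (hR : 0 ≤ R) (a A : ℕ) (hA : 1 < A) {ε : ℝ} (hε : 0 < ε) :
    ∃ (C c : ℝ) (J : ℕ), 0 ≤ C ∧ 1 ≤ c ∧ ∀ Z N Y Lt lam P₁ : ℝ, 1 ≤ Z → 0 < N → N ≤ Z → 0 < Y →
      1 ≤ Y * Z → Y ≤ Z → 1 ≤ lam → lam ≤ Lt → Lt ≤ Z → Lt * Real.exp R < N → 1 ≤ P₁ →
      lam * P₁ ^ 3 ≤ Lt → ∀ (ka : Eis) (𝒯 : Set Tst), OK Z N ka 𝒯 →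
    ∀ {ι : Type} (O : Finset ι) (b : ι → Eis → ℂ) (Yq : ι → ℝ),
      (∀ o ∈ O, Y / 8 ≤ Yq o ∧ Yq o ≤ Y) → (∀ o ∈ O, ∀ n, b o n ≠ 0 → n ∈ S Z) → (∀ o ∈ O, ∀ n, b o n ≠ 0 → G n) →
      (∀ o ∈ O, Win (b o) (Real.log N) R) →
    ∀ W : ℝ → ℝ, Slp a W →
      (∀ τ ∈ 𝒯, ∀ P : ℝ, 1 ≤ P → ∑ o ∈ O, TV τ A (fun m => b o m * ψ m) P ≤ W P) →
    ∀ W1 : ℝ, 0 ≤ W1 → W (c * Il N Lt Y) ≤ W1 →
    ∀ (Pr : ι → Finset (Eis × Eis)) (i j : ℕ), (∀ o ∈ O, ∀ p ∈ Pr o, IsPrim p.1 ∧ IsPrim p.2 ∧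
        ((2 : ℝ) ^ i ≤ nm p.1 ∧ (nm p.1 : ℝ) ≤ 2 ^ (i + 1)) ∧
        ((2 : ℝ) ^ j ≤ nm p.2 ∧ (nm p.2 : ℝ) ≤ 2 ^ (j + 1)) ∧ (nm p.1 : ℝ) * nm p.2 ≤ P₁) →
    ∀ t : ℝ, (2 : ℝ) ^ j * ∑ o ∈ O, ∑ p ∈ Pr o, ∑ κ ∈ KSa lam ka,
        ‖XS χ w (Yq o / nm (p.1 * p.2 ^ 2)) t (bs (b o) (p.1 * p.2 ^ 2)) κ‖ ^ 2 ≤
      C * Z ^ ε * (1 + |t|) ^ J * (Y * nfn lam (Il N lam Y) * ((lam / Lt) ^ (1 / 3 : ℝ) * W1)) := by
  classical
  obtain ⟨C₁, hC₁, htau⟩ := Div277.tau_le_rpow (ε := min (ε / 32) (1 / 2)) (by positivity)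
  set e₁ : ℝ := min (ε / 32) (1 / 2) with he₁
  have he0 : 0 < e₁ := by positivity
  have he2 : 2 * e₁ ≤ 1 := by have := min_le_right (ε / 32) (1 / 2 : ℝ); rw [← he₁] at this; linarith
  have he3 : e₁ ≤ ε / 32 := min_le_left _ _
  obtain ⟨C₂, c, J, hC₂, hc, hmain⟩ := hP R hR (a + 1) A hA (ε / 6) (by positivity)
  refine ⟨C₂ * (C₁ ^ 2 * (8 * c) ^ (2 * e₁)), 8 * c, J, by positivity, by linarith, ?_⟩
  intro Z N Y Lt lam P₁ hZ hN hNZ hY0 hYZ1 hYZ hlam hlamL hLZ hLN hP₁ hP3 ka 𝒯 hT ι O b Yq hYq hbS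
    hbG hbW W hW hWle W1 hW1 hW1le Pr i j hPr t
  have hPZ : P₁ ≤ Z := by
    have h1 : P₁ ≤ P₁ ^ 3 := le_self_pow₀ hP₁ (by norm_num)
    have h2 : P₁ ^ 3 ≤ lam * P₁ ^ 3 := le_mul_of_one_le_left (by positivity) hlam
    linarith
  have hLt0 : 0 < Lt := by linarith
  have hlam0 : 0 < lam := by linarith
  have hZ0 : 0 < Z := by linarith
  have hIl0 : 0 < Il N lam Y := by unfold Il; positivity
  have hRHS : 0 ≤ C₂ * (C₁ ^ 2 * (8 * c) ^ (2 * e₁)) * Z ^ ε * (1 + |t|) ^ J *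
      (Y * nfn lam (Il N lam Y) * ((lam / Lt) ^ (1 / 3 : ℝ) * W1)) := by
    have := hnfn.nonneg lam _ hlam0.le hIl0
    positivity
  -- the empty case
  by_cases hne : ∃ o ∈ O, ∃ p, p ∈ Pr o
  swap
  · push Not at hne
    have e0 : ∑ o ∈ O, ∑ p ∈ Pr o, ∑ κ ∈ KSa lam ka,
        ‖XS χ w (Yq o / nm (p.1 * p.2 ^ 2)) t (bs (b o) (p.1 * p.2 ^ 2)) κ‖ ^ 2 = 0 :=
      Finset.sum_eq_zero fun o ho => by
        rw [Finset.eq_empty_of_forall_notMem (hne o ho), Finset.sum_empty]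
    rw [e0, mul_zero]; exact hRHS
  obtain ⟨o₀, ho₀, p₀, hp₀⟩ := hne
  have h2i : (1 : ℝ) ≤ 2 ^ i := one_le_pow₀ (by norm_num)
  have h2j : (1 : ℝ) ≤ 2 ^ j := one_le_pow₀ (by norm_num)
  set P : ℝ := 2 ^ i * 2 ^ j with hPdef
  have hP1 : 1 ≤ P := one_le_mul_of_one_le_of_one_le h2i h2j
  have hPP₁ : P ≤ P₁ := by
    obtain ⟨-, -, h1, h2, h3⟩ := hPr o₀ ho₀ p₀ hp₀
    calc P ≤ (nm p₀.1 : ℝ) * nm p₀.2 := mul_le_mul h1.1 h2.1 (by positivity) (by positivity)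
      _ ≤ P₁ := h3
  have hPZ' : P ≤ Z := hPP₁.trans hPZ
  have h2iZ : (2 : ℝ) ^ i ≤ Z := le_trans (by
    rw [hPdef]; exact le_mul_of_one_le_right (by positivity) h2j) hPZ'
  have h2jZ : (2 : ℝ) ^ j ≤ Z := le_trans (by
    rw [hPdef]; exact le_mul_of_one_le_left (by positivity) h2i) hPZ'
  set M : ℝ := 2 ^ i * (2 ^ j) ^ 2 with hMdef
  have hM1 : 1 ≤ M := one_le_mul_of_one_le_of_one_le h2i (one_le_pow₀ h2j)
  have hMZ : M ≤ Z ^ 2 := by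
    calc M = P * 2 ^ j := by rw [hMdef, hPdef]; ring
      _ ≤ Z * Z := mul_le_mul hPZ' h2jZ (by positivity) hZ0.le
      _ = Z ^ 2 := by ring
  set X : ℝ := Y / M with hXdef
  have hM0 : 0 < M := by linarith
  have hX0 : 0 < X := by positivity
  have hXY : X ≤ Y := div_le_self hY0.le hM1
  -- the merged frequencies
  set cm : ℝ := 8 * ((2 ^ i) ^ 2 * 2 ^ j) with hcm
  have hcm0 : 0 < cm := by positivity
  have hcmZ : cm ≤ 8 * Z ^ 3 := by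
    rw [hcm]
    have : (2 ^ i) ^ 2 * 2 ^ j ≤ Z ^ 2 * Z :=
      mul_le_mul (pow_le_pow_left₀ (by positivity) h2iZ 2) h2jZ (by positivity) (by positivity)
    calc 8 * ((2 ^ i) ^ 2 * 2 ^ j) ≤ 8 * (Z ^ 2 * Z) := by linarith
      _ = 8 * Z ^ 3 := by ring
  set Wf : ℝ → ℝ := fun P => C₁ ^ 2 * (cm * max 1 P) ^ (2 * e₁) * W (cm * P) with hWf
  have hWfS : Slp (a + 1) Wf := slp_fam hW hcm0 (by positivity) (by positivity) he2
  -- the family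
  set Fm : Finset (Σ _ : ι, Eis × Eis) := O.sigma Pr with hFm
  set bb : (Σ _ : ι, Eis × Eis) → Eis → ℂ := fun x => bs (b x.1) (x.2.1 * x.2.2 ^ 2) with hbb
  set Xq : (Σ _ : ι, Eis × Eis) → ℝ := fun x => Yq x.1 / nm (x.2.1 * x.2.2 ^ 2) with hXq
  have hmemF : ∀ x ∈ Fm, x.1 ∈ O ∧ x.2 ∈ Pr x.1 := fun x hx => by
    rw [hFm, Finset.mem_sigma] at hx; exact hx
  have hXqb : ∀ x ∈ Fm, X / 64 ≤ Xq x ∧ Xq x ≤ X := by
    intro x hx
    obtain ⟨ho, hp⟩ := hmemF x hx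
    obtain ⟨h1, h2, h3, h4, -⟩ := hPr _ ho _ hp
    have hn : ((nm (x.2.1 * x.2.2 ^ 2) : ℕ) : ℝ) = nm x.2.1 * (nm x.2.2 : ℝ) ^ 2 := by
      rw [nm_mul, nm_pow]; push_cast; ring
    have hlo : M ≤ nm x.2.1 * (nm x.2.2 : ℝ) ^ 2 := by
      rw [hMdef]
      exact mul_le_mul h3.1 (pow_le_pow_left₀ (by positivity) h4.1 2) (by positivity) (by positivity)
    have hhi : nm x.2.1 * (nm x.2.2 : ℝ) ^ 2 ≤ 8 * M := by
      calc nm x.2.1 * (nm x.2.2 : ℝ) ^ 2 ≤ 2 ^ (i + 1) * (2 ^ (j + 1)) ^ 2 :=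
            mul_le_mul h3.2 (pow_le_pow_left₀ (by positivity) h4.2 2) (by positivity) (by positivity)
        _ = 8 * M := by rw [hMdef, pow_succ, pow_succ]; ring
    have hpos : 0 < nm x.2.1 * (nm x.2.2 : ℝ) ^ 2 := lt_of_lt_of_le hM0 hlo
    have hy := hYq _ ho
    rw [hXq]
    beta_reduce
    rw [hn]
    constructor
    · rw [hXdef, div_div, div_le_div_iff₀ (by positivity) hpos]
      have hY4 : Y ≤ 8 * Yq x.1 := by linarith [hy.1]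
      have hYq0 : 0 ≤ Yq x.1 := by linarith [hy.1]
      calc Y * (nm x.2.1 * (nm x.2.2 : ℝ) ^ 2) ≤ (8 * Yq x.1) * (8 * M) :=
            mul_le_mul hY4 hhi hpos.le (by positivity)
        _ ≤ Yq x.1 * (M * 64) := by nlinarith [mul_nonneg hYq0 hM0.le]
    · rw [hXdef]
      have hYq0 : 0 ≤ Yq x.1 := by linarith [hy.1]
      exact div_le_div₀ hY0.le hy.2 hM0 hlo
  have hbbS : ∀ x ∈ Fm, ∀ n, bb x n ≠ 0 → n ∈ S (Z ^ 3) := by
    intro x hx n hn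
    have h1 := hbS _ (hmemF x hx).1 n (bs_supp hn)
    rw [mem_S hZ0.le] at h1
    rw [mem_S (by positivity)]
    refine ⟨h1.1.trans ?_, h1.2⟩
    calc Z = Z ^ 1 := (pow_one Z).symm
      _ ≤ Z ^ 3 := pow_le_pow_right₀ hZ (by norm_num)
  have hbbG : ∀ x ∈ Fm, ∀ n, bb x n ≠ 0 → G n := fun x hx n hn =>
    hbG _ (hmemF x hx).1 n (bs_supp hn)
  set b' : ι → Eis → ℂ := fun o m => b o m * ψ m with hb'
  have hb'p : ∀ o ∈ O, ∀ n, b' o n ≠ 0 → IsPrim n := fun o ho n hn =>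
    ((mem_S hZ0.le).1 (hbS o ho n (left_ne_zero_of_mul hn))).2.1
  have hbb' : ∀ x : (Σ _ : ι, Eis × Eis), (fun m => bb x m * ψ m) =
      bs (b' x.1) (x.2.1 * x.2.2 ^ 2) := fun x => bs_psi _ _ _
  have hbbW : ∀ x ∈ Fm, Win (bb x) (Real.log N) R := by
    intro x hx n hn
    exact hbW _ (hmemF x hx).1 n (bs_supp hn)
  have hWfle : ∀ τ ∈ 𝒯, ∀ P : ℝ, 1 ≤ P → ∑ x ∈ Fm, TV τ A (fun m => bb x m * ψ m) P ≤ Wf P := by
    intro τ hτ Q hQ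
    simp only [hbb']
    have hQ0 : 0 ≤ Q := by linarith
    rw [hFm, Finset.sum_sigma]
    have hTk : ∀ k ∈ bl (cm * Q), ((pdiv k).card : ℝ) ≤ C₁ * (cm * Q) ^ e₁ := by
      intro k hk
      have hk' := (mem_bl (by positivity)).mp hk
      refine (htau k hk'.1).trans ?_
      exact mul_le_mul_of_nonneg_left (Real.rpow_le_rpow (Nat.cast_nonneg _) hk'.2 he0.le)
        (by linarith)
    have h1 : ∀ o ∈ O, ∑ p ∈ Pr o, TV τ A (bs (b' o) (p.1 * p.2 ^ 2)) Q ≤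
        (C₁ * (cm * Q) ^ e₁) ^ 2 * TV τ A (b' o) (cm * Q) := by
      intro o ho
      unfold TV
      rw [Finset.sum_comm, Finset.mul_sum]
      refine Finset.sum_le_sum fun y hy => ?_
      obtain ⟨hg, hwt, hrho⟩ := hOK.ok Z N ka 𝒯 hT τ hτ y hy
      have hrho0 : 0 < τ.rho y := by linarith
      rw [← Finset.mul_sum]
      have e0 : cm * (Q / τ.rho y) = cm * Q / τ.rho y := by ring
      have h2 : ∑ p ∈ Pr o, VI A (bs (b' o) (p.1 * p.2 ^ 2)) y.1 y.2.1 y.2.2 (Q / τ.rho y) ≤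
          (C₁ * (cm * Q) ^ e₁) ^ 2 * VI A (b' o) y.1 y.2.1 y.2.2 (cm * Q / τ.rho y) := by
        rw [← e0]
        refine VI_merge A (hb'p o ho) hg
          (fun p hp => ⟨(hPr o ho p hp).1, (hPr o ho p hp).2.1⟩) (by positivity) hcm0.le
          (fun p hp => ?_) (by positivity) (fun k hk => hTk k ?_)
        · obtain ⟨-, -, h3, h4, -⟩ := hPr o ho p hp
          rw [nm_mul, nm_pow]
          push_cast
          calc (nm p.1 : ℝ) ^ 2 * nm p.2 ≤ (2 ^ (i + 1)) ^ 2 * 2 ^ (j + 1) :=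
                mul_le_mul (pow_le_pow_left₀ (by positivity) h3.2 2) h4.2 (by positivity)
                  (by positivity)
            _ = cm := by rw [hcm, pow_succ, pow_succ]; ring
        · rw [mem_bl (by positivity)] at hk ⊢
          refine ⟨hk.1, hk.2.trans ?_⟩
          exact mul_le_mul_of_nonneg_left (div_le_self hQ0 hrho) hcm0.le
      calc τ.wt y * ∑ p ∈ Pr o, VI A (bs (b' o) (p.1 * p.2 ^ 2)) y.1 y.2.1 y.2.2 (Q / τ.rho y)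
          ≤ τ.wt y * ((C₁ * (cm * Q) ^ e₁) ^ 2 *
            VI A (b' o) y.1 y.2.1 y.2.2 (cm * Q / τ.rho y)) :=
            mul_le_mul_of_nonneg_left h2 hwt
        _ = _ := by ring
    have h2 := hWle τ hτ (cm * Q) (by
      have : (1 : ℝ) ≤ (2 ^ i) ^ 2 * 2 ^ j := one_le_mul_of_one_le_of_one_le (one_le_pow₀ h2i) h2j
      nlinarith)
    calc ∑ o ∈ O, ∑ p ∈ Pr o, TV τ A (bs (b' o) (p.1 * p.2 ^ 2)) Q
        ≤ ∑ o ∈ O, (C₁ * (cm * Q) ^ e₁) ^ 2 * TV τ A (b' o) (cm * Q) := Finset.sum_le_sum h1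
      _ = (C₁ * (cm * Q) ^ e₁) ^ 2 * ∑ o ∈ O, TV τ A (b' o) (cm * Q) := by rw [← Finset.mul_sum]
      _ ≤ (C₁ * (cm * Q) ^ e₁) ^ 2 * W (cm * Q) := mul_le_mul_of_nonneg_left h2 (by positivity)
      _ = Wf Q := by
          rw [hWf]
          beta_reduce
          rw [max_eq_right hQ, mul_pow, ← Real.rpow_natCast ((cm * Q) ^ e₁),
            ← Real.rpow_mul (by positivity)]
          congr 3
          push_cast; ring
  -- the constant of the family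
  set W2 : ℝ := C₁ ^ 2 * (8 * c) ^ (2 * e₁) * Z ^ (16 * e₁) *
    ((lam / Lt) ^ (1 / 3 : ℝ) * (P * W1)) with hW2
  have hW20 : 0 ≤ W2 := by positivity
  have hIX : Il N lam X = Il N lam Y * M := by unfold Il; rw [hXdef]; field_simp
  have hIX0 : 0 < Il N lam X := by rw [hIX]; positivity
  have hIXZ : Il N lam X ≤ Z ^ 5 := by
    rw [hIX]
    have h1 : Il N lam Y ≤ Z ^ 3 := by
      unfold Il
      rw [div_le_iff₀ hY0]
      have h2 : N * lam ≤ Z * Z := mul_le_mul hNZ (hlamL.trans hLZ) hlam0.le hZ0.le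
      have h3 : Z ^ 2 * 1 ≤ Z ^ 2 * (Y * Z) := mul_le_mul_of_nonneg_left hYZ1 (by positivity)
      calc N * lam ≤ Z ^ 2 * 1 := by linarith [h2, sq Z]
        _ ≤ Z ^ 2 * (Y * Z) := h3
        _ = Z ^ 3 * Y := by ring
    calc Il N lam Y * M ≤ Z ^ 3 * Z ^ 2 := mul_le_mul h1 hMZ hM0.le (by positivity)
      _ = Z ^ 5 := by ring
  have hWf1 : Wf (c * Il N lam X) ≤ W2 := by
    have hc0 : 0 < c := by linarith
    rw [hWf]
    beta_reduce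
    have h1 : (cm * max 1 (c * Il N lam X)) ^ (2 * e₁) ≤ (8 * c) ^ (2 * e₁) * Z ^ (16 * e₁) := by
      have h2 : max 1 (c * Il N lam X) ≤ c * Z ^ 5 := by
        refine max_le ?_ ?_
        · have : (1 : ℝ) ≤ Z ^ 5 := one_le_pow₀ hZ
          nlinarith
        · exact mul_le_mul_of_nonneg_left hIXZ hc0.le
      have h3 : cm * max 1 (c * Il N lam X) ≤ (8 * c) * Z ^ (8 : ℕ) := by
        have h4 : (0 : ℝ) ≤ max 1 (c * Il N lam X) := le_trans zero_le_one (le_max_left _ _)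
        calc cm * max 1 (c * Il N lam X) ≤ (8 * Z ^ 3) * (c * Z ^ 5) :=
              mul_le_mul hcmZ h2 h4 (by positivity)
          _ = (8 * c) * Z ^ (8 : ℕ) := by ring
      have h5 : (0 : ℝ) ≤ cm * max 1 (c * Il N lam X) :=
        mul_nonneg hcm0.le (le_trans zero_le_one (le_max_left _ _))
      calc (cm * max 1 (c * Il N lam X)) ^ (2 * e₁) ≤ ((8 * c) * Z ^ (8 : ℕ)) ^ (2 * e₁) :=
            Real.rpow_le_rpow h5 h3 (by positivity)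
        _ = (8 * c) ^ (2 * e₁) * Z ^ (16 * e₁) := by
            rw [Real.mul_rpow (by positivity) (by positivity), ← Real.rpow_natCast Z 8,
              ← Real.rpow_mul hZ0.le]
            congr 2
            push_cast; ring
    have h6 : W (cm * (c * Il N lam X)) ≤ (lam / Lt) ^ (1 / 3 : ℝ) * (P * W1) := by
      have e1 : cm * (c * Il N lam X) = 8 * c * Il N lam Y * P ^ 3 := by
        rw [hIX, hcm, hPdef, hMdef]; ring
      have hP3' : lam * P ^ 3 ≤ Lt := by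
        refine le_trans (mul_le_mul_of_nonneg_left ?_ hlam0.le) hP3
        exact pow_le_pow_left₀ (by linarith) hPP₁ 3
      have hP0 : 0 < P := by linarith
      have e2 : 8 * c * Il N lam Y * P ^ 3 ≤ 8 * c * Il N Lt Y := by
        have e4 : 8 * c * Il N lam Y * P ^ 3 = (8 * c * (N / Y)) * (lam * P ^ 3) := by
          unfold Il; ring
        have e5 : 8 * c * Il N Lt Y = (8 * c * (N / Y)) * Lt := by
          unfold Il; ring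
        rw [e4, e5]
        exact mul_le_mul_of_nonneg_left hP3' (by positivity)
      have hIlt0 : 0 < Il N Lt Y := by unfold Il; positivity
      have h7 := hW.low (8 * c * Il N lam Y * P ^ 3) (8 * c * Il N Lt Y) (by positivity) e2
      have e3 : 8 * c * Il N lam Y * P ^ 3 / (8 * c * Il N Lt Y) = lam / Lt * P ^ 3 := by
        unfold Il; field_simp
      have e6 : (lam / Lt * P ^ 3) ^ (1 / 3 : ℝ) = (lam / Lt) ^ (1 / 3 : ℝ) * P := by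
        rw [Real.mul_rpow (by positivity) (by positivity), ← Real.rpow_natCast P 3,
          ← Real.rpow_mul hP0.le]
        norm_num
      rw [e3, e6] at h7
      rw [e1]
      refine h7.trans ?_
      have e7 : (lam / Lt) ^ (1 / 3 : ℝ) * (P * W1) = (lam / Lt) ^ (1 / 3 : ℝ) * P * W1 := by
        ring
      rw [e7]
      exact mul_le_mul_of_nonneg_left hW1le (by positivity)
    have h8 : 0 ≤ W (cm * (c * Il N lam X)) := hW.nonneg _ (by positivity)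
    calc C₁ ^ 2 * (cm * max 1 (c * Il N lam X)) ^ (2 * e₁) * W (cm * (c * Il N lam X))
        ≤ C₁ ^ 2 * ((8 * c) ^ (2 * e₁) * Z ^ (16 * e₁)) *
          ((lam / Lt) ^ (1 / 3 : ℝ) * (P * W1)) := by
          gcongr
      _ = W2 := by rw [hW2]; ring
  -- application
  have hZ3 : (1 : ℝ) ≤ Z ^ 3 := one_le_pow₀ hZ
  have hZZ3 : Z ≤ Z ^ 3 := by
    calc Z = Z ^ 1 := (pow_one Z).symm
      _ ≤ Z ^ 3 := pow_le_pow_right₀ hZ (by norm_num)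
  have hXZ : 1 ≤ X * Z ^ 3 := by
    rw [hXdef, div_mul_eq_mul_div, one_le_div hM0]
    calc M ≤ Z ^ 2 * 1 := by linarith
      _ ≤ Z ^ 2 * (Y * Z) := mul_le_mul_of_nonneg_left hYZ1 (by positivity)
      _ = Y * Z ^ 3 := by ring
  have h := hmain (Z ^ 3) N X lam hZ3 hN (hNZ.trans hZZ3) hX0 (hXY.trans (hYZ.trans hZZ3)) hXZ hlam
    ((hlamL.trans hLZ).trans hZZ3)
    (lt_of_le_of_lt (mul_le_mul_of_nonneg_right hlamL (Real.exp_pos R).le) hLN)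
    ka 𝒯 (hOK.mono Z (Z ^ 3) N ka 𝒯 hZZ3 hT) Fm bb Xq hXqb hbbS hbbG hbbW Wf hWfS hWfle W2 hW20 hWf1 t
  rw [hFm, Finset.sum_sigma] at h
  have hZε : (Z ^ 3) ^ (ε / 6) * Z ^ (16 * e₁) ≤ Z ^ ε := by
    rw [← Real.rpow_natCast Z 3, ← Real.rpow_mul hZ0.le, ← Real.rpow_add hZ0]
    refine Real.rpow_le_rpow_of_exponent_le hZ ?_
    push_cast
    linarith
  have hnf : nfn lam (Il N lam X) ≤ nfn lam (Il N lam Y) := by
    refine hnfn.anti lam _ _ hlam0.le hIl0 ?_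
    rw [hIX]; exact le_mul_of_one_le_right hIl0.le hM1
  have hnf0 := hnfn.nonneg lam _ hlam0.le hIX0
  have hnf1 := hnfn.nonneg lam _ hlam0.le hIl0
  have hXP : (2 : ℝ) ^ j * X * P = Y := by
    rw [hXdef, hPdef, hMdef]; field_simp
  calc (2 : ℝ) ^ j * ∑ o ∈ O, ∑ p ∈ Pr o, ∑ κ ∈ KSa lam ka,
        ‖XS χ w (Yq o / nm (p.1 * p.2 ^ 2)) t (bs (b o) (p.1 * p.2 ^ 2)) κ‖ ^ 2
      ≤ 2 ^ j * (C₂ * (Z ^ 3) ^ (ε / 6) * (1 + |t|) ^ J * (X * nfn lam (Il N lam X) * W2)) :=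
        mul_le_mul_of_nonneg_left h (by positivity)
    _ = (C₂ * (C₁ ^ 2 * (8 * c) ^ (2 * e₁))) * ((Z ^ 3) ^ (ε / 6) * Z ^ (16 * e₁)) *
        (1 + |t|) ^ J * ((2 ^ j * X * P) * nfn lam (Il N lam X) *
          ((lam / Lt) ^ (1 / 3 : ℝ) * W1)) := by rw [hW2]; ring
    _ = (C₂ * (C₁ ^ 2 * (8 * c) ^ (2 * e₁))) * ((Z ^ 3) ^ (ε / 6) * Z ^ (16 * e₁)) *
        (1 + |t|) ^ J * (Y * nfn lam (Il N lam X) * ((lam / Lt) ^ (1 / 3 : ℝ) * W1)) := by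
          rw [hXP]
    _ ≤ (C₂ * (C₁ ^ 2 * (8 * c) ^ (2 * e₁))) * Z ^ ε *
        (1 + |t|) ^ J * (Y * nfn lam (Il N lam Y) * ((lam / Lt) ^ (1 / 3 : ℝ) * W1)) := by
          gcongr



end Crest.Agent.R017.Mps347
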