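import Crest.Agent.R017.ModeG3_405
import Crest.Agent.R017.MpsG_347

/-!
# Row 17: the modes with a twist on the test side, part G3 (helper347, after helper405's ModeG3)

* `strQ_lep` : the structured half
-/

set_option autoImplicit false

noncomputable section

open Complex MeasureTheory
open scoped ComplexConjugate

namespace Crest.Agent.R017.Mps347

open Crest.Agent.R012 Crest.Agent.R012.Eis Crest.Agent.R012.MC
open Crest.Agent.R012.LS2 (S mem_S bl mem_bl)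
open Crest.Agent.R012.LS448 (one_le_nm')
open Crest.Agent.R012.NonCube52 (Ker kv Good kc kc_spec kc_nm kv_ne_zero one_le_nmkv)
open Crest.Agent.R012.Mob705 (mu pdiv mem_pdiv sum_mu_coprime abs_mu_le_one)
open Crest.Agent.R012.Weight600 (pw)
open Crest.Agent.R017.CM106 (CS TG FS)
open Crest.Agent.R017.BD829 (TT EQ Win EQ_nonneg)
open Crest.Agent.R017.E1551 (jb jb_pos nmpos)
open Crest.Agent.R017.DgB829 (HS HS_le HS_nonneg)
open Crest.Agent.R017.Mode405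

set_option maxHeartbeats 2000000 in
/-- **the structured half** -/
theorem strQ_lep {OK : ℝ → ℝ → Eis → Set Tst → Prop} (hOK : OKW OK)
    {nfn : ℝ → ℝ → ℝ} (hnfn : NFok nfn) {G : Eis → Prop} {ψ χ : Eis → ℂ}
    (hχ : Mul1 χ) {w : ℝ → ℝ} (hP : PoHWp OK nfn G ψ χ w) {cw : ℝ} (hcw : 1 ≤ cw) (hw : ∀ x, w x ≠ 0 → x ≤ cw)
    {R : ℝ} (hR : 0 ≤ R) (a A : ℕ) (hA : 1 < A) {ε : ℝ} (hε : 0 < ε) :
    ∃ (C c : ℝ) (J : ℕ), 0 ≤ C ∧ 1 ≤ c ∧ ∀ Z N Y Lt lam P₁ : ℝ, 1 ≤ Z → 0 < N → N ≤ Z → 1 ≤ Y →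
      Y ≤ Z → 1 ≤ lam → lam ≤ Lt → Lt ≤ Z → Lt * Real.exp R < N → 1 ≤ P₁ → lam * P₁ ^ 3 ≤ Lt →
    ∀ (ka : Eis) (𝒯 : Set Tst), OK Z N ka 𝒯 →
    ∀ {ι : Type} (O : Finset ι) (b : ι → Eis → ℂ) (Yq : ι → ℝ) (r₁ : ι → Eis),
      (∀ o ∈ O, Y / 4 ≤ Yq o ∧ Yq o ≤ Y) → (∀ o ∈ O, ∀ n, b o n ≠ 0 → n ∈ S Z) → (∀ o ∈ O, ∀ n, b o n ≠ 0 → G n) →
      (∀ o ∈ O, Win (b o) (Real.log N) R) → (∀ o ∈ O, r₁ o ≠ 0 ∧ (nm (r₁ o) : ℝ) ≤ Z) →
    ∀ W : ℝ → ℝ, Slp a W →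
      (∀ τ ∈ 𝒯, ∀ P : ℝ, 0 < P → ∑ o ∈ O, ∑ e ∈ pdiv (r₁ o),
        (nm e : ℝ)⁻¹ * TV τ A (fun m => bs (b o) e m * ψ m) (nm e * P) ≤ W P) →
    ∀ W1 : ℝ, 0 ≤ W1 → W (c * Il N Lt Y) ≤ W1 →
    ∀ ρ : ι → Eis, (∀ o ∈ O, ρ o ≠ 0 ∧ (nm (ρ o) : ℝ) ≤ Z ^ 3) →
    ∀ t : ℝ, ∑ o ∈ O, ∑ κ ∈ KSa lam ka,
        ‖StrQ χ w (Yq o) t (b o) κ (ρ o) (r₁ o) (cw * Y) P₁‖ ^ 2 ≤
      C * Z ^ ε * (1 + |t|) ^ J * (Y * nfn lam (Il N lam Y) * ((lam / Lt) ^ (1 / 3 : ℝ) * W1)) := by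
  classical
  obtain ⟨C, c, J, hC, hc, hmain⟩ := block2_lep hOK hnfn hP hR a A hA (ε := ε / 4) (by positivity)
  obtain ⟨Ct, hCt, htau⟩ := Div277.tau_le_rpow (ε := ε / 48) (by positivity)
  set δ : ℝ := ε / 8 with hδ
  have hδ0 : 0 < δ := by positivity
  set c3 : ℝ := 200 * (1 + Real.log cw) * (1 + 1 / δ) with hc3
  have hlcw : 0 ≤ Real.log cw := Real.log_nonneg hcw
  have hc30 : 0 ≤ c3 := by positivity
  set c4 : ℝ := 2 * (1 + 1 / (δ / 3)) with hc4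
  have hc40 : 0 ≤ c4 := by positivity
  refine ⟨Ct ^ 2 * c3 * (c4 ^ 3 * (4 * C)), c, J, by positivity, hc, ?_⟩
  intro Z N Y Lt lam P₁ hZ hN hNZ hY hYZ hlam hlamL hLZ hLN hP₁ hP3 ka 𝒯 hT ι O b Yq r₁ hYq hbS hbG
    hbW hr W hW hWle W1 hW1 hW1le ρ hρ t
  have hPZ : P₁ ≤ Z := by
    have h1 : P₁ ≤ P₁ ^ 3 := le_self_pow₀ hP₁ (by norm_num)
    have h2 : P₁ ^ 3 ≤ lam * P₁ ^ 3 := le_mul_of_one_le_left (by positivity) hlam
    linarith
  have hY0 : 0 < Y := by linarith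
  have hZ0 : 0 < Z := by linarith
  have hlam0 : 0 < lam := by linarith
  have hcw0 : 0 < cw := by linarith
  have hcY : 1 ≤ cw * Y := one_le_mul_of_one_le_of_one_le hcw hY
  have hcY0 : 0 ≤ cw * Y := by linarith
  set PrO : ι → Finset (Eis × Eis) := fun o =>
    (pdiv (ρ o) ×ˢ S (cw * Y)).filter (fun p => (nm p.1 : ℝ) * nm p.2 ≤ P₁) with hPrO
  set TrO : ι → Finset ((Eis × Eis) × Eis) := fun o => PrO o ×ˢ pdiv (r₁ o) with hTrO
  set I : ℕ := Nat.log 2 ⌊Z⌋₊ with hI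
  set lg : (Eis × Eis) × Eis → (ℕ × ℕ) × ℕ := fun p =>
    ((Nat.log 2 (nm p.1.1), Nat.log 2 (nm p.1.2)), Nat.log 2 (nm p.2)) with hlg
  set Rg : Finset ((ℕ × ℕ) × ℕ) :=
    (Finset.range (I + 1) ×ˢ Finset.range (I + 1)) ×ˢ Finset.range (I + 1) with hRg
  set f : ι → (Eis × Eis) × Eis → Ker → ℝ := fun o p κ =>
    ‖XS χ w (Yq o / nm p.2 / nm (p.1.1 * p.1.2 ^ 2)) t
      (bs (bs (b o) p.2) (p.1.1 * p.1.2 ^ 2)) κ‖ ^ 2 with hf
  have hf0 : ∀ o p κ, 0 ≤ f o p κ := fun o p κ => by rw [hf]; positivity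
  have hmem : ∀ o ∈ O, ∀ p ∈ TrO o, IsPrim p.1.1 ∧ IsPrim p.1.2 ∧
      (nm p.1.1 : ℝ) * nm p.1.2 ≤ P₁ ∧ IsPrim p.2 ∧ (nm p.2 : ℝ) ≤ Z := by
    intro o ho p hp
    rw [hTrO, hPrO] at hp
    simp only [Finset.mem_filter, Finset.mem_product] at hp
    rw [mem_pdiv (hρ o ho).1, mem_pdiv (hr o ho).1, mem_S hcY0] at hp
    refine ⟨hp.1.1.1.1, hp.1.1.2.2.1, hp.1.2, hp.2.1, le_trans ?_ (hr o ho).2⟩
    exact_mod_cast Div277.nm_le_of_dvd (hr o ho).1 hp.2.2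
  have hmaps : ∀ o ∈ O, ∀ p ∈ TrO o, lg p ∈ Rg := by
    intro o ho p hp
    obtain ⟨h1, h2, h3, h4, h5⟩ := hmem o ho p hp
    have n1 := one_le_nm' h1.ne_zero
    have n2 := one_le_nm' h2.ne_zero
    rw [hRg, hlg]
    simp only [Finset.mem_product, Finset.mem_range, Nat.lt_succ_iff]
    refine ⟨⟨?_, ?_⟩, ?_⟩
    · refine Nat.log_mono_right (Nat.le_floor ?_)
      nlinarith
    · refine Nat.log_mono_right (Nat.le_floor ?_)
      nlinarith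
    · exact Nat.log_mono_right (Nat.le_floor h5)
  -- step A
  have hA1 : ∀ o ∈ O, ∀ κ ∈ KSa lam ka,
      ‖StrQ χ w (Yq o) t (b o) κ (ρ o) (r₁ o) (cw * Y) P₁‖ ^ 2 ≤
      (Ct * Z ^ (ε / 16)) * (c3 * Z ^ δ) * (Ct * Z ^ (ε / 16)) *
        ∑ p ∈ TrO o, (nm p.1.2 : ℝ) * f o p κ := by
    intro o ho κ _
    have hYq0 : 0 < Yq o := by have := (hYq o ho).1; linarith
    have hw' : ∀ x, w (x / Yq o) ≠ 0 → x ≤ cw * Y := by
      intro x hx
      have h1 := hw _ hx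
      rw [div_le_iff₀ hYq0] at h1
      exact h1.trans (mul_le_mul_of_nonneg_left (hYq o ho).2 hcw0.le)
    have h1 := norm_StrQ_le (w := w) hχ (t := t) hYq0
      (fun n hn => ((mem_S hZ0.le).1 (hbS o ho n hn)).2.1)
      κ (hρ o ho).1 (hr o ho).1 hcY0 hw' P₁
    refine h1.trans ?_
    have h2 : ∑ d ∈ pdiv (ρ o), ∑ q ∈ S (cw * Y), (if (nm d : ℝ) * nm q ≤ P₁ then
        (nm q : ℝ) * ∑ e ∈ pdiv (r₁ o), ‖XS χ w (Yq o / nm e / nm (d * q ^ 2)) t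
          (bs (bs (b o) e) (d * q ^ 2)) κ‖ ^ 2 else 0) =
        ∑ p ∈ TrO o, (nm p.1.2 : ℝ) * f o p κ := by
      rw [hTrO, hPrO, hf]
      beta_reduce
      rw [Finset.sum_product, Finset.sum_filter, Finset.sum_product]
      refine Finset.sum_congr rfl fun d _ => Finset.sum_congr rfl fun q _ => ?_
      split_ifs
      · rw [Finset.mul_sum]
      · rfl
    rw [h2]
    have h3 : ∀ s : Eis, s ≠ 0 → (nm s : ℝ) ≤ Z ^ 3 →
        ((pdiv s).card : ℝ) ≤ Ct * Z ^ (ε / 16) := by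
      intro s hs hsZ
      refine (htau _ hs).trans (mul_le_mul_of_nonneg_left ?_ (by linarith))
      calc (nm s : ℝ) ^ (ε / 48) ≤ (Z ^ 3) ^ (ε / 48) :=
            Real.rpow_le_rpow (Nat.cast_nonneg _) hsZ (by positivity)
        _ = Z ^ (ε / 16) := by
            rw [← Real.rpow_natCast Z 3, ← Real.rpow_mul hZ0.le]; congr 1; push_cast; ring
    have h4 : HS (cw * Y) ≤ c3 * Z ^ δ :=
      HS_rpow hcY (mul_le_mul_of_nonneg_left hYZ hcw0.le) hZ hcw hδ0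
    have h5 : 0 ≤ ∑ p ∈ TrO o, (nm p.1.2 : ℝ) * f o p κ :=
      Finset.sum_nonneg fun p _ => mul_nonneg (Nat.cast_nonneg _) (hf0 _ _ _)
    have hZZ3 : Z ≤ Z ^ 3 := le_self_pow₀ hZ (by norm_num)
    have h6 := h3 _ (hρ o ho).1 (hρ o ho).2
    have h7 := h3 _ (hr o ho).1 ((hr o ho).2.trans hZZ3)
    refine mul_le_mul_of_nonneg_right ?_ h5
    refine mul_le_mul (mul_le_mul h6 h4 (HS_nonneg _) (by positivity)) h7 (Nat.cast_nonneg _)
      (by positivity)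
  -- step B
  set B : ℝ := 2 * (C * Z ^ (ε / 4) * (1 + |t|) ^ J *
    (Y * nfn lam (Il N lam Y) * ((lam / Lt) ^ (1 / 3 : ℝ) * W1))) with hB
  have hIl0 : 0 < Il N lam Y := by unfold Il; positivity
  have hLt0 : 0 < Lt := by linarith
  have hnf0 := hnfn.nonneg lam _ hlam0.le hIl0
  have hB0 : 0 ≤ B := by rw [hB]; positivity
  have hblock : ∀ ij ∈ Rg, (2 : ℝ) ^ ij.1.2 * ∑ o ∈ O, ∑ p ∈ (TrO o).filter (fun p => lg p = ij),
      ∑ κ ∈ KSa lam ka, f o p κ ≤ B := by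
    intro ij hij
    set l := ij.2 with hl
    have h2l : (1 : ℝ) ≤ 2 ^ l := one_le_pow₀ (by norm_num)
    have h2l0 : (0 : ℝ) < 2 ^ l := by linarith
    have hlZ : (2 : ℝ) ^ l ≤ Z := by
      rw [hRg] at hij
      simp only [Finset.mem_product, Finset.mem_range, Nat.lt_succ_iff] at hij
      have h1 : 2 ^ l ≤ ⌊Z⌋₊ := by
        refine Nat.pow_le_of_le_log ?_ hij.2
        have := Nat.le_floor (n := 1) (a := Z) (by exact_mod_cast hZ)
        omega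
      exact (by exact_mod_cast h1 : (2 : ℝ) ^ l ≤ (⌊Z⌋₊ : ℝ)).trans (Nat.floor_le hZ0.le)
    set Yl : ℝ := Y / 2 ^ l with hYl
    have hYl0 : 0 < Yl := by positivity
    have hYlY : Yl ≤ Y := div_le_self hY0.le h2l
    have hYlZ : 1 ≤ Yl * Z := by
      rw [hYl, div_mul_eq_mul_div, one_le_div h2l0]
      calc (2 : ℝ) ^ l ≤ Z := hlZ
        _ ≤ Y * Z := le_mul_of_one_le_left hZ0.le hY
    set El : ι → Finset Eis := fun o => (pdiv (r₁ o)).filter (fun e => Nat.log 2 (nm e) = l) with hEl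
    set Ol : Finset (Σ _ : ι, Eis) := O.sigma El with hOl
    have hmemE : ∀ o ∈ O, ∀ e ∈ El o, e ∈ pdiv (r₁ o) ∧ IsPrim e ∧ (2 : ℝ) ^ l ≤ nm e ∧
        (nm e : ℝ) ≤ 2 ^ (l + 1) := by
      intro o ho e he
      rw [hEl, Finset.mem_filter] at he
      have h1 := (mem_pdiv (hr o ho).1).mp he.1
      have n1 : nm e ≠ 0 := by
        have := nmpos h1.1.ne_zero
        exact_mod_cast this.ne'
      refine ⟨he.1, h1.1, ?_, ?_⟩
      · rw [← he.2]; exact_mod_cast Nat.pow_log_le_self 2 n1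
      · rw [← he.2]; exact_mod_cast (Nat.lt_pow_succ_log_self (by norm_num) _).le
    have hmemO : ∀ x ∈ Ol, x.1 ∈ O ∧ x.2 ∈ El x.1 := fun x hx => by
      rw [hOl, Finset.mem_sigma] at hx; exact hx
    set Wl : ℝ → ℝ := fun P => 2 ^ (l + 1) * W (P / 2 ^ l) with hWl
    have hres := hmain Z N Yl Lt lam P₁ hZ hN hNZ hYl0 hYlZ (hYlY.trans hYZ) hlam hlamL hLZ hLN hP₁
      hP3 ka 𝒯 hT Ol (fun x => bs (b x.1) x.2) (fun x => Yq x.1 / nm x.2) ?_ ?_ ?_ ?_ Wl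
      (slp_scale hW (by positivity) h2l0) ?_ (2 ^ (l + 1) * W1) (by positivity) ?_
      (fun x => (PrO x.1).filter (fun p => Nat.log 2 (nm p.1) = ij.1.1 ∧
        Nat.log 2 (nm p.2) = ij.1.2)) ij.1.1 ij.1.2 ?_ t
    · -- conclusion
      have e1 : ∑ x ∈ Ol, ∑ p ∈ (PrO x.1).filter (fun p => Nat.log 2 (nm p.1) = ij.1.1 ∧
          Nat.log 2 (nm p.2) = ij.1.2), ∑ κ ∈ KSa lam ka,
          ‖XS χ w (Yq x.1 / nm x.2 / nm (p.1 * p.2 ^ 2)) t
            (bs (bs (b x.1) x.2) (p.1 * p.2 ^ 2)) κ‖ ^ 2 =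
          ∑ o ∈ O, ∑ p ∈ (TrO o).filter (fun p => lg p = ij), ∑ κ ∈ KSa lam ka, f o p κ := by
        rw [hOl, Finset.sum_sigma]
        refine Finset.sum_congr rfl fun o _ => ?_
        have e2 : (TrO o).filter (fun p => lg p = ij) =
            ((PrO o).filter (fun p => Nat.log 2 (nm p.1) = ij.1.1 ∧
              Nat.log 2 (nm p.2) = ij.1.2)) ×ˢ El o := by
          ext p
          rw [hTrO, hEl, hlg]
          simp only [Finset.mem_filter, Finset.mem_product]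
          constructor
          · rintro ⟨⟨h1, h2⟩, h3⟩
            rw [← h3]
            exact ⟨⟨h1, rfl, rfl⟩, h2, by rw [hl, ← h3]⟩
          · rintro ⟨⟨h1, h2, h3⟩, h4, h5⟩
            refine ⟨⟨h1, h4⟩, ?_⟩
            rw [h2, h3, h5, hl]
        rw [e2, Finset.sum_product, Finset.sum_comm]
      rw [e1] at hres
      refine hres.trans ?_
      have hIll : Il N lam Y ≤ Il N lam Yl := by
        unfold Il
        exact div_le_div_of_nonneg_left (by positivity) hYl0 hYlY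
      have h1 := hnfn.anti lam _ _ hlam0.le hIl0 hIll
      have h2 := hnfn.nonneg lam _ hlam0.le (hIl0.trans_le hIll)
      calc C * Z ^ (ε / 4) * (1 + |t|) ^ J * (Yl * nfn lam (Il N lam Yl) *
            ((lam / Lt) ^ (1 / 3 : ℝ) * (2 ^ (l + 1) * W1)))
          ≤ C * Z ^ (ε / 4) * (1 + |t|) ^ J * (Yl * nfn lam (Il N lam Y) *
            ((lam / Lt) ^ (1 / 3 : ℝ) * (2 ^ (l + 1) * W1))) := by gcongr
        _ = B := by
            rw [hB, hYl, pow_succ]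
            field_simp
    · intro x hx
      obtain ⟨ho, he⟩ := hmemO x hx
      obtain ⟨-, h1, h2, h3⟩ := hmemE _ ho _ he
      have h4 := hYq _ ho
      have h5 : 0 < Yq x.1 := by linarith [h4.1]
      have h6 := nmpos h1.ne_zero
      constructor
      · rw [hYl, div_div, div_le_div_iff₀ (by positivity) h6]
        have h7 : Y ≤ 4 * Yq x.1 := by linarith [h4.1]
        calc Y * (nm x.2 : ℝ) ≤ (4 * Yq x.1) * 2 ^ (l + 1) :=
              mul_le_mul h7 h3 h6.le (by positivity)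
          _ = Yq x.1 * (2 ^ l * 8) := by rw [pow_succ]; ring
      · rw [hYl]
        exact div_le_div₀ hY0.le h4.2 h2l0 h2
    · intro x hx n hn
      exact hbS _ (hmemO x hx).1 n (bs_supp hn)
    · intro x hx n hn
      exact hbG _ (hmemO x hx).1 n (bs_supp hn)
    · intro x hx n hn
      exact hbW _ (hmemO x hx).1 n (bs_supp hn)
    · intro τ hτ P hP1
      have hP0 : 0 < P := by linarith
      have h1 := hWle τ hτ (P / 2 ^ l) (by positivity)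
      have h2 : ∑ x ∈ Ol, TV τ A (fun m => bs (b x.1) x.2 m * ψ m) P ≤
          2 ^ (l + 1) * ∑ o ∈ O, ∑ e ∈ pdiv (r₁ o),
            (nm e : ℝ)⁻¹ * TV τ A (fun m => bs (b o) e m * ψ m) (nm e * (P / 2 ^ l)) := by
        rw [hOl, Finset.sum_sigma, Finset.mul_sum]
        refine Finset.sum_le_sum fun o ho => ?_
        rw [Finset.mul_sum]
        have hTV0 : ∀ e : Eis, ∀ P' : ℝ, 0 ≤ TV τ A (fun m => bs (b o) e m * ψ m) P' := fun e P' =>
          Finset.sum_nonneg fun y hy =>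
            mul_nonneg (hOK.ok Z N ka 𝒯 hT τ hτ y hy).2.1 (VI_nonneg _ _ _ _ _ _)
        have h3 : ∀ e ∈ El o, TV τ A (fun m => bs (b o) e m * ψ m) P ≤
            2 ^ (l + 1) * ((nm e : ℝ)⁻¹ * TV τ A (fun m => bs (b o) e m * ψ m) (nm e * (P / 2 ^ l))) := by
          intro e he
          obtain ⟨-, h5, h6, h7⟩ := hmemE _ ho _ he
          have h8 := nmpos h5.ne_zero
          have h9 : P ≤ nm e * (P / 2 ^ l) := by
            rw [← mul_div_assoc, le_div_iff₀ h2l0]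
            nlinarith
          have h10 : TV τ A (fun m => bs (b o) e m * ψ m) P ≤ TV τ A (fun m => bs (b o) e m * ψ m) (nm e * (P / 2 ^ l)) := by
            unfold TV
            refine Finset.sum_le_sum fun y hy => ?_
            obtain ⟨-, a1, a2⟩ := hOK.ok Z N ka 𝒯 hT τ hτ y hy
            have a3 : 0 < τ.rho y := by linarith
            exact mul_le_mul_of_nonneg_left (VI_mono A (fun m => bs (b o) e m * ψ m) _ _ _ (by positivity)
              (div_le_div_of_nonneg_right h9 a3.le)) a1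
          have h11 : 1 ≤ (2 : ℝ) ^ (l + 1) * (nm e : ℝ)⁻¹ := by
            rw [← div_eq_mul_inv, one_le_div h8]; exact h7
          calc _ ≤ TV τ A (fun m => bs (b o) e m * ψ m) (nm e * (P / 2 ^ l)) := h10
            _ ≤ (2 ^ (l + 1) * (nm e : ℝ)⁻¹) * TV τ A (fun m => bs (b o) e m * ψ m) (nm e * (P / 2 ^ l)) :=
              le_mul_of_one_le_left (hTV0 _ _) h11
            _ = _ := by ring
        refine (Finset.sum_le_sum h3).trans ?_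
        refine Finset.sum_le_sum_of_subset_of_nonneg (Finset.filter_subset _ _) fun e _ _ => ?_
        have := hTV0 e (nm e * (P / 2 ^ l))
        positivity
      calc ∑ x ∈ Ol, TV τ A (fun m => bs (b x.1) x.2 m * ψ m) P
          ≤ 2 ^ (l + 1) * ∑ o ∈ O, ∑ e ∈ pdiv (r₁ o),
            (nm e : ℝ)⁻¹ * TV τ A (fun m => bs (b o) e m * ψ m) (nm e * (P / 2 ^ l)) := h2
        _ ≤ 2 ^ (l + 1) * W (P / 2 ^ l) := mul_le_mul_of_nonneg_left h1 (by positivity)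
        _ = Wl P := by rw [hWl]
    · have e1 : c * Il N Lt Yl / 2 ^ l = c * Il N Lt Y := by
        unfold Il; rw [hYl]; field_simp
      rw [hWl]
      beta_reduce
      rw [e1]
      exact mul_le_mul_of_nonneg_left hW1le (by positivity)
    · intro x hx p hp
      obtain ⟨ho, he⟩ := hmemO x hx
      rw [Finset.mem_filter] at hp
      obtain ⟨h1, h2, h3, -, -⟩ := hmem _ ho (p, x.2) (by
        rw [hTrO]
        exact Finset.mem_product.mpr ⟨hp.1, (hmemE _ ho _ he).1⟩)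
      have n1 : nm p.1 ≠ 0 := by
        have := nmpos h1.ne_zero
        exact_mod_cast this.ne'
      have n2 : nm p.2 ≠ 0 := by
        have := nmpos h2.ne_zero
        exact_mod_cast this.ne'
      refine ⟨h1, h2, ⟨?_, ?_⟩, ⟨?_, ?_⟩, h3⟩
      · rw [← hp.2.1]; exact_mod_cast Nat.pow_log_le_self 2 n1
      · rw [← hp.2.1]; exact_mod_cast (Nat.lt_pow_succ_log_self (by norm_num) _).le
      · rw [← hp.2.2]; exact_mod_cast Nat.pow_log_le_self 2 n2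
      · rw [← hp.2.2]; exact_mod_cast (Nat.lt_pow_succ_log_self (by norm_num) _).le
  have hstep : ∑ o ∈ O, ∑ κ ∈ KSa lam ka, ∑ p ∈ TrO o, (nm p.1.2 : ℝ) * f o p κ ≤
      ∑ ij ∈ Rg, 2 * B := by
    have h1 : ∀ o ∈ O, ∑ κ ∈ KSa lam ka, ∑ p ∈ TrO o, (nm p.1.2 : ℝ) * f o p κ =
        ∑ ij ∈ Rg, ∑ p ∈ (TrO o).filter (fun p => lg p = ij), (nm p.1.2 : ℝ) *
          ∑ κ ∈ KSa lam ka, f o p κ := by
      intro o ho
      rw [Finset.sum_comm]
      rw [← Finset.sum_fiberwise_of_maps_to (hmaps o ho)]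
      exact Finset.sum_congr rfl fun ij _ => Finset.sum_congr rfl fun p _ => by
        rw [Finset.mul_sum]
    rw [Finset.sum_congr rfl h1, Finset.sum_comm]
    refine Finset.sum_le_sum fun ij hij => ?_
    have h2 : ∀ o ∈ O, ∑ p ∈ (TrO o).filter (fun p => lg p = ij), (nm p.1.2 : ℝ) *
          ∑ κ ∈ KSa lam ka, f o p κ ≤ (2 * 2 ^ ij.1.2) *
          ∑ p ∈ (TrO o).filter (fun p => lg p = ij), ∑ κ ∈ KSa lam ka, f o p κ := by
      intro o ho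
      rw [Finset.mul_sum]
      refine Finset.sum_le_sum fun p hp => ?_
      rw [Finset.mem_filter] at hp
      have e2 : Nat.log 2 (nm p.1.2) = ij.1.2 := (Prod.mk.inj (Prod.mk.inj hp.2).1).2
      refine mul_le_mul_of_nonneg_right ?_ (Finset.sum_nonneg fun _ _ => hf0 _ _ _)
      have h3 : (nm p.1.2 : ℝ) ≤ 2 ^ (ij.1.2 + 1) := by
        rw [← e2]; exact_mod_cast (Nat.lt_pow_succ_log_self (by norm_num) _).le
      calc (nm p.1.2 : ℝ) ≤ 2 ^ (ij.1.2 + 1) := h3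
        _ = 2 * 2 ^ ij.1.2 := by rw [pow_succ]; ring
    calc _ ≤ ∑ o ∈ O, (2 * 2 ^ ij.1.2) *
          ∑ p ∈ (TrO o).filter (fun p => lg p = ij), ∑ κ ∈ KSa lam ka, f o p κ :=
          Finset.sum_le_sum h2
      _ = 2 * ((2 : ℝ) ^ ij.1.2 * ∑ o ∈ O, ∑ p ∈ (TrO o).filter (fun p => lg p = ij),
          ∑ κ ∈ KSa lam ka, f o p κ) := by rw [← Finset.mul_sum]; ring
      _ ≤ 2 * B := by have := hblock ij hij; linarith
  have hcard : ((Rg.card : ℕ) : ℝ) ≤ c4 ^ 3 * Z ^ δ := by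
    have h1 : ((I : ℕ) : ℝ) + 1 ≤ c4 * Z ^ (δ / 3) := by
      have := natlog_le (n := ⌊Z⌋₊) hZ (δ := δ / 3) (by positivity) (Nat.floor_le hZ0.le)
      rw [hI, hc4]
      linarith
    rw [hRg, Finset.card_product, Finset.card_product, Finset.card_range]
    push_cast
    have h0 : (0 : ℝ) ≤ (I : ℝ) + 1 := by positivity
    calc ((I : ℝ) + 1) * ((I : ℝ) + 1) * ((I : ℝ) + 1) = ((I : ℝ) + 1) ^ 3 := by ring
      _ ≤ (c4 * Z ^ (δ / 3)) ^ 3 := pow_le_pow_left₀ h0 h1 3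
      _ = c4 ^ 3 * Z ^ δ := by
          rw [mul_pow, ← Real.rpow_natCast (Z ^ (δ / 3)) 3, ← Real.rpow_mul hZ0.le]
          congr 2
          push_cast; ring
  calc ∑ o ∈ O, ∑ κ ∈ KSa lam ka, ‖StrQ χ w (Yq o) t (b o) κ (ρ o) (r₁ o) (cw * Y) P₁‖ ^ 2
      ≤ ∑ o ∈ O, ∑ κ ∈ KSa lam ka, (Ct * Z ^ (ε / 16)) * (c3 * Z ^ δ) * (Ct * Z ^ (ε / 16)) *
          ∑ p ∈ TrO o, (nm p.1.2 : ℝ) * f o p κ :=
        Finset.sum_le_sum fun o ho => Finset.sum_le_sum fun κ hκ => hA1 o ho κ hκ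
    _ = (Ct * Z ^ (ε / 16)) * (c3 * Z ^ δ) * (Ct * Z ^ (ε / 16)) *
          ∑ o ∈ O, ∑ κ ∈ KSa lam ka, ∑ p ∈ TrO o, (nm p.1.2 : ℝ) * f o p κ := by
        simp_rw [Finset.mul_sum]
    _ ≤ (Ct * Z ^ (ε / 16)) * (c3 * Z ^ δ) * (Ct * Z ^ (ε / 16)) * ∑ ij ∈ Rg, 2 * B :=
        mul_le_mul_of_nonneg_left hstep (by positivity)
    _ = (Ct * Z ^ (ε / 16)) * (c3 * Z ^ δ) * (Ct * Z ^ (ε / 16)) * (Rg.card * (2 * B)) := by
        rw [Finset.sum_const, nsmul_eq_mul]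
    _ ≤ (Ct * Z ^ (ε / 16)) * (c3 * Z ^ δ) * (Ct * Z ^ (ε / 16)) *
        ((c4 ^ 3 * Z ^ δ) * (2 * B)) := by
        gcongr
    _ = Ct ^ 2 * c3 * (c4 ^ 3 * (4 * C)) *
        (Z ^ (ε / 16) * Z ^ δ * Z ^ (ε / 16) * Z ^ δ * Z ^ (ε / 4)) *
        (1 + |t|) ^ J * (Y * nfn lam (Il N lam Y) * ((lam / Lt) ^ (1 / 3 : ℝ) * W1)) := by
        rw [hB]; ring
    _ ≤ Ct ^ 2 * c3 * (c4 ^ 3 * (4 * C)) * Z ^ ε *
        (1 + |t|) ^ J * (Y * nfn lam (Il N lam Y) * ((lam / Lt) ^ (1 / 3 : ℝ) * W1)) := by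
        have h1 : Z ^ (ε / 16) * Z ^ δ * Z ^ (ε / 16) * Z ^ δ * Z ^ (ε / 4) ≤ Z ^ ε := by
          rw [← Real.rpow_add hZ0, ← Real.rpow_add hZ0, ← Real.rpow_add hZ0,
            ← Real.rpow_add hZ0]
          refine Real.rpow_le_rpow_of_exponent_le hZ ?_
          rw [hδ]; linarith
        gcongr


end Crest.Agent.R017.Mps347
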