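import Crest.Agent.R017.ModeE_405
import Crest.Agent.R017.MpsH_347

/-!
# Row 17: the modes with a twist on the test side, part E (helper347, after helper405's ModeE)

* `small_lep` : all the small kernels
* `modeEp` : **MODE*** with a twist `ψ` on the test side and a support condition `G`
-/

set_option autoImplicit false

noncomputable section

open Complex MeasureTheory
open scoped ComplexConjugate

namespace Crest.Agent.R017.Mps347

open Crest.Agent.R012 Crest.Agent.R012.Eis Crest.Agent.R012.MC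
open Crest.Agent.R012.LS2 (S mem_S bl mem_bl)
open Crest.Agent.R012.LS448 (one_le_nm')
open Crest.Agent.R012.NonCube52 (Ker kv Good kc kc_spec kc_nm kv_ne_zero one_le_nmkv)
open Crest.Agent.R012.Mob705 (mu pdiv mem_pdiv sum_mu_coprime abs_mu_le_one)
open Crest.Agent.R012.Weight600 (pw)
open Crest.Agent.R017.CM106 (CS TG FS)
open Crest.Agent.R017.BD829 (TT EQ Win EQ_nonneg)
open Crest.Agent.R017.E1551 (jb jb_pos nmpos)
open Crest.Agent.R017.DgB829 (HS HS_le HS_nonneg)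
open Crest.Agent.R017.Mode405
open Crest.Agent.R017.BD829 (integrable_EQ)
open Crest.Agent.R017.E3D579 (uS uS_supp)
open Crest.Agent.R017.E1551 (integrable_jb)

open Classical in
set_option maxHeartbeats 1000000 in
/-- **the small kernels** -/
theorem small_lep {OK : ℝ → ℝ → Eis → Set Tst → Prop} (hOK : OKW OK)
    {nfn : ℝ → ℝ → ℝ} (hnfn : NFok nfn) {G : Eis → Prop} {ψ χ : Eis → ℂ}
    (hχ : Mul1 χ) {w : ℝ → ℝ} (hP : PoHWp OK nfn G ψ χ w) {cw Cw : ℝ} (hcw : 1 ≤ cw) (hw : ∀ x, w x ≠ 0 → x ≤ cw)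
    (hCw : ∀ x, |w x| ≤ Cw) {R : ℝ} (hR : 0 ≤ R) (a A : ℕ) (hA : 1 < A) {ε : ℝ} (hε : 0 < ε) :
    ∃ (C c : ℝ) (J : ℕ), 0 ≤ C ∧ 1 ≤ c ∧ ∀ Z N Y L L0 Lt : ℝ, 1 ≤ Z → 0 < N → N ≤ Z → 1 ≤ Y →
      Y ≤ Z → 0 ≤ L → 0 ≤ L0 → L0 ≤ Z → 1 ≤ Lt → Lt ≤ Z → Lt * Real.exp R < N →
    ∀ (ka : Eis) (𝒯 : Set Tst), OK Z N ka 𝒯 →
    ∀ {ι : Type} (O : Finset ι) (b : ι → Eis → ℂ) (Yq : ι → ℝ) (r r₁ q : ι → Eis),
      (∀ o ∈ O, Y / 4 ≤ Yq o ∧ Yq o ≤ Y) → (∀ o ∈ O, ∀ n, b o n ≠ 0 → n ∈ S Z) → (∀ o ∈ O, ∀ n, b o n ≠ 0 → G n) →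
      (∀ o ∈ O, Win (b o) (Real.log N) R) → (∀ o ∈ O, r o ≠ 0 ∧ (nm (r o) : ℝ) ≤ Z) →
      (∀ o ∈ O, r₁ o ∣ r o) →
      (∀ o ∈ O, q o ≠ 0 ∧ (nm (q o) : ℝ) ≤ Z ∧ L * nk (q o) ≤ L0) →
    ∀ W : ℝ → ℝ, Slp a W →
      (∀ τ ∈ 𝒯, ∀ P : ℝ, 0 < P → ∑ o ∈ O, ∑ e ∈ pdiv (r₁ o),
        (nm e : ℝ)⁻¹ * TV τ A (fun m => bs (b o) e m * ψ m) (nm e * P) ≤ W P) →
    ∀ W1 : ℝ, 0 ≤ W1 → W (c * Il N Lt Y) ≤ W1 →
    ∀ t : ℝ, ∑ o ∈ O, ∑ h ∈ (bl L).filter (fun h =>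
        nk (h * q o) ≤ Lt ∧ IsCoprime (kv (kc (h * q o)).1) ka),
        ‖Lx χ w (Yq o) t (b o) (kc (h * q o)).1 (r o * (kc (h * q o)).2)‖ ^ 2 ≤
      C * Z ^ ε * (1 + |t|) ^ J * ((L0 / Lt) ^ (1 / 3 : ℝ) *
        (Y * nfn Lt (Il N Lt Y) * W1 +
          ((Y + (Lt * Y) ^ (2 / 3 : ℝ)) * ∑ o ∈ O, DT 1 (cw * Y) (b o) (r₁ o) +
          Lt * Y ^ (1 / 2 : ℝ) * ∑ o ∈ O, DT (1 / 2) (cw * Y) (b o) (r₁ o)))) := by
  obtain ⟨C, c, J, hC, hc, hblk⟩ := blk_lep hOK hnfn hχ hP hcw hw hCw hR a A hA (ε := ε / 2)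
    (by positivity)
  refine ⟨(4 * (1 + 1 / (ε / 2))) * C, c, J, by positivity, hc, ?_⟩
  intro Z N Y L L0 Lt hZ hN hNZ hY hYZ hL hL0 hL0Z hLt hLZ hLN ka 𝒯 hT ι O b Yq r r₁ q hYq hbS
    hbG hbW hr hr₁ hq W hW hWle W1 hW1 hW1le t
  have hZ0 : 0 < Z := by linarith
  have hLt0 : 0 < Lt := by linarith
  have hY0 : 0 < Y := by linarith
  set I : ℕ := Nat.log 2 ⌊Lt⌋₊ + 1 with hI
  set lm : ℕ → ℝ := fun i => min ((2 : ℝ) ^ i) Lt with hlm
  have hlm1 : ∀ i, 1 ≤ lm i := fun i => le_min (one_le_pow₀ (by norm_num)) hLt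
  set BB : ℝ := C * Z ^ (ε / 2) * (1 + |t|) ^ J * ((L0 / Lt) ^ (1 / 3 : ℝ) *
        (Y * nfn Lt (Il N Lt Y) * W1 +
          ((Y + (Lt * Y) ^ (2 / 3 : ℝ)) * ∑ o ∈ O, DT 1 (cw * Y) (b o) (r₁ o) +
          Lt * Y ^ (1 / 2 : ℝ) * ∑ o ∈ O, DT (1 / 2) (cw * Y) (b o) (r₁ o)))) with hBB
  have hIlt0 : 0 < Il N Lt Y := by unfold Il; positivity
  have hnf0 := hnfn.nonneg Lt _ hLt0.le hIlt0
  have hD10 : 0 ≤ ∑ o ∈ O, DT 1 (cw * Y) (b o) (r₁ o) :=
    Finset.sum_nonneg fun o _ => DT_nonneg _ _ _ _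
  have hD20 : 0 ≤ ∑ o ∈ O, DT (1 / 2) (cw * Y) (b o) (r₁ o) :=
    Finset.sum_nonneg fun o _ => DT_nonneg _ _ _ _
  have hBB0 : 0 ≤ BB := by rw [hBB]; positivity
  set F : ι → Eis → ℝ := fun o h =>
    ‖Lx χ w (Yq o) t (b o) (kc (h * q o)).1 (r o * (kc (h * q o)).2)‖ ^ 2 with hF
  have hF0 : ∀ o h, 0 ≤ F o h := fun o h => by rw [hF]; positivity
  have h1 : ∀ o ∈ O, ∑ h ∈ (bl L).filter (fun h =>
      nk (h * q o) ≤ Lt ∧ IsCoprime (kv (kc (h * q o)).1) ka), F o h ≤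
      ∑ i ∈ Finset.range (I + 1), ∑ h ∈ (bl L).filter (fun h => (lm i / 2 < nk (h * q o) ∧
        nk (h * q o) ≤ lm i) ∧ IsCoprime (kv (kc (h * q o)).1) ka), F o h := by
    intro o ho
    have e1 : ∀ i ∈ Finset.range (I + 1), ∑ h ∈ (bl L).filter (fun h =>
        (lm i / 2 < nk (h * q o) ∧ nk (h * q o) ≤ lm i) ∧
          IsCoprime (kv (kc (h * q o)).1) ka), F o h =
        ∑ h ∈ bl L, if (lm i / 2 < nk (h * q o) ∧ nk (h * q o) ≤ lm i) ∧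
          IsCoprime (kv (kc (h * q o)).1) ka then F o h else 0 := fun i _ => by
      rw [Finset.sum_filter]
    rw [Finset.sum_congr rfl e1, Finset.sum_comm, Finset.sum_filter]
    refine Finset.sum_le_sum fun h hh => ?_
    rw [mem_bl hL] at hh
    split_ifs with hc
    · have hne : h * q o ≠ 0 := mul_ne_zero hh.1 (hq o ho).1
      set n : ℕ := nm (kv (kc (h * q o)).1) with hn
      have hnk : nk (h * q o) = (n : ℝ) := rfl
      have hn1 : 1 ≤ n := by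
        have := one_le_nmkv (kc_spec hne).1
        exact_mod_cast this
      set i : ℕ := Nat.clog 2 n with hi
      have a1 : n ≤ 2 ^ i := Nat.le_pow_clog (by norm_num) n
      have a2 : (2 : ℝ) ^ i / 2 < n := by
        rcases Nat.lt_or_ge 1 n with h2 | h2
        · have h3 := Nat.pow_pred_clog_lt_self (b := 2) (by norm_num) h2
          have h4 : 0 < i := Nat.clog_pos (by norm_num) h2
          have h5 : (2 : ℝ) ^ i = 2 * 2 ^ (i.pred) := by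
            rw [← pow_succ']
            congr 1
            exact (Nat.succ_pred_eq_of_pos h4).symm
          have h6 : ((2 : ℝ) ^ (i.pred)) < n := by exact_mod_cast h3
          rw [h5]; linarith
        · have h3 : n = 1 := le_antisymm h2 hn1
          have h4 : i = 0 := by rw [hi, h3]; simp
          rw [h4, h3]; norm_num
      have hiI : i ∈ Finset.range (I + 1) := by
        rw [Finset.mem_range, Nat.lt_succ_iff, hI]
        have h2 : n ≤ ⌊Lt⌋₊ := Nat.le_floor (by rw [← hnk]; exact hc.1)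
        have h3 : i ≤ Nat.clog 2 ⌊Lt⌋₊ := Nat.clog_mono_right 2 h2
        refine h3.trans ?_
        refine (Nat.clog_le_iff_le_pow (by norm_num)).mpr ?_
        exact (Nat.lt_pow_succ_log_self (by norm_num) _).le
      have hmem : (lm i / 2 < nk (h * q o) ∧ nk (h * q o) ≤ lm i) ∧
          IsCoprime (kv (kc (h * q o)).1) ka := by
        refine ⟨⟨?_, ?_⟩, hc.2⟩
        · rw [hnk]
          refine lt_of_le_of_lt ?_ a2
          exact div_le_div_of_nonneg_right (min_le_left _ _) (by norm_num)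
        · refine le_min ?_ hc.1
          rw [hnk]; exact_mod_cast a1
      refine le_trans (le_of_eq ?_) (Finset.single_le_sum (f := fun i =>
        if (lm i / 2 < nk (h * q o) ∧ nk (h * q o) ≤ lm i) ∧
          IsCoprime (kv (kc (h * q o)).1) ka then F o h else 0)
        (fun i _ => by split_ifs <;> [exact hF0 _ _; exact le_rfl]) hiI)
      rw [if_pos hmem]
    · exact Finset.sum_nonneg fun i _ => by split_ifs <;> [exact hF0 _ _; exact le_rfl]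
  have h2 : ∑ o ∈ O, ∑ h ∈ (bl L).filter (fun h =>
      nk (h * q o) ≤ Lt ∧ IsCoprime (kv (kc (h * q o)).1) ka), F o h ≤
      ∑ _i ∈ Finset.range (I + 1), BB := by
    refine (Finset.sum_le_sum h1).trans ?_
    rw [Finset.sum_comm]
    refine Finset.sum_le_sum fun i _ => ?_
    exact hblk Z N Y L L0 Lt (lm i) hZ hN hNZ hY hYZ hL hL0 hL0Z (hlm1 i) (min_le_right _ _) hLZ
      hLN ka 𝒯 hT O b Yq r r₁ q hYq hbS hbG hbW hr hr₁ hq W hW hWle W1 hW1 hW1le t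
  refine h2.trans ?_
  rw [Finset.sum_const, Finset.card_range, nsmul_eq_mul]
  have h3 : (((I + 1 : ℕ)) : ℝ) ≤ (4 * (1 + 1 / (ε / 2))) * Z ^ (ε / 2) := by
    have h4 := natlog_le (n := ⌊Lt⌋₊) hZ (δ := ε / 2) (by positivity)
      ((Nat.floor_le hLt0.le).trans hLZ)
    have h5 : (0 : ℝ) ≤ (Nat.log 2 ⌊Lt⌋₊ : ℕ) := Nat.cast_nonneg _
    rw [hI]
    push_cast
    linarith
  calc (((I + 1 : ℕ)) : ℝ) * BB ≤ ((4 * (1 + 1 / (ε / 2))) * Z ^ (ε / 2)) * BB :=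
        mul_le_mul_of_nonneg_right h3 hBB0
    _ = (4 * (1 + 1 / (ε / 2))) * C * (Z ^ (ε / 2) * Z ^ (ε / 2)) * (1 + |t|) ^ J *
        ((L0 / Lt) ^ (1 / 3 : ℝ) *
        (Y * nfn Lt (Il N Lt Y) * W1 +
          ((Y + (Lt * Y) ^ (2 / 3 : ℝ)) * ∑ o ∈ O, DT 1 (cw * Y) (b o) (r₁ o) +
          Lt * Y ^ (1 / 2 : ℝ) * ∑ o ∈ O, DT (1 / 2) (cw * Y) (b o) (r₁ o)))) := by
        rw [hBB]; ring
    _ = _ := by
        have : Z ^ (ε / 2) * Z ^ (ε / 2) = Z ^ ε := by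
          rw [← Real.rpow_add hZ0]; congr 1; ring
        rw [this]

open Classical in
set_option maxHeartbeats 2000000 in
/-- **MODE*** -/
theorem modeEp {OK : ℝ → ℝ → Eis → Set Tst → Prop} (hOK : OKW OK)
    {nfn : ℝ → ℝ → ℝ} (hnfn : NFok nfn) {G : Eis → Prop} {ψ χ : Eis → ℂ}
    (hχ : Mul1 χ) {w : ℝ → ℝ} (hwW : Wgt w) (hP : PoHWp OK nfn G ψ χ (w6 w)) {R : ℝ} (hR : 0 ≤ R) (a A : ℕ)
    (hA : 1 < A) {ε : ℝ} (hε : 0 < ε) :
    ∃ (C c cw : ℝ) (A₀ : ℕ), 0 ≤ C ∧ 1 ≤ c ∧ 1 ≤ cw ∧ ∀ A' : ℝ, (A₀ : ℝ) ≤ A' →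
      ∀ Z N Y L L0 Lt : ℝ, 1 ≤ Z → 0 < N → N ≤ Z → 1 ≤ Y → Y ≤ Z → 0 ≤ L → L ≤ Z → 0 ≤ L0 →
      L0 ≤ Z → 0 < Lt → Lt ≤ Z →
    ∀ {ι : Type} (O : Finset ι) (b : ι → Eis → ℂ) (Yq : ι → ℝ) (r r₁ q : ι → Eis),
      (∀ o ∈ O, Y / 4 ≤ Yq o ∧ Yq o ≤ Y) → (∀ o ∈ O, ∀ n, b o n ≠ 0 → n ∈ S Z) → (∀ o ∈ O, ∀ n, b o n ≠ 0 → G n) →
      (∀ o ∈ O, Win (b o) (Real.log N) R) → (∀ o ∈ O, r o ≠ 0 ∧ (nm (r o) : ℝ) ≤ Z) →
      (∀ o ∈ O, r₁ o ∣ r o) →
      (∀ o ∈ O, q o ≠ 0 ∧ (nm (q o) : ℝ) ≤ Z ∧ L * nk (q o) ≤ L0) →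
    ∀ (ka : Eis) (𝒯 : Set Tst) (W : ℝ → ℝ) (W1 : ℝ), 0 ≤ W1 →
      (1 ≤ Lt → Lt * Real.exp R < N ∧ OK Z N ka 𝒯 ∧ Slp a W ∧
        (∀ τ ∈ 𝒯, ∀ P : ℝ, 0 < P → ∑ o ∈ O, ∑ e ∈ pdiv (r₁ o),
          (nm e : ℝ)⁻¹ * TV τ A (fun m => bs (b o) e m * ψ m) (nm e * P) ≤ W P) ∧
        W (c * Il N Lt Y) ≤ W1) →
    ∑ o ∈ O, ∑ h ∈ (bl L).filter (fun h => IsCoprime (kv (kc (h * q o)).1) ka),
        EQ A' (fun n => χ n * uS (fun x => ((w (x / Yq o) : ℝ) : ℂ)) (r o) (b o) n) (h * q o) ≤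
      C * Z ^ ε * Y ^ (-(1 : ℝ) / 3) *
        (((L0 / Lt) ^ (1 / 3 : ℝ) * Y + (if Lt ≤ L0 then L + (L * Y) ^ (2 / 3 : ℝ) else 0)) *
          ∑ o ∈ O, ∑ n ∈ (S (cw * Y)).filter (fun n => IsCoprime n (r o)), ‖CS (b o) n‖ ^ 2 +
        (if 1 ≤ Lt then (L0 / Lt) ^ (1 / 3 : ℝ) * (Y * nfn Lt (Il N Lt Y) * W1 +
          ((Y + (Lt * Y) ^ (2 / 3 : ℝ)) * ∑ o ∈ O, DT 1 (cw * Y) (b o) (r₁ o) +
          Lt * Y ^ (1 / 2 : ℝ) * ∑ o ∈ O, DT (1 / 2) (cw * Y) (b o) (r₁ o))) else 0)) := by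
  -- the weight
  have hw6 := wgt_w6 hwW
  obtain ⟨cw, hcw, hcwle⟩ : ∃ cw : ℝ, 1 ≤ cw ∧ ∀ x, w6 w x ≠ 0 → x ≤ cw := by
    obtain ⟨M, hM⟩ := hw6.cpt.isCompact.bddAbove
    refine ⟨max 1 M, le_max_left _ _, fun x hx => le_trans ?_ (le_max_right _ _)⟩
    exact hM (subset_tsupport _ hx)
  obtain ⟨Cw, hCw⟩ : ∃ Cw : ℝ, ∀ x, |w6 w x| ≤ Cw := by
    obtain ⟨C, hC⟩ := hw6.cpt.exists_bound_of_continuous hw6.smooth.continuous
    exact ⟨C, fun x => by simpa using hC x⟩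
  have hCw0 : 0 ≤ Cw := (abs_nonneg _).trans (hCw 0)
  obtain ⟨C₁, c, J, hC₁, hc, hsmall⟩ := small_lep hOK hnfn hχ hP hcw hcwle hCw hR a A hA hε
  obtain ⟨C₂, hC₂, hbig⟩ := big_le (ε := ε / 2) (by positivity)
  have hcw0 : 0 < cw := by linarith
  set KJ : ℝ := ∫ t, jb 2 t with hKJ
  have hKJ0 : 0 ≤ KJ := integral_nonneg fun t => (jb_pos 2 t).le
  refine ⟨2 * KJ * (C₁ + C₂ * cw ^ (ε / 2) * cw * Cw ^ 2), c, cw, J + 2, by positivity, hc, hcw, ?_⟩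
  intro A' hA' Z N Y L L0 Lt hZ hN hNZ hY hYZ hL hLZ' hL0 hL0Z hLt hLZ ι O b Yq r r₁ q hYq hbS
    hbG hbW hr hr₁ hq ka 𝒯 W W1 hW1 hyp
  have hZ0 : 0 < Z := by linarith
  have hY0 : 0 < Y := by linarith
  have hcY : 1 ≤ cw * Y := one_le_mul_of_one_le_of_one_le hcw hY
  have hcY0 : 0 ≤ cw * Y := by linarith
  set LA : ℝ := ((L0 / Lt) ^ (1 / 3 : ℝ) * Y + (if Lt ≤ L0 then L + (L * Y) ^ (2 / 3 : ℝ) else 0)) *
          ∑ o ∈ O, ∑ n ∈ (S (cw * Y)).filter (fun n => IsCoprime n (r o)), ‖CS (b o) n‖ ^ 2 with hLA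
  set LB : ℝ := (if 1 ≤ Lt then (L0 / Lt) ^ (1 / 3 : ℝ) * (Y * nfn Lt (Il N Lt Y) * W1 +
          ((Y + (Lt * Y) ^ (2 / 3 : ℝ)) * ∑ o ∈ O, DT 1 (cw * Y) (b o) (r₁ o) +
          Lt * Y ^ (1 / 2 : ℝ) * ∑ o ∈ O, DT (1 / 2) (cw * Y) (b o) (r₁ o))) else 0) with hLB
  have hS0 : 0 ≤ ∑ o ∈ O, ∑ n ∈ (S (cw * Y)).filter (fun n => IsCoprime n (r o)),
      ‖CS (b o) n‖ ^ 2 := Finset.sum_nonneg fun _ _ => Finset.sum_nonneg fun _ _ => by positivity
  have hLA0 : 0 ≤ LA := by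
    rw [hLA]
    refine mul_nonneg ?_ hS0
    split_ifs <;> positivity
  have hLB0 : 0 ≤ LB := by
    rw [hLB]
    split_ifs
    · have hIlt0 : 0 < Il N Lt Y := by unfold Il; positivity
      have hnf0 := hnfn.nonneg Lt _ hLt.le hIlt0
      have hD10 : 0 ≤ ∑ o ∈ O, DT 1 (cw * Y) (b o) (r₁ o) :=
        Finset.sum_nonneg fun o _ => DT_nonneg _ _ _ _
      have hD20 : 0 ≤ ∑ o ∈ O, DT (1 / 2) (cw * Y) (b o) (r₁ o) :=
        Finset.sum_nonneg fun o _ => DT_nonneg _ _ _ _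
      positivity
    · exact le_rfl
  -- the case `L < 1`
  by_cases hL1 : 1 ≤ L
  swap
  · push Not at hL1
    have e0 : bl L = ∅ := by
      rw [Finset.eq_empty_iff_forall_notMem]
      intro h hh
      rw [mem_bl hL] at hh
      have := one_le_nm' hh.1
      linarith [hh.2]
    rw [e0]
    simp only [Finset.filter_empty, Finset.sum_empty, Finset.sum_const_zero]
    positivity
  set Bd : ℝ := (C₁ + C₂ * cw ^ (ε / 2) * cw * Cw ^ 2) * Z ^ ε * (LA + LB) with hBd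
  have hBd0 : 0 ≤ Bd := by positivity
  -- pointwise bound
  have hpt : ∀ t : ℝ, ∑ o ∈ O, ∑ h ∈ (bl L).filter (fun h => IsCoprime (kv (kc (h * q o)).1) ka),
      ‖Lx χ (w6 w) (Yq o) t (b o) (kc (h * q o)).1 (r o * (kc (h * q o)).2)‖ ^ 2 ≤
      Bd * (1 + |t|) ^ J := by
    intro t
    have ht1 : 1 ≤ (1 + |t|) ^ J := one_le_pow₀ (by linarith [abs_nonneg t])
    set F : ι → Eis → ℝ := fun o h =>
      ‖Lx χ (w6 w) (Yq o) t (b o) (kc (h * q o)).1 (r o * (kc (h * q o)).2)‖ ^ 2 with hF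
    have hF0 : ∀ o h, 0 ≤ F o h := fun o h => by rw [hF]; positivity
    have h1 : ∑ o ∈ O, ∑ h ∈ (bl L).filter (fun h => IsCoprime (kv (kc (h * q o)).1) ka), F o h ≤
        (∑ o ∈ O, ∑ h ∈ (bl L).filter (fun h => nk (h * q o) ≤ Lt ∧
          IsCoprime (kv (kc (h * q o)).1) ka), F o h) +
        ∑ o ∈ O, ∑ h ∈ (bl L).filter (fun h => Lt < nk (h * q o)), F o h := by
      rw [← Finset.sum_add_distrib]
      refine Finset.sum_le_sum fun o _ => ?_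
      rw [Finset.sum_filter, Finset.sum_filter, Finset.sum_filter, ← Finset.sum_add_distrib]
      refine Finset.sum_le_sum fun h _ => ?_
      have := hF0 o h
      by_cases a1 : IsCoprime (kv (kc (h * q o)).1) ka
      · by_cases a2 : nk (h * q o) ≤ Lt
        · rw [if_pos a1, if_pos ⟨a2, a1⟩, if_neg (not_lt.mpr a2), add_zero]
        · rw [if_pos a1, if_neg (fun h' => a2 h'.1), if_pos (not_le.mp a2), zero_add]
      · rw [if_neg a1]
        split_ifs <;> linarith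
    have h2 : ∑ o ∈ O, ∑ h ∈ (bl L).filter (fun h => nk (h * q o) ≤ Lt ∧
          IsCoprime (kv (kc (h * q o)).1) ka), F o h ≤ C₁ * Z ^ ε * (1 + |t|) ^ J * LB := by
      by_cases hLt1 : 1 ≤ Lt
      · obtain ⟨y1, y2, y3, y4, y5⟩ := hyp hLt1
        rw [hLB, if_pos hLt1]
        exact hsmall Z N Y L L0 Lt hZ hN hNZ hY hYZ hL hL0 hL0Z hLt1 hLZ y1 ka 𝒯 y2 O b Yq r r₁ q
          hYq hbS hbG hbW hr hr₁ hq W y3 y4 W1 hW1 y5 t
      · have e0 : ∀ o ∈ O, ∑ h ∈ (bl L).filter (fun h => nk (h * q o) ≤ Lt ∧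
            IsCoprime (kv (kc (h * q o)).1) ka), F o h = 0 := by
          intro o ho
          rw [Finset.filter_false_of_mem, Finset.sum_empty]
          intro h hh hc
          rw [mem_bl hL] at hh
          have := nk_ge_one (mul_ne_zero hh.1 (hq o ho).1)
          exact hLt1 (this.trans hc.1)
        rw [Finset.sum_congr rfl e0, Finset.sum_const_zero]
        positivity
    have h3 : ∑ o ∈ O, ∑ h ∈ (bl L).filter (fun h => Lt < nk (h * q o)), F o h ≤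
        (C₂ * cw ^ (ε / 2) * cw * Cw ^ 2) * Z ^ ε * LA := by
      by_cases hLL : Lt ≤ L0
      · have h4 : ∀ o ∈ O, ∑ h ∈ (bl L).filter (fun h => Lt < nk (h * q o)), F o h ≤
            C₂ * (L * (cw * Y)) ^ (ε / 2) * ((L0 / Lt) ^ (1 / 3 : ℝ) * (cw * Y) + L +
              (L * (cw * Y)) ^ (2 / 3 : ℝ)) *
            (Cw ^ 2 * ∑ n ∈ (S (cw * Y)).filter (fun n => IsCoprime n (r o)),
              ‖CS (b o) n‖ ^ 2) := by
          intro o ho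
          have hYq0 : 0 < Yq o := by have := (hYq o ho).1; linarith
          have hw' : ∀ x, w6 w (x / Yq o) ≠ 0 → x ≤ cw * Y := by
            intro x hx
            have h1 := hcwle _ hx
            rw [div_le_iff₀ hYq0] at h1
            exact h1.trans (mul_le_mul_of_nonneg_left (hYq o ho).2 hcw0.le)
          refine le_trans (Finset.sum_le_sum_of_subset_of_nonneg (fun h hh => ?_)
            fun h _ _ => hF0 o h) (hbig χ hχ (w6 w) Cw hCw (Yq o) (cw * Y) L L0 Lt t hcY hw' hL1 hLt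
              (b o) (r o) (q o) (hq o ho).1 (hq o ho).2.2)
          rw [Finset.mem_filter] at hh ⊢
          exact ⟨hh.1, hh.2.le⟩
        refine (Finset.sum_le_sum h4).trans ?_
        rw [← Finset.mul_sum, ← Finset.mul_sum]
        have h5 : (L * (cw * Y)) ^ (ε / 2) ≤ cw ^ (ε / 2) * Z ^ ε := by
          have h6 : L * (cw * Y) ≤ cw * Z ^ 2 := by
            calc L * (cw * Y) ≤ Z * (cw * Z) := by gcongr
              _ = cw * Z ^ 2 := by ring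
          calc (L * (cw * Y)) ^ (ε / 2) ≤ (cw * Z ^ 2) ^ (ε / 2) :=
                Real.rpow_le_rpow (by positivity) h6 (by positivity)
            _ = cw ^ (ε / 2) * Z ^ ε := by
                rw [Real.mul_rpow hcw0.le (by positivity), ← Real.rpow_natCast Z 2,
                  ← Real.rpow_mul hZ0.le]
                congr 2
                push_cast; ring
        have h6 : (L * (cw * Y)) ^ (2 / 3 : ℝ) ≤ cw * (L * Y) ^ (2 / 3 : ℝ) := by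
          have e1 : L * (cw * Y) = cw * (L * Y) := by ring
          rw [e1, Real.mul_rpow hcw0.le (by positivity)]
          refine mul_le_mul_of_nonneg_right ?_ (by positivity)
          conv_rhs => rw [← Real.rpow_one cw]
          exact Real.rpow_le_rpow_of_exponent_le hcw (by norm_num)
        have h7 : L ≤ cw * L := le_mul_of_one_le_left hL hcw
        rw [hLA, if_pos hLL]
        calc C₂ * (L * (cw * Y)) ^ (ε / 2) * ((L0 / Lt) ^ (1 / 3 : ℝ) * (cw * Y) + L +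
              (L * (cw * Y)) ^ (2 / 3 : ℝ)) * (Cw ^ 2 * ∑ o ∈ O,
              ∑ n ∈ (S (cw * Y)).filter (fun n => IsCoprime n (r o)), ‖CS (b o) n‖ ^ 2)
            ≤ C₂ * (cw ^ (ε / 2) * Z ^ ε) * ((L0 / Lt) ^ (1 / 3 : ℝ) * (cw * Y) + cw * L +
              cw * (L * Y) ^ (2 / 3 : ℝ)) * (Cw ^ 2 * ∑ o ∈ O,
              ∑ n ∈ (S (cw * Y)).filter (fun n => IsCoprime n (r o)), ‖CS (b o) n‖ ^ 2) := by
              gcongr
          _ = _ := by ring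
      · have e0 : ∀ o ∈ O, ∑ h ∈ (bl L).filter (fun h => Lt < nk (h * q o)), F o h = 0 := by
          intro o ho
          rw [Finset.filter_false_of_mem, Finset.sum_empty]
          intro h hh hc
          rw [mem_bl hL] at hh
          apply hLL
          have h5 := nk_mul_le hh.1 (hq o ho).1
          have h6 : nk h ≤ L := (nk_le_nm hh.1).trans hh.2
          have h7 : nk h * nk (q o) ≤ L * nk (q o) :=
            mul_le_mul_of_nonneg_right h6 ((zero_le_one).trans (nk_ge_one (hq o ho).1))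
          linarith [(hq o ho).2.2]
        rw [Finset.sum_congr rfl e0, Finset.sum_const_zero]
        positivity
    have h8 : (C₂ * cw ^ (ε / 2) * cw * Cw ^ 2) * Z ^ ε * LA ≤
        (C₂ * cw ^ (ε / 2) * cw * Cw ^ 2) * Z ^ ε * LA * (1 + |t|) ^ J :=
      le_mul_of_one_le_right (by positivity) ht1
    have hB1 : 0 ≤ C₂ * cw ^ (ε / 2) * cw * Cw ^ 2 := by positivity
    calc _ ≤ _ := h1
      _ ≤ C₁ * Z ^ ε * (1 + |t|) ^ J * LB +
          (C₂ * cw ^ (ε / 2) * cw * Cw ^ 2) * Z ^ ε * LA * (1 + |t|) ^ J :=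
          add_le_add h2 (h3.trans h8)
      _ ≤ Bd * (1 + |t|) ^ J := by
          have q1 : 0 ≤ C₁ * Z ^ ε * (1 + |t|) ^ J * LA := by positivity
          have q2 : 0 ≤ (C₂ * cw ^ (ε / 2) * cw * Cw ^ 2) * Z ^ ε * LB * (1 + |t|) ^ J := by
            positivity
          have e : Bd * (1 + |t|) ^ J = C₁ * Z ^ ε * (1 + |t|) ^ J * LB +
              (C₂ * cw ^ (ε / 2) * cw * Cw ^ 2) * Z ^ ε * LA * (1 + |t|) ^ J +
              (C₁ * Z ^ ε * (1 + |t|) ^ J * LA +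
              (C₂ * cw ^ (ε / 2) * cw * Cw ^ 2) * Z ^ ε * LB * (1 + |t|) ^ J) := by
            rw [hBd]; ring
          rw [e]; linarith
  -- integration
  have hA'2 : (2 : ℝ) + J ≤ A' := by push_cast at hA'; linarith
  have hA'1 : 1 < A' := by
    have : (0 : ℝ) ≤ J := Nat.cast_nonneg J
    linarith
  set u : ι → Eis → ℂ := fun o n => χ n * uS (fun x => ((w (x / Yq o) : ℝ) : ℂ)) (r o) (b o) n
    with hu
  have husup : ∀ o ∈ O, ∀ n, u o n ≠ 0 → n ∈ S (cw * Y) := by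
    intro o ho n hn
    have h1 := uS_supp (right_ne_zero_of_mul hn)
    have hYq0 : 0 < Yq o := by have := (hYq o ho).1; linarith
    have h2 : w ((nm n : ℝ) / Yq o) ≠ 0 := by
      intro h0
      exact h1.2.2.2 (by rw [h0]; simp)
    have h3 : w6 w ((nm n : ℝ) / Yq o) ≠ 0 := by
      unfold w6
      have : 0 < (nm n : ℝ) / Yq o := div_pos (nmpos h1.1.ne_zero) hYq0
      exact mul_ne_zero h2 (by positivity)
    have h4 := hcwle _ h3
    rw [div_le_iff₀ hYq0] at h4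
    exact (mem_S hcY0).2 ⟨h4.trans (mul_le_mul_of_nonneg_left (hYq o ho).2 hcw0.le), h1.1, h1.2.1⟩
  have hint : ∀ o ∈ O, ∀ h : Eis, Integrable fun t => jb A' t * ‖TT (u o) (h * q o) t‖ ^ 2 :=
    fun o ho h => integrable_EQ hA'1 hcY0 (husup o ho) _
  have hsum : ∑ o ∈ O, ∑ h ∈ (bl L).filter (fun h => IsCoprime (kv (kc (h * q o)).1) ka),
        EQ A' (u o) (h * q o) =
      ∫ t, ∑ o ∈ O, ∑ h ∈ (bl L).filter (fun h => IsCoprime (kv (kc (h * q o)).1) ka),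
        jb A' t * ‖TT (u o) (h * q o) t‖ ^ 2 := by
    rw [integral_finset_sum _ (fun o ho => integrable_finset_sum _ fun h _ => hint o ho h)]
    refine Finset.sum_congr rfl fun o ho => ?_
    rw [integral_finset_sum _ (fun h _ => hint o ho h)]
    rfl
  rw [hsum]
  have hjb : ∀ t : ℝ, jb A' t * (1 + |t|) ^ J ≤ jb 2 t := by
    intro t
    have h1 : 1 ≤ 1 + |t| := by linarith [abs_nonneg t]
    unfold jb
    rw [← Real.rpow_natCast (1 + |t|) J, ← Real.rpow_add (by linarith)]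
    exact Real.rpow_le_rpow_of_exponent_le h1 (by linarith)
  have hY13 : ∀ o ∈ O, ((Yq o) ^ (-(1 : ℝ) / 6)) ^ 2 ≤ 2 * Y ^ (-(1 : ℝ) / 3) := by
    intro o ho
    have hYq0 : 0 < Yq o := by have := (hYq o ho).1; linarith
    have e1 : ((Yq o) ^ (-(1 : ℝ) / 6)) ^ 2 = (Yq o) ^ (-(1 : ℝ) / 3) := by
      rw [← Real.rpow_natCast, ← Real.rpow_mul hYq0.le]; norm_num
    rw [e1]
    have h1 : (Yq o) ^ (-(1 : ℝ) / 3) ≤ (Y / 4) ^ (-(1 : ℝ) / 3) :=
      Real.rpow_le_rpow_of_nonpos (by positivity) (hYq o ho).1 (by norm_num)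
    refine h1.trans ?_
    have e2 : Y / 4 = Y * (4 : ℝ)⁻¹ := by ring
    rw [e2, Real.mul_rpow hY0.le (by norm_num), mul_comm]
    refine mul_le_mul_of_nonneg_right ?_ (by positivity)
    rw [Real.inv_rpow (by norm_num), ← Real.rpow_neg (by norm_num)]
    calc (4 : ℝ) ^ (-(-(1 : ℝ) / 3)) ≤ (4 : ℝ) ^ (1 / 2 : ℝ) :=
          Real.rpow_le_rpow_of_exponent_le (by norm_num) (by norm_num)
      _ = 2 := by
          rw [show (4 : ℝ) = 2 ^ (2 : ℝ) by norm_num, ← Real.rpow_mul (by norm_num)]; norm_num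
  have hle : ∀ t : ℝ, ∑ o ∈ O, ∑ h ∈ (bl L).filter (fun h => IsCoprime (kv (kc (h * q o)).1) ka),
        jb A' t * ‖TT (u o) (h * q o) t‖ ^ 2 ≤ (2 * Y ^ (-(1 : ℝ) / 3) * Bd) * jb 2 t := by
    intro t
    have hj0 := (jb_pos A' t).le
    have h1 : ∀ o ∈ O, ∀ h ∈ (bl L).filter (fun h => IsCoprime (kv (kc (h * q o)).1) ka),
        jb A' t * ‖TT (u o) (h * q o) t‖ ^ 2 ≤ jb A' t * (2 * Y ^ (-(1 : ℝ) / 3) *
          ‖Lx χ (w6 w) (Yq o) t (b o) (kc (h * q o)).1 (r o * (kc (h * q o)).2)‖ ^ 2) := by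
      intro o ho h hh
      rw [Finset.mem_filter, mem_bl hL] at hh
      have hYq0 : 0 < Yq o := by have := (hYq o ho).1; linarith
      refine mul_le_mul_of_nonneg_left ?_ hj0
      rw [hu]
      beta_reduce
      rw [TT_uS hYq0 (r o) (b o) (mul_ne_zero hh.1.1 (hq o ho).1) t, norm_mul, Complex.norm_real,
        Real.norm_of_nonneg (by positivity), mul_pow]
      exact mul_le_mul_of_nonneg_right (hY13 o ho) (by positivity)
    calc _ ≤ ∑ o ∈ O, ∑ h ∈ (bl L).filter (fun h => IsCoprime (kv (kc (h * q o)).1) ka),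
          jb A' t * (2 * Y ^ (-(1 : ℝ) / 3) *
          ‖Lx χ (w6 w) (Yq o) t (b o) (kc (h * q o)).1 (r o * (kc (h * q o)).2)‖ ^ 2) :=
          Finset.sum_le_sum fun o ho => Finset.sum_le_sum fun h hh => h1 o ho h hh
      _ = jb A' t * (2 * Y ^ (-(1 : ℝ) / 3) * ∑ o ∈ O,
          ∑ h ∈ (bl L).filter (fun h => IsCoprime (kv (kc (h * q o)).1) ka),
          ‖Lx χ (w6 w) (Yq o) t (b o) (kc (h * q o)).1 (r o * (kc (h * q o)).2)‖ ^ 2) := by
          simp_rw [Finset.mul_sum]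
      _ ≤ jb A' t * (2 * Y ^ (-(1 : ℝ) / 3) * (Bd * (1 + |t|) ^ J)) := by
          refine mul_le_mul_of_nonneg_left ?_ hj0
          exact mul_le_mul_of_nonneg_left (hpt t) (by positivity)
      _ = (2 * Y ^ (-(1 : ℝ) / 3) * Bd) * (jb A' t * (1 + |t|) ^ J) := by ring
      _ ≤ _ := mul_le_mul_of_nonneg_left (hjb t) (by positivity)
  calc ∫ t, ∑ o ∈ O, ∑ h ∈ (bl L).filter (fun h => IsCoprime (kv (kc (h * q o)).1) ka),
        jb A' t * ‖TT (u o) (h * q o) t‖ ^ 2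
      ≤ ∫ t, (2 * Y ^ (-(1 : ℝ) / 3) * Bd) * jb 2 t := by
        refine integral_mono_of_nonneg (Filter.Eventually.of_forall fun t => ?_)
          ((integrable_jb (by norm_num)).const_mul _) (Filter.Eventually.of_forall hle)
        exact Finset.sum_nonneg fun o _ => Finset.sum_nonneg fun h _ =>
          mul_nonneg (jb_pos A' t).le (by positivity)
    _ = (2 * Y ^ (-(1 : ℝ) / 3) * Bd) * KJ := integral_const_mul _ _
    _ = _ := by rw [hBd]; ring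


end Crest.Agent.R017.Mps347
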