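import Crest.Agent.R017.ModeE_405

/-!
# Row 17, block C70, leaf E3: MODE*, the pre-form (helper405)

* `integrable_StrQ`
* `blk_pre` : one block, pointwise in `t`
* `mode_pre` : the second moment of the modes of one sequence, with the structured half as a
  hypothesis (one number `Bs`)
-/

set_option autoImplicit false

noncomputable section

open Complex MeasureTheory
open scoped ComplexConjugate

namespace Crest.Agent.R017.Mode405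

open Crest.Agent.R012 Crest.Agent.R012.Eis Crest.Agent.R012.MC
open Crest.Agent.R012.LS2 (S mem_S bl mem_bl)
open Crest.Agent.R012.LS448 (one_le_nm')
open Crest.Agent.R012.NonCube52 (Ker kv Good kc kc_spec kc_nm kv_ne_zero one_le_nmkv)
open Crest.Agent.R012.Mob705 (mu pdiv mem_pdiv sum_mu_coprime abs_mu_le_one)
open Crest.Agent.R012.Weight600 (pw)
open Crest.Agent.R017.CM106 (CS TG FS)
open Crest.Agent.R017.BD829 (TT EQ Win EQ_nonneg integrable_EQ)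
open Crest.Agent.R017.E3D579 (uS uS_supp)
open Crest.Agent.R017.E1551 (jb jb_pos nmpos integrable_jb integrable_jb_mul)
open Crest.Agent.R017.LSq50 (RestP Lx_split om50 om50_nonneg lsn_rho)

/-! ### continuity and integrability of the structured part -/

lemma continuous_fx (χ : Eis → ℂ) (w : ℝ → ℝ) (Y : ℝ) (b : Eis → ℂ) (κ : Ker) (n : Eis) :
    Continuous fun t => fx χ w Y t b κ n := by
  unfold fx
  exact (continuous_const.mul (Weight600.continuous_pw_left _)).mul continuous_const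

lemma norm_fx (χ : Eis → ℂ) (w : ℝ → ℝ) (Y t : ℝ) (b : Eis → ℂ) (κ : Ker) (n : Eis) :
    ‖fx χ w Y t b κ n‖ = ‖fx χ w Y 0 b κ n‖ := by
  unfold fx
  simp only [norm_mul, norm_pw]

open Classical in
lemma Fx_fin {χ : Eis → ℂ} {w : ℝ → ℝ} {Y t : ℝ} {b : Eis → ℂ} {κ : Ker} {N₀ : ℝ} (hN : 0 ≤ N₀)
    (hw : ∀ x, w (x / Y) ≠ 0 → x ≤ N₀) {s : Eis} (hs : IsPrim s) :
    Fx (fx χ w Y t b κ) s = ∑ n ∈ primBall ⌊N₀⌋₊, (if s ∣ n then fx χ w Y t b κ n else 0) := by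
  have hf : ∀ n, fx χ w Y t b κ n ≠ 0 → (nm n : ℝ) ≤ N₀ := by
    intro n hn
    unfold fx at hn
    refine hw _ fun h => hn ?_
    rw [h]; simp
  exact (sum_dvd hN hf hs).symm

open Classical in
/-- the structured part as a finite sum -/
lemma StrQ_fin {χ : Eis → ℂ} {w : ℝ → ℝ} {Y : ℝ} {b : Eis → ℂ} {κ : Ker} {ρ r₁ : Eis}
    (hρ : ρ ≠ 0) {N₀ : ℝ} (hN : 0 ≤ N₀) (hw : ∀ x, w (x / Y) ≠ 0 → x ≤ N₀) (P₁ t : ℝ) :
    StrQ χ w Y t b κ ρ r₁ N₀ P₁ = ∑ d ∈ pdiv ρ, ∑ q ∈ S N₀, ∑ n ∈ primBall ⌊N₀⌋₊,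
      if (IsCoprime q ρ ∧ (nm d : ℝ) * nm q ≤ P₁) ∧ d * q ^ 2 ∣ n then
        ((mu d : ℂ) * mu q) * fx (chr χ r₁) w Y t b κ n else 0 := by
  unfold StrQ
  refine Finset.sum_congr rfl fun d hd => Finset.sum_congr rfl fun q hq => ?_
  have hd' := (mem_pdiv hρ).mp hd
  have hq' := (mem_S hN).1 hq
  by_cases h : IsCoprime q ρ ∧ (nm d : ℝ) * nm q ≤ P₁
  · rw [if_pos h, Fx_fin hN hw (hd'.1.mul (hq'.2.1.pow 2)), Finset.mul_sum]
    refine Finset.sum_congr rfl fun n _ => ?_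
    by_cases h2 : d * q ^ 2 ∣ n
    · rw [if_pos h2, if_pos ⟨h, h2⟩]
    · rw [if_neg h2, if_neg (fun h' => h2 h'.2), mul_zero]
  · rw [if_neg h]
    refine (Finset.sum_eq_zero fun n _ => ?_).symm
    rw [if_neg (fun h' => h h'.1)]

lemma continuous_StrQ {χ : Eis → ℂ} {w : ℝ → ℝ} {Y : ℝ} {b : Eis → ℂ} {κ : Ker} {ρ r₁ : Eis}
    (hρ : ρ ≠ 0) {N₀ : ℝ} (hN : 0 ≤ N₀) (hw : ∀ x, w (x / Y) ≠ 0 → x ≤ N₀) (P₁ : ℝ) :
    Continuous fun t => StrQ χ w Y t b κ ρ r₁ N₀ P₁ := by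
  classical
  have e : (fun t => StrQ χ w Y t b κ ρ r₁ N₀ P₁) = fun t =>
      ∑ d ∈ pdiv ρ, ∑ q ∈ S N₀, ∑ n ∈ primBall ⌊N₀⌋₊,
      if (IsCoprime q ρ ∧ (nm d : ℝ) * nm q ≤ P₁) ∧ d * q ^ 2 ∣ n then
        ((mu d : ℂ) * mu q) * fx (chr χ r₁) w Y t b κ n else 0 :=
    funext fun t => StrQ_fin hρ hN hw P₁ t
  rw [e]
  refine continuous_finsetSum _ fun d _ => continuous_finsetSum _ fun q _ =>
    continuous_finsetSum _ fun n _ => ?_
  split_ifs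
  · exact continuous_const.mul (continuous_fx _ _ _ _ _ _)
  · exact continuous_const

lemma norm_StrQ_bdd {χ : Eis → ℂ} {w : ℝ → ℝ} {Y : ℝ} {b : Eis → ℂ} {κ : Ker} {ρ r₁ : Eis}
    (hρ : ρ ≠ 0) {N₀ : ℝ} (hN : 0 ≤ N₀) (hw : ∀ x, w (x / Y) ≠ 0 → x ≤ N₀) (P₁ : ℝ) :
    ∃ B : ℝ, ∀ t, ‖StrQ χ w Y t b κ ρ r₁ N₀ P₁‖ ≤ B := by
  classical
  refine ⟨∑ d ∈ pdiv ρ, ∑ q ∈ S N₀, ∑ n ∈ primBall ⌊N₀⌋₊,
    ‖if (IsCoprime q ρ ∧ (nm d : ℝ) * nm q ≤ P₁) ∧ d * q ^ 2 ∣ n then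
        ((mu d : ℂ) * mu q) * fx (chr χ r₁) w Y 0 b κ n else 0‖, fun t => ?_⟩
  rw [StrQ_fin hρ hN hw P₁ t]
  refine (norm_sum_le _ _).trans (Finset.sum_le_sum fun d _ => (norm_sum_le _ _).trans
    (Finset.sum_le_sum fun q _ => (norm_sum_le _ _).trans (Finset.sum_le_sum fun n _ => ?_)))
  split_ifs
  · rw [norm_mul, norm_fx, ← norm_mul]
  · exact le_rfl

lemma integrable_StrQ {A' : ℝ} (hA : 1 < A') {χ : Eis → ℂ} {w : ℝ → ℝ} {Y : ℝ} {b : Eis → ℂ}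
    {ρ r₁ : Eis} (hρ : ρ ≠ 0) {N₀ : ℝ} (hN : 0 ≤ N₀) (hw : ∀ x, w (x / Y) ≠ 0 → x ≤ N₀) (P₁ : ℝ)
    (K : Finset Ker) :
    Integrable fun t => jb A' t * ∑ κ ∈ K, ‖StrQ χ w Y t b κ ρ r₁ N₀ P₁‖ ^ 2 := by
  have e : (fun t => jb A' t * ∑ κ ∈ K, ‖StrQ χ w Y t b κ ρ r₁ N₀ P₁‖ ^ 2) = fun t =>
      ∑ κ ∈ K, jb A' t * ‖StrQ χ w Y t b κ ρ r₁ N₀ P₁‖ ^ 2 :=
    funext fun t => Finset.mul_sum _ _ _
  rw [e]
  refine integrable_finsetSum _ fun κ _ => ?_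
  obtain ⟨B, hB⟩ := norm_StrQ_bdd (χ := χ) (b := b) (κ := κ) (r₁ := r₁) hρ hN hw P₁
  refine integrable_jb_mul hA (((continuous_StrQ hρ hN hw P₁).norm).pow 2) (B := B ^ 2) fun t => ?_
  rw [abs_of_nonneg (by positivity)]
  exact pow_le_pow_left₀ (norm_nonneg _) (hB t) 2

/-! ### one block -/

/-- the moduli of the cofactors -/
lemma rho_le {Z L0 lam : ℝ} (hZ : 1 ≤ Z) (hL0 : 0 ≤ L0) (hL0Z : L0 ≤ Z) (hlam : 1 ≤ lam)
    {r q m : Eis} (hr : r ≠ 0) (hrZ : (nm r : ℝ) ≤ Z) (hq : q ≠ 0) (hqZ : (nm q : ℝ) ≤ Z)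
    (hm : m ∈ bl ((2 * L0 / lam) ^ (1 / 3 : ℝ))) :
    r * ((kc q).2 * m) ≠ 0 ∧ r ∣ r * ((kc q).2 * m) ∧
      (nm (r * ((kc q).2 * m)) : ℝ) ≤ 2 * Z ^ 2 := by
  have hZ0 : 0 < Z := by linarith
  have hlam0 : 0 < lam := by linarith
  rw [mem_bl (by positivity)] at hm
  have hs := kc_spec hq
  have hnq := kc_nm hq
  refine ⟨mul_ne_zero hr (mul_ne_zero hs.2.1 hm.1), dvd_mul_right _ _, ?_⟩
  have h1 : (1 : ℝ) ≤ nm (kc q).2 := one_le_nm' hs.2.1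
  have h2 : (1 : ℝ) ≤ nm (kv (kc q).1) := one_le_nmkv hs.1
  have h3 : (nm (kc q).2 : ℝ) ^ 3 ≤ Z := by
    have h5 : (nm (kc q).2 : ℝ) ^ 3 ≤ nm (kv (kc q).1) * (nm (kc q).2 : ℝ) ^ 3 :=
      le_mul_of_one_le_left (by positivity) h2
    linarith
  have h4 : (nm m : ℝ) ^ 3 ≤ 2 * Z := by
    have h5 : (nm m : ℝ) ^ 3 ≤ ((2 * L0 / lam) ^ (1 / 3 : ℝ)) ^ 3 :=
      pow_le_pow_left₀ (Nat.cast_nonneg _) hm.2 3
    have h6 : ((2 * L0 / lam) ^ (1 / 3 : ℝ)) ^ 3 = 2 * L0 / lam := by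
      rw [← Real.rpow_natCast, ← Real.rpow_mul (by positivity)]; norm_num
    have h7 : 2 * L0 / lam ≤ 2 * Z := by
      calc 2 * L0 / lam ≤ 2 * L0 := div_le_self (by positivity) hlam
        _ ≤ 2 * Z := by linarith
    linarith
  have h8 : ((nm (kc q).2 : ℝ) * nm m) ≤ 2 * Z := by
    by_contra h9
    push Not at h9
    have h10 : (2 * Z) ^ 3 < ((nm (kc q).2 : ℝ) * nm m) ^ 3 :=
      pow_lt_pow_left₀ h9 (by positivity) (by norm_num)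
    have h11 : ((nm (kc q).2 : ℝ) * nm m) ^ 3 ≤ Z * (2 * Z) := by
      rw [mul_pow]
      exact mul_le_mul h3 h4 (by positivity) hZ0.le
    nlinarith [sq_nonneg Z, mul_pos hZ0 hZ0]
  rw [nm_mul, nm_mul]
  push_cast
  calc (nm r : ℝ) * (nm (kc q).2 * nm m) ≤ Z * (2 * Z) :=
        mul_le_mul hrZ h8 (by positivity) hZ0.le
    _ = 2 * Z ^ 2 := by ring

open Classical in
set_option maxHeartbeats 1000000 in
/-- **one block, pointwise** -/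
theorem blk_pre {χ : Eis → ℂ} (hχ : Mul1 χ) {w : ℝ → ℝ} {cw Cw : ℝ} (hcw : 1 ≤ cw)
    (hw : ∀ x, w x ≠ 0 → x ≤ cw) (hCw : ∀ x, |w x| ≤ Cw) {ε : ℝ} (hε : 0 < ε) :
    ∃ C : ℝ, 0 ≤ C ∧ ∀ Z Y L L0 Lt lam : ℝ, 1 ≤ Z → 1 ≤ Y → Y ≤ Z → 0 ≤ L → 0 ≤ L0 → L0 ≤ Z →
      1 ≤ lam → lam ≤ Lt → Lt ≤ Z →
    ∀ (b : Eis → ℂ) (Yq : ℝ) (r r₁ q ka : Eis), Y / 4 ≤ Yq → Yq ≤ Y →
      r ≠ 0 → (nm r : ℝ) ≤ Z → r₁ ∣ r → q ≠ 0 → (nm q : ℝ) ≤ Z → L * nk q ≤ L0 →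
    ∀ t : ℝ, ∑ h ∈ (bl L).filter (fun h => (lam / 2 < nk (h * q) ∧ nk (h * q) ≤ lam) ∧
        IsCoprime (kv (kc (h * q)).1) ka),
        ‖Lx χ w Yq t b (kc (h * q)).1 (r * (kc (h * q)).2)‖ ^ 2 ≤
      2 * (∑ m ∈ bl ((2 * L0 / lam) ^ (1 / 3 : ℝ)), ∑ κ ∈ KSa lam ka,
        ‖StrQ χ w Yq t b κ (r * ((kc q).2 * m)) r₁ (cw * Y) ((Lt / lam) ^ (1 / 3 : ℝ))‖ ^ 2) +
      C * Z ^ ε * ((L0 / Lt) ^ (1 / 3 : ℝ) *
          ((Y + (Lt * Y) ^ (2 / 3 : ℝ)) * DT 1 (cw * Y) b r₁ +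
          Lt * Y ^ (1 / 2 : ℝ) * DT (1 / 2) (cw * Y) b r₁)) := by
  obtain ⟨C₂, hC₂, hrest⟩ := lsn_rho hε
  set K : ℝ := 2 * cw with hK
  have hcw0 : 0 < cw := by linarith
  have hK1 : 1 ≤ K := by rw [hK]; linarith
  have hCw0 : 0 ≤ Cw := (abs_nonneg _).trans (hCw 0)
  refine ⟨64 * K ^ ε * (C₂ * (cw * Cw ^ 2)), by positivity, ?_⟩
  intro Z Y L L0 Lt lam hZ hY hYZ hL hL0 hL0Z hlam hlamL hLZ b Yq r r₁ q ka hYq1 hYq2 hr hrZ hr₁ hq
    hqZ hLq t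
  have hY0 : 0 < Y := by linarith
  have hZ0 : 0 < Z := by linarith
  have hlam0 : 0 < lam := by linarith
  have hLt0 : 0 < Lt := by linarith
  have hYq0 : 0 < Yq := by linarith
  have hK0 : 0 < K := by linarith
  have hcY : 1 ≤ cw * Y := one_le_mul_of_one_le_of_one_le hcw hY
  have hcY0 : 0 ≤ cw * Y := by linarith
  set Z₂ : ℝ := K * Z with hZ₂
  have hZZ₂ : Z ≤ Z₂ := le_mul_of_one_le_left hZ0.le hK1
  have hZ₂1 : 1 ≤ Z₂ := hZ.trans hZZ₂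
  have hZ₂0 : 0 < Z₂ := by linarith
  have h2Z : 2 * Z ≤ Z₂ := by rw [hZ₂, hK]; nlinarith
  have hcYZ : cw * Y ≤ Z₂ := by rw [hZ₂, hK]; nlinarith
  set P₁ : ℝ := (Lt / lam) ^ (1 / 3 : ℝ) with hP₁
  have hLl : 1 ≤ Lt / lam := (one_le_div hlam0).mpr hlamL
  have hP₁1 : 1 ≤ P₁ := Real.one_le_rpow hLl (by norm_num)
  have hP₁0 : 0 < P₁ := by linarith
  set M : ℝ := (2 * L0 / lam) ^ (1 / 3 : ℝ) with hM
  have hM0 : 0 ≤ M := by positivity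
  have hw' : ∀ x, w (x / Yq) ≠ 0 → x ≤ cw * Y := by
    intro x hx
    have h1 := hw _ hx
    rw [div_le_iff₀ hYq0] at h1
    exact h1.trans (mul_le_mul_of_nonneg_left hYq2 hcw0.le)
  -- the cofactors
  have hρ : ∀ m ∈ bl M, r * ((kc q).2 * m) ≠ 0 ∧ (nm (r * ((kc q).2 * m)) : ℝ) ≤ Z₂ ^ 3 := by
    intro m hm
    obtain ⟨h1, h2, h3⟩ := rho_le hZ hL0 hL0Z hlam hr hrZ hq hqZ hm
    refine ⟨h1, h3.trans ?_⟩
    calc 2 * Z ^ 2 = (2 * Z) * Z * 1 := by ring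
      _ ≤ Z₂ * Z₂ * Z₂ := mul_le_mul (mul_le_mul h2Z hZZ₂ hZ0.le hZ₂0.le) hZ₂1 zero_le_one
          (by positivity)
      _ = Z₂ ^ 3 := by ring
  set DD : ℝ := ∑ n ∈ (primBall ⌊cw * Y⌋₊).filter (fun n => IsCoprime n r₁),
    om50 lam (cw * Y) P₁ (nm (kc n).2) * ‖CS b n‖ ^ 2 with hDD
  have hbl : ∀ m ∈ bl M, ∑ κ ∈ KSa lam ka,
      ‖Lx χ w Yq t b κ (r * ((kc q).2 * m))‖ ^ 2 ≤
      2 * (∑ κ ∈ KSa lam ka,
        ‖StrQ χ w Yq t b κ (r * ((kc q).2 * m)) r₁ (cw * Y) P₁‖ ^ 2) +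
      2 * (C₂ * Z₂ ^ ε * (Cw ^ 2 * DD)) := by
    intro m hm
    have h2 : ∑ κ ∈ KSa lam ka, ‖RestP (chr χ r₁) w Yq t b κ
        (r * ((kc q).2 * m)) (cw * Y) P₁‖ ^ 2 ≤ C₂ * Z₂ ^ ε * (Cw ^ 2 * DD) := by
      have h3 := hrest lam (cw * Y) P₁ Yq Z₂ t hlam hcY hP₁0 (hlamL.trans (hLZ.trans hZZ₂)) hcYZ
        (chr χ r₁) w b hw' (r * ((kc q).2 * m)) (hρ m hm).1
        (hρ m hm).2 (KSa lam ka) (fun κ hκ => (mem_KSa.mp hκ).1)
      refine h3.trans (mul_le_mul_of_nonneg_left ?_ (by positivity))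
      rw [hDD, Finset.mul_sum, Finset.sum_filter]
      refine Finset.sum_le_sum fun n hn => ?_
      have hn' := mem_primBall.mp hn
      have hg : (0 : ℝ) ≤ nm (kc n).2 := Nat.cast_nonneg _
      have ho0 := om50_nonneg (W := lam) (Y := cw * Y) hlam0.le hcY0 hP₁0 hg
      split_ifs with hc
      · have a1 : ‖chr χ r₁ n‖ ≤ 1 := (hχ.chr r₁).le n hn'.2
        have a2 := hCw (nm n / Yq)
        calc om50 lam (cw * Y) P₁ (nm (kc n).2) *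
              (‖chr χ r₁ n‖ ^ 2 * |w (nm n / Yq)| ^ 2 * ‖CS b n‖ ^ 2)
            ≤ om50 lam (cw * Y) P₁ (nm (kc n).2) * (1 ^ 2 * Cw ^ 2 * ‖CS b n‖ ^ 2) := by
              gcongr
          _ = _ := by ring
      · have a1 : chr χ r₁ n = 0 := by unfold chr; rw [if_neg hc]
        rw [a1]; simp
    have h4 : ∀ κ ∈ KSa lam ka,
        ‖Lx χ w Yq t b κ (r * ((kc q).2 * m))‖ ^ 2 ≤
        2 * ‖StrQ χ w Yq t b κ (r * ((kc q).2 * m)) r₁ (cw * Y) P₁‖ ^ 2 +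
        2 * ‖RestP (chr χ r₁) w Yq t b κ (r * ((kc q).2 * m)) (cw * Y) P₁‖ ^ 2 := by
      intro κ _
      rw [Lx_chr (hr₁.mul_right _), Lx_split (hρ m hm).1 hcY0 hw' P₁, StrQ_eq]
      generalize StrP (chr χ r₁) w Yq t b κ (r * ((kc q).2 * m)) (cw * Y) P₁ = x
      generalize RestP (chr χ r₁) w Yq t b κ (r * ((kc q).2 * m)) (cw * Y) P₁ = y
      have h5 := norm_add_le x y
      nlinarith [norm_nonneg x, norm_nonneg y, norm_nonneg (x + y), sq_nonneg (‖x‖ - ‖y‖)]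
    refine (Finset.sum_le_sum h4).trans ?_
    rw [Finset.sum_add_distrib, ← Finset.mul_sum, ← Finset.mul_sum]
    linarith [h2]
  -- the sum over the cofactors
  have hmain : ∑ h ∈ (bl L).filter (fun h => (lam / 2 < nk (h * q) ∧
        nk (h * q) ≤ lam) ∧ IsCoprime (kv (kc (h * q)).1) ka),
        ‖Lx χ w Yq t b (kc (h * q)).1 (r * (kc (h * q)).2)‖ ^ 2 ≤
      ∑ m ∈ bl M, ∑ κ ∈ KSa lam ka, ‖Lx χ w Yq t b κ (r * ((kc q).2 * m))‖ ^ 2 := by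
    have h2 := blk_sum hL hlam0 hq hLq
      (g := fun κ m => if IsCoprime (kv κ) ka then
        ‖Lx χ w Yq t b κ (r * m)‖ ^ 2 else 0) (fun κ m => by
          split_ifs <;> positivity)
    have h3 : ∑ h ∈ (bl L).filter (fun h => (lam / 2 < nk (h * q) ∧
        nk (h * q) ≤ lam) ∧ IsCoprime (kv (kc (h * q)).1) ka),
        ‖Lx χ w Yq t b (kc (h * q)).1 (r * (kc (h * q)).2)‖ ^ 2 =
        ∑ h ∈ (bl L).filter (fun h => lam / 2 < nk (h * q) ∧ nk (h * q) ≤ lam),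
          (if IsCoprime (kv (kc (h * q)).1) ka then
            ‖Lx χ w Yq t b (kc (h * q)).1 (r * (kc (h * q)).2)‖ ^ 2 else 0) := by
      rw [← Finset.sum_filter, Finset.filter_filter]
    rw [h3]
    refine h2.trans (le_of_eq (Finset.sum_congr rfl fun m _ => ?_))
    unfold KSa
    rw [Finset.sum_filter]
  refine hmain.trans ((Finset.sum_le_sum hbl).trans ?_)
  rw [Finset.sum_add_distrib, ← Finset.mul_sum, Finset.sum_const, nsmul_eq_mul]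
  refine add_le_add le_rfl ?_
  have hDD0 : 0 ≤ DD := Finset.sum_nonneg fun n _ => by
    have := om50_nonneg (W := lam) (Y := cw * Y) hlam0.le hcY0 hP₁0
      (Nat.cast_nonneg (nm (kc n).2))
    positivity
  have hDDle : M * DD ≤ 2 * (L0 / Lt) ^ (1 / 3 : ℝ) * (cw *
      ((Y + (Lt * Y) ^ (2 / 3 : ℝ)) * DT 1 (cw * Y) b r₁ +
          Lt * Y ^ (1 / 2 : ℝ) * DT (1 / 2) (cw * Y) b r₁)) := by
    rw [hDD]
    unfold DT
    rw [Finset.mul_sum, Finset.mul_sum, Finset.mul_sum, ← Finset.sum_add_distrib,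
      Finset.mul_sum, Finset.mul_sum]
    refine Finset.sum_le_sum fun n hn => ?_
    rw [Finset.mem_filter, mem_primBall] at hn
    have hg : (0 : ℝ) < nm (kc n).2 := nmpos (kc_spec hn.1.2.ne_zero).2.1
    obtain ⟨-, h2⟩ := blk_arith (g := nm (kc n).2) hL0 hlam0 hlamL hcw hY0 hg
    have h3 : 0 ≤ ‖CS b n‖ ^ 2 := by positivity
    calc M * (om50 lam (cw * Y) P₁ (nm (kc n).2) * ‖CS b n‖ ^ 2)
        = M * om50 lam (cw * Y) P₁ (nm (kc n).2) * ‖CS b n‖ ^ 2 := by ring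
      _ ≤ _ := mul_le_mul_of_nonneg_right h2 h3
      _ = _ := by ring
  have hZ₂ε : Z₂ ^ ε = K ^ ε * Z ^ ε := by rw [hZ₂, Real.mul_rpow hK0.le hZ0.le]
  set u : ℝ := (L0 / Lt) ^ (1 / 3 : ℝ) with hu
  have hcard := CR2.card_bl_le hM0
  calc ((bl M).card : ℝ) * (2 * (C₂ * Z₂ ^ ε * (Cw ^ 2 * DD)))
      ≤ (16 * M) * (2 * (C₂ * Z₂ ^ ε * (Cw ^ 2 * DD))) :=
        mul_le_mul_of_nonneg_right hcard (by positivity)
    _ = 32 * C₂ * Z₂ ^ ε * Cw ^ 2 * (M * DD) := by ring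
    _ ≤ 32 * C₂ * Z₂ ^ ε * Cw ^ 2 * (2 * u * (cw *
      ((Y + (Lt * Y) ^ (2 / 3 : ℝ)) * DT 1 (cw * Y) b r₁ +
          Lt * Y ^ (1 / 2 : ℝ) * DT (1 / 2) (cw * Y) b r₁))) :=
        mul_le_mul_of_nonneg_left hDDle (by positivity)
    _ = _ := by rw [hZ₂ε]; ring

open Classical in
set_option maxHeartbeats 1000000 in
/-- **the small kernels, pointwise** -/
theorem small_pre {χ : Eis → ℂ} (hχ : Mul1 χ) {w : ℝ → ℝ} {cw Cw : ℝ} (hcw : 1 ≤ cw)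
    (hw : ∀ x, w x ≠ 0 → x ≤ cw) (hCw : ∀ x, |w x| ≤ Cw) {ε : ℝ} (hε : 0 < ε) :
    ∃ C : ℝ, 0 ≤ C ∧ ∀ Z Y L L0 Lt : ℝ, 1 ≤ Z → 1 ≤ Y → Y ≤ Z → 0 ≤ L → 0 ≤ L0 → L0 ≤ Z →
      1 ≤ Lt → Lt ≤ Z →
    ∀ (b : Eis → ℂ) (Yq : ℝ) (r r₁ q ka : Eis), Y / 4 ≤ Yq → Yq ≤ Y →
      r ≠ 0 → (nm r : ℝ) ≤ Z → r₁ ∣ r → q ≠ 0 → (nm q : ℝ) ≤ Z → L * nk q ≤ L0 →
    ∀ t : ℝ, ∑ h ∈ (bl L).filter (fun h => nk (h * q) ≤ Lt ∧
        IsCoprime (kv (kc (h * q)).1) ka),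
        ‖Lx χ w Yq t b (kc (h * q)).1 (r * (kc (h * q)).2)‖ ^ 2 ≤
      2 * (∑ j ∈ Finset.range (Nat.log 2 ⌊Lt⌋₊ + 2),
        ∑ m ∈ bl ((2 * L0 / min ((2 : ℝ) ^ j) Lt) ^ (1 / 3 : ℝ)),
        ∑ κ ∈ KSa (min ((2 : ℝ) ^ j) Lt) ka,
        ‖StrQ χ w Yq t b κ (r * ((kc q).2 * m)) r₁ (cw * Y)
          ((Lt / min ((2 : ℝ) ^ j) Lt) ^ (1 / 3 : ℝ))‖ ^ 2) +
      C * Z ^ ε * ((L0 / Lt) ^ (1 / 3 : ℝ) *
          ((Y + (Lt * Y) ^ (2 / 3 : ℝ)) * DT 1 (cw * Y) b r₁ +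
          Lt * Y ^ (1 / 2 : ℝ) * DT (1 / 2) (cw * Y) b r₁)) := by
  obtain ⟨C, hC, hblk⟩ := blk_pre hχ hcw hw hCw (ε := ε / 2) (by positivity)
  refine ⟨(4 * (1 + 1 / (ε / 2))) * C, by positivity, ?_⟩
  intro Z Y L L0 Lt hZ hY hYZ hL hL0 hL0Z hLt hLZ b Yq r r₁ q ka hYq1 hYq2 hr hrZ hr₁ hq
    hqZ hLq t
  have hZ0 : 0 < Z := by linarith
  have hLt0 : 0 < Lt := by linarith
  have hY0 : 0 < Y := by linarith
  set I : ℕ := Nat.log 2 ⌊Lt⌋₊ + 1 with hI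
  set lm : ℕ → ℝ := fun i => min ((2 : ℝ) ^ i) Lt with hlm
  have hlm1 : ∀ i, 1 ≤ lm i := fun i => le_min (one_le_pow₀ (by norm_num)) hLt
  set BB : ℝ := C * Z ^ (ε / 2) * ((L0 / Lt) ^ (1 / 3 : ℝ) *
          ((Y + (Lt * Y) ^ (2 / 3 : ℝ)) * DT 1 (cw * Y) b r₁ +
          Lt * Y ^ (1 / 2 : ℝ) * DT (1 / 2) (cw * Y) b r₁)) with hBB
  have hD10 : 0 ≤ DT 1 (cw * Y) b r₁ := DT_nonneg _ _ _ _
  have hD20 : 0 ≤ DT (1 / 2) (cw * Y) b r₁ := DT_nonneg _ _ _ _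
  have hBB0 : 0 ≤ BB := by rw [hBB]; positivity
  set F : Eis → ℝ := fun h =>
    ‖Lx χ w Yq t b (kc (h * q)).1 (r * (kc (h * q)).2)‖ ^ 2 with hF
  have hF0 : ∀ h, 0 ≤ F h := fun h => by rw [hF]; positivity
  have h1 : ∑ h ∈ (bl L).filter (fun h =>
      nk (h * q) ≤ Lt ∧ IsCoprime (kv (kc (h * q)).1) ka), F h ≤
      ∑ i ∈ Finset.range (I + 1), ∑ h ∈ (bl L).filter (fun h => (lm i / 2 < nk (h * q) ∧
        nk (h * q) ≤ lm i) ∧ IsCoprime (kv (kc (h * q)).1) ka), F h := by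
    have e1 : ∀ i ∈ Finset.range (I + 1), ∑ h ∈ (bl L).filter (fun h =>
        (lm i / 2 < nk (h * q) ∧ nk (h * q) ≤ lm i) ∧
          IsCoprime (kv (kc (h * q)).1) ka), F h =
        ∑ h ∈ bl L, if (lm i / 2 < nk (h * q) ∧ nk (h * q) ≤ lm i) ∧
          IsCoprime (kv (kc (h * q)).1) ka then F h else 0 := fun i _ => by
      rw [Finset.sum_filter]
    rw [Finset.sum_congr rfl e1, Finset.sum_comm, Finset.sum_filter]
    refine Finset.sum_le_sum fun h hh => ?_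
    rw [mem_bl hL] at hh
    split_ifs with hc
    · have hne : h * q ≠ 0 := mul_ne_zero hh.1 hq
      set n : ℕ := nm (kv (kc (h * q)).1) with hn
      have hnk : nk (h * q) = (n : ℝ) := rfl
      have hn1 : 1 ≤ n := by
        have := one_le_nmkv (kc_spec hne).1
        exact_mod_cast this
      set i : ℕ := Nat.clog 2 n with hi
      have a1 : n ≤ 2 ^ i := Nat.le_pow_clog (by norm_num) n
      have a2 : (2 : ℝ) ^ i / 2 < n := by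
        rcases Nat.lt_or_ge 1 n with h2 | h2
        · have h3 := Nat.pow_pred_clog_lt_self (b := 2) (by norm_num) h2
          have h4 : 0 < i := Nat.clog_pos (by norm_num) h2
          have h5 : (2 : ℝ) ^ i = 2 * 2 ^ (i.pred) := by
            rw [← pow_succ']
            congr 1
            exact (Nat.succ_pred_eq_of_pos h4).symm
          have h6 : ((2 : ℝ) ^ (i.pred)) < n := by exact_mod_cast h3
          rw [h5]; linarith
        · have h3 : n = 1 := le_antisymm h2 hn1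
          have h4 : i = 0 := by rw [hi, h3]; simp
          rw [h4, h3]; norm_num
      have hiI : i ∈ Finset.range (I + 1) := by
        rw [Finset.mem_range, Nat.lt_succ_iff, hI]
        have h2 : n ≤ ⌊Lt⌋₊ := Nat.le_floor (by rw [← hnk]; exact hc.1)
        have h3 : i ≤ Nat.clog 2 ⌊Lt⌋₊ := Nat.clog_mono_right 2 h2
        refine h3.trans ?_
        refine (Nat.clog_le_iff_le_pow (by norm_num)).mpr ?_
        exact (Nat.lt_pow_succ_log_self (by norm_num) _).le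
      have hmem : (lm i / 2 < nk (h * q) ∧ nk (h * q) ≤ lm i) ∧
          IsCoprime (kv (kc (h * q)).1) ka := by
        refine ⟨⟨?_, ?_⟩, hc.2⟩
        · rw [hnk]
          refine lt_of_le_of_lt ?_ a2
          exact div_le_div_of_nonneg_right (min_le_left _ _) (by norm_num)
        · refine le_min ?_ hc.1
          rw [hnk]; exact_mod_cast a1
      refine le_trans (le_of_eq ?_) (Finset.single_le_sum (f := fun i =>
        if (lm i / 2 < nk (h * q) ∧ nk (h * q) ≤ lm i) ∧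
          IsCoprime (kv (kc (h * q)).1) ka then F h else 0)
        (fun i _ => by split_ifs <;> [exact hF0 _; exact le_rfl]) hiI)
      rw [if_pos hmem]
    · exact Finset.sum_nonneg fun i _ => by split_ifs <;> [exact hF0 _; exact le_rfl]
  have h2 : ∑ i ∈ Finset.range (I + 1), ∑ h ∈ (bl L).filter (fun h => (lm i / 2 < nk (h * q) ∧
        nk (h * q) ≤ lm i) ∧ IsCoprime (kv (kc (h * q)).1) ka), F h ≤
      ∑ i ∈ Finset.range (I + 1), (2 * (∑ m ∈ bl ((2 * L0 / lm i) ^ (1 / 3 : ℝ)),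
        ∑ κ ∈ KSa (lm i) ka,
        ‖StrQ χ w Yq t b κ (r * ((kc q).2 * m)) r₁ (cw * Y)
          ((Lt / lm i) ^ (1 / 3 : ℝ))‖ ^ 2) + BB) :=
    Finset.sum_le_sum fun i _ => hblk Z Y L L0 Lt (lm i) hZ hY hYZ hL hL0 hL0Z (hlm1 i)
      (min_le_right _ _) hLZ b Yq r r₁ q ka hYq1 hYq2 hr hrZ hr₁ hq hqZ hLq t
  refine (h1.trans h2).trans ?_
  rw [Finset.sum_add_distrib, Finset.sum_const, Finset.card_range, nsmul_eq_mul, ← Finset.mul_sum]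
  refine add_le_add le_rfl ?_
  have h3 : (((I + 1 : ℕ)) : ℝ) ≤ (4 * (1 + 1 / (ε / 2))) * Z ^ (ε / 2) := by
    have h4 := natlog_le (n := ⌊Lt⌋₊) hZ (δ := ε / 2) (by positivity)
      ((Nat.floor_le hLt0.le).trans hLZ)
    have h5 : (0 : ℝ) ≤ (Nat.log 2 ⌊Lt⌋₊ : ℕ) := Nat.cast_nonneg _
    rw [hI]
    push_cast
    linarith
  calc (((I + 1 : ℕ)) : ℝ) * BB ≤ ((4 * (1 + 1 / (ε / 2))) * Z ^ (ε / 2)) * BB :=
        mul_le_mul_of_nonneg_right h3 hBB0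
    _ = (4 * (1 + 1 / (ε / 2))) * C * (Z ^ (ε / 2) * Z ^ (ε / 2)) *
        ((L0 / Lt) ^ (1 / 3 : ℝ) *
          ((Y + (Lt * Y) ^ (2 / 3 : ℝ)) * DT 1 (cw * Y) b r₁ +
          Lt * Y ^ (1 / 2 : ℝ) * DT (1 / 2) (cw * Y) b r₁)) := by
        rw [hBB]; ring
    _ = _ := by
        have : Z ^ (ε / 2) * Z ^ (ε / 2) = Z ^ ε := by
          rw [← Real.rpow_add hZ0]; congr 1; ring
        rw [this]

lemma exists_cw {w : ℝ → ℝ} (hwW : Wgt w) : ∃ cw : ℝ, 1 ≤ cw ∧ ∀ x, w6 w x ≠ 0 → x ≤ cw := by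
  have hw6 := wgt_w6 hwW
  obtain ⟨M, hM⟩ := hw6.cpt.isCompact.bddAbove
  refine ⟨max 1 M, le_max_left _ _, fun x hx => le_trans ?_ (le_max_right _ _)⟩
  exact hM (subset_tsupport _ hx)

open Classical in
set_option maxHeartbeats 2000000 in
/-- **MODE\*, pre-form**: one sequence, the structured half as a hypothesis; `cw` given -/
theorem mode_prec {χ : Eis → ℂ} (hχ : Mul1 χ) {w : ℝ → ℝ} (hwW : Wgt w) {cw : ℝ} (hcw : 1 ≤ cw)
    (hcwle : ∀ x, w6 w x ≠ 0 → x ≤ cw) {ε : ℝ} (hε : 0 < ε) :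
    ∃ C : ℝ, 0 ≤ C ∧ ∀ A' : ℝ, 2 ≤ A' →
      ∀ Z Y L L0 Lt : ℝ, 1 ≤ Z → 1 ≤ Y → Y ≤ Z → 0 ≤ L → L ≤ Z → 0 ≤ L0 →
      L0 ≤ Z → 0 < Lt → Lt ≤ Z →
    ∀ (b : Eis → ℂ) (Yq : ℝ) (r r₁ q : Eis), Y / 4 ≤ Yq → Yq ≤ Y →
      r ≠ 0 → (nm r : ℝ) ≤ Z → r₁ ∣ r → q ≠ 0 → (nm q : ℝ) ≤ Z → L * nk q ≤ L0 →
    ∀ (ka : Eis) (Bs : ℝ), 0 ≤ Bs →
      (1 ≤ Lt → ∀ j : ℕ, (2 : ℝ) ^ j ≤ 2 * Lt → ∀ ρ : Eis, ρ ≠ 0 → r ∣ ρ →
        (nm ρ : ℝ) ≤ 2 * Z ^ 2 →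
        ∫ t, jb A' t * ∑ κ ∈ KSa (min ((2 : ℝ) ^ j) Lt) ka,
          ‖StrQ χ (w6 w) Yq t b κ ρ r₁ (cw * Y)
            ((Lt / min ((2 : ℝ) ^ j) Lt) ^ (1 / 3 : ℝ))‖ ^ 2 ≤
          (min ((2 : ℝ) ^ j) Lt / Lt) ^ (1 / 3 : ℝ) * (Y * Bs)) →
    ∑ h ∈ (bl L).filter (fun h => IsCoprime (kv (kc (h * q)).1) ka),
        EQ A' (fun n => χ n * uS (fun x => ((w (x / Yq) : ℝ) : ℂ)) r b n) (h * q) ≤
      C * Z ^ ε * Y ^ (-(1 : ℝ) / 3) *
        (((L0 / Lt) ^ (1 / 3 : ℝ) * Y + (if Lt ≤ L0 then L + (L * Y) ^ (2 / 3 : ℝ) else 0)) *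
          ∑ n ∈ (S (cw * Y)).filter (fun n => IsCoprime n r), ‖CS b n‖ ^ 2 +
        (if 1 ≤ Lt then (L0 / Lt) ^ (1 / 3 : ℝ) * (Y * Bs +
          ((Y + (Lt * Y) ^ (2 / 3 : ℝ)) * DT 1 (cw * Y) b r₁ +
          Lt * Y ^ (1 / 2 : ℝ) * DT (1 / 2) (cw * Y) b r₁)) else 0)) := by
  -- the weight
  have hw6 := wgt_w6 hwW
  obtain ⟨Cw, hCw⟩ : ∃ Cw : ℝ, ∀ x, |w6 w x| ≤ Cw := by
    obtain ⟨C, hC⟩ := hw6.cpt.exists_bound_of_continuous hw6.smooth.continuous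
    exact ⟨C, fun x => by simpa using hC x⟩
  have hCw0 : 0 ≤ Cw := (abs_nonneg _).trans (hCw 0)
  obtain ⟨C₁, hC₁, hsmall⟩ := small_pre hχ hcw hcwle hCw hε
  obtain ⟨C₂, hC₂, hbig⟩ := big_le (ε := ε / 2) (by positivity)
  have hcw0 : 0 < cw := by linarith
  set KJ : ℝ := ∫ t, jb 2 t with hKJ
  have hKJ0 : 0 ≤ KJ := integral_nonneg fun t => (jb_pos 2 t).le
  set cI : ℝ := 4 * (1 + 1 / ε) with hcI
  have hcI0 : 0 ≤ cI := by positivity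
  refine ⟨2 * (KJ * (C₁ + C₂ * cw ^ (ε / 2) * cw * Cw ^ 2) + 64 * cI), by positivity, ?_⟩
  intro A' hA' Z Y L L0 Lt hZ hY hYZ hL hLZ' hL0 hL0Z hLt hLZ b Yq r r₁ q hYq1 hYq2 hr hrZ hr₁ hq
    hqZ hLq ka Bs hBs hyp
  have hZ0 : 0 < Z := by linarith
  have hY0 : 0 < Y := by linarith
  have hYq0 : 0 < Yq := by linarith
  have hcY : 1 ≤ cw * Y := one_le_mul_of_one_le_of_one_le hcw hY
  have hcY0 : 0 ≤ cw * Y := by linarith
  have hZε : 0 < Z ^ ε := by positivity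
  have hw' : ∀ x, w6 w (x / Yq) ≠ 0 → x ≤ cw * Y := by
    intro x hx
    have h1 := hcwle _ hx
    rw [div_le_iff₀ hYq0] at h1
    exact h1.trans (mul_le_mul_of_nonneg_left hYq2 hcw0.le)
  set LA : ℝ := ((L0 / Lt) ^ (1 / 3 : ℝ) * Y + (if Lt ≤ L0 then L + (L * Y) ^ (2 / 3 : ℝ) else 0)) *
          ∑ n ∈ (S (cw * Y)).filter (fun n => IsCoprime n r), ‖CS b n‖ ^ 2 with hLA
  set u : ℝ := (L0 / Lt) ^ (1 / 3 : ℝ) with hu
  have hu0 : 0 ≤ u := by positivity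
  set Tt : ℝ := (Y + (Lt * Y) ^ (2 / 3 : ℝ)) * DT 1 (cw * Y) b r₁ +
          Lt * Y ^ (1 / 2 : ℝ) * DT (1 / 2) (cw * Y) b r₁ with hTt
  have hD10 : 0 ≤ DT 1 (cw * Y) b r₁ := DT_nonneg _ _ _ _
  have hD20 : 0 ≤ DT (1 / 2) (cw * Y) b r₁ := DT_nonneg _ _ _ _
  have hTt0 : 0 ≤ Tt := by positivity
  have hS0 : 0 ≤ ∑ n ∈ (S (cw * Y)).filter (fun n => IsCoprime n r),
      ‖CS b n‖ ^ 2 := Finset.sum_nonneg fun _ _ => by positivity
  have hLA0 : 0 ≤ LA := by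
    rw [hLA]
    refine mul_nonneg ?_ hS0
    split_ifs <;> positivity
  have hLB0 : 0 ≤ (if 1 ≤ Lt then u * (Y * Bs + Tt) else 0) := by
    split_ifs
    · positivity
    · exact le_rfl
  -- the case `L < 1`
  by_cases hL1 : 1 ≤ L
  swap
  · push Not at hL1
    have e0 : bl L = ∅ := by
      rw [Finset.eq_empty_iff_forall_notMem]
      intro h hh
      rw [mem_bl hL] at hh
      have := one_le_nm' hh.1
      linarith [hh.2]
    rw [e0]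
    simp only [Finset.filter_empty, Finset.sum_empty]
    have hC0 : 0 ≤ 2 * (KJ * (C₁ + C₂ * cw ^ (ε / 2) * cw * Cw ^ 2) + 64 * cI) := by positivity
    have hYp : 0 ≤ Y ^ (-(1 : ℝ) / 3) := by positivity
    exact mul_nonneg (mul_nonneg (mul_nonneg hC0 hZε.le) hYp) (add_nonneg hLA0 hLB0)
  -- the structured sum
  set Rj : Finset ℕ := Finset.range (Nat.log 2 ⌊Lt⌋₊ + 2) with hRj
  set lm : ℕ → ℝ := fun j => min ((2 : ℝ) ^ j) Lt with hlm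
  set SS : ℕ → Eis → ℝ → ℝ := fun j m t => ∑ κ ∈ KSa (lm j) ka,
    ‖StrQ χ (w6 w) Yq t b κ (r * ((kc q).2 * m)) r₁ (cw * Y)
      ((Lt / lm j) ^ (1 / 3 : ℝ))‖ ^ 2 with hSS
  have hSS0 : ∀ j m t, 0 ≤ SS j m t := fun j m t => Finset.sum_nonneg fun _ _ => by positivity
  set St : ℝ → ℝ := fun t => if 1 ≤ Lt then
    ∑ j ∈ Rj, ∑ m ∈ bl ((2 * L0 / lm j) ^ (1 / 3 : ℝ)), SS j m t else 0 with hSt
  have hSt0 : ∀ t, 0 ≤ St t := fun t => by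
    rw [hSt]; beta_reduce
    split_ifs
    · exact Finset.sum_nonneg fun _ _ => Finset.sum_nonneg fun _ _ => hSS0 _ _ _
    · exact le_rfl
  set Bd : ℝ := C₁ * Z ^ ε * (if 1 ≤ Lt then u * Tt else 0) +
    (C₂ * cw ^ (ε / 2) * cw * Cw ^ 2) * Z ^ ε * LA with hBd
  have hBd0 : 0 ≤ Bd := by
    have : 0 ≤ (if 1 ≤ Lt then u * Tt else 0) := by split_ifs <;> positivity
    positivity
  -- pointwise bound
  have hpt : ∀ t : ℝ, ∑ h ∈ (bl L).filter (fun h => IsCoprime (kv (kc (h * q)).1) ka),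
      ‖Lx χ (w6 w) Yq t b (kc (h * q)).1 (r * (kc (h * q)).2)‖ ^ 2 ≤ 2 * St t + Bd := by
    intro t
    set F : Eis → ℝ := fun h =>
      ‖Lx χ (w6 w) Yq t b (kc (h * q)).1 (r * (kc (h * q)).2)‖ ^ 2 with hF
    have hF0 : ∀ h, 0 ≤ F h := fun h => by rw [hF]; positivity
    have h1 : ∑ h ∈ (bl L).filter (fun h => IsCoprime (kv (kc (h * q)).1) ka), F h ≤
        (∑ h ∈ (bl L).filter (fun h => nk (h * q) ≤ Lt ∧
          IsCoprime (kv (kc (h * q)).1) ka), F h) +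
        ∑ h ∈ (bl L).filter (fun h => Lt < nk (h * q)), F h := by
      rw [Finset.sum_filter, Finset.sum_filter, Finset.sum_filter, ← Finset.sum_add_distrib]
      refine Finset.sum_le_sum fun h _ => ?_
      have := hF0 h
      by_cases a1 : IsCoprime (kv (kc (h * q)).1) ka
      · by_cases a2 : nk (h * q) ≤ Lt
        · rw [if_pos a1, if_pos ⟨a2, a1⟩, if_neg (not_lt.mpr a2), add_zero]
        · rw [if_pos a1, if_neg (fun h' => a2 h'.1), if_pos (not_le.mp a2), zero_add]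
      · rw [if_neg a1]
        split_ifs <;> linarith
    have h2 : ∑ h ∈ (bl L).filter (fun h => nk (h * q) ≤ Lt ∧
          IsCoprime (kv (kc (h * q)).1) ka), F h ≤
        2 * St t + C₁ * Z ^ ε * (if 1 ≤ Lt then u * Tt else 0) := by
      by_cases hLt1 : 1 ≤ Lt
      · rw [hSt]
        beta_reduce
        rw [if_pos hLt1, if_pos hLt1]
        exact hsmall Z Y L L0 Lt hZ hY hYZ hL hL0 hL0Z hLt1 hLZ b Yq r r₁ q ka hYq1 hYq2 hr hrZ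
          hr₁ hq hqZ hLq t
      · have e0 : ∑ h ∈ (bl L).filter (fun h => nk (h * q) ≤ Lt ∧
            IsCoprime (kv (kc (h * q)).1) ka), F h = 0 := by
          rw [Finset.filter_false_of_mem, Finset.sum_empty]
          intro h hh hc
          rw [mem_bl hL] at hh
          have := nk_ge_one (mul_ne_zero hh.1 hq)
          exact hLt1 (this.trans hc.1)
        rw [e0, hSt]
        beta_reduce
        rw [if_neg hLt1, if_neg hLt1]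
        simp
    have h3 : ∑ h ∈ (bl L).filter (fun h => Lt < nk (h * q)), F h ≤
        (C₂ * cw ^ (ε / 2) * cw * Cw ^ 2) * Z ^ ε * LA := by
      by_cases hLL : Lt ≤ L0
      · have h4 : ∑ h ∈ (bl L).filter (fun h => Lt < nk (h * q)), F h ≤
            C₂ * (L * (cw * Y)) ^ (ε / 2) * ((L0 / Lt) ^ (1 / 3 : ℝ) * (cw * Y) + L +
              (L * (cw * Y)) ^ (2 / 3 : ℝ)) *
            (Cw ^ 2 * ∑ n ∈ (S (cw * Y)).filter (fun n => IsCoprime n r),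
              ‖CS b n‖ ^ 2) := by
          refine le_trans (Finset.sum_le_sum_of_subset_of_nonneg (fun h hh => ?_)
            fun h _ _ => hF0 h) (hbig χ hχ (w6 w) Cw hCw Yq (cw * Y) L L0 Lt t hcY hw' hL1 hLt
              b r q hq hLq)
          rw [Finset.mem_filter] at hh ⊢
          exact ⟨hh.1, hh.2.le⟩
        refine h4.trans ?_
        have h5 : (L * (cw * Y)) ^ (ε / 2) ≤ cw ^ (ε / 2) * Z ^ ε := by
          have h6 : L * (cw * Y) ≤ cw * Z ^ 2 := by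
            calc L * (cw * Y) ≤ Z * (cw * Z) := by gcongr
              _ = cw * Z ^ 2 := by ring
          calc (L * (cw * Y)) ^ (ε / 2) ≤ (cw * Z ^ 2) ^ (ε / 2) :=
                Real.rpow_le_rpow (by positivity) h6 (by positivity)
            _ = cw ^ (ε / 2) * Z ^ ε := by
                rw [Real.mul_rpow hcw0.le (by positivity), ← Real.rpow_natCast Z 2,
                  ← Real.rpow_mul hZ0.le]
                congr 2
                push_cast; ring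
        have h6 : (L * (cw * Y)) ^ (2 / 3 : ℝ) ≤ cw * (L * Y) ^ (2 / 3 : ℝ) := by
          have e1 : L * (cw * Y) = cw * (L * Y) := by ring
          rw [e1, Real.mul_rpow hcw0.le (by positivity)]
          refine mul_le_mul_of_nonneg_right ?_ (by positivity)
          conv_rhs => rw [← Real.rpow_one cw]
          exact Real.rpow_le_rpow_of_exponent_le hcw (by norm_num)
        have h7 : L ≤ cw * L := le_mul_of_one_le_left hL hcw
        rw [hLA, if_pos hLL]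
        calc C₂ * (L * (cw * Y)) ^ (ε / 2) * (u * (cw * Y) + L +
              (L * (cw * Y)) ^ (2 / 3 : ℝ)) * (Cw ^ 2 *
              ∑ n ∈ (S (cw * Y)).filter (fun n => IsCoprime n r), ‖CS b n‖ ^ 2)
            ≤ C₂ * (cw ^ (ε / 2) * Z ^ ε) * (u * (cw * Y) + cw * L +
              cw * (L * Y) ^ (2 / 3 : ℝ)) * (Cw ^ 2 *
              ∑ n ∈ (S (cw * Y)).filter (fun n => IsCoprime n r), ‖CS b n‖ ^ 2) := by
              gcongr
          _ = _ := by ring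
      · have e0 : ∑ h ∈ (bl L).filter (fun h => Lt < nk (h * q)), F h = 0 := by
          rw [Finset.filter_false_of_mem, Finset.sum_empty]
          intro h hh hc
          rw [mem_bl hL] at hh
          apply hLL
          have h5 := nk_mul_le hh.1 hq
          have h6 : nk h ≤ L := (nk_le_nm hh.1).trans hh.2
          have h7 : nk h * nk q ≤ L * nk q :=
            mul_le_mul_of_nonneg_right h6 ((zero_le_one).trans (nk_ge_one hq))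
          linarith [hLq]
        rw [e0]
        positivity
    rw [hBd]
    linarith [h1, h2, h3]
  -- integration
  have hA'1 : 1 < A' := by linarith
  have hjb : ∀ t : ℝ, jb A' t ≤ jb 2 t := by
    intro t
    have h1 : 1 ≤ 1 + |t| := by linarith [abs_nonneg t]
    unfold jb
    exact Real.rpow_le_rpow_of_exponent_le h1 (by linarith)
  set v : Eis → ℂ := fun n => χ n * uS (fun x => ((w (x / Yq) : ℝ) : ℂ)) r b n with hv
  have hvsup : ∀ n, v n ≠ 0 → n ∈ S (cw * Y) := by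
    intro n hn
    have h1 := uS_supp (right_ne_zero_of_mul hn)
    have h2 : w ((nm n : ℝ) / Yq) ≠ 0 := by
      intro h0
      exact h1.2.2.2 (by rw [h0]; simp)
    have h3 : w6 w ((nm n : ℝ) / Yq) ≠ 0 := by
      unfold w6
      have : 0 < (nm n : ℝ) / Yq := div_pos (nmpos h1.1.ne_zero) hYq0
      exact mul_ne_zero h2 (by positivity)
    exact (mem_S hcY0).2 ⟨hw' _ h3, h1.1, h1.2.1⟩
  have hint : ∀ h : Eis, Integrable fun t => jb A' t * ‖TT v (h * q) t‖ ^ 2 :=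
    fun h => integrable_EQ hA'1 hcY0 hvsup _
  have hsum : ∑ h ∈ (bl L).filter (fun h => IsCoprime (kv (kc (h * q)).1) ka),
        EQ A' v (h * q) =
      ∫ t, ∑ h ∈ (bl L).filter (fun h => IsCoprime (kv (kc (h * q)).1) ka),
        jb A' t * ‖TT v (h * q) t‖ ^ 2 := by
    rw [integral_finsetSum _ (fun h _ => hint h)]
    rfl
  rw [hsum]
  have hY13 : (Yq ^ (-(1 : ℝ) / 6)) ^ 2 ≤ 2 * Y ^ (-(1 : ℝ) / 3) := by
    have e1 : (Yq ^ (-(1 : ℝ) / 6)) ^ 2 = Yq ^ (-(1 : ℝ) / 3) := by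
      rw [← Real.rpow_natCast, ← Real.rpow_mul hYq0.le]; norm_num
    rw [e1]
    have h1 : Yq ^ (-(1 : ℝ) / 3) ≤ (Y / 4) ^ (-(1 : ℝ) / 3) :=
      Real.rpow_le_rpow_of_nonpos (by positivity) hYq1 (by norm_num)
    refine h1.trans ?_
    have e2 : Y / 4 = Y * (4 : ℝ)⁻¹ := by ring
    rw [e2, Real.mul_rpow hY0.le (by norm_num), mul_comm]
    refine mul_le_mul_of_nonneg_right ?_ (by positivity)
    rw [Real.inv_rpow (by norm_num), ← Real.rpow_neg (by norm_num)]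
    calc (4 : ℝ) ^ (-(-(1 : ℝ) / 3)) ≤ (4 : ℝ) ^ (1 / 2 : ℝ) :=
          Real.rpow_le_rpow_of_exponent_le (by norm_num) (by norm_num)
      _ = 2 := by
          rw [show (4 : ℝ) = 2 ^ (2 : ℝ) by norm_num, ← Real.rpow_mul (by norm_num)]; norm_num
  have hle : ∀ t : ℝ, ∑ h ∈ (bl L).filter (fun h => IsCoprime (kv (kc (h * q)).1) ka),
        jb A' t * ‖TT v (h * q) t‖ ^ 2 ≤
        2 * Y ^ (-(1 : ℝ) / 3) * (2 * (jb A' t * St t) + Bd * jb 2 t) := by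
    intro t
    have hj0 := (jb_pos A' t).le
    have h1 : ∀ h ∈ (bl L).filter (fun h => IsCoprime (kv (kc (h * q)).1) ka),
        jb A' t * ‖TT v (h * q) t‖ ^ 2 ≤ jb A' t * (2 * Y ^ (-(1 : ℝ) / 3) *
          ‖Lx χ (w6 w) Yq t b (kc (h * q)).1 (r * (kc (h * q)).2)‖ ^ 2) := by
      intro h hh
      rw [Finset.mem_filter, mem_bl hL] at hh
      refine mul_le_mul_of_nonneg_left ?_ hj0
      rw [hv, TT_uS hYq0 r b (mul_ne_zero hh.1.1 hq) t, norm_mul, Complex.norm_real,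
        Real.norm_of_nonneg (by positivity), mul_pow]
      exact mul_le_mul_of_nonneg_right hY13 (by positivity)
    calc _ ≤ ∑ h ∈ (bl L).filter (fun h => IsCoprime (kv (kc (h * q)).1) ka),
          jb A' t * (2 * Y ^ (-(1 : ℝ) / 3) *
          ‖Lx χ (w6 w) Yq t b (kc (h * q)).1 (r * (kc (h * q)).2)‖ ^ 2) :=
          Finset.sum_le_sum fun h hh => h1 h hh
      _ = jb A' t * (2 * Y ^ (-(1 : ℝ) / 3) *
          ∑ h ∈ (bl L).filter (fun h => IsCoprime (kv (kc (h * q)).1) ka),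
          ‖Lx χ (w6 w) Yq t b (kc (h * q)).1 (r * (kc (h * q)).2)‖ ^ 2) := by
          simp_rw [Finset.mul_sum]
      _ ≤ jb A' t * (2 * Y ^ (-(1 : ℝ) / 3) * (2 * St t + Bd)) := by
          refine mul_le_mul_of_nonneg_left ?_ hj0
          exact mul_le_mul_of_nonneg_left (hpt t) (by positivity)
      _ = 2 * Y ^ (-(1 : ℝ) / 3) * (2 * (jb A' t * St t) + Bd * jb A' t) := by ring
      _ ≤ _ := by
          refine mul_le_mul_of_nonneg_left ?_ (by positivity)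
          have := mul_le_mul_of_nonneg_left (hjb t) hBd0
          linarith
  -- the integral of the structured sum
  have hlm0 : ∀ j, 1 ≤ Lt → 1 ≤ lm j := fun j h => le_min (one_le_pow₀ (by norm_num)) h
  have hiS : 1 ≤ Lt → ∀ j ∈ Rj, ∀ m ∈ bl ((2 * L0 / lm j) ^ (1 / 3 : ℝ)),
      Integrable fun t => jb A' t * SS j m t := by
    intro h1 j _ m hm
    obtain ⟨h2, -, -⟩ := rho_le hZ hL0 hL0Z (hlm0 j h1) hr hrZ hq hqZ hm
    exact integrable_StrQ hA'1 h2 hcY0 hw' _ _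
  have hiSt : Integrable fun t => jb A' t * St t := by
    rw [hSt]
    beta_reduce
    split_ifs with h1
    · have e : (fun t => jb A' t * ∑ j ∈ Rj, ∑ m ∈ bl ((2 * L0 / lm j) ^ (1 / 3 : ℝ)), SS j m t) =
          fun t => ∑ j ∈ Rj, ∑ m ∈ bl ((2 * L0 / lm j) ^ (1 / 3 : ℝ)), jb A' t * SS j m t := by
        funext t
        simp_rw [Finset.mul_sum]
      rw [e]
      exact integrable_finsetSum _ fun j hj => integrable_finsetSum _ fun m hm => hiS h1 j hj m hm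
    · simp
  have hStle : ∫ t, jb A' t * St t ≤ 32 * cI * Z ^ ε * (if 1 ≤ Lt then u * (Y * Bs) else 0) := by
    rw [hSt]
    beta_reduce
    split_ifs with h1
    · have hLt0 : 0 < Lt := hLt
      have e : (fun t => jb A' t * ∑ j ∈ Rj, ∑ m ∈ bl ((2 * L0 / lm j) ^ (1 / 3 : ℝ)), SS j m t) =
          fun t => ∑ j ∈ Rj, ∑ m ∈ bl ((2 * L0 / lm j) ^ (1 / 3 : ℝ)), jb A' t * SS j m t := by
        funext t
        simp_rw [Finset.mul_sum]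
      rw [e, integral_finsetSum _ (fun j hj => integrable_finsetSum _ fun m hm => hiS h1 j hj m hm)]
      have h2 : ∀ j ∈ Rj, ∫ t, ∑ m ∈ bl ((2 * L0 / lm j) ^ (1 / 3 : ℝ)), jb A' t * SS j m t ≤
          32 * (u * (Y * Bs)) := by
        intro j hj
        rw [integral_finsetSum _ (fun m hm => hiS h1 j hj m hm)]
        have hl1 := hlm0 j h1
        have hl0 : 0 < lm j := by linarith
        have hlL : lm j ≤ Lt := min_le_right _ _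
        have hj2 : (2 : ℝ) ^ j ≤ 2 * Lt := by
          rw [hRj, Finset.mem_range] at hj
          have h3 : j ≤ Nat.log 2 ⌊Lt⌋₊ + 1 := by omega
          have h4 : 2 ^ (Nat.log 2 ⌊Lt⌋₊) ≤ ⌊Lt⌋₊ := by
            refine Nat.pow_log_le_self 2 ?_
            have : 1 ≤ ⌊Lt⌋₊ := Nat.le_floor (by exact_mod_cast h1)
            omega
          calc (2 : ℝ) ^ j ≤ 2 ^ (Nat.log 2 ⌊Lt⌋₊ + 1) := pow_le_pow_right₀ (by norm_num) h3
            _ = 2 * ((2 ^ (Nat.log 2 ⌊Lt⌋₊) : ℕ) : ℝ) := by push_cast; ring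
            _ ≤ 2 * (⌊Lt⌋₊ : ℝ) := by
                have : ((2 ^ (Nat.log 2 ⌊Lt⌋₊) : ℕ) : ℝ) ≤ (⌊Lt⌋₊ : ℝ) := by exact_mod_cast h4
                linarith
            _ ≤ 2 * Lt := by linarith [Nat.floor_le hLt0.le]
        have h5 : ∀ m ∈ bl ((2 * L0 / lm j) ^ (1 / 3 : ℝ)), ∫ t, jb A' t * SS j m t ≤
            (lm j / Lt) ^ (1 / 3 : ℝ) * (Y * Bs) := by
          intro m hm
          obtain ⟨h6, h7, h8⟩ := rho_le hZ hL0 hL0Z hl1 hr hrZ hq hqZ hm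
          exact hyp h1 j hj2 _ h6 h7 h8
        refine (Finset.sum_le_sum h5).trans ?_
        rw [Finset.sum_const, nsmul_eq_mul]
        have hM0 : 0 ≤ (2 * L0 / lm j) ^ (1 / 3 : ℝ) := by positivity
        obtain ⟨hM1, -⟩ := blk_arith (g := 1) hL0 hl0 hlL hcw hY0 one_pos
        calc ((bl ((2 * L0 / lm j) ^ (1 / 3 : ℝ))).card : ℝ) *
              ((lm j / Lt) ^ (1 / 3 : ℝ) * (Y * Bs))
            ≤ (16 * (2 * L0 / lm j) ^ (1 / 3 : ℝ)) * ((lm j / Lt) ^ (1 / 3 : ℝ) * (Y * Bs)) :=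
              mul_le_mul_of_nonneg_right (CR2.card_bl_le hM0) (by positivity)
          _ = 16 * ((2 * L0 / lm j) ^ (1 / 3 : ℝ) * (lm j / Lt) ^ (1 / 3 : ℝ)) * (Y * Bs) := by
              ring
          _ ≤ 16 * (2 * u) * (Y * Bs) := by gcongr
          _ = _ := by ring
      refine (Finset.sum_le_sum h2).trans ?_
      rw [Finset.sum_const, nsmul_eq_mul, hRj, Finset.card_range]
      have h3 : (((Nat.log 2 ⌊Lt⌋₊ + 2 : ℕ)) : ℝ) ≤ cI * Z ^ ε := by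
        have h4 := natlog_le (n := ⌊Lt⌋₊) hZ (δ := ε) hε ((Nat.floor_le hLt0.le).trans hLZ)
        have h5 : (0 : ℝ) ≤ (Nat.log 2 ⌊Lt⌋₊ : ℕ) := Nat.cast_nonneg _
        rw [hcI]
        push_cast
        linarith
      calc (((Nat.log 2 ⌊Lt⌋₊ + 2 : ℕ)) : ℝ) * (32 * (u * (Y * Bs)))
          ≤ (cI * Z ^ ε) * (32 * (u * (Y * Bs))) := mul_le_mul_of_nonneg_right h3 (by positivity)
        _ = _ := by ring
    · simp
  calc ∫ t, ∑ h ∈ (bl L).filter (fun h => IsCoprime (kv (kc (h * q)).1) ka),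
        jb A' t * ‖TT v (h * q) t‖ ^ 2
      ≤ ∫ t, 2 * Y ^ (-(1 : ℝ) / 3) * (2 * (jb A' t * St t) + Bd * jb 2 t) := by
        refine integral_mono_of_nonneg (Filter.Eventually.of_forall fun t => ?_)
          (((hiSt.const_mul 2).add ((integrable_jb (by norm_num)).const_mul Bd)).const_mul _)
          (Filter.Eventually.of_forall hle)
        exact Finset.sum_nonneg fun h _ =>
          mul_nonneg (jb_pos A' t).le (by positivity)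
    _ = 2 * Y ^ (-(1 : ℝ) / 3) * (2 * (∫ t, jb A' t * St t) + Bd * KJ) := by
        rw [integral_const_mul, integral_add (hiSt.const_mul 2)
          ((integrable_jb (by norm_num)).const_mul Bd), integral_const_mul, integral_const_mul]
    _ ≤ 2 * Y ^ (-(1 : ℝ) / 3) * (2 * (32 * cI * Z ^ ε * (if 1 ≤ Lt then u * (Y * Bs) else 0)) +
          Bd * KJ) := by
        refine mul_le_mul_of_nonneg_left ?_ (by positivity)
        linarith [hStle]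
    _ ≤ _ := by
        have hYp : 0 ≤ Y ^ (-(1 : ℝ) / 3) := by positivity
        have k1 : 0 ≤ KJ * C₁ := by positivity
        have k2 : 0 ≤ KJ * (C₂ * cw ^ (ε / 2) * cw * Cw ^ 2) := by positivity
        have key : 2 * (32 * cI * Z ^ ε * (if 1 ≤ Lt then u * (Y * Bs) else 0)) + Bd * KJ ≤
            (KJ * (C₁ + C₂ * cw ^ (ε / 2) * cw * Cw ^ 2) + 64 * cI) * Z ^ ε *
              (LA + (if 1 ≤ Lt then u * (Y * Bs + Tt) else 0)) := by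
          rw [hBd]
          split_ifs
          · have q1 : 0 ≤ u * (Y * Bs) := by positivity
            have q2 : 0 ≤ u * Tt := by positivity
            have q3 : 0 ≤ KJ * C₁ * Z ^ ε * (LA + u * (Y * Bs)) := by positivity
            have q4 : 0 ≤ KJ * (C₂ * cw ^ (ε / 2) * cw * Cw ^ 2) * Z ^ ε *
              (u * (Y * Bs) + u * Tt) := by positivity
            have q5 : 0 ≤ 64 * cI * Z ^ ε * (LA + u * Tt) := by positivity
            have e : (KJ * (C₁ + C₂ * cw ^ (ε / 2) * cw * Cw ^ 2) + 64 * cI) * Z ^ ε *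
              (LA + u * (Y * Bs + Tt)) = 2 * (32 * cI * Z ^ ε * (u * (Y * Bs))) +
                (C₁ * Z ^ ε * (u * Tt) + (C₂ * cw ^ (ε / 2) * cw * Cw ^ 2) * Z ^ ε * LA) * KJ +
                (KJ * C₁ * Z ^ ε * (LA + u * (Y * Bs)) +
                KJ * (C₂ * cw ^ (ε / 2) * cw * Cw ^ 2) * Z ^ ε * (u * (Y * Bs) + u * Tt) +
                64 * cI * Z ^ ε * (LA + u * Tt)) := by ring
            rw [e]
            linarith only [q3, q4, q5]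
          · have q3 : 0 ≤ KJ * C₁ * Z ^ ε * LA := by positivity
            have q5 : 0 ≤ 64 * cI * Z ^ ε * LA := by positivity
            have e : (KJ * (C₁ + C₂ * cw ^ (ε / 2) * cw * Cw ^ 2) + 64 * cI) * Z ^ ε *
              (LA + 0) = 2 * (32 * cI * Z ^ ε * 0) +
                (C₁ * Z ^ ε * 0 + (C₂ * cw ^ (ε / 2) * cw * Cw ^ 2) * Z ^ ε * LA) * KJ +
                (KJ * C₁ * Z ^ ε * LA + 64 * cI * Z ^ ε * LA) := by ring
            rw [e]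
            linarith only [q3, q5]
        calc _ ≤ 2 * Y ^ (-(1 : ℝ) / 3) *
            ((KJ * (C₁ + C₂ * cw ^ (ε / 2) * cw * Cw ^ 2) + 64 * cI) * Z ^ ε *
              (LA + (if 1 ≤ Lt then u * (Y * Bs + Tt) else 0))) :=
              mul_le_mul_of_nonneg_left key (by positivity)
          _ = _ := by ring

open Classical in
/-- **MODE\*, pre-form**: one sequence, the structured half as a hypothesis -/
theorem mode_pre {χ : Eis → ℂ} (hχ : Mul1 χ) {w : ℝ → ℝ} (hwW : Wgt w) {ε : ℝ} (hε : 0 < ε) :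
    ∃ C cw : ℝ, 0 ≤ C ∧ 1 ≤ cw ∧ ∀ A' : ℝ, 2 ≤ A' →
      ∀ Z Y L L0 Lt : ℝ, 1 ≤ Z → 1 ≤ Y → Y ≤ Z → 0 ≤ L → L ≤ Z → 0 ≤ L0 →
      L0 ≤ Z → 0 < Lt → Lt ≤ Z →
    ∀ (b : Eis → ℂ) (Yq : ℝ) (r r₁ q : Eis), Y / 4 ≤ Yq → Yq ≤ Y →
      r ≠ 0 → (nm r : ℝ) ≤ Z → r₁ ∣ r → q ≠ 0 → (nm q : ℝ) ≤ Z → L * nk q ≤ L0 →
    ∀ (ka : Eis) (Bs : ℝ), 0 ≤ Bs →
      (1 ≤ Lt → ∀ j : ℕ, (2 : ℝ) ^ j ≤ 2 * Lt → ∀ ρ : Eis, ρ ≠ 0 → r ∣ ρ →
        (nm ρ : ℝ) ≤ 2 * Z ^ 2 →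
        ∫ t, jb A' t * ∑ κ ∈ KSa (min ((2 : ℝ) ^ j) Lt) ka,
          ‖StrQ χ (w6 w) Yq t b κ ρ r₁ (cw * Y)
            ((Lt / min ((2 : ℝ) ^ j) Lt) ^ (1 / 3 : ℝ))‖ ^ 2 ≤
          (min ((2 : ℝ) ^ j) Lt / Lt) ^ (1 / 3 : ℝ) * (Y * Bs)) →
    ∑ h ∈ (bl L).filter (fun h => IsCoprime (kv (kc (h * q)).1) ka),
        EQ A' (fun n => χ n * uS (fun x => ((w (x / Yq) : ℝ) : ℂ)) r b n) (h * q) ≤
      C * Z ^ ε * Y ^ (-(1 : ℝ) / 3) *
        (((L0 / Lt) ^ (1 / 3 : ℝ) * Y + (if Lt ≤ L0 then L + (L * Y) ^ (2 / 3 : ℝ) else 0)) *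
          ∑ n ∈ (S (cw * Y)).filter (fun n => IsCoprime n r), ‖CS b n‖ ^ 2 +
        (if 1 ≤ Lt then (L0 / Lt) ^ (1 / 3 : ℝ) * (Y * Bs +
          ((Y + (Lt * Y) ^ (2 / 3 : ℝ)) * DT 1 (cw * Y) b r₁ +
          Lt * Y ^ (1 / 2 : ℝ) * DT (1 / 2) (cw * Y) b r₁)) else 0)) := by
  obtain ⟨cw, hcw, hcwle⟩ := exists_cw hwW
  obtain ⟨C, hC, h⟩ := mode_prec hχ hwW hcw hcwle hε
  exact ⟨C, cw, hC, hcw, h⟩

end Crest.Agent.R017.Mode405
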