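import Crest.Agent.R017.PoH16_347
import Crest.Agent.R017.ModeP_405

/-!
# Row 17, block C70, leaf E3: MODE*, the bridge to helper347's structured bound (helper405)

* `pohw_of` : `PoHW OK3 nfo χ w` for `χ = conj (u/·)`, `u` an `S`-unit
* `pohw_one` : `χ = 1`
* `TV_three` : the tests of `OK3`
* `strQ_int` : the structured half of `mode_pre` from `PoHW`
-/

set_option autoImplicit false

noncomputable section

open Complex MeasureTheory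
open scoped ComplexConjugate

namespace Crest.Agent.R017.Mode405

open Crest.Agent.R012 Crest.Agent.R012.Eis Crest.Agent.R012.MC
open Crest.Agent.R012.LS2 (S mem_S bl mem_bl)
open Crest.Agent.R012.LS448 (one_le_nm')
open Crest.Agent.R012.NonCube52 (Ker kv Good)
open Crest.Agent.R012.Mob705 (mu pdiv mem_pdiv)
open Crest.Agent.R017.CM106 (CS TG FS)
open Crest.Agent.R017.BD829 (TT EQ Win EQ_nonneg)
open Crest.Agent.R017.E1551 (jb jb_pos nmpos integrable_jb)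

lemma nfo_eq (lam I : ℝ) : PoH347.nfo lam I = nfo lam I := rfl

lemma KSa_sub (lam : ℝ) (ka : Eis) : KSa lam ka ⊆ PoH347.KSa ka lam := by
  classical
  intro κ hκ
  rw [mem_KSa] at hκ
  unfold PoH347.KSa
  rw [Finset.mem_filter, mem_KS]
  refine ⟨hκ.1, ?_⟩
  have h : IsCoprime (kv κ) ka := hκ.2
  unfold kv at h
  have h1 : IsCoprime κ.2.1 ka := h.of_mul_left_left.of_mul_left_right
  have h2 : IsCoprime κ.2.2 ka := (IsCoprime.pow_left_iff (by norm_num)).mp h.of_mul_left_right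
  exact h1.mul_left h2

/-- the test of `OK3` at one parameter -/
lemma TV_three (A : ℝ) (b : Eis → ℂ) (γ φ x : Eis) (P : ℝ) :
    TV ⟨{(γ, φ, 1)}, fun _ => (nm γ : ℝ), fun _ => (nm x : ℝ)⟩ A b P =
      (nm γ : ℝ) * VI A b γ φ 1 (P / nm x) := by
  unfold TV
  rw [Finset.sum_singleton]

/-- **the bridge** -/
theorem pohw_of {u : Eis} (hu : PoH347.SU u) {χ : Eis → ℂ}
    (hχ : ∀ x, IsPrim x → χ x = conj (sy u x)) {w₀ : ℝ → ℝ} (hw : Wgt w₀) :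
    PoHW OK3 nfo χ w₀ := by
  intro R hR a A hA ε hε
  obtain ⟨C, c, J, hC, hc, h⟩ := PoH347.pohs_w hu hχ hw hR (a := a) hA hε
  refine ⟨C, c, J, hC, hc, ?_⟩
  intro Z N X lam hZ hN hNZ hX hXZ hXZ1 hlam hlamZ hLN ka 𝒯 hT ι Q b Xq hXq hbS hbW W hW hWle W1
    hW1 hW1le t
  refine le_trans ?_ (h Z N X lam hZ hN hNZ hX hXZ1 hlam hlamZ hLN Q b Xq hXq hbS hbW W hW ka ?_
    W1 hW1le t)
  · refine Finset.sum_le_sum fun q _ => ?_
    exact Finset.sum_le_sum_of_subset_of_nonneg (KSa_sub lam ka) fun _ _ _ => by positivity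
  · intro γ φ x D hγ hc hφ hx hD hDN he P hP
    have hx0 : (1 : ℝ) ≤ nm x := one_le_nm' hx
    have hx1 : (0 : ℝ) < nm x := by linarith
    have h1 := hWle ⟨{(γ, φ, 1)}, fun _ => (nm γ : ℝ), fun _ => (nm x : ℝ)⟩
      (by rw [hT.2.2]; exact ⟨γ, φ, x, D, hγ, hc, hφ, hx, hD, hDN, he, rfl⟩) (P * nm x)
      (one_le_mul_of_one_le_of_one_le hP hx0)
    refine le_trans (le_of_eq ?_) h1
    rw [Finset.mul_sum]
    refine Finset.sum_congr rfl fun q _ => ?_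
    rw [TV_three, mul_div_cancel_right₀ _ hx1.ne']

theorem pohw_one {w₀ : ℝ → ℝ} (hw : Wgt w₀) : PoHW OK3 nfo (fun _ => 1) w₀ :=
  pohw_of PoH347.SU_one (fun x hx => by
    have := Char766.sy_one_left hx
    rw [this]; simp) hw

set_option maxHeartbeats 1000000 in
/-- **the structured half of `mode_prec`** from `PoHW` (family, one modulus `ρ o` per member) -/
theorem strQ_int {OK : ℝ → ℝ → Eis → Set Tst → Prop} (hOK : OKW OK)
    {nfn : ℝ → ℝ → ℝ} (hnfn : NFok nfn) {χ : Eis → ℂ} (hχ : Mul1 χ)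
    {w : ℝ → ℝ} (hP : PoHW OK nfn χ w) {cw : ℝ} (hcw : 1 ≤ cw) (hw : ∀ x, w x ≠ 0 → x ≤ cw)
    {R : ℝ} (hR : 0 ≤ R) (a A : ℕ) (hA : 1 < A) {ε : ℝ} (hε : 0 < ε) :
    ∃ (C c : ℝ) (A₀ : ℕ), 0 ≤ C ∧ 1 ≤ c ∧ ∀ A' : ℝ, (A₀ : ℝ) ≤ A' →
    ∀ Z N Y Lt : ℝ, 1 ≤ Z → 0 < N → N ≤ Z → 1 ≤ Y →
      Y ≤ Z → 1 ≤ Lt → Lt ≤ Z → Lt * Real.exp R < N →
    ∀ (ka : Eis) (𝒯 : Set Tst), OK Z N ka 𝒯 →
    ∀ {ι : Type} (O : Finset ι) (b : ι → Eis → ℂ) (Yq : ι → ℝ) (r₁ : ι → Eis),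
      (∀ o ∈ O, Y / 4 ≤ Yq o ∧ Yq o ≤ Y) → (∀ o ∈ O, ∀ n, b o n ≠ 0 → n ∈ S Z) →
      (∀ o ∈ O, Win (b o) (Real.log N) R) → (∀ o ∈ O, r₁ o ≠ 0 ∧ (nm (r₁ o) : ℝ) ≤ Z) →
    ∀ W : ℝ → ℝ, Slp a W →
      (∀ τ ∈ 𝒯, ∀ P : ℝ, 0 < P → ∑ o ∈ O, ∑ e ∈ pdiv (r₁ o),
        (nm e : ℝ)⁻¹ * TV τ A (bs (b o) e) (nm e * P) ≤ W P) →
    ∀ W1 : ℝ, 0 ≤ W1 → W (c * Il N Lt Y) ≤ W1 →
    ∀ lam : ℝ, 1 ≤ lam → lam ≤ Lt →
    ∀ ρ : ι → Eis, (∀ o ∈ O, ρ o ≠ 0 ∧ (nm (ρ o) : ℝ) ≤ 2 * Z ^ 2) →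
    ∑ o ∈ O, ∫ t, jb A' t * ∑ κ ∈ KSa lam ka,
        ‖StrQ χ w (Yq o) t (b o) κ (ρ o) (r₁ o) (cw * Y) ((Lt / lam) ^ (1 / 3 : ℝ))‖ ^ 2 ≤
      (lam / Lt) ^ (1 / 3 : ℝ) * (Y * (C * Z ^ ε * nfn Lt (Il N Lt Y) * W1)) := by
  obtain ⟨C, c, J, hC, hc, h⟩ := strQ_le hOK hnfn hχ hP hcw hw hR a A hA hε
  set KJ : ℝ := ∫ t, jb 2 t with hKJ
  have hKJ0 : 0 ≤ KJ := integral_nonneg fun t => (jb_pos 2 t).le
  refine ⟨KJ * (C * 2 ^ ε), c, J + 2, by positivity, hc, ?_⟩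
  intro A' hA' Z N Y Lt hZ hN hNZ hY hYZ hLt hLZ hLN ka 𝒯 hT ι O b Yq r₁ hYq hbS hbW hr W hW hWle
    W1 hW1 hW1le lam hlam hlamL ρ hρ
  have hZ0 : 0 < Z := by linarith
  have hY0 : 0 < Y := by linarith
  have hlam0 : 0 < lam := by linarith
  have hLt0 : 0 < Lt := by linarith
  have hcw0 : 0 < cw := by linarith
  have hcY0 : 0 ≤ cw * Y := by positivity
  have hA'2 : (2 : ℝ) + J ≤ A' := by push_cast at hA'; linarith
  have hA'1 : 1 < A' := by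
    have : (0 : ℝ) ≤ J := Nat.cast_nonneg J
    linarith
  set P₁ : ℝ := (Lt / lam) ^ (1 / 3 : ℝ) with hP₁
  have hLl : 1 ≤ Lt / lam := (one_le_div hlam0).mpr hlamL
  have hP₁1 : 1 ≤ P₁ := Real.one_le_rpow hLl (by norm_num)
  have hP3 : lam * P₁ ^ 3 = Lt := by
    rw [hP₁, ← Real.rpow_natCast, ← Real.rpow_mul (by positivity)]
    norm_num
    field_simp
  have hZ2 : Z ≤ 2 * Z := by linarith
  have hsup : ∀ o ∈ O, ∀ n, b o n ≠ 0 → n ∈ S (2 * Z) := by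
    intro o ho n hn
    have h1 := (mem_S hZ0.le).1 (hbS o ho n hn)
    exact (mem_S (by positivity)).2 ⟨h1.1.trans hZ2, h1.2⟩
  have hIl0 : 0 < Il N lam Y := by unfold Il; positivity
  have hIlt0 : 0 < Il N Lt Y := by unfold Il; positivity
  have hnfL0 : 0 ≤ nfn lam (Il N lam Y) := hnfn.nonneg lam _ hlam0.le hIl0
  have hnfLT : nfn lam (Il N lam Y) ≤ nfn Lt (Il N Lt Y) := by
    have h1 := hnfn.mono lam Lt (N / Y) hlam0 hlamL (by positivity)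
    have e1 : N / Y * lam = Il N lam Y := by unfold Il; ring
    have e2 : N / Y * Lt = Il N Lt Y := by unfold Il; ring
    rwa [e1, e2] at h1
  have hw' : ∀ o ∈ O, ∀ x, w (x / Yq o) ≠ 0 → x ≤ cw * Y := by
    intro o ho x hx
    have hYq0 : 0 < Yq o := by have := (hYq o ho).1; linarith
    have h1 := hw _ hx
    rw [div_le_iff₀ hYq0] at h1
    exact h1.trans (mul_le_mul_of_nonneg_left (hYq o ho).2 hcw0.le)
  have hint : ∀ o ∈ O, Integrable fun t => jb A' t * ∑ κ ∈ KSa lam ka,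
        ‖StrQ χ w (Yq o) t (b o) κ (ρ o) (r₁ o) (cw * Y) P₁‖ ^ 2 := fun o ho =>
    integrable_StrQ hA'1 (hρ o ho).1 hcY0 (hw' o ho) _ _
  rw [← integral_finsetSum _ hint]
  set Bd : ℝ := C * (2 * Z) ^ ε * (Y * nfn Lt (Il N Lt Y) * ((lam / Lt) ^ (1 / 3 : ℝ) * W1))
    with hBd
  have hnfT0 : 0 ≤ nfn Lt (Il N Lt Y) := hnfL0.trans hnfLT
  have hBd0 : 0 ≤ Bd := by positivity
  have hpt : ∀ t : ℝ, ∑ o ∈ O, jb A' t * ∑ κ ∈ KSa lam ka,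
        ‖StrQ χ w (Yq o) t (b o) κ (ρ o) (r₁ o) (cw * Y) P₁‖ ^ 2 ≤ Bd * jb 2 t := by
    intro t
    rw [← Finset.mul_sum]
    have h1 := h (2 * Z) N Y Lt lam P₁ (by linarith) hN (by linarith) hY (by linarith) hlam hlamL
      (by linarith) hLN hP₁1 hP3.le ka 𝒯 (hOK.mono Z (2 * Z) N ka 𝒯 hZ2 hT) O b Yq r₁ hYq hsup hbW
      (fun o ho => ⟨(hr o ho).1, (hr o ho).2.trans hZ2⟩) W hW hWle W1 hW1 hW1le ρ
      (fun o ho => ⟨(hρ o ho).1, (hρ o ho).2.trans (by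
        have : 0 ≤ Z ^ 2 * (8 * Z - 2) := by
          have : 0 ≤ 8 * Z - 2 := by linarith
          positivity
        nlinarith)⟩) t
    have hj0 := (jb_pos A' t).le
    have hjb : jb A' t * (1 + |t|) ^ J ≤ jb 2 t := by
      have h1 : 1 ≤ 1 + |t| := by linarith [abs_nonneg t]
      unfold jb
      rw [← Real.rpow_natCast (1 + |t|) J, ← Real.rpow_add (by linarith)]
      exact Real.rpow_le_rpow_of_exponent_le h1 (by linarith)
    have h2 : C * (2 * Z) ^ ε * (1 + |t|) ^ J * (Y * nfn lam (Il N lam Y) *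
        ((lam / Lt) ^ (1 / 3 : ℝ) * W1)) ≤ C * (2 * Z) ^ ε * (1 + |t|) ^ J *
        (Y * nfn Lt (Il N Lt Y) * ((lam / Lt) ^ (1 / 3 : ℝ) * W1)) := by
      have ht0 : 0 ≤ (1 + |t|) ^ J := by positivity
      gcongr
    calc _ ≤ jb A' t * (C * (2 * Z) ^ ε * (1 + |t|) ^ J *
        (Y * nfn Lt (Il N Lt Y) * ((lam / Lt) ^ (1 / 3 : ℝ) * W1))) :=
          mul_le_mul_of_nonneg_left (h1.trans h2) hj0
      _ = Bd * (jb A' t * (1 + |t|) ^ J) := by rw [hBd]; ring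
      _ ≤ _ := mul_le_mul_of_nonneg_left hjb hBd0
  calc _ ≤ ∫ t, Bd * jb 2 t := by
        refine integral_mono_of_nonneg (Filter.Eventually.of_forall fun t => ?_)
          ((integrable_jb (by norm_num)).const_mul _) (Filter.Eventually.of_forall hpt)
        exact Finset.sum_nonneg fun o _ => mul_nonneg (jb_pos A' t).le
          (Finset.sum_nonneg fun _ _ => by positivity)
    _ = Bd * KJ := integral_const_mul _ _
    _ = _ := by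
        rw [hBd, Real.mul_rpow (by norm_num) hZ0.le]; ring

end Crest.Agent.R017.Mode405
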