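import Crest.Agent.R017.C70Defs_54

/-!
# Row 17, R8: the structured function times a squarefree frequency (helper828)

For `a` squarefree primary, `xa a α (a m) = α m` (`m` prime to `a`), `ca a α = α 1_{(·, a) = 1}`:

`sy k a * St J om (ca a α) k = St (Ja a J) (om ∘ psi a) (xa a α) k`

with `Ja a J = {(b δ, j / g) : (δ, j) ∈ J, (δ, a) = 1, g = (j, a), a = g b}`.
-/

set_option autoImplicit false

noncomputable section

open Finset
open scoped ComplexConjugate

namespace Crest.Agent.R017.StA828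

open Crest.Agent.R012 Crest.Agent.R012.Eis Crest.Agent.R012.Mob705 Crest.Agent.R012.Gauss880
open Crest.Agent.R017.CM106 Crest.Agent.R017.PX764 Crest.Agent.R017.C70

/-! ### the shifted sequence -/

open Classical in
/-- `xa a α (a m) = α m` for `m` prime to `a` -/
def xa (a : Eis) (α : Eis → ℂ) (n : Eis) : ℂ :=
  if a ∣ n ∧ IsCoprime a (n / a) then α (n / a) else 0

open Classical in
/-- the part of `α` prime to `a` -/
def ca (a : Eis) (α : Eis → ℂ) (n : Eis) : ℂ := if IsCoprime a n then α n else 0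

lemma xa_mul {a : Eis} (ha : a ≠ 0) (α : Eis → ℂ) (m : Eis) : xa a α (a * m) = ca a α m := by
  unfold xa ca
  rw [mul_div_cancel_left₀ _ ha]
  by_cases h : IsCoprime a m
  · rw [if_pos h, if_pos ⟨dvd_mul_right a m, h⟩]
  · rw [if_neg h, if_neg fun h' => h h'.2]

lemma xa_dvd {a : Eis} {α : Eis → ℂ} {n : Eis} (h : xa a α n ≠ 0) : a ∣ n := by
  classical
  unfold xa at h
  split_ifs at h with h1
  · exact h1.1
  · exact absurd rfl h

lemma ca_ne {a : Eis} {α : Eis → ℂ} {n : Eis} (h : ca a α n ≠ 0) :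
    IsCoprime a n ∧ α n ≠ 0 := by
  classical
  unfold ca at h
  split_ifs at h with h1
  · exact ⟨h1, h⟩
  · exact absurd rfl h

/-! ### primary gcd -/

/-- the primary gcd of a nonzero element and a primary element -/
lemma exists_gcd (l : Eis) {u : Eis} (hu : IsPrim u) :
    ∃ g l₁ u₁ : Eis, IsPrim g ∧ IsPrim u₁ ∧ l = g * l₁ ∧ u = g * u₁ ∧ IsCoprime l₁ u₁ ∧
      g = prim (EuclideanDomain.gcd l u) := by
  set g0 := EuclideanDomain.gcd l u with hg
  have hg1 : g0 ∣ l := EuclideanDomain.gcd_dvd_left _ _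
  have hg2 : g0 ∣ u := EuclideanDomain.gcd_dvd_right _ _
  have hgl : ¬ lam ∣ g0 := fun h => hu.not_lam_dvd (h.trans hg2)
  set e := prim g0 with he
  have hep : IsPrim e := prim_isPrim hgl
  have hass : Associated g0 e := prim_associated g0
  obtain ⟨k1, hk1⟩ : e ∣ l := hass.symm.dvd.trans hg1
  obtain ⟨k2, hk2⟩ : e ∣ u := hass.symm.dvd.trans hg2
  have hp2 : IsPrim k2 := IsPrim.of_mul_left (hk2 ▸ hu) hep
  refine ⟨e, k1, k2, hep, hp2, hk1, hk2, ?_, rfl⟩
  have hbez := EuclideanDomain.gcd_eq_gcd_ab l u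
  rw [← hg] at hbez
  obtain ⟨v, hv⟩ := hass
  refine ⟨v * EuclideanDomain.gcdA l u, v * EuclideanDomain.gcdB l u, ?_⟩
  apply mul_left_cancel₀ hep.ne_zero
  calc e * (v * EuclideanDomain.gcdA l u * k1 + v * EuclideanDomain.gcdB l u * k2)
      = v * (e * k1 * EuclideanDomain.gcdA l u + e * k2 * EuclideanDomain.gcdB l u) := by
        ring
    _ = v * (l * EuclideanDomain.gcdA l u + u * EuclideanDomain.gcdB l u) := by
        rw [← hk1, ← hk2]
    _ = e * 1 := by rw [← hbez, mul_comm, hv, mul_one]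

/-- uniqueness of the primary gcd -/
lemma gcd_unique {g l₁ u₁ g' l₁' u₁' : Eis} (hg : IsPrim g) (hg' : IsPrim g')
    (h1 : g * l₁ = g' * l₁') (h2 : g * u₁ = g' * u₁') (hc : IsCoprime l₁ u₁)
    (hc' : IsCoprime l₁' u₁') : g = g' := by
  have d1 : g ∣ g' := by
    obtain ⟨a, b, hab⟩ := hc'
    refine ⟨a * l₁ + b * u₁, ?_⟩
    linear_combination (-a) * h1 - b * h2 - g' * hab
  have d2 : g' ∣ g := by
    obtain ⟨a, b, hab⟩ := hc
    refine ⟨a * l₁' + b * u₁', ?_⟩
    linear_combination a * h1 + b * h2 - g * hab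
  exact hg.eq_of_associated hg' (associated_of_dvd_dvd d1 d2)

/-- the primary gcd -/
def gp (l u : Eis) : Eis := prim (EuclideanDomain.gcd l u)

lemma gp_spec (l : Eis) {u : Eis} (hu : IsPrim u) :
    IsPrim (gp l u) ∧ IsPrim (u / gp l u) ∧ l = gp l u * (l / gp l u) ∧
      u = gp l u * (u / gp l u) ∧ IsCoprime (l / gp l u) (u / gp l u) := by
  obtain ⟨g, l₁, u₁, hg, hu₁, hl, huu, hc, hgp⟩ := exists_gcd l hu
  have e : gp l u = g := hgp.symm
  have e1 : l / g = l₁ := by rw [hl, mul_div_cancel_left₀ _ hg.ne_zero]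
  have e2 : u / g = u₁ := by rw [huu, mul_div_cancel_left₀ _ hg.ne_zero]
  rw [e, e1, e2]
  exact ⟨hg, hu₁, hl, huu, hc⟩

lemma gp_eq {l u g l₁ u₁ : Eis} (hu : IsPrim u) (hg : IsPrim g) (hl : l = g * l₁)
    (huu : u = g * u₁) (hc : IsCoprime l₁ u₁) : gp l u = g := by
  obtain ⟨h1, h2, h3, h4, h5⟩ := gp_spec l hu
  exact gcd_unique h1 hg (h3.symm.trans hl) (h4.symm.trans huu) h5 hc

/-! ### the identity for one index -/

/-- a primary prime dividing both -/
lemma exists_common {g j : Eis} (hg : IsPrim g) (h : ¬ IsCoprime j g) :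
    ∃ p, IsPP p ∧ p ∣ g ∧ p ∣ j := by
  obtain ⟨e, j₁, g₁, he, _, hj, hgg, hc, -⟩ := exists_gcd j hg
  have he1 : e ≠ 1 := by
    rintro rfl
    rw [one_mul] at hj hgg
    exact h (hj ▸ hgg ▸ hc)
  obtain ⟨p, hp, hpe⟩ := exists_pp_dvd_of_isPrim he he1
  exact ⟨p, hp, hgg ▸ hpe.mul_right _, hj ▸ hpe.mul_right _⟩

lemma th_eq_zero {g j k : Eis} (hg : IsPrim g) (hs : Squarefree g) (hkg : IsCoprime k g)
    (hjg : ¬ IsCoprime j g) (hcf : ∀ p, Prime p → IsPrim p → ¬ p ^ 3 ∣ g * j) :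
    th (g * j * k) = 0 := by
  obtain ⟨p, hp, ⟨g', hg'⟩, ⟨j', hj'⟩⟩ := exists_common hg hjg
  have h1 : ¬ p ∣ g' := by
    rintro ⟨s, rfl⟩
    exact hp.prime.not_isUnit (hs p ⟨s, by rw [hg']; ring⟩)
  have h2 : ¬ p ∣ j' := by
    rintro ⟨s, rfl⟩
    exact hcf p hp.prime hp.isPrim ⟨g' * s, by rw [hg', hj']; ring⟩
  have h3 : ¬ p ∣ k := by
    intro h
    rw [hg'] at hkg
    exact hp.prime.not_isUnit (hkg.isUnit_of_dvd' h (dvd_mul_right p g'))
  have e : g * j * k = (g' * j' * k) * p ^ 2 := by rw [hg', hj']; ring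
  rw [e]
  refine th_two hp.prime hp.isPrim ?_
  intro h
  rcases hp.prime.dvd_or_dvd h with h | h
  · rcases hp.prime.dvd_or_dvd h with h | h
    · exact h1 h
    · exact h2 h
  · exact h3 h

lemma Tj_xa {g b j δ k : Eis} (hg : IsPrim g) (hb : IsPrim b)
    (hδg : IsCoprime δ g) (α : Eis → ℂ) :
    Tj (xa (g * b) α) (b * δ) j k = ∑' m : Eis, (open Classical in
      if IsCoprime k (b * δ * (g * m)) ∧ IsCoprime j (b * δ * (g * m)) then
        ca (g * b) α (δ * m) * ((n6 (g * m) : ℂ) * Gh j (g * m)) else 0) := by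
  classical
  unfold Tj
  set F : Eis → ℂ := fun m => if IsCoprime k (b * δ * m) ∧ IsCoprime j (b * δ * m) then
    xa (g * b) α (b * δ * m) * ((n6 m : ℂ) * Gh j m) else 0 with hF
  have h1 : ∀ m, F m = if g ∣ m then F m else 0 := by
    intro m
    split_ifs with h
    · rfl
    · rw [hF]
      simp only
      split_ifs with h2
      · have h3 : xa (g * b) α (b * δ * m) = 0 := by
          by_contra h4
          have h5 := xa_dvd h4
          have h6 : g ∣ δ * m := by
            have h7 : b * g ∣ b * (δ * m) := by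
              rw [mul_comm b g, ← mul_assoc b δ m]; exact h5
            exact (mul_dvd_mul_iff_left hb.ne_zero).1 h7
          exact h (hδg.symm.dvd_of_dvd_mul_left h6)
        rw [h3, zero_mul]
      · rfl
  have h2 : ∑' m, F m = ∑' m, F (g * m) := by
    rw [tsum_mult hg.ne_zero F]
    exact tsum_congr h1
  rw [h2]
  refine tsum_congr fun m => ?_
  rw [hF]
  simp only
  have e : b * δ * (g * m) = g * b * (δ * m) := by ring
  have hgb : g * b ≠ 0 := mul_ne_zero hg.ne_zero hb.ne_zero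
  congr 1
  rw [e, xa_mul hgb]

/-- **the identity for one index** -/
theorem term_eq {g b j δ k : Eis} (hg : IsPrim g) (hb : IsPrim b) (hs : Squarefree (g * b))
    (hjb : IsCoprime j b) (hδ : IsPrim δ) (hδa : IsCoprime δ (g * b))
    (hcf : ∀ p, Prime p → IsPrim p → ¬ p ^ 3 ∣ g * j) {α : Eis → ℂ}
    (hα : ∀ n, α n ≠ 0 → IsPrim n) :
    sy k (g * b) * (sy k δ * conj (th (g * j * k)) * Tj (ca (g * b) α) δ (g * j) k) =
      sy k (b * δ) * conj (th (j * k)) * Tj (xa (g * b) α) (b * δ) j k := by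
  classical
  have hgb : IsPrim (g * b) := hg.mul hb
  have hδg : IsCoprime δ g := hδa.of_mul_right_left
  have hsg : Squarefree g := hs.of_mul_left
  by_cases hk : IsCoprime k (g * b)
  swap
  · -- `k` not prime to `a`
    rw [(syG.eq_zero k (g * b) hgb).2 hk, zero_mul]
    by_cases hkb : IsCoprime k b
    · have hkg : ¬ IsCoprime k g := fun h => hk (h.mul_right hkb)
      have h0 : Tj (xa (g * b) α) (b * δ) j k = 0 := by
        rw [Tj_xa hg hb hδg]
        refine (tsum_congr fun m => ?_).trans tsum_zero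
        rw [if_neg]
        intro h
        exact hkg h.1.of_mul_right_right.of_mul_right_left
      rw [h0, mul_zero]
    · have h0 : sy k (b * δ) = 0 :=
        (syG.eq_zero k (b * δ) (hb.mul hδ)).2 fun h => hkb h.of_mul_right_left
      rw [h0]; ring
  have hkg : IsCoprime k g := hk.of_mul_right_left
  have hkb : IsCoprime k b := hk.of_mul_right_right
  by_cases hjg : IsCoprime j g
  swap
  · -- `j` not prime to `g`
    rw [th_eq_zero hg hsg hkg hjg hcf]
    have h0 : Tj (xa (g * b) α) (b * δ) j k = 0 := by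
      rw [Tj_xa hg hb hδg]
      refine (tsum_congr fun m => ?_).trans tsum_zero
      rw [if_neg]
      intro h
      exact hjg h.2.of_mul_right_right.of_mul_right_left
    rw [h0]; simp
  -- main case
  have hjk : IsCoprime (j * k) g := hjg.mul_left hkg
  have eth : th (g * j * k) = conj (Gh (j * k) g) * (n6 g : ℂ) * th (j * k) := by
    rw [show g * j * k = (j * k) * g by ring]
    exact th_mul hg hsg hjk
  have eG : sy k g * Gh (j * k) g = Gh j g := by
    unfold Gh
    rw [syG.mul_left j k g hg, map_mul]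
    have h1 : sy k g * conj (sy k g) = 1 := by
      rw [Complex.mul_conj, Complex.normSq_eq_norm_sq, norm_sy_one hg hkg]; simp
    linear_combination (G g * conj (sy j g)) * h1
  have eT : Tj (xa (g * b) α) (b * δ) j k =
      ((n6 g : ℂ) * Gh j g) * Tj (ca (g * b) α) δ (g * j) k := by
    rw [Tj_xa hg hb hδg]
    unfold Tj
    rw [← tsum_mul_left]
    refine tsum_congr fun m => ?_
    by_cases hc : ca (g * b) α (δ * m) = 0
    · rw [hc]; simp
    obtain ⟨h1, h2⟩ := ca_ne hc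
    have hm : IsPrim m := (hα _ h2).of_mul_left hδ
    have hiff : (IsCoprime k (b * δ * (g * m)) ∧ IsCoprime j (b * δ * (g * m))) ↔
        (IsCoprime k (δ * m) ∧ IsCoprime (g * j) (δ * m)) := by
      rw [show b * δ * (g * m) = (g * b) * (δ * m) by ring]
      constructor
      · rintro ⟨h3, h4⟩
        exact ⟨h3.of_mul_right_right, h1.of_mul_left_left.mul_left h4.of_mul_right_right⟩
      · rintro ⟨h3, h4⟩
        exact ⟨hk.mul_right h3, (hjg.mul_right hjb).mul_right h4.of_mul_left_right⟩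
    by_cases h5 : IsCoprime k (δ * m) ∧ IsCoprime (g * j) (δ * m)
    · rw [if_pos h5, if_pos (hiff.2 h5), n6_mul, Gh_mul hg hm, mul_comm j g]
      push_cast
      ring
    · rw [if_neg h5, if_neg (fun h => h5 (hiff.1 h)), mul_zero]
  have hsy1 : sy k (g * b) = sy k g * sy k b :=
    Sym645.sy_mul_right k hg.ne_zero hb.ne_zero
  have hsy2 : sy k (b * δ) = sy k b * sy k δ :=
    Sym645.sy_mul_right k hb.ne_zero hδ.ne_zero
  rw [eT, eth, hsy1, hsy2]
  simp only [map_mul, Complex.conj_conj, Complex.conj_ofReal]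
  linear_combination (sy k b * sy k δ * (n6 g : ℂ) * conj (th (j * k)) *
    Tj (ca (g * b) α) δ (g * j) k) * eG

/-! ### the index sets -/

/-- the index map `(δ, j) ↦ (b δ, j / g)`, `g = (j, a)`, `a = g b` -/
def phi (a : Eis) (x : Eis × Eis) : Eis × Eis := (a / gp x.2 a * x.1, x.2 / gp x.2 a)

/-- its inverse -/
def psi (a : Eis) (y : Eis × Eis) : Eis × Eis := (y.1 / gp y.1 a, a / gp y.1 a * y.2)

open Classical in
/-- the shifted index set -/
def Ja (a : Eis) (J : Finset (Eis × Eis)) : Finset (Eis × Eis) :=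
  (J.filter fun x => IsCoprime x.1 a).image (phi a)

lemma div_div_self' {a g b : Eis} (_ : IsPrim g) (hb : IsPrim b) (h : a = g * b) :
    a / b = g := by
  rw [h, mul_comm, mul_div_cancel_left₀ _ hb.ne_zero]

lemma psi_phi {a : Eis} (ha : IsPrim a) {x : Eis × Eis} (hx : IsPrim x.1)
    (hc : IsCoprime x.1 a) : psi a (phi a x) = x := by
  obtain ⟨h1, h2, h3, h4, h5⟩ := gp_spec x.2 ha
  have e1 : gp (a / gp x.2 a * x.1) a = a / gp x.2 a :=
    gp_eq ha h2 (g := a / gp x.2 a) (l₁ := x.1) (u₁ := gp x.2 a) rfl (by rw [mul_comm]; exact h4)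
      (IsCoprime.of_isCoprime_of_dvd_right hc ⟨_, h4⟩)
  have e2 : a / (a / gp x.2 a) = gp x.2 a := div_div_self' h1 h2 h4
  unfold psi phi
  simp only
  rw [e1, mul_div_cancel_left₀ _ h2.ne_zero, e2, ← h3]

/-- the size of the shifted index -/
lemma nm_phi {a : Eis} (ha : IsPrim a) (x : Eis × Eis) :
    nm ((phi a x).2 * (phi a x).1 ^ 2) * nm (gp x.2 a) =
      nm (x.2 * x.1 ^ 2) * nm (a / gp x.2 a) ^ 2 := by
  obtain ⟨h1, h2, h3, h4, h5⟩ := gp_spec x.2 ha
  have e : (phi a x).2 * (phi a x).1 ^ 2 * gp x.2 a = x.2 * x.1 ^ 2 * (a / gp x.2 a) ^ 2 := by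
    show x.2 / gp x.2 a * (a / gp x.2 a * x.1) ^ 2 * gp x.2 a = x.2 * x.1 ^ 2 * _
    have h6 : x.2 / gp x.2 a * gp x.2 a = x.2 := by rw [mul_comm]; exact h3.symm
    linear_combination ((a / gp x.2 a) ^ 2 * x.1 ^ 2) * h6
  rw [← nm_mul, e, nm_mul, nm_pow]

lemma JC_ne_zero {j : Eis} (h : JC j) : j ≠ 0 := by
  obtain ⟨c, hc, j', hj', hcf, rfl⟩ := h
  refine mul_ne_zero ?_ hj'.ne_zero
  have h3 : (3 : Eis) ≠ 0 := three_ne_zero'
  rcases hc with rfl | rfl | rfl | rfl
  · exact one_ne_zero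
  · exact h3
  · exact mul_ne_zero h3 isUnit_w.ne_zero
  · exact mul_ne_zero h3 (pow_ne_zero 2 isUnit_w.ne_zero)

lemma cop_c {c p : Eis} (hc : c = 1 ∨ c = 3 ∨ c = 3 * w ∨ c = 3 * w ^ 2) (hp : IsPrim p) :
    IsCoprime p c := by
  have h3 : IsCoprime p (3 : Eis) := hp.isCoprime_three
  have hu : ∀ u : Eis, IsUnit u → IsCoprime p u := fun u hu => (isCoprime_of_isUnit hu p).symm
  rcases hc with rfl | rfl | rfl | rfl
  · exact isCoprime_one_right
  · exact h3
  · exact h3.mul_right (hu w isUnit_w)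
  · exact h3.mul_right (hu (w ^ 2) (isUnit_w.pow 2))

lemma JC_cbf {j p : Eis} (h : JC j) (hp : Prime p) (hpp : IsPrim p) : ¬ p ^ 3 ∣ j := by
  obtain ⟨c, hc, j', hj', hcf, rfl⟩ := h
  intro hd
  exact hcf p hp (((cop_c hc hpp).pow_left (m := 3)).dvd_of_dvd_mul_left hd)

lemma JC_div {g j : Eis} (hg : IsPrim g) (h : JC (g * j)) : JC j := by
  obtain ⟨c, hc, j', hj', hcf, e⟩ := h
  have hgc : IsCoprime g c := cop_c hc hg
  have hd : g ∣ j' := hgc.dvd_of_dvd_mul_left ⟨j, e.symm⟩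
  obtain ⟨j'', rfl⟩ := hd
  refine ⟨c, hc, j'', hj'.of_mul_left hg, fun p hp h3 => hcf p hp (h3.mul_left g), ?_⟩
  apply mul_left_cancel₀ hg.ne_zero
  rw [e]; ring

open Classical in
lemma okJ_Ja {a : Eis} (ha : IsPrim a) (hs : Squarefree a) {J : Finset (Eis × Eis)}
    (hJ : OKJ J) : OKJ (Ja a J) := by
  have key : ∀ y ∈ Ja a J, IsPrim y.1 ∧ Squarefree y.1 ∧ JC y.2 := by
    intro y hy
    unfold Ja at hy
    obtain ⟨x, hx, rfl⟩ := mem_image.1 hy
    obtain ⟨hxJ, hxc⟩ := mem_filter.1 hx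
    obtain ⟨h1, h2, h3, h4, h5⟩ := gp_spec x.2 ha
    have hb : IsCoprime x.1 (a / gp x.2 a) :=
      IsCoprime.of_isCoprime_of_dvd_right hxc ⟨gp x.2 a, by rw [mul_comm]; exact h4⟩
    refine ⟨h2.mul (hJ.prim x hxJ), ?_, ?_⟩
    · refine (sqf_mul hb.symm).2 ⟨?_, hJ.sqf x hxJ⟩
      rw [h4] at hs
      exact hs.of_mul_right
    · refine JC_div h1 ?_
      show JC (gp x.2 a * (x.2 / gp x.2 a))
      rw [← h3]
      exact hJ.jc x hxJ
  exact ⟨fun y hy => (key y hy).1, fun y hy => (key y hy).2.1, fun y hy => (key y hy).2.2⟩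

open Classical in
lemma Tj_ca_zero {a δ j k : Eis} {α : Eis → ℂ} (h : ¬ IsCoprime δ a) :
    Tj (ca a α) δ j k = 0 := by
  unfold Tj
  refine (tsum_congr fun m => ?_).trans tsum_zero
  by_cases hc : ca a α (δ * m) = 0
  · rw [hc]; simp
  · exact absurd (ca_ne hc).1.of_mul_right_left.symm h

open Classical in
/-- **the structured function times a squarefree frequency**. -/
theorem sy_mul_St {a : Eis} (ha : IsPrim a) (hs : Squarefree a) {J : Finset (Eis × Eis)}
    (hJ : OKJ J) (om : Eis × Eis → ℂ) {α : Eis → ℂ} (hα : ∀ n, α n ≠ 0 → IsPrim n) (k : Eis) :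
    sy k a * St J om (ca a α) k = St (Ja a J) (fun y => om (psi a y)) (xa a α) k := by
  unfold St Ja
  rw [sum_image]
  · rw [sum_filter, mul_sum]
    refine sum_congr rfl fun x hx => ?_
    split_ifs with hc
    · obtain ⟨h1, h2, h3, h4, h5⟩ := gp_spec x.2 ha
      have hpp := psi_phi ha (hJ.prim x hx) hc
      simp only [hpp]
      have hs' : Squarefree (gp x.2 a * (a / gp x.2 a)) := h4 ▸ hs
      have hc' : IsCoprime x.1 (gp x.2 a * (a / gp x.2 a)) := h4 ▸ hc
      have key := term_eq (g := gp x.2 a) (b := a / gp x.2 a) (j := x.2 / gp x.2 a) (δ := x.1)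
        (k := k) h1 h2 hs' h5 (hJ.prim x hx) hc'
        (fun p hp hpp => by rw [← h3]; exact JC_cbf (hJ.jc x hx) hp hpp) hα
      rw [← h3, ← h4] at key
      show sy k a * (om x * (sy k x.1 * conj (th (x.2 * k)) * Tj (ca a α) x.1 x.2 k)) =
        om x * (sy k (a / gp x.2 a * x.1) * conj (th (x.2 / gp x.2 a * k)) *
          Tj (xa a α) (a / gp x.2 a * x.1) (x.2 / gp x.2 a) k)
      rw [← key]
      ring
    · rw [Tj_ca_zero hc]; ring
  · intro x hx y hy hxy
    simp only [coe_filter, Set.mem_setOf_eq] at hx hy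
    rw [← psi_phi ha (hJ.prim x hx.1) hx.2, ← psi_phi ha (hJ.prim y hy.1) hy.2, hxy]

end Crest.Agent.R017.StA828
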