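import Crest.Agent.R017.PoH20_347
import Crest.Agent.R017.MpsE_347
import Crest.Agent.R017.PoHB_405
import Crest.Agent.R017.StA_828

/-!
# Row 17: the structured bound with a Hecke character, all kernels (helper347)

* `EQ_tw`, `VI_tw` : the twist by `conj (k/·)` is a change of the frequency
* `XS_tw` : the part of the kernel with primes of `M` goes into the character
* **`pohs_wHa`** : `pohs_wH` for every `ka`
* **`pohwp_H`** : `PoHWp OK3 nfo (prime to M) (ps χ l₀) (ps χ l₀) w`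
-/

set_option autoImplicit false

noncomputable section

open Complex MeasureTheory
open scoped ComplexConjugate Classical ContDiff

namespace Crest.Agent.R017.PoH347

open Crest.Agent.R012 Crest.Agent.R012.Eis Crest.Agent.R012.MC
open Crest.Agent.R012.LS2 (S mem_S bl mem_bl)
open Crest.Agent.R012.Mob705 (mu pdiv mem_pdiv)
open Crest.Agent.R012.Weight600 (osc pw norm_osc)
open Crest.Agent.R012.NonCube52 (Ker kv Good)
open Crest.Agent.R017.CM106 (CS TG)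
open Crest.Agent.R017.E1551 (nmpos jb nm_ge_one)
open Crest.Agent.R017.BD829
open Crest.Agent.R017.End699 (HC)
open Crest.Agent.R017.Mode405 (Slp Il VI XS Mul1 Tst TV OK3 KSa_sub TV_three)
open Crest.Agent.R017.Mps347 (PoHWp)
open Gauss880 (syG)

/-- the twist by `conj (k/·)` is a change of the frequency -/
lemma EQ_tw (A : ℝ) (c : ℂ) {u : Eis → ℂ} (hu : ∀ m, u m ≠ 0 → IsPrim m) (k H : Eis) :
    EQ A (fun m => c * (u m * conj (sy k m))) H = ‖c‖ ^ 2 * EQ A u (k * H) := by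
  have h1 : ∀ t, TT (fun m => c * (u m * conj (sy k m))) H t = c * TT u (k * H) t := by
    intro t
    unfold TT TG
    rw [← tsum_mul_left]
    refine tsum_congr fun m => ?_
    beta_reduce
    by_cases hm : u m = 0
    · rw [hm]; ring
    · rw [syG.mul_left k H m (hu m hm), map_mul]
      ring
  unfold EQ
  rw [← integral_const_mul]
  refine integral_congr_ae (Filter.Eventually.of_forall fun t => ?_)
  beta_reduce
  rw [h1, norm_mul, mul_pow]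
  ring

lemma VI_tw (A : ℝ) {b : Eis → ℂ} (hb : ∀ n, b n ≠ 0 → IsPrim n) (ψ : Eis → ℂ) (k : Eis) {γ : Eis}
    (hγ : IsPrim γ) (φ : Eis) (P : ℝ) :
    VI A (fun m => b m * (ψ m * conj (sy k m))) γ φ 1 P ≤
      VI A (fun m => b m * ψ m) γ (k * φ) 1 P := by
  unfold Mode405.VI
  refine Finset.sum_le_sum fun j _ => ?_
  have e1 : (fun m : Eis => if IsCoprime m 1 then b (γ * m) * (ψ (γ * m) * conj (sy k (γ * m)))
      else 0) = fun m => conj (sy k γ) * ((if IsCoprime m 1 then b (γ * m) * ψ (γ * m) else 0) *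
        conj (sy k m)) := by
    funext m
    rw [if_pos isCoprime_one_right, if_pos isCoprime_one_right]
    by_cases h0 : b (γ * m) = 0
    · rw [h0]; ring
    · have hm : IsPrim m := IsPrim.of_mul_left (hb _ h0) hγ
      rw [syG.mul_right _ _ _ hγ hm, map_mul]
      ring
  have e2 : j * (k * φ) = k * (j * φ) := by ring
  rw [e1, EQ_tw A _ (fun m hm => ?_), e2]
  · have h1 : ‖conj (sy k γ)‖ ^ 2 ≤ 1 := by
      rw [RCLike.norm_conj]
      exact pow_le_one₀ (norm_nonneg _) (Gauss880.norm_sy_le syG hγ)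
    exact mul_le_of_le_one_left (EQ_nonneg _ _ _) h1
  · split_ifs at hm with hc
    · exact IsPrim.of_mul_left (hb _ (left_ne_zero_of_mul hm)) hγ
    · exact absurd rfl hm

/-- dilation of the scale -/
lemma slp_dil {a : ℕ} {W : ℝ → ℝ} (hs : Slp a W) {s : ℝ} (hs0 : 0 < s) :
    Slp a (fun P => W (s * P)) where
  nonneg P hP := hs.nonneg _ (by positivity)
  low P' P hP' h := by
    have h1 := hs.low (s * P') (s * P) (by positivity) (mul_le_mul_of_nonneg_left h hs0.le)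
    have e1 : s * P' / (s * P) = P' / P := mul_div_mul_left _ _ hs0.ne'
    rw [e1] at h1
    exact h1
  dbl P hP := by
    have h1 := hs.dbl (s * P) (by positivity)
    have e1 : s * (2 * P) = 2 * (s * P) := by ring
    rw [e1]
    exact h1

/-- the part of a primary element with primes of `M` -/
def pM (M k : Eis) : Eis := StA828.gp M k

lemma pM_spec {M k : Eis} (hM : M ≠ 0) (hk : IsPrim k) (hs : Squarefree k) :
    pM M k ∈ pdiv M ∧ IsPrim (k / pM M k) ∧ k = pM M k * (k / pM M k) ∧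
      IsCoprime (k / pM M k) M ∧ IsPrim (pM M k) := by
  obtain ⟨h1, h2, h3, h4, h5⟩ := StA828.gp_spec M hk
  unfold pM
  set g := StA828.gp M k with hg
  refine ⟨(mem_pdiv hM).mpr ⟨h1, ⟨_, h3⟩⟩, h2, h4, ?_, h1⟩
  have h6 : IsCoprime g (k / g) := by
    rw [h4] at hs
    exact isRelPrime_iff_isCoprime.mp (squarefree_mul_iff.mp hs).1
  rw [h3]
  exact h6.symm.mul_right h5.symm

/-- the kernel without its primes of `M` -/
def kM (M : Eis) (κ : Ker) : Ker := (κ.1, (κ.2.1 / pM M κ.2.1, κ.2.2 / pM M κ.2.2))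

/-- the two parts of the kernel with primes of `M` -/
def dM (M : Eis) (κ : Ker) : Eis × Eis := (pM M κ.2.1, pM M κ.2.2)

lemma kv_kM {M : Eis} (hM : M ≠ 0) {κ : Ker} (hκ : Good κ) :
    kv κ = kv (kM M κ) * ((dM M κ).1 * (dM M κ).2 ^ 2) := by
  obtain ⟨-, -, h1, -, -⟩ := pM_spec hM hκ.prim1 hκ.sqf1
  obtain ⟨-, -, h2, -, -⟩ := pM_spec hM hκ.prim2 hκ.sqf2
  unfold NonCube52.kv kM dM
  dsimp only
  conv_lhs => rw [h1, h2]
  ring

lemma kM_mem {M : Eis} (hM : M ≠ 0) {ka : Eis} {lam : ℝ} {κ : Ker} (hκ : κ ∈ KSa ka lam) {y : Eis}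
    (hy : ∀ x : Eis, IsCoprime x M → IsCoprime x y) : kM M κ ∈ KSa (ka * y) lam := by
  unfold KSa at hκ ⊢
  rw [Finset.mem_filter, Mode405.mem_KS] at hκ ⊢
  obtain ⟨⟨hg, hn⟩, hc⟩ := hκ
  obtain ⟨-, p1, h1, c1, q1⟩ := pM_spec hM hg.prim1 hg.sqf1
  obtain ⟨-, p2, h2, c2, q2⟩ := pM_spec hM hg.prim2 hg.sqf2
  have d1 : κ.2.1 / pM M κ.2.1 ∣ κ.2.1 := ⟨pM M κ.2.1, by rw [mul_comm]; exact h1⟩
  have d2 : κ.2.2 / pM M κ.2.2 ∣ κ.2.2 := ⟨pM M κ.2.2, by rw [mul_comm]; exact h2⟩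
  refine ⟨⟨⟨hg.hi, hg.hj, p1, p2, hg.sqf1.squarefree_of_dvd d1, hg.sqf2.squarefree_of_dvd d2,
    ?_⟩, ?_⟩, ?_⟩
  · exact (hg.cop.of_isCoprime_of_dvd_left d1).of_isCoprime_of_dvd_right d2
  · refine le_trans ?_ hn
    have h3 := kv_kM hM hg
    have h4 : kv κ ≠ 0 := NonCube52.kv_ne_zero hg
    exact_mod_cast Div277.nm_le_of_dvd h4 ⟨_, h3⟩
  · have e1 : IsCoprime (κ.2.1 / pM M κ.2.1 * (κ.2.2 / pM M κ.2.2)) ka :=
      hc.of_isCoprime_of_dvd_left (mul_dvd_mul d1 d2)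
    exact e1.mul_right (hy _ (c1.mul_left c2))

lemma kM_inj {M : Eis} (hM : M ≠ 0) {κ κ' : Ker} (hκ : Good κ) (hκ' : Good κ')
    (h1 : dM M κ = dM M κ') (h2 : kM M κ = kM M κ') : κ = κ' := by
  obtain ⟨-, -, a1, -, -⟩ := pM_spec hM hκ.prim1 hκ.sqf1
  obtain ⟨-, -, a2, -, -⟩ := pM_spec hM hκ.prim2 hκ.sqf2
  obtain ⟨-, -, b1, -, -⟩ := pM_spec hM hκ'.prim1 hκ'.sqf1
  obtain ⟨-, -, b2, -, -⟩ := pM_spec hM hκ'.prim2 hκ'.sqf2
  unfold dM at h1
  unfold kM at h2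
  obtain ⟨c1, c2⟩ := Prod.mk.inj h1
  obtain ⟨c3, c4⟩ := Prod.mk.inj h2
  obtain ⟨c5, c6⟩ := Prod.mk.inj c4
  refine Prod.ext c3 (Prod.ext ?_ ?_)
  · calc κ.2.1 = pM M κ.2.1 * (κ.2.1 / pM M κ.2.1) := a1
      _ = pM M κ'.2.1 * (κ'.2.1 / pM M κ'.2.1) := by rw [c5, c1]
      _ = _ := b1.symm
  · calc κ.2.2 = pM M κ.2.2 * (κ.2.2 / pM M κ.2.2) := a2
      _ = pM M κ'.2.2 * (κ'.2.2 / pM M κ'.2.2) := by rw [c6, c2]
      _ = _ := b2.symm

/-- the part of the kernel with primes of `M` goes into the character -/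
lemma XS_tw {M : Eis} (hM : M ≠ 0) (χ : Eis → ℂ) (l₀ : ℤ) (w : ℝ → ℝ) (X t : ℝ) (b : Eis → ℂ)
    {κ : Ker} (hκ : Good κ) :
    XS (BDh681.ps χ l₀) w X t b κ =
      XS (BDh681.ps (chs χ ((dM M κ).1 * (dM M κ).2 ^ 2)) l₀) w X t b (kM M κ) := by
  unfold Mode405.XS
  refine tsum_congr fun x => ?_
  by_cases hx : IsPrim x
  swap
  · rw [if_neg hx, if_neg hx]
  rw [if_pos hx, if_pos hx, kv_kM hM hκ, syG.mul_left _ _ x hx, map_mul]
  unfold BDh681.ps chs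
  ring

/-- **the structured bound with a Hecke character, all kernels** -/
theorem pohs_wHa {M : Eis} {χ : Eis → ℂ} (hχ : HC M χ) (l₀ : ℤ)
    {w₀ : ℝ → ℝ} (hw : Wgt w₀) {R : ℝ} (hR : 0 ≤ R) {a A : ℕ} (hA : 1 < A) {ε : ℝ} (hε : 0 < ε) :
    ∃ (C c : ℝ) (J : ℕ), 0 ≤ C ∧ 1 ≤ c ∧
    ∀ Z N X lam : ℝ, 1 ≤ Z → 0 < N → N ≤ Z → 0 < X → 1 ≤ X * Z → 1 ≤ lam → lam ≤ Z →
      lam * Real.exp R < N →
    ∀ {ι : Type} (Q : Finset ι) (b : ι → Eis → ℂ) (Xq : ι → ℝ),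
      (∀ q ∈ Q, X / 64 ≤ Xq q ∧ Xq q ≤ X) →
      (∀ q ∈ Q, ∀ n, b q n ≠ 0 → n ∈ S Z) → (∀ q ∈ Q, ∀ n, b q n ≠ 0 → IsCoprime n M) →
      (∀ q ∈ Q, Win (b q) (Real.log N) R) →
    ∀ W : ℝ → ℝ, Slp a W → ∀ (ka : Eis),
      HW A (N ^ 2) Q (fun q m => b q m * BDh681.ps χ l₀ m) ka W →
    ∀ W1 : ℝ, W (c * Il N lam X) ≤ W1 →
    ∀ t : ℝ, ∑ q ∈ Q, ∑ κ ∈ KSa ka lam, ‖XS (BDh681.ps χ l₀) w₀ (Xq q) t (b q) κ‖ ^ 2 ≤
      C * Z ^ ε * (1 + |t|) ^ J * (X * nfo lam (Il N lam X) * W1) := by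
  have hM := hχ.q0
  set T : Finset (Eis × Eis) := pdiv M ×ˢ pdiv M with hT
  set kk : Eis × Eis → Eis := fun d => d.1 * d.2 ^ 2 with hkk
  have hkT : ∀ d ∈ T, IsPrim (kk d) ∧ kk d ∣ M ^ 3 := by
    intro d hd
    rw [hT, Finset.mem_product, mem_pdiv hM, mem_pdiv hM] at hd
    refine ⟨hd.1.1.mul (hd.2.1.pow 2), ?_⟩
    have : M ^ 3 = M * M ^ 2 := by ring
    rw [this]
    exact mul_dvd_mul hd.1.2 (pow_dvd_pow_of_dvd hd.2.2 2)
  have H := fun (d : Eis × Eis) (hd : d ∈ T) =>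
    pohs_wH (HC_chs hχ (hkT d hd).1.ne_zero) l₀ hw hR (a := a) hA hε
  choose! Cd cd Jd h0 h1 hmain using H
  have hk1 : ∀ d ∈ T, (1 : ℝ) ≤ nm (kk d) := fun d hd => nm_ge_one (hkT d hd).1.ne_zero
  refine ⟨∑ d ∈ T, Cd d, 1 + ∑ d ∈ T, cd d * nm (kk d), ∑ d ∈ T, Jd d,
    Finset.sum_nonneg h0, ?_, ?_⟩
  · have : 0 ≤ ∑ d ∈ T, cd d * nm (kk d) := Finset.sum_nonneg fun d hd => by
      have := h1 d hd
      have := hk1 d hd
      positivity
    linarith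
  intro Z N X lam hZ hN hNZ hX hXZ hlam hlamZ hlamN ι Q b Xq hXq hb hbM hwb W hW ka hHW W1 hW1 t
  have hZ0 : 0 < Z := by linarith
  have hI : 0 < Il N lam X := by unfold Il; positivity
  have ht1 : 1 ≤ 1 + |t| := by linarith [abs_nonneg t]
  have hnf0 : 0 ≤ nfo lam (Il N lam X) := nfo_nonneg (by linarith) hI.le
  set y : Eis := M * (9 * M ^ 3) with hy
  have hyc : ∀ x : Eis, IsCoprime x M → IsCoprime x y := by
    intro x hx
    have h3 : IsCoprime x 3 := hx.of_isCoprime_of_dvd_right hχ.three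
    have e9 : (9 : Eis) = 3 * 3 := by norm_num
    rw [hy, e9]
    exact hx.mul_right ((h3.mul_right h3).mul_right hx.pow_right)
  -- one part
  have hone : ∀ d ∈ T, ∑ q ∈ Q, ∑ κ ∈ KSa (ka * y) lam,
      ‖XS (BDh681.ps (chs χ (kk d)) l₀) w₀ (Xq q) t (b q) κ‖ ^ 2 ≤
      Cd d * Z ^ ε * (1 + |t|) ^ Jd d * (X * nfo lam (Il N lam X) * W1) := by
    intro d hd
    obtain ⟨hkp, hkd⟩ := hkT d hd
    have hkn := nmpos hkp.ne_zero
    refine hmain d hd Z N X lam hZ hN hNZ hX hXZ hlam hlamZ hlamN Q b Xq hXq hb ?_ hwb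
      (fun P => W (nm (kk d) * P)) (slp_dil hW hkn) (ka * y) ?_ ?_ W1 ?_ t
    · intro q hq n hn
      have h3 := hyc n (hbM q hq n hn)
      refine h3.of_isCoprime_of_dvd_right ?_
      exact mul_dvd_mul_left M (mul_dvd_mul_left 9 hkd)
    · exact dvd_mul_of_dvd_right (mul_dvd_mul_left M (mul_dvd_mul_left 9 hkd)) ka
    · intro γ φ x D hγ hc hφ hx hD hDN he P hP
      have h2 := hHW γ (kk d * φ) (kk d * x) D hγ hc.of_mul_right_left
        (mul_ne_zero hkp.ne_zero hφ) (mul_ne_zero hkp.ne_zero hx) hD hDN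
        (by rw [mul_assoc, he]; ring) P hP
      have e1 : P * ((nm (kk d * x) : ℕ) : ℝ) = nm (kk d) * (P * nm x) := by
        rw [nm_mul]; push_cast; ring
      rw [e1] at h2
      refine le_trans (mul_le_mul_of_nonneg_left (Finset.sum_le_sum fun q hq => ?_)
        (Nat.cast_nonneg _)) h2
      have h3 := VI_tw A (fun n hn => ((mem_S hZ0.le).1 (hb q hq n hn)).2.1) (BDh681.ps χ l₀)
        (kk d) hγ φ P
      refine le_trans (le_of_eq ?_) h3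
      congr 1
      funext m
      unfold BDh681.ps chs
      ring
    · beta_reduce
      refine le_trans (slp_mono hW (by have := h1 d hd; positivity) ?_) hW1
      have h2 : cd d * nm (kk d) ≤ ∑ d ∈ T, cd d * nm (kk d) :=
        Finset.single_le_sum (f := fun d => cd d * (nm (kk d) : ℝ)) (fun d hd => by
          have := h1 d hd
          have := hk1 d hd
          positivity) hd
      calc (nm (kk d) : ℝ) * (cd d * Il N lam X) = (cd d * nm (kk d)) * Il N lam X := by ring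
        _ ≤ (1 + ∑ d ∈ T, cd d * nm (kk d)) * Il N lam X := by
            refine mul_le_mul_of_nonneg_right ?_ hI.le
            linarith
  have hW10 : 0 ≤ W1 := by
    refine (hW.nonneg _ ?_).trans hW1
    have : 0 ≤ ∑ d ∈ T, cd d * nm (kk d) := Finset.sum_nonneg fun d hd => by
      have := h1 d hd
      have := hk1 d hd
      positivity
    positivity
  -- the splitting
  have hsplit : ∀ q ∈ Q, ∑ κ ∈ KSa ka lam, ‖XS (BDh681.ps χ l₀) w₀ (Xq q) t (b q) κ‖ ^ 2 ≤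
      ∑ d ∈ T, ∑ κ ∈ KSa (ka * y) lam,
        ‖XS (BDh681.ps (chs χ (kk d)) l₀) w₀ (Xq q) t (b q) κ‖ ^ 2 := by
    intro q _
    have hgood : ∀ κ ∈ KSa ka lam, Good κ := fun κ hκ =>
      (Mode405.mem_KS.mp (Finset.mem_filter.mp hκ).1).1
    set Φ : Ker → (Eis × Eis) × Ker := fun κ => (dM M κ, kM M κ) with hΦ
    set Hf : (Eis × Eis) × Ker → ℝ := fun z =>
      ‖XS (BDh681.ps (chs χ (kk z.1)) l₀) w₀ (Xq q) t (b q) z.2‖ ^ 2 with hHf
    have hinj : Set.InjOn Φ (KSa ka lam : Set Ker) := by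
      intro κ hκ κ' hκ' he
      obtain ⟨e1, e2⟩ := Prod.mk.inj he
      exact kM_inj hM (hgood κ hκ) (hgood κ' hκ') e1 e2
    have e1 : ∑ κ ∈ KSa ka lam, ‖XS (BDh681.ps χ l₀) w₀ (Xq q) t (b q) κ‖ ^ 2 =
        ∑ z ∈ (KSa ka lam).image Φ, Hf z := by
      rw [Finset.sum_image hinj]
      refine Finset.sum_congr rfl fun κ hκ => ?_
      rw [XS_tw hM χ l₀ w₀ (Xq q) t (b q) (hgood κ hκ)]
    rw [e1]
    have e2 : ∑ d ∈ T, ∑ κ ∈ KSa (ka * y) lam,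
        ‖XS (BDh681.ps (chs χ (kk d)) l₀) w₀ (Xq q) t (b q) κ‖ ^ 2 =
        ∑ z ∈ T ×ˢ KSa (ka * y) lam, Hf z := by
      rw [Finset.sum_product T (KSa (ka * y) lam) Hf]
    rw [e2]
    refine Finset.sum_le_sum_of_subset_of_nonneg ?_ fun z _ _ => by rw [hHf]; positivity
    intro z hz
    obtain ⟨κ, hκ, rfl⟩ := Finset.mem_image.mp hz
    have hg := hgood κ hκ
    refine Finset.mem_product.mpr ⟨Finset.mem_product.mpr ⟨?_, ?_⟩, kM_mem hM hκ hyc⟩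
    · exact (pM_spec hM hg.prim1 hg.sqf1).1
    · exact (pM_spec hM hg.prim2 hg.sqf2).1
  calc ∑ q ∈ Q, ∑ κ ∈ KSa ka lam, ‖XS (BDh681.ps χ l₀) w₀ (Xq q) t (b q) κ‖ ^ 2
      ≤ ∑ q ∈ Q, ∑ d ∈ T, ∑ κ ∈ KSa (ka * y) lam,
        ‖XS (BDh681.ps (chs χ (kk d)) l₀) w₀ (Xq q) t (b q) κ‖ ^ 2 := Finset.sum_le_sum hsplit
    _ = ∑ d ∈ T, ∑ q ∈ Q, ∑ κ ∈ KSa (ka * y) lam,
        ‖XS (BDh681.ps (chs χ (kk d)) l₀) w₀ (Xq q) t (b q) κ‖ ^ 2 := Finset.sum_comm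
    _ ≤ ∑ d ∈ T, Cd d * Z ^ ε * (1 + |t|) ^ (∑ d ∈ T, Jd d) *
        (X * nfo lam (Il N lam X) * W1) := by
        refine Finset.sum_le_sum fun d hd => (hone d hd).trans ?_
        have h2 := h0 d hd
        have h3 : (1 + |t|) ^ Jd d ≤ (1 + |t|) ^ (∑ d ∈ T, Jd d) :=
          pow_le_pow_right₀ ht1 (Finset.single_le_sum (f := Jd) (fun _ _ => Nat.zero_le _) hd)
        gcongr
    _ = _ := by
        simp only [← Finset.sum_mul]

/-- the twist is multiplicative -/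
lemma mul1_ps {M : Eis} {χ : Eis → ℂ} (hχ : HC M χ) (l₀ : ℤ) : Mul1 (BDh681.ps χ l₀) where
  mul a b ha hb := ps_mul' hχ l₀ ha hb
  le a ha := norm_ps_le' hχ l₀ ha

/-- **the bridge** -/
theorem pohwp_H {M : Eis} {χ : Eis → ℂ} (hχ : HC M χ) (l₀ : ℤ) {w₀ : ℝ → ℝ} (hw : Wgt w₀) :
    PoHWp OK3 Mode405.nfo (fun n => IsCoprime n M) (BDh681.ps χ l₀) (BDh681.ps χ l₀) w₀ := by
  intro R hR a A hA ε hε
  obtain ⟨C, c, J, hC, hc, h⟩ := pohs_wHa hχ l₀ hw hR (a := a) hA hε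
  refine ⟨C, c, J, hC, hc, ?_⟩
  intro Z N X lam hZ hN hNZ hX hXZ hXZ1 hlam hlamZ hLN ka 𝒯 hT ι Q b Xq hXq hbS hbG hbW W hW hWle
    W1 hW1 hW1le t
  refine le_trans ?_ (h Z N X lam hZ hN hNZ hX hXZ1 hlam hlamZ hLN Q b Xq hXq hbS hbG hbW W hW ka
    ?_ W1 hW1le t)
  · refine Finset.sum_le_sum fun q _ => ?_
    exact Finset.sum_le_sum_of_subset_of_nonneg (KSa_sub lam ka) fun _ _ _ => by positivity
  · intro γ φ x D hγ hc hφ hx hD hDN he P hP
    have hx0 : (1 : ℝ) ≤ nm x := nm_ge_one hx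
    have hx1 : (0 : ℝ) < nm x := by linarith
    have h1 := hWle ⟨{(γ, φ, 1)}, fun _ => (nm γ : ℝ), fun _ => (nm x : ℝ)⟩
      (by rw [hT.2.2]; exact ⟨γ, φ, x, D, hγ, hc, hφ, hx, hD, hDN, he, rfl⟩) (P * nm x)
      (one_le_mul_of_one_le_of_one_le hP hx0)
    refine le_trans (le_of_eq ?_) h1
    rw [Finset.mul_sum]
    refine Finset.sum_congr rfl fun q _ => ?_
    rw [TV_three, mul_div_cancel_right₀ _ hx1.ne']

end Crest.Agent.R017.PoH347
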