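import Crest.Agent.R017.E4Xh_681
import Crest.Agent.R017.E5L_770
import Crest.Agent.R017.PoH21_347
import Crest.Agent.R017.E4Bd_783

/-!
# Row 17, block C70, leaf E4 (x-side): the field `cell` at a character `gx η j ξ` (helper681)

* `exists_wD` : a window which is one on the support of `hD`
* `gx_eq` : the character is an angular character times a power of the norm
* `GXk_of` : the support condition
* `cell_gx` : **the field `cell` of `XF.HCF`**, data with `g₀ = gx η j ξ` and the window `wL i`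
-/

set_option autoImplicit false
set_option linter.unusedVariables false
set_option maxHeartbeats 400000

noncomputable section

open Complex MeasureTheory
open scoped ComplexConjugate Classical ContDiff

namespace Crest.Agent.R017.E4Xb681

open Crest.Agent.R012 Crest.Agent.R012.Eis Crest.Agent.R012.MC
open Crest.Agent.R012.LS2 (S mem_S bl mem_bl)
open Crest.Agent.R012.Div277 (dvs mem_dvs isPrim_of_mem_dvs dvd_of_mem_dvs tau tau_le_rpow)
open Crest.Agent.R012.Mob705 (mu pdiv mem_pdiv)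
open Crest.Agent.R012.Weight600 (pw osc)
open Crest.Agent.R017.PX764 (n6 Gh)
open Crest.Agent.R017.CM106 (CS TG FS)
open Crest.Agent.R017.E1551 (nmpos jb jb_pos nm_ge_one summable_wF)
open Crest.Agent.R017.BD829
open Crest.Agent.R017.E3P842
open Crest.Agent.R017.E3D579
open Crest.Agent.R017.E3Sd579
open Crest.Agent.R017.Mode405
open Crest.Agent.R017.Mps347 (PoHWp)
open Crest.Agent.R017.E3q681 hiding TD TD_nonneg
open Crest.Agent.R017.E4v92 (FF WW)
open Crest.Agent.R017.E4z92 (OKs cZ QQ RQ As Ss mem_As mem_Ss)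
open Crest.Agent.R017.E4zz92 (Tu PP)
open Crest.Agent.R017.E4F266 (IP IP_mem)
open Crest.Agent.R017.E4352 (rd dvd_rd)
open Crest.Agent.R017.E4579 (SupB)
open Crest.Agent.R017.E4X92
open Crest.Agent.R017.End699 (HC tw)
open Crest.Agent.R017.FE47 (hD contDiff_hD hasCompactSupport_hD hD_supp)
open Gauss880 (syG)

/-! ### the window -/

/-- the fixed window of the levels -/
lemma exists_wD : ∃ w1 : ℝ → ℝ, Wgt w1 ∧ (∀ x, w1 x ≠ 0 → 0 < x ∧ |Real.log x| ≤ 3) ∧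
    (∀ x, 0 < x → hD (Real.log x) ≠ 0 → w1 x = 1) := by
  set a : ℝ := Real.exp (-2) with ha
  set b : ℝ := Real.exp 2 with hb
  have ha0 : 0 < a := Real.exp_pos _
  have hab : a < b := Real.exp_lt_exp.mpr (by norm_num)
  let f : ContDiffBump ((a + b) / 2 : ℝ) :=
    ⟨(b - a) / 2, (b - a) / 2 + a / 2, by linarith, by linarith⟩
  have he1 : (2 : ℝ) ≤ Real.exp 1 := by
    have := Real.add_one_le_exp (1 : ℝ); linarith
  refine ⟨f, ⟨f.contDiff, f.hasCompactSupport, ?_⟩, fun x hx => ?_, fun x hx hl => ?_⟩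
  · rw [f.tsupport_eq]
    intro x hx
    rw [Metric.mem_closedBall, Real.dist_eq] at hx
    have h3 : |x - (a + b) / 2| ≤ (b - a) / 2 + a / 2 := hx
    have := (abs_le.mp h3).1
    exact Set.mem_Ioi.mpr (by linarith)
  · have h1 : x ∈ Function.support (f : ℝ → ℝ) := hx
    rw [f.support_eq, Metric.mem_ball, Real.dist_eq] at h1
    have h3 : |x - (a + b) / 2| < (b - a) / 2 + a / 2 := h1
    obtain ⟨h4, h5⟩ := abs_lt.mp h3
    have hx0 : 0 < x := by linarith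
    refine ⟨hx0, ?_⟩
    rw [abs_le]
    constructor
    · rw [Real.le_log_iff_exp_le hx0]
      have e1 : Real.exp (-3) * Real.exp 1 = a := by rw [ha, ← Real.exp_add]; norm_num
      have := Real.exp_pos (-3)
      nlinarith
    · rw [Real.log_le_iff_le_exp hx0]
      have e1 : Real.exp 3 = b * Real.exp 1 := by rw [hb, ← Real.exp_add]; norm_num
      have hb0 : 0 < b := Real.exp_pos _
      nlinarith
  · refine f.one_of_mem_closedBall ?_
    rw [Metric.mem_closedBall, Real.dist_eq]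
    show |x - (a + b) / 2| ≤ (b - a) / 2
    have h0 : |Real.log x| ≤ Real.log 2 := hD_supp (by
      unfold FE47.cx
      exact_mod_cast hl)
    have hl2 : Real.log 2 < 1 := by
      have := Real.log_two_lt_d9; linarith
    have h1 := abs_le.mp h0
    have h2 : a ≤ x := by
      rw [ha, ← Real.exp_log hx]
      exact Real.exp_le_exp.mpr (by linarith [h1.1])
    have h3 : x ≤ b := by
      rw [hb, ← Real.exp_log hx]
      exact Real.exp_le_exp.mpr (by linarith [h1.2])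
    rw [abs_le]
    constructor <;> linarith

/-! ### the character -/

/-- the character is an angular character times a power of the norm -/
lemma gx_eq (η : Eis → ℂ) (j : ℤ) (ξ : ℝ) {y : Eis} (hy : IsPrim y) :
    E4Bd783.gx η j ξ y = BDh681.ps η j y * pw ξ (nm y) := by
  have hy0 : ((nm y : ℝ)) ≠ 0 := (nmpos hy.ne_zero).ne'
  have hyC : (nm y : ℂ) ≠ 0 := by exact_mod_cast hy0
  unfold E4Bd783.gx BDh681.ps End699.tw pw osc
  rw [Complex.cpow_def_of_ne_zero hyC]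
  congr 1
  rw [← Complex.natCast_log]
  congr 1
  push_cast
  ring

/-! ### the support condition -/

lemma GXk_of {x : XF} {a : Tu} {Nα Rw : ℝ} (hx : XC x a Nα Rw) {Mη : Eis}
    (hM : ∀ n, IsCoprime n x.M → IsCoprime n Mη) (hα : ∀ n, x.α n ≠ 0 → IsCoprime n Mη)
    (hu : IsCoprime a.u x.M) (hh : IsCoprime a.h x.M) {i : Eis × Eis} (hi : IsPrim i.1) :
    GXk (a.h * a.u) (fun n => IsCoprime n Mη) (x.Rr a i) (cb x a i.1) := by
  intro κ F y hκ hF hsq he hy n hn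
  obtain ⟨m, rfl, hm, -⟩ := bF_ne hκ (FS_base hx hi) hn
  obtain ⟨h1, h2, h3⟩ := cf_base hx hi hm
  have c1 : IsCoprime m Mη := (hα _ h1).of_mul_left_right
  have c2 : IsCoprime y x.M := by
    refine hy.of_isCoprime_of_dvd_right ?_
    unfold XF.Rr RQ
    exact ⟨x.Sf a.q * a.ν * a.u * (x.q * a.s * x.D * (a.g * i.1) * x.Sf a.q) * (a.h * i.2) * a.h,
      by ring⟩
  have c3 : IsCoprime (κ * F) x.M := by
    rw [he]
    exact (hh.mul_left hu).mul_left c2
  exact (hM _ c3.of_mul_left_left).mul_left c1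

/-! ### the field -/

/-- **the field `cell` of `XF.HCR`** at a character `gx η j ξ` -/
theorem cell_gx {Mη : Eis} {η : Eis → ℂ} (hη : HC Mη η) (j : ℤ) {Rw : ℝ} (hRw : 0 ≤ Rw) (aS A : ℕ)
    (hA : 1 < A) {ε : ℝ} (hε : 0 < ε) :
    ∃ (C c cw : ℝ) (A' : ℕ), 0 ≤ C ∧ 1 ≤ c ∧ 1 ≤ cw ∧ 1 < A' ∧
      ∀ (x : XF) (l : ℕ) (ξ : ℝ) (OO : Finset (Eis × Eis)) (v' bm : Eis × Eis → Eis → ℂ)
        (kk : Eis × Eis → ℂ) (κ' : Eis × Eis → Eis → ℂ) (qc : Eis → Eis) (Mb Ek Nα : ℝ)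
        (Kf : (Fin 12 → ℕ) → Eis → Eis → Eis → Eis × Eis)
        (L : (Fin 12 → ℕ) → ℝ) (W1 : (Fin 12 → ℕ) → Eis × Eis → ℝ) (Cl : Tu → Prop) (Ps : Eis → Prop),
        x.V = 2 ^ l → x.g₀ = E4Bd783.gx η j ξ →
        x.Om = (fun t => ((E5L770.wL l (Real.log t) : ℝ) : ℂ)) →
        x.HO cw OO v' bm kk κ' qc Mb Ek → XS x Nα Rw →
        (∀ n, IsCoprime n x.M → IsCoprime n Mη) → (∀ n, x.α n ≠ 0 → IsCoprime n Mη) →
        (∀ n, 0 < L n) → (∀ n k, 0 ≤ W1 n k) →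
        (∀ o ∈ OO, ∀ s ∈ Ss x.M x.κ, Ps s → ∀ τ ∈ dvs (rd o.1), ∀ g ∈ S x.Y, ∀ h ∈ S x.Y,
          Cl (x.tu qc o s τ g h 1) → ∃ us u w, OKs x.R s o.1 us u w) →
        (∀ o ∈ OO, ∀ s ∈ Ss x.M x.κ, Ps s → ∀ τ ∈ dvs (rd o.1), ∀ g ∈ S x.Y, ∀ h ∈ S x.Y,
          ∀ a : Tu, a = x.tu qc o s τ g h 1 → Cl a → XC x a Nα Rw → ∀ nδ nμ : ℕ,
          ∀ i ∈ x.cell a nδ nμ, x.cz (bm o) (kk o) (κ' o) a i ≠ 0 →
          1 ≤ L (x.vec a nδ nμ) →
            8 * (L (x.vec a nδ nμ) * Real.exp Rw) < Nbn x Nα (x.vec a nδ nμ) ∧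
            RXk (a.h * a.u) OK3 (BDh681.ps η j) aS A c (Zc 3 x.Y ^ 3) (Nb0 x a Nα i.1)
              (2048 * (Nbn x Nα (x.vec a nδ nμ) * L (x.vec a nδ nμ) / x.Nn (x.vec a nδ nμ)))
              (x.Rr a i) 1 (cb x a i.1) (W1 (x.vec a nδ nμ) (x.ky Kf a nδ nμ))) →
        ∀ o ∈ OO, ∀ s ∈ Ss x.M x.κ, Ps s → ∀ τ ∈ dvs (rd o.1), ∀ g ∈ S x.Y, ∀ h ∈ S x.Y,
          ∀ a : Tu, a = x.tu qc o s τ g h 1 → Cl a → ∀ nδ nμ : ℕ,
          x.CB4 cw (bm o) (kk o) (κ' o) a nδ nμ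
            (AA x (C * x.Y ^ ε * (1 + |ξ|) ^ A') Nα (L (x.vec a nδ nμ))
              (W1 (x.vec a nδ nμ) (x.ky Kf a nδ nμ)) (x.vec a nδ nμ) 0)
            (AA x (C * x.Y ^ ε * (1 + |ξ|) ^ A') Nα (L (x.vec a nδ nμ))
              (W1 (x.vec a nδ nμ) (x.ky Kf a nδ nμ)) (x.vec a nδ nμ) 1)
            (AA x (C * x.Y ^ ε * (1 + |ξ|) ^ A') Nα (L (x.vec a nδ nμ))
              (W1 (x.vec a nδ nμ) (x.ky Kf a nδ nμ)) (x.vec a nδ nμ) 2)
            (AA x (C * x.Y ^ ε * (1 + |ξ|) ^ A') Nα (L (x.vec a nδ nμ))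
              (W1 (x.vec a nδ nμ) (x.ky Kf a nδ nμ)) (x.vec a nδ nμ) 3) := by
  obtain ⟨w1, hw1, hw, hw1h⟩ := exists_wD
  obtain ⟨C, c, cw, A', hC, hc, hcw, hA', hcell⟩ := cell_cls (OK := OK3)
    (G := fun n => IsCoprime n Mη) (ψ := BDh681.ps η j) (χ := BDh681.ps η j) okw_three
    (PoH347.mul1_ps hη j) hw1 (PoH347.pohwp_H hη j (wgt_w6 hw1)) hRw aS A hA (R₀ := 3)
    (by norm_num) contDiff_hD hasCompactSupport_hD hw hw1h hε
  refine ⟨C, c, cw, A', hC, hc, hcw, hA', ?_⟩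
  intro x l ξ OO v' bm kk κ' qc Mb Ek Nα Kf L W1 Cl Ps hV hg₀ hOm H hS hM hα hL hW1 hdec hRX
    o ho s hs hPs τ hτ g hg' h' hh' a ha hCl nδ nμ
  have hlV : Real.log x.V = Real.log 2 * l := by
    rw [hV, Real.log_pow]; ring
  have hXC : XC x a Nα Rw := by
    rw [ha]
    rw [ha] at hCl
    exact XC_of H hS ho hs hτ hg' hh' (hdec o ho s hs hPs τ hτ g hg' h' hh' hCl)
  have hmain := hcell x a (bm o) (κ' o) (kk o) nδ nμ Nα (L (x.vec a nδ nμ))
    (W1 (x.vec a nδ nμ) (x.ky Kf a nδ nμ)) 1 0 ξ (fun _ => 1) hXC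
    (fun y hy => by rw [hg₀]; exact gx_eq η j ξ hy)
    (fun t ht => by
      rw [hOm, hlV]
      unfold E5L770.wL pw osc
      simp)
    contDiff_const
    (fun n hn u => by
      rcases Nat.eq_zero_or_pos n with h0 | h0
      · subst h0; simp
      · rw [iteratedDeriv_const]
        simp [h0.ne'])
    zero_le_one (hL _) (hW1 _ _)
    (fun i hi hz => by
      refine ⟨hRX o ho s hs hPs τ hτ g hg' h' hh' a ha hCl hXC nδ nμ i hi hz, ?_⟩
      obtain ⟨k1, k2, k3, k4⟩ := cz_facts hz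
      have f := cell_FI hXC hi
      refine GXk_of hXC hM hα ?_ ?_ f.p1
      · exact k2.of_mul_right_left.of_mul_right_right
      · exact k4.of_mul_right_left.of_mul_right_left.of_mul_right_right)
  have e : (1 + |ξ - 0|) ^ A' * (1 : ℝ) ^ 2 = (1 + |ξ|) ^ A' := by
    rw [sub_zero]; ring
  rw [e] at hmain
  exact hmain

end Crest.Agent.R017.E4Xb681
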