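import Crest.Agent.R017.E4zn_679
import Crest.Agent.R017.E4Xk_681

/-!
# Row 17, E4 (x-side): the premises of helper681's `cell_gx` at the data of a block (helper164)

* `alb_win`, `alb_cop` : the support of a product of three lumps
* `tw_hc` : the modulus of a twist
* `Pre`, `pre_blk` : **the premises of `cell_gx` at `dBX`**
* `xbk_mono`, `sz_tm`, `pre_N` : the same from the frame of class N
-/

set_option autoImplicit false
set_option linter.unusedSectionVars false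
set_option linter.unusedVariables false

noncomputable section

open Complex Finset
open scoped ComplexConjugate Classical

namespace Crest.Agent.R017.XP164

open Crest.Agent.R012 Crest.Agent.R012.Eis
open Crest.Agent.R012.Mob705 hiding pb mem_pb kap
open Crest.Agent.R012.LS2 (S mem_S)
open Crest.Agent.R012.Div277 (dvs nm_le_of_dvd)
open Crest.Agent.R017.Sx545 (Sm)
open Crest.Agent.R017.CM106 (CS FS)
open Crest.Agent.R017.C70 (CbF JC OKJ)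
open Crest.Agent.R017.End699 (HC)
open Crest.Agent.R017.FE47 (PU SM cx)
open Crest.Agent.R017.E5B71 Crest.Agent.R017.E4D164
open Crest.Agent.R017.B770 (DPar)
open Crest.Agent.R017.Prov71
open Crest.Agent.R017.E5L770
open Crest.Agent.R017.E4U164
open Crest.Agent.R017.E4352
open Crest.Agent.R017.E5k54 (alb)
open Crest.Agent.R017.E4J352 (Tm gx)
open Crest.Agent.R017.E4RH858 (Pf pf Facts kl Sz)
open Crest.Agent.R017.E4z92 (OKs Ss)
open Crest.Agent.R017.E4zz92 (Tu)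
open Crest.Agent.R017.E4zc92
open Crest.Agent.R017.E4zf92
open Crest.Agent.R017.E4zg92
open Crest.Agent.R017.BD829 (Win)
open Crest.Agent.R017.HP842 (pc)
open Crest.Agent.R017.YsU61 (TwOK)
open Crest.Agent.R017.GrB829 (IsC)
open Crest.Agent.R017.E4X92
open Crest.Agent.R017.E4Xb681 (XS)
open Crest.Agent.R017.XHn512 (BlkX)
open Crest.Agent.R017.E4zl679

/-! ### supports -/

/-- the window of a product of three lumps -/
lemma alb_win {f : Fin 3 → Eis → ℂ} {Z : Fin 3 → ℝ} {R : ℝ}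
    (hf : ∀ i m, f i m ≠ 0 → IsPrim m ∧ |Real.log (nm m) - Z i| ≤ R) {β : Fin 3 → Eis}
    (hβ : ∀ i, IsPrim (β i)) {n : Eis} (hn : alb f β n ≠ 0) :
    IsPrim n ∧ |Real.log (nm n) - (∑ i, Z i - Real.log (nm (∏ i, β i)))| ≤ 3 * R := by
  have hp : IsPrim n := P1e54.alb_prim (fun i m hm => (hf i m hm).1) hβ hn
  obtain ⟨-, -, x, hx, hne⟩ := P1e54.alb_ne hn
  refine ⟨hp, ?_⟩
  have h3 : ∀ i, IsPrim (β i * x i) ∧ |Real.log (nm (β i * x i)) - Z i| ≤ R := fun i =>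
    hf i _ (hne i)
  have hxp : ∀ i, IsPrim (x i) := fun i => (h3 i).1.of_mul_left (hβ i)
  have hbp : ∀ i, (0 : ℝ) < nm (β i) := fun i => by exact_mod_cast nm_pos.2 (hβ i).ne_zero
  have hxpos : ∀ i, (0 : ℝ) < nm (x i) := fun i => by exact_mod_cast nm_pos.2 (hxp i).ne_zero
  have e1 : Real.log (nm n) = ∑ i, Real.log (nm (x i)) := by
    rw [← hx, E554.nm_prod]
    push_cast
    rw [Real.log_prod fun i _ => (hxpos i).ne']
  have e2 : Real.log (nm (∏ i, β i)) = ∑ i, Real.log (nm (β i)) := by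
    rw [E554.nm_prod]
    push_cast
    rw [Real.log_prod fun i _ => (hbp i).ne']
  have e3 : Real.log (nm n) - (∑ i, Z i - Real.log (nm (∏ i, β i))) =
      ∑ i, (Real.log (nm (β i * x i)) - Z i) := by
    have e4 : ∀ i ∈ (univ : Finset (Fin 3)), Real.log (nm (β i * x i)) - Z i =
        Real.log (nm (β i)) + Real.log (nm (x i)) - Z i := by
      intro i _
      rw [nm_mul]
      push_cast
      rw [Real.log_mul (hbp i).ne' (hxpos i).ne']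
    rw [e1, e2, sum_congr rfl e4, sum_sub_distrib, sum_add_distrib]
    ring
  rw [e3]
  refine (abs_sum_le_sum_abs _ _).trans ((sum_le_sum fun i _ => (h3 i).2).trans ?_)
  rw [sum_const, card_univ, Fintype.card_fin, nsmul_eq_mul]
  push_cast
  exact le_rfl

/-- a product of three lumps is prime to the modulus of the lumps -/
lemma alb_cop {f : Fin 3 → Eis → ℂ} {N : Eis} (hf : ∀ i m, f i m ≠ 0 → IsCoprime m N)
    {β : Fin 3 → Eis} {n : Eis} (hn : alb f β n ≠ 0) : IsCoprime n N := by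
  obtain ⟨-, -, a, rfl, ha⟩ := P1e54.alb_ne hn
  exact IsCoprime.prod_left fun i _ => (hf i _ (ha i)).of_mul_left_right

lemma chK_cop {P : DPar} (hP : P.OK) (kd : Kd) {b : Eis} (hb : IsPrim b) (h : chK P kd b ≠ 0) :
    IsCoprime b P.n := by
  by_contra hbn
  apply h
  cases kd with
  | mo => show P.ψ b * ang P.l₂ b = 0; rw [hP.ψ.van b hb hbn, zero_mul]
  | am => show conj (P.φ b * ang P.l₁ b) = 0; rw [hP.φ.van b hb hbn, zero_mul, map_zero]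

/-- the support of a twisted piece -/
lemma pc_ne {h : ℝ → ℝ} {R : ℝ} (hR : ∀ u, cx h u ≠ 0 → |u| ≤ R) {P : DPar} (hP : P.OK)
    (s : Eis) (p : Pq) {m : Eis} (hm : pc h (Pt P s p) m ≠ 0) :
    IsPrim m ∧ |Real.log (nm m) - p.z| ≤ R ∧ IsCoprime m P.n := by
  unfold HP842.pc at hm
  split_ifs at hm with hp
  · have h1 := right_ne_zero_of_mul hm
    have h2 := right_ne_zero_of_mul (left_ne_zero_of_mul hm)
    refine ⟨hp, ?_, ?_⟩
    · unfold HSep813.gw at h1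
      have h3 := hR _ (right_ne_zero_of_mul h1)
      have e : (Pt P s p).Y = Real.exp p.z := rfl
      rwa [e, Real.log_exp] at h3
    · have h4 : chK P p.kd m * End699.prin0 p.d m * sy s m ≠ 0 := h2
      exact chK_cop hP _ hp (left_ne_zero_of_mul (left_ne_zero_of_mul h4))
  · exact absurd rfl hm

/-- **the modulus of a twist** -/
lemma tw_hc {P : DPar} (hP : P.OK) {t : (Eis → ℂ) × ℤ} (ht : TwOK P t) :
    ∃ M' : Eis, HC M' t.1 ∧ ∀ p : Eis, Prime p → p ∣ M' → p ∣ P.n₃ := by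
  rcases ht with rfl | ⟨⟨M', -, -, hrad, hη⟩, -, -⟩
  · exact ⟨P.n₃, End699.hc_prin0 hP.χ₃.q0 hP.χ₃.three, fun _ _ h => h⟩
  · exact ⟨M', hη, hrad⟩

/-! ### the premises -/

/-- **the premises of helper681's `cell_gx`** -/
structure Pre (d : XD) (OO : Finset (Eis × Eis)) (χ : Eis → ℂ) (j : ℤ) (ξ : ℝ) (l : ℕ)
    (Mη s₁ : Eis) (Nα Rw : ℝ) : Prop where
  V : d.x.V = 2 ^ l
  g₀ : d.x.g₀ = E4Bd783.gx χ j ξ
  Om : d.x.Om = fun t => ((E5L770.wL l (Real.log t) : ℝ) : ℂ)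
  xs : XS d.x Nα Rw
  cM : ∀ n, IsCoprime n d.x.M → IsCoprime n Mη
  cα : ∀ n, d.x.α n ≠ 0 → IsCoprime n Mη
  dec : ∀ o ∈ OO, ∀ s ∈ Ss d.x.M d.x.κ, PsF d.x.F0 s₁ s → ∀ τ ∈ dvs (rd o.1), ∀ g ∈ S d.x.Y,
    ∀ h ∈ S d.x.Y, ClS d.x d.P s₁ (d.x.tu d.qc o s τ g h 1) → ∃ us u w, OKs d.x.R s o.1 us u w

lemma cop_rad {n M' x : Eis} (hM : M' ≠ 0) (hrad : ∀ p : Eis, Prime p → p ∣ M' → p ∣ n)
    (h : IsCoprime x n) : IsCoprime x M' := by
  refine isCoprime_of_prime_dvd (fun h' => hM h'.2) fun p hp hpa hpM => ?_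
  exact hp.not_isUnit (h.isUnit_of_dvd' hpa (hrad p hp hpM))

lemma nm_isC {c : Eis} (hc : IsC c) : (nm c : ℝ) ≤ 9 := by
  have h3 : nm (3 : Eis) = 9 := by
    have := nm_natCast 3
    push_cast at this
    rw [this]
  rcases hc with h | h | h | h
  · rw [h, nm_one]; norm_num
  · rw [h, h3]; norm_num
  · rw [h, nm_mul, h3, nm_w]; norm_num
  · rw [h, nm_mul, h3, nm_pow, nm_w]; norm_num

section blk

variable {Λ : Type*} {π : Λ → DPar} {lam : Λ × Eis} {Jf : ℝ → ℝ → ℝ → Finset (Eis × Eis)}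
  {a : Bd × ℕ} {x : Dt} {α : Eis → ℂ} {A1 A2 X : ℝ} {nkk nl : ℕ} {Pp : Pf} {s₁ β₀ : Eis}
  {Oc : Finset (x.O π lam Jf a)} {Pk : Eis → Prop} {g₁ g₂ D b : Eis} {G : Eis → ℂ}

/-- **the premises of `cell_gx` at a block** -/
theorem pre_blk {χ : Eis → ℂ} {j : ℤ} {ξ : ℝ}
    (H : XBk π lam Jf a x α A1 X nkk nl Pp s₁ β₀ Oc Pk g₁ g₂ D b (gx χ j ξ)) {Mη : Eis}
    (hM0 : Mη ≠ 0) (hM : ∀ p : Eis, Prime p → p ∣ Mη → p ∣ (π lam.1).n₃)
    (hα : ∀ n, α n ≠ 0 → IsCoprime n (π lam.1).n₃) {Nα Rw : ℝ} (h9 : 9 ≤ (X ^ A1) ^ 3)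
    (hW : Win α (Real.log Nα) Rw) (hN0 : 0 < Nα) (hN : Nα ≤ (X ^ A1) ^ 3)
    (hαY : ∀ n, α n ≠ 0 → (nm n : ℝ) ≤ (X ^ A1) ^ 3) (hB : Pp.B ≠ 0)
    (hq : (nm (Pp.B * (b ^ 2 * Pp.b)) : ℝ) ≤ (X ^ A1) ^ 3) (hD : (nm D : ℝ) ≤ (X ^ A1) ^ 3) :
    Pre (dBX π lam Jf a x α A1 X nkk Pp g₁ g₂ D b (gx χ j ξ)) (Oc.image Subtype.val) χ j ξ a.2
      Mη s₁ Nα Rw where
  V := rfl
  g₀ := rfl
  Om := rfl
  xs := by
    have hok := H.ok.1
    have hb0 : b ^ 2 * Pp.b ≠ 0 := mul_ne_zero (pow_ne_zero 2 H.hb.ne_zero) H.blk.pb.ne_zero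
    have hB1 : (1 : ℝ) ≤ nm Pp.B := by exact_mod_cast nm_pos.mpr hB
    exact {
      c0Y := (nm_isC hok.c₀).trans h9
      M0 := H.hP0.χ₃.q0
      MY := H.hn.trans (le_self_pow₀ (Real.one_le_rpow H.hX H.hA1) (by norm_num))
      q1Y := by
        refine le_trans ?_ hq
        show (nm (b ^ 2 * Pp.b) : ℝ) ≤ _
        rw [nm_mul Pp.B]
        push_cast
        exact le_mul_of_one_le_left (Nat.cast_nonneg _) hB1
      q2Y := by
        show (nm (1 : Eis) : ℝ) ≤ (X ^ A1) ^ 3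
        rw [nm_one]
        push_cast
        linarith
      DY := hD
      q := mul_ne_zero hB hb0
      qY := hq
      αY := hαY
      αW := hW
      Nα0 := hN0
      NαY := hN }
  cM := fun n hn => cop_rad hM0 hM hn
  cα := fun n hn => cop_rad hM0 hM (hα n hn)
  dec := fun o ho s hs hP τ hτ g hg h hh hc =>
    dec_of (hd_of (xc_blk H).h (xc_blk H).ho) ho hc.1

/-- monotonicity in the exponent -/
theorem blkX_mono (h : BlkX π lam Jf a x A1 X nkk nl Pp s₁ β₀ Oc Pk) (hX : 1 ≤ X)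
    (hA : A1 ≤ A2) : BlkX π lam Jf a x A2 X nkk nl Pp s₁ β₀ Oc Pk := by
  have hXX : X ^ A1 ≤ X ^ A2 := Real.rpow_le_rpow_of_exponent_le hX hA
  exact { h with
    kY := h.kY.trans hXX
    VY := h.VY.trans hXX
    LY := h.LY.trans hXX
    iY := h.iY.trans hXX }

theorem xbk_mono (h : XBk π lam Jf a x α A1 X nkk nl Pp s₁ β₀ Oc Pk g₁ g₂ D b G)
    (hA : A1 ≤ A2) : XBk π lam Jf a x α A2 X nkk nl Pp s₁ β₀ Oc Pk g₁ g₂ D b G :=
  { h with
    hA1 := h.hA1.trans hA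
    blk := blkX_mono h.blk h.hX hA
    hn := h.hn.trans (Real.rpow_le_rpow_of_exponent_le h.hX hA) }

end blk

/-! ### sizes -/

section sz

variable {O : Type} {M : Eis} {lam : O → ℝ} {v w : O → Eis → ℂ} {G : Eis → ℂ}

/-- the sizes of a term -/
lemma sz_tm [Fintype O] {Y : ℝ} {t : Tm O} (hd : Dat4 M 1 lam v w Y) (h : t.OK M 1)
    (hv : t.val 1 lam v w G ≠ 0) : (nm t.D1 : ℝ) ≤ Y ∧
      (nm ((pf t).B * (E4RH858.b1 t ^ 2 * (pf t).b)) : ℝ) ≤ Y ^ 9 := by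
  have hf := E4RH858.facts hd h hv
  have hs := E4RH858.sz hd h hv
  obtain ⟨-, -, hys⟩ := E4RH858.val_ne hv
  obtain ⟨y, -, -, hy⟩ := E4RH858.ys_ne hys
  have hY := hd.X1
  have h2 : (nm (t.D1 * (t.Z * t.Z' * y)) : ℝ) ≤ Y := hd.wy _ _ hy
  have n2 : t.D1 * (t.Z * t.Z' * y) ≠ 0 := ((hd.hw _).sm _ hy).ne_zero
  have le : ∀ {a : Eis}, a ∣ t.D1 * (t.Z * t.Z' * y) → (nm a : ℝ) ≤ Y := fun hab =>
    le_trans (by exact_mod_cast nm_le_of_dvd n2 hab) h2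
  have hb1 : (nm (E4RH858.b1 t) : ℝ) ≤ Y := by
    refine le ?_
    rw [hf.Z']
    exact ⟨t.D1 * t.Z * (pf t).Z' * y, by ring⟩
  refine ⟨le (dvd_mul_right _ _), ?_⟩
  have hBb := hs.Bb
  rw [nm_mul] at hBb
  push_cast at hBb
  rw [nm_mul, nm_mul, nm_pow]
  push_cast
  calc (nm (pf t).B : ℝ) * ((nm (E4RH858.b1 t) : ℝ) ^ 2 * nm (pf t).b)
      = (nm (pf t).B * nm (pf t).b) * (nm (E4RH858.b1 t) : ℝ) ^ 2 := by ring
    _ ≤ Y ^ 7 * Y ^ 2 := by gcongr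
    _ = Y ^ 9 := by ring

end sz

set_option maxHeartbeats 1000000 in
/-- **the premises of `cell_gx` in the frame of class N** -/
theorem pre_N {Λ : Type*} {π : Λ → DPar} {h : ℝ → ℝ} {c₀ : ℝ} (hh : PU h c₀)
    (hP : ∀ lam, (π lam).OK) {A : ℝ} (hA : 2 / 3 ≤ A) (d e0 r : ℝ) (Bf : ℝ → ℝ → ℝ → ℝ)
    {Jf : ℝ → ℝ → ℝ → Finset (Eis × Eis)} (hJf : ∀ l N z, OKJ (Jf l N z)) :
    ∃ Rw : ℝ, 0 ≤ Rw ∧ ∀ (lam : Λ × Eis) (N : ℕ) (B Bb : ℝ), ∃ Bb' X₀ : ℝ, Bb ≤ Bb' ∧ 3 ≤ Bb' ∧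
    1 < X₀ ∧ ∀ X : ℝ, X₀ ≤ X → ∀ δ δ' ε' : ℝ, δ ≤ 1 / 2 → δ' ≤ 1 → ε' ≤ 1 →
    ∀ (a : Bd × ℕ) (ps : List Pq) (q : (Option (Fin 3 ⊕ Fin 5) → ℝ) × (Kd → ℝ)),
      FrL A d δ δ' B X N a ps q → a.1.ok → lam.2 ∈ SM (π lam.1).n → a.1.okP (π lam.1) →
    ∀ x : Dt, x.OK (π lam.1) Bf e0 r ε' X a.1 →
    ∀ (h₁ : FS (b1 (π lam.1) h lam.2 ps)) (h₂ : FS (b2 (π lam.1) h lam.2 a.1 ps)),
    ∀ (G : Eis → ℂ) (t' : Tm (x.O π lam Jf a)), t'.OK (π lam.1).n₃ 1 →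
      t'.val 1 lD (x.v π h lam Jf a) (x.w π h lam Jf a ps h₁ h₂) G ≠ 0 →
    ∀ (Mη : Eis), Mη ≠ 0 → (∀ p : Eis, Prime p → p ∣ Mη → p ∣ (π lam.1).n₃) →
    ∀ (χ : Eis → ℂ) (j : ℤ) (ξ : ℝ) (nkk nl : ℕ) (s₁ β₀ : Eis) (Oc : Finset (x.O π lam Jf a))
      (Pk : Eis → Prop) (g₁ g₂ : Eis),
    XBk π lam Jf a x (alb (f3 (π lam.1) h lam.2 a.1) x.β) (4 * Bb + 1) X nkk nl (pf t') s₁ β₀
      Oc Pk g₁ g₂ t'.D1 (E4RH858.b1 t') (gx χ j ξ) →
    XBk π lam Jf a x (alb (f3 (π lam.1) h lam.2 a.1) x.β) (4 * Bb' + 1) X nkk nl (pf t') s₁ β₀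
      Oc Pk g₁ g₂ t'.D1 (E4RH858.b1 t') (gx χ j ξ) ∧
    Pre (dBX π lam Jf a x (alb (f3 (π lam.1) h lam.2 a.1) x.β) (4 * Bb' + 1) X nkk (pf t') g₁ g₂
      t'.D1 (E4RH858.b1 t') (gx χ j ξ)) (Oc.image Subtype.val) χ j ξ a.2 Mη s₁
      (Real.exp (a3 a.1 - Real.log (nm (∏ i, x.β i)))) Rw := by
  obtain ⟨R₁, hR₁⟩ := bump_of_cs hh.cs
  obtain ⟨R, hRd⟩ : ∃ R : ℝ, R = max R₁ 0 := ⟨_, rfl⟩
  have hR0 : 0 ≤ R := by rw [hRd]; exact le_max_right _ _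
  have hR : ∀ u, cx h u ≠ 0 → |u| ≤ R := fun u hu => (hR₁ u hu).trans (by rw [hRd]; exact le_max_left _ _)
  refine ⟨2 * (3 * R), by positivity, ?_⟩
  intro lam N B Bb
  obtain ⟨A0, C0, X₂, hA0, hC0, hX₂, HS⟩ := E4Us512.szU hh hP d hA e0 r Bf hJf lam N B 1 one_pos
  obtain ⟨Bb', hBb'⟩ : ∃ Bb' : ℝ, Bb' = max (max Bb (max B 3)) A0 := ⟨_, rfl⟩
  have h1 : Bb ≤ Bb' := by rw [hBb']; exact (le_max_left _ _).trans (le_max_left _ _)
  have h2 : B ≤ Bb' := by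
    rw [hBb']
    exact ((le_max_left _ _).trans (le_max_right _ _)).trans (le_max_left _ _)
  have h3 : 3 ≤ Bb' := by
    rw [hBb']
    exact ((le_max_right _ _).trans (le_max_right _ _)).trans (le_max_left _ _)
  have h4 : A0 ≤ Bb' := by rw [hBb']; exact le_max_right _ _
  refine ⟨Bb', max X₂ (max 9 (Real.exp (3 * R))), h1, h3, lt_max_of_lt_left hX₂, ?_⟩
  intro X hXX δ δ' ε' hδ hδ' hε' a ps q hF ha hlam haP x hx h₁ h₂ G t' hok hval Mη hM0 hM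
    χ j ξ nkk nl s₁ β₀ Oc Pk g₁ g₂ hbk
  have hXX₂ : X₂ ≤ X := (le_max_left _ _).trans hXX
  have hX9 : 9 ≤ X := ((le_max_left _ _).trans (le_max_right _ _)).trans hXX
  have hXR : Real.exp (3 * R) ≤ X := ((le_max_right _ _).trans (le_max_right _ _)).trans hXX
  have hX1 : 1 < X := by linarith
  have hX0 : 0 < X := by linarith
  obtain ⟨-, SD0⟩ := HS X hXX₂ a ps q δ δ' hδ hδ' hF ha hlam haP
  have SD := SD0 x (hx.mono hX1.le hε') h₁ h₂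
  have hFr := E4Us512.fr_of_frL hA hδ hX1 hF ha haP h2 h3
  have hbk' := xbk_mono (A2 := 4 * Bb' + 1) hbk (by linarith)
  refine ⟨hbk', ?_⟩
  have hYe : (X ^ (4 * Bb' + 1)) ^ 3 = X ^ (12 * Bb' + 3) := by
    rw [← Real.rpow_natCast, ← Real.rpow_mul hX0.le]
    congr 1
    push_cast
    ring
  have up : ∀ {y : ℝ}, y ≤ 12 * Bb' + 3 → X ^ y ≤ (X ^ (4 * Bb' + 1)) ^ 3 := fun hy => by
    rw [hYe]
    exact Real.rpow_le_rpow_of_exponent_le hX1.le hy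
  have hβ : ∀ i, IsPrim (x.β i) := P1e54.mem_PT (SSb54.mem_PTb.mp hx.β).1
  have hβ1 : (1 : ℝ) ≤ nm (∏ i, x.β i) := P1e54.one_le_nm (E554.isPrim_prod fun i _ => hβ i)
  have hβ0 : 0 ≤ Real.log (nm (∏ i, x.β i)) := Real.log_nonneg hβ1
  -- the lumps
  have hw : ∀ n, alb (f3 (π lam.1) h lam.2 a.1) x.β n ≠ 0 → IsPrim n ∧
      |Real.log (nm n) - (a3 a.1 - Real.log (nm (∏ i, x.β i)))| ≤ 3 * R := by
    intro n hn
    have key := alb_win (f := f3 (π lam.1) h lam.2 a.1)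
      (Z := fun i => ((![a.1.us 2, a.1.us 3, a.1.us 4] : Fin 3 → Pq) i).z) (R := R)
      (fun i m hm => by
        obtain ⟨k1, k2, -⟩ := pc_ne hR (hP lam.1) lam.2 _ hm
        exact ⟨k1, k2⟩) hβ hn
    rwa [E5L770.sum_a3] at key
  have ha3 : a3 a.1 ≤ 3 * Bb' * Real.log X := by
    have u2 := hFr.u 2
    have u3 := hFr.u 3
    have u4 := hFr.u 4
    unfold a3
    linarith
  have hlogX : 0 < Real.log X := Real.log_pos hX1
  have hR3 : 3 * R ≤ Real.log X := by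
    rw [← Real.log_exp (3 * R)]
    exact Real.log_le_log (Real.exp_pos _) hXR
  have hN : Real.exp (a3 a.1 - Real.log (nm (∏ i, x.β i))) ≤ (X ^ (4 * Bb' + 1)) ^ 3 := by
    refine le_trans ?_ (up (y := 3 * Bb') (by linarith))
    rw [Real.rpow_def_of_pos hX0]
    exact Real.exp_le_exp.mpr (by nlinarith)
  have key := (SD.dat)
  obtain ⟨k1, k2⟩ := sz_tm SD.dat hok hval
  have hf := E4RH858.facts SD.dat hok hval
  have hpow : ∀ k : ℕ, (k : ℝ) ≤ 12 → (X ^ A0) ^ k ≤ (X ^ (4 * Bb' + 1)) ^ 3 := fun k hk => by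
    rw [← Real.rpow_natCast, ← Real.rpow_mul hX0.le]
    refine up ?_
    have hk0 : (0 : ℝ) ≤ k := Nat.cast_nonneg k
    nlinarith
  refine pre_blk hbk' hM0 hM ?_ ?_ ?_ (Real.exp_pos _) hN ?_ hf.sB.ne_zero ?_ ?_
  · intro n hn
    refine cop_rad (hP lam.1).χ₃.q0 (fun p hp h' => ((hP lam.1).rad p hp).mp h') ?_
    exact alb_cop (f := f3 (π lam.1) h lam.2 a.1)
      (fun i m hm => (pc_ne hR (hP lam.1) lam.2 _ hm).2.2) hn
  · refine le_trans ?_ (up (y := 1) (by linarith))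
    rw [Real.rpow_one]
    exact hX9
  · intro n hn
    rw [Real.log_exp]
    have := (hw n hn).2
    linarith
  · intro n hn
    obtain ⟨w1, w2⟩ := hw n hn
    have hn0 : (0 : ℝ) < nm n := by exact_mod_cast nm_pos.2 w1.ne_zero
    refine le_trans ?_ (up (y := 3 * Bb' + 1) (by linarith))
    rw [Real.rpow_def_of_pos hX0, ← Real.exp_log hn0]
    refine Real.exp_le_exp.mpr ?_
    have := (abs_le.mp w2).2
    nlinarith
  · exact k2.trans (hpow 9 (by norm_num))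
  · have := hpow 1 (by norm_num)
    rw [pow_one] at this
    exact k1.trans this

end Crest.Agent.R017.XP164
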