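import Crest.Agent.R017.XTt_743
import Crest.Agent.R017.E4zn_679
import Crest.Agent.R017.XLe_842

/-!
# Row 17, block C70, leaf E4, `x`-side (helper743): the `T`-premises of helper842's numbers

* `okx_of` : `XF.OKx` of helper92's data
* `key_sz` : the sizes of a key of a class
* `yb_le` : the cube parts against the class, `min_ff` : `min (κ₀ fF) (lx Yb) ≤ κ₀ ff + 4 τ`
* **`tn_phi`** : the three `T`-numbers at helper679's block, `YsC`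
-/

set_option autoImplicit false
set_option linter.unusedVariables false

noncomputable section

open Finset

namespace Crest.Agent.R017.EnX743

open Crest.Agent.R012 Crest.Agent.R012.Eis Crest.Agent.R012.Mob705
open Crest.Agent.R012.Div277 (dvs mem_dvs isPrim_of_mem_dvs nm_le_of_dvd)
open Crest.Agent.R017.GrB829 (IsC)
open Crest.Agent.R017.FE47 (PU SM)
open Crest.Agent.R017.HP842 (pc)
open Crest.Agent.R017.B770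
open Crest.Agent.R017.Prov71
open Crest.Agent.R017.E5B71
open Crest.Agent.R017.E5L770
open Crest.Agent.R017.E5k54 (alb)
open Crest.Agent.R017.E4U164
open Crest.Agent.R017.E4R70
open Crest.Agent.R017.E4RH858 (Pf pf Facts)
open Crest.Agent.R017.E4Dic352
open Crest.Agent.R017.E4St352
open Crest.Agent.R017.XHn512 (VNU)
open Crest.Agent.R017.E4X92
open Crest.Agent.R017.E4zc92
open Crest.Agent.R017.E4zg92
open Crest.Agent.R017.E4zl679 (XBk dBX)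
open Crest.Agent.R017.XL842 (lx BSz)

/-- **`XF.OKx` of helper92's data** -/
theorem okx_of {d : XD} (h : d.OK) {cw : ℝ} (hcw : 1 ≤ cw) : d.x.OKx cw where
  c0 := (nm_isC h.c₀).1
  V0 := h.V0
  VY := h.VY
  Y1 := h.Y1
  cw1 := hcw
  g₁ := h.g₁.1
  g₂ := h.g₂.1
  F0 := ((h.g.mul h.e₀).mul h.t).ne_zero
  FY := h.FY
  gY := h.gY
  α := h.α
  R := h.R.1

section key

variable {m : Fin 2 → Fin 3 → ℕ} {β₀ : Eis} {γ ρ1 ρ2 ς : ℕ} {n : Fin 12 → ℕ} {k : Eis × Eis}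
  {nus nR nU : ℕ}

/-- **the sizes of a key of a class** -/
lemma key_sz (H : Rel m γ ρ1 ρ2 ς n nus nR nU) (hk : KRel m β₀ n k) {Y : ℝ}
    (hY : (2 : ℝ) ^ (n 0 + n 1) ≤ Y) : (nm k.1 : ℝ) ≤ 8 * Y ^ 2 ∧
      ((2 ^ (m 1 1 + m 1 2 + 2 + (n 1 - n 2 + 1)) : ℕ) : ℝ) ≤ 8 * Y := by
  have S1 := H.S1
  constructor
  · have h1 : (nm k.1 : ℝ) ≤ 2 ^ (m 0 1 + 2 * m 0 2 + 3) := by
      exact_mod_cast hk.d2.le
    have h2 : (2 : ℝ) ^ (m 0 1 + 2 * m 0 2 + 3) ≤ 2 ^ (2 * (n 0 + n 1) + 3) :=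
      pow_le_pow_right₀ (by norm_num) (by omega)
    have h3 : (2 : ℝ) ^ (2 * (n 0 + n 1) + 3) = 8 * ((2 : ℝ) ^ (n 0 + n 1)) ^ 2 := by
      rw [pow_add, mul_comm 2 (n 0 + n 1), pow_mul]
      norm_num
      ring
    have h4 : ((2 : ℝ) ^ (n 0 + n 1)) ^ 2 ≤ Y ^ 2 := pow_le_pow_left₀ (by positivity) hY 2
    linarith
  · push_cast
    have h2 : (2 : ℝ) ^ (m 1 1 + m 1 2 + 2 + (n 1 - n 2 + 1)) ≤ 2 ^ (n 0 + n 1 + 3) :=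
      pow_le_pow_right₀ (by norm_num) (by omega)
    have h3 : (2 : ℝ) ^ (n 0 + n 1 + 3) = 8 * (2 : ℝ) ^ (n 0 + n 1) := by
      rw [pow_add]
      norm_num
      ring
    linarith

/-- **the cube parts against the class** -/
lemma yb_le {X κ₀ τ : ℝ} (hX : 1 < X) {z' : E4R70.Cls} {N mx : ℝ} {Bo Bo' V κ Nα Bm q' c₀ g₁ g₂ : ℝ}
    (H : BSz X κ₀ τ z' N mx m γ ρ1 ρ2 ς Bo Bo' V κ Nα Bm q' c₀ g₁ g₂)
    (R : Rel m γ ρ1 ρ2 ς n nus nR nU) (hBo : (2 : ℝ) ^ (n 0 + n 1) ≤ Bo) :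
    Real.log ((2 ^ (m 1 1 + m 1 2 + 2 + (n 1 - n 2 + 1)) : ℕ) : ℝ) / Real.log X ≤
      κ₀ * (z'.nu + z'.c12 + z'.Y1) + 4 * τ := by
  have hc := XL842.lx2_pos hX
  have e2 := XL842.lx_mono hX (by positivity) hBo
  rw [XL842.lx_pow] at e2
  push_cast at e2
  have e0 : Real.log ((2 ^ (m 1 1 + m 1 2 + 2 + (n 1 - n 2 + 1)) : ℕ) : ℝ) / Real.log X =
      (m 1 1 + m 1 2 + 3 + ((n 1 : ℝ) - n 2)) * lx X 2 := by
    push_cast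
    rw [Real.log_pow]
    unfold lx
    push_cast [Nat.cast_sub R.ν1]
    ring
  rw [e0]
  set c := lx X 2 with hcd
  have cast : ∀ a b : ℕ, a ≤ b → (a : ℝ) * c ≤ b * c := fun a b h =>
    mul_le_mul_of_nonneg_right (by exact_mod_cast h) hc.le
  have S1' := cast _ _ R.S1
  have b1' := cast _ _ R.b1
  push_cast at S1' b1'
  have hτ := H.τ0
  have h1 := H.c1
  have hY1 := abs_le.mp H.Y1
  have h12 := abs_le.mp H.c12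
  have hnu := H.nu
  have k1 : κ₀ * (z'.nu + z'.c12 + z'.Y1) = κ₀ * z'.nu + κ₀ * z'.c12 + κ₀ * z'.Y1 := by ring
  rw [k1]
  linarith

/-- the cost of the natural `J` -/
lemma min_ff {κ₀ τ Yl : ℝ} {z' : E4R70.Cls} {N u : ℝ} (hκ : 0 ≤ κ₀) (hτ : 0 ≤ τ)
    (h : Yl ≤ κ₀ * (z'.nu + z'.c12 + z'.Y1) + 4 * τ) :
    min (κ₀ * z'.fF N u) Yl ≤ κ₀ * z'.ff N u + 4 * τ := by
  unfold E4R70.Cls.ff
  rw [mul_min_of_nonneg _ _ hκ, ← min_add_add_right]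
  exact min_le_min (by linarith) h

end key

variable {Λ : Type*}

set_option maxHeartbeats 2000000 in
/-- **the `T`-numbers of a class at helper679's block** -/
theorem tn_phi {π : Λ → DPar} {h : ℝ → ℝ} {c₀ : ℝ} (hh : PU h c₀) {A d : ℝ}
    (hV : VNU π h d) (hd : 0 ≤ d) (hd1 : d ≤ 1 / 8) (hA0 : 2 / 3 ≤ A) (hA : A ≤ 1)
    (hA1 : 16 * (1 - A) ≤ d) (e0 r : ℝ) (Bf : ℝ → ℝ → ℝ → ℝ) {ε : ℝ} (hε : 0 < ε) :
    ∃ η : ℝ, 0 < η ∧ ∀ cw : ℝ, 1 ≤ cw →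
    ∀ (lam : Λ × Eis) (N : ℕ) (B A1 : ℝ), lam.2 ∈ SM (π lam.1).n →
    ∃ δ' : ℝ, 0 < δ' ∧ ∃ X₀ : ℝ, 1 < X₀ ∧ ∀ X : ℝ, X₀ ≤ X → ∀ δ ε' : ℝ, δ ≤ η → ε' ≤ η →
    ∀ (a : Bd × ℕ) (ps : List Pq) (q : (Option (Fin 3 ⊕ Fin 5) → ℝ) × (Kd → ℝ)),
      FrL A d δ δ' B X N a ps q → a.1.ok → a.1.okP (π lam.1) →
    ∀ x : Dt, x.OK (π lam.1) Bf e0 r ε' X a.1 → ∀ z' : E4R70.Cls,
      z'.Ok d (1 / cκ (dn q.1)) (cN (dn q.1) / cκ (dn q.1)) (cM (dn q.1) / cκ (dn q.1))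
        (q.2 .mo / cκ (dn q.1)) (q.2 .am / cκ (dn q.1)) (cx' (dn q.1) / cκ (dn q.1)) →
      |z'.v - Real.log 2 * a.2 / (cκ (dn q.1) * Real.log X)| ≤ η →
      |z'.β - E4Dic352.lg (∏ i, x.β i) / (cκ (dn q.1) * Real.log X)| ≤ η →
      |z'.s - E4Dic352.lg x.e₀ / (cκ (dn q.1) * Real.log X)| ≤ η →
    ∀ (Jf : ℝ → ℝ → ℝ → Finset (Eis × Eis)) (nkk nl : ℕ) (Pp : Pf) (s₁ β₀ : Eis)
      (Oc : Finset (x.O π lam Jf a)) (Pk : Eis → Prop) (g₁ g₂ D b : Eis) (G : Eis → ℂ),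
      XBk π lam Jf a x (alb (f3 (π lam.1) h lam.2 a.1) x.β) A1 X nkk nl Pp s₁ β₀ Oc Pk g₁ g₂ D b
        G →
    ∀ y : XD, y = dBX π lam Jf a x (alb (f3 (π lam.1) h lam.2 a.1) x.β) A1 X nkk Pp g₁ g₂ D b G →
    ∀ Nα : ℝ, lx X Nα ≤ cκ (dn q.1) * (cN (dn q.1) / cκ (dn q.1) - z'.β) + η →
    ∀ (n : Fin 12 → ℕ), 1 / 2 ≤ y.x.Nn n →
      TSD y.x.α y.x.e₀ y.x.c₀ (y.x.Ee n) (y.x.Ln cw n) ≤
        X ^ (cκ (dn q.1) * (z'.tT (cN (dn q.1) / cκ (dn q.1)) (cu (dn q.1) 4 / cκ (dn q.1)) +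
          2 / 3 * d * z'.N1 (cN (dn q.1) / cκ (dn q.1))) -
          2 / 3 * lx X (y.x.En n) - lx X Nα / 3 + ε) ∧
      ∀ (k : Eis × Eis) (m : Fin 2 → Fin 3 → ℕ) (γ ρ1 ρ2 ς nus nR nU : ℕ),
        Rel m γ ρ1 ρ2 ς n nus nR nU → KRel m β₀ n k → (2 : ℝ) ^ (n 0 + n 1) ≤ 2 * 2 ^ nl →
        TSR y.x.α y.x.e₀ y.x.c₀ 1 (y.x.Ee n) (YsC y.g₁ m n k.1) (y.x.Ln cw n) ≤
          X ^ (cκ (dn q.1) * (z'.tT (cN (dn q.1) / cκ (dn q.1)) (cu (dn q.1) 4 / cκ (dn q.1)) +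
            2 / 3 * d * z'.N1 (cN (dn q.1) / cκ (dn q.1))) +
            min (cκ (dn q.1) * z'.fF (cN (dn q.1) / cκ (dn q.1)) (cu (dn q.1) 4 / cκ (dn q.1)))
              (lx X ((2 ^ (m 1 1 + m 1 2 + 2 + (n 1 - n 2 + 1)) : ℕ) : ℝ)) -
            2 / 3 * lx X (y.x.En n) - lx X Nα / 3 + ε) ∧
        TSR y.x.α y.x.e₀ y.x.c₀ (1 / 2) (y.x.Ee n) (YsC y.g₁ m n k.1) (y.x.Ln cw n) ≤
          X ^ (cκ (dn q.1) * (z'.tT (cN (dn q.1) / cκ (dn q.1)) (cu (dn q.1) 4 / cκ (dn q.1)) +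
            2 / 3 * d * z'.N1 (cN (dn q.1) / cκ (dn q.1))) +
            (cκ (dn q.1) * z'.fF (cN (dn q.1) / cκ (dn q.1)) (cu (dn q.1) 4 / cκ (dn q.1)) +
              min (cκ (dn q.1) * z'.fF (cN (dn q.1) / cκ (dn q.1))
                (cu (dn q.1) 4 / cκ (dn q.1)))
                (lx X ((2 ^ (m 1 1 + m 1 2 + 2 + (n 1 - n 2 + 1)) : ℕ) : ℝ))) / 2 -
            2 / 3 * lx X (y.x.En n) - lx X Nα / 3 + ε) := by
  classical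
  obtain ⟨η, hη, H1⟩ := tn_xf hh hV hd hd1 hA0 hA hA1 e0 r Bf hε
  refine ⟨η, hη, ?_⟩
  intro cw hcw lam N B A1 hlam
  obtain ⟨δ', hδ', X₁, hX₁, H2⟩ := H1 cw hcw lam N B (3 * A1 + 1) hlam
  refine ⟨δ', hδ', max X₁ 8, lt_max_of_lt_left hX₁, ?_⟩
  intro X hXX δ ε' hδ hε' a ps q hF ha haP x hx z' hok hv hb hs Jf nkk nl Pp s₁ β₀ Oc Pk g₁ g₂ D b
    G hB y hy Nα hNα n hn
  have hXX₁ : X₁ ≤ X := (le_max_left _ _).trans hXX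
  have hX8 : 8 ≤ X := (le_max_right _ _).trans hXX
  have hX1 : 1 < X := by linarith
  have hX0 : 0 < X := by linarith
  have hyo : y.OK := by rw [hy]; exact hB.ok.1
  have hA1' := hB.hA1
  have e1 : y.x.e₀ = x.e₀ := by rw [hy]; rfl
  have e2 : y.x.α = alb (f3 (π lam.1) h lam.2 a.1) x.β := by rw [hy]; rfl
  have e3 : y.x.V = 2 ^ a.2 := by rw [hy]; rfl
  have e4 : y.g₁ = g₁ := by rw [hy]; rfl
  obtain ⟨k0, k1⟩ := H2 X hXX₁ δ ε' hδ hε' a ps q hF ha haP x hx z' hok hv hb hs y.x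
    (okx_of hyo hcw) e1 e2 e3 hyo.c₀ Nα hNα n hn
  refine ⟨k0, ?_⟩
  intro k m γ ρ1 ρ2 ς nus nR nU hR hk hBo
  obtain ⟨z1, z2⟩ := key_sz hR hk hBo
  have hXA : 0 < X ^ A1 := Real.rpow_pos_of_pos hX0 _
  have hXA1 : 1 ≤ X ^ A1 := Real.one_le_rpow hX1.le hA1'
  have hLY := hB.blk.LY
  have p3 : (X ^ A1) ^ 3 * X = X ^ (3 * A1 + 1) := by
    rw [← Real.rpow_natCast, ← Real.rpow_mul hX0.le]
    nth_rewrite 2 [← Real.rpow_one X]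
    rw [← Real.rpow_add hX0]
    congr 1
    push_cast
    ring
  have hg1 : (nm g₁ : ℝ) ≤ X ^ A1 := le_trans (by exact_mod_cast hB.g1n) hB.hn
  have hA0' : g₁ * k.1 ≠ 0 := mul_ne_zero hB.g1.1.ne_zero hk.p1.ne_zero
  have hAK : (nm (g₁ * k.1) : ℝ) ≤ X ^ (3 * A1 + 1) := by
    rw [nm_mul, ← p3]
    push_cast
    have h1 : (nm k.1 : ℝ) ≤ 8 * (X ^ A1) ^ 2 := by
      refine z1.trans ?_
      gcongr
    calc (nm g₁ : ℝ) * nm k.1 ≤ X ^ A1 * (8 * (X ^ A1) ^ 2) := by gcongr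
      _ = (X ^ A1) ^ 3 * 8 := by ring
      _ ≤ (X ^ A1) ^ 3 * X := by gcongr
  have hYK : ((2 ^ (m 1 1 + m 1 2 + 2 + (n 1 - n 2 + 1)) : ℕ) : ℝ) ≤ X ^ (3 * A1 + 1) := by
    rw [← p3]
    calc ((2 ^ (m 1 1 + m 1 2 + 2 + (n 1 - n 2 + 1)) : ℕ) : ℝ) ≤ 8 * (2 * 2 ^ nl) := z2
      _ ≤ X * X ^ A1 := by gcongr
      _ = X ^ A1 * X := by ring
      _ ≤ (X ^ A1) ^ 3 * X := by
          refine mul_le_mul_of_nonneg_right ?_ hX0.le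
          exact le_self_pow₀ hXA1 (by norm_num)
  have hYs : ∀ c ∈ YsC y.g₁ m n k.1, ∃ b ∈ dvs (g₁ * k.1),
      ∃ c' ∈ primBall (2 ^ (m 1 1 + m 1 2 + 2 + (n 1 - n 2 + 1))), c = b * c' := by
    intro c hc
    unfold YsC at hc
    rw [e4] at hc
    obtain ⟨w, hw, rfl⟩ := mem_image.mp hc
    obtain ⟨w1, w2⟩ := mem_product.mp hw
    exact ⟨w.1, w1, w.2, w2, rfl⟩
  exact k1 (g₁ * k.1) _ (YsC y.g₁ m n k.1) hA0' hAK Nat.one_le_two_pow hYK hYs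

end Crest.Agent.R017.EnX743
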