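import Crest.Agent.R017.XLe_681
import Crest.Agent.R017.XLf_842
import Crest.Agent.R017.E4zq_92
import Crest.Agent.R017.E4Bx_918
import Crest.Agent.R017.XPc_164
import Crest.Agent.R017.XLgD_347
import Crest.Agent.R017.XTu_743

/-!
# Row 17, C70/E4 (version 7): `XNumC LTc`, the closer with an R-part, class N (helper681)

* `fin_bd` : the final estimate
* **`blkC_LT`** : one block, one twist, from helper164's `pre_N`, helper347's `cells_frN`,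
  helper743's `tn_phi`, helper92's `bsz_blk`, helper842's `phis_LT`, helper679's `xmo_bk`
* **`xnumC_LT`** : `XNumC LTc`
-/

set_option autoImplicit false
set_option linter.unusedVariables false

noncomputable section

open Complex Finset
open scoped ComplexConjugate

namespace Crest.Agent.R017.XLh681

open Crest.Agent.R012 Crest.Agent.R012.Eis
open Crest.Agent.R012.Mob705 hiding pb mem_pb
open Crest.Agent.R017.Sx545 (Sm)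
open Crest.Agent.R017.CM106 (FS CS)
open Crest.Agent.R017.FE47 (PU SM)
open Crest.Agent.R017.C70 (OKJ)
open Crest.Agent.R017.End699 (HC)
open Crest.Agent.R017.B770
open Crest.Agent.R017.Prov71
open Crest.Agent.R017.Sup271 (NPm)
open Crest.Agent.R017.E5B71
open Crest.Agent.R017.E5L770
open Crest.Agent.R017.E5k54 (alb)
open Crest.Agent.R017.E4D164
open Crest.Agent.R017.E4J352
open Crest.Agent.R017.E4U164
open Crest.Agent.R017.E4R70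
open Crest.Agent.R017.E4RH858 (Pf pf Facts kl)
open Crest.Agent.R017.E4Dic352
open Crest.Agent.R017.E4St352
open Crest.Agent.R017.Bx918
open Crest.Agent.R017.GrB829 (IsC)
open Crest.Agent.R017.TEM792 (nL)
open Crest.Agent.R017.E4zl679 (dBX XBk xc_blk)
open Crest.Agent.R017.E4zn679 (xmo_bk)
open Crest.Agent.R017.JxL679 (NatS)
open Crest.Agent.R017.JxS679 (sk)
open Crest.Agent.R017.XSd512 (XMo)
open Crest.Agent.R017.XHn512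
open Crest.Agent.R017.YsU61 (TwOK)
open Crest.Agent.R017.E4zg92 (rrk Cells Phis KRel Rel)
open Crest.Agent.R017.E4zc92 (XD)
open Crest.Agent.R017.E4Xb681 (AA Nbn AA_nonneg)
open Crest.Agent.R017.XL842 (lx Lf Lf_pos Lf_nbn TNum phis_LT lines_of_LT th_isC w_le rr3)
open Crest.Agent.R017.XLe681 (BlkC xnumC_blk)
open Crest.Agent.R017.XLg347 (Wn Wn_eq Wn_nonneg Wb ihw gk gk_eq cells_frN)
open Crest.Agent.R017.XP164 (pre_N Pre)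
open Crest.Agent.R017.EnX743 (tn_phi)
open Crest.Agent.R017.E4zq92 (bsz_blk nα_164)
open Crest.Agent.R017.RXn770
open Crest.Agent.R017.PX764 (th)

/-- a constant below a power -/
lemma const_le {C τ : ℝ} (hτ : 0 < τ) : ∃ X₀ : ℝ, 1 < X₀ ∧ ∀ X : ℝ, X₀ ≤ X → C ≤ X ^ τ := by
  refine ⟨max 2 ((|C| + 1) ^ (1 / τ)), lt_max_of_lt_left (by norm_num), fun X hX => ?_⟩
  have h1 : (|C| + 1) ^ (1 / τ) ≤ X := (le_max_right _ _).trans hX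
  have hC := abs_nonneg C
  calc C ≤ |C| + 1 := by linarith [le_abs_self C]
    _ = ((|C| + 1) ^ (1 / τ)) ^ τ := by
        rw [← Real.rpow_mul (by linarith), one_div_mul_cancel hτ.ne', Real.rpow_one]
    _ ≤ X ^ τ := Real.rpow_le_rpow (by positivity) h1 hτ.le

/-- the constant of the cells -/
lemma cst_le {X τ A1 C Z : ℝ} (hX : 1 < X) (hA1 : 0 < A1) (hτ : 0 < τ) (hC : C ≤ X ^ (τ / 2))
    (hZ : 0 ≤ Z) : C * ((X ^ A1) ^ 3) ^ (τ / (6 * A1)) * Z ≤ X ^ τ * Z := by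
  have hX0 : 0 < X := by linarith
  refine mul_le_mul_of_nonneg_right ?_ hZ
  have e1 : ((X ^ A1) ^ 3) ^ (τ / (6 * A1)) = X ^ (τ / 2) := by
    rw [← Real.rpow_natCast, ← Real.rpow_mul hX0.le, ← Real.rpow_mul hX0.le]
    congr 1
    push_cast
    field_simp
    norm_num
  rw [e1]
  calc C * X ^ (τ / 2) ≤ X ^ (τ / 2) * X ^ (τ / 2) :=
        mul_le_mul_of_nonneg_right hC (by positivity)
    _ = X ^ τ := by
        rw [← Real.rpow_add hX0]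
        congr 1
        ring

/-- **the final estimate** -/
lemma fin_bd {X τ ε η mx Q Q' E_ Z Bm : ℝ} (hX : 1 < X) (hτ : 0 < τ) (hτε : 100000 * τ ≤ ε)
    (hη : 16 * η ≤ τ) (hZ : 1 ≤ Z) (hE0 : 0 ≤ E_) (hE : E_ ≤ X ^ τ * Z) (hBm : Bm ≤ X ^ (mx + η))
    (hQ : Q' ≤ Q - mx + 50010 * τ) :
    (mx = 0 → X ^ τ * (E_ * X ^ Q') ≤ Z ^ 2 * X ^ (Q + ε)) ∧
    X ^ τ * ((X ^ η * Bm) * (E_ * X ^ Q')) ≤ Z ^ 2 * X ^ (Q + ε) := by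
  have hX0 : 0 < X := by linarith
  have hZ2 : Z ≤ Z ^ 2 := by nlinarith
  have hZ0 : 0 ≤ Z := by linarith
  have up : ∀ a b : ℝ, a ≤ b → X ^ a ≤ X ^ b := fun a b h =>
    Real.rpow_le_rpow_of_exponent_le hX.le h
  have p1 : 0 < X ^ Q' := Real.rpow_pos_of_pos hX0 _
  have h1 : E_ * X ^ Q' ≤ Z * X ^ (Q - mx + 50011 * τ) := by
    calc E_ * X ^ Q' ≤ X ^ τ * Z * X ^ Q' := mul_le_mul_of_nonneg_right hE p1.le
      _ = Z * (X ^ τ * X ^ Q') := by ring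
      _ = Z * X ^ (τ + Q') := by rw [Real.rpow_add hX0]
      _ ≤ Z * X ^ (Q - mx + 50011 * τ) := by
          exact mul_le_mul_of_nonneg_left (up _ _ (by linarith)) hZ0
  constructor
  · intro hm
    calc X ^ τ * (E_ * X ^ Q') ≤ X ^ τ * (Z * X ^ (Q - mx + 50011 * τ)) :=
          mul_le_mul_of_nonneg_left h1 (Real.rpow_nonneg hX0.le _)
      _ = Z * X ^ (τ + (Q - mx + 50011 * τ)) := by rw [Real.rpow_add hX0 τ]; ring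
      _ ≤ Z ^ 2 * X ^ (Q + ε) := by
          refine mul_le_mul hZ2 (up _ _ ?_) (Real.rpow_nonneg hX0.le _) (by positivity)
          rw [hm]
          linarith
  · have h2 : X ^ η * Bm ≤ X ^ (mx + 2 * η) := by
      calc X ^ η * Bm ≤ X ^ η * X ^ (mx + η) :=
            mul_le_mul_of_nonneg_left hBm (Real.rpow_nonneg hX0.le _)
        _ = X ^ (mx + 2 * η) := by
            rw [← Real.rpow_add hX0]
            congr 1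
            ring
    have h3 : 0 ≤ Z * X ^ (Q - mx + 50011 * τ) := mul_nonneg hZ0 (Real.rpow_nonneg hX0.le _)
    have h4 : (X ^ η * Bm) * (E_ * X ^ Q') ≤
        X ^ (mx + 2 * η) * (Z * X ^ (Q - mx + 50011 * τ)) :=
      mul_le_mul h2 h1 (mul_nonneg hE0 p1.le) (Real.rpow_nonneg hX0.le _)
    calc X ^ τ * ((X ^ η * Bm) * (E_ * X ^ Q')) ≤
          X ^ τ * (X ^ (mx + 2 * η) * (Z * X ^ (Q - mx + 50011 * τ))) :=
          mul_le_mul_of_nonneg_left h4 (Real.rpow_nonneg hX0.le _)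
      _ = Z * X ^ (τ + ((mx + 2 * η) + (Q - mx + 50011 * τ))) := by
          rw [Real.rpow_add hX0 τ, Real.rpow_add hX0 (mx + 2 * η)]; ring
      _ ≤ Z ^ 2 * X ^ (Q + ε) := by
          refine mul_le_mul hZ2 (up _ _ (by linarith)) (Real.rpow_nonneg hX0.le _) (by positivity)

/-- the length of the coefficients after the `β i` -/
lemma nL_eq (X : ℝ) (a : Bd) (x : Dt) :
    lx X (Real.exp (a3 a - Real.log (nm (∏ i, x.β i)))) =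
      nL X ![a.us 2, a.us 3, a.us 4] x.β := by
  unfold XL842.lx TEM792.nL
  rw [Real.log_exp, Fin.sum_univ_three]
  rfl

set_option maxHeartbeats 4000000 in
/-- **one block, one twist, closer `LTc`**, class N -/
theorem blkC_LT {Λ : Type*} {π : Λ → DPar} {h : ℝ → ℝ} {c₀ : ℝ} (hh : PU h c₀)
    (hP : ∀ lam, (π lam).OK)
    (hcl : ∀ lam, ∀ k : Eis, k ≠ 0 → NPm (π lam).n (π lam).ψ (π lam).l₂ k)
    (hQ : ∀ lam, (π lam).CaseD ∨ (π lam).l₁ ≠ -4) {A d : ℝ} (hd : 0 ≤ d) (hd8 : d ≤ 1 / 8)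
    (hA0 : 2 / 3 ≤ A) (hA : A ≤ 1) (hA1 : 16 * (1 - A) ≤ d)
    (HR : RCl (fun P : LamN => P.1) h d) (hV : VNU π h d) (e0 r : ℝ) (Bf : ℝ → ℝ → ℝ → ℝ)
    {Jf : ℝ → ℝ → ℝ → Finset (Eis × Eis)} (hJf : ∀ l N z, OKJ (Jf l N z)) :
    BlkC π h LTc A d e0 r Bf Jf := by
  classical
  intro ε hε
  obtain ⟨τ, hτ, hτ1, hτ2⟩ : ∃ τ : ℝ, 0 < τ ∧ 100000 * τ ≤ ε ∧ τ ≤ 1 / 1000000 := by
    refine ⟨min (ε / 100000) (1 / 1000000), by positivity, ?_, min_le_right _ _⟩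
    have := min_le_left (ε / 100000) (1 / 1000000 : ℝ)
    linarith
  obtain ⟨Rw, hRw, HP⟩ := pre_N hh hP hA0 d e0 r Bf hJf
  obtain ⟨η₁, hη₁, HT⟩ := tn_phi (π := π) hh hV hd hd8 hA0 hA hA1 e0 r Bf hτ
  obtain ⟨η, hη, hηa, hηb, hηc⟩ : ∃ η : ℝ, 0 < η ∧ 16 * η ≤ η₁ ∧ 16 * η ≤ τ ∧ η ≤ 1 / 2 := by
    refine ⟨min (η₁ / 16) (min (τ / 16) (1 / 2)), by positivity, ?_, ?_, ?_⟩
    · have := min_le_left (η₁ / 16) (min (τ / 16) (1 / 2))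
      linarith
    · have := (min_le_right (η₁ / 16) (min (τ / 16) (1 / 2))).trans (min_le_left _ _)
      linarith
    · exact (min_le_right _ _).trans (min_le_right _ _)
  refine ⟨η, hη, hηc, ?_⟩
  intro lam N B Bb tt hD hBb hs htt
  obtain ⟨Bb', X₁, hBB, hBb', hX₁, HP1⟩ := HP lam N B Bb
  obtain ⟨A1, hA1e⟩ : ∃ A1 : ℝ, A1 = 4 * Bb' + 1 := ⟨_, rfl⟩
  have hA1p : 1 ≤ A1 := by rw [hA1e]; linarith
  have hA1p0 : 0 < A1 := by linarith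
  have hε1 : 0 < τ / (6 * A1) := by positivity
  have hε1τ : τ / (6 * A1) ≤ τ / 6 := by
    apply div_le_div_of_nonneg_left hτ.le (by norm_num)
    linarith
  obtain ⟨Mη, M, C, cw, A', X₂, hMη, hrad, hC, hcw, hA', hX₂, HC1⟩ := cells_frN hh hd hd8 HR hP
    hcl hQ hA0 e0 r hRw hε1 lam N B A1 tt hD hs htt
  obtain ⟨δ₁, hδ₁, X₃, hX₃, HT1⟩ := HT cw hcw lam N B A1 hs
  obtain ⟨X₄, hX₄, HS⟩ := bsz_blk (π := π) hP hJf hτ 0 lam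
  obtain ⟨X₅, hX₅, HS'⟩ := bsz_blk (π := π) hP hJf hη₁ 0 lam
  obtain ⟨Ct, hCt, hth⟩ := th_isC
  obtain ⟨X₆, hX₆, HM⟩ := xmo_bk hτ (Bb := Bb') (by linarith) hcw
  obtain ⟨X₇, hX₇, k1⟩ := const_le (C := C) (half_pos hτ)
  obtain ⟨X₈, hX₈, k2⟩ := const_le (C := Ct) hτ
  obtain ⟨X₉, hX₉, k3⟩ := const_le (C := Real.exp Rw) hτ
  have hM0 : (0 : ℝ) < 2 * ((M : ℝ) + 1) := by positivity
  have hδ0 : 0 < min (min δ₁ 1) (τ / (2 * ((M : ℝ) + 1))) :=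
    lt_min (lt_min hδ₁ one_pos) (div_pos hτ hM0)
  obtain ⟨δ', hδ', hδa, hδb, hδc⟩ : ∃ δ' : ℝ, 0 < δ' ∧ δ' ≤ δ₁ ∧ δ' ≤ 1 ∧
      δ' ≤ τ / (2 * ((M : ℝ) + 1)) :=
    ⟨_, hδ0, (min_le_left _ _).trans (min_le_left _ _), (min_le_left _ _).trans (min_le_right _ _),
      min_le_right _ _⟩
  refine ⟨A', δ', hδ', max (max (max X₁ X₂) (max X₃ X₄)) (max (max X₅ X₆) (max X₇ (max X₈ X₉))),
    lt_max_of_lt_left (lt_max_of_lt_left (lt_max_of_lt_left hX₁)), ?_⟩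
  intro X hXX δ ε' hδ hε' a ps q hF ha haP x hx h₁ h₂ ξ G hG c P β τ₁ 𝒥 h𝒥 Oc hOc t ht
    f1 f2 f3' D1' Z'' l' m hS z' mx ex hN hok hky hmx hmx2 hCl hBF t' ht' g₁ g₂ hXB Bm hBm1 hBm
    Bd hBd
  obtain ⟨hXa, hXb⟩ := max_le_iff.mp hXX
  obtain ⟨hXa1, hXa2⟩ := max_le_iff.mp hXa
  obtain ⟨hXX₁, hXX₂⟩ := max_le_iff.mp hXa1
  obtain ⟨hXX₃, hXX₄⟩ := max_le_iff.mp hXa2
  obtain ⟨hXb1, hXb2⟩ := max_le_iff.mp hXb
  obtain ⟨hXX₅, hXX₆⟩ := max_le_iff.mp hXb1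
  obtain ⟨hXX₇, hXb3⟩ := max_le_iff.mp hXb2
  obtain ⟨hXX₈, hXX₉⟩ := max_le_iff.mp hXb3
  have hX1 : 1 < X := hX₁.trans_le hXX₁
  have hX0 : 0 < X := by linarith
  have up : ∀ a b : ℝ, a ≤ b → X ^ a ≤ X ^ b := fun a b h =>
    Real.rpow_le_rpow_of_exponent_le hX1.le h
  obtain ⟨κ₀, hκ₀⟩ : ∃ κ₀ : ℝ, κ₀ = cκ (dn q.1) := ⟨_, rfl⟩
  obtain ⟨Nn, hNn⟩ : ∃ Nn : ℝ, Nn = cN (dn q.1) / cκ (dn q.1) := ⟨_, rfl⟩
  obtain ⟨un, hun⟩ : ∃ un : ℝ, un = cu (dn q.1) 4 / cκ (dn q.1) := ⟨_, rfl⟩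
  have hκ89 : 8 / 9 ≤ κ₀ := by rw [hκ₀]; exact hBF.κ0
  have hκ1 : κ₀ ≤ 1 := by rw [hκ₀]; exact hBF.κ1
  have hκ0 : 0 < κ₀ := by linarith
  -- the terms
  obtain ⟨ok', val', -, hpf', -, -⟩ := h𝒥 t' ht'
  obtain ⟨-, val, -, -, -, -⟩ := h𝒥 t ht
  subst hpf'
  obtain ⟨hXB', hPre⟩ := HP1 X hXX₁ δ δ' ε' (hδ.trans hηc) hδb (by linarith) a ps q hF ha hs haP x
    hx h₁ h₂ G t' ok' val' Mη hMη.q0 hrad tt.1 tt.2 ξ c.nkk c.nlam (sk (x.g * x.e₀ * x.t) t.k) β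
    Oc (fun k => kl (x.g * x.e₀ * x.t) k = τ₁.1) g₁ g₂ hXB
  obtain ⟨Nα, hNα⟩ : ∃ Nα : ℝ, Nα = Real.exp (a3 a.1 - Real.log (nm (∏ i, x.β i))) := ⟨_, rfl⟩
  have hNα0 : 0 < Nα := by rw [hNα]; exact Real.exp_pos _
  rw [← hNα] at hPre
  obtain ⟨d₀, hd₀⟩ : ∃ d₀ : XD, d₀ = dBX π lam Jf a x (alb (f3 (π lam.1) h lam.2 a.1) x.β)
    (4 * Bb' + 1) X c.nkk (pf t') g₁ g₂ t'.D1 (E4RH858.b1 t') (E4J352.gx tt.1 tt.2 ξ) := ⟨_, rfl⟩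
  have hXC := xc_blk hXB'
  have hdOK := hXB'.ok.1
  rw [← hd₀] at hPre hXC hdOK
  -- the sizes
  have hSz := HS X hXX₄ δ δ' ε' η hδ hηb A d e0 r B N Bf a ps q hF ha haP x hx
    (x.w π h lam Jf a ps h₁ h₂) G c (pf t') β τ₁.1 𝒥 t ht val f1 f2 f3' D1' Z'' l' m hS z' 0 Bb hN
    hBF t' ht' _ _ _ _ Oc _ g₁ g₂ _ hXB' d₀ hd₀ mx Bm hBm1 hBm Nα (by rw [hNα]; exact nα_164 a.1 x)
  have hSz' := HS' X hXX₅ δ δ' ε' η hδ hηa A d e0 r B N Bf a ps q hF ha haP x hx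
    (x.w π h lam Jf a ps h₁ h₂) G c (pf t') β τ₁.1 𝒥 t ht val f1 f2 f3' D1' Z'' l' m hS z' 0 Bb hN
    hBF t' ht' _ _ _ _ Oc _ g₁ g₂ _ hXB' d₀ hd₀ mx Bm hBm1 hBm Nα (by rw [hNα]; exact nα_164 a.1 x)
  -- the `T`-numbers
  have hT1 := HT1 X hXX₃ δ ε' (by linarith) (by linarith) a ps q
    (hF.mono hX1.le le_rfl hδa) ha haP x hx z' hok (hN.v.trans (by linarith))
    (hN.β.trans (by linarith)) (hN.s.trans (by linarith)) Jf c.nkk c.nlam (pf t')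
    (sk (x.g * x.e₀ * x.t) t.k) β Oc _ g₁ g₂ t'.D1 (E4RH858.b1 t') _ (hA1e ▸ hXB') d₀
    (by rw [hd₀, hA1e]) Nα (by have := (abs_le.mp hSz'.Nα).2; linarith)
  rw [← hNn, ← hκ₀] at hSz
  rw [← hNn, ← hun, ← hκ₀] at hT1 hCl hBd
  rw [← hNn, ← hκ₀] at hok
  -- the lines
  have hN1 : 0 ≤ z'.N1 Nn := by
    have hSq : Sq5 A d (dn q.1) q.2 := hF.dom.1
    have hv0 : 0 ≤ q.1 none := hF.dom.2.1
    have BX := bx4 hd hd8 hA hA1 hSq hv0 hF.low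
    rw [← hκ₀] at BX
    have hx36 : cx' (dn q.1) / κ₀ ≤ 1 / 36 := by
      have := BX.d0
      rcases BX.shr with h | ⟨h, -, -⟩ <;> linarith
    have b1 := hok.hβ
    have b2 := hok.h64
    unfold Cls.N1
    linarith
  obtain ⟨T0, hT0⟩ : ∃ T0 : ℝ, T0 = κ₀ * (z'.tT Nn un + 2 / 3 * d * z'.N1 Nn) := ⟨_, rfl⟩
  have hTT0 : κ₀ * z'.tT Nn un ≤ T0 := by
    rw [hT0]
    refine mul_le_mul_of_nonneg_left ?_ hκ0.le
    have : 0 ≤ 2 / 3 * d * z'.N1 Nn := by positivity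
    linarith
  obtain ⟨lt, HL⟩ := lines_of_LT (κ₀ := κ₀) (N := Nn) (Nα := Nα) (X := X) (τ := τ) (z' := z')
    (δ₀ := d) (T0 := T0) (by linarith) hτ.le hd hd8 hκ0.le hok.R1 hok.s hSz.Nα hTT0 hCl
  -- the `T`-numbers, `TNum`
  have hTN : TNum d₀ cw X T0 Nα (κ₀ * z'.fF Nn un) τ (2 * 2 ^ c.nlam) x.m β
      (sk (x.g * x.e₀ * x.t) t.k) := by
    intro n k nus nR nU hR hK hNh hBo
    obtain ⟨t1, t2⟩ := hT1 n hNh
    obtain ⟨t3, t4⟩ := t2 k x.m _ _ _ _ nus nR nU hR hK hBo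
    have e : ((2 ^ (x.m 1 1 + x.m 1 2 + 2 + (n 1 - n 2 + 1)) : ℕ) : ℝ) =
        (2 : ℝ) ^ XL842.Yb x.m n := by
      unfold XL842.Yb
      push_cast
      rfl
    rw [e, ← hT0] at t3 t4
    rw [← hT0] at t1
    exact ⟨t1, t3, t4⟩
  -- the numbers of the R-part
  obtain ⟨L, hL⟩ : ∃ L : (Fin 12 → ℕ) → ℝ, L = Lf d₀.x X lt (E4X92.lg (rrk 1 d₀.Pr))
    (E4X92.lg (rrk 2 d₀.Pr)) Nα Rw := ⟨_, rfl⟩
  have hLp : ∀ n, 0 < L n := fun n => by rw [hL]; exact Lf_pos hX0 _ _ _ _ _ _ _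
  have hLN : ∀ n, 1 ≤ L n → 8 * (L n * Real.exp Rw) < Nbn d₀.x Nα n := fun n h1 => by
    rw [hL] at h1 ⊢
    exact Lf_nbn _ _ _ _ _ _ _ h1
  obtain ⟨W1, hW1⟩ : ∃ W1 : (Fin 12 → ℕ) → Eis × Eis → ℝ, W1 = Wn d₀.x X (X ^ δ') d
    (cu (dn q.1) 4 + δ) (nL X ![a.1.us 2, a.1.us 3, a.1.us 4] x.β) (τ / (6 * A1)) Nα M x.m L :=
    ⟨_, rfl⟩
  have hW0 : ∀ n k, 0 ≤ W1 n k := fun n k => by
    rw [hW1]
    exact Wn_nonneg hX0.le (Real.rpow_nonneg hX0.le _) _ _ _ _ _ _ _ _ _ _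
  have hWz : ∀ n k, ¬ 1 ≤ L n → W1 n k = 0 := fun n k h1 => by
    rw [hW1]
    unfold XLg347.Wn
    rw [if_neg h1]
  have hHM : (X ^ δ') ^ M ≤ X ^ (τ / 2) := by
    rw [← Real.rpow_natCast, ← Real.rpow_mul hX0.le]
    refine up _ _ ?_
    have h1 : δ' * M ≤ τ / (2 * ((M : ℝ) + 1)) * M :=
      mul_le_mul_of_nonneg_right hδc (Nat.cast_nonneg _)
    have h2 : τ / (2 * ((M : ℝ) + 1)) * M ≤ τ / 2 := by
      rw [div_mul_eq_mul_div, div_le_div_iff₀ hM0 (by norm_num)]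
      nlinarith
    linarith
  have hun' : cu (dn q.1) 4 + δ ≤ κ₀ * un + η := by
    rw [hun, ← hκ₀]
    have : κ₀ * (cu (dn q.1) 4 / κ₀) = cu (dn q.1) 4 := by field_simp
    rw [this]
    linarith
  have hnl : lx X Nα = nL X ![a.1.us 2, a.1.us 3, a.1.us 4] x.β := by
    rw [hNα]; exact nL_eq X a.1 x
  have hW : ∀ n k, KRel x.m β n k → 1 ≤ L n →
      W1 n k ≤ X ^ (rr3 d (lx X (8192 * (Nbn d₀.x Nα n * L n / d₀.x.Nn n) * (2 ^ n 3) ^ 2 /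
        ((nm k.2 : ℝ) * 2 ^ x.m 0 2) ^ 3)) (lx X Nα - lx X (d₀.x.En n)) (κ₀ * un) -
      (lx X Nα - lx X (d₀.x.En n)) / 3 + τ) := by
    intro n k hK h1
    rw [hW1, Wn_eq h1]
    unfold XLg347.Wb
    have e1 : ihw d₀.x X Nα (L n) (gk x.m k) n = lx X (8192 * (Nbn d₀.x Nα n * L n / d₀.x.Nn n) *
        (2 ^ n 3) ^ 2 / ((nm k.2 : ℝ) * 2 ^ x.m 0 2) ^ 3) := by
      rw [gk_eq hK]
      rfl
    rw [e1]
    have e2 : Real.log (d₀.x.En n) / Real.log X = lx X (d₀.x.En n) := rfl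
    rw [e2, ← hnl]
    have key := w_le (δ₀ := d) (u := cu (dn q.1) 4 + δ) (u' := κ₀ * un)
      (ih := lx X (8192 * (Nbn d₀.x Nα n * L n / d₀.x.Nn n) *
        (2 ^ n 3) ^ 2 / ((nm k.2 : ℝ) * 2 ^ x.m 0 2) ^ 3)) (N := lx X Nα) (n := lx X Nα)
      (e := lx X (d₀.x.En n)) (τ₁ := η) hd hd8 (by rw [sub_self, abs_zero]; exact hη.le) hun'
    have p0 : (0 : ℝ) ≤ (X ^ δ') ^ M := pow_nonneg (Real.rpow_nonneg hX0.le _) _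
    refine (mul_le_mul_of_nonneg_right hHM (Real.rpow_nonneg hX0.le _)).trans ?_
    rw [← Real.rpow_add hX0]
    refine up _ _ ?_
    unfold RXn770.g3
    linarith
  -- the numbers of the classes
  obtain ⟨E_, hE_⟩ : ∃ E_ : ℝ, E_ = C * d₀.x.Y ^ (τ / (6 * A1)) * (1 + |ξ|) ^ A' := ⟨_, rfl⟩
  have hY : d₀.x.Y = (X ^ A1) ^ 3 := by rw [hd₀, hA1e]; rfl
  have hξ : 1 ≤ 1 + |ξ| := by linarith [abs_nonneg ξ]
  have hZ : 1 ≤ (1 + |ξ|) ^ A' := one_le_pow₀ hξ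
  have hE0 : 0 ≤ E_ := by
    rw [hE_, hY]
    positivity
  have hEle : E_ ≤ X ^ τ * (1 + |ξ|) ^ A' := by
    rw [hE_, hY]
    exact cst_le hX1 hA1p0 hτ (k1 X hXX₇) (by positivity)
  have hfm : min (κ₀ * z'.fF Nn un) (κ₀ * (z'.Y1 + z'.c12 + z'.nu)) = κ₀ * z'.ff Nn un := by
    rw [← mul_min_of_nonneg _ _ hκ0.le]
    congr 1
    unfold Cls.ff
    congr 1
    ring
  have hfle : z'.ff Nn un ≤ z'.fF Nn un := min_le_left _ _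
  have hphi := phis_LT (d := d₀) (m := x.m) (β₀ := β) (s₁ := sk (x.g * x.e₀ * x.t) t.k)
    (cw := cw) (E_ := E_) (Rw := Rw) (W1 := W1) (F := κ₀ * z'.fF Nn un) (δ₀ := d)
    (u' := κ₀ * un) (f := κ₀ * z'.ff Nn un) (g := κ₀ * ((z'.fF Nn un + z'.ff Nn un) / 2))
    hX1 (by linarith) hSz hdOK hNα0 hE0 ((hth _ hdOK.c₀).trans (k2 X hXX₈)) (k3 X hXX₉) hd hd8
    HL (mul_le_mul_of_nonneg_left (by linarith) hκ0.le) (by rw [hfm]; linarith)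
    (by rw [hfm]; linarith) hTN hW0 (by rw [← hL]; exact hWz) (by rw [← hL]; exact hW)
  obtain ⟨Q, hQe⟩ : ∃ Q : ℝ, Q = κ₀ * (z'.k + 2 * z'.lam) + (κ₀ * StrD699.Vx z' Nn un +
    κ₀ * (2 / 3 * d * z'.N1 Nn) + ex) := ⟨_, rfl⟩
  obtain ⟨Q', hQ'e⟩ : ∃ Q' : ℝ, Q' = κ₀ * (z'.k + 2 * z'.lam) + (T0 -
    κ₀ * (z'.v + z'.us) / 3 - κ₀ * (Nn - z'.β) / 3) + (ex + 5 * τ) - mx + 50000 * τ := ⟨_, rfl⟩
  have hQQ : Q' ≤ Q - mx + 50010 * τ := by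
    rw [hQ'e, hQe, hT0]
    unfold StrD699.Vx
    linarith
  rw [← hL, ← hQ'e] at hphi
  have hS0 : 0 ≤ E_ * X ^ Q' := mul_nonneg hE0 (Real.rpow_nonneg hX0.le _)
  -- the cells
  have hδ2 : δ ≤ 1 / 2 := hδ.trans hηc
  have hcell : ∀ (Mb' Ek : ℝ) (bm' : Eis × Eis → Eis → ℂ),
      d₀.x.HO cw (Oc.image Subtype.val) (E4zc92.vC d₀.x d₀.P d₀.kk d₀.κ') bm' d₀.kk d₀.κ' d₀.qc
        Mb' Ek →
      Cells d₀ cw (Oc.image Subtype.val) bm'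
        (fun j n k => AA d₀.x E_ Nα (L n) (W1 n k) n j) (sk (x.g * x.e₀ * x.t) t.k) := by
    intro Mb' Ek bm' HO
    rw [hE_, hW1]
    exact HC1 X hXX₂ δ δ' hδ2 hδ'.le a ps q hF ha haP Bf ε' X x hx d₀ (by rw [hd₀]; rfl) (by rw [hY])
      (Oc.image Subtype.val) x.m β (sk (x.g * x.e₀ * x.t) t.k) a.2 ξ Nα hXC hPre.V hPre.g₀ hPre.Om
      hPre.xs hPre.cM hPre.cα L hLp hLN bm' Mb' Ek HO
  have hBmX : Bm ≤ X ^ (4 * Bb' + 1) := hBm.trans (up _ _ (by linarith))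
  have pc0 : d₀.x.c₀ ≠ 0 := Str699.isC_ne hdOK.c₀
  obtain ⟨m1, m2⟩ := HM X hXX₆ π lam Jf a x (alb (f3 (π lam.1) h lam.2 a.1) x.β) c.nkk c.nlam
    (pf t') (sk (x.g * x.e₀ * x.t) t.k) β Oc (fun k => kl (x.g * x.e₀ * x.t) k = τ₁.1) g₁ g₂ t'.D1
    (E4RH858.b1 t') (E4J352.gx tt.1 tt.2 ξ) G hXB' hG d₀ hd₀ Bm (E_ * X ^ Q')
    (fun j n k => AA d₀.x E_ Nα (L n) (W1 n k) n j) hBm1 hBmX hS0
    (fun j n k => AA_nonneg hdOK.κ0 hdOK.V0 pc0 hdOK.g₂.1.ne_zero hE0 hNα0 (hLp n) (hW0 n k) n j)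
    (fun j n e r hj => by
      fin_cases j
      · rfl
      · rfl
      · rfl
      · exact absurd rfl hj) hcell hphi
  have hQε : κ₀ * (z'.k + 2 * z'.lam) + (κ₀ * StrD699.Vx z' Nn un +
    κ₀ * (2 / 3 * d * z'.N1 Nn) + ex + ε) = Q + ε := by rw [hQe]; ring
  rw [hBd, hQε]
  obtain ⟨f1, f2⟩ := fin_bd hX1 hτ hτ1 hηb hZ hE0 hEle hBm hQQ
  refine ⟨fun h0 => m1.trans (f1 h0), fun bm hbm => (m2 _ ?_ bm hbm).trans f2⟩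
  exact mul_nonneg (Real.rpow_nonneg hX0.le _) (by linarith)

/-- **`XNumC LTc`**, class N -/
theorem xnumC_LT {Λ : Type*} {π : Λ → DPar} {h : ℝ → ℝ} {c₀ : ℝ} (hh : PU h c₀)
    (hP : ∀ lam, (π lam).OK)
    (hcl : ∀ lam, ∀ k : Eis, k ≠ 0 → NPm (π lam).n (π lam).ψ (π lam).l₂ k)
    (hQ : ∀ lam, (π lam).CaseD ∨ (π lam).l₁ ≠ -4) {A d : ℝ} (hd : 0 ≤ d) (hd8 : d ≤ 1 / 8)
    (hA0 : 2 / 3 ≤ A) (hA : A ≤ 1) (hA1 : 16 * (1 - A) ≤ d)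
    (HR : RCl (fun P : LamN => P.1) h d) (hV : VNU π h d) (e0 r : ℝ) (Bf : ℝ → ℝ → ℝ → ℝ)
    {Jf : ℝ → ℝ → ℝ → Finset (Eis × Eis)} (hJf : ∀ l N z, OKJ (Jf l N z))
    (hF : E4zf92.JFull Jf) : XNumC π h LTc A d e0 r Bf Jf :=
  xnumC_blk hh hP hA0 hJf hF (blkC_LT hh hP hcl hQ hd hd8 hA0 hA hA1 HR hV e0 r Bf hJf)

end Crest.Agent.R017.XLh681
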