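import Crest.Agent.R017.XTu_743
import Crest.Agent.R017.XLf_842

/-!
# Row 17, block C70, leaf E4, `x`-side (helper743): helper842's `TNum` at a block
-/

set_option autoImplicit false

noncomputable section

open Finset

namespace Crest.Agent.R017.EnX743

open Crest.Agent.R012 Crest.Agent.R012.Eis Crest.Agent.R012.Mob705
open Crest.Agent.R017.FE47 (PU SM)
open Crest.Agent.R017.B770
open Crest.Agent.R017.Prov71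
open Crest.Agent.R017.E5B71
open Crest.Agent.R017.E5L770
open Crest.Agent.R017.E5k54 (alb)
open Crest.Agent.R017.E4U164
open Crest.Agent.R017.E4RH858 (Pf)
open Crest.Agent.R017.E4Dic352
open Crest.Agent.R017.E4St352
open Crest.Agent.R017.XHn512 (VNU)
open Crest.Agent.R017.E4zc92
open Crest.Agent.R017.E4zl679 (XBk dBX)
open Crest.Agent.R017.XL842 (lx TNum)

variable {Λ : Type*}

/-- **helper842's `TNum` at helper679's block** -/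
theorem tnum_of {π : Λ → DPar} {h : ℝ → ℝ} {c₀ : ℝ} (hh : PU h c₀) {A d : ℝ}
    (hV : VNU π h d) (hd : 0 ≤ d) (hd1 : d ≤ 1 / 8) (hA0 : 2 / 3 ≤ A) (hA : A ≤ 1)
    (hA1 : 16 * (1 - A) ≤ d) (e0 r : ℝ) (Bf : ℝ → ℝ → ℝ → ℝ) {ε : ℝ} (hε : 0 < ε) :
    ∃ η : ℝ, 0 < η ∧ ∀ cw : ℝ, 1 ≤ cw →
    ∀ (lam : Λ × Eis) (N : ℕ) (B A1 : ℝ), lam.2 ∈ SM (π lam.1).n →
    ∃ δ' : ℝ, 0 < δ' ∧ ∃ X₀ : ℝ, 1 < X₀ ∧ ∀ X : ℝ, X₀ ≤ X → ∀ δ ε' : ℝ, δ ≤ η → ε' ≤ η →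
    ∀ (a : Bd × ℕ) (ps : List Pq) (q : (Option (Fin 3 ⊕ Fin 5) → ℝ) × (Kd → ℝ)),
      FrL A d δ δ' B X N a ps q → a.1.ok → a.1.okP (π lam.1) →
    ∀ x : Dt, x.OK (π lam.1) Bf e0 r ε' X a.1 → ∀ z' : E4R70.Cls,
      z'.Ok d (1 / cκ (dn q.1)) (cN (dn q.1) / cκ (dn q.1)) (cM (dn q.1) / cκ (dn q.1))
        (q.2 .mo / cκ (dn q.1)) (q.2 .am / cκ (dn q.1)) (cx' (dn q.1) / cκ (dn q.1)) →
      |z'.v - Real.log 2 * a.2 / (cκ (dn q.1) * Real.log X)| ≤ η →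
      |z'.β - E4Dic352.lg (∏ i, x.β i) / (cκ (dn q.1) * Real.log X)| ≤ η →
      |z'.s - E4Dic352.lg x.e₀ / (cκ (dn q.1) * Real.log X)| ≤ η →
    ∀ (Jf : ℝ → ℝ → ℝ → Finset (Eis × Eis)) (nkk nl : ℕ) (Pp : Pf) (s₁ β₀ : Eis)
      (Oc : Finset (x.O π lam Jf a)) (Pk : Eis → Prop) (g₁ g₂ D b : Eis) (G : Eis → ℂ),
      XBk π lam Jf a x (alb (f3 (π lam.1) h lam.2 a.1) x.β) A1 X nkk nl Pp s₁ β₀ Oc Pk g₁ g₂ D b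
        G →
    ∀ y : XD, y = dBX π lam Jf a x (alb (f3 (π lam.1) h lam.2 a.1) x.β) A1 X nkk Pp g₁ g₂ D b G →
    ∀ Nα : ℝ, lx X Nα ≤ cκ (dn q.1) * (cN (dn q.1) / cκ (dn q.1) - z'.β) + η →
      TNum y cw X (cκ (dn q.1) * (z'.tT (cN (dn q.1) / cκ (dn q.1)) (cu (dn q.1) 4 / cκ (dn q.1)) +
        2 / 3 * d * z'.N1 (cN (dn q.1) / cκ (dn q.1)))) Nα
        (cκ (dn q.1) * z'.fF (cN (dn q.1) / cκ (dn q.1)) (cu (dn q.1) 4 / cκ (dn q.1))) ε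
        (2 * 2 ^ nl) x.m β₀ s₁ := by
  obtain ⟨η, hη, H1⟩ := tn_phi hh hV hd hd1 hA0 hA hA1 e0 r Bf hε
  refine ⟨η, hη, ?_⟩
  intro cw hcw lam N B A1 hlam
  obtain ⟨δ', hδ', X₁, hX₁, H2⟩ := H1 cw hcw lam N B A1 hlam
  refine ⟨δ', hδ', X₁, hX₁, ?_⟩
  intro X hXX δ ε' hδ hε' a ps q hF ha haP x hx z' hok hv hb hs Jf nkk nl Pp s₁ β₀ Oc Pk g₁ g₂ D b
    G hB y hy Nα hNα
  intro n k nus nR nU hR hk hn hBo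
  obtain ⟨k0, k1⟩ := H2 X hXX δ ε' hδ hε' a ps q hF ha haP x hx z' hok hv hb hs Jf nkk nl Pp s₁ β₀
    Oc Pk g₁ g₂ D b G hB y hy Nα hNα n hn
  obtain ⟨k2, k3⟩ := k1 k x.m _ _ _ _ nus nR nU hR hk hBo
  have e : (((2 : ℕ) ^ (x.m 1 1 + x.m 1 2 + 2 + (n 1 - n 2 + 1)) : ℕ) : ℝ) =
      (2 : ℝ) ^ XL842.Yb x.m n := by
    push_cast
    rfl
  rw [e] at k2 k3
  exact ⟨k0, k2, k3⟩

end Crest.Agent.R017.EnX743
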