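import Crest.Agent.R017.XPd_164
import Crest.Agent.R017.XTv_743

/-!
# Row 17, E4 (x-side): the closer `XPV`, class N, from helper512's `VNU` (helper164)

* `tph_of` : `TPh` from helper743's `tnum_of`
* **`xnumC_PV_of`** : `XNumC` for the closer `XPV`, every `e0`, `r`, `Bf`
-/

set_option autoImplicit false

noncomputable section

open Complex Finset

namespace Crest.Agent.R017.XP164

open Crest.Agent.R012 Crest.Agent.R012.Eis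
open Crest.Agent.R017.C70 (OKJ)
open Crest.Agent.R017.FE47 (PU)
open Crest.Agent.R017.B770 (DPar)
open Crest.Agent.R017.E5B71
open Crest.Agent.R017.E4zf92 (JFull)
open Crest.Agent.R017.XHn512 (PVc XNumC VNU)
open Crest.Agent.R017.XLe681 (BlkC)

/-- the `T`-numbers at the data of one block -/
theorem tph_of {Λ : Type*} {π : Λ → DPar} {h : ℝ → ℝ} {c₀ : ℝ} (hh : PU h c₀) {A d : ℝ}
    (hV : VNU π h d) (hd : 0 ≤ d) (hd1 : d ≤ 1 / 8) (hA0 : 2 / 3 ≤ A) (hA : A ≤ 1)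
    (hA1 : 16 * (1 - A) ≤ d) (e0 r : ℝ) (Bf : ℝ → ℝ → ℝ → ℝ)
    (Jf : ℝ → ℝ → ℝ → Finset (Eis × Eis)) : TPh π h A d e0 r Bf Jf := by
  intro τ hτ
  obtain ⟨η, hη, H⟩ := EnX743.tnum_of hh hV hd hd1 hA0 hA hA1 e0 r Bf hτ
  refine ⟨η, hη, fun cw hcw lam N B A1 hlam => ?_⟩
  obtain ⟨δ', hδ', X₀, hX₀, H1⟩ := H cw hcw lam N B A1 hlam
  exact ⟨δ', hδ', X₀, hX₀, fun X hX δ ε' hδ hε' a ps q hF ha haP x hx z' hok hv hb hs =>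
    H1 X hX δ ε' hδ hε' a ps q hF ha haP x hx z' hok hv hb hs Jf⟩

/-- **one block, closer `XPV`, from `VNU`** -/
theorem blkC_PV_of {Λ : Type*} {π : Λ → DPar} {h : ℝ → ℝ} {c₀ : ℝ} (hh : PU h c₀)
    (hP : ∀ lam, (π lam).OK) {A d : ℝ} (hV : VNU π h d) (hd : 0 ≤ d) (hd1 : d ≤ 1 / 8)
    (hA0 : 2 / 3 ≤ A) (hA : A ≤ 1) (hA1 : 16 * (1 - A) ≤ d)
    {Jf : ℝ → ℝ → ℝ → Finset (Eis × Eis)} (hJf : ∀ l N z, OKJ (Jf l N z))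
    (e0 r : ℝ) (Bf : ℝ → ℝ → ℝ → ℝ) : BlkC π h PVc A d e0 r Bf Jf :=
  blkC_PV hh hP hA0 hJf (tph_of hh hV hd hd1 hA0 hA hA1 e0 r Bf Jf)

/-- **helper512's `XNumC` for the closer `XPV`, from `VNU`**, every `e0`, `r`, `Bf` -/
theorem xnumC_PV_of {Λ : Type*} {π : Λ → DPar} {h : ℝ → ℝ} {c₀ : ℝ} (hh : PU h c₀)
    (hP : ∀ lam, (π lam).OK) {A d : ℝ} (hV : VNU π h d) (hd : 0 ≤ d) (hd1 : d ≤ 1 / 8)
    (hA0 : 2 / 3 ≤ A) (hA : A ≤ 1) (hA1 : 16 * (1 - A) ≤ d)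
    {Jf : ℝ → ℝ → ℝ → Finset (Eis × Eis)} (hJf : ∀ l N z, OKJ (Jf l N z)) (hF : JFull Jf)
    (e0 r : ℝ) (Bf : ℝ → ℝ → ℝ → ℝ) : XNumC π h PVc A d e0 r Bf Jf :=
  xnumC_PV hh hP hA0 hJf hF (tph_of hh hV hd hd1 hA0 hA hA1 e0 r Bf Jf)

end Crest.Agent.R017.XP164
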