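import Crest.Agent.R017.StrFo_858
import Crest.Agent.R017.HiN_858
import Crest.Agent.R017.XLh_681
import Crest.Agent.R017.XPe_164
import Crest.Agent.R017.E4zm_679

/-!
# Row 17, T.3 : the structured closers of the cubic pairs, class N (helper858)

* `vnU_N` : helper512's `VNU` at `πN`
* `lt_N`, `pv_N` : the fields `lt`, `pv` of `StrIn2` (helper681's `xnumC_LT`, helper164's
  `xnumC_PV_of`)
* `strIn_of` : `StrIn2` from the near lists and the real statements
-/

set_option autoImplicit false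

noncomputable section

namespace Crest.Agent.R017.BdN858

open Crest.Agent.R012 Crest.Agent.R012.Eis
open Crest.Agent.R017.FE47 (PU cx)
open Crest.Agent.R017.Sup271 (NPm)
open Crest.Agent.R017.B770 Crest.Agent.R017.Prov71
open Crest.Agent.R017.ER911 Crest.Agent.R017.SC777
open Crest.Agent.R017.E5B71 Crest.Agent.R017.E5L770
open Crest.Agent.R017.End699 (PF)
open Crest.Agent.R017.Fin4 Crest.Agent.R017.Fin5 Crest.Agent.R017.Fin6
open Crest.Agent.R017.P1l54 (Jo)
open Crest.Agent.R017.Sg986 (AA AA_lt AA_eq AA_ge)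
open Crest.Agent.R017.NrA986 (NearAll)
open Crest.Agent.R017.StrF699 (AtB)
open Crest.Agent.R017.XHn512 (VNU LTc PVc)
open Crest.Agent.R017.StrFin858
open Crest.Agent.R017.RXn770

variable {d : ℝ} {h : ℝ → ℝ} {c₀ : ℝ}

/-- `VNU` at `πN` -/
theorem vnU_N (hd : 0 < d) (hd1 : d ≤ 1 / 42) (hpu : PU h c₀) (hB : BunA d h) (hR : RecA d h)
    (hnear : NearAll d (ex Dq (fun lam => S0p (πN lam) h))) : VNU πN h d := by
  have P : BunN d h := hB _ πN πN_ok πN_cl
  have G := hR _ πN πN_ok πN_cl clo_πN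
  exact XHn512.vnU_of hpu πN_ok (TK708.allT_of P.rules G.toExpS0 hd.le (by linarith))
    (farOwn_of P.rules G hd.le (by linarith)) (shOwn_of P.rules G)
    (NrA986.nearOwn_of P.rules G hd.le (by linarith) hnear) hd.le

/-- the R-claim of the family of all class-N parameters -/
theorem rcl_all (hd : 0 < d) (hd1 : d ≤ 1 / 42) (hpu : PU h c₀)
    (hPF : PF Set.univ (7 / 8 + d)) (hB : BunA d h) : RCl (fun P : LamN => P.1) h d :=
  rclN_of hd (by linarith) hpu hPF (fun P => P.2.1) (fun P => P.2.2)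
    (hB LamN (fun P => P.1) (fun P => P.2.1) (fun P => P.2.2)).rules

/-- **the field `lt`** -/
theorem lt_N (hd : 0 < d) (hd1 : d ≤ 1 / 42) (hpu : PU h c₀) (hPF : PF Set.univ (7 / 8 + d))
    (hB : BunA d h) (hR : RecA d h) (r : ℝ)
    (hnear : NearAll d (ex Dq (fun lam => S0p (πN lam) h))) :
    AtB πN h LTc (AA d) d r Jo := by
  have hA := AA_ge hd1
  intro e0 Bf h0 h1 hBf
  exact XLh681.xnumC_LT hpu πN_ok (fun lam k hk => πN_cl lam k hk) πN_q4 hd.le (by linarith)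
    (by linarith) (AA_lt hd).le (AA_eq d) (rcl_all hd hd1 hpu hPF hB)
    (vnU_N hd hd1 hpu hB hR hnear) e0 r Bf (fun l N z => Sf770.okJ_JS (nL l N z))
    E4zm679.jfull_JS

/-- **the field `pv`** -/
theorem pv_N (hd : 0 < d) (hd1 : d ≤ 1 / 42) (hpu : PU h c₀)
    (hB : BunA d h) (hR : RecA d h) (r : ℝ)
    (hnear : NearAll d (ex Dq (fun lam => S0p (πN lam) h))) :
    AtB πN h PVc (AA d) d r Jo := by
  have hA := AA_ge hd1
  intro e0 Bf h0 h1 hBf
  exact XP164.xnumC_PV_of hpu πN_ok (vnU_N hd hd1 hpu hB hR hnear) hd.le (by linarith)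
    (by linarith) (AA_lt hd).le (AA_eq d) (fun l N z => Sf770.okJ_JS (nL l N z))
    E4zm679.jfull_JS e0 r Bf

/-- **`StrIn2` from the near lists and the real statements** -/
theorem strIn_of (hd : 0 < d) (hd1 : d ≤ 1 / 42) (hpu : PU h c₀)
    (hPF : PF Set.univ (7 / 8 + d)) (hB : BunA d h) (hR : RecA d h) {r : ℝ} (hr0 : 0 ≤ r)
    (hr : ∀ u : ℝ, cx h u ≠ 0 → |u| ≤ r) (eD : Gl918.E4D) (eF : Gl918.E4F)
    (hnear : NearAll d (ex Dq (fun lam => S0p (πN lam) h))) : StrIn2 d h r where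
  near := hnear
  eD := eD
  eF := eF
  lt := lt_N hd hd1 hpu hPF hB hR r hnear
  pv := pv_N hd hd1 hpu hB hR r hnear
  hi := HiN858.hi_N hd hd1 hpu hPF hB hR hr0 hr hnear

/-- **`StrU` of class N** -/
theorem str_N (hd : 0 < d) (hd1 : d ≤ 1 / 42) (hpu : PU h c₀)
    (hPF : PF Set.univ (7 / 8 + d)) (hB : BunA d h) (hR : RecA d h) {r : ℝ} (hr0 : 0 ≤ r)
    (hr : ∀ u : ℝ, cx h u ≠ 0 → |u| ≤ r) (eD : Gl918.E4D) (eF : Gl918.E4F)
    (hnear : NearAll d (ex Dq (fun lam => S0p (πN lam) h))) :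
    ∃ μ : ℝ, 0 < μ ∧ StrU πN h (7 / 8 + d) (SfP πN h (1 / 64) r bfO Jo nL) (AA d) d μ :=
  str_of2 hd hd1 hpu hPF hB hR hr0 hr (strIn_of hd hd1 hpu hPF hB hR hr0 hr eD eF hnear)

end Crest.Agent.R017.BdN858
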