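import Mathlib

/-!
# Row 17, C.REMg: the pure recursion (helper146)

`σ` = any type of sides (lists with flags, heights, family, ...), `len` = length, `M` = normalised
moment (sup over the levels), `nt` = sides to which positivity is applied.

`boot` : [positivity step: `M s ≤ c (1 + g sup_{shorter or equal} M + sup_{shorter by e} M)` for `nt s`],
[splitting step: `M s ≤ c (sup_{nt, shorter or equal} M + sup_{shorter by e} M)`], `2 c² g ≤ 1`,
any a priori bound ⟹ `M s ≤ (6 c²)^(r+1)` for `len s ≤ r e`.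
-/

set_option autoImplicit false

namespace Crest.Agent.R017.Boot146

/-- absorption of the own term -/
theorem absorb {σ : Type*} (P : σ → Prop) (M : σ → ℝ) {T D : ℝ} (hT0 : 0 ≤ T) (hD : 0 ≤ D)
    (hT : ∀ s, P s → M s ≤ T)
    (h : ∀ A : ℝ, 0 ≤ A → (∀ s, P s → M s ≤ A) → ∀ s, P s → M s ≤ D + A / 2) :
    ∀ s, P s → M s ≤ 2 * D := by
  have key : ∀ k : ℕ, 0 ≤ 2 * D + (T - 2 * D) / 2 ^ k ∧
      ∀ s, P s → M s ≤ 2 * D + (T - 2 * D) / 2 ^ k := by
    intro k
    induction k with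
    | zero =>
      refine ⟨by simpa using hT0, fun s hs => ?_⟩
      have := hT s hs
      simpa using this
    | succ k ih =>
      have e : D + (2 * D + (T - 2 * D) / 2 ^ k) / 2 = 2 * D + (T - 2 * D) / 2 ^ (k + 1) := by
        rw [pow_succ]
        field_simp
        ring
      refine ⟨?_, fun s hs => ?_⟩
      · rw [← e]
        linarith [ih.1]
      · rw [← e]
        exact h _ ih.1 ih.2 s hs
  intro s hs
  by_contra hcon
  push Not at hcon
  obtain ⟨k, hk⟩ : ∃ k : ℕ, (T - 2 * D) / 2 ^ k < M s - 2 * D := by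
    by_cases hTD : T - 2 * D ≤ 0
    · refine ⟨0, ?_⟩
      have : (T - 2 * D) / 2 ^ 0 = T - 2 * D := by simp
      rw [this]
      linarith
    · push Not at hTD
      have hd : 0 < M s - 2 * D := by linarith
      obtain ⟨k, hk⟩ := exists_pow_lt_of_lt_one (div_pos hd hTD) (by norm_num : (1 / 2 : ℝ) < 1)
      refine ⟨k, ?_⟩
      rw [lt_div_iff₀ hTD] at hk
      rw [div_eq_mul_inv, ← inv_pow]
      have : ((2 : ℝ)⁻¹) ^ k = (1 / 2) ^ k := by norm_num
      rw [this, mul_comm]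
      exact hk
  have := (key k).2 s hs
  linarith

/-- **the pure recursion.** -/
theorem boot {σ : Type*} (len : σ → ℝ) (nt : σ → Prop) (M : σ → ℝ) {c g e L : ℝ} (hc : 1 ≤ c)
    (hg : 0 ≤ g) (hcg : 2 * c ^ 2 * g ≤ 1) (he : 0 < e) (hlen : ∀ s, 0 ≤ len s)
    (hT : ∃ T : ℝ, ∀ s, len s ≤ L → M s ≤ T)
    (h1 : ∀ s, nt s → len s ≤ L → ∀ A B : ℝ, 0 ≤ A → 0 ≤ B →
      (∀ s', len s' ≤ len s → M s' ≤ A) →
      (∀ s', len s' ≤ len s - e → M s' ≤ B) → M s ≤ c * (1 + g * A + B))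
    (h2 : ∀ s, len s ≤ L → ∀ A B : ℝ, 0 ≤ A → 0 ≤ B →
      (∀ s', nt s' → len s' ≤ len s → M s' ≤ A) →
      (∀ s', len s' ≤ len s - e → M s' ≤ B) → M s ≤ c * (A + B)) :
    ∀ r : ℕ, ∀ s, len s ≤ L → len s ≤ r * e → M s ≤ (6 * c ^ 2) ^ (r + 1) := by
  obtain ⟨T, hT⟩ := hT
  have hc0 : 0 < c := by linarith
  have hc2 : 1 ≤ c ^ 2 := one_le_pow₀ hc
  -- one step: `B` bounds everything shorter than `ρ - e`
  have step : ∀ (ρ B : ℝ), 0 ≤ B → (∀ s, len s ≤ L → len s ≤ ρ - e → M s ≤ B) →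
      ∀ s, len s ≤ L → len s ≤ ρ → M s ≤ 2 * (c ^ 2 * (1 + 2 * B)) := by
    intro ρ B hB hρ s hsL hsρ
    refine absorb (fun s => len s ≤ L ∧ len s ≤ ρ) M (T := max T 0) (le_max_right _ _)
      (by positivity) (fun s hs => (hT s hs.1).trans (le_max_left _ _)) ?_ s ⟨hsL, hsρ⟩
    intro A' hA'0 hA' s hs
    have hnt : ∀ s', nt s' → len s' ≤ len s → M s' ≤ c * (1 + g * A' + B) := by
      intro s' hs' hls
      refine h1 s' hs' (hls.trans hs.1) A' B hA'0 hB (fun s'' h'' => hA' s''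
        ⟨(h''.trans hls).trans hs.1, (h''.trans hls).trans hs.2⟩) (fun s'' h'' => ?_)
      refine hρ s'' ?_ ?_
      · linarith [hs.1]
      · linarith [hs.2]
    have h3 := h2 s hs.1 (c * (1 + g * A' + B)) B (by positivity) hB hnt (fun s'' h'' => by
      refine hρ s'' ?_ ?_
      · linarith [hs.1]
      · linarith [hs.2])
    refine h3.trans ?_
    have h4 : c ^ 2 * g * A' ≤ A' / 2 := by nlinarith
    have h5 : c * B ≤ c ^ 2 * B := by
      refine mul_le_mul_of_nonneg_right ?_ hB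
      nlinarith
    nlinarith
  intro r
  induction r with
  | zero =>
    intro s hsL hs
    have h1 := step 0 0 le_rfl (fun s' _ h' => by
      have := hlen s'
      exfalso; linarith) s hsL (by simpa using hs)
    refine h1.trans ?_
    rw [zero_add, pow_one]
    nlinarith
  | succ r ih =>
    intro s hsL hs
    have hB1 : (1 : ℝ) ≤ (6 * c ^ 2) ^ (r + 1) := one_le_pow₀ (by linarith)
    have h1 := step ((r + 1 : ℕ) * e) ((6 * c ^ 2) ^ (r + 1)) (by linarith)
      (fun s' h1' h2' => ih s' h1' (by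
        push_cast at h2'
        linarith)) s hsL hs
    refine h1.trans ?_
    rw [pow_succ (6 * c ^ 2) (r + 1)]
    nlinarith

end Crest.Agent.R017.Boot146
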