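import Crest.Agent.R017.CovM2_59

/-!
# Row 17, section D: the frozen interface of the coverage (helper59)

* `NoNE5 u` : no near-equal five lumps (`u₃ + u₄ + 2 u₅ ≤ 1`), any order
* `CoreM θ e₀ t₀ rc` : **the output of the coverage**
* `CoreM.box`, `CoreM.target` : the box theorem for all masses
-/

set_option autoImplicit false

noncomputable section

namespace Crest.Agent.R017.CovM59

open Crest.Agent.R017.ER911 Crest.Agent.R017.Hull741 Crest.Agent.R017.Cone59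
open Crest.Agent.R017.BoxCov741

/-- the weights of the near-equal condition -/
def w5 : Fin 5 → ℝ := ![0, 0, 1, 1, 2]

/-- no near-equal five lumps (the closed condition of `BxE986.AL` at `A' = 1`, family `1`) -/
def NoNE5 {N : ℕ} (u : Fin N → ℝ) : Prop :=
  ∀ s : Fin 5 → Fin N, Function.Injective s →
    ∃ σ : Equiv.Perm (Fin 5), ∑ i, w5 i * u (s (σ i)) ≤ 1

/-- **the output of the coverage** : master coverage of every box without near-equal five -/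
def CoreM (e₀ t₀ : ℝ) (rc : EF) : Prop :=
  ∀ (N : ℕ) (u : Fin N → ℝ), (∀ j, 0 < u j) → NoNE5 u →
    ∃ (t : ℝ) (τ : Fin N → ℝ), t₀ ≤ t ∧ t ≤ 1 / 3 ∧
      t ≤ t₀ + 1 / 4 * max 0 ((∑ j, u j) - 4 / 3) ∧ (∀ j, 0 ≤ τ j) ∧ (∀ j, τ j ≤ 1) ∧
      ∑ j, τ j * u j = min (∑ j, u j) (4 / 3) ∧ CovM rc e₀ t u τ

theorem CoreM.box {θ e₀ t₀ μ : ℝ} {rc bx : EF} (H : CoreM e₀ t₀ rc) (hθ : 7 / 8 ≤ θ)
    (hθ1 : θ ≤ 1) (B : ExpBox θ rc bx) (ht0 : 0 ≤ t₀)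
    (he : 2 * e₀ + (2 * θ - 1) * t₀ + μ ≤ b2 θ) {N : ℕ} (u : Fin N → ℝ) (hu : ∀ j, 0 < u j)
    (hNE : NoNE5 u) {m a : ℝ} (hm : 0 ≤ m) (ha : 0 ≤ a) :
    bx 1 (Finset.univ.val.map u) m a ≤
      1 + (((∑ j, u j) + m + a) + (Al2 θ ((∑ j, u j) + m + a) a - μ)) / 2 := by
  obtain ⟨t, τ, h1, h2, h3, _, h5, h6, h7⟩ := H N u hu hNE
  rcases le_total (4 / 3) (∑ j, u j) with h | h
  · rw [min_eq_right h] at h6
    rw [max_eq_right (by linarith)] at h3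
    exact cov_box_big hθ hθ1 B u (fun j => (hu j).le) hm ha ht0 h1 h2 h3 he τ h5 h h6 h7
  · rw [max_eq_left (by linarith)] at h3
    have ht : t = t₀ := le_antisymm (by linarith) h1
    subst ht
    exact cov_box hθ hθ1 B u (fun j => (hu j).le) hm ha ht0 h2 he τ h5 h6 h7

theorem CoreM.target {θ e₀ t₀ μ : ℝ} {rc bx : EF} (H : CoreM e₀ t₀ rc) (hθ : 7 / 8 ≤ θ)
    (hθ1 : θ ≤ 1) (B : ExpBox θ rc bx) (ht0 : 0 ≤ t₀)
    (he : 2 * e₀ + (2 * θ - 1) * t₀ + μ ≤ b2 θ) {N : ℕ} (u : Fin N → ℝ) (hu : ∀ j, 0 < u j)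
    (hNE : NoNE5 u) {m a : ℝ} (hm : 0 ≤ m) (ha : 0 ≤ a) {h q c : ℝ} (h0 : 0 < h) (hh : h ≤ 1)
    (hq : h * ((∑ j, u j) + m + a) = q + c) (hc' : h * a = c) (hc : c ≤ 1 / 3)
    (hfull : q + c ≤ 5 / 3) (hqc : q - c ≤ 1) :
    h * bx 1 (Finset.univ.val.map u) m a + h * μ / 2 ≤ Tg2 θ h q c := by
  have h1 := H.box hθ hθ1 B ht0 he u hu hNE hm ha
  set L := (∑ j, u j) + m + a
  have h2 := le_target2 (e := Al2 θ L a - μ) hθ hθ1 h0 hh hq hc' hc hfull hqc le_rfl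
  have h3 := mul_le_mul_of_nonneg_left h1 h0.le
  have h4 : h * (1 + (L + (Al2 θ L a - μ)) / 2) = h + (q + c) / 2 + h * (Al2 θ L a - μ) / 2 := by
    rw [← hq]; ring
  linarith

end Crest.Agent.R017.CovM59
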