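import Crest.Agent.R017.ExpRules_911

/-!
# Row 17, section D: scaling of the exponent rules (helper911)

`sc h r κ Y m a = r (h κ) (h Y) (h m) (h a) / h`; every structure of `ExpRules_911` is invariant,
so that everything can be proved at family `1`.
-/

set_option autoImplicit false

noncomputable section

namespace Crest.Agent.R017.ER911

/-- scaled exponent function -/
def sc (h : ℝ) (r : EF) : EF := fun κ Y m a => r (h * κ) (Y.map (h * ·)) (h * m) (h * a) / h

variable {h : ℝ}

theorem sc_map_sum (h : ℝ) (Y : Multiset ℝ) : (Y.map (h * ·)).sum = h * Y.sum := by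
  have := Multiset.sum_map_mul_left (s := Y) (a := h) (f := fun x => x)
  rw [this, Multiset.map_id']

theorem sc_map_inv (hh : 0 < h) (Y : Multiset ℝ) : (Y.map (h⁻¹ * ·)).map (h * ·) = Y := by
  rw [Multiset.map_map]
  conv_rhs => rw [← Multiset.map_id Y]
  refine Multiset.map_congr rfl fun x _ => ?_
  simp only [Function.comp, id]
  field_simp

theorem sc_sh (hh : 0 < h) {Y' Y : Multiset ℝ} (H : Sh Y' (Y.map (h * ·))) :
    Sh (Y'.map (h⁻¹ * ·)) Y := by
  unfold Sh at H ⊢
  rw [Multiset.rel_map_left]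
  rw [Multiset.rel_map_right] at H
  refine H.mono fun a _ b _ hab => ?_
  refine ⟨by have := hab.1; positivity, ?_⟩
  rw [inv_mul_le_iff₀ hh]
  exact hab.2

theorem sc_sh' (hh : 0 < h) {Y' Y : Multiset ℝ} (H : Sh Y' (Y.map (h * ·))) :
    ∃ Z : Multiset ℝ, Y' = Z.map (h * ·) ∧ Sh Z Y :=
  ⟨_, (sc_map_inv hh Y').symm, sc_sh hh H⟩

theorem sc_ok (hh : 0 < h) {Y : Multiset ℝ} {m a : ℝ} (H : Ok Y m a) :
    Ok (Y.map (h * ·)) (h * m) (h * a) := by
  refine ⟨fun y hy => ?_, mul_nonneg hh.le H.2.1, mul_nonneg hh.le H.2.2⟩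
  obtain ⟨x, hx, rfl⟩ := Multiset.mem_map.1 hy
  exact mul_nonneg hh.le (H.1 x hx)

theorem sc_eq (hh : 0 < h) (r : EF) (κ : ℝ) (Y : Multiset ℝ) (m a : ℝ) :
    r (h * κ) (Y.map (h * ·)) (h * m) (h * a) = h * sc h r κ Y m a := by
  unfold sc; field_simp

theorem sc_le (hh : 0 < h) (r : EF) {κ : ℝ} {Y : Multiset ℝ} {m a E : ℝ}
    (H : r (h * κ) (Y.map (h * ·)) (h * m) (h * a) ≤ h * E) : sc h r κ Y m a ≤ E := by
  rw [sc_eq hh r κ Y m a] at H
  exact le_of_mul_le_mul_left H hh

theorem sc_rep (h : ℝ) {N : ℕ} (n : Fin N → ℕ) (y : Fin N → ℝ) :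
    (∑ j, Multiset.replicate (n j) (y j)).map (h * ·) =
      ∑ j, Multiset.replicate (n j) (h * y j) := by
  have key : (Multiset.mapAddMonoidHom (h * ·) : Multiset ℝ →+ Multiset ℝ)
      (∑ j, Multiset.replicate (n j) (y j)) =
      ∑ j, (Multiset.mapAddMonoidHom (h * ·)) (Multiset.replicate (n j) (y j)) :=
    map_sum _ _ _
  refine key.trans (Finset.sum_congr rfl fun j _ => ?_)
  exact Multiset.map_replicate _ _ _

theorem sc_univ (h : ℝ) {N : ℕ} (y : Fin N → ℝ) :
    (Finset.univ.val.map y).map (h * ·) = Finset.univ.val.map fun j => h * y j := by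
  rw [Multiset.map_map]
  rfl

/-- linear constraint helper -/
theorem sc_mul_le {a b : ℝ} (hh : 0 < h) (H : a ≤ b) : h * a ≤ h * b :=
  mul_le_mul_of_nonneg_left H hh.le

theorem sc_of_mul_le {a b : ℝ} (hh : 0 < h) (H : h * a ≤ h * b) : a ≤ b :=
  le_of_mul_le_mul_left H hh

theorem sc_div (hh : 0 < h) (x : ℝ) : ∃ z, x = h * z := ⟨h⁻¹ * x, by field_simp⟩

theorem sc_nonneg {z : ℝ} (hh : 0 < h) (H : 0 ≤ h * z) : 0 ≤ z :=
  nonneg_of_mul_nonneg_right H hh

variable {θ : ℝ} {r s s₀ bx : EF}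

theorem ExpRules.scale (R : ExpRules θ r s) (hh : 0 < h) : ExpRules θ (sc h r) (sc h s) where
  hbC κ Y m a hκ hY := by
    refine sc_le hh r ?_
    refine (R.hbC (h * κ) _ _ _ (mul_nonneg hh.le hκ) (sc_ok hh hY)).trans (le_of_eq ?_)
    rw [mul_max_of_nonneg _ _ hh.le, mul_max_of_nonneg _ _ hh.le, sc_map_sum]
    congr 1
    · ring
    · congr 1 <;> ring
  hbG κ Y m a hκ hY := by
    refine sc_le hh s ?_
    refine (R.hbG (h * κ) _ _ _ (mul_nonneg hh.le hκ) (sc_ok hh hY)).trans (le_of_eq ?_)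
    rw [mul_max_of_nonneg _ _ hh.le, mul_max_of_nonneg _ _ hh.le, sc_map_sum]
    congr 1
    · ring
    · congr 1 <;> ring
  tf κ y₁ y₂ h1 h2 h3 h4 := by
    refine sc_le hh r ?_
    have := R.tf (h * κ) (h * y₁) (h * y₂) (mul_nonneg hh.le h1) (mul_nonneg hh.le h2)
      (sc_mul_le hh h3) (sc_mul_le hh h4)
    simp only [Multiset.insert_eq_cons, Multiset.map_cons, Multiset.map_singleton, mul_zero] at *
    linarith
  poisC κ Y m a E hκ hY hE1 hE2 hch κ' hκ' hκκ := by
    have hs := sc_map_sum h Y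
    have key := R.poisC (h * κ) (Y.map (h * ·)) (h * m) (h * a) (h * E) (mul_nonneg hh.le hκ)
      (sc_ok hh hY) (by rw [hs]; nlinarith) (by rw [hs]; nlinarith)
      (by
        intro Y' m' a' i hsh hm0 hm1 ha0 ha1 hi hi2
        obtain ⟨Z, rfl, hZ⟩ := sc_sh' hh hsh
        obtain ⟨m'', rfl⟩ := sc_div hh m'
        obtain ⟨a'', rfl⟩ := sc_div hh a'
        obtain ⟨j, rfl⟩ := sc_div hh i
        rw [hs, sc_map_sum h Z]
        rw [sc_map_sum h Z] at hi2
        have h1 := hch Z m'' a'' j hZ (sc_nonneg hh hm0) (sc_of_mul_le hh hm1) (sc_nonneg hh ha0)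
          (sc_of_mul_le hh ha1) (sc_nonneg hh hi) (by
            refine sc_of_mul_le hh (hi2.trans (le_of_eq (by ring))))
        rw [sc_eq hh s]
        have h2 := sc_mul_le hh h1
        linarith) (h * κ') (mul_nonneg hh.le hκ') (sc_mul_le hh hκκ)
    rw [sc_eq hh r] at key
    refine sc_of_mul_le hh ?_
    linarith
  poisG κ Y m a E hκ hY hE1 hch hcube κ' hκ' hκκ := by
    have hs := sc_map_sum h Y
    have key := R.poisG (h * κ) (Y.map (h * ·)) (h * m) (h * a) (h * E) (mul_nonneg hh.le hκ)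
      (sc_ok hh hY) (by rw [hs]; nlinarith)
      (by
        intro Y' m' a' i hsh hm0 hm1 ha0 ha1 hi hyi hi2
        obtain ⟨Z, rfl, hZ⟩ := sc_sh' hh hsh
        obtain ⟨m'', rfl⟩ := sc_div hh m'
        obtain ⟨a'', rfl⟩ := sc_div hh a'
        obtain ⟨j, rfl⟩ := sc_div hh i
        rw [hs] at hi2 ⊢
        rw [sc_map_sum]
        have h1 := hch Z m'' a'' j hZ (sc_nonneg hh hm0) (sc_of_mul_le hh hm1) (sc_nonneg hh ha0)
          (sc_of_mul_le hh ha1) (sc_nonneg hh hi)
          (fun y hy => sc_of_mul_le hh (hyi _ (Multiset.mem_map_of_mem _ hy))) (by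
            refine sc_of_mul_le hh (hi2.trans (le_of_eq (by ring))))
        rw [sc_eq hh r]
        have h2 := sc_mul_le hh h1
        linarith)
      (by
        intro Y' m' a' hsh hm0 hm1 ha0 ha1 hk
        obtain ⟨Z, rfl, hZ⟩ := sc_sh' hh hsh
        obtain ⟨m'', rfl⟩ := sc_div hh m'
        obtain ⟨a'', rfl⟩ := sc_div hh a'
        rw [hs] at hk ⊢
        rw [sc_map_sum]
        have h1 := hcube Z m'' a'' hZ (sc_nonneg hh hm0) (sc_of_mul_le hh hm1) (sc_nonneg hh ha0)
          (sc_of_mul_le hh ha1) (sc_of_mul_le hh (hk.trans (le_of_eq (by ring))))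
        have h2 := sc_mul_le hh h1
        linarith) (h * κ') (mul_nonneg hh.le hκ') (sc_mul_le hh hκκ)
    rw [sc_eq hh s] at key
    refine sc_of_mul_le hh ?_
    linarith
  cau κ Y m a b c hκ hY hb0 hb1 hc0 hc1 := by
    refine sc_le hh s ?_
    have key := R.cau (h * κ) (Y.map (h * ·)) (h * m) (h * a) (h * b) (h * c)
      (mul_nonneg hh.le hκ) (sc_ok hh hY) (mul_nonneg hh.le hb0) (sc_mul_le hh hb1)
      (mul_nonneg hh.le hc0) (sc_mul_le hh hc1)
    have e1 : h * κ + (h * b + h * c) = h * (κ + (b + c)) := by ring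
    have e2 : h * m - h * b = h * (m - b) := by ring
    have e3 : h * a - h * c = h * (a - c) := by ring
    rw [e1, e2, e3, sc_eq hh s (κ + (b + c))] at key
    linarith
  cauS κ y Y m a hκ hy hY := by
    refine sc_le hh s ?_
    have key := R.cauS (h * κ) (h * y) (Y.map (h * ·)) (h * m) (h * a)
      (mul_nonneg hh.le hκ) (mul_nonneg hh.le hy) (sc_ok hh hY)
    have e1 : h * κ + h * y = h * (κ + y) := by ring
    rw [e1, sc_eq hh s (κ + y)] at key
    rw [Multiset.map_cons]
    linarith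
  flip κ y Y m a E hκ hy hY h1 h2 := by
    refine sc_le hh r ?_
    rw [Multiset.map_cons]
    refine R.flip (h * κ) (h * y) (Y.map (h * ·)) (h * m) (h * a) (h * E)
      (mul_nonneg hh.le hκ) (mul_nonneg hh.le hy) (sc_ok hh hY) ?_ ?_
    · intro y' hy0 hy1 hy2
      obtain ⟨z, rfl⟩ := sc_div hh y'
      have := h1 z (sc_nonneg hh hy0) (sc_of_mul_le hh hy1)
        (sc_of_mul_le hh ((le_of_eq (by ring)).trans hy2))
      have h3 := sc_mul_le hh this
      rw [← sc_eq hh r, Multiset.map_cons] at h3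
      exact h3
    · intro y' t hy1 hy2 hy3 ht0 ht1
      obtain ⟨z, rfl⟩ := sc_div hh y'
      obtain ⟨t', rfl⟩ := sc_div hh t
      have := h2 z t' (sc_of_mul_le hh hy1) (sc_of_mul_le hh hy2)
        (sc_of_mul_le hh (hy3.trans (le_of_eq (by ring)))) (sc_nonneg hh ht0)
        (sc_of_mul_le hh (ht1.trans (le_of_eq (by ring))))
      have h3 := sc_mul_le hh this
      rw [mul_add, ← sc_eq hh r, Multiset.map_cons] at h3
      have e : h * (κ - t' - z) = h * κ - h * t' - h * z := by ring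
      rw [e] at h3
      linarith
  sup κ Y m a b c hκ hY hb0 hb1 hc0 hc1 := by
    refine sc_le hh r ?_
    have key := R.sup (h * κ) (Y.map (h * ·)) (h * m) (h * a) (h * b) (h * c)
      (mul_nonneg hh.le hκ) (sc_ok hh hY) (mul_nonneg hh.le hb0) (sc_mul_le hh hb1)
      (mul_nonneg hh.le hc0) (sc_mul_le hh hc1)
    have e2 : h * m - h * b = h * (m - b) := by ring
    have e3 : h * a - h * c = h * (a - c) := by ring
    rw [e2, e3, sc_eq hh r κ Y (m - b)] at key
    linarith
  supS κ y Y m a hκ hy hY := by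
    refine sc_le hh r ?_
    have key := R.supS (h * κ) (h * y) (Y.map (h * ·)) (h * m) (h * a)
      (mul_nonneg hh.le hκ) (mul_nonneg hh.le hy) (sc_ok hh hY)
    rw [sc_eq hh r κ Y] at key
    rw [Multiset.map_cons]
    linarith
  zero κ Y m a hκ hY := by
    have key := R.zero (h * κ) (Y.map (h * ·)) (h * m) (h * a) (mul_nonneg hh.le hκ) (sc_ok hh hY)
    refine sc_le hh r ?_
    rw [Multiset.map_cons, mul_zero, ← sc_eq hh r]
    exact key
  zeroG κ Y m a hκ hY := by
    have key := R.zeroG (h * κ) (Y.map (h * ·)) (h * m) (h * a) (mul_nonneg hh.le hκ) (sc_ok hh hY)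
    refine sc_le hh s ?_
    rw [Multiset.map_cons, mul_zero, ← sc_eq hh s]
    exact key

theorem ExpLB.scale (B : ExpLB θ r) (hh : 0 < h) : ExpLB θ (sc h r) where
  lb e κ Y m a m₀ a₀ he hκ hY hyκ hm0 hm1 ha0 ha1 hlen hid hid2 := by
    refine sc_le hh r ?_
    have hs := sc_map_sum h Y
    have key := B.lb (h * e) (h * κ) (Y.map (h * ·)) (h * m) (h * a) (h * m₀) (h * a₀)
      (mul_nonneg hh.le he) (mul_nonneg hh.le hκ) (sc_ok hh hY)
      (by
        intro y hy
        obtain ⟨x, hx, rfl⟩ := Multiset.mem_map.1 hy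
        exact sc_mul_le hh (hyκ x hx))
      (mul_nonneg hh.le hm0) (sc_mul_le hh hm1) (mul_nonneg hh.le ha0) (sc_mul_le hh ha1)
      (by
        rw [hs]
        have := sc_mul_le hh hlen
        linarith)
      (by
        rw [hs, sc_eq hh r]
        have := sc_mul_le hh hid
        linarith)
      (by
        intro hlt
        rw [hs] at hlt ⊢
        have h1 := hid2 (by
          by_contra hcon
          push Not at hcon
          have := sc_mul_le hh hcon
          linarith)
        have h2 := sc_mul_le hh h1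
        rw [← sc_eq hh r, mul_zero] at h2
        linarith)
    refine key.trans (le_of_eq ?_)
    rw [mul_max_of_nonneg _ _ hh.le, hs]
    congr 1 <;> ring

theorem LVok.scale {κ l v : ℝ} (hh : 0 < h) (H : LVok θ κ l v) :
    LVok θ (h * κ) (h * l) (h * v) := by
  rcases H with ⟨h1, h2⟩ | h1
  · left
    have h3 := sc_mul_le hh h1
    have h4 := sc_mul_le hh h2
    exact ⟨by linarith, by linarith⟩
  · right
    have h3 := sc_mul_le hh h1
    linarith

theorem ExpLv.scale (B : ExpLv θ r) (hh : 0 < h) : ExpLv θ (sc h r) where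
  lev N Y κ M A E hκ hY hM hA H := by
    refine sc_le hh r ?_
    rw [sc_univ]
    refine B.lev N (fun j => h * Y j) (h * κ) (h * M) (h * A) (h * E) (mul_nonneg hh.le hκ)
      (fun j => ⟨mul_nonneg hh.le (hY j).1, sc_mul_le hh (hY j).2⟩) (mul_nonneg hh.le hM)
      (mul_nonneg hh.le hA) ?_
    intro y x m a ω α hy hm0 hm1 ha0 ha1 hx hω hα
    obtain ⟨y', rfl⟩ : ∃ y' : Fin N → ℝ, y = fun j => h * y' j :=
      ⟨fun j => h⁻¹ * y j, by funext j; field_simp⟩
    obtain ⟨x', rfl⟩ : ∃ x' : Fin N → ℝ, x = fun j => h * x' j :=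
      ⟨fun j => h⁻¹ * x j, by funext j; field_simp⟩
    obtain ⟨m', rfl⟩ := sc_div hh m
    obtain ⟨a', rfl⟩ := sc_div hh a
    obtain ⟨ω', rfl⟩ := sc_div hh ω
    obtain ⟨α', rfl⟩ := sc_div hh α
    have e1 : ∀ (n : Fin N → ℕ) (f g : ℝ),
        (∑ j, (n j : ℝ) * (h * y' j)) + h * f + h * g = h * ((∑ j, (n j : ℝ) * y' j) + f + g) := by
      intro n f g
      rw [mul_add, mul_add, Finset.mul_sum]
      congr 2
      exact Finset.sum_congr rfl fun j _ => by ring
    have e2 : ∀ (n : Fin N → ℕ) (f g : ℝ),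
        (∑ j, (n j : ℝ) * (h * x' j)) + h * f * (h * ω' / (h * m')) +
          h * g * (h * α' / (h * a')) =
        h * ((∑ j, (n j : ℝ) * x' j) + f * (ω' / m') + g * (α' / a')) := by
      intro n f g
      rw [mul_div_mul_left _ _ hh.ne', mul_div_mul_left _ _ hh.ne', mul_add, mul_add,
        Finset.mul_sum]
      congr 1
      · congr 1
        · exact Finset.sum_congr rfl fun j _ => by ring
        · ring
      · ring
    have e3 : (∑ j, h * x' j) + h * ω' + h * α' = h * ((∑ j, x' j) + ω' + α') := by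
      rw [mul_add, mul_add, Finset.mul_sum]
    have hH := H y' x' m' a' ω' α'
      (fun j => ⟨sc_nonneg hh (hy j).1, sc_of_mul_le hh (hy j).2⟩) (sc_nonneg hh hm0)
      (sc_of_mul_le hh hm1) (sc_nonneg hh ha0) (sc_of_mul_le hh ha1)
      (fun j => sc_of_mul_le hh ((hx j).trans (le_of_eq (by ring))))
      (sc_of_mul_le hh (hω.trans (le_of_eq (by ring))))
      (sc_of_mul_le hh (hα.trans (le_of_eq (by ring))))
    have hz : ∀ z : ℝ, h * z = 0 → z = 0 := fun z hz => (mul_eq_zero.1 hz).resolve_left hh.ne'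
    rcases hH with ⟨n, f, g, hf, hmf, hg, hag, hlv, hle⟩ | ⟨n, f, g, hf, hmf, hg, hag, hle⟩ | hle
    · refine Or.inl ⟨n, h * f, h * g, mul_nonneg hh.le hf, fun h0 => ?_, mul_nonneg hh.le hg,
        fun h0 => ?_, ?_, ?_⟩
      · rw [hmf (hz _ h0), mul_zero]
      · rw [hag (hz _ h0), mul_zero]
      · rw [e1, e2]
        exact hlv.scale hh
      · rw [e1, e2, e3]
        have := sc_mul_le hh hle
        linarith
    · refine Or.inr (Or.inl ⟨n, h * f, h * g, mul_nonneg hh.le hf, fun h0 => ?_,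
        mul_nonneg hh.le hg, fun h0 => ?_, ?_⟩)
      · rw [hmf (hz _ h0), mul_zero]
      · rw [hag (hz _ h0), mul_zero]
      · rw [e2, e3, ← sc_rep, sc_eq hh r]
        have := sc_mul_le hh hle
        linarith
    · refine Or.inr (Or.inr ?_)
      rw [e3]
      have := sc_mul_le hh hle
      linarith

theorem ExpBox.scale (B : ExpBox θ r bx) (hh : 0 < h) : ExpBox θ (sc h r) (sc h bx) where
  sup κ Y m a b c hκ hY hb0 hb1 hc0 hc1 := by
    refine sc_le hh bx ?_
    have key := B.sup (h * κ) (Y.map (h * ·)) (h * m) (h * a) (h * b) (h * c)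
      (mul_nonneg hh.le hκ) (sc_ok hh hY) (mul_nonneg hh.le hb0) (sc_mul_le hh hb1)
      (mul_nonneg hh.le hc0) (sc_mul_le hh hc1)
    have e2 : h * m - h * b = h * (m - b) := by ring
    have e3 : h * a - h * c = h * (a - c) := by ring
    rw [e2, e3, sc_eq hh bx κ Y (m - b)] at key
    linarith
  supS κ y Y m a hκ hy hY := by
    refine sc_le hh bx ?_
    have key := B.supS (h * κ) (h * y) (Y.map (h * ·)) (h * m) (h * a)
      (mul_nonneg hh.le hκ) (mul_nonneg hh.le hy) (sc_ok hh hY)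
    rw [sc_eq hh bx κ Y] at key
    rw [Multiset.map_cons]
    linarith
  outer N u κ m a E hκ hu hm ha H := by
    refine sc_le hh bx ?_
    rw [sc_univ]
    refine B.outer N (fun j => h * u j) (h * κ) (h * m) (h * a) (h * E) (mul_nonneg hh.le hκ)
      (fun j => mul_nonneg hh.le (hu j)) (mul_nonneg hh.le hm) (mul_nonneg hh.le ha) ?_
    intro x ω α hx hω hα
    obtain ⟨x', rfl⟩ : ∃ x' : Fin N → ℝ, x = fun j => h * x' j :=
      ⟨fun j => h⁻¹ * x j, by funext j; field_simp⟩
    obtain ⟨ω', rfl⟩ := sc_div hh ω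
    obtain ⟨α', rfl⟩ := sc_div hh α
    have e2 : ∀ (n : Fin N → ℕ) (f g : ℝ),
        (∑ j, (n j : ℝ) * (h * x' j)) + h * f * (h * ω' / (h * m)) +
          h * g * (h * α' / (h * a)) =
        h * ((∑ j, (n j : ℝ) * x' j) + f * (ω' / m) + g * (α' / a)) := by
      intro n f g
      rw [mul_div_mul_left _ _ hh.ne', mul_div_mul_left _ _ hh.ne', mul_add, mul_add,
        Finset.mul_sum]
      congr 1
      · congr 1
        · exact Finset.sum_congr rfl fun j _ => by ring
        · ring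
      · ring
    have e3 : (∑ j, h * x' j) + h * ω' + h * α' = h * ((∑ j, x' j) + ω' + α') := by
      rw [mul_add, mul_add, Finset.mul_sum]
    have hz : ∀ z : ℝ, h * z = 0 → z = 0 := fun z hz => (mul_eq_zero.1 hz).resolve_left hh.ne'
    have hH := H x' ω' α'
      (fun j => sc_of_mul_le hh ((hx j).trans (le_of_eq (by ring))))
      (sc_of_mul_le hh (hω.trans (le_of_eq (by ring))))
      (sc_of_mul_le hh (hα.trans (le_of_eq (by ring))))
    rcases hH with ⟨n, f, g, hf, hmf, hg, hag, hle⟩ | hle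
    · refine Or.inl ⟨n, h * f, h * g, mul_nonneg hh.le hf, fun h0 => ?_,
        mul_nonneg hh.le hg, fun h0 => ?_, ?_⟩
      · rw [hmf (hz _ h0), mul_zero]
      · rw [hag (hz _ h0), mul_zero]
      · rw [e2, e3, ← sc_rep, sc_eq hh r]
        have := sc_mul_le hh hle
        linarith
    · refine Or.inr ?_
      rw [e3]
      have := sc_mul_le hh hle
      linarith

theorem ExpPad.scale (B : ExpPad r) (hh : 0 < h) : ExpPad (sc h r) where
  pad κ Y m a hκ hY := by
    refine sc_le hh r ?_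
    have key := B.pad (h * κ) (Y.map (h * ·)) (h * m) (h * a) (mul_nonneg hh.le hκ)
      (sc_ok hh hY)
    rw [← sc_eq hh r, Multiset.map_cons, mul_zero]
    exact key

theorem ExpS0.scale (B : ExpS0 s s₀) (hh : 0 < h) : ExpS0 (sc h s) (sc h s₀) where
  le κ Y m a hκ hY := by
    refine sc_le hh s₀ ?_
    rw [← sc_eq hh s]
    exact B.le (h * κ) _ _ _ (mul_nonneg hh.le hκ) (sc_ok hh hY)
  cube κ Y m a E hκ hY H := by
    refine sc_le hh s ?_
    refine B.cube (h * κ) _ _ _ (h * E) (mul_nonneg hh.le hκ) (sc_ok hh hY) ?_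
    intro u hu0 hu1
    obtain ⟨u', rfl⟩ := sc_div hh u
    have h1 := H u' (sc_nonneg hh hu0) (sc_of_mul_le hh ((le_of_eq (by ring)).trans hu1))
    have h2 := sc_mul_le hh h1
    have e : h * κ - 3 * (h * u') = h * (κ - 3 * u') := by ring
    rw [e, sc_eq hh s₀]
    linarith
  cau κ Y m a b c hκ hY hb0 hb1 hc0 hc1 := by
    refine sc_le hh s₀ ?_
    have key := B.cau (h * κ) (Y.map (h * ·)) (h * m) (h * a) (h * b) (h * c)
      (mul_nonneg hh.le hκ) (sc_ok hh hY) (mul_nonneg hh.le hb0) (sc_mul_le hh hb1)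
      (mul_nonneg hh.le hc0) (sc_mul_le hh hc1)
    have e1 : h * κ + (h * b + h * c) = h * (κ + (b + c)) := by ring
    have e2 : h * m - h * b = h * (m - b) := by ring
    have e3 : h * a - h * c = h * (a - c) := by ring
    rw [e1, e2, e3, sc_eq hh s₀ (κ + (b + c))] at key
    linarith
  cauS κ y Y m a hκ hy hY := by
    refine sc_le hh s₀ ?_
    have key := B.cauS (h * κ) (h * y) (Y.map (h * ·)) (h * m) (h * a)
      (mul_nonneg hh.le hκ) (mul_nonneg hh.le hy) (sc_ok hh hY)
    have e1 : h * κ + h * y = h * (κ + y) := by ring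
    rw [e1, sc_eq hh s₀ (κ + y)] at key
    rw [Multiset.map_cons]
    linarith

theorem ExpRem.scale (B : ExpRem θ r s s₀) (hh : 0 < h) :
    ExpRem θ (sc h r) (sc h s) (sc h s₀) where
  toExpS0 := B.toExpS0.scale hh
  rem K v y₁ y₂ y₃ m a n E T hm ha hn0 hn g1 g2 g3 hK1 hK2 hv1 hv2 hv3 hE hT hT1 hT2 hch hcube
      v' hv0 hvv := by
    have mx : ∀ x : ℝ, max 0 (h * x) = h * max 0 x := fun x => by
      rw [mul_max_of_nonneg _ _ hh.le, mul_zero]
    have key := B.rem (h * K) (h * v) (h * y₁) (h * y₂) (h * y₃) (h * m) (h * a) (h * n) (h * E)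
      (h * T) (mul_nonneg hh.le hm) (mul_nonneg hh.le ha) (mul_nonneg hh.le hn0)
      (by rw [hn]; ring) (by have := sc_mul_le hh g1; linarith)
      (by have := sc_mul_le hh g2; linarith) (by have := sc_mul_le hh g3; linarith)
      (sc_mul_le hh hK1) (by have := sc_mul_le hh hK2; linarith)
      (by have := sc_mul_le hh hv1; linarith) (by have := sc_mul_le hh hv2; linarith)
      (by have := sc_mul_le hh hv3; linarith) (by have := sc_mul_le hh hE; linarith)
      (by rw [hT]; ring) (by have := sc_mul_le hh hT1; linarith)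
      (by have := sc_mul_le hh hT2; linarith)
      (by
        intro z₁ z₂ z₃ m' a' i k1 k2 k3 k4 k5 k6 k7 k8 k9 k10 k11 k12 k13
        obtain ⟨z₁, rfl⟩ := sc_div hh z₁
        obtain ⟨z₂, rfl⟩ := sc_div hh z₂
        obtain ⟨z₃, rfl⟩ := sc_div hh z₃
        obtain ⟨m', rfl⟩ := sc_div hh m'
        obtain ⟨a', rfl⟩ := sc_div hh a'
        obtain ⟨i, rfl⟩ := sc_div hh i
        have h1 := hch z₁ z₂ z₃ m' a' i (sc_nonneg hh k1) (sc_nonneg hh k2) (sc_nonneg hh k3)
          (sc_of_mul_le hh (by linarith)) (sc_of_mul_le hh k5) (sc_nonneg hh k6)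
          (sc_of_mul_le hh k7) (sc_nonneg hh k8) (sc_of_mul_le hh k9) (sc_of_mul_le hh k10)
          (sc_of_mul_le hh k11) (sc_of_mul_le hh k12) (sc_of_mul_le hh (by linarith))
        have h2 := sc_mul_le hh h1
        rw [mul_add, mul_add, ← sc_eq hh r, ← mx] at h2
        simp only [Multiset.insert_eq_cons, Multiset.map_cons, Multiset.map_singleton] at h2 ⊢
        have e1 : h * ((v + 2 * n - 2 * K) / 3) = (h * v + 2 * (h * n) - 2 * (h * K)) / 3 := by
          ring
        rw [e1] at h2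
        linarith)
      (by
        have h2 := sc_mul_le hh hcube
        rw [mul_add, ← mx] at h2
        have e1 : h * ((v + 2 * n - 2 * K) / 3) = (h * v + 2 * (h * n) - 2 * (h * K)) / 3 := by
          ring
        rw [e1] at h2
        linarith)
      (h * v') (mul_nonneg hh.le hv0) (sc_mul_le hh hvv)
    refine sc_le hh s₀ ?_
    rw [mul_add, ← mx]
    have e1 : h * ((v' + K - 2 * n) / 3) = (h * v' + h * K - 2 * (h * n)) / 3 := by ring
    rw [e1]
    simp only [Multiset.insert_eq_cons, Multiset.map_cons, Multiset.map_singleton] at key ⊢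
    exact key

end Crest.Agent.R017.ER911
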