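import Crest.Agent.R017.Scale_770
import Crest.Agent.R017.Scale_911
import Crest.Agent.R017.NearG_911

/-!
# Row 17, section D: the field of the bundle for three big lumps (helper986)

`T3Fld θ r` : what the absolute part uses of the recursion, as a statement about the character
side `r` alone.

* `t3a` : three big lumps, the region of the column `t3a` (helper777)
* `t3n` : three near-equal lumps over a short family (helper911's `T3N`)
* `T3Fld.rs`, `T3Fld.scale` : scaling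
-/

set_option autoImplicit false

noncomputable section

namespace Crest.Agent.R017.T3F986

open Crest.Agent.R017.ER911 Crest.Agent.R017.Scale770

/-- **three big lumps** -/
structure T3Fld (θ : ℝ) (r : EF) : Prop where
  t3a : ∀ κ A B C m a : ℝ, 0 ≤ κ → 0 ≤ C → 0 ≤ m → 0 ≤ a → C ≤ A → C ≤ B → 4 * C ≤ κ →
    A + B + 2 * C ≤ κ → 6 * (A + B + C + m + a) ≤ 5 * κ →
    40 * (A + B + C + m + a) + 9 * (C + m + a) ≤ 36 * κ →
    5 * (A + B) + 9 * (m + a) ≤ 5 * κ → 3 * (m + 2 * a) ≤ 2 * κ →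
    80 * (A + B + C + m + a) + 30 * C ≤ 73 * κ →
    36 * (A + B + C + m + a) + 6 * C ≤ 31 * κ →
    17 * (A + B + C + m + a) ≤ 13 * κ + 2 * (A + B) →
    15 * (A + B + C + m + a) + 3 * C ≤ 13 * κ →
    40 * (A + B + C + m + a) ≤ 33 * κ →
    ∀ κ' : ℝ, 0 ≤ κ' → κ' ≤ κ →
      r κ' {A, B, C} m a + (κ - κ') / 3 ≤
        κ + (A + B + C + m + a) + 2 * (θ - 7 / 8) * (C + m + a)
  t3n : NG911.T3N θ r

variable {θ d h : ℝ} {r : EF}

/-- **T3a**, `θ = 7/8 + d` -/
theorem T3Fld.t3a' (R : T3Fld (7 / 8 + d) r) {κ A B C m a : ℝ} (hκ : 0 ≤ κ)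
    (hC : 0 ≤ C) (hm : 0 ≤ m) (ha : 0 ≤ a) (hAC : C ≤ A) (hBC : C ≤ B)
    (h4 : 4 * C ≤ κ) (h2 : A + B + 2 * C ≤ κ) (h56 : 6 * (A + B + C + m + a) ≤ 5 * κ)
    (h36 : 40 * (A + B + C + m + a) + 9 * (C + m + a) ≤ 36 * κ)
    (h59 : 5 * (A + B) + 9 * (m + a) ≤ 5 * κ) (hamp : 3 * (m + 2 * a) ≤ 2 * κ)
    (h7 : 80 * (A + B + C + m + a) + 30 * C ≤ 73 * κ)
    (h8 : 36 * (A + B + C + m + a) + 6 * C ≤ 31 * κ)
    (h9 : 17 * (A + B + C + m + a) ≤ 13 * κ + 2 * (A + B))
    (h10 : 15 * (A + B + C + m + a) + 3 * C ≤ 13 * κ)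
    (h11 : 40 * (A + B + C + m + a) ≤ 33 * κ) :
    ∀ κ' : ℝ, 0 ≤ κ' → κ' ≤ κ →
      r κ' {A, B, C} m a + (κ - κ') / 3 ≤
        κ + (A + B + C + m + a) + 2 * d * (C + m + a) := by
  intro κ' h0 h1
  have := R.t3a κ A B C m a hκ hC hm ha hAC hBC h4 h2 h56 h36 h59 hamp h7 h8 h9 h10 h11 κ' h0 h1
  have e : 2 * (7 / 8 + d - 7 / 8) * (C + m + a) = 2 * d * (C + m + a) := by ring
  rwa [e] at this

/-- **scaling** (`rs`) -/
theorem T3Fld.rs (R : T3Fld θ r) (h0 : 0 < h) : T3Fld θ (Scale770.rs h r) where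
  t3a := by
    intro κ A B C m a hκ hC hm ha c1 c2 c3 c4 c5 c6 c7 c8 c9 c10 c11 c12 c13 κ' k0 k1
    have sc : ∀ {x y : ℝ}, x ≤ y → h * x ≤ h * y := fun hxy => (le_sc h0).2 hxy
    have key := R.t3a (h * κ) (h * A) (h * B) (h * C) (h * m) (h * a)
      ((pos_sc h0).2 hκ) ((pos_sc h0).2 hC) ((pos_sc h0).2 hm) ((pos_sc h0).2 ha)
      (sc c1) (sc c2)
      (by have := sc c3; linarith) (by have := sc c4; linarith) (by have := sc c5; linarith)
      (by have := sc c6; linarith) (by have := sc c7; linarith) (by have := sc c8; linarith)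
      (by have := sc c9; linarith) (by have := sc c10; linarith) (by have := sc c11; linarith)
      (by have := sc c12; linarith) (by have := sc c13; linarith)
      (h * κ') ((pos_sc h0).2 k0) (sc k1)
    have e : ({h * A, h * B, h * C} : Multiset ℝ) = ({A, B, C} : Multiset ℝ).map (h * ·) := by
      simp
    rw [e, le_rs (r := r) h0] at key
    rw [← le_sc h0]
    refine le_trans (le_of_eq ?_) (key.trans (le_of_eq ?_)) <;> ring
  t3n := by
    intro k l A B C m a H κ' k0 k1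
    have key := R.t3n (h * k) (h * l) (h * A) (h * B) (h * C) (h * m) (h * a) (H.scale h0.le)
      (h * κ') ((pos_sc h0).2 k0) ((le_sc h0).2 k1)
    have e : ({h * A, h * B, h * C} : Multiset ℝ) = ({A, B, C} : Multiset ℝ).map (h * ·) := by
      simp
    rw [e, le_rs (r := r) h0] at key
    rw [← le_sc h0]
    refine le_trans (le_of_eq ?_) (key.trans (le_of_eq ?_)) <;> ring

/-- **scaling** (`sc`) -/
theorem T3Fld.scale (R : T3Fld θ r) (h0 : 0 < h) : T3Fld θ (sc h r) := R.rs h0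

end Crest.Agent.R017.T3F986
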