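import Crest.Agent.R017.ExpCdef_702
import Crest.Agent.R017.T3Fld_986

/-!
# Row 17, section D: the bundle of the rules for exponents (helper71)

* `ProvE θ r s s₀ rc bc` : everything the certificates consume
-/

set_option autoImplicit false

namespace Crest.Agent.R017.Prov71

open Crest.Agent.R017.ER911 Crest.Agent.R017.ExpC702

/-- **the rules for exponents**: `r` character side, `s` Gauss side, `s₀` Gauss side over
cube-free families (not used any more), `rc` character side over complete families, `bc` absolute boxes over complete
families -/
structure ProvE (θ : ℝ) (r s s₀ rc bc : EF) : Prop where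
  rules : ExpRules θ r s
  lb : ExpLB θ r
  lv : ExpLv θ r
  rem : T3F986.T3Fld θ r
  cpl : ExpC r rc
  box : ExpBox θ rc bc

end Crest.Agent.R017.Prov71
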