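import Crest.Agent.R017.T3Fld_986
import Crest.Agent.R017.CoreM_59
import Crest.Agent.R017.Scale_911
import Crest.Agent.R017.ProvE_71

/-!
# Row 17, section D: boxes with `Σ u > 4/3` by a change of the family (helper954)

For `s = Σ u ≥ 4/3` the columns of the scaled box `u / h`, `h = 3 s / 4` (so `Σ u / h = 4/3`), are
ideal in the complete form at the family `h`, hence ideal at the family `1` with the loss
`h e₀ + 2/3 (h - 1)`; the room of `Al2` pays for it (`key`).  So the coverage is only needed for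
`Σ u ≤ 4/3`.

* `cr r` : the complete functional of `r`
* `CoreL e₀ t₀ rc` : master coverage of every box with `Σ u ≤ 4/3`, `τ = 1`, `t = t₀`
* `core_box`, `BoxB.target` : the box theorem for all boxes and all masses
* `core_box'` : the same when only the scaled box `u / max 1 (3/4 Σ u)` is not near-equal
* `box_big_of` : from the coverage of one scaled box
* `provE_cr` : the bundle of the scaled complete functionals
-/

set_option autoImplicit false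

noncomputable section

namespace Crest.Agent.R017.CovBig954

open Crest.Agent.R017.ER911 Crest.Agent.R017.Hull741 Crest.Agent.R017.Cone59
open Crest.Agent.R017.BoxCov741 Crest.Agent.R017.CovM59 Crest.Agent.R017.ExpC702
open Crest.Agent.R017.Prov71

/-- the complete functional of `r` -/
def cr (r : EF) : EF := fun κ Y m a =>
  sSup {x : ℝ | ∃ κ' : ℝ, 0 ≤ κ' ∧ κ' ≤ κ ∧ x = r κ' Y m a + (κ - κ') / 3}

theorem cr_expC (r : EF) : ExpC r (cr r) where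
  le κ Y m a E hκ _ h := by
    refine csSup_le ⟨_, 0, le_rfl, hκ, rfl⟩ ?_
    rintro x ⟨κ', h0, h1, rfl⟩
    exact h κ' h0 h1

variable {θ : ℝ} {r s rc bx : EF}

theorem le_cr (R : ExpRules θ r s) {κ κ' m a : ℝ} {Y : Multiset ℝ} (h0 : 0 ≤ κ') (h1 : κ' ≤ κ)
    (hY : Ok Y m a) : r κ' Y m a + (κ - κ') / 3 ≤ cr r κ Y m a := by
  refine le_csSup ?_ ⟨κ', h0, h1, rfl⟩
  refine ⟨max (κ + (Y.sum + m + a)) (max (2 * (Y.sum + m + a) + κ / 3)
      ((Y.sum + m + a) + 2 / 3 * (κ + (Y.sum + m + a)))) + κ / 3, ?_⟩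
  rintro x ⟨k, k0, k1, rfl⟩
  have h := R.hbC k Y m a k0 hY
  have h2 : max (k + (Y.sum + m + a)) (max (2 * (Y.sum + m + a) + k / 3)
      ((Y.sum + m + a) + 2 / 3 * (k + (Y.sum + m + a)))) ≤
      max (κ + (Y.sum + m + a)) (max (2 * (Y.sum + m + a) + κ / 3)
      ((Y.sum + m + a) + 2 / 3 * (κ + (Y.sum + m + a)))) := by
    refine max_le_max (by linarith) (max_le_max (by linarith) (by linarith))
  linarith

/-- the complete functional is the largest one -/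
theorem le_cr' (R : ExpRules θ r s) (C : ExpC r rc) {κ m a : ℝ} {Y : Multiset ℝ} (hκ : 0 ≤ κ)
    (hY : Ok Y m a) : rc κ Y m a ≤ cr r κ Y m a :=
  C.le κ Y m a _ hκ hY fun _ h0 h1 => le_cr R h0 h1 hY

theorem ok_rep {N : ℕ} (n : Fin N → ℕ) {u : Fin N → ℝ} (hu : ∀ j, 0 ≤ u j) {f g : ℝ}
    (hf : 0 ≤ f) (hg : 0 ≤ g) : Ok (∑ j, Multiset.replicate (n j) (u j)) f g := by
  refine ⟨fun y hy => ?_, hf, hg⟩
  obtain ⟨j, _, hj⟩ := Multiset.mem_sum.1 hy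
  rw [(Multiset.mem_replicate.1 hj).2]
  exact hu j

/-- an ideal column of the scaled box gives a column of the box at the family `1` -/
theorem ideal_of_scaled (R : ExpRules θ r s) (C : ExpC r rc) {h : ℝ} (hh : 1 ≤ h) {N : ℕ}
    {u : Fin N → ℝ} (hu : ∀ j, 0 ≤ u j) {e₀ : ℝ} {n : Fin N → ℕ} {f g : ℝ}
    (H : Ideal (cr (sc h r)) 1 (fun j => h⁻¹ * u j) e₀ n f g) :
    Ideal rc 1 u (h * e₀ + 2 / 3 * (h - 1)) n (h * f) (h * g) := by
  obtain ⟨hf, hg, H⟩ := H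
  have h0 : 0 < h := by linarith
  have hinv : ∀ j, h * (h⁻¹ * u j) = u j := fun j => by field_simp
  have hw : ∀ j, 0 ≤ h⁻¹ * u j := fun j => mul_nonneg (inv_nonneg.2 h0.le) (hu j)
  refine ⟨mul_nonneg h0.le hf, mul_nonneg h0.le hg, ?_⟩
  refine C.le 1 _ _ _ _ zero_le_one
    (ok_rep n hu (mul_nonneg h0.le hf) (mul_nonneg h0.le hg)) fun κ' k0 k1 => ?_
  have k2 : h⁻¹ * κ' ≤ 1 := by
    rw [inv_mul_le_iff₀ h0]; linarith
  have h1 := le_cr (R.scale h0) (mul_nonneg (inv_nonneg.2 h0.le) k0) k2 (ok_rep n hw hf hg)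
  have h2 := sc_eq h0 r (h⁻¹ * κ') (∑ j, Multiset.replicate (n j) (h⁻¹ * u j)) f g
  rw [sc_rep] at h2
  simp only [hinv] at h2
  have e1 : h * (h⁻¹ * κ') = κ' := by field_simp
  rw [e1] at h2
  have e2 : h * ∑ j, (n j : ℝ) * (h⁻¹ * u j) = ∑ j, (n j : ℝ) * u j := by
    rw [Finset.mul_sum]
    exact Finset.sum_congr rfl fun j _ => by
      calc h * ((n j : ℝ) * (h⁻¹ * u j)) = (n j : ℝ) * (h * (h⁻¹ * u j)) := by ring
        _ = _ := by rw [hinv]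
  have h3 := mul_le_mul_of_nonneg_left (h1.trans H) h0.le
  rw [h2]
  have e3 : h * (sc h r (h⁻¹ * κ') (∑ j, Multiset.replicate (n j) (h⁻¹ * u j)) f g +
      (1 - h⁻¹ * κ') / 3) = h * sc h r (h⁻¹ * κ') (∑ j, Multiset.replicate (n j) (h⁻¹ * u j)) f g +
      (h - h * (h⁻¹ * κ')) / 3 := by ring
  have e4 : h * (1 + (∑ j, (n j : ℝ) * (h⁻¹ * u j) + f + g) + e₀) =
      h + (h * ∑ j, (n j : ℝ) * (h⁻¹ * u j) + h * f + h * g) + h * e₀ := by ring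
  rw [e3, e4, e1, e2] at h3
  linarith

theorem hull_scaled (R : ExpRules θ r s) (C : ExpC r rc) {h : ℝ} (hh : 1 ≤ h) {N : ℕ}
    {u : Fin N → ℝ} (hu : ∀ j, 0 ≤ u j) {e₀ : ℝ} {z : Fin N → ℝ} {f g : ℝ}
    (H : ((z, f, g) : Mon N) ∈ Hull (Ideal (cr (sc h r)) 1 (fun j => h⁻¹ * u j) e₀)) :
    ((z, h * f, h * g) : Mon N) ∈ Hull (Ideal rc 1 u (h * e₀ + 2 / 3 * (h - 1))) := by
  obtain ⟨M, p, n, F, G, hp, hp1, hI, heq⟩ := H
  have e1 : z = fun j => ∑ q, p q * (n q j : ℝ) := congrArg Prod.fst heq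
  have e2 : f = ∑ q, p q * F q := congrArg (fun z => z.2.1) heq
  have e3 : g = ∑ q, p q * G q := congrArg (fun z => z.2.2) heq
  refine ⟨M, p, n, fun q => h * F q, fun q => h * G q, hp, hp1,
    fun q => ideal_of_scaled R C hh hu (hI q), ?_⟩
  refine Prod.ext e1 (Prod.ext ?_ ?_)
  · show h * f = ∑ q, p q * (h * F q)
    rw [e2, Finset.mul_sum]
    exact Finset.sum_congr rfl fun q _ => by ring
  · show h * g = ∑ q, p q * (h * G q)
    rw [e3, Finset.mul_sum]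
    exact Finset.sum_congr rfl fun q _ => by ring

/-- **the room of `Al2` pays for the change of the family** -/
theorem key {θ s m a : ℝ} (hθ : 7 / 8 ≤ θ) (hθ1 : θ ≤ 1) (hs : 4 / 3 ≤ s) (hm : 0 ≤ m) :
    b2 θ * (3 / 4 * s) + (s - 4 / 3) + (2 * θ - 1) * max 0 (m + a - s / 4) ≤
      Al2 θ (s + m + a) a := by
  have hb : 0 ≤ b2 θ := by unfold b2; linarith
  have hk : 0 ≤ 1 - 2 / 3 * θ := by linarith
  set L := s + m + a with hL
  have rL := r2_L L a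
  have rq := r2_q L a
  have A2 : b2 θ * r2 L a + (L - 2 * a) - 1 ≤ Al2 θ L a :=
    (le_max_left _ _).trans (le_max_right _ _)
  have A3 : (1 - 2 / 3 * θ) * r2 L a - 5 / 3 + (2 * θ - 1) * L ≤ Al2 θ L a :=
    (le_max_right _ _).trans (le_max_right _ _)
  rcases le_total (m + a) (s / 4) with h | h
  · rw [max_eq_left (by linarith), mul_zero, add_zero]
    rcases le_total a (m + 1 / 3) with h' | h'
    · have h1 : b2 θ * (3 / 4 * s) ≤ b2 θ * r2 L a :=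
        mul_le_mul_of_nonneg_left (by rw [hL] at rq ⊢; linarith) hb
      rw [hL] at A2 h1 ⊢
      linarith
    · have h1 : (1 - 2 / 3 * θ) * (L - 2 * a) ≤ (1 - 2 / 3 * θ) * r2 L a :=
        mul_le_mul_of_nonneg_left rq hk
      have h2 : 0 ≤ (s - 4 / 3) * (3 / 4 - 2 / 3 * θ) := mul_nonneg (by linarith) (by linarith)
      have h3 : 0 ≤ θ * m := mul_nonneg (by linarith) hm
      have h4 : 0 ≤ (a - 1 / 3) * (8 / 3 * θ - 2) := mul_nonneg (by linarith) (by linarith)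
      refine le_trans ?_ A3
      unfold b2
      rw [hL] at h1 ⊢
      nlinarith
  · rw [max_eq_right (by linarith)]
    have h1 : (1 - 2 / 3 * θ) * (3 / 5 * L) ≤ (1 - 2 / 3 * θ) * r2 L a :=
      mul_le_mul_of_nonneg_left rL hk
    have h2 : 0 ≤ (1 - 2 / 3 * θ) * (m + a - s / 4) := mul_nonneg hk (by linarith)
    refine le_trans ?_ A3
    unfold b2
    rw [hL] at h1 ⊢
    nlinarith

/-- the output of the coverage: master coverage of every box with `Σ u ≤ 4/3` and without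
near-equal five -/
def CoreL (e₀ t₀ : ℝ) (rc : EF) : Prop :=
  ∀ (N : ℕ) (u : Fin N → ℝ), (∀ j, 0 < u j) → NoNE5 u → ∑ j, u j ≤ 4 / 3 →
    CovM rc e₀ t₀ u (fun _ => 1)

theorem noNE5_scale {N : ℕ} {u : Fin N → ℝ} (H : NoNE5 u) {h : ℝ} (hh : 1 ≤ h) :
    NoNE5 (fun j => h⁻¹ * u j) := by
  intro s hs
  obtain ⟨σ, hσ⟩ := H s hs
  refine ⟨σ, ?_⟩
  have e : ∑ i, w5 i * (h⁻¹ * u (s (σ i))) = h⁻¹ * ∑ i, w5 i * u (s (σ i)) := by
    rw [Finset.mul_sum]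
    exact Finset.sum_congr rfl fun i _ => by ring
  rw [e]
  have h0 : 0 < h := by linarith
  have h1 : h⁻¹ ≤ 1 := inv_le_one_of_one_le₀ hh
  calc h⁻¹ * ∑ i, w5 i * u (s (σ i)) ≤ h⁻¹ * 1 :=
        mul_le_mul_of_nonneg_left hσ (inv_nonneg.2 h0.le)
    _ ≤ 1 := by linarith

/-- **the box theorem, `Σ u ≥ 4/3`**, from the coverage of the scaled box -/
theorem box_big_of (hθ : 7 / 8 ≤ θ) (hθ1 : θ ≤ 1) (R : ExpRules θ r s) (C : ExpC r rc)
    (B : ExpBox θ rc bx) {e₀ t₀ μ : ℝ} (ht0 : 0 ≤ t₀) (ht3 : t₀ ≤ 1 / 3) (hμ : 0 ≤ μ)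
    (he : 2 * e₀ + (2 * θ - 1) * t₀ + μ ≤ b2 θ) {N : ℕ} (u : Fin N → ℝ)
    (hu : ∀ j, 0 < u j) (hs : 4 / 3 ≤ ∑ j, u j)
    (hcov : CovM (cr (sc (3 / 4 * ∑ j, u j) r)) e₀ t₀ (fun j => (3 / 4 * ∑ j, u j)⁻¹ * u j)
      (fun _ => 1)) {m a : ℝ} (hm : 0 ≤ m) (ha : 0 ≤ a) :
    bx 1 (Finset.univ.val.map u) m a ≤
      1 + (((∑ j, u j) + m + a) + (Al2 θ ((∑ j, u j) + m + a) a - μ)) / 2 := by
  set S := ∑ j, u j with hS
  set h : ℝ := 3 / 4 * S with hh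
  have h1 : 1 ≤ h := by rw [hh]; linarith
  have h0 : 0 < h := by linarith
  have hsum : ∑ j, h⁻¹ * u j = 4 / 3 := by
    rw [← Finset.mul_sum, ← hS, inv_mul_eq_iff_eq_mul₀ h0.ne', hh]; ring
  unfold CovM at hcov
  have e1 : (4 / 3 - ∑ j, (1 : ℝ) * (h⁻¹ * u j)) / 2 = 0 := by
    simp only [one_mul]; rw [hsum]; norm_num
  rw [e1] at hcov
  -- the masses
  obtain ⟨m', a', hm0, hm1, ha0, ha1, hA, hB⟩ : ∃ m' a' : ℝ, 0 ≤ m' ∧ m' ≤ m ∧ 0 ≤ a' ∧ a' ≤ a ∧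
      m' + a' ≤ h * (1 / 3 - t₀) ∧
      (m + a) - (m' + a') ≤ max 0 (m + a - S / 4) + h * t₀ := by
    have hht : 0 ≤ h * t₀ := mul_nonneg h0.le ht0
    have hh3 : h * (1 / 3) = S / 4 := by rw [hh]; ring
    have hG : 0 ≤ h * (1 / 3 - t₀) := mul_nonneg h0.le (by linarith)
    rcases le_total (m + a) (h * (1 / 3 - t₀)) with hle | hle
    · exact ⟨m, a, hm, le_rfl, ha, le_rfl, hle, by
        have := le_max_left 0 (m + a - S / 4); linarith⟩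
    · have e5 : h * (1 / 3 - t₀) = S / 4 - h * t₀ := by rw [mul_sub, hh3]
      have e6 := le_max_right 0 (m + a - S / 4)
      rcases le_total a (h * (1 / 3 - t₀)) with hle' | hle'
      · exact ⟨h * (1 / 3 - t₀) - a, a, by linarith, by linarith, ha, le_rfl, by linarith,
          by linarith⟩
      · exact ⟨0, h * (1 / 3 - t₀), le_rfl, hm, hG, hle', by linarith, by linarith⟩
  have hA' : h⁻¹ * (m' / 2) + h⁻¹ * (a' / 2) ≤ 1 / 6 - t₀ / 2 := by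
    rw [← mul_add, inv_mul_le_iff₀ h0]
    nlinarith
  have hf0 : 0 ≤ h⁻¹ * (m' / 2) := mul_nonneg (inv_nonneg.2 h0.le) (by linarith)
  have hg0 : 0 ≤ h⁻¹ * (a' / 2) := mul_nonneg (inv_nonneg.2 h0.le) (by linarith)
  have hmem := hull_of_col hcov (f := h⁻¹ * (m' / 2)) (g := h⁻¹ * (a' / 2)) hf0 hg0
    (by linarith) (by linarith)
  have hmem2 := hull_scaled R C h1 (fun j => (hu j).le) hmem
  have e2 : h * (h⁻¹ * (m' / 2)) = m' / 2 := by field_simp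
  have e3 : h * (h⁻¹ * (a' / 2)) = a' / 2 := by field_simp
  rw [e2, e3] at hmem2
  have hb := outer_le B u 1 m a (h * e₀ + 2 / 3 * (h - 1)) zero_le_one (fun j => (hu j).le) hm ha
    (fun _ => 1) m' a' (fun _ => le_rfl) hm1 ha1 hmem2
  simp only [one_mul] at hb
  rw [← hS] at hb
  have hkey := key (a := a) hθ hθ1 hs hm
  have hsp : 0 ≤ 2 * θ - 1 := by linarith
  have hd := mul_le_mul_of_nonneg_left hB hsp
  have hee := mul_le_mul_of_nonneg_left he h0.le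
  have hμh : μ ≤ h * μ := by nlinarith
  have e4 : b2 θ * (3 / 4 * S) = h * b2 θ := by rw [hh]; ring
  have e7 : S - 4 / 3 = 4 / 3 * (h - 1) := by rw [hh]; ring
  rw [e4, e7] at hkey
  rw [mul_add] at hd
  have hfin : 2 * (h * e₀ + 2 / 3 * (h - 1)) + (2 * θ - 1) * ((m + a) - (m' + a')) + μ ≤
      Al2 θ (S + m + a) a := by
    have e8 : h * (2 * e₀ + (2 * θ - 1) * t₀ + μ) =
        2 * (h * e₀) + (2 * θ - 1) * (h * t₀) + h * μ := by ring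
    rw [e8] at hee
    linarith
  have e9 : (S + m + a) - (S + m' + a') = (m + a) - (m' + a') := by ring
  rw [e9] at hb
  linarith

/-- **the box theorem, `Σ u ≥ 4/3`** -/
theorem box_big (hθ : 7 / 8 ≤ θ) (hθ1 : θ ≤ 1) (R : ExpRules θ r s) (C : ExpC r rc)
    (B : ExpBox θ rc bx) {e₀ t₀ μ : ℝ} (ht0 : 0 ≤ t₀) (ht3 : t₀ ≤ 1 / 3) (hμ : 0 ≤ μ)
    (he : 2 * e₀ + (2 * θ - 1) * t₀ + μ ≤ b2 θ)
    (H : ∀ h : ℝ, 1 ≤ h → CoreL e₀ t₀ (cr (sc h r))) {N : ℕ} (u : Fin N → ℝ)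
    (hu : ∀ j, 0 < u j) (hNE : NoNE5 (fun j => (3 / 4 * ∑ j, u j)⁻¹ * u j))
    (hs : 4 / 3 ≤ ∑ j, u j) {m a : ℝ} (hm : 0 ≤ m) (ha : 0 ≤ a) :
    bx 1 (Finset.univ.val.map u) m a ≤
      1 + (((∑ j, u j) + m + a) + (Al2 θ ((∑ j, u j) + m + a) a - μ)) / 2 := by
  have h0 : 0 < 3 / 4 * ∑ j, u j := by linarith
  refine box_big_of hθ hθ1 R C B ht0 ht3 hμ he u hu hs
    (H _ (by linarith) N _ (fun j => mul_pos (inv_pos.2 h0) (hu j)) hNE (le_of_eq ?_)) hm ha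
  rw [← Finset.mul_sum, inv_mul_eq_iff_eq_mul₀ h0.ne']
  ring

/-- **the box theorem for all boxes** -/
theorem box_all (hθ : 7 / 8 ≤ θ) (hθ1 : θ ≤ 1) (R : ExpRules θ r s) (C : ExpC r rc)
    (B : ExpBox θ rc bx) {e₀ t₀ μ : ℝ} (ht0 : 0 ≤ t₀) (ht3 : t₀ ≤ 1 / 3) (hμ : 0 ≤ μ)
    (he : 2 * e₀ + (2 * θ - 1) * t₀ + μ ≤ b2 θ) (H0 : CoreL e₀ t₀ rc)
    (H : ∀ h : ℝ, 1 ≤ h → CoreL e₀ t₀ (cr (sc h r))) {N : ℕ} (u : Fin N → ℝ)
    (hu : ∀ j, 0 < u j) (hNE : NoNE5 u) {m a : ℝ} (hm : 0 ≤ m) (ha : 0 ≤ a) :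
    bx 1 (Finset.univ.val.map u) m a ≤
      1 + (((∑ j, u j) + m + a) + (Al2 θ ((∑ j, u j) + m + a) a - μ)) / 2 := by
  rcases le_total (4 / 3) (∑ j, u j) with h | h
  · exact box_big hθ hθ1 R C B ht0 ht3 hμ he H u hu (noNE5_scale hNE (by linarith)) h hm ha
  · exact cov_box hθ hθ1 B u (fun j => (hu j).le) hm ha ht0 ht3 he (fun _ => 1) (fun _ => le_rfl)
      (by simp only [one_mul]; rw [min_eq_left h]) (H0 N u hu hNE h)

/-- the same, near-equality is only excluded in the scaled box -/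
theorem box_all' (hθ : 7 / 8 ≤ θ) (hθ1 : θ ≤ 1) (R : ExpRules θ r s) (C : ExpC r rc)
    (B : ExpBox θ rc bx) {e₀ t₀ μ : ℝ} (ht0 : 0 ≤ t₀) (ht3 : t₀ ≤ 1 / 3) (hμ : 0 ≤ μ)
    (he : 2 * e₀ + (2 * θ - 1) * t₀ + μ ≤ b2 θ) (H0 : CoreL e₀ t₀ rc)
    (H : ∀ h : ℝ, 1 ≤ h → CoreL e₀ t₀ (cr (sc h r))) {N : ℕ} (u : Fin N → ℝ)
    (hu : ∀ j, 0 < u j) (hNE : NoNE5 (fun j => u j / max 1 (3 / 4 * ∑ j, u j))) {m a : ℝ}
    (hm : 0 ≤ m) (ha : 0 ≤ a) :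
    bx 1 (Finset.univ.val.map u) m a ≤
      1 + (((∑ j, u j) + m + a) + (Al2 θ ((∑ j, u j) + m + a) a - μ)) / 2 := by
  rcases le_total (4 / 3) (∑ j, u j) with h | h
  · rw [max_eq_right (by linarith)] at hNE
    refine box_big hθ hθ1 R C B ht0 ht3 hμ he H u hu ?_ h hm ha
    have e : (fun j => (3 / 4 * ∑ j, u j)⁻¹ * u j) = fun j => u j / (3 / 4 * ∑ j, u j) := by
      funext j; exact (div_eq_inv_mul _ _).symm
    rw [e]
    exact hNE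
  · rw [max_eq_left (by linarith)] at hNE
    simp only [div_one] at hNE
    exact cov_box hθ hθ1 B u (fun j => (hu j).le) hm ha ht0 ht3 he (fun _ => 1) (fun _ => le_rfl)
      (by simp only [one_mul]; rw [min_eq_left h]) (H0 N u hu hNE h)

/-- a larger functional -/
theorem ExpBox.mono {rc' : EF} (B : ExpBox θ rc bx)
    (h : ∀ (κ : ℝ) (Y : Multiset ℝ) (m a : ℝ), 0 ≤ κ → Ok Y m a → rc κ Y m a ≤ rc' κ Y m a) :
    ExpBox θ rc' bx where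
  sup := B.sup
  supS := B.supS
  outer N u κ m a E hκ hu hm ha H := by
    refine B.outer N u κ m a E hκ hu hm ha fun x ω α hx hω hα => ?_
    rcases H x ω α hx hω hα with ⟨n, f, g, hf, hf0, hg, hg0, hle⟩ | hle
    · refine Or.inl ⟨n, f, g, hf, hf0, hg, hg0, ?_⟩
      have := h κ _ f g hκ (ok_rep n hu hf hg)
      linarith
    · exact Or.inr hle

theorem sc_le_cr (R : ExpRules θ r s) (C : ExpC r rc) {h : ℝ} (hh : 0 < h) {κ m a : ℝ}
    {Y : Multiset ℝ} (hκ : 0 ≤ κ) (hY : Ok Y m a) : sc h rc κ Y m a ≤ cr (sc h r) κ Y m a := by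
  refine sc_le hh rc ?_
  refine C.le (h * κ) _ _ _ _ (mul_nonneg hh.le hκ) (sc_ok hh hY) fun κ' k0 k1 => ?_
  obtain ⟨k, rfl⟩ := sc_div hh κ'
  have k0' := sc_nonneg hh k0
  have k1' := sc_of_mul_le hh k1
  have h1 := mul_le_mul_of_nonneg_left (le_cr (R.scale hh) k0' k1' hY) hh.le
  rw [sc_eq hh r k Y m a]
  linarith

/-- **the scaled bundle with the complete functional** -/
theorem provE_cr {s₀ bc : EF} (P : ProvE θ r s s₀ rc bc) {h : ℝ} (hh : 0 < h) :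
    ProvE θ (sc h r) (sc h s) (sc h s₀) (cr (sc h r)) (sc h bc) where
  rules := P.rules.scale hh
  lb := P.lb.scale hh
  lv := P.lv.scale hh
  rem := P.rem.scale hh
  cpl := cr_expC _
  box := ExpBox.mono (P.box.scale hh) fun _ _ _ _ hκ hY => sc_le_cr P.rules P.cpl hh hκ hY

/-- the box bound -/
def BoxB (θ μ : ℝ) (bx : EF) : Prop :=
  ∀ (N : ℕ) (u : Fin N → ℝ), (∀ j, 0 < u j) → NoNE5 u → ∀ m a : ℝ, 0 ≤ m → 0 ≤ a →
    bx 1 (Finset.univ.val.map u) m a ≤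
      1 + (((∑ j, u j) + m + a) + (Al2 θ ((∑ j, u j) + m + a) a - μ)) / 2

/-- **coverage for `Σ u ≤ 4/3` in all bundles gives the box theorem** -/
theorem core_box (hθ : 7 / 8 ≤ θ) (hθ1 : θ ≤ 1) {e₀ t₀ μ : ℝ} (ht0 : 0 ≤ t₀)
    (ht3 : t₀ ≤ 1 / 3) (hμ : 0 ≤ μ) (he : 2 * e₀ + (2 * θ - 1) * t₀ + μ ≤ b2 θ)
    (H : ∀ r s s₀ rc bc : EF, ProvE θ r s s₀ rc bc → CoreL e₀ t₀ rc) {s₀ bc : EF}
    (P : ProvE θ r s s₀ rc bc) : BoxB θ μ bc := fun _ u hu hNE _ _ hm ha =>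
  box_all hθ hθ1 P.rules P.cpl P.box ht0 ht3 hμ he (H _ _ _ _ _ P)
    (fun _ h1 => H _ _ _ _ _ (provE_cr P (by linarith))) u hu hNE hm ha

/-- the same, near-equality is only excluded in the scaled box -/
theorem core_box' (hθ : 7 / 8 ≤ θ) (hθ1 : θ ≤ 1) {e₀ t₀ μ : ℝ} (ht0 : 0 ≤ t₀)
    (ht3 : t₀ ≤ 1 / 3) (hμ : 0 ≤ μ) (he : 2 * e₀ + (2 * θ - 1) * t₀ + μ ≤ b2 θ)
    (H : ∀ r s s₀ rc bc : EF, ProvE θ r s s₀ rc bc → CoreL e₀ t₀ rc) {s₀ bc : EF}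
    (P : ProvE θ r s s₀ rc bc) {N : ℕ} (u : Fin N → ℝ) (hu : ∀ j, 0 < u j)
    (hNE : NoNE5 (fun j => u j / max 1 (3 / 4 * ∑ j, u j))) {m a : ℝ} (hm : 0 ≤ m) (ha : 0 ≤ a) :
    bc 1 (Finset.univ.val.map u) m a ≤
      1 + (((∑ j, u j) + m + a) + (Al2 θ ((∑ j, u j) + m + a) a - μ)) / 2 :=
  box_all' hθ hθ1 P.rules P.cpl P.box ht0 ht3 hμ he (H _ _ _ _ _ P)
    (fun _ h1 => H _ _ _ _ _ (provE_cr P (by linarith))) u hu hNE hm ha

/-- the target at the family `h` -/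
theorem BoxB.target {μ : ℝ} (H : BoxB θ μ bx) (hθ : 7 / 8 ≤ θ) (hθ1 : θ ≤ 1) {N : ℕ}
    (u : Fin N → ℝ) (hu : ∀ j, 0 < u j) (hNE : NoNE5 u) {m a : ℝ} (hm : 0 ≤ m) (ha : 0 ≤ a)
    {h q c : ℝ} (h0 : 0 < h) (hh : h ≤ 1) (hq : h * ((∑ j, u j) + m + a) = q + c)
    (hc' : h * a = c) (hc : c ≤ 1 / 3) (hfull : q + c ≤ 5 / 3) (hqc : q - c ≤ 1) :
    h * bx 1 (Finset.univ.val.map u) m a + h * μ / 2 ≤ Tg2 θ h q c := by
  have h1 := H N u hu hNE m a hm ha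
  set L := (∑ j, u j) + m + a
  have h2 := le_target2 (e := Al2 θ L a - μ) hθ hθ1 h0 hh hq hc' hc hfull hqc le_rfl
  have h3 := mul_le_mul_of_nonneg_left h1 h0.le
  have h4 : h * (1 + (L + (Al2 θ L a - μ)) / 2) = h + (q + c) / 2 + h * (Al2 θ L a - μ) / 2 := by
    rw [← hq]; ring
  linarith

end Crest.Agent.R017.CovBig954
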