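import Crest.Agent.R017.ExpRules_911

/-!
# Row 17, section D: scaling of the exponent rules (helper770)

`rs h r κ Y m a = r (hκ) (hY) (hm) (ha) / h`; all structures of `ExpRules_911` are invariant, so
that everything may be proved at the family `1`.
-/

set_option autoImplicit false

noncomputable section

namespace Crest.Agent.R017.Scale770

open Crest.Agent.R017.ER911

/-- the scaled exponent function -/
def rs (h : ℝ) (r : EF) : EF := fun κ Y m a => r (h * κ) (Y.map (h * ·)) (h * m) (h * a) / h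

variable {h : ℝ} {θ : ℝ} {r s s₀ bx : EF}

lemma rs_le (h0 : 0 < h) {κ m a E : ℝ} {Y : Multiset ℝ} :
    rs h r κ Y m a ≤ E ↔ r (h * κ) (Y.map (h * ·)) (h * m) (h * a) ≤ h * E := by
  unfold rs
  rw [div_le_iff₀ h0, mul_comm E h]

lemma le_rs (h0 : 0 < h) {κ m a : ℝ} {Y : Multiset ℝ} :
    r (h * κ) (Y.map (h * ·)) (h * m) (h * a) = h * rs h r κ Y m a := by
  unfold rs
  field_simp

lemma sum_sc (Y : Multiset ℝ) : (Y.map (h * ·)).sum = h * Y.sum := by
  rw [Multiset.sum_map_mul_left]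
  simp

lemma ok_sc (h0 : 0 < h) {Y : Multiset ℝ} {m a : ℝ} (hY : Ok Y m a) :
    Ok (Y.map (h * ·)) (h * m) (h * a) := by
  refine ⟨fun y hy => ?_, mul_nonneg h0.le hY.2.1, mul_nonneg h0.le hY.2.2⟩
  obtain ⟨z, hz, rfl⟩ := Multiset.mem_map.1 hy
  exact mul_nonneg h0.le (hY.1 z hz)

lemma sh_sc (h0 : 0 < h) {Y' Y : Multiset ℝ} (hs : Sh Y' (Y.map (h * ·))) :
    ∃ Z : Multiset ℝ, Y' = Z.map (h * ·) ∧ Sh Z Y := by
  refine ⟨Y'.map (h⁻¹ * ·), ?_, ?_⟩
  · rw [Multiset.map_map]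
    conv_lhs => rw [← Multiset.map_id Y']
    refine Multiset.map_congr rfl fun x _ => ?_
    simp only [id, Function.comp_apply]
    field_simp
  · unfold Sh at hs ⊢
    rw [Multiset.rel_map_left]
    rw [Multiset.rel_map_right] at hs
    refine hs.mono fun a _ b _ hab => ?_
    constructor
    · exact mul_nonneg (inv_nonneg.2 h0.le) hab.1
    · rw [inv_mul_le_iff₀ h0]; exact hab.2

lemma pos_sc (h0 : 0 < h) {x : ℝ} : 0 ≤ h * x ↔ 0 ≤ x := by
  constructor
  · intro hx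
    by_contra hc
    push Not at hc
    have := mul_neg_of_pos_of_neg h0 hc
    linarith
  · exact fun hx => mul_nonneg h0.le hx

lemma le_sc (h0 : 0 < h) {x y : ℝ} : h * x ≤ h * y ↔ x ≤ y := mul_le_mul_iff_right₀ h0

lemma ex_sc (h0 : 0 < h) (x : ℝ) : ∃ y, x = h * y := ⟨x / h, by field_simp⟩

lemma max_sc (h0 : 0 < h) (x y : ℝ) : max (h * x) (h * y) = h * max x y :=
  (mul_max_of_nonneg _ _ h0.le).symm

/-- **scaling of `ExpRules`** -/
theorem rules (h0 : 0 < h) (R : ExpRules θ r s) : ExpRules θ (rs h r) (rs h s) where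
  hbC := by
    intro κ Y m a hκ hY
    rw [rs_le h0]
    refine (R.hbC (h * κ) _ _ _ ((pos_sc h0).2 hκ) (ok_sc h0 hY)).trans (le_of_eq ?_)
    rw [sum_sc, ← max_sc h0, ← max_sc h0]
    congr 1
    · ring
    · congr 1 <;> ring
  hbG := by
    intro κ Y m a hκ hY
    rw [rs_le h0]
    refine (R.hbG (h * κ) _ _ _ ((pos_sc h0).2 hκ) (ok_sc h0 hY)).trans (le_of_eq ?_)
    rw [sum_sc, ← max_sc h0, ← max_sc h0]
    congr 1
    · ring
    · congr 1 <;> ring
  tf := by
    intro κ y₁ y₂ h1 h2 h3 h4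
    rw [rs_le h0]
    have := R.tf (h * κ) (h * y₁) (h * y₂) ((pos_sc h0).2 h1) ((pos_sc h0).2 h2)
      ((le_sc h0).2 h3) ((le_sc h0).2 h4)
    have e : ({y₁, y₂} : Multiset ℝ).map (h * ·) = {h * y₁, h * y₂} := by simp
    rw [e, mul_zero]
    refine this.trans (le_of_eq ?_)
    ring
  poisC := by
    intro κ Y m a E hκ hY hE1 hE2 hch κ' hκ' hκκ
    have := R.poisC (h * κ) (Y.map (h * ·)) (h * m) (h * a) (h * E) ((pos_sc h0).2 hκ)
      (ok_sc h0 hY) (by
        rw [sum_sc, ← mul_add, ← mul_add, ← mul_add, le_sc h0]; exact hE1)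
      (by
        have e : 2 * (((Y.map (h * ·)).sum) + h * m + h * a) = h * (2 * (Y.sum + m + a)) := by
          rw [sum_sc]; ring
        rw [e, le_sc h0]; exact hE2)
      (fun Y' m' a' i hsh hm0 hm1 ha0 ha1 hi0 hi1 => by
        obtain ⟨Z, rfl, hZ⟩ := sh_sc h0 hsh
        obtain ⟨m'', rfl⟩ := ex_sc h0 m'
        obtain ⟨a'', rfl⟩ := ex_sc h0 a'
        obtain ⟨i'', rfl⟩ := ex_sc h0 i
        have e1 : 2 * ((Z.map (h * ·)).sum + h * m'' + h * a'') - h * κ =
          h * (2 * (Z.sum + m'' + a'') - κ) := by rw [sum_sc]; ring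
        rw [e1, le_sc h0] at hi1
        have h2 := hch Z m'' a'' i'' hZ ((pos_sc h0).1 hm0) ((le_sc h0).1 hm1)
          ((pos_sc h0).1 ha0) ((le_sc h0).1 ha1) ((pos_sc h0).1 hi0) hi1
        rw [← le_sc h0] at h2
        refine le_trans (le_of_eq ?_) h2
        rw [sum_sc, sum_sc, le_rs (r := s) h0]
        ring)
      (h * κ') ((pos_sc h0).2 hκ') ((le_sc h0).2 hκκ)
    rw [← le_sc h0]
    refine le_trans (le_of_eq ?_) this
    rw [le_rs (r := r) h0]
    ring
  poisG := by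
    intro κ Y m a E hκ hY hE1 hch hcube κ' hκ' hκκ
    have := R.poisG (h * κ) (Y.map (h * ·)) (h * m) (h * a) (h * E) ((pos_sc h0).2 hκ)
      (ok_sc h0 hY) (by
        rw [sum_sc, ← mul_add, ← mul_add, ← mul_add, le_sc h0]; exact hE1)
      (fun Y' m' a' i hsh hm0 hm1 ha0 ha1 hi0 hyi hi1 => by
        obtain ⟨Z, rfl, hZ⟩ := sh_sc h0 hsh
        obtain ⟨m'', rfl⟩ := ex_sc h0 m'
        obtain ⟨a'', rfl⟩ := ex_sc h0 a'
        obtain ⟨i'', rfl⟩ := ex_sc h0 i
        have e1 : 2 * ((Y.map (h * ·)).sum + h * m + h * a) - h * κ =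
          h * (2 * (Y.sum + m + a) - κ) := by rw [sum_sc]; ring
        rw [e1, le_sc h0] at hi1
        have h2 := hch Z m'' a'' i'' hZ ((pos_sc h0).1 hm0) ((le_sc h0).1 hm1)
          ((pos_sc h0).1 ha0) ((le_sc h0).1 ha1) ((pos_sc h0).1 hi0)
          (fun y hy => (le_sc h0).1 (hyi _ (Multiset.mem_map_of_mem _ hy))) hi1
        rw [← le_sc h0] at h2
        refine le_trans (le_of_eq ?_) h2
        rw [sum_sc, sum_sc, le_rs (r := r) h0]
        ring)
      (fun Y' m' a' hsh hm0 hm1 ha0 ha1 hk => by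
        obtain ⟨Z, rfl, hZ⟩ := sh_sc h0 hsh
        obtain ⟨m'', rfl⟩ := ex_sc h0 m'
        obtain ⟨a'', rfl⟩ := ex_sc h0 a'
        have e1 : 2 * ((Y.map (h * ·)).sum + h * m + h * a) = h * (2 * (Y.sum + m + a)) := by
          rw [sum_sc]; ring
        rw [e1, le_sc h0] at hk
        have h2 := hcube Z m'' a'' hZ ((pos_sc h0).1 hm0) ((le_sc h0).1 hm1)
          ((pos_sc h0).1 ha0) ((le_sc h0).1 ha1) hk
        rw [← le_sc h0] at h2
        refine le_trans (le_of_eq ?_) h2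
        rw [sum_sc, sum_sc]
        ring)
      (h * κ') ((pos_sc h0).2 hκ') ((le_sc h0).2 hκκ)
    rw [← le_sc h0]
    refine le_trans (le_of_eq ?_) this
    rw [le_rs (r := s) h0]
    ring
  cau := by
    intro κ Y m a b c hκ hY hb0 hb1 hc0 hc1
    rw [rs_le h0]
    have := R.cau (h * κ) (Y.map (h * ·)) (h * m) (h * a) (h * b) (h * c) ((pos_sc h0).2 hκ)
      (ok_sc h0 hY) ((pos_sc h0).2 hb0) ((le_sc h0).2 hb1) ((pos_sc h0).2 hc0) ((le_sc h0).2 hc1)
    refine this.trans (le_of_eq ?_)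
    rw [mul_add h (b + c) (rs h s (κ + (b + c)) Y (m - b) (a - c)), ← le_rs (r := s) h0]
    ring_nf
  cauS := by
    intro κ y Y m a hκ hy hY
    rw [rs_le h0, Multiset.map_cons]
    have := R.cauS (h * κ) (h * y) (Y.map (h * ·)) (h * m) (h * a) ((pos_sc h0).2 hκ)
      ((pos_sc h0).2 hy) (ok_sc h0 hY)
    refine this.trans (le_of_eq ?_)
    rw [mul_add h y (rs h s (κ + y) Y m a), ← le_rs (r := s) h0, mul_add h κ y]
  flip := by
    intro κ y Y m a E hκ hy hY h1 h2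
    rw [rs_le h0, Multiset.map_cons]
    refine R.flip (h * κ) (h * y) (Y.map (h * ·)) (h * m) (h * a) (h * E) ((pos_sc h0).2 hκ)
      ((pos_sc h0).2 hy) (ok_sc h0 hY) (fun y' h3 h4 h5 => ?_) (fun y' t h3 h4 h5 h6 h7 => ?_)
    · obtain ⟨y'', rfl⟩ := ex_sc h0 y'
      have h8 := h1 y'' ((pos_sc h0).1 h3) ((le_sc h0).1 h4) (by
        rw [← le_sc h0]
        calc h * (2 * y'') = 2 * (h * y'') := by ring
          _ ≤ _ := h5)
      rw [rs_le h0, Multiset.map_cons] at h8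
      exact h8
    · obtain ⟨y'', rfl⟩ := ex_sc h0 y'
      obtain ⟨t'', rfl⟩ := ex_sc h0 t
      have h8 := h2 y'' t'' ((le_sc h0).1 h3) ((le_sc h0).1 h4) (by
        rw [← le_sc h0]
        calc h * κ ≤ 2 * (h * y'') := h5
          _ = _ := by ring) ((pos_sc h0).1 h6) (by
        rw [← le_sc h0]
        calc h * t'' ≤ h * κ - h * y'' := h7
          _ = _ := by ring)
      rw [← le_sc h0] at h8
      refine le_trans (le_of_eq ?_) h8
      rw [mul_add h (2 * y'' - κ + t'') (rs h r κ _ m a), ← le_rs (r := r) h0, Multiset.map_cons]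
      ring_nf
  sup := by
    intro κ Y m a b c hκ hY hb0 hb1 hc0 hc1
    rw [rs_le h0]
    have := R.sup (h * κ) (Y.map (h * ·)) (h * m) (h * a) (h * b) (h * c) ((pos_sc h0).2 hκ)
      (ok_sc h0 hY) ((pos_sc h0).2 hb0) ((le_sc h0).2 hb1) ((pos_sc h0).2 hc0) ((le_sc h0).2 hc1)
    refine this.trans (le_of_eq ?_)
    rw [mul_add h (2 * θ * (b + c)) (rs h r κ Y (m - b) (a - c)), ← le_rs (r := r) h0]
    ring_nf
  supS := by
    intro κ y Y m a hκ hy hY
    rw [rs_le h0, Multiset.map_cons]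
    have := R.supS (h * κ) (h * y) (Y.map (h * ·)) (h * m) (h * a) ((pos_sc h0).2 hκ)
      ((pos_sc h0).2 hy) (ok_sc h0 hY)
    refine this.trans (le_of_eq ?_)
    rw [mul_add h (2 * θ * y) (rs h r κ Y m a), ← le_rs (r := r) h0]
    ring
  zero := by
    intro κ Y m a hκ hY
    rw [rs_le h0, Multiset.map_cons, mul_zero]
    refine (R.zero (h * κ) (Y.map (h * ·)) (h * m) (h * a) ((pos_sc h0).2 hκ) (ok_sc h0 hY)).trans
      (le_of_eq ?_)
    rw [le_rs (r := r) h0]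
  zeroG := by
    intro κ Y m a hκ hY
    rw [rs_le h0, Multiset.map_cons, mul_zero]
    refine (R.zeroG (h * κ) (Y.map (h * ·)) (h * m) (h * a) ((pos_sc h0).2 hκ) (ok_sc h0 hY)).trans
      (le_of_eq ?_)
    rw [le_rs (r := s) h0]

/-- **scaling of `ExpLB`** -/
theorem lb (h0 : 0 < h) (L : ExpLB θ r) : ExpLB θ (rs h r) where
  lb := by
    intro e κ Y m a m₀ a₀ he hκ hY hyk hm0 hm1 ha0 ha1 h56 h1 h2
    rw [rs_le h0]
    rw [rs_le h0] at h1
    have e1 : ∀ m a : ℝ, (Y.map (h * ·)).sum + h * m + h * a = h * (Y.sum + m + a) := fun m a => by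
      rw [sum_sc]; ring
    have := L.lb (h * e) (h * κ) (Y.map (h * ·)) (h * m) (h * a) (h * m₀) (h * a₀)
      ((pos_sc h0).2 he) ((pos_sc h0).2 hκ) (ok_sc h0 hY)
      (fun y hy => by
        obtain ⟨z, hz, rfl⟩ := Multiset.mem_map.1 hy
        exact (le_sc h0).2 (hyk z hz))
      ((pos_sc h0).2 hm0) ((le_sc h0).2 hm1) ((pos_sc h0).2 ha0) ((le_sc h0).2 ha1)
      (by
        rw [e1]
        calc 5 * (h * κ) = h * (5 * κ) := by ring
          _ ≤ h * (6 * (Y.sum + m₀ + a₀)) := (le_sc h0).2 h56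
          _ = _ := by ring)
      (by
        rw [e1]
        refine h1.trans (le_of_eq ?_)
        ring)
      (fun h3 => by
        rw [sum_sc] at h3 ⊢
        have h4 := h2 (by
          rw [← mul_lt_mul_iff_right₀ h0]
          calc h * (4 * κ) = 4 * (h * κ) := by ring
            _ < 3 * (h * Y.sum) := h3
            _ = _ := by ring)
        rw [rs_le h0, mul_zero] at h4
        refine h4.trans (le_of_eq ?_)
        ring)
    refine this.trans (le_of_eq ?_)
    rw [e1, ← max_sc h0]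
    congr 1 <;> ring

lemma lvok_sc (h0 : 0 < h) {κ l v : ℝ} : LVok θ (h * κ) (h * l) (h * v) ↔ LVok θ κ l v := by
  unfold LVok
  have e1 : 4 / 3 * (h * κ) = h * (4 / 3 * κ) := by ring
  have e2 : 5 / 6 * (h * l) = h * (5 / 6 * l) := by ring
  have e3 : (2 - θ) * (h * l) + (2 * θ - 1) * (h * κ) = h * ((2 - θ) * l + (2 * θ - 1) * κ) := by
    ring
  have e4 : 2 * (h * v) = h * (2 * v) := by ring
  rw [e1, e2, e3, e4, le_sc h0, le_sc h0, le_sc h0]

lemma map_univ_sc {N : ℕ} (Y : Fin N → ℝ) :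
    (Finset.univ.val.map Y).map (h * ·) = Finset.univ.val.map (fun j => h * Y j) := by
  rw [Multiset.map_map]
  rfl

lemma rep_sc {N : ℕ} (n : Fin N → ℕ) (y : Fin N → ℝ) :
    (∑ j, Multiset.replicate (n j) (y j)).map (h * ·) =
      ∑ j, Multiset.replicate (n j) (h * y j) := by
  have : ∀ s : Finset (Fin N), (∑ j ∈ s, Multiset.replicate (n j) (y j)).map (h * ·) =
      ∑ j ∈ s, Multiset.replicate (n j) (h * y j) := by
    classical
    intro s
    induction s using Finset.induction_on with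
    | empty => simp
    | insert a s ha ih =>
      rw [Finset.sum_insert ha, Finset.sum_insert ha, Multiset.map_add, ih, Multiset.map_replicate]
  exact this _

lemma sum_n_sc {N : ℕ} (n : Fin N → ℕ) (y : Fin N → ℝ) :
    ∑ j, (n j : ℝ) * (h * y j) = h * ∑ j, (n j : ℝ) * y j := by
  rw [Finset.mul_sum]
  exact Finset.sum_congr rfl fun j _ => by ring

lemma div_sc (h0 : 0 < h) (f ω m : ℝ) : h * f * (h * ω / (h * m)) = h * (f * (ω / m)) := by
  rw [mul_div_mul_left _ _ h0.ne']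
  ring

/-- **scaling of `ExpLv`** -/
theorem lv (h0 : 0 < h) (L : ExpLv θ r) : ExpLv θ (rs h r) where
  lev := by
    intro N Y κ M A E hκ hY hM hA H
    rw [rs_le h0, map_univ_sc]
    refine L.lev N (fun j => h * Y j) (h * κ) (h * M) (h * A) (h * E) ((pos_sc h0).2 hκ)
      (fun j => ⟨(pos_sc h0).2 (hY j).1, (le_sc h0).2 (hY j).2⟩) ((pos_sc h0).2 hM)
      ((pos_sc h0).2 hA) ?_
    intro y x m a ω α hy hm0 hm1 ha0 ha1 hx hω hα
    obtain ⟨y', rfl⟩ : ∃ y' : Fin N → ℝ, y = fun j => h * y' j :=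
      ⟨fun j => y j / h, funext fun j => by field_simp⟩
    obtain ⟨x', rfl⟩ : ∃ x' : Fin N → ℝ, x = fun j => h * x' j :=
      ⟨fun j => x j / h, funext fun j => by field_simp⟩
    obtain ⟨m', rfl⟩ := ex_sc h0 m
    obtain ⟨a', rfl⟩ := ex_sc h0 a
    obtain ⟨ω', rfl⟩ := ex_sc h0 ω
    obtain ⟨α', rfl⟩ := ex_sc h0 α
    have hth : ∀ u v : ℝ, h * u ≤ θ * (h * v) → u ≤ θ * v := fun u v huv => by
      rw [← le_sc h0]
      calc h * u ≤ θ * (h * v) := huv
        _ = _ := by ring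
    have hz : ∀ u : ℝ, h * u = 0 → u = 0 := fun u hu => (mul_eq_zero.1 hu).resolve_left h0.ne'
    have hsx : ∑ j, h * x' j = h * ∑ j, x' j := (Finset.mul_sum _ _ _).symm
    rcases H y' x' m' a' ω' α' (fun j => ⟨(pos_sc h0).1 (hy j).1, (le_sc h0).1 (hy j).2⟩)
      ((pos_sc h0).1 hm0) ((le_sc h0).1 hm1) ((pos_sc h0).1 ha0) ((le_sc h0).1 ha1)
      (fun j => hth _ _ (hx j)) (hth _ _ hω) (hth _ _ hα) with
      ⟨n, f, g, hf, hmf, hg, hag, h1, h2⟩ | ⟨n, f, g, hf, hmf, hg, hag, h1⟩ | h1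
    · left
      refine ⟨n, h * f, h * g, (pos_sc h0).2 hf, fun h3 => by rw [hmf (hz _ h3), mul_zero],
        (pos_sc h0).2 hg, fun h3 => by rw [hag (hz _ h3), mul_zero], ?_, ?_⟩
      · rw [div_sc h0, div_sc h0, sum_n_sc, sum_n_sc, ← mul_add, ← mul_add, ← mul_add, ← mul_add,
          lvok_sc h0]
        exact h1
      · rw [div_sc h0, div_sc h0, sum_n_sc, sum_n_sc, hsx]
        rw [← le_sc h0] at h2
        refine le_trans (le_of_eq ?_) h2
        ring
    · right; left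
      refine ⟨n, h * f, h * g, (pos_sc h0).2 hf, fun h3 => by rw [hmf (hz _ h3), mul_zero],
        (pos_sc h0).2 hg, fun h3 => by rw [hag (hz _ h3), mul_zero], ?_⟩
      rw [div_sc h0, div_sc h0, sum_n_sc, hsx, ← rep_sc, le_rs (r := r) h0]
      rw [← le_sc h0] at h1
      refine le_trans (le_of_eq ?_) h1
      ring
    · right; right
      rw [hsx]
      rw [← le_sc h0] at h1
      refine le_trans (le_of_eq ?_) h1
      ring

/-- **scaling of `ExpBox`** -/
theorem box (h0 : 0 < h) (B : ExpBox θ r bx) : ExpBox θ (rs h r) (rs h bx) where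
  sup := by
    intro κ Y m a b c hκ hY hb0 hb1 hc0 hc1
    rw [rs_le h0]
    have := B.sup (h * κ) (Y.map (h * ·)) (h * m) (h * a) (h * b) (h * c) ((pos_sc h0).2 hκ)
      (ok_sc h0 hY) ((pos_sc h0).2 hb0) ((le_sc h0).2 hb1) ((pos_sc h0).2 hc0) ((le_sc h0).2 hc1)
    refine this.trans (le_of_eq ?_)
    rw [mul_add h (θ * (b + c)) (rs h bx κ Y (m - b) (a - c)), ← le_rs (r := bx) h0]
    ring_nf
  supS := by
    intro κ y Y m a hκ hy hY
    rw [rs_le h0, Multiset.map_cons]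
    have := B.supS (h * κ) (h * y) (Y.map (h * ·)) (h * m) (h * a) ((pos_sc h0).2 hκ)
      ((pos_sc h0).2 hy) (ok_sc h0 hY)
    refine this.trans (le_of_eq ?_)
    rw [mul_add h (θ * y) (rs h bx κ Y m a), ← le_rs (r := bx) h0]
    ring
  outer := by
    intro N u κ m a E hκ hu hm ha H
    rw [rs_le h0, map_univ_sc]
    refine B.outer N (fun j => h * u j) (h * κ) (h * m) (h * a) (h * E) ((pos_sc h0).2 hκ)
      (fun j => (pos_sc h0).2 (hu j)) ((pos_sc h0).2 hm) ((pos_sc h0).2 ha) ?_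
    intro x ω α hx hω hα
    obtain ⟨x', rfl⟩ : ∃ x' : Fin N → ℝ, x = fun j => h * x' j :=
      ⟨fun j => x j / h, funext fun j => by field_simp⟩
    obtain ⟨ω', rfl⟩ := ex_sc h0 ω
    obtain ⟨α', rfl⟩ := ex_sc h0 α
    have hth : ∀ u v : ℝ, h * u ≤ θ * (h * v) → u ≤ θ * v := fun u v huv => by
      rw [← le_sc h0]
      calc h * u ≤ θ * (h * v) := huv
        _ = _ := by ring
    have hz : ∀ u : ℝ, h * u = 0 → u = 0 := fun u hu => (mul_eq_zero.1 hu).resolve_left h0.ne'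
    have hsx : ∑ j, h * x' j = h * ∑ j, x' j := (Finset.mul_sum _ _ _).symm
    rcases H x' ω' α' (fun j => hth _ _ (hx j)) (hth _ _ hω) (hth _ _ hα) with
      ⟨n, f, g, hf, hmf, hg, hag, h1⟩ | h1
    · left
      refine ⟨n, h * f, h * g, (pos_sc h0).2 hf, fun h3 => by rw [hmf (hz _ h3), mul_zero],
        (pos_sc h0).2 hg, fun h3 => by rw [hag (hz _ h3), mul_zero], ?_⟩
      rw [div_sc h0, div_sc h0, sum_n_sc, hsx, ← rep_sc, le_rs (r := r) h0]
      rw [← le_sc h0] at h1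
      refine le_trans (le_of_eq ?_) h1
      ring
    · right
      rw [hsx]
      rw [← le_sc h0] at h1
      refine le_trans (le_of_eq ?_) h1
      ring

/-- **scaling of `ExpS0`** -/
theorem s0 (h0 : 0 < h) (S : ExpS0 s s₀) : ExpS0 (rs h s) (rs h s₀) where
  le := by
    intro κ Y m a hκ hY
    rw [rs_le h0, ← le_rs (r := s) h0]
    exact S.le (h * κ) _ _ _ ((pos_sc h0).2 hκ) (ok_sc h0 hY)
  cube := by
    intro κ Y m a E hκ hY H
    rw [rs_le h0]
    refine S.cube (h * κ) _ _ _ (h * E) ((pos_sc h0).2 hκ) (ok_sc h0 hY) fun u hu hu3 => ?_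
    obtain ⟨u', rfl⟩ := ex_sc h0 u
    have h1 := H u' ((pos_sc h0).1 hu) (by
      rw [← le_sc h0]
      calc h * (3 * u') = 3 * (h * u') := by ring
        _ ≤ _ := hu3)
    rw [← le_sc h0] at h1
    refine le_trans (le_of_eq ?_) h1
    rw [mul_add h u' (rs h s₀ (κ - 3 * u') Y m a), ← le_rs (r := s₀) h0]
    ring_nf
  cau := by
    intro κ Y m a b c hκ hY hb0 hb1 hc0 hc1
    rw [rs_le h0]
    have := S.cau (h * κ) (Y.map (h * ·)) (h * m) (h * a) (h * b) (h * c) ((pos_sc h0).2 hκ)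
      (ok_sc h0 hY) ((pos_sc h0).2 hb0) ((le_sc h0).2 hb1) ((pos_sc h0).2 hc0) ((le_sc h0).2 hc1)
    refine this.trans (le_of_eq ?_)
    rw [mul_add h (b + c) (rs h s₀ (κ + (b + c)) Y (m - b) (a - c)), ← le_rs (r := s₀) h0]
    ring_nf
  cauS := by
    intro κ y Y m a hκ hy hY
    rw [rs_le h0, Multiset.map_cons]
    have := S.cauS (h * κ) (h * y) (Y.map (h * ·)) (h * m) (h * a) ((pos_sc h0).2 hκ)
      ((pos_sc h0).2 hy) (ok_sc h0 hY)
    refine this.trans (le_of_eq ?_)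
    rw [mul_add h y (rs h s₀ (κ + y) Y m a), ← le_rs (r := s₀) h0, mul_add h κ y]

/-- **scaling of `ExpRem`** -/
theorem rem (h0 : 0 < h) (R : ExpRem θ r s s₀) : ExpRem θ (rs h r) (rs h s) (rs h s₀) where
  toExpS0 := s0 h0 R.toExpS0
  rem := by
    intro K v y₁ y₂ y₃ m a n E T hm ha hn hnd h1 h2 h3 h4 h5 h6 h7 h8 h9 hT h10 h11 H hc v' hv0 hv1
    rw [rs_le h0]
    have e : ∀ z₁ z₂ z₃ : ℝ, ({z₁, z₂, z₃} : Multiset ℝ).map (h * ·) =
        {h * z₁, h * z₂, h * z₃} := fun z₁ z₂ z₃ => by simp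
    have sc : ∀ {x y : ℝ} (x' y' : ℝ), x ≤ y → x' = h * x → y' = h * y → x' ≤ y' :=
      fun x' y' hxy hx hy => by rw [hx, hy]; exact (le_sc h0).2 hxy
    have := R.rem (h * K) (h * v) (h * y₁) (h * y₂) (h * y₃) (h * m) (h * a) (h * n) (h * E)
      (h * T) ((pos_sc h0).2 hm) ((pos_sc h0).2 ha) ((pos_sc h0).2 hn) (by rw [hnd]; ring)
      (sc _ _ h1 (by ring) (by ring)) (sc _ _ h2 (by ring) (by ring))
      (sc _ _ h3 (by ring) (by ring)) (sc _ _ h4 (by ring) (by ring))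
      (sc _ _ h5 (by ring) (by ring)) (sc _ _ h6 (by ring) (by ring))
      (sc _ _ h7 (by ring) (by ring)) (sc _ _ h8 (by ring) (by ring))
      (sc _ _ h9 (by ring) (by ring)) (by rw [hT]; ring)
      (sc _ _ h10 (by ring) (by ring)) (sc _ _ h11 (by ring) (by ring))
      (fun z₁ z₂ z₃ m' a' i hz1 hz2 hz3 hz12 hz33 hm0 hm1 ha0 ha1 hi1 hi2 hi3 hi => by
        obtain ⟨z₁', rfl⟩ := ex_sc h0 z₁
        obtain ⟨z₂', rfl⟩ := ex_sc h0 z₂
        obtain ⟨z₃', rfl⟩ := ex_sc h0 z₃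
        obtain ⟨m'', rfl⟩ := ex_sc h0 m'
        obtain ⟨a'', rfl⟩ := ex_sc h0 a'
        obtain ⟨i', rfl⟩ := ex_sc h0 i
        rw [← mul_add, ← mul_add, le_sc h0] at hz12
        have hi' : i' ≤ v + n - K := by
          rw [← le_sc h0]
          calc h * i' ≤ h * v + h * n - h * K := hi
            _ = _ := by ring
        have h12 := H z₁' z₂' z₃' m'' a'' i' ((pos_sc h0).1 hz1) ((pos_sc h0).1 hz2)
          ((pos_sc h0).1 hz3) hz12 ((le_sc h0).1 hz33) ((pos_sc h0).1 hm0) ((le_sc h0).1 hm1)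
          ((pos_sc h0).1 ha0) ((le_sc h0).1 ha1) ((le_sc h0).1 hi1) ((le_sc h0).1 hi2)
          ((le_sc h0).1 hi3) hi'
        have e5 : max 0 ((h * v + 2 * (h * n) - 2 * (h * K)) / 3) =
            h * max 0 ((v + 2 * n - 2 * K) / 3) := by
          rw [← max_sc h0, mul_zero]
          congr 1
          ring
        rw [← e, le_rs (r := r) h0, e5]
        rw [← le_sc h0] at h12
        refine le_trans (le_of_eq ?_) h12
        ring)
      (by
        have e5 : max 0 ((h * v + 2 * (h * n) - 2 * (h * K)) / 3) =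
            h * max 0 ((v + 2 * n - 2 * K) / 3) := by
          rw [← max_sc h0, mul_zero]
          congr 1
          ring
        rw [e5]
        rw [← le_sc h0] at hc
        refine le_trans (le_of_eq ?_) hc
        ring)
      (h * v') ((pos_sc h0).2 hv0) ((le_sc h0).2 hv1)
    rw [e]
    refine this.trans (le_of_eq ?_)
    rw [mul_add h E, ← max_sc h0, mul_zero]
    congr 2
    ring

end Crest.Agent.R017.Scale770
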