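import Crest.Agent.R017.TopC_702
import Crest.Agent.R017.ProvE_71
import Crest.Agent.R017.Scale_770
import Crest.Agent.R017.T3Fld_986
import Crest.Agent.R017.CovBig_954

/-!
# Row 17, section D: all absolute boxes from the coverage (helper702)

* `prov_scale` : the bundle `ProvE` at the family `h` (all lengths multiplied by `h`)
* `box_scale`  : a box at the family `κ` is a box at the family `1` of the scaled bundle
* `CovAll θ e₀ t` : **coverage of all boxes without five near-equal lumps** (helper954's `CoreL`: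
  family `1`, `Σ u ≤ 4/3`, in every bundle)
* `NearB θ μ bx`  : boxes with five near-equal lumps over a short family `κ ≤ 9/10`
* `boxAll_of_cov` : `CovAll → NearB → BoxAll`
* `topC_of_cov`   : ... `→ TopC` (both families)
-/

set_option autoImplicit false

noncomputable section

namespace Crest.Agent.R017.BoxAll702

open Crest.Agent.R017.ER911 Crest.Agent.R017.ExpC702 Crest.Agent.R017.Prov71
open Crest.Agent.R017.Scale770 (rs)
open Crest.Agent.R017.Cone59 Crest.Agent.R017.CovM59 Crest.Agent.R017.TopC702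
open Crest.Agent.R017.BxE986 (AL)
open Crest.Agent.R017.CovBig954 (CoreL core_box BoxB)

variable {θ h : ℝ} {r s s₀ rc bc : EF}

/-- scaling of `ExpC` -/
theorem cpl_scale (h0 : 0 < h) (C : ExpC r rc) : ExpC (rs h r) (rs h rc) where
  le κ Y m a E hκ hY H := by
    rw [Scale770.rs_le h0]
    refine C.le _ _ _ _ _ (mul_nonneg h0.le hκ) (Scale770.ok_sc h0 hY) fun κ' h1 h2 => ?_
    obtain ⟨κ'', rfl⟩ := Scale770.ex_sc h0 κ'
    have h3 := H κ'' ((Scale770.pos_sc h0).1 h1) ((Scale770.le_sc h0).1 h2)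
    have h4 : rs h r κ'' Y m a ≤ E - (κ - κ'') / 3 := by linarith
    rw [Scale770.rs_le h0] at h4
    linarith

/-- scaling of the bundle -/
theorem prov_scale (h0 : 0 < h) (P : ProvE θ r s s₀ rc bc) :
    ProvE θ (rs h r) (rs h s) (rs h s₀) (rs h rc) (rs h bc) where
  rules := Scale770.rules h0 P.rules
  lb := Scale770.lb h0 P.lb
  lv := Scale770.lv h0 P.lv
  rem := P.rem.rs h0
  cpl := cpl_scale h0 P.cpl
  box := Scale770.box h0 P.box

/-- a box at the family `κ` = the rescaled box at the family `1` -/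
theorem box_scale (bc : EF) {N : ℕ} (u : Fin N → ℝ) {κ m a : ℝ} (hκ : 0 < κ) :
    bc κ (Finset.univ.val.map u) m a =
      κ * rs κ bc 1 (Finset.univ.val.map fun j => u j / κ) (m / κ) (a / κ) := by
  rw [← Scale770.le_rs hκ, mul_one, mul_div_cancel₀ _ hκ.ne', mul_div_cancel₀ _ hκ.ne',
    Multiset.map_map]
  congr 1
  refine Multiset.map_congr rfl fun j _ => ?_
  simp only [Function.comp_apply]
  rw [mul_div_cancel₀ _ hκ.ne']

lemma w5_mono : Monotone w5 := by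
  intro i j hij
  fin_cases i <;> fin_cases j <;> simp_all [w5]

/-- **coverage** (family `1`, `Σ u ≤ 4/3`): every box without five near-equal lumps, in every
bundle of rules -/
def CovAll (θ e₀ t : ℝ) : Prop :=
  ∀ r s s₀ rc bc : EF, ProvE θ r s s₀ rc bc → CoreL e₀ t rc

/-- five near-equal lumps over a short family (`V` = the other lumps) -/
def NearB (θ μ : ℝ) (bx : EF) : Prop :=
  ∀ (κ m a y₁ y₂ y₃ y₄ y₅ : ℝ) (V : Multiset ℝ), y₂ ≤ y₁ → y₃ ≤ y₂ → y₄ ≤ y₃ → y₅ ≤ y₄ → 0 < y₅ →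
    (∀ v ∈ V, 0 < v ∧ v ≤ y₅) → 0 ≤ m → 0 ≤ a → 1 / 10 ≤ κ → κ ≤ 9 / 10 →
    (y₁ + y₂ + y₃ + y₄ + y₅ + V.sum) + m ≤ 4 / 3 → a ≤ 1 / 3 →
    (y₁ + y₂ + y₃ + y₄ + y₅ + V.sum) + m - a ≤ 1 → κ < y₃ + y₄ + 2 * y₅ →
    bx κ (y₁ ::ₘ y₂ ::ₘ y₃ ::ₘ y₄ ::ₘ y₅ ::ₘ V) m a ≤
      Tg2 θ κ ((y₁ + y₂ + y₃ + y₄ + y₅ + V.sum) + m) a - μ

/-! ### sorting -/

/-- the lumps in decreasing order -/
lemma exists_antitone {N : ℕ} (u : Fin N → ℝ) : ∃ σ : Equiv.Perm (Fin N), Antitone (u ∘ σ) := by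
  refine ⟨Tuple.sort fun j => - u j, fun i j hij => ?_⟩
  have := Tuple.monotone_sort (fun j => - u j) hij
  simp only [Function.comp_apply] at this ⊢
  linarith

lemma map_perm {N : ℕ} (u : Fin N → ℝ) (σ : Equiv.Perm (Fin N)) :
    Finset.univ.val.map (u ∘ σ) = Finset.univ.val.map u := by
  rw [← Multiset.map_map]
  congr 1
  have := Finset.map_univ_equiv σ
  have h2 := congrArg Finset.val this
  rwa [Finset.map_val] at h2

/-- the near-equal condition for antitone families -/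
lemma noNE5_of_top {N : ℕ} {u : Fin N → ℝ} (hu : Antitone u)
    (h : ∀ h5 : 5 ≤ N, u ⟨2, by omega⟩ + u ⟨3, by omega⟩ + 2 * u ⟨4, by omega⟩ ≤ 1) :
    NoNE5 u := by
  intro s hs
  have hN : 5 ≤ N := by
    have := Fintype.card_le_of_injective s hs
    simpa using this
  refine ⟨Tuple.sort s, ?_⟩
  set f := fun i => s (Tuple.sort s i) with hf
  have hf1 : StrictMono f :=
    (Tuple.monotone_sort s).strictMono_of_injective (hs.comp (Tuple.sort s).injective)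
  have h01 : (f 0).val < (f 1).val := hf1 (by decide)
  have h12 : (f 1).val < (f 2).val := hf1 (by decide)
  have h23 : (f 2).val < (f 3).val := hf1 (by decide)
  have h34 : (f 3).val < (f 4).val := hf1 (by decide)
  have e2 : u (f 2) ≤ u ⟨2, by omega⟩ := hu (by rw [Fin.le_def]; simp only; omega)
  have e3 : u (f 3) ≤ u ⟨3, by omega⟩ := hu (by rw [Fin.le_def]; simp only; omega)
  have e4 : u (f 4) ≤ u ⟨4, by omega⟩ := hu (by rw [Fin.le_def]; simp only; omega)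
  have h1 := h hN
  simp only [w5, Fin.sum_univ_five, Matrix.cons_val_zero, Matrix.cons_val_one, Matrix.cons_val]
  have h2 : u (s (Tuple.sort s 2)) = u (f 2) := rfl
  have h3 : u (s (Tuple.sort s 3)) = u (f 3) := rfl
  have h4 : u (s (Tuple.sort s 4)) = u (f 4) := rfl
  rw [h2, h3, h4]
  linarith

/-- membership in the allowed region over `κ > 9/10` -/
lemma noNE_of_mem {N : ℕ} {u : Fin N → ℝ} {κ : ℝ} (hκ0 : 0 < κ)
    (hκ : 9 / 10 < κ) (h : (κ, u) ∈ AL (9 / 10) 1 w5 N) : NoNE5 fun j => u j / κ := by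
  rcases h with h | h
  · exact absurd h (not_le.2 hκ)
  · intro s hs
    obtain ⟨σ, hσ⟩ := h s hs
    refine ⟨σ, ?_⟩
    have e : ∑ i, w5 i * (u (s (σ i)) / κ) = (∑ i, w5 i * u (s (σ i))) / κ := by
      rw [Finset.sum_div]
      exact Finset.sum_congr rfl fun i _ => by ring
    rw [e, div_le_one hκ0]
    simpa using hσ

lemma mem_AL_perm {N : ℕ} {u : Fin N → ℝ} {κ a₁ A' : ℝ} {w : Fin 5 → ℝ}
    (h : (κ, u) ∈ AL a₁ A' w N) (σ : Equiv.Perm (Fin N)) : (κ, u ∘ σ) ∈ AL a₁ A' w N := by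
  rcases h with h | h
  · exact Or.inl h
  · right
    intro s hs
    exact h (fun i => σ (s i)) (σ.injective.comp hs)

/-- **the box for antitone lumps** -/
theorem box_antitone (hθ : 7 / 8 ≤ θ) (hθ1 : θ ≤ 1) (P : ProvE θ r s s₀ rc bc) {e₀ t μ μ' : ℝ}
    (hμ : 0 ≤ μ) (ht : 0 ≤ t) (ht3 : t ≤ 1 / 3) (he : 2 * e₀ + (2 * θ - 1) * t + μ ≤ b2 θ)
    (hcov : CovAll θ e₀ t) (hne : NearB θ μ' bc) {N : ℕ} {u : Fin N → ℝ} (hua : Antitone u)
    {κ m a : ℝ} (hu : ∀ j, 0 < u j) (hm : 0 ≤ m) (ha : 0 ≤ a) (hκ : 1 / 10 ≤ κ) (hκ1 : κ ≤ 1)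
    (hq : (∑ j, u j) + m ≤ 4 / 3) (ha3 : a ≤ 1 / 3) (hqa : (∑ j, u j) + m - a ≤ 1)
    (hAL : (κ, u) ∈ AL (9 / 10) 1 w5 N) :
    bc κ (Finset.univ.val.map u) m a ≤ Tg2 θ κ ((∑ j, u j) + m) a - min (μ / 20) μ' := by
  have hκ0 : 0 < κ := by linarith
  by_cases hNE : NoNE5 fun j => u j / κ
  · -- coverage
    have h1 := (core_box hθ hθ1 ht ht3 hμ he hcov (prov_scale hκ0 P)).target hθ hθ1
      (fun j => u j / κ) (fun j => div_pos (hu j) hκ0) hNE (m := m / κ) (a := a / κ)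
      (div_nonneg hm hκ0.le) (div_nonneg ha hκ0.le) (h := κ) (q := (∑ j, u j) + m) (c := a)
      hκ0 hκ1 (by rw [← Finset.sum_div]; field_simp) (by field_simp) ha3 (by linarith) hqa
    rw [box_scale bc u hκ0]
    have h2 : min (μ / 20) μ' ≤ μ / 20 := min_le_left _ _
    nlinarith
  · -- near-equal
    have hκ9 : κ ≤ 9 / 10 := by
      by_contra hc
      exact hNE (noNE_of_mem hκ0 (not_le.1 hc) hAL)
    obtain ⟨h5, hlt⟩ : ∃ h5 : 5 ≤ N,
        1 < u ⟨2, by omega⟩ / κ + u ⟨3, by omega⟩ / κ + 2 * (u ⟨4, by omega⟩ / κ) := by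
      by_contra hc
      push Not at hc
      exact hNE (noNE5_of_top (fun i j hij => div_le_div_of_nonneg_right (hua hij) hκ0.le) hc)
    obtain ⟨n, rfl⟩ : ∃ n, N = n + 5 := ⟨N - 5, by omega⟩
    set V : Multiset ℝ := Finset.univ.val.map fun j : Fin n => u j.succ.succ.succ.succ.succ with hV
    have eM : Finset.univ.val.map u = u ⟨0, by omega⟩ ::ₘ u ⟨1, by omega⟩ ::ₘ u ⟨2, by omega⟩ ::ₘ
        u ⟨3, by omega⟩ ::ₘ u ⟨4, by omega⟩ ::ₘ V := by
      rw [hV, Fin.univ_val_map, Fin.univ_val_map]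
      rw [List.ofFn_succ, List.ofFn_succ, List.ofFn_succ, List.ofFn_succ, List.ofFn_succ]
      rfl
    have eS : ∑ j, u j = u ⟨0, by omega⟩ + u ⟨1, by omega⟩ + u ⟨2, by omega⟩ + u ⟨3, by omega⟩ +
        u ⟨4, by omega⟩ + V.sum := by
      have h1 : ∑ j, u j = (Finset.univ.val.map u).sum := rfl
      rw [h1, eM]
      simp only [Multiset.sum_cons]
      ring
    rw [eM, eS]
    have hmono : ∀ a b : ℕ, ∀ ha : a < n + 5, ∀ hb : b < n + 5, a ≤ b → u ⟨b, hb⟩ ≤ u ⟨a, ha⟩ :=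
      fun a b ha hb hab => hua (by simpa using hab)
    rw [← add_div, ← mul_div_assoc, ← add_div, one_lt_div hκ0] at hlt
    rw [eS] at hq hqa
    have h1 := hne κ m a _ _ _ _ _ V (hmono 0 1 (by omega) (by omega) (by omega))
      (hmono 1 2 (by omega) (by omega) (by omega)) (hmono 2 3 (by omega) (by omega) (by omega))
      (hmono 3 4 (by omega) (by omega) (by omega)) (hu _) (by
        intro v hv
        rw [hV] at hv
        obtain ⟨j, _, rfl⟩ := Multiset.mem_map.1 hv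
        refine ⟨hu _, hua ?_⟩
        show (⟨4, _⟩ : Fin (n + 5)) ≤ _
        rw [Fin.le_def]
        simp) hm ha hκ hκ9 hq ha3 hqa hlt
    exact h1.trans (by linarith [min_le_right (μ / 20) μ'])

/-- **all absolute boxes** -/
theorem boxAll_of_cov (hθ : 7 / 8 ≤ θ) (hθ1 : θ ≤ 1) (P : ProvE θ r s s₀ rc bc) {e₀ t μ μ' : ℝ}
    (hμ : 0 ≤ μ) (ht : 0 ≤ t) (ht3 : t ≤ 1 / 3) (he : 2 * e₀ + (2 * θ - 1) * t + μ ≤ b2 θ)
    (hcov : CovAll θ e₀ t) (hne : NearB θ μ' bc) :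
    BoxAll θ (min (μ / 20) μ') (AL (9 / 10) 1 w5) bc := by
  intro N u κ m a hu hm ha hκ hκ1 hq ha3 hqa hAL
  obtain ⟨σ, hσ⟩ := exists_antitone u
  have h1 := box_antitone hθ hθ1 P hμ ht ht3 he hcov hne hσ (κ := κ) (m := m) (a := a)
    (fun j => hu _) hm ha hκ hκ1
    (by rw [show ∑ j, (u ∘ σ) j = ∑ j, u j from Equiv.sum_comp σ u]; exact hq) ha3
    (by rw [show ∑ j, (u ∘ σ) j = ∑ j, u j from Equiv.sum_comp σ u]; exact hqa)
    (mem_AL_perm hAL σ)
  rwa [map_perm, show ∑ j, (u ∘ σ) j = ∑ j, u j from Equiv.sum_comp σ u] at h1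

/-- smaller margin -/
lemma BoxAll.mono {μ μ' : ℝ} {𝒜 : ∀ n, Set (ℝ × (Fin n → ℝ))} (H : BoxAll θ μ 𝒜 bc)
    (h : μ' ≤ μ) : BoxAll θ μ' 𝒜 bc := by
  intro N u κ m a hu hm ha hκ hκ1 hq ha3 hqa hA
  have := H N u κ m a hu hm ha hκ hκ1 hq ha3 hqa hA
  linarith

/-- **the certificate of the absolute boxes** (helper986's `CertA θ μ (9/10) 1 w5`) -/
theorem certA_of_cov (hθ : 7 / 8 ≤ θ) (hθ1 : θ ≤ 1) {e₀ t μ μ₁ : ℝ} (hμ : 0 < μ) (hμ₁ : 0 < μ₁)
    (ht : 0 ≤ t) (ht3 : t ≤ 1 / 3) (he : 2 * e₀ + (2 * θ - 1) * t + μ ≤ b2 θ)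
    (hcov : CovAll θ e₀ t) (hne : ∀ r s s₀ rc bc : EF, ProvE θ r s s₀ rc bc → NearB θ μ₁ bc) :
    ∃ μ' : ℝ, 0 < μ' ∧ μ' ≤ 1 / 12 ∧ ∀ r s s₀ rc bc : EF, ProvE θ r s s₀ rc bc →
      BoxAll θ μ' (AL (9 / 10) 1 w5) bc := by
  refine ⟨min (min (μ / 20) μ₁) (1 / 12), lt_min (lt_min (by linarith) hμ₁) (by norm_num),
    min_le_right _ _, fun r s s₀ rc bc P => ?_⟩
  exact BoxAll.mono (boxAll_of_cov hθ hθ1 P hμ.le ht ht3 he hcov (hne _ _ _ _ _ P))
    (min_le_left _ _)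

end Crest.Agent.R017.BoxAll702
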