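import Crest.Agent.R017.Box_271

/-!
# Row 17, D.box: the box inequality on a class of boxes (helper271)

* `BoxCls r` : predicates on `(Q₀, Q, κ, J, H, j, c)` = data of a box
* `BOX3c θ r y δ η L 𝓑` : the box inequality for the boxes in the class `𝓑`
* `box3i_of_split` : `BOX3c 𝓑 → BOX3c 𝓑ᶜ → BOX3i`
* `BOX3c.mono`, `BOX3c.union`
-/

set_option autoImplicit false

noncomputable section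

open MeasureTheory Complex Set
open scoped ComplexConjugate ContDiff

namespace Crest.Agent.R017.B770

open Crest.Agent.R012 Crest.Agent.R012.Eis Crest.Agent.R012.Mob705 Crest.Agent.R012.Gauss880
open Crest.Agent.R017.End699 Crest.Agent.R017.Sx440 Crest.Agent.R017.Sx545
open Crest.Agent.R017.Asm986 Crest.Agent.R017.HBS271 Crest.Agent.R017.Sup271
open Crest.Agent.R017.BoxP271 Crest.Agent.R017.Box271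

/-- classes of boxes : predicates on `Q₀, Q, κ, J, H, j, c` -/
abbrev BoxCls (r : ℕ) : Type :=
  ℝ → ℝ → ℝ → Finset (Fin r) → ℝ → (j : ℕ) → (Fin (j - 1) ⊕ Fin j → ℕ) → Prop

/-- **the box inequality for the boxes of the class `𝓑`** -/
def BOX3c (θ : ℝ) (r : ℕ) (y δ η : ℝ) (L : ℕ) (𝓑 : BoxCls r) : Prop :=
  ∀ P : DPar, P.OK → ∀ ε C₁ : ℝ, 0 < ε → 0 < C₁ → ∃ C A : ℝ, 0 ≤ C ∧ 0 ≤ A ∧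
    ∀ (Q₀ Q : ℝ), 1 ≤ Q → Q ≤ Q₀ → ∀ κ : ℝ, -1 ≤ κ → κ ≤ δ * Real.log Q₀ →
    ∀ (J : Finset (Fin r)) (H : ℝ), 0 < H → H ≤ Q₀ ^ (1 / 2 + (y + δ) + η) →
    ∀ d₁ d₂ d₃ e : Eis, d₁ ≠ 0 → d₂ ≠ 0 → d₃ ≠ 0 → Sm P.n e →
      (∀ p : Eis, Prime p → p ∣ e → p ^ 5 ∣ e) →
      Q * nm e ≤ C₁ * Q₀ * (CJ r y Q₀ J * Real.exp κ / Q₀ ^ (y + δ)) →
    ∀ (t₁ t₂ τ : ℝ) (𝒟 : Finset Eis), (∀ q ∈ 𝒟, Sm P.n q ∧ Squarefree q) →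
    ∀ u : Eis → ℝ, (∀ q, 0 ≤ u q ∧ u q ≤ C₁) →
    ∀ z : ℕ, 1 ≤ z → Real.log z ≤ Real.log Q / L + C₁ →
    ∀ j : ℕ, 1 ≤ j → j ≤ L → ∀ c : Fin (j - 1) ⊕ Fin j → ℕ,
      |∑ i, (c (Sum.inl i) : ℝ) + ∑ i, (c (Sum.inr i) : ℝ) - Real.log Q| ≤ C₁ →
      (∀ i : Fin j, (c (Sum.inr i) : ℝ) ≤ Real.log Q / L + C₁) →
      𝓑 Q₀ Q κ J H j c →
      ∑ q ∈ 𝒟, ‖P.bx r y Q₀ (κ - u q) J H d₁ d₂ d₃ e t₁ t₂ τ z c q‖ ≤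
        C * ((nm d₁ : ℝ) * nm d₂ * nm d₃ * nm e * Q₀) ^ ε * (1 + |t₁| + |t₂| + |τ|) ^ A *
          TgB θ η (if δ / 2 * Real.log Q₀ ≤ κ then η else -η) (y + δ) Q₀ Q H
            (CJ r y Q₀ J * Real.exp κ)

lemma box3c_mono {θ : ℝ} {r : ℕ} {y δ η : ℝ} {L : ℕ} {𝓑 𝓑' : BoxCls r}
    (h : ∀ Q₀ Q κ J H j c, 𝓑' Q₀ Q κ J H j c → 𝓑 Q₀ Q κ J H j c)
    (hB : BOX3c θ r y δ η L 𝓑) : BOX3c θ r y δ η L 𝓑' := by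
  intro P hP ε C₁ hε hC₁
  obtain ⟨C, A, hC, hA, h1⟩ := hB P hP ε C₁ hε hC₁
  refine ⟨C, A, hC, hA, ?_⟩
  intro Q₀ Q hQ hQQ κ hκ1 hκ2 J H hH hH2 d₁ d₂ d₃ e hd₁ hd₂ hd₃ he he5 hQe t₁ t₂ τ 𝒟 h𝒟 u hu z
    hz hlz j hj hjL c hc hc2 hcls
  exact h1 Q₀ Q hQ hQQ κ hκ1 hκ2 J H hH hH2 d₁ d₂ d₃ e hd₁ hd₂ hd₃ he he5 hQe t₁ t₂ τ 𝒟 h𝒟 u hu z
    hz hlz j hj hjL c hc hc2 (h _ _ _ _ _ _ _ hcls)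

/-- monotonicity of the right side in the constants -/
lemma rhs_mono {C C' A A' X T Tg ε : ℝ} (hC' : C ≤ C') (hC : 0 ≤ C) (hA : A ≤ A')
    (hX : 0 ≤ X) (hT : 1 ≤ T) (hTg : 0 ≤ Tg) : C * X ^ ε * T ^ A * Tg ≤ C' * X ^ ε * T ^ A' * Tg := by
  have h1 : T ^ A ≤ T ^ A' := Real.rpow_le_rpow_of_exponent_le hT hA
  have h2 : 0 ≤ X ^ ε := Real.rpow_nonneg hX _
  have h3 : 0 ≤ T ^ A := Real.rpow_nonneg (by linarith) _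
  have h4 : 0 ≤ C' := hC.trans hC'
  gcongr

/-- union of two classes -/
theorem box3c_union {θ : ℝ} {r : ℕ} {y δ η : ℝ} {L : ℕ} {𝓑 𝓑' : BoxCls r}
    (h1 : BOX3c θ r y δ η L 𝓑) (h2 : BOX3c θ r y δ η L 𝓑') :
    BOX3c θ r y δ η L (fun Q₀ Q κ J H j c => 𝓑 Q₀ Q κ J H j c ∨ 𝓑' Q₀ Q κ J H j c) := by
  intro P hP ε C₁ hε hC₁
  obtain ⟨C, A, hC, hA, h1⟩ := h1 P hP ε C₁ hε hC₁
  obtain ⟨C', A', hC', hA', h2⟩ := h2 P hP ε C₁ hε hC₁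
  refine ⟨max C C', max A A', le_max_of_le_left hC, le_max_of_le_left hA, ?_⟩
  intro Q₀ Q hQ hQQ κ hκ1 hκ2 J H hH hH2 d₁ d₂ d₃ e hd₁ hd₂ hd₃ he he5 hQe t₁ t₂ τ 𝒟 h𝒟 u hu z
    hz hlz j hj hjL c hc hc2 hcls
  have hQ0 : 0 < Q := by linarith
  have hQ₀0 : 0 < Q₀ := by linarith
  have hCJ := CJ_pos (r := r) (y := y) hQ₀0 J
  have hTg0 : 0 ≤ TgB θ η (if δ / 2 * Real.log Q₀ ≤ κ then η else -η) (y + δ) Q₀ Q H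
    (CJ r y Q₀ J * Real.exp κ) := TgB_nonneg' hQ₀0.le hQ0.le hH.le (by positivity)
  have hT1 : 1 ≤ 1 + |t₁| + |t₂| + |τ| := by
    linarith [abs_nonneg t₁, abs_nonneg t₂, abs_nonneg τ]
  have hX0 : 0 ≤ (nm d₁ : ℝ) * nm d₂ * nm d₃ * nm e * Q₀ := by positivity
  rcases hcls with hcls | hcls
  · exact (h1 Q₀ Q hQ hQQ κ hκ1 hκ2 J H hH hH2 d₁ d₂ d₃ e hd₁ hd₂ hd₃ he he5 hQe t₁ t₂ τ 𝒟 h𝒟 u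
      hu z hz hlz j hj hjL c hc hc2 hcls).trans
        (rhs_mono (le_max_left _ _) hC (le_max_left _ _) hX0 hT1 hTg0)
  · exact (h2 Q₀ Q hQ hQQ κ hκ1 hκ2 J H hH hH2 d₁ d₂ d₃ e hd₁ hd₂ hd₃ he he5 hQe t₁ t₂ τ 𝒟 h𝒟 u
      hu z hz hlz j hj hjL c hc hc2 hcls).trans
        (rhs_mono (le_max_right _ _) hC' (le_max_right _ _) hX0 hT1 hTg0)

/-- all boxes -/
theorem box3i_of_split {θ : ℝ} {r : ℕ} {y δ η : ℝ} {L : ℕ} (𝓑 : BoxCls r)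
    (h1 : BOX3c θ r y δ η L 𝓑)
    (h2 : BOX3c θ r y δ η L (fun Q₀ Q κ J H j c => ¬ 𝓑 Q₀ Q κ J H j c)) :
    BOX3i θ r y δ η L := by
  classical
  intro P hP ε C₁ hε hC₁
  obtain ⟨C, A, hC, hA, h⟩ := box3c_union h1 h2 P hP ε C₁ hε hC₁
  refine ⟨C, A, hC, hA, ?_⟩
  intro Q₀ Q hQ hQQ κ hκ1 hκ2 J H hH hH2 d₁ d₂ d₃ e hd₁ hd₂ hd₃ he he5 hQe t₁ t₂ τ 𝒟 h𝒟 u hu z
    hz hlz j hj hjL c hc hc2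
  exact h Q₀ Q hQ hQQ κ hκ1 hκ2 J H hH hH2 d₁ d₂ d₃ e hd₁ hd₂ hd₃ he he5 hQe t₁ t₂ τ 𝒟 h𝒟 u hu z
    hz hlz j hj hjL c hc hc2 (em _)

theorem box3c_of_box3i {θ : ℝ} {r : ℕ} {y δ η : ℝ} {L : ℕ} (𝓑 : BoxCls r)
    (h : BOX3i θ r y δ η L) : BOX3c θ r y δ η L 𝓑 := by
  intro P hP ε C₁ hε hC₁
  obtain ⟨C, A, hC, hA, h⟩ := h P hP ε C₁ hε hC₁
  refine ⟨C, A, hC, hA, ?_⟩
  intro Q₀ Q hQ hQQ κ hκ1 hκ2 J H hH hH2 d₁ d₂ d₃ e hd₁ hd₂ hd₃ he he5 hQe t₁ t₂ τ 𝒟 h𝒟 u hu z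
    hz hlz j hj hjL c hc hc2 _
  exact h Q₀ Q hQ hQQ κ hκ1 hκ2 J H hH hH2 d₁ d₂ d₃ e hd₁ hd₂ hd₃ he he5 hQe t₁ t₂ τ 𝒟 h𝒟 u hu z
    hz hlz j hj hjL c hc hc2

end Crest.Agent.R017.B770
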