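import Crest.Agent.R017.Hull_741
import Crest.Agent.R017.Cone2_59

/-!
# Row 17, section D: from coverage of the core domain to the box theorem (helper741)

* `red'` : 59's reduction `Cone59.red` with `s' = min s (4/3)`
* `CovAt r e₀ u τ` : the point `(τ/2; m/2, a/2)` is in the hull of the ideal monomials of `u` at
  family `1` for all masses of the core domain
* `box_of_cov` : `bx 1 u m a ≤ 1 + (L + Al2 θ L a - μ)/2` for **all** masses
-/

set_option autoImplicit false

noncomputable section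

namespace Crest.Agent.R017.BoxCov741

open Crest.Agent.R017.ER911 Crest.Agent.R017.Hull741 Crest.Agent.R017.Cone59

/-- `Cone59.red` with `s' = min s (4/3)` recorded (proof of 59, one more component) -/
theorem red' {θ s m a : ℝ} (hθ : 7 / 8 ≤ θ) (hθ1 : θ ≤ 1) (hs : 0 ≤ s) (hm : 0 ≤ m) (ha : 0 ≤ a) :
    ∃ s' m' a' : ℝ, s' = min s (4 / 3) ∧ 0 ≤ m' ∧ m' ≤ m ∧ 0 ≤ a' ∧ a' ≤ a ∧
      s' + m' + a' ≤ 5 / 3 ∧
      a' ≤ 4 / 3 - 3 / 5 * (s' + m' + a') ∧
      b2 θ + (2 * θ - 1) * ((s + m + a) - (s' + m' + a')) ≤ Al2 θ (s + m + a) a := by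
  have hb : 0 ≤ b2 θ := by unfold b2; linarith
  have hk : 0 ≤ 1 - 2 / 3 * θ := by linarith
  have hsp : 0 ≤ 2 * θ - 1 := by linarith
  set L := s + m + a with hL
  have r1 := one_le_r2 L a
  have ra := r2_a L a
  have rL := r2_L L a
  have rq := r2_q L a
  have A1 : b2 θ * r2 L a ≤ Al2 θ L a := le_max_left _ _
  have A2 : b2 θ * r2 L a + (L - 2 * a) - 1 ≤ Al2 θ L a :=
    (le_max_left _ _).trans (le_max_right _ _)
  have A3 : (1 - 2 / 3 * θ) * r2 L a - 5 / 3 + (2 * θ - 1) * L ≤ Al2 θ L a :=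
    (le_max_right _ _).trans (le_max_right _ _)
  have b1 : b2 θ ≤ b2 θ * r2 L a := by
    have := mul_le_mul_of_nonneg_left r1 hb
    linarith
  have k1 : (1 - 2 / 3 * θ) ≤ (1 - 2 / 3 * θ) * r2 L a := by
    have := mul_le_mul_of_nonneg_left r1 hk
    linarith
  -- `A3` in the form `b2 + (2θ-1)(L - 5/3) ≤ Al2`
  have A3' : b2 θ + (2 * θ - 1) * (L - 5 / 3) ≤ Al2 θ L a := by
    refine le_trans ?_ A3
    unfold b2; nlinarith
  by_cases hbig : 5 / 3 ≤ min s (4 / 3) + min a (1 / 3) + m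
  · -- everything can be cut to `5/3`
    refine ⟨min s (4 / 3), 5 / 3 - min s (4 / 3) - min a (1 / 3), min a (1 / 3), rfl, ?_, ?_, ?_,
      ?_, ?_, ?_, ?_⟩
    · have := min_le_right s (4 / 3); have := min_le_right a (1 / 3); linarith
    · linarith
    · exact le_min ha (by norm_num)
    · exact min_le_left _ _
    · linarith
    · have := min_le_right a (1 / 3); linarith
    · refine le_trans (le_of_eq ?_) A3'
      ring
  · push Not at hbig
    rcases le_total s (4 / 3) with hs4 | hs4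
    · rw [min_eq_left hs4] at hbig
      -- only the amplifier
      by_cases hcore : a ≤ 4 / 3 - 3 / 5 * L ∧ L ≤ 5 / 3
      · refine ⟨s, m, a, (min_eq_left hs4).symm, hm, le_rfl, ha, le_rfl, ?_, ?_, ?_⟩
        · exact hcore.2
        · exact hcore.1
        · have := b2_le_Al2 L a hθ
          rw [← hL]; simpa using this
      · -- `a > 1/3`
        have ha3 : 1 / 3 < a := by
          by_contra hcon
          push Not at hcon
          rw [min_eq_left hcon] at hbig
          exact hcore ⟨by linarith, by linarith⟩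
        rw [min_eq_right ha3.le] at hbig
        have hy : 0 < a - (4 / 3 - 3 / 5 * L) := by
          by_contra hcon
          push Not at hcon
          refine hcore ⟨by linarith, ?_⟩
          by_contra h2
          push Not at h2
          linarith
        -- remove `y = 5/8 (a - 4/3 + 3/5 L)`
        set y := 5 / 8 * (a - (4 / 3 - 3 / 5 * L)) with hyd
        have hyle : y ≤ a := by rw [hyd]; nlinarith
        refine ⟨s, m, a - y, (min_eq_left hs4).symm, hm, le_rfl, by linarith, by linarith,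
          ?_, ?_, ?_⟩
        · have : s + m + (a - y) = L - y := by rw [hL]; ring
          rw [this, hyd]; nlinarith
        · have : s + m + (a - y) = L - y := by rw [hL]; ring
          rw [this]
          have : a - y - (4 / 3 - 3 / 5 * (L - y)) = 0 := by rw [hyd]; ring
          linarith
        · have e1 : L - (s + m + (a - y)) = y := by rw [hL]; ring
          rw [e1]
          -- two lower bounds for `Al2 - b2`
          have c1 : b2 θ + b2 θ * (3 * a - 1) ≤ Al2 θ L a := by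
            have := mul_le_mul_of_nonneg_left ra hb
            linarith
          have c3 : b2 θ + (1 - 2 / 3 * θ) * (3 * a - 1) + (2 * θ - 1) * (L - 5 / 3) ≤
              Al2 θ L a := by
            have := mul_le_mul_of_nonneg_left ra hk
            have e : (1 - 2 / 3 * θ) * (3 * a) - 5 / 3 + (2 * θ - 1) * L =
              b2 θ + (1 - 2 / 3 * θ) * (3 * a - 1) + (2 * θ - 1) * (L - 5 / 3) := by
              unfold b2; ring
            linarith
          rw [hyd]
          unfold b2 at c1 c3 ⊢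
          by_contra hcon
          push Not at hcon
          have d1 := lt_of_le_of_lt c1 hcon
          have d3 := lt_of_le_of_lt c3 hcon
          -- x = a - 1/3 > 0, t = 5/3 - L
          nlinarith [mul_pos (sub_pos.2 ha3) (sub_pos.2 ha3),
            mul_nonneg (sub_nonneg.2 hθ) (sub_nonneg.2 hθ1),
            mul_nonneg (sub_nonneg.2 hθ) (sub_pos.2 ha3).le, mul_nonneg (sub_nonneg.2 hθ1) (sub_pos.2 ha3).le]
    · rw [min_eq_right hs4] at hbig
      have ha3 : a ≤ 1 / 3 := by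
        by_contra hcon
        push Not at hcon
        rw [min_eq_right hcon.le] at hbig
        linarith
      rw [min_eq_left ha3] at hbig
      refine ⟨4 / 3, m, a, (min_eq_right hs4).symm, hm, le_rfl, ha, le_rfl, ?_, ?_, ?_⟩
      · linarith
      · linarith
      · refine le_trans ?_ A2
        have e1 : L - (4 / 3 + m + a) = s - 4 / 3 := by rw [hL]; ring
        rw [e1]
        nlinarith

/-- coverage of the core domain by the ideal monomials of `u` (family `1`), weights `τ` -/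
def CovAt {N : ℕ} (r : EF) (e₀ : ℝ) (u τ : Fin N → ℝ) : Prop :=
  ∀ m a : ℝ, 0 ≤ m → 0 ≤ a → (∑ j, τ j * u j) + m + a ≤ 5 / 3 →
    a ≤ 4 / 3 - 3 / 5 * ((∑ j, τ j * u j) + m + a) →
    ((fun j => τ j / 2, m / 2, a / 2) : Mon N) ∈ Hull (Ideal r 1 u e₀)

/-- **coverage of the core domain gives the box theorem** (rescaled family `1`) -/
theorem box_of_cov {θ : ℝ} (hθ : 7 / 8 ≤ θ) (hθ1 : θ ≤ 1) {r bx : EF} (B : ExpBox θ r bx) {N : ℕ}
    (u : Fin N → ℝ) (hu : ∀ j, 0 ≤ u j) {m a : ℝ} (hm : 0 ≤ m) (ha : 0 ≤ a) {e₀ μ : ℝ}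
    (he : 2 * e₀ + μ ≤ b2 θ) (τ : Fin N → ℝ) (hτ : ∀ j, τ j ≤ 1)
    (hs : ∑ j, τ j * u j = min (∑ j, u j) (4 / 3)) (hcov : CovAt r e₀ u τ) :
    bx 1 (Finset.univ.val.map u) m a ≤
      1 + (((∑ j, u j) + m + a) + (Al2 θ ((∑ j, u j) + m + a) a - μ)) / 2 := by
  have hs0 : 0 ≤ ∑ j, u j := Finset.sum_nonneg fun j _ => hu j
  obtain ⟨s', m', a', hs', hm0, hm1, ha0, ha1, hL, hcore, hAl⟩ := red' hθ hθ1 hs0 hm ha
  have hsτ : ∑ j, τ j * u j = s' := by rw [hs, hs']
  have hmem := hcov m' a' hm0 ha0 (by rw [hsτ]; exact hL) (by rw [hsτ]; exact hcore)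
  have h := outer_le B u 1 m a e₀ zero_le_one hu hm ha τ m' a' hτ hm1 ha1 hmem
  rw [hsτ] at h
  set L := (∑ j, u j) + m + a
  nlinarith

/-- with `le_target2`: the target at the family `h` (base `K₀`), room `h μ / 2` -/
theorem target_of_cov {θ : ℝ} (hθ : 7 / 8 ≤ θ) (hθ1 : θ ≤ 1) {r bx : EF} (B : ExpBox θ r bx)
    {N : ℕ} (u : Fin N → ℝ) (hu : ∀ j, 0 ≤ u j) {m a : ℝ} (hm : 0 ≤ m) (ha : 0 ≤ a) {e₀ μ : ℝ}
    (he : 2 * e₀ + μ ≤ b2 θ) (τ : Fin N → ℝ) (hτ : ∀ j, τ j ≤ 1)
    (hs : ∑ j, τ j * u j = min (∑ j, u j) (4 / 3)) (hcov : CovAt r e₀ u τ) {h q c : ℝ}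
    (h0 : 0 < h) (hh : h ≤ 1) (hq : h * ((∑ j, u j) + m + a) = q + c) (hc' : h * a = c)
    (hc : c ≤ 1 / 3) (hfull : q + c ≤ 5 / 3) (hqc : q - c ≤ 1) :
    h * bx 1 (Finset.univ.val.map u) m a + h * μ / 2 ≤ Tg2 θ h q c := by
  have h1 := box_of_cov hθ hθ1 B u hu hm ha he τ hτ hs hcov
  set L := (∑ j, u j) + m + a
  have h2 := le_target2 (e := Al2 θ L a - μ) hθ hθ1 h0 hh hq hc' hc hfull hqc le_rfl
  have h3 := mul_le_mul_of_nonneg_left h1 h0.le
  have h4 : h * (1 + (L + (Al2 θ L a - μ)) / 2) = h + (q + c) / 2 + h * (Al2 θ L a - μ) / 2 := by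
    rw [← hq]; ring
  linarith

end Crest.Agent.R017.BoxCov741
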