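import Crest.Agent.R017.BoxCls_271

/-!
# Row 17, D.box: merging the parts of the box theorem (helper271)

* `BOX3p θ r y δ η L Pk 𝓑` : the box inequality for the parameters `P ∈ Pk` and the boxes in `𝓑`
* `EvBox θ y Pk 𝓑` : it holds for all large `r`, all small `δ` (depending on `r`), all small `η`
  (depending on `r, δ`) and all large `L` (depending on `r, δ, η`)
* `EvBox.mono`, `EvBox.union`, `EvBox.unionP`, `EvBox.split`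
* `box3_of_ev : 0 < y < 1 → EvBox θ y (all P) (all boxes) → BOX3 θ`
-/

set_option autoImplicit false

noncomputable section

open MeasureTheory Complex Set Filter Topology
open scoped ComplexConjugate ContDiff

namespace Crest.Agent.R017.B770

open Crest.Agent.R012 Crest.Agent.R012.Eis Crest.Agent.R012.Mob705 Crest.Agent.R012.Gauss880
open Crest.Agent.R017.End699 Crest.Agent.R017.Sx440 Crest.Agent.R017.Sx545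
open Crest.Agent.R017.Asm986 Crest.Agent.R017.HBS271 Crest.Agent.R017.Sup271
open Crest.Agent.R017.BoxP271 Crest.Agent.R017.Box271

/-- **the box inequality for the parameters in `Pk` and the boxes in `𝓑`** -/
def BOX3p (θ : ℝ) (r : ℕ) (y δ η : ℝ) (L : ℕ) (Pk : DPar → Prop) (𝓑 : BoxCls r) : Prop :=
  ∀ P : DPar, P.OK → Pk P → ∀ ε C₁ : ℝ, 0 < ε → 0 < C₁ → ∃ C A : ℝ, 0 ≤ C ∧ 0 ≤ A ∧
    ∀ (Q₀ Q : ℝ), 1 ≤ Q → Q ≤ Q₀ → ∀ κ : ℝ, -1 ≤ κ → κ ≤ δ * Real.log Q₀ →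
    ∀ (J : Finset (Fin r)) (H : ℝ), 0 < H → H ≤ Q₀ ^ (1 / 2 + (y + δ) + η) →
    ∀ d₁ d₂ d₃ e : Eis, d₁ ≠ 0 → d₂ ≠ 0 → d₃ ≠ 0 → Sm P.n e →
      (∀ p : Eis, Prime p → p ∣ e → p ^ 5 ∣ e) →
      Q * nm e ≤ C₁ * Q₀ * (CJ r y Q₀ J * Real.exp κ / Q₀ ^ (y + δ)) →
    ∀ (t₁ t₂ τ : ℝ) (𝒟 : Finset Eis), (∀ q ∈ 𝒟, Sm P.n q ∧ Squarefree q) →
    ∀ u : Eis → ℝ, (∀ q, 0 ≤ u q ∧ u q ≤ C₁) →
    ∀ z : ℕ, 1 ≤ z → Real.log z ≤ Real.log Q / L + C₁ →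
    ∀ j : ℕ, 1 ≤ j → j ≤ L → ∀ c : Fin (j - 1) ⊕ Fin j → ℕ,
      |∑ i, (c (Sum.inl i) : ℝ) + ∑ i, (c (Sum.inr i) : ℝ) - Real.log Q| ≤ C₁ →
      (∀ i : Fin j, (c (Sum.inr i) : ℝ) ≤ Real.log Q / L + C₁) →
      𝓑 Q₀ Q κ J H j c →
      ∑ q ∈ 𝒟, ‖P.bx r y Q₀ (κ - u q) J H d₁ d₂ d₃ e t₁ t₂ τ z c q‖ ≤
        C * ((nm d₁ : ℝ) * nm d₂ * nm d₃ * nm e * Q₀) ^ ε * (1 + |t₁| + |t₂| + |τ|) ^ A *
          TgB θ η (if δ / 2 * Real.log Q₀ ≤ κ then η else -η) (y + δ) Q₀ Q H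
            (CJ r y Q₀ J * Real.exp κ)

lemma box3p_mono {θ : ℝ} {r : ℕ} {y δ η : ℝ} {L : ℕ} {Pk Pk' : DPar → Prop} {𝓑 𝓑' : BoxCls r}
    (hp : ∀ P, Pk' P → Pk P) (h : ∀ Q₀ Q κ J H j c, 𝓑' Q₀ Q κ J H j c → 𝓑 Q₀ Q κ J H j c)
    (hB : BOX3p θ r y δ η L Pk 𝓑) : BOX3p θ r y δ η L Pk' 𝓑' := by
  intro P hP hP' ε C₁ hε hC₁
  obtain ⟨C, A, hC, hA, h1⟩ := hB P hP (hp P hP') ε C₁ hε hC₁
  refine ⟨C, A, hC, hA, ?_⟩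
  intro Q₀ Q hQ hQQ κ hκ1 hκ2 J H hH hH2 d₁ d₂ d₃ e hd₁ hd₂ hd₃ he he5 hQe t₁ t₂ τ 𝒟 h𝒟 u hu z
    hz hlz j hj hjL c hc hc2 hcls
  exact h1 Q₀ Q hQ hQQ κ hκ1 hκ2 J H hH hH2 d₁ d₂ d₃ e hd₁ hd₂ hd₃ he he5 hQe t₁ t₂ τ 𝒟 h𝒟 u hu z
    hz hlz j hj hjL c hc hc2 (h _ _ _ _ _ _ _ hcls)

/-- union of two classes of boxes -/
theorem box3p_union {θ : ℝ} {r : ℕ} {y δ η : ℝ} {L : ℕ} {Pk : DPar → Prop} {𝓑 𝓑' : BoxCls r}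
    (h1 : BOX3p θ r y δ η L Pk 𝓑) (h2 : BOX3p θ r y δ η L Pk 𝓑') :
    BOX3p θ r y δ η L Pk (fun Q₀ Q κ J H j c => 𝓑 Q₀ Q κ J H j c ∨ 𝓑' Q₀ Q κ J H j c) := by
  intro P hP hP' ε C₁ hε hC₁
  obtain ⟨C, A, hC, hA, h1⟩ := h1 P hP hP' ε C₁ hε hC₁
  obtain ⟨C', A', hC', hA', h2⟩ := h2 P hP hP' ε C₁ hε hC₁
  refine ⟨max C C', max A A', le_max_of_le_left hC, le_max_of_le_left hA, ?_⟩
  intro Q₀ Q hQ hQQ κ hκ1 hκ2 J H hH hH2 d₁ d₂ d₃ e hd₁ hd₂ hd₃ he he5 hQe t₁ t₂ τ 𝒟 h𝒟 u hu z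
    hz hlz j hj hjL c hc hc2 hcls
  have hQ0 : 0 < Q := by linarith
  have hQ₀0 : 0 < Q₀ := by linarith
  have hCJ := CJ_pos (r := r) (y := y) hQ₀0 J
  have hTg0 : 0 ≤ TgB θ η (if δ / 2 * Real.log Q₀ ≤ κ then η else -η) (y + δ) Q₀ Q H
    (CJ r y Q₀ J * Real.exp κ) := TgB_nonneg' hQ₀0.le hQ0.le hH.le (by positivity)
  have hT1 : 1 ≤ 1 + |t₁| + |t₂| + |τ| := by
    linarith [abs_nonneg t₁, abs_nonneg t₂, abs_nonneg τ]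
  have hX0 : 0 ≤ (nm d₁ : ℝ) * nm d₂ * nm d₃ * nm e * Q₀ := by positivity
  rcases hcls with hcls | hcls
  · exact (h1 Q₀ Q hQ hQQ κ hκ1 hκ2 J H hH hH2 d₁ d₂ d₃ e hd₁ hd₂ hd₃ he he5 hQe t₁ t₂ τ 𝒟 h𝒟 u
      hu z hz hlz j hj hjL c hc hc2 hcls).trans
        (rhs_mono (le_max_left _ _) hC (le_max_left _ _) hX0 hT1 hTg0)
  · exact (h2 Q₀ Q hQ hQQ κ hκ1 hκ2 J H hH hH2 d₁ d₂ d₃ e hd₁ hd₂ hd₃ he he5 hQe t₁ t₂ τ 𝒟 h𝒟 u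
      hu z hz hlz j hj hjL c hc hc2 hcls).trans
        (rhs_mono (le_max_right _ _) hC' (le_max_right _ _) hX0 hT1 hTg0)

/-- union of two classes of parameters -/
theorem box3p_unionP {θ : ℝ} {r : ℕ} {y δ η : ℝ} {L : ℕ} {Pk Pk' : DPar → Prop} {𝓑 : BoxCls r}
    (h1 : BOX3p θ r y δ η L Pk 𝓑) (h2 : BOX3p θ r y δ η L Pk' 𝓑) :
    BOX3p θ r y δ η L (fun P => Pk P ∨ Pk' P) 𝓑 := by
  intro P hP hP' ε C₁ hε hC₁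
  rcases hP' with hP' | hP'
  · exact h1 P hP hP' ε C₁ hε hC₁
  · exact h2 P hP hP' ε C₁ hε hC₁

/-- **the box inequality for all large `r`, all small `δ`, all small `η`, all large `L`**
(each threshold may depend on the parameters before it) -/
def EvBox (θ y : ℝ) (Pk : DPar → Prop) (𝓑 : (r : ℕ) → BoxCls r) : Prop :=
  ∀ᶠ r : ℕ in atTop, ∀ᶠ δ : ℝ in 𝓝[>] 0, ∀ᶠ η : ℝ in 𝓝[>] 0, ∀ᶠ L : ℕ in atTop,
    BOX3p θ r y δ η L Pk (𝓑 r)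

lemma EvBox.mono {θ y : ℝ} {Pk Pk' : DPar → Prop} {𝓑 𝓑' : (r : ℕ) → BoxCls r}
    (hp : ∀ P, Pk' P → Pk P)
    (h : ∀ r Q₀ Q κ J H j c, 𝓑' r Q₀ Q κ J H j c → 𝓑 r Q₀ Q κ J H j c)
    (hB : EvBox θ y Pk 𝓑) : EvBox θ y Pk' 𝓑' :=
  Filter.Eventually.mono hB fun r h1 => h1.mono fun _ h2 => h2.mono fun _ h3 =>
    h3.mono fun _ h4 => box3p_mono hp (h r) h4

theorem EvBox.union {θ y : ℝ} {Pk : DPar → Prop} {𝓑 𝓑' : (r : ℕ) → BoxCls r}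
    (h1 : EvBox θ y Pk 𝓑) (h2 : EvBox θ y Pk 𝓑') :
    EvBox θ y Pk (fun r Q₀ Q κ J H j c => 𝓑 r Q₀ Q κ J H j c ∨ 𝓑' r Q₀ Q κ J H j c) := by
  unfold EvBox at *
  filter_upwards [h1, h2] with r a1 a2
  filter_upwards [a1, a2] with δ b1 b2
  filter_upwards [b1, b2] with η c1 c2
  filter_upwards [c1, c2] with L d1 d2
  exact box3p_union d1 d2

theorem EvBox.unionP {θ y : ℝ} {Pk Pk' : DPar → Prop} {𝓑 : (r : ℕ) → BoxCls r}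
    (h1 : EvBox θ y Pk 𝓑) (h2 : EvBox θ y Pk' 𝓑) : EvBox θ y (fun P => Pk P ∨ Pk' P) 𝓑 := by
  unfold EvBox at *
  filter_upwards [h1, h2] with r a1 a2
  filter_upwards [a1, a2] with δ b1 b2
  filter_upwards [b1, b2] with η c1 c2
  filter_upwards [c1, c2] with L d1 d2
  exact box3p_unionP d1 d2

/-- a class of boxes and its complement -/
theorem EvBox.split {θ y : ℝ} {Pk : DPar → Prop} (𝓑 : (r : ℕ) → BoxCls r)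
    (h1 : EvBox θ y Pk 𝓑) (h2 : EvBox θ y Pk (fun r Q₀ Q κ J H j c => ¬ 𝓑 r Q₀ Q κ J H j c)) :
    EvBox θ y Pk (fun _ _ _ _ _ _ _ _ => True) :=
  EvBox.mono (fun _ h => h) (fun _ _ _ _ _ _ _ _ _ => em _) (h1.union h2)

/-- a class of parameters and its complement -/
theorem EvBox.splitP {θ y : ℝ} (Pk : DPar → Prop) {𝓑 : (r : ℕ) → BoxCls r}
    (h1 : EvBox θ y Pk 𝓑) (h2 : EvBox θ y (fun P => ¬ Pk P) 𝓑) : EvBox θ y (fun _ => True) 𝓑 :=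
  EvBox.mono (fun _ _ => em _) (fun _ _ _ _ _ _ _ _ h => h) (h1.unionP h2)

/-- **`BOX3` from the eventual form** -/
theorem box3_of_ev {θ y : ℝ} (hy : 0 < y) (hy1 : y < 1)
    (h : EvBox θ y (fun _ => True) (fun _ _ _ _ _ _ _ _ => True)) : BOX3 θ := by
  obtain ⟨r, hr, hr0⟩ := (Filter.Eventually.and h (eventually_gt_atTop 0)).exists
  have hr0' : (0 : ℝ) < r := by exact_mod_cast hr0
  have hyr : 0 < y / r / 10 := by positivity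
  have hm : (0 : ℝ) < min (y / r / 10) (min (1 / 1000) ((1 - y) / 2)) :=
    lt_min hyr (lt_min (by norm_num) (by linarith))
  obtain ⟨δ, hδ, hδ1⟩ := (hr.and (Ioo_mem_nhdsGT hm)).exists
  obtain ⟨hδ0, hδm⟩ := hδ1
  have hd1 : δ < y / r / 10 := hδm.trans_le (min_le_left _ _)
  have hd2 : δ < 1 / 1000 := hδm.trans_le ((min_le_right _ _).trans (min_le_left _ _))
  have hd3 : δ < (1 - y) / 2 := hδm.trans_le ((min_le_right _ _).trans (min_le_right _ _))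
  obtain ⟨η, hη, hη1⟩ := (hδ.and (Ioo_mem_nhdsGT (show (0 : ℝ) < δ / 16 by positivity))).exists
  obtain ⟨hη0, hηm⟩ := hη1
  obtain ⟨L, hL, hL0⟩ := (hη.and (eventually_ge_atTop 1)).exists
  refine ⟨r, y, δ, η, L, hr0, hy, hδ0, by linarith, hd2.le, by linarith, hη0, hηm.le, hL0, ?_⟩
  intro P hP ε C₁ hε hC₁
  obtain ⟨C, A, hC, hA, h1⟩ := hL P hP trivial ε C₁ hε hC₁
  refine ⟨C, A, hC, hA, ?_⟩
  intro Q₀ Q hQ hQQ κ hκ1 hκ2 J H hH hH2 d₁ d₂ d₃ e hd₁ hd₂ hd₃ he he5 hQe t₁ t₂ τ 𝒟 h𝒟 u hu z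
    hz hlz j hj hjL c hc hc2
  exact h1 Q₀ Q hQ hQQ κ hκ1 hκ2 J H hH hH2 d₁ d₂ d₃ e hd₁ hd₂ hd₃ he he5 hQe t₁ t₂ τ 𝒟 h𝒟 u hu z
    hz hlz j hj hjL c hc hc2 trivial

end Crest.Agent.R017.B770
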