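import Crest.Agent.R017.BoxP_271

/-!
# Row 17, D.box: the `k` with `ψ χ_k` principal (2): the principal part of `DOUT3` (helper271)
-/

set_option autoImplicit false

noncomputable section

open MeasureTheory Complex Set
open scoped ComplexConjugate ContDiff

namespace Crest.Agent.R017.BoxP271

open Crest.Agent.R012 Crest.Agent.R012.Eis Crest.Agent.R012.Mob705 Crest.Agent.R012.Gauss880
open Crest.Agent.R012.PSer47 Crest.Agent.R012.Div277 Crest.Agent.R012.Weight600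
open Crest.Agent.R017.End699 Crest.Agent.R017.Sx545 Crest.Agent.R017.B770
open Crest.Agent.R017.Asm986 Crest.Agent.R017.HBS271 Crest.Agent.R017.Sup271

lemma nm_mch (n d : Eis) : (nm (n * (n * d) * (9 * 1)) : ℝ) = 81 * ((nm n : ℝ) ^ 2 * nm d) := by
  have h9 : nm (9 : Eis) = 81 := by decide
  rw [nm_mul, nm_mul, nm_mul, nm_mul, h9, nm_one]
  push_cast; ring

/-- the Möbius sum, sup bound -/
theorem mo_le {θ ε : ℝ} (hθ : 1 / 2 < θ) (hθ1 : θ ≤ 1) (hPF : PF Set.univ θ)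
    (hε : 0 < ε) (hε1 : ε ≤ 1) (l : ℤ) {V : ℝ → ℂ} (hV : SW V) (C₁ : ℝ) :
    ∃ C : ℝ, 0 ≤ C ∧ ∀ (n : Eis) (ψ : Eis → ℂ), HC n ψ → ∀ d k : Eis, d ≠ 0 → k ≠ 0 →
      ∀ t Q v : ℝ, 1 ≤ Q → 0 ≤ v → v ≤ C₁ →
      ‖MV V (Q * Real.exp (-v)) (fun b => twt ψ l t b * prin0 d b * sy k b)‖ ≤
        C * (((nm n : ℝ) ^ 2 * nm d) * nm k * (1 + |t|)) ^ ε * Q ^ (θ + ε) := by
  obtain ⟨C, hC0, hC⟩ := psup_MVk hθ hθ1 hPF hε hε1 l (sw_scale hV (Real.exp_pos C₁))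
  refine ⟨C * 81 ^ ε * Real.exp C₁ ^ (θ + ε), by positivity, fun n ψ hψ d k hd hk t Q v hQ hv hv1 => ?_⟩
  have hQ0 : 0 < Q := by linarith
  have e1 : Real.exp C₁ * (Q * Real.exp (-v)) = Q * Real.exp (C₁ - v) := by
    rw [sub_eq_add_neg, Real.exp_add]; ring
  have h1 : 1 ≤ Real.exp C₁ * (Q * Real.exp (-v)) := by
    rw [e1]
    have : 1 ≤ Real.exp (C₁ - v) := Real.one_le_exp (by linarith)
    nlinarith
  have h2 := hC _ _ (hc_mch hψ hd one_ne_zero) k hk t _ h1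
  rw [← mv_mch (M := n) (ψ := ψ) l t d 1 k, ← MV_scale (Real.exp_pos C₁), nm_mch] at h2
  have e2 : MV V (Q * Real.exp (-v)) (fun b => twt ψ l t b * prin0 d b * sy k b) =
      MV V (Q * Real.exp (-v)) (fun q => twt ψ l t q * prin0 (n * d) q * sy (1 * k) q) := by
    refine MV_congr fun b hb => ?_
    rw [twt_prin0 hψ l t d hb, one_mul]
  rw [e2]
  refine h2.trans ?_
  have e3 : (81 * ((nm n : ℝ) ^ 2 * nm d) * nm k * (1 + |t|)) ^ ε =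
      81 ^ ε * (((nm n : ℝ) ^ 2 * nm d) * nm k * (1 + |t|)) ^ ε := by
    rw [← Real.mul_rpow (by norm_num) (by positivity)]
    ring_nf
  have h3 : (Real.exp C₁ * (Q * Real.exp (-v))) ^ (θ + ε) ≤
      Real.exp C₁ ^ (θ + ε) * Q ^ (θ + ε) := by
    rw [← Real.mul_rpow (by positivity) (by positivity)]
    refine Real.rpow_le_rpow (by positivity) ?_ (by linarith)
    have : Real.exp (-v) ≤ 1 := Real.exp_le_one_iff.mpr (by linarith)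
    have h4 : Q * Real.exp (-v) ≤ Q * 1 := by gcongr
    rw [mul_one] at h4
    gcongr
  rw [e3]
  calc _ ≤ C * (81 ^ ε * (((nm n : ℝ) ^ 2 * nm d) * nm k * (1 + |t|)) ^ ε) *
      (Real.exp C₁ ^ (θ + ε) * Q ^ (θ + ε)) := by gcongr
    _ = _ := by ring

/-- the amplifier, sup bound -/
theorem amp_le {θ ε : ℝ} (hθ : 1 / 2 < θ) (hθ1 : θ ≤ 1) (hPF : PF Set.univ θ)
    (hε : 0 < ε) (hε1 : ε ≤ 1) (l : ℤ) {h : ℝ → ℂ} (hh : HW h) (r : ℕ) {y : ℝ} (hy : 0 ≤ y) :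
    ∃ C : ℝ, 0 ≤ C ∧ ∀ (n : Eis) (φ : Eis → ℂ), HC n φ → ∀ d k : Eis, d ≠ 0 → k ≠ 0 →
      NPk n φ l k → ∀ t Q₀ : ℝ, 1 ≤ Q₀ → ∀ J : Finset (Fin r),
      ‖Amp h r y Q₀ J (fun c => twt φ l t c * prin0 d c * conj (sy k c))‖ ≤
        C * (((nm n : ℝ) ^ 2 * nm d) * nm k * (1 + |t|)) ^ ε * CJ r y Q₀ J ^ (θ + ε) := by
  obtain ⟨C, hC0, hC⟩ := PLow271.psup_Amp hθ hθ1 hPF hε hε1 l hh r hy
  refine ⟨C * 81 ^ ε, by positivity, fun n φ hφ d k hd hk hnp t Q₀ hQ₀ J => ?_⟩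
  have hnp' : NPk n φ l (1 * k) := by rwa [one_mul]
  have h2 := hC _ _ (hc_mch' hφ hd one_ne_zero) k hk (npk_mch hφ hd one_ne_zero hk hnp') t Q₀ hQ₀ J
  rw [← amp_mch hφ l t d 1 k, nm_mch, one_mul] at h2
  refine h2.trans (le_of_eq ?_)
  have e3 : (81 * ((nm n : ℝ) ^ 2 * nm d) * nm k * (1 + |t|)) ^ ε =
      81 ^ ε * (((nm n : ℝ) ^ 2 * nm d) * nm k * (1 + |t|)) ^ ε := by
    rw [← Real.mul_rpow (by norm_num) (by positivity)]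
    ring_nf
  rw [e3]
  ring

/-- the smooth squarefree piece, both bounds, uniform in the principal `k` -/
theorem as_le {h : ℝ → ℂ} (hh : HW h) (l : ℤ) (n : Eis) (φ : Eis → ℂ) (hφ : HC n φ)
    {ψ : Eis → ℂ} (hψ : HC n ψ) (l' : ℤ) {s : ℝ} (hs : 0 < s) : ∃ C : ℝ, 0 ≤ C ∧
    ∀ k d : Eis, k ≠ 0 → d ≠ 0 → NPk n φ l k → ¬ NPm n ψ l' k → ∀ κ t a : ℝ, (a = 1 ∨ a = 3 / 4) →
      ‖AS h κ (fun c => twt φ l t c * prin0 d c * conj (sy k c))‖ ≤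
        C * ((1 + |t|) * ((nm k : ℝ) * nm d) ^ s * Real.exp (a * κ)) := by
  obtain ⟨B, hB⟩ := (hh.cd.continuous.bounded_above_of_compact_support (HW.cpt hh))
  have hB0 : 0 ≤ B := (norm_nonneg _).trans (hB 0)
  obtain ⟨n₀, hn₀, hform⟩ := principal_form hψ.conj l'
  obtain ⟨Cs, hCs0, hCs⟩ := AS_small hh l
  obtain ⟨Ct, hCt1, hCt⟩ := tau_le_rpow hs
  refine ⟨18 * Real.exp 1 * B + Cs * ((nm n : ℝ) * nm n₀) ^ (1 / 2 : ℝ) * Ct, by positivity,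
    fun k d hk hd hnp hnpm κ t a ha => ?_⟩
  obtain ⟨z, hz, rfl⟩ := hform k hk (npk_of_npm hnpm)
  have hk1 : (1 : ℝ) ≤ nm (n₀ * z ^ 3) := by exact_mod_cast nm_pos.mpr hk
  have hd1 : (1 : ℝ) ≤ nm d := by exact_mod_cast nm_pos.mpr hd
  have hkd : 1 ≤ (nm (n₀ * z ^ 3) : ℝ) * nm d := by nlinarith
  have hkd' : 1 ≤ ((nm (n₀ * z ^ 3) : ℝ) * nm d) ^ s := Real.one_le_rpow hkd hs.le
  have ht : 1 ≤ 1 + |t| := by linarith [abs_nonneg t]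
  rcases ha with rfl | rfl
  · have hf : ∀ b, IsPrim b → ‖twt φ l t b * prin0 d b * conj (sy (n₀ * z ^ 3) b)‖ ≤ 1 := by
      intro b hb
      have h1 := (isChar_twt hφ l t).norm_le hb
      have h2 := (isChar_prin0 d).norm_le hb
      have h3 := (Char766.isChar_sy (n₀ * z ^ 3)).norm_le hb
      rw [norm_mul, norm_mul, RCLike.norm_conj]
      exact mul_le_one₀ (mul_le_one₀ h1 (norm_nonneg _) h2) (norm_nonneg _) h3
    refine (norm_AS_le hB hf κ).trans ?_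
    rw [Real.exp_add, one_mul]
    have h4 : 18 * (Real.exp κ * Real.exp 1) * B =
        (18 * Real.exp 1 * B) * (1 * 1 * Real.exp κ) := by ring
    rw [h4]
    have h5 : 0 ≤ Cs * ((nm n : ℝ) * nm n₀) ^ (1 / 2 : ℝ) * Ct := by positivity
    gcongr
    linarith
  · refine (hCs n φ hφ n₀ z d hn₀ hz hd hnp κ t).trans ?_
    have h1 : (tau (rd (z * d)) : ℝ) ≤ Ct * ((nm (n₀ * z ^ 3) : ℝ) * nm d) ^ s := by
      refine (hCt _ (rd_prim _).ne_zero).trans ?_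
      refine mul_le_mul_of_nonneg_left ?_ (by linarith)
      refine Real.rpow_le_rpow (by positivity) ?_ hs.le
      have h2 : (nm (rd (z * d)) : ℝ) ≤ nm (z * d) := by
        exact_mod_cast nm_rd_le (mul_ne_zero hz hd)
      refine h2.trans ?_
      rw [nm_mul]
      push_cast
      refine mul_le_mul_of_nonneg_right ?_ (by positivity)
      exact_mod_cast nm_le_of_dvd hk ⟨n₀ * z ^ 2, by ring⟩
    have h5 : 0 ≤ 18 * Real.exp 1 * B := by positivity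
    have e1 : Real.exp (3 / 4 * κ) = Real.exp ((3 / 4 : ℝ) * κ) := rfl
    calc Cs * ((1 + |t|) * ((nm n : ℝ) * nm n₀) ^ (1 / 2 : ℝ) * tau (rd (z * d)) *
          Real.exp (3 / 4 * κ))
        ≤ Cs * ((1 + |t|) * ((nm n : ℝ) * nm n₀) ^ (1 / 2 : ℝ) *
          (Ct * ((nm (n₀ * z ^ 3) : ℝ) * nm d) ^ s) * Real.exp (3 / 4 * κ)) := by gcongr
      _ = (Cs * ((nm n : ℝ) * nm n₀) ^ (1 / 2 : ℝ) * Ct) *
          ((1 + |t|) * ((nm (n₀ * z ^ 3) : ℝ) * nm d) ^ s * Real.exp (3 / 4 * κ)) := by ring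
      _ ≤ _ := by
        gcongr
        linarith

open Classical in
/-- interchange of the sums over `q` and `k` -/
lemma sum_q_le {N : ℕ} {𝒟 : Finset Eis} (h𝒟 : ∀ q ∈ 𝒟, IsPrim q) {c1 c2 : Eis → Prop}
    {F : Eis → Eis → ℂ} {W : ℝ} (hW : 0 ≤ W) (h0 : ∀ q k, N < nm k → F q k = 0)
    (h1 : ∀ q ∈ 𝒟, ∀ k, k ≠ 0 → (c1 k ∧ ¬ c2 k) → nm k ≤ N → ‖F q k‖ ≤ W) :
    ∑ q ∈ 𝒟, ‖∑' k : Eis, if k ≠ 0 ∧ q ^ 2 ∣ k ∧ (c1 k ∧ ¬ c2 k) then F q k else 0‖ ≤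
      W * ∑ k ∈ (ball N).filter (fun k => k ≠ 0 ∧ (c1 k ∧ ¬ c2 k)), (tau k : ℝ) := by
  have h2 : ∀ q ∈ 𝒟, ‖∑' k : Eis, if k ≠ 0 ∧ q ^ 2 ∣ k ∧ (c1 k ∧ ¬ c2 k) then F q k else 0‖ ≤
      ∑ k ∈ (ball N).filter (fun k => k ≠ 0 ∧ (c1 k ∧ ¬ c2 k)), if q ^ 2 ∣ k then W else 0 := by
    intro q hq
    rw [tsum_eq_sum (s := (ball N).filter (fun k => k ≠ 0 ∧ (c1 k ∧ ¬ c2 k)))]
    · refine (norm_sum_le _ _).trans (Finset.sum_le_sum fun k hk => ?_)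
      rw [Finset.mem_filter, mem_ball] at hk
      by_cases hd : q ^ 2 ∣ k
      · rw [if_pos hd, if_pos ⟨hk.2.1, hd, hk.2.2⟩]
        exact h1 q hq k hk.2.1 hk.2.2 hk.1
      · rw [if_neg hd, if_neg fun h => hd h.2.1, norm_zero]
    · intro k hk
      split_ifs with hc
      · refine h0 q k ?_
        by_contra h3
        apply hk
        rw [Finset.mem_filter, mem_ball]
        exact ⟨not_lt.mp h3, hc.1, hc.2.2⟩
      · rfl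
  refine (Finset.sum_le_sum h2).trans ?_
  rw [Finset.sum_comm, Finset.mul_sum]
  refine Finset.sum_le_sum fun k hk => ?_
  rw [Finset.mem_filter, mem_ball] at hk
  rw [← Finset.sum_filter, Finset.sum_const, nsmul_eq_mul, mul_comm]
  refine mul_le_mul_of_nonneg_left ?_ hW
  have h3 : (𝒟.filter (fun q => q ^ 2 ∣ k)) ⊆ dvs k := by
    intro q hq
    rw [Finset.mem_filter] at hq
    rw [mem_dvs hk.2.1]
    exact ⟨h𝒟 q hq.1, (dvd_pow_self q two_ne_zero).trans hq.2⟩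
  unfold tau
  exact_mod_cast Finset.card_le_card h3

/-- the exponent computation -/
lemma third_mono {θ y₀ δ η a η₂ Q₀ Q H c κ : ℝ} (hθ : 7 / 8 < θ) (hθ1 : θ ≤ 1) (hδ : 0 < δ)
    (hy₀ : δ ≤ y₀) (hη : 0 < η) (hη2 : η ≤ δ / 16) (hQ₀ : 1 ≤ Q₀) (hQ : 0 < Q) (hH : 0 < H)
    (hc : 0 < c) (hH2 : H ≤ Q₀ ^ (1 / 2 + y₀ + η)) (hκ : κ ≤ δ * Real.log Q₀)
    (h : (a = 1 ∧ η₂ = -η) ∨ (a = 3 / 4 ∧ η₂ = η ∧ δ / 2 * Real.log Q₀ ≤ κ)) :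
    H ^ (1 / 3 : ℝ) * Q ^ θ * c ^ θ * Real.exp (a * κ) ≤
      TgB θ η η₂ y₀ Q₀ Q H (c * Real.exp κ) := by
  have hQ₀0 : 0 < Q₀ := by linarith
  have hL0 : 0 ≤ Real.log Q₀ := Real.log_nonneg hQ₀
  have hlH : Real.log H ≤ (1 / 2 + y₀ + η) * Real.log Q₀ := by
    rw [← Real.log_rpow hQ₀0]
    exact Real.log_le_log hH hH2
  unfold TgB
  have hpos1 : 0 ≤ Q₀ ^ (-η) * (H / Q₀ ^ (1 / 2 + y₀) * (Q / Q₀) ^ (1 / 2 : ℝ) *
      (c * Real.exp κ / Q₀ ^ y₀) ^ (1 / 2 : ℝ) + (H / Q₀ ^ (1 / 2 + y₀)) ^ (1 / 2 : ℝ) *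
        (Q / Q₀) ^ (3 / 4 : ℝ) * (c * Real.exp κ / Q₀ ^ y₀) ^ (1 / 4 : ℝ)) := by positivity
  have key : H ^ (1 / 3 : ℝ) * Q ^ θ * c ^ θ * Real.exp (a * κ) ≤
      Q₀ ^ ((1 / 2 + y₀) / 3 + y₀ + θ) * (Q₀ ^ (-η₂) * ((H / Q₀ ^ (1 / 2 + y₀)) ^ (1 / 6 : ℝ) *
        (Q / Q₀) ^ θ * (c * Real.exp κ / Q₀ ^ y₀) ^ θ)) := by
    obtain ⟨lh, rfl⟩ : ∃ x, Real.exp x = H := ⟨_, Real.exp_log hH⟩
    obtain ⟨lq, rfl⟩ : ∃ x, Real.exp x = Q := ⟨_, Real.exp_log hQ⟩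
    obtain ⟨lc, rfl⟩ : ∃ x, Real.exp x = c := ⟨_, Real.exp_log hc⟩
    obtain ⟨L, rfl⟩ : ∃ x, Real.exp x = Q₀ := ⟨_, Real.exp_log hQ₀0⟩
    rw [Real.log_exp] at hL0 hlH hκ h
    rw [Real.log_exp] at hlH
    simp only [← Real.exp_mul, ← Real.exp_add, ← Real.exp_sub]
    apply Real.exp_le_exp.mpr
    rcases h with ⟨ha, hη₂⟩ | ⟨ha, hη₂, hk⟩
    · rw [ha, hη₂]
      nlinarith [mul_nonneg (sub_nonneg.mpr hθ1) (sub_nonneg.mpr hκ),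
        mul_nonneg (mul_nonneg (sub_nonneg.mpr hθ1) (sub_nonneg.mpr hy₀)) hL0,
        mul_nonneg hη.le hL0]
    · rw [ha, hη₂]
      nlinarith [mul_nonneg (show 0 ≤ θ - 3 / 4 by linarith) (sub_nonneg.mpr hk),
        mul_nonneg (mul_nonneg (sub_nonneg.mpr hθ1) (show 0 ≤ y₀ - δ / 2 by linarith)) hL0,
        mul_nonneg (show 0 ≤ δ / 8 - 7 / 6 * η by linarith) hL0]
  refine key.trans ?_
  refine mul_le_mul_of_nonneg_left ?_ (by positivity)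
  linarith

end Crest.Agent.R017.BoxP271
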