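import Crest.Agent.R017.BoxP3_271
import Crest.Agent.R017.BL5b_868

/-!
# Row 17, D.box: `BOX3 θ → PF univ θ → DOUT3 θ` (helper271)
-/

set_option autoImplicit false

noncomputable section

open MeasureTheory Complex Set
open scoped ComplexConjugate ContDiff

namespace Crest.Agent.R017.Box271

open Crest.Agent.R012 Crest.Agent.R012.Eis Crest.Agent.R012.Mob705 Crest.Agent.R012.Gauss880
open Crest.Agent.R012.PSer47 Crest.Agent.R012.Div277 Crest.Agent.R012.Weight600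
open Crest.Agent.R017.End699 Crest.Agent.R017.Sx545 Crest.Agent.R017.B770
open Crest.Agent.R017.Asm986 Crest.Agent.R017.HBS271 Crest.Agent.R017.Sup271
open Crest.Agent.R017.BoxP271
open Crest.Agent.R017.HB645 (PS PM cM zz one_le_zz exp_le_zz_pow log_zz_le mem_boxes)

/-! ### shift of the twist -/

lemma ch_shift (P : DPar) (d₂ : Eis) (t₂ t : ℝ) (k : Eis) {b : Eis} (hb : IsPrim b) :
    P.ch d₂ t₂ k b * Weight600.pw t (nm b) = P.ch d₂ (t₂ + t) k b := by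
  have hb0 := nm_ne_zero_of_prim hb
  have hb1 : (nm b : ℂ) ≠ 0 := by exact_mod_cast hb0
  have e := pw_eq_cpow (t := t) hb0
  unfold DPar.ch twt
  rw [e, ofReal_add, mul_add, Complex.cpow_add _ _ hb1, mul_comm I (t : ℂ)]
  ring

lemma pw_zero (n : ℕ) : Weight600.pw 0 n = 1 := by
  unfold Weight600.pw osc
  simp

lemma PS_shift (P : DPar) (d₂ : Eis) (t₂ t : ℝ) (k : Eis) (κ : ℕ) :
    PS (P.ch d₂ t₂ k) κ t = PS (P.ch d₂ (t₂ + t) k) κ 0 := by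
  unfold HB645.PS
  refine Finset.sum_congr rfl fun b hb => ?_
  rw [ch_shift P d₂ t₂ t k (mem_primBall.mp hb).2, pw_zero, mul_one]

lemma PM_shift (P : DPar) (d₂ : Eis) (t₂ t z : ℝ) (k : Eis) (κ : ℕ) :
    PM (P.ch d₂ t₂ k) z κ t = PM (P.ch d₂ (t₂ + t) k) z κ 0 := by
  unfold HB645.PM
  refine Finset.sum_congr rfl fun b hb => ?_
  rw [← ch_shift P d₂ t₂ t k (mem_primBall.mp hb).2, pw_zero]
  ring

lemma GC_shift (P : DPar) (d₂ : Eis) (t₂ t z : ℝ) (k : Eis) {j : ℕ}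
    (c : Fin (j - 1) ⊕ Fin j → ℕ) :
    GC (P.ch d₂ t₂ k) z c t = GC (P.ch d₂ (t₂ + t) k) z c 0 := by
  unfold GC
  simp only [PS_shift P d₂ t₂ t k, PM_shift P d₂ t₂ t z k]

lemma isChar_ch (P : DPar) (hP : P.OK) (d₂ : Eis) (t₂ : ℝ) (k : Eis) : IsChar (P.ch d₂ t₂ k) :=
  ((isChar_twt hP.ψ P.l₂ t₂).mul' (isChar_prin0 d₂)).mul' (Char766.isChar_sy k)

/-! ### logarithmic weight -/

lemma exists_log_supp {V : ℝ → ℂ} (hV : SW V) : ∃ β : ℝ, 0 ≤ β ∧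
    ∀ u, β < |u| → V (Real.exp u) = 0 := by
  obtain ⟨-, h2⟩ := HB645.log_weight' hV.smooth hV.cpt hV.supp
  obtain ⟨r, hr⟩ := h2.isCompact.isBounded.subset_closedBall 0
  refine ⟨max r 0, le_max_right _ _, fun u hu => ?_⟩
  have h3 : u ∉ tsupport (fun u : ℝ => V (Real.exp u)) := by
    intro h4
    have h5 := hr h4
    rw [Metric.mem_closedBall, dist_zero_right, Real.norm_eq_abs] at h5
    exact absurd (h5.trans (le_max_left r 0)) (not_le.mpr hu)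
  exact image_eq_zero_of_notMem_tsupport (f := fun u : ℝ => V (Real.exp u)) h3

lemma mo_eq (P : DPar) (hP : P.OK) {β : ℝ} (hβ : ∀ u, β < |u| → P.V (Real.exp u) = 0)
    (d₂ : Eis) (t₂ : ℝ) (k : Eis) {Q s : ℝ} (hQ : 0 < Q) {X : ℕ}
    (hX : Real.exp (Real.log Q + (β + s)) ≤ X) :
    P.mo (Q * Real.exp s) d₂ t₂ k = ∑ b ∈ primBall X, (muE b : ℂ) *
      (P.ch d₂ t₂ k b * (fun u : ℝ => P.V (Real.exp u)) (Real.log (nm b) - (Real.log Q + s))) := by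
  have hβ' : ∀ x, P.V x ≠ 0 → 0 < x ∧ x ≤ Real.exp β := by
    intro x hx
    have hx0 : 0 < x := hP.V.supp (subset_tsupport P.V hx)
    refine ⟨hx0, ?_⟩
    by_contra h
    push Not at h
    apply hx
    have h1 : β < Real.log x := by rwa [Real.lt_log_iff_exp_lt hx0]
    have h2 := hβ (Real.log x) (lt_of_lt_of_le h1 (le_abs_self _))
    rwa [Real.exp_log hx0] at h2
  have hQs : 0 < Q * Real.exp s := by positivity
  have hN : Real.exp β * (Q * Real.exp s) < X + 1 := by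
    have : Real.exp (Real.log Q + (β + s)) = Real.exp β * (Q * Real.exp s) := by
      rw [Real.exp_add, Real.exp_add, Real.exp_log hQ]; ring
    rw [← this]
    linarith
  unfold DPar.mo
  rw [L5.MV_eq_sum hβ' hQs _ hN]
  refine Finset.sum_congr rfl fun b hb => ?_
  have hb0 : (0 : ℝ) < nm b := by exact_mod_cast nm_pos.mpr (mem_primBall.mp hb).2.ne_zero
  simp only
  rw [Real.exp_sub, Real.exp_add, Real.exp_log hb0, Real.exp_log hQ]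
  unfold DPar.ch
  ring

lemma tsum_cond {N : ℕ} {c : Eis → Prop} [DecidablePred c] {F : Eis → ℂ}
    (h0 : ∀ k, N < nm k → F k = 0) :
    ∑' k : Eis, (if c k then F k else 0) = ∑ k ∈ (ball N).filter c, F k := by
  rw [tsum_eq_sum (s := (ball N).filter c)]
  · refine Finset.sum_congr rfl fun k hk => ?_
    rw [if_pos (Finset.mem_filter.mp hk).2]
  · intro k hk
    split_ifs with hc
    · refine h0 k ?_
      by_contra h3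
      apply hk
      rw [Finset.mem_filter, mem_ball]
      exact ⟨not_lt.mp h3, hc⟩
    · rfl

lemma poly_exp (n : ℕ) {δ : ℝ} (hδ : 0 < δ) : ∃ C : ℝ, 0 ≤ C ∧ ∀ x : ℝ, 0 ≤ x →
    (1 + x) ^ n ≤ C * Real.exp (δ * x) := by
  set d : ℝ := δ / (n + 1) with hd
  have hd0 : 0 < d := by positivity
  refine ⟨(1 + 1 / d) ^ n, by positivity, fun x hx => ?_⟩
  have h1 : 1 + x ≤ (1 + 1 / d) * Real.exp (d * x) := by
    have h2 := Real.add_one_le_exp (d * x)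
    have h3 : (1 + 1 / d) * (d * x + 1) = 1 + x + (1 / d + d * x) := by
      field_simp
      ring
    have h4 : (1 + 1 / d) * (d * x + 1) ≤ (1 + 1 / d) * Real.exp (d * x) := by gcongr
    have h5 : 0 ≤ 1 / d + d * x := by positivity
    linarith
  calc (1 + x) ^ n ≤ ((1 + 1 / d) * Real.exp (d * x)) ^ n := by gcongr
    _ = (1 + 1 / d) ^ n * Real.exp (n * (d * x)) := by rw [mul_pow, ← Real.exp_nat_mul]
    _ ≤ _ := by
        refine mul_le_mul_of_nonneg_left (Real.exp_le_exp.mpr ?_) (by positivity)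
        rw [← mul_assoc]
        refine mul_le_mul_of_nonneg_right ?_ hx
        rw [hd, ← mul_div_assoc, div_le_iff₀ (by positivity)]
        nlinarith

lemma T_shift (t₁ t₂ t τ : ℝ) : 1 + |t₁| + |t₂ + t| + |τ| ≤ (1 + |t₁| + |t₂| + |τ|) * (1 + |t|) := by
  have h2 := abs_add_le t₂ t
  have h3 := abs_nonneg t
  nlinarith [mul_nonneg (abs_nonneg t₁) h3, mul_nonneg (abs_nonneg t₂) h3,
    mul_nonneg (abs_nonneg τ) h3]

lemma TgB_nonneg' {θ η₁ η₂ y₀ Q₀ Q H Cc : ℝ} (hQ₀ : 0 ≤ Q₀) (hQ : 0 ≤ Q) (hH : 0 ≤ H)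
    (hC : 0 ≤ Cc) : 0 ≤ TgB θ η₁ η₂ y₀ Q₀ Q H Cc := by
  unfold TgB
  positivity

open Classical in
/-- **the part of `DOUT3` over the `k` with both characters nonprincipal** -/
theorem box_part {θ : ℝ} {r : ℕ} {y δ η : ℝ} {L : ℕ} (hL : 1 ≤ L) (hB : BOX3i θ r y δ η L)
    (P : DPar) (hP : P.OK) {ε C₁ : ℝ} (hε : 0 < ε) (hC₁ : 0 < C₁) : ∃ C A : ℝ, 0 ≤ C ∧ 0 ≤ A ∧
    ∀ (Q₀ Q : ℝ), 1 ≤ Q → Q ≤ Q₀ → ∀ κ : ℝ, -1 ≤ κ → κ ≤ δ * Real.log Q₀ →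
    ∀ (J : Finset (Fin r)) (H : ℝ), 0 < H → H ≤ Q₀ ^ (1 / 2 + (y + δ) + η) →
    ∀ d₁ d₂ d₃ e : Eis, d₁ ≠ 0 → d₂ ≠ 0 → d₃ ≠ 0 → Sm P.n e →
      (∀ p : Eis, Prime p → p ∣ e → p ^ 5 ∣ e) →
      Q * nm e ≤ C₁ * Q₀ * (CJ r y Q₀ J * Real.exp κ / Q₀ ^ (y + δ)) →
    ∀ (t₁ t₂ τ : ℝ) (𝒟 : Finset Eis), (∀ q ∈ 𝒟, Sm P.n q ∧ Squarefree q) →
    ∀ u v : Eis → ℝ, (∀ q, 0 ≤ u q ∧ u q ≤ C₁) → (∀ q, 0 ≤ v q ∧ v q ≤ C₁) →
      ∑ q ∈ 𝒟, ‖∑' k : Eis, if k ≠ 0 ∧ q ^ 2 ∣ k ∧ (NPk P.n P.φ P.l₁ k ∧ NPm P.n P.ψ P.l₂ k) then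
        P.wk τ H k * (prin0 d₃ k * sy k e) *
          (P.am r y Q₀ (κ - u q) J d₁ t₁ k * P.mo (Q * Real.exp (-(v q))) d₂ t₂ k) else 0‖ ≤
        C * ((nm d₁ : ℝ) * nm d₂ * nm d₃ * nm e * Q₀) ^ ε * (1 + |t₁| + |t₂| + |τ|) ^ A *
          TgB θ η (if δ / 2 * Real.log Q₀ ≤ κ then η else -η) (y + δ) Q₀ Q H
            (CJ r y Q₀ J * Real.exp κ) := by
  obtain ⟨β, hβ0, hβ⟩ := exists_log_supp hP.V
  obtain ⟨hW1, hW2⟩ := HB645.log_weight' hP.V.smooth hP.V.cpt hP.V.supp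
  set C₂ : ℝ := β + C₁ + 2 * L + 4 with hC₂
  have hL0 : (0 : ℝ) ≤ L := Nat.cast_nonneg _
  have hL1 : (1 : ℝ) ≤ L := by exact_mod_cast hL
  have hC₂0 : 0 < C₂ := by positivity
  obtain ⟨Cb, Ab, hCb0, hAb0, hCb⟩ := hB P hP (ε / 2) C₂ (by positivity) hC₂0
  obtain ⟨Ch, hCh0, hCh⟩ := hb_outer hW1 hW2 hβ0 hC₁.le hβ hL ⌈Ab⌉₊
  obtain ⟨Cp, hCp0, hCp⟩ := poly_exp (2 * L) (show 0 < ε / 2 by positivity)
  obtain ⟨βU, hβU1, hβU⟩ := Asm986.sw_bound hP.U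
  refine ⟨Ch * Cp * Cb, Ab, by positivity, hAb0, ?_⟩
  intro Q₀ Q hQ hQQ κ hκ1 hκ2 J H hH hH2 d₁ d₂ d₃ e hd₁ hd₂ hd₃ he he5 hQe t₁ t₂ τ 𝒟 h𝒟 u v hu hv
  have hQ0 : 0 < Q := by linarith
  have hQ₀ : 1 ≤ Q₀ := hQ.trans hQQ
  have hQ₀0 : 0 < Q₀ := by linarith
  have hlQ : 0 ≤ Real.log Q := Real.log_nonneg hQ
  have hCJ := CJ_pos (r := r) (y := y) hQ₀0 J
  set N : ℕ := ⌊βU * H⌋₊ with hN
  have hU0 : ∀ k, N < nm k → P.U (nm k / H) = 0 := by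
    intro k hk
    by_contra hne
    have h1 := (hβU _ hne).2
    rw [div_le_iff₀ hH] at h1
    have h2 : nm k ≤ N := Nat.le_floor h1
    omega
  have hwk : ∀ k, N < nm k → P.wk τ H k = 0 := by
    intro k hk
    unfold DPar.wk
    rw [hU0 k hk, mul_zero]
  set z : ℕ := zz L (Real.log Q + (β + C₁)) with hz
  have hz1 : 1 ≤ z := one_le_zz _ _
  have hyβ : 0 ≤ Real.log Q + (β + C₁) := by positivity
  have hlz : Real.log z ≤ Real.log Q / L + (β + C₁ + 1) := by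
    refine (log_zz_le (L := L) hyβ).trans ?_
    rw [add_div]
    have : (β + C₁) / L ≤ β + C₁ := div_le_self (by positivity) hL1
    linarith
  set X : ℕ := ⌈Real.exp (Real.log Q + (β + C₁))⌉₊ with hX
  have hXX : Real.exp (Real.log Q + (β + C₁)) ≤ X := Nat.le_ceil _
  set Tg : ℝ := TgB θ η (if δ / 2 * Real.log Q₀ ≤ κ then η else -η) (y + δ) Q₀ Q H
    (CJ r y Q₀ J * Real.exp κ) with hTg
  have hTg0 : 0 ≤ Tg := TgB_nonneg' hQ₀0.le hQ0.le hH.le (by positivity)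
  set D : ℝ := (nm d₁ : ℝ) * nm d₂ * nm d₃ * nm e * Q₀ with hD
  have hm1 : (1 : ℝ) ≤ nm d₁ := by exact_mod_cast nm_pos.mpr hd₁
  have hm2 : (1 : ℝ) ≤ nm d₂ := by exact_mod_cast nm_pos.mpr hd₂
  have hm3 : (1 : ℝ) ≤ nm d₃ := by exact_mod_cast nm_pos.mpr hd₃
  have hm4 : (1 : ℝ) ≤ nm e := by exact_mod_cast nm_pos.mpr he.1.ne_zero
  have hQ₀D : Q₀ ≤ D := (X_facts hm1 hm2 hm3 hm4 hQ₀).1
  have hD1 : 1 ≤ D := hQ₀.trans hQ₀D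
  set T : ℝ := 1 + |t₁| + |t₂| + |τ| with hT
  have a1 := abs_nonneg t₁
  have a2 := abs_nonneg t₂
  have a3 := abs_nonneg τ
  have hT1 : 1 ≤ T := by rw [hT]; linarith
  set B : ℝ := Cb * D ^ (ε / 2) * T ^ Ab * Tg with hBdef
  have hB0 : 0 ≤ B := by positivity
  have key := hCh (Real.log Q) z hlQ hz1 (exp_le_zz_pow hL _) X hXX 𝒟 (fun q => -(v q))
    (by
      intro q _
      rw [abs_neg, abs_of_nonneg (hv q).1]
      exact (hv q).2)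
    (fun q => (ball N).filter (fun k => k ≠ 0 ∧ q ^ 2 ∣ k ∧
      (NPk P.n P.φ P.l₁ k ∧ NPm P.n P.ψ P.l₂ k)))
    (fun q k => P.wk τ H k * (prin0 d₃ k * sy k e) * P.am r y Q₀ (κ - u q) J d₁ t₁ k)
    (fun _ k => P.ch d₂ t₂ k) (fun q _ k _ => isChar_ch P hP d₂ t₂ k) B hB0 ?_
  · -- left side
    have e1 : ∀ q ∈ 𝒟, ‖∑' k : Eis, if k ≠ 0 ∧ q ^ 2 ∣ k ∧
        (NPk P.n P.φ P.l₁ k ∧ NPm P.n P.ψ P.l₂ k) then
        P.wk τ H k * (prin0 d₃ k * sy k e) *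
          (P.am r y Q₀ (κ - u q) J d₁ t₁ k * P.mo (Q * Real.exp (-(v q))) d₂ t₂ k) else 0‖ =
        ‖∑ k ∈ (ball N).filter (fun k => k ≠ 0 ∧ q ^ 2 ∣ k ∧
          (NPk P.n P.φ P.l₁ k ∧ NPm P.n P.ψ P.l₂ k)),
          (P.wk τ H k * (prin0 d₃ k * sy k e) * P.am r y Q₀ (κ - u q) J d₁ t₁ k) *
          ∑ b ∈ primBall X, (muE b : ℂ) * (P.ch d₂ t₂ k b *
            (fun u : ℝ => P.V (Real.exp u)) (Real.log (nm b) - (Real.log Q + -(v q))))‖ := by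
      intro q _
      rw [tsum_cond (N := N)]
      · congr 1
        refine Finset.sum_congr rfl fun k _ => ?_
        rw [mo_eq P hP hβ d₂ t₂ k hQ0 (X := X)]
        · ring
        · refine (Real.exp_le_exp.mpr ?_).trans hXX
          have := (hv q).1
          linarith
      · intro k hk
        rw [hwk k hk]; ring
    rw [Finset.sum_congr rfl e1]
    refine key.trans ?_
    have g1 : (1 + Real.log Q) ^ (2 * L) ≤ Cp * D ^ (ε / 2) := by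
      refine (hCp _ hlQ).trans ?_
      refine mul_le_mul_of_nonneg_left ?_ hCp0
      rw [mul_comm, ← Real.rpow_def_of_pos hQ0]
      exact Real.rpow_le_rpow hQ0.le (hQQ.trans hQ₀D) (by positivity)
    have g2 : D ^ ε = D ^ (ε / 2) * D ^ (ε / 2) := by
      rw [← Real.rpow_add (by linarith)]
      congr 1; ring
    calc Ch * (1 + Real.log Q) ^ (2 * L) * B ≤ Ch * (Cp * D ^ (ε / 2)) * B := by gcongr
      _ = Ch * Cp * Cb * D ^ ε * T ^ Ab * Tg := by rw [hBdef, g2]; ring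
  · -- boxes
    intro j hj c hc t
    rw [Finset.mem_Icc] at hj
    rw [mem_boxes] at hc
    have hjL : (j : ℝ) ≤ L := by exact_mod_cast hj.2
    have h1 := hCb Q₀ Q hQ hQQ κ hκ1 hκ2 J H hH hH2 d₁ d₂ d₃ e hd₁ hd₂ hd₃ he he5
      (hQe.trans (by
        have : C₁ ≤ C₂ := by rw [hC₂]; linarith
        gcongr)) t₁ (t₂ + t) τ 𝒟 h𝒟 u
      (fun q => ⟨(hu q).1, (hu q).2.trans (by rw [hC₂]; linarith)⟩) z hz1
      (hlz.trans (by rw [hC₂]; linarith)) j hj.1 hj.2 c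
      (hc.2.1.trans (by rw [hC₂]; linarith))
      (fun i => (hc.2.2 i).trans (by rw [hC₂]; linarith))
    have e1 : ∀ q ∈ 𝒟, ‖P.bx r y Q₀ (κ - u q) J H d₁ d₂ d₃ e t₁ (t₂ + t) τ z c q‖ =
        ‖∑ k ∈ (ball N).filter (fun k => k ≠ 0 ∧ q ^ 2 ∣ k ∧
          (NPk P.n P.φ P.l₁ k ∧ NPm P.n P.ψ P.l₂ k)),
          P.wk τ H k * (prin0 d₃ k * sy k e) * P.am r y Q₀ (κ - u q) J d₁ t₁ k *
            GC (P.ch d₂ t₂ k) z c t‖ := by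
      intro q _
      unfold DPar.bx DPar.NP2
      congr 1
      have e2 := tsum_cond (N := N) (c := fun k => k ≠ 0 ∧ q ^ 2 ∣ k ∧
        (NPk P.n P.φ P.l₁ k ∧ NPm P.n P.ψ P.l₂ k))
        (F := fun k => P.wk τ H k * (prin0 d₃ k * sy k e) *
        (P.am r y Q₀ (κ - u q) J d₁ t₁ k * GC (P.ch d₂ (t₂ + t) k) z c 0)) (by
          intro k hk
          rw [hwk k hk]; ring)
      refine Eq.trans ?_ (e2.trans ?_)
      · refine tsum_congr fun k => ?_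
        congr 1
      · refine Finset.sum_congr rfl fun k _ => ?_
        rw [GC_shift P d₂ t₂ t _ k c]
        ring
    rw [Finset.sum_congr rfl e1] at h1
    refine h1.trans ?_
    have b1 : 1 + |t₁| + |t₂ + t| + |τ| ≤ T * (1 + |t|) := T_shift t₁ t₂ t τ
    have b2 : (1 + |t₁| + |t₂ + t| + |τ|) ^ Ab ≤ T ^ Ab * (1 + |t|) ^ ⌈Ab⌉₊ := by
      have h3 := abs_nonneg t
      have h4 := abs_nonneg (t₂ + t)
      calc (1 + |t₁| + |t₂ + t| + |τ|) ^ Ab ≤ (T * (1 + |t|)) ^ Ab :=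
            Real.rpow_le_rpow (by positivity) b1 hAb0
        _ = T ^ Ab * (1 + |t|) ^ Ab := Real.mul_rpow (by linarith) (by positivity)
        _ ≤ T ^ Ab * (1 + |t|) ^ ((⌈Ab⌉₊ : ℕ) : ℝ) := by
            refine mul_le_mul_of_nonneg_left ?_ (by positivity)
            exact Real.rpow_le_rpow_of_exponent_le (by linarith) (Nat.le_ceil _)
        _ = _ := by rw [Real.rpow_natCast]
    calc Cb * D ^ (ε / 2) * (1 + |t₁| + |t₂ + t| + |τ|) ^ Ab * Tg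
        ≤ Cb * D ^ (ε / 2) * (T ^ Ab * (1 + |t|) ^ ⌈Ab⌉₊) * Tg := by gcongr
      _ = B * (1 + |t|) ^ ⌈Ab⌉₊ := by rw [hBdef]; ring

/-- **D.box** at fixed exponents -/
theorem dout3i_of_box3i {θ : ℝ} (hθ : 7 / 8 < θ) (hθ1 : θ ≤ 1) (hPF : PF Set.univ θ) {r : ℕ}
    {y δ η : ℝ} {L : ℕ} (hr : 0 < r) (hy : 0 < y) (hδ : 0 < δ) (hyδ : y + δ < 1)
    (hδ2 : δ ≤ 1 / 1000) (hη : 0 < η) (hη2 : η ≤ δ / 16) (hL : 1 ≤ L)
    (hB : BOX3i θ r y δ η L) : DOUT3i θ r y δ η := by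
  classical
  intro P hP ε C₁ hε hC₁
  obtain ⟨Ca, Aa, hCa0, hAa0, hCa⟩ := box_part hL hB P hP hε hC₁
  obtain ⟨Cp, Ap, hCp0, hAp0, hCp⟩ := princ_part hθ hθ1 hPF hr hy hδ hyδ hδ2 hη hη2 P hP hε hC₁
  obtain ⟨βU, hβU1, hβU⟩ := Asm986.sw_bound hP.U
  refine ⟨Ca + Cp, max Aa Ap, by positivity, le_max_of_le_left hAa0, ?_⟩
  intro Q₀ Q hQ hQQ κ hκ1 hκ2 J H hH hH2 d₁ d₂ d₃ e hd₁ hd₂ hd₃ he he5 hQe t₁ t₂ τ 𝒟 h𝒟 u v hu hv
  have ha := hCa Q₀ Q hQ hQQ κ hκ1 hκ2 J H hH hH2 d₁ d₂ d₃ e hd₁ hd₂ hd₃ he he5 hQe t₁ t₂ τ 𝒟 h𝒟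
    u v hu hv
  have hp := hCp Q₀ Q hQ hQQ κ hκ1 hκ2 J H hH hH2 d₁ d₂ d₃ e hd₁ hd₂ hd₃ he t₁ t₂ τ 𝒟 h𝒟
    u v hu hv
  have hQ0 : 0 < Q := by linarith
  have hQ₀0 : 0 < Q₀ := by linarith
  have hCJ := CJ_pos (r := r) (y := y) hQ₀0 J
  set N : ℕ := ⌊βU * H⌋₊ with hN
  have hwk : ∀ k, N < nm k → P.wk τ H k = 0 := by
    intro k hk
    have h0 : P.U (nm k / H) = 0 := by
      by_contra hne
      have h1 := (hβU _ hne).2
      rw [div_le_iff₀ hH] at h1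
      have h2 : nm k ≤ N := Nat.le_floor h1
      omega
    unfold DPar.wk
    rw [h0, mul_zero]
  have hsplit : ∀ q, P.ds r y Q₀ (κ - u q) J (Q * Real.exp (-(v q))) H d₁ d₂ d₃ e t₁ t₂ τ q =
      (∑' k : Eis, if k ≠ 0 ∧ q ^ 2 ∣ k ∧ (NPk P.n P.φ P.l₁ k ∧ NPm P.n P.ψ P.l₂ k) then
        P.wk τ H k * (prin0 d₃ k * sy k e) *
          (P.am r y Q₀ (κ - u q) J d₁ t₁ k * P.mo (Q * Real.exp (-(v q))) d₂ t₂ k) else 0) +
      ∑' k : Eis, if k ≠ 0 ∧ q ^ 2 ∣ k ∧ (NPk P.n P.φ P.l₁ k ∧ ¬ NPm P.n P.ψ P.l₂ k) then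
        P.wk τ H k * (prin0 d₃ k * sy k e) *
          (P.am r y Q₀ (κ - u q) J d₁ t₁ k * P.mo (Q * Real.exp (-(v q))) d₂ t₂ k) else 0 := by
    intro q
    have h0 : ∀ k, N < nm k → P.wk τ H k * (prin0 d₃ k * sy k e) *
          (P.am r y Q₀ (κ - u q) J d₁ t₁ k * P.mo (Q * Real.exp (-(v q))) d₂ t₂ k) = 0 := by
      intro k hk
      rw [hwk k hk]; ring
    have e1 := tsum_cond (N := N) (c := fun k => k ≠ 0 ∧ q ^ 2 ∣ k ∧ NPk P.n P.φ P.l₁ k) h0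
    have e2 := tsum_cond (N := N) (c := fun k => k ≠ 0 ∧ q ^ 2 ∣ k ∧
      (NPk P.n P.φ P.l₁ k ∧ NPm P.n P.ψ P.l₂ k)) h0
    have e3 := tsum_cond (N := N) (c := fun k => k ≠ 0 ∧ q ^ 2 ∣ k ∧
      (NPk P.n P.φ P.l₁ k ∧ ¬ NPm P.n P.ψ P.l₂ k)) h0
    have e4 : P.ds r y Q₀ (κ - u q) J (Q * Real.exp (-(v q))) H d₁ d₂ d₃ e t₁ t₂ τ q =
        ∑' k : Eis, if (k ≠ 0 ∧ q ^ 2 ∣ k ∧ NPk P.n P.φ P.l₁ k) then
          P.wk τ H k * (prin0 d₃ k * sy k e) *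
          (P.am r y Q₀ (κ - u q) J d₁ t₁ k * P.mo (Q * Real.exp (-(v q))) d₂ t₂ k) else 0 := by
      unfold DPar.ds
      refine tsum_congr fun k => ?_
      congr 1
    rw [e4, e1, e2, e3, Finset.sum_filter, Finset.sum_filter, Finset.sum_filter, ← Finset.sum_add_distrib]
    refine Finset.sum_congr rfl fun k _ => ?_
    by_cases h1 : k ≠ 0 ∧ q ^ 2 ∣ k ∧ NPk P.n P.φ P.l₁ k
    · by_cases h2 : NPm P.n P.ψ P.l₂ k
      · rw [if_pos h1, if_pos ⟨h1.1, h1.2.1, h1.2.2, h2⟩, if_neg fun h => h.2.2.2 h2, add_zero]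
      · rw [if_pos h1, if_neg fun h => h2 h.2.2.2, if_pos ⟨h1.1, h1.2.1, h1.2.2, h2⟩, zero_add]
    · rw [if_neg h1, if_neg fun h => h1 ⟨h.1, h.2.1, h.2.2.1⟩,
        if_neg fun h => h1 ⟨h.1, h.2.1, h.2.2.1⟩, add_zero]
  set Tg : ℝ := TgB θ η (if δ / 2 * Real.log Q₀ ≤ κ then η else -η) (y + δ) Q₀ Q H
    (CJ r y Q₀ J * Real.exp κ) with hTg
  have hTg0 : 0 ≤ Tg := TgB_nonneg' hQ₀0.le hQ0.le hH.le (by positivity)
  have a1 := abs_nonneg t₁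
  have a2 := abs_nonneg t₂
  have a3 := abs_nonneg τ
  have hT1 : 1 ≤ 1 + |t₁| + |t₂| + |τ| := by linarith
  have m1 : (1 + |t₁| + |t₂| + |τ|) ^ Aa ≤ (1 + |t₁| + |t₂| + |τ|) ^ (max Aa Ap) :=
    Real.rpow_le_rpow_of_exponent_le hT1 (le_max_left _ _)
  have m2 : (1 + |t₁| + |t₂| + |τ|) ^ Ap ≤ (1 + |t₁| + |t₂| + |τ|) ^ (max Aa Ap) :=
    Real.rpow_le_rpow_of_exponent_le hT1 (le_max_right _ _)
  have hD0 : 0 ≤ ((nm d₁ : ℝ) * nm d₂ * nm d₃ * nm e * Q₀) ^ ε := by positivity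
  set Dε : ℝ := ((nm d₁ : ℝ) * nm d₂ * nm d₃ * nm e * Q₀) ^ ε with hDε
  set T : ℝ := 1 + |t₁| + |t₂| + |τ| with hT
  have hle : ∀ q ∈ 𝒟, ‖P.ds r y Q₀ (κ - u q) J (Q * Real.exp (-(v q))) H d₁ d₂ d₃ e t₁ t₂ τ q‖ ≤
      ‖∑' k : Eis, if k ≠ 0 ∧ q ^ 2 ∣ k ∧ (NPk P.n P.φ P.l₁ k ∧ NPm P.n P.ψ P.l₂ k) then
        P.wk τ H k * (prin0 d₃ k * sy k e) *
          (P.am r y Q₀ (κ - u q) J d₁ t₁ k * P.mo (Q * Real.exp (-(v q))) d₂ t₂ k) else 0‖ +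
      ‖∑' k : Eis, if k ≠ 0 ∧ q ^ 2 ∣ k ∧ (NPk P.n P.φ P.l₁ k ∧ ¬ NPm P.n P.ψ P.l₂ k) then
        P.wk τ H k * (prin0 d₃ k * sy k e) *
          (P.am r y Q₀ (κ - u q) J d₁ t₁ k * P.mo (Q * Real.exp (-(v q))) d₂ t₂ k) else 0‖ := by
    intro q _
    rw [hsplit q]
    exact norm_add_le _ _
  refine (Finset.sum_le_sum hle).trans ?_
  rw [Finset.sum_add_distrib]
  refine (add_le_add ha hp).trans ?_
  have n1 : Ca * Dε * T ^ Aa * Tg ≤ Ca * Dε * T ^ (max Aa Ap) * Tg := by gcongr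
  have n2 : Cp * Dε * T ^ Ap * Tg ≤ Cp * Dε * T ^ (max Aa Ap) * Tg := by gcongr
  calc _ ≤ Ca * Dε * T ^ (max Aa Ap) * Tg + Cp * Dε * T ^ (max Aa Ap) * Tg := add_le_add n1 n2
    _ = _ := by ring

/-- **D.box** -/
theorem dout3_of_box {θ : ℝ} (hθ : 7 / 8 < θ) (hθ1 : θ ≤ 1) (hPF : PF Set.univ θ)
    (hB : BOX3 θ) : DOUT3 θ := by
  obtain ⟨r, y, δ, η, L, hr, hy, hδ, hyδ, hδ2, h10, hη, hη2, hL, hB⟩ := hB
  exact ⟨r, y, δ, η, hr, hy, hδ, hyδ, hδ2, h10, hη, hη2,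
    dout3i_of_box3i hθ hθ1 hPF hr hy hδ hyδ hδ2 hη hη2 hL hB⟩

end Crest.Agent.R017.Box271
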