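import Crest.Agent.R017.BxD_986

/-!
# Row 17, D.FIN: the signed bridge (helper986)

* `bx_abs`, `bx_abs_tau` : absolute values
* `bx_signed` : signed version, all weights kept
-/

set_option autoImplicit false
set_option linter.unusedSectionVars false
set_option linter.unusedVariables false

noncomputable section

open Complex MeasureTheory Filter Topology
open scoped ComplexConjugate ContDiff

namespace Crest.Agent.R017.Bx986

open Crest.Agent.R012 Crest.Agent.R012.Eis Crest.Agent.R012.Mob705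
open Crest.Agent.R012.LS2 (bl)
open Crest.Agent.R012.Weight600 (osc norm_osc ker)
open Crest.Agent.R012.PSer47 (IsChar)
open Crest.Agent.R012.Div277 (tau dvs mem_dvs tau_le_rpow)
open Crest.Agent.R017.CM106 Crest.Agent.R017.FE47 Crest.Agent.R017.End699
open Crest.Agent.R017.HSep813 Crest.Agent.R017.HP842 Crest.Agent.R017.B770
open Crest.Agent.R017.HB645 Crest.Agent.R017.Sup271 Crest.Agent.R017.Asm986
open Crest.Agent.R017.HBS271 Crest.Agent.R017.BoxP271

/-! ### absolute values -/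

open Classical in
/-- absolute values in one box sum -/
theorem bx_abs (P : DPar) (hP : P.OK) : ∃ W β : ℝ, 0 ≤ W ∧ 0 < β ∧
    ∀ (r : ℕ) (Q₀ κ y : ℝ) (J : Finset (Fin r)) (H : ℝ), 0 < H →
    ∀ d₁ d₂ d₃ e : Eis, IsPrim e → ∀ (t₁ t₂ τ z : ℝ) (j : ℕ) (c : Fin (j - 1) ⊕ Fin j → ℕ) (q : Eis),
      ‖P.bx r y Q₀ κ J H d₁ d₂ d₃ e t₁ t₂ τ z c q‖ ≤
        W * ∑ k ∈ (bl (β * H)).filter (fun k => q ^ 2 ∣ k ∧ P.NP2 k),
          ‖P.am r y Q₀ κ J d₁ t₁ k‖ * ‖GC (P.ch d₂ t₂ k) z c 0‖ := by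
  obtain ⟨β, hβ, hβU⟩ := exists_supp hP.U
  obtain ⟨BU, hBU0, hBU⟩ := sw_bdd hP.U
  refine ⟨nm P.n₃ * BU, β, by positivity, hβ, ?_⟩
  intro r Q₀ κ y J H hH d₁ d₂ d₃ e he t₁ t₂ τ z j c q
  have hβH : 0 < β * H := mul_pos hβ hH
  unfold DPar.bx
  rw [tsum_eq_sum (s := bl (β * H)), Finset.mul_sum, Finset.sum_filter]
  · refine (norm_sum_le _ _).trans (Finset.sum_le_sum fun k hk => ?_)
    rw [mem_bl' hβH.le] at hk
    by_cases hc : q ^ 2 ∣ k ∧ P.NP2 k
    · rw [if_pos ⟨hk.2, hc⟩, if_pos hc, norm_mul, norm_mul, norm_mul, norm_mul]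
      have w1 := norm_wk_le P hP hBU τ H hk.2
      have w2 : ‖prin0 d₃ k‖ ≤ 1 := by
        unfold prin0; split_ifs <;> simp
      have w3 := norm_sy_le' k e he
      have w4 : ‖P.wk τ H k‖ * (‖prin0 d₃ k‖ * ‖sy k e‖) ≤ (nm P.n₃ * BU) * (1 * 1) := by
        gcongr
      calc _ ≤ (nm P.n₃ * BU) * (1 * 1) * (‖P.am r y Q₀ κ J d₁ t₁ k‖ *
            ‖GC (P.ch d₂ t₂ k) z c 0‖) :=
            mul_le_mul_of_nonneg_right w4 (by positivity)
        _ = _ := by ring
    · rw [if_neg fun h => hc h.2, norm_zero, if_neg hc]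
  · intro k hk
    split_ifs with hc
    · have h2 : β * H < nm k := by
        by_contra h3
        exact hk ((mem_bl' hβH.le).2 ⟨not_lt.1 h3, hc.1⟩)
      have h3 : P.U (nm k / H) = 0 := hβU _ (by rwa [lt_div_iff₀ hH])
      unfold DPar.wk
      rw [h3]
      simp
    · rfl

open Classical in
/-- the sum over `q`, absolute values; `Sk k` a common bound of the amplifiers -/
theorem bx_abs_tau (P : DPar) (hP : P.OK) {ε : ℝ} (hε : 0 < ε) : ∃ C β : ℝ, 0 ≤ C ∧ 0 < β ∧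
    ∀ (r : ℕ) (Q₀ κ y : ℝ) (J : Finset (Fin r)) (H : ℝ), 0 < H →
    ∀ d₁ d₂ d₃ e : Eis, IsPrim e → ∀ (t₁ t₂ τ z : ℝ) (𝒟 : Finset Eis), (∀ q ∈ 𝒟, IsPrim q) →
    ∀ (u : Eis → ℝ) (j : ℕ) (c : Fin (j - 1) ⊕ Fin j → ℕ) (Sk : Eis → ℝ),
      (∀ k ∈ bl (β * H), P.NP2 k → ∀ q ∈ 𝒟, q ^ 2 ∣ k →
        ‖P.am r y Q₀ (κ - u q) J d₁ t₁ k‖ ≤ Sk k) → (∀ k, 0 ≤ Sk k) →
      ∑ q ∈ 𝒟, ‖P.bx r y Q₀ (κ - u q) J H d₁ d₂ d₃ e t₁ t₂ τ z c q‖ ≤
        C * (β * H) ^ ε * ∑ k ∈ (bl (β * H)).filter (fun k => P.NP2 k),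
          Sk k * ‖GC (P.ch d₂ t₂ k) z c 0‖ := by
  obtain ⟨W, β, hW, hβ, H1⟩ := bx_abs P hP
  obtain ⟨Cτ, hCτ, hτ⟩ := tau_le_rpow hε
  refine ⟨W * Cτ, β, by positivity, hβ, ?_⟩
  intro r Q₀ κ y J H hH d₁ d₂ d₃ e he t₁ t₂ τ z 𝒟 h𝒟 u j c Sk hSk hSk0
  have hβH : 0 < β * H := mul_pos hβ hH
  have h1 : ∑ q ∈ 𝒟, ‖P.bx r y Q₀ (κ - u q) J H d₁ d₂ d₃ e t₁ t₂ τ z c q‖ ≤
      ∑ q ∈ 𝒟, W * ∑ k ∈ (bl (β * H)).filter (fun k => P.NP2 k),
        (if q ^ 2 ∣ k then Sk k * ‖GC (P.ch d₂ t₂ k) z c 0‖ else 0) := by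
    refine Finset.sum_le_sum fun q hq => ?_
    refine (H1 r Q₀ (κ - u q) y J H hH d₁ d₂ d₃ e he t₁ t₂ τ z j c q).trans ?_
    refine mul_le_mul_of_nonneg_left ?_ hW
    rw [Finset.sum_filter, Finset.sum_filter]
    refine Finset.sum_le_sum fun k hk => ?_
    by_cases hn : P.NP2 k
    · by_cases hd : q ^ 2 ∣ k
      · rw [if_pos ⟨hd, hn⟩, if_pos hn, if_pos hd]
        exact mul_le_mul_of_nonneg_right (hSk k hk hn q hq hd) (norm_nonneg _)
      · rw [if_neg fun h => hd h.1, if_pos hn, if_neg hd]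
    · rw [if_neg fun h => hn h.2, if_neg hn]
  refine h1.trans ?_
  rw [← Finset.mul_sum, Finset.sum_comm, mul_assoc, mul_assoc]
  refine mul_le_mul_of_nonneg_left ?_ hW
  rw [← mul_assoc, Finset.mul_sum]
  refine Finset.sum_le_sum fun k hk => ?_
  rw [Finset.mem_filter, mem_bl' hβH.le] at hk
  rw [← Finset.sum_filter, Finset.sum_const, nsmul_eq_mul]
  refine mul_le_mul_of_nonneg_right ?_ (mul_nonneg (hSk0 k) (norm_nonneg _))
  have h6 : (𝒟.filter (fun q => q ^ 2 ∣ k)) ⊆ dvs k := by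
    intro q hq
    rw [Finset.mem_filter] at hq
    rw [mem_dvs hk.1.2]
    exact ⟨h𝒟 q hq.1, (dvd_pow_self q two_ne_zero).trans hq.2⟩
  have h7 : ((𝒟.filter (fun q => q ^ 2 ∣ k)).card : ℝ) ≤ tau k := by
    unfold Div277.tau
    exact_mod_cast Finset.card_le_card h6
  refine h7.trans ((hτ k hk.1.2).trans ?_)
  have : (nm k : ℝ) ^ ε ≤ (β * H) ^ ε := Real.rpow_le_rpow (by positivity) hk.1.1 hε.le
  gcongr

/-! ### signed separation -/

/-- signed separation: outer index `x`, inner index `i` -/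
def SepS (h : ℝ → ℝ) (M ρ C : ℝ) {ξ ι : Type} (X : Finset ξ) (K : Finset ι) (k : ι → Eis)
    (val : ξ → ι → ℂ) (d : Pc) : Prop :=
  ∀ (a : ξ → ι → ℂ) (B : ℝ), 0 ≤ B →
    (∀ p : Pc, Nr ρ p d → ∑ x ∈ X, ‖∑ i ∈ K, a x i * CS (pc h p) (k i)‖ ≤
      B * (1 + |p.t - d.t|) ^ M) →
    ∑ x ∈ X, ‖∑ i ∈ K, a x i * val x i‖ ≤ C * B

lemma SepS.mono {h : ℝ → ℝ} {M ρ C ρ' C' : ℝ} {ξ ι : Type} {X : Finset ξ} {K : Finset ι}
    {k : ι → Eis} {val : ξ → ι → ℂ} {d : Pc} (H : SepS h M ρ C X K k val d) (hρ : ρ ≤ ρ')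
    (hC : C ≤ C') : SepS h M ρ' C' X K k val d := by
  intro a B hB hyp
  refine (H a B hB fun p hp => hyp p ⟨hp.u, hp.ψ, hp.Y0, hp.near.trans hρ⟩).trans ?_
  exact mul_le_mul_of_nonneg_right hC hB

/-- **several pieces, signed** -/
theorem sepS_prod {h : ℝ → ℝ} {M ρ C : ℝ} (hC : 0 ≤ C) {ξ ι : Type} (X : Finset ξ) (K : Finset ι)
    (k : ι → Eis) :
    ∀ (L : List ((ξ → ι → ℂ) × Pc)), (∀ x ∈ L, SepS h M ρ C X K k x.1 x.2) →
    ∀ (a : ξ → ι → ℂ) (B : ℝ), 0 ≤ B →
      (∀ ps : List Pc, List.Forall₂ (Nr ρ) ps (L.map Prod.snd) →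
        ∑ x ∈ X, ‖∑ i ∈ K, a x i * (ps.map fun p => CS (pc h p) (k i)).prod‖ ≤
          B * cost M ps (L.map Prod.snd)) →
      ∑ x ∈ X, ‖∑ i ∈ K, a x i * (L.map fun w => w.1 x i).prod‖ ≤ C ^ L.length * B := by
  intro L
  induction L with
  | nil =>
    intro _ a B hB hyp
    have := hyp [] (by simp)
    simpa using this
  | cons w L ih =>
    intro hL a B hB hyp
    have hw := hL w List.mem_cons_self
    have hL' : ∀ x ∈ L, SepS h M ρ C X K k x.1 x.2 := fun y hy => hL y (List.mem_cons_of_mem _ hy)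
    have h1 := hw (fun x i => a x i * (L.map fun w => w.1 x i).prod) (C ^ L.length * B)
      (by positivity) (fun p hp => by
        have h2 := ih hL' (fun x i => a x i * CS (pc h p) (k i)) (B * (1 + |p.t - w.2.t|) ^ M)
          (mul_nonneg hB (Real.rpow_nonneg (by positivity) _)) (fun ps hps => by
            have h3 := hyp (p :: ps) (by
              rw [List.map_cons]
              exact List.Forall₂.cons hp hps)
            rw [List.map_cons, cost_cons] at h3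
            calc ∑ x ∈ X, ‖∑ i ∈ K, a x i * CS (pc h p) (k i) *
                  (ps.map fun p => CS (pc h p) (k i)).prod‖
                = ∑ x ∈ X, ‖∑ i ∈ K, a x i * ((p :: ps).map fun p => CS (pc h p) (k i)).prod‖ := by
                  refine Finset.sum_congr rfl fun x _ => ?_
                  congr 1
                  refine Finset.sum_congr rfl fun i _ => ?_
                  rw [List.map_cons, List.prod_cons]; ring
              _ ≤ _ := h3
              _ = _ := by ring)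
        calc ∑ x ∈ X, ‖∑ i ∈ K, a x i * (L.map fun w => w.1 x i).prod * CS (pc h p) (k i)‖
            = ∑ x ∈ X, ‖∑ i ∈ K, a x i * CS (pc h p) (k i) * (L.map fun w => w.1 x i).prod‖ := by
              refine Finset.sum_congr rfl fun x _ => ?_
              congr 1
              exact Finset.sum_congr rfl fun i _ => by ring
          _ ≤ _ := h2
          _ = _ := by ring)
    calc ∑ x ∈ X, ‖∑ i ∈ K, a x i * ((w :: L).map fun w => w.1 x i).prod‖
        = ∑ x ∈ X, ‖∑ i ∈ K, a x i * (L.map fun w => w.1 x i).prod * w.1 x i‖ := by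
          refine Finset.sum_congr rfl fun x _ => ?_
          congr 1
          refine Finset.sum_congr rfl fun i _ => ?_
          rw [List.map_cons, List.prod_cons]; ring
      _ ≤ _ := h1
      _ = _ := by rw [List.length_cons, pow_succ]; ring

/-- a linear combination of linear forms is a continuous bounded function of the height -/
lemma comb_cont {h : ℝ → ℝ} {c : ℝ} (hpu : PU h c) {ι : Type} (K : Finset ι) (N : ℕ)
    (a : ι → ℂ) (φ : ι → Eis → ℂ) (Y t : ℝ) :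
    Continuous (fun s : ℝ => ∑ i ∈ K, a i * LF h (primBall N) id (φ i) Y (t + s)) ∧
    ∃ A, ∀ s : ℝ, ‖∑ i ∈ K, a i * LF h (primBall N) id (φ i) Y (t + s)‖ ≤ A := by
  obtain ⟨A, hA⟩ : ∃ A, ∀ u, ‖cx h u‖ ≤ A :=
    (cs_cx hpu.cs).exists_bound_of_continuous (cd_cx hpu.cd).continuous
  constructor
  · exact continuous_finsetSum _ fun i _ => continuous_const.mul
      ((continuous_LF _ _ _ _ _).comp (continuous_const.add continuous_id))
  · refine ⟨∑ i ∈ K, ‖a i‖ * ∑ b ∈ primBall N, ‖φ i b‖ * A, fun s => ?_⟩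
    refine (norm_sum_le _ _).trans (Finset.sum_le_sum fun i _ => ?_)
    rw [norm_mul]
    exact mul_le_mul_of_nonneg_left (norm_LF_le hA _ _ _ _ _) (norm_nonneg _)

/-- **one piece with a fixed weight, signed** -/
theorem sepS_w {h : ℝ → ℝ} {c : ℝ} (hpu : PU h c) {w : ℝ → ℂ} {R : ℝ} (hR0 : 0 ≤ R)
    (hR : ∀ u, cx h u ≠ 0 → |u| ≤ R) (hw : SWt w R) {ρ : ℝ} (hρ : 0 ≤ ρ) (M : ℝ) :
    ∃ C : ℝ, 0 ≤ C ∧ ∀ {ξ ι : Type} (X : Finset ξ) (K : Finset ι) (k : ι → Eis) (d : Pc)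
      (y : ξ → ℝ) (N : ℕ),
      (∀ x ∈ X, |y x - Real.log d.Y| ≤ ρ) → Real.exp (Real.log d.Y + 3 * R + ρ) ≤ N →
      SepS h M (2 * R + ρ) C X K k (fun x i => gval w N d (y x) (k i)) d := by
  obtain ⟨C0, hC0, hmom⟩ := sum_int_le hw M
  have hc := hpu.cpos
  set W := 2 * (2 * R + ρ) / c + 1 with hW
  have hW0 : 0 ≤ W := by positivity
  refine ⟨W * C0, by positivity, ?_⟩
  intro ξ ι X K k d y N hy hN a B hB hyp
  set S := grid c (Real.log d.Y) (2 * R + ρ) with hS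
  have hcard : (S.card : ℝ) ≤ W := card_grid hc (by positivity)
  have hki := Weight600.ker_integrable hw.cd hw.cs
  have hb0 : ∀ b ∈ primBall N, id b ≠ 0 := fun b hb => by
    rw [mem_primBall] at hb
    exact hb.2.ne_zero
  have hmo : ∀ s, ∀ x, ‖ker w s * osc s (-(y x))‖ = ‖ker w s‖ := fun s x => by
    rw [norm_mul, norm_osc, mul_one]
  have h1 : ∀ x ∈ X, ‖∑ i ∈ K, a x i * gval w N d (y x) (k i)‖ ≤ ∑ n ∈ S, ∫ s : ℝ, ‖ker w s‖ *
      ‖∑ i ∈ K, a x i * LF h (primBall N) id (φc d (k i)) (Real.exp (c * n)) (d.t + s)‖ := by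
    intro x hx
    have e : ∀ i, gval w N d (y x) (k i) = ∑ n ∈ S, ∫ s : ℝ, (ker w s * osc s (-(y x))) *
        LF h (primBall N) id (φc d (k i)) (Real.exp (c * n)) (d.t + s) := by
      intro i
      have e1 := LFg_sep hpu hR hw (Y := Real.exp (y x)) S (fun n hn => by
        rw [hS, mem_grid hc]
        rw [Real.log_exp] at hn
        have e : c * n - Real.log d.Y = (c * n - y x) + (y x - Real.log d.Y) := by ring
        rw [e]
        exact (abs_add_le _ _).trans (add_le_add hn (hy x hx))) d.t (primBall N) id hb0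
        (φc d (k i))
      rw [Real.log_exp] at e1
      exact e1
    have hint : ∀ i n, Integrable fun s : ℝ => (ker w s * osc s (-(y x))) *
        LF h (primBall N) id (φc d (k i)) (Real.exp (c * n)) (d.t + s) := by
      intro i n
      obtain ⟨A, hA⟩ : ∃ A, ∀ u, ‖cx h u‖ ≤ A :=
        (cs_cx hpu.cs).exists_bound_of_continuous (cd_cx hpu.cd).continuous
      exact (integrable_mul_osc hki _).mul_bdd (c := ∑ b ∈ primBall N, ‖φc d (k i) b‖ * A)
        ((continuous_LF _ _ _ _ _).comp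
          (continuous_const.add continuous_id)).aestronglyMeasurable
        (Eventually.of_forall fun u => norm_LF_le hA _ _ _ _ _)
    have e2 : ∑ i ∈ K, a x i * gval w N d (y x) (k i) = ∑ n ∈ S, ∫ s : ℝ,
        (ker w s * osc s (-(y x))) * ∑ i ∈ K, a x i *
          LF h (primBall N) id (φc d (k i)) (Real.exp (c * n)) (d.t + s) := by
      calc ∑ i ∈ K, a x i * gval w N d (y x) (k i)
          = ∑ i ∈ K, ∑ n ∈ S, ∫ s : ℝ, a x i * ((ker w s * osc s (-(y x))) *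
            LF h (primBall N) id (φc d (k i)) (Real.exp (c * n)) (d.t + s)) := by
            refine Finset.sum_congr rfl fun i _ => ?_
            rw [e i, Finset.mul_sum]
            refine Finset.sum_congr rfl fun n _ => ?_
            rw [integral_const_mul]
        _ = ∑ n ∈ S, ∑ i ∈ K, ∫ s : ℝ, a x i * ((ker w s * osc s (-(y x))) *
            LF h (primBall N) id (φc d (k i)) (Real.exp (c * n)) (d.t + s)) := Finset.sum_comm
        _ = _ := by
            refine Finset.sum_congr rfl fun n _ => ?_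
            rw [← integral_finsetSum _ fun i _ => (hint i n).const_mul _]
            congr 1
            funext s
            rw [Finset.mul_sum]
            exact Finset.sum_congr rfl fun i _ => by ring
    rw [e2]
    refine (norm_sum_le _ _).trans (Finset.sum_le_sum fun n _ => ?_)
    refine (norm_integral_le_integral_norm _).trans (le_of_eq ?_)
    congr 1
    funext s
    rw [norm_mul, hmo]
  have h2 : ∑ x ∈ X, ‖∑ i ∈ K, a x i * gval w N d (y x) (k i)‖ ≤ ∑ n ∈ S, ∑ x ∈ X, (1 : ℝ) *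
      ∫ s : ℝ, ‖ker w s‖ *
      ‖∑ i ∈ K, a x i * LF h (primBall N) id (φc d (k i)) (Real.exp (c * n)) (d.t + s)‖ := by
    rw [Finset.sum_comm]
    refine Finset.sum_le_sum fun x hx => ?_
    simp only [one_mul]
    exact h1 x hx
  refine h2.trans ?_
  have h3 : ∀ n ∈ S, ∑ x ∈ X, (1 : ℝ) * ∫ s : ℝ, ‖ker w s‖ *
      ‖∑ i ∈ K, a x i * LF h (primBall N) id (φc d (k i)) (Real.exp (c * n)) (d.t + s)‖ ≤
      C0 * B := by
    intro n hn
    rw [hS, mem_grid hc] at hn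
    refine hmom X (fun _ => 1) (fun x s => ∑ i ∈ K, a x i *
      LF h (primBall N) id (φc d (k i)) (Real.exp (c * n)) (d.t + s)) B (fun _ => zero_le_one)
      hB (fun x => (comb_cont hpu K N (a x) (fun i => φc d (k i)) _ d.t).1)
      (fun x => (comb_cont hpu K N (a x) (fun i => φc d (k i)) _ d.t).2) (fun s => ?_)
    have h4 := hyp ⟨d.u, d.ψ, Real.exp (c * n), d.t + s⟩ ⟨rfl, rfl, Real.exp_pos _, by
      simpa using hn⟩
    have h5 : ∀ i, CS (pc h ⟨d.u, d.ψ, Real.exp (c * n), d.t + s⟩) (k i) =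
        LF h (primBall N) id (φc d (k i)) (Real.exp (c * n)) (d.t + s) := by
      intro i
      refine CS_pc_eq hR ⟨d.u, d.ψ, Real.exp (c * n), d.t + s⟩ (le_trans ?_ hN) (k i)
      rw [Real.log_exp]
      apply Real.exp_le_exp.2
      have := (abs_le.1 hn).2
      linarith
    simp only [h5] at h4
    have e1 : d.t + s - d.t = s := by ring
    simp only [e1] at h4
    simp only [one_mul]
    exact h4
  refine (Finset.sum_le_sum h3).trans ?_
  rw [Finset.sum_const, nsmul_eq_mul, mul_assoc]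
  exact mul_le_mul_of_nonneg_right hcard (by positivity)

end Crest.Agent.R017.Bx986
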