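import Crest.Agent.R017.OneDefs2_319
import Crest.Agent.R017.BxS_986
import Crest.Agent.R012.CF_61

/-!
# Row 17, `θ = 1`: `BxSum` (helper986)
-/

set_option autoImplicit false
set_option linter.unusedVariables false

noncomputable section

open Complex MeasureTheory
open scoped ComplexConjugate ContDiff

namespace Crest.Agent.R017.One319

open Crest.Agent.R012 Crest.Agent.R012.Eis Crest.Agent.R012.Mob705
open Crest.Agent.R012.LS2 (bl)
open Crest.Agent.R012.Div277 (tau dvs mem_dvs tau_le_rpow)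
open Crest.Agent.R017.FE47 Crest.Agent.R017.End699
open Crest.Agent.R017.B770 Crest.Agent.R017.HBS271 Crest.Agent.R017.BoxP271 Crest.Agent.R017.Bx986

open Classical in
/-- **(O9)** -/
theorem bxSum : BxSum := by
  intro P hP ε hε
  obtain ⟨β₀, hβ₀, hβU₀⟩ := exists_supp hP.U
  obtain ⟨BU, hBU0, hBU⟩ := sw_bdd hP.U
  obtain ⟨Cτ, hCτ, hτ⟩ := tau_le_rpow hε
  set β := max β₀ 1 with hβdef
  have hβ1 : 1 ≤ β := le_max_right _ _
  have hβ : 0 < β := by linarith
  have hβU : ∀ x, β < x → P.U x = 0 := fun x hx => hβU₀ x (lt_of_le_of_lt (le_max_left _ _) hx)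
  refine ⟨(nm P.n₃ * BU) * (Cτ * β ^ ε), β, by positivity, hβ1, ?_⟩
  intro r y Q₀ κ J H hH d₁ d₂ d₃ e t₁ t₂ τ z j c 𝒟 h𝒟 u F hF hyp
  have hβH : 0 < β * H := mul_pos hβ hH
  have hW : 0 ≤ (nm P.n₃ : ℝ) * BU := by positivity
  have h1 : ∀ q ∈ 𝒟, ‖P.bx r y Q₀ (κ - u q) J H d₁ d₂ d₃ e t₁ t₂ τ z c q‖ ≤
      (nm P.n₃ * BU) * ∑ k ∈ (bl (β * H)).filter (fun k => P.NP2 k),
        (if q ^ 2 ∣ k then F k else 0) := by
    intro q hq
    unfold DPar.bx
    rw [tsum_eq_sum (s := bl (β * H)), Finset.mul_sum, Finset.sum_filter]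
    · refine (norm_sum_le _ _).trans (Finset.sum_le_sum fun k hk => ?_)
      have hk' := (mem_bl' hβH.le).1 hk
      by_cases hn : P.NP2 k
      · by_cases hd : q ^ 2 ∣ k
        · rw [if_pos ⟨hk'.2, hd, hn⟩, if_pos hn, if_pos hd, norm_mul, norm_mul, norm_mul, norm_mul]
          have w1 := norm_wk_le P hP hBU τ H hk'.2
          have w2 : ‖prin0 d₃ k‖ ≤ 1 := by
            unfold prin0; split_ifs <;> simp
          have w3 := CF61.norm_sy_le k e
          have w4 : ‖P.wk τ H k‖ * (‖prin0 d₃ k‖ * ‖sy k e‖) ≤ (nm P.n₃ * BU) * (1 * 1) := by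
            gcongr
          calc _ ≤ (nm P.n₃ * BU) * (1 * 1) * (‖P.am r y Q₀ (κ - u q) J d₁ t₁ k‖ *
                ‖GC (P.ch d₂ t₂ k) z c 0‖) :=
                mul_le_mul_of_nonneg_right w4 (by positivity)
            _ = (nm P.n₃ * BU) * (‖P.am r y Q₀ (κ - u q) J d₁ t₁ k‖ *
                ‖GC (P.ch d₂ t₂ k) z c 0‖) := by ring
            _ ≤ _ := mul_le_mul_of_nonneg_left (hyp q hq k hk hn) hW
        · rw [if_neg fun h => hd h.2.1, norm_zero, if_pos hn, if_neg hd, mul_zero]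
      · rw [if_neg fun h => hn h.2.2, norm_zero, if_neg hn]
    · intro k hk
      split_ifs with hc
      · have h2 : β * H < nm k := by
          by_contra h3
          exact hk ((mem_bl' hβH.le).2 ⟨not_lt.1 h3, hc.1⟩)
        have h3 : P.U (nm k / H) = 0 := hβU _ (by rwa [lt_div_iff₀ hH])
        unfold DPar.wk
        rw [h3]
        simp
      · rfl
  refine (Finset.sum_le_sum h1).trans ?_
  rw [← Finset.mul_sum, Finset.sum_comm]
  have e0 : nm P.n₃ * BU * (Cτ * β ^ ε) * (1 + H) ^ ε * ∑ k ∈ (bl (β * H)).filter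
      (fun k => P.NP2 k), F k = (nm P.n₃ * BU) * ((Cτ * β ^ ε * (1 + H) ^ ε) *
        ∑ k ∈ (bl (β * H)).filter (fun k => P.NP2 k), F k) := by ring
  rw [e0]
  refine mul_le_mul_of_nonneg_left ?_ hW
  rw [Finset.mul_sum]
  refine Finset.sum_le_sum fun k hk => ?_
  rw [Finset.mem_filter, mem_bl' hβH.le] at hk
  rw [← Finset.sum_filter, Finset.sum_const, nsmul_eq_mul]
  refine mul_le_mul_of_nonneg_right ?_ (hF k)
  have h6 : (𝒟.filter (fun q => q ^ 2 ∣ k)) ⊆ dvs k := by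
    intro q hq
    rw [Finset.mem_filter] at hq
    rw [mem_dvs hk.1.2]
    exact ⟨(h𝒟 q hq.1).1.1, (dvd_pow_self q two_ne_zero).trans hq.2⟩
  have h7 : ((𝒟.filter (fun q => q ^ 2 ∣ k)).card : ℝ) ≤ tau k := by
    unfold Div277.tau
    exact_mod_cast Finset.card_le_card h6
  refine h7.trans ((hτ k hk.1.2).trans ?_)
  have h8 : (nm k : ℝ) ^ ε ≤ (β * (1 + H)) ^ ε := by
    refine Real.rpow_le_rpow (by positivity) (hk.1.1.trans ?_) hε.le
    have : β * H ≤ β * (1 + H) := by nlinarith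
    exact this
  rw [Real.mul_rpow hβ.le (by positivity)] at h8
  calc Cτ * (nm k : ℝ) ^ ε ≤ Cτ * (β ^ ε * (1 + H) ^ ε) := by gcongr
    _ = _ := by ring

end Crest.Agent.R017.One319
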