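import Crest.Agent.R017.Two1_939

/-!
# Row 17: two-factor theorem (2): pointwise fourth-power functional equation (helper939)
-/

set_option autoImplicit false

noncomputable section

open Complex MeasureTheory Filter Topology
open scoped ContDiff

namespace Crest.Agent.R017.Two939

open Crest.Agent.R012 Crest.Agent.R012.Eis Crest.Agent.R012.LS2 Crest.Agent.R012.Gauss880
open Crest.Agent.R012.Po581
open Crest.Agent.R012.Weight600 (osc norm_osc)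
open Crest.Agent.R012.PSer47
open Crest.Agent.R017.End699 Crest.Agent.R017.FE47

/-! ### averaged fourth powers -/

/-- averaged fourth power of the smooth sums -/
def TN4 (h : ℝ → ℝ) (Ξ : Eis → ℂ) (K : ℕ) (κ : ℝ) : ℝ :=
  ∫ t : ℝ, ((1 + |t|) ^ K)⁻¹ * ‖PS (cx h) Ξ κ t‖ ^ 4

lemma TN4_nonneg (h : ℝ → ℝ) (Ξ : Eis → ℂ) (K : ℕ) (κ : ℝ) : 0 ≤ TN4 h Ξ K κ :=
  integral_nonneg fun _ => by positivity

lemma integrable_TN4 {h : ℝ → ℝ} (hc : Continuous h) (hs : HasCompactSupport h) {K : ℕ}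
    (hK : 2 ≤ K) {Ξ : Eis → ℂ} (hΞ : ∀ b, IsPrim b → ‖Ξ b‖ ≤ 1) (κ : ℝ) :
    Integrable (fun t : ℝ => ((1 + |t|) ^ K)⁻¹ * ‖PS (cx h) Ξ κ t‖ ^ 4) := by
  have hcx : Continuous (cx h) := Complex.continuous_ofReal.comp hc
  obtain ⟨C, hC, hb⟩ := norm_PS_le hcx (cs_cx hs)
  refine (integrable_wt hK).mul_bdd (c := (C * Real.exp κ) ^ 4)
    ((continuous_PS (cs_cx hs) Ξ κ).norm.pow 4).aestronglyMeasurable
    (Eventually.of_forall fun t => ?_)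
  rw [Real.norm_of_nonneg (by positivity)]
  gcongr
  exact hb Ξ hΞ κ t

lemma TN4_le {h : ℝ → ℝ} (hc : Continuous h) (hs : HasCompactSupport h) {K : ℕ} (hK : 2 ≤ K) :
    ∃ C : ℝ, 0 ≤ C ∧ ∀ Ξ : Eis → ℂ, (∀ b, IsPrim b → ‖Ξ b‖ ≤ 1) → ∀ κ : ℝ,
      TN4 h Ξ K κ ≤ C * Real.exp (4 * κ) := by
  have hcx : Continuous (cx h) := Complex.continuous_ofReal.comp hc
  obtain ⟨C, hC, hb⟩ := norm_PS_le hcx (cs_cx hs)
  have hw : 0 ≤ ∫ t : ℝ, ((1 + |t|) ^ K)⁻¹ := integral_nonneg fun _ => by positivity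
  refine ⟨(∫ t : ℝ, ((1 + |t|) ^ K)⁻¹) * C ^ 4, by positivity, fun Ξ hΞ κ => ?_⟩
  unfold TN4
  calc ∫ t : ℝ, ((1 + |t|) ^ K)⁻¹ * ‖PS (cx h) Ξ κ t‖ ^ 4
      ≤ ∫ t : ℝ, ((1 + |t|) ^ K)⁻¹ * (C * Real.exp κ) ^ 4 := by
        apply integral_mono (integrable_TN4 hc hs hK hΞ κ) ((integrable_wt hK).mul_const _)
        intro t
        have := hb Ξ hΞ κ t
        beta_reduce
        gcongr
    _ = (∫ t : ℝ, ((1 + |t|) ^ K)⁻¹) * C ^ 4 * Real.exp (4 * κ) := by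
        rw [integral_mul_const, mul_pow, ← Real.exp_nat_mul]
        push_cast
        ring

/-- Cauchy–Schwarz -/
lemma TN2_sq_le {h : ℝ → ℝ} (hc : Continuous h) (hs : HasCompactSupport h) {K : ℕ}
    (hK : 2 ≤ K) {Ξ : Eis → ℂ} (hΞ : ∀ b, IsPrim b → ‖Ξ b‖ ≤ 1) (κ : ℝ) :
    TN2 h Ξ K κ ^ 2 ≤ (∫ t : ℝ, ((1 + |t|) ^ K)⁻¹) * TN4 h Ξ K κ := by
  have hI : 0 ≤ ∫ t : ℝ, ((1 + |t|) ^ K)⁻¹ := integral_nonneg fun _ => by positivity
  refine sq_le_of_forall (TN2_nonneg _ _ _ _) hI fun θ hθ => ?_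
  unfold TN2 TN4
  rw [← integral_const_mul, ← integral_const_mul, ← integral_const_mul, ← integral_add
    ((integrable_wt hK).const_mul _) ((integrable_TN4 hc hs hK hΞ _).const_mul _)]
  apply integral_mono ((integrable_TN2 hc hs hK hΞ _).const_mul _)
    (((integrable_wt hK).const_mul _).add ((integrable_TN4 hc hs hK hΞ _).const_mul _))
  intro t
  simp only [Pi.add_apply]
  have h1 : 0 ≤ ((1 + |t|) ^ K)⁻¹ := by positivity
  set x := ‖PS (cx h) Ξ κ t‖ ^ 2 with hx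
  have hx4 : ‖PS (cx h) Ξ κ t‖ ^ 4 = x ^ 2 := by rw [hx]; ring
  rw [hx4]
  have h2 : 2 * x ≤ θ + θ⁻¹ * x ^ 2 := by
    have h3 : 0 ≤ θ⁻¹ * (θ - x) ^ 2 := by positivity
    have h4 : θ⁻¹ * (θ - x) ^ 2 = θ - 2 * x + θ⁻¹ * x ^ 2 := by field_simp; ring
    linarith
  nlinarith [mul_le_mul_of_nonneg_left h2 h1]

/-- summability with a fourth-power majorant -/
lemma summable_exp_TN4 {h : ℝ → ℝ} (hcn : Continuous h) (hs : HasCompactSupport h) {c : ℝ}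
    (hc0 : 0 < c) {K : ℕ} (hK : 2 ≤ K) {Ξ : Eis → ℂ} (hΞ : ∀ b, IsPrim b → ‖Ξ b‖ ≤ 1)
    {a : ℕ → ℝ} (ha : ∀ n, 0 ≤ a n) {D : ℝ} (haD : ∀ n : ℕ, a n ≤ D * Real.exp (-(5 * (c * n)))) :
    Summable (fun n : ℕ => a n * TN4 h Ξ K (c * n)) := by
  obtain ⟨C, hC, hb⟩ := TN4_le hcn hs hK
  have hr1 : Real.exp (-c) < 1 := Real.exp_lt_one_iff.mpr (by linarith)
  refine Summable.of_nonneg_of_le (fun n => mul_nonneg (ha n) (TN4_nonneg _ _ _ _)) (fun n => ?_)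
    ((summable_geometric_of_lt_one (Real.exp_pos (-c)).le hr1).mul_left (D * C))
  have hD : 0 ≤ D := by
    have h1 := (ha n).trans (haD n)
    by_contra hneg
    have := mul_neg_of_neg_of_pos (not_le.mp hneg) (Real.exp_pos (-(5 * (c * n))))
    linarith
  calc a n * TN4 h Ξ K (c * n) ≤ (D * Real.exp (-(5 * (c * n)))) * (C * Real.exp (4 * (c * n))) :=
        mul_le_mul (haD n) (hb Ξ hΞ _) (TN4_nonneg _ _ _ _) (by positivity)
    _ = D * C * (Real.exp (-(5 * (c * n))) * Real.exp (4 * (c * n))) := by ring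
    _ = D * C * Real.exp (-c) ^ n := by
        rw [← Real.exp_add, ← Real.exp_nat_mul]
        congr 2
        ring

/-- Cauchy–Schwarz for weighted sums of `TN2` -/
lemma tsum_TN2_sq_le {h : ℝ → ℝ} (hcn : Continuous h) (hs : HasCompactSupport h) {c : ℝ}
    {K : ℕ} (hK : 2 ≤ K) {Ξ : Eis → ℂ} (hΞ : ∀ b, IsPrim b → ‖Ξ b‖ ≤ 1)
    {a : ℕ → ℝ} (ha : ∀ n, 0 ≤ a n) (hS : Summable a)
    (hS2 : Summable (fun n : ℕ => a n * TN2 h Ξ K (c * n)))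
    (hS4 : Summable (fun n : ℕ => a n * TN4 h Ξ K (c * n))) :
    (∑' n : ℕ, a n * TN2 h Ξ K (c * n)) ^ 2 ≤
      ((∑' n : ℕ, a n) * ∫ t : ℝ, ((1 + |t|) ^ K)⁻¹) * ∑' n : ℕ, a n * TN4 h Ξ K (c * n) := by
  have hI : 0 ≤ ∫ t : ℝ, ((1 + |t|) ^ K)⁻¹ := integral_nonneg fun _ => by positivity
  refine sq_le_of_forall (tsum_nonneg fun n => mul_nonneg (ha n) (TN2_nonneg _ _ _ _))
    (mul_nonneg (tsum_nonneg ha) hI) fun θ hθ => ?_
  have hpt : ∀ n : ℕ, 2 * TN2 h Ξ K (c * n) ≤ θ * (∫ t : ℝ, ((1 + |t|) ^ K)⁻¹) +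
      θ⁻¹ * TN4 h Ξ K (c * n) := by
    intro n
    have h1 := TN2_sq_le hcn hs hK hΞ (c * n)
    have h2 := TN2_nonneg h Ξ K (c * n)
    have h4 := TN4_nonneg h Ξ K (c * n)
    set x := TN2 h Ξ K (c * n)
    set y := TN4 h Ξ K (c * n)
    set I0 := ∫ t : ℝ, ((1 + |t|) ^ K)⁻¹
    have h5 : 0 ≤ θ * I0 + θ⁻¹ * y := by positivity
    refine abs_le_of_sq_le_sq' ?_ h5 |>.2
    have h6 : 0 ≤ (θ * I0 - θ⁻¹ * y) ^ 2 := sq_nonneg _
    have h7 : θ * θ⁻¹ = 1 := mul_inv_cancel₀ hθ.ne'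
    have h8 : (θ * I0 + θ⁻¹ * y) ^ 2 = (θ * I0 - θ⁻¹ * y) ^ 2 + 4 * (θ * θ⁻¹) * (I0 * y) := by ring
    rw [h8, h7]
    nlinarith
  calc 2 * ∑' n : ℕ, a n * TN2 h Ξ K (c * n)
      = ∑' n : ℕ, 2 * (a n * TN2 h Ξ K (c * n)) := by rw [tsum_mul_left]
    _ ≤ ∑' n : ℕ, (θ * ((∫ t : ℝ, ((1 + |t|) ^ K)⁻¹) * a n) +
          θ⁻¹ * (a n * TN4 h Ξ K (c * n))) := by
        refine (hS2.mul_left 2).tsum_le_tsum (fun n => ?_)
          (((hS.mul_left _).mul_left θ).add (hS4.mul_left θ⁻¹))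
        have := mul_le_mul_of_nonneg_left (hpt n) (ha n)
        nlinarith [this]
    _ = θ * ((∑' n : ℕ, a n) * ∫ t : ℝ, ((1 + |t|) ^ K)⁻¹) +
        θ⁻¹ * ∑' n : ℕ, a n * TN4 h Ξ K (c * n) := by
        rw [Summable.tsum_add ((hS.mul_left _).mul_left θ) (hS4.mul_left θ⁻¹), tsum_mul_left,
          tsum_mul_left, tsum_mul_left]
        ring

/-! ### the pointwise functional equation -/

/-- nonexceptional characters: no member of the family with `k ∈ SM M` is principal -/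
def NE (M : Eis) (χ : Eis → ℂ) (l : ℤ) : Prop :=
  ∀ e ∈ SM M, NP (9 * M) (fun b => χ b * sy e b) l

lemma inv_pow_exp_le {c s : ℝ} {A : ℕ} (hA : 5 ≤ A) (n : ℕ) :
    ((1 + Real.exp (c * n + s)) ^ A)⁻¹ ≤ Real.exp (-(5 * s)) * Real.exp (-(5 * (c * n))) := by
  rw [← Real.exp_add, ← neg_add, Real.exp_neg]
  apply inv_anti₀ (Real.exp_pos _)
  have h1 : 1 ≤ 1 + Real.exp (c * n + s) := by linarith [Real.exp_pos (c * n + s)]
  calc Real.exp (5 * s + 5 * (c * n)) = Real.exp (c * n + s) ^ 5 := by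
        rw [← Real.exp_nat_mul]; congr 1; push_cast; ring
    _ ≤ (1 + Real.exp (c * n + s)) ^ 5 := by gcongr; linarith
    _ ≤ (1 + Real.exp (c * n + s)) ^ A := pow_le_pow_right₀ h1 hA

/-- the weight of the dual scale `e^{cn}` -/
def bw (ε : ℝ) (A : ℕ) (Z z : ℝ) : ℝ := Z ^ (-2 + 3 * ε) * ((1 + z) ^ A)⁻¹

lemma bw_nonneg {ε : ℝ} {A : ℕ} {Z z : ℝ} (hZ : 0 ≤ Z) (hz : 0 ≤ z) : 0 ≤ bw ε A Z z := by
  unfold bw; positivity

lemma bw_exp_le {ε : ℝ} (hε1 : ε ≤ 1 / 2) {c : ℝ} (hc : 0 < c) {s : ℝ} {A : ℕ} (hA : 5 ≤ A)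
    (n : ℕ) : bw ε A (Real.exp (c * n)) (Real.exp (c * n + s)) ≤
      Real.exp (-(5 * s)) * Real.exp (-(5 * (c * n))) := by
  unfold bw
  have h1 : Real.exp (c * n) ^ (-2 + 3 * ε) ≤ 1 := by
    apply Real.rpow_le_one_of_one_le_of_nonpos
    · exact Real.one_le_exp (by positivity)
    · linarith
  calc _ ≤ 1 * (Real.exp (-(5 * s)) * Real.exp (-(5 * (c * n)))) :=
        mul_le_mul h1 (inv_pow_exp_le hA n) (by positivity) zero_le_one
    _ = _ := one_mul _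

/-- one term: `(X²/Q)² (Q/X)^{3ε} wz ≤ X² bw` -/
lemma term_le {ε : ℝ} (hε : 0 < ε) (hε1 : ε ≤ 1 / 2) {A : ℕ} {X Q N Z : ℝ} (hX : 0 < X)
    (hQ : 0 < Q) (hQN : Q ≤ N) (hZ : 0 < Z) :
    (X ^ 2 / Q) ^ 2 * (Q / X) ^ (3 * ε) * wz ε (A + 2) (Z * X / Q) ≤ X ^ 2 * bw ε A Z (Z * X / N) := by
  unfold wz bw
  have hN : 0 < N := lt_of_lt_of_le hQ hQN
  set r := X / Q with hr
  have hr0 : 0 < r := by positivity
  have e1 : Q / X = r⁻¹ := by rw [hr, inv_div]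
  have e2 : X ^ 2 / Q = X * r := by rw [hr]; ring
  have e3 : Z * X / Q = Z * r := by rw [hr]; ring
  have e4 : (Z * r) ^ (-ε) = Z ^ (-ε) * r ^ (-ε) := Real.mul_rpow hZ.le hr0.le
  have e5 : (r⁻¹) ^ (3 * ε) = r ^ (-(3 * ε)) := by
    rw [Real.inv_rpow hr0.le, ← Real.rpow_neg hr0.le]
  have hle : (Z * X / N) ≤ Z * r := by
    rw [hr, ← mul_div_assoc]
    gcongr
  rw [e1, e2, e3, e4, e5]
  have h1 : r ^ 2 * r ^ (-(3 * ε)) * r ^ (-ε) * Z ^ (-ε) ≤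
      Z ^ (-2 + 3 * ε) * (1 + Z * r) ^ 2 := by
    have e6 : r ^ 2 * r ^ (-(3 * ε)) * r ^ (-ε) = r ^ (2 - 4 * ε) := by
      rw [← Real.rpow_two, ← Real.rpow_add hr0, ← Real.rpow_add hr0]; congr 1; ring
    have e7 : Z ^ (-ε) = Z ^ (-2 + 3 * ε) * Z ^ (2 - 4 * ε) := by
      rw [← Real.rpow_add hZ]; congr 1; ring
    rw [e6, e7]
    have e8 : r ^ (2 - 4 * ε) * (Z ^ (-2 + 3 * ε) * Z ^ (2 - 4 * ε)) =
        Z ^ (-2 + 3 * ε) * (Z * r) ^ (2 - 4 * ε) := by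
      rw [Real.mul_rpow hZ.le hr0.le]; ring
    rw [e8]
    have h2 : (Z * r) ^ (2 - 4 * ε) ≤ (1 + Z * r) ^ 2 := by
      have h3 : 0 < Z * r := by positivity
      calc (Z * r) ^ (2 - 4 * ε) ≤ (1 + Z * r) ^ (2 - 4 * ε) :=
            Real.rpow_le_rpow h3.le (by linarith) (by linarith)
        _ ≤ (1 + Z * r) ^ (2 : ℝ) := Real.rpow_le_rpow_of_exponent_le (by linarith) (by linarith)
        _ = (1 + Z * r) ^ 2 := Real.rpow_two _
    gcongr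
  have hp : 0 < (1 + Z * r) ^ 2 := by positivity
  calc (X * r) ^ 2 * r ^ (-(3 * ε)) * (Z ^ (-ε) * r ^ (-ε) * ((1 + Z * r) ^ (A + 2))⁻¹)
      = X ^ 2 * ((r ^ 2 * r ^ (-(3 * ε)) * r ^ (-ε) * Z ^ (-ε)) / (1 + Z * r) ^ 2) *
          ((1 + Z * r) ^ A)⁻¹ := by
        rw [pow_add, mul_inv]
        field_simp
    _ ≤ X ^ 2 * (Z ^ (-2 + 3 * ε)) * ((1 + Z * X / N) ^ A)⁻¹ := by
        gcongr
        rw [div_le_iff₀ hp]
        exact h1
    _ = _ := by ring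

lemma kap_one_one (b : Eis) : kap 1 1 b = 1 := by
  unfold kap
  rw [Char766.sy_one_right]
  simp

/-- **Pointwise fourth power form of the functional equation.** -/
theorem FE4 {h : ℝ → ℝ} {c : ℝ} (hpu : PU h c) {M : Eis} {χ : Eis → ℂ} (hχ : HC M χ) {l : ℤ}
    (hne : NE M χ l) {A K : ℕ} (hA : 5 ≤ A) (hK : 2 ≤ K) {ε : ℝ} (hε : 0 < ε) (hε1 : ε ≤ 1 / 2) :
    ∃ (C : ℝ) (J : ℕ), 0 ≤ C ∧ ∀ e ∈ SM M, ∀ k1 k2 : Eis, IsPrim k1 → IsPrim k2 → Squarefree k1 →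
      Squarefree k2 → IsCoprime k1 k2 → IsCoprime (k1 * k2) M → ∀ N : ℝ, 0 < N →
      (nm (k1 * k2) : ℝ) ≤ N → ∀ κ t : ℝ,
      ‖PS (cx h) (XK (fun b => χ b * sy e b) (kap k1 k2) l) κ t‖ ^ 4 ≤ C * (1 + |t|) ^ J *
        (1 + Real.exp κ ^ 2 * ∑' n : ℕ, bw ε A (Real.exp (c * n)) (Real.exp (c * n) * Real.exp κ / N) *
          TN4 h (XK (fun b => χ b * sy e b) (kap k1 k2) l) K (c * n)) := by
  obtain ⟨C1, J1, hC1, hF⟩ := FE_sq (cd_cx hpu.cd) (cs_cx hpu.cs) l hpu (A := A + 2) (K := K)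
    (by omega) hK hε (by linarith)
  obtain ⟨C2, hC2, hfix⟩ := PSfix (cd_cx hpu.cd) (cs_cx hpu.cs) l
  set I0 := ∫ t : ℝ, ((1 + |t|) ^ K)⁻¹ with hI0
  have hI : 0 ≤ I0 := integral_nonneg fun _ => by positivity
  have hr1 : Real.exp (-(c * ε)) < 1 := Real.exp_lt_one_iff.mpr (by linarith [mul_pos hpu.cpos hε])
  have hr2 : 0 ≤ (1 - Real.exp (-(c * ε)))⁻¹ := inv_nonneg.mpr (by linarith)
  have hcM := cM_nonneg (A + 2) ε (9 * M)
  refine ⟨(C2 * (nm (9 * M) : ℝ) ^ 2) ^ 4 + C1 ^ 2 * cM (A + 2) ε (9 * M) ^ 4 *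
    ((1 - Real.exp (-(c * ε)))⁻¹ * I0), 16 + 2 * J1, by positivity, ?_⟩
  intro e he k1 k2 p1 p2 s1 s2 hcop hM N hN hkN κ t
  have ht : 1 ≤ 1 + |t| := by linarith [abs_nonneg t]
  set Ξ := XK (fun b => χ b * sy e b) (kap k1 k2) l with hΞd
  have hχ' := hc_SM hχ he
  have hΞ : ∀ b, IsPrim b → ‖Ξ b‖ ≤ 1 :=
    norm_XK_le hχ' (mul_ne_zero p1.ne_zero p2.ne_zero) (isCh_kap p1 p2) l
  have hTs : 0 ≤ ∑' n : ℕ, bw ε A (Real.exp (c * n)) (Real.exp (c * n) * Real.exp κ / N) *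
      TN4 h Ξ K (c * n) := tsum_nonneg fun n =>
    mul_nonneg (bw_nonneg (Real.exp_pos _).le (by positivity)) (TN4_nonneg _ _ _ _)
  set T := ∑' n : ℕ, bw ε A (Real.exp (c * n)) (Real.exp (c * n) * Real.exp κ / N) *
      TN4 h Ξ K (c * n) with hT
  by_cases h1 : k1 * k2 = 1
  · -- the fixed characters
    have hk1 : k1 = 1 := by
      have hu : IsUnit k1 := IsUnit.of_mul_eq_one _ h1
      exact p1.eq_of_associated isPrim_one (associated_one_iff_isUnit.mpr hu)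
    have hk2 : k2 = 1 := by rw [hk1, one_mul] at h1; exact h1
    have e0 : PS (cx h) Ξ κ t = PS (cx h) (XK (fun b => χ b * sy e b) (fun _ => 1) l) κ t := by
      refine PS_congr (fun b _ => ?_) _ _
      rw [hΞd, hk1, hk2]
      unfold XK
      rw [kap_one_one]
    have h2 := hfix (9 * M) _ hχ' (hne e he) κ t
    rw [← e0] at h2
    calc ‖PS (cx h) Ξ κ t‖ ^ 4 ≤ (C2 * (1 + |t|) ^ 4 * (nm (9 * M) : ℝ) ^ 2) ^ 4 := by gcongr
      _ = (C2 * (nm (9 * M) : ℝ) ^ 2) ^ 4 * (1 + |t|) ^ 16 := by ring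
      _ ≤ ((C2 * (nm (9 * M) : ℝ) ^ 2) ^ 4 + C1 ^ 2 * cM (A + 2) ε (9 * M) ^ 4 *
          ((1 - Real.exp (-(c * ε)))⁻¹ * I0)) * (1 + |t|) ^ (16 + 2 * J1) := by
          have h3 : (1 + |t|) ^ 16 ≤ (1 + |t|) ^ (16 + 2 * J1) := pow_le_pow_right₀ ht (by omega)
          have h4 : 0 ≤ C1 ^ 2 * cM (A + 2) ε (9 * M) ^ 4 * ((1 - Real.exp (-(c * ε)))⁻¹ * I0) := by
            positivity
          gcongr
          linarith
      _ = ((C2 * (nm (9 * M) : ℝ) ^ 2) ^ 4 + C1 ^ 2 * cM (A + 2) ε (9 * M) ^ 4 *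
          ((1 - Real.exp (-(c * ε)))⁻¹ * I0)) * (1 + |t|) ^ (16 + 2 * J1) * 1 := by ring
      _ ≤ _ := by
          gcongr
          have : 0 ≤ Real.exp κ ^ 2 * T := by positivity
          linarith
  · have hM' : IsCoprime (k1 * k2) (9 * M) := (isCoprime_nine_mul' (p1.mul p2)).mpr hM
    have hmem : Mem (9 * M) (fun b => χ b * sy e b) (k1 * k2) (kap k1 k2) :=
      mem_kap hχ' p1 p2 s1 s2 hcop hM' h1
    set Q : ℝ := ((nm (k1 * k2) : ℕ) : ℝ) with hQd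
    have hQ : 0 < Q := by
      have := nm_pos.mpr (mul_ne_zero p1.ne_zero p2.ne_zero)
      rw [hQd]; exact_mod_cast this
    have h2 := hF (9 * M) _ (k1 * k2) (kap k1 k2) hmem Q 1 hQ (by rw [one_mul]) le_rfl κ t
    rw [← hΞd] at h2
    set X := Real.exp κ with hXd
    have hX : 0 < X := Real.exp_pos κ
    have hX2 : Real.exp (2 * κ) = X ^ 2 := by rw [hXd, ← Real.exp_nat_mul]; norm_num
    set s := κ - Real.log Q with hs
    have hshift : ∀ n : ℕ, Real.exp (c * n + κ) / Q = Real.exp (c * n + s) := by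
      intro n
      rw [hs, ← add_sub_assoc, Real.exp_sub, Real.exp_log hQ]
    have hshift' : ∀ n : ℕ, Real.exp (c * n + κ) / Q = Real.exp (c * n) * X / Q := by
      intro n; rw [Real.exp_add]
    have hes : Real.exp (-(s * ε)) = (Q / X) ^ ε := by
      have : Q / X = Real.exp (-s) := by
        rw [hs, neg_sub, Real.exp_sub, Real.exp_log hQ]
      rw [this, ← Real.exp_mul]
      congr 1; ring
    set a : ℕ → ℝ := fun n => wz ε (A + 2) (Real.exp (c * n + κ) / Q) with had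
    have ha : ∀ n, 0 ≤ a n := fun n => wz_nonneg (by positivity)
    obtain ⟨hSa, hSa'⟩ := summable_wz' hpu.cpos hε (A + 2) s
    have hSa1 : Summable a := by rw [had]; simp only [hshift]; exact hSa
    have hSa2 : ∑' n, a n ≤ (Q / X) ^ ε * (1 - Real.exp (-(c * ε)))⁻¹ := by
      rw [had, ← hes]; simp only [hshift]; exact hSa'
    have hS2 : Summable (fun n : ℕ => a n * TN2 h Ξ K (c * n)) := by
      rw [had]; simp only [hshift]
      exact summable_wz2 hpu.cd.continuous hpu.cs hpu.cpos hε (by omega) hK hΞ s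
    have haD : ∀ n : ℕ, a n ≤ (Real.exp (-(s * ε)) * Real.exp (-(5 * s))) *
        Real.exp (-(5 * (c * n))) := by
      intro n
      rw [had]
      simp only [hshift]
      unfold wz
      have h3 : Real.exp (c * n + s) ^ (-ε) ≤ Real.exp (-(s * ε)) := by
        rw [← Real.exp_mul]
        apply Real.exp_le_exp.mpr
        have := mul_nonneg (mul_nonneg hpu.cpos.le (Nat.cast_nonneg (α := ℝ) n)) hε.le
        nlinarith
      calc _ ≤ Real.exp (-(s * ε)) * (Real.exp (-(5 * s)) * Real.exp (-(5 * (c * n)))) :=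
            mul_le_mul h3 (inv_pow_exp_le (by omega) n) (by positivity) (Real.exp_pos _).le
        _ = _ := by ring
    have hS4 := summable_exp_TN4 hpu.cd.continuous hpu.cs hpu.cpos hK hΞ ha haD
    have hcs := tsum_TN2_sq_le hpu.cd.continuous hpu.cs hK hΞ ha hSa1 hS2 hS4
    have hS40 : 0 ≤ ∑' n : ℕ, a n * TN4 h Ξ K (c * n) :=
      tsum_nonneg fun n => mul_nonneg (ha n) (TN4_nonneg _ _ _ _)
    -- the final sum
    have hNs : ∀ n : ℕ, Real.exp (c * n) * X / N = Real.exp (c * n + (κ - Real.log N)) := by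
      intro n
      rw [← add_sub_assoc, Real.exp_sub, Real.exp_log hN, Real.exp_add]
    have hSb := summable_exp_TN4 hpu.cd.continuous hpu.cs hpu.cpos hK hΞ
      (a := fun n => bw ε A (Real.exp (c * n)) (Real.exp (c * n) * X / N))
      (fun n => bw_nonneg (Real.exp_pos _).le (by positivity))
      (D := Real.exp (-(5 * (κ - Real.log N)))) (fun n => by
        rw [hNs]
        exact bw_exp_le hε1 hpu.cpos hA n)
    have hfin : (X ^ 2 / Q) ^ 2 * (Q / X) ^ (3 * ε) * ∑' n : ℕ, a n * TN4 h Ξ K (c * n) ≤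
        X ^ 2 * T := by
      rw [hT, ← tsum_mul_left, ← tsum_mul_left]
      refine (hS4.mul_left _).tsum_le_tsum (fun n => ?_) (hSb.mul_left _)
      have h3 := term_le hε hε1 (A := A) hX hQ hkN (Real.exp_pos (c * n))
      rw [← hshift'] at h3
      calc (X ^ 2 / Q) ^ 2 * (Q / X) ^ (3 * ε) * (a n * TN4 h Ξ K (c * n)) =
            ((X ^ 2 / Q) ^ 2 * (Q / X) ^ (3 * ε) * a n) * TN4 h Ξ K (c * n) := by ring
        _ ≤ (X ^ 2 * bw ε A (Real.exp (c * n)) (Real.exp (c * n) * X / N)) * TN4 h Ξ K (c * n) :=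
            mul_le_mul_of_nonneg_right h3 (TN4_nonneg _ _ _ _)
        _ = _ := by ring
    have hsum0 : 0 ≤ ∑' n : ℕ, a n * TN2 h Ξ K (c * n) :=
      tsum_nonneg fun n => mul_nonneg (ha n) (TN2_nonneg _ _ _ _)
    have hpow : ((Q / X) ^ ε) ^ 2 * (Q / X) ^ ε = (Q / X) ^ (3 * ε) := by
      rw [← Real.rpow_natCast ((Q / X) ^ ε) 2, ← Real.rpow_mul (by positivity),
        ← Real.rpow_add (by positivity)]
      congr 1; push_cast; ring
    calc ‖PS (cx h) Ξ κ t‖ ^ 4 = (‖PS (cx h) Ξ κ t‖ ^ 2) ^ 2 := by ring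
      _ ≤ (C1 * (1 + |t|) ^ J1 * cM (A + 2) ε (9 * M) ^ 2 *
          (1 * Real.exp (2 * κ) / Q * (Q / X) ^ ε) * ∑' n : ℕ, a n * TN2 h Ξ K (c * n)) ^ 2 := by
          gcongr
      _ = C1 ^ 2 * (1 + |t|) ^ (2 * J1) * cM (A + 2) ε (9 * M) ^ 4 *
          ((X ^ 2 / Q) ^ 2 * ((Q / X) ^ ε) ^ 2) * (∑' n : ℕ, a n * TN2 h Ξ K (c * n)) ^ 2 := by
          rw [hX2, pow_mul' (1 + |t|) 2 J1]; ring
      _ ≤ C1 ^ 2 * (1 + |t|) ^ (2 * J1) * cM (A + 2) ε (9 * M) ^ 4 *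
          ((X ^ 2 / Q) ^ 2 * ((Q / X) ^ ε) ^ 2) *
          (((Q / X) ^ ε * (1 - Real.exp (-(c * ε)))⁻¹) * I0 * ∑' n : ℕ, a n * TN4 h Ξ K (c * n)) := by
          gcongr
          refine hcs.trans ?_
          gcongr
      _ = C1 ^ 2 * cM (A + 2) ε (9 * M) ^ 4 * ((1 - Real.exp (-(c * ε)))⁻¹ * I0) *
          (1 + |t|) ^ (2 * J1) *
          ((X ^ 2 / Q) ^ 2 * (((Q / X) ^ ε) ^ 2 * (Q / X) ^ ε) * ∑' n : ℕ, a n * TN4 h Ξ K (c * n)) := by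
          ring
      _ ≤ C1 ^ 2 * cM (A + 2) ε (9 * M) ^ 4 * ((1 - Real.exp (-(c * ε)))⁻¹ * I0) *
          (1 + |t|) ^ (16 + 2 * J1) * (X ^ 2 * T) := by
          rw [hpow]
          gcongr
          omega
      _ ≤ ((C2 * (nm (9 * M) : ℝ) ^ 2) ^ 4 + C1 ^ 2 * cM (A + 2) ε (9 * M) ^ 4 *
          ((1 - Real.exp (-(c * ε)))⁻¹ * I0)) * (1 + |t|) ^ (16 + 2 * J1) * (1 + X ^ 2 * T) := by
          have h3 : 0 ≤ (C2 * (nm (9 * M) : ℝ) ^ 2) ^ 4 := by positivity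
          have h4 : 0 ≤ X ^ 2 * T := by positivity
          gcongr
          · linarith
          · linarith

end Crest.Agent.R017.Two939
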