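import Crest.Agent.R017.FY1_813
import Crest.Agent.R017.Two2_939
import Crest.Agent.R017.BDefs3_770

/-!
# Row 17, the small amplifier factor `F_Y`: sharp bound (helper61)

* `FS_le'` : `|FS| ≤ C B^a e^{(1-a)κ}` for every `a < 1/2`, if all smooth sums are `≤ B`
* `FS_pv`  : for `k = e k₁ k₂² m³` (`e` supported on `M`, `k₁ k₂` squarefree prime to `M`):
  `|FS| ≤ C (1+|t|)^J τ(m d) nm(k₁k₂)^{a/2} e^{(1-a)κ}`  (Pólya–Vinogradov, unconditional)
* `AS_eq_FS`, `AS_pv` : the same for the factor `AS` of the frozen amplifier (`BDefs3_770`).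
-/

set_option autoImplicit false

noncomputable section

open Complex MeasureTheory Filter Topology
open scoped ContDiff ComplexConjugate

namespace Crest.Agent.R017.FY61

open Crest.Agent.R012 Crest.Agent.R012.Eis Crest.Agent.R012.Gauss880
open Crest.Agent.R012.Weight600 (osc norm_osc)
open Crest.Agent.R012.PSer47 Crest.Agent.R012.Div277 Crest.Agent.R012.Mob705
open Crest.Agent.R017.End699 Crest.Agent.R017.FE47 Crest.Agent.R017.Two939
open Crest.Agent.R017.FY813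

/-- if all smooth sums are `≤ B`, the sums over squarefree elements are `≤ C B^a e^{(1-a)κ}`. -/
theorem FS_le' {w : ℝ → ℂ} (h1 : Continuous w) (h2 : HasCompactSupport w) {a : ℝ} (ha : 0 < a)
    (ha' : a < 1 / 2) :
    ∃ C : ℝ, 0 ≤ C ∧ ∀ Ξ : Eis → ℂ, IsChar Ξ → ∀ (B t : ℝ), 0 ≤ B →
      (∀ κ', ‖PS w Ξ κ' t‖ ≤ B) → ∀ κ : ℝ,
      ‖FS w Ξ κ t‖ ≤ C * (B ^ a * Real.exp ((1 - a) * κ)) := by
  obtain ⟨C0, hC0, h0⟩ := norm_PS_le h1 h2
  have hsum := LatSum413.summable_nm_rpow (s := 2 * (1 - a)) (by linarith)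
  set Z := ∑' z : Eis, (nm z : ℝ) ^ (-(2 * (1 - a)) : ℝ) with hZ
  have hZ0 : 0 ≤ Z := tsum_nonneg fun z => by positivity
  have ha1 : 0 < 1 - a := by linarith
  refine ⟨C0 ^ (1 - a) * Z, by positivity, fun Ξ hΞ B t hB hP κ => ?_⟩
  obtain ⟨N, hN⟩ := FS_eq h2 hΞ κ t
  rw [hN]
  refine (norm_sum_le _ _).trans ?_
  calc ∑ d ∈ primBall N, ‖(muE d : ℂ) * (Ξ (d ^ 2) *
      osc t (Real.log (nm (d ^ 2))) * PS w Ξ (κ - Real.log (nm (d ^ 2))) t)‖
      ≤ ∑ d ∈ primBall N, (C0 ^ (1 - a) * (B ^ a * Real.exp ((1 - a) * κ))) *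
          (nm d : ℝ) ^ (-(2 * (1 - a)) : ℝ) := by
        refine Finset.sum_le_sum fun d hd => ?_
        have hdp : IsPrim d := (mem_primBall.mp hd).2
        have hd2 : IsPrim (d ^ 2) := by rw [sq]; exact hdp.mul hdp
        have hn1 := one_le_nm' hdp
        have hn0 : (0 : ℝ) < nm d := by linarith
        have hmu : ‖(muE d : ℂ)‖ ≤ 1 := by
          rw [Complex.norm_intCast]
          have h3 := abs_muE d
          have h4 : |muE d| ≤ 1 := by rw [h3]; split_ifs <;> norm_num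
          exact_mod_cast h4
        set x := ‖PS w Ξ (κ - Real.log (nm (d ^ 2))) t‖ with hx
        have hx0 : 0 ≤ x := norm_nonneg _
        have hxB : x ≤ B := hP _
        have hxC : x ≤ C0 * (Real.exp κ * (nm d : ℝ) ^ (-(2 : ℝ))) := by
          have h5 := h0 Ξ (fun b hb => hΞ.norm_le hb) (κ - Real.log (nm (d ^ 2))) t
          refine h5.trans (le_of_eq ?_)
          rw [Real.exp_sub, Real.exp_log (by rw [nm_sq]; positivity), nm_sq,
            Real.rpow_neg hn0.le, Real.rpow_two, div_eq_mul_inv]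
        have hx1 : x = x ^ a * x ^ (1 - a) := by
          rw [← Real.rpow_add_of_nonneg hx0 ha.le ha1.le]
          norm_num
        have hx2 : x ≤ B ^ a * (C0 * (Real.exp κ * (nm d : ℝ) ^ (-(2 : ℝ)))) ^ (1 - a) := by
          rw [hx1]
          gcongr
        have e3 : (C0 * (Real.exp κ * (nm d : ℝ) ^ (-(2 : ℝ)))) ^ (1 - a) =
            C0 ^ (1 - a) * (Real.exp ((1 - a) * κ) * (nm d : ℝ) ^ (-(2 * (1 - a)) : ℝ)) := by
          rw [Real.mul_rpow hC0 (by positivity), Real.mul_rpow (by positivity) (by positivity),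
            ← Real.exp_mul, ← Real.rpow_mul hn0.le]
          ring_nf
        rw [e3] at hx2
        rw [norm_mul, norm_mul, norm_mul, norm_osc, mul_one]
        calc ‖(muE d : ℂ)‖ * (‖Ξ (d ^ 2)‖ * x) ≤ 1 * (1 * x) := by
              gcongr
              exact hΞ.norm_le hd2
          _ = x := by ring
          _ ≤ _ := hx2
          _ = _ := by ring
    _ = (C0 ^ (1 - a) * (B ^ a * Real.exp ((1 - a) * κ))) *
          ∑ d ∈ primBall N, (nm d : ℝ) ^ (-(2 * (1 - a)) : ℝ) := by rw [Finset.mul_sum]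
    _ ≤ (C0 ^ (1 - a) * (B ^ a * Real.exp ((1 - a) * κ))) * Z := by
        gcongr
        exact hsum.sum_le_tsum _ fun z _ => by positivity
    _ = _ := by ring

/-- `conj (e/b)₃ = (e²/b)₃` -/
lemma conj_sy_eq {e b : Eis} (hb : IsPrim b) : conj (sy e b) = sy (e ^ 2) b := by
  rw [sq, Char766.sy_mul_left hb]
  by_cases h : IsCoprime e b
  · have h1 := syG.cube e b hb h
    have h2 : ‖sy e b‖ = 1 := by
      have h2 : ‖sy e b‖ ^ 3 = 1 := by rw [← norm_pow, h1, norm_one]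
      exact (pow_eq_one_iff_of_nonneg (norm_nonneg _) (by norm_num)).mp h2
    have h3 : conj (sy e b) * sy e b = 1 := by
      rw [mul_comm, Complex.mul_conj, Complex.normSq_eq_norm_sq, h2]; norm_num
    have h4 : sy e b ≠ 0 := by
      intro h5; rw [h5] at h2; simp at h2
    have h5 : sy e b * sy e b * sy e b = 1 := by rw [← h1]; ring
    apply mul_right_cancel₀ h4
    rw [h3, h5]
  · rw [(syG.eq_zero e b hb).mpr h]; simp

lemma sq_mem_SM {M e : Eis} (he : e ∈ SM M) : e ^ 2 ∈ SM M :=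
  ⟨pow_ne_zero 2 he.1, fun p hp h => he.2 p hp (hp.dvd_of_dvd_pow h)⟩

/-- Pólya–Vinogradov, uniformly for `k' = e k₁ k₂²`. -/
theorem PS_pv {w : ℝ → ℂ} (hw1 : ContDiff ℝ ∞ w) (hw2 : HasCompactSupport w) (l : ℤ)
    {M : Eis} {χ : Eis → ℂ} (hχ : HC M χ) :
    ∃ (C : ℝ) (J : ℕ), 0 ≤ C ∧ ∀ e ∈ SM M, ∀ k1 k2 : Eis, IsPrim k1 → IsPrim k2 →
      Squarefree k1 → Squarefree k2 → IsCoprime k1 k2 → IsCoprime (k1 * k2) M →
      (k1 * k2 = 1 → NP (9 * M) (fun b => χ b * sy e b) l) → ∀ κ t : ℝ,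
      ‖PS w (XK (fun b => χ b * sy e b) (kap k1 k2) l) κ t‖ ≤
        C * (1 + |t|) ^ J * Real.sqrt (nm (k1 * k2)) := by
  obtain ⟨C1, J1, hC1, h1⟩ := PV hw1 hw2 l 0
  obtain ⟨C2, hC2, h2⟩ := PSfix hw1 hw2 l
  refine ⟨C1 * cM (0 + 2) (1 / 2) (9 * M) + C2 * (nm (9 * M) : ℝ) ^ 2, J1 + 4, by
    have := cM_nonneg (0 + 2) (1 / 2) (9 * M)
    positivity, ?_⟩
  intro e he k1 k2 p1 p2 s1 s2 hcop hM hnp κ t
  have ht : 1 ≤ 1 + |t| := by linarith [abs_nonneg t]
  have hχ' := hc_SM hχ he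
  have hcM := cM_nonneg (0 + 2) (1 / 2) (9 * M)
  by_cases h : k1 * k2 = 1
  · have hk1 : k1 = 1 := by
      have hu : IsUnit k1 := IsUnit.of_mul_eq_one _ h
      exact p1.eq_of_associated isPrim_one (associated_one_iff_isUnit.mpr hu)
    have hk2 : k2 = 1 := by rw [hk1, one_mul] at h; exact h
    have e0 : PS w (XK (fun b => χ b * sy e b) (kap k1 k2) l) κ t =
        PS w (XK (fun b => χ b * sy e b) (fun _ => 1) l) κ t := by
      refine PS_congr (fun b _ => ?_) _ _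
      rw [hk1, hk2]
      unfold XK
      rw [kap_one_one]
    have h3 := h2 (9 * M) _ hχ' (hnp h) κ t
    rw [← e0] at h3
    have e1 : Real.sqrt ((nm (k1 * k2) : ℕ) : ℝ) = 1 := by rw [h]; simp
    rw [e1, mul_one]
    calc ‖PS w (XK (fun b => χ b * sy e b) (kap k1 k2) l) κ t‖
        ≤ C2 * (1 + |t|) ^ 4 * (nm (9 * M) : ℝ) ^ 2 := h3
      _ = (C2 * (nm (9 * M) : ℝ) ^ 2) * (1 + |t|) ^ 4 := by ring
      _ ≤ (C1 * cM (0 + 2) (1 / 2) (9 * M) + C2 * (nm (9 * M) : ℝ) ^ 2) * (1 + |t|) ^ (J1 + 4) := by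
          have h5 : (1 + |t|) ^ 4 ≤ (1 + |t|) ^ (J1 + 4) := pow_le_pow_right₀ ht (by omega)
          have h6 : 0 ≤ C1 * cM (0 + 2) (1 / 2) (9 * M) := by positivity
          gcongr
          linarith
  · have hM' : IsCoprime (k1 * k2) (9 * M) := (isCoprime_nine_mul' (p1.mul p2)).mpr hM
    have hmem : Mem (9 * M) (fun b => χ b * sy e b) (k1 * k2) (kap k1 k2) :=
      mem_kap hχ' p1 p2 s1 s2 hcop hM' h
    have h3 := h1 (9 * M) _ hmem.hc (k1 * k2) (kap k1 k2) hmem.prim hmem.cop hmem.ch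
      hmem.primitive hmem.zero κ t
    rw [pow_zero, inv_one, mul_one] at h3
    calc ‖PS w (XK (fun b => χ b * sy e b) (kap k1 k2) l) κ t‖
        ≤ C1 * (1 + |t|) ^ J1 * cM (0 + 2) (1 / 2) (9 * M) * Real.sqrt (nm (k1 * k2)) := h3
      _ = (C1 * cM (0 + 2) (1 / 2) (9 * M)) * (1 + |t|) ^ J1 * Real.sqrt (nm (k1 * k2)) := by ring
      _ ≤ (C1 * cM (0 + 2) (1 / 2) (9 * M) + C2 * (nm (9 * M) : ℝ) ^ 2) * (1 + |t|) ^ (J1 + 4) *
          Real.sqrt (nm (k1 * k2)) := by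
          have h5 : (1 + |t|) ^ J1 ≤ (1 + |t|) ^ (J1 + 4) := pow_le_pow_right₀ ht (by omega)
          have h6 : 0 ≤ C2 * (nm (9 * M) : ℝ) ^ 2 := by positivity
          gcongr
          linarith

open Classical in
/-- **Sharp bound for `F_Y`** (Pólya–Vinogradov): every exponent `a < 1/2`. -/
theorem FS_pv {w : ℝ → ℂ} (hw1 : ContDiff ℝ ∞ w) (hw2 : HasCompactSupport w) (l : ℤ) {a : ℝ}
    (ha : 0 < a) (ha' : a < 1 / 2) {M : Eis} {χ : Eis → ℂ} (hχ : HC M χ) :
    ∃ (C : ℝ) (J : ℕ), 0 ≤ C ∧ ∀ e ∈ SM M, ∀ k1 k2 : Eis, IsPrim k1 → IsPrim k2 →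
      Squarefree k1 → Squarefree k2 → IsCoprime k1 k2 → IsCoprime (k1 * k2) M →
      (k1 * k2 = 1 → NP (9 * M) (fun b => χ b * sy e b) l) →
      ∀ m : Eis, m ≠ 0 → ∀ κ t : ℝ,
      ‖FS w (fun b => XK (fun b => χ b * sy e b) (kap k1 k2) l b * prin0 m b) κ t‖ ≤
        C * ((1 + |t|) ^ J * (tau m * ((nm (k1 * k2) : ℝ) ^ (a / 2) * Real.exp ((1 - a) * κ)))) := by
  obtain ⟨C1, J, hC1, h1⟩ := PS_pv hw1 hw2 l hχ
  obtain ⟨C2, hC2, h2⟩ := FS_le' hw1.continuous hw2 ha ha'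
  refine ⟨C2 * C1 ^ a, J, by positivity, ?_⟩
  intro e he k1 k2 p1 p2 s1 s2 hcop hM hnp m hm κ t
  have ht : 1 ≤ 1 + |t| := by linarith [abs_nonneg t]
  set X : Eis → ℂ := XK (fun b => χ b * sy e b) (kap k1 k2) l with hX
  have hχ' := hc_SM hχ he
  have hkc : IsChar (kap k1 k2) := by
    refine ⟨(isCh_kap p1 p2).one, ?_, ?_⟩
    · intro a b ha hb
      exact (isCh_kap p1 p2).mul a b
    · intro a ha
      by_cases hc : IsCoprime a (k1 * k2)
      · right
        unfold kap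
        rw [norm_mul, RCLike.norm_conj, Char766.norm_sy p1 (hc.of_mul_right_left),
          Char766.norm_sy p2 (hc.of_mul_right_right), one_mul]
      · left
        exact (isCh_kap p1 p2).zero a hc
  have hXc : IsChar X := (hχ'.char.mul' hkc).mul' (ang_isChar l)
  have hXc' : IsChar (fun b => X b * prin0 m b) := hXc.mul' (isChar_prin0 m)
  have hτ1 : (1 : ℝ) ≤ tau m := by exact_mod_cast one_le_tau hm
  have hB : ∀ κ', ‖PS w (fun b => X b * prin0 m b) κ' t‖ ≤
      tau m * (C1 * (1 + |t|) ^ J * Real.sqrt (nm (k1 * k2))) := by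
    intro κ'
    have e3 : PS w (fun b => X b * prin0 m b) κ' t =
        PS w (fun b => if IsCoprime b m then X b else 0) κ' t := by
      refine PS_congr (fun b _ => ?_) _ _
      unfold prin0
      split_ifs <;> simp
    rw [e3]
    refine (norm_PS_cop_le hw2 hXc hm κ' t).trans ?_
    calc ∑ d ∈ (dvs m).filter Squarefree, ‖PS w X (κ' - Real.log (nm d)) t‖
        ≤ ∑ d ∈ (dvs m).filter Squarefree, C1 * (1 + |t|) ^ J * Real.sqrt (nm (k1 * k2)) :=
          Finset.sum_le_sum fun d _ => h1 e he k1 k2 p1 p2 s1 s2 hcop hM hnp _ _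
      _ = ((dvs m).filter Squarefree).card * (C1 * (1 + |t|) ^ J * Real.sqrt (nm (k1 * k2))) := by
          rw [Finset.sum_const, nsmul_eq_mul]
      _ ≤ _ := by
          gcongr
          unfold tau
          exact_mod_cast Finset.card_filter_le _ _
  have h3 := h2 _ hXc' _ t (by positivity) hB κ
  refine h3.trans ?_
  have e4 : (tau m * (C1 * (1 + |t|) ^ J * Real.sqrt (nm (k1 * k2)))) ^ a =
      (tau m : ℝ) ^ a * (C1 ^ a * ((1 + |t|) ^ J) ^ a * (nm (k1 * k2) : ℝ) ^ (a / 2)) := by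
    rw [Real.mul_rpow (by positivity) (by positivity), Real.mul_rpow (by positivity)
      (by positivity), Real.mul_rpow hC1 (by positivity), Real.sqrt_eq_rpow,
      ← Real.rpow_mul (by positivity)]
    ring_nf
  rw [e4]
  have h5 : (tau m : ℝ) ^ a ≤ tau m := by
    calc (tau m : ℝ) ^ a ≤ (tau m : ℝ) ^ (1 : ℝ) := Real.rpow_le_rpow_of_exponent_le hτ1 (by linarith)
      _ = tau m := Real.rpow_one _
  have h6 : ((1 + |t|) ^ J) ^ a ≤ (1 + |t|) ^ J := by
    calc ((1 + |t|) ^ J) ^ a ≤ ((1 + |t|) ^ J) ^ (1 : ℝ) :=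
          Real.rpow_le_rpow_of_exponent_le (one_le_pow₀ ht) (by linarith)
      _ = _ := Real.rpow_one _
  calc C2 * ((tau m : ℝ) ^ a * (C1 ^ a * ((1 + |t|) ^ J) ^ a * (nm (k1 * k2) : ℝ) ^ (a / 2)) *
        Real.exp ((1 - a) * κ))
      ≤ C2 * (tau m * (C1 ^ a * (1 + |t|) ^ J * (nm (k1 * k2) : ℝ) ^ (a / 2)) *
        Real.exp ((1 - a) * κ)) := by gcongr
    _ = _ := by ring

/-! ### the frozen form -/

lemma cpow_eq_osc {b : Eis} (hb : b ≠ 0) (t : ℝ) :
    ((nm b : ℕ) : ℂ) ^ (I * t) = osc t (Real.log (nm b)) := by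
  have h : ((nm b : ℕ) : ℂ) ≠ 0 := by
    have := nm_pos.mpr hb
    exact_mod_cast this.ne'
  rw [Complex.cpow_def_of_ne_zero h, ← Complex.natCast_log]
  unfold osc
  push_cast
  ring_nf

open Classical in
/-- the amplifier factor `AS` is the smooth sum over squarefree elements `FS`. -/
theorem AS_eq_FS {h : ℝ → ℂ} (hh : HW h) (φ : Eis → ℂ) (l : ℤ) (t : ℝ) (f : Eis → ℂ) (κ : ℝ) :
    Asm986.AS h κ (fun c => B770.twt φ l t c * f c) =
      FS h (fun c => φ c * ang l c * f c) κ t := by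
  unfold FS PS Asm986.AS
  rw [tsum_eq_sum (s := Asm986.sqB κ)]
  · refine Finset.sum_congr rfl fun c hc => ?_
    unfold Asm986.sqB at hc
    rw [Finset.mem_filter, mem_primBall] at hc
    obtain ⟨⟨-, hp⟩, hs⟩ := hc
    unfold End699.ext
    rw [if_pos hp]
    beta_reduce
    rw [if_pos hs]
    unfold B770.twt tw
    rw [cpow_eq_osc hp.ne_zero]
    ring
  · intro b hb
    by_cases hp : IsPrim b
    · by_cases hs : Squarefree b
      · have h1 : h (Real.log (nm b) - κ) = 0 := by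
          by_contra h2
          apply hb
          unfold Asm986.sqB
          rw [Finset.mem_filter, mem_primBall]
          refine ⟨⟨?_, hp⟩, hs⟩
          have h3 := (abs_le.mp (hh.supp _ h2)).2
          have h4 : (nm b : ℝ) ≤ Real.exp (κ + 1) := by
            rw [← Real.log_le_iff_le_exp (by have := one_le_nm' hp; linarith)]
            linarith
          exact Nat.le_floor h4
        rw [h1]; simp
      · unfold End699.ext
        rw [if_pos hp]
        beta_reduce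
        rw [if_neg hs, zero_mul]
    · simp [End699.ext, hp]

lemma HW.compact {h : ℝ → ℂ} (hh : HW h) : HasCompactSupport h := by
  refine HasCompactSupport.of_support_subset_isCompact (isCompact_Icc (a := -1) (b := 1)) ?_
  intro u hu
  have := abs_le.mp (hh.supp u hu)
  exact ⟨this.1, this.2⟩

lemma conj_kap {k1 k2 : Eis} (b : Eis) : conj (kap k1 k2 b) = kap k2 k1 b := by
  unfold kap
  rw [map_mul, Complex.conj_conj, mul_comm]

open Classical in
/-- **Sharp bound for the amplifier factor `AS`** of `DOUT3` at the nonprincipal `k`. -/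
theorem AS_pv {h : ℝ → ℂ} (hh : HW h) (l : ℤ) {a : ℝ} (ha : 0 < a) (ha' : a < 1 / 2) {n : Eis}
    {φ : Eis → ℂ} (hφ : HC n φ) :
    ∃ (C : ℝ) (J : ℕ), 0 ≤ C ∧ ∀ k : Eis, k ≠ 0 → B770.NPk n φ l k →
      ∃ e ∈ SM n, ∃ k1 k2 m : Eis, IsPrim k1 ∧ IsPrim k2 ∧ IsPrim m ∧ Squarefree k1 ∧
        Squarefree k2 ∧ IsCoprime k1 k2 ∧ IsCoprime (k1 * k2) n ∧ IsCoprime m n ∧
        k = e * k1 * k2 ^ 2 * m ^ 3 ∧ ∀ d : Eis, d ≠ 0 → ∀ κ t : ℝ,
      ‖Asm986.AS h κ (fun c => B770.twt φ l t c * prin0 d c * conj (sy k c))‖ ≤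
        C * ((1 + |t|) ^ J * (tau (m * d) * ((nm (k1 * k2) : ℝ) ^ (a / 2) *
          Real.exp ((1 - a) * κ)))) := by
  obtain ⟨C, J, hC, h1⟩ := FS_pv hh.cd (HW.compact hh) l ha ha' hφ
  refine ⟨C, J, hC, fun k hk hnp => ?_⟩
  obtain ⟨e, he, k1, k2, m, p1, p2, hm, s1, s2, hcop, hM, hmM, hk'⟩ := exists_dec hφ.three hk
  refine ⟨e, he, k1, k2, m, p1, p2, hm, s1, s2, hcop, hM, hmM, hk', fun d hd κ t => ?_⟩
  have hnp' : k2 * k1 = 1 → NP (9 * n) (fun b => φ b * sy (e ^ 2) b) l := by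
    intro h12
    have hk2 : k2 = 1 := by
      have hu : IsUnit k2 := IsUnit.of_mul_eq_one _ h12
      exact p2.eq_of_associated isPrim_one (associated_one_iff_isUnit.mpr hu)
    have hk1 : k1 = 1 := by rw [hk2, one_mul] at h12; exact h12
    rw [hk1, hk2] at hk'
    rcases hnp with h | ⟨b, hb, hbc, hne⟩
    · exact Or.inl h
    · refine Or.inr ⟨b, hb, ?_, ?_⟩
      · refine hbc.of_isCoprime_of_dvd_right ?_
        exact ⟨k, by ring⟩
      · have hcm : IsCoprime m b := by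
          have hd : m ∣ n * (9 * k) := by
            rw [hk']
            exact ⟨n * 9 * e * m ^ 2, by ring⟩
          exact (hbc.of_isCoprime_of_dvd_right hd).symm
        intro h
        apply hne
        change φ b * conj (sy k b) = 1
        rw [hk']
        have e1 : e * 1 * 1 ^ 2 * m ^ 3 = e * m ^ 3 := by ring
        rw [e1, Char766.sy_mul_left hb, Char766.sy_cube_left hb hcm, mul_one, conj_sy_eq hb]
        exact h
  have h2 := h1 (e ^ 2) (sq_mem_SM he) k2 k1 p2 p1 s2 s1 hcop.symm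
    (by rw [mul_comm]; exact hM) hnp' (m * d) (mul_ne_zero hm.ne_zero hd) κ t
  have e1 : Asm986.AS h κ (fun c => B770.twt φ l t c * prin0 d c * conj (sy k c)) =
      Asm986.AS h κ (fun c => B770.twt φ l t c * (prin0 d c * conj (sy k c))) := by
    congr 1; funext c; ring
  rw [e1, AS_eq_FS hh]
  have e2 : FS h (fun c => φ c * ang l c * (prin0 d c * conj (sy k c))) κ t =
      FS h (fun b => XK (fun b => φ b * sy (e ^ 2) b) (kap k2 k1) l b * prin0 (m * d) b) κ t := by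
    unfold FS
    refine PS_congr (fun b hb => ?_) _ _
    beta_reduce
    split_ifs with hs
    · unfold XK
      have e3 : k = (e * (k1 * k2 ^ 2)) * m ^ 3 := by rw [hk']; ring
      rw [e3, Char766.sy_mul_left hb, Char766.sy_mul_left hb, map_mul, map_mul, conj_sy_eq hb,
        ← kap_eq_sy p1 p2 hb, conj_kap]
      unfold prin0
      by_cases hc : IsCoprime b m
      · rw [Char766.sy_cube_left hb hc.symm, map_one]
        by_cases hc2 : IsCoprime b d
        · rw [if_pos hc2, if_pos (hc.mul_right hc2)]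
          ring
        · rw [if_neg hc2, if_neg fun h' : IsCoprime b (m * d) => hc2 h'.of_mul_right_right]
          ring
      · rw [Char766.sy_eq_zero hb fun h' => hc
          (h'.of_isCoprime_of_dvd_left (dvd_pow_self m three_ne_zero)).symm,
          if_neg (c := IsCoprime b (m * d)) fun h' => hc h'.of_mul_right_left]
        simp
    · rfl
  rw [e2]
  have e4 : (nm (k2 * k1) : ℝ) = nm (k1 * k2) := by rw [mul_comm]
  rw [e4] at h2
  exact h2

end Crest.Agent.R017.FY61
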