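import Crest.Agent.R017.OneDefs_319
import Crest.Agent.R017.FYpv_61
import Crest.Agent.R012.CRbeta_852

/-!
# Row 17, `θ = 1` (One319): `FYcount` from the count at one length (helper61)

* `AS_lip` : Lipschitz bound of the squarefree amplifier piece in its length
* `fycount_of_one` : `FYcount` from `CountOne` (helper579)
-/

set_option autoImplicit false

noncomputable section

open Complex MeasureTheory Filter Topology
open scoped ContDiff ComplexConjugate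

namespace Crest.Agent.R017.FY61

open Crest.Agent.R012 Crest.Agent.R012.Eis Crest.Agent.R012.LS2 Crest.Agent.R012.CR2
open Crest.Agent.R012.Gauss880
open Crest.Agent.R012.Weight600 (osc norm_osc)
open Crest.Agent.R012.PSer47 Crest.Agent.R012.Div277 Crest.Agent.R012.Mob705
open Crest.Agent.R017.End699 Crest.Agent.R017.B770 Crest.Agent.R017.Asm986

/-- a weight is Lipschitz -/
lemma HW.lip {h : ℝ → ℂ} (hh : HW h) : ∃ L : ℝ, 0 ≤ L ∧ ∀ x y, ‖h x - h y‖ ≤ L * |x - y| := by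
  obtain ⟨L, hL⟩ := (hh.deriv).bounded
  refine ⟨max L 0, le_max_right _ _, fun x y => ?_⟩
  have hd : Differentiable ℝ h := hh.cd.differentiable (by simp)
  have := Convex.norm_image_sub_le_of_norm_deriv_le (f := h) (C := max L 0) (s := Set.univ)
    (fun x _ => hd x) (fun x _ => (hL x).trans (le_max_left _ _)) convex_univ
    (Set.mem_univ y) (Set.mem_univ x)
  simpa [Real.norm_eq_abs] using this

/-- a larger range of summation does not change `AS` -/
lemma AS_eq_of_le {h : ℝ → ℂ} (hh : HW h) {κ κ' : ℝ} (hκ : κ' ≤ κ) (f : Eis → ℂ) :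
    AS h κ' f = ∑ c ∈ sqB κ, f c * h (Real.log (nm c) - κ') := by
  classical
  unfold AS
  refine Finset.sum_subset ?_ ?_
  · intro c hc
    unfold sqB at hc ⊢
    rw [Finset.mem_filter, mem_primBall] at hc ⊢
    refine ⟨⟨hc.1.1.trans (Nat.floor_le_floor ?_), hc.1.2⟩, hc.2⟩
    gcongr
  · intro c hc hc'
    unfold sqB at hc hc'
    rw [Finset.mem_filter, mem_primBall] at hc hc'
    have h1 : h (Real.log (nm c) - κ') = 0 := by
      by_contra h2
      apply hc'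
      refine ⟨⟨?_, hc.1.2⟩, hc.2⟩
      have h3 := (abs_le.mp (hh.supp _ h2)).2
      have h4 : (nm c : ℝ) ≤ Real.exp (κ' + 1) := by
        rw [← Real.log_le_iff_le_exp (by have := FY813.one_le_nm' hc.1.2; linarith)]
        linarith
      exact Nat.le_floor h4
    rw [h1, mul_zero]

lemma card_sqB_le : ∃ C : ℝ, 0 ≤ C ∧ ∀ κ : ℝ, ((sqB κ).card : ℝ) ≤ C * Real.exp κ := by
  classical
  refine ⟨100 * Real.exp 1, by positivity, fun κ => ?_⟩
  unfold sqB
  calc (((primBall ⌊Real.exp (κ + 1)⌋₊).filter Squarefree).card : ℝ)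
      ≤ ((primBall ⌊Real.exp (κ + 1)⌋₊).card : ℝ) := by
        exact_mod_cast Finset.card_filter_le _ _
    _ ≤ 100 * (⌊Real.exp (κ + 1)⌋₊ : ℝ) := Lat277.card_primBall_le _
    _ ≤ 100 * Real.exp (κ + 1) := by
        gcongr
        exact Nat.floor_le (Real.exp_pos _).le
    _ = 100 * Real.exp 1 * Real.exp κ := by rw [Real.exp_add]; ring

lemma norm_twt_le {φ : Eis → ℂ} {b : Eis} (hb : b ≠ 0) (hφ : ‖φ b‖ ≤ 1) (l : ℤ) (t : ℝ) :
    ‖twt φ l t b‖ ≤ 1 := by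
  unfold twt End699.tw
  rw [norm_mul, norm_mul, cpow_eq_osc hb, norm_osc, mul_one]
  exact mul_le_one₀ hφ (norm_nonneg _) (CRbeta852.norm_ang_le' l b)

/-- Lipschitz bound in the length -/
theorem AS_lip {h : ℝ → ℂ} (hh : HW h) : ∃ C : ℝ, 0 ≤ C ∧ ∀ (f : Eis → ℂ),
    (∀ c, IsPrim c → ‖f c‖ ≤ 1) → ∀ κ κ₁ κ₂ : ℝ, κ₁ ≤ κ → κ₂ ≤ κ →
      ‖AS h κ₁ f‖ ≤ ‖AS h κ₂ f‖ + C * (|κ₁ - κ₂| * Real.exp κ) := by
  obtain ⟨L, hL, hl⟩ := HW.lip hh
  obtain ⟨C, hC, hc⟩ := card_sqB_le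
  refine ⟨L * C, by positivity, fun f hf κ κ₁ κ₂ h1 h2 => ?_⟩
  rw [AS_eq_of_le hh h1, AS_eq_of_le hh h2]
  have e : ∑ c ∈ sqB κ, f c * h (Real.log (nm c) - κ₁) = ∑ c ∈ sqB κ, f c * h (Real.log (nm c) - κ₂)
      + ∑ c ∈ sqB κ, f c * (h (Real.log (nm c) - κ₁) - h (Real.log (nm c) - κ₂)) := by
    rw [← Finset.sum_add_distrib]
    exact Finset.sum_congr rfl fun c _ => by ring
  rw [e]
  refine (norm_add_le _ _).trans (add_le_add le_rfl ?_)
  calc ‖∑ c ∈ sqB κ, f c * (h (Real.log (nm c) - κ₁) - h (Real.log (nm c) - κ₂))‖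
      ≤ ∑ c ∈ sqB κ, L * |κ₁ - κ₂| := by
        refine norm_sum_le_of_le _ fun c hc => ?_
        have hp : IsPrim c := by
          classical
          unfold sqB at hc
          rw [Finset.mem_filter, mem_primBall] at hc
          exact hc.1.2
        rw [norm_mul]
        have h3 := hl (Real.log (nm c) - κ₁) (Real.log (nm c) - κ₂)
        have e2 : |Real.log (nm c) - κ₁ - (Real.log (nm c) - κ₂)| = |κ₁ - κ₂| := by
          rw [abs_sub_comm κ₁ κ₂]; congr 1; ring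
        rw [e2] at h3
        calc ‖f c‖ * ‖h (Real.log (nm c) - κ₁) - h (Real.log (nm c) - κ₂)‖
            ≤ 1 * (L * |κ₁ - κ₂|) := by
              gcongr
              exact hf c hp
          _ = _ := one_mul _
    _ = (sqB κ).card * (L * |κ₁ - κ₂|) := by rw [Finset.sum_const, nsmul_eq_mul]
    _ ≤ (C * Real.exp κ) * (L * |κ₁ - κ₂|) := by
        gcongr
        exact hc κ
    _ = _ := by ring

/-- the count at one length (579: `One579.count_one`) -/
def CountOne : Prop := ∀ (h : ℝ → ℂ), HW h → ∀ (l : ℤ) (n : Eis) (φ : Eis → ℂ), HC n φ →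
  ∀ ε M : ℝ, 0 < ε → 0 < M → ∃ C A : ℝ, 0 ≤ C ∧ 0 ≤ A ∧ ∀ κ H : ℝ, 0 ≤ κ → 1 ≤ H →
    H ≤ Real.exp (M * (κ + 1)) → ∀ κ' : ℝ, κ' ≤ κ → ∀ d₁ : Eis, d₁ ≠ 0 → ∀ t₁ : ℝ,
      ∃ E : Finset Eis, (E.card : ℝ) ≤
          C * Real.exp (ε * κ) * (H ^ (1 / 3 : ℝ) * Real.exp (-(κ / 4))) ∧
        ∀ k ∈ bl H, NPk n φ l k → k ∉ E →
          ‖AS h κ' (fun c => twt φ l t₁ c * prin0 d₁ c * conj (sy k c))‖ ≤
            C * (nm d₁ : ℝ) ^ ε * (1 + |t₁|) ^ A * Real.exp ((1 - 1 / 72) * κ)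

theorem fycount_of_one (h1 : CountOne) : One319.FYcount := by
  classical
  intro P hP ε C₁ M hε hC₁ hM
  obtain ⟨C, A, hC, hA, hc⟩ := h1 P.h₀ hP.h₀ P.l₁ P.n P.φ hP.φ ε M hε hM
  obtain ⟨L, hL, hlip⟩ := AS_lip hP.h₀
  refine ⟨(C₁ + 1) * C + C + L, A, by positivity, hA, fun κ H hκ hH hHM d₁ hd t₁ => ?_⟩
  set N : ℕ := ⌊C₁ * Real.exp (κ / 72)⌋₊ with hN
  have hex : ∀ j : ℕ, ∃ E : Finset Eis, (E.card : ℝ) ≤
      C * Real.exp (ε * κ) * (H ^ (1 / 3 : ℝ) * Real.exp (-(κ / 4))) ∧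
        ∀ k ∈ bl H, NPk P.n P.φ P.l₁ k → k ∉ E →
          ‖AS P.h₀ (κ - j * Real.exp (-(κ / 72)))
            (fun c => twt P.φ P.l₁ t₁ c * prin0 d₁ c * conj (sy k c))‖ ≤
            C * (nm d₁ : ℝ) ^ ε * (1 + |t₁|) ^ A * Real.exp ((1 - 1 / 72) * κ) := by
    intro j
    have hj : κ - j * Real.exp (-(κ / 72)) ≤ κ := by
      have : (0 : ℝ) ≤ j * Real.exp (-(κ / 72)) := by positivity
      linarith
    exact hc κ H hκ hH hHM _ hj d₁ hd t₁
  choose E hE hEb using hex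
  have nd1 : (1 : ℝ) ≤ nm d₁ := by exact_mod_cast nm_pos.mpr hd
  have hnd : (1 : ℝ) ≤ (nm d₁ : ℝ) ^ ε := Real.one_le_rpow nd1 hε.le
  have ht : (1 : ℝ) ≤ (1 + |t₁|) ^ A := Real.one_le_rpow (by linarith [abs_nonneg t₁]) hA
  have hx1 : (1 : ℝ) ≤ Real.exp (κ / 72) := Real.one_le_exp (by positivity)
  refine ⟨(Finset.range (N + 1)).biUnion E, ?_, ?_⟩
  · have hB0 : 0 ≤ C * Real.exp (ε * κ) * (H ^ (1 / 3 : ℝ) * Real.exp (-(κ / 4))) := by positivity
    calc (((Finset.range (N + 1)).biUnion E).card : ℝ)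
        ≤ ((∑ j ∈ Finset.range (N + 1), (E j).card : ℕ) : ℝ) := by
          exact_mod_cast Finset.card_biUnion_le
      _ = ∑ j ∈ Finset.range (N + 1), ((E j).card : ℝ) := by push_cast; rfl
      _ ≤ ∑ j ∈ Finset.range (N + 1),
          C * Real.exp (ε * κ) * (H ^ (1 / 3 : ℝ) * Real.exp (-(κ / 4))) :=
          Finset.sum_le_sum fun j _ => hE j
      _ = ((N + 1 : ℕ) : ℝ) * (C * Real.exp (ε * κ) * (H ^ (1 / 3 : ℝ) * Real.exp (-(κ / 4)))) := by
          rw [Finset.sum_const, Finset.card_range, nsmul_eq_mul]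
      _ ≤ ((C₁ + 1) * Real.exp (κ / 72)) *
          (C * Real.exp (ε * κ) * (H ^ (1 / 3 : ℝ) * Real.exp (-(κ / 4)))) := by
          refine mul_le_mul_of_nonneg_right ?_ hB0
          push_cast
          have h3 : (N : ℝ) ≤ C₁ * Real.exp (κ / 72) := Nat.floor_le (by positivity)
          nlinarith
      _ = (C₁ + 1) * C * (Real.exp (ε * κ) * (H ^ (1 / 3 : ℝ) *
          (Real.exp (κ / 72) * Real.exp (-(κ / 4))))) := by ring
      _ ≤ (C₁ + 1) * C * (Real.exp (ε * κ) * (H ^ (1 / 3 : ℝ) * Real.exp (-(κ / 8)))) := by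
          gcongr
          rw [← Real.exp_add]
          apply Real.exp_le_exp.mpr
          linarith
      _ = ((C₁ + 1) * C) * 1 * 1 * Real.exp (ε * κ) * (H ^ (1 / 3 : ℝ) * Real.exp (-(κ / 8))) := by
          ring
      _ ≤ ((C₁ + 1) * C + C + L) * (nm d₁ : ℝ) ^ ε * (1 + |t₁|) ^ A * Real.exp (ε * κ) *
          (H ^ (1 / 3 : ℝ) * Real.exp (-(κ / 8))) := by
          gcongr
          linarith
  · intro k hk hnp hkE u hu0 hu1
    set j : ℕ := ⌊u * Real.exp (κ / 72)⌋₊ with hj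
    have hjN : j ≤ N := by
      apply Nat.floor_le_floor
      gcongr
    have hkj : k ∉ E j := fun h => hkE (Finset.mem_biUnion.mpr
      ⟨j, Finset.mem_range.mpr (by omega), h⟩)
    have h3 := hEb j k hk hnp hkj
    have hj1 : (j : ℝ) ≤ u * Real.exp (κ / 72) := Nat.floor_le (by positivity)
    have hj2 : u * Real.exp (κ / 72) < j + 1 := Nat.lt_floor_add_one _
    have he : Real.exp (κ / 72) * Real.exp (-(κ / 72)) = 1 := by
      rw [← Real.exp_add]; simp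
    have hep : 0 < Real.exp (-(κ / 72)) := Real.exp_pos _
    have ha1 : (j : ℝ) * Real.exp (-(κ / 72)) ≤ u := by
      calc (j : ℝ) * Real.exp (-(κ / 72)) ≤ (u * Real.exp (κ / 72)) * Real.exp (-(κ / 72)) := by
            gcongr
        _ = u := by rw [mul_assoc, he, mul_one]
    have ha2 : u - j * Real.exp (-(κ / 72)) ≤ Real.exp (-(κ / 72)) := by
      have : (u * Real.exp (κ / 72)) * Real.exp (-(κ / 72)) ≤ (j + 1) * Real.exp (-(κ / 72)) := by
        gcongr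
      rw [mul_assoc, he, mul_one] at this
      linarith
    have hfb : ∀ c, IsPrim c → ‖twt P.φ P.l₁ t₁ c * prin0 d₁ c * conj (sy k c)‖ ≤ 1 := by
      intro c hc
      rw [norm_mul, norm_mul, RCLike.norm_conj]
      have a1 := norm_twt_le hc.ne_zero (hP.φ.char.norm_le hc) P.l₁ t₁
      have a2 : ‖prin0 d₁ c‖ ≤ 1 := (isChar_prin0 d₁).norm_le hc
      have a3 : ‖sy k c‖ ≤ 1 := Char766.norm_sy_le hc
      calc _ ≤ (1 : ℝ) * 1 * 1 := by gcongr
        _ = 1 := by norm_num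
    have h4 := hlip (fun c => twt P.φ P.l₁ t₁ c * prin0 d₁ c * conj (sy k c)) hfb κ
      (κ - u) (κ - j * Real.exp (-(κ / 72))) (by linarith) (by
        have : (0 : ℝ) ≤ j * Real.exp (-(κ / 72)) := by positivity
        linarith)
    have e5 : |κ - u - (κ - j * Real.exp (-(κ / 72)))| ≤ Real.exp (-(κ / 72)) := by
      rw [abs_le]
      constructor <;> linarith
    have h6 : L * (|κ - u - (κ - j * Real.exp (-(κ / 72)))| * Real.exp κ) ≤
        L * Real.exp ((1 - 1 / 72) * κ) := by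
      have : Real.exp ((1 - 1 / 72) * κ) = Real.exp (-(κ / 72)) * Real.exp κ := by
        rw [← Real.exp_add]; congr 1; ring
      rw [this]
      gcongr
    calc _ ≤ _ := h4
      _ ≤ C * (nm d₁ : ℝ) ^ ε * (1 + |t₁|) ^ A * Real.exp ((1 - 1 / 72) * κ) +
          L * Real.exp ((1 - 1 / 72) * κ) := add_le_add h3 h6
      _ ≤ C * (nm d₁ : ℝ) ^ ε * (1 + |t₁|) ^ A * Real.exp ((1 - 1 / 72) * κ) +
          L * ((nm d₁ : ℝ) ^ ε * (1 + |t₁|) ^ A) * Real.exp ((1 - 1 / 72) * κ) := by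
          gcongr
          have : (1 : ℝ) ≤ (nm d₁ : ℝ) ^ ε * (1 + |t₁|) ^ A := one_le_mul_of_one_le_of_one_le hnd ht
          nlinarith
      _ = (C + L) * (nm d₁ : ℝ) ^ ε * (1 + |t₁|) ^ A * Real.exp ((1 - 1 / 72) * κ) := by ring
      _ ≤ _ := by
          gcongr
          have : 0 ≤ (C₁ + 1) * C := by positivity
          linarith

end Crest.Agent.R017.FY61
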