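import Crest.Agent.R017.One_FYa_579
import Crest.Agent.R017.One_FY_61

/-!
# Row 17, θ = 1: `FYcount` (helper579, helper61)
-/

set_option autoImplicit false

namespace Crest.Agent.R017.One579

theorem countOne : FY61.CountOne := fun _ hh l _ _ hφ _ _ hε hM => count_one hh l hφ hε hM

theorem fycount : One319.FYcount := FY61.fycount_of_one countOne

end Crest.Agent.R017.One579
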