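import Crest.Agent.R017.CM1_106

/-!
# Row 17, sections C/D: products and powers of character sums (helper744)

For sequences `α β : Eis → ℂ` in 106's class `FS` (finite support on primary elements):
* `mulS α β` : Dirichlet convolution, `CS_mulS : CS (mulS α β) k = CS α k * CS β k` for all `k`
* `powS α M` : convolution power, `CS_powS`
* `Cf r X α` : `FS α`, support in `nm n ≤ X`, `‖α n‖ ≤ τ(n)^r`; stable under `mulS`, `powS`,
  multiplication by bounded functions and `sub`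
* `Cf.l2` : `∑' ‖α n‖² ≤ C X^{1+ε}`
-/

set_option autoImplicit false

noncomputable section

open Complex
open scoped ComplexConjugate

namespace Crest.Agent.R017.LBp744

open Crest.Agent.R012 Crest.Agent.R012.Eis Crest.Agent.R012.LS2 Crest.Agent.R012.Gauss880
open Crest.Agent.R012.Div277
open Crest.Agent.R017.CM106

/-- Dirichlet convolution on primary elements -/
def mulS (α β : Eis → ℂ) (n : Eis) : ℂ := ∑ d ∈ dvs n, α d * β (n / d)

lemma mulS_eq {α β : Eis → ℂ} (hα : FS α) (hβ : FS β) (n : Eis) :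
    mulS α β n = ∑ x ∈ (hα.fin.toFinset ×ˢ hβ.fin.toFinset), (open Classical in
      if x.1 * x.2 = n then α x.1 * β x.2 else 0) := by
  classical
  rw [← Finset.sum_filter]
  unfold mulS
  symm
  refine Finset.sum_bij_ne_zero (fun x _ _ => x.1) ?_ ?_ ?_ ?_
  · intro x hx _
    obtain ⟨h1, h2⟩ := Finset.mem_filter.mp hx
    obtain ⟨h3, h4⟩ := Finset.mem_product.mp h1
    have p1 := hα.prim _ (hα.fin.mem_toFinset.mp h3)
    have p2 := hβ.prim _ (hβ.fin.mem_toFinset.mp h4)
    rw [mem_dvs (by rw [← h2]; exact mul_ne_zero p1.ne_zero p2.ne_zero)]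
    exact ⟨p1, ⟨x.2, h2.symm⟩⟩
  · intro x hx _ y hy _ hxy
    obtain ⟨h1, h2⟩ := Finset.mem_filter.mp hx
    obtain ⟨h3, h4⟩ := Finset.mem_filter.mp hy
    obtain ⟨h5, _⟩ := Finset.mem_product.mp h1
    have p1 := (hα.prim _ (hα.fin.mem_toFinset.mp h5)).ne_zero
    have hxy' : x.1 = y.1 := hxy
    refine Prod.ext hxy' ?_
    apply mul_left_cancel₀ p1
    rw [h2, hxy', h4]
  · intro d hd hne
    have hα0 : α d ≠ 0 := left_ne_zero_of_mul hne
    have hβ0 : β (n / d) ≠ 0 := right_ne_zero_of_mul hne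
    have hdn := dvd_of_mem_dvs hd
    have hp := (hα.prim _ hα0).ne_zero
    have e1 : d * (n / d) = n := EuclideanDomain.mul_div_cancel' hp hdn
    refine ⟨(d, n / d), Finset.mem_filter.mpr ⟨Finset.mem_product.mpr
      ⟨hα.fin.mem_toFinset.mpr hα0, hβ.fin.mem_toFinset.mpr hβ0⟩, e1⟩, ?_, rfl⟩
    exact hne
  · intro x hx _
    obtain ⟨h1, h2⟩ := Finset.mem_filter.mp hx
    obtain ⟨h3, h4⟩ := Finset.mem_product.mp h1
    have p1 := (hα.prim _ (hα.fin.mem_toFinset.mp h3)).ne_zero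
    rw [← h2, mul_div_cancel_left₀ _ p1]

lemma exists_of_mulS_ne {α β : Eis → ℂ} {n : Eis} (h : mulS α β n ≠ 0) :
    ∃ d e, d * e = n ∧ IsPrim d ∧ α d ≠ 0 ∧ β e ≠ 0 := by
  unfold mulS at h
  obtain ⟨d, hd, hne⟩ := Finset.exists_ne_zero_of_sum_ne_zero h
  have hp := isPrim_of_mem_dvs hd
  exact ⟨d, n / d, EuclideanDomain.mul_div_cancel' hp.ne_zero (dvd_of_mem_dvs hd), hp,
    left_ne_zero_of_mul hne, right_ne_zero_of_mul hne⟩

lemma FS.mulS {α β : Eis → ℂ} (hα : FS α) (hβ : FS β) : FS (mulS α β) where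
  fin := by
    classical
    refine Set.Finite.subset
      ((hα.fin.toFinset ×ˢ hβ.fin.toFinset).image (fun x => x.1 * x.2)).finite_toSet ?_
    intro n hn
    obtain ⟨d, e, h1, _, h3, h4⟩ := exists_of_mulS_ne hn
    rw [Finset.mem_coe, Finset.mem_image]
    exact ⟨(d, e), Finset.mem_product.mpr
      ⟨hα.fin.mem_toFinset.mpr h3, hβ.fin.mem_toFinset.mpr h4⟩, h1⟩
  prim := fun n hn => by
    obtain ⟨d, e, h1, _, h3, h4⟩ := exists_of_mulS_ne hn
    rw [← h1]
    exact (hα.prim _ h3).mul (hβ.prim _ h4)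

lemma tsum_FS {α : Eis → ℂ} (hα : FS α) (f : Eis → ℂ) :
    ∑' m : Eis, α m * f m = ∑ m ∈ hα.fin.toFinset, α m * f m := by
  refine tsum_eq_sum fun m hm => ?_
  have h0 : α m = 0 := by
    by_contra h
    exact hm (hα.fin.mem_toFinset.mpr h)
  rw [h0, zero_mul]

/-- **products of character sums** -/
theorem CS_mulS {α β : Eis → ℂ} (hα : FS α) (hβ : FS β) (k : Eis) :
    CS (mulS α β) k = CS α k * CS β k := by
  classical
  have e1 : CS (mulS α β) k = ∑' n : Eis, ∑ x ∈ (hα.fin.toFinset ×ˢ hβ.fin.toFinset),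
      (if x.1 * x.2 = n then α x.1 * β x.2 * sy k n else 0) := by
    unfold CS
    refine tsum_congr fun n => ?_
    rw [mulS_eq hα hβ, Finset.sum_mul]
    refine Finset.sum_congr rfl fun x _ => ?_
    by_cases h : x.1 * x.2 = n
    · rw [if_pos h, if_pos h]
    · rw [if_neg h, if_neg h, zero_mul]
  rw [e1, Summable.tsum_finsetSum]
  · unfold CS
    rw [tsum_FS hα, tsum_FS hβ, Finset.sum_mul_sum, ← Finset.sum_product']
    refine Finset.sum_congr rfl fun x hx => ?_
    obtain ⟨h3, h4⟩ := Finset.mem_product.mp hx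
    have p1 := hα.prim _ (hα.fin.mem_toFinset.mp h3)
    have p2 := hβ.prim _ (hβ.fin.mem_toFinset.mp h4)
    rw [tsum_eq_single (x.1 * x.2)]
    · rw [if_pos rfl, Sym645.sy_mul_right k p1.ne_zero p2.ne_zero]; ring
    · intro n hn
      rw [if_neg (fun h => hn h.symm)]
  · intro x _
    refine summable_of_hasFiniteSupport (Set.Finite.subset (Set.finite_singleton (x.1 * x.2)) ?_)
    intro n hn
    by_contra h
    apply hn
    show (if x.1 * x.2 = n then α x.1 * β x.2 * sy k n else 0) = 0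
    rw [if_neg (fun h' => h (by rw [Set.mem_singleton_iff, h']))]

open Classical in
/-- the unit of the convolution -/
def oneS (n : Eis) : ℂ := if n = 1 then 1 else 0

lemma FS.oneS : FS oneS where
  fin := by
    refine Set.Finite.subset (Set.finite_singleton (1 : Eis)) fun n hn => ?_
    by_contra h
    apply hn
    unfold LBp744.oneS
    rw [if_neg (by simpa using h)]
  prim := fun n hn => by
    unfold LBp744.oneS at hn
    by_cases h : n = 1
    · rw [h]; exact isPrim_one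
    · rw [if_neg h] at hn; exact absurd rfl hn

lemma CS_oneS (k : Eis) : CS oneS k = 1 := by
  unfold CS
  rw [tsum_eq_single (1 : Eis)]
  · unfold oneS
    rw [if_pos rfl, Sym645.sy_one_right, mul_one]
  · intro n hn
    unfold oneS
    rw [if_neg hn, zero_mul]

/-- convolution powers -/
def powS (α : Eis → ℂ) : ℕ → (Eis → ℂ)
  | 0 => oneS
  | M + 1 => mulS α (powS α M)

lemma FS.powS {α : Eis → ℂ} (hα : FS α) (M : ℕ) : FS (powS α M) := by
  induction M with
  | zero => exact FS.oneS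
  | succ M ih => exact FS.mulS hα ih

theorem CS_powS {α : Eis → ℂ} (hα : FS α) (M : ℕ) (k : Eis) :
    CS (powS α M) k = CS α k ^ M := by
  induction M with
  | zero => rw [pow_zero]; exact CS_oneS k
  | succ M ih =>
    show CS (mulS α (powS α M)) k = _
    rw [CS_mulS hα (FS.powS hα M), ih, pow_succ']

/-! ### coefficient classes -/

/-- sequences on primary `n`, `nm n ≤ X`, bounded by a power of the divisor function -/
structure Cf (r : ℕ) (X : ℝ) (α : Eis → ℂ) : Prop where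
  fs : FS α
  le : ∀ n, α n ≠ 0 → (nm n : ℝ) ≤ X
  bd : ∀ n, ‖α n‖ ≤ (tau n : ℝ) ^ r

lemma Cf.mono {r s : ℕ} {X Y : ℝ} {α : Eis → ℂ} (h : Cf r X α) (hrs : r ≤ s) (hXY : X ≤ Y) :
    Cf s Y α where
  fs := h.fs
  le := fun n hn => (h.le n hn).trans hXY
  bd := fun n => by
    by_cases hn : α n = 0
    · rw [hn, norm_zero]; positivity
    · have hn0 : n ≠ 0 := (h.fs.prim n hn).ne_zero
      have h1 : (1 : ℝ) ≤ tau n := by exact_mod_cast one_le_tau hn0
      exact (h.bd n).trans (pow_le_pow_right₀ h1 hrs)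

lemma Cf.mulf {r : ℕ} {X : ℝ} {α : Eis → ℂ} (h : Cf r X α) {f : Eis → ℂ}
    (hf : ∀ n, ‖f n‖ ≤ 1) : Cf r X (fun n => α n * f n) where
  fs :=
    { fin := h.fs.fin.subset fun n hn h0 => hn (by
        show α n * f n = 0
        rw [h0, zero_mul])
      prim := fun n hn => h.fs.prim n (left_ne_zero_of_mul hn) }
  le := fun n hn => h.le n (left_ne_zero_of_mul hn)
  bd := fun n => by
    rw [norm_mul]
    calc ‖α n‖ * ‖f n‖ ≤ ‖α n‖ * 1 := mul_le_mul_of_nonneg_left (hf n) (norm_nonneg _)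
      _ ≤ _ := by rw [mul_one]; exact h.bd n

lemma Cf.oneS : Cf 0 1 oneS where
  fs := FS.oneS
  le := fun n hn => by
    unfold LBp744.oneS at hn
    by_cases h : n = 1
    · rw [h]; simp
    · rw [if_neg h] at hn; exact absurd rfl hn
  bd := fun n => by
    unfold LBp744.oneS
    split_ifs <;> simp

/-- **convolution of coefficient classes** -/
theorem Cf.mulS {r s : ℕ} {X Y : ℝ} {α β : Eis → ℂ} (hα : Cf r X α) (hβ : Cf s Y β)
    (hX : 0 ≤ X) : Cf (r + s + 1) (X * Y) (mulS α β) where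
  fs := FS.mulS hα.fs hβ.fs
  le := fun n hn => by
    obtain ⟨d, e, h1, _, h3, h4⟩ := exists_of_mulS_ne hn
    rw [← h1, nm_mul]
    push_cast
    exact mul_le_mul (hα.le d h3) (hβ.le e h4) (Nat.cast_nonneg _) hX
  bd := fun n => by
    by_cases hn : n = 0
    · rw [hn]
      unfold LBp744.mulS
      simp
    unfold LBp744.mulS
    calc ‖∑ d ∈ dvs n, α d * β (n / d)‖ ≤ ∑ d ∈ dvs n, ‖α d * β (n / d)‖ := norm_sum_le _ _
      _ ≤ ∑ _d ∈ dvs n, (tau n : ℝ) ^ (r + s) := by
        refine Finset.sum_le_sum fun d hd => ?_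
        have hdn := dvd_of_mem_dvs hd
        have hp := (isPrim_of_mem_dvs hd).ne_zero
        have e1 : d * (n / d) = n := EuclideanDomain.mul_div_cancel' hp hdn
        have t1 : (tau d : ℝ) ≤ tau n := by exact_mod_cast tau_le_of_dvd hn hdn
        have t2 : (tau (n / d) : ℝ) ≤ tau n := by
          exact_mod_cast tau_le_of_dvd hn ⟨d, by rw [mul_comm]; exact e1.symm⟩
        rw [norm_mul, pow_add]
        exact mul_le_mul ((hα.bd d).trans (pow_le_pow_left₀ (Nat.cast_nonneg _) t1 _))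
          ((hβ.bd _).trans (pow_le_pow_left₀ (Nat.cast_nonneg _) t2 _)) (norm_nonneg _)
          (by positivity)
      _ = (tau n : ℝ) ^ (r + s + 1) := by
        rw [Finset.sum_const, nsmul_eq_mul, pow_succ]
        unfold tau
        ring

theorem Cf.powS {r : ℕ} {X : ℝ} {α : Eis → ℂ} (hα : Cf r X α) (hX : 0 ≤ X) (M : ℕ) :
    Cf (M * (r + 1)) (X ^ M) (powS α M) := by
  induction M with
  | zero =>
    rw [zero_mul, pow_zero]
    exact Cf.oneS
  | succ M ih =>
    have h := Cf.mulS hα ih hX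
    have e1 : r + M * (r + 1) + 1 = (M + 1) * (r + 1) := by ring
    rw [e1, ← pow_succ'] at h
    exact h

/-- **second moment of the coefficients** -/
theorem l2_bound (r : ℕ) {ε : ℝ} (hε : 0 < ε) : ∃ C : ℝ, 1 ≤ C ∧ ∀ (X : ℝ) (α : Eis → ℂ),
    0 ≤ X → Cf r X α → ∑' n : Eis, ‖α n‖ ^ 2 ≤ C * X ^ (1 + ε) := by
  obtain ⟨C, hC1, hC⟩ := tau_le_rpow (ε := ε / (2 * r + 1)) (by positivity)
  have hC0 : 0 < C := by linarith
  refine ⟨100 * C ^ (2 * r), ?_, fun X α hX hα => ?_⟩
  · have : (1 : ℝ) ≤ C ^ (2 * r) := one_le_pow₀ hC1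
    linarith
  have e1 : ∑' n : Eis, ‖α n‖ ^ 2 = ∑ n ∈ nz ⌊X⌋₊, ‖α n‖ ^ 2 := by
    refine tsum_eq_sum fun n hn => ?_
    have h0 : α n = 0 := by
      by_contra h
      refine hn (mem_nz.mpr ⟨(hα.fs.prim n h).ne_zero, ?_⟩)
      exact Nat.le_floor (hα.le n h)
    rw [h0]; simp
  rw [e1]
  calc ∑ n ∈ nz ⌊X⌋₊, ‖α n‖ ^ 2 ≤ ∑ _n ∈ nz ⌊X⌋₊, C ^ (2 * r) * X ^ ε := by
        refine Finset.sum_le_sum fun n hn => ?_
        obtain ⟨hn0, hnX⟩ := mem_nz.mp hn
        have hnX' : (nm n : ℝ) ≤ X := (Nat.cast_le.mpr hnX).trans (Nat.floor_le hX)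
        have hn1 : (1 : ℝ) ≤ nm n := by exact_mod_cast nm_pos.mpr hn0
        have hX1 : 1 ≤ X := hn1.trans hnX'
        have h2 : ‖α n‖ ^ 2 ≤ ((tau n : ℝ)) ^ (2 * r) := by
          calc ‖α n‖ ^ 2 ≤ ((tau n : ℝ) ^ r) ^ 2 := pow_le_pow_left₀ (norm_nonneg _) (hα.bd n) 2
            _ = _ := by rw [← pow_mul, mul_comm]
        refine h2.trans ?_
        calc (tau n : ℝ) ^ (2 * r) ≤ (C * (nm n : ℝ) ^ (ε / (2 * r + 1))) ^ (2 * r) :=
              pow_le_pow_left₀ (Nat.cast_nonneg _) (hC n hn0) _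
          _ = C ^ (2 * r) * ((nm n : ℝ) ^ (ε / (2 * r + 1))) ^ (2 * r) := mul_pow _ _ _
          _ ≤ C ^ (2 * r) * X ^ ε := by
            refine mul_le_mul_of_nonneg_left ?_ (by positivity)
            rw [← Real.rpow_natCast, ← Real.rpow_mul (by positivity)]
            calc (nm n : ℝ) ^ (ε / (2 * r + 1) * ((2 * r : ℕ) : ℝ)) ≤ (nm n : ℝ) ^ ε := by
                  refine Real.rpow_le_rpow_of_exponent_le hn1 ?_
                  push_cast
                  rw [div_mul_eq_mul_div, div_le_iff₀ (by positivity)]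
                  nlinarith [hε]
              _ ≤ X ^ ε := Real.rpow_le_rpow (by positivity) hnX' hε.le
    _ = (nz ⌊X⌋₊).card * (C ^ (2 * r) * X ^ ε) := by rw [Finset.sum_const, nsmul_eq_mul]
    _ ≤ (100 * X) * (C ^ (2 * r) * X ^ ε) := by
        refine mul_le_mul_of_nonneg_right ?_ (by positivity)
        refine (card_nz_le _).trans ?_
        have := Nat.floor_le hX
        linarith
    _ = 100 * C ^ (2 * r) * (X * X ^ ε) := by ring
    _ ≤ 100 * C ^ (2 * r) * X ^ (1 + ε) := by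
        refine mul_le_mul_of_nonneg_left (le_of_eq ?_) (by positivity)
        rcases hX.eq_or_lt with h | h
        · rw [← h, zero_mul, Real.zero_rpow (by positivity)]
        · rw [Real.rpow_add h, Real.rpow_one]

end Crest.Agent.R017.LBp744
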