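import Crest.Agent.R017.PA2_842

/-!
# Row 17, rule (P): the one-step inequality and its iteration

* `sub w g = fun k => w (g * k)`, `Supp w X`
* `one_step` : Poisson only for the pairs with gcd `≤ Y`; the other pairs are bounded by the forms
  of the SHORTER sequences `sub w g`, `nm g > Y`, without any twist.
-/

set_option autoImplicit false

noncomputable section

open MeasureTheory Finset
open scoped ComplexConjugate

namespace Crest.Agent.R017.PA842

open Crest.Agent.R012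
open Eis CharSum852 Gauss880 Tau671 Mob705 LS2 CR2 DualIneq811 MelSep811
open Div277 (tau dvs mem_dvs tau_le_rpow)

/-- `w` is supported on `S X` -/
def Supp (w : Eis → ℂ) (X : ℝ) : Prop := ∀ h, w h ≠ 0 → h ∈ S X

/-- the subsequence of the multiples of `g` -/
def sub (w : Eis → ℂ) (g : Eis) : Eis → ℂ := fun k => w (g * k)

lemma sub_sub (w : Eis → ℂ) (a b : Eis) : sub (sub w a) b = sub w (a * b) := by
  funext k; unfold sub; rw [mul_assoc]

lemma S_empty {X : ℝ} (hX0 : 0 ≤ X) (hX : X < 1) : S X = ∅ := by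
  ext h
  rw [mem_S hX0]
  constructor
  · intro hh
    have : (1 : ℝ) ≤ nm h := by exact_mod_cast nm_pos.2 hh.2.1.ne_zero
    linarith [hh.1]
  · intro hh; simp at hh

lemma supp_sub {w : Eis → ℂ} {X : ℝ} (hX : 0 ≤ X) (hw : Supp w X) {g : Eis} (hg : IsPrim g) :
    Supp (sub w g) (X / nm g) := by
  intro k hk
  have h1 := (mem_S hX).1 (hw _ hk)
  have hn : (0 : ℝ) < nm g := by exact_mod_cast nm_pos.2 hg.ne_zero
  rw [mem_S (by positivity)]
  have hkp : IsPrim k := IsPrim.of_mul_left h1.2.1 hg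
  refine ⟨?_, hkp, h1.2.2.squarefree_of_dvd (dvd_mul_left _ _)⟩
  rw [le_div_iff₀ hn]
  have := h1.1
  rw [nm_mul] at this
  push_cast at this
  linarith

lemma V_of_lt_one {X Z : ℝ} (hX0 : 0 ≤ X) (hX : X < 1) (w : Eis → ℂ) : V X Z w = 0 := by
  unfold V
  rw [S_empty hX0 hX]
  simp

/-- sums over multiples of `g` -/
lemma sum_restr {X : ℝ} (hX : 0 ≤ X) {w : Eis → ℂ} (hw : Supp w X) {g : Eis} (hg : IsPrim g)
    (n : Eis) :
    ∑ h ∈ S X, restr w g h * sy n h = sy n g * ∑ k ∈ S (X / nm g), sub w g k * sy n k := by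
  classical
  have hn : (0 : ℝ) < nm g := by exact_mod_cast nm_pos.2 hg.ne_zero
  have hn1 : (1 : ℝ) ≤ nm g := by exact_mod_cast nm_pos.2 hg.ne_zero
  have hX' : 0 ≤ X / nm g := by positivity
  rw [Finset.mul_sum]
  have h1 : ∑ h ∈ S X, restr w g h * sy n h =
      ∑ h ∈ ((S (X / nm g)).filter (fun k => g * k ∈ S X)).image (fun k => g * k),
        restr w g h * sy n h := by
    symm
    apply Finset.sum_subset
    · intro h hh
      rw [Finset.mem_image] at hh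
      obtain ⟨k, hk, rfl⟩ := hh
      exact (Finset.mem_filter.1 hk).2
    · intro h hh hne
      unfold restr
      by_cases hd : g ∣ h
      · rw [if_pos hd]
        obtain ⟨k, rfl⟩ := hd
        by_cases h0 : w (g * k) = 0
        · rw [h0, zero_mul]
        · exfalso
          apply hne
          rw [Finset.mem_image]
          refine ⟨k, ?_, rfl⟩
          rw [Finset.mem_filter]
          exact ⟨supp_sub hX hw hg k h0, hh⟩
      · rw [if_neg hd, zero_mul]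
  rw [h1, Finset.sum_image (fun a _ b _ hab => mul_left_cancel₀ hg.ne_zero hab), Finset.sum_filter]
  refine Finset.sum_congr rfl fun k hk => ?_
  have hk' := (mem_S hX').1 hk
  by_cases h2 : g * k ∈ S X
  · rw [if_pos h2]
    unfold restr sub
    rw [if_pos (dvd_mul_right _ _), Sym645.syFacts.mul_right _ _ _ hg hk'.2.1]
    ring
  · rw [if_neg h2]
    unfold sub
    have : w (g * k) = 0 := by
      by_contra h0
      exact h2 (hw _ h0)
    rw [this]
    ring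

lemma summable_V {X Z : ℝ} (hX : 0 ≤ X) (hZ : 0 < Z) (w : Eis → ℂ) :
    Summable fun n : Eis => Real.exp (-(nm n : ℝ) / Z) * ‖∑ h ∈ S X, w h * sy n h‖ ^ 2 :=
  summable_lhs Sym645.syFacts hX hZ w

/-- the multiples of `g` : the twist by `sy n g` is dropped by positivity -/
theorem V_restr_le {X Z : ℝ} (hX : 0 ≤ X) (hZ : 0 < Z) {w : Eis → ℂ} (hw : Supp w X) {g : Eis}
    (hg : IsPrim g) : V X Z (restr w g) ≤ V (X / nm g) Z (sub w g) := by
  have hn : (0 : ℝ) < nm g := by exact_mod_cast nm_pos.2 hg.ne_zero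
  unfold V
  refine (summable_V hX hZ _).tsum_le_tsum (fun n => ?_) (summable_V (by positivity) hZ _)
  refine mul_le_mul_of_nonneg_left ?_ (Real.exp_pos _).le
  rw [sum_restr hX hw hg, norm_mul]
  apply pow_le_pow_left₀ (by positivity)
  exact mul_le_of_le_one_left (norm_nonneg _) (Tau671.norm_sy_le hg)

open Classical in
/-- reindexing `(d, f) ↦ d f` -/
lemma sum_pairs_le {X Y : ℝ} (hX : 0 ≤ X) (F : Eis → ℝ) (hF : ∀ g, 0 ≤ F g) :
    ∑ d ∈ (S X).filter (fun d => Y < (nm d : ℝ)),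
      ∑ f ∈ (S X).filter (fun f => d * f ∈ S X), F (d * f) ≤
    ∑ g ∈ (S X).filter (fun g => Y < (nm g : ℝ)), (tau g : ℝ) * F g := by
  rw [Finset.sum_sigma']
  set A := ((S X).filter (fun d => Y < (nm d : ℝ))).sigma
    (fun d => (S X).filter (fun f => d * f ∈ S X)) with hA
  set Gs := (S X).filter (fun g => Y < (nm g : ℝ)) with hG
  have hmaps : ∀ x ∈ A, x.1 * x.2 ∈ Gs := by
    intro x hx
    rw [hA, Finset.mem_sigma, Finset.mem_filter, Finset.mem_filter] at hx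
    rw [hG, Finset.mem_filter]
    refine ⟨hx.2.2, lt_of_lt_of_le hx.1.2 ?_⟩
    have := ((mem_S hX).1 hx.2.2).2.1.ne_zero
    exact_mod_cast Div277.nm_le_of_dvd this (dvd_mul_right _ _)
  rw [← Finset.sum_fiberwise_of_maps_to hmaps]
  refine Finset.sum_le_sum fun g hg => ?_
  have hg' : g ≠ 0 := by
    rw [hG, Finset.mem_filter] at hg
    exact ((mem_S hX).1 hg.1).2.1.ne_zero
  have e1 : ∑ x ∈ A.filter (fun x => x.1 * x.2 = g), F (x.1 * x.2) =
      ((A.filter (fun x => x.1 * x.2 = g)).card : ℝ) * F g := by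
    rw [Finset.sum_congr rfl (g := fun _ => F g)]
    · rw [Finset.sum_const, nsmul_eq_mul]
    · intro x hx
      rw [(Finset.mem_filter.1 hx).2]
  rw [e1]
  refine mul_le_mul_of_nonneg_right ?_ (hF g)
  unfold tau
  norm_cast
  apply Finset.card_le_card_of_injOn (fun x => x.1)
  · intro x hx
    have hx' := Finset.mem_filter.1 (Finset.mem_coe.1 hx)
    have hx1 := hx'.1
    rw [hA, Finset.mem_sigma, Finset.mem_filter, Finset.mem_filter] at hx1
    rw [Finset.mem_coe, mem_dvs hg']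
    exact ⟨((mem_S hX).1 hx1.1.1).2.1, ⟨x.2, hx'.2.symm⟩⟩
  · intro x hx y hy hxy
    have hx' := Finset.mem_filter.1 (Finset.mem_coe.1 hx)
    have hy' := Finset.mem_filter.1 (Finset.mem_coe.1 hy)
    have hx1 := hx'.1
    rw [hA, Finset.mem_sigma, Finset.mem_filter, Finset.mem_filter] at hx1
    have hxy' : x.1 = y.1 := hxy
    have h0 : x.1 ≠ 0 := ((mem_S hX).1 hx1.1.1).2.1.ne_zero
    have h2 : x.2 = y.2 := by
      apply mul_left_cancel₀ h0
      rw [hx'.2, hxy', hy'.2]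
    exact Sigma.ext hxy' (heq_of_eq h2)

/-- the dual term -/
def DI (σ : ℝ) (w : Eis → ℂ) (X : ℝ) (g e f : Eis) (L : ℝ) : ℝ :=
  ∫ t : ℝ, (1 + t ^ 2)⁻¹ * ∑ l ∈ bl L, ‖dsum w X g e f l (σ + t * Complex.I)‖ ^ 2

lemma integrable_DI (σ : ℝ) {X : ℝ} (hX : 0 ≤ X) (w : Eis → ℂ) (g e f : Eis) (L : ℝ) :
    Integrable (fun t : ℝ => (1 + t ^ 2)⁻¹ *
      ∑ l ∈ bl L, ‖dsum w X g e f l (σ + t * Complex.I)‖ ^ 2) := by
  have : (fun t : ℝ => (1 + t ^ 2)⁻¹ *
      ∑ l ∈ bl L, ‖dsum w X g e f l (σ + t * Complex.I)‖ ^ 2) =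
      fun t : ℝ => ∑ l ∈ bl L, (1 + t ^ 2)⁻¹ * ‖dsum w X g e f l (σ + t * Complex.I)‖ ^ 2 := by
    funext t; rw [Finset.mul_sum]
  rw [this]
  exact integrable_finsetSum _ fun l _ => integrable_dsum hX w g e f l σ

lemma DI_nonneg (σ : ℝ) (w : Eis → ℂ) (X : ℝ) (g e f : Eis) (L : ℝ) : 0 ≤ DI σ w X g e f L :=
  integral_nonneg fun t => by positivity

lemma DI_mono (σ : ℝ) {X : ℝ} (hX : 0 ≤ X) (w : Eis → ℂ) (g e f : Eis) {L L' : ℝ}
    (hL0 : 0 ≤ L) (hL : L ≤ L') : DI σ w X g e f L ≤ DI σ w X g e f L' := by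
  unfold DI
  refine integral_mono (integrable_DI σ hX w g e f L) (integrable_DI σ hX w g e f L')
    (fun t => ?_)
  refine mul_le_mul_of_nonneg_left ?_ (by positivity)
  refine Finset.sum_le_sum_of_subset_of_nonneg ?_ (fun _ _ _ => by positivity)
  intro l hl
  rw [mem_bl hL0] at hl
  rw [mem_bl (by linarith)]
  exact ⟨hl.1, hl.2.trans hL⟩

lemma Lde_nonneg {X Z : ℝ} (hX : 0 ≤ X) (hZ : 0 ≤ Z) (ε : ℝ) (d e : Eis) : 0 ≤ Lde X Z ε d e := by
  unfold Lde; positivity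

lemma aux_term {Z ne nf cg B Xs I1 I2 : ℝ} (hZ : 0 ≤ Z) (hne : 1 ≤ ne) (hnf : 0 < nf)
    (hcg : 0 ≤ cg) (hB0 : 0 ≤ B) (hB : B ≤ Xs) (hI0 : 0 ≤ I1) (hI : I1 ≤ I2) :
    2 * Real.pi * Z / (Real.sqrt 3 * ne) * (cg * (nf⁻¹ * B) * I1) ≤
      2 * Real.pi / Real.sqrt 3 * cg * Xs * (Z / nf * I2) := by
  have h3 : 0 < Real.sqrt 3 := by positivity
  have hπ := Real.pi_pos
  have e1 : 2 * Real.pi * Z / (Real.sqrt 3 * ne) ≤ 2 * Real.pi * Z / Real.sqrt 3 := by
    apply div_le_div_of_nonneg_left (by positivity) h3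
    nlinarith
  have e2 : B * I1 ≤ Xs * I2 := mul_le_mul hB hI hI0 (hB0.trans hB)
  have e3 : 0 ≤ cg * nf⁻¹ := by positivity
  calc 2 * Real.pi * Z / (Real.sqrt 3 * ne) * (cg * (nf⁻¹ * B) * I1)
      = 2 * Real.pi * Z / (Real.sqrt 3 * ne) * ((cg * nf⁻¹) * (B * I1)) := by ring
    _ ≤ 2 * Real.pi * Z / Real.sqrt 3 * ((cg * nf⁻¹) * (Xs * I2)) := by
        refine mul_le_mul e1 (mul_le_mul_of_nonneg_left e2 e3) ?_ (by positivity)
        exact mul_nonneg e3 (mul_nonneg hB0 hI0)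
    _ = _ := by ring

lemma aux_final {κ Ct cg Z W Xs DD SA SB VV v : ℝ} (hκ : 0 < κ) (hCt : 0 ≤ Ct) (hcg : 0 ≤ cg)
    (hZ : 0 ≤ Z) (hW : 0 ≤ W) (hXs : 0 ≤ Xs) (hD : 0 ≤ DD) (h1 : v ≤ SA + SB)
    (h2 : SA ≤ κ * Z * W + Ct * Z * W + κ * cg * Xs * DD) (h3 : SB ≤ VV) :
    v ≤ (1 + κ + Ct + κ * cg) * Z * W + (1 + κ + Ct + κ * cg) * Xs * DD + VV := by
  have a1 : 0 ≤ (1 + κ * cg) * (Z * W) := by
    have := mul_nonneg hκ.le hcg
    have := mul_nonneg hZ hW
    positivity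
  have a2 : 0 ≤ (1 + κ + Ct) * (Xs * DD) := by
    have := mul_nonneg hXs hD
    positivity
  nlinarith

open Classical in
/-- **the one-step inequality** -/
theorem one_step {σ ε : ℝ} (hσ : 0 < σ) (hσ1 : σ ≤ 1 / 2) (hε : 0 < ε) :
    ∃ C : ℝ, 1 ≤ C ∧ ∀ X Z Y : ℝ, 1 ≤ X → 1 ≤ Z → ∀ w : Eis → ℂ, Supp w X →
    V X Z w ≤ C * Z * ∑ h ∈ S X, ‖w h‖ ^ 2 +
      C * X ^ (3 * σ) * ∑ d ∈ (S X).filter (fun d => (nm d : ℝ) ≤ Y),
        ∑ e ∈ (S X).filter (· ∣ d), ∑ f ∈ S X, Z / nm f * DI σ w X d e f (Lde X Z ε d e) +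
      ∑ g ∈ (S X).filter (fun g => Y < (nm g : ℝ)), (tau g : ℝ) * V (X / nm g) Z (sub w g) := by
  obtain ⟨Ct, hCt, htail⟩ := tailLe ε hε
  have h3 : 0 < Real.sqrt 3 := by positivity
  have hπ := Real.pi_pos
  have hcs := csig_pos hσ
  set κ : ℝ := 2 * Real.pi / Real.sqrt 3 with hκ
  have hκ0 : 0 < κ := by positivity
  refine ⟨1 + κ + Ct + κ * csig σ, by nlinarith [mul_pos hκ0 hcs], ?_⟩
  intro X Z Y hX hZ w hw
  have hX0 : (0 : ℝ) ≤ X := by linarith
  have hZ0 : (0 : ℝ) < Z := by linarith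
  set A := (S X).filter (fun d => (nm d : ℝ) ≤ Y) with hA
  set B := (S X).filter (fun d => Y < (nm d : ℝ)) with hB
  set W := ∑ h ∈ S X, ‖w h‖ ^ 2 with hW
  have hW0 : 0 ≤ W := Finset.sum_nonneg fun _ _ => by positivity
  -- the decomposition
  have hsplit : V X Z w ≤ ∑ d ∈ A, ‖TD X Z w d‖ + ∑ d ∈ B, ‖TD X Z w d‖ := by
    have e1 := V_eq_sum_TD hX0 hZ0 w
    have e2 : V X Z w = ‖((V X Z w : ℝ) : ℂ)‖ := by
      rw [Complex.norm_real, Real.norm_of_nonneg (V_nonneg _ _ _)]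
    rw [e2, e1]
    refine (norm_sum_le _ _).trans ?_
    have e3 : ∑ d ∈ S X, ‖TD X Z w d‖ = ∑ d ∈ A, ‖TD X Z w d‖ + ∑ d ∈ B, ‖TD X Z w d‖ := by
      rw [← Finset.sum_filter_add_sum_filter_not (S X) (fun d => (nm d : ℝ) ≤ Y)]
      congr 1
      apply Finset.sum_congr _ fun _ _ => rfl
      rw [hB]
      apply Finset.filter_congr
      intro d _
      exact not_le
    rw [e3]
  -- large gcd
  have hBle : ∑ d ∈ B, ‖TD X Z w d‖ ≤ ∑ g ∈ B, (tau g : ℝ) * V (X / nm g) Z (sub w g) := by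
    have e1 : ∑ d ∈ B, ‖TD X Z w d‖ ≤ ∑ d ∈ B,
        ∑ f ∈ (S X).filter (fun f => d * f ∈ S X), V X Z (restr w (d * f)) :=
      Finset.sum_le_sum fun d hd => norm_TD_le_V hX0 hZ0 w (Finset.mem_filter.1 hd).1
    refine e1.trans ((sum_pairs_le (Y := Y) hX0 (fun g => V X Z (restr w g))
      (fun g => V_nonneg _ _ _)).trans ?_)
    refine Finset.sum_le_sum fun g hg => ?_
    refine mul_le_mul_of_nonneg_left ?_ (Nat.cast_nonneg _)
    exact V_restr_le hX0 hZ0 hw ((mem_S hX0).1 (Finset.mem_filter.1 hg).1).2.1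
  -- small gcd
  have hAle : ∑ d ∈ A, ‖TD X Z w d‖ ≤ κ * Z * W + Ct * Z * W + κ * csig σ * X ^ (3 * σ) *
      ∑ d ∈ A, ∑ e ∈ (S X).filter (· ∣ d), ∑ f ∈ S X, Z / nm f *
        DI σ w X d e f (Lde X Z ε d e) := by
    have e1 : ∑ d ∈ A, ‖TD X Z w d‖ ≤ ∑ d ∈ A, (κ * Z * ‖w d‖ ^ 2 +
        ∑ e ∈ pdiv d, ∑ f ∈ S X, 2 * Real.pi * Z / (Real.sqrt 3 * nm e) *
          ‖∑' l : Eis, if l = 0 then 0 else qf w X Z d e f l‖) := by
      refine Finset.sum_le_sum fun d hd => ?_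
      have := norm_TD_le_dual hX hZ0 w (Finset.mem_filter.1 hd).1
      have e : 2 * Real.pi * Z / Real.sqrt 3 = κ * Z := by rw [hκ]; ring
      rw [e] at this
      exact this
    refine e1.trans ?_
    rw [Finset.sum_add_distrib]
    have e2 : ∑ d ∈ A, κ * Z * ‖w d‖ ^ 2 ≤ κ * Z * W := by
      rw [← Finset.mul_sum]
      refine mul_le_mul_of_nonneg_left ?_ (mul_nonneg hκ0.le hZ0.le)
      exact Finset.sum_le_sum_of_subset_of_nonneg (Finset.filter_subset _ _)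
        (fun _ _ _ => sq_nonneg _)
    have e3 : ∑ d ∈ A, ∑ e ∈ pdiv d, ∑ f ∈ S X, 2 * Real.pi * Z / (Real.sqrt 3 * nm e) *
          ‖∑' l : Eis, if l = 0 then 0 else qf w X Z d e f l‖ ≤
        κ * csig σ * X ^ (3 * σ) *
        (∑ d ∈ A, ∑ e ∈ (S X).filter (· ∣ d), ∑ f ∈ S X, Z / nm f *
          DI σ w X d e f (Lde X Z ε d e)) + Ct * Z * W := by
      have f1 : ∀ d ∈ A, ∀ e ∈ pdiv d, ∀ f ∈ S X, 2 * Real.pi * Z / (Real.sqrt 3 * nm e) *
          ‖∑' l : Eis, if l = 0 then 0 else qf w X Z d e f l‖ ≤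
          κ * csig σ * X ^ (3 * σ) * (Z / nm f * DI σ w X d e f (Lde X Z ε d e)) +
          2 * Real.pi * Z / (Real.sqrt 3 * nm e) *
          ‖∑' l : Eis, (if l = 0 ∨ (nm l : ℝ) ≤ Lde X Z ε d e then 0 else qf w X Z d e f l)‖ := by
        intro d hd e he f hf
        have hd' := (mem_S hX0).1 (Finset.mem_filter.1 hd).1
        have he' := (mem_pdiv hd'.2.1.ne_zero).1 he
        have hf' := (mem_S hX0).1 hf
        have ne1 : (1 : ℝ) ≤ nm e := by exact_mod_cast nm_pos.2 he'.1.ne_zero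
        have nf1 : (1 : ℝ) ≤ nm f := by exact_mod_cast nm_pos.2 hf'.2.1.ne_zero
        have nfX : (nm f : ℝ) ≤ X := hf'.1
        have neX : (nm e : ℝ) ≤ X := by
          refine le_trans ?_ hd'.1
          exact_mod_cast Div277.nm_le_of_dvd hd'.2.1.ne_zero he'.2
        have g1 := one_def hX hZ hσ (by linarith) (ε := ε) hw (d := d) he'.1.ne_zero hf
        have hc0 : 0 ≤ 2 * Real.pi * Z / (Real.sqrt 3 * nm e) :=
          div_nonneg (mul_nonneg (mul_nonneg (by norm_num) hπ.le) hZ0.le)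
            (mul_nonneg h3.le (Nat.cast_nonneg _))
        refine (mul_le_mul_of_nonneg_left g1 hc0).trans ?_
        rw [mul_add]
        refine add_le_add_left ?_ _
        have hL0 : 0 ≤ Lde X Z ε d e := Lde_nonneg hX0 hZ0.le _ _ _
        have g2 : (∫ t : ℝ, (1 + t ^ 2)⁻¹ * ∑ l ∈ bl (Lde X Z ε d e),
            (nm l : ℝ) ^ (-σ) * ‖dsum w X d e f l (σ + t * Complex.I)‖ ^ 2) ≤
            DI σ w X d e f (Lde X Z ε d e) := by
          unfold DI
          refine integral_mono ?_ (integrable_DI σ hX0 w d e f _) (fun t => ?_)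
          · have : (fun t : ℝ => (1 + t ^ 2)⁻¹ * ∑ l ∈ bl (Lde X Z ε d e),
                (nm l : ℝ) ^ (-σ) * ‖dsum w X d e f l (σ + t * Complex.I)‖ ^ 2) =
                fun t : ℝ => ∑ l ∈ bl (Lde X Z ε d e), (nm l : ℝ) ^ (-σ) *
                  ((1 + t ^ 2)⁻¹ * ‖dsum w X d e f l (σ + t * Complex.I)‖ ^ 2) := by
              funext t; rw [Finset.mul_sum]
              refine Finset.sum_congr rfl fun l _ => by ring
            rw [this]
            exact integrable_finsetSum _ fun l _ => (integrable_dsum hX0 w d e f l σ).const_mul _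
          · refine mul_le_mul_of_nonneg_left ?_ (by positivity)
            refine Finset.sum_le_sum fun l hl => ?_
            have hl' := (mem_bl hL0).1 hl
            have : (1 : ℝ) ≤ nm l := by exact_mod_cast nm_pos.2 hl'.1
            have h1 : (nm l : ℝ) ^ (-σ) ≤ 1 := Real.rpow_le_one_of_one_le_of_nonpos this (by linarith)
            calc _ ≤ 1 * ‖dsum w X d e f l (σ + t * Complex.I)‖ ^ 2 := by gcongr
              _ = _ := one_mul _
        have g3 : (nm e * (nm f : ℝ) ^ 2 / Z) ^ σ ≤ X ^ (3 * σ) := by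
          rw [Real.rpow_mul hX0]
          apply Real.rpow_le_rpow (by positivity) _ hσ.le
          calc nm e * (nm f : ℝ) ^ 2 / Z ≤ nm e * (nm f : ℝ) ^ 2 := div_le_self (by positivity) hZ
            _ ≤ X * X ^ 2 := by gcongr
            _ = X ^ (3 : ℝ) := by
              rw [show (3 : ℝ) = ((3 : ℕ) : ℝ) by norm_num, Real.rpow_natCast]; ring
        exact aux_term hZ0.le ne1 (lt_of_lt_of_le one_pos nf1) hcs.le
          (Real.rpow_nonneg (div_nonneg (mul_nonneg (by linarith) (sq_nonneg _)) hZ0.le) _) g3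
          (integral_nonneg fun t => mul_nonneg (inv_nonneg.2 (by positivity))
            (Finset.sum_nonneg fun l _ => mul_nonneg (Real.rpow_nonneg (Nat.cast_nonneg _) _)
              (sq_nonneg _))) g2
      have f2 : ∑ d ∈ A, ∑ e ∈ pdiv d, ∑ f ∈ S X, 2 * Real.pi * Z / (Real.sqrt 3 * nm e) *
          ‖∑' l : Eis, if l = 0 then 0 else qf w X Z d e f l‖ ≤
          ∑ d ∈ A, ∑ e ∈ pdiv d, ∑ f ∈ S X,
            (κ * csig σ * X ^ (3 * σ) * (Z / nm f * DI σ w X d e f (Lde X Z ε d e)) +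
          2 * Real.pi * Z / (Real.sqrt 3 * nm e) *
          ‖∑' l : Eis, (if l = 0 ∨ (nm l : ℝ) ≤ Lde X Z ε d e then 0 else qf w X Z d e f l)‖) :=
        Finset.sum_le_sum fun d hd => Finset.sum_le_sum fun e he => Finset.sum_le_sum
          fun f hf => f1 d hd e he f hf
      refine f2.trans ?_
      simp_rw [Finset.sum_add_distrib]
      refine add_le_add ?_ ?_
      · simp_rw [← Finset.mul_sum]
        refine mul_le_mul_of_nonneg_left ?_
          (mul_nonneg (mul_nonneg hκ0.le hcs.le) (Real.rpow_nonneg hX0 _))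
        refine Finset.sum_le_sum fun d hd => ?_
        refine Finset.sum_le_sum_of_subset_of_nonneg (pdiv_subset hX0 (Finset.mem_filter.1 hd).1)
          (fun e _ _ => ?_)
        exact Finset.sum_nonneg fun f _ => mul_nonneg (div_nonneg hZ0.le (Nat.cast_nonneg _))
          (DI_nonneg _ _ _ _ _ _ _)
      · refine le_trans ?_ (htail X Z hX hZ w)
        refine Finset.sum_le_sum_of_subset_of_nonneg (Finset.filter_subset _ _) (fun d _ _ => ?_)
        refine Finset.sum_nonneg fun e _ => Finset.sum_nonneg fun f _ => ?_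
        exact mul_nonneg (div_nonneg (mul_nonneg (mul_nonneg (by norm_num) hπ.le) hZ0.le)
          (mul_nonneg h3.le (Nat.cast_nonneg _))) (norm_nonneg _)
    linarith
  have hD0 : 0 ≤ ∑ d ∈ A, ∑ e ∈ (S X).filter (· ∣ d), ∑ f ∈ S X, Z / nm f *
      DI σ w X d e f (Lde X Z ε d e) :=
    Finset.sum_nonneg fun d _ => Finset.sum_nonneg fun e _ => Finset.sum_nonneg fun f _ =>
      mul_nonneg (div_nonneg hZ0.le (Nat.cast_nonneg _)) (DI_nonneg _ _ _ _ _ _ _)
  set DD := ∑ d ∈ A, ∑ e ∈ (S X).filter (· ∣ d), ∑ f ∈ S X, Z / nm f *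
      DI σ w X d e f (Lde X Z ε d e) with hDD
  have hXs : 0 < X ^ (3 * σ) := Real.rpow_pos_of_pos (by linarith) _
  have hVV : 0 ≤ ∑ g ∈ B, (tau g : ℝ) * V (X / nm g) Z (sub w g) :=
    Finset.sum_nonneg fun g _ => mul_nonneg (Nat.cast_nonneg _) (V_nonneg _ _ _)
  exact aux_final hκ0 hCt.le hcs.le hZ0.le hW0 hXs.le hD0 hsplit hAle hBle

end Crest.Agent.R017.PA842
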