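import Crest.Agent.R017.OneLP_319
import Crest.Agent.R017.BoxDefs_271
import Crest.Agent.R017.TPDefs_320
import Crest.Agent.R017.PA3_842
import Crest.Agent.R017.LBp_744

/-!
# Row 17, the case θ = 1: `BOX3 1` directly (helper319)

No iteration of (P)/(P'), no theta sums, no REM, no LV: one Poisson step with one merged factor
(`V2nat`), Pólya–Vinogradov for one long smooth piece (`PVs`), the squarefree amplifier piece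
(`FYcount`), and linear inequalities (`LPdir`, `LPpv`, `LPii`). `y + δ = 1/6`.

Leaves (literal Props): `HBall`, `OneStepE`, `V2sf`, `V2nat`, `PVs`, `FYcount`, `LPdir`, `LPpv`,
`LPii`, `SubSum` (OneLP_319); assembly: `BOX3 1`.
-/

set_option autoImplicit false

noncomputable section

open MeasureTheory Complex Set
open scoped ComplexConjugate ContDiff

namespace Crest.Agent.R017.One319

open Crest.Agent.R012 Crest.Agent.R012.Eis Crest.Agent.R012.LS2 Crest.Agent.R012.CR2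
open Crest.Agent.R012.Gauss880 Crest.Agent.R012.Div277
open Crest.Agent.R017.End699 Crest.Agent.R017.B770 Crest.Agent.R017.Asm986
open Crest.Agent.R017.Sup271 Crest.Agent.R017.HB645
open Crest.Agent.R017.CM106 (CS TG FS)
open Crest.Agent.R017.TP320 (conv sq VC)
open Crest.Agent.R017.PA842 (Supp V DI)

/-- (O1) Heath-Brown's large sieve, ALL nonzero numerators. -/
def HBall : Prop := ∀ ε : ℝ, 0 < ε → ∃ C : ℝ, 0 < C ∧ ∀ K N : ℝ, 1 ≤ K → 1 ≤ N → ∀ c : Eis → ℂ,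
  ∑ h ∈ bl K, ‖∑ n ∈ S N, c n * sy h n‖ ^ 2 ≤
    C * (K * N) ^ ε * (K + K ^ (1 / 3 : ℝ) * N + (K * N) ^ (2 / 3 : ℝ)) * ∑ n ∈ S N, ‖c n‖ ^ 2

open Classical in
/-- (O2) 842's `one_step` without the cut in `d`, with the factor `1 / nm e` KEPT. -/
def OneStepE : Prop := ∀ σ ε : ℝ, 0 < σ → σ ≤ 1 / 2 → 0 < ε → ∃ C : ℝ, 1 ≤ C ∧
  ∀ X Z : ℝ, 1 ≤ X → 1 ≤ Z → ∀ w : Eis → ℂ, Supp w X →
    V X Z w ≤ C * Z * ∑ h ∈ S X, ‖w h‖ ^ 2 +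
      C * X ^ (3 * σ) * ∑ d ∈ S X, ∑ e ∈ (S X).filter (· ∣ d), ∑ f ∈ S X,
        Z / (nm e * nm f) * DI σ w X d e f (Lde X Z ε d e)

/-- the four monomials of the second moment of `α * β` (`α` of length `A`, `β` of length `B`) over
`nm k ≤ H` -/
def E4 (H A B : ℝ) : ℝ :=
  H * (A * B) + H ^ (1 / 3 : ℝ) * (A * B) ^ 2 + (A * B) ^ 2 * A +
    H ^ (2 / 3 : ℝ) * (A * B ^ (5 / 3 : ℝ))

/-- (O3) second moment of the squarefree part of a convolution. -/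
def V2sf : Prop := ∀ ε : ℝ, 0 < ε → ∃ C : ℝ, 0 < C ∧ ∀ A B H : ℝ, 1 ≤ A → 1 ≤ B → 1 ≤ H →
  ∀ α β : Eis → ℂ, (∀ n, α n ≠ 0 → IsPrim n ∧ (nm n : ℝ) ≤ A) →
    (∀ n, β n ≠ 0 → IsPrim n ∧ (nm n : ℝ) ≤ B) → (∀ n, ‖α n‖ ≤ 1) → (∀ n, ‖β n‖ ≤ 1) →
    ∀ q : Eis, VC H (sq q (conv α β)) ≤ C * (A * B * H) ^ ε * E4 H A B

/-- (O4) the same for natural convolutions of divisor-bounded sequences. -/
def V2nat : Prop := ∀ (r : ℕ) (ε : ℝ), 0 < ε → ∃ C : ℝ, 0 < C ∧ ∀ A B H : ℝ, 1 ≤ A → 1 ≤ B →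
  1 ≤ H → ∀ α β : Eis → ℂ, LBp744.Cf r A α → LBp744.Cf r B β →
    ∑ k ∈ bl H, ‖CS α k * CS β k‖ ^ 2 ≤ C * (A * B * H) ^ ε * E4 H A B

/-- (O5) Pólya–Vinogradov for a smooth piece of a box. -/
def PVs : Prop := ∀ P : DPar, P.OK → ∀ ε : ℝ, 0 < ε → ∃ C J : ℝ, 0 ≤ C ∧ 0 ≤ J ∧
  ∀ k : Eis, k ≠ 0 → NPm P.n P.ψ P.l₂ k → ∀ d₂ : Eis, d₂ ≠ 0 → ∀ (t₂ : ℝ) (s : ℕ),
    ‖PS (P.ch d₂ t₂ k) s 0‖ ≤
      C * ((nm d₂ : ℝ) * nm k) ^ ε * (1 + |t₂|) ^ J * (nm k : ℝ) ^ (1 / 2 : ℝ)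

/-- (O6) the squarefree amplifier piece is small off a small exceptional set. -/
def FYcount : Prop := ∀ P : DPar, P.OK → ∀ ε C₁ M : ℝ, 0 < ε → 0 < C₁ → 0 < M →
  ∃ C A : ℝ, 0 ≤ C ∧ 0 ≤ A ∧ ∀ κ H : ℝ, 0 ≤ κ → 1 ≤ H → H ≤ Real.exp (M * (κ + 1)) →
    ∀ d₁ : Eis, d₁ ≠ 0 → ∀ t₁ : ℝ, ∃ E : Finset Eis,
      (E.card : ℝ) ≤ C * (nm d₁ : ℝ) ^ ε * (1 + |t₁|) ^ A * Real.exp (ε * κ) *
        (H ^ (1 / 3 : ℝ) * Real.exp (-(κ / 8))) ∧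
      ∀ k ∈ bl H, NPk P.n P.φ P.l₁ k → k ∉ E → ∀ u : ℝ, 0 ≤ u → u ≤ C₁ →
        ‖AS P.h₀ (κ - u) (fun c => twt P.φ P.l₁ t₁ c * prin0 d₁ c * conj (sy k c))‖ ≤
          C * (nm d₁ : ℝ) ^ ε * (1 + |t₁|) ^ A * Real.exp ((1 - 1 / 72) * κ)

end Crest.Agent.R017.One319
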