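import Crest.Agent.R017.FYpv_61
import Crest.Agent.R017.OneDefs_319

/-!
# Row 17, `θ = 1` (One319): Pólya–Vinogradov for the smooth pieces (helper61)
-/

set_option autoImplicit false

noncomputable section

open Complex MeasureTheory Filter Topology
open scoped ContDiff ComplexConjugate

namespace Crest.Agent.R017.FY61

open Crest.Agent.R012 Crest.Agent.R012.Eis Crest.Agent.R012.Gauss880
open Crest.Agent.R012.Weight600 (osc norm_osc)
open Crest.Agent.R012.PSer47 Crest.Agent.R012.Div277 Crest.Agent.R012.Mob705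
open Crest.Agent.R017.End699 Crest.Agent.R017.FE47 Crest.Agent.R017.Two939
open Crest.Agent.R017.FY813 Crest.Agent.R017.B770 Crest.Agent.R017.Sup271

lemma hh_cs : HasCompactSupport (fun u => (HB645.hh u : ℂ)) := HW.compact hw_hh

/-- the Heath-Brown smooth piece as a smooth sum of `FE5_47` -/
theorem PSn_eq (φ : Eis → ℂ) (l : ℤ) (t : ℝ) (f : Eis → ℂ) (s : ℕ) :
    HB645.PS (fun b => twt φ l t b * f b) s 0 =
      FE47.PS (fun u => (HB645.hh u : ℂ)) (fun b => φ b * ang l b * f b) s t := by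
  unfold HB645.PS FE47.PS
  rw [tsum_eq_sum (s := primBall ⌊Real.exp (s + 1)⌋₊)]
  · refine Finset.sum_congr rfl fun b hb => ?_
    have hp := (mem_primBall.mp hb).2
    unfold End699.ext
    rw [if_pos hp]
    unfold twt tw
    beta_reduce
    rw [cpow_eq_osc hp.ne_zero]
    have : Weight600.pw 0 (nm b) = 1 := by
      unfold Weight600.pw osc; simp
    rw [this]
    ring
  · intro b hb
    by_cases hp : IsPrim b
    · have h1 : (HB645.hh (Real.log (nm b) - s) : ℂ) = 0 := by
        by_contra h2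
        apply hb
        rw [mem_primBall]
        refine ⟨?_, hp⟩
        have h3 := (abs_le.mp (hw_hh.supp _ h2)).2
        have h4 : (nm b : ℝ) ≤ Real.exp (s + 1) := by
          rw [← Real.log_le_iff_le_exp (by have := one_le_nm' hp; linarith)]
          linarith
        exact Nat.le_floor h4
      beta_reduce
      rw [h1]; simp
    · simp [End699.ext, hp]

open Classical in
/-- **Pólya–Vinogradov for the pieces of the Möbius sum** at every `k` with `ψ χ_k` nonprincipal. -/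
theorem PS_npm {n : Eis} {ψ : Eis → ℂ} (hψ : HC n ψ) (l : ℤ) {ε : ℝ} (hε : 0 < ε) :
    ∃ (C : ℝ) (J : ℕ), 0 ≤ C ∧ ∀ k : Eis, k ≠ 0 → NPm n ψ l k → ∀ d : Eis, d ≠ 0 →
      ∀ (t : ℝ) (s : ℕ), ‖HB645.PS (fun b => twt ψ l t b * prin0 d b * sy k b) s 0‖ ≤
        C * ((nm d : ℝ) * nm k) ^ ε * (1 + |t|) ^ J * (nm k : ℝ) ^ (1 / 2 : ℝ) := by
  obtain ⟨C, J, hC, h1⟩ := PS_pv hw_hh.cd hh_cs l hψ
  obtain ⟨C', hC', hτ⟩ := tau_le_rpow hε
  refine ⟨C' * C, J, by positivity, fun k hk hnp d hd t s => ?_⟩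
  obtain ⟨e, he, k1, k2, m, p1, p2, hm, s1, s2, hcop, hM, hmM, hk'⟩ := exists_dec hψ.three hk
  have hnp' : k1 * k2 = 1 → NP (9 * n) (fun b => ψ b * sy e b) l := by
    intro h12
    have hk1 : k1 = 1 := by
      have hu : IsUnit k1 := IsUnit.of_mul_eq_one _ h12
      exact p1.eq_of_associated isPrim_one (associated_one_iff_isUnit.mpr hu)
    have hk2 : k2 = 1 := by rw [hk1, one_mul] at h12; exact h12
    rw [hk1, hk2] at hk'
    rcases hnp with h | ⟨b, hb, hbc, hne⟩
    · exact Or.inl h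
    · refine Or.inr ⟨b, hb, ?_, ?_⟩
      · refine hbc.of_isCoprime_of_dvd_right ?_
        exact ⟨k, by ring⟩
      · have hcm : IsCoprime m b := by
          have hd : m ∣ n * (9 * k) := by
            rw [hk']
            exact ⟨n * 9 * e * m ^ 2, by ring⟩
          exact (hbc.of_isCoprime_of_dvd_right hd).symm
        intro h
        apply hne
        change ψ b * sy k b = 1
        rw [hk']
        have e1 : e * 1 * 1 ^ 2 * m ^ 3 = e * m ^ 3 := by ring
        rw [e1, Char766.sy_mul_left hb, Char766.sy_cube_left hb hcm, mul_one]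
        exact h
  have h2 := h1 e he k1 k2 p1 p2 s1 s2 hcop hM hnp'
  have hψ' := hc_SM hψ he
  set X : Eis → ℂ := XK (fun b => ψ b * sy e b) (FE47.kap k1 k2) l with hX
  have hkc : IsChar (FE47.kap k1 k2) := by
    refine ⟨(isCh_kap p1 p2).one, ?_, ?_⟩
    · intro a b ha hb
      exact (isCh_kap p1 p2).mul a b
    · intro a ha
      by_cases hc : IsCoprime a (k1 * k2)
      · right
        unfold FE47.kap
        rw [norm_mul, RCLike.norm_conj, Char766.norm_sy p1 (hc.of_mul_right_left),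
          Char766.norm_sy p2 (hc.of_mul_right_right), one_mul]
      · left
        exact (isCh_kap p1 p2).zero a hc
  have hXc : IsChar X := (hψ'.char.mul' hkc).mul' (ang_isChar l)
  have e1 : (fun b => twt ψ l t b * prin0 d b * sy k b) =
      fun b => twt ψ l t b * (prin0 d b * sy k b) := by funext b; ring
  rw [e1, PSn_eq]
  have e2 : FE47.PS (fun u => (HB645.hh u : ℂ)) (fun c => ψ c * ang l c * (prin0 d c * sy k c)) s t =
      FE47.PS (fun u => (HB645.hh u : ℂ)) (fun b => if IsCoprime b (m * d) then X b else 0) s t := by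
    refine PS_congr (fun b hb => ?_) _ _
    rw [hX]
    unfold XK
    have e3 : k = (e * (k1 * k2 ^ 2)) * m ^ 3 := by rw [hk']; ring
    rw [e3, Char766.sy_mul_left hb, Char766.sy_mul_left hb, ← kap_eq_sy p1 p2 hb]
    unfold prin0
    by_cases hc : IsCoprime b m
    · rw [Char766.sy_cube_left hb hc.symm]
      by_cases hc2 : IsCoprime b d
      · rw [if_pos hc2, if_pos (hc.mul_right hc2)]
        ring
      · rw [if_neg hc2, if_neg fun h' : IsCoprime b (m * d) => hc2 h'.of_mul_right_right]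
        ring
    · rw [Char766.sy_eq_zero hb fun h' => hc
        (h'.of_isCoprime_of_dvd_left (dvd_pow_self m three_ne_zero)).symm,
        if_neg (c := IsCoprime b (m * d)) fun h' => hc h'.of_mul_right_left]
      simp
  rw [e2]
  have hmd : m * d ≠ 0 := mul_ne_zero hm.ne_zero hd
  have hnk : (nm k : ℝ) = nm e * nm k1 * nm k2 ^ 2 * nm m ^ 3 := by
    rw [hk']; simp only [nm_mul, nm_pow]; push_cast; ring
  have ne1 : (1 : ℝ) ≤ nm e := by exact_mod_cast nm_pos.mpr he.1
  have n1 := one_le_nm' p1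
  have n2 := one_le_nm' p2
  have nm1 := one_le_nm' hm
  have nd1 : (1 : ℝ) ≤ nm d := by exact_mod_cast nm_pos.mpr hd
  have hk12 : (nm (k1 * k2) : ℝ) ≤ nm k := by
    rw [hnk, nm_mul]; push_cast
    have h3 : (1 : ℝ) ≤ nm e * nm k2 * nm m ^ 3 := by
      have : (1 : ℝ) ≤ (nm m : ℝ) ^ 3 := one_le_pow₀ nm1
      calc (1 : ℝ) = 1 * 1 * 1 := by norm_num
        _ ≤ _ := by gcongr
    have h4 : (0 : ℝ) ≤ (nm k1 : ℝ) * nm k2 := by positivity
    nlinarith
  have hmk : (nm m : ℝ) ≤ nm k := by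
    rw [hnk]
    have h3 : (1 : ℝ) ≤ nm e * nm k1 * nm k2 ^ 2 * nm m ^ 2 := by
      have h5 : (1 : ℝ) ≤ (nm m : ℝ) ^ 2 := one_le_pow₀ nm1
      have h6 : (1 : ℝ) ≤ (nm k2 : ℝ) ^ 2 := one_le_pow₀ n2
      calc (1 : ℝ) = 1 * 1 * 1 * 1 := by norm_num
        _ ≤ _ := by gcongr
    nlinarith
  have hτ' : (tau (m * d) : ℝ) ≤ C' * ((nm d : ℝ) * nm k) ^ ε := by
    refine (hτ _ hmd).trans ?_
    gcongr
    rw [nm_mul]; push_cast
    nlinarith
  have h3 := norm_PS_cop_le hh_cs hXc hmd (s : ℝ) t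
  refine h3.trans ?_
  calc ∑ d ∈ (dvs (m * d)).filter Squarefree, ‖FE47.PS (fun u => (HB645.hh u : ℂ)) X ((s : ℝ) - Real.log (nm d)) t‖
      ≤ ∑ d ∈ (dvs (m * d)).filter Squarefree, C * (1 + |t|) ^ J * Real.sqrt (nm (k1 * k2)) :=
        Finset.sum_le_sum fun d _ => h2 _ _
    _ = ((dvs (m * d)).filter Squarefree).card * (C * (1 + |t|) ^ J * Real.sqrt (nm (k1 * k2))) := by
        rw [Finset.sum_const, nsmul_eq_mul]
    _ ≤ (C' * ((nm d : ℝ) * nm k) ^ ε) * (C * (1 + |t|) ^ J * Real.sqrt (nm k)) := by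
        gcongr
        refine le_trans ?_ hτ'
        unfold tau
        exact_mod_cast Finset.card_filter_le _ _
    _ = _ := by rw [Real.sqrt_eq_rpow]; ring

/-- **PVs** (One319). -/
theorem pvs : One319.PVs := by
  intro P hP ε hε
  obtain ⟨C, J, hC, h⟩ := PS_npm hP.ψ P.l₂ hε
  refine ⟨C, J, hC, Nat.cast_nonneg _, fun k hk hnp d hd t s => ?_⟩
  have := h k hk hnp d hd t s
  rw [Real.rpow_natCast]
  exact this

end Crest.Agent.R017.FY61
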