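import Crest.Agent.R017.OneDefs2_319

/-!
# Row 17 (D.one): `SideM2` from `V2nat`

The second moment of one side: the pieces in `Ja` are merged into one sequence, those in `Jb` and
the pieces `T` of the box into another.
-/

set_option autoImplicit false

noncomputable section

open Complex
open scoped ComplexConjugate

namespace Crest.Agent.R017.OneS64

open Crest.Agent.R012 Crest.Agent.R012.Eis Crest.Agent.R012.Mob705 Crest.Agent.R012.Div277
open Crest.Agent.R012.LS2 Crest.Agent.R012.Gauss880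
open Crest.Agent.R017.End699 Crest.Agent.R017.B770 Crest.Agent.R017.Asm986
open Crest.Agent.R017.Sup271 Crest.Agent.R017.HB645
open Crest.Agent.R017.CM106 (CS FS)
open Crest.Agent.R017.One319 (E4 V2nat SideM2 pcA pcB e4)

open Classical in
/-- a bounded function on a primary ball -/
lemma Cf_ball {N : ℕ} {X : ℝ} (hN : (N : ℝ) ≤ X) {g : Eis → ℂ}
    (hg : ∀ b ∈ primBall N, ‖g b‖ ≤ 1) :
    LBp744.Cf 0 X (fun b => if b ∈ primBall N then g b else 0) where
  fs :=
    { fin := (primBall N).finite_toSet.subset fun b hb => by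
        by_contra h
        exact hb (if_neg h)
      prim := fun b hb => by
        by_contra h
        apply hb
        rw [if_neg]
        intro h'
        exact h (mem_primBall.mp h').2 }
  le := fun b hb => by
    have h : b ∈ primBall N := by
      by_contra h
      exact hb (if_neg h)
    refine le_trans ?_ hN
    exact_mod_cast (mem_primBall.mp h).1
  bd := fun b => by
    rw [pow_zero]
    split_ifs with h
    · exact hg b h
    · rw [norm_zero]; exact zero_le_one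

open Classical in
lemma CS_ball (N : ℕ) (g : Eis → ℂ) (k : Eis) :
    CS (fun b => if b ∈ primBall N then g b else 0) k = ∑ b ∈ primBall N, g b * sy k b := by
  unfold CS
  rw [tsum_eq_sum (s := primBall N) (fun b hb => by beta_reduce; rw [if_neg hb, zero_mul])]
  exact Finset.sum_congr rfl fun b hb => by beta_reduce; rw [if_pos hb]

/-- merging finitely many bounded sequences -/
lemma exists_prod {ι : Type*} [DecidableEq ι] (S : Finset ι) (X : ι → ℝ) (hX : ∀ i, 0 ≤ X i)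
    (a : ι → Eis → ℂ) (ha : ∀ i, LBp744.Cf 0 (X i) (a i)) :
    ∃ α : Eis → ℂ, LBp744.Cf S.card (∏ i ∈ S, X i) α ∧ ∀ k, CS α k = ∏ i ∈ S, CS (a i) k := by
  induction S using Finset.induction_on with
  | empty =>
    refine ⟨LBp744.oneS, ?_, fun k => ?_⟩
    · rw [Finset.card_empty, Finset.prod_empty]; exact LBp744.Cf.oneS
    · rw [Finset.prod_empty]; exact LBp744.CS_oneS k
  | insert i S hi ih =>
    obtain ⟨α, h1, h2⟩ := ih
    refine ⟨LBp744.mulS (a i) α, ?_, fun k => ?_⟩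
    · have h := LBp744.Cf.mulS (ha i) h1 (hX i)
      rw [Finset.card_insert_of_notMem hi, Finset.prod_insert hi]
      rwa [zero_add] at h
    · rw [LBp744.CS_mulS (ha i).fs h1.fs, h2, Finset.prod_insert hi]

lemma norm_prin0_le (q b : Eis) : ‖prin0 q b‖ ≤ 1 := by
  unfold prin0
  split_ifs <;> simp

lemma norm_ang_le1 (l : ℤ) {b : Eis} (hb : b ≠ 0) : ‖ang l b‖ ≤ 1 := by
  have h : ‖toC b‖ ≠ 0 := norm_ne_zero_iff.mpr (toC_ne_zero hb)
  unfold ang
  rw [norm_zpow, norm_div, Complex.norm_real, norm_norm, div_self h, one_zpow]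

lemma norm_twt_le {φ : Eis → ℂ} {b : Eis} (hb : IsPrim b) (hφ : ‖φ b‖ ≤ 1) (l : ℤ) (t : ℝ) :
    ‖twt φ l t b‖ ≤ 1 := by
  unfold twt End699.tw
  have h1 : ‖((nm b : ℂ)) ^ (I * (t : ℂ))‖ = 1 := by
    rw [Complex.norm_natCast_cpow_of_pos (nm_pos.mpr hb.ne_zero)]
    simp
  rw [norm_mul, h1, mul_one, norm_mul]
  exact mul_le_one₀ hφ (norm_nonneg _) (norm_ang_le1 l hb.ne_zero)

open Classical in
/-- the sequence of a prime piece of the amplifier -/
def sA (P : DPar) (M κ : ℝ) (d₁ : Eis) (t₁ : ℝ) (b : Eis) : ℂ :=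
  if b ∈ primBall ⌊Real.exp (κ + 1)⌋₊ then
    (if Prime b then ((M⁻¹ : ℝ) : ℂ) *
      conj (twt P.φ P.l₁ t₁ b * prin0 d₁ b * P.h (Real.log (nm b) - κ)) else 0)
  else 0

open Classical in
/-- the sequence of a piece of the box -/
def sB (P : DPar) (d₂ : Eis) (t₂ z : ℝ) {j : ℕ} (c : Fin (j - 1) ⊕ Fin j → ℕ) :
    Fin (j - 1) ⊕ Fin j → Eis → ℂ
  | Sum.inl i => fun b => if b ∈ primBall ⌊Real.exp (c (Sum.inl i) + 1)⌋₊ then
      twt P.ψ P.l₂ t₂ b * prin0 d₂ b * (hh (Real.log (nm b) - c (Sum.inl i)) : ℂ) else 0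
  | Sum.inr i => fun b => if b ∈ primBall ⌊Real.exp (c (Sum.inr i) + 1)⌋₊ then
      HB645.cM z b * (twt P.ψ P.l₂ t₂ b * prin0 d₂ b) *
        (hh (Real.log (nm b) - c (Sum.inr i)) : ℂ) else 0

lemma Cf_sA {P : DPar} (hP : P.OK) {M : ℝ} (hM0 : 0 < M) (hM : ∀ u, ‖P.h u‖ ≤ M) (κ : ℝ)
    (d₁ : Eis) (t₁ : ℝ) : LBp744.Cf 0 (Real.exp (κ + 1)) (sA P M κ d₁ t₁) := by
  unfold sA
  refine Cf_ball (Nat.floor_le (Real.exp_pos _).le) fun b hb => ?_
  have hp := (mem_primBall.mp hb).2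
  split_ifs
  · rw [norm_mul, Complex.norm_real, Real.norm_of_nonneg (by positivity), RCLike.norm_conj,
      inv_mul_le_iff₀ hM0, mul_one, norm_mul, norm_mul]
    have h1 := norm_twt_le (t := t₁) hp (hP.φ.char.norm_le hp) P.l₁
    have h2 := norm_prin0_le d₁ b
    calc _ ≤ 1 * 1 * M := mul_le_mul (mul_le_mul h1 h2 (norm_nonneg _) zero_le_one) (hM _)
          (norm_nonneg _) (by norm_num)
      _ = M := by ring
  · rw [norm_zero]; exact zero_le_one

lemma pcA_eq (P : DPar) {M : ℝ} (hM : 0 < M) (r : ℕ) (y Q₀ : ℝ) (d₁ : Eis) (t₁ : ℝ) (k : Eis)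
    (i : Fin r) : ‖pcA P r y Q₀ d₁ t₁ k i‖ = M * ‖CS (sA P M (kap r y Q₀ i) d₁ t₁) k‖ := by
  classical
  have e1 : CS (sA P M (kap r y Q₀ i) d₁ t₁) k =
      ((M⁻¹ : ℝ) : ℂ) * conj (pcA P r y Q₀ d₁ t₁ k i) := by
    have e2 := CS_ball ⌊Real.exp (kap r y Q₀ i + 1)⌋₊ (fun b => if Prime b then ((M⁻¹ : ℝ) : ℂ) *
      conj (twt P.φ P.l₁ t₁ b * prin0 d₁ b * P.h (Real.log (nm b) - kap r y Q₀ i)) else 0) k
    unfold sA
    rw [e2]
    unfold pcA AP prS
    rw [map_sum, Finset.mul_sum, Finset.sum_filter]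
    refine Finset.sum_congr rfl fun b _ => ?_
    split_ifs
    · simp only [map_mul, Complex.conj_conj]
      ring
    · rw [zero_mul]
  rw [e1, norm_mul, RCLike.norm_conj, Complex.norm_real, Real.norm_of_nonneg (by positivity),
    ← mul_assoc, mul_inv_cancel₀ hM.ne', one_mul]

lemma norm_hh_le (u : ℝ) : ‖((hh u : ℝ) : ℂ)‖ ≤ 1 := by
  rw [Complex.norm_real, Real.norm_of_nonneg (hh_nonneg _)]
  exact hh_le_one _

lemma norm_cM_le (z : ℝ) (b : Eis) : ‖HB645.cM z b‖ ≤ 1 := by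
  unfold HB645.cM
  rw [norm_mul, Complex.norm_real, Real.norm_of_nonneg (by linarith [sg_le_one (Real.log (nm b) - Real.log z)])]
  refine mul_le_one₀ (norm_muE_le b) (by linarith [sg_le_one (Real.log (nm b) - Real.log z)])
    (by linarith [sg_nonneg (Real.log (nm b) - Real.log z)])

lemma Cf_sB {P : DPar} (hP : P.OK) (d₂ : Eis) (t₂ z : ℝ) {j : ℕ} (c : Fin (j - 1) ⊕ Fin j → ℕ)
    (i : Fin (j - 1) ⊕ Fin j) :
    LBp744.Cf 0 (Real.exp (c i + 1)) (sB P d₂ t₂ z c i) := by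
  have hb1 : ∀ b, IsPrim b → ‖twt P.ψ P.l₂ t₂ b * prin0 d₂ b‖ ≤ 1 := fun b hp => by
    rw [norm_mul]
    exact mul_le_one₀ (norm_twt_le hp (hP.ψ.char.norm_le hp) _ _) (norm_nonneg _)
      (norm_prin0_le _ _)
  rcases i with i | i
  · unfold sB
    refine Cf_ball (Nat.floor_le (Real.exp_pos _).le) fun b hb => ?_
    rw [norm_mul]
    exact mul_le_one₀ (hb1 b (mem_primBall.mp hb).2) (norm_nonneg _) (norm_hh_le _)
  · unfold sB
    refine Cf_ball (Nat.floor_le (Real.exp_pos _).le) fun b hb => ?_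
    rw [norm_mul, norm_mul]
    exact mul_le_one₀ (mul_le_one₀ (norm_cM_le _ _) (norm_nonneg _) (hb1 b (mem_primBall.mp hb).2))
      (norm_nonneg _) (norm_hh_le _)

lemma pw_zero (n : ℕ) : Weight600.pw 0 n = 1 := by
  unfold Weight600.pw Weight600.osc
  simp

lemma pcB_eq (P : DPar) (d₂ : Eis) (t₂ z : ℝ) {j : ℕ} (c : Fin (j - 1) ⊕ Fin j → ℕ)
    (k : Eis) (i : Fin (j - 1) ⊕ Fin j) : pcB P d₂ t₂ z c k i = CS (sB P d₂ t₂ z c i) k := by
  classical
  rcases i with i | i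
  · unfold pcB sB
    rw [CS_ball]
    unfold PS DPar.ch
    refine Finset.sum_congr rfl fun b _ => ?_
    rw [pw_zero]
    ring
  · unfold pcB sB
    rw [CS_ball]
    unfold PM DPar.ch
    refine Finset.sum_congr rfl fun b _ => ?_
    rw [pw_zero]
    ring

/-- `E4` in logarithmic form -/
lemma E4_exp_le {h a b k : ℝ} (hk : 0 ≤ k) :
    E4 (Real.exp h) (Real.exp (a + k)) (Real.exp (b + k)) ≤
      4 * Real.exp (e4 h a b + 5 * k) := by
  have m1 : h + (a + b) ≤ e4 h a b := le_trans (le_max_left _ _) (le_max_left _ _)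
  have m2 : h / 3 + 2 * (a + b) ≤ e4 h a b := le_trans (le_max_right _ _) (le_max_left _ _)
  have m3 : 2 * (a + b) + a ≤ e4 h a b := le_trans (le_max_left _ _) (le_max_right _ _)
  have m4 : 2 / 3 * h + a + 5 / 3 * b ≤ e4 h a b := le_trans (le_max_right _ _) (le_max_right _ _)
  have t1 : Real.exp h * (Real.exp (a + k) * Real.exp (b + k)) ≤ Real.exp (e4 h a b + 5 * k) := by
    rw [← Real.exp_add, ← Real.exp_add]
    exact Real.exp_le_exp.mpr (by linarith)
  have t2 : Real.exp h ^ (1 / 3 : ℝ) * (Real.exp (a + k) * Real.exp (b + k)) ^ 2 ≤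
      Real.exp (e4 h a b + 5 * k) := by
    rw [← Real.exp_add, ← Real.exp_mul, ← Real.exp_nat_mul, ← Real.exp_add]
    exact Real.exp_le_exp.mpr (by push_cast; linarith)
  have t3 : (Real.exp (a + k) * Real.exp (b + k)) ^ 2 * Real.exp (a + k) ≤
      Real.exp (e4 h a b + 5 * k) := by
    rw [← Real.exp_add, ← Real.exp_nat_mul, ← Real.exp_add]
    exact Real.exp_le_exp.mpr (by push_cast; linarith)
  have t4 : Real.exp h ^ (2 / 3 : ℝ) * (Real.exp (a + k) * Real.exp (b + k) ^ (5 / 3 : ℝ)) ≤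
      Real.exp (e4 h a b + 5 * k) := by
    rw [← Real.exp_mul, ← Real.exp_mul, ← Real.exp_add, ← Real.exp_add]
    exact Real.exp_le_exp.mpr (by linarith)
  unfold E4
  linarith

/-- **`SideM2` from `V2nat`** -/
theorem sideM2 (hV : V2nat) : SideM2 := by
  classical
  intro P hP r L ε hε
  obtain ⟨M0, hM0⟩ := hP.h.bounded
  set M := max M0 1 with hMdef
  have hM : ∀ u, ‖P.h u‖ ≤ M := fun u => (hM0 u).trans (le_max_left _ _)
  have hM1 : 1 ≤ M := le_max_right _ _
  have hMp : 0 < M := by linarith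
  obtain ⟨C1, hC1, hyp⟩ := hV (r + 2 * L + 1) ε hε
  set K : ℝ := r * (3 * r + 1) + 2 * L with hK
  have hK0 : 0 ≤ K := by positivity
  refine ⟨M ^ (4 * r) * (C1 * (4 * Real.exp (2 * ε * K + 5 * K))), by positivity, ?_⟩
  intro y Q₀ H hy hQ₀ hH Ja Jb hdis j hj c T z hz d₁ d₂ t₁ t₂
  set g : ℝ := y / r * Real.log Q₀ with hg
  have hg0 : 0 ≤ g := mul_nonneg (div_nonneg hy (Nat.cast_nonneg _)) (Real.log_nonneg hQ₀)
  have hH0 : 0 < H := by linarith
  have hH1 : Real.exp (Real.log H) = H := Real.exp_log hH0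
  have hlH : 0 ≤ Real.log H := Real.log_nonneg hH
  -- cardinalities
  have cA : (Ja.card : ℝ) ≤ r := by
    exact_mod_cast (Finset.card_le_univ Ja).trans (by rw [Fintype.card_fin])
  have cB : (Jb.card : ℝ) ≤ r := by
    exact_mod_cast (Finset.card_le_univ Jb).trans (by rw [Fintype.card_fin])
  have cTn : T.card ≤ 2 * L := by
    refine (Finset.card_le_univ T).trans ?_
    rw [Fintype.card_sum, Fintype.card_fin, Fintype.card_fin]
    omega
  have cT : (T.card : ℝ) ≤ 2 * L := by exact_mod_cast cTn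
  have hcA := Finset.card_le_univ Ja
  have hcB := Finset.card_le_univ Jb
  rw [Fintype.card_fin] at hcA hcB
  -- the sequences
  obtain ⟨α, hα, hαk⟩ := exists_prod Ja (fun i => Real.exp (kap r y Q₀ i + 1))
    (fun i => (Real.exp_pos _).le) (fun i => sA P M (kap r y Q₀ i) d₁ t₁)
    (fun i => Cf_sA hP hMp hM _ _ _)
  obtain ⟨β₁, hβ₁, hβ₁k⟩ := exists_prod Jb (fun i => Real.exp (kap r y Q₀ i + 1))
    (fun i => (Real.exp_pos _).le) (fun i => sA P M (kap r y Q₀ i) d₁ t₁)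
    (fun i => Cf_sA hP hMp hM _ _ _)
  obtain ⟨β₂, hβ₂, hβ₂k⟩ := exists_prod T (fun i => Real.exp ((c i : ℝ) + 1))
    (fun i => (Real.exp_pos _).le) (fun i => sB P d₂ t₂ z c i) (fun i => Cf_sB hP _ _ _ _ _)
  have hβ := LBp744.Cf.mulS hβ₁ hβ₂ (Finset.prod_nonneg fun i _ => (Real.exp_pos _).le)
  have hβk : ∀ k, CS (LBp744.mulS β₁ β₂) k = (∏ i ∈ Jb, CS (sA P M (kap r y Q₀ i) d₁ t₁) k) *
      ∏ i ∈ T, CS (sB P d₂ t₂ z c i) k := fun k => by
    rw [LBp744.CS_mulS hβ₁.fs hβ₂.fs, hβ₁k, hβ₂k]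
  set a : ℝ := g * Ja.card with ha
  set b : ℝ := ∑ i ∈ T, (c i : ℝ) + g * Jb.card with hb
  have hsum : ∀ J : Finset (Fin r), (J.card : ℝ) ≤ r →
      ∏ i ∈ J, Real.exp (kap r y Q₀ i + 1) ≤ Real.exp (g * J.card + r * (3 * r + 1)) := by
    intro J hJ
    rw [← Real.exp_sum]
    apply Real.exp_le_exp.mpr
    calc ∑ i ∈ J, (kap r y Q₀ i + 1) ≤ ∑ _i ∈ J, (g + (3 * r + 1)) := by
          refine Finset.sum_le_sum fun i _ => ?_
          unfold kap
          have : ((i : ℕ) : ℝ) ≤ r := by exact_mod_cast i.2.le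
          linarith
      _ = g * J.card + J.card * (3 * r + 1) := by
          rw [Finset.sum_const, nsmul_eq_mul]; ring
      _ ≤ _ := by
          have : (0 : ℝ) ≤ 3 * r + 1 := by positivity
          nlinarith
  have hsumT : ∏ i ∈ T, Real.exp ((c i : ℝ) + 1) ≤ Real.exp (∑ i ∈ T, (c i : ℝ) + 2 * L) := by
    rw [← Real.exp_sum]
    apply Real.exp_le_exp.mpr
    rw [Finset.sum_add_distrib, Finset.sum_const, nsmul_eq_mul, mul_one]
    linarith
  have hLA : ∏ i ∈ Ja, Real.exp (kap r y Q₀ i + 1) ≤ Real.exp (a + K) := by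
    refine (hsum Ja cA).trans (Real.exp_le_exp.mpr ?_)
    have : (0 : ℝ) ≤ 2 * L := by positivity
    linarith
  have hLB : (∏ i ∈ Jb, Real.exp (kap r y Q₀ i + 1)) * ∏ i ∈ T, Real.exp ((c i : ℝ) + 1) ≤
      Real.exp (b + K) := by
    calc _ ≤ Real.exp (g * Jb.card + r * (3 * r + 1)) *
          Real.exp (∑ i ∈ T, (c i : ℝ) + 2 * L) := by
          refine mul_le_mul (hsum Jb cB) hsumT (Finset.prod_nonneg fun i _ => (Real.exp_pos _).le)
            (Real.exp_pos _).le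
      _ = Real.exp (b + K) := by
          rw [← Real.exp_add]
          congr 1
          rw [hb, hK]; ring
  have hc0 : 0 ≤ ∑ i ∈ T, (c i : ℝ) := Finset.sum_nonneg fun i _ => Nat.cast_nonneg _
  have ha0 : 0 ≤ a := mul_nonneg hg0 (Nat.cast_nonneg _)
  have hb0 : 0 ≤ b := add_nonneg hc0 (mul_nonneg hg0 (Nat.cast_nonneg _))
  have key := hyp (Real.exp (a + K)) (Real.exp (b + K)) H (Real.one_le_exp (by linarith))
    (Real.one_le_exp (by linarith)) hH α (LBp744.mulS β₁ β₂)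
    (hα.mono (by omega) hLA) (hβ.mono (by omega) hLB)
  -- the integrand
  have hterm : ∀ k, ((∏ i ∈ Ja ∪ Jb, ‖pcA P r y Q₀ d₁ t₁ k i‖) *
      ∏ i ∈ T, ‖pcB P d₂ t₂ z c k i‖) ^ 2 =
      (M ^ (Ja.card + Jb.card)) ^ 2 * ‖CS α k * CS (LBp744.mulS β₁ β₂) k‖ ^ 2 := by
    intro k
    rw [← mul_pow]
    congr 1
    rw [norm_mul, hαk, hβk, norm_mul, norm_prod, norm_prod, norm_prod,
      Finset.prod_union hdis]
    simp only [pcA_eq P hMp, pcB_eq]
    rw [Finset.prod_mul_distrib, Finset.prod_mul_distrib, Finset.prod_const, Finset.prod_const,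
      pow_add]
    ring
  simp only [hterm]
  rw [← Finset.mul_sum]
  have hMpow : (M ^ (Ja.card + Jb.card)) ^ 2 ≤ M ^ (4 * r) := by
    rw [← pow_mul]
    exact pow_le_pow_right₀ hM1 (by omega)
  have hE := E4_exp_le (h := Real.log H) (a := a) (b := b) hK0
  rw [hH1] at hE
  have hABH : (Real.exp (a + K) * Real.exp (b + K) * H) ^ ε =
      Real.exp (2 * ε * K) * Real.exp (ε * (Real.log H + a + b)) := by
    conv_lhs => rw [← hH1]
    rw [← Real.exp_add, ← Real.exp_add, ← Real.exp_mul, ← Real.exp_add]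
    congr 1
    ring
  have hsum0 : 0 ≤ ∑ k ∈ bl H, ‖CS α k * CS (LBp744.mulS β₁ β₂) k‖ ^ 2 :=
    Finset.sum_nonneg fun k _ => by positivity
  calc (M ^ (Ja.card + Jb.card)) ^ 2 * ∑ k ∈ bl H, ‖CS α k * CS (LBp744.mulS β₁ β₂) k‖ ^ 2
      ≤ M ^ (4 * r) * (C1 * (Real.exp (a + K) * Real.exp (b + K) * H) ^ ε *
          E4 H (Real.exp (a + K)) (Real.exp (b + K))) := by gcongr
    _ ≤ M ^ (4 * r) * (C1 * (Real.exp (2 * ε * K) * Real.exp (ε * (Real.log H + a + b))) *
          (4 * Real.exp (e4 (Real.log H) a b + 5 * K))) := by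
        rw [hABH]
        gcongr
    _ = M ^ (4 * r) * (C1 * (4 * Real.exp (2 * ε * K + 5 * K))) *
          Real.exp (ε * (Real.log H + a + b)) * Real.exp (e4 (Real.log H) a b) := by
        rw [Real.exp_add (e4 (Real.log H) a b), Real.exp_add (2 * ε * K)]
        ring
    _ = _ := by
        have : Real.log H + a + b = Real.log H + g * (Ja.card + Jb.card) + ∑ i ∈ T, (c i : ℝ) := by
          rw [ha, hb]; ring
        rw [this]

end Crest.Agent.R017.OneS64
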