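import Crest.Agent.R017.OneDefs_319

/-!
# Row 17 (D.one): the one-step inequality with all greatest common divisors dual

`one_step_e` : 842's `one_step` with `Y = ∞` and the factor `1 / nm e` kept.
-/

set_option autoImplicit false

noncomputable section

open MeasureTheory Finset
open scoped ComplexConjugate

namespace Crest.Agent.R017.OneE64

open Crest.Agent.R012
open Eis CharSum852 Gauss880 Tau671 Mob705 LS2 CR2 DualIneq811 MelSep811
open Crest.Agent.R017.PA842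

lemma aux_term_e {Z ne nf cg B Xs I1 I2 : ℝ} (hZ : 0 ≤ Z) (hne : 1 ≤ ne) (hnf : 0 < nf)
    (hcg : 0 ≤ cg) (hB0 : 0 ≤ B) (hB : B ≤ Xs) (hI0 : 0 ≤ I1) (hI : I1 ≤ I2) :
    2 * Real.pi * Z / (Real.sqrt 3 * ne) * (cg * (nf⁻¹ * B) * I1) ≤
      2 * Real.pi / Real.sqrt 3 * cg * Xs * (Z / (ne * nf) * I2) := by
  have h3 : 0 < Real.sqrt 3 := by positivity
  have hπ := Real.pi_pos
  have e2 : B * I1 ≤ Xs * I2 := mul_le_mul hB hI hI0 (hB0.trans hB)
  have e3 : 0 ≤ 2 * Real.pi * Z / (Real.sqrt 3 * ne) * (cg * nf⁻¹) := by positivity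
  calc 2 * Real.pi * Z / (Real.sqrt 3 * ne) * (cg * (nf⁻¹ * B) * I1)
      = 2 * Real.pi * Z / (Real.sqrt 3 * ne) * (cg * nf⁻¹) * (B * I1) := by ring
    _ ≤ 2 * Real.pi * Z / (Real.sqrt 3 * ne) * (cg * nf⁻¹) * (Xs * I2) :=
        mul_le_mul_of_nonneg_left e2 e3
    _ = _ := by
        have hne0 : ne ≠ 0 := by linarith
        field_simp

open Classical in
/-- **the one-step inequality, all gcds dual, the factor `1/nm e` kept** -/
theorem one_step_e {σ ε : ℝ} (hσ : 0 < σ) (hσ1 : σ ≤ 1 / 2) (hε : 0 < ε) :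
    ∃ C : ℝ, 1 ≤ C ∧ ∀ X Z : ℝ, 1 ≤ X → 1 ≤ Z → ∀ w : Eis → ℂ, Supp w X →
    V X Z w ≤ C * Z * ∑ h ∈ S X, ‖w h‖ ^ 2 +
      C * X ^ (3 * σ) * ∑ d ∈ S X,
        ∑ e ∈ (S X).filter (· ∣ d), ∑ f ∈ S X,
          Z / (nm e * nm f) * DI σ w X d e f (Lde X Z ε d e) := by
  obtain ⟨Ct, hCt, htail⟩ := tailLe ε hε
  have h3 : 0 < Real.sqrt 3 := by positivity
  have hπ := Real.pi_pos
  have hcs := csig_pos hσ
  set κ : ℝ := 2 * Real.pi / Real.sqrt 3 with hκ
  have hκ0 : 0 < κ := by positivity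
  refine ⟨1 + κ + Ct + κ * csig σ, by nlinarith [mul_pos hκ0 hcs], ?_⟩
  intro X Z hX hZ w hw
  have hX0 : (0 : ℝ) ≤ X := by linarith
  have hZ0 : (0 : ℝ) < Z := by linarith
  set A := S X with hA
  set W := ∑ h ∈ S X, ‖w h‖ ^ 2 with hW
  have hW0 : 0 ≤ W := Finset.sum_nonneg fun _ _ => by positivity
  -- the decomposition
  have hsplit : V X Z w ≤ ∑ d ∈ A, ‖TD X Z w d‖ := by
    have e1 := V_eq_sum_TD hX0 hZ0 w
    have e2 : V X Z w = ‖((V X Z w : ℝ) : ℂ)‖ := by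
      rw [Complex.norm_real, Real.norm_of_nonneg (V_nonneg _ _ _)]
    rw [e2, e1]
    exact norm_sum_le _ _
  -- small gcd
  have hAle : ∑ d ∈ A, ‖TD X Z w d‖ ≤ κ * Z * W + Ct * Z * W + κ * csig σ * X ^ (3 * σ) *
      ∑ d ∈ A, ∑ e ∈ (S X).filter (· ∣ d), ∑ f ∈ S X, Z / (nm e * nm f) *
        DI σ w X d e f (Lde X Z ε d e) := by
    have e1 : ∑ d ∈ A, ‖TD X Z w d‖ ≤ ∑ d ∈ A, (κ * Z * ‖w d‖ ^ 2 +
        ∑ e ∈ pdiv d, ∑ f ∈ S X, 2 * Real.pi * Z / (Real.sqrt 3 * nm e) *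
          ‖∑' l : Eis, if l = 0 then 0 else qf w X Z d e f l‖) := by
      refine Finset.sum_le_sum fun d hd => ?_
      have := norm_TD_le_dual hX hZ0 w hd
      have e : 2 * Real.pi * Z / Real.sqrt 3 = κ * Z := by rw [hκ]; ring
      rw [e] at this
      exact this
    refine e1.trans ?_
    rw [Finset.sum_add_distrib]
    have e2 : ∑ d ∈ A, κ * Z * ‖w d‖ ^ 2 ≤ κ * Z * W := by
      rw [← Finset.mul_sum]
    have e3 : ∑ d ∈ A, ∑ e ∈ pdiv d, ∑ f ∈ S X, 2 * Real.pi * Z / (Real.sqrt 3 * nm e) *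
          ‖∑' l : Eis, if l = 0 then 0 else qf w X Z d e f l‖ ≤
        κ * csig σ * X ^ (3 * σ) *
        (∑ d ∈ A, ∑ e ∈ (S X).filter (· ∣ d), ∑ f ∈ S X, Z / (nm e * nm f) *
          DI σ w X d e f (Lde X Z ε d e)) + Ct * Z * W := by
      have f1 : ∀ d ∈ A, ∀ e ∈ pdiv d, ∀ f ∈ S X, 2 * Real.pi * Z / (Real.sqrt 3 * nm e) *
          ‖∑' l : Eis, if l = 0 then 0 else qf w X Z d e f l‖ ≤
          κ * csig σ * X ^ (3 * σ) * (Z / (nm e * nm f) * DI σ w X d e f (Lde X Z ε d e)) +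
          2 * Real.pi * Z / (Real.sqrt 3 * nm e) *
          ‖∑' l : Eis, (if l = 0 ∨ (nm l : ℝ) ≤ Lde X Z ε d e then 0 else qf w X Z d e f l)‖ := by
        intro d hd e he f hf
        have hd' := (mem_S hX0).1 hd
        have he' := (mem_pdiv hd'.2.1.ne_zero).1 he
        have hf' := (mem_S hX0).1 hf
        have ne1 : (1 : ℝ) ≤ nm e := by exact_mod_cast nm_pos.2 he'.1.ne_zero
        have nf1 : (1 : ℝ) ≤ nm f := by exact_mod_cast nm_pos.2 hf'.2.1.ne_zero
        have nfX : (nm f : ℝ) ≤ X := hf'.1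
        have neX : (nm e : ℝ) ≤ X := by
          refine le_trans ?_ hd'.1
          exact_mod_cast Div277.nm_le_of_dvd hd'.2.1.ne_zero he'.2
        have g1 := one_def hX hZ hσ (by linarith) (ε := ε) hw (d := d) he'.1.ne_zero hf
        have hc0 : 0 ≤ 2 * Real.pi * Z / (Real.sqrt 3 * nm e) :=
          div_nonneg (mul_nonneg (mul_nonneg (by norm_num) hπ.le) hZ0.le)
            (mul_nonneg h3.le (Nat.cast_nonneg _))
        refine (mul_le_mul_of_nonneg_left g1 hc0).trans ?_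
        rw [mul_add]
        refine add_le_add_left ?_ _
        have hL0 : 0 ≤ Lde X Z ε d e := Lde_nonneg hX0 hZ0.le _ _ _
        have g2 : (∫ t : ℝ, (1 + t ^ 2)⁻¹ * ∑ l ∈ bl (Lde X Z ε d e),
            (nm l : ℝ) ^ (-σ) * ‖dsum w X d e f l (σ + t * Complex.I)‖ ^ 2) ≤
            DI σ w X d e f (Lde X Z ε d e) := by
          unfold DI
          refine integral_mono ?_ (integrable_DI σ hX0 w d e f _) (fun t => ?_)
          · have : (fun t : ℝ => (1 + t ^ 2)⁻¹ * ∑ l ∈ bl (Lde X Z ε d e),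
                (nm l : ℝ) ^ (-σ) * ‖dsum w X d e f l (σ + t * Complex.I)‖ ^ 2) =
                fun t : ℝ => ∑ l ∈ bl (Lde X Z ε d e), (nm l : ℝ) ^ (-σ) *
                  ((1 + t ^ 2)⁻¹ * ‖dsum w X d e f l (σ + t * Complex.I)‖ ^ 2) := by
              funext t; rw [Finset.mul_sum]
              refine Finset.sum_congr rfl fun l _ => by ring
            rw [this]
            exact integrable_finsetSum _ fun l _ => (integrable_dsum hX0 w d e f l σ).const_mul _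
          · refine mul_le_mul_of_nonneg_left ?_ (by positivity)
            refine Finset.sum_le_sum fun l hl => ?_
            have hl' := (mem_bl hL0).1 hl
            have : (1 : ℝ) ≤ nm l := by exact_mod_cast nm_pos.2 hl'.1
            have h1 : (nm l : ℝ) ^ (-σ) ≤ 1 := Real.rpow_le_one_of_one_le_of_nonpos this (by linarith)
            calc _ ≤ 1 * ‖dsum w X d e f l (σ + t * Complex.I)‖ ^ 2 := by gcongr
              _ = _ := one_mul _
        have g3 : (nm e * (nm f : ℝ) ^ 2 / Z) ^ σ ≤ X ^ (3 * σ) := by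
          rw [Real.rpow_mul hX0]
          apply Real.rpow_le_rpow (by positivity) _ hσ.le
          calc nm e * (nm f : ℝ) ^ 2 / Z ≤ nm e * (nm f : ℝ) ^ 2 := div_le_self (by positivity) hZ
            _ ≤ X * X ^ 2 := by gcongr
            _ = X ^ (3 : ℝ) := by
              rw [show (3 : ℝ) = ((3 : ℕ) : ℝ) by norm_num, Real.rpow_natCast]; ring
        exact aux_term_e hZ0.le ne1 (lt_of_lt_of_le one_pos nf1) hcs.le
          (Real.rpow_nonneg (div_nonneg (mul_nonneg (by linarith) (sq_nonneg _)) hZ0.le) _) g3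
          (integral_nonneg fun t => mul_nonneg (inv_nonneg.2 (by positivity))
            (Finset.sum_nonneg fun l _ => mul_nonneg (Real.rpow_nonneg (Nat.cast_nonneg _) _)
              (sq_nonneg _))) g2
      have f2 : ∑ d ∈ A, ∑ e ∈ pdiv d, ∑ f ∈ S X, 2 * Real.pi * Z / (Real.sqrt 3 * nm e) *
          ‖∑' l : Eis, if l = 0 then 0 else qf w X Z d e f l‖ ≤
          ∑ d ∈ A, ∑ e ∈ pdiv d, ∑ f ∈ S X,
            (κ * csig σ * X ^ (3 * σ) * (Z / (nm e * nm f) * DI σ w X d e f (Lde X Z ε d e)) +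
          2 * Real.pi * Z / (Real.sqrt 3 * nm e) *
          ‖∑' l : Eis, (if l = 0 ∨ (nm l : ℝ) ≤ Lde X Z ε d e then 0 else qf w X Z d e f l)‖) :=
        Finset.sum_le_sum fun d hd => Finset.sum_le_sum fun e he => Finset.sum_le_sum
          fun f hf => f1 d hd e he f hf
      refine f2.trans ?_
      simp_rw [Finset.sum_add_distrib]
      refine add_le_add ?_ ?_
      · simp_rw [← Finset.mul_sum]
        refine mul_le_mul_of_nonneg_left ?_
          (mul_nonneg (mul_nonneg hκ0.le hcs.le) (Real.rpow_nonneg hX0 _))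
        refine Finset.sum_le_sum fun d hd => ?_
        refine Finset.sum_le_sum_of_subset_of_nonneg (pdiv_subset hX0 hd)
          (fun e _ _ => ?_)
        exact Finset.sum_nonneg fun f _ => mul_nonneg (div_nonneg hZ0.le (mul_nonneg (Nat.cast_nonneg _) (Nat.cast_nonneg _)))
          (DI_nonneg _ _ _ _ _ _ _)
      · exact htail X Z hX hZ w
    linarith
  have hD0 : 0 ≤ ∑ d ∈ A, ∑ e ∈ (S X).filter (· ∣ d), ∑ f ∈ S X, Z / (nm e * nm f) *
      DI σ w X d e f (Lde X Z ε d e) :=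
    Finset.sum_nonneg fun d _ => Finset.sum_nonneg fun e _ => Finset.sum_nonneg fun f _ =>
      mul_nonneg (div_nonneg hZ0.le (mul_nonneg (Nat.cast_nonneg _) (Nat.cast_nonneg _))) (DI_nonneg _ _ _ _ _ _ _)
  set DD := ∑ d ∈ A, ∑ e ∈ (S X).filter (· ∣ d), ∑ f ∈ S X, Z / (nm e * nm f) *
      DI σ w X d e f (Lde X Z ε d e) with hDD
  have hXs : 0 < X ^ (3 * σ) := Real.rpow_pos_of_pos (by linarith) _
  have h := aux_final (v := V X Z w) (SA := ∑ d ∈ A, ‖TD X Z w d‖) (VV := 0) (SB := 0)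
    hκ0 hCt.le hcs.le hZ0.le hW0 hXs.le hD0 (by rw [add_zero]; exact hsplit) hAle le_rfl
  rw [add_zero] at h
  exact h

/-- **(O2)** -/
theorem oneStepE : One319.OneStepE := fun _ _ h1 h2 h3 => one_step_e h1 h2 h3

end Crest.Agent.R017.OneE64
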