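import Crest.Agent.R017.OneDefs_319
import Crest.Agent.R012.NonCubeW_52
import Crest.Agent.R012.Glue1_372
import Crest.Agent.R012.LS2Main_381

/-!
# Row 17, `D.one` : Heath-Brown's large sieve over the complete family (helper411)
-/

set_option autoImplicit false

noncomputable section

namespace Crest.Agent.R017.OneHB411

open Crest.Agent.R012 Crest.Agent.R012.Eis Crest.Agent.R012.LS2

theorem hball : One319.HBall := by
  intro ε hε
  obtain ⟨C, hC, h⟩ := NonCube52.all_bound Sym645.syFacts NonCube52.L1Prop_holds
    (Glue372.HBProp_of_final LS2.hb_final) hε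
  refine ⟨C, hC, fun K N hK hN c => ?_⟩
  have h1 := h N K hN hK (S N) (fun b hb => by
    rw [mem_S (by linarith)] at hb
    exact ⟨hb.2.1, hb.2.2, hb.1⟩) c (bl K) (fun x hx => by
    rw [mem_bl (by linarith)] at hx
    exact hx)
  refine h1.trans (le_of_eq ?_)
  ring


end Crest.Agent.R017.OneHB411
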