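import Crest.Agent.R017.One_V2d_319
import Crest.Agent.R017.One_HB_411
import Crest.Agent.R017.One_E_64

/-!
# Row 17, θ = 1: `V2sf` unconditionally (helper319)
-/

set_option autoImplicit false

namespace Crest.Agent.R017.One319

theorem v2sf' : V2sf := v2sf OneHB411.hball OneE64.oneStepE

end Crest.Agent.R017.One319
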