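import Crest.Agent.R017.TPD_813
import Crest.Agent.R017.OneDefs_319

/-!
# Row 17 (D.one): `V2nat` from `V2sf`

The second moment of a product of two natural sums with divisor-bounded coefficients from the
squarefree parts of the convolution (813's `CS_conv_split`).
-/

set_option autoImplicit false

noncomputable section

open Complex
open scoped ComplexConjugate

namespace Crest.Agent.R017.OneV64

open Crest.Agent.R012 Crest.Agent.R012.Eis Crest.Agent.R012.Mob705 Crest.Agent.R012.Div277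
open Crest.Agent.R012.LS2 Crest.Agent.R012.Gauss880
open Crest.Agent.R017.Sx545 Crest.Agent.R017.PowS571 Crest.Agent.R017.Eul571
open Crest.Agent.R017.TP320 Crest.Agent.R017.TPD813 Crest.Agent.R017.Asm986
open Crest.Agent.R017.CM106 (CS FS sub)
open Crest.Agent.R017.One319 (E4 V2sf V2nat)

lemma E4_nonneg {H A B : ℝ} (hH : 0 ≤ H) (hA : 0 ≤ A) (hB : 0 ≤ B) : 0 ≤ E4 H A B := by
  unfold E4; positivity

/-- shorter sequences gain the product of the shortenings -/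
lemma E4_shorten {H A B a b : ℝ} (hH : 0 ≤ H) (hA : 0 ≤ A) (hB : 0 ≤ B) (ha : 1 ≤ a) (hb : 1 ≤ b) :
    E4 H (A / a) (B / b) ≤ E4 H A B * (a * b)⁻¹ := by
  have ha0 : 0 < a := by linarith
  have hb0 : 0 < b := by linarith
  have e0 : A / a * (B / b) = A * B * (a * b)⁻¹ := by field_simp
  have hi0 : 0 ≤ (a * b)⁻¹ := by positivity
  have hab : 1 ≤ a * b := by nlinarith
  have hi1 : (a * b)⁻¹ ≤ 1 := inv_le_one_of_one_le₀ hab
  have hAa : A / a ≤ A := div_le_self hA ha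
  have h2 : (A / a * (B / b)) ^ 2 ≤ (A * B) ^ 2 * (a * b)⁻¹ := by
    rw [e0, mul_pow]
    have : ((a * b)⁻¹) ^ 2 ≤ (a * b)⁻¹ := by
      rw [pow_two]
      calc (a * b)⁻¹ * (a * b)⁻¹ ≤ (a * b)⁻¹ * 1 := by gcongr
        _ = _ := mul_one _
    gcongr
  have h3 : (A / a * (B / b)) ^ 2 * (A / a) ≤ (A * B) ^ 2 * A * (a * b)⁻¹ := by
    calc (A / a * (B / b)) ^ 2 * (A / a) ≤ ((A * B) ^ 2 * (a * b)⁻¹) * A := by gcongr
      _ = _ := by ring
  have h4 : A / a * (B / b) ^ (5 / 3 : ℝ) ≤ A * B ^ (5 / 3 : ℝ) * (a * b)⁻¹ := by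
    have e1 : (B / b) ^ (5 / 3 : ℝ) ≤ B ^ (5 / 3 : ℝ) * b⁻¹ := by
      rw [Real.div_rpow hB hb0.le, div_eq_mul_inv]
      have : (b ^ (5 / 3 : ℝ))⁻¹ ≤ b⁻¹ := by
        apply inv_anti₀ hb0
        calc b = b ^ (1 : ℝ) := (Real.rpow_one b).symm
          _ ≤ b ^ (5 / 3 : ℝ) := Real.rpow_le_rpow_of_exponent_le hb (by norm_num)
      gcongr
    calc A / a * (B / b) ^ (5 / 3 : ℝ) ≤ A / a * (B ^ (5 / 3 : ℝ) * b⁻¹) := by gcongr
      _ = _ := by rw [mul_inv]; ring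
  unfold E4
  have g1 : H * (A / a * (B / b)) = H * (A * B) * (a * b)⁻¹ := by rw [e0]; ring
  have g2 : H ^ (1 / 3 : ℝ) * (A / a * (B / b)) ^ 2 ≤ H ^ (1 / 3 : ℝ) * (A * B) ^ 2 * (a * b)⁻¹ := by
    calc _ ≤ H ^ (1 / 3 : ℝ) * ((A * B) ^ 2 * (a * b)⁻¹) := by gcongr
      _ = _ := by ring
  have g4 : H ^ (2 / 3 : ℝ) * (A / a * (B / b) ^ (5 / 3 : ℝ)) ≤
      H ^ (2 / 3 : ℝ) * (A * B ^ (5 / 3 : ℝ)) * (a * b)⁻¹ := by
    calc _ ≤ H ^ (2 / 3 : ℝ) * (A * B ^ (5 / 3 : ℝ) * (a * b)⁻¹) := by gcongr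
      _ = _ := by ring
  rw [g1]
  linarith

lemma VC_zero (H : ℝ) : VC H (fun _ => 0) = 0 := by
  unfold VC CS
  simp

lemma VC_smul (H : ℝ) (c : ℂ) (α : Eis → ℂ) : VC H (fun n => c * α n) = ‖c‖ ^ 2 * VC H α := by
  unfold VC
  rw [Finset.mul_sum]
  refine Finset.sum_congr rfl fun k _ => ?_
  rw [CS_smul, norm_mul, mul_pow]

/-- bounded natural sequences -/
theorem nat_of_bdd (hV : V2sf) {ε : ℝ} (hε : 0 < ε) : ∃ C : ℝ, 0 < C ∧ ∀ A B H : ℝ, 1 ≤ A →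
    1 ≤ B → 1 ≤ H → ∀ α β : Eis → ℂ, (∀ n, α n ≠ 0 → IsPrim n ∧ (nm n : ℝ) ≤ A) →
    (∀ n, β n ≠ 0 → IsPrim n ∧ (nm n : ℝ) ≤ B) → (∀ n, ‖α n‖ ≤ 1) → (∀ n, ‖β n‖ ≤ 1) →
    VC H (conv α β) ≤ C * (A * B * H) ^ ε * E4 H A B := by
  classical
  obtain ⟨C0, hC0, hyp⟩ := hV (ε / 2) (by positivity)
  obtain ⟨Ct, hCt, htau⟩ := tau_le_rpow (ε := ε / 8) (by positivity)
  obtain ⟨C1, hC1, hpf⟩ := sum_pf_le (δ := ε / 8) (by positivity)
  have hCt0 : 0 < Ct := by linarith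
  set S1 := Ct * C1 with hS1
  have hS10 : 0 ≤ S1 := by positivity
  refine ⟨S1 ^ 2 * C0 + 1, by positivity, ?_⟩
  intro A B H hA hB hH α β hα hβ hα1 hβ1
  have hA0 : 0 < A := by linarith
  have hB0 : 0 < B := by linarith
  have hH0 : 0 < H := by linarith
  set N1 := ⌊A⌋₊
  set N2 := ⌊B⌋₊
  have hαp : ∀ x, α x ≠ 0 → x ∈ primBall N1 := fun x hx => by
    rw [mem_primBall, Nat.le_floor_iff hA0.le]
    exact ⟨(hα x hx).2, (hα x hx).1⟩
  have hβp : ∀ x, β x ≠ 0 → x ∈ primBall N2 := fun x hx => by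
    rw [mem_primBall, Nat.le_floor_iff hB0.le]
    exact ⟨(hβ x hx).2, (hβ x hx).1⟩
  set X := N1 * N2 with hX
  have hXle : (X : ℝ) ≤ A * B := by
    rw [hX]
    push_cast
    have h1 : (N1 : ℝ) ≤ A := Nat.floor_le hA0.le
    have h2 : (N2 : ℝ) ≤ B := Nat.floor_le hB0.le
    gcongr
  set I := ((primBall X).filter Pf).sigma (fun u => dvs u) with hI
  have hmemI : ∀ x ∈ I, IsPrim x.1 ∧ nm x.1 ≤ X ∧ x.2 ∈ dvs x.1 := by
    intro x hx
    rw [hI, Finset.mem_sigma, Finset.mem_filter, mem_primBall] at hx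
    exact ⟨hx.1.1.2, hx.1.1.1, hx.2⟩
  have hpos : ∀ x ∈ I, (0 : ℝ) < nm x.1 := fun x hx => by
    exact_mod_cast nm_pos.2 (hmemI x hx).1.ne_zero
  have hSum : ∑ x ∈ I, (nm x.1 : ℝ) ^ (-(1 / 2 + ε / 4)) ≤ S1 := by
    rw [hI, Finset.sum_sigma]
    calc ∑ u ∈ (primBall X).filter Pf, ∑ _d ∈ dvs u, (nm u : ℝ) ^ (-(1 / 2 + ε / 4))
        = ∑ u ∈ (primBall X).filter Pf, (tau u : ℝ) * (nm u : ℝ) ^ (-(1 / 2 + ε / 4)) := by
          refine Finset.sum_congr rfl fun u _ => ?_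
          rw [Finset.sum_const, nsmul_eq_mul, tau]
      _ ≤ ∑ u ∈ (primBall X).filter Pf, Ct * (nm u : ℝ) ^ (-(1 / 2 + ε / 8)) := by
          refine Finset.sum_le_sum fun u hu => ?_
          rw [Finset.mem_filter, mem_primBall] at hu
          have hu0 : (0 : ℝ) < nm u := by exact_mod_cast nm_pos.2 hu.1.2.ne_zero
          calc (tau u : ℝ) * (nm u : ℝ) ^ (-(1 / 2 + ε / 4))
              ≤ (Ct * (nm u : ℝ) ^ (ε / 8)) * (nm u : ℝ) ^ (-(1 / 2 + ε / 4)) := by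
                have := htau u hu.1.2.ne_zero
                gcongr
            _ = Ct * (nm u : ℝ) ^ (-(1 / 2 + ε / 8)) := by
                rw [mul_assoc, ← Real.rpow_add hu0]
                congr 2; ring
      _ = Ct * ∑ u ∈ (primBall X).filter Pf, (nm u : ℝ) ^ (-(1 / 2 + ε / 8)) := by
          rw [Finset.mul_sum]
      _ ≤ Ct * C1 := by
          have := hpf X
          gcongr
  set Z : (Σ _ : Eis, Eis) → Eis → ℂ := fun x =>
    sq x.1 (conv (sub α x.2) (sub β (x.1 / x.2))) with hZ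
  have hpt : ∀ k ∈ bl H, ‖CS (conv α β) k‖ ^ 2 ≤
      S1 * ∑ x ∈ I, (nm x.1 : ℝ) ^ (1 / 2 + ε / 4) * ‖CS (Z x) k‖ ^ 2 := by
    intro k _
    rw [CS_conv_split hαp hβp k, Finset.sum_sigma']
    refine (cauchy_w I (fun x => (nm x.1 : ℝ) ^ (1 / 2 + ε / 4)) (fun x hx => by
      have := hpos x hx; positivity)
      (fun x => sy k x.1) (fun x => CS (Z x) k) (fun x hx => ?_)).trans ?_
    · exact Two939.norm_sy_le (hmemI x hx).1
    · have h1 : ∑ x ∈ I, ((nm x.1 : ℝ) ^ (1 / 2 + ε / 4))⁻¹ ≤ S1 := by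
        refine le_trans (le_of_eq (Finset.sum_congr rfl fun x hx => ?_)) hSum
        rw [Real.rpow_neg (hpos x hx).le]
      have h2 : 0 ≤ ∑ x ∈ I, (nm x.1 : ℝ) ^ (1 / 2 + ε / 4) * ‖CS (Z x) k‖ ^ 2 :=
        Finset.sum_nonneg fun x _ => by positivity
      gcongr
  have hVC : VC H (conv α β) ≤
      S1 * ∑ x ∈ I, (nm x.1 : ℝ) ^ (1 / 2 + ε / 4) * VC H (Z x) := by
    unfold VC
    refine (Finset.sum_le_sum hpt).trans (le_of_eq ?_)
    rw [← Finset.mul_sum, Finset.sum_comm]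
    congr 1
    exact Finset.sum_congr rfl fun x _ => by rw [Finset.mul_sum]
  have hE0 : 0 ≤ E4 H A B := E4_nonneg hH0.le hA0.le hB0.le
  have hABH : 1 ≤ A * B * H := by
    have : 1 ≤ A * B := by nlinarith
    nlinarith
  -- one term
  have hone : ∀ x ∈ I, VC H (Z x) ≤ C0 * (A * B * H) ^ (ε / 2) * E4 H A B * (nm x.1 : ℝ)⁻¹ := by
    intro x hx
    obtain ⟨h1, h2, h3⟩ := hmemI x hx
    have hd := isPrim_of_mem_dvs h3
    have he := prim_div h1 h3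
    have hd0 : (0 : ℝ) < nm x.2 := by exact_mod_cast nm_pos.2 hd.ne_zero
    have he0 : (0 : ℝ) < nm (x.1 / x.2) := by exact_mod_cast nm_pos.2 he.ne_zero
    have hd1 : (1 : ℝ) ≤ nm x.2 := by exact_mod_cast nm_pos.2 hd.ne_zero
    have he1 : (1 : ℝ) ≤ nm (x.1 / x.2) := by exact_mod_cast nm_pos.2 he.ne_zero
    have hrhs : 0 ≤ C0 * (A * B * H) ^ (ε / 2) * E4 H A B * (nm x.1 : ℝ)⁻¹ := by positivity
    have hsub : ∀ {α : Eis → ℂ} {A : ℝ} {d : Eis}, (∀ n, α n ≠ 0 → IsPrim n ∧ (nm n : ℝ) ≤ A) →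
        IsPrim d → ∀ n, sub α d n ≠ 0 → IsPrim n ∧ (nm n : ℝ) ≤ A / nm d := by
      intro α A d hα hd n hn
      have h := hα _ hn
      have hd0 : (0 : ℝ) < nm d := by exact_mod_cast nm_pos.2 hd.ne_zero
      refine ⟨h.1.of_mul_left hd, ?_⟩
      rw [le_div_iff₀ hd0]
      have h5 := h.2
      rw [nm_mul] at h5
      push_cast at h5
      linarith
    have hzero : ∀ {α : Eis → ℂ} {A : ℝ} {d : Eis}, (∀ n, α n ≠ 0 → IsPrim n ∧ (nm n : ℝ) ≤ A) →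
        IsPrim d → A / nm d < 1 → ∀ n, sub α d n = 0 := by
      intro α A d hα hd hlt n
      by_contra h0
      obtain ⟨h4, h5⟩ := hsub hα hd n h0
      have : (1 : ℝ) ≤ nm n := by exact_mod_cast nm_pos.2 h4.ne_zero
      linarith
    have hZ0 : (∀ n, sub α x.2 n = 0) ∨ (∀ n, sub β (x.1 / x.2) n = 0) → VC H (Z x) = 0 := by
      intro h
      have : Z x = fun _ => 0 := by
        rw [hZ]
        funext n
        beta_reduce
        unfold TP320.sq conv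
        split_ifs
        · apply Finset.sum_eq_zero
          intro e _
          rcases h with h | h
          · rw [h, zero_mul]
          · rw [h, mul_zero]
        · rfl
      rw [this, VC_zero]
    by_cases g1 : A / nm x.2 < 1
    · rw [hZ0 (Or.inl (hzero hα hd g1))]; exact hrhs
    by_cases g2 : B / nm (x.1 / x.2) < 1
    · rw [hZ0 (Or.inr (hzero hβ he g2))]; exact hrhs
    push Not at g1 g2
    have hb := hyp (A / nm x.2) (B / nm (x.1 / x.2)) H g1 g2 hH (sub α x.2) (sub β (x.1 / x.2))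
      (hsub hα hd) (hsub hβ he) (fun n => hα1 _) (fun n => hβ1 _) x.1
    refine hb.trans ?_
    have e2 : (nm x.1 : ℝ) = nm x.2 * nm (x.1 / x.2) := by
      conv_lhs => rw [← mul_div_of_mem h3, nm_mul]
      push_cast
      rfl
    have e3 := E4_shorten hH0.le hA0.le hB0.le hd1 he1
    rw [← e2] at e3
    have e4 : (A / nm x.2 * (B / nm (x.1 / x.2)) * H) ^ (ε / 2) ≤ (A * B * H) ^ (ε / 2) := by
      apply Real.rpow_le_rpow (by positivity) _ (by positivity)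
      have k1 : A / nm x.2 ≤ A := div_le_self hA0.le hd1
      have k2 : B / nm (x.1 / x.2) ≤ B := div_le_self hB0.le he1
      gcongr
    have e5 : 0 ≤ E4 H (A / nm x.2) (B / nm (x.1 / x.2)) :=
      E4_nonneg hH0.le (by positivity) (by positivity)
    calc C0 * (A / nm x.2 * (B / nm (x.1 / x.2)) * H) ^ (ε / 2) *
          E4 H (A / nm x.2) (B / nm (x.1 / x.2))
        ≤ C0 * (A * B * H) ^ (ε / 2) * (E4 H A B * (nm x.1 : ℝ)⁻¹) := by gcongr
      _ = _ := by ring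
  have hZle : ∀ x ∈ I, (nm x.1 : ℝ) ^ (1 / 2 + ε / 4) * VC H (Z x) ≤
      (C0 * (A * B * H) ^ (ε / 2) * E4 H A B) *
        ((A * B * H) ^ (ε / 2) * (nm x.1 : ℝ) ^ (-(1 / 2 + ε / 4))) := by
    intro x hx
    have hx0 := hpos x hx
    obtain ⟨_, h2, _⟩ := hmemI x hx
    have hxX : (nm x.1 : ℝ) ≤ A * B := le_trans (by exact_mod_cast h2) hXle
    have hxH : (nm x.1 : ℝ) ≤ A * B * H := by
      have : 0 ≤ A * B := by positivity
      nlinarith
    have hb := hone x hx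
    have hc0 : 0 ≤ C0 * (A * B * H) ^ (ε / 2) * E4 H A B := by positivity
    calc (nm x.1 : ℝ) ^ (1 / 2 + ε / 4) * VC H (Z x)
        ≤ (nm x.1 : ℝ) ^ (1 / 2 + ε / 4) *
          (C0 * (A * B * H) ^ (ε / 2) * E4 H A B * (nm x.1 : ℝ)⁻¹) := by gcongr
      _ = (C0 * (A * B * H) ^ (ε / 2) * E4 H A B) *
          ((nm x.1 : ℝ) ^ (ε / 2) * (nm x.1 : ℝ) ^ (-(1 / 2 + ε / 4))) := by
          rw [← Real.rpow_neg_one, ← Real.rpow_add hx0]
          have : (nm x.1 : ℝ) ^ (1 / 2 + ε / 4) * (C0 * (A * B * H) ^ (ε / 2) * E4 H A B *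
              (nm x.1 : ℝ) ^ (-1 : ℝ)) = (C0 * (A * B * H) ^ (ε / 2) * E4 H A B) *
              ((nm x.1 : ℝ) ^ (1 / 2 + ε / 4) * (nm x.1 : ℝ) ^ (-1 : ℝ)) := by ring
          rw [this, ← Real.rpow_add hx0]
          congr 2; ring
      _ ≤ _ := by gcongr
  calc VC H (conv α β)
      ≤ S1 * ∑ x ∈ I, (nm x.1 : ℝ) ^ (1 / 2 + ε / 4) * VC H (Z x) := hVC
    _ ≤ S1 * ∑ x ∈ I, (C0 * (A * B * H) ^ (ε / 2) * E4 H A B) *
        ((A * B * H) ^ (ε / 2) * (nm x.1 : ℝ) ^ (-(1 / 2 + ε / 4))) :=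
        mul_le_mul_of_nonneg_left (Finset.sum_le_sum hZle) hS10
    _ = S1 * ((C0 * (A * B * H) ^ (ε / 2) * E4 H A B) * ((A * B * H) ^ (ε / 2) *
          ∑ x ∈ I, (nm x.1 : ℝ) ^ (-(1 / 2 + ε / 4)))) := by
        rw [← Finset.mul_sum, ← Finset.mul_sum]
    _ ≤ S1 * ((C0 * (A * B * H) ^ (ε / 2) * E4 H A B) * ((A * B * H) ^ (ε / 2) * S1)) := by
        gcongr
    _ = S1 ^ 2 * C0 * (((A * B * H) ^ (ε / 2) * (A * B * H) ^ (ε / 2)) * E4 H A B) := by ring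
    _ = S1 ^ 2 * C0 * ((A * B * H) ^ ε * E4 H A B) := by
        rw [← Real.rpow_add (by linarith)]
        congr 3; ring
    _ ≤ (S1 ^ 2 * C0 + 1) * ((A * B * H) ^ ε * E4 H A B) := by
        gcongr
        linarith
    _ = _ := by ring

/-- **`V2nat` from `V2sf`** -/
theorem v2nat (hV : V2sf) : V2nat := by
  intro r ε hε
  obtain ⟨C0, hC0, hyp⟩ := nat_of_bdd hV (ε := ε / 2) (by positivity)
  have hr0 : (0 : ℝ) < 8 * (r + 1) := by positivity
  obtain ⟨Ct, hCt, htau⟩ := tau_le_rpow (ε := ε / (8 * (r + 1))) (by positivity)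
  have hCt0 : 0 < Ct := by linarith
  refine ⟨(Ct ^ r) ^ 4 * C0, by positivity, ?_⟩
  intro A B H hA hB hH α β hα hβ
  have hA0 : 0 < A := by linarith
  have hB0 : 0 < B := by linarith
  have hH0 : 0 < H := by linarith
  have hAB : 1 ≤ A * B := by nlinarith
  have hAB0 : 0 < A * B := by positivity
  set T : ℝ := (Ct * (A * B) ^ (ε / (8 * (r + 1)))) ^ r with hT
  have hT0 : 0 < T := by rw [hT]; positivity
  have hbd : ∀ {γ : Eis → ℂ} {X : ℝ}, X ≤ A * B → LBp744.Cf r X γ →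
      ∀ n, ‖((T⁻¹ : ℝ) : ℂ) * γ n‖ ≤ 1 := by
    intro γ X hX hγ n
    by_cases h0 : γ n = 0
    · rw [h0, mul_zero, norm_zero]; exact zero_le_one
    · have hp := hγ.fs.prim n h0
      have h1 : (nm n : ℝ) ≤ A * B := (hγ.le n h0).trans hX
      have h2 : ‖γ n‖ ≤ T := by
        refine (hγ.bd n).trans ?_
        rw [hT]
        apply pow_le_pow_left₀ (Nat.cast_nonneg _)
        refine (htau n hp.ne_zero).trans ?_
        gcongr
      rw [norm_mul, Complex.norm_real, Real.norm_of_nonneg (by positivity), inv_mul_le_iff₀ hT0,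
        mul_one]
      exact h2
  have hαA : A ≤ A * B := by nlinarith
  have hβB : B ≤ A * B := by nlinarith
  have h1 := hyp A B H hA hB hH (fun n => ((T⁻¹ : ℝ) : ℂ) * α n) (fun n => ((T⁻¹ : ℝ) : ℂ) * β n)
    (fun n hn => ⟨hα.fs.prim n (right_ne_zero_of_mul hn), hα.le n (right_ne_zero_of_mul hn)⟩)
    (fun n hn => ⟨hβ.fs.prim n (right_ne_zero_of_mul hn), hβ.le n (right_ne_zero_of_mul hn)⟩)
    (hbd hαA hα) (hbd hβB hβ)
  have e1 : conv (fun n => ((T⁻¹ : ℝ) : ℂ) * α n) (fun n => ((T⁻¹ : ℝ) : ℂ) * β n) =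
      fun n => (((T⁻¹ : ℝ) : ℂ) * ((T⁻¹ : ℝ) : ℂ)) * conv α β n := by
    funext n; exact conv_smul _ _ _ _ n
  rw [e1, VC_smul] at h1
  have e2 : ‖((T⁻¹ : ℝ) : ℂ) * ((T⁻¹ : ℝ) : ℂ)‖ ^ 2 = (T ^ 4)⁻¹ := by
    rw [norm_mul, Complex.norm_real, Real.norm_of_nonneg (by positivity)]
    rw [← pow_two, ← pow_mul, inv_pow]
  rw [e2, inv_mul_le_iff₀ (by positivity)] at h1
  have e3 : ∑ k ∈ bl H, ‖CS α k * CS β k‖ ^ 2 = VC H (conv α β) := by
    unfold VC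
    refine Finset.sum_congr rfl fun k _ => ?_
    rw [CS_conv hα.fs hβ.fs]
  rw [e3]
  refine h1.trans ?_
  have hE0 : 0 ≤ E4 H A B := E4_nonneg hH0.le hA0.le hB0.le
  have e4 : T ^ 4 = (Ct ^ r) ^ 4 * (A * B) ^ (ε / (8 * (r + 1)) * (r * 4)) := by
    rw [hT, mul_pow, mul_pow]
    congr 1
    rw [← pow_mul, ← Real.rpow_natCast, ← Real.rpow_mul hAB0.le]
    push_cast
    rfl
  have e5 : (A * B) ^ (ε / (8 * (r + 1)) * (r * 4)) ≤ (A * B * H) ^ (ε / 2) := by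
    calc (A * B) ^ (ε / (8 * (r + 1)) * (r * 4)) ≤ (A * B) ^ (ε / 2) := by
          apply Real.rpow_le_rpow_of_exponent_le hAB
          rw [div_mul_eq_mul_div, div_le_div_iff₀ hr0 (by norm_num)]
          have hr : (0 : ℝ) ≤ r := Nat.cast_nonneg r
          nlinarith
      _ ≤ (A * B * H) ^ (ε / 2) := by
          apply Real.rpow_le_rpow hAB0.le _ (by positivity)
          nlinarith
  rw [e4]
  calc (Ct ^ r) ^ 4 * (A * B) ^ (ε / (8 * (r + 1)) * (r * 4)) *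
        (C0 * (A * B * H) ^ (ε / 2) * E4 H A B)
      ≤ (Ct ^ r) ^ 4 * (A * B * H) ^ (ε / 2) * (C0 * (A * B * H) ^ (ε / 2) * E4 H A B) := by
        gcongr
    _ = (Ct ^ r) ^ 4 * C0 * (((A * B * H) ^ (ε / 2) * (A * B * H) ^ (ε / 2)) * E4 H A B) := by ring
    _ = (Ct ^ r) ^ 4 * C0 * ((A * B * H) ^ ε * E4 H A B) := by
        rw [← Real.rpow_add (by positivity)]
        congr 3; ring
    _ = _ := by ring

end Crest.Agent.R017.OneV64
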