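import Crest.Agent.R017.One_Asm2_770
import Crest.Agent.R017.One_SideM2_64
import Crest.Agent.R017.One_V2nat_64
import Crest.Agent.R017.One_V2_319
import Crest.Agent.R017.One_BxSum_986
import Crest.Agent.R017.One_PVs_61
import Crest.Agent.R017.One_FYc_579
import Crest.Agent.R017.Box_271

/-!
# Row 17, θ = 1: `BOX3 1` and `DOUT3 1` unconditionally (helper319)

Leaves: HBall (411), OneStepE, V2nat, SideM2 (64), V2sf (319), PVs (61), FYcount (579, 61, 90),
BxSum (986), LP*, SubSum (90, 770), Comb, TgbEq, assembly (770).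
-/

set_option autoImplicit false

namespace Crest.Agent.R017.One319

open Crest.Agent.R017.B770 Crest.Agent.R017.End699

theorem v2nat' : V2nat := OneV64.v2nat v2sf'

theorem sideM2' : SideM2 := OneS64.sideM2 v2nat'

/-- **BOX3 1** -/
theorem box3_one' : BOX3 1 := box3_one sideM2' bxSum FY61.pvs One579.fycount

/-- **DOUT3 1** -/
theorem dout3_one : DOUT3 1 :=
  Box271.dout3_of_box (by norm_num) le_rfl (End699.pf_one Set.univ) box3_one'

/-- so only `θ < 1` remains in `SecBox` -/
theorem secBox_of_lt (h : ∀ θ : ℝ, 7 / 8 < θ → θ < 1 → PF Set.univ θ → BOX3 θ) :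
    ∀ θ : ℝ, 7 / 8 < θ → θ ≤ 1 → PF Set.univ θ → BOX3 θ := by
  intro θ h1 h2 h3
  rcases h2.lt_or_eq with h4 | h4
  · exact h θ h1 h4 h3
  · rw [h4]; exact box3_one'

end Crest.Agent.R017.One319
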