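import Crest.Agent.R017.Box_271
import Crest.Agent.R017.BoxEv_271
import Crest.Agent.R017.One_Box_319
import Crest.Agent.R017.DefQ_986

/-!
# Row 17, D.box for a class of data (helper986, after helper271's `Box_271`)

* `BOX3Q Pk θ` : the box inequality for the data in `Pk`
* `dout3Q_of_box` : `BOX3Q Pk θ → PF univ θ → DOUT3Q Pk θ`
* `box3Q_of_ev` : `BOX3Q` from the eventual form
* `secQ_of_lt` : only `θ < 1` is open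
-/

set_option autoImplicit false

noncomputable section

open MeasureTheory Complex Set Filter Topology
open scoped ComplexConjugate ContDiff

namespace Crest.Agent.R017.BoxQ986

open Crest.Agent.R012 Crest.Agent.R012.Eis Crest.Agent.R012.Mob705 Crest.Agent.R012.Gauss880
open Crest.Agent.R012.PSer47 Crest.Agent.R012.Div277 Crest.Agent.R012.Weight600
open Crest.Agent.R017.End699 Crest.Agent.R017.Sx545 Crest.Agent.R017.B770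
open Crest.Agent.R017.Asm986 Crest.Agent.R017.HBS271 Crest.Agent.R017.Sup271
open Crest.Agent.R017.BoxP271 Crest.Agent.R017.Box271
open Crest.Agent.R017.HB645 (PS PM cM zz one_le_zz exp_le_zz_pow log_zz_le mem_boxes)

open Classical in
/-- **the part of `DOUT3` over the `k` with both characters nonprincipal** -/
theorem box_partQ {θ : ℝ} {r : ℕ} {y δ η : ℝ} {L : ℕ} (hL : 1 ≤ L) {Pk : DPar → Prop}
    (hB : BOX3p θ r y δ η L Pk (fun _ _ _ _ _ _ _ => True))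
    (P : DPar) (hP : P.OK) (hPk : Pk P) {ε C₁ : ℝ} (hε : 0 < ε) (hC₁ : 0 < C₁) : ∃ C A : ℝ, 0 ≤ C ∧ 0 ≤ A ∧
    ∀ (Q₀ Q : ℝ), 1 ≤ Q → Q ≤ Q₀ → ∀ κ : ℝ, -1 ≤ κ → κ ≤ δ * Real.log Q₀ →
    ∀ (J : Finset (Fin r)) (H : ℝ), 0 < H → H ≤ Q₀ ^ (1 / 2 + (y + δ) + η) →
    ∀ d₁ d₂ d₃ e : Eis, d₁ ≠ 0 → d₂ ≠ 0 → d₃ ≠ 0 → Sm P.n e →
      (∀ p : Eis, Prime p → p ∣ e → p ^ 5 ∣ e) →
      Q * nm e ≤ C₁ * Q₀ * (CJ r y Q₀ J * Real.exp κ / Q₀ ^ (y + δ)) →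
    ∀ (t₁ t₂ τ : ℝ) (𝒟 : Finset Eis), (∀ q ∈ 𝒟, Sm P.n q ∧ Squarefree q) →
    ∀ u v : Eis → ℝ, (∀ q, 0 ≤ u q ∧ u q ≤ C₁) → (∀ q, 0 ≤ v q ∧ v q ≤ C₁) →
      ∑ q ∈ 𝒟, ‖∑' k : Eis, if k ≠ 0 ∧ q ^ 2 ∣ k ∧ (NPk P.n P.φ P.l₁ k ∧ NPm P.n P.ψ P.l₂ k) then
        P.wk τ H k * (prin0 d₃ k * sy k e) *
          (P.am r y Q₀ (κ - u q) J d₁ t₁ k * P.mo (Q * Real.exp (-(v q))) d₂ t₂ k) else 0‖ ≤
        C * ((nm d₁ : ℝ) * nm d₂ * nm d₃ * nm e * Q₀) ^ ε * (1 + |t₁| + |t₂| + |τ|) ^ A *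
          TgB θ η (if δ / 2 * Real.log Q₀ ≤ κ then η else -η) (y + δ) Q₀ Q H
            (CJ r y Q₀ J * Real.exp κ) := by
  obtain ⟨β, hβ0, hβ⟩ := exists_log_supp hP.V
  obtain ⟨hW1, hW2⟩ := HB645.log_weight' hP.V.smooth hP.V.cpt hP.V.supp
  set C₂ : ℝ := β + C₁ + 2 * L + 4 with hC₂
  have hL0 : (0 : ℝ) ≤ L := Nat.cast_nonneg _
  have hL1 : (1 : ℝ) ≤ L := by exact_mod_cast hL
  have hC₂0 : 0 < C₂ := by positivity
  obtain ⟨Cb, Ab, hCb0, hAb0, hCb⟩ := hB P hP hPk (ε / 2) C₂ (by positivity) hC₂0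
  obtain ⟨Ch, hCh0, hCh⟩ := hb_outer hW1 hW2 hβ0 hC₁.le hβ hL ⌈Ab⌉₊
  obtain ⟨Cp, hCp0, hCp⟩ := poly_exp (2 * L) (show 0 < ε / 2 by positivity)
  obtain ⟨βU, hβU1, hβU⟩ := Asm986.sw_bound hP.U
  refine ⟨Ch * Cp * Cb, Ab, by positivity, hAb0, ?_⟩
  intro Q₀ Q hQ hQQ κ hκ1 hκ2 J H hH hH2 d₁ d₂ d₃ e hd₁ hd₂ hd₃ he he5 hQe t₁ t₂ τ 𝒟 h𝒟 u v hu hv
  have hQ0 : 0 < Q := by linarith
  have hQ₀ : 1 ≤ Q₀ := hQ.trans hQQ
  have hQ₀0 : 0 < Q₀ := by linarith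
  have hlQ : 0 ≤ Real.log Q := Real.log_nonneg hQ
  have hCJ := CJ_pos (r := r) (y := y) hQ₀0 J
  set N : ℕ := ⌊βU * H⌋₊ with hN
  have hU0 : ∀ k, N < nm k → P.U (nm k / H) = 0 := by
    intro k hk
    by_contra hne
    have h1 := (hβU _ hne).2
    rw [div_le_iff₀ hH] at h1
    have h2 : nm k ≤ N := Nat.le_floor h1
    omega
  have hwk : ∀ k, N < nm k → P.wk τ H k = 0 := by
    intro k hk
    unfold DPar.wk
    rw [hU0 k hk, mul_zero]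
  set z : ℕ := zz L (Real.log Q + (β + C₁)) with hz
  have hz1 : 1 ≤ z := one_le_zz _ _
  have hyβ : 0 ≤ Real.log Q + (β + C₁) := by positivity
  have hlz : Real.log z ≤ Real.log Q / L + (β + C₁ + 1) := by
    refine (log_zz_le (L := L) hyβ).trans ?_
    rw [add_div]
    have : (β + C₁) / L ≤ β + C₁ := div_le_self (by positivity) hL1
    linarith
  set X : ℕ := ⌈Real.exp (Real.log Q + (β + C₁))⌉₊ with hX
  have hXX : Real.exp (Real.log Q + (β + C₁)) ≤ X := Nat.le_ceil _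
  set Tg : ℝ := TgB θ η (if δ / 2 * Real.log Q₀ ≤ κ then η else -η) (y + δ) Q₀ Q H
    (CJ r y Q₀ J * Real.exp κ) with hTg
  have hTg0 : 0 ≤ Tg := TgB_nonneg' hQ₀0.le hQ0.le hH.le (by positivity)
  set D : ℝ := (nm d₁ : ℝ) * nm d₂ * nm d₃ * nm e * Q₀ with hD
  have hm1 : (1 : ℝ) ≤ nm d₁ := by exact_mod_cast nm_pos.mpr hd₁
  have hm2 : (1 : ℝ) ≤ nm d₂ := by exact_mod_cast nm_pos.mpr hd₂
  have hm3 : (1 : ℝ) ≤ nm d₃ := by exact_mod_cast nm_pos.mpr hd₃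
  have hm4 : (1 : ℝ) ≤ nm e := by exact_mod_cast nm_pos.mpr he.1.ne_zero
  have hQ₀D : Q₀ ≤ D := (X_facts hm1 hm2 hm3 hm4 hQ₀).1
  have hD1 : 1 ≤ D := hQ₀.trans hQ₀D
  set T : ℝ := 1 + |t₁| + |t₂| + |τ| with hT
  have a1 := abs_nonneg t₁
  have a2 := abs_nonneg t₂
  have a3 := abs_nonneg τ
  have hT1 : 1 ≤ T := by rw [hT]; linarith
  set B : ℝ := Cb * D ^ (ε / 2) * T ^ Ab * Tg with hBdef
  have hB0 : 0 ≤ B := by positivity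
  have key := hCh (Real.log Q) z hlQ hz1 (exp_le_zz_pow hL _) X hXX 𝒟 (fun q => -(v q))
    (by
      intro q _
      rw [abs_neg, abs_of_nonneg (hv q).1]
      exact (hv q).2)
    (fun q => (ball N).filter (fun k => k ≠ 0 ∧ q ^ 2 ∣ k ∧
      (NPk P.n P.φ P.l₁ k ∧ NPm P.n P.ψ P.l₂ k)))
    (fun q k => P.wk τ H k * (prin0 d₃ k * sy k e) * P.am r y Q₀ (κ - u q) J d₁ t₁ k)
    (fun _ k => P.ch d₂ t₂ k) (fun q _ k _ => isChar_ch P hP d₂ t₂ k) B hB0 ?_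
  · -- left side
    have e1 : ∀ q ∈ 𝒟, ‖∑' k : Eis, if k ≠ 0 ∧ q ^ 2 ∣ k ∧
        (NPk P.n P.φ P.l₁ k ∧ NPm P.n P.ψ P.l₂ k) then
        P.wk τ H k * (prin0 d₃ k * sy k e) *
          (P.am r y Q₀ (κ - u q) J d₁ t₁ k * P.mo (Q * Real.exp (-(v q))) d₂ t₂ k) else 0‖ =
        ‖∑ k ∈ (ball N).filter (fun k => k ≠ 0 ∧ q ^ 2 ∣ k ∧
          (NPk P.n P.φ P.l₁ k ∧ NPm P.n P.ψ P.l₂ k)),
          (P.wk τ H k * (prin0 d₃ k * sy k e) * P.am r y Q₀ (κ - u q) J d₁ t₁ k) *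
          ∑ b ∈ primBall X, (muE b : ℂ) * (P.ch d₂ t₂ k b *
            (fun u : ℝ => P.V (Real.exp u)) (Real.log (nm b) - (Real.log Q + -(v q))))‖ := by
      intro q _
      rw [tsum_cond (N := N)]
      · congr 1
        refine Finset.sum_congr rfl fun k _ => ?_
        rw [mo_eq P hP hβ d₂ t₂ k hQ0 (X := X)]
        · ring
        · refine (Real.exp_le_exp.mpr ?_).trans hXX
          have := (hv q).1
          linarith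
      · intro k hk
        rw [hwk k hk]; ring
    rw [Finset.sum_congr rfl e1]
    refine key.trans ?_
    have g1 : (1 + Real.log Q) ^ (2 * L) ≤ Cp * D ^ (ε / 2) := by
      refine (hCp _ hlQ).trans ?_
      refine mul_le_mul_of_nonneg_left ?_ hCp0
      rw [mul_comm, ← Real.rpow_def_of_pos hQ0]
      exact Real.rpow_le_rpow hQ0.le (hQQ.trans hQ₀D) (by positivity)
    have g2 : D ^ ε = D ^ (ε / 2) * D ^ (ε / 2) := by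
      rw [← Real.rpow_add (by linarith)]
      congr 1; ring
    calc Ch * (1 + Real.log Q) ^ (2 * L) * B ≤ Ch * (Cp * D ^ (ε / 2)) * B := by gcongr
      _ = Ch * Cp * Cb * D ^ ε * T ^ Ab * Tg := by rw [hBdef, g2]; ring
  · -- boxes
    intro j hj c hc t
    rw [Finset.mem_Icc] at hj
    rw [mem_boxes] at hc
    have hjL : (j : ℝ) ≤ L := by exact_mod_cast hj.2
    have h1 := hCb Q₀ Q hQ hQQ κ hκ1 hκ2 J H hH hH2 d₁ d₂ d₃ e hd₁ hd₂ hd₃ he he5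
      (hQe.trans (by
        have : C₁ ≤ C₂ := by rw [hC₂]; linarith
        gcongr)) t₁ (t₂ + t) τ 𝒟 h𝒟 u
      (fun q => ⟨(hu q).1, (hu q).2.trans (by rw [hC₂]; linarith)⟩) z hz1
      (hlz.trans (by rw [hC₂]; linarith)) j hj.1 hj.2 c
      (hc.2.1.trans (by rw [hC₂]; linarith))
      (fun i => (hc.2.2 i).trans (by rw [hC₂]; linarith)) trivial
    have e1 : ∀ q ∈ 𝒟, ‖P.bx r y Q₀ (κ - u q) J H d₁ d₂ d₃ e t₁ (t₂ + t) τ z c q‖ =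
        ‖∑ k ∈ (ball N).filter (fun k => k ≠ 0 ∧ q ^ 2 ∣ k ∧
          (NPk P.n P.φ P.l₁ k ∧ NPm P.n P.ψ P.l₂ k)),
          P.wk τ H k * (prin0 d₃ k * sy k e) * P.am r y Q₀ (κ - u q) J d₁ t₁ k *
            GC (P.ch d₂ t₂ k) z c t‖ := by
      intro q _
      unfold DPar.bx DPar.NP2
      congr 1
      have e2 := tsum_cond (N := N) (c := fun k => k ≠ 0 ∧ q ^ 2 ∣ k ∧
        (NPk P.n P.φ P.l₁ k ∧ NPm P.n P.ψ P.l₂ k))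
        (F := fun k => P.wk τ H k * (prin0 d₃ k * sy k e) *
        (P.am r y Q₀ (κ - u q) J d₁ t₁ k * GC (P.ch d₂ (t₂ + t) k) z c 0)) (by
          intro k hk
          rw [hwk k hk]; ring)
      refine Eq.trans ?_ (e2.trans ?_)
      · refine tsum_congr fun k => ?_
        congr 1
      · refine Finset.sum_congr rfl fun k _ => ?_
        rw [GC_shift P d₂ t₂ t _ k c]
        ring
    rw [Finset.sum_congr rfl e1] at h1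
    refine h1.trans ?_
    have b1 : 1 + |t₁| + |t₂ + t| + |τ| ≤ T * (1 + |t|) := T_shift t₁ t₂ t τ
    have b2 : (1 + |t₁| + |t₂ + t| + |τ|) ^ Ab ≤ T ^ Ab * (1 + |t|) ^ ⌈Ab⌉₊ := by
      have h3 := abs_nonneg t
      have h4 := abs_nonneg (t₂ + t)
      calc (1 + |t₁| + |t₂ + t| + |τ|) ^ Ab ≤ (T * (1 + |t|)) ^ Ab :=
            Real.rpow_le_rpow (by positivity) b1 hAb0
        _ = T ^ Ab * (1 + |t|) ^ Ab := Real.mul_rpow (by linarith) (by positivity)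
        _ ≤ T ^ Ab * (1 + |t|) ^ ((⌈Ab⌉₊ : ℕ) : ℝ) := by
            refine mul_le_mul_of_nonneg_left ?_ (by positivity)
            exact Real.rpow_le_rpow_of_exponent_le (by linarith) (Nat.le_ceil _)
        _ = _ := by rw [Real.rpow_natCast]
    calc Cb * D ^ (ε / 2) * (1 + |t₁| + |t₂ + t| + |τ|) ^ Ab * Tg
        ≤ Cb * D ^ (ε / 2) * (T ^ Ab * (1 + |t|) ^ ⌈Ab⌉₊) * Tg := by gcongr
      _ = B * (1 + |t|) ^ ⌈Ab⌉₊ := by rw [hBdef]; ring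

/-- **D.box** at fixed exponents -/
theorem dout3iQ_of_box3p {θ : ℝ} (hθ : 7 / 8 < θ) (hθ1 : θ ≤ 1) (hPF : PF Set.univ θ) {r : ℕ}
    {y δ η : ℝ} {L : ℕ} (hr : 0 < r) (hy : 0 < y) (hδ : 0 < δ) (hyδ : y + δ < 1)
    (hδ2 : δ ≤ 1 / 1000) (hη : 0 < η) (hη2 : η ≤ δ / 16) (hL : 1 ≤ L)
    {Pk : DPar → Prop} (hB : BOX3p θ r y δ η L Pk (fun _ _ _ _ _ _ _ => True)) :
    DOUT3iQ Pk θ r y δ η := by
  classical
  intro P hP hPk ε C₁ hε hC₁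
  obtain ⟨Ca, Aa, hCa0, hAa0, hCa⟩ := box_partQ hL hB P hP hPk hε hC₁
  obtain ⟨Cp, Ap, hCp0, hAp0, hCp⟩ := princ_part hθ hθ1 hPF hr hy hδ hyδ hδ2 hη hη2 P hP hε hC₁
  obtain ⟨βU, hβU1, hβU⟩ := Asm986.sw_bound hP.U
  refine ⟨Ca + Cp, max Aa Ap, by positivity, le_max_of_le_left hAa0, ?_⟩
  intro Q₀ Q hQ hQQ κ hκ1 hκ2 J H hH hH2 d₁ d₂ d₃ e hd₁ hd₂ hd₃ he he5 hQe t₁ t₂ τ 𝒟 h𝒟 u v hu hv
  have ha := hCa Q₀ Q hQ hQQ κ hκ1 hκ2 J H hH hH2 d₁ d₂ d₃ e hd₁ hd₂ hd₃ he he5 hQe t₁ t₂ τ 𝒟 h𝒟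
    u v hu hv
  have hp := hCp Q₀ Q hQ hQQ κ hκ1 hκ2 J H hH hH2 d₁ d₂ d₃ e hd₁ hd₂ hd₃ he t₁ t₂ τ 𝒟 h𝒟
    u v hu hv
  have hQ0 : 0 < Q := by linarith
  have hQ₀0 : 0 < Q₀ := by linarith
  have hCJ := CJ_pos (r := r) (y := y) hQ₀0 J
  set N : ℕ := ⌊βU * H⌋₊ with hN
  have hwk : ∀ k, N < nm k → P.wk τ H k = 0 := by
    intro k hk
    have h0 : P.U (nm k / H) = 0 := by
      by_contra hne
      have h1 := (hβU _ hne).2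
      rw [div_le_iff₀ hH] at h1
      have h2 : nm k ≤ N := Nat.le_floor h1
      omega
    unfold DPar.wk
    rw [h0, mul_zero]
  have hsplit : ∀ q, P.ds r y Q₀ (κ - u q) J (Q * Real.exp (-(v q))) H d₁ d₂ d₃ e t₁ t₂ τ q =
      (∑' k : Eis, if k ≠ 0 ∧ q ^ 2 ∣ k ∧ (NPk P.n P.φ P.l₁ k ∧ NPm P.n P.ψ P.l₂ k) then
        P.wk τ H k * (prin0 d₃ k * sy k e) *
          (P.am r y Q₀ (κ - u q) J d₁ t₁ k * P.mo (Q * Real.exp (-(v q))) d₂ t₂ k) else 0) +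
      ∑' k : Eis, if k ≠ 0 ∧ q ^ 2 ∣ k ∧ (NPk P.n P.φ P.l₁ k ∧ ¬ NPm P.n P.ψ P.l₂ k) then
        P.wk τ H k * (prin0 d₃ k * sy k e) *
          (P.am r y Q₀ (κ - u q) J d₁ t₁ k * P.mo (Q * Real.exp (-(v q))) d₂ t₂ k) else 0 := by
    intro q
    have h0 : ∀ k, N < nm k → P.wk τ H k * (prin0 d₃ k * sy k e) *
          (P.am r y Q₀ (κ - u q) J d₁ t₁ k * P.mo (Q * Real.exp (-(v q))) d₂ t₂ k) = 0 := by
      intro k hk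
      rw [hwk k hk]; ring
    have e1 := tsum_cond (N := N) (c := fun k => k ≠ 0 ∧ q ^ 2 ∣ k ∧ NPk P.n P.φ P.l₁ k) h0
    have e2 := tsum_cond (N := N) (c := fun k => k ≠ 0 ∧ q ^ 2 ∣ k ∧
      (NPk P.n P.φ P.l₁ k ∧ NPm P.n P.ψ P.l₂ k)) h0
    have e3 := tsum_cond (N := N) (c := fun k => k ≠ 0 ∧ q ^ 2 ∣ k ∧
      (NPk P.n P.φ P.l₁ k ∧ ¬ NPm P.n P.ψ P.l₂ k)) h0
    have e4 : P.ds r y Q₀ (κ - u q) J (Q * Real.exp (-(v q))) H d₁ d₂ d₃ e t₁ t₂ τ q =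
        ∑' k : Eis, if (k ≠ 0 ∧ q ^ 2 ∣ k ∧ NPk P.n P.φ P.l₁ k) then
          P.wk τ H k * (prin0 d₃ k * sy k e) *
          (P.am r y Q₀ (κ - u q) J d₁ t₁ k * P.mo (Q * Real.exp (-(v q))) d₂ t₂ k) else 0 := by
      unfold DPar.ds
      refine tsum_congr fun k => ?_
      congr 1
    rw [e4, e1, e2, e3, Finset.sum_filter, Finset.sum_filter, Finset.sum_filter, ← Finset.sum_add_distrib]
    refine Finset.sum_congr rfl fun k _ => ?_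
    by_cases h1 : k ≠ 0 ∧ q ^ 2 ∣ k ∧ NPk P.n P.φ P.l₁ k
    · by_cases h2 : NPm P.n P.ψ P.l₂ k
      · rw [if_pos h1, if_pos ⟨h1.1, h1.2.1, h1.2.2, h2⟩, if_neg fun h => h.2.2.2 h2, add_zero]
      · rw [if_pos h1, if_neg fun h => h2 h.2.2.2, if_pos ⟨h1.1, h1.2.1, h1.2.2, h2⟩, zero_add]
    · rw [if_neg h1, if_neg fun h => h1 ⟨h.1, h.2.1, h.2.2.1⟩,
        if_neg fun h => h1 ⟨h.1, h.2.1, h.2.2.1⟩, add_zero]
  set Tg : ℝ := TgB θ η (if δ / 2 * Real.log Q₀ ≤ κ then η else -η) (y + δ) Q₀ Q H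
    (CJ r y Q₀ J * Real.exp κ) with hTg
  have hTg0 : 0 ≤ Tg := TgB_nonneg' hQ₀0.le hQ0.le hH.le (by positivity)
  have a1 := abs_nonneg t₁
  have a2 := abs_nonneg t₂
  have a3 := abs_nonneg τ
  have hT1 : 1 ≤ 1 + |t₁| + |t₂| + |τ| := by linarith
  have m1 : (1 + |t₁| + |t₂| + |τ|) ^ Aa ≤ (1 + |t₁| + |t₂| + |τ|) ^ (max Aa Ap) :=
    Real.rpow_le_rpow_of_exponent_le hT1 (le_max_left _ _)
  have m2 : (1 + |t₁| + |t₂| + |τ|) ^ Ap ≤ (1 + |t₁| + |t₂| + |τ|) ^ (max Aa Ap) :=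
    Real.rpow_le_rpow_of_exponent_le hT1 (le_max_right _ _)
  have hD0 : 0 ≤ ((nm d₁ : ℝ) * nm d₂ * nm d₃ * nm e * Q₀) ^ ε := by positivity
  set Dε : ℝ := ((nm d₁ : ℝ) * nm d₂ * nm d₃ * nm e * Q₀) ^ ε with hDε
  set T : ℝ := 1 + |t₁| + |t₂| + |τ| with hT
  have hle : ∀ q ∈ 𝒟, ‖P.ds r y Q₀ (κ - u q) J (Q * Real.exp (-(v q))) H d₁ d₂ d₃ e t₁ t₂ τ q‖ ≤
      ‖∑' k : Eis, if k ≠ 0 ∧ q ^ 2 ∣ k ∧ (NPk P.n P.φ P.l₁ k ∧ NPm P.n P.ψ P.l₂ k) then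
        P.wk τ H k * (prin0 d₃ k * sy k e) *
          (P.am r y Q₀ (κ - u q) J d₁ t₁ k * P.mo (Q * Real.exp (-(v q))) d₂ t₂ k) else 0‖ +
      ‖∑' k : Eis, if k ≠ 0 ∧ q ^ 2 ∣ k ∧ (NPk P.n P.φ P.l₁ k ∧ ¬ NPm P.n P.ψ P.l₂ k) then
        P.wk τ H k * (prin0 d₃ k * sy k e) *
          (P.am r y Q₀ (κ - u q) J d₁ t₁ k * P.mo (Q * Real.exp (-(v q))) d₂ t₂ k) else 0‖ := by
    intro q _
    rw [hsplit q]
    exact norm_add_le _ _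
  refine (Finset.sum_le_sum hle).trans ?_
  rw [Finset.sum_add_distrib]
  refine (add_le_add ha hp).trans ?_
  have n1 : Ca * Dε * T ^ Aa * Tg ≤ Ca * Dε * T ^ (max Aa Ap) * Tg := by gcongr
  have n2 : Cp * Dε * T ^ Ap * Tg ≤ Cp * Dε * T ^ (max Aa Ap) * Tg := by gcongr
  calc _ ≤ Ca * Dε * T ^ (max Aa Ap) * Tg + Cp * Dε * T ^ (max Aa Ap) * Tg := add_le_add n1 n2
    _ = _ := by ring

/-- **the box inequality for the data in `Pk`** -/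
def BOX3Q (Pk : DPar → Prop) (θ : ℝ) : Prop :=
  ∃ (r : ℕ) (y δ η : ℝ) (L : ℕ), 0 < r ∧ 0 < y ∧ 0 < δ ∧ y + δ < 1 ∧ δ ≤ 1 / 1000 ∧
    10 * δ ≤ y / r ∧ 0 < η ∧ η ≤ δ / 16 ∧ 1 ≤ L ∧
    BOX3p θ r y δ η L Pk (fun _ _ _ _ _ _ _ => True)

/-- **D.box** for the data in `Pk` -/
theorem dout3Q_of_box {θ : ℝ} (hθ : 7 / 8 < θ) (hθ1 : θ ≤ 1) (hPF : PF Set.univ θ)
    {Pk : DPar → Prop} (hB : BOX3Q Pk θ) : DOUT3Q Pk θ := by
  obtain ⟨r, y, δ, η, L, hr, hy, hδ, hyδ, hδ2, h10, hη, hη2, hL, hB⟩ := hB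
  exact ⟨r, y, δ, η, hr, hy, hδ, hyδ, hδ2, h10, hη, hη2,
    dout3iQ_of_box3p hθ hθ1 hPF hr hy hδ hyδ hδ2 hη hη2 hL hB⟩

/-- **`BOX3Q` from the eventual form** -/
theorem box3Q_of_ev {θ y : ℝ} (hy : 0 < y) (hy1 : y < 1) {Pk : DPar → Prop}
    (h : EvBox θ y Pk (fun _ _ _ _ _ _ _ _ => True)) : BOX3Q Pk θ := by
  obtain ⟨r, hr, hr0⟩ := (Filter.Eventually.and h (eventually_gt_atTop 0)).exists
  have hr0' : (0 : ℝ) < r := by exact_mod_cast hr0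
  have hyr : 0 < y / r / 10 := by positivity
  have hm : (0 : ℝ) < min (y / r / 10) (min (1 / 1000) ((1 - y) / 2)) :=
    lt_min hyr (lt_min (by norm_num) (by linarith))
  obtain ⟨δ, hδ, hδ1⟩ := (hr.and (Ioo_mem_nhdsGT hm)).exists
  obtain ⟨hδ0, hδm⟩ := hδ1
  have hd1 : δ < y / r / 10 := hδm.trans_le (min_le_left _ _)
  have hd2 : δ < 1 / 1000 := hδm.trans_le ((min_le_right _ _).trans (min_le_left _ _))
  have hd3 : δ < (1 - y) / 2 := hδm.trans_le ((min_le_right _ _).trans (min_le_right _ _))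
  obtain ⟨η, hη, hη1⟩ := (hδ.and (Ioo_mem_nhdsGT (show (0 : ℝ) < δ / 16 by positivity))).exists
  obtain ⟨hη0, hηm⟩ := hη1
  obtain ⟨L, hL, hL0⟩ := (hη.and (eventually_ge_atTop 1)).exists
  exact ⟨r, y, δ, η, L, hr0, hy, hδ0, by linarith, hd2.le, by linarith, hη0, hηm.le, hL0, hL⟩

/-- **only `θ < 1` is open** -/
theorem secQ_of_lt {Pk : DPar → Prop}
    (h : ∀ θ : ℝ, 7 / 8 < θ → θ < 1 → PF Set.univ θ → BOX3Q Pk θ) :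
    ∀ θ : ℝ, 7 / 8 < θ → θ ≤ 1 → PF Set.univ θ → DOUT3Q Pk θ := by
  intro θ hθ hθ1 hPF
  rcases lt_or_eq_of_le hθ1 with h1 | h1
  · exact dout3Q_of_box hθ hθ1 hPF (h θ hθ h1 hPF)
  · rw [h1]
    exact dout3Q_of One319.dout3_one

end Crest.Agent.R017.BoxQ986
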