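import Crest.Agent.R017.Prov_71

/-!
# Row 17, provider spine, part 2 (helper71)

From `BG` statements to `ExpLB`, `ExpLv`, `ExpBox` (helper911).
* `rpl n u` : the list with multiplicities
* `BLB`, `BLv`, `BBox` and `.exp`
-/

set_option autoImplicit false

noncomputable section

namespace Crest.Agent.R017.Prov71

open Crest.Agent.R017.XG702 (Pcs BG)
open Crest.Agent.R017.ER911

variable {Pc Lam : Type*} {D : Pcs Pc Kd} {R B : Lam → ℝ → List Pc → ℝ}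

/-- multiplicities -/
def rpl {N : ℕ} (n : Fin N → ℕ) (u : Fin N → ℝ) : List ℝ :=
  (List.finRange N).flatMap fun j => List.replicate (n j) (u j)

lemma coe_rpl {N : ℕ} (n : Fin N → ℕ) (u : Fin N → ℝ) :
    ((rpl n u : List ℝ) : Multiset ℝ) = ∑ j, Multiset.replicate (n j) (u j) := by
  unfold rpl
  have h : ∀ l : List (Fin N), ((l.flatMap fun j => List.replicate (n j) (u j) : List ℝ) :
      Multiset ℝ) = (l.map fun j => Multiset.replicate (n j) (u j)).sum := by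
    intro l
    induction l with
    | nil => rfl
    | cons j l ih =>
      rw [List.flatMap_cons, ← Multiset.coe_add, ih, List.map_cons, List.sum_cons,
        Multiset.coe_replicate]
  rw [h, ← Fin.sum_univ_def]

lemma mem_rpl {N : ℕ} {n : Fin N → ℕ} {u : Fin N → ℝ} {y : ℝ} (h : y ∈ rpl n u) :
    ∃ j, y = u j := by
  unfold rpl at h
  obtain ⟨j, _, hj⟩ := List.mem_flatMap.1 h
  exact ⟨j, (List.mem_replicate.1 hj).2⟩

lemma okl_rpl {N : ℕ} (n : Fin N → ℕ) {u : Fin N → ℝ} (hu : ∀ j, 0 ≤ u j) {f g : ℝ} (hf : 0 ≤ f)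
    (hg : 0 ≤ g) : Okl (rpl n u) f g := by
  refine ⟨fun y hy => ?_, hf, hg⟩
  obtain ⟨j, rfl⟩ := mem_rpl hy
  exact hu j

lemma okl_ofFn {N : ℕ} {u : Fin N → ℝ} (hu : ∀ j, 0 ≤ u j) {f g : ℝ} (hf : 0 ≤ f)
    (hg : 0 ≤ g) : Okl (List.ofFn u) f g := by
  refine ⟨fun y hy => ?_, hf, hg⟩
  obtain ⟨j, rfl⟩ := (List.mem_ofFn' u y).1 hy
  exact hu j

lemma coe_ofFn {N : ℕ} (u : Fin N → ℝ) :
    ((List.ofFn u : List ℝ) : Multiset ℝ) = Finset.univ.val.map u := by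
  rw [List.ofFn_eq_map, Fin.univ_def]
  rfl

/-- the B-line, BG form -/
structure BLB (θ : ℝ) (D : Pcs Pc Kd) (R : Lam → ℝ → List Pc → ℝ) : Prop where
  lb : ∀ (e κ : ℝ) (u : List ℝ) (m a m₀ a₀ : ℝ), 0 ≤ e → 0 ≤ κ → Okl u m a →
    (∀ y ∈ u, y ≤ κ) → 0 ≤ m₀ → m₀ ≤ m → 0 ≤ a₀ → a₀ ≤ a → 5 * κ ≤ 6 * (u.sum + m₀ + a₀) →
    BG D R κ u (wt m₀ a₀) (κ + (u.sum + m₀ + a₀) + e) →
    (4 * κ < 3 * u.sum → BG D R κ u (wt 0 0) (κ + u.sum)) →
    BG D R κ u (wt m a) (max (5 / 3 * (u.sum + m + a) + 4 / 9 * κ + e)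
      (2 * θ * (u.sum + m + a) + 8 / 3 * (1 - θ) * κ))

theorem BLB.exp {θ : ℝ} (hθ : 0 ≤ θ) (hθ1 : θ ≤ 1) (hR : Pinv R) (ht : Triv D R)
    (H : BLB θ D R) : ExpLB θ (ex D R) where
  lb := by
    intro e κ Y m a m₀ a₀ he hκ hY hy hm0 hm1 ha0 ha1 h56 h1 h2
    have hok : Okl Y.toList m a := okl_of hY
    have hok0 : Okl Y.toList m₀ a₀ := ⟨hok.1, hm0, ha0⟩
    have h := H.lb e κ Y.toList m a m₀ a₀ he hκ hok
      (fun y hy' => hy y (Multiset.mem_toList.1 hy')) hm0 hm1 ha0 ha1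
      (by rw [sum_toList]; exact h56)
      (BG_of_ex hR ht hκ hok0 (by rw [Multiset.coe_toList, sum_toList]; exact h1))
      (fun h3 => BG_of_ex hR ht hκ ⟨hok.1, le_rfl, le_rfl⟩
        (by rw [Multiset.coe_toList, sum_toList]; exact h2 (by rw [sum_toList] at h3; exact h3)))
    rw [sum_toList] at h
    refine ex_le' (le_max_of_le_right ?_) h
    have hs := sum_nonneg_of hY
    have h4 : 0 ≤ 2 * θ * (Y.sum + m + a) := by positivity
    have h5 : 0 ≤ 8 / 3 * (1 - θ) * κ := by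
      have : 0 ≤ 1 - θ := by linarith
      positivity
    linarith

/-- the level rule, BG form -/
structure BLv (θ : ℝ) (D : Pcs Pc Kd) (R : Lam → ℝ → List Pc → ℝ) : Prop where
  lev : ∀ (N : ℕ) (Y : Fin N → ℝ) (κ M A E : ℝ), 0 ≤ κ → (∀ j, 0 ≤ Y j ∧ Y j ≤ κ) → 0 ≤ M →
    0 ≤ A →
    (∀ (y x : Fin N → ℝ) (m a ω α : ℝ), (∀ j, 0 ≤ y j ∧ y j ≤ Y j) → 0 ≤ m → m ≤ M →
      0 ≤ a → a ≤ A → (∀ j, x j ≤ θ * y j) → ω ≤ θ * m → α ≤ θ * a →
      (∃ (n : Fin N → ℕ) (f g : ℝ), 0 ≤ f ∧ (m = 0 → f = 0) ∧ 0 ≤ g ∧ (a = 0 → g = 0) ∧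
        LVok θ κ ((∑ j, (n j : ℝ) * y j) + f + g)
          ((∑ j, (n j : ℝ) * x j) + f * (ω / m) + g * (α / a)) ∧
        2 * (((∑ j, (n j : ℝ) * y j) + f + g) -
            ((∑ j, (n j : ℝ) * x j) + f * (ω / m) + g * (α / a))) +
          2 * ((∑ j, x j) + ω + α) ≤ E) ∨
      (∃ (n : Fin N → ℕ) (f g e : ℝ), 0 ≤ f ∧ (m = 0 → f = 0) ∧ 0 ≤ g ∧ (a = 0 → g = 0) ∧
        BG D R κ (rpl n y) (wt f g) e ∧
        e - 2 * ((∑ j, (n j : ℝ) * x j) + f * (ω / m) + g * (α / a)) +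
          2 * ((∑ j, x j) + ω + α) ≤ E) ∨
      κ + 2 * ((∑ j, x j) + ω + α) ≤ E) →
    BG D R κ (List.ofFn Y) (wt M A) E

theorem BLv.exp {θ : ℝ} (hθ : 0 ≤ θ) (hR : Pinv R) (ht : Triv D R)
    (H : BLv θ D R) : ExpLv θ (ex D R) where
  lev := by
    intro N Y κ M A E hκ hY hM hA hlev
    have hE : 0 ≤ E := by
      rcases hlev Y (fun _ => 0) M A 0 0 (fun j => ⟨(hY j).1, le_rfl⟩) hM le_rfl hA le_rfl
        (fun j => mul_nonneg hθ (hY j).1) (mul_nonneg hθ hM) (mul_nonneg hθ hA) with h | h | h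
      · obtain ⟨n, f, g, hf, _, hg, _, _, h⟩ := h
        have h1 : 0 ≤ ∑ j, (n j : ℝ) * Y j := Finset.sum_nonneg fun j _ =>
          mul_nonneg (Nat.cast_nonneg _) (hY j).1
        simp only [mul_zero, Finset.sum_const_zero, zero_div] at h
        linarith
      · obtain ⟨n, f, g, hf, _, hg, _, h⟩ := h
        have h1 := ex_nonneg (D := D) (Ψ := R) κ (∑ j, Multiset.replicate (n j) (Y j)) f g
        simp only [mul_zero, Finset.sum_const_zero, zero_div] at h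
        linarith
      · simp only [Finset.sum_const_zero] at h
        linarith
    have h := H.lev N Y κ M A E hκ hY hM hA (fun y x m a ω α hy hm0 hm1 ha0 ha1 hx hω hα => by
      rcases hlev y x m a ω α hy hm0 hm1 ha0 ha1 hx hω hα with h | h | h
      · exact Or.inl h
      · right; left
        obtain ⟨n, f, g, hf, hf0, hg, hg0, h⟩ := h
        refine ⟨n, f, g, _, hf, hf0, hg, hg0,
          ex_spec hR ht hκ (okl_rpl n (fun j => (hy j).1) hf hg), ?_⟩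
        rw [coe_rpl]
        exact h
      · exact Or.inr (Or.inr h))
    have h2 := ex_le hR hE h
    rwa [coe_ofFn] at h2

/-- the box rules, BG form -/
structure BBox (θ : ℝ) (D : Pcs Pc Kd) (R B : Lam → ℝ → List Pc → ℝ) : Prop where
  sup : ∀ (κ : ℝ) (u : List ℝ) (m a b c e : ℝ), 0 ≤ κ → Okl u m a → 0 ≤ b → b ≤ m → 0 ≤ c →
    c ≤ a → BG D B κ u (wt (m - b) (a - c)) e → BG D B κ u (wt m a) (θ * (b + c) + e)
  supS : ∀ (κ y : ℝ) (u : List ℝ) (m a e : ℝ), 0 ≤ κ → 0 ≤ y → Okl u m a →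
    BG D B κ u (wt m a) e → BG D B κ (y :: u) (wt m a) (θ * y + e)
  outer : ∀ (N : ℕ) (u : Fin N → ℝ) (κ m a E : ℝ), 0 ≤ κ → (∀ j, 0 ≤ u j) → 0 ≤ m → 0 ≤ a →
    (∀ (x : Fin N → ℝ) (ω α : ℝ), (∀ j, x j ≤ θ * u j) → ω ≤ θ * m → α ≤ θ * a →
      (∃ (n : Fin N → ℕ) (f g e : ℝ), 0 ≤ f ∧ (m = 0 → f = 0) ∧ 0 ≤ g ∧ (a = 0 → g = 0) ∧
        BG D R κ (rpl n u) (wt f g) e ∧
        e - 2 * ((∑ j, (n j : ℝ) * x j) + f * (ω / m) + g * (α / a)) +
          ((∑ j, x j) + ω + α) ≤ E) ∨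
      κ + ((∑ j, x j) + ω + α) ≤ E) →
    BG D B κ (List.ofFn u) (wt m a) E

theorem BBox.exp {θ : ℝ} (hθ : 0 ≤ θ) (hR : Pinv R) (ht : Triv D R) (hB : Pinv B)
    (htB : Triv D B) (H : BBox θ D R B) : ExpBox θ (ex D R) (ex D B) where
  sup := by
    intro κ Y m a b c hκ hY hb0 hb1 hc0 hc1
    have h0 : Okl Y.toList (m - b) (a - c) :=
      ⟨(okl_of hY).1, by linarith, by linarith⟩
    have h1 := ex_spec hB htB (κ := κ) hκ h0
    have h2 := H.sup κ Y.toList m a b c _ hκ (okl_of hY) hb0 hb1 hc0 hc1 h1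
    have h3 := ex_le' (D := D) (Ψ := B) (by
      have := ex_nonneg (D := D) (Ψ := B) κ Y.toList (m - b) (a - c)
      positivity) h2
    rwa [Multiset.coe_toList] at h3
  supS := by
    intro κ y Y m a hκ hy hY
    have h1 := ex_spec hB htB (κ := κ) hκ (okl_of hY)
    have h2 := H.supS κ y Y.toList m a _ hκ hy (okl_of hY) h1
    have h3 := ex_le hB (by
      have := ex_nonneg (D := D) (Ψ := B) κ Y.toList m a
      positivity) h2
    rw [← Multiset.cons_coe, Multiset.coe_toList] at h3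
    exact h3
  outer := by
    intro N u κ m a E hκ hu hm ha hlev
    have hE : 0 ≤ E := by
      rcases hlev (fun _ => 0) 0 0 (fun j => mul_nonneg hθ (hu j)) (mul_nonneg hθ hm)
        (mul_nonneg hθ ha) with h | h
      · obtain ⟨n, f, g, hf, _, hg, _, h⟩ := h
        have h1 := ex_nonneg (D := D) (Ψ := R) κ (∑ j, Multiset.replicate (n j) (u j)) f g
        simp only [mul_zero, Finset.sum_const_zero, zero_div] at h
        linarith
      · simp only [Finset.sum_const_zero] at h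
        linarith
    have h := H.outer N u κ m a E hκ hu hm ha (fun x ω α hx hω hα => by
      rcases hlev x ω α hx hω hα with h | h
      · left
        obtain ⟨n, f, g, hf, hf0, hg, hg0, h⟩ := h
        refine ⟨n, f, g, _, hf, hf0, hg, hg0, ex_spec hR ht hκ (okl_rpl n hu hf hg), ?_⟩
        rw [coe_rpl]
        exact h
      · exact Or.inr h)
    have h2 := ex_le hB hE h
    rwa [coe_ofFn] at h2

end Crest.Agent.R017.Prov71
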