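import Crest.Agent.R017.XHB3_411
import Crest.Agent.R017.ProvI_71

/-!
# Row 17, provider: the fields `hbC`, `hbG` (helper411)

`bg_Rc`, `bg_Rp`, `bg_Sp` : Heath-Brown's exponent for the functionals of helper71.
-/

set_option autoImplicit false

noncomputable section

open Complex Finset
open scoped BigOperators ComplexConjugate

namespace Crest.Agent.R017.XHB411

open Crest.Agent.R012 Crest.Agent.R012.Eis
open Crest.Agent.R012.LS2 (bl mem_bl)
open Crest.Agent.R017.CM106 (CS)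
open Crest.Agent.R017.FE47 (cx)
open Crest.Agent.R017.HP842 (KS Kg sqc Pc pc alL)
open Crest.Agent.R017.Prov71 Crest.Agent.R017.XG702 Crest.Agent.R017.B770

lemma alL0_eq (h : ℝ → ℝ) : ∀ ps : List Pc, alL0 h ps = alL h ps
  | [] => by
      funext n
      rw [HP842.alL_nil]
      unfold HP842.dl
      simp only [alL0]
  | p :: ps => by
      rw [HP842.alL_cons, ← alL0_eq h ps]
      rfl

lemma bl_neg {l : ℝ} (hl : l < 0) : bl (Real.exp l) = ∅ := by
  ext k
  rw [mem_bl (Real.exp_pos _).le]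
  simp only [Finset.notMem_empty, iff_false, not_and]
  intro hk h1
  have h2 : (1 : ℝ) ≤ nm k := by exact_mod_cast nm_pos.2 hk
  have h3 : Real.exp l < 1 := by rw [Real.exp_lt_one_iff]; exact hl
  linarith

lemma LL_pc (P : DPar) (ps : List Pq) : LL (ps.map (Pq.pc P)) = tl Dq ps := by
  unfold LL tl
  rw [List.map_map]
  congr 1
  refine List.map_congr_left fun p _ => ?_
  show Real.log (Real.exp p.z) = p.z
  rw [Real.log_exp]

lemma sum_wt (m a : ℝ) : ∑ t, wt m a t = m + a := by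
  have : (Finset.univ : Finset Kd) = {Kd.mo, Kd.am} := rfl
  rw [this, Finset.sum_pair (by decide)]
  rfl

lemma EHB_field (κ s m a : ℝ) : EHB κ (s + (m + a)) =
    max (κ + (s + m + a)) (max (2 * (s + m + a) + κ / 3)
      ((s + m + a) + 2 / 3 * (κ + (s + m + a)))) := by
  have e : s + (m + a) = s + m + a := by ring
  rw [e]
  rfl

lemma ok_map {P : DPar} (hP : P.OK) (ps : List Pq) : ∀ p ∈ ps.map (Pq.pc P), p.OK := by
  intro p hp
  obtain ⟨x, _, rfl⟩ := List.mem_map.1 hp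
  exact Pq.ok hP x

lemma one_le_map {P : DPar} {ps : List Pq} (h : ∀ p ∈ ps, 0 ≤ Dq.len p) :
    ∀ p ∈ ps.map (Pq.pc P), 1 ≤ p.Y := by
  intro p hp
  obtain ⟨x, hx, rfl⟩ := List.mem_map.1 hp
  exact Real.one_le_exp (h x hx)

variable {Lam : Type*}

/-- a family on the character side -/
theorem bg_RQ {π : Lam → DPar} (hP : ∀ lam, (π lam).OK) {h : ℝ → ℝ} {c : ℝ} (hpu : FE47.PU h c)
    (Q : Lam → Eis → Prop) (κ : ℝ) (u : List ℝ) (m a : ℝ) :
    BG Dq (fun lam l ps => RQ (Q lam) h l (ps.map (Pq.pc (π lam)))) κ u (wt m a)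
      (max (κ + (u.sum + m + a))
      (max (2 * (u.sum + m + a) + κ / 3) ((u.sum + m + a) + 2 / 3 * (κ + (u.sum + m + a))))) := by
  classical
  have hh : Bump h := bump_of_cs hpu.cs
  have h1 := BG_of_bound (D := Dq)
    (Ψ := fun lam l ps => RQ (Q lam) h l (ps.map (Pq.pc (π lam)))) EHB EHB_lip
    EHB_hom ?_ ?_ κ u (wt m a)
  · rw [sum_wt, EHB_field] at h1
    exact h1
  · intro lam n ε hε
    obtain ⟨C, hC, hb⟩ := hbL_C hpu n hε
    refine ⟨C, hC, fun l ps hl hlen hz => ?_⟩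
    have h2 := hb l (ps.map (Pq.pc (π lam))) hl (by rw [List.length_map]; exact hlen)
      (ok_map (hP lam) ps) (one_le_map hz)
    rw [LL_pc] at h2
    refine le_trans ?_ h2
    rw [RQ_eq hh l (ok_map (hP lam) ps), alL0_eq]
    exact Finset.sum_le_sum_of_subset_of_nonneg (Finset.filter_subset _ _)
      fun _ _ _ => by positivity
  · intro lam l ps hl
    unfold RQ
    rw [bl_neg hl, Finset.filter_empty, Finset.sum_empty]

/-- **field `hbC`**, complete family -/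
theorem bg_Rc {π : Lam → DPar} (hP : ∀ lam, (π lam).OK) {h : ℝ → ℝ} {c : ℝ} (hpu : FE47.PU h c)
    (κ : ℝ) (u : List ℝ) (m a : ℝ) :
    BG Dq (fun lam => Rc (π lam) h) κ u (wt m a) (max (κ + (u.sum + m + a))
      (max (2 * (u.sum + m + a) + κ / 3) ((u.sum + m + a) + 2 / 3 * (κ + (u.sum + m + a))))) :=
  bg_RQ hP hpu (fun lam => (π lam).NP2) κ u m a

/-- **field `hbC`** -/
theorem bg_Rp {π : Lam → DPar} (hP : ∀ lam, (π lam).OK) {h : ℝ → ℝ} {c : ℝ} (hpu : FE47.PU h c)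
    (κ : ℝ) (u : List ℝ) (m a : ℝ) :
    BG Dq (fun lam => Rp (π lam) h) κ u (wt m a) (max (κ + (u.sum + m + a))
      (max (2 * (u.sum + m + a) + κ / 3) ((u.sum + m + a) + 2 / 3 * (κ + (u.sum + m + a))))) :=
  bg_RQ hP hpu (fun lam => Qp (π lam)) κ u m a

/-- **field `hbG`** -/
theorem bg_Sp {π : Lam → DPar} (hP : ∀ lam, (π lam).OK) {h : ℝ → ℝ} {c : ℝ} (hpu : FE47.PU h c)
    (κ : ℝ) (u : List ℝ) (m a : ℝ) :
    BG Dq (fun lam => Sp (π lam) h) κ u (wt m a) (max (κ + (u.sum + m + a))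
      (max (2 * (u.sum + m + a) + κ / 3) ((u.sum + m + a) + 2 / 3 * (κ + (u.sum + m + a))))) := by
  have h1 := BG_of_bound (D := Dq) (Ψ := fun lam => Sp (π lam) h) EHB EHB_lip EHB_hom ?_ ?_ κ u
    (wt m a)
  · rw [sum_wt, EHB_field] at h1
    exact h1
  · intro lam n ε hε
    obtain ⟨C, hC, hb⟩ := hbL_G hpu n hε
    refine ⟨C, hC, fun l ps hl hlen hz => ?_⟩
    have h2 := hb 1 l (ps.map (Pq.pc (π lam))) hl (by rw [List.length_map]; exact hlen)
      (ok_map (hP lam) ps) (one_le_map hz)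
    rw [LL_pc, alL0_eq] at h2
    exact h2
  · intro lam l ps hl
    unfold Sp SK
    rw [bl_neg hl, Finset.sum_empty]

/-- trivial bounds exist -/
theorem triv_Rp {π : Lam → DPar} (hP : ∀ lam, (π lam).OK) {h : ℝ → ℝ} {c : ℝ}
    (hpu : FE47.PU h c) : Triv Dq (fun lam => Rp (π lam) h) :=
  fun κ u m a _ _ => ⟨_, bg_Rp hP hpu κ u m a⟩

theorem triv_Rc {π : Lam → DPar} (hP : ∀ lam, (π lam).OK) {h : ℝ → ℝ} {c : ℝ}
    (hpu : FE47.PU h c) : Triv Dq (fun lam => Rc (π lam) h) :=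
  fun κ u m a _ _ => ⟨_, bg_Rc hP hpu κ u m a⟩

theorem triv_Sp {π : Lam → DPar} (hP : ∀ lam, (π lam).OK) {h : ℝ → ℝ} {c : ℝ}
    (hpu : FE47.PU h c) : Triv Dq (fun lam => Sp (π lam) h) :=
  fun κ u m a _ _ => ⟨_, bg_Sp hP hpu κ u m a⟩

end Crest.Agent.R017.XHB411
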