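import Crest.Agent.R017.XBoxI_146
import Crest.Agent.R017.ProvB_71
import Crest.Agent.R017.XHB4_411

/-!
# Row 17, provider: `BBox` of ProvB_71 for the literal instance (helper146)
-/

set_option autoImplicit false

noncomputable section

namespace Crest.Agent.R017.XBx146

open Crest.Agent.R012 Crest.Agent.R012.Eis Crest.Agent.R012.LS2
open Crest.Agent.R017.FE47 Crest.Agent.R017.End699
open Crest.Agent.R017.XG702 Crest.Agent.R017.ER911 Crest.Agent.R017.B770
open Crest.Agent.R017.Prov71 (Kd wt ex Pq Dq Rp Bp Qp)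

lemma rpl_eq {N : ℕ} (n : Fin N → ℕ) (u : Fin N → ℝ) : Prov71.rpl n u = rep n u := by
  unfold Prov71.rpl rep
  rw [List.ofFn_eq_map, List.flatMap_def]

/-- **the box rules of the provider** (form of ProvB_71) -/
theorem bbox_146 {θ : ℝ} (hθ : 1 / 2 < θ) (hθ1 : θ ≤ 1) (hPF : PF Set.univ θ)
    {h : ℝ → ℝ} {c₀ : ℝ} (hh : PU h c₀) {Lam : Type*} (π : Lam → DPar)
    (hP : ∀ lam, (π lam).OK) :
    Prov71.BBox θ Dq (fun lam => Rp (π lam) h) (fun lam => Bp (π lam) h) := by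
  have H := bbox hθ hθ1 hPF hh π hP (XHB411.triv_Rp hP hh)
  refine ⟨H.sup, H.supS, ?_⟩
  intro N u κ m a E hκ hu hm ha hlev
  refine H.outer N u κ m a E hκ hu hm ha ?_
  intro x om al h1 h2 h3
  have h4 := hlev x om al h1 h2 h3
  simp only [rpl_eq] at h4
  exact h4

/-- **`ExpBox` of the provider** -/
theorem expBox_146 {θ : ℝ} (hθ : 1 / 2 < θ) (hθ1 : θ ≤ 1) (hPF : PF Set.univ θ)
    {h : ℝ → ℝ} {c₀ : ℝ} (hh : PU h c₀) {Lam : Type*} (π : Lam → DPar)
    (hP : ∀ lam, (π lam).OK) :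
    ExpBox θ (ex Dq (fun lam => Rp (π lam) h)) (ex Dq (fun lam => Bp (π lam) h)) :=
  expBox hθ hθ1 hPF hh π hP (XHB411.triv_Rp hP hh)

end Crest.Agent.R017.XBx146
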