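import Crest.Agent.R017.LBh_298

/-!
# Row 17: complete families and cube-free families (helper298)

* `CubeFree`, `red_cubeFree`, `nm_m_of_cubeFree`
* `cube_le` : `∑_{k ∈ bl K, Q k} |CS α k|² ≤ ∑_{m ∈ bl (K^{1/3})} ∑_{k ∈ bl (K/nm m³), cube-free, Q k}
  |CS (α * prin0 m) k|²` for `Q` stable under `red`
* `cube_le_f` : the same for any functional of the classes
-/

set_option autoImplicit false

noncomputable section

open Complex Finset
open scoped ComplexConjugate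

namespace Crest.Agent.R017.Lbc298

open Crest.Agent.R012 Crest.Agent.R012.Eis Crest.Agent.R012.LS2 Crest.Agent.R012.Char766
open Crest.Agent.R017.CM106 Crest.Agent.R017.LV404 Crest.Agent.R017.HP842
open Crest.Agent.R017.End699 (prin0)

/-- cube-free (nonzero) elements -/
def CubeFree (k : Eis) : Prop := k ≠ 0 ∧ ∀ p : Eis, Prime p → ¬ p ^ 3 ∣ k

/-- the reduced part is cube-free -/
theorem red_cubeFree {h : Eis} (hh : h ≠ 0) : CubeFree (red h) := by
  refine ⟨red_ne_zero hh, fun p hp hd => ?_⟩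
  have hc := dc_spec hh
  set k1 := (dc h).k1 with hk1
  set k2 := (dc h).k2 with hk2
  have hwu : IsUnit (w ^ (dc h).i) := isUnit_w.pow _
  have hpw : ¬ p ∣ w ^ (dc h).i := fun h1 => hp.not_isUnit (isUnit_of_dvd_unit h1 hwu)
  unfold red at hd
  rw [← hk1, ← hk2] at hd
  by_cases hpl : p ∣ lam
  · have hass : Associated p lam :=
      (prime_lam.irreducible.dvd_iff.mp hpl).resolve_left hp.not_isUnit |>.symm
    have h1 : ¬ p ∣ k1 := fun h1 => hc.prim1.not_lam_dvd (hass.symm.dvd.trans h1)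
    have h2 : ¬ p ∣ k2 := fun h1 => hc.prim2.not_lam_dvd (hass.symm.dvd.trans h1)
    have h22 : ¬ p ∣ k2 ^ 2 := fun h3 => h2 (hp.dvd_of_dvd_pow h3)
    have h3 := hp.pow_dvd_of_dvd_mul_right 3 h22 hd
    have h4 := hp.pow_dvd_of_dvd_mul_right 3 h1 h3
    have h5 := hp.pow_dvd_of_dvd_mul_left 3 hpw h4
    have h6 : lam ^ 3 ∣ lam ^ (dc h).j := ((hass.pow_pow (n := 3)).symm.dvd).trans h5
    rw [pow_dvd_pow_iff prime_lam.ne_zero prime_lam.not_isUnit] at h6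
    have := hc.hj
    omega
  · have hpl' : ¬ p ∣ w ^ (dc h).i * lam ^ (dc h).j := by
      intro h1
      rcases hp.dvd_or_dvd h1 with h2 | h2
      · exact hpw h2
      · exact hpl (hp.dvd_of_dvd_pow h2)
    have hd' : p ^ 3 ∣ w ^ (dc h).i * lam ^ (dc h).j * (k1 * k2 ^ 2) := by
      rw [← mul_assoc]; exact hd
    have h3 : p ^ 3 ∣ k1 * k2 ^ 2 := hp.pow_dvd_of_dvd_mul_left 3 hpl' hd'
    by_cases h1 : p ∣ k1
    · have h2 : ¬ p ∣ k2 := fun h2 => hp.not_isUnit (hc.cop.isUnit_of_dvd' h1 h2)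
      have h22 : ¬ p ∣ k2 ^ 2 := fun h4 => h2 (hp.dvd_of_dvd_pow h4)
      have h5 := hp.pow_dvd_of_dvd_mul_right 3 h22 h3
      have h6 : p * p ∣ k1 := (Dvd.intro p (by ring)).trans h5
      exact hp.not_isUnit (hc.sqf1 p h6)
    · have h5 : p ^ 3 ∣ k2 ^ 2 := hp.pow_dvd_of_dvd_mul_left 3 h1 h3
      have h6 : p ∣ k2 := hp.dvd_of_dvd_pow ((dvd_pow_self p (by norm_num)).trans h5)
      obtain ⟨c, hcc⟩ := h6
      have h7 : p ^ 2 * p ∣ p ^ 2 * c ^ 2 := by
        have : p ^ 3 ∣ p ^ 2 * c ^ 2 := by rw [hcc, mul_pow] at h5; exact h5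
        calc p ^ 2 * p = p ^ 3 := by ring
          _ ∣ _ := this
      have h8 : p ∣ c ^ 2 := (mul_dvd_mul_iff_left (pow_ne_zero 2 hp.ne_zero)).mp h7
      have h9 : p ∣ c := hp.dvd_of_dvd_pow h8
      have h10 : p * p ∣ k2 := by rw [hcc]; exact mul_dvd_mul_left p h9
      exact hp.not_isUnit (hc.sqf2 p h10)

/-- the cube part of a cube-free element -/
theorem nm_m_of_cubeFree {k : Eis} (hk : CubeFree k) : nm (dc k).m = 1 := by
  have hd := dc_spec hk.1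
  rw [← isUnit_iff]
  by_contra hm
  obtain ⟨p, hp, hpm⟩ := WfDvdMonoid.exists_irreducible_factor hm hd.ne
  have h1 : p ^ 3 ∣ (dc k).m ^ 3 := pow_dvd_pow_of_dvd hpm 3
  refine hk.2 p hp.prime (h1.trans ?_)
  conv_rhs => rw [red_mul hk.1]
  exact dvd_mul_left _ _

/-- complete family from the cube-free families, general form -/
theorem cube_le_f {K : ℝ} (hK : 0 ≤ K) (Q : Eis → Prop) [DecidablePred Q]
    [DecidablePred CubeFree] (hQ : ∀ k, k ≠ 0 → Q k → Q (red k)) {F : Eis → ℝ} {G : Eis → Eis → ℝ}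
    (hG : ∀ m k, 0 ≤ G m k) (hFG : ∀ k, k ≠ 0 → Q k → F k ≤ G (dc k).m (red k)) :
    ∑ k ∈ (bl K).filter Q, F k ≤ ∑ m ∈ bl (K ^ ((1 : ℝ) / 3)),
      ∑ k ∈ (bl (K / (nm m : ℝ) ^ 3)).filter (fun k => CubeFree k ∧ Q k), G m k := by
  classical
  have hmem : ∀ k ∈ (bl K).filter Q, (dc k).m ∈ bl (K ^ ((1 : ℝ) / 3)) := by
    intro k hk
    have hk1 := (mem_bl hK).mp (Finset.mem_filter.mp hk).1
    rw [mem_bl (by positivity)]
    refine ⟨m_ne_zero hk1.1, ?_⟩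
    have h4 := nm_red hk1.1
    have h5 := one_le_nm'' (red_ne_zero hk1.1)
    have h6 : (nm (dc k).m : ℝ) ^ 3 ≤ K := by
      calc (nm (dc k).m : ℝ) ^ 3 = 1 * (nm (dc k).m : ℝ) ^ 3 := (one_mul _).symm
        _ ≤ nm (red k) * (nm (dc k).m : ℝ) ^ 3 := by gcongr
        _ = nm k := h4
        _ ≤ K := hk1.2
    calc (nm (dc k).m : ℝ) = ((nm (dc k).m : ℝ) ^ 3) ^ ((1 : ℝ) / 3) := by
          rw [← Real.rpow_natCast, ← Real.rpow_mul (by positivity)]
          norm_num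
      _ ≤ K ^ ((1 : ℝ) / 3) := Real.rpow_le_rpow (by positivity) h6 (by norm_num)
  rw [← Finset.sum_fiberwise_of_maps_to hmem]
  refine Finset.sum_le_sum fun m _ => ?_
  set T := ((bl K).filter Q).filter (fun k => (dc k).m = m) with hT
  have hT' : ∀ k ∈ T, (k ≠ 0 ∧ (nm k : ℝ) ≤ K) ∧ Q k ∧ (dc k).m = m := by
    intro k hk
    rw [hT, Finset.mem_filter, Finset.mem_filter, mem_bl hK] at hk
    exact ⟨hk.1.1, hk.1.2, hk.2⟩
  have hinj : Set.InjOn red (T : Set Eis) := by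
    intro a ha b hb hab
    have h1 := hT' a (Finset.mem_coe.mp ha)
    have h2 := hT' b (Finset.mem_coe.mp hb)
    exact red_inj h1.1.1 h2.1.1 (h1.2.2.trans h2.2.2.symm) hab
  calc ∑ k ∈ T, F k ≤ ∑ k ∈ T, G m (red k) := by
        refine Finset.sum_le_sum fun k hk => ?_
        have h1 := hT' k hk
        have h2 := hFG k h1.1.1 h1.2.1
        rwa [h1.2.2] at h2
    _ = ∑ k ∈ T.image red, G m k := (Finset.sum_image (f := G m) hinj).symm
    _ ≤ _ := by
        refine Finset.sum_le_sum_of_subset_of_nonneg ?_ fun x _ _ => hG m x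
        intro x hx
        rw [Finset.mem_image] at hx
        obtain ⟨k, hk, rfl⟩ := hx
        have h1 := hT' k hk
        have h2 := nm_red_le h1.1.1 h1.1.2
        rw [h1.2.2] at h2
        rw [Finset.mem_filter, mem_bl (by positivity)]
        exact ⟨⟨red_ne_zero h1.1.1, h2⟩, red_cubeFree h1.1.1, hQ k h1.1.1 h1.2.1⟩

/-- **complete family from the cube-free families** -/
theorem cube_le {K : ℝ} (hK : 0 ≤ K) (Q : Eis → Prop) [DecidablePred Q] [DecidablePred CubeFree]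
    (hQ : ∀ k, k ≠ 0 → Q k → Q (red k)) {α : Eis → ℂ} (hα : FS α) :
    ∑ k ∈ (bl K).filter Q, ‖CS α k‖ ^ 2 ≤ ∑ m ∈ bl (K ^ ((1 : ℝ) / 3)),
      ∑ k ∈ (bl (K / (nm m : ℝ) ^ 3)).filter (fun k => CubeFree k ∧ Q k),
        ‖CS (fun n => α n * prin0 m n) k‖ ^ 2 := by
  have h1 : ∀ m k : Eis, 0 ≤ ‖CS (fun n => α n * prin0 m n) k‖ ^ 2 := fun _ _ => by positivity
  have h2 : ∀ k : Eis, k ≠ 0 → Q k →
      ‖CS α k‖ ^ 2 ≤ ‖CS (fun n => α n * prin0 (dc k).m n) (red k)‖ ^ 2 := by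
    intro k hk _
    rw [CS_red hα hk]
  exact cube_le_f hK Q hQ h1 h2

/-- the product of the pieces at `k` -/
def pr2 (l : List (Eis → ℂ)) (k : Eis) : ℝ := (l.map fun α => ‖CS α k‖ ^ 2).prod

lemma pr2_nonneg (l : List (Eis → ℂ)) (k : Eis) : 0 ≤ pr2 l k := by
  refine List.prod_nonneg ?_
  intro x hx
  rw [List.mem_map] at hx
  obtain ⟨α, _, rfl⟩ := hx
  positivity

/-- inserting the coprimality to `m` -/
def ins (m : Eis) (l : List (Eis → ℂ)) : List (Eis → ℂ) := l.map fun α n => α n * prin0 m n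

lemma pr2_red {l : List (Eis → ℂ)} (hl : ∀ α ∈ l, FS α) {k : Eis} (hk : k ≠ 0) :
    pr2 l k = pr2 (ins (dc k).m l) (red k) := by
  unfold pr2 ins
  rw [List.map_map]
  congr 1
  refine List.map_congr_left fun α hα => ?_
  rw [Function.comp, CS_red (hl α hα) hk]

/-- the same with a product of pieces (finite list) -/
theorem cube_le_list {K : ℝ} (hK : 0 ≤ K) (Q : Eis → Prop) [DecidablePred Q]
    [DecidablePred CubeFree] (hQ : ∀ k, k ≠ 0 → Q k → Q (red k)) (l : List (Eis → ℂ))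
    (hl : ∀ α ∈ l, FS α) :
    ∑ k ∈ (bl K).filter Q, pr2 l k ≤ ∑ m ∈ bl (K ^ ((1 : ℝ) / 3)),
      ∑ k ∈ (bl (K / (nm m : ℝ) ^ 3)).filter (fun k => CubeFree k ∧ Q k), pr2 (ins m l) k :=
  cube_le_f hK Q hQ (F := pr2 l) (G := fun m => pr2 (ins m l))
    (fun m k => pr2_nonneg _ k) (fun k hk _ => (pr2_red hl hk).le)

end Crest.Agent.R017.Lbc298
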