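import Crest.Agent.R017.XG_702

/-!
# Row 17: granular robust exponents, compactness (helper702)

* `BG.zero` : a lump of length `0` is granular
* `unifG` : compactness for a fixed number of lumps
* `stage` : all boxes whose lumps are `≥ a`
* `top` : all boxes (number of lumps unbounded)
-/

set_option autoImplicit false
set_option linter.unusedSectionVars false
set_option linter.unusedVariables false

noncomputable section

open Set Filter Topology

namespace Crest.Agent.R017.XG702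

variable {Pc τ Lam : Type*} [DecidableEq τ] {D : Pcs Pc τ}

/-- a lump of length `0` is granular -/
theorem BG.zero {Ψ : Lam → ℝ → List Pc → ℝ} (hΨ : ∀ lam l ps qs, ps.Perm qs → Ψ lam l ps = Ψ lam l qs) {κ : ℝ}
    {u : List ℝ} {w : τ → ℝ} {e : ℝ} (h : BG D Ψ κ u w e) : BG D Ψ κ (0 :: u) w e := by
  intro ε hε
  obtain ⟨δ, hδ, L⟩ := h ε hε
  refine ⟨δ / 2, by positivity, fun lam N B => ?_⟩
  obtain ⟨η, hη, X₀, hX₀, K⟩ := L lam (N + 1) B
  refine ⟨η, hη, X₀, hX₀, ?_⟩
  intro X hX k us gs hk hnear hgran hgood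
  unfold Pcs.Near at hnear
  obtain ⟨p, us', hp, hus', rfl⟩ := List.forall₂_cons_right_iff.1 hnear
  have hlog : 0 < Real.log X := Real.log_pos (by linarith)
  have hnp : |D.nl X p| ≤ δ / 2 := by simpa using hp.2
  have hpos : 0 ≤ D.nl X p := div_nonneg (hgood p (by simp)).2.2 hlog.le
  have hperm : ((p :: us') ++ gs).Perm (us' ++ (p :: gs)) := by
    simpa using (List.perm_middle (a := p) (l₁ := us') (l₂ := gs)).symm
  rw [hΨ _ _ _ _ hperm]
  refine K X hX k us' (p :: gs) (hk.trans (by linarith)) (Near_mono hus' (by linarith)) ?_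
    (Good_perm hperm hgood)
  refine ⟨by simpa using hgran.1, ?_, ?_⟩
  · intro g hg
    rcases List.mem_cons.1 hg with rfl | hg
    · exact (le_abs_self _).trans (hnp.trans (by linarith))
    · exact (hgran.2.1 g hg).trans (by linarith)
  · intro t
    rw [Pcs.mass_cons]
    have h1 := hgran.2.2 t
    have h2 : |(if D.kind p = t then D.nl X p else 0)| ≤ δ / 2 := by
      split_ifs
      · exact hnp
      · simpa using (by positivity : (0:ℝ) ≤ δ / 2)
    calc |(if D.kind p = t then D.nl X p else 0) + D.mass X gs t - w t|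
        = |(if D.kind p = t then D.nl X p else 0) + (D.mass X gs t - w t)| := by ring_nf
      _ ≤ δ / 2 + δ / 2 := (abs_add_le _ _).trans (add_le_add h2 h1)
      _ = δ := by ring

lemma Near_ofFn {X δ r : ℝ} {n : ℕ} {us : List Pc} {a b : Fin n → ℝ}
    (h : D.Near X δ us (List.ofFn a)) (hab : ∀ i, |a i - b i| ≤ r) :
    D.Near X (δ + r) us (List.ofFn b) := by
  unfold Pcs.Near at h ⊢
  rw [List.forall₂_iff_get] at h ⊢
  obtain ⟨hl, h⟩ := h
  refine ⟨by simpa using hl, fun i h1 h2 => ?_⟩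
  have h2' : i < (List.ofFn a).length := by simpa using h2
  have h3 := h i h1 h2'
  simp only [List.get_eq_getElem, List.getElem_ofFn] at h3 ⊢
  refine ⟨h3.1, ?_⟩
  have h4 := hab ⟨i, by simpa using h2⟩
  exact (abs_sub_le _ _ _).trans (add_le_add h3.2 h4)

/-- **compactness for a fixed number of lumps** -/
theorem unifG [Fintype τ] {Ψ : Lam → ℝ → List Pc → ℝ} {n : ℕ} {S : Set (ℝ × (Fin n → ℝ) × (τ → ℝ))}
    (hS : IsCompact S) {T : ℝ × (Fin n → ℝ) × (τ → ℝ) → ℝ} (hT : ContinuousOn T S)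
    (h : ∀ p ∈ S, BG D Ψ p.1 (List.ofFn p.2.1) p.2.2 (T p)) {ε : ℝ} (hε : 0 < ε) :
    ∃ δ : ℝ, 0 < δ ∧ ∀ (lam : Lam) (N : ℕ) (B : ℝ), ∃ δ' : ℝ, 0 < δ' ∧ ∃ X₀ : ℝ, 1 < X₀ ∧
      ∀ X : ℝ, X₀ ≤ X → ∀ (k : ℝ) (us gs : List Pc), ∀ p ∈ S, |k - p.1| ≤ δ →
        D.Near X δ us (List.ofFn p.2.1) → D.Gran X δ N gs p.2.2 → D.Good X δ' B (us ++ gs) →
          Ψ lam (k * Real.log X) (us ++ gs) ≤ X ^ (T p + ε) := by
  classical
  have loc : ∀ q ∈ S, ∃ r : ℝ, 0 < r ∧ Loc D Ψ q.1 (List.ofFn q.2.1) q.2.2 (2 * r)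
      (T q + ε / 2) ∧ ∀ p ∈ S, dist p q < r → T q ≤ T p + ε / 2 := by
    intro q hq
    obtain ⟨δ, hδ, hL⟩ := h q hq (ε / 2) (by linarith)
    have hc := Metric.continuousOn_iff.1 hT q hq (ε / 2) (by linarith)
    obtain ⟨r, hr, hr'⟩ := hc
    refine ⟨min (δ / 2) r, lt_min (by linarith) hr, hL.mono ?_, fun p hp hd => ?_⟩
    · have := min_le_left (δ / 2) r; linarith
    · have := hr' p hp (lt_of_lt_of_le hd (min_le_right _ _))
      rw [Real.dist_eq] at this
      linarith [(abs_lt.1 this).1]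
  choose! r hr hL hTr using loc
  obtain ⟨F, hFS, hF⟩ := hS.elim_nhds_subcover (fun q => Metric.ball q (r q))
    (fun q hq => Metric.ball_mem_nhds q (hr q hq))
  by_cases hne : F.Nonempty
  · set δ := F.inf' hne r with hd
    have hδ : 0 < δ := by
      rw [hd, Finset.lt_inf'_iff]; intro q hq; exact hr q (hFS q hq)
    refine ⟨δ, hδ, fun lam N B => ?_⟩
    have hL' : ∀ q ∈ S, ∃ δ' : ℝ, 0 < δ' ∧ ∃ X₀ : ℝ, 1 < X₀ ∧ ∀ X : ℝ, X₀ ≤ X → ∀ (k : ℝ)
        (us gs : List Pc), |k - q.1| ≤ 2 * r q → D.Near X (2 * r q) us (List.ofFn q.2.1) →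
        D.Gran X (2 * r q) N gs q.2.2 → D.Good X δ' B (us ++ gs) →
        Ψ lam (k * Real.log X) (us ++ gs) ≤ X ^ (T q + ε / 2) := fun q hq => hL q hq lam N B
    choose! η hη X₀ hX₀ K using hL'
    refine ⟨F.inf' hne η, ?_, F.sup' hne X₀, ?_, ?_⟩
    · rw [Finset.lt_inf'_iff]; intro q hq; exact hη q (hFS q hq)
    · obtain ⟨q0, hq0⟩ := hne
      exact lt_of_lt_of_le (hX₀ q0 (hFS q0 hq0)) (Finset.le_sup' X₀ hq0)
    · intro X hX k us gs p hp hk hnear hgran hgood
      have hpF := hF hp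
      rw [Set.mem_iUnion₂] at hpF
      obtain ⟨q, hq, hb⟩ := hpF
      have hb' : dist p q < r q := hb
      have hXq : X₀ q ≤ X := (Finset.le_sup' X₀ hq).trans hX
      have hX1 : 1 < X := lt_of_lt_of_le (hX₀ q (hFS q hq)) hXq
      have hδq : δ ≤ r q := Finset.inf'_le _ hq
      have d1 : |p.1 - q.1| ≤ r q := by
        have : dist p.1 q.1 ≤ dist p q := by rw [Prod.dist_eq]; exact le_max_left _ _
        rw [Real.dist_eq] at this; linarith
      have d2 : ∀ i, |p.2.1 i - q.2.1 i| ≤ r q := by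
        intro i
        have e1 : dist p.2.1 q.2.1 ≤ dist p q := by
          rw [Prod.dist_eq, Prod.dist_eq]
          exact (le_max_left _ _).trans (le_max_right _ _)
        have e2 := dist_le_pi_dist p.2.1 q.2.1 i
        rw [Real.dist_eq] at e2; linarith
      have d3 : ∀ t, |p.2.2 t - q.2.2 t| ≤ r q := by
        intro t
        have e1 : dist p.2.2 q.2.2 ≤ dist p q := by
          rw [Prod.dist_eq, Prod.dist_eq]
          exact (le_max_right _ _).trans (le_max_right _ _)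
        have e2 := dist_le_pi_dist p.2.2 q.2.2 t
        rw [Real.dist_eq] at e2; linarith
      have key := K q (hFS q hq) X hXq k us gs ?_ ?_ ?_
        (Good_mono hX1.le hgood (Finset.inf'_le _ hq))
      · refine key.trans (Real.rpow_le_rpow_of_exponent_le hX1.le ?_)
        linarith [hTr q (hFS q hq) p hp hb']
      · calc |k - q.1| ≤ |k - p.1| + |p.1 - q.1| := abs_sub_le _ _ _
          _ ≤ 2 * r q := by linarith
      · exact Near_mono (Near_ofFn hnear d2) (by linarith)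
      · refine ⟨hgran.1, fun g hg => (hgran.2.1 g hg).trans (by linarith [hr q (hFS q hq)]), ?_⟩
        intro t
        calc |D.mass X gs t - q.2.2 t| ≤ |D.mass X gs t - p.2.2 t| + |p.2.2 t - q.2.2 t| :=
              abs_sub_le _ _ _
          _ ≤ 2 * r q := by linarith [hgran.2.2 t, d3 t]
  · rw [Finset.not_nonempty_iff_eq_empty] at hne
    refine ⟨1, one_pos, fun lam N B => ⟨1, one_pos, 2, by norm_num, ?_⟩⟩
    intro X hX k us gs p hp
    have := hF hp
    rw [hne] at this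
    simp at this

/-- total masses -/
def tot (t₀ : τ) (s : ℝ) (w : τ → ℝ) : τ → ℝ := fun t => w t + if t = t₀ then s else 0

lemma tot_same (t₀ : τ) (s : ℝ) (w : τ → ℝ) : tot t₀ s w t₀ = w t₀ + s := by simp [tot]

lemma tot_ne {t₀ t : τ} (h : t ≠ t₀) (s : ℝ) (w : τ → ℝ) : tot t₀ s w t = w t := by
  simp [tot, h]

lemma mass_lumps {X : ℝ} {t₀ : τ} {us : List Pc} (hk : ∀ p ∈ us, D.kind p = t₀) (t : τ) :
    D.mass X us t = if t = t₀ then (us.map (D.nl X)).sum else 0 := by
  induction us with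
  | nil => simp
  | cons p us ih =>
    rw [Pcs.mass_cons, ih fun q hq => hk q (List.mem_cons_of_mem _ hq), hk p List.mem_cons_self]
    by_cases h : t = t₀
    · subst h; simp
    · simp [h, Ne.symm h]

/-- **all boxes whose lumps are `≥ a`** -/
theorem stage [Fintype τ] (t₀ : τ) {Ψ : Lam → ℝ → List Pc → ℝ} {Dom : Set (ℝ × (τ → ℝ))}
    (hDom : IsCompact Dom) (hnn : ∀ q ∈ Dom, ∀ t, 0 ≤ q.2 t) {T : ℝ × (τ → ℝ) → ℝ}
    (hT : Continuous T) {μ : ℝ}
    (hbox : ∀ (κ : ℝ) (u : List ℝ) (w : τ → ℝ), (∀ x ∈ u, 0 < x) → (∀ t, 0 ≤ w t) →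
      (κ, tot t₀ u.sum w) ∈ Dom → BG D Ψ κ u w (T (κ, tot t₀ u.sum w) - μ))
    {a : ℝ} (ha : 0 < a) {ε : ℝ} (hε : 0 < ε) :
    ∃ δ : ℝ, 0 < δ ∧ ∀ (lam : Lam) (N : ℕ) (B : ℝ), ∃ δ' : ℝ, 0 < δ' ∧ ∃ X₀ : ℝ, 1 < X₀ ∧
      ∀ X : ℝ, X₀ ≤ X → ∀ (k : ℝ) (us gs : List Pc),
        (∀ p ∈ us, D.lump p ∧ D.kind p = t₀ ∧ a ≤ D.nl X p) → gs.length ≤ N →
        (∀ g ∈ gs, D.nl X g ≤ δ) → ∀ q ∈ Dom, |k - q.1| ≤ δ →
        (∀ t, |D.mass X (us ++ gs) t - q.2 t| ≤ δ) → D.Good X δ' B (us ++ gs) →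
          Ψ lam (k * Real.log X) (us ++ gs) ≤ X ^ (T q - μ + ε) := by
  classical
  -- bound for the masses
  obtain ⟨M, hM⟩ : ∃ M : ℝ, ∀ q ∈ Dom, ∀ t, q.2 t ≤ M := by
    obtain ⟨R, hR⟩ := hDom.isBounded.subset_closedBall (0 : ℝ × (τ → ℝ))
    refine ⟨R, fun q hq t => ?_⟩
    have h1 := mem_closedBall_zero_iff.1 (hR hq)
    have h2 : ‖q.2‖ ≤ ‖q‖ := by rw [Prod.norm_def]; exact le_max_right _ _
    have h3 := norm_le_pi_norm q.2 t
    rw [Real.norm_eq_abs] at h3
    linarith [le_abs_self (q.2 t)]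
  -- the compact sets
  let pr : ∀ n : ℕ, ℝ × (Fin n → ℝ) × (τ → ℝ) → ℝ × (τ → ℝ) :=
    fun n p => (p.1, tot t₀ (∑ i, p.2.1 i) p.2.2)
  have hpr : ∀ n, Continuous (pr n) := by
    intro n
    refine Continuous.prodMk continuous_fst (continuous_pi fun t => ?_)
    by_cases ht : t = t₀
    · subst ht
      simp only [tot, if_true]
      fun_prop
    · simp only [tot, if_neg ht]
      fun_prop
  let S : ∀ n : ℕ, Set (ℝ × (Fin n → ℝ) × (τ → ℝ)) := fun n =>
    {p | (∀ i, a / 2 ≤ p.2.1 i) ∧ (∀ t, 0 ≤ p.2.2 t) ∧ pr n p ∈ Dom}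
  have hSc : ∀ n, IsCompact (S n) := by
    intro n
    rw [Metric.isCompact_iff_isClosed_bounded]
    constructor
    · have e1 : IsClosed {p : ℝ × (Fin n → ℝ) × (τ → ℝ) | ∀ i, a / 2 ≤ p.2.1 i} := by
        simp only [Set.ofPred_forall]
        exact isClosed_iInter fun i => isClosed_le continuous_const
          ((continuous_apply i).comp (continuous_fst.comp continuous_snd))
      have e2 : IsClosed {p : ℝ × (Fin n → ℝ) × (τ → ℝ) | ∀ t, 0 ≤ p.2.2 t} := by
        simp only [Set.ofPred_forall]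
        exact isClosed_iInter fun i => isClosed_le continuous_const
          ((continuous_apply i).comp (continuous_snd.comp continuous_snd))
      have e3 : IsClosed {p : ℝ × (Fin n → ℝ) × (τ → ℝ) | pr n p ∈ Dom} :=
        hDom.isClosed.preimage (hpr n)
      exact e1.inter (e2.inter e3)
    · obtain ⟨R, hR⟩ := hDom.isBounded.subset_closedBall (0 : ℝ × (τ → ℝ))
      have hR0 : ∀ q ∈ Dom, ‖q‖ ≤ |R| := fun q hq =>
        (mem_closedBall_zero_iff.1 (hR hq)).trans (le_abs_self R)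
      refine (Metric.isBounded_closedBall (x := (0 : ℝ × (Fin n → ℝ) × (τ → ℝ)))
        (r := |R|)).subset ?_
      rintro p ⟨h1, h2, h3⟩
      have h4 := hR0 _ h3
      have hA : 0 ≤ |R| := abs_nonneg R
      have hx0 : ∀ i, 0 ≤ p.2.1 i := fun i => le_trans (by linarith) (h1 i)
      have h6 : ‖(pr n p).2‖ ≤ |R| := by
        refine le_trans ?_ h4
        rw [Prod.norm_def]; exact le_max_right _ _
      have h7 : ∀ t, tot t₀ (∑ i, p.2.1 i) p.2.2 t ≤ |R| := fun t => by
        have := (norm_le_pi_norm (pr n p).2 t).trans h6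
        rw [Real.norm_eq_abs] at this
        exact (le_abs_self _).trans this
      have hsum0 : 0 ≤ ∑ i, p.2.1 i := Finset.sum_nonneg fun i _ => hx0 i
      rw [mem_closedBall_zero_iff, Prod.norm_def, Prod.norm_def]
      refine max_le ?_ (max_le ?_ ?_)
      · refine le_trans ?_ h4
        rw [Prod.norm_def]; exact le_max_left _ _
      · rw [pi_norm_le_iff_of_nonneg hA]
        intro i
        rw [Real.norm_eq_abs, abs_of_nonneg (hx0 i)]
        have e1 : p.2.1 i ≤ ∑ i, p.2.1 i := Finset.single_le_sum (fun j _ => hx0 j)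
          (Finset.mem_univ i)
        have e2 := h7 t₀
        rw [tot_same] at e2
        linarith [h2 t₀]
      · rw [pi_norm_le_iff_of_nonneg hA]
        intro t
        rw [Real.norm_eq_abs, abs_of_nonneg (h2 t)]
        refine le_trans ?_ (h7 t)
        unfold tot
        split_ifs
        · linarith
        · linarith
  have hun : ∀ n : ℕ, ∃ δ : ℝ, 0 < δ ∧ ∀ (lam : Lam) (N : ℕ) (B : ℝ), ∃ δ' : ℝ, 0 < δ' ∧ ∃ X₀ : ℝ, 1 < X₀ ∧
      ∀ X : ℝ, X₀ ≤ X → ∀ (k : ℝ) (us gs : List Pc), ∀ p ∈ S n, |k - p.1| ≤ δ →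
        D.Near X δ us (List.ofFn p.2.1) → D.Gran X δ N gs p.2.2 → D.Good X δ' B (us ++ gs) →
          Ψ lam (k * Real.log X) (us ++ gs) ≤ X ^ ((T (pr n p) - μ) + ε) := by
    intro n
    refine unifG (hSc n) (T := fun p => T (pr n p) - μ) ?_ ?_ hε
    · exact ((hT.comp (hpr n)).sub continuous_const).continuousOn
    · rintro p ⟨h1, h2, h3⟩
      have := hbox p.1 (List.ofFn p.2.1) p.2.2 (by
        intro x hx
        rw [List.mem_ofFn] at hx
        obtain ⟨i, rfl⟩ := hx
        linarith [h1 i]) h2 (by rw [List.sum_ofFn]; exact h3)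
      rw [List.sum_ofFn] at this
      exact this
  choose δn hδn hKn using hun
  set nmax : ℕ := ⌈(M + 1) / a⌉₊ with hnmax
  set R : Finset ℕ := Finset.range (nmax + 1) with hRdef
  have hRne : R.Nonempty := ⟨0, by simp [hRdef]⟩
  set δ : ℝ := min (R.inf' hRne δn) (min (a / 2) 1) with hδdef
  have hδ : 0 < δ := by
    rw [hδdef]
    refine lt_min ?_ (lt_min (by linarith) one_pos)
    rw [Finset.lt_inf'_iff]; intro n _; exact hδn n
  refine ⟨δ, hδ, fun lam N B => ?_⟩
  choose η hη X₀ hX₀ K using fun n => hKn n lam N B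
  refine ⟨R.inf' hRne η, ?_, R.sup' hRne X₀, ?_, ?_⟩
  · rw [Finset.lt_inf'_iff]; intro n _; exact hη n
  · exact lt_of_lt_of_le (hX₀ 0) (Finset.le_sup' X₀ (by simp [hRdef]))
  intro X hX k us gs hus hgl hgs q hq hk hm hgood
  have hX1 : 1 < X := lt_of_lt_of_le (hX₀ 0) ((Finset.le_sup' X₀ (by simp [hRdef])).trans hX)
  have hlog : 0 < Real.log X := Real.log_pos hX1
  have hnl : ∀ p ∈ us ++ gs, 0 ≤ D.nl X p := fun p hp => div_nonneg (hgood p hp).2.2 hlog.le
  have hgm : ∀ t, 0 ≤ D.mass X gs t := fun t =>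
    mass_nonneg (fun g hg => hnl g (List.mem_append_right _ hg)) t
  have hum : ∀ t, D.mass X us t = if t = t₀ then (us.map (D.nl X)).sum else 0 :=
    mass_lumps fun p hp => (hus p hp).2.1
  set n := us.length with hn
  set x : Fin n → ℝ := fun i => D.nl X (us.get i) with hx
  have hxs : (us.map (D.nl X)).sum = ∑ i, x i := by
    rw [← List.sum_ofFn, hx]
    congr 1
    apply List.ext_getElem
    · simp [hn]
    · intro i h1 h2
      simp
  have hxa : ∀ i, a ≤ x i := fun i => (hus _ (List.get_mem us i)).2.2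
  set s := ∑ i, x i with hs
  have hδ1 : δ ≤ 1 := (min_le_right _ _).trans (min_le_right _ _)
  have hδa : δ ≤ a / 2 := (min_le_right _ _).trans (min_le_left _ _)
  have hmt0 : D.mass X (us ++ gs) t₀ = s + D.mass X gs t₀ := by
    rw [D.mass_append, hum, if_pos rfl, hxs]
  have hs_le : s ≤ q.2 t₀ + δ := by
    have := (abs_le.1 (hm t₀)).2
    rw [hmt0] at this
    linarith [hgm t₀]
  have hnR : n ∈ R := by
    rw [hRdef, Finset.mem_range]
    have h1 : (n : ℝ) * a ≤ s := by
      rw [hs]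
      calc (n : ℝ) * a = ∑ i : Fin n, a := by simp
        _ ≤ _ := Finset.sum_le_sum fun i _ => hxa i
    have h2 : (n : ℝ) ≤ (M + 1) / a := by
      rw [le_div_iff₀ ha]
      linarith [hM q hq t₀]
    have h3 : (n : ℝ) ≤ (nmax : ℝ) := h2.trans (Nat.le_ceil _)
    have : n ≤ nmax := by exact_mod_cast h3
    omega
  have hδn' : δ ≤ δn n := (min_le_left _ _).trans (Finset.inf'_le _ hnR)
  have hXn : X₀ n ≤ X := (Finset.le_sup' X₀ hnR).trans hX
  have hm0 : 0 ≤ q.2 t₀ := hnn q hq t₀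
  -- the approximating point
  obtain ⟨x', w', hx'a, hx'x, hw'0, hw'w, htot⟩ : ∃ (x' : Fin n → ℝ) (w' : τ → ℝ),
      (∀ i, a / 2 ≤ x' i) ∧ (∀ i, |x i - x' i| ≤ δ) ∧ (∀ t, 0 ≤ w' t) ∧
      (∀ t, |D.mass X gs t - w' t| ≤ δ) ∧ tot t₀ (∑ i, x' i) w' = q.2 := by
    have hne : ∀ t, t ≠ t₀ → |D.mass X gs t - q.2 t| ≤ δ := by
      intro t ht
      have := hm t
      rwa [D.mass_append, hum, if_neg ht, zero_add] at this
    have h0 := abs_le.1 (hm t₀)
    rw [hmt0] at h0
    by_cases hc : s ≤ q.2 t₀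
    · refine ⟨x, fun t => if t = t₀ then q.2 t₀ - s else q.2 t, fun i => by linarith [hxa i],
        fun i => by simpa using hδ.le, fun t => ?_, fun t => ?_, ?_⟩
      · dsimp only
        split_ifs
        · linarith
        · exact hnn q hq t
      · dsimp only
        split_ifs with ht
        · subst ht
          rw [abs_le]; constructor <;> linarith
        · exact hne t ht
      · funext t
        by_cases ht : t = t₀
        · subst ht; simp [tot]; linarith
        · simp [tot, ht]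
    · push Not at hc
      have hspos : 0 < s := lt_of_le_of_lt hm0 hc
      refine ⟨fun i => x i * (q.2 t₀ / s), fun t => if t = t₀ then 0 else q.2 t, fun i => ?_,
        fun i => ?_, fun t => ?_, fun t => ?_, ?_⟩
      · have hxi : x i ≤ s := Finset.single_le_sum (fun j _ => by linarith [hxa j])
          (Finset.mem_univ i)
        have : x i - x i * (q.2 t₀ / s) ≤ δ := by
          have e : x i - x i * (q.2 t₀ / s) = (x i / s) * (s - q.2 t₀) := by
            field_simp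
          rw [e]
          have e1 : x i / s ≤ 1 := by rw [div_le_one hspos]; exact hxi
          calc x i / s * (s - q.2 t₀) ≤ 1 * (s - q.2 t₀) :=
                mul_le_mul_of_nonneg_right e1 (by linarith)
            _ ≤ δ := by linarith
        linarith [hxa i]
      · have hxi : x i ≤ s := Finset.single_le_sum (fun j _ => by linarith [hxa j])
          (Finset.mem_univ i)
        have e : x i - x i * (q.2 t₀ / s) = (x i / s) * (s - q.2 t₀) := by
          field_simp
        have e0 : 0 ≤ x i / s := div_nonneg (by linarith [hxa i]) hspos.le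
        have e1 : x i / s ≤ 1 := by rw [div_le_one hspos]; exact hxi
        rw [e, abs_of_nonneg (mul_nonneg e0 (by linarith))]
        calc x i / s * (s - q.2 t₀) ≤ 1 * (s - q.2 t₀) :=
              mul_le_mul_of_nonneg_right e1 (by linarith)
          _ ≤ δ := by linarith
      · dsimp only
        split_ifs
        · exact le_rfl
        · exact hnn q hq t
      · dsimp only
        split_ifs with ht
        · subst ht
          rw [abs_le]; constructor
          · linarith [hgm t]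
          · linarith
        · exact hne t ht
      · funext t
        by_cases ht : t = t₀
        · subst ht
          simp only [tot, if_true]
          rw [← Finset.sum_mul, ← hs, zero_add]
          field_simp
        · simp [tot, ht]
  have hp : (q.1, x', w') ∈ S n := ⟨hx'a, hw'0, by
    show (q.1, tot t₀ (∑ i, x' i) w') ∈ Dom
    rw [htot]; exact hq⟩
  have key := K n X hXn k us gs (q.1, x', w') hp (hk.trans hδn') ?_ ?_
    (Good_mono hX1.le hgood (Finset.inf'_le _ hnR))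
  · have e : pr n (q.1, x', w') = q := by
      show (q.1, tot t₀ (∑ i, x' i) w') = q
      rw [htot]
    rw [e] at key
    exact key
  · unfold Pcs.Near
    rw [List.forall₂_iff_get]
    refine ⟨by simp [hn], fun i h1 h2 => ?_⟩
    simp only [List.get_eq_getElem, List.getElem_ofFn]
    refine ⟨(hus _ (List.getElem_mem h1)).1, ?_⟩
    exact (hx'x ⟨i, h1⟩).trans hδn'
  · exact ⟨hgl, fun g hg => (hgs g hg).trans hδn', fun t => (hw'w t).trans hδn'⟩

/-! ### all boxes -/

lemma rem_list {Ψ : ℝ → List Pc → ℝ} {R : Pc → ℝ} (hR : ∀ p, 0 ≤ R p)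
    (hrem : ∀ l p ps, Ψ l (p :: ps) ≤ R p * Ψ l ps) (l : ℝ) (bs ps : List Pc) :
    Ψ l (bs ++ ps) ≤ (bs.map R).prod * Ψ l ps := by
  induction bs with
  | nil => simp
  | cons b bs ih =>
    rw [List.cons_append, List.map_cons, List.prod_cons, mul_assoc]
    exact (hrem l b _).trans (mul_le_mul_of_nonneg_left ih (hR b))

lemma prod_le_pow {R : Pc → ℝ} {c X : ℝ} (hX : 1 < X) (hc : 1 ≤ c) (bs : List Pc)
    (hR : ∀ p ∈ bs, 0 ≤ R p ∧ R p ≤ c * Real.exp (D.len p)) :
    (bs.map R).prod ≤ c ^ bs.length * X ^ ((bs.map (D.nl X)).sum) := by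
  have hX0 : (0:ℝ) < X := by linarith
  have hlog : 0 < Real.log X := Real.log_pos hX
  induction bs with
  | nil => simp
  | cons b bs ih =>
    have ih' := ih fun p hp => hR p (List.mem_cons_of_mem _ hp)
    obtain ⟨h1, h2⟩ := hR b List.mem_cons_self
    rw [List.map_cons, List.prod_cons, List.map_cons, List.sum_cons, List.length_cons,
      Real.rpow_add hX0, pow_succ]
    have e1 : Real.exp (D.len b) = X ^ (D.nl X b) := by
      rw [Real.rpow_def_of_pos hX0]
      congr 1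
      unfold Pcs.nl
      field_simp
    rw [e1] at h2
    have h0 : 0 ≤ (bs.map R).prod := List.prod_nonneg (by
      intro r hr
      rw [List.mem_map] at hr
      obtain ⟨p, hp, rfl⟩ := hr
      exact (hR p (List.mem_cons_of_mem _ hp)).1)
    calc R b * (bs.map R).prod ≤ (c * X ^ (D.nl X b)) *
          (c ^ bs.length * X ^ ((bs.map (D.nl X)).sum)) :=
          mul_le_mul h2 ih' h0 (by positivity)
      _ = _ := by ring

lemma sum_ite_le {J : ℕ} {P : ℕ → Prop} [DecidablePred P] {c : ℝ} (hc : 0 ≤ c)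
    (hP : ∀ i j, i < j → P i → P j → False) :
    ∑ j ∈ Finset.range J, (if P j then c else 0) ≤ c := by
  rw [← Finset.sum_filter, Finset.sum_const, nsmul_eq_mul]
  have : ((Finset.range J).filter P).card ≤ 1 := by
    rw [Finset.card_le_one]
    intro i hi j hj
    rw [Finset.mem_filter] at hi hj
    by_contra hne
    rcases lt_or_gt_of_ne hne with h | h
    · exact hP i j h hi.2 hj.2
    · exact hP j i h hj.2 hi.2
  have h2 : (((Finset.range J).filter P).card : ℝ) ≤ 1 := by exact_mod_cast this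
  nlinarith

open Classical in
/-- the pieces in the band `(b, a]` -/
def bnd (D : Pcs Pc τ) (X b a : ℝ) (ps : List Pc) : List Pc :=
  ps.filter fun p => decide (b < D.nl X p ∧ D.nl X p ≤ a)

open Classical in
lemma bnd_sum {X : ℝ} {a : ℕ → ℝ} (ha : Antitone a) (t₀ : τ) {J : ℕ} (ps : List Pc)
    (h0 : ∀ p ∈ ps, 0 ≤ D.nl X p) (hk : ∀ p ∈ ps, a J < D.nl X p → D.kind p = t₀) :
    ∑ j ∈ Finset.range J, ((bnd D X (a (j + 1)) (a j) ps).map (D.nl X)).sum ≤ D.mass X ps t₀ := by
  induction ps with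
  | nil => simp [bnd]
  | cons p ps ih =>
    have ih' := ih (fun q hq => h0 q (List.mem_cons_of_mem _ hq))
      (fun q hq => hk q (List.mem_cons_of_mem _ hq))
    rw [Pcs.mass_cons]
    have e : ∀ j, ((bnd D X (a (j + 1)) (a j) (p :: ps)).map (D.nl X)).sum =
        (if a (j + 1) < D.nl X p ∧ D.nl X p ≤ a j then D.nl X p else 0) +
          ((bnd D X (a (j + 1)) (a j) ps).map (D.nl X)).sum := by
      intro j
      unfold bnd
      rw [List.filter_cons]
      by_cases h : a (j + 1) < D.nl X p ∧ D.nl X p ≤ a j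
      · rw [if_pos (by simpa using h), if_pos h, List.map_cons, List.sum_cons]
      · rw [if_neg (by simpa using h), if_neg h, zero_add]
    simp only [e]
    rw [Finset.sum_add_distrib]
    refine add_le_add ?_ ih'
    have hp0 := h0 p List.mem_cons_self
    by_cases hex : ∃ j ∈ Finset.range J, a (j + 1) < D.nl X p ∧ D.nl X p ≤ a j
    · obtain ⟨j, hj, h1, h2⟩ := hex
      rw [Finset.mem_range] at hj
      have hkp : D.kind p = t₀ := hk p List.mem_cons_self
        (lt_of_le_of_lt (ha (by omega)) h1)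
      rw [if_pos hkp]
      refine sum_ite_le hp0 ?_
      intro i j hij h1 h2
      have := ha (show i + 1 ≤ j by omega)
      linarith [h1.1, h2.2]
    · push Not at hex
      rw [Finset.sum_eq_zero]
      · split_ifs <;> linarith
      · intro j hj
        rw [if_neg]
        rintro ⟨h1, h2⟩
        exact absurd h2 (not_le.2 (hex j hj h1))

open Classical in
lemma bnd_perm {X b a : ℝ} (hba : b ≤ a) (ps : List Pc) :
    ∃ us gs : List Pc, ps.Perm (bnd D X b a ps ++ (us ++ gs)) ∧ (∀ p ∈ us, a < D.nl X p) ∧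
      ∀ p ∈ gs, D.nl X p ≤ b := by
  refine ⟨(ps.filter fun p => !decide (b < D.nl X p ∧ D.nl X p ≤ a)).filter
    fun p => decide (a < D.nl X p), (ps.filter fun p => !decide (b < D.nl X p ∧
      D.nl X p ≤ a)).filter fun p => !decide (a < D.nl X p), ?_, ?_, ?_⟩
  · have h1 := List.filter_append_perm (fun p => decide (b < D.nl X p ∧ D.nl X p ≤ a)) ps
    have h2 := List.filter_append_perm (fun p => decide (a < D.nl X p))
      (ps.filter fun p => !decide (b < D.nl X p ∧ D.nl X p ≤ a))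
    exact h1.symm.trans (List.Perm.append_left _ h2.symm)
  · intro p hp
    simpa using (List.mem_filter.1 hp).2
  · intro p hp
    obtain ⟨h1, h2⟩ := List.mem_filter.1 hp
    have h3 := (List.mem_filter.1 h1).2
    simp only [Bool.not_eq_true', decide_eq_false_iff_not, not_lt, not_and, not_le] at h2 h3
    by_contra hc
    push Not at hc
    linarith [h3 hc]

/-- **all boxes** -/
theorem top [Fintype τ] (t₀ : τ) {Ψ : Lam → ℝ → List Pc → ℝ} (h0 : ∀ lam l ps, 0 ≤ Ψ lam l ps)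
    (hperm : ∀ lam l ps qs, ps.Perm qs → Ψ lam l ps = Ψ lam l qs) (hs1 : ∀ p, 0 ≤ D.s1 p)
    (hrem : ∀ lam, ∃ (C : ℝ) (A : ℕ), 1 ≤ C ∧ ∀ l p ps,
      Ψ lam l (p :: ps) ≤ C * (1 + D.s1 p) ^ A * Real.exp (D.len p) * Ψ lam l ps)
    (hkind : ∀ p, D.lump p → D.kind p = t₀) {Dom : Set (ℝ × (τ → ℝ))}
    (hDom : IsCompact Dom) (hnn : ∀ q ∈ Dom, ∀ t, 0 ≤ q.2 t)
    (hdown : ∀ q ∈ Dom, ∀ b, 0 ≤ b → b ≤ q.2 t₀ →
      (q.1, Function.update q.2 t₀ (q.2 t₀ - b)) ∈ Dom) {T : ℝ × (τ → ℝ) → ℝ}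
    (hT : Continuous T)
    (hTm : ∀ q ∈ Dom, ∀ b, 0 ≤ b → b ≤ q.2 t₀ →
      T (q.1, Function.update q.2 t₀ (q.2 t₀ - b)) ≤ T q) {μ : ℝ}
    (hbox : ∀ (κ : ℝ) (u : List ℝ) (w : τ → ℝ), (∀ x ∈ u, 0 < x) → (∀ t, 0 ≤ w t) →
      (κ, tot t₀ u.sum w) ∈ Dom → BG D Ψ κ u w (T (κ, tot t₀ u.sum w) - μ))
    {μ' : ℝ} (hμ : μ' < μ) :
    ∃ δ : ℝ, 0 < δ ∧ ∀ (lam : Lam) (N : ℕ) (B : ℝ), ∃ δ' : ℝ, 0 < δ' ∧ ∃ X₀ : ℝ, 1 < X₀ ∧
      ∀ X : ℝ, X₀ ≤ X → ∀ (k : ℝ) (ps : List Pc), ps.length ≤ N →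
        (∀ p ∈ ps, D.lump p ∨ D.nl X p ≤ δ) → ∀ q ∈ Dom, |k - q.1| ≤ δ →
        (∀ t, |D.mass X ps t - q.2 t| ≤ δ) → D.Good X δ' B ps →
          Ψ lam (k * Real.log X) ps ≤ X ^ (T q - μ') := by
  classical
  set ε := (μ - μ') / 4 with hε
  have hεp : 0 < ε := by rw [hε]; linarith
  -- bound for the masses
  obtain ⟨M, hM⟩ : ∃ M : ℝ, ∀ q ∈ Dom, q.2 t₀ ≤ M := by
    obtain ⟨R, hR⟩ := hDom.isBounded.subset_closedBall (0 : ℝ × (τ → ℝ))
    refine ⟨R, fun q hq => ?_⟩
    have h1 := mem_closedBall_zero_iff.1 (hR hq)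
    have h2 : ‖q.2‖ ≤ ‖q‖ := by rw [Prod.norm_def]; exact le_max_right _ _
    have h3 := norm_le_pi_norm q.2 t₀
    rw [Real.norm_eq_abs] at h3
    linarith [le_abs_self (q.2 t₀)]
  have hst : ∀ a : ℝ, 0 < a → ∃ δ : ℝ, 0 < δ ∧ ∀ (lam : Lam) (N : ℕ) (B : ℝ), ∃ δ' : ℝ, 0 < δ' ∧
      ∃ X₀ : ℝ, 1 < X₀ ∧ ∀ X : ℝ, X₀ ≤ X → ∀ (k : ℝ) (us gs : List Pc),
        (∀ p ∈ us, D.lump p ∧ D.kind p = t₀ ∧ a ≤ D.nl X p) → gs.length ≤ N →
        (∀ g ∈ gs, D.nl X g ≤ δ) → ∀ q ∈ Dom, |k - q.1| ≤ δ →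
        (∀ t, |D.mass X (us ++ gs) t - q.2 t| ≤ δ) → D.Good X δ' B (us ++ gs) →
          Ψ lam (k * Real.log X) (us ++ gs) ≤ X ^ (T q - μ + ε) := fun a ha =>
    stage t₀ hDom hnn hT hbox ha hεp
  choose! dl hdl K using hst
  -- the thresholds
  let a : ℕ → ℝ := fun j => Nat.rec (1 : ℝ) (fun _ x => min (dl x) x / 2) j
  have ha0 : a 0 = 1 := rfl
  have hasucc : ∀ j, a (j + 1) = min (dl (a j)) (a j) / 2 := fun j => rfl
  have hapos : ∀ j, 0 < a j := by
    intro j
    induction j with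
    | zero => rw [ha0]; exact one_pos
    | succ j ih => rw [hasucc]; exact half_pos (lt_min (hdl _ ih) ih)
  have hanti : Antitone a := by
    refine antitone_nat_of_succ_le fun j => ?_
    rw [hasucc]
    have := min_le_right (dl (a j)) (a j)
    linarith [hapos j]
  have hadl : ∀ j, a (j + 1) ≤ dl (a j) := fun j => by
    rw [hasucc]
    have := min_le_left (dl (a j)) (a j)
    linarith [hdl _ (hapos j)]
  obtain ⟨J, hJ⟩ : ∃ J : ℕ, (M + 1) / ε < J := exists_nat_gt _
  set δ := min (a (J + 1)) 1 with hδdef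
  have hδ : 0 < δ := lt_min (hapos (J + 1)) one_pos
  refine ⟨δ, hδ, fun lam N B => ?_⟩
  obtain ⟨C, A, hC, hrem⟩ := hrem lam
  choose! η hη X₀ hX₀ KK using fun (x : ℝ) (hx : 0 < x) => K x hx lam N B
  set R := Finset.range (J + 1) with hR
  have hRne : R.Nonempty := ⟨0, by simp [hR]⟩
  set η' := min (R.inf' hRne fun j => η (a j)) (ε / (A * N + 1)) with hη'
  have hη'p : 0 < η' := by
    rw [hη']
    refine lt_min ?_ (by positivity)
    rw [Finset.lt_inf'_iff]; intro j _; exact hη _ (hapos j)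
  -- `X` large
  obtain ⟨X₁, hX₁, hX₁'⟩ : ∃ X₁ : ℝ, 1 < X₁ ∧ ∀ X, X₁ ≤ X → (C * 2 ^ A) ^ N ≤ X ^ ε := by
    have ht := tendsto_rpow_atTop hεp
    obtain ⟨Y, hY⟩ := Filter.eventually_atTop.1 (ht.eventually_ge_atTop ((C * 2 ^ A) ^ N))
    exact ⟨max Y 2, lt_of_lt_of_le (by norm_num) (le_max_right _ _),
      fun X hX => hY X ((le_max_left _ _).trans hX)⟩
  refine ⟨η', hη'p, max X₁ (R.sup' hRne fun j => X₀ (a j)), lt_of_lt_of_le hX₁ (le_max_left _ _),
    ?_⟩
  intro X hX k ps hlen hlump q hq hk hm hgood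
  have hX1 : 1 < X := lt_of_lt_of_le hX₁ ((le_max_left _ _).trans hX)
  have hXp : 0 < X := by linarith
  have hlog : 0 < Real.log X := Real.log_pos hX1
  have hnl : ∀ p ∈ ps, 0 ≤ D.nl X p := fun p hp => div_nonneg (hgood p hp).2.2 hlog.le
  have hq0 := hnn q hq t₀
  have hbig : ∀ p ∈ ps, a (J + 1) < D.nl X p → D.lump p := by
    intro p hp h
    rcases hlump p hp with h' | h'
    · exact h'
    · exact absurd (h'.trans (min_le_left _ _)) (not_le.2 h)
  -- the band
  have hsum := bnd_sum (D := D) hanti t₀ (J := J + 1) ps hnl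
    (fun p hp h => hkind p (hbig p hp h))
  obtain ⟨j, hj, hbj⟩ : ∃ j ∈ R, ((bnd D X (a (j + 1)) (a j) ps).map (D.nl X)).sum ≤ ε := by
    by_contra hcon
    push Not at hcon
    have h1 : (R.card : ℝ) * ε ≤ ∑ j ∈ R, ((bnd D X (a (j + 1)) (a j) ps).map (D.nl X)).sum := by
      rw [← nsmul_eq_mul]
      exact Finset.card_nsmul_le_sum _ _ _ fun j hj => (hcon j hj).le
    have h2 : D.mass X ps t₀ ≤ M + 1 := by
      have := (abs_le.1 (hm t₀)).2
      have h3 : δ ≤ 1 := min_le_right _ _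
      linarith [hM q hq]
    have h3 : (R.card : ℝ) = J + 1 := by simp [hR]
    rw [h3] at h1
    have h4 : (M + 1) < J * ε := by rwa [div_lt_iff₀ hεp] at hJ
    have h5 : (J + 1 : ℝ) * ε ≤ M + 1 := h1.trans (hsum.trans h2)
    nlinarith
  have hjJ : j < J + 1 := by simpa [hR] using hj
  set bs := bnd D X (a (j + 1)) (a j) ps with hbs
  set bm := (bs.map (D.nl X)).sum with hbm
  obtain ⟨us, gs, hp, hus, hgs⟩ := bnd_perm (D := D) (X := X) (hanti (Nat.le_succ j)) ps
  rw [← hbs] at hp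
  have hmemb : ∀ p ∈ bs, p ∈ ps := fun p hp' => hp.mem_iff.mpr (List.mem_append_left _ hp')
  have hmemr : ∀ p ∈ us ++ gs, p ∈ ps := fun p hp' => hp.mem_iff.mpr (List.mem_append_right _ hp')
  have hbsP : ∀ p ∈ bs, a (j + 1) < D.nl X p ∧ D.nl X p ≤ a j := by
    intro p hp'
    have h1 : p ∈ bnd D X (a (j + 1)) (a j) ps := hp'
    unfold bnd at h1
    have := (List.mem_filter.1 h1).2
    simpa using this
  have hkb : ∀ p ∈ bs, D.kind p = t₀ := fun p hp' =>
    hkind p (hbig p (hmemb p hp')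
      (lt_of_le_of_lt (hanti (show j + 1 ≤ J + 1 by omega)) (hbsP p hp').1))
  have hbm0 : 0 ≤ bm := by
    rw [hbm]
    apply List.sum_nonneg
    intro x hx
    rw [List.mem_map] at hx
    obtain ⟨p, hp', rfl⟩ := hx
    exact hnl p (hmemb p hp')
  -- masses
  have hmass : ∀ t, D.mass X ps t = (if t = t₀ then bm else 0) + D.mass X (us ++ gs) t := by
    intro t
    rw [D.mass_perm hp, D.mass_append, mass_lumps hkb]
  have hr0 : ∀ t, 0 ≤ D.mass X (us ++ gs) t := fun t => mass_nonneg (fun g hg => hnl g (hmemr g hg)) t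
  set b := min bm (q.2 t₀) with hb
  have hb0 : 0 ≤ b := le_min hbm0 hq0
  have hbq : b ≤ q.2 t₀ := min_le_right _ _
  set q' : ℝ × (τ → ℝ) := (q.1, Function.update q.2 t₀ (q.2 t₀ - b)) with hq'
  have hq'D : q' ∈ Dom := hdown q hq b hb0 hbq
  have hTq : T q' ≤ T q := hTm q hq b hb0 hbq
  have hδa : δ ≤ a (j + 1) :=
    (min_le_left _ _).trans (hanti (show j + 1 ≤ J + 1 by omega))
  have hδd : δ ≤ dl (a j) := hδa.trans (hadl j)
  have hXj : X₀ (a j) ≤ X := ((Finset.le_sup' (fun j => X₀ (a j)) hj).trans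
    (le_max_right _ _)).trans hX
  have hm' : ∀ t, |D.mass X (us ++ gs) t - q'.2 t| ≤ δ := by
    intro t
    have h1 := hm t
    rw [hmass t] at h1
    by_cases ht : t = t₀
    · subst ht
      rw [if_pos rfl] at h1
      have e : q'.2 t = q.2 t - b := by simp [hq']
      rw [e]
      rcases le_total bm (q.2 t) with hle | hle
      · have hbe : b = bm := min_eq_left hle
        rw [hbe]
        have : D.mass X (us ++ gs) t - (q.2 t - bm) = bm + D.mass X (us ++ gs) t - q.2 t := by ring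
        rw [this]; exact h1
      · have hbe : b = q.2 t := min_eq_right hle
        rw [hbe, sub_self, sub_zero, abs_of_nonneg (hr0 t)]
        linarith [(abs_le.1 h1).2]
    · rw [if_neg ht, zero_add] at h1
      have e : q'.2 t = q.2 t := by simp [hq', ht]
      rw [e]; exact h1
  have hgl : gs.length ≤ N := by
    have := hp.length_eq
    rw [List.length_append, List.length_append] at this
    omega
  have hbl : bs.length ≤ N := by
    have := hp.length_eq
    rw [List.length_append, List.length_append] at this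
    omega
  have hus' : ∀ p ∈ us, D.lump p ∧ D.kind p = t₀ ∧ a j ≤ D.nl X p := by
    intro p hp'
    have h1 := hus p hp'
    have h2 : D.lump p := hbig p (hmemr p (List.mem_append_left _ hp'))
      (lt_of_le_of_lt (hanti (show j ≤ J + 1 by omega)) h1)
    exact ⟨h2, hkind p h2, h1.le⟩
  have hη'j : η' ≤ η (a j) := (min_le_left _ _).trans (Finset.inf'_le _ hj)
  have hgood' : D.Good X (η (a j)) B (us ++ gs) :=
    Good_mono hX1.le (Good_sub hgood hmemr) hη'j
  have key := KK (a j) (hapos j) X hXj k us gs hus' hgl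
    (fun g hg => (hgs g hg).trans (hadl j)) q' hq'D (hk.trans hδd)
    (fun t => (hm' t).trans hδd) hgood'
  -- removal of the band
  have hC0 : 0 ≤ C := by linarith
  have hrem' := rem_list (Ψ := Ψ lam) (R := fun p => C * (1 + D.s1 p) ^ A * Real.exp (D.len p))
    (fun p => by have := hs1 p; positivity) hrem (k * Real.log X) bs (us ++ gs)
  rw [hperm _ _ _ _ hp]
  have hXη : 1 ≤ X ^ η' := Real.one_le_rpow hX1.le hη'p.le
  have hprod := prod_le_pow (D := D) (R := fun p => C * (1 + D.s1 p) ^ A * Real.exp (D.len p))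
    (c := C * (2 * X ^ η') ^ A) hX1 (by
      have : (1:ℝ) ≤ (2 * X ^ η') ^ A := one_le_pow₀ (by linarith)
      nlinarith) bs (by
      intro p hp'
      have h1 := hs1 p
      refine ⟨by positivity, ?_⟩
      have h2 : 1 + D.s1 p ≤ 2 * X ^ η' := by
        have := (hgood p (hmemb p hp')).1
        linarith
      gcongr)
  have hlast : (C * (2 * X ^ η') ^ A) ^ bs.length ≤ X ^ (2 * ε) := by
    have h1 : (1:ℝ) ≤ C * (2 * X ^ η') ^ A := by
      have : (1:ℝ) ≤ (2 * X ^ η') ^ A := one_le_pow₀ (by linarith)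
      nlinarith
    calc (C * (2 * X ^ η') ^ A) ^ bs.length ≤ (C * (2 * X ^ η') ^ A) ^ N :=
          pow_le_pow_right₀ h1 hbl
      _ = (C * 2 ^ A) ^ N * (X ^ η') ^ (A * N) := by
          rw [mul_pow 2, ← mul_assoc, mul_pow, ← pow_mul (X ^ η')]
      _ ≤ X ^ ε * X ^ ε := by
          refine mul_le_mul (hX₁' X ((le_max_left _ _).trans hX)) ?_ (by positivity) (by positivity)
          rw [← Real.rpow_natCast, ← Real.rpow_mul hXp.le]
          refine Real.rpow_le_rpow_of_exponent_le hX1.le ?_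
          have h2 : η' ≤ ε / (A * N + 1) := min_le_right _ _
          have h3 : (0:ℝ) ≤ (A * N : ℕ) := by positivity
          calc η' * ((A * N : ℕ) : ℝ) ≤ ε / (A * N + 1) * ((A * N : ℕ) : ℝ) :=
                mul_le_mul_of_nonneg_right h2 h3
            _ ≤ ε := by
                push_cast
                rw [div_mul_eq_mul_div, div_le_iff₀ (by positivity)]
                nlinarith
      _ = X ^ (2 * ε) := by rw [← Real.rpow_add hXp]; congr 1; ring
  have hkey0 := h0 lam (k * Real.log X) (us ++ gs)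
  calc Ψ lam (k * Real.log X) (bs ++ (us ++ gs))
      ≤ (bs.map fun p => C * (1 + D.s1 p) ^ A * Real.exp (D.len p)).prod *
        Ψ lam (k * Real.log X) (us ++ gs) := hrem'
    _ ≤ ((C * (2 * X ^ η') ^ A) ^ bs.length * X ^ bm) * X ^ (T q' - μ + ε) :=
        mul_le_mul hprod key hkey0 (by positivity)
    _ ≤ (X ^ (2 * ε) * X ^ ε) * X ^ (T q - μ + ε) := by
        refine mul_le_mul (mul_le_mul hlast ?_ (by positivity) (by positivity)) ?_
          (by positivity) (by positivity)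
        · exact Real.rpow_le_rpow_of_exponent_le hX1.le hbj
        · exact Real.rpow_le_rpow_of_exponent_le hX1.le (by linarith)
    _ = X ^ (T q - μ') := by
        rw [← Real.rpow_add hXp, ← Real.rpow_add hXp]
        congr 1
        rw [hε]; ring

end Crest.Agent.R017.XG702
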