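import Crest.Agent.R017.XB_71
import Crest.Agent.R017.XG2_702
import Crest.Agent.R017.CubeL_298

/-!
# Row 17, provider: complete families from cube-free families (helper71)

* `BG_cubes` : abstract
* `BG_Rc` : the complete character side `Rc` from `Rp`
* `BG_Bc` : the complete box functional from `Bp`
* `S0p`, `BG_Sp` : Gauss side
-/

set_option autoImplicit false
set_option linter.unusedSectionVars false

noncomputable section

open Complex
open scoped ComplexConjugate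

namespace Crest.Agent.R017.Prov71

open Crest.Agent.R012 Crest.Agent.R012.Eis Crest.Agent.R012.LS2
open Crest.Agent.R017.XG702 (Pcs BG Loc)

section gen

variable {Pc τ Lam : Type*} [DecidableEq τ] {D : Pcs Pc τ}

/-- `f` changes only the size `s2` -/
structure Tws (D : Pcs Pc τ) (f : Eis → Pc → Pc) : Prop where
  len : ∀ c p, c ≠ 0 → D.len (f c p) = D.len p
  kind : ∀ c p, c ≠ 0 → D.kind (f c p) = D.kind p
  lump : ∀ c p, c ≠ 0 → D.lump p → D.lump (f c p)
  s1 : ∀ c p, c ≠ 0 → D.s1 (f c p) = D.s1 p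
  s2 : ∀ c p, c ≠ 0 → D.s2 (f c p) ≤ D.s2 p * nm c

lemma Tws.mass {f : Eis → Pc → Pc} (hf : Tws D f) {c : Eis} (hc : c ≠ 0) (X : ℝ) (ps : List Pc)
    (t : τ) : D.mass X (ps.map (f c)) t = D.mass X ps t := by
  induction ps with
  | nil => rfl
  | cons p ps ih =>
    rw [List.map_cons, Pcs.mass_cons, Pcs.mass_cons, ih, hf.kind c p hc]
    unfold Pcs.nl
    rw [hf.len c p hc]

lemma Tws.near {f : Eis → Pc → Pc} (hf : Tws D f) {c : Eis} (hc : c ≠ 0) {X δ : ℝ} {us : List Pc}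
    {u : List ℝ} (h : D.Near X δ us u) : D.Near X δ (us.map (f c)) u := by
  unfold Pcs.Near at h ⊢
  induction h with
  | nil => exact List.Forall₂.nil
  | @cons p x us u h1 _ ih =>
    refine List.Forall₂.cons ⟨hf.lump c p hc h1.1, ?_⟩ ih
    have e : D.nl X (f c p) = D.nl X p := by unfold Pcs.nl; rw [hf.len c p hc]
    rw [e]; exact h1.2

lemma Tws.gran {f : Eis → Pc → Pc} (hf : Tws D f) {c : Eis} (hc : c ≠ 0) {X δ : ℝ} {N : ℕ}
    {gs : List Pc} {w : τ → ℝ} (h : D.Gran X δ N gs w) : D.Gran X δ N (gs.map (f c)) w := by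
  refine ⟨by rw [List.length_map]; exact h.1, fun g hg => ?_, fun t => ?_⟩
  · obtain ⟨p, hp, rfl⟩ := List.mem_map.1 hg
    have e : D.nl X (f c p) = D.nl X p := by unfold Pcs.nl; rw [hf.len c p hc]
    rw [e]; exact h.2.1 p hp
  · rw [hf.mass hc]; exact h.2.2 t

lemma sum_inv_bl (Y : ℝ) : ∑ c ∈ bl Y, (1 / (nm c : ℝ)) ≤ 100 * (1 + Real.log (⌊Y⌋₊ : ℝ)) :=
  Div277.sum_inv_nz_le ⌊Y⌋₊

set_option maxHeartbeats 1000000 in
/-- **complete families from cube-free families** -/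
theorem BG_cubes [Fintype τ] {Ψ Φ : Lam → ℝ → List Pc → ℝ} {f : Eis → Pc → Pc} (hf : Tws D f)
    (H : ∀ lam l ps, 0 ≤ l → Ψ lam l ps ≤
      ∑ c ∈ bl (Real.exp (l / 3)), Φ lam (l - 3 * Real.log (nm c)) (ps.map (f c)))
    (H0 : ∀ lam l ps, l < 0 → Ψ lam l ps ≤ 0) {κ E : ℝ} {u : List ℝ} {w : τ → ℝ} (hκ : 0 ≤ κ)
    (h : ∀ i, 0 ≤ i → i ≤ κ → BG D Φ i u w (E - (κ - i) / 3)) : BG D Ψ κ u w E := by
  intro ε hε
  set S : Set (ℝ × (Fin u.length → ℝ) × (τ → ℝ)) := (Set.Icc 0 κ) ×ˢ {((fun i => u.get i), w)}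
    with hS
  have hSc : IsCompact S := isCompact_Icc.prod isCompact_singleton
  have hu : List.ofFn (fun i => u.get i) = u := List.ofFn_get u
  obtain ⟨δ₀, hδ₀, HU⟩ := XG702.unifG (D := D) (Ψ := Φ) hSc
    (T := fun p => E - (κ - p.1) / 3) (by fun_prop)
    (by
      rintro ⟨i, v⟩ ⟨hi, hv⟩
      rw [Set.mem_singleton_iff] at hv
      subst hv
      simp only
      rw [hu]
      exact h i hi.1 hi.2) (ε := ε / 4) (by positivity)
  set δ := min δ₀ (min ε 1) with hδd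
  have hδ : 0 < δ := by positivity
  have hδ1 : δ ≤ δ₀ := min_le_left _ _
  have hδ2 : δ ≤ ε := (min_le_right _ _).trans (min_le_left _ _)
  have hδ3 : δ ≤ 1 := (min_le_right _ _).trans (min_le_right _ _)
  refine ⟨δ, hδ, fun lam N B => ?_⟩
  obtain ⟨δ', hδ', X₀, hX₀, HX⟩ := HU lam N (|B| + κ + 1)
  obtain ⟨X₁, hX₁⟩ : ∃ X₁ : ℝ, ∀ X, X₁ ≤ X → 100 * (1 + (κ + 1) * Real.log X) ≤ X ^ (ε / 4) := by
    have h1 : (fun X : ℝ => 100 * (1 + (κ + 1) * Real.log X)) =o[Filter.atTop]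
        fun X => X ^ (ε / 4) := by
      have a1 : (fun X : ℝ => Real.log X) =o[Filter.atTop] fun X => X ^ (ε / 4) :=
        isLittleO_log_rpow_atTop (by positivity)
      have a2 : (fun _ : ℝ => (1 : ℝ)) =o[Filter.atTop] fun X => X ^ (ε / 4) := by
        refine Asymptotics.isLittleO_const_left.2 (Or.inr ?_)
        exact tendsto_norm_atTop_atTop.comp (tendsto_rpow_atTop (by positivity))
      exact ((a2.add (a1.const_mul_left (κ + 1))).const_mul_left 100)
    have h2 := h1.bound (by norm_num : (0 : ℝ) < 1)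
    obtain ⟨X₁, h3⟩ := Filter.eventually_atTop.1 h2
    refine ⟨max X₁ 1, fun X hX => ?_⟩
    have h4 := h3 X ((le_max_left _ _).trans hX)
    rw [one_mul, Real.norm_eq_abs, Real.norm_eq_abs,
      abs_of_nonneg (Real.rpow_nonneg (by linarith [(le_max_right X₁ 1).trans hX]) _)] at h4
    exact (le_abs_self _).trans h4
  refine ⟨δ', hδ', max X₀ (max X₁ 2), lt_of_lt_of_le hX₀ (le_max_left _ _), ?_⟩
  intro X hX k us gs hk hnear hgran hgood
  have e1 : X₀ ≤ X := (le_max_left _ _).trans hX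
  have e2 : X₁ ≤ X := ((le_max_left _ _).trans (le_max_right _ _)).trans hX
  have e3 : (2 : ℝ) ≤ X := ((le_max_right _ _).trans (le_max_right _ _)).trans hX
  have hX1 : 1 < X := by linarith
  have hX0 : 0 < X := by linarith
  have hlog : 0 < Real.log X := Real.log_pos hX1
  have hkκ := abs_le.1 hk
  rcases lt_or_ge k 0 with hk0 | hk0
  · exact (H0 _ _ _ (by nlinarith)).trans (Real.rpow_nonneg hX0.le _)
  refine (H _ _ _ (by positivity)).trans ?_
  have hterm : ∀ c ∈ bl (Real.exp (k * Real.log X / 3)),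
      Φ lam (k * Real.log X - 3 * Real.log (nm c)) ((us ++ gs).map (f c)) ≤
        X ^ (E + ε / 4 + δ / 3) * (1 / (nm c : ℝ)) := by
    intro c hc
    rw [mem_bl (Real.exp_pos _).le] at hc
    have hc0 := hc.1
    have hnc : (1 : ℝ) ≤ nm c := by exact_mod_cast nm_pos.2 hc0
    have hlc : 0 ≤ Real.log (nm c) := Real.log_nonneg hnc
    have hlc2 : Real.log (nm c) ≤ k * Real.log X / 3 := by
      have := Real.log_le_log (by linarith) hc.2
      rwa [Real.log_exp] at this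
    set i := k - 3 * Real.log (nm c) / Real.log X with hi
    have hiX : i * Real.log X = k * Real.log X - 3 * Real.log (nm c) := by
      rw [hi]; field_simp
    have hi0 : 0 ≤ i := by
      by_contra hneg
      push Not at hneg
      have : i * Real.log X < 0 := mul_neg_of_neg_of_pos hneg hlog
      rw [hiX] at this
      linarith
    have hik : i ≤ k := by
      have : 0 ≤ 3 * Real.log (nm c) / Real.log X := by positivity
      linarith
    rw [← hiX, List.map_append]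
    have hm := HX X e1 i (us.map (f c)) (gs.map (f c)) (min i κ, ((fun i => u.get i), w))
      ⟨⟨le_min hi0 hκ, min_le_right _ _⟩, rfl⟩
      (by
        simp only
        rcases le_total i κ with h5 | h5
        · rw [min_eq_left h5, sub_self, abs_zero]; exact hδ₀.le
        · rw [min_eq_right h5, abs_of_nonneg (by linarith)]
          linarith)
      (by
        simp only
        rw [hu]
        exact XG702.Near_mono (hf.near hc0 hnear) hδ1)
      (by
        simp only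
        exact XG702.Gran_mono (hf.gran hc0 hgran) hδ1 le_rfl)
      (by
        rw [← List.map_append]
        intro p hp
        obtain ⟨q, hq, rfl⟩ := List.mem_map.1 hp
        obtain ⟨g1, g2, g3⟩ := hgood q hq
        refine ⟨?_, ?_, ?_⟩
        · rw [hf.s1 c q hc0]; exact g1
        · refine (hf.s2 c q hc0).trans ?_
          have n1 : (nm c : ℝ) ≤ X ^ (κ + 1) := by
            have : (nm c : ℝ) ≤ Real.exp (k * Real.log X / 3) := hc.2
            refine this.trans ?_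
            rw [Real.rpow_def_of_pos hX0]
            apply Real.exp_le_exp.2
            nlinarith
          calc D.s2 q * (nm c : ℝ) ≤ X ^ |B| * X ^ (κ + 1) := by
                have : D.s2 q ≤ X ^ |B| := g2.trans
                  (Real.rpow_le_rpow_of_exponent_le hX1.le (le_abs_self B))
                exact mul_le_mul this n1 (by linarith) (Real.rpow_nonneg hX0.le _)
            _ = X ^ (|B| + κ + 1) := by rw [← Real.rpow_add hX0]; congr 1; ring
        · rw [hf.len c q hc0]; exact g3)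
    refine hm.trans ?_
    simp only
    have h6 : (1 / (nm c : ℝ)) = X ^ (-(Real.log (nm c) / Real.log X)) := by
      rw [Real.rpow_neg hX0.le, one_div]
      congr 1
      rw [Real.rpow_def_of_pos hX0]
      have : Real.log X * (Real.log (nm c) / Real.log X) = Real.log (nm c) := by field_simp
      rw [this, Real.exp_log (by linarith)]
    rw [h6, ← Real.rpow_add hX0]
    refine Real.rpow_le_rpow_of_exponent_le hX1.le ?_
    have h7 : Real.log (nm c) / Real.log X = (k - i) / 3 := by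
      rw [hi]; field_simp; ring
    rw [h7]
    rcases le_total i κ with h5 | h5
    · rw [min_eq_left h5]; linarith
    · rw [min_eq_right h5]; linarith
  refine (Finset.sum_le_sum hterm).trans ?_
  rw [← Finset.mul_sum]
  have h8 : ∑ c ∈ bl (Real.exp (k * Real.log X / 3)), (1 / (nm c : ℝ)) ≤ X ^ (ε / 4) := by
    refine (sum_inv_bl _).trans (le_trans ?_ (hX₁ X e2))
    have h9 : Real.log (⌊Real.exp (k * Real.log X / 3)⌋₊ : ℝ) ≤ (κ + 1) * Real.log X := by
      have h10 : (⌊Real.exp (k * Real.log X / 3)⌋₊ : ℝ) ≤ Real.exp (k * Real.log X / 3) :=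
        Nat.floor_le (Real.exp_pos _).le
      rcases (Nat.cast_nonneg (α := ℝ) ⌊Real.exp (k * Real.log X / 3)⌋₊).eq_or_lt with h11 | h11
      · rw [← h11, Real.log_zero]; positivity
      · have := Real.log_le_log h11 h10
        rw [Real.log_exp] at this
        nlinarith
    linarith
  calc X ^ (E + ε / 4 + δ / 3) * ∑ c ∈ bl (Real.exp (k * Real.log X / 3)), (1 / (nm c : ℝ))
      ≤ X ^ (E + ε / 4 + δ / 3) * X ^ (ε / 4) := by gcongr
    _ = X ^ (E + ε / 2 + δ / 3) := by rw [← Real.rpow_add hX0]; congr 1; ring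
    _ ≤ X ^ (E + ε) := Real.rpow_le_rpow_of_exponent_le hX1.le (by linarith)

end gen

/-! ### the twist of the pieces -/

open Crest.Agent.R017.B770 Crest.Agent.R017.End699 Crest.Agent.R017.Sup271
open Crest.Agent.R017.CM106 Crest.Agent.R017.FE47
open Crest.Agent.R017.HP842 (UT Pc pc KS sqc Kg uv alL alL_nil alL_cons cvL dl)
open Crest.Agent.R017.TP320 (conv)
open Crest.Agent.R012.Div277
open Crest.Agent.R017.ER911

open Classical in
/-- coprimality to `c` inserted -/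
def Pq.tw (c : Eis) (p : Pq) : Pq :=
  if hc : c = 0 then p else ⟨p.kd, p.u, p.d * c, mul_ne_zero p.d0 hc, p.z, p.t⟩

lemma Pq.tw_eq {c : Eis} (hc : c ≠ 0) (p : Pq) :
    p.tw c = ⟨p.kd, p.u, p.d * c, mul_ne_zero p.d0 hc, p.z, p.t⟩ := dif_neg hc

lemma tws_tw : Tws Dq Pq.tw where
  len c p hc := by rw [Pq.tw_eq hc]; rfl
  kind c p hc := by rw [Pq.tw_eq hc]; rfl
  lump c p hc h := by rw [Pq.tw_eq hc]; exact h
  s1 c p hc := by rw [Pq.tw_eq hc]; rfl
  s2 c p hc := by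
    rw [Pq.tw_eq hc]
    simp only [Dq_s2]
    rw [nm_mul]
    push_cast
    exact le_rfl

lemma prin0_mul_mod (d c b : Eis) : prin0 (d * c) b = prin0 d b * prin0 c b := by
  classical
  unfold prin0
  by_cases h1 : IsCoprime b d
  · by_cases h2 : IsCoprime b c
    · rw [if_pos (h1.mul_right h2), if_pos h1, if_pos h2, one_mul]
    · rw [if_neg (fun h => h2 (IsCoprime.of_mul_right_right h)), if_neg h2, mul_zero]
  · rw [if_neg (fun h => h1 (IsCoprime.of_mul_right_left h)), if_neg h1, zero_mul]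

lemma pc_tw (P : DPar) (h : ℝ → ℝ) {c : Eis} (hc : c ≠ 0) (p : Pq) (b : Eis) :
    pc h ((p.tw c).pc P) b = pc h (p.pc P) b * prin0 c b := by
  classical
  rw [Pq.tw_eq hc]
  unfold HP842.pc
  by_cases hb : IsPrim b
  · rw [if_pos hb, if_pos hb]
    simp only [Pq.pc_u, Pq.pc_Y, Pq.pc_t, Pq.pc_ψ]
    rw [prin0_mul_mod]
    ring
  · rw [if_neg hb, if_neg hb, zero_mul]

lemma prin0_of_dvd {m n d : Eis} (hd : d ∈ dvs n) :
    prin0 m n = prin0 m d * prin0 m (n / d) := by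
  classical
  have h1 := TP320.mul_div_of_mem hd
  conv_lhs => rw [← h1]
  unfold prin0
  by_cases h2 : IsCoprime d m
  · by_cases h3 : IsCoprime (n / d) m
    · rw [if_pos (h2.mul_left h3), if_pos h2, if_pos h3, one_mul]
    · rw [if_neg (fun h => h3 (IsCoprime.of_mul_left_right h)), if_neg h3, mul_zero]
  · rw [if_neg (fun h => h2 (IsCoprime.of_mul_left_left h)), if_neg h2, zero_mul]

lemma conv_prin0 (a b : Eis → ℂ) (m n : Eis) :
    conv (fun x => a x * prin0 m x) (fun x => b x * prin0 m x) n = conv a b n * prin0 m n := by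
  unfold TP320.conv
  rw [Finset.sum_mul]
  refine Finset.sum_congr rfl fun d hd => ?_
  rw [prin0_of_dvd hd]
  ring

lemma alL_tw (P : DPar) (h : ℝ → ℝ) {c : Eis} (hc : c ≠ 0) (ps : List Pq) :
    alL h ((ps.map (Pq.tw c)).map (Pq.pc P)) = fun n => alL h (ps.map (Pq.pc P)) n * prin0 c n := by
  classical
  induction ps with
  | nil =>
    funext n
    simp only [List.map_nil, alL_nil]
    unfold HP842.dl
    split_ifs with h1
    · subst h1
      unfold prin0
      rw [if_pos isCoprime_one_left, mul_one]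
    · rw [zero_mul]
  | cons p ps ih =>
    simp only [List.map_cons, alL_cons]
    rw [ih]
    have e : pc h ((p.tw c).pc P) = fun b => pc h (p.pc P) b * prin0 c b := by
      funext b; exact pc_tw P h hc p b
    rw [e]
    funext n
    exact conv_prin0 _ _ _ _

/-! ### the set of `k` -/

lemma sy_red {k a : Eis} (hk : k ≠ 0) (ha : IsPrim a) (hc : IsCoprime a k) :
    sy k a = sy (Lbc298.red k) a := by
  classical
  conv_lhs => rw [Lbc298.red_mul hk]
  rw [Lbc298.sy_mul_cube' ha]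
  have h1 : IsCoprime a (Lbc298.dc k).m := by
    refine hc.of_isCoprime_of_dvd_right ?_
    conv_rhs => rw [Lbc298.red_mul hk]
    exact Dvd.dvd.mul_left (dvd_pow_self _ (by norm_num)) _
  unfold prin0
  rw [if_pos h1, one_mul]

lemma NP_red {n k : Eis} (hk : k ≠ 0) {χ χ' : Eis → ℂ} {l : ℤ}
    (hχ : ∀ a, IsPrim a → IsCoprime a k → χ a = χ' a)
    (h : NP (n * (9 * k)) χ l) : NP (n * (9 * Lbc298.red k)) χ' l := by
  rcases h with h | ⟨a, ha, hc, hne⟩
  · exact Or.inl h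
  · refine Or.inr ⟨a, ha, ?_, ?_⟩
    · refine hc.of_isCoprime_of_dvd_right ?_
      refine mul_dvd_mul_left n (mul_dvd_mul_left 9 ?_)
      conv_rhs => rw [Lbc298.red_mul hk]
      exact dvd_mul_right _ _
    · have h1 : IsCoprime a k :=
        (IsCoprime.of_mul_right_right (IsCoprime.of_mul_right_right hc))
      rw [← hχ a ha h1]
      exact hne

lemma NP2_red (P : DPar) {k : Eis} (hk : k ≠ 0) (h : P.NP2 k) : P.NP2 (Lbc298.red k) := by
  refine ⟨NP_red hk (fun a ha hc => ?_) h.1, NP_red hk (fun a ha hc => ?_) h.2⟩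
  · beta_reduce; rw [sy_red hk ha hc]
  · beta_reduce; rw [sy_red hk ha hc]

/-! ### instances -/

lemma bl_exp_neg {l : ℝ} (hl : l < 0) : bl (Real.exp l) = ∅ := by
  rw [Finset.eq_empty_iff_forall_notMem]
  intro k hk
  rw [mem_bl (Real.exp_pos _).le] at hk
  have h1 : (1 : ℝ) ≤ nm k := by exact_mod_cast nm_pos.2 hk.1
  have h2 : Real.exp l < 1 := by simpa using hl
  linarith [hk.2]

lemma exp_third (l : ℝ) : (Real.exp l) ^ ((1 : ℝ) / 3) = Real.exp (l / 3) := by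
  rw [← Real.exp_mul]; congr 1; ring

lemma exp_div_cube (l : ℝ) {m : Eis} (hm : m ≠ 0) :
    Real.exp l / (nm m : ℝ) ^ 3 = Real.exp (l - 3 * Real.log (nm m)) := by
  have h1 : (0 : ℝ) < nm m := by exact_mod_cast nm_pos.2 hm
  rw [Real.exp_sub]
  congr 1
  rw [show (3 : ℝ) * Real.log (nm m) = Real.log (nm m) * 3 by ring, Real.exp_mul,
    Real.exp_log h1]
  norm_cast

open Classical in
/-- the `j`-th moment -/
def PQ (j : ℕ) (Q : Eis → Prop) (h : ℝ → ℝ) (l : ℝ) (ps : List Pc) : ℝ :=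
  ∑ k ∈ (bl (Real.exp l)).filter Q, (ps.map fun p => ‖CS (pc h p) k‖ ^ j).prod

lemma RQ_eq_PQ (Q : Eis → Prop) (h : ℝ → ℝ) (l : ℝ) (ps : List Pc) :
    RQ Q h l ps = PQ 2 Q h l ps := rfl

lemma BQ_eq_PQ (Q : Eis → Prop) (h : ℝ → ℝ) (l : ℝ) (ps : List Pc) :
    BQ Q h l ps = PQ 1 Q h l ps := by
  unfold BQ PQ; simp only [pow_one]

lemma PQ_cubes' (j : ℕ) {P : DPar} (hP : P.OK) {h : ℝ → ℝ} (hh : Bump h) (Q : Eis → Prop)
    (hQ : ∀ k, k ≠ 0 → Q k → Q (Lbc298.red k)) (l : ℝ) (ps : List Pq) :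
    PQ j Q h l (ps.map (Pq.pc P)) ≤ ∑ c ∈ bl (Real.exp (l / 3)),
      PQ j (fun k => Q k ∧ CubeFree k) h (l - 3 * Real.log (nm c))
        ((ps.map (Pq.tw c)).map (Pq.pc P)) := by
  classical
  have h1 := Lbc298.cube_le_f (K := Real.exp l) (Real.exp_pos _).le Q hQ
    (F := fun k => ((ps.map (Pq.pc P)).map fun p => ‖CS (pc h p) k‖ ^ j).prod)
    (G := fun m k => (((ps.map (Pq.tw m)).map (Pq.pc P)).map fun p => ‖CS (pc h p) k‖ ^ j).prod)
    (fun m k => List.prod_nonneg fun a ha => by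
      obtain ⟨p, _, rfl⟩ := List.mem_map.1 ha
      positivity)
    (fun k hk _ => by
      refine le_of_eq ?_
      simp only [List.map_map]
      congr 1
      refine List.map_congr_left fun p _ => ?_
      simp only [Function.comp]
      have hm := Lbc298.m_ne_zero hk
      have e : pc h ((p.tw (Lbc298.dc k).m).pc P) =
          fun n => pc h (p.pc P) n * prin0 (Lbc298.dc k).m n := by
        funext b; exact pc_tw P h hm p b
      rw [e, ← Lbc298.CS_red (fs_pc hh (p.ok hP)) hk])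
  unfold PQ
  rw [exp_third] at h1
  refine h1.trans (le_of_eq ?_)
  refine Finset.sum_congr rfl fun m hm => ?_
  rw [mem_bl (Real.exp_pos _).le] at hm
  rw [exp_div_cube l hm.1]
  refine Finset.sum_congr ?_ fun _ _ => rfl
  ext k
  simp only [Finset.mem_filter]
  exact ⟨fun h => ⟨h.1, h.2.2, h.2.1⟩, fun h => ⟨h.1, h.2.2, h.2.1⟩⟩

lemma PQ_cubes (j : ℕ) {P : DPar} (hP : P.OK) {h : ℝ → ℝ} (hh : Bump h) (l : ℝ) (ps : List Pq) :
    PQ j P.NP2 h l (ps.map (Pq.pc P)) ≤ ∑ c ∈ bl (Real.exp (l / 3)),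
      PQ j (Qp P) h (l - 3 * Real.log (nm c)) ((ps.map (Pq.tw c)).map (Pq.pc P)) :=
  PQ_cubes' j hP hh P.NP2 (fun _ hk hQ => NP2_red P hk hQ) l ps

lemma PQ_neg (j : ℕ) (Q : Eis → Prop) (h : ℝ → ℝ) {l : ℝ} (hl : l < 0) (ps : List Pc) :
    PQ j Q h l ps ≤ 0 := by
  classical
  unfold PQ
  rw [bl_exp_neg hl, Finset.filter_empty, Finset.sum_empty]

/-- **complete character side from the cube-free one** -/
theorem BG_Rc {Lam : Type*} {π : Lam → DPar} (hP : ∀ lam, (π lam).OK) {h : ℝ → ℝ} (hh : Bump h)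
    {κ E : ℝ} {u : List ℝ} {w : Kd → ℝ} (hκ : 0 ≤ κ)
    (H : ∀ i, 0 ≤ i → i ≤ κ → BG Dq (fun lam => Rp (π lam) h) i u w (E - (κ - i) / 3)) :
    BG Dq (fun lam => Rc (π lam) h) κ u w E :=
  BG_cubes tws_tw (fun lam l ps _ => PQ_cubes 2 (hP lam) hh l ps)
    (fun _ _ _ hl => PQ_neg 2 _ h hl _) hκ H

/-- **all `k` from the cube-free ones** (699's field `cubes`) -/
theorem BG_RF {Lam : Type*} {π : Lam → DPar} (hP : ∀ lam, (π lam).OK) {h : ℝ → ℝ} (hh : Bump h)
    {κ E : ℝ} {u : List ℝ} {w : Kd → ℝ} (hκ : 0 ≤ κ)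
    (H : ∀ i, 0 ≤ i → i ≤ κ → BG Dq (fun (lam : Lam) l ps =>
      RQ CubeFree h l (ps.map (Pq.pc (π lam)))) i u w (E - (κ - i) / 3)) :
    BG Dq (fun (lam : Lam) l ps => RQ (fun k => k ≠ 0) h l (ps.map (Pq.pc (π lam)))) κ u w E := by
  refine BG_cubes tws_tw (fun lam l ps _ => ?_) (fun _ _ _ hl => PQ_neg 2 _ h hl _) hκ H
  refine (PQ_cubes' 2 (hP lam) hh (fun k => k ≠ 0)
    (fun k hk _ => Lbc298.red_ne_zero hk) l ps).trans ?_
  refine Finset.sum_le_sum fun c _ => ?_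
  exact RQ_mono_set (fun k hk => hk.2) h _ _

/-- the complete box functional -/
def Bc (P : DPar) (h : ℝ → ℝ) (l : ℝ) (ps : List Pq) : ℝ := BQ P.NP2 h l (ps.map (Pq.pc P))

/-- **complete box functional from the cube-free one** -/
theorem BG_Bc {Lam : Type*} {π : Lam → DPar} (hP : ∀ lam, (π lam).OK) {h : ℝ → ℝ} (hh : Bump h)
    {κ E : ℝ} {u : List ℝ} {w : Kd → ℝ} (hκ : 0 ≤ κ)
    (H : ∀ i, 0 ≤ i → i ≤ κ → BG Dq (fun lam => Bp (π lam) h) i u w (E - (κ - i) / 3)) :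
    BG Dq (fun lam => Bc (π lam) h) κ u w E := by
  refine BG_cubes tws_tw (fun lam l ps _ => ?_) (fun lam l ps hl => ?_) hκ H
  · unfold Bc Bp
    simp only [BQ_eq_PQ]
    exact PQ_cubes 1 (hP lam) hh l ps
  · unfold Bc
    rw [BQ_eq_PQ]
    exact PQ_neg 1 _ h hl _

/-! ### the Gauss side -/

open Classical in
/-- **the cube-free Gauss side** -/
def S0p (P : DPar) (h : ℝ → ℝ) (l : ℝ) (ps : List Pq) : ℝ :=
  ∑ x ∈ (bl (Real.exp l)).filter CubeFree, ‖KS Kg (sqc 1 (alL h (ps.map (Pq.pc P)))) x‖ ^ 2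

lemma pinv_S0p {Lam : Type*} (π : Lam → DPar) (h : ℝ → ℝ) : Pinv (fun lam => S0p (π lam) h) := by
  intro lam l ps qs hp
  beta_reduce
  unfold S0p
  rw [alL_perm h (hp.map (Pq.pc (π lam)))]

lemma S0p_le (P : DPar) (h : ℝ → ℝ) (l : ℝ) (ps : List Pq) : S0p P h l ps ≤ Sp P h l ps := by
  classical
  unfold S0p Sp SK
  exact Finset.sum_le_sum_of_subset_of_nonneg (Finset.filter_subset _ _) fun _ _ _ => by positivity

lemma KS_red {α : Eis → ℂ} (hα : FS α) {x : Eis} (hx : x ≠ 0) :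
    KS Kg α x = KS Kg (fun n => α n * prin0 (Lbc298.dc x).m n) (Lbc298.red x) := by
  classical
  unfold HP842.KS
  refine tsum_congr fun n => ?_
  by_cases h0 : α n = 0
  · simp only [h0, zero_mul]
  · have hn := hα.prim n h0
    unfold HP842.Kg
    conv_lhs => rw [Lbc298.red_mul hx]
    rw [Lbc298.sy_mul_cube' hn, map_mul]
    have : conj (prin0 (Lbc298.dc x).m n) = prin0 (Lbc298.dc x).m n := by
      unfold prin0; split_ifs <;> simp
    rw [this]
    ring

/-- **(ExpRem.cube)** -/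
theorem BG_Sp {Lam : Type*} {π : Lam → DPar} (hP : ∀ lam, (π lam).OK) {h : ℝ → ℝ} (hh : Bump h)
    {κ E : ℝ} {u : List ℝ} {w : Kd → ℝ} (hκ : 0 ≤ κ)
    (H : ∀ i, 0 ≤ i → i ≤ κ → BG Dq (fun lam => S0p (π lam) h) i u w (E - (κ - i) / 3)) :
    BG Dq (fun lam => Sp (π lam) h) κ u w E := by
  classical
  refine BG_cubes tws_tw (fun lam l ps _ => ?_) (fun lam l ps hl => ?_) hκ H
  · have h1 := Lbc298.cube_le_f (K := Real.exp l) (Real.exp_pos _).le (fun _ => True)
      (fun _ _ _ => trivial)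
      (F := fun x => ‖KS Kg (sqc 1 (alL h (ps.map (Pq.pc (π lam))))) x‖ ^ 2)
      (G := fun m x => ‖KS Kg (sqc 1 (alL h ((ps.map (Pq.tw m)).map (Pq.pc (π lam))))) x‖ ^ 2)
      (fun m k => by positivity)
      (fun x hx _ => by
        refine le_of_eq ?_
        have hm := Lbc298.m_ne_zero hx
        have hfs : FS (sqc 1 (alL h (ps.map (Pq.pc (π lam))))) :=
          HP842.FS.sqc (fs_alL hh fun p hp => by
            obtain ⟨q, _, rfl⟩ := List.mem_map.1 hp
            exact q.ok (hP lam)) 1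
        have e : sqc 1 (alL h ((ps.map (Pq.tw (Lbc298.dc x).m)).map (Pq.pc (π lam)))) =
            fun n => sqc 1 (alL h (ps.map (Pq.pc (π lam)))) n * prin0 (Lbc298.dc x).m n := by
          funext n
          rw [alL_tw (π lam) h hm]
          unfold HP842.sqc
          ring
        rw [e, ← KS_red hfs hx])
    rw [exp_third] at h1
    unfold Sp SK
    have e0 : (bl (Real.exp l)).filter (fun _ => True) = bl (Real.exp l) := by simp
    rw [e0] at h1
    refine h1.trans (le_of_eq ?_)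
    refine Finset.sum_congr rfl fun m hm => ?_
    rw [mem_bl (Real.exp_pos _).le] at hm
    unfold S0p
    rw [exp_div_cube l hm.1]
    refine Finset.sum_congr ?_ fun _ _ => rfl
    ext k
    rw [Finset.mem_filter, Finset.mem_filter]
    constructor
    · rintro ⟨a, b, c⟩; exact ⟨a, b⟩
    · rintro ⟨a, b⟩; exact ⟨a, b, trivial⟩
  · unfold Sp SK
    rw [bl_exp_neg hl, Finset.sum_empty]

/-! ### `ExpRem` -/

/-- the cube-free families on the Gauss side and (REM) at the level of `BG` -/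
structure BRem {Pc Lam : Type*} (θ : ℝ) (D : Pcs Pc Kd) (R S S₀ : Lam → ℝ → List Pc → ℝ) :
    Prop where
  permR : Pinv R
  permS : Pinv S
  permS₀ : Pinv S₀
  trivR : Triv D R
  trivS : Triv D S
  le : ∀ lam l ps, S₀ lam l ps ≤ S lam l ps
  cube : ∀ (κ : ℝ) (u : List ℝ) (m a E : ℝ), 0 ≤ κ → Okl u m a →
    (∀ i, 0 ≤ i → i ≤ κ → BG D S₀ i u (wt m a) (E - (κ - i) / 3)) → BG D S κ u (wt m a) E
  cau : ∀ (κ : ℝ) (u : List ℝ) (m a b c e : ℝ), 0 ≤ κ → Okl u m a → 0 ≤ b → b ≤ m → 0 ≤ c →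
    c ≤ a → BG D S₀ (κ + (b + c)) u (wt (m - b) (a - c)) e → BG D S₀ κ u (wt m a) ((b + c) + e)
  cauS : ∀ (κ y : ℝ) (u : List ℝ) (m a e : ℝ), 0 ≤ κ → 0 ≤ y → Okl u m a →
    BG D S₀ (κ + y) u (wt m a) e → BG D S₀ κ (y :: u) (wt m a) (y + e)
  rem : ∀ (K v y₁ y₂ y₃ m a n E T : ℝ), 0 ≤ m → 0 ≤ a → 0 ≤ n →
    n = y₁ + y₂ + y₃ + m + a → n ≤ 5 * y₁ → n ≤ 5 * y₂ → n ≤ 5 * y₃ →
    n ≤ K → K ≤ 2 * n → 2 * n ≤ K + v → K ≤ v + n → 3 * v ≤ 2 * K → 2 * n ≤ E →
    T = E + (v + K - 2 * n) / 3 → v + n + n / 5 ≤ T → 2 * v + 2 * n + n / 5 + (m + a) ≤ 2 * T →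
    (∀ z₁ z₂ z₃ m' a' i : ℝ, 0 ≤ z₁ → 0 ≤ z₂ → 0 ≤ z₃ → z₁ + z₂ ≤ y₁ + y₂ → z₃ ≤ y₃ →
      0 ≤ m' → m' ≤ m → 0 ≤ a' → a' ≤ a → z₁ ≤ i → z₂ ≤ i → z₃ ≤ i → i ≤ v + n - K →
      BG D R i [z₁, z₂, z₃] (wt m' a')
        (E - (v + n - K - i) / 3 - max 0 ((v + 2 * n - 2 * K) / 3))) →
    2 * a + 2 * θ * m + (v + n - K) / 3 + max 0 ((v + 2 * n - 2 * K) / 3) ≤ E →
    ∀ v' : ℝ, 0 ≤ v' → v' ≤ v →
      BG D S₀ v' [y₁, y₂, y₃] (wt m a) (E + max 0 ((v' + K - 2 * n) / 3))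

lemma Shl.refl {u : List ℝ} (h : ∀ y ∈ u, 0 ≤ y) : Shl u u := by
  unfold Shl
  induction u with
  | nil => exact List.Forall₂.nil
  | cons y u ih =>
    exact List.Forall₂.cons ⟨h y List.mem_cons_self, le_rfl⟩
      (ih fun z hz => h z (List.mem_cons_of_mem _ hz))

theorem BRem.trivS₀ {Pc Lam : Type*} {θ : ℝ} {D : Pcs Pc Kd} {R S S₀ : Lam → ℝ → List Pc → ℝ}
    (H : BRem θ D R S S₀) : Triv D S₀ := fun κ u m a hκ hu => by
  obtain ⟨e, he⟩ := H.trivS κ u m a hκ hu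
  exact ⟨e, he.comp H.le⟩

theorem BRem.exp {Pc Lam : Type*} {θ : ℝ} {D : Pcs Pc Kd} {R S S₀ : Lam → ℝ → List Pc → ℝ}
    (H : BRem θ D R S S₀) : ExpRem θ (ex D R) (ex D S) (ex D S₀) where
  le := by
    intro κ Y m a hκ hY
    have h1 := ex_spec H.permS H.trivS (κ := κ) hκ (okl_of hY)
    have h2 := ex_le' (D := D) (Ψ := S₀) (ex_nonneg (D := D) (Ψ := S) κ Y.toList m a)
      (h1.comp H.le)
    rwa [Multiset.coe_toList] at h2
  cube := by
    intro κ Y m a E hκ hY hch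
    have h := H.cube κ Y.toList m a E hκ (okl_of hY) (fun i hi0 hi1 => by
      have h1 := hch ((κ - i) / 3) (by linarith) (by linarith)
      have e : κ - 3 * ((κ - i) / 3) = i := by ring
      rw [e] at h1
      refine BG_of_ex H.permS₀ H.trivS₀ hi0 (okl_of hY) ?_
      rw [Multiset.coe_toList]
      linarith)
    have h0 : 0 ≤ E := by
      have h1 := hch 0 le_rfl (by linarith)
      have := ex_nonneg (D := D) (Ψ := S₀) (κ - 3 * 0) Y m a
      linarith
    exact ex_le' h0 h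
  cau := by
    intro κ Y m a b c hκ hY hb0 hb1 hc0 hc1
    have h0 : Okl Y.toList (m - b) (a - c) :=
      ⟨(okl_of hY).1, by linarith, by linarith⟩
    have h1 := ex_spec H.permS₀ H.trivS₀ (κ := κ + (b + c)) (by linarith) h0
    have h2 := H.cau κ Y.toList m a b c _ hκ (okl_of hY) hb0 hb1 hc0 hc1 h1
    have h3 := ex_le' (D := D) (Ψ := S₀) (by
      have := ex_nonneg (D := D) (Ψ := S₀) (κ + (b + c)) Y.toList (m - b) (a - c)
      linarith) h2
    rwa [Multiset.coe_toList] at h3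
  cauS := by
    intro κ y Y m a hκ hy hY
    have h1 := ex_spec H.permS₀ H.trivS₀ (κ := κ + y) (by linarith) (okl_of hY)
    have h2 := H.cauS κ y Y.toList m a _ hκ hy (okl_of hY) h1
    have h3 := ex_le H.permS₀ (by
      have := ex_nonneg (D := D) (Ψ := S₀) (κ + y) Y.toList m a
      linarith) h2
    rw [← Multiset.cons_coe, Multiset.coe_toList] at h3
    exact h3
  rem := by
    intro K v y₁ y₂ y₃ m a n E T hm ha hn0 hn g1 g2 g3 hK1 hK2 hv1 hv2 hv3 hE hT hT1 hT2 hch hcube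
      v' hv0 hvv
    have h := H.rem K v y₁ y₂ y₃ m a n E T hm ha hn0 hn g1 g2 g3 hK1 hK2 hv1 hv2 hv3 hE hT hT1 hT2
      (fun z₁ z₂ z₃ m' a' i k1 k2 k3 k4 k5 k6 k7 k8 k9 k10 k11 k12 k13 => by
        have h4 := hch z₁ z₂ z₃ m' a' i k1 k2 k3 k4 k5 k6 k7 k8 k9 k10 k11 k12 k13
        refine BG_of_ex H.permR H.trivR (k1.trans k10) ?_ ?_
        · refine ⟨?_, k6, k8⟩
          intro y hy
          simp only [List.mem_cons, List.not_mem_nil, or_false] at hy
          rcases hy with rfl | rfl | rfl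
          · exact k1
          · exact k2
          · exact k3
        · have e : (([z₁, z₂, z₃] : List ℝ) : Multiset ℝ) = {z₁, z₂, z₃} := rfl
          rw [e]
          linarith) hcube v' hv0 hvv
    have h0 : 0 ≤ max 0 ((v' + K - 2 * n) / 3) := le_max_left _ _
    have := ex_le H.permS₀ (by linarith) h
    exact this

/-- the provider's instance of `BRem` from `cau`, `cauS`, `rem` -/
theorem brem_of {Lam : Type*} {π : Lam → DPar} (hP : ∀ lam, (π lam).OK) {h : ℝ → ℝ}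
    (hh : Bump h) {θ : ℝ} (htR : Triv Dq (fun lam => Rp (π lam) h))
    (ht : Triv Dq (fun lam => Sp (π lam) h))
    (hcau : ∀ (κ : ℝ) (u : List ℝ) (m a b c e : ℝ), 0 ≤ κ → Okl u m a → 0 ≤ b → b ≤ m → 0 ≤ c →
      c ≤ a → BG Dq (fun lam => S0p (π lam) h) (κ + (b + c)) u (wt (m - b) (a - c)) e →
      BG Dq (fun lam => S0p (π lam) h) κ u (wt m a) ((b + c) + e))
    (hcauS : ∀ (κ y : ℝ) (u : List ℝ) (m a e : ℝ), 0 ≤ κ → 0 ≤ y → Okl u m a →
      BG Dq (fun lam => S0p (π lam) h) (κ + y) u (wt m a) e →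
      BG Dq (fun lam => S0p (π lam) h) κ (y :: u) (wt m a) (y + e))
    (hrem : ∀ (K v y₁ y₂ y₃ m a n E T : ℝ), 0 ≤ m → 0 ≤ a → 0 ≤ n →
      n = y₁ + y₂ + y₃ + m + a → n ≤ 5 * y₁ → n ≤ 5 * y₂ → n ≤ 5 * y₃ →
      n ≤ K → K ≤ 2 * n → 2 * n ≤ K + v → K ≤ v + n → 3 * v ≤ 2 * K → 2 * n ≤ E →
      T = E + (v + K - 2 * n) / 3 → v + n + n / 5 ≤ T → 2 * v + 2 * n + n / 5 + (m + a) ≤ 2 * T →
      (∀ z₁ z₂ z₃ m' a' i : ℝ, 0 ≤ z₁ → 0 ≤ z₂ → 0 ≤ z₃ → z₁ + z₂ ≤ y₁ + y₂ → z₃ ≤ y₃ →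
        0 ≤ m' → m' ≤ m → 0 ≤ a' → a' ≤ a → z₁ ≤ i → z₂ ≤ i → z₃ ≤ i → i ≤ v + n - K →
        BG Dq (fun lam => Rp (π lam) h) i [z₁, z₂, z₃] (wt m' a')
          (E - (v + n - K - i) / 3 - max 0 ((v + 2 * n - 2 * K) / 3))) →
      2 * a + 2 * θ * m + (v + n - K) / 3 + max 0 ((v + 2 * n - 2 * K) / 3) ≤ E →
      ∀ v' : ℝ, 0 ≤ v' → v' ≤ v →
        BG Dq (fun lam => S0p (π lam) h) v' [y₁, y₂, y₃] (wt m a)
          (E + max 0 ((v' + K - 2 * n) / 3))) :
    BRem θ Dq (fun lam => Rp (π lam) h) (fun lam => Sp (π lam) h)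
      (fun lam => S0p (π lam) h) where
  permR := pinv_Rp π h
  permS := pinv_Sp π h
  permS₀ := pinv_S0p π h
  trivR := htR
  trivS := ht
  le lam := S0p_le (π lam) h
  cube _ _ _ _ _ hκ _ H := BG_Sp hP hh hκ H
  cau := hcau
  cauS := hcauS
  rem := hrem

end Crest.Agent.R017.Prov71
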