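import Crest.Agent.R017.XHB4_411

/-!
# Row 17: the box functional has an exponent (helper411)

`bg_BQ`, `bg_Bp`, `triv_Bp` : Heath-Brown's exponent (crude) for `Bp`
-/

set_option autoImplicit false

noncomputable section

open Complex Finset
open scoped BigOperators ComplexConjugate

namespace Crest.Agent.R017.XHB411

open Crest.Agent.R012 Crest.Agent.R012.Eis
open Crest.Agent.R012.LS2 (bl mem_bl)
open Crest.Agent.R017.CM106 (CS)
open Crest.Agent.R017.HP842 (Pc pc)
open Crest.Agent.R017.Prov71 Crest.Agent.R017.XG702 Crest.Agent.R017.B770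

lemma BQ_le {Q : Eis → Prop} {h : ℝ → ℝ} (l : ℝ) (ps : List Pc) :
    BQ Q h l ps ≤ ((bl (Real.exp l)).card : ℝ) + RQ Q h l ps := by
  classical
  unfold BQ RQ
  have h1 : ∀ k : Eis, (ps.map fun p => ‖CS (pc h p) k‖).prod ≤
      1 + (ps.map fun p => ‖CS (pc h p) k‖ ^ 2).prod := by
    intro k
    have e1 : (ps.map fun p => ‖CS (pc h p) k‖ ^ 2).prod =
        (ps.map fun p => ‖CS (pc h p) k‖).prod ^ 2 := by
      induction ps with
      | nil => simp
      | cons p ps ih => simp only [List.map_cons, List.prod_cons]; rw [ih]; ring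
    rw [e1]
    nlinarith [sq_nonneg ((ps.map fun p => ‖CS (pc h p) k‖).prod - 1)]
  calc ∑ k ∈ (bl (Real.exp l)).filter Q, (ps.map fun p => ‖CS (pc h p) k‖).prod
      ≤ ∑ k ∈ (bl (Real.exp l)).filter Q, (1 + (ps.map fun p => ‖CS (pc h p) k‖ ^ 2).prod) :=
        Finset.sum_le_sum fun k _ => h1 k
    _ = (((bl (Real.exp l)).filter Q).card : ℝ) +
        ∑ k ∈ (bl (Real.exp l)).filter Q, (ps.map fun p => ‖CS (pc h p) k‖ ^ 2).prod := by
        rw [Finset.sum_add_distrib, Finset.sum_const, nsmul_eq_mul, mul_one]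
    _ ≤ _ := by
        have : (((bl (Real.exp l)).filter Q).card : ℝ) ≤ (bl (Real.exp l)).card := by
          exact_mod_cast Finset.card_filter_le _ _
        linarith

variable {Lam : Type*}

theorem bg_BQ {π : Lam → DPar} (hP : ∀ lam, (π lam).OK) {h : ℝ → ℝ} {c : ℝ} (hpu : FE47.PU h c)
    (Q : Lam → Eis → Prop) (κ : ℝ) (u : List ℝ) (m a : ℝ) :
    BG Dq (fun lam l ps => BQ (Q lam) h l (ps.map (Pq.pc (π lam)))) κ u (wt m a)
      (max (κ + (u.sum + m + a))
      (max (2 * (u.sum + m + a) + κ / 3) ((u.sum + m + a) + 2 / 3 * (κ + (u.sum + m + a))))) := by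
  classical
  have hh : Bump h := bump_of_cs hpu.cs
  have h1 := BG_of_bound (D := Dq)
    (Ψ := fun lam l ps => BQ (Q lam) h l (ps.map (Pq.pc (π lam)))) EHB EHB_lip
    EHB_hom ?_ ?_ κ u (wt m a)
  · rw [sum_wt, EHB_field] at h1
    exact h1
  · intro lam n ε hε
    obtain ⟨C, hC, hb⟩ := hbL_C hpu n hε
    refine ⟨C + 100, by linarith, fun l ps hl hlen hz => ?_⟩
    have h2 := hb l (ps.map (Pq.pc (π lam))) hl (by rw [List.length_map]; exact hlen)
      (ok_map (hP lam) ps) (one_le_map hz)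
    rw [LL_pc] at h2
    have htl : 0 ≤ tl Dq ps := by
      unfold tl
      apply List.sum_nonneg
      intro x hx
      obtain ⟨p, hp, rfl⟩ := List.mem_map.1 hx
      exact hz p hp
    have h3 : RQ (Q lam) h l (ps.map (Pq.pc (π lam))) ≤
        C * Real.exp (ε * (l + tl Dq ps)) * Real.exp (EHB l (tl Dq ps)) := by
      refine le_trans ?_ h2
      rw [RQ_eq hh l (ok_map (hP lam) ps), alL0_eq]
      exact Finset.sum_le_sum_of_subset_of_nonneg (Finset.filter_subset _ _)
        fun _ _ _ => by positivity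
    have h4 : ((bl (Real.exp l)).card : ℝ) ≤
        100 * (Real.exp (ε * (l + tl Dq ps)) * Real.exp (EHB l (tl Dq ps))) := by
      have h5 : ((bl (Real.exp l)).card : ℝ) ≤ 100 * Real.exp l := by
        have h6 : bl (Real.exp l) = Div277.nz ⌊Real.exp l⌋₊ := rfl
        rw [h6]
        refine (Div277.card_nz_le _).trans ?_
        have := Nat.floor_le (Real.exp_pos l).le
        gcongr
      refine h5.trans ?_
      rw [← Real.exp_add]
      have m1 : l + tl Dq ps ≤ EHB l (tl Dq ps) := le_max_left _ _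
      have m2 : 0 ≤ ε * (l + tl Dq ps) := by positivity
      have : Real.exp l ≤ Real.exp (ε * (l + tl Dq ps) + EHB l (tl Dq ps)) :=
        Real.exp_le_exp.2 (by linarith)
      gcongr
    refine (BQ_le l _).trans ?_
    calc ((bl (Real.exp l)).card : ℝ) + RQ (Q lam) h l (ps.map (Pq.pc (π lam)))
        ≤ 100 * (Real.exp (ε * (l + tl Dq ps)) * Real.exp (EHB l (tl Dq ps))) +
          C * Real.exp (ε * (l + tl Dq ps)) * Real.exp (EHB l (tl Dq ps)) := add_le_add h4 h3
      _ = _ := by ring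
  · intro lam l ps hl
    unfold BQ
    rw [bl_neg hl, Finset.filter_empty, Finset.sum_empty]

theorem bg_Bp {π : Lam → DPar} (hP : ∀ lam, (π lam).OK) {h : ℝ → ℝ} {c : ℝ} (hpu : FE47.PU h c)
    (κ : ℝ) (u : List ℝ) (m a : ℝ) :
    BG Dq (fun lam => Bp (π lam) h) κ u (wt m a) (max (κ + (u.sum + m + a))
      (max (2 * (u.sum + m + a) + κ / 3) ((u.sum + m + a) + 2 / 3 * (κ + (u.sum + m + a))))) :=
  bg_BQ hP hpu (fun lam => Qp (π lam)) κ u m a

theorem triv_Bp {π : Lam → DPar} (hP : ∀ lam, (π lam).OK) {h : ℝ → ℝ} {c : ℝ}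
    (hpu : FE47.PU h c) : Triv Dq (fun lam => Bp (π lam) h) :=
  fun κ u m a _ _ => ⟨_, bg_Bp hP hpu κ u m a⟩

theorem triv_BQ {π : Lam → DPar} (hP : ∀ lam, (π lam).OK) {h : ℝ → ℝ} {c : ℝ}
    (hpu : FE47.PU h c) (Q : Lam → Eis → Prop) :
    Triv Dq (fun lam l ps => BQ (Q lam) h l (ps.map (Pq.pc (π lam)))) :=
  fun κ u m a _ _ => ⟨_, bg_BQ hP hpu Q κ u m a⟩

end Crest.Agent.R017.XHB411
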