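import Crest.Agent.R017.ExpCdef_702
import Crest.Agent.R017.XBoxP_146
import Crest.Agent.R017.XHT_411
import Crest.Agent.R017.XCub_71

/-!
# Row 17, section D: complete families (helper702)

* `ExpC r rc` : exponents `rc` of the second moments over **all** admissible `k` (cubes included)
* `expC_702`, `expBoxC_702` : the provider
-/

set_option autoImplicit false

noncomputable section

namespace Crest.Agent.R017.ExpC702

open Crest.Agent.R012 Crest.Agent.R012.Eis Crest.Agent.R012.LS2
open Crest.Agent.R017.FE47 Crest.Agent.R017.End699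
open Crest.Agent.R017.XG702 Crest.Agent.R017.ER911 Crest.Agent.R017.B770
open Crest.Agent.R017.Prov71
open Crest.Agent.R017.XHB411

variable {Lam : Type*} {π : Lam → DPar} {h : ℝ → ℝ}

lemma pinv_Bc (π : Lam → DPar) (h : ℝ → ℝ) : Pinv (fun lam => Bc (π lam) h) :=
  fun _ l _ _ hp => BQ_perm _ h l (hp.map _)

/-- **`ExpC` of the provider** -/
theorem expC_702 (hP : ∀ lam, (π lam).OK) {c : ℝ} (hpu : PU h c) :
    ExpC (ex Dq (fun lam => Rp (π lam) h)) (ex Dq (fun lam => Rc (π lam) h)) where
  le := by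
    intro κ Y m a E hκ hY H
    have hok : Okl Y.toList m a := okl_of hY
    have hE : 0 ≤ E := by
      have h1 := H κ hκ le_rfl
      have h2 := ex_nonneg (D := Dq) (Ψ := fun lam => Rp (π lam) h) κ Y m a
      simp only [sub_self, zero_div, add_zero] at h1
      linarith
    refine ex_le' hE (BG_Rc hP (bump_of_cs hpu.cs) hκ fun i hi0 hi => ?_)
    refine BG_of_ex (pinv_Rp π h) (triv_Rp hP hpu) hi0 hok ?_
    rw [Multiset.coe_toList]
    have := H i hi0 hi
    linarith

/-- **`ExpBox` of the provider**, complete families -/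
theorem expBoxC_702 {θ : ℝ} (hθ : 1 / 2 < θ) (hθ1 : θ ≤ 1) (hPF : PF Set.univ θ)
    {c : ℝ} (hpu : PU h c) (hP : ∀ lam, (π lam).OK) :
    ExpBox θ (ex Dq (fun lam => Rc (π lam) h)) (ex Dq (fun lam => Bc (π lam) h)) :=
  (XBx146.bbox_Q hθ hθ1 hPF hpu π hP (fun lam => (π lam).NP2) (fun _ _ hk => hk)
    (triv_Rc hP hpu)).exp (by linarith)

end Crest.Agent.R017.ExpC702
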