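import Crest.Agent.R017.XC6_858
import Crest.Agent.R017.XCub_71

/-!
# Row 17: rule (C) for the cube-free families (helper71)

`K0 h m = Kg h m` for cube-free `h`, `0` otherwise; `S0p P h = SKq K0 P h`
* `cau0_71`, `cauS0_71` : the fields `cau`, `cauS` of `ExpS0`
* `brem_of'` : `BRem` from the field `rem`
-/

set_option autoImplicit false

noncomputable section

namespace Crest.Agent.R017.Prov71

open Crest.Agent.R012 Crest.Agent.R012.Eis Crest.Agent.R012.LS2 Crest.Agent.R012.Gauss880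
open Crest.Agent.R017.CM106 Crest.Agent.R017.FE47
open Crest.Agent.R017.HP842 (Ker ker_Kg KS sqc Kg pc dl alL alL_cons)
open Crest.Agent.R017.XG702 (Pcs BG)
open Crest.Agent.R017.B770
open Crest.Agent.R017.XC858 (SKq cauK_858 cauSK_858)
open scoped ComplexConjugate

lemma cubeFree_of_mul {h w : Eis} (H : CubeFree (h * w)) : CubeFree h :=
  ⟨left_ne_zero_of_mul H.1, fun p hp hd => H.2 p hp (hd.mul_right w)⟩

lemma CubeFree.mul {h w : Eis} (H : CubeFree h) (hw : Squarefree w) (hc : IsCoprime h w) :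
    CubeFree (h * w) := by
  refine ⟨mul_ne_zero H.1 hw.ne_zero, fun p hp hd => ?_⟩
  by_cases hpw : p ∣ w
  · have hph : ¬ p ∣ h := fun hph => hp.not_isUnit (hc.isUnit_of_dvd' hph hpw)
    have hcop : IsCoprime (p ^ 3) h :=
      (((Prime.coprime_iff_not_dvd hp).2 hph)).pow_left
    have h1 : p ^ 3 ∣ w := hcop.dvd_of_dvd_mul_left hd
    have h2 : p * p ∣ w := ((show p ^ 3 = p * p * p by ring) ▸ (Dvd.intro _ rfl :
      p * p ∣ p * p * p)).trans h1
    exact hp.not_isUnit (hw p h2)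
  · have hcop : IsCoprime (p ^ 3) w :=
      (((Prime.coprime_iff_not_dvd hp).2 hpw)).pow_left
    exact H.2 p hp (hcop.dvd_of_dvd_mul_right hd)

open Classical in
/-- the generic kernel on the cube-free frequencies -/
def K0 (h m : Eis) : ℂ := if CubeFree h then Kg h m else 0

lemma ker_K0 : Ker K0 where
  mul h w m hw hsw hm := by
    classical
    unfold K0
    by_cases hh : CubeFree h
    · rw [if_pos hh]
      by_cases hc : IsCoprime h w
      · rw [if_pos (hh.mul hsw hc)]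
        exact ker_Kg.mul h w m hw hsw hm
      · have h0 : sy h w = 0 := (syG.eq_zero h w hw).2 hc
        rw [ker_Kg.mul h w m hw hsw hm, h0, map_zero, mul_zero, zero_mul, zero_mul]
    · have h1 : ¬ CubeFree (h * w) := fun H => hh (cubeFree_of_mul H)
      rw [if_neg hh, if_neg h1, mul_zero]
  cop h m hm hc := by
    classical
    unfold K0
    split_ifs
    · exact ker_Kg.cop h m hm hc
    · rfl

lemma KS_K0 (α : Eis → ℂ) (x : Eis) :
    KS K0 α x = (open Classical in if CubeFree x then KS Kg α x else 0) := by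
  classical
  unfold HP842.KS K0
  split_ifs with h
  · simp
  · simp

lemma S0p_eq (P : DPar) (h : ℝ → ℝ) : S0p P h = SKq K0 P h := by
  classical
  funext l ps
  unfold S0p XC858.SKq SK
  rw [Finset.sum_filter]
  refine Finset.sum_congr (by congr) fun x _ => ?_
  rw [KS_K0]
  split_ifs <;> simp

/-- **the field `cau`** of `ExpS0` -/
theorem cau0_71 {Lam : Type*} {π : Lam → DPar} (hP : ∀ lam, (π lam).OK) {h : ℝ → ℝ} {c₀ : ℝ}
    (hh : PU h c₀) (κ : ℝ) (u : List ℝ) (m a b c e : ℝ) (hκ : 0 ≤ κ) (hu : Okl u m a)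
    (hb : 0 ≤ b) (hbm : b ≤ m) (hc : 0 ≤ c) (hca : c ≤ a)
    (H : BG Dq (fun lam => S0p (π lam) h) (κ + (b + c)) u (wt (m - b) (a - c)) e) :
    BG Dq (fun lam => S0p (π lam) h) κ u (wt m a) ((b + c) + e) := by
  simp only [S0p_eq] at H ⊢
  exact cauK_858 ker_K0 hP hh κ u m a b c e hκ hu hb hbm hc hca H

/-- **the field `cauS`** of `ExpS0` -/
theorem cauS0_71 {Lam : Type*} {π : Lam → DPar} (hP : ∀ lam, (π lam).OK) {h : ℝ → ℝ} {c₀ : ℝ}
    (hh : PU h c₀) (κ y : ℝ) (u : List ℝ) (m a e : ℝ) (hκ : 0 ≤ κ) (hy : 0 ≤ y)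
    (hu : Okl u m a) (H : BG Dq (fun lam => S0p (π lam) h) (κ + y) u (wt m a) e) :
    BG Dq (fun lam => S0p (π lam) h) κ (y :: u) (wt m a) (y + e) := by
  simp only [S0p_eq] at H ⊢
  exact cauSK_858 ker_K0 hP hh κ y u m a e hκ hy hu H

end Crest.Agent.R017.Prov71
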