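import Crest.Agent.R017.LVdefs_404
import Crest.Agent.R012.CharSum_852

/-!
# Row 17, (LV): two counting lemmas (asked for by helper164)

* `pairs_card`  : number of factorisations `a * b = m` is `≪ nm m ^ ε`
* `two_pow_le`  : `2 ^ #P ≪ nm (pr P) ^ ε`
-/

set_option autoImplicit false

noncomputable section

namespace Crest.Agent.R017.LV404

open Crest.Agent.R012
open Eis LS2 Div277

open Classical in
/-- number of factorisations of `m ≠ 0` -/
theorem pairs_card {ε : ℝ} (hε : 0 < ε) : ∃ C : ℝ, 0 < C ∧ ∀ (j : ℕ) (m : Eis), m ≠ 0 →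
    ((((nz j) ×ˢ (nz j)).filter (fun p : Eis × Eis => p.1 * p.2 = m)).card : ℝ)
      ≤ C * (nm m : ℝ) ^ ε := by
  obtain ⟨C₁, hC₁, h₁⟩ := tau_le_rpow (half_pos hε)
  refine ⟨(1 + 4 / ε) * (100 * C₁), by positivity, fun j m hm => ?_⟩
  set D : Finset Eis := ((Finset.range (Nat.log 3 (nm m) + 1)) ×ˢ (nz 1 ×ˢ dvs m)).image
    (fun t => lam ^ t.1 * (t.2.1 * t.2.2)) with hD
  have hn1 : 1 ≤ nm m := nm_pos.mpr hm
  have hn1' : (1 : ℝ) ≤ (nm m : ℝ) := by exact_mod_cast hn1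
  have hsub : (((nz j) ×ˢ (nz j)).filter (fun p : Eis × Eis => p.1 * p.2 = m)).card ≤ D.card := by
    refine Finset.card_le_card_of_injOn (fun p => p.1) ?_ ?_
    · intro p hp
      have hp' : p.1 * p.2 = m := (Finset.mem_filter.mp (Finset.mem_coe.mp hp)).2
      have h1 : p.1 ≠ 0 := by
        intro h; rw [h, zero_mul] at hp'; exact hm hp'.symm
      obtain ⟨k, u, d, hu, hd, hk⟩ := CharSum852.exists_decomp h1
      have hdvd : p.1 ∣ m := ⟨p.2, hp'.symm⟩
      have hnu : nm u = 1 := isUnit_iff.mp hu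
      refine Finset.mem_coe.mpr (Finset.mem_image.mpr ⟨(k, u, d), ?_, hk.symm⟩)
      refine Finset.mem_product.mpr ⟨?_, Finset.mem_product.mpr ⟨?_, ?_⟩⟩
      · rw [Finset.mem_range, Nat.lt_succ_iff]
        refine Nat.le_log_of_pow_le (by norm_num) ?_
        have h2 : nm (lam ^ k) ≤ nm m :=
          nm_le_of_dvd hm ((Dvd.intro _ hk.symm).trans hdvd)
        rwa [nm_pow, nm_lam] at h2
      · exact mem_nz.mpr ⟨hu.ne_zero, hnu.le⟩
      · refine (mem_dvs hm).mpr ⟨hd, ?_⟩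
        refine (Dvd.intro_left (lam ^ k * u) ?_).trans hdvd
        rw [hk]; ring
    · intro p hp q hq h
      have hp' : p.1 * p.2 = m := (Finset.mem_filter.mp (Finset.mem_coe.mp hp)).2
      have hq' : q.1 * q.2 = m := (Finset.mem_filter.mp (Finset.mem_coe.mp hq)).2
      have h' : p.1 = q.1 := h
      have h1 : p.1 ≠ 0 := by
        intro h; rw [h, zero_mul] at hp'; exact hm hp'.symm
      have h2 : p.1 * p.2 = p.1 * q.2 := by rw [hp', h', hq']
      exact Prod.ext h' (mul_left_cancel₀ h1 h2)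
  have hcard : (D.card : ℝ) ≤ ((Nat.log 3 (nm m) : ℝ) + 1) * (100 * (tau m : ℝ)) := by
    have h2 : D.card ≤ (Nat.log 3 (nm m) + 1) * ((nz 1).card * tau m) := by
      refine Finset.card_image_le.trans ?_
      rw [Finset.card_product, Finset.card_product, Finset.card_range]
      exact le_rfl
    have h3 : ((nz 1).card : ℝ) ≤ 100 := by
      have := card_nz_le 1
      simpa using this
    calc (D.card : ℝ) ≤ (((Nat.log 3 (nm m) + 1) * ((nz 1).card * tau m) : ℕ) : ℝ) := by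
          exact_mod_cast h2
      _ = ((Nat.log 3 (nm m) : ℝ) + 1) * (((nz 1).card : ℝ) * (tau m : ℝ)) := by push_cast; ring
      _ ≤ _ := by gcongr
  have hlog : (Nat.log 3 (nm m) : ℝ) ≤ 4 / ε * (nm m : ℝ) ^ (ε / 2) := by
    have h1 : (3 : ℝ) ^ (Nat.log 3 (nm m)) ≤ (nm m : ℝ) := by
      exact_mod_cast Nat.pow_log_le_self 3 (by omega)
    have h2 : (Nat.log 3 (nm m) : ℝ) * Real.log 3 ≤ Real.log (nm m : ℝ) := by
      rw [← Real.log_pow]
      exact Real.log_le_log (by positivity) h1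
    have h3 : Real.log (nm m : ℝ) ≤ (nm m : ℝ) ^ (ε / 2) / (ε / 2) :=
      Real.log_le_rpow_div (by linarith) (by positivity)
    have h4 : (1 / 2 : ℝ) ≤ Real.log 3 := by
      have := Real.log_two_gt_d9
      have h5 : Real.log 2 ≤ Real.log 3 := Real.log_le_log (by norm_num) (by norm_num)
      linarith
    have h6 : (0 : ℝ) ≤ (Nat.log 3 (nm m) : ℝ) := Nat.cast_nonneg _
    have h7 : (nm m : ℝ) ^ (ε / 2) / (ε / 2) = 2 / ε * (nm m : ℝ) ^ (ε / 2) := by
      field_simp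
    have h8 : (4 : ℝ) / ε = 2 * (2 / ε) := by ring
    rw [h7] at h3
    rw [h8, mul_assoc]
    nlinarith
  have hpow1 : (1 : ℝ) ≤ (nm m : ℝ) ^ (ε / 2) := Real.one_le_rpow hn1' (by positivity)
  have hsq : (nm m : ℝ) ^ ε = (nm m : ℝ) ^ (ε / 2) * (nm m : ℝ) ^ (ε / 2) := by
    rw [← Real.rpow_add (by linarith)]; congr 1; ring
  have ht := h₁ m hm
  calc ((((nz j) ×ˢ (nz j)).filter (fun p : Eis × Eis => p.1 * p.2 = m)).card : ℝ)
      ≤ (D.card : ℝ) := by exact_mod_cast hsub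
    _ ≤ ((Nat.log 3 (nm m) : ℝ) + 1) * (100 * (tau m : ℝ)) := hcard
    _ ≤ ((1 + 4 / ε) * (nm m : ℝ) ^ (ε / 2)) * (100 * (C₁ * (nm m : ℝ) ^ (ε / 2))) := by
        refine mul_le_mul ?_ ?_ (by positivity) (by positivity)
        · nlinarith
        · gcongr
    _ = (1 + 4 / ε) * (100 * C₁) * (nm m : ℝ) ^ ε := by rw [hsq]; ring

/-- number of subsets of a set of primes -/
theorem two_pow_le {ε : ℝ} (hε : 0 < ε) : ∃ C : ℝ, 0 < C ∧ ∀ P : Finset Eis, IsPS P →
    (2 : ℝ) ^ P.card ≤ C * (nm (pr P) : ℝ) ^ ε := by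
  classical
  obtain ⟨C₁, hC₁, h₁⟩ := tau_le_rpow hε
  refine ⟨C₁, by linarith, fun P hP => ?_⟩
  have hprim : ∀ Q ⊆ P, IsPrim (pr Q) := fun Q hQ => by
    unfold pr
    refine Finset.prod_induction _ IsPrim (fun _ _ => IsPrim.mul) isPrim_one
      (fun p hp => (hP p (hQ hp)).1)
  have h0 : pr P ≠ 0 := (hprim P (Finset.Subset.refl P)).ne_zero
  have h2 : 2 ^ P.card ≤ tau (pr P) := by
    rw [← Finset.card_powerset]
    unfold Div277.tau
    refine Finset.card_le_card_of_injOn (fun Q => pr Q) ?_ ?_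
    · intro Q hQ
      have hQ' : Q ⊆ P := Finset.mem_powerset.mp (Finset.mem_coe.mp hQ)
      exact Finset.mem_coe.mpr ((mem_dvs h0).mpr ⟨hprim Q hQ', Finset.prod_dvd_prod_of_subset _ _ _ hQ'⟩)
    · intro Q hQ R hR h
      have hQ' : Q ⊆ P := Finset.mem_powerset.mp (Finset.mem_coe.mp hQ)
      have hR' : R ⊆ P := Finset.mem_powerset.mp (Finset.mem_coe.mp hR)
      have key : ∀ A B : Finset Eis, A ⊆ P → B ⊆ P → pr A = pr B → A ⊆ B := by
        intro A B hA hB hAB p hp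
        have h1 : p ∣ pr B := hAB ▸ Finset.dvd_prod_of_mem _ hp
        obtain ⟨q, hq, hpq⟩ := (hP p (hA hp)).2.exists_mem_finset_dvd h1
        have has : Associated p q := ((hP p (hA hp)).2.dvd_prime_iff_associated (hP q (hB hq)).2).mp hpq
        have : p = q := IsPrim.eq_of_associated (hP p (hA hp)).1 (hP q (hB hq)).1 has
        rw [this]; exact hq
      exact Finset.Subset.antisymm (key Q R hQ' hR' h) (key R Q hR' hQ' h.symm)
  calc (2 : ℝ) ^ P.card = ((2 ^ P.card : ℕ) : ℝ) := by push_cast; ring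
    _ ≤ (tau (pr P) : ℝ) := by exact_mod_cast h2
    _ ≤ _ := h₁ _ h0

end Crest.Agent.R017.LV404
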