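import Crest.Agent.R017.LVb4_164
import Crest.Agent.R017.LVd_404

/-!
# Row 17, (LV): the large values theorem, unconditional (helper164)

* `lvProp : LVProp`
* `lsLV`  : large sieve form, any `Z` with `K^(4/3+δ) ≤ Z ≤ K²`
-/

set_option autoImplicit false

noncomputable section

namespace Crest.Agent.R017.LV164

open Crest.Agent.R012 Crest.Agent.R017.LV404
open Eis LS2 Div277

lemma pairsCard : PairsCard := fun _ hε => pairs_card hε

lemma twoPow : TwoPow := fun _ hε => two_pow_le hε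

/-- **(LV)** large values theorem -/
theorem lvProp : LVProp := lvProp_of thetaFE pairsCard twoPow

/-- large sieve form of (LV) -/
theorem lsLV {δ ε : ℝ} (hδ : 0 < δ) (hε : 0 < ε) :
    ∃ C : ℝ, 0 < C ∧ ∀ K Z : ℝ, 1 ≤ K → K ^ (4 / 3 + δ) ≤ Z → Z ≤ K ^ (2 : ℝ) →
    ∀ T : Finset Ix, (∀ q ∈ T, Adm K q) → ∀ F : Finset Eis, (∀ n ∈ F, (nm n : ℝ) ≤ Z) →
    ∀ c : Eis → ℂ, ∑ q ∈ T, ‖∑ n ∈ F, c n * ch q n‖ ^ 2 ≤
      C * K ^ ε * (Z + Z ^ ((2 : ℝ) / 3) * T.card) * ∑ n ∈ F, ‖c n‖ ^ 2 :=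
  lslv thetaFE pairsCard twoPow hδ hε

end Crest.Agent.R017.LV164
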