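import Crest.Agent.R017.XG2_702

/-!
# Row 17: from an analytic bound to `BG` (helper411)

`BG_of_bound` : a bound `Ψ lam l ps ≤ C e^{ε (l + Λ)} e^{E l Λ}`, `Λ` the total length, `E` homogeneous
and Lipschitz, gives `BG D Ψ κ u w (E κ (u.sum + ∑ w))`.
-/

set_option autoImplicit false
set_option linter.unusedSectionVars false

noncomputable section

open Set Filter Topology

namespace Crest.Agent.R017.XHB411

open Crest.Agent.R017.XG702

variable {Pc τ Lam : Type*} [DecidableEq τ]

/-- the total length -/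
def tl (D : Pcs Pc τ) (ps : List Pc) : ℝ := (ps.map D.len).sum

lemma tl_append (D : Pcs Pc τ) (ps qs : List Pc) : tl D (ps ++ qs) = tl D ps + tl D qs := by
  unfold tl; rw [List.map_append, List.sum_append]

lemma near_sum {D : Pcs Pc τ} {X δ : ℝ} {us : List Pc} {u : List ℝ} (h : D.Near X δ us u) :
    |(us.map (D.nl X)).sum - u.sum| ≤ u.length * δ := by
  unfold Pcs.Near at h
  induction h with
  | nil => simp
  | cons h1 _ ih =>
    simp only [List.map_cons, List.sum_cons, List.length_cons]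
    push_cast
    have h2 := h1.2
    rw [abs_le] at h2 ih ⊢
    constructor <;> nlinarith [h2.1, h2.2, ih.1, ih.2]

lemma tl_eq {D : Pcs Pc τ} {X : ℝ} (hX : 1 < X) (ps : List Pc) :
    tl D ps = (ps.map (D.nl X)).sum * Real.log X := by
  have hl : 0 < Real.log X := Real.log_pos hX
  unfold tl
  induction ps with
  | nil => simp
  | cons p ps ih =>
    simp only [List.map_cons, List.sum_cons]
    rw [ih, add_mul]
    congr 1
    unfold Pcs.nl
    field_simp

lemma sum_nl_eq_mass [Fintype τ] (D : Pcs Pc τ) (X : ℝ) (ps : List Pc) :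
    (ps.map (D.nl X)).sum = ∑ t, D.mass X ps t := by
  induction ps with
  | nil => simp
  | cons p ps ih =>
    simp only [List.map_cons, List.sum_cons, Pcs.mass_cons]
    rw [ih, Finset.sum_add_distrib]
    congr 1
    simp

/-- **from an analytic bound to an exponent** -/
theorem BG_of_bound [Fintype τ] {D : Pcs Pc τ} {Ψ : Lam → ℝ → List Pc → ℝ} (E : ℝ → ℝ → ℝ)
    (hE : ∀ l l' L L' : ℝ, E l' L' ≤ E l L + 3 * (|l' - l| + |L' - L|))
    (hhom : ∀ c l L : ℝ, 0 < c → E (c * l) (c * L) = c * E l L)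
    (hΨ : ∀ (lam : Lam) (n : ℕ) (ε : ℝ), 0 < ε → ∃ C : ℝ, 1 ≤ C ∧ ∀ (l : ℝ) (ps : List Pc), 0 ≤ l →
      ps.length ≤ n → (∀ p ∈ ps, 0 ≤ D.len p) →
      Ψ lam l ps ≤ C * Real.exp (ε * (l + tl D ps)) * Real.exp (E l (tl D ps)))
    (hneg : ∀ (lam : Lam) (l : ℝ) (ps : List Pc), l < 0 → Ψ lam l ps ≤ 0)
    (κ : ℝ) (u : List ℝ) (w : τ → ℝ) : BG D Ψ κ u w (E κ (u.sum + ∑ t, w t)) := by
  intro ε hε
  set n₀ : ℝ := u.length + Fintype.card τ with hn₀
  have hn₀0 : 0 ≤ n₀ := by positivity
  set S : ℝ := u.sum + ∑ t, w t with hS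
  set δ : ℝ := min 1 (ε / (12 * (1 + n₀))) with hδ
  have hδ0 : 0 < δ := lt_min one_pos (by positivity)
  have hδ1 : δ ≤ 1 := min_le_left _ _
  have hδ2 : 3 * (δ + n₀ * δ) ≤ ε / 4 := by
    have h1 : δ ≤ ε / (12 * (1 + n₀)) := min_le_right _ _
    rw [le_div_iff₀ (by positivity)] at h1
    linarith
  refine ⟨δ, hδ0, fun lmd N B => ?_⟩
  set Q : ℝ := |κ| + |S| + 2 + n₀ with hQ
  have hQ0 : 0 < Q := by positivity
  obtain ⟨C, hC, hb⟩ := hΨ lmd (u.length + N) (ε / (4 * Q)) (by positivity)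
  refine ⟨1, one_pos, C ^ (4 / ε) + 2, by
    have : 0 ≤ C ^ (4 / ε) := by positivity
    linarith, ?_⟩
  intro X hX k us gs hk hus hgs hgood
  have hC0 : 0 ≤ C ^ (4 / ε) := by positivity
  have hX1 : 1 < X := by linarith
  have hX0 : 0 < X := by linarith
  have hl : 0 < Real.log X := Real.log_pos hX1
  by_cases hkn : k < 0
  · refine (hneg _ _ _ (mul_neg_of_neg_of_pos hkn hl)).trans (by positivity)
  push Not at hkn
  have hlen : (us ++ gs).length ≤ u.length + N := by
    rw [List.length_append, XG702.Near_length hus]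
    have := hgs.1
    omega
  have h1 := hb (k * Real.log X) (us ++ gs) (by positivity) hlen fun p hp => (hgood p hp).2.2
  set lam : ℝ := ((us ++ gs).map (D.nl X)).sum with hlam
  have htl : tl D (us ++ gs) = lam * Real.log X := tl_eq hX1 _
  have hlamS : |lam - S| ≤ n₀ * δ := by
    have e1 : lam = (us.map (D.nl X)).sum + ∑ t, D.mass X gs t := by
      rw [hlam, List.map_append, List.sum_append, sum_nl_eq_mass D X gs]
    have h2 := near_sum hus
    have h3 : |∑ t, D.mass X gs t - ∑ t, w t| ≤ Fintype.card τ * δ := by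
      rw [← Finset.sum_sub_distrib]
      refine (Finset.abs_sum_le_sum_abs _ _).trans ?_
      refine (Finset.sum_le_sum fun t _ => hgs.2.2 t).trans ?_
      rw [Finset.sum_const, nsmul_eq_mul, Finset.card_univ]
    rw [e1, hS, hn₀]
    rw [abs_le] at h2 h3 ⊢
    constructor <;> nlinarith [h2.1, h2.2, h3.1, h3.2]
  rw [htl] at h1
  have hE1 : E (k * Real.log X) (lam * Real.log X) ≤ (E κ S + ε / 4) * Real.log X := by
    have h2 : E (k * Real.log X) (lam * Real.log X) = Real.log X * E k lam := by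
      rw [mul_comm k, mul_comm lam]
      exact hhom _ _ _ hl
    have h3 := hE κ k S lam
    have h4 : 3 * (|k - κ| + |lam - S|) ≤ ε / 4 := by
      refine le_trans ?_ hδ2
      linarith
    rw [h2, mul_comm]
    exact mul_le_mul_of_nonneg_right (by linarith) hl.le
  have hE2 : ε / (4 * Q) * (k * Real.log X + lam * Real.log X) ≤ ε / 4 * Real.log X := by
    have h2 : k + lam ≤ Q := by
      have h3 := (abs_le.1 hk).2
      have h4 := (abs_le.1 hlamS).2
      have h5 := le_abs_self κ
      have h6 := le_abs_self S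
      have h7 : n₀ * δ ≤ n₀ := by nlinarith
      rw [hQ]; linarith
    calc ε / (4 * Q) * (k * Real.log X + lam * Real.log X)
        = ε / (4 * Q) * (k + lam) * Real.log X := by ring
      _ ≤ ε / (4 * Q) * Q * Real.log X := by gcongr
      _ = ε / 4 * Real.log X := by
          have : ε / (4 * Q) * Q = ε / 4 := by
            rw [div_mul_eq_mul_div, mul_div_mul_right _ _ hQ0.ne']
          rw [this]
  have hCX : C ≤ X ^ (ε / 4) := by
    have h2 : C ^ (4 / ε) ≤ X := by linarith
    have h3 : (C ^ (4 / ε)) ^ (ε / 4) ≤ X ^ (ε / 4) :=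
      Real.rpow_le_rpow hC0 h2 (by positivity)
    rw [← Real.rpow_mul (by linarith)] at h3
    have : 4 / ε * (ε / 4) = 1 := by field_simp
    rwa [this, Real.rpow_one] at h3
  refine h1.trans ?_
  calc C * Real.exp (ε / (4 * Q) * (k * Real.log X + lam * Real.log X)) *
        Real.exp (E (k * Real.log X) (lam * Real.log X))
      ≤ X ^ (ε / 4) * Real.exp (ε / 4 * Real.log X) *
        Real.exp ((E κ S + ε / 4) * Real.log X) := by
        gcongr
    _ = X ^ (ε / 4) * X ^ (ε / 4) * X ^ (E κ S + ε / 4) := by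
        congr 1
        · congr 1
          rw [Real.rpow_def_of_pos hX0, mul_comm]
        · rw [Real.rpow_def_of_pos hX0, mul_comm]
    _ = X ^ (ε / 4 + ε / 4 + (E κ S + ε / 4)) := by
        rw [Real.rpow_add hX0 (ε / 4 + ε / 4), Real.rpow_add hX0 (ε / 4) (ε / 4)]
    _ ≤ X ^ (E κ S + ε) := Real.rpow_le_rpow_of_exponent_le hX1.le (by linarith)

/-! ### Heath-Brown's exponent -/

/-- the exponent of rule HB -/
def EHB (l L : ℝ) : ℝ := max (l + L) (max (2 * L + l / 3) (L + 2 / 3 * (l + L)))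

lemma EHB_lip (l l' L L' : ℝ) : EHB l' L' ≤ EHB l L + 3 * (|l' - l| + |L' - L|) := by
  have h1 := le_abs_self (l' - l)
  have h2 := le_abs_self (L' - L)
  have h3 := abs_nonneg (l' - l)
  have h4 := abs_nonneg (L' - L)
  unfold EHB
  have m1 := le_max_left (l + L) (max (2 * L + l / 3) (L + 2 / 3 * (l + L)))
  have m2 := le_max_right (l + L) (max (2 * L + l / 3) (L + 2 / 3 * (l + L)))
  have m3 := le_max_left (2 * L + l / 3) (L + 2 / 3 * (l + L))
  have m4 := le_max_right (2 * L + l / 3) (L + 2 / 3 * (l + L))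
  refine max_le ?_ (max_le ?_ ?_) <;> linarith

lemma EHB_hom (c l L : ℝ) (hc : 0 < c) : EHB (c * l) (c * L) = c * EHB l L := by
  unfold EHB
  rw [mul_max_of_nonneg _ _ hc.le, mul_max_of_nonneg _ _ hc.le]
  congr 1
  · ring
  · congr 1 <;> ring

end Crest.Agent.R017.XHB411
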