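import Crest.Agent.R017.XHB1_411
import Crest.Agent.R017.XHB2_411

/-!
# Row 17, rule HB for lists of typed pieces (helper411)

* `hbL_C` : `∑_{k ∈ bl (e^l)} ∏ |CS (pc h p) k|² ≤ C e^{ε (l + Λ)} e^{EHB l Λ}`
* `hbL_G` : the same on the Gauss side (any restriction `sqc q`)
-/

set_option autoImplicit false

noncomputable section

open Complex Finset
open scoped BigOperators ComplexConjugate

namespace Crest.Agent.R017.XHB411

open Crest.Agent.R012 Crest.Agent.R012.Eis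
open Crest.Agent.R012.LS2 (bl mem_bl)
open Crest.Agent.R017.CM106 (CS)
open Crest.Agent.R017.FE47 (cx)
open Crest.Agent.R017.Lbc298 (Cf one_le_tau_of_prim)
open Crest.Agent.R017.HP842 (KS Kg sqc Pc pc)

open Classical in
/-- the sequence of a list of pieces -/
def alL0 (h : ℝ → ℝ) : List Pc → Eis → ℂ
  | [] => fun n => if n = 1 then 1 else 0
  | p :: ps => TP320.conv (pc h p) (alL0 h ps)

/-- total length -/
def LL (ps : List Pc) : ℝ := (ps.map fun p => Real.log p.Y).sum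

lemma LL_nonneg {ps : List Pc} (h : ∀ p ∈ ps, 1 ≤ p.Y) : 0 ≤ LL ps := by
  unfold LL
  apply List.sum_nonneg
  intro x hx
  obtain ⟨p, hp, rfl⟩ := List.mem_map.1 hx
  exact Real.log_nonneg (h p hp)

lemma Cf_one : Cf 0 1 (alL0 (fun _ => 0) []) where
  fs :=
    { fin := by
        refine (Set.finite_singleton (1 : Eis)).subset fun n hn => ?_
        by_contra h0
        apply hn
        show (if n = 1 then (1 : ℂ) else 0) = 0
        rw [if_neg]
        simpa using h0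
      prim := fun n hn => by
        have hn' : (if n = 1 then (1 : ℂ) else 0) ≠ 0 := hn
        have : n = 1 := by
          by_contra h0
          exact hn' (if_neg h0)
        rw [this]; exact isPrim_one }
  supp := fun n hn => by
    have hn' : (if n = 1 then (1 : ℂ) else 0) ≠ 0 := hn
    have : n = 1 := by
      by_contra h0
      exact hn' (if_neg h0)
    rw [this]; simp
  bd := fun n => by
    show ‖(if n = 1 then (1 : ℂ) else 0)‖ ≤ _
    split_ifs <;> simp

/-- the sequence of a piece, normalised -/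
lemma Cf_pc {h : ℝ → ℝ} {R H0 : ℝ} (hH0 : 0 < H0) (hH : ∀ u, ‖cx h u‖ ≤ H0)
    (hR : ∀ u, cx h u ≠ 0 → |u| ≤ R) {P : Pc} (hP : P.OK) :
    Cf 0 (Real.exp R * P.Y) (fun b => ((H0⁻¹ : ℝ) : ℂ) * pc h P b) where
  fs :=
    { fin := (HP842.FS_pc hR hP).fin.subset fun n hn h0 => hn (by
        have h0' : pc h P n = 0 := h0
        simp [h0'])
      prim := fun n hn => (HP842.FS_pc hR hP).prim n fun h0 => hn (by rw [h0, mul_zero]) }
  supp := fun n hn => by
    have hn' : pc h P n ≠ 0 := right_ne_zero_of_mul hn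
    have hp := (HP842.FS_pc hR hP).prim n hn'
    unfold pc at hn'
    rw [if_pos hp] at hn'
    have h1 := right_ne_zero_of_mul hn'
    unfold HSep813.gw at h1
    have h2 := hR _ (right_ne_zero_of_mul h1)
    have h3 : (0 : ℝ) < nm n := by exact_mod_cast nm_pos.2 hp.ne_zero
    have h4 : Real.log (nm n) ≤ R + Real.log P.Y := by
      have := (abs_le.1 h2).2
      linarith
    calc (nm n : ℝ) = Real.exp (Real.log (nm n)) := (Real.exp_log h3).symm
      _ ≤ Real.exp (R + Real.log P.Y) := Real.exp_le_exp.2 h4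
      _ = _ := by rw [Real.exp_add, Real.exp_log hP.Y0]
  bd := fun n => by
    rw [pow_zero, norm_mul, Complex.norm_real, Real.norm_of_nonneg (by positivity),
      inv_mul_le_iff₀ hH0, mul_one]
    unfold pc
    split_ifs with hp
    · rw [norm_mul, norm_mul]
      have h1 := HP842.norm_uv_le P.u n
      have h2 := hP.ch.norm_le hp
      have h3 := HSep813.norm_gw_le hH P.Y P.t n
      calc ‖HP842.uv P.u n‖ * ‖P.ψ n‖ * ‖HSep813.gw h P.Y P.t n‖ ≤ 1 * 1 * H0 := by gcongr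
        _ = H0 := by ring
    · rw [norm_zero]; exact hH0.le

/-- the class of a list -/
lemma Cf_alL0 {h : ℝ → ℝ} {R H0 : ℝ} (hH0 : 0 < H0) (hH : ∀ u, ‖cx h u‖ ≤ H0)
    (hR : ∀ u, cx h u ≠ 0 → |u| ≤ R) : ∀ ps : List Pc, (∀ p ∈ ps, p.OK) →
    Cf ps.length (Real.exp (R * ps.length + LL ps))
      (fun n => (((H0⁻¹ : ℝ) : ℂ) ^ ps.length) * alL0 h ps n)
  | [], _ => by
      have h1 := Cf_one
      have e : (fun n => (((H0⁻¹ : ℝ) : ℂ) ^ ([] : List Pc).length) * alL0 h [] n) =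
          alL0 (fun _ => 0) [] := by
        funext n
        simp [alL0]
      rw [e]
      have e2 : Real.exp (R * ([] : List Pc).length + LL []) = 1 := by
        simp [LL]
      rw [e2]
      exact h1
  | p :: ps, hps => by
      have ih := Cf_alL0 hH0 hH hR ps fun q hq => hps q (List.mem_cons_of_mem _ hq)
      have hp := Cf_pc hH0 hH hR (hps p List.mem_cons_self)
      have h1 := Cf_conv (Real.exp_pos _).le hp ih
      have e : (fun n => (((H0⁻¹ : ℝ) : ℂ) ^ (p :: ps).length) * alL0 h (p :: ps) n) =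
          TP320.conv (fun b => ((H0⁻¹ : ℝ) : ℂ) * pc h p b)
            (fun n => (((H0⁻¹ : ℝ) : ℂ) ^ ps.length) * alL0 h ps n) := by
        funext n
        rw [TPD813.conv_smul]
        show _ * TP320.conv (pc h p) (alL0 h ps) n = _
        rw [List.length_cons, pow_succ]
        ring
      rw [e]
      have e3 : Real.exp R * p.Y * Real.exp (R * ps.length + LL ps) =
          Real.exp (R * (p :: ps).length + LL (p :: ps)) := by
        have hY := (hps p List.mem_cons_self).Y0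
        have : LL (p :: ps) = Real.log p.Y + LL ps := by
          unfold LL; rw [List.map_cons, List.sum_cons]
        rw [this, List.length_cons]
        push_cast
        have e4 : R * ((ps.length : ℝ) + 1) + (Real.log p.Y + LL ps) =
            R + Real.log p.Y + (R * ps.length + LL ps) := by ring
        rw [e4, Real.exp_add (R + Real.log p.Y), Real.exp_add R, Real.exp_log hY]
      rw [← e3]
      refine h1.mono ?_ le_rfl
      rw [List.length_cons]
      omega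

lemma fs_alL0 {h : ℝ → ℝ} {R : ℝ} (hR : ∀ u, cx h u ≠ 0 → |u| ≤ R) :
    ∀ ps : List Pc, (∀ p ∈ ps, p.OK) → CM106.FS (alL0 h ps)
  | [], _ => by
      have e : alL0 h [] = alL0 (fun _ => 0) [] := rfl
      rw [e]; exact Cf_one.fs
  | p :: ps, hps =>
      TPD813.fs_conv (HP842.FS_pc hR (hps p List.mem_cons_self))
        (fs_alL0 hR ps fun q hq => hps q (List.mem_cons_of_mem _ hq))

lemma CS_alL0 {h : ℝ → ℝ} {R : ℝ} (hR : ∀ u, cx h u ≠ 0 → |u| ≤ R) (k : Eis) :
    ∀ ps : List Pc, (∀ p ∈ ps, p.OK) →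
      CS (alL0 h ps) k = (ps.map fun p => CS (pc h p) k).prod
  | [], _ => by
      unfold CS
      rw [tsum_eq_single (1 : Eis)]
      · simp [alL0, Sym645.sy_one_right]
      · intro n hn
        simp [alL0, hn]
  | p :: ps, hps => by
      rw [List.map_cons, List.prod_cons,
        ← CS_alL0 hR k ps fun q hq => hps q (List.mem_cons_of_mem _ hq)]
      exact TPD813.CS_conv (HP842.FS_pc hR (hps p List.mem_cons_self))
        (fs_alL0 hR ps fun q hq => hps q (List.mem_cons_of_mem _ hq)) k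

lemma HBa_exp {l L c : ℝ} (hc : 0 ≤ c) : HBa (Real.exp l) (Real.exp (c + L)) *
    Real.exp (c + L) ≤ 3 * Real.exp (2 * c) * Real.exp (EHB l L) := by
  unfold HBa
  rw [← Real.exp_add l, ← Real.exp_mul, ← Real.exp_mul, add_mul, add_mul, ← Real.exp_add,
    ← Real.exp_add, ← Real.exp_add, ← Real.exp_add, mul_assoc, ← Real.exp_add]
  have h1 : l + (c + L) ≤ 2 * c + EHB l L := by
    have : l + L ≤ EHB l L := le_max_left _ _
    linarith
  have h2 : c + L + l * (1 / 3) + (c + L) ≤ 2 * c + EHB l L := by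
    have : 2 * L + l / 3 ≤ EHB l L := le_trans (le_max_left _ _) (le_max_right _ _)
    linarith
  have h3 : (l + (c + L)) * (2 / 3) + (c + L) ≤ 2 * c + EHB l L := by
    have : L + 2 / 3 * (l + L) ≤ EHB l L := le_trans (le_max_right _ _) (le_max_right _ _)
    linarith
  have k1 := Real.exp_le_exp.2 h1
  have k2 := Real.exp_le_exp.2 h2
  have k3 := Real.exp_le_exp.2 h3
  linarith

/-- **rule HB, character side** -/
theorem hbL_C {h : ℝ → ℝ} {c : ℝ} (hpu : FE47.PU h c) (n : ℕ) {ε : ℝ} (hε : 0 < ε) :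
    ∃ C : ℝ, 1 ≤ C ∧ ∀ (l : ℝ) (ps : List Pc), 0 ≤ l → ps.length ≤ n → (∀ p ∈ ps, p.OK) →
      (∀ p ∈ ps, 1 ≤ p.Y) →
      ∑ k ∈ bl (Real.exp l), ‖CS (alL0 h ps) k‖ ^ 2 ≤
        C * Real.exp (ε * (l + LL ps)) * Real.exp (EHB l (LL ps)) := by
  obtain ⟨R, hR0, hR⟩ := FE47.exists_R (FE47.cs_cx hpu.cs)
  obtain ⟨H1, hH1⟩ := (FE47.cs_cx hpu.cs).exists_bound_of_continuous (FE47.cd_cx hpu.cd).continuous
  set H0 : ℝ := max 1 H1 with hH0d
  have hH01 : 1 ≤ H0 := le_max_left _ _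
  have hH0 : 0 < H0 := by linarith
  have hH : ∀ u, ‖cx h u‖ ≤ H0 := fun u => (hH1 u).trans (le_max_right _ _)
  obtain ⟨C0, hC0, hb⟩ := hb_cf n hε
  have hRn : 0 ≤ R * n := by positivity
  refine ⟨(H0 ^ n) ^ 2 * (C0 * Real.exp (ε * (R * n)) * (3 * Real.exp (2 * (R * n)))), ?_, ?_⟩
  · have a1 : 1 ≤ (H0 ^ n) ^ 2 := one_le_pow₀ (one_le_pow₀ hH01)
    have a2 : 1 ≤ Real.exp (ε * (R * n)) := Real.one_le_exp (by positivity)
    have a3 : 1 ≤ 3 * Real.exp (2 * (R * n)) := by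
      have := Real.one_le_exp (show 0 ≤ 2 * (R * n) by positivity)
      linarith
    exact one_le_mul_of_one_le_of_one_le a1
      (one_le_mul_of_one_le_of_one_le (one_le_mul_of_one_le_of_one_le hC0 a2) a3)
  intro l ps hl hlen hok hY
  have hL := LL_nonneg hY
  set m : ℕ := ps.length with hm
  have hmn : (m : ℝ) ≤ n := by exact_mod_cast hlen
  have hcls := Cf_alL0 hH0 hH hR ps hok
  have hRm : R * m ≤ R * n := by gcongr
  have hcls' : Cf n (Real.exp (R * n + LL ps))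
      (fun x => (((H0⁻¹ : ℝ) : ℂ) ^ m) * alL0 h ps x) :=
    hcls.mono hlen (Real.exp_le_exp.2 (by linarith))
  have h1 := hb (Real.exp l) (Real.exp (R * n + LL ps)) _ (Real.one_le_exp hl)
    (Real.one_le_exp (by linarith)) hcls'
  have e1 : ∀ k, ‖CS (alL0 h ps) k‖ ^ 2 =
      (H0 ^ m) ^ 2 * ‖CS (fun x => (((H0⁻¹ : ℝ) : ℂ) ^ m) * alL0 h ps x) k‖ ^ 2 := by
    intro k
    have h9 : H0 ^ m * H0⁻¹ ^ m = 1 := by
      rw [← mul_pow, mul_inv_cancel₀ hH0.ne', one_pow]
    rw [TPD813.CS_smul, norm_mul, norm_pow, Complex.norm_real, Real.norm_of_nonneg (by positivity),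
      ← mul_pow, ← mul_assoc, h9, one_mul]
  rw [Finset.sum_congr rfl fun k _ => e1 k, ← Finset.mul_sum]
  have hH0m : (H0 ^ m) ^ 2 ≤ (H0 ^ n) ^ 2 := by
    gcongr
  have h2 : (Real.exp l * Real.exp (R * n + LL ps)) ^ ε =
      Real.exp (ε * (R * n)) * Real.exp (ε * (l + LL ps)) := by
    rw [← Real.exp_add, ← Real.exp_mul, ← Real.exp_add]
    congr 1; ring
  calc (H0 ^ m) ^ 2 * ∑ k ∈ bl (Real.exp l),
        ‖CS (fun x => (((H0⁻¹ : ℝ) : ℂ) ^ m) * alL0 h ps x) k‖ ^ 2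
      ≤ (H0 ^ n) ^ 2 * (C0 * (Real.exp l * Real.exp (R * n + LL ps)) ^ ε *
          HBa (Real.exp l) (Real.exp (R * n + LL ps)) * Real.exp (R * n + LL ps)) :=
        mul_le_mul hH0m h1 (Finset.sum_nonneg fun _ _ => by positivity) (by positivity)
    _ = (H0 ^ n) ^ 2 * (C0 * (Real.exp (ε * (R * n)) * Real.exp (ε * (l + LL ps))) *
          (HBa (Real.exp l) (Real.exp (R * n + LL ps)) * Real.exp (R * n + LL ps))) := by
        rw [h2]; ring
    _ ≤ (H0 ^ n) ^ 2 * (C0 * (Real.exp (ε * (R * n)) * Real.exp (ε * (l + LL ps))) *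
          (3 * Real.exp (2 * (R * n)) * Real.exp (EHB l (LL ps)))) := by
        have := HBa_exp (l := l) (L := LL ps) hRn
        gcongr
    _ = _ := by ring

/-- **rule HB, Gauss side** -/
theorem hbL_G {h : ℝ → ℝ} {c : ℝ} (hpu : FE47.PU h c) (n : ℕ) {ε : ℝ} (hε : 0 < ε) :
    ∃ C : ℝ, 1 ≤ C ∧ ∀ (q : Eis) (l : ℝ) (ps : List Pc), 0 ≤ l → ps.length ≤ n →
      (∀ p ∈ ps, p.OK) → (∀ p ∈ ps, 1 ≤ p.Y) →
      ∑ k ∈ bl (Real.exp l), ‖KS Kg (sqc q (alL0 h ps)) k‖ ^ 2 ≤
        C * Real.exp (ε * (l + LL ps)) * Real.exp (EHB l (LL ps)) := by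
  obtain ⟨R, hR0, hR⟩ := FE47.exists_R (FE47.cs_cx hpu.cs)
  obtain ⟨H1, hH1⟩ := (FE47.cs_cx hpu.cs).exists_bound_of_continuous (FE47.cd_cx hpu.cd).continuous
  set H0 : ℝ := max 1 H1 with hH0d
  have hH01 : 1 ≤ H0 := le_max_left _ _
  have hH0 : 0 < H0 := by linarith
  have hH : ∀ u, ‖cx h u‖ ≤ H0 := fun u => (hH1 u).trans (le_max_right _ _)
  obtain ⟨C0, hC0, hb⟩ := hbG_cf n hε
  have hRn : 0 ≤ R * n := by positivity
  refine ⟨(H0 ^ n) ^ 2 * (C0 * Real.exp (ε * (R * n)) * (3 * Real.exp (2 * (R * n)))), ?_, ?_⟩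
  · have a1 : 1 ≤ (H0 ^ n) ^ 2 := one_le_pow₀ (one_le_pow₀ hH01)
    have a2 : 1 ≤ Real.exp (ε * (R * n)) := Real.one_le_exp (by positivity)
    have a3 : 1 ≤ 3 * Real.exp (2 * (R * n)) := by
      have := Real.one_le_exp (show 0 ≤ 2 * (R * n) by positivity)
      linarith
    exact one_le_mul_of_one_le_of_one_le a1
      (one_le_mul_of_one_le_of_one_le (one_le_mul_of_one_le_of_one_le hC0 a2) a3)
  intro q l ps hl hlen hok hY
  have hL := LL_nonneg hY
  set m : ℕ := ps.length with hm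
  have hmn : (m : ℝ) ≤ n := by exact_mod_cast hlen
  have hcls := Cf_alL0 hH0 hH hR ps hok
  have hRm : R * m ≤ R * n := by gcongr
  have hcls' : Cf n (Real.exp (R * n + LL ps))
      (sqc q (fun x => (((H0⁻¹ : ℝ) : ℂ) ^ m) * alL0 h ps x)) :=
    Cf_sqc (hcls.mono hlen (Real.exp_le_exp.2 (by linarith))) q
  have h1 := hb (Real.exp l) (Real.exp (R * n + LL ps)) _ (Real.one_le_exp hl)
    (Real.one_le_exp (by linarith)) hcls'
  have e0 : ∀ k, KS Kg (sqc q (fun x => (((H0⁻¹ : ℝ) : ℂ) ^ m) * alL0 h ps x)) k =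
      (((H0⁻¹ : ℝ) : ℂ) ^ m) * KS Kg (sqc q (alL0 h ps)) k := by
    intro k
    unfold KS HP842.sqc
    rw [← tsum_mul_left]
    exact tsum_congr fun x => by ring
  have e1 : ∀ k, ‖KS Kg (sqc q (alL0 h ps)) k‖ ^ 2 =
      (H0 ^ m) ^ 2 * ‖KS Kg (sqc q (fun x => (((H0⁻¹ : ℝ) : ℂ) ^ m) * alL0 h ps x)) k‖ ^ 2 := by
    intro k
    have h9 : H0 ^ m * H0⁻¹ ^ m = 1 := by
      rw [← mul_pow, mul_inv_cancel₀ hH0.ne', one_pow]
    rw [e0, norm_mul, norm_pow, Complex.norm_real, Real.norm_of_nonneg (by positivity),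
      ← mul_pow, ← mul_assoc, h9, one_mul]
  rw [Finset.sum_congr rfl fun k _ => e1 k, ← Finset.mul_sum]
  have hH0m : (H0 ^ m) ^ 2 ≤ (H0 ^ n) ^ 2 := by
    gcongr
  have h2 : (Real.exp l * Real.exp (R * n + LL ps)) ^ ε =
      Real.exp (ε * (R * n)) * Real.exp (ε * (l + LL ps)) := by
    rw [← Real.exp_add, ← Real.exp_mul, ← Real.exp_add]
    congr 1; ring
  calc (H0 ^ m) ^ 2 * ∑ k ∈ bl (Real.exp l),
        ‖KS Kg (sqc q (fun x => (((H0⁻¹ : ℝ) : ℂ) ^ m) * alL0 h ps x)) k‖ ^ 2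
      ≤ (H0 ^ n) ^ 2 * (C0 * (Real.exp l * Real.exp (R * n + LL ps)) ^ ε *
          HBa (Real.exp l) (Real.exp (R * n + LL ps)) * Real.exp (R * n + LL ps)) :=
        mul_le_mul hH0m h1 (Finset.sum_nonneg fun _ _ => by positivity) (by positivity)
    _ = (H0 ^ n) ^ 2 * (C0 * (Real.exp (ε * (R * n)) * Real.exp (ε * (l + LL ps))) *
          (HBa (Real.exp l) (Real.exp (R * n + LL ps)) * Real.exp (R * n + LL ps))) := by
        rw [h2]; ring
    _ ≤ (H0 ^ n) ^ 2 * (C0 * (Real.exp (ε * (R * n)) * Real.exp (ε * (l + LL ps))) *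
          (3 * Real.exp (2 * (R * n)) * Real.exp (EHB l (LL ps)))) := by
        have := HBa_exp (l := l) (L := LL ps) hRn
        gcongr
    _ = _ := by ring

end Crest.Agent.R017.XHB411
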