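import Crest.Agent.R017.XLBb_298
import Crest.Agent.R017.ProvB_71
import Crest.Agent.R017.SupI_271
import Crest.Agent.R017.XHB3_411
import Crest.Agent.R017.LVb_164

/-!
# Row 17, (LB): the literal instance (helper298)

* `BG_scale` : constants to the number of pieces are free
* `cfq`, `PI_cfq`, `SupI_cfq` : the normalised pieces of helper71's provider
* **`blb_298`** : `BLB θ Dq (fun lam => Rp (π lam) h)`
-/

set_option autoImplicit false

noncomputable section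

open Complex Finset
open scoped ComplexConjugate

namespace Crest.Agent.R017.Lbc298

open Crest.Agent.R012 Crest.Agent.R012.Eis Crest.Agent.R012.LS2 Crest.Agent.R012.Char766
open Crest.Agent.R017.CM106 Crest.Agent.R017.LV404 Crest.Agent.R017.HP842
open Crest.Agent.R017.XG702
open Crest.Agent.R017.FE47 (PU cx)
open Crest.Agent.R017.B770 (DPar)
open Crest.Agent.R017.End699 (PF)
open Crest.Agent.R017.Prov71 (Pq Dq Rp Kd wt Qp Okl BLB)

section scale

variable {Pc τ Lam : Type*} [DecidableEq τ] {D : Pcs Pc τ}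

/-- a constant to the number of pieces is free -/
theorem BG_scale {Ψ Φ : Lam → ℝ → List Pc → ℝ} {C0 : ℝ} (hC0 : 1 ≤ C0)
    (hle : ∀ lam l ps, Ψ lam l ps ≤ C0 ^ ps.length * Φ lam l ps)
    (hΦ : ∀ lam l ps, 0 ≤ Φ lam l ps) {κ : ℝ} {u : List ℝ} {w : τ → ℝ} {e : ℝ}
    (h : BG D Φ κ u w e) : BG D Ψ κ u w e := by
  intro ε hε
  obtain ⟨δ, hδ, H⟩ := h (ε / 2) (by linarith)
  refine ⟨δ, hδ, fun lam N B => ?_⟩
  obtain ⟨δ', hδ', X₁, hX₁, H1⟩ := H lam N B
  obtain ⟨X₂, hX₂, hc⟩ := const_le_rpow (C0 ^ (u.length + N)) (a := ε / 2) (by linarith)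
  refine ⟨δ', hδ', max X₁ X₂, lt_of_lt_of_le hX₁ (le_max_left _ _), ?_⟩
  intro X hX k us gs hk hn hg hgood
  have hX1 : X₁ ≤ X := (le_max_left _ _).trans hX
  have hX2 : X₂ ≤ X := (le_max_right _ _).trans hX
  have hX0 : 1 < X := lt_of_lt_of_le hX₁ hX1
  have h1 := H1 X hX1 k us gs hk hn hg hgood
  have hlen : (us ++ gs).length ≤ u.length + N := by
    rw [List.length_append, Near_length hn]
    exact Nat.add_le_add_left hg.1 _
  calc Ψ lam (k * Real.log X) (us ++ gs)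
      ≤ C0 ^ (us ++ gs).length * Φ lam (k * Real.log X) (us ++ gs) := hle _ _ _
    _ ≤ X ^ (ε / 2) * X ^ (e + ε / 2) := by
        refine mul_le_mul ((pow_le_pow_right₀ hC0 hlen).trans (hc X hX2)) h1 (hΦ _ _ _)
          (by positivity)
    _ = X ^ (e + ε) := by
        rw [← Real.rpow_add (by linarith)]
        congr 1; ring

end scale

/-! ### the pieces of the provider -/

/-- the normalised coefficients of a piece -/
def cfq (P : DPar) (h : ℝ → ℝ) (H0 : ℝ) (p : Pq) (b : Eis) : ℂ :=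
  ((H0⁻¹ : ℝ) : ℂ) * pc h (p.pc P) b

lemma CS_cfq (P : DPar) (h : ℝ → ℝ) (H0 : ℝ) (p : Pq) (k : Eis) :
    CS (cfq P h H0 p) k = ((H0⁻¹ : ℝ) : ℂ) * CS (pc h (p.pc P)) k :=
  TPD813.CS_smul _ _ _

lemma norm_CS_cfq {P : DPar} {h : ℝ → ℝ} {H0 : ℝ} (hH0 : 0 < H0) (p : Pq) (k : Eis) :
    ‖CS (cfq P h H0 p) k‖ = H0⁻¹ * ‖CS (pc h (p.pc P)) k‖ := by
  rw [CS_cfq, norm_mul, Complex.norm_real, Real.norm_of_nonneg (by positivity)]

/-- the class of the pieces -/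
theorem PI_cfq {P : DPar} (hP : P.OK) {h : ℝ → ℝ} {R H0 : ℝ} (hH0 : 0 < H0) (hR0 : 0 ≤ R)
    (hH : ∀ u, ‖cx h u‖ ≤ H0) (hR : ∀ u, cx h u ≠ 0 → |u| ≤ R) :
    PI Dq (cfq P h H0) 0 R where
  c0 := hR0
  cf := fun p _ => by
    have h1 := XHB411.Cf_pc hH0 hH hR (p.ok hP)
    refine h1.mono le_rfl ?_
    rw [Prov71.Pq.pc_Y, Prov71.Dq_len, ← Real.exp_add, add_comm]

/-- the sup bound of the pieces -/
theorem SupI_cfq {θ : ℝ} (hθ : 1 / 2 < θ) (hθ1 : θ ≤ 1) (hPF : PF Set.univ θ) {P : DPar}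
    (hP : P.OK) {h : ℝ → ℝ} {c₀ : ℝ} (hh : PU h c₀) {H0 : ℝ} (hH0 : 1 ≤ H0) {Q : Eis → Prop}
    (hQ : ∀ k, Q k → P.NP2 k ∧ k ≠ 0) :
    SupI Dq (cfq P h H0) Q θ := by
  intro ε hε B
  set B1 : ℝ := max B 1 with hB1
  have hB1p : 1 ≤ B1 := le_max_right _ _
  have hBB : B ≤ B1 := le_max_left _ _
  set s : ℝ := min 1 (ε / (4 * (3 * B1 + 3))) with hs
  have hs0 : 0 < s := by positivity
  have hs1 : s ≤ 1 := min_le_left _ _
  have hs2 : s * (3 * B1 + 3) ≤ ε / 4 := by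
    have h1 : s ≤ ε / (4 * (3 * B1 + 3)) := min_le_right _ _
    calc s * (3 * B1 + 3) ≤ ε / (4 * (3 * B1 + 3)) * (3 * B1 + 3) := by gcongr
      _ = ε / 4 := by field_simp
  obtain ⟨C, hC1, hC⟩ := SupI271.sup_pq hθ hθ1 hPF hs0 hs1 hh.cd hh.cs hP
  obtain ⟨X₁, hX₁, hc⟩ := const_le_rpow C (a := ε / 4) (by linarith)
  refine ⟨1, one_pos, max X₁ 2, lt_of_lt_of_le hX₁ (le_max_left _ _), ?_⟩
  intro X hX p hs1' hs2' hl0 hlB k hk hnk
  have hX1 : 1 < X := lt_of_lt_of_le hX₁ ((le_max_left _ _).trans hX)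
  have hX2 : 2 ≤ X := (le_max_right _ _).trans hX
  have hX0 : 0 < X := by linarith
  obtain ⟨hnp, hk0⟩ := hQ k hk
  have h1 := hC p k hk0 hnp
  rw [norm_CS_cfq (by linarith)]
  simp only [Prov71.Dq_len, Prov71.Dq_s1, Prov71.Dq_s2, Real.rpow_one] at hs1' hs2' hl0 hlB ⊢
  have hz : Real.exp (s * p.z) ≤ X ^ (s * B1) := by
    rw [Real.rpow_def_of_pos hX0]
    refine Real.exp_le_exp.2 ?_
    have h3 : p.z ≤ B1 * Real.log X :=
      hlB.trans (mul_le_mul_of_nonneg_right hBB (Real.log_nonneg hX1.le))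
    nlinarith
  have hd0 : (0 : ℝ) ≤ nm p.d := Nat.cast_nonneg _
  have hbase : (nm p.d : ℝ) * nm k * (1 + |p.t|) ≤ X ^ (2 * B1 + 1) := by
    calc (nm p.d : ℝ) * nm k * (1 + |p.t|) ≤ X ^ B * X ^ B * X := by gcongr
      _ ≤ X ^ B1 * X ^ B1 * X ^ (1 : ℝ) := by
          rw [Real.rpow_one]
          have h4 : X ^ B ≤ X ^ B1 := Real.rpow_le_rpow_of_exponent_le hX1.le hBB
          gcongr
      _ = X ^ (2 * B1 + 1) := by
          rw [← Real.rpow_add hX0, ← Real.rpow_add hX0]; congr 1; ring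
  have hpow : ((nm p.d : ℝ) * nm k * (1 + |p.t|)) ^ s ≤ X ^ (s * (2 * B1 + 1)) := by
    refine (Real.rpow_le_rpow (by positivity) hbase hs0.le).trans (le_of_eq ?_)
    rw [← Real.rpow_mul hX0.le]; congr 1; ring
  have hH : H0⁻¹ ≤ 1 := inv_le_one_of_one_le₀ hH0
  have hexp : Real.exp ((θ + s) * p.z) = Real.exp (s * p.z) * Real.exp (θ * p.z) := by
    rw [← Real.exp_add]; congr 1; ring
  calc H0⁻¹ * ‖CS (pc h (p.pc P)) k‖ ≤ 1 * ‖CS (pc h (p.pc P)) k‖ := by gcongr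
    _ = ‖CS (pc h (p.pc P)) k‖ := one_mul _
    _ ≤ C * (((nm p.d : ℝ) * nm k * (1 + |p.t|)) ^ s * Real.exp ((θ + s) * p.z)) := h1
    _ ≤ X ^ (ε / 4) * (X ^ (s * (2 * B1 + 1)) * (X ^ (s * B1) * Real.exp (θ * p.z))) := by
        rw [hexp]
        have := hc X ((le_max_left _ _).trans hX)
        gcongr
    _ = X ^ (ε / 4 + (s * (2 * B1 + 1) + s * B1)) * Real.exp (θ * p.z) := by
        rw [Real.rpow_add hX0, Real.rpow_add hX0]; ring
    _ ≤ X ^ ε * Real.exp (θ * p.z) := by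
        refine mul_le_mul_of_nonneg_right (Real.rpow_le_rpow_of_exponent_le hX1.le ?_)
          (Real.exp_pos _).le
        nlinarith

/-- comparison of the two second moments -/
lemma RQ_cfq {P : DPar} {h : ℝ → ℝ} {H0 : ℝ} (hH0 : 0 < H0) (Q : Eis → Prop) (l : ℝ)
    (ps : List Pq) :
    Prov71.RQ Q h l (ps.map (Pq.pc P)) = (H0 ^ 2) ^ ps.length * RQ (cfq P h H0) Q l ps := by
  classical
  unfold Prov71.RQ RQ
  rw [Finset.mul_sum]
  refine Finset.sum_congr (by congr) fun k _ => ?_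
  induction ps with
  | nil => simp
  | cons p ps ih =>
    rw [List.map_cons, List.map_cons, List.prod_cons, List.map_cons, List.prod_cons, ih,
      norm_CS_cfq hH0, List.length_cons]
    have e : H0 * H0⁻¹ = 1 := mul_inv_cancel₀ hH0.ne'
    have e2 : (H0 * H0⁻¹) ^ 2 = 1 := by rw [e, one_pow]
    rw [pow_succ]
    calc ‖CS (pc h (p.pc P)) k‖ ^ 2 * ((H0 ^ 2) ^ ps.length *
          (ps.map fun p => ‖CS (cfq P h H0 p) k‖ ^ 2).prod)
        = (H0 * H0⁻¹) ^ 2 * (‖CS (pc h (p.pc P)) k‖ ^ 2 * ((H0 ^ 2) ^ ps.length *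
          (ps.map fun p => ‖CS (cfq P h H0 p) k‖ ^ 2).prod)) := by rw [e2, one_mul]
      _ = _ := by ring

/-- **the B-line for the provider** -/
theorem blb_298 {θ : ℝ} (hθ : 7 / 8 ≤ θ) (hθ1 : θ ≤ 1) (hPF : PF Set.univ θ) {h : ℝ → ℝ} {c₀ : ℝ}
    (hh : PU h c₀) {Lam : Type*} (π : Lam → DPar) (hP : ∀ lam, (π lam).OK) :
    BLB θ Dq (fun lam => Rp (π lam) h) where
  lb := by
    intro e κ u m a m₀ a₀ he hκ hok huκ hm0 hm1 ha0 ha1 h56 h1 h2
    obtain ⟨R, hR0, hR⟩ := FE47.exists_R (FE47.cs_cx hh.cs)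
    obtain ⟨H1, hH1⟩ := (FE47.cs_cx hh.cs).exists_bound_of_continuous
      (FE47.cd_cx hh.cd).continuous
    set H0 : ℝ := max 1 H1 with hH0d
    have hH01 : 1 ≤ H0 := le_max_left _ _
    have hH0 : 0 < H0 := by linarith
    have hH : ∀ u, ‖cx h u‖ ≤ H0 := fun u => (hH1 u).trans (le_max_right _ _)
    have hR0' : 0 ≤ R := by linarith
    have hI : ∀ lam : Lam, PI Dq (cfq (π lam) h H0) 0 R := fun lam =>
      PI_cfq (hP lam) hH0 hR0' hH hR
    have hS : ∀ lam : Lam, SupI Dq (cfq (π lam) h H0) (Qp (π lam)) θ := fun lam =>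
      SupI_cfq (by linarith) hθ1 hPF (hP lam) hh hH01 fun k hk => ⟨hk.1, hk.2.1⟩
    have hto : ∀ {u : List ℝ} {w : Kd → ℝ} {E : ℝ}, BG Dq (fun lam => Rp (π lam) h) κ u w E →
        BG Dq (fun lam => RQ (cfq (π lam) h H0) (Qp (π lam))) κ u w E := by
      intro u w E hB
      refine hB.comp fun lam l ps => ?_
      show _ ≤ Prov71.RQ _ h l (ps.map (Pq.pc (π lam)))
      rw [RQ_cfq hH0]
      exact le_mul_of_one_le_left (RQ_nonneg _ _ _ _) (one_le_pow₀ (one_le_pow₀ hH01))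
    have hfrom : ∀ {u : List ℝ} {w : Kd → ℝ} {E : ℝ},
        BG Dq (fun lam => RQ (cfq (π lam) h H0) (Qp (π lam))) κ u w E →
        BG Dq (fun lam => Rp (π lam) h) κ u w E := by
      intro u w E hB
      refine BG_scale (C0 := H0 ^ 2) (one_le_pow₀ hH01) (fun lam l ps => ?_)
        (fun lam l ps => RQ_nonneg _ _ _ _) hB
      exact (RQ_cfq hH0 _ _ _).le
    have hsum : ∀ x y : ℝ, ∑ t : Kd, wt x y t = x + y := by
      intro x y
      show ∑ t ∈ ({Kd.mo, Kd.am} : Finset Kd), wt x y t = x + y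
      rw [Finset.sum_pair (by decide)]
      rfl
    have hU : 0 ≤ u.sum := List.sum_nonneg hok.1
    have hmain := BG_lb LV164.lvProp hI hS (fun lam k hk => hk.2) hθ hθ1 (κ := κ) (u := u)
      (w := wt m a) (w0 := wt m₀ a₀) (e0 := κ + (u.sum + m₀ + a₀) + e) (b := 0) hκ hok.1
      (Prov71.wt_nonneg hm0 ha0) (fun t => by cases t <;> assumption) le_rfl (hto h1)
      (fun h3 => by
        have h4 := hto (h2 h3)
        have e1 : wt 0 0 = fun _ => (0 : ℝ) := by funext t; cases t <;> rfl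
        rw [e1] at h4
        rw [add_zero]
        exact h4)
    refine hfrom (hmain.mono ?_)
    rw [hsum, hsum, zero_add]
    refine max_le ?_ (max_le ?_ ?_)
    · refine le_max_of_le_left ?_
      linarith
    · refine le_max_of_le_left ?_
      linarith
    · refine le_max_of_le_right ?_
      linarith

end Crest.Agent.R017.Lbc298
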