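import Crest.Agent.R017.XLv2_702
import Crest.Agent.R017.XHB2_411

/-!
# Row 17: from an analytic counting bound to a weak type input `WG` (helper702)
-/

set_option autoImplicit false
set_option linter.unusedSectionVars false

noncomputable section

open Set Filter Topology

namespace Crest.Agent.R017.XLvB702

open Crest.Agent.R017.XG702 Crest.Agent.R017.XHB411

variable {Pc τ ι Lam : Type*} [DecidableEq τ]

/-- size data of a list near a configuration -/
lemma size_data [Fintype τ] {D : Pcs Pc τ} {X δ κ k : ℝ} {u : List ℝ} {w : τ → ℝ} {N : ℕ}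
    {us gs : List Pc} (hk : |k - κ| ≤ δ) (hus : D.Near X δ us u)
    (hgs : D.Gran X δ N gs w) :
    |((us ++ gs).map (D.nl X)).sum - (u.sum + ∑ t, w t)| ≤ (u.length + Fintype.card τ) * δ := by
  have e1 : ((us ++ gs).map (D.nl X)).sum = (us.map (D.nl X)).sum + ∑ t, D.mass X gs t := by
    rw [List.map_append, List.sum_append, sum_nl_eq_mass D X gs]
  have h2 := near_sum hus
  have h3 : |∑ t, D.mass X gs t - ∑ t, w t| ≤ Fintype.card τ * δ := by
    rw [← Finset.sum_sub_distrib]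
    refine (Finset.abs_sum_le_sum_abs _ _).trans ?_
    refine (Finset.sum_le_sum fun t _ => hgs.2.2 t).trans ?_
    rw [Finset.sum_const, nsmul_eq_mul, Finset.card_univ]
  rw [e1]
  rw [abs_le] at h2 h3 ⊢
  constructor <;> nlinarith [h2.1, h2.2, h3.1, h3.2]

/-- **from an analytic counting bound to a weak type input** -/
theorem WG_of_bound [Fintype τ] {D : Pcs Pc τ} {S : Lam → ℝ → Finset ι} {v : Lam → Pc → ι → ℝ}
    (A E : ℝ → ℝ → ℝ)
    (hA : ∀ l l' L L' : ℝ, A l' L' ≤ A l L + 3 * (|l' - l| + |L' - L|))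
    (hAh : ∀ c l L : ℝ, 0 < c → A (c * l) (c * L) = c * A l L)
    (hE : ∀ l l' L L' : ℝ, E l' L' ≤ E l L + 3 * (|l' - l| + |L' - L|))
    (hEh : ∀ c l L : ℝ, 0 < c → E (c * l) (c * L) = c * E l L)
    (hΨ : ∀ (lam : Lam) (n : ℕ) (ε : ℝ), 0 < ε → ∃ C : ℝ, 1 ≤ C ∧ ∀ (l : ℝ) (ps : List Pc), 0 ≤ l →
      ps.length ≤ n → (∀ p ∈ ps, 0 ≤ D.len p) → ∀ (T : Finset ι) (V : ℝ), T ⊆ S lam l →
      C * Real.exp (ε * (l + tl D ps)) * Real.exp (A l (tl D ps)) ≤ V →
      (∀ i ∈ T, V ≤ pvl (v lam) ps i ^ 2) →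
      (T.card : ℝ) * V ≤ C * Real.exp (ε * (l + tl D ps)) * Real.exp (E l (tl D ps)))
    (hneg : ∀ (lam : Lam) (l : ℝ), l < 0 → S lam l = ∅)
    (κ : ℝ) (u : List ℝ) (w : τ → ℝ) :
    WG D S v κ u w (A κ (u.sum + ∑ t, w t)) (E κ (u.sum + ∑ t, w t)) := by
  intro ε hε
  set n₀ : ℝ := u.length + Fintype.card τ with hn₀
  have hn₀0 : 0 ≤ n₀ := by positivity
  set G : ℝ := u.sum + ∑ t, w t with hG
  set δ : ℝ := min 1 (ε / (12 * (1 + n₀))) with hδ
  have hδ0 : 0 < δ := lt_min one_pos (by positivity)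
  have hδ1 : δ ≤ 1 := min_le_left _ _
  have hδ2 : 3 * (δ + n₀ * δ) ≤ ε / 4 := by
    have h1 : δ ≤ ε / (12 * (1 + n₀)) := min_le_right _ _
    rw [le_div_iff₀ (by positivity)] at h1
    linarith
  refine ⟨δ, hδ0, fun lmd N B => ?_⟩
  set Q : ℝ := |κ| + |G| + 2 + n₀ with hQ
  have hQ0 : 0 < Q := by positivity
  obtain ⟨C, hC, hb⟩ := hΨ lmd (u.length + N) (ε / (4 * Q)) (by positivity)
  refine ⟨1, one_pos, C ^ (4 / ε) + 2, by
    have : 0 ≤ C ^ (4 / ε) := by positivity
    linarith, ?_⟩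
  intro X hX k us gs hk hus hgs hgood T V hT hV hTV
  have hC0 : 0 ≤ C ^ (4 / ε) := by positivity
  have hX1 : 1 < X := by linarith
  have hX0 : 0 < X := by linarith
  have hl : 0 < Real.log X := Real.log_pos hX1
  by_cases hkn : k < 0
  · rw [hneg _ _ (mul_neg_of_neg_of_pos hkn hl)] at hT
    rw [Finset.subset_empty.1 hT]
    simp only [Finset.card_empty, Nat.cast_zero, zero_mul]
    positivity
  push Not at hkn
  have hlen : (us ++ gs).length ≤ u.length + N := by
    rw [List.length_append, XG702.Near_length hus]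
    have := hgs.1
    omega
  have h1 := hb (k * Real.log X) (us ++ gs) (by positivity) hlen (fun p hp => (hgood p hp).2.2)
    T V hT
  set lam : ℝ := ((us ++ gs).map (D.nl X)).sum with hlam
  have htl : tl D (us ++ gs) = lam * Real.log X := tl_eq hX1 _
  have hlamS : |lam - G| ≤ n₀ * δ := size_data hk hus hgs
  rw [htl] at h1
  have hbd : ∀ F : ℝ → ℝ → ℝ, (∀ l l' L L' : ℝ, F l' L' ≤ F l L + 3 * (|l' - l| + |L' - L|)) →
      (∀ c l L : ℝ, 0 < c → F (c * l) (c * L) = c * F l L) →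
      F (k * Real.log X) (lam * Real.log X) ≤ (F κ G + ε / 4) * Real.log X := by
    intro F hF hFh
    have h2 : F (k * Real.log X) (lam * Real.log X) = Real.log X * F k lam := by
      rw [mul_comm k, mul_comm lam]
      exact hFh _ _ _ hl
    have h3 := hF κ k G lam
    have h4 : 3 * (|k - κ| + |lam - G|) ≤ ε / 4 := by
      refine le_trans ?_ hδ2
      linarith
    rw [h2, mul_comm]
    exact mul_le_mul_of_nonneg_right (by linarith) hl.le
  have hE2 : ε / (4 * Q) * (k * Real.log X + lam * Real.log X) ≤ ε / 4 * Real.log X := by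
    have h2 : k + lam ≤ Q := by
      have h3 := (abs_le.1 hk).2
      have h4 := (abs_le.1 hlamS).2
      have h5 := le_abs_self κ
      have h6 := le_abs_self G
      have h7 : n₀ * δ ≤ n₀ := by nlinarith
      rw [hQ]; linarith
    calc ε / (4 * Q) * (k * Real.log X + lam * Real.log X)
        = ε / (4 * Q) * (k + lam) * Real.log X := by ring
      _ ≤ ε / (4 * Q) * Q * Real.log X := by gcongr
      _ = ε / 4 * Real.log X := by
          have : ε / (4 * Q) * Q = ε / 4 := by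
            rw [div_mul_eq_mul_div, mul_div_mul_right _ _ hQ0.ne']
          rw [this]
  have hCX : C ≤ X ^ (ε / 4) := by
    have h2 : C ^ (4 / ε) ≤ X := by linarith
    have h3 : (C ^ (4 / ε)) ^ (ε / 4) ≤ X ^ (ε / 4) :=
      Real.rpow_le_rpow hC0 h2 (by positivity)
    rw [← Real.rpow_mul (by linarith)] at h3
    have : 4 / ε * (ε / 4) = 1 := by field_simp
    rwa [this, Real.rpow_one] at h3
  have hfin : ∀ F : ℝ → ℝ → ℝ, (∀ l l' L L' : ℝ, F l' L' ≤ F l L + 3 * (|l' - l| + |L' - L|)) →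
      (∀ c l L : ℝ, 0 < c → F (c * l) (c * L) = c * F l L) →
      C * Real.exp (ε / (4 * Q) * (k * Real.log X + lam * Real.log X)) *
        Real.exp (F (k * Real.log X) (lam * Real.log X)) ≤ X ^ (F κ G + ε) := by
    intro F hF hFh
    have hE1 := hbd F hF hFh
    calc C * Real.exp (ε / (4 * Q) * (k * Real.log X + lam * Real.log X)) *
          Real.exp (F (k * Real.log X) (lam * Real.log X))
        ≤ X ^ (ε / 4) * Real.exp (ε / 4 * Real.log X) *
          Real.exp ((F κ G + ε / 4) * Real.log X) := by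
          gcongr
      _ = X ^ (ε / 4) * X ^ (ε / 4) * X ^ (F κ G + ε / 4) := by
          congr 1
          · congr 1
            rw [Real.rpow_def_of_pos hX0, mul_comm]
          · rw [Real.rpow_def_of_pos hX0, mul_comm]
      _ = X ^ (ε / 4 + ε / 4 + (F κ G + ε / 4)) := by
          rw [Real.rpow_add hX0 (ε / 4 + ε / 4), Real.rpow_add hX0 (ε / 4) (ε / 4)]
      _ ≤ X ^ (F κ G + ε) := Real.rpow_le_rpow_of_exponent_le hX1.le (by linarith)
  exact (h1 ((hfin A hA hAh).trans hV) hTV).trans (hfin E hE hEh)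

/-! ### the exponents -/

/-- threshold of (LV) -/
def tLV (l L : ℝ) : ℝ := 2 / 3 * max L (4 / 3 * l) + L

/-- exponent of (LV) -/
def eLV (l L : ℝ) : ℝ := max L (4 / 3 * l) + L

/-- threshold of (LV') -/
def tLV' (θ l L : ℝ) : ℝ := (2 - θ) * L + (2 * θ - 1) * l

/-- exponent of (LV') -/
def eLV' (_l L : ℝ) : ℝ := 2 * L

lemma max_lip (l l' L L' : ℝ) : max L' (4 / 3 * l') ≤ max L (4 / 3 * l) +
    4 / 3 * (|l' - l| + |L' - L|) := by
  have h1 := le_abs_self (l' - l)
  have h2 := le_abs_self (L' - L)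
  have h3 := abs_nonneg (l' - l)
  have h4 := abs_nonneg (L' - L)
  have m1 := le_max_left L (4 / 3 * l)
  have m2 := le_max_right L (4 / 3 * l)
  refine max_le ?_ ?_ <;> linarith

lemma tLV_lip (l l' L L' : ℝ) : tLV l' L' ≤ tLV l L + 3 * (|l' - l| + |L' - L|) := by
  have h1 := max_lip l l' L L'
  have h2 := le_abs_self (L' - L)
  have h3 := abs_nonneg (l' - l)
  have h4 := abs_nonneg (L' - L)
  unfold tLV
  linarith

lemma eLV_lip (l l' L L' : ℝ) : eLV l' L' ≤ eLV l L + 3 * (|l' - l| + |L' - L|) := by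
  have h1 := max_lip l l' L L'
  have h2 := le_abs_self (L' - L)
  have h3 := abs_nonneg (l' - l)
  have h4 := abs_nonneg (L' - L)
  unfold eLV
  linarith

lemma tLV'_lip {θ : ℝ} (hθ : 0 ≤ θ) (hθ1 : θ ≤ 1) (l l' L L' : ℝ) :
    tLV' θ l' L' ≤ tLV' θ l L + 3 * (|l' - l| + |L' - L|) := by
  have h1 := le_abs_self (l' - l)
  have h1' := neg_abs_le (l' - l)
  have h2 := le_abs_self (L' - L)
  have h2' := neg_abs_le (L' - L)
  have h3 := abs_nonneg (l' - l)
  have h4 := abs_nonneg (L' - L)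
  unfold tLV'
  have e1 : (2 - θ) * (L' - L) ≤ 2 * |L' - L| := by
    calc (2 - θ) * (L' - L) ≤ (2 - θ) * |L' - L| := mul_le_mul_of_nonneg_left h2 (by linarith)
      _ ≤ 2 * |L' - L| := mul_le_mul_of_nonneg_right (by linarith) h4
  have e2 : (2 * θ - 1) * (l' - l) ≤ 1 * |l' - l| := by
    have : |(2 * θ - 1) * (l' - l)| ≤ 1 * |l' - l| := by
      rw [abs_mul]
      exact mul_le_mul_of_nonneg_right (abs_le.2 ⟨by linarith, by linarith⟩) h3
    exact (le_abs_self _).trans this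
  nlinarith

lemma eLV'_lip (l l' L L' : ℝ) : eLV' l' L' ≤ eLV' l L + 3 * (|l' - l| + |L' - L|) := by
  have h2 := le_abs_self (L' - L)
  have h3 := abs_nonneg (l' - l)
  have h4 := abs_nonneg (L' - L)
  unfold eLV'
  linarith

lemma max_hom (c l L : ℝ) (hc : 0 < c) : max (c * L) (4 / 3 * (c * l)) = c * max L (4 / 3 * l) := by
  rw [mul_max_of_nonneg _ _ hc.le]
  congr 1
  ring

lemma tLV_hom (c l L : ℝ) (hc : 0 < c) : tLV (c * l) (c * L) = c * tLV l L := by
  unfold tLV; rw [max_hom c l L hc]; ring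

lemma eLV_hom (c l L : ℝ) (hc : 0 < c) : eLV (c * l) (c * L) = c * eLV l L := by
  unfold eLV; rw [max_hom c l L hc]; ring

lemma tLV'_hom (θ c l L : ℝ) (_hc : 0 < c) : tLV' θ (c * l) (c * L) = c * tLV' θ l L := by
  unfold tLV'; ring

lemma eLV'_hom (c l L : ℝ) (_hc : 0 < c) : eLV' (c * l) (c * L) = c * eLV' l L := by
  unfold eLV'; ring

end Crest.Agent.R017.XLvB702
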