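import Crest.Agent.R017.XLvA_702
import Crest.Agent.R017.XLvB_702
import Crest.Agent.R017.ProvB_71
import Crest.Agent.R017.SupI_271

/-!
# Row 17, provider: the level rule for the literal instance (helper702)

* `wg_LV`, `wg_LV'` : (LV), (LV') for lists of typed pieces, cube-free `k`
* `blv_702 : BLv θ Dq (fun lam => Rp (π lam) h)`
-/

set_option autoImplicit false

noncomputable section

open Complex Finset
open scoped ComplexConjugate

namespace Crest.Agent.R017.XLvC702

open Crest.Agent.R012 Crest.Agent.R012.Eis Crest.Agent.R012.LS2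
open Crest.Agent.R017.CM106 Crest.Agent.R017.End699
open Crest.Agent.R017.Lbc298 (Cf)
open Crest.Agent.R017.XHB411
open Crest.Agent.R017.XG702 (Pcs BG WG SupG FF pvl rep Pt lvF smF lenF level)
open Crest.Agent.R017.B770 Crest.Agent.R017.Prov71
open Crest.Agent.R017.HP842 (UT Pc pc)
open Crest.Agent.R017.XLvA702 Crest.Agent.R017.XLvB702
open Crest.Agent.R017.ER911 (LVok)
open Crest.Agent.R012.CR2 (card_bl_le)
open Crest.Agent.R017.FE47 (cx)

/-- normalisation of a list -/
theorem nrm {h : ℝ → ℝ} {c : ℝ} (hpu : FE47.PU h c) (n : ℕ) : ∃ c₁ : ℝ, 0 ≤ c₁ ∧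
    ∀ ps : List HP842.Pc, ps.length ≤ n → (∀ p ∈ ps, p.OK) →
      ∃ (α : Eis → ℂ) (s : ℝ), Cf n (Real.exp (c₁ + LL ps)) α ∧ 1 ≤ s ∧ s ≤ Real.exp c₁ ∧
        ∀ k, ((ps.map fun p => ‖CS (pc h p) k‖).prod) ^ 2 = s * ‖CS α k‖ ^ 2 := by
  obtain ⟨R, hR0, hR⟩ := FE47.exists_R (FE47.cs_cx hpu.cs)
  obtain ⟨H1, hH1⟩ := (FE47.cs_cx hpu.cs).exists_bound_of_continuous (FE47.cd_cx hpu.cd).continuous
  set H0 : ℝ := max 1 H1 with hH0d
  have hH01 : 1 ≤ H0 := le_max_left _ _
  have hH0 : 0 < H0 := by linarith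
  have hH : ∀ u, ‖cx h u‖ ≤ H0 := fun u => (hH1 u).trans (le_max_right _ _)
  have hlogH : 0 ≤ Real.log H0 := Real.log_nonneg hH01
  have hRn : 0 ≤ R * n := by positivity
  refine ⟨R * n + 2 * (n * Real.log H0), by positivity, fun ps hlen hok => ?_⟩
  set m : ℕ := ps.length with hm
  have hmn : (m : ℝ) ≤ n := by exact_mod_cast hlen
  have hcls := Cf_alL0 hH0 hH hR ps hok
  have hRm : R * m ≤ R * n := by gcongr
  have hml : 0 ≤ 2 * (n * Real.log H0) := by positivity
  refine ⟨(fun x => (((H0⁻¹ : ℝ) : ℂ) ^ m) * alL0 h ps x), (H0 ^ m) ^ 2,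
    hcls.mono hlen (Real.exp_le_exp.2 (by linarith)), one_le_pow₀ (one_le_pow₀ hH01), ?_, ?_⟩
  · have e1 : (H0 ^ m) ^ 2 = Real.exp (2 * (m * Real.log H0)) := by
      rw [← Real.exp_log hH0, ← Real.exp_nat_mul, ← Real.exp_nat_mul, Real.exp_log hH0]
      push_cast
      ring_nf
    rw [e1]
    refine Real.exp_le_exp.2 ?_
    have : (m : ℝ) * Real.log H0 ≤ n * Real.log H0 := by gcongr
    linarith
  · intro k
    have h9 : H0 ^ m * H0⁻¹ ^ m = 1 := by
      rw [← mul_pow, mul_inv_cancel₀ hH0.ne', one_pow]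
    have e2 : (ps.map fun p => ‖CS (pc h p) k‖).prod = ‖CS (alL0 h ps) k‖ := by
      rw [CS_alL0 hR k ps hok]
      clear hcls
      induction ps with
      | nil => simp
      | cons p ps ih =>
        rw [List.map_cons, List.prod_cons, List.map_cons, List.prod_cons, norm_mul]
        congr 1
        have : ∀ qs : List HP842.Pc, (qs.map fun p => ‖CS (pc h p) k‖).prod =
            ‖(qs.map fun p => CS (pc h p) k).prod‖ := by
          intro qs
          induction qs with
          | nil => simp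
          | cons q qs ih => rw [List.map_cons, List.prod_cons, List.map_cons, List.prod_cons,
              norm_mul, ih]
        exact this ps
    rw [e2, TPD813.CS_smul, norm_mul, norm_pow, Complex.norm_real,
      Real.norm_of_nonneg (by positivity), ← mul_pow, ← mul_assoc, h9, one_mul]

open Classical in
/-- the family of the provider -/
def Sq {Lam : Type*} (π : Lam → DPar) (lam : Lam) (l : ℝ) : Finset Eis :=
  (bl (Real.exp l)).filter (Qp (π lam))

/-- the values of the provider -/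
def vq {Lam : Type*} (π : Lam → DPar) (h : ℝ → ℝ) (lam : Lam) (p : Pq) (k : Eis) : ℝ :=
  ‖CS (pc h (p.pc (π lam))) k‖

variable {Lam : Type*} {π : Lam → DPar} {h : ℝ → ℝ}

lemma vq_nonneg (lam : Lam) (p : Pq) (k : Eis) : 0 ≤ vq π h lam p k := norm_nonneg _

lemma pvl_vq (lam : Lam) (ps : List Pq) (k : Eis) :
    pvl (vq π h lam) ps k = ((ps.map (Pq.pc (π lam))).map fun p => ‖CS (pc h p) k‖).prod := by
  unfold XG702.pvl vq
  rw [List.map_map]
  rfl

lemma FF_eq (lam : Lam) (l : ℝ) (ps : List Pq) :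
    FF (Sq π lam) (vq π h lam) 2 l ps = Rp (π lam) h l ps := by
  classical
  unfold XG702.FF Rp RQ Sq
  refine Finset.sum_congr rfl fun k _ => ?_
  rw [pvl_vq]
  generalize ps.map (Pq.pc (π lam)) = qs
  induction qs with
  | nil => simp
  | cons q qs ih => rw [List.map_cons, List.prod_cons, List.map_cons, List.prod_cons, mul_pow, ih]

lemma Sq_neg (lam : Lam) {l : ℝ} (hl : l < 0) : Sq π lam l = ∅ := by
  unfold Sq
  rw [bl_neg hl, Finset.filter_empty]

lemma Sq_sub (lam : Lam) (l : ℝ) : Sq π lam l ⊆ bl (Real.exp l) := by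
  classical
  exact Finset.filter_subset _ _

lemma Sq_cf {lam : Lam} {l : ℝ} {k : Eis} (hk : k ∈ Sq π lam l) : CubeFree k := by
  classical
  exact (Finset.mem_filter.1 hk).2.2

lemma card_Sq (lam : Lam) (l : ℝ) : ((Sq π lam l).card : ℝ) ≤ 16 * Real.exp (max l 0) := by
  calc ((Sq π lam l).card : ℝ) ≤ ((bl (Real.exp l)).card : ℝ) := by
        exact_mod_cast Finset.card_le_card (Sq_sub lam l)
    _ ≤ 16 * Real.exp l := card_bl_le (Real.exp_pos _).le
    _ ≤ 16 * Real.exp (max l 0) := by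
        gcongr
        exact le_max_left _ _

lemma exp4 (ε c : ℝ) : Real.exp (ε * c) * Real.exp c * Real.exp c * Real.exp c =
    Real.exp ((ε + 3) * c) := by
  rw [← Real.exp_add, ← Real.exp_add, ← Real.exp_add]
  congr 1; ring

/-- **(LV)** -/
theorem wg_LV {θ : ℝ} (hθ : 1 / 2 < θ) (hθ1 : θ ≤ 1) (hPF : PF Set.univ θ)
    {c : ℝ} (hpu : FE47.PU h c) (hP : ∀ lam, (π lam).OK) (κ : ℝ) (u : List ℝ) (w : Kd → ℝ) :
    WG Dq (Sq π) (vq π h) κ u w (tLV κ (u.sum + ∑ t, w t)) (eLV κ (u.sum + ∑ t, w t)) := by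
  refine WG_of_bound tLV eLV tLV_lip tLV_hom eLV_lip eLV_hom ?_ (fun lam l hl => Sq_neg lam hl)
    κ u w
  intro lam n ε hε
  obtain ⟨c₁, hc₁, hn⟩ := nrm hpu n
  set η : ℝ := min (1 / 10) (ε / 4) with hη
  have hη0 : 0 < η := by positivity
  have hη1 : η ≤ 1 / 10 := min_le_left _ _
  have hη2 : 4 * η ≤ ε := by have := min_le_right (1 / 10 : ℝ) (ε / 4); linarith
  obtain ⟨C0, hC0, hlv⟩ := lvA hθ hθ1 hPF hη0 hη1 n
  have hc4 : 1 ≤ Real.exp ((ε + 4) * c₁) := Real.one_le_exp (by positivity)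
  refine ⟨C0 * Real.exp ((ε + 4) * c₁), one_le_mul_of_one_le_of_one_le hC0 hc4, ?_⟩
  intro l ps hl hlen hz T V hT hV hTV
  obtain ⟨α, s, hα, hs1, hs2, hval⟩ := hn (ps.map (Pq.pc (π lam)))
    (by rw [List.length_map]; exact hlen) (ok_map (hP lam) ps)
  rw [LL_pc] at hα
  set L := tl Dq ps with hL
  have hL0 : 0 ≤ L := by
    have := LL_nonneg (one_le_map (P := π lam) hz)
    rwa [LL_pc] at this
  have hs0 : 0 < s := by linarith
  set K := Real.exp l with hK
  set W := Real.exp (c₁ + L) with hW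
  have hK1 : 1 ≤ K := Real.one_le_exp hl
  have hW1 : 1 ≤ W := Real.one_le_exp (by linarith)
  have hKW : (K * W) ^ (4 * η) ≤ Real.exp (ε * c₁) * Real.exp (ε * (l + L)) := by
    rw [hK, hW, ← Real.exp_add, ← Real.exp_mul, ← Real.exp_add]
    refine Real.exp_le_exp.2 ?_
    have h1 : 0 ≤ l + (c₁ + L) := by linarith
    nlinarith
  have hmax : max W (K ^ ((4 : ℝ) / 3)) ≤ Real.exp (c₁ + max L (4 / 3 * l)) := by
    refine max_le ?_ ?_
    · exact Real.exp_le_exp.2 (by have := le_max_left L (4 / 3 * l); linarith)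
    · rw [hK, ← Real.exp_mul]
      exact Real.exp_le_exp.2 (by have := le_max_right L (4 / 3 * l); linarith)
  have hmax0 : 0 < max W (K ^ ((4 : ℝ) / 3)) := lt_of_lt_of_le (by linarith) (le_max_left _ _)
  have hmax23 : (max W (K ^ ((4 : ℝ) / 3))) ^ ((2 : ℝ) / 3) ≤
      Real.exp (c₁ + 2 / 3 * max L (4 / 3 * l)) := by
    refine (Real.rpow_le_rpow hmax0.le hmax (by norm_num)).trans ?_
    rw [← Real.exp_mul]
    refine Real.exp_le_exp.2 ?_
    nlinarith
  have hres := hlv K W α hK1 hW1 hα T (hT.trans (Sq_sub lam l)) (fun k hk => Sq_cf (hT hk))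
    (V / s) ?_ ?_
  · rw [mul_div_assoc', div_le_iff₀ hs0] at hres
    refine hres.trans ?_
    calc C0 * (K * W) ^ (4 * η) * max W (K ^ ((4 : ℝ) / 3)) * W * s
        ≤ C0 * (Real.exp (ε * c₁) * Real.exp (ε * (l + L))) * Real.exp (c₁ + max L (4 / 3 * l)) *
          W * Real.exp c₁ := by gcongr
      _ = C0 * (Real.exp (ε * c₁) * Real.exp (c₁) * Real.exp c₁ * Real.exp c₁) *
          Real.exp (ε * (l + L)) * (Real.exp (max L (4 / 3 * l)) * Real.exp L) := by
          rw [hW, Real.exp_add c₁ L, Real.exp_add c₁ (max L (4 / 3 * l))]; ring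
      _ = C0 * Real.exp ((ε + 3) * c₁) * Real.exp (ε * (l + L)) * Real.exp (eLV l L) := by
          rw [exp4, ← Real.exp_add]
          rfl
      _ ≤ _ := by
          have : Real.exp ((ε + 3) * c₁) ≤ Real.exp ((ε + 4) * c₁) :=
            Real.exp_le_exp.2 (by nlinarith)
          gcongr
  · rw [le_div_iff₀ hs0]
    refine le_trans ?_ hV
    calc C0 * (K * W) ^ (4 * η) * (max W (K ^ ((4 : ℝ) / 3))) ^ ((2 : ℝ) / 3) * W * s
        ≤ C0 * (Real.exp (ε * c₁) * Real.exp (ε * (l + L))) *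
          Real.exp (c₁ + 2 / 3 * max L (4 / 3 * l)) * W * Real.exp c₁ := by gcongr
      _ = C0 * (Real.exp (ε * c₁) * Real.exp (c₁) * Real.exp c₁ * Real.exp c₁) *
          Real.exp (ε * (l + L)) * (Real.exp (2 / 3 * max L (4 / 3 * l)) * Real.exp L) := by
          rw [hW, Real.exp_add c₁ L, Real.exp_add c₁ (2 / 3 * max L (4 / 3 * l))]; ring
      _ = C0 * Real.exp ((ε + 3) * c₁) * Real.exp (ε * (l + L)) * Real.exp (tLV l L) := by
          rw [exp4, ← Real.exp_add]
          rfl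
      _ ≤ _ := by
          have : Real.exp ((ε + 3) * c₁) ≤ Real.exp ((ε + 4) * c₁) :=
            Real.exp_le_exp.2 (by nlinarith)
          gcongr
  · intro k hk
    rw [div_le_iff₀ hs0, mul_comm, ← hval k, ← pvl_vq]
    exact hTV k hk

/-- **(LV')** -/
theorem wg_LV' {θ : ℝ} (hθ : 1 / 2 < θ) (hθ1 : θ ≤ 1) (hPF : PF Set.univ θ)
    {c : ℝ} (hpu : FE47.PU h c) (hP : ∀ lam, (π lam).OK) (κ : ℝ) (u : List ℝ) (w : Kd → ℝ) :
    WG Dq (Sq π) (vq π h) κ u w (tLV' θ κ (u.sum + ∑ t, w t)) (eLV' κ (u.sum + ∑ t, w t)) := by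
  refine WG_of_bound (tLV' θ) eLV' (tLV'_lip (by linarith) hθ1) (tLV'_hom θ) eLV'_lip eLV'_hom ?_
    (fun lam l hl => Sq_neg lam hl) κ u w
  intro lam n ε hε
  obtain ⟨c₁, hc₁, hn⟩ := nrm hpu n
  obtain ⟨C0, hC0, hlv⟩ := lvB hθ hθ1 hPF hε n
  have hc4 : 1 ≤ Real.exp ((ε + 4) * c₁) := Real.one_le_exp (by positivity)
  refine ⟨C0 * Real.exp ((ε + 4) * c₁), one_le_mul_of_one_le_of_one_le hC0 hc4, ?_⟩
  intro l ps hl hlen hz T V hT hV hTV
  obtain ⟨α, s, hα, hs1, hs2, hval⟩ := hn (ps.map (Pq.pc (π lam)))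
    (by rw [List.length_map]; exact hlen) (ok_map (hP lam) ps)
  rw [LL_pc] at hα
  set L := tl Dq ps with hL
  have hL0 : 0 ≤ L := by
    have := LL_nonneg (one_le_map (P := π lam) hz)
    rwa [LL_pc] at this
  have hs0 : 0 < s := by linarith
  set K := Real.exp l with hK
  set W := Real.exp (c₁ + L) with hW
  have hK1 : 1 ≤ K := Real.one_le_exp hl
  have hW1 : 1 ≤ W := Real.one_le_exp (by linarith)
  have hKW : (K * W) ^ ε = Real.exp (ε * c₁) * Real.exp (ε * (l + L)) := by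
    rw [hK, hW, ← Real.exp_add, ← Real.exp_mul, ← Real.exp_add]
    congr 1; ring
  have hth : W ^ (1 - θ) * K ^ (2 * θ - 1) ≤
      Real.exp c₁ * Real.exp ((1 - θ) * L + (2 * θ - 1) * l) := by
    rw [hK, hW, ← Real.exp_mul, ← Real.exp_mul, ← Real.exp_add, ← Real.exp_add]
    refine Real.exp_le_exp.2 ?_
    have : (1 - θ) * c₁ ≤ 1 * c₁ := mul_le_mul_of_nonneg_right (by linarith) hc₁
    nlinarith
  have hres := hlv K W α hK1 hW1 hα T (hT.trans (Sq_sub lam l)) (fun k hk => Sq_cf (hT hk))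
    (V / s) ?_ ?_
  · rw [mul_div_assoc', div_le_iff₀ hs0] at hres
    refine hres.trans ?_
    calc C0 * (K * W) ^ ε * W * W * s
        ≤ C0 * (Real.exp (ε * c₁) * Real.exp (ε * (l + L))) * W * W * Real.exp c₁ := by
          rw [hKW]; gcongr
      _ = C0 * (Real.exp (ε * c₁) * Real.exp (c₁) * Real.exp c₁ * Real.exp c₁) *
          Real.exp (ε * (l + L)) * (Real.exp L * Real.exp L) := by
          rw [hW, Real.exp_add c₁ L]; ring
      _ = C0 * Real.exp ((ε + 3) * c₁) * Real.exp (ε * (l + L)) * Real.exp (eLV' l L) := by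
          rw [exp4, ← Real.exp_add]
          unfold eLV'
          congr 2
          ring
      _ ≤ _ := by
          have : Real.exp ((ε + 3) * c₁) ≤ Real.exp ((ε + 4) * c₁) :=
            Real.exp_le_exp.2 (by nlinarith)
          gcongr
  · rw [le_div_iff₀ hs0]
    refine le_trans ?_ hV
    calc C0 * (K * W) ^ ε * (W ^ (1 - θ) * K ^ (2 * θ - 1)) * W * s
        ≤ C0 * (Real.exp (ε * c₁) * Real.exp (ε * (l + L))) *
          (Real.exp c₁ * Real.exp ((1 - θ) * L + (2 * θ - 1) * l)) * W * Real.exp c₁ := by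
          rw [hKW]; gcongr
      _ = C0 * (Real.exp (ε * c₁) * Real.exp (c₁) * Real.exp c₁ * Real.exp c₁) *
          Real.exp (ε * (l + L)) * (Real.exp ((1 - θ) * L + (2 * θ - 1) * l) * Real.exp L) := by
          rw [hW, Real.exp_add c₁ L]; ring
      _ = C0 * Real.exp ((ε + 3) * c₁) * Real.exp (ε * (l + L)) * Real.exp (tLV' θ l L) := by
          rw [exp4, ← Real.exp_add]
          unfold tLV'
          congr 2
          ring
      _ ≤ _ := by
          have : Real.exp ((ε + 3) * c₁) ≤ Real.exp ((ε + 4) * c₁) :=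
            Real.exp_le_exp.2 (by nlinarith)
          gcongr
  · intro k hk
    rw [div_le_iff₀ hs0, mul_comm, ← hval k, ← pvl_vq]
    exact hTV k hk

/-- **pointwise bound** -/
theorem supG_q {θ : ℝ} (hθ : 1 / 2 < θ) (hθ1 : θ ≤ 1) (hPF : PF Set.univ θ)
    {c : ℝ} (hpu : FE47.PU h c) (hP : ∀ lam, (π lam).OK) : SupG Dq (Sq π) (vq π h) θ := by
  classical
  intro ε hε lam B
  set B' : ℝ := max B 0 with hB'
  have hB0 : 0 ≤ B' := le_max_right _ _
  have hBB : B ≤ B' := le_max_left _ _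
  set e : ℝ := min 1 (ε / (2 * (3 * B' + 2))) with he
  have he0 : 0 < e := by positivity
  have he1 : e ≤ 1 := min_le_left _ _
  have he2 : e * (3 * B' + 2) ≤ ε / 2 := by
    have h1 : e ≤ ε / (2 * (3 * B' + 2)) := min_le_right _ _
    rw [le_div_iff₀ (by positivity)] at h1
    linarith
  obtain ⟨C, hC1, hC⟩ := SupI271.sup_pq hθ hθ1 hPF he0 he1 hpu.cd hpu.cs (hP lam)
  obtain ⟨X₀, hX₀, hX₀'⟩ : ∃ X₀ : ℝ, 1 < X₀ ∧ ∀ X, X₀ ≤ X → C ≤ X ^ (ε / 2) := by
    have ht := tendsto_rpow_atTop (half_pos hε)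
    obtain ⟨Y, hY⟩ := Filter.eventually_atTop.1 (ht.eventually_ge_atTop C)
    exact ⟨max Y 2, lt_of_lt_of_le (by norm_num) (le_max_right _ _),
      fun X hX => hY X ((le_max_left _ _).trans hX)⟩
  refine ⟨1, one_pos, X₀, hX₀, ?_⟩
  intro X hX k p hkB hpB hgood i hi
  have hX1 : 1 < X := lt_of_lt_of_le hX₀ hX
  have hX0 : 0 < X := by linarith
  have hlog : 0 < Real.log X := Real.log_pos hX1
  obtain ⟨g1, g2, g3⟩ := hgood p (by simp)
  simp only [Dq_s1, Dq_s2, Dq_len] at g1 g2 g3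
  have hi1 := (mem_bl (Real.exp_pos _).le).1 (Sq_sub lam _ hi)
  have hi2 : Qp (π lam) i := by
    unfold Sq at hi
    exact (Finset.mem_filter.1 hi).2
  have h1 := hC p i hi1.1 hi2.1
  have hk : (nm i : ℝ) ≤ X ^ B' := by
    refine hi1.2.trans ?_
    rw [Real.rpow_def_of_pos hX0, mul_comm]
    refine Real.exp_le_exp.2 ?_
    exact mul_le_mul_of_nonneg_left (hkB.trans hBB) hlog.le
  have hd : (nm p.d : ℝ) ≤ X ^ B' := g2.trans (Real.rpow_le_rpow_of_exponent_le hX1.le hBB)
  have hz : p.z = Dq.nl X p * Real.log X := by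
    unfold XG702.Pcs.nl
    rw [Dq_len]
    field_simp
  have hnl0 : 0 ≤ Dq.nl X p := div_nonneg g3 hlog.le
  have h2 : ((nm p.d : ℝ) * nm i * (1 + |p.t|)) ^ e ≤ X ^ (e * (2 * B' + 1)) := by
    calc ((nm p.d : ℝ) * nm i * (1 + |p.t|)) ^ e ≤ (X ^ B' * X ^ B' * X ^ (1 : ℝ)) ^ e := by
          have : 0 ≤ 1 + |p.t| := by positivity
          gcongr
      _ = X ^ (e * (2 * B' + 1)) := by
          rw [← Real.rpow_add hX0, ← Real.rpow_add hX0, ← Real.rpow_mul hX0.le]
          congr 1; ring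
  have h3 : Real.exp ((θ + e) * p.z) ≤ X ^ (θ * Dq.nl X p + e * B') := by
    rw [hz, Real.rpow_def_of_pos hX0]
    refine Real.exp_le_exp.2 ?_
    have h4 : e * Dq.nl X p ≤ e * B' := mul_le_mul_of_nonneg_left (hpB.trans hBB) he0.le
    calc (θ + e) * (Dq.nl X p * Real.log X) = Real.log X * (θ * Dq.nl X p + e * Dq.nl X p) := by
          ring
      _ ≤ _ := mul_le_mul_of_nonneg_left (by linarith) hlog.le
  calc vq π h lam p i ≤ C * (((nm p.d : ℝ) * nm i * (1 + |p.t|)) ^ e *
        Real.exp ((θ + e) * p.z)) := h1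
    _ ≤ X ^ (ε / 2) * (X ^ (e * (2 * B' + 1)) * X ^ (θ * Dq.nl X p + e * B')) := by
        have := hX₀' X hX
        gcongr
    _ = X ^ (θ * Dq.nl X p + (ε / 2 + e * (3 * B' + 1))) := by
        rw [← Real.rpow_add hX0, ← Real.rpow_add hX0]
        congr 1; ring
    _ ≤ X ^ (θ * Dq.nl X p + ε) := by
        refine Real.rpow_le_rpow_of_exponent_le hX1.le ?_
        nlinarith

/-! ### the level rule -/

lemma rpl_eq_rep {N : ℕ} (n : Fin N → ℕ) (u : Fin N → ℝ) : rpl n u = rep n u := by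
  unfold rpl XG702.rep
  rw [List.ofFn_eq_map, List.flatMap_def]

lemma rep_sum {N : ℕ} (n : Fin N → ℕ) (u : Fin N → ℝ) :
    (rep n u).sum = ∑ j, (n j : ℝ) * u j := by
  unfold XG702.rep
  rw [List.sum_flatten, List.map_ofFn, List.sum_ofFn]
  refine Finset.sum_congr rfl fun j _ => ?_
  simp

lemma sum_kd (f : Kd → ℝ) : ∑ s, f s = f .mo + f .am := by
  have : (Finset.univ : Finset Kd) = {Kd.mo, Kd.am} := rfl
  rw [this, Finset.sum_pair (by decide)]

instance : Nonempty Pq := ⟨⟨.mo, .one, 1, one_ne_zero, 0, 0⟩⟩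

/-- **the level rule** (`ExpLv.lev` in BG form) -/
theorem blv_702 {θ : ℝ} (hθ : 1 / 2 < θ) (hθ1 : θ ≤ 1) (hPF : PF Set.univ θ)
    {c : ℝ} (hpu : FE47.PU h c) (hP : ∀ lam, (π lam).OK) :
    BLv θ Dq (fun lam => Rp (π lam) h) where
  lev := by
    intro N Y κ M A E hκ hY hM hA hlev
    have hFF : (fun lam => FF (Sq π lam) (vq π h lam) 2) = fun lam => Rp (π lam) h := by
      funext lam l ps
      exact FF_eq lam l ps
    have htriv : BG Dq (fun lam => FF (Sq π lam) (vq π h lam) 2) κ [] (fun _ => 0) κ := by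
      have h1 := bg_Rp hP hpu κ [] 0 0
      rw [← hFF] at h1
      have h2 : wt 0 0 = fun _ => (0 : ℝ) := by funext t; cases t <;> rfl
      rw [h2] at h1
      refine h1.mono ?_
      simp only [List.sum_nil, add_zero, mul_zero, zero_add]
      refine max_le le_rfl (max_le ?_ ?_) <;> linarith
    have key := level (D := Dq) (S := Sq π) (v := vq π h) (fun lam p i => vq_nonneg lam p i)
      (θ := θ) (by linarith) (supG_q hθ hθ1 hPF hpu hP) (fun lam => ⟨16, fun l => card_Sq lam l⟩)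
      (c := 2) (by norm_num) (κ := κ) hκ (n := N) (u := Y) (w := wt M A) (fun j => (hY j).1)
      (wt_nonneg hM hA) (E := E) ?_
    · rw [hFF] at key
      exact key
    intro P hP1 hP2
    have hall : κ + 2 * ((∑ j, P.1 j) + P.2 .mo + P.2 .am) ≤ E →
        ∃ (n : Fin N → ℕ) (f : Kd → ℝ) (t b : ℝ), (∀ s, 0 ≤ f s) ∧ (∀ s, wt M A s = 0 → f s = 0) ∧
        WG Dq (Sq π) (vq π h) κ (rep n Y) f t b ∧
        (t < 2 * lvF (wt M A) n f P ∨ (t ≤ 2 * lvF (wt M A) n f P ∧ 0 < lenF Y n f)) ∧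
        b - 2 * lvF (wt M A) n f P + (2 : ℕ) * smF P ≤ E := by
      intro hE
      refine ⟨fun _ => 0, fun _ => 0, -1, κ, fun _ => le_rfl, fun _ _ => rfl, ?_, Or.inl ?_, ?_⟩
      · have h0 : rep (fun _ : Fin N => 0) Y = [] := by
          rw [← rpl_eq_rep]
          unfold rpl
          simp
        rw [h0]
        exact WG.of_BG htriv (-1)
      · unfold XG702.lvF
        simp
      · unfold XG702.lvF XG702.smF
        rw [sum_kd, sum_kd]
        simp only [Nat.cast_zero, zero_mul, Finset.sum_const_zero, add_zero, mul_zero, sub_zero,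
          Nat.cast_ofNat]
        linarith
    have hlvF : ∀ (n : Fin N → ℕ) (f g : ℝ), lvF (wt M A) n (wt f g) P =
        (∑ j, (n j : ℝ) * P.1 j) + f * (P.2 .mo / M) + g * (P.2 .am / A) := by
      intro n f g
      unfold XG702.lvF
      rw [sum_kd]
      simp only [wt]
      ring
    have hlenF : ∀ (n : Fin N → ℕ) (f g : ℝ), lenF Y n (wt f g) =
        (∑ j, (n j : ℝ) * Y j) + f + g := by
      intro n f g
      unfold XG702.lenF
      rw [sum_kd]
      simp only [wt]
      ring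
    have hsmF : smF P = (∑ j, P.1 j) + P.2 .mo + P.2 .am := by
      unfold XG702.smF
      rw [sum_kd]
      ring
    have hwt0 : ∀ (f g : ℝ), (M = 0 → f = 0) → (A = 0 → g = 0) → ∀ s, wt M A s = 0 →
        wt f g s = 0 := by
      intro f g h1 h2 s hs
      cases s
      · exact h1 hs
      · exact h2 hs
    rcases hlev Y P.1 M A (P.2 .mo) (P.2 .am) (fun j => ⟨(hY j).1, le_rfl⟩) hM le_rfl hA le_rfl
      hP1 (hP2 .mo) (hP2 .am) with hc | hc | hc
    · -- Halász–Montgomery
      obtain ⟨n, f, g, hf, hf0, hg, hg0, hok, hE⟩ := hc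
      have hnY : 0 ≤ ∑ j, (n j : ℝ) * Y j := Finset.sum_nonneg fun j _ =>
        mul_nonneg (Nat.cast_nonneg _) (hY j).1
      set len := (∑ j, (n j : ℝ) * Y j) + f + g with hlen
      set v := (∑ j, (n j : ℝ) * P.1 j) + f * (P.2 .mo / M) + g * (P.2 .am / A) with hv
      have hlen0 : 0 ≤ len := by rw [hlen]; linarith
      have hrs : (rep n Y).sum + ∑ t, wt f g t = len := by
        rw [rep_sum, sum_kd, hlen]
        simp only [wt]
        ring
      rcases hlen0.eq_or_lt with h0 | hpos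
      · -- trivial monomial
        have hf00 : f = 0 := by linarith
        have hg00 : g = 0 := by linarith
        have hsum0 : ∑ j, (n j : ℝ) * Y j = 0 := by linarith
        have hz : ∀ j, (n j : ℝ) * Y j = 0 := fun j =>
          (Finset.sum_eq_zero_iff_of_nonneg (fun j _ => mul_nonneg (Nat.cast_nonneg _)
            (hY j).1)).1 hsum0 j (Finset.mem_univ j)
        have hv0 : v ≤ 0 := by
          rw [hv, hf00, hg00, zero_mul, zero_mul, add_zero, add_zero]
          refine Finset.sum_nonpos fun j _ => ?_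
          have h1 := mul_le_mul_of_nonneg_left (hP1 j) (Nat.cast_nonneg (α := ℝ) (n j))
          have h2 : (n j : ℝ) * (θ * Y j) = θ * ((n j : ℝ) * Y j) := by ring
          rw [h2, hz j, mul_zero] at h1
          exact h1
        have hκ0 : κ ≤ 2 * (len - v) := by
          rw [← h0] at hok ⊢
          rcases hok with ⟨h1, h2⟩ | h1
          · linarith
          · have h2 : 0 ≤ (2 * θ - 1) * κ := mul_nonneg (by linarith) hκ
            have h3 : (2 * θ - 1) * κ ≤ 0 := by linarith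
            have h4 : (2 * θ - 1) * κ = 0 := le_antisymm h3 h2
            have h5 : κ = 0 := by
              rcases mul_eq_zero.1 h4 with h | h
              · linarith
              · exact h
            rw [h5]; linarith
        exact hall (by linarith)
      · rcases hok with ⟨h1, h2⟩ | h1
        · refine ⟨n, wt f g, 5 / 3 * len, 2 * len, wt_nonneg hf hg, hwt0 f g hf0 hg0, ?_, Or.inr ⟨?_, ?_⟩,
            ?_⟩
          · have h3 := wg_LV hθ hθ1 hPF hpu hP κ (rep n Y) (wt f g)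
            rw [hrs] at h3
            unfold tLV eLV at h3
            rw [max_eq_left h1] at h3
            refine h3.mono ?_ ?_ <;> linarith
          · rw [hlvF, ← hv]; linarith
          · rw [hlenF]; exact hpos
          · rw [hlvF, ← hv, hsmF]
            push_cast
            linarith
        · refine ⟨n, wt f g, tLV' θ κ len, 2 * len, wt_nonneg hf hg, hwt0 f g hf0 hg0, ?_,
            Or.inr ⟨?_, ?_⟩, ?_⟩
          · have h3 := wg_LV' hθ hθ1 hPF hpu hP κ (rep n Y) (wt f g)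
            rw [hrs] at h3
            exact h3
          · rw [hlvF, ← hv]; exact h1
          · rw [hlenF]; exact hpos
          · rw [hlvF, ← hv, hsmF]
            push_cast
            linarith
    · -- second moment
      obtain ⟨n, f, g, e, hf, hf0, hg, hg0, hBG, hE⟩ := hc
      rw [← hFF, rpl_eq_rep] at hBG
      refine ⟨n, wt f g, 2 * lvF (wt M A) n (wt f g) P - 1, e, wt_nonneg hf hg, hwt0 f g hf0 hg0,
        WG.of_BG hBG _, Or.inl (by linarith), ?_⟩
      rw [hlvF, hsmF]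
      push_cast
      linarith
    · exact hall hc

/-- **`ExpLv` of the provider** -/
theorem expLv_702 {θ : ℝ} (hθ : 1 / 2 < θ) (hθ1 : θ ≤ 1) (hPF : PF Set.univ θ)
    {c : ℝ} (hpu : FE47.PU h c) (hP : ∀ lam, (π lam).OK) :
    ER911.ExpLv θ (ex Dq (fun lam => Rp (π lam) h)) :=
  (blv_702 hθ hθ1 hPF hpu hP).exp (by linarith) (pinv_Rp π h) (triv_Rp hP hpu)

end Crest.Agent.R017.XLvC702

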