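import Crest.Agent.R017.ProvN_71
import Crest.Agent.R017.XC7_71
import Crest.Agent.R017.XLBi_298
import Crest.Agent.R017.XLvC_702
import Crest.Agent.R017.ExpC_702
import Crest.Agent.R017.ProvE_71

/-!
# Row 17, provider: the bundle (helper71)

* `RemF θ π h` : the open input `T3Fld` (three big lumps)
* `prov_71` : the bundle `ProvE` for any family `π : Lam → DPar` from `Open1`, `RemF`
-/

set_option autoImplicit false

noncomputable section

namespace Crest.Agent.R017.Prov71

open Crest.Agent.R012 Crest.Agent.R012.Eis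
open Crest.Agent.R017.XG702 (Pcs BG)
open Crest.Agent.R017.ER911
open Crest.Agent.R017.B770 Crest.Agent.R017.FE47 Crest.Agent.R017.End699

/-- the open input: three big lumps -/
def RemF {Lam : Type*} (θ : ℝ) (π : Lam → DPar) (h : ℝ → ℝ) : Prop :=
  T3F986.T3Fld θ (ex Dq (fun lam => Rp (π lam) h))

/-- **the provider**, any family of data -/
theorem prov_71 {Lam : Type*} {θ : ℝ} (hθ : 7 / 8 ≤ θ) (hθ1 : θ ≤ 1) (hPF : PF Set.univ θ)
    {h : ℝ → ℝ} {c : ℝ} (hh : PU h c) {π : Lam → DPar} (hP : ∀ lam, (π lam).OK)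
    (H1 : Open1 θ π h) (Hrem : RemF θ π h) :
    ProvE θ (ex Dq (fun lam => Rp (π lam) h)) (ex Dq (fun lam => Sp (π lam) h))
      (ex Dq (fun lam => S0p (π lam) h)) (ex Dq (fun lam => Rc (π lam) h))
      (ex Dq (fun lam => Bc (π lam) h)) where
  rules := BRules.exp (by linarith) (brules_of (by linarith) hθ1 hPF hh hP H1)
  lb := (Lbc298.blb_298 hθ hθ1 hPF hh π hP).exp (by linarith) hθ1 (pinv_Rp π h)
    (XHB411.triv_Rp hP hh)
  lv := XLvC702.expLv_702 (by linarith) hθ1 hPF hh hP
  rem := Hrem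
  cpl := ExpC702.expC_702 hP hh
  box := ExpC702.expBoxC_702 (by linarith) hθ1 hPF hh hP

end Crest.Agent.R017.Prov71
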