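import Crest.Agent.R017.BoxAll_702
import Crest.Agent.R017.ProvM_71

/-!
# Row 17, section D: `TopC` from the coverage and the providers (helper702)

* `topC_of_cov` : for every family `π` of data (free or exceptional), from `Open1` (poisC, poisG),
  `RemF`, the coverage `CovAll` and the near-equal boxes over short families
-/

set_option autoImplicit false

noncomputable section

namespace Crest.Agent.R017.BoxTop702

open Crest.Agent.R012 Crest.Agent.R012.Eis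
open Crest.Agent.R017.XG702 (Pcs BG)
open Crest.Agent.R017.ER911 Crest.Agent.R017.B770 Crest.Agent.R017.FE47 Crest.Agent.R017.End699
open Crest.Agent.R017.Prov71 Crest.Agent.R017.Cone59 Crest.Agent.R017.TopC702
open Crest.Agent.R017.BoxAll702 Crest.Agent.R017.BxE986 Crest.Agent.R017.CovM59

/-- **the absolute boxes**: `TopC` on the allowed region, any family of data -/
theorem topC_of_cov {Lam : Type*} {θ : ℝ} (hθ : 7 / 8 ≤ θ) (hθ1 : θ ≤ 1) (hPF : PF Set.univ θ)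
    {h : ℝ → ℝ} {c : ℝ} (hh : PU h c) {π : Lam → DPar} (hP : ∀ lam, (π lam).OK)
    (H1 : Open1 θ π h) (Hrem : RemF θ π h) {e₀ t μ μ₁ : ℝ} (hμ : 0 < μ) (hμ₁ : 0 < μ₁)
    (ht : 0 ≤ t) (ht3 : t ≤ 1 / 3) (he : 2 * e₀ + (2 * θ - 1) * t + μ ≤ b2 θ)
    (hcov : CovAll θ e₀ t)
    (hne : ∀ r s s₀ rc bc : EF, ProvE θ r s s₀ rc bc → NearB θ μ₁ bc) :
    ∃ μ' : ℝ, 0 < μ' ∧ TopC θ (1 / 3) μ' (AL (9 / 10) 1 w5) π h := by
  have P := prov_71 hθ hθ1 hPF hh hP H1 Hrem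
  set μ₂ := min (min (μ / 20) μ₁) (1 / 12) with hμ₂
  have h0 : 0 < μ₂ := lt_min (lt_min (by linarith) hμ₁) (by norm_num)
  refine ⟨μ₂ / 2, by linarith, ?_⟩
  have hb := boxAll_of_cov hθ hθ1 P hμ.le ht ht3 he hcov (hne _ _ _ _ _ P)
  refine topC_702 (μ := μ₂) (by linarith) hθ1 hPF hh hP (fun n => isClosed_AL _ _ _ n)
    (min_le_right _ _) (by linarith) ?_
  intro N u κ m a hu hm ha hκ hκ1 hq ha3 hqa hAL
  have h1 := hb N u κ m a hu hm ha hκ hκ1 hq ha3 hqa hAL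
  have h2 : μ₂ ≤ min (μ / 20) μ₁ := min_le_left _ _
  linarith

/-- **`TopC` from a bundle** (the exceptional class has its own `r`, `s`, `s₀`) -/
theorem topC_of_prov {Lam : Type*} {θ : ℝ} (hθ : 7 / 8 ≤ θ) (hθ1 : θ ≤ 1) (hPF : PF Set.univ θ)
    {h : ℝ → ℝ} {c : ℝ} (hh : PU h c) {π : Lam → DPar} (hP : ∀ lam, (π lam).OK)
    (P : ∃ r s s₀ : EF, ProvE θ r s s₀ (ex Dq (fun lam => Rc (π lam) h))
      (ex Dq (fun lam => Bc (π lam) h))) {μ : ℝ} (hμ : 0 < μ) (hμ1 : μ ≤ 1 / 12)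
    (hc : ∀ r s s₀ rc bc : EF, ProvE θ r s s₀ rc bc → BoxAll θ μ (AL (9 / 10) 1 w5) bc) :
    TopC θ (1 / 3) (μ / 2) (AL (9 / 10) 1 w5) π h := by
  obtain ⟨r, s, s₀, P⟩ := P
  exact topC_702 (μ := μ) (by linarith) hθ1 hPF hh hP (fun n => isClosed_AL _ _ _ n) hμ1
    (by linarith) (hc _ _ _ _ _ P)

end Crest.Agent.R017.BoxTop702
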