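import Crest.Agent.R017.C70Defs_54

/-!
# Row 17, C.REMg, the Bessel side, part A (helper521): the main form is positive

* `posdef` : `∏_{p ∈ A i ∩ A j} (1 + c p)` is positive definite and dominates the all-one form
* `Xt β x` : the term of `XJ` (= `E1551.XT`), for **any** sequence `β`:
  `Xt_nonneg` : `0 ≤ Re Xt β x`
  `Xt_one` : `nm j ^ (-1/3) ‖TG (PE n6 β) j‖² ≤ Re Xt β (1, j)`
-/

set_option autoImplicit false

noncomputable section

open Complex Finset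
open scoped ComplexConjugate Classical

namespace Crest.Agent.R017.Bs521

open Crest.Agent.R012 Crest.Agent.R012.Eis Crest.Agent.R012.Mob705 Crest.Agent.R012.Gauss880
open Crest.Agent.R017.CM106 (FS CS TG)
open Crest.Agent.R017.PX764 (n6 Gh)

/-! ### the positive definite kernel -/

/-- `1 / (N p - 1)` -/
def cw (p : Eis) : ℝ := 1 / ((nm p : ℝ) - 1)

lemma cw_nonneg {p : Eis} (hp : IsPP p) : 0 ≤ cw p := by
  have h2 : (1 : ℝ) < nm p := by exact_mod_cast hp.one_lt_nm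
  unfold cw
  exact div_nonneg zero_le_one (by linarith)

lemma cw_mul {p : Eis} (hp : IsPP p) : (1 - 1 / (nm p : ℝ)) * (1 + cw p) = 1 := by
  have h2 : (1 : ℝ) < nm p := by exact_mod_cast hp.one_lt_nm
  unfold cw
  have h3 : (nm p : ℝ) ≠ 0 := by linarith
  have h4 : (nm p : ℝ) - 1 ≠ 0 := by linarith
  field_simp
  ring

lemma PE_union {a b c : Eis} (h : pp c = pp a ∪ pp b) :
    PE c = PE a * PE b * ∏ p ∈ pp a ∩ pp b, (1 + cw p) := by
  unfold PE
  rw [h]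
  have h1 := Finset.prod_union_inter (s₁ := pp a) (s₂ := pp b)
    (f := fun p => (1 - 1 / (nm p : ℝ)))
  rw [← h1, mul_assoc, ← Finset.prod_mul_distrib, Finset.prod_eq_one (s := pp a ∩ pp b), mul_one]
  intro p hp
  exact cw_mul (isPP_of_mem_pp (Finset.mem_inter.1 hp).1)

lemma prod_inter_eq {P A B : Finset Eis} (hA : A ⊆ P) (c : Eis → ℝ) :
    ∏ p ∈ A ∩ B, (1 + c p) =
      ∑ S ∈ P.powerset, if S ⊆ A ∧ S ⊆ B then ∏ p ∈ S, c p else 0 := by
  rw [Finset.prod_one_add, ← Finset.sum_filter]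
  refine Finset.sum_congr ?_ fun _ _ => rfl
  ext S
  rw [Finset.mem_powerset, Finset.mem_filter, Finset.mem_powerset, Finset.subset_inter_iff]
  constructor
  · rintro ⟨h1, h2⟩; exact ⟨h1.trans hA, h1, h2⟩
  · rintro ⟨_, h1, h2⟩; exact ⟨h1, h2⟩

/-- the form is a sum of squares -/
theorem posdef_eq {ι : Type*} (T : Finset ι) (A : ι → Finset Eis) (a : ι → ℂ) (c : Eis → ℝ) :
    (∑ i ∈ T, ∑ j ∈ T, (((∏ p ∈ A i ∩ A j, (1 + c p) : ℝ)) : ℂ) * (a i * conj (a j))) =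
      ((∑ S ∈ (T.biUnion A).powerset, (∏ p ∈ S, c p) *
        ‖∑ i ∈ T, if S ⊆ A i then a i else 0‖ ^ 2 : ℝ) : ℂ) := by
  have h1 : ∀ i ∈ T, ∀ j ∈ T,
      (((∏ p ∈ A i ∩ A j, (1 + c p) : ℝ)) : ℂ) * (a i * conj (a j)) =
        ∑ S ∈ (T.biUnion A).powerset, ((∏ p ∈ S, c p : ℝ) : ℂ) *
          ((if S ⊆ A i then a i else 0) * conj (if S ⊆ A j then a j else 0)) := by
    intro i hi j hj
    rw [prod_inter_eq (P := T.biUnion A) (Finset.subset_biUnion_of_mem A hi), Complex.ofReal_sum,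
      Finset.sum_mul]
    refine Finset.sum_congr rfl fun S _ => ?_
    by_cases h1 : S ⊆ A i <;> by_cases h2 : S ⊆ A j <;> simp [h1, h2]
  rw [Finset.sum_congr rfl fun i hi => Finset.sum_congr rfl fun j hj => h1 i hi j hj]
  have h2 : ∀ i ∈ T, ∑ j ∈ T, ∑ S ∈ (T.biUnion A).powerset, ((∏ p ∈ S, c p : ℝ) : ℂ) *
          ((if S ⊆ A i then a i else 0) * conj (if S ⊆ A j then a j else 0)) =
      ∑ S ∈ (T.biUnion A).powerset, ∑ j ∈ T, ((∏ p ∈ S, c p : ℝ) : ℂ) *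
          ((if S ⊆ A i then a i else 0) * conj (if S ⊆ A j then a j else 0)) :=
    fun i _ => Finset.sum_comm
  rw [Finset.sum_congr rfl h2, Finset.sum_comm, Complex.ofReal_sum]
  refine Finset.sum_congr rfl fun S _ => ?_
  rw [Complex.ofReal_mul, ← Complex.normSq_eq_norm_sq, ← Complex.mul_conj, map_sum,
    Finset.sum_mul_sum, Finset.mul_sum]
  refine Finset.sum_congr rfl fun i _ => ?_
  rw [Finset.mul_sum]

theorem posdef_nonneg {ι : Type*} (T : Finset ι) (A : ι → Finset Eis) (a : ι → ℂ) {c : Eis → ℝ}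
    (hc : ∀ i ∈ T, ∀ p ∈ A i, 0 ≤ c p) :
    0 ≤ (∑ i ∈ T, ∑ j ∈ T, (((∏ p ∈ A i ∩ A j, (1 + c p) : ℝ)) : ℂ) * (a i * conj (a j))).re := by
  rw [posdef_eq, Complex.ofReal_re]
  refine Finset.sum_nonneg fun S hS => mul_nonneg (Finset.prod_nonneg fun p hp => ?_)
    (by positivity)
  obtain ⟨i, hi, hpi⟩ := Finset.mem_biUnion.1 (Finset.mem_powerset.1 hS hp)
  exact hc i hi p hpi

theorem posdef {ι : Type*} (T : Finset ι) (A : ι → Finset Eis) (a : ι → ℂ) {c : Eis → ℝ}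
    (hc : ∀ i ∈ T, ∀ p ∈ A i, 0 ≤ c p) :
    ‖∑ i ∈ T, a i‖ ^ 2 ≤
      (∑ i ∈ T, ∑ j ∈ T, (((∏ p ∈ A i ∩ A j, (1 + c p) : ℝ)) : ℂ) * (a i * conj (a j))).re := by
  rw [posdef_eq, Complex.ofReal_re]
  have h := Finset.single_le_sum (s := (T.biUnion A).powerset) (f := fun S => (∏ p ∈ S, c p) *
        ‖∑ i ∈ T, if S ⊆ A i then a i else 0‖ ^ 2) (fun S hS => mul_nonneg
          (Finset.prod_nonneg fun p hp => ?_) (by positivity)) (Finset.empty_mem_powerset _)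
  · simpa using h
  · obtain ⟨i, hi, hpi⟩ := Finset.mem_biUnion.1 (Finset.mem_powerset.1 hS hp)
    exact hc i hi p hpi

/-! ### the term of the main form -/

/-- the term of `XJ` -/
def Xt (β : Eis → ℂ) (x : Eis × Eis) : ℂ :=
  (((nm x.2 : ℝ) ^ (-(1 : ℝ) / 3) : ℝ) : ℂ) *
    ∑' m₁ : Eis, ∑' m₂ : Eis, if IsCoprime x.2 (x.1 * m₁ * m₂) then
      ((PE (x.1 * m₁ * m₂) : ℝ) : ℂ) * (β (x.1 * m₁) * ((n6 m₁ : ℂ) * Gh x.2 m₁)) *
        conj (β (x.1 * m₂) * ((n6 m₂ : ℂ) * Gh x.2 m₂)) else 0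

/-- the factor of one variable -/
def bm (β : Eis → ℂ) (x : Eis × Eis) (m : Eis) : ℂ :=
  if IsCoprime x.2 (x.1 * m) then
    ((PE (x.1 * m) : ℝ) : ℂ) * (β (x.1 * m) * ((n6 m : ℂ) * Gh x.2 m)) else 0

lemma Xt_eq {β : Eis → ℂ} (hβ : (Function.support β).Finite) {x : Eis × Eis} (hx : x.1 ≠ 0)
    (hβ0 : β 0 = 0) :
    ∃ T : Finset Eis, (∀ m ∈ T, x.1 * m ≠ 0) ∧ (∀ m, m ∉ T → β (x.1 * m) = 0) ∧
      Xt β x = (((nm x.2 : ℝ) ^ (-(1 : ℝ) / 3) : ℝ) : ℂ) *
        ∑ m₁ ∈ T, ∑ m₂ ∈ T, (((∏ p ∈ pp (x.1 * m₁) ∩ pp (x.1 * m₂), (1 + cw p) : ℝ)) : ℂ) *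
          (bm β x m₁ * conj (bm β x m₂)) := by
  have hfin : (Function.support fun m => β (x.1 * m)).Finite := by
    refine Set.Finite.subset (hβ.preimage (f := fun m => x.1 * m)
      ((mul_right_injective₀ hx).injOn)) fun m hm => ?_
    exact hm
  refine ⟨hfin.toFinset, fun m hm => ?_, fun m hm => ?_, ?_⟩
  · intro h
    rw [Set.Finite.mem_toFinset] at hm
    exact hm (by simp only [h, hβ0])
  · by_contra h
    exact hm (by simpa using h)
  · have hT0 : ∀ m, m ∉ hfin.toFinset → β (x.1 * m) = 0 := by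
      intro m hm
      by_contra h
      exact hm (by simpa using h)
    have hT1 : ∀ m ∈ hfin.toFinset, x.1 * m ≠ 0 := by
      intro m hm h
      rw [Set.Finite.mem_toFinset] at hm
      exact hm (by simp only [h, hβ0])
    unfold Xt
    congr 1
    rw [tsum_eq_sum (s := hfin.toFinset)]
    · refine Finset.sum_congr rfl fun m₁ h₁ => ?_
      rw [tsum_eq_sum (s := hfin.toFinset)]
      · refine Finset.sum_congr rfl fun m₂ h₂ => ?_
        have n1 := hT1 m₁ h₁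
        have n2 := hT1 m₂ h₂
        have m1 : m₁ ≠ 0 := right_ne_zero_of_mul n1
        have m2 : m₂ ≠ 0 := right_ne_zero_of_mul n2
        have hpp : pp (x.1 * m₁ * m₂) = pp (x.1 * m₁) ∪ pp (x.1 * m₂) := by
          rw [pp_mul n1 m2, pp_mul hx m1, pp_mul hx m2]
          ext p
          simp only [Finset.mem_union]
          tauto
        have hcop : IsCoprime x.2 (x.1 * m₁ * m₂) ↔
            IsCoprime x.2 (x.1 * m₁) ∧ IsCoprime x.2 (x.1 * m₂) := by
          rw [IsCoprime.mul_right_iff, IsCoprime.mul_right_iff, IsCoprime.mul_right_iff]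
          tauto
        unfold bm
        by_cases c1 : IsCoprime x.2 (x.1 * m₁)
        · by_cases c2 : IsCoprime x.2 (x.1 * m₂)
          · rw [if_pos (hcop.2 ⟨c1, c2⟩), if_pos c1, if_pos c2, PE_union hpp]
            simp only [map_mul, Complex.conj_ofReal, Complex.ofReal_mul]
            ring
          · rw [if_neg (fun h => c2 (hcop.1 h).2), if_neg c2]; simp
        · rw [if_neg (fun h => c1 (hcop.1 h).1), if_neg c1]; simp
      · intro m₂ h₂
        rw [hT0 m₂ h₂]; simp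
    · intro m₁ h₁
      rw [tsum_congr fun m₂ => ?_, tsum_zero]
      rw [hT0 m₁ h₁]; simp

lemma cw_pp (x : Eis × Eis) (T : Finset Eis) : ∀ i ∈ T, ∀ p ∈ pp (x.1 * i), 0 ≤ cw p :=
  fun _ _ _ hp => cw_nonneg (isPP_of_mem_pp hp)

/-- **the term of the main form is positive** -/
theorem Xt_nonneg {β : Eis → ℂ} (hβ : FS β) {x : Eis × Eis} (hx : x.1 ≠ 0) : 0 ≤ (Xt β x).re := by
  have hβ0 : β 0 = 0 := by
    by_contra h
    exact (hβ.prim 0 h).ne_zero rfl
  obtain ⟨T, -, -, h⟩ := Xt_eq hβ.fin hx hβ0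
  rw [h, Complex.re_ofReal_mul]
  exact mul_nonneg (by positivity) (posdef_nonneg T _ _ (cw_pp x T))

/-- **the terms `(1, j)` dominate the Gauss side** -/
theorem Xt_one {β : Eis → ℂ} (hβ : FS β) (j : Eis) :
    (nm j : ℝ) ^ (-(1 : ℝ) / 3) * ‖TG (fun m => ((PE m * n6 m : ℝ) : ℂ) * β m) j‖ ^ 2 ≤
      (Xt β (1, j)).re := by
  have hβ0 : β 0 = 0 := by
    by_contra h
    exact (hβ.prim 0 h).ne_zero rfl
  obtain ⟨T, -, h0, h⟩ := Xt_eq (x := ((1 : Eis), j)) hβ.fin one_ne_zero hβ0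
  rw [h, Complex.re_ofReal_mul]
  refine mul_le_mul_of_nonneg_left ?_ (by positivity)
  refine le_trans (le_of_eq ?_) (posdef T _ _ (cw_pp ((1 : Eis), j) T))
  congr 2
  unfold TG
  rw [tsum_eq_sum (s := T)]
  · refine Finset.sum_congr rfl fun m _ => ?_
    unfold bm Gh
    simp only [one_mul]
    by_cases hm : β m = 0
    · simp [hm]
    · by_cases hc : IsCoprime j m
      · rw [if_pos hc]; push_cast; ring
      · rw [if_neg hc, Char766.sy_eq_zero (hβ.prim m hm) hc]; simp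
  · intro m hm
    have h1 := h0 m hm
    simp only [one_mul] at h1
    show ((PE m * n6 m : ℝ) : ℂ) * β m * (G m * conj (sy j m)) = 0
    rw [h1]; simp

end Crest.Agent.R017.Bs521
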