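import Crest.Agent.R017.BsA_521
import Crest.Agent.R012.Cheb_420
import Crest.Agent.R012.PInv_255

/-!
# Row 17, C.REMg, the Bessel side, part B (helper521): the all-ones bound

* `PY Y` : the primary primes of norm `≤ Y`, `la p = 1 - 1 / nm p`
* `pos2` : `∏_{p ∈ A i ∪ A j} la p` dominates `(∏_{p ∈ P} la p) ·` all-ones
* `Xt_all` : `(∏_{p ∈ PY Y} la p) nm j ^ (-1/3) ‖TG (n6 β) j‖² ≤ Re Xt β (1, j)`
* `inv_prod_le` : `(∏_{p ∈ PY Y} la p)⁻¹ ≤ C Y ^ ε`
-/

set_option autoImplicit false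

noncomputable section

open Complex Finset
open scoped ComplexConjugate Classical

namespace Crest.Agent.R017.Bs521

open Crest.Agent.R012 Crest.Agent.R012.Eis Crest.Agent.R012.Mob705 Crest.Agent.R012.Gauss880
open Crest.Agent.R012.LS2 (S mem_S)
open Crest.Agent.R017.CM106 (FS CS TG)
open Crest.Agent.R017.PX764 (n6 Gh)

/-- `1 - 1 / nm p` -/
def la (p : Eis) : ℝ := 1 - 1 / (nm p : ℝ)

lemma la_half {p : Eis} (hp : IsPP p) : 1 / 2 ≤ la p := by
  have h2 : (2 : ℝ) ≤ nm p := by exact_mod_cast hp.one_lt_nm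
  unfold la
  have : 1 / (nm p : ℝ) ≤ 1 / 2 := by
    rw [div_le_div_iff₀ (by linarith) (by norm_num)]; linarith
  linarith

lemma la_le_one {p : Eis} (hp : IsPP p) : la p ≤ 1 := by
  have h2 : (1 : ℝ) < nm p := by exact_mod_cast hp.one_lt_nm
  unfold la
  have : 0 ≤ 1 / (nm p : ℝ) := by positivity
  linarith

/-- one entry of the kernel -/
lemma prod_union_eq {P A B : Finset Eis} (hA : A ⊆ P) (hB : B ⊆ P) (l : Eis → ℝ) :
    ∏ p ∈ A ∪ B, l p = ∑ S ∈ P.powerset, (∏ p ∈ P \ S, l p) * (∏ p ∈ S, (1 - l p)) *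
      ((if Disjoint S A then 1 else 0) * (if Disjoint S B then 1 else 0)) := by
  have h1 : ∏ p ∈ A ∪ B, l p = ∏ p ∈ P, ((1 - l p) * (if p ∈ A ∪ B then 0 else 1) + l p) := by
    rw [← Finset.prod_subset (Finset.union_subset hA hB)
      (f := fun p => ((1 - l p) * (if p ∈ A ∪ B then 0 else 1) + l p))]
    · refine Finset.prod_congr rfl fun p hp => ?_
      rw [if_pos hp]; ring
    · intro p _ hp
      rw [if_neg hp]; ring
  rw [h1, Finset.prod_add]
  refine Finset.sum_congr rfl fun S hS => ?_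
  rw [Finset.prod_mul_distrib]
  have h2 : ∏ p ∈ S, (if p ∈ A ∪ B then (0 : ℝ) else 1) =
      (if Disjoint S A then 1 else 0) * (if Disjoint S B then 1 else 0) := by
    by_cases h3 : Disjoint S A
    · by_cases h4 : Disjoint S B
      · rw [if_pos h3, if_pos h4, mul_one]
        refine Finset.prod_eq_one fun p hp => ?_
        rw [if_neg]
        rw [Finset.mem_union, not_or]
        exact ⟨Finset.disjoint_left.1 h3 hp, Finset.disjoint_left.1 h4 hp⟩
      · rw [if_neg h4, mul_zero]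
        obtain ⟨p, hp1, hp2⟩ := Finset.not_disjoint_iff.1 h4
        refine Finset.prod_eq_zero hp1 ?_
        rw [if_pos (Finset.mem_union_right _ hp2)]
    · rw [if_neg h3, zero_mul]
      obtain ⟨p, hp1, hp2⟩ := Finset.not_disjoint_iff.1 h3
      refine Finset.prod_eq_zero hp1 ?_
      rw [if_pos (Finset.mem_union_left _ hp2)]
  rw [h2]
  ring

theorem pos2_eq {ι : Type*} (T : Finset ι) (P : Finset Eis) (A : ι → Finset Eis) (a : ι → ℂ)
    (l : Eis → ℝ) (hA : ∀ i ∈ T, A i ⊆ P) :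
    (∑ i ∈ T, ∑ j ∈ T, (((∏ p ∈ A i ∪ A j, l p : ℝ)) : ℂ) * (a i * conj (a j))) =
      ((∑ S ∈ P.powerset, ((∏ p ∈ P \ S, l p) * (∏ p ∈ S, (1 - l p))) *
        ‖∑ i ∈ T, if Disjoint S (A i) then a i else 0‖ ^ 2 : ℝ) : ℂ) := by
  obtain ⟨c, hc⟩ : ∃ c : Finset Eis → ℝ, ∀ S, (∏ p ∈ P \ S, l p) * (∏ p ∈ S, (1 - l p)) = c S :=
    ⟨_, fun _ => rfl⟩
  have h1 : ∀ i ∈ T, ∀ j ∈ T,
      (((∏ p ∈ A i ∪ A j, l p : ℝ)) : ℂ) * (a i * conj (a j)) =
        ∑ S ∈ P.powerset, ((c S : ℝ) : ℂ) *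
          ((if Disjoint S (A i) then a i else 0) *
            conj (if Disjoint S (A j) then a j else 0)) := by
    intro i hi j hj
    rw [prod_union_eq (hA i hi) (hA j hj), Complex.ofReal_sum, Finset.sum_mul]
    refine Finset.sum_congr rfl fun S _ => ?_
    rw [hc]
    by_cases h1 : Disjoint S (A i) <;> by_cases h2 : Disjoint S (A j) <;> simp [h1, h2]
  rw [Finset.sum_congr rfl fun i hi => Finset.sum_congr rfl fun j hj => h1 i hi j hj]
  have h2 : ∀ i ∈ T, ∑ j ∈ T, ∑ S ∈ P.powerset,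
        ((c S : ℝ) : ℂ) *
          ((if Disjoint S (A i) then a i else 0) *
            conj (if Disjoint S (A j) then a j else 0)) =
      ∑ S ∈ P.powerset, ∑ j ∈ T, ((c S : ℝ) : ℂ) *
          ((if Disjoint S (A i) then a i else 0) *
            conj (if Disjoint S (A j) then a j else 0)) :=
    fun i _ => Finset.sum_comm
  rw [Finset.sum_congr rfl h2, Finset.sum_comm, Complex.ofReal_sum]
  refine Finset.sum_congr rfl fun S _ => ?_
  rw [hc, Complex.ofReal_mul, ← Complex.normSq_eq_norm_sq, ← Complex.mul_conj, map_sum,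
    Finset.sum_mul_sum, Finset.mul_sum]
  refine Finset.sum_congr rfl fun i _ => ?_
  rw [Finset.mul_sum]

theorem pos2 {ι : Type*} (T : Finset ι) (P : Finset Eis) (A : ι → Finset Eis) (a : ι → ℂ)
    {l : Eis → ℝ} (hA : ∀ i ∈ T, A i ⊆ P) (hl0 : ∀ p ∈ P, 0 ≤ l p) (hl1 : ∀ p ∈ P, l p ≤ 1) :
    (∏ p ∈ P, l p) * ‖∑ i ∈ T, a i‖ ^ 2 ≤
      (∑ i ∈ T, ∑ j ∈ T, (((∏ p ∈ A i ∪ A j, l p : ℝ)) : ℂ) * (a i * conj (a j))).re := by
  rw [pos2_eq T P A a l hA, Complex.ofReal_re]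
  have h := Finset.single_le_sum (s := P.powerset)
    (f := fun S => ((∏ p ∈ P \ S, l p) * (∏ p ∈ S, (1 - l p))) *
        ‖∑ i ∈ T, if Disjoint S (A i) then a i else 0‖ ^ 2) (fun S hS => mul_nonneg
          (mul_nonneg (Finset.prod_nonneg fun p hp => hl0 p (Finset.sdiff_subset hp))
            (Finset.prod_nonneg fun p hp => sub_nonneg.2
              (hl1 p (Finset.mem_powerset.1 hS hp)))) (by positivity))
    (Finset.empty_mem_powerset _)
  simpa using h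

/-! ### the main form -/

/-- the primary primes of norm `≤ Y` -/
def PY (Y : ℝ) : Finset Eis := (primBall ⌊Y⌋₊).filter IsPP

lemma pp_subset_PY {Y : ℝ} {n : Eis} (hn : IsPrim n) (hY : (nm n : ℝ) ≤ Y) : pp n ⊆ PY Y := by
  intro p hp
  have h1 := isPP_of_mem_pp hp
  have h2 : p ∣ n := ((mem_pp hn.ne_zero).1 hp).2
  unfold PY
  rw [Finset.mem_filter, mem_primBall]
  refine ⟨⟨?_, h1.1⟩, h1⟩
  have h3 : nm p ≤ nm n := Crest.Agent.R012.Div277.nm_le_of_dvd hn.ne_zero h2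
  exact Nat.le_floor (le_trans (by exact_mod_cast h3) hY)

/-- the factor of one variable, without `PE` -/
def am (β : Eis → ℂ) (x : Eis × Eis) (m : Eis) : ℂ :=
  if IsCoprime x.2 (x.1 * m) then β (x.1 * m) * ((n6 m : ℂ) * Gh x.2 m) else 0

lemma Xt_eq2 {β : Eis → ℂ} (hβ : (Function.support β).Finite) {x : Eis × Eis} (hx : x.1 ≠ 0)
    (hβ0 : β 0 = 0) :
    ∃ T : Finset Eis, (∀ m ∈ T, β (x.1 * m) ≠ 0) ∧ (∀ m, m ∉ T → β (x.1 * m) = 0) ∧
      Xt β x = (((nm x.2 : ℝ) ^ (-(1 : ℝ) / 3) : ℝ) : ℂ) *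
        ∑ m₁ ∈ T, ∑ m₂ ∈ T, (((∏ p ∈ pp (x.1 * m₁) ∪ pp (x.1 * m₂), la p : ℝ)) : ℂ) *
          (am β x m₁ * conj (am β x m₂)) := by
  have hfin : (Function.support fun m => β (x.1 * m)).Finite := by
    refine Set.Finite.subset (hβ.preimage (f := fun m => x.1 * m)
      ((mul_right_injective₀ hx).injOn)) fun m hm => ?_
    exact hm
  have hT0 : ∀ m, m ∉ hfin.toFinset → β (x.1 * m) = 0 := by
    intro m hm
    by_contra h
    exact hm (by simpa using h)
  have hT2 : ∀ m ∈ hfin.toFinset, β (x.1 * m) ≠ 0 := by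
    intro m hm
    simpa using hm
  have hT1 : ∀ m ∈ hfin.toFinset, x.1 * m ≠ 0 := by
    intro m hm h
    exact hT2 m hm (by rw [h, hβ0])
  refine ⟨hfin.toFinset, hT2, hT0, ?_⟩
  unfold Xt
  congr 1
  rw [tsum_eq_sum (s := hfin.toFinset)]
  · refine Finset.sum_congr rfl fun m₁ h₁ => ?_
    rw [tsum_eq_sum (s := hfin.toFinset)]
    · refine Finset.sum_congr rfl fun m₂ h₂ => ?_
      have n1 := hT1 m₁ h₁
      have n2 := hT1 m₂ h₂
      have m1 : m₁ ≠ 0 := right_ne_zero_of_mul n1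
      have m2 : m₂ ≠ 0 := right_ne_zero_of_mul n2
      have hpp : pp (x.1 * m₁ * m₂) = pp (x.1 * m₁) ∪ pp (x.1 * m₂) := by
        rw [pp_mul n1 m2, pp_mul hx m1, pp_mul hx m2]
        ext p
        simp only [Finset.mem_union]
        tauto
      have hcop : IsCoprime x.2 (x.1 * m₁ * m₂) ↔
          IsCoprime x.2 (x.1 * m₁) ∧ IsCoprime x.2 (x.1 * m₂) := by
        rw [IsCoprime.mul_right_iff, IsCoprime.mul_right_iff, IsCoprime.mul_right_iff]
        tauto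
      have hPE : PE (x.1 * m₁ * m₂) = ∏ p ∈ pp (x.1 * m₁) ∪ pp (x.1 * m₂), la p := by
        unfold PE la
        rw [hpp]
      unfold am
      by_cases c1 : IsCoprime x.2 (x.1 * m₁)
      · by_cases c2 : IsCoprime x.2 (x.1 * m₂)
        · rw [if_pos (hcop.2 ⟨c1, c2⟩), if_pos c1, if_pos c2, hPE]
          ring
        · rw [if_neg (fun h => c2 (hcop.1 h).2), if_neg c2]; simp
      · rw [if_neg (fun h => c1 (hcop.1 h).1), if_neg c1]; simp
    · intro m₂ h₂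
      rw [hT0 m₂ h₂]; simp
  · intro m₁ h₁
    rw [tsum_congr fun m₂ => ?_, tsum_zero]
    rw [hT0 m₁ h₁]; simp

/-- **the terms `(1, j)` dominate the Gauss side** (all-ones form) -/
theorem Xt_all {Y : ℝ} {β : Eis → ℂ} (hβ : FS β) (hY : ∀ n, β n ≠ 0 → (nm n : ℝ) ≤ Y) (j : Eis) :
    (∏ p ∈ PY Y, la p) * ((nm j : ℝ) ^ (-(1 : ℝ) / 3) *
      ‖TG (fun m => ((n6 m : ℝ) : ℂ) * β m) j‖ ^ 2) ≤ (Xt β (1, j)).re := by
  have hβ0 : β 0 = 0 := by
    by_contra h
    exact (hβ.prim 0 h).ne_zero rfl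
  obtain ⟨T, hT, h0, h⟩ := Xt_eq2 (x := ((1 : Eis), j)) hβ.fin one_ne_zero hβ0
  rw [h, Complex.re_ofReal_mul, ← mul_assoc, mul_comm (∏ p ∈ PY Y, la p), mul_assoc]
  refine mul_le_mul_of_nonneg_left ?_ (by positivity)
  have hpos := pos2 T (PY Y) (fun m => pp (((1 : Eis), j).1 * m)) (am β (1, j)) (l := la)
    (fun m hm => pp_subset_PY (hβ.prim _ (hT m hm)) (hY _ (hT m hm)))
    (fun p hp => by
      have := la_half (Finset.mem_filter.1 hp).2
      linarith) (fun p hp => la_le_one (Finset.mem_filter.1 hp).2)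
  refine le_trans (le_of_eq ?_) hpos
  congr 3
  unfold TG
  rw [tsum_eq_sum (s := T)]
  · refine Finset.sum_congr rfl fun m _ => ?_
    unfold am Gh
    simp only [one_mul]
    by_cases hm : β m = 0
    · simp [hm]
    · by_cases hc : IsCoprime j m
      · rw [if_pos hc]; ring
      · rw [if_neg hc, Char766.sy_eq_zero (hβ.prim m hm) hc]; simp
  · intro m hm
    have h1 := h0 m hm
    simp only [one_mul] at h1
    show ((n6 m : ℝ) : ℂ) * β m * (G m * conj (sy j m)) = 0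
    rw [h1]; simp

/-! ### the product -/

lemma prod_la_pos (Y : ℝ) : 0 < ∏ p ∈ PY Y, la p :=
  Finset.prod_pos fun p hp => by
    have := la_half (Finset.mem_filter.1 hp).2
    linarith

lemma inv_la_le {p : Eis} (hp : IsPP p) : (la p)⁻¹ ≤ Real.exp (2 * (1 / (nm p : ℝ))) := by
  have h0 := la_half hp
  have h2 : (2 : ℝ) ≤ nm p := by exact_mod_cast hp.one_lt_nm
  set x : ℝ := 1 / (nm p : ℝ) with hx
  have hx0 : 0 < x := by rw [hx]; positivity
  have hx2 : x ≤ 1 / 2 := by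
    rw [hx, div_le_div_iff₀ (by linarith) (by norm_num)]; linarith
  have e : la p = 1 - x := rfl
  rw [inv_le_comm₀ (by linarith) (Real.exp_pos _), ← Real.exp_neg, e]
  have h3 : 1 + 2 * x ≤ Real.exp (2 * x) := by
    have := Real.add_one_le_exp (2 * x); linarith
  rw [Real.exp_neg, inv_le_comm₀ (Real.exp_pos _) (by linarith)]
  refine le_trans ?_ h3
  rw [inv_le_comm₀ (by linarith) (by linarith)]
  rw [inv_eq_one_div, div_le_iff₀ (by linarith)]
  nlinarith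

/-- **Mertens** : the product is `≥ c Y ^ (-ε)` -/
theorem inv_prod_le {ε : ℝ} (hε : 0 < ε) :
    ∃ C : ℝ, 1 ≤ C ∧ ∀ Y : ℝ, 1 ≤ Y → (∏ p ∈ PY Y, la p)⁻¹ ≤ C * Y ^ ε := by
  obtain ⟨C₁, hC₁, hlg⟩ := Crest.Agent.R012.PInv255.one_add_log_pow_le 4 ε hε
  set c2 : ℝ := Real.exp (100 / Real.log 2) * (Real.log 2)⁻¹ ^ 4 * C₁ * 2 ^ ε with hc2
  refine ⟨max 1 c2, le_max_left _ _, fun Y hY => ?_⟩
  have hl2 : 0 < Real.log 2 := Real.log_pos (by norm_num)
  set X : ℝ := 2 * Y with hX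
  have hX2 : 2 ≤ X := by rw [hX]; linarith
  have hlX : 0 < Real.log X := Real.log_pos (by linarith)
  have h1 : ∑ p ∈ PY Y, (1 : ℝ) / (nm p) ≤
      2 * (Real.log (Real.log X) - Real.log (Real.log 2)) + 50 / Real.log 2 := by
    refine Crest.Agent.R012.Cheb420.sum_inv_le le_rfl hX2 (PY Y) (fun z hz => ?_) (fun z hz => ?_)
    · have := (Finset.mem_filter.1 hz).2
      exact ⟨this.1, this.2⟩
    · have h3 := Finset.mem_filter.1 hz
      have h4 := (mem_primBall.1 h3.1).1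
      have h5 : (nm z : ℝ) ≤ Y := (Nat.cast_le.2 h4).trans (Nat.floor_le (by linarith))
      refine ⟨?_, by rw [hX]; linarith⟩
      have h6 := h3.2.one_lt_nm
      have h7 := h3.2.1.nm_mod
      have : 4 ≤ nm z := by omega
      have : (4 : ℝ) ≤ nm z := by exact_mod_cast this
      linarith
  have h2 : (∏ p ∈ PY Y, la p)⁻¹ ≤ Real.exp (2 * ∑ p ∈ PY Y, (1 : ℝ) / (nm p)) := by
    rw [← Finset.prod_inv_distrib, Finset.mul_sum, Real.exp_sum]
    refine Finset.prod_le_prod (fun p hp => ?_) fun p hp => inv_la_le (Finset.mem_filter.1 hp).2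
    have := la_half (Finset.mem_filter.1 hp).2
    exact inv_nonneg.2 (by linarith)
  have h3 : Real.exp (2 * ∑ p ∈ PY Y, (1 : ℝ) / (nm p)) ≤
      Real.exp (100 / Real.log 2) * (Real.log 2)⁻¹ ^ 4 * Real.log X ^ 4 := by
    have e1 : Real.log X ^ 4 = Real.exp (4 * Real.log (Real.log X)) := by
      rw [mul_comm, Real.exp_mul, Real.exp_log hlX]; norm_num
    have e2 : (Real.log 2)⁻¹ ^ 4 = Real.exp (-(4 * Real.log (Real.log 2))) := by
      rw [Real.exp_neg, mul_comm, Real.exp_mul, Real.exp_log hl2]; norm_num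
    rw [e1, e2, ← Real.exp_add, ← Real.exp_add]
    refine Real.exp_le_exp.2 ?_
    have e3 : 100 / Real.log 2 = 2 * (50 / Real.log 2) := by ring
    rw [e3]
    linarith
  have h4 : Real.log X ^ 4 ≤ C₁ * (2 ^ ε * Y ^ ε) := by
    have h5 := hlg X (by linarith)
    have h6 : Real.log X ^ 4 ≤ (1 + Real.log X) ^ 4 :=
      pow_le_pow_left₀ hlX.le (by linarith) 4
    rw [← Real.mul_rpow (by norm_num) (by linarith)]
    exact h6.trans h5
  have hY0 : 0 ≤ Y ^ ε := by positivity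
  calc (∏ p ∈ PY Y, la p)⁻¹ ≤ Real.exp (100 / Real.log 2) * (Real.log 2)⁻¹ ^ 4 *
        Real.log X ^ 4 := h2.trans h3
    _ ≤ Real.exp (100 / Real.log 2) * (Real.log 2)⁻¹ ^ 4 * (C₁ * (2 ^ ε * Y ^ ε)) :=
        mul_le_mul_of_nonneg_left h4 (by positivity)
    _ = c2 * Y ^ ε := by rw [hc2]; ring
    _ ≤ max 1 c2 * Y ^ ε := mul_le_mul_of_nonneg_right (le_max_right _ _) hY0

end Crest.Agent.R017.Bs521
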