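import Crest.Agent.R017.E1e_551

/-!
# Row 17, block C70 (exact square), leaf E1, part f (helper551): extraction of the main terms

`Hc_split` : `Hc = [good] mc · PE q · e^{-x/3} + Rc`.
`sum_g2`   : `∑_{e ∣ d} μ(e) N(g₂(κ,e)) / N(e) = PE d` if no `p ∣ d` has `p² ∣ κ`, else `0`.
`pair_final` : the pair formula with the classes `κ ∈ J` split into main term and remainder.
-/

set_option autoImplicit false

noncomputable section

open Complex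
open scoped ComplexConjugate Classical

namespace Crest.Agent.R017.E1551

open Crest.Agent.R012 Crest.Agent.R012.Eis Crest.Agent.R012.Tau671 Crest.Agent.R012.MC
open Crest.Agent.R012.Mob705
open Gauss880 (syG)

/-- remainder function of the class `κ` -/
def Tk (w : ℝ → ℝ) (κ : Eis) (x : ℝ) : ℝ :=
  if (3 : ℤ) ∣ κ.im then Tc w x else 3 / 2 * Tc w (x + 3 * Real.log 3) - 1 / 2 * Tc w x

/-- remainder of the cube sum -/
def Rc (w : ℝ → ℝ) (κ : Eis) (x : ℝ) (q : Eis) : ℝ :=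
  ∑ D ∈ pdiv q, (mu D : ℝ) * Tk w κ (x + 3 * Real.log (nm D))

lemma exp_log_shift {D : Eis} (hD : D ≠ 0) (x : ℝ) :
    Real.exp (-(x + 3 * Real.log (nm D)) / 3) = Real.exp (-x / 3) * (1 / (nm D : ℝ)) := by
  have : -(x + 3 * Real.log (nm D)) / 3 = -x / 3 + -Real.log (nm D) := by ring
  rw [this, Real.exp_add, Real.exp_neg, Real.exp_log (nmpos hD), one_div]

lemma exp_log3_shift (x : ℝ) :
    Real.exp (-(x + 3 * Real.log 3) / 3) = Real.exp (-x / 3) * (1 / 3) := by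
  have : -(x + 3 * Real.log 3) / 3 = -x / 3 + -Real.log 3 := by ring
  rw [this, Real.exp_add, Real.exp_neg, Real.exp_log (by norm_num), one_div]

lemma Cc_split {w : ℝ → ℝ} (hw : Wgt w) (x : ℝ) {q : Eis} (hq : IsPrim q) :
    Cc w x q = mc w * PE q * Real.exp (-x / 3) +
      ∑ D ∈ pdiv q, (mu D : ℝ) * Tc w (x + 3 * Real.log (nm D)) := by
  rw [Cc_eq hw x hq, PE_eq_sum hq.ne_zero, Finset.mul_sum, Finset.sum_mul,
    ← Finset.sum_add_distrib]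
  refine Finset.sum_congr rfl fun D hD => ?_
  have hD0 := ((mem_pdiv hq.ne_zero).mp hD).1.ne_zero
  unfold Tc
  rw [exp_log_shift hD0]
  ring

theorem Hc_split {w : ℝ → ℝ} (hw : Wgt w) (κ : Eis) (x : ℝ) {q : Eis} (hq : IsPrim q) :
    Hc w κ x q = (if (3 : ℤ) ∣ κ.im then mc w * PE q * Real.exp (-x / 3) else 0) + Rc w κ x q := by
  unfold Hc Rc Tk
  by_cases h : (3 : ℤ) ∣ κ.im
  · simp only [if_pos h]
    exact Cc_split hw x hq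
  · simp only [if_neg h]
    rw [Cc_split hw x hq, Cc_split hw _ hq, exp_log3_shift]
    have e1 : ∑ D ∈ pdiv q, (mu D : ℝ) * (3 / 2 * Tc w (x + 3 * Real.log (nm D) + 3 * Real.log 3) -
        1 / 2 * Tc w (x + 3 * Real.log (nm D))) =
        3 / 2 * ∑ D ∈ pdiv q, (mu D : ℝ) * Tc w (x + 3 * Real.log 3 + 3 * Real.log (nm D)) -
        1 / 2 * ∑ D ∈ pdiv q, (mu D : ℝ) * Tc w (x + 3 * Real.log (nm D)) := by
      rw [Finset.mul_sum, Finset.mul_sum, ← Finset.sum_sub_distrib]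
      refine Finset.sum_congr rfl fun D _ => ?_
      rw [show x + 3 * Real.log (nm D) + 3 * Real.log 3 =
        x + 3 * Real.log 3 + 3 * Real.log (nm D) by ring]
      ring
    rw [e1]
    ring

lemma g2_prod {κ : Eis} {S : Finset Eis} (hS : PPSet S) :
    g2 κ (∏ p ∈ S, p) = ∏ p ∈ S.filter (fun p => p ^ 2 ∣ κ), p := by
  unfold g2 s2
  rw [hS.pp_prod]

/-- the Moebius sum over `e ∣ d` -/
theorem sum_g2 (κ : Eis) {d : Eis} (hd : d ≠ 0) :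
    ∑ e ∈ pdiv d, (mu e : ℝ) * ((nm e : ℝ)⁻¹ * nm (g2 κ e)) =
      if ∀ p ∈ pp d, ¬ p ^ 2 ∣ κ then PE d else 0 := by
  have h := sum_dvs_muE_mul (R := ℝ) hd (fun e => (nm e : ℝ)⁻¹ * nm (g2 κ e)) (by
    intro S hS
    have e1 : ∀ p ∈ S, (nm p : ℝ)⁻¹ * nm (g2 κ p) =
        (nm p : ℝ)⁻¹ * (if p ^ 2 ∣ κ then (nm p : ℝ) else 1) := by
      intro p hp
      congr 1
      have h1 := g2_prod (κ := κ) (S := {p}) (by intro x hx; rw [Finset.mem_singleton.mp hx]; exact hS p hp)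
      rw [Finset.prod_singleton] at h1
      rw [h1]
      by_cases h2 : p ^ 2 ∣ κ
      · rw [if_pos h2, Finset.filter_singleton, if_pos h2, Finset.prod_singleton]
      · rw [if_neg h2, Finset.filter_singleton, if_neg h2, Finset.prod_empty]
        simp
    rw [Finset.prod_congr rfl e1, Finset.prod_mul_distrib, g2_prod hS, nm_prod, nm_prod,
      Finset.prod_filter]
    push_cast
    rw [Finset.prod_inv_distrib])
  rw [h]
  by_cases hall : ∀ p ∈ pp d, ¬ p ^ 2 ∣ κ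
  · rw [if_pos hall]
    unfold PE
    refine Finset.prod_congr rfl fun p hp => ?_
    have hpp := isPP_of_mem_pp hp
    have h1 := g2_prod (κ := κ) (S := {p}) (by intro x hx; rw [Finset.mem_singleton.mp hx]; exact hpp)
    rw [Finset.prod_singleton, Finset.filter_singleton, if_neg (hall p hp), Finset.prod_empty] at h1
    rw [h1]
    simp
  · rw [if_neg hall]
    push Not at hall
    obtain ⟨p, hp, h2⟩ := hall
    apply Finset.prod_eq_zero hp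
    have hpp := isPP_of_mem_pp hp
    have h1 := g2_prod (κ := κ) (S := {p}) (by intro x hx; rw [Finset.mem_singleton.mp hx]; exact hpp)
    rw [Finset.prod_singleton, Finset.filter_singleton, if_pos h2, Finset.prod_singleton] at h1
    rw [h1]
    have := nmpos hpp.ne_zero
    field_simp
    ring

/-- the constant of the main term of the `P`-expansion -/
def cP (w : ℝ → ℝ) : ℝ := mc w / (9 * Real.sqrt 3)

/-- main term of the pair `(d m₁, d m₂)` restricted to the classes in `J` (without `cP K^{2/3}`) -/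
def Mp (J : Finset Eis) (d m₁ m₂ : Eis) : ℂ :=
  ((PE d * PE (m₁ * m₂) * (nm (m₁ * m₂) : ℝ) ^ (-(1 / 6) : ℝ) : ℝ) : ℂ) * (G m₁ * conj (G m₂)) *
    ∑ κ ∈ J, if (3 : ℤ) ∣ κ.im ∧ ∀ p ∈ pp d, ¬ p ^ 2 ∣ κ then
      (((nm κ : ℝ) ^ (-(1 / 3) : ℝ) : ℝ) : ℂ) * Vp κ m₁ m₂ else 0

lemma exp_xx3 {K : ℝ} (hK : 0 < K) {κ q g : Eis} (hκ : κ ≠ 0) (hq : q ≠ 0) (hg : g ≠ 0) :
    Real.exp (-xx K κ q g / 3) =
      3 * nm g * ((nm q : ℝ) ^ (1 / 3 : ℝ) * (K ^ (-(1 / 3) : ℝ) * (nm κ : ℝ) ^ (-(1 / 3) : ℝ))) := by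
  have h1 := nmpos hκ
  have h2 := nmpos hq
  have h3 := nmpos hg
  have e0 : Real.exp (-xx K κ q g / 3) =
      (K * nm κ / (27 * nm q * (nm g : ℝ) ^ 3)) ^ (-(1 / 3) : ℝ) := by
    unfold xx
    rw [Real.rpow_def_of_pos (by positivity)]
    congr 1; ring
  rw [e0, Real.div_rpow (by positivity) (by positivity), Real.mul_rpow hK.le h1.le,
    Real.mul_rpow (by positivity) (by positivity), Real.mul_rpow (by norm_num) h2.le]
  have e1 : (27 : ℝ) ^ (-(1 / 3) : ℝ) = 1 / 3 := by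
    rw [show (27 : ℝ) = 3 ^ (3 : ℝ) by norm_num, ← Real.rpow_mul (by norm_num)]
    norm_num
  have e2 : ((nm g : ℝ) ^ 3) ^ (-(1 / 3) : ℝ) = (nm g : ℝ)⁻¹ := by
    rw [← Real.rpow_natCast, ← Real.rpow_mul h3.le]
    norm_num
    rw [Real.rpow_neg_one]
  have e3 : (nm q : ℝ) ^ (-(1 / 3) : ℝ) = ((nm q : ℝ) ^ (1 / 3 : ℝ))⁻¹ := Real.rpow_neg h2.le _
  rw [e1, e2, e3]
  have h4 : 0 < (nm q : ℝ) ^ (1 / 3 : ℝ) := by positivity
  field_simp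

/-- **The pair formula with the main terms of the classes `J` extracted.** -/
theorem pair_final {w : ℝ → ℝ} (hw : Wgt w) {K : ℝ} (hK : 0 < K) {d m₁ m₂ : Eis} (hd : IsPrim d)
    (h₁ : IsPrim m₁) (h₂ : IsPrim m₂) (hds : Squarefree d) (hs₁ : Squarefree m₁)
    (hs₂ : Squarefree m₂) (hc : IsCoprime m₁ m₂) (hc₁ : IsCoprime d m₁) (hc₂ : IsCoprime d m₂)
    (J : Finset Eis) (hJ : ∀ κ ∈ J, CF κ) :
    ∑' k : Eis, (if IsPrim k then sy k (d * m₁) * conj (sy k (d * m₂)) else 0) *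
        ((w (nm k / K) : ℝ) : ℂ) =
      ((2 * K / (9 * Real.sqrt 3 * Real.sqrt (nm m₁ * nm m₂)) : ℝ) : ℂ) * (G m₁ * conj (G m₂)) *
        (((PE d : ℝ) : ℂ) * (Vp 0 m₁ m₂ * ((Wt w 0 : ℝ) : ℂ)) +
          (1 / 6 : ℂ) * ∑ e ∈ pdiv d, (mu e : ℂ) * (nm e : ℂ)⁻¹ *
            (∑ κ ∈ J, Vp κ m₁ m₂ * ((Rc w κ (xx K κ (m₁ * m₂) (g2 κ e)) (m₁ * m₂) : ℝ) : ℂ) +
             ∑' κ : Eis, if CF κ ∧ κ ∉ J then
              Vp κ m₁ m₂ * ((Hc w κ (xx K κ (m₁ * m₂) (g2 κ e)) (m₁ * m₂) : ℝ) : ℂ) else 0)) +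
      ((cP w * K ^ (2 / 3 : ℝ) : ℝ) : ℂ) * Mp J d m₁ m₂ := by
  have hq : IsPrim (m₁ * m₂) := h₁.mul h₂
  have hcq : IsCoprime d (m₁ * m₂) := hc₁.mul_right hc₂
  rw [pairE hw hK hd h₁ h₂ hs₁ hs₂ hc]
  -- split the class sums
  have hsplit : ∀ e ∈ pdiv d, ∑' h : Eis, ph h * Vp (h * e ^ 2) m₁ m₂ *
        ((Wt w (arg K h (m₁ * m₂ * e)) : ℝ) : ℂ) =
      Vp 0 m₁ m₂ * ((Wt w 0 : ℝ) : ℂ) + (1 / 6 : ℂ) *
        (∑ κ ∈ J, Vp κ m₁ m₂ * ((Hc w κ (xx K κ (m₁ * m₂) (g2 κ e)) (m₁ * m₂) : ℝ) : ℂ) +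
          ∑' κ : Eis, if CF κ ∧ κ ∉ J then
          Vp κ m₁ m₂ * ((Hc w κ (xx K κ (m₁ * m₂) (g2 κ e)) (m₁ * m₂) : ℝ) : ℂ) else 0) := by
    intro e he
    obtain ⟨hep, hed⟩ := (mem_pdiv hd.ne_zero).mp he
    have hes : Squarefree e := hds.squarefree_of_dvd hed
    rw [pair_class hw hK h₁ h₂ hep hes (hcq.of_isCoprime_of_dvd_left hed)]
    have hsF := summable_class hw hK h₁ h₂ hep hes (hcq.of_isCoprime_of_dvd_left hed)
    congr 2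
    set F : Eis → ℂ := fun κ => if CF κ then
      Vp κ m₁ m₂ * ((Hc w κ (xx K κ (m₁ * m₂) (g2 κ e)) (m₁ * m₂) : ℝ) : ℂ) else 0 with hF
    have e1 : ∀ κ, F κ = (if κ ∈ J then F κ else 0) + (if CF κ ∧ κ ∉ J then
          Vp κ m₁ m₂ * ((Hc w κ (xx K κ (m₁ * m₂) (g2 κ e)) (m₁ * m₂) : ℝ) : ℂ) else 0) := by
      intro κ
      by_cases h1 : κ ∈ J
      · simp [h1]
      · by_cases h2 : CF κ
        · simp [h1, h2, hF]
        · simp [h1, h2, hF]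
    have s1 : Summable fun κ => if κ ∈ J then F κ else 0 :=
      summable_of_ne_finset_zero (s := J) (fun κ hκ => if_neg hκ)
    have s2 : Summable fun κ => (if CF κ ∧ κ ∉ J then
          Vp κ m₁ m₂ * ((Hc w κ (xx K κ (m₁ * m₂) (g2 κ e)) (m₁ * m₂) : ℝ) : ℂ) else 0) := by
      refine (hsF.sub s1).congr fun κ => ?_
      have := e1 κ
      linear_combination this
    calc ∑' κ, F κ = ∑' κ, ((if κ ∈ J then F κ else 0) + (if CF κ ∧ κ ∉ J then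
          Vp κ m₁ m₂ * ((Hc w κ (xx K κ (m₁ * m₂) (g2 κ e)) (m₁ * m₂) : ℝ) : ℂ) else 0)) :=
          tsum_congr e1
      _ = _ := by
        rw [s1.tsum_add s2, tsum_eq_sum (s := J) (fun κ hκ => if_neg hκ)]
        congr 1
        refine Finset.sum_congr rfl fun κ hκ => ?_
        rw [if_pos hκ]
        simp only [hF]
        rw [if_pos (hJ κ hκ)]
  rw [Finset.sum_congr rfl fun e he => by rw [hsplit e he]]
  -- main terms
  set A : ℂ := Vp 0 m₁ m₂ * ((Wt w 0 : ℝ) : ℂ) with hA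
  set B : Eis → ℂ := fun e => ∑ κ ∈ J,
    Vp κ m₁ m₂ * ((Rc w κ (xx K κ (m₁ * m₂) (g2 κ e)) (m₁ * m₂) : ℝ) : ℂ) with hB
  set D : Eis → ℂ := fun e => ∑' κ : Eis, if CF κ ∧ κ ∉ J then
          Vp κ m₁ m₂ * ((Hc w κ (xx K κ (m₁ * m₂) (g2 κ e)) (m₁ * m₂) : ℝ) : ℂ) else 0 with hD
  set M : Eis → ℂ := fun e => ∑ κ ∈ J, if (3 : ℤ) ∣ κ.im then
    Vp κ m₁ m₂ * ((mc w * PE (m₁ * m₂) * (3 * nm (g2 κ e) * ((nm (m₁ * m₂) : ℝ) ^ (1 / 3 : ℝ) *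
      (K ^ (-(1 / 3) : ℝ) * (nm κ : ℝ) ^ (-(1 / 3) : ℝ)))) : ℝ) : ℂ) else 0 with hM
  have hH : ∀ e, ∑ κ ∈ J, Vp κ m₁ m₂ *
      ((Hc w κ (xx K κ (m₁ * m₂) (g2 κ e)) (m₁ * m₂) : ℝ) : ℂ) = M e + B e := by
    intro e
    simp only [hM, hB]
    rw [← Finset.sum_add_distrib]
    refine Finset.sum_congr rfl fun κ hκ => ?_
    rw [Hc_split hw κ _ hq, exp_xx3 hK (hJ κ hκ).1 hq.ne_zero (g2_prim κ e).ne_zero]
    split_ifs
    · push_cast; ring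
    · push_cast; ring
  have hPE : ((PE d : ℝ) : ℂ) = ∑ e ∈ pdiv d, (mu e : ℂ) * (nm e : ℂ)⁻¹ := by
    rw [PE_eq_sum hd.ne_zero]
    push_cast
    exact Finset.sum_congr rfl fun e _ => by rw [one_div]
  have hmain : ∑ e ∈ pdiv d, (mu e : ℂ) * (nm e : ℂ)⁻¹ * M e =
      ((3 * mc w * PE (m₁ * m₂) * PE d * (nm (m₁ * m₂) : ℝ) ^ (1 / 3 : ℝ) *
        K ^ (-(1 / 3) : ℝ) : ℝ) : ℂ) * ∑ κ ∈ J, if (3 : ℤ) ∣ κ.im ∧ ∀ p ∈ pp d, ¬ p ^ 2 ∣ κ then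
      (((nm κ : ℝ) ^ (-(1 / 3) : ℝ) : ℝ) : ℂ) * Vp κ m₁ m₂ else 0 := by
    simp only [hM]
    simp_rw [Finset.mul_sum]
    rw [Finset.sum_comm]
    refine Finset.sum_congr rfl fun κ hκ => ?_
    by_cases h3 : (3 : ℤ) ∣ κ.im
    · simp only [if_pos h3]
      have e2 : ∀ e ∈ pdiv d, (mu e : ℂ) * (nm e : ℂ)⁻¹ * (Vp κ m₁ m₂ *
          ((mc w * PE (m₁ * m₂) * (3 * nm (g2 κ e) * ((nm (m₁ * m₂) : ℝ) ^ (1 / 3 : ℝ) *
          (K ^ (-(1 / 3) : ℝ) * (nm κ : ℝ) ^ (-(1 / 3) : ℝ)))) : ℝ) : ℂ)) =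
          (((mu e : ℝ) * ((nm e : ℝ)⁻¹ * nm (g2 κ e)) : ℝ) : ℂ) * (Vp κ m₁ m₂ *
          ((3 * mc w * PE (m₁ * m₂) * (nm (m₁ * m₂) : ℝ) ^ (1 / 3 : ℝ) *
          K ^ (-(1 / 3) : ℝ) * (nm κ : ℝ) ^ (-(1 / 3) : ℝ) : ℝ) : ℂ)) := by
        intro e _
        push_cast
        ring
      rw [Finset.sum_congr rfl e2, ← Finset.sum_mul, ← Complex.ofReal_sum, sum_g2 κ hd.ne_zero]
      by_cases h4 : ∀ p ∈ pp d, ¬ p ^ 2 ∣ κ
      · rw [if_pos h4, if_pos ⟨h3, h4⟩]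
        push_cast
        ring
      · rw [if_neg h4, if_neg (fun h => h4 h.2)]
        simp
    · simp only [if_neg h3]
      rw [if_neg (fun h => h3 h.1)]
      simp
  have hq1 := nmpos h₁.ne_zero
  have hq2 := nmpos h₂.ne_zero
  have hconst : (2 * K / (9 * Real.sqrt 3 * Real.sqrt (nm m₁ * nm m₂))) * (1 / 6) *
      (3 * mc w * PE (m₁ * m₂) * PE d * (nm (m₁ * m₂) : ℝ) ^ (1 / 3 : ℝ) * K ^ (-(1 / 3) : ℝ)) =
      (cP w * K ^ (2 / 3 : ℝ)) * (PE d * PE (m₁ * m₂) *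
        (nm (m₁ * m₂) : ℝ) ^ (-(1 / 6) : ℝ)) := by
    have k1 : K * K ^ (-(1 / 3) : ℝ) = K ^ (2 / 3 : ℝ) := by
      nth_rewrite 1 [← Real.rpow_one K]
      rw [← Real.rpow_add hK]; norm_num
    have k2 : (nm (m₁ * m₂) : ℝ) ^ (1 / 3 : ℝ) =
        Real.sqrt (nm m₁ * nm m₂) * (nm (m₁ * m₂) : ℝ) ^ (-(1 / 6) : ℝ) := by
      have : Real.sqrt (nm m₁ * nm m₂) = (nm (m₁ * m₂) : ℝ) ^ (1 / 2 : ℝ) := by
        rw [Real.sqrt_eq_rpow, nm_mul]; push_cast; rfl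
      rw [this, ← Real.rpow_add (nmpos hq.ne_zero)]; norm_num
    have k3 : 0 < Real.sqrt (nm m₁ * nm m₂) := Real.sqrt_pos.mpr (by positivity)
    rw [k2, ← k1]
    unfold cP
    field_simp
    ring
  have hsum : ∑ e ∈ pdiv d, (mu e : ℂ) * (nm e : ℂ)⁻¹ * (A + 1 / 6 * (∑ κ ∈ J, Vp κ m₁ m₂ *
      ((Hc w κ (xx K κ (m₁ * m₂) (g2 κ e)) (m₁ * m₂) : ℝ) : ℂ) + D e)) =
      ((PE d : ℝ) : ℂ) * A + 1 / 6 * ∑ e ∈ pdiv d, (mu e : ℂ) * (nm e : ℂ)⁻¹ * (B e + D e) +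
      1 / 6 * ∑ e ∈ pdiv d, (mu e : ℂ) * (nm e : ℂ)⁻¹ * M e := by
    rw [hPE, Finset.sum_mul, Finset.mul_sum, Finset.mul_sum, ← Finset.sum_add_distrib,
      ← Finset.sum_add_distrib]
    refine Finset.sum_congr rfl fun e _ => ?_
    rw [hH e]
    ring
  rw [hsum, hmain]
  unfold Mp
  have hc2 := congrArg (fun x : ℝ => (x : ℂ)) hconst
  push_cast at hc2 ⊢
  linear_combination ((G m₁ * conj (G m₂)) * ∑ κ ∈ J,
    if (3 : ℤ) ∣ κ.im ∧ ∀ p ∈ pp d, ¬ p ^ 2 ∣ κ then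
      (((nm κ : ℝ) ^ (-(1 / 3) : ℝ) : ℝ) : ℂ) * Vp κ m₁ m₂ else 0) * hc2

end Crest.Agent.R017.E1551
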