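import Crest.Agent.R017.SqLoc_829
import Crest.Agent.R017.E1f_551

/-!
# Row 17, R8: the main term of E1 (551's `Mp`) in terms of the common main form `XJ` (helper829)

* `class_iff` : for cube-free `κ`: `3 ∣ κ.im ↔ JC κ ∨ JC (-κ)`; `not_both`
* `JE D Y₀ Y₁ d` : the window of classes of E1
* `main_E1` : `Σ_{d, m₁, m₂, (m₁,m₂)=1} α(d m₁) conj α(d m₂) Mp (JE ..) d m₁ m₂ = 2 XJ (JW ..) α`
-/

set_option autoImplicit false

noncomputable section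

open Finset
open scoped ComplexConjugate

namespace Crest.Agent.R017.SqLoc829

open Crest.Agent.R012 Crest.Agent.R012.Eis Crest.Agent.R012.Mob705 Crest.Agent.R012.Gauss880
open Crest.Agent.R017.CM106 Crest.Agent.R017.PX764 Crest.Agent.R017.C70 Crest.Agent.R017.E1551

lemma im_of_prim {c m : Eis} (hm : IsPrim m) : (3 : ℤ) ∣ (c * m).im ↔ (3 : ℤ) ∣ c.im := by
  obtain ⟨t, ht⟩ := hm
  have e : c * m = c + 3 * (c * t) := by
    have : m = 1 + 3 * t := by rw [← ht]; ring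
    rw [this]; ring
  have h3r : (3 : Eis).re = 3 := rfl
  have h3i : (3 : Eis).im = 0 := rfl
  have e2 : (c + 3 * (c * t)).im = c.im + 3 * (c * t).im := by
    rw [show (c + 3 * (c * t)).im = c.im + (3 * (c * t)).im from rfl, im_mul', h3r, h3i]
    ring
  rw [e, e2]
  constructor
  · intro h; omega
  · intro h; omega

lemma jc_im {κ : Eis} (h : JC κ) : (3 : ℤ) ∣ κ.im := by
  obtain ⟨c, hc, j, hj, -, rfl⟩ := h
  rw [im_of_prim hj]
  rcases hc with rfl | rfl | rfl | rfl <;> decide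

lemma cf_neg {κ : Eis} (h : CF κ) : CF (-κ) :=
  ⟨neg_ne_zero.2 h.1, fun p hp hd => h.2 p hp ((dvd_neg).1 hd)⟩

lemma jc_cf {κ : Eis} (h : JC κ) : CF κ := by
  obtain ⟨c, hc, j, hj, hcf, rfl⟩ := h
  have hc' : GrB829.IsC c := hc
  refine ⟨mul_ne_zero hc'.ne_zero hj.ne_zero, fun p hp hd => ?_⟩
  by_cases hpc : p ∣ c
  · have hpj : ¬ p ∣ j := fun h => hp.not_isUnit ((hc'.lamish.isCoprime hj).isUnit_of_dvd' hpc h)
    have h1 : p ^ 3 ∣ c :=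
      ((hp.irreducible.coprime_iff_not_dvd.2 hpj).pow_left).dvd_of_dvd_mul_right hd
    have h2 : nm p ^ 3 ∣ nm c := by
      obtain ⟨t, ht⟩ := h1
      exact ⟨nm t, by rw [ht, nm_mul, nm_pow]⟩
    have h3 : 1 < nm p := one_lt_nm_of_prime hp
    have h4 : nm c ∣ 9 := by
      rcases hc with rfl | rfl | rfl | rfl <;> decide
    have h5 : nm p ^ 3 ∣ 9 := h2.trans h4
    have h6 : nm p ^ 3 ≤ 9 := Nat.le_of_dvd (by norm_num) h5
    have h7 : nm p ≤ 2 := by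
      by_contra hh
      have : 3 ≤ nm p := by omega
      have := Nat.pow_le_pow_left this 3
      omega
    have h8 : nm p = 2 := by omega
    rw [h8] at h5
    norm_num at h5
  · exact hcf p hp (((hp.irreducible.coprime_iff_not_dvd.2 hpc).pow_left).dvd_of_dvd_mul_left hd)

theorem class_iff {κ : Eis} (h : CF κ) : (3 : ℤ) ∣ κ.im ↔ JC κ ∨ JC (-κ) := by
  constructor
  · intro h3
    obtain ⟨k, u, m, hu, hm, rfl⟩ := CharSum852.exists_decomp h.1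
    have hk : k ≤ 2 := by
      by_contra hh
      apply h.2 lam prime_lam
      exact (pow_dvd_pow lam (by omega : 3 ≤ k)).trans (dvd_mul_right _ _)
    have hcf : CbF m := fun p hp hd => h.2 p hp (hd.trans ⟨lam ^ k * u, by ring⟩)
    have e1 : lam ^ k * (u * m) = (lam ^ k * u) * m := by ring
    rw [e1, im_of_prim hm] at h3
    have key : ∀ c : Eis, (c = 1 ∨ c = 3 ∨ c = 3 * w ∨ c = 3 * w ^ 2) →
        (lam ^ k * u = c ∨ lam ^ k * u = -c) → JC (lam ^ k * (u * m)) ∨ JC (-(lam ^ k * (u * m))) := by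
      intro c hc hcc
      rcases hcc with h4 | h4
      · left; exact ⟨c, hc, m, hm, hcf, by rw [e1, h4]⟩
      · right; exact ⟨c, hc, m, hm, hcf, by rw [e1, h4]; ring⟩
    interval_cases k
    · rcases isUnit_cases hu with rfl | rfl | rfl | rfl | rfl | rfl
      · exact key 1 (Or.inl rfl) (Or.inl (by decide))
      · exact key 1 (Or.inl rfl) (Or.inr (by decide))
      all_goals exact absurd h3 (by decide)
    · rcases isUnit_cases hu with rfl | rfl | rfl | rfl | rfl | rfl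
      all_goals exact absurd h3 (by decide)
    · rcases isUnit_cases hu with rfl | rfl | rfl | rfl | rfl | rfl
      · exact key (3 * w) (Or.inr (Or.inr (Or.inl rfl))) (Or.inr (by decide))
      · exact key (3 * w) (Or.inr (Or.inr (Or.inl rfl))) (Or.inl (by decide))
      · exact key (3 * w ^ 2) (Or.inr (Or.inr (Or.inr rfl))) (Or.inr (by decide))
      · exact key (3 * w ^ 2) (Or.inr (Or.inr (Or.inr rfl))) (Or.inl (by decide))
      · exact key 3 (Or.inr (Or.inl rfl)) (Or.inr (by decide))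
      · exact key 3 (Or.inr (Or.inl rfl)) (Or.inl (by decide))
  · rintro (h1 | h1)
    · exact jc_im h1
    · have := jc_im h1
      rw [show (-κ).im = -κ.im from rfl] at this
      omega

lemma not_both {κ : Eis} (h1 : JC κ) (h2 : JC (-κ)) : False := by
  obtain ⟨c, hc, j, hj, -, rfl⟩ := h1
  obtain ⟨c', hc', j', hj', -, h⟩ := h2
  obtain ⟨⟨a, ha⟩, ⟨b, hb⟩⟩ := isPrim_iff.1 hj
  obtain ⟨⟨a', ha'⟩, ⟨b', hb'⟩⟩ := isPrim_iff.1 hj'
  have hre : (-(c * j)).re = (c' * j').re := by rw [h]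
  have him : (-(c * j)).im = (c' * j').im := by rw [h]
  have h3r : (3 : Eis).re = 3 := rfl
  have h3i : (3 : Eis).im = 0 := rfl
  have hwr : (3 * w : Eis).re = 0 := by decide
  have hwi : (3 * w : Eis).im = 3 := by decide
  have hwr2 : (3 * w ^ 2 : Eis).re = -3 := by decide
  have hwi2 : (3 * w ^ 2 : Eis).im = -3 := by decide
  have h1r : (1 : Eis).re = 1 := rfl
  have h1i : (1 : Eis).im = 0 := rfl
  rw [show (-(c * j)).re = -(c * j).re from rfl, re_mul', re_mul'] at hre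
  rw [show (-(c * j)).im = -(c * j).im from rfl, im_mul', im_mul'] at him
  rcases hc with rfl | rfl | rfl | rfl <;> rcases hc' with rfl | rfl | rfl | rfl <;>
    simp only [h3r, h3i, hwr, hwi, hwr2, hwi2, h1r, h1i] at hre him <;> omega

open Classical in
/-- the classes of E1 in the window -/
def JE (D Y₀ Y₁ : ℝ) (d : Eis) : Finset Eis :=
  (ball ⌊Y₁ * nm d⌋₊).filter fun κ => CF κ ∧ nm (d / gd κ d) ≤ ⌊D⌋₊ ∧
    Y₀ < nm (κ / gd κ d * (d / gd κ d) ^ 2) ∧ (nm (κ / gd κ d * (d / gd κ d) ^ 2) : ℝ) ≤ Y₁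

lemma JE_cf {D Y₀ Y₁ : ℝ} {d : Eis} : ∀ κ ∈ JE D Y₀ Y₁ d, CF κ := by
  classical
  intro κ hκ
  unfold JE at hκ
  exact (mem_filter.1 hκ).2.1

lemma mem_JE {D Y₀ Y₁ : ℝ} {d : Eis} (hd : IsPrim d) (κ : Eis) :
    κ ∈ JE D Y₀ Y₁ d ↔ CF κ ∧ nm (d / gd κ d) ≤ ⌊D⌋₊ ∧
    Y₀ < nm (κ / gd κ d * (d / gd κ d) ^ 2) ∧
      (nm (κ / gd κ d * (d / gd κ d) ^ 2) : ℝ) ≤ Y₁ := by
  classical
  unfold JE
  rw [mem_filter, mem_ball]
  refine ⟨fun h => h.2, fun h => ⟨?_, h⟩⟩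
  obtain ⟨hcf, -, -, h4⟩ := h
  obtain ⟨j, hj⟩ := gd_dvd_left κ d
  obtain ⟨δ, hδ⟩ := gd_dvd_right κ d
  have hg := (gd_prim κ d)
  have e1 : κ / gd κ d = j := div_of_eq hg.ne_zero hj
  have hδ0 : δ ≠ 0 := by
    intro h0; rw [h0, mul_zero] at hδ; exact hd.ne_zero hδ
  have e2 : d / gd κ d = δ := div_of_eq hg.ne_zero hδ
  rw [e1, e2] at h4
  apply Nat.le_floor
  have h5 : (nm κ : ℝ) = nm (gd κ d) * nm j := by
    have := congrArg nm hj
    rw [nm_mul] at this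
    exact_mod_cast this
  have h6 : (nm (gd κ d) : ℝ) ≤ nm d := by
    have : nm (gd κ d) ≤ nm d := Div277.nm_le_of_dvd hd.ne_zero (gd_dvd_right κ d)
    exact_mod_cast this
  have h7 : (nm j : ℝ) ≤ Y₁ := by
    refine le_trans ?_ h4
    rw [nm_mul]
    have h8 : 1 ≤ nm (δ ^ 2) := nm_pos.2 (pow_ne_zero _ hδ0)
    exact_mod_cast Nat.le_mul_of_pos_right _ h8
  have h9 : (0 : ℝ) ≤ nm j := Nat.cast_nonneg _
  calc (nm κ : ℝ) = nm j * nm (gd κ d) := by rw [h5]; ring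
    _ ≤ Y₁ * nm d := mul_le_mul h7 h6 (Nat.cast_nonneg _) (h9.trans h7)

lemma gd_neg (κ d : Eis) : gd (-κ) d = gd κ d := by
  classical
  unfold gd
  congr 1
  ext p
  rw [mem_filter, mem_filter, dvd_neg]

lemma neg_div_gd (κ d : Eis) : (-κ) / gd κ d = -(κ / gd κ d) := by
  obtain ⟨j, hj⟩ := gd_dvd_left κ d
  have hg := (gd_prim κ d).ne_zero
  have e1 : κ / gd κ d = j := div_of_eq hg hj
  have e2 : (-κ) / gd κ d = -j := div_of_eq hg (by rw [mul_neg, ← hj])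
  rw [e1, e2]

lemma sy_neg (κ : Eis) {m : Eis} (hm : IsPrim m) : sy (-κ) m = sy κ m := by
  have e : -κ = κ * (-1) ^ 3 := by ring
  rw [e]
  exact sy_cube_left hm κ (IsCoprime.neg_left isCoprime_one_left)

open Classical in
lemma JE_filter {D Y₀ Y₁ : ℝ} {d : Eis} (hd : IsPrim d) (hs : Squarefree d) :
    (JE D Y₀ Y₁ d).filter (fun κ => (3 : ℤ) ∣ κ.im ∧ ∀ p ∈ pp d, ¬ p ^ 2 ∣ κ) =
      KJ (JW D Y₀ Y₁) d ∪ (KJ (JW D Y₀ Y₁) d).image (fun κ => -κ) := by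
  ext κ
  have hneg : κ ∈ (KJ (JW D Y₀ Y₁) d).image (fun κ => -κ) ↔ -κ ∈ KJ (JW D Y₀ Y₁) d := by
    rw [mem_image]
    constructor
    · rintro ⟨x, hx, rfl⟩; rwa [neg_neg]
    · intro h; exact ⟨-κ, h, neg_neg κ⟩
  rw [mem_union, hneg, mem_filter, mem_JE hd, mem_KJ_JW hd hs, mem_KJ_JW hd hs, gd_neg, neg_div_gd,
    neg_mul, Eis.nm_neg]
  have hd2 : (∀ p ∈ pp d, ¬ p ^ 2 ∣ -κ) ↔ ∀ p ∈ pp d, ¬ p ^ 2 ∣ κ := by
    simp only [dvd_neg]
  rw [hd2]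
  constructor
  · rintro ⟨⟨hcf, h1, h2, h3⟩, h4, h5⟩
    rcases (class_iff hcf).1 h4 with h6 | h6
    · exact Or.inl ⟨h6, h5, h1, h2, h3⟩
    · exact Or.inr ⟨h6, h5, h1, h2, h3⟩
  · rintro (⟨h6, h5, h1, h2, h3⟩ | ⟨h6, h5, h1, h2, h3⟩)
    · exact ⟨⟨(jc_cf h6), h1, h2, h3⟩, (jc_im h6), h5⟩
    · have hcf : CF κ := by
        have := cf_neg (jc_cf h6)
        rwa [neg_neg] at this
      exact ⟨⟨hcf, h1, h2, h3⟩, (class_iff hcf).2 (Or.inr h6), h5⟩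

open Classical in
lemma sum_JE {D Y₀ Y₁ : ℝ} {d : Eis} (hd : IsPrim d) (hs : Squarefree d) (f : Eis → ℂ)
    (hf : ∀ κ, f (-κ) = f κ) :
    (∑ κ ∈ JE D Y₀ Y₁ d, if (3 : ℤ) ∣ κ.im ∧ ∀ p ∈ pp d, ¬ p ^ 2 ∣ κ then f κ else 0) =
      2 * ∑ κ ∈ KJ (JW D Y₀ Y₁) d, f κ := by
  rw [← Finset.sum_filter, JE_filter hd hs, Finset.sum_union]
  · rw [Finset.sum_image (fun x _ y _ h => neg_injective h)]
    simp only [hf]
    ring
  · rw [Finset.disjoint_left]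
    intro κ h1 h2
    rw [mem_image] at h2
    obtain ⟨x, hx, rfl⟩ := h2
    have h3 := ((mem_KJ_JW hd hs _).1 h1).1
    have h4 := ((mem_KJ_JW hd hs _).1 hx).1
    exact not_both h4 h3

/-- the main term of a pair -/
theorem Mp_JE {D Y₀ Y₁ : ℝ} {d m₁ m₂ : Eis} (hd : IsPrim d) (hs : Squarefree d)
    (h₁ : IsPrim m₁) (h₂ : IsPrim m₂) (hc : IsCoprime d (m₁ * m₂)) :
    Mp (JE D Y₀ Y₁ d) d m₁ m₂ =
      2 * (((PE (d * m₁ * m₂) : ℝ) : ℂ) * ((n6 m₁ : ℂ) * (n6 m₂ : ℂ)) *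
        KS (JW D Y₀ Y₁) d m₁ m₂) := by
  classical
  unfold Mp
  have e1 : PE (d * m₁ * m₂) = PE d * PE (m₁ * m₂) := by
    unfold PE
    rw [mul_assoc, pp_mul hd.ne_zero (h₁.mul h₂).ne_zero, Finset.prod_union (pp_disjoint hc)]
  have e2 : (nm (m₁ * m₂) : ℝ) ^ (-(1 / 6) : ℝ) = n6 m₁ * n6 m₂ := by
    rw [← n6_mul]; unfold n6; norm_num
  have e3 := sum_JE (D := D) (Y₀ := Y₀) (Y₁ := Y₁) hd hs
    (fun κ => (((nm κ : ℝ) ^ (-(1 / 3) : ℝ) : ℝ) : ℂ) * Vp κ m₁ m₂) (fun κ => by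
      unfold Vp
      rw [Eis.nm_neg, sy_neg κ h₁, sy_neg κ h₂])
  have e4 : (∑ κ ∈ JE D Y₀ Y₁ d, if (3 : ℤ) ∣ κ.im ∧ ∀ p ∈ pp d, ¬ p ^ 2 ∣ κ then
      (((nm κ : ℝ) ^ (-(1 / 3) : ℝ) : ℝ) : ℂ) * Vp κ m₁ m₂ else 0) =
      2 * ∑ κ ∈ KJ (JW D Y₀ Y₁) d, (((nm κ : ℝ) ^ (-(1 / 3) : ℝ) : ℝ) : ℂ) * Vp κ m₁ m₂ := by
    rw [← e3]
  rw [e1, e2, e4]
  unfold KS
  have e5 : ∀ κ : Eis, (if IsCoprime κ (m₁ * m₂) then
      (((nm κ : ℝ) ^ (-(1 : ℝ) / 3) : ℝ) : ℂ) * (Gh κ m₁ * conj (Gh κ m₂)) else 0) =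
      (G m₁ * conj (G m₂)) * ((((nm κ : ℝ) ^ (-(1 / 3) : ℝ) : ℝ) : ℂ) * Vp κ m₁ m₂) := by
    intro κ
    have e6 : (-(1 : ℝ) / 3) = -(1 / 3) := by norm_num
    rw [e6]
    split_ifs with hk
    · unfold Gh Vp
      simp only [map_mul, Complex.conj_conj]
      ring
    · have : Vp κ m₁ m₂ = 0 := by
        unfold Vp
        by_cases h3 : IsCoprime κ m₁
        · have h4 : ¬ IsCoprime κ m₂ := fun h => hk (h3.mul_right h)
          rw [Tau671.sy_eq_zero h₂ h4, mul_zero]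
        · rw [Tau671.sy_eq_zero h₁ h3, map_zero, zero_mul]
      rw [this]; ring
  simp only [e5]
  rw [← Finset.mul_sum]
  push_cast
  ring

open Classical in
/-- **the main term of E1 is `2 XJ`** -/
theorem main_E1 {α : Eis → ℂ} {T : Finset Eis} (hα : FQ α T) (D Y₀ Y₁ : ℝ) :
    (∑ d ∈ T, ∑ m₁ ∈ T, ∑ m₂ ∈ T, if IsCoprime m₁ m₂ then
      α (d * m₁) * conj (α (d * m₂)) * Mp (JE D Y₀ Y₁ d) d m₁ m₂ else 0) =
      2 * XJ (JW D Y₀ Y₁) α := by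
  rw [XJ_eq hα (okJ_JW D Y₀ Y₁), Finset.mul_sum]
  refine Finset.sum_congr rfl fun d hd => ?_
  rw [Finset.mul_sum]
  refine Finset.sum_congr rfl fun m₁ hm₁ => ?_
  rw [Finset.mul_sum]
  refine Finset.sum_congr rfl fun m₂ hm₂ => ?_
  by_cases hc : IsCoprime m₁ m₂
  · rw [if_pos hc, if_pos hc]
    by_cases h1 : α (d * m₁) = 0
    · rw [h1]; simp
    by_cases h2 : α (d * m₂) = 0
    · rw [h2]; simp
    have hs1 := squarefree_mul_iff.mp (hα.sqf _ h1)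
    have hs2 := squarefree_mul_iff.mp (hα.sqf _ h2)
    rw [Mp_JE (hα.D_prim d hd) hs1.2.1 (hα.D_prim _ hm₁) (hα.D_prim _ hm₂)
      (hs1.1.isCoprime.mul_right hs2.1.isCoprime)]
    simp only [map_mul, Complex.conj_ofReal]
    ring
  · rw [if_neg hc, if_neg hc, mul_zero]

end Crest.Agent.R017.SqLoc829
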