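import Crest.Agent.R017.BsB_521
import Crest.Agent.R017.RGwL_813
import Crest.Agent.R017.SqLoc2_829

/-!
# Row 17, C.REMg, the Bessel side, part C (helper521): the Bessel bound for a sequence

* `gwin` : the exponential window `e^{(u - x₀)/6}`
* `main_one` : the good classes from the lower bound (LB) of one sequence
* `bess_absorb` : **the Bessel bound**: (LB) and the square sum give the moment of the sequence
-/

set_option autoImplicit false

noncomputable section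

open Complex MeasureTheory Filter Topology Finset
open scoped ComplexConjugate Classical ContDiff

namespace Crest.Agent.R017.Bs521

open Crest.Agent.R012 Crest.Agent.R012.Eis Crest.Agent.R012.MC Crest.Agent.R012.Gauss880
open Crest.Agent.R012.Mob705 (PE)
open Crest.Agent.R012.LS2 (S mem_S bl mem_bl)
open Crest.Agent.R012.Weight600 (osc pw ker)
open Crest.Agent.R012.Char766 (sy_mul_left)
open Crest.Agent.R017.CM106 (CS TG FS)
open Crest.Agent.R017.C70 (JW JC)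
open Crest.Agent.R017.PX764 (n6 Gh)
open Crest.Agent.R017.E1551
open Crest.Agent.R017.Rough381 (VF)
open Crest.Agent.R017.Win813
open Crest.Agent.R017.RGw813

/-! ### the exponential window -/

theorem gwin {R : ℝ} (hR : 0 ≤ R) (A : ℕ) : ∃ C : ℝ, 0 ≤ C ∧ ∀ x₀ : ℝ, ∃ g : ℝ → ℝ, WK C 1 A g ∧
    ∀ u, |u - x₀| ≤ R → g u = Real.exp ((u - x₀) / 6) := by
  let b : ContDiffBump (0 : ℝ) := ⟨R + 1, R + 2, by linarith, by linarith⟩
  set f : ℝ → ℝ := fun u => b u * Real.exp (u / 6) with hf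
  set F : ℝ → ℂ := fun u => ((f u : ℝ) : ℂ) with hF
  have hf1 : ContDiff ℝ ∞ f := b.contDiff.mul (Real.contDiff_exp.comp (contDiff_id.div_const 6))
  have hF1 : ContDiff ℝ ∞ F := Complex.ofRealCLM.contDiff.comp hf1
  have hF2 : HasCompactSupport F := by
    have h1 : HasCompactSupport f := b.hasCompactSupport.mul_right
    exact h1.comp_left (g := fun x : ℝ => (x : ℂ)) Complex.ofReal_zero
  obtain ⟨C0, hC0, hdec⟩ := Weight600.ker_decay hF1 hF2 A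
  refine ⟨C0, hC0.le, fun x₀ => ⟨fun u => f (u - x₀), ?_, fun u hu => ?_⟩⟩
  · refine ⟨fun s => ker F s * osc s (-x₀), ?_, fun s => ?_, fun u => ?_⟩
    · exact (Weight600.continuous_ker (hF1.continuous.integrable_of_hasCompactSupport hF2)).mul
        (Weight600.continuous_osc_left _)
    · rw [norm_mul, Weight600.norm_osc, mul_one]
      unfold ew
      rw [one_mul, one_mul, ← div_eq_mul_inv, le_div_iff₀ (by positivity)]
      exact hdec s
    · have h1 := Weight600.inversion_smooth hF1 hF2 (u - x₀)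
      show F (u - x₀) = _
      rw [← h1]
      refine integral_congr_ae (Eventually.of_forall fun s => ?_)
      show ker F s * osc s (u - x₀) = ker F s * osc s (-x₀) * osc s u
      rw [mul_assoc, ← Weight600.osc_add_right]
      congr 2
      ring
  · show b (u - x₀) * Real.exp ((u - x₀) / 6) = _
    rw [b.one_of_mem_closedBall, one_mul]
    rw [Metric.mem_closedBall, dist_zero_right, Real.norm_eq_abs]
    exact hu.trans (by show R ≤ R + 1; linarith)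

/-! ### the good classes -/

lemma TG_neg {γ : Eis → ℂ} (h : FS γ) (κ : Eis) : TG γ (-κ) = TG γ κ := by
  unfold CM106.TG
  refine tsum_congr fun n => ?_
  by_cases h0 : γ n = 0
  · simp [h0]
  · have hn := h.prim n h0
    rw [show -κ = -1 * κ by ring, sy_mul_left hn, Crest.Agent.R012.Tau671.sy_neg_one hn, one_mul]

lemma nm_neg' (κ : Eis) : nm (-κ) = nm κ := by
  rw [show -κ = -1 * κ by ring, nm_mul]
  have : nm (-1 : Eis) = 1 := isUnit_iff.1 isUnit_one.neg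
  rw [this, one_mul]

lemma Wt_zero_nonneg {w : ℝ → ℝ} (hw0 : ∀ x, 0 ≤ w x) : 0 ≤ Wt w 0 := by
  unfold Wt
  have h1 : (∫ z : ℂ, (w (‖z‖ ^ 2) : ℂ) * eC (z * ((0 : ℝ) : ℂ))) =
      ((∫ z : ℂ, w (‖z‖ ^ 2) : ℝ) : ℂ) := by
    have h2 : (∫ z : ℂ, ((w (‖z‖ ^ 2) : ℝ) : ℂ)) = ((∫ z : ℂ, w (‖z‖ ^ 2) : ℝ) : ℂ) :=
      integral_ofReal
    rw [← h2]
    refine integral_congr_ae (Eventually.of_forall fun z => ?_)
    show (w (‖z‖ ^ 2) : ℂ) * eC (z * ((0 : ℝ) : ℂ)) = _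
    rw [Complex.ofReal_zero, mul_zero]
    have : eC 0 = 1 := by simp [eC]
    rw [this, mul_one]
  rw [h1, Complex.ofReal_re]
  exact integral_nonneg fun z => hw0 _

lemma Dg_nonneg {w : ℝ → ℝ} (hw0 : ∀ x, 0 ≤ w x) {K : ℝ} (hK : 0 ≤ K) (Y : ℝ) (α : Eis → ℂ) :
    0 ≤ Dg w K Y α := by
  unfold Dg
  refine mul_nonneg (mul_nonneg (by positivity) (Wt_zero_nonneg hw0)) ?_
  exact Finset.sum_nonneg fun d _ => mul_nonneg (Mob705.PE_pos d).le (sq_nonneg _)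

/-- **the good classes from (LB)** -/
theorem main_one {w : ℝ → ℝ} (hw0 : ∀ x, 0 ≤ w x) (hc : 0 < cP w) {K Y D : ℝ} (hK : 0 < K)
    (hY : 0 ≤ Y) (hD : 1 ≤ D) {N₀ N₁ : ℕ} (hN : N₀ ≤ N₁) {ρ : ℕ → ℝ} (hρ0 : ∀ n, 0 ≤ ρ n)
    (hρ1 : ∀ n ≤ N₀, ρ n = 1) {β : Eis → ℂ} (hF : FS β) (hβ : ∀ n, β n ≠ 0 → n ∈ S Y) {a b : ℝ}
    (h1 : Dg w K Y β + 2 * cP w * K ^ (2 / 3 : ℝ) * (XJw ρ (JW D (1 / 10) N₁) β).re -
      SqP w K β ≤ a) (h2 : SqP w K β ≤ b) {V : ℝ} (hV : V ≤ N₀) :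
    (∏ p ∈ PY Y, la p) * ∑ κ ∈ JG (1 / 10) V, (nm κ : ℝ) ^ (-(1 : ℝ) / 3) *
      ‖TG (fun m => ((n6 m : ℝ) : ℂ) * β m) κ‖ ^ 2 ≤ (a + b) / (cP w * K ^ (2 / 3 : ℝ)) := by
  set γ : Eis → ℂ := fun m => ((n6 m : ℝ) : ℂ) * β m with hγ
  have hFγ : FS γ := ⟨hF.fin.subset fun n hn => right_ne_zero_of_mul hn,
    fun n hn => hF.prim n (right_ne_zero_of_mul hn)⟩
  set f : Eis → ℝ := fun κ => (nm κ : ℝ) ^ (-(1 : ℝ) / 3) * ‖TG γ κ‖ ^ 2 with hf
  have hf0 : ∀ κ, 0 ≤ f κ := fun κ => by rw [hf]; positivity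
  have hfneg : ∀ κ, f (-κ) = f κ := fun κ => by
    simp only [hf]; rw [nm_neg', TG_neg hFγ]
  set Jc : Finset Eis := (JG (1 / 10) V).filter JC with hJc
  have hN' : (N₀ : ℝ) ≤ N₁ := by exact_mod_cast hN
  -- the classes
  have e1 : ∑ κ ∈ JG (1 / 10) V, f κ ≤ 2 * ∑ κ ∈ Jc, f κ := by
    have e2 : ∑ κ ∈ JG (1 / 10) V, f κ ≤ ∑ κ ∈ (JG (1 / 10) V).filter JC, f κ +
        ∑ κ ∈ (JG (1 / 10) V).filter (fun κ => JC (-κ)), f κ := by
      rw [Finset.sum_filter, Finset.sum_filter, ← Finset.sum_add_distrib]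
      refine Finset.sum_le_sum fun κ hκ => ?_
      have h3 := Finset.mem_filter.1 hκ
      have h4 := (mem_JB.1 h3.1).1
      rcases (SqLoc829.class_iff h4).1 h3.2 with h5 | h5
      · rw [if_pos h5]
        have : 0 ≤ (if JC (-κ) then f κ else 0) := by split_ifs <;> [exact hf0 κ; exact le_rfl]
        linarith
      · rw [if_pos h5]
        have : 0 ≤ (if JC κ then f κ else 0) := by split_ifs <;> [exact hf0 κ; exact le_rfl]
        linarith
    have e3 : ∑ κ ∈ (JG (1 / 10) V).filter (fun κ => JC (-κ)), f κ ≤ ∑ κ ∈ Jc, f κ := by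
      refine sum_le_inj _ Jc f f (fun κ _ => hf0 κ) (fun κ => -κ) (fun κ hκ => ?_)
        (fun κ _ => (hfneg κ).ge) (fun a _ b _ hab => neg_injective hab)
      obtain ⟨h3, h4⟩ := Finset.mem_filter.1 hκ
      have h5 := Finset.mem_filter.1 h3
      obtain ⟨h6, h7, h8⟩ := mem_JB.1 h5.1
      have hcf : CF (-κ) := SqLoc829.jc_cf h4
      refine Finset.mem_filter.2 ⟨Finset.mem_filter.2 ⟨mem_JB.2 ⟨hcf, ?_, ?_⟩, ?_⟩, h4⟩
      · rw [nm_neg']; exact h7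
      · rw [nm_neg']; exact h8
      · exact SqLoc829.jc_im h4
    calc ∑ κ ∈ JG (1 / 10) V, f κ ≤ _ := e2
      _ ≤ ∑ κ ∈ Jc, f κ + ∑ κ ∈ Jc, f κ := add_le_add le_rfl e3
      _ = _ := by ring
  -- the main form
  have e4 : (∏ p ∈ PY Y, la p) * ∑ κ ∈ Jc, f κ ≤ (XJw ρ (JW D (1 / 10) N₁) β).re := by
    have e5 : (XJw ρ (JW D (1 / 10) N₁) β).re =
        ∑ x ∈ JW D (1 / 10) N₁, ρ (nm (x.2 * x.1 ^ 2)) * (Xt β x).re := by
      unfold XJw
      rw [Complex.re_sum]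
      refine Finset.sum_congr rfl fun x _ => ?_
      rw [Complex.re_ofReal_mul]
      rfl
    rw [e5, Finset.mul_sum]
    refine sum_le_inj Jc (JW D (1 / 10) N₁) (fun κ => (∏ p ∈ PY Y, la p) * f κ)
      (fun x => ρ (nm (x.2 * x.1 ^ 2)) * (Xt β x).re) (fun x hx => ?_) (fun κ => (1, κ))
      (fun κ hκ => ?_) (fun κ hκ => ?_) (fun a _ b _ hab => (Prod.mk.inj hab).2)
    · have hx1 := ((C70.okJ_JW D (1 / 10) N₁).prim x hx).ne_zero
      exact mul_nonneg (hρ0 _) (Xt_nonneg hF hx1)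
    · obtain ⟨h3, h4⟩ := Finset.mem_filter.1 hκ
      have h5 := Finset.mem_filter.1 h3
      obtain ⟨h6, h7, h8⟩ := mem_JB.1 h5.1
      unfold JW
      rw [Finset.mem_filter, Finset.mem_product, mem_primBall, mem_ball]
      have h9 : nm (κ * 1 ^ 2) = nm κ := by rw [one_pow, mul_one]
      refine ⟨⟨⟨?_, isPrim_one⟩, ?_⟩, squarefree_one, h4, ?_, ?_⟩
      · show nm (1 : Eis) ≤ ⌊D⌋₊
        rw [nm_one]; exact Nat.le_floor (by exact_mod_cast hD)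
      · rw [Nat.floor_natCast]
        have : (nm κ : ℝ) ≤ N₁ := by linarith
        exact_mod_cast this
      · show (1 / 10 : ℝ) < nm (κ * 1 ^ 2)
        rw [h9]; exact h7
      · show (nm (κ * 1 ^ 2) : ℝ) ≤ N₁
        rw [h9]; linarith
    · obtain ⟨h3, h4⟩ := Finset.mem_filter.1 hκ
      have h5 := Finset.mem_filter.1 h3
      obtain ⟨h6, h7, h8⟩ := mem_JB.1 h5.1
      show (∏ p ∈ PY Y, la p) * f κ ≤ ρ (nm (κ * 1 ^ 2)) * (Xt β (1, κ)).re
      have h9 : nm (κ * 1 ^ 2) = nm κ := by rw [one_pow, mul_one]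
      have h10 : nm κ ≤ N₀ := by
        have : (nm κ : ℝ) ≤ N₀ := h8.trans hV
        exact_mod_cast this
      rw [h9, hρ1 _ h10, one_mul]
      exact Xt_all hF (fun n hn => ((mem_S hY).1 (hβ n hn)).1) κ
  have hcK : 0 < cP w * K ^ (2 / 3 : ℝ) := by positivity
  rw [le_div_iff₀ hcK]
  have hDg := Dg_nonneg hw0 hK.le Y β
  have hla := (prod_la_pos Y).le
  have e6 : (∏ p ∈ PY Y, la p) * ∑ κ ∈ JG (1 / 10) V, f κ ≤
      2 * (XJw ρ (JW D (1 / 10) N₁) β).re := by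
    calc (∏ p ∈ PY Y, la p) * ∑ κ ∈ JG (1 / 10) V, f κ ≤
        (∏ p ∈ PY Y, la p) * (2 * ∑ κ ∈ Jc, f κ) := mul_le_mul_of_nonneg_left e1 hla
      _ = 2 * ((∏ p ∈ PY Y, la p) * ∑ κ ∈ Jc, f κ) := by ring
      _ ≤ _ := mul_le_mul_of_nonneg_left e4 (by norm_num)
  calc (∏ p ∈ PY Y, la p) * (∑ κ ∈ JG (1 / 10) V, f κ) * (cP w * K ^ (2 / 3 : ℝ)) ≤
      2 * (XJw ρ (JW D (1 / 10) N₁) β).re * (cP w * K ^ (2 / 3 : ℝ)) :=
        mul_le_mul_of_nonneg_right e6 hcK.le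
    _ = 2 * cP w * K ^ (2 / 3 : ℝ) * (XJw ρ (JW D (1 / 10) N₁) β).re := by ring
    _ ≤ a + b := by linarith

/-- **all classes of a cube-free moment** -/
theorem cls1 {β : Eis → ℂ} (h : FS β) {V : ℝ} (hV : 0 ≤ V) :
    ∑ κ ∈ BF V, ‖TG β κ‖ ^ 2 ≤
      2 * ∑ p ∈ T9, ∑ κ ∈ JG (1 / 10) V, ‖TG (tw2 p.1 p.2 β) κ‖ ^ 2 := by
  have hK : (0 : ℝ) < 1 / (V + 1) := by positivity
  have h1 := cls_sum h (K := 1 / (V + 1)) (X := 1) (Y₀ := 1 / 10) (V := V) hK one_pos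
    (ρ := fun _ => 1) (fun _ _ _ => le_rfl) (fun _ => zero_le_one) (fun _ => le_rfl)
  have hlm : ∀ κ : Eis, CF κ → (nm κ : ℝ) ≤ V → min 1 (lm (1 / (V + 1)) 1 1 κ) = 1 := by
    intro κ hκ hκV
    refine min_eq_left ?_
    have h0 := nmpos hκ.1
    unfold lm
    rw [nm_one, Nat.cast_one, div_one, Real.one_rpow, one_mul]
    have h2 : (1 : ℝ) ≤ (1 / (V + 1) * nm κ) ^ (-(1 / 3) : ℝ) := by
      refine Real.one_le_rpow_of_pos_of_le_one_of_nonpos (by positivity) ?_ (by norm_num)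
      rw [div_mul_eq_mul_div, one_mul, div_le_one (by positivity)]
      linarith
    linarith
  have e1 : ∑ κ ∈ BF V, ‖TG β κ‖ ^ 2 = ∑ κ ∈ JB (1 / 10) V,
      (fun _ => (1 : ℝ)) (nm κ) * min 1 (lm (1 / (V + 1)) 1 1 κ) * ‖TG β κ‖ ^ 2 := by
    have : JB (1 / 10) V = BF V := by
      unfold RGw813.JB
      refine Finset.filter_true_of_mem fun κ hκ => ?_
      have := nm_ge_one (mem_BF.1 hκ).1.1
      linarith
    rw [this]
    refine Finset.sum_congr rfl fun κ hκ => ?_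
    rw [hlm κ (mem_BF.1 hκ).1 (mem_BF.1 hκ).2]
    ring
  rw [e1]
  refine h1.trans (le_of_eq ?_)
  congr 1
  refine Finset.sum_congr rfl fun p _ => ?_
  rw [BF_empty (by norm_num), Finset.sum_empty, add_zero]
  refine Finset.sum_congr rfl fun κ hκ => ?_
  have h3 := (Finset.mem_filter.1 hκ).1
  obtain ⟨h6, h7, h8⟩ := mem_JB.1 h3
  rw [hlm κ h6 h8]
  ring

/-- **one window**, one twist -/
theorem win_one {R : ℝ} {Aw J : ℕ} (hJA : J + 2 ≤ Aw) {Cg : ℝ} (hCg : 0 ≤ Cg)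
    {g : ℝ → ℝ} {X : ℝ} (hX : 0 < X) (hg : WK Cg 1 Aw g)
    (hg1 : ∀ u, |u - Real.log X| ≤ R → g u = Real.exp ((u - Real.log X) / 6))
    {β : Eis → ℂ} (hF : FS β) (hβ : ∀ n, β n ≠ 0 → |Real.log (nm n) - Real.log X| ≤ R)
    (T : Finset Eis) {M : ℝ} (hM0 : 0 ≤ M)
    (hM : ∀ t : ℝ, ∑ κ ∈ T, ‖TG (fun n => ((n6 n : ℝ) : ℂ) * (β n * pw t (nm n))) κ‖ ^ 2 ≤
      M * (1 + |t|) ^ J) :
    ∑ κ ∈ T, ‖TG β κ‖ ^ 2 ≤ X ^ (1 / 3 : ℝ) * (Cg ^ 2 * iA Aw * (iA 2 * M)) := by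
  set γ : Eis → ℂ := fun n => ((n6 n : ℝ) : ℂ) * β n with hγ
  have hFγ : FS γ := ⟨hF.fin.subset fun n hn => right_ne_zero_of_mul hn,
    fun n hn => hF.prim n (right_ne_zero_of_mul hn)⟩
  have h1 := PT_win hCg one_pos le_rfl hJA hg hFγ (g := 1) one_ne_zero (W := fun _ => 1) (T := T)
    (fun _ _ => zero_le_one) hM0 (fun t => by
      refine le_trans (le_of_eq ?_) (hM t)
      unfold PT
      refine Finset.sum_congr rfl fun κ _ => ?_
      rw [one_mul, tgf_one]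
      congr 2
      congr 1
      funext n
      rw [hγ]; ring) 0
  have e1 : PT (fun _ => 1) T (wn g γ) 1 0 = X ^ (-(1 / 3) : ℝ) * ∑ κ ∈ T, ‖TG β κ‖ ^ 2 := by
    unfold PT
    rw [Finset.mul_sum]
    refine Finset.sum_congr rfl fun κ _ => ?_
    rw [one_mul, tgf_zero]
    have e2 : wn g γ = fun n => ((X ^ (-(1 / 6) : ℝ) : ℝ) : ℂ) * β n := by
      funext n
      unfold wn
      rw [hγ]
      by_cases h0 : β n = 0
      · simp [h0]
      · have hn := (hF.prim n h0).ne_zero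
        have hn0 : (0 : ℝ) < nm n := by exact_mod_cast nm_pos.2 hn
        rw [hg1 _ (hβ n h0)]
        have e3 : n6 n * Real.exp ((Real.log (nm n) - Real.log X) / 6) = X ^ (-(1 / 6) : ℝ) := by
          unfold n6
          rw [Real.rpow_def_of_pos hn0, Real.rpow_def_of_pos hX, ← Real.exp_add]
          congr 1; ring
        have e4 : ((n6 n : ℝ) : ℂ) * ((Real.exp ((Real.log (nm n) - Real.log X) / 6) : ℝ) : ℂ) =
            ((X ^ (-(1 / 6) : ℝ) : ℝ) : ℂ) := by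
          rw [← Complex.ofReal_mul, e3]
        calc ((n6 n : ℝ) : ℂ) * β n *
              ((Real.exp ((Real.log (nm n) - Real.log X) / 6) : ℝ) : ℂ) =
            (((n6 n : ℝ) : ℂ) * ((Real.exp ((Real.log (nm n) - Real.log X) / 6) : ℝ) : ℂ)) * β n := by
              ring
          _ = _ := by rw [e4]
    have e5 : TG (wn g γ) κ = ((X ^ (-(1 / 6) : ℝ) : ℝ) : ℂ) * TG β κ := by
      rw [e2]
      unfold CM106.TG
      rw [← tsum_mul_left]
      exact tsum_congr fun n => by ring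
    rw [e5, norm_mul, mul_pow, Complex.norm_real, Real.norm_of_nonneg (by positivity),
      ← Real.rpow_natCast, ← Real.rpow_mul hX.le]
    congr 2
    norm_num
  rw [e1] at h1
  have hX3 : X ^ (1 / 3 : ℝ) * X ^ (-(1 / 3) : ℝ) = 1 := by
    rw [← Real.rpow_add hX]; norm_num
  have hX0 : 0 ≤ X ^ (1 / 3 : ℝ) := by positivity
  calc ∑ κ ∈ T, ‖TG β κ‖ ^ 2 = X ^ (1 / 3 : ℝ) * (X ^ (-(1 / 3) : ℝ) * ∑ κ ∈ T, ‖TG β κ‖ ^ 2) := by
        rw [← mul_assoc, hX3, one_mul]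
    _ ≤ X ^ (1 / 3 : ℝ) * (Cg ^ 2 * iA Aw * (iA 2 * ((1 : ℝ)⁻¹) ^ J * (M * (1 + |(0 : ℝ)|) ^ J))) :=
        mul_le_mul_of_nonneg_left h1 hX0
    _ = _ := by rw [abs_zero, add_zero, inv_one, one_pow, mul_one, mul_one]

end Crest.Agent.R017.Bs521
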