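import Crest.Agent.R017.RGh_64
import Crest.Agent.R017.BsC_521

/-!
# Row 17, C.REMg, the Bessel side, part E (helper521): the Bessel bound for a sequence

* `SQn` : the square sum of the windowed twists, as consumed here
* `bess_absorb` : **the Bessel bound**: (LB) and the square sum give the moment of the sequence
-/

set_option autoImplicit false

noncomputable section

open Complex MeasureTheory Filter Topology Finset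
open scoped ComplexConjugate Classical ContDiff

namespace Crest.Agent.R017.Bs521

open Crest.Agent.R012 Crest.Agent.R012.Eis Crest.Agent.R012.MC Crest.Agent.R012.Gauss880
open Crest.Agent.R012.Mob705 (PE)
open Crest.Agent.R012.LS2 (S mem_S bl mem_bl)
open Crest.Agent.R012.Weight600 (osc pw ker)
open Crest.Agent.R017.CM106 (CS TG FS)
open Crest.Agent.R017.C70 (JW JC)
open Crest.Agent.R017.PX764 (n6 Gh)
open Crest.Agent.R017.E1551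
open Crest.Agent.R017.Rough381 (VF)
open Crest.Agent.R017.Win813
open Crest.Agent.R017.RGw813
open Crest.Agent.R017.RG64 (LBn)

/-- the square sum of the windowed twists of `α`, as consumed by `bess_absorb` -/
def SQn (w : ℝ → ℝ) (Cw η : ℝ) (Aw : ℕ) (K X R : ℝ) (J : ℕ) (α : Eis → ℂ) (E : ℝ) : Prop :=
  ∀ p ∈ T9, ∀ (t X' : ℝ) (φ : ℝ → ℝ), 0 < X' → |Real.log X' - Real.log X| ≤ R + 1 →
    WK Cw η Aw φ → (∀ u, φ u ≠ 0 → |u - Real.log X'| ≤ η / 2) →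
    SqP w K (fun n => bt φ α p n * pw t (nm n)) ≤ (K / X) * (E * (1 + |t|) ^ J)

/-- `main_one` for an arbitrary number in place of the square sum -/
theorem main_oneG {w : ℝ → ℝ} (hw0 : ∀ x, 0 ≤ w x) (hc : 0 < cP w) {K Y D : ℝ} (hK : 0 < K)
    (hY : 0 ≤ Y) (hD : 1 ≤ D) {N₀ N₁ : ℕ} (hN : N₀ ≤ N₁) {ρ : ℕ → ℝ} (hρ0 : ∀ n, 0 ≤ ρ n)
    (hρ1 : ∀ n ≤ N₀, ρ n = 1) {β : Eis → ℂ} (hF : FS β) (hβ : ∀ n, β n ≠ 0 → n ∈ S Y)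
    {s a b : ℝ} (h1 : Dg w K Y β + 2 * cP w * K ^ (2 / 3 : ℝ) *
      (XJw ρ (JW D (1 / 10) N₁) β).re - s ≤ a) (h2 : s ≤ b) {V : ℝ} (hV : V ≤ N₀) :
    (∏ p ∈ PY Y, la p) * ∑ κ ∈ JG (1 / 10) V, (nm κ : ℝ) ^ (-(1 : ℝ) / 3) *
      ‖TG (fun m => ((n6 m : ℝ) : ℂ) * β m) κ‖ ^ 2 ≤ (a + b) / (cP w * K ^ (2 / 3 : ℝ)) := by
  have h3 := main_one hw0 hc hK hY hD hN hρ0 hρ1 hF hβ (a := a + s - SqP w K β)
    (b := SqP w K β) (by linarith) le_rfl hV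
  refine h3.trans ?_
  have hcK : 0 < cP w * K ^ (2 / 3 : ℝ) := by positivity
  exact div_le_div_of_nonneg_right (by linarith) hcK.le

/-- powers of one window -/
lemma bess_pow {V K X c : ℝ} (hV : 0 < V) (hK : 0 < K) (hX : 0 < X) (hc : 0 < c) (u e : ℝ) :
    X ^ (1 / 3 : ℝ) * (V ^ (1 / 3 : ℝ) * (u * ((K / X) * e / (c * K ^ (2 / 3 : ℝ))))) =
      (V * K / X ^ 2) ^ (1 / 3 : ℝ) * (u * e / c) := by
  have e1 : (V * K / X ^ 2) ^ (1 / 3 : ℝ) =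
      V ^ (1 / 3 : ℝ) * K ^ (1 / 3 : ℝ) * (X ^ (1 / 3 : ℝ) / X) := by
    rw [Real.div_rpow (by positivity) (by positivity), Real.mul_rpow hV.le hK.le,
      ← Real.rpow_natCast, ← Real.rpow_mul hX.le]
    have h1 : X ^ (1 / 3 : ℝ) / X = (X ^ (((2 : ℕ) : ℝ) * (1 / 3 : ℝ)))⁻¹ := by
      rw [div_eq_mul_inv, ← Real.rpow_neg hX.le]
      nth_rewrite 2 [← Real.rpow_one X]
      rw [← Real.rpow_neg hX.le, ← Real.rpow_add hX]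
      congr 1; push_cast; ring
    rw [h1, div_eq_mul_inv]
  have e2 : K / K ^ (2 / 3 : ℝ) = K ^ (1 / 3 : ℝ) := by
    nth_rewrite 1 [← Real.rpow_one K]
    rw [← Real.rpow_sub hK]; congr 1; norm_num
  rw [e1, ← e2]
  have : K ^ (2 / 3 : ℝ) ≠ 0 := by positivity
  field_simp

set_option maxHeartbeats 1600000 in
/-- **the Bessel bound of a sequence**, `Sq` = the quadratic form of the test (`SqP w K`, or
`SqQ w K Q` with any predicate `Q`) -/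
theorem bess_absorbG {w : ℝ → ℝ} (hw0 : ∀ x, 0 ≤ w x) (hc : 0 < cP w) (J Aw : ℕ) (R ε : ℝ)
    (hJA : J + 2 ≤ Aw) (hR : 0 ≤ R) (hε : 0 < ε) :
    ∃ Cw C : ℝ, 0 ≤ Cw ∧ 1 ≤ C ∧
    ∀ (K X Y η D : ℝ) (N₀ N₁ : ℕ) (ρ : ℕ → ℝ), 0 < K → 0 < X → 1 ≤ Y → 0 < η → η ≤ 1 →
      1 ≤ D → N₀ ≤ N₁ → (∀ n, 0 ≤ ρ n) → (∀ n ≤ N₀, ρ n = 1) →
      ∀ α : Eis → ℂ, (∀ n, α n ≠ 0 → n ∈ S Y) →
      (∀ n, α n ≠ 0 → |Real.log (nm n) - Real.log X| ≤ R) →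
      ∀ (Sq : (Eis → ℂ) → ℝ) (E Es : ℝ), 0 ≤ E → 0 ≤ Es →
      (∀ p ∈ T9, ∀ (t X' : ℝ) (φ : ℝ → ℝ), 0 < X' → |Real.log X' - Real.log X| ≤ R + 1 →
        WK Cw η Aw φ → (∀ u, φ u ≠ 0 → |u - Real.log X'| ≤ η / 2) →
        Dg w K Y (fun n => bt φ α p n * pw t (nm n)) + 2 * cP w * K ^ (2 / 3 : ℝ) *
          (XJw ρ (JW D (1 / 10) N₁) (fun n => bt φ α p n * pw t (nm n))).re -
        Sq (fun n => bt φ α p n * pw t (nm n)) ≤ (K / X) * (E * (1 + |t|) ^ J)) →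
      (∀ p ∈ T9, ∀ (t X' : ℝ) (φ : ℝ → ℝ), 0 < X' → |Real.log X' - Real.log X| ≤ R + 1 →
        WK Cw η Aw φ → (∀ u, φ u ≠ 0 → |u - Real.log X'| ≤ η / 2) →
        Sq (fun n => bt φ α p n * pw t (nm n)) ≤ (K / X) * (Es * (1 + |t|) ^ J)) →
      ∀ V : ℝ, 1 ≤ V → V ≤ N₀ →
      VF V α ≤ C * (η⁻¹) ^ 2 * Y ^ ε * ((V * K / X ^ 2) ^ (1 / 3 : ℝ)) * (E + Es) := by
  obtain ⟨Cw, hCw, h3⟩ := windows R hR Aw
  obtain ⟨Cg, hCg, hg⟩ := gwin hR Aw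
  obtain ⟨Cp, hCp, hprod⟩ := inv_prod_le hε
  have hi2 := iA_nonneg 2
  have hiA := iA_nonneg Aw
  set C₁ : ℝ := Cw ^ 2 * (2 * (9 * (Cg ^ 2 * iA Aw * (iA 2 * (Cp / cP w))))) with hC₁
  have hC₁0 : 0 ≤ C₁ := by positivity
  refine ⟨Cw, C₁ + 1, by linarith, by linarith, ?_⟩
  intro K X Y η D N₀ N₁ ρ hK hX hY hη hη1 hD hN hρ0 hρ1 α hα hαR Sq E Es hE hEs hLB hSQ V hV hVN
  have hY0 : 0 ≤ Y := by linarith
  have hV0 : 0 < V := by linarith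
  have hF := FS_of_S hY0 hα
  obtain ⟨I, φ, x, hI, hone, hx, hsupp, hWK⟩ := h3 η hη hη1 (Real.log X)
  obtain ⟨g, hgW, hg1⟩ := hg (Real.log X)
  set u : ℝ := (∏ p ∈ PY Y, la p)⁻¹ with hu
  have hu0 : 0 < u := inv_pos.mpr (prod_la_pos Y)
  have huC : u ≤ Cp * Y ^ ε := hprod Y hY
  set M : ℝ := V ^ (1 / 3 : ℝ) * (u * ((K / X) * (E + Es) / (cP w * K ^ (2 / 3 : ℝ)))) with hM
  have hM0 : 0 ≤ M := by positivity
  -- one window, one twist, one height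
  have hone_t : ∀ i ∈ I, ∀ p ∈ T9, ∀ t : ℝ,
      ∑ κ ∈ JG (1 / 10) V, ‖TG (fun n => ((n6 n : ℝ) : ℂ) *
        (bt (φ i) α p n * pw t (nm n))) κ‖ ^ 2 ≤ M * (1 + |t|) ^ J := by
    intro i hi p hp t
    set X' : ℝ := Real.exp (x i) with hX'
    have hX'0 : 0 < X' := Real.exp_pos _
    have hlX : Real.log X' = x i := Real.log_exp _
    have hcl : |Real.log X' - Real.log X| ≤ R + 1 := by rw [hlX]; exact hx i hi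
    have hsupp' : ∀ u, φ i u ≠ 0 → |u - Real.log X'| ≤ η / 2 := fun u hu => by
      rw [hlX]; exact hsupp i u hu
    have hP0 : (0 : ℝ) ≤ (1 + |t|) ^ J := by positivity
    have hFb := FS_bt hF (φ i) p
    have hFβ : FS (fun n => bt (φ i) α p n * pw t (nm n)) :=
      ⟨hFb.fin.subset fun n hn => left_ne_zero_of_mul hn,
        fun n hn => hFb.prim n (left_ne_zero_of_mul hn)⟩
    have hβS : ∀ n, bt (φ i) α p n * pw t (nm n) ≠ 0 → n ∈ S Y := fun n hn =>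
      hα n (wn_ne (tw2_ne (left_ne_zero_of_mul hn))).1
    have h4 := main_oneG hw0 hc hK hY0 hD hN hρ0 hρ1 hFβ hβS
      (hLB p hp t X' (φ i) hX'0 hcl (hWK i) hsupp')
      (hSQ p hp t X' (φ i) hX'0 hcl (hWK i) hsupp') hVN
    have h5 : (∏ p ∈ PY Y, la p) * (V ^ (-(1 : ℝ) / 3) * ∑ κ ∈ JG (1 / 10) V,
        ‖TG (fun n => ((n6 n : ℝ) : ℂ) * (bt (φ i) α p n * pw t (nm n))) κ‖ ^ 2) ≤
        ((K / X) * (E * (1 + |t|) ^ J) + (K / X) * (Es * (1 + |t|) ^ J)) /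
          (cP w * K ^ (2 / 3 : ℝ)) := by
      refine le_trans (mul_le_mul_of_nonneg_left ?_ (prod_la_pos Y).le) h4
      rw [Finset.mul_sum]
      refine Finset.sum_le_sum fun κ hκ => ?_
      obtain ⟨h6, h7, h8⟩ := mem_JB.1 (Finset.mem_filter.1 hκ).1
      have hn0 : (0 : ℝ) < nm κ := nmpos h6.1
      refine mul_le_mul_of_nonneg_right ?_ (by positivity)
      exact Real.rpow_le_rpow_of_nonpos hn0 h8 (by norm_num)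
    have hVV : V ^ (1 / 3 : ℝ) * V ^ (-(1 : ℝ) / 3) = 1 := by
      rw [← Real.rpow_add hV0]; norm_num
    have hpi : 0 < ∏ p ∈ PY Y, la p := prod_la_pos Y
    have hV3 : 0 < V ^ (1 / 3 : ℝ) := by positivity
    calc ∑ κ ∈ JG (1 / 10) V, ‖TG (fun n => ((n6 n : ℝ) : ℂ) *
          (bt (φ i) α p n * pw t (nm n))) κ‖ ^ 2
        = V ^ (1 / 3 : ℝ) * (u * ((∏ p ∈ PY Y, la p) * (V ^ (-(1 : ℝ) / 3) *
          ∑ κ ∈ JG (1 / 10) V, ‖TG (fun n => ((n6 n : ℝ) : ℂ) *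
            (bt (φ i) α p n * pw t (nm n))) κ‖ ^ 2))) := by
          rw [← mul_assoc u, hu, inv_mul_cancel₀ hpi.ne', one_mul, ← mul_assoc, hVV, one_mul]
      _ ≤ V ^ (1 / 3 : ℝ) * (u * (((K / X) * (E * (1 + |t|) ^ J) +
          (K / X) * (Es * (1 + |t|) ^ J)) / (cP w * K ^ (2 / 3 : ℝ)))) :=
          mul_le_mul_of_nonneg_left (mul_le_mul_of_nonneg_left h5 hu0.le) hV3.le
      _ = M * (1 + |t|) ^ J := by rw [hM]; ring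
  -- one window, one twist
  have hone_p : ∀ i ∈ I, ∀ p ∈ T9, ∑ κ ∈ JG (1 / 10) V, ‖TG (bt (φ i) α p) κ‖ ^ 2 ≤
      X ^ (1 / 3 : ℝ) * (Cg ^ 2 * iA Aw * (iA 2 * M)) := by
    intro i hi p hp
    exact win_one hJA hCg hX hgW hg1 (FS_bt hF (φ i) p)
      (fun n hn => hαR n (wn_ne (tw2_ne hn)).1) (JG (1 / 10) V) hM0 (hone_t i hi p hp)
  -- one window
  have hwin : ∀ i ∈ I, ∑ κ ∈ BF V, ‖TG (wn (φ i) α) κ‖ ^ 2 ≤
      2 * (9 * (X ^ (1 / 3 : ℝ) * (Cg ^ 2 * iA Aw * (iA 2 * M)))) := by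
    intro i hi
    have hFw : FS (wn (φ i) α) := ⟨hF.fin.subset fun n hn => (wn_ne hn).1,
      fun n hn => hF.prim n (wn_ne hn).1⟩
    refine (cls1 hFw hV0.le).trans (mul_le_mul_of_nonneg_left ?_ (by norm_num))
    refine (Finset.sum_le_sum fun p hp => hone_p i hi p hp).trans (le_of_eq ?_)
    rw [Finset.sum_const, nsmul_eq_mul, card_T9]
  -- recombination
  have hrec := KS_windows (fun l m => G m * conj (sy l m)) hF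
    (fun n hn => hone (Real.log (nm n)) (hαR n hn)) (one_ne_zero : (1 : Eis) ≠ 0)
    (BF V) (fun _ => (1 : ℝ)) (fun κ _ => zero_le_one) (fun κ => κ) 0
  have e1 : ∑ κ ∈ BF V, ‖TG α κ‖ ^ 2 = ∑ κ ∈ BF V, (1 : ℝ) * tgf α 1 κ 0 :=
    Finset.sum_congr rfl fun κ _ => by rw [tgf_zero, one_mul]
  have e2 : ∀ i, ∑ κ ∈ BF V, (1 : ℝ) * tgf (wn (φ i) α) 1 κ 0 =
      ∑ κ ∈ BF V, ‖TG (wn (φ i) α) κ‖ ^ 2 := fun i =>
    Finset.sum_congr rfl fun κ _ => by rw [tgf_zero, one_mul]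
  have e3 : VF V α ≤ ∑ κ ∈ BF V, ‖TG α κ‖ ^ 2 := by
    unfold Rough381.VF
    refine Finset.sum_le_sum_of_subset_of_nonneg ?_ fun κ _ _ => by positivity
    intro κ hκ
    obtain ⟨h1, h2⟩ := Finset.mem_filter.1 hκ
    rw [mem_bl hV0.le] at h1
    exact mem_BF.2 ⟨h2, h1.2⟩
  have h7 : ∑ i ∈ I, ∑ κ ∈ BF V, (1 : ℝ) * tgf (wn (φ i) α) 1 κ 0 ≤
      (I.card : ℝ) * (2 * (9 * (X ^ (1 / 3 : ℝ) * (Cg ^ 2 * iA Aw * (iA 2 * M))))) := by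
    calc ∑ i ∈ I, ∑ κ ∈ BF V, (1 : ℝ) * tgf (wn (φ i) α) 1 κ 0 ≤
          ∑ _i ∈ I, 2 * (9 * (X ^ (1 / 3 : ℝ) * (Cg ^ 2 * iA Aw * (iA 2 * M)))) :=
          Finset.sum_le_sum fun i hi => by rw [e2]; exact hwin i hi
      _ = _ := by rw [Finset.sum_const, nsmul_eq_mul]
  have hI0 : (0 : ℝ) ≤ I.card := Nat.cast_nonneg _
  have hI' : (I.card : ℝ) ≤ Cw * η⁻¹ := by rw [← div_eq_mul_inv]; exact hI
  have hηi0 : 0 < η⁻¹ := inv_pos.mpr hη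
  have hB0 : 0 ≤ 2 * (9 * (X ^ (1 / 3 : ℝ) * (Cg ^ 2 * iA Aw * (iA 2 * M)))) := by positivity
  have hVK : 0 ≤ (V * K / X ^ 2) ^ (1 / 3 : ℝ) := by positivity
  have hYe : 0 < Y ^ ε := by positivity
  have hpow := bess_pow hV0 hK hX hc u (E + Es)
  calc VF V α ≤ ∑ κ ∈ BF V, ‖TG α κ‖ ^ 2 := e3
    _ = ∑ κ ∈ BF V, (1 : ℝ) * tgf α 1 κ 0 := e1
    _ ≤ (I.card : ℝ) * ∑ i ∈ I, ∑ κ ∈ BF V, (1 : ℝ) * tgf (wn (φ i) α) 1 κ 0 := hrec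
    _ ≤ (I.card : ℝ) * ((I.card : ℝ) *
        (2 * (9 * (X ^ (1 / 3 : ℝ) * (Cg ^ 2 * iA Aw * (iA 2 * M)))))) :=
        mul_le_mul_of_nonneg_left h7 hI0
    _ ≤ (Cw * η⁻¹) * ((Cw * η⁻¹) *
        (2 * (9 * (X ^ (1 / 3 : ℝ) * (Cg ^ 2 * iA Aw * (iA 2 * M)))))) := by gcongr
    _ = Cw ^ 2 * (2 * (9 * (Cg ^ 2 * iA Aw * iA 2))) * (η⁻¹) ^ 2 *
        (X ^ (1 / 3 : ℝ) * M) := by ring
    _ = Cw ^ 2 * (2 * (9 * (Cg ^ 2 * iA Aw * iA 2))) * (η⁻¹) ^ 2 *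
        ((V * K / X ^ 2) ^ (1 / 3 : ℝ) * (u * (E + Es) / cP w)) := by rw [hM, hpow]
    _ ≤ Cw ^ 2 * (2 * (9 * (Cg ^ 2 * iA Aw * iA 2))) * (η⁻¹) ^ 2 *
        ((V * K / X ^ 2) ^ (1 / 3 : ℝ) * ((Cp * Y ^ ε) * (E + Es) / cP w)) := by gcongr
    _ = C₁ * ((η⁻¹) ^ 2 * Y ^ ε * ((V * K / X ^ 2) ^ (1 / 3 : ℝ)) * (E + Es)) := by
        rw [hC₁]; ring
    _ ≤ (C₁ + 1) * ((η⁻¹) ^ 2 * Y ^ ε * ((V * K / X ^ 2) ^ (1 / 3 : ℝ)) * (E + Es)) := by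
        gcongr; linarith
    _ = _ := by ring

/-- **the Bessel bound of a sequence**, all frequencies -/
theorem bess_absorb {w : ℝ → ℝ} (hw0 : ∀ x, 0 ≤ w x) (hc : 0 < cP w) (J Aw : ℕ) (R ε : ℝ)
    (hJA : J + 2 ≤ Aw) (hR : 0 ≤ R) (hε : 0 < ε) :
    ∃ Cw C : ℝ, 0 ≤ Cw ∧ 1 ≤ C ∧
    ∀ (K X Y η D : ℝ) (N₀ N₁ : ℕ) (ρ : ℕ → ℝ), 0 < K → 0 < X → 1 ≤ Y → 0 < η → η ≤ 1 →
      1 ≤ D → N₀ ≤ N₁ → (∀ n, 0 ≤ ρ n) → (∀ n ≤ N₀, ρ n = 1) →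
      ∀ α : Eis → ℂ, (∀ n, α n ≠ 0 → n ∈ S Y) →
      (∀ n, α n ≠ 0 → |Real.log (nm n) - Real.log X| ≤ R) →
      ∀ E Es : ℝ, 0 ≤ E → 0 ≤ Es → LBn w Cw η Aw K X Y D N₁ ρ R J α E →
      SQn w Cw η Aw K X R J α Es →
      ∀ V : ℝ, 1 ≤ V → V ≤ N₀ →
      VF V α ≤ C * (η⁻¹) ^ 2 * Y ^ ε * ((V * K / X ^ 2) ^ (1 / 3 : ℝ)) * (E + Es) := by
  obtain ⟨Cw, C, hCw, hC, h⟩ := bess_absorbG hw0 hc J Aw R ε hJA hR hε
  refine ⟨Cw, C, hCw, hC, ?_⟩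
  intro K X Y η D N₀ N₁ ρ hK hX hY hη hη1 hD hN hρ0 hρ1 α hα hαR E Es hE hEs hLB hSQ V hV hVN
  exact h K X Y η D N₀ N₁ ρ hK hX hY hη hη1 hD hN hρ0 hρ1 α hα hαR (SqP w K) E Es hE hEs hLB hSQ
    V hV hVN

end Crest.Agent.R017.Bs521
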