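import Crest.Agent.R017.E3Mh_829
import Crest.Agent.R017.I1b_146

/-!
# Row 17, block C70, leaf E3 (helper829): the hypothesis of (I1) from the off-diagonal bound

* `XT_eq` : `XT J om E0 (Tal α) = (X3 Y E0 J om α).re`
* **`gram_X3`** : `GrP w K (cut StE) ≤ c3 w K · (X3 Y E0 J om α).re + e₃`
-/

set_option autoImplicit false

noncomputable section

open scoped ComplexConjugate
open Finset MeasureTheory

namespace Crest.Agent.R017.E3M829

open Crest.Agent.R012 Crest.Agent.R012.Eis Crest.Agent.R012.Gauss880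
open Crest.Agent.R012.LS2 (S mem_S)
open Crest.Agent.R012.Mob705 (mu IsPP pdiv mem_pdiv cop mem_cop pb mem_pb kap0 kap0_pos PE PE_pos
  PE_le_one)
open Crest.Agent.R012.Div277 (tau)
open Crest.Agent.R017.PX764 Crest.Agent.R017.C70 Crest.Agent.R017.GrB829
open Crest.Agent.R017.E3s164 Crest.Agent.R017.E3A164
open Crest.Agent.R017.GrC829 (Wt)
open Crest.Agent.R017.DgB829
open Crest.Agent.R017.DgA829 (lc)
open Crest.Agent.R017.I1146 (BB px trunc X3 c3)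
open Crest.Agent.R017.LB48 (GrP)

lemma TC_Tal {α : Eis → ℂ} (hα : ∀ n, α n ≠ 0 → Squarefree n) : TC (Tal α) := by
  classical
  intro d e j h
  have h1 := Tal_cop d e j h
  have h2 : ∃ m : Eis, e ∣ m ∧ IsCoprime j (d * m) ∧ α (d * m) ≠ 0 := by
    by_contra hh
    push Not at hh
    apply h
    unfold Tal E2440.TE
    have h0 : ∀ m : Eis, (if e ∣ m ∧ IsCoprime (d, j).2 ((d, j).1 * m) then
        α ((d, j).1 * m) * ((n6 m : ℂ) * Gh (d, j).2 m) else 0) = 0 := by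
      intro m
      split_ifs with hc
      · rw [show α ((d, j).1 * m) = 0 from hh m hc.1 hc.2]
        ring
      · rfl
    rw [tsum_congr h0, tsum_zero]
  obtain ⟨m, hem, hjm, hm⟩ := h2
  have h3 : IsCoprime d m := (squarefree_mul_iff.mp (hα _ hm)).1.isCoprime
  exact ⟨h1, hjm.of_mul_right_left, (h3.of_isCoprime_of_dvd_right hem).symm⟩

lemma BB_trunc {E0 Y : ℝ} (hE : 0 ≤ E0) (hEY : E0 ≤ Y) (U : Eis → ℂ) :
    BB Y (trunc E0 U) (trunc E0 U) = BT E0 U U := by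
  classical
  unfold BB BT
  rw [sum_in hE hEY]
  refine sum_congr rfl fun t _ => sum_congr rfl fun t' _ => ?_
  unfold trunc
  by_cases h1 : t ∈ S E0 <;> by_cases h2 : t' ∈ S E0 <;> simp [h1, h2]

lemma XT_eq {E0 Y : ℝ} (hE : 0 ≤ E0) (hEY : E0 ≤ Y) (J : Finset (Eis × Eis))
    (om : Eis × Eis → ℂ) (α : Eis → ℂ) :
    XT J om E0 (Tal α) = (X3 Y E0 J om α).re := by
  unfold XT X3
  rw [Complex.re_sum]
  refine sum_congr rfl fun x _ => ?_
  rw [BB_trunc hE hEY, ← Complex.ofReal_mul, Complex.re_ofReal_mul]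
  rfl

lemma c3_eq (w : ℝ → ℝ) (K : ℝ) : c3 w K = kap0 * K ^ (2 / 3 : ℝ) * Iw w := by
  unfold I1146.c3 MC.mel Iw
  have e1 : ∫ x in Set.Ioi (0 : ℝ), w x * x ^ ((2 : ℝ) / 3 - 1) =
      ∫ t in Set.Ioi (0 : ℝ), t ^ (-(1 : ℝ) / 3) * w t := by
    refine integral_congr_ae (Filter.Eventually.of_forall fun t => ?_)
    simp only
    rw [show (2 : ℝ) / 3 - 1 = -1 / 3 by norm_num, mul_comm]
  rw [e1]
  ring

variable {w : ℝ → ℝ} {W a₀ b₀ D K B E0 R τ : ℝ}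

/-- the error -/
def e3M (a₀ b₀ D W K B τ : ℝ) (J : Finset (Eis × Eis)) (om : Eis × Eis → ℂ) (E0 : ℝ)
    (α : Eis → ℂ) (OFF : ℝ) : ℝ :=
  ET a₀ b₀ D K J om E0 (Tal α) + MB W b₀ K B τ J om E0 (Tal α) + OFF

/-- **the hypothesis of 146's (I1)** -/
theorem gram_X3 (h : Wt (fun t => (w t : ℂ)) a₀ b₀ D) (hw : W0 w W b₀) (hK : 0 < K)
    (hB : 1 ≤ B) {J : Finset (Eis × Eis)} (hJ : OKJ J) (om : Eis × Eis → ℂ) (hE : 0 ≤ E0)
    {Y : ℝ} (hEY : E0 ≤ Y) {α : Eis → ℂ} (hα : ∀ n, α n ≠ 0 → n ∈ S Y)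
    (hR : ∀ x ∈ J, (nm x.2 : ℝ) ≤ R)
    (E1 : ℝ) (hτ0 : 0 ≤ τ) (hτ : ∀ m : Eis, (nm m : ℝ) ≤ b₀ * K → (tau m : ℝ) ≤ τ) {OFF : ℝ}
    (hoff : Sg w K B R E1 (fun q t k₁ => ‖∑ y ∈ Ys J E0 R, Fy J om (Tal α) q t k₁ y‖ ^ 2) ≤
      Sg w K B R E1 (fun q t k₁ => Dg J om (Tal α) E0 R q t k₁) + OFF) : open Classical in
    GrP w K (fun k => if Cut E1 k then E2440.StE E0 J om α k else 0) ≤
      c3 w K * (X3 Y E0 J om α).re + e3M a₀ b₀ D W K B τ J om E0 α OFF := by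
  classical
  have hY : 0 ≤ Y := hE.trans hEY
  have h1 := gram_T (om := om) (T := Tal α) h hw hK hB hJ hE
    (TC_Tal fun n hn => ((mem_S hY).1 (hα n hn)).2.2) hR E1 hτ0 hτ hoff
  rw [XT_eq hE hEY] at h1
  have e1 : GrP w K (fun k => if Cut E1 k then E2440.StE E0 J om α k else 0) =
      ∑' k : Eis, if IsPrim k ∧ Cut E1 k then
        w ((nm k : ℝ) / K) * ‖SteT J om E0 (Tal α) k‖ ^ 2 else 0 := by
    unfold GrP
    refine tsum_congr fun k => ?_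
    rw [SteT_Tal]
    beta_reduce
    by_cases h2 : IsPrim k
    · by_cases h3 : Cut E1 k
      · rw [if_pos h2, if_pos h3, if_pos ⟨h2, h3⟩]
      · rw [if_pos h2, if_neg h3, if_neg (fun h => h3 h.2)]
        simp
    · rw [if_neg h2, if_neg (fun h => h2 h.1)]
  rw [e1, c3_eq]
  unfold e3M
  linarith

end Crest.Agent.R017.E3M829
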