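import Crest.Agent.R017.LBc_48
import Crest.Agent.R017.E3Mi_829

/-!
# Row 17, C.REMg, (LB), part d (helper48): the abstract lower bound, all errors collected

* `LBy` : `2 cP K^(2/3) XJw ρ - SqP ≤ C P^ε ((K/X) (θ EHs + lam EHf + lam⁻¹ EHt) + θ⁻¹ REb + et + OFF)`
-/

set_option autoImplicit false

noncomputable section

open Complex MeasureTheory
open scoped ComplexConjugate Classical

namespace Crest.Agent.R017.LBx48

open Crest.Agent.R012 Crest.Agent.R012.Eis Crest.Agent.R012.MC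
open Crest.Agent.R012.LS2 (S mem_S)
open Crest.Agent.R012.Mob705 (pdiv kap0)
open Crest.Agent.R012.Div277 (tau)
open Crest.Agent.R017.PX764 (Gh n6)
open Crest.Agent.R017.X6C180 (n13)
open Crest.Agent.R017.CM106 (CS TG FS)
open Crest.Agent.R017.E1551 hiding tau Dg
open Crest.Agent.R017.C70 (JW JC OKJ okJ_JW)
open Crest.Agent.R017.E2440 (TE Jb Qs prs C4 StE)
open Crest.Agent.R017.EHu320 (EHc)
open Crest.Agent.R017.LB48 (CrP GrP)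
open Crest.Agent.R017.I1146 (omr E2s c3 c3_nonneg LBw Dfw)
open Crest.Agent.R017.E3M829 (Cut Tal TC_Tal Sg gram_fin TF)
open Crest.Agent.R017.E3A164 (SteT Ys Fy)
open Crest.Agent.R017.DgB829 (HS HS_nonneg HS_le)

/-- the T-functional with `e ≤ E0`, weight `nm e` -/
def EHs (A K X Y Z E0 : ℝ) (α : Eis → ℂ) : ℝ :=
  EHc (fun n => (n : ℝ)) (fun e => e ∈ S E0) A K X Y Z α

/-- the T-functional with `e > E0`, weight `1 / nm e` -/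
def EHt (A K X Y Z E0 : ℝ) (α : Eis → ℂ) : ℝ :=
  EHc (fun n => ((n : ℝ))⁻¹) (fun e => e ∉ S E0) A K X Y Z α

/-- the T-functional, all `e`, weight `1 / nm e` -/
def EHf (A K X Y Z : ℝ) (α : Eis → ℂ) : ℝ :=
  EHc (fun n => ((n : ℝ))⁻¹) (fun _ => True) A K X Y Z α

lemma EHc_nonneg {c : ℕ → ℝ} (hc : ∀ n, 0 ≤ c n) (Q : Eis → Prop) {A K X Y Z : ℝ} (hK : 0 ≤ K)
    (hX : 0 ≤ X) (α : Eis → ℂ) : 0 ≤ EHc c Q A K X Y Z α :=
  Finset.sum_nonneg fun _ _ => Finset.sum_nonneg fun _ _ => mul_nonneg (by positivity)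
    (mul_nonneg (hc _) (LJ_nonneg hK hX _ _ _))

lemma EHc_mono {c c' : ℕ → ℝ} (hc' : ∀ n, 1 ≤ n → c n ≤ c' n) (Q : Eis → Prop)
    {A K X Y Z : ℝ} (hY : 0 ≤ Y) (hK : 0 ≤ K) (hX : 0 ≤ X) (α : Eis → ℂ) :
    EHc c Q A K X Y Z α ≤ EHc c' Q A K X Y Z α := by
  unfold EHu320.EHc
  refine Finset.sum_le_sum fun δ _ => Finset.sum_le_sum fun e he => ?_
  refine mul_le_mul_of_nonneg_left ?_ (by positivity)
  refine mul_le_mul_of_nonneg_right (hc' _ ?_) (LJ_nonneg hK hX _ _ _)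
  have := ((mem_S hY).1 (Finset.mem_filter.mp he).1).2.1
  exact nm_pos.mpr this.ne_zero

lemma EHc_split {c : ℕ → ℝ} (Q : Eis → Prop) {A K X Y Z : ℝ} (α : Eis → ℂ) :
    EHc c (fun _ => True) A K X Y Z α = EHc c Q A K X Y Z α + EHc c (fun e => ¬ Q e) A K X Y Z α := by
  unfold EHu320.EHc
  rw [← Finset.sum_add_distrib]
  refine Finset.sum_congr rfl fun δ _ => ?_
  rw [Finset.filter_true, Finset.sum_filter_add_sum_filter_not]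

/-- the weights `c ≤ id` -/
lemma EHc_le_s {c : ℕ → ℝ} (hc : ∀ n : ℕ, 1 ≤ n → c n ≤ n) {A K X Y Z E0 : ℝ} (hY : 0 ≤ Y)
    (hK : 0 ≤ K) (hX : 0 ≤ X) (α : Eis → ℂ) :
    EHc c (fun e => e ∈ S E0) A K X Y Z α ≤ EHs A K X Y Z E0 α :=
  EHc_mono hc _ hY hK hX α

lemma asm_z {p C₂ C₃ C₄ C₅ M Pe U e₂ et OFF G e₃ D : ℝ} (hp : 0 ≤ p) (h2 : 0 ≤ C₂) (h3 : 0 ≤ C₃)
    (h4 : 0 ≤ C₄) (h5 : 0 ≤ C₅) (hM : 0 ≤ M) (hPe : 1 ≤ Pe) (hU : 0 ≤ U) (he₂ : 0 ≤ e₂)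
    (het : 0 ≤ et) (hO : 0 ≤ OFF) (hG : G ≤ 2 * C₃ * U) (he₃ : e₃ = C₄ * Pe * G + OFF)
    (hD : D ≤ M * (200 * C₅ * Pe * (3 * C₂ * U))) :
    2 * p * (e₂ + et) + p ^ 2 * e₃ + p ^ 2 * D ≤
      (2 * p + p ^ 2 * (2 * C₄ * C₃ + 1) + p ^ 2 * M * (200 * C₅ * (3 * C₂))) * Pe *
        (U + e₂ + et + OFF) := by
  set T := U + e₂ + et + OFF with hT
  have hT0 : 0 ≤ T := by positivity
  have hPe0 : 0 ≤ Pe := by linarith
  have hTP : T ≤ Pe * T := le_mul_of_one_le_left hT0 hPe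
  have f4 : 2 * p * (e₂ + et) ≤ 2 * p * (Pe * T) :=
    mul_le_mul_of_nonneg_left (by linarith) (by positivity)
  have g1 : C₄ * Pe * G ≤ C₄ * Pe * (2 * C₃ * U) := mul_le_mul_of_nonneg_left hG (by positivity)
  have g2 : C₄ * Pe * (2 * C₃ * U) ≤ 2 * C₄ * C₃ * (Pe * T) := by
    have : Pe * U ≤ Pe * T := mul_le_mul_of_nonneg_left (by linarith) hPe0
    have h : 0 ≤ 2 * C₄ * C₃ := by positivity
    have := mul_le_mul_of_nonneg_left this h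
    linarith
  have f5' : e₃ ≤ (2 * C₄ * C₃ + 1) * (Pe * T) := by
    rw [he₃]
    have : OFF ≤ Pe * T := by linarith
    linarith
  have f5 : p ^ 2 * e₃ ≤ p ^ 2 * ((2 * C₄ * C₃ + 1) * (Pe * T)) :=
    mul_le_mul_of_nonneg_left f5' (by positivity)
  have f6' : D ≤ M * (200 * C₅ * (3 * C₂)) * (Pe * T) := by
    refine hD.trans ?_
    have : Pe * U ≤ Pe * T := mul_le_mul_of_nonneg_left (by linarith) hPe0
    have h : 0 ≤ M * (200 * C₅ * (3 * C₂)) := by positivity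
    have := mul_le_mul_of_nonneg_left this h
    linarith
  have f6 : p ^ 2 * D ≤ p ^ 2 * (M * (200 * C₅ * (3 * C₂)) * (Pe * T)) :=
    mul_le_mul_of_nonneg_left f6' (by positivity)
  calc _ ≤ 2 * p * (Pe * T) + p ^ 2 * ((2 * C₄ * C₃ + 1) * (Pe * T)) +
        p ^ 2 * (M * (200 * C₅ * (3 * C₂)) * (Pe * T)) := add_le_add (add_le_add f4 f5) f6
    _ = _ := by ring

set_option maxHeartbeats 4000000 in
/-- **(LB), abstract form**: arbitrary cross error `e₂` -/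
theorem LBz {w : ℝ → ℝ} (hw : Wgt w) (hw0 : ∀ x, 0 ≤ w x) {R : ℝ} (hR : 0 ≤ R) {A : ℕ}
    (hA : 2 ≤ A) {ε : ℝ} (hε : 0 < ε) : ∃ C : ℝ, 0 ≤ C ∧
    ∀ (P K X Y D Y₀ Z E0 E1 B θ lam : ℝ), 1 ≤ P → 0 < K → K ≤ P → 0 < X → 1 ≤ Y → Y ≤ P →
    0 ≤ D → D ≤ P → 0 < Z → Z ≤ P → 0 ≤ E0 → E0 ≤ Y → 1 ≤ B → 0 < θ → 0 < lam → lam ≤ 1 → B⁻¹ ≤ θ →
    (Z / K ^ 2) ^ (1 / 6 : ℝ) ≤ θ →
    ∀ α : Eis → ℂ, Adm Y X R α → ∀ Om ρ : ℕ → ℝ, (∀ n, ρ n = 2 * Om n - Om n ^ 2) →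
    (∀ n, 0 ≤ Om n) → (∀ n, Om n ≤ 1) → ∀ e₂ et OFF : ℝ, 0 ≤ OFF →
    ‖CrP w K α (StE E0 (JW D Y₀ Z) (omr Om) α) -
      ((pC * (kap0 * mel w (2 / 3) * K ^ (2 / 3 : ℝ)) : ℝ) : ℂ) *
        I1146.X2 Y E0 (JW D Y₀ Z) (omr Om) α‖ ≤ e₂ →
    ‖CrP w K α (fun k => if Cut E1 k then 0 else StE E0 (JW D Y₀ Z) (omr Om) α k)‖ ≤ et →
    Sg w K B Z E1 (fun q t k₁ => ‖∑ y ∈ Ys (JW D Y₀ Z) E0 Z,
        Fy (JW D Y₀ Z) (omr Om) (Tal α) q t k₁ y‖ ^ 2) ≤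
      Sg w K B Z E1 (fun q t k₁ => E3M829.Dg (JW D Y₀ Z) (omr Om) (Tal α) E0 Z q t k₁) + OFF →
    2 * cP w * K ^ (2 / 3 : ℝ) * (XJw ρ (JW D Y₀ Z) α).re - SqP w K α ≤
      C * P ^ ε * ((K / X) * (θ * EHs A K X Y Z E0 α + lam * EHf A K X Y Z α + lam⁻¹ * EHt A K X Y Z E0 α) +
        e₂ + et + OFF) := by
  obtain ⟨C₂, hC₂, H₂⟩ := Dfw_le R hR A hA
  obtain ⟨C₃, hC₃, H₃⟩ := TF_le R hR A hA
  obtain ⟨C₄, hC₄, H₄⟩ := gram_fin hw hw0 hε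
  obtain ⟨C₅, hC₅, H₅⟩ := PInv255.one_add_log_pow_le 1 ε hε
  have hP := Cst401.pC_pos
  set M := |c3 w 1| with hM
  have hM0 : 0 ≤ M := abs_nonneg _
  set C := 2 * pC + pC ^ 2 * (2 * C₄ * C₃ + 1) + pC ^ 2 * M * (200 * C₅ * (3 * C₂))
    with hCdef
  refine ⟨C, by positivity, ?_⟩
  intro P K X Y D Y₀ Z E0 E1 B θ lam hP1 hK hKP hX hY hYP hD hDP hZ hZP hE0 hE0Y hB hθ hl hl1 hBθ hKθ
    α hα Om ρ hρ h0 h1 e₂ et OFF hOFF he₂ het hoff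
  obtain ⟨I, hI⟩ := pow_unbounded_of_one_lt Z (by norm_num : (1 : ℝ) < 2)
  have hY0 : 0 ≤ Y := by linarith
  have hPe : 1 ≤ P ^ ε := Real.one_le_rpow hP1 hε.le
  set J := JW D Y₀ Z with hJ
  set om := omr Om with hom
  have hom1 : ∀ x, ‖om x‖ ≤ 1 := by
    intro x
    rw [hom]
    unfold I1146.omr
    rw [Complex.norm_real, Real.norm_of_nonneg (h0 _)]
    exact h1 _
  have hJok : OKJ J := okJ_JW D Y₀ Z
  have hJm := fun x (hx : x ∈ J) => I1146.JW_mem (Y₀ := Y₀) hD hZ hI x hx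
  -- the Gram sum
  have a1 := H₄ K P Z E0 E1 B hK hP1 hKP hE0 (hE0Y.trans hYP) hZP hB J hJok
    (fun x hx => ((mem_S hD).1 (hJm x hx).1).1.trans hDP) (fun x hx => (hJm x hx).2.1) om (Tal α)
    (TC_Tal fun n hn => ((mem_S hY0).1 (hα.sup n hn)).2.2) OFF hoff
  rw [E3M829.XT_eq hE0 hE0Y] at a1
  have e1 : GrP w K (fun k => if Cut E1 k then StE E0 J om α k else 0) =
      ∑' k : Eis, if IsPrim k ∧ Cut E1 k then
        w ((nm k : ℝ) / K) * ‖SteT J om E0 (Tal α) k‖ ^ 2 else 0 := by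
    unfold LB48.GrP
    refine tsum_congr fun k => ?_
    rw [E3M829.SteT_Tal]
    beta_reduce
    by_cases h2 : IsPrim k
    · by_cases h3 : Cut E1 k
      · rw [if_pos h2, if_pos h3, if_pos ⟨h2, h3⟩]
      · rw [if_pos h2, if_neg h3, if_neg (fun h => h3 h.2)]
        simp
    · rw [if_neg h2, if_neg (fun h => h2 h.1)]
  rw [← e1] at a1
  set TFa := TF (1 / 2) J om E0 (Tal α) with hTFa
  set TFb := TF (-1) J om E0 (Tal α) with hTFb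
  have e2 : kap0 * K ^ (2 / 3 : ℝ) * E3M829.Iw w = c3 w K := by
    rw [I1146.Iw_eq]; unfold I1146.c3; ring
  rw [e2] at a1
  set e₃ := C₄ * P ^ ε * K ^ (2 / 3 : ℝ) * ((Z / K ^ 2) ^ (1 / 6 : ℝ) * TFa + B⁻¹ * TFb) + OFF
    with he₃
  have h3 : GrP w K (fun k => if Cut E1 k then StE E0 J om α k else 0) ≤
      c3 w K * (I1146.X3 Y E0 J om α).re + e₃ := by
    rw [he₃]; linarith
  have a2 : 2 * cP w * K ^ (2 / 3 : ℝ) * (XJw ρ J α).re - SqP w K α ≤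
      2 * pC * (e₂ + et) + pC ^ 2 * e₃ + pC ^ 2 * c3 w K * (HS Y * Dfw Y E0 J Om lam α) := by
    have hc := c3_nonneg hw0 hK
    have a4 := I1146.core_lb hw hw0 hK α (StE E0 J om α) (Cut E1)
      (Z₁ := XJw ρ J α) (c₃ := c3 w K) hP.le he₂ het h3
    have a6 := I1146.comb_w_le hY0 hα.sup hJok E0 hρ h0 h1 hl
    have a7 : pC ^ 2 * c3 w K * ((XJw ρ J α).re -
        2 * (I1146.X2 Y E0 J om α).re + (I1146.X3 Y E0 J om α).re) ≤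
        pC ^ 2 * c3 w K * (HS Y * Dfw Y E0 J Om lam α) :=
      mul_le_mul_of_nonneg_left a6 (by positivity)
    have e1 : 2 * cP w * K ^ (2 / 3 : ℝ) * (XJw ρ J α).re =
        pC ^ 2 * c3 w K * (XJw ρ J α).re := by
      rw [Cst401.two_cP hw]
      unfold I1146.c3
      ring
    rw [e1]
    linarith
  -- the functionals
  have s0 : 0 ≤ EHs A K X Y Z E0 α := EHc_nonneg (fun n => Nat.cast_nonneg n) _ hK.le hX.le α
  have t0 : 0 ≤ EHt A K X Y Z E0 α := EHc_nonneg (fun n => by positivity) _ hK.le hX.le α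
  have f0 : 0 ≤ EHf A K X Y Z α := EHc_nonneg (fun n => by positivity) _ hK.le hX.le α
  have e20 : 0 ≤ e₂ := (norm_nonneg _).trans he₂
  have et0 : 0 ≤ et := (norm_nonneg _).trans het
  have hKX : 0 ≤ K / X := by positivity
  have hli : 1 ≤ lam⁻¹ := (one_le_inv₀ hl).mpr hl1
  -- Gram errors
  have b2 : K ^ (2 / 3 : ℝ) * ((Z / K ^ 2) ^ (1 / 6 : ℝ) * TFa + B⁻¹ * TFb) ≤
      2 * C₃ * (θ * ((K / X) * EHs A K X Y Z E0 α)) := by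
    have c1 := H₃ Y X K D Y₀ Z E0 hY hX hK (1 / 2) om hom1 α hα
    have c2 := H₃ Y X K D Y₀ Z E0 hY hX hK (-1) om hom1 α hα
    have d1 : EHc (fun n => (n : ℝ) ^ (1 / 2 : ℝ)) (fun e => e ∈ S E0) A K X Y Z α ≤
        EHs A K X Y Z E0 α := EHc_le_s (fun n hn => by
      have : (1 : ℝ) ≤ n := by exact_mod_cast hn
      calc (n : ℝ) ^ (1 / 2 : ℝ) ≤ (n : ℝ) ^ (1 : ℝ) :=
            Real.rpow_le_rpow_of_exponent_le this (by norm_num)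
        _ = n := Real.rpow_one _) hY0 hK.le hX.le α
    have d2 : EHc (fun n => (n : ℝ) ^ (-1 : ℝ)) (fun e => e ∈ S E0) A K X Y Z α ≤
        EHs A K X Y Z E0 α := EHc_le_s (fun n hn => by
      have : (1 : ℝ) ≤ n := by exact_mod_cast hn
      calc (n : ℝ) ^ (-1 : ℝ) ≤ (n : ℝ) ^ (1 : ℝ) :=
            Real.rpow_le_rpow_of_exponent_le this (by norm_num)
        _ = n := Real.rpow_one _) hY0 hK.le hX.le α
    have c1' : K ^ (2 / 3 : ℝ) * TFa ≤ C₃ * (K / X) * EHs A K X Y Z E0 α :=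
      c1.trans (mul_le_mul_of_nonneg_left d1 (by positivity))
    have c2' : K ^ (2 / 3 : ℝ) * TFb ≤ C₃ * (K / X) * EHs A K X Y Z E0 α :=
      c2.trans (mul_le_mul_of_nonneg_left d2 (by positivity))
    have n1 : 0 ≤ TFa := E3M829.TF_nonneg _ _ _ _ _
    have n2 : 0 ≤ TFb := E3M829.TF_nonneg _ _ _ _ _
    have hKp : 0 ≤ K ^ (2 / 3 : ℝ) := by positivity
    calc K ^ (2 / 3 : ℝ) * ((Z / K ^ 2) ^ (1 / 6 : ℝ) * TFa + B⁻¹ * TFb) ≤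
          K ^ (2 / 3 : ℝ) * (θ * TFa + θ * TFb) := by gcongr
      _ = θ * (K ^ (2 / 3 : ℝ) * TFa) + θ * (K ^ (2 / 3 : ℝ) * TFb) := by ring
      _ ≤ θ * (C₃ * (K / X) * EHs A K X Y Z E0 α) + θ * (C₃ * (K / X) * EHs A K X Y Z E0 α) := by
          gcongr
      _ = _ := by ring
  -- the defect
  have b3 : c3 w K = c3 w 1 * K ^ (2 / 3 : ℝ) := by
    unfold I1146.c3
    rw [Real.one_rpow]; ring
  have b4 : c3 w K * (HS Y * Dfw Y E0 J Om lam α) ≤ M * (200 * C₅ * P ^ ε * (3 * C₂ * ((K / X) *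
      (θ * EHs A K X Y Z E0 α + lam * EHf A K X Y Z α + lam⁻¹ * EHt A K X Y Z E0 α)))) := by
    have c1 := H₂ Y X K D Y₀ Z E0 lam hY hX hK hl Om h0 h1 α hα
    have d1 : EHc (fun n => ((n : ℝ))⁻¹) (fun _ => True) A K X Y Z α = EHf A K X Y Z α := rfl
    have d2 : EHc (fun n => ((n : ℝ))⁻¹) (fun e => e ∉ S E0) A K X Y Z α =
        EHt A K X Y Z E0 α := rfl
    rw [d1, d2] at c1
    have d4 : lam * EHf A K X Y Z α + (lam⁻¹ + 1) * EHt A K X Y Z E0 α ≤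
        3 * (θ * EHs A K X Y Z E0 α + lam * EHf A K X Y Z α + lam⁻¹ * EHt A K X Y Z E0 α) := by
      have u3 : 1 * EHt A K X Y Z E0 α ≤ lam⁻¹ * EHt A K X Y Z E0 α :=
        mul_le_mul_of_nonneg_right hli t0
      have u4 : 0 ≤ θ * EHs A K X Y Z E0 α := mul_nonneg hθ.le s0
      have u5 : 0 ≤ lam * EHf A K X Y Z α := mul_nonneg hl.le f0
      linarith
    have c2 : K ^ (2 / 3 : ℝ) * Dfw Y E0 J Om lam α ≤ 3 * C₂ * ((K / X) *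
        (θ * EHs A K X Y Z E0 α + lam * EHf A K X Y Z α + lam⁻¹ * EHt A K X Y Z E0 α)) := by
      refine c1.trans ?_
      calc C₂ * (K / X) * (lam * EHf A K X Y Z α +
            (lam⁻¹ + 1) * EHt A K X Y Z E0 α) ≤ C₂ * (K / X) *
            (3 * (θ * EHs A K X Y Z E0 α + lam * EHf A K X Y Z α + lam⁻¹ * EHt A K X Y Z E0 α)) := by gcongr
        _ = _ := by ring
    have hH : HS Y ≤ 200 * C₅ * P ^ ε := by
      refine (HS_le hY).trans ?_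
      have h6 := H₅ P hP1
      rw [pow_one] at h6
      have h7 : Real.log Y ≤ Real.log P := Real.log_le_log (by linarith) hYP
      nlinarith
    have hDf : 0 ≤ Dfw Y E0 J Om lam α := by
      unfold I1146.Dfw
      refine Finset.sum_nonneg fun x _ => mul_nonneg (X6C180.n13_nonneg _) ?_
      have m1 := I1146.M2t_nonneg Y α x
      have m2 := I1146.M2o_nonneg Y E0 α x
      have m3 : 0 ≤ Om (nm (x.2 * x.1 ^ 2)) := h0 _
      have m4 : 0 ≤ 1 - Om (nm (x.2 * x.1 ^ 2)) := by linarith [h1 (nm (x.2 * x.1 ^ 2))]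
      positivity
    have hKp : 0 ≤ K ^ (2 / 3 : ℝ) := by positivity
    rw [b3]
    calc c3 w 1 * K ^ (2 / 3 : ℝ) * (HS Y * Dfw Y E0 J Om lam α) ≤
          M * K ^ (2 / 3 : ℝ) * (HS Y * Dfw Y E0 J Om lam α) := by
          have := le_abs_self (c3 w 1)
          have hn : 0 ≤ HS Y * Dfw Y E0 J Om lam α := mul_nonneg (HS_nonneg Y) hDf
          rw [hM]
          gcongr
      _ = M * (HS Y * (K ^ (2 / 3 : ℝ) * Dfw Y E0 J Om lam α)) := by ring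
      _ ≤ M * (200 * C₅ * P ^ ε * (3 * C₂ * ((K / X) *
          (θ * EHs A K X Y Z E0 α + lam * EHf A K X Y Z α + lam⁻¹ * EHt A K X Y Z E0 α)))) := by
          have := HS_nonneg Y
          gcongr
  -- assembly
  refine a2.trans ?_
  have hU0 : 0 ≤ (K / X) * (θ * EHs A K X Y Z E0 α + lam * EHf A K X Y Z α + lam⁻¹ * EHt A K X Y Z E0 α) :=
    mul_nonneg hKX (add_nonneg (add_nonneg (mul_nonneg hθ.le s0) (mul_nonneg hl.le f0))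
      (mul_nonneg (inv_pos.mpr hl).le t0))
  have hG : K ^ (2 / 3 : ℝ) * ((Z / K ^ 2) ^ (1 / 6 : ℝ) * TFa + B⁻¹ * TFb) ≤
      2 * C₃ * ((K / X) * (θ * EHs A K X Y Z E0 α + lam * EHf A K X Y Z α + lam⁻¹ * EHt A K X Y Z E0 α)) := by
    refine b2.trans (mul_le_mul_of_nonneg_left ?_ (by positivity))
    have g1 : 0 ≤ (K / X) * (lam⁻¹ * EHt A K X Y Z E0 α) :=
      mul_nonneg hKX (mul_nonneg (inv_pos.mpr hl).le t0)
    have g2 : 0 ≤ (K / X) * (lam * EHf A K X Y Z α) := mul_nonneg hKX (mul_nonneg hl.le f0)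
    rw [mul_add, mul_add]
    linarith
  have h := asm_z hP.le hC₂ hC₃ hC₄ (zero_le_one.trans hC₅) hM0 hPe hU0 e20 et0 hOFF hG
    (show e₃ = C₄ * P ^ ε * (K ^ (2 / 3 : ℝ) * ((Z / K ^ 2) ^ (1 / 6 : ℝ) * TFa + B⁻¹ * TFb)) +
      OFF by rw [he₃]; ring) b4
  rw [hCdef]
  linarith

set_option maxHeartbeats 4000000 in
/-- **(LB), abstract form** -/
theorem LBy {w : ℝ → ℝ} (hw : Wgt w) (hw0 : ∀ x, 0 ≤ w x) {R : ℝ} (hR : 0 ≤ R) {A : ℕ}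
    (hA : 2 ≤ A) {ε : ℝ} (hε : 0 < ε) : ∃ C : ℝ, 0 ≤ C ∧
    ∀ (P K X Y D Y₀ Z E0 E1 B θ lam : ℝ) (I : ℕ), 1 ≤ P → 0 < K → K ≤ P → 0 < X → 1 ≤ Y → Y ≤ P →
    0 ≤ D → D ≤ P → 0 < Z → Z ≤ P → 0 ≤ E0 → E0 ≤ Y → 1 ≤ B → 0 < θ → 0 < lam → lam ≤ 1 → B⁻¹ ≤ θ →
    (Z / K ^ 2) ^ (1 / 6 : ℝ) ≤ θ → Z < 2 ^ I →
    ∀ α : Eis → ℂ, Adm Y X R α → ∀ Om ρ : ℕ → ℝ, (∀ n, ρ n = 2 * Om n - Om n ^ 2) →
    (∀ n, 0 ≤ Om n) → (∀ n, Om n ≤ 1) → ∀ et OFF : ℝ, 0 ≤ OFF →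
    ‖CrP w K α (fun k => if Cut E1 k then 0 else StE E0 (JW D Y₀ Z) (omr Om) α k)‖ ≤ et →
    Sg w K B Z E1 (fun q t k₁ => ‖∑ y ∈ Ys (JW D Y₀ Z) E0 Z,
        Fy (JW D Y₀ Z) (omr Om) (Tal α) q t k₁ y‖ ^ 2) ≤
      Sg w K B Z E1 (fun q t k₁ => E3M829.Dg (JW D Y₀ Z) (omr Om) (Tal α) E0 Z q t k₁) + OFF →
    2 * cP w * K ^ (2 / 3 : ℝ) * (XJw ρ (JW D Y₀ Z) α).re - SqP w K α ≤
      C * P ^ ε * ((K / X) * (θ * EHs A K X Y Z E0 α + lam * EHf A K X Y Z α + lam⁻¹ * EHt A K X Y Z E0 α) +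
        θ⁻¹ * REb α K (fun x => ((w x : ℝ) : ℂ)) (S D) I E0 Z Z + et + OFF) := by
  obtain ⟨C₁, hC₁, H₁⟩ := cross_split_c R hR A hA
  obtain ⟨C, hC, H⟩ := LBz hw hw0 hR hA hε
  refine ⟨C * (C₁ + 2), by positivity, ?_⟩
  intro P K X Y D Y₀ Z E0 E1 B θ lam I hP1 hK hKP hX hY hYP hD hDP hZ hZP hE0 hE0Y hB hθ hl hl1 hBθ hKθ
    hI α hα Om ρ hρ h0 h1 et OFF hOFF het hoff
  have hY0 : 0 ≤ Y := by linarith
  set J := JW D Y₀ Z with hJ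
  set om := omr Om with hom
  have hom1 : ∀ x, ‖om x‖ ≤ 1 := by
    intro x
    rw [hom]
    unfold I1146.omr
    rw [Complex.norm_real, Real.norm_of_nonneg (h0 _)]
    exact h1 _
  have hx := I1146.E2u (Y₀ := Y₀) hw hK hE0 hY0 hD hZ hI hα.sup om
  refine (H P K X Y D Y₀ Z E0 E1 B θ lam hP1 hK hKP hX hY hYP hD hDP hZ hZP hE0 hE0Y hB hθ hl hl1 hBθ
    hKθ α hα Om ρ hρ h0 h1 _ et OFF hOFF hx het hoff).trans ?_
  have s0 : 0 ≤ EHs A K X Y Z E0 α := EHc_nonneg (fun n => Nat.cast_nonneg n) _ hK.le hX.le α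
  have t0 : 0 ≤ EHt A K X Y Z E0 α := EHc_nonneg (fun n => by positivity) _ hK.le hX.le α
  have f0 : 0 ≤ EHf A K X Y Z α := EHc_nonneg (fun n => by positivity) _ hK.le hX.le α
  have r0 : 0 ≤ REb α K (fun x => ((w x : ℝ) : ℂ)) (S D) I E0 Z Z := by
    unfold REb
    refine Finset.sum_nonneg fun δ _ => Finset.sum_nonneg fun i _ => Finset.sum_nonneg fun e _ => ?_
    positivity
  have et0 : 0 ≤ et := (norm_nonneg _).trans het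
  have b1 : E2s w K E0 D Y₀ Z I om α ≤
      C₁ * (θ⁻¹ * REb α K (fun x => ((w x : ℝ) : ℂ)) (S D) I E0 Z Z) +
      (K / X) * (θ * EHs A K X Y Z E0 α) := by
    have := H₁ Y X K D Y₀ Z Z E0 θ hY hX hK hZ hθ α hα (S D)
      (fun δ hδ => ((mem_S hD).1 hδ).2) I om hom1 (fun x => ((w x : ℝ) : ℂ))
    have e3 : E2s w K E0 D Y₀ Z I om α = ∑ δ ∈ S D, ∑ i ∈ Finset.range I, ∑ e ∈ S E0,
        Real.sqrt (∑ x ∈ Jb (JW D Y₀ Z) δ (Z / 2 ^ i), ‖om x‖ ^ 2 * ‖TE α x e‖ ^ 2) *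
        R2 α K (fun x => ((w x : ℝ) : ℂ)) δ e (Z / 2 ^ i) := rfl
    rw [e3]
    refine this.trans (le_of_eq ?_)
    unfold EHs
    ring
  set U := (K / X) * (θ * EHs A K X Y Z E0 α + lam * EHf A K X Y Z α + lam⁻¹ * EHt A K X Y Z E0 α) with hU
  set RR := θ⁻¹ * REb α K (fun x => ((w x : ℝ) : ℂ)) (S D) I E0 Z Z with hRR
  have hθi : 0 < θ⁻¹ := inv_pos.mpr hθ
  have hRR0 : 0 ≤ RR := mul_nonneg hθi.le r0
  have hKX : 0 ≤ K / X := div_nonneg hK.le hX.le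
  have hU0 : 0 ≤ U := mul_nonneg hKX (add_nonneg (add_nonneg (mul_nonneg hθ.le s0)
    (mul_nonneg hl.le f0)) (mul_nonneg (inv_pos.mpr hl).le t0))
  have hUs : (K / X) * (θ * EHs A K X Y Z E0 α) ≤ U :=
    mul_le_mul_of_nonneg_left ((le_add_of_nonneg_right (mul_nonneg hl.le f0)).trans
      (le_add_of_nonneg_right (mul_nonneg (inv_pos.mpr hl).le t0))) hKX
  have f1 : U + E2s w K E0 D Y₀ Z I om α + et + OFF ≤ (C₁ + 2) * (U + RR + et + OFF) := by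
    have g1 : 0 ≤ C₁ * (U + et + OFF) := by positivity
    nlinarith
  have hCP : 0 ≤ C * P ^ ε := by positivity
  refine (mul_le_mul_of_nonneg_left f1 hCP).trans (le_of_eq ?_)
  ring

end Crest.Agent.R017.LBx48
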