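import Crest.Agent.R017.LBX_180
import Crest.Agent.R017.LBd_48

/-!
# Row 17, C.REMg (LB), part u (helper180): the lower bound with a cross weight `u`, `|u| ≤ w`,
# and a cut `Q`; the exceptional class

* `SqQ` : the smooth square over the `k` in `Q`
* `CrP_amu`, `core_lbu` : Bessel with a cross weight
* `GrP_le` : a smaller cut
-/

set_option autoImplicit false
set_option linter.unusedVariables false

noncomputable section

open Complex MeasureTheory
open scoped ComplexConjugate Classical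

namespace Crest.Agent.R017.LBu180

open Crest.Agent.R012 Crest.Agent.R012.Eis Crest.Agent.R012.MC
open Crest.Agent.R012.LS2 (S mem_S)
open Crest.Agent.R012.Mob705 (pdiv kap0)
open Crest.Agent.R012.Div277 (tau)
open Crest.Agent.R017.PX764 (Gh n6)
open Crest.Agent.R017.X6C180 (n13 GF)
open Crest.Agent.R017.CM106 (CS TG FS)
open Crest.Agent.R017.E1551 hiding tau Dg
open Crest.Agent.R017.C70 (JW JC OKJ okJ_JW)
open Crest.Agent.R017.E2440 (TE Jb Qs prs C4 StE Fh)
open Crest.Agent.R017.EHu320 (EHc)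
open Crest.Agent.R017.LB48 (CrP GrP summable_wR summable_wC)
open Crest.Agent.R017.I1146 (omr E2s c3 c3_nonneg LBw Dfw)
open Crest.Agent.R017.E3M829 (Cut Tal TC_Tal Sg gram_fin TF)
open Crest.Agent.R017.E3A164 (SteT Ys Fy)
open Crest.Agent.R017.DgB829 (HS HS_nonneg HS_le)
open Crest.Agent.R017.LBx48 hiding EHf

variable {w : ℝ → ℝ} {K : ℝ}

/-- the smooth square over the `k` in `Q` -/
def SqQ (w : ℝ → ℝ) (K : ℝ) (Q : Eis → Prop) (α : Eis → ℂ) : ℝ :=
  ∑' k : Eis, if IsPrim k ∧ Q k then w (nm k / K) * ‖CS α k‖ ^ 2 else 0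

lemma summable_SqQ (hw : Wgt w) (hK : 0 < K) (Q : Eis → Prop) (F : Eis → ℝ) :
    Summable fun k : Eis => if IsPrim k ∧ Q k then w (nm k / K) * F k else 0 := by
  refine summable_of_hasFiniteSupport ((hw.finite_support hK).subset fun k hk h0 => hk ?_)
  have : w (nm k / K) = 0 := h0
  simp [this]

lemma SqQ_le (hw : Wgt w) (hw0 : ∀ x, 0 ≤ w x) (hK : 0 < K) (Q : Eis → Prop) (α : Eis → ℂ) :
    SqQ w K Q α ≤ SqP w K α := by
  unfold SqQ E1551.SqP
  refine (summable_SqQ hw hK Q _).tsum_le_tsum (fun k => ?_) (summable_wR hw hK _)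
  by_cases h1 : IsPrim k
  · rw [if_pos h1]
    have := hw0 (nm k / K)
    split_ifs
    · exact le_rfl
    · positivity
  · rw [if_neg h1, if_neg (fun h => h1 h.1)]

/-- arithmetic-geometric mean with a dominated cross weight, `v` lives on `Q` -/
theorem CrP_amu (hw : Wgt w) {u : ℝ → ℝ} (hu : ∀ x, |u x| ≤ w x) (hK : 0 < K)
    (α v : Eis → ℂ) (Q : Eis → Prop) (c : ℝ) :
    2 * c * (CrP u K α (fun k => if Q k then v k else 0)).re ≤ SqQ w K Q α +
      c ^ 2 * GrP w K (fun k => if Q k then v k else 0) := by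
  have s1 := summable_SqQ hw hK Q (fun k => ‖CS α k‖ ^ 2)
  have s3 := summable_wR hw hK (fun k => ‖if Q k then v k else 0‖ ^ 2)
  have s2 : Summable fun k : Eis =>
      if IsPrim k then ((u (nm k / K) : ℝ) : ℂ) * (CS α k * conj (if Q k then v k else 0))
        else 0 := by
    refine summable_of_hasFiniteSupport ((hw.finite_support hK).subset fun k hk h0 => hk ?_)
    have h1 : w (nm k / K) = 0 := h0
    have h2 : u (nm k / K) = 0 := by
      have := hu (nm k / K)
      rw [h1] at this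
      exact abs_nonpos_iff.mp this
    simp [h2]
  have s4 : Summable fun k : Eis =>
      (if IsPrim k then ((u (nm k / K) : ℝ) : ℂ) * (CS α k * conj (if Q k then v k else 0))
        else 0).re :=
    (Complex.hasSum_re s2.hasSum).summable
  have e1 : (CrP u K α (fun k => if Q k then v k else 0)).re = ∑' k : Eis,
      (if IsPrim k then ((u (nm k / K) : ℝ) : ℂ) * (CS α k * conj (if Q k then v k else 0))
        else 0).re := by
    unfold LB48.CrP
    rw [Complex.re_tsum s2]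
  rw [e1]
  unfold SqQ LB48.GrP
  rw [← tsum_mul_left, ← tsum_mul_left, ← s1.tsum_add (s3.mul_left (c ^ 2))]
  refine (s4.mul_left (2 * c)).tsum_le_tsum (fun k => ?_) (s1.add (s3.mul_left (c ^ 2)))
  by_cases hk : IsPrim k
  · by_cases hq : Q k
    · rw [if_pos hk, if_pos hq, if_pos (And.intro hk hq), if_pos hk]
      have h1 := hu (nm k / K)
      have h2 : |(((u (nm k / K) : ℝ) : ℂ) * (CS α k * conj (v k))).re| ≤
          w (nm k / K) * (‖CS α k‖ * ‖v k‖) := by
        refine (Complex.abs_re_le_norm _).trans ?_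
        rw [norm_mul, norm_mul, Complex.norm_real, Real.norm_eq_abs, RCLike.norm_conj]
        exact mul_le_mul_of_nonneg_right h1 (by positivity)
      have h3 : 2 * c * (((u (nm k / K) : ℝ) : ℂ) * (CS α k * conj (v k))).re ≤
          2 * |c| * (w (nm k / K) * (‖CS α k‖ * ‖v k‖)) := by
        refine (le_abs_self _).trans ?_
        rw [abs_mul, abs_mul, abs_two]
        exact mul_le_mul_of_nonneg_left h2 (by positivity)
      refine h3.trans ?_
      have h4 : 0 ≤ w (nm k / K) := (abs_nonneg _).trans h1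
      have h5 : 2 * (‖CS α k‖ * (|c| * ‖v k‖)) ≤ ‖CS α k‖ ^ 2 + (|c| * ‖v k‖) ^ 2 := by
        nlinarith [sq_nonneg (‖CS α k‖ - |c| * ‖v k‖)]
      have h6 : (|c| * ‖v k‖) ^ 2 = c ^ 2 * ‖v k‖ ^ 2 := by rw [mul_pow, sq_abs]
      rw [h6] at h5
      have := mul_le_mul_of_nonneg_left h5 h4
      linarith
    · rw [if_pos hk, if_neg hq, if_neg (fun h : IsPrim k ∧ Q k => hq h.2), if_pos hk]; simp
  · rw [if_neg hk, if_neg (fun h : IsPrim k ∧ Q k => hk h.1), if_neg hk]; simp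

/-- **Bessel with a cross weight** -/
theorem core_lbu (hw : Wgt w) {u : ℝ → ℝ} (hu : ∀ x, |u x| ≤ w x) (hK : 0 < K) (α v : Eis → ℂ)
    (Q : Eis → Prop) {κ P c₃ e₂ e₃ : ℝ} {Z₁ Z₂ Z₃ : ℂ} (hP : 0 ≤ P)
    (h2 : ‖CrP u K α (fun k => if Q k then v k else 0) - ((P * (κ * c₃) : ℝ) : ℂ) * Z₂‖ ≤ e₂)
    (h3 : GrP w K (fun k => if Q k then v k else 0) ≤ c₃ * Z₃.re + e₃) :
    κ ^ 2 * (P ^ 2 * c₃ * Z₁.re) - SqQ w K Q α ≤ 2 * |κ| * P * e₂ + κ ^ 2 * (P ^ 2 * e₃) +
        κ ^ 2 * (P ^ 2 * c₃ * (Z₁.re - 2 * Z₂.re + Z₃.re)) := by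
  have h := CrP_amu hw hu hK α v Q (κ * P)
  set G := GrP w K (fun k => if Q k then v k else 0) with hG
  set W := CrP u K α (fun k => if Q k then v k else 0) with hW
  have h6 := (Complex.abs_re_le_norm _).trans h2
  rw [Complex.sub_re, Complex.re_ofReal_mul] at h6
  have h7 : |κ * P * (W.re - P * (κ * c₃) * Z₂.re)| ≤ |κ| * P * e₂ := by
    rw [abs_mul, abs_mul, abs_of_nonneg hP]
    exact mul_le_mul_of_nonneg_left h6 (by positivity)
  have h8 := (abs_le.1 h7).1
  have h9 : (κ * P) ^ 2 * G ≤ (κ * P) ^ 2 * (c₃ * Z₃.re + e₃) :=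
    mul_le_mul_of_nonneg_left h3 (by positivity)
  have e1 : κ ^ 2 * (P ^ 2 * c₃ * (Z₁.re - 2 * Z₂.re + Z₃.re)) =
      κ ^ 2 * (P ^ 2 * c₃ * Z₁.re) - 2 * (κ * P * (P * (κ * c₃) * Z₂.re)) +
        (κ * P) ^ 2 * (c₃ * Z₃.re) := by ring
  rw [e1]
  have e2 : κ * P * (W.re - P * (κ * c₃) * Z₂.re) =
      κ * P * W.re - κ * P * (P * (κ * c₃) * Z₂.re) := by ring
  rw [e2] at h8
  have e3 : 2 * (κ * P) * W.re = 2 * (κ * P * W.re) := by ring
  rw [e3] at h
  have e4 : (κ * P) ^ 2 * (c₃ * Z₃.re + e₃) = (κ * P) ^ 2 * (c₃ * Z₃.re) +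
      κ ^ 2 * (P ^ 2 * e₃) := by ring
  rw [e4] at h9
  linarith

/-- a smaller cut -/
lemma GrP_le (hw : Wgt w) (hw0 : ∀ x, 0 ≤ w x) (hK : 0 < K) {Q Q' : Eis → Prop}
    (hQ : ∀ k, IsPrim k → w (nm k / K) ≠ 0 → Q k → Q' k) {v : Eis → ℂ} :
    GrP w K (fun k => if Q k then v k else 0) ≤ GrP w K (fun k => if Q' k then v k else 0) := by
  unfold LB48.GrP
  refine (summable_wR hw hK _).tsum_le_tsum (fun k => ?_) (summable_wR hw hK _)
  by_cases hk : IsPrim k
  · rw [if_pos hk, if_pos hk]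
    beta_reduce
    by_cases h0 : w (nm k / K) = 0
    · rw [h0]; simp
    · by_cases h1 : Q k
      · rw [if_pos h1, if_pos (hQ k hk h0 h1)]
      · rw [if_neg h1]
        have := hw0 (nm k / K)
        simp only [norm_zero]
        have h2 : 0 ≤ w (nm k / K) * ‖if Q' k then v k else 0‖ ^ 2 := by positivity
        simpa using h2
  · rw [if_neg hk, if_neg hk]

end Crest.Agent.R017.LBu180
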