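import Crest.Agent.R017.RX5e_298

/-!
# Row 17, T.7 (RG rule, exceptional class), part 6 (helper298): the truncated lists (NT step), the
T-numbers of the lower bound inserted

* `LBm` : the lower bound (LB) as function of the numbers (SA0), (L+) of the T-side
* `nt_step_m` : `nt_step_x` with (LB) in this form; the T-part of (LB) only costs `Ga * B₁`, where
  `B₁` = the a priori bound (slope form) of the list itself
-/

set_option autoImplicit false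
set_option maxHeartbeats 1600000

noncomputable section

open Complex
open scoped ComplexConjugate

namespace Crest.Agent.R017.RX298

open Crest.Agent.R012 Crest.Agent.R012.Eis Crest.Agent.R012.LS2 Crest.Agent.R012.Gauss880
open Crest.Agent.R012.Weight600 (osc pw)
open Crest.Agent.R017.CM106 Crest.Agent.R017.HP842 Crest.Agent.R017.FE47
open Crest.Agent.R017.End699 hiding pw
open Crest.Agent.R017.B770
open Crest.Agent.R017.Prov71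
open Crest.Agent.R017.Rough381 (VF VF_nonneg)
open Crest.Agent.R017.Leg381
open Crest.Agent.R017.E1551 (sg tws yv JB)
open Crest.Agent.R017.RG64
open Crest.Agent.R017.LegK545 (VK SFK JBK VK_nonneg)
open Crest.Agent.R017.RGK545 (ClXK ClK ClNK)
open Crest.Agent.R017.PX764 (Dk)

/-- **the lower bound (LB) as function of the numbers of the T-side** (SA0), (L+), levels up to
`Zr * N₁` -/
def LBm (w : ℝ → ℝ) (Cw η : ℝ) (Aw : ℕ) (K X Y D : ℝ) (N₁ : ℕ) (ρ : ℕ → ℝ) (R : ℝ) (J : ℕ)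
    (α : Eis → ℂ) (G₀ Zr Ga E : ℝ) : Prop :=
  ∀ Ma Ml : ℝ, 0 ≤ Ma → 0 ≤ Ml →
    (∀ g ∈ S Y, (nm g : ℝ) ≤ G₀ → ∀ V : ℝ, 1 ≤ V → V ≤ Zr * N₁ * nm g → ∀ t : ℝ,
      VF V (tws (sg α g) t) ≤ Ma / (nm g : ℝ) ^ 2 *
        (V * K / (X / nm g) ^ 2) ^ (1 / 3 : ℝ) * (1 + |t|) ^ J) →
    (∀ h ∈ S Y, ∀ B V : ℝ, 1 ≤ B → B ≤ Y → 1 ≤ V → V ≤ Zr * N₁ / (nm h : ℝ) ^ 2 → ∀ t : ℝ,
      E1551.JB Y α (fun U => G₀ < nm (h * U)) h B V t ≤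
        Ml / (nm h : ℝ) ^ 2 * yv K X h V * (1 + |t|) ^ J) →
    LBn w Cw η Aw K X Y D N₁ ρ R J α (Ga * (Ma + Ml) + E)

lemma LBn.mono {w : ℝ → ℝ} {Cw η : ℝ} {Aw : ℕ} {K X Y D : ℝ} {N₁ : ℕ} {ρ : ℕ → ℝ} {R : ℝ}
    {J : ℕ} {α : Eis → ℂ} {E E' : ℝ} (hK : 0 ≤ K) (hX : 0 ≤ X)
    (h : LBn w Cw η Aw K X Y D N₁ ρ R J α E) (hE : E ≤ E') :
    LBn w Cw η Aw K X Y D N₁ ρ R J α E' := by
  intro p hp t X' φ h1 h2 h3 h4
  refine (h p hp t X' φ h1 h2 h3 h4).trans ?_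
  have : 0 ≤ K / X := div_nonneg hK hX
  gcongr

lemma arith_m {C Xe El Ga B₁ Br Eb Bl E₁ C₁ : ℝ} (hC : 1 ≤ C) (hXe : 1 ≤ Xe)
    (hEl : 0 ≤ El) (hGa : 0 ≤ Ga) (hGa1 : Ga ≤ 1) (hB₁ : 0 ≤ B₁) (hBr : 0 ≤ Br) (hEb : 0 ≤ Eb)
    (hBl : 0 ≤ Bl) (hE₁ : 0 ≤ E₁) (hC₁ : 1 ≤ C₁) :
    C * (Xe * Xe) * ((El + Ga * (C₁ * Xe * (B₁ + Br + Eb) + C₁ * Xe * ((Bl + Bl) * E₁ + Eb))) +
      Br + Eb + Bl * E₁ + 1) ≤
    (C * (4 * C₁)) * (Xe * Xe * Xe) * (El + Ga * B₁ + Br + Eb + Bl * E₁ + 1) := by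
  have hBE : 0 ≤ Bl * E₁ := mul_nonneg hBl hE₁
  have h1 : 1 ≤ C₁ * Xe := one_le_mul_of_one_le_of_one_le hC₁ hXe
  have h2 : Ga * (C₁ * Xe * (B₁ + Br + Eb) + C₁ * Xe * ((Bl + Bl) * E₁ + Eb)) ≤
      C₁ * Xe * (Ga * B₁ + Br + 2 * Eb + 2 * (Bl * E₁)) := by
    have e1 : Ga * (C₁ * Xe * (B₁ + Br + Eb) + C₁ * Xe * ((Bl + Bl) * E₁ + Eb)) =
        C₁ * Xe * (Ga * B₁ + Ga * (Br + 2 * Eb + 2 * (Bl * E₁))) := by ring
    rw [e1]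
    have h3 : Ga * (Br + 2 * Eb + 2 * (Bl * E₁)) ≤ 1 * (Br + 2 * Eb + 2 * (Bl * E₁)) :=
      mul_le_mul_of_nonneg_right hGa1 (by positivity)
    refine mul_le_mul_of_nonneg_left ?_ (by positivity)
    linarith
  have h4 : El + Br + Eb + Bl * E₁ + 1 ≤ C₁ * Xe * (El + Br + Eb + Bl * E₁ + 1) :=
    le_mul_of_one_le_left (by positivity) h1
  have h5 : 0 ≤ Ga * B₁ := mul_nonneg hGa hB₁
  have h6 : (El + Ga * (C₁ * Xe * (B₁ + Br + Eb) + C₁ * Xe * ((Bl + Bl) * E₁ + Eb))) +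
      Br + Eb + Bl * E₁ + 1 ≤ 4 * (C₁ * Xe * (El + Ga * B₁ + Br + Eb + Bl * E₁ + 1)) := by
    have h7 : 0 ≤ C₁ * Xe := by positivity
    nlinarith [mul_nonneg h7 hEl, mul_nonneg h7 h5, mul_nonneg h7 hBr, mul_nonneg h7 hEb,
      mul_nonneg h7 hBE]
  calc _ ≤ C * (Xe * Xe) * (4 * (C₁ * Xe * (El + Ga * B₁ + Br + Eb + Bl * E₁ + 1))) :=
        mul_le_mul_of_nonneg_left h6 (by positivity)
    _ = _ := by ring

/-- **the truncated lists, exceptional class, with the T-numbers of (LB) inserted.** -/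
theorem nt_step_m {h : ℝ → ℝ} {c : ℝ} (hpu : PU h c) (N : ℕ) {w : ℝ → ℝ} (hab : Abs4 w)
    {J e₃ ε R Ca c₁ B₀ : ℝ} {Jn Aw : ℕ} (hJ : 6 ≤ J) (he₃ : 0 < e₃) (hε : 0 < ε) (hR : 0 ≤ R)
    (hJn : (N : ℝ) * J ≤ Jn) (hJ12 : 12 ≤ Jn) (hAw : Jn + 2 ≤ Aw) (hAL : XDp h N R Ca)
    (hc₁ : 0 ≤ c₁) (hB₀ : 1 ≤ B₀) :
    ∃ Cw C η₀ r X₁ : ℝ, 0 ≤ Cw ∧ 1 ≤ C ∧ 0 < η₀ ∧ η₀ ≤ 1 ∧ 0 ≤ r ∧ ∀ X : ℝ, 3 ≤ X → X₁ ≤ X →
    ∀ D : Dat, DX h N J B₀ X D → D.z = D.D0 →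
    0 ≤ D.κ → ∀ (N0 N1 : ℝ → ℕ) (ρ : ℝ → ℕ → ℝ), Cut N0 N1 ρ c₁ →
    ∀ (B B₁ Br Bl El Ga Zr z₁ bb s a α Q q₀ e cc x₁ lo lo' σ₀ σ' g₀ Dd d₀ : ℝ), 0 ≤ B → 0 ≤ B₁ →
    0 ≤ Br → 0 ≤ Bl → 0 ≤ El → 0 ≤ Ga → Ga ≤ 1 → 9 ≤ Zr → Zr ≤ 9 * Real.exp z₁ → 0 ≤ s → 0 ≤ a →
    0 ≤ d₀ → Real.exp r ≤ q₀ → e₃ * Real.log X + c₁ + z₁ + r ≤ α →
    e + (N + 1) * r ≤ Real.log D.D0 → lo' ≤ 0 → 0 ≤ x₁ → 0 ≤ g₀ → Real.exp g₀ ≤ Dd →
    D.n - cc ≤ σ₀ → lo + g₀ + N * Real.log D.D0 + r ≤ σ₀ → Q ≤ X ^ B₀ →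
    g₀ + 4 * Real.log D.D0 - d₀ + (D.v + D.n + a + e₃ * Real.log X + c₁ + z₁ - D.κ) / 3 ≤ bb →
    (∀ ps : List Pf, SbL s ps D.ps₀ → LF ps ≤ σ' → σ₀ ≤ LF ps →
      LF ps + R ≤ Real.log X ∧ D.v + (D.n - LF ps) + (a + α) + g₀ ≤ Real.log X ∧
      0 ≤ D.v + (D.n - LF ps) + a ∧ 2 * LF ps - D.κ ≤ D.v + (D.n - LF ps) + a ∧
      LF ps - g₀ + r ≤ D.n - cc + x₁ ∧ Lg2 d₀ ps) →
    ClK Dk D (Ge lo) B (s + r) (a + α) (Q * q₀) (σ' - e - N * r) →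
    ClXK Dk (ex0 D.κ) D (Ge lo) B₁ (s + r) (a + α) (Q * q₀) (σ' + r) →
    ClXK Dk (ex0 D.κ) (Dr d₀ D) (Ge lo) Br (2 * s + r) (a + α) (Q * q₀) (σ' + r) →
    ClNK Dk D (exJ D.κ D.v D.n cc) Bl (s + r) (a + α) (Q * q₀) lo' (D.n - cc + x₁) →
    ClNK Dk (Dr d₀ D) (exJ D.κ D.v D.n cc) Bl (2 * s + r) (a + α) (Q * q₀) lo'
      (D.n - cc + x₁) →
    (∀ (q : Eis) (ps : List Pf), IsPrim q → (nm q : ℝ) * Real.exp (LF ps) ≤ Q → NT ps →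
      SbL s ps D.ps₀ → σ₀ ≤ LF ps → LF ps ≤ σ' →
      LBm w Cw η₀ Aw (Real.exp D.κ) (Real.exp (LF ps)) X Dd
        (N1 (D.v + (D.n - LF ps) + a + e₃ * Real.log X))
        (ρ (D.v + (D.n - LF ps) + a + e₃ * Real.log X)) R Jn
        (xs q D.z D.D0 D.P D.h d₀ ps) (Real.exp g₀) Zr Ga
        (El * Ht ps ^ J * Real.exp (2 * LF ps))) →
    ClK Dk D (NTGe σ₀) (C * X ^ (3 * ε) * (El + Ga * B₁ + Br + Real.exp bb +
      Bl * Real.exp (N * Real.log D.D0 + a + α) + 1) + C * X ^ (2 * ε) * B) s a Q σ' := by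
  obtain ⟨Cw, C, η₀, r₁, X₁, hCw, hC, hη₀, hη₀1, hr₁, hnt⟩ :=
    nt_step_x hpu N hab hJ he₃ hε hR hJn hJ12 hAw hAL hc₁ hB₀
  obtain ⟨C₂, r₂, hC₂, hr₂, hsa⟩ := x_sa0 hpu N hB₀ hε hJ hJn hJ12
  obtain ⟨C₃, r₃, hC₃, hr₃, hlp⟩ := x_lp hpu N hB₀ hε hJ hJn hJ12
  set r := max r₁ (max r₂ r₃) with hr
  have hr1 : r₁ ≤ r := le_max_left _ _
  have hr2 : r₂ ≤ r := (le_max_left _ _).trans (le_max_right _ _)
  have hr3 : r₃ ≤ r := (le_max_right _ _).trans (le_max_right _ _)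
  have hr0 : 0 ≤ r := hr₁.trans hr1
  set C₄ : ℝ := max C₂ C₃ with hC₄
  have hC24 : C₂ ≤ C₄ := le_max_left _ _
  have hC34 : C₃ ≤ C₄ := le_max_right _ _
  have hC41 : 1 ≤ C₄ := hC₂.trans hC24
  refine ⟨Cw, C * (4 * C₄), η₀, r, X₁, hCw, one_le_mul_of_one_le_of_one_le hC (by linarith),
    hη₀, by linarith, hr0, ?_⟩
  intro X hX hXa D hD hz hκ N0 N1 ρ hcut B B₁ Br Bl El Ga Zr z₁ bb s a α Q q₀ e cc x₁ lo lo' σ₀ σ'
    g₀ Dd d₀ hB hB₁ hBr hBl hEl hGa hGa1 hZr9 hZr hs ha hd₀ hq₀ hα he hlo' hx₁ hg₀ hDd hcc hlo hQX hbb hsize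
    hCl hCl0 hClr hClN hClNr hLB
  have hX1 : (1 : ℝ) ≤ X := by linarith
  have hX0 : 0 < X := by linarith
  have hlX : 0 ≤ Real.log X := Real.log_nonneg hX1
  have hN0 : (0 : ℝ) ≤ N := Nat.cast_nonneg _
  have hlD : 0 ≤ Real.log D.D0 := Real.log_nonneg hD.D0
  have he3X : 0 ≤ e₃ * Real.log X := by positivity
  have hz₁ : 0 ≤ z₁ := by
    by_contra hc
    have h1 : Real.exp z₁ < 1 := by
      have := Real.exp_lt_exp.2 (not_le.1 hc)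
      rwa [Real.exp_zero] at this
    linarith
  set ax : ℝ := a + e₃ * Real.log X + c₁ + z₁ with hax
  have hax0 : 0 ≤ ax := by rw [hax]; linarith
  have haxα : ax + r ≤ a + α := by rw [hax]; linarith
  set E₁ : ℝ := Real.exp (N * Real.log D.D0 + a + α) with hE₁
  have hE₁0 : 0 ≤ E₁ := (Real.exp_pos _).le
  set Ex : ℝ := Real.exp bb with hEx
  have hEx0 : 0 ≤ Ex := (Real.exp_pos _).le
  set El' : ℝ := El + Ga * (C₄ * X ^ ε * (B₁ + Br + Ex) + C₄ * X ^ ε * ((Bl + Bl) * E₁ + Ex))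
    with hEl'
  have hXε : 1 ≤ X ^ ε := Real.one_le_rpow hX1 hε.le
  have hEl'0 : 0 ≤ El' := by rw [hEl']; positivity
  have hq1 : Real.exp r₁ ≤ q₀ := (Real.exp_le_exp.2 hr1).trans hq₀
  have hq2 : Real.exp r₂ ≤ q₀ := (Real.exp_le_exp.2 hr2).trans hq₀
  have hq3 : Real.exp r₃ ≤ q₀ := (Real.exp_le_exp.2 hr3).trans hq₀
  have hNr : (N : ℝ) * r₁ ≤ N * r := mul_le_mul_of_nonneg_left hr1 hN0
  have hZ : ∀ m : ℝ, 0 ≤ D.v + (D.n - m) + a → m + R ≤ Real.log X →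
      D.v + (D.n - m) + (a + α) + g₀ ≤ Real.log X →
      0 < Zr * (N1 (D.v + (D.n - m) + a + e₃ * Real.log X) : ℝ) ∧
      Zr * (N1 (D.v + (D.n - m) + a + e₃ * Real.log X) : ℝ) * Real.exp g₀ ≤ X ∧
      Zr * (N1 (D.v + (D.n - m) + a + e₃ * Real.log X) : ℝ) ≤ X ∧
      Real.log (Zr * (N1 (D.v + (D.n - m) + a + e₃ * Real.log X) : ℝ)) ≤ D.v + (D.n - m) + ax := by
    intro m h1 _ h3
    set L : ℝ := D.v + (D.n - m) + a + e₃ * Real.log X with hLd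
    have hL0 : 0 ≤ L := by rw [hLd]; linarith
    have hlo1 : (1 : ℝ) ≤ N1 L := by
      have e1 : (1 : ℝ) ≤ Real.exp L := Real.one_le_exp hL0
      have e2 : Real.exp L ≤ N0 L := hcut.lo L hL0
      have e3 : (N0 L : ℝ) ≤ N1 L := by exact_mod_cast hcut.le L hL0
      linarith
    have hhi : Zr * (N1 L : ℝ) ≤ Real.exp (L + c₁ + z₁) := by
      have e1 : 9 * (N1 L : ℝ) ≤ Real.exp (L + c₁) := hcut.hi L hL0
      calc Zr * (N1 L : ℝ) ≤ 9 * Real.exp z₁ * N1 L :=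
            mul_le_mul_of_nonneg_right hZr (by linarith)
        _ = Real.exp z₁ * (9 * (N1 L : ℝ)) := by ring
        _ ≤ Real.exp z₁ * Real.exp (L + c₁) := mul_le_mul_of_nonneg_left e1 (Real.exp_pos _).le
        _ = Real.exp (L + c₁ + z₁) := by rw [← Real.exp_add]; congr 1; ring
    have hpos : 0 < Zr * (N1 L : ℝ) := by positivity
    have hg1 : 1 ≤ Real.exp g₀ := Real.one_le_exp hg₀
    have hX2 : Real.exp (L + c₁ + z₁) * Real.exp g₀ ≤ X := by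
      rw [← Real.exp_add, ← Real.exp_log hX0]
      exact Real.exp_le_exp.2 (by rw [hLd]; linarith)
    have hX3 : Zr * (N1 L : ℝ) * Real.exp g₀ ≤ X :=
      (mul_le_mul_of_nonneg_right hhi (Real.exp_pos _).le).trans hX2
    refine ⟨hpos, hX3, (le_mul_of_one_le_right hpos.le hg1).trans hX3, ?_⟩
    have h5 := Real.log_le_log hpos hhi
    rw [Real.log_exp] at h5
    rw [hax]
    linarith
  have main := hnt X hX hXa D hD hz hκ N0 N1 ρ hcut B Br Bl El' bb s a α Q q₀ (e + N * (r - r₁))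
    cc x₁ lo lo' σ₀ σ'
    g₀ Dd d₀ hB hBr hBl hEl'0 hs ha hd₀ hq1 (by linarith)
    (by
      have e1 : e + N * (r - r₁) + (N + 1) * r₁ = e + N * r + r₁ := by ring
      rw [e1]
      linarith)
    hlo' hx₁ hg₀ hDd hcc (by linarith) hQX (by linarith)
    (fun ps c1 c2 c3 => by
      obtain ⟨z1, z2, z3, z4, z5, z6⟩ := hsize ps c1 c2 c3
      exact ⟨z1, z2, z3, z4, by linarith, z6⟩)
    (hCl.mono le_rfl (by linarith) le_rfl le_rfl (by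
      have e1 : σ' - (e + N * (r - r₁)) - N * r₁ = σ' - e - N * r := by ring
      rw [e1]))
    (hClr.mono le_rfl (by linarith) le_rfl le_rfl (by linarith))
    (fun q ps' k' b1 b2 b3 b4 b5 b6 b7 b8 => hClN q ps' k' b1 b2 b3 (b4.mono (by linarith)) b5 b6
      b7 b8)
    (fun q ps' k' b1 b2 b3 b4 b5 b6 b7 b8 => hClNr q ps' k' b1 b2 b3 (b4.mono (by linarith)) b5 b6
      b7 b8)
    ?_
  · refine main.mono ?_ le_rfl le_rfl le_rfl le_rfl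
    have e2 : X ^ (2 * ε) = X ^ ε * X ^ ε := by rw [← Real.rpow_add hX0]; congr 1; ring
    have e3 : X ^ (3 * ε) = X ^ (2 * ε) * X ^ ε := by
      rw [← Real.rpow_add hX0]; congr 1; ring
    have h1 := arith_m (C := C) (Xe := X ^ ε) (El := El) (Ga := Ga) (B₁ := B₁) (Br := Br)
      (Eb := Ex) (Bl := Bl) (E₁ := E₁) (C₁ := C₄) hC hXε hEl hGa hGa1 hB₁ hBr hEx0 hBl hE₁0 hC41
    rw [← hEl', ← e2, ← e3] at h1
    have h2 : C * X ^ (2 * ε) * B ≤ C * (4 * C₄) * X ^ (2 * ε) * B := by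
      have : C ≤ C * (4 * C₄) := le_mul_of_one_le_right (by linarith) (by linarith)
      gcongr
    exact add_le_add h1 h2
  · intro q ps h1 h2 h3 h4 h5 h6
    obtain ⟨z1, z2, z3, z4, z5, z6⟩ := hsize ps h4 h6 h5
    have hz0 := h4.z_nonneg
    have hHt := one_le_Ht ps
    have hm00 : 0 ≤ LF ps := LF_nonneg hz0
    have hnq : (0 : ℝ) < nm q := by exact_mod_cast nm_pos.2 h1.ne_zero
    have hqX : (nm q : ℝ) ≤ X ^ B₀ := by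
      have h7 : (nm q : ℝ) * 1 ≤ nm q * Real.exp (LF ps) :=
        mul_le_mul_of_nonneg_left (Real.one_le_exp hm00) hnq.le
      linarith
    have hQ' : QX B₀ X s Q d₀ D q ps := ⟨h1, hqX, h2, h4, z6, by linarith, hd₀, hs⟩
    obtain ⟨y1, y2, y3, y4⟩ := hZ (LF ps) z3 z1 z2
    set Z : ℝ := Zr * (N1 (D.v + (D.n - LF ps) + a + e₃ * Real.log X) : ℝ) with hZd
    have hHJ : 0 ≤ Ht ps ^ J := Real.rpow_nonneg (by linarith) _
    have hT : 0 ≤ Ht ps ^ J * Real.exp (2 * LF ps) := by positivity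
    have hbb' : g₀ + 4 * Real.log D.D0 - d₀ + (LF ps + Real.log Z - D.κ) / 3 ≤ bb := by
      rw [hax] at y4
      linarith
    have k1 := hsa X hX D hD B₁ Br bb s ax Q q₀ (σ' + r) lo g₀ d₀ hB₁ hBr hg₀ hq2
      (hCl0.mono le_rfl (by linarith) (by linarith) le_rfl le_rfl)
      (hClr.mono le_rfl (by linarith) (by linarith) le_rfl le_rfl)
      q ps Z hQ' (by linarith) (by linarith) y2 y1 y4 hbb'
    have k2 := hlp X hX D hD Bl Bl bb s ax Q q₀ cc lo' x₁ g₀ d₀ hBl hBl hq3 hax0 hlo' hx₁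
      (fun q ps' k' b1 b2 b3 b4 b5 b6 b7 b8 => hClN q ps' k' b1 b2 b3 (b4.mono (by linarith)) b5
        b6 b7 (by linarith))
      (fun q ps' k' b1 b2 b3 b4 b5 b6 b7 b8 => hClNr q ps' k' b1 b2 b3 (b4.mono (by linarith)) b5
        b6 b7 (by linarith))
      q ps Z hQ' (by linarith) (by linarith) y1 y3 y4 (by linarith)
    refine LBn.mono (Real.exp_pos _).le (Real.exp_pos _).le
      (hLB q ps h1 h2 h3 h4 h5 h6 _ _ ?_ ?_ k1 k2) ?_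
    · have : 0 ≤ B₁ + Br + Real.exp bb := by positivity
      positivity
    · have : 0 ≤ (Bl + Bl) * Real.exp (N * Real.log D.D0 + ax) + Real.exp bb := by positivity
      positivity
    · have hEE : Real.exp (N * Real.log D.D0 + ax) ≤ E₁ := Real.exp_le_exp.2 (by linarith)
      have u1 : C₂ * X ^ ε * (B₁ + Br + Real.exp bb) ≤ C₄ * X ^ ε * (B₁ + Br + Ex) := by gcongr
      have u2 : C₃ * X ^ ε * ((Bl + Bl) * Real.exp (N * Real.log D.D0 + ax) + Real.exp bb) ≤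
          C₄ * X ^ ε * ((Bl + Bl) * E₁ + Ex) := by gcongr
      have u3 := mul_le_mul_of_nonneg_right (mul_le_mul_of_nonneg_left (add_le_add u1 u2) hGa) hT
      calc _ = Ga * (C₂ * X ^ ε * (B₁ + Br + Real.exp bb) +
            C₃ * X ^ ε * ((Bl + Bl) * Real.exp (N * Real.log D.D0 + ax) + Real.exp bb)) *
            (Ht ps ^ J * Real.exp (2 * LF ps)) + El * (Ht ps ^ J * Real.exp (2 * LF ps)) := by ring
        _ ≤ Ga * (C₄ * X ^ ε * (B₁ + Br + Ex) + C₄ * X ^ ε * ((Bl + Bl) * E₁ + Ex)) *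
            (Ht ps ^ J * Real.exp (2 * LF ps)) + El * (Ht ps ^ J * Real.exp (2 * LF ps)) := by
              linarith
        _ = El' * Ht ps ^ J * Real.exp (2 * LF ps) := by rw [hEl']; ring

end Crest.Agent.R017.RX298
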