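import Crest.Agent.R017.BsE_521
import Crest.Agent.R017.LBu_180
import Crest.Agent.R017.RX6_298

/-!
# Row 17, T.7 L11 (helper791): the lower bound (LB) and the Bessel bound with a cut of the
# frequencies (exceptional class)

The cut `Q p` depends on the twist `p` (principal frequencies of `bt φ α p`).

* `LBnQ`, `LBmQ` : (LB) with `SqQ w K (Q p)` in place of `SqP w K`
* `SQnQ`        : the square sum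
* `bess_absorbP`, `bess_absorbQ` : the Bessel bound
-/

set_option autoImplicit false

noncomputable section

open Complex MeasureTheory Filter Topology Finset
open scoped ComplexConjugate Classical ContDiff

namespace Crest.Agent.R017.LBQ791

open Crest.Agent.R012 Crest.Agent.R012.Eis Crest.Agent.R012.MC Crest.Agent.R012.Gauss880
open Crest.Agent.R012.Mob705 (PE)
open Crest.Agent.R012.LS2 (S mem_S bl mem_bl)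
open Crest.Agent.R012.Weight600 (osc pw ker)
open Crest.Agent.R017.CM106 (CS TG FS)
open Crest.Agent.R017.C70 (JW JC)
open Crest.Agent.R017.PX764 (n6 Gh)
open Crest.Agent.R017.E1551
open Crest.Agent.R017.Rough381 (VF)
open Crest.Agent.R017.Win813
open Crest.Agent.R017.RGw813
open Crest.Agent.R017.RG64 (LBn)
open Crest.Agent.R017.LBu180 (SqQ SqQ_le)
open Crest.Agent.R017.RX298 (LBm)
open Crest.Agent.R017.Bs521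

/-- the lower bound (LB) with a cut `Q p` of the frequencies, depending on the twist `p` -/
def LBnQ (w : ℝ → ℝ) (Q : ℕ × ℕ → Eis → Prop) (Cw η : ℝ) (Aw : ℕ) (K X Y D : ℝ) (N₁ : ℕ)
    (ρ : ℕ → ℝ) (R : ℝ) (J : ℕ) (α : Eis → ℂ) (E : ℝ) : Prop :=
  ∀ p ∈ T9, ∀ (t X' : ℝ) (φ : ℝ → ℝ), 0 < X' → |Real.log X' - Real.log X| ≤ R + 1 →
    WK Cw η Aw φ → (∀ u, φ u ≠ 0 → |u - Real.log X'| ≤ η / 2) →
    Dg w K Y (fun n => bt φ α p n * pw t (nm n)) + 2 * cP w * K ^ (2 / 3 : ℝ) *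
      (XJw ρ (JW D (1 / 10) N₁) (fun n => bt φ α p n * pw t (nm n))).re -
    SqQ w K (Q p) (fun n => bt φ α p n * pw t (nm n)) ≤ (K / X) * (E * (1 + |t|) ^ J)

/-- the square sum with a cut -/
def SQnQ (w : ℝ → ℝ) (Q : ℕ × ℕ → Eis → Prop) (Cw η : ℝ) (Aw : ℕ) (K X R : ℝ) (J : ℕ)
    (α : Eis → ℂ) (E : ℝ) : Prop :=
  ∀ p ∈ T9, ∀ (t X' : ℝ) (φ : ℝ → ℝ), 0 < X' → |Real.log X' - Real.log X| ≤ R + 1 →
    WK Cw η Aw φ → (∀ u, φ u ≠ 0 → |u - Real.log X'| ≤ η / 2) →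
    SqQ w K (Q p) (fun n => bt φ α p n * pw t (nm n)) ≤ (K / X) * (E * (1 + |t|) ^ J)

lemma LBnQ.mono {w : ℝ → ℝ} {Q : ℕ × ℕ → Eis → Prop} {Cw η : ℝ} {Aw : ℕ} {K X Y D : ℝ} {N₁ : ℕ}
    {ρ : ℕ → ℝ} {R : ℝ} {J : ℕ} {α : Eis → ℂ} {E E' : ℝ} (hK : 0 ≤ K) (hX : 0 ≤ X)
    (h : LBnQ w Q Cw η Aw K X Y D N₁ ρ R J α E) (hE : E ≤ E') :
    LBnQ w Q Cw η Aw K X Y D N₁ ρ R J α E' := by
  intro p hp t X' φ h1 h2 h3 h4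
  refine (h p hp t X' φ h1 h2 h3 h4).trans ?_
  have : 0 ≤ K / X := div_nonneg hK hX
  gcongr

lemma SQnQ.mono {w : ℝ → ℝ} {Q : ℕ × ℕ → Eis → Prop} {Cw η : ℝ} {Aw : ℕ} {K X : ℝ}
    {R : ℝ} {J : ℕ} {α : Eis → ℂ} {E E' : ℝ} (hK : 0 ≤ K) (hX : 0 ≤ X)
    (h : SQnQ w Q Cw η Aw K X R J α E) (hE : E ≤ E') : SQnQ w Q Cw η Aw K X R J α E' := by
  intro p hp t X' φ h1 h2 h3 h4
  refine (h p hp t X' φ h1 h2 h3 h4).trans ?_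
  have : 0 ≤ K / X := div_nonneg hK hX
  gcongr

/-- a cut makes (LB) stronger -/
lemma LBnQ.toLBn {w : ℝ → ℝ} (hw : Wgt w) (hw0 : ∀ x, 0 ≤ w x) {Q : ℕ × ℕ → Eis → Prop}
    {Cw η : ℝ} {Aw : ℕ} {K X Y D : ℝ} {N₁ : ℕ}
    {ρ : ℕ → ℝ} {R : ℝ} {J : ℕ} {α : Eis → ℂ} {E : ℝ} (hK : 0 < K)
    (h : LBnQ w Q Cw η Aw K X Y D N₁ ρ R J α E) : LBn w Cw η Aw K X Y D N₁ ρ R J α E := by
  intro p hp t X' φ h1 h2 h3 h4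
  have h5 := h p hp t X' φ h1 h2 h3 h4
  have h6 := SqQ_le hw hw0 hK (Q p) (fun n => bt φ α p n * pw t (nm n))
  linarith

lemma SqQ_true (w : ℝ → ℝ) (K : ℝ) (α : Eis → ℂ) : SqQ w K (fun _ => True) α = SqP w K α := by
  unfold LBu180.SqQ E1551.SqP
  refine tsum_congr fun k => ?_
  simp

/-- no cut -/
lemma LBnQ_true {w : ℝ → ℝ} {Cw η : ℝ} {Aw : ℕ} {K X Y D : ℝ} {N₁ : ℕ}
    {ρ : ℕ → ℝ} {R : ℝ} {J : ℕ} {α : Eis → ℂ} {E : ℝ} :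
    LBnQ w (fun _ _ => True) Cw η Aw K X Y D N₁ ρ R J α E ↔
      LBn w Cw η Aw K X Y D N₁ ρ R J α E := by
  unfold LBnQ RG64.LBn
  simp only [SqQ_true]

/-- no cut -/
lemma SQnQ_true {w : ℝ → ℝ} {Cw η : ℝ} {Aw : ℕ} {K X : ℝ} {R : ℝ} {J : ℕ} {α : Eis → ℂ} {E : ℝ} :
    SQnQ w (fun _ _ => True) Cw η Aw K X R J α E ↔ SQn w Cw η Aw K X R J α E := by
  unfold SQnQ Bs521.SQn
  simp only [SqQ_true]

/-- **the lower bound (LB) with a cut as function of the numbers of the T-side** (SA0), (L+), levels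
up to `Zr * N₁` -/
def LBmQ (w : ℝ → ℝ) (Q : ℕ × ℕ → Eis → Prop) (Cw η : ℝ) (Aw : ℕ) (K X Y D : ℝ) (N₁ : ℕ)
    (ρ : ℕ → ℝ) (R : ℝ) (J : ℕ) (α : Eis → ℂ) (G₀ Zr Ga E : ℝ) : Prop :=
  ∀ Ma Ml : ℝ, 0 ≤ Ma → 0 ≤ Ml →
    (∀ g ∈ S Y, (nm g : ℝ) ≤ G₀ → ∀ V : ℝ, 1 ≤ V → V ≤ Zr * N₁ * nm g → ∀ t : ℝ,
      VF V (tws (sg α g) t) ≤ Ma / (nm g : ℝ) ^ 2 *
        (V * K / (X / nm g) ^ 2) ^ (1 / 3 : ℝ) * (1 + |t|) ^ J) →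
    (∀ h ∈ S Y, ∀ B V : ℝ, 1 ≤ B → B ≤ Y → 1 ≤ V → V ≤ Zr * N₁ / (nm h : ℝ) ^ 2 → ∀ t : ℝ,
      E1551.JB Y α (fun U => G₀ < nm (h * U)) h B V t ≤
        Ml / (nm h : ℝ) ^ 2 * yv K X h V * (1 + |t|) ^ J) →
    LBnQ w Q Cw η Aw K X Y D N₁ ρ R J α (Ga * (Ma + Ml) + E)

lemma LBmQ.toLBm {w : ℝ → ℝ} (hw : Wgt w) (hw0 : ∀ x, 0 ≤ w x) {Q : ℕ × ℕ → Eis → Prop}
    {Cw η : ℝ} {Aw : ℕ} {K X Y D : ℝ} {N₁ : ℕ} {ρ : ℕ → ℝ} {R : ℝ} {J : ℕ} {α : Eis → ℂ}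
    {G₀ Zr Ga E : ℝ} (hK : 0 < K) (h : LBmQ w Q Cw η Aw K X Y D N₁ ρ R J α G₀ Zr Ga E) :
    LBm w Cw η Aw K X Y D N₁ ρ R J α G₀ Zr Ga E :=
  fun Ma Ml h1 h2 h3 h4 => (h Ma Ml h1 h2 h3 h4).toLBn hw hw0 hK

lemma LBmQ_true {w : ℝ → ℝ} {Cw η : ℝ} {Aw : ℕ} {K X Y D : ℝ} {N₁ : ℕ}
    {ρ : ℕ → ℝ} {R : ℝ} {J : ℕ} {α : Eis → ℂ} {G₀ Zr Ga E : ℝ} :
    LBmQ w (fun _ _ => True) Cw η Aw K X Y D N₁ ρ R J α G₀ Zr Ga E ↔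
      LBm w Cw η Aw K X Y D N₁ ρ R J α G₀ Zr Ga E := by
  unfold LBmQ RX298.LBm
  simp only [LBnQ_true]

set_option maxHeartbeats 1600000 in
/-- **the Bessel bound of a sequence**, `Sq p` = the quadratic form of the test for the twist `p`
(helper521's `bess_absorbG` with a form depending on the twist) -/
theorem bess_absorbP {w : ℝ → ℝ} (hw0 : ∀ x, 0 ≤ w x) (hc : 0 < cP w) (J Aw : ℕ) (R ε : ℝ)
    (hJA : J + 2 ≤ Aw) (hR : 0 ≤ R) (hε : 0 < ε) :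
    ∃ Cw C : ℝ, 0 ≤ Cw ∧ 1 ≤ C ∧
    ∀ (K X Y η D : ℝ) (N₀ N₁ : ℕ) (ρ : ℕ → ℝ), 0 < K → 0 < X → 1 ≤ Y → 0 < η → η ≤ 1 →
      1 ≤ D → N₀ ≤ N₁ → (∀ n, 0 ≤ ρ n) → (∀ n ≤ N₀, ρ n = 1) →
      ∀ α : Eis → ℂ, (∀ n, α n ≠ 0 → n ∈ S Y) →
      (∀ n, α n ≠ 0 → |Real.log (nm n) - Real.log X| ≤ R) →
      ∀ (Sq : ℕ × ℕ → (Eis → ℂ) → ℝ) (E Es : ℝ), 0 ≤ E → 0 ≤ Es →
      (∀ p ∈ T9, ∀ (t X' : ℝ) (φ : ℝ → ℝ), 0 < X' → |Real.log X' - Real.log X| ≤ R + 1 →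
        WK Cw η Aw φ → (∀ u, φ u ≠ 0 → |u - Real.log X'| ≤ η / 2) →
        Dg w K Y (fun n => bt φ α p n * pw t (nm n)) + 2 * cP w * K ^ (2 / 3 : ℝ) *
          (XJw ρ (JW D (1 / 10) N₁) (fun n => bt φ α p n * pw t (nm n))).re -
        Sq p (fun n => bt φ α p n * pw t (nm n)) ≤ (K / X) * (E * (1 + |t|) ^ J)) →
      (∀ p ∈ T9, ∀ (t X' : ℝ) (φ : ℝ → ℝ), 0 < X' → |Real.log X' - Real.log X| ≤ R + 1 →
        WK Cw η Aw φ → (∀ u, φ u ≠ 0 → |u - Real.log X'| ≤ η / 2) →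
        Sq p (fun n => bt φ α p n * pw t (nm n)) ≤ (K / X) * (Es * (1 + |t|) ^ J)) →
      ∀ V : ℝ, 1 ≤ V → V ≤ N₀ →
      VF V α ≤ C * (η⁻¹) ^ 2 * Y ^ ε * ((V * K / X ^ 2) ^ (1 / 3 : ℝ)) * (E + Es) := by
  obtain ⟨Cw, hCw, h3⟩ := windows R hR Aw
  obtain ⟨Cg, hCg, hg⟩ := gwin hR Aw
  obtain ⟨Cp, hCp, hprod⟩ := inv_prod_le hε
  have hi2 := iA_nonneg 2
  have hiA := iA_nonneg Aw
  set C₁ : ℝ := Cw ^ 2 * (2 * (9 * (Cg ^ 2 * iA Aw * (iA 2 * (Cp / cP w))))) with hC₁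
  have hC₁0 : 0 ≤ C₁ := by positivity
  refine ⟨Cw, C₁ + 1, by linarith, by linarith, ?_⟩
  intro K X Y η D N₀ N₁ ρ hK hX hY hη hη1 hD hN hρ0 hρ1 α hα hαR Sq E Es hE hEs hLB hSQ V hV hVN
  have hY0 : 0 ≤ Y := by linarith
  have hV0 : 0 < V := by linarith
  have hF := FS_of_S hY0 hα
  obtain ⟨I, φ, x, hI, hone, hx, hsupp, hWK⟩ := h3 η hη hη1 (Real.log X)
  obtain ⟨g, hgW, hg1⟩ := hg (Real.log X)
  set u : ℝ := (∏ p ∈ PY Y, la p)⁻¹ with hu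
  have hu0 : 0 < u := inv_pos.mpr (prod_la_pos Y)
  have huC : u ≤ Cp * Y ^ ε := hprod Y hY
  set M : ℝ := V ^ (1 / 3 : ℝ) * (u * ((K / X) * (E + Es) / (cP w * K ^ (2 / 3 : ℝ)))) with hM
  have hM0 : 0 ≤ M := by positivity
  -- one window, one twist, one height
  have hone_t : ∀ i ∈ I, ∀ p ∈ T9, ∀ t : ℝ,
      ∑ κ ∈ JG (1 / 10) V, ‖TG (fun n => ((n6 n : ℝ) : ℂ) *
        (bt (φ i) α p n * pw t (nm n))) κ‖ ^ 2 ≤ M * (1 + |t|) ^ J := by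
    intro i hi p hp t
    set X' : ℝ := Real.exp (x i) with hX'
    have hX'0 : 0 < X' := Real.exp_pos _
    have hlX : Real.log X' = x i := Real.log_exp _
    have hcl : |Real.log X' - Real.log X| ≤ R + 1 := by rw [hlX]; exact hx i hi
    have hsupp' : ∀ u, φ i u ≠ 0 → |u - Real.log X'| ≤ η / 2 := fun u hu => by
      rw [hlX]; exact hsupp i u hu
    have hP0 : (0 : ℝ) ≤ (1 + |t|) ^ J := by positivity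
    have hFb := FS_bt hF (φ i) p
    have hFβ : FS (fun n => bt (φ i) α p n * pw t (nm n)) :=
      ⟨hFb.fin.subset fun n hn => left_ne_zero_of_mul hn,
        fun n hn => hFb.prim n (left_ne_zero_of_mul hn)⟩
    have hβS : ∀ n, bt (φ i) α p n * pw t (nm n) ≠ 0 → n ∈ S Y := fun n hn =>
      hα n (wn_ne (tw2_ne (left_ne_zero_of_mul hn))).1
    have h4 := main_oneG hw0 hc hK hY0 hD hN hρ0 hρ1 hFβ hβS
      (hLB p hp t X' (φ i) hX'0 hcl (hWK i) hsupp')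
      (hSQ p hp t X' (φ i) hX'0 hcl (hWK i) hsupp') hVN
    have h5 : (∏ p ∈ PY Y, la p) * (V ^ (-(1 : ℝ) / 3) * ∑ κ ∈ JG (1 / 10) V,
        ‖TG (fun n => ((n6 n : ℝ) : ℂ) * (bt (φ i) α p n * pw t (nm n))) κ‖ ^ 2) ≤
        ((K / X) * (E * (1 + |t|) ^ J) + (K / X) * (Es * (1 + |t|) ^ J)) /
          (cP w * K ^ (2 / 3 : ℝ)) := by
      refine le_trans (mul_le_mul_of_nonneg_left ?_ (prod_la_pos Y).le) h4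
      rw [Finset.mul_sum]
      refine Finset.sum_le_sum fun κ hκ => ?_
      obtain ⟨h6, h7, h8⟩ := mem_JB.1 (Finset.mem_filter.1 hκ).1
      have hn0 : (0 : ℝ) < nm κ := nmpos h6.1
      refine mul_le_mul_of_nonneg_right ?_ (by positivity)
      exact Real.rpow_le_rpow_of_nonpos hn0 h8 (by norm_num)
    have hVV : V ^ (1 / 3 : ℝ) * V ^ (-(1 : ℝ) / 3) = 1 := by
      rw [← Real.rpow_add hV0]; norm_num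
    have hpi : 0 < ∏ p ∈ PY Y, la p := prod_la_pos Y
    have hV3 : 0 < V ^ (1 / 3 : ℝ) := by positivity
    calc ∑ κ ∈ JG (1 / 10) V, ‖TG (fun n => ((n6 n : ℝ) : ℂ) *
          (bt (φ i) α p n * pw t (nm n))) κ‖ ^ 2
        = V ^ (1 / 3 : ℝ) * (u * ((∏ p ∈ PY Y, la p) * (V ^ (-(1 : ℝ) / 3) *
          ∑ κ ∈ JG (1 / 10) V, ‖TG (fun n => ((n6 n : ℝ) : ℂ) *
            (bt (φ i) α p n * pw t (nm n))) κ‖ ^ 2))) := by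
          rw [← mul_assoc u, hu, inv_mul_cancel₀ hpi.ne', one_mul, ← mul_assoc, hVV, one_mul]
      _ ≤ V ^ (1 / 3 : ℝ) * (u * (((K / X) * (E * (1 + |t|) ^ J) +
          (K / X) * (Es * (1 + |t|) ^ J)) / (cP w * K ^ (2 / 3 : ℝ)))) :=
          mul_le_mul_of_nonneg_left (mul_le_mul_of_nonneg_left h5 hu0.le) hV3.le
      _ = M * (1 + |t|) ^ J := by rw [hM]; ring
  -- one window, one twist
  have hone_p : ∀ i ∈ I, ∀ p ∈ T9, ∑ κ ∈ JG (1 / 10) V, ‖TG (bt (φ i) α p) κ‖ ^ 2 ≤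
      X ^ (1 / 3 : ℝ) * (Cg ^ 2 * iA Aw * (iA 2 * M)) := by
    intro i hi p hp
    exact win_one hJA hCg hX hgW hg1 (FS_bt hF (φ i) p)
      (fun n hn => hαR n (wn_ne (tw2_ne hn)).1) (JG (1 / 10) V) hM0 (hone_t i hi p hp)
  -- one window
  have hwin : ∀ i ∈ I, ∑ κ ∈ BF V, ‖TG (wn (φ i) α) κ‖ ^ 2 ≤
      2 * (9 * (X ^ (1 / 3 : ℝ) * (Cg ^ 2 * iA Aw * (iA 2 * M)))) := by
    intro i hi
    have hFw : FS (wn (φ i) α) := ⟨hF.fin.subset fun n hn => (wn_ne hn).1,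
      fun n hn => hF.prim n (wn_ne hn).1⟩
    refine (cls1 hFw hV0.le).trans (mul_le_mul_of_nonneg_left ?_ (by norm_num))
    refine (Finset.sum_le_sum fun p hp => hone_p i hi p hp).trans (le_of_eq ?_)
    rw [Finset.sum_const, nsmul_eq_mul, card_T9]
  -- recombination
  have hrec := KS_windows (fun l m => G m * conj (sy l m)) hF
    (fun n hn => hone (Real.log (nm n)) (hαR n hn)) (one_ne_zero : (1 : Eis) ≠ 0)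
    (BF V) (fun _ => (1 : ℝ)) (fun κ _ => zero_le_one) (fun κ => κ) 0
  have e1 : ∑ κ ∈ BF V, ‖TG α κ‖ ^ 2 = ∑ κ ∈ BF V, (1 : ℝ) * tgf α 1 κ 0 :=
    Finset.sum_congr rfl fun κ _ => by rw [tgf_zero, one_mul]
  have e2 : ∀ i, ∑ κ ∈ BF V, (1 : ℝ) * tgf (wn (φ i) α) 1 κ 0 =
      ∑ κ ∈ BF V, ‖TG (wn (φ i) α) κ‖ ^ 2 := fun i =>
    Finset.sum_congr rfl fun κ _ => by rw [tgf_zero, one_mul]
  have e3 : VF V α ≤ ∑ κ ∈ BF V, ‖TG α κ‖ ^ 2 := by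
    unfold Rough381.VF
    refine Finset.sum_le_sum_of_subset_of_nonneg ?_ fun κ _ _ => by positivity
    intro κ hκ
    obtain ⟨h1, h2⟩ := Finset.mem_filter.1 hκ
    rw [mem_bl hV0.le] at h1
    exact mem_BF.2 ⟨h2, h1.2⟩
  have h7 : ∑ i ∈ I, ∑ κ ∈ BF V, (1 : ℝ) * tgf (wn (φ i) α) 1 κ 0 ≤
      (I.card : ℝ) * (2 * (9 * (X ^ (1 / 3 : ℝ) * (Cg ^ 2 * iA Aw * (iA 2 * M))))) := by
    calc ∑ i ∈ I, ∑ κ ∈ BF V, (1 : ℝ) * tgf (wn (φ i) α) 1 κ 0 ≤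
          ∑ _i ∈ I, 2 * (9 * (X ^ (1 / 3 : ℝ) * (Cg ^ 2 * iA Aw * (iA 2 * M)))) :=
          Finset.sum_le_sum fun i hi => by rw [e2]; exact hwin i hi
      _ = _ := by rw [Finset.sum_const, nsmul_eq_mul]
  have hI0 : (0 : ℝ) ≤ I.card := Nat.cast_nonneg _
  have hI' : (I.card : ℝ) ≤ Cw * η⁻¹ := by rw [← div_eq_mul_inv]; exact hI
  have hηi0 : 0 < η⁻¹ := inv_pos.mpr hη
  have hB0 : 0 ≤ 2 * (9 * (X ^ (1 / 3 : ℝ) * (Cg ^ 2 * iA Aw * (iA 2 * M)))) := by positivity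
  have hVK : 0 ≤ (V * K / X ^ 2) ^ (1 / 3 : ℝ) := by positivity
  have hYe : 0 < Y ^ ε := by positivity
  have hpow := bess_pow hV0 hK hX hc u (E + Es)
  calc VF V α ≤ ∑ κ ∈ BF V, ‖TG α κ‖ ^ 2 := e3
    _ = ∑ κ ∈ BF V, (1 : ℝ) * tgf α 1 κ 0 := e1
    _ ≤ (I.card : ℝ) * ∑ i ∈ I, ∑ κ ∈ BF V, (1 : ℝ) * tgf (wn (φ i) α) 1 κ 0 := hrec
    _ ≤ (I.card : ℝ) * ((I.card : ℝ) *
        (2 * (9 * (X ^ (1 / 3 : ℝ) * (Cg ^ 2 * iA Aw * (iA 2 * M)))))) :=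
        mul_le_mul_of_nonneg_left h7 hI0
    _ ≤ (Cw * η⁻¹) * ((Cw * η⁻¹) *
        (2 * (9 * (X ^ (1 / 3 : ℝ) * (Cg ^ 2 * iA Aw * (iA 2 * M)))))) := by gcongr
    _ = Cw ^ 2 * (2 * (9 * (Cg ^ 2 * iA Aw * iA 2))) * (η⁻¹) ^ 2 *
        (X ^ (1 / 3 : ℝ) * M) := by ring
    _ = Cw ^ 2 * (2 * (9 * (Cg ^ 2 * iA Aw * iA 2))) * (η⁻¹) ^ 2 *
        ((V * K / X ^ 2) ^ (1 / 3 : ℝ) * (u * (E + Es) / cP w)) := by rw [hM, hpow]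
    _ ≤ Cw ^ 2 * (2 * (9 * (Cg ^ 2 * iA Aw * iA 2))) * (η⁻¹) ^ 2 *
        ((V * K / X ^ 2) ^ (1 / 3 : ℝ) * ((Cp * Y ^ ε) * (E + Es) / cP w)) := by gcongr
    _ = C₁ * ((η⁻¹) ^ 2 * Y ^ ε * ((V * K / X ^ 2) ^ (1 / 3 : ℝ)) * (E + Es)) := by
        rw [hC₁]; ring
    _ ≤ (C₁ + 1) * ((η⁻¹) ^ 2 * Y ^ ε * ((V * K / X ^ 2) ^ (1 / 3 : ℝ)) * (E + Es)) := by
        gcongr; linarith
    _ = _ := by ring

/-- **the Bessel bound of a sequence**, with a cut of the frequencies depending on the twist -/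
theorem bess_absorbQ {w : ℝ → ℝ} (hw0 : ∀ x, 0 ≤ w x) (hc : 0 < cP w) (J Aw : ℕ) (R ε : ℝ)
    (hJA : J + 2 ≤ Aw) (hR : 0 ≤ R) (hε : 0 < ε) :
    ∃ Cw C : ℝ, 0 ≤ Cw ∧ 1 ≤ C ∧
    ∀ (K X Y η D : ℝ) (N₀ N₁ : ℕ) (ρ : ℕ → ℝ), 0 < K → 0 < X → 1 ≤ Y → 0 < η → η ≤ 1 →
      1 ≤ D → N₀ ≤ N₁ → (∀ n, 0 ≤ ρ n) → (∀ n ≤ N₀, ρ n = 1) →
      ∀ α : Eis → ℂ, (∀ n, α n ≠ 0 → n ∈ S Y) →
      (∀ n, α n ≠ 0 → |Real.log (nm n) - Real.log X| ≤ R) →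
      ∀ (Q : ℕ × ℕ → Eis → Prop) (E Es : ℝ), 0 ≤ E → 0 ≤ Es →
      LBnQ w Q Cw η Aw K X Y D N₁ ρ R J α E → SQnQ w Q Cw η Aw K X R J α Es →
      ∀ V : ℝ, 1 ≤ V → V ≤ N₀ →
      VF V α ≤ C * (η⁻¹) ^ 2 * Y ^ ε * ((V * K / X ^ 2) ^ (1 / 3 : ℝ)) * (E + Es) := by
  obtain ⟨Cw, C, hCw, hC, h⟩ := bess_absorbP hw0 hc J Aw R ε hJA hR hε
  refine ⟨Cw, C, hCw, hC, ?_⟩
  intro K X Y η D N₀ N₁ ρ hK hX hY hη hη1 hD hN hρ0 hρ1 α hα hαR Q E Es hE hEs hLB hSQ V hV hVN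
  exact h K X Y η D N₀ N₁ ρ hK hX hY hη hη1 hD hN hρ0 hρ1 α hα hαR (fun p => SqQ w K (Q p)) E Es hE
    hEs hLB hSQ V hV hVN

end Crest.Agent.R017.LBQ791
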