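import Crest.Agent.R017.RGc_64

/-!
# Row 17, T.7 (RG rule, exceptional class), X5 part c (helper298): the replaced list

* `rp d₀ ps` : the first two pieces of lengths `z₁, z₂` are replaced by `z₁ + z₂ - d₀, d₀`
* `rpB d₀ ps₀` : the same for a base list
* `zt d₀ ps` : the unimodular factor which makes the principal values equal
* `xs` : the difference of the two sequences
-/

set_option autoImplicit false

noncomputable section

open Complex
open scoped ComplexConjugate

namespace Crest.Agent.R017.RX298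

open Crest.Agent.R012 Crest.Agent.R012.Eis Crest.Agent.R012.LS2 Crest.Agent.R012.Gauss880
open Crest.Agent.R012.Weight600 (osc pw)
open Crest.Agent.R017.CM106 Crest.Agent.R017.HP842 Crest.Agent.R017.FE47
open Crest.Agent.R017.End699 hiding pw
open Crest.Agent.R017.B770
open Crest.Agent.R017.Prov71
open Crest.Agent.R017.Rough381 (VF VF_nonneg)
open Crest.Agent.R017.Leg381
open Crest.Agent.R017.E1551 (sg tws)
open Crest.Agent.R017.RG64

/-- the replaced list -/
def rp (d₀ : ℝ) : List Pf → List Pf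
  | p :: p' :: ps =>
    ({p.1 with z := p.1.z + p'.1.z - d₀}, p.2) :: ({p'.1 with z := d₀}, p'.2) :: ps
  | ps => ps

/-- the replaced base list -/
def rpB (d₀ : ℝ) : List Pq → List Pq
  | p :: p' :: ps => {p with z := p.z + p'.z - d₀} :: {p' with z := d₀} :: ps
  | ps => ps

/-- the unimodular factor -/
def zt (d₀ : ℝ) : List Pf → ℂ
  | p :: p' :: _ => osc (p'.1.t - p.1.t) (p'.1.z - d₀)
  | _ => 1

lemma norm_osc (t u : ℝ) : ‖osc t u‖ = 1 := by
  unfold osc
  exact Complex.norm_exp_ofReal_mul_I _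

lemma norm_zt (d₀ : ℝ) (ps : List Pf) : ‖zt d₀ ps‖ = 1 := by
  match ps with
  | [] => simp [zt]
  | [_] => simp [zt]
  | p :: p' :: ps => exact norm_osc _ _

lemma rp_length (d₀ : ℝ) (ps : List Pf) : (rp d₀ ps).length = ps.length := by
  match ps with
  | [] => rfl
  | [_] => rfl
  | p :: p' :: ps => rfl

lemma rpB_length (d₀ : ℝ) (ps : List Pq) : (rpB d₀ ps).length = ps.length := by
  match ps with
  | [] => rfl
  | [_] => rfl
  | p :: p' :: ps => rfl

lemma LF_rp (d₀ : ℝ) (ps : List Pf) : LF (rp d₀ ps) = LF ps := by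
  match ps with
  | [] => rfl
  | [_] => rfl
  | p :: p' :: ps =>
    show LF (({p.1 with z := p.1.z + p'.1.z - d₀}, p.2) :: ({p'.1 with z := d₀}, p'.2) :: ps) = _
    rw [LF_cons, LF_cons, LF_cons, LF_cons]
    ring

lemma Ht_rp (d₀ : ℝ) (ps : List Pf) : Ht (rp d₀ ps) = Ht ps := by
  match ps with
  | [] => rfl
  | [_] => rfl
  | p :: p' :: ps =>
    show Ht (({p.1 with z := p.1.z + p'.1.z - d₀}, p.2) :: ({p'.1 with z := d₀}, p'.2) :: ps) = _
    rw [Ht_cons, Ht_cons, Ht_cons, Ht_cons]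

lemma NT_rp {d₀ : ℝ} {ps : List Pf} (h : NT ps) : NT (rp d₀ ps) := by
  match ps with
  | [] => exact h
  | [_] => exact h
  | p :: p' :: ps =>
    intro q hq
    have hq' : q ∈ (({p.1 with z := p.1.z + p'.1.z - d₀}, p.2) ::
      ({p'.1 with z := d₀}, p'.2) :: ps : List Pf) := hq
    rcases List.mem_cons.1 hq' with rfl | hq'
    · exact h p List.mem_cons_self
    rcases List.mem_cons.1 hq' with rfl | hq'
    · exact h p' (List.mem_cons_of_mem _ List.mem_cons_self)
    · exact h q (List.mem_cons_of_mem _ (List.mem_cons_of_mem _ hq'))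

lemma natural_rp {d₀ : ℝ} {ps : List Pf} (h : ∀ p ∈ ps, p.2 = false) :
    ∀ p ∈ rp d₀ ps, p.2 = false := by
  match ps with
  | [] => exact h
  | [_] => exact h
  | p :: p' :: ps =>
    intro q hq
    have hq' : q ∈ (({p.1 with z := p.1.z + p'.1.z - d₀}, p.2) ::
      ({p'.1 with z := d₀}, p'.2) :: ps : List Pf) := hq
    rcases List.mem_cons.1 hq' with rfl | hq'
    · exact h p List.mem_cons_self
    rcases List.mem_cons.1 hq' with rfl | hq'
    · exact h p' (List.mem_cons_of_mem _ List.mem_cons_self)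
    · exact h q (List.mem_cons_of_mem _ (List.mem_cons_of_mem _ hq'))

lemma rp_shT (d₀ t : ℝ) (ps : List Pf) : rp d₀ (shT t ps) = shT t (rp d₀ ps) := by
  match ps with
  | [] => rfl
  | [_] => rfl
  | p :: p' :: ps => rfl

lemma zt_shT (d₀ t : ℝ) (ps : List Pf) : zt d₀ (shT t ps) = zt d₀ ps := by
  match ps with
  | [] => rfl
  | [_] => rfl
  | p :: p' :: ps =>
    show osc ((p'.1.t + t) - (p.1.t + t)) (p'.1.z - d₀) = osc (p'.1.t - p.1.t) (p'.1.z - d₀)
    congr 1
    ring

/-- the first two lengths together are at least `d₀` -/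
def Lg (d₀ : ℝ) : List Pf → Prop
  | p :: p' :: _ => d₀ ≤ p.1.z + p'.1.z
  | _ => True

/-- the replaced list is derived from the replaced base list -/
lemma SbL_rp {s d₀ : ℝ} (hs : 0 ≤ s) (hd : 0 ≤ d₀) {ps : List Pf} {ps₀ : List Pq}
    (h : SbL s ps ps₀) (hL : Lg d₀ ps) : SbL (2 * s) (rp d₀ ps) (rpB d₀ ps₀) := by
  match ps, ps₀, h, hL with
  | [], [], _, _ => exact List.Forall₂.nil
  | [p], [q], h, _ => exact SbL.mono (by linarith) h
  | p :: p' :: ps, q :: q' :: ps₀, h, hL =>
    unfold SbL at h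
    cases h with
    | cons h1 h =>
      cases h with
      | cons h2 h =>
        have hL' : d₀ ≤ p.1.z + p'.1.z := hL
        obtain ⟨a1, a2, a3, a4, a5⟩ := h1
        obtain ⟨b1, b2, b3, b4, b5⟩ := h2
        refine List.Forall₂.cons ?_ (List.Forall₂.cons ?_ (SbL.mono (by linarith) h))
        · refine ⟨a1, a2, a3, ?_, ?_⟩
          · show 0 ≤ p.1.z + p'.1.z - d₀
            linarith
          · show p.1.z + p'.1.z - d₀ ≤ q.z + q'.z - d₀ + 2 * s
            linarith
        · refine ⟨b1, b2, b3, hd, ?_⟩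
          show d₀ ≤ d₀ + 2 * s
          linarith

/-- the total length of the replaced base list -/
lemma LF_natl_rpB (d₀ : ℝ) (ps : List Pq) : LF (natl (rpB d₀ ps)) = LF (natl ps) := by
  match ps with
  | [] => rfl
  | [_] => rfl
  | p :: p' :: ps =>
    have e1 : natl (rpB d₀ (p :: p' :: ps)) =
      (({p with z := p.z + p'.z - d₀} : Pq), false) :: (({p' with z := d₀} : Pq), false) ::
        natl ps := rfl
    have e2 : natl (p :: p' :: ps) = (p, false) :: (p', false) :: natl ps := rfl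
    rw [e1, e2, LF_cons, LF_cons, LF_cons, LF_cons]
    ring

/-! ### the difference of the two sequences -/

/-- the difference -/
def xs (q : Eis) (z D0 : ℝ) (P : DPar) (h : ℝ → ℝ) (d₀ : ℝ) (ps : List Pf) (n : Eis) : ℂ :=
  sqc q (alF z D0 P h ps) n - zt d₀ ps * sqc q (alF z D0 P h (rp d₀ ps)) n

lemma xs_shift (q : Eis) (z D0 : ℝ) (P : DPar) (h : ℝ → ℝ) (d₀ : ℝ) (ps : List Pf) (t : ℝ)
    (n : Eis) : xs q z D0 P h d₀ (shT t ps) n = xs q z D0 P h d₀ ps n * pw t (nm n) := by
  unfold xs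
  rw [zt_shT, rp_shT]
  unfold HP842.sqc
  rw [alF_shT, alF_shT]
  ring

/-- the twisted subsequence of the difference -/
lemma tws_sg_xs (q : Eis) (z D0 : ℝ) (P : DPar) (h : ℝ → ℝ) (d₀ : ℝ) (ps : List Pf) (g : Eis)
    (t : ℝ) : tws (sg (xs q z D0 P h d₀ ps) g) t = fun m =>
      tws (sg (sqc q (alF z D0 P h ps)) g) t m -
        zt d₀ ps * tws (sg (sqc q (alF z D0 P h (rp d₀ ps))) g) t m := by
  funext m
  show (sqc q (alF z D0 P h ps) (g * m) - zt d₀ ps * sqc q (alF z D0 P h (rp d₀ ps)) (g * m)) *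
    pw t (nm m) = sqc q (alF z D0 P h ps) (g * m) * pw t (nm m) -
      zt d₀ ps * (sqc q (alF z D0 P h (rp d₀ ps)) (g * m) * pw t (nm m))
  ring

lemma FS_sub {α β : Eis → ℂ} (hα : FS α) (hβ : FS β) (c : ℂ) : FS fun n => α n - c * β n where
  fin := by
    refine (hα.fin.union hβ.fin).subset fun n hn => ?_
    by_contra h
    simp only [Set.mem_union, Function.mem_support, not_or, not_not] at h
    apply hn
    show α n - c * β n = 0
    rw [h.1, h.2]; ring
  prim n hn := by
    by_cases h : α n = 0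
    · refine hβ.prim n fun h2 => hn ?_
      rw [h, h2]; ring
    · exact hα.prim n h

lemma FS_xs {h : ℝ → ℝ} (hh : Bump h) {P : DPar} (hP : P.OK) (q : Eis) (z D0 d₀ : ℝ)
    (ps : List Pf) : FS (xs q z D0 P h d₀ ps) :=
  FS_sub (HP842.FS.sqc (FS_alF hh hP z D0 ps) q) (HP842.FS.sqc (FS_alF hh hP z D0 _) q) _

end Crest.Agent.R017.RX298
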