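import Crest.Agent.R017.R3Q_791
import Crest.Agent.R017.RX5c_298
import Crest.Agent.R017.LBu_180


/-!
# Row 17, T.7 / T.5 (helper791): windows and smooth squares over arbitrary frequencies

* `btS_pt`, `winS` : twisted windows, arbitrary index set and set of frequencies
* `winX`   : the same for `xs` of RX5c_298
* `sq_win`, `sq_winX` : the smooth squares `SqQ w K Q`
-/

set_option autoImplicit false
set_option maxHeartbeats 400000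

noncomputable section

open Complex MeasureTheory
open scoped ComplexConjugate

namespace Crest.Agent.R017.R3Q791

open Crest.Agent.R012 Crest.Agent.R012.Eis Crest.Agent.R012.LS2 Crest.Agent.R012.Gauss880
open Crest.Agent.R012.MC (Wgt)
open Crest.Agent.R012.Div277 Crest.Agent.R012.Weight600
open Crest.Agent.R017.CM106 Crest.Agent.R017.FE47
open Crest.Agent.R017.B770
open Crest.Agent.R017.Prov71
open Crest.Agent.R017.HP842 (UT Pc pc KS sqc Th alL al ssub pc_support FS_cv FS_pc)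
open Crest.Agent.R017.TP320 (Fam tw)
open Crest.Agent.R017.XHB411 (tl)
open Crest.Agent.R017.XRG106 (Rl)
open Crest.Agent.R017.NtC320 (gC Lin_gC)
open Crest.Agent.R017.Leg381 (alf Pf alF LF alF_get LF_get)
open Crest.Agent.R017.R3571
open Crest.Agent.R017.Win813 (WK wn ew iA iA_nonneg HF KS_HF KS_win continuous_HF norm_HF_le
  supp_fin FS_wn wn_ne)
open Crest.Agent.R017.RGw813 (int_ew_pt tw2 bt FS_tw2 wn_tw2 norm_wl sy_wl sy_w3 sy_l3)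
open Crest.Agent.R017.RX298 (xs zt rp)
open Crest.Agent.R017.LBu180 (SqQ)


/-- a window and a factor `pw` in front of `gC` -/
lemma CS_gC_bt {φ : ℝ → ℝ} {α : Eis → ℂ} (h : FS α) {δ : Eis} (hδ : IsPrim δ) (e π : Eis)
    (s0 : ℝ) (p : ℕ × ℕ) (t₀ t : ℝ) (κ : Eis) :
    ‖CS (gC (fun n => bt φ α p n * pw t₀ (nm n)) δ e π (tw s0 t)) κ‖ =
      ‖CS (gC (wn φ (tw2 p.1 p.2 α)) δ e π (tw s0 (t₀ + t))) κ‖ := by
  have hF := FS_tw2 h p.1 p.2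
  have e1 : bt φ α p = wn φ (tw2 p.1 p.2 α) := (wn_tw2 φ p.1 p.2 α).symm
  have e2 : CS (gC (fun n => bt φ α p n * pw t₀ (nm n)) δ e π (tw s0 t)) κ =
      pw t₀ (nm δ) * CS (gC (wn φ (tw2 p.1 p.2 α)) δ e π (tw s0 (t₀ + t))) κ := by
    unfold CM106.CS
    rw [← tsum_mul_left]
    refine tsum_congr fun m => ?_
    unfold NtC320.gC
    rw [e1]
    by_cases h0 : wn φ (tw2 p.1 p.2 α) (δ * m) = 0
    · simp [h0]
    have hm : IsPrim m := IsPrim.of_mul_left ((FS_wn hF).prim _ h0) hδ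
    by_cases h1 : e ∣ m ∧ IsCoprime m π
    · have e3 := Win813.pw_split hδ.ne_zero hm.ne_zero t₀
      rw [if_pos h1, if_pos h1, tw_pw s0 t hm.ne_zero, tw_pw s0 (t₀ + t) hm.ne_zero,
        pw_add_left]
      show wn φ (tw2 p.1 p.2 α) (δ * m) * pw t₀ (nm (δ * m)) * _ * _ = _
      rw [e3]
      ring
    · rw [if_neg h1, if_neg h1]; ring
  rw [e2, norm_mul, norm_pw, one_mul]

/-- **twisted windows of a sequence**, arbitrary frequencies -/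
theorem btS_pt {C η : ℝ} {A J : ℕ} (hC : 0 ≤ C) (hη : 0 < η) (hη1 : η ≤ 1) (hAJ : J + 2 ≤ A)
    {φ : ℝ → ℝ} (hφ : WK C η A φ) {α : Eis → ℂ} (h : FS α) {δ : Eis} (hδ : IsPrim δ)
    (e π : Eis) (s0 : ℝ) (p : ℕ × ℕ) {β : Type} (T : Finset β) (W : β → ℝ)
    (hW : ∀ x ∈ T, 0 ≤ W x) (fr : β → Eis) {M : ℝ} (hM0 : 0 ≤ M)
    (hM : ∀ u : ℝ, ∑ x ∈ T, W x * ‖CS (gC α δ e π (tw s0 u))
      (fr x * (w ^ p.1 * lam ^ p.2) ^ 2)‖ ^ 2 ≤ M * (1 + |u|) ^ J) (t₀ t : ℝ) :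
    ∑ x ∈ T, W x * ‖CS (gC (fun n => bt φ α p n * pw t₀ (nm n)) δ e π (tw s0 t)) (fr x)‖ ^ 2 ≤
      C ^ 2 * iA A * (iA 2 * (η⁻¹) ^ J * (M * (1 + |t₀ + t|) ^ J)) := by
  have hF := FS_tw2 h p.1 p.2
  have key := KS_pt hC hη hη1 hAJ hφ (KC e π s0) hF hδ.ne_zero T W hW fr hM0 (fun u => by
      refine le_trans (Finset.sum_le_sum fun k hk => ?_) (hM u)
      rw [← gC_KS hF hδ]
      exact mul_le_mul_of_nonneg_left (pow_le_pow_left₀ (norm_nonneg _)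
        (norm_gC_tw2 h hδ e π s0 u p.1 p.2 (fr k)) 2) (hW k hk))
    (t₀ + t)
  refine le_trans (le_of_eq ?_) key
  refine Finset.sum_congr rfl fun k _ => ?_
  rw [← gC_KS (FS_wn hF) hδ, CS_gC_bt h hδ]

open Classical in
/-- **twisted windows of flagged lists**, arbitrary frequencies -/
theorem winS {h : ℝ → ℝ} {c : ℝ} (hpu : PU h c) {μ : ℝ} (hμ : 0 ≤ μ) {s0 : ℝ} (hs0 : 0 ≤ s0)
    (hs1 : s0 ≤ 1 / 2) (n : ℕ) {ε : ℝ} (hε : 0 < ε) :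
    ∃ C : ℝ, 1 ≤ C ∧ ∀ (P : DPar), P.OK → ∀ ps : List Pf, ps.length ≤ n →
      (∀ p ∈ ps, 0 ≤ p.1.z) → ∀ (z D0 : ℝ), 1 ≤ D0 →
      ∀ {β : Type} (T : Finset β) (Wx : β → ℝ), (∀ x ∈ T, 0 ≤ Wx x) →
      ∀ (q δ e π : Eis) (fr : β → Eis) (a : ℕ × ℕ), q ≠ 0 → IsPrim δ → IsPrim e → π ≠ 0 →
      ∀ (Ks : Finset Eis) (X0 B Tm : ℝ), 1 ≤ X0 → D0 ≤ X0 → (nm q : ℝ) ≤ X0 →
      (nm δ : ℝ) ≤ X0 → (nm e : ℝ) ≤ X0 → (nm π : ℝ) ≤ X0 → (∀ p ∈ ps, Real.exp p.1.z ≤ X0) →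
      0 ≤ B → 0 ≤ Tm → (∀ x ∈ T, fr x * (w ^ a.1 * lam ^ a.2) ^ 2 ∈ Ks) →
      (∀ κ ∈ Ks, ∑ x ∈ T.filter (fun x => fr x * (w ^ a.1 * lam ^ a.2) ^ 2 = κ), Wx x ≤ Tm) →
      (∀ (ps' : List Pq) (W : ℝ), 1 ≤ W → List.Forall₂ (Rl C W) ps' (ps.map Prod.fst) →
        tl Dq ps' ≤ LF ps - Real.log (nm δ * nm e) + C →
        RS P h Ks ps' ≤ B * Real.exp (tl Dq ps') * W ^ (2 * μ)) →
      ∀ (Cw η : ℝ) (A J : ℕ), 0 ≤ Cw → 0 < η → η ≤ 1 → J + 2 ≤ A → 2 * (n * μ) ≤ J →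
      ∀ (φ : ℝ → ℝ), WK Cw η A φ → ∀ (t₀ t : ℝ),
      ∑ x ∈ T, Wx x * ‖CS (gC (fun m => bt φ (sqc q (alF z D0 P h ps)) a m * pw t₀ (nm m)) δ e π
          (tw s0 t)) (fr x)‖ ^ 2 ≤
        (Cw ^ 2 * iA A * iA 2 * (η⁻¹) ^ J) * (C * (D0 ^ n) ^ (2 + 2 * s0) * X0 ^ ε *
          (1 + |t₀ + t|) ^ J * (Tm * B) * ((nm e : ℝ) ^ (-(2 * s0)) *
          (Real.exp (LF ps) / (nm δ * nm e)) ^ (1 - 2 * s0))) := by
  obtain ⟨R, hR0, hR⟩ := exists_R (cs_cx hpu.cs)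
  obtain ⟨C, hC, H⟩ := listRXS hpu hμ hs0 hs1 n hε
  refine ⟨C, hC, ?_⟩
  intro P hP ps hlen hz z D0 hD0 β T Wx hWx q δ e π fr a hq hδ he hπ Ks X0 B Tm hX0 hDX hqX hδX heX
    hπX hsX hB hTm0 hfr hTm hyp Cw η A J hCw hη hη1 hAJ hJ φ hφ t₀ t
  have hd0 := nm_cast_pos hδ.ne_zero
  have he0 := nm_cast_pos he.ne_zero
  have hFS : FS (sqc q (alF z D0 P h ps)) := by
    refine HP842.FS.sqc ?_ q
    rw [alF_get]
    exact FS_alf hR (fun i => ((ps.get i).1.ok hP)) z D0 _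
  set U : ℝ := (nm e : ℝ) ^ (-(2 * s0)) * (Real.exp (LF ps) / (nm δ * nm e)) ^ (1 - 2 * s0) with hU
  have hU0 : 0 ≤ U := by positivity
  set M : ℝ := C * (D0 ^ n) ^ (2 + 2 * s0) * X0 ^ ε * (Tm * B) * U with hM
  have hM0 : 0 ≤ M := by positivity
  have key := btS_pt hCw hη hη1 hAJ hφ hFS hδ e π s0 a T Wx hWx fr hM0 (fun u => by
    have h1 := H P hP ps hlen hz z D0 hD0 T Wx hWx q (fun _ => δ) (fun _ => e) (fun _ => π)
      (fun x => fr x * (w ^ a.1 * lam ^ a.2) ^ 2) hq (fun _ _ => hδ) (fun _ _ => he)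
      (fun _ _ => hπ) Ks X0 u B Tm (nm δ * nm e) hX0 hDX hqX (fun _ _ => hδX) (fun _ _ => heX)
      (fun _ _ => hπX) hsX hB hTm0 (by positivity) (fun _ _ => le_rfl) hfr hTm hyp
    have ht1 : (1 : ℝ) ≤ 1 + |u| := by linarith [abs_nonneg u]
    have h2 : (1 + |u|) ^ (2 * ((n : ℝ) * μ)) ≤ (1 + |u|) ^ J := by
      rw [← Real.rpow_natCast]
      exact Real.rpow_le_rpow_of_exponent_le ht1 hJ
    have e3 : ((nm e : ℝ) ^ s0) ^ 2 = (nm e : ℝ) ^ (2 * s0) := by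
      rw [← Real.rpow_natCast, ← Real.rpow_mul he0.le]; congr 1; push_cast; ring
    have e4 : (nm e : ℝ) ^ (-(2 * s0)) * (nm e : ℝ) ^ (2 * s0) = 1 := by
      rw [← Real.rpow_add he0]; simp
    have h3 : ∑ x ∈ T, Wx x * ‖CS (gC (sqc q (alF z D0 P h ps)) δ e π (tw s0 u))
        (fr x * (w ^ a.1 * lam ^ a.2) ^ 2)‖ ^ 2 = (nm e : ℝ) ^ (-(2 * s0)) *
        ∑ x ∈ T, Wx x * ((nm e : ℝ) ^ s0 * ‖CS (gC (sqc q (alF z D0 P h ps)) δ e π (tw s0 u))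
        (fr x * (w ^ a.1 * lam ^ a.2) ^ 2)‖) ^ 2 := by
      rw [Finset.mul_sum]
      refine Finset.sum_congr rfl fun x _ => ?_
      rw [mul_pow ((nm e : ℝ) ^ s0), e3]
      calc Wx x * ‖CS (gC (sqc q (alF z D0 P h ps)) δ e π (tw s0 u))
            (fr x * (w ^ a.1 * lam ^ a.2) ^ 2)‖ ^ 2
          = ((nm e : ℝ) ^ (-(2 * s0)) * (nm e : ℝ) ^ (2 * s0)) * (Wx x *
            ‖CS (gC (sqc q (alF z D0 P h ps)) δ e π (tw s0 u))
            (fr x * (w ^ a.1 * lam ^ a.2) ^ 2)‖ ^ 2) := by rw [e4, one_mul]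
        _ = _ := by ring
    rw [h3]
    refine (mul_le_mul_of_nonneg_left h1 (by positivity)).trans ?_
    rw [hM, hU]
    set V : ℝ := (Real.exp (LF ps) / (nm δ * nm e)) ^ (1 - 2 * s0) with hV
    have hV0 : 0 ≤ V := by positivity
    calc (nm e : ℝ) ^ (-(2 * s0)) * (C * (D0 ^ n) ^ (2 + 2 * s0) * X0 ^ ε *
          (1 + |u|) ^ (2 * (n * μ)) * (Tm * B) * V)
        ≤ (nm e : ℝ) ^ (-(2 * s0)) * (C * (D0 ^ n) ^ (2 + 2 * s0) * X0 ^ ε *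
          (1 + |u|) ^ J * (Tm * B) * V) := by gcongr
      _ = _ := by ring) t₀ t
  refine key.trans (le_of_eq ?_)
  rw [hM]
  ring

/-! ### the sequence `xs` -/

lemma bt_xs (φ : ℝ → ℝ) (q : Eis) (z D0 : ℝ) (P : DPar) (h : ℝ → ℝ) (d : ℝ) (ps : List Pf)
    (a : ℕ × ℕ) (n : Eis) : bt φ (xs q z D0 P h d ps) a n =
      bt φ (sqc q (alF z D0 P h ps)) a n -
        zt d ps * bt φ (sqc q (alF z D0 P h (rp d ps))) a n := by
  unfold RGw813.bt RGw813.tw2 Win813.wn RX298.xs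
  ring

/-- the two halves of `xs` -/
lemma norm_CS_gC_sub {α β : Eis → ℂ} {δ : Eis} (hδ : δ ≠ 0) (e π : Eis) (χ : Eis → ℂ) (κ : Eis)
    {ζ : ℂ} (hζ : ‖ζ‖ = 1) (hα : FS α) (hβ : FS β) :
    ‖CS (gC (fun n => α n - ζ * β n) δ e π χ) κ‖ ^ 2 ≤
      2 * ‖CS (gC α δ e π χ) κ‖ ^ 2 + 2 * ‖CS (gC β δ e π χ) κ‖ ^ 2 := by
  classical
  have h1 := Lin_gC hδ e π χ κ Bool Finset.univ (fun b => if b then 1 else -ζ)
    (fun b => if b then α else β) (by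
      intro b _
      cases b
      · simpa using hβ
      · simpa using hα)
  have h2 : (fun n => ∑ x : Bool, (if x then (1 : ℂ) else -ζ) * (if x then α else β) n) =
      fun n => α n - ζ * β n := by
    funext n
    simp
    ring
  have h3 : CS (gC (fun n => α n - ζ * β n) δ e π χ) κ =
      CS (gC α δ e π χ) κ - ζ * CS (gC β δ e π χ) κ := by
    rw [← h2]
    refine h1.trans ?_
    simp
    ring
  rw [h3]
  have h4 := norm_sub_le (CS (gC α δ e π χ) κ) (ζ * CS (gC β δ e π χ) κ)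
  rw [norm_mul, hζ, one_mul] at h4
  have h5 := norm_nonneg (CS (gC α δ e π χ) κ - ζ * CS (gC β δ e π χ) κ)
  nlinarith [sq_nonneg (‖CS (gC α δ e π χ) κ‖ - ‖CS (gC β δ e π χ) κ‖)]

open Classical in
/-- **twisted windows of `xs`**, arbitrary frequencies -/
theorem winX {h : ℝ → ℝ} {c : ℝ} (hpu : PU h c) {μ : ℝ} (hμ : 0 ≤ μ) {s0 : ℝ} (hs0 : 0 ≤ s0)
    (hs1 : s0 ≤ 1 / 2) (n : ℕ) {ε : ℝ} (hε : 0 < ε) :
    ∃ C : ℝ, 1 ≤ C ∧ ∀ (P : DPar), P.OK → ∀ (ps : List Pf) (d : ℝ), ps.length ≤ n →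
      (∀ p ∈ ps, 0 ≤ p.1.z) → (∀ p ∈ rp d ps, 0 ≤ p.1.z) → ∀ (z D0 : ℝ), 1 ≤ D0 →
      ∀ {β : Type} (T : Finset β) (Wx : β → ℝ), (∀ x ∈ T, 0 ≤ Wx x) →
      ∀ (q δ e π : Eis) (fr : β → Eis) (a : ℕ × ℕ), q ≠ 0 → IsPrim δ → IsPrim e → π ≠ 0 →
      ∀ (Ks : Finset Eis) (X0 B Tm : ℝ), 1 ≤ X0 → D0 ≤ X0 → (nm q : ℝ) ≤ X0 →
      (nm δ : ℝ) ≤ X0 → (nm e : ℝ) ≤ X0 → (nm π : ℝ) ≤ X0 → (∀ p ∈ ps, Real.exp p.1.z ≤ X0) →
      (∀ p ∈ rp d ps, Real.exp p.1.z ≤ X0) →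
      0 ≤ B → 0 ≤ Tm → (∀ x ∈ T, fr x * (w ^ a.1 * lam ^ a.2) ^ 2 ∈ Ks) →
      (∀ κ ∈ Ks, ∑ x ∈ T.filter (fun x => fr x * (w ^ a.1 * lam ^ a.2) ^ 2 = κ), Wx x ≤ Tm) →
      (∀ qs : List Pf, (qs = ps ∨ qs = rp d ps) → ∀ (ps' : List Pq) (W : ℝ), 1 ≤ W →
        List.Forall₂ (Rl C W) ps' (qs.map Prod.fst) →
        tl Dq ps' ≤ LF ps - Real.log (nm δ * nm e) + C →
        RS P h Ks ps' ≤ B * Real.exp (tl Dq ps') * W ^ (2 * μ)) →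
      ∀ (Cw η : ℝ) (A J : ℕ), 0 ≤ Cw → 0 < η → η ≤ 1 → J + 2 ≤ A → 2 * (n * μ) ≤ J →
      ∀ (φ : ℝ → ℝ), WK Cw η A φ → ∀ (t₀ t : ℝ),
      ∑ x ∈ T, Wx x * ‖CS (gC (fun m => bt φ (xs q z D0 P h d ps) a m * pw t₀ (nm m)) δ e π
          (tw s0 t)) (fr x)‖ ^ 2 ≤
        (Cw ^ 2 * iA A * iA 2 * (η⁻¹) ^ J) * (4 * C * (D0 ^ n) ^ (2 + 2 * s0) * X0 ^ ε *
          (1 + |t₀ + t|) ^ J * (Tm * B) * ((nm e : ℝ) ^ (-(2 * s0)) *
          (Real.exp (LF ps) / (nm δ * nm e)) ^ (1 - 2 * s0))) := by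
  obtain ⟨R, hR0, hR⟩ := exists_R (cs_cx hpu.cs)
  obtain ⟨C, hC, H⟩ := winS hpu hμ hs0 hs1 n hε
  refine ⟨C, hC, ?_⟩
  intro P hP ps d hlen hz hz' z D0 hD0 β T Wx hWx q δ e π fr a hq hδ he hπ Ks X0 B Tm hX0 hDX hqX
    hδX heX hπX hsX hsX' hB hTm0 hfr hTm hyp Cw η A J hCw hη hη1 hAJ hJ φ hφ t₀ t
  have hFS : ∀ qs : List Pf, FS (fun m => bt φ (sqc q (alF z D0 P h qs)) a m * pw t₀ (nm m)) := by
    intro qs
    have h1 : FS (bt φ (sqc q (alF z D0 P h qs)) a) := by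
      refine RGw813.FS_bt (HP842.FS.sqc ?_ q) _ _
      rw [alF_get]
      exact FS_alf hR (fun i => ((qs.get i).1.ok hP)) z D0 _
    exact
      { fin := h1.fin.subset fun n hn h0 => hn (by
          have h0' : bt φ (sqc q (alF z D0 P h qs)) a n = 0 := h0
          show bt φ (sqc q (alF z D0 P h qs)) a n * pw t₀ (nm n) = 0
          rw [h0', zero_mul])
        prim := fun m hm => h1.prim m (left_ne_zero_of_mul hm) }
  have h1 := H P hP ps hlen hz z D0 hD0 T Wx hWx q δ e π fr a hq hδ he hπ Ks X0 B Tm hX0 hDX hqX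
    hδX heX hπX hsX hB hTm0 hfr hTm (hyp ps (Or.inl rfl)) Cw η A J hCw hη hη1 hAJ hJ φ hφ t₀ t
  have hLF := RX298.LF_rp d ps
  have h2 := H P hP (rp d ps) (by rw [RX298.rp_length]; exact hlen) hz' z D0 hD0 T Wx hWx q δ e π
    fr a hq hδ he hπ Ks X0 B Tm hX0 hDX hqX hδX heX hπX hsX' hB hTm0 hfr hTm (by
      rw [hLF]; exact hyp (rp d ps) (Or.inr rfl)) Cw η A J hCw hη hη1 hAJ hJ φ hφ t₀ t
  rw [hLF] at h2
  have h3 : ∀ x ∈ T, Wx x * ‖CS (gC (fun m => bt φ (xs q z D0 P h d ps) a m * pw t₀ (nm m))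
      δ e π (tw s0 t)) (fr x)‖ ^ 2 ≤
      2 * (Wx x * ‖CS (gC (fun m => bt φ (sqc q (alF z D0 P h ps)) a m * pw t₀ (nm m)) δ e π
          (tw s0 t)) (fr x)‖ ^ 2) +
      2 * (Wx x * ‖CS (gC (fun m => bt φ (sqc q (alF z D0 P h (rp d ps))) a m * pw t₀ (nm m))
          δ e π (tw s0 t)) (fr x)‖ ^ 2) := by
    intro x hx
    have e1 : (fun m => bt φ (xs q z D0 P h d ps) a m * pw t₀ (nm m)) =
        fun m => bt φ (sqc q (alF z D0 P h ps)) a m * pw t₀ (nm m) -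
          zt d ps * (bt φ (sqc q (alF z D0 P h (rp d ps))) a m * pw t₀ (nm m)) := by
      funext m
      rw [bt_xs]; ring
    rw [e1]
    have h4 := norm_CS_gC_sub hδ.ne_zero e π (tw s0 t) (fr x) (RX298.norm_zt d ps) (hFS ps)
      (hFS (rp d ps))
    refine (mul_le_mul_of_nonneg_left h4 (hWx x hx)).trans (le_of_eq ?_)
    ring
  refine (Finset.sum_le_sum h3).trans ?_
  rw [Finset.sum_add_distrib, ← Finset.mul_sum, ← Finset.mul_sum]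
  refine (add_le_add (mul_le_mul_of_nonneg_left h1 (by norm_num))
    (mul_le_mul_of_nonneg_left h2 (by norm_num))).trans (le_of_eq ?_)
  ring

/-! ### smooth squares -/

lemma gC_one {α : Eis → ℂ} (h : FS α) : gC α 1 1 1 (tw 0 0) = α := by
  classical
  funext m
  unfold NtC320.gC
  rw [if_pos ⟨one_dvd m, isCoprime_one_right⟩, one_mul]
  by_cases h0 : α m = 0
  · rw [h0, zero_mul]
  have hm : (0 : ℝ) < nm m := nm_cast_pos (h.prim m h0).ne_zero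
  have h1 : tw 0 0 m = 1 := by
    unfold TP320.tw
    simp
  rw [h1, mul_one]

open Classical in
/-- a smooth square is a finite sum -/
lemma SqQ_le_sum {ω : ℝ → ℝ} {c2 M : ℝ} (hM0 : 0 ≤ M) (hM : ∀ x, |ω x| ≤ M)
    (h2 : ∀ x, ω x ≠ 0 → x ≤ c2) {K : ℝ} (hK : 0 < K) (Q : Eis → Prop) (α : Eis → ℂ) :
    SqQ ω K Q α ≤ M * ∑ k ∈ (bl (c2 * K)).filter (fun k => IsPrim k ∧ Q k), ‖CS α k‖ ^ 2 := by
  by_cases hc : 0 ≤ c2
  · have hcK : 0 ≤ c2 * K := by positivity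
    unfold LBu180.SqQ
    rw [tsum_eq_sum (s := (bl (c2 * K)).filter (fun k => IsPrim k ∧ Q k)), Finset.mul_sum]
    · refine Finset.sum_le_sum fun k hk => ?_
      rw [if_pos (Finset.mem_filter.1 hk).2]
      exact mul_le_mul_of_nonneg_right ((le_abs_self _).trans (hM _)) (by positivity)
    · intro k hk
      split_ifs with h1
      · by_cases h3 : ω (nm k / K) = 0
        · rw [h3, zero_mul]
        · exfalso
          apply hk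
          rw [Finset.mem_filter, mem_bl hcK]
          refine ⟨⟨h1.1.ne_zero, ?_⟩, h1⟩
          have := h2 _ h3
          rwa [div_le_iff₀ hK] at this
      · rfl
  · have h3 : ∀ k : Eis, (if IsPrim k ∧ Q k then ω (nm k / K) * ‖CS α k‖ ^ 2 else 0) = 0 := by
      intro k
      split_ifs with h1
      · have h4 : ω (nm k / K) = 0 := by
          by_contra h5
          have h6 := h2 _ h5
          have h7 : (0 : ℝ) ≤ nm k / K := by positivity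
          exact hc (h7.trans h6)
        rw [h4, zero_mul]
      · rfl
    unfold LBu180.SqQ
    rw [tsum_congr h3, tsum_zero]
    exact mul_nonneg hM0 (Finset.sum_nonneg fun _ _ => by positivity)

lemma nm_wl_le {a : ℕ × ℕ} (ha : a.2 ≤ 2) : (nm ((w ^ a.1 * lam ^ a.2 : Eis) ^ 2) : ℝ) ≤ 81 := by
  have h1 : nm ((w ^ a.1 * lam ^ a.2 : Eis) ^ 2) ≤ 81 := by
    rw [nm_pow, nm_mul, nm_pow, nm_pow]
    have hw1 : nm w = 1 := nm_w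
    have hl3 : nm lam = 3 := nm_lam
    rw [hw1, hl3, one_pow, one_mul, ← pow_mul]
    calc 3 ^ (a.2 * 2) ≤ 3 ^ 4 := Nat.pow_le_pow_right (by norm_num) (by omega)
      _ = 81 := by norm_num
  exact_mod_cast h1

lemma wl_ne_zero (a : ℕ × ℕ) : (w ^ a.1 * lam ^ a.2 : Eis) ^ 2 ≠ 0 :=
  pow_ne_zero _ (mul_ne_zero (pow_ne_zero _ isUnit_w.ne_zero) (pow_ne_zero _ lam_ne_zero))

open Classical in
/-- **smooth squares of windows of `xs`**: the whole sequence and all its subsequences -/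
theorem sq_winX {h : ℝ → ℝ} {c : ℝ} (hpu : PU h c) {μ : ℝ} (hμ : 0 ≤ μ) {s0 : ℝ} (hs0 : 0 ≤ s0)
    (hs1 : s0 ≤ 1 / 2) {ω : ℝ → ℝ} (hω : Wgt ω) (n : ℕ) {ε : ℝ} (hε : 0 < ε) :
    ∃ C : ℝ, 1 ≤ C ∧ ∀ (P : DPar), P.OK → ∀ (ps : List Pf) (d : ℝ), ps.length ≤ n →
      (∀ p ∈ ps, 0 ≤ p.1.z) → (∀ p ∈ rp d ps, 0 ≤ p.1.z) → ∀ (z D0 : ℝ), 1 ≤ D0 →
      ∀ (Q Q' : Eis → Prop) (a : ℕ × ℕ), a.2 ≤ 2 →
      (∀ k, IsPrim k → Q k → Q' (k * (w ^ a.1 * lam ^ a.2) ^ 2)) →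
      ∀ (q δ e π : Eis), q ≠ 0 → IsPrim δ → IsPrim e → π ≠ 0 →
      ∀ (X0 K B : ℝ), 1 ≤ X0 → 0 < K → D0 ≤ X0 → (nm q : ℝ) ≤ X0 →
      (nm δ : ℝ) ≤ X0 → (nm e : ℝ) ≤ X0 → (nm π : ℝ) ≤ X0 → (∀ p ∈ ps, Real.exp p.1.z ≤ X0) →
      (∀ p ∈ rp d ps, Real.exp p.1.z ≤ X0) → 0 ≤ B →
      (∀ qs : List Pf, (qs = ps ∨ qs = rp d ps) → ∀ (ps' : List Pq) (W : ℝ), 1 ≤ W →
        List.Forall₂ (Rl C W) ps' (qs.map Prod.fst) →
        tl Dq ps' ≤ LF ps - Real.log (nm δ * nm e) + C →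
        RQ Q' h (Real.log (C * K)) (ps'.map (Pq.pc P)) ≤
          B * Real.exp (tl Dq ps') * W ^ (2 * μ)) →
      ∀ (Cw η : ℝ) (A J : ℕ), 0 ≤ Cw → 0 < η → η ≤ 1 → J + 2 ≤ A → 2 * (n * μ) ≤ J →
      ∀ (φ : ℝ → ℝ), WK Cw η A φ → ∀ (t₀ t : ℝ),
      SqQ ω K Q (gC (fun m => bt φ (xs q z D0 P h d ps) a m * pw t₀ (nm m)) δ e π (tw s0 t)) ≤
        (Cw ^ 2 * iA A * iA 2 * (η⁻¹) ^ J) * (C * (D0 ^ n) ^ (2 + 2 * s0) * X0 ^ ε *
          (1 + |t₀ + t|) ^ J * B * ((nm e : ℝ) ^ (-(2 * s0)) *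
          (Real.exp (LF ps) / (nm δ * nm e)) ^ (1 - 2 * s0))) := by
  obtain ⟨C, hC, H⟩ := winX hpu hμ hs0 hs1 n hε
  obtain ⟨c1, c2, hc1, hc12, hsup⟩ := hω.exists_bounds
  obtain ⟨M, hM0, hM⟩ := hω.bounded
  have hc20 : 0 < c2 := hc1.trans hc12
  have hM1 : 0 ≤ (M + 1) * (4 * C) := by positivity
  refine ⟨(M + 1) * (4 * C) + 81 * c2 + C, by linarith [mul_pos (by norm_num : (0 : ℝ) < 81) hc20],
    ?_⟩
  set C' : ℝ := (M + 1) * (4 * C) + 81 * c2 + C with hC'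
  have hCC : C ≤ C' := by
    have : 0 < 81 * c2 := by positivity
    linarith
  have hC'0 : 0 < C' := by linarith
  intro P hP ps d hlen hz hz' z D0 hD0 Q Q' a ha hQ q δ e π hq hδ he hπ X0 K B hX0 hK hDX hqX hδX
    heX hπX hsX hsX' hB hyp Cw η A J hCw hη hη1 hAJ hJ φ hφ t₀ t
  have hd0 := nm_cast_pos hδ.ne_zero
  have he0 := nm_cast_pos he.ne_zero
  set T : Finset Eis := (bl (c2 * K)).filter (fun k => IsPrim k ∧ Q k) with hT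
  set wl : Eis := (w ^ a.1 * lam ^ a.2) ^ 2 with hwl
  have hwl0 : wl ≠ 0 := wl_ne_zero a
  have hcK : 0 < c2 * K := by positivity
  have hCK : 0 < C' * K := by positivity
  have hinj : ∀ k k' : Eis, k * wl = k' * wl → k = k' := fun k k' h => mul_right_cancel₀ hwl0 h
  have key := H P hP ps d hlen hz hz' z D0 hD0 T (fun _ => 1) (fun _ _ => zero_le_one) q δ e π
    (fun k => k) a hq hδ he hπ ((bl (C' * K)).filter Q') X0 B 1 hX0 hDX hqX hδX heX hπX hsX hsX' hB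
    zero_le_one (by
      intro k hk
      rw [hT, Finset.mem_filter, mem_bl hcK.le] at hk
      rw [Finset.mem_filter, mem_bl hCK.le]
      refine ⟨⟨mul_ne_zero hk.1.1 hwl0, ?_⟩, hQ k hk.2.1 hk.2.2⟩
      rw [nm_mul]
      push_cast
      calc (nm k : ℝ) * nm wl ≤ (c2 * K) * 81 :=
            mul_le_mul hk.1.2 (nm_wl_le ha) (Nat.cast_nonneg _) hcK.le
        _ = (81 * c2) * K := by ring
        _ ≤ C' * K := by
            refine mul_le_mul_of_nonneg_right ?_ hK.le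
            linarith) (by
      intro κ _
      rw [Finset.sum_const, nsmul_eq_mul, mul_one]
      have h1 : (T.filter (fun x => x * wl = κ)).card ≤ 1 := by
        rw [Finset.card_le_one]
        intro x hx y hy
        exact hinj x y ((Finset.mem_filter.1 hx).2.trans (Finset.mem_filter.1 hy).2.symm)
      exact_mod_cast h1) (by
      intro qs hqs ps' W hW hR' hl
      rw [RS_filter P h Q' hCK]
      exact hyp qs hqs ps' W hW (hR'.imp fun _ _ h1 => h1.mono hCC) (by linarith))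
    Cw η A J hCw hη hη1 hAJ hJ φ hφ t₀ t
  refine (SqQ_le_sum hM0.le hM (fun x hx => (hsup x hx).2) hK Q _).trans ?_
  have e1 : ∑ x ∈ T, (fun _ : Eis => (1 : ℝ)) x *
      ‖CS (gC (fun m => bt φ (xs q z D0 P h d ps) a m * pw t₀ (nm m)) δ e π (tw s0 t)) x‖ ^ 2 =
      ∑ x ∈ T,
      ‖CS (gC (fun m => bt φ (xs q z D0 P h d ps) a m * pw t₀ (nm m)) δ e π (tw s0 t)) x‖ ^ 2 :=
    Finset.sum_congr rfl fun x _ => one_mul _
  rw [e1] at key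
  refine (mul_le_mul_of_nonneg_left key hM0.le).trans ?_
  set V : ℝ := (nm e : ℝ) ^ (-(2 * s0)) * (Real.exp (LF ps) / (nm δ * nm e)) ^ (1 - 2 * s0) with hV
  have hV0 : 0 ≤ V := by positivity
  have hG0 : 0 ≤ Cw ^ 2 * iA A * iA 2 * (η⁻¹) ^ J :=
    mul_nonneg (mul_nonneg (mul_nonneg (by positivity) (iA_nonneg A)) (iA_nonneg 2)) (by positivity)
  have hm : M * (4 * C) ≤ C' := by
    have : 0 < 81 * c2 := by positivity
    nlinarith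
  calc M * ((Cw ^ 2 * iA A * iA 2 * (η⁻¹) ^ J) * (4 * C * (D0 ^ n) ^ (2 + 2 * s0) * X0 ^ ε *
          (1 + |t₀ + t|) ^ J * (1 * B) * V))
      = (M * (4 * C)) * ((Cw ^ 2 * iA A * iA 2 * (η⁻¹) ^ J) * ((D0 ^ n) ^ (2 + 2 * s0) * X0 ^ ε *
          (1 + |t₀ + t|) ^ J * B * V)) := by ring
    _ ≤ C' * ((Cw ^ 2 * iA A * iA 2 * (η⁻¹) ^ J) * ((D0 ^ n) ^ (2 + 2 * s0) * X0 ^ ε *
          (1 + |t₀ + t|) ^ J * B * V)) := by
        refine mul_le_mul_of_nonneg_right hm (mul_nonneg hG0 (by positivity))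
    _ = _ := by ring

open Classical in
/-- **smooth squares of windows of `xs`** -/
theorem sq_xs {h : ℝ → ℝ} {c : ℝ} (hpu : PU h c) {μ : ℝ} (hμ : 0 ≤ μ) {ω : ℝ → ℝ} (hω : Wgt ω)
    (n : ℕ) {ε : ℝ} (hε : 0 < ε) :
    ∃ C : ℝ, 1 ≤ C ∧ ∀ (P : DPar), P.OK → ∀ (ps : List Pf) (d : ℝ), ps.length ≤ n →
      (∀ p ∈ ps, 0 ≤ p.1.z) → (∀ p ∈ rp d ps, 0 ≤ p.1.z) → ∀ (z D0 : ℝ), 1 ≤ D0 →
      ∀ (Q Q' : Eis → Prop) (a : ℕ × ℕ), a.2 ≤ 2 →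
      (∀ k, IsPrim k → Q k → Q' (k * (w ^ a.1 * lam ^ a.2) ^ 2)) →
      ∀ q : Eis, q ≠ 0 → ∀ (X0 K B : ℝ), 1 ≤ X0 → 0 < K → D0 ≤ X0 → (nm q : ℝ) ≤ X0 →
      (∀ p ∈ ps, Real.exp p.1.z ≤ X0) → (∀ p ∈ rp d ps, Real.exp p.1.z ≤ X0) → 0 ≤ B →
      (∀ qs : List Pf, (qs = ps ∨ qs = rp d ps) → ∀ (ps' : List Pq) (W : ℝ), 1 ≤ W →
        List.Forall₂ (Rl C W) ps' (qs.map Prod.fst) → tl Dq ps' ≤ LF ps + C →
        RQ Q' h (Real.log (C * K)) (ps'.map (Pq.pc P)) ≤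
          B * Real.exp (tl Dq ps') * W ^ (2 * μ)) →
      ∀ (Cw η : ℝ) (A J : ℕ), 0 ≤ Cw → 0 < η → η ≤ 1 → J + 2 ≤ A → 2 * (n * μ) ≤ J →
      ∀ (φ : ℝ → ℝ), WK Cw η A φ → ∀ t₀ : ℝ,
      SqQ ω K Q (fun m => bt φ (xs q z D0 P h d ps) a m * pw t₀ (nm m)) ≤
        (Cw ^ 2 * iA A * iA 2 * (η⁻¹) ^ J) * (C * (D0 ^ n) ^ 2 * X0 ^ ε *
          (1 + |t₀|) ^ J * B * Real.exp (LF ps)) := by
  obtain ⟨R, hR0, hR⟩ := exists_R (cs_cx hpu.cs)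
  obtain ⟨C, hC, H⟩ := sq_winX hpu hμ le_rfl (by norm_num : (0 : ℝ) ≤ 1 / 2) hω n hε
  refine ⟨C, hC, ?_⟩
  intro P hP ps d hlen hz hz' z D0 hD0 Q Q' a ha hQ q hq X0 K B hX0 hK hDX hqX hsX hsX' hB hyp
    Cw η A J hCw hη hη1 hAJ hJ φ hφ t₀
  have h1 : (nm (1 : Eis) : ℝ) = 1 := by rw [nm_one]; simp
  have key := H P hP ps d hlen hz hz' z D0 hD0 Q Q' a ha hQ q 1 1 1 hq isPrim_one isPrim_one
    one_ne_zero X0 K B hX0 hK hDX hqX (by rw [h1]; exact hX0) (by rw [h1]; exact hX0)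
    (by rw [h1]; exact hX0) hsX hsX' hB (fun qs hqs ps' W hW hR' hl => hyp qs hqs ps' W hW hR' (by
      rw [h1] at hl
      simpa using hl)) Cw η A J hCw hη hη1 hAJ hJ φ hφ t₀ 0
  have hFS : FS (fun m => bt φ (xs q z D0 P h d ps) a m * pw t₀ (nm m)) := by
    have hb : Bump h := ⟨R, hR⟩
    have h1 : FS (bt φ (xs q z D0 P h d ps) a) := RGw813.FS_bt (RX298.FS_xs hb hP q z D0 d ps) _ _
    exact
      { fin := h1.fin.subset fun n hn h0 => hn (by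
          have h0' : bt φ (xs q z D0 P h d ps) a n = 0 := h0
          show bt φ (xs q z D0 P h d ps) a n * pw t₀ (nm n) = 0
          rw [h0', zero_mul])
        prim := fun m hm => h1.prim m (left_ne_zero_of_mul hm) }
  rw [gC_one hFS] at key
  refine key.trans (le_of_eq ?_)
  rw [h1, add_zero]
  simp only [mul_zero, add_zero, sub_zero, neg_zero, Real.rpow_zero, one_mul, mul_one, div_one,
    Real.rpow_one]
  rw [Real.rpow_two]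

open Classical in
/-- **smooth squares of windows of flagged lists**: the whole sequence and all its subsequences -/
theorem sq_winS {h : ℝ → ℝ} {c : ℝ} (hpu : PU h c) {μ : ℝ} (hμ : 0 ≤ μ) {s0 : ℝ} (hs0 : 0 ≤ s0)
    (hs1 : s0 ≤ 1 / 2) {ω : ℝ → ℝ} (hω : Wgt ω) (n : ℕ) {ε : ℝ} (hε : 0 < ε) :
    ∃ C : ℝ, 1 ≤ C ∧ ∀ (P : DPar), P.OK → ∀ (ps : List Pf), ps.length ≤ n →
      (∀ p ∈ ps, 0 ≤ p.1.z) → ∀ (z D0 : ℝ), 1 ≤ D0 →
      ∀ (Q Q' : Eis → Prop) (a : ℕ × ℕ), a.2 ≤ 2 →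
      (∀ k, IsPrim k → Q k → Q' (k * (w ^ a.1 * lam ^ a.2) ^ 2)) →
      ∀ (q δ e π : Eis), q ≠ 0 → IsPrim δ → IsPrim e → π ≠ 0 →
      ∀ (X0 K B : ℝ), 1 ≤ X0 → 0 < K → D0 ≤ X0 → (nm q : ℝ) ≤ X0 →
      (nm δ : ℝ) ≤ X0 → (nm e : ℝ) ≤ X0 → (nm π : ℝ) ≤ X0 → (∀ p ∈ ps, Real.exp p.1.z ≤ X0) → 0 ≤ B →
      (∀ (ps' : List Pq) (W : ℝ), 1 ≤ W →
        List.Forall₂ (Rl C W) ps' (ps.map Prod.fst) →
        tl Dq ps' ≤ LF ps - Real.log (nm δ * nm e) + C →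
        RQ Q' h (Real.log (C * K)) (ps'.map (Pq.pc P)) ≤
          B * Real.exp (tl Dq ps') * W ^ (2 * μ)) →
      ∀ (Cw η : ℝ) (A J : ℕ), 0 ≤ Cw → 0 < η → η ≤ 1 → J + 2 ≤ A → 2 * (n * μ) ≤ J →
      ∀ (φ : ℝ → ℝ), WK Cw η A φ → ∀ (t₀ t : ℝ),
      SqQ ω K Q (gC (fun m => bt φ (sqc q (alF z D0 P h ps)) a m * pw t₀ (nm m)) δ e π (tw s0 t)) ≤
        (Cw ^ 2 * iA A * iA 2 * (η⁻¹) ^ J) * (C * (D0 ^ n) ^ (2 + 2 * s0) * X0 ^ ε *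
          (1 + |t₀ + t|) ^ J * B * ((nm e : ℝ) ^ (-(2 * s0)) *
          (Real.exp (LF ps) / (nm δ * nm e)) ^ (1 - 2 * s0))) := by
  obtain ⟨C, hC, H⟩ := winS hpu hμ hs0 hs1 n hε
  obtain ⟨c1, c2, hc1, hc12, hsup⟩ := hω.exists_bounds
  obtain ⟨M, hM0, hM⟩ := hω.bounded
  have hc20 : 0 < c2 := hc1.trans hc12
  have hM1 : 0 ≤ (M + 1) * C := by positivity
  refine ⟨(M + 1) * C + 81 * c2 + C, by linarith [mul_pos (by norm_num : (0 : ℝ) < 81) hc20],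
    ?_⟩
  set C' : ℝ := (M + 1) * C + 81 * c2 + C with hC'
  have hCC : C ≤ C' := by
    have : 0 < 81 * c2 := by positivity
    linarith
  have hC'0 : 0 < C' := by linarith
  intro P hP ps hlen hz z D0 hD0 Q Q' a ha hQ q δ e π hq hδ he hπ X0 K B hX0 hK hDX hqX hδX
    heX hπX hsX hB hyp Cw η A J hCw hη hη1 hAJ hJ φ hφ t₀ t
  have hd0 := nm_cast_pos hδ.ne_zero
  have he0 := nm_cast_pos he.ne_zero
  set T : Finset Eis := (bl (c2 * K)).filter (fun k => IsPrim k ∧ Q k) with hT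
  set wl : Eis := (w ^ a.1 * lam ^ a.2) ^ 2 with hwl
  have hwl0 : wl ≠ 0 := wl_ne_zero a
  have hcK : 0 < c2 * K := by positivity
  have hCK : 0 < C' * K := by positivity
  have hinj : ∀ k k' : Eis, k * wl = k' * wl → k = k' := fun k k' h => mul_right_cancel₀ hwl0 h
  have key := H P hP ps hlen hz z D0 hD0 T (fun _ => 1) (fun _ _ => zero_le_one) q δ e π
    (fun k => k) a hq hδ he hπ ((bl (C' * K)).filter Q') X0 B 1 hX0 hDX hqX hδX heX hπX hsX hB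
    zero_le_one (by
      intro k hk
      rw [hT, Finset.mem_filter, mem_bl hcK.le] at hk
      rw [Finset.mem_filter, mem_bl hCK.le]
      refine ⟨⟨mul_ne_zero hk.1.1 hwl0, ?_⟩, hQ k hk.2.1 hk.2.2⟩
      rw [nm_mul]
      push_cast
      calc (nm k : ℝ) * nm wl ≤ (c2 * K) * 81 :=
            mul_le_mul hk.1.2 (nm_wl_le ha) (Nat.cast_nonneg _) hcK.le
        _ = (81 * c2) * K := by ring
        _ ≤ C' * K := by
            refine mul_le_mul_of_nonneg_right ?_ hK.le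
            linarith) (by
      intro κ _
      rw [Finset.sum_const, nsmul_eq_mul, mul_one]
      have h1 : (T.filter (fun x => x * wl = κ)).card ≤ 1 := by
        rw [Finset.card_le_one]
        intro x hx y hy
        exact hinj x y ((Finset.mem_filter.1 hx).2.trans (Finset.mem_filter.1 hy).2.symm)
      exact_mod_cast h1) (by
      intro ps' W hW hR' hl
      rw [RS_filter P h Q' hCK]
      exact hyp ps' W hW (hR'.imp fun _ _ h1 => h1.mono hCC) (by linarith))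
    Cw η A J hCw hη hη1 hAJ hJ φ hφ t₀ t
  refine (SqQ_le_sum hM0.le hM (fun x hx => (hsup x hx).2) hK Q _).trans ?_
  have e1 : ∑ x ∈ T, (fun _ : Eis => (1 : ℝ)) x *
      ‖CS (gC (fun m => bt φ (sqc q (alF z D0 P h ps)) a m * pw t₀ (nm m)) δ e π (tw s0 t)) x‖ ^ 2 =
      ∑ x ∈ T,
      ‖CS (gC (fun m => bt φ (sqc q (alF z D0 P h ps)) a m * pw t₀ (nm m)) δ e π (tw s0 t)) x‖ ^ 2 :=
    Finset.sum_congr rfl fun x _ => one_mul _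
  rw [e1] at key
  refine (mul_le_mul_of_nonneg_left key hM0.le).trans ?_
  set V : ℝ := (nm e : ℝ) ^ (-(2 * s0)) * (Real.exp (LF ps) / (nm δ * nm e)) ^ (1 - 2 * s0) with hV
  have hV0 : 0 ≤ V := by positivity
  have hG0 : 0 ≤ Cw ^ 2 * iA A * iA 2 * (η⁻¹) ^ J :=
    mul_nonneg (mul_nonneg (mul_nonneg (by positivity) (iA_nonneg A)) (iA_nonneg 2)) (by positivity)
  have hm : M * C ≤ C' := by
    have : 0 < 81 * c2 := by positivity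
    nlinarith
  calc M * ((Cw ^ 2 * iA A * iA 2 * (η⁻¹) ^ J) * (C * (D0 ^ n) ^ (2 + 2 * s0) * X0 ^ ε *
          (1 + |t₀ + t|) ^ J * (1 * B) * V))
      = (M * C) * ((Cw ^ 2 * iA A * iA 2 * (η⁻¹) ^ J) * ((D0 ^ n) ^ (2 + 2 * s0) * X0 ^ ε *
          (1 + |t₀ + t|) ^ J * B * V)) := by ring
    _ ≤ C' * ((Cw ^ 2 * iA A * iA 2 * (η⁻¹) ^ J) * ((D0 ^ n) ^ (2 + 2 * s0) * X0 ^ ε *
          (1 + |t₀ + t|) ^ J * B * V)) := by
        refine mul_le_mul_of_nonneg_right hm (mul_nonneg hG0 (by positivity))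
    _ = _ := by ring

open Classical in
/-- **smooth squares of windows of flagged lists** -/
theorem sq_al {h : ℝ → ℝ} {c : ℝ} (hpu : PU h c) {μ : ℝ} (hμ : 0 ≤ μ) {ω : ℝ → ℝ} (hω : Wgt ω)
    (n : ℕ) {ε : ℝ} (hε : 0 < ε) :
    ∃ C : ℝ, 1 ≤ C ∧ ∀ (P : DPar), P.OK → ∀ (ps : List Pf), ps.length ≤ n →
      (∀ p ∈ ps, 0 ≤ p.1.z) → ∀ (z D0 : ℝ), 1 ≤ D0 →
      ∀ (Q Q' : Eis → Prop) (a : ℕ × ℕ), a.2 ≤ 2 →
      (∀ k, IsPrim k → Q k → Q' (k * (w ^ a.1 * lam ^ a.2) ^ 2)) →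
      ∀ q : Eis, q ≠ 0 → ∀ (X0 K B : ℝ), 1 ≤ X0 → 0 < K → D0 ≤ X0 → (nm q : ℝ) ≤ X0 →
      (∀ p ∈ ps, Real.exp p.1.z ≤ X0) → 0 ≤ B →
      (∀ (ps' : List Pq) (W : ℝ), 1 ≤ W →
        List.Forall₂ (Rl C W) ps' (ps.map Prod.fst) → tl Dq ps' ≤ LF ps + C →
        RQ Q' h (Real.log (C * K)) (ps'.map (Pq.pc P)) ≤
          B * Real.exp (tl Dq ps') * W ^ (2 * μ)) →
      ∀ (Cw η : ℝ) (A J : ℕ), 0 ≤ Cw → 0 < η → η ≤ 1 → J + 2 ≤ A → 2 * (n * μ) ≤ J →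
      ∀ (φ : ℝ → ℝ), WK Cw η A φ → ∀ t₀ : ℝ,
      SqQ ω K Q (fun m => bt φ (sqc q (alF z D0 P h ps)) a m * pw t₀ (nm m)) ≤
        (Cw ^ 2 * iA A * iA 2 * (η⁻¹) ^ J) * (C * (D0 ^ n) ^ 2 * X0 ^ ε *
          (1 + |t₀|) ^ J * B * Real.exp (LF ps)) := by
  obtain ⟨R, hR0, hR⟩ := exists_R (cs_cx hpu.cs)
  obtain ⟨C, hC, H⟩ := sq_winS hpu hμ le_rfl (by norm_num : (0 : ℝ) ≤ 1 / 2) hω n hε
  refine ⟨C, hC, ?_⟩
  intro P hP ps hlen hz z D0 hD0 Q Q' a ha hQ q hq X0 K B hX0 hK hDX hqX hsX hB hyp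
    Cw η A J hCw hη hη1 hAJ hJ φ hφ t₀
  have h1 : (nm (1 : Eis) : ℝ) = 1 := by rw [nm_one]; simp
  have key := H P hP ps hlen hz z D0 hD0 Q Q' a ha hQ q 1 1 1 hq isPrim_one isPrim_one
    one_ne_zero X0 K B hX0 hK hDX hqX (by rw [h1]; exact hX0) (by rw [h1]; exact hX0)
    (by rw [h1]; exact hX0) hsX hB (fun ps' W hW hR' hl => hyp ps' W hW hR' (by
      rw [h1] at hl
      simpa using hl)) Cw η A J hCw hη hη1 hAJ hJ φ hφ t₀ 0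
  have hFS : FS (fun m => bt φ (sqc q (alF z D0 P h ps)) a m * pw t₀ (nm m)) := by
    have hb : Bump h := ⟨R, hR⟩
    have h1 : FS (bt φ (sqc q (alF z D0 P h ps)) a) := RGw813.FS_bt (HP842.FS.sqc (RG64.FS_alF hb hP z D0 ps) q) _ _
    exact
      { fin := h1.fin.subset fun n hn h0 => hn (by
          have h0' : bt φ (sqc q (alF z D0 P h ps)) a n = 0 := h0
          show bt φ (sqc q (alF z D0 P h ps)) a n * pw t₀ (nm n) = 0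
          rw [h0', zero_mul])
        prim := fun m hm => h1.prim m (left_ne_zero_of_mul hm) }
  rw [gC_one hFS] at key
  refine key.trans (le_of_eq ?_)
  rw [h1, add_zero]
  simp only [mul_zero, add_zero, sub_zero, neg_zero, Real.rpow_zero, one_mul, mul_one, div_one,
    Real.rpow_one]
  rw [Real.rpow_two]

end Crest.Agent.R017.R3Q791
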