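import Crest.Agent.R017.RlB_791
import Crest.Agent.R017.R3W_791
import Crest.Agent.R017.LBQ_791

/-!
# Row 17, T.5 / T.7 (helper791): the smooth squares at the data of the leaf

* `line_hyp` : a bound of the `R`-functional at the `Chd`-children of the base list gives the
  hypothesis of `sq_al`, `sq_xs`
* `sq_leaf`  : `SQnQ` of a flagged list from a line of slope 1 (class N and natural lists)
* `sq_leafX` : the same for `xs` (exceptional class)
-/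

set_option autoImplicit false
set_option maxHeartbeats 400000

noncomputable section

open Complex
open scoped ComplexConjugate

namespace Crest.Agent.R017.SqB791

open Crest.Agent.R012 Crest.Agent.R012.Eis Crest.Agent.R012.LS2 Crest.Agent.R012.Gauss880
open Crest.Agent.R012.MC (Wgt)
open Crest.Agent.R012.Weight600 (osc pw)
open Crest.Agent.R017.CM106 Crest.Agent.R017.FE47
open Crest.Agent.R017.B770
open Crest.Agent.R017.Prov71
open Crest.Agent.R017.HP842 (sqc)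
open Crest.Agent.R017.XHB411 (tl)
open Crest.Agent.R017.XRG106 (Rl)
open Crest.Agent.R017.XP699 (LL Chd cst hcost)
open Crest.Agent.R017.Leg381 (Pf alF LF natl)
open Crest.Agent.R017.Win813 (WK iA iA_nonneg)
open Crest.Agent.R017.RGw813 (bt T9)
open Crest.Agent.R017.RG64 (SbL Ht one_le_Ht)
open Crest.Agent.R017.RX298 (xs rp rpB Lg SbL_rp LF_rp rp_length)
open Crest.Agent.R017.LBu180 (SqQ)
open Crest.Agent.R017.LBQ791 (SQnQ)
open Crest.Agent.R017.RlB791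
open Crest.Agent.R017.R3Q791

lemma rpow_log {X a T : ℝ} (hX : 1 < X) : X ^ (T + a / Real.log X) = X ^ T * Real.exp a := by
  have hX0 : 0 < X := by linarith
  have hl : Real.log X ≠ 0 := (Real.log_pos hX).ne'
  rw [Real.rpow_add hX0]
  congr 1
  rw [Real.rpow_def_of_pos hX0]
  congr 1
  field_simp

/-- the bound of the functional at the children of the base list -/
def LineB (Q' : Eis → Prop) (P : DPar) (h : ℝ → ℝ) (X r b ε M K' T Bd : ℝ) (ps₀ : List Pq)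
    (L : ℝ) : Prop :=
  ∀ (l : ℝ) (ps' : List Pq), 0 ≤ l → l ≤ (K' + ε) * Real.log X →
    List.Forall₂ (Chd Dq hcost r b) ps' ps₀ → LL Dq ps' ≤ L + ε * Real.log X →
    RQ Q' h l (ps'.map (Pq.pc P)) ≤ Bd * cst hcost ps' ps₀ ^ M * X ^ (T + LL Dq ps' / Real.log X)

/-- **from the line to the hypothesis of the moments** -/
lemma line_hyp {Q' : Eis → Prop} {P : DPar} {h : ℝ → ℝ} {X r b ε M K' T Bd c₀ C S : ℝ}
    {ps₀ : List Pq} {ps : List Pf} {N : ℕ} (hX : 3 ≤ X) (hC : 1 ≤ C) (hM : 0 ≤ M) (hBd : 0 ≤ Bd)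
    (hK : 0 ≤ K') (hr : C + S ≤ r) (hb : C * Real.exp S * X ^ c₀ ≤ b)
    (hCε : C ≤ ε * Real.log X) (hCl : Real.log C ≤ ε * Real.log X) (hN : ps.length ≤ N)
    (hs : SbL S ps ps₀) (hz : ∀ q ∈ ps₀, Dq.len q ≤ c₀ * Real.log X)
    (H : LineB Q' P h X r b ε M K' T Bd ps₀ (LF ps)) :
    ∀ (ps' : List Pq) (W : ℝ), 1 ≤ W → List.Forall₂ (Rl C W) ps' (ps.map Prod.fst) →
      tl Dq ps' ≤ LF ps + C → RQ Q' h (Real.log (C * X ^ K')) (ps'.map (Pq.pc P)) ≤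
        (Bd * (Ht ps * Ht (natl ps₀)) ^ M * X ^ T) * Real.exp (tl Dq ps') *
          W ^ (2 * ((N : ℝ) * M / 2)) := by
  intro ps' W hW hR hl
  have hX0 : 0 < X := by linarith
  have hX1 : 1 < X := by linarith
  have hl0 : 0 < Real.log X := Real.log_pos hX1
  have h1 := chdL_mono hr hb (chdL_of_rl hX0 (by linarith) hR hs hz)
  have hlog : Real.log (C * X ^ K') = Real.log C + K' * Real.log X := by
    rw [Real.log_mul (by linarith) (by positivity), Real.log_rpow hX0]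
  have h2 := H (Real.log (C * X ^ K')) ps' (by
      rw [hlog]
      have := Real.log_nonneg hC
      positivity) (by rw [hlog]; linarith) h1 (by
      show tl Dq ps' ≤ _
      linarith)
  rw [rpow_log hX1] at h2
  have h3 := cst_rl_pow hW hM hR hs hN
  refine h2.trans ?_
  have h4 : LL Dq ps' = tl Dq ps' := rfl
  rw [h4]
  have h5 : 0 ≤ X ^ T * Real.exp (tl Dq ps') := by positivity
  calc Bd * cst hcost ps' ps₀ ^ M * (X ^ T * Real.exp (tl Dq ps'))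
      ≤ Bd * (W ^ (2 * ((N : ℝ) * M / 2)) * (Ht ps * Ht (natl ps₀)) ^ M) *
        (X ^ T * Real.exp (tl Dq ps')) := by gcongr
    _ = _ := by ring

/-- constants -/
lemma leaf_const {N : ℕ} {ε δ X c₀ : ℝ} (hX : 3 ≤ X) (hc₀ : 0 ≤ c₀) (hε : 0 < ε)
    (hδ0 : δ ≤ ε / (4 * (N + 1))) :
    ((X ^ δ) ^ N) ^ 2 * (X ^ (c₀ + 2 + ε)) ^ (ε / (2 * (c₀ + 2 + ε))) ≤ X ^ ε := by
  have hX0 : 0 < X := by linarith
  have hN : (0 : ℝ) ≤ N := Nat.cast_nonneg N
  have h1 : ((X ^ δ) ^ N) ^ 2 = X ^ (δ * N * 2) := by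
    rw [← Real.rpow_natCast, ← Real.rpow_natCast, ← Real.rpow_mul hX0.le,
      ← Real.rpow_mul hX0.le]
    norm_cast
  have h2 : (X ^ (c₀ + 2 + ε)) ^ (ε / (2 * (c₀ + 2 + ε))) = X ^ (ε / 2) := by
    rw [← Real.rpow_mul hX0.le]
    congr 1
    have : c₀ + 2 + ε ≠ 0 := by positivity
    field_simp
  rw [h1, h2, ← Real.rpow_add hX0]
  refine Real.rpow_le_rpow_of_exponent_le (by linarith) ?_
  have h3 : δ * N * 2 ≤ ε / 2 := by
    have h4 : δ * N ≤ ε / (4 * (N + 1)) * N := mul_le_mul_of_nonneg_right hδ0 hN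
    have h5 : ε / (4 * (N + 1)) * N ≤ ε / 4 := by
      rw [div_mul_eq_mul_div, div_le_div_iff₀ (by positivity) (by norm_num)]
      nlinarith
    linarith
  linarith

/-- the target in the form of `SQnQ` -/
lemma leaf_final {G C1 C2 Dn Xe Xε P1 B HM XT XK L : ℝ} (hG : 0 ≤ G) (hC1 : 0 ≤ C1)
    (hGC : G * C1 ≤ C2) (hD : Dn * Xe ≤ Xε) (hDn : 0 ≤ Dn) (hXe : 0 ≤ Xe) (hP : 0 ≤ P1)
    (hB : 0 ≤ B) (hHM : 0 ≤ HM) (hXT : 0 ≤ XT) (hXK : 0 < XK) :
    G * (C1 * Dn * Xe * P1 * (B * HM * XT) * Real.exp L) ≤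
      (XK / Real.exp L) * ((C2 * Xε * HM * B * (XT * Real.exp (2 * L) / XK)) * P1) := by
  have e1 : Real.exp (2 * L) = Real.exp L * Real.exp L := by rw [← Real.exp_add]; congr 1; ring
  have hL := Real.exp_pos L
  have h0 : 0 ≤ Xε := (mul_nonneg hDn hXe).trans hD
  have hC2 : 0 ≤ C2 := (mul_nonneg hG hC1).trans hGC
  calc G * (C1 * Dn * Xe * P1 * (B * HM * XT) * Real.exp L)
      = (G * C1) * (Dn * Xe) * (P1 * (B * HM * XT) * Real.exp L) := by ring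
    _ ≤ C2 * Xε * (P1 * (B * HM * XT) * Real.exp L) := by gcongr
    _ = _ := by
        rw [e1]
        field_simp

/-- **the smooth squares of a flagged list** from a line of slope 1 -/
theorem sq_leaf {h : ℝ → ℝ} {c : ℝ} (hpu : PU h c) {ω : ℝ → ℝ} (hω : Wgt ω) (N : ℕ)
    {c₀ ε M : ℝ} (hc₀ : 1 ≤ c₀) (hε : 0 < ε) (hM : 0 ≤ M) :
    ∃ J₀ δ₀ : ℝ, 0 ≤ J₀ ∧ 0 < δ₀ ∧ ∀ (δ : ℝ) (Jn Aw : ℕ) (Cw R η S : ℝ), 0 ≤ δ → δ ≤ δ₀ →
    J₀ ≤ Jn → Jn + 2 ≤ Aw → 0 ≤ Cw → 0 < η → η ≤ 1 → 0 ≤ S →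
    ∃ C r X₁ : ℝ, 0 ≤ C ∧ 0 ≤ r ∧ ∀ X : ℝ, 3 ≤ X → X₁ ≤ X → ∀ P : DPar, P.OK →
    ∀ ps₀ : List Pq, ps₀.length ≤ N → (∀ q ∈ ps₀, Dq.len q ≤ c₀ * Real.log X) →
    ∀ (q : Eis) (ps : List Pf), q ≠ 0 → (nm q : ℝ) ≤ X ^ c₀ → SbL S ps ps₀ →
    ∀ (Q : ℕ × ℕ → Eis → Prop) (Q' : Eis → Prop),
    (∀ p ∈ T9, ∀ k, IsPrim k → Q p k → Q' (k * (w ^ p.1 * lam ^ p.2) ^ 2)) →
    ∀ K' T Bd : ℝ, 0 ≤ K' → 0 ≤ Bd → LineB Q' P h X r (C * X ^ c₀) ε M K' T Bd ps₀ (LF ps) →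
    SQnQ ω Q Cw η Aw (X ^ K') (Real.exp (LF ps)) R Jn (sqc q (alF (X ^ δ) (X ^ δ) P h ps))
      (C * X ^ ε * (Ht ps * Ht (natl ps₀)) ^ M * Bd * (X ^ T * Real.exp (2 * LF ps) / X ^ K')) := by
  have hN0 : (0 : ℝ) ≤ N := Nat.cast_nonneg N
  set μ : ℝ := (N : ℝ) * M / 2 with hμ
  have hμ0 : 0 ≤ μ := by positivity
  set e1 : ℝ := ε / (2 * (c₀ + 2 + ε)) with he1
  have he10 : 0 < e1 := by positivity
  obtain ⟨C1, hC1, H⟩ := sq_al hpu hμ0 hω N he10
  refine ⟨2 * (N * μ), ε / (4 * (N + 1)), by positivity, by positivity, ?_⟩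
  intro δ Jn Aw Cw R η S hδ hδ0 hJ hJA hCw hη hη1 hS
  set G : ℝ := Cw ^ 2 * iA Aw * iA 2 * (η⁻¹) ^ Jn with hG
  have hG0 : 0 ≤ G :=
    mul_nonneg (mul_nonneg (mul_nonneg (by positivity) (iA_nonneg Aw)) (iA_nonneg 2))
      (by positivity)
  have hES : 1 ≤ Real.exp S := Real.one_le_exp hS
  refine ⟨G * C1 + C1 * Real.exp S, C1 + S, Real.exp (C1 / ε) + Real.exp S, by positivity,
    by positivity, ?_⟩
  set C2 : ℝ := G * C1 + C1 * Real.exp S with hC2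
  have hGC : G * C1 ≤ C2 := by
    have : 0 ≤ C1 * Real.exp S := by positivity
    linarith
  have hEC : C1 * Real.exp S ≤ C2 := by
    have : 0 ≤ G * C1 := by positivity
    linarith
  intro X hX hX1 P hP ps₀ hps₀ hz₀ q ps hq hqX hs Q Q' hQ K' T Bd hK' hBd hline
  have hX0 : 0 < X := by linarith
  have hX1' : 1 ≤ X := by linarith
  have hlog : C1 ≤ ε * Real.log X := by
    have h1 : Real.exp (C1 / ε) ≤ X := by linarith [Real.exp_pos S]
    have h2 : C1 / ε ≤ Real.log X := by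
      rw [Real.le_log_iff_exp_le hX0]; exact h1
    rwa [div_le_iff₀ hε, mul_comm] at h2
  have hSX : S ≤ Real.log X := by
    rw [Real.le_log_iff_exp_le hX0]
    linarith [Real.exp_pos (C1 / ε)]
  have hlC : Real.log C1 ≤ ε * Real.log X := by
    have := Real.log_le_sub_one_of_pos (by linarith : 0 < C1)
    linarith
  have hlen : ps.length ≤ N := by rw [hs.length]; exact hps₀
  have hzn := hs.z_nonneg
  set X0 : ℝ := X ^ (c₀ + 2 + ε) with hX0'
  have hX01 : 1 ≤ X0 := Real.one_le_rpow hX1' (by positivity)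
  have hmono : ∀ u : ℝ, u ≤ c₀ + 2 + ε → X ^ u ≤ X0 := fun u hu =>
    Real.rpow_le_rpow_of_exponent_le hX1' hu
  have hδε : δ ≤ ε := by
    refine hδ0.trans ?_
    rw [div_le_iff₀ (by positivity)]
    nlinarith
  have hzX : ∀ p ∈ ps, Real.exp p.1.z ≤ X0 := by
    have h1 : ∀ p ∈ ps, p.1.z ≤ c₀ * Real.log X + S := by
      unfold RG64.SbL at hs
      clear hline hzn hlen hps₀
      induction hs with
      | nil => simp
      | @cons p p₀ ps ps₀ h1 _ ih =>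
        intro p' hp'
        rcases List.mem_cons.1 hp' with rfl | hp'
        · have h2 := h1.2.2.2.2
          have h3 : p₀.z ≤ c₀ * Real.log X := hz₀ p₀ (by simp)
          linarith
        · exact ih (fun q hq => hz₀ q (by simp [hq])) p' hp'
    intro p hp
    calc Real.exp p.1.z ≤ Real.exp ((c₀ + 1) * Real.log X) :=
          Real.exp_le_exp.2 (by linarith [h1 p hp])
      _ = X ^ (c₀ + 1) := by rw [Real.rpow_def_of_pos hX0, mul_comm]
      _ ≤ X0 := hmono _ (by linarith)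
  have hhyp := line_hyp (C := C1) (S := S) hX hC1 hM hBd hK' le_rfl
    (mul_le_mul_of_nonneg_right hEC (by positivity : (0 : ℝ) ≤ X ^ c₀)) hlog hlC hlen hs hz₀ hline
  intro p hp t X' φ hX' _ hWK _
  have hp2 : p.2 ≤ 2 := by
    have h1 := (Finset.mem_product.1 hp).2
    have := Finset.mem_range.1 h1
    omega
  have key := H P hP ps hlen hzn (X ^ δ) (X ^ δ) (Real.one_le_rpow hX1' hδ) (Q p) Q' p hp2
    (hQ p hp) q hq X0 (X ^ K') (Bd * (Ht ps * Ht (natl ps₀)) ^ M * X ^ T) hX01 (by positivity)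
    (hmono δ (by linarith)) (hqX.trans (hmono c₀ (by linarith))) hzX (by
      have := one_le_Ht ps
      have := one_le_Ht (natl ps₀)
      positivity) hhyp Cw η Aw Jn hCw hη hη1 hJA (by rw [hμ] at hJ ⊢; exact hJ) φ hWK t
  refine key.trans ?_
  have hH : 0 ≤ (Ht ps * Ht (natl ps₀)) ^ M := by
    have := one_le_Ht ps
    have := one_le_Ht (natl ps₀)
    positivity
  exact leaf_final (L := LF ps) hG0 (by linarith) hGC
    (leaf_const (N := N) (c₀ := c₀) hX (by linarith) hε hδ0) (by positivity) (by positivity)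
    (by positivity) hBd hH (by positivity) (by positivity)

lemma Ht_natl_rpB (d₀ : ℝ) (ps : List Pq) : Ht (natl (rpB d₀ ps)) = Ht (natl ps) := by
  match ps with
  | [] => rfl
  | [_] => rfl
  | p :: p' :: ps =>
    have e1 : natl (rpB d₀ (p :: p' :: ps)) =
      (({p with z := p.z + p'.z - d₀} : Pq), false) :: (({p' with z := d₀} : Pq), false) ::
        natl ps := rfl
    have e2 : natl (p :: p' :: ps) = (p, false) :: (p', false) :: natl ps := rfl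
    rw [e1, e2, RG64.Ht_cons, RG64.Ht_cons, RG64.Ht_cons, RG64.Ht_cons]

lemma exp_z_le {X c₀ S : ℝ} (hc₀ : 0 ≤ c₀) (hX0 : 0 < X) {ps : List Pf} {ps₀ : List Pq}
    (hs : SbL S ps ps₀) (hz₀ : ∀ q ∈ ps₀, Dq.len q ≤ c₀ * Real.log X) (hSX : S ≤ Real.log X) :
    ∀ p ∈ ps, Real.exp p.1.z ≤ X ^ (c₀ + 1) := by
  have h1 : ∀ p ∈ ps, p.1.z ≤ c₀ * Real.log X + S := by
    unfold RG64.SbL at hs
    induction hs with
    | nil => simp
    | @cons p p₀ ps ps₀ h1 _ ih =>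
      intro p' hp'
      rcases List.mem_cons.1 hp' with rfl | hp'
      · have h2 := h1.2.2.2.2
        have h3 : p₀.z ≤ c₀ * Real.log X := hz₀ p₀ (by simp)
        linarith
      · exact ih (fun q hq => hz₀ q (by simp [hq])) p' hp'
  intro p hp
  calc Real.exp p.1.z ≤ Real.exp ((c₀ + 1) * Real.log X) :=
        Real.exp_le_exp.2 (by linarith [h1 p hp])
    _ = X ^ (c₀ + 1) := by rw [Real.rpow_def_of_pos hX0, mul_comm]

/-- **the smooth squares of `xs`** from lines of slope 1 for the list and the replaced list -/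
theorem sq_leafX {h : ℝ → ℝ} {c : ℝ} (hpu : PU h c) {ω : ℝ → ℝ} (hω : Wgt ω) (N : ℕ)
    {c₀ ε M : ℝ} (hc₀ : 1 ≤ c₀) (hε : 0 < ε) (hM : 0 ≤ M) :
    ∃ J₀ δ₀ : ℝ, 0 ≤ J₀ ∧ 0 < δ₀ ∧ ∀ (δ : ℝ) (Jn Aw : ℕ) (Cw R η S : ℝ), 0 ≤ δ → δ ≤ δ₀ →
    J₀ ≤ Jn → Jn + 2 ≤ Aw → 0 ≤ Cw → 0 < η → η ≤ 1 → 0 ≤ S →
    ∃ C r X₁ : ℝ, 0 ≤ C ∧ 0 ≤ r ∧ ∀ X : ℝ, 3 ≤ X → X₁ ≤ X → ∀ P : DPar, P.OK →
    ∀ ps₀ : List Pq, ps₀.length ≤ N → (∀ q ∈ ps₀, Dq.len q ≤ c₀ * Real.log X) →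
    ∀ d : ℝ, 0 ≤ d → (∀ q ∈ rpB d ps₀, Dq.len q ≤ c₀ * Real.log X) →
    ∀ (q : Eis) (ps : List Pf), q ≠ 0 → (nm q : ℝ) ≤ X ^ c₀ → SbL S ps ps₀ → Lg d ps →
    ∀ (Q : ℕ × ℕ → Eis → Prop) (Q' : Eis → Prop),
    (∀ p ∈ T9, ∀ k, IsPrim k → Q p k → Q' (k * (w ^ p.1 * lam ^ p.2) ^ 2)) →
    ∀ K' T Bd : ℝ, 0 ≤ K' → 0 ≤ Bd → LineB Q' P h X r (C * X ^ c₀) ε M K' T Bd ps₀ (LF ps) →
    LineB Q' P h X r (C * X ^ c₀) ε M K' T Bd (rpB d ps₀) (LF ps) →
    SQnQ ω Q Cw η Aw (X ^ K') (Real.exp (LF ps)) R Jn (xs q (X ^ δ) (X ^ δ) P h d ps)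
      (C * X ^ ε * (Ht ps * Ht (natl ps₀)) ^ M * Bd * (X ^ T * Real.exp (2 * LF ps) / X ^ K')) := by
  have hN0 : (0 : ℝ) ≤ N := Nat.cast_nonneg N
  set μ : ℝ := (N : ℝ) * M / 2 with hμ
  have hμ0 : 0 ≤ μ := by positivity
  set e1 : ℝ := ε / (2 * (c₀ + 2 + ε)) with he1
  have he10 : 0 < e1 := by positivity
  obtain ⟨C1, hC1, H⟩ := sq_xs hpu hμ0 hω N he10
  refine ⟨2 * (N * μ), ε / (4 * (N + 1)), by positivity, by positivity, ?_⟩
  intro δ Jn Aw Cw R η S hδ hδ0 hJ hJA hCw hη hη1 hS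
  set G : ℝ := Cw ^ 2 * iA Aw * iA 2 * (η⁻¹) ^ Jn with hG
  have hG0 : 0 ≤ G :=
    mul_nonneg (mul_nonneg (mul_nonneg (by positivity) (iA_nonneg Aw)) (iA_nonneg 2))
      (by positivity)
  have hES : 1 ≤ Real.exp (2 * S) := Real.one_le_exp (by linarith)
  have hES' : Real.exp S ≤ Real.exp (2 * S) := Real.exp_le_exp.2 (by linarith)
  refine ⟨G * C1 + C1 * Real.exp (2 * S), C1 + 2 * S, Real.exp (C1 / ε) + Real.exp (2 * S), by positivity,
    by positivity, ?_⟩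
  set C2 : ℝ := G * C1 + C1 * Real.exp (2 * S) with hC2
  have hGC : G * C1 ≤ C2 := by
    have : 0 ≤ C1 * Real.exp (2 * S) := by positivity
    linarith
  have hEC' : C1 * Real.exp (2 * S) ≤ C2 := by
    have : 0 ≤ G * C1 := by positivity
    linarith
  have hEC : C1 * Real.exp S ≤ C2 :=
    (mul_le_mul_of_nonneg_left hES' (by linarith)).trans hEC'
  intro X hX hX1 P hP ps₀ hps₀ hz₀ d hd hz₀' q ps hq hqX hs hLg Q Q' hQ K' T Bd hK' hBd hline hline'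
  have hX0 : 0 < X := by linarith
  have hX1' : 1 ≤ X := by linarith
  have hlog : C1 ≤ ε * Real.log X := by
    have h1 : Real.exp (C1 / ε) ≤ X := by linarith [Real.exp_pos (2 * S)]
    have h2 : C1 / ε ≤ Real.log X := by
      rw [Real.le_log_iff_exp_le hX0]; exact h1
    rwa [div_le_iff₀ hε, mul_comm] at h2
  have hSX : 2 * S ≤ Real.log X := by
    rw [Real.le_log_iff_exp_le hX0]
    linarith [Real.exp_pos (C1 / ε)]
  have hlC : Real.log C1 ≤ ε * Real.log X := by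
    have := Real.log_le_sub_one_of_pos (by linarith : 0 < C1)
    linarith
  have hlen : ps.length ≤ N := by rw [hs.length]; exact hps₀
  have hzn := hs.z_nonneg
  set X0 : ℝ := X ^ (c₀ + 2 + ε) with hX0'
  have hX01 : 1 ≤ X0 := Real.one_le_rpow hX1' (by positivity)
  have hmono : ∀ u : ℝ, u ≤ c₀ + 2 + ε → X ^ u ≤ X0 := fun u hu =>
    Real.rpow_le_rpow_of_exponent_le hX1' hu
  have hδε : δ ≤ ε := by
    refine hδ0.trans ?_
    rw [div_le_iff₀ (by positivity)]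
    nlinarith
  have hs' : SbL (2 * S) (rp d ps) (rpB d ps₀) := SbL_rp hS hd hs hLg
  have hlen' : (rp d ps).length ≤ N := by rw [rp_length]; exact hlen
  have hzn' := hs'.z_nonneg
  have hzX : ∀ p ∈ ps, Real.exp p.1.z ≤ X0 := fun p hp =>
    (exp_z_le (by linarith) hX0 (SbL.mono (by linarith : S ≤ 2 * S) hs) hz₀ hSX p hp).trans
      (hmono _ (by linarith))
  have hzX' : ∀ p ∈ rp d ps, Real.exp p.1.z ≤ X0 := fun p hp =>
    (exp_z_le (by linarith) hX0 hs' hz₀' hSX p hp).trans (hmono _ (by linarith))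
  have hhyp := line_hyp (C := C1) (S := S) hX hC1 hM hBd hK' (by linarith)
    (mul_le_mul_of_nonneg_right hEC (by positivity : (0 : ℝ) ≤ X ^ c₀)) hlog hlC hlen hs hz₀ hline
  have hhyp' := line_hyp (C := C1) (S := 2 * S) hX hC1 hM hBd hK' le_rfl
    (mul_le_mul_of_nonneg_right hEC' (by positivity : (0 : ℝ) ≤ X ^ c₀)) hlog hlC hlen' hs' hz₀'
    (by rw [LF_rp]; exact hline')
  rw [LF_rp, RX298.Ht_rp, Ht_natl_rpB] at hhyp'
  intro p hp t X' φ hX' _ hWK _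
  have hp2 : p.2 ≤ 2 := by
    have h1 := (Finset.mem_product.1 hp).2
    have := Finset.mem_range.1 h1
    omega
  have key := H P hP ps d hlen hzn hzn' (X ^ δ) (X ^ δ) (Real.one_le_rpow hX1' hδ) (Q p) Q' p hp2
    (hQ p hp) q hq X0 (X ^ K') (Bd * (Ht ps * Ht (natl ps₀)) ^ M * X ^ T) hX01 (by positivity)
    (hmono δ (by linarith)) (hqX.trans (hmono c₀ (by linarith))) hzX hzX' (by
      have := one_le_Ht ps
      have := one_le_Ht (natl ps₀)
      positivity) (by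
      intro qs hqs
      rcases hqs with rfl | rfl
      · exact hhyp
      · exact hhyp') Cw η Aw Jn hCw hη hη1 hJA (by rw [hμ] at hJ ⊢; exact hJ) φ hWK t
  refine key.trans ?_
  have hH : 0 ≤ (Ht ps * Ht (natl ps₀)) ^ M := by
    have := one_le_Ht ps
    have := one_le_Ht (natl ps₀)
    positivity
  exact leaf_final (L := LF ps) hG0 (by linarith) hGC
    (leaf_const (N := N) (c₀ := c₀) hX (by linarith) hε hδ0) (by positivity) (by positivity)
    (by positivity) hBd hH (by positivity) (by positivity)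

end Crest.Agent.R017.SqB791
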