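import Crest.Agent.R017.RGl_64
import Crest.Agent.R017.SqB_791

/-!
# Row 17, C.REMg, the Bessel side, part F (helper521): the terminal bound from the premises (class N)

* `SqS` : the squares at all the second scales; `sqS_of` : from the line of the character side
* `bess_core` : **the terminal bound from the premises** (Gauss side, character side, lower bound)
-/

set_option autoImplicit false

noncomputable section

open Complex
open scoped ComplexConjugate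

namespace Crest.Agent.R017.Bs521

open Crest.Agent.R012 Crest.Agent.R012.Eis Crest.Agent.R012.LS2 Crest.Agent.R012.Gauss880
open Crest.Agent.R012.MC (Wgt)
open Crest.Agent.R012.Weight600 (osc pw)
open Crest.Agent.R017.CM106 Crest.Agent.R017.HP842 Crest.Agent.R017.FE47
open Crest.Agent.R017.B770
open Crest.Agent.R017.Prov71
open Crest.Agent.R017.Rough381 (VF)
open Crest.Agent.R017.Leg381
open Crest.Agent.R017.E1551 (cP SqP)
open Crest.Agent.R017.Win813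
open Crest.Agent.R017.RGw813
open Crest.Agent.R017.RG64
open Crest.Agent.R017.LBo813 (rho rho_one)
open Crest.Agent.R017.XRG106 (RFp)
open Crest.Agent.R017.XP699 (LL Chd hcost cst)
open Crest.Agent.R017.SqB791 (LineB sq_leaf)
open Crest.Agent.R017.LBQ791 (SQnQ SQnQ_true)

/-- **the squares at the second scales** `K e^{-h}`, `0 ≤ h ≤ H log E0`: number
`e^{-h/3} (K / X) Rn (1 + |t|) ^ J` -/
def SqS (w : ℝ → ℝ) (H : ℝ) (p : LBp) (α : Eis → ℂ) (Rn : ℝ) : Prop :=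
  ∀ h : ℝ, 0 ≤ h → h ≤ H * Real.log p.E0 →
  ∀ a ∈ T9, ∀ (t X' : ℝ) (φ : ℝ → ℝ), 0 < X' → |Real.log X' - Real.log p.X| ≤ p.R + 1 →
    WK p.Cw p.η p.Aw φ → (∀ u, φ u ≠ 0 → |u - Real.log X'| ≤ p.η / 2) →
    SqP w (p.K * Real.exp (-h)) (fun n => bt φ α a n * pw t (nm n)) ≤
      Real.exp (-(h / 3)) * ((p.K / p.X) * (Rn * (1 + |t|) ^ p.J))

lemma SqS.sqn {w : ℝ → ℝ} {H : ℝ} {p : LBp} {α : Eis → ℂ} {Rn : ℝ} (h : SqS w H p α Rn)
    (hH : 0 ≤ H * Real.log p.E0) : SQn w p.Cw p.η p.Aw p.K p.X p.R p.J α Rn := by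
  intro a ha t X' φ hX' hXX hφ hs
  have h1 := h 0 le_rfl hH a ha t X' φ hX' hXX hφ hs
  simpa using h1

lemma rho_nonneg (N₀ N₁ n : ℕ) : 0 ≤ rho N₀ N₁ n := by
  unfold LBo813.rho
  have h0 := LBo813.Om_nonneg N₀ N₁ n
  have h1 := LBo813.Om_le_one N₀ N₁ n
  nlinarith

/-- **the squares at the second scales from the character side** : the line
`RFp ≤ Bd cst ^ M exp (n' + l / 3 + 2 κ / 3)` -/
theorem sqS_of {h : ℝ → ℝ} {c₂ : ℝ} (hpu : PU h c₂) {w : ℝ → ℝ} (hw : Wgt w) (N : ℕ)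
    {c₀ ε M : ℝ} (hc₀ : 1 ≤ c₀) (hε : 0 < ε) (hM : 0 ≤ M) :
    ∃ J₀ δ₀ : ℝ, 0 ≤ J₀ ∧ 0 < δ₀ ∧ ∀ (Jn Aw : ℕ) (Cw R η : ℝ),
    J₀ ≤ Jn → Jn + 2 ≤ Aw → 0 ≤ Cw → 0 < η → η ≤ 1 →
    ∃ C r X₁ : ℝ, 0 ≤ C ∧ 0 ≤ r ∧ ∀ X : ℝ, 3 ≤ X → X₁ ≤ X → ∀ P : DPar, P.OK →
    ∀ ps₀ : List Pq, ps₀.length ≤ N → (∀ q ∈ ps₀, 0 ≤ q.z) →
    (∀ q ∈ ps₀, Dq.len q ≤ c₀ * Real.log X) →
    ∀ (K c b H Bd : ℝ) (N₀ N₁ : ℕ) (D G₀ : ℝ), 0 ≤ K → 0 ≤ c → 0 ≤ H → H * c ≤ K → 0 ≤ Bd →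
    (∀ (l : ℝ) (ps' : List Pq), 0 ≤ l → l ≤ (K + ε) * Real.log X →
      List.Forall₂ (Chd Dq hcost r (C * X ^ c₀)) ps' ps₀ →
      LL Dq ps' ≤ LL Dq ps₀ + ε * Real.log X →
      RFp P h l ps' ≤ Bd * cst hcost ps' ps₀ ^ M *
        Real.exp (LL Dq ps' + l / 3 + 2 / 3 * (K * Real.log X))) →
    SqS w H ⟨Cw, η, Aw, X ^ K, Real.exp (LL Dq ps₀), b, R, Jn, N₀, N₁, X ^ c, D, G₀⟩
      (sqc 1 (alF (X ^ (0 : ℝ)) (X ^ (0 : ℝ)) P h (natl ps₀)))
      (C * X ^ (2 * ε) * (Ht (natl ps₀) * Ht (natl ps₀)) ^ M * Bd *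
        Real.exp (2 * LL Dq ps₀)) := by
  obtain ⟨J₀, δ₀, hJ₀, hδ₀, H1⟩ := sq_leaf hpu hw N hc₀ hε hM
  refine ⟨J₀, δ₀, hJ₀, hδ₀, ?_⟩
  intro Jn Aw Cw R η hJn hAw hCw hη hη1
  obtain ⟨C, r, X₁, hC, hr, H2⟩ := H1 0 Jn Aw Cw R η 0 le_rfl hδ₀.le hJn hAw hCw hη hη1 le_rfl
  refine ⟨C, r, X₁, hC, hr, ?_⟩
  intro X hX hXX P hP ps₀ hlen hz hz₀ K c b H Bd N₀ N₁ D G₀ hK hc hH hHc hBd hline
  have hX0 : 0 < X := by linarith
  have hX1 : 1 < X := by linarith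
  obtain ⟨L, hL⟩ : ∃ L : ℝ, L = Real.log X := ⟨_, rfl⟩
  have hL0 : 0 < L := by rw [hL]; exact Real.log_pos hX1
  have hpowX : ∀ x : ℝ, X ^ x = Real.exp (x * L) := fun x => by
    rw [Real.rpow_def_of_pos hX0, hL, mul_comm]
  obtain ⟨n, hn⟩ : ∃ n : ℝ, n = LL Dq ps₀ := ⟨_, rfl⟩
  have hLFn : LF (natl ps₀) = n := by rw [RXg848.LF_natl, hn]
  intro h' hh0 hh1 a ha t X' φ hX' hXX' hφ hs
  have hlE : Real.log (X ^ c) = c * L := by rw [Real.log_rpow hX0, hL]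
  have hh2 : h' ≤ H * (c * L) := by
    have : h' ≤ H * Real.log (X ^ c) := hh1
    rwa [hlE] at this
  have hh3 : h' ≤ K * L := by
    have := mul_le_mul_of_nonneg_right hHc hL0.le
    linarith
  obtain ⟨K', hK'⟩ : ∃ x : ℝ, x = K - h' / L := ⟨_, rfl⟩
  have hK'L : K' * L = K * L - h' := by rw [hK', sub_mul]; field_simp
  have hK'0 : 0 ≤ K' := by
    rw [hK', sub_nonneg, div_le_iff₀ hL0]; exact hh3
  have hK'K : K' ≤ K := by
    rw [hK']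
    have : 0 ≤ h' / L := by positivity
    linarith
  obtain ⟨T, hT⟩ : ∃ x : ℝ, x = K' / 3 + 2 / 3 * K + ε / 3 := ⟨_, rfl⟩
  have hLB : LineB (fun k => k ≠ 0) P h X r (C * X ^ c₀) ε M K' T Bd ps₀ (LF (natl ps₀)) := by
    intro l ps' hl hlK hch hLL
    rw [hLFn, hn] at hLL
    have h1 := hline l ps' hl (hlK.trans (mul_le_mul_of_nonneg_right (by linarith) (by
      rw [← hL]; exact hL0.le))) hch hLL
    have h2 : RQ (fun k => k ≠ 0) h l (ps'.map (Pq.pc P)) = RFp P h l ps' := rfl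
    rw [h2]
    refine h1.trans ?_
    have hcst : 0 ≤ cst hcost ps' ps₀ ^ M := Real.rpow_nonneg
      (zero_le_one.trans (XP699.one_le_cst XP699.one_le_hcost _ _)) _
    refine mul_le_mul_of_nonneg_left ?_ (by positivity)
    rw [hpowX, ← hL]
    refine Real.exp_le_exp.2 ?_
    rw [add_mul, div_mul_cancel₀ _ hL0.ne', hT]
    rw [← hL] at hlK
    have : (K' / 3 + 2 / 3 * K + ε / 3) * L = (K' + ε) * L / 3 + 2 / 3 * (K * L) := by ring
    linarith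
  have key := H2 X hX hXX P hP ps₀ hlen hz₀ 1 (natl ps₀) one_ne_zero (by
      rw [nm_one]
      push_cast
      exact Real.one_le_rpow hX1.le (by linarith)) (RG64.SbL_natl hz) (fun _ _ => True)
      (fun k => k ≠ 0) (fun p _ k hk _ => by
        refine mul_ne_zero hk.ne_zero (pow_ne_zero _ (mul_ne_zero (pow_ne_zero _ ?_)
          (pow_ne_zero _ ?_)))
        · intro h0
          have h9 := w_cube
          rw [h0] at h9
          norm_num at h9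
        · exact lam_ne_zero) K' T Bd hK'0 hBd hLB
  rw [SQnQ_true, hLFn] at key
  have hKK : X ^ K' = X ^ K * Real.exp (-h') := by
    rw [hpowX, hpowX, ← Real.exp_add, hK'L]; congr 1
  have h1 := key a ha t X' φ hX' (by
    have : |Real.log X' - Real.log (Real.exp (LL Dq ps₀))| ≤ R + 1 := hXX'
    rwa [← hn] at this) hφ hs
  show SqP w (X ^ K * Real.exp (-h')) _ ≤ Real.exp (-(h' / 3)) * ((X ^ K /
    Real.exp (LL Dq ps₀)) * ((C * X ^ (2 * ε) * (Ht (natl ps₀) * Ht (natl ps₀)) ^ M * Bd *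
        Real.exp (2 * LL Dq ps₀)) * (1 + |t|) ^ Jn))
  rw [← hKK, ← hn]
  refine h1.trans ?_
  have hH0 : 0 ≤ (Ht (natl ps₀) * Ht (natl ps₀)) ^ M := by
    have := one_le_Ht (natl ps₀)
    positivity
  have ht : (0 : ℝ) ≤ (1 + |t|) ^ Jn := by positivity
  have e1 : X ^ K' / Real.exp n * (C * X ^ ε * (Ht (natl ps₀) * Ht (natl ps₀)) ^ M * Bd *
      (X ^ T * Real.exp (2 * n) / X ^ K') * (1 + |t|) ^ Jn) =
      (C * (Ht (natl ps₀) * Ht (natl ps₀)) ^ M * Bd * Real.exp (2 * n) * (1 + |t|) ^ Jn /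
        Real.exp n) * (X ^ ε * X ^ T) := by
    have : X ^ K' ≠ 0 := (Real.rpow_pos_of_pos hX0 _).ne'
    field_simp
  have e2 : Real.exp (-(h' / 3)) * (X ^ K / Real.exp n * (C * X ^ (2 * ε) *
      (Ht (natl ps₀) * Ht (natl ps₀)) ^ M * Bd * Real.exp (2 * n) * (1 + |t|) ^ Jn)) =
      (C * (Ht (natl ps₀) * Ht (natl ps₀)) ^ M * Bd * Real.exp (2 * n) * (1 + |t|) ^ Jn /
        Real.exp n) * (X ^ K * Real.exp (-(h' / 3)) * X ^ (2 * ε)) := by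
    field_simp
  rw [e1, e2]
  refine mul_le_mul_of_nonneg_left ?_ (by positivity)
  rw [hpowX, hpowX, hpowX, hpowX, ← Real.exp_add, ← Real.exp_add, ← Real.exp_add]
  refine Real.exp_le_exp.2 ?_
  have e3 : T * L = K * L - h' / 3 + ε / 3 * L := by
    have : T * L = K' * L / 3 + 2 / 3 * (K * L) + ε / 3 * L := by rw [hT]; ring
    rw [this, hK'L]; ring
  have : 0 ≤ ε * L := by positivity
  rw [e3]
  linarith

end Crest.Agent.R017.Bs521
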