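import Crest.Agent.R017.BsF_521

/-!
# Row 17, C.REMg, the Bessel side, part G (helper521): the terminal bound from the premises (class N)

* `bess_core` : **the terminal bound from the premises** (Gauss side, character side, lower bound)
-/

set_option autoImplicit false

noncomputable section

open Complex
open scoped ComplexConjugate

namespace Crest.Agent.R017.Bs521

open Crest.Agent.R012 Crest.Agent.R012.Eis Crest.Agent.R012.LS2 Crest.Agent.R012.Gauss880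
open Crest.Agent.R012.MC (Wgt)
open Crest.Agent.R012.Weight600 (osc pw)
open Crest.Agent.R017.CM106 Crest.Agent.R017.HP842 Crest.Agent.R017.FE47
open Crest.Agent.R017.B770
open Crest.Agent.R017.Prov71
open Crest.Agent.R017.Rough381 (VF)
open Crest.Agent.R017.Leg381
open Crest.Agent.R017.E1551 (cP SqP)
open Crest.Agent.R017.RG64
open Crest.Agent.R017.LBo813 (rho rho_one)
open Crest.Agent.R017.XRG106 (RFp)
open Crest.Agent.R017.XP699 (LL Chd hcost cst)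

/-- the constants -/
lemma bess_const {Cb C₂ C₃ CR Cs q U Bd F : ℝ} (hCb : 0 ≤ Cb) (hC₂ : 0 ≤ C₂) (hC₃ : 0 ≤ C₃)
    (hCR : 0 ≤ CR) (hCs : 0 ≤ Cs) (hq : 1 ≤ q) (hU : 1 ≤ U) (hBd : 0 ≤ Bd) (hF : 0 ≤ F) :
    Cb * q * ((C₂ * q ^ 5 * (1 + (C₃ * q ^ 3 * Bd * U + Bd * U * q) +
      (CR + Cs) * q ^ 25 * U ^ 2 * Bd)) * U + Cs * q ^ 2 * U ^ 2 * Bd) * F ≤
    Cb * (C₂ * (2 + C₃ + CR + Cs) + Cs) * q ^ 100 * U ^ 3 * (1 + Bd) * F := by
  have hq0 : 0 ≤ q := by linarith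
  have hU0 : 0 ≤ U := by linarith
  have hqp : ∀ a b : ℕ, a ≤ b → q ^ a ≤ q ^ b := fun a b h => pow_le_pow_right₀ hq h
  have hUp : ∀ a b : ℕ, a ≤ b → U ^ a ≤ U ^ b := fun a b h => pow_le_pow_right₀ hU h
  have h1B : 1 ≤ 1 + Bd := by linarith
  have hB1 : Bd ≤ 1 + Bd := by linarith
  have k0 : (1 : ℝ) ≤ q ^ 25 * U ^ 2 * (1 + Bd) :=
    one_le_mul_of_one_le_of_one_le (one_le_mul_of_one_le_of_one_le (one_le_pow₀ hq)
      (one_le_pow₀ hU)) h1B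
  have k1 : q ^ 3 * Bd * U ≤ q ^ 25 * U ^ 2 * (1 + Bd) := by
    have h1 := hqp 3 25 (by norm_num)
    have h2 := hUp 1 2 (by norm_num)
    rw [pow_one] at h2
    calc q ^ 3 * Bd * U = q ^ 3 * U * Bd := by ring
      _ ≤ q ^ 25 * U ^ 2 * (1 + Bd) := by gcongr
  have k2 : Bd * U * q ≤ q ^ 25 * U ^ 2 * (1 + Bd) := by
    have h1 := hqp 1 25 (by norm_num)
    rw [pow_one] at h1
    have h2 := hUp 1 2 (by norm_num)
    rw [pow_one] at h2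
    calc Bd * U * q = q * U * Bd := by ring
      _ ≤ q ^ 25 * U ^ 2 * (1 + Bd) := by gcongr
  have k3 : q ^ 25 * U ^ 2 * Bd ≤ q ^ 25 * U ^ 2 * (1 + Bd) := by gcongr
  have k4 : 1 + (C₃ * q ^ 3 * Bd * U + Bd * U * q) + (CR + Cs) * q ^ 25 * U ^ 2 * Bd ≤
      (2 + C₃ + CR + Cs) * (q ^ 25 * U ^ 2 * (1 + Bd)) := by
    have e1 : C₃ * q ^ 3 * Bd * U ≤ C₃ * (q ^ 25 * U ^ 2 * (1 + Bd)) := by
      calc C₃ * q ^ 3 * Bd * U = C₃ * (q ^ 3 * Bd * U) := by ring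
        _ ≤ _ := mul_le_mul_of_nonneg_left k1 hC₃
    have e2 : (CR + Cs) * q ^ 25 * U ^ 2 * Bd ≤ (CR + Cs) * (q ^ 25 * U ^ 2 * (1 + Bd)) := by
      calc (CR + Cs) * q ^ 25 * U ^ 2 * Bd = (CR + Cs) * (q ^ 25 * U ^ 2 * Bd) := by ring
        _ ≤ _ := mul_le_mul_of_nonneg_left k3 (by linarith)
    linarith
  have k5 : q ^ 2 * U ^ 2 * Bd ≤ q ^ 30 * U ^ 3 * (1 + Bd) := by
    have h1 := hqp 2 30 (by norm_num)
    have h2 := hUp 2 3 (by norm_num)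
    gcongr
  have k6 : (C₂ * q ^ 5 * (1 + (C₃ * q ^ 3 * Bd * U + Bd * U * q) +
      (CR + Cs) * q ^ 25 * U ^ 2 * Bd)) * U + Cs * q ^ 2 * U ^ 2 * Bd ≤
      (C₂ * (2 + C₃ + CR + Cs) + Cs) * (q ^ 30 * U ^ 3 * (1 + Bd)) := by
    have e1 : (C₂ * q ^ 5 * (1 + (C₃ * q ^ 3 * Bd * U + Bd * U * q) +
      (CR + Cs) * q ^ 25 * U ^ 2 * Bd)) * U ≤
      (C₂ * q ^ 5 * ((2 + C₃ + CR + Cs) * (q ^ 25 * U ^ 2 * (1 + Bd)))) * U := by gcongr
    have e2 : Cs * q ^ 2 * U ^ 2 * Bd ≤ Cs * (q ^ 30 * U ^ 3 * (1 + Bd)) := by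
      calc Cs * q ^ 2 * U ^ 2 * Bd = Cs * (q ^ 2 * U ^ 2 * Bd) := by ring
        _ ≤ _ := mul_le_mul_of_nonneg_left k5 hCs
    have e3 : (C₂ * q ^ 5 * ((2 + C₃ + CR + Cs) * (q ^ 25 * U ^ 2 * (1 + Bd)))) * U =
      C₂ * (2 + C₃ + CR + Cs) * (q ^ 30 * U ^ 3 * (1 + Bd)) := by ring
    linarith
  calc _ ≤ Cb * q * ((C₂ * (2 + C₃ + CR + Cs) + Cs) * (q ^ 30 * U ^ 3 * (1 + Bd))) * F := by
        gcongr
    _ = Cb * (C₂ * (2 + C₃ + CR + Cs) + Cs) * q ^ 31 * U ^ 3 * (1 + Bd) * F := by ring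
    _ ≤ _ := by
        have := hqp 31 100 (by norm_num)
        have : 0 ≤ C₂ * (2 + C₃ + CR + Cs) + Cs := by positivity
        gcongr

/-- (J) near the parent is (T) -/
lemma exJ_near {κ v n c k m a x : ℝ} (hk : k ≤ v + (n - m) + a) (hm : n - c - x ≤ m)
    (ha : 0 ≤ a) (hx : 0 ≤ x) : exJ κ v n c k m ≤ ex0 κ k m + (x + a / 3) := by
  unfold exJ ex0
  have h1 : (n - m) - ((n - m) - (k - v)) / 3 - c ≤ x + a / 3 := by linarith
  have h2 : max 0 ((n - m) - ((n - m) - (k - v)) / 3 - c) ≤ x + a / 3 :=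
    max_le (by positivity) h1
  linarith

/-- the main exponent -/
lemma main_exp (k κ n : ℝ) :
    (Real.exp k * Real.exp κ / Real.exp n ^ 2) ^ (1 / 3 : ℝ) * Real.exp (2 * n) =
      Real.exp (ex0 κ k n) := by
  rw [hpw_two, ← Real.exp_add, ← Real.exp_sub, ← Real.exp_mul, ← Real.exp_add]
  unfold ex0
  congr 1
  ring

set_option maxHeartbeats 3200000 in
/-- **the terminal bound from the premises** -/
theorem bess_core {h : ℝ → ℝ} {c₂ : ℝ} (hpu : PU h c₂) {w : ℝ → ℝ} (hw : Wgt w)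
    (hw0 : ∀ x, 0 ≤ w x) (hcw : 0 < cP w) {Rh RR : ℝ → LBp → (Eis → ℂ) → ℝ → Prop}
    (hLB : ∀ Λ : ℝ, 1 ≤ Λ → LBN w Λ (Rh Λ)) {H : ℝ} (hH : 0 ≤ H)
    (hRR : ∀ (Λ : ℝ) (p : LBp) (α : Eis → ℂ) (R₁ R₂ Rn : ℝ), 1 ≤ Λ → 0 ≤ p.K → 0 ≤ p.X →
      1 ≤ p.E0 → RR Λ p α R₁ → SqS w H p α R₂ → R₁ ≤ Rn → R₂ ≤ Rn → Rh Λ p α Rn)
    {K c : ℝ} (hc : 0 < c) (hcK : 60 * c ≤ K) (hHc : H * c ≤ K) (N : ℕ) {c₀ ε M J₀ : ℝ}
    (hc₀ : K + 1 ≤ c₀) (hε : 0 < ε) (hε1 : ε ≤ 1) (hεc : ε ≤ c) (hM : 0 ≤ M) (hJ₀ : 0 ≤ J₀) :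
    ∃ (Jn Aw : ℕ) (Cw R : ℝ), J₀ ≤ Jn ∧ Jn + 2 ≤ Aw ∧ 0 ≤ Cw ∧ 0 ≤ R ∧ ∀ CR Λ : ℝ, 0 ≤ CR → 1 ≤ Λ →
    ∃ C r J X₁ : ℝ, 0 ≤ C ∧ 0 ≤ r ∧ 0 ≤ J ∧
    ∀ X : ℝ, 3 ≤ X → X₁ ≤ X → ∀ P : DPar, P.OK → ∀ (k : ℝ) (ps₀ : List Pq), ps₀.length ≤ N →
    (∀ q ∈ ps₀, 0 ≤ q.z) → (∀ q ∈ ps₀, Dq.len q ≤ c₀ * Real.log X) → 0 ≤ k →
    3 * k + 300 * c * Real.log X ≤ (2 * K + ε / 100) * Real.log X →
    6 * LL Dq ps₀ ≤ (5 * K + ε / 100) * Real.log X → ∀ Bd : ℝ, 0 ≤ Bd →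
    (∀ (l : ℝ) (ps' : List Pq), 0 ≤ l →
      l ≤ k + (LL Dq ps₀ - LL Dq ps') + ε * Real.log X →
      List.Forall₂ (Chd Dq hcost r (C * X ^ c₀)) ps' ps₀ →
      S0p P h l ps' ≤ Bd * cst hcost ps' ps₀ ^ M *
        Real.exp (exJ (K * Real.log X) k (LL Dq ps₀) (c * Real.log X) l (LL Dq ps') +
          c / 2 * Real.log X)) →
    (∀ (l : ℝ) (ps' : List Pq), 0 ≤ l → l ≤ (K + ε) * Real.log X →
      List.Forall₂ (Chd Dq hcost r (C * X ^ c₀)) ps' ps₀ →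
      RFp P h l ps' ≤ Bd * cst hcost ps' ps₀ ^ M *
        Real.exp (LL Dq ps' + l / 3 + 2 / 3 * (K * Real.log X))) →
    RR Λ ⟨Cw, 1 / 2, Aw, X ^ K, Real.exp (LL Dq ps₀), X ^ (8 * (K + 1)), R, Jn, N0f k, N1f k,
        X ^ c, X ^ c, X ^ c⟩
      (sqc 1 (alF (X ^ (0 : ℝ)) (X ^ (0 : ℝ)) P h (natl ps₀)))
      (CR * X ^ (ε / 4) * (Ht (natl ps₀) * Ht (natl ps₀)) ^ J₀ * Bd *
        Real.exp (2 * LL Dq ps₀)) →
    S0p P h k ps₀ ≤ C * X ^ ε * (ps₀.map Dq.s1).prod ^ J * (1 + Bd) *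
      Real.exp (ex0 (K * Real.log X) k (LL Dq ps₀)) := by
  have hK : 0 < K := by linarith
  obtain ⟨R, Ca, hR, hCa, hAL⟩ := exists_ALp hpu N
  have hN0 : (0 : ℝ) ≤ N := Nat.cast_nonneg N
  obtain ⟨b, hb⟩ : ∃ b : ℝ, b = 8 * (K + 1) := ⟨_, rfl⟩
  have hb8 : 8 ≤ b := by rw [hb]; linarith
  have hb0 : 0 < b := by linarith
  obtain ⟨ε₂, hε₂d⟩ : ∃ x : ℝ, x = ε / (100 * b) := ⟨_, rfl⟩
  have hε₂ : 0 < ε₂ := by rw [hε₂d]; positivity
  have hε₂b : ε₂ * b = ε / 100 := by rw [hε₂d]; field_simp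
  obtain ⟨J₁, δ₁, hJ₁, -, hsq⟩ := sqS_of hpu hw N (c₀ := c₀) (ε := ε / 100) (M := M)
    (by linarith) (by positivity) hM
  obtain ⟨Jn, hJnd⟩ : ∃ j : ℕ, (N : ℝ) * M + J₀ + J₁ ≤ j := exists_nat_ge _
  have hNM : 0 ≤ (N : ℝ) * M := by positivity
  obtain ⟨Cw, Cb₀, hCw, hCb₀, hbess⟩ := bess_absorb hw0 hcw Jn (Jn + 2) R ε₂ le_rfl hR hε₂
  obtain ⟨Cb, hCbd⟩ : ∃ x : ℝ, x = 4 * Cb₀ := ⟨_, rfl⟩
  have hCb : 1 ≤ Cb := by linarith
  obtain ⟨Cs, rs, Xs, hCs, hrs, hsq⟩ := hsq Jn (Jn + 2) Cw R (1 / 2) (by linarith) le_rfl hCw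
    one_half_pos (by norm_num)
  obtain ⟨C₃, r₃, hC₃, hr₃, hop⟩ := open_num hpu N hε₂ hM
  refine ⟨Jn, Jn + 2, Cw, R, by linarith, le_rfl, hCw, hR, ?_⟩
  intro CR Λ hCR hΛ
  obtain ⟨C₂, r₂, X₂, hC₂, hr₂, hlb⟩ :=
    lb_list hpu N hΛ (hLB Λ hΛ) (Aw := Jn + 2) hR hAL hCw one_half_pos (by norm_num) hε₂
      (e₀ := c / b) (by positivity) hM (by linarith) le_rfl
  obtain ⟨lA, hlA⟩ : ∃ x : ℝ, x = 4 + Real.log Λ := ⟨_, rfl⟩
  have hlA4 : 4 ≤ lA := by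
    have := Real.log_nonneg hΛ
    linarith
  obtain ⟨T₀, hT₀⟩ : ∃ T : ℝ, T = lA + (N + 1) * (r₂ + r₃ + rs) + R := ⟨_, rfl⟩
  have hT₀0 : 0 ≤ (N + 1) * (r₂ + r₃ + rs) := by positivity
  refine ⟨max (max Cs (Real.exp (r₂ + N * r₃))) (Cb * (C₂ * (2 + C₃ + CR + Cs) + Cs)),
    rs + r₂ + r₃, 3 * (M + J₀),
    max (max X₂ Xs) (max Ca (Real.exp (T₀ * (100 / ε)))),
    le_max_of_le_left (le_max_of_le_left hCs), by positivity, by positivity, ?_⟩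
  intro X hX hXX P hP k ps₀ hlen hz hz₀ hk0 hk3 hn6 Bd hBd hTB hRF hRRp
  obtain ⟨Cm, hCm⟩ : ∃ x : ℝ, x = max (max Cs (Real.exp (r₂ + N * r₃)))
    (Cb * (C₂ * (2 + C₃ + CR + Cs) + Cs)) := ⟨_, rfl⟩
  rw [← hCm] at hTB hRF ⊢
  have hCm1 : Cs ≤ Cm := by rw [hCm]; exact (le_max_left _ _).trans (le_max_left _ _)
  have hCm2 : Real.exp (r₂ + N * r₃) ≤ Cm := by
    rw [hCm]; exact (le_max_right _ _).trans (le_max_left _ _)
  have hCm3 : Cb * (C₂ * (2 + C₃ + CR + Cs) + Cs) ≤ Cm := by rw [hCm]; exact le_max_right _ _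
  have hX1 : (1 : ℝ) ≤ X := by linarith
  have hX0 : 0 < X := by linarith
  obtain ⟨L, hL⟩ : ∃ L : ℝ, L = Real.log X := ⟨_, rfl⟩
  have hL1 : 1 ≤ L := by
    rw [hL, ← Real.log_exp 1]
    refine Real.log_le_log (Real.exp_pos 1) ?_
    linarith [Real.exp_one_lt_d9]
  have hL0 : 0 < L := by linarith
  obtain ⟨w', hw'⟩ : ∃ x : ℝ, x = ε / 100 * L := ⟨_, rfl⟩
  have hTL : T₀ ≤ w' := by
    have h1 : Real.exp (T₀ * (100 / ε)) ≤ X :=
      (le_max_right _ _).trans ((le_max_right _ _).trans hXX)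
    rw [← Real.le_log_iff_exp_le hX0, ← hL] at h1
    have h2 : T₀ * (100 / ε) * (ε / 100) ≤ L * (ε / 100) :=
      mul_le_mul_of_nonneg_right h1 (by positivity)
    have h3 : T₀ * (100 / ε) * (ε / 100) = T₀ := by field_simp
    rw [hw']; linarith
  have hw0' : 0 ≤ w' := by rw [hw']; positivity
  have hwL : 100 * w' ≤ L := by
    rw [hw']
    have : ε * L ≤ 1 * L := mul_le_mul_of_nonneg_right hε1 hL0.le
    linarith
  obtain ⟨X', hX'⟩ : ∃ x : ℝ, x = X ^ b := ⟨_, rfl⟩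
  have hXX' : X ≤ X' := by
    rw [hX']
    calc X = X ^ (1 : ℝ) := (Real.rpow_one X).symm
      _ ≤ X ^ b := Real.rpow_le_rpow_of_exponent_le hX1 (by linarith)
  have hX'3 : 3 ≤ X' := hX.trans hXX'
  have hX'0 : 0 < X' := by linarith
  have hX'1 : 1 ≤ X' := by linarith
  have hlX' : Real.log X' = b * L := by rw [hX', Real.log_rpow hX0, hL]
  have hpowX : ∀ x : ℝ, X ^ x = Real.exp (x * L) := fun x => by
    rw [Real.rpow_def_of_pos hX0, hL, mul_comm]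
  have hpowX' : ∀ x : ℝ, X' ^ x = Real.exp (x * (b * L)) := fun x => by
    rw [Real.rpow_def_of_pos hX'0, hlX', mul_comm]
  -- atoms
  obtain ⟨n, hn⟩ : ∃ n : ℝ, n = LL Dq ps₀ := ⟨_, rfl⟩
  obtain ⟨cc, hcc⟩ : ∃ x : ℝ, x = c * L := ⟨_, rfl⟩
  obtain ⟨κ, hκ⟩ : ∃ x : ℝ, x = K * L := ⟨_, rfl⟩
  obtain ⟨q, hq⟩ : ∃ x : ℝ, x = Real.exp w' := ⟨_, rfl⟩
  obtain ⟨Hh, hHh⟩ : ∃ x : ℝ, x = Ht (natl ps₀) := ⟨_, rfl⟩
  have hcc0 : 0 < cc := by rw [hcc]; positivity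
  have hbl : b * L = 8 * κ + 8 * L := by rw [hb, hκ]; ring
  have hκ60 : 60 * cc ≤ κ := by
    rw [hcc, hκ, ← mul_assoc]; exact mul_le_mul_of_nonneg_right hcK hL0.le
  have hwc : 100 * w' ≤ cc := by
    rw [hw', hcc]
    have := mul_le_mul_of_nonneg_right hεc hL0.le
    linarith
  have hw4 : 4 ≤ w' := by linarith
  have hk3' : 3 * k + 300 * cc ≤ 2 * κ + w' := by
    rw [← hL] at hk3
    rw [hcc, hκ, hw']; linarith
  have hn6' : 6 * n ≤ 5 * κ + w' := by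
    rw [← hL, ← hn] at hn6
    rw [hκ, hw']; linarith
  have hn0 : 0 ≤ n := by
    rw [hn]
    unfold LL
    refine List.sum_nonneg fun x hx => ?_
    obtain ⟨q, hq, rfl⟩ := List.mem_map.1 hx
    exact hz q hq
  have hN1 : (N + 1) * (r₂ + r₃ + rs) = N * r₂ + N * r₃ + N * rs + r₂ + r₃ + rs := by ring
  have hNr₂ : 0 ≤ N * r₂ := by positivity
  have hNr₃ : 0 ≤ N * r₃ := by positivity
  have hNrs : 0 ≤ N * rs := by positivity
  rw [hN1] at hT₀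
  have hq1 : 1 ≤ q := by rw [hq]; exact Real.one_le_exp hw0'
  have hqk : ∀ m : ℕ, q ^ m = Real.exp (m * w') := fun m => by rw [hq, Real.exp_nat_mul]
  have hX'e : X' ^ ε₂ = q := by
    rw [hpowX', ← mul_assoc, hε₂b, hq, hw']
  have hX'5 : X' ^ (5 * ε₂) = q ^ 5 := by
    rw [hpowX', hqk]
    congr 1
    push_cast
    rw [hw', ← hε₂b]; ring
  have hXe : X ^ ε = q ^ 100 := by
    rw [hpowX, hqk, hw']; congr 1; push_cast; ring
  have hXe4 : X ^ (ε / 4) = q ^ 25 := by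
    rw [hpowX, hqk, hw']; congr 1; push_cast; ring
  have hXe2 : X ^ (2 * (ε / 100)) = q ^ 2 := by
    rw [hpowX, hqk, hw']; congr 1; push_cast; ring
  have hH1 : 1 ≤ Hh := by rw [hHh]; exact one_le_Ht _
  have hH0 : 0 ≤ Hh := by linarith
  obtain ⟨U, hU⟩ : ∃ x : ℝ, x = Hh ^ (M + J₀) := ⟨_, rfl⟩
  have hU1 : 1 ≤ U := by rw [hU]; exact Real.one_le_rpow hH1 (by linarith)
  have hU0 : 0 ≤ U := by linarith
  have hHM1 : 1 ≤ Hh ^ M := Real.one_le_rpow hH1 hM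
  have hHMU : Hh ^ M ≤ U := by
    rw [hU]; exact Real.rpow_le_rpow_of_exponent_le hH1 (by linarith)
  have hHJU : Hh ^ J₀ ≤ U := by
    rw [hU]; exact Real.rpow_le_rpow_of_exponent_le hH1 (by linarith)
  have hHMM : (Hh * Hh) ^ M ≤ U ^ 2 := by
    rw [Real.mul_rpow hH0 hH0, sq]
    exact mul_le_mul hHMU hHMU (by positivity) hU0
  have hHJJ : (Hh * Hh) ^ J₀ ≤ U ^ 2 := by
    rw [Real.mul_rpow hH0 hH0, sq]
    exact mul_le_mul hHJU hHJU (by positivity) hU0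
  have hU3 : U ^ 3 = Hh ^ (3 * (M + J₀)) := by
    rw [hU, ← Real.rpow_natCast, ← Real.rpow_mul hH0]
    congr 1
    push_cast; ring
  -- the data
  obtain ⟨D, hD⟩ : ∃ D : Dat, D = ⟨P, h, X ^ (0 : ℝ), X ^ (0 : ℝ), ps₀, M, κ, k, n⟩ := ⟨_, rfl⟩
  have hDP : D.P = P := by rw [hD]
  have hDh : D.h = h := by rw [hD]
  have hDps : D.ps₀ = ps₀ := by rw [hD]
  have hDJ : D.J = M := by rw [hD]
  have hDκ : D.κ = κ := by rw [hD]
  have hDv : D.v = k := by rw [hD]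
  have hDn : D.n = n := by rw [hD]
  have hDD0 : D.D0 = 1 := by rw [hD]; exact Real.rpow_zero X
  have hDα : sqc 1 (alF D.z D.D0 D.P D.h (natl ps₀)) =
      sqc 1 (alF (X ^ (0 : ℝ)) (X ^ (0 : ℝ)) P h (natl ps₀)) := by rw [hD]
  have hexpn : Real.exp n * Real.exp (r₂ + N * r₃) ≤ Cm * X ^ c₀ := by
    have h1 : Real.exp n ≤ X ^ c₀ := by
      rw [hpowX]
      refine Real.exp_le_exp.2 ?_
      have h2 : (K + 1) * L ≤ c₀ * L := mul_le_mul_of_nonneg_right hc₀ hL0.le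
      have h3 : (K + 1) * L = κ + L := by rw [hκ]; ring
      linarith
    calc Real.exp n * Real.exp (r₂ + N * r₃) ≤ X ^ c₀ * Cm := by gcongr
      _ = _ := by ring
  -- the claims
  have hLpos : ∀ x : ℝ, x ≤ 4 * w' → x ≤ ε * L := fun x hx => by
    have : ε * L = 100 * w' := by rw [hw']; ring
    linarith
  have cJ : ClN D (exJ D.κ D.v D.n cc) (Bd * Real.exp (cc / 2) * Ht (natl D.ps₀) ^ M) (r₂ + r₃)
      (lA + r₂ + r₃) (Real.exp n * Real.exp (r₂ + N * r₃)) 0 (n + w') := by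
    refine clN_prem (r := rs + r₂ + r₃) (b := Cm * X ^ c₀) (by linarith) hexpn hM
      (by rw [hDJ]) (by positivity) ?_
    intro l ps' hl hla hlo hσ hch
    rw [hDps] at hch ⊢
    rw [hDv, hDn] at hla
    have h1 := hTB l ps' hl (by rw [← hL, ← hn]; linarith [hLpos (lA + r₂ + r₃) (by linarith)]) hch
    rw [hDP, hDh, hDκ, hDv, hDn]
    rw [← hL, ← hn, ← hκ, ← hcc, Real.exp_add] at h1
    have e1 : c / 2 * L = cc / 2 := by rw [hcc]; ring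
    rw [e1] at h1
    refine h1.trans (le_of_eq ?_)
    ring
  have c0 : ClN D (ex0 D.κ) (Bd * Real.exp (cc / 2 + 2 * w') * Ht (natl D.ps₀) ^ M) (r₂ + r₃)
      (lA + r₂ + r₃) (Real.exp n * Real.exp (r₂ + N * r₃)) (n - cc - w') (n + w') := by
    refine clN_prem (r := rs + r₂ + r₃) (b := Cm * X ^ c₀) (by linarith) hexpn hM
      (by rw [hDJ]) (by positivity) ?_
    intro l ps' hl hla hlo hσ hch
    rw [hDps] at hch ⊢
    rw [hDv, hDn] at hla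
    have h1 := hTB l ps' hl (by rw [← hL, ← hn]; linarith [hLpos (lA + r₂ + r₃) (by linarith)]) hch
    rw [hDP, hDh, hDκ]
    rw [← hL, ← hn, ← hκ, ← hcc] at h1
    have e1 : c / 2 * L = cc / 2 := by rw [hcc]; ring
    rw [e1] at h1
    refine h1.trans ?_
    have h2 := exJ_near (κ := κ) (a := lA + r₂ + r₃) (x := w') hla hlo (by positivity) hw0'
    have hcst : 0 ≤ cst hcost ps' ps₀ ^ M := Real.rpow_nonneg
      (zero_le_one.trans (XP699.one_le_cst XP699.one_le_hcost _ _)) _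
    have h3 : Real.exp (exJ κ k n cc l (LL Dq ps') + cc / 2) ≤
        Real.exp (cc / 2 + 2 * w') * Real.exp (ex0 κ l (LL Dq ps')) := by
      rw [← Real.exp_add]
      refine Real.exp_le_exp.2 ?_
      linarith
    calc Bd * cst hcost ps' ps₀ ^ M * Real.exp (exJ κ k n cc l (LL Dq ps') + cc / 2) ≤
        Bd * cst hcost ps' ps₀ ^ M *
          (Real.exp (cc / 2 + 2 * w') * Real.exp (ex0 κ l (LL Dq ps'))) :=
          mul_le_mul_of_nonneg_left h3 (by positivity)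
      _ = _ := by ring
  rw [hDps, ← hHh] at cJ c0
  -- the numbers
  obtain ⟨Bf, hBf⟩ : ∃ x : ℝ, x = C₃ * X' ^ ε₂ * (Bd * Real.exp (cc / 2 + 2 * w') * Hh ^ M) :=
    ⟨_, rfl⟩
  obtain ⟨Bl, hBl⟩ : ∃ x : ℝ, x = Bd * Real.exp (cc / 2) * Hh ^ M := ⟨_, rfl⟩
  obtain ⟨Rn, hRn⟩ : ∃ x : ℝ, x = (CR + Cs) * q ^ 25 * U ^ 2 * Bd := ⟨_, rfl⟩
  have hBf0 : 0 ≤ Bf := by rw [hBf]; positivity
  have hBl0 : 0 ≤ Bl := by rw [hBl]; positivity
  have hRn0 : 0 ≤ Rn := by rw [hRn]; positivity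
  have cF : ClX (ex0 D.κ) D (Ge (n - cc - r₂)) Bf (0 + r₂) (lA + r₂)
      (Real.exp n * Real.exp r₂) (n + r₂) := by
    rw [hBf]
    refine hop X' hX'3 D (by rw [hDP]; exact hP) hDh (by rw [hDD0])
      hDJ (by rw [hDps]; exact hlen) (Bd * Real.exp (cc / 2 + 2 * w') * Hh ^ M) (0 + r₂)
      (lA + r₂) (Real.exp n * Real.exp r₂) (Real.exp (N * r₃))
      (n - cc - r₂) (n - cc - w') (n + r₂) (n + w')
      (by positivity) le_rfl ?_ (by linarith) ?_ ?_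
    · intro ps h1 h2 h3
      rw [hlX', hbl]
      refine ⟨by linarith, ?_⟩
      rw [hDv, hDn]
      linarith
    · rw [hDD0, Real.log_one]
      linarith
    · refine fun q ps k b1 b2 b3 b4 b5 b6 b7 b8 => c0 q ps k b1 ?_ b3 ?_ b5 b6 b7 ?_
      · rw [mul_assoc, ← Real.exp_add] at b2
        exact b2
      · exact b4.mono (by linarith)
      · linarith
  have hSQ := hsq X hX ((le_max_right _ _).trans ((le_max_left _ _).trans hXX)) P hP ps₀ hlen hz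
    hz₀ K c (X ^ (8 * (K + 1))) H Bd (N0f k) (N1f k) (X ^ c) (X ^ c) hK.le hc.le hH hHc hBd
    (fun l ps' h1 h2 h3 _ => hRF l ps' h1 (h2.trans (mul_le_mul_of_nonneg_right (by linarith)
      (by rw [← hL]; exact hL0.le))) (RlB791.chdL_mono (by linarith)
        (mul_le_mul_of_nonneg_right hCm1 (by positivity)) h3))
  have hSQn := hSQ.sqn (by
    have : Real.log (X ^ c) = c * L := by rw [Real.log_rpow hX0, hL]
    show 0 ≤ H * Real.log (X ^ c)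
    rw [this]; positivity)
  have eK : X ^ K = Real.exp κ := by rw [hpowX, hκ]
  have ec : X ^ c = Real.exp cc := by rw [hpowX, hcc]
  have eb : X ^ (8 * (K + 1)) = X' := by rw [hX', hb]
  have hRhq : Rh Λ ⟨Cw, 1 / 2, Jn + 2, Real.exp D.κ, Real.exp (LF (natl ps₀)), X', R, Jn, N0f k, N1f k,
      Real.exp cc, Real.exp cc, Real.exp cc⟩ (sqc 1 (alF D.z D.D0 D.P D.h (natl ps₀)))
      (Rn * Ht (natl ps₀) ^ M * Real.exp (2 * LF (natl ps₀))) := by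
    rw [hDα, hDκ, ← eK, ← ec, ← eb, RXg848.LF_natl, ← hHh]
    refine hRR Λ _ _ _ _ _ hΛ (by positivity) (Real.exp_pos _).le
      (Real.one_le_rpow hX1 hc.le) hRRp hSQ ?_ ?_
    · rw [hRn, ← hHh, hXe4]
      calc CR * q ^ 25 * (Hh * Hh) ^ J₀ * Bd * Real.exp (2 * LL Dq ps₀) ≤
          (CR + Cs) * q ^ 25 * U ^ 2 * Bd * Real.exp (2 * LL Dq ps₀) := by
            have : CR ≤ CR + Cs := by linarith
            gcongr
        _ = (CR + Cs) * q ^ 25 * U ^ 2 * Bd * 1 * Real.exp (2 * LL Dq ps₀) := by ring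
        _ ≤ _ := by gcongr
    · rw [hRn, ← hHh, hXe2]
      calc Cs * q ^ 2 * (Hh * Hh) ^ M * Bd * Real.exp (2 * LL Dq ps₀) ≤
          (CR + Cs) * q ^ 25 * U ^ 2 * Bd * Real.exp (2 * LL Dq ps₀) := by
            have h1 : Cs ≤ CR + Cs := by linarith
            have h2 : q ^ 2 ≤ q ^ 25 := pow_le_pow_right₀ hq1 (by norm_num)
            gcongr
        _ = (CR + Cs) * q ^ 25 * U ^ 2 * Bd * 1 * Real.exp (2 * LL Dq ps₀) := by ring
        _ ≤ _ := by gcongr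
  have hlb1 := hlb X' hX'3 (((le_max_left _ _).trans (le_max_left _ _)).trans
      (hXX.trans hXX')) D (by rw [hDP]; exact hP) hDh (by rw [hDD0])
      hDJ (by rw [hDps]; exact hlen) (by rw [hDκ]; linarith)
      (by rw [hDκ, hlX', hbl]; linarith) Bf Bl 0 lA
      (Real.exp n) (Real.exp r₂) cc cc cc cc r₂ (n - cc - r₂) 0
      (n + r₂) hBf0 hBl0 le_rfl (by linarith) le_rfl hr₂ hcc0.le
      (by
        rw [hlX', hcc]
        have : c / b * (b * L) = c * L := by field_simp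
        rw [this])
      (by rw [hDκ]; exact hκ60) hcc0.le (by rw [hlX', hbl]; linarith) cF
      (fun q ps k b1 b2 b3 b4 b5 b6 b7 b8 => by
        rw [hBl]
        refine cJ q ps k b1 (b2.trans ?_) b3 (b4.mono (by linarith)) b5 ?_ b7 (by linarith)
        · refine mul_le_mul_of_nonneg_left (Real.exp_le_exp.2 (by linarith)) (Real.exp_pos _).le
        · rw [hDn] at b6; linarith)
      1 (natl ps₀) isPrim_one (by
        rw [nm_one, RXg848.LF_natl, ← hn]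
        push_cast; linarith) (by rw [hDps]; exact RG64.SbL_natl hz)
      (by rw [RXg848.LF_natl, ← hn, hlX', hbl]; linarith)
      (by rw [RXg848.LF_natl, ← hn, hDn]; linarith) (by rw [RXg848.LF_natl, ← hn])
      (by
        rw [hDD0, Real.log_one, RXg848.LF_natl, ← hn]
        linarith)
      (by rw [RXg848.LF_natl, ← hn, hDn])
      (N0f k) (N1f k) k (one_le_N0f k) (N0f_le_N1f k) (exp_le_N0f k) (N1f_le hk0)
      (by rw [hlX', hbl]; linarith)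
      (by rw [hlX', hbl]; linarith)
      (by rw [hDv, hDn, RXg848.LF_natl, ← hn]; linarith)
      (by rw [hDκ]; linarith)
      Rn hRn0 hRhq
  obtain ⟨a1, a2, -, -⟩ := hAL (X ^ (0 : ℝ)) (X ^ (0 : ℝ)) P hP 1 (natl ps₀)
    (by unfold natl; rw [List.length_map]; exact hlen) X'
    (((le_max_left _ _).trans ((le_max_right _ _).trans hXX)).trans hXX') (by
      rw [← Real.exp_add, ← Real.le_log_iff_exp_le hX'0, RXg848.LF_natl, ← hn, hlX', hbl]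
      linarith)
  rw [hDα, hDκ, RXg848.LF_natl, ← hn, hDD0, Real.log_one, ← hHh] at hlb1
  rw [RXg848.LF_natl, ← hn] at a2
  have hSQn' : SQn w Cw (1 / 2) (Jn + 2) (Real.exp κ) (Real.exp n) R Jn
      (sqc 1 (alF (X ^ (0 : ℝ)) (X ^ (0 : ℝ)) P h (natl ps₀)))
      (Cs * X ^ (2 * (ε / 100)) * (Ht (natl ps₀) * Ht (natl ps₀)) ^ M * Bd *
        Real.exp (2 * LL Dq ps₀)) := by
    have : SQn w Cw (1 / 2) (Jn + 2) (X ^ K) (Real.exp (LL Dq ps₀)) R Jn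
      (sqc 1 (alF (X ^ (0 : ℝ)) (X ^ (0 : ℝ)) P h (natl ps₀)))
      (Cs * X ^ (2 * (ε / 100)) * (Ht (natl ps₀) * Ht (natl ps₀)) ^ M * Bd *
        Real.exp (2 * LL Dq ps₀)) := hSQn
    rw [eK] at this
    rw [hn]
    exact this
  rw [hXe2, ← hHh, ← hn] at hSQn'
  have key := hbess (Real.exp κ) (Real.exp n) X' (1 / 2) (Real.exp cc) (N0f k) (N1f k)
    (rho (N0f k) (N1f k)) (Real.exp_pos _) (Real.exp_pos _) hX'1 one_half_pos (by norm_num)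
    (Real.one_le_exp hcc0.le) (N0f_le_N1f k) (fun m => rho_nonneg _ _ m)
    (fun m hm => rho_one (one_le_N0f k) (N0f_le_N1f k) hm) _ a1 a2 _ _ (by positivity)
    (by positivity) hlb1 hSQn' (Real.exp k) (Real.one_le_exp hk0) (exp_le_N0f k)
  -- the conclusion
  have e1 : S0p P h k ps₀ = VF (Real.exp k)
      (sqc 1 (alF (X ^ (0 : ℝ)) (X ^ (0 : ℝ)) P h (natl ps₀))) :=
    (RXg848.SFK_natl_one Kg P h (X ^ (0 : ℝ)) (X ^ (0 : ℝ)) k ps₀).symm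
  rw [e1]
  refine key.trans ?_
  rw [← RXg848.Ht_natl, ← hHh, ← hL, ← hκ, ← hn, ← main_exp k κ n, hX'e, hX'5, ← hU3, hXe]
  obtain ⟨G, hG⟩ : ∃ x : ℝ, x = (Real.exp k * Real.exp κ / Real.exp n ^ 2) ^ (1 / 3 : ℝ) :=
    ⟨_, rfl⟩
  have hG0 : 0 ≤ G := by rw [hG]; positivity
  rw [← hG]
  have t1 : Real.exp (-(cc / 2)) * (Bf + Bl * Real.exp (N * 0 + lA)) ≤
      C₃ * q ^ 3 * Bd * U + Bd * U * q := by
    have e2 : Real.exp (-(cc / 2)) * Bf = C₃ * q ^ 3 * Bd * Hh ^ M := by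
      rw [hBf, hX'e, Real.exp_add, Real.exp_neg]
      have h3 : Real.exp (2 * w') = q ^ 2 := by rw [hqk]; norm_num
      have h4 := (Real.exp_pos (cc / 2)).ne'
      rw [h3]
      field_simp
    have e3 : Real.exp (-(cc / 2)) * (Bl * Real.exp (N * 0 + lA)) =
        Bd * Hh ^ M * Real.exp lA := by
      rw [hBl, Real.exp_neg]
      have h4 := (Real.exp_pos (cc / 2)).ne'
      rw [mul_zero, zero_add]
      field_simp
    have e4 : Real.exp lA ≤ q := by rw [hq]; exact Real.exp_le_exp.2 (by linarith)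
    rw [mul_add, e2, e3]
    have h5 : C₃ * q ^ 3 * Bd * Hh ^ M ≤ C₃ * q ^ 3 * Bd * U := by
      have : 0 ≤ C₃ := by linarith
      gcongr
    have h6 : Bd * Hh ^ M * Real.exp lA ≤ Bd * U * q := by gcongr
    linarith
  have t2 : (C₂ * q ^ 5 * (1 + Real.exp (-(cc / 2)) * (Bf + Bl * Real.exp (N * 0 + lA)) + Rn)) *
      Hh ^ M ≤ (C₂ * q ^ 5 * (1 + (C₃ * q ^ 3 * Bd * U + Bd * U * q) +
        (CR + Cs) * q ^ 25 * U ^ 2 * Bd)) * U := by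
    rw [hRn]
    have h7 : 0 ≤ C₃ := by linarith
    gcongr
  have t3 : Cs * q ^ 2 * (Hh * Hh) ^ M * Bd ≤ Cs * q ^ 2 * U ^ 2 * Bd := by gcongr
  have hfin := bess_const (Cb := Cb) (C₂ := C₂) (C₃ := C₃) (CR := CR) (Cs := Cs) (q := q) (U := U)
    (Bd := Bd) (F := G * Real.exp (2 * n)) (by linarith) hC₂ (by linarith) hCR hCs hq1 hU1 hBd
    (by positivity)
  calc Cb₀ * (1 / 2 : ℝ)⁻¹ ^ 2 * q * G * ((C₂ * q ^ 5 * (1 + Real.exp (-(cc / 2)) * (Bf +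
        Bl * Real.exp (N * 0 + lA)) + Rn)) * Hh ^ M * Real.exp (2 * n) +
        Cs * q ^ 2 * (Hh * Hh) ^ M * Bd * Real.exp (2 * n)) =
      Cb * q * ((C₂ * q ^ 5 * (1 + Real.exp (-(cc / 2)) * (Bf +
        Bl * Real.exp (N * 0 + lA)) + Rn)) * Hh ^ M +
        Cs * q ^ 2 * (Hh * Hh) ^ M * Bd) * (G * Real.exp (2 * n)) := by
        rw [hCbd]; ring
    _ ≤ Cb * q * ((C₂ * q ^ 5 * (1 + (C₃ * q ^ 3 * Bd * U + Bd * U * q) +
        (CR + Cs) * q ^ 25 * U ^ 2 * Bd)) * U + Cs * q ^ 2 * U ^ 2 * Bd) *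
        (G * Real.exp (2 * n)) := by
        have : 0 ≤ Cb := by linarith
        gcongr
    _ ≤ Cb * (C₂ * (2 + C₃ + CR + Cs) + Cs) * q ^ 100 * U ^ 3 * (1 + Bd) *
        (G * Real.exp (2 * n)) := hfin
    _ ≤ _ := by gcongr

end Crest.Agent.R017.Bs521
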