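import Crest.Agent.R017.RuleF_848

/-!
# Row 17: transfer of analytic rules with two-level functionals (helper545)

`ruleBGg`, `HRcG` : the rule `ruleBGd` of helper848; the premises are functionals with two levels,
the second level is a function of the auxiliary parameter.
* `BG2` : robust exponent with two levels
-/

set_option autoImplicit false

noncomputable section

open Set Filter Topology

namespace Crest.Agent.R017.RuleM545

open Crest.Agent.R017.XG702 (Pcs BG Loc)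
open Crest.Agent.R017.Prov71
open Crest.Agent.R017.XP699
open Crest.Agent.R017.ER911 (Ok Sh)

variable {Lam Pc : Type*} {D : Pcs Pc Kd} {cost : Pc → Pc → ℝ} {Θ : Type*}

/-- robust exponent, two levels, given `ε` and `δ` -/
def Loc2 (D : Pcs Pc Kd) (Ψ : Lam → ℝ → ℝ → List Pc → ℝ) (κ b : ℝ) (u : List ℝ) (w : Kd → ℝ)
    (δ e : ℝ) : Prop :=
  ∀ (lam : Lam) (N : ℕ) (B : ℝ), ∃ δ' : ℝ, 0 < δ' ∧ ∃ X₀ : ℝ, 1 < X₀ ∧ ∀ X : ℝ, X₀ ≤ X →
    ∀ (k β : ℝ) (us gs : List Pc), |k - κ| ≤ δ → |β - b| ≤ δ → D.Near X δ us u →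
    D.Gran X δ N gs w → D.Good X δ' B (us ++ gs) →
    Ψ lam (k * Real.log X) (β * Real.log X) (us ++ gs) ≤ X ^ e

/-- **robust exponent, two levels** -/
def BG2 (D : Pcs Pc Kd) (Ψ : Lam → ℝ → ℝ → List Pc → ℝ) (κ b : ℝ) (u : List ℝ) (w : Kd → ℝ)
    (e : ℝ) : Prop :=
  ∀ ε : ℝ, 0 < ε → ∃ δ : ℝ, 0 < δ ∧ Loc2 D Ψ κ b u w δ (e + ε)

theorem Loc2.mono {Ψ : Lam → ℝ → ℝ → List Pc → ℝ} {κ b : ℝ} {u : List ℝ} {w : Kd → ℝ}
    {δ δ₁ e : ℝ} (h : Loc2 D Ψ κ b u w δ e) (hd : δ₁ ≤ δ) : Loc2 D Ψ κ b u w δ₁ e := by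
  intro lam N B
  obtain ⟨δ', hδ', X₀, hX₀, K⟩ := h lam N B
  exact ⟨δ', hδ', X₀, hX₀, fun X hX k β us gs h1 h2 h3 h4 h5 => K X hX k β us gs (h1.trans hd)
    (h2.trans hd) (XG702.Near_mono h3 hd) (XG702.Gran_mono h4 hd le_rfl) h5⟩

theorem BG2.mono {Ψ : Lam → ℝ → ℝ → List Pc → ℝ} {κ b : ℝ} {u : List ℝ} {w : Kd → ℝ}
    {e e' : ℝ} (h : BG2 D Ψ κ b u w e) (he : e ≤ e') : BG2 D Ψ κ b u w e' := by
  intro ε hε
  obtain ⟨δ, hδ, K⟩ := h ε hε
  refine ⟨δ, hδ, fun lam N B => ?_⟩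
  obtain ⟨δ', hδ', X₀, hX₀, K1⟩ := K lam N B
  exact ⟨δ', hδ', X₀, hX₀, fun X hX k β us gs h1 h2 h3 h4 h5 =>
    (K1 X hX k β us gs h1 h2 h3 h4 h5).trans
      (Real.rpow_le_rpow_of_exponent_le (by linarith) (by linarith))⟩

/-- a one-level functional -/
theorem BG2.of_BG {Ψ : Lam → ℝ → List Pc → ℝ} {κ b : ℝ} {u : List ℝ} {w : Kd → ℝ} {e : ℝ}
    (h : BG D Ψ κ u w e) : BG2 D (fun lam l _ ps => Ψ lam l ps) κ b u w e := by
  intro ε hε
  obtain ⟨δ, hδ, K⟩ := h ε hε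
  refine ⟨δ, hδ, fun lam N B => ?_⟩
  obtain ⟨δ', hδ', X₀, hX₀, K1⟩ := K lam N B
  exact ⟨δ', hδ', X₀, hX₀, fun X hX k _ us gs h1 _ h3 h4 h5 => K1 X hX k us gs h1 h3 h4 h5⟩

/-- **compactness with parameters** -/
theorem unifG {β : Type*} [PseudoMetricSpace β] {Ψ : Lam → ℝ → ℝ → List Pc → ℝ} {n : ℕ} {S : Set β}
    (hS : IsCompact S) {P : β → ℝ × (Fin n → ℝ) × (Kd → ℝ)} (hP : Continuous P)
    {T bb : β → ℝ} (hT : Continuous T) (hbb : Continuous bb)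
    (h : ∀ p ∈ S, BG2 D Ψ (P p).1 (bb p) (List.ofFn (P p).2.1) (P p).2.2 (T p)) {ε : ℝ} (hε : 0 < ε) :
    ∃ δ : ℝ, 0 < δ ∧ ∀ (lam : Lam) (N : ℕ) (B : ℝ), ∃ δ' : ℝ, 0 < δ' ∧ ∃ X₀ : ℝ, 1 < X₀ ∧
      ∀ X : ℝ, X₀ ≤ X → ∀ (k bq : ℝ) (us gs : List Pc), ∀ p ∈ S, |k - (P p).1| ≤ δ →
        |bq - bb p| ≤ δ →
        D.Near X δ us (List.ofFn (P p).2.1) → D.Gran X δ N gs (P p).2.2 →
        D.Good X δ' B (us ++ gs) → Ψ lam (k * Real.log X) (bq * Real.log X) (us ++ gs) ≤ X ^ (T p + ε) := by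
  classical
  have loc : ∀ q ∈ S, ∃ r ρ : ℝ, 0 < r ∧ 0 < ρ ∧ Loc2 D Ψ (P q).1 (bb q) (List.ofFn (P q).2.1) (P q).2.2
      (2 * ρ) (T q + ε / 2) ∧ ∀ p ∈ S, dist p q < r → T q ≤ T p + ε / 2 ∧
        dist (P p) (P q) ≤ ρ ∧ |bb p - bb q| ≤ ρ := by
    intro q hq
    obtain ⟨δ, hδ, hL⟩ := h q hq (ε / 2) (by linarith)
    obtain ⟨r, hr, hr'⟩ := Metric.continuous_iff.1 hT q (ε / 2) (by linarith)
    obtain ⟨r2, hr2, hr2'⟩ := Metric.continuous_iff.1 hP q (δ / 2) (by linarith)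
    obtain ⟨r3, hr3, hr3'⟩ := Metric.continuous_iff.1 hbb q (δ / 2) (by linarith)
    refine ⟨min r (min r2 r3), δ / 2, lt_min hr (lt_min hr2 hr3), by linarith,
      hL.mono (by linarith), fun p hp hd => ⟨?_, ?_, ?_⟩⟩
    · have := hr' p (lt_of_lt_of_le hd (min_le_left _ _))
      rw [Real.dist_eq] at this
      linarith [(abs_lt.1 this).1]
    · exact (hr2' p (lt_of_lt_of_le hd ((min_le_right _ _).trans (min_le_left _ _)))).le
    · have := hr3' p (lt_of_lt_of_le hd ((min_le_right _ _).trans (min_le_right _ _)))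
      rw [Real.dist_eq] at this
      exact this.le
  choose! r ρ hr hρ hL hTr using loc
  obtain ⟨F, hFS, hF⟩ := hS.elim_nhds_subcover (fun q => Metric.ball q (r q))
    (fun q hq => Metric.ball_mem_nhds q (hr q hq))
  by_cases hne : F.Nonempty
  · set δ := F.inf' hne ρ with hd
    have hδ : 0 < δ := by
      rw [hd, Finset.lt_inf'_iff]; intro q hq; exact hρ q (hFS q hq)
    refine ⟨δ, hδ, fun lam N B => ?_⟩
    have hL' : ∀ q ∈ S, ∃ δ' : ℝ, 0 < δ' ∧ ∃ X₀ : ℝ, 1 < X₀ ∧ ∀ X : ℝ, X₀ ≤ X → ∀ (k bq : ℝ)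
        (us gs : List Pc), |k - (P q).1| ≤ 2 * ρ q → |bq - bb q| ≤ 2 * ρ q → D.Near X (2 * ρ q) us (List.ofFn (P q).2.1) →
        D.Gran X (2 * ρ q) N gs (P q).2.2 → D.Good X δ' B (us ++ gs) →
        Ψ lam (k * Real.log X) (bq * Real.log X) (us ++ gs) ≤ X ^ (T q + ε / 2) := fun q hq => hL q hq lam N B
    choose! η hη X₀ hX₀ K using hL'
    refine ⟨F.inf' hne η, ?_, F.sup' hne X₀, ?_, ?_⟩
    · rw [Finset.lt_inf'_iff]; intro q hq; exact hη q (hFS q hq)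
    · obtain ⟨q0, hq0⟩ := hne
      exact lt_of_lt_of_le (hX₀ q0 (hFS q0 hq0)) (Finset.le_sup' X₀ hq0)
    · intro X hX k bq us gs p hp hk hbq hnear hgran hgood
      have hpF := hF hp
      rw [Set.mem_iUnion₂] at hpF
      obtain ⟨q, hq, hb⟩ := hpF
      have hb' : dist p q < r q := hb
      have hXq : X₀ q ≤ X := (Finset.le_sup' X₀ hq).trans hX
      have hX1 : 1 < X := lt_of_lt_of_le (hX₀ q (hFS q hq)) hXq
      have hδq : δ ≤ ρ q := Finset.inf'_le _ hq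
      obtain ⟨t1, t2, t3⟩ := hTr q (hFS q hq) p hp hb'
      have d1 : |(P p).1 - (P q).1| ≤ ρ q := by
        have : dist (P p).1 (P q).1 ≤ dist (P p) (P q) := by
          rw [Prod.dist_eq]; exact le_max_left _ _
        rw [Real.dist_eq] at this; linarith
      have d2 : ∀ i, |(P p).2.1 i - (P q).2.1 i| ≤ ρ q := by
        intro i
        have e1 : dist (P p).2.1 (P q).2.1 ≤ dist (P p) (P q) := by
          rw [Prod.dist_eq, Prod.dist_eq]
          exact (le_max_left _ _).trans (le_max_right _ _)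
        have e2 := dist_le_pi_dist (P p).2.1 (P q).2.1 i
        rw [Real.dist_eq] at e2; linarith
      have d3 : ∀ t, |(P p).2.2 t - (P q).2.2 t| ≤ ρ q := by
        intro t
        have e1 : dist (P p).2.2 (P q).2.2 ≤ dist (P p) (P q) := by
          rw [Prod.dist_eq, Prod.dist_eq]
          exact (le_max_right _ _).trans (le_max_right _ _)
        have e2 := dist_le_pi_dist (P p).2.2 (P q).2.2 t
        rw [Real.dist_eq] at e2; linarith
      have key := K q (hFS q hq) X hXq k bq us gs ?_ ?_ ?_ ?_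
        (XG702.Good_mono hX1.le hgood (Finset.inf'_le _ hq))
      · refine key.trans (Real.rpow_le_rpow_of_exponent_le hX1.le ?_)
        linarith
      · calc |k - (P q).1| ≤ |k - (P p).1| + |(P p).1 - (P q).1| := abs_sub_le _ _ _
          _ ≤ 2 * ρ q := by linarith
      · calc |bq - bb q| ≤ |bq - bb p| + |bb p - bb q| := abs_sub_le _ _ _
          _ ≤ 2 * ρ q := by linarith
      · exact XG702.Near_mono (XG702.Near_ofFn hnear d2) (by linarith)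
      · refine ⟨hgran.1, fun g hg => (hgran.2.1 g hg).trans (by linarith [hρ q (hFS q hq)]), ?_⟩
        intro t
        calc |D.mass X gs t - (P q).2.2 t| ≤
              |D.mass X gs t - (P p).2.2 t| + |(P p).2.2 t - (P q).2.2 t| :=
              abs_sub_le _ _ _
          _ ≤ 2 * ρ q := by linarith [hgran.2.2 t, d3 t]
  · rw [Finset.not_nonempty_iff_eq_empty] at hne
    refine ⟨1, one_pos, fun lam N B => ⟨1, one_pos, 2, by norm_num, ?_⟩⟩
    intro X hX k bq us gs p hp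
    have := hF hp
    rw [hne] at this
    simp at this

/-- all the children of one premise, for all data near `p` -/
def FamG (D : Pcs Pc Kd) (cost : Pc → Pc → ℝ) {n : ℕ} (Φ : Lam → ℝ → ℝ → List Pc → ℝ)
    (bθ : Θ → ℝ) (G F : (Fin 4 → ℝ) → Θ → ℝ) (z : Prop) (cl : ℝ) (p : Vx n) (E ε σ : ℝ) : Prop :=
  ∀ (lam : Lam) (N : ℕ) (B B₀ : ℝ), 0 ≤ B₀ → ∀ᶠ M in (atTop : Filter ℝ), ∀ C r : ℝ, 0 ≤ C →
    0 ≤ r → ∀ᶠ δ' in 𝓝[>] (0 : ℝ), ∀ᶠ X in (atTop : Filter ℝ), ∀ (k : ℝ) (f : Fin n → Pc)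
    (gs : List Pc), 0 ≤ k → (∀ i, |evv D X k f gs i - p i| ≤ σ) → (∀ i, D.lump (f i)) →
    gs.length ≤ N → (∀ g ∈ gs, D.nl X g ≤ σ) →
    (∀ q ∈ List.ofFn f ++ gs, D.s1 q ≤ X ^ δ' ∧ D.s2 q ≤ X ^ B ∧ 0 ≤ D.len q) →
    ∀ (θ : Θ) (l : ℝ) (ps' : List Pc), 0 ≤ l → l ≤ cl * Real.log X →
    List.Forall₂ (Chd D cost r (C * X ^ B₀)) ps' (List.ofFn f ++ gs) →
    G (xv D X k (List.ofFn f ++ gs) l ps') θ ≤ σ →
    (z → ∀ q ∈ ps', D.lump q → D.len q ≤ l + σ * Real.log X) →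
    Φ lam l (bθ θ * Real.log X) ps' ≤ X ^ (E + ε / 2) * cst cost ps' (List.ofFn f ++ gs) ^ M *
      X ^ F (xv D X k (List.ofFn f ++ gs) l ps') θ

set_option maxHeartbeats 3200000 in
/-- one premise -/
theorem famG [PseudoMetricSpace Θ] [CompactSpace Θ] {n : ℕ}
    {Φ : Lam → ℝ → ℝ → List Pc → ℝ} {bθ : Θ → ℝ} (hb : Continuous bθ) (hb0 : ∀ θ, 0 ≤ bθ θ)
    {G F : (Fin 4 → ℝ) → Θ → ℝ} (hG : Continuous fun x : (Fin 4 → ℝ) × Θ => G x.1 x.2)
    (hF : Continuous fun x : (Fin 4 → ℝ) × Θ => F x.1 x.2) {z : Prop} {cl E ε : ℝ}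
    {p : Vx n} (hcost : ∀ p' p, 1 ≤ cost p' p) (hs1 : ∀ p, 1 ≤ D.s1 p)
    (triv : ∀ (lam : Lam) (N : ℕ), ∃ C T : ℝ, 0 ≤ C ∧ 0 ≤ T ∧ ∀ (l β : ℝ) (ps : List Pc), 0 ≤ l →
      0 ≤ β → ps.length ≤ N → (∀ p ∈ ps, 0 ≤ D.len p) →
      Φ lam l β ps ≤ C * Real.exp (T * (l + β + LL D ps)))
    (hε : 0 < ε) (hp0 : ∀ i, 0 ≤ p i)
    (hBG : ∀ (q : Vx n) (θ : Θ), (∀ i, 0 ≤ q i) → q (Sum.inl ()) ≤ cl →
      fcc n G z (p, (q, θ)) ≤ 0 →
      BG2 D Φ (toX q).1 (bθ θ) (List.ofFn (toX q).2.1) (toX q).2.2 (E + F (xx p q) θ)) :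
    ∀ᶠ σ in 𝓝[>] (0 : ℝ), FamG D cost Φ bθ G F z cl p E ε σ := by
  obtain ⟨cb, hcb0, hcb⟩ : ∃ cb : ℝ, 0 ≤ cb ∧ ∀ θ, bθ θ ≤ cb := by
    obtain ⟨cb, hcb⟩ := (isCompact_univ (X := Θ)).exists_bound_of_continuousOn hb.continuousOn
    refine ⟨|cb|, abs_nonneg _, fun θ => ?_⟩
    have := hcb θ (Set.mem_univ _)
    rw [Real.norm_eq_abs] at this
    exact (le_abs_self _).trans (this.trans (le_abs_self _))
  obtain ⟨n₀, hn₀⟩ : ∃ x, x = smv p := ⟨_, rfl⟩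
  have hn₀0 : 0 ≤ n₀ := by rw [hn₀]; exact Finset.sum_nonneg fun i _ => hp0 _
  obtain ⟨Bx, hBx⟩ : ∃ x : ℝ, x = n₀ + 3 + |cl| := ⟨_, rfl⟩
  have hBx0 : 0 ≤ Bx := by rw [hBx]; positivity
  -- the compact set; the condition `l ≤ cl` is put into the set
  obtain ⟨S, hS⟩ : ∃ S : Set (Vx n × Θ), S = (Set.Icc (0 : Vx n) (fun _ => Bx) ∩
    {q | q (Sum.inl ()) ≤ cl}) ×ˢ (Set.univ : Set Θ) := ⟨_, rfl⟩
  have hSc : IsCompact S := by
    rw [hS]
    exact (isCompact_Icc.inter_right (isClosed_le (by fun_prop) continuous_const)).prod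
      isCompact_univ
  have hSm : ∀ q : Vx n, (∀ i, 0 ≤ q i) → (∀ i, q i ≤ Bx) → q (Sum.inl ()) ≤ cl → ∀ θ : Θ,
      (q, θ) ∈ S := by
    intro q h1 h2 h3 θ
    rw [hS]
    exact ⟨⟨⟨fun i => h1 i, fun i => h2 i⟩, h3⟩, Set.mem_univ _⟩
  have hSm' : ∀ x ∈ S, (∀ i, 0 ≤ x.1 i) ∧ (∀ i, x.1 i ≤ Bx) ∧ x.1 (Sum.inl ()) ≤ cl := by
    intro x hx
    rw [hS] at hx
    exact ⟨fun i => hx.1.1.1 i, fun i => hx.1.1.2 i, hx.1.2⟩
  have hfc := continuous_fcc n hG z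
  have hKc : IsCompact {x | x ∈ S ∧ fcc n G z (p, x) ≤ 0} := hSc.inter_right
    (isClosed_le (hfc.comp (Continuous.prodMk_right p)) continuous_const)
  have hFw : Continuous (fun x : Vx n × (Vx n × Θ) => F (xx x.1 x.2.1) x.2.2) :=
    hF.comp ((continuous_xx.comp (continuous_fst.prodMk (continuous_fst.comp
      continuous_snd))).prodMk (continuous_snd.comp continuous_snd))
  have hTc : Continuous (fun x : Vx n × Θ => E + F (xx p x.1) x.2) :=
    continuous_const.add (hFw.comp (Continuous.prodMk_right p))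
  obtain ⟨δ₁, hδ₁, hun⟩ := unifG (D := D) (Ψ := Φ) (n := n) hKc
    (P := fun x : Vx n × Θ => toX x.1) (continuous_toX.comp continuous_fst)
    (bb := fun x : Vx n × Θ => bθ x.2) hTc (hb.comp continuous_snd)
    (fun x hx => hBG x.1 x.2 (hSm' x hx.1).1 (hSm' x hx.1).2.2 hx.2) (ε := ε / 8) (by linarith)
  -- uniform continuity of the exponent
  have hcomp : IsCompact ((Metric.closedBall p 1) ×ˢ S) := (isCompact_closedBall p 1).prod hSc
  have huc := hcomp.uniformContinuousOn_of_continuous hFw.continuousOn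
  rw [Metric.uniformContinuousOn_iff] at huc
  obtain ⟨η, hη, H2⟩ := huc (ε / 8) (by linarith)
  obtain ⟨cB, hcB⟩ := hcomp.exists_bound_of_continuousOn hFw.continuousOn
  have hcB0 : 0 ≤ |cB| := abs_nonneg _
  -- uniform continuity of the second level
  have hub := (isCompact_univ (X := Θ)).uniformContinuousOn_of_continuous hb.continuousOn
  rw [Metric.uniformContinuousOn_iff] at hub
  obtain ⟨η', hη', H3⟩ := hub δ₁ hδ₁
  obtain ⟨δ₂, hδ₂⟩ : ∃ x : ℝ, x = min δ₁ (min (η / 2) (η' / 2)) := ⟨_, rfl⟩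
  have hδ₂0 : 0 < δ₂ := hδ₂ ▸ lt_min hδ₁ (lt_min (by positivity) (by positivity))
  have hδ₂1 : δ₂ ≤ δ₁ := hδ₂ ▸ min_le_left _ _
  have hδ₂2 : δ₂ ≤ η / 2 := hδ₂ ▸ (min_le_right _ _).trans (min_le_left _ _)
  have hδ₂3 : δ₂ ≤ η' / 2 := hδ₂ ▸ (min_le_right _ _).trans (min_le_right _ _)
  obtain ⟨s, hs, hnear⟩ := near' hSc hfc p hδ₂0
  have hn2 : (0 : ℝ) ≤ n := Nat.cast_nonneg n
  refine ev_small (b := min (min (s / (2 * n + 3)) (δ₁ / 2)) (min (η / 2) (1 / (n + 3))))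
    (lt_min (lt_min (by positivity) (by positivity)) (lt_min (by positivity) (by positivity))) ?_
  intro σ hσ0 hσ
  have hσ1 : (2 * n + 3) * σ ≤ s := by
    have h1 : σ ≤ s / (2 * n + 3) := hσ.trans ((min_le_left _ _).trans (min_le_left _ _))
    rw [le_div_iff₀ (by positivity)] at h1
    linarith
  have hσ3 : σ ≤ δ₁ / 2 := hσ.trans ((min_le_left _ _).trans (min_le_right _ _))
  have hση : σ ≤ η / 2 := hσ.trans ((min_le_right _ _).trans (min_le_left _ _))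
  have hσ4 : (n + 3) * σ ≤ 1 := by
    have h1 : σ ≤ 1 / (n + 3) := hσ.trans ((min_le_right _ _).trans (min_le_right _ _))
    rw [le_div_iff₀ (by positivity)] at h1
    linarith
  have hσ5 : σ ≤ 1 := by nlinarith
  have hσs : σ ≤ s := by nlinarith
  intro lam N B B₀ hB₀
  obtain ⟨ρ', hρ', X₁, hX₁, hun2⟩ := hun lam N (B + B₀ + 1)
  obtain ⟨Ct, T', hCt, hT', htriv⟩ := triv lam (n + N)
  refine ev_large (b := 2 * (T' * ((n + 3) * Bx + cb) + |E| + |cB| + 1) / ρ') ?_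
  intro M hM C r hC hr
  have hM0 : 0 ≤ M := le_trans (by positivity) hM
  refine ev_small (b := ρ' / 2) (by positivity) ?_
  intro δ' hδ'0 hδ'1
  have hr1 : ∀ᶠ X in (atTop : Filter ℝ), (N + 1) * (r / Real.log X) ≤ σ / 2 := by
    have h1 : Tendsto (fun X : ℝ => (N + 1 : ℝ) * (r / Real.log X)) atTop (𝓝 ((N + 1 : ℝ) * 0)) :=
      (Real.tendsto_log_atTop.const_div_atTop r).const_mul _
    rw [mul_zero] at h1
    exact (h1.eventually (gt_mem_nhds (show (0 : ℝ) < σ / 2 by linarith))).mono fun X h => h.le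
  filter_upwards [hr1, eventually_ge_atTop (max (max X₁ Ct) (max 3 C))] with X hrlog hX
  have x1 : X₁ ≤ X := ((le_max_left _ _).trans (le_max_left _ _)).trans hX
  have x3 : Ct ≤ X := ((le_max_right _ _).trans (le_max_left _ _)).trans hX
  have x5 : 3 ≤ X := ((le_max_left _ _).trans (le_max_right _ _)).trans hX
  have x6 : C ≤ X := ((le_max_right _ _).trans (le_max_right _ _)).trans hX
  have hX1 : (1 : ℝ) < X := by linarith
  have hX0 : (0 : ℝ) < X := by linarith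
  have hlog : 0 < Real.log X := Real.log_pos hX1
  intro k f gs hk hq hlump hgN hgσ hgood θ l ps' hl hlcl hps' hGx hz
  have hN2 : (0 : ℝ) ≤ N := Nat.cast_nonneg N
  have hf0 : ∀ i, 0 ≤ D.len (f i) := fun i =>
    (hgood (f i) (List.mem_append_left _ ((List.mem_ofFn' _ _).2 ⟨i, rfl⟩))).2.2
  have hg0 : ∀ g ∈ gs, 0 ≤ D.len g := fun g hg => (hgood g (List.mem_append_right _ hg)).2.2
  -- the lists
  have h1 := List.forall₂_take_append _ _ _ hps'
  have h2 := List.forall₂_drop_append _ _ _ hps'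
  rw [List.length_ofFn] at h1 h2
  have hlen1 : (List.take n ps').length = n := by
    rw [List.Forall₂.length_eq h1, List.length_ofFn]
  obtain ⟨f', hf'⟩ := exists_eq_ofFn (List.take n ps') hlen1
  obtain ⟨gs', hgs'⟩ : ∃ g, g = List.drop n ps' := ⟨_, rfl⟩
  have hsplit : ps' = List.ofFn f' ++ gs' := by rw [← hf', hgs', List.take_append_drop]
  rw [hf', forall₂_ofFn_iff] at h1
  rw [← hgs'] at h2
  clear hf' hgs'
  subst hsplit
  have hr0 : 0 ≤ r / Real.log X := by positivity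
  have hrσ : r / Real.log X ≤ σ / 2 := num2 hN2 hr0 hrlog
  have hq0 := evv_nonneg (D := D) (gs := gs) hlog hk hf0 hg0
  have hg'0 : ∀ g ∈ gs', 0 ≤ D.len g := by
    intro g hg
    obtain ⟨_, _, h3, _⟩ := good_child hcost h2 (le_refl _) g hg
    exact h3.len0
  have hq'0 := evv_nonneg (D := D) (gs := gs') hlog hl (fun i => (h1 i).len0) hg'0
  have hsmq : smv (evv D X k f gs) ≤ n₀ + 1 := by
    have h3 := abs_smv_sub (q := evv D X k f gs) (q' := p) hq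
    rw [← hn₀] at h3
    have := (abs_le.1 h3).2
    linarith
  have hdiff : ∀ i, (evv D X l f' gs') (Sum.inr i) - (evv D X k f gs) (Sum.inr i) ≤ σ := by
    rintro (i | t)
    · show D.nl X (f' i) - D.nl X (f i) ≤ σ
      have h3 : D.nl X (f' i) ≤ D.nl X (f i) + r / Real.log X := by
        unfold Pcs.nl
        rw [← add_div]
        exact div_le_div_of_nonneg_right (h1 i).len hlog.le
      linarith
    · show D.mass X gs' t - D.mass X gs t ≤ σ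
      have h3 := mass_child hlog hr h2 t
      have h4 : (gs.length : ℝ) * (r / Real.log X) ≤ N * (r / Real.log X) := by
        have : (gs.length : ℝ) ≤ N := by exact_mod_cast hgN
        exact mul_le_mul_of_nonneg_right this hr0
      nlinarith
  have hzc : z → ∀ i, (evv D X l f' gs') (Sum.inr (Sum.inl i)) - (evv D X l f' gs') (Sum.inl ()) ≤
      σ := by
    intro hz' i
    show D.nl X (f' i) - l / Real.log X ≤ σ
    have h3 := hz hz' (f' i) (List.mem_append_left _ ((List.mem_ofFn' _ _).2 ⟨i, rfl⟩))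
      ((h1 i).lump (hlump i))
    unfold Pcs.nl
    rw [← sub_div, div_le_iff₀ hlog]
    linarith
  have hlcl' : (evv D X l f' gs') (Sum.inl ()) ≤ cl := by
    show l / Real.log X ≤ cl
    rw [div_le_iff₀ hlog]
    exact hlcl
  have hbd : ∀ i, (evv D X l f' gs') i ≤ Bx := by
    rintro (⟨⟩ | i)
    · exact hlcl'.trans (by rw [hBx]; linarith [le_abs_self cl])
    · have h3 := hdiff i
      have h4 := le_smv hq0 i
      rw [hBx]
      linarith [abs_nonneg cl]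
  have hmem : (evv D X l f' gs', θ) ∈ S := hSm _ hq'0 hbd hlcl' θ
  have hfcc : fcc n G z (evv D X k f gs, (evv D X l f' gs', θ)) ≤ s := by
    refine (fcc_le hσ0.le ?_ hdiff hzc).trans hσ1
    show G (xx (evv D X k f gs) (evv D X l f' gs')) θ ≤ σ
    rw [xx_evv]
    exact hGx
  have hdq : dist (evv D X k f gs) p ≤ σ := by
    rw [dist_pi_le_iff hσ0.le]
    intro i
    rw [Real.dist_eq]
    exact hq i
  obtain ⟨⟨p', θ'⟩, hp'S, hp'K, hpp⟩ := hnear (evv D X k f gs) (hdq.trans hσs) _ hmem hfcc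
  have hpp1 : dist (evv D X l f' gs') p' ≤ δ₂ := by
    refine le_trans ?_ hpp
    rw [Prod.dist_eq]
    exact le_max_left _ _
  have hppi : ∀ i, |evv D X l f' gs' i - p' i| ≤ δ₂ := by
    intro i
    have e2 := dist_le_pi_dist (evv D X l f' gs') p' i
    rw [Real.dist_eq] at e2
    linarith
  obtain ⟨cs, hcs⟩ : ∃ x, x = cst cost (List.ofFn f' ++ gs') (List.ofFn f ++ gs) := ⟨_, rfl⟩
  have hcs1 : 1 ≤ cs := hcs ▸ one_le_cst hcost _ _
  obtain ⟨y, hy⟩ : ∃ x, x = F (xv D X k (List.ofFn f ++ gs) l (List.ofFn f' ++ gs')) θ :=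
    ⟨_, rfl⟩
  have hyx : y = F (xx (evv D X k f gs) (evv D X l f' gs')) θ := by rw [xx_evv, hy]
  have hinq : (evv D X k f gs, (evv D X l f' gs', θ)) ∈ (Metric.closedBall p 1) ×ˢ S :=
    ⟨hdq.trans hσ5, hmem⟩
  rw [← hcs, ← hy]
  rcases le_or_gt cs (X ^ (ρ' / 2)) with hc | hc
  · -- the good case
    have hgood' : D.Good X ρ' (B + B₀ + 1) (List.ofFn f' ++ gs') := by
      intro q hq'
      obtain ⟨q0, hq0, h3, h4⟩ := good_child hcost hps' (le_refl _) q hq'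
      rw [← hcs] at h4
      have g := hgood q0 hq0
      have h5 : 1 ≤ D.s1 q0 := hs1 q0
      have h6 : 1 ≤ cost q q0 := hcost q q0
      refine ⟨?_, ?_, h3.len0⟩
      · calc D.s1 q ≤ D.s1 q0 * cost q q0 := h3.s1
          _ ≤ X ^ δ' * X ^ (ρ' / 2) := mul_le_mul g.1 (h4.trans hc) (by linarith)
              (Real.rpow_nonneg hX0.le _)
          _ = X ^ (δ' + ρ' / 2) := (Real.rpow_add hX0 _ _).symm
          _ ≤ X ^ ρ' := Real.rpow_le_rpow_of_exponent_le hX1.le (by linarith)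
      · have h7 : 0 ≤ X ^ B₀ := Real.rpow_nonneg hX0.le _
        calc D.s2 q ≤ D.s2 q0 * (C * X ^ B₀) := h3.s2
          _ ≤ X ^ B * (C * X ^ B₀) := mul_le_mul_of_nonneg_right g.2.1
              (mul_nonneg hC h7)
          _ ≤ X ^ B * (X * X ^ B₀) := mul_le_mul_of_nonneg_left
              (mul_le_mul_of_nonneg_right x6 h7) (Real.rpow_nonneg hX0.le _)
          _ = X ^ (B + B₀ + 1) := by
              rw [Real.rpow_add hX0, Real.rpow_add hX0, Real.rpow_one]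
              ring
    have hbd2 : |bθ θ - bθ θ'| ≤ δ₁ := by
      have h0 : dist θ θ' ≤ δ₂ := by
        refine le_trans ?_ hpp
        rw [Prod.dist_eq]
        exact le_max_right _ _
      have := H3 θ (Set.mem_univ _) θ' (Set.mem_univ _) (by linarith)
      rw [Real.dist_eq] at this
      exact this.le
    have h3 := hun2 X x1 (l / Real.log X) (bθ θ) (List.ofFn f') gs' (p', θ') ⟨hp'S, hp'K⟩
      ((hppi (Sum.inl ())).trans hδ₂1) hbd2 (by
        unfold Pcs.Near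
        rw [forall₂_ofFn_iff]
        exact fun i => ⟨(h1 i).lump (hlump i), (hppi (Sum.inr (Sum.inl i))).trans hδ₂1⟩) (by
        refine ⟨by rw [List.Forall₂.length_eq h2]; exact hgN, ?_, ?_⟩
        · intro g hg
          obtain ⟨g0, hg0', h4, _⟩ := good_child hcost h2 (le_refl _) g hg
          have h5 : D.nl X g ≤ D.nl X g0 + r / Real.log X := by
            unfold Pcs.nl
            rw [← add_div]
            exact div_le_div_of_nonneg_right h4.len hlog.le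
          linarith [hgσ g0 hg0']
        · exact fun t => (hppi (Sum.inr (Sum.inr t))).trans hδ₂1) hgood'
    rw [div_mul_cancel₀ _ hlog.ne'] at h3
    have hinp : (p, (p', θ')) ∈ (Metric.closedBall p 1) ×ˢ S :=
      ⟨Metric.mem_closedBall_self zero_le_one, hp'S⟩
    have hd : dist (p, (p', θ')) (evv D X k f gs, (evv D X l f' gs', θ)) < η := by
      rw [Prod.dist_eq]
      refine max_lt ?_ ?_
      · rw [dist_comm]; exact lt_of_le_of_lt hdq (by linarith)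
      · rw [dist_comm]; exact lt_of_le_of_lt hpp (by linarith)
    have h6 := H2 _ hinp _ hinq hd
    rw [Real.dist_eq] at h6
    have h7 := (abs_lt.1 h6).2
    simp only at h7
    rw [← hyx] at h7
    have h8 : 1 ≤ cs ^ M := Real.one_le_rpow hcs1 hM0
    calc Φ lam l (bθ θ * Real.log X) (List.ofFn f' ++ gs') ≤ X ^ (E + ε / 2 + y) := by
          refine h3.trans (Real.rpow_le_rpow_of_exponent_le hX1.le ?_)
          simp only
          linarith
      _ = X ^ (E + ε / 2) * 1 * X ^ y := by rw [Real.rpow_add hX0]; ring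
      _ ≤ X ^ (E + ε / 2) * cs ^ M * X ^ y := by gcongr
  · -- the expensive case
    have hl' : l / Real.log X ≤ Bx := hbd (Sum.inl ())
    have hsm' : smv (evv D X l f' gs') ≤ (n + 2) * Bx := by
      unfold smv
      refine (Finset.sum_le_sum fun i _ => hbd (Sum.inr i)).trans ?_
      rw [Finset.sum_const, nsmul_eq_mul, Finset.card_univ, Fintype.card_sum, Fintype.card_fin]
      have : Fintype.card Kd = 2 := rfl
      rw [this]
      push_cast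
      exact le_rfl
    have h3 : Φ lam l (bθ θ * Real.log X) (List.ofFn f' ++ gs') ≤
        X ^ (1 + T' * ((n + 3) * Bx + cb)) := by
      refine (htriv l _ _ hl (mul_nonneg (hb0 θ) hlog.le) ?_ ?_).trans ?_
      · rw [List.Forall₂.length_eq hps', List.length_append, List.length_ofFn]
        omega
      · intro q hq'
        obtain ⟨_, _, h3, _⟩ := good_child hcost hps' (le_refl _) q hq'
        exact h3.len0
      · rw [exp_eq_rpow hX0 hlog, Real.rpow_add hX0, Real.rpow_one]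
        refine mul_le_mul x3 (Real.rpow_le_rpow_of_exponent_le hX1.le ?_)
          (Real.rpow_nonneg hX0.le _) hX0.le
        rw [mul_div_assoc, add_div, add_div, mul_div_cancel_right₀ _ hlog.ne', ← smv_evv]
        refine mul_le_mul_of_nonneg_left ?_ hT'
        have := hcb θ
        linarith
    have h4 : -|cB| ≤ y := by
      have h5 := hcB _ hinq
      simp only at h5
      rw [← hyx, Real.norm_eq_abs] at h5
      linarith [neg_abs_le y, le_abs_self cB]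
    have h5 : X ^ (T' * ((n + 3) * Bx + cb) + |E| + |cB| + 1) ≤ cs ^ M := by
      have e : X ^ (T' * ((n + 3) * Bx + cb) + |E| + |cB| + 1) ≤ (X ^ (ρ' / 2)) ^ M := by
        rw [← Real.rpow_mul hX0.le]
        refine Real.rpow_le_rpow_of_exponent_le hX1.le ?_
        rw [div_le_iff₀ hρ'] at hM
        linarith
      exact e.trans (Real.rpow_le_rpow (Real.rpow_nonneg hX0.le _) hc.le hM0)
    calc Φ lam l (bθ θ * Real.log X) (List.ofFn f' ++ gs') ≤ X ^ (1 + T' * ((n + 3) * Bx + cb)) := h3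
      _ ≤ X ^ ((E + ε / 2) + (T' * ((n + 3) * Bx + cb) + |E| + |cB| + 1) + y) := by
          refine Real.rpow_le_rpow_of_exponent_le hX1.le ?_
          linarith [neg_abs_le E]
      _ = X ^ (E + ε / 2) * X ^ (T' * ((n + 3) * Bx + cb) + |E| + |cB| + 1) * X ^ y := by
          rw [Real.rpow_add hX0, Real.rpow_add hX0]
      _ ≤ _ := by gcongr

/-- the analytic rule with base maps `rb`, parent condition `Hp` and second levels `bθ` -/
def HRcG (D : Pcs Pc Kd) (cost : Pc → Pc → ℝ) {ι : Type*} (Ψ : Lam → ℝ → List Pc → ℝ)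
    (Φ : ι → Lam → ℝ → ℝ → List Pc → ℝ) (bθ : ι → Θ → ℝ)
    (rb : ι → ℝ → List Pc → List Pc) (G F : ι → (Fin 4 → ℝ) → Θ → ℝ) (Hp : ℝ → ℝ → ℝ → List Pc → Prop) (A : (Fin 2 → ℝ) → ℝ)
    (zl : ι → Prop) (cl : ℝ) : Prop :=
  ∀ (lam : Lam) (N : ℕ) (c₀ : ℝ), 1 ≤ c₀ → ∃ B₀ : ℝ, 0 ≤ B₀ ∧ ∀ (ε M : ℝ), 0 < ε →
      0 ≤ M → ∃ C r J X₁ : ℝ, 0 ≤ C ∧ 0 ≤ r ∧ 0 ≤ J ∧
      ∀ X : ℝ, 3 ≤ X → X₁ ≤ X → ∀ (k : ℝ) (ps : List Pc), 0 ≤ k → k ≤ c₀ * Real.log X →
      ps.length ≤ N → (∀ p ∈ ps, 0 ≤ D.len p ∧ D.len p ≤ c₀ * Real.log X) →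
      (∀ p ∈ ps, D.s2 p ≤ X ^ c₀) → Hp ε X k ps →
      ∀ Bd : ℝ, 0 ≤ Bd →
      (∀ (j : ι) (θ : Θ) (l : ℝ) (ps' : List Pc), 0 ≤ l → l ≤ cl * Real.log X →
        List.Forall₂ (Chd D cost r (C * X ^ B₀)) ps' (rb j X ps) →
        G j (xv D X k (rb j X ps) l ps') θ ≤ ε →
        (zl j → ∀ p ∈ ps', D.lump p → D.len p ≤ l + ε * Real.log X) →
        Φ j lam l (bθ j θ * Real.log X) ps' ≤ Bd * cst cost ps' (rb j X ps) ^ M *
          X ^ F j (xv D X k (rb j X ps) l ps') θ) →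
      Ψ lam k ps ≤ C * X ^ ε * (ps.map D.s1).prod ^ J *
        (X ^ A ![k / Real.log X, LL D ps / Real.log X] + Bd)

/-- the base map `rb` sends nonnegative lists near `u` to nonnegative lists near `ub` -/
def BaseG (D : Pcs Pc Kd) {n : ℕ} (rb : ℝ → List Pc → List Pc) (u ub : Fin n → ℝ) : Prop :=
  ∀ σ : ℝ, 0 < σ → ∃ ρ : ℝ, 0 < ρ ∧ ∀ X : ℝ, 3 ≤ X → ∀ (f : Fin n → Pc) (gs : List Pc),
    (∀ i, D.lump (f i) ∧ |D.nl X (f i) - u i| ≤ ρ) → (∀ i, 0 ≤ D.len (f i)) →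
    ∃ f' : Fin n → Pc, rb X (List.ofFn f ++ gs) = List.ofFn f' ++ gs ∧
      ∀ i, D.lump (f' i) ∧ |D.nl X (f' i) - ub i| ≤ σ ∧ 0 ≤ D.len (f' i) ∧
        D.s1 (f' i) = D.s1 (f i) ∧ D.s2 (f' i) = D.s2 (f i)

lemma BaseOK.toG {n : ℕ} {rb : ℝ → List Pc → List Pc} {u ub : Fin n → ℝ}
    (h : BaseOK D rb u ub) : BaseG D rb u ub := by
  intro σ hσ
  obtain ⟨ρ, hρ, H⟩ := h σ hσ
  refine ⟨ρ, hρ, fun X hX f gs hf hf0 => ?_⟩
  obtain ⟨f', e, h'⟩ := H X hX f gs hf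
  exact ⟨f', e, fun i => ⟨(h' i).1, (h' i).2.1, (h' i).2.2.1 (hf0 i), (h' i).2.2.2⟩⟩

/-- the identity is a base map -/
lemma baseG_id {n : ℕ} (u : Fin n → ℝ) : BaseG D (fun _ ps => ps) u u := (baseOK_id u).toG

set_option maxHeartbeats 3200000 in
/-- **the transfer rule with base maps, two-level premises** -/
theorem ruleBGg [PseudoMetricSpace Θ] [CompactSpace Θ] {ι : Type*} [Finite ι]
    {Ψ : Lam → ℝ → List Pc → ℝ} {Φ : ι → Lam → ℝ → ℝ → List Pc → ℝ}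
    {bθ : ι → Θ → ℝ} (hb : ∀ j, Continuous (bθ j)) (hb0 : ∀ j θ, 0 ≤ bθ j θ)
    (hcost : ∀ p' p, 1 ≤ cost p' p) (hs1 : ∀ p, 1 ≤ D.s1 p)
    {G F : ι → (Fin 4 → ℝ) → Θ → ℝ} (hG : ∀ j, Continuous fun x : (Fin 4 → ℝ) × Θ => G j x.1 x.2)
    (hF : ∀ j, Continuous fun x : (Fin 4 → ℝ) × Θ => F j x.1 x.2)
    {A : (Fin 2 → ℝ) → ℝ} (hA : Continuous A)
    {zl : ι → Prop} {cl : ℝ} {rb : ι → ℝ → List Pc → List Pc}
    {Hp : ℝ → ℝ → ℝ → List Pc → Prop}
    (hmono : ∀ lam l l' ps, l ≤ l' → Ψ lam l ps ≤ Ψ lam l' ps)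
    (hrule : HRcG D cost Ψ Φ bθ rb G F Hp A zl cl)
    (triv : ∀ (j : ι) (lam : Lam) (N : ℕ), ∃ C T : ℝ, 0 ≤ C ∧ 0 ≤ T ∧
      ∀ (l β : ℝ) (ps : List Pc), 0 ≤ l → 0 ≤ β → ps.length ≤ N → (∀ p ∈ ps, 0 ≤ D.len p) →
      Φ j lam l β ps ≤ C * Real.exp (T * (l + β + LL D ps)))
    {κ : ℝ} {n : ℕ} {u : Fin n → ℝ} {ub : ι → Fin n → ℝ} {m a E : ℝ} (hκ : 0 ≤ κ)
    (hu0 : ∀ i, 0 ≤ u i) (hub0 : ∀ j i, 0 ≤ ub j i) (hm : 0 ≤ m) (ha : 0 ≤ a)
    (hrb : ∀ j, BaseG D (rb j) u (ub j)) (hHp : ParOK D Hp κ u (wt m a))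
    (hE : A ![κ, (∑ i, u i) + m + a] ≤ E)
    (hch : ∀ (j : ι) (θ : Θ) (u' : Fin n → ℝ) (m' a' l : ℝ), (∀ i, 0 ≤ u' i) →
      (∀ i, u' i ≤ ub j i) → 0 ≤ m' → m' ≤ m → 0 ≤ a' →
      a' ≤ a → 0 ≤ l → l ≤ cl →
      G j ![κ, (∑ i, ub j i) + m + a, l, (∑ i, u' i) + m' + a'] θ ≤ 0 →
      (zl j → ∀ i, u' i ≤ l) →
      BG2 D (Φ j) l (bθ j θ) (List.ofFn u') (wt m' a')
        (E + F j ![κ, (∑ i, ub j i) + m + a, l, (∑ i, u' i) + m' + a'] θ)) :
    BG D Ψ κ (List.ofFn u) (wt m a) E := by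
  intro ε hε
  obtain ⟨n₀, hn₀⟩ : ∃ x : ℝ, x = (∑ i, u i) + m + a := ⟨_, rfl⟩
  rw [← hn₀] at hE
  have husum : 0 ≤ ∑ i, u i := Finset.sum_nonneg fun i _ => hu0 i
  have hn₀0 : 0 ≤ n₀ := by rw [hn₀]; linarith
  obtain ⟨c₀, hc₀⟩ : ∃ x : ℝ, x = κ + n₀ + 3 := ⟨_, rfl⟩
  have hc₀3 : 3 ≤ c₀ := by rw [hc₀]; linarith
  set p : Unit ⊕ Fin n ⊕ Kd → ℝ := vec κ u (wt m a) with hp
  have hsp : smv p = n₀ := by
    rw [hp, smv_vec, hn₀]
    show (∑ i, u i) + (m + a) = _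
    ring
  set pb : ι → Unit ⊕ Fin n ⊕ Kd → ℝ := fun j => vec κ (ub j) (wt m a) with hpb
  have hspb : ∀ j, smv (pb j) = (∑ i, ub j i) + m + a := by
    intro j
    rw [hpb, smv_vec]
    show (∑ i, ub j i) + (m + a) = _
    ring
  have hpb0 : ∀ j i, 0 ≤ pb j i := by
    rintro j (⟨⟩ | i | t)
    · exact hκ
    · exact hub0 j i
    · cases t
      · exact hm
      · exact ha
  -- the premises
  have hfam : ∀ᶠ σ in 𝓝[>] (0 : ℝ), ∀ j,
      FamG D cost (Φ j) (bθ j) (G j) (F j) (zl j) cl (pb j) E ε σ := by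
    rw [eventually_all]
    intro j
    refine famG (hb j) (hb0 j) (hG j) (hF j) hcost hs1 (triv j) hε (hpb0 j) ?_
    intro q θ hq0 hqcl hq2
    obtain ⟨h1, h2, h2'⟩ := fcc_le_zero hq2
    simp only at h1 h2 h2'
    have hwt : (toX q).2.2 = wt (q (Sum.inr (Sum.inr .mo))) (q (Sum.inr (Sum.inr .am))) := by
      funext t; cases t <;> rfl
    have hsum : (∑ i, (toX q).2.1 i) + q (Sum.inr (Sum.inr .mo)) +
        q (Sum.inr (Sum.inr .am)) = smv q := by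
      rw [smv_eq]
      show _ = _ + (q (Sum.inr (Sum.inr .mo)) + q (Sum.inr (Sum.inr .am)))
      ring
    have hxx : xx (pb j) q = ![κ, (∑ i, ub j i) + m + a, q (Sum.inl ()), smv q] := by
      unfold xx
      rw [hspb]
      rfl
    have h3 := hch j θ (toX q).2.1 (q (Sum.inr (Sum.inr .mo)))
      (q (Sum.inr (Sum.inr .am))) (q (Sum.inl ())) (fun i => hq0 _) (fun i => h2 (Sum.inl i))
      (hq0 _) (h2 (Sum.inr .mo)) (hq0 _) (h2 (Sum.inr .am)) (hq0 _) hqcl (by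
        rw [hsum, ← hxx]
        exact h1) (fun hz i => h2' hz i)
    rw [hsum, ← hxx] at h3
    rw [hwt]
    exact h3
  have hn2 : (0 : ℝ) ≤ n := Nat.cast_nonneg n
  obtain ⟨σ, hσ0, hσb, hσ⟩ := exists_of_small (b := 1 / (n + 3)) (by positivity) hfam
  have hσ4 : (n + 3) * σ ≤ 1 := by
    rw [le_div_iff₀ (by positivity)] at hσb
    linarith
  have hσ5 : σ ≤ 1 := by nlinarith
  obtain ⟨εr, hεr⟩ : ∃ x : ℝ, x = min (σ / 2) (ε / 8) := ⟨_, rfl⟩
  have hεr0 : 0 < εr := hεr ▸ lt_min (by positivity) (by positivity)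
  have hεr1 : εr ≤ σ / 2 := hεr ▸ min_le_left _ _
  have hεr2 : εr ≤ ε / 8 := hεr ▸ min_le_right _ _
  -- continuity at the parent
  obtain ⟨ρ₁, hρ₁, hHn⟩ := hHp εr hεr0
  obtain ⟨ρ₂, hρ₂, hAn⟩ := Metric.continuous_iff.1 hA ![κ, n₀] (ε / 8) (by linarith)
  obtain ⟨ρ₃, hρ₃, hbase⟩ : ∃ ρ₃ : ℝ, 0 < ρ₃ ∧ ∀ j, ∀ X : ℝ, 3 ≤ X → ∀ (f : Fin n → Pc)
      (gs : List Pc), (∀ i, D.lump (f i) ∧ |D.nl X (f i) - u i| ≤ ρ₃) →
      (∀ i, 0 ≤ D.len (f i)) → ∃ f' : Fin n → Pc,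
      rb j X (List.ofFn f ++ gs) = List.ofFn f' ++ gs ∧
      ∀ i, D.lump (f' i) ∧ |D.nl X (f' i) - ub j i| ≤ σ ∧ 0 ≤ D.len (f' i) ∧
        D.s1 (f' i) = D.s1 (f i) ∧ D.s2 (f' i) = D.s2 (f i) := by
    choose ρ hρ hb using fun j => hrb j σ hσ0
    cases nonempty_fintype ι
    rcases isEmpty_or_nonempty ι with hι | hι
    · exact ⟨1, one_pos, fun j => (hι.false j).elim⟩
    · refine ⟨Finset.univ.inf' Finset.univ_nonempty ρ, ?_, fun j X hX f gs hf => ?_⟩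
      · rw [Finset.lt_inf'_iff]
        exact fun j _ => hρ j
      · exact hb j X hX f gs fun i => ⟨(hf i).1, (hf i).2.trans
          (Finset.inf'_le _ (Finset.mem_univ j))⟩
  obtain ⟨σp, hσp⟩ : ∃ x : ℝ, x = min (min σ ρ₃) (min ρ₁ ρ₂ / (2 * (n + 2))) := ⟨_, rfl⟩
  have hσp0 : 0 < σp :=
    hσp ▸ lt_min (lt_min hσ0 hρ₃) (div_pos (lt_min hρ₁ hρ₂) (by positivity))
  have hσp1 : σp ≤ σ := hσp ▸ (min_le_left _ _).trans (min_le_left _ _)
  have hσp3 : σp ≤ ρ₃ := hσp ▸ (min_le_left _ _).trans (min_le_right _ _)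
  have hσp2 : (n + 2) * σp ≤ min ρ₁ ρ₂ / 2 := by
    have h1 : σp ≤ min ρ₁ ρ₂ / (2 * (n + 2)) := hσp ▸ min_le_right _ _
    rw [le_div_iff₀ (by positivity)] at h1
    linarith
  refine ⟨σp, hσp0, fun lam N B => ?_⟩
  obtain ⟨c₁, hc₁⟩ : ∃ x : ℝ, x = max c₀ B := ⟨_, rfl⟩
  have hc₁0 : c₀ ≤ c₁ := hc₁ ▸ le_max_left _ _
  have hc₁B : B ≤ c₁ := hc₁ ▸ le_max_right _ _
  obtain ⟨B₀, hB₀, hr1⟩ := hrule lam (n + N) c₁ (by linarith)
  obtain ⟨M, hM0, hM⟩ := exists_of_large 0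
    (eventually_all.2 fun j => hσ j lam N B B₀ hB₀)
  obtain ⟨C, r, J, X₁, hC, hr, hJ, hR⟩ := hr1 εr M hεr0 hM0
  obtain ⟨δ', hδ'0, hδ'b, hδ'⟩ := exists_of_small
    (b := ε / (8 * (J + 1) * (((n + N : ℕ) : ℝ) + 1))) (by positivity)
    (eventually_all.2 fun j => hM j C r hC hr)
  have hδ'2 : ((n + N : ℕ) : ℝ) * δ' * J ≤ ε / 8 := by
    rw [le_div_iff₀ (by positivity)] at hδ'b
    have h0 : (0 : ℝ) ≤ ((n + N : ℕ) : ℝ) := Nat.cast_nonneg _
    have h2 : ((n + N : ℕ) : ℝ) * J ≤ (J + 1) * (((n + N : ℕ) : ℝ) + 1) := by nlinarith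
    have h3 := mul_le_mul_of_nonneg_left h2 hδ'0.le
    nlinarith
  have hC2 : ∀ᶠ X in (atTop : Filter ℝ), 2 * C ≤ X ^ (ε / 8) :=
    (tendsto_rpow_atTop (by linarith)).eventually_ge_atTop _
  obtain ⟨X₀, hX₀⟩ := eventually_atTop.1 ((eventually_all.2 hδ').and
    (hC2.and (eventually_ge_atTop X₁)))
  refine ⟨δ', hδ'0, max X₀ 3, lt_of_lt_of_le (by norm_num) (le_max_right _ _), ?_⟩
  intro X hX k us gs hk hnr hgran hgood
  obtain ⟨hfX, hCX, hX₁⟩ := hX₀ X ((le_max_left _ _).trans hX)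
  have x5 : 3 ≤ X := (le_max_right _ _).trans hX
  have hX1 : (1 : ℝ) < X := by linarith
  have hX0 : (0 : ℝ) < X := by linarith
  have hlog : 0 < Real.log X := Real.log_pos hX1
  -- the parent
  have hlenus : us.length = n := by
    have := List.Forall₂.length_eq hnr
    rw [this, List.length_ofFn]
  obtain ⟨f, rfl⟩ := exists_eq_ofFn us hlenus
  have hnr' := hnr
  unfold Pcs.Near at hnr'
  rw [forall₂_ofFn_iff] at hnr'
  obtain ⟨k₁, hk₁⟩ : ∃ x : ℝ, x = max k 0 * Real.log X := ⟨_, rfl⟩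
  have hk₁0 : 0 ≤ k₁ := by rw [hk₁]; exact mul_nonneg (le_max_right _ _) hlog.le
  have hkk : k * Real.log X ≤ k₁ := by
    rw [hk₁]; exact mul_le_mul_of_nonneg_right (le_max_left _ _) hlog.le
  have hk₁l : k₁ / Real.log X = max k 0 := by rw [hk₁, mul_div_cancel_right₀ _ hlog.ne']
  have hmaxk : |max k 0 - κ| ≤ σp := by
    rw [abs_le] at hk ⊢
    constructor
    · linarith [hk.1, le_max_left k 0]
    · have := max_le (show k ≤ κ + σp by linarith [hk.2]) (show 0 ≤ κ + σp by linarith)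
      linarith
  have hq : ∀ i, |evv D X k₁ f gs i - p i| ≤ σp := by
    rintro (⟨⟩ | i | t)
    · show |k₁ / Real.log X - κ| ≤ σp
      rw [hk₁l]; exact hmaxk
    · exact (hnr' i).2
    · exact hgran.2.2 t
  have hg1 : ∀ q ∈ List.ofFn f ++ gs, 0 ≤ D.len q := fun q hq => (hgood q hq).2.2
  have hf0 : ∀ i, 0 ≤ D.len (f i) := fun i =>
    hg1 (f i) (List.mem_append_left _ ((List.mem_ofFn' _ _).2 ⟨i, rfl⟩))
  have hg0 : ∀ g ∈ gs, 0 ≤ D.len g := fun g hg => hg1 g (List.mem_append_right _ hg)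
  have hsm : |smv (evv D X k₁ f gs) - n₀| ≤ (n + 2) * σp := by
    have h3 := abs_smv_sub (q := evv D X k₁ f gs) (q' := p) hq
    rwa [hsp] at h3
  have hsm1 := (abs_le.1 hsm).2
  have hnσ : (n + 2) * σp ≤ (n + 2) * σ := mul_le_mul_of_nonneg_left hσp1 (by positivity)
  have hLL : LL D (List.ofFn f ++ gs) / Real.log X ≤ n₀ + (n + 2) * σ := by
    rw [← smv_evv]; linarith
  have hLLi : ∀ q ∈ List.ofFn f ++ gs, D.len q ≤ LL D (List.ofFn f ++ gs) := by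
    intro q hq
    unfold LL
    exact List.single_le_sum (fun x hx => by
      obtain ⟨y, hy, rfl⟩ := List.mem_map.1 hx
      exact hg1 y hy) _ (List.mem_map.2 ⟨q, hq, rfl⟩)
  have hLLc : LL D (List.ofFn f ++ gs) ≤ c₀ * Real.log X := by
    rw [div_le_iff₀ hlog] at hLL
    refine hLL.trans (mul_le_mul_of_nonneg_right ?_ hlog.le)
    rw [hc₀]
    linarith
  have hcnt : (List.ofFn f ++ gs).length ≤ n + N := by
    rw [List.length_append, List.length_ofFn]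
    exact Nat.add_le_add_left hgran.1 n
  have hσ2p : σp ≤ (n + 2) * σp := by nlinarith
  -- the parent is near
  obtain ⟨w, hw⟩ : ∃ w : Fin 2 → ℝ, w = ![k₁ / Real.log X,
    LL D (List.ofFn f ++ gs) / Real.log X] := ⟨_, rfl⟩
  have hdw : dist w ![κ, n₀] ≤ min ρ₁ ρ₂ / 2 := by
    refine le_trans ?_ hσp2
    rw [dist_pi_le_iff (by positivity)]
    intro i
    rw [hw, Real.dist_eq]
    fin_cases i
    · show |k₁ / Real.log X - κ| ≤ _
      rw [hk₁l]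
      exact hmaxk.trans hσ2p
    · show |LL D (List.ofFn f ++ gs) / Real.log X - n₀| ≤ _
      rw [← smv_evv]
      exact hsm
  have hmin0 : 0 < min ρ₁ ρ₂ := lt_min hρ₁ hρ₂
  have hσρ1 : σp ≤ ρ₁ := by
    have := min_le_left ρ₁ ρ₂
    linarith
  have hHw : Hp εr X k₁ (List.ofFn f ++ gs) :=
    hHn X x5 k₁ f gs hk₁0 (by rw [hk₁l]; exact hmaxk.trans hσρ1)
      (fun i => ⟨(hnr' i).1, (hnr' i).2.trans hσρ1⟩) (fun t => (hgran.2.2 t).trans hσρ1) hg1
  have hAw : A w ≤ E + ε / 8 := by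
    have h1 := hAn w (lt_of_le_of_lt hdw (by linarith [min_le_right ρ₁ ρ₂]))
    rw [Real.dist_eq] at h1
    linarith [(abs_lt.1 h1).2]
  rw [hw] at hAw
  have hslack : εr * Real.log X ≤ σ * Real.log X :=
    mul_le_mul_of_nonneg_right (by linarith) hlog.le
  have hfinal := hR X x5 hX₁ k₁ (List.ofFn f ++ gs) hk₁0 (by
      rw [hk₁]
      refine mul_le_mul_of_nonneg_right (le_trans ?_ hc₁0) hlog.le
      rw [hc₀]
      linarith [(abs_le.1 hmaxk).2]) hcnt (fun q hq => ⟨hg1 q hq, ((hLLi q hq).trans hLLc).trans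
        (mul_le_mul_of_nonneg_right hc₁0 hlog.le)⟩)
      (fun q hq => (hgood q hq).2.1.trans (Real.rpow_le_rpow_of_exponent_le hX1.le hc₁B))
      hHw (X ^ (E + ε / 2)) (Real.rpow_nonneg hX0.le _)
      (fun j θ l ps' hl hlcl hps' hG hz => by
        obtain ⟨f', hf1, hf2⟩ := hbase j X x5 f gs
          (fun i => ⟨(hnr' i).1, (hnr' i).2.trans hσp3⟩) hf0
        rw [hf1] at hps' hG ⊢
        refine hfX j k₁ f' gs hk₁0 ?_ (fun i => (hf2 i).1) hgran.1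
          (fun g hg => (hgran.2.1 g hg).trans hσp1) ?_ θ l ps' hl
          hlcl hps' (hG.trans (by linarith))
          (fun hzj q hq1 hq2 => (hz hzj q hq1 hq2).trans (by linarith))
        · rintro (⟨⟩ | i | t)
          · show |k₁ / Real.log X - κ| ≤ σ
            rw [hk₁l]; exact hmaxk.trans hσp1
          · exact (hf2 i).2.1
          · exact (hgran.2.2 t).trans hσp1
        · intro q hq
          rcases List.mem_append.1 hq with h | h
          · obtain ⟨i, rfl⟩ := (List.mem_ofFn' _ _).1 h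
            have h3 := hgood (f i) (List.mem_append_left _ ((List.mem_ofFn' _ _).2 ⟨i, rfl⟩))
            rw [(hf2 i).2.2.2.1, (hf2 i).2.2.2.2]
            exact ⟨h3.1, h3.2.1, (hf2 i).2.2.1⟩
          · exact hgood q (List.mem_append_right _ h))
  refine (hmono lam _ _ _ hkk).trans ?_
  have e1 : X ^ A ![k₁ / Real.log X, LL D (List.ofFn f ++ gs) / Real.log X] =
      Real.exp (A ![k₁ / Real.log X, LL D (List.ofFn f ++ gs) / Real.log X] * Real.log X) := by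
    rw [Real.rpow_def_of_pos hX0, mul_comm]
  rw [e1] at hfinal
  refine final_countm (Nr := ((n + N : ℕ) : ℝ)) hX1 hε hC hJ
    (one_le_prod_s1 hs1 _) ?_ hεr2 hδ'2
    (prod_s1_le hs1 hX1.le hδ'0.le _ (fun q hq => (hgood q hq).1) hcnt) hCX hfinal
  rw [mul_div_cancel_right₀ _ hlog.ne']
  exact hAw


end Crest.Agent.R017.RuleM545
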