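import Crest.Agent.R017.RGB2_545
import Crest.Agent.R017.RuleG_545

/-!
# Row 17, T.5: the fields of the RG recursion from the finite theorems (helper545), part 3

* `Line` : one line of the side conditions; `QG L` : the side conditions of a family of lines
* `BessFin`, `bess_of_fin` : the terminal bound
* `RgFin`, `rg_of_fin` : the recursion
-/

set_option autoImplicit false

noncomputable section

open Set Filter Topology

namespace Crest.Agent.R017.RGB545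

open Crest.Agent.R012 Crest.Agent.R012.Eis Crest.Agent.R012.LS2
open Crest.Agent.R017.XG702 (Pcs BG)
open Crest.Agent.R017.B770
open Crest.Agent.R017.Prov71
open Crest.Agent.R017.XP699
open Crest.Agent.R017.ER911 (Ok Sh EF)
open Crest.Agent.R017.RuleM545

variable {Lam ι : Type*} {p : ℕ}

/-! ### the transfer rule, identical base map -/

/-- **the transfer rule at the level of `ex`**, two-level premises, identical base map and the
parent condition `Hmin` -/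
theorem ruleExg {Pc Θ : Type*} {D : Pcs Pc Kd} {cost : Pc → Pc → ℝ}
    [PseudoMetricSpace Θ] [CompactSpace Θ] {ι : Type*} [Finite ι]
    {Ψ : Lam → ℝ → List Pc → ℝ} {Φ : ι → Lam → ℝ → ℝ → List Pc → ℝ}
    {bθ : ι → Θ → ℝ} (hb : ∀ j, Continuous (bθ j)) (hb0 : ∀ j θ, 0 ≤ bθ j θ)
    (hcost : ∀ p' p, 1 ≤ cost p' p) (hs1 : ∀ p, 1 ≤ D.s1 p)
    {G F : ι → (Fin 4 → ℝ) → Θ → ℝ} (hG : ∀ j, Continuous fun x : (Fin 4 → ℝ) × Θ => G j x.1 x.2)
    (hF : ∀ j, Continuous fun x : (Fin 4 → ℝ) × Θ => F j x.1 x.2)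
    {H A : (Fin 2 → ℝ) → ℝ} (hH : Continuous H) (hA : Continuous A)
    {zl : ι → Prop} {cl ε₀ : ℝ} (hε₀ : 0 < ε₀)
    (hmono : ∀ lam l l' ps, l ≤ l' → Ψ lam l ps ≤ Ψ lam l' ps)
    (hrule : HRcG D cost Ψ Φ bθ (fun _ _ ps => ps) G F (Hmin D H ε₀) A zl cl)
    (hpermΨ : Pinv Ψ)
    (triv : ∀ (j : ι) (lam : Lam) (N : ℕ), ∃ C T : ℝ, 0 ≤ C ∧ 0 ≤ T ∧
      ∀ (l β : ℝ) (ps : List Pc), 0 ≤ l → 0 ≤ β → ps.length ≤ N → (∀ p ∈ ps, 0 ≤ D.len p) →
      Φ j lam l β ps ≤ C * Real.exp (T * (l + β + LL D ps)))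
    {κ : ℝ} {Y : Multiset ℝ} {m a E : ℝ} (hκ : 0 ≤ κ) (hY : Ok Y m a) (hE0 : 0 ≤ E)
    (hHκ : H ![κ, Y.sum + m + a] ≤ 0) (hE : A ![κ, Y.sum + m + a] ≤ E)
    (hch : ∀ (j : ι) (θ : Θ) (u' : List ℝ) (m' a' l : ℝ), Sh (u' : Multiset ℝ) Y → 0 ≤ m' →
      m' ≤ m → 0 ≤ a' → a' ≤ a → 0 ≤ l → l ≤ cl →
      G j ![κ, Y.sum + m + a, l, u'.sum + m' + a'] θ ≤ 0 →
      (zl j → ∀ y ∈ u', y ≤ l) →
      BG2 D (Φ j) l (bθ j θ) u' (wt m' a')
        (E + F j ![κ, Y.sum + m + a, l, u'.sum + m' + a'] θ)) :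
    ex D Ψ κ Y m a ≤ E := by
  have hYl : (List.ofFn Y.toList.get : Multiset ℝ) = Y := by
    rw [List.ofFn_get, Multiset.coe_toList]
  have hsum : ∑ i, Y.toList.get i = Y.sum := by rw [sum_get, sum_toList]
  have key := ruleBGg (Θ := Θ) (D := D) (u := Y.toList.get) (ub := fun _ => Y.toList.get)
    (m := m) (a := a) (E := E) (κ := κ) hb hb0 hcost hs1 hG hF hA hmono hrule triv hκ
    (fun i => hY.1 _ (Multiset.mem_toList.1 (List.get_mem _ _)))
    (fun _ i => hY.1 _ (Multiset.mem_toList.1 (List.get_mem _ _))) hY.2.1 hY.2.2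
    (fun _ => baseG_id _) (parOK_Hmin hH hε₀ (by
      rw [hsum]
      have e : (wt m a) Kd.mo + (wt m a) Kd.am = m + a := rfl
      rw [e, ← add_assoc]
      exact hHκ)) (by rw [hsum]; exact hE) ?_
  · have := ex_le hpermΨ hE0 key
    rwa [hYl] at this
  · intro j θ u' m' a' l h0 h1 hm0 hm1 ha0 ha1 hl hlc hGj hz
    have hsum' : (List.ofFn u').sum = ∑ i, u' i := List.sum_ofFn
    rw [hsum] at hGj ⊢
    rw [← hsum'] at hGj ⊢
    have hsh : Sh ((List.ofFn u' : List ℝ) : Multiset ℝ) Y := by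
      have h2 : Shl (List.ofFn u') (List.ofFn Y.toList.get) := by
        unfold Shl
        rw [forall₂_ofFn_iff]
        exact fun i => ⟨h0 i, h1 i⟩
      have h3 := h2.sh
      rwa [hYl] at h3
    refine hch j θ _ m' a' l hsh hm0 hm1 ha0 ha1 hl hlc hGj fun hzj y hy => ?_
    obtain ⟨i, rfl⟩ := (List.mem_ofFn' _ _).1 hy
    exact hz hzj i

/-- **one line of the side conditions** : functional with two levels, `b θ` = the second level,
`zl` = only for lumps at most the level, closed condition `G x θ ≤ 0`, exponent `F x θ`;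
`x = (K, v, n, i, n')` : family, level, length, level and length of the child; `θ` auxiliary
parameters -/
structure Line (Lam : Type*) (p : ℕ) where
  Φ : Lam → ℝ → ℝ → List Pq → ℝ
  b : (Fin p → ℝ) → ℝ
  zl : Prop
  G : (Fin 5 → ℝ) → (Fin p → ℝ) → ℝ
  F : (Fin 5 → ℝ) → (Fin p → ℝ) → ℝ

/-- a functional of the provider: permutations, a bound at the level of `BG`, a bound -/
structure FunOK (Φ : Lam → ℝ → List Pq → ℝ) : Prop where
  perm : Pinv Φ
  triv : Triv Dq Φ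
  trivL : ∀ (lam : Lam) (N : ℕ), ∃ C T : ℝ, 0 ≤ C ∧ 0 ≤ T ∧ ∀ (l : ℝ) (ps : List Pq), 0 ≤ l →
    ps.length ≤ N → (∀ q ∈ ps, 0 ≤ Dq.len q) → Φ lam l ps ≤ C * Real.exp (T * (l + LL Dq ps))

/-- a functional of the provider, one level -/
def one (Φ : Lam → ℝ → List Pq → ℝ) : Lam → ℝ → ℝ → List Pq → ℝ := fun lam l _ ps => Φ lam l ps

/-- trivial bound of a two-level functional -/
def Triv2 (Φ : Lam → ℝ → ℝ → List Pq → ℝ) : Prop :=
  ∀ (lam : Lam) (N : ℕ), ∃ C T : ℝ, 0 ≤ C ∧ 0 ≤ T ∧ ∀ (l β : ℝ) (ps : List Pq), 0 ≤ l → 0 ≤ β →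
    ps.length ≤ N → (∀ q ∈ ps, 0 ≤ Dq.len q) → Φ lam l β ps ≤ C * Real.exp (T * (l + β + LL Dq ps))

theorem FunOK.triv2 {Φ : Lam → ℝ → List Pq → ℝ} (h : FunOK Φ) : Triv2 (one Φ) := by
  intro lam N
  obtain ⟨C, T, hC, hT, H⟩ := h.trivL lam N
  refine ⟨C, T, hC, hT, fun l β ps hl hβ hN hz => (H l ps hl hN hz).trans ?_⟩
  refine mul_le_mul_of_nonneg_left (Real.exp_le_exp.2 (mul_le_mul_of_nonneg_left ?_ hT)) hC
  linarith

/-- from an exponent to a robust exponent -/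
theorem FunOK.bg2 {Φ : Lam → ℝ → List Pq → ℝ} (h : FunOK Φ) {l β m a e : ℝ} {u : List ℝ}
    (hl : 0 ≤ l) (hu : Okl u m a) (he : ex Dq Φ l (u : Multiset ℝ) m a ≤ e) :
    BG2 Dq (one Φ) l β u (wt m a) e :=
  BG2.of_BG (BG_of_ex h.perm h.triv hl hu he)

structure Line.OK (L : Line Lam p) : Prop where
  tr : Triv2 L.Φ
  cb : Continuous L.b
  b0 : ∀ θ : Fin p → ℝ, 0 ≤ θ → 0 ≤ L.b θ
  cG : Continuous fun x : (Fin 5 → ℝ) × (Fin p → ℝ) => L.G x.1 x.2
  cF : Continuous fun x : (Fin 5 → ℝ) × (Fin p → ℝ) => L.F x.1 x.2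

/-- range of the levels and of the parameters -/
def TK (K : ℝ) : ℝ := 10 * (K + 1)

/-- the parameters -/
abbrev Th (p : ℕ) (K : ℝ) : Type := Set.Icc (0 : Fin p → ℝ) (fun _ => TK K)

/-- **the side conditions of a family of lines** at the family `K`, level `v`, side `(Y | m, a)`,
target `E` -/
def QG (L : ι → Line Lam p) (K v : ℝ) (Y : Multiset ℝ) (m a E : ℝ) : Prop :=
  0 ≤ E ∧ ∀ (j : ι) (θ : Th p K) (u' : List ℝ) (m' a' i : ℝ), Sh (u' : Multiset ℝ) Y → 0 ≤ m' →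
    m' ≤ m → 0 ≤ a' → a' ≤ a → 0 ≤ i → i ≤ TK K →
    (L j).G ![K, v, Y.sum + m + a, i, u'.sum + m' + a'] θ.1 ≤ 0 →
    ((L j).zl → ∀ y ∈ u', y ≤ i) →
    BG2 Dq (L j).Φ i ((L j).b θ.1) u' (wt m' a')
      (E + (L j).F ![K, v, Y.sum + m + a, i, u'.sum + m' + a'] θ.1)

lemma cont5 {α : Type*} [TopologicalSpace α] {f0 f1 f2 f3 f4 : α → ℝ} (h0 : Continuous f0)
    (h1 : Continuous f1) (h2 : Continuous f2) (h3 : Continuous f3) (h4 : Continuous f4) :
    Continuous fun x => ![f0 x, f1 x, f2 x, f3 x, f4 x] := by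
  refine continuous_pi fun i => ?_
  fin_cases i
  · exact h0
  · exact h1
  · exact h2
  · exact h3
  · exact h4

lemma cont2 {α : Type*} [TopologicalSpace α] {f0 f1 : α → ℝ} (h0 : Continuous f0)
    (h1 : Continuous f1) : Continuous fun x => ![f0 x, f1 x] := by
  refine continuous_pi fun i => ?_
  fin_cases i
  · exact h0
  · exact h1

theorem ex_mono_l {Ψ : Lam → ℝ → List Pq → ℝ} (hf : FunOK Ψ)
    (hmono : ∀ lam l l' ps, l ≤ l' → Ψ lam l ps ≤ Ψ lam l' ps) {κ κ' : ℝ} (hκ : 0 ≤ κ)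
    (hκκ : κ' ≤ κ) {Y : Multiset ℝ} {m a : ℝ} (hY : Ok Y m a) :
    ex Dq Ψ κ' Y m a ≤ ex Dq Ψ κ Y m a := by
  refine ex_le' (ex_nonneg _ _ _ _) ?_
  have h1 := ex_spec hf.perm hf.triv hκ (okl_of hY)
  rw [Multiset.coe_toList] at h1
  exact BG_mono_l hmono h1 hκκ

/-! ### the terminal bound -/

/-- the premises of the terminal bound -/
inductive BN (ι : Type*)
  | r : BN ι
  | tb : BN ι
  | q (j : ι) : BN ι

instance [Finite ι] : Finite (BN ι) := by
  refine Finite.of_surjective (fun x : Fin 2 ⊕ ι => match x with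
    | .inl 0 => (BN.r : BN ι) | .inl 1 => .tb | .inr j => .q j) ?_
  rintro (_ | _ | j)
  · exact ⟨.inl 0, rfl⟩
  · exact ⟨.inl 1, rfl⟩
  · exact ⟨.inr j, rfl⟩

/-- functionals of the terminal bound -/
def Phb (R S₀ : Lam → ℝ → List Pq → ℝ) (L : ι → Line Lam p) : BN ι → Lam → ℝ → ℝ → List Pq → ℝ
  | .r => one R
  | .tb => one S₀
  | .q j => (L j).Φ

/-- second levels of the terminal bound -/
def bb (L : ι → Line Lam p) (K : ℝ) : BN ι → Th p K → ℝ
  | .q j, θ => (L j).b θ.1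
  | _, _ => 0

/-- conditions of the terminal bound, `x = (v, n, l, n')` : `r` : all children, `l ≤ K`; `tb` : all
children, `l ≤ v + (n - n')` -/
def Gb (L : ι → Line Lam p) (K : ℝ) : BN ι → (Fin 4 → ℝ) → Th p K → ℝ
  | .r, x, _ => x 2 - K
  | .tb, x, _ => x 2 - x 0 - (x 1 - x 3)
  | .q j, x, θ => (L j).G ![K, x 0, x 1, x 2, x 3] θ.1

/-- exponents of the terminal bound, `x = (v, n, l, n')` -/
def Fb (L : ι → Line Lam p) (K c : ℝ) : BN ι → (Fin 4 → ℝ) → Th p K → ℝ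
  | .r, x, _ => -((x 1 - x 3) + (K - x 2) / 3 + (x 0 + x 1 - 2 * K) / 3)
  | .tb, x, _ => -(4 / 3 * (x 1 - x 3)) - (x 0 - x 2) / 3 +
      max 0 (2 / 3 * (x 1 - x 3) + (x 2 - x 0) / 3 - c) + c / 2
  | .q j, x, θ => (L j).F ![K, x 0, x 1, x 2, x 3] θ.1

def zb (L : ι → Line Lam p) : BN ι → Prop
  | .q j => (L j).zl
  | _ => False

/-- the diagonal `4/3 n + (k + K) / 3`, `x = (k, n)` -/
def Ab (K : ℝ) (x : Fin 2 → ℝ) : ℝ := 4 / 3 * x 1 + (x 0 + K) / 3

/-- **the terminal (Bessel) bound, finite text**: parent `v ≤ 2 n`, `3 v + 300 c ≤ 2 K`,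
`6 n ≤ 5 K` -/
def BessFin (R S₀ : Lam → ℝ → List Pq → ℝ) (L : ι → Line Lam p) (ε₀ K c : ℝ) : Prop :=
  HRcG Dq hcost S₀ (Phb R S₀ L) (bb L K) (fun _ _ ps => ps) (Gb L K) (Fb L K c)
    (Hmin Dq (fun x => max (x 0 - 2 * x 1) (max (3 * x 0 + 300 * c - 2 * K) (6 * x 1 - 5 * K))) ε₀)
    (Ab K) (zb L) (TK K)

/-- the entries of a shortened list are nonnegative -/
theorem _root_.Crest.Agent.R017.ER911.Sh.nn {u' : List ℝ} {Y : Multiset ℝ}
    (h : Sh (u' : Multiset ℝ) Y) : ∀ y ∈ u', 0 ≤ y := by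
  intro y hy
  obtain ⟨b, _, hb⟩ := Multiset.exists_mem_of_rel_of_mem h (Multiset.mem_coe.2 hy)
  exact hb.1

theorem sh_eq {Y' Y : Multiset ℝ} (h : Sh Y' Y) (hs : Y.sum ≤ Y'.sum) : Y' = Y := by
  unfold Sh at h
  induction h with
  | zero => rfl
  | @cons a b as bs hab h' ih =>
    rw [Multiset.sum_cons, Multiset.sum_cons] at hs
    have h1 := sh_sum_le h'
    rw [ih (by linarith [hab.2]), show a = b by linarith [hab.2]]

/-- the premise of the character side: all sub-sides, all levels `l ≤ K` -/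
def PR (r : EF) (K v n E : ℝ) (Y : Multiset ℝ) (m a : ℝ) : Prop :=
  ∀ (Y' : Multiset ℝ) (m' a' n' l : ℝ), Sh Y' Y → 0 ≤ m' → m' ≤ m → 0 ≤ a' → a' ≤ a →
    n' = Y'.sum + m' + a' → 0 ≤ l → l ≤ K →
    r l Y' m' a' + (n - n') + (K - l) / 3 + (v + n - 2 * K) / 3 ≤ E

/-- the premise of the Gauss side: all sub-sides, all levels `l ≤ v + (n - n')` -/
def PTB (c : ℝ) (s₀ : EF) (v n E : ℝ) (Y : Multiset ℝ) (m a : ℝ) : Prop :=
  ∀ (Y' : Multiset ℝ) (m' a' n' v' : ℝ), Sh Y' Y → 0 ≤ m' → m' ≤ m → 0 ≤ a' → a' ≤ a →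
    n' = Y'.sum + m' + a' → 0 ≤ v' → v' ≤ v + (n - n') →
    s₀ v' Y' m' a' ≤ E - 4 / 3 * (n - n') - (v - v') / 3 +
      max 0 (2 / 3 * (n - n') + (v' - v) / 3 - c) + c / 2

theorem bess_of_fin [Finite ι] {R S₀ : Lam → ℝ → List Pq → ℝ} {L : ι → Line Lam p}
    (hL : ∀ j, (L j).OK) (hR : FunOK R) (hS : FunOK S₀)
    (hSm : ∀ lam l l' ps, l ≤ l' → S₀ lam l ps ≤ S₀ lam l' ps) {ε₀ K c : ℝ} (hε₀ : 0 < ε₀)
    (hfin : BessFin R S₀ L ε₀ K c) {v : ℝ} {Y : Multiset ℝ} {m a n E : ℝ} (hY : Ok Y m a)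
    (hn : n = Y.sum + m + a) (hv : 0 ≤ v) (hvn : v ≤ 2 * n) (h3 : 3 * v + 300 * c ≤ 2 * K)
    (hnK : 6 * n ≤ 5 * K)
    (hE : 4 / 3 * n + (v + K) / 3 ≤ E) (hr : PR (ex Dq R) K v n E Y m a)
    (hT : PTB c (ex Dq S₀) v n E Y m a) (hQ : QG L K v Y m a E) :
    ex Dq S₀ v Y m a ≤ E := by
  subst hn
  refine ruleExg (Θ := Th p K) ?_ ?_ one_le_hcost (fun q => by
      show 1 ≤ 1 + |q.t|
      linarith [abs_nonneg q.t]) ?_ ?_ ?_ ?_ hε₀ hSm hfin hS.perm ?_ hv hY hQ.1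
    ?_ hE ?_
  · rintro (_ | _ | j)
    · exact continuous_const
    · exact continuous_const
    · exact (hL j).cb.comp continuous_subtype_val
  · rintro (_ | _ | j) θ
    · exact le_rfl
    · exact le_rfl
    · exact (hL j).b0 _ θ.2.1
  · rintro (_ | _ | j)
    · show Continuous fun x : (Fin 4 → ℝ) × Th p K => x.1 2 - K
      fun_prop
    · show Continuous fun x : (Fin 4 → ℝ) × Th p K => x.1 2 - x.1 0 - (x.1 1 - x.1 3)
      fun_prop
    · exact (hL j).cG.comp ((cont5 continuous_const (by fun_prop) (by fun_prop) (by fun_prop)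
        (by fun_prop)).prodMk (continuous_subtype_val.comp continuous_snd))
  · rintro (_ | _ | j)
    · show Continuous fun x : (Fin 4 → ℝ) × Th p K =>
        -((x.1 1 - x.1 3) + (K - x.1 2) / 3 + (x.1 0 + x.1 1 - 2 * K) / 3)
      fun_prop
    · show Continuous fun x : (Fin 4 → ℝ) × Th p K => -(4 / 3 * (x.1 1 - x.1 3)) -
        (x.1 0 - x.1 2) / 3 + max 0 (2 / 3 * (x.1 1 - x.1 3) + (x.1 2 - x.1 0) / 3 - c) + c / 2
      fun_prop
    · exact (hL j).cF.comp ((cont5 continuous_const (by fun_prop) (by fun_prop) (by fun_prop)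
        (by fun_prop)).prodMk (continuous_subtype_val.comp continuous_snd))
  · exact Continuous.max (by fun_prop) (Continuous.max (by fun_prop) (by fun_prop))
  · unfold Ab
    fun_prop
  · rintro (_ | _ | j)
    · exact hR.triv2
    · exact hS.triv2
    · exact (hL j).tr
  · show max (v - 2 * (Y.sum + m + a)) (max (3 * v + 300 * c - 2 * K)
      (6 * (Y.sum + m + a) - 5 * K)) ≤ 0
    exact max_le (by linarith) (max_le (by linarith) (by linarith))
  · rintro (_ | _ | j) θ u' m' a' l hsh hm0 hm1 ha0 ha1 hl hlc hG hz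
    · have hG' : l - K ≤ 0 := hG
      refine hR.bg2 hl ⟨hsh.nn, hm0, ha0⟩ ?_
      have h := hr (u' : Multiset ℝ) m' a' _ l hsh hm0 hm1 ha0 ha1 rfl hl (by linarith)
      rw [Multiset.sum_coe] at h
      show _ ≤ E + -((Y.sum + m + a - (u'.sum + m' + a')) + (K - l) / 3 +
        (v + (Y.sum + m + a) - 2 * K) / 3)
      linarith
    · have hG' : l - v - (Y.sum + m + a - (u'.sum + m' + a')) ≤ 0 := hG
      refine hS.bg2 hl ⟨hsh.nn, hm0, ha0⟩ ?_
      have h := hT (u' : Multiset ℝ) m' a' (u'.sum + m' + a') l hsh hm0 hm1 ha0 ha1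
        (by rw [Multiset.sum_coe]) hl (by linarith)
      refine h.trans (le_of_eq ?_)
      show _ = E + (-(4 / 3 * (Y.sum + m + a - (u'.sum + m' + a'))) - (v - l) / 3 +
        max 0 (2 / 3 * (Y.sum + m + a - (u'.sum + m' + a')) + (l - v) / 3 - c) + c / 2)
      ring
    · exact hQ.2 j θ u' m' a' l hsh hm0 hm1 ha0 ha1 hl hlc hG hz

/-! ### the recursion -/

/-- the premises of the recursion -/
inductive RI (ι : Type*)
  | tp : RI ι
  | jj : RI ι
  | t0 : RI ι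
  | q (j : ι) : RI ι

instance [Finite ι] : Finite (RI ι) := by
  refine Finite.of_surjective (fun x : Fin 3 ⊕ ι => match x with
    | .inl 0 => (RI.tp : RI ι) | .inl 1 => .jj | .inl 2 => .t0 | .inr j => .q j) ?_
  rintro (_ | _ | _ | j)
  · exact ⟨.inl 0, rfl⟩
  · exact ⟨.inl 1, rfl⟩
  · exact ⟨.inl 2, rfl⟩
  · exact ⟨.inr j, rfl⟩

/-- functionals of the recursion -/
def Phr (S₀ : Lam → ℝ → List Pq → ℝ) (L : ι → Line Lam p) : RI ι → Lam → ℝ → ℝ → List Pq → ℝ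
  | .q j => (L j).Φ
  | _ => one S₀

/-- second levels of the recursion -/
def br (L : ι → Line Lam p) (K : ℝ) : RI ι → Th 2 K × Th p K → ℝ
  | .q j, θ => (L j).b θ.2.1
  | _, _ => 0

/-- `2 n + (k + K - 2 n)⁺ / 3`, `x = (k, n)` -/
def Ar (K : ℝ) (x : Fin 2 → ℝ) : ℝ := 2 * x 1 + max 0 ((x 0 + K - 2 * x 1) / 3)

/-- conditions of the recursion, `x = (k, n, l, n')`, `θ = ((n₁, v₁), ..)` -/
def Gr (L : ι → Line Lam p) (K v c : ℝ) : RI ι → (Fin 4 → ℝ) → Th 2 K × Th p K → ℝ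
  | .tp, x, _ => max (c - (x 1 - x 3)) (max (x 1 - x 3 - 2 * c) (x 2 - v - (x 1 - x 3)))
  | .jj, x, _ => max (2 * c - (x 1 - x 3)) (x 2 - v - (x 1 - x 3))
  | .t0, x, _ => max (x 1 - x 3 - 2 * c) (x 2 - v - (x 1 - x 3))
  | .q j, x, θ => max (max (θ.1.1 0 - x 1) (x 3 - θ.1.1 0))
      (max (max (x 1 - θ.1.1 0 - 2 * c) (θ.1.1 1 - v - (x 1 - θ.1.1 0)))
        ((L j).G ![K, θ.1.1 1, θ.1.1 0, x 2, x 3] θ.2.1))

/-- exponents of the recursion, `x = (k, n, l, n')`, `θ = ((n₁, v₁), ..)` -/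
def Fr (L : ι → Line Lam p) (K v c : ℝ) : RI ι → (Fin 4 → ℝ) → Th 2 K × Th p K → ℝ
  | .tp, x, _ => 4 / 3 * x 3 + (x 2 + K) / 3 - Ar K ![x 0, x 1]
  | .jj, x, _ => 4 / 3 * x 3 + (x 2 + K) / 3 +
      max 0 ((x 1 - x 3) - ((x 1 - x 3) - (x 2 - v)) / 3 - c) - Ar K ![x 0, x 1]
  | .t0, x, _ => 4 / 3 * x 3 + (x 2 + K) / 3 + c / 3 - Ar K ![x 0, x 1]
  | .q j, x, θ => 4 / 3 * θ.1.1 0 + (θ.1.1 1 + K) / 3 +
      (L j).F ![K, θ.1.1 1, θ.1.1 0, x 2, x 3] θ.2.1 - Ar K ![x 0, x 1]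

def zr (L : ι → Line Lam p) : RI ι → Prop
  | .q j => (L j).zl
  | _ => False

/-- **the recursion, finite text**: parent `k + 50 c ≤ v`, `2 n + 100 c ≤ K + v`, `6 n ≤ 5 K`,
`3 K ≤ 4 n` -/
def RgFin (S₀ : Lam → ℝ → List Pq → ℝ) (L : ι → Line Lam p) (ε₀ K v c : ℝ) : Prop :=
  HRcG Dq hcost S₀ (Phr S₀ L) (br L K) (fun _ _ ps => ps) (Gr L K v c) (Fr L K v c)
    (Hmin Dq (fun x => max (max (x 0 + 50 * c - v) (2 * x 1 + 100 * c - K - v))
      (max (6 * x 1 - 5 * K) (3 * K - 4 * x 1))) ε₀)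
    (Ar K) (zr L) (TK K)

lemma continuous_Ar (K : ℝ) : Continuous (Ar K) := by
  unfold Ar
  fun_prop

theorem rg_of_fin [Finite ι] {S₀ : Lam → ℝ → List Pq → ℝ} {L : ι → Line Lam p}
    (hL : ∀ j, (L j).OK) (hS : FunOK S₀)
    (hSm : ∀ lam l l' ps, l ≤ l' → S₀ lam l ps ≤ S₀ lam l' ps) {ε₀ K v c : ℝ} (hε₀ : 0 < ε₀)
    (hfin : RgFin S₀ L ε₀ K v c) {Y : Multiset ℝ} {m a n F : ℝ} (hY : Ok Y m a)
    (hn : n = Y.sum + m + a) (h1 : 2 * n + 100 * c ≤ K + v) (hnK : 6 * n ≤ 5 * K)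
    (h34 : 3 * K ≤ 4 * n)
    (hF : 0 ≤ F)
    (hT : ∀ (Y' : Multiset ℝ) (m' a' n' v' : ℝ), Sh Y' Y → 0 ≤ m' → m' ≤ m → 0 ≤ a' → a' ≤ a →
      n' = Y'.sum + m' + a' → c ≤ n - n' → n - n' ≤ 2 * c → 0 ≤ v' → v' ≤ v + (n - n') →
      ex Dq S₀ v' Y' m' a' ≤ 4 / 3 * n' + (v' + K) / 3 + F)
    (hJ : ∀ (Y' : Multiset ℝ) (m' a' n' v' w u : ℝ), Sh Y' Y → 0 ≤ m' → m' ≤ m → 0 ≤ a' →
      a' ≤ a → n' = Y'.sum + m' + a' → 2 * c ≤ n - n' → 0 ≤ v' → 0 ≤ w →
      3 * w = (n - n') - (v' - v) → u = (n - n') - w - c →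
      ex Dq S₀ v' Y' m' a' ≤ 4 / 3 * n' + (v' + K) / 3 + max 0 u + F)
    (hT0 : ∀ (Y' : Multiset ℝ) (m' a' n' v' : ℝ), Sh Y' Y → 0 ≤ m' → m' ≤ m → 0 ≤ a' → a' ≤ a →
      n' = Y'.sum + m' + a' → n - n' ≤ 2 * c → 0 ≤ v' → v' ≤ v + (n - n') →
      ex Dq S₀ v' Y' m' a' ≤ 4 / 3 * n' + (v' + K) / 3 + c / 3 + F)
    (hR : ∀ (Y' : Multiset ℝ) (m' a' n' v' : ℝ), Sh Y' Y → 0 ≤ m' → m' ≤ m → 0 ≤ a' → a' ≤ a →
      n' = Y'.sum + m' + a' → n - n' ≤ 2 * c → 0 ≤ v' → v' ≤ v + (n - n') →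
      QG L K v' Y' m' a' (4 / 3 * n' + (v' + K) / 3 + F))
    {v' : ℝ} (hv0 : 0 ≤ v') (hv1 : v' + 50 * c ≤ v) :
    ex Dq S₀ v' Y m a ≤ 2 * n + F + max 0 ((v' + K - 2 * n) / 3) := by
  subst hn
  obtain ⟨n, hn⟩ : ∃ n, n = Y.sum + m + a := ⟨_, rfl⟩
  rw [← hn] at h1 hnK h34 hT hJ hT0 hR ⊢
  have hn0 : 0 ≤ n := hn ▸ sum_nonneg_of hY
  have hmx : 0 ≤ max 0 ((v' + K - 2 * n) / 3) := le_max_left _ _
  have hcA := continuous_Ar K
  have c0 : Continuous fun x : (Fin 4 → ℝ) × (Th 2 K × Th p K) => x.2.1.1 0 :=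
    (continuous_apply 0).comp (continuous_subtype_val.comp (continuous_fst.comp continuous_snd))
  have c1 : Continuous fun x : (Fin 4 → ℝ) × (Th 2 K × Th p K) => x.2.1.1 1 :=
    (continuous_apply 1).comp (continuous_subtype_val.comp (continuous_fst.comp continuous_snd))
  refine ruleExg (Θ := Th 2 K × Th p K) ?_ ?_ one_le_hcost (fun q => by
      show 1 ≤ 1 + |q.t|
      linarith [abs_nonneg q.t]) ?_ ?_ ?_ hcA hε₀ hSm hfin hS.perm ?_ hv0 hY ?_
    ?_ ?_ ?_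
  · rintro (_ | _ | _ | j)
    · exact continuous_const
    · exact continuous_const
    · exact continuous_const
    · exact (hL j).cb.comp (continuous_subtype_val.comp continuous_snd)
  · rintro (_ | _ | _ | j) θ
    · exact le_rfl
    · exact le_rfl
    · exact le_rfl
    · exact (hL j).b0 _ θ.2.2.1
  · rintro (_ | _ | _ | j)
    · exact Continuous.max (by fun_prop) (Continuous.max (by fun_prop) (by fun_prop))
    · exact Continuous.max (by fun_prop) (by fun_prop)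
    · exact Continuous.max (by fun_prop) (by fun_prop)
    · refine Continuous.max (Continuous.max (c0.sub (by fun_prop)) (Continuous.sub (by fun_prop) c0))
        (Continuous.max (Continuous.max (Continuous.sub (Continuous.sub (by fun_prop) c0)
          (by fun_prop)) (Continuous.sub (c1.sub (by fun_prop))
            (Continuous.sub (by fun_prop) c0))) ?_)
      exact (hL j).cG.comp ((cont5 continuous_const c1 c0 (by fun_prop)
        (by fun_prop)).prodMk (continuous_subtype_val.comp (continuous_snd.comp continuous_snd)))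
  · have hA2 : Continuous fun x : (Fin 4 → ℝ) × (Th 2 K × Th p K) => Ar K ![x.1 0, x.1 1] :=
      hcA.comp (cont2 (by fun_prop) (by fun_prop))
    rintro (_ | _ | _ | j)
    · exact Continuous.sub (by fun_prop) hA2
    · exact Continuous.sub (by fun_prop) hA2
    · exact Continuous.sub (by fun_prop) hA2
    · refine Continuous.sub (Continuous.add ((continuous_const.mul c0).add
        ((c1.add continuous_const).div_const 3)) ?_) hA2
      exact (hL j).cF.comp ((cont5 continuous_const c1 c0 (by fun_prop)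
        (by fun_prop)).prodMk (continuous_subtype_val.comp (continuous_snd.comp continuous_snd)))
  · exact Continuous.max (Continuous.max (by fun_prop) (by fun_prop))
      (Continuous.max (by fun_prop) (by fun_prop))
  · rintro (_ | _ | _ | j)
    · exact hS.triv2
    · exact hS.triv2
    · exact hS.triv2
    · exact (hL j).tr
  · linarith
  · rw [← hn]
    show max (max (v' + 50 * c - v) (2 * n + 100 * c - K - v))
      (max (6 * n - 5 * K) (3 * K - 4 * n)) ≤ 0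
    exact max_le (max_le (by linarith) (by linarith)) (max_le (by linarith) (by linarith))
  · rw [← hn]
    show 2 * n + max 0 ((v' + K - 2 * n) / 3) ≤ _
    linarith
  · rw [← hn]
    rintro (_ | _ | _ | j) θ u' m' a' l hsh hm0 hm1 ha0 ha1 hl hlc hG hz
    · have hG' : max (c - (n - (u'.sum + m' + a'))) (max (n - (u'.sum + m' + a') - 2 * c)
        (l - v - (n - (u'.sum + m' + a')))) ≤ 0 := hG
      have g1 := (le_max_left _ _).trans hG'
      have g2 := (le_max_left _ _).trans ((le_max_right _ _).trans hG')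
      have g3 := (le_max_right _ _).trans ((le_max_right _ _).trans hG')
      refine hS.bg2 hl ⟨hsh.nn, hm0, ha0⟩ ?_
      have h := hT (u' : Multiset ℝ) m' a' (u'.sum + m' + a') l hsh hm0 hm1 ha0 ha1
        (by rw [Multiset.sum_coe]) (by linarith) (by linarith) hl (by linarith)
      refine h.trans (le_of_eq ?_)
      show _ = 2 * n + F + max 0 ((v' + K - 2 * n) / 3) + (4 / 3 * (u'.sum + m' + a') +
        (l + K) / 3 - (2 * n + max 0 ((v' + K - 2 * n) / 3)))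
      ring
    · have hG' : max (2 * c - (n - (u'.sum + m' + a'))) (l - v - (n - (u'.sum + m' + a'))) ≤ 0 := hG
      have g1 := (le_max_left _ _).trans hG'
      have g3 := (le_max_right _ _).trans hG'
      refine hS.bg2 hl ⟨hsh.nn, hm0, ha0⟩ ?_
      have h := hJ (u' : Multiset ℝ) m' a' (u'.sum + m' + a') l
        (((n - (u'.sum + m' + a')) - (l - v)) / 3) _ hsh hm0 hm1 ha0 ha1
        (by rw [Multiset.sum_coe]) (by linarith) hl (by linarith) (by ring) rfl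
      refine h.trans (le_of_eq ?_)
      show _ = 2 * n + F + max 0 ((v' + K - 2 * n) / 3) + (4 / 3 * (u'.sum + m' + a') +
        (l + K) / 3 + max 0 ((n - (u'.sum + m' + a')) - ((n - (u'.sum + m' + a')) - (l - v)) / 3 - c)
          - (2 * n + max 0 ((v' + K - 2 * n) / 3)))
      ring
    · have hG' : max (n - (u'.sum + m' + a') - 2 * c) (l - v - (n - (u'.sum + m' + a'))) ≤ 0 := hG
      have g1 := (le_max_left _ _).trans hG'
      have g3 := (le_max_right _ _).trans hG'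
      refine hS.bg2 hl ⟨hsh.nn, hm0, ha0⟩ ?_
      have h := hT0 (u' : Multiset ℝ) m' a' (u'.sum + m' + a') l hsh hm0 hm1 ha0 ha1
        (by rw [Multiset.sum_coe]) (by linarith) hl (by linarith)
      refine h.trans (le_of_eq ?_)
      show _ = 2 * n + F + max 0 ((v' + K - 2 * n) / 3) + (4 / 3 * (u'.sum + m' + a') +
        (l + K) / 3 + c / 3 - (2 * n + max 0 ((v' + K - 2 * n) / 3)))
      ring
    · obtain ⟨n₁, hn₁⟩ : ∃ x, x = θ.1.1 0 := ⟨_, rfl⟩
      obtain ⟨v₁, hv₁⟩ : ∃ x, x = θ.1.1 1 := ⟨_, rfl⟩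
      have hv₁0 : 0 ≤ v₁ := hv₁ ▸ θ.1.2.1 1
      have hG' : max (max (θ.1.1 0 - n) ((u'.sum + m' + a') - θ.1.1 0))
        (max (max (n - θ.1.1 0 - 2 * c) (θ.1.1 1 - v - (n - θ.1.1 0)))
        ((L j).G ![K, θ.1.1 1, θ.1.1 0, l, u'.sum + m' + a'] θ.2.1)) ≤ 0 := hG
      rw [← hn₁, ← hv₁] at hG'
      have g1 := (le_max_left _ _).trans ((le_max_left _ _).trans hG')
      have g2 := (le_max_right _ _).trans ((le_max_left _ _).trans hG')
      have g3 := (le_max_left _ _).trans ((le_max_left _ _).trans ((le_max_right _ _).trans hG'))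
      have g4 := (le_max_right _ _).trans ((le_max_left _ _).trans ((le_max_right _ _).trans hG'))
      have g5 := (le_max_right _ _).trans ((le_max_right _ _).trans hG')
      obtain ⟨Z, m₁, a₁, z1, z2, z3, z4, z5, z6, z7⟩ := mid hsh hm1 ha1 (x := n₁)
        (by rw [Multiset.sum_coe]; linarith) (by rw [← hn]; linarith)
      have hq := (hR Z m₁ a₁ n₁ v₁ z2 (by linarith) z4 (by linarith) z6 z7 (by linarith) hv₁0
        (by linarith)).2 j θ.2 u' m' a' l z1 hm0 z3 ha0 z5 hl hlc (by rw [← z7]; exact g5) hz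
      rw [← z7] at hq
      show BG2 Dq (L j).Φ l ((L j).b θ.2.1) u' (wt m' a') (2 * n + F + max 0 ((v' + K - 2 * n) / 3) +
        (4 / 3 * θ.1.1 0 + (θ.1.1 1 + K) / 3 +
          (L j).F ![K, θ.1.1 1, θ.1.1 0, l, u'.sum + m' + a'] θ.2.1 -
          (2 * n + max 0 ((v' + K - 2 * n) / 3))))
      rw [← hn₁, ← hv₁]
      refine hq.mono (le_of_eq ?_)
      ring

end Crest.Agent.R017.RGB545
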