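import Crest.Agent.R017.RGj_64
import Crest.Agent.R017.RGB3_545

/-!
# Row 17, C.REMg (RG), glue (helper64), part jL: the R-side hypotheses from a family of lines

* `RLeaf` : the R-side hypotheses from a family of lines (class N)
* `RLeafL` : the same with a constant `Λ` of the levels (the off-diagonal part)
-/

set_option autoImplicit false

noncomputable section

open Complex
open scoped ComplexConjugate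

namespace Crest.Agent.R017.RG64

open Crest.Agent.R012 Crest.Agent.R012.Eis Crest.Agent.R012.LS2 Crest.Agent.R012.Gauss880
open Crest.Agent.R017.CM106 Crest.Agent.R017.HP842 Crest.Agent.R017.FE47
open Crest.Agent.R017.End699 hiding pw
open Crest.Agent.R017.B770
open Crest.Agent.R017.Prov71
open Crest.Agent.R017.Leg381
open Crest.Agent.R017.RGB545 (Line Th TK)
open Crest.Agent.R017.XP699 (LL Chd hcost cst)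

variable {Lam ι : Type*} {p : ℕ}

/-- **the R-side hypotheses from the lines** (class N): base `X`, `K ↦ X ^ K`,
`E0 = D = G₀ = X ^ c`, `Y = X ^ b`, `D0 = X ^ δ` -/
def RLeaf (π : Lam → DPar) (h : ℝ → ℝ) (RR : LBp → (Eis → ℂ) → ℝ → Prop) (L : ι → Line Lam p)
    (K c b : ℝ) : Prop :=
  ∀ (lam : Lam) (N : ℕ) (c₀ : ℝ), 1 ≤ c₀ → ∃ B₀ : ℝ, 0 ≤ B₀ ∧ ∀ ε M : ℝ, 0 < ε → 0 ≤ M →
    ∃ J₀ δ₀ : ℝ, 0 ≤ J₀ ∧ 0 < δ₀ ∧ ∀ (δ : ℝ) (Jn Aw : ℕ) (Cw R η S : ℝ), 0 ≤ δ → δ ≤ δ₀ →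
    J₀ ≤ Jn → Jn + 2 ≤ Aw → 0 ≤ Cw → 0 ≤ R → 0 < η → η ≤ 1 / 2 → 0 ≤ S →
    ∃ C r X₁ : ℝ, 0 ≤ C ∧ 0 ≤ r ∧ ∀ X : ℝ, 3 ≤ X → X₁ ≤ X → ∀ ps₀ : List Pq, ps₀.length ≤ N →
    (∀ q ∈ ps₀, 0 ≤ Dq.len q ∧ Dq.len q ≤ c₀ * Real.log X) → (∀ q ∈ ps₀, Dq.s2 q ≤ X ^ c₀) →
    ∀ (q : Eis) (ps : List Pf) (Lv : ℝ) (N₀ N₁ : ℕ), RFacts K c ε X ps₀ ps Lv N₀ N₁ →
    IsPrim q → (nm q : ℝ) ≤ X ^ c₀ → SbL S ps ps₀ → ∀ Bd : ℝ, 1 ≤ Bd →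
    (∀ (j : ι) (θ : Th p K) (l : ℝ) (ps' : List Pq), 0 ≤ l → l ≤ TK K * Real.log X →
      List.Forall₂ (Chd Dq hcost r (C * X ^ B₀)) ps' ps₀ →
      LL Dq ps' ≤ LF ps + ε * Real.log X →
      (L j).G ![K, Lv / Real.log X, LF ps / Real.log X, l / Real.log X,
        LL Dq ps' / Real.log X] θ.1 ≤ ε →
      ((L j).zl → ∀ q ∈ ps', Dq.lump q → Dq.len q ≤ l + ε * Real.log X) →
      (L j).Φ lam l ((L j).b θ.1 * Real.log X) ps' ≤ Bd * cst hcost ps' ps₀ ^ M *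
        X ^ (4 / 3 * (LF ps / Real.log X) + (Lv / Real.log X + K) / 3 +
          (L j).F ![K, Lv / Real.log X, LF ps / Real.log X, l / Real.log X,
            LL Dq ps' / Real.log X] θ.1)) →
    RR ⟨Cw, η, Aw, X ^ K, Real.exp (LF ps), X ^ b, R, Jn, N₀, N₁, X ^ c, X ^ c, X ^ c⟩
      (sqc q (alF (X ^ δ) (X ^ δ) (π lam) h ps))
      (C * X ^ ε * (Ht ps * Ht (natl ps₀)) ^ J₀ * Bd * Real.exp (2 * LF ps))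

/-- `RLeaf` with a constant `Λ ≥ 1` of the levels, chosen with the constants -/
def RLeafL (π : Lam → DPar) (h : ℝ → ℝ) (RR : ℝ → LBp → (Eis → ℂ) → ℝ → Prop)
    (L : ι → Line Lam p) (K c b : ℝ) : Prop :=
  ∀ (lam : Lam) (N : ℕ) (c₀ : ℝ), 1 ≤ c₀ → ∃ B₀ : ℝ, 0 ≤ B₀ ∧ ∀ ε M : ℝ, 0 < ε → 0 ≤ M →
    ∃ J₀ δ₀ : ℝ, 0 ≤ J₀ ∧ 0 < δ₀ ∧ ∀ (δ : ℝ) (Jn Aw : ℕ) (Cw R η S : ℝ), 0 ≤ δ → δ ≤ δ₀ →
    J₀ ≤ Jn → Jn + 2 ≤ Aw → 0 ≤ Cw → 0 ≤ R → 0 < η → η ≤ 1 / 2 → 0 ≤ S →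
    ∃ C r X₁ Λ : ℝ, 0 ≤ C ∧ 0 ≤ r ∧ 1 ≤ Λ ∧ ∀ X : ℝ, 3 ≤ X → X₁ ≤ X →
    ∀ ps₀ : List Pq, ps₀.length ≤ N →
    (∀ q ∈ ps₀, 0 ≤ Dq.len q ∧ Dq.len q ≤ c₀ * Real.log X) → (∀ q ∈ ps₀, Dq.s2 q ≤ X ^ c₀) →
    ∀ (q : Eis) (ps : List Pf) (Lv : ℝ) (N₀ N₁ : ℕ), RFacts K c ε X ps₀ ps Lv N₀ N₁ →
    IsPrim q → (nm q : ℝ) ≤ X ^ c₀ → SbL S ps ps₀ → ∀ Bd : ℝ, 1 ≤ Bd →
    (∀ (j : ι) (θ : Th p K) (l : ℝ) (ps' : List Pq), 0 ≤ l → l ≤ TK K * Real.log X →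
      List.Forall₂ (Chd Dq hcost r (C * X ^ B₀)) ps' ps₀ →
      LL Dq ps' ≤ LF ps + ε * Real.log X →
      (L j).G ![K, Lv / Real.log X, LF ps / Real.log X, l / Real.log X,
        LL Dq ps' / Real.log X] θ.1 ≤ ε →
      ((L j).zl → ∀ q ∈ ps', Dq.lump q → Dq.len q ≤ l + ε * Real.log X) →
      (L j).Φ lam l ((L j).b θ.1 * Real.log X) ps' ≤ Bd * cst hcost ps' ps₀ ^ M *
        X ^ (4 / 3 * (LF ps / Real.log X) + (Lv / Real.log X + K) / 3 +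
          (L j).F ![K, Lv / Real.log X, LF ps / Real.log X, l / Real.log X,
            LL Dq ps' / Real.log X] θ.1)) →
    RR Λ ⟨Cw, η, Aw, X ^ K, Real.exp (LF ps), X ^ b, R, Jn, N₀, N₁, X ^ c, X ^ c, X ^ c⟩
      (sqc q (alF (X ^ δ) (X ^ δ) (π lam) h ps))
      (C * X ^ ε * (Ht ps * Ht (natl ps₀)) ^ J₀ * Bd * Real.exp (2 * LF ps))

/-- no constant needed -/
theorem RLeaf.toL {π : Lam → DPar} {h : ℝ → ℝ} {RR : LBp → (Eis → ℂ) → ℝ → Prop}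
    {L : ι → Line Lam p} {K c b : ℝ} (H : RLeaf π h RR L K c b) :
    RLeafL π h (fun _ => RR) L K c b := by
  intro lam N c₀ hc₀
  obtain ⟨B₀, hB₀, H⟩ := H lam N c₀ hc₀
  refine ⟨B₀, hB₀, fun ε M hε hM => ?_⟩
  obtain ⟨J₀, δ₀, hJ₀, hδ₀, H⟩ := H ε M hε hM
  refine ⟨J₀, δ₀, hJ₀, hδ₀, ?_⟩
  intro δ Jn Aw Cw R η S hδ0 hδ hJn hAw hCw hR hη hη1 hS
  obtain ⟨C, r, X₁, hC, hr, H⟩ := H δ Jn Aw Cw R η S hδ0 hδ hJn hAw hCw hR hη hη1 hS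
  exact ⟨C, r, X₁, 1, hC, hr, le_rfl, H⟩

end Crest.Agent.R017.RG64
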