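import Crest.Agent.R017.RGm_64
import Crest.Agent.R017.RGjL_64

/-!
# Row 17, C.REMg (RG), glue (helper64), part n: the finite theorem of the recursion (class N)

* `rg_fin` : `RgFin` (helper545) from the lower bound `LBN` and the leaf `RLeaf`
-/

set_option autoImplicit false

noncomputable section

open Complex
open scoped ComplexConjugate

namespace Crest.Agent.R017.RG64

open Crest.Agent.R012 Crest.Agent.R012.Eis Crest.Agent.R012.LS2 Crest.Agent.R012.Gauss880
open Crest.Agent.R012.MC (Wgt)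
open Crest.Agent.R017.CM106 Crest.Agent.R017.HP842 Crest.Agent.R017.FE47
open Crest.Agent.R017.End699 hiding pw
open Crest.Agent.R017.B770
open Crest.Agent.R017.Prov71
open Crest.Agent.R017.Leg381
open Crest.Agent.R017.RGB545
open Crest.Agent.R017.RuleM545
open Crest.Agent.R017.XP699 (LL Chd hcost cst)

lemma Chd.mono' {r b r' b' : ℝ} {ps' ps : List Pq} (hr : r ≤ r') (hb : b ≤ b')
    (h : List.Forall₂ (Chd Dq hcost r b) ps' ps) : List.Forall₂ (Chd Dq hcost r' b') ps' ps := by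
  refine List.Forall₂.imp (fun p' p h1 => ?_) h
  obtain ⟨a1, a2, a3, a4, a5, a6⟩ := h1
  refine ⟨a1, a2, a3, by linarith, a5, a6.trans ?_⟩
  exact mul_le_mul_of_nonneg_left hb (Nat.cast_nonneg _)

lemma LL_nonneg_of_chd {r b : ℝ} {ps' ps : List Pq}
    (h : List.Forall₂ (Chd Dq hcost r b) ps' ps) : 0 ≤ LL Dq ps' := by
  unfold LL
  refine List.sum_nonneg fun x hx => ?_
  obtain ⟨q, hq, rfl⟩ := List.mem_map.1 hx
  exact forall_of_forall₂ (fun p' p (h1 : Chd Dq hcost r b p' p) => h1.len0) h q hq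

variable {Lam ι : Type*} {p : ℕ}

set_option maxHeartbeats 1600000 in
/-- **the finite theorem of the recursion**, class N -/
theorem rg_fin {π : Lam → DPar} (hP : ∀ lam, (π lam).OK) {h : ℝ → ℝ} {c₂ : ℝ} (hpu : PU h c₂)
    {w : ℝ → ℝ} (hab : Abs4 w) {Rh RR : ℝ → LBp → (Eis → ℂ) → ℝ → Prop}
    (hLB : ∀ Λ : ℝ, 1 ≤ Λ → LBN w Λ (Rh Λ))
    (hRR : ∀ (Λ : ℝ) (p : LBp) (α : Eis → ℂ) (Rn Rn' : ℝ), 1 ≤ Λ → 0 ≤ p.K → 0 ≤ p.X →
      1 ≤ p.E0 → p.X ^ 2 * p.E0 ^ 20 ≤ p.K * p.N₀ → RR Λ p α Rn → Rn ≤ Rn' → Rh Λ p α Rn')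
    {L : ι → Line Lam p} {K v c : ℝ} (hc : 0 < c) (hcK : 60 * c ≤ K)
    (hv3 : 3 * v + 300 * c ≤ 2 * K) (hleaf : RLeafL π h RR L K c (8 * (K + 1))) :
    RgFin (fun lam => S0p (π lam) h) L (min c 1 / 100) K v c := by
  have hK : 0 < K := by linarith
  intro lam N c₀ hc₀
  obtain ⟨c₀', hc₀'⟩ : ∃ x : ℝ, x = max c₀ (K + 1) := ⟨_, rfl⟩
  have hcc1 : c₀ ≤ c₀' := by rw [hc₀']; exact le_max_left _ _
  have hcc2 : K + 1 ≤ c₀' := by rw [hc₀']; exact le_max_right _ _
  obtain ⟨BR, hBR, hR1⟩ := hleaf lam N c₀' (hc₀.trans hcc1)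
  refine ⟨max BR (K + 1), le_max_of_le_left hBR, ?_⟩
  intro ε M hε hM
  obtain ⟨ε', hε'⟩ : ∃ x : ℝ, x = min ε (min c 1) := ⟨_, rfl⟩
  have he1 : ε' ≤ ε := by rw [hε']; exact min_le_left _ _
  have he2 : ε' ≤ c := by rw [hε']; exact (min_le_right _ _).trans (min_le_left _ _)
  have he3 : ε' ≤ 1 := by rw [hε']; exact (min_le_right _ _).trans (min_le_right _ _)
  have he0 : 0 < ε' := by rw [hε']; exact lt_min hε (lt_min hc one_pos)
  have hmin : min (ε / 100) (min c 1 / 100) = ε' / 100 := by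
    rw [hε', min_div_div_right (by norm_num : (0 : ℝ) ≤ 100)]
  obtain ⟨J₀, δ₀, hJ₀, hδ₀, hR2⟩ := hR1 (ε' / 4) M (by positivity) hM
  obtain ⟨δ, Jn, Aw, Cw, R, η, S, hδ, hδδ, hJn, hAw, hCw, hR, hη, hη1, hS, hcore⟩ :=
    rg_core hpu hab hLB hRR hc hcK (by linarith) N (M := M) he0 he2 he3 hM hJ₀ hδ₀ (v := v)
  obtain ⟨CR, rR, XR, Λ, hCR, hrR, hΛ, hR3⟩ :=
    hR2 δ Jn Aw Cw R η S hδ hδδ hJn hAw hCw hR hη hη1 hS
  obtain ⟨C, r, J, X₁, hC, hr, hJ, hX⟩ := hcore CR Λ hCR hΛ
  refine ⟨2 * C + CR, max r rR, J, max X₁ XR, by positivity, le_max_of_le_left hr, hJ, ?_⟩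
  intro X hX3 hXX k ps hk0 hkc hlen hps hs2 hHp Bd hBd hprem
  have hX1 : (1 : ℝ) ≤ X := by linarith
  have hX0 : 0 < X := by linarith
  obtain ⟨l, hl⟩ : ∃ x : ℝ, x = Real.log X := ⟨_, rfl⟩
  have hl0 : 0 < l := by rw [hl]; exact Real.log_pos (by linarith)
  have hpowX : ∀ x : ℝ, X ^ x = Real.exp (x * l) := fun x => by
    rw [Real.rpow_def_of_pos hX0, hl, mul_comm]
  obtain ⟨n, hn⟩ : ∃ x : ℝ, x = LL Dq ps := ⟨_, rfl⟩
  have hn0 : 0 ≤ n := by
    rw [hn]
    unfold LL
    refine List.sum_nonneg fun x hx => ?_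
    obtain ⟨q, hq, rfl⟩ := List.mem_map.1 hx
    exact (hps q hq).1
  -- the parent
  unfold Hmin at hHp
  rw [hmin] at hHp
  have p1 := (le_max_left _ _).trans ((le_max_left _ _).trans hHp)
  have p2 := (le_max_right _ _).trans ((le_max_left _ _).trans hHp)
  have p3 := (le_max_left _ _).trans ((le_max_right _ _).trans hHp)
  have p4 := (le_max_right _ _).trans ((le_max_right _ _).trans hHp)
  have e0 : (![k / Real.log X, LL Dq ps / Real.log X] : Fin 2 → ℝ) 0 = k / l := by rw [hl]; rfl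
  have e1 : (![k / Real.log X, LL Dq ps / Real.log X] : Fin 2 → ℝ) 1 = n / l := by
    rw [hl, hn]; rfl
  rw [e0] at p1
  rw [e1] at p2 p3 p4
  have hkl : k = k / l * l := by field_simp
  have hnl : n = n / l * l := by field_simp
  have hvK : v ≤ K := by linarith
  have hpar : RPar K v c (ε' / 100) X k ps := by
    have q1 := mul_le_mul_of_nonneg_right p1 hl0.le
    have q2 := mul_le_mul_of_nonneg_right p2 hl0.le
    have q3 := mul_le_mul_of_nonneg_right p3 hl0.le
    have q4 := mul_le_mul_of_nonneg_right p4 hl0.le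
    have hcl : 0 ≤ c * l := by positivity
    have hel : 0 ≤ ε' / 100 * l := by positivity
    have hKl : 0 ≤ K * l := by positivity
    constructor
    · exact hk0
    · rw [← hl]
      have : (k / l + 50 * c - v) * l = k + 50 * (c * l) - v * l := by
        rw [sub_mul, add_mul, ← hkl]; ring
      linarith
    · rw [← hl, ← hn]
      have : (2 * (n / l) + 100 * c - K - v) * l = 2 * n + 100 * (c * l) - K * l - v * l := by
        have : 2 * (n / l) * l = 2 * n := by rw [mul_assoc, ← hnl]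
        rw [sub_mul, sub_mul, add_mul, this]; ring
      linarith
    · rw [← hl, ← hn]
      have : (6 * (n / l) - 5 * K) * l = 6 * n - 5 * (K * l) := by
        have : 6 * (n / l) * l = 6 * n := by rw [mul_assoc, ← hnl]
        rw [sub_mul, this]; ring
      linarith
    · rw [← hl, ← hn]
      have : (3 * K - 4 * (n / l)) * l = 3 * (K * l) - 4 * n := by
        have : 4 * (n / l) * l = 4 * n := by rw [mul_assoc, ← hnl]
        rw [sub_mul, this]; ring
      linarith
    · rw [← hl, ← hn]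
      have : (6 * (n / l) - 5 * K) * l = 6 * n - 5 * (K * l) := by
        have : 6 * (n / l) * l = 6 * n := by rw [mul_assoc, ← hnl]
        rw [sub_mul, this]; ring
      linarith
  -- the exponent
  obtain ⟨A, hA⟩ : ∃ x : ℝ, x = Ar K ![k / Real.log X, LL Dq ps / Real.log X] := ⟨_, rfl⟩
  have hAl : A * l = fl (K * l) k n := by
    rw [hA]
    unfold Ar fl
    rw [e0, e1, add_mul, max_mul_of_nonneg _ _ hl0.le, zero_mul]
    have h1 : 2 * (n / l) * l = 2 * n := by rw [mul_assoc, ← hnl]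
    have h2 : (k / l + K - 2 * (n / l)) / 3 * l = (k - 2 * n + K * l) / 3 := by
      field_simp
      ring
    rw [h1, h2]
  have hXA : X ^ A = Real.exp (fl (K * l) k n) := by rw [hpowX, hAl]
  have hXA0 : 0 < X ^ A := Real.rpow_pos_of_pos hX0 _
  have hXAn : X ^ (-A) * X ^ A = 1 := by rw [← Real.rpow_add hX0]; simp
  obtain ⟨Bd', hBd'⟩ : ∃ x : ℝ, x = 1 + Bd * X ^ (-A) := ⟨_, rfl⟩
  have hXn0 : 0 ≤ X ^ (-A) := Real.rpow_nonneg hX0.le _
  have hBd'1 : 1 ≤ Bd' := by rw [hBd']; have := mul_nonneg hBd hXn0; linarith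
  have hBd'2 : Bd * X ^ (-A) ≤ Bd' := by rw [hBd']; linarith
  have hTK : TK K = 10 * (K + 1) := rfl
  have hTK0 : 0 ≤ TK K := by rw [hTK]; linarith
  have h0p : ∀ m : ℕ, (0 : Fin m → ℝ) ∈ Set.Icc (0 : Fin m → ℝ) (fun _ => TK K) :=
    fun m => ⟨le_rfl, fun _ => hTK0⟩
  obtain ⟨nK', nv'⟩ : n ≤ (K + 1) * l ∧ v * l ≤ K * l := by
    have h1 := hpar.nK
    rw [← hl, ← hn] at h1
    constructor
    · have : (K + ε' / 100) * l ≤ (K + 1) * l := mul_le_mul_of_nonneg_right (by linarith) hl0.le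
      linarith
    · exact mul_le_mul_of_nonneg_right hvK hl0.le
  have hbmax : C * X ^ (K + 1) ≤ (2 * C + CR) * X ^ max BR (K + 1) := by
    have h1 : X ^ (K + 1) ≤ X ^ max BR (K + 1) :=
      Real.rpow_le_rpow_of_exponent_le hX1 (le_max_right _ _)
    calc C * X ^ (K + 1) ≤ (2 * C + CR) * X ^ (K + 1) := by gcongr; linarith
      _ ≤ _ := by gcongr
  have hbmax2 : CR * X ^ BR ≤ (2 * C + CR) * X ^ max BR (K + 1) := by
    have h1 : X ^ BR ≤ X ^ max BR (K + 1) :=
      Real.rpow_le_rpow_of_exponent_le hX1 (le_max_left _ _)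
    calc CR * X ^ BR ≤ (2 * C + CR) * X ^ BR := by gcongr; linarith
      _ ≤ _ := by gcongr
  have hcst : ∀ ps' : List Pq, 0 ≤ cst hcost ps' ps ^ M := fun ps' =>
    Real.rpow_nonneg (zero_le_one.trans (XP699.one_le_cst XP699.one_le_hcost _ _)) _
  have hlTK : ∀ (x : ℝ) (ps' : List Pq), 0 ≤ LL Dq ps' →
      x ≤ (v + ε') * Real.log X + (LL Dq ps - LL Dq ps') → x ≤ TK K * Real.log X := by
    intro x ps' h1 h2
    rw [← hl, ← hn] at h2
    rw [hTK, ← hl]
    have h3 : (v + ε') * l ≤ K * l + l := by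
      have : ε' * l ≤ 1 * l := mul_le_mul_of_nonneg_right he3 hl0.le
      linarith
    have h4 : (K + 1) * l = K * l + l := by ring
    have h5 : 10 * (K + 1) * l = 10 * (K * l) + 10 * l := by ring
    have hKl : 0 ≤ K * l := by positivity
    linarith
  have hx0 : ∀ (x : ℝ) (ps' : List Pq), xv Dq X k ps x ps' 0 = k / l := fun x ps' => by
    rw [hl]; rfl
  have hx1 : ∀ (x : ℝ) (ps' : List Pq), xv Dq X k ps x ps' 1 = n / l := fun x ps' => by
    rw [hl, hn]; rfl
  have hx2 : ∀ (x : ℝ) (ps' : List Pq), xv Dq X k ps x ps' 2 = x / l := fun x ps' => by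
    rw [hl]; rfl
  have hx3 : ∀ (x : ℝ) (ps' : List Pq), xv Dq X k ps x ps' 3 = LL Dq ps' / l := fun x ps' => by
    rw [hl]; rfl
  have hAeq : Ar K ![k / l, n / l] = A := by rw [hA, hl, hn]
  have conv : ∀ (x : ℝ) (ps' : List Pq) (E E' : ℝ) (B : ℝ), E * l = E' - A * l →
      S0p (π lam) h x ps' ≤ Bd * B * X ^ E → 0 ≤ B →
      S0p (π lam) h x ps' ≤ Bd' * B * Real.exp E' := by
    intro x ps' E E' B hE h1 hB
    refine h1.trans ?_
    have h2 : X ^ E = X ^ (-A) * Real.exp E' := by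
      rw [hpowX, hpowX, ← Real.exp_add]
      congr 1
      linarith
    rw [h2]
    calc Bd * B * (X ^ (-A) * Real.exp E') = (Bd * X ^ (-A)) * B * Real.exp E' := by ring
      _ ≤ Bd' * B * Real.exp E' := by gcongr
  have gdiv : ∀ {a b' c' : ℝ}, a ≤ b' * l → c' = a / l → c' ≤ b' := by
    intro a b' c' h1 h2
    rw [h2, div_le_iff₀ hl0]
    exact h1
  have hT : TPrem (π lam) h K v c ε' X r (C * X ^ (K + 1)) M Bd' ps := by
    constructor
    · intro x ps' hx hxl hch h1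
      have hLL := LL_nonneg_of_chd hch
      have h2 := hprem .t0 (⟨0, h0p 2⟩, ⟨0, h0p p⟩) x ps' hx (hlTK x ps' hLL hxl)
        (Chd.mono' (le_max_left _ _) hbmax hch) ?_ (fun hz => hz.elim)
      · refine conv x ps' _ _ _ ?_ h2 (hcst ps')
        show (4 / 3 * (xv Dq X k ps x ps' 3) + ((xv Dq X k ps x ps' 2) + K) / 3 + c / 3 -
          Ar K ![xv Dq X k ps x ps' 0, xv Dq X k ps x ps' 1]) * l = _
        rw [hx0, hx1, hx2, hx3, hAeq, ← hl]
        unfold ex0
        field_simp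
        ring
      · show max (xv Dq X k ps x ps' 1 - xv Dq X k ps x ps' 3 - 2 * c)
          (xv Dq X k ps x ps' 2 - v - (xv Dq X k ps x ps' 1 - xv Dq X k ps x ps' 3)) ≤ ε
        rw [hx1, hx2, hx3]
        rw [← hl, ← hn] at h1 hxl
        refine max_le (gdiv (a := n - LL Dq ps' - 2 * c * l) ?_ ?_)
          (gdiv (a := x - v * l - (n - LL Dq ps')) ?_ ?_)
        · have : ε' * l ≤ ε * l := mul_le_mul_of_nonneg_right he1 hl0.le
          linarith
        · field_simp
        · have : ε' * l ≤ ε * l := mul_le_mul_of_nonneg_right he1 hl0.le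
          linarith
        · field_simp
    · intro x ps' hx hxl hch h0 h1
      have hLL := LL_nonneg_of_chd hch
      have h2 := hprem .tp (⟨0, h0p 2⟩, ⟨0, h0p p⟩) x ps' hx (hlTK x ps' hLL hxl)
        (Chd.mono' (le_max_left _ _) hbmax hch) ?_ (fun hz => hz.elim)
      · refine conv x ps' _ _ _ ?_ h2 (hcst ps')
        show (4 / 3 * (xv Dq X k ps x ps' 3) + ((xv Dq X k ps x ps' 2) + K) / 3 -
          Ar K ![xv Dq X k ps x ps' 0, xv Dq X k ps x ps' 1]) * l = _
        rw [hx0, hx1, hx2, hx3, hAeq, ← hl]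
        unfold ex0
        field_simp
      · show max (c - (xv Dq X k ps x ps' 1 - xv Dq X k ps x ps' 3))
          (max (xv Dq X k ps x ps' 1 - xv Dq X k ps x ps' 3 - 2 * c)
          (xv Dq X k ps x ps' 2 - v - (xv Dq X k ps x ps' 1 - xv Dq X k ps x ps' 3))) ≤ ε
        rw [hx1, hx2, hx3]
        rw [← hl, ← hn] at h0 h1 hxl
        have hee : ε' * l ≤ ε * l := mul_le_mul_of_nonneg_right he1 hl0.le
        refine max_le (gdiv (a := c * l - (n - LL Dq ps')) ?_ ?_)
          (max_le (gdiv (a := n - LL Dq ps' - 2 * c * l) ?_ ?_)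
          (gdiv (a := x - v * l - (n - LL Dq ps')) ?_ ?_))
        · linarith
        · field_simp
        · linarith
        · field_simp
        · linarith
        · field_simp
    · intro x ps' hx hxl hch h0
      have hLL := LL_nonneg_of_chd hch
      have h2 := hprem .jj (⟨0, h0p 2⟩, ⟨0, h0p p⟩) x ps' hx (hlTK x ps' hLL hxl)
        (Chd.mono' (le_max_left _ _) hbmax hch) ?_ (fun hz => hz.elim)
      · refine conv x ps' _ _ _ ?_ h2 (hcst ps')
        show (4 / 3 * (xv Dq X k ps x ps' 3) + ((xv Dq X k ps x ps' 2) + K) / 3 +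
          max 0 ((xv Dq X k ps x ps' 1 - xv Dq X k ps x ps' 3) -
            ((xv Dq X k ps x ps' 1 - xv Dq X k ps x ps' 3) - (xv Dq X k ps x ps' 2 - v)) / 3 - c) -
          Ar K ![xv Dq X k ps x ps' 0, xv Dq X k ps x ps' 1]) * l = _
        rw [hx0, hx1, hx2, hx3, hAeq, ← hl, ← hn, sub_mul, add_mul,
          max_mul_of_nonneg _ _ hl0.le, zero_mul]
        unfold exJ
        have h3 : (4 / 3 * (LL Dq ps' / l) + (x / l + K) / 3) * l =
            4 / 3 * LL Dq ps' + (x + K * l) / 3 := by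
          field_simp
        have h4 : (n / l - LL Dq ps' / l - (n / l - LL Dq ps' / l - (x / l - v)) / 3 - c) * l =
            n - LL Dq ps' - (n - LL Dq ps' - (x - v * l)) / 3 - c * l := by
          field_simp
        rw [h3, h4]
      · show max (2 * c - (xv Dq X k ps x ps' 1 - xv Dq X k ps x ps' 3))
          (xv Dq X k ps x ps' 2 - v - (xv Dq X k ps x ps' 1 - xv Dq X k ps x ps' 3)) ≤ ε
        rw [hx1, hx2, hx3]
        rw [← hl, ← hn] at h0 hxl
        have hee : ε' * l ≤ ε * l := mul_le_mul_of_nonneg_right he1 hl0.le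
        refine max_le (gdiv (a := 2 * c * l - (n - LL Dq ps')) ?_ ?_)
          (gdiv (a := x - v * l - (n - LL Dq ps')) ?_ ?_)
        · linarith
        · field_simp
        · linarith
        · field_simp
  have key := hX X hX3 ((le_max_left _ _).trans hXX) (π lam) (hP lam) k ps hlen
    (fun q hq => (hps q hq).1) (ε' / 100) (by positivity) le_rfl hpar Bd' (by linarith) hT ?_
  · rw [← hl, ← hn] at key
    refine key.trans ?_
    rw [← hA, ← hXA]
    have h1 : (1 + Bd') * X ^ A ≤ 2 * (X ^ A + Bd) := by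
      rw [hBd']
      calc (1 + (1 + Bd * X ^ (-A))) * X ^ A = 2 * X ^ A + Bd * (X ^ (-A) * X ^ A) := by ring
        _ = 2 * X ^ A + Bd := by rw [hXAn, mul_one]
        _ ≤ _ := by linarith
    have hs1 : 0 ≤ (ps.map Dq.s1).prod := by
      rw [← RXg848.Ht_natl]
      have := one_le_Ht (natl ps)
      linarith
    have h2 : 0 ≤ (ps.map Dq.s1).prod ^ J := Real.rpow_nonneg hs1 _
    have h3 : X ^ ε' ≤ X ^ ε := Real.rpow_le_rpow_of_exponent_le hX1 he1
    calc C * X ^ ε' * (ps.map Dq.s1).prod ^ J * (1 + Bd') * X ^ A =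
        C * X ^ ε' * (ps.map Dq.s1).prod ^ J * ((1 + Bd') * X ^ A) := by ring
      _ ≤ C * X ^ ε * (ps.map Dq.s1).prod ^ J * (2 * (X ^ A + Bd)) := by gcongr
      _ = (2 * C) * X ^ ε * (ps.map Dq.s1).prod ^ J * (X ^ A + Bd) := by ring
      _ ≤ (2 * C + CR) * X ^ ε * (ps.map Dq.s1).prod ^ J * (X ^ A + Bd) := by
          have : 0 ≤ X ^ A + Bd := by linarith
          gcongr
          linarith
  · intro q ps₁ Lv N₀ N₁ hf hq hqX hps₁ hLv
    refine hR3 X hX3 ((le_max_right _ _).trans hXX) ps hlen (fun q hq => ⟨(hps q hq).1,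
        (hps q hq).2.trans (mul_le_mul_of_nonneg_right hcc1 (by rw [← hl]; exact hl0.le))⟩)
      (fun q hq => (hs2 q hq).trans (Real.rpow_le_rpow_of_exponent_le hX1 hcc1)) q ps₁ Lv N₀ N₁ hf
      hq (hqX.trans (Real.rpow_le_rpow_of_exponent_le hX1 hcc2)) hps₁ Bd' hBd'1 ?_
    intro j θ x ps' hx hxl hch hLL hG hz
    rw [← hl] at hG hLL hz
    have hLF0 : 0 ≤ LF ps₁ := LF_nonneg hps₁.z_nonneg
    have hLv0 := hf.v0
    have hhi := hf.hi
    have hlo := hf.lo
    rw [← hl, ← hn] at hhi hlo hLv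
    have hKl : 0 ≤ K * l := by positivity
    have hcl : 60 * (c * l) ≤ K * l := by
      rw [← mul_assoc]; exact mul_le_mul_of_nonneg_right hcK hl0.le
    have hel1 : ε' * l ≤ 1 * l := mul_le_mul_of_nonneg_right he3 hl0.le
    have hee : ε' * l ≤ ε * l := mul_le_mul_of_nonneg_right he1 hl0.le
    have hel0 : 0 ≤ ε' * l := by positivity
    have hθm : (![LF ps₁ / l, Lv / l] : Fin 2 → ℝ) ∈ Set.Icc (0 : Fin 2 → ℝ) (fun _ => TK K) := by
      constructor
      · intro i
        fin_cases i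
        · show (0 : ℝ) ≤ LF ps₁ / l
          positivity
        · show (0 : ℝ) ≤ Lv / l
          positivity
      · intro i
        fin_cases i
        · show LF ps₁ / l ≤ TK K
          rw [div_le_iff₀ hl0, hTK]
          linarith
        · show Lv / l ≤ TK K
          rw [div_le_iff₀ hl0, hTK]
          linarith
    have h2 := hprem (.q j) (⟨_, hθm⟩, θ) x ps' hx hxl
      (Chd.mono' (le_max_right _ _) hbmax2 hch) ?_ (fun hzl q hq hql => by
        have h3 := hz hzl q hq hql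
        rw [← hl]
        linarith)
    · have h3 : (L j).Φ lam x ((L j).b θ.1 * Real.log X) ps' ≤ Bd * cst hcost ps' ps ^ M *
          X ^ (4 / 3 * (LF ps₁ / l) + (Lv / l + K) / 3 +
            (L j).F ![K, Lv / l, LF ps₁ / l, xv Dq X k ps x ps' 2, xv Dq X k ps x ps' 3] θ.1 -
            Ar K ![xv Dq X k ps x ps' 0, xv Dq X k ps x ps' 1]) := h2
      rw [hx0, hx1, hx2, hx3, hAeq, Real.rpow_sub hX0, div_eq_mul_inv, ← Real.rpow_neg hX0.le] at h3
      rw [← hl] at h3 ⊢
      refine h3.trans ?_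
      have h4 : 0 ≤ X ^ (4 / 3 * (LF ps₁ / l) + (Lv / l + K) / 3 +
            (L j).F ![K, Lv / l, LF ps₁ / l, x / l, LL Dq ps' / l] θ.1) :=
        Real.rpow_nonneg hX0.le _
      have h5 := hcst ps'
      calc Bd * cst hcost ps' ps ^ M * (X ^ (4 / 3 * (LF ps₁ / l) + (Lv / l + K) / 3 +
            (L j).F ![K, Lv / l, LF ps₁ / l, x / l, LL Dq ps' / l] θ.1) * X ^ (-A)) =
          (Bd * X ^ (-A)) * cst hcost ps' ps ^ M * X ^ (4 / 3 * (LF ps₁ / l) +
            (Lv / l + K) / 3 +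
            (L j).F ![K, Lv / l, LF ps₁ / l, x / l, LL Dq ps' / l] θ.1) := by ring
        _ ≤ _ := by gcongr
    · show max (max (LF ps₁ / l - xv Dq X k ps x ps' 1) (xv Dq X k ps x ps' 3 - LF ps₁ / l))
        (max (max (xv Dq X k ps x ps' 1 - LF ps₁ / l - 2 * c)
          (Lv / l - v - (xv Dq X k ps x ps' 1 - LF ps₁ / l)))
          ((L j).G ![K, Lv / l, LF ps₁ / l, xv Dq X k ps x ps' 2, xv Dq X k ps x ps' 3] θ.1)) ≤ ε
      rw [hx1, hx2, hx3]
      refine max_le (max_le (gdiv (a := LF ps₁ - n) ?_ ?_) (gdiv (a := LL Dq ps' - LF ps₁) ?_ ?_))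
        (max_le (max_le (gdiv (a := n - LF ps₁ - 2 * c * l) ?_ ?_)
          (gdiv (a := Lv - v * l - (n - LF ps₁)) ?_ ?_)) ?_)
      · linarith
      · field_simp
      · linarith
      · field_simp
      · linarith
      · field_simp
      · linarith
      · field_simp
      · exact hG.trans (by linarith)

end Crest.Agent.R017.RG64
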