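import Crest.Agent.R017.BsG_521
import Crest.Agent.R017.RGn_64

/-!
# Row 17, C.REMg, the Bessel side, part H (helper521): the finite theorem of the terminal bound

* `bess_fin` : `BessFin` (helper545) from the lower bound `LBN` and the leaf `RLeaf` (class N)
-/

set_option autoImplicit false

noncomputable section

open Complex
open scoped ComplexConjugate

namespace Crest.Agent.R017.Bs521

open Crest.Agent.R012 Crest.Agent.R012.Eis Crest.Agent.R012.LS2 Crest.Agent.R012.Gauss880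
open Crest.Agent.R012.MC (Wgt)
open Crest.Agent.R017.CM106 Crest.Agent.R017.HP842 Crest.Agent.R017.FE47
open Crest.Agent.R017.B770
open Crest.Agent.R017.Prov71
open Crest.Agent.R017.Leg381
open Crest.Agent.R017.E1551 (cP)
open Crest.Agent.R017.RG64
open Crest.Agent.R017.RGB545
open Crest.Agent.R017.RuleM545
open Crest.Agent.R017.XRG106 (RFp)
open Crest.Agent.R017.XP699 (LL Chd hcost cst)

variable {Lam ι : Type*} {p : ℕ}

set_option maxHeartbeats 1600000 in
/-- **the finite theorem of the terminal bound**, class N -/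
theorem bess_fin {π : Lam → DPar} (hP : ∀ lam, (π lam).OK) {h : ℝ → ℝ} {c₂ : ℝ} (hpu : PU h c₂)
    {w : ℝ → ℝ} (hw : Wgt w) (hw0 : ∀ x, 0 ≤ w x) (hcw : 0 < cP w)
    {Rh RR : ℝ → LBp → (Eis → ℂ) → ℝ → Prop} (hLB : ∀ Λ : ℝ, 1 ≤ Λ → LBN w Λ (Rh Λ))
    {H : ℝ} (hH : 0 ≤ H)
    (hRR : ∀ (Λ : ℝ) (p : LBp) (α : Eis → ℂ) (R₁ R₂ Rn : ℝ), 1 ≤ Λ → 0 ≤ p.K → 0 ≤ p.X →
      1 ≤ p.E0 → RR Λ p α R₁ → SqS w H p α R₂ → R₁ ≤ Rn → R₂ ≤ Rn → Rh Λ p α Rn)
    {L : ι → Line Lam p} {K c : ℝ} (hc : 0 < c) (hcK : 60 * c ≤ K) (hHc : H * c ≤ K)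
    (hleaf : RLeafL π h RR L K c (8 * (K + 1))) :
    BessFin (fun lam l ps => RFp (π lam) h l ps) (fun lam => S0p (π lam) h) L
      (min c 1 / 100) K c := by
  have hK : 0 < K := by linarith
  intro lam N c₀ hc₀
  obtain ⟨c₀', hc₀'⟩ : ∃ x : ℝ, x = max c₀ (K + 1) := ⟨_, rfl⟩
  have hcc1 : c₀ ≤ c₀' := by rw [hc₀']; exact le_max_left _ _
  have hcc2 : K + 1 ≤ c₀' := by rw [hc₀']; exact le_max_right _ _
  obtain ⟨BR, hBR, hR1⟩ := hleaf lam N c₀' (hc₀.trans hcc1)
  refine ⟨max BR c₀', le_max_of_le_left hBR, ?_⟩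
  intro ε M hε hM
  obtain ⟨ε', hε'⟩ : ∃ x : ℝ, x = min ε (min c 1) := ⟨_, rfl⟩
  have he1 : ε' ≤ ε := by rw [hε']; exact min_le_left _ _
  have he2 : ε' ≤ c := by rw [hε']; exact (min_le_right _ _).trans (min_le_left _ _)
  have he3 : ε' ≤ 1 := by rw [hε']; exact (min_le_right _ _).trans (min_le_right _ _)
  have he0 : 0 < ε' := by rw [hε']; exact lt_min hε (lt_min hc one_pos)
  have hmin : min (ε / 100) (min c 1 / 100) = ε' / 100 := by
    rw [hε', min_div_div_right (by norm_num : (0 : ℝ) ≤ 100)]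
  obtain ⟨J₀, δ₀, hJ₀, hδ₀, hR2⟩ := hR1 (ε' / 4) M (by positivity) hM
  obtain ⟨Jn, Aw, Cw, R, hJn, hAw, hCw, hR, hcore⟩ :=
    bess_core hpu hw hw0 hcw hLB hH hRR hc hcK hHc N (c₀ := c₀') (M := M) hcc2 he0 he3 he2 hM
      hJ₀
  obtain ⟨CR, rR, XR, Λ, hCR, hrR, hΛ, hR3⟩ := hR2 0 Jn Aw Cw R (1 / 2) 0 le_rfl hδ₀.le hJn hAw
    hCw hR one_half_pos le_rfl le_rfl
  obtain ⟨C, r, J, X₁, hC, hr, hJ, hX⟩ := hcore CR Λ hCR hΛ
  refine ⟨2 * C + CR, max r rR, J, max X₁ XR, by positivity, le_max_of_le_left hr, hJ, ?_⟩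
  intro X hX3 hXX k ps hk0 hkc hlen hps hs2 hHp Bd hBd hprem
  have hX1 : (1 : ℝ) ≤ X := by linarith
  have hX0 : 0 < X := by linarith
  obtain ⟨l, hl⟩ : ∃ x : ℝ, x = Real.log X := ⟨_, rfl⟩
  have hl0 : 0 < l := by rw [hl]; exact Real.log_pos (by linarith)
  have hpowX : ∀ x : ℝ, X ^ x = Real.exp (x * l) := fun x => by
    rw [Real.rpow_def_of_pos hX0, hl, mul_comm]
  obtain ⟨n, hn⟩ : ∃ x : ℝ, x = LL Dq ps := ⟨_, rfl⟩
  have hn0 : 0 ≤ n := by
    rw [hn]
    unfold LL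
    refine List.sum_nonneg fun x hx => ?_
    obtain ⟨q, hq, rfl⟩ := List.mem_map.1 hx
    exact (hps q hq).1
  -- the parent
  unfold Hmin at hHp
  rw [hmin] at hHp
  have p1 := (le_max_left _ _).trans hHp
  have p2 := (le_max_left _ _).trans ((le_max_right _ _).trans hHp)
  have p3 := (le_max_right _ _).trans ((le_max_right _ _).trans hHp)
  have e0 : (![k / Real.log X, LL Dq ps / Real.log X] : Fin 2 → ℝ) 0 = k / l := by rw [hl]; rfl
  have e1 : (![k / Real.log X, LL Dq ps / Real.log X] : Fin 2 → ℝ) 1 = n / l := by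
    rw [hl, hn]; rfl
  rw [e0, e1] at p1
  rw [e0] at p2
  rw [e1] at p3
  have hkl : k = k / l * l := by field_simp
  have hnl : n = n / l * l := by field_simp
  have hcl : 0 ≤ c * l := by positivity
  have hel : 0 ≤ ε' / 100 * l := by positivity
  have hKl : 0 ≤ K * l := by positivity
  have hk3 : 3 * k + 300 * (c * l) ≤ 2 * (K * l) + ε' / 100 * l := by
    have q2 := mul_le_mul_of_nonneg_right p2 hl0.le
    have : (3 * (k / l) + 300 * c - 2 * K) * l = 3 * k + 300 * (c * l) - 2 * (K * l) := by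
      have : 3 * (k / l) * l = 3 * k := by rw [mul_assoc, ← hkl]
      rw [sub_mul, add_mul, this]; ring
    linarith
  have hkn : k ≤ 2 * n + ε' / 100 * l := by
    have q1 := mul_le_mul_of_nonneg_right p1 hl0.le
    have : (k / l - 2 * (n / l)) * l = k - 2 * n := by
      have : 2 * (n / l) * l = 2 * n := by rw [mul_assoc, ← hnl]
      rw [sub_mul, this, ← hkl]
    linarith
  have hn6 : 6 * n ≤ 5 * (K * l) + ε' / 100 * l := by
    have q3 := mul_le_mul_of_nonneg_right p3 hl0.le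
    have : (6 * (n / l) - 5 * K) * l = 6 * n - 5 * (K * l) := by
      have : 6 * (n / l) * l = 6 * n := by rw [mul_assoc, ← hnl]
      rw [sub_mul, this]; ring
    linarith
  -- the exponent
  obtain ⟨A, hA⟩ : ∃ x : ℝ, x = RGB545.Ab K ![k / Real.log X, LL Dq ps / Real.log X] := ⟨_, rfl⟩
  have hAl : A * l = ex0 (K * l) k n := by
    rw [hA]
    unfold RGB545.Ab ex0
    rw [e0, e1]
    field_simp
  have hXA : X ^ A = Real.exp (ex0 (K * l) k n) := by rw [hpowX, hAl]
  have hXA0 : 0 < X ^ A := Real.rpow_pos_of_pos hX0 _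
  have hXAn : X ^ (-A) * X ^ A = 1 := by rw [← Real.rpow_add hX0]; simp
  obtain ⟨Bd', hBd'⟩ : ∃ x : ℝ, x = 1 + Bd * X ^ (-A) := ⟨_, rfl⟩
  have hXn0 : 0 ≤ X ^ (-A) := Real.rpow_nonneg hX0.le _
  have hBd'1 : 1 ≤ Bd' := by rw [hBd']; have := mul_nonneg hBd hXn0; linarith
  have hBd'2 : Bd * X ^ (-A) ≤ Bd' := by rw [hBd']; linarith
  have hTK : TK K = 10 * (K + 1) := rfl
  have hTK0 : 0 ≤ TK K := by rw [hTK]; linarith
  have h0p : (0 : Fin p → ℝ) ∈ Set.Icc (0 : Fin p → ℝ) (fun _ => TK K) :=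
    ⟨le_rfl, fun _ => hTK0⟩
  have hbmax : C * X ^ c₀' ≤ (2 * C + CR) * X ^ max BR c₀' := by
    have h1 : X ^ c₀' ≤ X ^ max BR c₀' :=
      Real.rpow_le_rpow_of_exponent_le hX1 (le_max_right _ _)
    calc C * X ^ c₀' ≤ (2 * C + CR) * X ^ c₀' := by gcongr; linarith
      _ ≤ _ := by gcongr
  have hbmax2 : CR * X ^ BR ≤ (2 * C + CR) * X ^ max BR c₀' := by
    have h1 : X ^ BR ≤ X ^ max BR c₀' :=
      Real.rpow_le_rpow_of_exponent_le hX1 (le_max_left _ _)
    calc CR * X ^ BR ≤ (2 * C + CR) * X ^ BR := by gcongr; linarith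
      _ ≤ _ := by gcongr
  have hcst : ∀ ps' : List Pq, 0 ≤ cst hcost ps' ps ^ M := fun ps' =>
    Real.rpow_nonneg (zero_le_one.trans (XP699.one_le_cst XP699.one_le_hcost _ _)) _
  have hx0 : ∀ (x : ℝ) (ps' : List Pq), xv Dq X k ps x ps' 0 = k / l := fun x ps' => by
    rw [hl]; rfl
  have hx1 : ∀ (x : ℝ) (ps' : List Pq), xv Dq X k ps x ps' 1 = n / l := fun x ps' => by
    rw [hl, hn]; rfl
  have hx2 : ∀ (x : ℝ) (ps' : List Pq), xv Dq X k ps x ps' 2 = x / l := fun x ps' => by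
    rw [hl]; rfl
  have hx3 : ∀ (x : ℝ) (ps' : List Pq), xv Dq X k ps x ps' 3 = LL Dq ps' / l := fun x ps' => by
    rw [hl]; rfl
  have conv : ∀ (S : ℝ) (E E' : ℝ) (B : ℝ), E * l = E' - A * l →
      S ≤ Bd * B * X ^ E → 0 ≤ B → S ≤ Bd' * B * Real.exp E' := by
    intro S E E' B hE h1 hB
    refine h1.trans ?_
    have h2 : X ^ E = X ^ (-A) * Real.exp E' := by
      rw [hpowX, hpowX, ← Real.exp_add]
      congr 1
      linarith
    rw [h2]
    calc Bd * B * (X ^ (-A) * Real.exp E') = (Bd * X ^ (-A)) * B * Real.exp E' := by ring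
      _ ≤ Bd' * B * Real.exp E' := by gcongr
  have gdiv : ∀ {a b' c' : ℝ}, a ≤ b' * l → c' = a / l → c' ≤ b' := by
    intro a b' c' h1 h2
    rw [h2, div_le_iff₀ hl0]
    exact h1
  have hee : ε' * l ≤ ε * l := mul_le_mul_of_nonneg_right he1 hl0.le
  have hel1 : ε' * l ≤ 1 * l := mul_le_mul_of_nonneg_right he3 hl0.le
  have hec : ε' * l ≤ c * l := mul_le_mul_of_nonneg_right he2 hl0.le
  have hel0 : 0 ≤ ε' * l := by positivity
  have h10 : 10 * (K + 1) * l = 10 * (K * l) + 10 * l := by ring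
  have key := hX X hX3 ((le_max_left _ _).trans hXX) (π lam) (hP lam) k ps hlen
    (fun q hq => (hps q hq).1) (fun q hq => (hps q hq).2.trans
      (mul_le_mul_of_nonneg_right hcc1 (by rw [← hl]; exact hl0.le))) hk0
    (by rw [← hl]; linarith) (by rw [← hl, ← hn]; linarith) Bd' (by linarith) ?_ ?_ ?_
  · rw [← hl, ← hn] at key
    refine key.trans ?_
    rw [← hA, ← hXA]
    have h1 : (1 + Bd') * X ^ A ≤ 2 * (X ^ A + Bd) := by
      rw [hBd']
      calc (1 + (1 + Bd * X ^ (-A))) * X ^ A = 2 * X ^ A + Bd * (X ^ (-A) * X ^ A) := by ring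
        _ = 2 * X ^ A + Bd := by rw [hXAn, mul_one]
        _ ≤ _ := by linarith
    have hs1 : 0 ≤ (ps.map Dq.s1).prod := by
      rw [← RXg848.Ht_natl]
      have := one_le_Ht (natl ps)
      linarith
    have h2 : 0 ≤ (ps.map Dq.s1).prod ^ J := Real.rpow_nonneg hs1 _
    have h3 : X ^ ε' ≤ X ^ ε := Real.rpow_le_rpow_of_exponent_le hX1 he1
    calc C * X ^ ε' * (ps.map Dq.s1).prod ^ J * (1 + Bd') * X ^ A =
        C * X ^ ε' * (ps.map Dq.s1).prod ^ J * ((1 + Bd') * X ^ A) := by ring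
      _ ≤ C * X ^ ε * (ps.map Dq.s1).prod ^ J * (2 * (X ^ A + Bd)) := by gcongr
      _ = (2 * C) * X ^ ε * (ps.map Dq.s1).prod ^ J * (X ^ A + Bd) := by ring
      _ ≤ (2 * C + CR) * X ^ ε * (ps.map Dq.s1).prod ^ J * (X ^ A + Bd) := by
          have : 0 ≤ X ^ A + Bd := by linarith
          gcongr
          linarith
  · -- the Gauss side
    intro x ps' hx hxl hch
    have hLL := LL_nonneg_of_chd hch
    rw [← hl, ← hn] at hxl
    have h2 := hprem .tb ⟨0, h0p⟩ x ps' hx (by rw [← hl, hTK]; linarith)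
      (Chd.mono' (le_max_left _ _) hbmax hch) ?_ (fun hz => hz.elim)
    · refine conv _ _ _ _ ?_ h2 (hcst ps')
      show (-(4 / 3 * (xv Dq X k ps x ps' 1 - xv Dq X k ps x ps' 3)) -
        (xv Dq X k ps x ps' 0 - xv Dq X k ps x ps' 2) / 3 +
        max 0 (2 / 3 * (xv Dq X k ps x ps' 1 - xv Dq X k ps x ps' 3) +
          (xv Dq X k ps x ps' 2 - xv Dq X k ps x ps' 0) / 3 - c) + c / 2) * l = _
      rw [hx0, hx1, hx2, hx3, hAl, ← hl, ← hn, add_mul, add_mul,
        max_mul_of_nonneg _ _ hl0.le, zero_mul]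
      unfold exJ ex0
      have h3 : (-(4 / 3 * (n / l - LL Dq ps' / l)) - (k / l - x / l) / 3) * l =
          -(4 / 3 * (n - LL Dq ps')) - (k - x) / 3 := by
        field_simp
      have h4 : (2 / 3 * (n / l - LL Dq ps' / l) + (x / l - k / l) / 3 - c) * l =
          n - LL Dq ps' - (n - LL Dq ps' - (x - k)) / 3 - c * l := by
        field_simp
        ring
      rw [h3, h4]
      ring
    · show xv Dq X k ps x ps' 2 - xv Dq X k ps x ps' 0 -
        (xv Dq X k ps x ps' 1 - xv Dq X k ps x ps' 3) ≤ ε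
      rw [hx0, hx1, hx2, hx3]
      refine gdiv (a := x - k - (n - LL Dq ps')) ?_ ?_
      · linarith
      · field_simp
  · -- the character side
    intro x ps' hx hxl hch
    have hLL := LL_nonneg_of_chd hch
    have hxl' : x ≤ K * l + ε' * l := by rw [← hl] at hxl; linarith
    have h2 := hprem .r ⟨0, h0p⟩ x ps' hx (by rw [← hl, hTK]; linarith)
      (Chd.mono' (le_max_left _ _) hbmax hch) ?_ (fun hz => hz.elim)
    · refine conv _ _ _ _ ?_ h2 (hcst ps')
      show (-((xv Dq X k ps x ps' 1 - xv Dq X k ps x ps' 3) + (K - xv Dq X k ps x ps' 2) / 3 +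
        (xv Dq X k ps x ps' 0 + xv Dq X k ps x ps' 1 - 2 * K) / 3)) * l = _
      rw [hx0, hx1, hx2, hx3, hAl, ← hl]
      unfold ex0
      field_simp
      ring
    · show xv Dq X k ps x ps' 2 - K ≤ ε
      rw [hx2]
      refine gdiv (a := x - K * l) ?_ ?_
      · linarith
      · field_simp
  · -- the R-side hypotheses
    have hf : RFacts K c (ε' / 4) X ps (natl ps) k (N0f k) (N1f k) := by
      constructor
      · rw [← hl, ← hn]; linarith
      · rw [← hl, RXg848.LF_natl, ← hn]; linarith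
      · rw [← hl, RXg848.LF_natl, ← hn]; linarith
      · exact hk0
      · rw [← hl]; linarith
      · exact exp_le_N0f k
      · exact N0f_le_N1f k
      · exact N1f_le hk0
      · rw [← hl, ← hn]; linarith
      · rw [← hl, RXg848.LF_natl, ← hn]; linarith
      · exact two_N0f_le k
      · linarith
    have key2 := hR3 X hX3 ((le_max_right _ _).trans hXX) ps hlen (fun q hq => ⟨(hps q hq).1,
        (hps q hq).2.trans (mul_le_mul_of_nonneg_right hcc1 (by rw [← hl]; exact hl0.le))⟩)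
      (fun q hq => (hs2 q hq).trans (Real.rpow_le_rpow_of_exponent_le hX1 hcc1)) 1 (natl ps) k
      (N0f k) (N1f k) hf isPrim_one (by
        rw [nm_one]
        push_cast
        exact Real.one_le_rpow hX1 (by linarith)) (RG64.SbL_natl fun q hq => (hps q hq).1)
      Bd' hBd'1 ?_
    · rw [RXg848.LF_natl] at key2
      exact key2
    · intro j θ x ps' hx hxl hch hLL hG hz
      rw [RXg848.LF_natl] at hG ⊢
      have h2 := hprem (.q j) θ x ps' hx hxl (Chd.mono' (le_max_right _ _) hbmax2 hch) ?_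
        (fun hzl q hq hql => by
          have h3 := hz hzl q hq hql
          rw [← hl] at h3 ⊢
          linarith)
      · have h3 : (L j).Φ lam x ((L j).b θ.1 * Real.log X) ps' ≤ Bd * cst hcost ps' ps ^ M *
            X ^ ((L j).F ![K, k / Real.log X, LL Dq ps / Real.log X, x / Real.log X,
              LL Dq ps' / Real.log X] θ.1) := h2
        refine h3.trans ?_
        obtain ⟨F, hF⟩ : ∃ F : ℝ, F = (L j).F ![K, k / Real.log X, LL Dq ps / Real.log X,
          x / Real.log X, LL Dq ps' / Real.log X] θ.1 := ⟨_, rfl⟩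
        rw [← hF]
        have h4 : X ^ (4 / 3 * (LL Dq ps / Real.log X) + (k / Real.log X + K) / 3 + F) =
            X ^ A * X ^ F := by
          rw [← Real.rpow_add hX0, hA]
          rfl
        rw [h4]
        have h5 := hcst ps'
        have h6 : 0 ≤ X ^ F := Real.rpow_nonneg hX0.le _
        calc Bd * cst hcost ps' ps ^ M * X ^ F =
            (Bd * (X ^ (-A) * X ^ A)) * cst hcost ps' ps ^ M * X ^ F := by rw [hXAn, mul_one]
          _ = (Bd * X ^ (-A)) * cst hcost ps' ps ^ M * (X ^ A * X ^ F) := by ring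
          _ ≤ _ := by gcongr
      · show (L j).G ![K, k / Real.log X, LL Dq ps / Real.log X, x / Real.log X,
          LL Dq ps' / Real.log X] θ.1 ≤ ε
        exact hG.trans (by linarith)

end Crest.Agent.R017.Bs521
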