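import Crest.Agent.R017.Cst_401
import Mathlib.Analysis.Calculus.BumpFunction.FiniteDimension

/-!
# Row 17, C.REMg, the Bessel side, part I (helper521): the weight

* `cP_pos` : `0 < cP w` for `w ≥ 0`, `w ≠ 0`
* `exists_wgt` : a weight
-/

set_option autoImplicit false

noncomputable section

open MeasureTheory Set

namespace Crest.Agent.R017.Bs521

open Crest.Agent.R012 Crest.Agent.R012.Eis Crest.Agent.R012.MC
open Crest.Agent.R017.E1551 (cP)

/-- positivity of the Mellin transform -/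
theorem mel_pos {w : ℝ → ℝ} (hw : Wgt w) (hw0 : ∀ x, 0 ≤ w x) {x₀ : ℝ} (hx₀ : w x₀ ≠ 0)
    (s : ℝ) : 0 < mel w s := by
  have hx0 : 0 < x₀ := hw.pos (subset_tsupport w hx₀)
  have hc : Continuous fun x : ℝ => w x * x ^ (s - 1) := by
    rw [continuous_iff_continuousAt]
    intro x
    by_cases hx : x ∈ tsupport w
    · have hx1 : 0 < x := hw.pos hx
      exact hw.smooth.continuous.continuousAt.mul
        (Real.continuousAt_rpow_const x (s - 1) (Or.inl hx1.ne'))
    · have h1 : w =ᶠ[nhds x] 0 := notMem_tsupport_iff_eventuallyEq.1 hx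
      have h2 : (fun x : ℝ => w x * x ^ (s - 1)) =ᶠ[nhds x] fun _ => 0 := by
        filter_upwards [h1] with y hy
        rw [hy]
        simp
      exact (continuousAt_const.congr h2.symm)
  have hn : 0 ≤ fun x : ℝ => w x * x ^ (s - 1) := by
    intro x
    by_cases hx : 0 ≤ x
    · exact mul_nonneg (hw0 x) (Real.rpow_nonneg hx _)
    · have : w x = 0 := by
        by_contra h
        exact hx (le_of_lt (hw.pos (subset_tsupport w h)))
      show 0 ≤ w x * x ^ (s - 1)
      rw [this, zero_mul]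
  have hs : HasCompactSupport fun x : ℝ => w x * x ^ (s - 1) := hw.cpt.mul_right
  have key : 0 < ∫ x : ℝ, w x * x ^ (s - 1) :=
    hc.integral_pos_of_hasCompactSupport_nonneg_nonzero hs hn
      (x := x₀) (mul_ne_zero hx₀ (Real.rpow_pos_of_pos hx0 _).ne')
  have e1 : ∫ x in Ioi (0 : ℝ), w x * x ^ (s - 1) = ∫ x : ℝ, w x * x ^ (s - 1) := by
    refine setIntegral_eq_integral_of_forall_compl_eq_zero fun x hx => ?_
    have : w x = 0 := by
      by_contra h
      exact hx (hw.pos (subset_tsupport w h))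
    rw [this, zero_mul]
  unfold mel
  rw [e1]
  exact key

/-- **the constant of the main term is positive** -/
theorem cP_pos {w : ℝ → ℝ} (hw : Wgt w) (hw0 : ∀ x, 0 ≤ w x) {x₀ : ℝ} (hx₀ : w x₀ ≠ 0) :
    0 < cP w := by
  have h1 := Cst401.two_cP hw
  have h2 := Cst401.pC_pos
  have h3 := Cst401.kap0_pos
  have h4 := mel_pos hw hw0 hx₀ (2 / 3)
  have : 0 < 2 * cP w := by
    rw [h1]; positivity
  linarith

/-- **a weight** -/
theorem exists_wgt : ∃ w : ℝ → ℝ, Wgt w ∧ (∀ x, 0 ≤ w x) ∧ 0 < cP w := by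
  let f : ContDiffBump (2 : ℝ) := ⟨1 / 2, 1, by norm_num, by norm_num⟩
  have hw : Wgt (f : ℝ → ℝ) := by
    refine ⟨f.contDiff, f.hasCompactSupport, ?_⟩
    rw [f.tsupport_eq]
    intro x hx
    have h1 : dist x 2 ≤ 1 := Metric.mem_closedBall.1 hx
    rw [Real.dist_eq] at h1
    have := (abs_le.1 h1).1
    show 0 < x
    linarith
  refine ⟨f, hw, fun x => f.nonneg, cP_pos hw (fun x => f.nonneg) (x₀ := 2) ?_⟩
  have : f (2 : ℝ) = 1 := f.one_of_mem_closedBall (Metric.mem_closedBall_self (by norm_num))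
  rw [this]
  norm_num

end Crest.Agent.R017.Bs521
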