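import Crest.Agent.R017.QLr_777

/-!
# Row 17, section D: (r2**) and (r3) from the lines, the lines from the domain (helper777)

* `r2ok_lines` : `R2ok` from `Ln`
* `r3_lines` : the Gram line from `Ln`
* `Dom`, `Dom.ln` : the domain of the (TB) induction (49 #26880) and its lines
-/

set_option autoImplicit false

noncomputable section

namespace Crest.Agent.R017.SC777

open Crest.Agent.R017.ER911

variable {d : ℝ} {r s : EF}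

/-- **(r2**) from the lines** -/
theorem r2ok_lines (R : ExpRules (7 / 8 + d) r s) (hd : 0 ≤ d) (hd8 : 8 * d ≤ 1)
    {K v n E C₁ w₁ D μ : ℝ} (H : Ln K v n E C₁ w₁ D (2 * μ)) (hμ : 0 ≤ μ) (hμK : 60 * μ ≤ K)
    (hD : 2 * d * (C₁ + w₁) ≤ D) {z₁ z₂ z₃ m a : ℝ} (h1 : 0 ≤ z₁) (h2 : 0 ≤ z₂) (h3 : 0 ≤ z₃)
    (hm : 0 ≤ m) (ha : 0 ≤ a) (hC : z₃ ≤ C₁) (hw : m + a ≤ w₁) :
    R2ok (7 / 8 + d) r s μ K v n {z₁, z₂, z₃} m a E := by
  intro i b g t hi hb hg ht hlen hi1 hi2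
  rw [sum3] at hlen
  have hD0 : 0 ≤ D := (mul_nonneg (mul_nonneg two_pos.le hd) (by linarith)).trans hD
  have hc : Chi d z₁ z₂ z₃ m a (z₁ + z₂ + z₃ + m + a) (z₃ + m + a) D :=
    ⟨h1, h2, h3, hm, ha, rfl, le_rfl,
      (mul_le_mul_of_nonneg_left (by linarith) (by linarith)).trans hD, hd, hd8⟩
  have hdm : 8 * d * m ≤ 1 * m := mul_le_mul_of_nonneg_right hd8 hm
  have H' := H
  obtain ⟨n0, v0, v23, n56, c0, w0, c4, w3, wc, l0, l1, l2, l3, l4, l7, l8, l10, l11⟩ := H'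
  constructor
  · intro hv γ hγ hγi hγb
    refine full_TF R hc ?_ ?_ <;> linarith
  · intro hv g₂ hg0 hg1 hgi
    obtain ⟨W, hW⟩ : ∃ W, W = max v (max i (2 / 3 * (v + i))) := ⟨_, rfl⟩
    rw [← hW]
    obtain ⟨ρ, hρ⟩ : ∃ ρ, ρ = E + t - (v + n - 2 * K) / 3 - μ - g - W + i := ⟨_, rfl⟩
    rw [← hρ]
    obtain ⟨U, hU⟩ : ∃ U, U = max (max ((z₁ + z₂ + z₃ + m + a) / 3 + z₃ / 2)
        ((z₁ + z₂ + z₃ + m + a) / 3 + 4 / 15 * (z₃ + (m + a)))) (max (2 / 3 * (z₃ + (m + a)))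
          (m + a)) := ⟨_, rfl⟩
    have hcU : ChU z₃ (m + a) (z₁ + z₂ + z₃ + m + a) (z₃ + m + a) U := by
      have e : z₃ + m + a = z₃ + (m + a) := by ring
      rw [e]
      refine ⟨?_, ?_, ?_, ?_⟩
      · rw [hU]; exact (le_max_left _ _).trans (le_max_left _ _)
      · rw [hU]; exact (le_max_right _ _).trans (le_max_left _ _)
      · rw [hU]; exact (le_max_left _ _).trans (le_max_right _ _)
      · rw [hU]; exact (le_max_right _ _).trans (le_max_right _ _)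
    obtain ⟨hp, ht'⟩ := r2_tree H hμ hμK hD0 (z := z₁ + z₂) (C := z₃) (w := m + a)
      (n' := z₁ + z₂ + z₃ + m + a) (by linarith) h3 (by linarith) hC hw (by ring) hi hb hg ht
      hlen hi1 hi2 hv hW hρ hU
    have hp' : 2 * a + 2 * (7 / 8 + d) * m + (i + 2 * b) / 3 ≤ ρ := by linarith
    have eG : z₃ + (m + a) = z₃ + m + a := by ring
    rw [eG] at ht'
    rcases ht' with h | ⟨t0, t1, t2⟩ | ⟨v1, v2, v3⟩ | ⟨b1, b2, b3⟩ | ⟨b1, b2, b3⟩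
    · left
      exact full_TF R hc h hp'
    · left
      exact full_T R hc t0 t1 t2 hp'
    · left
      exact full_V R hc hcU v1 v2 v3 hp'
    · right; left
      exact pm_of R hc hcU (by linarith) (by linarith) (by linarith) (by linarith)
    · right; right
      exact pm_of R hc hcU (by linarith) (by linarith) (by linarith) (by linarith)

/-- **the Gram line from the lines** -/
theorem r3_lines (R : ExpRules (7 / 8 + d) r s) (hd : 0 ≤ d) (hd8 : 8 * d ≤ 1)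
    {K v n E C₁ w₁ D μ : ℝ} (H : Ln K v n E C₁ w₁ D (2 * μ)) (hμ : 0 ≤ μ)
    (hD : 2 * d * (C₁ + w₁) ≤ D) {z₁ z₂ z₃ m a n' : ℝ} (h1 : 0 ≤ z₁) (h2 : 0 ≤ z₂)
    (h3 : 0 ≤ z₃) (hm : 0 ≤ m) (ha : 0 ≤ a) (hC : z₃ ≤ C₁) (hw : m + a ≤ w₁)
    (hn' : n' = z₁ + z₂ + z₃ + m + a) (hnn : n' ≤ n) (hv : 0 ≤ v + n - K + μ) :
    Full (7 / 8 + d) r (v + n - K + μ) {z₁, z₂, z₃} m a
      (E - (n - n') - max 0 (max ((2 * v - K) / 3) ((3 * v - n - K) / 2)) - μ) := by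
  have hD0 : 0 ≤ D := (mul_nonneg (mul_nonneg two_pos.le hd) (by linarith)).trans hD
  have hc : Chi d z₁ z₂ z₃ m a n' (z₃ + m + a) D :=
    ⟨h1, h2, h3, hm, ha, hn', le_rfl,
      (mul_le_mul_of_nonneg_left (by linarith) (by linarith)).trans hD, hd, hd8⟩
  have hdm : 8 * d * m ≤ 1 * m := mul_le_mul_of_nonneg_right hd8 hm
  obtain ⟨n0, v0, v23, n56, c0, w0, c4, w3, wc, l0, l1, l2, l3, l4, l7, l8, l10, l11⟩ := H
  rcases max_cases 0 (max ((2 * v - K) / 3) ((3 * v - n - K) / 2)) with ⟨h, _⟩ | ⟨h, _⟩ <;> rw [h]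
  · refine full_TF R hc ?_ ?_ <;> linarith
  · rcases max_cases ((2 * v - K) / 3) ((3 * v - n - K) / 2) with ⟨h, _⟩ | ⟨h, _⟩ <;> rw [h] <;>
    refine full_TF R hc ?_ ?_ <;> linarith

/-- the state facts and the domain of the (TB) induction (49 #26880), room `e₀` -/
structure Dom (K₁ n₁ C₁ w₁ K v n E D M e₀ : ℝ) : Prop where
  c0 : 0 ≤ C₁
  w0 : 0 ≤ w₁
  wc : w₁ ≤ 3 * C₁
  w3 : 3 * w₁ ≤ K₁
  h4 : 4 * C₁ ≤ K₁
  h56 : 6 * n₁ ≤ 5 * K₁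
  h36 : 40 * n₁ + 9 * (C₁ + w₁) ≤ 36 * K₁
  h8 : 36 * n₁ + 6 * C₁ ≤ 31 * K₁
  h9 : 15 * n₁ + 2 * (C₁ + w₁) ≤ 13 * K₁
  h10 : 15 * n₁ + 3 * C₁ ≤ 13 * K₁
  kK : K₁ ≤ K
  n0 : 0 ≤ n
  nn : n ≤ n₁
  v0 : 0 ≤ v
  v23 : 3 * v ≤ 2 * K
  vn : 3 * (v + n) ≤ 9 * n₁ - 4 * K₁ + K + 3 * e₀
  sx : v + 3 * K₁ ≤ 2 * n + 2 * K + e₀
  e0 : 0 ≤ e₀
  el : 4 / 3 * n + v / 3 + K / 3 + D + M + 2 * e₀ ≤ E

/-- **the lines on the domain** -/
theorem Dom.ln {K₁ n₁ C₁ w₁ K v n E D M e₀ : ℝ} (H : Dom K₁ n₁ C₁ w₁ K v n E D M e₀) :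
    Ln K v n E C₁ w₁ D M := by
  obtain ⟨c0, w0, wc, w3, h4, h56, h36, h8, h9, h10, kK, n0, nn, v0, v23, vn, sx, e0, el⟩ := H
  constructor
  all_goals linarith

end Crest.Agent.R017.SC777
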