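import Crest.Agent.R017.RGy_590
import Crest.Agent.R017.QLs_777

/-!
# Row 17, section D: the side conditions `QL3` of the RG rule (helper777)

* `QL3` : the literal side conditions: (e0), (ga), (r2**), (R3), (sq), (D)
* `QL3_ln` : `QL3` from the lines `Ln`, (D) and (sq)
* `QL3_stat` : the static part of `QL3` at every state of T3a (`QStat`)
-/

set_option autoImplicit false

noncomputable section

namespace Crest.Agent.R017.SC777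

open Crest.Agent.R017.ER911

/-- the side conditions at family `K`, level `v`, side `(Y | m, a)` of total `n`, target `E`;
`Y', m', a'` (total `n'`) runs over the sub-sides -/
structure QL3 (θ : ℝ) (r s s₀ : EF) (c μ K v : ℝ) (Y : Multiset ℝ) (m a E : ℝ) : Prop where
  e0 : 0 ≤ E
  /-- merged block: complete family `i + 2 b` (gcd `γ`) -/
  ga : ∀ (Y' : Multiset ℝ) (m' a' n n' i b g t γ : ℝ), Sh Y' Y → 0 ≤ m' → m' ≤ m → 0 ≤ a' →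
    a' ≤ a → n = Y.sum + m + a → n' = Y'.sum + m' + a' → 0 ≤ i → 0 ≤ b → 0 ≤ g → 0 ≤ t →
    n' + b + g ≤ n → i ≤ v + n - K + 3 * t + b + μ → i + 2 * b + 3 * t ≤ K + μ →
    2 * (i + b) ≤ v → 0 ≤ γ → γ ≤ i → γ ≤ b →
    Full θ r (i + 2 * b - 3 * γ) Y' m' a'
      (E + t - (v + n - 2 * K) / 3 - μ - g - v + i + b - 2 * γ)
  /-- (R2) -/
  r2 : ∀ (Y' : Multiset ℝ) (m' a' n n' i b g t g₂ : ℝ), Sh Y' Y → 0 ≤ m' → m' ≤ m → 0 ≤ a' →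
    a' ≤ a → n = Y.sum + m + a → n' = Y'.sum + m' + a' → 0 ≤ i → 0 ≤ b → 0 ≤ g → 0 ≤ t →
    n' + b + g ≤ n → i ≤ v + n - K + 3 * t + b + μ → i + 2 * b + 3 * t ≤ K + μ →
    v ≤ 2 * (i + b) → 0 ≤ g₂ → g₂ ≤ g → 2 * g₂ ≤ i →
    Full θ r (i + 2 * b) Y' m' a'
      (E + t - (v + n - 2 * K) / 3 - μ - g - max v (max i (2 / 3 * (v + i))) + i) ∨
    PM s (i - 2 * g₂) (b + g₂) Y' m' a'
      (E + t - (v + n - 2 * K) / 3 - μ - g - max v (max i (2 / 3 * (v + i))) + i) ∨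
    PM s (b + g₂) (i - 2 * g₂) Y' m' a'
      (E + t - (v + n - 2 * K) / 3 - μ - g - max v (max i (2 / 3 * (v + i))) + i)
  /-- (R3) structured moment of the Gram part -/
  r3 : ∀ (Y' : Multiset ℝ) (m' a' n n' : ℝ), Sh Y' Y → 0 ≤ m' → m' ≤ m → 0 ≤ a' → a' ≤ a →
    n = Y.sum + m + a → n' = Y'.sum + m' + a' → 0 ≤ v + n - K + μ →
    Full θ r (v + n - K + μ) Y' m' a' 
      (E - (n - n') - max 0 (max ((2 * v - K) / 3) ((3 * v - n - K) / 2)) - μ)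
  /-- square parts: character side of the shorter children -/
  sq : ∀ (Y' : Multiset ℝ) (m' a' n n' κ' : ℝ), Sh Y' Y → 0 ≤ m' → m' ≤ m → 0 ≤ a' → a' ≤ a →
    n = Y.sum + m + a → n' = Y'.sum + m' + a' → c ≤ n - n' → 0 ≤ κ' → κ' ≤ K →
    r κ' Y' m' a' + (K - κ') / 3 + (n - n') + (v + n - 2 * K) / 3 ≤ E
  /-- square parts: principal frequencies -/
  sqc : ∀ (Y' : Multiset ℝ) (m' a' n n' : ℝ), Sh Y' Y → 0 ≤ m' → m' ≤ m → 0 ≤ a' → a' ≤ a →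
    n = Y.sum + m + a → n' = Y'.sum + m' + a' →
    2 * a' + 2 * θ * m' + K / 3 + (n - n') + (v + n - 2 * K) / 3 ≤ E
  /-- (D) direct side -/
  dd : ∀ (Y' : Multiset ℝ) (m' a' n n' : ℝ), Sh Y' Y → 0 ≤ m' → m' ≤ m → 0 ≤ a' → a' ≤ a →
    n = Y.sum + m + a → n' = Y'.sum + m' + a' → 2 * μ ≤ n - n' →
    s₀ (v + 2 * (n - n')) Y' m' a' ≤ E + (n - n') - μ

variable {d : ℝ} {r s s₀ : EF}

/-- **`QL3` from the lines, (D) and (sq)** -/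
theorem QL3_ln (R : ExpRules (7 / 8 + d) r s) (hd : 0 ≤ d) (hd8 : 8 * d ≤ 1)
    {c K v n E C₁ w₁ D μ : ℝ} (H : Ln K v n E C₁ w₁ D (2 * μ)) (hμ : 0 ≤ μ) (hμK : 60 * μ ≤ K)
    (hD : 2 * d * (C₁ + w₁) ≤ D) {z₁ z₂ z₃ m a : ℝ} (h1 : 0 ≤ z₁) (h2 : 0 ≤ z₂) (h3 : 0 ≤ z₃)
    (hm : 0 ≤ m) (ha : 0 ≤ a) (hC : z₃ ≤ C₁) (hw : m + a ≤ w₁)
    (hn : n = z₁ + z₂ + z₃ + m + a)
    (hdd : ∀ x₁ x₂ x₃ m₃ a₃ n₃ : ℝ, Sub3 x₁ x₂ x₃ m₃ a₃ z₁ z₂ z₃ m a →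
      n₃ = x₁ + x₂ + x₃ + m₃ + a₃ → 2 * μ ≤ n - n₃ →
      s₀ (v + 2 * (n - n₃)) {x₁, x₂, x₃} m₃ a₃ ≤ E + (n - n₃) - μ)
    (hsq : ∀ x₁ x₂ x₃ m₃ a₃ n₃ κ' : ℝ, Sub3 x₁ x₂ x₃ m₃ a₃ z₁ z₂ z₃ m a →
      n₃ = x₁ + x₂ + x₃ + m₃ + a₃ → c ≤ n - n₃ → 0 ≤ κ' → κ' ≤ K →
      r κ' {x₁, x₂, x₃} m₃ a₃ + (K - κ') / 3 + (n - n₃) + (v + n - 2 * K) / 3 ≤ E) :
    QL3 (7 / 8 + d) r s s₀ c μ K v {z₁, z₂, z₃} m a E := by
  have hD0 : 0 ≤ D := (mul_nonneg (mul_nonneg two_pos.le hd) (by linarith)).trans hD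
  have hl0 := H.l0
  have hn0 := H.n0
  have hv0 := H.v0
  have hw3 := H.w3
  have hw0 := H.w0
  constructor
  · linarith
  · intro Y' m' a' n₂ n' i b g t γ hY hm0 hm1 ha0 ha1 hn2 hn' hi hb hg ht hlen hi1 hi2 hv hγ hγi
      hγb
    obtain ⟨x₁, x₂, x₃, rfl, t0, t1, t2, t3, t4, t5⟩ := sh3 hY
    rw [sum3] at hn2 hn'
    obtain rfl : n₂ = n := by linarith
    exact (r2ok_lines R hd hd8 H hμ hμK hD t0 t2 t4 hm0 ha0 (by linarith) (by linarith) i b g t hi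
      hb hg ht (by rw [sum3]; linarith) hi1 hi2).1 hv γ hγ hγi hγb
  · intro Y' m' a' n₂ n' i b g t g₂ hY hm0 hm1 ha0 ha1 hn2 hn' hi hb hg ht hlen hi1 hi2 hv hg0 hg1
      hgi
    obtain ⟨x₁, x₂, x₃, rfl, t0, t1, t2, t3, t4, t5⟩ := sh3 hY
    rw [sum3] at hn2 hn'
    obtain rfl : n₂ = n := by linarith
    exact (r2ok_lines R hd hd8 H hμ hμK hD t0 t2 t4 hm0 ha0 (by linarith) (by linarith) i b g t hi
      hb hg ht (by rw [sum3]; linarith) hi1 hi2).2 hv g₂ hg0 hg1 hgi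
  · intro Y' m' a' n₂ n' hY hm0 hm1 ha0 ha1 hn2 hn' hv
    obtain ⟨x₁, x₂, x₃, rfl, t0, t1, t2, t3, t4, t5⟩ := sh3 hY
    rw [sum3] at hn2 hn'
    obtain rfl : n₂ = n := by linarith
    exact r3_lines R hd hd8 H hμ hD t0 t2 t4 hm0 ha0 (by linarith) (by linarith) hn'
      (by linarith) hv
  · intro Y' m' a' n₂ n' κ' hY hm0 hm1 ha0 ha1 hn2 hn' hc hκ0 hκ1
    obtain ⟨x₁, x₂, x₃, rfl, t0, t1, t2, t3, t4, t5⟩ := sh3 hY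
    rw [sum3] at hn2 hn'
    obtain rfl : n₂ = n := by linarith
    exact hsq x₁ x₂ x₃ m' a' n' κ' ⟨t0, t1, t2, t3, t4, t5, hm0, hm1, ha0, ha1⟩ hn' hc hκ0 hκ1
  · intro Y' m' a' n₂ n' hY hm0 hm1 ha0 ha1 hn2 hn'
    obtain ⟨x₁, x₂, x₃, rfl, t0, t1, t2, t3, t4, t5⟩ := sh3 hY
    rw [sum3] at hn2 hn'
    obtain rfl : n₂ = n := by linarith
    have hdm : 8 * d * m' ≤ 1 * m' := mul_le_mul_of_nonneg_right hd8 hm0
    linarith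
  · intro Y' m' a' n₂ n' hY hm0 hm1 ha0 ha1 hn2 hn' hc
    obtain ⟨x₁, x₂, x₃, rfl, t0, t1, t2, t3, t4, t5⟩ := sh3 hY
    rw [sum3] at hn2 hn'
    obtain rfl : n₂ = n := by linarith
    exact hdd x₁ x₂ x₃ m' a' n' ⟨t0, t1, t2, t3, t4, t5, hm0, hm1, ha0, ha1⟩ hn' hc

/-- the further hypotheses of T3a -/
structure T3K (κ A B C m a : ℝ) : Prop where
  h8 : 36 * (A + B + C + m + a) + 6 * C ≤ 31 * κ
  h9 : 17 * (A + B + C + m + a) ≤ 13 * κ + 2 * (A + B)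
  h10 : 15 * (A + B + C + m + a) + 3 * C ≤ 13 * κ

/-- **the static part of `QL3` at every state of T3a** -/
theorem QL3_stat (R : ExpRules (7 / 8 + d) r s) {κ A B C m a c μ F : ℝ}
    (H : T3Hy d κ A B C m a c (2 * μ) F) (HK : T3K κ A B C m a)
    (hF : 2 * d * (C + m + a) + 2 * μ + 400 * c ≤ F)
    {K A₁ B₁ C₁ m₁ a₁ n₁ : ℝ} (hS : St3 κ A B C m a K A₁ B₁ C₁ m₁ a₁ n₁) :
    QStat (QL3 (7 / 8 + d) r s s₀ c μ) r s₀ c μ F (3 * n₁ - 4 / 3 * K + 100 * c)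
      (3 * K - 200 * c) K A₁ B₁ C₁ m₁ a₁ n₁ := by
  intro K' v z₁ z₂ z₃ m₂ a₂ n₂ E hKK hsw _ hL hdd hsq
  obtain ⟨hκK, hsub, hn1, hw1, hw2, hw3, hw5⟩ := hS.toW H.toT3H
  obtain ⟨p0, p0', p6, p3, p7, p4, p8, p5, hn2, hn21⟩ := hsw
  obtain ⟨⟨v0, v23, d2, vs, sx, l0⟩, vv⟩ := hL
  have q1 := hsub.A1; have q2 := hsub.B1; have q3 := hsub.C1; have q4 := hsub.m1
  have q5 := hsub.a1
  have q0 := hsub.A0; have q0' := hsub.B0; have q6 := hsub.C0; have q7 := hsub.m0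
  have q8 := hsub.a0
  have hd := H.d0
  have hd8 := H.d8
  have hc0 := H.c0
  have hμ0 := H.μ0
  have hcκ := H.cκ
  have h4 := H.h4
  have h36 := H.h36
  have h56 := H.h56
  have h8 := HK.h8
  have h9 := HK.h9
  have h10 := HK.h10
  have hdom : Dom K n₁ C₁ (m₁ + a₁) K' v n₂ E (2 * d * (C + m + a)) (2 * μ) (200 * c) := by
    constructor <;> linarith
  refine QL3_ln R hd hd8 hdom.ln (by linarith) (by linarith) ?_ p0 p0' p6 p7 p8 p3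
    (by linarith) hn2 hdd hsq
  exact mul_le_mul_of_nonneg_left (by linarith) (by linarith)

end Crest.Agent.R017.SC777
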