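import Crest.Agent.R017.Mono3_858

/-!
# Row 17: monotonicity in the provider (helper858)

* `RQq Q P h l ps = RQ Q h l (ps.map (Pq.pc P))` (any `Q`; `Rp`, `Rc` are instances)
* `mono_858` : complete family at `κ` + one lump shortened by `ζ = (κ-κ')/3` at `κ'`
  ⟹ `BG .. κ' u w (E - ζ)`
* `monoK_858`, `monoS_858` : Gauss side; the shortened side is at `κ' + ζ`
-/

set_option autoImplicit false
set_option linter.unusedSectionVars false

noncomputable section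

open Complex Filter Topology
open scoped ComplexConjugate

namespace Crest.Agent.R017.Mono858

open Crest.Agent.R012 Crest.Agent.R012.Eis Crest.Agent.R012.LS2 Crest.Agent.R012.Gauss880
open Crest.Agent.R017.CM106 Crest.Agent.R017.FE47
open Crest.Agent.R017.HP842 (Ker ker_Kg KS sqc Kg pc alL)
open Crest.Agent.R017.XG702 (Pcs BG)
open Crest.Agent.R017.B770
open Crest.Agent.R017.Prov71
open Crest.Agent.R017.XC858 (SKq Sp_eq)

/-- the character side over the `k` with `Q k`, lists of provider pieces -/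
def RQq (Q : Eis → Prop) (P : DPar) (h : ℝ → ℝ) (l : ℝ) (ps : List Pq) : ℝ :=
  RQ Q h l (ps.map (Pq.pc P))

lemma RQq_Rp (P : DPar) (h : ℝ → ℝ) : Rp P h = RQq (Qp P) P h := rfl
lemma RQq_Rc (P : DPar) (h : ℝ → ℝ) : Rc P h = RQq P.NP2 P h := rfl

lemma FQ_sy {P : DPar} (hP : P.OK) {h : ℝ → ℝ} (hh : Bump h) (Q : Eis → Prop) :
    FQ (fun x m => sy x m) Q P h = RQq Q P h := by
  classical
  funext l ps
  unfold FQ RQq
  rw [RQ_eq hh l (by
    intro q hq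
    obtain ⟨q', _, rfl⟩ := List.mem_map.1 hq
    exact Pq.ok hP q')]
  refine Finset.sum_congr (by congr) fun x _ => ?_
  rw [Lam_CS]

lemma FQ_sy_all {P : DPar} (hP : P.OK) {h : ℝ → ℝ} (hh : Bump h) :
    FQ (fun x m => sy x m) (fun _ => True) P h = RQq (fun k => k ≠ 0) P h := by
  classical
  rw [← FQ_sy hP hh]
  funext l ps
  unfold FQ
  refine Finset.sum_congr ?_ fun _ _ => rfl
  ext x
  simp only [Finset.mem_filter]
  constructor
  · rintro ⟨h1, _⟩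
    exact ⟨h1, ((mem_bl (Real.exp_pos _).le).1 h1).1⟩
  · rintro ⟨h1, _⟩
    exact ⟨h1, trivial⟩

lemma FQ_K (K : Eis → Eis → ℂ) (P : DPar) (h : ℝ → ℝ) :
    FQ (fun x m => HP842.Th 1 m * K x m) (fun _ => True) P h = SKq K P h := by
  funext l ps
  rw [FQ_true]
  unfold XC858.SKq SK
  refine Finset.sum_congr rfl fun x _ => ?_
  rw [Lam_KS]

section

variable {Lm : Type*} {π : Lm → DPar} {h : ℝ → ℝ} {c₀ : ℝ}

/-- **monotonicity, character side** -/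
theorem mono_858 (hP : ∀ lam, (π lam).OK) (hh : PU h c₀) (Q : Lm → Eis → Prop)
    {κ κ' E : ℝ} {u : List ℝ} {wm : Kd → ℝ} (hκ : κ' ≤ κ)
    (h1 : BG Dq (fun lam => RQq (fun k => k ≠ 0) (π lam) h) κ u wm E)
    (h2 : ∀ u₁ y u₂, u = u₁ ++ y :: u₂ → (κ - κ') / 3 ≤ y →
      BG Dq (fun lam => RQq (Q lam) (π lam) h) κ' (u₁ ++ (y - (κ - κ') / 3) :: u₂) wm
        (E - (κ - κ') / 3)) :
    BG Dq (fun lam => RQq (Q lam) (π lam) h) κ' u wm (E - (κ - κ') / 3) := by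
  have hB := bump_of_cs hh.cs
  have e1 : (fun lam => RQq (Q lam) (π lam) h) =
      fun lam => FQ (fun x m => sy x m) (Q lam) (π lam) h := by
    funext lam; rw [FQ_sy (hP lam) hB]
  rw [e1] at h2 ⊢
  refine BG_mono (e := 0) (Q' := Q) wt3_sy hh hP (fun lam x p hx _ => by
    rw [pow_zero, mul_one]; exact hx) hκ ?_ ?_
  · have e2 : (fun lam => FQ (fun x m => sy x m) (fun _ => True) (π lam) h) =
        fun lam => RQq (fun k => k ≠ 0) (π lam) h := by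
      funext lam; rw [FQ_sy_all (hP lam) hB]
    rw [e2]; exact h1
  · intro u₁ y u₂ hu hy
    rw [Nat.cast_zero, zero_mul, add_zero]
    exact h2 u₁ y u₂ hu hy

/-- **monotonicity, Gauss side**, every kernel -/
theorem monoK_858 {K : Eis → Eis → ℂ} (hK : Ker K)
    (hK3 : ∀ x p m : Eis, Prime p → IsPrim p → IsPrim m → IsCoprime m p → K (x * p ^ 3) m = K x m)
    (hP : ∀ lam, (π lam).OK) (hh : PU h c₀) {κ κ' E : ℝ} {u : List ℝ}
    {wm : Kd → ℝ} (hκ : κ' ≤ κ) (h1 : BG Dq (fun lam => SKq K (π lam) h) κ u wm E)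
    (h2 : ∀ u₁ y u₂, u = u₁ ++ y :: u₂ → (κ - κ') / 3 ≤ y →
      BG Dq (fun lam => SKq K (π lam) h) (κ' + (κ - κ') / 3) (u₁ ++ (y - (κ - κ') / 3) :: u₂) wm
        (E - (κ - κ') / 3)) :
    BG Dq (fun lam => SKq K (π lam) h) κ' u wm (E - (κ - κ') / 3) := by
  have e1 : (fun lam => SKq K (π lam) h) =
      fun lam => FQ (fun x m => HP842.Th 1 m * K x m) (fun _ => True) (π lam) h := by
    funext lam; rw [FQ_K]
  rw [e1] at h1 h2 ⊢
  refine BG_mono (e := 1) (Q := fun _ _ => True) (Q' := fun _ _ => True) (wt3_K hK hK3) hh hP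
    (fun _ _ _ _ _ => trivial) hκ h1 ?_
  intro u₁ y u₂ hu hy
  rw [Nat.cast_one, one_mul]
  exact h2 u₁ y u₂ hu hy

/-- **monotonicity, Gauss side** -/
theorem monoS_858 (hP : ∀ lam, (π lam).OK) (hh : PU h c₀) {κ κ' E : ℝ}
    {u : List ℝ} {wm : Kd → ℝ} (hκ : κ' ≤ κ) (h1 : BG Dq (fun lam => Sp (π lam) h) κ u wm E)
    (h2 : ∀ u₁ y u₂, u = u₁ ++ y :: u₂ → (κ - κ') / 3 ≤ y →
      BG Dq (fun lam => Sp (π lam) h) (κ' + (κ - κ') / 3) (u₁ ++ (y - (κ - κ') / 3) :: u₂) wm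
        (E - (κ - κ') / 3)) :
    BG Dq (fun lam => Sp (π lam) h) κ' u wm (E - (κ - κ') / 3) :=
  monoK_858 ker_Kg Kg_cube hP hh hκ h1 h2

/-! ### the fields of helper699's `Raw` -/

lemma shl_short {u₁ u₂ : List ℝ} {y ζ : ℝ} (hu : ∀ x ∈ u₁ ++ y :: u₂, 0 ≤ x) (hζ : 0 ≤ ζ)
    (hy : ζ ≤ y) : Shl (u₁ ++ (y - ζ) :: u₂) (u₁ ++ y :: u₂) ∧
      (u₁ ++ (y - ζ) :: u₂).sum = (u₁ ++ y :: u₂).sum - ζ := by
  have hself : ∀ l : List ℝ, (∀ x ∈ l, 0 ≤ x) →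
      List.Forall₂ (fun a b => 0 ≤ a ∧ a ≤ b) l l := fun l hl => by
    rw [List.forall₂_same]
    exact fun x hx => ⟨hl x hx, le_rfl⟩
  refine ⟨List.rel_append (hself _ fun x hx => hu x (by simp [hx]))
    (List.Forall₂.cons ⟨by linarith, by linarith⟩ (hself _ fun x hx => hu x (by simp [hx]))), ?_⟩
  rw [List.sum_append, List.sum_append, List.sum_cons, List.sum_cons]; ring

/-- the field `mono` of `Raw` (any `Q`) -/
theorem rawMono_858 (hP : ∀ lam, (π lam).OK) (hh : PU h c₀) (Q : Lm → Eis → Prop) :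
    ∀ (κ κ' : ℝ) (u : List ℝ) (m a E : ℝ), 0 ≤ κ' → κ' ≤ κ → Okl u m a →
    BG Dq (fun lam => RQq (fun k => k ≠ 0) (π lam) h) κ u (wt m a) E →
    (∀ (u' : List ℝ) (m' a' : ℝ), Shl u' u → 0 ≤ m' → m' ≤ m → 0 ≤ a' → a' ≤ a →
      (κ - κ') / 3 ≤ (u.sum + m + a) - (u'.sum + m' + a') →
      BG Dq (fun lam => RQq (Q lam) (π lam) h) κ' u' (wt m' a') (E - (κ - κ') / 3)) →
    BG Dq (fun lam => RQq (Q lam) (π lam) h) κ' u (wt m a) (E - (κ - κ') / 3) := by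
  intro κ κ' u m a E _ hκ hu h1 h2
  refine mono_858 hP hh Q hκ h1 fun u₁ y u₂ he hy => ?_
  obtain ⟨h3, h4⟩ := shl_short (u₁ := u₁) (u₂ := u₂) (y := y) (ζ := (κ - κ') / 3)
    (by rw [← he]; exact hu.1) (by linarith) hy
  refine h2 _ m a (by rw [he]; exact h3) hu.2.1 le_rfl hu.2.2 le_rfl ?_
  rw [h4, ← he]
  linarith

/-- the field `monoS` of `Raw`, with the shortened sides at `κ' + (κ - κ') / 3`, every kernel -/
theorem rawMonoK_858 {K : Eis → Eis → ℂ} (hK : Ker K)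
    (hK3 : ∀ x p m : Eis, Prime p → IsPrim p → IsPrim m → IsCoprime m p → K (x * p ^ 3) m = K x m)
    (hP : ∀ lam, (π lam).OK) (hh : PU h c₀) :
    ∀ (κ κ' : ℝ) (u : List ℝ) (m a E : ℝ), 0 ≤ κ' → κ' ≤ κ → Okl u m a →
    BG Dq (fun lam => SKq K (π lam) h) κ u (wt m a) E →
    (∀ (u' : List ℝ) (m' a' : ℝ), Shl u' u → 0 ≤ m' → m' ≤ m → 0 ≤ a' → a' ≤ a →
      (κ - κ') / 3 ≤ (u.sum + m + a) - (u'.sum + m' + a') →
      BG Dq (fun lam => SKq K (π lam) h) (κ' + (κ - κ') / 3) u' (wt m' a')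
        (E - (κ - κ') / 3)) →
    BG Dq (fun lam => SKq K (π lam) h) κ' u (wt m a) (E - (κ - κ') / 3) := by
  intro κ κ' u m a E _ hκ hu h1 h2
  refine monoK_858 hK hK3 hP hh hκ h1 fun u₁ y u₂ he hy => ?_
  obtain ⟨h3, h4⟩ := shl_short (u₁ := u₁) (u₂ := u₂) (y := y) (ζ := (κ - κ') / 3)
    (by rw [← he]; exact hu.1) (by linarith) hy
  refine h2 _ m a (by rw [he]; exact h3) hu.2.1 le_rfl hu.2.2 le_rfl ?_
  rw [h4, ← he]
  linarith

/-- the field `monoS` of `Raw`, with the shortened sides at `κ' + (κ - κ') / 3` -/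
theorem rawMonoS_858 (hP : ∀ lam, (π lam).OK) (hh : PU h c₀) :
    ∀ (κ κ' : ℝ) (u : List ℝ) (m a E : ℝ), 0 ≤ κ' → κ' ≤ κ → Okl u m a →
    BG Dq (fun lam => Sp (π lam) h) κ u (wt m a) E →
    (∀ (u' : List ℝ) (m' a' : ℝ), Shl u' u → 0 ≤ m' → m' ≤ m → 0 ≤ a' → a' ≤ a →
      (κ - κ') / 3 ≤ (u.sum + m + a) - (u'.sum + m' + a') →
      BG Dq (fun lam => Sp (π lam) h) (κ' + (κ - κ') / 3) u' (wt m' a')
        (E - (κ - κ') / 3)) →
    BG Dq (fun lam => Sp (π lam) h) κ' u (wt m a) (E - (κ - κ') / 3) :=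
  rawMonoK_858 ker_Kg Kg_cube hP hh

end

end Crest.Agent.R017.Mono858
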