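import Crest.Agent.R017.ProvI_71

/-!
# Row 17, provider: `BG` from explicit bounds (helper71)

* `BG_of_cont` : an explicit bound `C ∏ (s₁^A s₂^ε) X^{ε(|k|+n)} X^{g k n}`, `g` continuous
* `BG_add`, `BG_sup`
* `trivR`, `trivS`
-/

set_option autoImplicit false
set_option linter.unusedSectionVars false

noncomputable section

open Complex
open scoped ComplexConjugate

namespace Crest.Agent.R017.Prov71

open Crest.Agent.R017.XG702 (Pcs BG Loc)

section gen

variable {Pc τ Lam : Type*} [DecidableEq τ] {D : Pcs Pc τ}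

/-- total normalized length -/
def tl (D : Pcs Pc τ) (X : ℝ) (ps : List Pc) : ℝ := (ps.map fun p => D.nl X p).sum

lemma tl_append (X : ℝ) (ps qs : List Pc) : tl D X (ps ++ qs) = tl D X ps + tl D X qs := by
  unfold tl; rw [List.map_append, List.sum_append]

lemma tl_eq_mass [Fintype τ] (X : ℝ) (ps : List Pc) : tl D X ps = ∑ t, D.mass X ps t := by
  induction ps with
  | nil => simp [tl]
  | cons p ps ih =>
    have e : tl D X (p :: ps) = D.nl X p + tl D X ps := by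
      unfold tl; rw [List.map_cons, List.sum_cons]
    rw [e, ih]
    simp only [Pcs.mass_cons]
    rw [Finset.sum_add_distrib]
    congr 1
    rw [Finset.sum_ite_eq]
    simp

lemma tl_near {X δ : ℝ} {us : List Pc} {u : List ℝ} (h : D.Near X δ us u) :
    |tl D X us - u.sum| ≤ u.length * δ := by
  unfold Pcs.Near at h
  induction h with
  | nil => simp [tl]
  | @cons p x us u h1 _ ih =>
    have e : tl D X (p :: us) = D.nl X p + tl D X us := by
      unfold tl; rw [List.map_cons, List.sum_cons]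
    rw [e, List.sum_cons, List.length_cons]
    push_cast
    have e2 : D.nl X p + tl D X us - (x + u.sum) = (D.nl X p - x) + (tl D X us - u.sum) := by ring
    rw [e2]
    have := abs_add_le (D.nl X p - x) (tl D X us - u.sum)
    linarith [h1.2]

lemma tl_gran [Fintype τ] {X δ : ℝ} {N : ℕ} {gs : List Pc} {w : τ → ℝ}
    (h : D.Gran X δ N gs w) : |tl D X gs - ∑ t, w t| ≤ Fintype.card τ * δ := by
  rw [tl_eq_mass, ← Finset.sum_sub_distrib]
  refine (Finset.abs_sum_le_sum_abs _ _).trans ?_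
  refine (Finset.sum_le_card_nsmul _ _ δ fun t _ => h.2.2 t).trans ?_
  rw [nsmul_eq_mul]
  simp

set_option maxHeartbeats 1000000 in
/-- **explicit bounds** -/
theorem BG_of_cont [Fintype τ] {Ψ : Lam → ℝ → List Pc → ℝ} {g : ℝ → ℝ → ℝ} {κ : ℝ} {u : List ℝ}
    {w : τ → ℝ} (hs : ∀ p, 1 ≤ D.s1 p ∧ 1 ≤ D.s2 p)
    (hg : ContinuousAt (fun q : ℝ × ℝ => g q.1 q.2) (κ, u.sum + ∑ t, w t))
    (H : ∀ (lam : Lam) (ε : ℝ), 0 < ε → ∃ A : ℝ, 0 ≤ A ∧ ∀ N : ℕ, ∃ C : ℝ, 0 ≤ C ∧
      ∀ (X k : ℝ) (ps : List Pc), 1 < X → ps.length ≤ N → (∀ p ∈ ps, 0 ≤ D.len p) →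
        Ψ lam (k * Real.log X) ps ≤ C * (ps.map fun p => D.s1 p ^ A * D.s2 p ^ ε).prod *
          X ^ (ε * (|k| + tl D X ps)) * X ^ g k (tl D X ps)) :
    BG D Ψ κ u w (g κ (u.sum + ∑ t, w t)) := by
  intro ε₀ hε₀
  set n₀ := u.sum + ∑ t, w t with hn₀
  -- continuity
  rw [Metric.continuousAt_iff] at hg
  obtain ⟨δ₁, hδ₁, hg⟩ := hg (ε₀ / 4) (by positivity)
  set M : ℝ := (u.length : ℝ) + Fintype.card τ + 1 with hM
  have hM1 : 1 ≤ M := by
    have h1 : (0 : ℝ) ≤ u.length := by positivity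
    have h2 : (0 : ℝ) ≤ Fintype.card τ := by positivity
    linarith
  set δ := min (δ₁ / (2 * M)) (1 / M) with hδd
  have hδ : 0 < δ := by positivity
  have hδ1 : M * δ < δ₁ := by
    have h1 : δ ≤ δ₁ / (2 * M) := min_le_left _ _
    have h2 : M * δ ≤ M * (δ₁ / (2 * M)) := mul_le_mul_of_nonneg_left h1 (by linarith)
    have h3 : M * (δ₁ / (2 * M)) = δ₁ / 2 := by field_simp
    linarith
  have hδ2 : M * δ ≤ 1 := by
    have h1 : δ ≤ 1 / M := min_le_right _ _
    have h2 : M * δ ≤ M * (1 / M) := mul_le_mul_of_nonneg_left h1 (by linarith)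
    have h3 : M * (1 / M) = 1 := by field_simp
    linarith
  refine ⟨δ, hδ, fun lam N B => ?_⟩
  set N' : ℕ := u.length + N with hN'
  set L : ℝ := |κ| + |n₀| + 3 with hL
  have hL0 : 0 < L := by positivity
  set B' : ℝ := |B| with hB'
  have hB0 : 0 ≤ B' := abs_nonneg B
  set ε : ℝ := min (ε₀ / (4 * L)) (ε₀ / (8 * (B' + 1) * ((N' : ℝ) + 1))) with hεd
  have hε : 0 < ε := by positivity
  obtain ⟨A, hA, HN⟩ := H lam ε hε
  obtain ⟨C, hC, HX⟩ := HN N'
  set δ' : ℝ := ε₀ / (8 * (A + 1) * ((N' : ℝ) + 1)) with hδ'd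
  have hδ' : 0 < δ' := by positivity
  obtain ⟨X₁, hX₁⟩ : ∃ X₁ : ℝ, ∀ X, X₁ ≤ X → C ≤ X ^ (ε₀ / 4) :=
    Filter.eventually_atTop.1 ((tendsto_rpow_atTop (by positivity : (0 : ℝ) < ε₀ / 4)).eventually_ge_atTop C)
  refine ⟨δ', hδ', max X₁ 2, lt_of_lt_of_le (by norm_num) (le_max_right _ _),
    fun X hX k us gs hk hnear hgran hgood => ?_⟩
  have hX1 : 1 < X := lt_of_lt_of_le (by norm_num) ((le_max_right _ _).trans hX)
  have hX0 : 0 < X := by linarith
  have hlen : (us ++ gs).length ≤ N' := by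
    rw [List.length_append, XG702.Near_length hnear]
    have := hgran.1
    omega
  have h1 := HX X k (us ++ gs) hX1 hlen fun p hp => (hgood p hp).2.2
  set n := tl D X (us ++ gs) with hn
  have hnn : |n - n₀| ≤ M * δ := by
    have e : n - n₀ = (tl D X us - u.sum) + (tl D X gs - ∑ t, w t) := by
      rw [hn, tl_append, hn₀]; ring
    rw [e]
    have a1 := tl_near hnear
    have a2 := tl_gran hgran
    have a3 := abs_add_le (tl D X us - u.sum) (tl D X gs - ∑ t, w t)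
    have : (u.length : ℝ) * δ + (Fintype.card τ : ℝ) * δ ≤ M * δ := by
      rw [hM]; nlinarith
    linarith
  have hδM : δ ≤ M * δ := by nlinarith
  -- the function g
  have h2 : g k n ≤ g κ n₀ + ε₀ / 4 := by
    have h3 : dist (k, n) (κ, n₀) < δ₁ := by
      rw [Prod.dist_eq, Real.dist_eq, Real.dist_eq]
      refine max_lt ?_ ?_
      · show |k - κ| < δ₁
        linarith
      · show |n - n₀| < δ₁
        linarith
    have h4 := hg h3
    rw [Real.dist_eq] at h4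
    have := (abs_lt.1 h4).2
    linarith
  -- the product
  have h3 : ((us ++ gs).map fun p => D.s1 p ^ A * D.s2 p ^ ε).prod ≤
      X ^ (ε₀ / 4) := by
    have h4 : ∀ qs : List Pc, (∀ p ∈ qs, D.s1 p ≤ X ^ δ' ∧ D.s2 p ≤ X ^ B ∧ 0 ≤ D.len p) →
        0 ≤ (qs.map fun p => D.s1 p ^ A * D.s2 p ^ ε).prod ∧
        (qs.map fun p => D.s1 p ^ A * D.s2 p ^ ε).prod ≤
          X ^ ((qs.length : ℝ) * (δ' * A + B' * ε)) := by
      intro qs hqs
      induction qs with
      | nil => simp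
      | cons p qs ih =>
        obtain ⟨i0, ih⟩ := ih fun q hq => hqs q (List.mem_cons_of_mem _ hq)
        obtain ⟨p1, p2, _⟩ := hqs p List.mem_cons_self
        obtain ⟨q1, q2⟩ := hs p
        rw [List.map_cons, List.prod_cons, List.length_cons]
        have r1 : D.s1 p ^ A ≤ X ^ (δ' * A) := by
          rw [Real.rpow_mul hX0.le]
          exact Real.rpow_le_rpow (by linarith) p1 hA
        have r2 : D.s2 p ^ ε ≤ X ^ (B' * ε) := by
          rw [Real.rpow_mul hX0.le]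
          refine Real.rpow_le_rpow (by linarith) (p2.trans ?_) hε.le
          exact Real.rpow_le_rpow_of_exponent_le hX1.le (le_abs_self B)
        have s0 : 0 ≤ D.s1 p ^ A := Real.rpow_nonneg (by linarith) _
        have s1 : 0 ≤ D.s2 p ^ ε := Real.rpow_nonneg (by linarith) _
        refine ⟨mul_nonneg (mul_nonneg s0 s1) i0, ?_⟩
        calc D.s1 p ^ A * D.s2 p ^ ε * (qs.map fun p => D.s1 p ^ A * D.s2 p ^ ε).prod
            ≤ X ^ (δ' * A) * X ^ (B' * ε) * X ^ ((qs.length : ℝ) * (δ' * A + B' * ε)) := by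
              gcongr
          _ = X ^ (((qs.length + 1 : ℕ) : ℝ) * (δ' * A + B' * ε)) := by
              rw [← Real.rpow_add hX0, ← Real.rpow_add hX0]
              congr 1
              push_cast
              ring
    refine (h4 _ hgood).2.trans (Real.rpow_le_rpow_of_exponent_le hX1.le ?_)
    have hlen' : ((us ++ gs).length : ℝ) ≤ (N' : ℝ) + 1 := by
      have : ((us ++ gs).length : ℝ) ≤ (N' : ℝ) := by exact_mod_cast hlen
      linarith
    have hN1 : (0 : ℝ) < (N' : ℝ) + 1 := by positivity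
    have b1 : ((N' : ℝ) + 1) * (δ' * A) ≤ ε₀ / 8 := by
      have : ((N' : ℝ) + 1) * (δ' * A) = ε₀ / 8 * (A / (A + 1)) := by
        rw [hδ'd]; field_simp
      rw [this]
      have h5 : A / (A + 1) ≤ 1 := by rw [div_le_one (by positivity)]; linarith
      exact mul_le_of_le_one_right (by positivity) h5
    have b2 : ((N' : ℝ) + 1) * (B' * ε) ≤ ε₀ / 8 := by
      have h5 : ε ≤ ε₀ / (8 * (B' + 1) * ((N' : ℝ) + 1)) := min_le_right _ _
      have h6 : ((N' : ℝ) + 1) * (B' * ε) ≤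
          ((N' : ℝ) + 1) * (B' * (ε₀ / (8 * (B' + 1) * ((N' : ℝ) + 1)))) := by gcongr
      have h7 : ((N' : ℝ) + 1) * (B' * (ε₀ / (8 * (B' + 1) * ((N' : ℝ) + 1)))) =
          ε₀ / 8 * (B' / (B' + 1)) := by field_simp
      have h8 : B' / (B' + 1) ≤ 1 := by rw [div_le_one (by positivity)]; linarith
      have h9 : ε₀ / 8 * (B' / (B' + 1)) ≤ ε₀ / 8 := mul_le_of_le_one_right (by positivity) h8
      linarith
    have b3 : 0 ≤ δ' * A + B' * ε := by positivity
    calc ((us ++ gs).length : ℝ) * (δ' * A + B' * ε) ≤ ((N' : ℝ) + 1) * (δ' * A + B' * ε) := by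
          gcongr
      _ = ((N' : ℝ) + 1) * (δ' * A) + ((N' : ℝ) + 1) * (B' * ε) := by ring
      _ ≤ ε₀ / 4 := by linarith
  have h5 : X ^ (ε * (|k| + n)) ≤ X ^ (ε₀ / 4) := by
    refine Real.rpow_le_rpow_of_exponent_le hX1.le ?_
    have a1 : |k| ≤ |κ| + 1 := by
      have := abs_sub_abs_le_abs_sub k κ
      linarith
    have a2 : n ≤ |n₀| + 1 := by
      have := (abs_le.1 hnn).2
      have := le_abs_self n₀
      linarith
    have a3 : ε ≤ ε₀ / (4 * L) := min_le_left _ _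
    have a4 : ε * (|k| + n) ≤ ε * L := by
      refine mul_le_mul_of_nonneg_left ?_ hε.le
      rw [hL]; linarith
    have a5 : ε * L ≤ ε₀ / (4 * L) * L := mul_le_mul_of_nonneg_right a3 hL0.le
    have a6 : ε₀ / (4 * L) * L = ε₀ / 4 := by field_simp
    linarith
  have hP0 : 0 ≤ ((us ++ gs).map fun p => D.s1 p ^ A * D.s2 p ^ ε).prod := by
    refine List.prod_nonneg fun a ha => ?_
    obtain ⟨p, _, rfl⟩ := List.mem_map.1 ha
    obtain ⟨q1, q2⟩ := hs p
    exact mul_nonneg (Real.rpow_nonneg (by linarith) _) (Real.rpow_nonneg (by linarith) _)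
  calc Ψ lam (k * Real.log X) (us ++ gs) ≤ C * ((us ++ gs).map fun p => D.s1 p ^ A * D.s2 p ^ ε).prod *
          X ^ (ε * (|k| + n)) * X ^ g k n := h1
    _ ≤ X ^ (ε₀ / 4) * X ^ (ε₀ / 4) * X ^ (ε₀ / 4) * X ^ (g κ n₀ + ε₀ / 4) := by
        have c1 := hX₁ X ((le_max_left _ _).trans hX)
        have c2 : X ^ g k n ≤ X ^ (g κ n₀ + ε₀ / 4) :=
          Real.rpow_le_rpow_of_exponent_le hX1.le h2
        gcongr
    _ = X ^ (g κ n₀ + ε₀) := by
        rw [← Real.rpow_add hX0, ← Real.rpow_add hX0, ← Real.rpow_add hX0]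
        congr 1
        ring

/-- sum of functionals -/
theorem BG_add {Ψ Φ₁ Φ₂ : Lam → ℝ → List Pc → ℝ} {κ : ℝ} {u : List ℝ} {w : τ → ℝ} {e : ℝ}
    (h₁ : BG D Φ₁ κ u w e) (h₂ : BG D Φ₂ κ u w e)
    (H : ∀ lam l ps, Ψ lam l ps ≤ Φ₁ lam l ps + Φ₂ lam l ps) : BG D Ψ κ u w e := by
  intro ε hε
  obtain ⟨δ₁, hδ₁, L₁⟩ := h₁ (ε / 2) (by positivity)
  obtain ⟨δ₂, hδ₂, L₂⟩ := h₂ (ε / 2) (by positivity)
  refine ⟨min δ₁ δ₂, by positivity, fun lam N B => ?_⟩
  obtain ⟨a₁, ha₁, X₁, hX₁, K₁⟩ := (L₁.mono (min_le_left _ _)) lam N B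
  obtain ⟨a₂, ha₂, X₂, hX₂, K₂⟩ := (L₂.mono (min_le_right _ _)) lam N B
  obtain ⟨X₃, hX₃⟩ : ∃ X₃ : ℝ, ∀ X, X₃ ≤ X → 2 ≤ X ^ (ε / 2) :=
    Filter.eventually_atTop.1 ((tendsto_rpow_atTop (by positivity : (0 : ℝ) < ε / 2)).eventually_ge_atTop 2)
  refine ⟨min a₁ a₂, by positivity, max (max X₁ X₂) X₃,
    lt_of_lt_of_le hX₁ ((le_max_left _ _).trans (le_max_left _ _)), ?_⟩
  intro X hX k us gs hk hn hg hgood
  have e1 : X₁ ≤ X := ((le_max_left _ _).trans (le_max_left _ _)).trans hX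
  have e2 : X₂ ≤ X := ((le_max_right _ _).trans (le_max_left _ _)).trans hX
  have e3 : X₃ ≤ X := (le_max_right _ _).trans hX
  have hX1 : 1 < X := lt_of_lt_of_le hX₁ e1
  have g1 := K₁ X e1 k us gs hk hn hg (XG702.Good_mono hX1.le hgood (min_le_left _ _))
  have g2 := K₂ X e2 k us gs hk hn hg (XG702.Good_mono hX1.le hgood (min_le_right _ _))
  have g3 := hX₃ X e3
  have hpos : 0 < X ^ (e + ε / 2) := Real.rpow_pos_of_pos (by linarith) _
  calc Ψ lam (k * Real.log X) (us ++ gs) ≤ X ^ (e + ε / 2) + X ^ (e + ε / 2) :=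
        (H _ _ _).trans (add_le_add g1 g2)
    _ = 2 * X ^ (e + ε / 2) := by ring
    _ ≤ X ^ (ε / 2) * X ^ (e + ε / 2) := by gcongr
    _ = X ^ (e + ε) := by rw [← Real.rpow_add (by linarith)]; congr 1; ring

end gen

end Crest.Agent.R017.Prov71
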