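import Mathlib

/-!
# Row 17: granular robust exponents (helper702)

Pieces are objects `p : Pc` with a log-length, a kind, a height size `s1` and a modulus size `s2`.
* `BG D Ψ κ u w e` : the functionals `Ψ lam (log K) (list of pieces)` have exponent `e` at the
  configuration (family `κ`, lumps `u`, granular masses `w`); the tolerance does not depend on the
  parameter `lam`
* `select` : a part of prescribed masses can be selected from a granular list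
* `BG.cauchy` : Cauchy-Schwarz for a partition
* `unifG` : compactness for a fixed number of lumps
* `top` : compactness over all boxes, number of lumps unbounded
-/

set_option autoImplicit false
set_option linter.unusedSectionVars false
set_option linter.unusedVariables false

noncomputable section

open Set Filter Topology

namespace Crest.Agent.R017.XG702

/-- pieces -/
structure Pcs (Pc τ : Type*) where
  len : Pc → ℝ
  kind : Pc → τ
  lump : Pc → Prop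
  s1 : Pc → ℝ
  s2 : Pc → ℝ

variable {Pc τ Lam : Type*} [DecidableEq τ]

namespace Pcs

variable (D : Pcs Pc τ)

/-- exponent of the length -/
def nl (X : ℝ) (p : Pc) : ℝ := D.len p / Real.log X

/-- mass of kind `t` -/
def mass (X : ℝ) (ps : List Pc) (t : τ) : ℝ :=
  (ps.map fun p => if D.kind p = t then D.nl X p else 0).sum

@[simp] lemma mass_nil (X : ℝ) (t : τ) : D.mass X [] t = 0 := rfl

@[simp] lemma mass_cons (X : ℝ) (p : Pc) (ps : List Pc) (t : τ) :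
    D.mass X (p :: ps) t = (if D.kind p = t then D.nl X p else 0) + D.mass X ps t := rfl

lemma mass_append (X : ℝ) (ps qs : List Pc) (t : τ) :
    D.mass X (ps ++ qs) t = D.mass X ps t + D.mass X qs t := by
  unfold mass; rw [List.map_append, List.sum_append]

lemma mass_perm {X : ℝ} {ps qs : List Pc} (h : ps.Perm qs) (t : τ) :
    D.mass X ps t = D.mass X qs t := by
  unfold mass; exact (h.map _).sum_eq

/-- admissible sizes -/
def Good (X δ' B : ℝ) (ps : List Pc) : Prop :=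
  ∀ p ∈ ps, D.s1 p ≤ X ^ δ' ∧ D.s2 p ≤ X ^ B ∧ 0 ≤ D.len p

/-- lumps near `u` -/
def Near (X δ : ℝ) (us : List Pc) (u : List ℝ) : Prop :=
  List.Forall₂ (fun p x => D.lump p ∧ |D.nl X p - x| ≤ δ) us u

/-- granular list of masses near `w` -/
def Gran (X δ : ℝ) (N : ℕ) (gs : List Pc) (w : τ → ℝ) : Prop :=
  gs.length ≤ N ∧ (∀ g ∈ gs, D.nl X g ≤ δ) ∧ ∀ t, |D.mass X gs t - w t| ≤ δ

end Pcs

variable (D : Pcs Pc τ)

/-- local bound with tolerance `δ` -/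
def Loc (Ψ : Lam → ℝ → List Pc → ℝ) (κ : ℝ) (u : List ℝ) (w : τ → ℝ) (δ E : ℝ) : Prop :=
  ∀ (lam : Lam) (N : ℕ) (B : ℝ), ∃ δ' : ℝ, 0 < δ' ∧ ∃ X₀ : ℝ, 1 < X₀ ∧ ∀ X : ℝ, X₀ ≤ X →
    ∀ (k : ℝ) (us gs : List Pc), |k - κ| ≤ δ → D.Near X δ us u → D.Gran X δ N gs w →
      D.Good X δ' B (us ++ gs) → Ψ lam (k * Real.log X) (us ++ gs) ≤ X ^ E

/-- **granular robust exponent** -/
def BG (Ψ : Lam → ℝ → List Pc → ℝ) (κ : ℝ) (u : List ℝ) (w : τ → ℝ) (e : ℝ) : Prop :=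
  ∀ ε : ℝ, 0 < ε → ∃ δ : ℝ, 0 < δ ∧ Loc D Ψ κ u w δ (e + ε)

variable {D}

lemma Near_mono {X δ₁ δ₂ : ℝ} {us : List Pc} {u : List ℝ} (h : D.Near X δ₁ us u) (hd : δ₁ ≤ δ₂) :
    D.Near X δ₂ us u := by
  unfold Pcs.Near at h ⊢
  exact List.Forall₂.imp (fun _ _ h' => ⟨h'.1, h'.2.trans hd⟩) h

lemma Gran_mono {X δ₁ δ₂ : ℝ} {N₁ N₂ : ℕ} {gs : List Pc} {w : τ → ℝ} (h : D.Gran X δ₁ N₁ gs w)
    (hd : δ₁ ≤ δ₂) (hN : N₁ ≤ N₂) : D.Gran X δ₂ N₂ gs w :=
  ⟨h.1.trans hN, fun g hg => (h.2.1 g hg).trans hd, fun t => (h.2.2 t).trans hd⟩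

lemma Loc.mono {Ψ : Lam → ℝ → List Pc → ℝ} {κ : ℝ} {u : List ℝ} {w : τ → ℝ} {δ₁ δ₂ E : ℝ}
    (h : Loc D Ψ κ u w δ₂ E) (hd : δ₁ ≤ δ₂) : Loc D Ψ κ u w δ₁ E := by
  intro lam N B
  obtain ⟨δ', hδ', X₀, hX₀, H⟩ := h lam N B
  refine ⟨δ', hδ', X₀, hX₀, fun X hX k us gs h1 h2 h3 h4 => H X hX k us gs (h1.trans hd)
    (Near_mono h2 hd) (Gran_mono h3 hd le_rfl) h4⟩

lemma Loc.mono_exp {Ψ : Lam → ℝ → List Pc → ℝ} {κ : ℝ} {u : List ℝ} {w : τ → ℝ} {δ E₁ E₂ : ℝ}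
    (h : Loc D Ψ κ u w δ E₁) (hE : E₁ ≤ E₂) : Loc D Ψ κ u w δ E₂ := by
  intro lam N B
  obtain ⟨δ', hδ', X₀, hX₀, H⟩ := h lam N B
  refine ⟨δ', hδ', X₀, hX₀, fun X hX k us gs h1 h2 h3 h4 => (H X hX k us gs h1 h2 h3 h4).trans ?_⟩
  exact Real.rpow_le_rpow_of_exponent_le (by linarith) hE

lemma BG.mono {Ψ : Lam → ℝ → List Pc → ℝ} {κ : ℝ} {u : List ℝ} {w : τ → ℝ} {e₁ e₂ : ℝ}
    (h : BG D Ψ κ u w e₁) (he : e₁ ≤ e₂) : BG D Ψ κ u w e₂ := by
  intro ε hε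
  obtain ⟨δ, hδ, H⟩ := h ε hε
  exact ⟨δ, hδ, H.mono_exp (by linarith)⟩

/-- the exponent is attained -/
lemma BG.of_forall {Ψ : Lam → ℝ → List Pc → ℝ} {κ : ℝ} {u : List ℝ} {w : τ → ℝ} {e : ℝ}
    (h : ∀ e' : ℝ, e < e' → BG D Ψ κ u w e') : BG D Ψ κ u w e := by
  intro ε hε
  obtain ⟨δ, hδ, H⟩ := h (e + ε / 2) (by linarith) (ε / 2) (by linarith)
  exact ⟨δ, hδ, H.mono_exp (by linarith)⟩

/-- comparison of functionals -/
lemma BG.comp {Ψ Φ : Lam → ℝ → List Pc → ℝ} {κ : ℝ} {u : List ℝ} {w : τ → ℝ} {e : ℝ}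
    (h : BG D Φ κ u w e) (H : ∀ lam l ps, Ψ lam l ps ≤ Φ lam l ps) : BG D Ψ κ u w e := by
  intro ε hε
  obtain ⟨δ, hδ, H'⟩ := h ε hε
  refine ⟨δ, hδ, fun lam N B => ?_⟩
  obtain ⟨δ', hδ', X₀, hX₀, H1⟩ := H' lam N B
  exact ⟨δ', hδ', X₀, hX₀, fun X hX k us gs h1 h2 h3 h4 => (H _ _ _).trans
    (H1 X hX k us gs h1 h2 h3 h4)⟩

lemma Near_length {X δ : ℝ} {us : List Pc} {u : List ℝ} (h : D.Near X δ us u) :
    us.length = u.length := List.Forall₂.length_eq h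

/-! ### selection -/

lemma mass_nonneg {X : ℝ} {ps : List Pc} (h : ∀ p ∈ ps, 0 ≤ D.nl X p) (t : τ) :
    0 ≤ D.mass X ps t := by
  induction ps with
  | nil => simp
  | cons p ps ih =>
    rw [Pcs.mass_cons]
    have h1 := ih fun q hq => h q (List.mem_cons_of_mem _ hq)
    have h2 := h p List.mem_cons_self
    split_ifs <;> linarith

/-- **selection** from a granular list -/
theorem select {X δ : ℝ} (hδ : 0 ≤ δ) (gs : List Pc) (h0 : ∀ g ∈ gs, 0 ≤ D.nl X g)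
    (h1 : ∀ g ∈ gs, D.nl X g ≤ δ) : ∀ v : τ → ℝ, (∀ t, 0 ≤ v t) →
    ∃ g₁ g₂ : List Pc, gs.Perm (g₁ ++ g₂) ∧ ∀ t, D.mass X g₁ t ≤ v t ∧
      (v t - δ ≤ D.mass X g₁ t ∨ D.mass X g₂ t = 0) := by
  classical
  induction gs with
  | nil =>
    intro v hv
    exact ⟨[], [], List.Perm.refl _, fun t => ⟨by simpa using hv t, Or.inr rfl⟩⟩
  | cons g gs ih =>
    intro v hv
    have ih' := ih (fun p hp => h0 p (List.mem_cons_of_mem _ hp))
      (fun p hp => h1 p (List.mem_cons_of_mem _ hp))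
    have hg0 := h0 g List.mem_cons_self
    have hg1 := h1 g List.mem_cons_self
    by_cases hle : D.nl X g ≤ v (D.kind g)
    · -- put `g` into the first part
      obtain ⟨g₁, g₂, hp, hm⟩ := ih' (fun t => if D.kind g = t then v t - D.nl X g else v t)
        (fun t => by
          show 0 ≤ if D.kind g = t then v t - D.nl X g else v t
          split_ifs with ht
          · rw [← ht]; linarith
          · exact hv t)
      refine ⟨g :: g₁, g₂, ?_, fun t => ?_⟩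
      · simpa using hp.cons g
      · have hmt := hm t
        rw [Pcs.mass_cons]
        by_cases ht : D.kind g = t
        · simp only [ht, if_true] at hmt ⊢
          refine ⟨by linarith [hmt.1], ?_⟩
          rcases hmt.2 with h2 | h2
          · left; linarith
          · right; exact h2
        · simp only [ht, if_false] at hmt ⊢
          refine ⟨by linarith [hmt.1], ?_⟩
          rcases hmt.2 with h2 | h2
          · left; linarith
          · right; exact h2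
    · push Not at hle
      obtain ⟨g₁, g₂, hp, hm⟩ := ih' v hv
      refine ⟨g₁, g :: g₂, ?_, fun t => ?_⟩
      · exact (hp.cons g).trans List.perm_middle.symm
      · have hmt := hm t
        refine ⟨hmt.1, ?_⟩
        by_cases ht : D.kind g = t
        · left
          rw [ht] at hle
          have hn : 0 ≤ D.mass X g₁ t := by
            refine mass_nonneg (fun p hp' => ?_) t
            have : p ∈ gs := hp.mem_iff.mpr (List.mem_append_left _ hp')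
            exact h0 p (List.mem_cons_of_mem _ this)
          linarith
        · rw [Pcs.mass_cons, if_neg ht, zero_add]
          exact hmt.2

/-- the two parts of a granular list of masses near `w₁ + w₂` -/
theorem Gran_split {X δ : ℝ} (hδ : 0 ≤ δ) {N : ℕ} {gs : List Pc} {w₁ w₂ : τ → ℝ}
    (h0 : ∀ g ∈ gs, 0 ≤ D.nl X g) (hw₁ : ∀ t, 0 ≤ w₁ t) (hw₂ : ∀ t, 0 ≤ w₂ t)
    (h : D.Gran X δ N gs (fun t => w₁ t + w₂ t)) :
    ∃ g₁ g₂ : List Pc, gs.Perm (g₁ ++ g₂) ∧ D.Gran X (2 * δ) N g₁ w₁ ∧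
      D.Gran X (2 * δ) N g₂ w₂ := by
  obtain ⟨g₁, g₂, hp, hm⟩ := select hδ gs h0 h.2.1 w₁ hw₁
  have hlen : g₁.length + g₂.length = gs.length := by
    rw [hp.length_eq, List.length_append]
  have hmem1 : ∀ g ∈ g₁, g ∈ gs := fun g hg => hp.mem_iff.mpr (List.mem_append_left _ hg)
  have hmem2 : ∀ g ∈ g₂, g ∈ gs := fun g hg => hp.mem_iff.mpr (List.mem_append_right _ hg)
  have hN := h.1
  have hsum : ∀ t, D.mass X gs t = D.mass X g₁ t + D.mass X g₂ t := fun t => by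
    rw [D.mass_perm hp, D.mass_append]
  refine ⟨g₁, g₂, hp, ⟨by omega, fun g hg => (h.2.1 g (hmem1 g hg)).trans (by linarith), ?_⟩,
    ⟨by omega, fun g hg => (h.2.1 g (hmem2 g hg)).trans (by linarith), ?_⟩⟩
  · intro t
    have h1 := abs_le.1 (h.2.2 t)
    have h2 := hm t
    have h3 := hsum t
    have h4 := hw₂ t
    rw [abs_le]
    refine ⟨?_, by linarith [h2.1]⟩
    rcases h2.2 with h5 | h5
    · linarith
    · linarith [h1.1]
  · intro t
    have h1 := abs_le.1 (h.2.2 t)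
    have h2 := hm t
    have h3 := hsum t
    have h4 := hw₁ t
    have h5 := hw₂ t
    have h6 : 0 ≤ D.mass X g₂ t := mass_nonneg (fun g hg => h0 g (hmem2 g hg)) t
    rw [abs_le]
    refine ⟨by linarith [h1.1, h2.1], ?_⟩
    rcases h2.2 with h7 | h7
    · linarith [h1.2]
    · rw [h7]; linarith

lemma Good_perm {X δ' B : ℝ} {ps qs : List Pc} (h : ps.Perm qs) (hg : D.Good X δ' B ps) :
    D.Good X δ' B qs := fun p hp => hg p (h.mem_iff.mpr hp)

lemma Good_mono {X δ₁ δ₂ B : ℝ} {ps : List Pc} (hX : 1 ≤ X) (h : D.Good X δ₁ B ps)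
    (hd : δ₁ ≤ δ₂) : D.Good X δ₂ B ps := fun p hp =>
  ⟨(h p hp).1.trans (Real.rpow_le_rpow_of_exponent_le hX hd), (h p hp).2⟩

lemma Good_sub {X δ' B : ℝ} {ps qs : List Pc} (h : D.Good X δ' B ps) (hs : ∀ p ∈ qs, p ∈ ps) :
    D.Good X δ' B qs := fun p hp => h p (hs p hp)

/-- **Cauchy-Schwarz for a partition** -/
theorem BG.cauchy {Ψ Φ : Lam → ℝ → List Pc → ℝ} {κ : ℝ} {u₁ u₂ : List ℝ} {w₁ w₂ : τ → ℝ} {e₁ e₂ : ℝ}
    (h₁ : BG D Φ κ u₁ w₁ e₁) (h₂ : BG D Φ κ u₂ w₂ e₂) (hw₁ : ∀ t, 0 ≤ w₁ t) (hw₂ : ∀ t, 0 ≤ w₂ t)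
    (H : ∀ lam l ps p₁ p₂, ps.Perm (p₁ ++ p₂) →
      Ψ lam l ps ≤ Real.sqrt (Φ lam l p₁) * Real.sqrt (Φ lam l p₂)) :
    BG D Ψ κ (u₁ ++ u₂) (fun t => w₁ t + w₂ t) ((e₁ + e₂) / 2) := by
  intro ε hε
  obtain ⟨δ₁, hδ₁, L₁⟩ := h₁ ε hε
  obtain ⟨δ₂, hδ₂, L₂⟩ := h₂ ε hε
  set δ := min δ₁ δ₂ / 2 with hδdef
  have hδ : 0 < δ := by positivity
  have hd1 : 2 * δ ≤ δ₁ := by rw [hδdef]; linarith [min_le_left δ₁ δ₂]
  have hd2 : 2 * δ ≤ δ₂ := by rw [hδdef]; linarith [min_le_right δ₁ δ₂]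
  refine ⟨δ, hδ, fun lam N B => ?_⟩
  obtain ⟨η₁, hη₁, X₁, hX₁, K₁⟩ := L₁ lam N B
  obtain ⟨η₂, hη₂, X₂, hX₂, K₂⟩ := L₂ lam N B
  refine ⟨min η₁ η₂, lt_min hη₁ hη₂, max X₁ X₂, lt_of_lt_of_le hX₁ (le_max_left _ _), ?_⟩
  intro X hX k us gs hk hnear hgran hgood
  have hXX1 : X₁ ≤ X := (le_max_left _ _).trans hX
  have hXX2 : X₂ ≤ X := (le_max_right _ _).trans hX
  have hone : (1 : ℝ) ≤ X := by linarith
  have hXp : (0 : ℝ) < X := by linarith
  have hlog : 0 < Real.log X := Real.log_pos (by linarith)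
  -- split the lumps
  obtain ⟨v₁, v₂, rfl, hn1, hn2⟩ : ∃ v₁ v₂, us = v₁ ++ v₂ ∧ D.Near X δ v₁ u₁ ∧ D.Near X δ v₂ u₂ := by
    unfold Pcs.Near at hnear ⊢
    have hlen := hnear.length_eq
    rw [List.length_append] at hlen
    refine ⟨us.take u₁.length, us.drop u₁.length, (List.take_append_drop _ _).symm, ?_, ?_⟩
    · have := List.forall₂_take u₁.length hnear
      simpa using this
    · have := List.forall₂_drop u₁.length hnear
      simpa using this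
  -- split the granular part
  have hg0 : ∀ g ∈ gs, 0 ≤ D.nl X g := fun g hg =>
    div_nonneg (hgood g (List.mem_append_right _ hg)).2.2 hlog.le
  obtain ⟨g₁, g₂, hp, hG1, hG2⟩ := Gran_split hδ.le hg0 hw₁ hw₂ hgran
  have hperm : ((v₁ ++ v₂) ++ gs).Perm ((v₁ ++ g₁) ++ (v₂ ++ g₂)) := by
    have h1 : ((v₁ ++ v₂) ++ gs).Perm ((v₁ ++ v₂) ++ (g₁ ++ g₂)) := hp.append_left _
    refine h1.trans ?_
    rw [List.append_assoc, List.append_assoc]
    refine List.Perm.append_left v₁ ?_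
    rw [← List.append_assoc, ← List.append_assoc]
    exact List.Perm.append_right g₂ List.perm_append_comm
  have hgood' := Good_perm hperm hgood
  have e1 := K₁ X hXX1 k v₁ g₁ (hk.trans (by linarith)) (Near_mono hn1 (by linarith))
    (Gran_mono hG1 hd1 le_rfl) (Good_mono hone (Good_sub hgood' fun p hp' =>
      List.mem_append_left _ hp') (min_le_left _ _))
  have e2 := K₂ X hXX2 k v₂ g₂ (hk.trans (by linarith)) (Near_mono hn2 (by linarith))
    (Gran_mono hG2 hd2 le_rfl) (Good_mono hone (Good_sub hgood' fun p hp' =>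
      List.mem_append_right _ hp') (min_le_right _ _))
  refine (H _ _ _ _ _ hperm).trans ?_
  have r1 : Real.sqrt (Φ lam (k * Real.log X) (v₁ ++ g₁)) ≤ X ^ ((e₁ + ε) / 2) := by
    refine (Real.sqrt_le_sqrt e1).trans (le_of_eq ?_)
    rw [Real.sqrt_eq_rpow, ← Real.rpow_mul hXp.le]; congr 1; ring
  have r2 : Real.sqrt (Φ lam (k * Real.log X) (v₂ ++ g₂)) ≤ X ^ ((e₂ + ε) / 2) := by
    refine (Real.sqrt_le_sqrt e2).trans (le_of_eq ?_)
    rw [Real.sqrt_eq_rpow, ← Real.rpow_mul hXp.le]; congr 1; ring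
  calc _ ≤ X ^ ((e₁ + ε) / 2) * X ^ ((e₂ + ε) / 2) :=
        mul_le_mul r1 r2 (Real.sqrt_nonneg _) (Real.rpow_nonneg hXp.le _)
    _ = X ^ ((e₁ + e₂) / 2 + ε) := by rw [← Real.rpow_add hXp]; congr 1; ring

/-- reordering the lumps -/
theorem BG.perm {Ψ : Lam → ℝ → List Pc → ℝ} (hΨ : ∀ lam l ps qs, ps.Perm qs → Ψ lam l ps = Ψ lam l qs) {κ : ℝ}
    {u u' : List ℝ} {w : τ → ℝ} {e : ℝ} (h : BG D Ψ κ u w e) (hu : u.Perm u') :
    BG D Ψ κ u' w e := by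
  intro ε hε
  obtain ⟨δ, hδ, L⟩ := h ε hε
  refine ⟨δ, hδ, fun lam N B => ?_⟩
  obtain ⟨η, hη, X₀, hX₀, K⟩ := L lam N B
  refine ⟨η, hη, X₀, hX₀, ?_⟩
  intro X hX k us gs hk hnear hgran hgood
  unfold Pcs.Near at hnear
  obtain ⟨vs, hvs, hperm⟩ : ∃ vs, List.Forall₂ (fun p x => D.lump p ∧ |D.nl X p - x| ≤ δ) vs u ∧
      vs.Perm us := by
    obtain ⟨vs, h1, h2⟩ := List.perm_comp_forall₂ hu hnear.flip
    exact ⟨vs, h1.flip, h2⟩
  have hp : (vs ++ gs).Perm (us ++ gs) := List.Perm.append_right _ hperm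
  rw [← hΨ _ _ _ _ hp]
  exact K X hX k vs gs hk hvs hgran (Good_perm hp.symm hgood)

end Crest.Agent.R017.XG702
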