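import Crest.Agent.R017.XT2_71
import Crest.Agent.R017.XG_702

/-!
# Row 17: transfer (helper71), part 3: the bridge between `BG` (lists of pieces, helper702) and the
windows `EG` (finite-dimensional exponent vectors)

* `BG.zero` : a lump of length `0` is granular
* `LA D n` : data = family, `n` lumps, a list of granular pieces; `LS D n` the system
* `EG_of_BG`, `BG_of_EG`
-/

set_option autoImplicit false

noncomputable section

open Set Filter Topology

namespace Crest.Agent.R017.XT71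

open Crest.Agent.R017.XG702 (Pcs BG Good_perm Good_mono Near_mono Gran_mono)

variable {Pc τ Λ : Type*} [DecidableEq τ]

/-- a lump of length `0` is granular -/
theorem BG.zero {D : Pcs Pc τ} {Ψ : Λ → ℝ → List Pc → ℝ}
    (hΨ : ∀ lam l ps qs, ps.Perm qs → Ψ lam l ps = Ψ lam l qs) {κ : ℝ} {u : List ℝ} {w : τ → ℝ} {e : ℝ}
    (h : BG D Ψ κ u w e) : BG D Ψ κ (0 :: u) w e := by
  intro ε hε
  obtain ⟨δ, hδ, L⟩ := h ε hε
  refine ⟨δ / 2, by linarith, fun lam N B => ?_⟩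
  obtain ⟨η, hη, X₀, hX₀, K⟩ := L lam (N + 1) B
  refine ⟨η, hη, X₀, hX₀, ?_⟩
  intro X hX k us gs hk hnear hgran hgood
  have hX1 : 1 < X := by linarith
  have hlog : 0 < Real.log X := Real.log_pos hX1
  cases hnear with
  | @cons p x us' u' hp hnear' =>
    have hperm : ((p :: us') ++ gs).Perm (us' ++ (p :: gs)) := by
      rw [List.cons_append]
      exact List.perm_middle.symm
    rw [hΨ _ _ _ _ hperm]
    have hpn : D.nl X p ≤ δ / 2 := by
      have := (abs_le.1 hp.2).2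
      linarith
    have hp0 : 0 ≤ D.nl X p := div_nonneg (hgood p (by simp)).2.2 hlog.le
    refine K X hX k us' (p :: gs) (hk.trans (by linarith)) (Near_mono hnear' (by linarith)) ?_
      (Good_perm hperm hgood)
    refine ⟨by simp [hgran.1], ?_, ?_⟩
    · intro g hg
      rcases List.mem_cons.1 hg with rfl | hg
      · linarith
      · exact (hgran.2.1 g hg).trans (by linarith)
    · intro t
      rw [Pcs.mass_cons]
      have h1 := abs_le.1 (hgran.2.2 t)
      rw [abs_le]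
      split_ifs <;> constructor <;> linarith [h1.1, h1.2]

/-- data with `n` lumps -/
structure LA (D : Pcs Pc τ) (n : ℕ) where
  lK : ℝ
  us : Fin n → Pc
  gs : List Pc
  lump : ∀ i, D.lump (us i)
  us0 : ∀ i, 0 ≤ D.len (us i)
  gs0 : ∀ g ∈ gs, 0 ≤ D.len g

/-- all pieces -/
def LA.ps {D : Pcs Pc τ} {n : ℕ} (a : LA D n) : List Pc := List.ofFn a.us ++ a.gs

/-- maximum of a real function on a list, at least `1` -/
def mx (f : Pc → ℝ) (ps : List Pc) : ℝ := ps.foldr (fun p m => max (f p) m) 1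

lemma mx_cons (f : Pc → ℝ) (p : Pc) (ps : List Pc) : mx f (p :: ps) = max (f p) (mx f ps) := rfl

lemma one_le_mx (f : Pc → ℝ) (ps : List Pc) : 1 ≤ mx f ps := by
  induction ps with
  | nil => exact le_rfl
  | cons p ps ih => rw [mx_cons]; exact ih.trans (le_max_right _ _)

lemma mx_le {f : Pc → ℝ} {ps : List Pc} {c : ℝ} (hc : 1 ≤ c) :
    mx f ps ≤ c ↔ ∀ p ∈ ps, f p ≤ c := by
  induction ps with
  | nil => simp [mx, hc]
  | cons p ps ih => rw [mx_cons, max_le_iff, ih]; simp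

lemma le_mx {f : Pc → ℝ} {ps : List Pc} {p : Pc} (hp : p ∈ ps) : f p ≤ mx f ps :=
  (mx_le (one_le_mx f ps)).1 le_rfl p hp

/-- the system of windows -/
def LS (D : Pcs Pc τ) (n : ℕ) : Sys (LA D n) (Unit ⊕ Fin n ⊕ τ) where
  ev X a := Sum.elim (fun _ => a.lK / Real.log X)
    (Sum.elim (fun i => D.nl X (a.us i)) (fun t => D.mass X a.gs t))
  g a := mx (fun p => Real.exp (D.len p)) a.gs
  n a := a.gs.length
  s₁ a := mx D.s1 a.ps
  s₂ a := mx D.s2 a.ps

/-- the exponent vector -/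
def pv {n : ℕ} (κ : ℝ) (u : Fin n → ℝ) (w : τ → ℝ) : Unit ⊕ Fin n ⊕ τ → ℝ :=
  Sum.elim (fun _ => κ) (Sum.elim u w)

lemma win_iff {D : Pcs Pc τ} {n : ℕ} {κ : ℝ} {u : Fin n → ℝ} {w : τ → ℝ} {δ B ρ X : ℝ} {N : ℕ}
    (hX : 1 < X) (hδ : 0 ≤ δ) (hρ : 0 ≤ ρ) (hB : 0 ≤ B) (a : LA D n) :
    Win (LS D n) (pv κ u w) δ N B ρ X a ↔
      |a.lK / Real.log X - κ| ≤ δ ∧ D.Near X δ (List.ofFn a.us) (List.ofFn u) ∧
        D.Gran X δ N a.gs w ∧ D.Good X ρ B a.ps := by
  have hlog : 0 < Real.log X := Real.log_pos hX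
  have hX0 : (0 : ℝ) < X := by linarith
  have h0 : ∀ p ∈ a.ps, 0 ≤ D.len p := by
    intro p hp
    rcases List.mem_append.1 hp with h | h
    · obtain ⟨i, rfl⟩ := (List.mem_ofFn' _ _).1 h
      exact a.us0 i
    · exact a.gs0 p h
  have hgexp : (LS D n).g a ≤ X ^ δ ↔ ∀ g ∈ a.gs, D.nl X g ≤ δ := by
    show mx (fun p => Real.exp (D.len p)) a.gs ≤ X ^ δ ↔ _
    rw [mx_le (Real.one_le_rpow hX.le hδ)]
    refine forall₂_congr fun g _ => ?_
    unfold Pcs.nl
    rw [div_le_iff₀ hlog, Real.rpow_def_of_pos hX0, Real.exp_le_exp, mul_comm]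
  constructor
  · intro h
    refine ⟨?_, ?_, ⟨h.n, hgexp.1 h.g, ?_⟩, ?_⟩
    · exact h.ev (Sum.inl ())
    · unfold Pcs.Near
      rw [List.forall₂_iff_get]
      refine ⟨by simp, fun i h1 h2 => ?_⟩
      simp only [List.get_eq_getElem, List.getElem_ofFn]
      have hi : i < n := by simpa using h1
      exact ⟨a.lump ⟨i, hi⟩, h.ev (Sum.inr (Sum.inl ⟨i, hi⟩))⟩
    · exact fun t => h.ev (Sum.inr (Sum.inr t))
    · intro p hp
      exact ⟨(le_mx hp).trans h.s₁, (le_mx hp).trans h.s₂, h0 p hp⟩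
  · rintro ⟨h1, h2, h3, h4⟩
    unfold Pcs.Near at h2
    rw [List.forall₂_iff_get] at h2
    refine ⟨?_, hgexp.2 h3.2.1, h3.1, ?_, ?_⟩
    · rintro (⟨⟩ | i | t)
      · exact h1
      · have := (h2.2 i.1 (by simp) (by simp)).2
        simpa [LS, pv] using this
      · exact h3.2.2 t
    · show mx D.s1 a.ps ≤ X ^ ρ
      rw [mx_le (Real.one_le_rpow hX.le hρ)]
      exact fun p hp => (h4 p hp).1
    · show mx D.s2 a.ps ≤ X ^ B
      rw [mx_le (Real.one_le_rpow hX.le hB)]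
      exact fun p hp => (h4 p hp).2.1

theorem EG_of_BG {D : Pcs Pc τ} {Ψ : Λ → ℝ → List Pc → ℝ} {n : ℕ} {κ : ℝ} {u : Fin n → ℝ}
    {w : τ → ℝ} {e : ℝ} (h : BG D Ψ κ (List.ofFn u) w e) :
    EG (LS D n) (fun lam a => Ψ lam a.lK a.ps) (pv κ u w) e := by
  intro ε hε
  obtain ⟨δ, hδ, L⟩ := h ε hε
  refine ⟨δ, hδ, fun lam N B => ?_⟩
  obtain ⟨η, hη, X₀, hX₀, K⟩ := L lam N (max B 0)
  refine ⟨η, hη, X₀, hX₀, fun X hX a ha => ?_⟩
  have hX1 : 1 < X := by linarith
  have hlog : 0 < Real.log X := Real.log_pos hX1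
  have ha' := ha.mono hX1.le le_rfl le_rfl (le_max_left B 0) le_rfl
  obtain ⟨h1, h2, h3, h4⟩ := (win_iff hX1 hδ.le hη.le (le_max_right B 0) a).1 ha'
  have := K X hX (a.lK / Real.log X) (List.ofFn a.us) a.gs h1 h2 h3 h4
  rwa [div_mul_cancel₀ _ hlog.ne'] at this

theorem BG_of_EG {D : Pcs Pc τ} {Ψ : Λ → ℝ → List Pc → ℝ} {n : ℕ} {κ : ℝ} {u : Fin n → ℝ}
    {w : τ → ℝ} {e : ℝ} (h : EG (LS D n) (fun lam a => Ψ lam a.lK a.ps) (pv κ u w) e) :
    BG D Ψ κ (List.ofFn u) w e := by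
  intro ε hε
  obtain ⟨δ, hδ, L⟩ := h ε hε
  refine ⟨δ, hδ, fun lam N B => ?_⟩
  obtain ⟨η, hη, X₀, hX₀, K⟩ := L lam N (max B 0)
  refine ⟨η, hη, X₀, hX₀, ?_⟩
  intro X hX k us gs hk hnear hgran hgood
  have hX1 : 1 < X := by linarith
  have hlog : 0 < Real.log X := Real.log_pos hX1
  have hlen : us.length = n := by
    have := List.Forall₂.length_eq hnear
    simpa using this
  subst hlen
  have hget : List.ofFn us.get = us := List.ofFn_get us
  let a : LA D us.length :=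
    { lK := k * Real.log X
      us := us.get
      gs := gs
      lump := fun i => by
        unfold Pcs.Near at hnear
        rw [List.forall₂_iff_get] at hnear
        exact (hnear.2 i.1 i.2 (by simp)).1
      us0 := fun i => (hgood (us.get i) (List.mem_append_left _ (List.get_mem us i))).2.2
      gs0 := fun g hg => (hgood g (List.mem_append_right _ hg)).2.2 }
  have hps : a.ps = us ++ gs := by
    show List.ofFn us.get ++ gs = us ++ gs
    rw [hget]
  have hw : Win (LS D us.length) (pv κ u w) δ N (max B 0) η X a := by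
    rw [win_iff hX1 hδ.le hη.le (le_max_right B 0)]
    refine ⟨?_, ?_, hgran, ?_⟩
    · show |k * Real.log X / Real.log X - κ| ≤ δ
      rwa [mul_div_cancel_right₀ _ hlog.ne']
    · show D.Near X δ (List.ofFn us.get) (List.ofFn u)
      rwa [hget]
    · rw [hps]
      intro p hp
      have := hgood p hp
      exact ⟨this.1, this.2.1.trans (Real.rpow_le_rpow_of_exponent_le hX1.le (le_max_left B 0)),
        this.2.2⟩
  have hfin : Ψ lam a.lK a.ps ≤ X ^ (e + ε) := K X hX a hw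
  rw [hps] at hfin
  exact hfin

theorem BG_iff_EG {D : Pcs Pc τ} {Ψ : Λ → ℝ → List Pc → ℝ} {n : ℕ} {κ : ℝ} {u : Fin n → ℝ}
    {w : τ → ℝ} {e : ℝ} : BG D Ψ κ (List.ofFn u) w e ↔
      EG (LS D n) (fun lam a => Ψ lam a.lK a.ps) (pv κ u w) e := ⟨EG_of_BG, BG_of_EG⟩

end Crest.Agent.R017.XT71
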