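import Crest.Agent.R017.XT4_571
import Crest.Agent.R017.XT3_71
import Crest.Agent.R017.XB_71

/-!
# Row 17, provider, rule `flip` (helper571), part 3: transfer of a one-lump rule

`lump_rule` : an analytic rule which replaces the first lump (length `z`) by lumps of length `z''`
with gain `exp (-(z' - z''))`, `(z', z'')` in a homogeneous polytope, as a statement about `BG`.
-/

set_option autoImplicit false
set_option linter.unusedSectionVars false

noncomputable section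

open Set Filter Topology

namespace Crest.Agent.R017.XFl571

open Crest.Agent.R017.XG702 (Pcs BG)
open Crest.Agent.R017.XT71 Crest.Agent.R017.XT571
open Crest.Agent.R017.Prov71 (tl tl_eq_mass)
open Crest.Agent.R017.XF71 (const_le_rpow)

variable {Pc τ Lam : Type*} [DecidableEq τ]

/-- replace the first lump -/
def upd {D : Pcs Pc τ} {n : ℕ} (a : LA D (n + 1)) (p : Pc) (hl : D.lump p) (h0 : 0 ≤ D.len p) :
    LA D (n + 1) where
  lK := a.lK
  us := Fin.cons p (fun i => a.us i.succ)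
  gs := a.gs
  lump := fun i => by
    refine Fin.cases ?_ (fun i => ?_) i
    · simpa using hl
    · simpa using a.lump i.succ
  us0 := fun i => by
    refine Fin.cases ?_ (fun i => ?_) i
    · simpa using h0
    · simpa using a.us0 i.succ
  gs0 := a.gs0

section
variable {D : Pcs Pc τ} {n : ℕ} (a : LA D (n + 1)) (p : Pc) (hl : D.lump p) (h0 : 0 ≤ D.len p)

@[simp] lemma upd_lK : (upd a p hl h0).lK = a.lK := rfl
@[simp] lemma upd_gs : (upd a p hl h0).gs = a.gs := rfl
@[simp] lemma upd_zero : (upd a p hl h0).us 0 = p := rfl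
@[simp] lemma upd_succ (i : Fin n) : (upd a p hl h0).us i.succ = a.us i.succ := rfl

/-- the other pieces -/
def rest (a : LA D (n + 1)) : List Pc := List.ofFn (fun i => a.us (Fin.succ i)) ++ a.gs

lemma ps_eq : a.ps = a.us 0 :: rest a := by
  unfold LA.ps rest
  rw [List.ofFn_succ, List.cons_append]

@[simp] lemma rest_upd : rest (upd a p hl h0) = rest a := rfl

lemma ps_upd : (upd a p hl h0).ps = p :: rest a := by
  rw [ps_eq, rest_upd, upd_zero]

end

/-- pairs `(z', data)` -/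
def S2 (D : Pcs Pc τ) (n : ℕ) : Sys (ℝ × LA D (n + 1)) (Unit ⊕ (Unit ⊕ Fin (n + 1) ⊕ τ)) where
  ev X a := Sum.elim (fun _ => a.1 / Real.log X) ((LS D (n + 1)).ev X a.2)
  g a := (LS D (n + 1)).g a.2
  n a := (LS D (n + 1)).n a.2
  s₁ a := (LS D (n + 1)).s₁ a.2
  s₂ a := (LS D (n + 1)).s₂ a.2

/-- forget `z'` -/
lemma EG.S2 {D : Pcs Pc τ} {n : ℕ} {Ψ : Lam → LA D (n + 1) → ℝ}
    {p' : Unit ⊕ (Unit ⊕ Fin (n + 1) ⊕ τ) → ℝ} {e : ℝ}
    (h : EG (LS D (n + 1)) Ψ (fun i => p' (Sum.inr i)) e) :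
    EG (S2 D n) (fun lam a => Ψ lam a.2) p' e := by
  intro ε hε
  obtain ⟨δ, hδ, h1⟩ := h ε hε
  refine ⟨δ, hδ, fun lam N B => ?_⟩
  obtain ⟨ρ, hρ, X₀, hX₀, h2⟩ := h1 lam N B
  refine ⟨ρ, hρ, X₀, hX₀, fun X hX a ha => h2 X hX a.2 ⟨fun i => ?_, ha.g, ha.n, ha.s₁, ha.s₂⟩⟩
  exact ha.ev (Sum.inr i)

lemma abs_le_pi {ι : Type*} [Fintype ι] (p : ι → ℝ) (i : ι) : |p i| ≤ ‖p‖ := by
  have := norm_le_pi_norm p i
  rwa [Real.norm_eq_abs] at this

set_option maxHeartbeats 1000000 in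
/-- **transfer of a one-lump rule** -/
theorem lump_rule [Fintype τ] {D : Pcs Pc τ} {Ψ : Lam → ℝ → List Pc → ℝ}
    {mk : ℝ → ℝ → Pc} (hm1 : ∀ z t, D.lump (mk z t)) (hm2 : ∀ z t, D.len (mk z t) = z)
    (hm3 : ∀ z t, D.s1 (mk z t) = 1 + |t|) (hm4 : ∀ z t, D.s2 (mk z t) ≤ 1)
    {G : ℝ × ℝ × ℝ × ℝ → ℝ} (hGc : Continuous G)
    (hGh : ∀ r : ℝ, 0 < r → ∀ x : ℝ × ℝ × ℝ × ℝ, G (r • x) = r * G x)
    {zs : ℝ} (hzs : 0 ≤ zs) {Pch : ℝ → ℝ → ℝ → ℝ → ℝ → Prop}
    (hPm : ∀ D₀ D₁ L z z' z'', D₀ ≤ D₁ → Pch D₀ L z z' z'' → Pch D₁ L z z' z'')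
    (hP : ∀ D₀ L z z' z'', 0 ≤ D₀ → 0 ≤ L → 0 ≤ z → Pch D₀ L z z' z'' →
      0 ≤ z'' ∧ G (L, z, z', z'') ≤ D₀ ∧ |z'| ≤ z + L + D₀ ∧ z'' ≤ z + L + D₀)
    (hrule : ∀ (lam : Lam) (ε ε₂ M : ℝ), 0 < ε → 0 < ε₂ → 0 ≤ M → ∃ C J : ℝ, 0 < C ∧ 0 ≤ J ∧
      ∀ (lK : ℝ) (p : Pc) (ps : List Pc), D.lump p → 0 ≤ lK → 0 ≤ D.len p → ∀ Bd : ℝ, 0 ≤ Bd →
      (∀ z' z'' t', Pch (ε * (1 + lK + D.len p) + zs) lK (D.len p) z' z'' →
        Ψ lam lK (mk z'' t' :: ps) ≤ Bd * (1 + |t'|) ^ M * Real.exp (-(z' - z''))) →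
      Ψ lam lK (p :: ps) ≤ C * Real.exp (ε * (1 + lK + D.len p)) * D.s2 p ^ ε₂ * D.s1 p ^ J * Bd)
    (hneg : ∀ (lam : Lam) (lK : ℝ) (ps : List Pc), lK < 0 → Ψ lam lK ps ≤ 0)
    {T₁ : ℝ} (hT₁ : 0 ≤ T₁)
    (htriv : ∀ (lam : Lam) (N : ℕ), ∃ C : ℝ, ∀ lK : ℝ, 0 ≤ lK → ∀ ps : List Pc, ps.length ≤ N →
      (∀ p ∈ ps, 0 ≤ D.len p) → Ψ lam lK ps ≤ C * Real.exp (T₁ * (lK + (ps.map D.len).sum)))
    (hs1 : ∀ p, 0 ≤ D.s1 p) (hs2 : ∀ p, 0 ≤ D.s2 p)
    {κ y : ℝ} {u : List ℝ} {w : τ → ℝ} {E : ℝ}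
    (hch : ∀ y' y'' : ℝ, 0 ≤ y'' → G (κ, y, y', y'') ≤ 0 →
      BG D Ψ κ (y'' :: u) w (E - (y' - y''))) :
    BG D Ψ κ (y :: u) w E := by
  classical
  -- finite-dimensional form
  obtain ⟨n, v, rfl⟩ : ∃ (n : ℕ) (v : Fin n → ℝ), u = List.ofFn v :=
    ⟨u.length, u.get, (List.ofFn_get u).symm⟩
  have hof : ∀ x : ℝ, x :: List.ofFn v = List.ofFn (Fin.cons x v : Fin (n + 1) → ℝ) := by
    intro x
    rw [List.ofFn_succ]
    simp
  rw [hof, BG_iff_EG]
  set p : Unit ⊕ Fin (n + 1) ⊕ τ → ℝ := pv κ (Fin.cons y v : Fin (n + 1) → ℝ) w with hp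
  set lp : Unit ⊕ Fin (n + 1) ⊕ τ := Sum.inr (Sum.inl 0) with hlp
  have pκ : p (Sum.inl ()) = κ := rfl
  have py : p lp = y := rfl
  set P0 : ℝ := ‖p‖ with hP0
  have hP00 : 0 ≤ P0 := norm_nonneg _
  have hκP : |κ| ≤ P0 := by rw [← pκ]; exact abs_le_pi p _
  have hyP : |y| ≤ P0 := by rw [← py]; exact abs_le_pi p _
  set c : ℝ := 2 * P0 + 3 with hc
  have hc0 : 0 < c := by rw [hc]; positivity
  -- the data of `transfer2`
  let Ch : Lam → ℝ → LA D (n + 1) → ℝ × LA D (n + 1) → Prop := fun _ ε a a' =>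
    0 ≤ a.lK ∧ ∃ (z'' t' : ℝ) (h0 : 0 ≤ D.len (mk z'' t')),
      Pch (ε * (1 + a.lK + D.len (a.us 0)) + zs) a.lK (D.len (a.us 0)) a'.1 z'' ∧
      a'.2 = upd a (mk z'' t') (hm1 _ _) h0
  let f : (Unit ⊕ Fin (n + 1) ⊕ τ → ℝ) × (Unit ⊕ (Unit ⊕ Fin (n + 1) ⊕ τ) → ℝ) → ℝ := fun q =>
    max (G (q.1 (Sum.inl ()), q.1 lp, q.2 (Sum.inl ()), q.2 (Sum.inr lp)))
      (max (-(q.2 (Sum.inr lp))) (∑ i, if i = lp then 0 else |q.2 (Sum.inr i) - q.1 i|))
  let hh : (Unit ⊕ Fin (n + 1) ⊕ τ → ℝ) × (Unit ⊕ (Unit ⊕ Fin (n + 1) ⊕ τ) → ℝ) → ℝ := fun q =>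
    -(q.2 (Sum.inl ()) - q.2 (Sum.inr lp))
  have hf : Continuous f := by
    refine Continuous.max ?_ (Continuous.max ?_ ?_)
    · refine hGc.comp ?_
      fun_prop
    · fun_prop
    · refine continuous_finsetSum _ fun i _ => ?_
      split_ifs
      · exact continuous_const
      · fun_prop
  have hhc : Continuous hh := by
    show Continuous fun q : (Unit ⊕ Fin (n + 1) ⊕ τ → ℝ) × (Unit ⊕ (Unit ⊕ Fin (n + 1) ⊕ τ) → ℝ) =>
      -(q.2 (Sum.inl ()) - q.2 (Sum.inr lp))
    fun_prop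
  -- facts about the window
  have hwin : ∀ {δ : ℝ} {N : ℕ} {B ρ X : ℝ} {a : LA D (n + 1)}, δ ≤ 1 → Real.exp 1 ≤ X →
      Win (LS D (n + 1)) p δ N B ρ X a →
      |a.lK| ≤ (P0 + 1) * Real.log X ∧ |D.len (a.us 0)| ≤ (P0 + 1) * Real.log X ∧
        1 ≤ Real.log X := by
    intro δ N B ρ X a hδ hX hw
    have hX0 : 0 < X := lt_of_lt_of_le (Real.exp_pos 1) hX
    have hlog : 1 ≤ Real.log X := by rwa [Real.le_log_iff_exp_le hX0]
    have hlog0 : 0 < Real.log X := by linarith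
    have h1 := hw.ev (Sum.inl ())
    have h2 := hw.ev lp
    have e1 : (LS D (n + 1)).ev X a (Sum.inl ()) = a.lK / Real.log X := rfl
    have e2 : (LS D (n + 1)).ev X a lp = D.len (a.us 0) / Real.log X := rfl
    rw [e1, pκ] at h1
    rw [e2, py] at h2
    have h3 : |a.lK / Real.log X| ≤ P0 + 1 := by
      have := abs_sub_abs_le_abs_sub (a.lK / Real.log X) κ
      linarith
    have h4 : |D.len (a.us 0) / Real.log X| ≤ P0 + 1 := by
      have := abs_sub_abs_le_abs_sub (D.len (a.us 0) / Real.log X) y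
      linarith
    rw [abs_div, abs_of_pos hlog0, div_le_iff₀ hlog0] at h3 h4
    exact ⟨h3, h4, hlog⟩
  -- bounds of a child
  have hchild : ∀ {ε : ℝ} {X : ℝ} {a : LA D (n + 1)}, 0 < ε →
      |a.lK| ≤ (P0 + 1) * Real.log X → |D.len (a.us 0)| ≤ (P0 + 1) * Real.log X →
      1 ≤ Real.log X → 1 + a.lK + D.len (a.us 0) ≤ c * Real.log X := by
    intro ε X a hε h1 h2 h3
    rw [hc]
    have := le_abs_self a.lK
    have := le_abs_self (D.len (a.us 0))
    nlinarith
  have key := transfer2 (S := LS D (n + 1)) (S' := S2 D n) (Ψ := fun lam a => Ψ lam a.lK a.ps)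
    (Ψ' := fun lam a => Ψ lam a.2.lK a.2.ps) (Ch := Ch)
    (cost := fun _ _ a' => max 1 (D.s1 (a'.2.us 0)))
    (mon := fun _ _ a' => Real.exp (-(a'.1 - D.len (a'.2.us 0))))
    (big := fun _ a => Real.exp (1 + |a.lK| + D.len (a.us 0)))
    (m₁ := fun _ _ => 0) (m₂ := fun _ _ => 1) (p := p)
    (D := {q | ∀ i, |q i| ≤ 2 * P0 + 3}) (f := f) (h := hh) (c := c) (e₁ := E) (e₂ := 0) (E := E)
    (T := T₁ * (c + (2 * P0 + 3) + (n * (P0 + 1) + Fintype.card τ * (P0 + 1))) + 1 + (2 * P0 + 3))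
    ?_ ?_ ?_ ?_ ?_ ?_ ?_ hf hhc ?_ ?_ ?_ ?_ ?_ ?_ ?_
  · have e1 : max E (0 + E) = E := by simp
    rw [e1] at key
    exact key
  · -- the rule
    intro lam ε ε₂ M hε hε₂ hM
    obtain ⟨C, J, hC, hJ, hr⟩ := hrule lam ε ε₂ M hε hε₂ hM
    refine ⟨C, J, hC, hJ, fun a Bd hBd hb => ?_⟩
    have s20 : 0 ≤ (LS D (n + 1)).s₂ a ^ ε₂ :=
      Real.rpow_nonneg (zero_le_one.trans (one_le_mx _ _)) _
    have s10 : 0 ≤ (LS D (n + 1)).s₁ a ^ J :=
      Real.rpow_nonneg (zero_le_one.trans (one_le_mx _ _)) _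
    show Ψ lam a.lK a.ps ≤ C * Real.exp (1 + |a.lK| + D.len (a.us 0)) ^ ε *
      (LS D (n + 1)).s₂ a ^ ε₂ * (LS D (n + 1)).s₁ a ^ J * (0 + 1 * Bd)
    rcases lt_or_ge a.lK 0 with h0 | h0
    · exact (hneg lam a.lK a.ps h0).trans (by positivity)
    rw [ps_eq a]
    have hz0 := a.us0 0
    refine (hr a.lK (a.us 0) (rest a) (a.lump 0) h0 hz0 Bd hBd ?_).trans ?_
    · intro z' z'' t' hPc
      have hD0 : 0 ≤ ε * (1 + a.lK + D.len (a.us 0)) + zs := by positivity
      have hz'' := (hP _ _ _ _ _ hD0 h0 hz0 hPc).1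
      have hl0 : 0 ≤ D.len (mk z'' t') := by rw [hm2]; exact hz''
      have h1 := hb (z', upd a (mk z'' t') (hm1 _ _) hl0) ⟨h0, z'', t', hl0, hPc, rfl⟩
      dsimp only at h1
      rw [ps_upd, upd_lK, upd_zero, hm2, hm3, max_eq_right (by linarith [abs_nonneg t'])] at h1
      exact h1
    · rw [abs_of_nonneg h0, ← Real.exp_mul, mul_comm (1 + a.lK + D.len (a.us 0)) ε, zero_add,
        one_mul]
      have hp1 : a.us 0 ∈ a.ps := by rw [ps_eq]; exact List.mem_cons_self
      have i1 : D.s2 (a.us 0) ^ ε₂ ≤ (LS D (n + 1)).s₂ a ^ ε₂ :=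
        Real.rpow_le_rpow (hs2 _) (le_mx hp1) hε₂.le
      have i2 : D.s1 (a.us 0) ^ J ≤ (LS D (n + 1)).s₁ a ^ J :=
        Real.rpow_le_rpow (hs1 _) (le_mx hp1) hJ
      have j1 : 0 ≤ D.s2 (a.us 0) ^ ε₂ := Real.rpow_nonneg (hs2 _) _
      have j2 : 0 ≤ D.s1 (a.us 0) ^ J := Real.rpow_nonneg (hs1 _) _
      gcongr
  · intro lam a a'; exact le_max_left _ _
  · intro lam a a'; exact (Real.exp_pos _).le
  · intro lam a
    exact Real.one_le_exp (by have := a.us0 0; positivity)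
  · intro a; exact one_le_mx _ _
  · intro a; exact one_le_mx _ _
  · -- compactness
    have e1 : {q : Unit ⊕ (Unit ⊕ Fin (n + 1) ⊕ τ) → ℝ | ∀ i, |q i| ≤ 2 * P0 + 3} =
        Set.pi Set.univ fun _ => Set.Icc (-(2 * P0 + 3)) (2 * P0 + 3) := by
      ext q
      simp only [Set.mem_setOf_eq, Set.mem_pi, Set.mem_univ, true_imp_iff, Set.mem_Icc, abs_le]
    rw [e1]
    exact isCompact_univ_pi fun _ => isCompact_Icc
  · -- big
    refine ⟨1, one_pos, fun lam N B => ⟨1, one_pos, Real.exp 1, by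
      have := Real.add_one_lt_exp (one_ne_zero); linarith, fun X hX a ha => ?_⟩⟩
    obtain ⟨h1, h2, h3⟩ := hwin le_rfl hX ha
    have hX0 : 0 < X := lt_of_lt_of_le (Real.exp_pos 1) hX
    show Real.exp (1 + |a.lK| + D.len (a.us 0)) ≤ X ^ c
    rw [Real.rpow_def_of_pos hX0]
    apply Real.exp_le_exp.2
    have h4 := le_abs_self (D.len (a.us 0))
    rw [hc]
    nlinarith
  · -- m₁
    intro ε hε
    refine ⟨1, one_pos, fun lam N B => ⟨1, one_pos, 2, by norm_num, fun X hX a _ => ?_⟩⟩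
    exact Real.rpow_nonneg (by linarith) _
  · -- m₂
    intro ε hε
    refine ⟨1, one_pos, fun lam N B => ⟨1, one_pos, 2, by norm_num, fun X hX a _ => ?_⟩⟩
    exact Real.one_le_rpow (by linarith) (by linarith)
  · -- the geometry
    intro η hη
    set η' := min η 1 with hη'
    have hη'0 : 0 < η' := lt_min hη one_pos
    have hη'1 : η' ≤ 1 := min_le_right _ _
    have hη'2 : η' ≤ η := min_le_left _ _
    set ε := min η' (η' / (2 * c)) with hεd
    have hε : 0 < ε := lt_min hη'0 (by positivity)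
    have hεc : ε * c ≤ η' / 2 := by
      calc ε * c ≤ η' / (2 * c) * c := mul_le_mul_of_nonneg_right (min_le_right _ _) hc0.le
        _ = η' / 2 := by field_simp
    refine ⟨ε, hε, (min_le_left _ _).trans hη'2, η', hη'0, fun lam N B => ⟨N, max B 0,
      fun ρ' hρ' => ⟨ρ', hρ', max (Real.exp 1) (Real.exp (2 * zs / η')), ?_, ?_⟩⟩⟩
    · refine lt_of_lt_of_le ?_ (le_max_left _ _)
      have := Real.add_one_lt_exp (one_ne_zero); linarith
    intro X hX a ha a' hCh
    obtain ⟨hlK, z'', t', hl0, hPc, ha'⟩ := hCh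
    obtain ⟨z', a2⟩ := a'
    dsimp only at hPc ha'
    subst ha'
    have hXe : Real.exp 1 ≤ X := (le_max_left _ _).trans hX
    have hX0 : 0 < X := lt_of_lt_of_le (Real.exp_pos 1) hXe
    have hX1 : 1 ≤ X := by
      have := Real.add_one_lt_exp (one_ne_zero); linarith
    obtain ⟨h1, h2, h3⟩ := hwin hη'1 hXe ha
    have hlog0 : 0 < Real.log X := by linarith
    have hz0 := a.us0 0
    have hzs' : zs ≤ η' / 2 * Real.log X := by
      have h4 : Real.exp (2 * zs / η') ≤ X := (le_max_right _ _).trans hX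
      rw [← Real.le_log_iff_exp_le hX0, div_le_iff₀ hη'0] at h4
      linarith
    have hD0 : 0 ≤ ε * (1 + a.lK + D.len (a.us 0)) + zs := by positivity
    have hDη : ε * (1 + a.lK + D.len (a.us 0)) + zs ≤ η' * Real.log X := by
      have h4 := hchild hε h1 h2 h3
      have h5 : ε * (1 + a.lK + D.len (a.us 0)) ≤ ε * (c * Real.log X) :=
        mul_le_mul_of_nonneg_left h4 hε.le
      have h6 : ε * c * Real.log X ≤ η' / 2 * Real.log X :=
        mul_le_mul_of_nonneg_right hεc hlog0.le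
      nlinarith
    obtain ⟨g1, g2, g3, g4⟩ := hP _ _ _ _ _ hD0 hlK hz0 hPc
    have hlK' : a.lK ≤ (P0 + 1) * Real.log X := (le_abs_self _).trans h1
    have hz' : D.len (a.us 0) ≤ (P0 + 1) * Real.log X := (le_abs_self _).trans h2
    have g3' : |z'| ≤ (2 * P0 + 3) * Real.log X := by nlinarith
    have g4' : z'' ≤ (2 * P0 + 3) * Real.log X := by nlinarith
    have ev1 : (S2 D n).ev X (z', upd a (mk z'' t') (hm1 _ _) hl0) (Sum.inl ()) =
        z' / Real.log X := rfl
    have ev2 : (S2 D n).ev X (z', upd a (mk z'' t') (hm1 _ _) hl0) (Sum.inr lp) =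
        z'' / Real.log X := by
      show D.len (mk z'' t') / Real.log X = _
      rw [hm2]
    have ev3 : ∀ i, i ≠ lp → (S2 D n).ev X (z', upd a (mk z'' t') (hm1 _ _) hl0) (Sum.inr i) =
        (LS D (n + 1)).ev X a i := by
      rintro (⟨⟩ | i | t) hi
      · rfl
      · revert hi
        refine Fin.cases (fun hi => absurd rfl hi) (fun i _ => rfl) i
      · rfl
    have hgn : 0 ≤ z'' / Real.log X := div_nonneg g1 hlog0.le
    refine ⟨?_, ?_, ?_, ?_, ?_, ?_, ?_⟩
    · rintro (⟨⟩ | i)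
      · rw [ev1, abs_div, abs_of_pos hlog0, div_le_iff₀ hlog0]
        exact g3'
      · by_cases hi : i = lp
        · rw [hi, ev2, abs_of_nonneg hgn, div_le_iff₀ hlog0]
          exact g4'
        · rw [ev3 i hi]
          have h4 := ha.ev i
          have h5 := abs_sub_abs_le_abs_sub ((LS D (n + 1)).ev X a i) (p i)
          have h6 := abs_le_pi p i
          linarith
    · refine max_le ?_ (max_le ?_ ?_)
      · have e1 : (LS D (n + 1)).ev X a (Sum.inl ()) = a.lK / Real.log X := rfl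
        have e2 : (LS D (n + 1)).ev X a lp = D.len (a.us 0) / Real.log X := rfl
        dsimp only
        rw [ev1, ev2, e1, e2]
        have e3 : (a.lK / Real.log X, D.len (a.us 0) / Real.log X, z' / Real.log X,
            z'' / Real.log X) = (Real.log X)⁻¹ • (a.lK, D.len (a.us 0), z', z'') := by
          simp only [Prod.smul_mk, smul_eq_mul, div_eq_inv_mul]
        rw [e3, hGh _ (inv_pos.2 hlog0), inv_mul_le_iff₀ hlog0]
        calc G (a.lK, D.len (a.us 0), z', z'') ≤ η' * Real.log X := g2.trans hDη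
          _ ≤ η * Real.log X := mul_le_mul_of_nonneg_right hη'2 hlog0.le
          _ = Real.log X * η := by ring
      · dsimp only
        rw [ev2]
        linarith
      · dsimp only
        rw [Finset.sum_eq_zero]
        · exact hη.le
        · intro i _
          split_ifs with hi
          · rfl
          · rw [ev3 i hi, sub_self, abs_zero]
    · show X ^ (-((S2 D n).ev X (z', upd a (mk z'' t') (hm1 _ _) hl0) (Sum.inl ()) -
        (S2 D n).ev X (z', upd a (mk z'' t') (hm1 _ _) hl0) (Sum.inr lp)) - η) ≤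
        Real.exp (-(z' - D.len (mk z'' t')))
      rw [ev1, ev2, hm2, Real.rpow_def_of_pos hX0]
      apply Real.exp_le_exp.2
      have e1 : Real.log X * (-(z' / Real.log X - z'' / Real.log X) - η) =
          -(z' - z'') - Real.log X * η := by field_simp
      rw [e1]
      have : 0 ≤ Real.log X * η := by positivity
      linarith
    · show (LS D (n + 1)).g a ≤ X ^ η
      exact ha.g.trans (Real.rpow_le_rpow_of_exponent_le hX1 hη'2)
    · exact ha.n
    · show mx D.s2 (upd a (mk z'' t') (hm1 _ _) hl0).ps ≤ X ^ (max B 0)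
      have hB1 : 1 ≤ X ^ (max B 0) := Real.one_le_rpow hX1 (le_max_right _ _)
      rw [ps_upd, mx_cons, max_le_iff]
      refine ⟨(hm4 _ _).trans hB1, ?_⟩
      rw [mx_le hB1]
      intro q hq
      have hq' : q ∈ a.ps := by rw [ps_eq]; exact List.mem_cons_of_mem _ hq
      exact (le_mx hq').trans (ha.s₂.trans
        (Real.rpow_le_rpow_of_exponent_le hX1 (le_max_left _ _)))
    · intro hcst
      show mx D.s1 (upd a (mk z'' t') (hm1 _ _) hl0).ps ≤ X ^ ρ'
      have hB1 : 1 ≤ X ^ ρ' := Real.one_le_rpow hX1 hρ'.le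
      rw [ps_upd, mx_cons, max_le_iff]
      refine ⟨?_, ?_⟩
      · have : max 1 (D.s1 (mk z'' t')) ≤ X ^ ρ' := hcst
        exact (le_max_right _ _).trans this
      · rw [mx_le hB1]
        intro q hq
        have hq' : q ∈ a.ps := by rw [ps_eq]; exact List.mem_cons_of_mem _ hq
        exact (le_mx hq').trans ha.s₁
  · -- the trivial bound
    set ε₀ : ℝ := 1 / (2 * c) with hε₀
    have hε₀0 : 0 < ε₀ := by positivity
    have hεc : ε₀ * c = 1 / 2 := by rw [hε₀]; field_simp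
    refine ⟨ε₀, hε₀0, 1, one_pos, fun lam N B => ?_⟩
    obtain ⟨C, hC⟩ := htriv lam (n + 1 + N)
    obtain ⟨X₂, hX₂, hX₂'⟩ := const_le_rpow (C := C) (ε := 1) one_pos
    refine ⟨1, one_pos, max (max (Real.exp 1) (Real.exp (2 * zs))) X₂, ?_, ?_⟩
    · refine lt_of_lt_of_le ?_ ((le_max_left _ _).trans (le_max_left _ _))
      have := Real.add_one_lt_exp (one_ne_zero); linarith
    intro X hX a ha a' hCh
    obtain ⟨hlK, z'', t', hl0, hPc, ha'⟩ := hCh
    obtain ⟨z', a2⟩ := a'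
    dsimp only at hPc ha'
    subst ha'
    have hXe : Real.exp 1 ≤ X := ((le_max_left _ _).trans (le_max_left _ _)).trans hX
    have hX0 : 0 < X := lt_of_lt_of_le (Real.exp_pos 1) hXe
    have hX1 : 1 ≤ X := by
      have := Real.add_one_lt_exp (one_ne_zero); linarith
    obtain ⟨h1, h2, h3⟩ := hwin le_rfl hXe ha
    have hlog0 : 0 < Real.log X := by linarith
    have hz0 := a.us0 0
    have hzs' : zs ≤ 1 / 2 * Real.log X := by
      have h4 : Real.exp (2 * zs) ≤ X := ((le_max_right _ _).trans (le_max_left _ _)).trans hX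
      rw [← Real.le_log_iff_exp_le hX0] at h4
      linarith
    have hD0 : 0 ≤ ε₀ * (1 + a.lK + D.len (a.us 0)) + zs := by positivity
    have hDη : ε₀ * (1 + a.lK + D.len (a.us 0)) + zs ≤ Real.log X := by
      have h4 := hchild hε₀0 h1 h2 h3
      have h5 : ε₀ * (1 + a.lK + D.len (a.us 0)) ≤ ε₀ * (c * Real.log X) :=
        mul_le_mul_of_nonneg_left h4 hε₀0.le
      have h6 : ε₀ * (c * Real.log X) = 1 / 2 * Real.log X := by rw [← mul_assoc, hεc]
      linarith
    obtain ⟨g1, g2, g3, g4⟩ := hP _ _ _ _ _ hD0 hlK hz0 hPc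
    have hlK' : a.lK ≤ (P0 + 1) * Real.log X := (le_abs_self _).trans h1
    have hz' : D.len (a.us 0) ≤ (P0 + 1) * Real.log X := (le_abs_self _).trans h2
    have g3' : |z'| ≤ (2 * P0 + 3) * Real.log X := by nlinarith
    have g4' : z'' ≤ (2 * P0 + 3) * Real.log X := by nlinarith
    -- total length
    have hlen : (((upd a (mk z'' t') (hm1 _ _) hl0).ps).map D.len).sum ≤
        ((2 * P0 + 3) + (n * (P0 + 1) + Fintype.card τ * (P0 + 1))) * Real.log X := by
      rw [ps_upd, List.map_cons, List.sum_cons, hm2]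
      unfold rest
      rw [List.map_append, List.sum_append, List.map_ofFn, List.sum_ofFn]
      have i1 : ∑ i : Fin n, (D.len ∘ fun i => a.us i.succ) i ≤ n * (P0 + 1) * Real.log X := by
        calc ∑ i : Fin n, (D.len ∘ fun i => a.us i.succ) i
            ≤ ∑ _i : Fin n, (P0 + 1) * Real.log X := by
              refine Finset.sum_le_sum fun i _ => ?_
              have h4 := ha.ev (Sum.inr (Sum.inl i.succ))
              have e4 : (LS D (n + 1)).ev X a (Sum.inr (Sum.inl i.succ)) =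
                D.len (a.us i.succ) / Real.log X := rfl
              rw [e4] at h4
              have h5 := abs_sub_abs_le_abs_sub (D.len (a.us i.succ) / Real.log X)
                (p (Sum.inr (Sum.inl i.succ)))
              have h6 := abs_le_pi p (Sum.inr (Sum.inl i.succ))
              have h7 : D.len (a.us i.succ) / Real.log X ≤ P0 + 1 :=
                (le_abs_self _).trans (by linarith)
              rw [div_le_iff₀ hlog0] at h7
              exact h7
          _ = n * (P0 + 1) * Real.log X := by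
              rw [Finset.sum_const, Finset.card_univ, Fintype.card_fin, nsmul_eq_mul]; ring
      have i2 : (a.gs.map D.len).sum ≤ Fintype.card τ * (P0 + 1) * Real.log X := by
        have e5 : (a.gs.map D.len).sum = Real.log X * tl D X a.gs := by
          unfold tl
          rw [← List.sum_map_mul_left]
          congr 1
          refine List.map_congr_left fun q _ => ?_
          show D.len q = Real.log X * (D.len q / Real.log X)
          field_simp
        rw [e5, tl_eq_mass]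
        have i3 : ∑ t, D.mass X a.gs t ≤ ∑ _t : τ, (P0 + 1) := by
          refine Finset.sum_le_sum fun t _ => ?_
          have h4 := ha.ev (Sum.inr (Sum.inr t))
          have e4 : (LS D (n + 1)).ev X a (Sum.inr (Sum.inr t)) = D.mass X a.gs t := rfl
          rw [e4] at h4
          have h5 := abs_sub_abs_le_abs_sub (D.mass X a.gs t) (p (Sum.inr (Sum.inr t)))
          have h6 := abs_le_pi p (Sum.inr (Sum.inr t))
          exact (le_abs_self _).trans (by linarith)
        rw [Finset.sum_const, Finset.card_univ, nsmul_eq_mul] at i3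
        calc Real.log X * ∑ t, D.mass X a.gs t ≤ Real.log X * (Fintype.card τ * (P0 + 1)) :=
              mul_le_mul_of_nonneg_left i3 hlog0.le
          _ = _ := by ring
      linarith
    have hnum : ((upd a (mk z'' t') (hm1 _ _) hl0).ps).length ≤ n + 1 + N := by
      rw [ps_upd]
      unfold rest
      rw [List.length_cons, List.length_append, List.length_ofFn]
      have : a.gs.length ≤ N := ha.n
      omega
    have hlen0 : ∀ q ∈ (upd a (mk z'' t') (hm1 _ _) hl0).ps, 0 ≤ D.len q := by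
      intro q hq
      rcases List.mem_append.1 hq with h | h
      · obtain ⟨i, rfl⟩ := (List.mem_ofFn' _ _).1 h
        exact LA.us0 _ i
      · exact a.gs0 q h
    have h4 := hC a.lK hlK _ hnum hlen0
    have h5 := hX₂' X ((le_max_right _ _).trans hX)
    set T₂ : ℝ := (2 * P0 + 3) + (n * (P0 + 1) + Fintype.card τ * (P0 + 1)) with hT₂
    have hT₂0 : 0 ≤ T₂ := by rw [hT₂]; positivity
    have h6 : Real.exp (T₁ * (a.lK + (((upd a (mk z'' t') (hm1 _ _) hl0).ps).map D.len).sum)) ≤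
        X ^ (T₁ * (c + T₂)) := by
      rw [Real.rpow_def_of_pos hX0]
      apply Real.exp_le_exp.2
      have i4 : a.lK ≤ c * Real.log X := by rw [hc]; nlinarith
      calc T₁ * (a.lK + (((upd a (mk z'' t') (hm1 _ _) hl0).ps).map D.len).sum)
          ≤ T₁ * (c * Real.log X + T₂ * Real.log X) :=
            mul_le_mul_of_nonneg_left (add_le_add i4 hlen) hT₁
        _ = _ := by ring
    have hmon : X ^ (-(2 * P0 + 3)) ≤ Real.exp (-(z' - D.len (mk z'' t'))) := by
      rw [hm2, Real.rpow_def_of_pos hX0]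
      apply Real.exp_le_exp.2
      have := le_abs_self z'
      nlinarith
    show Ψ lam a.lK (upd a (mk z'' t') (hm1 _ _) hl0).ps ≤ _
    dsimp only
    rw [upd_zero]
    set cst : ℝ := max 1 (D.s1 (mk z'' t')) with hcst
    have hcst1 : 1 ≤ cst := le_max_left _ _
    set T : ℝ := T₁ * (c + (2 * P0 + 3) + (n * (P0 + 1) + Fintype.card τ * (P0 + 1))) + 1 +
      (2 * P0 + 3) with hT
    have hT0 : 0 ≤ T := by rw [hT]; positivity
    have hTe : T = T₁ * (c + T₂) + 1 + (2 * P0 + 3) := by rw [hT, hT₂]; ring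
    have hcT : 1 ≤ cst ^ T := Real.one_le_rpow hcst1 hT0
    have hXp : 0 < X ^ (T₁ * (c + T₂)) := Real.rpow_pos_of_pos hX0 _
    calc Ψ lam a.lK (upd a (mk z'' t') (hm1 _ _) hl0).ps
        ≤ C * Real.exp (T₁ * (a.lK + (((upd a (mk z'' t') (hm1 _ _) hl0).ps).map D.len).sum)) := h4
      _ ≤ X ^ (1 : ℝ) * Real.exp (T₁ * (a.lK +
          (((upd a (mk z'' t') (hm1 _ _) hl0).ps).map D.len).sum)) :=
          mul_le_mul_of_nonneg_right h5 (Real.exp_pos _).le
      _ ≤ X ^ (1 : ℝ) * X ^ (T₁ * (c + T₂)) := by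
          have : 0 ≤ X ^ (1 : ℝ) := Real.rpow_nonneg hX0.le _
          exact mul_le_mul_of_nonneg_left h6 this
      _ = X ^ T * X ^ (-(2 * P0 + 3)) := by
          rw [← Real.rpow_add hX0, ← Real.rpow_add hX0, hTe]
          congr 1; ring
      _ ≤ X ^ T * Real.exp (-(z' - D.len (mk z'' t'))) :=
          mul_le_mul_of_nonneg_left hmon (Real.rpow_nonneg hX0.le _)
      _ = X ^ T * 1 * Real.exp (-(z' - D.len (mk z'' t'))) := by ring
      _ ≤ X ^ T * cst ^ T * Real.exp (-(z' - D.len (mk z'' t'))) := by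
          have : 0 ≤ X ^ T := Real.rpow_nonneg hX0.le _
          gcongr
  · -- monotonicity
    rintro lam ε ε' a ⟨z', a2⟩ hεε ⟨h0, z'', t', hl0, hPc, ha'⟩
    refine ⟨h0, z'', t', hl0, hPm _ _ _ _ _ _ ?_ hPc, ha'⟩
    have := a.us0 0
    have h1 : ε * (1 + a.lK + D.len (a.us 0)) ≤ ε' * (1 + a.lK + D.len (a.us 0)) :=
      mul_le_mul_of_nonneg_right hεε (by positivity)
    linarith
  · -- the children
    intro p' hp' hfp
    have hf1 := (max_le_iff.1 hfp).1
    have hf2 := (max_le_iff.1 ((max_le_iff.1 hfp).2)).1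
    have hf3 := (max_le_iff.1 ((max_le_iff.1 hfp).2)).2
    dsimp only at hf1 hf2 hf3
    rw [pκ, py] at hf1
    have hz : ∀ i, i ≠ lp → p' (Sum.inr i) = p i := by
      intro i hi
      have h1 : (if i = lp then (0 : ℝ) else |p' (Sum.inr i) - p i|) ≤ 0 :=
        (Finset.single_le_sum (f := fun i => if i = lp then (0 : ℝ) else |p' (Sum.inr i) - p i|)
          (fun j _ => by split_ifs <;> simp) (Finset.mem_univ i)).trans hf3
      rw [if_neg hi] at h1
      have := abs_nonpos_iff.1 h1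
      linarith
    have hB := hch (p' (Sum.inl ())) (p' (Sum.inr lp)) (by linarith) hf1
    rw [hof, BG_iff_EG] at hB
    have e1 : pv κ (Fin.cons (p' (Sum.inr lp)) v : Fin (n + 1) → ℝ) w =
        fun i => p' (Sum.inr i) := by
      funext i
      by_cases hi : i = lp
      · rw [hi]; rfl
      · rw [hz i hi, hp]
        rcases i with ⟨⟩ | i | t
        · rfl
        · revert hi
          refine Fin.cases (fun hi => absurd rfl hi) (fun i _ => rfl) i
        · rfl
    rw [e1] at hB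
    have e2 : E + hh (p, p') = E - (p' (Sum.inl ()) - p' (Sum.inr lp)) := by
      show E + -(p' (Sum.inl ()) - p' (Sum.inr lp)) = _
      ring
    rw [e2]
    exact EG.S2 hB

end Crest.Agent.R017.XFl571
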