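import Crest.Agent.R017.XFl2_571
import Crest.Agent.R017.XFl3_571
import Crest.Agent.R017.ProvI_71

/-!
# Row 17, provider, rule `flip` (helper571), part 4: the literal fields

* `flip_RQ`, `cut_RQ` : `flip` and `cut` for `RQ (Q lam)`, `Q lam k → CubeFree k ∧ NPm k`
* `flip_Rp`, `cut_Rp` : the same for `Rp`
-/

set_option autoImplicit false

noncomputable section

open Complex
open scoped ComplexConjugate ContDiff

namespace Crest.Agent.R017.XFl571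

open Crest.Agent.R012 Crest.Agent.R012.Eis Crest.Agent.R012.LS2 Crest.Agent.R012.Gauss880
open Crest.Agent.R012.Weight600 (osc norm_osc)
open Crest.Agent.R012.PSer47 (IsChar ang_isChar)
open Crest.Agent.R017.CM106 (CS)
open Crest.Agent.R017.End699 Crest.Agent.R017.FE47
open Crest.Agent.R017.B770
open Crest.Agent.R017.XG702 (Pcs BG)
open Crest.Agent.R017.HP842 (UT Pc pc uv norm_uv_le)
open Crest.Agent.R017.Prov71

/-! ### the pieces as smooth sums -/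

/-- a piece is a smooth sum -/
lemma CS_eq_PS (P : DPar) (h : ℝ → ℝ) (p : Pq) (k : Eis) :
    CS (pc h (p.pc P)) k =
      PS (cx h) (fun b => uv p.u b * (chK P p.kd b * prin0 p.d b) * sy k b) p.z p.t := by
  unfold CM106.CS PS HP842.pc HSep813.gw End699.ext
  refine tsum_congr fun b => ?_
  simp only [Pq.pc_u, Pq.pc_Y, Pq.pc_t, Pq.pc_ψ, Real.log_exp]
  split_ifs
  · ring
  · ring

/-- a lump -/
lemma CS_lump (P : DPar) (h : ℝ → ℝ) {p : Pq} (hp : Dq.lump p) (k : Eis) :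
    CS (pc h (p.pc P)) k =
      PS (cx h) (fun b => XK P.ψ (sy k) P.l₂ b * prin0 p.d b) p.z p.t := by
  rw [CS_eq_PS]
  refine PS_congr (fun b _ => ?_) _ _
  obtain ⟨h1, h2⟩ := hp
  rw [h1, h2]
  unfold chK HP842.uv XK
  dsimp only
  ring

/-- the normalized lump -/
def mkL (z t : ℝ) : Pq := ⟨.mo, .one, 1, one_ne_zero, z, t⟩

lemma CS_mkL (P : DPar) (h : ℝ → ℝ) (z t : ℝ) (k : Eis) :
    CS (pc h ((mkL z t).pc P)) k = PS (cx h) (XK P.ψ (sy k) P.l₂) z t := by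
  rw [CS_lump P h (p := mkL z t) ⟨rfl, rfl⟩]
  refine PS_congr (fun b _ => ?_) _ _
  have : prin0 (1 : Eis) b = 1 := by
    unfold prin0
    rw [if_pos isCoprime_one_right]
  show XK P.ψ (sy k) P.l₂ b * prin0 (1 : Eis) b = _
  rw [this, mul_one]

/-- trivial bound of a piece -/
lemma norm_CS_le {h : ℝ → ℝ} {c : ℝ} (hpu : PU h c) : ∃ C : ℝ, 1 ≤ C ∧ ∀ (P : DPar), P.OK →
    ∀ (p : Pq) (k : Eis), ‖CS (pc h (p.pc P)) k‖ ≤ C * Real.exp p.z := by
  obtain ⟨C, hC, hb⟩ := norm_PS_le (cd_cx hpu.cd).continuous (cs_cx hpu.cs)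
  refine ⟨C + 1, by linarith, fun P hP p k => ?_⟩
  rw [CS_eq_PS]
  refine (hb _ (fun b hb => ?_) _ _).trans ?_
  · rw [norm_mul, norm_mul]
    have h1 := norm_uv_le p.u b
    have h2 : ‖chK P p.kd b * prin0 p.d b‖ ≤ 1 :=
      ((isChar_chK hP p.kd).mul' (HP842.prin0_isChar p.d)).norm_le hb
    have h3 := Two939.norm_sy_le (k := k) hb
    calc ‖uv p.u b‖ * ‖chK P p.kd b * prin0 p.d b‖ * ‖sy k b‖ ≤ 1 * 1 * 1 := by gcongr
      _ = 1 := by ring
  · have := Real.exp_pos p.z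
    nlinarith

/-- the weights of the other pieces -/
def wB (P : DPar) (h : ℝ → ℝ) (ps : List Pq) (k : Eis) : ℝ :=
  ((ps.map (Pq.pc P)).map fun p => ‖CS (pc h p) k‖ ^ 2).prod

lemma wB_nonneg (P : DPar) (h : ℝ → ℝ) (ps : List Pq) (k : Eis) : 0 ≤ wB P h ps k := by
  refine List.prod_nonneg ?_
  intro a ha
  obtain ⟨p, _, rfl⟩ := List.mem_map.1 ha
  positivity

open Classical in
lemma RQ_cons (P : DPar) (Q : Eis → Prop) (h : ℝ → ℝ) (l : ℝ) (p : Pq) (ps : List Pq) :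
    RQ Q h l ((p :: ps).map (Pq.pc P)) =
      ∑ k ∈ (bl (Real.exp l)).filter Q, wB P h ps k * ‖CS (pc h (p.pc P)) k‖ ^ 2 := by
  unfold RQ wB
  refine Finset.sum_congr rfl fun k _ => ?_
  rw [List.map_cons, List.map_cons, List.prod_cons, mul_comm]

lemma wB_le {C : ℝ} (hC : 1 ≤ C) {P : DPar} {h : ℝ → ℝ}
    (hb : ∀ (p : Pq) (k : Eis), ‖CS (pc h (p.pc P)) k‖ ≤ C * Real.exp p.z) (ps : List Pq)
    (k : Eis) : wB P h ps k ≤ (C ^ 2) ^ ps.length * Real.exp (2 * (ps.map Dq.len).sum) := by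
  induction ps with
  | nil => simp [wB]
  | cons p ps ih =>
    have e1 : wB P h (p :: ps) k = ‖CS (pc h (p.pc P)) k‖ ^ 2 * wB P h ps k := by
      unfold wB
      rw [List.map_cons, List.map_cons, List.prod_cons]
    rw [e1, List.length_cons, List.map_cons, List.sum_cons, Dq_len]
    have h1 : ‖CS (pc h (p.pc P)) k‖ ^ 2 ≤ (C * Real.exp p.z) ^ 2 := by
      have := hb p k
      gcongr
    calc ‖CS (pc h (p.pc P)) k‖ ^ 2 * wB P h ps k
        ≤ (C * Real.exp p.z) ^ 2 * ((C ^ 2) ^ ps.length * Real.exp (2 * (ps.map Dq.len).sum)) :=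
          mul_le_mul h1 ih (wB_nonneg _ _ _ _) (by positivity)
      _ = _ := by
          rw [mul_add, Real.exp_add, pow_succ, mul_pow, two_mul p.z, Real.exp_add]
          ring

/-- trivial bound -/
lemma triv_RQ {h : ℝ → ℝ} {c : ℝ} (hpu : PU h c) {P : DPar} (hP : P.OK) (Q : Eis → Prop) (N : ℕ) :
    ∃ C : ℝ, ∀ lK : ℝ, 0 ≤ lK → ∀ ps : List Pq, ps.length ≤ N → (∀ p ∈ ps, 0 ≤ Dq.len p) →
      RQ Q h lK (ps.map (Pq.pc P)) ≤ C * Real.exp (2 * (lK + (ps.map Dq.len).sum)) := by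
  classical
  obtain ⟨C, hC, hb⟩ := norm_CS_le hpu
  refine ⟨16 * (C ^ 2) ^ N, fun lK hlK ps hN hps => ?_⟩
  have hC2 : 1 ≤ C ^ 2 := one_le_pow₀ hC
  have h1 : ∀ k, wB P h ps k ≤ (C ^ 2) ^ N * Real.exp (2 * (ps.map Dq.len).sum) := by
    intro k
    refine (wB_le hC (hb P hP) ps k).trans ?_
    have := pow_le_pow_right₀ hC2 hN
    have := Real.exp_pos (2 * (ps.map Dq.len).sum)
    gcongr
  have h0 : 0 ≤ (C ^ 2) ^ N * Real.exp (2 * (ps.map Dq.len).sum) := by positivity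
  calc RQ Q h lK (ps.map (Pq.pc P)) = ∑ k ∈ (bl (Real.exp lK)).filter Q, wB P h ps k := by
        unfold RQ wB
        refine Finset.sum_congr ?_ fun k _ => rfl
        congr
    _ ≤ ∑ k ∈ (bl (Real.exp lK)).filter Q, (C ^ 2) ^ N * Real.exp (2 * (ps.map Dq.len).sum) :=
        Finset.sum_le_sum fun k _ => h1 k
    _ = ((bl (Real.exp lK)).filter Q).card * ((C ^ 2) ^ N *
        Real.exp (2 * (ps.map Dq.len).sum)) := by rw [Finset.sum_const, nsmul_eq_mul]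
    _ ≤ (16 * Real.exp lK) * ((C ^ 2) ^ N * Real.exp (2 * (ps.map Dq.len).sum)) := by
        refine mul_le_mul_of_nonneg_right ?_ h0
        refine le_trans ?_ (CR2.card_bl_le (Real.exp_pos lK).le)
        exact_mod_cast Finset.card_filter_le _ _
    _ ≤ (16 * Real.exp (2 * lK)) * ((C ^ 2) ^ N * Real.exp (2 * (ps.map Dq.len).sum)) := by
        have : Real.exp lK ≤ Real.exp (2 * lK) := Real.exp_le_exp.2 (by linarith)
        gcongr
    _ = _ := by rw [mul_add, Real.exp_add]; ring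

lemma neg_RQ (Q : Eis → Prop) (h : ℝ → ℝ) {l : ℝ} (hl : l < 0) (ps : List Pc) :
    RQ Q h l ps ≤ 0 := by
  classical
  have e : bl (Real.exp l) = ∅ := by
    rw [Finset.eq_empty_iff_forall_notMem]
    intro k hk
    rw [mem_bl (Real.exp_pos _).le] at hk
    have h1 : (1 : ℝ) ≤ nm k := by exact_mod_cast nm_pos.2 hk.1
    have h2 : Real.exp l < 1 := by simpa using hl
    linarith [hk.2]
  unfold RQ
  rw [e]
  simp

/-! ### the rule for a list -/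

open Classical in
/-- **the analytic rule for lists of pieces** -/
theorem rule_RQ {h : ℝ → ℝ} {c : ℝ} (hpu : PU h c) : ∃ zs : ℝ, 0 ≤ zs ∧
    ∀ {P : DPar}, P.OK → ∀ {Q : Eis → Prop},
    (∀ k, Q k → CubeFree k ∧ Sup271.NPm P.n P.ψ P.l₂ k) →
    ∀ {Pch : ℝ → ℝ → ℝ → ℝ → ℝ → Prop},
    (∀ D₀ D₁ L z z' z'', D₀ ≤ D₁ → Pch D₀ L z z' z'' → Pch D₁ L z z' z'') →
    (∀ D₀ L z, zs ≤ D₀ → 0 ≤ L → 0 ≤ z → PCh D₀ zs L z (Pch D₀ L z)) →
    ∀ (ε ε₂ M : ℝ), 0 < ε → 0 < ε₂ → 0 ≤ M → ∃ C J : ℝ, 0 < C ∧ 0 ≤ J ∧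
      ∀ (lK : ℝ) (p : Pq) (ps : List Pq), Dq.lump p → 0 ≤ lK → 0 ≤ Dq.len p → ∀ Bd : ℝ, 0 ≤ Bd →
      (∀ z' z'' t', Pch (ε * (1 + lK + Dq.len p) + zs) lK (Dq.len p) z' z'' →
        RQ Q h lK ((mkL z'' t' :: ps).map (Pq.pc P)) ≤
          Bd * (1 + |t'|) ^ M * Real.exp (-(z' - z''))) →
      RQ Q h lK ((p :: ps).map (Pq.pc P)) ≤
        C * Real.exp (ε * (1 + lK + Dq.len p)) * Dq.s2 p ^ ε₂ * Dq.s1 p ^ J * Bd := by
  obtain ⟨zs, hzs, hr0⟩ := rule hpu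
  refine ⟨zs, hzs, ?_⟩
  intro P hP Q hQ Pch hPm hPC ε ε₂ M hε hε₂ hM
  set ε' : ℝ := min (ε / 4) (1 / 2) with hε'
  have hε'0 : 0 < ε' := lt_min (by linarith) (by norm_num)
  have hε'1 : ε' ≤ 1 / 2 := min_le_right _ _
  have hε'2 : 4 * ε' ≤ ε := by
    have := min_le_left (ε / 4) (1 / 2)
    linarith
  obtain ⟨C, J, hC, hr⟩ := hr0 P.n P.ψ hP.ψ P.l₂ ε' hε'0 hε'1 ε₂ hε₂ ⌈M⌉₊
  refine ⟨C + 1, J, by linarith, Nat.cast_nonneg _, ?_⟩
  intro lK p ps hlump hlK hz Bd hBd hch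
  rw [Dq_len] at hz hch
  set S := (bl (Real.exp lK)).filter Q with hS
  have hCl : ∀ k ∈ S, Cl P.n P.ψ P.l₂ lK k := by
    intro k hk
    rw [hS, Finset.mem_filter, mem_bl (Real.exp_pos _).le] at hk
    have h1 := hQ k hk.2
    exact ⟨hk.1.1, h1.1.2, h1.2, hk.1.2⟩
  have hD : ε' * (1 + lK + p.z) + zs ≤ ε * (1 + lK + p.z) + zs := by
    have : ε' * (1 + lK + p.z) ≤ ε * (1 + lK + p.z) :=
      mul_le_mul_of_nonneg_right (by linarith) (by positivity)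
    linarith
  have hchild : ∀ z' z'' t' : ℝ, Pch (ε' * (1 + lK + p.z) + zs) lK p.z z' z'' →
      SB h P.ψ P.l₂ S (wB P h ps) z'' t' ≤
        Bd * (1 + |t'|) ^ ⌈M⌉₊ * Real.exp (-(z' - z'')) := by
    intro z' z'' t' hPc
    have h1 := hch z' z'' t' (hPm _ _ _ _ _ _ hD hPc)
    have e1 : RQ Q h lK ((mkL z'' t' :: ps).map (Pq.pc P)) =
        SB h P.ψ P.l₂ S (wB P h ps) z'' t' := by
      rw [RQ_cons]
      unfold SB
      refine Finset.sum_congr rfl fun k _ => ?_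
      rw [CS_mkL]
    rw [e1] at h1
    refine h1.trans ?_
    have ht : 1 ≤ 1 + |t'| := by linarith [abs_nonneg t']
    have h2 : (1 + |t'|) ^ M ≤ (1 + |t'|) ^ ⌈M⌉₊ := by
      rw [← Real.rpow_natCast]
      exact Real.rpow_le_rpow_of_exponent_le ht (Nat.le_ceil M)
    gcongr
  have h1 := hr lK p.z hlK hz S (wB P h ps) (fun k _ => wB_nonneg _ _ _ _) hCl Bd hBd
    (Pch (ε' * (1 + lK + p.z) + zs) lK p.z)
    (hPC _ _ _ (by have : 0 ≤ ε' * (1 + lK + p.z) := by positivity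
                   linarith) hlK hz) hchild p.d p.d0 p.t
  rw [RQ_cons]
  have e2 : ∑ k ∈ (bl (Real.exp lK)).filter Q, wB P h ps k * ‖CS (pc h (p.pc P)) k‖ ^ 2 =
      ∑ k ∈ S, wB P h ps k *
        ‖PS (cx h) (fun b => XK P.ψ (sy k) P.l₂ b * prin0 p.d b) p.z p.t‖ ^ 2 := by
    refine Finset.sum_congr rfl fun k _ => ?_
    rw [CS_lump P h hlump]
  rw [e2]
  refine h1.trans ?_
  rw [Dq_len, Dq_s1, Dq_s2, Real.rpow_natCast]
  have h3 : Real.exp (4 * ε' * (1 + lK + p.z)) ≤ Real.exp (ε * (1 + lK + p.z)) :=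
    Real.exp_le_exp.2 (mul_le_mul_of_nonneg_right hε'2 (by positivity))
  gcongr
  linarith

/-! ### the polytopes -/

/-- the constraints of `flip` -/
def GF (x : ℝ × ℝ × ℝ × ℝ) : ℝ :=
  max (x.2.2.1 - x.2.1) (max (x.2.2.2 - x.1 / 2) (min |x.2.2.1 - x.2.2.2|
    (max (x.1 / 2 - x.2.2.1) (x.2.2.1 + x.2.2.2 - x.1))))

lemma GF_cont : Continuous GF := by
  unfold GF
  fun_prop

lemma GF_hom (r : ℝ) (hr : 0 < r) (x : ℝ × ℝ × ℝ × ℝ) : GF (r • x) = r * GF x := by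
  obtain ⟨L, z, z', z''⟩ := x
  unfold GF
  simp only [Prod.smul_mk, smul_eq_mul]
  rw [mul_max_of_nonneg _ _ hr.le, mul_max_of_nonneg _ _ hr.le, mul_min_of_nonneg _ _ hr.le,
    mul_max_of_nonneg _ _ hr.le]
  have e1 : r * |z' - z''| = |r * z' - r * z''| := by
    rw [← mul_sub, abs_mul, abs_of_pos hr]
  rw [e1]
  ring_nf

/-- the constraints of `cut` -/
def GC (x : ℝ × ℝ × ℝ × ℝ) : ℝ :=
  max |x.2.2.1 - x.2.2.2| (max (x.2.2.2 - x.2.1) (x.2.2.2 - x.1))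

lemma GC_cont : Continuous GC := by
  unfold GC
  fun_prop

lemma GC_hom (r : ℝ) (hr : 0 < r) (x : ℝ × ℝ × ℝ × ℝ) : GC (r • x) = r * GC x := by
  obtain ⟨L, z, z', z''⟩ := x
  unfold GC
  simp only [Prod.smul_mk, smul_eq_mul]
  rw [mul_max_of_nonneg _ _ hr.le, mul_max_of_nonneg _ _ hr.le]
  have e1 : r * |z' - z''| = |r * z' - r * z''| := by
    rw [← mul_sub, abs_mul, abs_of_pos hr]
  rw [e1]
  ring_nf

/-! ### the fields -/

/-- **flip** for a family -/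
theorem flip_RQ {Lam : Type*} {π : Lam → DPar} (hP : ∀ lam, (π lam).OK) {h : ℝ → ℝ} {c : ℝ}
    (hpu : PU h c) {Q : Lam → Eis → Prop}
    (hQ : ∀ lam k, Q lam k → CubeFree k ∧
      Sup271.NPm (π lam).n (π lam).ψ (π lam).l₂ k)
    {κ y : ℝ} {u : List ℝ} {w : Kd → ℝ} {E : ℝ}
    (h1 : ∀ y' : ℝ, 0 ≤ y' → y' ≤ y → 2 * y' ≤ κ →
      BG Dq (fun lam l ps => RQ (Q lam) h l (ps.map (Pq.pc (π lam)))) κ (y' :: u) w E)
    (h2 : ∀ y' t : ℝ, y' ≤ y → y' ≤ κ → κ ≤ 2 * y' → 0 ≤ t → t ≤ κ - y' →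
      BG Dq (fun lam l ps => RQ (Q lam) h l (ps.map (Pq.pc (π lam)))) κ ((κ - t - y') :: u) w
        (E - (2 * y' - κ + t))) :
    BG Dq (fun lam l ps => RQ (Q lam) h l (ps.map (Pq.pc (π lam)))) κ (y :: u) w E := by
  obtain ⟨zs, hzs, hr⟩ := rule_RQ hpu
  refine lump_rule (D := Dq) (mk := mkL) (fun z t => ⟨rfl, rfl⟩) (fun z t => rfl) (fun z t => rfl)
    (fun z t => ?_) GF_cont GF_hom hzs (Pch := ChF) (fun D₀ D₁ L z z' z'' hD hc => hc.mono hD)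
    ?_ ?_ (fun lam lK ps hl => neg_RQ _ _ hl _) (T₁ := 2) (by norm_num)
    (fun lam N => triv_RQ hpu (hP lam) (Q lam) N) (fun p => ?_) (fun p => ?_) ?_
  · show ((nm (1 : Eis) : ℕ) : ℝ) ≤ 1
    simp
  · intro D₀ L z z' z'' hD hL hz hc
    obtain ⟨c1, c2, c3, c4⟩ := hc
    refine ⟨c1, ?_, ?_, by linarith⟩
    · unfold GF
      refine max_le (by dsimp only; linarith) (max_le (by dsimp only; linarith) ?_)
      rcases c4 with c4 | c4
      · refine (min_le_left _ _).trans ?_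
        dsimp only
        rw [c4, sub_self, abs_zero]
        exact hD
      · refine (min_le_right _ _).trans (max_le ?_ ?_)
        · dsimp only; linarith [c4.1]
        · dsimp only; linarith [c4.2]
    · rw [abs_le]
      rcases c4 with c4 | c4
      · constructor <;> linarith
      · constructor <;> linarith [c4.1]
  · intro lam ε ε₂ M hε hε₂ hM
    exact hr (hP lam) (hQ lam) (Pch := ChF) (fun D₀ D₁ L z z' z'' hD hc => hc.mono hD)
      (fun D₀ L z hD hL hz => pch_F hzs hD hL hz) ε ε₂ M hε hε₂ hM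
  · show (0 : ℝ) ≤ 1 + |p.t|
    positivity
  · show (0 : ℝ) ≤ nm p.d
    positivity
  · intro y' y'' hy'' hG
    unfold GF at hG
    dsimp only at hG
    rw [max_le_iff, max_le_iff, min_le_iff, max_le_iff] at hG
    obtain ⟨g1, g2, g3⟩ := hG
    rcases g3 with g3 | ⟨g3, g4⟩
    · have e1 : y' = y'' := by
        have := abs_nonpos_iff.1 g3
        linarith
      have := h1 y'' hy'' (by linarith) (by linarith)
      have e2 : E - (y' - y'') = E := by rw [e1]; ring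
      rw [e2]
      exact this
    · have := h2 y' (κ - y' - y'') (by linarith) (by linarith) (by linarith) (by linarith)
        (by linarith)
      have e1 : κ - (κ - y' - y'') - y' = y'' := by ring
      have e2 : E - (2 * y' - κ + (κ - y' - y'')) = E - (y' - y'') := by ring
      rw [e1, e2] at this
      exact this

/-- **cut** for a family: lumps longer than the family are not needed -/
theorem cut_RQ {Lam : Type*} {π : Lam → DPar} (hP : ∀ lam, (π lam).OK) {h : ℝ → ℝ} {c : ℝ}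
    (hpu : PU h c) {Q : Lam → Eis → Prop}
    (hQ : ∀ lam k, Q lam k → CubeFree k ∧
      Sup271.NPm (π lam).n (π lam).ψ (π lam).l₂ k)
    {κ y : ℝ} {u : List ℝ} {w : Kd → ℝ} {E : ℝ}
    (h1 : ∀ y' : ℝ, 0 ≤ y' → y' ≤ y → y' ≤ κ →
      BG Dq (fun lam l ps => RQ (Q lam) h l (ps.map (Pq.pc (π lam)))) κ (y' :: u) w E) :
    BG Dq (fun lam l ps => RQ (Q lam) h l (ps.map (Pq.pc (π lam)))) κ (y :: u) w E := by
  obtain ⟨zs, hzs, hr⟩ := rule_RQ hpu
  refine lump_rule (D := Dq) (mk := mkL) (fun z t => ⟨rfl, rfl⟩) (fun z t => rfl) (fun z t => rfl)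
    (fun z t => ?_) GC_cont GC_hom hzs (Pch := ChC) (fun D₀ D₁ L z z' z'' hD hc => hc.mono hD)
    ?_ ?_ (fun lam lK ps hl => neg_RQ _ _ hl _) (T₁ := 2) (by norm_num)
    (fun lam N => triv_RQ hpu (hP lam) (Q lam) N) (fun p => ?_) (fun p => ?_) ?_
  · show ((nm (1 : Eis) : ℕ) : ℝ) ≤ 1
    simp
  · intro D₀ L z z' z'' hD hL hz hc
    obtain ⟨c1, c2, c3, c4⟩ := hc
    refine ⟨c2, ?_, ?_, by linarith⟩
    · unfold GC
      refine max_le ?_ (max_le (by dsimp only; linarith) (by dsimp only; linarith))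
      dsimp only
      rw [c1, sub_self, abs_zero]
      exact hD
    · rw [abs_le]
      constructor <;> linarith
  · intro lam ε ε₂ M hε hε₂ hM
    exact hr (hP lam) (hQ lam) (Pch := ChC) (fun D₀ D₁ L z z' z'' hD hc => hc.mono hD)
      (fun D₀ L z hD hL hz => pch_C hzs hD hL hz) ε ε₂ M hε hε₂ hM
  · show (0 : ℝ) ≤ 1 + |p.t|
    positivity
  · show (0 : ℝ) ≤ nm p.d
    positivity
  · intro y' y'' hy'' hG
    unfold GC at hG
    dsimp only at hG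
    rw [max_le_iff, max_le_iff] at hG
    obtain ⟨g1, g2, g3⟩ := hG
    have e1 : y' = y'' := by
      have := abs_nonpos_iff.1 g1
      linarith
    have := h1 y'' hy'' (by linarith) (by linarith)
    have e2 : E - (y' - y'') = E := by rw [e1]; ring
    rw [e2]
    exact this

/-- **`BRules.flip`** -/
theorem flip_Rp {Lam : Type*} {π : Lam → DPar} (hP : ∀ lam, (π lam).OK) {h : ℝ → ℝ} {c : ℝ}
    (hpu : PU h c) (κ y : ℝ) (u : List ℝ) (m a E : ℝ) (_ : 0 ≤ κ) (_ : 0 ≤ y) (_ : Okl u m a)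
    (h1 : ∀ y' : ℝ, 0 ≤ y' → y' ≤ y → 2 * y' ≤ κ →
      BG Dq (fun lam => Rp (π lam) h) κ (y' :: u) (wt m a) E)
    (h2 : ∀ y' t : ℝ, y' ≤ y → y' ≤ κ → κ ≤ 2 * y' → 0 ≤ t → t ≤ κ - y' →
      BG Dq (fun lam => Rp (π lam) h) κ ((κ - t - y') :: u) (wt m a) (E - (2 * y' - κ + t))) :
    BG Dq (fun lam => Rp (π lam) h) κ (y :: u) (wt m a) E :=
  flip_RQ (Q := fun lam => Qp (π lam)) hP hpu (fun _ _ hk => ⟨hk.2, hk.1.2⟩) h1 h2

/-- **cut** for `Rp` -/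
theorem cut_Rp {Lam : Type*} {π : Lam → DPar} (hP : ∀ lam, (π lam).OK) {h : ℝ → ℝ} {c : ℝ}
    (hpu : PU h c) (κ y : ℝ) (u : List ℝ) (m a E : ℝ) (_ : 0 ≤ κ) (_ : 0 ≤ y) (_ : Okl u m a)
    (h1 : ∀ y' : ℝ, 0 ≤ y' → y' ≤ y → y' ≤ κ →
      BG Dq (fun lam => Rp (π lam) h) κ (y' :: u) (wt m a) E) :
    BG Dq (fun lam => Rp (π lam) h) κ (y :: u) (wt m a) E :=
  cut_RQ (Q := fun lam => Qp (π lam)) hP hpu (fun _ _ hk => ⟨hk.2, hk.1.2⟩) h1

end Crest.Agent.R017.XFl571
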