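import Crest.Agent.R017.XRG4_106
import Crest.Agent.R017.XG2_702

/-!
# Row 17, provider: the raw dual rule (P') in BG form (helper106), part 5

* `rawG` : the field `rawG` of `XP699.Raw`, for the family `π : Lam → DPar`
-/

set_option autoImplicit false
set_option maxHeartbeats 400000

noncomputable section

open Complex
open scoped ComplexConjugate

namespace Crest.Agent.R017.XRG106

open Crest.Agent.R012 Crest.Agent.R012.Eis
open Crest.Agent.R017.FE47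
open Crest.Agent.R017.B770
open Crest.Agent.R017.Prov71
open Crest.Agent.R017.XG702
open Crest.Agent.R017.HP842 (UT pc)
open Crest.Agent.R017.XHB411 (bl_neg)

variable {Lam : Type*}

lemma exists_ofFn {u u' : List ℝ} (h : Shl u' u) : ∃ x : Fin u.length → ℝ,
    (∀ i, 0 ≤ x i) ∧ (∀ i, x i ≤ u.get i) ∧ u' = List.ofFn x := by
  unfold Shl at h
  rw [List.forall₂_iff_get] at h
  obtain ⟨hl, h⟩ := h
  refine ⟨fun i => u'.get ⟨i.1, by rw [hl]; exact i.2⟩, fun i => (h i.1 _ i.2).1,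
    fun i => (h i.1 _ i.2).2, ?_⟩
  apply List.ext_get
  · simp [hl]
  · intro i h1 h2
    simp

lemma shl_ofFn {u : List ℝ} {x : Fin u.length → ℝ} (h0 : ∀ i, 0 ≤ x i)
    (h1 : ∀ i, x i ≤ u.get i) : Shl (List.ofFn x) u := by
  unfold Shl
  rw [List.forall₂_iff_get]
  refine ⟨by simp, fun i hi hi' => ?_⟩
  simp only [List.get_eq_getElem, List.getElem_ofFn]
  exact ⟨h0 _, h1 ⟨i, hi'⟩⟩

/-- uniformity over all shortenings -/
theorem unifS {Ψ : Lam → ℝ → List Pq → ℝ} {u : List ℝ} {m a K E₀ : ℝ}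
    (H : ∀ (u' : List ℝ) (m' a' : ℝ), Shl u' u → 0 ≤ m' → m' ≤ m → 0 ≤ a' → a' ≤ a →
      BG Dq Ψ K u' (wt m' a') (E₀ + (u'.sum + m' + a'))) {ε : ℝ} (hε : 0 < ε) :
    ∃ δ : ℝ, 0 < δ ∧ ∀ (lam : Lam) (N : ℕ) (B : ℝ), ∃ δ' : ℝ, 0 < δ' ∧ ∃ X₀ : ℝ, 1 < X₀ ∧
      ∀ X : ℝ, X₀ ≤ X → ∀ (k : ℝ) (us gs : List Pq) (u' : List ℝ) (m' a' : ℝ), Shl u' u →
        0 ≤ m' → m' ≤ m → 0 ≤ a' → a' ≤ a → |k - K| ≤ δ → Dq.Near X δ us u' →
        Dq.Gran X δ N gs (wt m' a') → Dq.Good X δ' B (us ++ gs) →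
        Ψ lam (k * Real.log X) (us ++ gs) ≤ X ^ (E₀ + (u'.sum + m' + a') + ε) := by
  have hS : IsCompact ((({K} : Set ℝ) ×ˢ ((Set.Icc (0 : Fin u.length → ℝ) (fun i => u.get i)) ×ˢ
      (Set.Icc (0 : Kd → ℝ) (wt m a)))) : Set (ℝ × (Fin u.length → ℝ) × (Kd → ℝ))) :=
    isCompact_singleton.prod (isCompact_Icc.prod isCompact_Icc)
  obtain ⟨δ, hδ, L⟩ := unifG (D := Dq) (Ψ := Ψ) hS
    (T := fun p => E₀ + ((∑ i, p.2.1 i) + p.2.2 .mo + p.2.2 .am)) (by fun_prop) (by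
      rintro ⟨k, x, w⟩ ⟨h1, ⟨h2, h3⟩, ⟨h4, h5⟩⟩
      have h1' : k = K := h1
      have e1 : wt (w .mo) (w .am) = w := by funext t; cases t <;> rfl
      have := H (List.ofFn x) (w .mo) (w .am) (shl_ofFn h2 h3) (h4 .mo) (h5 .mo) (h4 .am) (h5 .am)
      rw [e1, List.sum_ofFn] at this
      rw [h1']
      exact this) hε
  refine ⟨δ, hδ, fun lam N B => ?_⟩
  obtain ⟨δ', hδ', X₀, hX₀, L2⟩ := L lam N B
  refine ⟨δ', hδ', X₀, hX₀, ?_⟩
  intro X hX k us gs u' m' a' hsh hm0 hm1 ha0 ha1 hk hn hg hgood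
  obtain ⟨x, hx0, hx1, rfl⟩ := exists_ofFn hsh
  have := L2 X hX k us gs (K, x, wt m' a') ⟨rfl, ⟨hx0, hx1⟩, ⟨fun t => by
    cases t
    · exact hm0
    · exact ha0, fun t => by
    cases t
    · exact hm1
    · exact ha1⟩⟩ hk hn hg hgood
  rw [List.sum_ofFn]
  exact this

/-- **the raw dual rule** -/
theorem rawG {h : ℝ → ℝ} {c : ℝ} (hpu : PU h c) (π : Lam → DPar) (hP : ∀ lam, (π lam).OK)
    (κ : ℝ) (u : List ℝ) (m a E : ℝ) (hκ : 0 ≤ κ) (hu : Okl u m a)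
    (hE : κ + (u.sum + m + a) ≤ E)
    (H : ∀ (u' : List ℝ) (m' a' : ℝ), Shl u' u → 0 ≤ m' → m' ≤ m → 0 ≤ a' → a' ≤ a →
      κ ≤ 2 * (u.sum + m + a) →
      BG Dq (fun lam l ps => RQ (fun k => k ≠ 0) h l (ps.map (Pq.pc (π lam))))
        (2 * (u.sum + m + a) - κ) u' (wt m' a') (E - κ + (u'.sum + m' + a'))) :
    BG Dq (fun lam => Sp (π lam) h) κ u (wt m a) E := by
  classical
  intro ε hε
  obtain ⟨δ₂, hδ₂0, hδ₂, hloc⟩ : ∃ δ₂ : ℝ, 0 < δ₂ ∧ δ₂ ≤ 1 ∧ ∀ (lam : Lam) (N : ℕ) (B : ℝ),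
      ∃ δ' : ℝ, 0 < δ' ∧ ∃ X₀ : ℝ, 1 < X₀ ∧ ∀ X : ℝ, X₀ ≤ X →
      ∀ (k : ℝ) (us gs : List Pq) (u' : List ℝ) (m' a' : ℝ), Shl u' u → 0 ≤ m' → m' ≤ m →
        0 ≤ a' → a' ≤ a → |k - (2 * (u.sum + m + a) - κ)| ≤ δ₂ → Dq.Near X δ₂ us u' →
        Dq.Gran X δ₂ N gs (wt m' a') → Dq.Good X δ' B (us ++ gs) →
        RFp (π lam) h (k * Real.log X) (us ++ gs) ≤ X ^ (E - κ + (u'.sum + m' + a') + ε / 8) := by
    rcases le_or_gt κ (2 * (u.sum + m + a)) with hc | hc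
    · obtain ⟨δ, hδ, L⟩ := unifS (Lam := Lam) (u := u) (m := m) (a := a)
        (K := 2 * (u.sum + m + a) - κ) (E₀ := E - κ) (ε := ε / 8)
        (Ψ := fun lam => RFp (π lam) h)
        (fun u' m' a' h1 h2 h3 h4 h5 => H u' m' a' h1 h2 h3 h4 h5 hc) (by linarith)
      refine ⟨min δ 1, lt_min hδ one_pos, min_le_right _ _, fun lam N B => ?_⟩
      obtain ⟨δ', hδ', X₀, hX₀, L2⟩ := L lam N B
      refine ⟨δ', hδ', X₀, hX₀, ?_⟩
      intro X hX k us gs u' m' a' h1 h2 h3 h4 h5 hk hn hg hgood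
      exact L2 X hX k us gs u' m' a' h1 h2 h3 h4 h5 (hk.trans (min_le_left _ _))
        (Near_mono hn (min_le_left _ _)) (Gran_mono hg (min_le_left _ _) le_rfl) hgood
    · refine ⟨min 1 ((κ - 2 * (u.sum + m + a)) / 2), lt_min one_pos (by linarith),
        min_le_left _ _, fun lam N B => ⟨1, one_pos, 2, by norm_num, ?_⟩⟩
      intro X hX k us gs u' m' a' h1 h2 h3 h4 h5 hk hn hg hgood
      have hX0 : 0 < X := by linarith
      have hl : 0 < Real.log X := Real.log_pos (by linarith)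
      have h6 := (abs_le.1 (hk.trans (min_le_right _ _))).2
      have h7 : k * Real.log X < 0 := mul_neg_of_neg_of_pos (by linarith) hl
      unfold RFp RQ
      rw [bl_neg h7, Finset.filter_empty, Finset.sum_empty]
      positivity
  have hv : (0 : ℝ) < 2 * (u.length : ℝ) + 8 := by positivity
  have hmin : 0 < min (δ₂ / 4) (ε / 8) := lt_min (by linarith) (by linarith)
  have e1 : (2 * (u.length : ℝ) + 8) * (min (δ₂ / 4) (ε / 8) / (2 * (u.length : ℝ) + 8)) =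
      min (δ₂ / 4) (ε / 8) := by field_simp
  refine ⟨min (δ₂ / 4) (ε / 8) / (2 * (u.length : ℝ) + 8), by positivity, fun lam N B => ?_⟩
  exact core hpu (hP lam) hκ hu hE hε (by positivity) hδ₂0 hδ₂
    (by rw [e1]; exact min_le_left _ _) (by rw [e1]; exact min_le_right _ _) (hloc lam) N B

end Crest.Agent.R017.XRG106
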