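import Crest.Agent.R017.XPB_699
import Crest.Agent.R017.XFl4_571
import Crest.Agent.R017.Mono4_858
import Crest.Agent.R017.XRG5_106
import Crest.Agent.R017.XHB4_411
import Crest.Agent.R017.XCub_71

/-!
# Row 17, provider: the instance of helper699's `Raw` (helper571)

* `cut_list` : the list form of `cut`
* `raw_inst` : `Raw θ Dq R RF RN Rp S` from `rawP` and `colP`
-/

set_option autoImplicit false

noncomputable section

open Set Filter Topology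

namespace Crest.Agent.R017.XPD571

open Crest.Agent.R012 Crest.Agent.R012.Eis Crest.Agent.R012.LS2
open Crest.Agent.R017.XG702 (Pcs BG)
open Crest.Agent.R017.B770
open Crest.Agent.R017.Prov71
open Crest.Agent.R017.HP842 (Pc KS sqc Kg alL)

variable {Lam : Type*}

/-- the character side over the `k` with `Q k` -/
abbrev RX (Q : Lam → Eis → Prop) (π : Lam → DPar) (h : ℝ → ℝ) : Lam → ℝ → List Pq → ℝ :=
  fun lam l ps => RQ (Q lam) h l (ps.map (Pq.pc (π lam)))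

/-- cube-free `k` -/
abbrev R0 (π : Lam → DPar) (h : ℝ → ℝ) : Lam → ℝ → List Pq → ℝ := RX (fun _ => CubeFree) π h

/-- all `k` -/
abbrev RF0 (π : Lam → DPar) (h : ℝ → ℝ) : Lam → ℝ → List Pq → ℝ := RX (fun _ k => k ≠ 0) π h

/-- admissible cube-free `k` -/
abbrev RN0 (π : Lam → DPar) (h : ℝ → ℝ) : Lam → ℝ → List Pq → ℝ := fun lam => Rp (π lam) h

/-- the other cube-free `k` -/
abbrev RP0 (π : Lam → DPar) (h : ℝ → ℝ) : Lam → ℝ → List Pq → ℝ :=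
  RX (fun lam k => CubeFree k ∧ ¬ (π lam).NP2 k) π h

/-- the Gauss side -/
abbrev SP0 (π : Lam → DPar) (h : ℝ → ℝ) : Lam → ℝ → List Pq → ℝ := fun lam => Sp (π lam) h

lemma bl_mono {x y : ℝ} (hx : 0 ≤ x) (h : x ≤ y) : bl x ⊆ bl y := by
  intro k hk
  rw [mem_bl hx] at hk
  rw [mem_bl (hx.trans h)]
  exact ⟨hk.1, hk.2.trans h⟩

lemma RQ_mono_l (Q : Eis → Prop) (h : ℝ → ℝ) {l l' : ℝ} (hl : l ≤ l') (ps : List Pc) :
    RQ Q h l ps ≤ RQ Q h l' ps := by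
  classical
  unfold RQ
  refine Finset.sum_le_sum_of_subset_of_nonneg
    (Finset.filter_subset_filter _ (bl_mono (Real.exp_pos _).le (Real.exp_le_exp.2 hl))) fun k _ _ => ?_
  refine List.prod_nonneg ?_
  intro a ha
  obtain ⟨p, _, rfl⟩ := List.mem_map.1 ha
  positivity

lemma SK_mono_l (K : Eis → Eis → ℂ) (h : ℝ → ℝ) {l l' : ℝ} (hl : l ≤ l') (ps : List Pc) :
    SK K h l ps ≤ SK K h l' ps := by
  unfold SK
  exact Finset.sum_le_sum_of_subset_of_nonneg (bl_mono (Real.exp_pos _).le (Real.exp_le_exp.2 hl))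
    fun k _ _ => by positivity

lemma RQ_split (Q Q₁ Q₂ : Eis → Prop) (hQ : ∀ k, Q k → Q₁ k ∨ Q₂ k) (h : ℝ → ℝ) (l : ℝ)
    (ps : List Pc) : RQ Q h l ps ≤ RQ Q₁ h l ps + RQ Q₂ h l ps := by
  classical
  have hnn : ∀ k, 0 ≤ (ps.map fun p => ‖CM106.CS (HP842.pc h p) k‖ ^ 2).prod := by
    intro k
    refine List.prod_nonneg ?_
    intro a ha
    obtain ⟨p, _, rfl⟩ := List.mem_map.1 ha
    positivity
  unfold RQ
  calc _ ≤ ∑ k ∈ (bl (Real.exp l)).filter Q₁ ∪ (bl (Real.exp l)).filter Q₂,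
        (ps.map fun p => ‖CM106.CS (HP842.pc h p) k‖ ^ 2).prod := by
        refine Finset.sum_le_sum_of_subset_of_nonneg ?_ fun k _ _ => hnn k
        intro k hk
        rw [Finset.mem_filter] at hk
        rw [Finset.mem_union, Finset.mem_filter, Finset.mem_filter]
        rcases hQ k hk.2 with h1 | h1
        · exact Or.inl ⟨hk.1, h1⟩
        · exact Or.inr ⟨hk.1, h1⟩
    _ ≤ _ := by
        rw [← Finset.sum_union_inter]
        exact le_add_of_nonneg_right (Finset.sum_nonneg fun k _ => hnn k)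

/-- **the list form of `cut`** -/
theorem cut_list {Pc : Type*} {D : Pcs Pc Kd} {Ψ : Lam → ℝ → List Pc → ℝ} (hΨ : Pinv Ψ)
    {i : ℝ} {w : Kd → ℝ} {e : ℝ}
    (hcut : ∀ (y : ℝ) (u : List ℝ), 0 ≤ y → (∀ x ∈ u, 0 ≤ x) →
      (∀ y' : ℝ, 0 ≤ y' → y' ≤ y → y' ≤ i → BG D Ψ i (y' :: u) w e) → BG D Ψ i (y :: u) w e)
    (u : List ℝ) : ∀ v : List ℝ, (∀ x ∈ u, 0 ≤ x) → (∀ x ∈ v, 0 ≤ x) →
      (∀ u' : List ℝ, Shl u' u → (∀ y ∈ u', y ≤ i) → BG D Ψ i (u' ++ v) w e) →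
      BG D Ψ i (u ++ v) w e := by
  induction u with
  | nil =>
    intro v _ _ h
    exact h [] List.Forall₂.nil (by simp)
  | cons y u ih =>
    intro v hu hv h
    rw [List.cons_append]
    refine hcut y (u ++ v) (hu y List.mem_cons_self) ?_ fun y' h0 h1 h2 => ?_
    · intro x hx
      rcases List.mem_append.1 hx with hx | hx
      · exact hu x (List.mem_cons_of_mem _ hx)
      · exact hv x hx
    have h3 := ih (y' :: v) (fun x hx => hu x (List.mem_cons_of_mem _ hx)) (fun x hx => by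
      rcases List.mem_cons.1 hx with rfl | hx
      · exact h0
      · exact hv x hx) (fun u' hs hi => by
        have h4 := h (y' :: u') (List.Forall₂.cons ⟨h0, h1⟩ hs) (fun x hx => by
          rcases List.mem_cons.1 hx with rfl | hx
          · exact h2
          · exact hi x hx)
        rw [List.cons_append] at h4
        exact XG702.BG.perm hΨ h4 List.perm_middle.symm)
    exact XG702.BG.perm hΨ h3 List.perm_middle

/-- **the raw rules of the provider** -/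
theorem raw_inst {θ : ℝ} {π : Lam → DPar} (hP : ∀ lam, (π lam).OK) {h : ℝ → ℝ} {c : ℝ}
    (hpu : FE47.PU h c)
    (hrawP : ∀ (κ : ℝ) (u : List ℝ) (m a E : ℝ), 0 ≤ κ → Okl u m a → κ + (u.sum + m + a) ≤ E →
      (∀ (u' : List ℝ) (m' a' l : ℝ), Shl u' u → 0 ≤ m' → m' ≤ m → 0 ≤ a' → a' ≤ a → 0 ≤ l →
        2 * (u'.sum + m' + a') - κ ≤ l → l + (u'.sum + m' + a') ≤ 3 * (u.sum + m + a) - κ →
        BG Dq (SP0 π h) l u' (wt m' a')
          (E - (u.sum + m + a) - κ / 3 + 2 / 3 * (l + (u'.sum + m' + a')))) →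
      BG Dq (RF0 π h) κ u (wt m a) E)
    (hcolP : ∀ (i : ℝ) (u : List ℝ) (m a : ℝ), 0 ≤ i → Okl u m a →
      BG Dq (RP0 π h) i u (wt m a) (2 * a + 2 * θ * m)) :
    XP699.Raw θ Dq (R0 π h) (RF0 π h) (RN0 π h) (RP0 π h) (SP0 π h) where
  split lam l ps := RQ_split _ _ _ (fun k hk => by
    by_cases h1 : (π lam).NP2 k
    · exact Or.inl ⟨h1, hk⟩
    · exact Or.inr ⟨hk, h1⟩) _ _ _
  RN_le lam l ps := RQ_mono_set (fun k hk => hk.2) _ _ _
  R_le lam l ps := RQ_mono_set (fun k hk => hk.1) _ _ _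
  monoRF lam l l' ps hl := RQ_mono_l _ _ hl _
  monoSS lam l l' ps hl := SK_mono_l _ _ hl _
  rawP := hrawP
  rawG := XRG106.rawG hpu π hP
  cubes κ u m a E hκ _ H := BG_RF hP (bump_of_cs hpu.cs) hκ H
  mono κ κ' u m a E _ hκ _ h1 h2 := Mono858.mono_858 hP hpu (fun _ => CubeFree) hκ h1 h2
  monoS κ κ' u m a E _ hκ _ h1 h2 := Mono858.monoS_858 hP hpu hκ h1 h2
  colP := hcolP
  cut i u m a e hi hu H := by
    have h1 := cut_list (D := Dq) (pinv_Rp π h) (i := i) (w := wt m a) (e := e)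
      (fun y u' _ _ hc => XFl571.cut_RQ (Q := fun lam => Qp (π lam)) hP hpu
        (fun _ _ hk => ⟨hk.2, hk.1.2⟩) hc) u [] hu.1 (by simp)
      (fun u' hs hi' => by
        rw [List.append_nil]
        exact H u' hs hi')
    rw [List.append_nil] at h1
    exact h1
  hbG κ u m a _ _ := XHB411.bg_Sp hP hpu κ u m a

/-- **(P), clean form** = `BRules.poisC` -/
theorem poisC_inst {θ : ℝ} {π : Lam → DPar} (hP : ∀ lam, (π lam).OK) {h : ℝ → ℝ} {c : ℝ}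
    (hpu : FE47.PU h c)
    (hrawP : ∀ (κ : ℝ) (u : List ℝ) (m a E : ℝ), 0 ≤ κ → Okl u m a → κ + (u.sum + m + a) ≤ E →
      (∀ (u' : List ℝ) (m' a' l : ℝ), Shl u' u → 0 ≤ m' → m' ≤ m → 0 ≤ a' → a' ≤ a → 0 ≤ l →
        2 * (u'.sum + m' + a') - κ ≤ l → l + (u'.sum + m' + a') ≤ 3 * (u.sum + m + a) - κ →
        BG Dq (SP0 π h) l u' (wt m' a')
          (E - (u.sum + m + a) - κ / 3 + 2 / 3 * (l + (u'.sum + m' + a')))) →
      BG Dq (RF0 π h) κ u (wt m a) E)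
    (hcolP : ∀ (i : ℝ) (u : List ℝ) (m a : ℝ), 0 ≤ i → Okl u m a →
      BG Dq (RP0 π h) i u (wt m a) (2 * a + 2 * θ * m)) :
    ∀ (κ : ℝ) (u : List ℝ) (m a E : ℝ), 0 ≤ κ → Okl u m a →
    κ + (u.sum + m + a) ≤ E → 2 * (u.sum + m + a) ≤ E →
    (∀ (u' : List ℝ) (m' a' i : ℝ), Shl u' u → 0 ≤ m' → m' ≤ m → 0 ≤ a' → a' ≤ a → 0 ≤ i →
      i ≤ 2 * (u'.sum + m' + a') - κ →
      BG Dq (fun lam => Sp (π lam) h) i u' (wt m' a') (E - (κ + (u.sum + m + a) -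
        2 * (u'.sum + m' + a') + (2 * (u'.sum + m' + a') - κ - i) / 3))) →
    ∀ κ' : ℝ, 0 ≤ κ' → κ' ≤ κ →
      BG Dq (fun lam => Rp (π lam) h) κ' u (wt m a) (E - (κ - κ') / 3) :=
  (raw_inst hP hpu hrawP hcolP).poisC

/-- **(P'), clean form** = `BRules.poisG` -/
theorem poisG_inst {θ : ℝ} {π : Lam → DPar} (hP : ∀ lam, (π lam).OK) {h : ℝ → ℝ} {c : ℝ}
    (hpu : FE47.PU h c)
    (hrawP : ∀ (κ : ℝ) (u : List ℝ) (m a E : ℝ), 0 ≤ κ → Okl u m a → κ + (u.sum + m + a) ≤ E →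
      (∀ (u' : List ℝ) (m' a' l : ℝ), Shl u' u → 0 ≤ m' → m' ≤ m → 0 ≤ a' → a' ≤ a → 0 ≤ l →
        2 * (u'.sum + m' + a') - κ ≤ l → l + (u'.sum + m' + a') ≤ 3 * (u.sum + m + a) - κ →
        BG Dq (SP0 π h) l u' (wt m' a')
          (E - (u.sum + m + a) - κ / 3 + 2 / 3 * (l + (u'.sum + m' + a')))) →
      BG Dq (RF0 π h) κ u (wt m a) E)
    (hcolP : ∀ (i : ℝ) (u : List ℝ) (m a : ℝ), 0 ≤ i → Okl u m a →
      BG Dq (RP0 π h) i u (wt m a) (2 * a + 2 * θ * m)) :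
    ∀ (κ : ℝ) (u : List ℝ) (m a E : ℝ), 0 ≤ κ → Okl u m a →
    κ + (u.sum + m + a) ≤ E →
    (∀ (u' : List ℝ) (m' a' i : ℝ), Shl u' u → 0 ≤ m' → m' ≤ m → 0 ≤ a' → a' ≤ a → 0 ≤ i →
      (∀ y ∈ u', y ≤ i) → i ≤ 2 * (u.sum + m + a) - κ →
      BG Dq (fun lam => Rp (π lam) h) i u' (wt m' a') (E - (κ - (u'.sum + m' + a') +
        (2 * (u.sum + m + a) - κ - i) / 3))) →
    (∀ (u' : List ℝ) (m' a' : ℝ), Shl u' u → 0 ≤ m' → m' ≤ m → 0 ≤ a' → a' ≤ a →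
      κ ≤ 2 * (u.sum + m + a) →
      κ - (u'.sum + m' + a') + (2 * (u.sum + m + a) - κ) / 3 + 2 * a' + 2 * θ * m' ≤ E) →
    ∀ κ' : ℝ, 0 ≤ κ' → κ' ≤ κ →
      BG Dq (fun lam => Sp (π lam) h) κ' u (wt m a) (E - (κ - κ') / 3) :=
  (raw_inst hP hpu hrawP hcolP).poisG

end Crest.Agent.R017.XPD571
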