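import Crest.Agent.R017.XPC_699
import Crest.Agent.R017.XPD_571
import Crest.Agent.R017.XCol_298

/-!
# Row 17, provider: the rules (P), (P') of the complete families (helper699)

`poisC_699`, `poisG_699` are the fields `poisC`, `poisG` of `BRules` for the non-exceptional
parameters.
-/

set_option autoImplicit false

noncomputable section

open Set Filter Topology

namespace Crest.Agent.R017.XP699

open Crest.Agent.R012 Crest.Agent.R012.Eis Crest.Agent.R012.LS2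
open Crest.Agent.R017.XG702 (Pcs BG)
open Crest.Agent.R017.B770 Crest.Agent.R017.End699
open Crest.Agent.R017.Prov71
open Crest.Agent.R017.Sup271 (NPm)

variable {Lam : Type*}

/-- **the raw rules for the non-exceptional parameters** -/
theorem raw_699 {θ : ℝ} (hθ : 1 / 2 < θ) (hθ1 : θ ≤ 1) (hPF : PF Set.univ θ)
    {h : ℝ → ℝ} {c : ℝ} (hpu : FE47.PU h c) (π : Lam → DPar) (hP : ∀ lam, (π lam).OK)
    (hN : ∀ lam, ∀ k : Eis, k ≠ 0 → NPm (π lam).n (π lam).ψ (π lam).l₂ k) :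
    Raw θ Dq (XPD571.R0 π h) (XPD571.RF0 π h) (XPD571.RN0 π h) (XPD571.RP0 π h)
      (XPD571.SP0 π h) :=
  XPD571.raw_inst hP hpu (rawP_699 hpu π hP) (Col298.colP hθ hθ1 hPF hpu π hP hN)

/-- **(P)**, field `poisC` -/
theorem poisC_699 {θ : ℝ} (hθ : 1 / 2 < θ) (hθ1 : θ ≤ 1) (hPF : PF Set.univ θ)
    {h : ℝ → ℝ} {c : ℝ} (hpu : FE47.PU h c) (π : Lam → DPar) (hP : ∀ lam, (π lam).OK)
    (hN : ∀ lam, ∀ k : Eis, k ≠ 0 → NPm (π lam).n (π lam).ψ (π lam).l₂ k) :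
    ∀ (κ : ℝ) (u : List ℝ) (m a E : ℝ), 0 ≤ κ → Okl u m a →
    κ + (u.sum + m + a) ≤ E → 2 * (u.sum + m + a) ≤ E →
    (∀ (u' : List ℝ) (m' a' i : ℝ), Shl u' u → 0 ≤ m' → m' ≤ m → 0 ≤ a' → a' ≤ a → 0 ≤ i →
      i ≤ 2 * (u'.sum + m' + a') - κ →
      BG Dq (fun lam => Sp (π lam) h) i u' (wt m' a') (E - (κ + (u.sum + m + a) -
        2 * (u'.sum + m' + a') + (2 * (u'.sum + m' + a') - κ - i) / 3))) →
    ∀ κ' : ℝ, 0 ≤ κ' → κ' ≤ κ →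
      BG Dq (fun lam => Rp (π lam) h) κ' u (wt m a) (E - (κ - κ') / 3) :=
  (raw_699 hθ hθ1 hPF hpu π hP hN).poisC

/-- **(P')**, field `poisG` -/
theorem poisG_699 {θ : ℝ} (hθ : 1 / 2 < θ) (hθ1 : θ ≤ 1) (hPF : PF Set.univ θ)
    {h : ℝ → ℝ} {c : ℝ} (hpu : FE47.PU h c) (π : Lam → DPar) (hP : ∀ lam, (π lam).OK)
    (hN : ∀ lam, ∀ k : Eis, k ≠ 0 → NPm (π lam).n (π lam).ψ (π lam).l₂ k) :
    ∀ (κ : ℝ) (u : List ℝ) (m a E : ℝ), 0 ≤ κ → Okl u m a →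
    κ + (u.sum + m + a) ≤ E →
    (∀ (u' : List ℝ) (m' a' i : ℝ), Shl u' u → 0 ≤ m' → m' ≤ m → 0 ≤ a' → a' ≤ a → 0 ≤ i →
      (∀ y ∈ u', y ≤ i) → i ≤ 2 * (u.sum + m + a) - κ →
      BG Dq (fun lam => Rp (π lam) h) i u' (wt m' a') (E - (κ - (u'.sum + m' + a') +
        (2 * (u.sum + m + a) - κ - i) / 3))) →
    (∀ (u' : List ℝ) (m' a' : ℝ), Shl u' u → 0 ≤ m' → m' ≤ m → 0 ≤ a' → a' ≤ a →
      κ ≤ 2 * (u.sum + m + a) →
      κ - (u'.sum + m' + a') + (2 * (u.sum + m + a) - κ) / 3 + 2 * a' + 2 * θ * m' ≤ E) →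
    ∀ κ' : ℝ, 0 ≤ κ' → κ' ≤ κ →
      BG Dq (fun lam => Sp (π lam) h) κ' u (wt m a) (E - (κ - κ') / 3) :=
  (raw_699 hθ hθ1 hPF hpu π hP hN).poisG

end Crest.Agent.R017.XP699
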