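import Crest.Agent.R017.RGN1_545
import Crest.Agent.R017.RGs_777
import Crest.Agent.R017.XPE_699

/-!
# Row 17, T.5: the fields of class N from the finite theorems (helper545)

* `qg_of` : `QG (LN ..)` from `QL3`
* `pr_of` : the complete character side from `PremR`, `PremP`
* `expRGn_of` : `ExpRGn` from `BessFin`, `RgFin`
-/

set_option autoImplicit false

noncomputable section

open Set Filter Topology

namespace Crest.Agent.R017.RGB545

open Crest.Agent.R012 Crest.Agent.R012.Eis Crest.Agent.R012.LS2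
open Crest.Agent.R017.XG702 (Pcs BG)
open Crest.Agent.R017.B770
open Crest.Agent.R017.Prov71
open Crest.Agent.R017.XP699
open Crest.Agent.R017.ER911 (Ok Sh EF)
open Crest.Agent.R017.RuleM545
open Crest.Agent.R017.XPD571
open Crest.Agent.R017.PML320 (PMf PMf_merge PMf_nonneg)
open Crest.Agent.R017.PM320 (PG PG_of_Full PG_r2 Clo PMx Fullx)
open Crest.Agent.R017.SC777 (Full PM QL3 PremR PremP PremTB PremRG ExpRGn)

variable {Lam : Type*} {π : Lam → DPar} {h : ℝ → ℝ} {c₁ θ c μ K v : ℝ}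

/-- the Gram part of class N -/
abbrev S0f (π : Lam → DPar) (h : ℝ → ℝ) : Lam → ℝ → List Pq → ℝ := fun lam => S0p (π lam) h

theorem S0f_mono_l (lam : Lam) (l l' : ℝ) (ps : List Pq) (hl : l ≤ l') :
    S0f π h lam l ps ≤ S0f π h lam l' ps := by
  exact S0p_mono_l _ _ hl _

/-- **the side conditions of the lines** -/
theorem qg_of (H : DataN θ π h c₁) {Y : Multiset ℝ} {m a E : ℝ} (hv : 0 ≤ v)
    (hQ : QL3 θ (ex Dq (RN0 π h)) (ex Dq (SP0 π h)) (ex Dq (S0f π h)) c μ K v Y m a E) :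
    QG (LN π h c μ) K v Y m a E := by
  refine ⟨hQ.e0, ?_⟩
  intro j θ' u' m' a' l hsh hm0 hm1 ha0 ha1 hl0 hl1 hG hz
  have hu : Okl u' m' a' := ⟨hsh.nn, hm0, ha0⟩
  have hY' : Ok (u' : Multiset ℝ) m' a' := ⟨fun y hy => hsh.nn y (Multiset.mem_coe.1 hy), hm0, ha0⟩
  obtain ⟨n, hn⟩ : ∃ n, n = Y.sum + m + a := ⟨_, rfl⟩
  obtain ⟨n', hn'⟩ : ∃ n', n' = u'.sum + m' + a' := ⟨_, rfl⟩
  have hn2 : n' = (u' : Multiset ℝ).sum + m' + a' := by rw [Multiset.sum_coe]; exact hn'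
  rw [← hn, ← hn'] at hG ⊢
  have hnn : n' ≤ n := by
    have := sh_sum_le hsh
    rw [Multiset.sum_coe] at this
    rw [hn, hn']; linarith
  have t0 : 0 ≤ θ'.1 0 := θ'.2.1 0
  have t1 : 0 ≤ θ'.1 1 := θ'.2.1 1
  have t2 : 0 ≤ θ'.1 2 := θ'.2.1 2
  have t3 : 0 ≤ θ'.1 3 := θ'.2.1 3
  have t4 : 0 ≤ θ'.1 4 := θ'.2.1 4
  obtain ⟨β, hβ⟩ : ∃ x, x = θ'.1 0 := ⟨_, rfl⟩
  obtain ⟨g₂, hg₂⟩ : ∃ x, x = θ'.1 1 := ⟨_, rfl⟩
  obtain ⟨g, hg⟩ : ∃ x, x = θ'.1 2 := ⟨_, rfl⟩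
  obtain ⟨t, ht⟩ : ∃ x, x = θ'.1 3 := ⟨_, rfl⟩
  obtain ⟨γ, hγ⟩ : ∃ x, x = θ'.1 4 := ⟨_, rfl⟩
  cases j with
  | ga =>
    have hG' : max (max (n' + (θ'.1 0 + θ'.1 4 - θ'.1 1) + θ'.1 2 - n)
        ((l + θ'.1 4 + 2 * θ'.1 1) - (v + n - K + 3 * θ'.1 3 + (θ'.1 0 + θ'.1 4 - θ'.1 1) + μ)))
      (max ((l + θ'.1 4 + 2 * θ'.1 1) + 2 * (θ'.1 0 + θ'.1 4 - θ'.1 1) + 3 * θ'.1 3 - K - μ)
        (max (2 * ((l + θ'.1 4 + 2 * θ'.1 1) + (θ'.1 0 + θ'.1 4 - θ'.1 1)) - v)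
          (θ'.1 1 - θ'.1 0))) ≤ 0 := hG
    rw [← hβ, ← hg₂, ← hg, ← ht, ← hγ] at hG'
    rw [← hβ] at t0
    rw [← hg₂] at t1
    rw [← hg] at t2
    rw [← ht] at t3
    rw [← hγ] at t4
    have g1 := (le_max_left _ _).trans ((le_max_left _ _).trans hG')
    have g2 := (le_max_right _ _).trans ((le_max_left _ _).trans hG')
    have g3 := (le_max_left _ _).trans ((le_max_right _ _).trans hG')
    have g4 := (le_max_left _ _).trans ((le_max_right _ _).trans ((le_max_right _ _).trans hG'))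
    have g5 := (le_max_right _ _).trans ((le_max_right _ _).trans ((le_max_right _ _).trans hG'))
    have hF := hQ.ga (u' : Multiset ℝ) m' a' n n' (l + γ + 2 * g₂) (β + γ - g₂) g t γ hsh hm0 hm1
      ha0 ha1 hn hn2 (by linarith) (by linarith) t2 t3 (by linarith) (by linarith) (by linarith)
      (by linarith) t4 (by linarith) (by linarith)
    have h2 := H.pg_full (κ := l + γ + 2 * g₂ + 2 * (β + γ - g₂) - 3 * γ) hl0 t0 (by ring) hu hF
    show BG2 Dq (PFp π h) l (θ'.1 0) u' (wt m' a') (E + (θ'.1 3 - (v + n - 2 * K) / 3 - μ -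
      θ'.1 2 - v + (l + θ'.1 4 + 2 * θ'.1 1) + (θ'.1 0 + θ'.1 4 - θ'.1 1) - 2 * θ'.1 4))
    rw [← hβ, ← hg₂, ← hg, ← ht, ← hγ]
    refine (bg2_of_PG h2).mono (le_of_eq ?_)
    ring
  | r2 =>
    have hG' : max (max (n' + (θ'.1 0 - θ'.1 1) + θ'.1 2 - n)
        ((l + 2 * θ'.1 1) - (v + n - K + 3 * θ'.1 3 + (θ'.1 0 - θ'.1 1) + μ)))
      (max ((l + 2 * θ'.1 1) + 2 * (θ'.1 0 - θ'.1 1) + 3 * θ'.1 3 - K - μ)
        (max (v - 2 * ((l + 2 * θ'.1 1) + (θ'.1 0 - θ'.1 1)))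
          (max (θ'.1 1 - θ'.1 0) (θ'.1 1 - θ'.1 2)))) ≤ 0 := hG
    rw [← hβ, ← hg₂, ← hg, ← ht] at hG'
    rw [← hβ] at t0
    rw [← hg₂] at t1
    rw [← hg] at t2
    rw [← ht] at t3
    have g1 := (le_max_left _ _).trans ((le_max_left _ _).trans hG')
    have g2 := (le_max_right _ _).trans ((le_max_left _ _).trans hG')
    have g3 := (le_max_left _ _).trans ((le_max_right _ _).trans hG')
    have g4 := (le_max_left _ _).trans ((le_max_right _ _).trans ((le_max_right _ _).trans hG'))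
    have g5 := (le_max_left _ _).trans ((le_max_right _ _).trans ((le_max_right _ _).trans
      ((le_max_right _ _).trans hG')))
    have g6 := (le_max_right _ _).trans ((le_max_right _ _).trans ((le_max_right _ _).trans
      ((le_max_right _ _).trans hG')))
    have hF := hQ.r2 (u' : Multiset ℝ) m' a' n n' (l + 2 * g₂) (β - g₂) g t g₂ hsh hm0 hm1
      ha0 ha1 hn hn2 (by linarith) (by linarith) t2 t3 (by linarith) (by linarith) (by linarith)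
      (by linarith) t1 (by linarith) (by linarith)
    rw [show l + 2 * g₂ - 2 * g₂ = l by ring, show β - g₂ + g₂ = β by ring] at hF
    have h2 := H.pg_r2 (κ := l + 2 * g₂ + 2 * (β - g₂)) hl0 t0 (by ring) hu hF
    show BG2 Dq (PFp π h) l (θ'.1 0) u' (wt m' a') (E + (θ'.1 3 - (v + n - 2 * K) / 3 - μ -
      θ'.1 2 - max v (max (l + 2 * θ'.1 1) (2 / 3 * (v + (l + 2 * θ'.1 1)))) +
        (l + 2 * θ'.1 1)))
    rw [← hβ, ← hg₂, ← hg, ← ht]
    refine (bg2_of_PG h2).mono (le_of_eq ?_)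
    ring
  | r3 =>
    have hG' : l - (v + n - K + μ) ≤ 0 := hG
    have hF := hQ.r3 (u' : Multiset ℝ) m' a' n n' hsh hm0 hm1 ha0 ha1 hn hn2 (by linarith)
    have h2 := H.ex_full hl0 hY' (Full.down hF (by linarith : l ≤ v + n - K + μ))
    refine (funOK_RF H.hP H.hpu).bg2 hl0 hu (h2.trans (le_of_eq ?_))
    show _ = E + -((n - n') + max 0 (max ((2 * v - K) / 3) ((3 * v - n - K) / 2)) + μ +
      ((v + n - K + μ) - l) / 3)
    ring
  | sq =>
    have hG' : max (l - K) (c - (n - n')) ≤ 0 := hG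
    have g1 := (le_max_left _ _).trans hG'
    have g2 := (le_max_right _ _).trans hG'
    have hF : Full θ (ex Dq (RN0 π h)) l (u' : Multiset ℝ) m' a'
        (E - ((K - l) / 3 + (n - n') + (v + n - 2 * K) / 3)) := by
      refine ⟨fun Y'' κ' h1 h2 h3 _ => ?_, ?_⟩
      · have hs := sh_sum_le h1
        rw [Multiset.sum_coe] at hs
        have h4 := hQ.sq Y'' m' a' n (Y''.sum + m' + a') κ' (h1.trans hsh) hm0 hm1 ha0 ha1 hn rfl
          (by linarith) h2 (by linarith)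
        linarith
      · have h4 := hQ.sqc (u' : Multiset ℝ) m' a' n n' hsh hm0 hm1 ha0 ha1 hn hn2
        linarith
    have h2 := H.ex_full hl0 hY' hF
    refine (funOK_RF H.hP H.hpu).bg2 hl0 hu (h2.trans (le_of_eq ?_))
    show _ = E + -((K - l) / 3 + (n - n') + (v + n - 2 * K) / 3)
    ring
  | dd =>
    have hG' : max (2 * μ - (n - n')) (max (c - (n - n')) (l - v - 2 * (n - n'))) ≤ 0 := hG
    have g1 := (le_max_left _ _).trans hG'
    have g2 := (le_max_left _ _).trans ((le_max_right _ _).trans hG')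
    have g3 := (le_max_right _ _).trans ((le_max_right _ _).trans hG')
    have hF : ex Dq (S0f π h) (v + 2 * (n - n')) (u' : Multiset ℝ) m' a' ≤ E + (n - n') - μ :=
      hQ.dd (u' : Multiset ℝ) m' a' n n' hsh hm0 hm1 ha0 ha1 hn hn2 (by linarith)
    have h2 := ex_mono_l (Ψ := S0f π h) (funOK_S0p H.hP H.hpu) S0f_mono_l
      (κ := v + 2 * (n - n')) (κ' := l) (by linarith) (by linarith) hY'
    refine (funOK_S0p H.hP H.hpu).bg2 hl0 hu ?_
    show _ ≤ E + ((n - n') - μ)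
    exact h2.trans (hF.trans (le_of_eq (by ring)))

/-- the complete character side -/
theorem pr_of (H : DataN θ π h c₁) {Y : Multiset ℝ} {m a n E : ℝ} 
    (hr : PremR (ex Dq (RN0 π h)) K v n E Y m a) (hp : PremP θ K v n E Y m a) :
    PR (ex Dq (RF0 π h)) K v n E Y m a := by
  intro Y' m' a' n' l hsh hm0 hm1 ha0 ha1 hn' hl0 hl1
  have hY' : Ok Y' m' a' := by
    refine ⟨fun y hy => ?_, hm0, ha0⟩
    obtain ⟨b, _, hb⟩ := Multiset.exists_mem_of_rel_of_mem hsh hy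
    exact hb.1
  have hF : Full θ (ex Dq (RN0 π h)) l Y' m' a'
      (E - ((K - l) / 3 + (n - n') + (v + n - 2 * K) / 3)) := by
    refine ⟨fun Y'' κ' h1 h2 h3 _ => ?_, ?_⟩
    · have hs := sh_sum_le h1
      have h4 := hr Y'' m' a' (Y''.sum + m' + a') κ' (h1.trans hsh) hm0 hm1 ha0 ha1 rfl h2
        (by linarith)
      linarith
    · have h4 := hp Y' m' a' n' hsh hm0 hm1 ha0 ha1 hn'
      linarith
  have h2 := H.ex_full hl0 hY' hF
  linarith

/-- **the fields of the recursion, class N** -/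
theorem expRGn_of (H : DataN θ π h c₁)
    (hB : ∀ K : ℝ, 0 < K → 2000 * c ≤ K →
      ∃ ε₀ : ℝ, 0 < ε₀ ∧ BessFin (RF0 π h) (S0f π h) (LN π h c μ) ε₀ K c)
    (hR : ∀ K v : ℝ, 0 < K → 2000 * c ≤ K → 3 * v + 300 * c ≤ 2 * K → K + 200 * c ≤ 2 * v →
      ∃ ε₀ : ℝ, 0 < ε₀ ∧ RgFin (S0f π h) (LN π h c μ) ε₀ K v c) :
    ExpRGn θ c (ex Dq (RN0 π h)) (ex Dq (S0f π h))
      (QL3 θ (ex Dq (RN0 π h)) (ex Dq (SP0 π h)) (ex Dq (S0f π h)) c μ) where
  bess := by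
    intro K v Y m a n E hY hn hv hv2 h3v h6 hK0 hcK hE hr hp hT hQ
    obtain ⟨ε₀, hε₀, hfin⟩ := hB K hK0 hcK
    exact bess_of_fin (ln_ok H.hP H.hpu c μ) (funOK_RF H.hP H.hpu) (funOK_S0p H.hP H.hpu)
      S0f_mono_l hε₀ hfin hY hn hv hv2 h3v h6 hE (pr_of H hr hp) hT (qg_of H hv hQ)
  rg := by
    intro K v Y m a n F hY hn h2 h6 h3v hK0 hcK h34 hF hP v' hv0 hv1
    obtain ⟨ε₀, hε₀, hfin⟩ := hR K v hK0 hcK h3v (by linarith)
    refine rg_of_fin (ln_ok H.hP H.hpu c μ) (funOK_S0p H.hP H.hpu) S0f_mono_l hε₀ hfin hY hn h2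
      h6 h34 hF hP.pT hP.pJ hP.p0 ?_ hv0 hv1
    intro Y' m' a' n' v'' k1 k2 k3 k4 k5 k6 k7 k8 k9
    exact qg_of H k8 (hP.pR Y' m' a' n' v'' k1 k2 k3 k4 k5 k6 k7 k8 k9)

/-- the data of class N -/
theorem dataN_of (hθ : 1 / 2 < θ) (hθ1 : θ ≤ 1) (hPF : End699.PF Set.univ θ) (hpu : FE47.PU h c₁)
    (hP : ∀ lam, (π lam).OK)
    (hN : ∀ lam, ∀ k : Eis, k ≠ 0 → Sup271.NPm (π lam).n (π lam).ψ (π lam).l₂ k)
    (hcl : Clo π) : DataN θ π h c₁ where
  hθ := by linarith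
  hpu := hpu
  hP := hP
  clo := hcl
  raw := raw_699 hθ hθ1 hPF hpu π hP hN

end Crest.Agent.R017.RGB545
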