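import Crest.Agent.R017.BDefs_770

/-!
# Row 17, section B, leaf L4 `NatP` (A): algebra of `tk k u c` (helper401)

* `exists_decomp`, `decomp_unique`: `b = u v`, primes of `u` divide `k`, `v` coprime to `k`
* `tk_cop`  : `tk k v c` for `v`, `c` coprime to `k`
* `tk_sm`   : `tk k u c ≠ 0 → u ∣ k ^ 2` and `‖tk k u c‖ ≤ N(u)^(7/8) N(c)^(1/8)`
-/

set_option autoImplicit false

noncomputable section

open Complex
open scoped ComplexConjugate

namespace Crest.Agent.R017.NatP401

open Crest.Agent.R012 Crest.Agent.R012.Eis Crest.Agent.R012.Mob705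
open Crest.Agent.R017.Sx545 Crest.Agent.R017.B770

/-- every primary prime factor of `u` divides `k` -/
def KS (k u : Eis) : Prop := ∀ p, IsPP p → p ∣ u → p ∣ k

lemma KS.one (k : Eis) : KS k 1 := fun p hp h => absurd (isUnit_of_dvd_one h) hp.prime.not_isUnit

lemma KS.of_dvd {k u v : Eis} (h : KS k u) (hv : v ∣ u) : KS k v :=
  fun p hp hpv => h p hp (hpv.trans hv)

lemma KS.mul {k u v : Eis} (hu : KS k u) (hv : KS k v) : KS k (u * v) := fun p hp hpv => by
  rcases hp.prime.dvd_or_dvd hpv with h | h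
  · exact hu p hp h
  · exact hv p hp h

lemma exists_decomp {k : Eis} : ∀ (n : ℕ) {b : Eis}, nm b ≤ n → IsPrim b →
    ∃ u v, IsPrim u ∧ IsPrim v ∧ b = u * v ∧ KS k u ∧ IsCoprime v k := by
  intro n
  induction n with
  | zero =>
    intro b hb hp
    exact absurd (nm_eq_zero.mp (Nat.le_zero.mp hb)) hp.ne_zero
  | succ n ih =>
    intro b hb hp
    by_cases hc : IsCoprime b k
    · exact ⟨1, b, isPrim_one, hp, (one_mul b).symm, KS.one k, hc⟩
    · obtain ⟨p, hpp, ⟨c, rfl⟩, hpk⟩ := exists_common_pp hp hc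
      have hcp : IsPrim c := hp.of_mul_left hpp.isPrim
      have hcn : nm c ≤ n := by
        rw [nm_mul] at hb
        have h1 := hpp.one_lt_nm
        have h2 : 0 < nm c := nm_pos.mpr hcp.ne_zero
        nlinarith
      obtain ⟨u, v, hu, hv, rfl, hku, hvk⟩ := ih hcn hcp
      refine ⟨p * u, v, hpp.isPrim.mul hu, hv, by ring, ?_, hvk⟩
      refine KS.mul ?_ hku
      intro q hq hqp
      rw [hq.eq_of_dvd hpp hqp]; exact hpk

lemma KS.isCoprime {k u v : Eis} (hu : IsPrim u) (hk : KS k u) (hv : IsCoprime v k) :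
    IsCoprime u v := by
  rw [isCoprime_iff_pp hu]
  intro p hp hpu hpv
  exact hp.prime.not_isUnit (hv.isUnit_of_dvd' hpv (hk p hp hpu))

lemma decomp_unique {k u v u' v' : Eis} (hu : IsPrim u) (hu' : IsPrim u')
    (hk : KS k u) (hk' : KS k u') (hv : IsCoprime v k) (hv' : IsCoprime v' k)
    (h : u * v = u' * v') : u = u' ∧ v = v' := by
  have h1 : u ∣ u' := (hk.isCoprime hu hv').dvd_of_dvd_mul_right (h ▸ dvd_mul_right u v)
  have h2 : u' ∣ u := (hk'.isCoprime hu' hv).dvd_of_dvd_mul_right (h ▸ dvd_mul_right u' v')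
  have h3 : u = u' := hu.eq_of_associated hu' (associated_of_dvd_dvd h1 h2)
  subst h3
  exact ⟨rfl, mul_left_cancel₀ hu.ne_zero h⟩

lemma exists_pow_mul {p b : Eis} (hp : IsPP p) (hb : IsPrim b) :
    ∃ (j : ℕ) (c : Eis), b = p ^ j * c ∧ ¬ p ∣ c ∧ IsPrim c := by
  have hfin : FiniteMultiplicity p b := FiniteMultiplicity.of_prime_left hp.prime hb.ne_zero
  obtain ⟨c, hc, hnd⟩ := hfin.exists_eq_pow_mul_and_not_dvd
  refine ⟨_, c, hc, hnd, ?_⟩
  rw [hc] at hb
  exact hb.of_mul_left (hp.isPrim.pow _)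

lemma sE_half {j : ℕ} (hj : 2 ≤ j) : j ≤ sE j * 2 := by
  unfold sE
  split_ifs <;> omega

lemma sE_le (j : ℕ) : 4 * sE j ≤ 3 * j := by
  unfold sE
  split_ifs <;> omega

lemma sE_pos {j : ℕ} (hj : 2 ≤ j) : 1 ≤ sE j := by
  have := sE_half hj
  omega

lemma sy_of_dvd {k p : Eis} (hp : IsPP p) (h : p ∣ k) : sy k p = 0 := by
  apply (Sym645.sy_eq_zero_iff (Sym645.prim_nm_mod hp.isPrim)).mpr
  intro hc
  exact hp.prime.not_isUnit (hc.isUnit_of_dvd' h dvd_rfl)

variable (T : TkAlg)
include T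

lemma tk_pow_zero {k p : Eis} {j : ℕ} (hp : IsPP p) (h2 : Sm 2 p) (hk : ¬ p ∣ k) (hj : 2 ≤ j) :
    tk k (p ^ j) 1 = 0 := by
  apply T.pow1 k p j h2 hp.prime hj
  intro h
  exact hk ((dvd_pow_self p (by have := sE_pos hj; omega)).trans h)

/-- non squarefree `v` -/
lemma tk_nsf {k v c : Eis} (hv : Sm 2 v) (hc : Sm 2 c) (hvk : IsCoprime v k)
    (hvc : IsCoprime v c) (hsf : ¬ Squarefree v) : tk k v c = 0 := by
  rw [squarefree_iff_pp hv.prim] at hsf
  push Not at hsf
  obtain ⟨p, hp, hpv⟩ := hsf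
  obtain ⟨j, w, rfl, hw, hwp⟩ := exists_pow_mul hp hv.prim
  have hj : 2 ≤ j := by
    by_contra hlt
    apply hw
    have h1 : p ^ (j + 1) ∣ p ^ j * w := (pow_dvd_pow p (by omega)).trans hpv
    rw [pow_succ, mul_dvd_mul_iff_left (pow_ne_zero _ hp.ne_zero)] at h1
    exact h1
  have hp0 : p ∣ p ^ j * w := (dvd_pow_self p (by omega)).trans (dvd_mul_right _ _)
  have hp2 : Sm 2 p := hv.of_dvd hp.isPrim hp0
  have hw2 : Sm 2 w := hv.of_dvd hwp (dvd_mul_left _ _)
  have hpk : ¬ p ∣ k := fun h => hp.prime.not_isUnit (hvk.isUnit_of_dvd' hp0 h)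
  have hpc : IsCoprime (p ^ j) c := hvc.of_mul_left_left
  have hpw : IsCoprime (p ^ j) w := ((hp.isCoprime_iff).mpr hw).pow_left
  have e := T.mul k (p ^ j) w 1 c (hp2.pow j) hw2 (Sm.one 2) hc
    (by rw [mul_one]; exact hpw.mul_right hpc)
  rw [one_mul] at e
  rw [e, tk_pow_zero T hp hp2 hpk hj, zero_mul]

/-- `tk k v c` for `v`, `c` coprime to `k` -/
lemma tk_cop {k v c : Eis} (hv : Sm 2 v) (hc : Sm 2 c) (hcs : Squarefree c)
    (hvk : IsCoprime v k) (hck : IsCoprime c k) :
    tk k v c = (muE v : ℂ) * sy k v * End699.prin0 c v * conj (sy k c) := by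
  unfold End699.prin0
  by_cases hvc : IsCoprime v c
  · rw [if_pos hvc, mul_one]
    by_cases hsf : Squarefree v
    · have e := T.mul k v 1 1 c hv (Sm.one 2) (Sm.one 2) hc (by simpa using hvc)
      rw [mul_one, one_mul] at e
      rw [e, T.b1 k v hv hsf, T.c1 k c hc hcs]
    · rw [tk_nsf T hv hc hvk hvc hsf, muE_of_not_squarefree hsf]; simp
  · rw [if_neg hvc, mul_zero, zero_mul]
    obtain ⟨p, hp, hpv, hpc⟩ := exists_common_pp hv.prim hvc
    obtain ⟨j, w, rfl, hw, hwp⟩ := exists_pow_mul hp hv.prim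
    obtain ⟨d, rfl⟩ := hpc
    have hj : j ≠ 0 := by
      rintro rfl
      rw [pow_zero, one_mul] at hpv
      exact hw hpv
    have hdp : IsPrim d := hc.prim.of_mul_left hp.isPrim
    have hpd : ¬ p ∣ d := by
      rintro ⟨e, rfl⟩
      have h1 := hcs p ⟨e, by ring⟩
      exact hp.prime.not_isUnit h1
    have hp2 : Sm 2 p := hc.of_dvd hp.isPrim (dvd_mul_right _ _)
    have hd2 : Sm 2 d := hc.of_dvd hdp (dvd_mul_left _ _)
    have hw2 : Sm 2 w := hv.of_dvd hwp (dvd_mul_left _ _)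
    have hpk : ¬ p ∣ k := fun h => hp.prime.not_isUnit (hck.isUnit_of_dvd' (dvd_mul_right _ _) h)
    have hpw : IsCoprime p w := (hp.isCoprime_iff).mpr hw
    have hpd' : IsCoprime p d := (hp.isCoprime_iff).mpr hpd
    have hcop : IsCoprime (p ^ j * p) (w * d) := by
      rw [← pow_succ]
      exact (hpw.mul_right hpd').pow_left
    rw [T.mul k (p ^ j) w p d (hp2.pow j) hw2 hp2 hd2 hcop]
    have h0 : tk k (p ^ j) p = 0 := by
      rcases Nat.lt_or_ge j 2 with h1 | h1
      · have : j = 1 := by omega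
        subst this
        rw [pow_one, T.pp k p hp2 hp.prime, if_neg hpk, if_neg, mul_zero, sub_zero]
        exact fun h => hpk ((dvd_pow_self p (by norm_num)).trans h)
      · exact T.powc k p j hp2 hp.prime h1
    rw [h0, zero_mul]

/-- local factor -/
lemma tk_loc {k p : Eis} (hp : IsPP p) (h2 : Sm 2 p) (hk : p ∣ k) (j : ℕ) (e : ℕ) (he : e ≤ 1)
    (hje : 1 ≤ j ∨ e = 1) :
    (tk k (p ^ j) (p ^ e) ≠ 0 → p ^ j ∣ k ^ 2) ∧
      ‖tk k (p ^ j) (p ^ e)‖ ≤ ((nm p : ℝ) ^ j) ^ (7 / 8 : ℝ) * ((nm p : ℝ) ^ e) ^ (1 / 8 : ℝ) := by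
  have hq : (1 : ℝ) ≤ nm p := by
    have := hp.one_lt_nm
    exact_mod_cast this.le
  have hnn : 0 ≤ ((nm p : ℝ) ^ j) ^ (7 / 8 : ℝ) * ((nm p : ℝ) ^ e) ^ (1 / 8 : ℝ) := by positivity
  have hsq : p ^ 2 ∣ k ^ 2 := pow_dvd_pow_of_dvd hk 2
  rcases Nat.lt_or_ge j 2 with hj | hj
  · interval_cases j
    · -- j = 0
      have he1 : e = 1 := by omega
      subst he1
      rw [pow_zero, pow_one, T.c1 k p h2 hp.prime.irreducible.squarefree, sy_of_dvd hp hk, map_zero]
      refine ⟨fun h => absurd rfl h, ?_⟩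
      rw [norm_zero]
      exact hnn
    · rw [pow_one]
      interval_cases e
      · rw [pow_zero, T.b1 k p h2 hp.prime.irreducible.squarefree, sy_of_dvd hp hk, mul_zero]
        refine ⟨fun h => absurd rfl h, ?_⟩
        rw [norm_zero]; exact hnn
      · rw [pow_one, T.pp k p h2 hp.prime, if_pos hk]
        refine ⟨fun _ => hk.trans (dvd_pow_self k (by norm_num)), ?_⟩
        have e1 : ((nm p : ℝ) ^ 1) ^ (7 / 8 : ℝ) * ((nm p : ℝ) ^ 1) ^ (1 / 8 : ℝ) = nm p := by
          rw [pow_one, ← Real.rpow_add (by linarith)]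
          norm_num
        rw [e1]
        split_ifs
        · rw [mul_one]
          have : (1 : ℂ) - (nm p : ℂ) = ((1 - (nm p : ℝ) : ℝ) : ℂ) := by push_cast; rfl
          rw [this, Complex.norm_real, Real.norm_eq_abs, abs_of_nonpos (by linarith)]
          linarith
        · simpa using hq
  · rcases Nat.eq_zero_or_pos e with he0 | he0
    · subst he0
      rw [pow_zero]
      by_cases hz : tk k (p ^ j) 1 = 0
      · rw [hz]
        refine ⟨fun h => absurd rfl h, ?_⟩
        rw [norm_zero]; positivity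
      · have hd : p ^ sE j ∣ k := by
          by_contra hd
          exact hz (T.pow1 k p j h2 hp.prime hj hd)
        have hj5 : 5 ≤ j := by
          by_contra hlt
          apply hz
          apply T.pow0 k p j h2 hp.prime hj <;> omega
        refine ⟨fun _ => ?_, ?_⟩
        · refine (pow_dvd_pow p (sE_half hj)).trans ?_
          rw [pow_mul]
          exact pow_dvd_pow_of_dvd hd 2
        · refine (T.pow2 k p j h2 hp.prime hj).trans ?_
          rw [pow_zero, Real.one_rpow, mul_one, ← Real.rpow_natCast, ← Real.rpow_mul (by linarith)]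
          apply Real.rpow_le_rpow_of_exponent_le hq
          have h1 : (4 : ℝ) * sE j ≤ 3 * j := by exact_mod_cast sE_le j
          have h3 : (5 : ℝ) ≤ j := by exact_mod_cast hj5
          linarith
    · have he1 : e = 1 := by omega
      subst he1
      rw [pow_one, T.powc k p j h2 hp.prime hj]
      refine ⟨fun h => absurd rfl h, ?_⟩
      rw [norm_zero]; positivity

/-- support and size of `tk k u c` when all the primes of `u c` divide `k` -/
theorem tk_sm {k : Eis} : ∀ (n : ℕ) {u c : Eis}, nm u * nm c ≤ n → Sm 2 u → Sm 2 c →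
    Squarefree c → KS k (u * c) →
    (tk k u c ≠ 0 → u ∣ k ^ 2) ∧
      ‖tk k u c‖ ≤ (nm u : ℝ) ^ (7 / 8 : ℝ) * (nm c : ℝ) ^ (1 / 8 : ℝ) := by
  intro n
  induction n with
  | zero =>
    intro u c h hu hc _ _
    have h1 : 0 < nm u := nm_pos.mpr hu.ne_zero
    have h2 : 0 < nm c := nm_pos.mpr hc.ne_zero
    have := Nat.mul_pos h1 h2
    omega
  | succ n ih =>
    intro u c h hu hc hcs hks
    by_cases h1 : u * c = 1
    · have hu1 : u = 1 := isPrim_eq_one_of_isUnit hu.prim (IsUnit.of_mul_eq_one _ h1)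
      subst hu1
      rw [one_mul] at h1
      subst h1
      rw [T.one]
      simp
    · obtain ⟨p, hp, hpuc⟩ := exists_pp_dvd_of_isPrim (hu.prim.mul hc.prim) h1
      have hpk : p ∣ k := hks p hp hpuc
      obtain ⟨j, u', rfl, hu', hup⟩ := exists_pow_mul hp hu.prim
      obtain ⟨e, c', rfl, hc', hcp⟩ := exists_pow_mul hp hc.prim
      have he : e ≤ 1 := by
        by_contra hlt
        have h3 : p * p ∣ p ^ e * c' :=
          (by rw [← pow_two]; exact pow_dvd_pow p (by omega) : p * p ∣ p ^ e).trans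
            (dvd_mul_right _ _)
        exact hp.prime.not_isUnit (hcs p h3)
      have hje : 1 ≤ j ∨ e = 1 := by
        by_contra hcon
        push Not at hcon
        have hj0 : j = 0 := by omega
        have he0 : e = 0 := by omega
        subst hj0; subst he0
        rw [pow_zero, one_mul, one_mul] at hpuc
        rcases hp.prime.dvd_or_dvd hpuc with h3 | h3
        · exact hu' h3
        · exact hc' h3
      have hp2 : Sm 2 p := by
        rcases hje with h3 | h3
        · exact hu.of_dvd hp.isPrim ((dvd_pow_self p (by omega)).trans (dvd_mul_right _ _))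
        · exact hc.of_dvd hp.isPrim ((dvd_pow_self p (by omega)).trans (dvd_mul_right _ _))
      have hu2 : Sm 2 u' := hu.of_dvd hup (dvd_mul_left _ _)
      have hc2 : Sm 2 c' := hc.of_dvd hcp (dvd_mul_left _ _)
      have hcs' : Squarefree c' := hcs.squarefree_of_dvd (dvd_mul_left _ _)
      have hcop1 : IsCoprime p (u' * c') :=
        ((hp.isCoprime_iff).mpr hu').mul_right ((hp.isCoprime_iff).mpr hc')
      have hcop : IsCoprime (p ^ j * p ^ e) (u' * c') := by
        rw [← pow_add]; exact hcop1.pow_left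
      obtain ⟨l1, l2⟩ := tk_loc T hp hp2 hpk j e he hje
      have hsize : nm u' * nm c' ≤ n := by
        have a0 := hp.one_lt_nm
        have a1 : 0 < nm u' := nm_pos.mpr hup.ne_zero
        have a2 : 0 < nm c' := nm_pos.mpr hcp.ne_zero
        have a3 : 0 < nm u' * nm c' := Nat.mul_pos a1 a2
        rw [nm_mul, nm_mul, nm_pow, nm_pow] at h
        have a4 : 2 ≤ nm p ^ j * nm p ^ e := by
          rw [← pow_add]
          calc 2 ≤ nm p := a0
            _ = nm p ^ 1 := (pow_one _).symm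
            _ ≤ nm p ^ (j + e) := Nat.pow_le_pow_right (by omega) (by omega)
        have a5 : nm p ^ j * nm u' * (nm p ^ e * nm c') =
            (nm p ^ j * nm p ^ e) * (nm u' * nm c') := by ring
        rw [a5] at h
        nlinarith
      have hks' : KS k (u' * c') := by
        intro q hq hqd
        apply hks q hq
        have : p ^ j * u' * (p ^ e * c') = (p ^ j * p ^ e) * (u' * c') := by ring
        rw [this]
        exact hqd.trans (dvd_mul_left _ _)
      obtain ⟨i1, i2⟩ := ih hsize hu2 hc2 hcs' hks'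
      rw [T.mul k (p ^ j) u' (p ^ e) c' (hp2.pow j) hu2 (hp2.pow e) hc2 hcop]
      constructor
      · intro hne
        have n1 := l1 (left_ne_zero_of_mul hne)
        have n2 := i1 (right_ne_zero_of_mul hne)
        exact (((hp.isCoprime_iff).mpr hu').pow_left : IsCoprime (p ^ j) u').mul_dvd n1 n2
      · rw [norm_mul, nm_mul, nm_mul, nm_pow, nm_pow]
        push_cast
        have r1 : ((nm p : ℝ) ^ j * nm u') ^ (7 / 8 : ℝ) =
            ((nm p : ℝ) ^ j) ^ (7 / 8 : ℝ) * (nm u' : ℝ) ^ (7 / 8 : ℝ) :=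
          Real.mul_rpow (by positivity) (by positivity)
        have r2 : ((nm p : ℝ) ^ e * nm c') ^ (1 / 8 : ℝ) =
            ((nm p : ℝ) ^ e) ^ (1 / 8 : ℝ) * (nm c' : ℝ) ^ (1 / 8 : ℝ) :=
          Real.mul_rpow (by positivity) (by positivity)
        rw [r1, r2]
        calc ‖tk k (p ^ j) (p ^ e)‖ * ‖tk k u' c'‖
            ≤ (((nm p : ℝ) ^ j) ^ (7 / 8 : ℝ) * ((nm p : ℝ) ^ e) ^ (1 / 8 : ℝ)) *
              ((nm u' : ℝ) ^ (7 / 8 : ℝ) * (nm c' : ℝ) ^ (1 / 8 : ℝ)) :=
              mul_le_mul l2 i2 (norm_nonneg _) (by positivity)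
          _ = _ := by ring

end Crest.Agent.R017.NatP401
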