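import Crest.Agent.R017.CubL_813
import Crest.Agent.R017.E2ex_385
import Crest.Agent.R017.NatPA_401

/-!
# Row 17, the tail of LB by the complete `c`-sum (helper813; 404 #25307, 813 #25359)

* `mob` : `∑_{(c,N)=1} f(c) = ∑_{g ∣ N, nm g ≤ L} μ(g) ∑_m f(g m) + ∑_{l ∣ N^∞, nm l > L} lamL(l) ∑_{(c,N)=1} f(l c)`
-/

set_option autoImplicit false
set_option linter.unusedVariables false

noncomputable section

open Complex
open scoped ComplexConjugate

namespace Crest.Agent.R017.CubP813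

open Crest.Agent.R012 Crest.Agent.R012.Eis Crest.Agent.R012.Mob705
open Crest.Agent.R012.Div277 (tau dvs mem_dvs isPrim_of_mem_dvs dvs_zero one_le_tau)
open Crest.Agent.R012.LS2 (S mem_S)
open Crest.Agent.R017.CM106 Crest.Agent.R017.FE47 Crest.Agent.R017.End699
open Crest.Agent.R017.C70 (CbF OKJ JC)
open Crest.Agent.R017.E2440 (TE StE StT TOK tok_TE)
open Crest.Agent.R017.E5Q571 (Cut dvd_of_cube_dvd sqf_dvd_cube CS_cube)
open Crest.Agent.R017.Ex385 (CrQ)
open Crest.Agent.R017.PX764 (th)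
open Crest.Agent.R017.CubL813

/-! ### the smooth part -/

/-- all primes of `l` divide `N` -/
def Smd (N l : Eis) : Prop := ∀ p : Eis, IsPP p → p ∣ l → p ∣ N

lemma exists_sm (N : Eis) : ∀ (n : ℕ) {t : Eis}, nm t ≤ n → IsPrim t → ∃ l c, IsPrim l ∧ IsPrim c ∧
    l * c = t ∧ Smd N l ∧ IsCoprime c N := by
  intro n
  induction n with
  | zero =>
    intro t ht hp
    exact absurd (nm_eq_zero.mp (Nat.le_zero.mp ht)) hp.ne_zero
  | succ n ih =>
    intro t ht hp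
    by_cases h1 : IsCoprime t N
    · exact ⟨1, t, isPrim_one, hp, one_mul _,
        fun p hpp h => absurd (isUnit_of_dvd_one h) hpp.prime.not_isUnit, h1⟩
    · obtain ⟨p, hpp, hpt, hpN⟩ := exists_common_pp hp h1
      obtain ⟨t', rfl⟩ := hpt
      have ht' : IsPrim t' := IsPrim.of_mul_left hp hpp.isPrim
      have hn : nm t' ≤ n := by
        rw [nm_mul] at ht
        have h2 := hpp.one_lt_nm
        have h3 : 0 < nm t' := nm_pos.mpr ht'.ne_zero
        nlinarith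
      obtain ⟨l, c, hl, hc, rfl, h2, h3⟩ := ih hn ht'
      refine ⟨p * l, c, hpp.isPrim.mul hl, hc, by ring, ?_, h3⟩
      intro q hq hqd
      rcases hq.prime.dvd_or_dvd hqd with h | h
      · rwa [hq.eq_of_dvd hpp h]
      · exact h2 q hq h

lemma Smd.cop {N l c : Eis} (hl : IsPrim l) (h : Smd N l) (hc : IsCoprime c N) :
    IsCoprime l c := by
  rw [isCoprime_iff_pp hl]
  intro p hp h1 h2
  have h3 := h p hp h1
  exact hp.prime.not_isUnit (hc.isUnit_of_dvd' h2 h3)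

lemma sm_unique {N l c l' c' : Eis} (hl : IsPrim l) (hl' : IsPrim l') (h : Smd N l)
    (h' : Smd N l') (hc : IsCoprime c N) (hc' : IsCoprime c' N) (he : l * c = l' * c') :
    l = l' ∧ c = c' := by
  have h1 : l ∣ l' := (h.cop hl hc').dvd_of_dvd_mul_right (he ▸ dvd_mul_right l c)
  have h2 : l' ∣ l := (h'.cop hl' hc).dvd_of_dvd_mul_right (he ▸ dvd_mul_right l' c')
  have h3 : l = l' := hl.eq_of_associated hl' (associated_of_dvd_dvd h1 h2)
  subst h3
  exact ⟨rfl, mul_left_cancel₀ hl.ne_zero he⟩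

/-- the radical of a primary number -/
def rl (l : Eis) : Eis := ∏ p ∈ pp l, p

lemma rl_prim (l : Eis) : IsPrim (rl l) := (ppSet_pp l).isPrim_prod

lemma rl_sqf (l : Eis) : Squarefree (rl l) := (ppSet_pp l).squarefree_prod

lemma rl_dvd (l : Eis) : rl l ∣ l := prod_pp_dvd l

lemma rl_dvd_iff {l N : Eis} (hl : l ≠ 0) : rl l ∣ N ↔ Smd N l := by
  unfold rl Smd
  rw [(ppSet_pp l).prod_dvd]
  exact ⟨fun h p hp h1 => h p ((mem_pp hl).2 ⟨hp, h1⟩), fun h p hp =>
    h p ((mem_pp hl).1 hp).1 ((mem_pp hl).1 hp).2⟩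

/-- squarefree numbers: divisibility is a statement on primes -/
lemma sqf_dvd {d N : Eis} (hd : IsPrim d) (hs : Squarefree d) (h : Smd N d) : d ∣ N := by
  rw [← prod_pp hd hs, (ppSet_pp d).prod_dvd]
  exact fun p hp => h p ((mem_pp hd.ne_zero).1 hp).1 ((mem_pp hd.ne_zero).1 hp).2

open Classical in
/-- the Moebius coefficient of the large `l` -/
def lamL (L : ℝ) (l : Eis) : ℤ := ∑ d ∈ (dvs l).filter (fun d => L < (nm d : ℝ)), mu d

lemma abs_lamL_le (L : ℝ) (l : Eis) : |lamL L l| ≤ tau l := by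
  classical
  unfold lamL
  refine (Finset.abs_sum_le_sum_abs _ _).trans ?_
  calc ∑ d ∈ (dvs l).filter (fun d => L < (nm d : ℝ)), |mu d| ≤
        ∑ d ∈ (dvs l).filter (fun d => L < (nm d : ℝ)), (1 : ℤ) :=
        Finset.sum_le_sum fun d _ => abs_mu_le_one _
    _ = (((dvs l).filter (fun d => L < (nm d : ℝ))).card : ℤ) := by simp
    _ ≤ tau l := by
        unfold tau
        exact_mod_cast Finset.card_filter_le _ _

lemma norm_lamL_le (L : ℝ) (l : Eis) : ‖(lamL L l : ℂ)‖ ≤ tau l := by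
  rw [Complex.norm_intCast]
  exact_mod_cast abs_lamL_le L l

/-- only the radical counts: `lamL L l = 0` if `nm (rl l) ≤ L` -/
lemma lamL_rl {L : ℝ} {l : Eis} (hl : l ≠ 0) (h : (nm (rl l) : ℝ) ≤ L) : lamL L l = 0 := by
  classical
  unfold lamL
  refine Finset.sum_eq_zero fun d hd => ?_
  obtain ⟨h1, h2⟩ := Finset.mem_filter.1 hd
  obtain ⟨h3, h4⟩ := (mem_dvs hl).1 h1
  refine mu_of_not_squarefree fun hs => ?_
  have h5 : d ∣ rl l := by
    refine sqf_dvd h3 hs fun p hp hpd => ?_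
    unfold rl
    exact ((ppSet_pp l).dvd_prod hp).2 ((mem_pp hl).2 ⟨hp, hpd.trans h4⟩)
  have h6 : (nm d : ℝ) ≤ nm (rl l) := by
    exact_mod_cast Div277.nm_le_of_dvd (rl_prim l).ne_zero h5
  linarith

lemma nm_rl_le {l : Eis} (hl : l ≠ 0) : (nm (rl l) : ℝ) ≤ nm l := by
  exact_mod_cast Div277.nm_le_of_dvd hl (rl_dvd l)

lemma lamL_small {L : ℝ} {l : Eis} (hl : l ≠ 0) (h : (nm l : ℝ) ≤ L) : lamL L l = 0 :=
  lamL_rl hl ((nm_rl_le hl).trans h)

open Classical in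
/-- the large divisors of `N` in `l c`, `l` smooth, `c` coprime -/
lemma sum_large {L : ℝ} {N l c : Eis} (hN : N ≠ 0) (hl : IsPrim l) (hs : Smd N l)
    (hc : IsCoprime c N) :
    ∑ d ∈ (dvs N).filter (fun d => L < (nm d : ℝ)), (if d ∣ l * c then mu d else 0) =
      lamL L l := by
  rw [← Finset.sum_filter]
  unfold lamL
  set A := ((dvs N).filter (fun d => L < (nm d : ℝ))).filter (fun d => d ∣ l * c) with hA
  set B := (dvs l).filter (fun d => L < (nm d : ℝ)) with hB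
  have e1 : ∑ d ∈ A, mu d = ∑ d ∈ A.filter Squarefree, mu d := by
    conv_rhs => rw [Finset.sum_filter]
    refine Finset.sum_congr rfl fun d _ => ?_
    split_ifs with h
    · rfl
    · exact mu_of_not_squarefree h
  have e2 : ∑ d ∈ B, mu d = ∑ d ∈ B.filter Squarefree, mu d := by
    conv_rhs => rw [Finset.sum_filter]
    refine Finset.sum_congr rfl fun d _ => ?_
    split_ifs with h
    · rfl
    · exact mu_of_not_squarefree h
  rw [e1, e2]
  congr 1
  ext d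
  simp only [hA, hB, Finset.mem_filter, mem_dvs hN, mem_dvs hl.ne_zero]
  constructor
  · rintro ⟨⟨⟨⟨h1, h2⟩, h3⟩, h4⟩, h5⟩
    refine ⟨⟨⟨h1, ?_⟩, h3⟩, h5⟩
    have h6 : IsCoprime d c := (hc.of_isCoprime_of_dvd_right h2).symm
    exact h6.dvd_of_dvd_mul_right h4
  · rintro ⟨⟨⟨h1, h2⟩, h3⟩, h5⟩
    refine ⟨⟨⟨⟨h1, ?_⟩, h3⟩, h2.mul_right c⟩, h5⟩
    exact sqf_dvd h1 h5 fun p hp h => hs p hp (h.trans h2)

/-! ### Moebius inversion, cut at `L` -/

open Classical in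
lemma sum_dil {f : Eis → ℂ} {X : ℕ} (hf : ∀ c, f c ≠ 0 → nm c ≤ X) {d : Eis} (hd : IsPrim d) :
    ∑ t ∈ primBall X, (if d ∣ t then f t else 0) = ∑ m ∈ primBall X, f (d * m) := by
  rw [← Finset.sum_filter]
  symm
  have e1 : ∑ m ∈ primBall X, f (d * m) =
      ∑ m ∈ (primBall X).filter (fun m => nm (d * m) ≤ X), f (d * m) := by
    rw [Finset.sum_filter]
    refine Finset.sum_congr rfl fun m _ => ?_
    split_ifs with h
    · rfl
    · by_contra h0
      exact h (hf _ h0)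
  rw [e1]
  refine Finset.sum_bij (fun m _ => d * m) ?_ ?_ ?_ ?_
  · intro m hm
    rw [Finset.mem_filter, mem_primBall] at hm ⊢
    exact ⟨⟨hm.2, hd.mul hm.1.2⟩, dvd_mul_right _ _⟩
  · intro m _ m' _ h
    exact mul_left_cancel₀ hd.ne_zero h
  · intro t ht
    rw [Finset.mem_filter, mem_primBall] at ht
    obtain ⟨⟨h1, h2⟩, m, rfl⟩ := ht
    refine ⟨m, ?_, rfl⟩
    rw [Finset.mem_filter, mem_primBall]
    refine ⟨⟨?_, IsPrim.of_mul_left h2 hd⟩, h1⟩
    refine le_trans ?_ h1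
    rw [nm_mul]
    exact Nat.le_mul_of_pos_left _ (nm_pos.2 hd.ne_zero)
  · intro m _
    rfl

open Classical in
/-- **Moebius inversion, cut at `L`** -/
theorem mob {f : Eis → ℂ} {X : ℕ} (hf : ∀ c, f c ≠ 0 → nm c ≤ X) {N : Eis} (hN : N ≠ 0) {L : ℝ}
    (hL : 0 ≤ L) :
    ∑ c ∈ primBall X, (if IsCoprime c N then f c else 0) =
      ∑ g ∈ S L, (if g ∣ N then (mu g : ℂ) * ∑ m ∈ primBall X, f (g * m) else 0) +
      ∑ l ∈ (primBall X).filter (fun l => L < (nm l : ℝ)), (if rl l ∣ N then (lamL L l : ℂ) *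
        ∑ c ∈ primBall X, (if IsCoprime c N then f (l * c) else 0) else 0) := by
  have h0 : ∑ c ∈ primBall X, (if IsCoprime c N then f c else 0) =
      ∑ t ∈ primBall X, f t * ((∑ d ∈ dvs N, (if d ∣ t then mu d else 0) : ℤ) : ℂ) := by
    refine Finset.sum_congr rfl fun t ht => ?_
    have h := sum_mu_coprime (mem_primBall.1 ht).2 hN
    have h' : ∑ d ∈ dvs N, (if d ∣ t then mu d else 0) = if IsCoprime t N then 1 else 0 := h
    rw [h']
    split_ifs <;> simp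
  have h1 : ∀ t : Eis, ((∑ d ∈ dvs N, (if d ∣ t then mu d else 0) : ℤ) : ℂ) =
      ∑ d ∈ (dvs N).filter (fun d => (nm d : ℝ) ≤ L), (if d ∣ t then (mu d : ℂ) else 0) +
      ((∑ d ∈ (dvs N).filter (fun d => L < (nm d : ℝ)), (if d ∣ t then mu d else 0) : ℤ) : ℂ) := by
    intro t
    rw [← Finset.sum_filter_add_sum_filter_not (dvs N) (fun d => (nm d : ℝ) ≤ L)]
    push_cast
    congr 1
    refine Finset.sum_congr ?_ fun _ _ => rfl
    ext d
    rw [Finset.mem_filter, Finset.mem_filter, not_le]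
  rw [h0, Finset.sum_congr rfl fun t _ => by rw [h1 t, mul_add], Finset.sum_add_distrib]
  congr 1
  · -- small divisors
    have e1 : ∀ t ∈ primBall X, f t * ∑ d ∈ (dvs N).filter (fun d => (nm d : ℝ) ≤ L),
        (if d ∣ t then (mu d : ℂ) else 0) = ∑ d ∈ (dvs N).filter (fun d => (nm d : ℝ) ≤ L),
          (mu d : ℂ) * (if d ∣ t then f t else 0) := by
      intro t _
      rw [Finset.mul_sum]
      refine Finset.sum_congr rfl fun d _ => ?_
      split_ifs <;> ring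
    rw [Finset.sum_congr rfl e1, Finset.sum_comm]
    have e2 : ∀ d ∈ (dvs N).filter (fun d => (nm d : ℝ) ≤ L),
        ∑ t ∈ primBall X, (mu d : ℂ) * (if d ∣ t then f t else 0) =
          (mu d : ℂ) * ∑ m ∈ primBall X, f (d * m) := by
      intro d hd
      rw [← Finset.mul_sum, sum_dil hf ((mem_dvs hN).1 (Finset.mem_filter.1 hd).1).1]
    rw [Finset.sum_congr rfl e2, ← Finset.sum_filter]
    refine (Finset.sum_subset ?_ ?_).symm
    · intro d hd
      rw [Finset.mem_filter, mem_S hL] at hd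
      rw [Finset.mem_filter, mem_dvs hN]
      exact ⟨⟨hd.1.2.1, hd.2⟩, hd.1.1⟩
    · intro d hd hd'
      rw [Finset.mem_filter, mem_dvs hN] at hd
      rw [Finset.mem_filter, mem_S hL] at hd'
      have : ¬ Squarefree d := fun h => hd' ⟨⟨hd.2, hd.1.1, h⟩, hd.1.2⟩
      rw [mu_of_not_squarefree this]
      simp
  · -- large divisors
    symm
    rw [Finset.sum_filter]
    have e0 : ∀ l ∈ primBall X, (if L < (nm l : ℝ) then (if rl l ∣ N then (lamL L l : ℂ) *
        ∑ c ∈ primBall X, (if IsCoprime c N then f (l * c) else 0) else 0) else 0) =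
        ∑ c ∈ primBall X, (if Smd N l ∧ IsCoprime c N ∧ nm (l * c) ≤ X then
          f (l * c) * (lamL L l : ℂ) else 0) := by
      intro l hl
      have hlp := (mem_primBall.1 hl).2
      rw [rl_dvd_iff hlp.ne_zero]
      by_cases h : Smd N l
      · have e3 : ∀ c ∈ primBall X, (if Smd N l ∧ IsCoprime c N ∧ nm (l * c) ≤ X then
          f (l * c) * (lamL L l : ℂ) else 0) =
          (lamL L l : ℂ) * (if IsCoprime c N then f (l * c) else 0) := by
          intro c _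
          by_cases h2 : IsCoprime c N
          · by_cases h3 : nm (l * c) ≤ X
            · rw [if_pos ⟨h, h2, h3⟩, if_pos h2, mul_comm]
            · rw [if_neg fun h' => h3 h'.2.2, if_pos h2]
              have : f (l * c) = 0 := by
                by_contra h4
                exact h3 (hf _ h4)
              rw [this, mul_zero]
          · rw [if_neg fun h' => h2 h'.2.1, if_neg h2, mul_zero]
        rw [Finset.sum_congr rfl e3, ← Finset.mul_sum, if_pos h]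
        split_ifs with h5
        · rfl
        · rw [lamL_small hlp.ne_zero (not_lt.1 h5)]
          simp
      · rw [if_neg h]
        have : ∀ c ∈ primBall X, (if Smd N l ∧ IsCoprime c N ∧ nm (l * c) ≤ X then
          f (l * c) * (lamL L l : ℂ) else 0) = 0 := fun c _ => if_neg fun h' => h h'.1
        rw [Finset.sum_congr rfl this]
        simp
    rw [Finset.sum_congr rfl e0, ← Finset.sum_product', ← Finset.sum_filter]
    refine Finset.sum_bij (fun p _ => p.1 * p.2) ?_ ?_ ?_ ?_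
    · rintro ⟨l, c⟩ hp
      rw [Finset.mem_filter, Finset.mem_product, mem_primBall, mem_primBall] at hp
      rw [mem_primBall]
      exact ⟨hp.2.2.2, hp.1.1.2.mul hp.1.2.2⟩
    · rintro ⟨l, c⟩ hp ⟨l', c'⟩ hp' h
      rw [Finset.mem_filter, Finset.mem_product, mem_primBall, mem_primBall] at hp hp'
      obtain ⟨h1, h2⟩ := sm_unique hp.1.1.2 hp'.1.1.2 hp.2.1 hp'.2.1 hp.2.2.1 hp'.2.2.1 h
      simp only at h1 h2
      rw [h1, h2]
    · intro t ht
      rw [mem_primBall] at ht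
      obtain ⟨l, c, hl, hc, rfl, h2, h3⟩ := exists_sm N _ le_rfl ht.2
      refine ⟨(l, c), ?_, rfl⟩
      rw [Finset.mem_filter, Finset.mem_product, mem_primBall, mem_primBall]
      have h4 := ht.1
      refine ⟨⟨⟨le_trans ?_ h4, hl⟩, le_trans ?_ h4, hc⟩, h2, h3, h4⟩
      · rw [nm_mul]
        exact Nat.le_mul_of_pos_right _ (nm_pos.2 hc.ne_zero)
      · rw [nm_mul]
        exact Nat.le_mul_of_pos_left _ (nm_pos.2 hl.ne_zero)
    · rintro ⟨l, c⟩ hp
      rw [Finset.mem_filter, Finset.mem_product, mem_primBall, mem_primBall] at hp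
      simp only
      rw [sum_large hN hp.1.1.2 hp.2.1 hp.2.2.1]

/-! ### the families -/

open Classical in
/-- `α` restricted to `a ∣ n`, `(n, b) = 1` -/
def alr (α : Eis → ℂ) (a b : Eis) (n : Eis) : ℂ := if a ∣ n ∧ IsCoprime n b then α n else 0

open Classical in
/-- `om` restricted to `b ∣ δ` -/
def omb (om : Eis × Eis → ℂ) (b : Eis) (x : Eis × Eis) : ℂ := if b ∣ x.1 then om x else 0

/-- the coefficients at `e₀ e`, `nm (e₀ e) ≤ E0` -/
def Te (E0 : ℝ) (e₀ : Eis) (T : Eis × Eis → Eis → ℂ) (x : Eis × Eis) (e : Eis) : ℂ :=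
  if (nm (e₀ * e) : ℝ) ≤ E0 then T x (e₀ * e) else 0

open Classical in
/-- the `g`-term : all `g = a b`, all `e₀`, the complete sum over `m` -/
def NTs (U : ℝ → ℂ) (P : Eis → Prop) (K E0 : ℝ) (α : Eis → ℂ) (J : Finset (Eis × Eis))
    (om : Eis × Eis → ℂ) (T : Eis × Eis → Eis → ℂ) (g : Eis) : ℂ :=
  ∑ a ∈ dvs g, ∑ e₀ ∈ S E0, (mu e₀ : ℂ) * ∑' m : Eis, if IsPrim m then
    CrQ U (fun k => CbF k ∧ P k ∧ IsCoprime e₀ k) (K / (nm (g * e₀ * m) : ℝ) ^ 3)
      (alr α a (g / a * e₀)) (StT E0 J (omb om (g / a)) (Te E0 e₀ T)) else 0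

open Classical in
/-- the `l`-term : all `rl l = a b`, the complete family `K / nm l ^ 3` -/
def LTs (U : ℝ → ℂ) (P : Eis → Prop) (K E0 : ℝ) (α : Eis → ℂ) (J : Finset (Eis × Eis))
    (om : Eis × Eis → ℂ) (T : Eis × Eis → Eis → ℂ) (l : Eis) : ℂ :=
  ∑ a ∈ dvs (rl l), CrQ U P (K / (nm l : ℝ) ^ 3) (alr α a (rl l / a))
    (StT E0 J (omb om (rl l / a)) T)

/-- the predicate: the cube-free part has norm `≥ K₁` -/
def Qc (K₁ : ℝ) (k : Eis) : Prop := ∃ j c : Eis, IsPrim j ∧ IsPrim c ∧ CbF j ∧ k = j * c ^ 3 ∧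
  K₁ ≤ (nm j : ℝ)

lemma tok_Te {T : Eis × Eis → Eis → ℂ} (hT : TOK T) (E0 : ℝ) (e₀ : Eis) : TOK (Te E0 e₀ T) := by
  intro x e h
  unfold Te at h
  split_ifs at h with h1
  · obtain ⟨h2, h3, h4⟩ := hT x _ h
    exact ⟨h2, h3.of_mul_right_right, h4.of_mul_left_right⟩
  · exact absurd rfl h

lemma alr_ne {α : Eis → ℂ} {a b n : Eis} (h : alr α a b n ≠ 0) :
    α n ≠ 0 ∧ a ∣ n ∧ IsCoprime n b := by
  unfold alr at h
  split_ifs at h with h1
  · exact ⟨h, h1⟩
  · exact absurd rfl h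

lemma fs_alr {α : Eis → ℂ} (hα : FS α) (a b : Eis) : FS (alr α a b) :=
  ⟨hα.fin.subset fun n hn => (alr_ne hn).1, fun n hn => hα.prim n (alr_ne hn).1⟩

lemma norm_alr_le (α : Eis → ℂ) (a b n : Eis) : ‖alr α a b n‖ ≤ ‖α n‖ := by
  unfold alr
  split_ifs
  · exact le_rfl
  · rw [norm_zero]; exact norm_nonneg _

lemma norm_omb_le (om : Eis × Eis → ℂ) (b : Eis) (x : Eis × Eis) : ‖omb om b x‖ ≤ ‖om x‖ := by
  unfold omb
  split_ifs
  · exact le_rfl
  · rw [norm_zero]; exact norm_nonneg _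

/-- uniqueness of the cube-free part -/
lemma cf_uniq {j c j' c' : Eis} (hj : IsPrim j) (hc : IsPrim c) (hf : CbF j) (hj' : IsPrim j')
    (hc' : IsPrim c') (hf' : CbF j') (h : j * c ^ 3 = j' * c' ^ 3) : j = j' ∧ c = c' := by
  have h1 : c ∣ c' := dvd_of_cube_dvd hj' hc' hc hf' (h ▸ dvd_mul_left (c ^ 3) j)
  have h2 : c' ∣ c := dvd_of_cube_dvd hj hc hc' hf (h.symm ▸ dvd_mul_left (c' ^ 3) j')
  have h3 : c = c' := hc.eq_of_associated hc' (associated_of_dvd_dvd h1 h2)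
  subst h3
  exact ⟨mul_right_cancel₀ (pow_ne_zero 3 hc.ne_zero) h, rfl⟩

/-- `Qc` at `j c³` -/
lemma Qc_iff {K₁ : ℝ} {j c : Eis} (hj : IsPrim j) (hc : IsPrim c) (hf : CbF j) :
    Qc K₁ (c ^ 3 * j) ↔ K₁ ≤ (nm j : ℝ) := by
  constructor
  · rintro ⟨j', c', hj', hc', hf', h, h1⟩
    obtain ⟨rfl, -⟩ := cf_uniq hj hc hf hj' hc' hf' ((mul_comm j (c ^ 3)).trans h)
    exact h1
  · intro h
    exact ⟨j, c, hj, hc, hf, mul_comm _ _, h⟩

/-- `Qc` does not see cubes -/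
lemma Qc_cube {K₁ : ℝ} {k c : Eis} (hk : IsPrim k) (hc : IsPrim c) :
    Qc K₁ (c ^ 3 * k) ↔ Qc K₁ k := by
  obtain ⟨j, e, hj, he, hf, rfl⟩ := E5b54.exists_cf_prim hk
  rw [show c ^ 3 * (j * e ^ 3) = (c * e) ^ 3 * j by ring, Qc_iff hj (hc.mul he) hf,
    mul_comm j (e ^ 3), Qc_iff hj he hf]

/-- `Qc K₁` is contained in `Cut` -/
lemma Qc_cut {K₁ E1 : ℝ} {k : Eis} (hK : 0 < K₁) (h : Qc K₁ k) (hE : 0 ≤ E1)
    (h1 : (nm k : ℝ) ≤ K₁ * E1 ^ 3) : Cut E1 k := by
  obtain ⟨j, c, hj, hc, hf, rfl, h2⟩ := h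
  intro f hf' hfk
  have h3 : f ∣ c := dvd_of_cube_dvd hj hc hf' hf hfk
  have h4 : (nm f : ℝ) ≤ nm c := by exact_mod_cast Div277.nm_le_of_dvd hc.ne_zero h3
  have h5 : (nm c : ℝ) ^ 3 ≤ E1 ^ 3 := by
    rw [nm_mul, nm_pow] at h1
    push_cast at h1
    have h6 : K₁ * (nm c : ℝ) ^ 3 ≤ K₁ * E1 ^ 3 :=
      (mul_le_mul_of_nonneg_right h2 (by positivity)).trans h1
    exact le_of_mul_le_mul_left h6 hK
  have h7 : (nm c : ℝ) ≤ E1 := le_of_pow_le_pow_left₀ (by norm_num) hE h5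
  exact h4.trans h7

/-- the `k` outside `Qc` -/
lemma not_Qc_of_lt {K₁ : ℝ} {k : Eis} (hk : IsPrim k) (h : (nm k : ℝ) < K₁) : ¬ Qc K₁ k := by
  rintro ⟨j, c, hj, hc, hf, rfl, h2⟩
  have h3 : (nm j : ℝ) ≤ nm (j * c ^ 3) := by
    exact_mod_cast Div277.nm_le_of_dvd hk.ne_zero (dvd_mul_right _ _)
  linarith

end Crest.Agent.R017.CubP813
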