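import Crest.Agent.R017.E2ex_385
import Crest.Agent.R017.CubP_813

/-!
# Row 17, C.REMg, tail of (LB) : the tiny part (helper90), 813 #25720 (3)

* `ut U K b k` : `∑ m primary, U (nm k nm (b m)³ / K)`
* `swap` : the sum over `m` of the cross sums at the families `K / nm (b m)³`
* `norm_ut_le` : for the compensated weight `ut` is tiny
* `inner_le` : the cross sums, summed over `m`, on small `k`
-/

set_option autoImplicit false

noncomputable section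

open Complex
open scoped ComplexConjugate

namespace Crest.Agent.R017.CubT90

open Crest.Agent.R012 Crest.Agent.R012.Eis
open Crest.Agent.R012.Mob705 hiding pb mem_pb
open Crest.Agent.R012.Div277
open Crest.Agent.R012.LS2 (S mem_S)
open Crest.Agent.R017.X6C180 (GF)
open Crest.Agent.R017.X6545 (TF Bd)
open Crest.Agent.R017.CM106 (CS FS)
open Crest.Agent.R017.E2440 (Fh StT)
open Crest.Agent.R017.C70 (CbF)
open Crest.Agent.R017.CubP813 (alr omb Te NTs norm_alr_le norm_omb_le)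
open Crest.Agent.R017.Ex385 (CrQ bdd_Fh)
open Crest.Agent.R017.PrW502 (Cn3 prW er F1)

/-- the complete smooth sum over the cubes at `k` -/
def ut (U : ℝ → ℂ) (K : ℝ) (b k : Eis) : ℂ := by
  classical
  exact ∑' m : Eis, if IsPrim m then U ((nm k : ℝ) / (K / (nm (b * m) : ℝ) ^ 3)) else 0

lemma one_le_nmR {k : Eis} (h : k ≠ 0) : (1 : ℝ) ≤ nm k := by exact_mod_cast nm_pos.2 h

lemma swap_aux {B K : ℝ} {b m k : Eis} (hK : 0 < K) (hb : b ≠ 0) (hm : IsPrim m)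
    (hk : IsPrim k) (h1 : (nm k : ℝ) / (K / (nm (b * m) : ℝ) ^ 3) ≤ B) :
    (nm m : ℝ) ≤ B * K ∧ (nm k : ℝ) ≤ B * K := by
  have n1 := one_le_nmR hm.ne_zero
  have n2 := one_le_nmR hk.ne_zero
  have n3 := one_le_nmR hb
  have n4 : (nm m : ℝ) ≤ nm (b * m) := by
    rw [nm_mul]
    push_cast
    nlinarith
  have n5 : (nm (b * m) : ℝ) ≤ (nm (b * m) : ℝ) ^ 3 :=
    le_self_pow₀ (n1.trans n4) (by norm_num)
  have n6 : 1 ≤ (nm (b * m) : ℝ) ^ 3 := (n1.trans n4).trans n5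
  rw [div_div_eq_mul_div, div_le_iff₀ hK] at h1
  constructor
  · calc (nm m : ℝ) ≤ (nm (b * m) : ℝ) ^ 3 := n4.trans n5
      _ ≤ (nm k : ℝ) * (nm (b * m) : ℝ) ^ 3 := le_mul_of_one_le_left (by linarith) n2
      _ ≤ B * K := h1
  · exact (le_mul_of_one_le_right (by linarith) n6).trans h1

/-- the double sequence -/
def ff (U : ℝ → ℂ) (Q : Eis → Prop) (K : ℝ) (b : Eis) (α u : Eis → ℂ) (m k : Eis) : ℂ := by
  classical
  exact if IsPrim m ∧ (IsPrim k ∧ Q k) then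
    U ((nm k : ℝ) / (K / (nm (b * m) : ℝ) ^ 3)) * (CS α k * conj (u k)) else 0

lemma summable_ff {U : ℝ → ℂ} (hU : ∃ B : ℝ, ∀ x, U x ≠ 0 → x ≤ B) (Q : Eis → Prop) {K : ℝ}
    (hK : 0 < K) {b : Eis} (hb : b ≠ 0) (α u : Eis → ℂ) :
    Summable (Function.uncurry (ff U Q K b α u)) := by
  obtain ⟨B, hB⟩ := hU
  refine summable_of_hasFiniteSupport
    (((MC.finite_nm_le (B * K)).prod (MC.finite_nm_le (B * K))).subset fun p hp => ?_)
  rw [Function.mem_support, Function.uncurry] at hp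
  unfold ff at hp
  split_ifs at hp with h
  · have h1 := hB _ (left_ne_zero_of_mul hp)
    exact swap_aux hK hb h.1 h.2.1 h1
  · exact absurd rfl hp

open Classical in
/-- **the swap** -/
theorem swap {U : ℝ → ℂ} (hU : ∃ B : ℝ, ∀ x, U x ≠ 0 → x ≤ B) (Q : Eis → Prop) {K : ℝ}
    (hK : 0 < K) {b : Eis} (hb : b ≠ 0) (α u : Eis → ℂ) :
    (∑' m : Eis, if IsPrim m then CrQ U Q (K / (nm (b * m) : ℝ) ^ 3) α u else 0) =
      ∑' k : Eis, if IsPrim k ∧ Q k then ut U K b k * (CS α k * conj (u k)) else 0 := by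
  have hs := summable_ff hU Q hK hb α u
  have e1 : ∀ m : Eis, (if IsPrim m then CrQ U Q (K / (nm (b * m) : ℝ) ^ 3) α u else 0) =
      ∑' k : Eis, ff U Q K b α u m k := by
    intro m
    by_cases hm : IsPrim m
    · rw [if_pos hm]
      unfold CrQ
      refine tsum_congr fun k => ?_
      unfold ff
      by_cases hk : IsPrim k ∧ Q k
      · rw [if_pos hk, if_pos ⟨hm, hk⟩]
      · rw [if_neg hk, if_neg fun h => hk h.2]
    · rw [if_neg hm]
      unfold ff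
      simp [hm]
  have e2 : ∀ k : Eis, (if IsPrim k ∧ Q k then ut U K b k * (CS α k * conj (u k)) else 0) =
      ∑' m : Eis, ff U Q K b α u m k := by
    intro k
    by_cases hk : IsPrim k ∧ Q k
    · rw [if_pos hk]
      unfold ut
      rw [← tsum_mul_right]
      refine tsum_congr fun m => ?_
      unfold ff
      by_cases hm : IsPrim m
      · rw [if_pos hm, if_pos ⟨hm, hk⟩]
      · rw [if_neg hm, if_neg fun h => hm h.1, zero_mul]
    · rw [if_neg hk]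
      unfold ff
      simp [hk]
  rw [tsum_congr e1, tsum_congr e2]
  exact hs.tsum_comm.symm

/-- `ut` is 502's sum over the cubes -/
lemma ut_eq (F : ℝ → ℂ) (h : ℝ) {K : ℝ} (hK : 0 < K) {b k : Eis} (hb : b ≠ 0) (hk : k ≠ 0) :
    ut (GF (Fh F h)) K b k = Cn3 (F1 F h) 1 (K / ((nm k : ℝ) * (nm b : ℝ) ^ 3)) := by
  classical
  have n1 : (0 : ℝ) < nm k := zero_lt_one.trans_le (one_le_nmR hk)
  have n2 : (0 : ℝ) < nm b := zero_lt_one.trans_le (one_le_nmR hb)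
  unfold ut Cn3
  refine tsum_congr fun m => ?_
  by_cases hm : IsPrim m
  · have n3 : (0 : ℝ) < nm m := zero_lt_one.trans_le (one_le_nmR hm.ne_zero)
    rw [if_pos hm, if_pos ⟨hm, isCoprime_one_right⟩]
    have e : (nm k : ℝ) / (K / (nm (b * m) : ℝ) ^ 3) =
        (nm m : ℝ) ^ 3 / (K / ((nm k : ℝ) * (nm b : ℝ) ^ 3)) := by
      rw [nm_mul]
      push_cast
      field_simp
    have hpos : 0 < (nm m : ℝ) ^ 3 / (K / ((nm k : ℝ) * (nm b : ℝ) ^ 3)) := by positivity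
    unfold X6C180.GF
    rw [e, if_pos hpos]
    rfl
  · rw [if_neg hm, if_neg fun h => hm h.1]

lemma er_one (A : ℕ) {Y : ℝ} (hY : 0 < Y) : er A 1 Y ≤ (Y⁻¹) ^ A := by
  have h := PrW502.er_le_small A 1 hY hY (fun g hg _ => ?_)
  · have e : tau (1 : Eis) = 1 := by
      unfold tau
      rw [Finset.card_eq_one]
      refine ⟨1, ?_⟩
      ext d
      rw [mem_dvs one_ne_zero, Finset.mem_singleton]
      constructor
      · rintro ⟨h1, h2⟩
        exact Mob705.isPrim_eq_one_of_isUnit h1 (isUnit_of_dvd_one h2)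
      · rintro rfl
        exact ⟨isPrim_one, dvd_rfl⟩
    rw [e] at h
    simpa using h
  · rw [mem_pdiv one_ne_zero] at hg
    have := Mob705.isPrim_eq_one_of_isUnit hg.1 (isUnit_of_dvd_one hg.2)
    rw [this, nm_one]
    simp

/-- **the compensated sum over the cubes is tiny** -/
theorem norm_ut_le (A : ℕ) : ∃ (N : ℕ) (C : ℝ), 0 ≤ C ∧ ∀ (F : ℝ → ℂ) (S : ℝ), TF F → Bd F N S →
    ∀ (K W h : ℝ) (b k : Eis), 0 < K → 0 < W → 0 ≤ h → b ≠ 0 → k ≠ 0 →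
      Real.exp h * W * ((nm k : ℝ) * (nm b : ℝ) ^ 3) ≤ K →
      ‖ut (GF (Fh F h)) K b k‖ ≤ C * S * Real.exp (h / 3) * (W⁻¹) ^ A := by
  obtain ⟨N, C, hC, H⟩ := prW (3 * A)
  refine ⟨N, 2 * C, by positivity, fun F S hF hS K W h b k hK hW hh hb hk hX => ?_⟩
  have hS0 : 0 ≤ S := (norm_nonneg _).trans (hS 0 (Nat.zero_le _) 0)
  have n1 : (0 : ℝ) < nm k := zero_lt_one.trans_le (one_le_nmR hk)
  have n2 : (0 : ℝ) < nm b := zero_lt_one.trans_le (one_le_nmR hb)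
  set X := K / ((nm k : ℝ) * (nm b : ℝ) ^ 3) with hXdef
  have hX0 : 0 < X := by positivity
  have hE := Real.exp_pos h
  have h1 := H F S hF hS 1 X h one_ne_zero hX0
  have hEX : Real.exp h * W ≤ X := by
    rw [hXdef, le_div_iff₀ (by positivity)]
    exact hX
  have hE1 : 1 ≤ Real.exp h := Real.one_le_exp hh
  have hWX : W ≤ X * Real.exp (-h) := by
    rw [Real.exp_neg, ← div_eq_mul_inv, le_div_iff₀ hE]
    linarith
  have hWX' : W ≤ X := by nlinarith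
  have key : ∀ Y : ℝ, W ≤ Y → er (3 * A) 1 (Y ^ ((1 : ℝ) / 3)) ≤ (W⁻¹) ^ A := by
    intro Y hY
    have hY0 : 0 < Y := hW.trans_le hY
    refine (er_one _ (Real.rpow_pos_of_pos hY0 _)).trans ?_
    have e : ((Y ^ ((1 : ℝ) / 3))⁻¹) ^ (3 * A) = (Y⁻¹) ^ A := by
      rw [pow_mul, inv_pow]
      congr 2
      rw [← Real.rpow_natCast, ← Real.rpow_mul hY0.le]
      norm_num
    rw [e]
    have : Y⁻¹ ≤ W⁻¹ := inv_anti₀ hW hY
    exact pow_le_pow_left₀ (by positivity) this A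
  have k1 := key X hWX'
  have k2 := key _ hWX
  have hE3 : 1 ≤ Real.exp (h / 3) := Real.one_le_exp (by positivity)
  have hW0 : 0 ≤ (W⁻¹) ^ A := by positivity
  rw [ut_eq F h hK hb hk]
  calc ‖Cn3 (F1 F h) 1 X‖ ≤ _ := h1
    _ ≤ C * S * ((W⁻¹) ^ A + Real.exp (h / 3) * (W⁻¹) ^ A) := by gcongr
    _ ≤ C * S * (Real.exp (h / 3) * (W⁻¹) ^ A + Real.exp (h / 3) * (W⁻¹) ^ A) := by
        gcongr
        nlinarith
    _ = _ := by ring

open Classical in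
/-- a sum over small `k` -/
lemma tsum_small {Q : Eis → Prop} {Z : ℝ} (hZ : 0 ≤ Z) (hQ : ∀ k, IsPrim k → Q k → (nm k : ℝ) ≤ Z)
    {g : Eis → ℂ} {M : ℝ} (hM : ∀ k, IsPrim k → Q k → ‖g k‖ ≤ M) (hM0 : 0 ≤ M) :
    ‖∑' k : Eis, (if IsPrim k ∧ Q k then g k else 0)‖ ≤ 100 * Z * M := by
  have e : ∑' k : Eis, (if IsPrim k ∧ Q k then g k else 0) =
      ∑ k ∈ primBall ⌊Z⌋₊, if IsPrim k ∧ Q k then g k else 0 := by
    refine tsum_eq_sum fun k hk => if_neg fun h => hk ?_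
    rw [mem_primBall]
    exact ⟨Nat.le_floor (hQ k h.1 h.2), h.1⟩
  rw [e]
  refine (norm_sum_le _ _).trans ?_
  calc ∑ k ∈ primBall ⌊Z⌋₊, ‖if IsPrim k ∧ Q k then g k else 0‖ ≤ ∑ _k ∈ primBall ⌊Z⌋₊, M := by
        refine Finset.sum_le_sum fun k _ => ?_
        split_ifs with h
        · exact hM k h.1 h.2
        · rw [norm_zero]; exact hM0
    _ = ((primBall ⌊Z⌋₊).card : ℝ) * M := by rw [Finset.sum_const, nsmul_eq_mul]
    _ ≤ 100 * Z * M := by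
        refine mul_le_mul_of_nonneg_right ?_ hM0
        have h1 : ((primBall ⌊Z⌋₊).card : ℝ) ≤ 100 * ((⌊Z⌋₊ : ℕ) : ℝ) :=
          Lat277.card_primBall_le ⌊Z⌋₊
        have h2 := Nat.floor_le hZ
        linarith

open Classical in
/-- **the cross sums at the families `K / nm (b m)³`, summed over `m`, on small `k`** -/
theorem inner_le (A : ℕ) : ∃ (N : ℕ) (C : ℝ), 0 ≤ C ∧ ∀ (F : ℝ → ℂ) (S : ℝ), TF F → Bd F N S →
    ∀ (K W Z h Ma Mu : ℝ) (b : Eis) (Q : Eis → Prop) (α u : Eis → ℂ), 0 < K → 0 < W → 0 ≤ Z →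
      0 ≤ h → b ≠ 0 → Real.exp h * W * (Z * (nm b : ℝ) ^ 3) ≤ K →
      (∀ k, IsPrim k → Q k → (nm k : ℝ) ≤ Z) → (∀ k, IsPrim k → ‖CS α k‖ ≤ Ma) →
      (∀ k, IsPrim k → ‖u k‖ ≤ Mu) →
      ‖∑' m : Eis, (if IsPrim m then
        CrQ (GF (Fh F h)) Q (K / (nm (b * m) : ℝ) ^ 3) α u else 0)‖ ≤
        C * S * Real.exp (h / 3) * Z * (Ma * Mu) * (W⁻¹) ^ A := by
  obtain ⟨N, C, hC, H⟩ := norm_ut_le A
  refine ⟨N, 100 * C, by positivity,
    fun F S hF hS K W Z h Ma Mu b Q α u hK hW hZ hh hb hX hQ ha hu => ?_⟩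
  have hS0 : 0 ≤ S := (norm_nonneg _).trans (hS 0 (Nat.zero_le _) 0)
  have hMa : 0 ≤ Ma := (norm_nonneg _).trans (ha 1 isPrim_one)
  have hMu : 0 ≤ Mu := (norm_nonneg _).trans (hu 1 isPrim_one)
  have n2 : (0 : ℝ) < nm b := zero_lt_one.trans_le (one_le_nmR hb)
  rw [swap (bdd_Fh hF hh) Q hK hb α u]
  have hE := Real.exp_pos h
  have := tsum_small (Q := Q) (g := fun k => ut (GF (Fh F h)) K b k * (CS α k * conj (u k)))
    (M := C * S * Real.exp (h / 3) * (W⁻¹) ^ A * (Ma * Mu)) hZ hQ (fun k hk hq => ?_)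
    (by positivity)
  · refine this.trans (le_of_eq ?_)
    ring
  · have h1 := H F S hF hS K W h b k hK hW hh hb hk.ne_zero
      (le_trans (by gcongr; exact hQ k hk hq) hX)
    rw [norm_mul, norm_mul, RCLike.norm_conj]
    have h2 := ha k hk
    have h3 := hu k hk
    gcongr

lemma card_S {X : ℝ} (hX : 0 ≤ X) : ((S X).card : ℝ) ≤ 100 * X := by
  classical
  have h1 : (S X).card ≤ (primBall ⌊X⌋₊).card := Finset.card_le_card (Finset.filter_subset _ _)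
  have h2 : ((primBall ⌊X⌋₊).card : ℝ) ≤ 100 * ((⌊X⌋₊ : ℕ) : ℝ) := Lat277.card_primBall_le ⌊X⌋₊
  have h3 := Nat.floor_le hX
  have h1' : ((S X).card : ℝ) ≤ ((primBall ⌊X⌋₊).card : ℝ) := by exact_mod_cast h1
  linarith

lemma card_dvs {g : Eis} (hg : g ≠ 0) : ((dvs g).card : ℝ) ≤ 100 * nm g := by
  have h1 : (dvs g).card ≤ (primBall (nm g)).card := by
    refine Finset.card_le_card fun d hd => ?_
    rw [mem_dvs hg] at hd
    rw [mem_primBall]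
    exact ⟨Div277.nm_le_of_dvd hg hd.2, hd.1⟩
  have h1' : ((dvs g).card : ℝ) ≤ ((primBall (nm g)).card : ℝ) := by exact_mod_cast h1
  exact h1'.trans (Lat277.card_primBall_le _)

lemma nm_div_mul {g a : Eis} (hg : IsPrim g) (ha : a ∈ dvs g) : a * (g / a) = g := by
  obtain ⟨h1, c, rfl⟩ := (mem_dvs hg.ne_zero).1 ha
  rw [mul_div_cancel_left₀ _ h1.ne_zero]

/-! ### the pieces of `cub_split` -/

lemma norm_Te_le {E0 M : ℝ} {T : Eis × Eis → Eis → ℂ} {x : Eis × Eis} (hT : ∀ e, ‖T x e‖ ≤ M)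
    (e₀ e : Eis) : ‖Te E0 e₀ T x e‖ ≤ M := by
  unfold CubP813.Te
  split_ifs
  · exact hT _
  · rw [norm_zero]; exact (norm_nonneg _).trans (hT 1)

lemma norm_CS_le1 {α : Eis → ℂ} (hα : FS α) {β : Eis → ℂ} (hβ : ∀ n, ‖β n‖ ≤ ‖α n‖) (k : Eis) :
    ‖CS β k‖ ≤ ∑ n ∈ hα.fin.toFinset, ‖α n‖ := by
  unfold CM106.CS
  rw [tsum_eq_sum (s := hα.fin.toFinset)]
  · refine (norm_sum_le _ _).trans (Finset.sum_le_sum fun n hn => ?_)
    rw [Set.Finite.mem_toFinset] at hn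
    rw [norm_mul]
    calc ‖β n‖ * ‖sy k n‖ ≤ ‖α n‖ * 1 :=
          mul_le_mul (hβ n) (CM106.norm_sy_le' (hα.prim n hn)) (norm_nonneg _) (norm_nonneg _)
      _ = _ := mul_one _
  · intro n hn
    rw [Set.Finite.mem_toFinset, Function.notMem_support] at hn
    have : β n = 0 := by
      have h1 := hβ n
      rw [hn, norm_zero] at h1
      exact norm_le_zero_iff.1 h1
    rw [this, zero_mul]

lemma norm_StT_le {E0 : ℝ} (hE0 : 0 ≤ E0) {J : Finset (Eis × Eis)} (hJ : C70.OKJ J)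
    {om : Eis × Eis → ℂ} {T : Eis × Eis → Eis → ℂ} {Mo MT : ℝ} (hMo : ∀ x ∈ J, ‖om x‖ ≤ Mo)
    (hT : ∀ x ∈ J, ∀ e, ‖T x e‖ ≤ MT) (hMT : 0 ≤ MT) {k : Eis} (hk : k ≠ 0) :
    ‖StT E0 J om T k‖ ≤ (J.card : ℝ) * (Mo * (E2440.Bth * (100 * E0 * MT))) := by
  classical
  unfold E2440.StT
  refine (norm_sum_le _ _).trans ?_
  have hB := E2440.Bth_nonneg
  rw [← nsmul_eq_mul, ← Finset.sum_const]
  refine Finset.sum_le_sum fun x hx => ?_
  have hMo0 : 0 ≤ Mo := (norm_nonneg _).trans (hMo x hx)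
  have hx2 : x.2 ≠ 0 := by
    obtain ⟨c, hc, j', hj', -, e⟩ := hJ.jc x hx
    rw [e]
    refine mul_ne_zero ?_ hj'.ne_zero
    have h3 : (3 : Eis) ≠ 0 := by norm_num
    have hw : (w : Eis) ≠ 0 := isUnit_w.ne_zero
    rcases hc with rfl | rfl | rfl | rfl
    · exact one_ne_zero
    · exact h3
    · exact mul_ne_zero h3 hw
    · exact mul_ne_zero h3 (pow_ne_zero _ hw)
  have h1 : ‖sy k x.1‖ ≤ 1 := CM106.norm_sy_le' (hJ.prim x hx)
  have h2 : ‖conj (PX764.th (x.2 * k))‖ ≤ E2440.Bth := by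
    rw [RCLike.norm_conj]
    exact E2440.norm_th_le (mul_ne_zero hx2 hk)
  have h3 : ‖∑ e ∈ (S E0).filter (fun e => e ∣ k), (mu e : ℂ) * T x e‖ ≤ 100 * E0 * MT := by
    refine (norm_sum_le _ _).trans ?_
    calc ∑ e ∈ (S E0).filter (fun e => e ∣ k), ‖(mu e : ℂ) * T x e‖ ≤
          ∑ e ∈ (S E0).filter (fun e => e ∣ k), MT := by
          refine Finset.sum_le_sum fun e _ => ?_
          rw [norm_mul]
          have h4 : ‖(mu e : ℂ)‖ ≤ 1 := by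
            rw [Complex.norm_intCast]
            exact_mod_cast Mob705.abs_mu_le_one e
          calc ‖(mu e : ℂ)‖ * ‖T x e‖ ≤ 1 * MT :=
                mul_le_mul h4 (hT x hx e) (norm_nonneg _) (by norm_num)
            _ = MT := one_mul _
      _ = (((S E0).filter (fun e => e ∣ k)).card : ℝ) * MT := by
          rw [Finset.sum_const, nsmul_eq_mul]
      _ ≤ 100 * E0 * MT := by
          refine mul_le_mul_of_nonneg_right ?_ hMT
          refine le_trans ?_ (card_S hE0)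
          exact_mod_cast Finset.card_filter_le _ _
  rw [norm_mul, norm_mul, norm_mul]
  calc ‖om x‖ * (‖sy k x.1‖ * ‖conj (PX764.th (x.2 * k))‖ *
        ‖∑ e ∈ (S E0).filter (fun e => e ∣ k), (mu e : ℂ) * T x e‖) ≤
        Mo * (1 * E2440.Bth * (100 * E0 * MT)) := by
        have := hMo x hx
        gcongr
    _ = _ := by ring

/-- **one term** -/
theorem norm_NTs_le (A : ℕ) : ∃ (N : ℕ) (C : ℝ), 0 ≤ C ∧ ∀ (F : ℝ → ℂ) (S₀ : ℝ), TF F →
    Bd F N S₀ → ∀ (K W Z h E0 G M1 Mo MT : ℝ) (P : Eis → Prop) (α : Eis → ℂ)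
      (J : Finset (Eis × Eis)) (om : Eis × Eis → ℂ) (T : Eis × Eis → Eis → ℂ) (g : Eis)
      (hα : FS α), 0 < K → 0 < W → 0 ≤ Z → 0 ≤ h → 0 ≤ E0 → g ∈ S G → 0 ≤ G →
      Real.exp h * W * (Z * (G * E0) ^ 3) ≤ K →
      (∀ k, IsPrim k → CbF k → P k → (nm k : ℝ) ≤ Z) → ∑ n ∈ hα.fin.toFinset, ‖α n‖ ≤ M1 →
      C70.OKJ J → (∀ x ∈ J, ‖om x‖ ≤ Mo) → 0 ≤ Mo → (∀ x ∈ J, ∀ e, ‖T x e‖ ≤ MT) → 0 ≤ MT →
      ‖NTs (GF (Fh F h)) P K E0 α J om T g‖ ≤
        C * S₀ * Real.exp (h / 3) * Z * G * E0 ^ 2 * (M1 * ((J.card : ℝ) * Mo * MT)) *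
          (W⁻¹) ^ A := by
  obtain ⟨N, C, hC, H⟩ := inner_le A
  have hB := E2440.Bth_nonneg
  refine ⟨N, 100 * 100 * 100 * E2440.Bth * C, by positivity, ?_⟩
  intro F S₀ hF hS K W Z h E0 G M1 Mo MT P α J om T g hα hK hW hZ hh hE0 hg hG hX hP hM1 hJ
    hMo hMo0 hMT hMT0
  classical
  have hS0 : 0 ≤ S₀ := (norm_nonneg _).trans (hS 0 (Nat.zero_le _) 0)
  obtain ⟨g1, g2, -⟩ := (mem_S hG).1 hg
  have hM10 : 0 ≤ M1 := (Finset.sum_nonneg fun _ _ => norm_nonneg _).trans hM1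
  set D := C * S₀ * Real.exp (h / 3) * Z * (M1 * ((J.card : ℝ) * (Mo * (E2440.Bth *
    (100 * E0 * MT))))) * (W⁻¹) ^ A with hD
  have hD0 : 0 ≤ D := by positivity
  unfold NTs
  refine (norm_sum_le _ _).trans ?_
  have hin : ∀ a ∈ dvs g, ‖∑ e₀ ∈ S E0, (mu e₀ : ℂ) * ∑' m : Eis, (if IsPrim m then
      CrQ (GF (Fh F h)) (fun k => CbF k ∧ P k ∧ IsCoprime e₀ k) (K / (nm (g * e₀ * m) : ℝ) ^ 3)
      (alr α a (g / a * e₀)) (StT E0 J (omb om (g / a)) (Te E0 e₀ T)) else 0)‖ ≤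
      100 * E0 * D := by
    intro a ha
    refine (norm_sum_le _ _).trans ?_
    calc _ ≤ ∑ e₀ ∈ S E0, D := by
          refine Finset.sum_le_sum fun e₀ he₀ => ?_
          obtain ⟨e1, e2, -⟩ := (mem_S hE0).1 he₀
          rw [norm_mul]
          have h4 : ‖(mu e₀ : ℂ)‖ ≤ 1 := by
            rw [Complex.norm_intCast]
            exact_mod_cast Mob705.abs_mu_le_one e₀
          have n1 := one_le_nmR g2.ne_zero
          have n2 := one_le_nmR e2.ne_zero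
          have hb : (nm (g * e₀) : ℝ) ≤ G * E0 := by
            rw [nm_mul]
            push_cast
            gcongr
          have h5 := H F S₀ hF hS K W Z h M1 ((J.card : ℝ) * (Mo * (E2440.Bth *
            (100 * E0 * MT)))) (g * e₀) (fun k => CbF k ∧ P k ∧ IsCoprime e₀ k)
            (alr α a (g / a * e₀)) (StT E0 J (omb om (g / a)) (Te E0 e₀ T)) hK hW hZ hh
            (mul_ne_zero g2.ne_zero e2.ne_zero)
            (le_trans (by gcongr) hX) (fun k hk hq => hP k hk hq.1 hq.2.1)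
            (fun k _ => (norm_CS_le1 hα (norm_alr_le α _ _) k).trans hM1)
            (fun k hk => norm_StT_le hE0 hJ (fun x hx => (norm_omb_le om _ x).trans (hMo x hx))
              (fun x hx e => norm_Te_le (hMT x hx) _ _) hMT0 hk.ne_zero)
          calc _ ≤ 1 * _ := mul_le_mul h4 h5 (norm_nonneg _) (by norm_num)
            _ = D := by rw [one_mul]
      _ = ((S E0).card : ℝ) * D := by rw [Finset.sum_const, nsmul_eq_mul]
      _ ≤ 100 * E0 * D := mul_le_mul_of_nonneg_right (card_S hE0) hD0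
  calc _ ≤ ∑ _a ∈ dvs g, 100 * E0 * D := Finset.sum_le_sum hin
    _ = ((dvs g).card : ℝ) * (100 * E0 * D) := by rw [Finset.sum_const, nsmul_eq_mul]
    _ ≤ (100 * G) * (100 * E0 * D) := by
        refine mul_le_mul_of_nonneg_right ?_ (by positivity)
        exact (card_dvs g2.ne_zero).trans (by gcongr)
    _ = _ := by rw [hD]; ring

/-- **the tiny part** : for every `B`, `ε`, with all sizes `≤ M X^B` and the gap
`X^ε e^h Z (G E0)³ ≤ K` the Moebius sum over `g ≤ G` is `≤ C S₀ X^(-B)` -/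
theorem tiny (B ε M : ℝ) (hε : 0 < ε) (hM : 0 ≤ M) : ∃ (N : ℕ) (C : ℝ), 0 ≤ C ∧
    ∀ (F : ℝ → ℂ) (S₀ : ℝ), TF F → Bd F N S₀ → ∀ (X K Z h E0 G : ℝ) (P : Eis → Prop)
      (α : Eis → ℂ) (J : Finset (Eis × Eis)) (om : Eis × Eis → ℂ) (T : Eis × Eis → Eis → ℂ)
      (𝒢 : Finset Eis) (hα : FS α), 1 ≤ X → 0 < K → 0 ≤ Z → 0 ≤ h → 0 ≤ E0 → 0 ≤ G → 𝒢 ⊆ S G →
      Z ≤ M * X ^ B → Real.exp h ≤ M * X ^ B → E0 ≤ M * X ^ B → G ≤ M * X ^ B →
      X ^ ε * Real.exp h * Z * (G * E0) ^ 3 ≤ K →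
      (∀ k, IsPrim k → CbF k → P k → (nm k : ℝ) ≤ Z) →
      ∑ n ∈ hα.fin.toFinset, ‖α n‖ ≤ M * X ^ B → C70.OKJ J → (J.card : ℝ) ≤ M * X ^ B →
      (∀ x ∈ J, ‖om x‖ ≤ M * X ^ B) → (∀ x ∈ J, ∀ e, ‖T x e‖ ≤ M * X ^ B) →
      ‖∑ g ∈ 𝒢, (mu g : ℂ) * NTs (GF (Fh F h)) P K E0 α J om T g‖ ≤ C * S₀ * X ^ (-B) := by
  obtain ⟨A, hA⟩ := exists_nat_ge (12 * |B| / ε)
  obtain ⟨N, C, hC, H⟩ := norm_NTs_le A
  refine ⟨N, 100 * C * M ^ 10, by positivity, ?_⟩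
  intro F S₀ hF hS X K Z h E0 G P α J om T 𝒢 hα hX hK hZ hh hE0 hG h𝒢 hZB hhB hEB hGB hgap hP hM1
    hJ hJc hMo hMT
  classical
  have hS0 : 0 ≤ S₀ := (norm_nonneg _).trans (hS 0 (Nat.zero_le _) 0)
  have hX0 : 0 < X := by linarith
  have hXB : 0 < X ^ B := Real.rpow_pos_of_pos hX0 _
  have hXe : 0 < X ^ ε := Real.rpow_pos_of_pos hX0 _
  set R := M * X ^ B with hR
  have hR0 : 0 ≤ R := by positivity
  have hone : ∀ g ∈ 𝒢, ‖(mu g : ℂ) * NTs (GF (Fh F h)) P K E0 α J om T g‖ ≤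
      C * S₀ * R * R * R * R ^ 2 * (R * (R * R * R)) * ((X ^ ε)⁻¹) ^ A := by
    intro g hg
    have h1 := H F S₀ hF hS K (X ^ ε) Z h E0 G R R R P α J om T g hα hK hXe hZ
      hh hE0 (h𝒢 hg) hG (le_trans (le_of_eq (by ring)) hgap) hP hM1 hJ hMo hR0 hMT hR0
    have h4 : ‖(mu g : ℂ)‖ ≤ 1 := by
      rw [Complex.norm_intCast]
      exact_mod_cast Mob705.abs_mu_le_one g
    have h5 : Real.exp (h / 3) ≤ R := by
      refine le_trans ?_ hhB
      rw [Real.exp_le_exp]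
      linarith
    rw [norm_mul]
    calc ‖(mu g : ℂ)‖ * ‖NTs (GF (Fh F h)) P K E0 α J om T g‖ ≤ 1 * _ :=
          mul_le_mul h4 h1 (norm_nonneg _) (by norm_num)
      _ ≤ _ := by
          rw [one_mul]
          gcongr
  have hcard : (𝒢.card : ℝ) ≤ 100 * R := by
    have h1 : (𝒢.card : ℝ) ≤ ((S G).card : ℝ) := by exact_mod_cast Finset.card_le_card h𝒢
    exact h1.trans ((card_S hG).trans (by gcongr))
  calc _ ≤ ∑ g ∈ 𝒢, ‖(mu g : ℂ) * NTs (GF (Fh F h)) P K E0 α J om T g‖ := norm_sum_le _ _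
    _ ≤ ∑ _g ∈ 𝒢, C * S₀ * R * R * R * R ^ 2 * (R * (R * R * R)) * ((X ^ ε)⁻¹) ^ A :=
        Finset.sum_le_sum hone
    _ = (𝒢.card : ℝ) * (C * S₀ * R * R * R * R ^ 2 * (R * (R * R * R)) * ((X ^ ε)⁻¹) ^ A) := by
        rw [Finset.sum_const, nsmul_eq_mul]
    _ ≤ (100 * R) * (C * S₀ * R * R * R * R ^ 2 * (R * (R * R * R)) * ((X ^ ε)⁻¹) ^ A) := by gcongr
    _ = 100 * C * M ^ 10 * S₀ * ((X ^ B) ^ 10 * ((X ^ ε)⁻¹) ^ A) := by rw [hR]; ring
    _ ≤ 100 * C * M ^ 10 * S₀ * X ^ (-B) := by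
        refine mul_le_mul_of_nonneg_left ?_ (by positivity)
        have e1 : (X ^ B) ^ 10 = X ^ (10 * B) := by
          rw [← Real.rpow_natCast, ← Real.rpow_mul hX0.le]
          congr 1
          push_cast
          ring
        have e2 : ((X ^ ε)⁻¹) ^ A = X ^ (-(ε * A)) := by
          rw [← Real.rpow_neg hX0.le, ← Real.rpow_natCast, ← Real.rpow_mul hX0.le]
          congr 1
          ring
        rw [e1, e2, ← Real.rpow_add hX0]
        refine Real.rpow_le_rpow_of_exponent_le hX ?_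
        have h1 : 12 * |B| ≤ ε * A := by
          rw [div_le_iff₀ hε] at hA
          linarith
        have h2 := le_abs_self B
        have h3 := abs_nonneg B
        linarith

lemma norm_Gh_le {h a : Eis} (ha : IsPrim a) : ‖PX764.Gh h a‖ ≤ 1 := by
  by_cases hs : Squarefree a
  · by_cases hc : IsCoprime h a
    · exact (PX764.norm_Gh_one ha hs hc).le
    · rw [PX764.Gh_zero ha hc]; simp
  · rw [PX764.Gh_not_sqf ha hs]; simp

lemma norm_TE_le {α : Eis → ℂ} (hα : FS α) {x : Eis × Eis} (hx : IsPrim x.1) (e : Eis) :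
    ‖E2440.TE α x e‖ ≤ ∑ n ∈ hα.fin.toFinset, ‖α n‖ := by
  classical
  have hinj : Function.Injective fun m : Eis => x.1 * m := fun a b h =>
    mul_left_cancel₀ hx.ne_zero h
  set s := hα.fin.toFinset.preimage (fun m : Eis => x.1 * m) hinj.injOn with hs
  have e1 : E2440.TE α x e = ∑ m ∈ s, if e ∣ m ∧ IsCoprime x.2 (x.1 * m) then
      α (x.1 * m) * ((PX764.n6 m : ℂ) * PX764.Gh x.2 m) else 0 := by
    unfold E2440.TE
    refine tsum_eq_sum fun m hm => ?_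
    have h0 : α (x.1 * m) = 0 := by
      by_contra h
      exact hm (by rw [hs, Finset.mem_preimage, Set.Finite.mem_toFinset]; exact h)
    rw [h0, zero_mul, ite_self]
  rw [e1]
  refine (norm_sum_le _ _).trans ?_
  calc _ ≤ ∑ m ∈ s, ‖α (x.1 * m)‖ := by
        refine Finset.sum_le_sum fun m hm => ?_
        rw [hs, Finset.mem_preimage, Set.Finite.mem_toFinset] at hm
        have hmp : IsPrim m := (hα.prim _ hm).of_mul_left hx
        split_ifs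
        · rw [norm_mul, norm_mul]
          have h1 : ‖((PX764.n6 m : ℝ) : ℂ)‖ ≤ 1 := by
            rw [Complex.norm_real, Real.norm_of_nonneg (PX764.n6_pos hmp.ne_zero).le]
            exact PX764.n6_le_one hmp.ne_zero
          have h2 : ‖PX764.Gh x.2 m‖ ≤ 1 := norm_Gh_le hmp
          calc ‖α (x.1 * m)‖ * (‖((PX764.n6 m : ℝ) : ℂ)‖ * ‖PX764.Gh x.2 m‖) ≤
                ‖α (x.1 * m)‖ * (1 * 1) := by gcongr
            _ = _ := by ring
        · rw [norm_zero]; exact norm_nonneg _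
    _ = ∑ n ∈ s.image fun m => x.1 * m, ‖α n‖ :=
        (Finset.sum_image (f := fun n => ‖α n‖) (g := fun m : Eis => x.1 * m)
          (fun a _ b _ h => hinj h)).symm
    _ ≤ _ := by
        refine Finset.sum_le_sum_of_subset_of_nonneg ?_ fun _ _ _ => norm_nonneg _
        intro n hn
        obtain ⟨m, hm, rfl⟩ := Finset.mem_image.1 hn
        exact Finset.mem_preimage.1 hm

lemma card_JW {D Y₀ Y₁ : ℝ} (hD : 0 ≤ D) (hY : 0 ≤ Y₁) :
    ((C70.JW D Y₀ Y₁).card : ℝ) ≤ 100 * D * (100 * Y₁) := by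
  classical
  have h1 : (C70.JW D Y₀ Y₁).card ≤
      ((primBall ⌊D⌋₊) ×ˢ ((ball ⌊Y₁⌋₊).erase 0)).card := by
    refine Finset.card_le_card fun x hx => ?_
    have hp := (C70.okJ_JW D Y₀ Y₁).jc x hx
    unfold C70.JW at hx
    rw [Finset.mem_filter, Finset.mem_product] at hx
    rw [Finset.mem_product, Finset.mem_erase]
    refine ⟨hx.1.1, ?_, hx.1.2⟩
    obtain ⟨c, hc, j', hj', -, e⟩ := hp
    rw [e]
    refine mul_ne_zero ?_ hj'.ne_zero
    have h3 : (3 : Eis) ≠ 0 := by norm_num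
    have hw : (w : Eis) ≠ 0 := isUnit_w.ne_zero
    rcases hc with rfl | rfl | rfl | rfl
    · exact one_ne_zero
    · exact h3
    · exact mul_ne_zero h3 hw
    · exact mul_ne_zero h3 (pow_ne_zero _ hw)
  have h2 : ((primBall ⌊D⌋₊).card : ℝ) ≤ 100 * ((⌊D⌋₊ : ℕ) : ℝ) := Lat277.card_primBall_le ⌊D⌋₊
  have h3 : (((ball ⌊Y₁⌋₊).erase 0).card : ℝ) ≤ 100 * ((⌊Y₁⌋₊ : ℕ) : ℝ) :=
    Lat277.card_ball_erase_le ⌊Y₁⌋₊
  have h4 := Nat.floor_le hD
  have h5 := Nat.floor_le hY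
  have h1' : ((C70.JW D Y₀ Y₁).card : ℝ) ≤
      ((primBall ⌊D⌋₊).card : ℝ) * (((ball ⌊Y₁⌋₊).erase 0).card : ℝ) := by
    rw [Finset.card_product] at h1
    exact_mod_cast h1
  refine h1'.trans ?_
  have h6 : ((primBall ⌊D⌋₊).card : ℝ) ≤ 100 * D := by linarith
  have h7 : (((ball ⌊Y₁⌋₊).erase 0).card : ℝ) ≤ 100 * Y₁ := by linarith
  gcongr

lemma notQc_le {K₁ : ℝ} {k : Eis} (hk : IsPrim k) (hc : CbF k) (h : ¬ CubP813.Qc K₁ k) :
    (nm k : ℝ) ≤ K₁ := by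
  by_contra hlt
  exact h ⟨k, 1, hk, isPrim_one, hc, by rw [one_pow, mul_one], (not_le.1 hlt).le⟩

/-- **the tiny part in the frame of `tail_l`** : `α` on `S Y`, `J = JW D Y₀ Y₁`, `T = TE α` -/
theorem tiny_JW (B ε : ℝ) (hB : 0 ≤ B) (hε : 0 < ε) : ∃ (N : ℕ) (C : ℝ), 0 ≤ C ∧
    ∀ (F : ℝ → ℂ) (S₀ : ℝ), TF F → Bd F N S₀ → ∀ (X K Z h E0 G Y D Y₀ Y₁ : ℝ) (P : Eis → Prop)
      (α : Eis → ℂ) (om : Eis × Eis → ℂ) (𝒢 : Finset Eis), 1 ≤ X → 0 < K → 0 ≤ Z → 0 ≤ h →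
      0 ≤ E0 → 0 ≤ G → 0 ≤ Y → 0 ≤ D → 0 ≤ Y₁ → 𝒢 ⊆ S G → Z ≤ X ^ B → Real.exp h ≤ X ^ B →
      E0 ≤ X ^ B → G ≤ X ^ B → Y ≤ X ^ B → D ≤ X ^ B → Y₁ ≤ X ^ B →
      X ^ ε * Real.exp h * Z * (G * E0) ^ 3 ≤ K →
      (∀ k, IsPrim k → CbF k → P k → (nm k : ℝ) ≤ Z) →
      (∀ n, α n ≠ 0 → n ∈ S Y) → (∀ n, ‖α n‖ ≤ X ^ B) → (∀ x, ‖om x‖ ≤ 1) →
      ‖∑ g ∈ 𝒢, (mu g : ℂ) * NTs (GF (Fh F h)) P K E0 α (C70.JW D Y₀ Y₁) om (E2440.TE α) g‖ ≤
        C * S₀ * X ^ (-B) := by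
  obtain ⟨N, C, hC, H⟩ := tiny (2 * B) ε 10000 hε (by norm_num)
  refine ⟨N, C, hC, ?_⟩
  intro F S₀ hF hS X K Z h E0 G Y D Y₀ Y₁ P α om 𝒢 hX hK hZ hh hE0 hG hY hD hY1 h𝒢 hZB hhB hEB hGB
    hYB hDB hY1B hgap hP hsup hαB hom
  have hS0 : 0 ≤ S₀ := (norm_nonneg _).trans (hS 0 (Nat.zero_le _) 0)
  have hX0 : 0 < X := by linarith
  have hXB : 1 ≤ X ^ B := Real.one_le_rpow hX hB
  have hX2 : X ^ (2 * B) = X ^ B * X ^ B := by
    rw [two_mul, Real.rpow_add hX0]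
  have hα : FS α := by
    refine ⟨(S Y).finite_toSet.subset fun n hn => hsup n hn, fun n hn => ?_⟩
    exact ((mem_S hY).1 (hsup n hn)).2.1
  have w1 : ∀ x : ℝ, x ≤ X ^ B → x ≤ 10000 * X ^ (2 * B) := by
    intro x hx
    rw [hX2]
    nlinarith
  have hsum : ∑ n ∈ hα.fin.toFinset, ‖α n‖ ≤ 10000 * X ^ (2 * B) := by
    have hsub : hα.fin.toFinset ⊆ S Y := fun n hn => by
      rw [Set.Finite.mem_toFinset] at hn
      exact hsup n hn
    calc ∑ n ∈ hα.fin.toFinset, ‖α n‖ ≤ ∑ n ∈ S Y, ‖α n‖ :=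
          Finset.sum_le_sum_of_subset_of_nonneg hsub fun _ _ _ => norm_nonneg _
      _ ≤ ∑ _n ∈ S Y, X ^ B := Finset.sum_le_sum fun n _ => hαB n
      _ = ((S Y).card : ℝ) * X ^ B := by rw [Finset.sum_const, nsmul_eq_mul]
      _ ≤ (100 * X ^ B) * X ^ B := by
          refine mul_le_mul_of_nonneg_right ((card_S hY).trans (by gcongr)) (by positivity)
      _ ≤ _ := by
          rw [hX2]
          nlinarith [mul_nonneg (zero_le_one.trans hXB) (zero_le_one.trans hXB)]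
  have hJ := C70.okJ_JW D Y₀ Y₁
  have h1 := H F S₀ hF hS X K Z h E0 G P α (C70.JW D Y₀ Y₁) om (E2440.TE α) 𝒢 hα hX hK hZ hh hE0
    hG h𝒢 (w1 _ hZB) (w1 _ hhB) (w1 _ hEB) (w1 _ hGB) hgap hP hsum hJ
    (by
      refine (card_JW hD hY1).trans ?_
      rw [hX2]
      calc 100 * D * (100 * Y₁) ≤ 100 * X ^ B * (100 * X ^ B) := by gcongr
        _ = _ := by ring)
    (fun x _ => (hom x).trans (w1 1 hXB))
    (fun x hx e => (norm_TE_le hα (hJ.prim x hx) e).trans hsum)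
  refine h1.trans ?_
  refine mul_le_mul_of_nonneg_left ?_ (by positivity)
  exact Real.rpow_le_rpow_of_exponent_le hX (by linarith)

end Crest.Agent.R017.CubT90
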