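import Crest.Agent.R017.CubS_813

/-!
# Row 17, the tail of LB by the complete `c`-sum, part 4 (helper813)

* `CrQ_and`, `NTs_and` : splitting of the predicate
* `m_swap` : the complete `m`-sum inside
* `StT_Te` : the structured function with the coefficients `Te`
* `LTs_true` : the `l`-terms are complete families
-/

set_option autoImplicit false
set_option linter.unusedVariables false

noncomputable section

open Complex
open scoped ComplexConjugate

namespace Crest.Agent.R017.CubP813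

open Crest.Agent.R012 Crest.Agent.R012.Eis Crest.Agent.R012.Mob705
open Crest.Agent.R012.Div277 (tau dvs mem_dvs isPrim_of_mem_dvs dvs_zero one_le_tau)
open Crest.Agent.R012.LS2 (S mem_S)
open Crest.Agent.R017.CM106 Crest.Agent.R017.FE47 Crest.Agent.R017.End699
open Crest.Agent.R017.C70 (CbF OKJ JC)
open Crest.Agent.R017.E2440 (TE StE StT TOK tok_TE)
open Crest.Agent.R017.E5Q571 (Cut dvd_of_cube_dvd sqf_dvd_cube CS_cube)
open Crest.Agent.R017.Ex385 (CrQ)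
open Crest.Agent.R017.PX764 (th)
open Crest.Agent.R017.CubL813

section
variable {U : ℝ → ℂ} {b0 : ℝ} {P R : Eis → Prop} {K E0 L : ℝ} {X : ℕ} {α : Eis → ℂ}
  {J : Finset (Eis × Eis)} {om : Eis × Eis → ℂ} {T : Eis × Eis → Eis → ℂ}

open Classical in
lemma CrQ_and (hX : BX U K X) (α u : Eis → ℂ) :
    CrQ U P K α u = CrQ U (fun k => P k ∧ R k) K α u + CrQ U (fun k => P k ∧ ¬ R k) K α u := by
  rw [CrQ_fin hX, CrQ_fin hX, CrQ_fin hX, Finset.sum_filter, Finset.sum_filter, Finset.sum_filter,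
    ← Finset.sum_add_distrib]
  refine Finset.sum_congr rfl fun k _ => ?_
  by_cases h1 : P k
  · by_cases h2 : R k
    · rw [if_pos h1, if_pos ⟨h1, h2⟩, if_neg (fun h : P k ∧ ¬ R k => h.2 h2), add_zero]
    · rw [if_pos h1, if_neg (fun h : P k ∧ R k => h2 h.2), if_pos ⟨h1, h2⟩, zero_add]
  · rw [if_neg h1, if_neg (fun h : P k ∧ R k => h1 h.1), if_neg (fun h : P k ∧ ¬ R k => h1 h.1),
      add_zero]

lemma CrQ_true (h : ∀ k, IsPrim k → U ((nm k : ℝ) / K) ≠ 0 → P k) (α u : Eis → ℂ) :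
    CrQ U P K α u = CrQ U (fun _ => True) K α u := by
  classical
  unfold Ex385.CrQ
  refine tsum_congr fun k => ?_
  by_cases hk : IsPrim k
  · by_cases hP : P k
    · rw [if_pos ⟨hk, hP⟩, if_pos ⟨hk, trivial⟩]
    · rw [if_neg (fun h' => hP h'.2), if_pos ⟨hk, trivial⟩]
      have : U ((nm k : ℝ) / K) = 0 := by
        by_contra h0
        exact hP (h k hk h0)
      rw [this, zero_mul]
  · rw [if_neg (fun h' => hk h'.1), if_neg (fun h' => hk h'.1)]

lemma CrQ_congr' {Q Q' : Eis → Prop} (h : ∀ k, IsPrim k → (Q k ↔ Q' k)) (α u : Eis → ℂ) :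
    CrQ U Q K α u = CrQ U Q' K α u := Ex385.CrQ_congr h K α u

/-- splitting of the predicate in the `g`-term -/
theorem NTs_and (hU : ∀ t, U t ≠ 0 → t ≤ b0) (hK : 0 < K) (hE0 : 0 ≤ E0) (hX : b0 * K ≤ X)
    (R : Eis → Prop) (α : Eis → ℂ) (J : Finset (Eis × Eis)) (om : Eis × Eis → ℂ)
    (T : Eis × Eis → Eis → ℂ) {g : Eis} (hg : IsPrim g) :
    NTs U P K E0 α J om T g = NTs U (fun k => P k ∧ R k) K E0 α J om T g +
      NTs U (fun k => P k ∧ ¬ R k) K E0 α J om T g := by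
  classical
  have hX' : ∀ r : ℝ, 1 ≤ r → BX U (K / r) X := fun r hr => bx_of hU hK hX hr
  have hX1 : BX U K X := by
    have := hX' 1 le_rfl
    rwa [div_one] at this
  unfold NTs
  rw [← Finset.sum_add_distrib]
  refine Finset.sum_congr rfl fun a _ => ?_
  rw [← Finset.sum_add_distrib]
  refine Finset.sum_congr rfl fun e₀ he₀ => ?_
  have hep := ((mem_S hE0).1 he₀).2.1
  rw [tsum_m hX1 (hg.mul hep), tsum_m hX1 (hg.mul hep), tsum_m hX1 (hg.mul hep), ← mul_add,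
    ← Finset.sum_add_distrib]
  congr 1
  refine Finset.sum_congr rfl fun m hm => ?_
  rw [CrQ_and (R := R) (hX' _ (one_le_nm3 ((hg.mul hep).mul (mem_primBall.1 hm).2)))]
  congr 1
  · refine Ex385.CrQ_congr (fun k _ => ?_) _ _ _
    tauto
  · refine Ex385.CrQ_congr (fun k _ => ?_) _ _ _
    tauto

open Classical in
/-- **the complete `m`-sum inside** -/
theorem m_swap {Q : Eis → Prop} (hX : BX U K X) (α u : Eis → ℂ) {r : Eis} (hr : IsPrim r) :
    (∑' m : Eis, if IsPrim m then CrQ U Q (K / (nm (r * m) : ℝ) ^ 3) α u else 0) =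
      ∑ k ∈ (primBall X).filter Q, (∑' m : Eis, if IsPrim m then
        U ((nm ((r * m) ^ 3 * k) : ℝ) / K) else 0) * (CS α k * conj (u k)) := by
  rw [tsum_m hX hr]
  have hXm : ∀ t : Eis, IsPrim t → BX U (K / (nm t : ℝ) ^ 3) X := by
    intro t ht k hk h
    rw [← arg_dil] at h
    have h1 := hX (t ^ 3 * k) (mul_ne_zero (pow_ne_zero _ ht.ne_zero) hk) h
    refine le_trans ?_ h1
    rw [nm_mul, nm_pow]
    exact Nat.le_mul_of_pos_left _ (pow_pos (nm_pos.2 ht.ne_zero) 3)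
  have e1 : ∀ m ∈ primBall X, CrQ U Q (K / (nm (r * m) : ℝ) ^ 3) α u =
      ∑ k ∈ (primBall X).filter Q, U ((nm ((r * m) ^ 3 * k) : ℝ) / K) *
        (CS α k * conj (u k)) := by
    intro m hm
    rw [CrQ_fin (hXm _ (hr.mul (mem_primBall.1 hm).2))]
    exact Finset.sum_congr rfl fun k _ => by rw [arg_dil]
  rw [Finset.sum_congr rfl e1, Finset.sum_comm]
  refine Finset.sum_congr rfl fun k hk => ?_
  rw [Finset.mem_filter, mem_primBall] at hk
  rw [← Finset.sum_mul]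
  congr 1
  rw [tsum_eq_sum (s := primBall X)]
  · refine Finset.sum_congr rfl fun m hm => ?_
    rw [if_pos (mem_primBall.1 hm).2]
  · intro m hm
    split_ifs with h
    · by_contra h0
      apply hm
      rw [mem_primBall]
      refine ⟨?_, h⟩
      have h1 := hX ((r * m) ^ 3 * k) (mul_ne_zero (pow_ne_zero _ (hr.mul h).ne_zero)
        hk.1.2.ne_zero) h0
      refine le_trans ?_ h1
      rw [nm_mul, nm_pow, nm_mul]
      have h2 := nm_pos.2 hr.ne_zero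
      have h3 := nm_pos.2 hk.1.2.ne_zero
      calc nm m ≤ nm r * nm m := Nat.le_mul_of_pos_left _ h2
        _ ≤ (nm r * nm m) ^ 3 := Nat.le_self_pow (by norm_num) _
        _ ≤ (nm r * nm m) ^ 3 * nm k := Nat.le_mul_of_pos_right _ h3
    · rfl

/-- the `l`-terms are complete families -/
theorem LTs_true (hU : ∀ t, U t ≠ 0 → t ≤ b0) (hK : 0 < K) (hL : 0 < L) {K₁ : ℝ}
    (hK₁ : b0 * K / L ^ 3 ≤ K₁) {l : Eis} (hl : L < (nm l : ℝ)) (α : Eis → ℂ)
    (J : Finset (Eis × Eis)) (om : Eis × Eis → ℂ) (T : Eis × Eis → Eis → ℂ) :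
    LTs U (fun k => ¬ Qc K₁ k) K E0 α J om T l = LTs U (fun _ => True) K E0 α J om T l := by
  classical
  unfold LTs
  refine Finset.sum_congr rfl fun a _ => CrQ_true (fun k hk h => ?_) _ _
  refine not_Qc_of_lt hk (lt_of_lt_of_le ?_ hK₁)
  have h1 := hU _ h
  have hl0 : (0 : ℝ) < (nm l : ℝ) ^ 3 := pow_pos (hL.trans hl) 3
  have hk0 : (0 : ℝ) < nm k := by exact_mod_cast nm_pos.2 hk.ne_zero
  rw [div_le_iff₀ (by positivity), ← mul_div_assoc] at h1
  have hb : 0 < b0 * K := by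
    by_contra hb
    have : b0 * K / (nm l : ℝ) ^ 3 ≤ 0 := div_nonpos_of_nonpos_of_nonneg (not_lt.1 hb) hl0.le
    linarith
  refine h1.trans_lt (div_lt_div_of_pos_left hb (by positivity) ?_)
  exact pow_lt_pow_left₀ hl hL.le (by norm_num)

end

/-- `Qc` at cube-free `k` -/
lemma Qc_cf {K₁ : ℝ} {k : Eis} (hk : IsPrim k) (hf : CbF k) : Qc K₁ k ↔ K₁ ≤ (nm k : ℝ) := by
  have h := Qc_iff (K₁ := K₁) hk isPrim_one hf
  rwa [one_pow, one_mul] at h

section
variable {U : ℝ → ℂ} {b0 : ℝ} {K E0 L : ℝ} {X : ℕ} {α : Eis → ℂ}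
  {J : Finset (Eis × Eis)} {T : Eis × Eis → Eis → ℂ}

open Classical in
/-- **THE FOUR PARTS** : the sum over the `k` with cube-free part `< K₁` -/
theorem cub4 (hU : ∀ t, U t ≠ 0 → t ≤ b0) (hK : 0 < K) (hE0 : 0 ≤ E0) (hL : 0 < L)
    (hα : FS α) (hJ : OKJ J) (om : Eis × Eis → ℂ) (hT : TOK T) (hX : b0 * K ≤ X) {K₁ : ℝ}
    (hK₁ : b0 * K / L ^ 3 ≤ K₁) (L2 K₂ : ℝ) :
    CrQ U (fun k => ¬ Qc K₁ k) K α (StT E0 J om T) =
      ∑ g ∈ (S L).filter (fun g => (nm g : ℝ) ≤ L2), (mu g : ℂ) *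
        NTs U (fun k => ¬ Qc K₁ k) K E0 α J om T g +
      ∑ g ∈ (S L).filter (fun g => L2 < (nm g : ℝ)), (mu g : ℂ) *
        NTs U (fun k => ¬ Qc K₁ k ∧ (nm k : ℝ) < K₂) K E0 α J om T g +
      ∑ g ∈ (S L).filter (fun g => L2 < (nm g : ℝ)), (mu g : ℂ) *
        NTs U (fun k => ¬ Qc K₁ k ∧ ¬ (nm k : ℝ) < K₂) K E0 α J om T g +
      ∑ l ∈ (primBall X).filter (fun l => L < (nm l : ℝ)),
        (lamL L l : ℂ) * LTs U (fun _ => True) K E0 α J om T l := by
  have h1 := cub_split (U := U) (E0 := E0) (L := L) (α := α) (J := J) (T := T) hU hK hE0 hL.le hα hJ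
    om hT (P := fun k => ¬ Qc K₁ k) (fun k c hk hc => not_congr (Qc_cube hk hc)) hX
  have h2 : ∑ g ∈ S L, (mu g : ℂ) * NTs U (fun k => ¬ Qc K₁ k) K E0 α J om T g =
      ∑ g ∈ (S L).filter (fun g => (nm g : ℝ) ≤ L2), (mu g : ℂ) *
        NTs U (fun k => ¬ Qc K₁ k) K E0 α J om T g +
      ∑ g ∈ (S L).filter (fun g => L2 < (nm g : ℝ)), (mu g : ℂ) *
        NTs U (fun k => ¬ Qc K₁ k) K E0 α J om T g := by
    rw [← Finset.sum_filter_add_sum_filter_not (S L) (fun g => (nm g : ℝ) ≤ L2)]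
    have e0 : (S L).filter (fun g => ¬ (nm g : ℝ) ≤ L2) = (S L).filter (fun g => L2 < (nm g : ℝ)) :=
      Finset.filter_congr fun g _ => not_le
    rw [e0]
  have h3 : ∑ g ∈ (S L).filter (fun g => L2 < (nm g : ℝ)), (mu g : ℂ) *
        NTs U (fun k => ¬ Qc K₁ k) K E0 α J om T g =
      ∑ g ∈ (S L).filter (fun g => L2 < (nm g : ℝ)), (mu g : ℂ) *
        NTs U (fun k => ¬ Qc K₁ k ∧ (nm k : ℝ) < K₂) K E0 α J om T g +
      ∑ g ∈ (S L).filter (fun g => L2 < (nm g : ℝ)), (mu g : ℂ) *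
        NTs U (fun k => ¬ Qc K₁ k ∧ ¬ (nm k : ℝ) < K₂) K E0 α J om T g := by
    rw [← Finset.sum_add_distrib]
    refine Finset.sum_congr rfl fun g hg => ?_
    have hgp := ((mem_S hL.le).1 (Finset.mem_filter.1 hg).1).2.1
    rw [NTs_and (P := fun k => ¬ Qc K₁ k) hU hK hE0 hX (fun k => (nm k : ℝ) < K₂) α J om T hgp,
      mul_add]
  have h4 : ∑ l ∈ (primBall X).filter (fun l => L < (nm l : ℝ)),
        (lamL L l : ℂ) * LTs U (fun k => ¬ Qc K₁ k) K E0 α J om T l =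
      ∑ l ∈ (primBall X).filter (fun l => L < (nm l : ℝ)),
        (lamL L l : ℂ) * LTs U (fun _ => True) K E0 α J om T l := by
    refine Finset.sum_congr rfl fun l hl => ?_
    rw [LTs_true hU hK hL hK₁ (Finset.mem_filter.1 hl).2]
  rw [h1, h2, h3, h4, ← add_assoc]

end

/-! ### the coefficients `Te` -/

open Classical in
/-- Moebius inversion over the divisors of `e₀` -/
lemma mob_inv {e₀ : Eis} (he : IsPrim e₀) (h : Eis → ℂ) :
    ∑ d ∈ dvs e₀, (mu (e₀ / d) : ℂ) * ∑ e₁ ∈ dvs d, h e₁ = h e₀ := by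
  have hn := he.ne_zero
  have e1 : ∑ d ∈ dvs e₀, (mu (e₀ / d) : ℂ) * ∑ e₁ ∈ dvs d, h e₁ =
      ∑ e₁ ∈ dvs e₀, ∑ u ∈ dvs (e₀ / e₁), (mu u : ℂ) * h e₁ := by
    simp only [Finset.mul_sum]
    rw [Finset.sum_sigma', Finset.sum_sigma']
    refine Finset.sum_bij' (fun p _ => ⟨p.2, e₀ / p.1⟩) (fun p _ => ⟨e₀ / p.2, p.1⟩) ?_ ?_ ?_ ?_ ?_
    · rintro ⟨d, e₁⟩ hp
      rw [Finset.mem_sigma] at hp
      obtain ⟨hd, h2⟩ := hp
      simp only at hd h2
      obtain ⟨hdp, hde⟩ := (mem_dvs hn).1 hd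
      obtain ⟨h3, h4⟩ := (mem_dvs hdp.ne_zero).1 h2
      have h5 : e₁ ∈ dvs e₀ := (mem_dvs hn).2 ⟨h3, h4.trans hde⟩
      have h6 := mul_div_mem h5
      have h7 := mul_div_mem hd
      have h8 : IsPrim (e₀ / e₁) := prim_div he h5
      rw [Finset.mem_sigma]
      refine ⟨h5, (mem_dvs h8.ne_zero).2 ⟨prim_div he hd, ?_⟩⟩
      obtain ⟨c, rfl⟩ := h4
      refine ⟨c, mul_left_cancel₀ h3.ne_zero ?_⟩
      simp only at h6 h7 ⊢
      rw [h6]
      calc e₀ = e₁ * c * (e₀ / (e₁ * c)) := h7.symm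
        _ = _ := by ring
    · rintro ⟨e₁, u⟩ hp
      rw [Finset.mem_sigma] at hp
      obtain ⟨h1, h2⟩ := hp
      simp only at h1 h2
      have h8 : IsPrim (e₀ / e₁) := prim_div he h1
      obtain ⟨h3, h4⟩ := (mem_dvs h8.ne_zero).1 h2
      have h6 := mul_div_mem h1
      obtain ⟨h9, h10⟩ := (mem_dvs hn).1 h1
      have hu : u ∈ dvs e₀ := (mem_dvs hn).2 ⟨h3, by rw [← h6]; exact h4.mul_left e₁⟩
      have h7 := mul_div_mem hu
      rw [Finset.mem_sigma]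
      have hup : IsPrim (e₀ / u) := prim_div he hu
      refine ⟨(mem_dvs hn).2 ⟨hup, ⟨u, by rw [mul_comm]; exact h7.symm⟩⟩,
        (mem_dvs hup.ne_zero).2 ⟨h9, ?_⟩⟩
      obtain ⟨c, hc⟩ := h4
      refine ⟨c, mul_left_cancel₀ h3.ne_zero ?_⟩
      simp only
      rw [h7]
      calc e₀ = e₁ * (e₀ / e₁) := h6.symm
        _ = e₁ * (u * c) := by rw [← hc]
        _ = _ := by ring
    · rintro ⟨d, e₁⟩ hp
      rw [Finset.mem_sigma] at hp
      have h7 := mul_div_mem hp.1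
      simp only at h7 ⊢
      have h8 : e₀ / (e₀ / d) = d := by
        have h9 : IsPrim (e₀ / d) := prim_div he hp.1
        apply mul_left_cancel₀ h9.ne_zero
        have h10 : (e₀ / d) ∈ dvs e₀ := (mem_dvs hn).2 ⟨h9, ⟨d, by rw [mul_comm]; exact h7.symm⟩⟩
        rw [mul_div_mem h10, mul_comm]
        exact h7.symm
      rw [h8]
    · rintro ⟨e₁, u⟩ hp
      rw [Finset.mem_sigma] at hp
      obtain ⟨h1, h2⟩ := hp
      simp only at h1 h2 ⊢
      have h8 : IsPrim (e₀ / e₁) := prim_div he h1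
      obtain ⟨h3, h4⟩ := (mem_dvs h8.ne_zero).1 h2
      have h6 := mul_div_mem h1
      have hu : u ∈ dvs e₀ := (mem_dvs hn).2 ⟨h3, by rw [← h6]; exact h4.mul_left e₁⟩
      have h7 := mul_div_mem hu
      have h9 : IsPrim (e₀ / u) := prim_div he hu
      have h11 : e₀ / (e₀ / u) = u := by
        apply mul_left_cancel₀ h9.ne_zero
        have h10 : (e₀ / u) ∈ dvs e₀ := (mem_dvs hn).2 ⟨h9, ⟨u, by rw [mul_comm]; exact h7.symm⟩⟩
        rw [mul_div_mem h10, mul_comm]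
        exact h7.symm
      rw [h11]
    · rintro ⟨d, e₁⟩ _
      rfl
  rw [e1]
  have e2 : ∀ e₁ ∈ dvs e₀, ∑ u ∈ dvs (e₀ / e₁), (mu u : ℂ) * h e₁ =
      if e₁ = e₀ then h e₀ else 0 := by
    intro e₁ h1
    have h8 : IsPrim (e₀ / e₁) := prim_div he h1
    have h6 := mul_div_mem h1
    have h9 : ((∑ u ∈ dvs (e₀ / e₁), mu u : ℤ) : ℂ) = if e₀ / e₁ = 1 then 1 else 0 := by
      have := sum_dvs_muE_one h8
      have h10 : ∑ u ∈ dvs (e₀ / e₁), mu u = if e₀ / e₁ = 1 then 1 else 0 := this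
      rw [h10]
      split_ifs <;> simp
    rw [← Finset.sum_mul]
    push_cast at h9
    rw [h9]
    by_cases h10 : e₁ = e₀
    · subst h10
      rw [if_pos (EuclideanDomain.div_self hn), if_pos rfl, one_mul]
    · rw [if_neg, if_neg h10, zero_mul]
      intro h11
      rw [h11, mul_one] at h6
      exact h10 h6
  rw [Finset.sum_congr rfl e2, Finset.sum_ite_eq', if_pos]
  exact (mem_dvs hn).2 ⟨he, dvd_rfl⟩

open Classical in
/-- the `e`-sum at `d k`, `(d, k) = 1` -/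
lemma sum_dk {E0 : ℝ} (hE0 : 0 ≤ E0) {d k : Eis} (hd : IsPrim d) (hds : Squarefree d)
    (hk : IsPrim k) (hc : IsCoprime d k) (F : Eis → ℂ) :
    ∑ t ∈ (S E0).filter (fun t => t ∣ d * k), (mu t : ℂ) * F t =
      ∑ e₁ ∈ dvs d, (mu e₁ : ℂ) * ∑ e ∈ (S E0).filter (fun e => e ∣ k),
        (mu e : ℂ) * (if (nm (e₁ * e) : ℝ) ≤ E0 then F (e₁ * e) else 0) := by
  rw [sum_dvd_mul hE0 hd k F]
  have e1 : ∀ e ∈ (S E0).filter (fun e => e ∣ k), (mu e : ℂ) * (prin0 d e *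
      ∑ e₀ ∈ (dvs d).filter (fun e₀ => (nm (e₀ * e) : ℝ) ≤ E0), (mu e₀ : ℂ) * F (e₀ * e)) =
      ∑ e₁ ∈ dvs d, (mu e₁ : ℂ) * ((mu e : ℂ) *
        (if (nm (e₁ * e) : ℝ) ≤ E0 then F (e₁ * e) else 0)) := by
    intro e he
    have hek := (Finset.mem_filter.1 he).2
    have h1 : IsCoprime e d := (hc.of_isCoprime_of_dvd_right hek).symm
    unfold prin0
    rw [if_pos h1, one_mul, Finset.sum_filter, Finset.mul_sum]
    refine Finset.sum_congr rfl fun e₁ _ => ?_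
    split_ifs <;> ring
  rw [Finset.sum_congr rfl e1, Finset.sum_comm]
  refine Finset.sum_congr rfl fun e₁ _ => ?_
  rw [← Finset.mul_sum]

open Classical in
/-- `om` restricted to `(δ, e₀) = 1` -/
def omc (om : Eis × Eis → ℂ) (e₀ : Eis) (x : Eis × Eis) : ℂ := if IsCoprime x.1 e₀ then om x else 0

lemma norm_omc_le (om : Eis × Eis → ℂ) (b : Eis) (x : Eis × Eis) : ‖omc om b x‖ ≤ ‖om x‖ := by
  unfold omc
  split_ifs
  · exact le_rfl
  · rw [norm_zero]; exact norm_nonneg _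

open Classical in
/-- **the structured function with the coefficients `Te`** -/
theorem StT_Te {E0 : ℝ} (hE0 : 0 ≤ E0) {J : Finset (Eis × Eis)} (hJ : OKJ J)
    (om : Eis × Eis → ℂ) {T : Eis × Eis → Eis → ℂ} (hT : TOK T) {e₀ k : Eis} (he : IsPrim e₀)
    (hes : Squarefree e₀) (hk : IsPrim k) (hc : IsCoprime e₀ k) :
    (mu e₀ : ℂ) * StT E0 J om (Te E0 e₀ T) k =
      ∑ d ∈ dvs e₀, (mu (e₀ / d) : ℂ) * StT E0 J (omc om e₀) T (d ^ 3 * k) := by
  unfold E2440.StT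
  have e1 : ∀ d ∈ dvs e₀, (mu (e₀ / d) : ℂ) * ∑ x ∈ J, omc om e₀ x *
      (sy (d ^ 3 * k) x.1 * conj (th (x.2 * (d ^ 3 * k))) *
        ∑ e ∈ (S E0).filter (fun e => e ∣ d ^ 3 * k), (mu e : ℂ) * T x e) =
      ∑ x ∈ J, omc om e₀ x * (sy k x.1 * conj (th (x.2 * k))) * ((mu (e₀ / d) : ℂ) *
        ∑ e₁ ∈ dvs d, (mu e₁ : ℂ) * ∑ e ∈ (S E0).filter (fun e => e ∣ k),
          (mu e : ℂ) * Te E0 e₁ T x e) := by
    intro d hd
    obtain ⟨hdp, hde⟩ := (mem_dvs he.ne_zero).1 hd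
    have hds : Squarefree d := hes.squarefree_of_dvd hde
    have hdk : IsCoprime d k := hc.of_isCoprime_of_dvd_left hde
    rw [Finset.mul_sum]
    refine Finset.sum_congr rfl fun x hx => ?_
    have hxp := hJ.prim x hx
    have h2 : (S E0).filter (fun t => t ∣ d ^ 3 * k) = (S E0).filter (fun t => t ∣ d * k) := by
      refine Finset.filter_congr fun t ht => ?_
      have hs : Squarefree t := by
        unfold LS2.S at ht
        exact (Finset.mem_filter.1 ht).2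
      exact sqf_dvd_cube hs
    have h3 : ∑ e ∈ (S E0).filter (fun e => e ∣ d ^ 3 * k), (mu e : ℂ) * T x e =
        ∑ e₁ ∈ dvs d, (mu e₁ : ℂ) * ∑ e ∈ (S E0).filter (fun e => e ∣ k),
          (mu e : ℂ) * Te E0 e₁ T x e := by
      rw [h2, sum_dk hE0 hdp hds hk hdk (fun t => T x t)]
      rfl
    rw [h3]
    unfold omc
    by_cases h4 : IsCoprime x.1 e₀
    · rw [if_pos h4, mul_comm (d ^ 3) k, Lbc298.sy_mul_cube' hxp, ← mul_assoc x.2 k,
        PX764.th_cube_all hdp.ne_zero]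
      unfold prin0
      rw [if_pos (h4.of_isCoprime_of_dvd_right hde)]
      ring
    · rw [if_neg h4]
      ring
  rw [Finset.sum_congr rfl e1, Finset.sum_comm, Finset.mul_sum]
  refine Finset.sum_congr rfl fun x hx => ?_
  rw [← Finset.mul_sum, mob_inv he (fun e₁ => (mu e₁ : ℂ) *
    ∑ e ∈ (S E0).filter (fun e => e ∣ k), (mu e : ℂ) * Te E0 e₁ T x e)]
  by_cases h4 : IsCoprime x.1 e₀
  · unfold omc
    rw [if_pos h4]
    ring
  · have h5 : ∀ e, Te E0 e₀ T x e = 0 := by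
      intro e
      by_contra h
      unfold Te at h
      split_ifs at h with h6
      · exact h4 ((hT x _ h).2.2.of_mul_left_left).symm
      · exact h rfl
    simp only [h5]
    simp

end Crest.Agent.R017.CubP813
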