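import Crest.Agent.R017.EtA_404
import Crest.Agent.R017.CubU_813
import Crest.Agent.R017.CubT_90

/-!
# Row 17, the tail of (LB) by the complete `c`-sum (helper813): the et-hypothesis of LBW / LBWs

* `et_le` : the cross sums over the `k` with cube-free part `< K₁`, compensated pieces
-/

set_option autoImplicit false
set_option linter.unusedVariables false

noncomputable section

open Complex MeasureTheory
open scoped ComplexConjugate Classical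

namespace Crest.Agent.R017.Et813

open Crest.Agent.R012 Crest.Agent.R012.Eis Crest.Agent.R012.MC
open Crest.Agent.R012.LS2 (S mem_S)
open Crest.Agent.R012.Mob705 (mu)
open Crest.Agent.R012.Div277 (tau dvs mem_dvs)
open Crest.Agent.R017.X6C180 (n13 cM GF)
open Crest.Agent.R017.X6545 (TF)
open Crest.Agent.R017.X6W180 (tf1_tf)
open Crest.Agent.R017.CM106 (CS FS)
open Crest.Agent.R017.E1551 (Adm nmpos)
open Crest.Agent.R017.C70 (JW OKJ okJ_JW)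
open Crest.Agent.R017.E2440 (TE StE StT TOK tok_TE StT_TE cM_nn Fh mellin_Fh)
open Crest.Agent.R017.Ex385 (CrQ)
open Crest.Agent.R017.WDec180 (WD sc sc_pos)
open Crest.Agent.R017.LBx48 (EHs EHf REb EHc_nonneg)
open Crest.Agent.R017.CubP813 (LTs NTs lamL rl Qc cub4)
open Crest.Agent.R017.Et404 (RLn GFh_supp sc_le l_part)
open Crest.Agent.R017.CubT90 (tiny_JW notQc_le)

/-- the near-top number -/
def NTn (N : ℕ) (F : ℕ → ℝ → ℂ) (h M K E0 L L2 K₁ K₂ : ℝ) (α : Eis → ℂ)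
    (J : Finset (Eis × Eis)) (om : Eis × Eis → ℂ) : ℝ :=
  ∑ i ∈ Finset.range N, ‖∑ g ∈ (S L).filter (fun g => L2 < (nm g : ℝ)), (mu g : ℂ) *
    NTs (GF (Fh (F i) h)) (fun k => ¬ Qc K₁ k ∧ ¬ (nm k : ℝ) < K₂) (sc K M i) E0 α J om (TE α) g‖

set_option maxHeartbeats 1000000 in
/-- **the et-hypothesis** : TINY + NT + `l`-terms -/
theorem et_le {w : ℝ → ℝ} {N : ℕ} {M : ℝ} {F : ℕ → ℝ → ℂ} (hD : WD w N M F) {R : ℝ}
    (hR : 0 ≤ R) {A : ℕ} (hA : 2 ≤ A) {ε e₁ B : ℝ} (hε : 0 < ε) (he₁ : 0 < e₁) (hB : 1 ≤ B) :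
    ∃ C : ℝ, 0 ≤ C ∧
    ∀ (P K Xx Y D Y₀ Z E0 L L2 K₁ K₂ θ h : ℝ) (I X : ℕ), 1 ≤ P → (X : ℝ) ≤ P →
    Real.exp (2 + N) * K ≤ X → 0 < K → 0 < Xx → 1 ≤ Y → Y ≤ P → 0 ≤ D → D ≤ P → 0 < Z → Z ≤ P →
    Z < 2 ^ I → 0 ≤ E0 → E0 ≤ Y → 0 < L → L ≤ P → 0 ≤ L2 → L2 ≤ P → 0 ≤ K₁ → K₁ ≤ P →
    0 ≤ K₂ → K₂ ≤ P → 0 < θ → 0 ≤ h → Real.exp h ≤ P →
    Real.exp (2 + N) * K ≤ K₁ * L ^ 3 →
    P ^ e₁ * Real.exp h * K₁ * (L2 * E0) ^ 3 ≤ K * Real.exp (-M) →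
    P ^ e₁ * Real.exp h * K₂ * (L * E0) ^ 3 ≤ K * Real.exp (-M) →
    ∀ α : Eis → ℂ, Adm Y Xx R α → (∀ n, ‖α n‖ ≤ P ^ B) → ∀ om : Eis × Eis → ℂ,
    (∀ x, ‖om x‖ ≤ 1) →
    ∑ i ∈ Finset.range N, ‖CrQ (GF (Fh (F i) h)) (fun k => ¬ Qc K₁ k) (sc K M i) α
        (StE E0 (JW D Y₀ Z) om α)‖ ≤
      C * P ^ ε * ((K / Xx) * (θ * EHs A K Xx Y Z E0 α + (θ * L)⁻¹ * EHf A K Xx Y Z α) +
        θ⁻¹ * RLn N F h M K L X α D I E0 Z) + C * P ^ (-B) +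
        NTn N F h M K E0 L L2 K₁ K₂ α (JW D Y₀ Z) om := by
  have hB0 : 0 ≤ B := by linarith
  obtain ⟨Nd, C₁, hC₁, H₁⟩ := tiny_JW B e₁ hB0 he₁
  obtain ⟨C₂, hC₂, H₂⟩ := l_part hD hR hA hε
  obtain ⟨S₀, hS0, hBd⟩ := hD.bd Nd
  refine ⟨C₂ + N * (2 * (C₁ * S₀)), by positivity, ?_⟩
  intro P K Xx Y D Y₀ Z E0 L L2 K₁ K₂ θ h I X hP hXP hKX hK hXx hY hYP hD0 hDP hZ hZP hI hE0 hEY
    hL hLP hL2 hL2P hK₁ hK₁P hK₂ hK₂P hθ hh hhP g0 g1 g2 α hα hαB om hom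
  have hY0 : 0 ≤ Y := by linarith
  have hP0 : 0 < P := by linarith
  have hPB : P ≤ P ^ B := by
    calc P = P ^ (1 : ℝ) := (Real.rpow_one P).symm
      _ ≤ P ^ B := Real.rpow_le_rpow_of_exponent_le hP hB
  have hs : ∀ n, α n ≠ 0 → Squarefree n := fun n hn => ((mem_S hY0).1 (hα.sup n hn)).2.2
  have hFS : FS α := by
    refine ⟨(S Y).finite_toSet.subset fun n hn => hα.sup n hn, fun n hn => ?_⟩
    exact ((mem_S hY0).1 (hα.sup n hn)).2.1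
  have hJ := okJ_JW D Y₀ Z
  set T₀ := C₁ * S₀ * P ^ (-B) with hT₀
  have hT₀0 : 0 ≤ T₀ := by positivity
  have hone : ∀ i ∈ Finset.range N, ‖CrQ (GF (Fh (F i) h)) (fun k => ¬ Qc K₁ k) (sc K M i) α
        (StE E0 (JW D Y₀ Z) om α)‖ ≤ 2 * T₀ +
      ‖∑ g ∈ (S L).filter (fun g => L2 < (nm g : ℝ)), (mu g : ℂ) *
        NTs (GF (Fh (F i) h)) (fun k => ¬ Qc K₁ k ∧ ¬ (nm k : ℝ) < K₂) (sc K M i) E0 α
          (JW D Y₀ Z) om (TE α) g‖ +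
      ‖∑ l ∈ (primBall X).filter (fun l => L < (nm l : ℝ)),
        (lamL L l : ℂ) * LTs (GF (Fh (F i) h)) (fun _ => True) (sc K M i) E0 α (JW D Y₀ Z) om
          (TE α) l‖ := by
    intro i hi
    have hFi := tf1_tf (hD.tf i)
    have hsc := sc_pos hK M i
    have hbd := hBd i (Finset.mem_range.1 hi)
    have hsle : sc K M i ≤ Real.exp N * K := sc_le hK hD.M0 hi
    have hsge : K * Real.exp (-M) ≤ sc K M i := by
      unfold WDec180.sc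
      have : Real.exp (-M) ≤ Real.exp (i - M) := Real.exp_le_exp.mpr (by
        have : (0 : ℝ) ≤ i := Nat.cast_nonneg i
        linarith)
      gcongr
    have hb : Real.exp 2 * sc K M i ≤ Real.exp (2 + N) * K := by
      rw [Real.exp_add, mul_assoc]
      gcongr
    have h4 := cub4 (U := GF (Fh (F i) h)) (b0 := Real.exp 2) (K := sc K M i) (E0 := E0) (L := L)
      (X := X) (α := α) (J := JW D Y₀ Z) (T := TE α) (GFh_supp hFi hh) hsc hE0 hL hFS hJ om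
      (tok_TE hs) (hb.trans hKX) (K₁ := K₁)
      (by rw [div_le_iff₀ (by positivity)]; exact hb.trans g0) L2 K₂
    have t1 := H₁ (F i) S₀ hFi hbd P (sc K M i) K₁ h E0 L2 Y D Y₀ Z (fun k => ¬ Qc K₁ k) α om
      ((S L).filter (fun g => (nm g : ℝ) ≤ L2)) hP hsc hK₁ hh hE0 hL2 hY0 hD0 hZ.le
      (by
        intro g hg
        rw [Finset.mem_filter, mem_S hL.le] at hg
        rw [mem_S hL2]
        exact ⟨hg.2, hg.1.2⟩)
      (hK₁P.trans hPB) (hhP.trans hPB) ((hEY.trans hYP).trans hPB) (hL2P.trans hPB)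
      (hYP.trans hPB) (hDP.trans hPB) (hZP.trans hPB) (g1.trans hsge)
      (fun k hk hc hq => notQc_le hk hc hq) hα.sup hαB hom
    have t2 := H₁ (F i) S₀ hFi hbd P (sc K M i) K₂ h E0 L Y D Y₀ Z
      (fun k => ¬ Qc K₁ k ∧ (nm k : ℝ) < K₂) α om
      ((S L).filter (fun g => L2 < (nm g : ℝ))) hP hsc hK₂ hh hE0 hL.le hY0 hD0 hZ.le
      (Finset.filter_subset _ _)
      (hK₂P.trans hPB) (hhP.trans hPB) ((hEY.trans hYP).trans hPB) (hLP.trans hPB)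
      (hYP.trans hPB) (hDP.trans hPB) (hZP.trans hPB) (g2.trans hsge)
      (fun k _ _ hq => hq.2.le) hα.sup hαB hom
    have e0 : StE E0 (JW D Y₀ Z) om α = StT E0 (JW D Y₀ Z) om (TE α) := rfl
    rw [e0, h4]
    refine (norm_add_le _ _).trans ?_
    refine add_le_add ((norm_add_le _ _).trans (add_le_add ((norm_add_le _ _).trans ?_) le_rfl))
      le_rfl
    rw [two_mul]
    exact add_le_add t1 t2
  refine (Finset.sum_le_sum hone).trans ?_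
  rw [Finset.sum_add_distrib, Finset.sum_add_distrib, Finset.sum_const, Finset.card_range,
    nsmul_eq_mul]
  have h2 := H₂ P K Xx Y D Y₀ Z E0 L θ h I X hP hXP hK hXx hY hYP hD0 hZ hI hE0 hEY hL hθ hh α hα
    om hom
  have hs0 : 0 ≤ EHs A K Xx Y Z E0 α :=
    EHc_nonneg (fun n => Nat.cast_nonneg n) _ hK.le hXx.le α
  have hf0 : 0 ≤ EHf A K Xx Y Z α := EHc_nonneg (fun n => by positivity) _ hK.le hXx.le α
  have hr0 : 0 ≤ θ⁻¹ * RLn N F h M K L X α D I E0 Z :=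
    mul_nonneg (inv_pos.mpr hθ).le (Et404.RLn_nonneg hK hZ.le)
  set Tm := (K / Xx) * (θ * EHs A K Xx Y Z E0 α + (θ * L)⁻¹ * EHf A K Xx Y Z α) +
    θ⁻¹ * RLn N F h M K L X α D I E0 Z with hTm
  have hTm0 : 0 ≤ Tm := by
    rw [hTm]
    have : 0 ≤ (θ * L)⁻¹ := by positivity
    have : 0 ≤ (K / Xx) * (θ * EHs A K Xx Y Z E0 α + (θ * L)⁻¹ * EHf A K Xx Y Z α) := by
      have := hf0
      positivity
    linarith
  have hPe : 0 ≤ P ^ ε := by positivity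
  have hPm : 0 ≤ P ^ (-B) := by positivity
  have hN0 : (0 : ℝ) ≤ N := Nat.cast_nonneg N
  have e1 : (N : ℝ) * (2 * T₀) = N * (2 * (C₁ * S₀)) * P ^ (-B) := by rw [hT₀]; ring
  have e2 : NTn N F h M K E0 L L2 K₁ K₂ α (JW D Y₀ Z) om = ∑ i ∈ Finset.range N,
      ‖∑ g ∈ (S L).filter (fun g => L2 < (nm g : ℝ)), (mu g : ℂ) *
        NTs (GF (Fh (F i) h)) (fun k => ¬ Qc K₁ k ∧ ¬ (nm k : ℝ) < K₂) (sc K M i) E0 α
          (JW D Y₀ Z) om (TE α) g‖ := rfl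
  rw [← e2, e1]
  have h3 : C₂ * P ^ ε * Tm ≤ (C₂ + N * (2 * (C₁ * S₀))) * P ^ ε * Tm := by
    have : 0 ≤ N * (2 * (C₁ * S₀)) := by positivity
    gcongr
    linarith
  have h5 : N * (2 * (C₁ * S₀)) * P ^ (-B) ≤ (C₂ + N * (2 * (C₁ * S₀))) * P ^ (-B) := by
    gcongr
    linarith
  linarith

end Crest.Agent.R017.Et813
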