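import Crest.Agent.R017.I1e_146

/-!
# Row 17, block C70, the assembly (I1) (helper146): the error of `E1` by numbers

* `EU_low` : no lower cut (`Y₀ < 1`)
* **`E1e_le`** : `E1e ≤ C P^ε (M0 + Ms + Ml) + (1 + Ct) Et` from three numbers
* **`I1N`** : `(I1)` by numbers
* `StE_congr` : the top edge of the window may be enlarged where `om` vanishes
-/

set_option autoImplicit false

noncomputable section

open Finset MeasureTheory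
open scoped ComplexConjugate Classical

namespace Crest.Agent.R017.I1146

open Crest.Agent.R012 Crest.Agent.R012.Eis Crest.Agent.R012.MC Crest.Agent.R012.Gauss880
open Crest.Agent.R012.LS2 (S mem_S)
open Crest.Agent.R012.Mob705 (mu pdiv mem_pdiv PE kap0)
open Crest.Agent.R012.Weight600 (pw)
open Crest.Agent.R017.CM106 (CS FS TG)
open Crest.Agent.R017.C70
open Crest.Agent.R017.E1551
open Crest.Agent.R017.SqLoc829 (JE mem_JE)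
open Crest.Agent.R017.DgB829 (HS HS_nonneg)
open Crest.Agent.R017.E2440 (TE StE)
open Crest.Agent.R017.LB48 (CrP GrP)
open Crest.Agent.R017.X6C180 (n13)
open Crest.Agent.R017.Rough381 (VF)

lemma BF_empty {Z : ℝ} (hZ : ¬ 1 ≤ Z) : BF Z = ∅ := by
  rw [Finset.eq_empty_iff_forall_notMem]
  intro κ hκ
  obtain ⟨h1, h2⟩ := mem_BF.mp hκ
  exact hZ ((nm_ge_one h1.1).trans h2)

lemma UL_low {A K X Y₀ : ℝ} (hY₀ : Y₀ < 1) (α : Eis → ℂ) {h : Eis} (hh : h ≠ 0) (U : Eis) :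
    UL A K X Y₀ α h U = 0 := by
  have h1 : (1 : ℝ) ≤ nm h := nm_ge_one hh
  have h2 : ¬ 1 ≤ Y₀ / (nm h : ℝ) ^ 2 := by
    rw [not_le]
    rcases le_or_gt Y₀ 0 with h0 | h0
    · exact lt_of_le_of_lt (div_nonpos_of_nonpos_of_nonneg h0 (by positivity)) one_pos
    · rw [div_lt_one (by positivity)]
      nlinarith
  unfold UL BU
  rw [BF_empty h2]
  simp

lemma UL_zero (A K X : ℝ) (α : Eis → ℂ) (h U : Eis) : UL A K X 0 α h U = 0 := by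
  unfold UL BU
  rw [BF_empty (by rw [zero_div]; norm_num)]
  simp

/-- no lower cut -/
lemma EU_low {A K X Y Y₀ Y₁ : ℝ} (hY : 0 ≤ Y) (hY₀ : Y₀ < 1) (α : Eis → ℂ) :
    EU A K X Y Y₀ Y₁ α = EU A K X Y 0 Y₁ α := by
  unfold EU
  refine Finset.sum_congr rfl fun p hp => ?_
  have h1 := (Finset.mem_product.mp (Finset.mem_erase.mp hp).2).1
  rw [UL_low hY₀ α ((mem_S hY).1 h1).2.1.ne_zero, UL_zero]

lemma Lo_low {A K X Y₀ : ℝ} (hY₀ : Y₀ < 1) (α : Eis → ℂ) : Lo A K X Y₀ α = 0 := by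
  unfold Lo
  rw [BF_empty (not_le.2 hY₀), Finset.sum_empty]

/-- the sum over the natural classes -/
lemma first_le {A J : ℝ} (hA : J + 1 < A) (hJ : 0 ≤ J) {K X Y D Y₀ Y₁ P M : ℝ} (hK : 0 < K)
    (hX : 0 < X) (hY : 0 ≤ Y) (hP : 1 ≤ P) (h1P : Y₁ ≤ P) (hM : 0 ≤ M) {α : Eis → ℂ}
    (hα : ∀ n, α n ≠ 0 → n ∈ S Y)
    (h1 : ∀ V, 1 ≤ V → V ≤ Y₁ → ∀ t, VF V (tws α t) ≤
      M * max 1 ((V * K / X ^ 2) ^ (1 / 3 : ℝ)) * (1 + |t|) ^ J) :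
    ∑ κ ∈ JE D Y₀ Y₁ 1, min 1 (lm K X 1 κ) * Wb A α κ ≤
      4 * (∫ t, jb (A - J) t) * (1 + 2 * Real.log P) * M := by
  have hI : 0 ≤ ∫ t, jb (A - J) t := integral_nonneg fun t => (jb_pos _ t).le
  have hlP := Real.log_nonneg hP
  have hp1 : IsPrim (1 : Eis) := isPrim_one
  have hsub : JE D Y₀ Y₁ 1 ⊆ BF Y₁ := by
    intro κ hκ
    obtain ⟨hcf, -, -, h2⟩ := (mem_JE hp1 κ).1 hκ
    refine mem_BF.mpr ⟨hcf, ?_⟩
    have h3 : SqLoc829.gd κ 1 = 1 := by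
      have a1 := SqLoc829.gd_prim κ 1
      have a2 := SqLoc829.gd_dvd_right κ 1
      exact Cheb420.isPrim_unit (isUnit_of_dvd_one a2) a1
    rw [h3] at h2
    have e1 : κ / 1 = κ := div_of_eq one_ne_zero (one_mul κ).symm
    have e2 : (1 : Eis) / 1 = 1 := div_of_eq one_ne_zero (one_mul 1).symm
    rw [e1, e2] at h2
    simpa using h2
  have h2 : ∑ κ ∈ JE D Y₀ Y₁ 1, min 1 (lm K X 1 κ) * Wb A α κ ≤ FW A K X (BF Y₁) α := by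
    unfold FW
    exact Finset.sum_le_sum_of_subset_of_nonneg hsub fun κ _ _ =>
      mul_nonneg (le_min zero_le_one (lm_nonneg hK.le hX.le _ _)) (Wb_nonneg _ _ _)
  refine h2.trans ?_
  by_cases hZ : 1 ≤ Y₁
  · refine (FW_le_VF hA hJ hY hα hK hX hZ hM h1).trans ?_
    have : Real.log Y₁ ≤ Real.log P := Real.log_le_log (by linarith) h1P
    gcongr
  · unfold FW
    rw [BF_empty hZ, Finset.sum_empty]
    positivity

/-- **the error of `E1` from three numbers** (no lower cut). -/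
theorem E1e_le {A J ε : ℝ} (hA : J + 1 < A) (hJ : 0 ≤ J) (hε : 0 < ε) : ∃ C : ℝ, 0 ≤ C ∧
    ∀ (B P K X Y D Y₀ Y₁ G₀ M0 Ms Ml : ℝ) (α : Eis → ℂ), 1 ≤ P → 0 < K → 0 < X → 1 ≤ Y →
      Y ≤ P → Y₀ < 1 → 0 ≤ Y₁ → Y₁ ≤ P → 0 ≤ M0 → 0 ≤ Ms → 0 ≤ Ml →
      (∀ n, α n ≠ 0 → n ∈ S Y) →
      (∀ V, 1 ≤ V → V ≤ Y₁ → ∀ t, VF V (tws α t) ≤
        M0 * max 1 ((V * K / X ^ 2) ^ (1 / 3 : ℝ)) * (1 + |t|) ^ J) →
      (∀ g ∈ S Y, g ≠ 1 → (nm g : ℝ) ≤ G₀ → ∀ V, 1 ≤ V → V ≤ Y₁ * nm g → ∀ t,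
        VF V (tws (sg α g) t) ≤ Ms / (nm g : ℝ) ^ 2 *
          max 1 ((V * K / (X / nm g) ^ 2) ^ (1 / 3 : ℝ)) * (1 + |t|) ^ J) →
      (∀ h ∈ S Y, ∀ B V, 1 ≤ B → B ≤ Y → 1 ≤ V → V ≤ Y₁ / (nm h : ℝ) ^ 2 → ∀ t,
        JB Y α (fun U => G₀ < nm (h * U)) h B V t ≤
          Ml / (nm h : ℝ) ^ 2 * max B⁻¹ (yv K X h V) * (1 + |t|) ^ J) →
      E1e A B K X Y D Y₀ Y₁ α ≤ C * P ^ ε * (M0 + Ms + Ml) +
        (1 + Ct Y) * Et A B K X Y Y₁ α := by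
  obtain ⟨C₁, hC₁, h1⟩ := EU_le hA hJ hε
  obtain ⟨C₂, hC₂, hlg⟩ := PInv255.one_add_log_pow_le 1 ε hε
  set I := ∫ t, jb (A - J) t with hIdef
  have hI : 0 ≤ I := integral_nonneg fun t => (jb_pos _ t).le
  refine ⟨C₁ + 8 * I * C₂, by positivity, fun B P K X Y D Y₀ Y₁ G₀ M0 Ms Ml α hP hK hX hY hYP
    hY₀ hY₁ h1P hM0 hMs hMl hα h0 hS hL => ?_⟩
  have hY0 : 0 ≤ Y := by linarith
  have hP0 : 0 < P := by linarith
  have hlP := Real.log_nonneg hP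
  have a1 := first_le (D := D) (Y₀ := Y₀) hA hJ hK hX hY0 hP h1P hM0 hα h0
  have a2 := h1 P K X Y 0 Y₁ G₀ Ms Ml α hP hK hX hY hYP le_rfl hP0.le hY₁ h1P hMs hMl hα hS
    (fun g _ _ _ V hV1 hV2 => absurd (hV1.trans hV2) (by rw [zero_mul]; norm_num)) hL
    (fun h _ B V _ _ hV1 hV2 => absurd (hV1.trans hV2) (by rw [zero_div]; norm_num))
  rw [← EU_low hY0 hY₀] at a2
  have a3 := Lo_low (A := A) (K := K) (X := X) hY₀ α
  have a4 : 4 * I * (1 + 2 * Real.log P) * M0 ≤ 8 * I * C₂ * P ^ ε * M0 := by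
    have h2 := hlg P hP
    rw [pow_one] at h2
    calc 4 * I * (1 + 2 * Real.log P) * M0 ≤ 4 * I * (2 * (1 + Real.log P)) * M0 := by
          gcongr
          linarith
      _ = 8 * I * M0 * (1 + Real.log P) := by ring
      _ ≤ 8 * I * M0 * (C₂ * P ^ ε) := by gcongr
      _ = _ := by ring
  rw [← hIdef] at a1
  unfold E1e
  rw [a3]
  have a5 : 0 ≤ C₁ * P ^ ε * M0 := by positivity
  have a6 : 0 ≤ 8 * I * C₂ * P ^ ε * (Ms + Ml) := by positivity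
  have e1 : (C₁ + 8 * I * C₂) * P ^ ε * (M0 + Ms + Ml) = C₁ * P ^ ε * (Ms + Ml) +
      8 * I * C₂ * P ^ ε * M0 + C₁ * P ^ ε * M0 + 8 * I * C₂ * P ^ ε * (Ms + Ml) := by ring
  rw [e1]
  linarith

/-- **the defect of the main forms from one number** : `om = 1` on the classes up to `T₀`. -/
theorem TJcD_le {A J ε : ℝ} (hA : J + 1 < A) (hJ : 0 ≤ J) (hε : 0 < ε) : ∃ C : ℝ, 0 ≤ C ∧
    ∀ (P K X Y D Y₀ Z T₀ E0 M : ℝ) (α : Eis → ℂ), 1 ≤ P → 0 < K → 0 < X → 1 ≤ Y → Y ≤ P →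
      Z ≤ P → 0 ≤ M → 0 ≤ E0 → (∀ n, α n ≠ 0 → n ∈ S Y) →
      ∀ (om : Eis × Eis → ℂ), (∀ x, ‖1 - om x‖ ≤ 1) →
      (∀ x : Eis × Eis, (nm (x.2 * x.1 ^ 2) : ℝ) ≤ T₀ → om x = 1) →
      (∀ δ ∈ S Y, ∀ B V, 1 ≤ B → B ≤ Y → 1 ≤ V → V ≤ Z / (nm δ : ℝ) ^ 2 →
        (E0 < B ∨ T₀ < V * (nm δ : ℝ) ^ 2) → ∀ t,
        B⁻¹ * (nm δ * (yv K X δ V)⁻¹) * JB Y α (fun _ => True) δ B V t ≤
          M / nm δ * (1 + |t|) ^ J) →
      TJ (cD E0 om) A K X Y (JW D Y₀ Z) α ≤ C * P ^ ε * M := by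
  obtain ⟨C₁, hC₁, h1⟩ := TJ_le hA hJ (ε := ε / 2) (by positivity)
  obtain ⟨C₂, hC₂, hτ⟩ := CR3436.tau_pow_le 1 (ε := ε / 2) (by positivity)
  refine ⟨C₁ * (2 * C₂), by positivity, fun P K X Y D Y₀ Z T₀ E0 M α hP hK hX hY hYP hZP hM hE0
    hα om hom1 hom hyp => ?_⟩
  have hY0 : 0 ≤ Y := by linarith
  have hP0 : 0 < P := by linarith
  have hPe : P ^ (ε / 2) * P ^ (ε / 2) = P ^ ε := by
    rw [← Real.rpow_add hP0]; congr 1; ring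
  have hPp : 0 < P ^ (ε / 2) := by positivity
  have h2 := h1 P K X Y D Y₀ Z (2 * C₂ * P ^ (ε / 2) * M) α hP hK hX hY hYP hZP (by positivity)
    hα (cD E0 om) (cD_nonneg E0 om)
    (fun δ B V => if 0 < B ∧ (E0 < B ∨ T₀ < V * (nm δ : ℝ) ^ 2) then
      2 * C₂ * P ^ (ε / 2) * B⁻¹ else 0)
    (fun δ B V => by
      split_ifs with h
      · have := h.1
        positivity
      · exact le_rfl)
    (fun δ hδ t ht j hj B V hB1 hB2 hV1 hV2 => by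
      have htS := (mem_S hY0).1 ht
      have htn := nmpos htS.2.1.ne_zero
      have hB0 : 0 < B := htn.trans_le hB1
      have hδn := nmpos ((mem_S hY0).1 hδ).2.1.ne_zero
      have ht1 : (Div277.tau t : ℝ) ≤ C₂ * P ^ (ε / 2) := by
        have := hτ P t htS.2.1 (htS.1.trans hYP)
        rwa [pow_one] at this
      have h3 : (Div277.tau t : ℝ) / nm t ≤ 2 * C₂ * P ^ (ε / 2) * B⁻¹ := by
        rw [div_le_iff₀ htn]
        have h4 : 1 ≤ 2 * nm t * B⁻¹ := by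
          rw [← div_eq_mul_inv, le_div_iff₀ hB0]
          linarith
        calc (Div277.tau t : ℝ) ≤ C₂ * P ^ (ε / 2) * 1 := by linarith
          _ ≤ C₂ * P ^ (ε / 2) * (2 * nm t * B⁻¹) := by gcongr
          _ = _ := by ring
      have h5 : (0 : ℝ) ≤ (Div277.tau t : ℝ) / nm t := by positivity
      unfold cD
      by_cases hc : 0 < B ∧ (E0 < B ∨ T₀ < V * (nm δ : ℝ) ^ 2)
      · rw [if_pos hc]
        refine le_trans ?_ h3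
        refine mul_le_of_le_one_right h5 ?_
        split_ifs
        · have h6 := hom1 (δ, j)
          have h7 := norm_nonneg (1 - om (δ, j))
          nlinarith
        · exact le_rfl
      · rw [if_neg hc]
        have hc1 : ¬ (E0 < B) := fun h => hc ⟨hB0, Or.inl h⟩
        have hc2 : ¬ (T₀ < V * (nm δ : ℝ) ^ 2) := fun h => hc ⟨hB0, Or.inr h⟩
        have h6 : t ∈ S E0 := (mem_S hE0).2 ⟨hB1.trans (not_lt.1 hc1), htS.2⟩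
        have h7 : om (δ, j) = 1 := by
          refine hom (δ, j) ?_
          show ((nm (j * δ ^ 2) : ℕ) : ℝ) ≤ T₀
          rw [nm_mul, nm_pow]
          push_cast
          refine le_trans ?_ (not_lt.1 hc2)
          exact mul_le_mul_of_nonneg_right hV1 (by positivity)
        rw [if_pos h6, h7]
        simp)
    (fun δ hδ B V hB1 hB2 hV1 hV2 t => by
      have hδn := nmpos ((mem_S hY0).1 hδ).2.1.ne_zero
      have hy := yv_pos hK hX (by linarith : 0 < V) ((mem_S hY0).1 hδ).2.1.ne_zero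
      by_cases hc : 0 < B ∧ (E0 < B ∨ T₀ < V * (nm δ : ℝ) ^ 2)
      · rw [if_pos hc]
        have h3 := hyp δ hδ B V hB1 hB2 hV1 hV2 hc.2 t
        calc 2 * C₂ * P ^ (ε / 2) * B⁻¹ * (nm δ * (yv K X δ V)⁻¹) *
              JB Y α (fun _ => True) δ B V t =
            2 * C₂ * P ^ (ε / 2) * (B⁻¹ * (nm δ * (yv K X δ V)⁻¹) *
              JB Y α (fun _ => True) δ B V t) := by ring
          _ ≤ 2 * C₂ * P ^ (ε / 2) * (M / nm δ * (1 + |t|) ^ J) :=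
              mul_le_mul_of_nonneg_left h3 (by positivity)
          _ = _ := by ring
      · rw [if_neg hc]
        have : 0 ≤ 2 * C₂ * P ^ (ε / 2) * M / nm δ * (1 + |t|) ^ J := by positivity
        simpa using this)
  refine h2.trans (le_of_eq ?_)
  rw [← hPe]
  ring

/-- **(I1) by numbers.** -/
theorem I1N {w : ℝ → ℝ} (hw : Wgt w) (hw0 : ∀ x, 0 ≤ w x) {R : ℝ} (hR : 0 ≤ R) {A : ℕ}
    {B J ε : ℝ} (hA : 2 ≤ A) (hB : 1 ≤ B) (hJA : J + 1 < A) (hJ : 0 ≤ J) (hε : 0 < ε) :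
    ∃ C : ℝ, 0 ≤ C ∧
    ∀ (P K X Y D Y₀ Y₁ T₀ E0 G₀ M0 Ms Ml Mt : ℝ) (I : ℕ), 1 ≤ P → 0 < K → 0 < X → 1 ≤ Y →
      Y ≤ P → 0 ≤ D → 0 < Y₁ → Y₁ ≤ P → Y₀ < 1 → 0 ≤ E0 → (Y₁ ≤ D ^ 2 ∨ Y ≤ D) → Y₁ < 2 ^ I →
      0 ≤ M0 → 0 ≤ Ms → 0 ≤ Ml → 0 ≤ Mt → ∀ α : Eis → ℂ, Adm Y X R α →
      ∀ (om : Eis × Eis → ℂ), (∀ x, ‖1 - om x‖ ≤ 1) →
      (∀ x : Eis × Eis, (nm (x.2 * x.1 ^ 2) : ℝ) ≤ T₀ → om x = 1) →
      ∀ (Q : Eis → Prop) (et e₃ : ℝ),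
      (∀ V, 1 ≤ V → V ≤ Y₁ → ∀ t, VF V (tws α t) ≤
        M0 * max 1 ((V * K / X ^ 2) ^ (1 / 3 : ℝ)) * (1 + |t|) ^ J) →
      (∀ g ∈ S Y, g ≠ 1 → (nm g : ℝ) ≤ G₀ → ∀ V, 1 ≤ V → V ≤ Y₁ * nm g → ∀ t,
        VF V (tws (sg α g) t) ≤ Ms / (nm g : ℝ) ^ 2 *
          max 1 ((V * K / (X / nm g) ^ 2) ^ (1 / 3 : ℝ)) * (1 + |t|) ^ J) →
      (∀ h ∈ S Y, ∀ B V, 1 ≤ B → B ≤ Y → 1 ≤ V → V ≤ Y₁ / (nm h : ℝ) ^ 2 → ∀ t,
        JB Y α (fun U => G₀ < nm (h * U)) h B V t ≤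
          Ml / (nm h : ℝ) ^ 2 * max B⁻¹ (yv K X h V) * (1 + |t|) ^ J) →
      (∀ δ ∈ S Y, ∀ B V, 1 ≤ B → B ≤ Y → 1 ≤ V → V ≤ Y₁ / (nm δ : ℝ) ^ 2 →
        (E0 < B ∨ T₀ < V * (nm δ : ℝ) ^ 2) → ∀ t,
        B⁻¹ * (nm δ * (yv K X δ V)⁻¹) * JB Y α (fun _ => True) δ B V t ≤
          Mt / nm δ * (1 + |t|) ^ J) →
      ‖CrP w K α (fun k => if Q k then 0 else StE E0 (JW D Y₀ Y₁) om α k)‖ ≤ et →
      GrP w K (fun k => if Q k then StE E0 (JW D Y₀ Y₁) om α k else 0) ≤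
        c3 w K * (X3 Y E0 (JW D Y₀ Y₁) om α).re + e₃ →
      ∑' k : Eis, (if IsPrim k ∧ Q k then
        w (nm k / K) * ‖CS α k - (pC : ℂ) * StE E0 (JW D Y₀ Y₁) om α k‖ ^ 2 else 0) ≤
      Dg w K Y α + C * P ^ ε * (K / X) * (M0 + Ms + Ml + Mt +
        (1 + Ct Y) * Et A B K X Y Y₁ α) +
        2 * pC * (E2s w K E0 D Y₀ Y₁ I om α + et) + pC ^ 2 * e₃ := by
  obtain ⟨C₁, hC₁, h1⟩ := I1S hw hw0 hR hA hB
  obtain ⟨C₂, hC₂, h2⟩ := E1e_le hJA hJ (ε := ε / 2) (by positivity)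
  obtain ⟨C₃, hC₃, h3⟩ := TJcD_le hJA hJ (ε := ε / 2) (by positivity)
  obtain ⟨C₄, hC₄, hlg⟩ := PInv255.one_add_log_pow_le 1 (ε / 2) (by positivity)
  refine ⟨C₁ * C₄ * (C₂ + C₃ + 1), by positivity, fun P K X Y D Y₀ Y₁ T₀ E0 G₀ M0 Ms Ml Mt I hP
    hK hX hY hYP hD hY₁ h1P hY₀ hE0 hDY hI hM0 hMs hMl hMt α hα om hom1 hom Q et e₃ a0 aS aL aT
    ht he => ?_⟩
  have hY0 : 0 ≤ Y := by linarith
  have hP0 : 0 < P := by linarith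
  have b1 := h1 K X Y D Y₀ Y₁ E0 I hK hX hY hD hY₁ hE0 hDY hI α hα om Q et e₃ ht he
  have b2 := h2 B P K X Y D Y₀ Y₁ G₀ M0 Ms Ml α hP hK hX hY hYP hY₀ hY₁.le h1P hM0 hMs hMl
    hα.sup a0 aS aL
  have b3 := h3 P K X Y D Y₀ Y₁ T₀ E0 Mt α hP hK hX hY hYP h1P hMt hE0 hα.sup om hom1 hom aT
  have b4 : 1 + Real.log Y ≤ C₄ * P ^ (ε / 2) := by
    have h4 := hlg P hP
    rw [pow_one] at h4
    exact le_trans (by linarith [Real.log_le_log (by linarith) hYP]) h4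
  have hPe : P ^ (ε / 2) * P ^ (ε / 2) = P ^ ε := by
    rw [← Real.rpow_add hP0]; congr 1; ring
  have hP1 : 1 ≤ P ^ (ε / 2) := Real.one_le_rpow hP (by positivity)
  have hEt : 0 ≤ (1 + Ct Y) * Et A B K X Y Y₁ α :=
    mul_nonneg (by linarith [Ct_nonneg Y]) (Et_nonneg hK.le hX.le hY₁.le _)
  have hE : E1e A B K X Y D Y₀ Y₁ α + TJ (cD E0 om) A K X Y (JW D Y₀ Y₁) α ≤
      (C₂ + C₃ + 1) * P ^ (ε / 2) * (M0 + Ms + Ml + Mt + (1 + Ct Y) * Et A B K X Y Y₁ α) := by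
    set q := P ^ (ε / 2) with hq
    set E := (1 + Ct Y) * Et A B K X Y Y₁ α with hEd
    have c1 : E ≤ q * E := le_mul_of_one_le_left hEt hP1
    have c2 : 0 ≤ C₂ * q * Mt := by positivity
    have c3 : 0 ≤ C₃ * q * (M0 + Ms + Ml) := by positivity
    have c4 : 0 ≤ q * (M0 + Ms + Ml + Mt) := by positivity
    have c5 : 0 ≤ C₂ * q * E := by positivity
    have c6 : 0 ≤ C₃ * q * E := by positivity
    have e1 : (C₂ + C₃ + 1) * q * (M0 + Ms + Ml + Mt + E) = C₂ * q * (M0 + Ms + Ml) +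
      C₂ * q * Mt + C₃ * q * Mt + C₃ * q * (M0 + Ms + Ml) + q * (M0 + Ms + Ml + Mt) +
      C₂ * q * E + C₃ * q * E + q * E := by ring
    rw [e1]
    linarith
  have hS0 : 0 ≤ (C₂ + C₃ + 1) * P ^ (ε / 2) * (M0 + Ms + Ml + Mt +
      (1 + Ct Y) * Et A B K X Y Y₁ α) := by positivity
  have hlY : 0 ≤ 1 + Real.log Y := by linarith [Real.log_nonneg hY]
  have b5 : C₁ * (1 + Real.log Y) * (K / X) * (E1e A B K X Y D Y₀ Y₁ α +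
        TJ (cD E0 om) A K X Y (JW D Y₀ Y₁) α) ≤
      C₁ * C₄ * (C₂ + C₃ + 1) * P ^ ε * (K / X) * (M0 + Ms + Ml + Mt +
        (1 + Ct Y) * Et A B K X Y Y₁ α) := by
    calc C₁ * (1 + Real.log Y) * (K / X) * (E1e A B K X Y D Y₀ Y₁ α +
          TJ (cD E0 om) A K X Y (JW D Y₀ Y₁) α) ≤
          C₁ * (1 + Real.log Y) * (K / X) * ((C₂ + C₃ + 1) * P ^ (ε / 2) *
            (M0 + Ms + Ml + Mt + (1 + Ct Y) * Et A B K X Y Y₁ α)) :=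
          mul_le_mul_of_nonneg_left hE (by positivity)
      _ ≤ C₁ * (C₄ * P ^ (ε / 2)) * (K / X) * ((C₂ + C₃ + 1) * P ^ (ε / 2) *
            (M0 + Ms + Ml + Mt + (1 + Ct Y) * Et A B K X Y Y₁ α)) := by gcongr
      _ = C₁ * C₄ * (C₂ + C₃ + 1) * (P ^ (ε / 2) * P ^ (ε / 2)) * (K / X) *
            (M0 + Ms + Ml + Mt + (1 + Ct Y) * Et A B K X Y Y₁ α) := by ring
      _ = _ := by rw [hPe]
  linarith

/-! ### a larger top edge -/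

/-- only the classes with `om ≠ 0` count -/
lemma StE_congr {E0 : ℝ} {J J' : Finset (Eis × Eis)} {om : Eis × Eis → ℂ} (h : J ⊆ J')
    (h0 : ∀ x ∈ J', x ∉ J → om x = 0) (α : Eis → ℂ) (k : Eis) :
    StE E0 J' om α k = StE E0 J om α k := by
  unfold E2440.StE
  refine (Finset.sum_subset h fun x hx hx' => ?_).symm
  rw [h0 x hx hx', zero_mul]

lemma JW_mono {D D' Y₀ Y₁ Y₁' : ℝ} (hD : D ≤ D') (hY : Y₁ ≤ Y₁') : JW D Y₀ Y₁ ⊆ JW D' Y₀ Y₁' := by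
  intro x hx
  unfold JW at hx ⊢
  rw [Finset.mem_filter, Finset.mem_product, mem_primBall, mem_ball] at hx ⊢
  obtain ⟨⟨⟨h1, h2⟩, h3⟩, h4, h5, h6, h7⟩ := hx
  exact ⟨⟨⟨h1.trans (Nat.floor_le_floor hD), h2⟩, h3.trans (Nat.floor_le_floor hY)⟩, h4, h5, h6,
    h7.trans hY⟩

end Crest.Agent.R017.I1146
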