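import Crest.Agent.R017.GrD_829

/-!
# Row 17, R8 (E3): structure of the theta coefficients at `c ja g² k`, `k = k₁ k₂² e³` (helper164)

`c ∈ {1, 3, 3w, 3w²}`, `ja, g` squarefree primary, `(ja, g) = 1`.

* `th_sqf_ne`  : `k₁` squarefree: `th (c ja g² k₁) ≠ 0 → g ∣ k₁ ∧ (ja, k₁) = 1`
* `th_sqf_eq`  : `th (c ja g² (g k')) = conj (Gh (c ja) k') n6 k' th (c ja)`
* `th_sqf_eq'` : the same with the common factor `conj (G k₁)` in front and explicit symbols
* `th_gen`     : `k = k₁ k₂²`: `k₂ = u v`, `ja = u j'`, `g = v g'`, `k₁ = g' k'`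
* `th_gen_eq`  : the value in this case
-/

set_option autoImplicit false

noncomputable section

open scoped ComplexConjugate

namespace Crest.Agent.R017.E3s164

open Crest.Agent.R012 Crest.Agent.R012.Eis Crest.Agent.R012.Mob705 Crest.Agent.R012.Gauss880
open Crest.Agent.R017.PX764 Crest.Agent.R017.C70 Crest.Agent.R017.GrB829 Crest.Agent.R017.GrD829

/-- a common primary prime -/
lemma exists_pp {a b : Eis} (ha : IsPrim a) (h : ¬ IsCoprime a b) : ∃ p, IsPP p ∧ p ∣ a ∧ p ∣ b := by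
  by_contra hh
  apply h
  refine isCoprime_of_prime_dvd (fun h0 => ha.ne_zero h0.1) (fun q hq hqa hqb => ?_)
  have hql : ¬ lam ∣ q := fun h => ha.not_lam_dvd (h.trans hqa)
  have hass := prim_associated q
  exact hh ⟨prim q, ⟨prim_isPrim hql, hass.prime_iff.mp hq⟩, hass.symm.dvd.trans hqa,
    hass.symm.dvd.trans hqb⟩

/-- splitting of a divisor of a product -/
lemma prim_dvd_mul {a b k : Eis} (ha : IsPrim a) (hb : IsPrim b) (hk : IsPrim k) (h : k ∣ a * b) :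
    ∃ u v : Eis, IsPrim u ∧ IsPrim v ∧ k = u * v ∧ u ∣ a ∧ v ∣ b := by
  obtain ⟨a1, a2, h1, h2, h3⟩ := exists_dvd_and_dvd_of_dvd_mul h
  have l1 : ¬ lam ∣ a1 := fun h => ha.not_lam_dvd (h.trans h1)
  have l2 : ¬ lam ∣ a2 := fun h => hb.not_lam_dvd (h.trans h2)
  have e1 := prim_associated a1
  have e2 := prim_associated a2
  refine ⟨prim a1, prim a2, prim_isPrim l1, prim_isPrim l2, ?_, e1.symm.dvd.trans h1,
    e2.symm.dvd.trans h2⟩
  refine hk.eq_of_associated ((prim_isPrim l1).mul (prim_isPrim l2)) ?_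
  rw [h3]
  exact e1.mul_mul e2

lemma cop_mult {p a b : Eis} (hp : IsPP p) (h : IsCoprime a b) (ha : p ∣ a) : ¬ p ∣ b := fun hb =>
  hp.2.not_isUnit (h.isUnit_of_dvd' ha hb)

lemma mult_eq_one {p a : Eis} (hp : IsPP p) (ha : IsPrim a) (hs : Squarefree a) (h : p ∣ a) :
    multiplicity p a = 1 := by
  have h1 := mult_le_one hp ha hs
  have h2 : 1 ≤ multiplicity p a := le_mult hp.2 ha.ne_zero (by simpa using h)
  omega

/-- `k₂ ∣ ja g` -/
lemma dvd_k2 {c ja g k₁ k₂ : Eis} (hc : IsC c) (hja : IsPrim ja) (hg : IsPrim g)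
    (hk₁ : IsPrim k₁) (hk₂ : IsPrim k₂) (hs₂ : Squarefree k₂)
    (h12 : IsCoprime k₁ k₂) (h : th (c * ja * g ^ 2 * (k₁ * k₂ ^ 2)) ≠ 0) : k₂ ∣ ja * g := by
  refine dvd_of_mult hk₂ (hja.mul hg) fun p hp => ?_
  by_cases h2 : p ∣ k₂
  · rw [mult_eq_one hp hk₂ hs₂ h2]
    by_contra hh
    have h3 : ¬ p ∣ ja * g := by
      rw [← mult_zero_iff]; omega
    have h4 : ¬ p ∣ k₁ := fun h => cop_mult hp h12.symm h2 h
    have hja' : ¬ p ∣ ja := fun h => h3 (h.mul_right _)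
    have hg' : ¬ p ∣ g := fun h => h3 (h.mul_left _)
    apply h
    rw [show c * ja * g ^ 2 * (k₁ * k₂ ^ 2) = c * k₂ ^ 2 * (ja * g ^ 2 * k₁) by ring]
    refine th_zero hc hp ?_ ?_ ?_
    · rw [pow_two]; exact hk₂.mul hk₂
    · rw [(fm hp.2 hk₂.ne_zero).multiplicity_pow hp.2, mult_eq_one hp hk₂ hs₂ h2]
    · intro hh'
      rcases hp.2.dvd_or_dvd hh' with h5 | h5
      · rcases hp.2.dvd_or_dvd h5 with h6 | h6
        · exact hja' h6
        · exact hg' (hp.2.dvd_of_dvd_pow h6)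
      · exact h4 h5
  · rw [mult_zero_iff.2 h2]; omega

/-- `(ja, k₁) = 1` -/
lemma cop_k1 {c ja g k₁ k₂ : Eis} (hc : IsC c) (hja : IsPrim ja) (hjs : Squarefree ja)
    (hjg : IsCoprime ja g) (hk₁ : IsPrim k₁) (hs₁ : Squarefree k₁)
    (h12 : IsCoprime k₁ k₂) (h : th (c * ja * g ^ 2 * (k₁ * k₂ ^ 2)) ≠ 0) : IsCoprime ja k₁ := by
  by_contra hh
  obtain ⟨p, hp, h1, h2⟩ := exists_pp hja hh
  apply h
  rw [show c * ja * g ^ 2 * (k₁ * k₂ ^ 2) = c * (ja * k₁) * (g ^ 2 * k₂ ^ 2) by ring]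
  refine th_zero hc hp (hja.mul hk₁) ?_ ?_
  · rw [mult_mul hp.2 hja.ne_zero hk₁.ne_zero, mult_eq_one hp hja hjs h1,
      mult_eq_one hp hk₁ hs₁ h2]
  · intro h3
    rcases hp.2.dvd_or_dvd h3 with h4 | h4
    · exact cop_mult hp hjg h1 (hp.2.dvd_of_dvd_pow h4)
    · exact cop_mult hp h12 h2 (hp.2.dvd_of_dvd_pow h4)

/-- `g ∣ k₁ k₂` -/
lemma dvd_g {c ja g k₁ k₂ : Eis} (hc : IsC c) (hg : IsPrim g) (hgs : Squarefree g)
    (hjg : IsCoprime ja g) (hk₁ : IsPrim k₁) (hk₂ : IsPrim k₂)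
    (h : th (c * ja * g ^ 2 * (k₁ * k₂ ^ 2)) ≠ 0) : g ∣ k₁ * k₂ := by
  refine dvd_of_mult hg (hk₁.mul hk₂) fun p hp => ?_
  by_cases h2 : p ∣ g
  · rw [mult_eq_one hp hg hgs h2]
    by_contra hh
    have h3 : ¬ p ∣ k₁ * k₂ := by
      rw [← mult_zero_iff]; omega
    apply h
    rw [show c * ja * g ^ 2 * (k₁ * k₂ ^ 2) = c * g ^ 2 * (ja * (k₁ * k₂ ^ 2)) by ring]
    refine th_zero hc hp ?_ ?_ ?_
    · rw [pow_two]; exact hg.mul hg
    · rw [(fm hp.2 hg.ne_zero).multiplicity_pow hp.2, mult_eq_one hp hg hgs h2]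
    · intro hh'
      rcases hp.2.dvd_or_dvd hh' with h5 | h5
      · exact cop_mult hp hjg h5 h2
      · rcases hp.2.dvd_or_dvd h5 with h6 | h6
        · exact h3 (h6.mul_right _)
        · exact h3 ((hp.2.dvd_of_dvd_pow h6).mul_left _)
  · rw [mult_zero_iff.2 h2]; omega

/-! ### `k` squarefree -/

/-- **`k₁` squarefree** -/
theorem th_sqf_ne {c ja g k₁ : Eis} (hc : IsC c) (hja : IsPrim ja) (hjs : Squarefree ja)
    (hg : IsPrim g) (hgs : Squarefree g) (hjg : IsCoprime ja g) (hk₁ : IsPrim k₁)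
    (hs₁ : Squarefree k₁) (h : th (c * ja * g ^ 2 * k₁) ≠ 0) : g ∣ k₁ ∧ IsCoprime ja k₁ := by
  have e : c * ja * g ^ 2 * k₁ = c * ja * g ^ 2 * (k₁ * 1 ^ 2) := by ring
  rw [e] at h
  refine ⟨?_, cop_k1 hc hja hjs hjg hk₁ hs₁ isCoprime_one_right h⟩
  have := dvd_g hc hg hgs hjg hk₁ isPrim_one h
  rwa [mul_one] at this

lemma cop_c {c k : Eis} (hc : IsC c) (hk : IsPrim k) : IsCoprime c k := by
  have := hc.lamish.isCoprime hk
  exact this

/-- the value -/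
theorem th_sqf_eq {c ja g k : Eis} (hc : IsC c) (hg : IsPrim g) (hk : IsPrim k)
    (hs : Squarefree k) (hjk : IsCoprime ja k) :
    th (c * ja * g ^ 2 * (g * k)) = conj (Gh (c * ja) k) * (n6 k : ℂ) * th (c * ja) := by
  rw [show c * ja * g ^ 2 * (g * k) = (c * ja * k) * g ^ 3 by ring, th_cube hg,
    th_mul hk hs ((cop_c hc hk).mul_left hjk)]

/-- `G k'` in terms of `G (g k')` -/
lemma G_right {g k : Eis} (hg : IsPrim g) (hk : IsPrim k) (hgs : Squarefree g)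
    (hgk : IsCoprime g k) : G k = conj (G g) * sy g k * G (g * k) := by
  rw [G_mul_all syG hg hk]
  have h1 : conj (G g) * G g = 1 := by rw [mul_comm]; exact G_mul_conj syG hg hgs
  have h2 : sy g k * conj (sy g k) = 1 := by
    rw [Complex.mul_conj, Complex.normSq_eq_norm_sq, norm_sy_one hk hgk]; simp
  calc G k = (conj (G g) * G g) * (sy g k * conj (sy g k)) * G k := by rw [h1, h2]; ring
    _ = _ := by ring

/-- **the value, common factor `conj (G k₁)`**, `k₁ = g k'` -/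
theorem th_sqf_eq' {c ja g k : Eis} (hc : IsC c) (hg : IsPrim g) (hgs : Squarefree g)
    (hk : IsPrim k) (hs : Squarefree k) (hjk : IsCoprime ja k)
    (hgk : IsCoprime g k) :
    th (c * ja * g ^ 2 * (g * k)) = conj (G (g * k)) * (G g * conj (sy g k)) *
      (sy c k * sy ja k) * (n6 k : ℂ) * th (c * ja) := by
  rw [th_sqf_eq hc hg hk hs hjk]
  unfold Gh
  rw [syG.mul_left c ja k hk]
  conv_lhs => rw [G_right hg hk hgs hgk]
  simp only [map_mul, Complex.conj_conj]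
  ring

/-! ### `k = k₁ k₂²` -/

/-- **the general case** -/
theorem th_gen {c ja g k₁ k₂ : Eis} (hc : IsC c) (hja : IsPrim ja) (hjs : Squarefree ja)
    (hg : IsPrim g) (hgs : Squarefree g) (hjg : IsCoprime ja g) (hk₁ : IsPrim k₁)
    (hs₁ : Squarefree k₁) (hk₂ : IsPrim k₂) (hs₂ : Squarefree k₂) (h12 : IsCoprime k₁ k₂)
    (h : th (c * ja * g ^ 2 * (k₁ * k₂ ^ 2)) ≠ 0) :
    ∃ u v j' g' k' : Eis, IsPrim u ∧ IsPrim v ∧ IsPrim j' ∧ IsPrim g' ∧ IsPrim k' ∧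
      k₂ = u * v ∧ ja = u * j' ∧ g = v * g' ∧ k₁ = g' * k' ∧ IsCoprime ja k₁ := by
  have hj1 := cop_k1 hc hja hjs hjg hk₁ hs₁ h12 h
  obtain ⟨u, v, hu, hv, huv, ⟨j', hj'⟩, ⟨g', hg'⟩⟩ :=
    prim_dvd_mul hja hg hk₂ (dvd_k2 hc hja hg hk₁ hk₂ hs₂ h12 h)
  have pj' : IsPrim j' := (hj' ▸ hja).of_mul_left hu
  have pg' : IsPrim g' := (hg' ▸ hg).of_mul_left hv
  have hg12 := dvd_g hc hg hgs hjg hk₁ hk₂ h
  have hgu : IsCoprime g' u := by
    have h1 : IsCoprime ja g' := hjg.of_isCoprime_of_dvd_right ⟨v, by rw [hg']; ring⟩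
    exact (h1.of_isCoprime_of_dvd_left ⟨j', hj'⟩).symm
  have hgv : IsCoprime g' v := by
    by_contra hh
    obtain ⟨p, hp, h1, h2⟩ := exists_pp pg' hh
    have : p * p ∣ g := by
      rw [hg']
      exact mul_dvd_mul h2 h1
    exact hp.2.not_isUnit (hgs p this)
  have hg2 : IsCoprime g' k₂ := by
    rw [huv]; exact hgu.mul_right hgv
  have hd : g' ∣ k₁ := by
    have : g' ∣ k₁ * k₂ := (Dvd.intro_left _ hg'.symm).trans hg12
    exact hg2.dvd_of_dvd_mul_right this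
  obtain ⟨k', hk'⟩ := hd
  exact ⟨u, v, j', g', k', hu, hv, pj', pg', (hk' ▸ hk₁).of_mul_left pg', huv, hj', hg', hk', hj1⟩

/-- **the value in the general case** -/
theorem th_gen_eq {c u v j' g' k' : Eis} (hc : IsC c) (hu : IsPrim u) (hv : IsPrim v)
    (hg' : IsPrim g') (hk' : IsPrim k') (hs : Squarefree k') (hjk : IsCoprime (j' * v) k') :
    th (c * (u * j') * (v * g') ^ 2 * ((g' * k') * (u * v) ^ 2)) =
      conj (Gh (c * (j' * v)) k') * (n6 k' : ℂ) * th (c * (j' * v)) := by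
  rw [show c * (u * j') * (v * g') ^ 2 * ((g' * k') * (u * v) ^ 2) =
      (c * (j' * v) * k') * (u * v * g') ^ 3 by ring, th_cube ((hu.mul hv).mul hg'),
    th_mul hk' hs ((cop_c hc hk').mul_left hjk)]

/-- the remaining coefficient -/
theorem th_c_mul {c j : Eis} (hc : IsC c) (hj : IsPrim j) (hs : Squarefree j) :
    th (c * j) = conj (Gh c j) * (n6 j : ℂ) * th c := th_mul hj hs (cop_c hc hj)

/-- the cube part of `k` drops -/
lemma th_drop_cube {h e : Eis} (he : IsPrim e) (x : Eis) : th (h * (x * e ^ 3)) = th (h * x) := by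
  rw [← mul_assoc, th_cube he]

end Crest.Agent.R017.E3s164
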