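import Crest.Agent.R017.E2l_440
import Crest.Agent.R017.E3s_164
import Crest.Agent.R017.DgA_829

/-!
# Row 17, block C70, leaf E2, part m (helper440): the truncated structured function, cross form

* `TE α x e` : `Σ_{m, e ∣ m, (j, δ m) = 1} α(δ m) n6 m Gh j m`, `x = (δ, j)`
* `StE E0 J om α k` : the structured function with truncated Moebius
* `VX α x e F K` : `Σ_k th(j e k) conj(sy (e k) δ) CS α (e k) F(nm(e k)/K)`
* `cross_eq` : cross form `= Σ_x Σ_e conj(om x) mu e conj(TE α x e) VX α x e F K`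
* `gcd_sum` : splitting of `Σ_n` by `g = gcd(n, δ)`
* `VX_eq` : `VX` through `VV`
-/

set_option autoImplicit false
set_option linter.unusedVariables false
set_option linter.unusedSectionVars false

noncomputable section

open Complex MeasureTheory
open scoped ComplexConjugate

namespace Crest.Agent.R017.E2440

open Crest.Agent.R012 Crest.Agent.R012.Eis Crest.Agent.R012.GaussLoc283
open Crest.Agent.R012.Mob705 hiding pb mem_pb
open Crest.Agent.R012.Div277
open Crest.Agent.R012.LS2 (S mem_S)
open Crest.Agent.R017.Sx545 (Sm sm_one_iff)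
open Crest.Agent.R017.PX764 (th Gh n6 cD)
open Crest.Agent.R017.F1
open Crest.Agent.R017.X6C180 (Sg fA cM n13 GF)
open Crest.Agent.R017.CM106 (CS FS sub)
open Crest.Agent.R017.C70 (JC CbF OKJ)
open Crest.Agent.R017.GrB829 (IsC)

/-! ### the objects -/

/-- the inner sum over the multiples of `e` -/
def TE (α : Eis → ℂ) (x : Eis × Eis) (e : Eis) : ℂ := by
  classical
  exact ∑' m : Eis, if e ∣ m ∧ IsCoprime x.2 (x.1 * m) then
    α (x.1 * m) * ((n6 m : ℂ) * Gh x.2 m) else 0

/-- the structured function, truncated Moebius -/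
def StE (E0 : ℝ) (J : Finset (Eis × Eis)) (om : Eis × Eis → ℂ) (α : Eis → ℂ) (k : Eis) : ℂ := by
  classical
  exact ∑ x ∈ J, om x * (sy k x.1 * conj (th (x.2 * k)) *
    ∑ e ∈ (S E0).filter (fun e => e ∣ k), (mu e : ℂ) * TE α x e)

/-- the inner `k`-sum of the cross form -/
def VX (α : Eis → ℂ) (x : Eis × Eis) (e : Eis) (F : ℝ → ℂ) (K : ℝ) : ℂ := by
  classical
  exact ∑' k : Eis, if IsPrim k then th (x.2 * (e * k)) * (conj (sy (e * k) x.1) *
    CS α (e * k)) * F ((nm (e * k) : ℝ) / K) else 0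

/-- finite support of a weight -/
lemma fin_wt {F : ℝ → ℂ} (hF : ∃ B : ℝ, ∀ x, F x ≠ 0 → x ≤ B) {K : ℝ} (hK : 0 < K) {e : Eis}
    (he : e ≠ 0) (g : Eis → ℂ) :
    (Function.support fun k : Eis => g k * F ((nm (e * k) : ℝ) / K)).Finite := by
  obtain ⟨B, hB⟩ := hF
  refine (finite_nm_le ⌊B * K⌋₊).subset fun k hk => ?_
  rw [Function.mem_support] at hk
  have h1 : F ((nm (e * k) : ℝ) / K) ≠ 0 := fun h => hk (by rw [h, mul_zero])
  have h2 := hB _ h1
  rw [div_le_iff₀ hK] at h2
  have h3 : (nm k : ℝ) ≤ nm (e * k) := by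
    rw [nm_mul]
    push_cast
    have := one_le_nm he
    nlinarith [Nat.cast_nonneg (α := ℝ) (nm k)]
  exact Nat.le_floor (h3.trans h2)

/-- reindexing by multiples -/
lemma tsum_mult {e : Eis} (he : IsPrim e) (g : Eis → ℂ) :
    (∑' k : Eis, by classical exact if IsPrim k ∧ e ∣ k then g k else 0) =
      ∑' k : Eis, by classical exact if IsPrim k then g (e * k) else 0 := by
  classical
  have hinj : Function.Injective (fun k : Eis => e * k) := fun x y h =>
    mul_left_cancel₀ he.ne_zero h
  have hsup : Function.support (fun k : Eis => if IsPrim k ∧ e ∣ k then g k else 0) ⊆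
      Set.range (fun k : Eis => e * k) := by
    intro k hk
    rw [Function.mem_support] at hk
    have : IsPrim k ∧ e ∣ k := by
      by_contra h
      exact hk (if_neg h)
    obtain ⟨r, hr⟩ := this.2
    exact ⟨r, hr.symm⟩
  rw [← hinj.tsum_eq hsup]
  refine tsum_congr fun k => ?_
  have : (IsPrim (e * k) ∧ e ∣ e * k) ↔ IsPrim k :=
    ⟨fun h => h.1.of_mul_left he, fun h => ⟨he.mul h, dvd_mul_right _ _⟩⟩
  simp only [this]

/-- **the cross form** -/
theorem cross_eq {α : Eis → ℂ} {F : ℝ → ℂ} (hF : ∃ B : ℝ, ∀ x, F x ≠ 0 → x ≤ B) {K : ℝ}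
    (hK : 0 < K) {E0 : ℝ} (hE0 : 0 ≤ E0) (J : Finset (Eis × Eis)) (om : Eis × Eis → ℂ) :
    (∑' k : Eis, by classical exact if IsPrim k then F ((nm k : ℝ) / K) *
      (CS α k * conj (StE E0 J om α k)) else 0) =
      ∑ x ∈ J, ∑ e ∈ S E0, conj (om x) * ((mu e : ℂ) * conj (TE α x e) * VX α x e F K) := by
  classical
  have hfin : ∀ g : Eis → ℂ, (Function.support fun k : Eis => g k * F ((nm k : ℝ) / K)).Finite := by
    intro g
    have := fin_wt hF hK (one_ne_zero : (1 : Eis) ≠ 0) g
    simpa using this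
  have h1 : ∀ k : Eis, (if IsPrim k then F ((nm k : ℝ) / K) *
      (CS α k * conj (StE E0 J om α k)) else 0) =
      ∑ x ∈ J, ∑ e ∈ S E0, conj (om x) * ((mu e : ℂ) * conj (TE α x e) *
        (if IsPrim k ∧ e ∣ k then th (x.2 * k) * (conj (sy k x.1) * CS α k) *
          F ((nm k : ℝ) / K) else 0)) := by
    intro k
    by_cases hk : IsPrim k
    · rw [if_pos hk]
      unfold StE
      rw [map_sum, Finset.mul_sum, Finset.mul_sum]
      refine Finset.sum_congr rfl fun x _ => ?_
      rw [map_mul, map_mul, map_mul, map_sum, Finset.sum_filter, Complex.conj_conj,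
        Finset.mul_sum, Finset.mul_sum, Finset.mul_sum, Finset.mul_sum]
      refine Finset.sum_congr rfl fun e _ => ?_
      by_cases he : e ∣ k
      · rw [if_pos he, if_pos ⟨hk, he⟩, map_mul, map_intCast]
        ring
      · rw [if_neg he, if_neg (fun h => he h.2), mul_zero, mul_zero]
        ring
    · rw [if_neg hk]
      symm
      refine Finset.sum_eq_zero fun x _ => Finset.sum_eq_zero fun e _ => ?_
      rw [if_neg (fun h => hk h.1), mul_zero, mul_zero]
  rw [tsum_congr h1]
  have hs : ∀ x ∈ J, ∀ e ∈ S E0, Summable fun k : Eis => conj (om x) * ((mu e : ℂ) *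
      conj (TE α x e) * (if IsPrim k ∧ e ∣ k then th (x.2 * k) * (conj (sy k x.1) * CS α k) *
          F ((nm k : ℝ) / K) else 0)) := by
    intro x _ e _
    refine summable_of_hasFiniteSupport ((hfin (fun k => conj (om x) * ((mu e : ℂ) *
      conj (TE α x e) * (if IsPrim k ∧ e ∣ k then th (x.2 * k) * (conj (sy k x.1) * CS α k)
        else 0)))).subset fun k hk => ?_)
    rw [Function.mem_support] at hk ⊢
    intro h
    apply hk
    rw [← h]
    split_ifs
    · ring
    · ring
  rw [Summable.tsum_finsetSum (fun x hx => summable_sum fun e he => hs x hx e he)]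
  refine Finset.sum_congr rfl fun x hx => ?_
  rw [Summable.tsum_finsetSum (fun e he => hs x hx e he)]
  refine Finset.sum_congr rfl fun e he => ?_
  have hep : IsPrim e := ((mem_S hE0).mp he).2.1
  rw [tsum_mul_left, tsum_mul_left, tsum_mult hep]
  rfl

/-! ### splitting by `g = gcd(n, δ)` -/

/-- the sequence `n' ↦ α(g n')`, `(n', δ) = 1` -/
def ag (α : Eis → ℂ) (δ g : Eis) (n : Eis) : ℂ := by
  classical
  exact if IsCoprime n δ then α (g * n) else 0

lemma ag_ne {α : Eis → ℂ} {δ g n : Eis} (h : ag α δ g n ≠ 0) : IsCoprime n δ ∧ α (g * n) ≠ 0 := by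
  classical
  unfold ag at h
  by_cases hc : IsCoprime n δ
  · rw [if_pos hc] at h
    exact ⟨hc, h⟩
  · rw [if_neg hc] at h
    exact absurd rfl h

lemma fs_ag {α : Eis → ℂ} (hα : FS α) {δ g : Eis} (hg : IsPrim g) : FS (ag α δ g) := by
  refine ⟨(hα.sub hg).fin.subset fun n hn => ?_, fun n hn => ?_⟩
  · exact (ag_ne hn).2
  · exact (hα.prim _ (ag_ne hn).2).of_mul_left hg

/-- the decomposition of `n` is unique -/
lemma count_gcd {δ n : Eis} (hδ : IsPrim δ) (hδs : Squarefree δ) (hn : IsPrim n)
    (hns : Squarefree n) (z : ℂ) :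
    ∑ x ∈ prs δ, (by classical exact if ∃ n', n = x.1 * n' ∧ IsCoprime n' δ then z else 0) = z := by
  classical
  obtain ⟨g, a, b, hg, ha, hb, h1, h2, hab, hga, hgb, -, -, -⟩ :=
    Tau671.exists_gcd_split hδ hn hδs hns
  rw [Finset.sum_eq_single (g, a)]
  · rw [if_pos]
    refine ⟨b, h2, ?_⟩
    rw [h1]
    exact hgb.symm.mul_right hab.symm
  · rintro ⟨g', a'⟩ hx hne
    rw [mem_prs hδ] at hx
    rw [if_neg]
    rintro ⟨n', h3, h4⟩
    apply hne
    obtain ⟨hg', ha', hx'⟩ := hx
    simp only at h3 hg' ha' hx'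
    have hn' : IsPrim n' := (h3 ▸ hn).of_mul_left hg'
    have h5 : g' = g := by
      refine hg'.eq_of_associated hg (associated_of_dvd_dvd ?_ ?_)
      · have h6 : g' ∣ g * b := by rw [← h2, h3]; exact dvd_mul_right _ _
        have h7 : g' ∣ g * a := by rw [← h1, ← hx']; exact dvd_mul_right _ _
        obtain ⟨u, v, huv⟩ := hab
        have : g = u * (g * a) + v * (g * b) := by
          calc g = g * (u * a + v * b) := by rw [huv, mul_one]
            _ = _ := by ring
        rw [this]
        exact dvd_add (h7.mul_left _) (h6.mul_left _)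
      · have h6 : g ∣ g' * n' := by rw [← h3, h2]; exact dvd_mul_right _ _
        have h7 : IsCoprime g n' := (h4.of_isCoprime_of_dvd_right (h1 ▸ dvd_mul_right g a)).symm
        exact h7.dvd_of_dvd_mul_right h6
    subst h5
    have : a' = a := mul_left_cancel₀ hg'.ne_zero (hx'.trans h1)
    rw [this]
  · intro h
    exfalso
    apply h
    rw [mem_prs hδ]
    exact ⟨hg, ha, h1.symm⟩

/-- **the splitting** -/
theorem gcd_sum {α : Eis → ℂ} (hα : FS α) (hs : ∀ n, α n ≠ 0 → Squarefree n) {δ : Eis}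
    (hδ : IsPrim δ) (hδs : Squarefree δ) (f : Eis → ℂ) :
    ∑' n : Eis, α n * f n = ∑ x ∈ prs δ, ∑' n : Eis, ag α δ x.1 n * f (x.1 * n) := by
  classical
  have h1 : ∀ n : Eis, α n * f n = ∑ x ∈ prs δ,
      (if ∃ n', n = x.1 * n' ∧ IsCoprime n' δ then α n * f n else 0) := by
    intro n
    by_cases h : α n = 0
    · rw [h, zero_mul]
      symm
      exact Finset.sum_eq_zero fun _ _ => by simp
    · exact (count_gcd hδ hδs (hα.prim n h) (hs n h) _).symm
  rw [tsum_congr h1, Summable.tsum_finsetSum]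
  · refine Finset.sum_congr rfl fun x hx => ?_
    rw [mem_prs hδ] at hx
    have hinj : Function.Injective (fun k : Eis => x.1 * k) := fun a b h =>
      mul_left_cancel₀ hx.1.ne_zero h
    rw [← hinj.tsum_eq]
    · refine tsum_congr fun n => ?_
      unfold ag
      have : (∃ n', x.1 * n = x.1 * n' ∧ IsCoprime n' δ) ↔ IsCoprime n δ := by
        constructor
        · rintro ⟨n', h3, h4⟩
          rwa [mul_left_cancel₀ hx.1.ne_zero h3]
        · intro h
          exact ⟨n, rfl, h⟩
      simp only [this]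
      split_ifs
      · rfl
      · rw [zero_mul]
    · intro n hn
      rw [Function.mem_support] at hn
      by_contra h
      apply hn
      rw [if_neg]
      rintro ⟨n', h3, -⟩
      exact h ⟨n', h3.symm⟩
  · intro x _
    refine summable_of_hasFiniteSupport (hα.fin.subset fun n hn => ?_)
    rw [Function.mem_support] at hn ⊢
    intro h
    apply hn
    rw [h]
    simp

end Crest.Agent.R017.E2440
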