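import Crest.Agent.R017.E3Me_829
import Crest.Agent.R017.E2m_440
import Crest.Agent.R012.CstDefs_566

/-!
# Row 17, block C70, leaf E3 (helper829): the natural diagonal for `Wgt` weights

* `exists_Wt`, `exists_W0` : `Wgt` weights satisfy the hypotheses of the diagonal theorems
* `TE_eq` : 440's `TE` is `DgB829.TT Y (aj ..)`
* **`nat_diag`** : the natural diagonal of `StE` is at most the main form plus explicit errors
* **`diag_total`** : the diagonal with the majorant, everything together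
-/

set_option autoImplicit false

noncomputable section

open scoped ComplexConjugate
open Finset MeasureTheory

namespace Crest.Agent.R017.E3M829

open Crest.Agent.R012 Crest.Agent.R012.Eis Crest.Agent.R012.Gauss880
open Crest.Agent.R012.LS2 (S mem_S)
open Crest.Agent.R012.Mob705 (IsPP pdiv mem_pdiv cop mem_cop pb mem_pb kap0 kap0_pos)
open Crest.Agent.R012.Div277 (tau)
open Crest.Agent.R017.E1551 (nmpos)
open Crest.Agent.R017.PX764 Crest.Agent.R017.C70 Crest.Agent.R017.GrB829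
open Crest.Agent.R017.GrD829 Crest.Agent.R017.E3s164 Crest.Agent.R017.E3A164
open Crest.Agent.R017.Maj829 (mj)
open Crest.Agent.R017.GrC829 (Wt)
open Crest.Agent.R017.DgB829

/-! ### weights -/

lemma exists_Wt {w : ℝ → ℝ} (hw : MC.Wgt w) :
    ∃ a₀ b₀ D : ℝ, Wt (fun t => (w t : ℂ)) a₀ b₀ D := by
  have hc : IsCompact (tsupport w) := hw.cpt
  obtain ⟨a₀, b₀, ha, hab, hsub⟩ : ∃ a₀ b₀ : ℝ, 0 < a₀ ∧ a₀ ≤ b₀ ∧
      tsupport w ⊆ Set.Icc a₀ b₀ := by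
    rcases (tsupport w).eq_empty_or_nonempty with h | h
    · exact ⟨1, 1, one_pos, le_rfl, by rw [h]; exact Set.empty_subset _⟩
    · obtain ⟨x, hx, hx'⟩ := hc.exists_isMinOn h continuousOn_id
      obtain ⟨y, hy, hy'⟩ := hc.exists_isMaxOn h continuousOn_id
      refine ⟨x, y, hw.pos hx, hx' hy, fun z hz => ⟨hx' hz, hy' hz⟩⟩
  have hsm : ContDiff ℝ 1 (fun t => (w t : ℂ)) :=
    Complex.ofRealCLM.contDiff.comp (hw.smooth.of_le (by exact_mod_cast le_top))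
  have hcs : HasCompactSupport (fun t => (w t : ℂ)) := by
    refine HasCompactSupport.intro hc fun t ht => ?_
    rw [image_eq_zero_of_notMem_tsupport ht]
    simp
  obtain ⟨D, hD⟩ := (hsm.continuous_deriv le_rfl).bounded_above_of_compact_support hcs.deriv
  refine ⟨a₀, b₀, D, ha, hab, hsm, fun t ht => ?_, hD⟩
  rw [image_eq_zero_of_notMem_tsupport (fun h => ht (hsub h))]
  simp

lemma exists_W0 {w : ℝ → ℝ} (hw : MC.Wgt w) (hw0 : ∀ x, 0 ≤ w x) :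
    ∃ W b₀ : ℝ, 0 < b₀ ∧ W0 w W b₀ := by
  obtain ⟨a₀, b₀, D, h⟩ := exists_Wt hw
  obtain ⟨W, hW⟩ := hw.smooth.continuous.bounded_above_of_compact_support hw.cpt
  refine ⟨W, b₀, h.pos.trans_le h.le, hw0, fun x => (le_abs_self _).trans (hW x), fun x hx => ?_⟩
  have h1 := h.supp x (fun h' => absurd h'.2 (not_le.mpr hx))
  exact_mod_cast h1

/-! ### `TE` -/

lemma TE_eq {α : Eis → ℂ} {Y : ℝ} (hY : 0 ≤ Y) (hα : Sup α Y) {x : Eis × Eis} (hδ : IsPrim x.1)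
    (e : Eis) : E2440.TE α x e = TT Y (aj α x.1 x.2) e := by
  classical
  unfold E2440.TE TT
  rw [tsum_eq_sum (s := S Y)]
  · refine sum_congr rfl fun m _ => ?_
    unfold aj
    by_cases h1 : e ∣ m
    · by_cases h2 : IsCoprime x.2 (x.1 * m)
      · rw [if_pos ⟨h1, h2⟩, if_pos h1, if_pos h2]
      · rw [if_neg (fun h => h2 h.2), if_pos h1, if_neg h2]
    · rw [if_neg (fun h => h1 h.1), if_neg h1]
  · intro m hm
    by_contra h
    refine hm (aj_supp hY hα (j := x.2) hδ ?_).1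
    unfold aj
    split_ifs at h with h1
    · rwa [if_pos h1.2]
    · exact absurd rfl h

/-- `TE` as a function of three variables -/
def Tal (α : Eis → ℂ) (d e j : Eis) : ℂ := E2440.TE α (d, j) e

lemma Tal_cop {α : Eis → ℂ} (d e j : Eis) (h : Tal α d e j ≠ 0) : IsCoprime j e := by
  classical
  unfold Tal E2440.TE at h
  by_contra hc
  apply h
  have h0 : ∀ m : Eis, (if e ∣ m ∧ IsCoprime (d, j).2 ((d, j).1 * m) then
      α ((d, j).1 * m) * ((n6 m : ℂ) * Gh (d, j).2 m) else 0) = 0 := fun m => if_neg (by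
    rintro ⟨h1, h2⟩
    exact hc (h2.of_mul_right_right.of_isCoprime_of_dvd_right h1))
  rw [tsum_congr h0, tsum_zero]

lemma SteT_Tal (J : Finset (Eis × Eis)) (om : Eis × Eis → ℂ) (E0 : ℝ) (α : Eis → ℂ) (k : Eis) :
    SteT J om E0 (Tal α) k = E2440.StE E0 J om α k := by
  classical
  unfold SteT E2440.StE Tal
  rfl

lemma DTx_Tal {α : Eis → ℂ} {Y : ℝ} (hY : 0 ≤ Y) (hα : Sup α Y) {x : Eis × Eis}
    (hδ : IsPrim x.1) (E0 : ℝ) (k : Eis) :
    DTx E0 (Tal α) x k = DT E0 Y (aj α x.1 x.2) k := by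
  classical
  unfold DTx DT
  rw [sum_filter]
  refine sum_congr rfl fun e _ => ?_
  by_cases h : e ∣ k
  · rw [if_pos h, if_pos h]
    unfold Tal
    rw [show ((x.1, x.2) : Eis × Eis) = x from rfl, TE_eq hY hα hδ]
  · rw [if_neg h, if_neg h]

/-! ### the natural diagonal -/

lemma MS_real (w : ℝ → ℝ) (K : ℝ) (j b : Eis) (F : Eis → ℂ) :
    MS (fun t => (w t : ℂ)) K j b F = ((MSr w K j b F : ℝ) : ℂ) := by
  classical
  unfold MS MSr
  rw [Complex.ofReal_tsum]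
  refine tsum_congr fun k => ?_
  by_cases h : IsPrim k ∧ IsCoprime k b
  · rw [if_pos h, if_pos h]; push_cast; ring
  · rw [if_neg h, if_neg h]; simp

/-- the mean of the weight -/
def Iw (w : ℝ → ℝ) : ℝ := ∫ t in Set.Ioi (0 : ℝ), t ^ (-(1 : ℝ) / 3) * w t

lemma Iw_cast (w : ℝ → ℝ) : (∫ t in Set.Ioi (0 : ℝ), ((t ^ (-(1 : ℝ) / 3) : ℝ) : ℂ) * (w t : ℂ)) =
    ((Iw w : ℝ) : ℂ) := by
  unfold Iw
  rw [← integral_complex_ofReal]
  refine integral_congr_ae (Filter.Eventually.of_forall fun t => ?_)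
  push_cast
  rfl

lemma Iw_nonneg {w : ℝ → ℝ} (hw0 : ∀ x, 0 ≤ w x) : 0 ≤ Iw w := by
  unfold Iw
  refine setIntegral_nonneg measurableSet_Ioi fun t ht => ?_
  have : (0 : ℝ) < t := ht
  exact mul_nonneg (by positivity) (hw0 t)

/-- the error of the natural diagonal -/
def ND (w : ℝ → ℝ) (a₀ b₀ D K E0 Y lam : ℝ) (J : Finset (Eis × Eis)) (om : Eis × Eis → ℂ)
    (α : Eis → ℂ) : ℝ :=
  ∑ x ∈ J, ‖om x‖ ^ 2 * R1 a₀ b₀ D K E0 Y α x + (kap0 * K ^ (2 / 3 : ℝ)) * |Iw w| *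
        (HS Y * (lam * ∑ x ∈ J, ‖om x‖ ^ 2 * M2o E0 Y α x +
          lam⁻¹ * ∑ x ∈ J, ‖om x‖ ^ 2 * M2 Y α x))

/-- **the natural diagonal** -/
theorem nat_diag {w : ℝ → ℝ} {a₀ b₀ D : ℝ} (h : Wt (fun t => (w t : ℂ)) a₀ b₀ D) {K : ℝ}
    (hK : 0 < K) {E0 Y : ℝ} (hE : 0 ≤ E0) (hEY : E0 ≤ Y) {α : Eis → ℂ} (hα : Sup α Y)
    {J : Finset (Eis × Eis)} (hJ : OKJ J) (om : Eis × Eis → ℂ) {lam : ℝ} (hl : 0 < lam) :
    |∑ x ∈ J, ‖om x‖ ^ 2 * MSr w K x.2 x.1 (DTx E0 (Tal α) x) -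
      kap0 * K ^ (2 / 3 : ℝ) * Iw w * (XJw J om α).re| ≤ ND w a₀ b₀ D K E0 Y lam J om α := by
  have hY : 0 ≤ Y := hE.trans hEY
  have h1 := diag_XJ h hK hE hEY hα hJ om hl
  rw [Iw_cast] at h1
  have e1 : ∑ x ∈ J, ((‖om x‖ ^ 2 : ℝ) : ℂ) * MS (fun t => (w t : ℂ)) K x.2 x.1
      (DT E0 Y (aj α x.1 x.2)) =
      ((∑ x ∈ J, ‖om x‖ ^ 2 * MSr w K x.2 x.1 (DTx E0 (Tal α) x) : ℝ) : ℂ) := by
    rw [Complex.ofReal_sum]
    refine sum_congr rfl fun x hx => ?_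
    rw [MS_real]
    have e2 : DTx E0 (Tal α) x = DT E0 Y (aj α x.1 x.2) :=
      funext fun k => DTx_Tal hY hα (hJ.prim x hx) E0 k
    rw [e2]
    push_cast
    rfl
  rw [e1] at h1
  have h2 := (Complex.abs_re_le_norm _).trans h1
  rw [Complex.sub_re, Complex.ofReal_re, ← Complex.ofReal_mul, Complex.re_ofReal_mul,
    Complex.norm_real, Real.norm_eq_abs] at h2
  exact h2

/-- **everything together: the diagonal with the majorant** -/
theorem diag_total {w : ℝ → ℝ} {a₀ b₀ D W : ℝ} (h : Wt (fun t => (w t : ℂ)) a₀ b₀ D)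
    (hw : W0 w W b₀) {K : ℝ} (hK : 0 < K) {B : ℝ} (hB : 1 ≤ B) {E0 Y : ℝ} (hE : 0 ≤ E0)
    (hEY : E0 ≤ Y) {α : Eis → ℂ} (hα : Sup α Y) {J : Finset (Eis × Eis)} (hJ : OKJ J)
    (om : Eis × Eis → ℂ) {lam : ℝ} (hl : 0 < lam) (R E1 : ℝ) {τ : ℝ} (hτ0 : 0 ≤ τ)
    (hτ : ∀ m : Eis, (nm m : ℝ) ≤ b₀ * K → (tau m : ℝ) ≤ τ) : open Classical in
    ∑ q ∈ S R, ∑ t ∈ pb E1, (∑' k₁ : Eis, if IsPrim k₁ ∧ IsCoprime k₁ q then
      mj B k₁ ^ 2 * w ((nm (k₁ * q ^ 2 * t ^ 3) : ℝ) / K) *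
        Dg J om (Tal α) E0 R q t k₁ else 0) ≤
    kap0 * K ^ (2 / 3 : ℝ) * Iw w * (XJw J om α).re + ND w a₀ b₀ D K E0 Y lam J om α +
      450 * W * τ ^ 3 * (b₀ * K) ^ (2 / 3 : ℝ) * B⁻¹ * Hp (b₀ * K) ^ 3 *
        ∑ x ∈ J, MF om (Tal α) E0 x := by
  have h1 := diag_maj (om := om) (R := R) hw (h.pos.le.trans h.le) hK hB hJ hE
    (fun d e j => Tal_cop (α := α) d e j) E1 hτ0 hτ
  have h2 := (le_abs_self _).trans (nat_diag h hK hE hEY hα hJ om hl)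
  linarith

end Crest.Agent.R017.E3M829
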