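import Crest.Agent.R017.E3Mg_829
import Crest.Agent.R017.E3Mf_829

/-!
# Row 17, block C70, leaf E3 (helper829): the truncated main form, arbitrary `T`

* `BT E0 U V` : the density form `Σ_{t,t' ∈ S E0} μ(t) μ(t') U_t conj V_{t'} / N(lcm)`
* **`truncU`** : the smooth mean square of `th(jk) Σ_{t ∣ k, t ∈ S E0} μ(t) U_t`
* `XT J om E0 T` : the truncated main form;  **`nat_trunc`**, **`diag_trunc`**, **`gram_T`**
-/

set_option autoImplicit false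

noncomputable section

open scoped ComplexConjugate
open Finset MeasureTheory

namespace Crest.Agent.R017.E3M829

open Crest.Agent.R012 Crest.Agent.R012.Eis Crest.Agent.R012.Gauss880
open Crest.Agent.R012.LS2 (S mem_S)
open Crest.Agent.R012.Mob705 (mu IsPP pdiv mem_pdiv cop mem_cop pb mem_pb kap0 kap0_pos PE PE_pos
  PE_le_one)
open Crest.Agent.R012.Div277 (tau)
open Crest.Agent.R017.E1551 (nmpos)
open Crest.Agent.R017.PX764 Crest.Agent.R017.C70 Crest.Agent.R017.GrB829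
open Crest.Agent.R017.GrD829 Crest.Agent.R017.E3s164 Crest.Agent.R017.E3A164
open Crest.Agent.R017.Maj829 (mj)
open Crest.Agent.R017.GrC829 (Wt)
open Crest.Agent.R017.GrE579 (GDE GDE_cop cbF_of_sqf)
open Crest.Agent.R017.DgB829
open Crest.Agent.R017.DgA829 (lc lc_dvd lc_prim nm_lc)

/-- the density form -/
def BT (E0 : ℝ) (U V : Eis → ℂ) : ℂ :=
  ∑ t ∈ S E0, ∑ t' ∈ S E0, ((mu t : ℂ) * (mu t' : ℂ) * (U t * conj (V t'))) *
    ((nm (lc t t') : ℝ) : ℂ)⁻¹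

open Classical in
/-- the truncated Moebius sum of `U` -/
def DU (E0 : ℝ) (U : Eis → ℂ) (k : Eis) : ℂ :=
  ∑ t ∈ S E0, if t ∣ k then (mu t : ℂ) * U t else 0

section

variable {φ : ℝ → ℂ} {a₀ b₀ D : ℝ}

/-- the expansion -/
theorem expandU (h : Wt φ a₀ b₀ D) {X : ℝ} (hX : 0 < X) (j b : Eis) {E₀ : ℝ} (hE : 0 ≤ E₀)
    (U : Eis → ℂ) :
    MS φ X j b (DU E₀ U) = ∑ t ∈ S E₀, ∑ t' ∈ S E₀,
      ((mu t : ℂ) * (mu t' : ℂ) * (U t * conj (U t'))) * GDE φ X j b (lc t t') := by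
  classical
  rw [MS_fin h hX]
  simp_rw [GDE_fin h hX, Finset.mul_sum]
  rw [Finset.sum_congr rfl (fun t _ => Finset.sum_comm), Finset.sum_comm]
  refine Finset.sum_congr rfl fun k _ => ?_
  have e1 : ((‖DU E₀ U k‖ ^ 2 : ℝ) : ℂ) = DU E₀ U k * conj (DU E₀ U k) := by
    rw [Complex.mul_conj, Complex.normSq_eq_norm_sq]
  have e2 : ((‖th (j * k)‖ ^ 2 * ‖DU E₀ U k‖ ^ 2 : ℝ) : ℂ) =
      ((‖th (j * k)‖ ^ 2 : ℝ) : ℂ) * ((‖DU E₀ U k‖ ^ 2 : ℝ) : ℂ) := by push_cast; ring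
  rw [e2, e1]
  unfold DU
  rw [map_sum, Finset.sum_mul_sum, Finset.mul_sum, Finset.mul_sum]
  refine Finset.sum_congr rfl fun t ht => ?_
  rw [Finset.mul_sum, Finset.mul_sum]
  refine Finset.sum_congr rfl fun t' ht' => ?_
  have hl := lc_dvd ((mem_S hE).1 ht).2.1 ((mem_S hE).1 ht').2.1 k
  by_cases h1 : t ∣ k
  · by_cases h2 : t' ∣ k
    · rw [if_pos h1, if_pos h2, if_pos (hl.mpr ⟨h1, h2⟩), map_mul]
      have e3 : conj (mu t' : ℂ) = (mu t' : ℂ) := by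
        rw [← Complex.ofReal_intCast, Complex.conj_ofReal]
      rw [e3]
      ring
    · rw [if_neg h2, if_neg (fun hh => h2 (hl.mp hh).2)]
      simp
  · rw [if_neg h1, if_neg (fun hh => h1 (hl.mp hh).1)]
    simp

/-- the sum of the error term -/
def Eu (E₀ : ℝ) (U : Eis → ℂ) : ℝ :=
  (∑ t ∈ S E₀, (tau t : ℝ) ^ 2 * (nm t : ℝ) ^ (-(1 : ℝ) / 4) * ‖U t‖) ^ 2

/-- **the truncated diagonal, arbitrary `U`** -/
theorem truncU (h : Wt φ a₀ b₀ D) {X : ℝ} (hX : 0 < X) {j b : Eis} (hj : JC j)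
    (hb : b ≠ 0) (hjb : IsCoprime j b) {E₀ : ℝ} (hE : 0 ≤ E₀) (U : Eis → ℂ)
    (hU : ∀ t, U t ≠ 0 → IsCoprime t b ∧ IsCoprime j t) :
    ‖MS φ X j b (DU E₀ U) -
      (((kap0 * PE b * (nm j : ℝ) ^ (-(1 : ℝ) / 3) * X ^ (2 / 3 : ℝ) : ℝ) : ℂ) *
      ∫ t in Set.Ioi (0 : ℝ), ((t ^ (-(1 : ℝ) / 3) : ℝ) : ℂ) * φ t) * BT E₀ U U‖ ≤
      Ec a₀ b₀ D X j b * Eu E₀ U := by
  have hj0 := GrE579.JC.ne_zero hj
  set I := ∫ t in Set.Ioi (0 : ℝ), ((t ^ (-(1 : ℝ) / 3) : ℝ) : ℂ) * φ t with hI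
  set c : ℝ := kap0 * PE b * (nm j : ℝ) ^ (-(1 : ℝ) / 3) * X ^ (2 / 3 : ℝ) with hc
  have h1 : ∀ t ∈ S E₀, ∀ t' ∈ S E₀,
      ‖((mu t : ℂ) * (mu t' : ℂ) * (U t * conj (U t'))) * GDE φ X j b (lc t t') -
        ((c : ℂ) * I) * (((mu t : ℂ) * (mu t' : ℂ) * (U t * conj (U t'))) *
          ((nm (lc t t') : ℝ) : ℂ)⁻¹)‖ ≤
      Ec a₀ b₀ D X j b * (((tau t : ℝ) ^ 2 * (nm t : ℝ) ^ (-(1 : ℝ) / 4) * ‖U t‖) *
        ((tau t' : ℝ) ^ 2 * (nm t' : ℝ) ^ (-(1 : ℝ) / 4) * ‖U t'‖)) := by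
    intro t ht t' ht'
    have p1 := (mem_S hE).1 ht
    have p2 := (mem_S hE).1 ht'
    by_cases z1 : U t = 0
    · rw [z1]; simp
    by_cases z2 : U t' = 0
    · rw [z2]; simp
    obtain ⟨c1, c2⟩ := hU t z1
    obtain ⟨c3, c4⟩ := hU t' z2
    have hl' := lc_prim p1.2.1 p2.2.1
    have hd : lc t t' ∣ t * t' :=
      (lc_dvd p1.2.1 p2.2.1 _).mpr ⟨dvd_mul_right _ _, dvd_mul_left _ _⟩
    obtain ⟨g, -, -, -, -, -, hsq⟩ := nm_lc p1.2.1 p2.2.1 p1.2.2 p2.2.2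
    have h2 := GDE_cop h hX hj hb hjb hl' ((c1.mul_left c3).of_isCoprime_of_dvd_left hd)
      (cbF_of_sqf hsq) ((c2.mul_right c4).of_isCoprime_of_dvd_right hd)
    have h3 := h2.trans (err_le h hX (b := b) hj p1.2.1 p2.2.1 p1.2.2 p2.2.2)
    have e1 : ((mu t : ℂ) * (mu t' : ℂ) * (U t * conj (U t'))) *
        GDE φ X j b (lc t t') -
        ((c : ℂ) * I) * (((mu t : ℂ) * (mu t' : ℂ) * (U t * conj (U t'))) *
          ((nm (lc t t') : ℝ) : ℂ)⁻¹) =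
        ((mu t : ℂ) * (mu t' : ℂ) * (U t * conj (U t'))) * (GDE φ X j b (lc t t') -
          ((kap0 * PE b * (nm j : ℝ) ^ (-(1 : ℝ) / 3) * (1 / (nm (lc t t') : ℝ)) *
            X ^ (2 / 3 : ℝ) : ℝ) : ℂ) * I) := by
      rw [hc]
      push_cast
      ring
    rw [e1, norm_mul]
    have h4 : ‖(mu t : ℂ) * (mu t' : ℂ) * (U t * conj (U t'))‖ ≤ ‖U t‖ * ‖U t'‖ := by
      rw [norm_mul, norm_mul, norm_mul, RCLike.norm_conj]
      calc ‖(mu t : ℂ)‖ * ‖(mu t' : ℂ)‖ * (‖U t‖ * ‖U t'‖) ≤ 1 * 1 * (‖U t‖ * ‖U t'‖) := by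
            have := norm_mu_le t
            have := norm_mu_le t'
            gcongr
        _ = _ := by ring
    calc _ ≤ (‖U t‖ * ‖U t'‖) * (Ec a₀ b₀ D X j b *
          (((tau t : ℝ) ^ 2 * (nm t : ℝ) ^ (-(1 : ℝ) / 4)) *
            ((tau t' : ℝ) ^ 2 * (nm t' : ℝ) ^ (-(1 : ℝ) / 4)))) :=
          mul_le_mul h4 h3 (norm_nonneg _) (by positivity)
      _ = _ := by ring
  unfold BT Eu
  rw [expandU h hX j b hE U, Finset.mul_sum, ← Finset.sum_sub_distrib, sq,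
    Finset.sum_mul_sum, Finset.mul_sum]
  refine (norm_sum_le _ _).trans (Finset.sum_le_sum fun t ht => ?_)
  rw [Finset.mul_sum, ← Finset.sum_sub_distrib, Finset.mul_sum]
  exact (norm_sum_le _ _).trans (Finset.sum_le_sum fun t' ht' => h1 t ht t' ht')

end

/-! ### real weights -/

/-- the truncated main form -/
def XT (J : Finset (Eis × Eis)) (om : Eis × Eis → ℂ) (E0 : ℝ) (T : Eis → Eis → Eis → ℂ) : ℝ :=
  ∑ x ∈ J, ‖om x‖ ^ 2 * ((nm x.2 : ℝ) ^ (-(1 : ℝ) / 3) * PE x.1) *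
    (BT E0 (fun t => T x.1 t x.2) (fun t => T x.1 t x.2)).re

/-- the error of the truncated main form -/
def ET (a₀ b₀ D K : ℝ) (J : Finset (Eis × Eis)) (om : Eis × Eis → ℂ) (E0 : ℝ)
    (T : Eis → Eis → Eis → ℂ) : ℝ :=
  ∑ x ∈ J, ‖om x‖ ^ 2 * (Ec a₀ b₀ D K x.2 x.1 * Eu E0 (fun t => T x.1 t x.2))

lemma DTx_eq (E0 : ℝ) (T : Eis → Eis → Eis → ℂ) (x : Eis × Eis) :
    DTx E0 T x = DU E0 (fun t => T x.1 t x.2) := by
  classical
  funext k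
  unfold DTx DU
  rw [sum_filter]

section

variable {J : Finset (Eis × Eis)} {om : Eis × Eis → ℂ} {T : Eis → Eis → Eis → ℂ}
  {w : ℝ → ℝ} {W a₀ b₀ D K B E0 R τ : ℝ}

/-- **the natural diagonal, truncated main form** -/
theorem nat_trunc (h : Wt (fun t => (w t : ℂ)) a₀ b₀ D) (hK : 0 < K) (hE : 0 ≤ E0)
    (hT : TC T) (hJ : OKJ J) :
    |∑ x ∈ J, ‖om x‖ ^ 2 * MSr w K x.2 x.1 (DTx E0 T x) -
      kap0 * K ^ (2 / 3 : ℝ) * Iw w * XT J om E0 T| ≤ ET a₀ b₀ D K J om E0 T := by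
  unfold XT ET
  rw [mul_sum, ← sum_sub_distrib]
  refine (abs_sum_le_sum_abs _ _).trans (sum_le_sum fun x hx => ?_)
  have hδ := hJ.prim x hx
  have hj := hJ.jc x hx
  have key : |MSr w K x.2 x.1 (DTx E0 T x) - kap0 * K ^ (2 / 3 : ℝ) * Iw w *
      (((nm x.2 : ℝ) ^ (-(1 : ℝ) / 3) * PE x.1) *
        (BT E0 (fun t => T x.1 t x.2) (fun t => T x.1 t x.2)).re)| ≤
      Ec a₀ b₀ D K x.2 x.1 * Eu E0 (fun t => T x.1 t x.2) := by
    rw [DTx_eq]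
    by_cases hc : IsCoprime x.2 x.1
    · have h1 := truncU h hK hj hδ.ne_zero hc hE (fun t => T x.1 t x.2)
        (fun t ht => ⟨(hT _ _ _ ht).2.2, (hT _ _ _ ht).1⟩)
      rw [Iw_cast, MS_real, ← Complex.ofReal_mul] at h1
      have h2 := (Complex.abs_re_le_norm _).trans h1
      rw [Complex.sub_re, Complex.ofReal_re, Complex.re_ofReal_mul] at h2
      refine le_trans (le_of_eq ?_) h2
      congr 2
      ring
    · have hz : (fun t => T x.1 t x.2) = fun _ => 0 := by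
        funext t
        by_contra hne
        exact hc (hT _ _ _ hne).2.1
      have hEc := Ec_nonneg h hK (b := x.1) (GrE579.JC.ne_zero hj)
      have e1 : DU E0 (fun _ : Eis => (0 : ℂ)) = fun _ => 0 := by
        classical
        funext k
        unfold DU
        simp
      have e2 : MSr w K x.2 x.1 (fun _ => 0) = 0 := by
        classical
        unfold MSr
        simp
      rw [hz, e1, e2]
      have e3 : BT E0 (fun _ => 0) (fun _ => 0) = 0 := by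
        unfold BT
        simp
      rw [e3]
      simp only [Complex.zero_re, mul_zero, sub_zero, abs_zero]
      unfold Eu
      positivity
  have e4 : ‖om x‖ ^ 2 * MSr w K x.2 x.1 (DTx E0 T x) - kap0 * K ^ (2 / 3 : ℝ) * Iw w *
      (‖om x‖ ^ 2 * ((nm x.2 : ℝ) ^ (-(1 : ℝ) / 3) * PE x.1) *
        (BT E0 (fun t => T x.1 t x.2) (fun t => T x.1 t x.2)).re) =
      ‖om x‖ ^ 2 * (MSr w K x.2 x.1 (DTx E0 T x) - kap0 * K ^ (2 / 3 : ℝ) * Iw w *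
      (((nm x.2 : ℝ) ^ (-(1 : ℝ) / 3) * PE x.1) *
        (BT E0 (fun t => T x.1 t x.2) (fun t => T x.1 t x.2)).re)) := by ring
  rw [e4, abs_mul, abs_of_nonneg (by positivity : (0 : ℝ) ≤ ‖om x‖ ^ 2)]
  exact mul_le_mul_of_nonneg_left key (by positivity)

/-- the mass -/
def MB (W b₀ K B τ : ℝ) (J : Finset (Eis × Eis)) (om : Eis × Eis → ℂ) (E0 : ℝ)
    (T : Eis → Eis → Eis → ℂ) : ℝ :=
  450 * W * τ ^ 3 * (b₀ * K) ^ (2 / 3 : ℝ) * B⁻¹ * Hp (b₀ * K) ^ 3 * ∑ x ∈ J, MF om T E0 x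

open Classical in
/-- the sum with the majorant of `F` -/
def Sg (w : ℝ → ℝ) (K B R E1 : ℝ) (F : Eis → Eis → Eis → ℝ) : ℝ :=
  ∑ q ∈ S R, ∑ t ∈ pb E1, (∑' k₁ : Eis, if IsPrim k₁ ∧ IsCoprime k₁ q then
      mj B k₁ ^ 2 * w ((nm (k₁ * q ^ 2 * t ^ 3) : ℝ) / K) * F q t k₁ else 0)

/-- **the diagonal with the majorant, truncated main form** -/
theorem diag_trunc (h : Wt (fun t => (w t : ℂ)) a₀ b₀ D) (hw : W0 w W b₀) (hK : 0 < K)
    (hB : 1 ≤ B) (hJ : OKJ J) (hE : 0 ≤ E0) (hT : TC T) (R E1 : ℝ) (hτ0 : 0 ≤ τ)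
    (hτ : ∀ m : Eis, (nm m : ℝ) ≤ b₀ * K → (tau m : ℝ) ≤ τ) :
    Sg w K B R E1 (fun q t k₁ => Dg J om T E0 R q t k₁) ≤
      kap0 * K ^ (2 / 3 : ℝ) * Iw w * XT J om E0 T + ET a₀ b₀ D K J om E0 T +
        MB W b₀ K B τ J om E0 T := by
  have h1 := diag_maj (om := om) (R := R) hw (h.pos.le.trans h.le) hK hB hJ hE
    (fun d e j hh => (hT d e j hh).1) E1 hτ0 hτ
  have h2 := (le_abs_self _).trans (nat_trunc (om := om) h hK hE hT hJ)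
  unfold Sg MB
  linarith

open Classical in
/-- **the cut Gram form from the bound of the off-diagonal pairs** -/
theorem gram_T (h : Wt (fun t => (w t : ℂ)) a₀ b₀ D) (hw : W0 w W b₀) (hK : 0 < K)
    (hB : 1 ≤ B) (hJ : OKJ J) (hE : 0 ≤ E0) (hT : TC T) (hR : ∀ x ∈ J, (nm x.2 : ℝ) ≤ R)
    (E1 : ℝ) (hτ0 : 0 ≤ τ) (hτ : ∀ m : Eis, (nm m : ℝ) ≤ b₀ * K → (tau m : ℝ) ≤ τ) {OFF : ℝ}
    (hoff : Sg w K B R E1 (fun q t k₁ => ‖∑ y ∈ Ys J E0 R, Fy J om T q t k₁ y‖ ^ 2) ≤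
      Sg w K B R E1 (fun q t k₁ => Dg J om T E0 R q t k₁) + OFF) :
    (∑' k : Eis, if IsPrim k ∧ Cut E1 k then
      w ((nm k : ℝ) / K) * ‖SteT J om E0 T k‖ ^ 2 else 0) ≤
      kap0 * K ^ (2 / 3 : ℝ) * Iw w * XT J om E0 T + ET a₀ b₀ D K J om E0 T +
        MB W b₀ K B τ J om E0 T + OFF := by
  have h1 := cut_le (om := om) (T := T) hw hK hB hJ hR E0 E1
  have h2 := diag_trunc (om := om) h hw hK hB hJ hE hT R E1 hτ0 hτ
  have h3 : (∑' k : Eis, if IsPrim k ∧ Cut E1 k then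
      w ((nm k : ℝ) / K) * ‖SteT J om E0 T k‖ ^ 2 else 0) ≤
      Sg w K B R E1 (fun q t k₁ => ‖∑ y ∈ Ys J E0 R, Fy J om T q t k₁ y‖ ^ 2) := h1
  linarith

end

end Crest.Agent.R017.E3M829
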