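import Crest.Agent.R017.E3F_548
import Crest.Agent.R017.E3Mh_829

/-!
# Row 17, R8 (E3), outer assembly (helper548)

* `off_pairs` : the off-diagonal part with the majorant is at most the sum over the pairs
  `(q, t, y, y', b, b', s)` of `pf * ‖PD‖`
-/

set_option autoImplicit false
set_option linter.unusedVariables false

noncomputable section

open Finset
open scoped ComplexConjugate
open scoped Classical

namespace Crest.Agent.R017.E3F548

open Crest.Agent.R012 Crest.Agent.R012.Eis Crest.Agent.R012.Mob705 Crest.Agent.R012.Gauss880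
open Crest.Agent.R012.LS2
open Crest.Agent.R017.CM106
open Crest.Agent.R017.PX764 Crest.Agent.R017.C70 Crest.Agent.R017.GrB829 Crest.Agent.R017.GrD829
open Crest.Agent.R017.E3s164 Crest.Agent.R017.E3A164
open Crest.Agent.R017.DgA829 (lc lc_prim lc_dvd)
open Crest.Agent.R017.E3M829 (PP mem_PP AE W0 Sg)

section

variable {J : Finset (Eis × Eis)} {om : Eis × Eis → ℂ} {T : Eis → Eis → Eis → ℂ} {q t : Eis}
  {R E0 K B E1 W b₀ : ℝ} {w : ℝ → ℝ}

lemma AE_eq (z : Eis × Eis × Eis × Eis) (k₁ : Eis) :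
    AE J om T E0 q t k₁ z = ∑ e ∈ S E0, fn J om T q t k₁ (z.1, e, z.2.1, z.2.2.1) z.2.2.2 := rfl

lemma Dg_eq (k₁ : Eis) : E3M829.Dg J om T E0 R q t k₁ = Dg J om T E0 R q t k₁ := by
  unfold E3M829.Dg Dg PP
  rw [sum_filter]
  simp only [sum_product]
  refine sum_congr rfl fun d _ => sum_congr rfl fun c _ => sum_congr rfl fun g _ =>
    sum_congr rfl fun n _ => ?_
  split_ifs with h
  · rw [AE_eq]
  · have h0 : ∀ e, fn J om T q t k₁ (d, e, c, g) n = 0 := by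
      intro e
      have h1 : be J om T q (d, e, c, g) n = 0 := by
        by_contra hne
        obtain ⟨_, _, b3, b4⟩ := be_ne hne
        exact h ⟨b3, b4⟩
      unfold fn
      rw [h1]
      simp
    simp [h0]

/-- the summand of the off-diagonal part -/
def OP (w : ℝ → ℝ) (K B : ℝ) (J : Finset (Eis × Eis)) (om : Eis × Eis → ℂ)
    (T : Eis → Eis → Eis → ℂ) (E0 R b₀ : ℝ) (q t : Eis) : ℝ :=
  ∑ y ∈ Ys J E0 R, ∑ y' ∈ Ys J E0 R, ∑ b ∈ S B, ∑ b' ∈ S B, ∑ s ∈ pdiv q,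
    if Cop (MM q t y y' b b' s) y y' ∧ (nm (MM q t y y' b b' s * q ^ 2 * t ^ 3) : ℝ) ≤ b₀ * K then
      pf K q t y y' * ‖PD w K J om T R q t (MM q t y y' b b' s) y y'‖ else 0

lemma pf_nonneg (hK : 0 ≤ K) (y y' : Yp) : 0 ≤ pf K q t y y' := by
  unfold pf; positivity

/-- one tuple `(y, y', b, b', s)` -/
lemma one_tuple (hw : W0 w W b₀) (hK : 0 < K) (hJ : OKJ J) (hq : IsPrim q) (ht : IsPrim t)
    {y y' : Yp} (hy : y ∈ Ys J E0 R) (hy' : y' ∈ Ys J E0 R) {b b' s : Eis} (hb : IsPrim b)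
    (hb' : IsPrim b') (hs : IsPrim s) {N : ℕ} (hN : ∀ k : Eis, N < nm k → w (nm k / K) = 0) :
    ‖∑ k₁ ∈ primBall N, (if MM q t y y' b b' s ∣ k₁ then
      ((w (nm (k₁ * q ^ 2 * t ^ 3) / K) : ℝ) : ℂ) * Xk J om T R q t y y' k₁ else 0)‖ ≤
      if Cop (MM q t y y' b b' s) y y' ∧ (nm (MM q t y y' b b' s * q ^ 2 * t ^ 3) : ℝ) ≤ b₀ * K then
      pf K q t y y' * ‖PD w K J om T R q t (MM q t y y' b b' s) y y'‖ else 0 := by
  have he := (SR_prim (mem_Ys.mp hy).2.1).1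
  have he' := (SR_prim (mem_Ys.mp hy').2.1).1
  have hg := (SR_prim (mem_Ys.mp hy).2.2.2).1
  have hg' := (SR_prim (mem_Ys.mp hy').2.2.2).1
  have hM : IsPrim (MM q t y y' b b' s) := MM_prim hq ht he he' hg hg' hb hb' hs
  have hd := (MM_dvd (y := y) (y' := y') hq ht he he' hg hg' hb hb' hs (MM q t y y' b b' s)).mp
    dvd_rfl
  by_cases hsz : (nm (MM q t y y' b b' s * q ^ 2 * t ^ 3) : ℝ) ≤ b₀ * K
  · rw [sum_Xk hK hq ht hy hy' hJ hM hd.1 hd.2.1 hN, norm_mul, norm_mul]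
    by_cases hc : Cop (MM q t y y' b b' s) y y'
    · rw [if_pos ⟨hc, hsz⟩]
      have h1 := norm_ct_le (q := q) (t := t) hy hy' hJ hM hd.1.1 hd.2.1.1
      have h2 : ‖((pf K q t y y' : ℝ) : ℂ)‖ = pf K q t y y' := by
        rw [Complex.norm_real, Real.norm_eq_abs, abs_of_nonneg (pf_nonneg hK.le y y')]
      rw [h2]
      have h3 := pf_nonneg (q := q) (t := t) hK.le y y'
      have h4 : ‖ct q t (MM q t y y' b b' s) y y'‖ * pf K q t y y' ≤ 1 * pf K q t y y' := by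
        gcongr
      rw [one_mul] at h4
      exact mul_le_mul_of_nonneg_right h4 (norm_nonneg _)
    · rw [if_neg (fun h => hc h.1), ct_zero hy hy' hJ hc]
      simp
  · rw [if_neg (fun h => hsz h.2)]
    rw [sum_eq_zero, norm_zero]
    intro k hk
    split_ifs with h
    · have hkp := (mem_primBall.mp hk).2
      have hw0 : w (nm (k * q ^ 2 * t ^ 3) / K) = 0 := by
        apply hw.supp
        rw [lt_div_iff₀ hK]
        refine lt_of_lt_of_le (not_le.mp hsz) ?_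
        obtain ⟨r, rfl⟩ := h
        have hr : IsPrim r := hkp.of_mul_left hM
        have e : MM q t y y' b b' s * r * q ^ 2 * t ^ 3 =
            (MM q t y y' b b' s * q ^ 2 * t ^ 3) * r := by ring
        rw [e, nm_mul _ r]
        have h1 : 1 ≤ nm r := nm_pos.mpr hr.ne_zero
        have h2 : nm (MM q t y y' b b' s * q ^ 2 * t ^ 3) ≤
            nm (MM q t y y' b b' s * q ^ 2 * t ^ 3) * nm r := Nat.le_mul_of_pos_right _ h1
        exact_mod_cast h2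
      rw [hw0]; simp
    · rfl

/-- **one `(q, t)`** -/
theorem one_qt (hw : W0 w W b₀) (hK : 0 < K) (hJ : OKJ J) (hq : IsPrim q) (ht : IsPrim t) :
    (∑' k₁ : Eis, if IsPrim k₁ ∧ IsCoprime k₁ q then
      Maj829.mj B k₁ ^ 2 * w ((nm (k₁ * q ^ 2 * t ^ 3) : ℝ) / K) *
        ‖∑ y ∈ Ys J E0 R, Fy J om T q t k₁ y‖ ^ 2 else 0) ≤
    (∑' k₁ : Eis, if IsPrim k₁ ∧ IsCoprime k₁ q then
      Maj829.mj B k₁ ^ 2 * w ((nm (k₁ * q ^ 2 * t ^ 3) : ℝ) / K) *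
        E3M829.Dg J om T E0 R q t k₁ else 0) + OP w K B J om T E0 R b₀ q t := by
  set N : ℕ := ⌊b₀ * K⌋₊ with hNd
  have hN : ∀ k : Eis, N < nm k → w (nm k / K) = 0 := by
    intro k hk
    apply hw.supp
    rw [lt_div_iff₀ hK]
    exact Nat.lt_of_floor_lt hk
  have hN' : ∀ k : Eis, N < nm k → w ((nm (k * q ^ 2 * t ^ 3) : ℝ) / K) = 0 := by
    intro k hk
    apply hN
    have e : k * q ^ 2 * t ^ 3 = k * (q ^ 2 * t ^ 3) := by ring
    rw [e, nm_mul]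
    have h2 : 1 ≤ nm (q ^ 2 * t ^ 3) := nm_pos.mpr ((hq.pow 2).mul (ht.pow 3)).ne_zero
    nlinarith
  have hfin : ∀ F : Eis → ℝ, (∑' k₁ : Eis, if IsPrim k₁ ∧ IsCoprime k₁ q then
      Maj829.mj B k₁ ^ 2 * w ((nm (k₁ * q ^ 2 * t ^ 3) : ℝ) / K) * F k₁ else 0) =
      ∑ k₁ ∈ primBall N, (if IsCoprime k₁ q then
      Maj829.mj B k₁ ^ 2 * w ((nm (k₁ * q ^ 2 * t ^ 3) : ℝ) / K) else 0) * F k₁ := by
    intro F
    rw [tsum_eq_sum (s := primBall N)]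
    · refine sum_congr rfl fun k hk => ?_
      have hp := (mem_primBall.mp hk).2
      by_cases hc : IsCoprime k q
      · rw [if_pos ⟨hp, hc⟩, if_pos hc]
      · rw [if_neg (fun h => hc h.2), if_neg hc, zero_mul]
    · intro k hk
      split_ifs with h
      · rw [hN' k]
        · ring
        · by_contra hle
          exact hk (mem_primBall.mpr ⟨not_lt.mp hle, h.1⟩)
      · rfl
  rw [hfin, hfin, ← sub_le_iff_le_add', ← sum_sub_distrib]
  -- pass to complex numbers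
  set cf : Eis → ℝ := fun k₁ => if IsCoprime k₁ q then
      Maj829.mj B k₁ ^ 2 * w ((nm (k₁ * q ^ 2 * t ^ 3) : ℝ) / K) else 0 with hcf
  have hre : ∑ k₁ ∈ primBall N, (cf k₁ * ‖∑ y ∈ Ys J E0 R, Fy J om T q t k₁ y‖ ^ 2 -
      cf k₁ * E3M829.Dg J om T E0 R q t k₁) ≤
      ‖∑ k₁ ∈ primBall N, (cf k₁ : ℂ) * ∑ y ∈ Ys J E0 R, ∑ y' ∈ Ys J E0 R,
        Xk J om T R q t y y' k₁‖ := by
    have e1 : ((∑ k₁ ∈ primBall N, (cf k₁ * ‖∑ y ∈ Ys J E0 R, Fy J om T q t k₁ y‖ ^ 2 -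
      cf k₁ * E3M829.Dg J om T E0 R q t k₁) : ℝ) : ℂ) = ∑ k₁ ∈ primBall N, (cf k₁ : ℂ) *
        ∑ y ∈ Ys J E0 R, ∑ y' ∈ Ys J E0 R, Xk J om T R q t y y' k₁ := by
      rw [Complex.ofReal_sum]
      refine sum_congr rfl fun k _ => ?_
      have h := sq_expand (J := J) (om := om) (T := T) (q := q) (t := t) (R := R) (E0 := E0) k
      rw [Complex.ofReal_sub, Complex.ofReal_mul, Complex.ofReal_mul, Dg_eq, h]
      unfold Xk
      ring
    rw [← e1, Complex.norm_real]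
    exact Real.le_norm_self _
  refine hre.trans ?_
  -- expansion of the majorant
  have hexp : ∀ k₁ ∈ primBall N, ∀ X : ℂ, (cf k₁ : ℂ) * X = ∑ b ∈ S B, ∑ b' ∈ S B, ∑ s ∈ pdiv q,
      ((mu b : ℂ) * (mu b' : ℂ) * (mu s : ℂ)) * (if b ^ 2 ∣ k₁ ∧ b' ^ 2 ∣ k₁ ∧ s ∣ k₁ then
        ((w (nm (k₁ * q ^ 2 * t ^ 3) / K) : ℝ) : ℂ) * X else 0) := by
    intro k₁ hk X
    have hkp := (mem_primBall.mp hk).2
    have hco : ((if IsCoprime k₁ q then 1 else 0 : ℤ) : ℂ) =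
        ∑ s ∈ pdiv q, if s ∣ k₁ then (mu s : ℂ) else 0 := by
      rw [← sum_mu_coprime hkp hq.ne_zero]
      push_cast
      rfl
    have hmj : ((Maj829.mj B k₁ : ℝ) : ℂ) = ∑ b ∈ S B, if b ^ 2 ∣ k₁ then (mu b : ℂ) else 0 := by
      unfold Maj829.mj
      rw [Complex.ofReal_sum]
      refine sum_congr rfl fun b _ => ?_
      split_ifs <;> simp
    have hcf1 : ((cf k₁ : ℝ) : ℂ) = ((Maj829.mj B k₁ : ℝ) : ℂ) * ((Maj829.mj B k₁ : ℝ) : ℂ) *
        ((if IsCoprime k₁ q then 1 else 0 : ℤ) : ℂ) *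
          ((w (nm (k₁ * q ^ 2 * t ^ 3) / K) : ℝ) : ℂ) := by
      simp only [hcf]
      split_ifs
      · push_cast; ring
      · push_cast; ring
    rw [hcf1, hco, hmj, sum_mul_sum, sum_mul, sum_mul, sum_mul]
    refine sum_congr rfl fun b _ => ?_
    rw [sum_mul, sum_mul, sum_mul]
    refine sum_congr rfl fun b' _ => ?_
    rw [mul_sum, sum_mul, sum_mul]
    refine sum_congr rfl fun s _ => ?_
    by_cases h1 : b ^ 2 ∣ k₁
    · by_cases h2 : b' ^ 2 ∣ k₁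
      · by_cases h3 : s ∣ k₁
        · rw [if_pos h1, if_pos h2, if_pos h3, if_pos ⟨h1, h2, h3⟩]; ring
        · have h4 : ¬ (b ^ 2 ∣ k₁ ∧ b' ^ 2 ∣ k₁ ∧ s ∣ k₁) := fun h => h3 h.2.2
          rw [if_neg h3, if_neg h4]; ring
      · have h4 : ¬ (b ^ 2 ∣ k₁ ∧ b' ^ 2 ∣ k₁ ∧ s ∣ k₁) := fun h => h2 h.2.1
        rw [if_neg h2, if_neg h4]; ring
    · have h4 : ¬ (b ^ 2 ∣ k₁ ∧ b' ^ 2 ∣ k₁ ∧ s ∣ k₁) := fun h => h1 h.1
      rw [if_neg h1, if_neg h4]; ring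
  have hswap : ∑ k₁ ∈ primBall N, (cf k₁ : ℂ) * ∑ y ∈ Ys J E0 R, ∑ y' ∈ Ys J E0 R,
        Xk J om T R q t y y' k₁ = ∑ y ∈ Ys J E0 R, ∑ y' ∈ Ys J E0 R, ∑ b ∈ S B, ∑ b' ∈ S B,
        ∑ s ∈ pdiv q, ((mu b : ℂ) * (mu b' : ℂ) * (mu s : ℂ)) *
        ∑ k₁ ∈ primBall N, (if MM q t y y' b b' s ∣ k₁ then
        ((w (nm (k₁ * q ^ 2 * t ^ 3) / K) : ℝ) : ℂ) * Xk J om T R q t y y' k₁ else 0) := by
    have e1 : ∀ k₁ ∈ primBall N, (cf k₁ : ℂ) * ∑ y ∈ Ys J E0 R, ∑ y' ∈ Ys J E0 R,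
        Xk J om T R q t y y' k₁ = ∑ y ∈ Ys J E0 R, ∑ y' ∈ Ys J E0 R, ∑ b ∈ S B, ∑ b' ∈ S B,
        ∑ s ∈ pdiv q, ((mu b : ℂ) * (mu b' : ℂ) * (mu s : ℂ)) *
        (if MM q t y y' b b' s ∣ k₁ then
        ((w (nm (k₁ * q ^ 2 * t ^ 3) / K) : ℝ) : ℂ) * Xk J om T R q t y y' k₁ else 0) := by
      intro k₁ hk
      rw [mul_sum]
      refine sum_congr rfl fun y hy => ?_
      rw [mul_sum]
      refine sum_congr rfl fun y' hy' => ?_
      rw [hexp k₁ hk]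
      refine sum_congr rfl fun b hb => sum_congr rfl fun b' hb' => sum_congr rfl fun s hs => ?_
      congr 1
      have he := (SR_prim (mem_Ys.mp hy).2.1).1
      have he' := (SR_prim (mem_Ys.mp hy').2.1).1
      have hg := (SR_prim (mem_Ys.mp hy).2.2.2).1
      have hg' := (SR_prim (mem_Ys.mp hy').2.2.2).1
      have hsp := ((mem_pdiv hq.ne_zero).mp hs).1
      have hdv := MM_dvd (y := y) (y' := y') hq ht he he' hg hg' (SR_prim hb).1 (SR_prim hb').1 hsp k₁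
      by_cases h : (y.2.2.2 ∣ k₁ ∧ y.2.1 ∣ k₁ * q * t) ∧ (y'.2.2.2 ∣ k₁ ∧ y'.2.1 ∣ k₁ * q * t)
      · by_cases h2 : b ^ 2 ∣ k₁ ∧ b' ^ 2 ∣ k₁ ∧ s ∣ k₁
        · rw [if_pos h2, if_pos (hdv.mpr ⟨h.1, h.2, h2⟩)]
        · rw [if_neg h2, if_neg (fun h3 => h2 (hdv.mp h3).2.2)]
      · rw [Xk_zero h]
        simp
    rw [sum_congr rfl e1, sum_comm]
    refine sum_congr rfl fun y _ => ?_
    rw [sum_comm]
    refine sum_congr rfl fun y' _ => ?_
    rw [sum_comm]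
    refine sum_congr rfl fun b _ => ?_
    rw [sum_comm]
    refine sum_congr rfl fun b' _ => ?_
    rw [sum_comm]
    refine sum_congr rfl fun s _ => ?_
    rw [mul_sum]
  rw [hswap]
  unfold OP
  refine (norm_sum_le _ _).trans (sum_le_sum fun y hy => ?_)
  refine (norm_sum_le _ _).trans (sum_le_sum fun y' hy' => ?_)
  refine (norm_sum_le _ _).trans (sum_le_sum fun b hb => ?_)
  refine (norm_sum_le _ _).trans (sum_le_sum fun b' hb' => ?_)
  refine (norm_sum_le _ _).trans (sum_le_sum fun s hs => ?_)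
  rw [norm_mul]
  have hmu : ∀ a : Eis, ‖(mu a : ℂ)‖ ≤ 1 := by
    intro a
    have := abs_mu_le_one a
    rw [Complex.norm_intCast]
    exact_mod_cast this
  have h1 : ‖(mu b : ℂ) * (mu b' : ℂ) * (mu s : ℂ)‖ ≤ 1 := by
    rw [norm_mul, norm_mul]
    exact mul_le_one₀ (mul_le_one₀ (hmu b) (norm_nonneg _) (hmu b')) (norm_nonneg _) (hmu s)
  refine (mul_le_of_le_one_left (norm_nonneg _) h1).trans ?_
  exact one_tuple hw hK hJ hq ht hy hy' (SR_prim hb).1 (SR_prim hb').1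
    ((mem_pdiv hq.ne_zero).mp hs).1 hN

/-- **the off-diagonal part**: `829`'s `hoff` with the sum over pairs -/
theorem off_pairs (hw : W0 w W b₀) (hK : 0 < K) (hJ : OKJ J) :
    Sg w K B R E1 (fun q t k₁ => ‖∑ y ∈ Ys J E0 R, Fy J om T q t k₁ y‖ ^ 2) ≤
      Sg w K B R E1 (fun q t k₁ => E3M829.Dg J om T E0 R q t k₁) +
        ∑ q ∈ S R, ∑ t ∈ pb E1, OP w K B J om T E0 R b₀ q t := by
  unfold Sg
  rw [← sum_add_distrib]
  refine sum_le_sum fun q hq => ?_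
  rw [← sum_add_distrib]
  refine sum_le_sum fun t ht => ?_
  exact one_qt hw hK hJ (SR_prim hq).1 (by
    have := ht
    rw [mem_pb] at this
    exact this.2)

end

end Crest.Agent.R017.E3F548
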