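import Crest.Agent.R017.E3Tc_829
import Crest.Agent.R012.CR2e_286
import Crest.Agent.R017.E3G_548

/-!
# Row 17, R8 (E3), part (T4): the count of the structured part; the composed Gram bound (helper829)

* `count_aD`, `count_cells`
* `gram_OP` : `gram_fin` with the off-diagonal part of `E3G_548`
-/

set_option autoImplicit false
set_option linter.unusedVariables false

noncomputable section

open Finset
open scoped Classical

namespace Crest.Agent.R017.E3T829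

open Crest.Agent.R012 Crest.Agent.R012.Eis Crest.Agent.R012.Div277
open Crest.Agent.R012.LS2 (S mem_S bl mem_bl)
open Crest.Agent.R017.DgB829 (HS HS_nonneg HS_le)
open Crest.Agent.R017.E1551 (nmpos)

lemma card_S16 {X : ℝ} (hX : 0 ≤ X) : ((S X).card : ℝ) ≤ 16 * X := CR2.card_S_le hX

/-- the number of `(a, D)` with `N(a D) ≤ X` -/
theorem count_X {Z X : ℝ} (hZ : 0 ≤ Z) (hX : 0 ≤ X) :
    ∑ a ∈ S Z, ∑ D ∈ S Z, (if (nm (a * D) : ℝ) ≤ X then (1 : ℝ) else 0) ≤ 16 * X * HS Z := by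
  unfold HS
  rw [mul_sum]
  refine sum_le_sum fun a ha => ?_
  have hap := ((mem_S hZ).1 ha).2.1
  have na := nmpos hap.ne_zero
  rw [← sum_filter, sum_const, nsmul_eq_mul, mul_one]
  have hsub : (S Z).filter (fun D => (nm (a * D) : ℝ) ≤ X) ⊆ S (X / nm a) := by
    intro D hD
    obtain ⟨h1, h2⟩ := mem_filter.mp hD
    have h3 := (mem_S hZ).1 h1
    rw [mem_S (by positivity)]
    refine ⟨?_, h3.2⟩
    rw [le_div_iff₀ na]
    rw [nm_mul] at h2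
    push_cast at h2
    linarith
  have h1 : (((S Z).filter (fun D => (nm (a * D) : ℝ) ≤ X)).card : ℝ) ≤ (S (X / nm a)).card := by
    exact_mod_cast card_le_card hsub
  refine h1.trans ((card_S16 (by positivity)).trans (le_of_eq ?_))
  ring

/-- the number of `(a, D)` with `N(a D)² ≤ L` -/
theorem count_aD {Z L : ℝ} (hZ : 0 ≤ Z) (hL : 0 ≤ L) :
    ∑ a ∈ S Z, ∑ D ∈ S Z, (if (nm (a * D) : ℝ) ^ 2 ≤ L then (1 : ℝ) else 0) ≤
      16 * Real.sqrt L * HS Z := by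
  refine le_trans (sum_le_sum fun a _ => sum_le_sum fun D _ => ?_)
    (count_X hZ (Real.sqrt_nonneg L))
  split_ifs with h1 h2 h2
  · exact le_rfl
  · exact absurd (Real.le_sqrt_of_sq_le h1) h2
  · exact zero_le_one
  · exact le_rfl

/-- the number of `(q, g, F, a, D)` with `N(a D)² N(q g F)³ ≤ L` -/
theorem count_cells {Z L : ℝ} (hZ : 0 ≤ Z) (hL : 0 ≤ L) :
    ∑ q ∈ S Z, ∑ g ∈ S Z, ∑ F ∈ S Z, ∑ a ∈ S Z, ∑ D ∈ S Z,
      (if (nm (a * D) : ℝ) ^ 2 * (nm (q * g * F) : ℝ) ^ 3 ≤ L then (1 : ℝ) else 0) ≤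
      16 * Real.sqrt L * HS Z ^ 4 := by
  have key : ∀ q ∈ S Z, ∀ g ∈ S Z, ∀ F ∈ S Z, ∑ a ∈ S Z, ∑ D ∈ S Z,
      (if (nm (a * D) : ℝ) ^ 2 * (nm (q * g * F) : ℝ) ^ 3 ≤ L then (1 : ℝ) else 0) ≤
      16 * Real.sqrt L * HS Z * ((1 / nm q) * (1 / nm g) * (1 / nm F)) := by
    intro q hq g hg F hF
    have pq := ((mem_S hZ).1 hq).2.1
    have pg := ((mem_S hZ).1 hg).2.1
    have pF := ((mem_S hZ).1 hF).2.1
    have hp : IsPrim (q * g * F) := (pq.mul pg).mul pF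
    have n1 : (1 : ℝ) ≤ nm (q * g * F) := by exact_mod_cast nm_pos.mpr hp.ne_zero
    have n0 : (0 : ℝ) < nm (q * g * F) := by linarith
    have e1 : (nm (q * g * F) : ℝ) = nm q * nm g * nm F := by
      rw [nm_mul, nm_mul]; push_cast; ring
    have h1 : ∑ a ∈ S Z, ∑ D ∈ S Z,
        (if (nm (a * D) : ℝ) ^ 2 * (nm (q * g * F) : ℝ) ^ 3 ≤ L then (1 : ℝ) else 0) ≤
        ∑ a ∈ S Z, ∑ D ∈ S Z,
          (if (nm (a * D) : ℝ) ≤ Real.sqrt L / nm (q * g * F) then (1 : ℝ) else 0) := by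
      refine sum_le_sum fun a _ => sum_le_sum fun D _ => ?_
      split_ifs with h1 h2 h2
      · exact le_rfl
      · refine absurd ?_ h2
        rw [le_div_iff₀ n0]
        refine Real.le_sqrt_of_sq_le ?_
        rw [mul_pow]
        refine le_trans (mul_le_mul_of_nonneg_left ?_ (by positivity)) h1
        exact pow_le_pow_right₀ n1 (by norm_num)
      · exact zero_le_one
      · exact le_rfl
    refine h1.trans ((count_X hZ (by positivity)).trans (le_of_eq ?_))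
    rw [e1]
    have := nmpos pq.ne_zero
    have := nmpos pg.ne_zero
    have := nmpos pF.ne_zero
    field_simp
  refine (sum_le_sum fun q hq => sum_le_sum fun g hg => sum_le_sum fun F hF =>
    key q hq g hg F hF).trans (le_of_eq ?_)
  unfold HS
  simp only [← mul_sum, ← sum_mul]
  ring

/-! ### the composed Gram bound -/

open Crest.Agent.R017.E3M829 Crest.Agent.R017.E3A164 Crest.Agent.R017.C70
open Crest.Agent.R017.E3F548 (OP off_pairs)
open Crest.Agent.R012.Mob705 (pb mem_pb kap0)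

/-- **the cut Gram form for an arbitrary `T`, with the sum over the pairs of `E3G_548`** -/
theorem gram_OP {w : ℝ → ℝ} (hw : MC.Wgt w) (hw0 : ∀ x, 0 ≤ w x) {ε : ℝ} (hε : 0 < ε) :
    ∃ C b₀ : ℝ, 0 ≤ C ∧ 0 ≤ b₀ ∧ ∀ (K Z R E0 E1 B : ℝ), 0 < K → 1 ≤ Z → K ≤ Z → 0 ≤ E0 →
      E0 ≤ Z → R ≤ Z → 1 ≤ B → ∀ (J : Finset (Eis × Eis)), OKJ J → (∀ x ∈ J, (nm x.1 : ℝ) ≤ Z) →
      (∀ x ∈ J, (nm x.2 : ℝ) ≤ R) → ∀ (om : Eis × Eis → ℂ) (T : Eis → Eis → Eis → ℂ), TC T →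
      (∑' k : Eis, if IsPrim k ∧ Cut E1 k then
        w ((nm k : ℝ) / K) * ‖SteT J om E0 T k‖ ^ 2 else 0) ≤
      kap0 * K ^ (2 / 3 : ℝ) * Iw w * XT J om E0 T + C * Z ^ ε * K ^ (2 / 3 : ℝ) *
        ((R / K ^ 2) ^ (1 / 6 : ℝ) * TF (1 / 2) J om E0 T + B⁻¹ * TF (-1) J om E0 T) +
        ∑ q ∈ S R, ∑ t ∈ pb E1, OP w K B J om T E0 R b₀ q t := by
  obtain ⟨C, hC, h⟩ := gram_fin hw hw0 hε
  obtain ⟨W, b₀, hb, hW⟩ := exists_W0 hw hw0
  refine ⟨C, b₀, hC, hb.le, ?_⟩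
  intro K Z R E0 E1 B hK hZ hKZ hE hEZ hRZ hB J hJ hJ1 hJ2 om T hT
  exact h K Z R E0 E1 B hK hZ hKZ hE hEZ hRZ hB J hJ hJ1 hJ2 om T hT _ (off_pairs hW hK hJ)

end Crest.Agent.R017.E3T829
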