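import Crest.Agent.R017.LBb_48
import Crest.Agent.R017.I1b_146
import Crest.Agent.R017.E3Mi_829
import Crest.Agent.R017.E3Td_829

/-!
# Row 17, T.7 (exceptional class), the second scale lemma (helper180)

* `CrP_am`, `CrP_cs`, `GrP_mono` : Cauchy for the cross sum
* `XJ_le_TS`, `X3_le_TS`, `TF_le_TS` : main forms and `T`-moments through 48's `TS`
* `SqP_up` : upper bound for the smooth square
* `Gr_up0`, `Gr_up` : upper bound for the cut Gram sum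
* `EH_sc`, `Dg_sc` : exact scaling in `K`
* `sc2` : the second scale
-/

set_option autoImplicit false
set_option linter.unusedVariables false

noncomputable section

open Complex
open scoped ComplexConjugate Classical

namespace Crest.Agent.R017.Sc2180

open Crest.Agent.R012 Crest.Agent.R012.Eis Crest.Agent.R012.MC
open Crest.Agent.R012.LS2 (S mem_S)
open Crest.Agent.R012.Mob705 (kap0)
open Crest.Agent.R012.Div277 (tau)
open Crest.Agent.R017.CM106 (CS FS)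
open Crest.Agent.R017.E1551 (Adm SqP Dg cP one_mem_S E1_final EP EP_le2 EG Wb Wf Lo Et Ct WS WJ LJ
  Mn_JE lm Et_nonneg Ct_nonneg BF mem_BF BF_mono lm_nonneg Wf_nonneg LJ_nonneg Wf_one nmpos
  mem_JE_one Wb_nonneg)
open Crest.Agent.R017.C70 (JW JC OKJ okJ_JW XJ)
open Crest.Agent.R017.E2440 (TE StE)
open Crest.Agent.R017.X6C180 (n13 n13_nonneg)
open Crest.Agent.R017.LB48 (CrP GrP bessel GrP_nonneg summable_wR summable_wC)
open Crest.Agent.R017.LBx48 (EH EH_nonneg EG_le_EH TS TS_nonneg TS_le_EH)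
open Crest.Agent.R017.I1146 (BB BB_le X3 c3 c3_nonneg px px_nonneg XJ_eq trunc)
open Crest.Agent.R017.DgB829 (HS HS_nonneg HS_le)
open Crest.Agent.R017.SqLoc829 (JE JE_cf)

variable {w : ℝ → ℝ} {K : ℝ}

/-! ### Cauchy -/

lemma SqP_nonneg (hw0 : ∀ x, 0 ≤ w x) (K : ℝ) (α : Eis → ℂ) : 0 ≤ SqP w K α := by
  unfold E1551.SqP
  refine tsum_nonneg fun k => ?_
  split_ifs
  · exact mul_nonneg (hw0 _) (by positivity)
  · exact le_rfl

/-- Bessel with a real parameter -/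
lemma bes (hw : Wgt w) (hw0 : ∀ x, 0 ≤ w x) (hK : 0 < K) (α u : Eis → ℂ) {s : ℝ} (hs : 0 ≤ s) :
    2 * s * ‖CrP w K α u‖ ≤ SqP w K α + s ^ 2 * GrP w K u := by
  set z := CrP w K α u with hz
  by_cases h0 : z = 0
  · rw [h0, norm_zero, mul_zero]
    have := SqP_nonneg hw0 K α
    have := GrP_nonneg (K := K) hw0 u
    positivity
  · have hn : 0 < ‖z‖ := norm_pos_iff.mpr h0
    have h1 := bessel hw hw0 hK α u (z * ((s / ‖z‖ : ℝ) : ℂ))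
    rw [← hz] at h1
    have e1 : (conj (z * ((s / ‖z‖ : ℝ) : ℂ)) * z).re = s * ‖z‖ := by
      rw [map_mul, Complex.conj_ofReal]
      have e2 : conj z * ((s / ‖z‖ : ℝ) : ℂ) * z = ((s * ‖z‖ : ℝ) : ℂ) := by
        have e3 : z * conj z = ((‖z‖ ^ 2 : ℝ) : ℂ) := by
          rw [Complex.mul_conj, Complex.normSq_eq_norm_sq]
        have e4 : (s / ‖z‖ : ℝ) * ‖z‖ ^ 2 = s * ‖z‖ := by field_simp
        calc conj z * ((s / ‖z‖ : ℝ) : ℂ) * z = ((s / ‖z‖ : ℝ) : ℂ) * (z * conj z) := by ring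
          _ = _ := by rw [e3, ← Complex.ofReal_mul, e4]
      rw [e2, Complex.ofReal_re]
    have e5 : ‖z * ((s / ‖z‖ : ℝ) : ℂ)‖ ^ 2 = s ^ 2 := by
      rw [norm_mul, Complex.norm_real, Real.norm_of_nonneg (by positivity)]
      have : ‖z‖ * (s / ‖z‖) = s := by field_simp
      rw [this]
    rw [e1, e5] at h1
    linarith

/-- AM-GM for the cross sum -/
theorem CrP_am (hw : Wgt w) (hw0 : ∀ x, 0 ≤ w x) (hK : 0 < K) (α u : Eis → ℂ) {t : ℝ}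
    (ht : 0 < t) : ‖CrP w K α u‖ ≤ (t * SqP w K α + GrP w K u / t) / 2 := by
  have h1 := bes hw hw0 hK α u (s := t⁻¹) (by positivity)
  have h2 := mul_le_mul_of_nonneg_left h1 ht.le
  have e1 : t * (2 * t⁻¹ * ‖CrP w K α u‖) = 2 * ‖CrP w K α u‖ := by field_simp
  have e2 : t * (SqP w K α + t⁻¹ ^ 2 * GrP w K u) = t * SqP w K α + GrP w K u / t := by
    field_simp
  rw [e1, e2] at h2
  linarith

/-- Cauchy for the cross sum -/
theorem CrP_cs (hw : Wgt w) (hw0 : ∀ x, 0 ≤ w x) (hK : 0 < K) (α u : Eis → ℂ) :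
    ‖CrP w K α u‖ ^ 2 ≤ SqP w K α * GrP w K u := by
  have hS := SqP_nonneg hw0 K α
  have hG := GrP_nonneg (K := K) hw0 u
  have h : ∀ s : ℝ, 0 ≤ GrP w K u * (s * s) + (-(2 * ‖CrP w K α u‖)) * s + SqP w K α := by
    intro s
    rcases le_or_gt 0 s with hs | hs
    · have := bes hw hw0 hK α u hs
      nlinarith
    · have h1 : 0 ≤ GrP w K u * (s * s) := mul_nonneg hG (mul_self_nonneg s)
      have h2 : 0 ≤ (-(2 * ‖CrP w K α u‖)) * s :=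
        mul_nonneg_of_nonpos_of_nonpos (by linarith [norm_nonneg (CrP w K α u)]) hs.le
      linarith
  have h3 := discrim_le_zero h
  unfold discrim at h3
  nlinarith

/-- monotonicity of the Gram sum -/
theorem GrP_mono (hw : Wgt w) (hw0 : ∀ x, 0 ≤ w x) (hK : 0 < K) {u v : Eis → ℂ}
    (h : ∀ k, IsPrim k → ‖u k‖ ≤ ‖v k‖) : GrP w K u ≤ GrP w K v := by
  unfold LB48.GrP
  refine (summable_wR hw hK _).tsum_le_tsum (fun k => ?_) (summable_wR hw hK _)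
  by_cases hk : IsPrim k
  · rw [if_pos hk, if_pos hk]
    have := h k hk
    have := hw0 (nm k / K)
    gcongr
  · rw [if_neg hk, if_neg hk]

/-! ### the main forms through `TS` -/

lemma wt_le {Y : ℝ} (hY : 0 ≤ Y) {t : Eis} (ht : t ∈ S Y) :
    (tau t : ℝ) / nm t ≤ nm t * (tau t : ℝ) ^ 4 := by
  have hp := ((mem_S hY).1 ht).2.1
  have h1 : (1 : ℝ) ≤ nm t := by exact_mod_cast nm_pos.mpr hp.ne_zero
  have h2 : (1 : ℝ) ≤ tau t := by exact_mod_cast Div277.one_le_tau hp.ne_zero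
  have h3 : (tau t : ℝ) ≤ (tau t : ℝ) ^ 4 := by
    have := pow_le_pow_right₀ h2 (by norm_num : 1 ≤ 4)
    simpa using this
  calc (tau t : ℝ) / nm t ≤ tau t := div_le_self (by linarith) h1
    _ ≤ (tau t : ℝ) ^ 4 := h3
    _ ≤ nm t * (tau t : ℝ) ^ 4 := le_mul_of_one_le_left (by positivity) h1

lemma px_le (x : Eis × Eis) : px x ≤ n13 x.2 := by
  unfold I1146.px
  have := Mob705.PE_le_one x.1
  have := n13_nonneg x.2
  nlinarith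

/-- one class -/
lemma BB_class {Y : ℝ} (hY : 0 ≤ Y) (U T : Eis → ℂ) (h : ∀ t, ‖U t‖ ≤ ‖T t‖) :
    ‖BB Y U U‖ ≤ HS Y * ∑ e ∈ S Y, (nm e * (tau e : ℝ) ^ 4) * ‖T e‖ ^ 2 := by
  refine (BB_le hY U).trans (mul_le_mul_of_nonneg_left (Finset.sum_le_sum fun t ht => ?_)
    (HS_nonneg Y))
  have h1 := wt_le hY ht
  have h2 : ‖U t‖ ^ 2 ≤ ‖T t‖ ^ 2 := pow_le_pow_left₀ (norm_nonneg _) (h t) 2
  have h3 : (0 : ℝ) ≤ (tau t : ℝ) / nm t := by positivity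
  exact mul_le_mul h1 h2 (by positivity) (h3.trans h1)

theorem XJ_le_TS {Y : ℝ} (hY : 0 ≤ Y) {α : Eis → ℂ} (hα : ∀ n, α n ≠ 0 → n ∈ S Y)
    {J : Finset (Eis × Eis)} (hJ : OKJ J) : ‖XJ J α‖ ≤ HS Y * TS Y J α := by
  rw [XJ_eq hY hα hJ]
  refine (norm_sum_le _ _).trans ?_
  unfold LBx48.TS
  rw [Finset.mul_sum]
  refine Finset.sum_le_sum fun x _ => ?_
  rw [norm_mul, Complex.norm_real, Real.norm_of_nonneg (px_nonneg x)]
  have h1 := BB_class hY (TE α x) (TE α x) fun _ => le_rfl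
  calc px x * ‖BB Y (TE α x) (TE α x)‖ ≤
        n13 x.2 * (HS Y * ∑ e ∈ S Y, (nm e * (tau e : ℝ) ^ 4) * ‖TE α x e‖ ^ 2) :=
        mul_le_mul (px_le x) h1 (norm_nonneg _) (n13_nonneg _)
    _ = _ := by ring

theorem X3_le_TS {Y : ℝ} (hY : 0 ≤ Y) (E0 : ℝ) (J : Finset (Eis × Eis)) {om : Eis × Eis → ℂ}
    (hom : ∀ x ∈ J, ‖om x‖ ≤ 1) (α : Eis → ℂ) : ‖X3 Y E0 J om α‖ ≤ HS Y * TS Y J α := by
  unfold I1146.X3
  refine (norm_sum_le _ _).trans ?_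
  unfold LBx48.TS
  rw [Finset.mul_sum]
  refine Finset.sum_le_sum fun x hx => ?_
  rw [norm_mul, norm_mul, Complex.norm_real, Complex.norm_real,
    Real.norm_of_nonneg (px_nonneg x), Real.norm_of_nonneg (by positivity : (0:ℝ) ≤ ‖om x‖ ^ 2)]
  have h1 := BB_class hY (trunc E0 (TE α x)) (TE α x) fun t => by
    unfold I1146.trunc
    split_ifs
    · exact le_rfl
    · rw [norm_zero]; exact norm_nonneg _
  have h2 : ‖om x‖ ^ 2 ≤ 1 := pow_le_one₀ (norm_nonneg _) (hom x hx)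
  have h3 := px_nonneg x
  have h4 : ‖om x‖ ^ 2 * px x ≤ n13 x.2 := by
    calc ‖om x‖ ^ 2 * px x ≤ 1 * px x := mul_le_mul_of_nonneg_right h2 h3
      _ ≤ n13 x.2 := by rw [one_mul]; exact px_le x
  calc ‖om x‖ ^ 2 * px x * ‖BB Y (trunc E0 (TE α x)) (trunc E0 (TE α x))‖ ≤
        n13 x.2 * (HS Y * ∑ e ∈ S Y, (nm e * (tau e : ℝ) ^ 4) * ‖TE α x e‖ ^ 2) :=
        mul_le_mul h4 h1 (norm_nonneg _) (n13_nonneg _)
    _ = _ := by ring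

/-- 829's `T`-moments -/
theorem TF_le_TS {Y E0 s : ℝ} (hY : 0 ≤ Y) (hE0 : 0 ≤ E0) (hEY : E0 ≤ Y) (hs : s ≤ 1)
    (J : Finset (Eis × Eis)) {om : Eis × Eis → ℂ} (hom : ∀ x ∈ J, ‖om x‖ ≤ 1) (α : Eis → ℂ) :
    E3M829.TF s J om E0 (E3M829.Tal α) ≤ TS Y J α := by
  unfold E3M829.TF LBx48.TS
  refine Finset.sum_le_sum fun x hx => ?_
  have h2 : ‖om x‖ ^ 2 ≤ 1 := pow_le_one₀ (norm_nonneg _) (hom x hx)
  have h3 : ∑ e ∈ S E0, (nm e : ℝ) ^ s * ‖E3M829.Tal α x.1 e x.2‖ ^ 2 ≤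
      ∑ e ∈ S Y, (nm e * (tau e : ℝ) ^ 4) * ‖TE α x e‖ ^ 2 := by
    have hsub : S E0 ⊆ S Y := by
      intro e he
      have h4 := (mem_S hE0).1 he
      exact (mem_S hY).2 ⟨h4.1.trans hEY, h4.2⟩
    refine le_trans (Finset.sum_le_sum fun e he => ?_)
      (Finset.sum_le_sum_of_subset_of_nonneg hsub fun e _ _ => by positivity)
    have hp := ((mem_S hE0).1 he).2.1
    have h5 : (1 : ℝ) ≤ nm e := by exact_mod_cast nm_pos.mpr hp.ne_zero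
    have h6 : (1 : ℝ) ≤ (tau e : ℝ) ^ 4 :=
      one_le_pow₀ (by exact_mod_cast Div277.one_le_tau hp.ne_zero)
    have h7 : (nm e : ℝ) ^ s ≤ nm e * (tau e : ℝ) ^ 4 := by
      calc (nm e : ℝ) ^ s ≤ (nm e : ℝ) ^ (1 : ℝ) := Real.rpow_le_rpow_of_exponent_le h5 hs
        _ = nm e * 1 := by rw [Real.rpow_one, mul_one]
        _ ≤ _ := by gcongr
    have e1 : E3M829.Tal α x.1 e x.2 = TE α x e := rfl
    rw [e1]
    exact mul_le_mul_of_nonneg_right h7 (by positivity)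
  have h8 : 0 ≤ ∑ e ∈ S E0, (nm e : ℝ) ^ s * ‖E3M829.Tal α x.1 e x.2‖ ^ 2 :=
    Finset.sum_nonneg fun e _ => mul_nonneg (Real.rpow_nonneg (Nat.cast_nonneg _) _)
      (sq_nonneg _)
  have e2 : (nm x.2 : ℝ) ^ (-(1 : ℝ) / 3) = n13 x.2 := rfl
  rw [e2]
  have h9 := n13_nonneg x.2
  set S1 := ∑ e ∈ S E0, (nm e : ℝ) ^ s * ‖E3M829.Tal α x.1 e x.2‖ ^ 2
  set S2 := ∑ e ∈ S Y, (nm e * (tau e : ℝ) ^ 4) * ‖TE α x e‖ ^ 2
  clear_value S1 S2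
  have h10 : 0 ≤ n13 x.2 * S1 := mul_nonneg h9 h8
  calc ‖om x‖ ^ 2 * (n13 x.2 * S1) ≤ 1 * (n13 x.2 * S1) := mul_le_mul_of_nonneg_right h2 h10
    _ = n13 x.2 * S1 := one_mul _
    _ ≤ n13 x.2 * S2 := mul_le_mul_of_nonneg_left h3 h9

/-! ### `EH` -/

lemma EH_mono {A K X Y Z Z' : ℝ} (hK : 0 ≤ K) (hX : 0 ≤ X) (h : Z ≤ Z') (α : Eis → ℂ) :
    EH A K X Y Z α ≤ EH A K X Y Z' α := by
  unfold LBx48.EH
  refine Finset.sum_le_sum fun p _ => mul_le_mul_of_nonneg_left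
    (mul_le_mul_of_nonneg_left ?_ (Nat.cast_nonneg _)) (by positivity)
  unfold E1551.LJ
  exact Finset.sum_le_sum_of_subset_of_nonneg (BF_mono (by gcongr)) fun _ _ _ =>
    mul_nonneg (lm_nonneg hK hX _ _) (Wf_nonneg _ _ _ _ _)

/-- the pair `(1, 1)` -/
lemma LJ_le_EH {A K X Y Z : ℝ} (hK : 0 ≤ K) (hX : 0 ≤ X) (hY : 1 ≤ Y) (α : Eis → ℂ) :
    LJ A K X Z α 1 1 ≤ EH A K X Y Z α := by
  have h1S := one_mem_S hY
  have h := Finset.single_le_sum (s := S Y ×ˢ S Y) (f := fun p : Eis × Eis =>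
    (nm p.1 * tau p.1 * (tau p.2 : ℝ) ^ 4) * (nm p.2 * LJ A K X Z α p.1 p.2))
    (fun p _ => mul_nonneg (by positivity) (mul_nonneg (Nat.cast_nonneg _)
      (LJ_nonneg hK hX _ _ _))) (Finset.mem_product.mpr ⟨h1S, h1S⟩ : ((1, 1) : Eis × Eis) ∈ _)
  have e1 : (nm (1 : Eis) * tau (1 : Eis) * (tau (1 : Eis) : ℝ) ^ 4) *
      (nm (1 : Eis) * LJ A K X Z α 1 1) = LJ A K X Z α 1 1 := by
    rw [nm_one, E1551.tau_one551]
    push_cast
    ring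
  unfold LBx48.EH
  rw [← e1]
  exact h

lemma lm_sc {s : ℝ} (hs : 0 ≤ s) {K X : ℝ} (hK : 0 ≤ K) (d κ : Eis) :
    lm (K * s) X d κ = s ^ (-(1 / 3) : ℝ) * lm K X d κ := by
  unfold E1551.lm
  have e1 : K * s * (nm κ : ℝ) = s * (K * nm κ) := by ring
  rw [e1, Real.mul_rpow hs (by positivity)]
  ring

/-- **the exact scaling of `EH`** -/
theorem EH_sc0 {s : ℝ} (hs : 0 ≤ s) {A K X Y Z : ℝ} (hK : 0 ≤ K) (α : Eis → ℂ) :
    EH A (K * s) X Y Z α = s ^ (-(1 / 3) : ℝ) * EH A K X Y Z α := by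
  unfold LBx48.EH E1551.LJ
  rw [Finset.mul_sum]
  refine Finset.sum_congr rfl fun p _ => ?_
  have e1 : ∑ j ∈ BF (Z / (nm p.1 : ℝ) ^ 2), lm (K * s) X p.1 j * Wf A α p.1 j p.2 =
      s ^ (-(1 / 3) : ℝ) * ∑ j ∈ BF (Z / (nm p.1 : ℝ) ^ 2), lm K X p.1 j * Wf A α p.1 j p.2 := by
    rw [Finset.mul_sum]
    refine Finset.sum_congr rfl fun j _ => ?_
    rw [lm_sc hs hK]
    ring
  rw [e1]
  ring

theorem EH_sc {A K X Y Z : ℝ} (hK : 0 ≤ K) (h : ℝ) (α : Eis → ℂ) :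
    EH A (K * Real.exp (-h)) X Y Z α = Real.exp (h / 3) * EH A K X Y Z α := by
  rw [EH_sc0 (Real.exp_pos _).le hK, ← Real.exp_mul]
  congr 2
  ring

theorem Dg_sc (w : ℝ → ℝ) (K s Y : ℝ) (α : Eis → ℂ) : Dg w (K * s) Y α = s * Dg w K Y α := by
  unfold E1551.Dg
  ring

/-! ### the smooth square -/

/-- **upper bound for the smooth square** -/
theorem SqP_up {w : ℝ → ℝ} (hw : Wgt w) (hw0 : ∀ x, 0 ≤ w x) {R : ℝ} (hR : 0 ≤ R) {A : ℕ}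
    (hA : 2 ≤ A) {B : ℝ} (hB : 1 ≤ B) : ∃ C : ℝ, 0 ≤ C ∧ ∀ K X Y Y₁ : ℝ, 0 < K → 0 < X → 1 ≤ Y →
      0 < Y₁ → ∀ α : Eis → ℂ, Adm Y X R α →
      SqP w K α ≤ Dg w K Y α + C * (1 + Real.log Y) * (K / X) *
        (EH A K X Y Y₁ α + (1 + Ct Y) * Et A B K X Y Y₁ α) := by
  have hA1 : (1 : ℝ) < A := by
    have : (2 : ℝ) ≤ A := by exact_mod_cast hA
    linarith
  obtain ⟨C, hC, h1⟩ := E1_final hw hR hA1 hB
  obtain ⟨C₂, hC₂, h2⟩ := TS_le_EH R hR A hA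
  have hcP : 0 ≤ 2 * cP w := by
    rw [Cst401.two_cP hw]
    have := Cst401.kap0_pos
    have := Cst401.mel_nonneg hw0
    positivity
  refine ⟨3 * C + 2 * cP w * (200 * C₂), by positivity, fun K X Y Y₁ hK hX hY hY₁ α hα => ?_⟩
  have hY0 : 0 ≤ Y := by linarith
  have hlog := Real.log_nonneg hY
  have hE : 0 ≤ EH A K X Y Y₁ α := EH_nonneg hK.le hX.le α
  have hEt : 0 ≤ Et A B K X Y Y₁ α := Et_nonneg hK.le hX.le hY₁.le α
  have hCt := Ct_nonneg Y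
  have a1 := h1 K X Y hK hX hY α hα (JE Y 0 Y₁) (fun d κ hκ => JE_cf κ hκ)
  rw [Mn_JE hY0 hα.sup] at a1
  have a2 := EP_le2 (A := (A : ℝ)) (B := B) (Y₀ := 0) hA1 hB hK hX hY hY₁
    (Or.inr le_rfl : (0 ≤ Y ∧ Y₁ ≤ Y ^ 2) ∨ Y ≤ Y) one_pos hα.sup
  have a3 : ∑ d ∈ S Y, (nm d * (tau d : ℝ) *
      ∑ L ∈ S Y, (tau L : ℝ) ^ 2 * WS A B K X α (JE Y 0 Y₁ d) d L) =
      EP A B K X Y 1 α (JE Y 0 Y₁) := by
    have h1S := one_mem_S hY
    unfold E1551.EP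
    rw [← Finset.add_sum_erase (S Y) _ h1S, inv_one, one_mul, one_mul, ← add_assoc]
    congr 1
    rw [← Finset.add_sum_erase (S Y) _ h1S]
    simp only [nm_one, E1551.tau_one551, Nat.cast_one, one_mul, one_pow]
  rw [a3] at a1
  rw [inv_one, one_mul, one_mul] at a2
  -- the errors
  have b1 : ∑ κ ∈ JE Y 0 Y₁ 1, min 1 (lm K X 1 κ) * Wb A α κ ≤ EH A K X Y Y₁ α := by
    refine le_trans ?_ (LJ_le_EH hK.le hX.le hY α)
    unfold E1551.LJ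
    have hsub : JE Y 0 Y₁ 1 ⊆ BF (Y₁ / (nm (1 : Eis) : ℝ) ^ 2) := by
      intro κ hκ
      rw [mem_JE_one hY] at hκ
      rw [mem_BF, nm_one]
      refine ⟨hκ.1, ?_⟩
      simpa using hκ.2.2
    refine le_trans (Finset.sum_le_sum fun κ _ => ?_)
      (Finset.sum_le_sum_of_subset_of_nonneg hsub fun j _ _ =>
        mul_nonneg (lm_nonneg hK.le hX.le _ _) (Wf_nonneg _ _ _ _ _))
    rw [Wf_one]
    exact mul_le_mul_of_nonneg_right (min_le_right _ _) (Wb_nonneg _ _ _)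
  have b2 : Lo A K X 0 α = 0 := by
    unfold E1551.Lo
    refine Finset.sum_eq_zero fun r hr => ?_
    exfalso
    rw [mem_BF] at hr
    have h3 := nmpos hr.1.1
    linarith [hr.2]
  have b3 := EG_le_EH (A := (A : ℝ)) (Y := Y) hK.le hX.le hY₁.le α
  have b4 : EP A B K X Y 1 α (JE Y 0 Y₁) ≤ 3 * (EH A K X Y Y₁ α +
      (1 + Ct Y) * Et A B K X Y Y₁ α) := by
    rw [b2] at a2
    have : 0 ≤ Ct Y * Et A B K X Y Y₁ α := mul_nonneg hCt hEt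
    nlinarith
  -- the main form
  have c1 : ‖((2 * cP w * K ^ (2 / 3 : ℝ) : ℝ) : ℂ) * XJ (JW Y 0 Y₁) α‖ ≤
      2 * cP w * (200 * C₂) * (1 + Real.log Y) * (K / X) * EH A K X Y Y₁ α := by
    rw [norm_mul, Complex.norm_real, Real.norm_of_nonneg (by positivity)]
    have d1 := XJ_le_TS hY0 hα.sup (okJ_JW Y 0 Y₁)
    have d2 := h2 Y X K Y 0 Y₁ hY hX hK α hα
    have d3 := HS_le hY
    have d4 := TS_nonneg Y (JW Y 0 Y₁) α
    have d5 := HS_nonneg Y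
    calc 2 * cP w * K ^ (2 / 3 : ℝ) * ‖XJ (JW Y 0 Y₁) α‖ ≤
          2 * cP w * K ^ (2 / 3 : ℝ) * (HS Y * TS Y (JW Y 0 Y₁) α) := by gcongr
      _ = 2 * cP w * (HS Y * (K ^ (2 / 3 : ℝ) * TS Y (JW Y 0 Y₁) α)) := by ring
      _ ≤ 2 * cP w * (200 * (1 + Real.log Y) * (C₂ * (K / X) * EH A K X Y Y₁ α)) := by gcongr
      _ = _ := by ring
  have c2 : SqP w K α - Dg w K Y α ≤ ‖((SqP w K α : ℝ) : ℂ) - ((Dg w K Y α : ℝ) : ℂ)‖ := by
    rw [← Complex.ofReal_sub, Complex.norm_real]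
    exact le_abs_self _
  have c3 : ‖((SqP w K α : ℝ) : ℂ) - ((Dg w K Y α : ℝ) : ℂ)‖ ≤
      ‖((SqP w K α : ℝ) : ℂ) - ((Dg w K Y α : ℝ) : ℂ) -
        ((2 * cP w * K ^ (2 / 3 : ℝ) : ℝ) : ℂ) * XJ (JW Y 0 Y₁) α‖ +
      ‖((2 * cP w * K ^ (2 / 3 : ℝ) : ℝ) : ℂ) * XJ (JW Y 0 Y₁) α‖ := by
    have := norm_add_le (((SqP w K α : ℝ) : ℂ) - ((Dg w K Y α : ℝ) : ℂ) -
        ((2 * cP w * K ^ (2 / 3 : ℝ) : ℝ) : ℂ) * XJ (JW Y 0 Y₁) α)
      (((2 * cP w * K ^ (2 / 3 : ℝ) : ℝ) : ℂ) * XJ (JW Y 0 Y₁) α)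
    rwa [sub_add_cancel] at this
  have c4 : C * (1 + Real.log Y) * (K / X) * EP A B K X Y 1 α (JE Y 0 Y₁) ≤
      C * (1 + Real.log Y) * (K / X) * (3 * (EH A K X Y Y₁ α +
        (1 + Ct Y) * Et A B K X Y Y₁ α)) := mul_le_mul_of_nonneg_left b4 (by positivity)
  have c5 : 0 ≤ 2 * cP w * (200 * C₂) * (1 + Real.log Y) * (K / X) *
      ((1 + Ct Y) * Et A B K X Y Y₁ α) := by positivity
  have e9 : (3 * C + 2 * cP w * (200 * C₂)) * (1 + Real.log Y) * (K / X) *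
      (EH A K X Y Y₁ α + (1 + Ct Y) * Et A B K X Y Y₁ α) =
      C * (1 + Real.log Y) * (K / X) * (3 * (EH A K X Y Y₁ α +
        (1 + Ct Y) * Et A B K X Y Y₁ α)) +
      2 * cP w * (200 * C₂) * (1 + Real.log Y) * (K / X) * EH A K X Y Y₁ α +
      2 * cP w * (200 * C₂) * (1 + Real.log Y) * (K / X) *
      ((1 + Ct Y) * Et A B K X Y Y₁ α) := by ring
  rw [e9]
  linarith

/-! ### the Gram sum -/

/-- the main term of the Gram sum, any scale -/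
theorem Gr_main {w : ℝ → ℝ} (hw0 : ∀ x, 0 ≤ w x) {R : ℝ} (hR : 0 ≤ R) {A : ℕ}
    (hA : 2 ≤ A) : ∃ C : ℝ, 0 ≤ C ∧ ∀ K X Y D Y₀ Z E0 : ℝ, 0 < K → 0 < X → 1 ≤ Y →
      ∀ α : Eis → ℂ, Adm Y X R α → ∀ om : Eis × Eis → ℂ, (∀ x, ‖om x‖ ≤ 1) →
      c3 w K * (X3 Y E0 (JW D Y₀ Z) om α).re ≤
        C * (1 + Real.log Y) * (K / X) * EH A K X Y Z α := by
  obtain ⟨C₂, hC₂, h2⟩ := TS_le_EH R hR A hA
  have hc : 0 ≤ kap0 * mel w (2 / 3) := by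
    have := Cst401.kap0_pos
    have := Cst401.mel_nonneg hw0
    positivity
  refine ⟨kap0 * mel w (2 / 3) * (200 * C₂), by positivity,
    fun K X Y D Y₀ Z E0 hK hX hY α hα om hom => ?_⟩
  have hY0 : 0 ≤ Y := by linarith
  have hlog := Real.log_nonneg hY
  have hE : 0 ≤ EH A K X Y Z α := EH_nonneg hK.le hX.le α
  have d1 := X3_le_TS hY0 E0 (JW D Y₀ Z) (fun x _ => hom x) α
  have d2 := h2 Y X K D Y₀ Z hY hX hK α hα
  have d3 := HS_le hY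
  have d4 := TS_nonneg Y (JW D Y₀ Z) α
  have d5 := HS_nonneg Y
  have d6 : (X3 Y E0 (JW D Y₀ Z) om α).re ≤ HS Y * TS Y (JW D Y₀ Z) α :=
    (Complex.re_le_norm _).trans d1
  unfold I1146.c3
  calc kap0 * mel w (2 / 3) * K ^ (2 / 3 : ℝ) * (X3 Y E0 (JW D Y₀ Z) om α).re ≤
        kap0 * mel w (2 / 3) * K ^ (2 / 3 : ℝ) * (HS Y * TS Y (JW D Y₀ Z) α) := by gcongr
    _ = kap0 * mel w (2 / 3) * (HS Y * (K ^ (2 / 3 : ℝ) * TS Y (JW D Y₀ Z) α)) := by ring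
    _ ≤ kap0 * mel w (2 / 3) * (200 * (1 + Real.log Y) * (C₂ * (K / X) * EH A K X Y Z α)) := by
        gcongr
    _ = _ := by ring

open Crest.Agent.R017.E3M829 (Cut TF TF_nonneg Tal TC_Tal SteT_Tal XT_eq c3_eq)
open Crest.Agent.R017.E3F548 (OP)
open Crest.Agent.R012.Mob705 (pb)

/-- **upper bound for the cut Gram sum** -/
theorem Gr_up {w : ℝ → ℝ} (hw : Wgt w) (hw0 : ∀ x, 0 ≤ w x) {R : ℝ} (hR : 0 ≤ R) {A : ℕ}
    (hA : 2 ≤ A) {ε : ℝ} (hε : 0 < ε) : ∃ C b₀ : ℝ, 0 ≤ C ∧ 0 ≤ b₀ ∧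
      ∀ K X Y P D Y₀ Z E0 E1 Bt : ℝ, 0 < K → 0 < X → 1 ≤ Y → 1 ≤ P → K ≤ P → Y ≤ P → D ≤ P →
      Z ≤ P → Z ≤ K ^ 2 → 0 ≤ E0 → E0 ≤ Y → 1 ≤ Bt →
      ∀ α : Eis → ℂ, Adm Y X R α → ∀ om : Eis × Eis → ℂ, (∀ x, ‖om x‖ ≤ 1) →
      GrP w K (fun k => if Cut E1 k then StE E0 (JW D Y₀ Z) om α k else 0) ≤
        c3 w K * (X3 Y E0 (JW D Y₀ Z) om α).re + C * P ^ ε * ((K / X) * EH A K X Y Z α) +
        ∑ q ∈ S Z, ∑ t ∈ pb E1, OP w K Bt (JW D Y₀ Z) om (Tal α) E0 Z b₀ q t := by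
  obtain ⟨C, b₀, hC, hb₀, h1⟩ := E3T829.gram_OP hw hw0 hε
  obtain ⟨C₂, hC₂, h2⟩ := TS_le_EH R hR A hA
  refine ⟨C * (2 * C₂), b₀, by positivity, hb₀, fun K X Y P D Y₀ Z E0 E1 Bt hK hX hY hP hKP hYP
    hDP hZP hZK hE0 hE0Y hBt α hα om hom => ?_⟩
  have hY0 : 0 ≤ Y := by linarith
  have hP0 : 0 < P := by linarith
  set J := JW D Y₀ Z with hJ
  have hJok : OKJ J := okJ_JW D Y₀ Z
  have hmem : ∀ x ∈ J, (nm x.1 : ℝ) ≤ P ∧ (nm x.2 : ℝ) ≤ Z ∧ 0 < Z := by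
    intro x hx
    have g1 := hJok.prim x hx
    have hx' := hx
    rw [hJ] at hx'
    unfold C70.JW at hx'
    rw [Finset.mem_filter, Finset.mem_product, mem_primBall] at hx'
    obtain ⟨⟨⟨g2, -⟩, -⟩, -, g3, -, g5⟩ := hx'
    have g6 : (1 : ℝ) ≤ nm x.1 := by exact_mod_cast nm_pos.mpr g1.ne_zero
    have g7 : x.2 ≠ 0 := (E5b54.JC_cf g3).1
    have g8 : (1 : ℝ) ≤ nm x.2 := by exact_mod_cast nm_pos.mpr g7
    have g9 : (nm x.2 : ℝ) ≤ Z := by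
      rw [nm_mul, nm_pow] at g5
      push_cast at g5
      nlinarith [one_le_pow₀ g6 (n := 2)]
    refine ⟨?_, g9, by linarith⟩
    by_cases hD : 0 ≤ D
    · exact ((by exact_mod_cast g2 : (nm x.1 : ℝ) ≤ ⌊D⌋₊).trans (Nat.floor_le hD)).trans hDP
    · rw [Nat.floor_of_nonpos (by linarith)] at g2
      exfalso
      have : nm x.1 = 0 := Nat.le_zero.mp g2
      rw [this] at g6
      norm_num at g6
  have a1 := h1 K P Z E0 E1 Bt hK hP hKP hE0 (hE0Y.trans hYP) hZP hBt J hJok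
    (fun x hx => (hmem x hx).1) (fun x hx => (hmem x hx).2.1) om (Tal α)
    (TC_Tal fun n hn => ((mem_S hY0).1 (hα.sup n hn)).2.2)
  rw [XT_eq hE0 hE0Y, ← c3_eq] at a1
  have e1 : GrP w K (fun k => if Cut E1 k then StE E0 J om α k else 0) =
      ∑' k : Eis, if IsPrim k ∧ Cut E1 k then
        w ((nm k : ℝ) / K) * ‖E3A164.SteT J om E0 (Tal α) k‖ ^ 2 else 0 := by
    unfold LB48.GrP
    refine tsum_congr fun k => ?_
    rw [SteT_Tal]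
    beta_reduce
    by_cases h2 : IsPrim k
    · by_cases h3 : Cut E1 k
      · rw [if_pos h2, if_pos h3, if_pos ⟨h2, h3⟩]
      · rw [if_pos h2, if_neg h3, if_neg (fun h => h3 h.2)]
        simp
    · rw [if_neg h2, if_neg (fun h => h2 h.1)]
  rw [e1]
  refine a1.trans (add_le_add (add_le_add le_rfl ?_) le_rfl)
  have t1 := TF_le_TS (s := 1 / 2) hY0 hE0 hE0Y (by norm_num) J (fun x _ => hom x) α
  have t2 := TF_le_TS (s := -1) hY0 hE0 hE0Y (by norm_num) J (fun x _ => hom x) α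
  have t3 := TF_nonneg (1 / 2) J om E0 (Tal α)
  have t4 := TF_nonneg (-1) J om E0 (Tal α)
  have t5 := TS_nonneg Y J α
  have t6 := h2 Y X K D Y₀ Z hY hX hK α hα
  have hE : 0 ≤ EH A K X Y Z α := EH_nonneg hK.le hX.le α
  have hP1 : 0 < P ^ ε := Real.rpow_pos_of_pos hP0 _
  have hBi : Bt⁻¹ ≤ 1 := inv_le_one_of_one_le₀ hBt
  have hBi0 : 0 ≤ Bt⁻¹ := by positivity
  have u1 : (Z / K ^ 2) ^ (1 / 6 : ℝ) * TF (1 / 2) J om E0 (Tal α) ≤ TS Y J α := by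
    rcases J.eq_empty_or_nonempty with hJe | ⟨x, hx⟩
    · have : TF (1 / 2) J om E0 (Tal α) = 0 := by rw [hJe]; unfold E3M829.TF; simp
      rw [this, mul_zero]
      exact t5
    · have hZ0 := (hmem x hx).2.2
      have u2 : (Z / K ^ 2) ^ (1 / 6 : ℝ) ≤ 1 := by
        refine Real.rpow_le_one (by positivity) ?_ (by norm_num)
        rw [div_le_one (by positivity)]
        exact hZK
      calc (Z / K ^ 2) ^ (1 / 6 : ℝ) * TF (1 / 2) J om E0 (Tal α) ≤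
            1 * TF (1 / 2) J om E0 (Tal α) := mul_le_mul_of_nonneg_right u2 t3
        _ ≤ TS Y J α := by rw [one_mul]; exact t1
  have u3 : Bt⁻¹ * TF (-1) J om E0 (Tal α) ≤ TS Y J α := by
    calc Bt⁻¹ * TF (-1) J om E0 (Tal α) ≤ 1 * TF (-1) J om E0 (Tal α) :=
          mul_le_mul_of_nonneg_right hBi t4
      _ ≤ TS Y J α := by rw [one_mul]; exact t2
  calc C * P ^ ε * K ^ (2 / 3 : ℝ) * ((Z / K ^ 2) ^ (1 / 6 : ℝ) * TF (1 / 2) J om E0 (Tal α) +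
        Bt⁻¹ * TF (-1) J om E0 (Tal α)) ≤ C * P ^ ε * K ^ (2 / 3 : ℝ) * (TS Y J α + TS Y J α) := by
        gcongr
    _ = C * P ^ ε * (2 * (K ^ (2 / 3 : ℝ) * TS Y J α)) := by ring
    _ ≤ C * P ^ ε * (2 * (C₂ * (K / X) * EH A K X Y Z α)) := by gcongr
    _ = _ := by ring

/-! ### the second scale -/

/-- **the second scale**: `K' = K e^(-h)`, `Q` = the kept `k` -/
theorem sc2 {w : ℝ → ℝ} (hw : Wgt w) (hw0 : ∀ x, 0 ≤ w x) {R : ℝ} (hR : 0 ≤ R) {A : ℕ}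
    (hA : 2 ≤ A) {B : ℝ} (hB : 1 ≤ B) : ∃ C : ℝ, 0 ≤ C ∧
      ∀ K X Y D Y₀ Y₁ Z E0 h : ℝ, 0 < K → 0 < X → 1 ≤ Y → 0 < Y₁ → Y₁ ≤ Z → 0 ≤ h →
      ∀ α : Eis → ℂ, Adm Y X R α → ∀ om : Eis × Eis → ℂ, (∀ x, ‖om x‖ ≤ 1) →
      ∀ (Q : Eis → Prop) (e₃ : ℝ), 0 ≤ e₃ →
      GrP w (K * Real.exp (-h)) (fun k => if Q k then StE E0 (JW D Y₀ Z) om α k else 0) ≤
        c3 w (K * Real.exp (-h)) * (X3 Y E0 (JW D Y₀ Z) om α).re + e₃ →
      Real.exp (h / 3) * ‖CrP w (K * Real.exp (-h)) α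
        (fun k => if Q k then StE E0 (JW D Y₀ Z) om α k else 0)‖ ≤
        Real.exp (-(2 * h / 3)) * Dg w K Y α +
        C * (1 + Real.log Y) * (K / X) * (Real.exp (-(h / 3)) * EH A K X Y Z α +
          (1 + Ct Y) * Et A B (K * Real.exp (-h)) X Y Y₁ α) + Real.exp (h / 3) * e₃ := by
  obtain ⟨C₁, hC₁, h1⟩ := SqP_up hw hw0 hR hA hB
  obtain ⟨C₂, hC₂, h2⟩ := Gr_main hw0 hR hA
  refine ⟨C₁ + C₂, by positivity, fun K X Y D Y₀ Y₁ Z E0 h hK hX hY hY₁ hYZ hh α hα om hom Q e₃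
    he₃ hG => ?_⟩
  set s := Real.exp (-h) with hs
  have hs0 : 0 < s := Real.exp_pos _
  have hs1 : s ≤ 1 := Real.exp_le_one_iff.mpr (by linarith)
  set K' := K * s with hK'
  have hK'0 : 0 < K' := by positivity
  have hlog := Real.log_nonneg hY
  set u : Eis → ℂ := fun k => if Q k then StE E0 (JW D Y₀ Z) om α k else 0 with hu
  have a1 := CrP_am hw hw0 hK'0 α u one_pos
  rw [one_mul, div_one] at a1
  have a2 := h1 K' X Y Y₁ hK'0 hX hY hY₁ α hα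
  have a3 := h2 K' X Y D Y₀ Z E0 hK'0 hX hY α hα om hom
  have a4 : EH A K' X Y Y₁ α ≤ EH A K' X Y Z α := EH_mono hK'0.le hX.le hYZ α
  have hDg : 0 ≤ Dg w K' Y α + C₁ * (1 + Real.log Y) * (K' / X) *
        (EH A K' X Y Y₁ α + (1 + Ct Y) * Et A B K' X Y Y₁ α) :=
    (SqP_nonneg hw0 K' α).trans a2
  have hEZ : 0 ≤ EH A K' X Y Z α := EH_nonneg hK'0.le hX.le α
  have hEt : 0 ≤ Et A B K' X Y Y₁ α := Et_nonneg hK'0.le hX.le hY₁.le α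
  have hCt := Ct_nonneg Y
  set E := EH A K' X Y Z α with hE
  set Tt := (1 + Ct Y) * Et A B K' X Y Y₁ α with hTt
  have hTt0 : 0 ≤ Tt := by positivity
  have b1 : ‖CrP w K' α u‖ ≤ Dg w K' Y α + (C₁ + C₂) * (1 + Real.log Y) * (K' / X) * (E + Tt) +
      e₃ := by
    have c1 : SqP w K' α ≤ Dg w K' Y α + C₁ * (1 + Real.log Y) * (K' / X) * (E + Tt) := by
      refine a2.trans (add_le_add le_rfl (mul_le_mul_of_nonneg_left ?_ (by positivity)))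
      linarith
    have c2 : GrP w K' u ≤ C₂ * (1 + Real.log Y) * (K' / X) * (E + Tt) + e₃ := by
      refine hG.trans (add_le_add (a3.trans ?_) le_rfl)
      refine mul_le_mul_of_nonneg_left ?_ (by positivity)
      linarith
    have c3 := SqP_nonneg hw0 K' α
    have c4 := GrP_nonneg (K := K') hw0 u
    have e1 : (C₁ + C₂) * (1 + Real.log Y) * (K' / X) * (E + Tt) =
        C₁ * (1 + Real.log Y) * (K' / X) * (E + Tt) + C₂ * (1 + Real.log Y) * (K' / X) *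
          (E + Tt) := by ring
    rw [e1]
    linarith
  have b2 := mul_le_mul_of_nonneg_left b1 (Real.exp_pos (h / 3)).le
  refine b2.trans ?_
  have e1 : E = Real.exp (h / 3) * EH A K X Y Z α := by
    rw [hE, hK', hs]
    exact EH_sc hK.le h α
  have e2 : Dg w K' Y α = s * Dg w K Y α := Dg_sc w K s Y α
  have e3 : Real.exp (h / 3) * s = Real.exp (-(2 * h / 3)) := by
    rw [hs, ← Real.exp_add]; congr 1; ring
  have e4 : Real.exp (-(2 * h / 3)) * Real.exp (h / 3) = Real.exp (-(h / 3)) := by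
    rw [← Real.exp_add]; congr 1; ring
  have hX1 : 0 ≤ (C₁ + C₂) * (1 + Real.log Y) * (K / X) := by positivity
  have e5 : Real.exp (h / 3) * (Dg w K' Y α + (C₁ + C₂) * (1 + Real.log Y) * (K' / X) *
      (E + Tt) + e₃) = Real.exp (h / 3) * s * Dg w K Y α +
      (C₁ + C₂) * (1 + Real.log Y) * (K / X) * (Real.exp (h / 3) * s * E +
        Real.exp (h / 3) * s * Tt) + Real.exp (h / 3) * e₃ := by
    rw [e2, hK']
    ring
  rw [e5, e3, e1, ← mul_assoc (Real.exp (-(2 * h / 3))) (Real.exp (h / 3)), e4]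
  have e6 : Real.exp (-(2 * h / 3)) * Tt ≤ Tt :=
    mul_le_of_le_one_left hTt0 (Real.exp_le_one_iff.mpr (by linarith))
  refine add_le_add (add_le_add le_rfl (mul_le_mul_of_nonneg_left ?_ hX1)) le_rfl
  linarith

end Crest.Agent.R017.Sc2180
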