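import Crest.Agent.R017.WDec2_180
import Crest.Agent.R017.Sc2_180
import Crest.Agent.R017.LBd_48
import Crest.Agent.R017.I1f_146

/-!
# Row 17, T.7 (exceptional class): the cross error with the compensated weight (helper180)

* `EHf` : the full T-functional with the weight `1/nm e`; `EHc_sc` : exact scaling
* `XJ_le_f`, `X2_le_f`, `X3_le_f` : the main forms
* `SqP_x` : upper bound for the smooth square by `EHf` and 146's `E1e`
* `sc2x` : the second scale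
* `e2x` : **the cross error**
* `E1e_sc` : the three numbers of `E1e` at the second scale
-/

set_option autoImplicit false
set_option linter.unusedVariables false

noncomputable section

open Complex MeasureTheory
open scoped ComplexConjugate Classical

namespace Crest.Agent.R017.LBX180

open Crest.Agent.R012 Crest.Agent.R012.Eis Crest.Agent.R012.MC
open Crest.Agent.R012.LS2 (S mem_S)
open Crest.Agent.R012.Mob705 (kap0 pdiv)
open Crest.Agent.R012.Div277 (tau)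
open Crest.Agent.R017.CM106 (CS FS TG)
open Crest.Agent.R017.E1551 (Adm SqP Dg cP Wb Wf Et Ct LJ lm Et_nonneg Ct_nonneg BF BF_mono
  lm_nonneg Wf_nonneg LJ_nonneg nmpos tws sg JB yv)
open Crest.Agent.R017.C70 (JW JC OKJ okJ_JW XJ)
open Crest.Agent.R017.E2440 (TE StE Jb Qs prs C4 Fh)
open Crest.Agent.R017.X6C180 (n13 n13_nonneg GF)
open Crest.Agent.R017.LB48 (CrP GrP GrP_nonneg)
open Crest.Agent.R017.LBx48 (EHs REb R2 cross_split_c T_le_EHc EHc_nonneg)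
open Crest.Agent.R017.EHu320 (EHc)
open Crest.Agent.R017.I1146 (BB BB_le BB_bil X2 X3 c3 c3_nonneg px px_nonneg XJ_eq trunc E1e E1u
  E1e_le)
open Crest.Agent.R017.DgB829 (HS HS_nonneg HS_le)
open Crest.Agent.R017.Sc2180 (px_le SqP_nonneg CrP_am)
open Crest.Agent.R017.WDec180 (WD sc sc_pos E2e cross_ex)
open Crest.Agent.R017.Ex385 (CrQ)
open Crest.Agent.R017.Rough381 (VF)

/-- the full T-functional, weight `1 / nm e` -/
def EHf (A K X Y Z : ℝ) (α : Eis → ℂ) : ℝ :=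
  EHc (fun n => ((n : ℝ))⁻¹) (fun _ => True) A K X Y Z α

lemma EHf_nonneg {A K X Y Z : ℝ} (hK : 0 ≤ K) (hX : 0 ≤ X) (α : Eis → ℂ) :
    0 ≤ EHf A K X Y Z α := EHc_nonneg (fun n => by positivity) _ hK hX α

/-- **exact scaling** -/
theorem EHc_sc {s : ℝ} (hs : 0 ≤ s) (c : ℕ → ℝ) (Q : Eis → Prop) {A K X Y Z : ℝ} (hK : 0 ≤ K)
    (α : Eis → ℂ) :
    EHc c Q A (K * s) X Y Z α = s ^ (-(1 / 3) : ℝ) * EHc c Q A K X Y Z α := by
  unfold EHu320.EHc E1551.LJ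
  rw [Finset.mul_sum]
  refine Finset.sum_congr rfl fun δ _ => ?_
  rw [Finset.mul_sum]
  refine Finset.sum_congr rfl fun e _ => ?_
  have e1 : ∑ j ∈ BF (Z / (nm δ : ℝ) ^ 2), lm (K * s) X δ j * Wf A α δ j e =
      s ^ (-(1 / 3) : ℝ) * ∑ j ∈ BF (Z / (nm δ : ℝ) ^ 2), lm K X δ j * Wf A α δ j e := by
    rw [Finset.mul_sum]
    refine Finset.sum_congr rfl fun j _ => ?_
    rw [Sc2180.lm_sc hs hK]
    ring
  rw [e1]
  ring

lemma EHc_monoZ (c : ℕ → ℝ) (hc : ∀ n, 0 ≤ c n) (Q : Eis → Prop) {A K X Y Z Z' : ℝ}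
    (hK : 0 ≤ K) (hX : 0 ≤ X) (h : Z ≤ Z') (α : Eis → ℂ) :
    EHc c Q A K X Y Z α ≤ EHc c Q A K X Y Z' α := by
  unfold EHu320.EHc
  refine Finset.sum_le_sum fun δ _ => Finset.sum_le_sum fun e _ => mul_le_mul_of_nonneg_left
    (mul_le_mul_of_nonneg_left ?_ (hc _)) (by positivity)
  unfold E1551.LJ
  exact Finset.sum_le_sum_of_subset_of_nonneg (BF_mono (by gcongr)) fun _ _ _ =>
    mul_nonneg (lm_nonneg hK hX _ _) (Wf_nonneg _ _ _ _ _)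

/-! ### the main forms -/

/-- the second moment of the coefficients, weight `tau/nm` -/
def M2s (Y : ℝ) (J : Finset (Eis × Eis)) (α : Eis → ℂ) : ℝ :=
  ∑ x ∈ J, n13 x.2 * ∑ t ∈ S Y, (tau t : ℝ) / nm t * ‖TE α x t‖ ^ 2

lemma M2s_nonneg (Y : ℝ) (J : Finset (Eis × Eis)) (α : Eis → ℂ) : 0 ≤ M2s Y J α :=
  Finset.sum_nonneg fun _ _ => mul_nonneg (n13_nonneg _) (Finset.sum_nonneg fun _ _ => by positivity)

theorem XJ_le_s {Y : ℝ} (hY : 0 ≤ Y) {α : Eis → ℂ} (hα : ∀ n, α n ≠ 0 → n ∈ S Y)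
    {J : Finset (Eis × Eis)} (hJ : OKJ J) : ‖XJ J α‖ ≤ HS Y * M2s Y J α := by
  rw [XJ_eq hY hα hJ]
  refine (norm_sum_le _ _).trans ?_
  unfold M2s
  rw [Finset.mul_sum]
  refine Finset.sum_le_sum fun x _ => ?_
  rw [norm_mul, Complex.norm_real, Real.norm_of_nonneg (px_nonneg x)]
  have h1 := BB_le hY (TE α x)
  calc px x * ‖BB Y (TE α x) (TE α x)‖ ≤
        n13 x.2 * (HS Y * ∑ t ∈ S Y, (tau t : ℝ) / nm t * ‖TE α x t‖ ^ 2) :=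
        mul_le_mul (px_le x) h1 (norm_nonneg _) (n13_nonneg _)
    _ = _ := by ring

lemma trunc_sum (Y E0 : ℝ) (T : Eis → ℂ) :
    ∑ t ∈ S Y, (tau t : ℝ) / nm t * ‖trunc E0 T t‖ ^ 2 ≤
      ∑ t ∈ S Y, (tau t : ℝ) / nm t * ‖T t‖ ^ 2 := by
  refine Finset.sum_le_sum fun t _ => mul_le_mul_of_nonneg_left ?_ (by positivity)
  refine pow_le_pow_left₀ (norm_nonneg _) ?_ 2
  unfold I1146.trunc
  split_ifs
  · exact le_rfl
  · rw [norm_zero]; exact norm_nonneg _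

theorem X2_le_s {Y : ℝ} (hY : 0 ≤ Y) (E0 : ℝ) (J : Finset (Eis × Eis)) {om : Eis × Eis → ℂ}
    (hom : ∀ x, ‖om x‖ ≤ 1) (α : Eis → ℂ) : ‖X2 Y E0 J om α‖ ≤ HS Y * M2s Y J α := by
  unfold I1146.X2
  refine (norm_sum_le _ _).trans ?_
  unfold M2s
  rw [Finset.mul_sum]
  refine Finset.sum_le_sum fun x hx => ?_
  rw [norm_mul, norm_mul, RCLike.norm_conj, Complex.norm_real,
    Real.norm_of_nonneg (px_nonneg x)]
  have h1 := BB_bil hY (TE α x) (trunc E0 (TE α x)) one_pos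
  have h2 := trunc_sum Y E0 (TE α x)
  have h3 := HS_nonneg Y
  set T := ∑ t ∈ S Y, (tau t : ℝ) / nm t * ‖TE α x t‖ ^ 2 with hT
  set T' := ∑ t ∈ S Y, (tau t : ℝ) / nm t * ‖trunc E0 (TE α x) t‖ ^ 2 with hT'
  have h4 : ‖BB Y (TE α x) (trunc E0 (TE α x))‖ ≤ HS Y * T := by
    refine h1.trans (mul_le_mul_of_nonneg_left ?_ h3)
    rw [inv_one]
    linarith
  have h5 := px_nonneg x
  have h6 : ‖om x‖ * px x ≤ n13 x.2 := by
    calc ‖om x‖ * px x ≤ 1 * px x := mul_le_mul_of_nonneg_right (hom x) h5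
      _ ≤ n13 x.2 := by rw [one_mul]; exact px_le x
  calc ‖om x‖ * px x * ‖BB Y (TE α x) (trunc E0 (TE α x))‖ ≤ n13 x.2 * (HS Y * T) :=
        mul_le_mul h6 h4 (norm_nonneg _) (n13_nonneg _)
    _ = _ := by ring

theorem X3_le_s {Y : ℝ} (hY : 0 ≤ Y) (E0 : ℝ) (J : Finset (Eis × Eis)) {om : Eis × Eis → ℂ}
    (hom : ∀ x, ‖om x‖ ≤ 1) (α : Eis → ℂ) : ‖X3 Y E0 J om α‖ ≤ HS Y * M2s Y J α := by
  unfold I1146.X3
  refine (norm_sum_le _ _).trans ?_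
  unfold M2s
  rw [Finset.mul_sum]
  refine Finset.sum_le_sum fun x hx => ?_
  rw [norm_mul, norm_mul, Complex.norm_real, Complex.norm_real,
    Real.norm_of_nonneg (px_nonneg x), Real.norm_of_nonneg (by positivity : (0:ℝ) ≤ ‖om x‖ ^ 2)]
  have h1 := BB_le hY (trunc E0 (TE α x))
  have h2 := trunc_sum Y E0 (TE α x)
  have h3 := HS_nonneg Y
  have h4 := h1.trans (mul_le_mul_of_nonneg_left h2 h3)
  have h5 := px_nonneg x
  have h6 : ‖om x‖ ^ 2 ≤ 1 := pow_le_one₀ (norm_nonneg _) (hom x)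
  have h7 : ‖om x‖ ^ 2 * px x ≤ n13 x.2 := by
    calc ‖om x‖ ^ 2 * px x ≤ 1 * px x := mul_le_mul_of_nonneg_right h6 h5
      _ ≤ n13 x.2 := by rw [one_mul]; exact px_le x
  calc ‖om x‖ ^ 2 * px x * ‖BB Y (trunc E0 (TE α x)) (trunc E0 (TE α x))‖ ≤
        n13 x.2 * (HS Y * ∑ t ∈ S Y, (tau t : ℝ) / nm t * ‖TE α x t‖ ^ 2) :=
        mul_le_mul h7 h4 (norm_nonneg _) (n13_nonneg _)
    _ = _ := by ring

/-- the second moment through `EHf` -/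
theorem M2s_le (R : ℝ) (hR : 0 ≤ R) (A : ℕ) (hA : 2 ≤ A) : ∃ C : ℝ, 0 ≤ C ∧
    ∀ (Y X K D Y₀ Z : ℝ), 1 ≤ Y → 0 < X → 0 < K → ∀ α : Eis → ℂ, Adm Y X R α →
      K ^ (2 / 3 : ℝ) * M2s Y (JW D Y₀ Z) α ≤ C * (K / X) * EHf A K X Y Z α := by
  obtain ⟨C, hC, H⟩ := T_le_EHc R hR A hA
  refine ⟨C, hC, fun Y X K D Y₀ Z hY hX hK α hα => ?_⟩
  have hY0 : 0 ≤ Y := by linarith
  refine le_trans (mul_le_mul_of_nonneg_left ?_ (by positivity))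
    (H Y X K D Y₀ Z hY hX hK (fun n => ((n : ℝ))⁻¹) (fun _ => True) (fun n => by positivity) α hα)
  unfold M2s
  refine Finset.sum_le_sum fun x _ => mul_le_mul_of_nonneg_left ?_ (n13_nonneg _)
  rw [Finset.filter_true]
  refine Finset.sum_le_sum fun t ht => mul_le_mul_of_nonneg_right ?_ (by positivity)
  have hp := ((mem_S hY0).1 ht).2.1
  have h2 : (1 : ℝ) ≤ tau t := by exact_mod_cast Div277.one_le_tau hp.ne_zero
  have h3 : (tau t : ℝ) ≤ (tau t : ℝ) ^ 4 := by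
    have := pow_le_pow_right₀ h2 (by norm_num : 1 ≤ 4)
    simpa using this
  rw [div_eq_inv_mul]
  exact mul_le_mul_of_nonneg_left h3 (by positivity)

/-! ### the smooth square and the second scale -/

/-- **upper bound for the smooth square** -/
theorem SqP_x {w : ℝ → ℝ} (hw : Wgt w) (hw0 : ∀ x, 0 ≤ w x) {R : ℝ} (hR : 0 ≤ R) {A : ℕ}
    (hA : 2 ≤ A) {B : ℝ} (hB : 1 ≤ B) : ∃ C : ℝ, 0 ≤ C ∧ ∀ K X Y Y₀ Y₁ : ℝ, 0 < K → 0 < X →
      1 ≤ Y → 0 < Y₁ → ∀ α : Eis → ℂ, Adm Y X R α →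
      SqP w K α ≤ Dg w K Y α + C * (1 + Real.log Y) * (K / X) *
        (EHf A K X Y Y₁ α + E1e A B K X Y Y Y₀ Y₁ α) := by
  have hA1 : (1 : ℝ) < A := by
    have : (2 : ℝ) ≤ A := by exact_mod_cast hA
    linarith
  obtain ⟨C, hC, h1⟩ := E1u hw hR hA1 hB
  obtain ⟨C₂, hC₂, h2⟩ := M2s_le R hR A hA
  have hcP : 0 ≤ 2 * cP w := by
    rw [Cst401.two_cP hw]
    have := Cst401.kap0_pos
    have := Cst401.mel_nonneg hw0
    positivity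
  refine ⟨C + 2 * cP w * (200 * C₂), by positivity, fun K X Y Y₀ Y₁ hK hX hY hY₁ α hα => ?_⟩
  have hY0 : 0 ≤ Y := by linarith
  have hlog := Real.log_nonneg hY
  have hE : 0 ≤ EHf A K X Y Y₁ α := EHf_nonneg hK.le hX.le α
  have a1 := h1 K X Y Y Y₀ Y₁ hK hX hY hY₁ (Or.inr le_rfl) α hα
  have c1 : ‖((2 * cP w * K ^ (2 / 3 : ℝ) : ℝ) : ℂ) * XJ (JW Y Y₀ Y₁) α‖ ≤
      2 * cP w * (200 * C₂) * (1 + Real.log Y) * (K / X) * EHf A K X Y Y₁ α := by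
    rw [norm_mul, Complex.norm_real, Real.norm_of_nonneg (by positivity)]
    have d1 := XJ_le_s hY0 hα.sup (okJ_JW Y Y₀ Y₁)
    have d2 := h2 Y X K Y Y₀ Y₁ hY hX hK α hα
    have d3 := HS_le hY
    have d4 := M2s_nonneg Y (JW Y Y₀ Y₁) α
    have d5 := HS_nonneg Y
    calc 2 * cP w * K ^ (2 / 3 : ℝ) * ‖XJ (JW Y Y₀ Y₁) α‖ ≤
          2 * cP w * K ^ (2 / 3 : ℝ) * (HS Y * M2s Y (JW Y Y₀ Y₁) α) := by gcongr
      _ = 2 * cP w * (HS Y * (K ^ (2 / 3 : ℝ) * M2s Y (JW Y Y₀ Y₁) α)) := by ring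
      _ ≤ 2 * cP w * (200 * (1 + Real.log Y) * (C₂ * (K / X) * EHf A K X Y Y₁ α)) := by gcongr
      _ = _ := by ring
  have c2 : SqP w K α - Dg w K Y α ≤ ‖((SqP w K α : ℝ) : ℂ) - ((Dg w K Y α : ℝ) : ℂ)‖ := by
    rw [← Complex.ofReal_sub, Complex.norm_real]
    exact le_abs_self _
  have c3 : ‖((SqP w K α : ℝ) : ℂ) - ((Dg w K Y α : ℝ) : ℂ)‖ ≤
      ‖((SqP w K α : ℝ) : ℂ) - ((Dg w K Y α : ℝ) : ℂ) -
        ((2 * cP w * K ^ (2 / 3 : ℝ) : ℝ) : ℂ) * XJ (JW Y Y₀ Y₁) α‖ +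
      ‖((2 * cP w * K ^ (2 / 3 : ℝ) : ℝ) : ℂ) * XJ (JW Y Y₀ Y₁) α‖ := by
    have := norm_add_le (((SqP w K α : ℝ) : ℂ) - ((Dg w K Y α : ℝ) : ℂ) -
        ((2 * cP w * K ^ (2 / 3 : ℝ) : ℝ) : ℂ) * XJ (JW Y Y₀ Y₁) α)
      (((2 * cP w * K ^ (2 / 3 : ℝ) : ℝ) : ℂ) * XJ (JW Y Y₀ Y₁) α)
    rwa [sub_add_cancel] at this
  -- `E1e ≥ 0` from the inequality itself
  have hT0 : 0 ≤ C * (1 + Real.log Y) * (K / X) * E1e A B K X Y Y Y₀ Y₁ α :=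
    (norm_nonneg _).trans a1
  have hE1 : 0 ≤ E1e A B K X Y Y Y₀ Y₁ α := by
    unfold I1146.E1e
    have a1 : 0 ≤ ∑ κ ∈ SqLoc829.JE Y Y₀ Y₁ 1, min 1 (lm K X 1 κ) * Wb A α κ :=
      Finset.sum_nonneg fun κ _ => mul_nonneg (le_min zero_le_one (lm_nonneg hK.le hX.le _ _))
        (E1551.Wb_nonneg _ _ _)
    have a2 := E1551.Lo_nonneg (A := A) hK.le hX.le Y₀ α
    have a3 : 0 ≤ E1551.EU A K X Y Y₀ Y₁ α := by
      unfold E1551.EU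
      refine Finset.sum_nonneg fun p _ => mul_nonneg (by positivity)
        (mul_nonneg (by positivity) (add_nonneg ?_ ?_))
      · unfold E1551.UJ
        exact Finset.sum_nonneg fun κ _ => mul_nonneg (le_min zero_le_one
          (lm_nonneg hK.le (div_nonneg hX.le (Nat.cast_nonneg _)) _ _)) (E1551.Wb_nonneg _ _ _)
      · unfold E1551.UL
        exact Finset.sum_nonneg fun κ _ => mul_nonneg
          (lm_nonneg hK.le (div_nonneg hX.le (Nat.cast_nonneg _)) _ _) (E1551.Wb_nonneg _ _ _)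
    have a4 : 0 ≤ (1 + Ct Y) * Et A B K X Y Y₁ α :=
      mul_nonneg (by linarith [Ct_nonneg Y]) (Et_nonneg hK.le hX.le hY₁.le _)
    linarith
  have e9 : (C + 2 * cP w * (200 * C₂)) * (1 + Real.log Y) * (K / X) *
      (EHf A K X Y Y₁ α + E1e A B K X Y Y Y₀ Y₁ α) =
      C * (1 + Real.log Y) * (K / X) * E1e A B K X Y Y Y₀ Y₁ α +
      2 * cP w * (200 * C₂) * (1 + Real.log Y) * (K / X) * EHf A K X Y Y₁ α +
      (C * (1 + Real.log Y) * (K / X) * EHf A K X Y Y₁ α +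
      2 * cP w * (200 * C₂) * (1 + Real.log Y) * (K / X) * E1e A B K X Y Y Y₀ Y₁ α) := by ring
  have e10 : 0 ≤ C * (1 + Real.log Y) * (K / X) * EHf A K X Y Y₁ α +
      2 * cP w * (200 * C₂) * (1 + Real.log Y) * (K / X) * E1e A B K X Y Y Y₀ Y₁ α := by
    positivity
  rw [e9]
  linarith

lemma E1e_nonneg {A B K X Y D Y₀ Y₁ : ℝ} (hK : 0 ≤ K) (hX : 0 ≤ X) (hY₁ : 0 ≤ Y₁)
    (α : Eis → ℂ) : 0 ≤ E1e A B K X Y D Y₀ Y₁ α := by
  unfold I1146.E1e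
  have a1 : 0 ≤ ∑ κ ∈ SqLoc829.JE D Y₀ Y₁ 1, min 1 (lm K X 1 κ) * Wb A α κ :=
    Finset.sum_nonneg fun κ _ => mul_nonneg (le_min zero_le_one (lm_nonneg hK hX _ _))
      (E1551.Wb_nonneg _ _ _)
  have a2 := E1551.Lo_nonneg (A := A) hK hX Y₀ α
  have a3 : 0 ≤ E1551.EU A K X Y Y₀ Y₁ α := by
    unfold E1551.EU
    refine Finset.sum_nonneg fun p _ => mul_nonneg (by positivity)
      (mul_nonneg (by positivity) (add_nonneg ?_ ?_))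
    · unfold E1551.UJ
      exact Finset.sum_nonneg fun κ _ => mul_nonneg (le_min zero_le_one
        (lm_nonneg hK (div_nonneg hX (Nat.cast_nonneg _)) _ _)) (E1551.Wb_nonneg _ _ _)
    · unfold E1551.UL
      exact Finset.sum_nonneg fun κ _ => mul_nonneg
        (lm_nonneg hK (div_nonneg hX (Nat.cast_nonneg _)) _ _) (E1551.Wb_nonneg _ _ _)
  have a4 : 0 ≤ (1 + Ct Y) * Et A B K X Y Y₁ α :=
    mul_nonneg (by linarith [Ct_nonneg Y]) (Et_nonneg hK hX hY₁ _)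
  linarith

/-- the constant main factor -/
lemma c3_K {w : ℝ → ℝ} (K : ℝ) : c3 w K = kap0 * mel w (2 / 3) * K ^ (2 / 3 : ℝ) := rfl

/-- `c₃ |X_i| ≤ C (1 + log Y) (K/X) EHf` -/
theorem main_le {w : ℝ → ℝ} (hw0 : ∀ x, 0 ≤ w x) {R : ℝ} (hR : 0 ≤ R) {A : ℕ} (hA : 2 ≤ A) :
    ∃ C : ℝ, 0 ≤ C ∧ ∀ K X Y D Y₀ Z : ℝ, 0 < K → 0 < X → 1 ≤ Y →
      ∀ α : Eis → ℂ, Adm Y X R α → ∀ m : ℝ, m ≤ HS Y * M2s Y (JW D Y₀ Z) α →
      c3 w K * m ≤ C * (1 + Real.log Y) * (K / X) * EHf A K X Y Z α := by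
  obtain ⟨C₂, hC₂, h2⟩ := M2s_le R hR A hA
  have hc : 0 ≤ kap0 * mel w (2 / 3) := by
    have := Cst401.kap0_pos
    have := Cst401.mel_nonneg hw0
    positivity
  refine ⟨kap0 * mel w (2 / 3) * (200 * C₂), by positivity,
    fun K X Y D Y₀ Z hK hX hY α hα m hm => ?_⟩
  have hY0 : 0 ≤ Y := by linarith
  have hlog := Real.log_nonneg hY
  have hE : 0 ≤ EHf A K X Y Z α := EHf_nonneg hK.le hX.le α
  have d2 := h2 Y X K D Y₀ Z hY hX hK α hα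
  have d3 := HS_le hY
  have d4 := M2s_nonneg Y (JW D Y₀ Z) α
  have d5 := HS_nonneg Y
  rw [c3_K]
  calc kap0 * mel w (2 / 3) * K ^ (2 / 3 : ℝ) * m ≤
        kap0 * mel w (2 / 3) * K ^ (2 / 3 : ℝ) * (HS Y * M2s Y (JW D Y₀ Z) α) := by gcongr
    _ = kap0 * mel w (2 / 3) * (HS Y * (K ^ (2 / 3 : ℝ) * M2s Y (JW D Y₀ Z) α)) := by ring
    _ ≤ kap0 * mel w (2 / 3) * (200 * (1 + Real.log Y) * (C₂ * (K / X) * EHf A K X Y Z α)) := by
        gcongr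
    _ = _ := by ring

/-- **the second scale**: `K' = K e^(-h)`, `Q` = the kept `k` -/
theorem sc2x {w : ℝ → ℝ} (hw : Wgt w) (hw0 : ∀ x, 0 ≤ w x) {R : ℝ} (hR : 0 ≤ R) {A : ℕ}
    (hA : 2 ≤ A) {B : ℝ} (hB : 1 ≤ B) : ∃ C : ℝ, 0 ≤ C ∧
      ∀ K X Y D Y₀ Y₀' Y₁ Z E0 h : ℝ, 0 < K → 0 < X → 1 ≤ Y → 0 < Y₁ → Y₁ ≤ Z → 0 ≤ h →
      ∀ α : Eis → ℂ, Adm Y X R α → ∀ om : Eis × Eis → ℂ, (∀ x, ‖om x‖ ≤ 1) →
      ∀ (Q : Eis → Prop) (e₃ : ℝ),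
      GrP w (K * Real.exp (-h)) (fun k => if Q k then StE E0 (JW D Y₀ Z) om α k else 0) ≤
        c3 w (K * Real.exp (-h)) * (X3 Y E0 (JW D Y₀ Z) om α).re + e₃ →
      Real.exp (h / 3) * ‖CrP w (K * Real.exp (-h)) α
        (fun k => if Q k then StE E0 (JW D Y₀ Z) om α k else 0)‖ ≤
        Real.exp (-(2 * h / 3)) * Dg w K Y α +
        C * (1 + Real.log Y) * (K / X) * (Real.exp (-(h / 3)) * EHf A K X Y Z α +
          Real.exp (-(2 * h / 3)) * E1e A B (K * Real.exp (-h)) X Y Y Y₀' Y₁ α) +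
          Real.exp (h / 3) * |e₃| := by
  obtain ⟨C₁, hC₁, h1⟩ := SqP_x hw hw0 hR hA hB
  obtain ⟨C₂, hC₂, h2⟩ := main_le hw0 hR hA
  refine ⟨C₁ + C₂, by positivity, fun K X Y D Y₀ Y₀' Y₁ Z E0 h hK hX hY hY₁ hYZ hh α hα om hom
    Q e₃ hG => ?_⟩
  set s := Real.exp (-h) with hs
  have hs0 : 0 < s := Real.exp_pos _
  set K' := K * s with hK'
  have hK'0 : 0 < K' := by positivity
  have hY0 : 0 ≤ Y := by linarith
  have hlog := Real.log_nonneg hY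
  set u : Eis → ℂ := fun k => if Q k then StE E0 (JW D Y₀ Z) om α k else 0 with hu
  have a1 := CrP_am hw hw0 hK'0 α u one_pos
  rw [one_mul, div_one] at a1
  have a2 := h1 K' X Y Y₀' Y₁ hK'0 hX hY hY₁ α hα
  have a3 := h2 K' X Y D Y₀ Z hK'0 hX hY α hα (X3 Y E0 (JW D Y₀ Z) om α).re
    ((Complex.re_le_norm _).trans (X3_le_s hY0 E0 (JW D Y₀ Z) hom α))
  have a4 : EHf A K' X Y Y₁ α ≤ EHf A K' X Y Z α :=
    EHc_monoZ _ (fun n => by positivity) _ hK'0.le hX.le hYZ α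
  have hEZ : 0 ≤ EHf A K' X Y Z α := EHf_nonneg hK'0.le hX.le α
  have hE1 : 0 ≤ E1e A B K' X Y Y Y₀' Y₁ α := E1e_nonneg hK'0.le hX.le hY₁.le α
  set E := EHf A K' X Y Z α with hE
  set T := E1e A B K' X Y Y Y₀' Y₁ α with hT
  have hsq := SqP_nonneg hw0 K' α
  have hgr := GrP_nonneg (K := K') hw0 u
  have b1 : ‖CrP w K' α u‖ ≤ Dg w K' Y α + (C₁ + C₂) * (1 + Real.log Y) * (K' / X) * (E + T) +
      |e₃| := by
    have c1 : SqP w K' α ≤ Dg w K' Y α + C₁ * (1 + Real.log Y) * (K' / X) * (E + T) := by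
      refine a2.trans (add_le_add le_rfl (mul_le_mul_of_nonneg_left ?_ (by positivity)))
      linarith
    have c2 : GrP w K' u ≤ C₂ * (1 + Real.log Y) * (K' / X) * (E + T) + |e₃| := by
      refine hG.trans (add_le_add (a3.trans ?_) (le_abs_self _))
      refine mul_le_mul_of_nonneg_left ?_ (by positivity)
      linarith
    have e1 : (C₁ + C₂) * (1 + Real.log Y) * (K' / X) * (E + T) =
        C₁ * (1 + Real.log Y) * (K' / X) * (E + T) + C₂ * (1 + Real.log Y) * (K' / X) *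
          (E + T) := by ring
    rw [e1]
    linarith
  have b2 := mul_le_mul_of_nonneg_left b1 (Real.exp_pos (h / 3)).le
  refine b2.trans ?_
  have e1 : E = Real.exp (h / 3) * EHf A K X Y Z α := by
    rw [hE, hK']
    unfold EHf
    rw [EHc_sc hs0.le _ _ hK.le, hs, ← Real.exp_mul]
    congr 2
    ring
  have e2 : Dg w K' Y α = s * Dg w K Y α := Sc2180.Dg_sc w K s Y α
  have e3 : Real.exp (h / 3) * s = Real.exp (-(2 * h / 3)) := by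
    rw [hs, ← Real.exp_add]; congr 1; ring
  have e4 : Real.exp (-(2 * h / 3)) * Real.exp (h / 3) = Real.exp (-(h / 3)) := by
    rw [← Real.exp_add]; congr 1; ring
  have e5 : Real.exp (h / 3) * (Dg w K' Y α + (C₁ + C₂) * (1 + Real.log Y) * (K' / X) *
      (E + T) + |e₃|) = Real.exp (h / 3) * s * Dg w K Y α +
      (C₁ + C₂) * (1 + Real.log Y) * (K / X) * (Real.exp (h / 3) * s * E +
        Real.exp (h / 3) * s * T) + Real.exp (h / 3) * |e₃| := by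
    rw [e2, hK']
    ring
  rw [e5, e3, e1, ← mul_assoc (Real.exp (-(2 * h / 3))) (Real.exp (h / 3)), e4]

/-! ### the cross error -/

/-- one piece: `E2e` split by 48 -/
lemma E2e_eq (Ft : ℝ → ℂ) (K E0 : ℝ) (Ds : Finset Eis) (V : ℝ) (I : ℕ) (J : Finset (Eis × Eis))
    (om : Eis × Eis → ℂ) (α : Eis → ℂ) : E2e Ft K E0 Ds V I J om α =
    ∑ δ ∈ Ds, ∑ i ∈ Finset.range I, ∑ e ∈ S E0,
        Real.sqrt (∑ x ∈ Jb J δ (V / 2 ^ i), ‖om x‖ ^ 2 * ‖TE α x e‖ ^ 2) *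
        R2 α K Ft δ e (V / 2 ^ i) := rfl

/-- **the pieces** -/
theorem pieces_le {N : ℕ} {M : ℝ} (hM : 0 ≤ M) {R : ℝ} (hR : 0 ≤ R) {A : ℕ} (hA : 2 ≤ A) :
    ∃ C : ℝ, 0 ≤ C ∧ ∀ (G : ℕ → ℝ → ℂ) (K X Y D Y₀ Z E0 θ : ℝ) (I : ℕ), 0 < K → 0 < X →
      1 ≤ Y → 0 ≤ D → 0 < Z → 0 < θ →
      ∀ α : Eis → ℂ, Adm Y X R α → ∀ om : Eis × Eis → ℂ, (∀ x, ‖om x‖ ≤ 1) →
      ∑ i ∈ Finset.range N, E2e (G i) (sc K M i) E0 (S D) Z I (JW D Y₀ Z) om α ≤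
        C * ((K / X) * (θ * EHs A K X Y Z E0 α) +
          θ⁻¹ * ∑ i ∈ Finset.range N, REb α (sc K M i) (G i) (S D) I E0 Z Z) := by
  obtain ⟨C₁, hC₁, H₁⟩ := cross_split_c R hR A hA
  refine ⟨N * Real.exp (2 * N / 3) + C₁, by positivity, ?_⟩
  intro G K X Y D Y₀ Z E0 θ I hK hX hY hD hZ hθ α hα om hom
  have hs0 : 0 ≤ EHs A K X Y Z E0 α := EHc_nonneg (fun n => Nat.cast_nonneg n) _ hK.le hX.le α
  have hr0 : ∀ i, 0 ≤ REb α (sc K M i) (G i) (S D) I E0 Z Z := by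
    intro i
    unfold LBx48.REb
    refine Finset.sum_nonneg fun δ _ => Finset.sum_nonneg fun j _ => Finset.sum_nonneg fun e _ => ?_
    have h9 : 0 ≤ (sc K M i) ^ (-(2 / 3) : ℝ) := Real.rpow_nonneg (sc_pos hK M i).le _
    positivity
  have h1 : ∀ i ∈ Finset.range N, E2e (G i) (sc K M i) E0 (S D) Z I (JW D Y₀ Z) om α ≤
      Real.exp (2 * N / 3) * ((K / X) * (θ * EHs A K X Y Z E0 α)) +
      C₁ * (θ⁻¹ * REb α (sc K M i) (G i) (S D) I E0 Z Z) := by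
    intro i hi
    have hi' : (i : ℝ) ≤ N := by exact_mod_cast (Finset.mem_range.mp hi).le
    have h2 := H₁ Y X (sc K M i) D Y₀ Z Z E0 θ hY hX (sc_pos hK M i) hZ hθ α hα (S D)
      (fun δ hδ => ((mem_S hD).1 hδ).2) I om hom (G i)
    rw [E2e_eq]
    refine h2.trans (add_le_add ?_ (le_of_eq (by ring)))
    have e1 : EHc (fun n => (n : ℝ)) (fun e => e ∈ S E0) A (sc K M i) X Y Z α =
        (Real.exp (i - M)) ^ (-(1 / 3) : ℝ) * EHs A K X Y Z E0 α := by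
      unfold WDec180.sc
      rw [EHc_sc (Real.exp_pos _).le _ _ hK.le]
      rfl
    rw [e1, ← Real.exp_mul]
    have e2 : θ * (sc K M i / X) * (Real.exp ((i - M) * (-(1 / 3))) * EHs A K X Y Z E0 α) =
        Real.exp (2 / 3 * (i - M)) * ((K / X) * (θ * EHs A K X Y Z E0 α)) := by
      have e3 : Real.exp ((i : ℝ) - M) * Real.exp ((i - M) * (-(1 / 3))) =
          Real.exp (2 / 3 * (i - M)) := by
        rw [← Real.exp_add]; congr 1; ring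
      rw [← e3]
      unfold WDec180.sc
      ring
    rw [e2]
    refine mul_le_mul_of_nonneg_right (Real.exp_le_exp.mpr ?_) (by positivity)
    linarith
  refine (Finset.sum_le_sum h1).trans ?_
  rw [Finset.sum_add_distrib, Finset.sum_const, Finset.card_range, nsmul_eq_mul,
    ← Finset.mul_sum, ← Finset.mul_sum]
  have h3 : 0 ≤ ∑ i ∈ Finset.range N, REb α (sc K M i) (G i) (S D) I E0 Z Z :=
    Finset.sum_nonneg fun i _ => hr0 i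
  have h4 : 0 ≤ (K / X) * (θ * EHs A K X Y Z E0 α) := by positivity
  have h5 : 0 ≤ θ⁻¹ * ∑ i ∈ Finset.range N, REb α (sc K M i) (G i) (S D) I E0 Z Z :=
    mul_nonneg (inv_pos.mpr hθ).le h3
  have h6 : 0 ≤ (N : ℝ) * Real.exp (2 * N / 3) * (θ⁻¹ * ∑ i ∈ Finset.range N,
      REb α (sc K M i) (G i) (S D) I E0 Z Z) := by positivity
  have h7 : 0 ≤ C₁ * ((K / X) * (θ * EHs A K X Y Z E0 α)) := by positivity
  have e9 : (N * Real.exp (2 * N / 3) + C₁) * ((K / X) * (θ * EHs A K X Y Z E0 α) +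
      θ⁻¹ * ∑ i ∈ Finset.range N, REb α (sc K M i) (G i) (S D) I E0 Z Z) =
      N * (Real.exp (2 * N / 3) * ((K / X) * (θ * EHs A K X Y Z E0 α))) +
      C₁ * (θ⁻¹ * ∑ i ∈ Finset.range N, REb α (sc K M i) (G i) (S D) I E0 Z Z) +
      (N : ℝ) * Real.exp (2 * N / 3) * (θ⁻¹ * ∑ i ∈ Finset.range N,
      REb α (sc K M i) (G i) (S D) I E0 Z Z) +
      C₁ * ((K / X) * (θ * EHs A K X Y Z E0 α)) := by ring
  rw [e9]
  linarith

/-- numbers -/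
lemma comb_num {C₁ C₂ C₃ L Es Ef E1 RR x0 s2 st sx mx D₀ G₀ et a1r T : ℝ} (hC₁ : 0 ≤ C₁)
    (hC₂ : 0 ≤ C₂) (hC₃ : 0 ≤ C₃) (hL : 1 ≤ L) (p1 : 0 ≤ Es) (p2 : 0 ≤ Ef) (p3 : 0 ≤ E1)
    (p4 : 0 ≤ RR) (a0 : x0 ≤ s2 + st + sx + mx) (a1 : sx ≤ D₀ + a1r + G₀)
    (a2 : s2 ≤ C₂ * (Es + RR)) (ht : st ≤ et) (hm : mx ≤ C₃ * L * Ef)
    (h1 : a1r = C₁ * L * (Ef + E1)) (hT : T = (C₁ + C₂ + C₃) * L * (Es + Ef + E1 + RR)) :
    x0 ≤ T + D₀ + G₀ + et := by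
  have a6 : C₂ * (Es + RR) ≤ C₂ * L * (Es + RR) := by
    rw [mul_assoc]
    refine mul_le_mul_of_nonneg_left ?_ hC₂
    exact le_mul_of_one_le_left (by positivity) hL
  have hL0 : 0 ≤ L := by linarith
  have e3 : T = C₁ * L * (Ef + E1) + C₂ * L * (Es + RR) + C₃ * L * Ef +
      (C₁ * L * (Es + RR) + C₂ * L * (Ef + E1) + C₃ * L * (Es + E1 + RR)) := by
    rw [hT]; ring
  have p5 : 0 ≤ C₁ * L * (Es + RR) + C₂ * L * (Ef + E1) + C₃ * L * (Es + E1 + RR) := by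
    positivity
  rw [e3]
  linarith

/-- **the cross error of the exceptional class** (`Q` = the kept `k`, `K' = K e^(-h)`) -/
theorem e2x {w : ℝ → ℝ} (hw : Wgt w) (hw0 : ∀ x, 0 ≤ w x) {N : ℕ} {M : ℝ} {F : ℕ → ℝ → ℂ}
    (hD : WD w N M F) {R : ℝ} (hR : 0 ≤ R) {A : ℕ} (hA : 2 ≤ A) {B : ℝ} (hB : 1 ≤ B) :
    ∃ C : ℝ, 0 ≤ C ∧
      ∀ (K X Y D Y₀ Y₀' Y₁ Z E0 h θ : ℝ) (I : ℕ), 0 < K → 0 < X → 1 ≤ Y → 0 < Y₁ → Y₁ ≤ Z →
      0 ≤ h → 0 ≤ D → 0 ≤ E0 → 0 < θ → Z < 2 ^ I →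
      ∀ α : Eis → ℂ, Adm Y X R α → ∀ om : Eis × Eis → ℂ, (∀ x, ‖om x‖ ≤ 1) →
      ∀ (Q : Eis → Prop) (e₃ et : ℝ),
      GrP w (K * Real.exp (-h)) (fun k => if Q k then StE E0 (JW D Y₀ Z) om α k else 0) ≤
        c3 w (K * Real.exp (-h)) * (X3 Y E0 (JW D Y₀ Z) om α).re + e₃ →
      ∑ i ∈ Finset.range N, ‖CrQ (GF (Fh (F i) h)) (fun k => ¬ Q k) (sc K M i) α
        (StE E0 (JW D Y₀ Z) om α)‖ ≤ et →
      ‖CrP w K α (fun k => if Q k then StE E0 (JW D Y₀ Z) om α k else 0) -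
        ((pC * (kap0 * mel w (2 / 3) * K ^ (2 / 3 : ℝ)) : ℝ) : ℂ) *
          X2 Y E0 (JW D Y₀ Z) om α‖ ≤
      C * (1 + Real.log Y) * ((K / X) * (θ * EHs A K X Y Z E0 α +
          Real.exp (-(h / 3)) * EHf A K X Y Z α +
          Real.exp (-(2 * h / 3)) * E1e A B (K * Real.exp (-h)) X Y Y Y₀' Y₁ α) +
        θ⁻¹ * ∑ i ∈ Finset.range N, REb α (sc K M i) (GF (Fh (F i) h)) (S D) I E0 Z Z) +
        Real.exp (-(2 * h / 3)) * Dg w K Y α + Real.exp (h / 3) * |e₃| + et := by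
  obtain ⟨C₁, hC₁, H₁⟩ := sc2x hw hw0 hR hA hB
  obtain ⟨C₂, hC₂, H₂⟩ := pieces_le (N := N) hD.M0 hR hA
  obtain ⟨C₃, hC₃, H₃⟩ := main_le hw0 hR hA
  have hpC := Cst401.pC_pos
  refine ⟨C₁ + C₂ + pC * C₃, by positivity, ?_⟩
  intro K X Y D Y₀ Y₀' Y₁ Z E0 h θ I hK hX hY hY₁ hYZ hh hD0 hE0 hθ hI α hα om hom Q e₃ et hG ht
  have hY0 : 0 ≤ Y := by linarith
  have hZ : 0 < Z := by linarith
  have hlog := Real.log_nonneg hY
  have a0 := cross_ex hD hh Q hK hE0 hY0 hD0 hZ hI hα.sup om (D := D) (Y₀ := Y₀)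
  have a1 := H₁ K X Y D Y₀ Y₀' Y₁ Z E0 h hK hX hY hY₁ hYZ hh α hα om hom Q e₃ hG
  have a2 := H₂ (fun i => GF (Fh (F i) h)) K X Y D Y₀ Z E0 θ I hK hX hY hD0 hZ hθ α hα om hom
  have a3 := H₃ K X Y D Y₀ Z hK hX hY α hα ‖X2 Y E0 (JW D Y₀ Z) om α‖
    (X2_le_s hY0 E0 (JW D Y₀ Z) hom α)
  have hc3 : 0 ≤ kap0 * mel w (2 / 3) * K ^ (2 / 3 : ℝ) := c3_nonneg hw0 hK
  have a4 : ‖((pC * (kap0 * mel w (2 / 3) * K ^ (2 / 3 : ℝ)) : ℝ) : ℂ) *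
      X2 Y E0 (JW D Y₀ Z) om α‖ ≤ pC * (C₃ * (1 + Real.log Y) * (K / X) *
        EHf A K X Y Z α) := by
    rw [norm_mul, Complex.norm_real, Real.norm_of_nonneg (mul_nonneg hpC.le hc3), mul_assoc]
    exact mul_le_mul_of_nonneg_left a3 hpC.le
  have hs0 : 0 ≤ EHs A K X Y Z E0 α := EHc_nonneg (fun n => Nat.cast_nonneg n) _ hK.le hX.le α
  have hf0 : 0 ≤ EHf A K X Y Z α := EHf_nonneg hK.le hX.le α
  have hK' : 0 < K * Real.exp (-h) := by positivity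
  have hE1 : 0 ≤ E1e A B (K * Real.exp (-h)) X Y Y Y₀' Y₁ α := E1e_nonneg hK'.le hX.le hY₁.le α
  have hr0 : 0 ≤ ∑ i ∈ Finset.range N, REb α (sc K M i) (GF (Fh (F i) h)) (S D) I E0 Z Z := by
    refine Finset.sum_nonneg fun i _ => ?_
    unfold LBx48.REb
    refine Finset.sum_nonneg fun δ _ => Finset.sum_nonneg fun j _ => Finset.sum_nonneg fun e _ => ?_
    have h9 : 0 ≤ (sc K M i) ^ (-(2 / 3) : ℝ) := Real.rpow_nonneg (sc_pos hK M i).le _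
    positivity
  have hKX : 0 ≤ K / X := by positivity
  have hp := (Real.exp_pos (-(h / 3))).le
  have hp2 := (Real.exp_pos (-(2 * h / 3))).le
  refine comb_num hC₁ hC₂ (mul_nonneg hpC.le hC₃) (L := 1 + Real.log Y) (by linarith)
    (mul_nonneg hKX (mul_nonneg hθ.le hs0)) (mul_nonneg hKX (mul_nonneg hp hf0))
    (mul_nonneg hKX (mul_nonneg hp2 hE1)) (mul_nonneg (inv_pos.mpr hθ).le hr0) a0 a1 a2 ht ?_ ?_ ?_
  · have a5 := mul_le_mul_of_nonneg_left a4 hp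
    refine a5.trans (le_of_eq ?_)
    ring
  · ring
  · ring

end Crest.Agent.R017.LBX180
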