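import Crest.Agent.R017.RGwD_813
import Crest.Agent.R017.AL_813

/-!
# Row 17, C.REMg (LB), leaf L2 of helper48 (helper813)

* `Dg_le` : the diagonal of `E1` for a bounded sequence in a window
* `norm_bt_le` : the size of the twisted window
* `Dg_bt_le`, `Dg_list_le` : the diagonal of the twisted windows
* `adm_bt` (RGwD) : `Adm` of the twisted windows
* `Om N₀ N₁` : a cutoff, `rho N₀ N₁ = 2 Om - Om ^ 2`
-/

set_option autoImplicit false

noncomputable section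

open Complex MeasureTheory Filter Topology
open scoped ComplexConjugate Classical

namespace Crest.Agent.R017.LBo813

open Crest.Agent.R012 Crest.Agent.R012.Eis Crest.Agent.R012.MC
open Crest.Agent.R012.LS2 (S mem_S)
open Crest.Agent.R012.Mob705 (PE PE_pos PE_le_one)
open Crest.Agent.R012.Div277 (tau_le_rpow)
open Crest.Agent.R012.Weight600 (osc pw)
open Crest.Agent.R017.CM106 (CS TG FS)
open Crest.Agent.R017.E1551
open Crest.Agent.R017.Win813 Crest.Agent.R017.RGw813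
open Crest.Agent.R017.HP842 (sqc)
open Crest.Agent.R017.FE47 (PU cx)
open Crest.Agent.R017.B770 (DPar)
open Crest.Agent.R017.Leg381 (alF LF Pf)

/-! ### the diagonal -/

/-- **the diagonal** of a bounded sequence in a window -/
theorem Dg_le (w : ℝ → ℝ) : ∃ C : ℝ, 0 ≤ C ∧ ∀ K X Y R M : ℝ, 0 ≤ K → 0 < X → 0 ≤ Y → 0 ≤ M →
    ∀ α : Eis → ℂ, (∀ n, α n ≠ 0 → n ∈ S Y) →
    (∀ n, α n ≠ 0 → |Real.log (nm n) - Real.log X| ≤ R) → (∀ n ∈ S Y, ‖α n‖ ≤ M) →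
    Dg w K Y α ≤ C * Real.exp R * ((K / X) * (X ^ 2 * M ^ 2)) := by
  refine ⟨2 / (9 * Real.sqrt 3) * |Wt w 0| * 16, by positivity, ?_⟩
  intro K X Y R M hK hX hY hM α hα hαR hαM
  have h3 : (0 : ℝ) < 9 * Real.sqrt 3 := by positivity
  have hT : ∀ n ∈ S Y, α n ≠ 0 → n ∈ S (Real.exp R * X) := by
    intro n hn h0
    obtain ⟨h1, h2, h4⟩ := (mem_S hY).1 hn
    have hn0 : (0 : ℝ) < nm n := by exact_mod_cast nm_pos.2 h2.ne_zero
    rw [mem_S (by positivity)]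
    refine ⟨?_, h2, h4⟩
    have h5 := (abs_le.1 (hαR n h0)).2
    rw [← Real.exp_log hn0]
    calc Real.exp (Real.log (nm n)) ≤ Real.exp (R + Real.log X) :=
          Real.exp_le_exp.2 (by linarith)
      _ = Real.exp R * X := by rw [Real.exp_add, Real.exp_log hX]
  have hs : ∑ d ∈ S Y, PE d * ‖α d‖ ^ 2 ≤ 16 * (Real.exp R * X) * M ^ 2 := by
    have e1 : ∑ d ∈ S Y, PE d * ‖α d‖ ^ 2 =
        ∑ d ∈ (S Y).filter (fun d => α d ≠ 0), PE d * ‖α d‖ ^ 2 := by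
      rw [Finset.sum_filter]
      refine Finset.sum_congr rfl fun d _ => ?_
      split_ifs with h
      · rfl
      · rw [not_not] at h
        rw [h, norm_zero]; ring
    rw [e1]
    by_cases hX1 : 1 ≤ Real.exp R * X
    · calc ∑ d ∈ (S Y).filter (fun d => α d ≠ 0), PE d * ‖α d‖ ^ 2 ≤
            ∑ d ∈ (S Y).filter (fun d => α d ≠ 0), M ^ 2 := by
            refine Finset.sum_le_sum fun d hd => ?_
            have h1 := hαM d (Finset.mem_filter.1 hd).1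
            have h2 : ‖α d‖ ^ 2 ≤ M ^ 2 := pow_le_pow_left₀ (norm_nonneg _) h1 2
            calc PE d * ‖α d‖ ^ 2 ≤ 1 * M ^ 2 :=
                  mul_le_mul (PE_le_one d) h2 (by positivity) zero_le_one
              _ = M ^ 2 := one_mul _
        _ = (((S Y).filter (fun d => α d ≠ 0)).card : ℝ) * M ^ 2 := by
            rw [Finset.sum_const, nsmul_eq_mul]
        _ ≤ ((S (Real.exp R * X)).card : ℝ) * M ^ 2 := by
            refine mul_le_mul_of_nonneg_right ?_ (by positivity)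
            exact_mod_cast Finset.card_le_card fun d hd =>
              hT d (Finset.mem_filter.1 hd).1 (Finset.mem_filter.1 hd).2
        _ ≤ 16 * (Real.exp R * X) * M ^ 2 :=
            mul_le_mul_of_nonneg_right (GLS106.card_S_le hX1) (by positivity)
    · have e2 : (S Y).filter (fun d => α d ≠ 0) = ∅ := by
        rw [Finset.eq_empty_iff_forall_notMem]
        intro d hd
        have h1 := hT d (Finset.mem_filter.1 hd).1 (Finset.mem_filter.1 hd).2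
        obtain ⟨h2, h4, -⟩ := (mem_S (by positivity)).1 h1
        have h5 : (1 : ℝ) ≤ nm d := by exact_mod_cast nm_pos.2 h4.ne_zero
        exact hX1 (by linarith)
      rw [e2, Finset.sum_empty]
      positivity
  unfold Dg
  have h0 : 0 ≤ ∑ d ∈ S Y, PE d * ‖α d‖ ^ 2 :=
    Finset.sum_nonneg fun d _ => mul_nonneg (PE_pos d).le (by positivity)
  calc 2 * K / (9 * Real.sqrt 3) * Wt w 0 * ∑ d ∈ S Y, PE d * ‖α d‖ ^ 2 ≤
        2 * K / (9 * Real.sqrt 3) * |Wt w 0| * (16 * (Real.exp R * X) * M ^ 2) := by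
        have h4 : 2 * K / (9 * Real.sqrt 3) * Wt w 0 ≤ 2 * K / (9 * Real.sqrt 3) * |Wt w 0| :=
          mul_le_mul_of_nonneg_left (le_abs_self _) (by positivity)
        exact (mul_le_mul_of_nonneg_right h4 h0).trans
          (mul_le_mul_of_nonneg_left hs (by positivity))
    _ = _ := by
        field_simp

/-! ### the twisted windows -/

lemma norm_bt_le {Cw η : ℝ} {Aw : ℕ} {φ : ℝ → ℝ} (hφ : WK Cw η Aw φ) (hη : 0 < η) (hA : 2 ≤ Aw)
    {α : Eis → ℂ} (hF : FS α) (p : ℕ × ℕ) (t : ℝ) (n : Eis) :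
    ‖bt φ α p n * pw t (nm n)‖ ≤ (Cw * iA Aw) * ‖α n‖ := by
  rw [norm_mul, RG64.norm_pw, mul_one]
  unfold RGw813.bt
  rw [norm_tw2 (FS_wn hF)]
  unfold Win813.wn
  rw [norm_mul, Complex.norm_real, Real.norm_eq_abs, mul_comm]
  exact mul_le_mul_of_nonneg_right (hφ.le hη hA _) (norm_nonneg _)

lemma bt_ne {φ : ℝ → ℝ} {α : Eis → ℂ} {p : ℕ × ℕ} {t : ℝ} {n : Eis}
    (h : bt φ α p n * pw t (nm n) ≠ 0) : α n ≠ 0 :=
  (wn_ne (tw2_ne (left_ne_zero_of_mul h))).1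

/-- **the diagonal of the twisted windows** -/
theorem Dg_bt_le (w : ℝ → ℝ) (Aw : ℕ) (hA : 2 ≤ Aw) (Cw : ℝ) : ∃ C : ℝ, 0 ≤ C ∧
    ∀ K X X' Y R M η : ℝ, 0 ≤ K → 0 < X → 0 ≤ Y → 0 ≤ M → 0 < η → η ≤ 1 →
    0 < X' → |Real.log X' - Real.log X| ≤ R + 1 →
    ∀ α : Eis → ℂ, FS α → (∀ n, α n ≠ 0 → n ∈ S Y) →
    (∀ n, α n ≠ 0 → |Real.log (nm n) - Real.log X| ≤ R) → (∀ n ∈ S Y, ‖α n‖ ≤ M) →
    ∀ φ : ℝ → ℝ, WK Cw η Aw φ → ∀ (p : ℕ × ℕ) (t : ℝ),
    Dg w K Y (fun n => bt φ α p n * pw t (nm n)) ≤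
      C * Real.exp R * ((K / X) * (X ^ 2 * M ^ 2)) := by
  obtain ⟨C, hC, h⟩ := Dg_le w
  refine ⟨C * (Cw * iA Aw) ^ 2, by positivity, ?_⟩
  intro K X X' Y R M η hK hX hY hM hη hη1 hX' hXX α hF hα hαR hαM φ hφ p t
  have hc : 0 ≤ Cw * iA Aw := (abs_nonneg _).trans (hφ.le hη hA 0)
  have h1 := h K X Y R ((Cw * iA Aw) * M) hK hX hY (by positivity)
    (fun n => bt φ α p n * pw t (nm n)) (fun n hn => hα n (bt_ne hn))
    (fun n hn => hαR n (bt_ne hn))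
    (fun n hn => (norm_bt_le hφ hη hA hF p t n).trans
      (mul_le_mul_of_nonneg_left (hαM n hn) hc))
  refine h1.trans (le_of_eq ?_)
  ring

/-- **the size of the sequence of a list** -/
theorem norm_list_le {h : ℝ → ℝ} {c : ℝ} (hpu : PU h c) (N : ℕ) {ε : ℝ} (hε : 0 < ε) :
    ∃ C : ℝ, 1 ≤ C ∧ ∀ (z D0 : ℝ) (P : DPar), P.OK → ∀ (q : Eis) (ps : List Pf),
      ps.length ≤ N → ∀ Y : ℝ, 1 ≤ Y → ∀ n ∈ S Y, ‖sqc q (alF z D0 P h ps) n‖ ≤ C * Y ^ ε := by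
  obtain ⟨A, hA1, hA⟩ := AL813.cx_bdd hpu
  have hN0 : (0 : ℝ) ≤ N := Nat.cast_nonneg _
  set ε' : ℝ := ε / (2 * N + 1) with hε'
  have hε'0 : 0 < ε' := by positivity
  obtain ⟨C, hC, hτ⟩ := tau_le_rpow hε'0
  refine ⟨A ^ N * C ^ (2 * N), one_le_mul_of_one_le_of_one_le (one_le_pow₀ hA1)
    (one_le_pow₀ hC), ?_⟩
  intro z D0 P hP q ps hN Y hY n hn
  have hY0 : 0 < Y := by linarith
  obtain ⟨h1, h2, -⟩ := (mem_S hY0.le).1 hn
  have hn0 := h2.ne_zero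
  have hnp : (0 : ℝ) < nm n := by exact_mod_cast nm_pos.2 hn0
  have ht : (1 : ℝ) ≤ Div277.tau n := Leg381.one_le_tau hn0
  refine ((AL813.norm_sqc_le q _ n).trans (AL813.norm_alF_le hA z D0 hP ps n)).trans ?_
  have h3 : A ^ ps.length ≤ A ^ N := pow_le_pow_right₀ hA1 hN
  have h4 : (Div277.tau n : ℝ) ^ (2 * ps.length) ≤ (Div277.tau n : ℝ) ^ (2 * N) :=
    pow_le_pow_right₀ ht (by omega)
  have h5 : (Div277.tau n : ℝ) ≤ C * Y ^ ε' :=
    (hτ n hn0).trans (mul_le_mul_of_nonneg_left (Real.rpow_le_rpow hnp.le h1 hε'0.le)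
      (by linarith))
  have h6 : (Div277.tau n : ℝ) ^ (2 * N) ≤ C ^ (2 * N) * Y ^ ε := by
    calc (Div277.tau n : ℝ) ^ (2 * N) ≤ (C * Y ^ ε') ^ (2 * N) :=
          pow_le_pow_left₀ (by linarith) h5 _
      _ = C ^ (2 * N) * (Y ^ ε') ^ (2 * N) := by rw [mul_pow]
      _ ≤ C ^ (2 * N) * Y ^ ε := by
          refine mul_le_mul_of_nonneg_left ?_ (by positivity)
          rw [← Real.rpow_natCast, ← Real.rpow_mul hY0.le]
          refine Real.rpow_le_rpow_of_exponent_le hY ?_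
          rw [hε']
          push_cast
          rw [div_mul_eq_mul_div, div_le_iff₀ (by positivity)]
          nlinarith
  calc A ^ ps.length * (Div277.tau n : ℝ) ^ (2 * ps.length) ≤ A ^ N * (C ^ (2 * N) * Y ^ ε) :=
        mul_le_mul h3 (h4.trans h6) (by positivity) (by positivity)
    _ = _ := by ring

/-! ### the cutoff -/

/-- smooth cutoff of `log n` between `N₀` and `N₁` -/
def Om (N₀ N₁ n : ℕ) : ℝ :=
  Real.smoothTransition
    ((Real.log ((N₁ : ℝ) + 1) - Real.log n) / (Real.log ((N₁ : ℝ) + 1) - Real.log N₀))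

/-- the weight `2 Om - Om ^ 2` -/
def rho (N₀ N₁ n : ℕ) : ℝ := 2 * Om N₀ N₁ n - Om N₀ N₁ n ^ 2

lemma Om_nonneg (N₀ N₁ n : ℕ) : 0 ≤ Om N₀ N₁ n := Real.smoothTransition.nonneg _

lemma Om_le_one (N₀ N₁ n : ℕ) : Om N₀ N₁ n ≤ 1 := Real.smoothTransition.le_one _

lemma Om_den {N₀ N₁ : ℕ} (h0 : 1 ≤ N₀) (h : N₀ ≤ N₁) :
    0 < Real.log ((N₁ : ℝ) + 1) - Real.log N₀ := by
  have h1 : (1 : ℝ) ≤ N₀ := by exact_mod_cast h0
  have h2 : (N₀ : ℝ) ≤ N₁ := by exact_mod_cast h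
  have := Real.log_lt_log (by linarith : (0 : ℝ) < N₀) (by linarith : (N₀ : ℝ) < N₁ + 1)
  linarith

lemma Om_one {N₀ N₁ : ℕ} (h0 : 1 ≤ N₀) (h : N₀ ≤ N₁) {n : ℕ} (hn : n ≤ N₀) :
    Om N₀ N₁ n = 1 := by
  have hd := Om_den h0 h
  have h1 : (1 : ℝ) ≤ N₀ := by exact_mod_cast h0
  have h3 : Real.log n ≤ Real.log N₀ := by
    rcases Nat.eq_zero_or_pos n with h4 | h4
    · subst h4
      rw [Nat.cast_zero, Real.log_zero]
      exact Real.log_nonneg h1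
    · exact Real.log_le_log (by exact_mod_cast h4) (by exact_mod_cast hn)
  unfold Om
  have h5 : 1 ≤ (Real.log ((N₁ : ℝ) + 1) - Real.log n) /
      (Real.log ((N₁ : ℝ) + 1) - Real.log N₀) := by
    rw [one_le_div hd]
    linarith
  exact Real.smoothTransition.one_of_one_le h5

lemma Om_zero {N₀ N₁ : ℕ} (h0 : 1 ≤ N₀) (h : N₀ ≤ N₁) {n : ℕ} (hn : N₁ < n) :
    Om N₀ N₁ n = 0 := by
  have hd := Om_den h0 h
  have h1 : (N₁ : ℝ) + 1 ≤ n := by exact_mod_cast hn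
  have h3 : Real.log ((N₁ : ℝ) + 1) ≤ Real.log n := Real.log_le_log (by positivity) h1
  unfold Om
  exact Real.smoothTransition.zero_of_nonpos
    (div_nonpos_of_nonpos_of_nonneg (by linarith) hd.le)

lemma Om_anti {N₀ N₁ : ℕ} (h0 : 1 ≤ N₀) (h : N₀ ≤ N₁) : Antitone (Om N₀ N₁) := by
  intro a b hab
  rcases Nat.eq_zero_or_pos a with h4 | h4
  · subst h4
    rw [Om_one h0 h (Nat.zero_le _)]
    exact Om_le_one _ _ _
  have hd := Om_den h0 h
  have h3 : Real.log a ≤ Real.log b :=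
    Real.log_le_log (by exact_mod_cast h4) (by exact_mod_cast hab)
  unfold Om
  exact Real.smoothTransition.monotone (div_le_div_of_nonneg_right (by linarith) hd.le)

lemma rho_one {N₀ N₁ : ℕ} (h0 : 1 ≤ N₀) (h : N₀ ≤ N₁) {n : ℕ} (hn : n ≤ N₀) :
    rho N₀ N₁ n = 1 := by
  unfold rho; rw [Om_one h0 h hn]; norm_num

lemma rho_zero {N₀ N₁ : ℕ} (h0 : 1 ≤ N₀) (h : N₀ ≤ N₁) {n : ℕ} (hn : N₁ < n) :
    rho N₀ N₁ n = 0 := by
  unfold rho; rw [Om_zero h0 h hn]; norm_num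

lemma rho_anti {N₀ N₁ : ℕ} (h0 : 1 ≤ N₀) (h : N₀ ≤ N₁) : Antitone (rho N₀ N₁) := by
  intro a b hab
  have h1 := Om_anti h0 h hab
  have h2 := Om_le_one N₀ N₁ a
  have h3 := Om_le_one N₀ N₁ b
  have h4 := Om_nonneg N₀ N₁ a
  have h5 := Om_nonneg N₀ N₁ b
  unfold rho
  nlinarith

end Crest.Agent.R017.LBo813
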