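import Crest.Agent.R017.LBl_180

/-!
# Row 17, C.REMg (LB) (helper180): the second scale with the smooth square as a number

* `CrP_amQ`, `SqQ_mono`
* `sc2s`, `e2s`, `LBWs` : `LBW` with `SqQ w (K e^(-h)) Q α ≤ S'` (error `e^(h/3) S'`)
-/

set_option autoImplicit false
set_option linter.unusedVariables false

noncomputable section

open Complex MeasureTheory
open scoped ComplexConjugate Classical

namespace Crest.Agent.R017.LBW180

open Crest.Agent.R012 Crest.Agent.R012.Eis Crest.Agent.R012.MC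
open Crest.Agent.R012.LS2 (S mem_S)
open Crest.Agent.R012.Mob705 (kap0 pdiv)
open Crest.Agent.R012.Div277 (tau)
open Crest.Agent.R017.E1551 (Adm SqP cP Et Ct XJw)
open Crest.Agent.R017.C70 (JW JC OKJ okJ_JW XJ)
open Crest.Agent.R017.E2440 (TE StE Fh)
open Crest.Agent.R017.X6C180 (n13 n13_nonneg GF)
open Crest.Agent.R017.LB48 (CrP GrP GrP_nonneg)
open Crest.Agent.R017.LBx48 (EHs EHt EHf REb EHc_nonneg Dfw_le)
open Crest.Agent.R017.EHu320 (EHc)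
open Crest.Agent.R017.I1146 (X2 X3 c3 c3_nonneg omr Dfw)
open Crest.Agent.R017.DgB829 (HS HS_nonneg HS_le)
open Crest.Agent.R017.Sc2180 (px_le SqP_nonneg CrP_am)
open Crest.Agent.R017.WDec180 (WD sc sc_pos E2e cross_ex)
open Crest.Agent.R017.Ex385 (CrQ)
open Crest.Agent.R017.E3M829 (Cut Tal Sg)
open Crest.Agent.R017.E3A164 (SteT Ys Fy)
open Crest.Agent.R017.LBX180 (EHc_sc main_le X3_le_s X2_le_s pieces_le comb_num)
open Crest.Agent.R017.LBu180 (SqQ core_lbu gram_num)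

/-- arithmetic-geometric mean, the square over `Q` only -/
theorem CrP_amQ {w : ℝ → ℝ} {K : ℝ} (hw : Wgt w) (hw0 : ∀ x, 0 ≤ w x) (hK : 0 < K)
    (α v : Eis → ℂ) (Q : Eis → Prop) :
    2 * ‖CrP w K α (fun k => if Q k then v k else 0)‖ ≤ SqQ w K Q α +
      GrP w K (fun k => if Q k then v k else 0) := by
  obtain ⟨z, hz⟩ : ∃ z, z = CrP w K α (fun k => if Q k then v k else 0) := ⟨_, rfl⟩
  rw [← hz]
  -- the phase
  obtain ⟨ζ, hζ, hζz⟩ : ∃ ζ : ℂ, ‖ζ‖ = 1 ∧ conj ζ * z = (‖z‖ : ℂ) := by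
    by_cases h0 : z = 0
    · exact ⟨1, norm_one, by rw [h0]; simp⟩
    · have hn : (‖z‖ : ℂ) ≠ 0 := by
        exact_mod_cast norm_ne_zero_iff.mpr h0
      refine ⟨z / (‖z‖ : ℂ), ?_, ?_⟩
      · rw [norm_div, Complex.norm_real, norm_norm, div_self (norm_ne_zero_iff.mpr h0)]
      · rw [map_div₀, Complex.conj_ofReal, div_mul_eq_mul_div, mul_comm (conj z) z,
          Complex.mul_conj, Complex.normSq_eq_norm_sq, div_eq_iff hn]
        push_cast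
        ring
  have h1 := LBu180.CrP_amu hw (u := w) (fun x => (abs_of_nonneg (hw0 x)).le) hK α
    (fun k => ζ * v k) Q 1
  have e1 : CrP w K α (fun k => if Q k then ζ * v k else 0) = conj ζ * z := by
    rw [hz]
    unfold LB48.CrP
    rw [← tsum_mul_left]
    refine tsum_congr fun k => ?_
    beta_reduce
    by_cases h1 : IsPrim k
    · rw [if_pos h1, if_pos h1]
      by_cases h2 : Q k
      · rw [if_pos h2, if_pos h2, map_mul]; ring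
      · rw [if_neg h2, if_neg h2]; simp
    · rw [if_neg h1, if_neg h1, mul_zero]
  have e2 : GrP w K (fun k => if Q k then ζ * v k else 0) =
      GrP w K (fun k => if Q k then v k else 0) := by
    unfold LB48.GrP
    refine tsum_congr fun k => ?_
    beta_reduce
    by_cases h2 : Q k
    · rw [if_pos h2, if_pos h2, norm_mul, hζ, one_mul]
    · rw [if_neg h2, if_neg h2]
  rw [e1, e2, hζz, Complex.ofReal_re, one_pow, one_mul, mul_one] at h1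
  exact h1

lemma SqQ_nonneg {w : ℝ → ℝ} (hw0 : ∀ x, 0 ≤ w x) (K : ℝ) (Q : Eis → Prop) (α : Eis → ℂ) :
    0 ≤ SqQ w K Q α := by
  unfold LBu180.SqQ
  refine tsum_nonneg fun k => ?_
  split_ifs
  · exact mul_nonneg (hw0 _) (by positivity)
  · exact le_rfl

/-- monotonicity in the cut -/
lemma SqQ_mono {w : ℝ → ℝ} {K : ℝ} (hw : Wgt w) (hw0 : ∀ x, 0 ≤ w x) (hK : 0 < K)
    {Q Q' : Eis → Prop} (h : ∀ k, IsPrim k → w (nm k / K) ≠ 0 → Q k → Q' k) (α : Eis → ℂ) :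
    SqQ w K Q α ≤ SqQ w K Q' α := by
  unfold LBu180.SqQ
  refine (LBu180.summable_SqQ hw hK Q _).tsum_le_tsum (fun k => ?_)
    (LBu180.summable_SqQ hw hK Q' _)
  by_cases h0 : w (nm k / K) = 0
  · rw [h0]; simp
  · have h2 := hw0 (nm k / K)
    by_cases h1 : IsPrim k ∧ Q k
    · rw [if_pos h1, if_pos ⟨h1.1, h k h1.1 h0 h1.2⟩]
    · rw [if_neg h1]
      split_ifs
      · positivity
      · exact le_rfl

/-- **the second scale, the smooth square as a number** -/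
theorem sc2s {w : ℝ → ℝ} (hw : Wgt w) (hw0 : ∀ x, 0 ≤ w x) {R : ℝ} (hR : 0 ≤ R) {A : ℕ}
    (hA : 2 ≤ A) : ∃ C : ℝ, 0 ≤ C ∧
      ∀ K X Y D Y₀ Z E0 h S' : ℝ, 0 < K → 0 < X → 1 ≤ Y →
      ∀ α : Eis → ℂ, Adm Y X R α → ∀ om : Eis × Eis → ℂ, (∀ x, ‖om x‖ ≤ 1) →
      ∀ (Q : Eis → Prop) (e₃ : ℝ), SqQ w (K * Real.exp (-h)) Q α ≤ S' →
      GrP w (K * Real.exp (-h)) (fun k => if Q k then StE E0 (JW D Y₀ Z) om α k else 0) ≤
        c3 w (K * Real.exp (-h)) * (X3 Y E0 (JW D Y₀ Z) om α).re + e₃ →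
      Real.exp (h / 3) * ‖CrP w (K * Real.exp (-h)) α
        (fun k => if Q k then StE E0 (JW D Y₀ Z) om α k else 0)‖ ≤
        Real.exp (h / 3) * S' +
        C * (1 + Real.log Y) * (K / X) * (Real.exp (-(h / 3)) * EHf A K X Y Z α) +
          Real.exp (h / 3) * |e₃| := by
  obtain ⟨C₂, hC₂, h2⟩ := main_le hw0 hR hA
  refine ⟨C₂, hC₂, fun K X Y D Y₀ Z E0 h S' hK hX hY α hα om hom Q e₃ hS hG => ?_⟩
  have hK'0 : 0 < K * Real.exp (-h) := by positivity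
  have hY0 : 0 ≤ Y := by linarith
  set u : Eis → ℂ := fun k => if Q k then StE E0 (JW D Y₀ Z) om α k else 0 with hu
  have a1 := CrP_amQ hw hw0 hK'0 α (StE E0 (JW D Y₀ Z) om α) Q
  have a3 := h2 (K * Real.exp (-h)) X Y D Y₀ Z hK'0 hX hY α hα (X3 Y E0 (JW D Y₀ Z) om α).re
    ((Complex.re_le_norm _).trans (X3_le_s hY0 E0 (JW D Y₀ Z) hom α))
  have hsq := SqQ_nonneg hw0 (K * Real.exp (-h)) Q α
  have hgr := GrP_nonneg (K := K * Real.exp (-h)) hw0 u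
  have e1 : LBX180.EHf A (K * Real.exp (-h)) X Y Z α = Real.exp (h / 3) * EHf A K X Y Z α := by
    unfold LBX180.EHf LBx48.EHf
    rw [EHc_sc (Real.exp_pos _).le _ _ hK.le, ← Real.exp_mul]
    congr 2
    ring
  rw [e1] at a3
  have b1 : ‖CrP w (K * Real.exp (-h)) α u‖ ≤ S' + (C₂ * (1 + Real.log Y) *
      (K * Real.exp (-h) / X) * (Real.exp (h / 3) * EHf A K X Y Z α) + |e₃|) := by
    have c2 := hG.trans (add_le_add a3 (le_abs_self e₃))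
    have c3 := norm_nonneg (CrP w (K * Real.exp (-h)) α u)
    linarith
  have b2 := mul_le_mul_of_nonneg_left b1 (Real.exp_pos (h / 3)).le
  refine b2.trans (le_of_eq ?_)
  have e3 : Real.exp (h / 3) * Real.exp (-h) * Real.exp (h / 3) = Real.exp (-(h / 3)) := by
    rw [← Real.exp_add, ← Real.exp_add]; congr 1; ring
  rw [← e3]
  ring

/-- **the cross error** (`Q` = the kept `k`, `K' = K e^(-h)`) -/
theorem e2s {w : ℝ → ℝ} (hw : Wgt w) (hw0 : ∀ x, 0 ≤ w x) {N : ℕ} {M : ℝ} {F : ℕ → ℝ → ℂ}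
    (hD : WD w N M F) {R : ℝ} (hR : 0 ≤ R) {A : ℕ} (hA : 2 ≤ A) :
    ∃ C : ℝ, 0 ≤ C ∧
      ∀ (K X Y D Y₀ Z E0 h θ : ℝ) (I : ℕ), 0 < K → 0 < X → 1 ≤ Y → 0 < Z →
      0 ≤ h → 0 ≤ D → 0 ≤ E0 → 0 < θ → Z < 2 ^ I →
      ∀ α : Eis → ℂ, Adm Y X R α → ∀ om : Eis × Eis → ℂ, (∀ x, ‖om x‖ ≤ 1) →
      ∀ (Q : Eis → Prop) (e₃ et S' : ℝ), SqQ w (K * Real.exp (-h)) Q α ≤ S' →
      GrP w (K * Real.exp (-h)) (fun k => if Q k then StE E0 (JW D Y₀ Z) om α k else 0) ≤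
        c3 w (K * Real.exp (-h)) * (X3 Y E0 (JW D Y₀ Z) om α).re + e₃ →
      ∑ i ∈ Finset.range N, ‖CrQ (GF (Fh (F i) h)) (fun k => ¬ Q k) (sc K M i) α
        (StE E0 (JW D Y₀ Z) om α)‖ ≤ et →
      ‖CrP w K α (fun k => if Q k then StE E0 (JW D Y₀ Z) om α k else 0) -
        ((pC * (kap0 * mel w (2 / 3) * K ^ (2 / 3 : ℝ)) : ℝ) : ℂ) *
          X2 Y E0 (JW D Y₀ Z) om α‖ ≤
      C * (1 + Real.log Y) * ((K / X) * (θ * EHs A K X Y Z E0 α +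
          Real.exp (-(h / 3)) * EHf A K X Y Z α) +
        θ⁻¹ * ∑ i ∈ Finset.range N, REb α (sc K M i) (GF (Fh (F i) h)) (S D) I E0 Z Z) +
        Real.exp (h / 3) * S' + Real.exp (h / 3) * |e₃| + et := by
  obtain ⟨C₁, hC₁, H₁⟩ := sc2s hw hw0 hR hA
  obtain ⟨C₂, hC₂, H₂⟩ := pieces_le (N := N) hD.M0 hR hA
  obtain ⟨C₃, hC₃, H₃⟩ := main_le hw0 hR hA
  have hpC := Cst401.pC_pos
  refine ⟨C₁ + C₂ + pC * C₃, by positivity, ?_⟩
  intro K X Y D Y₀ Z E0 h θ I hK hX hY hZ hh hD0 hE0 hθ hI α hα om hom Q e₃ et S' hS hG ht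
  have hY0 : 0 ≤ Y := by linarith
  have hlog := Real.log_nonneg hY
  have a0 := cross_ex hD hh Q hK hE0 hY0 hD0 hZ hI hα.sup om (D := D) (Y₀ := Y₀)
  have a1 := H₁ K X Y D Y₀ Z E0 h S' hK hX hY α hα om hom Q e₃ hS hG
  have a2 := H₂ (fun i => GF (Fh (F i) h)) K X Y D Y₀ Z E0 θ I hK hX hY hD0 hZ hθ α hα om hom
  have hKX : 0 ≤ K / X := by positivity
  have a3 : c3 w K * ‖X2 Y E0 (JW D Y₀ Z) om α‖ ≤ C₃ * (1 + Real.log Y) * (K / X) *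
      EHf A K X Y Z α := H₃ K X Y D Y₀ Z hK hX hY α hα ‖X2 Y E0 (JW D Y₀ Z) om α‖
    (X2_le_s hY0 E0 (JW D Y₀ Z) hom α)
  have hc3 : 0 ≤ kap0 * mel w (2 / 3) * K ^ (2 / 3 : ℝ) := c3_nonneg hw0 hK
  have a4 : ‖((pC * (kap0 * mel w (2 / 3) * K ^ (2 / 3 : ℝ)) : ℝ) : ℂ) *
      X2 Y E0 (JW D Y₀ Z) om α‖ ≤ pC * (C₃ * (1 + Real.log Y) * (K / X) *
        EHf A K X Y Z α) := by
    rw [norm_mul, Complex.norm_real, Real.norm_of_nonneg (mul_nonneg hpC.le hc3), mul_assoc]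
    exact mul_le_mul_of_nonneg_left a3 hpC.le
  have hs0 : 0 ≤ EHs A K X Y Z E0 α := EHc_nonneg (fun n => Nat.cast_nonneg n) _ hK.le hX.le α
  have hf0 : 0 ≤ EHf A K X Y Z α := EHc_nonneg (fun n => by positivity) _ hK.le hX.le α
  have hr0 : 0 ≤ ∑ i ∈ Finset.range N, REb α (sc K M i) (GF (Fh (F i) h)) (S D) I E0 Z Z := by
    refine Finset.sum_nonneg fun i _ => ?_
    unfold LBx48.REb
    refine Finset.sum_nonneg fun δ _ => Finset.sum_nonneg fun j _ => Finset.sum_nonneg fun e _ => ?_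
    have h9 : 0 ≤ (sc K M i) ^ (-(2 / 3) : ℝ) := Real.rpow_nonneg (sc_pos hK M i).le _
    positivity
  have hp := (Real.exp_pos (-(h / 3))).le
  refine comb_num hC₁ hC₂ (mul_nonneg hpC.le hC₃) (L := 1 + Real.log Y) (by linarith)
    (mul_nonneg hKX (mul_nonneg hθ.le hs0)) (mul_nonneg hKX (mul_nonneg hp hf0))
    le_rfl (mul_nonneg (inv_pos.mpr hθ).le hr0) a0 a1 a2 ht ?_ ?_ ?_
  · have a5 := mul_le_mul_of_nonneg_left a4 hp
    refine a5.trans (le_of_eq ?_)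
    ring
  · ring
  · ring

set_option maxHeartbeats 1000000 in
/-- **(LB), both classes: compensated cross weight, any cut, tail for the compensated pieces** -/
theorem LBWs {w : ℝ → ℝ} (hw : Wgt w) (hw0 : ∀ x, 0 ≤ w x) {N : ℕ} {M : ℝ} {F : ℕ → ℝ → ℂ}
    (hD : WD w N M F) {R : ℝ} (hR : 0 ≤ R) {A : ℕ} (hA : 2 ≤ A)
    {ε : ℝ} (hε : 0 < ε) : ∃ C : ℝ, 0 ≤ C ∧
    ∀ (P K X Y D Y₀ Z E0 E1 B θ lam h : ℝ) (I : ℕ), 1 ≤ P → 0 < K → K ≤ P → 0 < X → 1 ≤ Y →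
    Y ≤ P → 0 ≤ D → D ≤ P → 0 < Z → Z ≤ P → 0 ≤ E0 → E0 ≤ Y → 1 ≤ B → 0 < θ → θ ≤ 1 →
    0 < lam → lam ≤ 1 →
    B⁻¹ ≤ θ → (Z / K ^ 2) ^ (1 / 6 : ℝ) ≤ θ → 0 ≤ h → Real.exp (-(h / 3)) ≤ θ →
    (Z / (K * Real.exp (-h)) ^ 2) ^ (1 / 6 : ℝ) ≤ 1 → Z < 2 ^ I →
    ∀ α : Eis → ℂ, Adm Y X R α → ∀ Om ρ : ℕ → ℝ, (∀ n, ρ n = 2 * Om n - Om n ^ 2) →
    (∀ n, 0 ≤ Om n) → (∀ n, Om n ≤ 1) →
    ∀ Q : Eis → Prop, (∀ k, IsPrim k → w (nm k / K) ≠ 0 → Q k → Cut E1 k) →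
    (∀ k, IsPrim k → w (nm k / (K * Real.exp (-h))) ≠ 0 → Q k → Cut E1 k) →
    ∀ et OFF OFF' S' : ℝ, 0 ≤ OFF → 0 ≤ OFF' → SqQ w (K * Real.exp (-h)) Q α ≤ S' →
    ∑ i ∈ Finset.range N, ‖CrQ (GF (Fh (F i) h)) (fun k => ¬ Q k) (sc K M i) α
      (StE E0 (JW D Y₀ Z) (omr Om) α)‖ ≤ et →
    Sg w K B Z E1 (fun q t k₁ => ‖∑ y ∈ Ys (JW D Y₀ Z) E0 Z,
        Fy (JW D Y₀ Z) (omr Om) (Tal α) q t k₁ y‖ ^ 2) ≤
      Sg w K B Z E1 (fun q t k₁ => E3M829.Dg (JW D Y₀ Z) (omr Om) (Tal α) E0 Z q t k₁) + OFF →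
    Sg w (K * Real.exp (-h)) B Z E1 (fun q t k₁ => ‖∑ y ∈ Ys (JW D Y₀ Z) E0 Z,
        Fy (JW D Y₀ Z) (omr Om) (Tal α) q t k₁ y‖ ^ 2) ≤
      Sg w (K * Real.exp (-h)) B Z E1
        (fun q t k₁ => E3M829.Dg (JW D Y₀ Z) (omr Om) (Tal α) E0 Z q t k₁) + OFF' →
    2 * cP w * K ^ (2 / 3 : ℝ) * (XJw ρ (JW D Y₀ Z) α).re - SqQ w K Q α ≤
      C * P ^ ε * (((K / X) * (θ * EHs A K X Y Z E0 α + lam * EHf A K X Y Z α +
          lam⁻¹ * EHt A K X Y Z E0 α +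
          Real.exp (-(h / 3)) * EHf A K X Y Z α)) +
        θ⁻¹ * ∑ i ∈ Finset.range N, REb α (sc K M i) (GF (Fh (F i) h)) (S D) I E0 Z Z +
        Real.exp (h / 3) * S' + et + OFF + Real.exp (h / 3) * OFF') := by
  have hε2 : 0 < ε / 2 := by positivity
  obtain ⟨C₁, hC₁, H₁⟩ := LBl1 hw hw0 hR hA hε2
  obtain ⟨C₂, hC₂, H₂⟩ := e2s hw hw0 hD hR hA
  obtain ⟨CG, hCG, HG⟩ := gram_num hw hw0 hR hA hε2
  obtain ⟨C₅, hC₅, H₅⟩ := PInv255.one_add_log_pow_le 1 (ε / 2) hε2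
  refine ⟨C₁ * (3 + 2 * C₂ * C₅ + 2 * CG), by positivity, ?_⟩
  intro P K X Y D Y₀ Z E0 E1 B θ lam h I hP1 hK hKP hX hY hYP hD0 hDP hZ hZP hE0 hE0Y hB
    hθ hθ1 hl hl1 hBθ hKθ hh hhθ hK'1 hI α hα Om ρ hρ h0 h1 Q hQ hQ' et OFF OFF' S' hOFF hOFF' hS
    hetb hoff hoff'
  have hK' : 0 < K * Real.exp (-h) := by positivity
  have hK'K : K * Real.exp (-h) ≤ K := mul_le_of_le_one_right hK.le (Real.exp_le_one_iff.mpr
    (by linarith))
  have hom1 : ∀ x, ‖omr Om x‖ ≤ 1 := by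
    intro x
    unfold I1146.omr
    rw [Complex.norm_real, Real.norm_of_nonneg (h0 _)]
    exact h1 _
  have hs0 : 0 ≤ EHs A K X Y Z E0 α := EHc_nonneg (fun n => Nat.cast_nonneg n) _ hK.le hX.le α
  have ht0 : 0 ≤ EHt A K X Y Z E0 α := EHc_nonneg (fun n => by positivity) _ hK.le hX.le α
  have hf0 : 0 ≤ EHf A K X Y Z α := EHc_nonneg (fun n => by positivity) _ hK.le hX.le α
  have hKX : 0 ≤ K / X := by positivity
  -- the Gram sum at the second scale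
  have g1 := HG P (K * Real.exp (-h)) X Y D Y₀ Z E0 E1 B hP1 hK' (hK'K.trans hKP) hX hY hYP hD0
    hDP hZ hZP hE0 hE0Y hB α hα (omr Om) hom1 Q hQ' OFF' hoff'
  set e₃ := CG * P ^ (ε / 2) * ((Z / (K * Real.exp (-h)) ^ 2) ^ (1 / 6 : ℝ) + B⁻¹) *
    ((K * Real.exp (-h) / X) * EHs A (K * Real.exp (-h)) X Y Z E0 α) + OFF' with he₃
  have hs1 : EHs A (K * Real.exp (-h)) X Y Z E0 α = Real.exp (h / 3) * EHs A K X Y Z E0 α := by
    unfold LBx48.EHs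
    rw [EHc_sc (Real.exp_pos _).le _ _ hK.le, ← Real.exp_mul]
    congr 2
    ring
  have hPe : 1 ≤ P ^ (ε / 2) := Real.one_le_rpow hP1 hε2.le
  have he₃0 : 0 ≤ e₃ := by
    rw [he₃, hs1]
    positivity
  have he₃b : Real.exp (h / 3) * |e₃| ≤
      CG * P ^ (ε / 2) * 2 * (Real.exp (-(h / 3)) * ((K / X) * EHs A K X Y Z E0 α)) +
        Real.exp (h / 3) * OFF' := by
    rw [abs_of_nonneg he₃0, he₃, hs1, mul_add]
    have hB1 : B⁻¹ ≤ 1 := inv_le_one_of_one_le₀ hB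
    have c1 : CG * P ^ (ε / 2) * ((Z / (K * Real.exp (-h)) ^ 2) ^ (1 / 6 : ℝ) + B⁻¹) ≤
        CG * P ^ (ε / 2) * 2 := mul_le_mul_of_nonneg_left (by linarith) (by positivity)
    have c2 : Real.exp (h / 3) * ((K * Real.exp (-h) / X) *
        (Real.exp (h / 3) * EHs A K X Y Z E0 α)) =
        Real.exp (-(h / 3)) * ((K / X) * EHs A K X Y Z E0 α) := by
      have e9 : Real.exp (h / 3) * Real.exp (-h) * Real.exp (h / 3) = Real.exp (-(h / 3)) := by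
        rw [← Real.exp_add, ← Real.exp_add]; congr 1; ring
      rw [← e9]; ring
    have c3 : 0 ≤ Real.exp (-(h / 3)) * ((K / X) * EHs A K X Y Z E0 α) := by positivity
    have c4 := mul_le_mul_of_nonneg_right c1 c3
    rw [← c2] at c4
    have c5 : Real.exp (h / 3) * (CG * P ^ (ε / 2) *
        ((Z / (K * Real.exp (-h)) ^ 2) ^ (1 / 6 : ℝ) + B⁻¹) *
        ((K * Real.exp (-h) / X) * (Real.exp (h / 3) * EHs A K X Y Z E0 α))) =
        CG * P ^ (ε / 2) * ((Z / (K * Real.exp (-h)) ^ 2) ^ (1 / 6 : ℝ) + B⁻¹) *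
        (Real.exp (h / 3) * ((K * Real.exp (-h) / X) *
        (Real.exp (h / 3) * EHs A K X Y Z E0 α))) := by ring
    rw [c5, ← c2]
    linarith
  -- the cross error
  have x1 := H₂ K X Y D Y₀ Z E0 h θ I hK hX hY hZ hh hD0 hE0 hθ hI α hα (omr Om)
    hom1 Q e₃ et S' hS g1 hetb
  obtain ⟨e₂, he₂⟩ : ∃ e : ℝ, e = C₂ * (1 + Real.log Y) * ((K / X) * (θ * EHs A K X Y Z E0 α +
          Real.exp (-(h / 3)) * EHf A K X Y Z α) +
        θ⁻¹ * ∑ i ∈ Finset.range N, REb α (sc K M i) (GF (Fh (F i) h)) (S D) I E0 Z Z) +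
        Real.exp (h / 3) * S' + Real.exp (h / 3) * |e₃| + et := ⟨_, rfl⟩
  rw [← he₂] at x1
  have z1 := H₁ P K X Y D Y₀ Z E0 E1 B θ lam hP1 hK hKP hX hY hYP hD0 hDP hZ hZP hE0 hE0Y hB hθ hl
    hl1 hBθ hKθ α hα Om ρ hρ h0 h1 Q hQ e₂ OFF hOFF x1 hoff
  -- numbers
  have hL : 1 + Real.log Y ≤ C₅ * P ^ (ε / 2) := by
    have h6 := H₅ P hP1
    rw [pow_one] at h6
    have h7 : Real.log Y ≤ Real.log P := Real.log_le_log (by linarith) hYP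
    linarith
  have hE1 : 0 ≤ Real.exp (-(h / 3)) * EHf A K X Y Z α := mul_nonneg (Real.exp_pos _).le hf0
  have hdg : 0 ≤ S' := (SqQ_nonneg hw0 _ Q α).trans hS
  have hr0 : 0 ≤ ∑ i ∈ Finset.range N, REb α (sc K M i) (GF (Fh (F i) h)) (S D) I E0 Z Z := by
    refine Finset.sum_nonneg fun i _ => ?_
    unfold LBx48.REb
    refine Finset.sum_nonneg fun δ _ => Finset.sum_nonneg fun j _ => Finset.sum_nonneg fun e _ => ?_
    have h9 : 0 ≤ (sc K M i) ^ (-(2 / 3) : ℝ) := Real.rpow_nonneg (sc_pos hK M i).le _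
    positivity
  have het0 : 0 ≤ et := (Finset.sum_nonneg fun i _ => norm_nonneg _).trans hetb
  have hPP : P ^ (ε / 2) * P ^ (ε / 2) = P ^ ε := by
    rw [← Real.rpow_add (by linarith)]; congr 1; ring
  have hlog := Real.log_nonneg hY
  have ht1 : 0 ≤ θ * ((K / X) * (lam * EHf A K X Y Z α + lam⁻¹ * EHt A K X Y Z E0 α)) :=
    mul_nonneg hθ.le (mul_nonneg hKX (add_nonneg (mul_nonneg hl.le hf0)
      (mul_nonneg (inv_pos.mpr hl).le ht0)))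
  have htt : θ⁻¹ * (θ * ((K / X) * (lam * EHf A K X Y Z α + lam⁻¹ * EHt A K X Y Z E0 α))) =
      (K / X) * (lam * EHf A K X Y Z α + lam⁻¹ * EHt A K X Y Z E0 α) :=
    inv_mul_cancel_left₀ hθ.ne' _
  have fin := LBu180.asm_e (G := 2 * cP w * K ^ (2 / 3 : ℝ) * (XJw ρ (JW D Y₀ Z) α).re - SqQ w K Q α)
    (s := (K / X) * EHs A K X Y Z E0 α) (t := θ * ((K / X) * (lam * EHf A K X Y Z α +
      lam⁻¹ * EHt A K X Y Z E0 α)))
    (f := 0)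
    (e1 := (K / X) * (Real.exp (-(h / 3)) * EHf A K X Y Z α))
    (RR := θ⁻¹ * ∑ i ∈ Finset.range N, REb α (sc K M i) (GF (Fh (F i) h)) (S D) I E0 Z Z)
    (dg := Real.exp (h / 3) * S') (L := 1 + Real.log Y)
    (OFF' := Real.exp (h / 3) * OFF') (e₃ := Real.exp (h / 3) * |e₃|)
    hC₁ hC₂ (by linarith) hCG hPe (mul_nonneg hKX hs0) ht1
    (add_nonneg (mul_nonneg hKX hs0) ht1)
    (mul_nonneg hKX hE1)
    (mul_nonneg (inv_pos.mpr hθ).le hr0) (mul_nonneg (Real.exp_pos _).le hdg) het0 hOFF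
    (mul_nonneg (Real.exp_pos _).le hOFF') hθ hθ1 (Real.exp_pos (-(h / 3))).le hhθ
    (by linarith) hL (e₂ := e₂) ?_ he₃b (z1.trans (le_of_eq ?_))
  · rw [hPP, htt] at fin
    refine fin.trans (le_of_eq ?_)
    ring
  · rw [he₂]
    have e9 : C₂ * (1 + Real.log Y) * ((K / X) * (θ * EHs A K X Y Z E0 α +
          Real.exp (-(h / 3)) * EHf A K X Y Z α) +
        θ⁻¹ * ∑ i ∈ Finset.range N, REb α (sc K M i) (GF (Fh (F i) h)) (S D) I E0 Z Z) =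
        C₂ * (1 + Real.log Y) * ((θ * ((K / X) * EHs A K X Y Z E0 α) +
          Real.exp (-(h / 3)) * 0 +
          (K / X) * (Real.exp (-(h / 3)) * EHf A K X Y Z α)) +
        θ⁻¹ * ∑ i ∈ Finset.range N, REb α (sc K M i) (GF (Fh (F i) h)) (S D) I E0 Z Z) := by
      ring
    rw [e9]
  · rw [htt]; ring

end Crest.Agent.R017.LBW180
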