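import Crest.Agent.R017.E1B_381
import Crest.Agent.R017.LBo_813
import Crest.Agent.R017.LBs_180

/-!
# Row 17, C.REMg (LB), final form (helper48)

* `LBnq` : literal text of `LBQ791.LBnQ`
* `T4`, `NumR`, `NumE`, `NumO` : the numbers
* `lb_be` : (LB) at `bt φ α p · pw t` from the numbers (SA0), (L+) and the R-numbers
-/

set_option autoImplicit false
set_option linter.unusedVariables false

noncomputable section

open Complex MeasureTheory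
open scoped ComplexConjugate Classical

namespace Crest.Agent.R017.LBx48

open Crest.Agent.R012 Crest.Agent.R012.Eis Crest.Agent.R012.MC
open Crest.Agent.R012.LS2 (S mem_S)
open Crest.Agent.R012.Mob705 (pdiv kap0)
open Crest.Agent.R012.Weight600 (osc pw)
open Crest.Agent.R017.X6C180 (n13 GF)
open Crest.Agent.R017.CM106 (CS TG FS)
open Crest.Agent.R017.E1551 hiding tau Dg
open Crest.Agent.R017.C70 (JW JC OKJ okJ_JW)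
open Crest.Agent.R017.E2440 (TE Jb Qs prs C4 StE Fh)
open Crest.Agent.R017.EHu320 (EHc)
open Crest.Agent.R017.LB48 (CrP GrP)
open Crest.Agent.R017.I1146 (omr)
open Crest.Agent.R017.E3M829 (Cut Tal Sg)
open Crest.Agent.R017.E3A164 (SteT Ys Fy)
open Crest.Agent.R017.WDec180 (WD sc sc_pos)
open Crest.Agent.R017.Ex385 (CrQ)
open Crest.Agent.R017.LBu180 (SqQ SqQ_le)
open Crest.Agent.R017.Win813 (WK)
open Crest.Agent.R017.RGw813 (T9 bt)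
open Crest.Agent.R017.LBo813 (Om rho Om_nonneg Om_le_one)
open Crest.Agent.R017.Rough381 (VF)

/-- the lower bound (LB) over the kept `k` (literal text of `LBQ791.LBnQ`) -/
def LBnq (w : ℝ → ℝ) (Q : ℕ × ℕ → Eis → Prop) (Cw η : ℝ) (Aw : ℕ) (K X Y D : ℝ) (N₁ : ℕ)
    (ρ : ℕ → ℝ) (R : ℝ) (J : ℕ) (α : Eis → ℂ) (E : ℝ) : Prop :=
  ∀ p ∈ T9, ∀ (t X' : ℝ) (φ : ℝ → ℝ), 0 < X' → |Real.log X' - Real.log X| ≤ R + 1 →
    WK Cw η Aw φ → (∀ u, φ u ≠ 0 → |u - Real.log X'| ≤ η / 2) →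
    E1551.Dg w K Y (fun n => bt φ α p n * pw t (nm n)) + 2 * cP w * K ^ (2 / 3 : ℝ) *
      (XJw ρ (JW D (1 / 10) N₁) (fun n => bt φ α p n * pw t (nm n))).re -
    SqQ w K (Q p) (fun n => bt φ α p n * pw t (nm n)) ≤ (K / X) * (E * (1 + |t|) ^ J)

/-- the T-numbers with all four weights -/
def T4 (A K X Y Z E0 θ lam : ℝ) (α : Eis → ℂ) : ℝ :=
  θ * EHs A K X Y Z E0 α + lam * EHf A K X Y Z α + lam⁻¹ * EHt A K X Y Z E0 α +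
    lam * EHc (fun _ => (1 : ℝ)) (fun _ => True) A K X Y Z α

/-- the R-numbers of `β = bt φ α p · pw t`: `θ⁻¹ Σ REb ≤ (K/X) Rc (1+|t|)^J` -/
def NumR (N : ℕ) (M : ℝ) (F : ℕ → ℝ → ℂ) (Cw η : ℝ) (Aw : ℕ) (K X : ℝ) (R : ℝ) (J : ℕ)
    (D E0 θ h : ℝ) (N₁ I : ℕ) (α : Eis → ℂ) (Rc : ℝ) : Prop :=
  ∀ p ∈ T9, ∀ (t X' : ℝ) (φ : ℝ → ℝ), 0 < X' → |Real.log X' - Real.log X| ≤ R + 1 →
    WK Cw η Aw φ → (∀ u, φ u ≠ 0 → |u - Real.log X'| ≤ η / 2) →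
    θ⁻¹ * ∑ i ∈ Finset.range N, REb (fun n => bt φ α p n * pw t (nm n)) (sc K M i)
      (GF (Fh (F i) h)) (S D) I E0 N₁ N₁ ≤ (K / X) * (Rc * (1 + |t|) ^ J)

/-- the tail and the second scale: `e^(h/3) SqQ w (K e^(-h)) Q + Σ ‖CrQ (¬Q)‖ ≤ T-part + (K/X) Et` -/
def NumE (w : ℝ → ℝ) (N : ℕ) (M : ℝ) (F : ℕ → ℝ → ℂ) (Q : ℕ × ℕ → Eis → Prop)
    (Cw η : ℝ) (Aw : ℕ) (K X Y : ℝ) (R : ℝ) (J : ℕ) (D E0 θ lam h : ℝ) (N₀ N₁ : ℕ) (A : ℕ) (CP : ℝ) (α : Eis → ℂ)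
    (Et : ℝ) : Prop :=
  ∀ p ∈ T9, ∀ (t X' : ℝ) (φ : ℝ → ℝ), 0 < X' → |Real.log X' - Real.log X| ≤ R + 1 →
    WK Cw η Aw φ → (∀ u, φ u ≠ 0 → |u - Real.log X'| ≤ η / 2) →
    Real.exp (h / 3) * SqQ w (K * Real.exp (-h)) (Q p) (fun n => bt φ α p n * pw t (nm n)) +
      ∑ i ∈ Finset.range N, ‖CrQ (GF (Fh (F i) h)) (fun k => ¬ Q p k) (sc K M i)
        (fun n => bt φ α p n * pw t (nm n))
        (StE E0 (JW D (1 / 10) N₁) (omr (Om N₀ N₁)) (fun n => bt φ α p n * pw t (nm n)))‖ ≤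
      CP * ((K / X') * T4 A K X' Y N₁ E0 θ lam (fun n => bt φ α p n * pw t (nm n))) +
      (K / X) * (Et * (1 + |t|) ^ J)

/-- the off-diagonal part of the Gram sum at `K'`, with a T-part -/
def NumO (w : ℝ → ℝ) (Cw η : ℝ) (Aw : ℕ) (K X Y K' : ℝ) (R : ℝ) (J : ℕ) (D E0 E1 B θ lam : ℝ)
    (N₀ N₁ : ℕ) (A : ℕ) (CP : ℝ) (α : Eis → ℂ) (Ro : ℝ) : Prop :=
  ∀ p ∈ T9, ∀ (t X' : ℝ) (φ : ℝ → ℝ), 0 < X' → |Real.log X' - Real.log X| ≤ R + 1 →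
    WK Cw η Aw φ → (∀ u, φ u ≠ 0 → |u - Real.log X'| ≤ η / 2) →
    Sg w K' B N₁ E1 (fun q t' k₁ => ‖∑ y ∈ Ys (JW D (1 / 10) N₁) E0 N₁,
        Fy (JW D (1 / 10) N₁) (omr (Om N₀ N₁)) (Tal (fun n => bt φ α p n * pw t (nm n)))
          q t' k₁ y‖ ^ 2) ≤
      Sg w K' B N₁ E1 (fun q t' k₁ => E3M829.Dg (JW D (1 / 10) N₁) (omr (Om N₀ N₁))
        (Tal (fun n => bt φ α p n * pw t (nm n))) E0 N₁ q t' k₁) +
      (CP * ((K / X') * T4 A K X' Y N₁ E0 θ lam (fun n => bt φ α p n * pw t (nm n))) +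
        (K / X) * (Ro * (1 + |t|) ^ J))

lemma adm_mono {Y X R R' : ℝ} (h : R ≤ R') {α : Eis → ℂ} (hα : Adm Y X R α) : Adm Y X R' α where
  sup := hα.sup
  win := fun n hn => (hα.win n hn).trans (by linarith)

/-- numbers -/
lemma fin_num {C₁ C₂ CD Ce Q9 q c kx T Tk m V Xd L dg Hj RR EE OO OO' : ℝ}
    (h1 : 0 ≤ C₁) (h2 : 0 ≤ C₂) (hCD : 0 ≤ CD) (hCe : 0 ≤ Ce) (hq : 1 ≤ q) (hc : 1 ≤ c)
    (hQ9 : 0 ≤ Q9) (hHj : 1 ≤ Hj)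
    (hkx : 0 ≤ kx) (hm : 0 ≤ m) (hV : 1 ≤ V) (hT : T ≤ Tk) (hTk0 : 0 ≤ Tk)
    (hTk : Tk ≤ kx * (C₂ * Hj * (Q9 * q) * m * V)) (hRR0 : 0 ≤ RR) (hEE0 : 0 ≤ EE)
    (hOO0 : 0 ≤ OO) (hOO0' : 0 ≤ OO') (hXd : 0 ≤ Xd)
    (hL : L ≤ C₁ * q * (T + kx * (RR * V) + (Ce * c * Tk + kx * (EE * V)) + kx * (OO * V) +
      kx * (OO' * V)))
    (hdg : dg ≤ CD * (kx * Xd)) :
    dg + L ≤ kx * (((CD + C₁ * (1 + Ce) * (1 + C₂ * Q9)) * Hj * (q * c * q) *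
      (Xd + m + RR + EE + OO + OO')) * V) := by
  have hq0 : 0 ≤ q := by linarith
  have hc0 : 0 ≤ c := by linarith
  obtain ⟨G, hG⟩ : ∃ G : ℝ, G = Xd + m + RR + EE + OO + OO' := ⟨_, rfl⟩
  have hG0 : 0 ≤ G := by rw [hG]; positivity
  have hQQ : 1 ≤ q * c := one_le_mul_of_one_le_of_one_le hq hc
  have hQ3 : 1 ≤ q * c * q := one_le_mul_of_one_le_of_one_le hQQ hq
  rw [← hG]
  -- dg
  have a1 : dg ≤ kx * ((CD * Hj * (q * c * q) * G) * V) := by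
    refine hdg.trans ?_
    have b1 : Xd ≤ Hj * (q * c * q) * G * V := by
      have c1 : Xd ≤ G := by rw [hG]; linarith
      calc Xd = 1 * (1 * Xd) * 1 := by ring
        _ ≤ Hj * ((q * c * q) * G) * V :=
            mul_le_mul (mul_le_mul hHj (mul_le_mul hQ3 c1 hXd (by positivity))
              (by positivity) (by linarith)) hV zero_le_one (by positivity)
        _ = _ := by ring
    calc CD * (kx * Xd) ≤ CD * (kx * (Hj * (q * c * q) * G * V)) := by gcongr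
      _ = _ := by ring
  -- L
  have a2 : T + Ce * c * Tk ≤ (1 + Ce) * c * Tk := by
    have b1 : T ≤ c * Tk := hT.trans (le_mul_of_one_le_left hTk0 hc)
    nlinarith
  have a4 : (1 + Ce) * c * Tk ≤ (1 + Ce) * c * (kx * (C₂ * Hj * (Q9 * q) * m * V)) :=
    mul_le_mul_of_nonneg_left hTk (by positivity)
  have a5 : L ≤ C₁ * q * ((1 + Ce) * c * (kx * (C₂ * Hj * (Q9 * q) * m * V)) +
      kx * ((RR + EE + OO + OO') * V)) := by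
    refine hL.trans (mul_le_mul_of_nonneg_left ?_ (by positivity))
    linarith
  have a6 : kx * ((RR + EE + OO + OO') * V) ≤
      (1 + Ce) * Hj * (c * q) * (kx * ((RR + EE + OO + OO') * V)) := by
    refine le_mul_of_one_le_left (by positivity) ?_
    have : 1 ≤ (1 + Ce) * Hj := one_le_mul_of_one_le_of_one_le (by linarith) hHj
    exact one_le_mul_of_one_le_of_one_le this (one_le_mul_of_one_le_of_one_le hc hq)
  have a7 : L ≤ C₁ * (1 + Ce) * Hj * (q * c * q) * (kx * (((C₂ * Q9) * m +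
      (RR + EE + OO + OO')) * V)) := by
    refine a5.trans ?_
    calc C₁ * q * ((1 + Ce) * c * (kx * (C₂ * Hj * (Q9 * q) * m * V)) +
      kx * ((RR + EE + OO + OO') * V)) ≤ C₁ * q * ((1 + Ce) * c * (kx * (C₂ * Hj * (Q9 * q) * m * V)) +
      (1 + Ce) * Hj * (c * q) * (kx * ((RR + EE + OO + OO') * V))) := by gcongr
      _ = _ := by ring
  have a8 : (C₂ * Q9) * m + (RR + EE + OO + OO') ≤ (1 + C₂ * Q9) * G := by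
    have b1 : 0 ≤ C₂ * Q9 := by positivity
    have b2 : (C₂ * Q9) * m ≤ (C₂ * Q9) * G :=
      mul_le_mul_of_nonneg_left (by rw [hG]; linarith) b1
    have b3 : RR + EE + OO + OO' ≤ G := by rw [hG]; linarith
    linarith
  have a9 : L ≤ C₁ * (1 + Ce) * Hj * (q * c * q) * (kx * (((1 + C₂ * Q9) * G) * V)) := by
    refine a7.trans (mul_le_mul_of_nonneg_left (mul_le_mul_of_nonneg_left
      (mul_le_mul_of_nonneg_right a8 (by linarith)) hkx) (by positivity))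
  calc dg + L ≤ kx * ((CD * Hj * (q * c * q) * G) * V) +
        C₁ * (1 + Ce) * Hj * (q * c * q) * (kx * (((1 + C₂ * Q9) * G) * V)) := add_le_add a1 a9
    _ = _ := by ring

/-- **(LB) at `β = bt φ α p · pw t`**, all R-side numbers abstract -/
theorem lb_be {w : ℝ → ℝ} (hw : Wgt w) (hw0 : ∀ x, 0 ≤ w x) {N : ℕ} {M : ℝ} {F : ℕ → ℝ → ℂ}
    (hD : WD w N M F)
    {Cw R ε ε₁ Ce : ℝ} {Aw J : ℕ} (hCw : 0 ≤ Cw) (hR : 0 ≤ R) (hε : 0 ≤ ε) (hε₁ : 0 < ε₁)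
    (hCe : 0 ≤ Ce) (hJA : J + 2 ≤ Aw) : ∃ C : ℝ, 0 ≤ C ∧
    ∀ (K X Y D G₀ E0 E1 B θ lam h η : ℝ) (N₀ N₁ I : ℕ), 0 < K → K ≤ Y → 0 < X → 1 ≤ Y →
    0 ≤ D → D ≤ Y → 1 ≤ E0 → E0 ≤ Y → 1 ≤ B → 0 < θ → θ ≤ 1 → 0 < lam → lam ≤ 1 → B⁻¹ ≤ θ →
    1 ≤ N₁ → (N₁ : ℝ) ≤ Y → ((N₁ : ℝ) / K ^ 2) ^ (1 / 6 : ℝ) ≤ θ → 0 ≤ h →
    Real.exp (-(h / 3)) ≤ θ → θ ≤ lam →
    ((N₁ : ℝ) / (K * Real.exp (-h)) ^ 2) ^ (1 / 6 : ℝ) ≤ 1 → (N₁ : ℝ) < 2 ^ I → 0 < η → η ≤ 1 →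
    ∀ α : Eis → ℂ, (∀ n, α n ≠ 0 → n ∈ S Y) →
    (∀ n, α n ≠ 0 → |Real.log (nm n) - Real.log X| ≤ R) → (∀ n, ‖α n‖ ≤ Y ^ ε) →
    ∀ Ma Ml Rc Et Ro Ro' : ℝ, 0 ≤ Ma → 0 ≤ Ml → 0 ≤ Rc → 0 ≤ Et → 0 ≤ Ro → 0 ≤ Ro' →
    (∀ g ∈ S Y, (nm g : ℝ) ≤ G₀ → ∀ V : ℝ, 1 ≤ V → V ≤ 9 * N₁ * nm g → ∀ t : ℝ,
      VF V (tws (sg α g) t) ≤
        Ma / (nm g : ℝ) ^ 2 * ((V * K / (X / nm g) ^ 2) ^ (1 / 3 : ℝ)) * (1 + |t|) ^ J) →
    (∀ g ∈ S Y, ∀ B V : ℝ, 1 ≤ B → B ≤ Y → 1 ≤ V → V ≤ 9 * N₁ / (nm g : ℝ) ^ 2 → ∀ t : ℝ,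
      E1551.JB Y α (fun U => G₀ < nm (g * U)) g B V t ≤
        Ml / (nm g : ℝ) ^ 2 * yv K X g V * (1 + |t|) ^ J) →
    ∀ Q : ℕ × ℕ → Eis → Prop, (∀ p k, IsPrim k → w (nm k / K) ≠ 0 → Q p k → Cut E1 k) →
    (∀ p k, IsPrim k → w (nm k / (K * Real.exp (-h))) ≠ 0 → Q p k → Cut E1 k) →
    NumR N M F Cw η Aw K X R J D E0 θ h N₁ I α Rc →
    NumE w N M F Q Cw η Aw K X Y R J D E0 θ lam h N₀ N₁ (J + 2) (Ce * Y ^ ε) α Et →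
    NumO w Cw η Aw K X Y K R J D E0 E1 B θ lam N₀ N₁ (J + 2) (Ce * Y ^ ε) α Ro →
    NumO w Cw η Aw K X Y (K * Real.exp (-h)) R J D E0 E1 B θ lam N₀ N₁ (J + 2)
      (Ce * Y ^ ε * Real.exp (-(h / 3))) α Ro' →
    LBnq w Q Cw η Aw K X Y D N₁ (rho N₀ N₁) R J α
      (C * (η⁻¹) ^ J * (Y ^ ε₁ * Y ^ ε * Y ^ ε₁) *
        (X ^ 2 * (Y ^ ε) ^ 2 + (θ * E0 + lam + (lam * E0)⁻¹) * (Ma + Ml) + Rc + Et + Ro +
          Real.exp (h / 3) * Ro')) := by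
  obtain ⟨C₁, hC₁, H₁⟩ := LBW180.LBWs hw hw0 hD (R := 1) zero_le_one (A := J + 2) (by omega) hε₁
  obtain ⟨C₂, hC₂, H₂⟩ := LBT381.lbt_all4 (J := J) (Aw := Aw) (A := J + 2) le_rfl hJA hR hCw hε₁
  obtain ⟨CD, hCD, HD⟩ := LBo813.Dg_bt_le w Aw (by omega) Cw
  refine ⟨CD * Real.exp R + C₁ * (1 + 3 * Ce) * (1 + (2 * C₂) * 9 ^ ε₁), by positivity, ?_⟩
  intro K X Y D G₀ E0 E1 B θ lam h η N₀ N₁ I hK hKY hX hY hD hDY hE0 hE0Y hB hθ hθ1 hlam hlam1 hBθ hN₁ hN₁Y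
    hKθ hh hhθ hθl hK'1 hI hη hη1 α hα hαR hαn Ma Ml Rc Et Ro Ro' hMa hMl hRc hEt hRo hRo' hSA hL Q
    hQ hQ' hNR hNE hNO hNO' p hp t X' φ hX' hXX hφ hφs
  have hY0 : 0 < Y := by linarith
  have hE00 : 0 < E0 := by linarith
  have hq : 1 ≤ Y ^ ε₁ := Real.one_le_rpow hY hε₁.le
  have hqc : 1 ≤ Y ^ ε := Real.one_le_rpow hY hε
  have hN1 : (1 : ℝ) ≤ N₁ := by exact_mod_cast hN₁
  have hZ0 : (0 : ℝ) < N₁ := by linarith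
  have hadm : Adm Y X' 1 (fun n => bt φ α p n * pw t (nm n)) :=
    adm_mono hη1 (RGw813.adm_bt hφs hα p t)
  have r1 := hNR p hp t X' φ hX' hXX hφ hφs
  have r2 := hNE p hp t X' φ hX' hXX hφ hφs
  have r3 := hNO p hp t X' φ hX' hXX hφ hφs
  have r4 := hNO' p hp t X' φ hX' hXX hφ hφs
  have s2 := H₂ (9 * Y) K X X' Y η N₁ G₀ Ma Ml E0 θ lam lam⁻¹ lam α (by linarith) hK hX hX' hXX hY
    (by linarith) hZ0.le (by linarith) hη hη1 hMa hMl hE00 hθ.le hlam.le (inv_pos.mpr hlam).le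
    hlam.le hα hSA hL p hp φ hφ t
  have s3 := HD K X X' Y R (Y ^ ε) η hK.le hX hY0.le (by linarith) hη hη1 hX' hXX α
    (RGw813.FS_of_S hY0.le hα) hα hαR (fun n _ => hαn n) φ hφ p t
  clear hNR hNE hNO hNO' hSA hL
  generalize (fun n => bt φ α p n * pw t (nm n)) = β at hadm r1 r2 r3 r4 s2 s3 ⊢
  obtain ⟨V, hV⟩ : ∃ V : ℝ, V = (1 + |t|) ^ J := ⟨_, rfl⟩
  rw [← hV] at r1 r2 r3 r4 s2 ⊢
  have hV1 : 1 ≤ V := by rw [hV]; exact one_le_pow₀ (by linarith [abs_nonneg t])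
  have hKX : 0 ≤ K / X := by positivity
  obtain ⟨et, het⟩ : ∃ et : ℝ, et = ∑ i ∈ Finset.range N, ‖CrQ (GF (Fh (F i) h))
        (fun k => ¬ Q p k) (sc K M i) β (StE E0 (JW D (1 / 10) N₁) (omr (Om N₀ N₁)) β)‖ := ⟨_, rfl⟩
  rw [← het] at r2
  -- the four functionals
  have t1 : 0 ≤ EHs ((J + 2 : ℕ) : ℝ) K X' Y N₁ E0 β :=
    EHc_nonneg (fun n => Nat.cast_nonneg n) _ hK.le hX'.le β
  have t2 : 0 ≤ EHf ((J + 2 : ℕ) : ℝ) K X' Y N₁ β := EHc_nonneg (fun n => by positivity) _ hK.le hX'.le β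
  have t3 : 0 ≤ EHt ((J + 2 : ℕ) : ℝ) K X' Y N₁ E0 β :=
    EHc_nonneg (fun n => by positivity) _ hK.le hX'.le β
  have t4 : 0 ≤ EHc (fun _ => (1 : ℝ)) (fun _ => True) ((J + 2 : ℕ) : ℝ) K X' Y N₁ β :=
    EHc_nonneg (fun n => zero_le_one) _ hK.le hX'.le β
  have hKX' : 0 ≤ K / X' := by positivity
  have hli : 0 ≤ lam⁻¹ := (inv_pos.mpr hlam).le
  obtain ⟨Tk, hTk⟩ : ∃ Tk : ℝ, Tk = (K / X') * T4 ((J + 2 : ℕ) : ℝ) K X' Y N₁ E0 θ lam β :=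
    ⟨_, rfl⟩
  have hTk0 : 0 ≤ Tk := by
    rw [hTk]
    unfold T4
    exact mul_nonneg hKX' (add_nonneg (add_nonneg (add_nonneg (mul_nonneg hθ.le t1)
      (mul_nonneg hlam.le t2)) (mul_nonneg hli t3)) (mul_nonneg hlam.le t4))
  rw [← hTk] at r2 r3 r4
  have hV0 : 0 ≤ V := by linarith
  have hOF : 0 ≤ Ce * Y ^ ε * Tk + (K / X) * (Ro * V) := by positivity
  have hOF' : 0 ≤ Ce * Y ^ ε * Real.exp (-(h / 3)) * Tk + (K / X) * (Ro' * V) := by positivity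
  have s1 := H₁ Y K X' Y D (1 / 10) N₁ E0 E1 B θ lam h I hY hK hKY hX' hY le_rfl hD hDY
    hZ0 hN₁Y hE00.le hE0Y hB hθ hθ1 hlam hlam1 hBθ hKθ hh hhθ hK'1 hI β hadm (Om N₀ N₁)
    (rho N₀ N₁) (fun n => rfl) (Om_nonneg N₀ N₁) (Om_le_one N₀ N₁) (Q p) (hQ p) (hQ' p)
    et (Ce * Y ^ ε * Tk + (K / X) * (Ro * V))
    (Ce * Y ^ ε * Real.exp (-(h / 3)) * Tk + (K / X) * (Ro' * V))
    (SqQ w (K * Real.exp (-h)) (Q p) β) hOF hOF' le_rfl het.ge r3 r4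
  have t5 : EHf ((J + 2 : ℕ) : ℝ) K X' Y N₁ β ≤
      EHc (fun _ => (1 : ℝ)) (fun _ => True) ((J + 2 : ℕ) : ℝ) K X' Y N₁ β :=
    LBV180.EHf_le_EH1 hY0.le hK.le hX'.le β
  have hTT : (K / X') * (θ * EHs ((J + 2 : ℕ) : ℝ) K X' Y N₁ E0 β +
      lam * EHf ((J + 2 : ℕ) : ℝ) K X' Y N₁ β +
      lam⁻¹ * EHt ((J + 2 : ℕ) : ℝ) K X' Y N₁ E0 β +
      Real.exp (-(h / 3)) * EHf ((J + 2 : ℕ) : ℝ) K X' Y N₁ β) ≤ Tk := by
    rw [hTk]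
    unfold T4
    refine mul_le_mul_of_nonneg_left ?_ hKX'
    have a1 : Real.exp (-(h / 3)) * EHf ((J + 2 : ℕ) : ℝ) K X' Y N₁ β ≤
        lam * EHc (fun _ => (1 : ℝ)) (fun _ => True) ((J + 2 : ℕ) : ℝ) K X' Y N₁ β :=
      mul_le_mul (hhθ.trans hθl) t5 t2 hlam.le
    linarith
  obtain ⟨m, hm⟩ : ∃ m : ℝ, m = (θ * E0 + lam + (lam * E0)⁻¹) * (Ma + Ml) := ⟨_, rfl⟩
  have hm0 : 0 ≤ m := by rw [hm]; positivity
  have hTk2 : Tk ≤ (K / X) * ((2 * C₂) * (η⁻¹) ^ J * (9 ^ ε₁ * Y ^ ε₁) * m * V) := by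
    rw [hTk]
    unfold T4
    refine s2.trans (mul_le_mul_of_nonneg_left ?_ hKX)
    rw [Real.mul_rpow (by norm_num) hY0.le]
    have e1 : θ * E0 + lam + lam⁻¹ * E0⁻¹ + lam ≤ 2 * (θ * E0 + lam + (lam * E0)⁻¹) := by
      rw [mul_inv]
      have a1 : 0 ≤ θ * E0 := by positivity
      have a2 : 0 ≤ lam⁻¹ * E0⁻¹ := by positivity
      linarith
    have e2 : 0 ≤ Ma + Ml := by linarith
    have e3 : (θ * E0 + lam + lam⁻¹ * E0⁻¹ + lam) * (Ma + Ml) ≤ 2 * m := by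
      rw [hm, ← mul_assoc]
      exact mul_le_mul_of_nonneg_right e1 e2
    have e4 : 0 ≤ C₂ * (η⁻¹) ^ J * (9 ^ ε₁ * Y ^ ε₁) := by positivity
    calc C₂ * (η⁻¹) ^ J * (9 ^ ε₁ * Y ^ ε₁) * ((θ * E0 + lam + lam⁻¹ * E0⁻¹ + lam) * (Ma + Ml)) * V ≤
          C₂ * (η⁻¹) ^ J * (9 ^ ε₁ * Y ^ ε₁) * (2 * m) * V :=
          mul_le_mul_of_nonneg_right (mul_le_mul_of_nonneg_left e3 e4) (by linarith)
      _ = _ := by ring
  have hHj : 1 ≤ (η⁻¹) ^ J := one_le_pow₀ ((one_le_inv₀ hη).mpr hη1)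
  have fin := fin_num (C₁ := C₁) (C₂ := 2 * C₂) (CD := CD * Real.exp R) (Ce := 3 * Ce)
    (Q9 := 9 ^ ε₁) (q := Y ^ ε₁) (c := Y ^ ε) (kx := K / X)
    (T := (K / X') * (θ * EHs ((J + 2 : ℕ) : ℝ) K X' Y N₁ E0 β +
      lam * EHf ((J + 2 : ℕ) : ℝ) K X' Y N₁ β +
      lam⁻¹ * EHt ((J + 2 : ℕ) : ℝ) K X' Y N₁ E0 β +
      Real.exp (-(h / 3)) * EHf ((J + 2 : ℕ) : ℝ) K X' Y N₁ β)) (Tk := Tk) (m := m) (V := V)
    (Xd := X ^ 2 * (Y ^ ε) ^ 2)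
    (L := 2 * cP w * K ^ (2 / 3 : ℝ) * (XJw (rho N₀ N₁) (JW D (1 / 10) N₁) β).re - SqQ w K (Q p) β)
    (dg := E1551.Dg w K Y β) (Hj := (η⁻¹) ^ J) (RR := Rc) (EE := Et) (OO := Ro)
    (OO' := Real.exp (h / 3) * Ro') hC₁ (by positivity) (by positivity) (by positivity) hq hqc
    (by positivity) hHj hKX hm0 hV1 hTT hTk0 hTk2 hRc hEt hRo (by positivity) (by positivity)
    ?_ ?_
  · rw [← hm]
    refine le_trans (le_of_eq ?_) (fin.trans (le_of_eq ?_))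
    · ring
    · ring
  · refine s1.trans (mul_le_mul_of_nonneg_left ?_ (by positivity))
    have e6 : Real.exp (h / 3) * Real.exp (-(h / 3)) = 1 := by
      rw [← Real.exp_add]; simp
    have e5 : Real.exp (h / 3) * (Ce * Y ^ ε * Real.exp (-(h / 3)) * Tk + (K / X) * (Ro' * V)) =
        Ce * Y ^ ε * Tk + (K / X) * ((Real.exp (h / 3) * Ro') * V) := by
      linear_combination (Ce * Y ^ ε * Tk) * e6
    rw [e5]
    linarith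
  · refine s3.trans (le_of_eq ?_)
    ring

/-- `C ≤ C X²` -/
lemma sec_num {C₁ C₂ CD L q eR kx kx' s1 s2 E1 EN D Xd : ℝ} (h1 : 0 ≤ C₁) (h2 : 0 ≤ C₂)
    (hCD : 0 ≤ CD) (hL0 : 0 ≤ L) (hLq : L ≤ q) (hq : 1 ≤ q) (heR : 0 ≤ eR) (hkx : 0 ≤ kx)
    (hkx' : 0 ≤ kx')
    (hkk : kx' ≤ eR * kx) (hs1 : 0 ≤ s1) (hs2 : 0 ≤ s2) (hs21 : s2 ≤ 1) (hE1 : 0 ≤ E1)
    (hEN0 : 0 ≤ EN) (hEN : EN ≤ C₂) (hXd : 1 ≤ Xd) (hD : D ≤ CD * (kx * (Xd * q ^ 2))) :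
    s2 * D + C₁ * L * kx' * (s1 * E1 + s2 * EN) ≤
      C₁ * q * (kx' * (s1 * E1)) + kx * ((CD + C₁ * C₂ * eR) * (Xd * (q * q))) := by
  have hq0 : 0 ≤ q := by linarith
  have a1 : s2 * D ≤ CD * (kx * (Xd * q ^ 2)) := by
    have b1 : 0 ≤ CD * (kx * (Xd * q ^ 2)) := by positivity
    calc s2 * D ≤ s2 * (CD * (kx * (Xd * q ^ 2))) := mul_le_mul_of_nonneg_left hD hs2
      _ ≤ 1 * (CD * (kx * (Xd * q ^ 2))) := mul_le_mul_of_nonneg_right hs21 b1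
      _ = _ := one_mul _
  have a2 : C₁ * L * kx' * (s1 * E1) ≤ C₁ * q * (kx' * (s1 * E1)) := by
    have : C₁ * L * kx' * (s1 * E1) = C₁ * L * (kx' * (s1 * E1)) := by ring
    rw [this]
    exact mul_le_mul_of_nonneg_right (mul_le_mul_of_nonneg_left hLq h1) (by positivity)
  have a3 : C₁ * L * kx' * (s2 * EN) ≤ C₁ * q * (eR * kx) * (1 * C₂) := by
    have b1 : s2 * EN ≤ 1 * C₂ := mul_le_mul hs21 hEN hEN0 zero_le_one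
    have b2 : C₁ * L * kx' ≤ C₁ * q * (eR * kx) :=
      mul_le_mul (mul_le_mul_of_nonneg_left hLq h1) hkk hkx' (by positivity)
    exact mul_le_mul b2 b1 (by positivity) (by positivity)
  have a4 : C₁ * q * (eR * kx) * (1 * C₂) ≤ kx * ((C₁ * C₂ * eR) * (Xd * (q * q))) := by
    have b1 : q ≤ Xd * (q * q) := by
      calc q = 1 * (q * 1) := by ring
        _ ≤ Xd * (q * q) := mul_le_mul hXd (mul_le_mul_of_nonneg_left hq hq0) (by positivity)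
            (by linarith)
    calc C₁ * q * (eR * kx) * (1 * C₂) = kx * ((C₁ * C₂ * eR) * q) := by ring
      _ ≤ kx * ((C₁ * C₂ * eR) * (Xd * (q * q))) := by gcongr
  calc s2 * D + C₁ * L * kx' * (s1 * E1 + s2 * EN) =
        s2 * D + C₁ * L * kx' * (s1 * E1) + C₁ * L * kx' * (s2 * EN) := by ring
    _ ≤ CD * (kx * (Xd * q ^ 2)) + C₁ * q * (kx' * (s1 * E1)) +
        kx * ((C₁ * C₂ * eR) * (Xd * (q * q))) := add_le_add (add_le_add a1 a2) (a3.trans a4)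
    _ = _ := by ring

/-- **the second scale from the level room** -/
theorem secS {w : ℝ → ℝ} (hw : Wgt w) (hw0 : ∀ x, 0 ≤ w x) {Cw R ε e₃ a : ℝ} {Aw J : ℕ}
    (hCw : 0 ≤ Cw) (hR : 0 ≤ R) (hε : 0 < ε) (he₃ : 0 < e₃) (ha : 0 ≤ a) (hJA : J + 2 ≤ Aw) :
    ∃ C : ℝ, 0 ≤ C ∧ ∀ (K X Y h η N₁ : ℝ), 0 < K → 1 ≤ X → 1 ≤ Y → X ≤ Y ^ a →
      Y ^ (-a) ≤ K * Real.exp (-h) → 0 < N₁ → X ^ 2 * Y ^ e₃ ≤ K * Real.exp (-h) * N₁ → 0 ≤ h →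
      0 < η → η ≤ 1 → ∀ α : Eis → ℂ, (∀ n, α n ≠ 0 → n ∈ S Y) →
      (∀ n, α n ≠ 0 → |Real.log (nm n) - Real.log X| ≤ R) → (∀ n, ‖α n‖ ≤ Y ^ ε) →
      ∑ n ∈ S Y, ‖α n‖ ≤ Y ^ a →
      ∀ (p : ℕ × ℕ) (t X' : ℝ) (φ : ℝ → ℝ), 0 < X' → |Real.log X' - Real.log X| ≤ R + 1 →
      WK Cw η Aw φ → (∀ u, φ u ≠ 0 → |u - Real.log X'| ≤ η / 2) →
      Real.exp (h / 3) * SqP w (K * Real.exp (-h)) (fun n => bt φ α p n * pw t (nm n)) ≤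
        C * Y ^ ε * ((K / X') * (Real.exp (-(h / 3)) *
          EHc (fun _ => (1 : ℝ)) (fun _ => True) ((J + 2 : ℕ) : ℝ) K X' Y N₁
            (fun n => bt φ α p n * pw t (nm n)))) +
        (K / X) * (C * (X ^ 2 * (Y ^ ε * Y ^ ε)) * (1 + |t|) ^ J) := by
  obtain ⟨B, C₂, hB, hC₂, H₂⟩ := LBT381.Et_be ((J + 2 : ℕ) : ℝ) (a := a) (e₃ := e₃) (R := R)
    (Cw := Cw) (Aw := Aw) he₃ ha hR (by omega)
  obtain ⟨C₁, hC₁, H₁⟩ := LBV180.SqP_v hw hw0 (R := 1) zero_le_one (A := J + 2) (by omega) hB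
  obtain ⟨CD, hCD, HD⟩ := LBo813.Dg_bt_le w Aw (by omega) Cw
  obtain ⟨C₅, hC₅, H₅⟩ := PInv255.one_add_log_pow_le 1 ε hε
  refine ⟨C₁ * C₅ + (CD * Real.exp R + C₁ * C₅ * C₂ * Real.exp (R + 1)), by positivity, ?_⟩
  intro K X Y h η N₁ hK hX hY hXa hKa hN hroom hh hη hη1 α hα hαR hαn hαs p t X' φ hX' hXX hφ hφs
  have hX0 : 0 < X := by linarith
  have hY0 : 0 < Y := by linarith
  have hs0 : 0 < Real.exp (-h) := Real.exp_pos _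
  have hK' : 0 < K * Real.exp (-h) := by positivity
  have hq : 1 ≤ Y ^ ε := Real.one_le_rpow hY hε.le
  have hadm : Adm Y X' 1 (fun n => bt φ α p n * pw t (nm n)) :=
    adm_mono hη1 (RGw813.adm_bt hφs hα p t)
  have s3 := HD K X X' Y R (Y ^ ε) η hK.le hX0 hY0.le (by linarith) hη hη1 hX' hXX α
    (RGw813.FS_of_S hY0.le hα) hα hαR (fun n _ => hαn n) φ hφ p t
  have s2 := H₂ (K * Real.exp (-h)) X X' Y N₁ η α hY hX0 hXa hKa hN hroom hαs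
    (RGw813.FS_of_S hY0.le hα) hX' hXX hη φ hφ p t
  generalize (fun n => bt φ α p n * pw t (nm n)) = β at hadm s2 s3 ⊢
  have s1 := H₁ (K * Real.exp (-h)) X' Y N₁ hK' hX' hY hN β hadm
  have e1 : LBV180.EH1 ((J + 2 : ℕ) : ℝ) (K * Real.exp (-h)) X' Y N₁ β =
      Real.exp (h / 3) * LBV180.EH1 ((J + 2 : ℕ) : ℝ) K X' Y N₁ β := LBV180.EH1_sc hK.le h β
  have e2 : E1551.Dg w (K * Real.exp (-h)) Y β = Real.exp (-h) * E1551.Dg w K Y β :=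
    Sc2180.Dg_sc w K _ Y β
  rw [e1, e2] at s1
  have hE1 : 0 ≤ LBV180.EH1 ((J + 2 : ℕ) : ℝ) K X' Y N₁ β :=
    LBV180.EH1_nonneg hK.le hX'.le β
  have hEN0 : 0 ≤ LBV180.EtN ((J + 2 : ℕ) : ℝ) B (K * Real.exp (-h)) X' Y N₁ β :=
    LBV180.EtN_nonneg hK'.le hX'.le hN.le β
  have hEN : LBV180.EtN ((J + 2 : ℕ) : ℝ) B (K * Real.exp (-h)) X' Y N₁ β ≤ C₂ := s2
  have hlog := Real.log_nonneg hY
  have hL5 : 1 + Real.log Y ≤ C₅ * Y ^ ε := by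
    have := H₅ Y hY
    rwa [pow_one] at this
  have hC₅1 : 1 ≤ C₅ := by
    have := H₅ 1 le_rfl
    rw [Real.log_one, Real.one_rpow] at this
    simpa using this
  have hKX : 0 ≤ K / X := by positivity
  have hKX' : 0 ≤ K / X' := by positivity
  have hkk : K / X' ≤ Real.exp (R + 1) * (K / X) := by
    have hXr : X ≤ Real.exp (R + 1) * X' := by
      have h1 : Real.log X ≤ Real.log X' + (R + 1) := by linarith [(abs_le.mp hXX).1]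
      calc X = Real.exp (Real.log X) := (Real.exp_log hX0).symm
        _ ≤ Real.exp (Real.log X' + (R + 1)) := Real.exp_le_exp.mpr h1
        _ = Real.exp (R + 1) * X' := by rw [Real.exp_add, Real.exp_log hX', mul_comm]
    rw [← mul_div_assoc, div_le_div_iff₀ hX' hX0]
    nlinarith [mul_le_mul_of_nonneg_left hXr hK.le]
  have hV1 : 1 ≤ (1 + |t|) ^ J := one_le_pow₀ (by linarith [abs_nonneg t])
  have hX2 : 1 ≤ X ^ 2 := one_le_pow₀ hX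
  have key := sec_num (C₁ := C₁ * C₅) (C₂ := C₂) (CD := CD * Real.exp R)
    (L := (1 + Real.log Y) / C₅) (q := Y ^ ε) (eR := Real.exp (R + 1)) (kx := K / X)
    (kx' := K / X') (s1 := Real.exp (-(h / 3))) (s2 := Real.exp (-(2 * h / 3)))
    (E1 := LBV180.EH1 ((J + 2 : ℕ) : ℝ) K X' Y N₁ β)
    (EN := LBV180.EtN ((J + 2 : ℕ) : ℝ) B (K * Real.exp (-h)) X' Y N₁ β)
    (D := E1551.Dg w K Y β) (Xd := X ^ 2) (by positivity) hC₂ (by positivity) (by positivity)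
    (by rw [div_le_iff₀ (by linarith)]; linarith) hq (Real.exp_pos _).le hKX hKX' hkk
    (Real.exp_pos _).le (Real.exp_pos _).le (Real.exp_le_one_iff.mpr (by linarith)) hE1 hEN0 hEN
    hX2 (s3.trans (le_of_eq (by ring)))
  have m1 := mul_le_mul_of_nonneg_left s1 (Real.exp_pos (h / 3)).le
  have f1 : Real.exp (h / 3) * Real.exp (-h) = Real.exp (-(2 * h / 3)) := by
    rw [← Real.exp_add]; congr 1; ring
  have f2 : Real.exp (-(2 * h / 3)) * Real.exp (h / 3) = Real.exp (-(h / 3)) := by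
    rw [← Real.exp_add]; congr 1; ring
  have hC50 : C₅ ≠ 0 := by linarith
  have f3 : Real.exp (h / 3) * (Real.exp (-h) * E1551.Dg w K Y β +
      C₁ * (1 + Real.log Y) * (K * Real.exp (-h) / X') *
        (Real.exp (h / 3) * LBV180.EH1 ((J + 2 : ℕ) : ℝ) K X' Y N₁ β +
          LBV180.EtN ((J + 2 : ℕ) : ℝ) B (K * Real.exp (-h)) X' Y N₁ β)) =
      Real.exp (-(2 * h / 3)) * E1551.Dg w K Y β +
        (C₁ * C₅) * ((1 + Real.log Y) / C₅) * (K / X') *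
        (Real.exp (-(h / 3)) * LBV180.EH1 ((J + 2 : ℕ) : ℝ) K X' Y N₁ β +
          Real.exp (-(2 * h / 3)) *
            LBV180.EtN ((J + 2 : ℕ) : ℝ) B (K * Real.exp (-h)) X' Y N₁ β) := by
    rw [← f2, ← f1]
    field_simp
  rw [f3] at m1
  refine m1.trans (key.trans ?_)
  obtain ⟨c1, hc1⟩ : ∃ c : ℝ, c = C₁ * C₅ := ⟨_, rfl⟩
  obtain ⟨c2, hc2⟩ : ∃ c : ℝ, c = CD * Real.exp R + C₁ * C₅ * C₂ * Real.exp (R + 1) := ⟨_, rfl⟩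
  have hc10 : 0 ≤ c1 := by rw [hc1]; positivity
  have hc20 : 0 ≤ c2 := by rw [hc2]; positivity
  rw [← hc2, ← hc1]
  have hEx : 0 ≤ K / X' * (Real.exp (-(h / 3)) *
      LBV180.EH1 ((J + 2 : ℕ) : ℝ) K X' Y N₁ β) :=
    mul_nonneg hKX' (mul_nonneg (Real.exp_pos _).le hE1)
  have hq0 : 0 ≤ Y ^ ε := by linarith
  have hXq : 0 ≤ X ^ 2 * (Y ^ ε * Y ^ ε) := mul_nonneg (by linarith) (mul_nonneg hq0 hq0)
  have g1 : c1 * Y ^ ε * (K / X' * (Real.exp (-(h / 3)) *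
      LBV180.EH1 ((J + 2 : ℕ) : ℝ) K X' Y N₁ β)) ≤
      (c1 + c2) * Y ^ ε *
        (K / X' * (Real.exp (-(h / 3)) * LBV180.EH1 ((J + 2 : ℕ) : ℝ) K X' Y N₁ β)) :=
    mul_le_mul_of_nonneg_right (mul_le_mul_of_nonneg_right (by linarith) hq0) hEx
  have g2 : K / X * (c2 * (X ^ 2 * (Y ^ ε * Y ^ ε))) ≤
      K / X * ((c1 + c2) * (X ^ 2 * (Y ^ ε * Y ^ ε)) * (1 + |t|) ^ J) := by
    refine mul_le_mul_of_nonneg_left ?_ hKX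
    have b2 : c2 * (X ^ 2 * (Y ^ ε * Y ^ ε)) ≤ (c1 + c2) * (X ^ 2 * (Y ^ ε * Y ^ ε)) :=
      mul_le_mul_of_nonneg_right (by linarith) hXq
    have b3 : 0 ≤ (c1 + c2) * (X ^ 2 * (Y ^ ε * Y ^ ε)) := mul_nonneg (by linarith) hXq
    exact b2.trans (le_mul_of_one_le_right b3 hV1)
  exact add_le_add g1 g2

end Crest.Agent.R017.LBx48
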