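import Crest.Agent.R017.Rough2_381
import Crest.Agent.R017.XCub_71

/-!
# Row 17, RG3 (helper381): smooth / rough splitting, list form

* `alR z h ps` : the rough sequence of a list, `S0z z P h l ps` : its cube-free second moment
* `S0r δ P h l ps = ⨆_{z ≥ exp (δ (l + ∑ len))} S0z z P h l ps`
* `rough_list` : if the rough moments of all shortenings `ps'` at the family
  `l = k + ∑ len - ∑ len'` are at most `Bd * exp (∑ len' - ∑ len)`, then the moment of `ps`
  at `k` is at most `C X^ε Bd`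
-/

set_option autoImplicit false
set_option linter.unusedSectionVars false
set_option linter.unusedVariables false

noncomputable section

open Complex
open scoped ComplexConjugate

namespace Crest.Agent.R017.Rough381

open Crest.Agent.R012 Crest.Agent.R012.Eis Crest.Agent.R012.LS2 Crest.Agent.R012.Gauss880
open Crest.Agent.R012.Mob705
open Crest.Agent.R012.PSer47 (IsChar)
open Crest.Agent.R012.Div277 (tau dvs mem_dvs tau_le_rpow)
open Crest.Agent.R017.CM106 Crest.Agent.R017.HP842 Crest.Agent.R017.FE47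
open Crest.Agent.R017.End699 Crest.Agent.R017.XC858
open Crest.Agent.R017.B770
open Crest.Agent.R017.Prov71

/-- the rough sequence of a list of pieces -/
def alR (z : ℝ) (h : ℝ → ℝ) (ps : List Pc) : Eis → ℂ := cvL (ps.map fun p => rgh z (pc h p))

lemma alr_ofFn (z : ℝ) (h : ℝ → ℝ) {n : ℕ} (s : Fin n → Pc) : alr z h s = alR z h (List.ofFn s) := by
  unfold alR alr
  rw [cv_eq_cvL, List.map_ofFn]
  rfl

/-- the cube-free second moment of the rough sequence -/
def S0z (z : ℝ) (P : DPar) (h : ℝ → ℝ) (l : ℝ) (ps : List Pq) : ℝ :=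
  VF (Real.exp l) (sqc 1 (alR z h (ps.map (Pq.pc P))))

lemma S0z_nonneg (z : ℝ) (P : DPar) (h : ℝ → ℝ) (l : ℝ) (ps : List Pq) : 0 ≤ S0z z P h l ps :=
  VF_nonneg _ _

/-- total length -/
def Ls (ps : List Pq) : ℝ := (ps.map Pq.z).sum

/-- **the rough functional** -/
def S0r (δ : ℝ) (P : DPar) (h : ℝ → ℝ) (l : ℝ) (ps : List Pq) : ℝ :=
  ⨆ z : {z : ℝ // Real.exp (δ * (l + Ls ps)) ≤ z}, S0z z P h l ps

lemma S0p_eq (P : DPar) (h : ℝ → ℝ) (l : ℝ) (ps : List Pq) :
    S0p P h l ps = VF (Real.exp l) (sqc 1 (alL h (ps.map (Pq.pc P)))) := by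
  classical
  unfold S0p VF
  refine Finset.sum_congr ?_ fun x _ => ?_
  · congr
  · rw [KS_Kg]

/-- trivial bound, uniform in the roughness -/
lemma norm_TG_alr_le {h : ℝ → ℝ} {R : ℝ} (hR : ∀ u, cx h u ≠ 0 → |u| ≤ R) {n : ℕ} (s : Fin n → Pc)
    (hs : ∀ i, (s i).OK) : ∃ T : ℝ, ∀ (z : ℝ) (q j : Eis), ‖TG (sqc q (alr z h s)) j‖ ≤ T := by
  classical
  obtain ⟨X, hX⟩ : ∃ X : ℕ, ∀ i, (s i).Y * Real.exp R ≤ X := by
    refine ⟨⌈∑ i, (s i).Y * Real.exp R⌉₊, fun i => ?_⟩
    refine le_trans ?_ (Nat.le_ceil _)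
    exact Finset.single_le_sum (f := fun i => (s i).Y * Real.exp R)
      (fun i _ => by have := (hs i).Y0; positivity) (Finset.mem_univ i)
  refine ⟨∑ b ∈ Fintype.piFinset (fun _ : Fin n => primBall X), ∏ i, ‖pc h (s i) (b i)‖, ?_⟩
  intro z q j
  have hbd : Bd X (fun i => rgh z (pc h (s i))) := by
    intro i b hb
    have hb' : pc h (s i) b ≠ 0 := by
      intro h0
      apply hb
      show rgh z (pc h (s i)) b = 0
      unfold rgh
      rw [h0]; simp
    exact Bd_pc hR (hs i).Y0 (hX i) hb'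
  unfold alr
  rw [TG_sqc_eq, sum_cv hbd (fun n => Th q n * (G n * conj (sy j n)))]
  refine (norm_sum_le _ _).trans (Finset.sum_le_sum fun b hb => ?_)
  rw [Fintype.mem_piFinset] at hb
  have hbp : ∀ i, IsPrim (b i) := fun i => (mem_primBall.1 (hb i)).2
  rw [norm_mul, norm_prod, norm_mul]
  calc (∏ i, ‖rgh z (pc h (s i)) (b i)‖) * (‖Th q (∏ i, b i)‖ *
        ‖G (∏ i, b i) * conj (sy j (∏ i, b i))‖)
      ≤ (∏ i, ‖pc h (s i) (b i)‖) * (1 * 1) := by
        refine mul_le_mul ?_ ?_ (by positivity) (Finset.prod_nonneg fun _ _ => norm_nonneg _)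
        · refine Finset.prod_le_prod (fun _ _ => norm_nonneg _) fun i _ => ?_
          unfold rgh
          split_ifs
          · exact le_rfl
          · rw [norm_zero]; exact norm_nonneg _
        · exact mul_le_mul (norm_Th_le _ _) (norm_Gsy_le (isPrim_prod hbp)) (norm_nonneg _)
            zero_le_one
    _ = _ := by ring

lemma bdd_S0z {P : DPar} (hP : P.OK) {h : ℝ → ℝ} (hh : Bump h) (δ l : ℝ) (ps : List Pq) :
    BddAbove (Set.range fun z : {z : ℝ // Real.exp (δ * (l + Ls ps)) ≤ z} => S0z z P h l ps) := by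
  classical
  obtain ⟨R, hR⟩ := hh
  obtain ⟨T, hT⟩ := norm_TG_alr_le hR (fun i : Fin ps.length => (ps.get i).pc P)
    (fun i => Pq.ok hP _)
  refine ⟨∑ j ∈ (bl (Real.exp l)).filter CubeFree, T ^ 2, ?_⟩
  rintro _ ⟨z, rfl⟩
  beta_reduce
  unfold S0z VF
  refine Finset.sum_le_sum fun j _ => ?_
  have e : alR z h (ps.map (Pq.pc P)) = alr z h (fun i : Fin ps.length => (ps.get i).pc P) := by
    rw [alr_ofFn]
    congr 1
    conv_lhs => rw [← List.ofFn_get ps]
    rw [List.map_ofFn]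
    rfl
  rw [e]
  exact pow_le_pow_left₀ (norm_nonneg _) (hT z 1 j) 2

lemma S0z_le_S0r {P : DPar} (hP : P.OK) {h : ℝ → ℝ} (hh : Bump h) {δ l : ℝ} {ps : List Pq} {z : ℝ}
    (hz : Real.exp (δ * (l + Ls ps)) ≤ z) : S0z z P h l ps ≤ S0r δ P h l ps :=
  le_ciSup (f := fun z : {z : ℝ // Real.exp (δ * (l + Ls ps)) ≤ z} => S0z z P h l ps)
    (bdd_S0z hP hh δ l ps) ⟨z, hz⟩

/-- the cost of the heights -/
def cst (ps' ps : List Pq) : ℝ := (List.zipWith (fun p' p : Pq => 1 + |p'.t - p.t|) ps' ps).prod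

/-- the children -/
def Ch (r : ℝ) (p' p : Pq) : Prop :=
  p'.kd = p.kd ∧ p'.d = p.d ∧ (p.u = .one → p'.u = .one) ∧ 0 ≤ p'.z ∧ p'.z ≤ p.z + r

/-- a child from a cell -/
def mkc (p : Pq) (v : UT) (Y t : ℝ) : Pq := ⟨p.kd, v, p.d, p.d0, Real.log Y, t⟩

lemma mkc_pc (P : DPar) (p : Pq) (v : UT) {Y : ℝ} (hY : 0 < Y) (t : ℝ) :
    (mkc p v Y t).pc P = ⟨v, (p.pc P).ψ, Y, t⟩ := by
  unfold mkc Pq.pc
  simp only [Real.exp_log hY]

lemma cst_ofFn (ps : List Pq) (g : Fin ps.length → Pq) :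
    cst (List.ofFn g) ps = ∏ i, (1 + |(g i).t - (ps.get i).t|) := by
  unfold cst
  have : List.zipWith (fun p' p : Pq => 1 + |p'.t - p.t|) (List.ofFn g) ps =
      List.ofFn (fun i => 1 + |(g i).t - (ps.get i).t|) := by
    apply List.ext_get
    · simp
    · intro n h1 h2
      simp
  rw [this, List.prod_ofFn]

lemma Ls_ofFn {n : ℕ} (g : Fin n → Pq) : Ls (List.ofFn g) = ∑ i, (g i).z := by
  unfold Ls
  rw [List.map_ofFn, List.sum_ofFn]
  rfl

lemma Ls_get (ps : List Pq) : Ls ps = ∑ i : Fin ps.length, (ps.get i).z := by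
  conv_lhs => rw [← List.ofFn_get ps]
  rw [Ls_ofFn]

lemma forall₂_ofFn {r : ℝ} (ps : List Pq) (g : Fin ps.length → Pq)
    (hg : ∀ i, Ch r (g i) (ps.get i)) : List.Forall₂ (Ch r) (List.ofFn g) ps := by
  rw [List.forall₂_iff_get]
  refine ⟨by simp, fun i h1 h2 => ?_⟩
  have := hg ⟨i, h2⟩
  simpa using this

/-- the analytic constants: powers of logarithms and divisor functions -/
lemma log_pow_le {ε : ℝ} (hε : 0 < ε) (N : ℕ) {c₀ : ℝ} (hc₀ : 0 ≤ c₀) : ∃ C : ℝ, 1 ≤ C ∧ ∀ X : ℝ,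
    1 ≤ X → (Real.log X + c₀) ^ N ≤ C * X ^ ε := by
  set η := ε / (N + 1) with hη
  have hN0 : (0 : ℝ) < (N : ℝ) + 1 := by positivity
  have hη0 : 0 < η := by positivity
  refine ⟨(1 / η + c₀ + 1) ^ N, one_le_pow₀ (by have : 0 < 1 / η := by positivity
                                                linarith), fun X hX => ?_⟩
  have hX0 : 0 < X := by linarith
  have h1 : Real.log X ≤ X ^ η / η := Real.log_le_rpow_div hX0.le hη0
  have h2 : (1 : ℝ) ≤ X ^ η := Real.one_le_rpow hX hη0.le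
  have h3 : Real.log X + c₀ ≤ (1 / η + c₀ + 1) * X ^ η := by
    have : X ^ η / η = 1 / η * X ^ η := by ring
    nlinarith
  have h4 : 0 ≤ Real.log X + c₀ := by have := Real.log_nonneg hX; linarith
  calc (Real.log X + c₀) ^ N ≤ ((1 / η + c₀ + 1) * X ^ η) ^ N := pow_le_pow_left₀ h4 h3 N
    _ = (1 / η + c₀ + 1) ^ N * (X ^ η) ^ N := mul_pow _ _ _
    _ ≤ (1 / η + c₀ + 1) ^ N * X ^ ε := by
        refine mul_le_mul_of_nonneg_left ?_ (by positivity)
        rw [← Real.rpow_natCast, ← Real.rpow_mul hX0.le]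
        refine Real.rpow_le_rpow_of_exponent_le hX ?_
        rw [hη, div_mul_eq_mul_div, div_le_iff₀ hN0]
        nlinarith

/-- **the splitting, list form** -/
theorem rough_list {h : ℝ → ℝ} {c : ℝ} (hpu : PU h c) {P : DPar} (hP : P.OK) {δ : ℝ} (hδ : 0 ≤ δ)
    (N : ℕ) {ε : ℝ} (hε : 0 < ε) {M : ℝ} (hM : 0 ≤ M) : ∃ C r : ℝ, 1 ≤ C ∧ 0 ≤ r ∧ ∀ X : ℝ, 3 ≤ X →
    ∀ (k : ℝ) (ps : List Pq), 0 ≤ k → k ≤ Real.log X → ps.length ≤ N →
    (∀ p ∈ ps, 0 ≤ p.z ∧ p.z ≤ Real.log X) → ∀ Bd : ℝ, 0 ≤ Bd →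
    (∀ (l : ℝ) (ps' : List Pq), 0 ≤ l → List.Forall₂ (Ch r) ps' ps →
      |l - (k + Ls ps - Ls ps')| ≤ r →
      S0r δ P h l ps' ≤ Bd * cst ps' ps ^ M * Real.exp (Ls ps' - Ls ps)) →
    S0p P h k ps ≤ C * X ^ ε * Bd := by
  classical
  obtain ⟨R₀, hR₀⟩ := bump_of_cs hpu.cs
  set R := max R₀ 0 with hRd
  have hR0 : 0 ≤ R := le_max_right _ _
  have hR : ∀ u, cx h u ≠ 0 → |u| ≤ R := fun u hu => (hR₀ u hu).trans (le_max_left _ _)
  have hh : Bump h := ⟨R, hR⟩
  obtain ⟨C₁, hC₁, H⟩ := rough_split hpu hR0 hR M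
  -- constants
  set η := ε / (2 * ((N : ℝ) + 1) * ((N : ℝ) + 1)) with hη
  have hN0 : (0 : ℝ) ≤ N := Nat.cast_nonneg _
  have hη0 : 0 < η := by positivity
  obtain ⟨C₂, hC₂, hτ⟩ := tau_le_rpow hη0
  set c₀ : ℝ := Real.log 2 + R + 1 with hc₀
  have hc₀0 : 0 ≤ c₀ := by have := Real.log_nonneg (by norm_num : (1 : ℝ) ≤ 2); linarith
  obtain ⟨C₃, hC₃, hlog⟩ := log_pow_le (ε := ε / 2) (by linarith) (2 * N) hc₀0
  set A : ℝ := Real.exp 1 * (2 * Real.exp R) with hA
  have hA1 : 1 ≤ A := by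
    have h1 : 1 ≤ Real.exp 1 := Real.one_le_exp zero_le_one
    have h2 : 1 ≤ Real.exp R := Real.one_le_exp hR0
    nlinarith
  set r : ℝ := N * (2 * R + 2) with hr
  have hr0 : 0 ≤ r := by positivity
  have h2r : 2 * R + 2 ≤ r + (2 * R + 2) := by linarith
  refine ⟨C₁ ^ N * C₃ * (C₂ ^ N * (A ^ N) ^ (η * N)) * Real.exp r, r + (2 * R + 2), ?_,
    by linarith, ?_⟩
  · have h1 : 1 ≤ C₁ ^ N := one_le_pow₀ hC₁
    have h2 : 1 ≤ C₂ ^ N := one_le_pow₀ hC₂
    have h3 : 1 ≤ (A ^ N) ^ (η * N) := Real.one_le_rpow (one_le_pow₀ hA1) (by positivity)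
    have h4 : 1 ≤ Real.exp r := Real.one_le_exp hr0
    have h5 : 1 ≤ C₁ ^ N * C₃ := one_le_mul_of_one_le_of_one_le h1 hC₃
    have h6 : 1 ≤ C₂ ^ N * (A ^ N) ^ (η * N) := one_le_mul_of_one_le_of_one_le h2 h3
    exact one_le_mul_of_one_le_of_one_le (one_le_mul_of_one_le_of_one_le h5 h6) h4
  intro X hX k ps hk hkX hlen hps Bd hBd hyp
  have hX1 : (1 : ℝ) ≤ X := by linarith
  have hX0 : (0 : ℝ) < X := by linarith
  set n := ps.length with hn
  have hnN : (n : ℝ) ≤ N := by exact_mod_cast hlen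
  set s : Fin n → Pc := fun i => (ps.get i).pc P with hs
  have hsOK : ∀ i, (s i).OK := fun i => Pq.ok hP _
  -- the support bound
  set X' : ℕ := ⌈X * Real.exp R⌉₊ with hX'
  have h1R : 1 ≤ Real.exp R := Real.one_le_exp hR0
  have hXR : 1 ≤ X * Real.exp R := by nlinarith
  have hX'1 : 1 ≤ X' := by
    rw [hX']
    exact Nat.one_le_ceil_iff.2 (by linarith)
  have hX'2 : (X' : ℝ) ≤ 2 * Real.exp R * X := by
    have := (Nat.ceil_lt_add_one (by linarith : 0 ≤ X * Real.exp R)).le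
    rw [hX']
    linarith
  have hsX : ∀ i, (s i).Y * Real.exp R ≤ X' := by
    intro i
    refine le_trans ?_ (Nat.le_ceil _)
    refine mul_le_mul_of_nonneg_right ?_ (Real.exp_pos _).le
    show Real.exp (ps.get i).z ≤ X
    calc Real.exp (ps.get i).z ≤ Real.exp (Real.log X) :=
          Real.exp_le_exp.2 (hps _ (List.get_mem ps i)).2
      _ = X := Real.exp_log hX0
  have hseq : alL h (ps.map (Pq.pc P)) = cv fun i => pc h (s i) := by
    have : ps.map (Pq.pc P) = List.ofFn s := by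
      conv_lhs => rw [← List.ofFn_get ps]
      rw [List.map_ofFn]
      rfl
    rw [this, ← al_eq]
    rfl
  set z := Real.exp (δ * (k + Ls ps + (r + (2 * R + 2)))) with hz
  -- the divisor bound
  set D : ℝ := C₂ ^ N * (A ^ N) ^ (η * N) * X ^ (ε / 2) with hD
  have hD0 : 0 ≤ D := by positivity
  have hlogX' : Real.log X' ≤ Real.log X + (Real.log 2 + R) := by
    calc Real.log X' ≤ Real.log (2 * Real.exp R * X) :=
          Real.log_le_log (by exact_mod_cast hX'1) hX'2
      _ = Real.log X + (Real.log 2 + R) := by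
          rw [Real.log_mul (by positivity) hX0.ne', Real.log_mul two_ne_zero
            (Real.exp_pos _).ne', Real.log_exp]
          ring
  have key := H (Fin n) s hsOK X' hX'1 hsX z 1 (Real.exp k) (Real.exp_pos _).le
    (Bd * Real.exp r) D (mul_nonneg hBd (Real.exp_pos _).le) hD0
    (by
      intro j hj0 hj
      rw [Fintype.card_fin] at hj ⊢
      have hj1 : (1 : ℝ) ≤ nm j := by exact_mod_cast nm_pos.2 hj0
      have h1 : (nm j : ℝ) ≤ A ^ N * X ^ ((N : ℝ) + 1) := by
        have h2 : Real.exp k ≤ X := by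
          calc Real.exp k ≤ Real.exp (Real.log X) := Real.exp_le_exp.2 hkX
            _ = X := Real.exp_log hX0
        have h3 : Real.exp 1 * X' ≤ A * X := by
          rw [hA]
          have := mul_le_mul_of_nonneg_left hX'2 (Real.exp_pos 1).le
          linarith
        have h4 : 1 ≤ A * X := by nlinarith
        calc (nm j : ℝ) ≤ Real.exp k * (Real.exp 1 * X') ^ n := hj
          _ ≤ X * (A * X) ^ n := by
              refine mul_le_mul h2 (pow_le_pow_left₀ (by positivity) h3 n) (by positivity) hX0.le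
          _ ≤ X * (A * X) ^ N :=
              mul_le_mul_of_nonneg_left (pow_le_pow_right₀ h4 hlen) hX0.le
          _ = A ^ N * X ^ ((N : ℝ) + 1) := by
              rw [mul_pow, Real.rpow_add hX0, Real.rpow_natCast, Real.rpow_one]; ring
      have h5 : (tau j : ℝ) ≤ C₂ * (nm j : ℝ) ^ η := hτ j hj0
      have h6 : (1 : ℝ) ≤ C₂ * (nm j : ℝ) ^ η := by
        have := Real.one_le_rpow hj1 hη0.le
        nlinarith
      calc (tau j : ℝ) ^ n ≤ (C₂ * (nm j : ℝ) ^ η) ^ n :=
            pow_le_pow_left₀ (Nat.cast_nonneg _) h5 n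
        _ ≤ (C₂ * (nm j : ℝ) ^ η) ^ N := pow_le_pow_right₀ h6 hlen
        _ = C₂ ^ N * (nm j : ℝ) ^ (η * N) := by
            rw [mul_pow, ← Real.rpow_natCast ((nm j : ℝ) ^ η), ← Real.rpow_mul (by positivity)]
        _ ≤ C₂ ^ N * (A ^ N * X ^ ((N : ℝ) + 1)) ^ (η * N) := by
            refine mul_le_mul_of_nonneg_left ?_ (by positivity)
            exact Real.rpow_le_rpow (by positivity) h1 (by positivity)
        _ = C₂ ^ N * ((A ^ N) ^ (η * N) * X ^ (((N : ℝ) + 1) * (η * N))) := by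
            rw [Real.mul_rpow (by positivity) (by positivity), ← Real.rpow_mul hX0.le]
        _ ≤ C₂ ^ N * ((A ^ N) ^ (η * N) * X ^ (ε / 2)) := by
            refine mul_le_mul_of_nonneg_left ?_ (by positivity)
            refine mul_le_mul_of_nonneg_left ?_ (by positivity)
            refine Real.rpow_le_rpow_of_exponent_le hX1 ?_
            have e1 : ((N : ℝ) + 1) * (η * N) = ε / 2 * (N / (N + 1)) := by
              rw [hη]
              have : ((N : ℝ) + 1) ≠ 0 := by positivity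
              field_simp
            rw [e1]
            have e2 : (N : ℝ) / (N + 1) ≤ 1 := by
              rw [div_le_one (by positivity)]; linarith
            nlinarith
        _ = D := by rw [hD]; ring)
    (by
      intro b m Y t hm hY
      -- the child list
      set g : Fin n → Pq := fun i => mkc (ps.get i) (vk s b i) (Y i) (t i) with hg
      set ps' := List.ofFn g with hps'
      set l := k + ∑ i, ((m i : ℝ) + 1) with hl
      have hY0 : ∀ i, 0 < Y i := fun i => by have := (hY i).1; linarith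
      have hlogs : ∀ i, Real.log (s i).Y = (ps.get i).z := fun i => Real.log_exp _
      have hgz : ∀ i, (g i).z = Real.log (Y i) := fun i => rfl
      have hm0 : ∀ i, (0 : ℝ) ≤ m i := fun i => Nat.cast_nonneg _
      have hup : ∀ i, Real.log (Y i) + ((m i : ℝ) + 1) ≤ (ps.get i).z + (2 * R + 2) := by
        intro i
        have := (abs_le.1 (hY i).2).2
        rw [hlogs i] at this
        linarith
      have hlo : ∀ i, (ps.get i).z - (2 * R + 1) ≤ Real.log (Y i) + ((m i : ℝ) + 1) := by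
        intro i
        have := (abs_le.1 (hY i).2).1
        rw [hlogs i] at this
        linarith
      have hcardn : ∑ _i : Fin n, (2 * R + 2) = n * (2 * R + 2) := by
        rw [Finset.sum_const, Finset.card_univ, Fintype.card_fin, nsmul_eq_mul]
      have hnr : (n : ℝ) * (2 * R + 2) ≤ r := by
        rw [hr]; exact mul_le_mul_of_nonneg_right hnN (by linarith)
      have hLs' : Ls ps' = ∑ i, Real.log (Y i) := by
        rw [hps', Ls_ofFn]
        exact Finset.sum_congr rfl fun i _ => hgz i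
      have hLs : Ls ps = ∑ i, (ps.get i).z := Ls_get ps
      have hsum1 : Ls ps' + ∑ i, ((m i : ℝ) + 1) ≤ Ls ps + r := by
        rw [hLs', hLs, ← Finset.sum_add_distrib]
        calc ∑ i, (Real.log (Y i) + ((m i : ℝ) + 1)) ≤ ∑ i, ((ps.get i).z + (2 * R + 2)) :=
              Finset.sum_le_sum fun i _ => hup i
          _ = (∑ i, (ps.get i).z) + n * (2 * R + 2) := by rw [Finset.sum_add_distrib, hcardn]
          _ ≤ _ := by linarith
      have hsum2 : Ls ps - r ≤ Ls ps' + ∑ i, ((m i : ℝ) + 1) := by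
        rw [hLs', hLs, ← Finset.sum_add_distrib]
        calc (∑ i, (ps.get i).z) - r ≤ (∑ i, (ps.get i).z) - n * (2 * R + 2) := by linarith
          _ = ∑ i, ((ps.get i).z - (2 * R + 2)) := by
              rw [Finset.sum_sub_distrib, hcardn]
          _ ≤ ∑ i, (Real.log (Y i) + ((m i : ℝ) + 1)) :=
              Finset.sum_le_sum fun i _ => by have := hlo i; linarith
      have hsum0 : 0 ≤ ∑ i, ((m i : ℝ) + 1) :=
        Finset.sum_nonneg fun i _ => by have := hm0 i; linarith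
      have hl0 : 0 ≤ l := by rw [hl]; linarith
      have hchild : List.Forall₂ (Ch (r + (2 * R + 2))) ps' ps := by
        refine forall₂_ofFn ps g fun i => ⟨rfl, rfl, ?_, ?_, ?_⟩
        · intro hu
          show vk s b i = .one
          unfold vk
          have hu' : (s i).u = .one := hu
          rw [if_neg (by rw [hu']; simp), hu']
        · rw [hgz i]
          exact Real.log_nonneg (hY i).1
        · rw [hgz i]
          have := hup i
          have := hm0 i
          linarith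
      have hlin : |l - (k + Ls ps - Ls ps')| ≤ r + (2 * R + 2) := by
        rw [hl, abs_le]
        constructor <;> linarith
      have h1 := hyp l ps' hl0 hchild hlin
      have hzz : Real.exp (δ * (l + Ls ps')) ≤ z := by
        rw [hz]
        refine Real.exp_le_exp.2 (mul_le_mul_of_nonneg_left ?_ hδ)
        rw [hl]; linarith
      have h2 := S0z_le_S0r hP hh (P := P) (h := h) hzz
      have e1 : S0z z P h l ps' = VF (Real.exp k * Real.exp (∑ i, ((m i : ℝ) + 1)))
          (sqc 1 (alr z h (cellP s (vk s b) Y t))) := by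
        unfold S0z
        rw [hl, Real.exp_add, alr_ofFn]
        congr 3
        rw [hps', List.map_ofFn]
        congr 1
        funext i
        exact mkc_pc P (ps.get i) (vk s b i) (hY0 i) (t i)
      rw [← e1]
      refine (h2.trans h1).trans ?_
      have e2 : cst ps' ps = ∏ i, (1 + |t i - (s i).t|) := by
        rw [hps', cst_ofFn]
        rfl
      have e3 : cst ps' ps ^ M = ∏ i, (1 + |t i - (s i).t|) ^ M := by
        rw [e2, Real.finsetProd_rpow _ _ fun i _ => by positivity]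
      rw [e3]
      have h3 : Real.exp (Ls ps' - Ls ps) ≤ Real.exp r * Real.exp (-∑ i, ((m i : ℝ) + 1)) := by
        rw [← Real.exp_add]
        exact Real.exp_le_exp.2 (by linarith)
      have h4 : 0 ≤ ∏ i, (1 + |t i - (s i).t|) ^ M :=
        Finset.prod_nonneg fun i _ => Real.rpow_nonneg (by positivity) _
      calc Bd * (∏ i, (1 + |t i - (s i).t|) ^ M) * Real.exp (Ls ps' - Ls ps)
          ≤ Bd * (∏ i, (1 + |t i - (s i).t|) ^ M) *
            (Real.exp r * Real.exp (-∑ i, ((m i : ℝ) + 1))) :=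
            mul_le_mul_of_nonneg_left h3 (mul_nonneg hBd h4)
        _ = _ := by ring)
  rw [S0p_eq, hseq]
  refine key.trans ?_
  rw [Fintype.card_fin]
  have h1 : (C₁ * (Real.log X' + 1) ^ 2) ^ n ≤ C₁ ^ N * (C₃ * X ^ (ε / 2)) := by
    have h2 : 0 ≤ Real.log X' := Real.log_nonneg (by exact_mod_cast hX'1)
    have h3 : 1 ≤ C₁ * (Real.log X' + 1) ^ 2 :=
      one_le_mul_of_one_le_of_one_le hC₁ (one_le_pow₀ (by linarith))
    calc (C₁ * (Real.log X' + 1) ^ 2) ^ n ≤ (C₁ * (Real.log X' + 1) ^ 2) ^ N :=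
          pow_le_pow_right₀ h3 hlen
      _ = C₁ ^ N * (Real.log X' + 1) ^ (2 * N) := by rw [mul_pow, pow_mul]
      _ ≤ C₁ ^ N * (Real.log X + c₀) ^ (2 * N) := by
          refine mul_le_mul_of_nonneg_left ?_ (by positivity)
          exact pow_le_pow_left₀ (by linarith) (by rw [hc₀]; linarith) _
      _ ≤ C₁ ^ N * (C₃ * X ^ (ε / 2)) :=
          mul_le_mul_of_nonneg_left (hlog X hX1) (by positivity)
  have h5 : 0 ≤ D * (Bd * Real.exp r) := by positivity
  refine (mul_le_mul_of_nonneg_right h1 h5).trans (le_of_eq ?_)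
  rw [hD]
  have e : X ^ ε = X ^ (ε / 2) * X ^ (ε / 2) := by
    rw [← Real.rpow_add hX0]; congr 1; ring
  rw [e]
  ring

end Crest.Agent.R017.Rough381
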