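import Crest.Agent.R017.XRG1_106

/-!
# Row 17, provider: the raw dual rule (P') in BG form (helper106), part 2

* `RFp P h l ps` : the complete family
* `locG` : (P') for a family of pieces
-/

set_option autoImplicit false
set_option maxHeartbeats 400000

noncomputable section

open Complex
open scoped ComplexConjugate

namespace Crest.Agent.R017.XRG106

open Crest.Agent.R012 Crest.Agent.R012.Eis Crest.Agent.R012.LS2 Crest.Agent.R012.Gauss880
open Crest.Agent.R012.PSer47 (IsChar ang_isChar)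
open Crest.Agent.R012.Div277 Crest.Agent.R012.Weight600
open Crest.Agent.R017.CM106 Crest.Agent.R017.FE47 Crest.Agent.R017.End699
open Crest.Agent.R017.B770
open Crest.Agent.R017.Prov71
open Crest.Agent.R017.HP842 (UT Pc pc KS sqc Kg uv alL al ssub norm_uv_le pc_support sq_nat_pc)
open Crest.Agent.R017.HSep813 (gw norm_gw_le)
open Crest.Agent.R017.TPOk571 (IP FP SD SD_w SD_len SD_ht sd_ok AC relU)
open Crest.Agent.R017.TP320 (VC VG VC_mono VC_nonneg Fam)
open Crest.Agent.R017.GR106 (G_rule)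
open Crest.Agent.R017.XHB411 (tl)

/-- the complete family -/
def RFp (P : DPar) (h : ℝ → ℝ) (l : ℝ) (ps : List Pq) : ℝ :=
  RQ (fun k => k ≠ 0) h l (ps.map (Pq.pc P))

lemma RFp_nonneg (P : DPar) (h : ℝ → ℝ) (l : ℝ) (ps : List Pq) : 0 ≤ RFp P h l ps :=
  RQ_nonneg _ _ _ _

/-- the index of a piece -/
def ip {P : DPar} (hP : P.OK) (p : Pq) : IP := ⟨p.u, ⟨(p.pc P).ψ, (p.ok hP).ch⟩, p.z, 0, p.t⟩

lemma ip_pc {P : DPar} (hP : P.OK) (p : Pq) : (ip hP p).pc = p.pc P := by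
  unfold TPOk571.IP.pc ip Pq.pc
  simp

/-- the piece of a child index -/
def chd (p : Pq) (j : IP) : Pq := ⟨p.kd, j.u, p.d, p.d0, j.z, j.t0 + j.s⟩

lemma chd_pc {P : DPar} (hP : P.OK) {p : Pq} {j : IP} (hψ : j.ψ = (ip hP p).ψ) :
    (chd p j).pc P = j.pc := by
  have h1 : j.ψ.1 = (p.pc P).ψ := by rw [hψ]; rfl
  have h2 : ((chd p j).pc P).ψ = j.ψ.1 := by rw [h1]; rfl
  unfold TPOk571.IP.pc
  rw [← h2]
  rfl

lemma tl_ofFn {r : ℕ} (s : Fin r → Pq) : tl Dq (List.ofFn s) = ∑ i, (s i).z := by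
  unfold XHB411.tl
  rw [List.map_ofFn, List.sum_ofFn]
  rfl

lemma alL_ofFn (h : ℝ → ℝ) (P : DPar) {r : ℕ} (s : Fin r → Pq) :
    alL h ((List.ofFn s).map (Pq.pc P)) = al h (fun i => (s i).pc P) := by
  rw [HP842.al_eq, List.map_ofFn]
  rfl

lemma CS_al {h : ℝ → ℝ} (hh : Bump h) {P : DPar} (hP : P.OK) {r : ℕ} (s : Fin r → Pq) (k : Eis) :
    CS (al h (fun i => (s i).pc P)) k = ∏ i, CS (pc h ((s i).pc P)) k := by
  rw [← alL_ofFn, CS_alL hh (XHB411.ok_map hP _), List.map_map, List.map_ofFn, List.prod_ofFn]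
  rfl

lemma RFp_ofFn {h : ℝ → ℝ} {P : DPar} {r : ℕ} (s : Fin r → Pq) {L : ℝ}
    (hL : 0 < L) : RFp P h (Real.log L) (List.ofFn s) =
      ∑ k ∈ bl L, ∏ i, ‖CS (pc h ((s i).pc P)) k‖ ^ 2 := by
  classical
  unfold RFp RQ
  rw [Real.exp_log hL]
  have e1 : (bl L).filter (fun k => k ≠ 0) = bl L := by
    rw [Finset.filter_eq_self]
    intro k hk
    exact ((mem_bl hL.le).1 hk).1
  refine Finset.sum_congr (by rw [← e1]; congr) fun k _ => ?_
  rw [List.map_map, List.map_ofFn, List.prod_ofFn]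
  rfl

lemma one_add_mul {t s W : ℝ} (hW : 1 + |s| ≤ W) : 1 + |t + s| ≤ W * (1 + |t|) := by
  have h1 := abs_add_le t s
  have h2 := abs_nonneg t
  have h3 := abs_nonneg s
  nlinarith

/-- **(P') for a family of pieces** -/
theorem locG {h : ℝ → ℝ} {c : ℝ} (hpu : PU h c) {μ : ℝ} (hμ : 0 ≤ μ) (r : ℕ) {ε : ℝ}
    (hε : 0 < ε) :
    ∃ C : ℝ, 1 ≤ C ∧ ∀ C' : ℝ, C ≤ C' → ∀ (P : DPar), P.OK → ∀ s : Fin r → Pq,
      (∀ i, 0 ≤ (s i).z) → ∀ X0 L a : ℝ, 1 ≤ X0 → 1 ≤ L → L ≤ X0 → 0 ≤ a →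
      Real.exp (tl Dq (List.ofFn s)) ≤ X0 →
      (∀ (s' : Fin r → Pq) (W : ℝ), 1 ≤ W → (∀ i, Rl C' W (s' i) (s i)) →
        RFp P h (Real.log (C' * X0 ^ ε * Real.exp (tl Dq (List.ofFn s)) ^ 2 / L))
          (List.ofFn s') ≤
          a / L * Real.exp (tl Dq (List.ofFn s) + tl Dq (List.ofFn s')) * W ^ (2 * μ)) →
      Sp P h (Real.log L) (List.ofFn s) ≤
        C' * X0 ^ ε * (L + a) * Real.exp (tl Dq (List.ofFn s)) := by
  classical
  obtain ⟨R, hR0, hR⟩ := exists_R (cs_cx hpu.cs)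
  obtain ⟨T, C1, hC1, hT, hrep⟩ := exists_rep hpu hR
  have hΦ := sd_ok hpu hR0 hR hμ r
  set Rt : ℝ := r * (2 * R + 3) with hRt
  have hRt0 : 0 ≤ Rt := by positivity
  set ε' : ℝ := ε / 3 with hε'
  have hε'0 : 0 < ε' := by positivity
  obtain ⟨C2, hC2, hG⟩ := G_rule hΦ hε'0
  obtain ⟨C3, hC3, hS⟩ := sq_nat_pc r hR0 hε'0
  set Kr : ℝ := (C1 ^ 2) ^ r * Real.exp (r * (R + C1)) with hKr
  have hKr1 : 1 ≤ Kr := by
    refine one_le_mul_of_one_le_of_one_le (one_le_pow₀ (one_le_pow₀ hC1)) ?_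
    exact Real.one_le_exp (by positivity)
  set Kc : ℝ := C3 * C2 ^ ε' * Real.exp Rt ^ ε' * Kr with hKc
  have hE1 : 1 ≤ Real.exp Rt := Real.one_le_exp hRt0
  have hKc1 : 1 ≤ Kc := by
    refine one_le_mul_of_one_le_of_one_le (one_le_mul_of_one_le_of_one_le
      (one_le_mul_of_one_le_of_one_le hC3 (Real.one_le_rpow hC2 hε'0.le))
      (Real.one_le_rpow hE1 hε'0.le)) hKr1
  refine ⟨C2 * Kc + Rt + C1 + Real.exp Rt, by nlinarith, ?_⟩
  intro C' hC' P hP s hs X0 L a hX0 hL hLX ha hlen hyp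
  have hC'2 : C2 * Kc ≤ C' := by linarith [hRt0, hC1]
  have hC'1 : C2 ≤ C' := by nlinarith
  have hC'3 : Rt + C1 ≤ C' := by nlinarith
  have hC'4 : Real.exp Rt ≤ C' := by nlinarith
  have hC'0 : 1 ≤ C' := by linarith
  have hL0 : 0 < L := by linarith
  have hX00 : 0 < X0 := by linarith
  set S : ℝ := tl Dq (List.ofFn s) with hSdef
  have hSs : S = ∑ i, (s i).z := tl_ofFn s
  have hS0 : 0 ≤ S := by rw [hSs]; exact Finset.sum_nonneg fun i _ => hs i
  have hzS : ∀ i, (s i).z ≤ S := by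
    intro i
    rw [hSs]
    exact Finset.single_le_sum (f := fun i => (s i).z) (fun i _ => hs i) (Finset.mem_univ i)
  set j : Fin r → IP := fun i => ip hP (s i) with hj
  have hlenj : (SD h μ r).len j = S := by rw [SD_len, hSs]; rfl
  have hhtj : (SD h μ r).ht j = 1 := by
    rw [SD_ht]
    refine Finset.prod_eq_one fun i _ => ?_
    show (1 + |(0 : ℝ)|) ^ μ = 1
    rw [abs_zero, add_zero, Real.one_rpow]
  have hwj : (SD h μ r).w j = al h (fun i => (s i).pc P) := by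
    rw [SD_w]
    congr 1
    funext i
    exact ip_pc hP (s i)
  have eSp : Sp P h (Real.log L) (List.ofFn s) = VG L (TP320.sq 1 ((SD h μ r).w j)) := by
    unfold Sp SK VG
    rw [Real.exp_log hL0, HP842.sq_eq_sqc (fun n => hΦ.prim j n), hwj, alL_ofFn]
    rfl
  rw [eSp]
  have hX1 : 1 ≤ X0 ^ ε' := Real.one_le_rpow hX0 hε'0.le
  set a0 : ℝ := Kc * (X0 ^ ε' * X0 ^ ε') * a with ha0
  have ha00 : 0 ≤ a0 := by positivity
  have key := hG X0 L a0 hX0 hL hLX ha00 j (by rw [hlenj]; exact hlen) 1 isPrim_one ?_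
  · refine key.trans ?_
    rw [hhtj, hlenj, one_pow, mul_one]
    have e3 : X0 ^ ε = X0 ^ ε' * (X0 ^ ε' * X0 ^ ε') := by
      rw [← Real.rpow_add hX00, ← Real.rpow_add hX00]
      congr 1
      rw [hε']; ring
    have hq : 1 ≤ X0 ^ ε' * X0 ^ ε' := one_le_mul_of_one_le_of_one_le hX1 hX1
    have h5 : L + a0 ≤ Kc * (X0 ^ ε' * X0 ^ ε') * (L + a) := by
      have : L ≤ Kc * (X0 ^ ε' * X0 ^ ε') * L :=
        le_mul_of_one_le_left hL0.le (one_le_mul_of_one_le_of_one_le hKc1 hq)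
      rw [ha0, mul_add]
      linarith
    have hLa : 0 ≤ L + a := by linarith
    calc C2 * X0 ^ ε' * (L + a0) * Real.exp S
        ≤ C2 * X0 ^ ε' * (Kc * (X0 ^ ε' * X0 ^ ε') * (L + a)) * Real.exp S := by gcongr
      _ = (C2 * Kc) * X0 ^ ε * (L + a) * Real.exp S := by rw [e3]; ring
      _ ≤ C' * X0 ^ ε * (L + a) * Real.exp S := by gcongr
  -- the children
  intro j' q' hgood hdom hlen' hq' _ hnq'
  have hgood' : ∀ i, 0 ≤ (j' i).z := hgood
  have hdom' : ∀ i, (j' i).z ≤ (s i).z + Rt ∧ (j' i).t0 = (s i).t ∧ (j' i).ψ = (ip hP (s i)).ψ ∧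
      relU (j' i).u (s i).u := hdom
  set Λ : ℝ := C' * X0 ^ ε * Real.exp S ^ 2 / L with hΛ
  have hΛ0 : 0 < Λ := by positivity
  have hΛ1 : C2 * X0 ^ ε' * Real.exp ((SD h μ r).len j) ^ 2 / L ≤ Λ := by
    rw [hlenj, hΛ]
    have : X0 ^ ε' ≤ X0 ^ ε := Real.rpow_le_rpow_of_exponent_le hX0 (by rw [hε']; linarith)
    gcongr
  refine (VC_mono (by rw [hlenj]; positivity) hΛ1 _).trans ?_
  set W : ℝ := ∏ i, (1 + |(j' i).s|) with hW
  have hW1' : ∀ i, (1 : ℝ) ≤ 1 + |(j' i).s| := fun i => by linarith [abs_nonneg (j' i).s]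
  have hW1 : 1 ≤ W := by
    rw [hW]
    exact Finset.one_le_prod fun i _ => hW1' i
  have hWi : ∀ i, 1 + |(j' i).s| ≤ W := by
    intro i
    rw [hW, ← Finset.mul_prod_erase _ _ (Finset.mem_univ i)]
    refine le_mul_of_one_le_right (by linarith [hW1' i]) ?_
    exact Finset.one_le_prod fun i _ => hW1' i
  have hht' : (SD h μ r).ht j' ^ 2 = W ^ (2 * μ) := by
    rw [SD_ht, Real.finset_prod_rpow _ _ fun i _ => by linarith [hW1' i], ← hW,
      ← Real.rpow_natCast, ← Real.rpow_mul (by linarith)]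
    congr 1
    push_cast; ring
  rw [hht', hlenj]
  have hlenj' : (SD h μ r).len j' = ∑ i, (j' i).z := SD_len h μ r j'
  have eVC : VC Λ (TP320.sq q' ((SD h μ r).w j')) =
      ∑ k ∈ bl Λ, (1 : ℝ) * ‖CS (sqc q' (al h (fun i => (j' i).pc))) k‖ ^ 2 := by
    unfold VC
    rw [HP842.sq_eq_sqc (fun n => hΦ.prim j' n), SD_w]
    exact Finset.sum_congr rfl fun k _ => (one_mul _).symm
  rw [eVC]
  set B : ℝ := a / L * Real.exp S * W ^ (2 * μ) * Kr with hB
  have hW0 : 0 < W := by linarith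
  have hB0 : 0 ≤ B := by positivity
  have hq'0 : (0 : ℝ) < nm q' := by exact_mod_cast nm_pos.2 hq'.ne_zero
  have key2 := hS h hR (Fin r) (by simp) (fun i => (j' i).pc) (fun i => (j' i).pc_OK)
    (Real.exp Rt * X0) (one_le_mul_of_one_le_of_one_le hE1 hX0) (fun i => by
      show Real.exp (j' i).z ≤ _
      calc Real.exp (j' i).z ≤ Real.exp (S + Rt) :=
            Real.exp_le_exp.2 ((hdom' i).1.trans (by linarith [hzS i]))
        _ = Real.exp S * Real.exp Rt := Real.exp_add _ _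
        _ ≤ X0 * Real.exp Rt := by gcongr
        _ = _ := mul_comm _ _) q' hq'.ne_zero (bl Λ) (fun _ => 1) (fun _ _ => zero_le_one) B hB0 ?_
  · refine key2.trans ?_
    have e1 : ∏ i, ((j' i).pc).Y = Real.exp ((SD h μ r).len j') := by
      rw [hlenj', Real.exp_sum]
      rfl
    rw [e1]
    have h6 : (nm q' : ℝ) ^ ε' ≤ C2 ^ ε' * X0 ^ ε' := by
      rw [← Real.mul_rpow (by linarith) hX00.le]
      refine Real.rpow_le_rpow hq'0.le ?_ hε'0.le
      rw [nm_one] at hnq'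
      simpa using hnq'
    have h7 : (Real.exp Rt * X0) ^ ε' = Real.exp Rt ^ ε' * X0 ^ ε' :=
      Real.mul_rpow (Real.exp_pos _).le hX00.le
    rw [h7]
    have hp : 0 ≤ B * Real.exp ((SD h μ r).len j') := by positivity
    calc C3 * (nm q' : ℝ) ^ ε' * (Real.exp Rt ^ ε' * X0 ^ ε') *
          (B * Real.exp ((SD h μ r).len j'))
        ≤ C3 * (C2 ^ ε' * X0 ^ ε') * (Real.exp Rt ^ ε' * X0 ^ ε') *
          (B * Real.exp ((SD h μ r).len j')) := by gcongr
      _ = a0 / L * (Real.exp S * Real.exp ((SD h μ r).len j')) * W ^ (2 * μ) := by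
          rw [hB, ha0, hKc]; ring
      _ = _ := by rw [← Real.exp_add]
  -- the grandchildren
  intro b hb
  have hb0 : ∀ i, b i ≠ 0 := fun i => (hb i).ne_zero
  set g : Fin r → Pq := fun i => (chd (s i) (j' i)).sub (b i) (hb0 i) with hg
  have hgz : ∀ i, (g i).z = (j' i).z - Real.log (nm (b i)) := fun i => rfl
  have hlogb : ∀ i, 0 ≤ Real.log (nm (b i)) := fun i =>
    Real.log_nonneg (by exact_mod_cast nm_pos.2 (hb0 i))
  have hgpc : ∀ i, (g i).pc P = ((j' i).pc).sub (b i) := by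
    intro i
    rw [← chd_pc hP (hdom' i).2.2.1]
    exact HP842.Pq_sub_pc P _ (hb0 i)
  have e2 : ssub (fun i => (j' i).pc) b = fun i => (g i).pc P := by
    funext i
    rw [hgpc]
    rfl
  have hh : Bump h := ⟨R, hR⟩
  have hY : ∏ i, (ssub (fun i => (j' i).pc) b i).Y = ∏ i, Real.exp (g i).z := by
    rw [e2]
    rfl
  rw [hY, e2]
  have hr0 : 0 ≤ B * ∏ i, Real.exp (g i).z :=
    mul_nonneg hB0 (Finset.prod_nonneg fun i _ => (Real.exp_pos _).le)
  by_cases hneg : ∃ i, (g i).z < -R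
  · obtain ⟨i, hi⟩ := hneg
    rw [Finset.sum_eq_zero]
    · exact hr0
    intro k _
    rw [CS_al hh hP, Finset.prod_eq_zero (Finset.mem_univ i) (CS_eq_zero hR hP hi k)]
    simp
  push Not at hneg
  have hRl : ∀ i, Rl C' W (rep T (g i)) (s i) := by
    intro i
    have hd := hdom' i
    have hd1 : (1 : ℝ) ≤ nm (s i).d := by exact_mod_cast nm_pos.2 (s i).d0
    have hz1 : 1 ≤ Real.exp (s i).z := Real.one_le_exp (hs i)
    unfold rep
    by_cases hz : (g i).z < 0
    · rw [if_pos hz]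
      obtain ⟨t1, t2, t3, t4, t5, t6⟩ := hT (g i).kd
      refine ⟨t1, fun _ => t2, t3, ?_, ?_, ?_⟩
      · linarith [hs i]
      · rw [t5, abs_zero, add_zero]
        exact one_le_mul_of_one_le_of_one_le hW1 (by linarith [abs_nonneg (s i).t])
      · refine t6.trans ?_
        have : C1 ≤ C' := by linarith
        calc C1 ≤ C' * 1 * 1 := by linarith
          _ ≤ C' * nm (s i).d * Real.exp (s i).z := by gcongr
    · rw [if_neg hz]
      push Not at hz
      refine ⟨rfl, fun h1 => ?_, hz, ?_, ?_, ?_⟩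
      · have h2 : (j' i).u = .one := by
          rcases hd.2.2.2 with h3 | h3
          · rw [h3, h1]
          · rw [h1] at h3
            exact absurd h3.1 (by decide)
        show ((j' i).u).sub (b i) = .one
        rw [h2]
        unfold HP842.UT.sub
        rw [if_neg]
        rintro ⟨h3, _⟩
        exact absurd h3 (by decide)
      · rw [hgz]
        linarith [hd.1, hlogb i]
      · show 1 + |(j' i).t0 + (j' i).s| ≤ _
        rw [hd.2.1]
        exact one_add_mul (hWi i)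
      · have h3 : (nm (g i).d : ℝ) ≤ nm (s i).d * nm (b i) := by
          have hb1 : (1 : ℝ) ≤ nm (b i) := by exact_mod_cast nm_pos.2 (hb0 i)
          have e5 : (g i).d = if (j' i).u = .mu ∨ (j' i).u = .sq then (s i).d * b i else (s i).d := by
            rfl
          rw [e5]
          split_ifs
          · rw [nm_mul]; push_cast; exact le_rfl
          · exact le_mul_of_one_le_right (Nat.cast_nonneg _) hb1
        have h4 : (nm (b i) : ℝ) ≤ Real.exp Rt * Real.exp (s i).z := by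
          have hbp : (0 : ℝ) < nm (b i) := by exact_mod_cast nm_pos.2 (hb0 i)
          rw [← Real.exp_add, ← Real.exp_log hbp]
          refine Real.exp_le_exp.2 ?_
          rw [hgz] at hz
          linarith [hd.1]
        calc (nm (g i).d : ℝ) ≤ nm (s i).d * nm (b i) := h3
          _ ≤ nm (s i).d * (Real.exp Rt * Real.exp (s i).z) := by gcongr
          _ ≤ nm (s i).d * (C' * Real.exp (s i).z) := by gcongr
          _ = _ := by ring
  have h8 := hyp (fun i => rep T (g i)) W hW1 hRl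
  rw [RFp_ofFn _ hΛ0] at h8
  have h9 : tl Dq (List.ofFn fun i => rep T (g i)) ≤ (∑ i, (g i).z) + r * (R + C1) := by
    rw [tl_ofFn]
    calc ∑ i, (rep T (g i)).z ≤ ∑ i, ((g i).z + (R + C1)) := by
          refine Finset.sum_le_sum fun i _ => ?_
          unfold rep
          by_cases hz : (g i).z < 0
          · rw [if_pos hz]
            have := (hT (g i).kd).2.2.2.1
            linarith [hneg i]
          · rw [if_neg hz]
            linarith
      _ = _ := by
          rw [Finset.sum_add_distrib, Finset.sum_const, Finset.card_univ, Fintype.card_fin,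
            nsmul_eq_mul]
  calc ∑ k ∈ bl Λ, (1 : ℝ) * ‖CS (al h fun i => (g i).pc P) k‖ ^ 2
      ≤ ∑ k ∈ bl Λ, (C1 ^ 2) ^ r * ∏ i, ‖CS (pc h ((rep T (g i)).pc P)) k‖ ^ 2 := by
        refine Finset.sum_le_sum fun k _ => ?_
        rw [one_mul, CS_al hh hP, norm_prod, ← Finset.prod_pow]
        calc ∏ i, ‖CS (pc h ((g i).pc P)) k‖ ^ 2
            ≤ ∏ i, (C1 ^ 2 * ‖CS (pc h ((rep T (g i)).pc P)) k‖ ^ 2) := by
              refine Finset.prod_le_prod (fun i _ => by positivity) fun i _ => ?_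
              rw [← mul_pow]
              exact pow_le_pow_left₀ (norm_nonneg _) (hrep P hP (g i) k) 2
          _ = _ := by
              rw [Finset.prod_mul_distrib, Finset.prod_const, Finset.card_univ, Fintype.card_fin]
    _ = (C1 ^ 2) ^ r * ∑ k ∈ bl Λ, ∏ i, ‖CS (pc h ((rep T (g i)).pc P)) k‖ ^ 2 := by
        rw [Finset.mul_sum]
    _ ≤ (C1 ^ 2) ^ r * (a / L * Real.exp (S + tl Dq (List.ofFn fun i => rep T (g i))) *
          W ^ (2 * μ)) := by gcongr
    _ ≤ (C1 ^ 2) ^ r * (a / L * Real.exp (S + ((∑ i, (g i).z) + r * (R + C1))) *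
          W ^ (2 * μ)) := by gcongr
    _ = B * ∏ i, Real.exp (g i).z := by
        rw [hB, hKr, ← Real.exp_sum, Real.exp_add, Real.exp_add]
        ring

end Crest.Agent.R017.XRG106
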