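import Crest.Agent.R017.MoL1_106
import Crest.Agent.R017.XRG2_106
import Crest.Agent.R017.OpT_320

/-!
# Row 17, E2: list form of the error functionals, part 2 (helper106): natural children

* `nat_kid` : second moments of the squarefree part of a child of the family `SD`, by natural lists
-/

set_option autoImplicit false
set_option maxHeartbeats 400000

noncomputable section

open Complex Finset
open scoped ComplexConjugate

namespace Crest.Agent.R017.MoL106

open Crest.Agent.R012 Crest.Agent.R012.Eis Crest.Agent.R012.LS2 Crest.Agent.R012.Gauss880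
open Crest.Agent.R012.Div277 Crest.Agent.R012.Weight600
open Crest.Agent.R017.CM106 Crest.Agent.R017.FE47 Crest.Agent.R017.End699
open Crest.Agent.R017.B770
open Crest.Agent.R017.Prov71
open Crest.Agent.R017.HP842 (UT Pc pc KS sqc Kg uv alL al ssub norm_uv_le pc_support sq_nat_pc)
open Crest.Agent.R017.HSep813 (gw norm_gw_le)
open Crest.Agent.R017.TPOk571 (IP FP SD SD_w SD_len SD_ht sd_ok AC relU)
open Crest.Agent.R017.TP320 (VC VG VC_mono VC_nonneg Fam)
open Crest.Agent.R017.XHB411 (tl)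
open Crest.Agent.R017.XRG106

/-- the index `j` comes from the piece `p` -/
structure FromP {P : DPar} (hP : P.OK) (j : IP) (p : Pq) : Prop where
  ψ : j.ψ = (ip hP p).ψ
  t0 : j.t0 = p.t
  s : j.s = 0
  one : p.u = .one → j.u = .one
  z : j.z ≤ p.z

lemma ht_one {h : ℝ → ℝ} {μ : ℝ} {r : ℕ} {P : DPar} {hP : P.OK} {j : Fin r → IP}
    {s : Fin r → Pq} (hj : ∀ i, FromP hP (j i) (s i)) : (SD h μ r).ht j = 1 := by
  rw [SD_ht]
  refine Finset.prod_eq_one fun i _ => ?_
  rw [(hj i).s, abs_zero, add_zero, Real.one_rpow]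

lemma RQ_ofFn {h : ℝ → ℝ} {P : DPar} {r : ℕ} (Q : Eis → Prop) (s : Fin r → Pq) {L : ℝ}
    (hL : 0 < L) : RQ Q h (Real.log L) ((List.ofFn s).map (Pq.pc P)) =
      ∑ k ∈ (by classical exact (bl L).filter Q), ∏ i, ‖CS (pc h ((s i).pc P)) k‖ ^ 2 := by
  classical
  unfold RQ
  rw [Real.exp_log hL]
  refine Finset.sum_congr (by congr) fun k _ => ?_
  rw [List.map_map, List.map_ofFn, List.prod_ofFn]
  rfl

/-- **natural children** -/
theorem nat_kid {h : ℝ → ℝ} {c : ℝ} (hpu : PU h c) {R : ℝ} (hR0 : 0 ≤ R)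
    (hR : ∀ u, cx h u ≠ 0 → |u| ≤ R) {μ : ℝ} (hμ : 0 ≤ μ) (r : ℕ) {ε : ℝ} (hε : 0 < ε) :
    ∃ C : ℝ, 1 ≤ C ∧ ∀ (P : DPar) (hP : P.OK) (s : Fin r → Pq), (∀ i, 0 ≤ (s i).z) →
      ∀ j : Fin r → IP, (∀ i, FromP hP (j i) (s i)) → ∀ j' : Fin r → IP,
      (SD h μ r).good j' → (SD h μ r).dom (r * (2 * R + 3)) j' j →
      ∀ q' : Eis, IsPrim q' → ∀ X0 : ℝ, 1 ≤ X0 → (nm q' : ℝ) ≤ X0 →
      (∀ i, Real.exp (s i).z ≤ X0) → ∀ (Kf : Finset Eis) (Bd : ℝ), 0 ≤ Bd →
      (∀ (s' : Fin r → Pq) (W : ℝ), 1 ≤ W → (∀ i, Rl C W (s' i) (s i)) →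
        ∑ i, (s' i).z ≤ (SD h μ r).len j' + C →
        ∑ k ∈ Kf, ∏ i, ‖CS (pc h ((s' i).pc P)) k‖ ^ 2 ≤
          Bd * Real.exp (∑ i, (s' i).z - (SD h μ r).len j') * W ^ (2 * μ)) →
      ∑ k ∈ Kf, ‖CS (TP320.sq q' ((SD h μ r).w j')) k‖ ^ 2 ≤
        C * X0 ^ ε * Bd * (SD h μ r).ht j' ^ 2 := by
  classical
  obtain ⟨T, C1, hC1, hT, hrep⟩ := exists_rep hpu hR
  have hΦ := sd_ok hpu hR0 hR hμ r
  set Rt : ℝ := r * (2 * R + 3) with hRt
  have hRt0 : 0 ≤ Rt := by positivity
  set ε' : ℝ := ε / 2 with hε'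
  have hε'0 : 0 < ε' := by positivity
  obtain ⟨C3, hC3, hS⟩ := sq_nat_pc r hR0 hε'0
  set Kr : ℝ := (C1 ^ 2) ^ r * Real.exp (r * (R + C1)) with hKr
  have hKr1 : 1 ≤ Kr := by
    refine one_le_mul_of_one_le_of_one_le (one_le_pow₀ (one_le_pow₀ hC1)) ?_
    exact Real.one_le_exp (by positivity)
  have hE1 : 1 ≤ Real.exp Rt := Real.one_le_exp hRt0
  set Kc : ℝ := C3 * Real.exp Rt ^ ε' * Kr with hKc
  have hKc1 : 1 ≤ Kc := one_le_mul_of_one_le_of_one_le
    (one_le_mul_of_one_le_of_one_le hC3 (Real.one_le_rpow hE1 hε'0.le)) hKr1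
  have hrR : 0 ≤ (r : ℝ) * (R + C1) := by positivity
  refine ⟨Kc + Rt + C1 + Real.exp Rt + r * (R + C1), by linarith, ?_⟩
  set C' : ℝ := Kc + Rt + C1 + Real.exp Rt + r * (R + C1) with hC'
  have hC'1 : Kc ≤ C' := by linarith
  have hC'3 : Rt + C1 ≤ C' := by linarith
  have hC'4 : Real.exp Rt ≤ C' := by linarith
  have hC'5 : r * (R + C1) ≤ C' := by linarith
  have hC'0 : 1 ≤ C' := by linarith
  intro P hP s hs j hj j' hgood hdom q' hq' X0 hX0 hqX hsX Kf Bd hBd hyp
  have hX00 : 0 < X0 := by linarith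
  have hgood' : ∀ i, 0 ≤ (j' i).z := hgood
  have hdom' : ∀ i, (j' i).z ≤ (j i).z + Rt ∧ (j' i).t0 = (j i).t0 ∧ (j' i).ψ = (j i).ψ ∧
      relU (j' i).u (j i).u := hdom
  have hz' : ∀ i, (j' i).z ≤ (s i).z + Rt := fun i => by
    have := (hdom' i).1
    have := (hj i).z
    linarith
  set W : ℝ := ∏ i, (1 + |(j' i).s|) with hW
  have hW1' : ∀ i, (1 : ℝ) ≤ 1 + |(j' i).s| := fun i => by linarith [abs_nonneg (j' i).s]
  have hW1 : 1 ≤ W := by
    rw [hW]
    exact Finset.one_le_prod fun i _ => hW1' i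
  have hWi : ∀ i, 1 + |(j' i).s| ≤ W := by
    intro i
    rw [hW, ← Finset.mul_prod_erase _ _ (Finset.mem_univ i)]
    refine le_mul_of_one_le_right (by linarith [hW1' i]) ?_
    exact Finset.one_le_prod fun i _ => hW1' i
  have hht' : (SD h μ r).ht j' ^ 2 = W ^ (2 * μ) := by
    rw [SD_ht, Real.finset_prod_rpow _ _ fun i _ => by linarith [hW1' i], ← hW,
      ← Real.rpow_natCast, ← Real.rpow_mul (by linarith)]
    congr 1
    push_cast; ring
  rw [hht']
  have hlenj' : (SD h μ r).len j' = ∑ i, (j' i).z := SD_len h μ r j'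
  have eVC : ∑ k ∈ Kf, ‖CS (TP320.sq q' ((SD h μ r).w j')) k‖ ^ 2 =
      ∑ k ∈ Kf, (1 : ℝ) * ‖CS (sqc q' (al h (fun i => (j' i).pc))) k‖ ^ 2 := by
    rw [HP842.sq_eq_sqc (fun n => hΦ.prim j' n), SD_w]
    exact Finset.sum_congr rfl fun k _ => (one_mul _).symm
  rw [eVC]
  set B : ℝ := Bd * Real.exp (-(SD h μ r).len j') * W ^ (2 * μ) * Kr with hB
  have hW0 : 0 < W := by linarith
  have hB0 : 0 ≤ B := by positivity
  have hq'0 : (0 : ℝ) < nm q' := by exact_mod_cast nm_pos.2 hq'.ne_zero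
  have key2 := hS h hR (Fin r) (by simp) (fun i => (j' i).pc) (fun i => (j' i).pc_OK)
    (Real.exp Rt * X0) (one_le_mul_of_one_le_of_one_le hE1 hX0) (fun i => by
      show Real.exp (j' i).z ≤ _
      calc Real.exp (j' i).z ≤ Real.exp ((s i).z + Rt) := Real.exp_le_exp.2 (hz' i)
        _ = Real.exp (s i).z * Real.exp Rt := Real.exp_add _ _
        _ ≤ X0 * Real.exp Rt := mul_le_mul_of_nonneg_right (hsX i) (Real.exp_pos _).le
        _ = _ := mul_comm _ _) q' hq'.ne_zero Kf (fun _ => 1) (fun _ _ => zero_le_one) B hB0 ?_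
  · refine key2.trans ?_
    have e1 : ∏ i, ((j' i).pc).Y = Real.exp ((SD h μ r).len j') := by
      rw [hlenj', Real.exp_sum]
      rfl
    rw [e1]
    have h6 : (nm q' : ℝ) ^ ε' ≤ X0 ^ ε' := Real.rpow_le_rpow hq'0.le hqX hε'0.le
    have h7 : (Real.exp Rt * X0) ^ ε' = Real.exp Rt ^ ε' * X0 ^ ε' :=
      Real.mul_rpow (Real.exp_pos _).le hX00.le
    rw [h7]
    have hp : 0 ≤ B * Real.exp ((SD h μ r).len j') := by positivity
    have e3 : X0 ^ ε = X0 ^ ε' * X0 ^ ε' := by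
      rw [← Real.rpow_add hX00]
      congr 1
      rw [hε']; ring
    have e4 : Real.exp (-(SD h μ r).len j') * Real.exp ((SD h μ r).len j') = 1 := by
      rw [← Real.exp_add, neg_add_cancel, Real.exp_zero]
    calc C3 * (nm q' : ℝ) ^ ε' * (Real.exp Rt ^ ε' * X0 ^ ε') *
          (B * Real.exp ((SD h μ r).len j'))
        ≤ C3 * X0 ^ ε' * (Real.exp Rt ^ ε' * X0 ^ ε') *
          (B * Real.exp ((SD h μ r).len j')) := by gcongr
      _ = Kc * X0 ^ ε * Bd * W ^ (2 * μ) *
          (Real.exp (-(SD h μ r).len j') * Real.exp ((SD h μ r).len j')) := by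
          rw [hB, e3, hKc]; ring
      _ = Kc * X0 ^ ε * Bd * W ^ (2 * μ) := by rw [e4, mul_one]
      _ ≤ C' * X0 ^ ε * Bd * W ^ (2 * μ) := by gcongr
  -- the grandchildren
  intro b hb
  have hb0 : ∀ i, b i ≠ 0 := fun i => (hb i).ne_zero
  set g : Fin r → Pq := fun i => (chd (s i) (j' i)).sub (b i) (hb0 i) with hg
  have hgz : ∀ i, (g i).z = (j' i).z - Real.log (nm (b i)) := fun i => rfl
  have hlogb : ∀ i, 0 ≤ Real.log (nm (b i)) := fun i =>
    Real.log_nonneg (by exact_mod_cast nm_pos.2 (hb0 i))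
  have hgpc : ∀ i, (g i).pc P = ((j' i).pc).sub (b i) := by
    intro i
    rw [← chd_pc hP ((hdom' i).2.2.1.trans (hj i).ψ)]
    exact HP842.Pq_sub_pc P _ (hb0 i)
  have e2 : ssub (fun i => (j' i).pc) b = fun i => (g i).pc P := by
    funext i
    rw [hgpc]
    rfl
  have hh : Bump h := ⟨R, hR⟩
  have hY : ∏ i, (ssub (fun i => (j' i).pc) b i).Y = ∏ i, Real.exp (g i).z := by
    rw [e2]
    rfl
  rw [hY, e2]
  have hr0 : 0 ≤ B * ∏ i, Real.exp (g i).z :=
    mul_nonneg hB0 (Finset.prod_nonneg fun i _ => (Real.exp_pos _).le)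
  by_cases hneg : ∃ i, (g i).z < -R
  · obtain ⟨i, hi⟩ := hneg
    rw [Finset.sum_eq_zero]
    · exact hr0
    intro k _
    rw [CS_al hh hP, Finset.prod_eq_zero (Finset.mem_univ i) (CS_eq_zero hR hP hi k)]
    simp
  push Not at hneg
  have hRl : ∀ i, Rl C' W (rep T (g i)) (s i) := by
    intro i
    have hd := hdom' i
    have hd1 : (1 : ℝ) ≤ nm (s i).d := by exact_mod_cast nm_pos.2 (s i).d0
    have hz1 : 1 ≤ Real.exp (s i).z := Real.one_le_exp (hs i)
    unfold rep
    by_cases hz : (g i).z < 0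
    · rw [if_pos hz]
      obtain ⟨t1, t2, t3, t4, t5, t6⟩ := hT (g i).kd
      refine ⟨t1, fun _ => t2, t3, ?_, ?_, ?_⟩
      · linarith [hs i]
      · rw [t5, abs_zero, add_zero]
        exact one_le_mul_of_one_le_of_one_le hW1 (by linarith [abs_nonneg (s i).t])
      · refine t6.trans ?_
        have : C1 ≤ C' := by linarith
        calc C1 ≤ C' * 1 * 1 := by linarith
          _ ≤ C' * nm (s i).d * Real.exp (s i).z := by gcongr
    · rw [if_neg hz]
      push Not at hz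
      refine ⟨rfl, fun h1 => ?_, hz, ?_, ?_, ?_⟩
      · have h2 : (j' i).u = .one := by
          have h4 := (hj i).one h1
          rcases hd.2.2.2 with h3 | h3
          · rw [h3, h4]
          · rw [h4] at h3
            exact absurd h3.1 (by decide)
        show ((j' i).u).sub (b i) = .one
        rw [h2]
        unfold HP842.UT.sub
        rw [if_neg]
        rintro ⟨h3, _⟩
        exact absurd h3 (by decide)
      · rw [hgz]
        linarith [hz' i, hlogb i]
      · show 1 + |(j' i).t0 + (j' i).s| ≤ _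
        rw [hd.2.1, (hj i).t0]
        exact one_add_mul (hWi i)
      · have h3 : (nm (g i).d : ℝ) ≤ nm (s i).d * nm (b i) := by
          have hb1 : (1 : ℝ) ≤ nm (b i) := by exact_mod_cast nm_pos.2 (hb0 i)
          have e5 : (g i).d = if (j' i).u = .mu ∨ (j' i).u = .sq then (s i).d * b i else (s i).d := by
            rfl
          rw [e5]
          split_ifs
          · rw [nm_mul]; push_cast; exact le_rfl
          · exact le_mul_of_one_le_right (Nat.cast_nonneg _) hb1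
        have h4 : (nm (b i) : ℝ) ≤ Real.exp Rt * Real.exp (s i).z := by
          have hbp : (0 : ℝ) < nm (b i) := by exact_mod_cast nm_pos.2 (hb0 i)
          rw [← Real.exp_add, ← Real.exp_log hbp]
          refine Real.exp_le_exp.2 ?_
          rw [hgz] at hz
          linarith [hz' i]
        calc (nm (g i).d : ℝ) ≤ nm (s i).d * nm (b i) := h3
          _ ≤ nm (s i).d * (Real.exp Rt * Real.exp (s i).z) := by gcongr
          _ ≤ nm (s i).d * (C' * Real.exp (s i).z) := by gcongr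
          _ = _ := by ring
  have h9 : ∑ i, (rep T (g i)).z ≤ (∑ i, (g i).z) + r * (R + C1) := by
    calc ∑ i, (rep T (g i)).z ≤ ∑ i, ((g i).z + (R + C1)) := by
          refine Finset.sum_le_sum fun i _ => ?_
          unfold rep
          by_cases hz : (g i).z < 0
          · rw [if_pos hz]
            have := (hT (g i).kd).2.2.2.1
            linarith [hneg i]
          · rw [if_neg hz]
            linarith
      _ = _ := by
          rw [Finset.sum_add_distrib, Finset.sum_const, Finset.card_univ, Fintype.card_fin,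
            nsmul_eq_mul]
  have h10 : ∑ i, (g i).z ≤ (SD h μ r).len j' := by
    rw [hlenj']
    exact Finset.sum_le_sum fun i _ => by rw [hgz]; linarith [hlogb i]
  have h8 := hyp (fun i => rep T (g i)) W hW1 hRl (by linarith)
  calc ∑ k ∈ Kf, (1 : ℝ) * ‖CS (al h fun i => (g i).pc P) k‖ ^ 2
      ≤ ∑ k ∈ Kf, (C1 ^ 2) ^ r * ∏ i, ‖CS (pc h ((rep T (g i)).pc P)) k‖ ^ 2 := by
        refine Finset.sum_le_sum fun k _ => ?_
        rw [one_mul, CS_al hh hP, norm_prod, ← Finset.prod_pow]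
        calc ∏ i, ‖CS (pc h ((g i).pc P)) k‖ ^ 2
            ≤ ∏ i, (C1 ^ 2 * ‖CS (pc h ((rep T (g i)).pc P)) k‖ ^ 2) := by
              refine Finset.prod_le_prod (fun i _ => by positivity) fun i _ => ?_
              rw [← mul_pow]
              exact pow_le_pow_left₀ (norm_nonneg _) (hrep P hP (g i) k) 2
          _ = _ := by
              rw [Finset.prod_mul_distrib, Finset.prod_const, Finset.card_univ, Fintype.card_fin]
    _ = (C1 ^ 2) ^ r * ∑ k ∈ Kf, ∏ i, ‖CS (pc h ((rep T (g i)).pc P)) k‖ ^ 2 := by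
        rw [Finset.mul_sum]
    _ ≤ (C1 ^ 2) ^ r * (Bd * Real.exp (∑ i, (rep T (g i)).z - (SD h μ r).len j') *
          W ^ (2 * μ)) := by gcongr
    _ ≤ (C1 ^ 2) ^ r * (Bd * Real.exp (((∑ i, (g i).z) + r * (R + C1)) -
          (SD h μ r).len j') * W ^ (2 * μ)) := by gcongr
    _ = B * ∏ i, Real.exp (g i).z := by
        rw [hB, hKr, ← Real.exp_sum]
        rw [show (∑ i, (g i).z) + r * (R + C1) - (SD h μ r).len j' =
          (∑ i, (g i).z) + (r * (R + C1) + -(SD h μ r).len j') by ring, Real.exp_add,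
          Real.exp_add]
        ring

end Crest.Agent.R017.MoL106
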