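import Crest.Agent.R017.NtC2_320

/-!
# Row 17, RG (helper320): quadratic functionals of the flagged lists

* `QF`     : functionals with the Cauchy property for linear combinations
* `nt_qf`  : `Φ (flagged list) ≤ (#tuples)^2 sup_x Φ (dil ∏x (natural list shifted by x))`
* `MoF_nt` : the moment functional of E2
-/

set_option autoImplicit false
set_option linter.unusedSectionVars false
set_option linter.unusedVariables false

noncomputable section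

open Complex
open scoped ComplexConjugate

namespace Crest.Agent.R017.NtC320

open Crest.Agent.R012 Crest.Agent.R012.Eis Crest.Agent.R012.Gauss880
open Crest.Agent.R012.Mob705 hiding pb mem_pb
open Crest.Agent.R012.LS2 (S mem_S)
open Crest.Agent.R012.Weight600 (osc norm_osc osc_add_right)
open Crest.Agent.R012.Div277 (tau dvs mem_dvs isPrim_of_mem_dvs dvd_of_mem_dvs tau_le_rpow)
open Crest.Agent.R017.CM106 Crest.Agent.R017.HP842 Crest.Agent.R017.FE47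
open Crest.Agent.R017.Rough381 Crest.Agent.R017.Leg381
open Crest.Agent.R017.StA828 (gp gp_spec)
open Crest.Agent.R017.H1401 (pb mem_pb)
open Crest.Agent.R017.E2440 (cT MoF MoF_nonneg)

/-- the Cauchy property -/
def QF (Φ : (Eis → ℂ) → ℝ) : Prop :=
  ∀ (κ : Type) (T : Finset κ) (c : κ → ℂ) (β : κ → Eis → ℂ), (∀ x ∈ T, ‖c x‖ ≤ 1) →
    (∀ x ∈ T, FS (β x)) → Φ (fun n => ∑ x ∈ T, c x * β x n) ≤ T.card * ∑ x ∈ T, Φ (β x)

/-- linear on finitely supported sequences -/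
def Lin (Λ : (Eis → ℂ) → ℂ) : Prop :=
  ∀ (κ : Type) (T : Finset κ) (c : κ → ℂ) (β : κ → Eis → ℂ), (∀ x ∈ T, FS (β x)) →
    Λ (fun n => ∑ x ∈ T, c x * β x n) = ∑ x ∈ T, c x * Λ (β x)

/-- weighted squares of linear functionals -/
theorem QF_of_lin {κ' : Type*} (K : Finset κ') {W : κ' → ℝ} (hW : ∀ k ∈ K, 0 ≤ W k)
    {Λ : κ' → (Eis → ℂ) → ℂ} (hΛ : ∀ k ∈ K, Lin (Λ k)) :
    QF (fun α => ∑ k ∈ K, W k * ‖Λ k α‖ ^ 2) := by
  intro κ T c β hc hβ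
  show ∑ k ∈ K, W k * ‖Λ k (fun n => ∑ x ∈ T, c x * β x n)‖ ^ 2 ≤
    T.card * ∑ x ∈ T, ∑ k ∈ K, W k * ‖Λ k (β x)‖ ^ 2
  rw [Finset.sum_comm (s := T), Finset.mul_sum]
  refine Finset.sum_le_sum fun k hk => ?_
  rw [← Finset.mul_sum, mul_left_comm]
  refine mul_le_mul_of_nonneg_left ?_ (hW k hk)
  rw [hΛ k hk κ T c β hβ]
  exact sq_sum_le T c hc _

theorem QF_MoF {E B τ : Eis} (hB : B ≠ 0) {X : ℝ} (hX : 0 ≤ X) (t Z : ℝ) :
    QF (fun α => MoF α E B τ X t Z) := by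
  intro κ T c β hc hβ
  exact MoF_sum T c hc (fun x hx => (hβ x hx).fin) hB hX t Z

theorem QF_sum {κ' : Type*} (K : Finset κ') {W : κ' → ℝ} (hW : ∀ k ∈ K, 0 ≤ W k)
    {Φ : κ' → (Eis → ℂ) → ℝ} (hΦ : ∀ k ∈ K, QF (Φ k)) :
    QF (fun α => ∑ k ∈ K, W k * Φ k α) := by
  intro κ T c β hc hβ
  show ∑ k ∈ K, W k * Φ k (fun n => ∑ x ∈ T, c x * β x n) ≤
    T.card * ∑ x ∈ T, ∑ k ∈ K, W k * Φ k (β x)
  rw [Finset.sum_comm (s := T), Finset.mul_sum]
  refine Finset.sum_le_sum fun k hk => ?_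
  rw [← Finset.mul_sum, mul_left_comm]
  exact mul_le_mul_of_nonneg_left (hΦ k hk κ T c β hc hβ) (hW k hk)

/-- the tuples of small norm -/
def Tn (ι : Type) [Fintype ι] [DecidableEq ι] (D0 : ℝ) : Finset (ι → Eis) :=
  Fintype.piFinset (fun _ => primBall ⌊D0⌋₊)

variable {ι : Type} [Fintype ι] [DecidableEq ι]

lemma mem_Tn {D0 : ℝ} (hD : 0 ≤ D0) {x : ι → Eis} :
    x ∈ Tn ι D0 ↔ ∀ i, IsPrim (x i) ∧ (nm (x i) : ℝ) ≤ D0 := by
  unfold Tn
  rw [Fintype.mem_piFinset]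
  refine forall_congr' fun i => ?_
  rw [mem_primBall, Nat.le_floor_iff hD]
  exact and_comm

lemma card_Tn {D0 : ℝ} (hD : 0 ≤ D0) :
    ((Tn ι D0).card : ℝ) ≤ (100 * D0) ^ Fintype.card ι := by
  unfold Tn
  rw [Fintype.card_piFinset, Finset.prod_const, Finset.card_univ, Nat.cast_pow]
  refine pow_le_pow_left₀ (Nat.cast_nonneg _) ?_ _
  refine (Lat277.card_primBall_le _).trans ?_
  have := Nat.floor_le hD
  linarith

lemma prim_prod {x : ι → Eis} (hx : ∀ i, IsPrim (x i)) : IsPrim (∏ i, x i) := isPrim_prod hx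

lemma nm_prod_le {D0 : ℝ} (hD : 0 ≤ D0) {x : ι → Eis} (hx : x ∈ Tn ι D0) :
    (nm (∏ i, x i) : ℝ) ≤ D0 ^ Fintype.card ι := by
  have h1 : nm (∏ i, x i) = ∏ i, nm (x i) := by
    have := map_prod (⟨⟨nm, nm_one⟩, nm_mul⟩ : Eis →* ℕ) x Finset.univ
    exact this
  rw [h1, Nat.cast_prod]
  rw [mem_Tn hD] at hx
  calc ∏ i, (nm (x i) : ℝ) ≤ ∏ _i : ι, D0 :=
        Finset.prod_le_prod (fun i _ => Nat.cast_nonneg _) fun i _ => (hx i).2
    _ = _ := by rw [Finset.prod_const, Finset.card_univ]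

/-- **the opening of a flagged list in a quadratic functional** -/
theorem nt_qf {Φ : (Eis → ℂ) → ℝ} (hΦ : QF Φ) {h : ℝ → ℝ} {R : ℝ}
    (hR : ∀ u, cx h u ≠ 0 → |u| ≤ R) {s : ι → Pc} (hs : ∀ i, (s i).OK) {z D0 : ℝ}
    (hD : 1 ≤ D0) (f : ι → Bool) (q : Eis) {M : ℝ} (hM0 : 0 ≤ M)
    (hM : ∀ x ∈ Tn ι D0, Φ (dil (∏ i, x i) (sqc (q * ∏ i, x i) (al h (shS s x)))) ≤ M) :
    Φ (sqc q (alf z D0 h s f)) ≤ ((100 * D0) ^ Fintype.card ι) ^ 2 * M := by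
  classical
  obtain ⟨X, hX⟩ : ∃ X : ℕ, ∀ i, (s i).Y * Real.exp R ≤ X := by
    obtain ⟨X, hX⟩ := exists_nat_ge (∑ i, |(s i).Y * Real.exp R|)
    refine ⟨X, fun i => ?_⟩
    refine le_trans ?_ hX
    exact (le_abs_self _).trans
      (Finset.single_le_sum (f := fun i => |(s i).Y * Real.exp R|) (fun i _ => abs_nonneg _)
        (Finset.mem_univ i))
  set T := (smT ι X z).filter (fun x => ∀ i, (nm (x i) : ℝ) ≤ D0) with hT
  set c : (ι → Eis) → ℂ := fun x =>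
    Th q (∏ i, x i) * scS s x * (∏ i, cM z D0 (f i) (x i)) with hc
  have e1 : sqc q (alf z D0 h s f) = fun n => ∑ x ∈ T, c x *
      dil (∏ i, x i) (sqc (q * ∏ i, x i) (al h (shS s x))) n := by
    funext n
    rw [nt_open hR hs hX z D0 f q n]
    symm
    refine Finset.sum_subset (Finset.filter_subset _ _) fun x hx hx' => ?_
    have : ∃ i, cM z D0 (f i) (x i) = 0 := by
      by_contra hcon
      push Not at hcon
      apply hx'
      rw [hT, Finset.mem_filter]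
      exact ⟨hx, fun i => cM_le hD (hcon i)⟩
    obtain ⟨i, hi⟩ := this
    have h0 : c x = 0 := by
      show Th q (∏ i, x i) * scS s x * (∏ i, cM z D0 (f i) (x i)) = 0
      rw [Finset.prod_eq_zero (f := fun i => cM z D0 (f i) (x i)) (Finset.mem_univ i) hi,
        mul_zero]
    rw [h0, zero_mul]
  have hTp : ∀ x ∈ T, (∀ i, IsPrim (x i)) ∧ x ∈ Tn ι D0 := by
    intro x hx
    rw [hT, Finset.mem_filter, mem_smT] at hx
    refine ⟨fun i => (hx.1 i).1.2, ?_⟩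
    rw [mem_Tn (by linarith)]
    exact fun i => ⟨(hx.1 i).1.2, hx.2 i⟩
  rw [e1]
  have hcb : ∀ x ∈ T, ‖c x‖ ≤ 1 := by
    intro x hx
    rw [hc]
    show ‖Th q (∏ i, x i) * scS s x * (∏ i, cM z D0 (f i) (x i))‖ ≤ 1
    rw [norm_mul, norm_mul, norm_prod]
    have h1 : ‖Th q (∏ i, x i)‖ ≤ 1 := by
      unfold Th
      split_ifs <;> simp
    have h2 := norm_scS_le hs (hTp x hx).1
    have h3 : ∏ i, ‖cM z D0 (f i) (x i)‖ ≤ 1 :=
      Finset.prod_le_one (fun i _ => norm_nonneg _) fun i _ => norm_cM_le _ _ _ _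
    exact mul_le_one₀ (mul_le_one₀ h1 (norm_nonneg _) h2)
      (Finset.prod_nonneg fun i _ => norm_nonneg _) h3
  have hFS : ∀ x ∈ T, FS (dil (∏ i, x i) (sqc (q * ∏ i, x i) (al h (shS s x)))) := by
    intro x hx
    have hp := (hTp x hx).1
    refine FS_dil (prim_prod hp) ?_
    exact HP842.FS.sqc (FS_cv fun i => FS_pc hR (sh_OK (hs i) (hp i))) _
  have hcard : (T.card : ℝ) ≤ (100 * D0) ^ Fintype.card ι := by
    refine le_trans ?_ (card_Tn (ι := ι) (by linarith))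
    exact_mod_cast Finset.card_le_card fun x hx => (hTp x hx).2
  refine (hΦ _ T c _ hcb hFS).trans ?_
  calc (T.card : ℝ) * ∑ x ∈ T, Φ (dil (∏ i, x i) (sqc (q * ∏ i, x i) (al h (shS s x))))
      ≤ T.card * ∑ _x ∈ T, M := by
        gcongr with x hx
        exact hM x (hTp x hx).2
    _ = (T.card : ℝ) ^ 2 * M := by rw [Finset.sum_const, nsmul_eq_mul]; ring
    _ ≤ _ := by gcongr


lemma tau_le_nm {g : Eis} : (tau g : ℝ) ≤ 100 * nm g := by
  classical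
  unfold tau dvs
  refine le_trans ?_ (Lat277.card_primBall_le (nm g))
  exact_mod_cast Finset.card_le_card (Finset.filter_subset _ _)

/-- the loss -/
def lossN (k : ℕ) (D0 : ℝ) : ℝ := ((100 * D0) ^ k) ^ 2 * (100 ^ 2 * (D0 ^ k) ^ 4)

lemma lossN_nonneg (k : ℕ) {D0 : ℝ} (hD : 0 ≤ D0) : 0 ≤ lossN k D0 := by
  unfold lossN; positivity

lemma tau_nm_le {D0 : ℝ} (hD : 1 ≤ D0) {x : ι → Eis} (hx : x ∈ Tn ι D0) :
    (tau (∏ i, x i) : ℝ) ^ 2 * (nm (∏ i, x i) : ℝ) ^ 2 ≤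
      100 ^ 2 * (D0 ^ Fintype.card ι) ^ 4 := by
  have h1 := nm_prod_le (ι := ι) (by linarith) hx
  have h2 := tau_le_nm (g := ∏ i, x i)
  have h0 : (0 : ℝ) ≤ nm (∏ i, x i) := Nat.cast_nonneg _
  have h3 : (tau (∏ i, x i) : ℝ) ≤ 100 * D0 ^ Fintype.card ι := h2.trans (by linarith)
  calc (tau (∏ i, x i) : ℝ) ^ 2 * (nm (∏ i, x i) : ℝ) ^ 2
      ≤ (100 * D0 ^ Fintype.card ι) ^ 2 * (D0 ^ Fintype.card ι) ^ 2 := by gcongr
    _ = _ := by ring

/-- **MoF of a flagged list** -/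
theorem MoF_nt {h : ℝ → ℝ} {R : ℝ} (hR : ∀ u, cx h u ≠ 0 → |u| ≤ R) {s : ι → Pc}
    (hs : ∀ i, (s i).OK) {z D0 : ℝ} (hD : 1 ≤ D0) (f : ι → Bool) (q : Eis) {E B τ : Eis}
    (hB : IsPrim B) {X : ℝ} (hX : 0 ≤ X) (t Z : ℝ) {M : ℝ} (hM0 : 0 ≤ M)
    (hM : ∀ x ∈ Tn ι D0, MoF (sqc (q * ∏ i, x i) (al h (shS s x)))
      (E * gp (∏ i, x i) B ^ 2) (B / gp (∏ i, x i) B) τ X t Z ≤ M) :
    MoF (sqc q (alf z D0 h s f)) E B τ X t Z ≤ lossN (Fintype.card ι) D0 * M := by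
  have h1 := nt_qf (ι := ι) (Φ := fun α => MoF α E B τ X t Z)
    (QF_MoF (E := E) (τ := τ) hB.ne_zero hX t Z) hR hs (z := z) hD f q
    (M := 100 ^ 2 * (D0 ^ Fintype.card ι) ^ 4 * M) (by positivity) ?_
  · refine h1.trans (le_of_eq ?_)
    unfold lossN
    ring
  · intro x hx
    have hp := ((mem_Tn (by linarith)).1 hx)
    have hg : IsPrim (∏ i, x i) := prim_prod fun i => (hp i).1
    have hγ : ∀ m, sqc (q * ∏ i, x i) (al h (shS s x)) m ≠ 0 → IsPrim m :=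
      (HP842.FS.sqc (FS_cv fun i => FS_pc hR (sh_OK (hs i) (hp i).1)) _).prim
    refine (MoF_dil hg hB hγ E τ hX t Z).trans ?_
    exact mul_le_mul (tau_nm_le hD hx) (hM x hx) (MoF_nonneg _ _ _ _ _ _ _) (by positivity)

end Crest.Agent.R017.NtC320
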