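import Crest.Agent.R017.LBc_48
import Crest.Agent.R017.MoL2_106
import Crest.Agent.R017.NtC3_320

/-!
# Row 17, E2, R-side: opening of the flagged lists in `REb` (helper83)

(106 #23636 (4), leaf `QsO`.)

* `QF_Qs`      : the inner double sum of `REb` is a quadratic functional
* `nt_qf'`     : 320's opening, only squarefree divisors prime to `q`
* `nt_SD`      : the opening in the form of 106 (`dl γ (sq (q γ) (w j))`, `FromP`)
* `REb_le_sum`, `REb_num` : `REb` from a bound of the inner double sums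
* `REb_list`   : `REb` of a flagged list (twist, window, height, modulus)
* `bw_prin`    : `be * prin0 T`
-/

set_option autoImplicit false

noncomputable section

open Complex
open scoped ComplexConjugate Classical

namespace Crest.Agent.R017.QsO83

open Crest.Agent.R012 Crest.Agent.R012.Eis Crest.Agent.R012.Gauss880
open Crest.Agent.R012.LS2 (S mem_S)
open Crest.Agent.R012.Mob705 (pdiv mem_pdiv)
open Crest.Agent.R012.Weight600 (osc norm_osc pw)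
open Crest.Agent.R012.Div277 (tau dvs mem_dvs tau_le_rpow)
open Crest.Agent.R017.CM106 (CS FS)
open Crest.Agent.R017.PX764 (th Gh n6)
open Crest.Agent.R017.X6C180 (n13 cM)
open Crest.Agent.R017.HP842 (Pc al sqc Th)
open Crest.Agent.R017.Rough381 (shS sh smT mem_smT sh_OK)
open Crest.Agent.R017.Leg381 (alf alF Pf)
open Crest.Agent.R017.FE47 (cx)
open Crest.Agent.R017.End699 (prin0)
open Crest.Agent.R017.TPOk571 (IP SD SD_w)
open Crest.Agent.R017.MoL106 (FromP)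
open Crest.Agent.R017.XRG106 (ip)
open Crest.Agent.R017.B770 Crest.Agent.R017.Prov71
open Crest.Agent.R017.E2440 (VV Mn ag Qs RR prs mem_prs C4 mem_C4)
open Crest.Agent.R017.NtC320 (QF Lin QF_of_lin QF_sum Tn mem_Tn card_Tn dil cM)
open Crest.Agent.R017.LBx48 (REb neb R2)
open Crest.Agent.R017.RGw813 (bt FS_bt)

/-! ### linear functionals -/

section lin

variable {κ : Type} (T : Finset κ) (c : κ → ℂ) (β : κ → Eis → ℂ)

lemma lin_tsum (hβ : ∀ x ∈ T, (Function.support (β x)).Finite) (g : Eis → ℂ) :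
    ∑' n : Eis, (∑ x ∈ T, c x * β x n) * g n = ∑ x ∈ T, c x * ∑' n : Eis, β x n * g n := by
  have h1 : ∀ x ∈ T, Summable fun n : Eis => β x n * g n := fun x hx => by
    refine summable_of_hasFiniteSupport ((hβ x hx).subset fun n hn h0 => hn ?_)
    have h0' : β x n = 0 := h0
    simp [h0']
  have h2 : ∀ x ∈ T, Summable fun n : Eis => c x * (β x n * g n) := fun x hx =>
    (h1 x hx).mul_left _
  calc ∑' n : Eis, (∑ x ∈ T, c x * β x n) * g n = ∑' n : Eis, ∑ x ∈ T, c x * (β x n * g n) := by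
        refine tsum_congr fun n => ?_
        rw [Finset.sum_mul]
        exact Finset.sum_congr rfl fun x _ => by ring
    _ = ∑ x ∈ T, ∑' n : Eis, c x * (β x n * g n) := Summable.tsum_finsetSum h2
    _ = _ := Finset.sum_congr rfl fun x _ => tsum_mul_left

lemma CS_lin (hβ : ∀ x ∈ T, (Function.support (β x)).Finite) (l : Eis) :
    CS (fun n => ∑ x ∈ T, c x * β x n) l = ∑ x ∈ T, c x * CS (β x) l :=
  lin_tsum T c β hβ _

lemma VV_fin {F : ℝ → ℂ} {b : ℝ} (hF : ∀ x, F x ≠ 0 → x ≤ b) {A : ℝ} (hA : 0 < A)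
    (α : Eis → ℂ) (σ E r ν : Eis) :
    VV α σ E r ν F A = ∑ k ∈ primBall ⌊b * A⌋₊, th (σ * r * k) *
      (conj (sy k ν) * CS α (E * k)) * F ((nm k : ℝ) / A) := by
  unfold E2440.VV
  rw [tsum_eq_sum (s := primBall ⌊b * A⌋₊)]
  · refine Finset.sum_congr rfl fun k hk => ?_
    rw [if_pos (mem_primBall.mp hk).2]
  · intro k hk
    by_cases hp : IsPrim k
    · rw [if_pos hp]
      have h0 : F ((nm k : ℝ) / A) = 0 := by
        by_contra h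
        have h1 := hF _ h
        rw [div_le_iff₀ hA] at h1
        exact hk (mem_primBall.mpr ⟨Nat.le_floor h1, hp⟩)
      rw [h0, mul_zero]
    · rw [if_neg hp]

lemma VV_lin {F : ℝ → ℂ} (hF : ∃ b : ℝ, ∀ x, F x ≠ 0 → x ≤ b) {A : ℝ} (hA : 0 < A)
    (hβ : ∀ x ∈ T, (Function.support (β x)).Finite) (σ E r ν : Eis) :
    VV (fun n => ∑ x ∈ T, c x * β x n) σ E r ν F A = ∑ x ∈ T, c x * VV (β x) σ E r ν F A := by
  obtain ⟨b, hb⟩ := hF
  rw [VV_fin hb hA]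
  have h1 : ∀ x ∈ T, c x * VV (β x) σ E r ν F A = ∑ k ∈ primBall ⌊b * A⌋₊, c x *
      (th (σ * r * k) * (conj (sy k ν) * CS (β x) (E * k)) * F ((nm k : ℝ) / A)) := by
    intro x _
    rw [VV_fin hb hA, Finset.mul_sum]
  rw [Finset.sum_congr rfl h1, Finset.sum_comm]
  refine Finset.sum_congr rfl fun k _ => ?_
  rw [CS_lin T c β hβ, Finset.mul_sum, Finset.mul_sum, Finset.sum_mul]
  exact Finset.sum_congr rfl fun x _ => by ring

lemma Mn_lin (F : ℝ → ℂ) (A : ℝ) (hβ : ∀ x ∈ T, (Function.support (β x)).Finite)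
    (σ E r ν : Eis) :
    Mn (fun n => ∑ x ∈ T, c x * β x n) σ E r ν F A = ∑ x ∈ T, c x * Mn (β x) σ E r ν F A := by
  unfold E2440.Mn
  by_cases hν : ν = 1
  · simp only [if_pos hν]
    rw [lin_tsum T c β hβ, Finset.mul_sum]
    exact Finset.sum_congr rfl fun x _ => by ring
  · simp only [if_neg hν, mul_zero, Finset.sum_const_zero]

lemma ag_lin (δ g : Eis) :
    ag (fun n => ∑ x ∈ T, c x * β x n) δ g = fun n => ∑ x ∈ T, c x * ag (β x) δ g n := by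
  funext n
  unfold E2440.ag
  by_cases h : IsCoprime n δ
  · simp only [if_pos h]
  · simp only [if_neg h, mul_zero, Finset.sum_const_zero]

end lin

/-- window, twist and height -/
def bw (φ : ℝ → ℝ) (p : ℕ × ℕ) (t : ℝ) (α : Eis → ℂ) : Eis → ℂ := fun n => bt φ α p n * pw t (nm n)

lemma bw_ne {φ : ℝ → ℝ} {p : ℕ × ℕ} {t : ℝ} {α : Eis → ℂ} {n : Eis} (h : bw φ p t α n ≠ 0) :
    α n ≠ 0 := by
  intro h0
  apply h
  unfold bw RGw813.bt RGw813.tw2 Win813.wn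
  rw [h0]; ring

lemma FS_bw {φ : ℝ → ℝ} {p : ℕ × ℕ} {t : ℝ} {α : Eis → ℂ} (h : FS α) : FS (bw φ p t α) where
  fin := h.fin.subset fun _ hn => bw_ne hn
  prim := fun m hm => h.prim m (bw_ne hm)

lemma bw_lin {κ : Type} (T : Finset κ) (c : κ → ℂ) (β : κ → Eis → ℂ) (φ : ℝ → ℝ) (p : ℕ × ℕ)
    (t : ℝ) : bw φ p t (fun n => ∑ x ∈ T, c x * β x n) = fun n => ∑ x ∈ T, c x * bw φ p t (β x) n := by
  funext n
  unfold bw RGw813.bt RGw813.tw2 Win813.wn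
  simp only [Finset.sum_mul]
  exact Finset.sum_congr rfl fun x _ => by ring

/-- `be * prin0 T` -/
lemma bw_prin (φ : ℝ → ℝ) (p : ℕ × ℕ) (t : ℝ) (q T : Eis) (α : Eis → ℂ) (n : Eis) :
    bw φ p t (sqc q α) n * prin0 T n = bw φ p t (sqc (q * T) α) n := by
  have h : Th q n * prin0 T n = Th (q * T) n := by
    unfold HP842.Th End699.prin0
    by_cases h1 : Squarefree n ∧ IsCoprime n q
    · by_cases h2 : IsCoprime n T
      · have h3 : Squarefree n ∧ IsCoprime n (q * T) := ⟨h1.1, h1.2.mul_right h2⟩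
        rw [if_pos h1, if_pos h2, if_pos h3, mul_one]
      · have h3 : ¬ (Squarefree n ∧ IsCoprime n (q * T)) := fun h3 => h2 h3.2.of_mul_right_right
        rw [if_pos h1, if_neg h2, if_neg h3, mul_zero]
    · have h3 : ¬ (Squarefree n ∧ IsCoprime n (q * T)) :=
        fun h3 => h1 ⟨h3.1, h3.2.of_mul_right_left⟩
      rw [if_neg h1, if_neg h3, zero_mul]
  unfold bw RGw813.bt RGw813.tw2 Win813.wn HP842.sqc
  rw [← h]; ring

lemma QF_sum1 {κ' : Type*} (K : Finset κ') {Φ : κ' → (Eis → ℂ) → ℝ} (hΦ : ∀ k ∈ K, QF (Φ k)) :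
    QF (fun α => ∑ k ∈ K, Φ k α) := by
  have h := QF_sum K (W := fun _ => 1) (fun _ _ => zero_le_one) hΦ
  simpa using h

lemma QF_of_lin1 {κ' : Type*} (K : Finset κ') {Λ : κ' → (Eis → ℂ) → ℂ}
    (hΛ : ∀ k ∈ K, Lin (Λ k)) : QF (fun α => ∑ k ∈ K, ‖Λ k α‖ ^ 2) := by
  have h := QF_of_lin K (W := fun _ => 1) (fun _ _ => zero_le_one) hΛ
  simpa using h

/-- **(a)** the inner double sum of `REb` is a quadratic functional -/
theorem QF_Qs {F : ℝ → ℂ} (hF : ∃ b : ℝ, ∀ x, F x ≠ 0 → x ≤ b) {K : ℝ} (hK : 0 < K)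
    {δ e : Eis} (he : e ≠ 0) {y : Eis × Eis} (hy : IsPrim y.1) {A : Eis} (hA : A ≠ 0) (V : ℝ)
    (φ : ℝ → ℝ) (p : ℕ × ℕ) (t : ℝ) :
    QF (fun α => ∑ c ∈ C4, ∑ j₂ ∈ S (Real.sqrt V), Qs (bw φ p t α) δ e V K F y A c j₂) := by
  refine QF_sum1 _ fun c hc => QF_sum1 _ fun j₂ hj => ?_
  have hj0 : j₂ ≠ 0 := ((mem_S (Real.sqrt_nonneg V)).1 hj).2.1.ne_zero
  have hE : e * A * j₂ ≠ 0 := mul_ne_zero (mul_ne_zero he hA) hj0
  have hE1 : (0 : ℝ) < nm (e * A * j₂) := by exact_mod_cast nm_pos.2 hE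
  have hA0 : 0 < K / nm (e * A * j₂) := by positivity
  unfold E2440.Qs
  refine QF_of_lin1 _ fun r _ => ?_
  intro κ T c' β hβ
  have hfin : ∀ x ∈ T, (Function.support (ag (bw φ p t (β x)) δ y.1)).Finite := fun x hx =>
    (E2440.fs_ag (FS_bw (hβ x hx)) hy).fin
  beta_reduce
  rw [bw_lin, ag_lin, VV_lin T c' _ hF hA0 hfin, Mn_lin T c' _ F _ hfin,
    ← Finset.sum_sub_distrib]
  exact Finset.sum_congr rfl fun x _ => by ring

/-! ### the opening -/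

section op

variable {ι : Type} [Fintype ι] [DecidableEq ι]

/-- **(b)** the opening of a flagged list, only squarefree divisors prime to `q` -/
theorem nt_qf' {Φ : (Eis → ℂ) → ℝ} (hΦ : QF Φ) {h : ℝ → ℝ} {R : ℝ}
    (hR : ∀ u, cx h u ≠ 0 → |u| ≤ R) {s : ι → Pc} (hs : ∀ i, (s i).OK) {z D0 : ℝ}
    (hD : 1 ≤ D0) (f : ι → Bool) (q : Eis) {M : ℝ} (hM0 : 0 ≤ M)
    (hM : ∀ x ∈ Tn ι D0, Squarefree (∏ i, x i) → IsCoprime (∏ i, x i) q →
      Φ (dil (∏ i, x i) (sqc (q * ∏ i, x i) (al h (shS s x)))) ≤ M) :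
    Φ (sqc q (alf z D0 h s f)) ≤ ((100 * D0) ^ Fintype.card ι) ^ 2 * M := by
  obtain ⟨X, hX⟩ : ∃ X : ℕ, ∀ i, (s i).Y * Real.exp R ≤ X := by
    obtain ⟨X, hX⟩ := exists_nat_ge (∑ i, |(s i).Y * Real.exp R|)
    refine ⟨X, fun i => ?_⟩
    refine le_trans ?_ hX
    exact (le_abs_self _).trans
      (Finset.single_le_sum (f := fun i => |(s i).Y * Real.exp R|) (fun i _ => abs_nonneg _)
        (Finset.mem_univ i))
  set T := (smT ι X z).filter (fun x => (∀ i, (nm (x i) : ℝ) ≤ D0) ∧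
    (Squarefree (∏ i, x i) ∧ IsCoprime (∏ i, x i) q)) with hT
  set c : (ι → Eis) → ℂ := fun x =>
    Th q (∏ i, x i) * HP842.scS s x * (∏ i, NtC320.cM z D0 (f i) (x i)) with hc
  have e1 : sqc q (alf z D0 h s f) = fun n => ∑ x ∈ T, c x *
      dil (∏ i, x i) (sqc (q * ∏ i, x i) (al h (shS s x))) n := by
    funext n
    rw [NtC320.nt_open hR hs hX z D0 f q n]
    symm
    refine Finset.sum_subset (Finset.filter_subset _ _) fun x hx hx' => ?_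
    have h0 : c x = 0 := by
      by_contra hcon
      apply hx'
      rw [hT, Finset.mem_filter]
      have h1 : Th q (∏ i, x i) * HP842.scS s x * (∏ i, NtC320.cM z D0 (f i) (x i)) ≠ 0 := hcon
      have h2 := left_ne_zero_of_mul (left_ne_zero_of_mul h1)
      have h3 := right_ne_zero_of_mul h1
      refine ⟨hx, fun i => NtC320.cM_le hD (Finset.prod_ne_zero_iff.mp h3 i (Finset.mem_univ i)),
        ?_⟩
      by_contra h4
      apply h2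
      unfold HP842.Th
      rw [if_neg h4]
    rw [h0, zero_mul]
  have hTp : ∀ x ∈ T, (∀ i, IsPrim (x i)) ∧ x ∈ Tn ι D0 ∧
      (Squarefree (∏ i, x i) ∧ IsCoprime (∏ i, x i) q) := by
    intro x hx
    rw [hT, Finset.mem_filter, mem_smT] at hx
    refine ⟨fun i => (hx.1 i).1.2, ?_, hx.2.2⟩
    rw [mem_Tn (by linarith)]
    exact fun i => ⟨(hx.1 i).1.2, hx.2.1 i⟩
  rw [e1]
  have hcb : ∀ x ∈ T, ‖c x‖ ≤ 1 := by
    intro x hx
    rw [hc]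
    show ‖Th q (∏ i, x i) * HP842.scS s x * (∏ i, NtC320.cM z D0 (f i) (x i))‖ ≤ 1
    rw [norm_mul, norm_mul, norm_prod]
    have h1 : ‖Th q (∏ i, x i)‖ ≤ 1 := by
      unfold HP842.Th
      split_ifs <;> simp
    have h2 := HP842.norm_scS_le hs (hTp x hx).1
    have h3 : ∏ i, ‖NtC320.cM z D0 (f i) (x i)‖ ≤ 1 :=
      Finset.prod_le_one (fun i _ => norm_nonneg _) fun i _ => NtC320.norm_cM_le _ _ _ _
    exact mul_le_one₀ (mul_le_one₀ h1 (norm_nonneg _) h2)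
      (Finset.prod_nonneg fun i _ => norm_nonneg _) h3
  have hFS : ∀ x ∈ T, FS (dil (∏ i, x i) (sqc (q * ∏ i, x i) (al h (shS s x)))) := by
    intro x hx
    have hp := (hTp x hx).1
    refine NtC320.FS_dil (NtC320.prim_prod hp) ?_
    exact HP842.FS.sqc (HP842.FS_cv fun i => HP842.FS_pc hR (sh_OK (hs i) (hp i))) _
  have hcard : (T.card : ℝ) ≤ (100 * D0) ^ Fintype.card ι := by
    refine le_trans ?_ (card_Tn (ι := ι) (by linarith))
    exact_mod_cast Finset.card_le_card fun x hx => (hTp x hx).2.1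
  refine (hΦ _ T c _ hcb hFS).trans ?_
  calc (T.card : ℝ) * ∑ x ∈ T, Φ (dil (∏ i, x i) (sqc (q * ∏ i, x i) (al h (shS s x))))
      ≤ T.card * ∑ _x ∈ T, M := by
        gcongr with x hx
        exact hM x (hTp x hx).2.1 (hTp x hx).2.2.1 (hTp x hx).2.2.2
    _ = (T.card : ℝ) ^ 2 * M := by rw [Finset.sum_const, nsmul_eq_mul]; ring
    _ ≤ _ := by gcongr

end op

/-- the index of the shifted piece -/
def jsh {P : DPar} (hP : P.OK) (p : Pq) (x : Eis) : IP :=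
  ⟨p.u.sub x, (ip hP p).ψ, p.z - Real.log (nm x), 0, p.t⟩

lemma jsh_pc {P : DPar} (hP : P.OK) (p : Pq) {x : Eis} (hx : IsPrim x) :
    (jsh hP p x).pc = sh (p.pc P) x := by
  have hx0 : (0 : ℝ) < nm x := by exact_mod_cast nm_pos.2 hx.ne_zero
  have e1 : Real.exp (p.z - Real.log (nm x)) = Real.exp p.z / nm x := by
    rw [Real.exp_sub, Real.exp_log hx0]
  unfold TPOk571.IP.pc jsh Rough381.sh
  simp only [add_zero, e1]
  rfl

lemma jsh_from {P : DPar} (hP : P.OK) (p : Pq) {x : Eis} (hx : IsPrim x) :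
    FromP hP (jsh hP p x) p where
  ψ := rfl
  t0 := rfl
  s := rfl
  one := by
    intro h
    show p.u.sub x = HP842.UT.one
    rw [h]
    unfold HP842.UT.sub
    rw [if_neg (fun h => by simp at h)]
  z := by
    have hx1 : (1 : ℝ) ≤ nm x := by exact_mod_cast nm_pos.2 hx.ne_zero
    have := Real.log_nonneg hx1
    show p.z - Real.log (nm x) ≤ p.z
    linarith

/-- **(c)** the opening in 106's form -/
theorem nt_SD {Φ : (Eis → ℂ) → ℝ} (hΦ : QF Φ) {h : ℝ → ℝ} {R : ℝ}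
    (hR : ∀ u, cx h u ≠ 0 → |u| ≤ R) (μ : ℝ) {r : ℕ} {P : DPar} (hP : P.OK) (s : Fin r → Pq)
    {z D0 : ℝ} (hD : 1 ≤ D0) (f : Fin r → Bool) (q : Eis) {M : ℝ} (hM0 : 0 ≤ M)
    (hM : ∀ γ : Eis, IsPrim γ → Squarefree γ → IsCoprime γ q → (nm γ : ℝ) ≤ D0 ^ r →
      ∀ j : Fin r → IP, (∀ i, FromP hP (j i) (s i)) →
      ∑ i, (j i).z = ∑ i, (s i).z - Real.log (nm γ) →
      Φ (MoF106.dl γ (TP320.sq (q * γ) ((SD h μ r).w j))) ≤ M) :
    Φ (sqc q (alf z D0 h (fun i => (s i).pc P) f)) ≤ ((100 * D0) ^ r) ^ 2 * M := by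
  have h1 := nt_qf' (ι := Fin r) hΦ hR (s := fun i => (s i).pc P) (fun i => (s i).ok hP)
    (z := z) hD f q hM0 ?_
  · rwa [Fintype.card_fin] at h1
  · intro x hx hsq hcop
    have hx' := (mem_Tn (by linarith)).1 hx
    have hp : ∀ i, IsPrim (x i) := fun i => (hx' i).1
    have hγ : IsPrim (∏ i, x i) := NtC320.prim_prod hp
    have hnm := NtC320.nm_prod_le (ι := Fin r) (by linarith) hx
    rw [Fintype.card_fin] at hnm
    set j : Fin r → IP := fun i => jsh hP (s i) (x i) with hj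
    have e1 : (SD h μ r).w j = al h (shS (fun i => (s i).pc P) x) := by
      rw [SD_w]
      congr 1
      funext i
      exact jsh_pc hP (s i) (hp i)
    have e2 : TP320.sq (q * ∏ i, x i) ((SD h μ r).w j) =
        sqc (q * ∏ i, x i) (al h (shS (fun i => (s i).pc P) x)) := by
      rw [HP842.sq_eq_sqc, e1]
      intro n hn
      rw [e1] at hn
      exact (HP842.FS_cv fun i => HP842.FS_pc hR (sh_OK ((s i).ok hP) (hp i))).prim n hn
    have h2 := hM (∏ i, x i) hγ hsq hcop hnm j (fun i => jsh_from hP (s i) (hp i)) ?_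
    · rw [e2] at h2
      exact h2
    · have e3 : nm (∏ i, x i) = ∏ i, nm (x i) := by
        have := map_prod (⟨⟨nm, nm_one⟩, nm_mul⟩ : Eis →* ℕ) x Finset.univ
        exact this
      rw [e3, Nat.cast_prod, Real.log_prod (fun i _ => by
        exact_mod_cast (nm_pos.2 (hp i).ne_zero).ne'), ← Finset.sum_sub_distrib]
      rfl

/-- **(c)** for lists -/
theorem nt_list {Φ : (Eis → ℂ) → ℝ} (hΦ : QF Φ) {h : ℝ → ℝ} {R : ℝ}
    (hR : ∀ u, cx h u ≠ 0 → |u| ≤ R) (μ : ℝ) {P : DPar} (hP : P.OK) (ps : List Pf)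
    {z D0 : ℝ} (hD : 1 ≤ D0) (q : Eis) {M : ℝ} (hM0 : 0 ≤ M)
    (hM : ∀ γ : Eis, IsPrim γ → Squarefree γ → IsCoprime γ q → (nm γ : ℝ) ≤ D0 ^ ps.length →
      ∀ j : Fin ps.length → IP, (∀ i, FromP hP (j i) (ps.get i).1) →
      ∑ i, (j i).z = Leg381.LF ps - Real.log (nm γ) →
      Φ (MoF106.dl γ (TP320.sq (q * γ) ((SD h μ ps.length).w j))) ≤ M) :
    Φ (sqc q (alF z D0 P h ps)) ≤ ((100 * D0) ^ ps.length) ^ 2 * M := by
  rw [Leg381.alF_get]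
  refine nt_SD hΦ hR μ hP (fun i => (ps.get i).1) hD _ q hM0 ?_
  intro γ h1 h2 h3 h4 j h5 h6
  refine hM γ h1 h2 h3 h4 j h5 ?_
  rw [h6]
  congr 1
  unfold Leg381.LF
  conv_rhs => rw [← List.ofFn_get ps]
  rw [List.map_ofFn, List.sum_ofFn]
  rfl

/-! ### `REb` from the inner double sums -/

/-- **(d)** general form -/
theorem REb_le_sum {ε : ℝ} (hε : 0 < ε) : ∃ C : ℝ, 1 ≤ C ∧
    ∀ (P K E0 Z V : ℝ) (D : Finset Eis) (I : ℕ) (F : ℝ → ℂ) (α : Eis → ℂ), 0 ≤ K → 0 ≤ V →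
    (∀ δ ∈ D, IsPrim δ ∧ (nm δ : ℝ) ≤ P) → ∀ Qb : Eis → ℕ → Eis → ℝ,
    (∀ δ ∈ D, ∀ i ∈ neb δ Z V I, ∀ e ∈ S E0, 0 ≤ Qb δ i e) →
    (∀ δ ∈ D, ∀ i ∈ neb δ Z V I, ∀ e ∈ S E0, ∀ y ∈ prs δ, ∀ A ∈ pdiv y.1,
      ∑ c ∈ C4, ∑ j₂ ∈ S (Real.sqrt (V / 2 ^ i)), Qs α δ e (V / 2 ^ i) K F y A c j₂ ≤ Qb δ i e) →
    REb α K F D I E0 Z V ≤ C * P ^ ε * ∑ δ ∈ D, ∑ i ∈ neb δ Z V I, ∑ e ∈ S E0,
      (K ^ (-(2 / 3) : ℝ) * (V / 2 ^ i) ^ (1 / 3 : ℝ) / nm e) * Qb δ i e := by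
  obtain ⟨C, hC, hτ⟩ := tau_le_rpow (show (0 : ℝ) < ε / 6 by linarith)
  refine ⟨C ^ 6, one_le_pow₀ hC, ?_⟩
  intro P K E0 Z V D I F α hK hV hD Qb hQ0 hQ
  have hC0 : 0 ≤ C := by linarith
  unfold LBx48.REb
  rw [Finset.mul_sum]
  refine Finset.sum_le_sum fun δ hδ => ?_
  have hδp := (hD δ hδ).1
  have hδ1 : (1 : ℝ) ≤ nm δ := by exact_mod_cast nm_pos.2 hδp.ne_zero
  have hP1 : 1 ≤ P := hδ1.trans (hD δ hδ).2
  rw [Finset.mul_sum]
  refine Finset.sum_le_sum fun i hi => ?_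
  rw [Finset.mul_sum]
  refine Finset.sum_le_sum fun e he => ?_
  have hw : 0 ≤ K ^ (-(2 / 3) : ℝ) * (V / 2 ^ i) ^ (1 / 3 : ℝ) / nm e := by positivity
  have hq0 := hQ0 δ hδ i hi e he
  have h1 : R2 α K F δ e (V / 2 ^ i) ≤ (tau δ : ℝ) ^ 3 * Real.sqrt (Qb δ i e) := by
    unfold LBx48.R2
    have h2 : ∀ y ∈ prs δ, ∑ A ∈ pdiv y.1, Real.sqrt (∑ c ∈ C4, ∑ j₂ ∈ S (Real.sqrt (V / 2 ^ i)),
        Qs α δ e (V / 2 ^ i) K F y A c j₂) ≤ (tau δ : ℝ) * Real.sqrt (Qb δ i e) := by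
      intro y hy
      have hy' := (mem_prs hδp).mp hy
      refine (Finset.sum_le_sum fun A hA => Real.sqrt_le_sqrt (hQ δ hδ i hi e he y hy A hA)).trans ?_
      rw [Finset.sum_const, nsmul_eq_mul]
      refine mul_le_mul_of_nonneg_right ?_ (Real.sqrt_nonneg _)
      unfold Div277.tau
      refine Nat.cast_le.2 (Finset.card_le_card fun A hA => ?_)
      have hA' := (mem_pdiv hy'.1.ne_zero).mp hA
      exact (mem_dvs hδp.ne_zero).2 ⟨hA'.1, hA'.2.trans (hy'.2.2 ▸ dvd_mul_right _ _)⟩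
    refine (Finset.sum_le_sum h2).trans ?_
    rw [Finset.sum_const, nsmul_eq_mul]
    have h3 : ((prs δ).card : ℝ) ≤ (tau δ : ℝ) ^ 2 := by
      have : (prs δ).card ≤ (dvs δ ×ˢ dvs δ).card := by
        unfold E2440.prs
        exact Finset.card_filter_le _ _
      rw [Finset.card_product] at this
      unfold Div277.tau
      rw [sq]
      exact_mod_cast this
    calc ((prs δ).card : ℝ) * ((tau δ : ℝ) * Real.sqrt (Qb δ i e)) ≤
          (tau δ : ℝ) ^ 2 * ((tau δ : ℝ) * Real.sqrt (Qb δ i e)) := by gcongr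
      _ = _ := by ring
  have h0 : 0 ≤ R2 α K F δ e (V / 2 ^ i) := by
    unfold LBx48.R2
    exact Finset.sum_nonneg fun _ _ => Finset.sum_nonneg fun _ _ => Real.sqrt_nonneg _
  have hτ1 : (tau δ : ℝ) ^ 6 ≤ C ^ 6 * P ^ ε := by
    have h2 : (tau δ : ℝ) ≤ C * P ^ (ε / 6) := (hτ δ hδp.ne_zero).trans (by
      have := (hD δ hδ).2
      gcongr)
    calc (tau δ : ℝ) ^ 6 ≤ (C * P ^ (ε / 6)) ^ 6 := by gcongr
      _ = C ^ 6 * P ^ ε := by
        rw [mul_pow, ← Real.rpow_natCast (P ^ (ε / 6)) 6, ← Real.rpow_mul (by linarith)]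
        congr 2
        push_cast; ring
  have h4 : R2 α K F δ e (V / 2 ^ i) ^ 2 ≤ C ^ 6 * P ^ ε * Qb δ i e := by
    calc R2 α K F δ e (V / 2 ^ i) ^ 2 ≤ ((tau δ : ℝ) ^ 3 * Real.sqrt (Qb δ i e)) ^ 2 := by gcongr
      _ = (tau δ : ℝ) ^ 6 * Qb δ i e := by
        rw [mul_pow, Real.sq_sqrt hq0]; ring
      _ ≤ _ := mul_le_mul_of_nonneg_right hτ1 hq0
  calc _ ≤ (K ^ (-(2 / 3) : ℝ) * (V / 2 ^ i) ^ (1 / 3 : ℝ) / nm e) * (C ^ 6 * P ^ ε * Qb δ i e) :=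
        mul_le_mul_of_nonneg_left h4 hw
    _ = _ := by ring

/-- **(d)** with the neutral weights -/
theorem REb_num {ε : ℝ} (hε : 0 < ε) : ∃ C : ℝ, 1 ≤ C ∧
    ∀ (P K E0 Z V : ℝ) (D : Finset Eis) (I : ℕ) (F : ℝ → ℂ) (α : Eis → ℂ), 1 ≤ P → 0 < K →
    0 < V → E0 ≤ P → (∀ δ ∈ D, IsPrim δ ∧ (nm δ : ℝ) ≤ P) → ∀ Q0 : Eis → ℝ,
    (∀ δ ∈ D, 0 ≤ Q0 δ) →
    (∀ δ ∈ D, ∀ i ∈ neb δ Z V I, ∀ e ∈ S E0, ∀ y ∈ prs δ, ∀ A ∈ pdiv y.1,
      ∑ c ∈ C4, ∑ j₂ ∈ S (Real.sqrt (V / 2 ^ i)), Qs α δ e (V / 2 ^ i) K F y A c j₂ ≤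
        (V / 2 ^ i) ^ (-(1 / 3) : ℝ) * K ^ (2 / 3 : ℝ) / nm e * Q0 δ) →
    REb α K F D I E0 Z V ≤ C * P ^ ε * I * ∑ δ ∈ D, Q0 δ := by
  obtain ⟨C₁, hC₁, H₁⟩ := REb_le_sum (show (0 : ℝ) < ε / 2 by linarith)
  have hε2 : 0 < ε / 2 := by linarith
  set C₂ : ℝ := 100 * (1 + (ε / 2)⁻¹) with hC₂
  have hC₂1 : 1 ≤ C₂ := by
    have : 0 < (ε / 2)⁻¹ := by positivity
    rw [hC₂]; linarith
  refine ⟨C₁ * C₂, one_le_mul_of_one_le_of_one_le hC₁ hC₂1, ?_⟩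
  intro P K E0 Z V D I F α hP hK hV hE0 hD Q0 hQ0 hQ
  have hP0 : 0 < P := by linarith
  have h1 := H₁ P K E0 Z V D I F α hK.le hV.le hD
    (fun δ i e => (V / 2 ^ i) ^ (-(1 / 3) : ℝ) * K ^ (2 / 3 : ℝ) / nm e * Q0 δ)
    (fun δ hδ i _ e _ => by
      have := hQ0 δ hδ
      positivity) hQ
  refine h1.trans ?_
  have hlog : ∑ e ∈ S P, (1 / (nm e : ℝ)) ≤ C₂ * P ^ (ε / 2) := by
    refine (E1551.sum_inv_S551 hP).trans ?_
    have h3 : Real.log P ≤ (ε / 2)⁻¹ * P ^ (ε / 2) := by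
      have := Real.log_le_rpow_div hP0.le hε2
      rwa [div_eq_inv_mul] at this
    have h4 : 1 ≤ P ^ (ε / 2) := Real.one_le_rpow hP hε2.le
    rw [hC₂]
    nlinarith
  have h2 : ∀ δ ∈ D, ∑ i ∈ neb δ Z V I, ∑ e ∈ S E0,
      (K ^ (-(2 / 3) : ℝ) * (V / 2 ^ i) ^ (1 / 3 : ℝ) / nm e) *
        ((V / 2 ^ i) ^ (-(1 / 3) : ℝ) * K ^ (2 / 3 : ℝ) / nm e * Q0 δ) ≤
      I * (C₂ * P ^ (ε / 2) * Q0 δ) := by
    intro δ hδ
    have hq := hQ0 δ hδ
    have h3 : ∀ i ∈ neb δ Z V I, ∑ e ∈ S E0,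
        (K ^ (-(2 / 3) : ℝ) * (V / 2 ^ i) ^ (1 / 3 : ℝ) / nm e) *
        ((V / 2 ^ i) ^ (-(1 / 3) : ℝ) * K ^ (2 / 3 : ℝ) / nm e * Q0 δ) ≤
        C₂ * P ^ (ε / 2) * Q0 δ := by
      intro i _
      have hVi : 0 < V / 2 ^ i := by positivity
      have e1 : K ^ (-(2 / 3) : ℝ) * K ^ (2 / 3 : ℝ) = 1 := by
        rw [← Real.rpow_add hK]; norm_num
      have e2 : (V / 2 ^ i) ^ (1 / 3 : ℝ) * (V / 2 ^ i) ^ (-(1 / 3) : ℝ) = 1 := by
        rw [← Real.rpow_add hVi]; norm_num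
      have h4 : ∀ e ∈ S E0, (K ^ (-(2 / 3) : ℝ) * (V / 2 ^ i) ^ (1 / 3 : ℝ) / nm e) *
          ((V / 2 ^ i) ^ (-(1 / 3) : ℝ) * K ^ (2 / 3 : ℝ) / nm e * Q0 δ) ≤ 1 / nm e * Q0 δ := by
        intro e he
        by_cases h00 : (nm e : ℝ) = 0
        · rw [h00]; simp
        have hn0 : nm e ≠ 0 := fun h => h00 (by rw [h]; simp)
        have hn1 : (1 : ℝ) ≤ nm e := by exact_mod_cast Nat.one_le_iff_ne_zero.2 hn0
        have hn : (0 : ℝ) < nm e := by linarith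
        have e3 : (K ^ (-(2 / 3) : ℝ) * (V / 2 ^ i) ^ (1 / 3 : ℝ) / nm e) *
          ((V / 2 ^ i) ^ (-(1 / 3) : ℝ) * K ^ (2 / 3 : ℝ) / nm e * Q0 δ) =
          (K ^ (-(2 / 3) : ℝ) * K ^ (2 / 3 : ℝ)) *
          ((V / 2 ^ i) ^ (1 / 3 : ℝ) * (V / 2 ^ i) ^ (-(1 / 3) : ℝ)) *
          (1 / nm e * (1 / nm e) * Q0 δ) := by ring
        rw [e3, e1, e2, one_mul, one_mul]
        refine mul_le_mul_of_nonneg_right ?_ hq
        refine mul_le_of_le_one_right (by positivity) ?_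
        rw [div_le_one hn]
        exact hn1
      refine (Finset.sum_le_sum h4).trans ?_
      rw [← Finset.sum_mul]
      refine mul_le_mul_of_nonneg_right (le_trans ?_ hlog) hq
      by_cases hE : 0 ≤ E0
      · refine Finset.sum_le_sum_of_subset_of_nonneg (fun e he => ?_) fun _ _ _ => by positivity
        rw [mem_S hE] at he
        rw [mem_S hP0.le]
        exact ⟨he.1.trans hE0, he.2⟩
      · have hemp : S E0 ⊆ S P := by
          unfold LS2.S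
          refine Finset.filter_subset_filter _ fun e he => ?_
          rw [mem_primBall] at he ⊢
          exact ⟨he.1.trans (Nat.floor_le_floor hE0), he.2⟩
        exact Finset.sum_le_sum_of_subset_of_nonneg hemp fun _ _ _ => by positivity
    refine (Finset.sum_le_sum h3).trans ?_
    rw [Finset.sum_const, nsmul_eq_mul]
    refine mul_le_mul_of_nonneg_right ?_ (by positivity)
    unfold LBx48.neb
    have := Finset.card_filter_le (Finset.range I) (fun i => (nm δ : ℝ) ^ 2 * (V / 2 ^ i) < 2 * Z)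
    rw [Finset.card_range] at this
    exact_mod_cast this
  have e4 : P ^ ε = P ^ (ε / 2) * P ^ (ε / 2) := by
    rw [← Real.rpow_add hP0]; congr 1; ring
  calc C₁ * P ^ (ε / 2) * _ ≤ C₁ * P ^ (ε / 2) * ∑ δ ∈ D, I * (C₂ * P ^ (ε / 2) * Q0 δ) := by
        refine mul_le_mul_of_nonneg_left (Finset.sum_le_sum h2) (by positivity)
    _ = _ := by
        rw [← Finset.mul_sum, ← Finset.mul_sum, e4]
        ring

/-- **`REb` of a flagged list** -/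
theorem REb_list {ε : ℝ} (hε : 0 < ε) : ∃ C : ℝ, 1 ≤ C ∧
    ∀ (h : ℝ → ℝ) (R : ℝ), (∀ u, cx h u ≠ 0 → |u| ≤ R) → ∀ (μ : ℝ) (Pd : DPar) (hP : Pd.OK)
    (ps : List Pf) (z D0 : ℝ), 1 ≤ D0 → ∀ (q : Eis) (φ : ℝ → ℝ) (p : ℕ × ℕ) (t : ℝ)
    (P K E0 Z V : ℝ) (D : Finset Eis) (I : ℕ) (F : ℝ → ℂ), (∃ b : ℝ, ∀ x, F x ≠ 0 → x ≤ b) →
    1 ≤ P → 0 < K → 0 < V → E0 ≤ P → (∀ δ ∈ D, IsPrim δ ∧ (nm δ : ℝ) ≤ P) → ∀ Q0 : Eis → ℝ,
    (∀ δ ∈ D, 0 ≤ Q0 δ) →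
    (∀ δ ∈ D, ∀ i ∈ neb δ Z V I, ∀ e ∈ S E0, ∀ y ∈ prs δ, ∀ A ∈ pdiv y.1,
      ∀ γ : Eis, IsPrim γ → Squarefree γ → IsCoprime γ q → (nm γ : ℝ) ≤ D0 ^ ps.length →
      ∀ j : Fin ps.length → IP, (∀ i, FromP hP (j i) (ps.get i).1) →
      ∑ i, (j i).z = Leg381.LF ps - Real.log (nm γ) →
      ∑ c ∈ C4, ∑ j₂ ∈ S (Real.sqrt (V / 2 ^ i)),
        Qs (bw φ p t (MoF106.dl γ (TP320.sq (q * γ) ((SD h μ ps.length).w j))))
          δ e (V / 2 ^ i) K F y A c j₂ ≤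
        (V / 2 ^ i) ^ (-(1 / 3) : ℝ) * K ^ (2 / 3 : ℝ) / nm e * Q0 δ) →
    REb (bw φ p t (sqc q (alF z D0 Pd h ps))) K F D I E0 Z V ≤
      C * P ^ ε * I * ((100 * D0) ^ ps.length) ^ 2 * ∑ δ ∈ D, Q0 δ := by
  obtain ⟨C, hC, H⟩ := REb_num hε
  refine ⟨C, hC, ?_⟩
  intro h R hR μ Pd hP ps z D0 hD0 q φ p t P K E0 Z V D I F hF hP1 hK hV hE0 hD Q0 hQ0 hQ
  have h1 := H P K E0 Z V D I F (bw φ p t (sqc q (alF z D0 Pd h ps))) hP1 hK hV hE0 hD
    (fun δ => ((100 * D0) ^ ps.length) ^ 2 * Q0 δ) (fun δ hδ => by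
      have := hQ0 δ hδ
      positivity) ?_
  · refine h1.trans (le_of_eq ?_)
    rw [← Finset.mul_sum]; ring
  · intro δ hδ i hi e he y hy A hA
    have hq := hQ0 δ hδ
    have hy' := (mem_prs (hD δ hδ).1).mp hy
    have hA' := (mem_pdiv hy'.1.ne_zero).mp hA
    have he0 : e ≠ 0 := by
      unfold LS2.S at he
      rw [Finset.mem_filter, mem_primBall] at he
      exact he.1.2.ne_zero
    have hM0 : 0 ≤ (V / 2 ^ i) ^ (-(1 / 3) : ℝ) * K ^ (2 / 3 : ℝ) / nm e * Q0 δ := by positivity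
    have h2 := nt_list (QF_Qs hF hK (δ := δ) he0 hy'.1 hA'.1.ne_zero (V / 2 ^ i) φ p t) hR μ hP ps
      (z := z) hD0 q hM0 (fun γ g1 g2 g3 g4 j g5 g6 => hQ δ hδ i hi e he y hy A hA γ g1 g2 g3 g4 j g5 g6)
    refine h2.trans (le_of_eq ?_)
    ring

end Crest.Agent.R017.QsO83
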