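import Crest.Agent.R017.GR2_106

/-!
# Row 17, rule (P') for closed families, part 3 (helper106): `G_rule`
-/

set_option autoImplicit false

noncomputable section

open MeasureTheory Finset
open scoped ComplexConjugate

namespace Crest.Agent.R017.GR106

open Crest.Agent.R012
open Eis CharSum852 Gauss880 Tau671 Mob705 LS2 CR2 DualIneq811 MelSep811
open Crest.Agent.R017.PA842 (V Supp V_nonneg summable_V Lde_nonneg)
open Crest.Agent.R017.PM106 Crest.Agent.R017.PG106 Crest.Agent.R017.PI106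
open Crest.Agent.R017.CM106 (CS TG FS)
open Crest.Agent.R017.TP320 (VC VG Fam SplitAt tw)
open Div277 (tau dvs mem_dvs tau_le_rpow)

/-- first bound: the short part -/
def K1 (X L B σ ε S1 : ℝ) : ℝ := 512 * (X * L) ^ ε * (B ^ 2 * X ^ (2 * σ) * S1) * (L * X) * S1 ^ 2

/-- second bound: the long part -/
def K2 (X C σ ε e S1 Tt a ht : ℝ) : ℝ :=
  (Real.log X + 1) * (C ^ 2 * X ^ (2 * ε + 2 * σ) * e * (S1 * Tt * a) * ht ^ 2)

theorem de_t {J : Type} {Φ : Fam J} {R A ε σ C : ℝ} {j : J} {q d e : Eis}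
    {X L Λ a Tt S1 B t : ℝ} (D : Dat Φ R A ε σ C j q X L Λ a Tt S1 B) (hd : IsPrim d) (he : e ≠ 0)
    (hΛ : 18 * (X * L) ^ ε * (nm e : ℝ) ^ 3 * X ^ 2 / L ≤ Λ) :
    ∑ g ∈ S X, ∑ f ∈ S X, L / nm f *
      ∑ l ∈ bl (Lde (X / nm g) L ε d e),
        ‖dGg (TP320.sq q (Φ.w j)) (X / nm g) g d e f l (σ + t * Complex.I)‖ ^ 2 ≤
    (K1 X L B σ ε S1 + K2 X C σ ε (Real.exp (Φ.len j + R)) S1 Tt a (Φ.ht j)) *
      ((1 + |t|) ^ A) ^ 2 := by
  classical
  have hX0 : 0 < X := by linarith [D.X1]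
  have hL0 : 0 < L := by linarith [D.L1]
  have hS10 : 0 ≤ S1 := le_trans (Finset.sum_nonneg fun _ _ => by positivity) D.hS
  have hB0 := D.B0
  have hlogX : 0 ≤ Real.log X := Real.log_nonneg D.X1
  rw [← Finset.sum_filter_add_sum_filter_not (S X) (Long X L d e)]
  have h1 := long_sum (t := t) D hd he hΛ
  have h2 : ∑ g ∈ (S X).filter (fun g => ¬ Long X L d e g), ∑ f ∈ S X, L / nm f *
      ∑ l ∈ bl (Lde (X / nm g) L ε d e),
        ‖dGg (TP320.sq q (Φ.w j)) (X / nm g) g d e f l (σ + t * Complex.I)‖ ^ 2 ≤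
      K1 X L B σ ε S1 := by
    have e1 : ∀ g ∈ (S X).filter (fun g => ¬ Long X L d e g), ∑ f ∈ S X, L / nm f *
      ∑ l ∈ bl (Lde (X / nm g) L ε d e),
        ‖dGg (TP320.sq q (Φ.w j)) (X / nm g) g d e f l (σ + t * Complex.I)‖ ^ 2 ≤
      (1 / (nm g : ℝ)) * (512 * (X * L) ^ ε * (B ^ 2 * X ^ (2 * σ) * S1) * (L * X) * S1) := by
      intro g hg
      rw [Finset.mem_filter] at hg
      have hgp := ((mem_S hX0.le).1 hg.1).2.1
      have e2 : ∀ f ∈ S X, L / nm f * ∑ l ∈ bl (Lde (X / nm g) L ε d e),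
          ‖dGg (TP320.sq q (Φ.w j)) (X / nm g) g d e f l (σ + t * Complex.I)‖ ^ 2 ≤
          (1 / (nm g : ℝ)) * (512 * (X * L) ^ ε * (B ^ 2 * X ^ (2 * σ) * S1) * (L * X)) *
            (1 / (nm f : ℝ)) := by
        intro f hf
        have h3 := short_g D.X1 D.L1 D.σ0 D.ε0 D.hB hB0 D.hS hgp hd
          ((mem_S hX0.le).1 hf).2.1 (e := e) hg.2 t
        have h4 := mul_le_mul_of_nonneg_left h3 (show 0 ≤ L / (nm f : ℝ) by positivity)
        refine h4.trans (le_of_eq ?_)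
        ring
      refine (Finset.sum_le_sum e2).trans ?_
      rw [← Finset.mul_sum]
      refine (mul_le_mul_of_nonneg_left D.hS (by positivity)).trans (le_of_eq ?_)
      ring
    refine (Finset.sum_le_sum e1).trans ?_
    rw [← Finset.sum_mul]
    have e3 : ∑ g ∈ (S X).filter (fun g => ¬ Long X L d e g), 1 / (nm g : ℝ) ≤ S1 := by
      refine le_trans ?_ D.hS
      exact Finset.sum_le_sum_of_subset_of_nonneg (Finset.filter_subset _ _)
        (fun _ _ _ => by positivity)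
    refine (mul_le_mul_of_nonneg_right e3 (by positivity)).trans (le_of_eq ?_)
    unfold K1
    ring
  have h3 : (1 : ℝ) ≤ ((1 + |t|) ^ A) ^ 2 := by
    apply one_le_pow₀
    exact Real.one_le_rpow (by linarith [abs_nonneg t]) D.ok.A0
  have hK1 : 0 ≤ K1 X L B σ ε S1 := by unfold K1; positivity
  calc _ ≤ (Real.log X + 1) * (C ^ 2 * X ^ (2 * ε + 2 * σ) * Real.exp (Φ.len j + R) *
        (S1 * Tt * a) * Φ.ht j ^ 2 * ((1 + |t|) ^ A) ^ 2) + K1 X L B σ ε S1 := add_le_add h1 h2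
    _ ≤ K2 X C σ ε (Real.exp (Φ.len j + R)) S1 Tt a (Φ.ht j) * ((1 + |t|) ^ A) ^ 2 +
        K1 X L B σ ε S1 * ((1 + |t|) ^ A) ^ 2 := by
        refine add_le_add (le_of_eq ?_) (le_mul_of_one_le_right hK1 h3)
        unfold K2
        ring
    _ = _ := by ring

/-- the kernel absorbs the heights -/
lemma ker_ht {A : ℝ} (hA : 0 ≤ A) {M : ℕ} (hM : A + 1 ≤ M) (t : ℝ) :
    ((1 + t ^ 2) ^ M)⁻¹ * ((1 + |t|) ^ A) ^ 2 ≤ (2 : ℝ) ^ A * (1 + t ^ 2)⁻¹ := by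
  have h1 : (1 : ℝ) ≤ 1 + t ^ 2 := by nlinarith [sq_nonneg t]
  have h0 : (0 : ℝ) < 1 + t ^ 2 := by linarith
  have ha := abs_nonneg t
  have h2 : ((1 + |t|) ^ A) ^ 2 ≤ (2 : ℝ) ^ A * (1 + t ^ 2) ^ (M - 1) := by
    calc ((1 + |t|) ^ A) ^ 2 = ((1 + |t|) ^ 2) ^ A := by
          rw [← Real.rpow_natCast, ← Real.rpow_mul (by positivity), mul_comm,
            Real.rpow_mul (by positivity), Real.rpow_natCast]
      _ ≤ (2 * (1 + t ^ 2)) ^ A := by
          apply Real.rpow_le_rpow (by positivity) _ hA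
          have := sq_abs t
          nlinarith [sq_nonneg (1 - |t|)]
      _ = (2 : ℝ) ^ A * (1 + t ^ 2) ^ A := Real.mul_rpow (by norm_num) h0.le
      _ ≤ (2 : ℝ) ^ A * (1 + t ^ 2) ^ (M - 1) := by
          refine mul_le_mul_of_nonneg_left ?_ (by positivity)
          rw [← Real.rpow_natCast (1 + t ^ 2) (M - 1)]
          apply Real.rpow_le_rpow_of_exponent_le h1
          have hM1 : 1 ≤ M := by
            have : (1 : ℝ) ≤ M := by linarith
            exact_mod_cast this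
          rw [Nat.cast_sub hM1]
          push_cast
          linarith
  have hM1 : 1 ≤ M := by
    have : (1 : ℝ) ≤ M := by linarith
    exact_mod_cast this
  calc ((1 + t ^ 2) ^ M)⁻¹ * ((1 + |t|) ^ A) ^ 2 ≤
        ((1 + t ^ 2) ^ M)⁻¹ * ((2 : ℝ) ^ A * (1 + t ^ 2) ^ (M - 1)) :=
        mul_le_mul_of_nonneg_left h2 (by positivity)
    _ = (2 : ℝ) ^ A * (1 + t ^ 2)⁻¹ := by
        obtain ⟨m, rfl⟩ : ∃ m, M = m + 1 := ⟨M - 1, by omega⟩
        rw [Nat.add_sub_cancel, pow_succ]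
        field_simp

/-- integrated over `t` -/
theorem de_int {J : Type} {Φ : Fam J} {R A ε σ C : ℝ} {j : J} {q d e : Eis} {M : ℕ}
    {X L Λ a Tt S1 B : ℝ} (D : Dat Φ R A ε σ C j q X L Λ a Tt S1 B) (hd : IsPrim d) (he : e ≠ 0)
    (hM : A + 1 ≤ M)
    (hΛ : 18 * (X * L) ^ ε * (nm e : ℝ) ^ 3 * X ^ 2 / L ≤ Λ) :
    ∑ g ∈ S X, ∑ f ∈ S X, L / nm f *
      DICg M σ (TP320.sq q (Φ.w j)) (X / nm g) g d e f (Lde (X / nm g) L ε d e) ≤
    (K1 X L B σ ε S1 + K2 X C σ ε (Real.exp (Φ.len j + R)) S1 Tt a (Φ.ht j)) *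
      ((2 : ℝ) ^ A * Real.pi) := by
  have hX0 : 0 < X := by linarith [D.X1]
  have hL0 : 0 < L := by linarith [D.L1]
  have hA0 := D.ok.A0
  have hM1 : 1 ≤ M := by
    have : (1 : ℝ) ≤ M := by linarith
    exact_mod_cast this
  have hS10 : 0 ≤ S1 := le_trans (Finset.sum_nonneg fun _ _ => by positivity) D.hS
  have hlogX : 0 ≤ Real.log X := Real.log_nonneg D.X1
  have hK : 0 ≤ K1 X L B σ ε S1 + K2 X C σ ε (Real.exp (Φ.len j + R)) S1 Tt a (Φ.ht j) := by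
    have := D.B0
    have := D.T0
    have := D.a0
    unfold K1 K2
    positivity
  have hint : ∀ g f : Eis, Integrable (fun t : ℝ => L / nm f * (((1 + t ^ 2) ^ M)⁻¹ *
      ∑ l ∈ bl (Lde (X / nm g) L ε d e),
        ‖dGg (TP320.sq q (Φ.w j)) (X / nm g) g d e f l (σ + t * Complex.I)‖ ^ 2)) := fun g f =>
    (integrable_DICg hM1 σ (by positivity) _ g d e f _).const_mul _
  have e1 : ∑ g ∈ S X, ∑ f ∈ S X, L / nm f *
      DICg M σ (TP320.sq q (Φ.w j)) (X / nm g) g d e f (Lde (X / nm g) L ε d e) =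
      ∫ t : ℝ, ∑ g ∈ S X, ∑ f ∈ S X, L / nm f * (((1 + t ^ 2) ^ M)⁻¹ *
        ∑ l ∈ bl (Lde (X / nm g) L ε d e),
          ‖dGg (TP320.sq q (Φ.w j)) (X / nm g) g d e f l (σ + t * Complex.I)‖ ^ 2) := by
    rw [integral_finsetSum _ (fun g _ => integrable_finsetSum _ fun f _ => hint g f)]
    refine Finset.sum_congr rfl fun g _ => ?_
    rw [integral_finsetSum _ (fun f _ => hint g f)]
    refine Finset.sum_congr rfl fun f _ => ?_
    unfold DICg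
    rw [← integral_const_mul]
  rw [e1]
  have e2 : (K1 X L B σ ε S1 + K2 X C σ ε (Real.exp (Φ.len j + R)) S1 Tt a (Φ.ht j)) *
      ((2 : ℝ) ^ A * Real.pi) = ∫ t : ℝ,
      (K1 X L B σ ε S1 + K2 X C σ ε (Real.exp (Φ.len j + R)) S1 Tt a (Φ.ht j)) *
      ((2 : ℝ) ^ A * (1 + t ^ 2)⁻¹) := by
    rw [integral_const_mul, integral_const_mul, integral_univ_inv_one_add_sq]
  rw [e2]
  refine integral_mono (integrable_finsetSum _ fun g _ => integrable_finsetSum _ fun f _ =>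
    hint g f) ((integrable_inv_one_add_sq.const_mul _).const_mul _) (fun t => ?_)
  show ∑ g ∈ S X, ∑ f ∈ S X, L / nm f * (((1 + t ^ 2) ^ M)⁻¹ *
        ∑ l ∈ bl (Lde (X / nm g) L ε d e),
          ‖dGg (TP320.sq q (Φ.w j)) (X / nm g) g d e f l (σ + t * Complex.I)‖ ^ 2) ≤ _
  have e3 : ∑ g ∈ S X, ∑ f ∈ S X, L / nm f * (((1 + t ^ 2) ^ M)⁻¹ *
        ∑ l ∈ bl (Lde (X / nm g) L ε d e),
          ‖dGg (TP320.sq q (Φ.w j)) (X / nm g) g d e f l (σ + t * Complex.I)‖ ^ 2) =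
      ((1 + t ^ 2) ^ M)⁻¹ * ∑ g ∈ S X, ∑ f ∈ S X, L / nm f *
        ∑ l ∈ bl (Lde (X / nm g) L ε d e),
          ‖dGg (TP320.sq q (Φ.w j)) (X / nm g) g d e f l (σ + t * Complex.I)‖ ^ 2 := by
    rw [Finset.mul_sum]
    refine Finset.sum_congr rfl fun g _ => ?_
    rw [Finset.mul_sum]
    refine Finset.sum_congr rfl fun f _ => ?_
    ring
  rw [e3]
  have h1 := de_t (t := t) D hd he hΛ
  calc _ ≤ ((1 + t ^ 2) ^ M)⁻¹ * ((K1 X L B σ ε S1 +
        K2 X C σ ε (Real.exp (Φ.len j + R)) S1 Tt a (Φ.ht j)) * ((1 + |t|) ^ A) ^ 2) :=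
        mul_le_mul_of_nonneg_left h1 (by positivity)
    _ = (K1 X L B σ ε S1 + K2 X C σ ε (Real.exp (Φ.len j + R)) S1 Tt a (Φ.ht j)) *
        (((1 + t ^ 2) ^ M)⁻¹ * ((1 + |t|) ^ A) ^ 2) := by ring
    _ ≤ _ := mul_le_mul_of_nonneg_left (ker_ht hA0 hM t) hK

open Classical in
/-- all the dual terms -/
theorem dual_all {J : Type} {Φ : Fam J} {R A ε σ C : ℝ} {j : J} {q : Eis} {M : ℕ}
    {X L Λ a Tt S1 B : ℝ} (D : Dat Φ R A ε σ C j q X L Λ a Tt S1 B) (hM : A + 1 ≤ M)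
    (hΛ : 18 * (X * L) ^ ε * (X ^ ε) ^ 3 * X ^ 2 / L ≤ Λ) :
    ∑ g ∈ S X, DDG M σ (X / nm g) L (X ^ ε) ε (TP320.sq q (Φ.w j)) g ≤
      (16 * X ^ ε) ^ 2 *
      ((K1 X L B σ ε S1 + K2 X C σ ε (Real.exp (Φ.len j + R)) S1 Tt a (Φ.ht j)) *
      ((2 : ℝ) ^ A * Real.pi)) := by
  have hX0 : 0 < X := by linarith [D.X1]
  have hL0 : 0 < L := by linarith [D.L1]
  have hXe : 0 ≤ X ^ ε := by positivity
  set P := (S X).filter (fun d => (nm d : ℝ) ≤ X ^ ε) with hP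
  have hPm : ∀ d ∈ P, d ∈ S X ∧ (nm d : ℝ) ≤ X ^ ε := fun d hd => Finset.mem_filter.1 hd
  have hcard : (P.card : ℝ) ≤ 16 * X ^ ε := by
    refine le_trans ?_ (cardS_le hXe)
    have : P ⊆ S (X ^ ε) := fun d hd => by
      rw [mem_S hXe]
      exact ⟨(hPm d hd).2, ((mem_S hX0.le).1 (hPm d hd).1).2⟩
    exact_mod_cast Finset.card_le_card this
  set F : Eis → Eis → Eis → Eis → ℝ := fun g d e f => L / nm f *
    DICg M σ (TP320.sq q (Φ.w j)) (X / nm g) g d e f (Lde (X / nm g) L ε d e) with hF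
  have hF0 : ∀ g d e f, 0 ≤ F g d e f := fun g d e f => by
    simp only [hF]
    exact mul_nonneg (by positivity) (DICg_nonneg _ _ _ _ _ _ _ _ _)
  have step1 : ∀ g ∈ S X, DDG M σ (X / nm g) L (X ^ ε) ε (TP320.sq q (Φ.w j)) g ≤
      ∑ d ∈ P, ∑ e ∈ P, ∑ f ∈ S X, F g d e f := by
    intro g hg
    have hg' := (mem_S hX0.le).1 hg
    have hg1 : (1 : ℝ) ≤ nm g := by exact_mod_cast nm_pos.2 hg'.2.1.ne_zero
    have hX' : 0 ≤ X / nm g := by positivity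
    have hsub : S (X / nm g) ⊆ S X := S_mono hX' (div_le_self hX0.le hg1)
    unfold DDG
    have h1 : (S (X / nm g)).filter (fun d => (nm d : ℝ) ≤ X ^ ε) ⊆ P := by
      intro d hd
      rw [Finset.mem_filter] at hd
      rw [hP, Finset.mem_filter]
      exact ⟨hsub hd.1, hd.2⟩
    refine le_trans ?_ (Finset.sum_le_sum_of_subset_of_nonneg h1 (fun d _ _ =>
      Finset.sum_nonneg fun e _ => Finset.sum_nonneg fun f _ => hF0 g d e f))
    refine Finset.sum_le_sum fun d hd => ?_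
    rw [Finset.mem_filter] at hd
    have hd' := (mem_S hX').1 hd.1
    have h2 : (S (X / nm g)).filter (fun x => x ∣ d) ⊆ P := by
      intro e he
      rw [Finset.mem_filter] at he
      rw [hP, Finset.mem_filter]
      refine ⟨hsub he.1, le_trans ?_ hd.2⟩
      exact_mod_cast Div277.nm_le_of_dvd hd'.2.1.ne_zero he.2
    refine le_trans ?_ (Finset.sum_le_sum_of_subset_of_nonneg h2 (fun e _ _ =>
      Finset.sum_nonneg fun f _ => hF0 g d e f))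
    refine Finset.sum_le_sum fun e _ => ?_
    exact Finset.sum_le_sum_of_subset_of_nonneg hsub (fun f _ _ => hF0 g d e f)
  refine (Finset.sum_le_sum step1).trans ?_
  have step2 : ∑ g ∈ S X, ∑ d ∈ P, ∑ e ∈ P, ∑ f ∈ S X, F g d e f =
      ∑ d ∈ P, ∑ e ∈ P, ∑ g ∈ S X, ∑ f ∈ S X, F g d e f := by
    rw [Finset.sum_comm]
    refine Finset.sum_congr rfl fun d _ => ?_
    rw [Finset.sum_comm]
  rw [step2]
  set KK := (K1 X L B σ ε S1 + K2 X C σ ε (Real.exp (Φ.len j + R)) S1 Tt a (Φ.ht j)) *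
      ((2 : ℝ) ^ A * Real.pi) with hKK
  have hS10 : 0 ≤ S1 := le_trans (Finset.sum_nonneg fun _ _ => by positivity) D.hS
  have hlogX : 0 ≤ Real.log X := Real.log_nonneg D.X1
  have hKK0 : 0 ≤ KK := by
    have := D.B0
    have := D.T0
    have := D.a0
    have := Real.pi_pos
    simp only [hKK]
    unfold K1 K2
    positivity
  have step3 : ∀ d ∈ P, ∀ e ∈ P, ∑ g ∈ S X, ∑ f ∈ S X, F g d e f ≤ KK := by
    intro d hd e he
    have hd' := ((mem_S hX0.le).1 (hPm d hd).1).2.1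
    have he' := ((mem_S hX0.le).1 (hPm e he).1).2.1
    refine de_int D hd' he'.ne_zero hM (le_trans ?_ hΛ)
    have h1 : (nm e : ℝ) ^ 3 ≤ (X ^ ε) ^ 3 :=
      pow_le_pow_left₀ (Nat.cast_nonneg _) (hPm e he).2 3
    gcongr
  calc ∑ d ∈ P, ∑ e ∈ P, ∑ g ∈ S X, ∑ f ∈ S X, F g d e f ≤ ∑ d ∈ P, ∑ e ∈ P, KK :=
        Finset.sum_le_sum fun d hd => Finset.sum_le_sum fun e he => step3 d hd e he
    _ = (P.card : ℝ) ^ 2 * KK := by
        rw [Finset.sum_const, Finset.sum_const, nsmul_eq_mul, nsmul_eq_mul]; ring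
    _ ≤ (16 * X ^ ε) ^ 2 * KK :=
        mul_le_mul_of_nonneg_right (pow_le_pow_left₀ (Nat.cast_nonneg _) hcard 2) hKK0

/-! ### the theorem -/

lemma mono_le {κ u v : ℝ} (hκ : 1 ≤ κ) (hu : 1 ≤ u) (hv0 : 0 ≤ v) (hv : v ≤ κ * u) (i m n : ℕ)
    (h1 : i + n ≤ 20) (h2 : m + n ≤ 15) : κ ^ i * u ^ m * v ^ n ≤ κ ^ 20 * u ^ 15 := by
  have hκ0 : 0 ≤ κ := by linarith
  have hu0 : 0 ≤ u := by linarith
  calc κ ^ i * u ^ m * v ^ n ≤ κ ^ i * u ^ m * (κ * u) ^ n := by gcongr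
    _ = κ ^ (i + n) * u ^ (m + n) := by rw [mul_pow, pow_add, pow_add]; ring
    _ ≤ κ ^ 20 * u ^ 15 := mul_le_mul (pow_le_pow_right₀ hκ h1) (pow_le_pow_right₀ hu h2)
        (by positivity) (by positivity)

/-- final arithmetic -/
lemma fin_arith {e1 C1 C2 C3 C4 C5 C6 P κ u v z L E a h VGv D0 k1 k2 : ℝ}
    (he : 0 ≤ e1) (hC1 : 0 ≤ C1) (hC4 : 0 ≤ C4) (hC5 : 0 ≤ C5)
    (hC6 : 0 ≤ C6) (hP : 0 ≤ P) (hκ : 1 ≤ κ) (hu : 1 ≤ u) (hv0 : 0 ≤ v) (hv : v ≤ κ * u)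
    (hz : 1 ≤ z) (hL : 0 ≤ L) (hE : 0 ≤ E) (ha : 0 ≤ a) (hh : 1 ≤ h)
    (hD : D0 ≤ 16 * (κ * E) * (C2 * v) ^ 2)
    (hk1 : k1 ≤ 512 * (κ * u ^ 2) * ((C2 * v) ^ 2 * v ^ 2 * (C5 * v)) * (L * (κ * E)) *
      (C5 * v) ^ 2)
    (hk2 : k2 ≤ C6 * v * (C3 ^ 2 * v ^ 4 * (κ * E) * ((C5 * v) * (C4 * (18 * κ ^ 6) * z) * a) *
      h ^ 2))
    (hV : VGv ≤ e1 * (C1 * v * (L * D0 + v ^ 3 * ((16 * v) ^ 2 * ((k1 + k2) * P))))) :
    VGv ≤ (e1 * C1 * κ ^ 20 * (16 * C2 ^ 2 + 256 * P * (512 * C2 ^ 2 * C5 ^ 3 +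
      18 * C6 * C3 ^ 2 * C5 * C4))) * (u ^ 15 * z) * (L + a) * E * h ^ 2 := by
  have hκ0 : 0 ≤ κ := by linarith
  have hu0 : 0 ≤ u := by linarith
  have hz0 : 0 ≤ z := by linarith
  have hh2 : 1 ≤ h ^ 2 := one_le_pow₀ hh
  have hV2 : VGv ≤ e1 * (C1 * v * (L * (16 * (κ * E) * (C2 * v) ^ 2) + v ^ 3 * ((16 * v) ^ 2 *
      ((512 * (κ * u ^ 2) * ((C2 * v) ^ 2 * v ^ 2 * (C5 * v)) * (L * (κ * E)) *
      (C5 * v) ^ 2 + C6 * v * (C3 ^ 2 * v ^ 4 * (κ * E) * ((C5 * v) *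
      (C4 * (18 * κ ^ 6) * z) * a) * h ^ 2)) * P)))) := by
    refine hV.trans ?_
    gcongr
  have t1 : κ ^ 1 * u ^ 0 * v ^ 3 * (L * E) ≤ κ ^ 20 * u ^ 15 * (z * (L + a) * E * h ^ 2) := by
    refine mul_le_mul (mono_le hκ hu hv0 hv 1 0 3 (by norm_num) (by norm_num)) ?_
      (by positivity) (by positivity)
    calc L * E ≤ (L + a) * E := mul_le_mul_of_nonneg_right (by linarith) hE
      _ ≤ z * ((L + a) * E) := le_mul_of_one_le_left (by positivity) hz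
      _ ≤ z * ((L + a) * E) * h ^ 2 := le_mul_of_one_le_right (by positivity) hh2
      _ = _ := by ring
  have t2 : κ ^ 2 * u ^ 2 * v ^ 13 * (L * E) ≤ κ ^ 20 * u ^ 15 * (z * (L + a) * E * h ^ 2) := by
    refine mul_le_mul (mono_le hκ hu hv0 hv 2 2 13 (by norm_num) (by norm_num)) ?_
      (by positivity) (by positivity)
    calc L * E ≤ (L + a) * E := mul_le_mul_of_nonneg_right (by linarith) hE
      _ ≤ z * ((L + a) * E) := le_mul_of_one_le_left (by positivity) hz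
      _ ≤ z * ((L + a) * E) * h ^ 2 := le_mul_of_one_le_right (by positivity) hh2
      _ = _ := by ring
  have t3 : κ ^ 7 * u ^ 0 * v ^ 12 * (z * a * E * h ^ 2) ≤
      κ ^ 20 * u ^ 15 * (z * (L + a) * E * h ^ 2) := by
    refine mul_le_mul (mono_le hκ hu hv0 hv 7 0 12 (by norm_num) (by norm_num)) ?_
      (by positivity) (by positivity)
    have : a ≤ L + a := by linarith
    gcongr
  refine hV2.trans ?_
  have c1 : 0 ≤ e1 * C1 * (16 * C2 ^ 2) := by positivity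
  have c2 : 0 ≤ e1 * C1 * (256 * P * (512 * C2 ^ 2 * C5 ^ 3)) := by positivity
  have c3 : 0 ≤ e1 * C1 * (256 * P * (18 * C6 * C3 ^ 2 * C5 * C4)) := by positivity
  calc _ = e1 * C1 * (16 * C2 ^ 2) * (κ ^ 1 * u ^ 0 * v ^ 3 * (L * E)) +
        e1 * C1 * (256 * P * (512 * C2 ^ 2 * C5 ^ 3)) * (κ ^ 2 * u ^ 2 * v ^ 13 * (L * E)) +
        e1 * C1 * (256 * P * (18 * C6 * C3 ^ 2 * C5 * C4)) *
          (κ ^ 7 * u ^ 0 * v ^ 12 * (z * a * E * h ^ 2)) := by ring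
    _ ≤ e1 * C1 * (16 * C2 ^ 2) * (κ ^ 20 * u ^ 15 * (z * (L + a) * E * h ^ 2)) +
        e1 * C1 * (256 * P * (512 * C2 ^ 2 * C5 ^ 3)) *
          (κ ^ 20 * u ^ 15 * (z * (L + a) * E * h ^ 2)) +
        e1 * C1 * (256 * P * (18 * C6 * C3 ^ 2 * C5 * C4)) *
          (κ ^ 20 * u ^ 15 * (z * (L + a) * E * h ^ 2)) :=
        add_le_add (add_le_add (mul_le_mul_of_nonneg_left t1 c1)
          (mul_le_mul_of_nonneg_left t2 c2)) (mul_le_mul_of_nonneg_left t3 c3)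
    _ = _ := by ring

lemma S_inv_le {X : ℝ} (hX : 1 ≤ X) {ε : ℝ} (hε : 0 < ε) :
    ∑ f ∈ S X, 1 / (nm f : ℝ) ≤ 100 * (1 + 1 / ε) * X ^ ε := by
  have hX0 : 0 ≤ X := by linarith
  have hsub : S X ⊆ bl X := fun n hn => by
    rw [mem_S hX0] at hn
    rw [mem_bl hX0]
    exact ⟨hn.2.1.ne_zero, hn.1⟩
  have h1 : ∑ f ∈ S X, 1 / (nm f : ℝ) ≤ ∑ f ∈ bl X, 1 / (nm f : ℝ) :=
    Finset.sum_le_sum_of_subset_of_nonneg hsub (fun _ _ _ => by positivity)
  have h2 : ∑ f ∈ bl X, 1 / (nm f : ℝ) ≤ 100 * (1 + Real.log X) := by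
    have h := Div277.sum_inv_nz_le ⌊X⌋₊
    have h1 : bl X = Div277.nz ⌊X⌋₊ := rfl
    rw [h1]
    refine h.trans ?_
    have h2 : Real.log (⌊X⌋₊ : ℝ) ≤ Real.log X := by
      have h3 : (0 : ℝ) < ⌊X⌋₊ := by exact_mod_cast Nat.floor_pos.mpr hX
      exact Real.log_le_log h3 (Nat.floor_le (by linarith))
    linarith
  have h3 : Real.log X ≤ X ^ ε / ε := Real.log_le_rpow_div hX0 hε
  have h4 : 1 ≤ X ^ ε := Real.one_le_rpow hX hε.le
  calc _ ≤ 100 * (1 + Real.log X) := h1.trans h2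
    _ ≤ 100 * (X ^ ε + X ^ ε / ε) := by linarith
    _ = _ := by ring

/-- **(P') for closed families** -/
theorem G_rule {J : Type} {Φ : Fam J} {R A : ℝ} (hΦ : Φ.Ok R A) {ε : ℝ} (hε : 0 < ε) :
    ∃ C : ℝ, 1 ≤ C ∧ ∀ X0 L a : ℝ, 1 ≤ X0 → 1 ≤ L → L ≤ X0 → 0 ≤ a →
      ∀ j : J, Real.exp (Φ.len j) ≤ X0 → ∀ q : Eis, IsPrim q →
      (∀ j' q', Φ.good j' → Φ.dom R j' j → Φ.len j' ≤ Φ.len j + R → IsPrim q' → q ∣ q' →
        (nm q' : ℝ) ≤ nm q * (C * X0) →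
        VC (C * X0 ^ ε * Real.exp (Φ.len j) ^ 2 / L) (TP320.sq q' (Φ.w j')) ≤
          a / L * Real.exp (Φ.len j + Φ.len j') * Φ.ht j' ^ 2) →
      VG L (TP320.sq q (Φ.w j)) ≤ C * X0 ^ ε * (L + a) * Real.exp (Φ.len j) * Φ.ht j ^ 2 := by
  set ε' := min ε 1 / 40 with hε'
  have hmin : 0 < min ε 1 := lt_min hε one_pos
  have hε0 : 0 < ε' := by positivity
  have hεε : ε' ≤ ε / 40 := by rw [hε']; exact div_le_div_of_nonneg_right (min_le_left _ _) (by norm_num)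
  have hε1 : ε' ≤ 1 / 40 := by rw [hε']; exact div_le_div_of_nonneg_right (min_le_right _ _) (by norm_num)
  have hR := hΦ.R0
  have hA := hΦ.A0
  set M : ℕ := ⌈A⌉₊ + 1 with hM
  have hMA : A + 1 ≤ M := by rw [hM]; push_cast; linarith [Nat.le_ceil A]
  have hM1 : 1 ≤ M := by omega
  obtain ⟨C1, hC1, hit⟩ := iterG (σ := ε') hε0 (by linarith) hε0 hM1
  obtain ⟨C2, hC2, hbd⟩ := hΦ.bd ε' hε0
  obtain ⟨C3, hC3, hsp⟩ := hΦ.split ε' (1 / 2 - ε') hε0
  obtain ⟨C4, hC4, htau⟩ := tau_le_rpow hε0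
  set C5 : ℝ := 100 * (1 + 1 / ε') with hC5
  set C6 : ℝ := 1 + 1 / ε' with hC6
  set κ : ℝ := Real.exp R with hκ
  have hκ1 : 1 ≤ κ := Real.one_le_exp hR
  have hC50 : 0 ≤ C5 := by positivity
  have hC60 : 0 ≤ C6 := by positivity
  set P : ℝ := (2 : ℝ) ^ A * Real.pi with hP
  have hP0 : 0 ≤ P := by have := Real.pi_pos; positivity
  set Ct : ℝ := Real.exp 1 * C1 * κ ^ 20 * (16 * C2 ^ 2 + 256 * P * (512 * C2 ^ 2 * C5 ^ 3 +
      18 * C6 * C3 ^ 2 * C5 * C4)) with hCt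
  set C : ℝ := 18 * κ ^ 6 + Ct with hC
  have hCt0 : 0 ≤ Ct := by positivity
  have hκ6 : 1 ≤ κ ^ 6 := one_le_pow₀ hκ1
  have hC1' : 1 ≤ C := by linarith
  refine ⟨C, hC1', fun X0 L a hX0 hL hLX ha j hj q hq HV => ?_⟩
  have hC0 : 0 ≤ C := by linarith
  have hX0p : 0 < X0 := by linarith
  have hLp : 0 < L := by linarith
  set E := Real.exp (Φ.len j) with hE
  have hEp : 0 < E := Real.exp_pos _
  set X := Real.exp (Φ.len j + R) with hX
  have hXE : X = κ * E := by rw [hX, hκ, hE, ← Real.exp_add]; congr 1; ring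
  have hht := hΦ.ht1 j
  have hRHS : 0 ≤ C * X0 ^ ε * (L + a) * E * Φ.ht j ^ 2 := by positivity
  have hwX : ∀ n, Φ.w j n ≠ 0 → (nm n : ℝ) ≤ X := by
    intro n hn
    have h1 := (abs_le.1 (hΦ.supp j n hn)).2
    have hn0 : (0 : ℝ) < nm n := by exact_mod_cast nm_pos.2 (hΦ.prim j n hn).ne_zero
    rw [hX, ← Real.log_le_iff_le_exp hn0]
    linarith
  by_cases hX1 : 1 ≤ X
  swap
  · -- empty
    have h0 : TP320.sq q (Φ.w j) = fun _ => 0 := by
      funext n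
      unfold TP320.sq
      split_ifs with h
      · by_contra h0
        have h1 := hwX n h0
        have h2 : (1 : ℝ) ≤ nm n := by exact_mod_cast nm_pos.2 h.1.ne_zero
        exact hX1 (h2.trans h1)
      · rfl
    have h1 : VG L (TP320.sq q (Φ.w j)) = 0 := by
      rw [h0]
      unfold VG TG
      simp
    rw [h1]
    exact hRHS
  have hXX0 : X ≤ κ * X0 := by rw [hXE]; exact mul_le_mul_of_nonneg_left hj (by linarith)
  have hXp : 0 < X := by linarith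
  set α := TP320.sq q (Φ.w j) with hα
  have hsupp : Supp α X := by
    intro n hn
    rw [mem_S hXp.le]
    rw [hα] at hn
    unfold TP320.sq at hn
    split_ifs at hn with h
    · exact ⟨hwX n hn, h.1, h.2.1⟩
    · exact absurd rfl hn
  set u := X0 ^ ε' with hu
  set v := X ^ ε' with hv
  set z := X0 ^ (3 * ε / 40) with hz
  have hu1 : 1 ≤ u := Real.one_le_rpow hX0 hε0.le
  have hv1 : 1 ≤ v := Real.one_le_rpow hX1 hε0.le
  have hz1 : 1 ≤ z := Real.one_le_rpow hX0 (by positivity)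
  have hκe : κ ^ ε' ≤ κ := by
    calc κ ^ ε' ≤ κ ^ (1 : ℝ) := Real.rpow_le_rpow_of_exponent_le hκ1 (by linarith)
      _ = κ := Real.rpow_one _
  have hvκ : v ≤ κ * u := by
    calc v ≤ (κ * X0) ^ ε' := Real.rpow_le_rpow hXp.le hXX0 hε0.le
      _ = κ ^ ε' * u := Real.mul_rpow (by linarith) hX0p.le
      _ ≤ κ * u := mul_le_mul_of_nonneg_right hκe (by linarith)
  have hLu : L ^ ε' ≤ u := Real.rpow_le_rpow hLp.le hLX hε0.le
  have hXL : (X * L) ^ ε' ≤ κ * u ^ 2 := by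
    rw [Real.mul_rpow hXp.le hLp.le]
    calc X ^ ε' * L ^ ε' ≤ (κ * u) * u := mul_le_mul hvκ hLu (by positivity) (by positivity)
      _ = _ := by ring
  have hα_bd : ∀ n, IsPrim n → ‖α n‖ ≤ C2 * v := by
    intro n hn
    rw [hα]
    unfold TP320.sq
    split_ifs with h
    · by_cases h0 : Φ.w j n = 0
      · rw [h0, norm_zero]; positivity
      · refine (hbd j n).trans ?_
        refine mul_le_mul_of_nonneg_left ?_ (by linarith)
        exact Real.rpow_le_rpow (Nat.cast_nonneg _) (hwX n h0) hε0.le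
    · rw [norm_zero]; positivity
  -- the frequencies
  set Λ0 : ℝ := 18 * κ ^ 6 * X0 ^ ε * E ^ 2 / L with hΛ0
  have hΛ0p : 0 ≤ Λ0 := by positivity
  have hΛle : Λ0 ≤ C * X0 ^ ε * E ^ 2 / L := by
    rw [hΛ0]
    have : 18 * κ ^ 6 ≤ C := by linarith
    gcongr
  have hue : u ^ 5 ≤ X0 ^ ε := by
    rw [hu, ← Real.rpow_natCast, ← Real.rpow_mul hX0p.le]
    apply Real.rpow_le_rpow_of_exponent_le hX0
    push_cast
    linarith
  have hΛ : 18 * (X * L) ^ ε' * (X ^ ε') ^ 3 * X ^ 2 / L ≤ Λ0 := by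
    rw [hΛ0]
    apply div_le_div_of_nonneg_right _ hLp.le
    have h1 : (X ^ ε') ^ 3 ≤ (κ * u) ^ 3 := pow_le_pow_left₀ (by positivity) hvκ 3
    calc 18 * (X * L) ^ ε' * (X ^ ε') ^ 3 * X ^ 2 ≤
          18 * (κ * u ^ 2) * (κ * u) ^ 3 * (κ * E) ^ 2 := by
          rw [← hXE]
          gcongr
      _ = 18 * κ ^ 6 * u ^ 5 * E ^ 2 := by ring
      _ ≤ 18 * κ ^ 6 * X0 ^ ε * E ^ 2 := by gcongr
  set Tt : ℝ := C4 * (18 * κ ^ 6) * z with hTt
  have hT : ∀ r ∈ bl Λ0, (tau r : ℝ) ≤ Tt := by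
    intro r hr
    have hr' := (mem_bl hΛ0p).1 hr
    refine (htau r hr'.1).trans ?_
    rw [hTt, mul_assoc]
    refine mul_le_mul_of_nonneg_left ?_ (by linarith)
    have h1 : (nm r : ℝ) ≤ (18 * κ ^ 6) * X0 ^ (ε + 2) := by
      refine hr'.2.trans ?_
      rw [hΛ0, Real.rpow_add hX0p]
      have h2 : X0 ^ (2 : ℝ) = X0 ^ 2 := by rw [← Real.rpow_natCast]; norm_num
      rw [h2]
      calc 18 * κ ^ 6 * X0 ^ ε * E ^ 2 / L ≤ 18 * κ ^ 6 * X0 ^ ε * E ^ 2 :=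
            div_le_self (by positivity) hL
        _ ≤ 18 * κ ^ 6 * X0 ^ ε * X0 ^ 2 := by gcongr
        _ = _ := by ring
    calc (nm r : ℝ) ^ ε' ≤ ((18 * κ ^ 6) * X0 ^ (ε + 2)) ^ ε' :=
          Real.rpow_le_rpow (Nat.cast_nonneg _) h1 hε0.le
      _ = (18 * κ ^ 6) ^ ε' * X0 ^ ((ε + 2) * ε') := by
          rw [Real.mul_rpow (by positivity) (by positivity), ← Real.rpow_mul hX0p.le]
      _ ≤ (18 * κ ^ 6) * z := by
          refine mul_le_mul ?_ ?_ (by positivity) (by positivity)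
          · calc (18 * κ ^ 6) ^ ε' ≤ (18 * κ ^ 6) ^ (1 : ℝ) :=
                  Real.rpow_le_rpow_of_exponent_le (by linarith) (by linarith)
              _ = _ := Real.rpow_one _
          · apply Real.rpow_le_rpow_of_exponent_le hX0
            nlinarith
  have D : Dat Φ R A ε' ε' C3 j q X L Λ0 a Tt (C5 * v) (C2 * v) :=
    { ok := hΦ
      sp := hsp
      σ0 := hε0.le
      ε0 := hε0.le
      hX := hX
      X1 := hX1
      L1 := hL
      Λ0 := hΛ0p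
      a0 := ha
      T0 := by positivity
      hT := hT
      hS := S_inv_le hX1 hε0
      B0 := by positivity
      hB := hα_bd
      HV := by
        intro j' f hg hd hl hf
        have hf' := (mem_S hXp.le).1 hf
        have h1 := HV j' (q * f) hg hd hl (hq.mul hf'.2.1) (dvd_mul_right _ _) (by
          rw [nm_mul, Nat.cast_mul]
          refine mul_le_mul_of_nonneg_left ?_ (Nat.cast_nonneg _)
          refine hf'.1.trans (hXX0.trans ?_)
          refine mul_le_mul_of_nonneg_right ?_ hX0p.le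
          have : κ ≤ κ ^ 6 := le_self_pow₀ hκ1 (by norm_num)
          linarith)
        exact (TP320.VC_mono hΛ0p hΛle _).trans h1 }
  have h1 := VG_le_VGe hXp.le hLp hsupp
  have h2 := hit X L hX1 hL α hsupp
  have h3 := dual_all D hMA hΛ
  have h4 : ∑ h ∈ S X, ‖α h‖ ^ 2 ≤ 16 * (κ * E) * (C2 * v) ^ 2 := by
    calc ∑ h ∈ S X, ‖α h‖ ^ 2 ≤ ∑ h ∈ S X, (C2 * v) ^ 2 := by
          refine Finset.sum_le_sum fun h hh => ?_
          exact pow_le_pow_left₀ (norm_nonneg _) (hα_bd h ((mem_S hXp.le).1 hh).2.1) 2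
      _ = ((S X).card : ℝ) * (C2 * v) ^ 2 := by rw [Finset.sum_const, nsmul_eq_mul]
      _ ≤ (16 * X) * (C2 * v) ^ 2 :=
          mul_le_mul_of_nonneg_right (cardS_le hXp.le) (by positivity)
      _ = _ := by rw [hXE]
  have h5 : VG L α ≤ Real.exp 1 * (C1 * v * (L * (∑ h ∈ S X, ‖α h‖ ^ 2) + v ^ 3 *
      ((16 * v) ^ 2 * ((K1 X L (C2 * v) ε' ε' (C5 * v) +
        K2 X C3 ε' ε' (Real.exp (Φ.len j + R)) (C5 * v) Tt a (Φ.ht j)) * P)))) := by
    refine h1.trans (mul_le_mul_of_nonneg_left (h2.trans ?_) (Real.exp_pos _).le)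
    refine mul_le_mul_of_nonneg_left (add_le_add_right ?_ _) (by positivity)
    have e1 : X ^ (3 * ε') = v ^ 3 := by
      rw [hv, ← Real.rpow_natCast, ← Real.rpow_mul hXp.le]; congr 1; push_cast; ring
    rw [e1]
    exact mul_le_mul_of_nonneg_left h3 (by positivity)
  have hk1 : K1 X L (C2 * v) ε' ε' (C5 * v) ≤
      512 * (κ * u ^ 2) * ((C2 * v) ^ 2 * v ^ 2 * (C5 * v)) * (L * (κ * E)) * (C5 * v) ^ 2 := by
    unfold K1
    have e1 : X ^ (2 * ε') = v ^ 2 := by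
      rw [hv, ← Real.rpow_natCast, ← Real.rpow_mul hXp.le]; congr 1; push_cast; ring
    rw [e1, ← hXE]
    have : 0 ≤ L * X := by positivity
    gcongr
  have hk2 : K2 X C3 ε' ε' (Real.exp (Φ.len j + R)) (C5 * v) Tt a (Φ.ht j) ≤
      C6 * v * (C3 ^ 2 * v ^ 4 * (κ * E) * ((C5 * v) * (C4 * (18 * κ ^ 6) * z) * a) *
      Φ.ht j ^ 2) := by
    unfold K2
    have e1 : X ^ (2 * ε' + 2 * ε') = v ^ 4 := by
      rw [hv, ← Real.rpow_natCast, ← Real.rpow_mul hXp.le]; congr 1; push_cast; ring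
    have e2 : Real.exp (Φ.len j + R) = κ * E := hXE
    rw [e1, e2]
    have h6 : Real.log X + 1 ≤ C6 * v := by
      have h3 : Real.log X ≤ X ^ ε' / ε' := Real.log_le_rpow_div hXp.le hε0
      calc Real.log X + 1 ≤ v / ε' + v := add_le_add h3 hv1
        _ = C6 * v := by rw [hC6]; ring
    exact mul_le_mul_of_nonneg_right h6 (by positivity)
  have fin := fin_arith (Real.exp_pos 1).le (by linarith) (by linarith) hC50 hC60 hP0 hκ1 hu1
    (by linarith) hvκ hz1 hLp.le hEp.le ha hht h4 hk1 hk2 h5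
  refine fin.trans ?_
  have huz : u ^ 15 * z ≤ X0 ^ ε := by
    rw [hu, hz, ← Real.rpow_natCast, ← Real.rpow_mul hX0p.le, ← Real.rpow_add hX0p]
    apply Real.rpow_le_rpow_of_exponent_le hX0
    push_cast
    linarith
  have hCC : Ct ≤ C := by linarith
  have : 0 ≤ L + a := by linarith
  gcongr

end Crest.Agent.R017.GR106
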