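import Crest.Agent.R017.TPTy_571

/-!
# Row 17: finite products of a closed family (helper571)

* `cv_zero`, `cv_succ` : `HP842.cv` over `Fin n` is iterated convolution
* `Fam.pi Φ n : Fam (Fin n → J)`, `w j = HP842.cv (fun i => Φ.w (j i))`; `pi_ok`
* `SD h μ n` : the family of all sides with `n` typed pieces, `w j = HP842.al h (fun i => (j i).pc)`
-/

set_option autoImplicit false

noncomputable section

open Complex MeasureTheory
open scoped ComplexConjugate ContDiff

namespace Crest.Agent.R017.TPOk571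

open Crest.Agent.R012 Crest.Agent.R012.Eis Crest.Agent.R012.LS2 Crest.Agent.R012.Gauss880
open Crest.Agent.R012.Div277 Crest.Agent.R012.Weight600 Crest.Agent.R012.Mob705
open Crest.Agent.R012.PSer47 Crest.Agent.R017.End699 Crest.Agent.R017.FE47
open Crest.Agent.R017.TP320 Crest.Agent.R017.CM106
open Crest.Agent.R017.HP842 (UT uv Pc cv Tu mem_Tu cv_not_prim)

/-! ### iterated convolutions -/

open Classical in
lemma cv_zero (f : Fin 0 → Eis → ℂ) (b : Eis) : cv f b = if b = 1 then 1 else 0 := by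
  unfold HP842.cv
  split_ifs with h
  · have e : Tu (Fin 0) b = {fun i => i.elim0} := by
      ext x
      rw [mem_Tu, Finset.mem_singleton]
      constructor
      · intro _; funext i; exact i.elim0
      · intro _; exact ⟨fun i => i.elim0, by rw [Finset.univ_eq_empty, Finset.prod_empty, h]⟩
    rw [e, Finset.sum_singleton, Finset.univ_eq_empty, Finset.prod_empty]
  · have e : Tu (Fin 0) b = ∅ := by
      rw [Finset.eq_empty_iff_forall_notMem]
      intro x hx
      rw [mem_Tu, Finset.univ_eq_empty, Finset.prod_empty] at hx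
      exact h hx.2.symm
    rw [e, Finset.sum_empty]

lemma cv_succ {n : ℕ} (f : Fin (n + 1) → Eis → ℂ) (b : Eis) :
    cv f b = conv (f 0) (cv (fun i : Fin n => f i.succ)) b := by
  classical
  unfold conv
  by_cases hb : IsPrim b
  swap
  · rw [cv_not_prim hb]
    symm
    refine Finset.sum_eq_zero fun d hd => ?_
    have h1 : ¬ IsPrim (b / d) := by
      intro h
      apply hb
      have := (isPrim_of_mem_dvs hd).mul h
      rwa [mul_div_of_mem hd] at this
    rw [cv_not_prim h1, mul_zero]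
  unfold HP842.cv
  have hmaps : ∀ x ∈ Tu (Fin (n + 1)) b, x 0 ∈ dvs b := by
    intro x hx
    rw [mem_Tu] at hx
    rw [mem_dvs hb.ne_zero]
    exact ⟨hx.1 0, by rw [← hx.2]; exact Finset.dvd_prod_of_mem _ (Finset.mem_univ 0)⟩
  rw [← Finset.sum_fiberwise_of_maps_to hmaps]
  refine Finset.sum_congr rfl fun d hd => ?_
  have hdp := isPrim_of_mem_dvs hd
  rw [Finset.mul_sum]
  symm
  refine Finset.sum_bij (fun y _ => (Fin.cons d y : Fin (n + 1) → Eis)) ?_ ?_ ?_ ?_
  · intro y hy
    rw [mem_Tu] at hy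
    rw [Finset.mem_filter, mem_Tu]
    refine ⟨⟨fun i => ?_, ?_⟩, rfl⟩
    · refine Fin.cases ?_ (fun i => ?_) i
      · exact hdp
      · exact hy.1 i
    · rw [Fin.prod_univ_succ]
      simp only [Fin.cons_zero, Fin.cons_succ]
      rw [hy.2, mul_div_of_mem hd]
  · intro y _ y' _ h
    exact (Fin.cons_injective2 h).2
  · intro x hx
    rw [Finset.mem_filter, mem_Tu] at hx
    refine ⟨fun i => x i.succ, ?_, ?_⟩
    · rw [mem_Tu]
      refine ⟨fun i => hx.1.1 _, ?_⟩
      have h1 := hx.1.2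
      rw [Fin.prod_univ_succ, hx.2] at h1
      rw [← h1, mul_div_left' hdp.ne_zero]
    · rw [← hx.2]
      exact Fin.cons_self_tail x
  · intro y _
    rw [Fin.prod_univ_succ]
    simp only [Fin.cons_zero, Fin.cons_succ]

/-! ### finite products of a family -/

/-- finite products of a family -/
def Fam.pi {J : Type} (Φ : Fam J) (n : ℕ) : Fam (Fin n → J) where
  w j := cv (fun i => Φ.w (j i))
  len j := ∑ i, Φ.len (j i)
  ht j := ∏ i, Φ.ht (j i)
  good j := ∀ i, Φ.good (j i)
  dom r j' j := ∀ i, Φ.dom r (j' i) (j i)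

lemma pi_ok_zero {J : Type} {Φ : Fam J} {R A : ℝ} (hΦ : Φ.Ok R A) : (Fam.pi Φ 0).Ok 0 0 where
  R0 := le_rfl
  A0 := le_rfl
  ht1 j := by
    have e : (Fam.pi Φ 0).ht j = ∏ i, Φ.ht (j i) := rfl
    rw [e, Finset.univ_eq_empty, Finset.prod_empty]
  prim j n hn := by
    classical
    have e : (Fam.pi Φ 0).w j n = cv (fun i => Φ.w (j i)) n := rfl
    rw [e, cv_zero] at hn
    split_ifs at hn with h
    · rw [h]; exact isPrim_one
    · exact absurd rfl hn
  supp j n hn := by
    classical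
    have e : (Fam.pi Φ 0).w j n = cv (fun i => Φ.w (j i)) n := rfl
    have e' : (Fam.pi Φ 0).len j = ∑ i, Φ.len (j i) := rfl
    rw [e, cv_zero] at hn
    rw [e', Finset.univ_eq_empty, Finset.sum_empty]
    split_ifs at hn with h
    · rw [h]; simp
    · exact absurd rfl hn
  bd ε hε := by
    classical
    refine ⟨1, le_rfl, fun j n => ?_⟩
    have e : (Fam.pi Φ 0).w j n = cv (fun i => Φ.w (j i)) n := rfl
    rw [e, cv_zero]
    split_ifs with h
    · rw [h]; simp
    · simp only [norm_zero]; positivity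
  dom_refl j := fun i => i.elim0
  dom_mono r r' j j' hr h := fun i => i.elim0
  dom_trans r r' j j' j'' h h' := fun i => i.elim0
  split ε s0 hε := by
    classical
    refine ⟨Real.exp |s0|, Real.one_le_exp (abs_nonneg _), ?_⟩
    intro j α τ ι _ T v M hM hT hb
    have ew : ∀ n, (Fam.pi Φ 0).w j n = if n = 1 then 1 else 0 := fun n => cv_zero _ n
    have el : (Fam.pi Φ 0).len j = 0 := by
      have e' : (Fam.pi Φ 0).len j = ∑ i, Φ.len (j i) := rfl
      rw [e', Finset.univ_eq_empty, Finset.sum_empty]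
    have eh : (Fam.pi Φ 0).ht j = 1 := by
      have e : (Fam.pi Φ 0).ht j = ∏ i, Φ.ht (j i) := rfl
      rw [e, Finset.univ_eq_empty, Finset.prod_empty]
    have e1 : ∑ p ∈ T, ((Fam.pi Φ 0).w j (p.1 * p.2) * TP320.tw s0 τ p.2) • v p.1 p.2 =
        ∑ p ∈ T, ((if p.1 = 1 then (1 : ℂ) else 0) * (Fam.pi Φ 0).w j p.2) • v p.1 p.2 := by
      refine Finset.sum_congr rfl fun p hp => ?_
      obtain ⟨q1, q2, _⟩ := hT p hp
      congr 1
      rw [ew, ew]
      by_cases h : p.1 * p.2 = 1
      · obtain ⟨h1, h2⟩ := (mul_eq_one_prim q1 q2).1 h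
        rw [if_pos h, if_pos h1, if_pos h2, h2]
        simp [TP320.tw]
      · rw [if_neg h]
        by_cases h1 : p.1 = 1
        · have h2 : p.2 ≠ 1 := fun h2 => h ((mul_eq_one_prim q1 q2).2 ⟨h1, h2⟩)
          rw [if_neg h2]; ring
        · rw [if_neg h1]; ring
    rw [e1, el, eh]
    have hC : 0 ≤ Real.exp |s0| * Real.exp (ε * |α|) * Real.exp (-s0 * (0 - α)) *
        (1 + |τ|) ^ (0 : ℝ) * M * 1 := by positivity
    by_cases hex : ∃ p ∈ T, p.1 = 1
    · obtain ⟨p, hp, hp1⟩ := hex
      obtain ⟨q1, q2, q3, q4, q5⟩ := hT p hp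
      rw [hp1] at q4 q5
      simp only [nm_one, Nat.cast_one, Real.log_one] at q4 q5
      have h1 := hb (fun a => if a = 1 then 1 else 0) (fun a => by split_ifs <;> simp) j
        (fun i => i.elim0) (fun i => i.elim0) (by rw [el]; linarith) (by rw [el]; linarith)
      rw [eh, mul_one] at h1
      refine h1.trans ?_
      have h2 : 1 ≤ Real.exp (ε * |α|) := Real.one_le_exp (by positivity)
      have h3 : 1 ≤ Real.exp |s0| * Real.exp (-s0 * (0 - α)) := by
        rw [← Real.exp_add]
        apply Real.one_le_exp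
        have h4 : |s0 * α| ≤ |s0| * 1 := by
          rw [abs_mul]
          gcongr
          rw [abs_le]; constructor <;> linarith
        have h5 := neg_abs_le (s0 * α)
        linarith
      rw [Real.rpow_zero, mul_one, mul_one]
      calc M = 1 * 1 * M := by ring
        _ ≤ (Real.exp |s0| * Real.exp (-s0 * (0 - α))) * Real.exp (ε * |α|) * M := by gcongr
        _ = _ := by ring
    · push Not at hex
      rw [Finset.sum_eq_zero fun p hp => by rw [if_neg (hex p hp), zero_mul, zero_smul], norm_zero]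
      exact hC

/-- **finite products of a closed family are closed** -/
theorem pi_ok {J : Type} {Φ : Fam J} {R A : ℝ} (hΦ : Φ.Ok R A) (n : ℕ) :
    (Fam.pi Φ n).Ok (n * (R + 1)) (n * A) := by
  induction n with
  | zero => simpa using pi_ok_zero hΦ
  | succ n ih =>
    have hm := mul_ok hΦ ih
    have e1 : R + n * (R + 1) + 1 = ((n + 1 : ℕ) : ℝ) * (R + 1) := by push_cast; ring
    have e2 : A + n * A = ((n + 1 : ℕ) : ℝ) * A := by push_cast; ring
    rw [e1, e2] at hm
    refine Ok.comap (fun j : Fin (n + 1) → J => (j 0, fun i : Fin n => j i.succ)) ?_ ?_ ?_ hm ?_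
      ?_ ?_ ?_
    · intro j m
      exact cv_succ _ _
    · intro j
      have e : (Fam.pi Φ (n + 1)).len j = ∑ i, Φ.len (j i) := rfl
      rw [e, Fin.sum_univ_succ]
      rfl
    · intro j
      have e : (Fam.pi Φ (n + 1)).ht j = ∏ i, Φ.ht (j i) := rfl
      rw [e, Fin.prod_univ_succ]
      rfl
    · rintro j ⟨a, b⟩ hg hd
      refine ⟨Fin.cons a b, ?_, ?_, ?_⟩
      · simp only [Fin.cons_zero, Fin.cons_succ]
      · intro i
        refine Fin.cases ?_ (fun i => ?_) i
        · exact hg.1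
        · exact hg.2 i
      · intro i
        refine Fin.cases ?_ (fun i => ?_) i
        · exact hd.1
        · exact hd.2 i
    · intro j i
      exact hΦ.dom_refl _
    · intro r r' j j' hr h i
      exact hΦ.dom_mono _ _ _ _ hr (h i)
    · intro r r' j j' j'' h h' i
      exact hΦ.dom_trans _ _ _ _ _ (h i) (h' i)

/-- **all sides with `n` typed pieces** -/
def SD (h : ℝ → ℝ) (μ : ℝ) (n : ℕ) : Fam (Fin n → IP) := Fam.pi (FP h μ) n

lemma SD_w (h : ℝ → ℝ) (μ : ℝ) (n : ℕ) (j : Fin n → IP) :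
    (SD h μ n).w j = HP842.al h (fun i => (j i).pc) := rfl

lemma SD_len (h : ℝ → ℝ) (μ : ℝ) (n : ℕ) (j : Fin n → IP) :
    (SD h μ n).len j = ∑ i, (j i).z := rfl

lemma SD_ht (h : ℝ → ℝ) (μ : ℝ) (n : ℕ) (j : Fin n → IP) :
    (SD h μ n).ht j = ∏ i, (1 + |(j i).s|) ^ μ := rfl

/-- **the family of all sides is closed** -/
theorem sd_ok {h : ℝ → ℝ} {c : ℝ} (hpu : PU h c) {R : ℝ} (hR0 : 0 ≤ R)
    (hR : ∀ u, cx h u ≠ 0 → |u| ≤ R) {μ : ℝ} (hμ : 0 ≤ μ) (n : ℕ) :
    (SD h μ n).Ok (n * (2 * R + 3)) (n * μ) := by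
  have h1 := pi_ok (fp_ok hpu hR0 hR hμ) n
  have e : (2 * R + 2 : ℝ) + 1 = 2 * R + 3 := by ring
  rw [e] at h1
  exact h1

end Crest.Agent.R017.TPOk571
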