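import Crest.Agent.R017.HP6_842
import Crest.Agent.R017.XHB4_411
import Crest.Agent.R017.GR3_106
import Crest.Agent.R017.TPPi_571

/-!
# Row 17, provider: the raw dual rule (P') in BG form (helper106), part 1

* `Rl C W p' p` : `p'` is a shortening of the piece `p`
* `exists_test` : a test piece with `|CS| = const`
* `rep_le` : a piece of any length is dominated by a piece of nonnegative length
-/

set_option autoImplicit false

noncomputable section

open Complex
open scoped ComplexConjugate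

namespace Crest.Agent.R017.XRG106

open Crest.Agent.R012 Crest.Agent.R012.Eis Crest.Agent.R012.LS2 Crest.Agent.R012.Gauss880
open Crest.Agent.R012.PSer47 (IsChar ang_isChar)
open Crest.Agent.R012.Div277 Crest.Agent.R012.Weight600
open Crest.Agent.R017.CM106 Crest.Agent.R017.FE47 Crest.Agent.R017.End699
open Crest.Agent.R017.B770
open Crest.Agent.R017.Prov71
open Crest.Agent.R017.HP842 (UT Pc pc KS sqc Kg uv alL al ssub norm_uv_le pc_support)
open Crest.Agent.R017.HSep813 (gw norm_gw_le)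

/-- the relation child - parent -/
structure Rl (C W : ℝ) (p' p : Pq) : Prop where
  kd : p'.kd = p.kd
  one : p.u = .one → p'.u = .one
  z0 : 0 ≤ p'.z
  zle : p'.z ≤ p.z + C
  ht : 1 + |p'.t| ≤ W * (1 + |p.t|)
  dd : (nm p'.d : ℝ) ≤ C * nm p.d * Real.exp p.z

lemma Rl.mono {C C' W : ℝ} {p' p : Pq} (h : Rl C W p' p) (hC : C ≤ C') : Rl C' W p' p where
  kd := h.kd
  one := h.one
  z0 := h.z0
  zle := h.zle.trans (by linarith)
  ht := h.ht
  dd := h.dd.trans (by
    have := Real.exp_pos p.z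
    gcongr)

/-! ### norms -/

lemma norm_pc_le {h : ℝ → ℝ} {H0 : ℝ} (h0 : 0 ≤ H0) (hH : ∀ u, ‖cx h u‖ ≤ H0) {p : Pc}
    (hp : p.OK) (b : Eis) : ‖pc h p b‖ ≤ H0 := by
  classical
  unfold HP842.pc
  split_ifs with hb
  · have h1 : ‖p.ψ b‖ ≤ 1 := by
      rcases hp.ch.norm b hb with h | h
      · rw [h, norm_zero]; exact zero_le_one
      · exact h.le
    have h2 := norm_gw_le hH p.Y p.t b
    have h3 := norm_uv_le p.u b
    rw [norm_mul, norm_mul]
    calc ‖uv p.u b‖ * ‖p.ψ b‖ * ‖gw h p.Y p.t b‖ ≤ 1 * 1 * H0 := by gcongr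
      _ = H0 := by ring
  · simpa using h0

lemma norm_CS_le {α : Eis → ℂ} {A : Finset Eis} {H0 : ℝ} (hA : ∀ m, α m ≠ 0 → m ∈ A)
    (hAp : ∀ m ∈ A, IsPrim m)
    (hH : ∀ m, ‖α m‖ ≤ H0) (k : Eis) : ‖CS α k‖ ≤ A.card * H0 := by
  unfold CM106.CS
  rw [tsum_eq_sum (s := A) fun m hm => by
    have : α m = 0 := by
      by_contra h
      exact hm (hA m h)
    rw [this, zero_mul]]
  refine (norm_sum_le _ _).trans ?_
  calc ∑ m ∈ A, ‖α m * sy k m‖ ≤ ∑ _m ∈ A, H0 := by
        refine Finset.sum_le_sum fun m hm => ?_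
        rw [norm_mul]
        have h1 : ‖sy k m‖ ≤ 1 := Gauss880.norm_sy_le syG (hAp m hm)
        have h2 := hH m
        have h3 := norm_nonneg (α m)
        calc ‖α m‖ * ‖sy k m‖ ≤ ‖α m‖ * 1 := by gcongr
          _ ≤ H0 := by rw [mul_one]; exact h2
    _ = A.card * H0 := by rw [Finset.sum_const, nsmul_eq_mul]

/-! ### the test piece -/

lemma not_coprime_of_dvd {b D : Eis} (hb : IsPrim b) (hb1 : b ≠ 1) (hd : b ∣ D) :
    ¬ IsCoprime b D := by
  intro h
  have h1 : IsUnit b := h.isUnit_of_dvd' dvd_rfl hd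
  exact hb1 (HP842.eq_one_of_isUnit hb h1)

/-- a modulus killing all primary elements `≠ 1` of norm `≤ N` -/
lemma exists_mod (N : ℕ) : ∃ D : Eis, D ≠ 0 ∧ ∀ b, IsPrim b → b ≠ 1 → nm b ≤ N → prin0 D b = 0 := by
  classical
  refine ⟨∏ b ∈ (primBall N).erase 1, b, ?_, ?_⟩
  · rw [Finset.prod_ne_zero_iff]
    intro b hb
    exact (mem_primBall.1 (Finset.mem_erase.1 hb).2).2.ne_zero
  · intro b hb hb1 hn
    unfold prin0
    rw [if_neg]
    refine not_coprime_of_dvd hb hb1 ?_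
    refine Finset.dvd_prod_of_mem (fun b => b) ?_
    rw [Finset.mem_erase, mem_primBall]
    exact ⟨hb1, hn, hb⟩

/-- **test pieces** -/
theorem exists_test {h : ℝ → ℝ} {c : ℝ} (hpu : PU h c) {R : ℝ}
    (hR : ∀ u, cx h u ≠ 0 → |u| ≤ R) : ∃ (D : Eis) (z η : ℝ) (hD : D ≠ 0), 0 ≤ z ∧ 0 < η ∧
      ∀ (P : DPar), P.OK → ∀ (kd : Kd) (k : Eis),
        ‖CS (pc h ((⟨kd, .one, D, hD, z, 0⟩ : Pq).pc P)) k‖ = η := by
  classical
  obtain ⟨n, hn⟩ : ∃ n : ℕ, h (0 - c * n) ≠ 0 := by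
    by_contra hc
    push Not at hc
    have h1 := hpu.one 0 le_rfl
    rw [tsum_congr hc, tsum_zero] at h1
    exact zero_ne_one h1
  set z : ℝ := c * n with hz
  have hz0 : 0 ≤ z := mul_nonneg hpu.cpos.le (Nat.cast_nonneg n)
  obtain ⟨D, hD, hkill⟩ := exists_mod ⌈Real.exp R * Real.exp z⌉₊
  refine ⟨D, z, ‖cx h (0 - z)‖, hD, hz0, ?_, ?_⟩
  · rw [norm_pos_iff]
    unfold cx
    exact_mod_cast hn
  intro P hP kd k
  have hok := Pq.ok hP (⟨kd, .one, D, hD, z, 0⟩ : Pq)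
  unfold CM106.CS
  rw [tsum_eq_single 1]
  · have e1 : pc h ((⟨kd, .one, D, hD, z, 0⟩ : Pq).pc P) 1 = cx h (0 - z) := by
      unfold HP842.pc
      rw [if_pos isPrim_one, hok.ch.one]
      simp only [Pq.pc_u, Pq.pc_Y, Pq.pc_t]
      unfold gw
      rw [osc_zero_left]
      simp [uv]
    rw [e1, Sym645.sy_one_right, mul_one]
  · intro m hm
    have e1 : pc h ((⟨kd, .one, D, hD, z, 0⟩ : Pq).pc P) m = 0 := by
      by_contra h0
      obtain ⟨h1, h2⟩ := pc_support hR hok.Y0 h0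
      simp only [Pq.pc_Y] at h2
      have h3 : prin0 D m = 0 := by
        refine hkill m h1 hm ?_
        exact_mod_cast h2.trans (Nat.le_ceil _)
      apply h0
      unfold HP842.pc
      rw [if_pos h1]
      simp only [Pq.pc_ψ]
      rw [h3]
      ring
    rw [e1, zero_mul]

/-- the replaced piece -/
def rep (T : Kd → Pq) (p : Pq) : Pq := by
  classical exact if p.z < 0 then T p.kd else p

/-- **replacement** -/
theorem exists_rep {h : ℝ → ℝ} {c : ℝ} (hpu : PU h c) {R : ℝ}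
    (hR : ∀ u, cx h u ≠ 0 → |u| ≤ R) : ∃ (T : Kd → Pq) (C : ℝ), 1 ≤ C ∧
      (∀ kd, (T kd).kd = kd ∧ (T kd).u = .one ∧ 0 ≤ (T kd).z ∧ (T kd).z ≤ C ∧ (T kd).t = 0 ∧
        (nm (T kd).d : ℝ) ≤ C) ∧
      ∀ (P : DPar), P.OK → ∀ (p : Pq) (k : Eis),
        ‖CS (pc h (p.pc P)) k‖ ≤ C * ‖CS (pc h ((rep T p).pc P)) k‖ := by
  classical
  obtain ⟨D, z, η, hD, hz, hη, ht⟩ := exists_test hpu hR
  obtain ⟨H1, hH1⟩ := (cs_cx hpu.cs).exists_bound_of_continuous (cd_cx hpu.cd).continuous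
  set H0 : ℝ := max 1 H1 with hH0d
  have hH01 : 1 ≤ H0 := le_max_left _ _
  have hH : ∀ u, ‖cx h u‖ ≤ H0 := fun u => (hH1 u).trans (le_max_right _ _)
  set M : ℝ := ((primBall ⌈Real.exp R⌉₊).card : ℝ) * H0 with hM
  have hM0 : 0 ≤ M := by positivity
  refine ⟨fun kd => ⟨kd, .one, D, hD, z, 0⟩, max 1 (max z (max (nm D) (M / η))),
    le_max_left _ _, ?_, ?_⟩
  · intro kd
    refine ⟨rfl, rfl, hz, ?_, rfl, ?_⟩
    · exact (le_max_left _ _).trans (le_max_right _ _)
    · exact (le_max_left _ _).trans ((le_max_right _ _).trans (le_max_right _ _))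
  · intro P hP p k
    have hC1 : 1 ≤ max 1 (max z (max (nm D : ℝ) (M / η))) := le_max_left _ _
    have hC2 : M / η ≤ max 1 (max z (max (nm D : ℝ) (M / η))) :=
      (le_max_right _ _).trans ((le_max_right _ _).trans (le_max_right _ _))
    unfold rep
    by_cases hp : p.z < 0
    · rw [if_pos hp, ht P hP]
      have h1 : ‖CS (pc h (p.pc P)) k‖ ≤ M := by
        refine norm_CS_le (A := primBall ⌈Real.exp R⌉₊) (fun m hm => ?_)
          (fun m hm => (mem_primBall.1 hm).2) (norm_pc_le (by linarith) hH (Pq.ok hP p)) k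
        obtain ⟨h1, h2⟩ := pc_support hR (Pq.ok hP p).Y0 hm
        rw [mem_primBall]
        refine ⟨?_, h1⟩
        simp only [Pq.pc_Y] at h2
        have h3 : (nm m : ℝ) ≤ Real.exp R := h2.trans (by
          have : Real.exp p.z ≤ 1 := Real.exp_le_one_iff.2 hp.le
          have h4 := Real.exp_pos R
          nlinarith)
        exact_mod_cast h3.trans (Nat.le_ceil _)
      refine h1.trans ?_
      rw [div_le_iff₀ hη] at hC2
      exact hC2
    · rw [if_neg hp]
      exact le_mul_of_one_le_left (norm_nonneg _) hC1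

/-- pieces of length `< -R` vanish -/
lemma CS_eq_zero {h : ℝ → ℝ} {R : ℝ} (hR : ∀ u, cx h u ≠ 0 → |u| ≤ R) {P : DPar} (hP : P.OK)
    {p : Pq} (hp : p.z < -R) (k : Eis) : CS (pc h (p.pc P)) k = 0 := by
  unfold CM106.CS
  rw [tsum_congr (g := fun _ => 0), tsum_zero]
  intro m
  have : pc h (p.pc P) m = 0 := by
    by_contra h0
    obtain ⟨h1, h2⟩ := pc_support hR (Pq.ok hP p).Y0 h0
    simp only [Pq.pc_Y] at h2
    have h3 : (1 : ℝ) ≤ nm m := by exact_mod_cast nm_pos.2 h1.ne_zero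
    have h4 : Real.exp R * Real.exp p.z < 1 := by
      rw [← Real.exp_add, Real.exp_lt_one_iff]
      linarith
    linarith
  rw [this, zero_mul]

end Crest.Agent.R017.XRG106
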