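import Crest.Agent.R017.RGa_64
import Crest.Agent.R017.XPC_699
import Crest.Agent.R017.XRG1_106

/-!
# Row 17, T.5 / T.7 (helper791): children of derived lists are children of the base list

* `chd_of_rl`, `chdL_of_rl` : `Rl C W` above a list `ps` derived from `ps₀` (`SbL S ps ps₀`) gives
  `Chd Dq hcost (C + S) (C * exp S * X ^ c₀)` above `ps₀`
* `cst_rl` : `cst hcost ps' ps₀ ≤ W ^ n * (Ht ps * Ht (natl ps₀))`
* the same for the replaced base list
-/

set_option autoImplicit false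

noncomputable section

open Complex

namespace Crest.Agent.R017.RlB791

open Crest.Agent.R012 Crest.Agent.R012.Eis
open Crest.Agent.R017.B770
open Crest.Agent.R017.Prov71
open Crest.Agent.R017.XRG106 (Rl)
open Crest.Agent.R017.XP699 (Chd cst hcost)
open Crest.Agent.R017.RG64
open Crest.Agent.R017.Leg381 (Pf LF natl)

lemma chd_of_rl {C W S X c₀ : ℝ} (hX : 0 < X) (hC : 0 ≤ C) {p' : Pq} {p : Pf} {p₀ : Pq}
    (h : Rl C W p' p.1) (hs : Sb S p p₀) (hz : p₀.z ≤ c₀ * Real.log X) :
    Chd Dq hcost (C + S) (C * Real.exp S * X ^ c₀) p' p₀ where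
  kind := h.kd.trans hs.1
  lump := fun hl => ⟨(h.kd.trans hs.1).trans hl.1, h.one (hs.2.2.1 hl.2)⟩
  len0 := h.z0
  len := by
    have h1 := h.zle
    have h2 := hs.2.2.2.2
    show p'.z ≤ p₀.z + (C + S)
    linarith
  s1 := by
    show 1 + |p'.t| ≤ (1 + |p₀.t|) * (1 + |p'.t - p₀.t|)
    have h2 : |p'.t| ≤ |p₀.t| + |p'.t - p₀.t| := by
      have := abs_add_le p₀.t (p'.t - p₀.t)
      rwa [add_sub_cancel] at this
    nlinarith [abs_nonneg p₀.t, abs_nonneg (p'.t - p₀.t)]
  s2 := by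
    show (nm p'.d : ℝ) ≤ nm p₀.d * (C * Real.exp S * X ^ c₀)
    have h1 := h.dd
    rw [hs.2.1] at h1
    refine h1.trans ?_
    have h2 : Real.exp p.1.z ≤ X ^ c₀ * Real.exp S := by
      have h3 : p.1.z ≤ c₀ * Real.log X + S := hs.2.2.2.2.trans (by linarith)
      calc Real.exp p.1.z ≤ Real.exp (c₀ * Real.log X + S) := Real.exp_le_exp.2 h3
        _ = X ^ c₀ * Real.exp S := by
          rw [Real.exp_add, Real.rpow_def_of_pos hX, mul_comm c₀]
    calc C * (nm p₀.d : ℝ) * Real.exp p.1.z ≤ C * nm p₀.d * (X ^ c₀ * Real.exp S) := by gcongr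
      _ = _ := by ring

/-- **children of a derived list are children of the base list** -/
theorem chdL_of_rl {C W S X c₀ : ℝ} (hX : 0 < X) (hC : 0 ≤ C) {ps' : List Pq} {ps : List Pf}
    {ps₀ : List Pq} (h : List.Forall₂ (Rl C W) ps' (ps.map Prod.fst)) (hs : SbL S ps ps₀)
    (hz : ∀ q ∈ ps₀, Dq.len q ≤ c₀ * Real.log X) :
    List.Forall₂ (Chd Dq hcost (C + S) (C * Real.exp S * X ^ c₀)) ps' ps₀ := by
  unfold SbL at hs
  induction hs generalizing ps' with
  | nil =>
    rw [List.map_nil] at h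
    cases h
    exact List.Forall₂.nil
  | @cons p p₀ ps ps₀ h1 _ ih =>
    rw [List.map_cons] at h
    cases h with
    | cons h2 h3 =>
      exact List.Forall₂.cons (chd_of_rl hX hC h2 h1 (hz _ (by simp)))
        (ih h3 fun q hq => hz q (by simp [hq]))

lemma chd_mono' {r r' b b' : ℝ} (hr : r ≤ r') (hb : b ≤ b') {p' p : Pq}
    (h : Chd Dq hcost r b p' p) : Chd Dq hcost r' b' p' p where
  kind := h.kind
  lump := h.lump
  len0 := h.len0
  len := h.len.trans (by linarith)
  s1 := h.s1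
  s2 := h.s2.trans (mul_le_mul_of_nonneg_left hb (Nat.cast_nonneg _))

/-- larger constants -/
theorem chdL_mono {r r' b b' : ℝ} (hr : r ≤ r') (hb : b ≤ b') {ps' ps : List Pq}
    (h : List.Forall₂ (Chd Dq hcost r b) ps' ps) : List.Forall₂ (Chd Dq hcost r' b') ps' ps :=
  h.imp fun _ _ h1 => chd_mono' hr hb h1

lemma one_le_cst : ∀ ps' ps : List Pq, 1 ≤ cst hcost ps' ps
  | [], _ => by simp [XP699.cst]
  | _ :: _, [] => by simp [XP699.cst]
  | p' :: ps', p :: ps => by
    have h1 : cst hcost (p' :: ps') (p :: ps) = hcost p' p * cst hcost ps' ps := by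
      unfold XP699.cst; rw [List.zipWith_cons_cons, List.prod_cons]
    rw [h1]
    exact one_le_mul_of_one_le_of_one_le (XP699.one_le_hcost p' p) (one_le_cst ps' ps)

/-- **the cost of the children** -/
theorem cst_rl {C W S : ℝ} (hW : 1 ≤ W) {ps' : List Pq} {ps : List Pf}
    {ps₀ : List Pq} (h : List.Forall₂ (Rl C W) ps' (ps.map Prod.fst)) (hs : SbL S ps ps₀) :
    cst hcost ps' ps₀ ≤ W ^ ps.length * (Ht ps * Ht (natl ps₀)) := by
  unfold SbL at hs
  induction hs generalizing ps' with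
  | nil =>
    rw [List.map_nil] at h
    cases h
    simp [XP699.cst, natl]
  | @cons p p₀ ps ps₀ h1 _ ih =>
    rw [List.map_cons] at h
    cases h with
    | @cons p' _ ps' _ h2 h3 =>
      have e1 : cst hcost (p' :: ps') (p₀ :: ps₀) = hcost p' p₀ * cst hcost ps' ps₀ := by
        unfold XP699.cst; rw [List.zipWith_cons_cons, List.prod_cons]
      have e2 : Ht (natl (p₀ :: ps₀)) = (1 + |p₀.t|) * Ht (natl ps₀) := by
        show Ht ((p₀, false) :: natl ps₀) = _
        rw [Ht_cons]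
      rw [e1, e2, Ht_cons, List.length_cons]
      have h4 : hcost p' p₀ ≤ W * ((1 + |p.1.t|) * (1 + |p₀.t|)) := by
        have h5 : |p'.t - p₀.t| ≤ |p'.t| + |p₀.t| := abs_sub _ _
        have h6 := h2.ht
        have h7 := abs_nonneg p.1.t
        have h8 := abs_nonneg p₀.t
        unfold XP699.hcost
        have h9 : 1 * |p₀.t| ≤ W * (1 + |p.1.t|) * |p₀.t| := by
          refine mul_le_mul_of_nonneg_right ?_ h8
          exact one_le_mul_of_one_le_of_one_le hW (by linarith)
        calc 1 + |p'.t - p₀.t| ≤ W * (1 + |p.1.t|) + 1 * |p₀.t| := by linarith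
          _ ≤ W * (1 + |p.1.t|) + W * (1 + |p.1.t|) * |p₀.t| := by linarith
          _ = _ := by ring
      have h10 := ih h3
      have h11 : 0 ≤ cst hcost ps' ps₀ := by linarith [one_le_cst ps' ps₀]
      have hW0 : 0 ≤ W := by linarith
      calc hcost p' p₀ * cst hcost ps' ps₀
          ≤ (W * ((1 + |p.1.t|) * (1 + |p₀.t|))) * (W ^ ps.length * (Ht ps * Ht (natl ps₀))) :=
            mul_le_mul h4 h10 h11 (by positivity)
        _ = _ := by rw [pow_succ]; ring

/-- **the powers of the cost** -/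
theorem cst_rl_pow {C W S M : ℝ} (hW : 1 ≤ W) (hM : 0 ≤ M) {N : ℕ} {ps' : List Pq} {ps : List Pf}
    {ps₀ : List Pq} (h : List.Forall₂ (Rl C W) ps' (ps.map Prod.fst)) (hs : SbL S ps ps₀)
    (hN : ps.length ≤ N) :
    cst hcost ps' ps₀ ^ M ≤ W ^ (2 * ((N : ℝ) * M / 2)) * (Ht ps * Ht (natl ps₀)) ^ M := by
  have h1 := cst_rl hW h hs
  have hH : 1 ≤ Ht ps * Ht (natl ps₀) :=
    one_le_mul_of_one_le_of_one_le (one_le_Ht _) (one_le_Ht _)
  have hW0 : 0 ≤ W := by linarith
  have h2 : W ^ ps.length ≤ W ^ N := pow_le_pow_right₀ hW hN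
  have h3 : 0 ≤ cst hcost ps' ps₀ := by linarith [one_le_cst ps' ps₀]
  calc cst hcost ps' ps₀ ^ M ≤ (W ^ N * (Ht ps * Ht (natl ps₀))) ^ M := by
        refine Real.rpow_le_rpow h3 (h1.trans ?_) hM
        exact mul_le_mul_of_nonneg_right h2 (by linarith)
    _ = (W ^ N) ^ M * (Ht ps * Ht (natl ps₀)) ^ M :=
        Real.mul_rpow (by positivity) (by linarith)
    _ = _ := by
        rw [← Real.rpow_natCast W N, ← Real.rpow_mul hW0]
        congr 2
        ring

end Crest.Agent.R017.RlB791
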