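import Crest.Agent.R017.RGjL_64
import Crest.Agent.R017.LBn_48
import Crest.Agent.R017.LBX_180
import Crest.Agent.R017.Et_813
import Crest.Agent.R017.QsO_83
import Crest.Agent.R017.RlB_791

/-!
# Row 17, T.5 (RG): the R-side of (LB) for the flagged lists: literal inputs (helper381)

The numbers at the windowed sequences `be = bt φ α a * pw t` and the leaves
`RLeaf π h Num L K c b` the owners prove:

* `NRc` : `REb` (the cross error)                       (helper106)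
* `NRl` : the `l`-terms of the tail                     (helper83)
* `NRo` : the off-diagonal Gram sums, levels `Λ N₁`     (helper64, helper116, helper548, helper813)
* `NSq` : the squares of the shortened sequences (NT)   (helper791, helper298)
* `NSp` : the squares at the second scale (bess only)   (helper791, helper521)
* `RR`, `Rh` : what (LB) consumes
* `rleaf_and`, `rleafL_and`, `rleafL_of` : inputs ⟹ `RLeafL`
-/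

set_option autoImplicit false

noncomputable section

open Complex
open scoped ComplexConjugate Classical

namespace Crest.Agent.R017.RLD381

open Crest.Agent.R012 Crest.Agent.R012.Eis Crest.Agent.R012.LS2 Crest.Agent.R012.Gauss880
open Crest.Agent.R012.Div277 (dvs)
open Crest.Agent.R017.CM106 Crest.Agent.R017.HP842 Crest.Agent.R017.FE47
open Crest.Agent.R017.B770
open Crest.Agent.R017.Prov71
open Crest.Agent.R017.Leg381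
open Crest.Agent.R017.RGw813 (bt T9)
open Crest.Agent.R017.Win813 (WK)
open Crest.Agent.R017.C70 (JW)
open Crest.Agent.R017.LBo813 (rho Om)
open Crest.Agent.R017.I1146 (omr)
open Crest.Agent.R017.E1551 (SqP)
open Crest.Agent.R017.LBu180 (SqQ)
open Crest.Agent.R017.LBx48 (REb)
open Crest.Agent.R017.WDec180 (WD sc)
open Crest.Agent.R017.X6C180 (GF)
open Crest.Agent.R017.E2440 (Fh)
open Crest.Agent.R017.QsO83 (bw)
open Crest.Agent.R017.CubP813 (rl alr)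
open Crest.Agent.R017.E3A164 (Ys Fy)
open Crest.Agent.R017.E3M829 (Sg Tal)
open Crest.Agent.R017.RGB545 (Line Th TK)
open Crest.Agent.R017.XP699 (LL Chd hcost cst)
open Crest.Agent.R017.RG64

/-! ### the parameters (functions of `E0`) -/

/-- `exp (hE E0) = E0 ^ 7` : the second scale is `K * exp (- hE E0)` -/
def hE (E0 : ℝ) : ℝ := 7 * Real.log E0

/-- the cut of the `l`-terms -/
def LE (E0 : ℝ) : ℝ := E0 ^ 8

/-- `nm g ≤ L2` : TINY, `L2 < nm g` : NT -/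
def L2E (E0 : ℝ) : ℝ := E0 ^ 4

/-- the cut of the cubes in the Gram sums -/
def E1E (E0 : ℝ) : ℝ := E0 ^ 14

/-- the cut of the cube-free part -/
def K1E (K E0 : ℝ) : ℝ := K * (E0 ^ 23)⁻¹

/-- the second cut (TINY / NT) -/
def K2E (K E0 : ℝ) : ℝ := K * (E0 ^ 35)⁻¹

/-- the families of NT are `≥ KmE` -/
def KmE (K E0 : ℝ) : ℝ := K * (E0 ^ 50)⁻¹

/-! ### numbers -/

/-- a number: at the window `X'` and the windowed sequence `be`, bounded by `B` -/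
abbrev Numb := LBp → ℝ → (Eis → ℂ) → ℝ → Prop

/-- the number at all windowed sequences of `α`, bounded by `(K / X) * Rn * (1 + |t|) ^ J` -/
def BeAll (Φ : Numb) (p : LBp) (α : Eis → ℂ) (Rn : ℝ) : Prop :=
  ∀ a ∈ T9, ∀ (t X' : ℝ) (φ : ℝ → ℝ), 0 < X' → |Real.log X' - Real.log p.X| ≤ p.R + 1 →
    WK p.Cw p.η p.Aw φ → (∀ u, φ u ≠ 0 → |u - Real.log X'| ≤ p.η / 2) →
    Φ p X' (bw φ a t α) ((p.K / p.X) * (Rn * (1 + |t|) ^ p.J))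

/-- **(Rc)** the R-functional of the cross error, with `θ⁻¹ = E0 ^ 2` -/
def NRc (N : ℕ) (M : ℝ) (F : ℕ → ℝ → ℂ) : Numb := fun p _ be B =>
  ∀ I : ℕ, (p.N₁ : ℝ) < 2 ^ I → (2 : ℝ) ^ I ≤ 2 * p.N₁ →
    p.E0 ^ 2 * ∑ i ∈ Finset.range N, REb be (sc p.K M i) (GF (Fh (F i) (hE p.E0)))
      (S p.D) I p.E0 p.N₁ p.N₁ ≤ B

/-- **(Rl)** the R-number of the `l`-terms (helper404's `RLn`), with `θ⁻¹ = E0 ^ 2` -/
def NRl (N : ℕ) (M : ℝ) (F : ℕ → ℝ → ℂ) : Numb := fun p _ be B =>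
  ∀ I X₀ : ℕ, (p.N₁ : ℝ) < 2 ^ I → (2 : ℝ) ^ I ≤ 2 * p.N₁ →
    p.E0 ^ 2 * Et404.RLn N F (hE p.E0) M p.K (LE p.E0) X₀ be p.D I p.E0 p.N₁ ≤ B

/-- the weight of the model on `b ∣ x.1`, `(x.1, e) = 1` -/
def omx (N₀ N₁ : ℕ) (b e : Eis) (x : Eis × Eis) : ℂ :=
  if b ∣ x.1 ∧ IsCoprime x.1 e then omr (Om N₀ N₁) x else 0

/-- **(Ro)** the off-diagonal Gram sums at the two scales and all restrictions `b ∣ x.1`,
`(x.1, e) = 1`; levels up to `Λ * N₁` -/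
def NRo (w : ℝ → ℝ) (Λ : ℝ) : Numb := fun p X' be B =>
  ∀ (K' : ℝ) (b e : Eis), K' = p.K ∨ K' = p.K * Real.exp (-hE p.E0) → IsPrim b → IsPrim e →
    Sg w K' (p.E0 ^ 2) p.N₁ (E1E p.E0) (fun q t k₁ =>
      ‖∑ y ∈ Ys (JW p.D (1 / 10) p.N₁) p.E0 p.N₁,
        Fy (JW p.D (1 / 10) p.N₁) (omx p.N₀ p.N₁ b e) (Tal be) q t k₁ y‖ ^ 2) ≤
    Sg w K' (p.E0 ^ 2) p.N₁ (E1E p.E0) (fun q t k₁ =>
      E3M829.Dg (JW p.D (1 / 10) p.N₁) (omx p.N₀ p.N₁ b e) (Tal be) p.E0 p.N₁ q t k₁) +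
      (p.E0 ^ 3)⁻¹ * ((p.K / X') * LBx48.EHf (p.J + 2 : ℕ) p.K X' p.Y (Λ * p.N₁) be + B)

/-- **(Sq)** the squares of the sequence on the multiples of `a`, all families (NT) -/
def NSq (w : ℝ → ℝ) : Numb := fun p _ be B =>
  ∀ (K' : ℝ) (a b : Eis), KmE p.K p.E0 ≤ K' → K' ≤ p.K → IsPrim a → Squarefree a →
    p.E0 ^ 3 ≤ nm a → (nm a : ℝ) ≤ p.Y → IsPrim b → (nm b : ℝ) ≤ p.Y →
    SqQ w K' (fun _ => True) (alr be a b) ≤ (K' / p.K) ^ (1 / 3 : ℝ) * ((nm a : ℝ)⁻¹ * B)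

/-- **(S')** the squares at the second scale (terminal bound only) -/
def NSp (w : ℝ → ℝ) : Numb := fun p _ be B =>
  SqP w (p.K * Real.exp (-hE p.E0)) be ≤ Real.exp (-(hE p.E0 / 3)) * B

/-- the R-numbers of (LB): weight `w` with the pieces `(N, M, F)`, dominating weight `W` of NT,
levels `Λ N₁` of the off-diagonal part -/
def RR (w W : ℝ → ℝ) (N : ℕ) (M : ℝ) (F : ℕ → ℝ → ℂ) (Λ : ℝ) (p : LBp) (α : Eis → ℂ)
    (Rn : ℝ) : Prop :=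
  p.D ≤ p.E0 ∧ (BeAll (NRc N M F) p α Rn ∧ BeAll (NRl N M F) p α Rn) ∧
  ((BeAll (NRo w Λ) p α Rn ∧ BeAll (NRo W Λ) p α Rn) ∧ BeAll (NSq W) p α Rn)

/-- what `LBN w Λ (Rh ..)` consumes -/
def Rh (w W : ℝ → ℝ) (N : ℕ) (M : ℝ) (F : ℕ → ℝ → ℂ) (Λ : ℝ) (p : LBp) (α : Eis → ℂ)
    (Rn : ℝ) : Prop :=
  (p.X ^ 2 * p.E0 ^ 20 ≤ p.K * p.N₀ ∨ BeAll (NSp w) p α Rn) ∧ RR w W N M F Λ p α Rn

/-! ### binding -/

variable {Lam ι : Type*} {d : ℕ}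

/-- monotone in the bound -/
def MonoR (RR : LBp → (Eis → ℂ) → ℝ → Prop) : Prop :=
  ∀ (p : LBp) (α : Eis → ℂ) (r r' : ℝ), 0 ≤ p.K → 0 ≤ p.X → 0 ≤ p.E0 → r ≤ r' →
    RR p α r → RR p α r'

lemma MonoR.and {R₁ R₂ : LBp → (Eis → ℂ) → ℝ → Prop} (h₁ : MonoR R₁) (h₂ : MonoR R₂) :
    MonoR fun p α r => R₁ p α r ∧ R₂ p α r :=
  fun p α r r' hK hX hE hr h => ⟨h₁ p α r r' hK hX hE hr h.1, h₂ p α r r' hK hX hE hr h.2⟩

/-- a number is monotone in its bound -/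
def MonoN (Φ : Numb) : Prop :=
  ∀ (p : LBp) (X' : ℝ) (be : Eis → ℂ) (B B' : ℝ), 0 ≤ p.K → 0 ≤ p.E0 → B ≤ B' →
    Φ p X' be B → Φ p X' be B'

lemma monoR_be {Φ : Numb} (h : MonoN Φ) : MonoR (BeAll Φ) := by
  intro p α r r' hK hX hE hr H a ha t X' φ h1 h2 h3 h4
  refine h p X' _ _ _ hK hE ?_ (H a ha t X' φ h1 h2 h3 h4)
  have : 0 ≤ p.K / p.X := div_nonneg hK hX
  have h5 : (0 : ℝ) ≤ (1 + |t|) ^ p.J := pow_nonneg (by positivity) _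
  gcongr

lemma mono_NRc (N : ℕ) (M : ℝ) (F : ℕ → ℝ → ℂ) : MonoN (NRc N M F) :=
  fun _ _ _ _ _ _ _ hB h I h1 h2 => (h I h1 h2).trans hB

lemma mono_NRl (N : ℕ) (M : ℝ) (F : ℕ → ℝ → ℂ) : MonoN (NRl N M F) :=
  fun _ _ _ _ _ _ _ hB h I X₀ h1 h2 => (h I X₀ h1 h2).trans hB

lemma KmE_nonneg {K : ℝ} (hK : 0 ≤ K) (E0 : ℝ) : 0 ≤ KmE K E0 := by
  unfold KmE
  have : 0 ≤ (E0 ^ 50)⁻¹ := inv_nonneg.2 (Even.pow_nonneg (by decide) _)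
  positivity

lemma mono_NRo (w : ℝ → ℝ) (Λ : ℝ) : MonoN (NRo w Λ) := by
  intro p X' be B B' hK hE hB h K' b e h1 h3 h4
  refine (h K' b e h1 h3 h4).trans ?_
  gcongr

lemma mono_NSq (w : ℝ → ℝ) : MonoN (NSq w) := by
  intro p X' be B B' hK hE hB h K' a b h1 h2 h3 h4 h5 h6 h7 h8
  refine (h K' a b h1 h2 h3 h4 h5 h6 h7 h8).trans ?_
  have h9 : 0 ≤ (K' / p.K) ^ (1 / 3 : ℝ) :=
    Real.rpow_nonneg (div_nonneg ((KmE_nonneg hK _).trans h1) hK) _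
  gcongr

lemma mono_NSp (w : ℝ → ℝ) : MonoN (NSp w) := by
  intro p X' be B B' hK hE hB h
  refine h.trans ?_
  gcongr

lemma natl_Ht (ps₀ : List Pq) : 1 ≤ Ht (natl ps₀) := one_le_Ht _

/-- **two leaves are one leaf** -/
theorem rleaf_and {π : Lam → DPar} {h : ℝ → ℝ} {R₁ R₂ : LBp → (Eis → ℂ) → ℝ → Prop}
    {L : ι → Line Lam d} {K c b : ℝ} (m₁ : MonoR R₁) (m₂ : MonoR R₂)
    (H₁ : RLeaf π h R₁ L K c b) (H₂ : RLeaf π h R₂ L K c b) :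
    RLeaf π h (fun p α r => R₁ p α r ∧ R₂ p α r) L K c b := by
  intro lam N c₀ hc₀
  obtain ⟨B₁, hB₁, G₁⟩ := H₁ lam N c₀ hc₀
  obtain ⟨B₂, hB₂, G₂⟩ := H₂ lam N c₀ hc₀
  refine ⟨max B₁ B₂, hB₁.trans (le_max_left _ _), fun ε M hε hM => ?_⟩
  obtain ⟨J₁, δ₁, hJ₁, hδ₁, G₁⟩ := G₁ ε M hε hM
  obtain ⟨J₂, δ₂, hJ₂, hδ₂, G₂⟩ := G₂ ε M hε hM
  refine ⟨max J₁ J₂, min δ₁ δ₂, hJ₁.trans (le_max_left _ _), lt_min hδ₁ hδ₂, ?_⟩
  intro δ Jn Aw Cw R η S' hδ0 hδ hJn hAw hCw hR hη hη1 hS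
  obtain ⟨C₁, r₁, X₁, hC₁, hr₁, G₁⟩ := G₁ δ Jn Aw Cw R η S' hδ0 (hδ.trans (min_le_left _ _))
    ((le_max_left _ _).trans hJn) hAw hCw hR hη hη1 hS
  obtain ⟨C₂, r₂, X₂, hC₂, hr₂, G₂⟩ := G₂ δ Jn Aw Cw R η S' hδ0 (hδ.trans (min_le_right _ _))
    ((le_max_right _ _).trans hJn) hAw hCw hR hη hη1 hS
  refine ⟨max C₁ C₂, max r₁ r₂, max X₁ X₂, hC₁.trans (le_max_left _ _),
    hr₁.trans (le_max_left _ _), ?_⟩
  intro X hX3 hXX ps₀ hlen hz hd q ps Lv N₀ N₁ hF hq hqX hps Bd hBd hprem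
  have hX1 : 1 ≤ X := by linarith
  have hX0 : 0 ≤ X := by linarith
  have hb : ∀ {C' B' : ℝ}, 0 ≤ C' → C' ≤ max C₁ C₂ → B' ≤ max B₁ B₂ →
      C' * X ^ B' ≤ max C₁ C₂ * X ^ (max B₁ B₂) := by
    intro C' B' h0 h1 h2
    exact mul_le_mul h1 (Real.rpow_le_rpow_of_exponent_le hX1 h2) (by positivity)
      (h0.trans h1)
  have hH : 1 ≤ Ht ps * Ht (natl ps₀) :=
    one_le_mul_of_one_le_of_one_le (one_le_Ht _) (one_le_Ht _)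
  have hfin : ∀ {C' J' : ℝ}, 0 ≤ C' → C' ≤ max C₁ C₂ → J' ≤ max J₁ J₂ →
      C' * X ^ ε * (Ht ps * Ht (natl ps₀)) ^ J' * Bd * Real.exp (2 * LF ps) ≤
        max C₁ C₂ * X ^ ε * (Ht ps * Ht (natl ps₀)) ^ (max J₁ J₂) * Bd *
          Real.exp (2 * LF ps) := by
    have hBd0 : 0 ≤ Bd := by linarith
    intro C' J' h0 h1 h2
    have h3 : (Ht ps * Ht (natl ps₀)) ^ J' ≤ (Ht ps * Ht (natl ps₀)) ^ (max J₁ J₂) :=
      Real.rpow_le_rpow_of_exponent_le hH h2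
    have h4 : 0 ≤ max C₁ C₂ := h0.trans h1
    gcongr
  constructor
  · refine m₁ _ _ _ _ (Real.rpow_nonneg hX0 _) (Real.exp_pos _).le (Real.rpow_nonneg hX0 _)
      (hfin hC₁ (le_max_left _ _) (le_max_left _ _))
      (G₁ X hX3 ((le_max_left _ _).trans hXX) ps₀ hlen hz hd q ps Lv N₀ N₁ hF hq hqX hps Bd hBd ?_)
    intro j θ l ps' hl0 hl hch
    exact hprem j θ l ps' hl0 hl (RlB791.chdL_mono (le_max_left _ _)
      (hb hC₁ (le_max_left _ _) (le_max_left _ _)) hch)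
  · refine m₂ _ _ _ _ (Real.rpow_nonneg hX0 _) (Real.exp_pos _).le (Real.rpow_nonneg hX0 _)
      (hfin hC₂ (le_max_right _ _) (le_max_right _ _))
      (G₂ X hX3 ((le_max_right _ _).trans hXX) ps₀ hlen hz hd q ps Lv N₀ N₁ hF hq hqX hps Bd hBd ?_)
    intro j θ l ps' hl0 hl hch
    exact hprem j θ l ps' hl0 hl (RlB791.chdL_mono (le_max_right _ _)
      (hb hC₂ (le_max_right _ _) (le_max_right _ _)) hch)

/-! ### with the constant `Λ` -/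

/-- monotone in the bound and in `Λ` -/
def MonoL (RR : ℝ → LBp → (Eis → ℂ) → ℝ → Prop) : Prop :=
  ∀ (Λ Λ' : ℝ) (p : LBp) (α : Eis → ℂ) (r r' : ℝ), 0 ≤ p.K → 0 ≤ p.X → 0 ≤ p.E0 → Λ ≤ Λ' →
    r ≤ r' → RR Λ p α r → RR Λ' p α r'

lemma MonoL.monoR {RR : ℝ → LBp → (Eis → ℂ) → ℝ → Prop} (h : MonoL RR) (Λ : ℝ) :
    MonoR (RR Λ) :=
  fun p α r r' hK hX hE hr => h Λ Λ p α r r' hK hX hE le_rfl hr

lemma MonoR.toL {RR : LBp → (Eis → ℂ) → ℝ → Prop} (h : MonoR RR) : MonoL fun _ => RR :=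
  fun _ _ p α r r' hK hX hE _ hr => h p α r r' hK hX hE hr

lemma MonoL.and {R₁ R₂ : ℝ → LBp → (Eis → ℂ) → ℝ → Prop} (h₁ : MonoL R₁) (h₂ : MonoL R₂) :
    MonoL fun Λ p α r => R₁ Λ p α r ∧ R₂ Λ p α r :=
  fun Λ Λ' p α r r' hK hX hE hl hr h =>
    ⟨h₁ Λ Λ' p α r r' hK hX hE hl hr h.1, h₂ Λ Λ' p α r r' hK hX hE hl hr h.2⟩

lemma monoL_NRo (w : ℝ → ℝ) : MonoL fun Λ => BeAll (NRo w Λ) := by
  intro Λ Λ' p α r r' hK hX hE hl hr H a ha t X' φ h1 h2 h3 h4 K' b e g1 g2 g3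
  have h0 := H a ha t X' φ h1 h2 h3 h4 K' b e g1 g2 g3
  refine h0.trans ?_
  have h5 : 0 ≤ p.K / p.X := div_nonneg hK hX
  have h6 : (0 : ℝ) ≤ (1 + |t|) ^ p.J := pow_nonneg (by positivity) _
  have h7 : 0 ≤ p.K / X' := div_nonneg hK h1.le
  have h8 : LBx48.EHf (p.J + 2 : ℕ) p.K X' p.Y (Λ * p.N₁) (bw φ a t α) ≤
      LBx48.EHf (p.J + 2 : ℕ) p.K X' p.Y (Λ' * p.N₁) (bw φ a t α) :=
    LBX180.EHc_monoZ _ (fun n => by positivity) _ hK h1.le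
      (mul_le_mul_of_nonneg_right hl (Nat.cast_nonneg _)) _
  gcongr

lemma monoL_RR (w W : ℝ → ℝ) (N : ℕ) (M : ℝ) (F : ℕ → ℝ → ℂ) : MonoL (RR w W N M F) :=
  MonoL.and (R₁ := fun _ p _ _ => p.D ≤ p.E0) (fun _ _ _ _ _ _ _ _ _ _ _ h => h)
    (MonoL.and ((monoR_be (mono_NRc N M F)).and (monoR_be (mono_NRl N M F))).toL
      (((monoL_NRo w).and (monoL_NRo W)).and (monoR_be (mono_NSq W)).toL))

set_option maxHeartbeats 800000 in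
/-- **two leaves are one leaf**, with `Λ` -/
theorem rleafL_and {π : Lam → DPar} {h : ℝ → ℝ} {R₁ R₂ : ℝ → LBp → (Eis → ℂ) → ℝ → Prop}
    {L : ι → Line Lam d} {K c b : ℝ} (m₁ : MonoL R₁) (m₂ : MonoL R₂)
    (H₁ : RLeafL π h R₁ L K c b) (H₂ : RLeafL π h R₂ L K c b) :
    RLeafL π h (fun Λ p α r => R₁ Λ p α r ∧ R₂ Λ p α r) L K c b := by
  intro lam N c₀ hc₀
  obtain ⟨B₁, hB₁, G₁⟩ := H₁ lam N c₀ hc₀
  obtain ⟨B₂, hB₂, G₂⟩ := H₂ lam N c₀ hc₀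
  refine ⟨max B₁ B₂, hB₁.trans (le_max_left _ _), fun ε M hε hM => ?_⟩
  obtain ⟨J₁, δ₁, hJ₁, hδ₁, G₁⟩ := G₁ ε M hε hM
  obtain ⟨J₂, δ₂, hJ₂, hδ₂, G₂⟩ := G₂ ε M hε hM
  refine ⟨max J₁ J₂, min δ₁ δ₂, hJ₁.trans (le_max_left _ _), lt_min hδ₁ hδ₂, ?_⟩
  intro δ Jn Aw Cw R η S' hδ0 hδ hJn hAw hCw hR hη hη1 hS
  obtain ⟨C₁, r₁, X₁, Λ₁, hC₁, hr₁, hΛ₁, G₁⟩ := G₁ δ Jn Aw Cw R η S' hδ0
    (hδ.trans (min_le_left _ _)) ((le_max_left _ _).trans hJn) hAw hCw hR hη hη1 hS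
  obtain ⟨C₂, r₂, X₂, Λ₂, hC₂, hr₂, hΛ₂, G₂⟩ := G₂ δ Jn Aw Cw R η S' hδ0
    (hδ.trans (min_le_right _ _)) ((le_max_right _ _).trans hJn) hAw hCw hR hη hη1 hS
  refine ⟨max C₁ C₂, max r₁ r₂, max X₁ X₂, max Λ₁ Λ₂, hC₁.trans (le_max_left _ _),
    hr₁.trans (le_max_left _ _), hΛ₁.trans (le_max_left _ _), ?_⟩
  intro X hX3 hXX ps₀ hlen hz hd q ps Lv N₀ N₁ hF hq hqX hps Bd hBd hprem
  have hX1 : 1 ≤ X := by linarith
  have hX0 : 0 ≤ X := by linarith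
  have hb : ∀ {C' B' : ℝ}, 0 ≤ C' → C' ≤ max C₁ C₂ → B' ≤ max B₁ B₂ →
      C' * X ^ B' ≤ max C₁ C₂ * X ^ (max B₁ B₂) := by
    intro C' B' h0 h1 h2
    exact mul_le_mul h1 (Real.rpow_le_rpow_of_exponent_le hX1 h2) (by positivity)
      (h0.trans h1)
  have hH : 1 ≤ Ht ps * Ht (natl ps₀) :=
    one_le_mul_of_one_le_of_one_le (one_le_Ht _) (one_le_Ht _)
  have hfin : ∀ {C' J' : ℝ}, 0 ≤ C' → C' ≤ max C₁ C₂ → J' ≤ max J₁ J₂ →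
      C' * X ^ ε * (Ht ps * Ht (natl ps₀)) ^ J' * Bd * Real.exp (2 * LF ps) ≤
        max C₁ C₂ * X ^ ε * (Ht ps * Ht (natl ps₀)) ^ (max J₁ J₂) * Bd *
          Real.exp (2 * LF ps) := by
    have hBd0 : 0 ≤ Bd := by linarith
    intro C' J' h0 h1 h2
    have h3 : (Ht ps * Ht (natl ps₀)) ^ J' ≤ (Ht ps * Ht (natl ps₀)) ^ (max J₁ J₂) :=
      Real.rpow_le_rpow_of_exponent_le hH h2
    have h4 : 0 ≤ max C₁ C₂ := h0.trans h1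
    gcongr
  constructor
  · refine m₁ _ _ _ _ _ _ (Real.rpow_nonneg hX0 _) (Real.exp_pos _).le (Real.rpow_nonneg hX0 _)
      (le_max_left _ _) (hfin hC₁ (le_max_left _ _) (le_max_left _ _))
      (G₁ X hX3 ((le_max_left _ _).trans hXX) ps₀ hlen hz hd q ps Lv N₀ N₁ hF hq hqX hps Bd hBd ?_)
    intro j θ l ps' hl0 hl hch
    exact hprem j θ l ps' hl0 hl (RlB791.chdL_mono (le_max_left _ _)
      (hb hC₁ (le_max_left _ _) (le_max_left _ _)) hch)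
  · refine m₂ _ _ _ _ _ _ (Real.rpow_nonneg hX0 _) (Real.exp_pos _).le (Real.rpow_nonneg hX0 _)
      (le_max_right _ _) (hfin hC₂ (le_max_right _ _) (le_max_right _ _))
      (G₂ X hX3 ((le_max_right _ _).trans hXX) ps₀ hlen hz hd q ps Lv N₀ N₁ hF hq hqX hps Bd hBd ?_)
    intro j θ l ps' hl0 hl hch
    exact hprem j θ l ps' hl0 hl (RlB791.chdL_mono (le_max_right _ _)
      (hb hC₂ (le_max_right _ _) (le_max_right _ _)) hch)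

/-- the divisor cut is the gain cut -/
lemma rleaf_D {π : Lam → DPar} {h : ℝ → ℝ} {L : ι → Line Lam d} {K c b : ℝ} :
    RLeaf π h (fun p _ _ => p.D ≤ p.E0) L K c b := by
  intro lam N c₀ hc₀
  refine ⟨0, le_rfl, fun ε M hε hM => ⟨0, 1, le_rfl, one_pos, ?_⟩⟩
  intro δ Jn Aw Cw R η S' hδ0 hδ hJn hAw hCw hR hη hη1 hS
  refine ⟨0, 0, 0, le_rfl, le_rfl, ?_⟩
  intros
  exact le_rfl

/-- **the inputs give the leaf** -/
theorem rleafL_of {π : Lam → DPar} {h : ℝ → ℝ} {L : ι → Line Lam d} {K c b : ℝ}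
    {w W : ℝ → ℝ} {N : ℕ} {M : ℝ} {F : ℕ → ℝ → ℂ}
    (hRc : RLeaf π h (BeAll (NRc N M F)) L K c b)
    (hRl : RLeaf π h (BeAll (NRl N M F)) L K c b)
    (hRo : ∀ v ∈ ({w, W} : Set (ℝ → ℝ)), RLeafL π h (fun Λ => BeAll (NRo v Λ)) L K c b)
    (hSq : RLeaf π h (BeAll (NSq W)) L K c b) :
    RLeafL π h (RR w W N M F) L K c b := by
  have mc := (monoR_be (mono_NRc N M F)).and (monoR_be (mono_NRl N M F))
  have mo := (monoL_NRo w).and (monoL_NRo W)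
  have mq := (monoR_be (mono_NSq W)).toL
  refine rleafL_and (R₁ := fun _ p _ _ => p.D ≤ p.E0) (fun _ _ _ _ _ _ _ _ _ _ _ h => h)
    (mc.toL.and (mo.and mq)) rleaf_D.toL ?_
  refine rleafL_and mc.toL (mo.and mq) (rleaf_and (monoR_be (mono_NRc N M F))
    (monoR_be (mono_NRl N M F)) hRc hRl).toL ?_
  exact rleafL_and mo mq (rleafL_and (monoL_NRo w) (monoL_NRo W) (hRo w (by simp))
    (hRo W (by simp))) hSq.toL

/-- `RR` and the room give `Rh` (the premise `hRR` of `rg_fin`) -/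
theorem rh_of {w W : ℝ → ℝ} {N : ℕ} {M : ℝ} {F : ℕ → ℝ → ℂ} (Λ : ℝ) (p : LBp) (α : Eis → ℂ)
    (Rn Rn' : ℝ) (_ : 1 ≤ Λ) (hK : 0 ≤ p.K) (hX : 0 ≤ p.X) (hE : 1 ≤ p.E0)
    (hroom : p.X ^ 2 * p.E0 ^ 20 ≤ p.K * p.N₀) (h : RR w W N M F Λ p α Rn) (hr : Rn ≤ Rn') :
    Rh w W N M F Λ p α Rn' :=
  ⟨Or.inl hroom, monoL_RR w W N M F Λ Λ p α Rn Rn' hK hX (zero_le_one.trans hE) le_rfl hr h⟩

/-- `RR` and the squares give `Rh` (terminal bound) -/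
theorem rh_sq {w W : ℝ → ℝ} {N : ℕ} {M : ℝ} {F : ℕ → ℝ → ℂ} (Λ : ℝ) (p : LBp) (α : Eis → ℂ)
    (Rn Rn' : ℝ) (hK : 0 ≤ p.K) (hX : 0 ≤ p.X) (hE : 0 ≤ p.E0)
    (hs : BeAll (NSp w) p α Rn) (h : RR w W N M F Λ p α Rn) (hr : Rn ≤ Rn') :
    Rh w W N M F Λ p α Rn' :=
  ⟨Or.inr (monoR_be (mono_NSp w) p α Rn Rn' hK hX hE hr hs),
    monoL_RR w W N M F Λ Λ p α Rn Rn' hK hX hE le_rfl hr h⟩

end Crest.Agent.R017.RLD381
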