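import Crest.Agent.R017.BsH_521
import Crest.Agent.R017.BsI_521
import Crest.Agent.R017.RLd_381
import Crest.Agent.R017.RGN2_545

/-!
# Row 17, C.REMg, the Bessel side, part J (helper521): the binding (class N)

* `sqS_nsp` : (S') from the squares at the second scales
* `bessFin_N` : `BessFin` for the lines `LN` from (LB) and the leaf, `Rh = (room ∨ (S')) ∧ RR`
-/

set_option autoImplicit false

noncomputable section

open Complex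
open scoped ComplexConjugate

namespace Crest.Agent.R017.Bs521

open Crest.Agent.R012 Crest.Agent.R012.Eis Crest.Agent.R012.LS2 Crest.Agent.R012.Gauss880
open Crest.Agent.R012.MC (Wgt)
open Crest.Agent.R017.B770
open Crest.Agent.R017.Prov71
open Crest.Agent.R017.XPD571
open Crest.Agent.R017.E1551 (cP)
open Crest.Agent.R017.RG64
open Crest.Agent.R017.RGB545
open Crest.Agent.R017.RLD381 (BeAll NSp MonoR)

/-- (S') from the squares at the second scales -/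
theorem sqS_nsp {w : ℝ → ℝ} {p : LBp} {α : Eis → ℂ} {Rn : ℝ} (hE : 1 ≤ p.E0)
    (h : SqS w 7 p α Rn) : BeAll (NSp w) p α Rn :=
  h (7 * Real.log p.E0) (mul_nonneg (by norm_num) (Real.log_nonneg hE)) le_rfl

/-- **the inputs of (LB), terminal bound** -/
theorem rh_of_sqS {w : ℝ → ℝ} {RR : LBp → (Eis → ℂ) → ℝ → Prop} (hm : MonoR RR)
    (p : LBp) (α : Eis → ℂ) (R₁ R₂ Rn : ℝ) (hK : 0 ≤ p.K) (hX : 0 ≤ p.X) (hE : 1 ≤ p.E0)
    (h₁ : RR p α R₁) (h₂ : SqS w 7 p α R₂) (r₁ : R₁ ≤ Rn) (r₂ : R₂ ≤ Rn) :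
    (p.X ^ 2 * p.E0 ^ 20 ≤ p.K * p.N₀ ∨ BeAll (NSp w) p α Rn) ∧ RR p α Rn :=
  ⟨Or.inr (RLD381.monoR_be (RLD381.mono_NSp w) p α R₂ Rn hK hX (zero_le_one.trans hE) r₂
    (sqS_nsp hE h₂)), hm p α R₁ Rn hK hX (zero_le_one.trans hE) r₁ h₁⟩

variable {Lam : Type*} {π : Lam → DPar} {h : ℝ → ℝ} {c₁ : ℝ}

/-- **the terminal bound of class N** from the lower bound and the leaf -/
theorem bessFin_N (hP : ∀ lam, (π lam).OK) (hpu : FE47.PU h c₁) {w : ℝ → ℝ} (hw : Wgt w)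
    (hw0 : ∀ x, 0 ≤ w x) (hcw : 0 < cP w) {RR : ℝ → LBp → (Eis → ℂ) → ℝ → Prop}
    (hm : ∀ Λ, 1 ≤ Λ → MonoR (RR Λ))
    (hLB : ∀ Λ : ℝ, 1 ≤ Λ → LBN w Λ fun p α Rn =>
      (p.X ^ 2 * p.E0 ^ 20 ≤ p.K * p.N₀ ∨ BeAll (NSp w) p α Rn) ∧ RR Λ p α Rn)
    (hleaf : ∀ c μ K : ℝ, 0 < c → 1000 * c ≤ μ → μ ≤ 1 → 0 < K → 2000 * c ≤ K →
      RLeafL π h RR (LN π h c μ) K c (8 * (K + 1))) :
    ∀ c μ K : ℝ, 0 < c → 1000 * c ≤ μ → μ ≤ 1 → 0 < K → 2000 * c ≤ K →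
      ∃ ε₀ : ℝ, 0 < ε₀ ∧ BessFin (RF0 π h) (S0f π h) (LN π h c μ) ε₀ K c := by
  intro c μ K hc hcμ hμ hK hcK
  exact ⟨min c 1 / 100, by positivity, bess_fin hP hpu hw hw0 hcw hLB (H := 7) (by norm_num)
    (fun Λ p α R₁ R₂ Rn a0 a1 a2 a3 a4 a5 a6 a7 =>
      rh_of_sqS (hm Λ a0) p α R₁ R₂ Rn a1 a2 a3 a4 a5 a6 a7)
    hc (by linarith) (by linarith) (hleaf c μ K hc hcμ hμ hK hcK)⟩

end Crest.Agent.R017.Bs521
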