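import Crest.Agent.R017.HSep_813

/-!
# Row 17: separation of lengths, general weights (helper813)

`gg w Y t b = N(b)^{it} w(log N(b) - log Y)` for a smooth compactly supported `w : ℝ → ℂ`
(`gw h = gg (cx h)`). The forms with the weights `w` are bounded by the forms with the weights `h`
of a partition of unity, lengths on the grid `e^{cn}`, heights shifted.

* `gg_sep`, `LFg_sep`, `LFg_sep_sq`, `sepg_int`, `sepg_one`, `sepg_list`
* `twist_gw` : `gw h Y t b * N(b)^(σ + i u) = Y^σ * gg (tw σ h) Y (t + u) b`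
-/

set_option autoImplicit false

noncomputable section

open Complex MeasureTheory Filter Topology
open scoped ContDiff

namespace Crest.Agent.R017.HSep813

open Crest.Agent.R012 Crest.Agent.R012.Eis
open Crest.Agent.R012.Weight600 (osc norm_osc ker)
open Crest.Agent.R012.PSer47
open Crest.Agent.R017.End699 Crest.Agent.R017.FE47 Crest.Agent.R017.Two939

/-- the weight of a piece of length `Y`, height `t`, general shape -/
def gg (w : ℝ → ℂ) (Y t : ℝ) (b : Eis) : ℂ :=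
  osc t (Real.log (nm b)) * w (Real.log (nm b) - Real.log Y)

lemma gw_eq_gg (h : ℝ → ℝ) (Y t : ℝ) (b : Eis) : gw h Y t b = gg (cx h) Y t b := rfl

/-- smooth with compact support -/
structure SWt (w : ℝ → ℂ) (R : ℝ) : Prop where
  cd : ContDiff ℝ ∞ w
  cs : HasCompactSupport w
  rad : ∀ u, w u ≠ 0 → |u| ≤ R

lemma SWt.of_h {h : ℝ → ℝ} {c : ℝ} (hpu : PU h c) {R : ℝ} (hR : ∀ u, cx h u ≠ 0 → |u| ≤ R) :
    SWt (cx h) R := ⟨cd_cx hpu.cd, cs_cx hpu.cs, hR⟩

lemma SWt.bound {w : ℝ → ℂ} {R : ℝ} (hw : SWt w R) : ∃ A, 0 ≤ A ∧ ∀ u, ‖w u‖ ≤ A := by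
  obtain ⟨A, hA⟩ := hw.cs.exists_bound_of_continuous hw.cd.continuous
  exact ⟨A, (norm_nonneg _).trans (hA 0), hA⟩

/-- partition of unity and Fourier inversion -/
lemma gg_sep {h : ℝ → ℝ} {c : ℝ} (hpu : PU h c) {w : ℝ → ℂ} {R : ℝ}
    (hR : ∀ u, cx h u ≠ 0 → |u| ≤ R) (hw : SWt w R) {Y : ℝ}
    (S : Finset ℕ) (hS : ∀ n : ℕ, |c * n - Real.log Y| ≤ 2 * R → n ∈ S) (t : ℝ) {b : Eis}
    (hb : b ≠ 0) :
    gg w Y t b = ∑ n ∈ S, ∫ u : ℝ, (ker w u * osc u (-Real.log Y)) *
      gw h (Real.exp (c * n)) (t + u) b := by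
  set x := Real.log (nm b) with hx
  have hx0 : 0 ≤ x := log_nm_nonneg' hb
  have hR' : ∀ u, h u ≠ 0 → |u| ≤ R := fun u hu => hR u (by
    unfold cx
    exact_mod_cast hu)
  have h1 := hpu.one x hx0
  have h2 : w (x - Real.log Y) = ∑ n ∈ S, (h (x - c * n) : ℂ) * w (x - Real.log Y) := by
    by_cases hw0 : w (x - Real.log Y) = 0
    · rw [hw0]; simp
    have h3 : ∑' n : ℕ, h (x - c * n) = ∑ n ∈ S, h (x - c * n) := by
      apply tsum_eq_sum
      intro n hn
      by_contra h0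
      apply hn
      apply hS
      have ha := hR' _ h0
      have hb' := hw.rad _ hw0
      have : c * n - Real.log Y = (x - Real.log Y) - (x - c * n) := by ring
      rw [this]
      calc |(x - Real.log Y) - (x - c * n)| ≤ |x - Real.log Y| + |x - c * n| := abs_sub _ _
        _ ≤ 2 * R := by linarith
    rw [h1] at h3
    rw [← Finset.sum_mul, ← Complex.ofReal_sum, ← h3, Complex.ofReal_one, one_mul]
  have hinv := Weight600.inversion_smooth hw.cd hw.cs (x - Real.log Y)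
  have key : ∀ n : ℕ, ∫ u : ℝ, (ker w u * osc u (-Real.log Y)) *
      gw h (Real.exp (c * n)) (t + u) b =
      osc t x * ((h (x - c * n) : ℂ) * w (x - Real.log Y)) := by
    intro n
    have e1 : ∀ u : ℝ, (ker w u * osc u (-Real.log Y)) *
        gw h (Real.exp (c * n)) (t + u) b =
        (ker w u * osc u (x - Real.log Y)) * (osc t x * (h (x - c * n) : ℂ)) := by
      intro u
      unfold gw cx
      rw [Real.log_exp, Weight600.osc_add_left, ← hx]
      have e2 : osc u (x - Real.log Y) = osc u x * osc u (-Real.log Y) := by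
        rw [← Weight600.osc_add_right]; rfl
      rw [e2]
      ring
    simp_rw [e1]
    rw [integral_mul_const, hinv]
    ring
  rw [Finset.sum_congr rfl fun n _ => key n]
  rw [← Finset.mul_sum]
  unfold gg
  rw [← hx]
  conv_lhs => rw [h2]

lemma continuous_gg (w : ℝ → ℂ) (Y : ℝ) (b : Eis) : Continuous fun t => gg w Y t b := by
  unfold gg
  exact (Weight600.continuous_osc_left _).mul continuous_const

lemma norm_gg_le {w : ℝ → ℂ} {A : ℝ} (hA : ∀ u, ‖w u‖ ≤ A) (Y t : ℝ) (b : Eis) :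
    ‖gg w Y t b‖ ≤ A := by
  unfold gg
  rw [norm_mul, norm_osc, one_mul]
  exact hA _

/-- a linear form in the weight -/
def LFg {β : Type} (w : ℝ → ℂ) (T : Finset β) (g : β → Eis) (φ : β → ℂ) (Y t : ℝ) : ℂ :=
  ∑ b ∈ T, φ b * gg w Y t (g b)

lemma continuous_LFg {β : Type} (w : ℝ → ℂ) (T : Finset β) (g : β → Eis) (φ : β → ℂ) (Y : ℝ) :
    Continuous fun t => LFg w T g φ Y t :=
  continuous_finsetSum _ fun b _ => continuous_const.mul (continuous_gg w Y (g b))

lemma LFg_sep {β : Type} {h : ℝ → ℝ} {c : ℝ} (hpu : PU h c) {w : ℝ → ℂ} {R : ℝ}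
    (hR : ∀ u, cx h u ≠ 0 → |u| ≤ R) (hw : SWt w R) {Y : ℝ} (S : Finset ℕ)
    (hS : ∀ n : ℕ, |c * n - Real.log Y| ≤ 2 * R → n ∈ S) (t : ℝ) (T : Finset β) (g : β → Eis)
    (hg : ∀ b ∈ T, g b ≠ 0) (φ : β → ℂ) :
    LFg w T g φ Y t = ∑ n ∈ S, ∫ u : ℝ, (ker w u * osc u (-Real.log Y)) *
      LF h T g φ (Real.exp (c * n)) (t + u) := by
  have hki := Weight600.ker_integrable hw.cd hw.cs
  have hint : ∀ (n : ℕ) (b : β), Integrable (fun u : ℝ =>
      (ker w u * osc u (-Real.log Y)) * (φ b * gw h (Real.exp (c * n)) (t + u) (g b))) := by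
    intro n b
    obtain ⟨A, hA⟩ : ∃ A, ∀ u, ‖cx h u‖ ≤ A :=
      (cs_cx hpu.cs).exists_bound_of_continuous (cd_cx hpu.cd).continuous
    refine (integrable_mul_osc hki _).mul_bdd (c := ‖φ b‖ * A)
      ((continuous_const.mul ((continuous_gw h (Real.exp (c * n)) (g b)).comp
        (continuous_const.add continuous_id)))).aestronglyMeasurable
      (Eventually.of_forall fun u => ?_)
    rw [norm_mul]
    exact mul_le_mul_of_nonneg_left (norm_gw_le hA _ _ _) (norm_nonneg _)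
  have e1 : ∀ n ∈ S, ∫ u : ℝ, (ker w u * osc u (-Real.log Y)) *
      LF h T g φ (Real.exp (c * n)) (t + u) = ∑ b ∈ T,
      ∫ u : ℝ, (ker w u * osc u (-Real.log Y)) *
        (φ b * gw h (Real.exp (c * n)) (t + u) (g b)) := by
    intro n _
    rw [← integral_finsetSum _ fun b _ => hint n b]
    congr 1
    funext u
    rw [LF, Finset.mul_sum]
  rw [Finset.sum_congr rfl e1, Finset.sum_comm]
  unfold LFg
  refine Finset.sum_congr rfl fun b hb => ?_
  rw [gg_sep hpu hR hw S hS t (hg b hb), Finset.mul_sum]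
  refine Finset.sum_congr rfl fun n _ => ?_
  rw [← integral_const_mul]
  congr 1
  funext u
  ring

/-- square form for one linear form -/
lemma LFg_sep_sq {β : Type} {h : ℝ → ℝ} {c : ℝ} (hpu : PU h c) {w : ℝ → ℂ} {R : ℝ}
    (hR : ∀ u, cx h u ≠ 0 → |u| ≤ R) (hw : SWt w R) {Y : ℝ} (S : Finset ℕ)
    (hS : ∀ n : ℕ, |c * n - Real.log Y| ≤ 2 * R → n ∈ S) (t : ℝ) (T : Finset β) (g : β → Eis)
    (hg : ∀ b ∈ T, g b ≠ 0) (φ : β → ℂ) :
    ‖LFg w T g φ Y t‖ ^ 2 ≤ (S.card : ℝ) * (∫ u, ‖ker w u‖) *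
      ∑ n ∈ S, ∫ u : ℝ, ‖ker w u‖ * ‖LF h T g φ (Real.exp (c * n)) (t + u)‖ ^ 2 := by
  have hki := Weight600.ker_integrable hw.cd hw.cs
  have hI : 0 ≤ ∫ u, ‖ker w u‖ := integral_nonneg fun _ => norm_nonneg _
  rw [LFg_sep hpu hR hw S hS t T g hg φ]
  refine (CR2.norm_sum_sq_le_card S _).trans ?_
  rw [mul_assoc]
  have hcard0 : (0 : ℝ) ≤ (S.card : ℝ) := Nat.cast_nonneg _
  refine mul_le_mul_of_nonneg_left ?_ hcard0
  rw [Finset.mul_sum]
  refine Finset.sum_le_sum fun n _ => ?_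
  obtain ⟨A, hA⟩ : ∃ A, ∀ u, ‖cx h u‖ ≤ A :=
    (cs_cx hpu.cs).exists_bound_of_continuous (cd_cx hpu.cd).continuous
  set C := ∑ b ∈ T, ‖φ b‖ * A with hCd
  have hC : ∀ u, ‖LF h T g φ (Real.exp (c * n)) u‖ ≤ C := fun u => norm_LF_le hA T g φ _ u
  have hcont : Continuous fun u => LF h T g φ (Real.exp (c * n)) (t + u) :=
    (continuous_LF h T g φ (Real.exp (c * n))).comp (continuous_const.add continuous_id)
  have i1 : Integrable (fun u : ℝ => ‖ker w u‖ *
      ‖LF h T g φ (Real.exp (c * n)) (t + u)‖) :=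
    hki.norm.mul_bdd (c := C) hcont.norm.aestronglyMeasurable
      (Eventually.of_forall fun u => by rw [norm_norm]; exact hC _)
  have i2 : Integrable (fun u : ℝ => ‖ker w u‖ *
      ‖LF h T g φ (Real.exp (c * n)) (t + u)‖ ^ 2) :=
    hki.norm.mul_bdd (c := C ^ 2) (hcont.norm.pow 2).aestronglyMeasurable
      (Eventually.of_forall fun u => by
        rw [norm_pow, norm_norm]
        have := hC (t + u)
        gcongr)
  have h1 : ‖∫ u : ℝ, (ker w u * osc u (-Real.log Y)) *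
      LF h T g φ (Real.exp (c * n)) (t + u)‖ ≤
      ∫ u : ℝ, ‖ker w u‖ * ‖LF h T g φ (Real.exp (c * n)) (t + u)‖ := by
    refine (norm_integral_le_integral_norm _).trans (le_of_eq ?_)
    congr 1
    funext u
    rw [norm_mul, norm_mul, norm_osc, mul_one]
  have h2 : 0 ≤ ∫ u : ℝ, ‖ker w u‖ * ‖LF h T g φ (Real.exp (c * n)) (t + u)‖ :=
    integral_nonneg fun _ => by positivity
  refine (pow_le_pow_left₀ (norm_nonneg _) h1 2).trans ?_
  refine sq_le_of_forall h2 hI fun θ hθ => ?_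
  rw [← integral_const_mul, ← integral_const_mul, ← integral_const_mul, ← integral_add
    (hki.norm.const_mul _) (i2.const_mul _)]
  apply integral_mono (i1.const_mul _) ((hki.norm.const_mul _).add (i2.const_mul _))
  intro u
  simp only [Pi.add_apply]
  set x := ‖LF h T g φ (Real.exp (c * n)) (t + u)‖
  have h3 : 2 * x ≤ θ + θ⁻¹ * x ^ 2 := by
    have h4 : 0 ≤ θ⁻¹ * (θ - x) ^ 2 := by positivity
    have h5 : θ⁻¹ * (θ - x) ^ 2 = θ - 2 * x + θ⁻¹ * x ^ 2 := by field_simp; ring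
    linarith
  nlinarith [mul_le_mul_of_nonneg_left h3 (norm_nonneg (ker w u))]

/-- **one piece, a family of forms, lengths depending on the member**: integral form. -/
theorem sepg_int {h : ℝ → ℝ} {c : ℝ} (hpu : PU h c) {w : ℝ → ℂ} {R : ℝ} (hR0 : 0 ≤ R)
    (hR : ∀ u, cx h u ≠ 0 → |u| ≤ R) (hw : SWt w R) {ρ : ℝ} (hρ : 0 ≤ ρ) {ι β : Type}
    (K : Finset ι) (T : Finset β) (g : β → Eis) (hg : ∀ b ∈ T, g b ≠ 0) (φ : ι → β → ℂ)
    (Y : ι → ℝ) (y₀ t : ℝ) (hY : ∀ k ∈ K, |Real.log (Y k) - y₀| ≤ ρ) :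
    ∑ k ∈ K, ‖LFg w T g (φ k) (Y k) t‖ ^ 2 ≤
      (2 * (2 * R + ρ) / c + 1) * (∫ u, ‖ker w u‖) *
        ∑ n ∈ grid c y₀ (2 * R + ρ), ∫ u : ℝ, ‖ker w u‖ *
          ∑ k ∈ K, ‖LF h T g (φ k) (Real.exp (c * n)) (t + u)‖ ^ 2 := by
  have hc := hpu.cpos
  have hki := Weight600.ker_integrable hw.cd hw.cs
  have hI : 0 ≤ ∫ u, ‖ker w u‖ := integral_nonneg fun _ => norm_nonneg _
  set S := grid c y₀ (2 * R + ρ) with hS
  have hcard : (S.card : ℝ) ≤ 2 * (2 * R + ρ) / c + 1 := card_grid hc (by positivity)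
  obtain ⟨A, hA⟩ : ∃ A, ∀ u, ‖cx h u‖ ≤ A :=
    (cs_cx hpu.cs).exists_bound_of_continuous (cd_cx hpu.cd).continuous
  have i2 : ∀ (n : ℕ) (k : ι), Integrable (fun u : ℝ => ‖ker w u‖ *
      ‖LF h T g (φ k) (Real.exp (c * n)) (t + u)‖ ^ 2) := by
    intro n k
    have hcont : Continuous fun u => LF h T g (φ k) (Real.exp (c * n)) (t + u) :=
      (continuous_LF h T g (φ k) (Real.exp (c * n))).comp (continuous_const.add continuous_id)
    refine hki.norm.mul_bdd (c := (∑ b ∈ T, ‖φ k b‖ * A) ^ 2)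
      (hcont.norm.pow 2).aestronglyMeasurable (Eventually.of_forall fun u => ?_)
    rw [norm_pow, norm_norm]
    have := norm_LF_le hA T g (φ k) (Real.exp (c * n)) (t + u)
    gcongr
  have h1 : ∀ k ∈ K, ‖LFg w T g (φ k) (Y k) t‖ ^ 2 ≤
      (2 * (2 * R + ρ) / c + 1) * (∫ u, ‖ker w u‖) *
        ∑ n ∈ S, ∫ u : ℝ, ‖ker w u‖ *
          ‖LF h T g (φ k) (Real.exp (c * n)) (t + u)‖ ^ 2 := by
    intro k hk
    have h2 := LFg_sep_sq hpu hR hw (Y := Y k) S (fun n hn => by
      rw [hS, mem_grid hc]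
      have h3 := hY k hk
      have e : c * n - y₀ = (c * n - Real.log (Y k)) + (Real.log (Y k) - y₀) := by ring
      rw [e]
      exact (abs_add_le _ _).trans (add_le_add hn h3)) t T g hg (φ k)
    refine h2.trans ?_
    have h4 : 0 ≤ ∑ n ∈ S, ∫ u : ℝ, ‖ker w u‖ *
          ‖LF h T g (φ k) (Real.exp (c * n)) (t + u)‖ ^ 2 :=
      Finset.sum_nonneg fun n _ => integral_nonneg fun u => by positivity
    gcongr
  refine (Finset.sum_le_sum h1).trans (le_of_eq ?_)
  rw [← Finset.mul_sum, Finset.sum_comm]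
  congr 1
  refine Finset.sum_congr rfl fun n _ => ?_
  rw [← integral_finsetSum _ fun k _ => i2 n k]
  congr 1
  funext u
  rw [Finset.mul_sum]

/-- `∫ ‖ker‖ (1+|u|)^M < ∞` -/
lemma kerg_mom {w : ℝ → ℂ} {R : ℝ} (hw : SWt w R) (M : ℝ) : ∃ C : ℝ, 0 ≤ C ∧
    ∀ (B : ℝ) (f : ℝ → ℝ), 0 ≤ B → (∀ u, 0 ≤ f u ∧ f u ≤ B * (1 + |u|) ^ M) →
      ∫ u : ℝ, ‖ker w u‖ * f u ≤ C * B := by
  set K : ℕ := ⌈M⌉₊ + 2 with hK
  obtain ⟨Ck, hCk, hdec⟩ := Weight600.ker_decay hw.cd hw.cs K
  set I2 := ∫ s : ℝ, ((1 + |s|) ^ 2)⁻¹ with hI2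
  have hI2n : 0 ≤ I2 := integral_nonneg fun _ => by positivity
  refine ⟨Ck * I2, by positivity, fun B f hB hf => ?_⟩
  have h1 : ∀ u : ℝ, ‖ker w u‖ * f u ≤ (Ck * B) * ((1 + |u|) ^ 2)⁻¹ := by
    intro u
    have hu1 : 1 ≤ 1 + |u| := by linarith [abs_nonneg u]
    have hu0 : 0 < 1 + |u| := by linarith
    have h4 := hdec u
    have h5 : ‖ker w u‖ ≤ Ck * ((1 + |u|) ^ K)⁻¹ := by
      rw [← div_eq_mul_inv, le_div_iff₀ (by positivity)]
      exact h4
    have h6 : ((1 + |u|) ^ K)⁻¹ * (1 + |u|) ^ M ≤ ((1 + |u|) ^ 2)⁻¹ := by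
      rw [← Real.rpow_natCast (1 + |u|) K, ← Real.rpow_neg hu0.le, ← Real.rpow_add hu0,
        ← Real.rpow_natCast (1 + |u|) 2, ← Real.rpow_neg hu0.le]
      apply Real.rpow_le_rpow_of_exponent_le hu1
      have := Nat.le_ceil M
      rw [hK]
      push_cast
      linarith
    calc ‖ker w u‖ * f u ≤ (Ck * ((1 + |u|) ^ K)⁻¹) * (B * (1 + |u|) ^ M) := by
          have := hf u
          gcongr
          · exact this.1
          · exact this.2
      _ = (Ck * B) * (((1 + |u|) ^ K)⁻¹ * (1 + |u|) ^ M) := by ring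
      _ ≤ _ := by gcongr
  have hint : Integrable (fun u : ℝ => (Ck * B) * ((1 + |u|) ^ 2)⁻¹) :=
    (integrable_wt le_rfl).const_mul _
  calc ∫ u : ℝ, ‖ker w u‖ * f u ≤ ∫ u : ℝ, (Ck * B) * ((1 + |u|) ^ 2)⁻¹ :=
        integral_mono_of_nonneg (Eventually.of_forall fun u =>
          mul_nonneg (norm_nonneg _) (hf u).1) hint (Eventually.of_forall h1)
    _ = Ck * I2 * B := by rw [integral_const_mul]; ring

/-- **one piece, a family of forms**: bounds on the grid give bounds for all lengths. -/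
theorem sepg_one {h : ℝ → ℝ} {c : ℝ} (hpu : PU h c) {w : ℝ → ℂ} {R : ℝ} (hR0 : 0 ≤ R)
    (hR : ∀ u, cx h u ≠ 0 → |u| ≤ R) (hw : SWt w R) {ρ : ℝ} (hρ : 0 ≤ ρ) (M : ℝ) :
    ∃ C : ℝ, 0 ≤ C ∧
    ∀ (ι β : Type) (K : Finset ι) (T : Finset β) (g : β → Eis), (∀ b ∈ T, g b ≠ 0) →
    ∀ (φ : ι → β → ℂ) (Y : ι → ℝ) (y₀ t B : ℝ), 0 ≤ B →
      (∀ k ∈ K, |Real.log (Y k) - y₀| ≤ ρ) →
      (∀ (n : ℕ) (s : ℝ), |c * n - y₀| ≤ 2 * R + ρ →
        ∑ k ∈ K, ‖LF h T g (φ k) (Real.exp (c * n)) (t + s)‖ ^ 2 ≤ B * (1 + |s|) ^ M) →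
      ∑ k ∈ K, ‖LFg w T g (φ k) (Y k) t‖ ^ 2 ≤ C * B := by
  obtain ⟨C0, hC0, hmom⟩ := kerg_mom hw M
  have hc := hpu.cpos
  have hI : 0 ≤ ∫ u, ‖ker w u‖ := integral_nonneg fun _ => norm_nonneg _
  set W := 2 * (2 * R + ρ) / c + 1 with hW
  have hW0 : 0 ≤ W := by positivity
  refine ⟨W * (∫ u, ‖ker w u‖) * (W * C0), by positivity, ?_⟩
  intro ι β K T g hg φ Y y₀ t B hB hY hyp
  refine (sepg_int hpu hR0 hR hw hρ K T g hg φ Y y₀ t hY).trans ?_
  have h1 : ∀ n ∈ grid c y₀ (2 * R + ρ), ∫ u : ℝ, ‖ker w u‖ *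
          ∑ k ∈ K, ‖LF h T g (φ k) (Real.exp (c * n)) (t + u)‖ ^ 2 ≤ C0 * B := by
    intro n hn
    exact hmom B _ hB fun u => ⟨by positivity, hyp n u ((mem_grid hc).1 hn)⟩
  have h2 : ∑ n ∈ grid c y₀ (2 * R + ρ), ∫ u : ℝ, ‖ker w u‖ *
          ∑ k ∈ K, ‖LF h T g (φ k) (Real.exp (c * n)) (t + u)‖ ^ 2 ≤ W * (C0 * B) := by
    refine (Finset.sum_le_sum h1).trans ?_
    rw [Finset.sum_const, nsmul_eq_mul]
    have := card_grid (y₀ := y₀) hc (W := 2 * R + ρ) (by positivity)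
    gcongr
  calc W * (∫ u, ‖ker w u‖) * _ ≤ W * (∫ u, ‖ker w u‖) * (W * (C0 * B)) := by
        gcongr
    _ = _ := by ring

/-! ### several pieces -/

/-- a multilinear form in the weights of several pieces -/
def MFg {I : Type} [Fintype I] (w : ℝ → ℂ) (T : Finset (I → Eis)) (φ : (I → Eis) → ℂ)
    (Y t : I → ℝ) : ℂ :=
  ∑ b ∈ T, φ b * ∏ i, gg w (Y i) (t i) (b i)

open Classical in
/-- **several pieces, a family of forms**: bounds on the grid give bounds for all lengths. -/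
theorem sepg_list {h : ℝ → ℝ} {c : ℝ} (hpu : PU h c) {w : ℝ → ℂ} {R : ℝ} (hR0 : 0 ≤ R)
    (hR : ∀ u, cx h u ≠ 0 → |u| ≤ R) (hw : SWt w R) {ρ : ℝ} (hρ : 0 ≤ ρ) (M : ℝ) :
    ∃ C : ℝ, 0 ≤ C ∧
    ∀ (I : Type) [Fintype I] (ι : Type) (K : Finset ι) (T : Finset (I → Eis)),
      (∀ b ∈ T, ∀ i, b i ≠ 0) →
    ∀ (φ : ι → (I → Eis) → ℂ) (Y : ι → I → ℝ) (y₀ t : I → ℝ) (B : ℝ), 0 ≤ B →
      (∀ k ∈ K, ∀ i, |Real.log (Y k i) - y₀ i| ≤ ρ) →
      (∀ (n : I → ℕ) (s : I → ℝ), (∀ i, |c * n i - y₀ i| ≤ 2 * R + ρ) →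
        ∑ k ∈ K, ‖MF h T (φ k) (fun i => Real.exp (c * n i)) (fun i => t i + s i)‖ ^ 2 ≤
          B * ∏ i, (1 + |s i|) ^ M) →
      ∑ k ∈ K, ‖MFg w T (φ k) (Y k) t‖ ^ 2 ≤ C ^ Fintype.card I * B := by
  obtain ⟨C, hC, hone⟩ := sepg_one hpu hR0 hR hw hρ M
  refine ⟨C, hC, ?_⟩
  intro I _ ι K T hT φ Y y₀ t B hB hY hyp
  -- the pieces in `J` already have their true weights
  have key : ∀ J : Finset I, ∀ (n : I → ℕ) (s : I → ℝ),
      (∀ i, |c * n i - y₀ i| ≤ 2 * R + ρ) →
      ∑ k ∈ K, ‖∑ b ∈ T, φ k b * ∏ i, (if i ∈ J then gg w (Y k i) (t i) (b i)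
        else gw h (Real.exp (c * n i)) (t i + s i) (b i))‖ ^ 2 ≤
          C ^ J.card * B * ∏ i ∈ Jᶜ, (1 + |s i|) ^ M := by
    intro J
    induction J using Finset.induction_on with
    | empty =>
      intro n s hn
      have := hyp n s hn
      unfold MF at this
      simpa using this
    | insert j J hj ih =>
      intro n s hn
      set B' := C ^ J.card * B * ∏ i ∈ (insert j J)ᶜ, (1 + |s i|) ^ M with hB'
      have hprod : ∀ s' : I → ℝ, 0 ≤ ∏ i ∈ (insert j J)ᶜ, (1 + |s' i|) ^ M := fun s' =>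
        Finset.prod_nonneg fun i _ => Real.rpow_nonneg (by positivity) _
      have hB'0 : 0 ≤ B' := by
        have := hprod s
        positivity
      -- the coefficient without the weight of the piece `j`
      set φ' : ι → (I → Eis) → ℂ := fun k b => φ k b *
        ∏ i ∈ Finset.univ.erase j, (if i ∈ J then gg w (Y k i) (t i) (b i)
          else gw h (Real.exp (c * n i)) (t i + s i) (b i)) with hφ'
      have e1 : ∀ k ∈ K, ∑ b ∈ T, φ k b * ∏ i, (if i ∈ insert j J then gg w (Y k i) (t i) (b i)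
          else gw h (Real.exp (c * n i)) (t i + s i) (b i)) =
          LFg w T (fun b => b j) (φ' k) (Y k j) (t j) := by
        intro k _
        unfold LFg
        refine Finset.sum_congr rfl fun b _ => ?_
        rw [← Finset.mul_prod_erase Finset.univ _ (Finset.mem_univ j), hφ']
        have e : ∏ i ∈ Finset.univ.erase j, (if i ∈ insert j J then gg w (Y k i) (t i) (b i)
            else gw h (Real.exp (c * n i)) (t i + s i) (b i)) =
            ∏ i ∈ Finset.univ.erase j, (if i ∈ J then gg w (Y k i) (t i) (b i)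
              else gw h (Real.exp (c * n i)) (t i + s i) (b i)) := by
          refine Finset.prod_congr rfl fun i hi => ?_
          rw [Finset.mem_erase] at hi
          simp [Finset.mem_insert, hi.1]
        rw [e, if_pos (Finset.mem_insert_self j J)]
        ring
      have h2 := hone ι (I → Eis) K T (fun b => b j) (fun b hb => hT b hb j) φ'
        (fun k => Y k j) (y₀ j) (t j) B' hB'0 (fun k hk => hY k hk j) (fun m u hm => by
          have h3 := ih (Function.update n j m) (Function.update s j u) (fun i => by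
            by_cases hi : i = j
            · subst hi; simpa using hm
            · simpa [Function.update_of_ne hi] using hn i)
          have e2 : ∀ k : ι, ∑ b ∈ T, φ k b * ∏ i, (if i ∈ J then gg w (Y k i) (t i) (b i)
              else gw h (Real.exp (c * Function.update n j m i))
                (t i + Function.update s j u i) (b i)) =
              LF h T (fun b => b j) (φ' k) (Real.exp (c * m)) (t j + u) := by
            intro k
            unfold LF
            refine Finset.sum_congr rfl fun b _ => ?_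
            rw [← Finset.mul_prod_erase Finset.univ _ (Finset.mem_univ j), hφ']
            have e : ∏ i ∈ Finset.univ.erase j, (if i ∈ J then gg w (Y k i) (t i) (b i)
                else gw h (Real.exp (c * Function.update n j m i))
                  (t i + Function.update s j u i) (b i)) =
                ∏ i ∈ Finset.univ.erase j, (if i ∈ J then gg w (Y k i) (t i) (b i)
                  else gw h (Real.exp (c * n i)) (t i + s i) (b i)) := by
              refine Finset.prod_congr rfl fun i hi => ?_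
              rw [Finset.mem_erase] at hi
              rw [Function.update_of_ne hi.1, Function.update_of_ne hi.1]
            rw [e, if_neg hj, Function.update_self, Function.update_self]
            ring
          simp_rw [e2] at h3
          refine h3.trans (le_of_eq ?_)
          have hcompl : Jᶜ = insert j (insert j J)ᶜ := by
            ext i
            simp only [Finset.mem_compl, Finset.mem_insert, not_or]
            by_cases hi : i = j
            · subst hi; simp [hj]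
            · simp [hi]
          rw [hcompl, Finset.prod_insert (by simp), Function.update_self, hB']
          have e3 : ∏ i ∈ (insert j J)ᶜ, (1 + |Function.update s j u i|) ^ M =
              ∏ i ∈ (insert j J)ᶜ, (1 + |s i|) ^ M := by
            refine Finset.prod_congr rfl fun i hi => ?_
            rw [Finset.mem_compl, Finset.mem_insert, not_or] at hi
            rw [Function.update_of_ne hi.1]
          rw [e3]
          ring)
      rw [Finset.sum_congr rfl fun k hk => by rw [e1 k hk]]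
      refine h2.trans (le_of_eq ?_)
      rw [hB', Finset.card_insert_of_notMem hj, pow_succ]
      ring
  rcases Classical.em (∃ n : I → ℕ, ∀ i, |c * n i - y₀ i| ≤ 2 * R + ρ) with ⟨n, hn⟩ | hne
  · have h1 := key Finset.univ n 0 hn
    unfold MFg
    simpa using h1
  · -- no grid points: the forms vanish
    push Not at hne
    have hz : ∃ i, ∀ m : ℕ, 2 * R + ρ < |c * m - y₀ i| := by
      by_contra hcon
      push Not at hcon
      choose n hn using hcon
      obtain ⟨i, hi⟩ := hne n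
      exact absurd (hn i) (not_le.2 hi)
    obtain ⟨i, hi⟩ := hz
    have hzero : ∀ k ∈ K, MFg w T (φ k) (Y k) t = 0 := by
      intro k hk
      refine Finset.sum_eq_zero fun b hb => ?_
      have h1 := gg_sep hpu hR hw (Y := Y k i) ∅ (fun m hm => by
        exfalso
        have h3 := hY k hk i
        have e : c * m - y₀ i = (c * m - Real.log (Y k i)) + (Real.log (Y k i) - y₀ i) := by ring
        have h4 := hi m
        rw [e] at h4
        exact absurd (h4.trans_le ((abs_add_le _ _).trans (add_le_add hm h3))) (lt_irrefl _))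
        (t i) (hT b hb i)
      rw [Finset.sum_empty] at h1
      rw [Finset.prod_eq_zero (Finset.mem_univ i) h1, mul_zero]
    rw [Finset.sum_eq_zero fun k hk => by rw [hzero k hk]; simp]
    positivity

/-! ### Mellin twists -/

/-- the shape `h(y) e^{σ y}` -/
def tw (h : ℝ → ℝ) (σ : ℝ) (y : ℝ) : ℂ := (h y : ℂ) * (Real.exp (σ * y) : ℂ)

lemma SWt.tw {h : ℝ → ℝ} {c : ℝ} (hpu : PU h c) {R : ℝ} (hR : ∀ u, cx h u ≠ 0 → |u| ≤ R)
    (σ : ℝ) : SWt (tw h σ) R where
  cd := by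
    unfold HSep813.tw
    have h1 : ContDiff ℝ ∞ fun y : ℝ => (Real.exp (σ * y) : ℂ) :=
      Complex.ofRealCLM.contDiff.comp (Real.contDiff_exp.comp (contDiff_const.mul contDiff_id))
    exact (cd_cx hpu.cd).mul h1
  cs := (cs_cx hpu.cs).mul_right (f' := fun y => (Real.exp (σ * y) : ℂ))
  rad := fun u hu => hR u (by
    unfold HSep813.tw at hu
    exact left_ne_zero_of_mul hu)

lemma twist_gw (h : ℝ → ℝ) {Y : ℝ} (hY : 0 < Y) (t σ u : ℝ) {b : Eis} (hb : b ≠ 0) :
    gw h Y t b * (nm b : ℂ) ^ ((σ : ℂ) + u * I) =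
      ((Y ^ σ : ℝ) : ℂ) * gg (tw h σ) Y (t + u) b := by
  have hn : (0 : ℝ) < nm b := by exact_mod_cast nm_pos.2 hb
  set x := Real.log (nm b) with hx
  have e1 : (nm b : ℂ) ^ ((σ : ℂ) + u * I) = osc u x * (Real.exp (σ * x) : ℂ) := by
    have hne : ((nm b : ℕ) : ℂ) ≠ 0 := by exact_mod_cast hn.ne'
    rw [Complex.cpow_def_of_ne_zero hne]
    have e2 : Complex.log ((nm b : ℕ) : ℂ) = (x : ℂ) := by
      rw [hx, Complex.ofReal_log hn.le, Complex.ofReal_natCast]
    rw [e2]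
    unfold osc
    rw [Complex.ofReal_exp, ← Complex.exp_add]
    congr 1
    push_cast
    ring
  have e3 : ((Y ^ σ : ℝ) : ℂ) = (Real.exp (σ * Real.log Y) : ℂ) := by
    rw [Real.rpow_def_of_pos hY, mul_comm]
  rw [e1, e3]
  unfold gw gg tw cx
  rw [← hx, Weight600.osc_add_left]
  have e4 : (Real.exp (σ * x) : ℂ) = (Real.exp (σ * Real.log Y) : ℂ) *
      (Real.exp (σ * (x - Real.log Y)) : ℂ) := by
    rw [← Complex.ofReal_mul, ← Real.exp_add]
    congr 2
    ring
  rw [e4]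
  ring

end Crest.Agent.R017.HSep813
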