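import Crest.Agent.R017.BoxP3_271
import Crest.Agent.R017.HSepG_813
import Crest.Agent.R017.HP3_842

/-!
# Row 17, D.FIN: from the pieces of a box to typed pieces (helper986)

* `Nr ρ p d` : `p` is a shift of the piece `d` (same type, same character, log-length up to `ρ`)
* `cost M ps ds = ∏ (1+|t_p - t_d|)^M`
* `Sep` : the values of a piece with a general weight are averages over shifts
* `sep_prod` : several pieces
* `sep_w` : fixed weight; `sep_mu` : Möbius pieces with a cut-off, uniformly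
-/

set_option autoImplicit false
set_option linter.unusedSectionVars false
set_option linter.unusedVariables false

noncomputable section

open Complex MeasureTheory Filter Topology
open scoped ComplexConjugate ContDiff

namespace Crest.Agent.R017.Bx986

open Crest.Agent.R012 Crest.Agent.R012.Eis Crest.Agent.R012.Mob705
open Crest.Agent.R012.Weight600 (osc norm_osc ker)
open Crest.Agent.R012.PSer47 (IsChar)
open Crest.Agent.R017.CM106 Crest.Agent.R017.FE47 Crest.Agent.R017.End699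
open Crest.Agent.R017.HSep813 Crest.Agent.R017.HP842

/-- `p` is a shift of the piece `d` -/
structure Nr (ρ : ℝ) (p d : Pc) : Prop where
  u : p.u = d.u
  ψ : p.ψ = d.ψ
  Y0 : 0 < p.Y
  near : |Real.log p.Y - Real.log d.Y| ≤ ρ

/-- the cost of the heights -/
def cost (M : ℝ) (ps ds : List Pc) : ℝ :=
  (List.zipWith (fun p d => (1 + |p.t - d.t|) ^ M) ps ds).prod

@[simp] lemma cost_nil (M : ℝ) (ds : List Pc) : cost M [] ds = 1 := by simp [cost]

@[simp] lemma cost_cons (M : ℝ) (p d : Pc) (ps ds : List Pc) :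
    cost M (p :: ps) (d :: ds) = (1 + |p.t - d.t|) ^ M * cost M ps ds := by
  simp [cost]

lemma cost_nonneg (M : ℝ) : ∀ (ps ds : List Pc), 0 ≤ cost M ps ds
  | [], ds => by simp
  | p :: ps, [] => by simp [cost]
  | p :: ps, d :: ds => by
    rw [cost_cons]
    exact mul_nonneg (Real.rpow_nonneg (by positivity) _) (cost_nonneg M ps ds)

/-- the values `val i` (`i ∈ K`) of a piece with a general weight are averages of the values at
`k i` of shifts of the piece `d` -/
def Sep (h : ℝ → ℝ) (M ρ C : ℝ) {ι : Type} (K : Finset ι) (k : ι → Eis) (val : ι → ℂ)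
    (d : Pc) : Prop :=
  ∀ (v : ι → ℝ) (B : ℝ), (∀ i, 0 ≤ v i) → 0 ≤ B →
    (∀ p : Pc, Nr ρ p d → ∑ i ∈ K, v i * ‖CS (pc h p) (k i)‖ ≤ B * (1 + |p.t - d.t|) ^ M) →
    ∑ i ∈ K, v i * ‖val i‖ ≤ C * B

lemma Sep.mono {h : ℝ → ℝ} {M ρ C ρ' C' : ℝ} {ι : Type} {K : Finset ι} {k : ι → Eis} {val : ι → ℂ}
    {d : Pc} (H : Sep h M ρ C K k val d) (hρ : ρ ≤ ρ') (hC : C ≤ C') : Sep h M ρ' C' K k val d := by
  intro v B hv hB hyp
  refine (H v B hv hB fun p hp => hyp p ⟨hp.u, hp.ψ, hp.Y0, hp.near.trans hρ⟩).trans ?_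
  exact mul_le_mul_of_nonneg_right hC hB

/-- **several pieces** -/
theorem sep_prod {h : ℝ → ℝ} {M ρ C : ℝ} (hC : 0 ≤ C) {ι : Type} (K : Finset ι) (k : ι → Eis) :
    ∀ (L : List ((ι → ℂ) × Pc)), (∀ x ∈ L, Sep h M ρ C K k x.1 x.2) →
    ∀ (v : ι → ℝ) (B : ℝ), (∀ i, 0 ≤ v i) → 0 ≤ B →
      (∀ ps : List Pc, List.Forall₂ (Nr ρ) ps (L.map Prod.snd) →
        ∑ i ∈ K, v i * (ps.map fun p => ‖CS (pc h p) (k i)‖).prod ≤
          B * cost M ps (L.map Prod.snd)) →
      ∑ i ∈ K, v i * (L.map fun x => ‖x.1 i‖).prod ≤ C ^ L.length * B := by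
  intro L
  induction L with
  | nil =>
    intro _ v B hv hB hyp
    have := hyp [] (by simp)
    simpa using this
  | cons x L ih =>
    intro hL v B hv hB hyp
    have hx := hL x List.mem_cons_self
    have hL' : ∀ x ∈ L, Sep h M ρ C K k x.1 x.2 := fun y hy => hL y (List.mem_cons_of_mem _ hy)
    have hprod : ∀ i, 0 ≤ (L.map fun x => ‖x.1 i‖).prod := fun i =>
      List.prod_nonneg fun a ha => by
        rw [List.mem_map] at ha
        obtain ⟨y, _, rfl⟩ := ha
        exact norm_nonneg _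
    have h1 := hx (fun i => v i * (L.map fun x => ‖x.1 i‖).prod) (C ^ L.length * B)
      (fun i => mul_nonneg (hv i) (hprod i)) (by positivity) (fun p hp => by
        have h2 := ih hL' (fun i => v i * ‖CS (pc h p) (k i)‖) (B * (1 + |p.t - x.2.t|) ^ M)
          (fun i => mul_nonneg (hv i) (norm_nonneg _))
          (mul_nonneg hB (Real.rpow_nonneg (by positivity) _)) (fun ps hps => by
            have h3 := hyp (p :: ps) (by
              rw [List.map_cons]
              exact List.Forall₂.cons hp hps)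
            rw [List.map_cons, cost_cons] at h3
            calc ∑ i ∈ K, v i * ‖CS (pc h p) (k i)‖ * (ps.map fun p => ‖CS (pc h p) (k i)‖).prod
                = ∑ i ∈ K, v i * ((p :: ps).map fun p => ‖CS (pc h p) (k i)‖).prod := by
                  refine Finset.sum_congr rfl fun i _ => ?_
                  rw [List.map_cons, List.prod_cons]; ring
              _ ≤ _ := h3
              _ = _ := by ring)
        calc ∑ i ∈ K, v i * (L.map fun x => ‖x.1 i‖).prod * ‖CS (pc h p) (k i)‖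
            = ∑ i ∈ K, v i * ‖CS (pc h p) (k i)‖ * (L.map fun x => ‖x.1 i‖).prod :=
              Finset.sum_congr rfl fun i _ => by ring
          _ ≤ _ := h2
          _ = _ := by ring)
    calc ∑ i ∈ K, v i * ((x :: L).map fun x => ‖x.1 i‖).prod
        = ∑ i ∈ K, v i * (L.map fun x => ‖x.1 i‖).prod * ‖x.1 i‖ := by
          refine Finset.sum_congr rfl fun i _ => ?_
          rw [List.map_cons, List.prod_cons]; ring
      _ ≤ _ := h1
      _ = _ := by rw [List.length_cons, pow_succ]; ring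

/-! ### one piece -/

/-- the coefficients of a descriptor with a general weight, at `k` -/
def φc (d : Pc) (k b : Eis) : ℂ := uv d.u b * d.ψ b * sy k b

lemma CS_pc_eq {h : ℝ → ℝ} {R : ℝ} (hR : ∀ u, cx h u ≠ 0 → |u| ≤ R) (p : Pc) {N : ℕ}
    (hN : Real.exp (Real.log p.Y + R) ≤ N) (k : Eis) :
    CS (pc h p) k = LF h (primBall N) id (φc p k) p.Y p.t := by
  classical
  unfold CS LF
  rw [tsum_eq_sum (s := primBall N)]
  · refine Finset.sum_congr rfl fun b hb => ?_
    rw [mem_primBall] at hb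
    unfold pc φc
    rw [if_pos hb.2]
    simp only [id]
    ring
  · intro b hb
    unfold pc
    split_ifs with hp
    · have hgw : gw h p.Y p.t b = 0 := by
        by_contra hne
        apply hb
        rw [mem_primBall]
        refine ⟨?_, hp⟩
        unfold gw at hne
        have h2 := hR _ (right_ne_zero_of_mul hne)
        have h3 : (0 : ℝ) < nm b := by exact_mod_cast nm_pos.2 hp.ne_zero
        have h4 : Real.log (nm b) ≤ Real.log p.Y + R := by
          have := (abs_le.1 h2).2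
          linarith
        have h5 : (nm b : ℝ) ≤ N := by
          calc (nm b : ℝ) = Real.exp (Real.log (nm b)) := (Real.exp_log h3).symm
            _ ≤ Real.exp (Real.log p.Y + R) := Real.exp_le_exp.2 h4
            _ ≤ N := hN
        exact_mod_cast h5
      rw [hgw]; simp
    · simp

/-- a kernel moment -/
lemma sum_int_le {w : ℝ → ℂ} {R : ℝ} (hw : SWt w R) (M : ℝ) : ∃ C : ℝ, 0 ≤ C ∧
    ∀ {ι : Type} (K : Finset ι) (v : ι → ℝ) (F : ι → ℝ → ℂ) (B : ℝ), (∀ i, 0 ≤ v i) → 0 ≤ B →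
      (∀ i, Continuous (F i)) → (∀ i, ∃ A, ∀ s, ‖F i s‖ ≤ A) →
      (∀ s, ∑ i ∈ K, v i * ‖F i s‖ ≤ B * (1 + |s|) ^ M) →
      ∑ i ∈ K, v i * (∫ s : ℝ, ‖ker w s‖ * ‖F i s‖) ≤ C * B := by
  obtain ⟨C, hC, hmom⟩ := kerg_mom hw M
  refine ⟨C, hC, ?_⟩
  intro ι K v F B hv hB hcont hbd hyp
  have hki := Weight600.ker_integrable hw.cd hw.cs
  have hint : ∀ i, Integrable fun s : ℝ => ‖ker w s‖ * ‖F i s‖ := by
    intro i
    obtain ⟨A, hA⟩ := hbd i
    exact hki.norm.mul_bdd (c := A) (hcont i).norm.aestronglyMeasurable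
      (Eventually.of_forall fun u => by rw [norm_norm]; exact hA _)
  have e : ∑ i ∈ K, v i * (∫ s : ℝ, ‖ker w s‖ * ‖F i s‖) =
      ∫ s : ℝ, ‖ker w s‖ * ∑ i ∈ K, v i * ‖F i s‖ := by
    have e1 : ∀ i ∈ K, v i * (∫ s : ℝ, ‖ker w s‖ * ‖F i s‖) =
        ∫ s : ℝ, v i * (‖ker w s‖ * ‖F i s‖) := fun i _ => by rw [integral_const_mul]
    rw [Finset.sum_congr rfl e1, ← integral_finsetSum _ fun i _ => (hint i).const_mul _]
    congr 1
    funext s
    rw [Finset.mul_sum]
    exact Finset.sum_congr rfl fun i _ => by ring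
  rw [e]
  exact hmom B _ hB fun s => ⟨Finset.sum_nonneg fun i _ => mul_nonneg (hv i) (norm_nonneg _), hyp s⟩

/-- the value at `k` of the descriptor `d` with the weight `w` at the log-length `y` -/
def gval (w : ℝ → ℂ) (N : ℕ) (d : Pc) (y : ℝ) (k : Eis) : ℂ :=
  ∑ b ∈ primBall N, φc d k b * gg w (Real.exp y) d.t b

/-- **one piece with a fixed weight** -/
theorem sep_w {h : ℝ → ℝ} {c : ℝ} (hpu : PU h c) {w : ℝ → ℂ} {R : ℝ} (hR0 : 0 ≤ R)
    (hR : ∀ u, cx h u ≠ 0 → |u| ≤ R) (hw : SWt w R) {ρ : ℝ} (hρ : 0 ≤ ρ) (M : ℝ) :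
    ∃ C : ℝ, 0 ≤ C ∧ ∀ {ι : Type} (K : Finset ι) (k : ι → Eis) (d : Pc) (y : ι → ℝ) (N : ℕ),
      (∀ i ∈ K, |y i - Real.log d.Y| ≤ ρ) → Real.exp (Real.log d.Y + 3 * R + ρ) ≤ N →
      Sep h M (2 * R + ρ) C K k (fun i => gval w N d (y i) (k i)) d := by
  obtain ⟨C0, hC0, hmom⟩ := sum_int_le hw M
  have hc := hpu.cpos
  set W := 2 * (2 * R + ρ) / c + 1 with hW
  have hW0 : 0 ≤ W := by positivity
  refine ⟨W * C0, by positivity, ?_⟩
  intro ι K k d y N hy hN v B hv hB hyp
  set S := grid c (Real.log d.Y) (2 * R + ρ) with hS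
  have hcard : (S.card : ℝ) ≤ W := card_grid hc (by positivity)
  obtain ⟨A, hA⟩ : ∃ A, ∀ u, ‖cx h u‖ ≤ A :=
    (cs_cx hpu.cs).exists_bound_of_continuous (cd_cx hpu.cd).continuous
  have hb0 : ∀ b ∈ primBall N, id b ≠ 0 := fun b hb => by
    rw [mem_primBall] at hb
    exact hb.2.ne_zero
  have h1 : ∀ i ∈ K, ‖gval w N d (y i) (k i)‖ ≤ ∑ n ∈ S, ∫ s : ℝ, ‖ker w s‖ *
      ‖LF h (primBall N) id (φc d (k i)) (Real.exp (c * n)) (d.t + s)‖ := by
    intro i hi
    have e := LFg_sep hpu hR hw (Y := Real.exp (y i)) S (fun n hn => by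
      rw [hS, mem_grid hc]
      rw [Real.log_exp] at hn
      have e : c * n - Real.log d.Y = (c * n - y i) + (y i - Real.log d.Y) := by ring
      rw [e]
      exact (abs_add_le _ _).trans (add_le_add hn (hy i hi))) d.t (primBall N) id hb0
      (φc d (k i))
    have e0 : gval w N d (y i) (k i) = LFg w (primBall N) id (φc d (k i)) (Real.exp (y i)) d.t := rfl
    rw [e0, e]
    refine (norm_sum_le _ _).trans (Finset.sum_le_sum fun n _ => ?_)
    refine (norm_integral_le_integral_norm _).trans (le_of_eq ?_)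
    congr 1
    funext s
    rw [norm_mul, norm_mul, norm_osc, mul_one]
  have h2 : ∑ i ∈ K, v i * ‖gval w N d (y i) (k i)‖ ≤ ∑ n ∈ S, ∑ i ∈ K, v i *
      ∫ s : ℝ, ‖ker w s‖ * ‖LF h (primBall N) id (φc d (k i)) (Real.exp (c * n)) (d.t + s)‖ := by
    rw [Finset.sum_comm]
    refine Finset.sum_le_sum fun i hi => ?_
    rw [← Finset.mul_sum]
    exact mul_le_mul_of_nonneg_left (h1 i hi) (hv i)
  refine h2.trans ?_
  have h3 : ∀ n ∈ S, ∑ i ∈ K, v i *
      ∫ s : ℝ, ‖ker w s‖ * ‖LF h (primBall N) id (φc d (k i)) (Real.exp (c * n)) (d.t + s)‖ ≤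
      C0 * B := by
    intro n hn
    rw [hS, mem_grid hc] at hn
    refine hmom K v (fun i s => LF h (primBall N) id (φc d (k i)) (Real.exp (c * n)) (d.t + s)) B hv
      hB (fun i => (continuous_LF _ _ _ _ _).comp (continuous_const.add continuous_id))
      (fun i => ⟨_, fun s => norm_LF_le hA _ _ _ _ _⟩) (fun s => ?_)
    have h4 := hyp ⟨d.u, d.ψ, Real.exp (c * n), d.t + s⟩ ⟨rfl, rfl, Real.exp_pos _, by
      simpa using hn⟩
    have h5 : ∀ i ∈ K, CS (pc h ⟨d.u, d.ψ, Real.exp (c * n), d.t + s⟩) (k i) =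
        LF h (primBall N) id (φc d (k i)) (Real.exp (c * n)) (d.t + s) := by
      intro i _
      refine CS_pc_eq hR ⟨d.u, d.ψ, Real.exp (c * n), d.t + s⟩ (le_trans ?_ hN) (k i)
      rw [Real.log_exp]
      apply Real.exp_le_exp.2
      have := (abs_le.1 hn).2
      linarith
    rw [Finset.sum_congr rfl fun i hi => by rw [h5 i hi]] at h4
    have e1 : d.t + s - d.t = s := by ring
    simp only [e1] at h4
    exact h4
  refine (Finset.sum_le_sum h3).trans ?_
  rw [Finset.sum_const, nsmul_eq_mul, mul_assoc]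
  exact mul_le_mul_of_nonneg_right hcard (by positivity)

end Crest.Agent.R017.Bx986
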