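import Crest.Agent.R017.BxA_986

/-!
# Row 17, D.FIN: the pieces of a box (helper986)

* `sep_mu` : Möbius pieces with a cut-off, uniformly in the cut-off
* `PS_eq_gval`, `PM`, `AS`, `AP` as values of descriptors
-/

set_option autoImplicit false
set_option linter.unusedSectionVars false
set_option linter.unusedVariables false

noncomputable section

open Complex MeasureTheory Filter Topology
open scoped ComplexConjugate ContDiff

namespace Crest.Agent.R017.Bx986

open Crest.Agent.R012 Crest.Agent.R012.Eis Crest.Agent.R012.Mob705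
open Crest.Agent.R012.Weight600 (osc norm_osc ker)
open Crest.Agent.R012.PSer47 (IsChar)
open Crest.Agent.R017.CM106 Crest.Agent.R017.FE47 Crest.Agent.R017.End699
open Crest.Agent.R017.HSep813 Crest.Agent.R017.HP842 Crest.Agent.R017.B770
open Crest.Agent.R017.HB645 Crest.Agent.R017.Sup271 Crest.Agent.R017.Asm986

/-- the weight of the smooth pieces of Heath-Brown's identity -/
def hC (u : ℝ) : ℂ := (HB645.hh u : ℂ)

lemma swt_hC : SWt hC 1 where
  cd := hw_hh.cd
  cs := by
    refine HasCompactSupport.intro (K := Set.Icc (-1) 1) isCompact_Icc fun u hu => ?_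
    by_contra h
    exact hu (abs_le.mp (hw_hh.supp u h))
  rad := hw_hh.supp

lemma swt_of_hw {h : ℝ → ℂ} (hh : HW h) : SWt h 1 where
  cd := hh.cd
  cs := by
    refine HasCompactSupport.intro (K := Set.Icc (-1) 1) isCompact_Icc fun u hu => ?_
    by_contra h
    exact hu (abs_le.mp (hh.supp u h))
  rad := hh.supp

lemma swt_conj {w : ℝ → ℂ} {R : ℝ} (hw : SWt w R) : SWt (fun u => conj (w u)) R where
  cd := (Complex.conjCLE.contDiff (n := ∞)).comp hw.cd
  cs := hw.cs.comp_left (g := conj) (map_zero _)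
  rad := fun u hu => hw.rad u (by
    intro h
    apply hu
    rw [h, map_zero])

/-- a fixed smooth cut-off equal to `1 - sg` on `[-7, ∞)` -/
def cutF (u : ℝ) : ℂ := ((1 - HB645.sg u : ℝ) : ℂ) * ((HB645.sg (u + 8) : ℝ) : ℂ)

lemma contDiff_sgC : ContDiff ℝ ∞ fun u : ℝ => ((HB645.sg u : ℝ) : ℂ) := by
  have h1 : ContDiff ℝ ∞ fun u : ℝ => ((1 - HB645.sg u : ℝ) : ℂ) := sg_cut.cd
  have h2 : (fun u : ℝ => ((HB645.sg u : ℝ) : ℂ)) = fun u : ℝ => 1 - ((1 - HB645.sg u : ℝ) : ℂ) := by
    funext u
    push_cast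
    ring
  rw [h2]
  exact contDiff_const.sub h1

lemma swt_cutF : SWt cutF 8 where
  cd := by
    unfold cutF
    exact sg_cut.cd.mul (contDiff_sgC.comp (contDiff_id.add contDiff_const))
  cs := by
    refine HasCompactSupport.intro (K := Set.Icc (-8) 1) isCompact_Icc fun u hu => ?_
    unfold cutF
    by_cases h1 : u < -8
    · rw [HB645.sg_of_le (u := u + 8) (by linarith)]; simp
    · have h2 : 1 < u := by
        by_contra h3
        exact hu ⟨by linarith, by linarith⟩
      rw [HB645.sg_of_ge (u := u) h2.le]; simp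
  rad := by
    intro u hu
    unfold cutF at hu
    rw [abs_le]
    constructor
    · by_contra h1
      apply hu
      rw [HB645.sg_of_le (u := u + 8) (by linarith)]; simp
    · by_contra h2
      apply hu
      rw [HB645.sg_of_ge (u := u) (by linarith)]; simp

lemma cutF_eq {u : ℝ} (hu : -7 ≤ u) : cutF u = ((1 - HB645.sg u : ℝ) : ℂ) := by
  unfold cutF
  rw [HB645.sg_of_ge (u := u + 8) (by linarith)]; simp

/-- the value of a Möbius piece with cut-off -/
def mval (N : ℕ) (d : Pc) (y z : ℝ) (k : Eis) : ℂ :=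
  ∑ b ∈ primBall N, φc d k b * (gg hC (Real.exp y) d.t b *
    ((1 - HB645.sg (Real.log (nm b) - Real.log z) : ℝ) : ℂ))

lemma norm_gval_le {w : ℝ → ℂ} {A : ℝ} (hA : ∀ u, ‖w u‖ ≤ A) (N : ℕ) (d : Pc) (y : ℝ) (k : Eis) :
    ‖gval w N d y k‖ ≤ ∑ b ∈ primBall N, ‖φc d k b‖ * A := by
  unfold gval
  refine (norm_sum_le _ _).trans (Finset.sum_le_sum fun b _ => ?_)
  rw [norm_mul]
  exact mul_le_mul_of_nonneg_left (norm_gg_le hA _ _ _) (norm_nonneg _)

/-- **one Möbius piece, uniformly in the cut-off** -/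
theorem sep_mu {h : ℝ → ℝ} {c : ℝ} (hpu : PU h c) {R : ℝ} (hR1 : 1 ≤ R)
    (hR : ∀ u, cx h u ≠ 0 → |u| ≤ R) {M : ℝ} (hM : 0 ≤ M) :
    ∃ C : ℝ, 0 ≤ C ∧ ∀ {ι : Type} (K : Finset ι) (k : ι → Eis) (d : Pc) (y z : ℝ) (N : ℕ),
      Real.log d.Y = y → Real.exp (Real.log d.Y + 3 * R) ≤ N →
      Sep h M (2 * R) C K k (fun i => mval N d y z (k i)) d := by
  have hR0 : 0 ≤ R := by linarith
  have hhC : SWt hC R := ⟨swt_hC.cd, swt_hC.cs, fun u hu => (swt_hC.rad u hu).trans hR1⟩
  obtain ⟨C1, hC1, h1⟩ := sep_w hpu hR0 hR hhC (le_refl (0 : ℝ)) M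
  obtain ⟨C2, hC2, h2⟩ := sum_int_le swt_cutF M
  refine ⟨C1 + C1 * C2, by positivity, ?_⟩
  intro ι K k d y z N hy hN v B hv hB hyp
  obtain ⟨A, hA⟩ : ∃ A, ∀ u, ‖hC u‖ ≤ A :=
    swt_hC.cs.exists_bound_of_continuous swt_hC.cd.continuous
  -- the same descriptor at another height
  have hd : ∀ s : ℝ, ∑ i ∈ K, v i * ‖gval hC N ⟨d.u, d.ψ, d.Y, d.t + s⟩ y (k i)‖ ≤
      C1 * (B * (1 + |s|) ^ M) := by
    intro s
    have h3 := h1 K k ⟨d.u, d.ψ, d.Y, d.t + s⟩ (fun _ => y) N (fun i _ => by simp [hy])
      (by simpa using hN)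
    have h4 := h3 v (B * (1 + |s|) ^ M) hv (mul_nonneg hB (Real.rpow_nonneg (by positivity) _))
    refine h4 fun p hp => ?_
    have h5 := hyp p ⟨hp.u, hp.ψ, hp.Y0, by simpa using hp.near⟩
    refine h5.trans ?_
    rw [mul_assoc]
    refine mul_le_mul_of_nonneg_left ?_ hB
    rw [← Real.mul_rpow (by positivity) (by positivity)]
    refine Real.rpow_le_rpow (by positivity) ?_ hM
    have h6 : |p.t - d.t| ≤ |s| + |p.t - (d.t + s)| := by
      have : p.t - d.t = s + (p.t - (d.t + s)) := by ring
      rw [this]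
      exact abs_add_le _ _
    have h7 : 0 ≤ |s| * |p.t - (d.t + s)| := by positivity
    nlinarith
  rcases le_or_gt (y - Real.log z) (-6) with hcase | hcase
  · -- no cut-off
    have e : ∀ i, mval N d y z (k i) = gval hC N ⟨d.u, d.ψ, d.Y, d.t + 0⟩ y (k i) := by
      intro i
      unfold mval gval
      refine Finset.sum_congr rfl fun b hb => ?_
      have e1 : φc ⟨d.u, d.ψ, d.Y, d.t + 0⟩ (k i) b = φc d (k i) b := rfl
      rw [e1]
      simp only [add_zero]
      by_cases hb0 : gg hC (Real.exp y) d.t b = 0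
      · rw [hb0]; ring
      · have h3 : |Real.log (nm b) - Real.log (Real.exp y)| ≤ 1 := by
          refine swt_hC.rad _ fun h0 => hb0 ?_
          unfold gg
          rw [h0, mul_zero]
        rw [Real.log_exp] at h3
        have h4 := (abs_le.1 h3).2
        rw [HB645.sg_of_le (by linarith)]
        simp
    have h3 := hd 0
    have e9 : (1 + |(0 : ℝ)|) ^ M = 1 := by simp
    rw [e9, mul_one] at h3
    have h4 : ∑ i ∈ K, v i * ‖mval N d y z (k i)‖ =
        ∑ i ∈ K, v i * ‖gval hC N ⟨d.u, d.ψ, d.Y, d.t + 0⟩ y (k i)‖ :=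
      Finset.sum_congr rfl fun i _ => by rw [e i]
    have h5 : ∑ i ∈ K, v i * ‖mval N d y z (k i)‖ ≤ C1 * B := h4.trans_le h3
    refine h5.trans ?_
    have : 0 ≤ C1 * C2 * B := by positivity
    nlinarith
  · -- Fourier inversion for the cut-off
    have e : ∀ i, mval N d y z (k i) = ∫ s : ℝ, (ker cutF s * osc s (-Real.log z)) *
        gval hC N ⟨d.u, d.ψ, d.Y, d.t + s⟩ y (k i) := by
      intro i
      have hki := Weight600.ker_integrable swt_cutF.cd swt_cutF.cs
      have hinv := Weight600.inversion_smooth swt_cutF.cd swt_cutF.cs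
      have hterm : ∀ b ∈ primBall N, Integrable fun s : ℝ => (ker cutF s * osc s (-Real.log z)) *
          (φc d (k i) b * gg hC (Real.exp y) (d.t + s) b) := by
        intro b hb
        refine (integrable_mul_osc hki _).mul_bdd (c := ‖φc d (k i) b‖ * A)
          ((continuous_const.mul ((continuous_gg hC (Real.exp y) b).comp
            (continuous_const.add continuous_id)))).aestronglyMeasurable
          (Eventually.of_forall fun u => ?_)
        rw [norm_mul]
        exact mul_le_mul_of_nonneg_left (norm_gg_le hA _ _ _) (norm_nonneg _)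
      have e0 : ∀ s : ℝ, (ker cutF s * osc s (-Real.log z)) *
          gval hC N ⟨d.u, d.ψ, d.Y, d.t + s⟩ y (k i) = ∑ b ∈ primBall N,
          (ker cutF s * osc s (-Real.log z)) * (φc d (k i) b * gg hC (Real.exp y) (d.t + s) b) := by
        intro s
        unfold gval
        rw [Finset.mul_sum]
        rfl
      simp_rw [e0]
      rw [integral_finsetSum _ hterm]
      unfold mval
      refine Finset.sum_congr rfl fun b hb => ?_
      have e1 : ∀ s : ℝ, (ker cutF s * osc s (-Real.log z)) *
          (φc d (k i) b * gg hC (Real.exp y) (d.t + s) b) =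
          (ker cutF s * osc s (Real.log (nm b) - Real.log z)) *
            (φc d (k i) b * gg hC (Real.exp y) d.t b) := by
        intro s
        unfold gg
        rw [Weight600.osc_add_left]
        have e2 : osc s (Real.log (nm b) - Real.log z) = osc s (Real.log (nm b)) *
            osc s (-Real.log z) := by
          rw [← Weight600.osc_add_right]; rfl
        rw [e2]
        ring
      simp_rw [e1]
      rw [integral_mul_const, hinv]
      by_cases hb0 : gg hC (Real.exp y) d.t b = 0
      · rw [hb0]; ring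
      · have h3 : |Real.log (nm b) - Real.log (Real.exp y)| ≤ 1 := by
          refine swt_hC.rad _ fun h0 => hb0 ?_
          unfold gg
          rw [h0, mul_zero]
        rw [Real.log_exp] at h3
        have h4 := (abs_le.1 h3).1
        rw [cutF_eq (by linarith)]
        ring
    have h3 : ∀ i ∈ K, v i * ‖mval N d y z (k i)‖ ≤ v i * ∫ s : ℝ, ‖ker cutF s‖ *
        ‖gval hC N ⟨d.u, d.ψ, d.Y, d.t + s⟩ y (k i)‖ := by
      intro i _
      refine mul_le_mul_of_nonneg_left ?_ (hv i)
      rw [e i]
      refine (norm_integral_le_integral_norm _).trans (le_of_eq ?_)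
      congr 1
      funext s
      rw [norm_mul, norm_mul, norm_osc, mul_one]
    refine (Finset.sum_le_sum h3).trans ?_
    have h4 := h2 K v (fun i s => gval hC N ⟨d.u, d.ψ, d.Y, d.t + s⟩ y (k i)) (C1 * B) hv
      (by positivity) (fun i => by
        unfold gval
        refine continuous_finsetSum _ fun b _ => ?_
        have e3 : (fun s : ℝ => φc ⟨d.u, d.ψ, d.Y, d.t + s⟩ (k i) b *
            gg hC (Real.exp y) (d.t + s) b) = fun s : ℝ => φc d (k i) b *
            gg hC (Real.exp y) (d.t + s) b := rfl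
        show Continuous (fun s : ℝ => φc ⟨d.u, d.ψ, d.Y, d.t + s⟩ (k i) b *
            gg hC (Real.exp y) (d.t + s) b)
        rw [e3]
        exact continuous_const.mul ((continuous_gg hC (Real.exp y) b).comp
          (continuous_const.add continuous_id)))
      (fun i => ⟨∑ b ∈ primBall N, ‖φc d (k i) b‖ * A, fun s =>
        norm_gval_le hA N ⟨d.u, d.ψ, d.Y, d.t + s⟩ y (k i)⟩) (fun s => by
        have := hd s
        calc _ ≤ C1 * (B * (1 + |s|) ^ M) := this
          _ = _ := by ring)
    refine h4.trans ?_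
    have : 0 ≤ C1 * B := by positivity
    nlinarith

end Crest.Agent.R017.Bx986
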