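import Crest.Agent.R017.BxB_986

/-!
# Row 17, D.FIN: the bridge from a box to the box functional (helper986)

* `BF P h K ps = ∑_{k ∈ bl K, NP2 k} ∏_{p ∈ ps} |CS (pc h p) k|`
* `dsB` : the list of the pieces of a box
* `bx_le` : `∑_q |P.bx ..|` from the bounds of `BF` for all shifts of `dsB`
-/

set_option autoImplicit false
set_option linter.unusedSectionVars false
set_option linter.unusedVariables false

noncomputable section

open Complex MeasureTheory Filter Topology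
open scoped ComplexConjugate ContDiff

namespace Crest.Agent.R017.Bx986

open Crest.Agent.R012 Crest.Agent.R012.Eis Crest.Agent.R012.Mob705
open Crest.Agent.R012.LS2 (bl)
open Crest.Agent.R012.Weight600 (osc norm_osc ker)
open Crest.Agent.R012.PSer47 (IsChar)
open Crest.Agent.R012.Div277 (tau dvs mem_dvs tau_le_rpow)
open Crest.Agent.R017.CM106 Crest.Agent.R017.FE47 Crest.Agent.R017.End699
open Crest.Agent.R017.HSep813 Crest.Agent.R017.HP842 Crest.Agent.R017.B770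
open Crest.Agent.R017.HB645 Crest.Agent.R017.Sup271 Crest.Agent.R017.Asm986
open Crest.Agent.R017.HBS271

open Classical in
/-- **the box functional** -/
def BF (P : DPar) (h : ℝ → ℝ) (K : ℝ) (ps : List Pc) : ℝ :=
  ∑ k ∈ bl K, if P.NP2 k then (ps.map fun p => ‖CS (pc h p) k‖).prod else 0

/-- the character of the pieces of the Möbius sum -/
def χS (P : DPar) (d₂ : Eis) : Eis → ℂ := fun b => tw P.ψ P.l₂ b * prin0 d₂ b

/-- the character of the pieces of the amplifier (conjugated) -/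
def χA (P : DPar) (d₁ : Eis) : Eis → ℂ := fun b => conj (tw P.φ P.l₁ b) * prin0 d₁ b

/-- the pieces of the Möbius sum -/
def dsS (P : DPar) (d₂ : Eis) (t₂ : ℝ) {j : ℕ} (c : Fin (j - 1) ⊕ Fin j → ℕ) : List Pc :=
  (List.ofFn fun i : Fin (j - 1) => (⟨.one, χS P d₂, Real.exp (c (Sum.inl i)), t₂⟩ : Pc)) ++
    List.ofFn fun i : Fin j => (⟨.mu, χS P d₂, Real.exp (c (Sum.inr i)), t₂⟩ : Pc)

/-- the pieces of the amplifier -/
def dsA (P : DPar) (r : ℕ) (y Q₀ κ : ℝ) (J : Finset (Fin r)) (d₁ : Eis) (t₁ : ℝ) : List Pc :=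
  (⟨.sq, χA P d₁, Real.exp κ, -t₁⟩ : Pc) ::
    J.toList.map fun i => (⟨.pr, χA P d₁, Real.exp (kap r y Q₀ i), -t₁⟩ : Pc)

/-- the pieces of a box -/
def dsB (P : DPar) (r : ℕ) (y Q₀ κ : ℝ) (J : Finset (Fin r)) (d₁ d₂ : Eis) (t₁ t₂ : ℝ) {j : ℕ}
    (c : Fin (j - 1) ⊕ Fin j → ℕ) : List Pc :=
  dsS P d₂ t₂ c ++ dsA P r y Q₀ κ J d₁ t₁

/-! ### the pieces as values of descriptors -/

lemma twt_eq (φ : Eis → ℂ) (l : ℤ) (t : ℝ) {b : Eis} (hb : IsPrim b) :
    twt φ l t b = tw φ l b * osc t (Real.log (nm b)) := by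
  have h : (0 : ℝ) < nm b := by exact_mod_cast nm_pos.2 hb.ne_zero
  unfold twt
  have := Weight600.pw_eq_cpow' h t
  unfold Weight600.pw at this
  rw [this]
  push_cast
  rfl

/-- extension of the range of a sum with a compactly supported weight -/
lemma sum_ext {y : ℝ} {N : ℕ} (hN : Real.exp (y + 1) ≤ N) (F : Eis → ℂ)
    (hF : ∀ b, IsPrim b → F b ≠ 0 → Real.log (nm b) ≤ y + 1) :
    ∑ b ∈ primBall ⌊Real.exp (y + 1)⌋₊, F b = ∑ b ∈ primBall N, F b := by
  apply Finset.sum_subset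
  · intro b hb
    rw [mem_primBall] at hb ⊢
    exact ⟨hb.1.trans (Nat.floor_le_of_le hN), hb.2⟩
  · intro b hb hb2
    rw [mem_primBall] at hb hb2
    by_contra hne
    apply hb2
    refine ⟨?_, hb.2⟩
    rw [Nat.le_floor_iff (Real.exp_pos _).le]
    have h3 : (0 : ℝ) < nm b := by exact_mod_cast nm_pos.2 hb.2.ne_zero
    calc (nm b : ℝ) = Real.exp (Real.log (nm b)) := (Real.exp_log h3).symm
      _ ≤ _ := Real.exp_le_exp.2 (hF b hb.2 hne)

lemma hh_log {y x : ℝ} (h : HB645.hh (x - y) ≠ 0) : x ≤ y + 1 := by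
  by_contra hc
  exact h (HB645.hh_right (by linarith))

lemma PS_eq_gval (P : DPar) (d₂ : Eis) (t₂ Y : ℝ) (κ : ℕ) {N : ℕ} (hN : Real.exp (κ + 1) ≤ N)
    (k : Eis) : HB645.PS (P.ch d₂ t₂ k) κ 0 = gval hC N ⟨.one, χS P d₂, Y, t₂⟩ κ k := by
  unfold HB645.PS
  rw [sum_ext hN _ fun b hb hne => by
    have h1 := right_ne_zero_of_mul hne
    exact hh_log (y := (κ : ℝ)) (fun h0 => h1 (by rw [h0]; simp))]
  unfold gval φc
  refine Finset.sum_congr rfl fun b hb => ?_
  rw [mem_primBall] at hb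
  unfold DPar.ch χS gg hC uv
  rw [twt_eq _ _ _ hb.2, Weight600.pw_zero_left, Real.log_exp]
  ring

lemma PM_eq_mval (P : DPar) (d₂ : Eis) (t₂ Y z : ℝ) (κ : ℕ) {N : ℕ} (hN : Real.exp (κ + 1) ≤ N)
    (k : Eis) : HB645.PM (P.ch d₂ t₂ k) z κ 0 = mval N ⟨.mu, χS P d₂, Y, t₂⟩ κ z k := by
  unfold HB645.PM
  rw [sum_ext hN _ fun b hb hne => by
    have h1 := right_ne_zero_of_mul hne
    exact hh_log (y := (κ : ℝ)) (fun h0 => h1 (by rw [h0]; simp))]
  unfold mval φc
  refine Finset.sum_congr rfl fun b hb => ?_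
  rw [mem_primBall] at hb
  unfold DPar.ch χS gg hC uv HB645.cM
  rw [twt_eq _ _ _ hb.2, Weight600.pw_zero_left, Real.log_exp]
  ring

lemma conj_prin0 (q b : Eis) : conj (prin0 q b) = prin0 q b := by
  unfold prin0
  split_ifs <;> simp

lemma osc_conj (t u : ℝ) : conj (osc t u) = osc (-t) u := (Weight600.osc_neg_left t u).symm

lemma AS_eq_gval (P : DPar) (hh : HW P.h₀) (d₁ : Eis) (t₁ Y y : ℝ) {N : ℕ}
    (hN : Real.exp (y + 1) ≤ N) (k : Eis) :
    conj (AS P.h₀ y (fun c => twt P.φ P.l₁ t₁ c * prin0 d₁ c * conj (sy k c))) =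
      gval (fun u => conj (P.h₀ u)) N ⟨.sq, χA P d₁, Y, -t₁⟩ y k := by
  classical
  unfold AS sqB
  rw [map_sum, Finset.sum_filter]
  rw [sum_ext hN _ fun b hb hne => by
    have h1 : conj (twt P.φ P.l₁ t₁ b * prin0 d₁ b * conj (sy k b) *
        P.h₀ (Real.log (nm b) - y)) ≠ 0 := fun h0 => hne (by rw [h0]; simp)
    have h2 : P.h₀ (Real.log (nm b) - y) ≠ 0 := fun h0 => h1 (by rw [h0, mul_zero, map_zero])
    have := (abs_le.1 (hh.supp _ h2)).2
    linarith]
  unfold gval φc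
  refine Finset.sum_congr rfl fun b hb => ?_
  rw [mem_primBall] at hb
  unfold χA gg uv
  rw [Real.log_exp]
  by_cases hs : Squarefree b
  · simp only [if_pos hs, map_mul, twt_eq _ _ _ hb.2, conj_prin0, osc_conj, Complex.conj_conj]
    ring
  · simp only [if_neg hs]
    ring

lemma AP_eq_gval (P : DPar) (hh : HW P.h) (d₁ : Eis) (t₁ Y y : ℝ) {N : ℕ}
    (hN : Real.exp (y + 1) ≤ N) (k : Eis) :
    conj (AP P.h y (fun c => twt P.φ P.l₁ t₁ c * prin0 d₁ c * conj (sy k c))) =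
      gval (fun u => conj (P.h u)) N ⟨.pr, χA P d₁, Y, -t₁⟩ y k := by
  classical
  unfold AP prS
  rw [map_sum, Finset.sum_filter]
  rw [sum_ext hN _ fun b hb hne => by
    have h1 : conj (twt P.φ P.l₁ t₁ b * prin0 d₁ b * conj (sy k b) *
        P.h (Real.log (nm b) - y)) ≠ 0 := fun h0 => hne (by rw [h0]; simp)
    have h2 : P.h (Real.log (nm b) - y) ≠ 0 := fun h0 => h1 (by rw [h0, mul_zero, map_zero])
    have := (abs_le.1 (hh.supp _ h2)).2
    linarith]
  unfold gval φc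
  refine Finset.sum_congr rfl fun b hb => ?_
  rw [mem_primBall] at hb
  unfold χA gg uv
  rw [Real.log_exp]
  by_cases hs : Prime b
  · simp only [if_pos hs, map_mul, twt_eq _ _ _ hb.2, conj_prin0, osc_conj, Complex.conj_conj]
    ring
  · simp only [if_neg hs]
    ring

end Crest.Agent.R017.Bx986
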