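import Crest.Agent.R017.BxC_986

/-!
# Row 17, D.FIN: the bridge theorem (helper986)

* `bx_le` : `∑_q |P.bx ..|` from the bounds of `BF` for all shifts of `dsB`
-/

set_option autoImplicit false
set_option linter.unusedSectionVars false
set_option linter.unusedVariables false

noncomputable section

open Complex MeasureTheory Filter Topology
open scoped ComplexConjugate ContDiff

namespace Crest.Agent.R017.Bx986

open Crest.Agent.R012 Crest.Agent.R012.Eis Crest.Agent.R012.Mob705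
open Crest.Agent.R012.LS2 (bl)
open Crest.Agent.R012.Weight600 (osc norm_osc ker)
open Crest.Agent.R012.PSer47 (IsChar)
open Crest.Agent.R012.Div277 (tau dvs mem_dvs tau_le_rpow)
open Crest.Agent.R017.CM106 Crest.Agent.R017.FE47 Crest.Agent.R017.End699
open Crest.Agent.R017.HSep813 Crest.Agent.R017.HP842 Crest.Agent.R017.B770
open Crest.Agent.R017.HB645 Crest.Agent.R017.Sup271 Crest.Agent.R017.Asm986
open Crest.Agent.R017.HBS271 Crest.Agent.R017.BoxP271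

/-- the value list of a box; index `(q, k)` -/
def VL (P : DPar) (r : ℕ) (y Q₀ κ : ℝ) (u : Eis → ℝ) (J : Finset (Fin r)) (d₁ d₂ : Eis)
    (t₁ t₂ z : ℝ) (N : ℕ) {j : ℕ} (c : Fin (j - 1) ⊕ Fin j → ℕ) :
    List ((Eis × Eis → ℂ) × Pc) :=
  ((List.ofFn fun i : Fin (j - 1) =>
      ((fun x : Eis × Eis => gval hC N ⟨.one, χS P d₂, Real.exp (c (Sum.inl i)), t₂⟩
        (c (Sum.inl i)) x.2), (⟨.one, χS P d₂, Real.exp (c (Sum.inl i)), t₂⟩ : Pc))) ++
    List.ofFn fun i : Fin j =>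
      ((fun x : Eis × Eis => mval N ⟨.mu, χS P d₂, Real.exp (c (Sum.inr i)), t₂⟩
        (c (Sum.inr i)) z x.2), (⟨.mu, χS P d₂, Real.exp (c (Sum.inr i)), t₂⟩ : Pc))) ++
  (((fun x : Eis × Eis => gval (fun v => conj (P.h₀ v)) N ⟨.sq, χA P d₁, Real.exp κ, -t₁⟩
      (κ - u x.1) x.2), (⟨.sq, χA P d₁, Real.exp κ, -t₁⟩ : Pc)) ::
    J.toList.map fun i =>
      ((fun x : Eis × Eis => gval (fun v => conj (P.h v)) N
        ⟨.pr, χA P d₁, Real.exp (kap r y Q₀ i), -t₁⟩ (kap r y Q₀ i) x.2),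
        (⟨.pr, χA P d₁, Real.exp (kap r y Q₀ i), -t₁⟩ : Pc)))

lemma VL_snd (P : DPar) (r : ℕ) (y Q₀ κ : ℝ) (u : Eis → ℝ) (J : Finset (Fin r)) (d₁ d₂ : Eis)
    (t₁ t₂ z : ℝ) (N : ℕ) {j : ℕ} (c : Fin (j - 1) ⊕ Fin j → ℕ) :
    (VL P r y Q₀ κ u J d₁ d₂ t₁ t₂ z N c).map Prod.snd = dsB P r y Q₀ κ J d₁ d₂ t₁ t₂ c := by
  unfold VL dsB dsS dsA
  simp only [List.map_append, List.map_cons, List.map_ofFn, List.map_map]
  rfl

lemma VL_length (P : DPar) (r : ℕ) (y Q₀ κ : ℝ) (u : Eis → ℝ) (J : Finset (Fin r)) (d₁ d₂ : Eis)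
    (t₁ t₂ z : ℝ) (N : ℕ) {j : ℕ} (c : Fin (j - 1) ⊕ Fin j → ℕ) :
    (VL P r y Q₀ κ u J d₁ d₂ t₁ t₂ z N c).length = (j - 1) + j + (J.card + 1) := by
  unfold VL
  simp
  omega

lemma VL_prod (P : DPar) (hP : P.OK) (r : ℕ) (y Q₀ κ : ℝ) (u : Eis → ℝ) (J : Finset (Fin r))
    (d₁ d₂ : Eis) (t₁ t₂ z : ℝ) (N : ℕ) {j : ℕ} (c : Fin (j - 1) ⊕ Fin j → ℕ)
    (hc : ∀ i, Real.exp (c i + 1) ≤ N) (hκ : ∀ q, Real.exp (κ - u q + 1) ≤ N)
    (hJ : ∀ i, Real.exp (kap r y Q₀ i + 1) ≤ N) (q k : Eis) :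
    ((VL P r y Q₀ κ u J d₁ d₂ t₁ t₂ z N c).map fun x => ‖x.1 (q, k)‖).prod =
      ‖P.am r y Q₀ (κ - u q) J d₁ t₁ k‖ * ‖GC (P.ch d₂ t₂ k) z c 0‖ := by
  unfold VL DPar.am GC Amp
  simp only [List.map_append, List.map_cons, List.map_ofFn, List.map_map, List.prod_append,
    List.prod_cons, List.prod_ofFn, norm_mul, norm_prod]
  rw [Finset.prod_map_toList]
  have e1 : ∀ i : Fin (j - 1), ‖gval hC N ⟨.one, χS P d₂, Real.exp (c (Sum.inl i)), t₂⟩
      (c (Sum.inl i)) k‖ = ‖HB645.PS (P.ch d₂ t₂ k) (c (Sum.inl i)) 0‖ := fun i => by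
    rw [PS_eq_gval P d₂ t₂ (Real.exp (c (Sum.inl i))) (c (Sum.inl i)) (hc _) k]
  have e2 : ∀ i : Fin j, ‖mval N ⟨.mu, χS P d₂, Real.exp (c (Sum.inr i)), t₂⟩
      (c (Sum.inr i)) z k‖ = ‖HB645.PM (P.ch d₂ t₂ k) z (c (Sum.inr i)) 0‖ := fun i => by
    rw [PM_eq_mval P d₂ t₂ (Real.exp (c (Sum.inr i))) z (c (Sum.inr i)) (hc _) k]
  have e3 : ‖gval (fun v => conj (P.h₀ v)) N ⟨.sq, χA P d₁, Real.exp κ, -t₁⟩ (κ - u q) k‖ =
      ‖AS P.h₀ (κ - u q) (fun c => twt P.φ P.l₁ t₁ c * prin0 d₁ c * conj (sy k c))‖ := by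
    rw [← AS_eq_gval P hP.h₀ d₁ t₁ (Real.exp κ) (κ - u q) (hκ q) k, Complex.norm_conj]
  have e4 : ∀ i ∈ J, ‖gval (fun v => conj (P.h v)) N
      ⟨.pr, χA P d₁, Real.exp (kap r y Q₀ i), -t₁⟩ (kap r y Q₀ i) k‖ =
      ‖AP P.h (kap r y Q₀ i) (fun c => twt P.φ P.l₁ t₁ c * prin0 d₁ c * conj (sy k c))‖ := by
    intro i _
    rw [← AP_eq_gval P hP.h d₁ t₁ (Real.exp (kap r y Q₀ i)) (kap r y Q₀ i) (hJ i) k,
      Complex.norm_conj]
  simp only [Function.comp_apply]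
  rw [Finset.prod_congr rfl fun i _ => e1 i, Finset.prod_congr rfl fun i _ => e2 i, e3,
    Finset.prod_congr rfl e4]
  ring

lemma mem_bl' {X : ℝ} (hX : 0 ≤ X) {k : Eis} : k ∈ bl X ↔ (nm k : ℝ) ≤ X ∧ k ≠ 0 := by
  unfold LS2.bl
  rw [Finset.mem_erase, mem_ball, Nat.le_floor_iff hX]
  tauto

/-- a bound of the support of `U` -/
lemma exists_supp {U : ℝ → ℂ} (hU : SW U) : ∃ β : ℝ, 0 < β ∧ ∀ x, β < x → U x = 0 := by
  obtain ⟨b, hb⟩ := hU.cpt.isCompact.bddAbove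
  refine ⟨max b 1, by positivity, fun x hx => ?_⟩
  by_contra h
  have := hb (subset_tsupport _ h)
  exact absurd (lt_of_le_of_lt (le_max_left b 1) hx) (not_lt.2 this)

/-- **the bridge**: the boxes from the box functional. -/
theorem bx_le (P : DPar) (hP : P.OK) {h : ℝ → ℝ} {c₀ : ℝ} (hpu : PU h c₀) {R : ℝ} (hR1 : 1 ≤ R)
    (hR : ∀ u, cx h u ≠ 0 → |u| ≤ R) {M : ℝ} (hM : 0 ≤ M) {C₁ : ℝ} (hC₁ : 0 ≤ C₁) (r L : ℕ)
    {ε : ℝ} (hε : 0 < ε) : ∃ C β : ℝ, 0 ≤ C ∧ 0 < β ∧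
    ∀ (Q₀ κ y : ℝ) (J : Finset (Fin r)) (H : ℝ), 0 < H →
    ∀ d₁ d₂ d₃ e : Eis, IsPrim e →
    ∀ (t₁ t₂ τ z : ℝ) (𝒟 : Finset Eis), (∀ q ∈ 𝒟, IsPrim q) →
    ∀ u : Eis → ℝ, (∀ q, 0 ≤ u q ∧ u q ≤ C₁) →
    ∀ j : ℕ, j ≤ L → ∀ (c : Fin (j - 1) ⊕ Fin j → ℕ) (B : ℝ), 0 ≤ B →
      (∀ ps : List Pc, List.Forall₂ (Nr (2 * R + C₁)) ps (dsB P r y Q₀ κ J d₁ d₂ t₁ t₂ c) →
        BF P h (β * H) ps ≤ B * cost M ps (dsB P r y Q₀ κ J d₁ d₂ t₁ t₂ c)) →
      ∑ q ∈ 𝒟, ‖P.bx r y Q₀ (κ - u q) J H d₁ d₂ d₃ e t₁ t₂ τ z c q‖ ≤ C * (β * H) ^ ε * B := by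
  classical
  have hR0 : 0 ≤ R := by linarith
  have hh0 : SWt (fun v => conj (P.h₀ v)) R :=
    let h := swt_conj (swt_of_hw hP.h₀); ⟨h.cd, h.cs, fun u hu => (h.rad u hu).trans hR1⟩
  have hh1 : SWt (fun v => conj (P.h v)) R :=
    let h := swt_conj (swt_of_hw hP.h); ⟨h.cd, h.cs, fun u hu => (h.rad u hu).trans hR1⟩
  have hhC : SWt hC R := ⟨swt_hC.cd, swt_hC.cs, fun u hu => (swt_hC.rad u hu).trans hR1⟩
  obtain ⟨A1, hA1, s1⟩ := sep_w hpu hR0 hR hhC hC₁ M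
  obtain ⟨A2, hA2, s2⟩ := sep_mu hpu hR1 hR hM
  obtain ⟨A3, hA3, s3⟩ := sep_w hpu hR0 hR hh0 hC₁ M
  obtain ⟨A4, hA4, s4⟩ := sep_w hpu hR0 hR hh1 hC₁ M
  obtain ⟨β, hβ, hβU⟩ := exists_supp hP.U
  obtain ⟨BU, hBU0, hBU⟩ := sw_bdd hP.U
  obtain ⟨Cτ, hCτ, hτ⟩ := tau_le_rpow hε
  set A := 1 + A1 + A2 + A3 + A4 with hA
  have hA1' : 1 ≤ A := by rw [hA]; linarith
  have hA0 : 0 ≤ A := by linarith
  set W : ℝ := nm P.n₃ * BU with hW
  have hW0 : 0 ≤ W := by positivity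
  refine ⟨A ^ (2 * L + (r + 1)) * (W * Cτ), β, by positivity, hβ, ?_⟩
  intro Q₀ κ y J H hH d₁ d₂ d₃ e he t₁ t₂ τ z 𝒟 h𝒟 u hu j hj c B hB hyp
  have hβH : 0 < β * H := mul_pos hβ hH
  -- a common range of summation
  obtain ⟨N, hN⟩ : ∃ N : ℕ, ∀ x ∈ (Finset.univ.image fun i => (c i : ℝ)) ∪ {κ} ∪
      (Finset.univ.image fun i => kap r y Q₀ i), Real.exp (x + 3 * R + C₁) ≤ N := by
    obtain ⟨b, hb⟩ := ((Finset.univ.image fun i => (c i : ℝ)) ∪ {κ} ∪
      (Finset.univ.image fun i => kap r y Q₀ i)).bddAbove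
    refine ⟨⌈Real.exp (b + 3 * R + C₁)⌉₊, fun x hx => ?_⟩
    refine le_trans (Real.exp_le_exp.2 ?_) (Nat.le_ceil _)
    have := hb (Finset.mem_coe.2 hx)
    linarith
  have hNc : ∀ i, Real.exp (c i + 3 * R + C₁) ≤ N := fun i => hN _ (by simp)
  have hNκ : Real.exp (κ + 3 * R + C₁) ≤ N := hN _ (by simp)
  have hNJ : ∀ i, Real.exp (kap r y Q₀ i + 3 * R + C₁) ≤ N := fun i => hN _ (by simp)
  set K : Finset (Eis × Eis) := 𝒟 ×ˢ bl (β * H) with hK
  set v : Eis × Eis → ℝ := fun x => if x.1 ^ 2 ∣ x.2 ∧ P.NP2 x.2 then W else 0 with hv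
  have hv0 : ∀ x, 0 ≤ v x := fun x => by rw [hv]; dsimp only; split_ifs <;> simp [hW0]
  set VV := VL P r y Q₀ κ u J d₁ d₂ t₁ t₂ z N c with hVV
  have hprod := VL_prod P hP r y Q₀ κ u J d₁ d₂ t₁ t₂ z N c
    (fun i => (Real.exp_le_exp.2 (by linarith)).trans (hNc i))
    (fun q => (Real.exp_le_exp.2 (by linarith [(hu q).1])).trans hNκ)
    (fun i => (Real.exp_le_exp.2 (by linarith)).trans (hNJ i))
  -- step 1 : the norm of a box
  have h1 : ∀ q ∈ 𝒟, ‖P.bx r y Q₀ (κ - u q) J H d₁ d₂ d₃ e t₁ t₂ τ z c q‖ ≤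
      ∑ k ∈ bl (β * H), v (q, k) * (VV.map fun x => ‖x.1 (q, k)‖).prod := by
    intro q hq
    unfold DPar.bx
    rw [tsum_eq_sum (s := bl (β * H))]
    · refine (norm_sum_le _ _).trans (Finset.sum_le_sum fun k hk => ?_)
      rw [mem_bl' hβH.le] at hk
      rw [hVV, hprod q k]
      by_cases hc : q ^ 2 ∣ k ∧ P.NP2 k
      · rw [if_pos ⟨hk.2, hc⟩, hv]
        dsimp only
        rw [if_pos hc, norm_mul, norm_mul, norm_mul, norm_mul]
        have w1 := norm_wk_le P hP hBU τ H hk.2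
        have w2 : ‖prin0 d₃ k‖ ≤ 1 := by
          unfold prin0; split_ifs <;> simp
        have w3 := norm_sy_le' k e he
        have w4 : ‖P.wk τ H k‖ * (‖prin0 d₃ k‖ * ‖sy k e‖) ≤ W * (1 * 1) := by
          gcongr
        calc _ ≤ W * (1 * 1) * (‖P.am r y Q₀ (κ - u q) J d₁ t₁ k‖ *
              ‖GC (P.ch d₂ t₂ k) z c 0‖) :=
              mul_le_mul_of_nonneg_right w4 (by positivity)
          _ = _ := by ring
      · rw [if_neg fun h => hc h.2, norm_zero, hv]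
        dsimp only
        rw [if_neg hc, zero_mul]
    · intro k hk
      split_ifs with hc
      · have h2 : β * H < nm k := by
          by_contra h3
          exact hk ((mem_bl' hβH.le).2 ⟨not_lt.1 h3, hc.1⟩)
        have h3 : P.U (nm k / H) = 0 := hβU _ (by rwa [lt_div_iff₀ hH])
        unfold DPar.wk
        rw [h3]
        simp
      · rfl
  have h2 : ∑ q ∈ 𝒟, ‖P.bx r y Q₀ (κ - u q) J H d₁ d₂ d₃ e t₁ t₂ τ z c q‖ ≤
      ∑ x ∈ K, v x * (VV.map fun w => ‖w.1 x‖).prod := by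
    rw [hK, Finset.sum_product]
    exact Finset.sum_le_sum h1
  refine h2.trans ?_
  -- step 2 : the pieces are separable
  have hsep : ∀ w ∈ VV, Sep h M (2 * R + C₁) A K Prod.snd w.1 w.2 := by
    intro w hw
    rw [hVV] at hw
    unfold VL at hw
    rw [List.mem_append, List.mem_append, List.mem_cons, List.mem_ofFn', List.mem_ofFn',
      List.mem_map] at hw
    rcases hw with (⟨i, rfl⟩ | ⟨i, rfl⟩) | (rfl | ⟨i, _, rfl⟩)
    · exact (s1 K Prod.snd ⟨.one, χS P d₂, Real.exp (c (Sum.inl i)), t₂⟩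
        (fun _ => (c (Sum.inl i) : ℝ)) N (fun _ _ => by simpa using hC₁)
        (by rw [Real.log_exp]; exact hNc _)).mono le_rfl (by rw [hA]; linarith)
    · exact (s2 K Prod.snd ⟨.mu, χS P d₂, Real.exp (c (Sum.inr i)), t₂⟩ (c (Sum.inr i)) z N
        (by simp) (by
          rw [Real.log_exp]
          exact (Real.exp_le_exp.2 (by linarith)).trans (hNc (Sum.inr i)))).mono
        (by linarith) (by rw [hA]; linarith)
    · exact (s3 K Prod.snd ⟨.sq, χA P d₁, Real.exp κ, -t₁⟩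
        (fun x => κ - u x.1) N (fun x _ => by
          rw [Real.log_exp]
          have := hu x.1
          rw [abs_le]
          constructor <;> linarith)
        (by rw [Real.log_exp]; exact hNκ)).mono le_rfl (by rw [hA]; linarith)
    · exact (s4 K Prod.snd ⟨.pr, χA P d₁, Real.exp (kap r y Q₀ i), -t₁⟩
        (fun _ => kap r y Q₀ i) N (fun _ _ => by simpa using hC₁)
        (by rw [Real.log_exp]; exact hNJ _)).mono le_rfl (by rw [hA]; linarith)
  have hT0 : 0 ≤ Cτ * (β * H) ^ ε := by positivity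
  have h3 := sep_prod hA0 K Prod.snd VV hsep v (W * (Cτ * (β * H) ^ ε) * B) hv0 (by positivity)
    (fun ps hps => by
      rw [hVV, VL_snd] at hps ⊢
      have h4 := hyp ps hps
      have hpr : ∀ k, 0 ≤ (ps.map fun p => ‖CS (pc h p) k‖).prod := fun k =>
        List.prod_nonneg fun a ha => by
          rw [List.mem_map] at ha
          obtain ⟨y, _, rfl⟩ := ha
          exact norm_nonneg _
      calc ∑ x ∈ K, v x * (ps.map fun p => ‖CS (pc h p) x.2‖).prod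
          = ∑ k ∈ bl (β * H), ∑ q ∈ 𝒟, v (q, k) * (ps.map fun p => ‖CS (pc h p) k‖).prod := by
            rw [hK, Finset.sum_product_right]
        _ ≤ ∑ k ∈ bl (β * H), W * (Cτ * (β * H) ^ ε) *
            (if P.NP2 k then (ps.map fun p => ‖CS (pc h p) k‖).prod else 0) := by
            refine Finset.sum_le_sum fun k hk => ?_
            rw [mem_bl' hβH.le] at hk
            rw [← Finset.sum_mul]
            by_cases hn : P.NP2 k
            · rw [if_pos hn]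
              refine mul_le_mul_of_nonneg_right ?_ (hpr k)
              have h5 : ∑ q ∈ 𝒟, v (q, k) ≤ (tau k : ℝ) * W := by
                have e1 : ∀ q ∈ 𝒟, v (q, k) = if q ^ 2 ∣ k then W else 0 := by
                  intro q _
                  rw [hv]
                  simp [hn]
                rw [Finset.sum_congr rfl e1, ← Finset.sum_filter, Finset.sum_const, nsmul_eq_mul]
                refine mul_le_mul_of_nonneg_right ?_ hW0
                have h6 : (𝒟.filter (fun q => q ^ 2 ∣ k)) ⊆ dvs k := by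
                  intro q hq
                  rw [Finset.mem_filter] at hq
                  rw [mem_dvs hk.2]
                  exact ⟨h𝒟 q hq.1, (dvd_pow_self q two_ne_zero).trans hq.2⟩
                unfold Div277.tau
                exact_mod_cast Finset.card_le_card h6
              have h7 : (tau k : ℝ) ≤ Cτ * (β * H) ^ ε := by
                refine (hτ k hk.2).trans ?_
                have : (nm k : ℝ) ^ ε ≤ (β * H) ^ ε :=
                  Real.rpow_le_rpow (by positivity) hk.1 hε.le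
                gcongr
              calc ∑ q ∈ 𝒟, v (q, k) ≤ (tau k : ℝ) * W := h5
                _ ≤ (Cτ * (β * H) ^ ε) * W := mul_le_mul_of_nonneg_right h7 hW0
                _ = _ := by ring
            · rw [if_neg hn, mul_zero]
              have e1 : ∑ q ∈ 𝒟, v (q, k) = 0 := Finset.sum_eq_zero fun q _ => by
                rw [hv]
                simp [hn]
              rw [e1, zero_mul]
        _ = W * (Cτ * (β * H) ^ ε) * BF P h (β * H) ps := by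
            rw [← Finset.mul_sum]
            rfl
        _ ≤ W * (Cτ * (β * H) ^ ε) * (B * cost M ps (dsB P r y Q₀ κ J d₁ d₂ t₁ t₂ c)) :=
            mul_le_mul_of_nonneg_left h4 (by positivity)
        _ = _ := by ring)
  refine h3.trans ?_
  have hlen : VV.length ≤ 2 * L + (r + 1) := by
    rw [hVV, VL_length]
    have : J.card ≤ r := by
      have := Finset.card_le_univ J
      rwa [Fintype.card_fin] at this
    omega
  calc A ^ VV.length * (W * (Cτ * (β * H) ^ ε) * B)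
      ≤ A ^ (2 * L + (r + 1)) * (W * (Cτ * (β * H) ^ ε) * B) :=
        mul_le_mul_of_nonneg_right (pow_le_pow_right₀ hA1' hlen) (by positivity)
    _ = _ := by ring

end Crest.Agent.R017.Bx986
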