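import Mathlib

/-!
# Row 17, section D: the whole cone `(H, Q, J)`, general `θ`, `g` (helper59)

`K₀ = Q₀^{1/(2-2g)}`, amplifier `K₀^g`; `h, q, c` = exponents (base `K₀`) of `H, Q, C_J`.
A box at family `H` (exponents in base `H`) has smooth pieces `u` (a multiset), granular mass `w`
(Möbius granular pieces and amplifier), total `L = u.sum + w`, two-sided second moment loss `Λ u w`.

* `a2 θ g` : allowed loss at `h = 1` (full lengths)
* `Al θ g L w` : allowed loss of a box, all families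
* `le_target` : `Λ ≤ Al - μ` implies the target (three monomials of `TgB`) with room `h μ / 2`
* `cone` : the bound `Λ u w ≤ Al` for **all** boxes follows from SUP, monotonicity and the core
  (`L ≤ 2 - g` and `(6/(8θ-3)) (s - (2-2g)) < ` every piece)
-/

set_option autoImplicit false

noncomputable section

namespace Crest.Agent.R017.Cone59

/-- `2 a₀ = 4θ(1-g) + 3g - 10/3` -/
def a2 (θ g : ℝ) : ℝ := 4 * θ * (1 - g) + 3 * g - 10 / 3

/-- lower bound for `1/h` -/
def r1 (g L w : ℝ) : ℝ := max 1 (max (L / (2 - g)) ((L - 2 * w) / (2 - 3 * g)))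

/-- allowed loss -/
def Al (θ g L w : ℝ) : ℝ :=
  max (a2 θ g * r1 g L w) (max (a2 θ g * r1 g L w + (L - 2 * w) / (2 - 3 * g) - 1)
    ((1 / 3 + 2 * g * (1 - θ)) * r1 g L w - 5 / 3 + (2 * θ - 1) * L))

/-- exponent (base `K₀`) of the target with gain removed -/
def Tg (θ g h q c : ℝ) : ℝ :=
  (1 / 3 + g + θ * (2 - 2 * g)) + max ((h - 1) + (q - (2 - 2 * g)) / 2 + (c - g) / 2)
    (max ((h - 1) / 2 + 3 / 4 * (q - (2 - 2 * g)) + 1 / 4 * (c - g))
      ((h - 1) / 6 + θ * (q - (2 - 2 * g)) + θ * (c - g)))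

lemma one_le_r1 (g L w : ℝ) : 1 ≤ r1 g L w := le_max_left _ _

lemma div_le_r1 (g L w : ℝ) : L / (2 - g) ≤ r1 g L w :=
  (le_max_left _ _).trans (le_max_right _ _)

lemma div_le_r1' (g L w : ℝ) : (L - 2 * w) / (2 - 3 * g) ≤ r1 g L w :=
  (le_max_right _ _).trans (le_max_right _ _)

/-- **the reduction of all families to the rescaled one.** -/
theorem le_target {θ g h q c L w e μ : ℝ} (hθ1 : θ ≤ 1) (hg : 0 ≤ g)
    (hg' : g < 2 / 3) (ha : 0 ≤ a2 θ g) (h0 : 0 < h) (hh : h ≤ 1) (hL : h * L = q + c)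
    (hw : c ≤ h * w) (hqc : q - c ≤ 2 - 3 * g) (hfull : q + c ≤ 2 - g)
    (he : e ≤ Al θ g L w - μ) :
    h + (q + c) / 2 + h * e / 2 + h * μ / 2 ≤ Tg θ g h q c := by
  -- `h * r1 ≤ 1`
  have h2g : (0 : ℝ) < 2 - g := by linarith
  have h3g : (0 : ℝ) < 2 - 3 * g := by linarith
  have hr : h * r1 g L w ≤ 1 := by
    have e1 : h * (L / (2 - g)) ≤ 1 := by
      rw [← mul_div_assoc, hL, div_le_one h2g]; exact hfull
    have e2 : h * ((L - 2 * w) / (2 - 3 * g)) ≤ 1 := by
      rw [← mul_div_assoc, div_le_one h3g]; nlinarith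
    unfold r1
    rw [mul_max_of_nonneg _ _ h0.le, mul_max_of_nonneg _ _ h0.le]
    exact max_le (by simpa using hh) (max_le e1 e2)
  have hd : h * ((L - 2 * w) / (2 - 3 * g)) * (2 - 3 * g) ≤ q - c := by
    rw [← mul_div_assoc, div_mul_cancel₀ _ h3g.ne']; nlinarith
  set r := r1 g L w with hrdef
  set z := (L - 2 * w) / (2 - 3 * g) with hz
  have hA : h * (e + μ) ≤ h * Al θ g L w := mul_le_mul_of_nonneg_left (by linarith) h0.le
  have hgoal : h * Al θ g L w ≤ 2 * Tg θ g h q c - 2 * h - (q + c) := by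
    have t1 : (1 / 3 + g + θ * (2 - 2 * g)) + ((h - 1) + (q - (2 - 2 * g)) / 2 + (c - g) / 2) ≤
        Tg θ g h q c := by unfold Tg; gcongr; exact le_max_left _ _
    have t2 : (1 / 3 + g + θ * (2 - 2 * g)) +
        ((h - 1) / 2 + 3 / 4 * (q - (2 - 2 * g)) + 1 / 4 * (c - g)) ≤ Tg θ g h q c := by
      unfold Tg; gcongr; exact (le_max_left _ _).trans (le_max_right _ _)
    have t3 : (1 / 3 + g + θ * (2 - 2 * g)) +
        ((h - 1) / 6 + θ * (q - (2 - 2 * g)) + θ * (c - g)) ≤ Tg θ g h q c := by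
      unfold Tg; gcongr; exact (le_max_right _ _).trans (le_max_right _ _)
    unfold Al
    rw [mul_max_of_nonneg _ _ h0.le, mul_max_of_nonneg _ _ h0.le]
    have har : h * (a2 θ g * r) ≤ a2 θ g := by
      calc h * (a2 θ g * r) = a2 θ g * (h * r) := by ring
        _ ≤ a2 θ g * 1 := mul_le_mul_of_nonneg_left hr ha
        _ = a2 θ g := mul_one _
    refine max_le ?_ (max_le ?_ ?_)
    · refine har.trans ?_
      unfold a2; nlinarith
    · have e1 : h * (a2 θ g * r + z - 1) ≤ a2 θ g + h * z - h := by nlinarith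
      refine e1.trans ?_
      have hz1 : h * z ≤ (q - c) / 2 + 3 / 2 * g := by
        have : h * z ≤ 1 := (mul_le_mul_of_nonneg_left (div_le_r1' g L w) h0.le).trans hr
        nlinarith
      unfold a2; nlinarith
    · have hk : 0 ≤ 1 / 3 + 2 * g * (1 - θ) := by
        have : 0 ≤ g * (1 - θ) := mul_nonneg hg (by linarith)
        linarith
      have e1 : h * ((1 / 3 + 2 * g * (1 - θ)) * r - 5 / 3 + (2 * θ - 1) * L) ≤
          (1 / 3 + 2 * g * (1 - θ)) - 5 / 3 * h + (2 * θ - 1) * (q + c) := by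
        have : h * ((1 / 3 + 2 * g * (1 - θ)) * r) ≤ (1 / 3 + 2 * g * (1 - θ)) := by
          calc h * ((1 / 3 + 2 * g * (1 - θ)) * r) = (1 / 3 + 2 * g * (1 - θ)) * (h * r) := by ring
            _ ≤ (1 / 3 + 2 * g * (1 - θ)) * 1 := mul_le_mul_of_nonneg_left hr hk
            _ = _ := mul_one _
        nlinarith [hL]
      refine e1.trans ?_
      nlinarith
  nlinarith

/-- at `s ≥ 2 - 2g` removing a piece of length `y` with `s - y ≥ 2 - 2g` costs at most the
decrease of the allowed loss. -/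
lemma Al_step {θ g s y w : ℝ} (hθ : 7 / 8 ≤ θ) (hθ1 : θ ≤ 1) (hg : 1 / 3 ≤ g) (hg' : g < 2 / 3)
    (ha : 0 ≤ a2 θ g) (hy : 0 ≤ y) (hs : 2 - 2 * g ≤ s) :
    Al θ g (s + w) w + (2 * θ - 1) * y ≤ Al θ g (s + y + w) w := by
  have h2g : (0 : ℝ) < 2 - g := by linarith
  have h3g : (0 : ℝ) < 2 - 3 * g := by linarith
  have hk : 0 ≤ 1 / 3 + 2 * g * (1 - θ) := by
    have : 0 ≤ g * (1 - θ) := mul_nonneg (by linarith) (by linarith)
    linarith
  have hr : r1 g (s + w) w ≤ r1 g (s + y + w) w := by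
    unfold r1
    gcongr <;> linarith
  have hdiv : (s + w - 2 * w) / (2 - 3 * g) + y ≤ (s + y + w - 2 * w) / (2 - 3 * g) := by
    rw [← sub_nonneg]
    have : (s + y + w - 2 * w) / (2 - 3 * g) - ((s + w - 2 * w) / (2 - 3 * g) + y) =
        y * ((1 - (2 - 3 * g)) / (2 - 3 * g)) := by field_simp; ring
    rw [this]
    exact mul_nonneg hy (div_nonneg (by linarith) h3g.le)
  have hT2 : a2 θ g * r1 g (s + w) w + (s + w - 2 * w) / (2 - 3 * g) - 1 + (2 * θ - 1) * y ≤
      Al θ g (s + y + w) w := by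
    refine le_trans ?_ ((le_max_left _ _).trans (le_max_right _ _))
    have := mul_le_mul_of_nonneg_left hr ha
    nlinarith
  have hT3 : (1 / 3 + 2 * g * (1 - θ)) * r1 g (s + w) w - 5 / 3 + (2 * θ - 1) * (s + w) +
      (2 * θ - 1) * y ≤ Al θ g (s + y + w) w := by
    refine le_trans ?_ ((le_max_right _ _).trans (le_max_right _ _))
    have := mul_le_mul_of_nonneg_left hr hk
    nlinarith
  -- `T1` is not active
  have hT1 : a2 θ g * r1 g (s + w) w ≤
      max (a2 θ g * r1 g (s + w) w + (s + w - 2 * w) / (2 - 3 * g) - 1)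
        ((1 / 3 + 2 * g * (1 - θ)) * r1 g (s + w) w - 5 / 3 + (2 * θ - 1) * (s + w)) := by
    rcases le_total w (s - (2 - 3 * g)) with hw | hw
    · refine le_trans ?_ (le_max_left _ _)
      have : 1 ≤ (s + w - 2 * w) / (2 - 3 * g) := by
        rw [le_div_iff₀ h3g]; linarith
      linarith
    · refine le_trans ?_ (le_max_right _ _)
      have hL : 2 - g ≤ s + w := by linarith
      have hr1 := div_le_r1 g (s + w) w
      have hLr : s + w ≤ r1 g (s + w) w * (2 - g) := by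
        rwa [div_le_iff₀ h2g] at hr1
      have hr0 := one_le_r1 g (s + w) w
      have hκ : 0 ≤ 5 / 3 - (2 * θ - 1) * (2 - g) := by nlinarith
      set r := r1 g (s + w) w
      have e1 : (1 / 3 + 2 * g * (1 - θ)) - a2 θ g = 5 / 3 - (2 * θ - 1) * (2 - g) := by
        unfold a2; ring
      have e2 : (s + w) / (2 - g) ≤ r := hr1
      have e3 : (5 / 3 - (2 * θ - 1) * (2 - g)) * ((s + w) / (2 - g)) ≤
          (5 / 3 - (2 * θ - 1) * (2 - g)) * r := mul_le_mul_of_nonneg_left e2 hκ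
      have e4 : (5 / 3 - (2 * θ - 1) * (2 - g)) * ((s + w) / (2 - g)) =
          5 / 3 * ((s + w) / (2 - g)) - (2 * θ - 1) * (s + w) := by
        field_simp
      have e5 : 1 ≤ (s + w) / (2 - g) := by rw [le_div_iff₀ h2g]; linarith
      nlinarith
  have hAl : Al θ g (s + w) w =
      max (a2 θ g * r1 g (s + w) w + (s + w - 2 * w) / (2 - 3 * g) - 1)
        ((1 / 3 + 2 * g * (1 - θ)) * r1 g (s + w) w - 5 / 3 + (2 * θ - 1) * (s + w)) := by
    unfold Al; exact max_eq_right hT1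
  rw [hAl, ← le_sub_iff_add_le]
  exact max_le (by linarith) (by linarith)

/-- room at `s ≥ 2 - 2g`. -/
lemma Al_room {θ g s w : ℝ} (hθ : 7 / 8 ≤ θ) (hθ1 : θ ≤ 1) (hg : 1 / 3 ≤ g) (hg' : g < 2 / 3)
    (ha : 0 ≤ a2 θ g) (hs : 2 - 2 * g ≤ s) :
    a2 θ g + (2 * θ - 1) * (6 / (8 * θ - 3) * (s - (2 - 2 * g))) ≤ Al θ g (s + w) w := by
  have h3g : (0 : ℝ) < 2 - 3 * g := by linarith
  have h83 : (0 : ℝ) < 8 * θ - 3 := by linarith
  set δ := s - (2 - 2 * g) with hδ
  have hδ0 : 0 ≤ δ := by linarith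
  set τ := (4 * θ - 3) / (8 * θ - 3) with hτ
  have hτ' : τ * (8 * θ - 3) = 4 * θ - 3 := div_mul_cancel₀ _ h83.ne'
  have hτ0 : 0 ≤ τ := div_nonneg (by linarith) h83.le
  have hτ1 : τ ≤ 1 := by rw [hτ, div_le_one h83]; linarith
  have hne : (8 * θ - 3 : ℝ) ≠ 0 := h83.ne'
  have hc : (2 * θ - 1) * (6 / (8 * θ - 3) * δ) = (1 + τ) * δ := by
    have h1 : 6 / (8 * θ - 3) * (8 * θ - 3) = 6 := div_mul_cancel₀ _ hne
    have h2 : (2 * θ - 1) * (6 / (8 * θ - 3)) = 1 + τ := by
      apply mul_right_cancel₀ hne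
      nlinarith
    rw [← h2]; ring
  rw [hc]
  rcases le_total w (g - τ * δ) with hw | hw
  · refine le_trans ?_ ((le_max_left _ _).trans (le_max_right _ _))
    have hr := mul_le_mul_of_nonneg_left (one_le_r1 g (s + w) w) ha
    have h1 : 1 + (1 + τ) * δ ≤ (s + w - 2 * w) / (2 - 3 * g) := by
      rw [le_div_iff₀ h3g]
      have : 0 ≤ (1 + τ) * δ := mul_nonneg (by linarith) hδ0
      nlinarith
    linarith
  · refine le_trans ?_ ((le_max_right _ _).trans (le_max_right _ _))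
    set x := w - (g - τ * δ) with hx
    have hx0 : 0 ≤ x := by linarith
    have hr : 1 + (1 + τ) * δ - x ≤ r1 g (s + w) w := by
      rcases le_total ((1 + τ) * δ) x with h1 | h1
      · have := one_le_r1 g (s + w) w
        linarith
      · refine le_trans ?_ (div_le_r1' g (s + w) w)
        rw [le_div_iff₀ h3g]
        have h2 : s + w - 2 * w = (2 - 3 * g) + ((1 + τ) * δ - x) := by
          rw [hx, hδ]; ring
        rw [h2]
        nlinarith
    have hg1 : 0 ≤ g * (1 - θ) := mul_nonneg (by linarith) (by linarith)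
    have hk : 0 ≤ 1 / 3 + 2 * g * (1 - θ) := by linarith
    have h1 := mul_le_mul_of_nonneg_left hr hk
    have hk2 : 1 / 3 + 2 * g * (1 - θ) ≤ 2 * θ - 1 := by nlinarith
    have hk3 : 1 - 2 / 3 * θ ≤ 1 / 3 + 2 * g * (1 - θ) := by nlinarith
    have h4 : (1 + τ) * δ ≤
        ((1 / 3 + 2 * g * (1 - θ)) * (1 + τ) + (2 * θ - 1) * (1 - τ)) * δ := by
      refine mul_le_mul_of_nonneg_right ?_ hδ0
      have : (1 - 2 / 3 * θ) * (1 + τ) ≤ (1 / 3 + 2 * g * (1 - θ)) * (1 + τ) :=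
        mul_le_mul_of_nonneg_right hk3 (by linarith)
      nlinarith
    have h5 : (1 / 3 + 2 * g * (1 - θ)) * x ≤ (2 * θ - 1) * x :=
      mul_le_mul_of_nonneg_right hk2 hx0
    have h6 : s + w = 2 - g + (1 - τ) * δ + x := by rw [hx, hδ]; ring
    have h7 : a2 θ g = (1 / 3 + 2 * g * (1 - θ)) - 5 / 3 + (2 * θ - 1) * (2 - g) := by
      unfold a2; ring
    rw [h6]
    rw [h6] at h1
    nlinarith

lemma a2_le_Al {θ g : ℝ} (L w : ℝ) (ha : 0 ≤ a2 θ g) : a2 θ g ≤ Al θ g L w := by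
  refine le_trans ?_ (le_max_left _ _)
  have := mul_le_mul_of_nonneg_left (one_le_r1 g L w) ha
  linarith

lemma sup_le_Al {θ g : ℝ} (L w : ℝ) (hθ1 : θ ≤ 1) (hg : 0 ≤ g) :
    a2 θ g + (2 * θ - 1) * (L - (2 - g)) ≤ Al θ g L w := by
  refine le_trans ?_ ((le_max_right _ _).trans (le_max_right _ _))
  have hg1 : 0 ≤ g * (1 - θ) := mul_nonneg hg (by linarith)
  have hk : 0 ≤ 1 / 3 + 2 * g * (1 - θ) := by linarith
  have := mul_le_mul_of_nonneg_left (one_le_r1 g L w) hk
  unfold a2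
  nlinarith

/-- **all boxes** : `Λ` = loss of a box, `ν` = extra loss (near-equal 5-boxes), `μ` = margin. -/
theorem cone {θ g μ : ℝ} (hθ : 7 / 8 ≤ θ) (hθ1 : θ ≤ 1) (hg : 1 / 3 ≤ g) (hg' : g < 2 / 3)
    (ha : 0 ≤ a2 θ g) (Λ : Multiset ℝ → ℝ → ℝ) (ν : Multiset ℝ → ℝ)
    (hsupw : ∀ u w x, 0 ≤ w → 0 ≤ x → Λ u (w + x) ≤ Λ u w + (2 * θ - 1) * x)
    (hsupu : ∀ y u w, 0 < y → 0 ≤ w → Λ (y ::ₘ u) w ≤ Λ u w + (2 * θ - 1) * y)
    (hν : ∀ y u, 0 < y → ν u ≤ ν (y ::ₘ u))
    (hcore : ∀ u w, (∀ y ∈ u, 0 < y ∧ y ≤ 1 / 2) → 0 ≤ w → (u.sum + w ≤ 2 - g ∨ w = 0) →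
      (∀ y ∈ u, 6 / (8 * θ - 3) * (u.sum - (2 - 2 * g)) < y) → Λ u w ≤ a2 θ g - μ + ν u) :
    ∀ u w, (∀ y ∈ u, 0 < y ∧ y ≤ 1 / 2) → 0 ≤ w → Λ u w ≤ Al θ g (u.sum + w) w - μ + ν u := by
  have hsp : 0 ≤ 2 * θ - 1 := by linarith
  -- the core case with arbitrary `w`
  have key : ∀ u w, (∀ y ∈ u, 0 < y ∧ y ≤ 1 / 2) → 0 ≤ w →
      (∀ y ∈ u, 6 / (8 * θ - 3) * (u.sum - (2 - 2 * g)) < y) →
      Λ u w ≤ max (a2 θ g) (a2 θ g + (2 * θ - 1) * (u.sum + w - (2 - g))) - μ + ν u := by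
    intro u w hu hw hbig
    rcases le_total (u.sum + w) (2 - g) with h1 | h1
    · have := hcore u w hu hw (Or.inl h1) hbig
      have := le_max_left (a2 θ g) (a2 θ g + (2 * θ - 1) * (u.sum + w - (2 - g)))
      linarith
    · have h3 := le_max_right (a2 θ g) (a2 θ g + (2 * θ - 1) * (u.sum + w - (2 - g)))
      rcases le_total u.sum (2 - g) with h2 | h2
      · have h4 := hsupw u (2 - g - u.sum) (u.sum + w - (2 - g)) (by linarith) (by linarith)
        rw [show 2 - g - u.sum + (u.sum + w - (2 - g)) = w by ring] at h4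
        have h5 := hcore u (2 - g - u.sum) hu (by linarith) (Or.inl (by linarith)) hbig
        linarith
      · have h4 := hsupw u 0 w le_rfl hw
        rw [zero_add] at h4
        have h5 := hcore u 0 hu le_rfl (Or.inr rfl) hbig
        have h6 : (2 * θ - 1) * w ≤ (2 * θ - 1) * (u.sum + w - (2 - g)) :=
          mul_le_mul_of_nonneg_left (by linarith) hsp
        linarith
  intro u
  induction hn : Multiset.card u using Nat.strong_induction_on generalizing u with
  | _ n ih =>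
    intro w hu hw
    by_cases hbig : ∀ y ∈ u, 6 / (8 * θ - 3) * (u.sum - (2 - 2 * g)) < y
    · refine (key u w hu hw hbig).trans ?_
      gcongr
      exact max_le (a2_le_Al _ _ ha) (sup_le_Al _ _ hθ1 (by linarith))
    · push Not at hbig
      obtain ⟨y, hy, hyle⟩ := hbig
      obtain ⟨u', rfl⟩ := Multiset.exists_cons_of_mem hy
      have hy0 : 0 < y := (hu y hy).1
      have hu' : ∀ z ∈ u', 0 < z ∧ z ≤ 1 / 2 := fun z hz => hu z (Multiset.mem_cons_of_mem hz)
      rw [Multiset.sum_cons] at hyle ⊢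
      have h83 : (0 : ℝ) < 8 * θ - 3 := by linarith
      have hC : 0 < 6 / (8 * θ - 3) := by positivity
      have hδ : 0 < y + u'.sum - (2 - 2 * g) := by
        by_contra hcon
        push Not at hcon
        have := mul_nonpos_of_nonneg_of_nonpos hC.le hcon
        linarith
      have hs1 := hsupu y u' w hy0 hw
      have hν1 := hν y u' hy0
      rcases le_total (2 - 2 * g) u'.sum with h1 | h1
      · have h2 := ih (Multiset.card u') (by rw [← hn, Multiset.card_cons]; omega) u' rfl w hu' hw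
        have h3 := Al_step (w := w) hθ hθ1 hg hg' ha hy0.le h1
        rw [add_comm u'.sum y] at h3
        linarith
      · have h2 := key u' w hu' hw (fun z hz => by
          have := mul_nonpos_of_nonneg_of_nonpos hC.le (by linarith : u'.sum - (2 - 2 * g) ≤ 0)
          linarith [(hu' z hz).1])
        have h4 : a2 θ g + (2 * θ - 1) * y ≤ Al θ g (y + u'.sum + w) w := by
          refine le_trans ?_ (Al_room (w := w) hθ hθ1 hg hg' ha (by linarith))
          have := mul_le_mul_of_nonneg_left hyle hsp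
          linarith
        have h5 : a2 θ g + (2 * θ - 1) * (u'.sum + w - (2 - g)) + (2 * θ - 1) * y ≤
            Al θ g (y + u'.sum + w) w := by
          refine le_trans (le_of_eq ?_) (sup_le_Al (y + u'.sum + w) w hθ1 (by linarith))
          ring
        rcases le_total (a2 θ g) (a2 θ g + (2 * θ - 1) * (u'.sum + w - (2 - g))) with h6 | h6
        · rw [max_eq_right h6] at h2; linarith
        · rw [max_eq_left h6] at h2; linarith

end Crest.Agent.R017.Cone59
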