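import Crest.Agent.R017.BxD_986
import Crest.Agent.R017.BoxCls_271
import Crest.Agent.R017.XCub_71
import Crest.Agent.R017.Cone_59

/-!
# Row 17, D.FIN: boxes from exponents (helper986), part 1: lists

* `dsc` : the pieces of a box as pieces of the provider, indexed by `Ix j r`
* `NrQ ρ` : same type, kind, modulus; log-lengths within `ρ`
* `exists_pq` : shifts of `dsB` are lists of provider pieces
* `norm_CS_pc_le` : the trivial bound
-/

set_option autoImplicit false
set_option linter.unusedSectionVars false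
set_option linter.unusedVariables false

noncomputable section

open Complex Filter Topology
open scoped ComplexConjugate ContDiff

namespace Crest.Agent.R017.BxE986

open Crest.Agent.R012 Crest.Agent.R012.Eis Crest.Agent.R012.Mob705
open Crest.Agent.R012.LS2 (bl)
open Crest.Agent.R012.PSer47 (IsChar)
open Crest.Agent.R017.CM106 Crest.Agent.R017.FE47 Crest.Agent.R017.End699
open Crest.Agent.R017.HSep813 Crest.Agent.R017.HP842 Crest.Agent.R017.B770
open Crest.Agent.R017.Bx986 Crest.Agent.R017.Prov71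
open Crest.Agent.R017.XG702 (Pcs BG)

/-! ### indices -/

/-- the indices of the pieces of a box -/
abbrev Ix (j r : ℕ) : Type := Fin (j - 1) ⊕ (Fin j ⊕ Option (Fin r))

/-- the list of the indices -/
def Il (j r : ℕ) (J : Finset (Fin r)) : List (Ix j r) :=
  ((List.ofFn fun i : Fin (j - 1) => Sum.inl i) ++
    List.ofFn fun i : Fin j => Sum.inr (Sum.inl i)) ++
    (Sum.inr (Sum.inr none) :: J.toList.map fun i => Sum.inr (Sum.inr (some i)))

lemma Il_nodup (j r : ℕ) (J : Finset (Fin r)) : (Il j r J).Nodup := by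
  unfold Il
  rw [List.nodup_append, List.nodup_append]
  refine ⟨⟨?_, ?_, ?_⟩, ?_, ?_⟩
  · rw [List.nodup_ofFn]
    exact Sum.inl_injective
  · rw [List.nodup_ofFn]
    exact Sum.inr_injective.comp Sum.inl_injective
  · intro a ha b hb
    rw [List.mem_ofFn] at ha hb
    obtain ⟨i, rfl⟩ := ha
    obtain ⟨i', rfl⟩ := hb
    simp
  · rw [List.nodup_cons]
    refine ⟨by simp, ?_⟩
    refine J.nodup_toList.map ?_
    intro a b hab
    simpa using hab
  · intro a ha b hb
    rw [List.mem_append, List.mem_ofFn, List.mem_ofFn] at ha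
    rw [List.mem_cons, List.mem_map] at hb
    rcases ha with ⟨i, rfl⟩ | ⟨i, rfl⟩ <;> rcases hb with rfl | ⟨i', _, rfl⟩ <;> simp

lemma Il_length (j r : ℕ) (J : Finset (Fin r)) : (Il j r J).length ≤ 2 * j + r + 1 := by
  unfold Il
  have : J.card ≤ r := by simpa using J.card_le_univ
  simp only [List.length_append, List.length_ofFn, List.length_cons, List.length_map,
    Finset.length_toList]
  omega

/-- the pieces of a box -/
def dsc {d₁ d₂ : Eis} (h₁ : d₁ ≠ 0) (h₂ : d₂ ≠ 0) (r : ℕ) (y Q₀ κ t₁ t₂ : ℝ) {j : ℕ}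
    (c : Fin (j - 1) ⊕ Fin j → ℕ) : Ix j r → Pq
  | .inl i => ⟨.mo, .one, d₂, h₂, c (.inl i), t₂⟩
  | .inr (.inl i) => ⟨.mo, .mu, d₂, h₂, c (.inr i), t₂⟩
  | .inr (.inr none) => ⟨.am, .sq, d₁, h₁, κ, -t₁⟩
  | .inr (.inr (some i)) => ⟨.am, .pr, d₁, h₁, kap r y Q₀ i, -t₁⟩

lemma dsB_eq (P : DPar) {d₁ d₂ : Eis} (h₁ : d₁ ≠ 0) (h₂ : d₂ ≠ 0) (r : ℕ) (y Q₀ κ : ℝ)
    (J : Finset (Fin r)) (t₁ t₂ : ℝ) {j : ℕ} (c : Fin (j - 1) ⊕ Fin j → ℕ) :
    dsB P r y Q₀ κ J d₁ d₂ t₁ t₂ c =
      ((Il j r J).map (dsc h₁ h₂ r y Q₀ κ t₁ t₂ c)).map (Pq.pc P) := by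
  have hS : χS P d₂ = fun b => chK P .mo b * prin0 d₂ b := rfl
  have hA : χA P d₁ = fun b => chK P .am b * prin0 d₁ b := rfl
  unfold dsB dsS dsA Il
  simp only [List.map_append, List.map_ofFn, List.map_cons, List.map_map, hS, hA]
  rfl

/-! ### shifts -/

/-- same data up to the length and the height -/
structure NrQ (ρ : ℝ) (q d : Pq) : Prop where
  kd : q.kd = d.kd
  u : q.u = d.u
  z : |q.z - d.z| ≤ ρ
  md : q.d = d.d

/-- the cost of the heights -/
def costQ (M : ℝ) (qs ds : List Pq) : ℝ :=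
  (List.zipWith (fun p d => (1 + |p.t - d.t|) ^ M) qs ds).prod

@[simp] lemma costQ_cons (M : ℝ) (p d : Pq) (ps ds : List Pq) :
    costQ M (p :: ps) (d :: ds) = (1 + |p.t - d.t|) ^ M * costQ M ps ds := by
  simp [costQ]

@[simp] lemma costQ_nil (M : ℝ) (ds : List Pq) : costQ M [] ds = 1 := by simp [costQ]

/-- shifts of a list of provider pieces are provider pieces -/
lemma exists_pq (P : DPar) {ρ : ℝ} (M : ℝ) (ds : List Pq) : ∀ ps : List Pc,
    List.Forall₂ (Nr ρ) ps (ds.map (Pq.pc P)) →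
    ∃ qs : List Pq, qs.map (Pq.pc P) = ps ∧ List.Forall₂ (NrQ ρ) qs ds ∧
      cost M ps (ds.map (Pq.pc P)) = costQ M qs ds := by
  induction ds with
  | nil =>
    intro ps h
    rw [List.map_nil, List.forall₂_nil_right_iff] at h
    subst h
    exact ⟨[], rfl, List.Forall₂.nil, by simp⟩
  | cons d ds ih =>
    intro ps h
    rw [List.map_cons, List.forall₂_cons_right_iff] at h
    obtain ⟨p, ps', hp, hps, rfl⟩ := h
    obtain ⟨qs, h1, h2, h3⟩ := ih ps' hps
    refine ⟨⟨d.kd, d.u, d.d, d.d0, Real.log p.Y, p.t⟩ :: qs, ?_, ?_, ?_⟩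
    · rw [List.map_cons, h1]
      congr 1
      unfold Pq.pc
      cases p with
      | mk u ψ Y t =>
        have e1 : u = d.u := hp.u
        have e2 : ψ = _ := hp.ψ
        simp only [Pq.pc_ψ] at e2
        simp only [Real.exp_log hp.Y0]
        rw [← e1, ← e2]
    · refine List.Forall₂.cons ⟨rfl, rfl, ?_, rfl⟩ h2
      have := hp.near
      rwa [Pq.pc_Y, Real.log_exp] at this
    · rw [List.map_cons, cost_cons, costQ_cons, h3]
      rfl

lemma one_le_costQ {M : ℝ} (hM : 0 ≤ M) (qs ds : List Pq) : 1 ≤ costQ M qs ds := by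
  induction qs generalizing ds with
  | nil => simp
  | cons q qs ih =>
    cases ds with
    | nil => simp [costQ]
    | cons d ds =>
      rw [costQ_cons]
      have h1 : 1 ≤ (1 + |q.t - d.t|) ^ M := Real.one_le_rpow (by simp) hM
      exact one_le_mul_of_one_le_of_one_le h1 (ih ds)

/-- one height is controlled by the cost -/
lemma height_le {M T : ℝ} (hM : 0 ≤ M) (hT : 1 ≤ T) {ρ : ℝ} : ∀ {qs ds : List Pq},
    List.Forall₂ (NrQ ρ) qs ds → (∀ d ∈ ds, 1 + |d.t| ≤ T) → ∀ q ∈ qs,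
      (1 + |q.t|) ^ M ≤ T ^ M * costQ M qs ds := by
  intro qs ds h
  induction h with
  | nil => intro _ q hq; simp at hq
  | @cons p d ps ds' hp _ ih =>
    intro hT' q hq
    rw [costQ_cons]
    have h1 : 1 ≤ (1 + |p.t - d.t|) ^ M := Real.one_le_rpow (by simp) hM
    have hTM : 1 ≤ T ^ M := Real.one_le_rpow hT hM
    rcases List.mem_cons.1 hq with rfl | hq
    · have h2 : 1 + |q.t| ≤ T * (1 + |q.t - d.t|) := by
        have h3 := hT' d List.mem_cons_self
        have h4 : |q.t| ≤ |q.t - d.t| + |d.t| := by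
          have := abs_add_le (q.t - d.t) d.t
          simpa using this
        have h5 := abs_nonneg (q.t - d.t)
        have h6 := abs_nonneg d.t
        nlinarith
      calc (1 + |q.t|) ^ M ≤ (T * (1 + |q.t - d.t|)) ^ M :=
            Real.rpow_le_rpow (by positivity) h2 hM
        _ = T ^ M * (1 + |q.t - d.t|) ^ M := Real.mul_rpow (by linarith) (by positivity)
        _ ≤ T ^ M * ((1 + |q.t - d.t|) ^ M * costQ M ps ds') := by
            refine mul_le_mul_of_nonneg_left ?_ (by positivity)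
            exact le_mul_of_one_le_right (by positivity) (one_le_costQ hM _ _)
    · have h2 := ih (fun x hx => hT' x (List.mem_cons_of_mem _ hx)) q hq
      refine h2.trans (mul_le_mul_of_nonneg_left ?_ (by positivity))
      exact le_mul_of_one_le_left (by linarith [one_le_costQ hM ps ds']) h1

/-! ### the trivial bound -/

lemma norm_CS_pc_le {h : ℝ → ℝ} {c₀ : ℝ} (hpu : PU h c₀) : ∃ C : ℝ, 1 ≤ C ∧
    ∀ p : Pc, p.OK → ∀ k : Eis, ‖CS (pc h p) k‖ ≤ C * max 1 p.Y := by
  obtain ⟨R, hR⟩ := bump_of_cs hpu.cs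
  obtain ⟨H0, hH0⟩ := hpu.cs.exists_bound_of_continuous hpu.cd.continuous
  have hH1 : 0 ≤ H0 := (norm_nonneg _).trans (hH0 0)
  refine ⟨1 + 101 * (Real.exp |R| + 1) * H0, by
    have : 0 ≤ 101 * (Real.exp |R| + 1) * H0 := by positivity
    linarith, fun p hp k => ?_⟩
  set N : ℕ := ⌈Real.exp (Real.log p.Y + R)⌉₊ with hN
  have hYR : Real.exp (Real.log p.Y + R) = p.Y * Real.exp R := by
    rw [Real.exp_add, Real.exp_log hp.Y0]
  have hN1 : (N : ℝ) ≤ max 1 p.Y * (Real.exp |R| + 1) := by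
    have h1 := (Nat.ceil_lt_add_one (Real.exp_pos (Real.log p.Y + R)).le).le
    rw [← hN, hYR] at h1
    have h2 : Real.exp R ≤ Real.exp |R| := Real.exp_le_exp.2 (le_abs_self R)
    have h3 : p.Y ≤ max 1 p.Y := le_max_right _ _
    have h4 : 1 ≤ max 1 p.Y := le_max_left _ _
    have h5 : p.Y * Real.exp R ≤ max 1 p.Y * Real.exp |R| :=
      mul_le_mul h3 h2 (Real.exp_pos _).le (by linarith)
    linarith
  rw [CS_pc_eq hR p (Nat.le_ceil _) k]
  unfold LF
  have hterm : ∀ b ∈ primBall N, ‖φc p k b * gw h p.Y p.t (id b)‖ ≤ H0 := by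
    intro b hb
    have hb' := (mem_primBall.mp hb).2
    rw [norm_mul]
    have h1 : ‖φc p k b‖ ≤ 1 := by
      unfold φc
      rw [norm_mul, norm_mul]
      have u1 : ‖uv p.u b‖ ≤ 1 := HP842.norm_uv_le _ _
      have u2 : ‖p.ψ b‖ ≤ 1 := hp.ch.norm_le hb'
      have u3 : ‖sy k b‖ ≤ 1 := CM106.norm_sy_le' hb'
      calc ‖uv p.u b‖ * ‖p.ψ b‖ * ‖sy k b‖ ≤ 1 * 1 * 1 := by gcongr
        _ = 1 := by norm_num
    have h2 : ‖gw h p.Y p.t (id b)‖ ≤ H0 := by
      unfold gw
      rw [norm_mul, Weight600.norm_osc, one_mul]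
      unfold cx
      rw [Complex.norm_real]
      exact hH0 _
    calc _ ≤ 1 * H0 := mul_le_mul h1 h2 (norm_nonneg _) zero_le_one
      _ = H0 := one_mul _
  calc ‖∑ b ∈ primBall N, φc p k b * gw h p.Y p.t (id b)‖ ≤ ∑ b ∈ primBall N, H0 :=
        (norm_sum_le _ _).trans (Finset.sum_le_sum hterm)
    _ = (primBall N).card * H0 := by rw [Finset.sum_const, nsmul_eq_mul]
    _ ≤ (100 * N) * H0 := mul_le_mul_of_nonneg_right (Lat277.card_primBall_le N) hH1
    _ ≤ (100 * (max 1 p.Y * (Real.exp |R| + 1))) * H0 := by gcongr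
    _ ≤ _ := by
        have h4 : 0 ≤ max 1 p.Y := by positivity
        have h5 : 0 ≤ (Real.exp |R| + 1) * H0 := by positivity
        nlinarith [mul_nonneg h4 h5]

end Crest.Agent.R017.BxE986
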