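import Crest.Agent.R017.BxE1_986
import Crest.Agent.R017.BoxEv_271

/-!
# Row 17, D.FIN: boxes from exponents (helper986), part 2: lengths and the target

* `LM t qs` : total length of the pieces of kind `t`
* `keep qs` : the pieces of nonnegative length
* `TL` : the target in logarithms, `TgB_ge`, `Tg_eq`, `TL_mono`, `TL_lip`
* `BQ_keep`, `BQ_triv`
-/

set_option autoImplicit false
set_option linter.unusedSectionVars false
set_option linter.unusedVariables false

noncomputable section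

open Complex Filter Topology
open scoped ComplexConjugate ContDiff

namespace Crest.Agent.R017.BxE986

open Crest.Agent.R012 Crest.Agent.R012.Eis Crest.Agent.R012.Mob705
open Crest.Agent.R012.LS2 (bl)
open Crest.Agent.R017.CM106 Crest.Agent.R017.FE47 Crest.Agent.R017.End699
open Crest.Agent.R017.HP842 Crest.Agent.R017.B770
open Crest.Agent.R017.Bx986 Crest.Agent.R017.Prov71
open Crest.Agent.R017.XG702 (Pcs BG)
open Crest.Agent.R017.Cone59 (Tg)

/-! ### total lengths -/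

/-- total length of the pieces of kind `t` -/
def LM (t : Kd) (qs : List Pq) : ℝ := (qs.map fun q => if q.kd = t then q.z else 0).sum

@[simp] lemma LM_nil (t : Kd) : LM t [] = 0 := rfl

@[simp] lemma LM_cons (t : Kd) (q : Pq) (qs : List Pq) :
    LM t (q :: qs) = (if q.kd = t then q.z else 0) + LM t qs := rfl

lemma LM_append (t : Kd) (ps qs : List Pq) : LM t (ps ++ qs) = LM t ps + LM t qs := by
  unfold LM; rw [List.map_append, List.sum_append]

lemma mass_eq {X : ℝ} (hX : 1 < X) (t : Kd) (qs : List Pq) :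
    Dq.mass X qs t = LM t qs / Real.log X := by
  have hl : 0 < Real.log X := Real.log_pos hX
  induction qs with
  | nil => simp
  | cons q qs ih =>
    rw [Pcs.mass_cons, ih, LM_cons, Dq_kind]
    unfold Pcs.nl
    rw [Dq_len]
    split_ifs
    · field_simp
    · simp

/-- the pieces of nonnegative length -/
def keep (qs : List Pq) : List Pq := qs.filter fun q => decide (0 ≤ q.z)

lemma keep_cons_pos {q : Pq} {qs : List Pq} (h : 0 ≤ q.z) : keep (q :: qs) = q :: keep qs := by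
  unfold keep; rw [List.filter_cons_of_pos (by simpa using h)]

lemma keep_cons_neg {q : Pq} {qs : List Pq} (h : q.z < 0) : keep (q :: qs) = keep qs := by
  unfold keep; rw [List.filter_cons_of_neg (by simpa using h)]

lemma mem_keep {q : Pq} {qs : List Pq} : q ∈ keep qs ↔ q ∈ qs ∧ 0 ≤ q.z := by
  unfold keep; rw [List.mem_filter]; simp

lemma keep_length (qs : List Pq) : (keep qs).length ≤ qs.length := List.length_filter_le _ _

/-- the total lengths after a shift and `keep` -/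
lemma LM_keep {ρ : ℝ} (hρ : 0 ≤ ρ) (t : Kd) {qs ds : List Pq} (h : List.Forall₂ (NrQ ρ) qs ds)
    (hd : ∀ d ∈ ds, -1 ≤ d.z) : |LM t (keep qs) - LM t ds| ≤ ds.length * (ρ + 1) := by
  induction h with
  | nil => simp [keep]
  | @cons q d qs ds hq _ ih =>
    have ih' := ih fun x hx => hd x (List.mem_cons_of_mem _ hx)
    have hd1 := hd d List.mem_cons_self
    have hz := abs_le.1 hq.z
    have hkd := hq.kd
    rw [List.length_cons]
    push_cast
    have e1 : |LM t (keep (q :: qs)) - LM t (d :: ds)| ≤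
        |LM t (keep qs) - LM t ds| + (ρ + 1) := by
      by_cases h0 : 0 ≤ q.z
      · rw [keep_cons_pos h0, LM_cons, LM_cons, hkd]
        split_ifs
        · have : q.z + LM t (keep qs) - (d.z + LM t ds) =
              (LM t (keep qs) - LM t ds) + (q.z - d.z) := by ring
          rw [this]
          refine (abs_add_le _ _).trans ?_
          linarith [hq.z]
        · have : (0 : ℝ) + LM t (keep qs) - (0 + LM t ds) = LM t (keep qs) - LM t ds := by ring
          rw [this]; linarith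
      · push Not at h0
        rw [keep_cons_neg h0, LM_cons]
        split_ifs
        · have : LM t (keep qs) - (d.z + LM t ds) =
              (LM t (keep qs) - LM t ds) + (-d.z) := by ring
          rw [this]
          refine (abs_add_le _ _).trans ?_
          have : |(-d.z)| ≤ ρ + 1 := by
            rw [abs_neg, abs_le]; constructor <;> linarith [hz.1, hz.2]
          linarith
        · have : LM t (keep qs) - (0 + LM t ds) = LM t (keep qs) - LM t ds := by ring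
          rw [this]; linarith
    calc _ ≤ |LM t (keep qs) - LM t ds| + (ρ + 1) := e1
      _ ≤ ds.length * (ρ + 1) + (ρ + 1) := by linarith
      _ = _ := by ring

/-- the positive part of the total length -/
def PL (qs : List Pq) : ℝ := (qs.map fun q => max 0 q.z).sum

lemma PL_eq (qs : List Pq) : PL qs = LM .mo (keep qs) + LM .am (keep qs) := by
  induction qs with
  | nil => simp [PL, keep]
  | cons q qs ih =>
    have e : PL (q :: qs) = max 0 q.z + PL qs := by simp [PL]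
    rw [e, ih]
    by_cases h : 0 ≤ q.z
    · rw [keep_cons_pos h, LM_cons, LM_cons, max_eq_right h]
      cases hk : q.kd <;> simp <;> ring
    · push Not at h
      rw [keep_cons_neg h, max_eq_left h.le]; ring

/-! ### the functionals -/

lemma BF_eq (P : DPar) (h : ℝ → ℝ) {K : ℝ} (hK : 0 < K) (qs : List Pq) :
    BF P h K (qs.map (Pq.pc P)) = Bc P h (Real.log K) qs := by
  classical
  unfold BF Bc BQ
  rw [Real.exp_log hK, Finset.sum_filter]

/-- removal of the pieces of negative length -/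
lemma Bc_keep {P : DPar} (hP : P.OK) {h : ℝ → ℝ} {C : ℝ} (hC : 1 ≤ C)
    (hb : ∀ p : Pc, p.OK → ∀ k : Eis, ‖CS (pc h p) k‖ ≤ C * max 1 p.Y) (l : ℝ) (qs : List Pq) :
    Bc P h l qs ≤ C ^ qs.length * Bc P h l (keep qs) := by
  classical
  unfold Bc BQ
  rw [Finset.mul_sum]
  refine Finset.sum_le_sum fun k _ => ?_
  induction qs with
  | nil => simp [keep]
  | cons q qs ih =>
    rw [List.map_cons, List.map_cons, List.prod_cons, List.length_cons, pow_succ]
    have h0 : 0 ≤ (((keep qs).map (Pq.pc P)).map fun p => ‖CS (pc h p) k‖).prod := by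
      refine List.prod_nonneg ?_
      intro a ha
      obtain ⟨p, _, rfl⟩ := List.mem_map.1 ha
      exact norm_nonneg _
    have hC0 : 0 ≤ C := by linarith
    by_cases hz : 0 ≤ q.z
    · rw [keep_cons_pos hz, List.map_cons, List.map_cons, List.prod_cons]
      calc ‖CS (pc h (q.pc P)) k‖ * ((qs.map (Pq.pc P)).map fun p => ‖CS (pc h p) k‖).prod
          ≤ ‖CS (pc h (q.pc P)) k‖ * (C ^ qs.length *
            (((keep qs).map (Pq.pc P)).map fun p => ‖CS (pc h p) k‖).prod) :=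
            mul_le_mul_of_nonneg_left ih (norm_nonneg _)
        _ ≤ ‖CS (pc h (q.pc P)) k‖ * (C ^ qs.length * C *
            (((keep qs).map (Pq.pc P)).map fun p => ‖CS (pc h p) k‖).prod) := by
            gcongr
            exact le_mul_of_one_le_right (by positivity) hC
        _ = _ := by ring
    · push Not at hz
      rw [keep_cons_neg hz]
      have h1 := hb (q.pc P) (Pq.ok hP q) k
      have h2 : max 1 (q.pc P).Y = 1 := by
        rw [Pq.pc_Y]
        exact max_eq_left (Real.exp_le_one_iff.2 hz.le)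
      rw [h2, mul_one] at h1
      calc ‖CS (pc h (q.pc P)) k‖ * ((qs.map (Pq.pc P)).map fun p => ‖CS (pc h p) k‖).prod
          ≤ C * (C ^ qs.length *
            (((keep qs).map (Pq.pc P)).map fun p => ‖CS (pc h p) k‖).prod) :=
            mul_le_mul h1 ih (List.prod_nonneg (by
              intro a ha
              obtain ⟨p, _, rfl⟩ := List.mem_map.1 ha
              exact norm_nonneg _)) hC0
        _ = _ := by ring

/-- the trivial bound -/
lemma Bc_triv {P : DPar} (hP : P.OK) {h : ℝ → ℝ} {C : ℝ} (hC : 1 ≤ C)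
    (hb : ∀ p : Pc, p.OK → ∀ k : Eis, ‖CS (pc h p) k‖ ≤ C * max 1 p.Y) (l : ℝ) (qs : List Pq) :
    Bc P h l qs ≤ 100 * C ^ qs.length * Real.exp (l + PL qs) := by
  classical
  unfold Bc BQ
  have hC0 : 0 ≤ C := by linarith
  have hterm : ∀ k : Eis, ((qs.map (Pq.pc P)).map fun p => ‖CS (pc h p) k‖).prod ≤
      C ^ qs.length * Real.exp (PL qs) := by
    intro k
    induction qs with
    | nil => simp [PL]
    | cons q qs ih =>
      have e : PL (q :: qs) = max 0 q.z + PL qs := by simp [PL]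
      rw [List.map_cons, List.map_cons, List.prod_cons, List.length_cons, pow_succ, e, Real.exp_add]
      have h1 := hb (q.pc P) (Pq.ok hP q) k
      have h2 : max 1 (q.pc P).Y = Real.exp (max 0 q.z) := by
        rw [Pq.pc_Y, Real.exp_monotone.map_max, Real.exp_zero]
      rw [h2] at h1
      calc ‖CS (pc h (q.pc P)) k‖ * ((qs.map (Pq.pc P)).map fun p => ‖CS (pc h p) k‖).prod
          ≤ (C * Real.exp (max 0 q.z)) * (C ^ qs.length * Real.exp (PL qs)) :=
            mul_le_mul h1 ih (List.prod_nonneg (by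
              intro a ha
              obtain ⟨p, _, rfl⟩ := List.mem_map.1 ha
              exact norm_nonneg _)) (by positivity)
        _ = _ := by ring
  calc _ ≤ ∑ k ∈ (bl (Real.exp l)).filter P.NP2, C ^ qs.length * Real.exp (PL qs) :=
        Finset.sum_le_sum fun k _ => hterm k
    _ = (((bl (Real.exp l)).filter P.NP2).card : ℝ) * (C ^ qs.length * Real.exp (PL qs)) := by
        rw [Finset.sum_const, nsmul_eq_mul]
    _ ≤ (100 * Real.exp l) * (C ^ qs.length * Real.exp (PL qs)) := by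
        refine mul_le_mul_of_nonneg_right ?_ (by positivity)
        have h1 : (((bl (Real.exp l)).filter P.NP2).card : ℝ) ≤ ((bl (Real.exp l)).card : ℝ) := by
          exact_mod_cast Finset.card_filter_le _ _
        have h2 : ((bl (Real.exp l)).card : ℝ) ≤ 100 * ⌊Real.exp l⌋₊ := by
          unfold LS2.bl
          exact Lat277.card_ball_erase_le _
        have h3 : (⌊Real.exp l⌋₊ : ℝ) ≤ Real.exp l := Nat.floor_le (Real.exp_pos _).le
        linarith
    _ = _ := by rw [Real.exp_add]; ring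

/-! ### the target in logarithms -/

/-- the target in logarithms -/
def TL (θ y₀ L₀ lH lQ lC : ℝ) : ℝ := ((1 / 2 + y₀) / 3 + y₀ + θ) * L₀ +
  max ((lH - (1 / 2 + y₀) * L₀) + (lQ - L₀) / 2 + (lC - y₀ * L₀) / 2)
    (max ((lH - (1 / 2 + y₀) * L₀) / 2 + 3 / 4 * (lQ - L₀) + 1 / 4 * (lC - y₀ * L₀))
      ((lH - (1 / 2 + y₀) * L₀) / 6 + θ * (lQ - L₀) + θ * (lC - y₀ * L₀)))

/-- lower bound of the target -/
lemma TgB_ge {θ y₀ η₁ η₂ η Q₀ Q H Cc : ℝ} (hη₁ : η₁ ≤ η) (hη₂ : η₂ ≤ η) (hQ₀ : 1 ≤ Q₀)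
    (hQ : 0 < Q) (hH : 0 < H) (hC : 0 < Cc) :
    Real.exp (TL θ y₀ (Real.log Q₀) (Real.log H) (Real.log Q) (Real.log Cc) -
      η * Real.log Q₀) ≤ TgB θ η₁ η₂ y₀ Q₀ Q H Cc := by
  have hp : ∀ {a : ℝ}, 0 < a → ∀ s : ℝ, a ^ s = Real.exp (Real.log a * s) := fun ha s =>
    Real.rpow_def_of_pos ha s
  have hQ₀' : 0 < Q₀ := by linarith
  have hL₀ : 0 ≤ Real.log Q₀ := Real.log_nonneg hQ₀
  obtain ⟨X, rfl⟩ : ∃ X, Q₀ = Real.exp X := ⟨Real.log Q₀, (Real.exp_log hQ₀').symm⟩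
  obtain ⟨q, rfl⟩ : ∃ X, Q = Real.exp X := ⟨Real.log Q, (Real.exp_log hQ).symm⟩
  obtain ⟨h, rfl⟩ : ∃ X, H = Real.exp X := ⟨Real.log H, (Real.exp_log hH).symm⟩
  obtain ⟨c, rfl⟩ : ∃ X, Cc = Real.exp X := ⟨Real.log Cc, (Real.exp_log hC).symm⟩
  rw [Real.log_exp] at hL₀
  unfold TgB TL
  simp only [Real.log_exp, ← Real.exp_sub, ← Real.exp_mul]
  rw [mul_add, mul_add]
  simp only [← Real.exp_add, ← mul_assoc]
  rw [mul_add]
  simp only [← Real.exp_add]
  have h1 : -(η * X) ≤ -(η₁ * X) := by nlinarith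
  have h2 : -(η * X) ≤ -(η₂ * X) := by nlinarith
  set A := (h - (1 / 2 + y₀) * X) + (q - X) / 2 + (c - y₀ * X) / 2 with hA
  set B := (h - (1 / 2 + y₀) * X) / 2 + 3 / 4 * (q - X) + 1 / 4 * (c - y₀ * X) with hB
  set D := (h - (1 / 2 + y₀) * X) / 6 + θ * (q - X) + θ * (c - y₀ * X) with hD
  rcases le_total A (max B D) with hAB | hAB
  · rw [max_eq_right hAB]
    rcases le_total B D with hBD | hBD
    · rw [max_eq_right hBD]
      have e := Real.exp_le_exp.2 (show ((1 / 2 + y₀) / 3 + y₀ + θ) * X + D - η * X ≤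
        X * ((1 / 2 + y₀) / 3 + y₀ + θ) + X * -η₂ + (h - X * (1 / 2 + y₀)) * (1 / 6) +
          (q - X) * θ + (c - X * y₀) * θ by rw [hD]; nlinarith)
      refine e.trans ?_
      refine le_trans (le_of_eq ?_) (le_add_of_nonneg_left (by positivity))
      congr 1; ring
    · rw [max_eq_left hBD]
      have e := Real.exp_le_exp.2 (show ((1 / 2 + y₀) / 3 + y₀ + θ) * X + B - η * X ≤
        X * ((1 / 2 + y₀) / 3 + y₀ + θ) + X * -η₁ + (h - X * (1 / 2 + y₀)) * (1 / 2) +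
          (q - X) * (3 / 4) + (c - X * y₀) * (1 / 4) by rw [hB]; nlinarith)
      refine e.trans ?_
      refine le_trans ?_ (le_add_of_nonneg_right (by positivity))
      refine le_trans (le_of_eq ?_) (le_add_of_nonneg_left (by positivity))
      congr 1; ring
  · rw [max_eq_left hAB]
    have e := Real.exp_le_exp.2 (show ((1 / 2 + y₀) / 3 + y₀ + θ) * X + A - η * X ≤
        X * ((1 / 2 + y₀) / 3 + y₀ + θ) + X * -η₁ + (h - X * (1 / 2 + y₀)) +
          (q - X) * (1 / 2) + (c - X * y₀) * (1 / 2) by rw [hA]; nlinarith)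
    refine e.trans ?_
    refine le_trans ?_ (le_add_of_nonneg_right (by positivity))
    refine le_trans (le_of_eq ?_) (le_add_of_nonneg_right (by positivity))
    congr 1; ring

lemma TL_mono {θ y₀ L₀ lH lQ lC lH' lQ' lC' : ℝ} (hθ : 0 ≤ θ) (h1 : lH ≤ lH') (h2 : lQ ≤ lQ')
    (h3 : lC ≤ lC') : TL θ y₀ L₀ lH lQ lC ≤ TL θ y₀ L₀ lH' lQ' lC' := by
  unfold TL
  gcongr

lemma TL_shift {θ y₀ L₀ lH lQ lC a b c : ℝ} (hθ : 0 ≤ θ) (hθ1 : θ ≤ 1) (ha : 0 ≤ a) (hb : 0 ≤ b)
    (hc : 0 ≤ c) : TL θ y₀ L₀ (lH + a) (lQ + b) (lC + c) ≤ TL θ y₀ L₀ lH lQ lC + (a + b + c) := by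
  unfold TL
  rw [add_assoc (((1 / 2 + y₀) / 3 + y₀ + θ) * L₀)]
  refine add_le_add le_rfl ?_
  have t1 := le_max_left ((lH - (1 / 2 + y₀) * L₀) + (lQ - L₀) / 2 + (lC - y₀ * L₀) / 2)
    (max ((lH - (1 / 2 + y₀) * L₀) / 2 + 3 / 4 * (lQ - L₀) + 1 / 4 * (lC - y₀ * L₀))
      ((lH - (1 / 2 + y₀) * L₀) / 6 + θ * (lQ - L₀) + θ * (lC - y₀ * L₀)))
  have t2 := (le_max_left ((lH - (1 / 2 + y₀) * L₀) / 2 + 3 / 4 * (lQ - L₀) +
    1 / 4 * (lC - y₀ * L₀)) ((lH - (1 / 2 + y₀) * L₀) / 6 + θ * (lQ - L₀) +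
      θ * (lC - y₀ * L₀))).trans (le_max_right
        ((lH - (1 / 2 + y₀) * L₀) + (lQ - L₀) / 2 + (lC - y₀ * L₀) / 2) _)
  have t3 := (le_max_right ((lH - (1 / 2 + y₀) * L₀) / 2 + 3 / 4 * (lQ - L₀) +
    1 / 4 * (lC - y₀ * L₀)) ((lH - (1 / 2 + y₀) * L₀) / 6 + θ * (lQ - L₀) +
      θ * (lC - y₀ * L₀))).trans (le_max_right
        ((lH - (1 / 2 + y₀) * L₀) + (lQ - L₀) / 2 + (lC - y₀ * L₀) / 2) _)
  have hb' : θ * b ≤ b := mul_le_of_le_one_left hb hθ1
  have hc' : θ * c ≤ c := mul_le_of_le_one_left hc hθ1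
  refine max_le ?_ (max_le ?_ ?_) <;> nlinarith

lemma TL_y {θ y δ L₀ lH lQ lC : ℝ} (hθ : 0 ≤ θ) (hθ1 : θ ≤ 1) (hδ : 0 ≤ δ) (hL : 0 ≤ L₀) :
    TL θ y L₀ lH lQ lC ≤ TL θ (y + δ) L₀ lH lQ lC + 3 * δ * L₀ := by
  have hdL : 0 ≤ δ * L₀ := mul_nonneg hδ hL
  have hθd : θ * (δ * L₀) ≤ δ * L₀ := mul_le_of_le_one_left hdL hθ1
  have hθd0 : 0 ≤ θ * (δ * L₀) := mul_nonneg hθ hdL
  unfold TL
  have t1 := le_max_left ((lH - (1 / 2 + (y + δ)) * L₀) + (lQ - L₀) / 2 +
      (lC - (y + δ) * L₀) / 2)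
    (max ((lH - (1 / 2 + (y + δ)) * L₀) / 2 + 3 / 4 * (lQ - L₀) + 1 / 4 * (lC - (y + δ) * L₀))
      ((lH - (1 / 2 + (y + δ)) * L₀) / 6 + θ * (lQ - L₀) + θ * (lC - (y + δ) * L₀)))
  have t2 := (le_max_left ((lH - (1 / 2 + (y + δ)) * L₀) / 2 + 3 / 4 * (lQ - L₀) +
    1 / 4 * (lC - (y + δ) * L₀)) ((lH - (1 / 2 + (y + δ)) * L₀) / 6 + θ * (lQ - L₀) +
      θ * (lC - (y + δ) * L₀))).trans (le_max_right
        ((lH - (1 / 2 + (y + δ)) * L₀) + (lQ - L₀) / 2 + (lC - (y + δ) * L₀) / 2) _)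
  have t3 := (le_max_right ((lH - (1 / 2 + (y + δ)) * L₀) / 2 + 3 / 4 * (lQ - L₀) +
    1 / 4 * (lC - (y + δ) * L₀)) ((lH - (1 / 2 + (y + δ)) * L₀) / 6 + θ * (lQ - L₀) +
      θ * (lC - (y + δ) * L₀))).trans (le_max_right
        ((lH - (1 / 2 + (y + δ)) * L₀) + (lQ - L₀) / 2 + (lC - (y + δ) * L₀) / 2) _)
  set M := max ((lH - (1 / 2 + (y + δ)) * L₀) + (lQ - L₀) / 2 + (lC - (y + δ) * L₀) / 2)
    (max ((lH - (1 / 2 + (y + δ)) * L₀) / 2 + 3 / 4 * (lQ - L₀) + 1 / 4 * (lC - (y + δ) * L₀))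
      ((lH - (1 / 2 + (y + δ)) * L₀) / 6 + θ * (lQ - L₀) + θ * (lC - (y + δ) * L₀))) with hM
  have h : max ((lH - (1 / 2 + y) * L₀) + (lQ - L₀) / 2 + (lC - y * L₀) / 2)
    (max ((lH - (1 / 2 + y) * L₀) / 2 + 3 / 4 * (lQ - L₀) + 1 / 4 * (lC - y * L₀))
      ((lH - (1 / 2 + y) * L₀) / 6 + θ * (lQ - L₀) + θ * (lC - y * L₀))) ≤ M + 3 * δ * L₀ := by
    refine max_le ?_ (max_le ?_ ?_) <;> nlinarith
  nlinarith

lemma TL_ge {θ y₀ L₀ lH lQ lC : ℝ} : lH / 6 + θ * lQ + θ * lC +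
    L₀ * ((1 / 2 + y₀) / 6 + y₀ * (1 - θ)) ≤ TL θ y₀ L₀ lH lQ lC := by
  unfold TL
  have t3 := (le_max_right ((lH - (1 / 2 + y₀) * L₀) / 2 + 3 / 4 * (lQ - L₀) +
    1 / 4 * (lC - y₀ * L₀)) ((lH - (1 / 2 + y₀) * L₀) / 6 + θ * (lQ - L₀) +
      θ * (lC - y₀ * L₀))).trans (le_max_right
        ((lH - (1 / 2 + y₀) * L₀) + (lQ - L₀) / 2 + (lC - y₀ * L₀) / 2) _)
  nlinarith

/-- the exponent of 59's cone in logarithms -/
lemma Tg_eq {θ y L₀ hh q c : ℝ} (hy : 0 < 1 / 2 + y) (hL : 0 ≤ L₀) :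
    (1 / 2 + y) * L₀ * Tg θ (y / (1 / 2 + y)) hh q c =
      TL θ y L₀ ((1 / 2 + y) * L₀ * hh) ((1 / 2 + y) * L₀ * q) ((1 / 2 + y) * L₀ * c) := by
  set K := (1 / 2 + y) * L₀ with hK
  have hK0 : 0 ≤ K := by positivity
  have e1 : K * (y / (1 / 2 + y)) = y * L₀ := by
    have hne : (1 / 2 + y : ℝ) ≠ 0 := hy.ne'
    rw [hK, mul_comm, ← mul_assoc, div_mul_cancel₀ _ hne]
  have e2 : K * (2 - 2 * (y / (1 / 2 + y))) = L₀ := by
    have : K * (2 - 2 * (y / (1 / 2 + y))) = 2 * K - 2 * (K * (y / (1 / 2 + y))) := by ring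
    rw [this, e1, hK]; ring
  unfold Tg TL
  rw [← hK, mul_add, mul_max_of_nonneg _ _ hK0, mul_max_of_nonneg _ _ hK0]
  congr 1
  · have : K * (1 / 3 + y / (1 / 2 + y) + θ * (2 - 2 * (y / (1 / 2 + y)))) =
      K / 3 + K * (y / (1 / 2 + y)) + θ * (K * (2 - 2 * (y / (1 / 2 + y)))) := by ring
    rw [this, e1, e2, hK]; ring
  · congr 1
    · have : K * (hh - 1 + (q - (2 - 2 * (y / (1 / 2 + y)))) / 2 + (c - y / (1 / 2 + y)) / 2) =
        K * hh - K + (K * q - K * (2 - 2 * (y / (1 / 2 + y)))) / 2 +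
          (K * c - K * (y / (1 / 2 + y))) / 2 := by ring
      rw [this, e1, e2]
    · congr 1
      · have : K * ((hh - 1) / 2 + 3 / 4 * (q - (2 - 2 * (y / (1 / 2 + y)))) +
            1 / 4 * (c - y / (1 / 2 + y))) =
          (K * hh - K) / 2 + 3 / 4 * (K * q - K * (2 - 2 * (y / (1 / 2 + y)))) +
            1 / 4 * (K * c - K * (y / (1 / 2 + y))) := by ring
        rw [this, e1, e2]
      · have : K * ((hh - 1) / 6 + θ * (q - (2 - 2 * (y / (1 / 2 + y)))) +
            θ * (c - y / (1 / 2 + y))) =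
          (K * hh - K) / 6 + θ * (K * q - K * (2 - 2 * (y / (1 / 2 + y)))) +
            θ * (K * c - K * (y / (1 / 2 + y))) := by ring
        rw [this, e1, e2]

end Crest.Agent.R017.BxE986
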