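import Crest.Agent.R017.BxE2_986

/-!
# Row 17, D.FIN: boxes from exponents (helper986), part 3: the allowed region

* `allowed A k X ps`, `TopC` : the interface with helper702
* `AL a₁ A' w` : the closed allowed region (short families, or not near-equal), `isClosed_AL`
* `NE a₀ A y w r` : the class of the signed boxes (as predicate on boxes of helper271)
* `allowed_keep` : the lists of a box outside `NE a₀ A y w r` are allowed for `AL a₁ A' w`,
  `a₀ < a₁`, `A < A'`
* `AL_of_antitone` : how to verify membership in `AL`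
-/

set_option autoImplicit false
set_option linter.unusedSectionVars false
set_option linter.unusedVariables false

noncomputable section

open Complex Filter Topology
open scoped ComplexConjugate ContDiff

namespace Crest.Agent.R017.BxE986

open Crest.Agent.R012 Crest.Agent.R012.Eis Crest.Agent.R012.Mob705
open Crest.Agent.R012.LS2 (bl)
open Crest.Agent.R017.CM106 Crest.Agent.R017.FE47 Crest.Agent.R017.End699
open Crest.Agent.R017.HP842 Crest.Agent.R017.B770
open Crest.Agent.R017.Bx986 Crest.Agent.R017.Prov71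
open Crest.Agent.R017.XG702 (Pcs BG)
open Crest.Agent.R017.Cone59 (Tg)

/-- allowed lists -/
def allowed (A : ∀ n, Set (ℝ × (Fin n → ℝ))) (k X : ℝ) (ps : List Pq) : Prop :=
  ∀ us gs : List Pq, ps.Perm (us ++ gs) → (∀ p ∈ us, Dq.lump p) →
    (k, fun i : Fin us.length => Dq.nl X (us.get i)) ∈ A us.length

/-- **the absolute theorem** (interface with helper702) -/
def TopC {Λ : Type*} (θ g μ' : ℝ) (A : ∀ n, Set (ℝ × (Fin n → ℝ))) (π : Λ → DPar) (h : ℝ → ℝ) :
    Prop :=
  ∃ δ : ℝ, 0 < δ ∧ ∀ (lam : Λ) (N : ℕ) (B : ℝ), ∃ δ' : ℝ, 0 < δ' ∧ ∃ X₀ : ℝ, 1 < X₀ ∧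
    ∀ X : ℝ, X₀ ≤ X → ∀ (k : ℝ) (ps : List Pq), ps.length ≤ N →
      (∀ p ∈ ps, Dq.lump p ∨ Dq.nl X p ≤ δ) → allowed A k X ps → ∀ hh q c : ℝ, 0 ≤ hh → hh ≤ 1 →
        0 ≤ q → q ≤ 2 - 2 * g → 0 ≤ c → c ≤ g → q - c ≤ 2 - 3 * g → |k - hh| ≤ δ →
        |Dq.mass X ps .mo - q| ≤ δ → |Dq.mass X ps .am - c| ≤ δ → Dq.Good X δ' B ps →
          Bc (π lam) h (k * Real.log X) ps ≤ X ^ (Tg θ g hh q c - μ')

/-- the allowed region: short families, or the lumps are not near-equal -/
def AL (a₁ A' : ℝ) (w : Fin 5 → ℝ) (n : ℕ) : Set (ℝ × (Fin n → ℝ)) :=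
  {p | p.1 ≤ a₁ ∨ ∀ s : Fin 5 → Fin n, Function.Injective s →
    ∃ σ : Equiv.Perm (Fin 5), ∑ i, w i * p.2 (s (σ i)) ≤ A' * p.1}

lemma isClosed_AL (a₁ A' : ℝ) (w : Fin 5 → ℝ) (n : ℕ) : IsClosed (AL a₁ A' w n) := by
  classical
  have e : AL a₁ A' w n = {p | p.1 ≤ a₁} ∪ ⋂ s ∈ {s : Fin 5 → Fin n | Function.Injective s},
      ⋃ σ : Equiv.Perm (Fin 5), {p | ∑ i, w i * p.2 (s (σ i)) ≤ A' * p.1} := by
    ext p
    simp [AL]
  rw [e]
  refine (isClosed_le continuous_fst continuous_const).union ?_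
  refine isClosed_biInter fun s _ => isClosed_iUnion_of_finite fun σ => ?_
  refine isClosed_le ?_ (continuous_const.mul continuous_fst)
  refine continuous_finsetSum _ fun i _ => continuous_const.mul ?_
  exact (continuous_apply _).comp continuous_snd

/-- the class of the signed boxes -/
def NE (a₀ A y : ℝ) (w : Fin 5 → ℝ) (r : ℕ) : BoxCls r := fun Q₀ Q κ J H j c =>
  a₀ * ((1 / 2 + y) * Real.log Q₀) ≤ Real.log H ∧ ∃ s : Fin 5 → Fin (j - 1),
    Function.Injective s ∧ (∀ a b, a ≤ b → c (.inl (s b)) ≤ c (.inl (s a))) ∧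
      A * Real.log H ≤ ∑ i, w i * (c (.inl (s i)) : ℝ)

/-! ### the indices of the lumps -/

lemma forall₂_keep {α : Type*} {R : Pq → α → Prop} {qs : List Pq} {l : List α}
    (h : List.Forall₂ R qs l) : ∃ l' : List α, l'.Sublist l ∧ List.Forall₂ R (keep qs) l' := by
  induction h with
  | nil => exact ⟨[], List.Sublist.refl _, by unfold keep; exact List.Forall₂.nil⟩
  | @cons q x qs l hq _ ih =>
    obtain ⟨l', h1, h2⟩ := ih
    by_cases hz : 0 ≤ q.z
    · rw [keep_cons_pos hz]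
      exact ⟨x :: l', h1.cons₂ x, List.Forall₂.cons hq h2⟩
    · push Not at hz
      rw [keep_cons_neg hz]
      exact ⟨l', h1.cons x, h2⟩

lemma lump_idx {d₁ d₂ : Eis} {h₁ : d₁ ≠ 0} {h₂ : d₂ ≠ 0} {r : ℕ} {y Q₀ κ t₁ t₂ ρ : ℝ} {j : ℕ}
    {c : Fin (j - 1) ⊕ Fin j → ℕ} {J : Finset (Fin r)} {qs us gs : List Pq}
    (h : List.Forall₂ (NrQ ρ) qs ((Il j r J).map (dsc h₁ h₂ r y Q₀ κ t₁ t₂ c)))
    (hp : (keep qs).Perm (us ++ gs)) (hl : ∀ p ∈ us, Dq.lump p) :
    ∃ f : Fin us.length → Fin (j - 1), Function.Injective f ∧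
      ∀ i, |(us.get i).z - c (.inl (f i))| ≤ ρ := by
  rw [List.forall₂_map_right_iff] at h
  obtain ⟨l', hl', h2⟩ := forall₂_keep h
  obtain ⟨v, hv1, hv2⟩ := List.perm_comp_forall₂ hp.symm h2
  have hnd : v.Nodup := hv2.nodup_iff.2 (hl'.nodup (Il_nodup j r J))
  rw [List.forall₂_iff_get] at hv1
  obtain ⟨hlen, hv1⟩ := hv1
  have hlu : us.length ≤ v.length := by
    rw [← hlen, List.length_append]; omega
  have key : ∀ i : Fin us.length, ∃ x : Fin (j - 1),
      v.get ⟨i, lt_of_lt_of_le i.2 hlu⟩ = Sum.inl x ∧ |(us.get i).z - c (.inl x)| ≤ ρ := by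
    intro i
    have hi : (i : ℕ) < (us ++ gs).length := by rw [List.length_append]; omega
    have h3 := hv1 i hi (lt_of_lt_of_le i.2 hlu)
    have e : (us ++ gs).get ⟨i, hi⟩ = us.get i := by
      simp [List.getElem_append_left]
    rw [e] at h3
    have h4 := hl _ (List.get_mem us i)
    rw [Dq_lump] at h4
    generalize v.get ⟨i, lt_of_lt_of_le i.2 hlu⟩ = x at h3 ⊢
    rcases x with x | x | x
    · exact ⟨x, rfl, h3.z⟩
    · have := h3.u
      rw [h4.2] at this
      simp [dsc] at this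
    · rcases x with _ | x
      · have := h3.u
        rw [h4.2] at this
        simp [dsc] at this
      · have := h3.u
        rw [h4.2] at this
        simp [dsc] at this
  choose f hf1 hf2 using key
  refine ⟨f, fun a b hab => ?_, hf2⟩
  have h5 : v.get ⟨a, lt_of_lt_of_le a.2 hlu⟩ = v.get ⟨b, lt_of_lt_of_le b.2 hlu⟩ := by
    rw [hf1 a, hf1 b, hab]
  have h6 := hnd.get_inj_iff.1 h5
  rw [Fin.mk.injEq] at h6
  exact Fin.ext h6

/-- **boxes outside the signed class have allowed lists** -/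
theorem allowed_keep {a₀ a₁ A A' y ρ β : ℝ} {w : Fin 5 → ℝ} (hw : ∀ i, 0 ≤ w i) (ha₀ : 0 < a₀)
    (ha : a₀ < a₁) (hA : A < A') (hA'0 : 0 ≤ A') (hβ : 0 < β) (hρ : 0 ≤ ρ) : ∃ K₁ : ℝ, 0 < K₁ ∧
    ∀ (d₁ d₂ : Eis) (h₁ : d₁ ≠ 0) (h₂ : d₂ ≠ 0) (r : ℕ) (Q₀ Q κ t₁ t₂ H : ℝ) (j : ℕ)
      (c : Fin (j - 1) ⊕ Fin j → ℕ) (J : Finset (Fin r)) (qs : List Pq) (X : ℝ),
      0 < H → 1 < X → Real.log X = (1 / 2 + y) * Real.log Q₀ → K₁ ≤ Real.log X →
      List.Forall₂ (NrQ ρ) qs ((Il j r J).map (dsc h₁ h₂ r y Q₀ κ t₁ t₂ c)) →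
      ¬ NE a₀ A y w r Q₀ Q κ J H j c →
      allowed (AL a₁ A' w) (Real.log (β * H) / Real.log X) X (keep qs) := by
  set W : ℝ := ∑ i, w i with hW
  have hW0 : 0 ≤ W := Finset.sum_nonneg fun i _ => hw i
  set e₁ : ℝ := |Real.log β| / (a₁ - a₀) with he₁
  set e₂ : ℝ := (ρ * W + A' * |Real.log β|) / ((A' - A) * a₀) with he₂
  have ha' : 0 < a₁ - a₀ := by linarith
  have hA1 : 0 < A' - A := by linarith
  have he₁0 : 0 ≤ e₁ := by positivity
  have he₂0 : 0 ≤ e₂ := by positivity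
  refine ⟨1 + e₁ + e₂, by positivity, ?_⟩
  intro d₁ d₂ h₁ h₂ r Q₀ Q κ t₁ t₂ H j c J qs X hH hX hlX hK hqs hNE
  have hK0 : 0 < Real.log X := Real.log_pos hX
  have hlog : Real.log (β * H) = Real.log β + Real.log H := Real.log_mul hβ.ne' hH.ne'
  intro us gs hp hl
  obtain ⟨f, hf, hfz⟩ := lump_idx hqs hp hl
  show _ ∨ _
  by_cases hcase : a₀ * Real.log X ≤ Real.log H
  · right
    intro s hs
    by_contra hcon
    push Not at hcon
    -- sort
    let g : Fin 5 → ℕᵒᵈ := fun i => OrderDual.toDual (c (.inl (f (s i))))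
    set σ := Tuple.sort g with hσ
    have hmono : Monotone (g ∘ σ) := Tuple.monotone_sort g
    have h1 := hcon σ
    apply hNE
    refine ⟨by rw [← hlX]; exact hcase, fun i => f (s (σ i)), ?_, ?_, ?_⟩
    · exact hf.comp (hs.comp σ.injective)
    · intro a b hab
      exact OrderDual.toDual_le_toDual.1 (hmono hab)
    · have h2 : Real.log X * ∑ i, w i * Dq.nl X (us.get (s (σ i))) =
          ∑ i, w i * (us.get (s (σ i))).z := by
        rw [Finset.mul_sum]
        refine Finset.sum_congr rfl fun i _ => ?_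
        unfold Pcs.nl
        rw [Dq_len]
        field_simp
      have h3 : ∑ i, w i * (us.get (s (σ i))).z ≤
          ∑ i, w i * (c (.inl (f (s (σ i)))) : ℝ) + ρ * W := by
        rw [hW, Finset.mul_sum, ← Finset.sum_add_distrib]
        refine Finset.sum_le_sum fun i _ => ?_
        have := (abs_le.1 (hfz (s (σ i)))).2
        nlinarith [hw i]
      have h4 : A' * (Real.log β + Real.log H) < ∑ i, w i * (us.get (s (σ i))).z := by
        have h5 : A' * (Real.log (β * H) / Real.log X) <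
          ∑ i, w i * Dq.nl X (us.get (s (σ i))) := h1
        have h6 := mul_lt_mul_of_pos_left h5 hK0
        rw [h2, hlog] at h6
        calc A' * (Real.log β + Real.log H) =
            Real.log X * (A' * ((Real.log β + Real.log H) / Real.log X)) := by field_simp
          _ < _ := h6
      have h7 : ρ * W + A' * |Real.log β| ≤ (A' - A) * Real.log H := by
        have h8 : e₂ ≤ Real.log X := by linarith
        rw [he₂, div_le_iff₀ (by positivity)] at h8
        have h9 : (A' - A) * (a₀ * Real.log X) ≤ (A' - A) * Real.log H :=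
          mul_le_mul_of_nonneg_left hcase hA1.le
        linarith
      have h10 : -|Real.log β| ≤ Real.log β := neg_abs_le _
      nlinarith
  · left
    push Not at hcase
    show Real.log (β * H) / Real.log X ≤ a₁
    rw [hlog, div_le_iff₀ hK0]
    have h8 : e₁ ≤ Real.log X := by linarith
    rw [he₁, div_le_iff₀ ha'] at h8
    have := le_abs_self (Real.log β)
    nlinarith

/-- how to verify membership in `AL` : only antitone selections -/
lemma mem_AL {a₁ A' : ℝ} {w : Fin 5 → ℝ} {n : ℕ} {k : ℝ} {x : Fin n → ℝ}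
    (h : ∀ s : Fin 5 → Fin n, Function.Injective s → (∀ a b, a ≤ b → x (s b) ≤ x (s a)) →
      ∑ i, w i * x (s i) ≤ A' * k) : (k, x) ∈ AL a₁ A' w n := by
  right
  intro s hs
  let g : Fin 5 → ℝᵒᵈ := fun i => OrderDual.toDual (x (s i))
  refine ⟨Tuple.sort g, ?_⟩
  have hmono : Monotone (g ∘ Tuple.sort g) := Tuple.monotone_sort g
  refine h (fun i => s (Tuple.sort g i)) (hs.comp (Tuple.sort g).injective) fun a b hab => ?_
  exact OrderDual.toDual_le_toDual.1 (hmono hab)

/-- conversely: in `AL` and `a₁ < k` the antitone selections satisfy the inequality -/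
lemma of_mem_AL {a₁ A' : ℝ} {w : Fin 5 → ℝ} (hw : Monotone w) {n : ℕ} {k : ℝ} {x : Fin n → ℝ}
    (h : (k, x) ∈ AL a₁ A' w n) (hk : a₁ < k) (s : Fin 5 → Fin n) (hs : Function.Injective s)
    (ha : ∀ a b, a ≤ b → x (s b) ≤ x (s a)) : ∑ i, w i * x (s i) ≤ A' * k := by
  rcases h with h | h
  · exact absurd h (not_le.2 hk)
  · obtain ⟨σ, hσ⟩ := h s hs
    refine le_trans ?_ hσ
    have hav : Antivary w (fun i => x (s i)) := hw.antivary fun a b hab => ha a b hab
    have := hav.sum_mul_le_sum_mul_comp_perm (σ := σ)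
    exact this

end Crest.Agent.R017.BxE986
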