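import Crest.Agent.R017.BxE3_986

/-!
# Row 17, D.FIN: boxes from exponents (helper986), part 4: one box

* `list_data` : lengths, kinds, granularity of the list of a box
* `box_main` : the box functional of a shifted list, large `Q₀`, small heights and moduli
-/

set_option autoImplicit false
set_option linter.unusedSectionVars false
set_option linter.unusedVariables false

noncomputable section

open Complex Filter Topology
open scoped ComplexConjugate ContDiff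

namespace Crest.Agent.R017.BxE986

open Crest.Agent.R012 Crest.Agent.R012.Eis Crest.Agent.R012.Mob705
open Crest.Agent.R012.LS2 (bl)
open Crest.Agent.R017.CM106 Crest.Agent.R017.FE47 Crest.Agent.R017.End699
open Crest.Agent.R017.HP842 Crest.Agent.R017.B770
open Crest.Agent.R017.Bx986 Crest.Agent.R017.Prov71
open Crest.Agent.R017.XG702 (Pcs BG)
open Crest.Agent.R017.Cone59 (Tg)

section data

variable {d₁ d₂ : Eis} (h₁ : d₁ ≠ 0) (h₂ : d₂ ≠ 0) (r : ℕ) (y Q₀ κ t₁ t₂ : ℝ) {j : ℕ}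
  (c : Fin (j - 1) ⊕ Fin j → ℕ) (J : Finset (Fin r))

lemma LM_ofFn (t : Kd) {n : ℕ} (F : Fin n → Pq) :
    LM t (List.ofFn F) = ∑ i, if (F i).kd = t then (F i).z else 0 := by
  unfold LM
  rw [List.map_ofFn, List.sum_ofFn]
  rfl

lemma LM_mo : LM .mo ((Il j r J).map (dsc h₁ h₂ r y Q₀ κ t₁ t₂ c)) =
    ∑ i, (c (.inl i) : ℝ) + ∑ i, (c (.inr i) : ℝ) := by
  unfold Il
  rw [List.map_append, List.map_append, LM_append, LM_append, List.map_ofFn, List.map_ofFn,
    LM_ofFn, LM_ofFn, List.map_cons, LM_cons]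
  have e : LM .mo ((J.toList.map fun i => (Sum.inr (Sum.inr (some i)) : Ix j r)).map
      (dsc h₁ h₂ r y Q₀ κ t₁ t₂ c)) = 0 := by
    rw [List.map_map]
    generalize J.toList = l
    induction l with
    | nil => simp
    | cons i l ih => rw [List.map_cons, LM_cons, ih]; simp [dsc]
  rw [e]
  simp [dsc]

lemma LM_am : LM .am ((Il j r J).map (dsc h₁ h₂ r y Q₀ κ t₁ t₂ c)) =
    κ + ∑ i ∈ J, kap r y Q₀ i := by
  unfold Il
  rw [List.map_append, List.map_append, LM_append, LM_append, List.map_ofFn, List.map_ofFn,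
    LM_ofFn, LM_ofFn, List.map_cons, LM_cons]
  have e : LM .am ((J.toList.map fun i => (Sum.inr (Sum.inr (some i)) : Ix j r)).map
      (dsc h₁ h₂ r y Q₀ κ t₁ t₂ c)) = ∑ i ∈ J, kap r y Q₀ i := by
    rw [List.map_map, ← Finset.sum_map_toList]
    generalize J.toList = l
    induction l with
    | nil => simp
    | cons i l ih => rw [List.map_cons, LM_cons, ih]; simp [dsc]
  rw [e]
  simp [dsc]

variable {r y Q₀ κ t₁ t₂ c J}

lemma dsc_z_ge (hκ : -1 ≤ κ) (hy : 0 ≤ y) (hQ₀ : 1 ≤ Q₀) :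
    ∀ d ∈ (Il j r J).map (dsc h₁ h₂ r y Q₀ κ t₁ t₂ c), -1 ≤ d.z := by
  intro d hd
  obtain ⟨x, _, rfl⟩ := List.mem_map.1 hd
  have hL := Real.log_nonneg hQ₀
  rcases x with x | x | _ | x
  · show (-1 : ℝ) ≤ (c (.inl x) : ℝ)
    have : (0 : ℝ) ≤ (c (.inl x) : ℝ) := Nat.cast_nonneg _
    linarith
  · show (-1 : ℝ) ≤ (c (.inr x) : ℝ)
    have : (0 : ℝ) ≤ (c (.inr x) : ℝ) := Nat.cast_nonneg _
    linarith
  · exact hκ
  · show (-1 : ℝ) ≤ kap r y Q₀ x
    unfold B770.kap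
    have h1 : 0 ≤ y / r * Real.log Q₀ := by positivity
    have h2 : (0 : ℝ) ≤ 3 * ((x : ℕ) : ℝ) := by positivity
    linarith

lemma dsc_t_le : ∀ d ∈ (Il j r J).map (dsc h₁ h₂ r y Q₀ κ t₁ t₂ c),
    1 + |d.t| ≤ 1 + |t₁| + |t₂| := by
  intro d hd
  obtain ⟨x, _, rfl⟩ := List.mem_map.1 hd
  have := abs_nonneg t₁
  have := abs_nonneg t₂
  rcases x with x | x | _ | x <;> simp only [dsc, abs_neg] <;> linarith

lemma forall₂_mem_left {α β : Type*} {R : α → β → Prop} {l : List α} {m : List β}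
    (h : List.Forall₂ R l m) {a : α} (ha : a ∈ l) : ∃ b ∈ m, R a b := by
  induction h with
  | nil => simp at ha
  | @cons x y l m hxy _ ih =>
    rcases List.mem_cons.1 ha with rfl | ha
    · exact ⟨y, List.mem_cons_self, hxy⟩
    · obtain ⟨b, hb, hR⟩ := ih ha
      exact ⟨b, List.mem_cons_of_mem _ hb, hR⟩

/-- moduli of the pieces -/
lemma nm_d_le {ρ : ℝ} {qs : List Pq}
    (hqs : List.Forall₂ (NrQ ρ) qs ((Il j r J).map (dsc h₁ h₂ r y Q₀ κ t₁ t₂ c))) :
    ∀ q ∈ qs, (nm q.d : ℝ) ≤ nm d₁ * nm d₂ := by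
  intro q hq
  obtain ⟨d, hd, hR⟩ := forall₂_mem_left hqs hq
  obtain ⟨x, _, rfl⟩ := List.mem_map.1 hd
  have n1 : (1 : ℝ) ≤ nm d₁ := by exact_mod_cast nm_pos.2 h₁
  have n2 : (1 : ℝ) ≤ nm d₂ := by exact_mod_cast nm_pos.2 h₂
  rw [hR.md]
  rcases x with x | x | _ | x <;> simp only [dsc] <;> nlinarith

/-- granularity of the pieces -/
lemma gran {ρ δ C₁ X dt : ℝ} {L : ℕ} {Q : ℝ} {qs : List Pq} (hX : 1 < X)
    (hqs : List.Forall₂ (NrQ ρ) qs ((Il j r J).map (dsc h₁ h₂ r y Q₀ κ t₁ t₂ c)))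
    (hκ : κ ≤ δ * Real.log Q₀) (hc2 : ∀ i : Fin j, (c (Sum.inr i) : ℝ) ≤ Real.log Q / L + C₁)
    (h3 : Real.log Q / L + C₁ + ρ ≤ dt * Real.log X)
    (h4 : δ * Real.log Q₀ + ρ ≤ dt * Real.log X)
    (h5 : y / r * Real.log Q₀ + 3 * r + ρ ≤ dt * Real.log X) :
    ∀ q ∈ qs, Dq.lump q ∨ Dq.nl X q ≤ dt := by
  intro q hq
  have hK : 0 < Real.log X := Real.log_pos hX
  obtain ⟨d, hd, hR⟩ := forall₂_mem_left hqs hq
  obtain ⟨x, _, rfl⟩ := List.mem_map.1 hd
  have hz := (abs_le.1 hR.z).2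
  have key : ∀ {b : ℝ}, q.z ≤ b → b ≤ dt * Real.log X → Dq.nl X q ≤ dt := by
    intro b h1 h2
    unfold Pcs.nl
    rw [Dq_len, div_le_iff₀ hK]
    linarith
  rcases x with x | x | _ | x
  · left
    rw [Dq_lump]
    exact ⟨hR.kd, hR.u⟩
  · right
    refine key (b := Real.log Q / L + C₁ + ρ) ?_ h3
    have := hc2 x
    have hz' : q.z - c (.inr x) ≤ ρ := hz
    linarith
  · right
    refine key (b := δ * Real.log Q₀ + ρ) ?_ h4
    have hz' : q.z - κ ≤ ρ := hz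
    linarith
  · right
    refine key (b := y / r * Real.log Q₀ + 3 * r + ρ) ?_ h5
    have hz' : q.z - kap r y Q₀ x ≤ ρ := hz
    unfold B770.kap at hz'
    have hx : ((x : ℕ) : ℝ) ≤ r := by exact_mod_cast x.2.le
    linarith

end data

/-! ### one box -/

lemma log_CJ {r : ℕ} {y Q₀ κ : ℝ} (hQ₀ : 0 < Q₀) (J : Finset (Fin r)) :
    Real.log (CJ r y Q₀ J * Real.exp κ) = y / r * J.card * Real.log Q₀ + κ := by
  rw [Real.log_mul (BoxP271.CJ_pos hQ₀ J).ne' (Real.exp_pos _).ne', Real.log_exp]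
  unfold CJ
  rw [Real.log_rpow hQ₀]

/-- **one shifted list, main case** -/
theorem box_main {θ μ' y : ℝ} (hθ : 0 ≤ θ) (hθ1 : θ ≤ 1) (hμ : 0 < μ') (hy : 0 < y)
    (hy1 : y ≤ 1) {dt : ℝ} {r : ℕ} {δ η : ℝ} (hr : 0 < r) (hδ : 0 < δ) (hη : 0 < η)
    (h8 : 8 * (δ + η) ≤ dt) (h9 : 8 * (δ + η) ≤ μ') {A : ∀ n, Set (ℝ × (Fin n → ℝ))}
    {P : DPar} {h : ℝ → ℝ} {X Q₀ Q H κ C₁ ρ β E₁ : ℝ} {J : Finset (Fin r)} {ps : List Pq} {N : ℕ}
    (hX : 1 < X) (hlX : Real.log X = (1 / 2 + y) * Real.log Q₀) (hQ₀ : 1 < Q₀) (hQ : 1 ≤ Q)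
    (hQQ : Q ≤ Q₀) (hH : 0 < H) (hβ : 0 < β) (hβH : 1 ≤ β * H)
    (hH2 : H ≤ Q₀ ^ (1 / 2 + (y + δ) + η)) (hκ : κ ≤ δ * Real.log Q₀)
    (hC₁ : 0 < C₁) (hQe : Q ≤ C₁ * Q₀ * (CJ r y Q₀ J * Real.exp κ / Q₀ ^ (y + δ)))
    (hE₁ : 0 ≤ E₁) (hmo0 : 0 ≤ LM .mo ps) (ham0 : 0 ≤ LM .am ps)
    (hmo : |LM .mo ps - Real.log Q| ≤ E₁)
    (ham : |LM .am ps - Real.log (CJ r y Q₀ J * Real.exp κ)| ≤ E₁)
    (hbig : 2 * (2 * E₁ + |Real.log C₁| + |Real.log β|) ≤ dt * Real.log X)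
    (htop : ∀ hh q c : ℝ, 0 ≤ hh → hh ≤ 1 → 0 ≤ q → q ≤ 2 - 2 * (y / (1 / 2 + y)) → 0 ≤ c →
      c ≤ y / (1 / 2 + y) → q - c ≤ 2 - 3 * (y / (1 / 2 + y)) →
        |Real.log (β * H) / Real.log X - hh| ≤ dt → |Dq.mass X ps .mo - q| ≤ dt →
        |Dq.mass X ps .am - c| ≤ dt →
          Bc P h (Real.log (β * H) / Real.log X * Real.log X) ps ≤
            X ^ (Tg θ (y / (1 / 2 + y)) hh q c - μ')) {η₂ : ℝ} (hη₂ : η₂ ≤ η) :
    Bc P h (Real.log (β * H)) ps ≤ Real.exp (2 * E₁ + |Real.log β|) *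
      TgB θ η η₂ (y + δ) Q₀ Q H (CJ r y Q₀ J * Real.exp κ) := by
  set L₀ := Real.log Q₀ with hL₀
  set K := Real.log X with hK
  set g := y / (1 / 2 + y) with hg
  have hy2 : (0 : ℝ) < 1 / 2 + y := by linarith
  have hL0 : 0 < L₀ := Real.log_pos hQ₀
  have hK0 : 0 < K := Real.log_pos hX
  have hQ₀' : 0 < Q₀ := by linarith
  have hX0 : 0 < X := by linarith
  have hdt : 0 < dt := by linarith
  have hCJ : 0 < CJ r y Q₀ J * Real.exp κ := mul_pos (BoxP271.CJ_pos hQ₀' J) (Real.exp_pos _)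
  have hKg : K * g = y * L₀ := by
    have hne : (1 / 2 + y : ℝ) ≠ 0 := hy2.ne'
    rw [hlX, hg, mul_comm, ← mul_assoc, div_mul_cancel₀ _ hne]
  have hg0 : 0 < g := by positivity
  have hg1 : g < 1 := by rw [hg, div_lt_one hy2]; linarith
  set lH := Real.log H with hlH
  set lQ := Real.log Q with hlQ
  set lC := Real.log (CJ r y Q₀ J * Real.exp κ) with hlC
  set b := Real.log β with hb
  have hlogβ : Real.log (β * H) = b + lH := Real.log_mul hβ.ne' hH.ne'
  have hbH0 : 0 ≤ b + lH := by rw [← hlogβ]; exact Real.log_nonneg hβH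
  have hlQ0 : 0 ≤ lQ := Real.log_nonneg hQ
  have hlQ1 : lQ ≤ L₀ := Real.log_le_log (by linarith) hQQ
  have hlH1 : lH ≤ (1 / 2 + (y + δ) + η) * L₀ := by
    have := Real.log_le_log hH hH2
    rwa [Real.log_rpow hQ₀'] at this
  have hlC1 : lC ≤ (y + δ) * L₀ := by
    rw [hlC, log_CJ hQ₀' J]
    have h1 : ((J.card : ℕ) : ℝ) ≤ r := by
      have : J.card ≤ r := by simpa using J.card_le_univ
      exact_mod_cast this
    have hr' : (0 : ℝ) < r := by exact_mod_cast hr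
    have h2 : y / r * J.card ≤ y := by
      rw [div_mul_eq_mul_div, div_le_iff₀ hr']
      exact mul_le_mul_of_nonneg_left h1 hy.le
    have h3 : y / r * J.card * L₀ ≤ y * L₀ := mul_le_mul_of_nonneg_right h2 hL0.le
    have h4 : (y + δ) * L₀ = y * L₀ + δ * L₀ := by ring
    rw [h4]; linarith
  have hlQe : lQ ≤ |Real.log C₁| + L₀ + lC - (y + δ) * L₀ := by
    have h1 := Real.log_le_log (by linarith) hQe
    rw [Real.log_mul (by positivity) (div_pos hCJ (Real.rpow_pos_of_pos hQ₀' _)).ne',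
      Real.log_mul hC₁.ne' hQ₀'.ne', Real.log_div hCJ.ne' (Real.rpow_pos_of_pos hQ₀' _).ne',
      Real.log_rpow hQ₀'] at h1
    have := le_abs_self (Real.log C₁)
    linarith
  -- the point of the domain
  set k := (b + lH) / K with hk
  have hk0 : 0 ≤ k := div_nonneg hbH0 hK0.le
  have hkK : K * k = b + lH := by rw [hk]; field_simp
  set mq := LM .mo ps / K with hmq
  set ma := LM .am ps / K with hma
  have hmqK : K * mq = LM .mo ps := by rw [hmq]; field_simp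
  have hmaK : K * ma = LM .am ps := by rw [hma]; field_simp
  have hmq0 : 0 ≤ mq := div_nonneg hmo0 hK0.le
  have hma0 : 0 ≤ ma := div_nonneg ham0 hK0.le
  set c := min g ma with hc
  set q := min mq (min (2 - 2 * g) (2 - 3 * g + c)) with hq
  set hh := min 1 k with hhh
  have hc0 : 0 ≤ c := le_min hg0.le hma0
  have hyL : 0 ≤ y * L₀ := by positivity
  have hL2K : L₀ ≤ 2 * K := by rw [hlX]; linarith
  have hLK : 2 * ((δ + η) * L₀) ≤ dt / 2 * K := by
    have h2 : 2 * ((δ + η) * L₀) ≤ 2 * ((δ + η) * (2 * K)) := by gcongr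
    have h3 : 8 * (δ + η) * K ≤ dt * K := mul_le_mul_of_nonneg_right h8 hK0.le
    linarith
  have hδη : 0 ≤ (δ + η) * L₀ := by positivity
  have hδL : 0 ≤ δ * L₀ := by positivity
  have hηL : 0 ≤ η * L₀ := by positivity
  have habsC := abs_nonneg (Real.log C₁)
  have habsb := abs_nonneg b
  have hb1 := le_abs_self b
  -- distances
  have dk : |k - hh| ≤ dt := by
    rw [hhh]
    rcases le_total 1 k with h1 | h1
    · rw [min_eq_left h1, abs_of_nonneg (by linarith)]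
      have : K * (k - 1) ≤ K * dt := by
        rw [mul_sub, hkK, mul_one]
        have e : (1 / 2 + (y + δ) + η) * L₀ = K + (δ + η) * L₀ := by rw [hlX]; ring
        rw [mul_comm K dt]
        linarith
      exact le_of_mul_le_mul_left this hK0
    · rw [min_eq_right h1, sub_self, abs_zero]; exact hdt.le
  have dc : |ma - c| ≤ dt := by
    rw [hc]
    rcases le_total g ma with h1 | h1
    · rw [min_eq_left h1, abs_of_nonneg (by linarith)]
      have : K * (ma - g) ≤ K * dt := by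
        rw [mul_sub, hmaK, hKg, mul_comm K dt]
        have u1 := (abs_le.1 ham).2
        have u2 : (δ + η) * L₀ = δ * L₀ + η * L₀ := by ring
        have u3 : (y + δ) * L₀ = y * L₀ + δ * L₀ := by ring
        linarith
      exact le_of_mul_le_mul_left this hK0
    · rw [min_eq_right h1, sub_self, abs_zero]; exact hdt.le
  have hmqle : mq - (2 - 2 * g) ≤ dt := by
    have : K * (mq - (2 - 2 * g)) ≤ K * dt := by
      have e : K * (mq - (2 - 2 * g)) = K * mq - 2 * K + 2 * (K * g) := by ring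
      have u0 : 2 * K = L₀ + 2 * (y * L₀) := by rw [hlX]; ring
      rw [e, hmqK, hKg, mul_comm K dt]
      have u1 := (abs_le.1 hmo).2
      linarith
    exact le_of_mul_le_mul_left this hK0
  have hmqle2 : mq - (2 - 3 * g + c) ≤ dt := by
    rcases le_total g ma with h1 | h1
    · rw [hc, min_eq_left h1]
      have : 2 - 3 * g + g = 2 - 2 * g := by ring
      rw [this]; exact hmqle
    · rw [hc, min_eq_right h1]
      have : K * (mq - (2 - 3 * g + ma)) ≤ K * dt := by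
        have e : K * (mq - (2 - 3 * g + ma)) = K * mq - 2 * K + 3 * (K * g) - K * ma := by ring
        have u0 : 2 * K = L₀ + 2 * (y * L₀) := by rw [hlX]; ring
        have u3 : (y + δ) * L₀ = y * L₀ + δ * L₀ := by ring
        rw [e, hmqK, hKg, hmaK, mul_comm K dt]
        have u1 := (abs_le.1 hmo).2
        have u2 := (abs_le.1 ham).1
        linarith
      exact le_of_mul_le_mul_left this hK0
  have dq : |mq - q| ≤ dt := by
    have h1 : q ≤ mq := min_le_left _ _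
    rw [abs_of_nonneg (by linarith)]
    rw [hq]
    rcases le_total mq (min (2 - 2 * g) (2 - 3 * g + c)) with h2 | h2
    · rw [min_eq_left h2, sub_self]; exact hdt.le
    · rw [min_eq_right h2]
      rcases le_total (2 - 2 * g) (2 - 3 * g + c) with h3 | h3
      · rw [min_eq_left h3]; exact hmqle
      · rw [min_eq_right h3]; exact hmqle2
  have hq1 : q ≤ 2 - 2 * g := (min_le_right _ _).trans (min_le_left _ _)
  have hq2 : q ≤ 2 - 3 * g + c := (min_le_right _ _).trans (min_le_right _ _)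
  have hq0 : 0 ≤ q := by
    have hg2 : g ≤ 2 / 3 := by rw [hg, div_le_iff₀ hy2]; linarith
    exact le_min hmq0 (le_min (by linarith) (by linarith))
  have ht := htop hh q c (le_min zero_le_one hk0) (min_le_left _ _) hq0 hq1 hc0 (min_le_left _ _)
    (by linarith) (by rw [hlogβ]; exact dk) (by rw [mass_eq hX]; exact dq)
    (by rw [mass_eq hX]; exact dc)
  rw [div_mul_cancel₀ _ hK0.ne'] at ht
  refine ht.trans ?_
  have e1 : X ^ (Tg θ g hh q c - μ') = Real.exp (TL θ y L₀ (K * hh) (K * q) (K * c) - K * μ') := by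
    rw [Real.rpow_def_of_pos hX0, ← hK, mul_sub]
    have := Tg_eq (θ := θ) (y := y) (L₀ := L₀) (hh := hh) (q := q) (c := c) hy2 hL0.le
    rw [← hlX, ← hg] at this
    rw [this]
  rw [e1]
  have m1 : K * hh ≤ lH + |b| := by
    calc K * hh ≤ K * k := mul_le_mul_of_nonneg_left (min_le_right _ _) hK0.le
      _ = b + lH := hkK
      _ ≤ _ := by linarith
  have m2 : K * q ≤ lQ + E₁ := by
    calc K * q ≤ K * mq := mul_le_mul_of_nonneg_left (min_le_left _ _) hK0.le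
      _ = LM .mo ps := hmqK
      _ ≤ _ := by linarith [(abs_le.1 hmo).2]
  have m3 : K * c ≤ lC + E₁ := by
    calc K * c ≤ K * ma := mul_le_mul_of_nonneg_left (min_le_right _ _) hK0.le
      _ = LM .am ps := hmaK
      _ ≤ _ := by linarith [(abs_le.1 ham).2]
  have t1 := TL_mono (θ := θ) (y₀ := y) (L₀ := L₀) hθ m1 m2 m3
  have t2 := TL_shift (θ := θ) (y₀ := y) (L₀ := L₀) (lH := lH) (lQ := lQ) (lC := lC) hθ hθ1 habsb
    hE₁ hE₁
  have t3 := TL_y (θ := θ) (y := y) (δ := δ) (L₀ := L₀) (lH := lH) (lQ := lQ) (lC := lC) hθ hθ1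
    hδ.le hL0.le
  have t4 := TgB_ge (θ := θ) (y₀ := y + δ) (η₁ := η) (η₂ := η₂) (η := η) (Q₀ := Q₀) (Q := Q)
    (H := H) (Cc := CJ r y Q₀ J * Real.exp κ) le_rfl hη₂ hQ₀.le (by linarith) hH hCJ
  rw [← hL₀, ← hlH, ← hlQ, ← hlC] at t4
  have hgain : 3 * δ * L₀ - K * μ' ≤ -(η * L₀) := by
    have h2 : 8 * (δ + η) * K ≤ μ' * K := mul_le_mul_of_nonneg_right h9 hK0.le
    have h3 : δ * L₀ ≤ δ * (2 * K) := mul_le_mul_of_nonneg_left hL2K hδ.le
    have h4 : η * L₀ ≤ η * (2 * K) := mul_le_mul_of_nonneg_left hL2K hη.le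
    have h5 : 0 ≤ δ * K := by positivity
    have h6 : 0 ≤ η * K := by positivity
    linarith
  calc Real.exp (TL θ y L₀ (K * hh) (K * q) (K * c) - K * μ')
      ≤ Real.exp ((2 * E₁ + |b|) + (TL θ (y + δ) L₀ lH lQ lC - η * L₀)) :=
        Real.exp_le_exp.2 (by linarith)
    _ = Real.exp (2 * E₁ + |b|) * Real.exp (TL θ (y + δ) L₀ lH lQ lC - η * L₀) := Real.exp_add _ _
    _ ≤ _ := mul_le_mul_of_nonneg_left t4 (Real.exp_pos _).le

end Crest.Agent.R017.BxE986
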