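import Crest.Agent.R017.BxE4_986

/-!
# Row 17, D.FIN: boxes from exponents (helper986), part 5: the theorem

* `BOXat` : the box inequality at one `P`
* `BOXat_of_top` : `TopC` gives `BOXat` for all members of the family, outside `NE a₀ A y w r`,
  for all `r, δ, η, L` with `y / r, δ, η, 1 / L` small
* `evBox_of_top` : the form `EvBox` of helper271
-/

set_option autoImplicit false
set_option linter.unusedSectionVars false
set_option linter.unusedVariables false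

noncomputable section

open Complex Filter Topology
open scoped ComplexConjugate ContDiff

namespace Crest.Agent.R017.BxE986

open Crest.Agent.R012 Crest.Agent.R012.Eis Crest.Agent.R012.Mob705
open Crest.Agent.R012.LS2 (bl)
open Crest.Agent.R017.CM106 Crest.Agent.R017.FE47 Crest.Agent.R017.End699
open Crest.Agent.R017.HP842 Crest.Agent.R017.B770 Crest.Agent.R017.Sx545
open Crest.Agent.R017.Bx986 Crest.Agent.R017.Prov71
open Crest.Agent.R017.XG702 (Pcs BG)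
open Crest.Agent.R017.Cone59 (Tg)

/-- the target is bounded below -/
lemma one_le_TgB {θ y δ η η₂ Q₀ Q H Cc β : ℝ} (hθ : 0 ≤ θ) (hθ1 : θ ≤ 1) (hy : 0 < y) (hδ : 0 < δ)
    (hη1 : η ≤ 1 / 16) (hη₂ : η₂ ≤ η) (hQ₀ : 1 ≤ Q₀) (hQ : 1 ≤ Q) (hH : 0 < H) (hβ : 0 < β)
    (hβH : 1 ≤ β * H) (hCc : 0 < Cc) (hC : -1 ≤ Real.log Cc) :
    1 ≤ Real.exp (|Real.log β| + 1) * TgB θ η η₂ (y + δ) Q₀ Q H Cc := by
  have t4 := TgB_ge (θ := θ) (y₀ := y + δ) (η₁ := η) (η₂ := η₂) (η := η) (Q₀ := Q₀) (Q := Q)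
    (H := H) (Cc := Cc) le_rfl hη₂ hQ₀ (by linarith) hH hCc
  have hL0 : 0 ≤ Real.log Q₀ := Real.log_nonneg hQ₀
  have hlQ : 0 ≤ Real.log Q := Real.log_nonneg hQ
  have h1 : 0 ≤ Real.log β + Real.log H := by
    rw [← Real.log_mul hβ.ne' hH.ne']; exact Real.log_nonneg hβH
  have h2 := TL_ge (θ := θ) (y₀ := y + δ) (L₀ := Real.log Q₀) (lH := Real.log H)
    (lQ := Real.log Q) (lC := Real.log Cc)
  have h3 : -(|Real.log β| + 1) ≤ TL θ (y + δ) (Real.log Q₀) (Real.log H) (Real.log Q)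
      (Real.log Cc) - η * Real.log Q₀ := by
    have a1 := le_abs_self (Real.log β)
    have a2 := abs_nonneg (Real.log β)
    have a3 : 0 ≤ θ * Real.log Q := mul_nonneg hθ hlQ
    have a4 : -1 ≤ θ * Real.log Cc := by nlinarith
    have a5 : 0 ≤ Real.log Q₀ * ((y + δ) * (1 - θ)) := by
      have : 0 ≤ 1 - θ := by linarith
      positivity
    have a6 : 0 ≤ Real.log Q₀ * (y + δ) := by positivity
    have a7 : η * Real.log Q₀ ≤ 1 / 16 * Real.log Q₀ := mul_le_mul_of_nonneg_right hη1 hL0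
    have a8 : Real.log Q₀ * ((1 / 2 + (y + δ)) / 6 + (y + δ) * (1 - θ)) =
      Real.log Q₀ / 12 + Real.log Q₀ * (y + δ) / 6 + Real.log Q₀ * ((y + δ) * (1 - θ)) := by ring
    rw [a8] at h2
    linarith
  have h4 := Real.exp_le_exp.2 h3
  rw [Real.exp_neg] at h4
  have h5 := h4.trans t4
  have h6 := Real.exp_pos (|Real.log β| + 1)
  calc (1 : ℝ) = Real.exp (|Real.log β| + 1) * (Real.exp (|Real.log β| + 1))⁻¹ := by field_simp
    _ ≤ _ := mul_le_mul_of_nonneg_left h5 h6.le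

/-- the box inequality at one parameter -/
def BOXat (θ : ℝ) (r : ℕ) (y δ η : ℝ) (L : ℕ) (P : DPar) (𝓑 : BoxCls r) : Prop :=
  ∀ ε C₁ : ℝ, 0 < ε → 0 < C₁ → ∃ C A : ℝ, 0 ≤ C ∧ 0 ≤ A ∧
    ∀ (Q₀ Q : ℝ), 1 ≤ Q → Q ≤ Q₀ → ∀ κ : ℝ, -1 ≤ κ → κ ≤ δ * Real.log Q₀ →
    ∀ (J : Finset (Fin r)) (H : ℝ), 0 < H → H ≤ Q₀ ^ (1 / 2 + (y + δ) + η) →
    ∀ d₁ d₂ d₃ e : Eis, d₁ ≠ 0 → d₂ ≠ 0 → d₃ ≠ 0 → Sm P.n e →
      (∀ p : Eis, Prime p → p ∣ e → p ^ 5 ∣ e) →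
      Q * nm e ≤ C₁ * Q₀ * (CJ r y Q₀ J * Real.exp κ / Q₀ ^ (y + δ)) →
    ∀ (t₁ t₂ τ : ℝ) (𝒟 : Finset Eis), (∀ q ∈ 𝒟, Sm P.n q ∧ Squarefree q) →
    ∀ u : Eis → ℝ, (∀ q, 0 ≤ u q ∧ u q ≤ C₁) →
    ∀ z : ℕ, 1 ≤ z → Real.log z ≤ Real.log Q / L + C₁ →
    ∀ j : ℕ, 1 ≤ j → j ≤ L → ∀ c : Fin (j - 1) ⊕ Fin j → ℕ,
      |∑ i, (c (Sum.inl i) : ℝ) + ∑ i, (c (Sum.inr i) : ℝ) - Real.log Q| ≤ C₁ →
      (∀ i : Fin j, (c (Sum.inr i) : ℝ) ≤ Real.log Q / L + C₁) →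
      𝓑 Q₀ Q κ J H j c →
      ∑ q ∈ 𝒟, ‖P.bx r y Q₀ (κ - u q) J H d₁ d₂ d₃ e t₁ t₂ τ z c q‖ ≤
        C * ((nm d₁ : ℝ) * nm d₂ * nm d₃ * nm e * Q₀) ^ ε * (1 + |t₁| + |t₂| + |τ|) ^ A *
          TgB θ η (if δ / 2 * Real.log Q₀ ≤ κ then η else -η) (y + δ) Q₀ Q H
            (CJ r y Q₀ J * Real.exp κ)

lemma box3p_of_at {θ : ℝ} {r : ℕ} {y δ η : ℝ} {L : ℕ} {Pk : DPar → Prop} {𝓑 : BoxCls r}
    (h : ∀ P : DPar, P.OK → Pk P → BOXat θ r y δ η L P 𝓑) : BOX3p θ r y δ η L Pk 𝓑 :=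
  fun P hP hP' => h P hP hP'

section one

variable {Λ : Type*} {θ μ' y : ℝ}

/-- **one shifted list of a box**: all cases -/
theorem one_list (hθ : 0 ≤ θ) (hθ1 : θ ≤ 1) (hμ : 0 < μ') (hy : 0 < y) (hy1 : y ≤ 1)
    {dt : ℝ} {a₀ a₁ A A' : ℝ} {w : Fin 5 → ℝ} (hdt : 0 < dt)
    {P : DPar} (hP : P.OK) {h : ℝ → ℝ} {N : ℕ} {ε δ' X₀ : ℝ} (hε : 0 < ε) (hδ' : 0 < δ')
    (hX₀ : 1 < X₀)
    (htop : ∀ X : ℝ, X₀ ≤ X → ∀ (k : ℝ) (ps : List Pq), ps.length ≤ N →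
      (∀ p ∈ ps, Dq.lump p ∨ Dq.nl X p ≤ dt) → allowed (AL a₁ A' w) k X ps →
      ∀ hh q c : ℝ, 0 ≤ hh → hh ≤ 1 → 0 ≤ q → q ≤ 2 - 2 * (y / (1 / 2 + y)) → 0 ≤ c →
        c ≤ y / (1 / 2 + y) → q - c ≤ 2 - 3 * (y / (1 / 2 + y)) → |k - hh| ≤ dt →
        |Dq.mass X ps .mo - q| ≤ dt → |Dq.mass X ps .am - c| ≤ dt → Dq.Good X δ' (16 / ε) ps →
          Bc P h (k * Real.log X) ps ≤ X ^ (Tg θ (y / (1 / 2 + y)) hh q c - μ'))
    {C₀ : ℝ} (hC₀ : 1 ≤ C₀) (hb : ∀ p : Pc, p.OK → ∀ k : Eis, ‖CS (pc h p) k‖ ≤ C₀ * max 1 p.Y)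
    {β ρ C₁ : ℝ} (hβ : 0 < β) (hρ : 0 ≤ ρ) (hC₁ : 0 < C₁) {K₁ : ℝ}
    {r L : ℕ} (hr : 0 < r) (hL : 1 ≤ L) (hN : 2 * L + r + 1 ≤ N)
    (hall : ∀ (d₁ d₂ : Eis) (h₁ : d₁ ≠ 0) (h₂ : d₂ ≠ 0) (r : ℕ) (Q₀ Q κ t₁ t₂ H : ℝ) (j : ℕ)
      (c : Fin (j - 1) ⊕ Fin j → ℕ) (J : Finset (Fin r)) (qs : List Pq) (X : ℝ),
      0 < H → 1 < X → Real.log X = (1 / 2 + y) * Real.log Q₀ → K₁ ≤ Real.log X →
      List.Forall₂ (NrQ ρ) qs ((Il j r J).map (dsc h₁ h₂ r y Q₀ κ t₁ t₂ c)) →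
      ¬ NE a₀ A y w r Q₀ Q κ J H j c →
      allowed (AL a₁ A' w) (Real.log (β * H) / Real.log X) X (keep qs))
    {δ η : ℝ} (hδ : 0 < δ) (hη : 0 < η) (hyr : 16 * (y / r) ≤ dt) (hδ1 : 16 * δ ≤ dt)
    (hη1 : 16 * η ≤ dt) (hL1 : 16 * (1 / (L : ℝ)) ≤ dt) (hδ2 : 16 * δ ≤ μ') (hη2 : 16 * η ≤ μ')
    (hδ3 : 16 * δ ≤ 1) (hη3 : 16 * η ≤ 1) : ∃ C' : ℝ, 0 ≤ C' ∧
    ∀ (Q₀ Q : ℝ), 1 ≤ Q → Q ≤ Q₀ → ∀ κ : ℝ, -1 ≤ κ → κ ≤ δ * Real.log Q₀ →
    ∀ (J : Finset (Fin r)) (H : ℝ), 0 < H → H ≤ Q₀ ^ (1 / 2 + (y + δ) + η) →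
    ∀ (d₁ d₂ : Eis) (h₁ : d₁ ≠ 0) (h₂ : d₂ ≠ 0),
      Q ≤ C₁ * Q₀ * (CJ r y Q₀ J * Real.exp κ / Q₀ ^ (y + δ)) →
    ∀ (t₁ t₂ : ℝ) (j : ℕ), 1 ≤ j → j ≤ L → ∀ c : Fin (j - 1) ⊕ Fin j → ℕ,
      |∑ i, (c (Sum.inl i) : ℝ) + ∑ i, (c (Sum.inr i) : ℝ) - Real.log Q| ≤ C₁ →
      (∀ i : Fin j, (c (Sum.inr i) : ℝ) ≤ Real.log Q / L + C₁) →
      ¬ NE a₀ A y w r Q₀ Q κ J H j c →
    ∀ qs : List Pq, List.Forall₂ (NrQ ρ) qs ((Il j r J).map (dsc h₁ h₂ r y Q₀ κ t₁ t₂ c)) →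
      BF P h (β * H) (qs.map (Pq.pc P)) ≤ C' * ((nm d₁ : ℝ) * nm d₂) ^ (ε / 2) *
        (1 + |t₁| + |t₂|) ^ (8 / δ') *
        TgB θ η (if δ / 2 * Real.log Q₀ ≤ κ then η else -η) (y + δ) Q₀ Q H
            (CJ r y Q₀ J * Real.exp κ) *
          costQ (8 / δ') qs ((Il j r J).map (dsc h₁ h₂ r y Q₀ κ t₁ t₂ c)) := by
  classical
  set E₁ : ℝ := N * (ρ + 1) + C₁ + 3 * r * r with hE₁
  have hE₁0 : 0 ≤ E₁ := by positivity
  set b : ℝ := |Real.log β| with hbdef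
  set E₂ : ℝ := 2 * E₁ + |Real.log C₁| + b with hE₂
  have hb0 : 0 ≤ b := abs_nonneg _
  have hE₂0 : 0 ≤ E₂ := by positivity
  set Ks : ℝ := |K₁| + |Real.log X₀| + 2 * E₂ / dt + 2 * (C₁ + ρ + 3 * r) / dt with hKs
  have hKs0 : 0 ≤ Ks := by positivity
  set C' : ℝ := 100 * C₀ ^ N * Real.exp E₂ * Real.exp (8 * Ks) * Real.exp (b + 1) with hC'
  have hC₀0 : 0 < C₀ := by linarith
  have hC'0 : 0 ≤ C' := by positivity
  refine ⟨C', hC'0, ?_⟩
  intro Q₀ Q hQ hQQ κ hκ1 hκ2 J H hH hH2 d₁ d₂ h₁ h₂ hQe t₁ t₂ j hj hjL c hc hc2 hNE qs hqs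
  have hQ₀1 : 1 ≤ Q₀ := hQ.trans hQQ
  have hQ₀0 : 0 < Q₀ := by linarith
  have hQ0 : 0 < Q := by linarith
  have hM0 : 0 ≤ 8 / δ' := by positivity
  set L₀ := Real.log Q₀ with hL₀
  have hL0 : 0 ≤ L₀ := Real.log_nonneg hQ₀1
  set ds := (Il j r J).map (dsc h₁ h₂ r y Q₀ κ t₁ t₂ c) with hds
  have hCJ : 0 < CJ r y Q₀ J * Real.exp κ := mul_pos (BoxP271.CJ_pos hQ₀0 J) (Real.exp_pos _)
  set Tb := TgB θ η (if δ / 2 * Real.log Q₀ ≤ κ then η else -η) (y + δ) Q₀ Q H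
    (CJ r y Q₀ J * Real.exp κ) with hTb
  have hη₂ : (if δ / 2 * Real.log Q₀ ≤ κ then η else -η) ≤ η := by split_ifs <;> linarith
  have hTb0 : 0 ≤ Tb := Box271.TgB_nonneg' hQ₀0.le hQ0.le hH.le hCJ.le
  have n1 : (1 : ℝ) ≤ nm d₁ := by exact_mod_cast nm_pos.2 h₁
  have n2 : (1 : ℝ) ≤ nm d₂ := by exact_mod_cast nm_pos.2 h₂
  have n12 : (1 : ℝ) ≤ (nm d₁ : ℝ) * nm d₂ := one_le_mul_of_one_le_of_one_le n1 n2
  set D := ((nm d₁ : ℝ) * nm d₂) ^ (ε / 2) with hD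
  have hD1 : 1 ≤ D := Real.one_le_rpow n12 (by positivity)
  have hT1 : 1 ≤ 1 + |t₁| + |t₂| := by linarith [abs_nonneg t₁, abs_nonneg t₂]
  set TM := (1 + |t₁| + |t₂|) ^ (8 / δ') with hTM
  have hTM1 : 1 ≤ TM := Real.one_le_rpow hT1 hM0
  have hco1 := one_le_costQ hM0 qs ds
  set co := costQ (8 / δ') qs ds with hco
  have hβH0 : 0 < β * H := mul_pos hβ hH
  -- lengths
  have hlen : qs.length ≤ N := by
    have h3 := hqs.length_eq
    rw [List.length_map] at h3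
    have h4 := Il_length j r J
    omega
  have hlends : (ds.length : ℝ) ≤ N := by
    have h3 := hqs.length_eq
    rw [← h3]; exact_mod_cast hlen
  -- the trivial region
  by_cases hsmall : β * H < 1
  · have : BF P h (β * H) (qs.map (Pq.pc P)) = 0 := by
      unfold BF
      have hbl : bl (β * H) = ∅ := by
        rw [Finset.eq_empty_iff_forall_notMem]
        intro k hk
        rw [mem_bl' hβH0.le] at hk
        have : (1 : ℝ) ≤ nm k := by exact_mod_cast nm_pos.2 hk.2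
        linarith [hk.1]
      rw [hbl, Finset.sum_empty]
    rw [this]
    positivity
  push Not at hsmall
  have hlC : Real.log (CJ r y Q₀ J * Real.exp κ) = y / r * J.card * L₀ + κ := log_CJ hQ₀0 J
  have hlC1 : -1 ≤ Real.log (CJ r y Q₀ J * Real.exp κ) := by
    rw [hlC]
    have : 0 ≤ y / r * J.card * L₀ := by positivity
    linarith
  have hone := one_le_TgB (θ := θ) (y := y) (δ := δ) (η := η)
    (η₂ := if δ / 2 * Real.log Q₀ ≤ κ then η else -η) (Q₀ := Q₀) (Q := Q) (H := H) (β := β)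
    (Cc := CJ r y Q₀ J * Real.exp κ) hθ hθ1 hy hδ (by linarith) hη₂ hQ₀1 hQ hH hβ hsmall hCJ hlC1
  rw [← hTb, ← hbdef] at hone
  -- lengths of the list
  have hdz : ∀ d ∈ ds, -1 ≤ d.z := dsc_z_ge h₁ h₂ hκ1 hy.le hQ₀1
  have hk1 := LM_keep hρ .mo hqs hdz
  have hk2 := LM_keep hρ .am hqs hdz
  have e1 : LM .mo ds = ∑ i, (c (.inl i) : ℝ) + ∑ i, (c (.inr i) : ℝ) :=
    LM_mo h₁ h₂ r y Q₀ κ t₁ t₂ c J
  have e2 : LM .am ds = κ + ∑ i ∈ J, B770.kap r y Q₀ i := LM_am h₁ h₂ r y Q₀ κ t₁ t₂ c J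
  have hNρ : (ds.length : ℝ) * (ρ + 1) ≤ N * (ρ + 1) := by
    have : 0 ≤ ρ + 1 := by linarith
    gcongr
  have hr3 : (0 : ℝ) ≤ 3 * r * r := by positivity
  have hmo : |LM .mo (keep qs) - Real.log Q| ≤ E₁ := by
    have h3 : LM .mo (keep qs) - Real.log Q = (LM .mo (keep qs) - LM .mo ds) +
      (∑ i, (c (.inl i) : ℝ) + ∑ i, (c (.inr i) : ℝ) - Real.log Q) := by rw [e1]; ring
    rw [h3]
    refine (abs_add_le _ _).trans ?_
    linarith
  have hkap : |∑ i ∈ J, B770.kap r y Q₀ i - y / r * J.card * L₀| ≤ 3 * r * r := by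
    have h3 : ∑ i ∈ J, B770.kap r y Q₀ i - y / r * J.card * L₀ = ∑ i ∈ J, 3 * ((i : ℕ) : ℝ) := by
      unfold B770.kap
      rw [Finset.sum_add_distrib, Finset.sum_const, nsmul_eq_mul]
      ring
    rw [h3, abs_of_nonneg (Finset.sum_nonneg fun i _ => by positivity)]
    have hcard : (J.card : ℝ) ≤ r := by
      have : J.card ≤ r := by simpa using J.card_le_univ
      exact_mod_cast this
    calc ∑ i ∈ J, 3 * ((i : ℕ) : ℝ) ≤ ∑ i ∈ J, 3 * (r : ℝ) := by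
          refine Finset.sum_le_sum fun i _ => ?_
          have : ((i : ℕ) : ℝ) ≤ r := by exact_mod_cast i.2.le
          linarith
      _ = J.card * (3 * r) := by rw [Finset.sum_const, nsmul_eq_mul]
      _ ≤ r * (3 * r) := by gcongr
      _ = 3 * r * r := by ring
  have ham : |LM .am (keep qs) - Real.log (CJ r y Q₀ J * Real.exp κ)| ≤ E₁ := by
    have h3 : LM .am (keep qs) - Real.log (CJ r y Q₀ J * Real.exp κ) =
      (LM .am (keep qs) - LM .am ds) + (∑ i ∈ J, B770.kap r y Q₀ i - y / r * J.card * L₀) := by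
      rw [e2, hlC]; ring
    rw [h3]
    refine (abs_add_le _ _).trans ?_
    linarith
  have hkp0 : ∀ t, 0 ≤ LM t (keep qs) := by
    intro t
    unfold LM
    refine List.sum_nonneg ?_
    intro x hx
    obtain ⟨q, hq, rfl⟩ := List.mem_map.1 hx
    split_ifs
    · exact (mem_keep.1 hq).2
    · exact le_rfl
  have hlQ1 : Real.log Q ≤ L₀ := Real.log_le_log hQ0 hQQ
  have hlH1 : Real.log H ≤ (1 / 2 + (y + δ) + η) * L₀ := by
    have := Real.log_le_log hH hH2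
    rwa [Real.log_rpow hQ₀0] at this
  have hlC2 : Real.log (CJ r y Q₀ J * Real.exp κ) ≤ (y + δ) * L₀ := by
    rw [hlC]
    have h1 : ((J.card : ℕ) : ℝ) ≤ r := by
      have : J.card ≤ r := by simpa using J.card_le_univ
      exact_mod_cast this
    have hr' : (0 : ℝ) < r := by exact_mod_cast hr
    have h2 : y / r * J.card ≤ y := by
      rw [div_mul_eq_mul_div, div_le_iff₀ hr']
      exact mul_le_mul_of_nonneg_left h1 hy.le
    have h3 : y / r * J.card * L₀ ≤ y * L₀ := mul_le_mul_of_nonneg_right h2 hL0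
    have h4 : (y + δ) * L₀ = y * L₀ + δ * L₀ := by ring
    rw [h4]; linarith
  have hlogβH : Real.log (β * H) ≤ b + Real.log H := by
    rw [Real.log_mul hβ.ne' hH.ne']
    linarith [le_abs_self (Real.log β)]
  have habsC := abs_nonneg (Real.log C₁)
  -- the trivial bound
  have htriv : BF P h (β * H) (qs.map (Pq.pc P)) ≤
      100 * C₀ ^ N * Real.exp E₂ * Real.exp (4 * L₀) := by
    rw [BF_eq P h hβH0]
    refine (Bc_triv hP hC₀ hb _ qs).trans ?_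
    have h3 : Real.log (β * H) + PL qs ≤ E₂ + 4 * L₀ := by
      rw [PL_eq]
      have u1 := (abs_le.1 hmo).2
      have u2 := (abs_le.1 ham).2
      have u3 : (1 / 2 + (y + δ) + η) * L₀ = L₀ / 2 + y * L₀ + δ * L₀ + η * L₀ := by ring
      have u4 : (y + δ) * L₀ = y * L₀ + δ * L₀ := by ring
      have u5 : y * L₀ ≤ 1 * L₀ := mul_le_mul_of_nonneg_right hy1 hL0
      have u6 : 16 * δ * L₀ ≤ 1 * L₀ := mul_le_mul_of_nonneg_right hδ3 hL0
      have u7 : 16 * η * L₀ ≤ 1 * L₀ := mul_le_mul_of_nonneg_right hη3 hL0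
      linarith
    calc 100 * C₀ ^ qs.length * Real.exp (Real.log (β * H) + PL qs)
        ≤ 100 * C₀ ^ N * Real.exp (E₂ + 4 * L₀) := by
          have := Real.exp_le_exp.2 h3
          have h5 : C₀ ^ qs.length ≤ C₀ ^ N := pow_le_pow_right₀ hC₀ hlen
          gcongr
      _ = _ := by rw [Real.exp_add]; ring
  -- how the trivial bound is used
  have huse : ∀ Z : ℝ, Real.exp (4 * L₀) ≤ Real.exp (8 * Ks) * Z → Z ≤ D * TM * co →
      BF P h (β * H) (qs.map (Pq.pc P)) ≤ C' * D * TM * Tb * co := by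
    intro Z hZ hZ2
    calc BF P h (β * H) (qs.map (Pq.pc P))
        ≤ 100 * C₀ ^ N * Real.exp E₂ * Real.exp (4 * L₀) * 1 := by rw [mul_one]; exact htriv
      _ ≤ 100 * C₀ ^ N * Real.exp E₂ * (Real.exp (8 * Ks) * (D * TM * co)) *
          (Real.exp (b + 1) * Tb) := by
          have h5 : Real.exp (4 * L₀) ≤ Real.exp (8 * Ks) * (D * TM * co) :=
            hZ.trans (mul_le_mul_of_nonneg_left hZ2 (Real.exp_pos _).le)
          have h6 : 0 ≤ Real.exp (8 * Ks) * (D * TM * co) := by positivity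
          gcongr
      _ = _ := by rw [hC']; ring
  have hDTc : 1 ≤ D * TM * co :=
    one_le_mul_of_one_le_of_one_le (one_le_mul_of_one_le_of_one_le hD1 hTM1) hco1
  have hDTM0 : 0 ≤ D * TM := by positivity
  -- large `Q₀`
  have hlX' : Real.log (Q₀ ^ (1 / 2 + y)) = (1 / 2 + y) * L₀ := Real.log_rpow hQ₀0 _
  set X := Q₀ ^ (1 / 2 + y) with hX
  have hX0 : 0 < X := Real.rpow_pos_of_pos hQ₀0 _
  have hyL : 0 ≤ y * L₀ := by positivity
  by_cases hK : Real.log X < Ks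
  · refine huse 1 ?_ hDTc
    rw [mul_one]
    refine Real.exp_le_exp.2 ?_
    rw [hlX'] at hK
    linarith
  push Not at hK
  have hKK : Ks ≤ Real.log X := hK
  have hexp8 : 1 ≤ Real.exp (8 * Ks) := Real.one_le_exp (by positivity)
  have hL2K : L₀ ≤ 2 * Real.log X := by rw [hlX']; linarith
  have hq1 : |K₁| ≤ Ks := by
    have : 0 ≤ 2 * E₂ / dt := by positivity
    have : 0 ≤ 2 * (C₁ + ρ + 3 * r) / dt := by positivity
    have := abs_nonneg (Real.log X₀)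
    linarith
  have hq2 : |Real.log X₀| ≤ Ks := by
    have : 0 ≤ 2 * E₂ / dt := by positivity
    have : 0 ≤ 2 * (C₁ + ρ + 3 * r) / dt := by positivity
    have := abs_nonneg K₁
    linarith
  have hq3 : 2 * E₂ ≤ dt * Ks := by
    have h5 : 2 * E₂ / dt ≤ Ks := by
      have : 0 ≤ 2 * (C₁ + ρ + 3 * r) / dt := by positivity
      have := abs_nonneg K₁
      have := abs_nonneg (Real.log X₀)
      linarith
    rw [div_le_iff₀ hdt] at h5
    linarith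
  have hq4 : 2 * (C₁ + ρ + 3 * r) ≤ dt * Ks := by
    have h5 : 2 * (C₁ + ρ + 3 * r) / dt ≤ Ks := by
      have : 0 ≤ 2 * E₂ / dt := by positivity
      have := abs_nonneg K₁
      have := abs_nonneg (Real.log X₀)
      linarith
    rw [div_le_iff₀ hdt] at h5
    linarith
  have hKpos : 0 < Real.log X := by
    have : 0 < Real.log X₀ := Real.log_pos hX₀
    have := le_abs_self (Real.log X₀)
    linarith
  have hX1 : 1 < X := (Real.log_pos_iff hX0.le).1 hKpos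
  have hXX₀ : X₀ ≤ X := by
    rw [← Real.log_le_log_iff (by linarith) hX0]
    exact (le_abs_self _).trans (hq2.trans hKK)
  have hL0' : 0 < L₀ := by
    rcases hL0.lt_or_eq with h | h
    · exact h
    · rw [← h, mul_zero] at hlX'; linarith
  have hQ₀1' : 1 < Q₀ := (Real.log_pos_iff hQ₀0.le).1 hL0'
  have hXs : X = Real.exp (Real.log X) := (Real.exp_log hX0).symm
  have hdtK : dt * Ks ≤ dt * Real.log X := mul_le_mul_of_nonneg_left hKK hdt.le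
  -- large moduli
  by_cases hmod : ∃ q ∈ keep qs, X ^ (16 / ε) < (nm q.d : ℝ)
  · obtain ⟨q, hq, hqd⟩ := hmod
    refine huse D ?_ ?_
    · have h5 : X ^ (16 / ε) ≤ (nm d₁ : ℝ) * nm d₂ :=
        hqd.le.trans (nm_d_le h₁ h₂ hqs q (mem_keep.1 hq).1)
      have h6 : (X ^ (16 / ε)) ^ (ε / 2) ≤ D :=
        Real.rpow_le_rpow (Real.rpow_nonneg hX0.le _) h5 (by positivity)
      have h7 : (X ^ (16 / ε)) ^ (ε / 2) = Real.exp (8 * Real.log X) := by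
        rw [← Real.rpow_mul hX0.le, Real.rpow_def_of_pos hX0]
        congr 1
        field_simp
        ring
      have h8 : Real.exp (4 * L₀) ≤ D := by
        refine le_trans (Real.exp_le_exp.2 ?_) (h7 ▸ h6)
        linarith
      exact h8.trans (le_mul_of_one_le_left (by positivity) hexp8)
    · calc D = D * 1 * 1 := by ring
        _ ≤ D * TM * co := by gcongr
  push Not at hmod
  -- large heights
  by_cases hht : ∃ q ∈ keep qs, X ^ δ' < 1 + |q.t|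
  · obtain ⟨q, hq, hqt⟩ := hht
    refine huse (TM * co) ?_ ?_
    · have h5 := height_le hM0 hT1 hqs (dsc_t_le h₁ h₂) q (mem_keep.1 hq).1
      rw [← hTM, ← hco] at h5
      have h6 : (X ^ δ') ^ (8 / δ') ≤ (1 + |q.t|) ^ (8 / δ') :=
        Real.rpow_le_rpow (Real.rpow_nonneg hX0.le _) hqt.le hM0
      have h7 : (X ^ δ') ^ (8 / δ') = Real.exp (8 * Real.log X) := by
        rw [← Real.rpow_mul hX0.le, Real.rpow_def_of_pos hX0]
        congr 1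
        field_simp
      have h8 : Real.exp (4 * L₀) ≤ TM * co := by
        refine le_trans (Real.exp_le_exp.2 ?_) ((h7 ▸ h6).trans h5)
        linarith
      exact h8.trans (le_mul_of_one_le_left (by positivity) hexp8)
    · calc TM * co = 1 * TM * co := by ring
        _ ≤ D * TM * co := by gcongr
  push Not at hht
  -- the main case
  have hgood : Dq.Good X δ' (16 / ε) (keep qs) := fun q hq =>
    ⟨hht q hq, hmod q hq, (mem_keep.1 hq).2⟩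
  have hgr : ∀ q ∈ keep qs, Dq.lump q ∨ Dq.nl X q ≤ dt := by
    intro q hq
    refine gran (Q := Q) (C₁ := C₁) (δ := δ) (L := L) h₁ h₂ hX1 hqs hκ2 hc2 ?_ ?_ ?_ q
      (mem_keep.1 hq).1
    · have h5 : Real.log Q / L ≤ L₀ * (1 / (L : ℝ)) := by
        rw [mul_one_div]
        exact div_le_div_of_nonneg_right hlQ1 (Nat.cast_nonneg _)
      have h6 : L₀ * (1 / (L : ℝ)) ≤ (2 * Real.log X) * (dt / 16) := by
        have : 1 / (L : ℝ) ≤ dt / 16 := by linarith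
        gcongr
      have h7 : (0 : ℝ) ≤ 3 * r := by positivity
      have h8 : 0 ≤ dt * Real.log X := by positivity
      linarith
    · have h6 : δ * L₀ ≤ (dt / 16) * (2 * Real.log X) := by
        have : δ ≤ dt / 16 := by linarith
        gcongr
      have h7 : (0 : ℝ) ≤ 3 * r := by positivity
      have h8 : 0 ≤ dt * Real.log X := by positivity
      linarith
    · have h6 : y / r * L₀ ≤ (dt / 16) * (2 * Real.log X) := by
        have : y / r ≤ dt / 16 := by linarith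
        gcongr
      have h8 : 0 ≤ dt * Real.log X := by positivity
      linarith
  have hal := hall d₁ d₂ h₁ h₂ r Q₀ Q κ t₁ t₂ H j c J qs X hH hX1 hlX'
    ((le_abs_self K₁).trans (hq1.trans hKK)) hqs hNE
  have hmain := box_main (θ := θ) (μ' := μ') (y := y) (dt := dt) (r := r) (δ := δ) (η := η)
    (P := P) (h := h) (X := X) (Q₀ := Q₀) (Q := Q) (H := H) (κ := κ) (C₁ := C₁) (ρ := ρ) (β := β)
    (E₁ := E₁) (J := J) (ps := keep qs) (N := N) (A := AL a₁ A' w) hθ hθ1 hμ hy hy1 hr hδ hη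
    (by linarith) (by linarith) hX1 hlX' hQ₀1' hQ hQQ hH hβ hsmall hH2 hκ2 hC₁ hQe hE₁0 (hkp0 _)
    (hkp0 _) hmo ham (by rw [← hbdef]; linarith) (fun hh q c' g1 g2 g3 g4 g5 g6 g7 g8 g9 g10 =>
      htop X hXX₀ _ (keep qs) ((keep_length qs).trans hlen) hgr hal hh q c' g1 g2 g3 g4 g5 g6 g7 g8
        g9 g10 hgood) hη₂
  rw [← hTb, ← hbdef] at hmain
  rw [BF_eq P h hβH0]
  have hkeep := Bc_keep hP hC₀ hb (Real.log (β * H)) qs
  have hBc0 : 0 ≤ Bc P h (Real.log (β * H)) (keep qs) := BQ_nonneg _ _ _ _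
  calc Bc P h (Real.log (β * H)) qs ≤ C₀ ^ qs.length * Bc P h (Real.log (β * H)) (keep qs) := hkeep
    _ ≤ C₀ ^ N * (Real.exp (2 * E₁ + b) * Tb) := by
        have h5 : C₀ ^ qs.length ≤ C₀ ^ N := pow_le_pow_right₀ hC₀ hlen
        exact mul_le_mul h5 hmain hBc0 (by positivity)
    _ ≤ C₀ ^ N * (Real.exp E₂ * Tb) := by
        have h5 : Real.exp (2 * E₁ + b) ≤ Real.exp E₂ := Real.exp_le_exp.2 (by linarith)
        gcongr
    _ = 1 * C₀ ^ N * Real.exp E₂ * 1 * 1 * (1 * Tb) := by ring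
    _ ≤ 100 * C₀ ^ N * Real.exp E₂ * Real.exp (8 * Ks) * Real.exp (b + 1) * (D * TM * co * Tb) := by
        have h5 : 1 ≤ Real.exp (b + 1) := Real.one_le_exp (by positivity)
        have h6 : (1 : ℝ) ≤ 100 := by norm_num
        gcongr
    _ = _ := by rw [hC']; ring

end one

end Crest.Agent.R017.BxE986
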