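import Crest.Agent.R017.BxE5_986

/-!
# Row 17, D.FIN: boxes from exponents (helper986), part 6: the theorem

* `BOXat_of_top` : `TopC` gives `BOXat` for all members of the family, outside `NE a₀ A y w r`,
  for all `r, δ, η, L` with `y / r, δ, η, 1 / L` small
* `evBox_of_top` : the form `EvBox` of helper271
-/

set_option autoImplicit false
set_option linter.unusedSectionVars false
set_option linter.unusedVariables false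

noncomputable section

open Complex Filter Topology
open scoped ComplexConjugate ContDiff

namespace Crest.Agent.R017.BxE986

open Crest.Agent.R012 Crest.Agent.R012.Eis Crest.Agent.R012.Mob705
open Crest.Agent.R012.LS2 (bl)
open Crest.Agent.R017.CM106 Crest.Agent.R017.FE47 Crest.Agent.R017.End699
open Crest.Agent.R017.HP842 Crest.Agent.R017.B770 Crest.Agent.R017.Sx545
open Crest.Agent.R017.Bx986 Crest.Agent.R017.Prov71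
open Crest.Agent.R017.XG702 (Pcs BG)
open Crest.Agent.R017.Cone59 (Tg)

/-- **the box inequality from the absolute theorem** -/
theorem BOXat_of_top {Λ : Type*} {θ μ' y a₀ a₁ A A' : ℝ} {w : Fin 5 → ℝ} (hθ : 0 ≤ θ)
    (hθ1 : θ ≤ 1) (hμ : 0 < μ') (hy : 0 < y) (hy1 : y ≤ 1) (hw : ∀ i, 0 ≤ w i) (ha₀ : 0 < a₀)
    (ha : a₀ < a₁) (hA : A < A') (hA'0 : 0 ≤ A') {π : Λ → DPar} (hπ : ∀ lam, (π lam).OK)
    {h : ℝ → ℝ} {c₀ : ℝ} (hpu : PU h c₀)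
    (ht : TopC θ (y / (1 / 2 + y)) μ' (AL a₁ A' w) π h) :
    ∃ d₀ : ℝ, 0 < d₀ ∧ ∀ (r : ℕ) (δ η : ℝ) (L : ℕ), 0 < r → y / r ≤ d₀ → 0 < δ → δ ≤ d₀ →
      0 < η → η ≤ d₀ → 1 ≤ L → 1 / (L : ℝ) ≤ d₀ → ∀ lam : Λ, BOXat θ r y δ η L (π lam)
        (fun Q₀ Q κ J H j c => ¬ NE a₀ A y w r Q₀ Q κ J H j c) := by
  obtain ⟨dt, hdt, ht⟩ := ht
  refine ⟨min (dt / 16) (min (μ' / 16) (1 / 16)), by positivity, ?_⟩
  intro r δ η L hr hyr hδ hδd hη hηd hL hLd lam ε C₁ hε hC₁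
  have m1 : min (dt / 16) (min (μ' / 16) (1 / 16)) ≤ dt / 16 := min_le_left _ _
  have m2 : min (dt / 16) (min (μ' / 16) (1 / 16)) ≤ μ' / 16 :=
    (min_le_right _ _).trans (min_le_left _ _)
  have m3 : min (dt / 16) (min (μ' / 16) (1 / 16)) ≤ 1 / 16 :=
    (min_le_right _ _).trans (min_le_right _ _)
  obtain ⟨R₀, hR₀⟩ := bump_of_cs hpu.cs
  set R := max R₀ 1 with hRdef
  have hR1 : 1 ≤ R := le_max_right _ _
  have hR : ∀ u, cx h u ≠ 0 → |u| ≤ R := fun u hu => (hR₀ u hu).trans (le_max_left _ _)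
  obtain ⟨δ', hδ', X₀, hX₀, htop⟩ := ht lam (2 * L + r + 1) (16 / ε)
  have hM0 : 0 ≤ 8 / δ' := by positivity
  obtain ⟨C, β, hC, hβ, hbx⟩ := bx_le (π lam) (hπ lam) hpu hR1 hR hM0 hC₁.le r L
    (ε := ε / 4) (by positivity)
  obtain ⟨C₀, hC₀, hb⟩ := norm_CS_pc_le hpu
  set ρ := 2 * R + C₁ with hρdef
  have hρ : 0 ≤ ρ := by positivity
  obtain ⟨K₁, hK₁, hall⟩ := allowed_keep (y := y) (ρ := ρ) hw ha₀ ha hA hA'0 hβ hρ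
  obtain ⟨C', hC', hone⟩ := one_list (θ := θ) (μ' := μ') (y := y) hθ hθ1 hμ hy hy1 (a₀ := a₀)
    (a₁ := a₁) (A := A) (A' := A') (w := w) hdt (hπ lam) hε hδ' hX₀ htop hC₀ hb hβ hρ hC₁
    (K₁ := K₁) hr hL le_rfl hall hδ hη (by linarith) (by linarith) (by linarith) (by linarith)
    (by linarith) (by linarith) (by linarith) (by linarith)
  refine ⟨C * β ^ (ε / 4) * C', 8 / δ', by positivity, hM0, ?_⟩
  intro Q₀ Q hQ hQQ κ hκ1 hκ2 J H hH hH2 d₁ d₂ d₃ e hd₁ hd₂ hd₃ he he5 hQe t₁ t₂ τ 𝒟 h𝒟 u hu z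
    hz hlz j hj hjL c hc hc2 hcls
  have hQ₀1 : 1 ≤ Q₀ := hQ.trans hQQ
  have hQ₀0 : 0 < Q₀ := by linarith
  have hQ0 : 0 < Q := by linarith
  have hCJ : 0 < CJ r y Q₀ J * Real.exp κ := mul_pos (BoxP271.CJ_pos hQ₀0 J) (Real.exp_pos _)
  set Tb := TgB θ η (if δ / 2 * Real.log Q₀ ≤ κ then η else -η) (y + δ) Q₀ Q H
    (CJ r y Q₀ J * Real.exp κ) with hTb
  have hTb0 : 0 ≤ Tb := Box271.TgB_nonneg' hQ₀0.le hQ0.le hH.le hCJ.le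
  have hne : (1 : ℝ) ≤ nm e := by exact_mod_cast nm_pos.2 he.1.ne_zero
  have n1 : (1 : ℝ) ≤ nm d₁ := by exact_mod_cast nm_pos.2 hd₁
  have n2 : (1 : ℝ) ≤ nm d₂ := by exact_mod_cast nm_pos.2 hd₂
  have n3 : (1 : ℝ) ≤ nm d₃ := by exact_mod_cast nm_pos.2 hd₃
  have n12 : (1 : ℝ) ≤ (nm d₁ : ℝ) * nm d₂ := one_le_mul_of_one_le_of_one_le n1 n2
  have hQe' : Q ≤ C₁ * Q₀ * (CJ r y Q₀ J * Real.exp κ / Q₀ ^ (y + δ)) :=
    (le_mul_of_one_le_right hQ0.le hne).trans hQe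
  have hT1 : 1 ≤ 1 + |t₁| + |t₂| := by linarith [abs_nonneg t₁, abs_nonneg t₂]
  set B₁ := C' * ((nm d₁ : ℝ) * nm d₂) ^ (ε / 2) * (1 + |t₁| + |t₂|) ^ (8 / δ') * Tb with hB₁
  have hB₁0 : 0 ≤ B₁ := by positivity
  have hmain := hbx Q₀ κ y J H hH d₁ d₂ d₃ e he.1 t₁ t₂ τ z 𝒟 (fun q hq => (h𝒟 q hq).1.1) u hu j
    hjL c B₁ hB₁0 (by
      intro ps hps
      have e1 := dsB_eq (π lam) hd₁ hd₂ r y Q₀ κ J t₁ t₂ c
      rw [e1] at hps ⊢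
      obtain ⟨qs, h1, h2, h3⟩ := exists_pq (π lam) (8 / δ') _ ps hps
      rw [h3, ← h1]
      exact hone Q₀ Q hQ hQQ κ hκ1 hκ2 J H hH hH2 d₁ d₂ hd₁ hd₂ hQe' t₁ t₂ j hj hjL c hc hc2 hcls
        qs h2)
  refine hmain.trans ?_
  -- the factor `(βH)^{ε/4}`
  have hβH : (β * H) ^ (ε / 4) ≤ β ^ (ε / 4) * Q₀ ^ (ε / 2) := by
    rw [Real.mul_rpow hβ.le hH.le]
    refine mul_le_mul_of_nonneg_left ?_ (by positivity)
    have h1 : H ≤ Q₀ ^ (2 : ℝ) := by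
      refine hH2.trans (Real.rpow_le_rpow_of_exponent_le hQ₀1 ?_)
      linarith
    calc H ^ (ε / 4) ≤ (Q₀ ^ (2 : ℝ)) ^ (ε / 4) := Real.rpow_le_rpow hH.le h1 (by positivity)
      _ = Q₀ ^ (ε / 2) := by rw [← Real.rpow_mul hQ₀0.le]; congr 1; ring
  have hX1 : ((nm d₁ : ℝ) * nm d₂) ^ (ε / 2) * Q₀ ^ (ε / 2) ≤
      ((nm d₁ : ℝ) * nm d₂ * nm d₃ * nm e * Q₀) ^ ε := by
    rw [← Real.mul_rpow (by positivity) hQ₀0.le]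
    have h1 : 1 ≤ (nm d₁ : ℝ) * nm d₂ * Q₀ := one_le_mul_of_one_le_of_one_le n12 hQ₀1
    have h2 : (nm d₁ : ℝ) * nm d₂ * Q₀ ≤ (nm d₁ : ℝ) * nm d₂ * nm d₃ * nm e * Q₀ := by
      have h3 : (1 : ℝ) ≤ (nm d₃ : ℝ) * nm e := one_le_mul_of_one_le_of_one_le n3 hne
      calc (nm d₁ : ℝ) * nm d₂ * Q₀ = (nm d₁ : ℝ) * nm d₂ * Q₀ * 1 := by ring
        _ ≤ (nm d₁ : ℝ) * nm d₂ * Q₀ * ((nm d₃ : ℝ) * nm e) := by gcongr
        _ = _ := by ring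
    calc ((nm d₁ : ℝ) * nm d₂ * Q₀) ^ (ε / 2) ≤ ((nm d₁ : ℝ) * nm d₂ * Q₀) ^ ε :=
          Real.rpow_le_rpow_of_exponent_le h1 (by linarith)
      _ ≤ _ := Real.rpow_le_rpow (by positivity) h2 hε.le
  have hT2 : (1 + |t₁| + |t₂|) ^ (8 / δ') ≤ (1 + |t₁| + |t₂| + |τ|) ^ (8 / δ') :=
    Real.rpow_le_rpow (by linarith) (by linarith [abs_nonneg τ]) hM0
  calc C * (β * H) ^ (ε / 4) * B₁ ≤ C * (β ^ (ε / 4) * Q₀ ^ (ε / 2)) * B₁ := by gcongr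
    _ = C * β ^ (ε / 4) * C' * (((nm d₁ : ℝ) * nm d₂) ^ (ε / 2) * Q₀ ^ (ε / 2)) *
        (1 + |t₁| + |t₂|) ^ (8 / δ') * Tb := by rw [hB₁]; ring
    _ ≤ _ := by
        have p1 : 0 ≤ C * β ^ (ε / 4) * C' := by positivity
        gcongr

/-- **the form of helper271** : `𝒫` = the class of the members of the family -/
theorem evBox_of_top {Λ : Type*} {θ μ' y a₀ a₁ A A' : ℝ} {w : Fin 5 → ℝ} (hθ : 0 ≤ θ)
    (hθ1 : θ ≤ 1) (hμ : 0 < μ') (hy : 0 < y) (hy1 : y ≤ 1) (hw : ∀ i, 0 ≤ w i) (ha₀ : 0 < a₀)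
    (ha : a₀ < a₁) (hA : A < A') (hA'0 : 0 ≤ A') {π : Λ → DPar} (hπ : ∀ lam, (π lam).OK)
    {h : ℝ → ℝ} {c₀ : ℝ} (hpu : PU h c₀)
    (ht : TopC θ (y / (1 / 2 + y)) μ' (AL a₁ A' w) π h) {Pk : DPar → Prop}
    (hPk : ∀ P : DPar, P.OK → Pk P → ∃ lam, π lam = P) :
    EvBox θ y Pk (fun r Q₀ Q κ J H j c => ¬ NE a₀ A y w r Q₀ Q κ J H j c) := by
  obtain ⟨d₀, hd₀, H⟩ := BOXat_of_top hθ hθ1 hμ hy hy1 hw ha₀ ha hA hA'0 hπ hpu ht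
  unfold EvBox
  have e1 : ∀ᶠ r : ℕ in atTop, y / (r : ℝ) ≤ d₀ := by
    have : Tendsto (fun r : ℕ => y / (r : ℝ)) atTop (𝓝 0) := tendsto_const_div_atTop_nhds_zero_nat y
    exact (this.eventually (gt_mem_nhds hd₀)).mono fun r hr => le_of_lt hr
  have e2 : ∀ᶠ L : ℕ in atTop, 1 / (L : ℝ) ≤ d₀ := by
    have : Tendsto (fun r : ℕ => 1 / (r : ℝ)) atTop (𝓝 0) := tendsto_const_div_atTop_nhds_zero_nat 1
    exact (this.eventually (gt_mem_nhds hd₀)).mono fun r hr => le_of_lt hr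
  have e3 : ∀ᶠ δ : ℝ in 𝓝[>] 0, 0 < δ ∧ δ ≤ d₀ := by
    have h1 : Set.Ioo (0 : ℝ) d₀ ∈ 𝓝[>] (0 : ℝ) := Ioo_mem_nhdsGT hd₀
    filter_upwards [h1] with δ hδ
    exact ⟨hδ.1, hδ.2.le⟩
  filter_upwards [e1, eventually_gt_atTop 0] with r hr1 hr0
  filter_upwards [e3] with δ hδ
  filter_upwards [e3] with η hη
  filter_upwards [e2, eventually_ge_atTop 1] with L hL1 hL0
  refine box3p_of_at fun P hP hP' => ?_
  obtain ⟨lam, rfl⟩ := hPk P hP hP'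
  exact H r δ η L hr0 hr1 hδ.1 hδ.2 hη.1 hη.2 hL0 hL1 lam

end Crest.Agent.R017.BxE986
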