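import Crest.Agent.R017.BxS_986

/-!
# Row 17, D.FIN: the signed bridge, conclusion (helper986)

* `bx_signed` : signed version, all weights kept
-/

set_option autoImplicit false
set_option linter.unusedSectionVars false
set_option linter.unusedVariables false

noncomputable section

open Complex MeasureTheory Filter Topology
open scoped ComplexConjugate ContDiff

namespace Crest.Agent.R017.Bx986

open Crest.Agent.R012 Crest.Agent.R012.Eis Crest.Agent.R012.Mob705
open Crest.Agent.R012.LS2 (bl)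
open Crest.Agent.R012.Weight600 (osc norm_osc ker)
open Crest.Agent.R012.PSer47 (IsChar)
open Crest.Agent.R012.Div277 (tau dvs mem_dvs tau_le_rpow)
open Crest.Agent.R017.CM106 Crest.Agent.R017.FE47 Crest.Agent.R017.End699
open Crest.Agent.R017.HSep813 Crest.Agent.R017.HP842 Crest.Agent.R017.B770
open Crest.Agent.R017.HB645 Crest.Agent.R017.Sup271 Crest.Agent.R017.Asm986
open Crest.Agent.R017.HBS271 Crest.Agent.R017.BoxP271

/-- **one Möbius piece, uniformly in the cut-off, signed** -/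
theorem sepS_mu {h : ℝ → ℝ} {c : ℝ} (hpu : PU h c) {R : ℝ} (hR1 : 1 ≤ R)
    (hR : ∀ u, cx h u ≠ 0 → |u| ≤ R) {M : ℝ} (hM : 0 ≤ M) :
    ∃ C : ℝ, 0 ≤ C ∧ ∀ {ξ ι : Type} (X : Finset ξ) (K : Finset ι) (k : ι → Eis) (d : Pc)
      (y z : ℝ) (N : ℕ), Real.log d.Y = y → Real.exp (Real.log d.Y + 3 * R) ≤ N →
      SepS h M (2 * R) C X K k (fun _ i => mval N d y z (k i)) d := by
  have hR0 : 0 ≤ R := by linarith
  have hhC : SWt hC R := ⟨swt_hC.cd, swt_hC.cs, fun u hu => (swt_hC.rad u hu).trans hR1⟩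
  obtain ⟨C1, hC1, h1⟩ := sepS_w hpu hR0 hR hhC (le_refl (0 : ℝ)) M
  obtain ⟨C2, hC2, h2⟩ := sum_int_le swt_cutF M
  refine ⟨C1 + C1 * C2, by positivity, ?_⟩
  intro ξ ι X K k d y z N hy hN a B hB hyp
  obtain ⟨A, hA⟩ : ∃ A, ∀ u, ‖hC u‖ ≤ A :=
    swt_hC.cs.exists_bound_of_continuous swt_hC.cd.continuous
  have hd : ∀ s : ℝ, ∑ x ∈ X, ‖∑ i ∈ K, a x i * gval hC N ⟨d.u, d.ψ, d.Y, d.t + s⟩ y (k i)‖ ≤
      C1 * (B * (1 + |s|) ^ M) := by
    intro s
    have h3 := h1 X K k ⟨d.u, d.ψ, d.Y, d.t + s⟩ (fun _ => y) N (fun i _ => by simp [hy])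
      (by simpa using hN)
    have h4 := h3 a (B * (1 + |s|) ^ M) (mul_nonneg hB (Real.rpow_nonneg (by positivity) _))
    refine h4 fun p hp => ?_
    have h5 := hyp p ⟨hp.u, hp.ψ, hp.Y0, by simpa using hp.near⟩
    refine h5.trans ?_
    rw [mul_assoc]
    refine mul_le_mul_of_nonneg_left ?_ hB
    rw [← Real.mul_rpow (by positivity) (by positivity)]
    refine Real.rpow_le_rpow (by positivity) ?_ hM
    have h6 : |p.t - d.t| ≤ |s| + |p.t - (d.t + s)| := by
      have : p.t - d.t = s + (p.t - (d.t + s)) := by ring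
      rw [this]
      exact abs_add_le _ _
    have h7 : 0 ≤ |s| * |p.t - (d.t + s)| := by positivity
    nlinarith
  rcases le_or_gt (y - Real.log z) (-6) with hcase | hcase
  · have e : ∀ i, mval N d y z (k i) = gval hC N ⟨d.u, d.ψ, d.Y, d.t + 0⟩ y (k i) := by
      intro i
      unfold mval gval
      refine Finset.sum_congr rfl fun b hb => ?_
      have e1 : φc ⟨d.u, d.ψ, d.Y, d.t + 0⟩ (k i) b = φc d (k i) b := rfl
      rw [e1]
      simp only [add_zero]
      by_cases hb0 : gg hC (Real.exp y) d.t b = 0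
      · rw [hb0]; ring
      · have h3 : |Real.log (nm b) - Real.log (Real.exp y)| ≤ 1 := by
          refine swt_hC.rad _ fun h0 => hb0 ?_
          unfold gg
          rw [h0, mul_zero]
        rw [Real.log_exp] at h3
        have h4 := (abs_le.1 h3).2
        rw [HB645.sg_of_le (by linarith)]
        simp
    have h3 := hd 0
    have e9 : (1 + |(0 : ℝ)|) ^ M = 1 := by simp
    rw [e9, mul_one] at h3
    have h4 : ∑ x ∈ X, ‖∑ i ∈ K, a x i * mval N d y z (k i)‖ =
        ∑ x ∈ X, ‖∑ i ∈ K, a x i * gval hC N ⟨d.u, d.ψ, d.Y, d.t + 0⟩ y (k i)‖ := by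
      refine Finset.sum_congr rfl fun x _ => ?_
      congr 1
      exact Finset.sum_congr rfl fun i _ => by rw [e i]
    have h5 : ∑ x ∈ X, ‖∑ i ∈ K, a x i * mval N d y z (k i)‖ ≤ C1 * B := h4.trans_le h3
    refine h5.trans ?_
    have : 0 ≤ C1 * C2 * B := by positivity
    nlinarith
  · have hki := Weight600.ker_integrable swt_cutF.cd swt_cutF.cs
    have hinv := Weight600.inversion_smooth swt_cutF.cd swt_cutF.cs
    have hcg : ∀ i, Continuous fun s : ℝ => gval hC N ⟨d.u, d.ψ, d.Y, d.t + s⟩ y (k i) := by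
      intro i
      unfold gval
      refine continuous_finsetSum _ fun b _ => ?_
      have e3 : (fun s : ℝ => φc ⟨d.u, d.ψ, d.Y, d.t + s⟩ (k i) b *
          gg hC (Real.exp y) (d.t + s) b) = fun s : ℝ => φc d (k i) b *
          gg hC (Real.exp y) (d.t + s) b := rfl
      show Continuous (fun s : ℝ => φc ⟨d.u, d.ψ, d.Y, d.t + s⟩ (k i) b *
          gg hC (Real.exp y) (d.t + s) b)
      rw [e3]
      exact continuous_const.mul ((continuous_gg hC (Real.exp y) b).comp
        (continuous_const.add continuous_id))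
    have e : ∀ i, mval N d y z (k i) = ∫ s : ℝ, (ker cutF s * osc s (-Real.log z)) *
        gval hC N ⟨d.u, d.ψ, d.Y, d.t + s⟩ y (k i) := by
      intro i
      have hterm : ∀ b ∈ primBall N, Integrable fun s : ℝ => (ker cutF s * osc s (-Real.log z)) *
          (φc d (k i) b * gg hC (Real.exp y) (d.t + s) b) := by
        intro b hb
        refine (integrable_mul_osc hki _).mul_bdd (c := ‖φc d (k i) b‖ * A)
          ((continuous_const.mul ((continuous_gg hC (Real.exp y) b).comp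
            (continuous_const.add continuous_id)))).aestronglyMeasurable
          (Eventually.of_forall fun u => ?_)
        rw [norm_mul]
        exact mul_le_mul_of_nonneg_left (norm_gg_le hA _ _ _) (norm_nonneg _)
      have e0 : ∀ s : ℝ, (ker cutF s * osc s (-Real.log z)) *
          gval hC N ⟨d.u, d.ψ, d.Y, d.t + s⟩ y (k i) = ∑ b ∈ primBall N,
          (ker cutF s * osc s (-Real.log z)) * (φc d (k i) b * gg hC (Real.exp y) (d.t + s) b) := by
        intro s
        unfold gval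
        rw [Finset.mul_sum]
        rfl
      simp_rw [e0]
      rw [integral_finsetSum _ hterm]
      unfold mval
      refine Finset.sum_congr rfl fun b hb => ?_
      have e1 : ∀ s : ℝ, (ker cutF s * osc s (-Real.log z)) *
          (φc d (k i) b * gg hC (Real.exp y) (d.t + s) b) =
          (ker cutF s * osc s (Real.log (nm b) - Real.log z)) *
            (φc d (k i) b * gg hC (Real.exp y) d.t b) := by
        intro s
        unfold gg
        rw [Weight600.osc_add_left]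
        have e2 : osc s (Real.log (nm b) - Real.log z) = osc s (Real.log (nm b)) *
            osc s (-Real.log z) := by
          rw [← Weight600.osc_add_right]; rfl
        rw [e2]
        ring
      simp_rw [e1]
      rw [integral_mul_const, hinv]
      by_cases hb0 : gg hC (Real.exp y) d.t b = 0
      · rw [hb0]; ring
      · have h3 : |Real.log (nm b) - Real.log (Real.exp y)| ≤ 1 := by
          refine swt_hC.rad _ fun h0 => hb0 ?_
          unfold gg
          rw [h0, mul_zero]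
        rw [Real.log_exp] at h3
        have h4 := (abs_le.1 h3).1
        rw [cutF_eq (by linarith)]
        ring
    have hint : ∀ i, Integrable fun s : ℝ => (ker cutF s * osc s (-Real.log z)) *
        gval hC N ⟨d.u, d.ψ, d.Y, d.t + s⟩ y (k i) := fun i =>
      (integrable_mul_osc hki _).mul_bdd (c := ∑ b ∈ primBall N, ‖φc d (k i) b‖ * A)
        (hcg i).aestronglyMeasurable
        (Eventually.of_forall fun s => norm_gval_le hA N ⟨d.u, d.ψ, d.Y, d.t + s⟩ y (k i))
    have h3 : ∀ x ∈ X, ‖∑ i ∈ K, a x i * mval N d y z (k i)‖ ≤ (1 : ℝ) * ∫ s : ℝ, ‖ker cutF s‖ *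
        ‖∑ i ∈ K, a x i * gval hC N ⟨d.u, d.ψ, d.Y, d.t + s⟩ y (k i)‖ := by
      intro x _
      have e5 : ∑ i ∈ K, a x i * mval N d y z (k i) = ∫ s : ℝ,
          (ker cutF s * osc s (-Real.log z)) *
            ∑ i ∈ K, a x i * gval hC N ⟨d.u, d.ψ, d.Y, d.t + s⟩ y (k i) := by
        calc ∑ i ∈ K, a x i * mval N d y z (k i)
            = ∑ i ∈ K, ∫ s : ℝ, a x i * ((ker cutF s * osc s (-Real.log z)) *
              gval hC N ⟨d.u, d.ψ, d.Y, d.t + s⟩ y (k i)) := by
              refine Finset.sum_congr rfl fun i _ => ?_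
              rw [e i, integral_const_mul]
          _ = _ := by
              rw [← integral_finsetSum _ fun i _ => (hint i).const_mul _]
              congr 1
              funext s
              rw [Finset.mul_sum]
              exact Finset.sum_congr rfl fun i _ => by ring
      rw [e5, one_mul]
      refine (norm_integral_le_integral_norm _).trans (le_of_eq ?_)
      congr 1
      funext s
      rw [norm_mul, norm_mul, norm_osc, mul_one]
    refine (Finset.sum_le_sum h3).trans ?_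
    have h4 := h2 X (fun _ => 1) (fun x s => ∑ i ∈ K, a x i *
        gval hC N ⟨d.u, d.ψ, d.Y, d.t + s⟩ y (k i)) (C1 * B) (fun _ => zero_le_one)
      (by positivity) (fun x => continuous_finsetSum _ fun i _ => continuous_const.mul (hcg i))
      (fun x => ⟨∑ i ∈ K, ‖a x i‖ * ∑ b ∈ primBall N, ‖φc d (k i) b‖ * A, fun s => by
        refine (norm_sum_le _ _).trans (Finset.sum_le_sum fun i _ => ?_)
        rw [norm_mul]
        exact mul_le_mul_of_nonneg_left
          (norm_gval_le hA N ⟨d.u, d.ψ, d.Y, d.t + s⟩ y (k i)) (norm_nonneg _)⟩) (fun s => by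
        have := hd s
        simp only [one_mul]
        calc _ ≤ C1 * (B * (1 + |s|) ^ M) := this
          _ = _ := by ring)
    refine h4.trans ?_
    have : 0 ≤ C1 * B := by positivity
    nlinarith

/-! ### the value lists -/

/-- values of the pieces of the Möbius sum -/
def VS (P : DPar) (d₂ : Eis) (t₂ z : ℝ) (N : ℕ) {j : ℕ} (c : Fin (j - 1) ⊕ Fin j → ℕ) :
    List ((Eis → Eis → ℂ) × Pc) :=
  (List.ofFn fun i : Fin (j - 1) =>
      ((fun _ k : Eis => gval hC N ⟨.one, χS P d₂, Real.exp (c (Sum.inl i)), t₂⟩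
        (c (Sum.inl i)) k), (⟨.one, χS P d₂, Real.exp (c (Sum.inl i)), t₂⟩ : Pc))) ++
    List.ofFn fun i : Fin j =>
      ((fun _ k : Eis => mval N ⟨.mu, χS P d₂, Real.exp (c (Sum.inr i)), t₂⟩
        (c (Sum.inr i)) z k), (⟨.mu, χS P d₂, Real.exp (c (Sum.inr i)), t₂⟩ : Pc))

/-- values of the (conjugated) pieces of the amplifier -/
def VA (P : DPar) (r : ℕ) (y Q₀ κ : ℝ) (u : Eis → ℝ) (J : Finset (Fin r)) (d₁ : Eis)
    (t₁ : ℝ) (N : ℕ) : List ((Eis → Eis → ℂ) × Pc) :=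
  ((fun q k : Eis => gval (fun v => conj (P.h₀ v)) N ⟨.sq, χA P d₁, Real.exp κ, -t₁⟩
      (κ - u q) k), (⟨.sq, χA P d₁, Real.exp κ, -t₁⟩ : Pc)) ::
    J.toList.map fun i =>
      ((fun _ k : Eis => gval (fun v => conj (P.h v)) N
        ⟨.pr, χA P d₁, Real.exp (kap r y Q₀ i), -t₁⟩ (kap r y Q₀ i) k),
        (⟨.pr, χA P d₁, Real.exp (kap r y Q₀ i), -t₁⟩ : Pc))

lemma VS_snd (P : DPar) (d₂ : Eis) (t₂ z : ℝ) (N : ℕ) {j : ℕ} (c : Fin (j - 1) ⊕ Fin j → ℕ) :
    (VS P d₂ t₂ z N c).map Prod.snd = dsS P d₂ t₂ c := by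
  unfold VS dsS
  simp only [List.map_append, List.map_ofFn]
  rfl

lemma VA_snd (P : DPar) (r : ℕ) (y Q₀ κ : ℝ) (u : Eis → ℝ) (J : Finset (Fin r)) (d₁ : Eis)
    (t₁ : ℝ) (N : ℕ) : (VA P r y Q₀ κ u J d₁ t₁ N).map Prod.snd = dsA P r y Q₀ κ J d₁ t₁ := by
  unfold VA dsA
  simp only [List.map_cons, List.map_map]
  rfl

lemma VS_length (P : DPar) (d₂ : Eis) (t₂ z : ℝ) (N : ℕ) {j : ℕ}
    (c : Fin (j - 1) ⊕ Fin j → ℕ) : (VS P d₂ t₂ z N c).length = (j - 1) + j := by
  unfold VS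
  simp

lemma VA_length (P : DPar) (r : ℕ) (y Q₀ κ : ℝ) (u : Eis → ℝ) (J : Finset (Fin r)) (d₁ : Eis)
    (t₁ : ℝ) (N : ℕ) : (VA P r y Q₀ κ u J d₁ t₁ N).length = J.card + 1 := by
  unfold VA
  simp

lemma VS_prod (P : DPar) (d₂ : Eis) (t₂ z : ℝ) (N : ℕ) {j : ℕ} (c : Fin (j - 1) ⊕ Fin j → ℕ)
    (hc : ∀ i, Real.exp (c i + 1) ≤ N) (q k : Eis) :
    ((VS P d₂ t₂ z N c).map fun x => x.1 q k).prod = GC (P.ch d₂ t₂ k) z c 0 := by
  unfold VS GC
  simp only [List.map_append, List.map_ofFn, List.prod_append, List.prod_ofFn,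
    Function.comp_apply]
  congr 1
  · exact Finset.prod_congr rfl fun i _ => by
      rw [PS_eq_gval P d₂ t₂ (Real.exp (c (Sum.inl i))) (c (Sum.inl i)) (hc _) k]
  · exact Finset.prod_congr rfl fun i _ => by
      rw [PM_eq_mval P d₂ t₂ (Real.exp (c (Sum.inr i))) z (c (Sum.inr i)) (hc _) k]

lemma VA_prod (P : DPar) (hP : P.OK) (r : ℕ) (y Q₀ κ : ℝ) (u : Eis → ℝ) (J : Finset (Fin r))
    (d₁ : Eis) (t₁ : ℝ) (N : ℕ) (hκ : ∀ q, Real.exp (κ - u q + 1) ≤ N)
    (hJ : ∀ i, Real.exp (kap r y Q₀ i + 1) ≤ N) (q k : Eis) :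
    ((VA P r y Q₀ κ u J d₁ t₁ N).map fun x => x.1 q k).prod =
      conj (P.am r y Q₀ (κ - u q) J d₁ t₁ k) := by
  unfold VA DPar.am Amp
  simp only [List.map_cons, List.map_map, List.prod_cons, map_mul, map_prod]
  rw [AS_eq_gval P hP.h₀ d₁ t₁ (Real.exp κ) (κ - u q) (hκ q) k]
  congr 1
  rw [Finset.prod_map_toList]
  refine Finset.prod_congr rfl fun i _ => ?_
  rw [AP_eq_gval P hP.h d₁ t₁ (Real.exp (kap r y Q₀ i)) (kap r y Q₀ i) (hJ i) k]
  rfl

/-! ### the signed bridge -/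

open Classical in
/-- **the signed bridge** -/
theorem bx_signed (P : DPar) (hP : P.OK) {h : ℝ → ℝ} {c₀ : ℝ} (hpu : PU h c₀) {R : ℝ}
    (hR1 : 1 ≤ R) (hR : ∀ u, cx h u ≠ 0 → |u| ≤ R) {M : ℝ} (hM : 0 ≤ M) {C₁ : ℝ} (hC₁ : 0 ≤ C₁)
    (r L : ℕ) : ∃ C : ℝ, 0 ≤ C ∧
    ∀ (Q₀ κ y : ℝ) (J : Finset (Fin r)) (H : ℝ), 0 < H →
    ∀ (d₁ d₂ d₃ e : Eis) (t₁ t₂ τ z : ℝ) (𝒟 : Finset Eis) (u : Eis → ℝ),
      (∀ q, 0 ≤ u q ∧ u q ≤ C₁) →
    ∀ j : ℕ, j ≤ L → ∀ (c : Fin (j - 1) ⊕ Fin j → ℕ) (B : ℝ), 0 ≤ B →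
      (∀ ps qs : List Pc, List.Forall₂ (Nr (2 * R + C₁)) ps (dsS P d₂ t₂ c) →
        List.Forall₂ (Nr (2 * R + C₁)) qs (dsA P r y Q₀ κ J d₁ t₁) →
        ∑ q ∈ 𝒟, ‖∑' k : Eis, if k ≠ 0 ∧ q ^ 2 ∣ k ∧ P.NP2 k then
          P.wk τ H k * (prin0 d₃ k * sy k e) * ((ps.map fun p => CS (pc h p) k).prod *
            conj ((qs.map fun p => CS (pc h p) k).prod)) else 0‖ ≤
          B * (cost M ps (dsS P d₂ t₂ c) * cost M qs (dsA P r y Q₀ κ J d₁ t₁))) →
      ∑ q ∈ 𝒟, ‖P.bx r y Q₀ (κ - u q) J H d₁ d₂ d₃ e t₁ t₂ τ z c q‖ ≤ C * B := by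
  have hR0 : 0 ≤ R := by linarith
  have hh0 : SWt (fun v => conj (P.h₀ v)) R :=
    let h := swt_conj (swt_of_hw hP.h₀); ⟨h.cd, h.cs, fun u hu => (h.rad u hu).trans hR1⟩
  have hh1 : SWt (fun v => conj (P.h v)) R :=
    let h := swt_conj (swt_of_hw hP.h); ⟨h.cd, h.cs, fun u hu => (h.rad u hu).trans hR1⟩
  have hhC : SWt hC R := ⟨swt_hC.cd, swt_hC.cs, fun u hu => (swt_hC.rad u hu).trans hR1⟩
  obtain ⟨A1, hA1, s1⟩ := sepS_w hpu hR0 hR hhC hC₁ M
  obtain ⟨A2, hA2, s2⟩ := sepS_mu hpu hR1 hR hM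
  obtain ⟨A3, hA3, s3⟩ := sepS_w hpu hR0 hR hh0 hC₁ M
  obtain ⟨A4, hA4, s4⟩ := sepS_w hpu hR0 hR hh1 hC₁ M
  obtain ⟨β, hβ, hβU⟩ := exists_supp hP.U
  set A := 1 + A1 + A2 + A3 + A4 with hA
  have hA1' : 1 ≤ A := by rw [hA]; linarith
  have hA0 : 0 ≤ A := by linarith
  refine ⟨A ^ (2 * L) * A ^ (r + 1), by positivity, ?_⟩
  intro Q₀ κ y J H hH d₁ d₂ d₃ e t₁ t₂ τ z 𝒟 u hu j hj c B hB hyp
  have hβH : 0 < β * H := mul_pos hβ hH
  obtain ⟨N, hN⟩ : ∃ N : ℕ, ∀ x ∈ (Finset.univ.image fun i => (c i : ℝ)) ∪ {κ} ∪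
      (Finset.univ.image fun i => kap r y Q₀ i), Real.exp (x + 3 * R + C₁) ≤ N := by
    obtain ⟨b, hb⟩ := ((Finset.univ.image fun i => (c i : ℝ)) ∪ {κ} ∪
      (Finset.univ.image fun i => kap r y Q₀ i)).bddAbove
    refine ⟨⌈Real.exp (b + 3 * R + C₁)⌉₊, fun x hx => ?_⟩
    refine le_trans (Real.exp_le_exp.2 ?_) (Nat.le_ceil _)
    have := hb (Finset.mem_coe.2 hx)
    linarith
  have hNc : ∀ i, Real.exp (c i + 3 * R + C₁) ≤ N := fun i => hN _ (by simp)
  have hNκ : Real.exp (κ + 3 * R + C₁) ≤ N := hN _ (by simp)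
  have hNJ : ∀ i, Real.exp (kap r y Q₀ i + 3 * R + C₁) ≤ N := fun i => hN _ (by simp)
  set K : Finset Eis := bl (β * H) with hK
  -- the coefficients
  set a : Eis → Eis → ℂ := fun q k => if k ≠ 0 ∧ q ^ 2 ∣ k ∧ P.NP2 k then
    P.wk τ H k * (prin0 d₃ k * sy k e) else 0 with ha
  have hzero : ∀ q k, k ∉ K → a q k = 0 := by
    intro q k hk
    rw [ha]
    dsimp only
    split_ifs with hc
    · have h2 : β * H < nm k := by
        by_contra h3
        exact hk ((mem_bl' hβH.le).2 ⟨not_lt.1 h3, hc.1⟩)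
      have h3 : P.U (nm k / H) = 0 := hβU _ (by rwa [lt_div_iff₀ hH])
      unfold DPar.wk
      rw [h3]
      simp
    · rfl
  have hts : ∀ (q : Eis) (F : Eis → ℂ), (∑' k : Eis, if k ≠ 0 ∧ q ^ 2 ∣ k ∧ P.NP2 k then
      P.wk τ H k * (prin0 d₃ k * sy k e) * F k else 0) = ∑ k ∈ K, a q k * F k := by
    intro q F
    rw [tsum_eq_sum (s := K)]
    · refine Finset.sum_congr rfl fun k _ => ?_
      rw [ha]
      dsimp only
      split_ifs <;> simp
    · intro k hk
      have h1 := hzero q k hk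
      rw [ha] at h1
      dsimp only at h1
      split_ifs with hc
      · rw [if_pos hc] at h1
        rw [h1, zero_mul]
      · rfl
  have hprodS := VS_prod P d₂ t₂ z N c (fun i => (Real.exp_le_exp.2 (by linarith)).trans (hNc i))
  have hprodA := VA_prod P hP r y Q₀ κ u J d₁ t₁ N
    (fun q => (Real.exp_le_exp.2 (by linarith [(hu q).1])).trans hNκ)
    (fun i => (Real.exp_le_exp.2 (by linarith)).trans (hNJ i))
  have h1 : ∑ q ∈ 𝒟, ‖P.bx r y Q₀ (κ - u q) J H d₁ d₂ d₃ e t₁ t₂ τ z c q‖ =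
      ∑ q ∈ 𝒟, ‖∑ k ∈ K, (a q k * conj (((VA P r y Q₀ κ u J d₁ t₁ N).map fun x => x.1 q k).prod)) *
        ((VS P d₂ t₂ z N c).map fun x => x.1 q k).prod‖ := by
    refine Finset.sum_congr rfl fun q _ => ?_
    unfold DPar.bx
    rw [hts q (fun k => P.am r y Q₀ (κ - u q) J d₁ t₁ k * GC (P.ch d₂ t₂ k) z c 0)]
    congr 1
    refine Finset.sum_congr rfl fun k _ => ?_
    rw [hprodS, hprodA, Complex.conj_conj]
    ring
  rw [h1]
  have hsepS : ∀ w ∈ VS P d₂ t₂ z N c, SepS h M (2 * R + C₁) A 𝒟 K (fun k => k) w.1 w.2 := by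
    intro w hw
    unfold VS at hw
    rw [List.mem_append, List.mem_ofFn', List.mem_ofFn'] at hw
    rcases hw with ⟨i, rfl⟩ | ⟨i, rfl⟩
    · exact (s1 𝒟 K (fun k => k) ⟨.one, χS P d₂, Real.exp (c (Sum.inl i)), t₂⟩
        (fun _ => (c (Sum.inl i) : ℝ)) N (fun _ _ => by simpa using hC₁)
        (by rw [Real.log_exp]; exact hNc _)).mono le_rfl (by rw [hA]; linarith)
    · exact (s2 𝒟 K (fun k => k) ⟨.mu, χS P d₂, Real.exp (c (Sum.inr i)), t₂⟩ (c (Sum.inr i)) z N
        (by simp) (by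
          rw [Real.log_exp]
          exact (Real.exp_le_exp.2 (by linarith)).trans (hNc (Sum.inr i)))).mono
        (by linarith) (by rw [hA]; linarith)
  have hsepA : ∀ w ∈ VA P r y Q₀ κ u J d₁ t₁ N,
      SepS h M (2 * R + C₁) A 𝒟 K (fun k => k) w.1 w.2 := by
    intro w hw
    unfold VA at hw
    rw [List.mem_cons, List.mem_map] at hw
    rcases hw with rfl | ⟨i, _, rfl⟩
    · exact (s3 𝒟 K (fun k => k) ⟨.sq, χA P d₁, Real.exp κ, -t₁⟩
        (fun q => κ - u q) N (fun q _ => by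
          rw [Real.log_exp]
          have := hu q
          rw [abs_le]
          constructor <;> linarith)
        (by rw [Real.log_exp]; exact hNκ)).mono le_rfl (by rw [hA]; linarith)
    · exact (s4 𝒟 K (fun k => k) ⟨.pr, χA P d₁, Real.exp (kap r y Q₀ i), -t₁⟩
        (fun _ => kap r y Q₀ i) N (fun _ _ => by simpa using hC₁)
        (by rw [Real.log_exp]; exact hNJ _)).mono le_rfl (by rw [hA]; linarith)
  have h2 := sepS_prod hA0 𝒟 K (fun k => k) (VS P d₂ t₂ z N c) hsepS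
    (fun q k => a q k * conj (((VA P r y Q₀ κ u J d₁ t₁ N).map fun x => x.1 q k).prod))
    (A ^ (VA P r y Q₀ κ u J d₁ t₁ N).length * B) (by positivity) (fun ps hps => by
      rw [VS_snd] at hps ⊢
      have h3 := sepS_prod hA0 𝒟 K (fun k => k) (VA P r y Q₀ κ u J d₁ t₁ N) hsepA
        (fun q k => conj (a q k * (ps.map fun p => CS (pc h p) k).prod))
        (B * cost M ps (dsS P d₂ t₂ c)) (mul_nonneg hB (cost_nonneg _ _ _)) (fun qs hqs => by
          rw [VA_snd] at hqs ⊢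
          have h4 := hyp ps qs hps hqs
          calc ∑ q ∈ 𝒟, ‖∑ k ∈ K, conj (a q k * (ps.map fun p => CS (pc h p) k).prod) *
                (qs.map fun p => CS (pc h p) k).prod‖
              = ∑ q ∈ 𝒟, ‖∑' k : Eis, if k ≠ 0 ∧ q ^ 2 ∣ k ∧ P.NP2 k then
                P.wk τ H k * (prin0 d₃ k * sy k e) * ((ps.map fun p => CS (pc h p) k).prod *
                  conj ((qs.map fun p => CS (pc h p) k).prod)) else 0‖ := by
                refine Finset.sum_congr rfl fun q _ => ?_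
                rw [hts q (fun k => (ps.map fun p => CS (pc h p) k).prod *
                  conj ((qs.map fun p => CS (pc h p) k).prod)), ← Complex.norm_conj, map_sum]
                congr 1
                refine Finset.sum_congr rfl fun k _ => ?_
                rw [map_mul, Complex.conj_conj]
                ring
            _ ≤ _ := h4
            _ = _ := by ring)
      calc ∑ q ∈ 𝒟, ‖∑ k ∈ K, a q k *
            conj (((VA P r y Q₀ κ u J d₁ t₁ N).map fun x => x.1 q k).prod) *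
            (ps.map fun p => CS (pc h p) k).prod‖
          = ∑ q ∈ 𝒟, ‖∑ k ∈ K, conj (a q k * (ps.map fun p => CS (pc h p) k).prod) *
            ((VA P r y Q₀ κ u J d₁ t₁ N).map fun x => x.1 q k).prod‖ := by
            refine Finset.sum_congr rfl fun q _ => ?_
            rw [← Complex.norm_conj, map_sum]
            congr 1
            refine Finset.sum_congr rfl fun k _ => ?_
            rw [map_mul, map_mul, Complex.conj_conj, map_mul]
            ring
        _ ≤ _ := h3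
        _ = _ := by ring)
  refine h2.trans ?_
  have hl1 : (VS P d₂ t₂ z N c).length ≤ 2 * L := by
    rw [VS_length]; omega
  have hl2 : (VA P r y Q₀ κ u J d₁ t₁ N).length ≤ r + 1 := by
    rw [VA_length]
    have : J.card ≤ r := by
      have := Finset.card_le_univ J
      rwa [Fintype.card_fin] at this
    omega
  calc A ^ (VS P d₂ t₂ z N c).length * (A ^ (VA P r y Q₀ κ u J d₁ t₁ N).length * B)
      ≤ A ^ (2 * L) * (A ^ (r + 1) * B) := by
        have i1 := pow_le_pow_right₀ hA1' hl1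
        have i2 := pow_le_pow_right₀ hA1' hl2
        gcongr
    _ = _ := by ring

end Crest.Agent.R017.Bx986
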