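import Crest.Agent.R017.BxE3_986
import Crest.Agent.R017.BxT_986
import Crest.Agent.R017.C70Defs_54
import Crest.Agent.R017.E5a_54

/-!
# Row 17, R8: the signed near-equal boxes, definitions and interfaces (helper54)

* `Vp P h k p` : value of a provider piece at `k` (amplifier pieces enter conjugated)
* `SgT` : the signed sum over all `k ≠ 0` with `q² ∣ k`, `NP2`; `SgA` : the same without `NP2`
* `SgP` : the signed sum over the primary `k` prime to `n`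
* `NearQ` : the near-equal condition on a list of provider pieces
* `TopS` : **the signed theorem** (interface with helper986: `TopS → BOX3c` on `NE`)
-/

set_option autoImplicit false

noncomputable section

open MeasureTheory Complex Set
open scoped ComplexConjugate ContDiff

namespace Crest.Agent.R017.E5T54

open Crest.Agent.R012 Crest.Agent.R012.Eis Crest.Agent.R012.Mob705 Crest.Agent.R012.Gauss880
open Crest.Agent.R017.CM106 Crest.Agent.R017.FE47 Crest.Agent.R017.End699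
open Crest.Agent.R017.Sx545 (Sm)
open Crest.Agent.R017.XG702 (Pcs BG)
open Crest.Agent.R017.HP842 (Pc pc)
open Crest.Agent.R017.ER911 Crest.Agent.R017.B770 Crest.Agent.R017.Prov71
open Crest.Agent.R017.Cone59 (Tg)

/-- value of a provider piece: amplifier pieces enter conjugated -/
def Vp (P : DPar) (h : ℝ → ℝ) (k : Eis) (p : Pq) : ℂ :=
  match p.kd with
  | .mo => CS (pc h (p.pc P)) k
  | .am => conj (CS (pc h (p.pc P)) k)

/-- product of the values of a list -/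
def VV (P : DPar) (h : ℝ → ℝ) (ps : List Pq) (k : Eis) : ℂ := (ps.map (Vp P h k)).prod

open Classical in
/-- **the signed sum** over the multiples of `q²` (neither character principal) -/
def SgT (P : DPar) (h : ℝ → ℝ) (τ H : ℝ) (d₃ e : Eis) (ps : List Pq) (q : Eis) : ℂ :=
  ∑' k : Eis, if k ≠ 0 ∧ q ^ 2 ∣ k ∧ P.NP2 k then
    P.wk τ H k * (prin0 d₃ k * sy k e) * VV P h ps k else 0

open Classical in
/-- all `k ≠ 0` -/
def SgA (P : DPar) (h : ℝ → ℝ) (τ H : ℝ) (d₃ e : Eis) (ps : List Pq) (q : Eis) : ℂ :=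
  ∑' k : Eis, if k ≠ 0 ∧ q ^ 2 ∣ k then
    P.wk τ H k * (prin0 d₃ k * sy k e) * VV P h ps k else 0

open Classical in
/-- primary `k` prime to `n`; the pieces are typed pieces: `ps` (Möbius side), `qs` (amplifier,
conjugated) -/
def SgP (n : Eis) (W : Eis → ℂ) (h : ℝ → ℝ) (d₃ e : Eis) (ps qs : List Pc) (q : Eis) : ℂ :=
  ∑' k : Eis, if IsPrim k ∧ IsCoprime k n ∧ q ^ 2 ∣ k then
    W k * (prin0 d₃ k * sy k e) * ((ps.map fun p => CS (pc h p) k).prod *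
      conj ((qs.map fun p => CS (pc h p) k).prod)) else 0

/-- five smooth pieces of the list (in antitone order) with `A k ≤ Σ wᵢ uᵢ` -/
def NearQ (A : ℝ) (w : Fin 5 → ℝ) (k X : ℝ) (ps : List Pq) : Prop :=
  ∃ (us : Fin 5 → Pq) (gs : List Pq), ps.Perm (List.ofFn us ++ gs) ∧ (∀ i, Dq.lump (us i)) ∧
    (∀ a b, a ≤ b → Dq.nl X (us b) ≤ Dq.nl X (us a)) ∧
    A * k ≤ ∑ i, w i * Dq.nl X (us i)

/-- **the signed theorem**: `ee` = exponent of the twist `e` (`p ∣ e → p⁵ ∣ e`). -/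
def TopS {Λ : Type*} (θ g μ' a₀ A : ℝ) (w : Fin 5 → ℝ) (π : Λ → DPar) (h : ℝ → ℝ) : Prop :=
  ∃ δ : ℝ, 0 < δ ∧ ∀ (lam : Λ) (N : ℕ) (B : ℝ), ∃ δ' : ℝ, 0 < δ' ∧ ∃ X₀ : ℝ, 1 < X₀ ∧
    ∀ X : ℝ, X₀ ≤ X → ∀ (H : ℝ), 0 < H → ∀ (ps : List Pq), ps.length ≤ N →
      (∀ p ∈ ps, Dq.lump p ∨ Dq.nl X p ≤ δ) → Dq.Good X δ' B ps →
      a₀ ≤ Real.log H / Real.log X → NearQ A w (Real.log H / Real.log X) X ps →
      ∀ (d₃ e : Eis), d₃ ≠ 0 → (nm d₃ : ℝ) ≤ X ^ B → Sm (π lam).n e →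
        (∀ p : Eis, Prime p → p ∣ e → p ^ 5 ∣ e) →
      ∀ τ : ℝ, 1 + |τ| ≤ X ^ δ' →
      ∀ 𝒟 : Finset Eis, (∀ q ∈ 𝒟, Sm (π lam).n q ∧ Squarefree q) →
      ∀ hh q c : ℝ, 0 ≤ hh → hh ≤ 1 → 0 ≤ q → q ≤ 2 - 2 * g → 0 ≤ c → c ≤ g →
        q + Real.log (nm e) / Real.log X - c ≤ 2 - 3 * g + δ →
        |Real.log H / Real.log X - hh| ≤ δ → |Dq.mass X ps .mo - q| ≤ δ →
        |Dq.mass X ps .am - c| ≤ δ →
        ∑ r ∈ 𝒟, ‖SgT (π lam) h τ H d₃ e ps r‖ ≤ X ^ (Tg θ g hh q c - μ')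

end Crest.Agent.R017.E5T54
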