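import Crest.Agent.R017.BxE5_986
import Crest.Agent.R017.BxT_986
import Crest.Agent.R017.E5T_54

/-!
# Row 17, P7 (helper986): signed boxes, part 1

* `CS_pc_neg` : pieces of negative length vanish if the bump lives on `(-∞, 0]`
* `exists_pu_neg` : such bumps exist
* `exists_pqS` : a pair of shifted lists is one list of provider pieces, `VV`
* `SgT_triv` : the trivial bound of the signed sums
-/

set_option autoImplicit false
set_option linter.unusedSectionVars false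
set_option linter.unusedVariables false

noncomputable section

open Complex Filter Topology
open scoped ComplexConjugate ContDiff

namespace Crest.Agent.R017.BxH986

open Crest.Agent.R012 Crest.Agent.R012.Eis Crest.Agent.R012.Mob705
open Crest.Agent.R012.LS2 (bl)
open Crest.Agent.R012.Div277 (tau dvs mem_dvs tau_le_rpow)
open Crest.Agent.R017.CM106 Crest.Agent.R017.FE47 Crest.Agent.R017.End699
open Crest.Agent.R017.HP842 Crest.Agent.R017.B770 Crest.Agent.R017.Sx545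
open Crest.Agent.R017.HBS271 Crest.Agent.R017.BoxP271
open Crest.Agent.R017.Bx986 Crest.Agent.R017.Prov71 Crest.Agent.R017.BxE986
open Crest.Agent.R017.XG702 (Pcs BG)
open Crest.Agent.R017.Cone59 (Tg)
open Crest.Agent.R017.E5T54

/-- the bump lives on `(-∞, 0]` -/
def Neg (h : ℝ → ℝ) : Prop := ∀ u, 0 < u → h u = 0

/-- one-sided bumps exist -/
theorem exists_pu_neg : ∃ (h : ℝ → ℝ) (c : ℝ), PU h c ∧ Neg h := by
  have hp := pu0
  obtain ⟨R, hR⟩ := hp.cs.isCompact.isBounded.subset_closedBall (0 : ℝ)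
  have h0 : ∀ u, |R| < u → h00 u = 0 := by
    intro u hu
    by_contra hne
    have h1 := hR (subset_tsupport _ hne)
    rw [Metric.mem_closedBall, dist_zero_right, Real.norm_eq_abs] at h1
    have := le_abs_self u
    have := le_abs_self R
    linarith
  refine ⟨fun u => h00 (u + |R|), 1, ⟨one_pos, ?_, ?_, ?_⟩, fun u hu => h0 _ (by linarith)⟩
  · exact hp.cd.comp (contDiff_id.add contDiff_const)
  · exact hp.cs.comp_homeomorph (Homeomorph.addRight |R|)
  · intro v hv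
    refine (tsum_congr fun n => ?_).trans (hp.one (v + |R|) (by positivity))
    congr 1
    ring

/-- pieces of negative length vanish -/
lemma CS_pc_neg {h : ℝ → ℝ} (hn : Neg h) {p : Pc} (hz : Real.log p.Y < 0) (k : Eis) :
    CS (pc h p) k = 0 := by
  unfold CM106.CS
  refine (tsum_congr fun b => ?_).trans tsum_zero
  unfold HP842.pc
  split_ifs with hb
  · have h1 : (1 : ℝ) ≤ nm b := by exact_mod_cast nm_pos.2 hb.ne_zero
    have h2 : HSep813.gw h p.Y p.t b = 0 := by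
      unfold HSep813.gw cx
      rw [hn _ (by linarith [Real.log_nonneg h1])]
      simp
    rw [h2]; ring
  · ring

/-! ### one list -/

/-- the indices of the Möbius side -/
def IlS (j r : ℕ) : List (Ix j r) :=
  (List.ofFn fun i : Fin (j - 1) => Sum.inl i) ++ List.ofFn fun i : Fin j => Sum.inr (Sum.inl i)

/-- the indices of the amplifier -/
def IlA (j r : ℕ) (J : Finset (Fin r)) : List (Ix j r) :=
  Sum.inr (Sum.inr none) :: J.toList.map fun i => Sum.inr (Sum.inr (some i))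

lemma Il_eq (j r : ℕ) (J : Finset (Fin r)) : Il j r J = IlS j r ++ IlA j r J := rfl

lemma dsS_eq (P : DPar) {d₁ d₂ : Eis} (h₁ : d₁ ≠ 0) (h₂ : d₂ ≠ 0) (r : ℕ) (y Q₀ κ : ℝ)
    (t₁ t₂ : ℝ) {j : ℕ} (c : Fin (j - 1) ⊕ Fin j → ℕ) :
    dsS P d₂ t₂ c = ((IlS j r).map (dsc h₁ h₂ r y Q₀ κ t₁ t₂ c)).map (Pq.pc P) := by
  have hS : χS P d₂ = fun b => chK P .mo b * prin0 d₂ b := rfl
  unfold dsS IlS
  simp only [List.map_append, List.map_ofFn, hS]
  rfl

lemma dsA_eq (P : DPar) {d₁ d₂ : Eis} (h₁ : d₁ ≠ 0) (h₂ : d₂ ≠ 0) (r : ℕ) (y Q₀ κ : ℝ)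
    (J : Finset (Fin r)) (t₁ t₂ : ℝ) {j : ℕ} (c : Fin (j - 1) ⊕ Fin j → ℕ) :
    dsA P r y Q₀ κ J d₁ t₁ = ((IlA j r J).map (dsc h₁ h₂ r y Q₀ κ t₁ t₂ c)).map (Pq.pc P) := by
  have hA : χA P d₁ = fun b => chK P .am b * prin0 d₁ b := rfl
  unfold dsA IlA
  simp only [List.map_cons, List.map_map, hA]
  rfl

lemma costQ_append (M : ℝ) : ∀ {a b a' b' : List Pq}, a.length = a'.length →
    costQ M (a ++ b) (a' ++ b') = costQ M a a' * costQ M b b' := by
  intro a b a' b' h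
  unfold costQ
  rw [List.zipWith_append h, List.prod_append]

lemma VV_append (P : DPar) (h : ℝ → ℝ) (ps qs : List Pq) (k : Eis) :
    VV P h (ps ++ qs) k = VV P h ps k * VV P h qs k := by
  unfold VV
  rw [List.map_append, List.prod_append]

lemma VV_mo (P : DPar) (h : ℝ → ℝ) (k : Eis) : ∀ {ps : List Pq}, (∀ p ∈ ps, p.kd = .mo) →
    VV P h ps k = ((ps.map (Pq.pc P)).map fun p => CS (pc h p) k).prod := by
  intro ps
  induction ps with
  | nil => intro _; simp [VV]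
  | cons p ps ih =>
    intro hp
    have h1 := ih fun q hq => hp q (List.mem_cons_of_mem _ hq)
    have h2 := hp p List.mem_cons_self
    unfold VV at h1 ⊢
    rw [List.map_cons, List.prod_cons, h1, List.map_cons, List.map_cons, List.prod_cons]
    congr 1
    unfold Vp
    rw [h2]

lemma VV_am (P : DPar) (h : ℝ → ℝ) (k : Eis) : ∀ {ps : List Pq}, (∀ p ∈ ps, p.kd = .am) →
    VV P h ps k = conj ((ps.map (Pq.pc P)).map fun p => CS (pc h p) k).prod := by
  intro ps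
  induction ps with
  | nil => intro _; simp [VV]
  | cons p ps ih =>
    intro hp
    have h1 := ih fun q hq => hp q (List.mem_cons_of_mem _ hq)
    have h2 := hp p List.mem_cons_self
    unfold VV at h1 ⊢
    rw [List.map_cons, List.prod_cons, h1, List.map_cons, List.map_cons, List.prod_cons, map_mul]
    congr 1
    unfold Vp
    rw [h2]

lemma kd_of_forall₂ {ρ : ℝ} {t : Kd} {qs ds : List Pq} (h : List.Forall₂ (NrQ ρ) qs ds)
    (hd : ∀ d ∈ ds, d.kd = t) : ∀ q ∈ qs, q.kd = t := by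
  intro q hq
  obtain ⟨d, hd', hR⟩ := forall₂_mem_left h hq
  rw [hR.kd, hd d hd']

/-- **a pair of shifted lists is one list of provider pieces** -/
lemma exists_pqS (P : DPar) {d₁ d₂ : Eis} (h₁ : d₁ ≠ 0) (h₂ : d₂ ≠ 0) (r : ℕ) (y Q₀ κ : ℝ)
    (J : Finset (Fin r)) (t₁ t₂ : ℝ) {j : ℕ} (c : Fin (j - 1) ⊕ Fin j → ℕ) {ρ : ℝ} (M : ℝ)
    {ps qs : List Pc} (hps : List.Forall₂ (Nr ρ) ps (dsS P d₂ t₂ c))
    (hqs : List.Forall₂ (Nr ρ) qs (dsA P r y Q₀ κ J d₁ t₁)) (h : ℝ → ℝ) :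
    ∃ Qs : List Pq, List.Forall₂ (NrQ ρ) Qs ((Il j r J).map (dsc h₁ h₂ r y Q₀ κ t₁ t₂ c)) ∧
      (∀ k, VV P h Qs k = (ps.map fun p => CS (pc h p) k).prod *
        conj ((qs.map fun p => CS (pc h p) k).prod)) ∧
      cost M ps (dsS P d₂ t₂ c) * cost M qs (dsA P r y Q₀ κ J d₁ t₁) =
        costQ M Qs ((Il j r J).map (dsc h₁ h₂ r y Q₀ κ t₁ t₂ c)) := by
  rw [dsS_eq P h₁ h₂ r y Q₀ κ t₁ t₂ c] at hps ⊢
  rw [dsA_eq P h₁ h₂ r y Q₀ κ J t₁ t₂ c] at hqs ⊢
  obtain ⟨Q1, a1, a2, a3⟩ := exists_pq P M _ ps hps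
  obtain ⟨Q2, b1, b2, b3⟩ := exists_pq P M _ qs hqs
  refine ⟨Q1 ++ Q2, ?_, fun k => ?_, ?_⟩
  · rw [Il_eq, List.map_append]
    exact List.rel_append a2 b2
  · rw [VV_append, VV_mo P h k (kd_of_forall₂ a2 ?_), VV_am P h k (kd_of_forall₂ b2 ?_), a1, b1]
    · intro d hd
      obtain ⟨x, hx, rfl⟩ := List.mem_map.1 hd
      unfold IlA at hx
      rw [List.mem_cons, List.mem_map] at hx
      rcases hx with rfl | ⟨i, _, rfl⟩ <;> rfl
    · intro d hd
      obtain ⟨x, hx, rfl⟩ := List.mem_map.1 hd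
      unfold IlS at hx
      rw [List.mem_append, List.mem_ofFn, List.mem_ofFn] at hx
      rcases hx with ⟨i, rfl⟩ | ⟨i, rfl⟩ <;> rfl
  · rw [a3, b3, Il_eq, List.map_append, costQ_append M a2.length_eq]

/-! ### trivial bounds -/

lemma norm_Vp (P : DPar) (h : ℝ → ℝ) (k : Eis) (p : Pq) : ‖Vp P h k p‖ = ‖CS (pc h (p.pc P)) k‖ := by
  unfold Vp
  cases p.kd
  · rfl
  · simp

lemma VV_zero {P : DPar} {h : ℝ → ℝ} (hn : Neg h) {ps : List Pq} (hp : ∃ p ∈ ps, p.z < 0)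
    (k : Eis) : VV P h ps k = 0 := by
  obtain ⟨p, hp, hz⟩ := hp
  unfold VV
  refine List.prod_eq_zero ?_
  rw [List.mem_map]
  refine ⟨p, hp, ?_⟩
  rw [← norm_eq_zero, norm_Vp, CS_pc_neg hn (by rw [Pq.pc_Y, Real.log_exp]; exact hz), norm_zero]

lemma norm_VV_le {P : DPar} (hP : P.OK) {h : ℝ → ℝ} {C : ℝ} (hC : 1 ≤ C)
    (hb : ∀ p : Pc, p.OK → ∀ k : Eis, ‖CS (pc h p) k‖ ≤ C * max 1 p.Y) (k : Eis) :
    ∀ ps : List Pq, ‖VV P h ps k‖ ≤ C ^ ps.length * Real.exp (PL ps) := by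
  intro ps
  induction ps with
  | nil => simp [VV, PL]
  | cons p ps ih =>
    have e : PL (p :: ps) = max 0 p.z + PL ps := by simp [PL]
    have e2 : VV P h (p :: ps) k = Vp P h k p * VV P h ps k := by simp [VV]
    rw [e, e2, norm_mul, norm_Vp, List.length_cons, pow_succ, Real.exp_add]
    have h1 := hb (p.pc P) (Pq.ok hP p) k
    have h2 : max 1 (p.pc P).Y ≤ Real.exp (max 0 p.z) := by
      rw [Pq.pc_Y]
      refine max_le (Real.one_le_exp (le_max_left _ _)) (Real.exp_le_exp.2 (le_max_right _ _))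
    calc ‖CS (pc h (p.pc P)) k‖ * ‖VV P h ps k‖
        ≤ (C * Real.exp (max 0 p.z)) * (C ^ ps.length * Real.exp (PL ps)) := by
          refine mul_le_mul (h1.trans ?_) ih (norm_nonneg _) (by positivity)
          gcongr
      _ = _ := by ring

open Classical in
/-- **the trivial bound of the signed sums** -/
theorem SgT_triv (P : DPar) (hP : P.OK) {h : ℝ → ℝ} {C₀ : ℝ} (hC₀ : 1 ≤ C₀)
    (hb : ∀ p : Pc, p.OK → ∀ k : Eis, ‖CS (pc h p) k‖ ≤ C₀ * max 1 p.Y) :
    ∃ C β : ℝ, 0 ≤ C ∧ 0 < β ∧ ∀ (τ H : ℝ), 0 < H → ∀ (d₃ e : Eis), IsPrim e →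
      ∀ (𝒟 : Finset Eis), (∀ q ∈ 𝒟, IsPrim q) → ∀ ps : List Pq,
      ∑ q ∈ 𝒟, ‖SgT P h τ H d₃ e ps q‖ ≤ C * (β * H) ^ (2 : ℝ) * (C₀ ^ ps.length *
        Real.exp (PL ps)) ∧ (β * H < 1 → ∑ q ∈ 𝒟, ‖SgT P h τ H d₃ e ps q‖ = 0) := by
  obtain ⟨β, hβ, hβU⟩ := exists_supp hP.U
  obtain ⟨BU, hBU0, hBU⟩ := sw_bdd hP.U
  obtain ⟨Cτ, hCτ, hτ⟩ := tau_le_rpow (one_pos : (0 : ℝ) < 1)
  set W : ℝ := nm P.n₃ * BU with hW
  have hW0 : 0 ≤ W := by positivity
  refine ⟨W * Cτ * 16, β, by positivity, hβ, ?_⟩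
  intro τ H hH d₃ e he 𝒟 h𝒟 ps
  have hβH : 0 < β * H := mul_pos hβ hH
  set T := C₀ ^ ps.length * Real.exp (PL ps) with hT
  have hT0 : 0 ≤ T := by positivity
  have hV : ∀ k, ‖VV P h ps k‖ ≤ T := fun k => norm_VV_le hP hC₀ hb k ps
  have e0 : ∀ q, SgT P h τ H d₃ e ps q = ∑ k ∈ bl (β * H), if k ≠ 0 ∧ q ^ 2 ∣ k ∧ P.NP2 k then
      P.wk τ H k * (prin0 d₃ k * sy k e) * VV P h ps k else 0 := by
    intro q
    unfold SgT
    refine tsum_eq_sum fun k hk => ?_
    split_ifs with hc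
    · have h2 : β * H < nm k := by
        by_contra h3
        exact hk ((mem_bl' hβH.le).2 ⟨not_lt.1 h3, hc.1⟩)
      have h3 : P.U (nm k / H) = 0 := hβU _ (by rwa [lt_div_iff₀ hH])
      unfold DPar.wk
      rw [h3]
      simp
    · rfl
  constructor
  · have h1 : ∀ q ∈ 𝒟, ‖SgT P h τ H d₃ e ps q‖ ≤ ∑ k ∈ bl (β * H),
        if q ^ 2 ∣ k then W * T else 0 := by
      intro q hq
      rw [e0]
      refine (norm_sum_le _ _).trans (Finset.sum_le_sum fun k hk => ?_)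
      rw [mem_bl' hβH.le] at hk
      by_cases hc : k ≠ 0 ∧ q ^ 2 ∣ k ∧ P.NP2 k
      · rw [if_pos hc, if_pos hc.2.1, norm_mul, norm_mul, norm_mul]
        have w1 := norm_wk_le P hP hBU τ H hk.2
        have w2 : ‖prin0 d₃ k‖ ≤ 1 := by
          unfold prin0; split_ifs <;> simp
        have w3 := norm_sy_le' k e he
        have w4 : ‖P.wk τ H k‖ * (‖prin0 d₃ k‖ * ‖sy k e‖) ≤ W * (1 * 1) := by
          rw [hW]; gcongr
        calc _ ≤ W * (1 * 1) * T := mul_le_mul w4 (hV k) (norm_nonneg _) (by positivity)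
          _ = _ := by ring
      · rw [if_neg hc, norm_zero]
        split_ifs <;> positivity
    refine (Finset.sum_le_sum h1).trans ?_
    rw [Finset.sum_comm]
    have h2 : ∀ k ∈ bl (β * H), (∑ q ∈ 𝒟, if q ^ 2 ∣ k then W * T else 0) ≤
        Cτ * (β * H) ^ (1 : ℝ) * (W * T) := by
      intro k hk
      rw [mem_bl' hβH.le] at hk
      rw [← Finset.sum_filter, Finset.sum_const, nsmul_eq_mul]
      refine mul_le_mul_of_nonneg_right ?_ (by positivity)
      have h6 : (𝒟.filter (fun q => q ^ 2 ∣ k)) ⊆ dvs k := by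
        intro q hq
        rw [Finset.mem_filter] at hq
        rw [mem_dvs hk.2]
        exact ⟨h𝒟 q hq.1, (dvd_pow_self q two_ne_zero).trans hq.2⟩
      have h7 : ((𝒟.filter (fun q => q ^ 2 ∣ k)).card : ℝ) ≤ tau k := by
        unfold Div277.tau
        exact_mod_cast Finset.card_le_card h6
      refine h7.trans ((hτ k hk.2).trans ?_)
      have : (nm k : ℝ) ^ (1 : ℝ) ≤ (β * H) ^ (1 : ℝ) :=
        Real.rpow_le_rpow (by positivity) hk.1 zero_le_one
      gcongr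
    refine (Finset.sum_le_sum h2).trans ?_
    rw [Finset.sum_const, nsmul_eq_mul]
    have h3 := CR2.card_bl_le hβH.le
    calc ((bl (β * H)).card : ℝ) * (Cτ * (β * H) ^ (1 : ℝ) * (W * T))
        ≤ (16 * (β * H)) * (Cτ * (β * H) ^ (1 : ℝ) * (W * T)) :=
          mul_le_mul_of_nonneg_right h3 (by positivity)
      _ = _ := by
          rw [Real.rpow_one, Real.rpow_two]; ring
  · intro hsmall
    have hbl : bl (β * H) = ∅ := by
      rw [Finset.eq_empty_iff_forall_notMem]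
      intro k hk
      rw [mem_bl' hβH.le] at hk
      have : (1 : ℝ) ≤ nm k := by exact_mod_cast nm_pos.2 hk.2
      linarith [hk.1]
    refine Finset.sum_eq_zero fun q _ => ?_
    rw [e0, hbl, Finset.sum_empty, norm_zero]

end Crest.Agent.R017.BxH986
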