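import Crest.Agent.R017.BxH1_986

/-!
# Row 17, P7 (helper986): signed boxes, part 2

* `exists_sort` : sorting is a contraction
* `near_of_NE` : near-equal boxes have near-equal lists
* `box_mainS` : the exponents
-/

set_option autoImplicit false
set_option linter.unusedSectionVars false
set_option linter.unusedVariables false

noncomputable section

open Complex Filter Topology
open scoped ComplexConjugate ContDiff

namespace Crest.Agent.R017.BxH986

open Crest.Agent.R012 Crest.Agent.R012.Eis Crest.Agent.R012.Mob705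
open Crest.Agent.R017.FE47 Crest.Agent.R017.End699
open Crest.Agent.R017.B770 Crest.Agent.R017.Sx545
open Crest.Agent.R017.Bx986 Crest.Agent.R017.Prov71 Crest.Agent.R017.BxE986
open Crest.Agent.R017.XG702 (Pcs BG)
open Crest.Agent.R017.Cone59 (Tg)
open Crest.Agent.R017.E5T54

/-- **sorting is a contraction** -/
lemma exists_sort {n : ℕ} {ρ : ℝ} (u c : Fin n → ℝ) (hc : ∀ a b, a ≤ b → c b ≤ c a)
    (h : ∀ i, |u i - c i| ≤ ρ) : ∃ σ : Equiv.Perm (Fin n),
      (∀ a b, a ≤ b → u (σ b) ≤ u (σ a)) ∧ ∀ i, c i - ρ ≤ u (σ i) := by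
  set σ := Tuple.sort fun i => -u i with hσ
  have hmon : ∀ a b, a ≤ b → u (σ b) ≤ u (σ a) := by
    intro a b hab
    have h1 := Tuple.monotone_sort (fun i => -u i) hab
    simp only [Function.comp_apply] at h1
    linarith
  refine ⟨σ, hmon, fun i => ?_⟩
  by_contra hlt
  push Not at hlt
  have hinj : (Finset.Iic i).card ≤ (Finset.Iio i).card := by
    refine Finset.card_le_card_of_injOn (fun a => σ.symm a) (fun a ha => ?_)
      (fun a _ b _ hab => σ.symm.injective hab)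
    have ha' : a ≤ i := by simpa using ha
    have h1 := (abs_le.1 (h a)).1
    have h2 := hc a i ha'
    simp only [Finset.coe_Iio, Set.mem_Iio]
    by_contra h3
    push Not at h3
    have h4 := hmon i (σ.symm a) h3
    rw [Equiv.apply_symm_apply] at h4
    linarith
  have h5 : (Finset.Iio i).card < (Finset.Iic i).card := by
    refine Finset.card_lt_card ⟨fun x hx => ?_, fun h => ?_⟩
    · rw [Finset.mem_Iio] at hx; rw [Finset.mem_Iic]; exact hx.le
    · have := h (Finset.mem_Iic.2 le_rfl)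
      rw [Finset.mem_Iio] at this
      exact lt_irrefl _ this
  omega

lemma forall₂_append_right {α β : Type*} {R : α → β → Prop} : ∀ {m m' : List β} {l : List α},
    List.Forall₂ R l (m ++ m') → ∃ l₁ l₂, l = l₁ ++ l₂ ∧ List.Forall₂ R l₁ m ∧
      List.Forall₂ R l₂ m'
  | [], m', l, h => ⟨[], l, rfl, List.Forall₂.nil, h⟩
  | b :: m, m', l, h => by
    rw [List.cons_append, List.forall₂_cons_right_iff] at h
    obtain ⟨a, l', h1, h2, rfl⟩ := h
    obtain ⟨l₁, l₂, h3, h4, h5⟩ := forall₂_append_right h2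
    exact ⟨a :: l₁, l₂, by rw [h3]; rfl, List.Forall₂.cons h1 h4, h5⟩

lemma forall₂_ofFn {α β : Type*} {R : α → β → Prop} : ∀ {n : ℕ} {f : Fin n → β} {l : List α},
    List.Forall₂ R l (List.ofFn f) → ∃ g : Fin n → α, l = List.ofFn g ∧ ∀ i, R (g i) (f i)
  | 0, f, l, h => by
    rw [List.ofFn_zero, List.forall₂_nil_right_iff] at h
    subst h
    exact ⟨fun i => i.elim0, by simp, fun i => i.elim0⟩
  | n + 1, f, l, h => by
    rw [List.ofFn_succ, List.forall₂_cons_right_iff] at h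
    obtain ⟨a, l', h1, h2, rfl⟩ := h
    obtain ⟨g, h3, h4⟩ := forall₂_ofFn h2
    refine ⟨Fin.cons a g, ?_, fun i => ?_⟩
    · rw [List.ofFn_succ, h3]; simp
    · refine Fin.cases ?_ (fun i => ?_) i
      · simpa using h1
      · simpa using h4 i

lemma perm_ofFn_sub {α : Type*} {n m : ℕ} (u : Fin m → α) {s : Fin n → Fin m}
    (hs : Function.Injective s) : ∃ gs : List α, (List.ofFn u).Perm (List.ofFn (u ∘ s) ++ gs) := by
  have h1 : (List.ofFn s).Subperm (List.finRange m) := by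
    refine List.subperm_of_subset ((List.nodup_ofFn).2 hs) fun x _ => List.mem_finRange x
  obtain ⟨l, hl1, hl2⟩ := h1
  obtain ⟨gs, hgs⟩ := hl2.exists_perm_append
  refine ⟨gs.map u, ?_⟩
  have e1 : (List.finRange m).map u = List.ofFn u := (List.ofFn_eq_map).symm
  have e2 : (List.ofFn s).map u = List.ofFn (u ∘ s) := by rw [List.map_ofFn]
  have h3 := hgs.map u
  rw [e1, List.map_append] at h3
  rw [← e2]
  exact h3.trans ((hl1.map u).append_right _)

/-- **near-equal boxes have near-equal lists** -/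
theorem near_of_NE {a₀ A A₀ y ρ : ℝ} {w : Fin 5 → ℝ} (hw : ∀ i, 0 ≤ w i) (ha₀ : 0 < a₀)
    (hA : A₀ < A) (hρ : 0 ≤ ρ) : ∃ K₁ : ℝ, 0 < K₁ ∧
    ∀ (d₁ d₂ : Eis) (h₁ : d₁ ≠ 0) (h₂ : d₂ ≠ 0) (r : ℕ) (Q₀ Q κ t₁ t₂ H : ℝ) (j : ℕ)
      (c : Fin (j - 1) ⊕ Fin j → ℕ) (J : Finset (Fin r)) (qs : List Pq) (X : ℝ),
      1 < X → Real.log X = (1 / 2 + y) * Real.log Q₀ → K₁ ≤ Real.log X →
      List.Forall₂ (NrQ ρ) qs ((Il j r J).map (dsc h₁ h₂ r y Q₀ κ t₁ t₂ c)) →
      NE a₀ A y w r Q₀ Q κ J H j c →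
      a₀ ≤ Real.log H / Real.log X ∧ NearQ A₀ w (Real.log H / Real.log X) X qs := by
  have hAA : 0 < A - A₀ := by linarith
  refine ⟨ρ * (∑ i, w i) / ((A - A₀) * a₀) + 1, by
    have : 0 ≤ ∑ i, w i := Finset.sum_nonneg fun i _ => hw i
    positivity, ?_⟩
  intro d₁ d₂ h₁ h₂ r Q₀ Q κ t₁ t₂ H j c J qs X hX hlX hK hqs hNE
  obtain ⟨hH, s, hs, hanti, hsum⟩ := hNE
  have hK0 : 0 < Real.log X := Real.log_pos hX
  rw [← hlX] at hH
  refine ⟨by rwa [le_div_iff₀ hK0], ?_⟩
  have hIl : Il j r J = (List.ofFn fun i : Fin (j - 1) => (Sum.inl i : Ix j r)) ++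
      ((List.ofFn fun i : Fin j => (Sum.inr (Sum.inl i) : Ix j r)) ++ IlA j r J) := by
    rw [Il_eq]; unfold IlS; rw [List.append_assoc]
  rw [hIl, List.map_append, List.map_ofFn] at hqs
  obtain ⟨l₁, l₂, hl, hl1, hl2⟩ := forall₂_append_right hqs
  obtain ⟨u, hu, hu2⟩ := forall₂_ofFn hl1
  obtain ⟨gs, hgs⟩ := perm_ofFn_sub u hs
  obtain ⟨σ, hσ1, hσ2⟩ := exists_sort (ρ := ρ) (fun a => (u (s a)).z)
    (fun a => (c (.inl (s a)) : ℝ)) (fun a b hab => by exact_mod_cast hanti a b hab)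
    (fun a => (hu2 (s a)).z)
  refine ⟨fun a => u (s (σ a)), gs ++ l₂, ?_, fun i => ?_, fun a b hab => ?_, ?_⟩
  · rw [hl, hu, ← List.append_assoc]
    refine List.Perm.append_right l₂ (hgs.trans ?_)
    refine List.Perm.append_right gs ?_
    exact (Equiv.Perm.ofFn_comp_perm σ (u ∘ s)).symm
  · have := hu2 (s (σ i))
    rw [Dq_lump]
    exact ⟨this.kd, this.u⟩
  · unfold Pcs.nl
    exact div_le_div_of_nonneg_right (hσ1 a b hab) hK0.le
  · have h1 : ∑ i, w i * ((c (.inl (s i)) : ℝ) - ρ) ≤ ∑ i, w i * (u (s (σ i))).z :=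
      Finset.sum_le_sum fun i _ => mul_le_mul_of_nonneg_left (hσ2 i) (hw i)
    have h2 : ∑ i, w i * ((c (.inl (s i)) : ℝ) - ρ) =
        (∑ i, w i * (c (.inl (s i)) : ℝ)) - ρ * ∑ i, w i := by
      rw [Finset.mul_sum, ← Finset.sum_sub_distrib]
      exact Finset.sum_congr rfl fun i _ => by ring
    have h3 : ρ * (∑ i, w i) ≤ (A - A₀) * Real.log H := by
      have h4 : ρ * (∑ i, w i) / ((A - A₀) * a₀) ≤ Real.log X := by linarith
      rw [div_le_iff₀ (by positivity)] at h4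
      calc ρ * (∑ i, w i) ≤ Real.log X * ((A - A₀) * a₀) := h4
        _ = (A - A₀) * (a₀ * Real.log X) := by ring
        _ ≤ _ := mul_le_mul_of_nonneg_left hH hAA.le
    have h5 : A₀ * Real.log H ≤ ∑ i, w i * (u (s (σ i))).z := by
      have : A₀ * Real.log H = A * Real.log H - (A - A₀) * Real.log H := by ring
      linarith
    have h6 : ∑ i, w i * Dq.nl X (u (s (σ i))) = (∑ i, w i * (u (s (σ i))).z) / Real.log X := by
      rw [Finset.sum_div]
      refine Finset.sum_congr rfl fun i _ => ?_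
      unfold Pcs.nl
      rw [Dq_len]; ring
    rw [h6, ← mul_div_assoc]
    exact div_le_div_of_nonneg_right h5 hK0.le

/-! ### one box -/

/-- **one shifted list, main case, signed** -/
theorem box_mainS {θ μ' y : ℝ} (hθ : 0 ≤ θ) (hθ1 : θ ≤ 1) (hμ : 0 < μ') (hy : 0 < y)
    (hy1 : y ≤ 1) {dt : ℝ} {r : ℕ} {δ η : ℝ} (hr : 0 < r) (hδ : 0 < δ) (hη : 0 < η)
    (h8 : 8 * (δ + η) ≤ dt) (h9 : 8 * (δ + η) ≤ μ')
    {X Q₀ Q H κ C₁ E₁ Ee S : ℝ} {J : Finset (Fin r)} {ps : List Pq}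
    (hX : 1 < X) (hlX : Real.log X = (1 / 2 + y) * Real.log Q₀) (hQ₀ : 1 < Q₀) (hQ : 1 ≤ Q)
    (hQQ : Q ≤ Q₀) (hH : 0 < H) (hlH0 : 0 ≤ Real.log H)
    (hH2 : H ≤ Q₀ ^ (1 / 2 + (y + δ) + η)) (hκ : κ ≤ δ * Real.log Q₀)
    (hC₁ : 0 < C₁) (hEe : 0 ≤ Ee)
    (hQe : Real.log Q + Ee ≤ |Real.log C₁| + Real.log Q₀ +
      Real.log (CJ r y Q₀ J * Real.exp κ) - (y + δ) * Real.log Q₀)
    (hE₁ : 0 ≤ E₁) (hmo0 : 0 ≤ LM .mo ps) (ham0 : 0 ≤ LM .am ps)
    (hmo : |LM .mo ps - Real.log Q| ≤ E₁)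
    (ham : |LM .am ps - Real.log (CJ r y Q₀ J * Real.exp κ)| ≤ E₁)
    (hbig : 2 * (2 * E₁ + |Real.log C₁|) ≤ dt * Real.log X)
    (htop : ∀ hh q c : ℝ, 0 ≤ hh → hh ≤ 1 → 0 ≤ q → q ≤ 2 - 2 * (y / (1 / 2 + y)) → 0 ≤ c →
      c ≤ y / (1 / 2 + y) → q + Ee / Real.log X - c ≤ 2 - 3 * (y / (1 / 2 + y)) + dt →
        |Real.log H / Real.log X - hh| ≤ dt → |Dq.mass X ps .mo - q| ≤ dt →
        |Dq.mass X ps .am - c| ≤ dt → S ≤ X ^ (Tg θ (y / (1 / 2 + y)) hh q c - μ'))
    {η₂ : ℝ} (hη₂ : η₂ ≤ η) :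
    S ≤ Real.exp (2 * E₁) *
      TgB θ η η₂ (y + δ) Q₀ Q H (CJ r y Q₀ J * Real.exp κ) := by
  set L₀ := Real.log Q₀ with hL₀
  set K := Real.log X with hK
  set g := y / (1 / 2 + y) with hg
  have hy2 : (0 : ℝ) < 1 / 2 + y := by linarith
  have hL0 : 0 < L₀ := Real.log_pos hQ₀
  have hK0 : 0 < K := Real.log_pos hX
  have hQ₀' : 0 < Q₀ := by linarith
  have hX0 : 0 < X := by linarith
  have hdt : 0 < dt := by linarith
  have hCJ : 0 < CJ r y Q₀ J * Real.exp κ := mul_pos (BoxP271.CJ_pos hQ₀' J) (Real.exp_pos _)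
  have hKg : K * g = y * L₀ := by
    have hne : (1 / 2 + y : ℝ) ≠ 0 := hy2.ne'
    rw [hlX, hg, mul_comm, ← mul_assoc, div_mul_cancel₀ _ hne]
  have hg0 : 0 < g := by positivity
  have hg1 : g < 1 := by rw [hg, div_lt_one hy2]; linarith
  set lH := Real.log H with hlH
  set lQ := Real.log Q with hlQ
  set lC := Real.log (CJ r y Q₀ J * Real.exp κ) with hlC
  have hlQ0 : 0 ≤ lQ := Real.log_nonneg hQ
  have hlQ1 : lQ ≤ L₀ := Real.log_le_log (by linarith) hQQ
  have hlH1 : lH ≤ (1 / 2 + (y + δ) + η) * L₀ := by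
    have := Real.log_le_log hH hH2
    rwa [Real.log_rpow hQ₀'] at this
  have hlC1 : lC ≤ (y + δ) * L₀ := by
    rw [hlC, log_CJ hQ₀' J]
    have h1 : ((J.card : ℕ) : ℝ) ≤ r := by
      have : J.card ≤ r := by simpa using J.card_le_univ
      exact_mod_cast this
    have hr' : (0 : ℝ) < r := by exact_mod_cast hr
    have h2 : y / r * J.card ≤ y := by
      rw [div_mul_eq_mul_div, div_le_iff₀ hr']
      exact mul_le_mul_of_nonneg_left h1 hy.le
    have h3 : y / r * J.card * L₀ ≤ y * L₀ := mul_le_mul_of_nonneg_right h2 hL0.le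
    have h4 : (y + δ) * L₀ = y * L₀ + δ * L₀ := by ring
    rw [h4]; linarith
  -- the point of the domain
  set k := lH / K with hk
  have hk0 : 0 ≤ k := div_nonneg hlH0 hK0.le
  have hkK : K * k = lH := by rw [hk]; field_simp
  set mq := LM .mo ps / K with hmq
  set ma := LM .am ps / K with hma
  have hmqK : K * mq = LM .mo ps := by rw [hmq]; field_simp
  have hmaK : K * ma = LM .am ps := by rw [hma]; field_simp
  have hmq0 : 0 ≤ mq := div_nonneg hmo0 hK0.le
  have hma0 : 0 ≤ ma := div_nonneg ham0 hK0.le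
  set c := min g ma with hc
  set q := min mq (2 - 2 * g) with hq
  set hh := min 1 k with hhh
  have hc0 : 0 ≤ c := le_min hg0.le hma0
  have hyL : 0 ≤ y * L₀ := by positivity
  have hL2K : L₀ ≤ 2 * K := by rw [hlX]; linarith
  have hLK : 2 * ((δ + η) * L₀) ≤ dt / 2 * K := by
    have h2 : 2 * ((δ + η) * L₀) ≤ 2 * ((δ + η) * (2 * K)) := by gcongr
    have h3 : 8 * (δ + η) * K ≤ dt * K := mul_le_mul_of_nonneg_right h8 hK0.le
    linarith
  have hδη : 0 ≤ (δ + η) * L₀ := by positivity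
  have hδL : 0 ≤ δ * L₀ := by positivity
  have hηL : 0 ≤ η * L₀ := by positivity
  have habsC := abs_nonneg (Real.log C₁)
  have u3 : (y + δ) * L₀ = y * L₀ + δ * L₀ := by ring
  have u2 : (δ + η) * L₀ = δ * L₀ + η * L₀ := by ring
  have u0 : 2 * K = L₀ + 2 * (y * L₀) := by rw [hlX]; ring
  have amo := abs_le.1 hmo
  have aam := abs_le.1 ham
  -- distances
  have dk : |k - hh| ≤ dt := by
    rw [hhh]
    rcases le_total 1 k with h1 | h1
    · rw [min_eq_left h1, abs_of_nonneg (by linarith)]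
      have : K * (k - 1) ≤ K * dt := by
        rw [mul_sub, hkK, mul_one]
        have e : (1 / 2 + (y + δ) + η) * L₀ = K + (δ + η) * L₀ := by rw [hlX]; ring
        rw [mul_comm K dt]
        linarith
      exact le_of_mul_le_mul_left this hK0
    · rw [min_eq_right h1, sub_self, abs_zero]; exact hdt.le
  have dc : |ma - c| ≤ dt := by
    rw [hc]
    rcases le_total g ma with h1 | h1
    · rw [min_eq_left h1, abs_of_nonneg (by linarith)]
      have : K * (ma - g) ≤ K * dt := by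
        rw [mul_sub, hmaK, hKg, mul_comm K dt]
        linarith
      exact le_of_mul_le_mul_left this hK0
    · rw [min_eq_right h1, sub_self, abs_zero]; exact hdt.le
  have hmqle : mq - (2 - 2 * g) ≤ dt := by
    have : K * (mq - (2 - 2 * g)) ≤ K * dt := by
      have e : K * (mq - (2 - 2 * g)) = K * mq - 2 * K + 2 * (K * g) := by ring
      rw [e, hmqK, hKg, mul_comm K dt]
      linarith
    exact le_of_mul_le_mul_left this hK0
  have dq : |mq - q| ≤ dt := by
    have h1 : q ≤ mq := min_le_left _ _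
    rw [abs_of_nonneg (by linarith)]
    rw [hq]
    rcases le_total mq (2 - 2 * g) with h2 | h2
    · rw [min_eq_left h2, sub_self]; exact hdt.le
    · rw [min_eq_right h2]; exact hmqle
  have hq1 : q ≤ 2 - 2 * g := min_le_right _ _
  have hq0 : 0 ≤ q := le_min hmq0 (by linarith)
  have hqm : K * q ≤ LM .mo ps := by
    calc K * q ≤ K * mq := mul_le_mul_of_nonneg_left (min_le_left _ _) hK0.le
      _ = _ := hmqK
  have hcone : q + Ee / K - c ≤ 2 - 3 * g + dt := by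
    have : K * (q + Ee / K - c) ≤ K * (2 - 3 * g + dt) := by
      have e1 : K * (q + Ee / K - c) = K * q + Ee - K * c := by
        field_simp
      have e2 : K * (2 - 3 * g + dt) = 2 * K - 3 * (K * g) + dt * K := by ring
      rw [e1, e2, hKg]
      rcases le_total g ma with h1 | h1
      · have : K * c = y * L₀ := by rw [hc, min_eq_left h1, hKg]
        rw [this]
        linarith
      · have : K * c = LM .am ps := by rw [hc, min_eq_right h1, hmaK]
        rw [this]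
        linarith
    exact le_of_mul_le_mul_left this hK0
  have ht := htop hh q c (le_min zero_le_one hk0) (min_le_left _ _) hq0 hq1 hc0 (min_le_left _ _)
    hcone dk (by rw [mass_eq hX]; exact dq) (by rw [mass_eq hX]; exact dc)
  refine ht.trans ?_
  have e1 : X ^ (Tg θ g hh q c - μ') = Real.exp (TL θ y L₀ (K * hh) (K * q) (K * c) - K * μ') := by
    rw [Real.rpow_def_of_pos hX0, ← hK, mul_sub]
    have := Tg_eq (θ := θ) (y := y) (L₀ := L₀) (hh := hh) (q := q) (c := c) hy2 hL0.le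
    rw [← hlX, ← hg] at this
    rw [this]
  rw [e1]
  have m1 : K * hh ≤ lH + 0 := by
    calc K * hh ≤ K * k := mul_le_mul_of_nonneg_left (min_le_right _ _) hK0.le
      _ = lH := hkK
      _ ≤ _ := by linarith
  have m2 : K * q ≤ lQ + E₁ := by linarith
  have m3 : K * c ≤ lC + E₁ := by
    calc K * c ≤ K * ma := mul_le_mul_of_nonneg_left (min_le_right _ _) hK0.le
      _ = LM .am ps := hmaK
      _ ≤ _ := by linarith
  have t1 := TL_mono (θ := θ) (y₀ := y) (L₀ := L₀) hθ m1 m2 m3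
  have t2 := TL_shift (θ := θ) (y₀ := y) (L₀ := L₀) (lH := lH) (lQ := lQ) (lC := lC) hθ hθ1
    (le_refl (0 : ℝ)) hE₁ hE₁
  have t3 := TL_y (θ := θ) (y := y) (δ := δ) (L₀ := L₀) (lH := lH) (lQ := lQ) (lC := lC) hθ hθ1
    hδ.le hL0.le
  have t4 := TgB_ge (θ := θ) (y₀ := y + δ) (η₁ := η) (η₂ := η₂) (η := η) (Q₀ := Q₀) (Q := Q)
    (H := H) (Cc := CJ r y Q₀ J * Real.exp κ) le_rfl hη₂ hQ₀.le (by linarith) hH hCJ
  rw [← hL₀, ← hlH, ← hlQ, ← hlC] at t4
  have hgain : 3 * δ * L₀ - K * μ' ≤ -(η * L₀) := by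
    have h2 : 8 * (δ + η) * K ≤ μ' * K := mul_le_mul_of_nonneg_right h9 hK0.le
    have h3 : δ * L₀ ≤ δ * (2 * K) := mul_le_mul_of_nonneg_left hL2K hδ.le
    have h4 : η * L₀ ≤ η * (2 * K) := mul_le_mul_of_nonneg_left hL2K hη.le
    have h5 : 0 ≤ δ * K := by positivity
    have h6 : 0 ≤ η * K := by positivity
    linarith
  calc Real.exp (TL θ y L₀ (K * hh) (K * q) (K * c) - K * μ')
      ≤ Real.exp (2 * E₁ + (TL θ (y + δ) L₀ lH lQ lC - η * L₀)) :=
        Real.exp_le_exp.2 (by linarith)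
    _ = Real.exp (2 * E₁) * Real.exp (TL θ (y + δ) L₀ lH lQ lC - η * L₀) := Real.exp_add _ _
    _ ≤ _ := mul_le_mul_of_nonneg_left t4 (Real.exp_pos _).le

end Crest.Agent.R017.BxH986
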