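import Crest.Agent.R017.BxH2_986

/-!
# Row 17, P7 (helper986): signed boxes, part 3: one shifted list
-/

set_option autoImplicit false
set_option linter.unusedSectionVars false
set_option linter.unusedVariables false

noncomputable section

open Complex Filter Topology
open scoped ComplexConjugate ContDiff

namespace Crest.Agent.R017.BxH986

open Crest.Agent.R012 Crest.Agent.R012.Eis Crest.Agent.R012.Mob705
open Crest.Agent.R017.CM106 Crest.Agent.R017.FE47 Crest.Agent.R017.End699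
open Crest.Agent.R017.HP842 Crest.Agent.R017.B770 Crest.Agent.R017.Sx545
open Crest.Agent.R017.Bx986 Crest.Agent.R017.Prov71 Crest.Agent.R017.BxE986
open Crest.Agent.R017.XG702 (Pcs BG)
open Crest.Agent.R017.Cone59 (Tg)
open Crest.Agent.R017.E5T54

/-- the signed theorem at one `P`, one `N`, one `B` -/
def TopAt (θ g μ' a₀ A : ℝ) (w : Fin 5 → ℝ) (P : DPar) (h : ℝ → ℝ) (N : ℕ) (B dt δ' X₀ : ℝ) :
    Prop :=
  ∀ X : ℝ, X₀ ≤ X → ∀ (H : ℝ), 0 < H → ∀ (ps : List Pq), ps.length ≤ N →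
    (∀ p ∈ ps, Dq.lump p ∨ Dq.nl X p ≤ dt) → Dq.Good X δ' B ps →
    a₀ ≤ Real.log H / Real.log X → NearQ A w (Real.log H / Real.log X) X ps →
    ∀ (d₃ e : Eis), d₃ ≠ 0 → (nm d₃ : ℝ) ≤ X ^ B → Sm P.n e →
      (∀ p : Eis, Prime p → p ∣ e → p ^ 5 ∣ e) →
    ∀ τ : ℝ, 1 + |τ| ≤ X ^ δ' →
    ∀ 𝒟 : Finset Eis, (∀ q ∈ 𝒟, Sm P.n q ∧ Squarefree q) →
    ∀ hh q c : ℝ, 0 ≤ hh → hh ≤ 1 → 0 ≤ q → q ≤ 2 - 2 * g → 0 ≤ c → c ≤ g →
      q + Real.log (nm e) / Real.log X - c ≤ 2 - 3 * g + dt →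
      |Real.log H / Real.log X - hh| ≤ dt → |Dq.mass X ps .mo - q| ≤ dt →
      |Dq.mass X ps .am - c| ≤ dt →
      ∑ r ∈ 𝒟, ‖SgT P h τ H d₃ e ps r‖ ≤ X ^ (Tg θ g hh q c - μ')

lemma keep_eq_self {qs : List Pq} (h : ∀ q ∈ qs, 0 ≤ q.z) : keep qs = qs := by
  unfold keep
  rw [List.filter_eq_self]
  intro q hq
  simpa using h q hq

/-- **one shifted list of a box, signed**: all cases -/
theorem one_listS {θ μ' y : ℝ} (hθ : 0 ≤ θ) (hθ1 : θ ≤ 1) (hμ : 0 < μ') (hy : 0 < y)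
    (hy1 : y ≤ 1) {dt : ℝ} {a₀ A A₀ : ℝ} {w : Fin 5 → ℝ} (hdt : 0 < dt) (ha₀ : 0 < a₀)
    {P : DPar} (hP : P.OK) {h : ℝ → ℝ} (hneg : Neg h) {N : ℕ} {ε δ' X₀ : ℝ} (hε : 0 < ε)
    (hδ' : 0 < δ') (hX₀ : 1 < X₀)
    (htop : TopAt θ (y / (1 / 2 + y)) μ' a₀ A₀ w P h N (24 / ε) dt δ' X₀)
    {C₀ : ℝ} (hC₀ : 1 ≤ C₀) {Ct β : ℝ} (hCt : 0 ≤ Ct) (hβ : 0 < β)
    (htr : ∀ (τ H : ℝ), 0 < H → ∀ (d₃ e : Eis), IsPrim e →
      ∀ (𝒟 : Finset Eis), (∀ q ∈ 𝒟, IsPrim q) → ∀ ps : List Pq,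
      ∑ q ∈ 𝒟, ‖SgT P h τ H d₃ e ps q‖ ≤ Ct * (β * H) ^ (2 : ℝ) * (C₀ ^ ps.length *
        Real.exp (PL ps)) ∧ (β * H < 1 → ∑ q ∈ 𝒟, ‖SgT P h τ H d₃ e ps q‖ = 0))
    {ρ C₁ : ℝ} (hρ : 0 ≤ ρ) (hC₁ : 0 < C₁) {K₁ : ℝ}
    {r L : ℕ} (hr : 0 < r) (hL : 1 ≤ L) (hN : 2 * L + r + 1 ≤ N)
    (hall : ∀ (d₁ d₂ : Eis) (h₁ : d₁ ≠ 0) (h₂ : d₂ ≠ 0) (r : ℕ) (Q₀ Q κ t₁ t₂ H : ℝ) (j : ℕ)
      (c : Fin (j - 1) ⊕ Fin j → ℕ) (J : Finset (Fin r)) (qs : List Pq) (X : ℝ),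
      1 < X → Real.log X = (1 / 2 + y) * Real.log Q₀ → K₁ ≤ Real.log X →
      List.Forall₂ (NrQ ρ) qs ((Il j r J).map (dsc h₁ h₂ r y Q₀ κ t₁ t₂ c)) →
      NE a₀ A y w r Q₀ Q κ J H j c →
      a₀ ≤ Real.log H / Real.log X ∧ NearQ A₀ w (Real.log H / Real.log X) X qs)
    {δ η : ℝ} (hδ : 0 < δ) (hη : 0 < η) (hyr : 16 * (y / r) ≤ dt) (hδ1 : 16 * δ ≤ dt)
    (hη1 : 16 * η ≤ dt) (hL1 : 16 * (1 / (L : ℝ)) ≤ dt) (hδ2 : 16 * δ ≤ μ') (hη2 : 16 * η ≤ μ')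
    (hδ3 : 16 * δ ≤ 1) (hη3 : 16 * η ≤ 1) : ∃ C' : ℝ, 0 ≤ C' ∧
    ∀ (Q₀ Q : ℝ), 1 ≤ Q → Q ≤ Q₀ → ∀ κ : ℝ, -1 ≤ κ → κ ≤ δ * Real.log Q₀ →
    ∀ (J : Finset (Fin r)) (H : ℝ), 0 < H → H ≤ Q₀ ^ (1 / 2 + (y + δ) + η) →
    ∀ (d₁ d₂ d₃ e : Eis) (h₁ : d₁ ≠ 0) (h₂ : d₂ ≠ 0), d₃ ≠ 0 → Sm P.n e →
      (∀ p : Eis, Prime p → p ∣ e → p ^ 5 ∣ e) →
      Q * nm e ≤ C₁ * Q₀ * (CJ r y Q₀ J * Real.exp κ / Q₀ ^ (y + δ)) →
    ∀ (t₁ t₂ τ : ℝ) (𝒟 : Finset Eis), (∀ q ∈ 𝒟, Sm P.n q ∧ Squarefree q) →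
    ∀ (j : ℕ), 1 ≤ j → j ≤ L → ∀ c : Fin (j - 1) ⊕ Fin j → ℕ,
      |∑ i, (c (Sum.inl i) : ℝ) + ∑ i, (c (Sum.inr i) : ℝ) - Real.log Q| ≤ C₁ →
      (∀ i : Fin j, (c (Sum.inr i) : ℝ) ≤ Real.log Q / L + C₁) →
      NE a₀ A y w r Q₀ Q κ J H j c →
    ∀ qs : List Pq, List.Forall₂ (NrQ ρ) qs ((Il j r J).map (dsc h₁ h₂ r y Q₀ κ t₁ t₂ c)) →
      ∑ q ∈ 𝒟, ‖SgT P h τ H d₃ e qs q‖ ≤ C' * ((nm d₁ : ℝ) * nm d₂ * nm d₃) ^ (ε / 2) *
        (1 + |t₁| + |t₂| + |τ|) ^ (12 / δ') *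
        TgB θ η (if δ / 2 * Real.log Q₀ ≤ κ then η else -η) (y + δ) Q₀ Q H
            (CJ r y Q₀ J * Real.exp κ) *
          costQ (12 / δ') qs ((Il j r J).map (dsc h₁ h₂ r y Q₀ κ t₁ t₂ c)) := by
  classical
  set E₁ : ℝ := N * (ρ + 1) + C₁ + 3 * r * r with hE₁
  have hE₁0 : 0 ≤ E₁ := by positivity
  set b : ℝ := |Real.log β| with hbdef
  set E₂ : ℝ := 2 * E₁ + |Real.log C₁| + 2 * b with hE₂
  have hb0 : 0 ≤ b := abs_nonneg _
  have hE₂0 : 0 ≤ E₂ := by positivity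
  set Ks : ℝ := |K₁| + |Real.log X₀| + 2 * E₂ / dt + 2 * (C₁ + ρ + 3 * r) / dt with hKs
  have hKs0 : 0 ≤ Ks := by positivity
  set C' : ℝ := (Ct + 1) * C₀ ^ N * Real.exp E₂ * Real.exp (12 * Ks) * Real.exp (b + 1) with hC'
  have hC₀0 : 0 < C₀ := by linarith
  have hC'0 : 0 ≤ C' := by positivity
  refine ⟨C', hC'0, ?_⟩
  intro Q₀ Q hQ hQQ κ hκ1 hκ2 J H hH hH2 d₁ d₂ d₃ e h₁ h₂ h₃ he he5 hQe t₁ t₂ τ 𝒟 h𝒟 j hj hjL c
    hc hc2 hNE qs hqs
  have hQ₀1 : 1 ≤ Q₀ := hQ.trans hQQ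
  have hQ₀0 : 0 < Q₀ := by linarith
  have hQ0 : 0 < Q := by linarith
  have hM0 : 0 ≤ 12 / δ' := by positivity
  set L₀ := Real.log Q₀ with hL₀
  have hL0 : 0 ≤ L₀ := Real.log_nonneg hQ₀1
  set ds := (Il j r J).map (dsc h₁ h₂ r y Q₀ κ t₁ t₂ c) with hds
  have hCJ : 0 < CJ r y Q₀ J * Real.exp κ := mul_pos (BoxP271.CJ_pos hQ₀0 J) (Real.exp_pos _)
  set Tb := TgB θ η (if δ / 2 * Real.log Q₀ ≤ κ then η else -η) (y + δ) Q₀ Q H
    (CJ r y Q₀ J * Real.exp κ) with hTb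
  have hη₂ : (if δ / 2 * Real.log Q₀ ≤ κ then η else -η) ≤ η := by split_ifs <;> linarith
  have hTb0 : 0 ≤ Tb := Box271.TgB_nonneg' hQ₀0.le hQ0.le hH.le hCJ.le
  have n1 : (1 : ℝ) ≤ nm d₁ := by exact_mod_cast nm_pos.2 h₁
  have n2 : (1 : ℝ) ≤ nm d₂ := by exact_mod_cast nm_pos.2 h₂
  have n3 : (1 : ℝ) ≤ nm d₃ := by exact_mod_cast nm_pos.2 h₃
  have n12 : (1 : ℝ) ≤ (nm d₁ : ℝ) * nm d₂ := one_le_mul_of_one_le_of_one_le n1 n2
  have n123 : (1 : ℝ) ≤ (nm d₁ : ℝ) * nm d₂ * nm d₃ := one_le_mul_of_one_le_of_one_le n12 n3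
  set D := ((nm d₁ : ℝ) * nm d₂ * nm d₃) ^ (ε / 2) with hD
  have hD1 : 1 ≤ D := Real.one_le_rpow n123 (by positivity)
  have hT1 : 1 ≤ 1 + |t₁| + |t₂| + |τ| := by
    linarith [abs_nonneg t₁, abs_nonneg t₂, abs_nonneg τ]
  set TM := (1 + |t₁| + |t₂| + |τ|) ^ (12 / δ') with hTM
  have hTM1 : 1 ≤ TM := Real.one_le_rpow hT1 hM0
  have hco1 := one_le_costQ hM0 qs ds
  set co := costQ (12 / δ') qs ds with hco
  have hβH0 : 0 < β * H := mul_pos hβ hH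
  set S := ∑ q ∈ 𝒟, ‖SgT P h τ H d₃ e qs q‖ with hS
  have hS0 : 0 ≤ S := Finset.sum_nonneg fun _ _ => norm_nonneg _
  have htr' := htr τ H hH d₃ e he.1 𝒟 (fun q hq => (h𝒟 q hq).1.1) qs
  rw [← hS] at htr'
  -- lengths
  have hlen : qs.length ≤ N := by
    have h3 := hqs.length_eq
    rw [List.length_map] at h3
    have h4 := Il_length j r J
    omega
  have hlends : (ds.length : ℝ) ≤ N := by
    have h3 := hqs.length_eq
    rw [← h3]; exact_mod_cast hlen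
  -- pieces of negative length
  by_cases hz : ∃ p ∈ qs, p.z < 0
  · have : S = 0 := by
      rw [hS]
      refine Finset.sum_eq_zero fun q _ => ?_
      rw [norm_eq_zero]
      unfold SgT
      refine (tsum_congr fun k => ?_).trans tsum_zero
      rw [VV_zero hneg hz k]
      simp
    rw [this]; positivity
  push Not at hz
  have hkeep : keep qs = qs := keep_eq_self hz
  -- the trivial region
  by_cases hsmall : β * H < 1
  · rw [htr'.2 hsmall]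
    positivity
  push Not at hsmall
  have htr1 := htr'.1
  have hlC : Real.log (CJ r y Q₀ J * Real.exp κ) = y / r * J.card * L₀ + κ := log_CJ hQ₀0 J
  have hlC1 : -1 ≤ Real.log (CJ r y Q₀ J * Real.exp κ) := by
    rw [hlC]
    have : 0 ≤ y / r * J.card * L₀ := by positivity
    linarith
  have hone := one_le_TgB (θ := θ) (y := y) (δ := δ) (η := η)
    (η₂ := if δ / 2 * Real.log Q₀ ≤ κ then η else -η) (Q₀ := Q₀) (Q := Q) (H := H) (β := β)
    (Cc := CJ r y Q₀ J * Real.exp κ) hθ hθ1 hy hδ (by linarith) hη₂ hQ₀1 hQ hH hβ hsmall hCJ hlC1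
  rw [← hTb, ← hbdef] at hone
  -- lengths of the list
  have hdz : ∀ d ∈ ds, -1 ≤ d.z := dsc_z_ge h₁ h₂ hκ1 hy.le hQ₀1
  have hk1 := LM_keep hρ .mo hqs hdz
  have hk2 := LM_keep hρ .am hqs hdz
  rw [hkeep] at hk1 hk2
  have e1 : LM .mo ds = ∑ i, (c (.inl i) : ℝ) + ∑ i, (c (.inr i) : ℝ) :=
    LM_mo h₁ h₂ r y Q₀ κ t₁ t₂ c J
  have e2 : LM .am ds = κ + ∑ i ∈ J, B770.kap r y Q₀ i := LM_am h₁ h₂ r y Q₀ κ t₁ t₂ c J
  have hNρ : (ds.length : ℝ) * (ρ + 1) ≤ N * (ρ + 1) := by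
    have : 0 ≤ ρ + 1 := by linarith
    gcongr
  have hr3 : (0 : ℝ) ≤ 3 * r * r := by positivity
  have hmo : |LM .mo qs - Real.log Q| ≤ E₁ := by
    have h3 : LM .mo qs - Real.log Q = (LM .mo qs - LM .mo ds) +
      (∑ i, (c (.inl i) : ℝ) + ∑ i, (c (.inr i) : ℝ) - Real.log Q) := by rw [e1]; ring
    rw [h3]
    refine (abs_add_le _ _).trans ?_
    linarith
  have hkap : |∑ i ∈ J, B770.kap r y Q₀ i - y / r * J.card * L₀| ≤ 3 * r * r := by
    have h3 : ∑ i ∈ J, B770.kap r y Q₀ i - y / r * J.card * L₀ = ∑ i ∈ J, 3 * ((i : ℕ) : ℝ) := by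
      unfold B770.kap
      rw [Finset.sum_add_distrib, Finset.sum_const, nsmul_eq_mul]
      ring
    rw [h3, abs_of_nonneg (Finset.sum_nonneg fun i _ => by positivity)]
    have hcard : (J.card : ℝ) ≤ r := by
      have : J.card ≤ r := by simpa using J.card_le_univ
      exact_mod_cast this
    calc ∑ i ∈ J, 3 * ((i : ℕ) : ℝ) ≤ ∑ i ∈ J, 3 * (r : ℝ) := by
          refine Finset.sum_le_sum fun i _ => ?_
          have : ((i : ℕ) : ℝ) ≤ r := by exact_mod_cast i.2.le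
          linarith
      _ = J.card * (3 * r) := by rw [Finset.sum_const, nsmul_eq_mul]
      _ ≤ r * (3 * r) := by gcongr
      _ = 3 * r * r := by ring
  have ham : |LM .am qs - Real.log (CJ r y Q₀ J * Real.exp κ)| ≤ E₁ := by
    have h3 : LM .am qs - Real.log (CJ r y Q₀ J * Real.exp κ) =
      (LM .am qs - LM .am ds) + (∑ i ∈ J, B770.kap r y Q₀ i - y / r * J.card * L₀) := by
      rw [e2, hlC]; ring
    rw [h3]
    refine (abs_add_le _ _).trans ?_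
    linarith
  have hkp0 : ∀ t, 0 ≤ LM t qs := by
    intro t
    unfold LM
    refine List.sum_nonneg ?_
    intro x hx
    obtain ⟨q, hq, rfl⟩ := List.mem_map.1 hx
    split_ifs
    · exact hz q hq
    · exact le_rfl
  have hlQ1 : Real.log Q ≤ L₀ := Real.log_le_log hQ0 hQQ
  have hlH1 : Real.log H ≤ (1 / 2 + (y + δ) + η) * L₀ := by
    have := Real.log_le_log hH hH2
    rwa [Real.log_rpow hQ₀0] at this
  have hlC2 : Real.log (CJ r y Q₀ J * Real.exp κ) ≤ (y + δ) * L₀ := by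
    rw [hlC]
    have h1 : ((J.card : ℕ) : ℝ) ≤ r := by
      have : J.card ≤ r := by simpa using J.card_le_univ
      exact_mod_cast this
    have hr' : (0 : ℝ) < r := by exact_mod_cast hr
    have h2 : y / r * J.card ≤ y := by
      rw [div_mul_eq_mul_div, div_le_iff₀ hr']
      exact mul_le_mul_of_nonneg_left h1 hy.le
    have h3 : y / r * J.card * L₀ ≤ y * L₀ := mul_le_mul_of_nonneg_right h2 hL0
    have h4 : (y + δ) * L₀ = y * L₀ + δ * L₀ := by ring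
    rw [h4]; linarith
  have hlogβH : Real.log (β * H) ≤ b + Real.log H := by
    rw [Real.log_mul hβ.ne' hH.ne']
    linarith [le_abs_self (Real.log β)]
  have habsC := abs_nonneg (Real.log C₁)
  -- the trivial bound
  have htriv : S ≤ (Ct + 1) * C₀ ^ N * Real.exp E₂ * Real.exp (6 * L₀) := by
    refine htr1.trans ?_
    have h3 : 2 * Real.log (β * H) + PL qs ≤ E₂ + 6 * L₀ := by
      rw [PL_eq, hkeep]
      have u1 := (abs_le.1 hmo).2
      have u2 := (abs_le.1 ham).2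
      have u3 : (1 / 2 + (y + δ) + η) * L₀ = L₀ / 2 + y * L₀ + δ * L₀ + η * L₀ := by ring
      have u4 : (y + δ) * L₀ = y * L₀ + δ * L₀ := by ring
      have u5 : y * L₀ ≤ 1 * L₀ := mul_le_mul_of_nonneg_right hy1 hL0
      have u6 : 16 * δ * L₀ ≤ 1 * L₀ := mul_le_mul_of_nonneg_right hδ3 hL0
      have u7 : 16 * η * L₀ ≤ 1 * L₀ := mul_le_mul_of_nonneg_right hη3 hL0
      linarith
    have h4 : (β * H) ^ (2 : ℝ) * Real.exp (PL qs) ≤ Real.exp (E₂ + 6 * L₀) := by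
      rw [Real.rpow_def_of_pos hβH0, ← Real.exp_add]
      exact Real.exp_le_exp.2 (by linarith)
    have h5 : C₀ ^ qs.length ≤ C₀ ^ N := pow_le_pow_right₀ hC₀ hlen
    calc Ct * (β * H) ^ (2 : ℝ) * (C₀ ^ qs.length * Real.exp (PL qs))
        = Ct * C₀ ^ qs.length * ((β * H) ^ (2 : ℝ) * Real.exp (PL qs)) := by ring
      _ ≤ (Ct + 1) * C₀ ^ N * Real.exp (E₂ + 6 * L₀) := by
          have : Ct ≤ Ct + 1 := by linarith
          gcongr
      _ = _ := by rw [Real.exp_add]; ring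
  -- how the trivial bound is used
  have huse : ∀ Z : ℝ, Real.exp (6 * L₀) ≤ Real.exp (12 * Ks) * Z → Z ≤ D * TM * co →
      S ≤ C' * D * TM * Tb * co := by
    intro Z hZ hZ2
    calc S ≤ (Ct + 1) * C₀ ^ N * Real.exp E₂ * Real.exp (6 * L₀) * 1 := by rw [mul_one]; exact htriv
      _ ≤ (Ct + 1) * C₀ ^ N * Real.exp E₂ * (Real.exp (12 * Ks) * (D * TM * co)) *
          (Real.exp (b + 1) * Tb) := by
          have h5 : Real.exp (6 * L₀) ≤ Real.exp (12 * Ks) * (D * TM * co) :=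
            hZ.trans (mul_le_mul_of_nonneg_left hZ2 (Real.exp_pos _).le)
          have h6 : 0 ≤ Real.exp (12 * Ks) * (D * TM * co) := by positivity
          gcongr
      _ = _ := by rw [hC']; ring
  have hDTc : 1 ≤ D * TM * co :=
    one_le_mul_of_one_le_of_one_le (one_le_mul_of_one_le_of_one_le hD1 hTM1) hco1
  have hDTM0 : 0 ≤ D * TM := by positivity
  -- large `Q₀`
  have hlX' : Real.log (Q₀ ^ (1 / 2 + y)) = (1 / 2 + y) * L₀ := Real.log_rpow hQ₀0 _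
  set X := Q₀ ^ (1 / 2 + y) with hX
  have hX0 : 0 < X := Real.rpow_pos_of_pos hQ₀0 _
  have hyL : 0 ≤ y * L₀ := by positivity
  by_cases hK : Real.log X < Ks
  · refine huse 1 ?_ hDTc
    rw [mul_one]
    refine Real.exp_le_exp.2 ?_
    rw [hlX'] at hK
    linarith
  push Not at hK
  have hKK : Ks ≤ Real.log X := hK
  have hexp8 : 1 ≤ Real.exp (12 * Ks) := Real.one_le_exp (by positivity)
  have hL2K : L₀ ≤ 2 * Real.log X := by rw [hlX']; linarith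
  have hq1 : |K₁| ≤ Ks := by
    have : 0 ≤ 2 * E₂ / dt := by positivity
    have : 0 ≤ 2 * (C₁ + ρ + 3 * r) / dt := by positivity
    have := abs_nonneg (Real.log X₀)
    linarith
  have hq2 : |Real.log X₀| ≤ Ks := by
    have : 0 ≤ 2 * E₂ / dt := by positivity
    have : 0 ≤ 2 * (C₁ + ρ + 3 * r) / dt := by positivity
    have := abs_nonneg K₁
    linarith
  have hq3 : 2 * E₂ ≤ dt * Ks := by
    have h5 : 2 * E₂ / dt ≤ Ks := by
      have : 0 ≤ 2 * (C₁ + ρ + 3 * r) / dt := by positivity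
      have := abs_nonneg K₁
      have := abs_nonneg (Real.log X₀)
      linarith
    rw [div_le_iff₀ hdt] at h5
    linarith
  have hq4 : 2 * (C₁ + ρ + 3 * r) ≤ dt * Ks := by
    have h5 : 2 * (C₁ + ρ + 3 * r) / dt ≤ Ks := by
      have : 0 ≤ 2 * E₂ / dt := by positivity
      have := abs_nonneg K₁
      have := abs_nonneg (Real.log X₀)
      linarith
    rw [div_le_iff₀ hdt] at h5
    linarith
  have hKpos : 0 < Real.log X := by
    have : 0 < Real.log X₀ := Real.log_pos hX₀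
    have := le_abs_self (Real.log X₀)
    linarith
  have hX1 : 1 < X := (Real.log_pos_iff hX0.le).1 hKpos
  have hXX₀ : X₀ ≤ X := by
    rw [← Real.log_le_log_iff (by linarith) hX0]
    exact (le_abs_self _).trans (hq2.trans hKK)
  have hL0' : 0 < L₀ := by
    rcases hL0.lt_or_eq with h | h
    · exact h
    · rw [← h, mul_zero] at hlX'; linarith
  have hQ₀1' : 1 < Q₀ := (Real.log_pos_iff hQ₀0.le).1 hL0'
  have hdtK : dt * Ks ≤ dt * Real.log X := mul_le_mul_of_nonneg_left hKK hdt.le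
  have h12 : Real.exp (6 * L₀) ≤ Real.exp (12 * Real.log X) := Real.exp_le_exp.2 (by linarith)
  -- large moduli
  have hlarge : X ^ (24 / ε) < (nm d₁ : ℝ) * nm d₂ * nm d₃ → S ≤ C' * D * TM * Tb * co := by
    intro hqd
    refine huse D ?_ ?_
    · have h6 : (X ^ (24 / ε)) ^ (ε / 2) ≤ D :=
        Real.rpow_le_rpow (Real.rpow_nonneg hX0.le _) hqd.le (by positivity)
      have h7 : (X ^ (24 / ε)) ^ (ε / 2) = Real.exp (12 * Real.log X) := by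
        rw [← Real.rpow_mul hX0.le, Real.rpow_def_of_pos hX0]
        congr 1
        field_simp
        ring
      have h8 : Real.exp (6 * L₀) ≤ D := h12.trans (h7 ▸ h6)
      exact h8.trans (le_mul_of_one_le_left (by positivity) hexp8)
    · calc D = D * 1 * 1 := by ring
        _ ≤ D * TM * co := by gcongr
  by_cases hmod : ∃ q ∈ qs, X ^ (24 / ε) < (nm q.d : ℝ)
  · obtain ⟨q, hq, hqd⟩ := hmod
    refine hlarge (hqd.trans_le ((nm_d_le h₁ h₂ hqs q hq).trans ?_))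
    exact le_mul_of_one_le_right (by positivity) n3
  push Not at hmod
  by_cases hmod3 : X ^ (24 / ε) < (nm d₃ : ℝ)
  · exact hlarge (hmod3.trans_le (le_mul_of_one_le_left (by positivity) n12))
  push Not at hmod3
  -- large heights
  have hbigt : ∀ T : ℝ, X ^ δ' < T → T ^ (12 / δ') ≤ TM * co → S ≤ C' * D * TM * Tb * co := by
    intro T hT hT2
    refine huse (TM * co) ?_ ?_
    · have h6 : (X ^ δ') ^ (12 / δ') ≤ T ^ (12 / δ') :=
        Real.rpow_le_rpow (Real.rpow_nonneg hX0.le _) hT.le hM0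
      have h7 : (X ^ δ') ^ (12 / δ') = Real.exp (12 * Real.log X) := by
        rw [← Real.rpow_mul hX0.le, Real.rpow_def_of_pos hX0]
        congr 1
        field_simp
      have h8 : Real.exp (6 * L₀) ≤ TM * co := h12.trans ((h7 ▸ h6).trans hT2)
      exact h8.trans (le_mul_of_one_le_left (by positivity) hexp8)
    · calc TM * co = 1 * TM * co := by ring
        _ ≤ D * TM * co := by gcongr
  by_cases hht : ∃ q ∈ qs, X ^ δ' < 1 + |q.t|
  · obtain ⟨q, hq, hqt⟩ := hht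
    refine hbigt _ hqt ?_
    have hT1' : 1 ≤ 1 + |t₁| + |t₂| := by linarith [abs_nonneg t₁, abs_nonneg t₂]
    have h5 := height_le hM0 hT1' hqs (dsc_t_le h₁ h₂) q hq
    refine h5.trans (mul_le_mul_of_nonneg_right ?_ (by positivity))
    exact Real.rpow_le_rpow (by linarith) (by linarith [abs_nonneg τ]) hM0
  push Not at hht
  by_cases hhτ : X ^ δ' < 1 + |τ|
  · refine hbigt _ hhτ ?_
    calc (1 + |τ|) ^ (12 / δ') ≤ TM := Real.rpow_le_rpow (by positivity)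
          (by linarith [abs_nonneg t₁, abs_nonneg t₂]) hM0
      _ ≤ TM * co := le_mul_of_one_le_right (by linarith) hco1
  push Not at hhτ
  -- the main case
  have hgood : Dq.Good X δ' (24 / ε) qs := fun q hq => ⟨hht q hq, hmod q hq, hz q hq⟩
  have hgr : ∀ q ∈ qs, Dq.lump q ∨ Dq.nl X q ≤ dt := by
    intro q hq
    refine gran (Q := Q) (C₁ := C₁) (δ := δ) (L := L) h₁ h₂ hX1 hqs hκ2 hc2 ?_ ?_ ?_ q hq
    · have h5 : Real.log Q / L ≤ L₀ * (1 / (L : ℝ)) := by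
        rw [mul_one_div]
        exact div_le_div_of_nonneg_right hlQ1 (Nat.cast_nonneg _)
      have h6 : L₀ * (1 / (L : ℝ)) ≤ (2 * Real.log X) * (dt / 16) := by
        have : 1 / (L : ℝ) ≤ dt / 16 := by linarith
        gcongr
      have h7 : (0 : ℝ) ≤ 3 * r := by positivity
      have h8 : 0 ≤ dt * Real.log X := by positivity
      linarith
    · have h6 : δ * L₀ ≤ (dt / 16) * (2 * Real.log X) := by
        have : δ ≤ dt / 16 := by linarith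
        gcongr
      have h7 : (0 : ℝ) ≤ 3 * r := by positivity
      have h8 : 0 ≤ dt * Real.log X := by positivity
      linarith
    · have h6 : y / r * L₀ ≤ (dt / 16) * (2 * Real.log X) := by
        have : y / r ≤ dt / 16 := by linarith
        gcongr
      have h8 : 0 ≤ dt * Real.log X := by positivity
      linarith
  obtain ⟨hal1, hal2⟩ := hall d₁ d₂ h₁ h₂ r Q₀ Q κ t₁ t₂ H j c J qs X hX1 hlX'
    ((le_abs_self K₁).trans (hq1.trans hKK)) hqs hNE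
  have hlH0 : 0 ≤ Real.log H := by
    have h5 := hNE.1
    have : 0 ≤ a₀ * ((1 / 2 + y) * Real.log Q₀) := by positivity
    linarith
  have ne1 : (1 : ℝ) ≤ nm e := by exact_mod_cast nm_pos.2 he.1.ne_zero
  have hEe : 0 ≤ Real.log (nm e) := Real.log_nonneg ne1
  have hQe' : Real.log Q + Real.log (nm e) ≤ |Real.log C₁| + Real.log Q₀ +
      Real.log (CJ r y Q₀ J * Real.exp κ) - (y + δ) * Real.log Q₀ := by
    have h1 := Real.log_le_log (by positivity) hQe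
    rw [Real.log_mul hQ0.ne' (by positivity),
      Real.log_mul (by positivity) (div_pos hCJ (Real.rpow_pos_of_pos hQ₀0 _)).ne',
      Real.log_mul hC₁.ne' hQ₀0.ne', Real.log_div hCJ.ne' (Real.rpow_pos_of_pos hQ₀0 _).ne',
      Real.log_rpow hQ₀0] at h1
    have := le_abs_self (Real.log C₁)
    linarith
  have hmain := box_mainS (θ := θ) (μ' := μ') (y := y) (dt := dt) (r := r) (δ := δ) (η := η)
    (X := X) (Q₀ := Q₀) (Q := Q) (H := H) (κ := κ) (C₁ := C₁)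
    (E₁ := E₁) (Ee := Real.log (nm e)) (S := S) (J := J) (ps := qs) hθ hθ1 hμ hy hy1 hr hδ hη
    (by linarith) (by linarith) hX1 hlX' hQ₀1' hQ hQQ hH hlH0 hH2 hκ2 hC₁ hEe hQe' hE₁0 (hkp0 _)
    (hkp0 _) hmo ham (by linarith) (fun hh q c' g1 g2 g3 g4 g5 g6 g7 g8 g9 g10 =>
      htop X hXX₀ H hH qs hlen hgr hgood hal1 hal2 d₃ e h₃ hmod3 he he5 τ hhτ 𝒟 h𝒟 hh q c' g1 g2 g3
        g4 g5 g6 g7 g8 g9 g10) hη₂
  rw [← hTb] at hmain
  calc S ≤ Real.exp (2 * E₁) * Tb := hmain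
    _ ≤ Real.exp E₂ * Tb := by
        have h5 : Real.exp (2 * E₁) ≤ Real.exp E₂ := Real.exp_le_exp.2 (by linarith)
        gcongr
    _ = 1 * 1 * Real.exp E₂ * 1 * 1 * (1 * Tb) := by ring
    _ ≤ (Ct + 1) * C₀ ^ N * Real.exp E₂ * Real.exp (12 * Ks) * Real.exp (b + 1) *
        (D * TM * co * Tb) := by
        have h5 : 1 ≤ Real.exp (b + 1) := Real.one_le_exp (by positivity)
        have h6 : (1 : ℝ) ≤ Ct + 1 := by linarith
        have h7 : (1 : ℝ) ≤ C₀ ^ N := one_le_pow₀ hC₀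
        gcongr
    _ = _ := by rw [hC']; ring

end Crest.Agent.R017.BxH986
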