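import Crest.Agent.R017.ColEq_645

/-!
# Row 17, section D, small lumps: the predicate `Idl` and the LV-free sides (helper61)

`Idl r w κ q c F` : every side with `q` lumps of length `≤ w` and granular mass `≤ c` is ideal up
to `F` at family `κ` (and below, with slope `1/3`).

* `idl_T6` : sides `V · (Z · {y₁,y₂} | ·)` with the granular mass `g` in `X` (T6 for all
  shortenings and every amplifier share).
* `idl3`, `idl4`, `bl3`, `bl3'`, `bl4` : three and four equal lumps.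
-/

set_option autoImplicit false

noncomputable section

namespace Crest.Agent.R017.C161

open Crest.Agent.R017.ER911 Crest.Agent.R017.SC777

/-- sides with `q` lumps `≤ w`, granular mass `≤ c`, ideal up to `F` at families `≤ κ` -/
def Idl (r : EF) (w κ : ℝ) (q : ℕ) (c F : ℝ) : Prop :=
  ∀ (Y : Multiset ℝ) (m a : ℝ), Multiset.card Y = q → (∀ y ∈ Y, 0 ≤ y ∧ y ≤ w) → 0 ≤ m → 0 ≤ a →
    m + a ≤ c → ∀ κ' : ℝ, 0 ≤ κ' → κ' ≤ κ →
      r κ' Y m a + (κ - κ') / 3 ≤ κ + (Y.sum + m + a) + F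

variable {θ d : ℝ} {r s : EF}

theorem Idl.mono {w κ c c' F F' : ℝ} {q : ℕ} (h : Idl r w κ q c F) (hc : c' ≤ c) (hF : F ≤ F') :
    Idl r w κ q c' F' := by
  intro Y m a hY hYw hm ha hma κ' h0 h1
  have := h Y m a hY hYw hm ha (hma.trans hc) κ' h0 h1
  linarith

/-- smaller families -/
theorem Idl.down {w κ κ₁ c F F' : ℝ} {q : ℕ} (h : Idl r w κ q c F) (hκ : κ₁ ≤ κ)
    (hF : F + 2 / 3 * (κ - κ₁) ≤ F') : Idl r w κ₁ q c F' := by
  intro Y m a hY hYw hm ha hma κ' h0 h1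
  have := h Y m a hY hYw hm ha hma κ' h0 (h1.trans hκ)
  linarith

/-- shorter lumps -/
theorem Idl.short {w w' κ c F : ℝ} {q : ℕ} (h : Idl r w κ q c F) (hw : w' ≤ w) :
    Idl r w' κ q c F := fun Y m a hY hYw =>
  h Y m a hY fun y hy => ⟨(hYw y hy).1, (hYw y hy).2.trans hw⟩

/-- the bound at the family itself -/
theorem Idl.at {w κ c F : ℝ} {q : ℕ} (h : Idl r w κ q c F) {Y : Multiset ℝ} {m a : ℝ}
    (hY : Multiset.card Y = q) (hYw : ∀ y ∈ Y, 0 ≤ y ∧ y ≤ w) (hm : 0 ≤ m) (ha : 0 ≤ a)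
    (hma : m + a ≤ c) (hκ : 0 ≤ κ) : r κ Y m a ≤ κ + (Y.sum + m + a) + F := by
  have := h Y m a hY hYw hm ha hma κ hκ le_rfl
  linarith

/-- moments of equal lumps in the form of 645 -/
theorem Idl.MB {w κ c F : ℝ} {q : ℕ} (h : Idl r w κ q c F) {u g : ℝ} (hu : 0 ≤ u) (huw : u ≤ w)
    (hg : 0 ≤ g) (hgc : g ≤ c) (hκ : 0 ≤ κ) :
    CE645.MB r κ (Multiset.replicate q u) g F := by
  have hY : ∀ y ∈ Multiset.replicate q u, 0 ≤ y ∧ y ≤ w := fun y hy => by
    rw [Multiset.eq_of_mem_replicate hy]; exact ⟨hu, huw⟩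
  constructor
  · have := h.at (Multiset.card_replicate q u) hY hg le_rfl (by linarith) hκ
    linarith
  · have := h.at (Multiset.card_replicate q u) hY le_rfl hg (by linarith) hκ
    linarith

theorem sh_replicate {w : ℝ} (Y : Multiset ℝ) (h : ∀ y ∈ Y, 0 ≤ y ∧ y ≤ w) :
    Sh Y (Multiset.replicate (Multiset.card Y) w) := by
  induction Y using Multiset.induction_on with
  | empty => exact Multiset.Rel.zero
  | cons y Y ih =>
    rw [Multiset.card_cons, Multiset.replicate_succ]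
    exact Sh.cons (h y (Multiset.mem_cons_self y Y)).1 (h y (Multiset.mem_cons_self y Y)).2
      (ih fun z hz => h z (Multiset.mem_cons_of_mem hz))

/-- splitting the granular mass: at most `g` in `X`, amplifier first -/
theorem split_g {m a c g : ℝ} (hm : 0 ≤ m) (ha : 0 ≤ a) (hma : m + a ≤ c) (hg : 0 ≤ g)
    (hgc : g ≤ c) :
    ∃ b b' : ℝ, 0 ≤ b ∧ b ≤ m ∧ 0 ≤ b' ∧ b' ≤ a ∧ b + b' ≤ g ∧ (m - b) + (a - b') ≤ c - g := by
  refine ⟨min m (g - min a g), min a g, le_min hm (by linarith [min_le_right a g]),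
    min_le_left _ _, le_min ha hg, min_le_left _ _, ?_, ?_⟩
  · have := min_le_right m (g - min a g)
    linarith
  · rcases le_total a g with h | h
    · rw [min_eq_left h]
      rcases le_total m (g - a) with h' | h'
      · rw [min_eq_left h']; linarith
      · rw [min_eq_right h']; linarith
    · rw [min_eq_right h, sub_self]
      rw [min_eq_right hm]
      linarith

/-- the columns of T6 (`G' = Z · {y₁, y₂} | m, a`, parameter `ξ = (κ - l')/2`) -/
theorem T6col (R : ExpRules (7 / 8 + d) r s) (hd : 0 ≤ d) {κ y₁ y₂ m a ξ l F : ℝ}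
    {Z : Multiset ℝ} (h1 : 0 ≤ y₁) (h2 : 0 ≤ y₂) (hZ : ∀ y ∈ Z, 0 ≤ y) (ha : 0 ≤ a)
    (hl : l = Z.sum + (y₁ + y₂) + m + a) (hξ : 2 * ξ + l = κ)
    (hz : 2 * l + 3 * Z.sum ≤ 2 * κ) (h59 : 9 * l ≤ 5 * κ + 4 * (y₁ + y₂))
    (hA : 3 * (l + a) ≤ 2 * κ + 5 * (y₁ + y₂)) (hF : 2 * d * (Z.sum + m + a) ≤ F) :
    ColX (7 / 8 + d) r κ ξ F (Z + {y₁, y₂}) m a := by
  have hZ0 : 0 ≤ Z.sum := Multiset.sum_nonneg hZ
  refine ⟨?_, ?_⟩
  · intro Y' m' a' i hY' hm0 hm1 ha0 ha1 hi hyi hii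
    obtain ⟨Z', P, rfl, hZ', hP⟩ := hY'.of_add
    obtain ⟨c₁, c₂, rfl, hc1, hc1', hc2, hc2'⟩ := hP.pair
    have hZs := hZ'.sum_le
    have hZ0' := hZ'.sum_nonneg
    rw [Multiset.sum_add, sum_pair]
    have hi1 : c₁ ≤ i := hyi c₁ (Multiset.mem_add.2 (Or.inr (by simp)))
    have hi2 : c₂ ≤ i := hyi c₂ (Multiset.mem_add.2 (Or.inr (by simp)))
    have e0 := supV R hi {c₁, c₂} Z' (ok_pair (m := 0) (a := 0) hc1 hc2 le_rfl le_rfl).1
      hZ'.nonneg hm0 ha0
    have e3 : 2 * d * (Z'.sum + (m' + a')) ≤ 2 * d * (Z.sum + m + a) :=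
      mul_le_mul_of_nonneg_left (by linarith) (by linarith)
    rcases le_or_gt i (c₁ + c₂) with hks | hks
    · have e1 := sup_all R hi hc1 hc2 hm0 ha0 hi1 hi2
      linarith
    · obtain ⟨e, he⟩ : ∃ e, e = max 0 (max (m' + a' - 7 / 9 * (i - (c₁ + c₂)))
        ((12 * a' + 9 * m' + 4 * (c₁ + c₂) - 8 * i) / 12)) := ⟨_, rfl⟩
      have he0 : 0 ≤ e := by rw [he]; exact le_max_left _ _
      have he1 : m' + a' - 7 / 9 * (i - (c₁ + c₂)) ≤ e := by
        rw [he]; exact (le_max_left _ _).trans (le_max_right _ _)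
      have he2 : (12 * a' + 9 * m' + 4 * (c₁ + c₂) - 8 * i) / 12 ≤ e := by
        rw [he]; exact (le_max_right _ _).trans (le_max_right _ _)
      have e1 := side79a R hd hc1 hc2 hm0 ha0 hks.le he0 he1 (by linarith) hi le_rfl hi1 hi2
      have e4 : 3 / 4 * e ≤ (2 * κ + i) / 3 - ξ - i - 3 / 4 * Z'.sum := by
        have : e ≤ 4 / 3 * ((2 * κ + i) / 3 - ξ - i - 3 / 4 * Z'.sum) := by
          rw [he]
          refine max_le ?_ (max_le ?_ ?_)
          · linarith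
          · linarith
          · linarith
        linarith
      linarith
  · intro Y' m' a' hY' hm0 hm1 ha0 ha1 _
    have hYs := hY'.sum_nonneg
    have e3 : 2 * d * m' ≤ 2 * d * (Z.sum + m + a) :=
      mul_le_mul_of_nonneg_left (by linarith) (by linarith)
    linarith

/-- **T6 for equal lumps**, all shortenings, every amplifier share: `v` lumps and granular `g` in
`X`, `z` lumps in `Z`. -/
theorem idl_T6 (R : ExpRules (7 / 8 + d) r s) (hd : 0 ≤ d) {w κ c g F : ℝ} (v z : ℕ) (hw : 0 ≤ w)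
    (hκ : 0 ≤ κ) (hg : 0 ≤ g) (hgc : g ≤ c)
    (hx : 2 * (v * w + g) + ((z + 2) * w + (c - g)) ≤ κ)
    (hz : 2 * ((z + 2) * w + (c - g)) + 3 * (z * w) ≤ 2 * κ)
    (h59 : 9 * ((z + 2) * w + (c - g)) ≤ 5 * κ + 8 * w)
    (hA : 3 * ((z + 2) * w + (c - g) + (c - g)) ≤ 2 * κ + 10 * w)
    (hF : 2 * d * (z * w + (c - g)) ≤ F) : Idl r w κ (v + (z + 2)) c F := by
  intro Y m a hY hYw hm ha hma
  obtain ⟨b, b', hb0, hb, hb0', hb', hbg, hrest⟩ := split_g hm ha hma hg hgc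
  have hvw : 0 ≤ (v : ℝ) * w := mul_nonneg (Nat.cast_nonneg v) hw
  have hzw : 0 ≤ (z : ℝ) * w := mul_nonneg (Nat.cast_nonneg z) hw
  have hsh := sh_replicate Y hYw
  rw [hY, Multiset.replicate_add, Multiset.replicate_add] at hsh
  obtain ⟨V', Y', rfl, hV', hY'⟩ := hsh.of_add
  have hVs := hV'.sum_le
  rw [Multiset.sum_replicate, nsmul_eq_mul] at hVs
  have hpair : Multiset.replicate 2 w = ({w, w} : Multiset ℝ) := by
    rw [Multiset.replicate_succ, Multiset.replicate_one]; rfl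
  rw [hpair] at hY'
  obtain ⟨l, hl⟩ : ∃ l, l = (Multiset.replicate z w).sum + (w + w) + (m - b) + (a - b') := ⟨_, rfl⟩
  have hzs : (Multiset.replicate z w).sum = z * w := by
    rw [Multiset.sum_replicate, nsmul_eq_mul]
  have hF0 : 0 ≤ F := le_trans (by have : 0 ≤ c - g := by linarith
                                   positivity) hF
  have hlc : l ≤ (z + 2) * w + (c - g) := by rw [hl, hzs]; linarith
  have hdF : 2 * d * ((Multiset.replicate z w).sum + (m - b) + (a - b')) ≤ F := by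
    refine le_trans (mul_le_mul_of_nonneg_left ?_ (by linarith)) hF
    rw [hzs]; linarith
  have hC : ColX (7 / 8 + d) r κ ((κ - l) / 2) F (Multiset.replicate z w + {w, w}) (m - b)
      (a - b') := by
    refine T6col R hd hw hw (fun y hy => by rw [Multiset.eq_of_mem_replicate hy]; exact hw)
      (by linarith) hl (by ring) ?_ ?_ ?_ hdF
    · rw [hzs]; linarith
    · linarith
    · linarith
  have hC' := hC.mono hY' le_rfl le_rfl
  have hYs := hY'.sum_le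
  rw [Multiset.sum_add, hzs, sum_pair] at hYs
  have key := side_xi R (κ := κ) (ξ := (κ - l) / 2) (m := m - b) (b := b) (a := a - b') (b' := b')
    (F := F) (V := V') (Z := Y') hκ hV'.nonneg hY'.nonneg (by linarith) hb0 (by linarith) hb0'
    hF0 (by linarith) (by rw [hzs] at hl; linarith) hC'
  intro κ' h0 h1
  have := key κ' h0 h1
  rw [sub_add_cancel, sub_add_cancel] at this
  rw [Multiset.sum_add]
  linarith

/-- three lumps at total `5/6 κ` -/
theorem idl3 (R : ExpRules (7 / 8 + d) r s) (hd : 0 ≤ d) {w κ F : ℝ} (hw : 0 ≤ w)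
    (h1 : 9 / 2 * w ≤ κ) (h2 : κ ≤ 8 * w) (hF : 2 * d * (2 / 3 * κ - 2 * w) ≤ F) :
    Idl r w κ 3 (5 / 6 * κ - 3 * w) F := by
  refine idl_T6 R hd (g := κ / 6) 0 1 hw (by linarith) (by linarith) (by linarith) ?_ ?_ ?_ ?_ ?_
  · push_cast; linarith
  · push_cast; linarith
  · push_cast; linarith
  · push_cast; linarith
  · push_cast
    refine le_trans (le_of_eq ?_) hF
    ring

/-- four lumps at total `5/6 κ` -/
theorem idl4 (R : ExpRules (7 / 8 + d) r s) (hd : 0 ≤ d) {w κ F : ℝ} (hw : 0 ≤ w)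
    (h1 : 6 * w ≤ κ) (h2 : κ ≤ 8 * w) (hF : 2 * d * (2 / 3 * κ - 2 * w) ≤ F) :
    Idl r w κ 4 (5 / 6 * κ - 4 * w) F := by
  refine idl_T6 R hd (g := κ / 6 - w) 1 1 hw (by linarith) (by linarith) (by linarith) ?_ ?_ ?_ ?_
    ?_
  · push_cast; linarith
  · push_cast; linarith
  · push_cast; linarith
  · push_cast; linarith
  · push_cast
    refine le_trans (le_of_eq ?_) hF
    ring

/-- three lumps, `{w³ | κ - 15/4 w}` -/
theorem bl3 (R : ExpRules (7 / 8 + d) r s) (hd : 0 ≤ d) {w κ F : ℝ} (hw : 0 ≤ w)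
    (h1 : 9 / 2 * w ≤ κ) (h2 : κ ≤ 43 / 8 * w) (hF : 2 * d * (κ - 7 / 2 * w) ≤ F) :
    Idl r w κ 3 (κ - 15 / 4 * w) F := by
  refine idl_T6 R hd (g := 3 / 4 * w) 0 1 hw (by linarith) (by linarith) (by linarith) ?_ ?_ ?_ ?_
    ?_
  · push_cast; linarith
  · push_cast; linarith
  · push_cast; linarith
  · push_cast; linarith
  · push_cast
    refine le_trans (le_of_eq ?_) hF
    ring

/-- three lumps, `{w³ | (7 κ - 23 w)/9}` -/
theorem bl3' (R : ExpRules (7 / 8 + d) r s) (hd : 0 ≤ d) {w κ F : ℝ} (hw : 0 ≤ w)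
    (h1 : 43 / 8 * w ≤ κ) (h2 : κ ≤ 10 * w) (hF : 2 * d * (5 / 9 * κ - 10 / 9 * w) ≤ F) :
    Idl r w κ 3 ((7 * κ - 23 * w) / 9) F := by
  refine idl_T6 R hd (g := (4 * κ - 8 * w) / 18) 0 1 hw (by linarith) (by linarith) (by linarith)
    ?_ ?_ ?_ ?_ ?_
  · push_cast; linarith
  · push_cast; linarith
  · push_cast; linarith
  · push_cast; linarith
  · push_cast
    refine le_trans (le_of_eq ?_) hF
    ring

/-- four lumps, `{w⁴ | κ - 5 w}` -/
theorem bl4 (R : ExpRules (7 / 8 + d) r s) (hd : 0 ≤ d) {w κ F : ℝ} (hw : 0 ≤ w)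
    (h1 : 5 * w ≤ κ) (h2 : κ ≤ 13 / 2 * w) (hF : 2 * d * (κ - 4 * w) ≤ F) :
    Idl r w κ 4 (κ - 5 * w) F := by
  refine idl_T6 R hd (g := 0) 1 1 hw (by linarith) (by linarith) (by linarith) ?_ ?_ ?_ ?_ ?_
  · push_cast; linarith
  · push_cast; linarith
  · push_cast; linarith
  · push_cast; linarith
  · push_cast
    refine le_trans (le_of_eq ?_) hF
    ring

/-- **columns with a free parameter `ξ` and loss `F'`** (`G' = Z · {y₁, y₂} | m, a`): SUP on `Z`,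
two-factor sides of 777 -/
theorem colF (R : ExpRules (7 / 8 + d) r s) (hd : 0 ≤ d) {κ y₁ y₂ m a ξ F F' : ℝ}
    {Z : Multiset ℝ} (hZ : ∀ y ∈ Z, 0 ≤ y) (ha : 0 ≤ a)
    (hz : 3 / 4 * Z.sum ≤ ξ + F')
    (h79 : 3 / 4 * (m + a) - 7 / 12 * (κ - 3 * ξ - (y₁ + y₂)) ≤ ξ + F' - 3 / 4 * Z.sum)
    (hA : (12 * a + 9 * m + 4 * (y₁ + y₂) - 8 * (κ - 3 * ξ)) / 16 ≤ ξ + F' - 3 / 4 * Z.sum)
    (hs : ∀ i : ℝ, i ≤ y₁ + y₂ → i ≤ κ - 3 * ξ →
      3 / 4 * (m + a + Z.sum) + 2 / 3 * i ≤ 2 / 3 * κ - ξ + F')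
    (hc : a + 3 / 4 * m ≤ 2 / 3 * κ - ξ + F')
    (hF : F' + 2 * d * (Z.sum + m + a) ≤ F) :
    ColX (7 / 8 + d) r κ ξ F (Z + {y₁, y₂}) m a := by
  have hZ0 : 0 ≤ Z.sum := Multiset.sum_nonneg hZ
  refine ⟨?_, ?_⟩
  · intro Y' m' a' i hY' hm0 hm1 ha0 ha1 hi hyi hii
    obtain ⟨Z', P, rfl, hZ', hP⟩ := hY'.of_add
    obtain ⟨c₁, c₂, rfl, hc1, hc1', hc2, hc2'⟩ := hP.pair
    have hZs := hZ'.sum_le
    have hZ0' := hZ'.sum_nonneg
    rw [Multiset.sum_add, sum_pair]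
    have hi1 : c₁ ≤ i := hyi c₁ (Multiset.mem_add.2 (Or.inr (by simp)))
    have hi2 : c₂ ≤ i := hyi c₂ (Multiset.mem_add.2 (Or.inr (by simp)))
    have e0 := supV R hi {c₁, c₂} Z' (ok_pair (m := 0) (a := 0) hc1 hc2 le_rfl le_rfl).1
      hZ'.nonneg hm0 ha0
    have e3 : 2 * d * (Z'.sum + (m' + a')) ≤ 2 * d * (Z.sum + m + a) :=
      mul_le_mul_of_nonneg_left (by linarith) (by linarith)
    rcases le_or_gt i (c₁ + c₂) with hks | hks
    · have e1 := sup_all R hi hc1 hc2 hm0 ha0 hi1 hi2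
      have e2 := hs i (by linarith) hii
      linarith
    · obtain ⟨e, he⟩ : ∃ e, e = max 0 (max (m' + a' - 7 / 9 * (i - (c₁ + c₂)))
        ((12 * a' + 9 * m' + 4 * (c₁ + c₂) - 8 * i) / 12)) := ⟨_, rfl⟩
      have he0 : 0 ≤ e := by rw [he]; exact le_max_left _ _
      have he1 : m' + a' - 7 / 9 * (i - (c₁ + c₂)) ≤ e := by
        rw [he]; exact (le_max_left _ _).trans (le_max_right _ _)
      have he2 : (12 * a' + 9 * m' + 4 * (c₁ + c₂) - 8 * i) / 12 ≤ e := by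
        rw [he]; exact (le_max_right _ _).trans (le_max_right _ _)
      have e1 := side79a R hd hc1 hc2 hm0 ha0 hks.le he0 he1 (by linarith) hi le_rfl hi1 hi2
      have e4 : 3 / 4 * e ≤ (2 * κ + i) / 3 - ξ + F' - i - 3 / 4 * Z'.sum := by
        have : e ≤ 4 / 3 * ((2 * κ + i) / 3 - ξ + F' - i - 3 / 4 * Z'.sum) := by
          rw [he]
          refine max_le ?_ (max_le ?_ ?_)
          · linarith
          · linarith
          · linarith
        linarith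
      linarith
  · intro Y' m' a' hY' hm0 hm1 ha0 ha1 _
    have hYs := hY'.sum_nonneg
    have e3 : 2 * d * m' ≤ 2 * d * (Z.sum + m + a) :=
      mul_le_mul_of_nonneg_left (by linarith) (by linarith)
    linarith

/-- **equal lumps, free `ξ`**: `v` lumps and granular `g` in `X`, `z` lumps in `Z` -/
theorem idl_gen (R : ExpRules (7 / 8 + d) r s) (hd : 0 ≤ d) {w κ c g ξ F F' : ℝ} (v z : ℕ)
    (hw : 0 ≤ w) (hκ : 0 ≤ κ) (hg : 0 ≤ g) (hgc : g ≤ c) (hF' : 0 ≤ F')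
    (hx : v * w + g ≤ ξ) (hξ : 2 * ξ + ((z + 2) * w + (c - g)) ≤ κ + F')
    (hz : 3 / 4 * (z * w) ≤ ξ + F')
    (h79 : 3 / 4 * (c - g) - 7 / 12 * (κ - 3 * ξ - 2 * w) ≤ ξ + F' - 3 / 4 * (z * w))
    (hA : (12 * (c - g) + 8 * w - 8 * (κ - 3 * ξ)) / 16 ≤ ξ + F' - 3 / 4 * (z * w))
    (hs : ∀ i : ℝ, i ≤ 2 * w → i ≤ κ - 3 * ξ →
      3 / 4 * (c - g + z * w) + 2 / 3 * i ≤ 2 / 3 * κ - ξ + F')
    (hc : c - g ≤ 2 / 3 * κ - ξ + F')
    (hF : F' + 2 * d * (z * w + (c - g)) ≤ F) : Idl r w κ (v + (z + 2)) c F := by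
  intro Y m a hY hYw hm ha hma
  obtain ⟨b, b', hb0, hb, hb0', hb', hbg, hrest⟩ := split_g hm ha hma hg hgc
  have hvw : 0 ≤ (v : ℝ) * w := mul_nonneg (Nat.cast_nonneg v) hw
  have hzw : 0 ≤ (z : ℝ) * w := mul_nonneg (Nat.cast_nonneg z) hw
  have hsh := sh_replicate Y hYw
  rw [hY, Multiset.replicate_add, Multiset.replicate_add] at hsh
  obtain ⟨V', Y', rfl, hV', hY'⟩ := hsh.of_add
  have hVs := hV'.sum_le
  rw [Multiset.sum_replicate, nsmul_eq_mul] at hVs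
  have hpair : Multiset.replicate 2 w = ({w, w} : Multiset ℝ) := by
    rw [Multiset.replicate_succ, Multiset.replicate_one]; rfl
  rw [hpair] at hY'
  have hzs : (Multiset.replicate z w).sum = z * w := by
    rw [Multiset.sum_replicate, nsmul_eq_mul]
  have hcg : 0 ≤ 2 * d * (z * w + (c - g)) := by
    have : 0 ≤ c - g := by linarith
    positivity
  have hdF : F' + 2 * d * ((Multiset.replicate z w).sum + (m - b) + (a - b')) ≤ F := by
    refine le_trans (add_le_add_right (mul_le_mul_of_nonneg_left ?_ (by linarith)) _) hF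
    rw [hzs]; linarith
  have hC : ColX (7 / 8 + d) r κ ξ F (Multiset.replicate z w + {w, w}) (m - b) (a - b') := by
    refine colF R hd (F' := F')
      (fun y hy => by rw [Multiset.eq_of_mem_replicate hy]; exact hw)
      (by linarith) ?_ ?_ ?_ ?_ ?_ hdF
    · rw [hzs]; exact hz
    · rw [hzs]; linarith
    · rw [hzs]; linarith
    · intro i hi1 hi2
      rw [hzs]
      have := hs i (by linarith) hi2
      linarith
    · linarith
  have hC' := hC.mono hY' le_rfl le_rfl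
  have hYs := hY'.sum_le
  rw [Multiset.sum_add, hzs, sum_pair] at hYs
  have key := side_xi R (κ := κ) (ξ := ξ) (m := m - b) (b := b) (a := a - b') (b' := b')
    (F := F) (V := V') (Z := Y') hκ hV'.nonneg hY'.nonneg (by linarith) hb0 (by linarith) hb0'
    (by linarith) (by linarith) (by linarith) hC'
  intro κ' h0 h1
  have := key κ' h0 h1
  rw [sub_add_cancel, sub_add_cancel] at this
  rw [Multiset.sum_add]
  linarith

/-- three lumps below `9/2 w`: `{w³ | (κ - 9/4 w)/3}` with loss `(9/2 w - κ)/3` -/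
theorem bl3s (R : ExpRules (7 / 8 + d) r s) (hd : 0 ≤ d) {w κ F : ℝ} (hw : 0 ≤ w)
    (h1 : 9 / 4 * w ≤ κ) (h2 : κ ≤ 9 / 2 * w) (hF : (9 / 2 * w - κ) / 3 + 2 * d * w ≤ F) :
    Idl r w κ 3 ((κ - 9 / 4 * w) / 3) F := by
  refine idl_gen R hd (g := (κ - 9 / 4 * w) / 3) (ξ := (κ - 9 / 4 * w) / 3)
    (F' := (9 / 2 * w - κ) / 3) 0 1 hw (by linarith) (by linarith) le_rfl (by linarith)
    ?_ ?_ ?_ ?_ ?_ ?_ ?_ ?_
  · push_cast; linarith
  · push_cast; linarith
  · push_cast; linarith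
  · push_cast; linarith
  · push_cast; linarith
  · intro i hi1 hi2
    push_cast; linarith
  · linarith
  · push_cast
    refine le_trans (le_of_eq ?_) hF
    ring

end Crest.Agent.R017.C161
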