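import Crest.Agent.R017.EqA_177

/-!
# Row 17, section D, C1 (helper708): the ceil step for small equal lumps, `κ ≥ 15`

Unit = lump bound. `IdS r κ q c F` : every side with `q` lumps of length at most `1` and granular
mass at most `c` is ideal up to `F` for the families `≤ κ` (with the term `(κ - κ')/3`).
`ceil_step` : `IdS (κ - 27/4) (q - 5) (c - 5/8) F₀ → IdS κ q c F` for `κ ≥ 15`, `11 ≤ q`,
`q ≤ 2/3 κ + 1`, `q + c = 5/6 κ`; `X = {1, 1 | 1/4}`.
`col_eq3` is `Eq177.col_eq` (helper177) with one more closure: (LV) with `K` copies of one lump,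
length at least `4/3 i` (round-up).
-/

set_option autoImplicit false

noncomputable section

namespace Crest.Agent.R017.C1D708

open Crest.Agent.R017.ER911 Crest.Agent.R017.Eq177 Crest.Agent.R017.SC777

variable {θ : ℝ} {r s : EF}

/-- the closures of `Eq177.Clo` and the round-up -/
def Clo3 (r : EF) (i w T : ℝ) (p : ℕ) (c X u : ℝ) : Prop :=
  Clo r i w T p c X u ∨
  (∃ K : ℕ, 4 / 3 * i ≤ K * w ∧ 0 ≤ X ∧
    1 / 3 * (K * w) - 2 * (K * X) + p * (2 / 3 * w + 2 * X) + c * (2 / 3 + 2 * u) ≤ T)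

/-- **the level rule for lumps of length at most `w`** -/
theorem col_eq3 (L : ExpLv θ r) (hθ2 : 1 / 2 ≤ θ) {p : ℕ} (hp : 0 < p)
    {i w c T : ℝ} (hi : 0 ≤ i)
    (H0 : ∀ X : ℝ, X ≤ (θ - 5 / 6) * w → ∃ (k : ℕ) (e : ℝ), Mom r i w k 0 e ∧
      i + e + (p - k) * (2 / 3 * w + 2 * X) ≤ T)
    (H : ∀ X u : ℝ, X ≤ (θ - 5 / 6) * w → -(1 / 3) ≤ u → u ≤ θ - 5 / 6 → Clo3 r i w T p c X u)
    {Z : Multiset ℝ} (hZp : Z.card = p) (hZ : ∀ y ∈ Z, 0 ≤ y ∧ y ≤ w ∧ y ≤ i) {m a : ℝ}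
    (hm : 0 ≤ m) (ha : 0 ≤ a) (hma : m + a ≤ c) :
    r i Z m a ≤ (Z.sum + m + a) + T := by
  -- write `Z` as a family
  obtain ⟨Y, rfl⟩ : ∃ Y : Fin p → ℝ, Z = Finset.univ.val.map Y := by
    refine ⟨fun j => Z.toList.get (Fin.cast (by rw [Multiset.length_toList, hZp]) j), ?_⟩
    rw [Fin.univ_val_map]
    conv_lhs => rw [← Multiset.coe_toList Z]
    congr 1
    subst hZp
    refine List.ext_get (by simp) ?_
    intro n h1 h2
    simp
  have hY : ∀ j, 0 ≤ Y j ∧ Y j ≤ w ∧ Y j ≤ i := fun j => hZ (Y j)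
    (Multiset.mem_map.2 ⟨j, Finset.mem_univ_val j, rfl⟩)
  have hsumY : (Finset.univ.val.map Y).sum = ∑ j, Y j := rfl
  rw [hsumY]
  refine L.lev p Y i m a ((∑ j, Y j + m + a) + T) hi (fun j => ⟨(hY j).1, (hY j).2.2⟩) hm ha ?_
  intro y x m₁ a₁ ω α hy hm0 hm1 ha0 ha1 hx hω hα
  have : Nonempty (Fin p) := ⟨⟨0, hp⟩⟩
  obtain ⟨b, hb⟩ := Finite.exists_max (fun j => x j + (w - y j) / 2)
  have hyw : ∀ j, y j ≤ w := fun j => (hy j).2.trans (hY j).2.1
  have hyi : ∀ j, y j ≤ i := fun j => (hy j).2.trans (hY j).2.2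
  obtain ⟨X, hX⟩ : ∃ X, X = x b + (w - y b) / 2 - 5 / 6 * w := ⟨_, rfl⟩
  have hXw : X ≤ (θ - 5 / 6) * w := by
    have h1 := hx b
    have h2 := (hy b).1
    have h3 := hyw b
    nlinarith
  have hxy : ∀ j, 2 * x j - y j ≤ 2 / 3 * w + 2 * X := by
    intro j
    have := hb j
    linarith
  have hsx : 2 * (∑ j, x j) - ∑ j, y j ≤ p * (2 / 3 * w + 2 * X) := by
    have h1 : ∑ j, (2 * x j - y j) ≤ ∑ _j : Fin p, (2 / 3 * w + 2 * X) :=
      Finset.sum_le_sum fun j _ => hxy j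
    rw [Finset.sum_sub_distrib, ← Finset.mul_sum, Finset.sum_const, Finset.card_univ,
      Fintype.card_fin, nsmul_eq_mul] at h1
    exact h1
  have hsy : ∑ j, y j ≤ ∑ j, Y j := Finset.sum_le_sum fun j _ => (hy j).2
  have hxb : y b - 2 * x b = -(2 / 3 * w + 2 * X) := by rw [hX]; ring
  have hω0 : m₁ = 0 → ω ≤ 0 := fun h => by rw [h] at hω; linarith
  have hα0 : a₁ = 0 → α ≤ 0 := fun h => by rw [h] at hα; linarith
  -- closure without granular mass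
  have main0 : 2 * (ω + α) ≤ m₁ + a₁ →
      (∃ (n : Fin p → ℕ) (f g : ℝ), 0 ≤ f ∧ (m₁ = 0 → f = 0) ∧ 0 ≤ g ∧ (a₁ = 0 → g = 0) ∧
        r i (∑ j, Multiset.replicate (n j) (y j)) f g -
          2 * ((∑ j, (n j : ℝ) * x j) + f * (ω / m₁) + g * (α / a₁)) +
          2 * ((∑ j, x j) + ω + α) ≤ (∑ j, Y j + m + a) + T) := by
    intro hωα
    obtain ⟨k, e, hMom, hk⟩ := H0 X hXw
    refine ⟨Pi.single b k, 0, 0, le_rfl, fun _ => rfl, le_rfl, fun _ => rfl, ?_⟩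
    rw [sum_replicate_single, sum_single_mul]
    have h1 := hMom (y b) 0 0 (hy b).1 (hyw b) (hyi b) le_rfl le_rfl (by norm_num)
    have h2 : (k : ℝ) * (y b - 2 * x b) = k * (-(2 / 3 * w + 2 * X)) := by rw [hxb]
    have h3 : ((p : ℝ) - k) * (2 / 3 * w + 2 * X) =
      p * (2 / 3 * w + 2 * X) - k * (2 / 3 * w + 2 * X) := by ring
    have h4 : (k : ℝ) * (y b - 2 * x b) = k * y b - 2 * (k * x b) := by ring
    rw [h4] at h2
    rw [h3] at hk
    have h5 : (k : ℝ) * (-(2 / 3 * w + 2 * X)) = -(k * (2 / 3 * w + 2 * X)) := by ring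
    rw [h5] at h2
    linarith
  -- closures with granular mass of density `D`
  have mainG : ∀ D : ℝ, 1 / 2 ≤ D → D ≤ θ → 2 * (ω + α) ≤ 2 * D * (m₁ + a₁) →
      ((m₁ ≠ 0 ∧ ω / m₁ = D) ∨ (a₁ ≠ 0 ∧ α / a₁ = D)) →
      (∃ (n : Fin p → ℕ) (f g : ℝ), 0 ≤ f ∧ (m₁ = 0 → f = 0) ∧ 0 ≤ g ∧ (a₁ = 0 → g = 0) ∧
        LVok θ i ((∑ j, (n j : ℝ) * y j) + f + g)
          ((∑ j, (n j : ℝ) * x j) + f * (ω / m₁) + g * (α / a₁)) ∧
        2 * (((∑ j, (n j : ℝ) * y j) + f + g) -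
            ((∑ j, (n j : ℝ) * x j) + f * (ω / m₁) + g * (α / a₁))) +
          2 * ((∑ j, x j) + ω + α) ≤ (∑ j, Y j + m + a) + T) ∨
      (∃ (n : Fin p → ℕ) (f g : ℝ), 0 ≤ f ∧ (m₁ = 0 → f = 0) ∧ 0 ≤ g ∧ (a₁ = 0 → g = 0) ∧
        r i (∑ j, Multiset.replicate (n j) (y j)) f g -
          2 * ((∑ j, (n j : ℝ) * x j) + f * (ω / m₁) + g * (α / a₁)) +
          2 * ((∑ j, x j) + ω + α) ≤ (∑ j, Y j + m + a) + T) := by
    intro D hD1 hD2 hωα htyp
    obtain ⟨u, hu⟩ : ∃ u, u = D - 5 / 6 := ⟨_, rfl⟩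
    have hDu : D = 5 / 6 + u := by rw [hu]; ring
    have hgr : 2 * (ω + α) - (m₁ + a₁) ≤ c * (2 / 3 + 2 * u) := by
      have h1 : (m₁ + a₁) * (2 * D - 1) ≤ c * (2 * D - 1) :=
        mul_le_mul_of_nonneg_right (by linarith) (by linarith)
      have h2 : c * (2 * D - 1) = c * (2 / 3 + 2 * u) := by rw [hDu]; ring
      linarith
    -- the granular filler of length `φ`
    have fill : ∀ φ : ℝ, 0 ≤ φ → ∃ f g : ℝ, 0 ≤ f ∧ (m₁ = 0 → f = 0) ∧ 0 ≤ g ∧
        (a₁ = 0 → g = 0) ∧ f + g = φ ∧ f * (ω / m₁) + g * (α / a₁) = φ * D := by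
      intro φ hφ
      rcases htyp with ⟨h, h'⟩ | ⟨h, h'⟩
      · exact ⟨φ, 0, hφ, fun h0 => absurd h0 h, le_rfl, fun _ => rfl, by ring, by rw [h']; ring⟩
      · exact ⟨0, φ, le_rfl, fun _ => rfl, hφ, fun h0 => absurd h0 h, by ring, by rw [h']; ring⟩
    rcases H X u hXw (by linarith) (by linarith) with
      (⟨k, g, e, hg, hMom, hk⟩ | ⟨K, hK, hval, hT⟩) | ⟨K, hK, hX0, hT⟩
    · right
      obtain ⟨f', g', hf, hf0, hg1, hg0, hs, hd⟩ := fill g hg
      refine ⟨Pi.single b k, f', g', hf, hf0, hg1, hg0, ?_⟩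
      rw [sum_replicate_single, sum_single_mul]
      have h1 := hMom (y b) f' g' (hy b).1 (hyw b) (hyi b) hf hg1 hs.le
      have h2 : (k : ℝ) * y b - 2 * (k * x b) = -(k * (2 / 3 * w + 2 * X)) := by
        have : (k : ℝ) * (y b - 2 * x b) = k * (-(2 / 3 * w + 2 * X)) := by rw [hxb]
        linarith
      have h3 : ((p : ℝ) - k) * (2 / 3 * w + 2 * X) =
        p * (2 / 3 * w + 2 * X) - k * (2 / 3 * w + 2 * X) := by ring
      have h4 : (c - g) * (2 / 3 + 2 * u) = c * (2 / 3 + 2 * u) - g * (2 / 3 + 2 * u) := by ring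
      have h5 : 2 * (g * D) - g = g * (2 / 3 + 2 * u) := by rw [hDu]; ring
      have h6 : (k : ℝ) * x b + f' * (ω / m₁) + g' * (α / a₁) = k * x b + g * D := by
        rw [add_assoc, hd]
      rw [h6]
      rw [h3, h4] at hk
      linarith
    · left
      have hwb := hyw b
      have hK0 : (0 : ℝ) ≤ K := Nat.cast_nonneg K
      have hyb := (hy b).1
      have hφ : 0 ≤ 4 / 3 * i - K * y b := by
        have : (K : ℝ) * y b ≤ K * w := mul_le_mul_of_nonneg_left hwb hK0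
        linarith
      obtain ⟨f', g', hf, hf0, hg1, hg0, hs, hd⟩ := fill _ hφ
      refine ⟨Pi.single b K, f', g', hf, hf0, hg1, hg0, ?_⟩
      rw [sum_single_mul, sum_single_mul]
      have h6 : (K : ℝ) * x b + f' * (ω / m₁) + g' * (α / a₁) =
          K * x b + (4 / 3 * i - K * y b) * D := by
        rw [add_assoc, hd]
      have h7 : (K : ℝ) * y b + f' + g' = 4 / 3 * i := by rw [add_assoc, hs]; ring
      rw [h6, h7]
      -- the level of the monomial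
      have h8 : (K : ℝ) * x b + (4 / 3 * i - K * y b) * D = 5 / 6 * (4 / 3 * i) +
          (K * X + (4 / 3 * i - K * w) * u) + K * (w - y b) * (1 / 3 + u) := by
        rw [hDu, hX]; ring
      have h9 : 0 ≤ K * (w - y b) * (1 / 3 + u) :=
        mul_nonneg (mul_nonneg hK0 (by linarith)) (by linarith)
      rw [h8]
      refine ⟨Or.inl ⟨le_rfl, by linarith⟩, ?_⟩
      linarith
    · left
      have hwb := hyw b
      have hK0 : (0 : ℝ) ≤ K := Nat.cast_nonneg K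
      have hyb := (hy b).1
      have hxb' : x b = X + (w - y b) / 3 + 5 / 6 * y b := by rw [hX]; ring
      have hKX : 0 ≤ (K : ℝ) * X := mul_nonneg hK0 hX0
      have hKw : 0 ≤ (K : ℝ) * (w - y b) := mul_nonneg hK0 (by linarith)
      rcases le_total ((K : ℝ) * y b) (4 / 3 * i) with hle | hge
      · have hφ : 0 ≤ 4 / 3 * i - K * y b := by linarith
        obtain ⟨f', g', hf, hf0, hg1, hg0, hs, hd⟩ := fill _ hφ
        refine ⟨Pi.single b K, f', g', hf, hf0, hg1, hg0, ?_⟩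
        rw [sum_single_mul, sum_single_mul]
        have h6 : (K : ℝ) * x b + f' * (ω / m₁) + g' * (α / a₁) =
            K * x b + (4 / 3 * i - K * y b) * D := by
          rw [add_assoc, hd]
        have h7 : (K : ℝ) * y b + f' + g' = 4 / 3 * i := by rw [add_assoc, hs]; ring
        rw [h6, h7]
        have h8 : (K : ℝ) * x b + (4 / 3 * i - K * y b) * D = 5 / 6 * (4 / 3 * i) +
            (K * X + (K * w - 4 / 3 * i) / 3) + (4 / 3 * i - K * y b) * (1 / 3 + u) := by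
          rw [hDu, hxb']; ring
        have h9 : 0 ≤ (4 / 3 * i - K * y b) * (1 / 3 + u) :=
          mul_nonneg hφ (by linarith)
        rw [h8]
        refine ⟨Or.inl ⟨le_rfl, by linarith⟩, ?_⟩
        linarith
      · refine ⟨Pi.single b K, 0, 0, le_rfl, fun _ => rfl, le_rfl, fun _ => rfl, ?_⟩
        rw [sum_single_mul, sum_single_mul]
        have h8 : (K : ℝ) * x b = K * X + K * (w - y b) / 3 + 5 / 6 * (K * y b) := by
          rw [hxb']; ring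
        rw [h8]
        have h10 : (K : ℝ) * (w - y b) = K * w - K * y b := by ring
        rw [h10] at hKw ⊢
        refine ⟨Or.inl ⟨by linarith, by linarith⟩, ?_⟩
        linarith
  -- choose the granular density
  by_cases h12 : 2 * (ω + α) ≤ m₁ + a₁
  · exact Or.inr (Or.inl (main0 h12))
  · have h12 := not_le.mp h12
    have hmp : m₁ ≠ 0 ∨ a₁ ≠ 0 := by
      by_contra hcon
      rw [not_or, not_not, not_not] at hcon
      have h1 := hω0 hcon.1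
      have h2 := hα0 hcon.2
      rw [hcon.1, hcon.2] at h12
      linarith
    -- densities
    have key : ∀ D : ℝ, D ≤ θ → (ω ≤ D * m₁) → (α ≤ D * a₁) →
        ((m₁ ≠ 0 ∧ ω / m₁ = D) ∨ (a₁ ≠ 0 ∧ α / a₁ = D)) → 1 / 2 ≤ D := by
      intro D _ h1 h2 _
      by_contra hcon
      have hcon := not_le.mp hcon
      have h3 : D * m₁ ≤ 1 / 2 * m₁ := mul_le_mul_of_nonneg_right hcon.le hm0
      have h4 : D * a₁ ≤ 1 / 2 * a₁ := mul_le_mul_of_nonneg_right hcon.le ha0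
      linarith
    have concl : ∀ D : ℝ, D ≤ θ → (ω ≤ D * m₁) → (α ≤ D * a₁) →
        ((m₁ ≠ 0 ∧ ω / m₁ = D) ∨ (a₁ ≠ 0 ∧ α / a₁ = D)) → _ := fun D h0 h1 h2 h3 =>
      mainG D (key D h0 h1 h2 h3) h0 (by linarith [h1, h2]) h3
    have hωm : m₁ ≠ 0 → ω / m₁ * m₁ = ω := fun h => div_mul_cancel₀ ω h
    have hαm : a₁ ≠ 0 → α / a₁ * a₁ = α := fun h => div_mul_cancel₀ α h
    have hωθ : m₁ ≠ 0 → ω / m₁ ≤ θ := fun h => by
      have hpos : 0 < m₁ := lt_of_le_of_ne hm0 (Ne.symm h)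
      rw [div_le_iff₀ hpos]; exact hω
    have hαθ : a₁ ≠ 0 → α / a₁ ≤ θ := fun h => by
      have hpos : 0 < a₁ := lt_of_le_of_ne ha0 (Ne.symm h)
      rw [div_le_iff₀ hpos]; exact hα
    have fin : ∃ D : ℝ, D ≤ θ ∧ (ω ≤ D * m₁) ∧ (α ≤ D * a₁) ∧
        ((m₁ ≠ 0 ∧ ω / m₁ = D) ∨ (a₁ ≠ 0 ∧ α / a₁ = D)) := by
      by_cases hm' : m₁ = 0
      · have ha' : a₁ ≠ 0 := by
          rcases hmp with h | h
          · exact absurd hm' h
          · exact h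
        refine ⟨α / a₁, hαθ ha', ?_, (hαm ha').ge, Or.inr ⟨ha', rfl⟩⟩
        rw [hm', mul_zero]; exact hω0 hm'
      · by_cases ha' : a₁ = 0
        · refine ⟨ω / m₁, hωθ hm', (hωm hm').ge, ?_, Or.inl ⟨hm', rfl⟩⟩
          rw [ha', mul_zero]; exact hα0 ha'
        · rcases le_total (ω / m₁) (α / a₁) with h | h
          · refine ⟨α / a₁, hαθ ha', ?_, (hαm ha').ge, Or.inr ⟨ha', rfl⟩⟩
            calc ω = ω / m₁ * m₁ := (hωm hm').symm
              _ ≤ α / a₁ * m₁ := mul_le_mul_of_nonneg_right h hm0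
          · refine ⟨ω / m₁, hωθ hm', (hωm hm').ge, ?_, Or.inl ⟨hm', rfl⟩⟩
            calc α = α / a₁ * a₁ := (hαm ha').symm
              _ ≤ ω / m₁ * a₁ := mul_le_mul_of_nonneg_right h ha0
    obtain ⟨D, h0, h1, h2, h3⟩ := fin
    rcases concl D h0 h1 h2 h3 with h | h
    · exact Or.inl h
    · exact Or.inr (Or.inl h)


/-- every side with `q` lumps of length at most `1` and granular mass at most `c` is ideal up to
`F` for the families at most `κ` -/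
def IdS (r : EF) (κ : ℝ) (q : ℕ) (c F : ℝ) : Prop :=
  ∀ (Y : Multiset ℝ) (m a : ℝ), Y.card = q → (∀ y ∈ Y, 0 ≤ y ∧ y ≤ 1) → 0 ≤ m → 0 ≤ a →
    m + a ≤ c → ∀ κ' : ℝ, 0 ≤ κ' → κ' ≤ κ →
      r κ' Y m a + (κ - κ') / 3 ≤ κ + (Y.sum + m + a) + F

theorem IdS.mono {κ c c' F F' : ℝ} {q : ℕ} (h : IdS r κ q c F) (hc : c' ≤ c) (hF : F ≤ F') :
    IdS r κ q c' F' := fun Y m a h1 h2 h3 h4 h5 κ' h6 h7 =>
  (h Y m a h1 h2 h3 h4 (h5.trans hc) κ' h6 h7).trans (by linarith)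

theorem IdS.mom {i₀ g F₀ i : ℝ} {k : ℕ} (h : IdS r i₀ k g F₀) (hi : 0 ≤ i) (hii : i ≤ i₀) :
    Mom r i 1 k g (2 / 3 * (i₀ - i) + F₀) := by
  intro a m m' ha0 ha1 _ hm hm' hmm
  have := h (Multiset.replicate k a) m m' (Multiset.card_replicate k a)
    (fun y hy => by rw [Multiset.eq_of_mem_replicate hy]; exact ⟨ha0, ha1⟩) hm hm' hmm i hi hii
  rw [Multiset.sum_replicate, nsmul_eq_mul] at this
  linarith

theorem mom_tf (R : ExpRules θ r s) {i : ℝ} : Mom r i 1 2 0 0 := by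
  intro a m m' ha0 _ hai hm hm' hmm
  have h1 : m = 0 := by linarith
  have h2 : m' = 0 := by linarith
  subst h1 h2
  have := R.tf i a a ha0 ha0 hai hai
  have h3 : Multiset.replicate 2 a = ({a, a} : Multiset ℝ) := rfl
  rw [h3]
  push_cast
  linarith

/-- all columns of the ceil step -/
theorem clo708 {d κ i c F F₀ : ℝ} {k : ℕ} (hd : 0 ≤ d) (hκ : 15 ≤ κ) (hk : 6 ≤ k)
    (hk2 : (k : ℝ) + 4 ≤ 2 / 3 * κ) (hc : c = 5 / 6 * κ - k - 21 / 4) (hi : 0 ≤ i)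
    (hi2 : i ≤ κ - 27 / 4) (hF : 0 ≤ F) (hF0 : F₀ + 6 * d ≤ F)
    (hF1 : 2 * d * (5 / 6 * κ - 9 / 4) ≤ F + (κ / 2 - 27 / 4) / 12)
    (hF3 : 2 * d * (k + 1) ≤ F + (κ - 15) / 18)
    (hM : Mom r i 1 k (c - 3 / 8) (2 / 3 * (κ - 27 / 4 - i) + F₀)) (hT : Mom r i 1 2 0 0)
    {X u : ℝ} (hX : X ≤ 1 / 24 + d) (hu : u ≤ 1 / 24 + d) :
    Clo3 r i 1 ((2 * κ + i) / 3 - 9 / 4 + F) (k + 3) c X u := by
  have hk6 : (6 : ℝ) ≤ k := by exact_mod_cast hk
  by_cases hP : 6 * X + 3 / 4 * u ≤ F - F₀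
  · refine Or.inl (Or.inl ⟨k, c - 3 / 8, _, by rw [hc]; linarith, hM, ?_⟩)
    push_cast
    linarith
  have hP := not_le.mp hP
  rcases le_or_gt X u with hXu | hXu
  · -- pure granular
    have hu0 : 0 ≤ u := by linarith
    refine Or.inl (Or.inr ⟨0, ?_, ?_, ?_⟩)
    · push_cast; linarith
    · push_cast
      have : 0 ≤ (4 / 3 * i) * u := mul_nonneg (by linarith) hu0
      linarith
    · push_cast
      have h1 : ((k : ℝ) + 3) * X ≤ (k + 3) * u := mul_le_mul_of_nonneg_left hXu (by linarith)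
      have h2 : (5 / 6 * κ - 9 / 4 - 4 / 3 * i) * u ≤
          (κ / 9 - 3 / 4 - i / 9 + F) / 2 := by
        rcases le_total (5 / 6 * κ - 9 / 4 - 4 / 3 * i) 0 with h | h
        · have h3 : (5 / 6 * κ - 9 / 4 - 4 / 3 * i) * u ≤ 0 :=
            mul_nonpos_of_nonpos_of_nonneg h hu0
          linarith
        · have h3 := mul_le_mul_of_nonneg_left hu h
          have h4 : 0 ≤ d * i := mul_nonneg hd hi
          linarith
      have h5 : (5 / 6 * κ - 9 / 4 - 4 / 3 * i) * u = (k + 3) * u + c * u - 4 / 3 * i * u := by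
        rw [hc]; ring
      rw [hc] at *
      linarith
  have hX0 : 0 < X := by linarith
  have hk2' : 2 * d * (k + 3 - 3) ≤ F + (κ - 15) / 18 := by linarith
  -- exact (LV) with `K` lumps
  have exact_ : ∀ K : ℕ, (K : ℝ) ≤ 4 / 3 * i → 4 / 3 * i < K + 1 →
      0 ≤ K * X + (4 / 3 * i - K) * u → (0 ≤ u ∨ (u ≤ 0 ∧ 2 ≤ K)) →
      Clo3 r i 1 ((2 * κ + i) / 3 - 9 / 4 + F) (k + 3) c X u := by
    intro K hK1 hK2 hV hK3
    refine Or.inl (Or.inr ⟨K, by linarith, by linarith, ?_⟩)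
    push_cast
    have hval : i / 9 + 2 * (((k : ℝ) + 3 - K) * X) + 2 * ((c - 4 / 3 * i + K) * u) ≤
        κ / 9 - 3 / 4 + F := by
      have hc1 : 0 ≤ c - 4 / 3 * i + K := by rw [hc]; linarith
      rcases hK3 with hu0 | ⟨hu0, hK3⟩
      · rcases le_total (K : ℝ) (k + 3) with h | h
        · have h1 := mul_le_mul_of_nonneg_left hX (sub_nonneg.2 h)
          have h2 := mul_le_mul_of_nonneg_left hu hc1
          have h4 : 0 ≤ d * i := mul_nonneg hd hi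
          have h5 : ((k : ℝ) + 3 - K) * (1 / 24 + d) + (c - 4 / 3 * i + K) * (1 / 24 + d) =
            (5 / 6 * κ - 9 / 4 - 4 / 3 * i) * (1 / 24 + d) := by rw [hc]; ring
          linarith
        · -- `K ≥ k + 3`
          have h1 : ((k : ℝ) + 3 - K) * X ≤ (k + 3 - K) * u :=
            mul_le_mul_of_nonpos_left hXu.le (sub_nonpos.2 h)
          have h5 : ((k : ℝ) + 3 - K) * u + (c - 4 / 3 * i + K) * u =
            (5 / 6 * κ - 9 / 4 - 4 / 3 * i) * u := by rw [hc]; ring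
          have h6 : (5 / 6 * κ - 9 / 4 - 4 / 3 * i) * u ≤ (κ / 9 - 3 / 4 - i / 9 + F) / 2 := by
            rcases le_total (5 / 6 * κ - 9 / 4 - 4 / 3 * i) 0 with h | h
            · have h3 : (5 / 6 * κ - 9 / 4 - 4 / 3 * i) * u ≤ 0 :=
                mul_nonpos_of_nonpos_of_nonneg h hu0
              linarith
            · have h3 := mul_le_mul_of_nonneg_left hu h
              have h4 : 0 ≤ d * i := mul_nonneg hd hi
              linarith
          linarith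
      · have hK3' : (2 : ℝ) ≤ K := by exact_mod_cast hK3
        have h2 : (c - 4 / 3 * i + K) * u ≤ 0 := mul_nonpos_of_nonneg_of_nonpos hc1 hu0
        rcases le_total (K : ℝ) (k + 3) with h | h
        · have h1 := mul_le_mul_of_nonneg_left hX (sub_nonneg.2 h)
          have h4 : 2 * d * (k + 3 - K) ≤ 2 * d * (k + 3 - 2) :=
            mul_le_mul_of_nonneg_left (by linarith) (by linarith)
          linarith
        · have h1 : ((k : ℝ) + 3 - K) * X ≤ 0 :=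
            mul_nonpos_of_nonpos_of_nonneg (sub_nonpos.2 h) hX0.le
          linarith
    linarith
  have hfl : (⌊4 / 3 * i⌋₊ : ℝ) ≤ 4 / 3 * i := Nat.floor_le (by linarith)
  have hfl' : 4 / 3 * i < ⌊4 / 3 * i⌋₊ + 1 := Nat.lt_floor_add_one _
  rcases le_or_gt 0 u with hu0 | hu0
  · -- `0 ≤ u < X`
    refine exact_ ⌊4 / 3 * i⌋₊ hfl hfl' ?_ (Or.inl hu0)
    have h1 : 0 ≤ (⌊4 / 3 * i⌋₊ : ℝ) * X := mul_nonneg (Nat.cast_nonneg _) hX0.le
    have h2 := mul_nonneg (sub_nonneg.2 hfl) hu0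
    linarith
  -- `u < 0 < X`
  rcases le_or_gt i (5 / 2) with hi5 | hi5
  · -- small columns: TF
    refine Or.inl (Or.inl ⟨2, 0, 0, le_rfl, hT, ?_⟩)
    push_cast
    have h1 : c * u ≤ 0 := mul_nonpos_of_nonneg_of_nonpos (by rw [hc]; linarith) hu0.le
    have h2 : ((k : ℝ) + 1) * X ≤ (k + 1) * (1 / 24 + d) :=
      mul_le_mul_of_nonneg_left hX (by linarith)
    rw [hc] at *
    linarith
  obtain ⟨K, hKdef⟩ : ∃ K, K = ⌊4 / 3 * i⌋₊ := ⟨_, rfl⟩
  rw [← hKdef] at hfl hfl'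
  have hK3 : 3 ≤ K := by
    have : (2 : ℝ) < K := by linarith
    have : 2 < K := by exact_mod_cast this
    omega
  have hK3' : (3 : ℝ) ≤ K := by exact_mod_cast hK3
  rcases le_or_gt 8 K with hK8 | hK8
  · have hK8' : (8 : ℝ) ≤ K := by exact_mod_cast hK8
    refine exact_ K hfl hfl' ?_ (Or.inr ⟨hu0.le, by omega⟩)
    have h1 : 8 * X ≤ K * X := mul_le_mul_of_nonneg_right hK8' hX0.le
    have h2 : (4 / 3 * i - K) * (-u) ≤ 1 * (-u) :=
      mul_le_mul_of_nonneg_right (by linarith) (by linarith)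
    linarith
  have hK7 : (K : ℝ) ≤ 7 := by
    have : K ≤ 7 := by omega
    exact_mod_cast this
  rcases le_or_gt (4 / 3 * i - K) (1 / 3) with hf | hf
  · refine exact_ K hfl hfl' ?_ (Or.inr ⟨hu0.le, by omega⟩)
    have h1 : 3 * X ≤ K * X := mul_le_mul_of_nonneg_right hK3' hX0.le
    have h2 : (4 / 3 * i - K) * (-u) ≤ 1 / 3 * (-u) :=
      mul_le_mul_of_nonneg_right hf (by linarith)
    linarith
  · -- round-up
    refine Or.inr ⟨K + 1, by push_cast; linarith, hX0.le, ?_⟩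
    push_cast
    have h1 : c * u ≤ 0 := mul_nonpos_of_nonneg_of_nonpos (by rw [hc]; linarith) hu0.le
    have h2 : ((k : ℝ) + 2 - K) * X ≤ (k + 2 - K) * (1 / 24 + d) :=
      mul_le_mul_of_nonneg_left hX (by linarith)
    have h4 : 2 * d * (k + 2 - K) ≤ 2 * d * (k + 3 - 2) :=
      mul_le_mul_of_nonneg_left (by linarith) (by linarith)
    rw [hc] at *
    linarith

/-- **the ceil step**: `X = {1, 1 | 1/4}`, `k = q - 5` -/
theorem ceil_step {d κ F F₀ : ℝ} {k : ℕ} (R : ExpRules (7 / 8 + d) r s) (L : ExpLv (7 / 8 + d) r)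
    (hd : 0 ≤ d) (hd8 : d ≤ 1 / 8) (hκ : 15 ≤ κ) (hk : 6 ≤ k) (hk2 : (k : ℝ) + 4 ≤ 2 / 3 * κ)
    (hk3 : κ / 6 ≤ k + 3) (hF : 0 ≤ F) (hF0 : F₀ + 6 * d ≤ F)
    (hF1 : 2 * d * (5 / 6 * κ - 9 / 4) ≤ F + (κ / 2 - 27 / 4) / 12)
    (hF3 : 2 * d * (k + 1) ≤ F + (κ - 15) / 18)
    (IH : IdS r (κ - 27 / 4) k (5 / 6 * (κ - 27 / 4) - k) F₀) :
    IdS r κ (k + 5) (5 / 6 * κ - (k + 5 : ℕ)) F := by
  obtain ⟨c, hc⟩ : ∃ c, c = 5 / 6 * κ - k - 21 / 4 := ⟨_, rfl⟩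
  have hIHc : 5 / 6 * (κ - 27 / 4) - k = c - 3 / 8 := by rw [hc]; ring
  rw [hIHc] at IH
  intro Y m a hcard hY hm ha hma κ' hκ0 hκ'
  push_cast at hma
  have hc1 : 1 ≤ c := by rw [hc]; linarith
  -- split off two lumps
  obtain ⟨y₁, Y₁, rfl, hY₁⟩ := Multiset.card_eq_succ_iff.1 hcard
  obtain ⟨y₂, Z, rfl, hZ⟩ := Multiset.card_eq_succ_iff.1 hY₁
  have hy₁ := hY y₁ (Multiset.mem_cons_self _ _)
  have hy₂ := hY y₂ (Multiset.mem_cons_of_mem (Multiset.mem_cons_self _ _))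
  have hZ1 : ∀ y ∈ Z, 0 ≤ y ∧ y ≤ 1 := fun y hy =>
    hY y (Multiset.mem_cons_of_mem (Multiset.mem_cons_of_mem hy))
  -- the granular filler
  obtain ⟨b, b', m₀, a₀, hb, hb', hm₀, ha₀, hmb, hab, hbb, hma₀⟩ :
      ∃ b b' m₀ a₀ : ℝ, 0 ≤ b ∧ 0 ≤ b' ∧ 0 ≤ m₀ ∧ 0 ≤ a₀ ∧ m₀ + b = m ∧ a₀ + b' = a ∧
        b + b' ≤ 1 / 4 ∧ m₀ + a₀ ≤ c := by
    rcases le_total (1 / 4) m with h | h
    · exact ⟨1 / 4, 0, m - 1 / 4, a, by norm_num, le_rfl, by linarith, ha, by ring, by ring,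
        by norm_num, by rw [hc]; linarith⟩
    · rcases le_total (1 / 4) (m + a) with h' | h'
      · exact ⟨m, 1 / 4 - m, 0, a - (1 / 4 - m), hm, by linarith, le_rfl, by linarith, by ring,
          by ring, by linarith, by rw [hc]; linarith⟩
      · exact ⟨m, a, 0, 0, hm, ha, le_rfl, le_rfl, by ring, by ring, h', by linarith⟩
  have hZs : Z.sum ≤ k + 3 := by
    have := Multiset.sum_le_card_nsmul Z 1 (fun y hy => (hZ1 y hy).2)
    rw [hZ, nsmul_eq_mul] at this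
    push_cast at this
    linarith
  have C : ColX (7 / 8 + d) r κ (9 / 4) F Z m₀ a₀ := by
    refine ⟨?_, ?_⟩
    · intro Z' m' a' i hZ' hm0 hm1 ha0 ha1 hi hyi hii
      have hii' : i ≤ κ - 27 / 4 := by linarith
      have hM := IH.mom hi hii'
      have hT : Mom r i 1 2 0 0 := mom_tf R
      have := col_eq3 L (by linarith) (p := k + 3) (by omega) (w := 1) (c := c)
        (T := (2 * κ + i) / 3 - 9 / 4 + F) hi
        (fun X hX => ⟨k, _, hM.mono (by linarith) le_rfl, by push_cast; linarith⟩)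
        (fun X u hX _ hu => clo708 hd hκ hk hk2 hc hi hii' hF hF0 hF1 hF3 hM hT (by linarith)
          (by linarith)) (Z := Z') (hZ'.card.trans hZ)
        (fun y hy => by
          obtain ⟨z, hz, hyz⟩ := Multiset.exists_mem_of_rel_of_mem hZ' hy
          exact ⟨hyz.1, hyz.2.trans (hZ1 z hz).2, hyi y hy⟩) hm0 ha0 (by linarith)
      linarith
    · intro Z' m' a' hZ' hm0 hm1 ha0 ha1 _
      have h1 := hZ'.sum_nonneg
      have h2 : d * m' ≤ 1 / 8 * m' := mul_le_mul_of_nonneg_right hd8 hm0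
      rw [hc] at hma₀
      linarith
  have hsum : ({y₁, y₂} : Multiset ℝ).sum = y₁ + y₂ := by simp
  have := side_xi R (κ := κ) (ξ := 9 / 4) (m := m₀) (b := b) (a := a₀) (b' := b') (F := F)
    (V := {y₁, y₂}) (Z := Z) (by linarith)
    (by
      intro y hy
      rcases Multiset.mem_cons.1 hy with h | h
      · rw [h]; exact hy₁.1
      · rw [Multiset.mem_singleton.1 h]; exact hy₂.1)
    (fun y hy => (hZ1 y hy).1) hm₀ hb ha₀ hb' hF
    (by rw [hsum]; linarith) (by linarith) C κ' hκ0 hκ'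
  rw [hsum, hmb, hab] at this
  have hV : ({y₁, y₂} : Multiset ℝ) + Z = y₁ ::ₘ y₂ ::ₘ Z := by
    rw [Multiset.insert_eq_cons, Multiset.cons_add, Multiset.singleton_add]
  rw [hV] at this
  rw [Multiset.sum_cons, Multiset.sum_cons]
  linarith

/-- the ceil step with losses `c₀ κ`, `c₀ < 4/3 d` -/
theorem ceil_lin {d c₀ κ : ℝ} {k : ℕ} (R : ExpRules (7 / 8 + d) r s) (L : ExpLv (7 / 8 + d) r)
    (hd : 0 ≤ d) (hd8 : d ≤ 1 / 8) (hc₀ : 14 / 15 * d ≤ c₀)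
    (hc₁ : 4 / 3 * d - (1 / 8 - d) / 30 ≤ c₀) (hκ : 15 ≤ κ) (hk : 6 ≤ k)
    (hk2 : (k : ℝ) + 4 ≤ 2 / 3 * κ) (hk3 : κ / 6 ≤ k + 3)
    (IH : IdS r (κ - 27 / 4) k (5 / 6 * (κ - 27 / 4) - k) (c₀ * (κ - 27 / 4))) :
    IdS r κ (k + 5) (5 / 6 * κ - (k + 5 : ℕ)) (c₀ * κ) := by
  have h0 : 0 ≤ c₀ := by linarith
  have h1 : 14 / 15 * d * κ ≤ c₀ * κ := mul_le_mul_of_nonneg_right hc₀ (by linarith)
  have h2 : (4 / 3 * d - (1 / 8 - d) / 30) * κ ≤ c₀ * κ :=
    mul_le_mul_of_nonneg_right hc₁ (by linarith)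
  have h3 : 0 ≤ (1 / 8 - d) * (κ - 15) := mul_nonneg (by linarith) (by linarith)
  have h4 : 0 ≤ d * (κ - 15) := mul_nonneg hd (by linarith)
  have h5 : 2 * d * (k + 1) ≤ 2 * d * (2 / 3 * κ - 3) :=
    mul_le_mul_of_nonneg_left (by linarith) (by linarith)
  have h6 : (4 / 3 * d - (1 / 8 - d) / 30) * (κ - 15) ≤ c₀ * (κ - 15) :=
    mul_le_mul_of_nonneg_right hc₁ (by linarith)
  exact ceil_step R L hd hd8 hκ hk hk2 hk3 (mul_nonneg h0 (by linarith)) (by linarith)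
    (by linarith) (by linarith) IH

end Crest.Agent.R017.C1D708
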