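import Crest.Agent.R017.SideD_777

/-!
# Row 17, section D: sides with five (unequal) lumps (helper720)

`C5` : lumps `a ≤ κ/6`, `b₁ ≥ b₂ ≥ b₃ ≥ b₄`, `b₁ + b₂ ≥ κ/4`,
`b₁ + b₂ + b₃ + b₄ ≤ 16/27 κ`, total `≤ 5/6 κ` : ideal up to `d κ` (`θ = 7/8 + d`).

Proof: `side_xi` with `X = {a | κ/6 - a}`; the columns `i ≤ κ/2` of `{b₁,b₂,b₃,b₄ | c}` by TF, SUP,
`side79a` and, for long columns, the level rule in the "gains" `2 x_j - y_j`.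
-/

set_option autoImplicit false

noncomputable section

namespace Crest.Agent.R017.C5_720

open Crest.Agent.R017.ER911 Crest.Agent.R017.SC777

variable {d : ℝ} {r s : EF}

/-- two lumps, uniform in the shortenings -/
theorem E2 (R : ExpRules (7 / 8 + d) r s) (hd : 0 ≤ d) {k u v U V m a e : ℝ} (hk : 0 ≤ k)
    (hu : 0 ≤ u) (hv : 0 ≤ v) (huU : u ≤ U) (hvV : v ≤ V) (huk : u ≤ k) (hvk : v ≤ k)
    (hm : 0 ≤ m) (ha : 0 ≤ a) (hk4 : k ≤ 4 * (U + V)) (he : 0 ≤ e)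
    (he1 : m + a - 7 / 9 * (k - (U + V)) ≤ e) :
    r k {u, v} m a ≤ k + (u + v) + (m + a) + 2 * d * (m + a) + 3 / 4 * e := by
  rcases le_total (m + a) e with h | h
  · have := sup_all R hk hu hv hm ha huk hvk
    linarith
  · have := side79a R hd (κ := k) (κ' := k) (e := e) hu hv hm ha (by linarith) he (by linarith)
      (by linarith) hk le_rfl huk hvk
    linarith

/-- remove one lump pointwise -/
theorem sup1 (R : ExpRules (7 / 8 + d) r s) {k w m a : ℝ} {Y : Multiset ℝ} (hk : 0 ≤ k)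
    (hw : 0 ≤ w) (hY : ∀ y ∈ Y, 0 ≤ y) (hm : 0 ≤ m) (ha : 0 ≤ a) :
    r k (w ::ₘ Y) m a ≤ (7 / 4 + 2 * d) * w + r k Y m a := by
  have := R.supS k w Y m a hk hw ⟨hY, hm, ha⟩
  linarith

theorem sum_tri (u v w : ℝ) : (w ::ₘ {u, v} : Multiset ℝ).sum = w + (u + v) := by
  rw [Multiset.sum_cons, sum_pair]

theorem nn_tri {u v w : ℝ} (hu : 0 ≤ u) (hv : 0 ≤ v) (hw : 0 ≤ w) :
    ∀ y ∈ (w ::ₘ {u, v} : Multiset ℝ), 0 ≤ y := by
  intro y hy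
  rcases Multiset.mem_cons.1 hy with h | h
  · rw [h]; exact hw
  · exact nn_pair hu hv y h

theorem sh_tri {u v w : ℝ} {Y' : Multiset ℝ} (h : Sh Y' (w ::ₘ {u, v})) :
    ∃ u' v' w' : ℝ, Y' = w' ::ₘ {u', v'} ∧ 0 ≤ u' ∧ u' ≤ u ∧ 0 ≤ v' ∧ v' ≤ v ∧ 0 ≤ w' ∧
      w' ≤ w := by
  obtain ⟨w', Z, rfl, hw0, hw1, hZ⟩ := h.of_cons
  obtain ⟨u', v', rfl, hu0, hu1, hv0, hv1⟩ := hZ.pair
  exact ⟨u', v', w', rfl, hu0, hu1, hv0, hv1, hw0, hw1⟩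

/-- three lumps, all granular mass in `X` -/
theorem E30 (R : ExpRules (7 / 8 + d) r s) (hd : 0 ≤ d) {k ξ F u v w U V W m a : ℝ} (hk : 0 ≤ k)
    (hu : 0 ≤ u) (hv : 0 ≤ v) (hw : 0 ≤ w) (huU : u ≤ U) (hvV : v ≤ V) (hwW : w ≤ W)
    (hm : 0 ≤ m) (ha : 0 ≤ a) (hF : 0 ≤ F) (hg : m + a ≤ ξ) (h1 : 2 * ξ + (U + V + W) ≤ k + F)
    (h2 : 3 / 4 * W ≤ ξ + F) :
    r k (w ::ₘ {u, v}) m a ≤ k + (u + v + w) + (m + a) + F + 2 * d * W := by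
  have hW : 0 ≤ W := hw.trans hwW
  have hdW : 0 ≤ 2 * d * W := by positivity
  have C : ColX (7 / 8 + d) r k ξ (F + 2 * d * W) (w ::ₘ {u, v}) 0 0 := by
    refine ⟨?_, ?_⟩
    · intro Z' m' a' i hZ' hm0 hm1 ha0 ha1 hi hyi hii
      obtain ⟨u', v', w', rfl, hu0, hu1, hv0, hv1, hw0, hw1⟩ := sh_tri hZ'
      have em : m' = 0 := le_antisymm hm1 hm0
      have ea : a' = 0 := le_antisymm ha1 ha0
      subst em; subst ea
      have hui : u' ≤ i := hyi u' (by simp)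
      have hvi : v' ≤ i := hyi v' (by simp)
      have e1 := sup1 R hi hw0 (nn_pair hu0 hv0) (le_refl (0 : ℝ)) (le_refl (0 : ℝ))
        (d := d) (k := i)
      have e2 := R.tf i u' v' hu0 hv0 hui hvi
      have e3 : 2 * d * w' ≤ 2 * d * W :=
        mul_le_mul_of_nonneg_left (hw1.trans hwW) (by linarith)
      rw [sum_tri]
      linarith
    · intro Z' m' a' hZ' hm0 hm1 ha0 ha1 _
      have := hZ'.sum_nonneg
      have em : m' = 0 := le_antisymm hm1 hm0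
      have ea : a' = 0 := le_antisymm ha1 ha0
      subst em; subst ea
      linarith
  have := side_xi R (κ := k) (ξ := ξ) (m := 0) (b := m) (a := 0) (b' := a)
    (F := F + 2 * d * W) (V := 0) (Z := w ::ₘ {u, v}) hk (by simp) (nn_tri hu hv hw) le_rfl hm
    le_rfl ha (by linarith) (by simpa using hg) (by rw [sum_tri]; linarith) C k hk le_rfl
  rw [sum_tri] at this
  simp only [zero_add, Multiset.sum_zero] at this
  linarith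

/-- three lumps with granular mass at most `G`, `ξ ≤ G` -/
theorem E3g (R : ExpRules (7 / 8 + d) r s) (hd : 0 ≤ d) {k ξ F G u v w U V W m a : ℝ}
    (hk : 0 ≤ k) (hu : 0 ≤ u) (hv : 0 ≤ v) (hw : 0 ≤ w) (huU : u ≤ U) (hvV : v ≤ V)
    (hwW : w ≤ W) (hm : 0 ≤ m) (ha : 0 ≤ a) (hF : 0 ≤ F) (hξ : 0 ≤ ξ) (hξG : ξ ≤ G)
    (hg : m + a ≤ G) (h1 : ξ + (U + V + W + G) ≤ k + F) (h2 : 3 / 4 * W ≤ ξ + F)
    (h3 : 3 / 4 * (W + G) - 7 / 12 * (k - (U + V)) ≤ F) (h4 : G ≤ 2 / 3 * k + F)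
    (h5 : k ≤ 4 * (U + V)) :
    r k (w ::ₘ {u, v}) m a ≤ k + (u + v + w) + (m + a) + F + 2 * d * (W + G) := by
  have hW : 0 ≤ W := hw.trans hwW
  have hG : 0 ≤ G := hξ.trans hξG
  have hdW : 0 ≤ 2 * d * (W + G) := by positivity
  obtain ⟨b, b', hb0, hbm, hb0', hbm', hbb, hbb'⟩ : ∃ b b' : ℝ, 0 ≤ b ∧ b ≤ m ∧ 0 ≤ b' ∧
      b' ≤ a ∧ b + b' ≤ ξ ∧ ((m + a) - (b + b') ≤ G - ξ) := by
    rcases le_total ξ m with h | h
    · exact ⟨ξ, 0, hξ, h, le_rfl, ha, by linarith, by linarith⟩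
    · rcases le_total ξ (m + a) with h' | h'
      · exact ⟨m, ξ - m, hm, le_rfl, by linarith, by linarith, by linarith, by linarith⟩
      · exact ⟨m, a, hm, le_rfl, ha, le_rfl, by linarith, by linarith⟩
  have C : ColX (7 / 8 + d) r k ξ (F + 2 * d * (W + G)) (w ::ₘ {u, v}) (m - b) (a - b') := by
    refine ⟨?_, ?_⟩
    · intro Z' m' a' i hZ' hm0 hm1 ha0 ha1 hi hyi hii
      obtain ⟨u', v', w', rfl, hu0, hu1, hv0, hv1, hw0, hw1⟩ := sh_tri hZ'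
      have hui : u' ≤ i := hyi u' (by simp)
      have hvi : v' ≤ i := hyi v' (by simp)
      have e1 := sup1 R hi hw0 (nn_pair hu0 hv0) hm0 ha0 (d := d) (k := i)
      have e4 : 2 * d * (w' + (m' + a')) ≤ 2 * d * (W + G) :=
        mul_le_mul_of_nonneg_left (by linarith) (by linarith)
      rw [sum_tri]
      rcases le_total 0 (G - ξ - 7 / 9 * (i - (U + V))) with hc | hc
      · have e2 := E2 R hd hi hu0 hv0 (hu1.trans huU) (hv1.trans hvV) hui hvi hm0 ha0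
          (by linarith) hc (by linarith)
        linarith
      · have e2 := E2 R hd hi hu0 hv0 (hu1.trans huU) (hv1.trans hvV) hui hvi hm0 ha0
          (by linarith) (le_refl (0 : ℝ)) (by linarith)
        linarith
    · intro Z' m' a' hZ' hm0 hm1 ha0 ha1 _
      have := hZ'.sum_nonneg
      have e4 : 2 * d * m' ≤ 2 * d * (W + G) :=
        mul_le_mul_of_nonneg_left (by linarith) (by linarith)
      linarith
  have := side_xi R (κ := k) (ξ := ξ) (m := m - b) (b := b) (a := a - b') (b' := b')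
    (F := F + 2 * d * (W + G)) (V := 0) (Z := w ::ₘ {u, v}) hk (by simp) (nn_tri hu hv hw)
    (by linarith) hb0 (by linarith) hb0' (by linarith) (by simpa using hbb)
    (by rw [sum_tri]; linarith) C k hk le_rfl
  rw [sum_tri] at this
  simp only [zero_add, Multiset.sum_zero, sub_add_cancel] at this
  linarith

/-! ### the level rule -/

/-- the denser kind of granular mass -/
theorem dens {θ m a ω α : ℝ} (hm : 0 ≤ m) (ha : 0 ≤ a) (hω : ω ≤ θ * m) (hα : α ≤ θ * a)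
    (hpos : 0 < m + a) : ∃ D : ℝ, D ≤ θ ∧ ω + α ≤ (m + a) * D ∧ ∀ G : ℝ, 0 ≤ G →
      ∃ f g : ℝ, 0 ≤ f ∧ (m = 0 → f = 0) ∧ 0 ≤ g ∧ (a = 0 → g = 0) ∧ f + g = G ∧
        f * (ω / m) + g * (α / a) = G * D := by
  rcases hm.eq_or_lt with h0 | h0
  · subst h0
    have ha' : 0 < a := by linarith
    refine ⟨α / a, ?_, ?_, ?_⟩
    · rw [div_le_iff₀ ha']; exact hα
    · have : a * (α / a) = α := by field_simp
      rw [zero_add, this]; linarith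
    · intro G hG
      exact ⟨0, G, le_rfl, fun _ => rfl, hG, fun h => absurd h ha'.ne', by ring, by ring⟩
  rcases ha.eq_or_lt with h1 | h1
  · subst h1
    refine ⟨ω / m, ?_, ?_, ?_⟩
    · rw [div_le_iff₀ h0]; exact hω
    · have : m * (ω / m) = ω := by field_simp
      rw [add_zero, this]; linarith
    · intro G hG
      exact ⟨G, 0, hG, fun h => absurd h h0.ne', le_rfl, fun _ => rfl, by ring, by ring⟩
  have e1 : m * (ω / m) = ω := by field_simp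
  have e2 : a * (α / a) = α := by field_simp
  rcases le_total (ω / m) (α / a) with h | h
  · refine ⟨α / a, ?_, ?_, ?_⟩
    · rw [div_le_iff₀ h1]; exact hα
    · have := mul_le_mul_of_nonneg_left h hm
      rw [add_mul, e2]; linarith
    · intro G hG
      exact ⟨0, G, le_rfl, fun _ => rfl, hG, fun h => absurd h h1.ne', by ring, by ring⟩
  · refine ⟨ω / m, ?_, ?_, ?_⟩
    · rw [div_le_iff₀ h0]; exact hω
    · have := mul_le_mul_of_nonneg_left h ha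
      rw [add_mul, e1]; linarith
    · intro G hG
      exact ⟨G, 0, hG, fun h => absurd h h0.ne', le_rfl, fun _ => rfl, by ring, by ring⟩

theorem rep3 (y : Fin 4 → ℝ) :
    (∑ j, Multiset.replicate ((![1, 1, 1, 0] : Fin 4 → ℕ) j) (y j)) = y 2 ::ₘ {y 0, y 1} := by
  simp [Fin.sum_univ_four, Multiset.insert_eq_cons, ← Multiset.singleton_add]
  abel

theorem rep2 (y : Fin 4 → ℝ) :
    (∑ j, Multiset.replicate ((![1, 1, 0, 1] : Fin 4 → ℕ) j) (y j)) = y 3 ::ₘ {y 0, y 1} := by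
  simp [Fin.sum_univ_four, Multiset.insert_eq_cons, ← Multiset.singleton_add]
  abel

theorem rep1 (y : Fin 4 → ℝ) :
    (∑ j, Multiset.replicate ((![1, 0, 1, 1] : Fin 4 → ℕ) j) (y j)) = y 3 ::ₘ {y 0, y 2} := by
  simp [Fin.sum_univ_four, Multiset.insert_eq_cons, ← Multiset.singleton_add]
  abel

theorem rep0 (y : Fin 4 → ℝ) :
    (∑ j, Multiset.replicate ((![0, 1, 1, 1] : Fin 4 → ℕ) j) (y j)) = y 3 ::ₘ {y 1, y 2} := by
  simp [Fin.sum_univ_four, Multiset.insert_eq_cons, ← Multiset.singleton_add]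
  abel

theorem map4 (l₁ l₂ l₃ l₄ : ℝ) :
    (Finset.univ : Finset (Fin 4)).val.map ![l₁, l₂, l₃, l₄] = l₄ ::ₘ l₃ ::ₘ {l₁, l₂} := by
  have : (Finset.univ : Finset (Fin 4)).val.map ![l₁, l₂, l₃, l₄] =
      l₁ ::ₘ l₂ ::ₘ l₃ ::ₘ {l₄} := rfl
  rw [this]
  simp only [Multiset.insert_eq_cons, ← Multiset.singleton_add]
  abel

set_option maxHeartbeats 2000000 in
/-- the long columns `i` of `{b₁,b₂,b₃,b₄ | c}`, `c + S = 2/3 κ` -/
theorem lev4 (R : ExpRules (7 / 8 + d) r s) (Lv : ExpLv (7 / 8 + d) r) (hd : 0 ≤ d)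
    {κ i c b₁ b₂ b₃ b₄ l₁ l₂ l₃ l₄ M A : ℝ} (hi : 2 * i ≤ κ) (hi4 : κ ≤ 4 * i) (hb4 : 0 ≤ b₄)
    (h43 : b₄ ≤ b₃) (h32 : b₃ ≤ b₂) (h21 : b₂ ≤ b₁)
    (hAA : 4 * (b₁ + b₂) + 10 * b₃ + 9 * b₄ ≤ 4 * κ)
    (hBB : 18 * (b₁ + b₂) + 27 * b₃ + 45 * b₄ ≤ 16 * κ) (hEE : κ ≤ 2 * (b₂ + b₃) + 5 * b₄)
    (hiC : κ - 9 / 4 * b₃ - 3 / 2 * b₄ ≤ i)
    (hc : c + (b₁ + b₂ + b₃ + b₄) = 2 / 3 * κ) (hl1 : 0 ≤ l₁) (hl1' : l₁ ≤ b₁) (hl2 : 0 ≤ l₂)
    (hl2' : l₂ ≤ b₂) (hl3 : 0 ≤ l₃) (hl3' : l₃ ≤ b₃) (hl4 : 0 ≤ l₄) (hl4' : l₄ ≤ b₄)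
    (hi1 : l₁ ≤ i) (hi2 : l₂ ≤ i) (hi3 : l₃ ≤ i) (hi4' : l₄ ≤ i) (hM : 0 ≤ M) (hA : 0 ≤ A)
    (hMA : M + A ≤ c) :
    r i (l₄ ::ₘ l₃ ::ₘ {l₁, l₂}) M A ≤
      i + (l₁ + l₂ + l₃ + l₄) + (M + A) + (κ / 2 - 2 / 3 * i) + d * κ := by
  have hi0 : 0 ≤ i := hl1.trans hi1
  have hκ0 : 0 ≤ κ := by linarith
  have hdκ : 0 ≤ d * κ := mul_nonneg hd hκ0
  rw [← map4]
  refine Lv.lev 4 ![l₁, l₂, l₃, l₄] i M A _ hi0 ?_ hM hA ?_
  · intro j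
    fin_cases j
    · exact ⟨hl1, hi1⟩
    · exact ⟨hl2, hi2⟩
    · exact ⟨hl3, hi3⟩
    · exact ⟨hl4, hi4'⟩
  intro y x m a ω α hy hm hmM ha haA hx hω hα
  obtain ⟨y0n, y0l⟩ : 0 ≤ y 0 ∧ y 0 ≤ l₁ := hy 0
  obtain ⟨y1n, y1l⟩ : 0 ≤ y 1 ∧ y 1 ≤ l₂ := hy 1
  obtain ⟨y2n, y2l⟩ : 0 ≤ y 2 ∧ y 2 ≤ l₃ := hy 2
  obtain ⟨y3n, y3l⟩ : 0 ≤ y 3 ∧ y 3 ≤ l₄ := hy 3
  have x3 := hx 3
  have dy3 : d * y 3 ≤ d * b₄ := mul_le_mul_of_nonneg_left (by linarith) hd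
  have db3 : 0 ≤ d * b₃ := mul_nonneg hd (by linarith)
  have db4 : 0 ≤ d * b₄ := mul_nonneg hd (by linarith)
  have db3κ : d * b₃ ≤ d * (κ / 4) := mul_le_mul_of_nonneg_left (by linarith) hd
  have db4κ : d * b₄ ≤ d * (κ / 4) := mul_le_mul_of_nonneg_left (by linarith) hd
  -- low density or no granular mass
  have low : ω + α ≤ (m + a) * (1 / 2) → (∃ (n : Fin 4 → ℕ) (f g : ℝ), 0 ≤ f ∧ (m = 0 → f = 0) ∧
        0 ≤ g ∧ (a = 0 → g = 0) ∧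
        r i (∑ j, Multiset.replicate (n j) (y j)) f g -
          2 * ((∑ j, (n j : ℝ) * x j) + f * (ω / m) + g * (α / a)) +
          2 * ((∑ j, x j) + ω + α) ≤
        i + (l₁ + l₂ + l₃ + l₄) + (M + A) + (κ / 2 - 2 / 3 * i) + d * κ) := by
    intro hlow
    refine ⟨![1, 1, 1, 0], 0, 0, le_rfl, fun _ => rfl, le_rfl, fun _ => rfl, ?_⟩
    have e := E30 R hd (k := i) (ξ := (i - b₁ - b₂ - b₃ / 4) / 3)
      (F := 3 / 4 * b₃ - (i - b₁ - b₂ - b₃ / 4) / 3) (U := b₁) (V := b₂) (W := b₃) (m := 0)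
      (a := 0) hi0 y0n y1n y2n (by linarith) (by linarith) (by linarith) le_rfl le_rfl
      (by linarith) (by linarith) (by linarith) (by linarith)
    rw [rep3]
    simp only [Fin.sum_univ_four, Matrix.cons_val_zero, Matrix.cons_val_one, Matrix.cons_val,
      Nat.cast_one, Nat.cast_zero, one_mul, zero_mul, add_zero]
    linarith
  rcases (add_nonneg hm ha).eq_or_lt with hz | hpos
  · have em : m = 0 := by linarith
    have ea : a = 0 := by linarith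
    refine Or.inr (Or.inl (low ?_))
    rw [em] at hω
    rw [ea] at hα
    rw [em, ea]
    linarith
  obtain ⟨D, hD, hωα, hG⟩ := dens hm ha hω hα hpos
  obtain ⟨P, hP⟩ : ∃ P, P = 2 * D - 1 := ⟨_, rfl⟩
  have hDP : D = (1 + P) / 2 := by linarith
  subst hDP
  rcases le_total P 0 with hP0 | hP0
  · refine Or.inr (Or.inl (low ?_))
    have : (m + a) * P ≤ 0 := mul_nonpos_of_nonneg_of_nonpos hpos.le hP0
    linarith
  have hmaP : (m + a) * P ≤ c * P := mul_le_mul_of_nonneg_right (by linarith) hP0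
  -- the four moments
  obtain ⟨G3, hG3⟩ : ∃ G, G = (i - b₁ - b₂ - b₃ / 4) / 3 := ⟨_, rfl⟩
  obtain ⟨G2, hG2⟩ : ∃ G, G = (i - b₁ - b₂ - b₄ / 4) / 3 := ⟨_, rfl⟩
  obtain ⟨G1, hG1⟩ : ∃ G, G = (i - b₁ - b₃ - b₄ / 4) / 3 := ⟨_, rfl⟩
  obtain ⟨G0, hG0⟩ : ∃ G, G = (i - b₂ - b₃ - b₄ / 4) / 3 := ⟨_, rfl⟩
  by_cases c3 : (2 * x 3 - y 3) + (c - G3) * P + (3 / 4 * b₃ - G3) + 2 * d * b₃ ≤
      (κ / 2 - 2 / 3 * i) + d * κ
  · obtain ⟨f, g, hf, hmf, hg, hag, hfg, hlev⟩ := hG G3 (by linarith)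
    refine Or.inr (Or.inl ⟨![1, 1, 1, 0], f, g, hf, hmf, hg, hag, ?_⟩)
    have e := E30 R hd (k := i) (ξ := G3) (F := 3 / 4 * b₃ - G3) (U := b₁) (V := b₂) (W := b₃)
      (m := f) (a := g) hi0 y0n y1n y2n (by linarith) (by linarith) (by linarith) hf hg
      (by linarith) (by linarith) (by linarith) (by linarith)
    rw [rep3]
    simp only [Fin.sum_univ_four, Matrix.cons_val_zero, Matrix.cons_val_one, Matrix.cons_val,
      Nat.cast_one, Nat.cast_zero, one_mul, zero_mul, add_zero]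
    linarith
  by_cases c2 : (2 * x 2 - y 2) + (c - G2) * P + (3 / 4 * b₄ - G2) + 2 * d * b₄ ≤
      (κ / 2 - 2 / 3 * i) + d * κ
  · obtain ⟨f, g, hf, hmf, hg, hag, hfg, hlev⟩ := hG G2 (by linarith)
    refine Or.inr (Or.inl ⟨![1, 1, 0, 1], f, g, hf, hmf, hg, hag, ?_⟩)
    have e := E30 R hd (k := i) (ξ := G2) (F := 3 / 4 * b₄ - G2) (U := b₁) (V := b₂) (W := b₄)
      (m := f) (a := g) hi0 y0n y1n y3n (by linarith) (by linarith) (by linarith) hf hg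
      (by linarith) (by linarith) (by linarith) (by linarith)
    rw [rep2]
    simp only [Fin.sum_univ_four, Matrix.cons_val_zero, Matrix.cons_val_one, Matrix.cons_val,
      Nat.cast_one, Nat.cast_zero, one_mul, zero_mul, add_zero]
    linarith
  by_cases c1 : (2 * x 1 - y 1) + (c - G1) * P + (3 / 4 * b₄ - G1) + 2 * d * b₄ ≤
      (κ / 2 - 2 / 3 * i) + d * κ
  · obtain ⟨f, g, hf, hmf, hg, hag, hfg, hlev⟩ := hG G1 (by linarith)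
    refine Or.inr (Or.inl ⟨![1, 0, 1, 1], f, g, hf, hmf, hg, hag, ?_⟩)
    have e := E30 R hd (k := i) (ξ := G1) (F := 3 / 4 * b₄ - G1) (U := b₁) (V := b₃) (W := b₄)
      (m := f) (a := g) hi0 y0n y2n y3n (by linarith) (by linarith) (by linarith) hf hg
      (by linarith) (by linarith) (by linarith) (by linarith)
    rw [rep1]
    simp only [Fin.sum_univ_four, Matrix.cons_val_zero, Matrix.cons_val_one, Matrix.cons_val,
      Nat.cast_one, Nat.cast_zero, one_mul, zero_mul, add_zero]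
    linarith
  by_cases c0 : (2 * x 0 - y 0) + (c - G0) * P + (3 / 4 * b₄ - G0) + 2 * d * b₄ ≤
      (κ / 2 - 2 / 3 * i) + d * κ
  · obtain ⟨f, g, hf, hmf, hg, hag, hfg, hlev⟩ := hG G0 (by linarith)
    refine Or.inr (Or.inl ⟨![0, 1, 1, 1], f, g, hf, hmf, hg, hag, ?_⟩)
    have e := E30 R hd (k := i) (ξ := G0) (F := 3 / 4 * b₄ - G0) (U := b₂) (V := b₃) (W := b₄)
      (m := f) (a := g) hi0 y1n y2n y3n (by linarith) (by linarith) (by linarith) hf hg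
      (by linarith) (by linarith) (by linarith) (by linarith)
    rw [rep0]
    simp only [Fin.sum_univ_four, Matrix.cons_val_zero, Matrix.cons_val_one, Matrix.cons_val,
      Nat.cast_one, Nat.cast_zero, one_mul, zero_mul, add_zero]
    linarith
  push Not at c0 c1 c2 c3
  -- Halász–Montgomery
  refine Or.inl ?_
  have hSP : (y 0 + y 1 + y 2 + y 3) * P ≤ (b₁ + b₂ + b₃ + b₄) * P :=
    mul_le_mul_of_nonneg_right (by linarith) hP0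
  by_cases hv : 8 / 9 * i - P * (4 / 3 * i - (y 0 + y 1 + y 2 + y 3)) ≤
      2 * (x 0 + x 1 + x 2 + x 3) - (y 0 + y 1 + y 2 + y 3)
  · -- all four lumps
    obtain ⟨f, g, hf, hmf, hg, hag, hfg, hlev⟩ := hG (4 / 3 * i - (y 0 + y 1 + y 2 + y 3))
      (by linarith)
    have hdi : d * (κ / 2 - i) ≤ d * (κ / 4) := mul_le_mul_of_nonneg_left (by linarith) hd
    have hPP : P * (4 / 3 * (κ / 2 - i)) ≤ (3 / 4 + 2 * d) * (4 / 3 * (κ / 2 - i)) :=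
      mul_le_mul_of_nonneg_right (by linarith) (by linarith)
    have hcP : c * P = (2 / 3 * κ - (b₁ + b₂ + b₃ + b₄)) * P := by rw [← hc]; ring
    refine ⟨![1, 1, 1, 1], f, g, hf, hmf, hg, hag, ?_, ?_⟩
    · refine Or.inl ⟨?_, ?_⟩
      · simp only [Fin.sum_univ_four, Matrix.cons_val_zero, Matrix.cons_val_one, Matrix.cons_val,
          Nat.cast_one, one_mul]
        linarith
      · simp only [Fin.sum_univ_four, Matrix.cons_val_zero, Matrix.cons_val_one, Matrix.cons_val,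
          Nat.cast_one, one_mul]
        rw [add_assoc (x 0 + x 1 + x 2 + x 3), hlev]
        linarith
    · simp only [Fin.sum_univ_four, Matrix.cons_val_zero, Matrix.cons_val_one, Matrix.cons_val,
        Nat.cast_one, one_mul]
      linarith
  push Not at hv
  have hcP : c * P = (2 / 3 * κ - (b₁ + b₂ + b₃ + b₄)) * P := by rw [← hc]; ring
  rcases le_total P (2 / 3) with hP2 | hP2
  · -- impossible
    exfalso
    have q0 : 0 ≤ 2 * κ - 20 / 9 * i - (b₁ + b₂ + b₃ + b₄) - 1 / 2 * (b₃ + 3 * b₄) := by linarith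
    have q1 : 0 ≤ 2 / 9 * κ - 4 / 9 * i + 1 / 3 * ((b₁ + b₂ + b₃ + b₄) - (b₃ + 3 * b₄)) := by
      linarith
    have m0 := mul_nonneg (by linarith : 0 ≤ 1 - 3 / 2 * P) q0
    have m1 := mul_nonneg hP0 q1
    have e3 : G3 * P = (i - b₁ - b₂ - b₃ / 4) / 3 * P := by rw [hG3]
    have e2 : G2 * P = (i - b₁ - b₂ - b₄ / 4) / 3 * P := by rw [hG2]
    have e1 : G1 * P = (i - b₁ - b₃ - b₄ / 4) / 3 * P := by rw [hG1]
    have e0 : G0 * P = (i - b₂ - b₃ - b₄ / 4) / 3 * P := by rw [hG0]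
    linarith
  · -- granular mass alone
    obtain ⟨f, g, hf, hmf, hg, hag, hfg, hlev⟩ := hG (4 / 3 * i) (by linarith)
    have hiP : i * (2 / 3) ≤ i * P := mul_le_mul_of_nonneg_left hP2 hi0
    have hκP : (8 / 3 * i - 2 / 3 * κ) * (2 / 3) ≤ (8 / 3 * i - 2 / 3 * κ) * P :=
      mul_le_mul_of_nonneg_left hP2 (by linarith)
    refine ⟨![0, 0, 0, 0], f, g, hf, hmf, hg, hag, ?_, ?_⟩
    · refine Or.inl ⟨?_, ?_⟩
      · simp only [Fin.sum_univ_four, Matrix.cons_val_zero, Matrix.cons_val_one, Matrix.cons_val,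
          Nat.cast_zero, zero_mul]
        linarith
      · simp only [Fin.sum_univ_four, Matrix.cons_val_zero, Matrix.cons_val_one, Matrix.cons_val,
          Nat.cast_zero, zero_mul]
        linarith
    · simp only [Fin.sum_univ_four, Matrix.cons_val_zero, Matrix.cons_val_one, Matrix.cons_val,
        Nat.cast_zero, zero_mul]
      linarith

/-! ### the side theorem -/

/-- the columns of `{b₁,b₂,b₃,b₄ | m, a}` -/
theorem col4 (R : ExpRules (7 / 8 + d) r s) (Lv : ExpLv (7 / 8 + d) r) (hd : 0 ≤ d)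
    {κ b₁ b₂ b₃ b₄ m a : ℝ} (hb4 : 0 ≤ b₄) (h43 : b₄ ≤ b₃) (h32 : b₃ ≤ b₂) (h21 : b₂ ≤ b₁)
    (h12 : κ ≤ 4 * (b₁ + b₂)) (hAA : 4 * (b₁ + b₂) + 10 * b₃ + 9 * b₄ ≤ 4 * κ)
    (hBB : 18 * (b₁ + b₂) + 27 * b₃ + 45 * b₄ ≤ 16 * κ)
    (hCC : 8 * (b₁ + b₂) + 11 * b₃ + 12 * b₄ ≤ 6 * κ)
    (hEE : κ ≤ 2 * (b₂ + b₃) + 5 * b₄ ∨ 9 * b₃ + 6 * b₄ ≤ 2 * κ)
    (hw : (b₁ + b₂ + b₃ + b₄) + (m + a) ≤ 2 / 3 * κ) :
    ColX (7 / 8 + d) r κ (κ / 6) (d * κ) (b₄ ::ₘ b₃ ::ₘ {b₁, b₂}) m a := by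
  have hκ0 : 0 ≤ κ := by linarith
  obtain ⟨c, hc⟩ : ∃ c, c = 2 / 3 * κ - (b₁ + b₂ + b₃ + b₄) := ⟨_, rfl⟩
  have hloss : ∀ z : ℝ, z ≤ 5 / 12 * κ → 2 * d * z ≤ d * κ := by
    intro z hz
    have h1 := mul_le_mul_of_nonneg_left hz (by linarith : 0 ≤ 2 * d)
    have h2 : 0 ≤ d * κ := mul_nonneg hd hκ0
    linarith
  refine ⟨?_, ?_⟩
  · intro Z' m' a' i hZ' hm0 hm1 ha0 ha1 hi hyi hii
    obtain ⟨l₄, Z₁, rfl, hl4, hl4', hZ1⟩ := hZ'.of_cons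
    obtain ⟨l₃, Z₂, rfl, hl3, hl3', hZ2⟩ := hZ1.of_cons
    obtain ⟨l₁, l₂, rfl, hl1, hl1', hl2, hl2'⟩ := hZ2.pair
    have hi1 : l₁ ≤ i := hyi l₁ (by simp)
    have hi2 : l₂ ≤ i := hyi l₂ (by simp)
    have hi3 : l₃ ≤ i := hyi l₃ (by simp)
    have hi4 : l₄ ≤ i := hyi l₄ (by simp)
    have hsum : (l₄ ::ₘ l₃ ::ₘ {l₁, l₂} : Multiset ℝ).sum = l₁ + l₂ + l₃ + l₄ := by
      rw [Multiset.sum_cons, sum_tri]; ring
    rw [hsum]
    have s4 := sup1 R hi hl4 (nn_tri hl1 hl2 hl3) hm0 ha0 (d := d) (k := i)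
    have s3 := sup1 R hi hl3 (nn_pair hl1 hl2) hm0 ha0 (d := d) (k := i)
    have hL1 := hloss (l₃ + l₄ + (m' + a')) (by linarith)
    rcases le_total 0 (c - 7 / 9 * (i - (b₁ + b₂))) with hA | hA
    · have e2 := E2 R hd hi hl1 hl2 hl1' hl2' hi1 hi2 hm0 ha0 (by linarith) hA (by linarith)
      linarith
    rcases le_total i (3 / 4 * κ - 9 / 8 * (b₃ + b₄)) with hB | hB
    · have e2 := E2 R hd hi hl1 hl2 hl1' hl2' hi1 hi2 hm0 ha0 (by linarith) (le_refl (0 : ℝ))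
        (by linarith)
      linarith
    have hlow : i ≤ κ - 9 / 4 * b₃ - 3 / 2 * b₄ →
        r i (l₄ ::ₘ l₃ ::ₘ {l₁, l₂}) m' a' ≤
          l₁ + l₂ + l₃ + l₄ + m' + a' + (2 * κ + i) / 3 - κ / 6 + d * κ := by
      intro hC
      obtain ⟨F, hF⟩ : ∃ F, F = max ((b₁ + b₂ + 7 / 4 * b₃ + c - i) / 2)
        (3 / 4 * (b₃ + c) - 7 / 12 * (i - (b₁ + b₂))) := ⟨_, rfl⟩
      have hF1 : (b₁ + b₂ + 7 / 4 * b₃ + c - i) / 2 ≤ F := by rw [hF]; exact le_max_left _ _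
      have hF2 : 3 / 4 * (b₃ + c) - 7 / 12 * (i - (b₁ + b₂)) ≤ F := by
        rw [hF]; exact le_max_right _ _
      have hF3 : F ≤ 3 / 4 * b₃ := by
        rw [hF]; exact max_le (by linarith) (by linarith)
      have hF4 : 3 / 4 * b₄ + F ≤ κ / 2 - 2 / 3 * i := by
        have : F ≤ κ / 2 - 2 / 3 * i - 3 / 4 * b₄ := by
          rw [hF]; exact max_le (by linarith) (by linarith)
        linarith
      have hL2 := hloss (l₄ + (b₃ + c)) (by linarith)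
      have e3 := E3g R hd (k := i) (ξ := 3 / 4 * b₃ - F) (F := F) (G := c) (U := b₁) (V := b₂)
        (W := b₃) hi hl1 hl2 hl3 hl1' hl2' hl3' hm0 ha0 (by linarith) (by linarith)
        (by linarith) (by linarith) (by linarith) (by linarith) (by linarith) (by linarith)
        (by linarith)
      linarith
    rcases le_total i (κ - 9 / 4 * b₃ - 3 / 2 * b₄) with hC | hC
    · exact hlow hC
    · rcases hEE with hEE | hEE
      swap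
      · exact hlow (by linarith)
      have e := lev4 R Lv hd (κ := κ) (i := i) (c := c) (M := m') (A := a') (by linarith)
        (by linarith) hb4 h43 h32 h21 hAA hBB hEE hC (by linarith) hl1 hl1' hl2 hl2' hl3 hl3' hl4 hl4'
        hi1 hi2 hi3 hi4 hm0 ha0 (by linarith)
      linarith
  · intro Z' m' a' hZ' hm0 hm1 ha0 ha1 _
    have := hZ'.sum_nonneg
    have hL := hloss m' (by linarith)
    linarith

/-- **(C5)**, `X = V` any lumps of total `≤ κ/6`, sharp linear conditions on the other four -/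
theorem C5V (R : ExpRules (7 / 8 + d) r s) (Lv : ExpLv (7 / 8 + d) r) (hd : 0 ≤ d)
    {κ b₁ b₂ b₃ b₄ m a : ℝ} {V : Multiset ℝ} (hV : ∀ y ∈ V, 0 ≤ y) (hV' : 6 * V.sum ≤ κ)
    (hb4 : 0 ≤ b₄) (h43 : b₄ ≤ b₃) (h32 : b₃ ≤ b₂) (h21 : b₂ ≤ b₁) (h12 : κ ≤ 4 * (b₁ + b₂))
    (hAA : 4 * (b₁ + b₂) + 10 * b₃ + 9 * b₄ ≤ 4 * κ)
    (hBB : 18 * (b₁ + b₂) + 27 * b₃ + 45 * b₄ ≤ 16 * κ)
    (hCC : 8 * (b₁ + b₂) + 11 * b₃ + 12 * b₄ ≤ 6 * κ)
    (hEE : κ ≤ 2 * (b₂ + b₃) + 5 * b₄ ∨ 9 * b₃ + 6 * b₄ ≤ 2 * κ)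
    (hS : 3 * (b₁ + b₂ + b₃ + b₄) ≤ 2 * κ) (hm : 0 ≤ m) (ha : 0 ≤ a)
    (hN : 6 * (V.sum + (b₁ + b₂ + b₃ + b₄) + m + a) ≤ 5 * κ) :
    ∀ κ' : ℝ, 0 ≤ κ' → κ' ≤ κ →
      r κ' (V + (b₄ ::ₘ b₃ ::ₘ {b₁, b₂})) m a + (κ - κ') / 3 ≤
        κ + (V.sum + (b₁ + b₂ + b₃ + b₄) + m + a) + d * κ := by
  have hV0 : 0 ≤ V.sum := Multiset.sum_nonneg hV
  have hκ0 : 0 ≤ κ := by linarith
  have hdκ : 0 ≤ d * κ := mul_nonneg hd hκ0
  obtain ⟨b, b', hb0, hbm, hb0', hbm', hbb, hbb'⟩ : ∃ b b' : ℝ, 0 ≤ b ∧ b ≤ m ∧ 0 ≤ b' ∧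
      b' ≤ a ∧ b + b' ≤ κ / 6 - V.sum ∧
      (b₁ + b₂ + b₃ + b₄) + ((m - b) + (a - b')) ≤ 2 / 3 * κ := by
    rcases le_total (κ / 6 - V.sum) m with h | h
    · exact ⟨κ / 6 - V.sum, 0, by linarith, h, le_rfl, ha, by linarith, by linarith⟩
    · rcases le_total (κ / 6 - V.sum) (m + a) with h' | h'
      · exact ⟨m, κ / 6 - V.sum - m, hm, le_rfl, by linarith, by linarith, by linarith,
          by linarith⟩
      · exact ⟨m, a, hm, le_rfl, ha, le_rfl, by linarith, by linarith⟩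
  have hsum : (b₄ ::ₘ b₃ ::ₘ {b₁, b₂} : Multiset ℝ).sum = b₁ + b₂ + b₃ + b₄ := by
    rw [Multiset.sum_cons, sum_tri]; ring
  have C := col4 R Lv hd (κ := κ) (m := m - b) (a := a - b') hb4 h43 h32 h21 h12 hAA
    hBB hCC hEE hbb'
  have key := side_xi R (κ := κ) (ξ := κ / 6) (m := m - b) (b := b) (a := a - b') (b' := b')
    (F := d * κ) (V := V) (Z := b₄ ::ₘ b₃ ::ₘ {b₁, b₂}) hκ0 hV
    (by
      intro y hy
      rcases Multiset.mem_cons.1 hy with h | h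
      · rw [h]; exact hb4
      · exact nn_tri (by linarith) (by linarith) (by linarith) y h)
    (by linarith) hb0 (by linarith) hb0' hdκ
    (by linarith) (by rw [hsum]; linarith) C
  intro κ' h0 h1
  have := key κ' h0 h1
  rw [hsum, sub_add_cancel, sub_add_cancel] at this
  linarith

/-- **(C5)**, sharp linear conditions -/
theorem C5x (R : ExpRules (7 / 8 + d) r s) (Lv : ExpLv (7 / 8 + d) r) (hd : 0 ≤ d)
    {κ a₀ b₁ b₂ b₃ b₄ m a : ℝ} (ha₀ : 0 ≤ a₀) (ha₀' : 6 * a₀ ≤ κ) (hb4 : 0 ≤ b₄) (h43 : b₄ ≤ b₃)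
    (h32 : b₃ ≤ b₂) (h21 : b₂ ≤ b₁) (h12 : κ ≤ 4 * (b₁ + b₂))
    (hAA : 4 * (b₁ + b₂) + 10 * b₃ + 9 * b₄ ≤ 4 * κ)
    (hBB : 18 * (b₁ + b₂) + 27 * b₃ + 45 * b₄ ≤ 16 * κ)
    (hCC : 8 * (b₁ + b₂) + 11 * b₃ + 12 * b₄ ≤ 6 * κ)
    (hEE : κ ≤ 2 * (b₂ + b₃) + 5 * b₄ ∨ 9 * b₃ + 6 * b₄ ≤ 2 * κ)
    (hS : 3 * (b₁ + b₂ + b₃ + b₄) ≤ 2 * κ) (hm : 0 ≤ m) (ha : 0 ≤ a)
    (hN : 6 * (a₀ + (b₁ + b₂ + b₃ + b₄) + m + a) ≤ 5 * κ) :
    ∀ κ' : ℝ, 0 ≤ κ' → κ' ≤ κ →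
      r κ' (a₀ ::ₘ b₄ ::ₘ b₃ ::ₘ {b₁, b₂}) m a + (κ - κ') / 3 ≤
        κ + (a₀ + (b₁ + b₂ + b₃ + b₄) + m + a) + d * κ := by
  intro κ' h0 h1
  have := C5V R Lv hd (κ := κ) (V := {a₀}) (m := m) (a := a)
    (by intro y hy; rw [Multiset.mem_singleton.1 hy]; exact ha₀)
    (by rw [Multiset.sum_singleton]; exact ha₀') hb4 h43 h32 h21 h12 hAA hBB hCC hEE hS hm ha
    (by rw [Multiset.sum_singleton]; exact hN) κ' h0 h1
  rw [Multiset.sum_singleton, Multiset.singleton_add] at this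
  exact this

/-- **(C5)** five lumps `a₀ ≤ κ/6`, `b₁ ≥ b₂ ≥ b₃ ≥ b₄`, `S = ∑ b ≤ 16/27 κ`, total `≤ 5/6 κ` -/
theorem C5 (R : ExpRules (7 / 8 + d) r s) (Lv : ExpLv (7 / 8 + d) r) (hd : 0 ≤ d)
    {κ a₀ b₁ b₂ b₃ b₄ m a : ℝ} (ha₀ : 0 ≤ a₀) (ha₀' : 6 * a₀ ≤ κ) (hb4 : 0 ≤ b₄) (h43 : b₄ ≤ b₃)
    (h32 : b₃ ≤ b₂) (h21 : b₂ ≤ b₁) (h12 : κ ≤ 4 * (b₁ + b₂))
    (hS : 27 * (b₁ + b₂ + b₃ + b₄) ≤ 16 * κ) (hm : 0 ≤ m) (ha : 0 ≤ a)
    (hN : 6 * (a₀ + (b₁ + b₂ + b₃ + b₄) + m + a) ≤ 5 * κ) :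
    ∀ κ' : ℝ, 0 ≤ κ' → κ' ≤ κ →
      r κ' (a₀ ::ₘ b₄ ::ₘ b₃ ::ₘ {b₁, b₂}) m a + (κ - κ') / 3 ≤
        κ + (a₀ + (b₁ + b₂ + b₃ + b₄) + m + a) + d * κ := by
  refine C5x R Lv hd ha₀ ha₀' hb4 h43 h32 h21 h12 (by linarith) (by linarith) (by linarith) ?_
    (by linarith) hm ha hN
  rcases le_total (9 * b₃ + 6 * b₄) (2 * κ) with h | h
  · exact Or.inr h
  · exact Or.inl (by linarith)

/-- five equal lumps `κ/8 ≤ y ≤ 4/27 κ` -/
theorem C5_eq (R : ExpRules (7 / 8 + d) r s) (Lv : ExpLv (7 / 8 + d) r) (hd : 0 ≤ d)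
    {κ y m a : ℝ} (hy : κ ≤ 8 * y) (hy' : 27 * y ≤ 4 * κ) (hm : 0 ≤ m) (ha : 0 ≤ a)
    (hN : 6 * (5 * y + m + a) ≤ 5 * κ) :
    ∀ κ' : ℝ, 0 ≤ κ' → κ' ≤ κ →
      r κ' (Multiset.replicate 5 y) m a + (κ - κ') / 3 ≤ κ + (5 * y + m + a) + d * κ := by
  have hκ0 : 0 ≤ κ := by linarith
  have hy0 : 0 ≤ y := by linarith
  intro κ' h0 h1
  have := C5 R Lv hd (κ := κ) (a₀ := y) (b₁ := y) (b₂ := y) (b₃ := y) (b₄ := y) (m := m) (a := a)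
    hy0 (by linarith) hy0 le_rfl le_rfl le_rfl (by linarith) (by linarith) hm ha (by linarith)
    κ' h0 h1
  have e : (y ::ₘ y ::ₘ y ::ₘ {y, y} : Multiset ℝ) = Multiset.replicate 5 y := rfl
  rw [e] at this
  linarith

/-! ### multiset form -/

theorem sorted4 (W : Multiset ℝ) (hc : Multiset.card W = 4) : ∃ b₁ b₂ b₃ b₄ : ℝ,
    W = b₄ ::ₘ b₃ ::ₘ {b₁, b₂} ∧ b₄ ≤ b₃ ∧ b₃ ≤ b₂ ∧ b₂ ≤ b₁ := by
  obtain ⟨L, hL⟩ : ∃ L : List ℝ, L = W.sort (· ≤ ·) := ⟨_, rfl⟩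
  have h1 : (L : Multiset ℝ) = W := by rw [hL]; exact Multiset.sort_eq W _
  have h2 : L.length = 4 := by rw [← hc, ← h1]; simp
  have h3 : L.Pairwise (· ≤ ·) := by rw [hL]; exact Multiset.pairwise_sort W _
  match L, h1, h2, h3 with
  | [x₁, x₂, x₃, x₄], h1, _, h3 =>
    simp only [List.pairwise_cons, List.mem_cons, List.not_mem_nil, or_false, forall_eq_or_imp,
      forall_eq] at h3
    refine ⟨x₄, x₃, x₂, x₁, ?_, h3.1.1, h3.2.1.1, h3.2.2.1⟩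
    rw [← h1]
    have : ((x₁ :: x₂ :: x₃ :: x₄ :: [] : List ℝ) : Multiset ℝ) = x₁ ::ₘ x₂ ::ₘ {x₃, x₄} := rfl
    rw [this, Multiset.pair_comm]

/-- `(C5)` for a multiset `W` of four lumps, two of them of sum `≥ κ/4`, `|W| ≤ 16/27 κ` -/
theorem C5_W (R : ExpRules (7 / 8 + d) r s) (Lv : ExpLv (7 / 8 + d) r) (hd : 0 ≤ d)
    {κ a₀ m a : ℝ} {W : Multiset ℝ} (hc : Multiset.card W = 4) (hW : ∀ y ∈ W, 0 ≤ y)
    (h12 : ∃ x y : ℝ, x ∈ W ∧ y ∈ W.erase x ∧ κ ≤ 4 * (x + y)) (hS : 27 * W.sum ≤ 16 * κ)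
    (ha₀ : 0 ≤ a₀) (ha₀' : 6 * a₀ ≤ κ) (hm : 0 ≤ m) (ha : 0 ≤ a)
    (hN : 6 * (a₀ + W.sum + m + a) ≤ 5 * κ) :
    ∀ κ' : ℝ, 0 ≤ κ' → κ' ≤ κ →
      r κ' ({a₀} + W) m a + (κ - κ') / 3 ≤ κ + (a₀ + W.sum + m + a) + d * κ := by
  obtain ⟨b₁, b₂, b₃, b₄, rfl, h43, h32, h21⟩ := sorted4 W hc
  have hsum : (b₄ ::ₘ b₃ ::ₘ {b₁, b₂} : Multiset ℝ).sum = b₁ + b₂ + b₃ + b₄ := by
    rw [Multiset.sum_cons, sum_tri]; ring
  have hb4 : 0 ≤ b₄ := hW b₄ (by simp)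
  have hp : κ ≤ 4 * (b₁ + b₂) := by
    obtain ⟨x, y, hx, hy, hxy⟩ := h12
    have hx' : x = b₄ ∨ x = b₃ ∨ x = b₁ ∨ x = b₂ := by simpa using hx
    have hy' : y = b₄ ∨ y = b₃ ∨ y = b₁ ∨ y = b₂ := by
      simpa using Multiset.mem_of_mem_erase hy
    have hyb : y ≤ b₁ := by rcases hy' with h | h | h | h <;> rw [h] <;> linarith
    by_cases hxb : x ≤ b₂
    · linarith
    · have hx1 : x = b₁ := by
        rcases hx' with h | h | h | h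
        · exact absurd (by rw [h]; linarith) hxb
        · exact absurd (by rw [h]; linarith) hxb
        · exact h
        · exact absurd (by rw [h]) hxb
      subst hx1
      have e : (b₄ ::ₘ b₃ ::ₘ {x, b₂} : Multiset ℝ) = x ::ₘ b₄ ::ₘ b₃ ::ₘ {b₂} := by
        simp only [Multiset.insert_eq_cons, ← Multiset.singleton_add]
        abel
      rw [e, Multiset.erase_cons_head] at hy
      have : y ≤ b₂ := by
        simp only [Multiset.mem_cons, Multiset.mem_singleton] at hy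
        rcases hy with h | h | h <;> rw [h] <;> linarith
      linarith
  rw [hsum] at hS hN ⊢
  intro κ' h0 h1
  rw [Multiset.singleton_add]
  exact C5 R Lv hd ha₀ ha₀' hb4 h43 h32 h21 hp hS hm ha hN κ' h0 h1

/-- 499's constructor `c5` (lumps of `W` at least `κ/8`) -/
theorem C5_c5 (R : ExpRules (7 / 8 + d) r s) (Lv : ExpLv (7 / 8 + d) r) (hd : 0 ≤ d)
    {κ a₀ b m a : ℝ} {W : Multiset ℝ} (hc : Multiset.card W = 4) (hW : ∀ y ∈ W, κ ≤ 8 * y)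
    (hb : ∀ y ∈ W, y ≤ b) (h1 : W.sum + b / 2 ≤ 2 / 3 * κ) (ha₀ : 0 ≤ a₀) (ha₀' : 6 * a₀ ≤ κ)
    (hm : 0 ≤ m) (ha : 0 ≤ a) (hN : 6 * (a₀ + W.sum + m + a) ≤ 5 * κ) :
    ∀ κ' : ℝ, 0 ≤ κ' → κ' ≤ κ →
      r κ' ({a₀} + W) m a + (κ - κ') / 3 ≤ κ + (a₀ + W.sum + m + a) + d * κ := by
  have hκ0 : 0 ≤ κ := by linarith
  obtain ⟨b₁, b₂, b₃, b₄, rfl, h43, h32, h21⟩ := sorted4 W hc
  have hsum : (b₄ ::ₘ b₃ ::ₘ {b₁, b₂} : Multiset ℝ).sum = b₁ + b₂ + b₃ + b₄ := by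
    rw [Multiset.sum_cons, sum_tri]; ring
  have hb1 : b₁ ≤ b := hb b₁ (by simp)
  have hy2 : κ ≤ 8 * b₂ := hW b₂ (by simp)
  have hb4 : κ ≤ 8 * b₄ := hW b₄ (by simp)
  rw [hsum] at h1 hN ⊢
  intro κ' h0 h1'
  rw [Multiset.singleton_add]
  exact C5 R Lv hd ha₀ ha₀' (by linarith) h43 h32 h21 (by linarith) (by linarith) hm ha hN κ' h0
    h1'

end Crest.Agent.R017.C5_720
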