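import Crest.Agent.R017.C1step2_744
import Crest.Agent.R017.C1Id_61
import Crest.Agent.R017.C1desc_708
import Crest.Agent.R017.C5_720

/-!
# Row 17, C1 (equal small lumps): the chain (helper744)

`lam = 4/3 d - μ`.  Sides `{w^q | 5/6 κ - q w}` (all shortenings, any amplifier share), loss
`lam κ`:

* `sid3` : `q = 3`, `κ/w ∈ [9/2, 8]`; `sid4` : `q = 4`, `κ/w ∈ [6, 8]` (T6);
* `sid5` : `q = 5`, `κ/w ∈ [27/4, 11]` (helper720's `col4`, STEP3');
* `sid6` : `q = 6`, `κ/w ∈ [9, 11]` (STEP3);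
* `chain` : with `q = 6`, `κ/w ∈ [33/4, 9]` as hypothesis: all `q ≥ 5`,
  `κ/w ∈ [3/2 q - 3/4, 3/2 q + 2]`;
* `ceil15` : `κ ≥ 15`, `κ ∈ [3/2 (q-1), 3/2 q + 2]` (helper708's `ceil_lin`), unit `w = 1`.
-/

set_option autoImplicit false

noncomputable section

namespace Crest.Agent.R017.C1S744

open Crest.Agent.R017.ER911 Crest.Agent.R017.SC777

variable {d μ w κ : ℝ} {r s : EF}

theorem Sid.mono {q : ℕ} {c c' F F' : ℝ} (h : Sid r κ q w c F) (hc : c' ≤ c) (hF : F ≤ F') :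
    Sid r κ q w c' F' := by
  intro Y m a hY hYw hm ha hma κ' h0 h1
  have := h Y m a hY hYw hm ha (hma.trans hc) κ' h0 h1
  linarith

/-- three lumps -/
theorem sid3 (R : ExpRules (7 / 8 + d) r s) (hd : 0 ≤ d) (hμ2 : 9 * μ ≤ d) (hw : 0 < w)
    (h1 : 9 / 2 * w ≤ κ) (h2 : κ ≤ 8 * w) :
    Sid r κ 3 w (5 / 6 * κ - 3 * w) ((4 / 3 * d - μ) * κ) := by
  refine C161.idl3 R hd hw.le h1 h2 ?_
  have h3 : 9 * μ * κ ≤ d * κ := mul_le_mul_of_nonneg_right hμ2 (by linarith)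
  have h4 : d * κ ≤ d * (8 * w) := mul_le_mul_of_nonneg_left h2 hd
  have h5 : 0 ≤ d * w := mul_nonneg hd hw.le
  linarith

/-- four lumps -/
theorem sid4 (R : ExpRules (7 / 8 + d) r s) (hd : 0 ≤ d) (hμ2 : 9 * μ ≤ d) (hw : 0 < w)
    (h1 : 6 * w ≤ κ) (h2 : κ ≤ 8 * w) :
    Sid r κ 4 w (5 / 6 * κ - 4 * w) ((4 / 3 * d - μ) * κ) := by
  refine C161.idl4 R hd hw.le h1 h2 ?_
  have h3 : 9 * μ * κ ≤ d * κ := mul_le_mul_of_nonneg_right hμ2 (by linarith)
  have h4 : d * κ ≤ d * (8 * w) := mul_le_mul_of_nonneg_left h2 hd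
  have h5 : 0 ≤ d * w := mul_nonneg hd hw.le
  linarith

/-- five lumps, `27/4 ≤ κ/w ≤ 8` (helper720) -/
theorem sid5a (R : ExpRules (7 / 8 + d) r s) (L : ExpLv (7 / 8 + d) r) (hd : 0 ≤ d)
    (hμ2 : 9 * μ ≤ d) (hw : 0 < w) (h1 : 27 / 4 * w ≤ κ) (h2 : κ ≤ 8 * w) :
    Sid r κ 5 w (5 / 6 * κ - 5 * w) ((4 / 3 * d - μ) * κ) := by
  intro Y m a hYc hY hm ha hma κ' hκ0 hκ1
  have hκ : 0 ≤ κ := by linarith
  have hdκ : 0 ≤ d * κ := mul_nonneg hd hκ
  obtain ⟨v, hvY⟩ := Multiset.card_pos_iff_exists_mem.1 (show 0 < Multiset.card Y by omega)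
  obtain ⟨Z, rfl⟩ := Multiset.exists_cons_of_mem hvY
  have hZc : Multiset.card Z = 4 := by
    rw [Multiset.card_cons] at hYc; omega
  have hv := hY v (Multiset.mem_cons_self v Z)
  have hZ : ∀ y ∈ Z, 0 ≤ y ∧ y ≤ w := fun y hy => hY y (Multiset.mem_cons_of_mem hy)
  obtain ⟨b, b', hb0, hbm, hb0', hbm', hbb, hbb'⟩ :=
    C161.split_g hm ha hma (g := κ / 6 - w) (by linarith) (by linarith)
  have C := C5_720.col4 R L hd (κ := κ) (b₁ := w) (b₂ := w) (b₃ := w) (b₄ := w) (m := m - b)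
    (a := a - b') hw.le le_rfl le_rfl le_rfl (by linarith) (by linarith) (by linarith)
    (by linarith) (Or.inl (by linarith)) (by linarith)
  have hsh := C161.sh_replicate Z hZ
  rw [hZc] at hsh
  have e4 : (w ::ₘ w ::ₘ {w, w} : Multiset ℝ) = Multiset.replicate 4 w := rfl
  rw [e4] at C
  have C' := C.mono hsh le_rfl le_rfl
  have hZs := hsh.sum_le
  rw [Multiset.sum_replicate, nsmul_eq_mul] at hZs
  push_cast at hZs
  have key := side_xi R (κ := κ) (ξ := κ / 6) (m := m - b) (b := b) (a := a - b') (b' := b')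
    (F := d * κ) (V := {v}) (Z := Z) hκ
    (fun y hy => by rw [Multiset.mem_singleton] at hy; rw [hy]; exact hv.1)
    (fun y hy => (hZ y hy).1) (by linarith) hb0 (by linarith) hb0' hdκ
    (by rw [Multiset.sum_singleton]; linarith) (by linarith) C' κ' hκ0 hκ1
  rw [Multiset.sum_singleton, Multiset.singleton_add, sub_add_cancel, sub_add_cancel] at key
  rw [Multiset.sum_cons]
  have h3 : 9 * μ * κ ≤ d * κ := mul_le_mul_of_nonneg_right hμ2 hκ
  linarith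

/-- five lumps -/
theorem sid5 (R : ExpRules (7 / 8 + d) r s) (L : ExpLv (7 / 8 + d) r) (hd : 0 ≤ d) (hμ : 0 ≤ μ)
    (hμ1 : 72 * μ ≤ 1 - 8 * d) (hμ2 : 9 * μ ≤ d) (hw : 0 < w) (h1 : 27 / 4 * w ≤ κ)
    (h2 : κ ≤ 11 * w) : Sid r κ 5 w (5 / 6 * κ - 5 * w) ((4 / 3 * d - μ) * κ) := by
  rcases le_total κ (8 * w) with h | h
  · exact sid5a R L hd hμ2 hw h1 h
  · have H := sid3 (κ := κ - 3 * w) R hd hμ2 hw (by linarith) (by linarith)
    refine step3' (q := 3) R L hd hμ hμ1 hμ2 hw (by linarith) (by linarith) (by norm_num)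
      (by push_cast; linarith) (by linarith) ?_
    exact H.mono (by linarith) le_rfl

/-- six lumps, `κ ≥ 9 w` -/
theorem sid6 (R : ExpRules (7 / 8 + d) r s) (L : ExpLv (7 / 8 + d) r) (hd : 0 ≤ d) (hμ : 0 ≤ μ)
    (hμ1 : 72 * μ ≤ 1 - 8 * d) (hμ2 : 9 * μ ≤ d) (hw : 0 < w) (h1 : 9 * w ≤ κ)
    (h2 : κ ≤ 11 * w) : Sid r κ 6 w (5 / 6 * κ - 6 * w) ((4 / 3 * d - μ) * κ) := by
  have H := sid4 (κ := κ - 3 * w) R hd hμ2 hw (by linarith) (by linarith)
  refine step3 (q := 4) R L hd hμ hμ1 hμ2 hw h1 (by linarith) (by norm_num)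
    (by push_cast; linarith) (by linarith) ?_
  exact H.mono (by linarith) le_rfl

/-- **one step up**, any offset -/
theorem up (R : ExpRules (7 / 8 + d) r s) (L : ExpLv (7 / 8 + d) r) (hd : 0 ≤ d) (hμ : 0 ≤ μ)
    (hμ1 : 72 * μ ≤ 1 - 8 * d) (hμ2 : 9 * μ ≤ d) (hw : 0 < w) {q : ℕ} {c : ℝ} (hq1 : 1 ≤ q)
    (hκ : 6 * w ≤ κ) (hc : 0 ≤ c) (hq : q * w + c ≤ 5 / 6 * κ) (hcube : c ≤ 2 / 3 * κ + w / 2)
    (H : Sid r κ q w c ((4 / 3 * d - μ) * κ)) :
    Sid r (κ + 3 * w) (q + 2) w (c + w / 2) ((4 / 3 * d - μ) * (κ + 3 * w)) := by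
  have e1 : κ + 3 * w - 3 * w = κ := by ring
  have e2 : c + w / 2 - w / 2 = c := by ring
  refine step3 R L hd hμ hμ1 hμ2 hw (by linarith) (by linarith) hq1 (by linarith)
    (by linarith) ?_
  rw [e1, e2]
  exact H

/-- **the chain** (floor sides and the upper half of the ceil sides) -/
theorem chain (R : ExpRules (7 / 8 + d) r s) (L : ExpLv (7 / 8 + d) r) (hd : 0 ≤ d) (hμ : 0 ≤ μ)
    (hμ1 : 72 * μ ≤ 1 - 8 * d) (hμ2 : 9 * μ ≤ d) (hw : 0 < w)
    (H6 : ∀ κ : ℝ, 33 / 4 * w ≤ κ → κ ≤ 9 * w →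
      Sid r κ 6 w (5 / 6 * κ - 6 * w) ((4 / 3 * d - μ) * κ)) :
    ∀ q : ℕ, 5 ≤ q → ∀ κ : ℝ, (3 / 2 * q - 3 / 4) * w ≤ κ → κ ≤ (3 / 2 * q + 2) * w →
      Sid r κ q w (5 / 6 * κ - q * w) ((4 / 3 * d - μ) * κ) := by
  intro q
  induction q using Nat.strong_induction_on with
  | _ q ih =>
    intro hq κ h1 h2
    rcases Nat.lt_or_ge q 7 with h7 | h7
    · obtain rfl | rfl : q = 5 ∨ q = 6 := by omega
      · have := sid5 (κ := κ) R L hd hμ hμ1 hμ2 hw (by push_cast at h1; linarith)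
          (by push_cast at h2; linarith)
        exact this.mono (by push_cast; linarith) le_rfl
      · push_cast at h1 h2
        rcases le_total κ (9 * w) with h9 | h9
        · exact (H6 κ (by linarith) h9).mono (by push_cast; linarith) le_rfl
        · exact (sid6 (κ := κ) R L hd hμ hμ1 hμ2 hw h9 (by linarith)).mono
            (by push_cast; linarith) le_rfl
    · obtain ⟨p, rfl⟩ := Nat.exists_eq_add_of_le' (show 2 ≤ q by omega)
      have hp : 5 ≤ p := by omega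
      have hp' : (5 : ℝ) ≤ p := by exact_mod_cast hp
      push_cast at h1 h2
      have hpw : 5 * w ≤ p * w := mul_le_mul_of_nonneg_right hp' hw.le
      have H := ih p (by omega) hp (κ - 3 * w) (by linarith) (by linarith)
      refine (step3 (h := 5 / 6 * κ - (p + 2) * w) R L hd hμ hμ1 hμ2 hw (by linarith)
        (by linarith) (by omega) (by linarith) (by linarith) ?_).mono (by push_cast; linarith)
        le_rfl
      exact H.mono (by linarith) le_rfl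

/-- **all sides for `κ ≥ 15`** (unit `w = 1`) -/
theorem ceil15 (R : ExpRules (7 / 8 + d) r s) (L : ExpLv (7 / 8 + d) r) (hd : 0 ≤ d) (hμ : 0 ≤ μ)
    (hμ1 : 240 * μ ≤ 1 - 8 * d) (hμ2 : 9 * μ ≤ d)
    (H6 : ∀ κ : ℝ, 33 / 4 ≤ κ → κ ≤ 9 → Sid r κ 6 1 (5 / 6 * κ - 6) ((4 / 3 * d - μ) * κ))
    {q : ℕ} (hκ : 15 ≤ κ) (h1 : 3 / 2 * ((q : ℝ) - 1) ≤ κ) (h2 : κ ≤ 3 / 2 * q + 2) :
    Sid r κ q 1 (5 / 6 * κ - q) ((4 / 3 * d - μ) * κ) := by
  have hμ1' : 72 * μ ≤ 1 - 8 * d := by linarith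
  have ch := chain (w := 1) R L hd hμ hμ1' hμ2 one_pos (fun κ h1 h2 => by
    have := H6 κ (by linarith) (by linarith)
    exact this.mono (by linarith) le_rfl)
  have hq9 : 9 ≤ q := by
    by_contra hlt
    have : (q : ℝ) ≤ 8 := by exact_mod_cast (by omega : q ≤ 8)
    linarith
  rcases le_total (3 / 2 * (q : ℝ) - 3 / 4) κ with h | h
  · exact (ch q (by omega) κ (by linarith) (by linarith)).mono (by linarith) le_rfl
  · have hq11 : 11 ≤ q := by
      by_contra hlt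
      have : (q : ℝ) ≤ 10 := by exact_mod_cast (by omega : q ≤ 10)
      linarith
    obtain ⟨k, rfl⟩ := Nat.exists_eq_add_of_le' (show 5 ≤ q by omega)
    have hk : 6 ≤ k := by omega
    have hk' : (6 : ℝ) ≤ k := by exact_mod_cast hk
    push_cast at h1 h2 h
    have IH := ch k (by omega) (κ - 27 / 4) (by linarith) (by linarith)
    have key := C1D708.ceil_lin (c₀ := 4 / 3 * d - μ) (κ := κ) (k := k) R L hd (by linarith)
      (by linarith) (by linarith) hκ hk (by linarith) (by linarith)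
      (IH.mono (by linarith) le_rfl)
    exact key

end Crest.Agent.R017.C1S744
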