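import Crest.Agent.R017.C1Id_61

/-!
# Row 17, section D, small lumps: six equal lumps (helper61)

`idl6` : `{1⁶ | 5/6 κ - 6}` is ideal up to `2 d (5/6 κ - 3)` for `33/4 ≤ κ ≤ 9`, all shortenings,
every amplifier share. `X` = one lump, columns `{1⁵ | 5/6 κ - 6}` at `i ≤ κ - 3`: moments
`{b³|·}`, `{b⁴|·}` (T6) and the level rule `{b^k | f}`, `k = ⌊4i/3⌋`, and `{b⁷}`.
-/

set_option autoImplicit false

noncomputable section

namespace Crest.Agent.R017.C161

open Crest.Agent.R017.ER911 Crest.Agent.R017.SC777 Crest.Agent.R017.CE645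

variable {θ d : ℝ} {r s : EF}

theorem cross {τ a b p q : ℝ} (ha : 0 < a) (hA : τ * a ≤ q) (hB : p < τ * b) (hp : 0 ≤ p)
    (hτ : 0 ≤ τ) (h : q * b ≤ p * a) : False := by
  have hb : 0 < b := by
    by_contra hb
    push Not at hb
    nlinarith
  nlinarith [mul_lt_mul_of_pos_right hB ha, mul_le_mul_of_nonneg_right hA hb.le]

/-- four-lump moments at `i ≤ 6` -/
theorem mom4g (R : ExpRules (7 / 8 + d) r s) (hd : 0 ≤ d) {i g : ℝ} (h0 : 0 ≤ i) (h6 : i ≤ 6)
    (hg : 0 ≤ g) (hg' : g ≤ max (i - 5) 0) :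
    ∀ u : ℝ, 0 ≤ u → u ≤ 1 →
      MB r i (Multiset.replicate 4 u) g (max (2 / 3 * (5 - i)) 0 + 2 * d * 2) := by
  intro u hu hu1
  rcases le_total 5 i with h5 | h5
  · have h := bl4 R hd (w := 1) (κ := i) (F := 2 * d * 2) zero_le_one (by linarith) (by linarith)
      (mul_le_mul_of_nonneg_left (by linarith) (by linarith))
    rw [max_eq_left (by linarith)] at hg'
    have := h.MB hu hu1 (g := g) hg (by linarith) h0
    rw [max_eq_right (by linarith : 2 / 3 * (5 - i) ≤ 0), zero_add]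
    exact this
  · have h := (bl4 R hd (w := 1) (κ := 5) (F := 2 * d * 2) zero_le_one (by linarith) (by linarith)
      (mul_le_mul_of_nonneg_left (by linarith) (by linarith))).down (κ₁ := i)
      (F' := 2 / 3 * (5 - i) + 2 * d * 2) h5 (by linarith)
    rw [max_eq_right (by linarith)] at hg'
    have := h.MB hu hu1 (g := g) hg (by linarith) h0
    rw [max_eq_left (by linarith : 0 ≤ 2 / 3 * (5 - i))]
    exact this

theorem mom4 (R : ExpRules (7 / 8 + d) r s) (hd : 0 ≤ d) {i : ℝ} (h0 : 0 ≤ i) (h6 : i ≤ 6) :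
    ∀ u : ℝ, 0 ≤ u → u ≤ 1 →
      MB r i (Multiset.replicate 4 u) (max (i - 5) 0) (max (2 / 3 * (5 - i)) 0 + 2 * d * 2) :=
  mom4g R hd h0 h6 (le_max_right _ _) le_rfl

/-- three-lump moments, `i ≤ 9/2` -/
theorem mom3a (R : ExpRules (7 / 8 + d) r s) (hd : 0 ≤ d) {i : ℝ} (h0 : 9 / 4 ≤ i)
    (h6 : i ≤ 9 / 2) : ∀ u : ℝ, 0 ≤ u → u ≤ 1 →
      MB r i (Multiset.replicate 3 u) ((i - 9 / 4) / 3) ((9 / 2 - i) / 3 + 2 * d * 3) := by
  intro u hu hu1
  have h := bl3s R hd (w := 1) (κ := i) (F := (9 / 2 - i) / 3 + 2 * d * 3) zero_le_one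
    (by linarith) (by linarith) (by nlinarith)
  exact h.MB hu hu1 (by linarith) (by linarith) (by linarith)

/-- three-lump moments, `9/2 ≤ i ≤ 43/8` -/
theorem mom3b (R : ExpRules (7 / 8 + d) r s) (hd : 0 ≤ d) {i : ℝ} (h0 : 9 / 2 ≤ i)
    (h6 : i ≤ 43 / 8) : ∀ u : ℝ, 0 ≤ u → u ≤ 1 →
      MB r i (Multiset.replicate 3 u) (i - 15 / 4) (2 * d * 3) := by
  intro u hu hu1
  have h := bl3 R hd (w := 1) (κ := i) (F := 2 * d * 3) zero_le_one
    (by linarith) (by linarith) (mul_le_mul_of_nonneg_left (by linarith) (by linarith))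
  exact h.MB hu hu1 (by linarith) (by linarith) (by linarith)

/-- three-lump moments, `43/8 ≤ i ≤ 6` -/
theorem mom3c (R : ExpRules (7 / 8 + d) r s) (hd : 0 ≤ d) {i : ℝ} (h0 : 43 / 8 ≤ i)
    (h6 : i ≤ 6) : ∀ u : ℝ, 0 ≤ u → u ≤ 1 →
      MB r i (Multiset.replicate 3 u) ((7 * i - 23) / 9) (2 * d * 3) := by
  intro u hu hu1
  have h := bl3' R hd (w := 1) (κ := i) (F := 2 * d * 3) zero_le_one
    (by linarith) (by linarith) (mul_le_mul_of_nonneg_left (by linarith) (by linarith))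
  exact h.MB hu hu1 (by linarith) (by linarith) (by linarith)

/-- closing by a moment -/
theorem c1_mom {i w φ δ B g e : ℝ} (k : ℕ) (hg : 0 ≤ g)
    (h : ∀ u : ℝ, 0 ≤ u → u ≤ w → MB r i (Multiset.replicate k u) g e)
    (hc : i + e - k * φ - g * δ ≤ B) : C1 θ r i w φ δ B :=
  Or.inr (Or.inl ⟨k, g, e, hg, fun u h1 h2 _ => h u h1 h2, hc⟩)

/-- closing by the level rule, exact length -/
theorem c1_lv {i φ δ B : ℝ} (k : ℕ) (hf : (k : ℝ) ≤ 4 / 3 * i)
    (hv : 2 / 3 * (4 / 3 * i) ≤ k * φ + (4 / 3 * i - k) * δ)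
    (hc : 4 / 3 * i - (k * φ + (4 / 3 * i - k) * δ) ≤ B) : C1 θ r i 1 φ δ B := by
  refine Or.inl ⟨k, 4 / 3 * i - k, by linarith, Or.inl ⟨by linarith, ?_⟩, ?_⟩
  · refine le_trans (le_of_eq ?_) hv
    ring
  · refine le_trans (le_of_eq ?_) hc
    ring

/-- `k = 6`: `9/2 ≤ i < 21/4`, `δ < 2/3`, the four-lump moment (`a`) does not close -/
theorem q6_k6 (R : ExpRules (7 / 8 + d) r s) (hd : 0 ≤ d) {κ i F X τ a : ℝ} (hκ : 33 / 4 ≤ κ)
    (h5 : 9 / 2 ≤ i) (h6 : i < 21 / 4) (hF3 : 2 * d * 3 ≤ F)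
    (hτ0 : 0 ≤ τ) (ha : 0 < a)
    (hab : (9 - κ) / 9 * (i + 9 / 4 - 5 / 6 * κ) ≤ (κ - 15 / 2) / 9 * a)
    (hP4 : τ * a < X + (9 - κ) / 9) :
    C1 θ r i 1 (2 / 3 + X) (2 / 3 - τ)
      ((2 * κ + i) / 3 - 1 + F - 5 * (2 / 3 + X) - (5 / 6 * κ - 6) * (2 / 3 - τ)) := by
  have hF0 : 0 ≤ F := le_trans (by positivity) hF3
  by_cases hP3 : 2 * X ≤ (κ - 15 / 2) / 9 + τ * (5 / 6 * κ - 9 / 4 - i)
  · refine c1_mom 3 (by linarith) (mom3b R hd h5 (by linarith)) ?_
    push_cast
    linarith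
  push Not at hP3
  by_cases hv : (4 / 3 * i - 6) * τ ≤ 6 * X
  · refine c1_lv 6 (by push_cast; linarith) ?_ ?_
    · push_cast; linarith
    · push_cast
      have h1 : 0 ≤ 5 / 6 * κ - 1 - 10 / 9 * i := by linarith
      have := mul_nonneg h1 hτ0
      linarith
  push Not at hv
  rcases lt_or_ge X 0 with hX | hX
  · exfalso
    refine cross (τ := τ) (a := a) (b := i + 9 / 4 - 5 / 6 * κ)
      (p := (κ - 15 / 2) / 9) (q := (9 - κ) / 9) ha (by linarith) (by linarith)
      (by linarith) hτ0 hab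
  by_cases hr : 8 / 3 - κ / 9 - i / 3 ≤ 2 * X + (5 / 6 * κ - 6) * τ
  · refine Or.inl ⟨7, 0, le_rfl, Or.inl ⟨?_, ?_⟩, ?_⟩
    · push_cast; linarith
    · push_cast; linarith
    · push_cast; linarith
  push Not at hr
  exfalso
  refine cross (τ := τ) (a := 5 / 6 * κ - 6) (b := 13 / 9 * i - 5 / 6 * κ + 1 / 4)
    (p := (κ - 15 / 2) / 9) (q := 8 / 3 - κ / 9 - i / 3) (by linarith) (by linarith) (by linarith)
    (by linarith) hτ0 ?_
  nlinarith [sq_nonneg (i - 59 / 12),
    mul_nonneg (by linarith : 0 ≤ 21 / 4 - i) (by linarith : 0 ≤ κ - 33 / 4)]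

/-- the column `{1⁵ | 5/6 κ - 6}` above `κ - 39/8`: what remains at `(φ, δ)` -/
theorem q6_H1 (R : ExpRules (7 / 8 + d) r s) (hd : 0 ≤ d) {κ i F φ δ : ℝ} (hκ : 33 / 4 ≤ κ)
    (hκ9 : κ ≤ 9) (hi : κ - 39 / 8 ≤ i) (hi3 : i ≤ κ - 3)
    (hF : 2 * d * (5 / 6 * κ - 3) ≤ F) (hφ0 : 0 ≤ φ) (hφ : φ ≤ 3 / 4 + 2 * d) (hδ0 : 0 < δ)
    (hδ : δ ≤ 3 / 4 + 2 * d) :
    C1 θ r i 1 φ δ ((2 * κ + i) / 3 - 1 + F - 5 * φ - (5 / 6 * κ - 6) * δ) := by
  have hF3 : 2 * d * 3 ≤ F := le_trans (mul_le_mul_of_nonneg_left (by linarith) (by linarith)) hF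
  have hF2 : 2 * d * 2 ≤ F := le_trans (mul_le_mul_of_nonneg_left (by linarith) (by linarith)) hF
  have hF0 : 0 ≤ F := le_trans (by positivity) hF2
  have hF1 : 2 * d * (5 / 6 * κ - 1 - 4 / 3 * i) ≤ F :=
    le_trans (mul_le_mul_of_nonneg_left (by linarith) (by linarith)) hF
  -- the common bound when `2/3 ≤ δ`
  have hdd : 2 / 3 ≤ δ → 4 / 3 * i + (5 / 6 * κ - 1 - 4 / 3 * i) * δ ≤
      (2 * κ + i) / 3 - 1 + F := by
    intro h
    rcases le_total 0 (5 / 6 * κ - 1 - 4 / 3 * i) with h1 | h1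
    · have := mul_le_mul_of_nonneg_left hδ h1
      linarith
    · have := mul_le_mul_of_nonpos_left h h1
      linarith
  rcases le_or_gt (2 / 3) δ with hδ2 | hδ2
  · rcases le_total φ δ with hφδ | hφδ
    · -- pure granular
      refine c1_lv 0 (by push_cast; linarith) ?_ ?_
      · push_cast
        nlinarith
      · push_cast
        have := hdd hδ2
        linarith
    · have hφ2 : 2 / 3 ≤ φ := hδ2.trans hφδ
      rcases lt_or_ge i (15 / 4) with h4 | h4
      · refine c1_lv 4 (by push_cast; linarith) ?_ ?_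
        · push_cast
          nlinarith [mul_nonneg (by linarith : 0 ≤ 4 / 3 * i - 4) (by linarith : 0 ≤ δ - 2 / 3)]
        · push_cast
          rcases le_total 0 (5 / 6 * κ - 2 - 4 / 3 * i) with h1 | h1
          · have := mul_le_mul_of_nonneg_left hδ h1
            linarith
          · have := mul_le_mul_of_nonpos_left hδ2 h1
            linarith
      · rcases lt_or_ge i (9 / 2) with h5 | h5
        · refine c1_lv 5 (by push_cast; linarith) ?_ ?_
          · push_cast
            nlinarith [mul_nonneg (by linarith : 0 ≤ 4 / 3 * i - 5) (by linarith : 0 ≤ δ - 2 / 3)]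
          · push_cast
            have := hdd hδ2
            linarith
        · rcases lt_or_ge i (21 / 4) with h6 | h6
          · refine c1_lv 6 (by push_cast; linarith) ?_ ?_
            · push_cast
              nlinarith [mul_nonneg (by linarith : 0 ≤ 4 / 3 * i - 6)
                (by linarith : 0 ≤ δ - 2 / 3)]
            · push_cast
              have := hdd hδ2
              linarith
          · refine c1_lv 7 (by push_cast; linarith) ?_ ?_
            · push_cast
              nlinarith [mul_nonneg (by linarith : 0 ≤ 4 / 3 * i - 7)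
                (by linarith : 0 ≤ δ - 2 / 3)]
            · push_cast
              have := hdd hδ2
              linarith
  -- `δ < 2/3`
  obtain ⟨X, rfl⟩ : ∃ X, φ = 2 / 3 + X := ⟨φ - 2 / 3, by ring⟩
  obtain ⟨τ, rfl⟩ : ∃ τ, δ = 2 / 3 - τ := ⟨2 / 3 - δ, by ring⟩
  have hτ0 : 0 ≤ τ := by linarith
  have hτ2 : τ ≤ 2 / 3 := by linarith
  rcases lt_or_ge i 5 with hi5 | hi5
  · -- `i < 5`
    by_cases hP4 : X + (9 - κ) / 9 ≤ τ * (5 / 6 * κ - 6)
    · refine c1_mom 4 (le_max_right _ _) (mom4 R hd (by linarith) (by linarith)) ?_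
      rw [max_eq_right (by linarith : i - 5 ≤ 0), max_eq_left (by linarith : 0 ≤ 2 / 3 * (5 - i))]
      push_cast
      linarith
    push Not at hP4
    rcases lt_or_ge i (9 / 2) with h5 | h5
    · by_cases hP3 : 2 * X ≤ (κ - 3 - i) / 9 + τ * (5 / 6 * κ - 6 - (i - 9 / 4) / 3)
      · refine c1_mom 3 (by linarith) (mom3a R hd (by linarith) (by linarith)) ?_
        push_cast
        linarith
      push Not at hP3
      rcases lt_or_ge i (15 / 4) with h4 | h4
      · -- k = 4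
        by_cases hv : (4 / 3 * i - 4) * τ ≤ 4 * X
        · refine c1_lv 4 (by push_cast; linarith) ?_ ?_
          · push_cast; linarith
          · push_cast
            rcases le_total 0 (5 / 6 * κ - 2 - 4 / 3 * i) with h1 | h1
            · have := mul_nonneg h1 hτ0
              linarith
            · have := mul_le_mul_of_nonpos_left hτ2 h1
              linarith
        push Not at hv
        exfalso
        refine cross (τ := τ) (a := 5 / 6 * κ - 5 - i / 3) (b := i - 5 / 6 * κ + 13 / 4)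
          (p := (κ - 3 - i) / 9) (q := (9 - κ) / 9) (by linarith) (by linarith) (by linarith)
          (by linarith) hτ0 ?_
        nlinarith
      · -- k = 5
        by_cases hv : (4 / 3 * i - 5) * τ ≤ 5 * X
        · refine c1_lv 5 (by push_cast; linarith) ?_ ?_
          · push_cast; linarith
          · push_cast
            rcases le_total 0 (5 / 6 * κ - 1 - 4 / 3 * i) with h1 | h1
            · have := mul_nonneg h1 hτ0
              linarith
            · have := mul_le_mul_of_nonpos_left hτ2 h1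
              linarith
        push Not at hv
        exfalso
        refine cross (τ := τ) (a := 5 / 6 * κ - 5 - 4 / 15 * i)
          (b := 13 / 15 * i - 5 / 6 * κ + 13 / 4)
          (p := (κ - 3 - i) / 9) (q := (9 - κ) / 9) (by linarith) (by linarith) (by linarith)
          (by linarith) hτ0 ?_
        nlinarith
    · -- k = 6, `i < 5`
      refine q6_k6 R hd hκ h5 (by linarith) hF3 hτ0 (a := 5 / 6 * κ - 6)
        (by linarith) ?_ hP4
      nlinarith
  · by_cases hP4 : X + (9 - κ) / 9 ≤ τ * (5 / 6 * κ - 1 - i)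
    · refine c1_mom 4 (le_max_right _ _) (mom4 R hd (by linarith) (by linarith)) ?_
      rw [max_eq_left (by linarith : 0 ≤ i - 5), max_eq_right (by linarith : 2 / 3 * (5 - i) ≤ 0)]
      push_cast
      linarith
    push Not at hP4
    rcases lt_or_ge i (21 / 4) with h6 | h6
    · refine q6_k6 R hd hκ (by linarith) h6 hF3 hτ0 (a := 5 / 6 * κ - 1 - i)
        (by linarith) ?_ hP4
      nlinarith
    · -- k = 7
      by_cases hv : (4 / 3 * i - 7) * τ ≤ 7 * X
      · refine c1_lv 7 (by push_cast; linarith) ?_ ?_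
        · push_cast; linarith
        · push_cast
          have h1 : 0 ≤ 5 / 6 * κ - 1 - 20 / 21 * i := by linarith
          have := mul_nonneg h1 hτ0
          linarith
      push Not at hv
      rcases le_total i (43 / 8) with h7 | h7
      · by_cases hP3 : 2 * X ≤ (κ - 15 / 2) / 9 + τ * (5 / 6 * κ - 9 / 4 - i)
        · refine c1_mom 3 (by linarith) (mom3b R hd (by linarith) h7) ?_
          push_cast
          linarith
        push Not at hP3
        exfalso
        refine cross (τ := τ) (a := 5 / 6 * κ - 25 / 21 * i)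
          (b := 29 / 21 * i - 5 / 6 * κ + 1 / 4)
          (p := (κ - 15 / 2) / 9) (q := (9 - κ) / 9) (by linarith) (by linarith) (by linarith)
          (by linarith) hτ0 ?_
        nlinarith
      · by_cases hP3 : 2 * X ≤ (3 * κ - 4 * i - 1) / 27 + τ * (5 / 6 * κ - 7 / 9 * i - 31 / 9)
        · refine c1_mom 3 (by linarith) (mom3c R hd h7 (by linarith)) ?_
          push_cast
          linarith
        push Not at hP3
        exfalso
        refine cross (τ := τ) (a := 5 / 6 * κ - 25 / 21 * i)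
          (b := 73 / 63 * i - 5 / 6 * κ + 13 / 9)
          (p := (3 * κ - 4 * i - 1) / 27) (q := (9 - κ) / 9) (by linarith) (by linarith)
          (by linarith) (by linarith) hτ0 ?_
        nlinarith

/-- the columns of `{1⁵ | 5/6 κ - 6}` -/
theorem q6_col (R : ExpRules (7 / 8 + d) r s) (Lv : ExpLv (7 / 8 + d) r) (hd : 0 ≤ d)
    (hd8 : d ≤ 1 / 8) {κ i F m a : ℝ} {Z : Multiset ℝ} (hκ : 33 / 4 ≤ κ) (hκ9 : κ ≤ 9)
    (hi0 : 0 ≤ i) (hi3 : i ≤ κ - 3) (hF : 2 * d * (5 / 6 * κ - 3) ≤ F)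
    (hZ : Multiset.card Z = 5) (hZ1 : ∀ y ∈ Z, 0 ≤ y ∧ y ≤ 1) (hZi : ∀ y ∈ Z, y ≤ i)
    (hm : 0 ≤ m) (ha : 0 ≤ a) (hma : m + a ≤ 5 / 6 * κ - 6) :
    r i Z m a ≤ (Z.sum + m + a) + ((2 * κ + i) / 3 - 1 + F) := by
  have hF2 : 2 * d * 2 ≤ F := le_trans (mul_le_mul_of_nonneg_left (by linarith) (by linarith)) hF
  have hF0 : 0 ≤ F := le_trans (by positivity) hF2
  rcases le_total i (κ - 39 / 8) with hlow | hlow
  · -- three lumps by SUP, two-factor side
    have hsh := sh_replicate Z hZ1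
    have hrep : Multiset.replicate (Multiset.card Z) (1 : ℝ) =
        Multiset.replicate 3 1 + {1, 1} := by
      rw [hZ]
      rw [show (5 : ℕ) = 3 + 2 from rfl, Multiset.replicate_add]
      rfl
    rw [hrep] at hsh
    obtain ⟨Z', P, rfl, hZ', hP⟩ := hsh.of_add
    obtain ⟨c₁, c₂, rfl, hc1, hc1', hc2, hc2'⟩ := hP.pair
    have hZs := hZ'.sum_le
    rw [Multiset.sum_replicate, nsmul_eq_mul] at hZs
    push_cast at hZs
    have hZ0' := hZ'.sum_nonneg
    rw [Multiset.sum_add, sum_pair]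
    have hi1 : c₁ ≤ i := hZi c₁ (Multiset.mem_add.2 (Or.inr (by simp)))
    have hi2 : c₂ ≤ i := hZi c₂ (Multiset.mem_add.2 (Or.inr (by simp)))
    have e0 := supV R hi0 {c₁, c₂} Z' (ok_pair (m := 0) (a := 0) hc1 hc2 le_rfl le_rfl).1
      hZ'.nonneg hm ha
    have e3 : 2 * d * (Z'.sum + (m + a)) ≤ 2 * d * (5 / 6 * κ - 3) :=
      mul_le_mul_of_nonneg_left (by linarith) (by linarith)
    rcases le_or_gt i (c₁ + c₂) with hks | hks
    · have e1 := sup_all R hi0 hc1 hc2 hm ha hi1 hi2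
      linarith
    · obtain ⟨e, he⟩ : ∃ e, e = max 0 (max (m + a - 7 / 9 * (i - (c₁ + c₂)))
        ((12 * a + 9 * m + 4 * (c₁ + c₂) - 8 * i) / 12)) := ⟨_, rfl⟩
      have he0 : 0 ≤ e := by rw [he]; exact le_max_left _ _
      have he1 : m + a - 7 / 9 * (i - (c₁ + c₂)) ≤ e := by
        rw [he]; exact (le_max_left _ _).trans (le_max_right _ _)
      have he2 : (12 * a + 9 * m + 4 * (c₁ + c₂) - 8 * i) / 12 ≤ e := by
        rw [he]; exact (le_max_right _ _).trans (le_max_right _ _)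
      have e1 := side79a R hd hc1 hc2 hm ha hks.le he0 he1 (by linarith) hi0 le_rfl hi1 hi2
      have e4 : 3 / 4 * e ≤ (2 * κ + i) / 3 - 1 - i - 3 / 4 * 3 := by
        have : e ≤ 4 / 3 * ((2 * κ + i) / 3 - 1 - i - 3 / 4 * 3) := by
          rw [he]
          refine max_le ?_ (max_le ?_ ?_)
          · linarith
          · linarith
          · linarith
        linarith
      linarith
  · have key := col_ms Lv (by linarith) (Z := Z) (i := i) (M := m) (A := a)
      (T := (2 * κ + i) / 3 - 1 + F) (w := 1) (p := 5) (c := 5 / 6 * κ - 6) hi0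
      (fun y hy => ⟨(hZ1 y hy).1, hZi y hy, (hZ1 y hy).2⟩) hm ha (by rw [hZ]; norm_num) hma
      (by linarith)
      (fun φ δ h1 h2 h3 h4 => q6_H1 R hd hκ hκ9 hlow hi3 hF h1 (by linarith) h3 (by linarith))
      (fun φ h1 h2 => by
        left
        refine ⟨4, max (2 / 3 * (5 - i)) 0 + 2 * d * 2, ?_, ?_⟩
        · intro u hu hu1 _
          exact mom4g R hd hi0 (by linarith) le_rfl (le_max_right _ _) u hu hu1
        · push_cast
          rcases le_total 5 i with h5 | h5
          · rw [max_eq_right (by linarith : 2 / 3 * (5 - i) ≤ 0)]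
            linarith
          · rw [max_eq_left (by linarith : 0 ≤ 2 / 3 * (5 - i))]
            linarith)
      (fun δ h1 h2 => by
        rcases le_or_gt (2 / 3) δ with h3 | h3
        · left
          refine ⟨4 / 3 * i, by linarith, Or.inl ⟨le_rfl, by nlinarith⟩, ?_⟩
          nlinarith
        · right; right
          nlinarith)
    linarith

/-- **six equal lumps at total `5/6 κ`**, `33/4 ≤ κ ≤ 9` -/
theorem idl6 (R : ExpRules (7 / 8 + d) r s) (Lv : ExpLv (7 / 8 + d) r) (hd : 0 ≤ d)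
    (hd8 : d ≤ 1 / 8) {κ F : ℝ} (hκ : 33 / 4 ≤ κ) (hκ9 : κ ≤ 9)
    (hF : 2 * d * (5 / 6 * κ - 3) ≤ F) : Idl r 1 κ 6 (5 / 6 * κ - 6) F := by
  intro Y m a hY hYw hm ha hma
  have hF0 : 0 ≤ F :=
    le_trans (mul_nonneg (by linarith) (by linarith)) hF
  have hsh := sh_replicate Y hYw
  rw [hY, show (6 : ℕ) = 1 + 5 from rfl, Multiset.replicate_add] at hsh
  obtain ⟨V', Y', rfl, hV', hY'⟩ := hsh.of_add
  have hVs := hV'.sum_le
  rw [Multiset.sum_replicate, nsmul_eq_mul] at hVs
  push_cast at hVs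
  have hYs := hY'.sum_le
  rw [Multiset.sum_replicate, nsmul_eq_mul] at hYs
  push_cast at hYs
  have hC : ColX (7 / 8 + d) r κ 1 F Y' m a := by
    refine ⟨?_, ?_⟩
    · intro Z m' a' i hZ hm0 hm1 ha0 ha1 hi hyi hii
      have hZ5 := hZ.trans hY'
      have := q6_col R Lv hd hd8 (Z := Z) (m := m') (a := a') hκ hκ9 hi (by linarith) hF
        (by rw [hZ5.card, Multiset.card_replicate])
        (fun y hy => by
          obtain ⟨b, hb, hyb⟩ := Multiset.exists_mem_of_rel_of_mem hZ5 hy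
          rw [Multiset.eq_of_mem_replicate hb] at hyb
          exact hyb)
        hyi hm0 ha0 (by linarith)
      linarith
    · intro Z m' a' hZ hm0 hm1 ha0 ha1 _
      have hZ0 := hZ.sum_nonneg
      have h1 : 2 * d * m' ≤ 2 * d * (5 / 6 * κ - 3) :=
        mul_le_mul_of_nonneg_left (by linarith) (by linarith)
      linarith
  have key := side_xi R (κ := κ) (ξ := 1) (m := m) (b := 0) (a := a) (b' := 0)
    (F := F) (V := V') (Z := Y') (by linarith) hV'.nonneg hY'.nonneg hm le_rfl ha le_rfl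
    hF0 (by linarith) (by linarith) hC
  intro κ' h0 h1
  have := key κ' h0 h1
  rw [add_zero, add_zero] at this
  rw [Multiset.sum_add]
  linarith

end Crest.Agent.R017.C161
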