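import Crest.Agent.R017.C1q6_61
import Crest.Agent.R017.Scale_911

/-!
# Row 17, section D, small lumps: scaling of `Idl`, six lumps for a general unit (helper61)
-/

set_option autoImplicit false

noncomputable section

namespace Crest.Agent.R017.C161

open Crest.Agent.R017.ER911 Crest.Agent.R017.SC777

variable {d : ℝ} {r s : EF}

/-- unit lump `1` is enough -/
theorem Idl.of_scale {w κ c F : ℝ} {q : ℕ} (hw : 0 < w) (h : Idl (sc w r) 1 κ q c F) :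
    Idl r w (w * κ) q (w * c) (w * F) := by
  intro Y m a hY hYw hm ha hma κ' h0 h1
  have key := h (Y.map (w⁻¹ * ·)) (w⁻¹ * m) (w⁻¹ * a) (by rw [Multiset.card_map, hY])
    (fun y hy => by
      obtain ⟨x, hx, rfl⟩ := Multiset.mem_map.1 hy
      have := hYw x hx
      refine ⟨mul_nonneg (by positivity) this.1, ?_⟩
      rw [inv_mul_le_iff₀ hw]
      linarith)
    (mul_nonneg (by positivity) hm) (mul_nonneg (by positivity) ha)
    (by
      rw [← mul_add, inv_mul_le_iff₀ hw]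
      exact hma)
    (w⁻¹ * κ') (mul_nonneg (by positivity) h0)
    (by rw [inv_mul_le_iff₀ hw]; exact h1)
  have e1 := sc_eq hw r (w⁻¹ * κ') (Y.map (w⁻¹ * ·)) (w⁻¹ * m) (w⁻¹ * a)
  rw [sc_map_inv hw, mul_inv_cancel_left₀ hw.ne', mul_inv_cancel_left₀ hw.ne',
    mul_inv_cancel_left₀ hw.ne'] at e1
  have e2 : (Y.map (w⁻¹ * ·)).sum = w⁻¹ * Y.sum := sc_map_sum w⁻¹ Y
  rw [e2] at key
  rw [e1]
  have k2 := mul_le_mul_of_nonneg_left key hw.le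
  have e3 : w * (sc w r (w⁻¹ * κ') (Y.map (w⁻¹ * ·)) (w⁻¹ * m) (w⁻¹ * a) + (κ - w⁻¹ * κ') / 3) =
      w * sc w r (w⁻¹ * κ') (Y.map (w⁻¹ * ·)) (w⁻¹ * m) (w⁻¹ * a) + (w * κ - κ') / 3 := by
    field_simp
  have e4 : w * (κ + (w⁻¹ * Y.sum + w⁻¹ * m + w⁻¹ * a) + F) =
      w * κ + (Y.sum + m + a) + w * F := by
    field_simp
  rw [e3, e4] at k2
  exact k2

/-- **six equal lumps at total `5/6 κ`**, `33/4 w ≤ κ ≤ 9 w` -/
theorem idl6w (R : ExpRules (7 / 8 + d) r s) (Lv : ExpLv (7 / 8 + d) r) (hd : 0 ≤ d)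
    (hd8 : d ≤ 1 / 8) {w κ F : ℝ} (hw : 0 < w) (hκ : 33 / 4 * w ≤ κ) (hκ9 : κ ≤ 9 * w)
    (hF : 2 * d * (5 / 6 * κ - 3 * w) ≤ F) : Idl r w κ 6 (5 / 6 * κ - 6 * w) F := by
  obtain ⟨k, rfl⟩ := sc_div hw κ
  have h1 : 33 / 4 ≤ k := by
    by_contra hc; push Not at hc; nlinarith
  have h2 : k ≤ 9 := by
    by_contra hc; push Not at hc; nlinarith
  have := Idl.of_scale hw (idl6 (R.scale hw) (Lv.scale hw) hd hd8 h1 h2 le_rfl)
  refine (Idl.mono this (le_of_eq (by ring)) ?_)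
  refine le_trans (le_of_eq ?_) hF
  ring

/-- the same with the loss `(4/3 d - μ) κ` -/
theorem idl6F (R : ExpRules (7 / 8 + d) r s) (Lv : ExpLv (7 / 8 + d) r) (hd : 0 ≤ d)
    (hd8 : d ≤ 1 / 8) {w κ μ : ℝ} (hμ2 : 9 * μ ≤ d) (hw : 0 < w) (hκ : 33 / 4 * w ≤ κ)
    (hκ9 : κ ≤ 9 * w) : Idl r w κ 6 (5 / 6 * κ - 6 * w) ((4 / 3 * d - μ) * κ) := by
  refine idl6w R Lv hd hd8 hw hκ hκ9 ?_
  have hκ0 : 0 ≤ κ := by linarith
  have h1 : μ * κ ≤ d / 9 * κ := mul_le_mul_of_nonneg_right (by linarith) hκ0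
  have h2 : d * κ ≤ d * (9 * w) := mul_le_mul_of_nonneg_left hκ9 hd
  nlinarith

end Crest.Agent.R017.C161
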