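import Crest.Agent.R017.C1real_744

/-!
# Row 17, C1: real part of STEP3' (families `6 ≤ κ`, granular mass `h ≥ 1`) (helper744)

Same data as `Dat` with `3 ≤ k₁` and `1 ≤ h₀`; for `i < 3/2 y` the second moment of the square of
the top lump (TF) is used.
-/

set_option autoImplicit false

namespace Crest.Agent.R017.C1S744

/-- data of one level vector of a column, long granular mass -/
structure Dat2 (d μ k₁ i h₀ h y φ D N : ℝ) : Prop where
  hd : 0 ≤ d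
  hμ : 0 ≤ μ
  hμ1 : 72 * μ ≤ 1 - 8 * d
  hμ2 : 9 * μ ≤ d
  hk : 3 ≤ k₁
  hh₀ : 1 ≤ h₀
  hN : 2 ≤ N
  hS : N + h₀ ≤ 5 / 6 * k₁ + 3 / 2
  hi : i ≤ k₁
  hy0 : 0 ≤ y
  hy1 : y ≤ 1
  hyi : y ≤ i
  hh : 0 ≤ h
  hhh : h ≤ h₀
  hφ : φ ≤ (3 / 4 + 2 * d) * y
  hD : D ≤ 3 / 4 + 2 * d
  hbad : 1 + 3 * (4 / 3 * d - μ) < φ + min h (1 / 2) * D

variable {d μ k₁ i h₀ h y φ D N : ℝ}

theorem Dat2.D0 (H : Dat2 d μ k₁ i h₀ h y φ D N) : 0 ≤ D := by
  obtain ⟨hd, hμ, hμ1, hμ2, hk, hh₀, hN, hS, hi, hy0, hy1, hyi, hh, hhh, hφ, hD, hbad⟩ := H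
  by_contra hneg
  push Not at hneg
  have hz : 0 ≤ min h (1 / 2) := le_min hh (by norm_num)
  have h1 : min h (1 / 2) * D ≤ 0 := mul_nonpos_of_nonneg_of_nonpos hz hneg.le
  have h2 : (3 / 4 + 2 * d) * y ≤ (3 / 4 + 2 * d) * 1 :=
    mul_le_mul_of_nonneg_left hy1 (by linarith)
  linarith

theorem Dat2.y45 (H : Dat2 d μ k₁ i h₀ h y φ D N) : 4 / 5 ≤ y := by
  have hD0 := H.D0
  obtain ⟨hd, hμ, hμ1, hμ2, hk, hh₀, hN, hS, hi, hy0, hy1, hyi, hh, hhh, hφ, hD, hbad⟩ := H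
  by_contra hneg
  push Not at hneg
  have hz : min h (1 / 2) ≤ 1 / 2 := min_le_right _ _
  have h1 : min h (1 / 2) * D ≤ 1 / 2 * D := mul_le_mul_of_nonneg_right hz hD0
  have h2 : (3 / 4 + 2 * d) * y ≤ (3 / 4 + 2 * d) * (4 / 5) :=
    mul_le_mul_of_nonneg_left hneg.le (by linarith)
  linarith

theorem Dat2.hpos (H : Dat2 d μ k₁ i h₀ h y φ D N) : 0 < h := by
  obtain ⟨hd, hμ, hμ1, hμ2, hk, hh₀, hN, hS, hi, hy0, hy1, hyi, hh, hhh, hφ, hD, hbad⟩ := H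
  rcases hh.lt_or_eq with h1 | h1
  · exact h1
  · exfalso
    rw [← h1, min_eq_left (by norm_num)] at hbad
    have h2 : (3 / 4 + 2 * d) * y ≤ (3 / 4 + 2 * d) * 1 :=
      mul_le_mul_of_nonneg_left hy1 (by linarith)
    linarith

/-- the slack of the pure SUP column -/
theorem Dat2.P1 (H : Dat2 d μ k₁ i h₀ h y φ D N) :
    1 / 8 - k₁ / 24 + 5 / 3 * d * k₁ + 3 * d - 8 / 3 * d * i ≤ (4 / 3 * d - μ) * (k₁ + 3) := by
  have hy45 := H.y45
  obtain ⟨hd, hμ, hμ1, hμ2, hk, hh₀, hN, hS, hi, hy0, hy1, hyi, hh, hhh, hφ, hD, hbad⟩ := H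
  have h0 : d * (4 / 5) ≤ d * i := mul_le_mul_of_nonneg_left (by linarith) hd
  have h1 : 0 ≤ μ * (k₁ - 3) := mul_nonneg hμ (by linarith)
  have h2 : 0 ≤ (1 - 8 * d - 72 * μ) * (k₁ - 3) := mul_nonneg (by linarith) (by linarith)
  nlinarith

theorem Dat2.lam0 (H : Dat2 d μ k₁ i h₀ h y φ D N) : 0 ≤ 4 / 3 * d - μ := by
  have := H.hμ2; have := H.hd; linarith

/-- granular mass denser than the lumps -/
theorem Dat2.caseA1 (H : Dat2 d μ k₁ i h₀ h y φ D N) (hD23 : 2 / 3 ≤ D) (hφD : φ ≤ D * y) :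
    4 / 3 * i * (1 - D) + N * φ + h * D ≤
      2 / 3 * k₁ + i / 3 + 1 + (4 / 3 * d - μ) * (k₁ + 3) := by
  have hP := H.P1
  have hl := H.lam0
  obtain ⟨hd, hμ, hμ1, hμ2, hk, hh₀, hN, hS, hi, hy0, hy1, hyi, hh, hhh, hφ, hD, hbad⟩ := H
  have h1 : N * φ ≤ N * D := by
    have : φ ≤ D := hφD.trans (by nlinarith)
    exact mul_le_mul_of_nonneg_left this (by linarith)
  have h2 : (N + h) * D ≤ (5 / 6 * k₁ + 3 / 2) * D :=
    mul_le_mul_of_nonneg_right (by linarith) (by linarith)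
  have h3 : 0 ≤ (4 / 3 * d - μ) * (k₁ + 3) := mul_nonneg hl (by linarith)
  rcases le_total (4 / 3 * i) (5 / 6 * k₁ + 3 / 2) with hs | hs
  · have h4 : (5 / 6 * k₁ + 3 / 2 - 4 / 3 * i) * D ≤
        (5 / 6 * k₁ + 3 / 2 - 4 / 3 * i) * (3 / 4 + 2 * d) :=
      mul_le_mul_of_nonneg_left hD (by linarith)
    linarith
  · have h4 : (5 / 6 * k₁ + 3 / 2 - 4 / 3 * i) * D ≤ (5 / 6 * k₁ + 3 / 2 - 4 / 3 * i) * (2 / 3) :=
      mul_le_mul_of_nonpos_left hD23 (by linarith)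
    linarith

/-- a lump excess `≤ 1/12 + 2 d` over a length `T ≤ 5/6 k₁ + 3/2 - 4/3 i` -/
theorem Dat2.supT (H : Dat2 d μ k₁ i h₀ h y φ D N) {T : ℝ}
    (hT : T ≤ 5 / 6 * k₁ + 3 / 2 - 4 / 3 * i) :
    (1 / 12 + 2 * d) * T ≤ (k₁ - i) / 9 + (4 / 3 * d - μ) * (k₁ + 3) := by
  have hP := H.P1
  have h1 : (1 / 12 + 2 * d) * T ≤ (1 / 12 + 2 * d) * (5 / 6 * k₁ + 3 / 2 - 4 / 3 * i) :=
    mul_le_mul_of_nonneg_left hT (by have := H.hd; linarith)
  linarith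

/-- both densities at least `5/6`, the top lump denser -/
theorem Dat2.caseA2 (H : Dat2 d μ k₁ i h₀ h y φ D N) (hD23 : 2 / 3 ≤ D) (hφD : D * y < φ)
    {pr t : ℝ} (hty : t ≤ y) (hl : pr * y + t = 4 / 3 * i) :
    (N - pr) * (φ - 2 / 3 * y) + (h - t) * (D - 2 / 3) ≤
      (k₁ - i) / 9 + (4 / 3 * d - μ) * (k₁ + 3) + 2 / 3 * (N * (1 - y) + (h₀ - h)) := by
  have hy45 := H.y45
  have hlam := H.lam0
  have hsup := fun T hT => @Dat2.supT _ _ _ _ _ _ _ _ _ _ H T hT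
  obtain ⟨hd, hμ, hμ1, hμ2, hk, hh₀, hN, hS, hi, hy0, hy1, hyi, hh, hhh, hφ, hD, hbad⟩ := H
  have hDy : 2 / 3 * y ≤ D * y := mul_le_mul_of_nonneg_right hD23 hy0
  have hσ0 : 0 ≤ φ - 2 / 3 * y := by linarith
  have hσ1 : φ - 2 / 3 * y ≤ (1 / 12 + 2 * d) * y := by linarith
  have hg0 : 0 ≤ D - 2 / 3 := by linarith
  have hN1 : 0 ≤ N * (1 - y) := mul_nonneg (by linarith) (by linarith)
  have hlk : 0 ≤ (4 / 3 * d - μ) * (k₁ + 3) := mul_nonneg hlam (by linarith)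
  have hyp : 0 < y := by linarith
  rcases le_total h t with hth | hth
  · -- `t ≥ h`: the granular term is negative
    have h1 : (h - t) * (D - 2 / 3) ≤ 0 := mul_nonpos_of_nonpos_of_nonneg (by linarith) hg0
    rcases le_total N pr with hNp | hNp
    · have h2 : (N - pr) * (φ - 2 / 3 * y) ≤ 0 :=
        mul_nonpos_of_nonpos_of_nonneg (by linarith) hσ0
      linarith
    · have h2 : (N - pr) * (φ - 2 / 3 * y) ≤ (N - pr) * ((1 / 12 + 2 * d) * y) :=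
        mul_le_mul_of_nonneg_left hσ1 (by linarith)
      have h3 : (N - pr) * ((1 / 12 + 2 * d) * y) =
          (1 / 12 + 2 * d) * (N * y - 4 / 3 * i + t) := by rw [← hl]; ring
      have h5 := hsup (N * y - 4 / 3 * i + t) (by linarith)
      linarith
  · rcases le_total N pr with hNp | hNp
    · -- use `D - 2/3 ≤ σ / y`
      have h2 : (h - t) * ((D - 2 / 3) * y) ≤ (h - t) * (φ - 2 / 3 * y) :=
        mul_le_mul_of_nonneg_left (by linarith) (by linarith)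
      have key : ((N - pr) * (φ - 2 / 3 * y) + (h - t) * (D - 2 / 3)) * y ≤
          (φ - 2 / 3 * y) * (N * y + h - 4 / 3 * i) := by
        have e1 : (φ - 2 / 3 * y) * (N * y + h - 4 / 3 * i) =
            (N - pr) * (φ - 2 / 3 * y) * y + (h - t) * (φ - 2 / 3 * y) := by
          rw [← hl]; ring
        rw [e1]
        linarith
      rcases le_total (N * y + h - 4 / 3 * i) 0 with hT | hT
      · have h3 : (φ - 2 / 3 * y) * (N * y + h - 4 / 3 * i) ≤ 0 :=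
          mul_nonpos_of_nonneg_of_nonpos hσ0 hT
        have h4 : (N - pr) * (φ - 2 / 3 * y) + (h - t) * (D - 2 / 3) ≤ 0 := by
          by_contra hcon
          push Not at hcon
          have := mul_pos hcon hyp
          linarith
        linarith
      · have h3 : (φ - 2 / 3 * y) * (N * y + h - 4 / 3 * i) ≤
            (1 / 12 + 2 * d) * y * (N * y + h - 4 / 3 * i) :=
          mul_le_mul_of_nonneg_right hσ1 hT
        have h4 : (N - pr) * (φ - 2 / 3 * y) + (h - t) * (D - 2 / 3) ≤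
            (1 / 12 + 2 * d) * (N * y + h - 4 / 3 * i) := by
          by_contra hcon
          push Not at hcon
          have := mul_lt_mul_of_pos_right hcon hyp
          linarith
        have h5 := hsup (N * y + h - 4 / 3 * i) (by linarith)
        linarith
    · have h2 : (N - pr) * (φ - 2 / 3 * y) ≤ (N - pr) * ((1 / 12 + 2 * d) * y) :=
        mul_le_mul_of_nonneg_left hσ1 (by linarith)
      have h3 : (h - t) * (D - 2 / 3) ≤ (h - t) * (1 / 12 + 2 * d) :=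
        mul_le_mul_of_nonneg_left (by linarith) (by linarith)
      have h4 : (N - pr) * ((1 / 12 + 2 * d) * y) + (h - t) * (1 / 12 + 2 * d) =
          (1 / 12 + 2 * d) * (N * y + h - 4 / 3 * i) := by rw [← hl]; ring
      have h5 := hsup (N * y + h - 4 / 3 * i) (by linarith)
      linarith

/-- the bad case with granular density below `5/6` -/
theorem Dat2.badB (H : Dat2 d μ k₁ i h₀ h y φ D N) :
    (2 / 3 - D) / 2 + 3 * (4 / 3 * d - μ) + 2 / 3 * (1 - y) < φ - 2 / 3 * y := by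
  have hD0 := H.D0
  have hb := H.hbad
  have hz : min h (1 / 2) * D ≤ 1 / 2 * D := mul_le_mul_of_nonneg_right (min_le_right _ _) hD0
  linarith

/-- the exact fill of the top lump, granular density below `5/6` -/
theorem Dat2.caseB1 (H : Dat2 d μ k₁ i h₀ h y φ D N) (hD23 : D < 2 / 3)
    {pr t : ℝ} (hty : t ≤ y) (hl : pr * y + t = 4 / 3 * i) (hp : 0 ≤ pr) :
    (N - pr) * (φ - 2 / 3 * y) + (h - t) * (D - 2 / 3) ≤
      (k₁ - i) / 9 + (4 / 3 * d - μ) * (k₁ + 3) + 2 / 3 * (N * (1 - y) + (h₀ - h)) := by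
  have hy45 := H.y45
  have hlam := H.lam0
  have hbad' := H.badB
  have hsup := fun T hT => @Dat2.supT _ _ _ _ _ _ _ _ _ _ H T hT
  obtain ⟨hd, hμ, hμ1, hμ2, hk, hh₀, hN, hS, hi, hy0, hy1, hyi, hh, hhh, hφ, hD, hbad⟩ := H
  have hσ0 : 0 ≤ φ - 2 / 3 * y := by linarith
  have hσ1 : φ - 2 / 3 * y ≤ (1 / 12 + 2 * d) * y := by linarith
  have hN1 : 0 ≤ N * (1 - y) := mul_nonneg (by linarith) (by linarith)
  have hlk : 0 ≤ (4 / 3 * d - μ) * (k₁ + 3) := mul_nonneg hlam (by linarith)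
  rcases le_total t h with hth | hth
  · have h1 : (h - t) * (D - 2 / 3) ≤ 0 :=
      mul_nonpos_of_nonneg_of_nonpos (by linarith) (by linarith)
    rcases le_total N pr with hNp | hNp
    · have h2 : (N - pr) * (φ - 2 / 3 * y) ≤ 0 :=
        mul_nonpos_of_nonpos_of_nonneg (by linarith) hσ0
      linarith
    · have h2 : (N - pr) * (φ - 2 / 3 * y) ≤ (N - pr) * ((1 / 12 + 2 * d) * y) :=
        mul_le_mul_of_nonneg_left hσ1 (by linarith)
      have h3 : (N - pr) * ((1 / 12 + 2 * d) * y) =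
          (1 / 12 + 2 * d) * (N * y - 4 / 3 * i + t) := by rw [← hl]; ring
      have h5 := hsup (N * y - 4 / 3 * i + t) (by linarith)
      linarith
  · -- `t > h`
    obtain ⟨σ, hσ⟩ : ∃ σ, σ = φ - 2 / 3 * y := ⟨_, rfl⟩
    obtain ⟨e, he⟩ : ∃ e, e = t - h₀ := ⟨_, rfl⟩
    rw [← hσ] at hσ0 hσ1 hbad' ⊢
    have he2 : e ≤ 0 := by linarith
    have hτ : 0 ≤ h₀ - h := by linarith
    have hσ2 : σ ≤ 1 / 12 + 2 * d := by
      have : (1 / 12 + 2 * d) * y ≤ (1 / 12 + 2 * d) * 1 :=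
        mul_le_mul_of_nonneg_left hy1 (by linarith)
      linarith
    have h1 : (h - t) * (D - 2 / 3) ≤ (t - h) * (2 * (σ - 3 * (4 / 3 * d - μ))) := by
      have : (t - h) * (2 / 3 - D) ≤ (t - h) * (2 * (σ - 3 * (4 / 3 * d - μ))) :=
        mul_le_mul_of_nonneg_left (by linarith) (by linarith)
      linarith
    have hpr : 4 / 3 * i - t ≤ pr := by
      have : pr * y ≤ pr * 1 := mul_le_mul_of_nonneg_left hy1 hp
      linarith
    have h2 : (N - pr) * σ ≤ (5 / 6 * k₁ + 3 / 2 - h₀ - 4 / 3 * i + t) * σ :=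
      mul_le_mul_of_nonneg_right (by linarith) hσ0
    have h3 : (h₀ - h) * (2 * σ) ≤ (h₀ - h) * (2 / 3) :=
      mul_le_mul_of_nonneg_left (by linarith) hτ
    have h4 : 0 ≤ (4 / 3 * d - μ) * (t - h) := mul_nonneg hlam (by linarith)
    -- the main term
    have hC : σ * (5 / 6 * k₁ + 3 / 2 - 4 / 3 * i + 3 * e) ≤
        (k₁ - i) / 9 + (4 / 3 * d - μ) * (k₁ + 3) := by
      rcases le_total (5 / 6 * k₁ + 3 / 2 - 4 / 3 * i + 3 * e) 0 with hc | hc
      · have := mul_nonpos_of_nonneg_of_nonpos hσ0 hc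
        linarith
      · have h5 : σ * (5 / 6 * k₁ + 3 / 2 - 4 / 3 * i + 3 * e) ≤
            (1 / 12 + 2 * d) * (5 / 6 * k₁ + 3 / 2 - 4 / 3 * i + 3 * e) :=
          mul_le_mul_of_nonneg_right hσ2 hc
        have h6 := hsup (5 / 6 * k₁ + 3 / 2 - 4 / 3 * i + 3 * e) (by linarith)
        linarith
    have hsplit : (5 / 6 * k₁ + 3 / 2 - h₀ - 4 / 3 * i + t) * σ + (t - h) * (2 * σ) =
        σ * (5 / 6 * k₁ + 3 / 2 - 4 / 3 * i + 3 * e) + (h₀ - h) * (2 * σ) := by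
      rw [he]; ring
    linarith

/-- the second moment of the square of the top lump (families `i ≤ 3/2`) -/
theorem Dat2.caseB2 (H : Dat2 d μ k₁ i h₀ h y φ D N) (hD23 : D < 2 / 3) (hi32 : i ≤ 3 / 2) :
    i + (N - 2) * φ + h * D ≤ 2 / 3 * k₁ + i / 3 + 1 + (4 / 3 * d - μ) * (k₁ + 3) := by
  have hD0 := H.D0
  obtain ⟨hd, hμ, hμ1, hμ2, hk, hh₀, hN, hS, hi, hy0, hy1, hyi, hh, hhh, hφ, hD, hbad⟩ := H
  have h1 : (N - 2) * φ ≤ (N - 2) * ((3 / 4 + 2 * d) * y) :=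
    mul_le_mul_of_nonneg_left hφ (by linarith)
  have h2 : h * D ≤ h * (2 / 3) := mul_le_mul_of_nonneg_left hD23.le hh
  have h3 : 0 ≤ (N - 2) * (3 / 4 + 2 * d) := mul_nonneg (by linarith) (by linarith)
  have h4 : (N - 2) * (3 / 4 + 2 * d) * y ≤ (N - 2) * (3 / 4 + 2 * d) * 1 :=
    mul_le_mul_of_nonneg_left hy1 h3
  have h5 : (N - 2) * (3 / 4 + 2 * d) ≤ (5 / 6 * k₁ + 3 / 2 - h₀ - 2) * (3 / 4 + 2 * d) :=
    mul_le_mul_of_nonneg_right (by linarith) (by linarith)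
  have h6 : 1 * (1 / 12 + 2 * d) ≤ h₀ * (1 / 12 + 2 * d) :=
    mul_le_mul_of_nonneg_right hh₀ (by linarith)
  have h7 : 0 ≤ μ * (k₁ - 3) := mul_nonneg hμ (by linarith)
  have h8 : 0 ≤ (1 - 8 * d - 72 * μ) * (k₁ - 3) := mul_nonneg (by linarith) (by linarith)
  linarith

/-- **the real core of STEP3'** -/
theorem Dat2.core (H : Dat2 d μ k₁ i h₀ h y φ D N) :
    (i + (N - 2) * φ + h * D ≤ 2 / 3 * k₁ + i / 3 + 1 + (4 / 3 * d - μ) * (k₁ + 3)) ∨
    (∃ (p : ℕ) (t : ℝ), 0 ≤ t ∧ 4 / 3 * i ≤ p * y + t ∧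
      2 / 3 * (p * y + t) ≤ p * φ + t * D ∧
      (p * y + t) - (p * φ + t * D) + N * φ + h * D ≤
        2 / 3 * k₁ + i / 3 + 1 + (4 / 3 * d - μ) * (k₁ + 3)) := by
  have hy45 := H.y45
  have hyp : 0 < y := by linarith
  have hi0 : 0 ≤ 4 / 3 * i := by have := H.hyi; linarith
  have hS := H.hS
  -- the exact fill
  obtain ⟨p, hp1, hp2⟩ : ∃ p : ℕ, (p : ℝ) * y ≤ 4 / 3 * i ∧ 4 / 3 * i < ((p : ℝ) + 1) * y := by
    refine ⟨⌊4 / 3 * i / y⌋₊, ?_, ?_⟩
    · have := Nat.floor_le (div_nonneg hi0 hyp.le)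
      rwa [le_div_iff₀ hyp] at this
    · have := Nat.lt_floor_add_one (4 / 3 * i / y)
      rwa [div_lt_iff₀ hyp] at this
  have hlt : (p : ℝ) * y + (4 / 3 * i - p * y) = 4 / 3 * i := by ring
  have hty : 4 / 3 * i - p * y ≤ y := by linarith
  have ht0 : 0 ≤ 4 / 3 * i - p * y := by linarith
  rcases le_or_gt (2 / 3) D with hD23 | hD23
  · rcases le_or_gt φ (D * y) with hφD | hφD
    · right
      refine ⟨0, 4 / 3 * i, hi0, ?_, ?_, ?_⟩
      · push_cast; linarith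
      · have := mul_le_mul_of_nonneg_left hD23 hi0
        push_cast; linarith
      · have := H.caseA1 hD23 hφD
        push_cast; linarith
    · right
      refine ⟨p, 4 / 3 * i - p * y, ht0, hlt.ge, ?_, ?_⟩
      · have h1 : (p : ℝ) * (2 / 3 * y) ≤ p * φ := by
          refine mul_le_mul_of_nonneg_left ?_ (Nat.cast_nonneg p)
          have : 2 / 3 * y ≤ D * y := mul_le_mul_of_nonneg_right hD23 hyp.le
          linarith
        have h2 : (4 / 3 * i - p * y) * (2 / 3) ≤ (4 / 3 * i - p * y) * D :=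
          mul_le_mul_of_nonneg_left hD23 ht0
        linarith
      · exact val_eq k₁ i h₀ h y φ D N _ p _ hlt hS (H.caseA2 hD23 hφD hty hlt)
  · have hb := H.badB
    have hD0 := H.D0
    have hlam := H.lam0
    have hy1 := H.hy1
    rcases Nat.lt_or_ge p 2 with hp | hp
    · left
      have hp' : (p : ℝ) + 1 ≤ 2 := by
        have : (p : ℝ) + 1 ≤ 2 := by exact_mod_cast (by omega : p + 1 ≤ 2)
        exact this
      have : ((p : ℝ) + 1) * y ≤ 2 * y := mul_le_mul_of_nonneg_right hp' hyp.le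
      exact H.caseB2 hD23 (by linarith)
    · right
      refine ⟨p, 4 / 3 * i - p * y, ht0, hlt.ge, ?_, ?_⟩
      · have hp' : (2 : ℝ) ≤ p := by exact_mod_cast hp
        have h1 : 2 * (φ - 2 / 3 * y) ≤ p * (φ - 2 / 3 * y) :=
          mul_le_mul_of_nonneg_right hp' (by linarith)
        have h2 : (4 / 3 * i - p * y) * (2 / 3 - D) ≤ 1 * (2 / 3 - D) :=
          mul_le_mul_of_nonneg_right (by linarith) (by linarith)
        linarith
      · exact val_eq k₁ i h₀ h y φ D N _ p _ hlt hS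
          (H.caseB1 hD23 hty hlt (Nat.cast_nonneg p))

end Crest.Agent.R017.C1S744
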