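import Crest.Agent.R017.SideD_777
import Crest.Agent.R017.C1real_744

/-!
# Row 17, C1 (equal small lumps): STEP3 (helper744)

`Sid r κ q w h F` : all sides with `q` lumps of length `≤ w` and granular mass `≤ h` are ideal up
to `F` at all families `κ' ≤ κ` (complete form).

`step3` : `κ ≥ 9 w`, `h ≥ w/2`, `(q+2) w + h ≤ 5/6 κ` :
`Sid r (κ - 3 w) q w (h - w/2) (lam (κ - 3 w)) → Sid r κ (q+2) w h (lam κ)`, `lam = 4/3 d - μ`.
-/

set_option autoImplicit false

noncomputable section

namespace Crest.Agent.R017.C1S744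

open Crest.Agent.R017.ER911 Crest.Agent.R017.SC777

/-- all sides with `q` lumps `≤ w` and granular mass `≤ h` -/
def Sid (r : EF) (κ : ℝ) (q : ℕ) (w h F : ℝ) : Prop :=
  ∀ (Y : Multiset ℝ) (m a : ℝ), Multiset.card Y = q → (∀ y ∈ Y, 0 ≤ y ∧ y ≤ w) → 0 ≤ m →
    0 ≤ a → m + a ≤ h →
    ∀ κ' : ℝ, 0 ≤ κ' → κ' ≤ κ → r κ' Y m a + (κ - κ') / 3 ≤ κ + (Y.sum + m + a) + F

theorem exists_fin (Z : Multiset ℝ) (n : ℕ) (h : Multiset.card Z = n) :
    ∃ f : Fin n → ℝ, (Finset.univ : Finset (Fin n)).val.map f = Z := by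
  induction Z using Quotient.inductionOn with
  | h l =>
    have hl : l.length = n := by simpa using h
    subst hl
    refine ⟨l.get, ?_⟩
    rw [Fin.univ_val_map]
    simp

theorem sum_val_map {n : ℕ} (f : Fin n → ℝ) :
    ((Finset.univ : Finset (Fin n)).val.map f).sum = ∑ j, f j := rfl

/-- multiplicities: everything except `P` -/
def ex {n : ℕ} (P : Fin n) (j : Fin n) : ℕ := if j = P then 0 else 1

theorem sum_ex {n : ℕ} (P : Fin n) (x : Fin n → ℝ) :
    ∑ j, (ex P j : ℝ) * x j = ∑ j, x j - x P := by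
  have : ∀ j, (ex P j : ℝ) * x j = x j - (if j = P then x j else 0) := by
    intro j
    unfold ex
    split_ifs <;> simp
  simp_rw [this]
  rw [Finset.sum_sub_distrib]
  simp

theorem card_rep {n : ℕ} (k : Fin n → ℕ) (y : Fin n → ℝ) :
    Multiset.card (∑ j, Multiset.replicate (k j) (y j)) = ∑ j, k j := by
  have h : ∀ s : Finset (Fin n), Multiset.card (∑ j ∈ s, Multiset.replicate (k j) (y j)) =
      ∑ j ∈ s, k j := by
    intro s
    induction s using Finset.induction_on with
    | empty => simp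
    | insert a s ha ih =>
      rw [Finset.sum_insert ha, Finset.sum_insert ha, Multiset.card_add, ih,
        Multiset.card_replicate]
  exact h _

theorem card_ex {n : ℕ} (P : Fin (n + 1)) (y : Fin (n + 1) → ℝ) :
    Multiset.card (∑ j, Multiset.replicate (ex P j) (y j)) = n := by
  rw [card_rep]
  have h : (∑ j, ex P j) + 1 = n + 1 := by
    have h1 : ∀ j, ex P j + (if j = P then 1 else 0) = 1 := by
      intro j; unfold ex; split_ifs <;> rfl
    have h2 : ∑ j : Fin (n + 1), (ex P j + (if j = P then 1 else 0)) = n + 1 := by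
      simp_rw [h1]; simp
    rw [Finset.sum_add_distrib] at h2
    simpa using h2
  omega

theorem sum_rep {n : ℕ} (k : Fin n → ℕ) (y : Fin n → ℝ) :
    (∑ j, Multiset.replicate (k j) (y j)).sum = ∑ j, (k j : ℝ) * y j := by
  have h : ∀ s : Finset (Fin n), (∑ j ∈ s, Multiset.replicate (k j) (y j)).sum =
      ∑ j ∈ s, (k j : ℝ) * y j := by
    intro s
    induction s using Finset.induction_on with
    | empty => simp
    | insert a s ha ih =>
      rw [Finset.sum_insert ha, Finset.sum_insert ha, Multiset.sum_add, ih,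
        Multiset.sum_replicate, nsmul_eq_mul]
  exact h _

theorem mem_rep {n : ℕ} (k : Fin n → ℕ) (y : Fin n → ℝ) {z : ℝ}
    (hz : z ∈ ∑ j, Multiset.replicate (k j) (y j)) : ∃ j, z = y j := by
  rw [Multiset.mem_sum] at hz
  obtain ⟨j, _, hj⟩ := hz
  exact ⟨j, Multiset.eq_of_mem_replicate hj⟩

/-- multiplicities `p` at `P` -/
def pw {n : ℕ} (P : Fin n) (p : ℕ) (j : Fin n) : ℕ := if j = P then p else 0

theorem sum_pw {n : ℕ} (P : Fin n) (p : ℕ) (x : Fin n → ℝ) :
    ∑ j, (pw P p j : ℝ) * x j = p * x P := by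
  have : ∀ j, (pw P p j : ℝ) * x j = if j = P then p * x j else 0 := by
    intro j
    unfold pw
    split_ifs <;> simp
  simp_rw [this]
  simp

/-- granular data: `G` = total level of the existing granular mass, proportional masses -/
theorem gran (m a ω α c : ℝ) :
    (c * m) * (ω / m) + (c * a) * (α / a) =
      c * ((if m = 0 then 0 else ω) + (if a = 0 then 0 else α)) := by
  split_ifs with h1 h2 h2
  · simp [h1, h2]
  · rw [h1]; field_simp; ring
  · rw [h2]; field_simp; ring
  · field_simp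

/-- one column of STEP3 -/
theorem col3 {d μ κ w h : ℝ} {r : EF} {q : ℕ} (L : ExpLv (7 / 8 + d) r) (hd : 0 ≤ d)
    (hμ : 0 ≤ μ) (hμ1 : 72 * μ ≤ 1 - 8 * d) (hμ2 : 9 * μ ≤ d) (hw : 0 < w) (hκ : 9 * w ≤ κ)
    (hh : w / 2 ≤ h) (hq1 : 1 ≤ q) (hq : ((q : ℝ) + 2) * w + h ≤ 5 / 6 * κ)
    (H : Sid r (κ - 3 * w) q w (h - w / 2) ((4 / 3 * d - μ) * (κ - 3 * w)))
    (Z : Multiset ℝ) (M A i : ℝ) (hZc : Multiset.card Z = q + 1)
    (hZ : ∀ y ∈ Z, 0 ≤ y ∧ y ≤ w) (hZi : ∀ y ∈ Z, y ≤ i) (hM : 0 ≤ M) (hA : 0 ≤ A)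
    (hMA : M + A ≤ h) (hi : i ≤ κ - 3 * w) :
    r i Z M A ≤ (Z.sum + M + A) + (2 * κ + i) / 3 - w + (4 / 3 * d - μ) * κ := by
  obtain ⟨Y, hY⟩ := exists_fin Z (q + 1) hZc
  have hYj : ∀ j, 0 ≤ Y j ∧ Y j ≤ w ∧ Y j ≤ i := by
    intro j
    have hj : Y j ∈ Z := by
      rw [← hY]; exact Multiset.mem_map_of_mem Y (Finset.mem_univ_val j)
    exact ⟨(hZ _ hj).1, (hZ _ hj).2, hZi _ hj⟩
  have hi0 : 0 ≤ i := (hYj 0).1.trans (hYj 0).2.2
  rw [← hY, sum_val_map]
  refine L.lev (q + 1) Y i M A _ hi0 (fun j => ⟨(hYj j).1, (hYj j).2.2⟩) hM hA ?_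
  intro y x m a ω α hy hm hmM ha haA hx hω hα
  -- granular level
  obtain ⟨G, hG⟩ : ∃ G, G = (if m = 0 then 0 else ω) + (if a = 0 then 0 else α) := ⟨_, rfl⟩
  have hG1 : ω + α ≤ G := by
    have h1 : ω ≤ (if m = 0 then 0 else ω) := by
      split_ifs with hm0
      · rw [hm0] at hω; linarith
      · exact le_rfl
    have h2 : α ≤ (if a = 0 then 0 else α) := by
      split_ifs with ha0
      · rw [ha0] at hα; linarith
      · exact le_rfl
    linarith
  have hG2 : G ≤ (7 / 8 + d) * (m + a) := by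
    have h1 : (if m = 0 then 0 else ω) ≤ (7 / 8 + d) * m := by
      split_ifs with hm0
      · rw [hm0]; simp
      · exact hω
    have h2 : (if a = 0 then 0 else α) ≤ (7 / 8 + d) * a := by
      split_ifs with ha0
      · rw [ha0]; simp
      · exact hα
    linarith
  -- the top lump
  obtain ⟨P, hP⟩ : ∃ P, ∀ j, 2 * x j - y j ≤ 2 * x P - y P :=
    Finite.exists_max fun j => 2 * x j - y j
  have hSY : ∑ j, y j ≤ ∑ j, Y j := Finset.sum_le_sum fun j _ => (hy j).2
  have hX : 2 * ∑ j, x j - ∑ j, y j ≤ ((q : ℝ) + 1) * (2 * x P - y P) := by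
    have h1 : ∑ j, (2 * x j - y j) ≤ ∑ _j : Fin (q + 1), (2 * x P - y P) :=
      Finset.sum_le_sum fun j _ => hP j
    rw [Finset.sum_sub_distrib, ← Finset.mul_sum, Finset.sum_const, Finset.card_univ,
      Fintype.card_fin, nsmul_eq_mul] at h1
    push_cast at h1
    exact h1
  obtain ⟨hc, hhc⟩ : ∃ hc, hc = m + a := ⟨_, rfl⟩
  obtain ⟨zc, hzc⟩ : ∃ zc, zc = min hc (w / 2) := ⟨_, rfl⟩
  obtain ⟨ρ, hρ⟩ : ∃ ρ, ρ = zc / hc := ⟨_, rfl⟩
  have hc0 : 0 ≤ hc := by linarith
  have hzc0 : 0 ≤ zc := by rw [hzc]; exact le_min hc0 (by linarith)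
  have hzc1 : zc ≤ hc := by rw [hzc]; exact min_le_left _ _
  have hρc : ρ * hc = zc := by
    rcases hc0.eq_or_lt with h0 | h0
    · rw [← h0]; have : zc = 0 := le_antisymm (by linarith) hzc0
      rw [this]; simp
    · rw [hρ]; field_simp
  have hρ0 : 0 ≤ ρ := by rw [hρ]; exact div_nonneg hzc0 hc0
  have hρ1 : ρ ≤ 1 := by
    rw [hρ]; exact div_le_one_of_le₀ hzc1 hc0
  have hyP := hy P
  have hyPw : y P ≤ w := hyP.2.trans (hYj P).2.1
  have hyPi : y P ≤ i := hyP.2.trans (hYj P).2.2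
  rcases le_or_gt ((2 * x P - y P) + ρ * (2 * G - hc)) (w + 3 * ((4 / 3 * d - μ) * w)) with
    hgood | hbad
  · -- drop `P` and granular mass `zc`
    right; left
    refine ⟨ex P, (1 - ρ) * m, (1 - ρ) * a, mul_nonneg (by linarith) hm, fun h0 => by rw [h0]; simp,
      mul_nonneg (by linarith) ha, fun h0 => by rw [h0]; simp, ?_⟩
    have e1 := H (∑ j, Multiset.replicate (ex P j) (y j)) ((1 - ρ) * m) ((1 - ρ) * a)
      (card_ex P y) (fun z hz => by
        obtain ⟨j, rfl⟩ := mem_rep _ _ hz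
        exact ⟨(hy j).1, (hy j).2.trans (hYj j).2.1⟩)
      (mul_nonneg (by linarith) hm) (mul_nonneg (by linarith) ha) (by
        have : (1 - ρ) * m + (1 - ρ) * a = hc - zc := by rw [← hρc, hhc]; ring
        rw [this]
        rcases le_total hc (w / 2) with h1 | h1
        · rw [hzc, min_eq_left h1]; linarith
        · rw [hzc, min_eq_right h1]; linarith) i hi0 hi
    rw [sum_rep, sum_ex] at e1
    rw [sum_ex, add_assoc (∑ j, x j - x P), gran m a ω α (1 - ρ), ← hG]
    have e2 : (1 - ρ) * m + (1 - ρ) * a = hc - zc := by rw [← hρc, hhc]; ring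
    have e3 : ρ * (2 * G - hc) = 2 * (ρ * G) - zc := by rw [← hρc]; ring
    linarith
  · -- large values
    left
    have hlam : 0 ≤ 4 / 3 * d - μ := by linarith
    have hDat : Dat d μ (κ / w - 3) (i / w) (h / w) (hc / w) (y P / w) ((2 * x P - y P) / w)
        ((2 * G - hc) / hc) ((q : ℝ) + 1) := by
      have hcpos : 0 < hc := by
        rcases hc0.eq_or_lt with h0 | h0
        · exfalso
          have h1 : ρ = 0 := by rw [hρ, ← h0]; simp
          rw [h1] at hbad
          have h2 := hx P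
          have h3 : (7 / 8 + d) * y P ≤ (7 / 8 + d) * w :=
            mul_le_mul_of_nonneg_left hyPw (by linarith)
          nlinarith
        · exact h0
      constructor
      · exact hd
      · exact hμ
      · exact hμ1
      · exact hμ2
      · rw [le_sub_iff_add_le, le_div_iff₀ hw]; linarith
      · rw [le_div_iff₀ hw]; linarith
      · have : (1 : ℝ) ≤ q := by exact_mod_cast hq1
        linarith
      · have : ((q : ℝ) + 1 + h / w) * w ≤ (5 / 6 * (κ / w - 3) + 3 / 2) * w := by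
          have e1 : ((q : ℝ) + 1 + h / w) * w = ((q : ℝ) + 1) * w + h := by field_simp
          have e2 : (5 / 6 * (κ / w - 3) + 3 / 2) * w = 5 / 6 * κ - w := by field_simp; ring
          rw [e1, e2]; linarith
        exact le_of_mul_le_mul_right this hw
      · rw [div_le_iff₀ hw]
        have : (κ / w - 3) * w = κ - 3 * w := by field_simp
        rw [this]; exact hi
      · exact div_nonneg hyP.1 hw.le
      · rw [div_le_one hw]; exact hyPw
      · exact div_le_div_of_nonneg_right hyPi hw.le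
      · exact div_nonneg hc0 hw.le
      · refine div_le_div_of_nonneg_right ?_ hw.le
        linarith
      · rw [← mul_div_assoc]
        refine div_le_div_of_nonneg_right ?_ hw.le
        have := hx P
        linarith
      · rw [div_le_iff₀ hcpos]
        rw [← hhc] at hG2
        linarith
      · have e1 : min (hc / w) (1 / 2) = zc / w := by
          rw [hzc]
          rcases le_total hc (w / 2) with h1 | h1
          · rw [min_eq_left h1, min_eq_left]
            rw [div_le_iff₀ hw]; linarith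
          · rw [min_eq_right h1, min_eq_right]
            · field_simp
            · rw [le_div_iff₀ hw]; linarith
        rw [e1]
        have e2 : (2 * x P - y P) / w + zc / w * ((2 * G - hc) / hc) =
            ((2 * x P - y P) + ρ * (2 * G - hc)) / w := by
          rw [hρ]; field_simp
        rw [e2, lt_div_iff₀ hw]
        linarith
    have hcpos : 0 < hc := by
      have := hDat.hpos
      exact (div_pos_iff_of_pos_right hw).1 this
    obtain ⟨p, t, ht0, ht1, ht2, ht3⟩ := hDat.core'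
    obtain ⟨D, hD⟩ : ∃ D, D = (2 * G - hc) / hc := ⟨_, rfl⟩
    rw [← hD] at ht2 ht3
    have hGD : 2 * G = hc + hc * D := by rw [hD]; field_simp; ring
    obtain ⟨c, hcd⟩ : ∃ c, c = t * w / hc := ⟨_, rfl⟩
    have hc_c : c * hc = t * w := by rw [hcd]; field_simp
    have hc_0 : 0 ≤ c := by rw [hcd]; exact div_nonneg (mul_nonneg ht0 hw.le) hc0
    have hcG : 2 * (c * G) = t * w + t * w * D := by
      have : 2 * (c * G) = c * (2 * G) := by ring
      rw [this, hGD, mul_add, ← mul_assoc, hc_c]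
    have f1 : 4 / 3 * i ≤ p * y P + t * w := by
      have := mul_le_mul_of_nonneg_right ht1 hw.le
      have e1 : 4 / 3 * (i / w) * w = 4 / 3 * i := by field_simp
      have e2 : (p * (y P / w) + t) * w = p * y P + t * w := by field_simp
      rw [e1, e2] at this; exact this
    have f2 : 2 / 3 * (p * y P + t * w) ≤ p * (2 * x P - y P) + t * w * D := by
      have := mul_le_mul_of_nonneg_right ht2 hw.le
      have e1 : 2 / 3 * (p * (y P / w) + t) * w = 2 / 3 * (p * y P + t * w) := by field_simp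
      have e2 : (p * ((2 * x P - y P) / w) + t * D) * w = p * (2 * x P - y P) + t * w * D := by
        field_simp
      rw [e1, e2] at this; exact this
    have f3 : (p * y P + t * w) - (p * (2 * x P - y P) + t * w * D) +
        ((q : ℝ) + 1) * (2 * x P - y P) + hc * D ≤
        2 / 3 * (κ - 3 * w) + i / 3 + w + (4 / 3 * d - μ) * κ := by
      have := mul_le_mul_of_nonneg_right ht3 hw.le
      have e1 : (p * (y P / w) + t - (p * ((2 * x P - y P) / w) + t * D) +
          ((q : ℝ) + 1) * ((2 * x P - y P) / w) + hc / w * D) * w =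
          (p * y P + t * w) - (p * (2 * x P - y P) + t * w * D) +
          ((q : ℝ) + 1) * (2 * x P - y P) + hc * D := by field_simp
      have e2 : (2 / 3 * (κ / w - 3) + i / w / 3 + 1 + (4 / 3 * d - μ) * (κ / w - 3 + 3)) * w =
          2 / 3 * (κ - 3 * w) + i / 3 + w + (4 / 3 * d - μ) * κ := by field_simp; ring
      rw [e1, e2] at this; exact this
    refine ⟨pw P p, c * m, c * a, mul_nonneg hc_0 hm, fun h0 => by rw [h0]; simp,
      mul_nonneg hc_0 ha, fun h0 => by rw [h0]; simp, Or.inl ⟨?_, ?_⟩, ?_⟩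
    · rw [sum_pw]
      have : c * m + c * a = t * w := by rw [← hc_c, hhc]; ring
      linarith
    · rw [sum_pw, sum_pw, add_assoc (p * x P), gran m a ω α c, ← hG]
      have : c * m + c * a = t * w := by rw [← hc_c, hhc]; ring
      linarith
    · rw [sum_pw, sum_pw, add_assoc (p * x P), gran m a ω α c, ← hG]
      have : c * m + c * a = t * w := by rw [← hc_c, hhc]; ring
      linarith

/-- **STEP3** -/
theorem step3 {d μ κ w h : ℝ} {r s : EF} {q : ℕ} (R : ExpRules (7 / 8 + d) r s)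
    (L : ExpLv (7 / 8 + d) r) (hd : 0 ≤ d) (hμ : 0 ≤ μ) (hμ1 : 72 * μ ≤ 1 - 8 * d)
    (hμ2 : 9 * μ ≤ d) (hw : 0 < w) (hκ : 9 * w ≤ κ) (hh : w / 2 ≤ h) (hq1 : 1 ≤ q)
    (hq : ((q : ℝ) + 2) * w + h ≤ 5 / 6 * κ) (hcube : h + w ≤ 2 / 3 * κ)
    (H : Sid r (κ - 3 * w) q w (h - w / 2) ((4 / 3 * d - μ) * (κ - 3 * w))) :
    Sid r κ (q + 2) w h ((4 / 3 * d - μ) * κ) := by
  have hlam : 0 ≤ 4 / 3 * d - μ := by linarith
  have hF : 0 ≤ (4 / 3 * d - μ) * κ := mul_nonneg hlam (by linarith)
  intro Y m a hYc hY hm ha hma κ' hκ0 hκ1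
  obtain ⟨v, hvY⟩ := Multiset.card_pos_iff_exists_mem.1 (show 0 < Multiset.card Y by omega)
  obtain ⟨Z, rfl⟩ := Multiset.exists_cons_of_mem hvY
  have hZc : Multiset.card Z = q + 1 := by
    rw [Multiset.card_cons] at hYc; omega
  have hv := hY v (Multiset.mem_cons_self v Z)
  have hZ : ∀ y ∈ Z, 0 ≤ y ∧ y ≤ w := fun y hy => hY y (Multiset.mem_cons_of_mem hy)
  have hZs : Z.sum ≤ ((q : ℝ) + 1) * w := by
    have := Multiset.sum_le_card_nsmul Z w fun y hy => (hZ y hy).2
    rw [hZc, nsmul_eq_mul] at this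
    push_cast at this
    exact this
  have key := side_xi R (κ := κ) (ξ := w) (m := m) (b := 0) (a := a) (b' := 0)
    (F := (4 / 3 * d - μ) * κ) (V := {v}) (Z := Z) (by linarith)
    (fun y hy => by rw [Multiset.mem_singleton] at hy; rw [hy]; exact hv.1)
    (fun y hy => (hZ y hy).1) hm le_rfl ha le_rfl hF (by simpa using hv.2) (by linarith) ?_
    κ' hκ0 hκ1
  · rw [Multiset.singleton_add, Multiset.sum_singleton, add_zero, add_zero] at key
    rw [Multiset.sum_cons]
    exact key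
  · refine ⟨?_, ?_⟩
    · intro Z' m' a' i hZ' hm0 hm1 ha0 ha1 hi hyi hii
      refine col3 L hd hμ hμ1 hμ2 hw hκ hh hq1 hq H Z' m' a' i (by rw [hZ'.card, hZc]) ?_ hyi
        hm0 ha0 (by linarith) (by linarith)
      intro y hy
      obtain ⟨b, hb, hyb⟩ := Multiset.exists_mem_of_rel_of_mem hZ' hy
      exact ⟨hyb.1, hyb.2.trans (hZ b hb).2⟩
    · intro Z' m' a' hZ' hm0 hm1 ha0 ha1 _
      have hZs' := hZ'.sum_nonneg
      have h1 : (3 / 4 + 2 * d) * m' ≤ 1 * m' := mul_le_mul_of_nonneg_right (by linarith) hm0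
      linarith

end Crest.Agent.R017.C1S744
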