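import Crest.Agent.R017.C1q6_61

/-!
# Row 17, section D, small lumps: the longer member of the window `W1` (helper61)

`idl5u` : `{1⁵ | 5/6 κ - 5 + 1/16}` is ideal up to `2 d (5/6 κ + 1/16 - 2)` for
`61/8 ≤ κ ≤ 33/4`, all shortenings, every amplifier share.
`col_ms2` : the level rule of 645 where lump monomials may also be used if no lump is dense.
-/

set_option autoImplicit false

noncomputable section

namespace Crest.Agent.R017.C161

open Crest.Agent.R017.ER911 Crest.Agent.R017.SC777 Crest.Agent.R017.CE645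

variable {θ d : ℝ} {r s : EF}

/-- closings without dense lump: pure granular, or a moment with at most `N` lumps -/
def C2' (θ : ℝ) (r : EF) (i w δ B : ℝ) (N : ℕ) : Prop :=
  (∃ f : ℝ, 0 ≤ f ∧ LVe θ i f (f * δ) ∧ f - f * δ ≤ B) ∨
  (∃ (k : ℕ) (g e : ℝ), k ≤ N ∧ 0 ≤ g ∧
    (∀ u, 0 ≤ u → u ≤ w → u ≤ i → MB r i (Multiset.replicate k u) g e) ∧ i + e - g * δ ≤ B) ∨
  i ≤ B

/-- `col_eq` of 645, exactly `N` lumps, lump monomials also without dense lump -/
theorem col_eq2 (Lv : ExpLv θ r) (hθ : 1 / 2 ≤ θ) {N : ℕ} (hN : 0 < N) (Y : Fin N → ℝ)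
    {i M A T w c : ℝ}
    (hi : 0 ≤ i) (hY : ∀ j, 0 ≤ Y j ∧ Y j ≤ i) (hw : ∀ j, Y j ≤ w) (hM : 0 ≤ M) (hA : 0 ≤ A)
    (hc : M + A ≤ c) (hT : i ≤ T)
    (H1 : ∀ φ δ : ℝ, 0 ≤ φ → φ ≤ (2 * θ - 1) * w → 0 < δ → δ ≤ 2 * θ - 1 →
      C1 θ r i w φ δ (T - N * φ - c * δ))
    (H0 : ∀ φ : ℝ, 0 ≤ φ → φ ≤ (2 * θ - 1) * w → C0 r i w φ (T - N * φ))
    (H2 : ∀ δ : ℝ, 0 < δ → δ ≤ 2 * θ - 1 → C2' θ r i w δ (T - c * δ) N) :
    r i (Finset.univ.val.map Y) M A ≤ (∑ j, Y j) + M + A + T := by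
  have hθ0 : 0 ≤ 2 * θ - 1 := by linarith
  refine col_phi Lv hθ Y hi hY hM hA ?_
  intro y φ δ hy hφ hδ0 hδ1
  have hcδ : (M + A) * δ ≤ c * δ := mul_le_mul_of_nonneg_right hc hδ0
  have : Nonempty (Fin N) := ⟨⟨0, hN⟩⟩
  obtain ⟨b, -, hb⟩ := Finset.exists_max_image Finset.univ φ Finset.univ_nonempty
  have hub : y b ≤ w := (hy b).2.trans (hw b)
  have hui : y b ≤ i := (hy b).2.trans (hY b).2
  have hφw : φ b ≤ (2 * θ - 1) * w := (hφ b).trans (mul_le_mul_of_nonneg_left hub hθ0)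
  have hs : ∑ j, φ j ≤ N * φ b := by
    calc ∑ j, φ j ≤ ∑ _j : Fin N, φ b := Finset.sum_le_sum fun j hj => hb j hj
      _ = (N : ℝ) * φ b := by simp
  rcases lt_or_ge (φ b) 0 with hneg | hφb
  · -- no dense lump
    have hs0 : ∑ j, φ j ≤ 0 := hs.trans (by
      have : (0 : ℝ) ≤ N := Nat.cast_nonneg N
      nlinarith)
    rcases hδ0.lt_or_eq with hδ | hδ
    · rcases H2 δ hδ hδ1 with ⟨f, hf, hLV, hle⟩ | ⟨k, g, e, hk, hg, hMB, hle⟩ | hle
      · left
        refine ⟨fun _ => 0, f, hf, fun h => absurd h hδ.ne', ?_, ?_⟩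
        · simpa using hLV
        · simp only [Nat.cast_zero, zero_mul, Finset.sum_const_zero, zero_add]
          linarith
      · right; left
        refine ⟨Pi.single b k, g, e, hg, fun h => absurd h hδ.ne', ?_, ?_⟩
        · rw [rep_single]
          exact hMB _ (hy b).1 hub hui
        · rw [CE645.sum_single]
          have hkN : (k : ℝ) ≤ N := by exact_mod_cast hk
          nlinarith
      · right; right; linarith
    · right; right
      rw [← hδ]
      linarith
  · rcases hδ0.lt_or_eq with hδ | hδ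
    · rcases H1 (φ b) δ hφb hφw hδ hδ1 with ⟨k, f, hf, hLV, hle⟩ | ⟨k, g, e, hg, hMB, hle⟩ | hle
      · left
        have hk : 0 ≤ (k : ℝ) * (w - y b) := mul_nonneg (Nat.cast_nonneg k) (by linarith)
        refine ⟨Pi.single b k, f + k * (w - y b), by linarith, fun h => absurd h hδ.ne', ?_, ?_⟩
        · rw [CE645.sum_single, CE645.sum_single]
          have e1 : (k : ℝ) * y b + (f + k * (w - y b)) = k * w + f := by ring
          rw [e1]
          exact hLV.mono (by nlinarith)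
        · rw [CE645.sum_single, CE645.sum_single]
          nlinarith
      · right; left
        refine ⟨Pi.single b k, g, e, hg, fun h => absurd h hδ.ne', ?_, ?_⟩
        · rw [rep_single]
          exact hMB _ (hy b).1 hub hui
        · rw [CE645.sum_single]
          linarith
      · right; right; linarith
    · rcases H0 (φ b) hφb hφw with ⟨k, e, hMB, hle⟩ | hle
      · right; left
        refine ⟨Pi.single b k, 0, e, le_rfl, fun _ => rfl, ?_, ?_⟩
        · rw [rep_single]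
          exact hMB _ (hy b).1 hub hui
        · rw [CE645.sum_single, ← hδ]
          linarith
      · right; right
        rw [← hδ]
        linarith

/-- `col_ms` of 645 for exactly `N` lumps, lump monomials also without dense lump -/
theorem col_ms2 (Lv : ExpLv θ r) (hθ : 1 / 2 ≤ θ) {N : ℕ} (hN : 0 < N) {Z : Multiset ℝ}
    {i M A T w c : ℝ} (hZN : Multiset.card Z = N)
    (hi : 0 ≤ i) (hZ : ∀ y ∈ Z, 0 ≤ y ∧ y ≤ i ∧ y ≤ w) (hM : 0 ≤ M) (hA : 0 ≤ A)
    (hc : M + A ≤ c) (hT : i ≤ T)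
    (H1 : ∀ φ δ : ℝ, 0 ≤ φ → φ ≤ (2 * θ - 1) * w → 0 < δ → δ ≤ 2 * θ - 1 →
      C1 θ r i w φ δ (T - N * φ - c * δ))
    (H0 : ∀ φ : ℝ, 0 ≤ φ → φ ≤ (2 * θ - 1) * w → C0 r i w φ (T - N * φ))
    (H2 : ∀ δ : ℝ, 0 < δ → δ ≤ 2 * θ - 1 → C2' θ r i w δ (T - c * δ) N) :
    r i Z M A ≤ Z.sum + M + A + T := by
  subst hZN
  obtain ⟨Y, hYZ⟩ := exists_fin Z
  have hm : ∀ j, Y j ∈ Z := fun j => by
    rw [← hYZ]
    exact Multiset.mem_map_of_mem Y (Finset.mem_univ_val j)
  have := col_eq2 Lv hθ hN Y hi (fun j => ⟨(hZ _ (hm j)).1, (hZ _ (hm j)).2.1⟩)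
    (fun j => (hZ _ (hm j)).2.2) hM hA hc hT H1 H0 H2
  have hs : ∑ j, Y j = Z.sum := by
    have := congrArg Multiset.sum hYZ
    exact this
  rw [hYZ, hs] at this
  exact this

theorem C1.mono {i w φ δ B B' : ℝ} (h : C1 θ r i w φ δ B) (hB : B ≤ B') :
    C1 θ r i w φ δ B' := by
  rcases h with ⟨k, f, hf, hLV, hle⟩ | ⟨k, g, e, hg, hMB, hle⟩ | hle
  · exact Or.inl ⟨k, f, hf, hLV, hle.trans hB⟩
  · exact Or.inr (Or.inl ⟨k, g, e, hg, hMB, hle.trans hB⟩)
  · exact Or.inr (Or.inr (hle.trans hB))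

/-- two-lump moments (`side79a`) -/
theorem mom2 (R : ExpRules (7 / 8 + d) r s) (hd : 0 ≤ d) {i : ℝ} (h0 : 0 ≤ i) (h6 : i ≤ 6) :
    ∀ u : ℝ, 0 ≤ u → u ≤ 1 → u ≤ i →
      MB r i (Multiset.replicate 2 u) (max 0 (7 / 9 * (i - 2)))
        (2 * d * max 0 (7 / 9 * (i - 2))) := by
  intro u hu hu1 hui
  have hpair : Multiset.replicate 2 u = ({u, u} : Multiset ℝ) := by
    rw [Multiset.replicate_succ, Multiset.replicate_one]; rfl
  rw [hpair]
  unfold MB
  rw [sum_pair]
  rcases le_total 2 i with h2 | h2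
  · rw [max_eq_right (by linarith)]
    have e1 := side79a R hd (κ := i) (y₁ := u) (y₂ := u) (m := 7 / 9 * (i - 2)) (a := 0) (e := 0)
      hu hu (by linarith) le_rfl (by linarith) le_rfl (by linarith) (by linarith) h0 le_rfl hui hui
    have e2 := side79a R hd (κ := i) (y₁ := u) (y₂ := u) (a := 7 / 9 * (i - 2)) (m := 0) (e := 0)
      hu hu le_rfl (by linarith) (by linarith) le_rfl (by linarith) (by linarith) h0 le_rfl hui hui
    constructor
    · linarith
    · linarith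
  · rw [max_eq_left (by linarith)]
    have e1 := sup_all R h0 hu hu le_rfl le_rfl hui hui
    constructor <;> linarith

/-- closing by the two-lump moment -/
theorem c1_mom2 (R : ExpRules (7 / 8 + d) r s) (hd : 0 ≤ d) {i φ δ B : ℝ} (h0 : 0 ≤ i)
    (h6 : i ≤ 6) (hc : i + 2 * d * max 0 (7 / 9 * (i - 2)) - 2 * φ -
      max 0 (7 / 9 * (i - 2)) * δ ≤ B) : C1 θ r i 1 φ δ B :=
  Or.inr (Or.inl ⟨2, max 0 (7 / 9 * (i - 2)), 2 * d * max 0 (7 / 9 * (i - 2)), le_max_left _ _,
    fun u h1 h2 h3 => mom2 R hd h0 h6 u h1 h2 h3, by push_cast; linarith⟩)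

/-- family `κ = i + 3` -/
theorem w5_I (R : ExpRules (7 / 8 + d) r s) (hd : 0 ≤ d) {i F φ δ : ℝ}
    (hi : 37 / 8 ≤ i) (hi3 : i ≤ 21 / 4)
    (hF : 2 * d * (5 / 6 * i + 9 / 16) ≤ F) (hδ : δ ≤ 3 / 4 + 2 * d) :
    C1 θ r i 1 φ δ (i + 1 + F - 4 * φ - (5 / 6 * i - 39 / 16) * δ) := by
  have hF4 : 2 * d * 4 ≤ F := le_trans (mul_le_mul_of_nonneg_left (by linarith) (by linarith)) hF
  have hF3 : 2 * d * 3 ≤ F := le_trans (mul_le_mul_of_nonneg_left (by linarith) (by linarith)) hF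
  have hF0 : 0 ≤ F := le_trans (by positivity) hF3
  have hFg : 2 * d * (7 / 9 * (i - 2)) ≤ F :=
    le_trans (mul_le_mul_of_nonneg_left (by linarith) (by linarith)) hF
  obtain ⟨X, rfl⟩ : ∃ X, φ = 2 / 3 + X := ⟨φ - 2 / 3, by ring⟩
  obtain ⟨τ, rfl⟩ : ∃ τ, δ = 2 / 3 - τ := ⟨2 / 3 - δ, by ring⟩
  by_cases hP2 : 2 * X + (127 / 144 - i / 18) * τ ≤ 55 / 216 - i / 27
  · refine c1_mom2 R hd (by linarith) (by linarith) ?_
    rw [max_eq_right (by linarith : 0 ≤ 7 / 9 * (i - 2))]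
    linarith
  by_cases hP3 : X ≤ (21 / 16 - i / 6) * τ + (i - 9 / 2) / 9 - 1 / 24
  · refine c1_mom 3 (by linarith) (mom3b R hd (by linarith) (by linarith)) ?_
    push_cast
    linarith
  push Not at hP2 hP3
  rcases le_total 0 τ with hτ0 | hτ0
  · refine c1_lv 6 (by push_cast; linarith) ?_ ?_
    · push_cast
      by_contra hv
      push Not at hv
      refine cross (τ := τ) (a := 37 / 16 - 7 / 18 * i) (b := 7 / 18 * i - 161 / 144)
        (p := 55 / 216 - i / 27) (q := 13 / 24 - i / 9) (by linarith) (by linarith) (by linarith)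
        (by linarith) hτ0 ?_
      nlinarith
    · push_cast
      have := mul_nonneg (by linarith : 0 ≤ 57 / 16 - i / 2 - (127 / 144 - i / 18)) hτ0
      linarith
  · obtain ⟨σ, rfl⟩ : ∃ σ, τ = -σ := ⟨-τ, by ring⟩
    have hσ0 : 0 ≤ σ := by linarith
    have hX0 : 0 ≤ X := by
      have := mul_nonneg (by linarith : 0 ≤ 127 / 144 - i / 18) hσ0
      linarith
    by_cases h6 : 1 / 24 ≤ 2 * X - (57 / 16 - i / 2) * σ
    · refine c1_lv 6 (by push_cast; linarith) ?_ ?_
      · push_cast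
        have := mul_nonneg (by linarith : 0 ≤ 4 / 3 * i - 6) hσ0
        linarith
      · push_cast
        linarith
    push Not at h6
    refine c1_lv 5 (by push_cast; linarith) ?_ ?_
    · push_cast
      have := mul_nonneg (by linarith : 0 ≤ 4 / 3 * i - 5) hσ0
      linarith
    · push_cast
      by_contra hc
      push Not at hc
      refine cross (τ := σ) (a := 17 / 36 * i - 611 / 288) (b := 193 / 72 - 4 / 9 * i)
        (p := (23 - 4 * i) / 108) (q := (8 * i - 37) / 432) (by linarith) (by linarith)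
        (by linarith) (by linarith) hσ0 ?_
      nlinarith

/-- family `κ = 61/8` -/
theorem w5_II (R : ExpRules (7 / 8 + d) r s) (hd : 0 ≤ d) (hd8 : d ≤ 1 / 8) {i F φ δ : ℝ}
    (hi : 0 ≤ i) (hi3 : i ≤ 37 / 8)
    (hF : 2 * d * (53 / 12) ≤ F) (hφ : φ ≤ 3 / 4 + 2 * d) (hδ0 : 0 < δ) (hδ : δ ≤ 3 / 4 + 2 * d) :
    C1 θ r i 1 φ δ (49 / 12 + i / 3 + F - 4 * φ - 17 / 12 * δ) := by
  have hF4 : 2 * d * 4 ≤ F := le_trans (mul_le_mul_of_nonneg_left (by linarith) (by linarith)) hF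
  have hF3 : 2 * d * 3 ≤ F := le_trans (mul_le_mul_of_nonneg_left (by linarith) (by linarith)) hF
  have hF0 : 0 ≤ F := le_trans (by positivity) hF3
  have hFg : 2 * d * (7 / 9 * (i - 2)) ≤ F :=
    le_trans (mul_le_mul_of_nonneg_left (by linarith) (by linarith)) hF
  rcases le_total i 2 with h2 | h2
  · refine c1_mom2 R hd (by linarith) (by linarith) ?_
    rw [max_eq_left (by linarith : 7 / 9 * (i - 2) ≤ 0)]
    linarith
  rcases le_total i (15 / 4) with h4 | h4
  · refine c1_mom2 R hd (by linarith) (by linarith) ?_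
    rw [max_eq_right (by linarith : 0 ≤ 7 / 9 * (i - 2))]
    have := mul_le_mul_of_nonneg_left hδ (by linarith : 0 ≤ 107 / 36 - 7 / 9 * i)
    nlinarith
  obtain ⟨X, rfl⟩ : ∃ X, φ = 2 / 3 + X := ⟨φ - 2 / 3, by ring⟩
  obtain ⟨τ, rfl⟩ : ∃ τ, δ = 2 / 3 - τ := ⟨2 / 3 - δ, by ring⟩
  by_cases hP2 : 2 * X + (7 / 9 * i - 107 / 36) * τ ≤ (175 / 8 - 4 * i) / 27 - 1 / 24
  · refine c1_mom2 R hd (by linarith) (by linarith) ?_
    rw [max_eq_right (by linarith : 0 ≤ 7 / 9 * (i - 2))]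
    linarith
  push Not at hP2
  rcases le_total 0 τ with hτ0 | hτ0
  · rcases lt_or_ge i (9 / 2) with h5 | h5
    · by_cases hP4 : 7 / 51 ≤ τ
      · refine c1_mom 4 (le_max_right _ _) (mom4 R hd (by linarith) (by linarith)) ?_
        rw [max_eq_right (by linarith : i - 5 ≤ 0),
          max_eq_left (by linarith : 0 ≤ 2 / 3 * (5 - i))]
        push_cast
        linarith
      push Not at hP4
      by_cases hv : (4 / 3 * i - 5) * τ ≤ 5 * X
      · refine c1_lv 5 (by push_cast; linarith) ?_ ?_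
        · push_cast; linarith
        · push_cast
          have := mul_nonneg (by linarith : 0 ≤ 77 / 12 - 4 / 3 * i - (7 / 18 * i - 107 / 72)) hτ0
          linarith
      push Not at hv
      rcases lt_or_ge i (41 / 10) with h41 | h41
      · exfalso
        nlinarith
      · have hX : 0 ≤ X := by
          have := mul_nonneg (by linarith : 0 ≤ 7 / 9 * i - 107 / 36)
            (by linarith : 0 ≤ 7 / 51 - τ)
          linarith
        refine Or.inl ⟨6, 0, le_rfl, Or.inl ⟨?_, ?_⟩, ?_⟩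
        · push_cast; linarith
        · push_cast; linarith
        · push_cast
          have := mul_nonneg (by linarith : 0 ≤ 17 / 12 - (7 / 9 * i - 107 / 36)) hτ0
          linarith
    · by_cases hP3 : X ≤ (31 / 6 - i) * τ - 1 / 36
      · refine c1_mom 3 (by linarith) (mom3b R hd (by linarith) (by linarith)) ?_
        push_cast
        linarith
      push Not at hP3
      refine c1_lv 6 (by push_cast; linarith) ?_ ?_
      · push_cast
        by_contra hv
        push Not at hv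
        refine cross (τ := τ) (a := 37 / 6 - 11 / 9 * i) (b := 11 / 9 * i - 179 / 36)
          (p := (175 / 8 - 4 * i) / 27 - 1 / 24) (q := 1 / 36) (by linarith) (by linarith)
          (by linarith) (by linarith) hτ0 ?_
        nlinarith
      · push_cast
        have := mul_nonneg (by linarith : 0 ≤ 89 / 12 - 4 / 3 * i - (7 / 9 * i - 107 / 36)) hτ0
        linarith
  · obtain ⟨σ, rfl⟩ : ∃ σ, τ = -σ := ⟨-τ, by ring⟩
    have hσ0 : 0 ≤ σ := by linarith
    have hσ1 : σ ≤ 1 / 12 + 2 * d := by linarith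
    have hX0 : 0 ≤ X := by
      rcases le_total 0 (7 / 9 * i - 107 / 36) with h | h
      · have := mul_nonneg h hσ0
        linarith
      · have h7 := mul_le_mul_of_nonneg_right
          (by linarith : -(1 / 18) ≤ 7 / 9 * i - 107 / 36) hσ0
        linarith
    refine c1_lv 5 (by push_cast; linarith) ?_ ?_
    · push_cast
      have := mul_nonneg (by linarith : 0 ≤ 4 / 3 * i - 5) hσ0
      linarith
    · push_cast
      rcases le_total (7 / 18 * i - 107 / 72 - (77 / 12 - 4 / 3 * i)) 0 with h | h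
      · have h8 := mul_le_mul_of_nonpos_left hσ1 h
        nlinarith
      · have := mul_nonneg h hσ0
        linarith

/-- the columns of `{1⁴ | 5/6 κ - 5 + 1/16}` -/
theorem w5_col (R : ExpRules (7 / 8 + d) r s) (Lv : ExpLv (7 / 8 + d) r) (hd : 0 ≤ d)
    (hd8 : d ≤ 1 / 8) {κ i F m a : ℝ} {Z : Multiset ℝ} (hκ : 61 / 8 ≤ κ) (hκ9 : κ ≤ 33 / 4)
    (hi0 : 0 ≤ i) (hi3 : i ≤ κ - 3) (hF : 2 * d * (5 / 6 * κ + 1 / 16 - 2) ≤ F)
    (hZ : Multiset.card Z = 4) (hZ1 : ∀ y ∈ Z, 0 ≤ y ∧ y ≤ 1) (hZi : ∀ y ∈ Z, y ≤ i)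
    (hm : 0 ≤ m) (ha : 0 ≤ a) (hma : m + a ≤ 5 / 6 * κ - 5 + 1 / 16) :
    r i Z m a ≤ (Z.sum + m + a) + ((2 * κ + i) / 3 - 1 + F) := by
  have hF4 : 2 * d * 4 ≤ F := le_trans (mul_le_mul_of_nonneg_left (by linarith) (by linarith)) hF
  have hF2 : 2 * d * 2 ≤ F := le_trans (mul_le_mul_of_nonneg_left (by linarith) (by linarith)) hF
  have hF0 : 0 ≤ F := le_trans (by positivity) hF2
  have key := col_ms2 Lv (by linarith) (N := 4) (by norm_num) (Z := Z) (i := i) (M := m) (A := a)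
    (T := (2 * κ + i) / 3 - 1 + F) (w := 1) (c := 5 / 6 * κ - 5 + 1 / 16) hZ hi0
    (fun y hy => ⟨(hZ1 y hy).1, hZi y hy, (hZ1 y hy).2⟩) hm ha hma
    (by linarith)
    (fun φ δ h1 h2 h3 h4 => by
      push_cast
      have hδ : δ ≤ 3 / 4 + 2 * d := by linarith
      rcases le_total i (37 / 8) with h | h
      · refine C1.mono (w5_II R hd hd8 (F := F - 2 * d * (5 / 6 * (κ - 61 / 8))) hi0 h
          (by linarith) (by linarith) h3 hδ) ?_
        have := mul_le_mul_of_nonneg_left hδ (by linarith : 0 ≤ 5 / 6 * (κ - 61 / 8))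
        linarith
      · refine C1.mono (w5_I R hd (F := F - 2 * d * (5 / 6 * (κ - (i + 3)))) h (by linarith)
          (by linarith) hδ) ?_
        have := mul_le_mul_of_nonneg_left hδ (by linarith : 0 ≤ 5 / 6 * (κ - (i + 3)))
        linarith)
    (fun φ h1 h2 => by
      left
      refine ⟨4, max (2 / 3 * (5 - i)) 0 + 2 * d * 2, ?_, ?_⟩
      · intro u hu hu1 _
        exact mom4g R hd hi0 (by linarith) le_rfl (le_max_right _ _) u hu hu1
      · push_cast
        rcases le_total 5 i with h5 | h5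
        · rw [max_eq_right (by linarith : 2 / 3 * (5 - i) ≤ 0)]
          linarith
        · rw [max_eq_left (by linarith : 0 ≤ 2 / 3 * (5 - i))]
          linarith)
    (fun δ h1 h2 => by
      rcases le_or_gt (2 / 3) δ with h3 | h3
      · left
        refine ⟨4 / 3 * i, by linarith, Or.inl ⟨le_rfl, by nlinarith⟩, ?_⟩
        rcases le_total (4 / 3 * i) (5 / 6 * κ - 5 + 1 / 16) with h | h
        · have h5 := mul_le_mul_of_nonneg_left (by linarith : δ ≤ 3 / 4 + 2 * d)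
            (by linarith : 0 ≤ 5 / 6 * κ - 5 + 1 / 16 - 4 / 3 * i)
          have h6 : 2 * d * (5 / 6 * κ - 5 + 1 / 16 - 4 / 3 * i) ≤ F :=
            le_trans (mul_le_mul_of_nonneg_left (by linarith) (by linarith)) hF
          linarith
        · have h5 := mul_le_mul_of_nonneg_left h3
            (by linarith : 0 ≤ 4 / 3 * i - (5 / 6 * κ - 5 + 1 / 16))
          linarith
      · right; left
        refine ⟨2, max 0 (7 / 9 * (i - 2)), 2 * d * max 0 (7 / 9 * (i - 2)), by norm_num,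
          le_max_left _ _, fun u hu hu1 hui => mom2 R hd hi0 (by linarith) u hu hu1 hui, ?_⟩
        rcases le_total i 2 with h5 | h5
        · rw [max_eq_left (by linarith : 7 / 9 * (i - 2) ≤ 0)]
          have := mul_le_mul_of_nonneg_left h3.le (by linarith : 0 ≤ 5 / 6 * κ - 5 + 1 / 16)
          linarith
        · rw [max_eq_right (by linarith : 0 ≤ 7 / 9 * (i - 2))]
          have hFg : 2 * d * (7 / 9 * (i - 2)) ≤ F :=
            le_trans (mul_le_mul_of_nonneg_left (by linarith) (by linarith)) hF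
          rcases le_total (7 / 9 * (i - 2)) (5 / 6 * κ - 5 + 1 / 16) with h6 | h6
          · have := mul_le_mul_of_nonneg_left h3.le
              (by linarith : 0 ≤ 5 / 6 * κ - 5 + 1 / 16 - 7 / 9 * (i - 2))
            linarith
          · have := mul_nonneg (by linarith : 0 ≤ 7 / 9 * (i - 2) - (5 / 6 * κ - 5 + 1 / 16)) h1.le
            linarith)
  linarith

/-- **five equal lumps at total `5/6 κ + 1/16`**, `61/8 ≤ κ ≤ 33/4` -/
theorem idl5u (R : ExpRules (7 / 8 + d) r s) (Lv : ExpLv (7 / 8 + d) r) (hd : 0 ≤ d)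
    (hd8 : d ≤ 1 / 8) {κ F : ℝ} (hκ : 61 / 8 ≤ κ) (hκ9 : κ ≤ 33 / 4)
    (hF : 2 * d * (5 / 6 * κ + 1 / 16 - 2) ≤ F) : Idl r 1 κ 5 (5 / 6 * κ - 5 + 1 / 16) F := by
  intro Y m a hY hYw hm ha hma
  have hF0 : 0 ≤ F :=
    le_trans (mul_nonneg (by linarith) (by linarith)) hF
  have hsh := sh_replicate Y hYw
  rw [hY, show (5 : ℕ) = 1 + 4 from rfl, Multiset.replicate_add] at hsh
  obtain ⟨V', Y', rfl, hV', hY'⟩ := hsh.of_add
  have hVs := hV'.sum_le
  rw [Multiset.sum_replicate, nsmul_eq_mul] at hVs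
  push_cast at hVs
  have hYs := hY'.sum_le
  rw [Multiset.sum_replicate, nsmul_eq_mul] at hYs
  push_cast at hYs
  have hC : ColX (7 / 8 + d) r κ 1 F Y' m a := by
    refine ⟨?_, ?_⟩
    · intro Z m' a' i hZ hm0 hm1 ha0 ha1 hi hyi hii
      have hZ5 := hZ.trans hY'
      have := w5_col R Lv hd hd8 (Z := Z) (m := m') (a := a') hκ hκ9 hi (by linarith) hF
        (by rw [hZ5.card, Multiset.card_replicate])
        (fun y hy => by
          obtain ⟨b, hb, hyb⟩ := Multiset.exists_mem_of_rel_of_mem hZ5 hy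
          rw [Multiset.eq_of_mem_replicate hb] at hyb
          exact hyb)
        hyi hm0 ha0 (by linarith)
      linarith
    · intro Z m' a' hZ hm0 hm1 ha0 ha1 _
      have hZ0 := hZ.sum_nonneg
      have h1 : 2 * d * m' ≤ 2 * d * (5 / 6 * κ + 1 / 16 - 2) :=
        mul_le_mul_of_nonneg_left (by linarith) (by linarith)
      linarith
  have key := side_xi R (κ := κ) (ξ := 1) (m := m) (b := 0) (a := a) (b' := 0)
    (F := F) (V := V') (Z := Y') (by linarith) hV'.nonneg hY'.nonneg hm le_rfl ha le_rfl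
    hF0 (by linarith) (by linarith) hC
  intro κ' h0 h1
  have := key κ' h0 h1
  rw [add_zero, add_zero] at this
  rw [Multiset.sum_add]
  linarith

end Crest.Agent.R017.C161
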