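import Crest.Agent.R017.C1w1_61
import Crest.Agent.R017.C1q6s_61

/-!
# Row 17, section D, small lumps: the longer member of the window `W1`, whole window (helper61)

`idl5v` : `{1⁵ | 5/6 κ - 5 + 1/16}` is ideal up to `2 d (5/6 κ + 1/16 - 2)` for
`15/2 ≤ κ ≤ 33/4`, all shortenings, every amplifier share.
-/

set_option autoImplicit false

noncomputable section

namespace Crest.Agent.R017.C161

open Crest.Agent.R017.ER911 Crest.Agent.R017.SC777 Crest.Agent.R017.CE645

variable {θ d : ℝ} {r s : EF}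

/-- family `κ = i + 3`, `9/2 ≤ i` -/
theorem w5v_I (R : ExpRules (7 / 8 + d) r s) (hd : 0 ≤ d) {i F φ δ : ℝ}
    (hi : 9 / 2 ≤ i) (hi3 : i ≤ 21 / 4)
    (hF : 2 * d * (5 / 6 * i + 9 / 16) ≤ F) (hδ : δ ≤ 3 / 4 + 2 * d) :
    C1 θ r i 1 φ δ (i + 1 + F - 4 * φ - (5 / 6 * i - 39 / 16) * δ) := by
  have hF4 : 2 * d * 4 ≤ F := le_trans (mul_le_mul_of_nonneg_left (by linarith) (by linarith)) hF
  have hF3 : 2 * d * 3 ≤ F := le_trans (mul_le_mul_of_nonneg_left (by linarith) (by linarith)) hF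
  have hF0 : 0 ≤ F := le_trans (by positivity) hF3
  have hFg : 2 * d * (7 / 9 * (i - 2)) ≤ F :=
    le_trans (mul_le_mul_of_nonneg_left (by linarith) (by linarith)) hF
  obtain ⟨X, rfl⟩ : ∃ X, φ = 2 / 3 + X := ⟨φ - 2 / 3, by ring⟩
  obtain ⟨τ, rfl⟩ : ∃ τ, δ = 2 / 3 - τ := ⟨2 / 3 - δ, by ring⟩
  by_cases hP2 : 2 * X + (127 / 144 - i / 18) * τ ≤ 55 / 216 - i / 27
  · refine c1_mom2 R hd (by linarith) (by linarith) ?_
    rw [max_eq_right (by linarith : 0 ≤ 7 / 9 * (i - 2))]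
    linarith
  by_cases hP3 : X ≤ (21 / 16 - i / 6) * τ + (i - 9 / 2) / 9 - 1 / 24
  · refine c1_mom 3 (by linarith) (mom3b R hd (by linarith) (by linarith)) ?_
    push_cast
    linarith
  push Not at hP2 hP3
  rcases le_total 0 τ with hτ0 | hτ0
  · refine c1_lv 6 (by push_cast; linarith) ?_ ?_
    · push_cast
      by_contra hv
      push Not at hv
      refine cross (τ := τ) (a := 37 / 16 - 7 / 18 * i) (b := 7 / 18 * i - 161 / 144)
        (p := 55 / 216 - i / 27) (q := 13 / 24 - i / 9) (by linarith) (by linarith) (by linarith)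
        (by linarith) hτ0 ?_
      nlinarith
    · push_cast
      have := mul_nonneg (by linarith : 0 ≤ 57 / 16 - i / 2 - (127 / 144 - i / 18)) hτ0
      linarith
  · obtain ⟨σ, rfl⟩ : ∃ σ, τ = -σ := ⟨-τ, by ring⟩
    have hσ0 : 0 ≤ σ := by linarith
    have hX0 : 0 ≤ X := by
      have := mul_nonneg (by linarith : 0 ≤ 127 / 144 - i / 18) hσ0
      linarith
    by_cases h6 : 1 / 24 ≤ 2 * X - (57 / 16 - i / 2) * σ
    · refine c1_lv 6 (by push_cast; linarith) ?_ ?_
      · push_cast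
        have := mul_nonneg (by linarith : 0 ≤ 4 / 3 * i - 6) hσ0
        linarith
      · push_cast
        linarith
    push Not at h6
    refine c1_lv 5 (by push_cast; linarith) ?_ ?_
    · push_cast
      have := mul_nonneg (by linarith : 0 ≤ 4 / 3 * i - 5) hσ0
      linarith
    · push_cast
      by_contra hc
      push Not at hc
      refine cross (τ := σ) (a := 17 / 36 * i - 611 / 288) (b := 193 / 72 - 4 / 9 * i)
        (p := (23 - 4 * i) / 108) (q := (8 * i - 37) / 432) (by linarith) (by linarith)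
        (by linarith) (by linarith) hσ0 ?_
      nlinarith

/-- family `κ = 15/2` -/
theorem w5v_II (R : ExpRules (7 / 8 + d) r s) (hd : 0 ≤ d) {i F φ δ : ℝ}
    (hi : 0 ≤ i) (hi3 : i ≤ 9 / 2)
    (hF : 2 * d * (69 / 16) ≤ F) (hφ : φ ≤ 3 / 4 + 2 * d) (hδ0 : 0 < δ) (hδ : δ ≤ 3 / 4 + 2 * d) :
    C1 θ r i 1 φ δ (4 + i / 3 + F - 4 * φ - 21 / 16 * δ) := by
  have hF4 : 2 * d * 4 ≤ F := le_trans (mul_le_mul_of_nonneg_left (by linarith) (by linarith)) hF
  have hF3 : 2 * d * 3 ≤ F := le_trans (mul_le_mul_of_nonneg_left (by linarith) (by linarith)) hF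
  have hF0 : 0 ≤ F := le_trans (by positivity) hF3
  have hFg : 2 * d * (7 / 9 * (i - 2)) ≤ F :=
    le_trans (mul_le_mul_of_nonneg_left (by linarith) (by linarith)) hF
  rcases le_total i 2 with h2 | h2
  · refine c1_mom2 R hd (by linarith) (by linarith) ?_
    rw [max_eq_left (by linarith : 7 / 9 * (i - 2) ≤ 0)]
    linarith
  rcases le_total i (15 / 4) with h4 | h4
  · refine c1_mom2 R hd (by linarith) (by linarith) ?_
    rw [max_eq_right (by linarith : 0 ≤ 7 / 9 * (i - 2))]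
    rcases le_total 0 (413 / 144 - 7 / 9 * i) with h | h
    · have := mul_le_mul_of_nonneg_left hδ h
      have h9 : 2 * d * (7 / 9 * (i - 2) + (413 / 144 - 7 / 9 * i) + 2) ≤ F :=
        le_trans (mul_le_mul_of_nonneg_left (by linarith) (by linarith)) hF
      linarith
    · have := mul_nonneg (by linarith : 0 ≤ -(413 / 144 - 7 / 9 * i)) hδ0.le
      have h9 : 2 * d * (7 / 9 * (i - 2) + 2) ≤ F :=
        le_trans (mul_le_mul_of_nonneg_left (by linarith) (by linarith)) hF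
      linarith
  obtain ⟨X, rfl⟩ : ∃ X, φ = 2 / 3 + X := ⟨φ - 2 / 3, by ring⟩
  obtain ⟨τ, rfl⟩ : ∃ τ, δ = 2 / 3 - τ := ⟨2 / 3 - δ, by ring⟩
  by_cases hP2 : 2 * X + (7 / 9 * i - 413 / 144) * τ ≤ (43 / 2 - 4 * i) / 27 - 1 / 24
  · refine c1_mom2 R hd (by linarith) (by linarith) ?_
    rw [max_eq_right (by linarith : 0 ≤ 7 / 9 * (i - 2))]
    linarith
  push Not at hP2
  rcases le_total 0 τ with hτ0 | hτ0
  · by_cases hP4 : 10 / 63 ≤ τ
    · refine c1_mom 4 (le_max_right _ _) (mom4 R hd (by linarith) (by linarith)) ?_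
      rw [max_eq_right (by linarith : i - 5 ≤ 0),
        max_eq_left (by linarith : 0 ≤ 2 / 3 * (5 - i))]
      push_cast
      linarith
    push Not at hP4
    by_cases hP3 : X ≤ (33 / 16 - i / 3) * τ + (11 / 24 - i / 9)
    · refine c1_mom 3 (by linarith) (mom3a R hd (by linarith) (by linarith)) ?_
      push_cast
      linarith
    push Not at hP3
    by_cases hv : (4 / 3 * i - 5) * τ ≤ 5 * X
    · refine c1_lv 5 (by push_cast; linarith) ?_ ?_
      · push_cast; linarith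
      · push_cast
        rcases le_total 0 (101 / 16 - 4 / 3 * i - (7 / 18 * i - 413 / 288)) with h | h
        · have := mul_nonneg h hτ0
          linarith
        · have := mul_le_mul_of_nonpos_left hP4.le h
          linarith
    push Not at hv
    rcases lt_or_ge i (17 / 4) with h41 | h41
    · exfalso
      have := mul_nonneg (by linarith : 0 ≤ 7 / 9 * i - 413 / 144 + 2 / 5 * (4 / 3 * i - 5))
        (by linarith : 0 ≤ 10 / 63 - τ)
      linarith
    · have hX : 0 ≤ X := by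
        by_contra hX
        push Not at hX
        refine cross (τ := τ) (a := 33 / 16 - i / 3) (b := 7 / 9 * i - 413 / 144)
          (p := (43 / 2 - 4 * i) / 27 - 1 / 24) (q := i / 9 - 11 / 24) (by linarith) (by linarith)
          (by linarith) (by linarith) hτ0 ?_
        nlinarith
      refine Or.inl ⟨6, 0, le_rfl, Or.inl ⟨?_, ?_⟩, ?_⟩
      · push_cast; linarith
      · push_cast; linarith
      · push_cast
        have := mul_nonneg (by linarith : 0 ≤ 21 / 16 - (7 / 9 * i - 413 / 144)) hτ0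
        linarith
  · obtain ⟨σ, rfl⟩ : ∃ σ, τ = -σ := ⟨-τ, by ring⟩
    have hσ0 : 0 ≤ σ := by linarith
    have hσ1 : σ ≤ 1 / 12 + 2 * d := by linarith
    have hX0 : 0 ≤ X := by
      have := mul_nonneg (by linarith : 0 ≤ 7 / 9 * i - 413 / 144) hσ0
      linarith
    refine c1_lv 5 (by push_cast; linarith) ?_ ?_
    · push_cast
      have := mul_nonneg (by linarith : 0 ≤ 4 / 3 * i - 5) hσ0
      linarith
    · push_cast
      rcases le_total (7 / 18 * i - 413 / 288 - (101 / 16 - 4 / 3 * i)) 0 with h | h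
      · have h8 := mul_le_mul_of_nonpos_left hσ1 h
        nlinarith
      · have := mul_nonneg h hσ0
        linarith

/-- the columns of `{1⁴ | 5/6 κ - 5 + 1/16}` -/
theorem w5v_col (R : ExpRules (7 / 8 + d) r s) (Lv : ExpLv (7 / 8 + d) r) (hd : 0 ≤ d)
    {κ i F m a : ℝ} {Z : Multiset ℝ} (hκ : 15 / 2 ≤ κ) (hκ9 : κ ≤ 33 / 4)
    (hi0 : 0 ≤ i) (hi3 : i ≤ κ - 3) (hF : 2 * d * (5 / 6 * κ + 1 / 16 - 2) ≤ F)
    (hZ : Multiset.card Z = 4) (hZ1 : ∀ y ∈ Z, 0 ≤ y ∧ y ≤ 1) (hZi : ∀ y ∈ Z, y ≤ i)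
    (hm : 0 ≤ m) (ha : 0 ≤ a) (hma : m + a ≤ 5 / 6 * κ - 5 + 1 / 16) :
    r i Z m a ≤ (Z.sum + m + a) + ((2 * κ + i) / 3 - 1 + F) := by
  have hF4 : 2 * d * 4 ≤ F := le_trans (mul_le_mul_of_nonneg_left (by linarith) (by linarith)) hF
  have hF2 : 2 * d * 2 ≤ F := le_trans (mul_le_mul_of_nonneg_left (by linarith) (by linarith)) hF
  have hF0 : 0 ≤ F := le_trans (by positivity) hF2
  have key := col_ms2 Lv (by linarith) (N := 4) (by norm_num) (Z := Z) (i := i) (M := m) (A := a)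
    (T := (2 * κ + i) / 3 - 1 + F) (w := 1) (c := 5 / 6 * κ - 5 + 1 / 16) hZ hi0
    (fun y hy => ⟨(hZ1 y hy).1, hZi y hy, (hZ1 y hy).2⟩) hm ha hma
    (by linarith)
    (fun φ δ h1 h2 h3 h4 => by
      push_cast
      have hδ : δ ≤ 3 / 4 + 2 * d := by linarith
      rcases le_total i (9 / 2) with h | h
      · refine C1.mono (w5v_II R hd (F := F - 2 * d * (5 / 6 * (κ - 15 / 2))) hi0 h
          (by linarith) (by linarith) h3 hδ) ?_
        have := mul_le_mul_of_nonneg_left hδ (by linarith : 0 ≤ 5 / 6 * (κ - 15 / 2))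
        linarith
      · refine C1.mono (w5v_I R hd (F := F - 2 * d * (5 / 6 * (κ - (i + 3)))) h (by linarith)
          (by linarith) hδ) ?_
        have := mul_le_mul_of_nonneg_left hδ (by linarith : 0 ≤ 5 / 6 * (κ - (i + 3)))
        linarith)
    (fun φ h1 h2 => by
      left
      refine ⟨4, max (2 / 3 * (5 - i)) 0 + 2 * d * 2, ?_, ?_⟩
      · intro u hu hu1 _
        exact mom4g R hd hi0 (by linarith) le_rfl (le_max_right _ _) u hu hu1
      · push_cast
        rcases le_total 5 i with h5 | h5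
        · rw [max_eq_right (by linarith : 2 / 3 * (5 - i) ≤ 0)]
          linarith
        · rw [max_eq_left (by linarith : 0 ≤ 2 / 3 * (5 - i))]
          linarith)
    (fun δ h1 h2 => by
      rcases le_or_gt (2 / 3) δ with h3 | h3
      · left
        refine ⟨4 / 3 * i, by linarith, Or.inl ⟨le_rfl, by nlinarith⟩, ?_⟩
        rcases le_total (4 / 3 * i) (5 / 6 * κ - 5 + 1 / 16) with h | h
        · have h5 := mul_le_mul_of_nonneg_left (by linarith : δ ≤ 3 / 4 + 2 * d)
            (by linarith : 0 ≤ 5 / 6 * κ - 5 + 1 / 16 - 4 / 3 * i)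
          have h6 : 2 * d * (5 / 6 * κ - 5 + 1 / 16 - 4 / 3 * i) ≤ F :=
            le_trans (mul_le_mul_of_nonneg_left (by linarith) (by linarith)) hF
          linarith
        · have h5 := mul_le_mul_of_nonneg_left h3
            (by linarith : 0 ≤ 4 / 3 * i - (5 / 6 * κ - 5 + 1 / 16))
          linarith
      · right; left
        refine ⟨2, max 0 (7 / 9 * (i - 2)), 2 * d * max 0 (7 / 9 * (i - 2)), by norm_num,
          le_max_left _ _, fun u hu hu1 hui => mom2 R hd hi0 (by linarith) u hu hu1 hui, ?_⟩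
        rcases le_total i 2 with h5 | h5
        · rw [max_eq_left (by linarith : 7 / 9 * (i - 2) ≤ 0)]
          have := mul_le_mul_of_nonneg_left h3.le (by linarith : 0 ≤ 5 / 6 * κ - 5 + 1 / 16)
          linarith
        · rw [max_eq_right (by linarith : 0 ≤ 7 / 9 * (i - 2))]
          have hFg : 2 * d * (7 / 9 * (i - 2)) ≤ F :=
            le_trans (mul_le_mul_of_nonneg_left (by linarith) (by linarith)) hF
          rcases le_total (7 / 9 * (i - 2)) (5 / 6 * κ - 5 + 1 / 16) with h6 | h6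
          · have := mul_le_mul_of_nonneg_left h3.le
              (by linarith : 0 ≤ 5 / 6 * κ - 5 + 1 / 16 - 7 / 9 * (i - 2))
            linarith
          · have := mul_nonneg (by linarith : 0 ≤ 7 / 9 * (i - 2) - (5 / 6 * κ - 5 + 1 / 16)) h1.le
            linarith)
  linarith

/-- **five equal lumps at total `5/6 κ + 1/16`**, `15/2 ≤ κ ≤ 33/4` -/
theorem idl5v (R : ExpRules (7 / 8 + d) r s) (Lv : ExpLv (7 / 8 + d) r) (hd : 0 ≤ d)
    {κ F : ℝ} (hκ : 15 / 2 ≤ κ) (hκ9 : κ ≤ 33 / 4)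
    (hF : 2 * d * (5 / 6 * κ + 1 / 16 - 2) ≤ F) : Idl r 1 κ 5 (5 / 6 * κ - 5 + 1 / 16) F := by
  intro Y m a hY hYw hm ha hma
  have hF0 : 0 ≤ F :=
    le_trans (mul_nonneg (by linarith) (by linarith)) hF
  have hsh := sh_replicate Y hYw
  rw [hY, show (5 : ℕ) = 1 + 4 from rfl, Multiset.replicate_add] at hsh
  obtain ⟨V', Y', rfl, hV', hY'⟩ := hsh.of_add
  have hVs := hV'.sum_le
  rw [Multiset.sum_replicate, nsmul_eq_mul] at hVs
  push_cast at hVs
  have hYs := hY'.sum_le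
  rw [Multiset.sum_replicate, nsmul_eq_mul] at hYs
  push_cast at hYs
  have hC : ColX (7 / 8 + d) r κ 1 F Y' m a := by
    refine ⟨?_, ?_⟩
    · intro Z m' a' i hZ hm0 hm1 ha0 ha1 hi hyi hii
      have hZ5 := hZ.trans hY'
      have := w5v_col R Lv hd (Z := Z) (m := m') (a := a') hκ hκ9 hi (by linarith) hF
        (by rw [hZ5.card, Multiset.card_replicate])
        (fun y hy => by
          obtain ⟨b, hb, hyb⟩ := Multiset.exists_mem_of_rel_of_mem hZ5 hy
          rw [Multiset.eq_of_mem_replicate hb] at hyb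
          exact hyb)
        hyi hm0 ha0 (by linarith)
      linarith
    · intro Z m' a' hZ hm0 hm1 ha0 ha1 _
      have hZ0 := hZ.sum_nonneg
      have h1 : 2 * d * m' ≤ 2 * d * (5 / 6 * κ + 1 / 16 - 2) :=
        mul_le_mul_of_nonneg_left (by linarith) (by linarith)
      linarith
  have key := side_xi R (κ := κ) (ξ := 1) (m := m) (b := 0) (a := a) (b' := 0)
    (F := F) (V := V') (Z := Y') (by linarith) hV'.nonneg hY'.nonneg hm le_rfl ha le_rfl
    hF0 (by linarith) (by linarith) hC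
  intro κ' h0 h1
  have := key κ' h0 h1
  rw [add_zero, add_zero] at this
  rw [Multiset.sum_add]
  linarith

/-- general unit, `15/2 w ≤ κ ≤ 33/4 w`, gain `w/16` -/
theorem idl5vw (R : ExpRules (7 / 8 + d) r s) (Lv : ExpLv (7 / 8 + d) r) (hd : 0 ≤ d)
    {w κ F : ℝ} (hw : 0 < w) (hκ : 15 / 2 * w ≤ κ) (hκ9 : κ ≤ 33 / 4 * w)
    (hF : 2 * d * (5 / 6 * κ + w / 16 - 2 * w) ≤ F) :
    Idl r w κ 5 (5 / 6 * κ - 5 * w + w / 16) F := by
  obtain ⟨k, rfl⟩ := sc_div hw κ
  have h1 : 15 / 2 ≤ k := by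
    by_contra hc; push Not at hc; nlinarith
  have h2 : k ≤ 33 / 4 := by
    by_contra hc; push Not at hc; nlinarith
  have := Idl.of_scale hw (idl5v (R.scale hw) (Lv.scale hw) hd h1 h2 le_rfl)
  refine (Idl.mono this (le_of_eq (by ring)) ?_)
  refine le_trans (le_of_eq ?_) hF
  ring

/-- the same with the loss `(4/3 d - μ) κ` -/
theorem idl5vF (R : ExpRules (7 / 8 + d) r s) (Lv : ExpLv (7 / 8 + d) r) (hd : 0 ≤ d)
    {w κ μ : ℝ} (hμ2 : 9 * μ ≤ d) (hw : 0 < w) (hκ : 15 / 2 * w ≤ κ)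
    (hκ9 : κ ≤ 33 / 4 * w) :
    Idl r w κ 5 (5 / 6 * κ - 5 * w + w / 16) ((4 / 3 * d - μ) * κ) := by
  refine idl5vw R Lv hd hw hκ hκ9 ?_
  have hκ0 : 0 ≤ κ := by linarith
  have h1 : μ * κ ≤ d / 9 * κ := mul_le_mul_of_nonneg_right (by linarith) hκ0
  have h2 : d * κ ≤ d * (33 / 4 * w) := mul_le_mul_of_nonneg_left hκ9 hd
  nlinarith [mul_nonneg hd hw.le]

end Crest.Agent.R017.C161
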