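import Crest.Agent.R017.BoxCov_741

/-!
# Row 17, section D: master form of the coverage (helper59)

* `Col r e₀ u n M A` : column, all masses `(f, g)` of the polygon of `(M, A)`
* `CovM r e₀ t u τ` : the **one** point `(τ/2; (4/3 - S)/2; 1/6 - t/2)` is in the hull of the columns
* `cov_box` : the box theorem for all masses (an amount `t` of the granular masses is dropped by
  SUP, which gives the strict margin)
-/

set_option autoImplicit false

noncomputable section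

namespace Crest.Agent.R017.CovM59

open Crest.Agent.R017.ER911 Crest.Agent.R017.Hull741 Crest.Agent.R017.Cone59
open Crest.Agent.R017.BoxCov741

/-- a column: multiplicities `n`, master masses `M` (Möbius), `A` (amplifier) -/
def Col {N : ℕ} (r : EF) (e₀ : ℝ) (u : Fin N → ℝ) (n : Fin N → ℕ) (M A : ℝ) : Prop :=
  0 ≤ M ∧ 0 ≤ A ∧ ∀ f g : ℝ, 0 ≤ f → 0 ≤ g → f + g ≤ M + A → 3 * f + 8 * g ≤ 3 * M + 8 * A →
    Ideal r 1 u e₀ n f g

/-- a sufficient condition: `total ≤ N`, `total + amplifier ≤ B` -/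
theorem Col.of_two {N : ℕ} {r : EF} {e₀ : ℝ} {u : Fin N → ℝ} {n : Fin N → ℕ} {M A : ℝ}
    (hM : 0 ≤ M) (hA : 0 ≤ A)
    (h : ∀ f g : ℝ, 0 ≤ f → 0 ≤ g → f + g ≤ M + A → f + 2 * g ≤ M + 2 * A →
      Ideal r 1 u e₀ n f g) : Col r e₀ u n M A :=
  ⟨hM, hA, fun f g hf hg h1 h2 => h f g hf hg h1 (by linarith)⟩

/-- the barycentric coordinates of the polygon -/
theorem poly {M A f g : ℝ} (hM : 0 ≤ M) (hA : 0 ≤ A) (hf : 0 ≤ f) (hg : 0 ≤ g)
    (h1 : f + g ≤ M + A) (h2 : 3 * f + 8 * g ≤ 3 * M + 8 * A) :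
    ∃ w₁ w₂ w₃ : ℝ, 0 ≤ w₁ ∧ 0 ≤ w₂ ∧ 0 ≤ w₃ ∧ w₁ + w₂ + w₃ ≤ 1 ∧
      f = w₁ * (M + A) + w₂ * M ∧ g = w₂ * A + w₃ * (A + 3 / 8 * M) := by
  rcases le_total (g * M) (A * f) with h | h
  · rcases hA.eq_or_lt with h0 | h0
    · -- `A = 0`
      subst h0
      rw [zero_mul] at h
      have hgM : g * M = 0 := le_antisymm h (mul_nonneg hg hM)
      rcases hM.eq_or_lt with hM0 | hM0
      · subst hM0
        have hf0 : f = 0 := by linarith
        have hg0 : g = 0 := by linarith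
        exact ⟨0, 0, 0, le_rfl, le_rfl, le_rfl, by norm_num, by rw [hf0]; ring,
          by rw [hg0]; ring⟩
      · have hg0 : g = 0 := (mul_eq_zero.1 hgM).resolve_right hM0.ne'
        refine ⟨f / M, 0, 0, div_nonneg hf hM, le_rfl, le_rfl, ?_, ?_, ?_⟩
        · rw [add_zero, add_zero, div_le_one hM0]; linarith
        · field_simp; ring
        · rw [hg0]; ring
    · have hMA : 0 < M + A := by linarith
      refine ⟨(f - g * M / A) / (M + A), g / A, 0, ?_, div_nonneg hg hA, le_rfl, ?_, ?_, ?_⟩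
      · refine div_nonneg ?_ hMA.le
        rw [sub_nonneg, div_le_iff₀ h0]; linarith
      · have : (f - g * M / A) / (M + A) + g / A + 0 = (f + g) / (M + A) := by
          field_simp; ring
        rw [this, div_le_one hMA]; exact h1
      · field_simp; ring
      · field_simp; ring
  · rcases hM.eq_or_lt with h0 | h0
    · subst h0
      rw [mul_zero] at h
      have hAf : A * f = 0 := le_antisymm h (mul_nonneg hA hf)
      rcases hA.eq_or_lt with hA0 | hA0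
      · subst hA0
        have hf0 : f = 0 := by linarith
        have hg0 : g = 0 := by linarith
        exact ⟨0, 0, 0, le_rfl, le_rfl, le_rfl, by norm_num, by rw [hf0]; ring,
          by rw [hg0]; ring⟩
      · have hf0 : f = 0 := (mul_eq_zero.1 hAf).resolve_left hA0.ne'
        refine ⟨0, 0, g / A, le_rfl, le_rfl, div_nonneg hg hA, ?_, ?_, ?_⟩
        · rw [zero_add, zero_add, div_le_one hA0]; linarith
        · rw [hf0]; ring
        · field_simp; ring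
    · have hMA : 0 < A + 3 / 8 * M := by linarith
      refine ⟨0, f / M, (g - A * f / M) / (A + 3 / 8 * M), le_rfl, div_nonneg hf hM, ?_, ?_, ?_, ?_⟩
      · refine div_nonneg ?_ hMA.le
        rw [sub_nonneg, div_le_iff₀ h0]; linarith
      · have : 0 + f / M + (g - A * f / M) / (A + 3 / 8 * M) =
            (3 / 8 * f + g) / (A + 3 / 8 * M) := by
          field_simp; ring
        rw [this, div_le_one hMA]; linarith
      · field_simp; ring
      · field_simp; ring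

/-- from the master point to the whole polygon -/
theorem hull_of_col {N : ℕ} {r : EF} {e₀ : ℝ} {u : Fin N → ℝ} {z : Fin N → ℝ} {M A : ℝ}
    (h : ((z, M, A) : Mon N) ∈ Hull (Col r e₀ u)) {f g : ℝ} (hf : 0 ≤ f) (hg : 0 ≤ g)
    (h1 : f + g ≤ M + A) (h2 : 3 * f + 8 * g ≤ 3 * M + 8 * A) :
    ((z, f, g) : Mon N) ∈ Hull (Ideal r 1 u e₀) := by
  obtain ⟨K, p, n, Mq, Aq, hp, hp1, hC, heq⟩ := h
  have e1 : z = fun j => ∑ q, p q * (n q j : ℝ) := congrArg Prod.fst heq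
  have e2 : M = ∑ q, p q * Mq q := congrArg (fun z => z.2.1) heq
  have e3 : A = ∑ q, p q * Aq q := congrArg (fun z => z.2.2) heq
  have hM : 0 ≤ M := by rw [e2]; exact Finset.sum_nonneg fun q _ => mul_nonneg (hp q) (hC q).1
  have hA : 0 ≤ A := by rw [e3]; exact Finset.sum_nonneg fun q _ => mul_nonneg (hp q) (hC q).2.1
  obtain ⟨w₁, w₂, w₃, hw₁, hw₂, hw₃, hw, hfe, hge⟩ := poly hM hA hf hg h1 h2
  refine ⟨K, p, n, fun q => w₁ * (Mq q + Aq q) + w₂ * Mq q,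
    fun q => w₂ * Aq q + w₃ * (Aq q + 3 / 8 * Mq q), hp, hp1, fun q => ?_, ?_⟩
  · obtain ⟨c1, c2, c3⟩ := hC q
    refine c3 _ _ (by positivity) (by positivity) ?_ ?_
    · have a1 : 0 ≤ (1 - w₁ - w₂ - w₃) * (Mq q + Aq q) :=
        mul_nonneg (by linarith) (by linarith)
      have a2 : 0 ≤ w₃ * (5 / 8 * Mq q) := by positivity
      linarith
    · have a1 : 0 ≤ (1 - w₁ - w₂ - w₃) * (3 * Mq q + 8 * Aq q) :=
        mul_nonneg (by linarith) (by linarith)
      have a2 : 0 ≤ w₁ * (5 * Aq q) := by positivity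
      linarith
  · refine Prod.ext e1 (Prod.ext ?_ ?_)
    · show f = ∑ q, p q * (w₁ * (Mq q + Aq q) + w₂ * Mq q)
      rw [hfe, e2, e3, ← Finset.sum_add_distrib, Finset.mul_sum, Finset.mul_sum,
        ← Finset.sum_add_distrib]
      exact Finset.sum_congr rfl fun q _ => by ring
    · show g = ∑ q, p q * (w₂ * Aq q + w₃ * (Aq q + 3 / 8 * Mq q))
      rw [hge, e2, e3, Finset.mul_sum (s := Finset.univ) (a := 3 / 8), ← Finset.sum_add_distrib,
        Finset.mul_sum, Finset.mul_sum, ← Finset.sum_add_distrib]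
      exact Finset.sum_congr rfl fun q _ => by ring

/-- dropping `t` of the granular masses (amplifier first) -/
theorem drop_t {s m a t : ℝ} (hs : s ≤ 4 / 3) (hm : 0 ≤ m) (ha : 0 ≤ a) (ht : 0 ≤ t)
    (ht3 : t ≤ 1 / 3) (h1 : s + m + a ≤ 5 / 3) (h2 : a ≤ 4 / 3 - 3 / 5 * (s + m + a)) :
    ∃ m' a' : ℝ, 0 ≤ m' ∧ m' ≤ m ∧ 0 ≤ a' ∧ a' ≤ a ∧ (m + a) - (m' + a') ≤ t ∧
      m' / 2 + a' / 2 ≤ (4 / 3 - s) / 2 + (1 / 6 - t / 2) ∧
      3 * (m' / 2) + 8 * (a' / 2) ≤ 3 * ((4 / 3 - s) / 2) + 8 * (1 / 6 - t / 2) := by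
  rcases le_total t a with h | h
  · exact ⟨m, a - t, hm, le_rfl, by linarith, by linarith, by linarith, by linarith, by linarith⟩
  · rcases le_total (t - a) m with h' | h'
    · exact ⟨m - (t - a), 0, by linarith, by linarith, le_rfl, ha, by linarith, by linarith,
        by linarith⟩
    · exact ⟨0, 0, le_rfl, hm, le_rfl, ha, by linarith, by linarith, by linarith⟩

/-- the master form of the coverage of a box -/
def CovM {N : ℕ} (r : EF) (e₀ t : ℝ) (u τ : Fin N → ℝ) : Prop :=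
  ((fun j => τ j / 2, (4 / 3 - ∑ j, τ j * u j) / 2, 1 / 6 - t / 2) : Mon N) ∈ Hull (Col r e₀ u)

/-- **master coverage gives the box theorem** -/
theorem cov_box {θ : ℝ} (hθ : 7 / 8 ≤ θ) (hθ1 : θ ≤ 1) {r bx : EF} (B : ExpBox θ r bx) {N : ℕ}
    (u : Fin N → ℝ) (hu : ∀ j, 0 ≤ u j) {m a : ℝ} (hm : 0 ≤ m) (ha : 0 ≤ a) {e₀ t μ : ℝ}
    (ht : 0 ≤ t) (ht3 : t ≤ 1 / 3) (he : 2 * e₀ + (2 * θ - 1) * t + μ ≤ b2 θ)
    (τ : Fin N → ℝ) (hτ : ∀ j, τ j ≤ 1)
    (hs : ∑ j, τ j * u j = min (∑ j, u j) (4 / 3)) (hcov : CovM r e₀ t u τ) :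
    bx 1 (Finset.univ.val.map u) m a ≤
      1 + (((∑ j, u j) + m + a) + (Al2 θ ((∑ j, u j) + m + a) a - μ)) / 2 := by
  have hs0 : 0 ≤ ∑ j, u j := Finset.sum_nonneg fun j _ => hu j
  obtain ⟨s', m', a', hs', hm0, hm1, ha0, ha1, hL, hcore, hAl⟩ := red' hθ hθ1 hs0 hm ha
  have hsτ : ∑ j, τ j * u j = s' := by rw [hs, hs']
  have hs43 : s' ≤ 4 / 3 := by rw [hs']; exact min_le_right _ _
  obtain ⟨m'', a'', hm2, hm3, ha2, ha3, hd, hp1, hp2⟩ := drop_t hs43 hm0 ha0 ht ht3 hL hcore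
  have hmem := hull_of_col hcov (f := m'' / 2) (g := a'' / 2) (by linarith) (by linarith)
    (by rw [hsτ]; linarith) (by rw [hsτ]; linarith)
  have h := outer_le B u 1 m a e₀ zero_le_one hu hm ha τ m'' a'' hτ (hm3.trans hm1)
    (ha3.trans ha1) hmem
  rw [hsτ] at h
  set L := (∑ j, u j) + m + a
  have hsp : 0 ≤ 2 * θ - 1 := by linarith
  have hdt := mul_le_mul_of_nonneg_left hd hsp
  nlinarith

/-- with `le_target2`: the target at the family `h` (base `K₀`), room `h μ / 2` -/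
theorem cov_target {θ : ℝ} (hθ : 7 / 8 ≤ θ) (hθ1 : θ ≤ 1) {r bx : EF} (B : ExpBox θ r bx)
    {N : ℕ} (u : Fin N → ℝ) (hu : ∀ j, 0 ≤ u j) {m a : ℝ} (hm : 0 ≤ m) (ha : 0 ≤ a)
    {e₀ t μ : ℝ} (ht : 0 ≤ t) (ht3 : t ≤ 1 / 3) (he : 2 * e₀ + (2 * θ - 1) * t + μ ≤ b2 θ)
    (τ : Fin N → ℝ) (hτ : ∀ j, τ j ≤ 1)
    (hs : ∑ j, τ j * u j = min (∑ j, u j) (4 / 3)) (hcov : CovM r e₀ t u τ) {h q c : ℝ}
    (h0 : 0 < h) (hh : h ≤ 1) (hq : h * ((∑ j, u j) + m + a) = q + c) (hc' : h * a = c)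
    (hc : c ≤ 1 / 3) (hfull : q + c ≤ 5 / 3) (hqc : q - c ≤ 1) :
    h * bx 1 (Finset.univ.val.map u) m a + h * μ / 2 ≤ Tg2 θ h q c := by
  have h1 := cov_box hθ hθ1 B u hu hm ha ht ht3 he τ hτ hs hcov
  set L := (∑ j, u j) + m + a
  have h2 := le_target2 (e := Al2 θ L a - μ) hθ hθ1 h0 hh hq hc' hc hfull hqc le_rfl
  have h3 := mul_le_mul_of_nonneg_left h1 h0.le
  have h4 : h * (1 + (L + (Al2 θ L a - μ)) / 2) = h + (q + c) / 2 + h * (Al2 θ L a - μ) / 2 := by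
    rw [← hq]; ring
  linarith

end Crest.Agent.R017.CovM59
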