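import Crest.Agent.R017.SideB_911

/-!
# Row 17, section D: sides `V + {y₁, y₂ | m, a}` (helper911; idea of `side_lb` by helper83)

`θ = 7/8 + d`, `γ = 2 (1 - θ) = 1/4 - 2 d`.
`HH2 d r e` : the sides `{y₁,y₂ | m, a}` of relative length `≤ 5/6` are ideal up to
`e κ + γ (a - (κ - n) - 8/3 (y₁ + y₂))⁺` (the last term is the cube column of the amplifier).
* `side_lb` : `HH2 d r (4/3 d)`;
* `T1` : sides `V + {y₁,y₂ | m, a}`, `V` arbitrary lumps, `V.sum ≤ (1-z) κ - n`, `z ≤ 1/18`.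
-/

set_option autoImplicit false

namespace Crest.Agent.R017.ER911

/-- sides `{y₁,y₂ | m, a}` of relative length `≤ 5/6` -/
def HH2 (d : ℝ) (r : EF) (e : ℝ) : Prop :=
  ∀ κ y₁ y₂ m a : ℝ, 0 ≤ κ → 0 ≤ y₁ → 0 ≤ y₂ → 0 ≤ m → 0 ≤ a → 6 * (y₁ + y₂ + m + a) ≤ 5 * κ →
    ∀ κ' : ℝ, y₁ ≤ κ' → y₂ ≤ κ' → 0 ≤ κ' → κ' ≤ κ →
      r κ' {y₁, y₂} m a + (κ - κ') / 3 ≤ κ + (y₁ + y₂ + m + a) + e * κ +
        (1 / 4 - 2 * d) * max 0 (a - (κ - (y₁ + y₂ + m + a)) - 8 / 3 * (y₁ + y₂))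

variable {θ d : ℝ} {r s : EF}

theorem sum_pair (y₁ y₂ : ℝ) : ({y₁, y₂} : Multiset ℝ).sum = y₁ + y₂ := by
  simp

theorem nn_pair {y₁ y₂ : ℝ} (h1 : 0 ≤ y₁) (h2 : 0 ≤ y₂) :
    ∀ y ∈ ({y₁, y₂} : Multiset ℝ), 0 ≤ y := by
  intro y hy
  simp only [Multiset.insert_eq_cons, Multiset.mem_cons, Multiset.mem_singleton] at hy
  rcases hy with rfl | rfl
  · exact h1
  · exact h2

theorem ok_pair {y₁ y₂ m a : ℝ} (h1 : 0 ≤ y₁) (h2 : 0 ≤ y₂) (hm : 0 ≤ m) (ha : 0 ≤ a) :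
    Ok {y₁, y₂} m a := ⟨nn_pair h1 h2, hm, ha⟩

theorem le_pair {y₁ y₂ κ : ℝ} (h1 : y₁ ≤ κ) (h2 : y₂ ≤ κ) :
    ∀ y ∈ ({y₁, y₂} : Multiset ℝ), y ≤ κ := by
  intro y hy
  simp only [Multiset.insert_eq_cons, Multiset.mem_cons, Multiset.mem_singleton] at hy
  rcases hy with rfl | rfl
  · exact h1
  · exact h2

/-- TF on the Gauss side, long families -/
theorem tfg_long (R : ExpRules θ r s) {κ y₁ y₂ : ℝ} (h1 : 0 ≤ y₁) (h2 : 0 ≤ y₂)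
    (h : y₁ + y₂ ≤ κ) : ∀ κ' : ℝ, 0 ≤ κ' → κ' ≤ κ →
      s κ' {y₁, y₂} 0 0 + (κ - κ') / 3 ≤ κ + y₁ + y₂ := by
  have hκ : 0 ≤ κ := by linarith
  refine R.poisG κ {y₁, y₂} 0 0 (κ + y₁ + y₂) hκ (ok_pair h1 h2 le_rfl le_rfl)
    (by rw [sum_pair]; linarith) ?_ ?_
  · intro Y' m' a' i hY hm hm' ha ha' hi hyi hii
    obtain ⟨a₁, a₂, rfl, ha1, ha1', ha2, ha2'⟩ := hY.pair
    have hm0 : m' = 0 := le_antisymm hm' hm
    have ha0 : a' = 0 := le_antisymm ha' ha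
    subst hm0; subst ha0
    rw [sum_pair] at hii ⊢
    rw [sum_pair]
    have := R.tf i a₁ a₂ ha1 ha2 (hyi a₁ (by simp)) (hyi a₂ (by simp))
    linarith
  · intro Y' m' a' hY hm hm' ha ha' hκ'
    obtain ⟨a₁, a₂, rfl, ha1, ha1', ha2, ha2'⟩ := hY.pair
    have hm0 : m' = 0 := le_antisymm hm' hm
    have ha0 : a' = 0 := le_antisymm ha' ha
    subst hm0; subst ha0
    rw [sum_pair] at hκ' ⊢
    rw [sum_pair]
    linarith

theorem tfg (R : ExpRules θ r s) {k y₁ y₂ E : ℝ} (h1 : 0 ≤ y₁) (h2 : 0 ≤ y₂) (hk : 0 ≤ k)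
    (hE1 : k + y₁ + y₂ ≤ E) (hE2 : (5 * (y₁ + y₂) + k) / 3 ≤ E) : s k {y₁, y₂} 0 0 ≤ E := by
  rcases le_total (y₁ + y₂) k with h | h
  · have := tfg_long R h1 h2 h k hk le_rfl
    linarith
  · have := tfg_long R h1 h2 le_rfl k hk h
    linarith

/-- the B-line for `{y₁,y₂ | m, a}` from `HH2` and TF -/
theorem lb2 (R : ExpRules (7 / 8 + d) r s) (L : ExpLB (7 / 8 + d) r) (hd : 0 ≤ d)
    (hd8 : d ≤ 1 / 8) {e : ℝ} (he : 0 ≤ e) (H : HH2 d r e)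
    {κ y₁ y₂ m a : ℝ} (hκ : 0 ≤ κ) (h1 : 0 ≤ y₁) (h2 : 0 ≤ y₂) (hm : 0 ≤ m) (ha : 0 ≤ a)
    (hy1 : y₁ ≤ κ) (hy2 : y₂ ≤ κ) (h56 : 5 * κ ≤ 6 * (y₁ + y₂ + m + a)) :
    r κ {y₁, y₂} m a ≤ max (5 / 3 * (y₁ + y₂ + m + a) + 4 / 9 * κ +
        (e * κ + (1 / 4 - 2 * d) * max 0 (a - κ / 6 - 8 / 3 * (y₁ + y₂))))
      ((7 / 4 + 2 * d) * (y₁ + y₂ + m + a) + 1 / 3 * κ) := by
  have hg : 0 ≤ 1 / 4 - 2 * d := by linarith
  have hTF := R.tf κ y₁ y₂ h1 h2 hy1 hy2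
  have hek : 0 ≤ e * κ := mul_nonneg he hκ
  have hM0 : 0 ≤ max 0 (a - κ / 6 - 8 / 3 * (y₁ + y₂)) := le_max_left _ _
  have hgM : 0 ≤ (1 / 4 - 2 * d) * max 0 (a - κ / 6 - 8 / 3 * (y₁ + y₂)) := mul_nonneg hg hM0
  have hdk : 0 ≤ d * κ := mul_nonneg hd hκ
  have fin : ∀ m₀ a₀ : ℝ, 0 ≤ m₀ → m₀ ≤ m → 0 ≤ a₀ → a₀ ≤ a →
      5 * κ ≤ 6 * (y₁ + y₂ + m₀ + a₀) →
      r κ {y₁, y₂} m₀ a₀ ≤ κ + (y₁ + y₂ + m₀ + a₀) + (e * κ +
        (1 / 4 - 2 * d) * max 0 (a - κ / 6 - 8 / 3 * (y₁ + y₂))) →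
      r κ {y₁, y₂} m a ≤ max (5 / 3 * (y₁ + y₂ + m + a) + 4 / 9 * κ +
        (e * κ + (1 / 4 - 2 * d) * max 0 (a - κ / 6 - 8 / 3 * (y₁ + y₂))))
      ((7 / 4 + 2 * d) * (y₁ + y₂ + m + a) + 1 / 3 * κ) := by
    intro m₀ a₀ hm0 hmm ha0 haa h5 hr
    have := L.lb (e * κ + (1 / 4 - 2 * d) * max 0 (a - κ / 6 - 8 / 3 * (y₁ + y₂))) κ {y₁, y₂}
      m a m₀ a₀ (by linarith) hκ (ok_pair h1 h2 hm ha) (le_pair hy1 hy2) hm0 hmm ha0 haa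
      (by rw [sum_pair]; linarith) (by rw [sum_pair]; linarith)
      (by intro _; rw [sum_pair]; linarith)
    rw [sum_pair] at this
    refine this.trans (max_le_max le_rfl ?_)
    linarith
  rcases le_total (6 * (y₁ + y₂)) (5 * κ) with h | h
  · set m₀ := min m (5 / 6 * κ - (y₁ + y₂)) with hm₀
    have hm0 : 0 ≤ m₀ := le_min hm (by linarith)
    have hmm : m₀ ≤ m := min_le_left _ _
    have hm56 : m₀ ≤ 5 / 6 * κ - (y₁ + y₂) := min_le_right _ _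
    have ha0 : 5 / 6 * κ - (y₁ + y₂) - m₀ ≤ a := by
      rcases le_total m (5 / 6 * κ - (y₁ + y₂)) with h' | h'
      · rw [hm₀, min_eq_left h']; linarith
      · rw [hm₀, min_eq_right h']; linarith
    refine fin m₀ (5 / 6 * κ - (y₁ + y₂) - m₀) hm0 hmm (by linarith) ha0 (by linarith) ?_
    have hb := H κ y₁ y₂ m₀ (5 / 6 * κ - (y₁ + y₂) - m₀) hκ h1 h2 hm0 (by linarith)
      (by linarith) κ hy1 hy2 hκ le_rfl
    have hmono : max 0 (5 / 6 * κ - (y₁ + y₂) - m₀ -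
        (κ - (y₁ + y₂ + m₀ + (5 / 6 * κ - (y₁ + y₂) - m₀))) - 8 / 3 * (y₁ + y₂)) ≤
        max 0 (a - κ / 6 - 8 / 3 * (y₁ + y₂)) := max_le_max le_rfl (by linarith)
    have := mul_le_mul_of_nonneg_left hmono hg
    linarith
  · exact fin 0 0 le_rfl hm le_rfl ha (by linarith) (by linarith)

/-- data of one column after removing `X`, `|X| = x = (1-z) κ - n₁` -/
structure CD (d κ n n₁ z p c l a₃ i w Pt F₀ e : ℝ) : Prop where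
  hd : 0 ≤ d
  hd8 : d ≤ 1 / 8
  he : 0 ≤ e
  hκ : 0 ≤ κ
  hz : 0 ≤ z
  hz' : 18 * z ≤ 1
  hn : 6 * n ≤ 5 * κ
  hw : w = n - n₁
  hw0 : 0 ≤ w
  hc : 0 ≤ c
  hcp : c ≤ p
  hl : l ≤ 2 * n₁ - κ + z * κ - (p - c)
  ha0 : 0 ≤ a₃
  ha : a₃ ≤ Pt + 8 / 3 * p + 5 / 3 * w
  hal : a₃ ≤ l - c
  hPt : 0 ≤ Pt
  hi0 : 0 ≤ i
  hi : i ≤ 3 * n₁ - 2 * κ + 3 * (z * κ)
  hF0 : 0 ≤ F₀
  hF1 : (1 / 2 + 3 * z) * e * κ ≤ F₀
  hF2 : (4 / 3 * d - z * (1 / 4 - 2 * d)) * κ - (1 / 2 + 4 * d) * (5 / 6 * κ - n) ≤ F₀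

variable {κ n n₁ z p c l a₃ i w Pt F₀ e : ℝ}

theorem CD.ei (D : CD d κ n n₁ z p c l a₃ i w Pt F₀ e) : e * i ≤ F₀ := by
  obtain ⟨hd, hd8, he, hκ, hz, hz', hn, hw, hw0, hc, hcp, hl, ha0, ha, hal, hPt, hi0, hi, hF0,
    hF1, hF2⟩ := D
  have h1 : i ≤ (1 / 2 + 3 * z) * κ := by linarith
  have h2 := mul_le_mul_of_nonneg_left h1 he
  linarith [mul_assoc (1 / 2 + 3 * z) e κ, mul_comm (1 / 2 + 3 * z) e]

theorem CD.E2 (D : CD d κ n n₁ z p c l a₃ i w Pt F₀ e) :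
    (7 / 4 + 2 * d) * l + 1 / 3 * i ≤
      l + (2 * κ + i) / 3 - ((1 - z) * κ - n₁) + (F₀ + (1 / 4 - 2 * d) * Pt) := by
  obtain ⟨hd, hd8, he, hκ, hz, hz', hn, hw, hw0, hc, hcp, hl, ha0, ha, hal, hPt, hi0, hi, hF0,
    hF1, hF2⟩ := D
  have hg : 0 ≤ (1 / 4 - 2 * d) * Pt := mul_nonneg (by linarith) hPt
  have h1 : (3 / 4 + 2 * d) * l ≤ (3 / 4 + 2 * d) * (2 * n₁ - κ + z * κ) :=
    mul_le_mul_of_nonneg_left (by linarith) (by linarith)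
  have h2 : d * n₁ ≤ d * n := mul_le_mul_of_nonneg_left (by linarith) hd
  linarith

theorem CD.E1 (D : CD d κ n n₁ z p c l a₃ i w Pt F₀ e) :
    5 / 3 * l + 4 / 9 * i + (e * i + (1 / 4 - 2 * d) * max 0 (a₃ - i / 6 - 8 / 3 * c)) ≤
      l + (2 * κ + i) / 3 - ((1 - z) * κ - n₁) + (F₀ + (1 / 4 - 2 * d) * Pt) := by
  have hei := D.ei
  obtain ⟨hd, hd8, he, hκ, hz, hz', hn, hw, hw0, hc, hcp, hl, ha0, ha, hal, hPt, hi0, hi, hF0,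
    hF1, hF2⟩ := D
  have hM : max 0 (a₃ - i / 6 - 8 / 3 * c) ≤ Pt + (8 / 3 * (p - c) + 5 / 3 * w) :=
    max_le (by linarith) (by linarith)
  have h1 := mul_le_mul_of_nonneg_left hM (show 0 ≤ 1 / 4 - 2 * d by linarith)
  have h2 : (1 / 4 - 2 * d) * (8 / 3 * (p - c) + 5 / 3 * w) ≤
      1 / 4 * (8 / 3 * (p - c) + 5 / 3 * w) :=
    mul_le_mul_of_nonneg_right (by linarith) (by linarith)
  linarith

theorem CD.ID (D : CD d κ n n₁ z p c l a₃ i w Pt F₀ e) (h56 : 6 * l ≤ 5 * i) :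
    i + l + e * i + (1 / 4 - 2 * d) * max 0 (a₃ - (i - l) - 8 / 3 * c) ≤
      l + (2 * κ + i) / 3 - ((1 - z) * κ - n₁) + (F₀ + (1 / 4 - 2 * d) * Pt) := by
  have hei := D.ei
  obtain ⟨hd, hd8, he, hκ, hz, hz', hn, hw, hw0, hc, hcp, hl, ha0, ha, hal, hPt, hi0, hi, hF0,
    hF1, hF2⟩ := D
  have hzκ : 18 * (z * κ) ≤ κ := by
    have := mul_le_mul_of_nonneg_right hz' hκ
    linarith
  have hzκ0 : 0 ≤ z * κ := mul_nonneg hz hκ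
  have hgPt : 0 ≤ (1 / 4 - 2 * d) * Pt := mul_nonneg (by linarith) hPt
  rcases le_total (a₃ - (i - l) - 8 / 3 * c) 0 with h0 | h0
  · rw [max_eq_left h0]
    linarith
  · rw [max_eq_right h0]
    -- two bounds for the excess
    have b1 : a₃ - (i - l) - 8 / 3 * c - Pt ≤ 8 / 3 * (p - c) + 5 / 3 * w := by linarith
    have b2 : a₃ - (i - l) - 8 / 3 * c - Pt ≤ (2 * n₁ - κ + z * κ) - p - i / 6 := by linarith
    have b3 : a₃ - (i - l) - 8 / 3 * c - Pt ≤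
        8 / 11 * (2 * n₁ - κ + z * κ) + 5 / 11 * w - 4 / 33 * i := by linarith
    rcases le_total (a₃ - (i - l) - 8 / 3 * c - Pt) 0 with h1 | h1
    · have h2 : (1 / 4 - 2 * d) * (a₃ - (i - l) - 8 / 3 * c - Pt) ≤ 0 :=
        mul_nonpos_of_nonneg_of_nonpos (by linarith) h1
      linarith
    · have h2 : (1 / 4 - 2 * d) * (a₃ - (i - l) - 8 / 3 * c - Pt) ≤
          1 / 4 * (a₃ - (i - l) - 8 / 3 * c - Pt) :=
        mul_le_mul_of_nonneg_right (by linarith) h1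
      linarith

theorem CD.CU (D : CD d κ n n₁ z p c l a₃ i w Pt F₀ e) :
    (7 / 4 + 2 * d) * (l - c) + (1 / 4 - 2 * d) * a₃ ≤
      l + 2 / 3 * κ - ((1 - z) * κ - n₁) + (F₀ + (1 / 4 - 2 * d) * Pt) := by
  obtain ⟨hd, hd8, he, hκ, hz, hz', hn, hw, hw0, hc, hcp, hl, ha0, ha, hal, hPt, hi0, hi, hF0,
    hF1, hF2⟩ := D
  have h1 : (3 / 4 + 2 * d) * l ≤ (3 / 4 + 2 * d) * (2 * n₁ - κ + z * κ - (p - c)) :=
    mul_le_mul_of_nonneg_left hl (by linarith)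
  have h2 : d * n₁ ≤ d * n := mul_le_mul_of_nonneg_left (by linarith) hd
  have h3 := mul_le_mul_of_nonneg_left ha (show 0 ≤ 1 / 4 - 2 * d by linarith)
  have h4 : 0 ≤ d * p := mul_nonneg hd (by linarith)
  have h5 : 0 ≤ d * w := mul_nonneg hd hw0
  linarith

/-- one side, one step: from `HH2 e` for the columns to the side `V + {y₁,y₂ | m, a}` -/
theorem stepA (R : ExpRules (7 / 8 + d) r s) (L : ExpLB (7 / 8 + d) r) (hd : 0 ≤ d)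
    (hd8 : d ≤ 1 / 8) {z : ℝ} (hz : 0 ≤ z) (hz' : 18 * z ≤ 1) {e : ℝ} (he : 0 ≤ e)
    (H : HH2 d r e) {κ y₁ y₂ m a F₀ : ℝ} {V : Multiset ℝ}
    (hκ0 : 0 ≤ κ) (h1 : 0 ≤ y₁) (h2 : 0 ≤ y₂) (hm : 0 ≤ m) (ha : 0 ≤ a)
    (hV : ∀ y ∈ V, 0 ≤ y) (hn56 : 6 * (V.sum + y₁ + y₂ + m + a) ≤ 5 * κ)
    (hVa : V.sum ≤ (1 - z) * κ - (V.sum + y₁ + y₂ + m + a))
    (hF0 : 0 ≤ F₀) (hF1 : (1 / 2 + 3 * z) * e * κ ≤ F₀)
    (hF2 : (4 / 3 * d - z * (1 / 4 - 2 * d)) * κ -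
      (1 / 2 + 4 * d) * (5 / 6 * κ - (V.sum + y₁ + y₂ + m + a)) ≤ F₀) :
    ∀ κ' : ℝ, 0 ≤ κ' → κ' ≤ κ →
      r κ' (V + {y₁, y₂}) m a + (κ - κ') / 3 ≤ κ + (V.sum + y₁ + y₂ + m + a) +
        (F₀ + (1 / 4 - 2 * d) *
          max 0 (a + V.sum - (κ - (V.sum + y₁ + y₂ + m + a)) + z * κ - 8 / 3 * (y₁ + y₂))) := by
  have hV0 : 0 ≤ V.sum := Multiset.sum_nonneg hV
  have hsum : (V + {y₁, y₂}).sum = V.sum + (y₁ + y₂) := by rw [Multiset.sum_add, sum_pair]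
  set n := V.sum + y₁ + y₂ + m + a with hn
  set Pt := max 0 (a + V.sum - (κ - n) + z * κ - 8 / 3 * (y₁ + y₂)) with hPt
  have hPt0 : 0 ≤ Pt := le_max_left _ _
  have hPt1 : a + V.sum - (κ - n) + z * κ - 8 / 3 * (y₁ + y₂) ≤ Pt := le_max_right _ _
  have hg : 0 ≤ 1 / 4 - 2 * d := by linarith
  have hgPt : 0 ≤ (1 / 4 - 2 * d) * Pt := mul_nonneg hg hPt0
  have hzκ : 0 ≤ z * κ := mul_nonneg hz hκ0
  have hok : Ok (V + {y₁, y₂}) m a := by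
    refine ⟨fun y hy => ?_, hm, ha⟩
    rcases Multiset.mem_add.1 hy with h | h
    · exact hV y h
    · exact nn_pair h1 h2 y h
  have key := side_of_cols R (κ := κ) (m := m) (a := a) (F := F₀ + (1 / 4 - 2 * d) * Pt)
    (Y := V + {y₁, y₂}) hκ0 hok (by linarith) (by rw [hsum]; linarith) ?_
  · intro κ' h0 h1'
    have := key κ' h0 h1'
    rw [hsum] at this
    linarith
  intro Y₁ m₁ a₁ hY₁ hm0 hm1 ha0 ha1 hn1
  obtain ⟨V', Z, rfl, hV', hZ⟩ := hY₁.of_add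
  obtain ⟨p₁, p₂, rfl, hp1, hp1', hp2, hp2'⟩ := hZ.pair
  have hVs := hV'.sum_le
  have hV's := hV'.sum_nonneg
  have hsum' : (V' + {p₁, p₂}).sum = V'.sum + (p₁ + p₂) := by rw [Multiset.sum_add, sum_pair]
  rw [hsum'] at hn1 ⊢
  set n₁ := V'.sum + (p₁ + p₂) + m₁ + a₁ with hn₁
  set X₀ := (1 - z) * κ - n₁ - V'.sum with hX₀
  have hX0 : 0 ≤ X₀ := by linarith
  rcases le_or_gt (a₁ + m₁) X₀ with hc | hc
  · -- everything granular goes out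
    refine ⟨V', {p₁, p₂}, m₁, a₁, rfl, hm0, le_rfl, ha0, le_rfl, by linarith, ?_, ?_⟩
    · intro Z' m' a' i hZ' hm' hm'' ha' ha'' hi hyi hii
      obtain ⟨c₁, c₂, rfl, hc1, hc1', hc2, hc2'⟩ := hZ'.pair
      have hm'0 : m' = 0 := le_antisymm (by linarith) hm'
      have ha'0 : a' = 0 := le_antisymm (by linarith) ha'
      subst hm'0; subst ha'0
      rw [sum_pair]
      have := R.tf i c₁ c₂ hc1 hc2 (hyi c₁ (by simp)) (hyi c₂ (by simp))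
      linarith
    · intro Z' m' a' hZ' hm' hm'' ha' ha'' hi
      have hm'0 : m' = 0 := le_antisymm (by linarith) hm'
      have ha'0 : a' = 0 := le_antisymm (by linarith) ha'
      subst hm'0; subst ha'0
      have := hZ'.sum_nonneg
      linarith
  · -- exact `x`
    set b' := min a₁ X₀ with hb'
    have hb'0 : 0 ≤ b' := le_min ha0 hX0
    have hb'1 : b' ≤ a₁ := min_le_left _ _
    have hb'2 : b' ≤ X₀ := min_le_right _ _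
    have hbm : X₀ - b' ≤ m₁ := by
      rcases le_total a₁ X₀ with h | h
      · rw [hb', min_eq_left h]; linarith
      · rw [hb', min_eq_right h]; linarith
    have hrest : a₁ - b' ≤ Pt + 8 / 3 * (p₁ + p₂) + 5 / 3 * (n - n₁) := by
      have hnn : y₁ + y₂ ≤ (p₁ + p₂) + (n - n₁) := by linarith
      have hnn0 : 0 ≤ n - n₁ := by linarith
      rcases le_total a₁ X₀ with h | h
      · rw [hb', min_eq_left h]
        linarith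
      · rw [hb', min_eq_right h]
        linarith
    have hxe : V'.sum + (X₀ - b') + b' = (1 - z) * κ - n₁ := by rw [hX₀]; ring
    refine ⟨V', {p₁, p₂}, X₀ - b', b', rfl, by linarith, hbm, hb'0, hb'1, by linarith, ?_⟩
    rw [hxe]
    have mk : ∀ c₁ c₂ m' a' i : ℝ, 0 ≤ c₁ → c₁ ≤ p₁ → 0 ≤ c₂ → c₂ ≤ p₂ → 0 ≤ m' →
        m' ≤ m₁ - (X₀ - b') → 0 ≤ a' → a' ≤ a₁ - b' → 0 ≤ i → i ≤ κ - 3 * ((1 - z) * κ - n₁) →
        CD d κ n n₁ z (p₁ + p₂) (c₁ + c₂) (c₁ + c₂ + m' + a') a' i (n - n₁) Pt F₀ e := by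
      intro c₁ c₂ m' a' i hc1 hc1' hc2 hc2' hm' hm'' ha' ha'' hi hi'
      exact
        { hd := hd, hd8 := hd8, he := he, hκ := hκ0, hz := hz, hz' := hz', hn := hn56
          hw := rfl, hw0 := by linarith, hc := by linarith, hcp := by linarith
          hl := by linarith, ha0 := ha', ha := by linarith, hal := by linarith
          hPt := hPt0, hi0 := hi, hi := by linarith, hF0 := hF0, hF1 := hF1, hF2 := hF2 }
    refine ⟨?_, ?_⟩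
    · intro Z' m' a' i hZ' hm' hm'' ha' ha'' hi hyi hii
      obtain ⟨c₁, c₂, rfl, hc1, hc1', hc2, hc2'⟩ := hZ'.pair
      rw [sum_pair]
      have D := mk c₁ c₂ m' a' i hc1 hc1' hc2 hc2' hm' hm'' ha' ha'' hi hii
      have hk1 : c₁ ≤ i := hyi c₁ (by simp)
      have hk2 : c₂ ≤ i := hyi c₂ (by simp)
      rcases le_or_gt (5 * i) (6 * (c₁ + c₂ + m' + a')) with h56 | h56
      · refine (lb2 R L hd hd8 he H hi hc1 hc2 hm' ha' hk1 hk2 h56).trans (max_le ?_ ?_)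
        · exact D.E1
        · exact D.E2
      · have hH := H i c₁ c₂ m' a' hi hc1 hc2 hm' ha' h56.le i hk1 hk2 hi le_rfl
        have := D.ID h56.le
        linarith
    · intro Z' m' a' hZ' hm' hm'' ha' ha'' hi
      obtain ⟨c₁, c₂, rfl, hc1, hc1', hc2, hc2'⟩ := hZ'.pair
      rw [sum_pair]
      have D := mk c₁ c₂ m' a' 0 hc1 hc1' hc2 hc2' hm' hm'' ha' ha'' le_rfl (by linarith)
      have := D.CU
      linarith

/-- one round of the fixpoint argument (`z = 0`) -/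
theorem round (R : ExpRules (7 / 8 + d) r s) (L : ExpLB (7 / 8 + d) r) (hd : 0 ≤ d)
    (hd8 : d ≤ 1 / 8) {e : ℝ} (he : 0 ≤ e) (H : HH2 d r e) :
    HH2 d r (max (e / 2) (4 / 3 * d)) := by
  intro κ y₁ y₂ m a hκ0 h1 h2 hm ha hn κ' _ _ hκ' hκ
  set e' := max (e / 2) (4 / 3 * d) with he'
  have he1 : e / 2 ≤ e' := le_max_left _ _
  have he2 : 4 / 3 * d ≤ e' := le_max_right _ _
  have he0 : 0 ≤ e' := le_trans (by positivity) he1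
  have heκ : 0 ≤ e' * κ := mul_nonneg he0 hκ0
  have e2 : 0 ≤ (1 / 2 + 4 * d) * (5 / 6 * κ - (y₁ + y₂ + m + a)) :=
    mul_nonneg (by linarith) (by linarith)
  have e3 := mul_le_mul_of_nonneg_right he1 hκ0
  have e4 := mul_le_mul_of_nonneg_right he2 hκ0
  have := stepA R L hd hd8 (z := 0) le_rfl (by norm_num) he H (κ := κ) (y₁ := y₁) (y₂ := y₂)
    (m := m) (a := a) (F₀ := e' * κ)
    (V := 0) hκ0 h1 h2 hm ha (by simp) (by rw [Multiset.sum_zero]; linarith)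
    (by rw [Multiset.sum_zero]; linarith) heκ (by linarith) (by
      rw [Multiset.sum_zero]
      linarith) κ' hκ' hκ
  rw [Multiset.sum_zero, zero_add, add_zero, zero_mul, zero_add, add_zero] at this
  linarith

theorem HH2.mono {e e' : ℝ} (hee : e ≤ e') (h : HH2 d r e) : HH2 d r e' := by
  intro κ y₁ y₂ m a hκ0 h1 h2 hm ha hn κ' hy1 hy2 hκ' hκ
  have := h κ y₁ y₂ m a hκ0 h1 h2 hm ha hn κ' hy1 hy2 hκ' hκ
  have := mul_le_mul_of_nonneg_right hee hκ0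
  linarith

/-- starting point: the large sieve -/
theorem HH2.start (R : ExpRules θ r s) (hd8 : d ≤ 1 / 8) : HH2 d r 2 := by
  intro κ y₁ y₂ m a hκ0 h1 h2 hm ha hn κ' _ _ hκ' hκ
  have := R.hbC κ' {y₁, y₂} m a hκ' (ok_pair h1 h2 hm ha)
  rw [sum_pair] at this
  have h3 : r κ' {y₁, y₂} m a ≤
      2 * κ + (y₁ + y₂ + m + a) + (2 / 3) * κ + (κ' - κ) / 3 := by
    refine this.trans (max_le ?_ (max_le ?_ ?_)) <;> linarith
  have h4 : 0 ≤ (1 / 4 - 2 * d) *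
      max 0 (a - (κ - (y₁ + y₂ + m + a)) - 8 / 3 * (y₁ + y₂)) :=
    mul_nonneg (by linarith) (le_max_left _ _)
  linarith

/-- **the limit of the rounds** -/
theorem side_lb (R : ExpRules (7 / 8 + d) r s) (L : ExpLB (7 / 8 + d) r) (hd : 0 ≤ d)
    (hd8 : d ≤ 1 / 8) : HH2 d r (4 / 3 * d) := by
  have iter : ∀ n : ℕ, HH2 d r (4 / 3 * d + (1 / 2) ^ n * 2) := by
    intro n
    induction n with
    | zero =>
      refine HH2.mono ?_ (HH2.start R hd8)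
      simp only [pow_zero, one_mul]
      linarith
    | succ n ih =>
      have hp : 0 ≤ (1 / 2 : ℝ) ^ n * 2 := by positivity
      refine HH2.mono ?_ (round R L hd hd8 (by linarith) ih)
      rw [pow_succ]
      exact max_le (by linarith) (by linarith)
  intro κ y₁ y₂ m a hκ0 h1 h2 hm ha hn κ' hy1 hy2 hκ' hκ
  refine le_of_forall_pos_le_add ?_
  intro ε hε
  have hpos : 0 < ε / (2 * κ + 1) := by positivity
  obtain ⟨n, hn'⟩ := exists_pow_lt_of_lt_one hpos (by norm_num : (1 / 2 : ℝ) < 1)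
  have h3 := iter n κ y₁ y₂ m a hκ0 h1 h2 hm ha hn κ' hy1 hy2 hκ' hκ
  have h4 : (1 / 2 : ℝ) ^ n * 2 * κ ≤ ε := by
    have h5 : (1 / 2 : ℝ) ^ n * (2 * κ) ≤ ε / (2 * κ + 1) * (2 * κ) :=
      mul_le_mul_of_nonneg_right hn'.le (by positivity)
    have h6 : ε / (2 * κ + 1) * (2 * κ) ≤ ε / (2 * κ + 1) * (2 * κ + 1) :=
      mul_le_mul_of_nonneg_left (by linarith) hpos.le
    have h7 : ε / (2 * κ + 1) * (2 * κ + 1) = ε := by
      have : 2 * κ + 1 ≠ 0 := by positivity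
      field_simp
    linarith [mul_assoc ((1 / 2 : ℝ) ^ n) 2 κ]
  have h8 : (4 / 3 * d + (1 / 2) ^ n * 2) * κ = 4 / 3 * d * κ + (1 / 2) ^ n * 2 * κ := by ring
  linarith

/-- **T1** : `V` arbitrary lumps; `n` the total length, `6 n ≤ 5 κ`, `V.sum ≤ (1-z) κ - n`,
`0 ≤ z ≤ 1/18`. -/
theorem T1 (R : ExpRules (7 / 8 + d) r s) (L : ExpLB (7 / 8 + d) r) (hd : 0 ≤ d)
    (hd8 : d ≤ 1 / 8) {z : ℝ} (hz : 0 ≤ z) (hz' : 18 * z ≤ 1) {κ y₁ y₂ m a : ℝ}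
    {V : Multiset ℝ} (hκ0 : 0 ≤ κ) (h1 : 0 ≤ y₁) (h2 : 0 ≤ y₂) (hm : 0 ≤ m) (ha : 0 ≤ a)
    (hV : ∀ y ∈ V, 0 ≤ y) (hn56 : 6 * (V.sum + y₁ + y₂ + m + a) ≤ 5 * κ)
    (hVa : V.sum ≤ (1 - z) * κ - (V.sum + y₁ + y₂ + m + a)) :
    ∀ κ' : ℝ, 0 ≤ κ' → κ' ≤ κ →
      r κ' (V + {y₁, y₂}) m a + (κ - κ') / 3 ≤ κ + (V.sum + y₁ + y₂ + m + a) +
        (max ((1 / 2 + 3 * z) * (4 / 3 * d) * κ)
          ((4 / 3 * d - z * (1 / 4 - 2 * d)) * κ -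
            (1 / 2 + 4 * d) * (5 / 6 * κ - (V.sum + y₁ + y₂ + m + a))) +
          (1 / 4 - 2 * d) *
          max 0 (a + V.sum - (κ - (V.sum + y₁ + y₂ + m + a)) + z * κ - 8 / 3 * (y₁ + y₂))) := by
  have H := side_lb R L hd hd8
  refine stepA R L hd hd8 hz hz' (by positivity) H hκ0 h1 h2 hm ha hV hn56 hVa
    (le_trans (by positivity) (le_max_left _ _)) (le_max_left _ _) (le_max_right _ _)

end Crest.Agent.R017.ER911
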