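import Crest.Agent.R017.Nz_59
import Crest.Agent.R017.SideD_777
import Crest.Agent.R017.SideA_911
import Crest.Agent.R017.ExpCdef_702
import Crest.Agent.R017.CovM_59

/-!
# Row 17, section D: granular columns (helper59)

* `col_of_compl` : a column from the complete form of a side theorem
* `void_le`, `col_void` : `{ | m, a}`, `m + a ≤ 2/3`, loss `0`
* `k0_le`, `col_K0` : `{ | 2/3, 1/6 - t/2}`, loss `4/3 d - t/2`
-/

set_option autoImplicit false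

noncomputable section

namespace Crest.Agent.R017.ColG59

open Crest.Agent.R017.ER911 Crest.Agent.R017.Hull741 Crest.Agent.R017.CovM59
open Crest.Agent.R017.SC777 Crest.Agent.R017.Nz59 Crest.Agent.R017.ExpC702

theorem sum_lum {N : ℕ} (u : Fin N → ℝ) (n : Fin N → ℕ) :
    (∑ j, Multiset.replicate (n j) (u j)).sum = ∑ j, (n j : ℝ) * u j := by
  rw [← Multiset.coe_sumAddMonoidHom, map_sum]
  refine Finset.sum_congr rfl fun j _ => ?_
  rw [Multiset.coe_sumAddMonoidHom, Multiset.sum_replicate, nsmul_eq_mul]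

/-- the complete form of a side (702) -/
def Compl (r : EF) (e₀ : ℝ) (Y : Multiset ℝ) (f g : ℝ) : Prop :=
  ∀ κ' : ℝ, 0 ≤ κ' → κ' ≤ 1 → r κ' Y f g + (1 - κ') / 3 ≤ 1 + (Y.sum + f + g) + e₀

theorem Compl.mono {r : EF} {e₀ e₁ : ℝ} {Y : Multiset ℝ} {f g : ℝ} (h : Compl r e₀ Y f g)
    (he : e₀ ≤ e₁) : Compl r e₁ Y f g := fun κ' h0 h1 => by linarith [h κ' h0 h1]

theorem Compl.ideal {r rc : EF} (C : ExpC r rc) {N : ℕ} {u : Fin N → ℝ} (hu : ∀ j, 0 ≤ u j)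
    {n : Fin N → ℕ} {e₀ f g : ℝ} (hf : 0 ≤ f) (hg : 0 ≤ g)
    (h : Compl r e₀ (∑ j, Multiset.replicate (n j) (u j)) f g) : Ideal rc 1 u e₀ n f g := by
  refine ⟨hf, hg, ?_⟩
  have hok : Ok (∑ j, Multiset.replicate (n j) (u j)) f g := by
    refine ⟨fun y hy => ?_, hf, hg⟩
    obtain ⟨j, _, hj⟩ := Multiset.mem_sum.1 hy
    rw [Multiset.eq_of_mem_replicate hj]; exact hu j
  have := C.le 1 _ f g (1 + ((∑ j, Multiset.replicate (n j) (u j)).sum + f + g) + e₀)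
    zero_le_one hok h
  rw [sum_lum] at this
  exact this

/-- **a column from complete sides** -/
theorem col_of_compl {r rc : EF} (C : ExpC r rc) {N : ℕ} {u : Fin N → ℝ} (hu : ∀ j, 0 ≤ u j)
    {n : Fin N → ℕ} {e₀ M A : ℝ} (hM : 0 ≤ M) (hA : 0 ≤ A)
    (h : ∀ f g : ℝ, 0 ≤ f → 0 ≤ g → f + g ≤ M + A → f + 2 * g ≤ M + 2 * A →
      Compl r e₀ (∑ j, Multiset.replicate (n j) (u j)) f g) : Col rc e₀ u n M A :=
  Col.of_two hM hA fun f g hf hg h1 h2 => Compl.ideal C hu hf hg (h f g hf hg h1 h2)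

theorem Col.mono {N : ℕ} {r : EF} {e₀ e₁ : ℝ} {u : Fin N → ℝ} {n : Fin N → ℕ} {M A : ℝ}
    (h : Col r e₀ u n M A) (he : e₀ ≤ e₁) : Col r e₁ u n M A :=
  ⟨h.1, h.2.1, fun f g hf hg h1 h2 => by
    obtain ⟨a1, a2, a3⟩ := h.2.2 f g hf hg h1 h2
    exact ⟨a1, a2, by linarith⟩⟩

variable {r s rc : EF}

/-- `{ | m, a}`, `m + a ≤ 2/3`, is ideal without loss -/
theorem void_le {θ : ℝ} (hθ : 1 / 2 ≤ θ) (hθ1 : θ ≤ 1) (R : ExpRules θ r s) {m a : ℝ}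
    (hm : 0 ≤ m) (ha : 0 ≤ a) (h : m + a ≤ 2 / 3) : Compl r 0 0 m a := by
  have key := side_xi R (κ := 1) (ξ := 1 / 3) (m := m / 2) (b := m / 2) (a := a / 2)
    (b' := a / 2) (F := 0) (V := 0) (Z := 0) zero_le_one (by simp) (by simp) (by linarith)
    (by linarith) (by linarith) (by linarith) le_rfl
    (by rw [Multiset.sum_zero]; linarith) (by rw [Multiset.sum_zero]; linarith)
    { col := ?_, cube := ?_ }
  · intro κ' h0 h1
    have := key κ' h0 h1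
    simp only [Multiset.sum_zero, add_zero, add_halves] at this ⊢
    linarith
  · intro Z' m' a' i hZ hm0 hm1 ha0 ha1 hi _ hii
    have hZ0 : Z' = 0 := Sh.zero hZ
    subst hZ0
    have hi0 : i = 0 := by linarith
    subst hi0
    have := R.hbC 0 0 m' a' le_rfl ⟨by simp, hm0, ha0⟩
    rw [Multiset.sum_zero] at this ⊢
    refine this.trans (max_le ?_ (max_le ?_ ?_)) <;> linarith
  · intro Z' m' a' hZ hm0 hm1 ha0 ha1 _
    have hZ0 : Z' = 0 := Sh.zero hZ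
    subst hZ0
    rw [Multiset.sum_zero]
    nlinarith

/-- the empty column with `M = 2/3` replaced by any split -/
theorem col_void {θ : ℝ} (hθ : 1 / 2 ≤ θ) (hθ1 : θ ≤ 1) (R : ExpRules θ r s) (C : ExpC r rc)
    {N : ℕ} {u : Fin N → ℝ} (hu : ∀ j, 0 ≤ u j) {e₀ M A : ℝ} (he : 0 ≤ e₀) (hM : 0 ≤ M)
    (hA : 0 ≤ A) (h : M + A ≤ 2 / 3) : Col rc e₀ u (fun _ => 0) M A := by
  refine col_of_compl C hu hM hA fun f g hf hg h1 _ => ?_
  have h2 : (∑ j, Multiset.replicate 0 (u j)) = (0 : Multiset ℝ) := by simp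
  rw [h2]
  exact (void_le hθ hθ1 R hf hg (h1.trans h)).mono he

/-- **K0** : `{ | f, g}` with `f + g ≤ 5/6 - t/2`, `f + 2 g ≤ 1 - t` -/
theorem k0_le {d : ℝ} (R : ExpRules (7 / 8 + d) r s) (L : ExpLB (7 / 8 + d) r) (hd : 0 ≤ d)
    (hd8 : d ≤ 1 / 8) {t : ℝ} (ht : 0 ≤ t) (ht18 : 18 * t ≤ 1)
    (htd : 5 * t ≤ 2 * d) {f g : ℝ} (hf : 0 ≤ f) (hg : 0 ≤ g)
    (h1 : f + g ≤ 5 / 6 - t / 2) (h2 : f + 2 * g ≤ 1 - t) :
    Compl r (4 / 3 * d - t / 2) 0 f g := by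
  have H := T1 (Nz59.rules R) (Nz59.lb L) hd hd8 ht ht18 (κ := 1) (y₁ := 0) (y₂ := 0) (m := f)
    (a := g) (V := 0) zero_le_one le_rfl le_rfl hf hg (by simp)
    (by rw [Multiset.sum_zero]; linarith) (by rw [Multiset.sum_zero]; linarith)
  intro κ' h0 h1'
  have h3 := H κ' h0 h1'
  have e1 : rz r κ' (0 + {0, 0}) f g = r κ' 0 f g := by
    show r κ' (nz (0 + {0, 0})) f g = _
    rw [zero_add, Multiset.insert_eq_cons, nz_cons_zero,
      show ({0} : Multiset ℝ) = 0 ::ₘ 0 from rfl, nz_cons_zero, nz_zero]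
  rw [e1] at h3
  simp only [Multiset.sum_zero] at h3 ⊢
  have e2 : max 0 (g + 0 - (1 - (0 + 0 + 0 + f + g)) + t * 1 - 8 / 3 * (0 + 0)) = 0 :=
    max_eq_left (by linarith)
  rw [e2] at h3
  have e3 : max ((1 / 2 + 3 * t) * (4 / 3 * d) * 1)
      ((4 / 3 * d - t * (1 / 4 - 2 * d)) * 1 -
        (1 / 2 + 4 * d) * (5 / 6 * 1 - (0 + 0 + 0 + f + g))) ≤ 4 / 3 * d - t / 2 := by
    refine max_le ?_ ?_
    · nlinarith
    · have : 0 ≤ (1 / 2 + 4 * d) * (5 / 6 - t / 2 - (f + g)) :=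
        mul_nonneg (by linarith) (by linarith)
      nlinarith
  linarith

theorem col_K0 {d : ℝ} (R : ExpRules (7 / 8 + d) r s) (L : ExpLB (7 / 8 + d) r)
    (C : ExpC r rc) (hd : 0 ≤ d) (hd8 : d ≤ 1 / 8) {t : ℝ} (ht : 0 ≤ t) (ht18 : 18 * t ≤ 1)
    (htd : 5 * t ≤ 2 * d) {N : ℕ} {u : Fin N → ℝ} (hu : ∀ j, 0 ≤ u j) :
    Col rc (4 / 3 * d - t / 2) u (fun _ => 0) (2 / 3) (1 / 6 - t / 2) := by
  refine col_of_compl C hu (by norm_num) (by linarith) fun f g hf hg h1 h2 => ?_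
  have h3 : (∑ j, Multiset.replicate 0 (u j)) = (0 : Multiset ℝ) := by simp
  rw [h3]
  exact k0_le R L hd hd8 ht ht18 htd hf hg (by linarith) (by linarith)

end Crest.Agent.R017.ColG59
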