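import Crest.Agent.R017.C1step_744
import Crest.Agent.R017.ColG_59

/-!
# Row 17, section D, C1: the columns of one small lump (helper645)

Everything in terms of 744's `Sid r κ q w h F` (all sides with `q` lumps `≤ w`, granular mass
`≤ h`), loss `F = (4/3 d - μ) κ`.

* `Win r κ w F` : two consecutive numbers of lumps `q`, `q + 1`, whose mixture of mean `2/3 κ` has
  mean total `≥ 5/6 κ`.
* `Inp r d μ` : the base windows, `50/7 ≤ κ/w < 13.5`.
* `win_all` : `Inp` and STEP3 give `Win` for all `κ ≥ 50/7 w`.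
* `ey` : for `0 < y ≤ 7/50` the point `(2/(3 y) copies of y; 0; 1/6 - t/2)` is in `Hull (Col rc e₀)`.
-/

set_option autoImplicit false

noncomputable section

namespace Crest.Agent.R017.Ey645

open Crest.Agent.R017.ER911 Crest.Agent.R017.Hull741 Crest.Agent.R017.CovM59
open Crest.Agent.R017.SC777 Crest.Agent.R017.ExpC702 Crest.Agent.R017.ColG59
open Crest.Agent.R017.C1S744

variable {r s rc : EF}

theorem Sid.mono_h {κ w h h' F : ℝ} {q : ℕ} (H : Sid r κ q w h F) (hh : h' ≤ h) :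
    Sid r κ q w h' F := fun Y m a hY hYw hm ha hma => H Y m a hY hYw hm ha (hma.trans hh)

theorem Sid.mono_F {κ w h F F' : ℝ} {q : ℕ} (H : Sid r κ q w h F) (hF : F ≤ F') :
    Sid r κ q w h F' := fun Y m a hY hYw hm ha hma κ' h0 h1 => by
  linarith [H Y m a hY hYw hm ha hma κ' h0 h1]

theorem Sid.mono_w {κ w w' h F : ℝ} {q : ℕ} (H : Sid r κ q w h F) (hw : w' ≤ w) :
    Sid r κ q w' h F := fun Y m a hY hYw hm ha hma =>
  H Y m a hY (fun y hy => ⟨(hYw y hy).1, (hYw y hy).2.trans hw⟩) hm ha hma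

/-- two consecutive numbers of lumps whose mixture has mean `2/3 κ` and mean total `≥ 5/6 κ` -/
def Win (r : EF) (κ w F : ℝ) : Prop :=
  ∃ (q : ℕ) (c₀ c₁ l : ℝ), 0 ≤ l ∧ l ≤ 1 ∧ ((q : ℝ) + l) * w = 2 / 3 * κ ∧ 0 ≤ c₀ ∧ 0 ≤ c₁ ∧
    Sid r κ q w c₀ F ∧ Sid r κ (q + 1) w c₁ F ∧ κ / 6 ≤ (1 - l) * c₀ + l * c₁

theorem Win.mono_F {κ w F F' : ℝ} (H : Win r κ w F) (hF : F ≤ F') : Win r κ w F' := by
  obtain ⟨q, c₀, c₁, l, h0, h1, h2, h3, h4, h5, h6, h7⟩ := H
  exact ⟨q, c₀, c₁, l, h0, h1, h2, h3, h4, Sid.mono_F h5 hF, Sid.mono_F h6 hF, h7⟩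

/-- both numbers of lumps ideal with total `5/6 κ` -/
theorem Win.of_exact {κ w F : ℝ} {q : ℕ} (hw : 0 < w) (hκ : 6 * w ≤ κ)
    (h1 : (q : ℝ) * w ≤ 2 / 3 * κ) (h2 : 2 / 3 * κ ≤ ((q : ℝ) + 1) * w)
    (H0 : Sid r κ q w (5 / 6 * κ - q * w) F)
    (H1 : Sid r κ (q + 1) w (5 / 6 * κ - ((q : ℝ) + 1) * w) F) : Win r κ w F := by
  obtain ⟨l, hl⟩ : ∃ l, l = (2 / 3 * κ - q * w) / w := ⟨_, rfl⟩
  have hlw : l * w = 2 / 3 * κ - q * w := by rw [hl]; field_simp
  have hl0 : 0 ≤ l := by rw [hl]; exact div_nonneg (by linarith) hw.le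
  have hl1 : l ≤ 1 := by rw [hl, div_le_one hw]; linarith
  refine ⟨q, _, _, l, hl0, hl1, by linarith, by linarith, by linarith, H0, H1, ?_⟩
  have : (1 - l) * (5 / 6 * κ - q * w) + l * (5 / 6 * κ - ((q : ℝ) + 1) * w) =
      5 / 6 * κ - q * w - l * w := by ring
  rw [this, hlw]
  linarith

/-- the base windows -/
structure Inp (r : EF) (d μ : ℝ) : Prop where
  /-- `{w^4 | 5/6 κ - 4 w}` (T6) -/
  q4 : ∀ κ w : ℝ, 0 < w → 6 * w ≤ κ → κ ≤ 15 / 2 * w →
    Sid r κ 4 w (5 / 6 * κ - 4 * w) ((4 / 3 * d - μ) * κ)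
  /-- `{w^5 | 5/6 κ - 5 w}` (C5) -/
  q5 : ∀ κ w : ℝ, 0 < w → 27 / 4 * w ≤ κ → κ ≤ 9 * w →
    Sid r κ 5 w (5 / 6 * κ - 5 * w) ((4 / 3 * d - μ) * κ)
  /-- `{w^6 | 5/6 κ - 6 w}` -/
  q6 : ∀ κ w : ℝ, 0 < w → 33 / 4 * w ≤ κ → κ ≤ 9 * w →
    Sid r κ 6 w (5 / 6 * κ - 6 * w) ((4 / 3 * d - μ) * κ)
  /-- first mixture window -/
  w1 : ∀ κ w : ℝ, 0 < w → 15 / 2 * w ≤ κ → κ ≤ 33 / 4 * w → Win r κ w ((4 / 3 * d - μ) * κ)
  /-- second mixture window -/
  w2 : ∀ κ w : ℝ, 0 < w → 9 * w ≤ κ → κ ≤ 39 / 4 * w → Win r κ w ((4 / 3 * d - μ) * κ)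
  /-- `{w^8 | 5/6 κ - 8 w}` -/
  w8 : ∀ κ w : ℝ, 0 < w → 21 / 2 * w ≤ κ → κ ≤ 45 / 4 * w →
    Sid r κ 8 w (5 / 6 * κ - 8 * w) ((4 / 3 * d - μ) * κ)
  /-- `{w^9 | 5/6 κ - 9 w}` -/
  w9 : ∀ κ w : ℝ, 0 < w → 12 * w ≤ κ → κ ≤ 51 / 4 * w →
    Sid r κ 9 w (5 / 6 * κ - 9 * w) ((4 / 3 * d - μ) * κ)

/-- STEP3 with total `5/6 κ` -/
theorem step {d μ κ w : ℝ} {q : ℕ} (R : ExpRules (7 / 8 + d) r s)
    (L : ExpLv (7 / 8 + d) r) (hd : 0 ≤ d) (hμ : 0 ≤ μ) (hμ1 : 72 * μ ≤ 1 - 8 * d)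
    (hμ2 : 9 * μ ≤ d) (hw : 0 < w) (hκ : 9 * w ≤ κ) (hq1 : 1 ≤ q)
    (hq2 : ((q : ℝ) + 5 / 2) * w ≤ 5 / 6 * κ) (hq3 : κ / 6 ≤ ((q : ℝ) + 1) * w)
    (H : Sid r (κ - 3 * w) q w (5 / 6 * (κ - 3 * w) - q * w)
      ((4 / 3 * d - μ) * (κ - 3 * w))) :
    Sid r κ (q + 2) w (5 / 6 * κ - ((q : ℝ) + 2) * w) ((4 / 3 * d - μ) * κ) := by
  refine step3 R L hd hμ hμ1 hμ2 hw hκ (by linarith) hq1 (by linarith) (by linarith) ?_
  have e : 5 / 6 * κ - ((q : ℝ) + 2) * w - w / 2 = 5 / 6 * (κ - 3 * w) - q * w := by ring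
  rw [e]
  exact H

/-- both numbers of lumps exact, `κ ≥ 10.5 w` -/
theorem exact_all {d μ : ℝ} (R : ExpRules (7 / 8 + d) r s)
    (L : ExpLv (7 / 8 + d) r) (hd : 0 ≤ d) (hμ : 0 ≤ μ) (hμ1 : 72 * μ ≤ 1 - 8 * d)
    (hμ2 : 9 * μ ≤ d) (I : Inp r d μ) : ∀ (n : ℕ) (κ w : ℝ), 0 < w → 21 / 2 * w ≤ κ →
      κ < (27 / 2 + 3 * n) * w → ∃ q : ℕ, 1 ≤ q ∧ (q : ℝ) * w ≤ 2 / 3 * κ ∧
        2 / 3 * κ ≤ ((q : ℝ) + 1) * w ∧
        Sid r κ q w (5 / 6 * κ - q * w) ((4 / 3 * d - μ) * κ) ∧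
        Sid r κ (q + 1) w (5 / 6 * κ - ((q : ℝ) + 1) * w) ((4 / 3 * d - μ) * κ) := by
  intro n
  induction n with
  | zero =>
    intro κ w hw h1 h2
    have h2' : κ < 27 / 2 * w := by simpa using h2
    -- `q = 8` on the whole range `10.5 .. 13.5`
    have H8 : Sid r κ 8 w (5 / 6 * κ - 8 * w) ((4 / 3 * d - μ) * κ) := by
      rcases le_total κ (45 / 4 * w) with h3 | h3
      · exact I.w8 κ w hw h1 h3
      · have H6 : Sid r (κ - 3 * w) 6 w (5 / 6 * (κ - 3 * w) - 6 * w)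
            ((4 / 3 * d - μ) * (κ - 3 * w)) := by
          rcases le_total κ (12 * w) with h4 | h4
          · exact I.q6 _ w hw (by linarith) (by linarith)
          · have H4 := I.q4 (κ - 3 * w - 3 * w) w hw (by linarith) (by linarith)
            have := step (q := 4) R L hd hμ hμ1 hμ2 hw (κ := κ - 3 * w) (by linarith) (by norm_num)
              (by push_cast; linarith) (by push_cast; linarith) (by exact_mod_cast H4)
            push_cast at this
            have e : (4 : ℝ) + 2 = 6 := by norm_num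
            rw [e] at this
            exact this
        have := step (q := 6) R L hd hμ hμ1 hμ2 hw (κ := κ) (by linarith) (by norm_num)
          (by push_cast; linarith) (by push_cast; linarith) (by exact_mod_cast H6)
        push_cast at this
        have e : (6 : ℝ) + 2 = 8 := by norm_num
        rw [e] at this
        exact this
    rcases lt_or_ge κ (12 * w) with h3 | h3
    · -- `q = 7, 8`
      have H5 := I.q5 (κ - 3 * w) w hw (by linarith) (by linarith)
      have H7 := step (q := 5) R L hd hμ hμ1 hμ2 hw (κ := κ) (by linarith) (by norm_num)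
        (by push_cast; linarith) (by push_cast; linarith) (by exact_mod_cast H5)
      refine ⟨7, by norm_num, by push_cast; linarith, by push_cast; linarith, ?_, ?_⟩
      · push_cast at H7 ⊢
        have e : (5 : ℝ) + 2 = 7 := by norm_num
        rw [e] at H7
        exact H7
      · push_cast
        have e : (7 : ℝ) + 1 = 8 := by norm_num
        rw [e]
        exact H8
    · -- `q = 8, 9`
      refine ⟨8, by norm_num, by push_cast; linarith, by push_cast; linarith, ?_, ?_⟩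
      · push_cast
        exact H8
      · push_cast
        have e : (8 : ℝ) + 1 = 9 := by norm_num
        rw [e]
        rcases le_total κ (51 / 4 * w) with h4 | h4
        · exact I.w9 κ w hw h3 h4
        · have H5 := I.q5 (κ - 3 * w - 3 * w) w hw (by linarith) (by linarith)
          have H7 := step (q := 5) R L hd hμ hμ1 hμ2 hw (κ := κ - 3 * w) (by linarith)
            (by norm_num) (by push_cast; linarith) (by push_cast; linarith)
            (by exact_mod_cast H5)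
          push_cast at H7
          have e1 : (5 : ℝ) + 2 = 7 := by norm_num
          rw [e1] at H7
          have H9 := step (q := 7) R L hd hμ hμ1 hμ2 hw (κ := κ) (by linarith) (by norm_num)
            (by push_cast; linarith) (by push_cast; linarith) (by exact_mod_cast H7)
          push_cast at H9
          have e2 : (7 : ℝ) + 2 = 9 := by norm_num
          rw [e2] at H9
          exact H9
  | succ n ih =>
    intro κ w hw h1 h2
    rcases lt_or_ge κ (27 / 2 * w) with h3 | h3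
    · refine ih κ w hw h1 (h3.trans_le ?_)
      refine mul_le_mul_of_nonneg_right ?_ hw.le
      have : (0 : ℝ) ≤ n := Nat.cast_nonneg n
      linarith
    · obtain ⟨q, hq, hq1, hq2, H0, H1⟩ := ih (κ - 3 * w) w hw (by linarith) (by
        push_cast at h2; linarith)
      refine ⟨q + 2, by omega, by push_cast; linarith, by push_cast; linarith, ?_, ?_⟩
      · have := step R L hd hμ hμ1 hμ2 hw (κ := κ) (by linarith) hq (by linarith) (by linarith) H0
        push_cast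
        exact this
      · have H1' : Sid r (κ - 3 * w) (q + 1) w (5 / 6 * (κ - 3 * w) - ((q + 1 : ℕ) : ℝ) * w)
            ((4 / 3 * d - μ) * (κ - 3 * w)) := by
          push_cast; exact H1
        have := step R L hd hμ hμ1 hμ2 hw (κ := κ) (by linarith) (by omega)
          (by push_cast; linarith) (by push_cast; linarith) H1'
        push_cast at this ⊢
        have e : (q : ℝ) + 1 + 2 = q + 2 + 1 := by ring
        rw [e] at this
        exact this

/-- **`Win` for all `κ ≥ 50/7 w`** -/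
theorem win_all {d μ : ℝ} (R : ExpRules (7 / 8 + d) r s)
    (L : ExpLv (7 / 8 + d) r) (hd : 0 ≤ d) (hμ : 0 ≤ μ) (hμ1 : 72 * μ ≤ 1 - 8 * d)
    (hμ2 : 9 * μ ≤ d) (I : Inp r d μ) {κ w : ℝ} (hw : 0 < w) (hκ : 50 / 7 * w ≤ κ) :
    Win r κ w ((4 / 3 * d - μ) * κ) := by
  rcases lt_or_ge κ (21 / 2 * w) with h1 | h1
  · rcases le_total κ (15 / 2 * w) with h2 | h2
    · refine Win.of_exact (q := 4) hw (by linarith) (by push_cast; linarith)
        (by push_cast; linarith) ?_ ?_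
      · exact_mod_cast I.q4 κ w hw (by linarith) h2
      · have := I.q5 κ w hw (by linarith) (by linarith)
        have e : (((4 : ℕ) : ℝ) + 1) = 5 := by norm_num
        rw [e]
        exact this
    rcases le_total κ (33 / 4 * w) with h3 | h3
    · exact I.w1 κ w hw h2 h3
    rcases le_total κ (9 * w) with h4 | h4
    · refine Win.of_exact (q := 5) hw (by linarith) (by push_cast; linarith)
        (by push_cast; linarith) ?_ ?_
      · exact_mod_cast I.q5 κ w hw (by linarith) h4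
      · have := I.q6 κ w hw h3 h4
        have e : (((5 : ℕ) : ℝ) + 1) = 6 := by norm_num
        rw [e]
        exact this
    rcases le_total κ (39 / 4 * w) with h5 | h5
    · exact I.w2 κ w hw h4 h5
    · have H4 := I.q4 (κ - 3 * w) w hw (by linarith) (by linarith)
      have H6 := step (q := 4) R L hd hμ hμ1 hμ2 hw (κ := κ) (by linarith) (by norm_num)
        (by push_cast; linarith) (by push_cast; linarith) (by exact_mod_cast H4)
      have H5 := I.q5 (κ - 3 * w) w hw (by linarith) (by linarith)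
      have H7 := step (q := 5) R L hd hμ hμ1 hμ2 hw (κ := κ) (by linarith) (by norm_num)
        (by push_cast; linarith) (by push_cast; linarith) (by exact_mod_cast H5)
      refine Win.of_exact (q := 6) hw (by linarith) (by push_cast; linarith)
        (by push_cast; linarith) ?_ ?_
      · push_cast at H6 ⊢
        have e : (4 : ℝ) + 2 = 6 := by norm_num
        rw [e] at H6
        exact H6
      · push_cast at H7 ⊢
        have e : (5 : ℝ) + 2 = 6 + 1 := by norm_num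
        rw [e] at H7
        exact H7
  · obtain ⟨n, hn⟩ := exists_nat_gt (κ / w)
    obtain ⟨q, _, hq1, hq2, H0, H1⟩ := exact_all R L hd hμ hμ1 hμ2 I n κ w hw h1 (by
      have h2 : κ < n * w := (div_lt_iff₀ hw).1 hn
      have h3 : (0 : ℝ) ≤ n := Nat.cast_nonneg n
      have h4 : (n : ℝ) * w ≤ (27 / 2 + 3 * n) * w :=
        mul_le_mul_of_nonneg_right (by linarith) hw.le
      linarith)
    exact Win.of_exact hw (by linarith) hq1 hq2 H0 H1

/-- a column from 744's sides -/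
theorem col_of_sid (C : ExpC r rc) {q : ℕ} {y h F e₀ A : ℝ} (hy : 0 ≤ y)
    (H : Sid r 1 q y h F) (hF : F ≤ e₀) (hA : 0 ≤ A) (hAh : A ≤ h) :
    Col rc e₀ (fun _ : Fin 1 => y) (fun _ => q) 0 A := by
  refine col_of_compl C (fun _ => hy) le_rfl hA fun f g hf hg h1 _ => ?_
  intro κ' h0' h1'
  have e : (∑ j : Fin 1, Multiset.replicate ((fun _ : Fin 1 => q) j) ((fun _ : Fin 1 => y) j)) =
      Multiset.replicate q y := by simp
  rw [e]
  have := H (Multiset.replicate q y) f g (Multiset.card_replicate _ _)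
    (fun z hz => by rw [Multiset.eq_of_mem_replicate hz]; exact ⟨hy, le_rfl⟩) hf hg
    (by linarith) κ' h0' h1'
  linarith

/-- **`E_y`**: the point `(2/(3 y) copies of y; 0; 1/6 - t/2)` -/
theorem ey_of_win (C : ExpC r rc) {y t F e₀ : ℝ} (hy : 0 < y) (ht : 0 ≤ t) (ht3 : t ≤ 1 / 3)
    (hF : F ≤ e₀) (W : Win r 1 y F) :
    ((fun _ => 2 / (3 * y), 0, 1 / 6 - t / 2) : Mon 1) ∈ Hull (Col rc e₀ (fun _ : Fin 1 => y)) := by
  obtain ⟨q, c₀, c₁, l, hl0, hl1, hql, hc0, hc1, H0, H1, hc⟩ := W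
  -- the amplifier share
  obtain ⟨c, hcd⟩ : ∃ c, c = (1 - l) * c₀ + l * c₁ := ⟨_, rfl⟩
  have hcpos : 0 < c := by rw [hcd]; linarith
  obtain ⟨lam, hlam⟩ : ∃ lam, lam = (1 / 6 - t / 2) / c := ⟨_, rfl⟩
  have hlamc : lam * c = 1 / 6 - t / 2 := by rw [hlam]; field_simp
  have hlam0 : 0 ≤ lam := by rw [hlam]; exact div_nonneg (by linarith) hcpos.le
  have hlam1 : lam ≤ 1 := by rw [hlam, div_le_one hcpos, hcd]; linarith
  refine ⟨2, ![1 - l, l], ![fun _ => q, fun _ => q + 1], ![0, 0], ![lam * c₀, lam * c₁], ?_, ?_,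
    ?_, ?_⟩
  · intro j
    fin_cases j
    · simpa using hl1
    · simpa using hl0
  · simp [Fin.sum_univ_two]
  · intro j
    fin_cases j
    · exact col_of_sid C hy.le H0 hF (mul_nonneg hlam0 hc0) (mul_le_of_le_one_left hc0 hlam1)
    · exact col_of_sid C hy.le H1 hF (mul_nonneg hlam0 hc1) (mul_le_of_le_one_left hc1 hlam1)
  · refine Prod.ext ?_ (Prod.ext ?_ ?_)
    · funext j
      simp only [Fin.sum_univ_two, Matrix.cons_val_zero, Matrix.cons_val_one]
      push_cast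
      have h1 : ((q : ℝ) + l) = 2 / (3 * y) := by
        rw [eq_div_iff (by positivity)]; linarith
      rw [← h1]; ring
    · simp [Fin.sum_univ_two]
    · simp only [Fin.sum_univ_two, Matrix.cons_val_zero, Matrix.cons_val_one]
      rw [← hlamc, hcd]; ring

/-- **`E_y`, all `0 < y ≤ 7/50`**, from the base windows -/
theorem ey {d μ : ℝ} (C : ExpC r rc) (R : ExpRules (7 / 8 + d) r s)
    (L : ExpLv (7 / 8 + d) r) (hd : 0 ≤ d) (hμ : 0 ≤ μ) (hμ1 : 72 * μ ≤ 1 - 8 * d)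
    (hμ2 : 9 * μ ≤ d) (I : Inp r d μ) {y t e₀ : ℝ} (hy : 0 < y) (hy1 : y ≤ 7 / 50)
    (ht : 0 ≤ t) (ht3 : t ≤ 1 / 3) (he : 4 / 3 * d - μ ≤ e₀) :
    ((fun _ => 2 / (3 * y), 0, 1 / 6 - t / 2) : Mon 1) ∈ Hull (Col rc e₀ (fun _ : Fin 1 => y)) :=
  ey_of_win C hy ht ht3 he (by
    have := win_all R L hd hμ hμ1 hμ2 I (κ := 1) hy (by linarith)
    rw [mul_one] at this
    exact this)

end Crest.Agent.R017.Ey645
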