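import Crest.Agent.R017.C1step_744
import Crest.Agent.R017.C1Id_61
import Crest.Agent.R017.C5_720
import Crest.Agent.R017.Ey_645
import Crest.Agent.R017.Scale_911

/-!
# Row 17, section D, C1: the window `9 w ≤ κ ≤ 39/4 w` (helper83)

`κ = 9 + u`, `0 ≤ u ≤ 3/4`, lumps `1`, parameter `ξ = 1` (`X` = one lump). All columns by 645's
`colX_eq`.

* `sidY5` : `{1^5 | 1/4 + u}` at `6 + u`, loss `1/4 + 6 d` (no levels).
* `sid7`  : `{1^7 | κ - 69/8}` ideal.
* `sid6`  : `{1^6 | 5/6 κ - 6 + 1/45}` ideal.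
* `win2`  : the mixture, `Win` of 645.
-/

set_option autoImplicit false

noncomputable section

namespace Crest.Agent.R017.C1w2_83

open Crest.Agent.R017.ER911 Crest.Agent.R017.SC777 Crest.Agent.R017.CE645

variable {θ d : ℝ} {r s : EF}

/-! ### generalities -/

theorem C1.mono {i w φ δ B B' : ℝ} (h : C1 θ r i w φ δ B) (hB : B ≤ B') :
    C1 θ r i w φ δ B' := by
  rcases h with ⟨k, f, h1, h2, h3⟩ | ⟨k, g, e, h1, h2, h3⟩ | h
  · exact Or.inl ⟨k, f, h1, h2, h3.trans hB⟩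
  · exact Or.inr (Or.inl ⟨k, g, e, h1, h2, h3.trans hB⟩)
  · exact Or.inr (Or.inr (h.trans hB))

theorem C0.mono {i w φ B B' : ℝ} (h : C0 r i w φ B) (hB : B ≤ B') : C0 r i w φ B' := by
  rcases h with ⟨k, e, h2, h3⟩ | h
  · exact Or.inl ⟨k, e, h2, h3.trans hB⟩
  · exact Or.inr (h.trans hB)

theorem C2.mono {i δ B B' : ℝ} (h : C2 θ r i δ B) (hB : B ≤ B') : C2 θ r i δ B' := by
  rcases h with ⟨f, h1, h2, h3⟩ | ⟨g, e, h1, h2, h3⟩ | h
  · exact Or.inl ⟨f, h1, h2, h3.trans hB⟩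
  · exact Or.inr (Or.inl ⟨g, e, h1, h2, h3.trans hB⟩)
  · exact Or.inr (Or.inr (h.trans hB))

/-- a side used as a moment below its family -/
theorem mb_down {κ c F i g v : ℝ} {q : ℕ} (H : C1S744.Sid r κ q 1 c F) (hi : 0 ≤ i)
    (hiκ : i ≤ κ) (hg : 0 ≤ g) (hgc : g ≤ c) (hv : 0 ≤ v) (hv1 : v ≤ 1) :
    MB r i (Multiset.replicate q v) g (2 / 3 * (κ - i) + F) := by
  have hY : ∀ y ∈ Multiset.replicate q v, 0 ≤ y ∧ y ≤ 1 := fun y hy => by
    rw [Multiset.eq_of_mem_replicate hy]; exact ⟨hv, hv1⟩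
  constructor
  · have := H (Multiset.replicate q v) g 0 (Multiset.card_replicate q v) hY hg le_rfl
      (by linarith) i hi hiκ
    linarith
  · have := H (Multiset.replicate q v) 0 g (Multiset.card_replicate q v) hY le_rfl hg
      (by linarith) i hi hiκ
    linarith

/-- no lumps: the large sieve -/
theorem mb_zero (R : ExpRules θ r s) {κ i g : ℝ} (hi : 0 ≤ i) (hiκ : i ≤ κ) (hg : 0 ≤ g)
    (hgκ : 2 * g ≤ κ) : MB r i 0 g (2 / 3 * (κ - i)) := by
  have h0 : ∀ y ∈ (0 : Multiset ℝ), (0 : ℝ) ≤ y := fun y hy => absurd hy (Multiset.notMem_zero y)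
  constructor
  · refine (R.hbC i 0 g 0 hi ⟨h0, hg, le_rfl⟩).trans ?_
    rw [Multiset.sum_zero]
    refine max_le ?_ (max_le ?_ ?_) <;> linarith
  · refine (R.hbC i 0 0 g hi ⟨h0, le_rfl, hg⟩).trans ?_
    rw [Multiset.sum_zero]
    refine max_le ?_ (max_le ?_ ?_) <;> linarith

/-- a side with one lump in `X`, `ξ = 1` -/
theorem sid_of_col (R : ExpRules θ r s) {κ c F : ℝ} {q : ℕ} (hκ : 0 ≤ κ) (hF : 0 ≤ F)
    (h1 : 2 + (q + c) ≤ κ + F)
    (C : ∀ (Z : Multiset ℝ) (m a : ℝ), Multiset.card Z = q → (∀ y ∈ Z, 0 ≤ y ∧ y ≤ 1) → 0 ≤ m →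
      0 ≤ a → m + a ≤ c → ColX θ r κ 1 F Z m a) : C1S744.Sid r κ (q + 1) 1 c F := by
  intro Y m a hYc hY hm ha hma κ' hκ0 hκ1
  obtain ⟨v, hvY⟩ := Multiset.card_pos_iff_exists_mem.1 (show 0 < Multiset.card Y by omega)
  obtain ⟨Z, rfl⟩ := Multiset.exists_cons_of_mem hvY
  have hZc : Multiset.card Z = q := by
    rw [Multiset.card_cons] at hYc; omega
  have hv := hY v (Multiset.mem_cons_self v Z)
  have hZ : ∀ y ∈ Z, 0 ≤ y ∧ y ≤ 1 := fun y hy => hY y (Multiset.mem_cons_of_mem hy)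
  have hZs : Z.sum ≤ (q : ℝ) := by
    have := Multiset.sum_le_card_nsmul Z 1 fun y hy => (hZ y hy).2
    rw [hZc, nsmul_eq_mul, mul_one] at this
    exact this
  have key := side_xi R (κ := κ) (ξ := 1) (m := m) (b := 0) (a := a) (b' := 0)
    (F := F) (V := {v}) (Z := Z) hκ
    (fun y hy => by rw [Multiset.mem_singleton] at hy; rw [hy]; exact hv.1)
    (fun y hy => (hZ y hy).1) hm le_rfl ha le_rfl hF (by simpa using hv.2) (by linarith)
    (C Z m a hZc hZ hm ha hma) κ' hκ0 hκ1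
  rw [Multiset.singleton_add, Multiset.sum_singleton, add_zero, add_zero] at key
  rw [Multiset.sum_cons]
  exact key

/-! ### five lumps -/

/-- the columns of `{1^5 | 1/4 + u}` at `6 + u` -/
theorem colY5 (R : ExpRules (7 / 8 + d) r s) (hd : 0 ≤ d) {u m a : ℝ} (hu : 0 ≤ u)
    (hu1 : u ≤ 3 / 4) {Z : Multiset ℝ} (hZc : Multiset.card Z = 4)
    (hZ : ∀ y ∈ Z, 0 ≤ y ∧ y ≤ 1) (hma : m + a ≤ 1 / 4 + u) :
    ColX (7 / 8 + d) r (6 + u) 1 (1 / 4 + 6 * d) Z m a := by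
  refine ⟨?_, ?_⟩
  · intro Z' m' a' i hZ' hm0 hm1 ha0 ha1 hi hyi hii
    have hle : ∀ y ∈ Z', y ≤ 1 := by
      intro y hy
      obtain ⟨b, hb, hyb⟩ := Multiset.exists_mem_of_rel_of_mem hZ' hy
      exact hyb.2.trans (hZ b hb).2
    have hnn := hZ'.nonneg
    obtain ⟨l₁, l₂, l₃, l₄, rfl, -, -, -⟩ := C5_720.sorted4 Z' (hZ'.card.trans hZc)
    have h1 := hnn l₁ (by simp)
    have h2 := hnn l₂ (by simp)
    have h3 := hnn l₃ (by simp)
    have h4 := hnn l₄ (by simp)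
    have h1' := hle l₁ (by simp)
    have h2' := hle l₂ (by simp)
    have h3' := hle l₃ (by simp)
    have h4' := hle l₄ (by simp)
    have hi1 : l₁ ≤ i := hyi l₁ (by simp)
    have hi2 : l₂ ≤ i := hyi l₂ (by simp)
    have hi3 : l₃ ≤ i := hyi l₃ (by simp)
    have hsum : (l₄ ::ₘ l₃ ::ₘ {l₁, l₂} : Multiset ℝ).sum = l₁ + l₂ + l₃ + l₄ := by
      rw [Multiset.sum_cons, C5_720.sum_tri]; ring
    rw [hsum]
    have s4 := C5_720.sup1 R hi h4 (C5_720.nn_tri h1 h2 h3) hm0 ha0 (d := d) (k := i)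
    have hd1 : 2 * d * (l₃ + l₄ + (m' + a')) ≤ 2 * d * 3 :=
      mul_le_mul_of_nonneg_left (by linarith) (by linarith)
    have hd2 : 2 * d * (l₄ + (1 + (1 / 4 + u))) ≤ 2 * d * 3 :=
      mul_le_mul_of_nonneg_left (by linarith) (by linarith)
    rcases le_total i (21 / 8 + u) with hA | hA
    · have s3 := C5_720.sup1 R hi h3 (nn_pair h1 h2) hm0 ha0 (d := d) (k := i)
      rcases le_total 0 ((1 / 4 + u) - 7 / 9 * (i - (1 + 1))) with hc | hc
      · have e2 := C5_720.E2 R hd hi h1 h2 h1' h2' hi1 hi2 hm0 ha0 (by linarith) hc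
          (by linarith)
        linarith
      · have e2 := C5_720.E2 R hd hi h1 h2 h1' h2' hi1 hi2 hm0 ha0 (by linarith)
          (le_refl (0 : ℝ)) (by linarith)
        linarith
    · obtain ⟨F, hF⟩ : ∃ F, F = max ((4 + u - i) / 2)
        (3 / 4 * (1 + (1 / 4 + u)) - 7 / 12 * (i - (1 + 1))) := ⟨_, rfl⟩
      have hF1 : (4 + u - i) / 2 ≤ F := by rw [hF]; exact le_max_left _ _
      have hF2 : 3 / 4 * (1 + (1 / 4 + u)) - 7 / 12 * (i - (1 + 1)) ≤ F := by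
        rw [hF]; exact le_max_right _ _
      have hF3 : F ≤ 3 / 4 := by
        rw [hF]; exact max_le (by linarith) (by linarith)
      have hF4 : F ≤ 5 / 2 + 2 / 3 * (u - i) := by
        rw [hF]; exact max_le (by linarith) (by linarith)
      have e3 := C5_720.E3g R hd (k := i) (ξ := 3 / 4 - F) (F := F) (G := 1 / 4 + u) (U := 1)
        (V := 1) (W := 1) hi h1 h2 h3 h1' h2' h3' hm0 ha0 (by linarith) (by linarith)
        (by linarith) (by linarith) (by linarith) (by linarith) (by linarith) (by linarith)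
        (by linarith)
      linarith
  · intro Z' m' a' hZ' hm0 hm1 ha0 ha1 _
    have := hZ'.sum_nonneg
    have hd1 : 2 * d * m' ≤ 2 * d * 3 :=
      mul_le_mul_of_nonneg_left (by linarith) (by linarith)
    linarith

/-- `{1^5 | 1/4 + u}` at family `6 + u`, loss `1/4` -/
theorem sidY5 (R : ExpRules (7 / 8 + d) r s) (hd : 0 ≤ d) {u : ℝ} (hu : 0 ≤ u)
    (hu1 : u ≤ 3 / 4) : C1S744.Sid r (6 + u) 5 1 (1 / 4 + u) (1 / 4 + 6 * d) := by
  refine sid_of_col (q := 4) R (by linarith) (by linarith) (by push_cast; linarith) ?_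
  intro Z m a hZc hZ _ _ hma
  exact colY5 R hd hu hu1 hZc hZ hma

/-- `{1^4 | 1 + 11/12 u}` at family `6 + u` -/
theorem sidY4 (R : ExpRules (7 / 8 + d) r s) (hd : 0 ≤ d) {u : ℝ} (hu : 0 ≤ u)
    (hu1 : u ≤ 3 / 4) : C1S744.Sid r (6 + u) 4 1 (1 + 11 / 12 * u) (6 * d) := by
  have hdu : d * u ≤ d * (3 / 4) := mul_le_mul_of_nonneg_left hu1 hd
  exact C161.idl_T6 R hd (g := u / 12) 1 1 zero_le_one (by linarith) (by linarith) (by linarith)
    (by push_cast; linarith) (by push_cast; linarith) (by push_cast; linarith)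
    (by push_cast; linarith) (by push_cast; linarith)

/-- `{1^3 | (19 + 7 u)/9}` at family `6 + u` -/
theorem sidY3 (R : ExpRules (7 / 8 + d) r s) (hd : 0 ≤ d) {u : ℝ} (hu : 0 ≤ u)
    (hu1 : u ≤ 3 / 4) : C1S744.Sid r (6 + u) 3 1 ((19 + 7 * u) / 9) (6 * d) := by
  have hdu : d * u ≤ d * (3 / 4) := mul_le_mul_of_nonneg_left hu1 hd
  have h := C161.bl3' R hd (w := 1) (κ := 6 + u) (F := 6 * d) zero_le_one (by linarith)
    (by linarith) (by linarith)
  have e : (7 * (6 + u) - 23 * 1) / 9 = (19 + 7 * u) / 9 := by ring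
  rw [e] at h
  exact h

/-! ### seven lumps -/

/-- granular mass alone -/
theorem gran7 {d u i δ F : ℝ} (hd : 0 ≤ d) (hu1 : u ≤ 3 / 4) (hi : 0 ≤ i) (hiu : i ≤ 6 + u)
    (hF : 11 * d ≤ F) (hG : 0 ≤ 7 / 32 - u / 12 - 2 * d * (51 / 8 + u) + F)
    (hδ : 2 / 3 ≤ δ) (hδ1 : δ ≤ 3 / 4 + 2 * d) :
    0 ≤ 5 + 2 / 3 * u - i - (51 / 8 + u - 4 / 3 * i) * δ + F := by
  rcases le_total 0 (51 / 8 + u - 4 / 3 * i) with h | h
  · have h1 := mul_nonneg h (by linarith : 0 ≤ 3 / 4 + 2 * d - δ)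
    have h2 := mul_nonneg hd hi
    linarith
  · have h1 := mul_nonneg (by linarith : 0 ≤ -(51 / 8 + u - 4 / 3 * i))
      (by linarith : 0 ≤ δ - 2 / 3)
    linarith

/-- a column `i` of `{1^6 | 3/8 + u}`, both kinds of mass -/
theorem H1_7 {d u i φ δ F : ℝ} (hd : 0 ≤ d) (hd8 : d ≤ 1 / 8) (hu : 0 ≤ u) (hu1 : u ≤ 3 / 4)
    (hi : 0 ≤ i) (hiu : i ≤ 6 + u) (hφ1 : φ ≤ 3 / 4 + 2 * d) (hδ0 : 0 < δ)
    (hδ1 : δ ≤ 3 / 4 + 2 * d) (hF : 11 * d ≤ F)
    (hG : 0 ≤ 7 / 32 - u / 12 - 2 * d * (51 / 8 + u) + F)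
    (hY : ∀ v, 0 ≤ v → v ≤ 1 → MB r i (Multiset.replicate 5 v) (1 / 4 + u)
      (2 / 3 * ((6 + u) - i) + (1 / 4 + 6 * d))) :
    C1 (7 / 8 + d) r i 1 φ δ
      (5 + 2 / 3 * u + i / 3 + F - 6 * φ - (3 / 8 + u) * δ) := by
  rcases le_or_gt (φ + δ / 8) (3 / 4 + (F - 6 * d)) with hM | hM
  · -- five lumps
    refine Or.inr (Or.inl ⟨5, 1 / 4 + u, 2 / 3 * ((6 + u) - i) + (1 / 4 + 6 * d), by linarith,
      fun v h0 h1 _ => hY v h0 h1, ?_⟩)
    push_cast
    linarith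
  have hgr := fun h : 2 / 3 ≤ δ => gran7 hd hu1 hi hiu hF hG h hδ1
  refine Or.inl ?_
  rcases le_or_gt δ (2 / 3) with hδ | hδ
  · have hφ : 2 / 3 ≤ φ := by linarith
    rcases le_total i (9 / 2) with hi1 | hi1
    · -- round up
      obtain ⟨n, hn⟩ : ∃ n : ℕ, n = ⌈4 / 3 * i⌉₊ := ⟨_, rfl⟩
      have hn1 : 4 / 3 * i ≤ (n : ℝ) := by rw [hn]; exact Nat.le_ceil _
      have hn2 : (n : ℝ) < 4 / 3 * i + 1 := by
        rw [hn]; exact Nat.ceil_lt_add_one (by linarith)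
      have hn6 : (n : ℝ) ≤ 6 := by
        have : n ≤ 6 := by
          rw [hn]
          refine Nat.ceil_le.2 ?_
          push_cast
          linarith
        exact_mod_cast this
      have hn0 : (0 : ℝ) ≤ n := Nat.cast_nonneg n
      refine ⟨n, 0, le_rfl, Or.inl ⟨by linarith, ?_⟩, ?_⟩
      · have := mul_le_mul_of_nonneg_left hφ hn0
        linarith
      · have h1 := mul_nonneg (by linarith : 0 ≤ 6 - (n : ℝ))
          (by linarith : 0 ≤ 3 / 4 + 2 * d - φ)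
        have h2 := mul_nonneg hu (by linarith : 0 ≤ 2 / 3 - δ)
        rcases Nat.eq_zero_or_pos n with h0 | h0
        · have e0 : (n : ℝ) = 0 := by rw [h0]; simp
          rw [e0] at h1 hn1 ⊢
          linarith
        · have h3 : (1 : ℝ) ≤ n := by exact_mod_cast h0
          have h4 := mul_nonneg hd (by linarith : (0 : ℝ) ≤ n - 1)
          linarith
    rcases le_total i (21 / 4) with hi2 | hi2
    · -- `k = 6`
      rcases le_or_gt ((1 / 2 + u) * δ) (1 / 4 + 2 / 3 * u + (4 / 3 * i - 6) / 4) with hr | hr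
      · refine ⟨7, 0, le_rfl, Or.inl ⟨?_, ?_⟩, ?_⟩
        · push_cast; linarith
        · push_cast; linarith
        · push_cast; linarith
      · have h0 := mul_nonneg hu (by linarith : 0 ≤ 2 / 3 - δ)
        have hf : 4 / 3 * i - 6 ≤ 1 / 3 := by linarith
        refine ⟨6, 4 / 3 * i - 6, by linarith, Or.inl ⟨?_, ?_⟩, ?_⟩
        · push_cast; linarith
        · have h1 := mul_nonneg (by linarith : 0 ≤ 3 / 4 - (4 / 3 * i - 6))
            (by linarith : 0 ≤ 2 / 3 - δ)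
          push_cast; linarith
        · have h1 := mul_nonneg (by linarith : 0 ≤ 1 / 2 + 2 / 3 * u - 3 / 4 * (4 / 3 * i - 6))
            (by linarith : 0 ≤ 2 / 3 - δ)
          have h2 := mul_nonneg (by linarith : 0 ≤ 1 / 4 - (4 / 3 * i - 6) / 12) hδ0.le
          push_cast; linarith
    rcases le_total i 6 with hi3 | hi3
    · -- `k = 7`
      rcases le_or_gt ((5 / 8 + u) * δ) (1 / 4 + 2 / 3 * u + (4 / 3 * i - 7) / 4) with hr | hr
      · refine ⟨8, 0, le_rfl, Or.inl ⟨?_, ?_⟩, ?_⟩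
        · push_cast; linarith
        · push_cast; linarith
        · push_cast; linarith
      · have h0 := mul_nonneg hu (by linarith : 0 ≤ 2 / 3 - δ)
        have hf : 4 / 3 * i - 7 ≤ 2 / 3 := by linarith
        refine ⟨7, 4 / 3 * i - 7, by linarith, Or.inl ⟨?_, ?_⟩, ?_⟩
        · push_cast; linarith
        · have h1 := mul_nonneg (by linarith : 0 ≤ 7 / 8 - (4 / 3 * i - 7))
            (by linarith : 0 ≤ 2 / 3 - δ)
          push_cast; linarith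
        · have h1 := mul_nonneg (by linarith : 0 ≤ 1 / 2 + 2 / 3 * u - 3 / 4 * (4 / 3 * i - 7))
            (by linarith : 0 ≤ 2 / 3 - δ)
          have h2 := mul_nonneg (by linarith : 0 ≤ 1 / 6 - (4 / 3 * i - 7) / 12) hδ0.le
          push_cast; linarith
    · -- `k = 8`
      refine ⟨8, 4 / 3 * i - 8, by linarith, Or.inl ⟨?_, ?_⟩, ?_⟩
      · push_cast; linarith
      · have h1 := mul_nonneg (by linarith : 0 ≤ 1 - (4 / 3 * i - 8))
          (by linarith : 0 ≤ 2 / 3 - δ)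
        push_cast; linarith
      · have h1 := mul_nonneg (by linarith : 0 ≤ 4 / 3 * u - (4 / 3 * i - 8))
          (by linarith : 0 ≤ 3 / 4 - δ)
        have h2 := mul_nonneg (by linarith : 0 ≤ 5 / 8 - u / 3) (by linarith : 0 ≤ 2 / 3 - δ)
        push_cast; linarith
  · have hg := hgr hδ.le
    rcases le_or_gt φ δ with hφδ | hφδ
    · refine ⟨0, 4 / 3 * i, by linarith, Or.inl ⟨?_, ?_⟩, ?_⟩
      · push_cast; linarith
      · have := mul_nonneg (by linarith : 0 ≤ 4 / 3 * i) (by linarith : 0 ≤ δ - 2 / 3)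
        push_cast; linarith
      · push_cast; linarith
    · obtain ⟨k, hk⟩ : ∃ k : ℕ, k = ⌊4 / 3 * i⌋₊ := ⟨_, rfl⟩
      have hk1 : (k : ℝ) ≤ 4 / 3 * i := by rw [hk]; exact Nat.floor_le (by linarith)
      have hk2 : 4 / 3 * i < (k : ℝ) + 1 := by rw [hk]; exact Nat.lt_floor_add_one _
      have hk0 : (0 : ℝ) ≤ k := Nat.cast_nonneg k
      refine ⟨k, 4 / 3 * i - k, by linarith, Or.inl ⟨?_, ?_⟩, ?_⟩
      · linarith
      · have h1 := mul_nonneg (by linarith : 0 ≤ 4 / 3 * i - k) (by linarith : 0 ≤ δ - 2 / 3)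
        have h2 := mul_nonneg hk0 (by linarith : 0 ≤ φ - 2 / 3)
        linarith
      · rcases le_total (k : ℝ) 6 with h6 | h6
        · have h1 := mul_nonneg (by linarith : 0 ≤ 6 - (k : ℝ))
            (by linarith : 0 ≤ 3 / 4 + 2 * d - φ)
          have h5 := mul_nonneg hd hk0
          rcases le_total (3 / 8 + u) (4 / 3 * i - k) with hc | hc
          · have h2 := mul_nonneg (by linarith : 0 ≤ (4 / 3 * i - k) - (3 / 8 + u))
              (by linarith : 0 ≤ δ - 2 / 3)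
            linarith
          · have h2 := mul_nonneg (by linarith : 0 ≤ (3 / 8 + u) - (4 / 3 * i - k))
              (by linarith : 0 ≤ 3 / 4 + 2 * d - δ)
            have h3 := mul_nonneg hd (by linarith : 0 ≤ 4 / 3 * i - k)
            linarith
        · have h1 := mul_nonneg (by linarith : 0 ≤ (k : ℝ) - 6) (by linarith : 0 ≤ φ - δ)
          linarith

/-- **seven lumps**, `{1^7 | κ - 69/8}`, `κ = 9 + u` -/
theorem sid7 (R : ExpRules (7 / 8 + d) r s) (Lv : ExpLv (7 / 8 + d) r) (hd : 0 ≤ d)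
    (hd8 : d ≤ 1 / 8) {u F : ℝ} (hu : 0 ≤ u) (hu1 : u ≤ 3 / 4) (hF : 11 * d ≤ F)
    (hG : 0 ≤ 7 / 32 - u / 12 - 2 * d * (51 / 8 + u) + F) :
    C1S744.Sid r (9 + u) 7 1 (3 / 8 + u) F := by
  have hF0 : 0 ≤ F := by linarith
  refine sid_of_col (q := 6) R (by linarith) hF0 (by push_cast; linarith) ?_
  intro Z m a hZc hZ hm ha hma
  have hYs := sidY5 R hd hu hu1
  refine colX_eq Lv (by linarith) (w := 1) (fun y hy => (hZ y hy).2) zero_le_one hF0 ?_ ?_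
  · intro i hi hii
    have hcard : ((Multiset.card Z : ℕ) : ℝ) = 6 := by rw [hZc]; norm_num
    rw [hcard]
    have hiu : i ≤ 6 + u := by linarith
    refine ⟨?_, ?_, ?_⟩
    · intro φ δ _ hφ1 hδ0 hδ1
      have h := H1_7 (r := r) (i := i) (φ := φ) (δ := δ) hd hd8 hu hu1 hi hiu (by linarith) hδ0
        (by linarith) hF hG
        fun v h0 h1 => mb_down hYs hi hiu (by linarith) le_rfl h0 h1
      refine C1.mono h ?_
      have := mul_le_mul_of_nonneg_right hma hδ0.le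
      linarith
    · intro φ _ hφ1
      refine Or.inl ⟨5, 2 / 3 * ((6 + u) - i) + (1 / 4 + 6 * d), fun v h0 h1 _ =>
        mb_down hYs hi hiu le_rfl (by linarith) h0 h1, ?_⟩
      push_cast
      linarith
    · intro δ hδ0 _
      refine Or.inr (Or.inl ⟨3 / 8 + u, 2 / 3 * ((6 + u) - i), by linarith,
        mb_zero R hi hiu (by linarith) (by linarith), ?_⟩)
      have := mul_le_mul_of_nonneg_right hma hδ0.le
      linarith
  · intro Z' m' a' hZ' hm0 hm1 ha0 ha1 _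
    have := hZ'.sum_nonneg
    have h1 : 2 * d * m' ≤ 2 * (1 / 8) * m' := mul_le_mul_of_nonneg_right (by linarith) hm0
    linarith

/-! ### six lumps -/

/-- the levels left by the sides with four and three lumps -/
theorem lev_6 {u φ δ : ℝ} (hu : 0 ≤ u) (hu1 : u ≤ 3 / 4)
    (h4 : 1 ≤ φ + (1 / 2 - u / 12 + 1 / 45) * δ)
    (h3 : 1 ≤ 2 * φ - (11 / 18 - u / 18 - 1 / 45) * δ) {k f : ℝ} (hk : 5 ≤ k) (hf : 0 ≤ f)
    (hf1 : f ≤ 1) : 2 / 3 * (k + f) ≤ k * φ + f * δ := by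
  have hN : 0 < 29 / 18 - 2 / 9 * u + 1 / 45 := by linarith
  have hA : 0 ≤ k * (11 / 18 - u / 18 - 1 / 45) + 2 * f := by
    have := mul_nonneg (by linarith : 0 ≤ k) (by linarith : 0 ≤ 11 / 18 - u / 18 - 1 / 45)
    linarith
  have hB : 0 ≤ k * (1 / 2 - u / 12 + 1 / 45) - f := by
    have := mul_nonneg (by linarith : 0 ≤ k - 5) (by linarith : 0 ≤ 1 / 2 - u / 12 + 1 / 45)
    linarith
  have h1 := mul_nonneg hA (by linarith : 0 ≤ φ + (1 / 2 - u / 12 + 1 / 45) * δ - 1)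
  have h2 := mul_nonneg hB (by linarith : 0 ≤ 2 * φ - (11 / 18 - u / 18 - 1 / 45) * δ - 1)
  have hR : 0 ≤ k / 3 * (1 / 15 + u / 36) - f * (4 / 45 - 4 / 27 * u) := by
    have e1 := mul_nonneg (by linarith : 0 ≤ k - 5) (by linarith : 0 ≤ 1 / 15 + u / 36)
    have e2 := mul_nonneg hf hu
    linarith
  have key : (29 / 18 - 2 / 9 * u + 1 / 45) * (k * φ + f * δ - 2 / 3 * (k + f)) =
      (k * (11 / 18 - u / 18 - 1 / 45) + 2 * f) * (φ + (1 / 2 - u / 12 + 1 / 45) * δ - 1) +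
      (k * (1 / 2 - u / 12 + 1 / 45) - f) * (2 * φ - (11 / 18 - u / 18 - 1 / 45) * δ - 1) +
      (k / 3 * (1 / 15 + u / 36) - f * (4 / 45 - 4 / 27 * u)) := by ring
  have h5 : 0 ≤ (29 / 18 - 2 / 9 * u + 1 / 45) * (k * φ + f * δ - 2 / 3 * (k + f)) := by
    rw [key]; linarith
  have := (mul_nonneg_iff_of_pos_left hN).1 h5
  linarith

/-- a column `i` of `{1^5 | 3/2 + 5/6 u + 1/45}`, both kinds of mass -/
theorem H1_6 (R : ExpRules (7 / 8 + d) r s) {u i φ δ F : ℝ} (hd : 0 ≤ d)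
    (hu : 0 ≤ u) (hu1 : u ≤ 3 / 4)
    (hi : 0 ≤ i) (hiu : i ≤ 6 + u) (hφ1 : φ ≤ 3 / 4 + 2 * d) (hδ0 : 0 < δ)
    (hδ1 : δ ≤ 3 / 4 + 2 * d) (hF : 11 * d ≤ F)
    (hY4 : ∀ v, 0 ≤ v → v ≤ 1 → MB r i (Multiset.replicate 4 v) (1 + 11 / 12 * u)
      (2 / 3 * ((6 + u) - i) + 6 * d))
    (hY3 : ∀ v, 0 ≤ v → v ≤ 1 → MB r i (Multiset.replicate 3 v) ((19 + 7 * u) / 9)
      (2 / 3 * ((6 + u) - i) + 6 * d)) :
    C1 (7 / 8 + d) r i 1 φ δ
      (5 + 2 / 3 * u + i / 3 + F - 5 * φ - (3 / 2 + 5 / 6 * u + 1 / 45) * δ) := by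
  rcases le_or_gt (φ + (1 / 2 - u / 12 + 1 / 45) * δ) (1 + (F - 6 * d)) with h4 | h4
  · refine Or.inr (Or.inl ⟨4, 1 + 11 / 12 * u, 2 / 3 * ((6 + u) - i) + 6 * d, by linarith,
      fun v h0 h1 _ => hY4 v h0 h1, ?_⟩)
    push_cast
    linarith
  rcases le_or_gt (2 * φ - (11 / 18 - u / 18 - 1 / 45) * δ) (1 + (F - 6 * d)) with h3 | h3
  · refine Or.inr (Or.inl ⟨3, (19 + 7 * u) / 9, 2 / 3 * ((6 + u) - i) + 6 * d, by linarith,
      fun v h0 h1 _ => hY3 v h0 h1, ?_⟩)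
    push_cast
    linarith
  have hlev := fun (k f : ℝ) (hk : 5 ≤ k) (hf : 0 ≤ f) (hf1 : f ≤ 1) =>
    lev_6 (φ := φ) (δ := δ) hu hu1 (by linarith) (by linarith) hk hf hf1
  have hφ : 2 / 3 ≤ φ := by
    have := hlev 5 0 le_rfl le_rfl zero_le_one
    linarith
  have hdu := mul_nonneg hd (by linarith : 0 ≤ 3 / 4 - u)
  have hdu' := mul_nonneg hd hu
  rcases le_total i 4 with hi4 | hi4
  · -- two lumps
    refine Or.inr (Or.inl ?_)
    rcases le_total i 2 with hi2 | hi2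
    · refine ⟨2, 0, 0, le_rfl, fun v h0 h1 hvi => ?_, ?_⟩
      · have e : (Multiset.replicate 2 v : Multiset ℝ) = {v, v} := rfl
        have := R.tf i v v h0 h0 hvi hvi
        rw [e]
        exact ⟨by rw [sum_pair]; linarith, by rw [sum_pair]; linarith⟩
      · have h1 := mul_nonneg (by linarith : 0 ≤ 3 / 2 + 5 / 6 * u + 1 / 45)
          (by linarith : 0 ≤ 3 / 4 + 2 * d - δ)
        push_cast
        linarith
    · have hg : 0 ≤ 7 / 9 * (i - 2) := by linarith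
      have hdg := mul_nonneg hd (by linarith : 0 ≤ 4 - i)
      refine ⟨2, 7 / 9 * (i - 2), 2 * d * (7 / 9 * (i - 2)), hg, fun v h0 h1 hvi => ?_, ?_⟩
      · have e : (Multiset.replicate 2 v : Multiset ℝ) = {v, v} := rfl
        have a1 := C5_720.E2 R hd hi h0 h0 h1 h1 hvi hvi hg (le_refl (0 : ℝ)) (by linarith)
          (le_refl (0 : ℝ)) (by linarith)
        have a2 := C5_720.E2 R hd hi h0 h0 h1 h1 hvi hvi (le_refl (0 : ℝ)) hg (by linarith)
          (le_refl (0 : ℝ)) (by linarith)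
        rw [e]
        exact ⟨by rw [sum_pair]; linarith, by rw [sum_pair]; linarith⟩
      · push_cast
        rcases le_total (7 / 9 * (i - 2)) (3 / 2 + 5 / 6 * u + 1 / 45) with hc | hc
        · have h1 := mul_nonneg
            (by linarith : 0 ≤ 3 / 2 + 5 / 6 * u + 1 / 45 - 7 / 9 * (i - 2))
            (by linarith : 0 ≤ 3 / 4 + 2 * d - δ)
          linarith
        · have h1 := mul_nonneg
            (by linarith : 0 ≤ 7 / 9 * (i - 2) - (3 / 2 + 5 / 6 * u + 1 / 45)) hδ0.le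
          linarith
  refine Or.inl ?_
  rcases le_total i (9 / 2) with hi1 | hi1
  · -- `k = 5`
    refine ⟨5, 4 / 3 * i - 5, by linarith, Or.inl ⟨?_, ?_⟩, ?_⟩
    · push_cast; linarith
    · have := hlev 5 (4 / 3 * i - 5) le_rfl (by linarith) (by linarith)
      push_cast; linarith
    · have h1 := mul_nonneg
        (by linarith : 0 ≤ 3 / 2 + 5 / 6 * u + 1 / 45 - (4 / 3 * i - 5))
        (by linarith : 0 ≤ 3 / 4 + 2 * d - δ)
      have h2 := mul_nonneg hd (by linarith : 0 ≤ 4 / 3 * i - 5)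
      push_cast; linarith
  rcases le_total i (21 / 4) with hi2 | hi2
  · -- `k = 6`
    refine ⟨6, 4 / 3 * i - 6, by linarith, Or.inl ⟨?_, ?_⟩, ?_⟩
    · push_cast; linarith
    · have := hlev 6 (4 / 3 * i - 6) (by norm_num) (by linarith) (by linarith)
      push_cast; linarith
    · have h1 := mul_nonneg
        (by linarith : 0 ≤ 3 / 2 + 5 / 6 * u + 1 / 45 - (4 / 3 * i - 6))
        (by linarith : 0 ≤ 3 / 4 + 2 * d - δ)
      have h2 := mul_nonneg hd (by linarith : 0 ≤ 4 / 3 * i - 6)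
      push_cast; linarith
  rcases le_total i 6 with hi3 | hi3
  · -- `k = 7`
    refine ⟨7, 4 / 3 * i - 7, by linarith, Or.inl ⟨?_, ?_⟩, ?_⟩
    · push_cast; linarith
    · have := hlev 7 (4 / 3 * i - 7) (by norm_num) (by linarith) (by linarith)
      push_cast; linarith
    · have h2 := mul_nonneg hd (by linarith : 0 ≤ 4 / 3 * i - 7)
      rcases le_total (4 / 3 * i - 7) (14 / 15 + 8 / 9 * u) with hc | hc
      · have h1 := mul_nonneg (by linarith : 0 ≤ 14 / 15 + 8 / 9 * u - (4 / 3 * i - 7))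
          (by linarith : 0 ≤ 3 / 4 + 2 * d - δ)
        push_cast; linarith
      · have h1 := mul_nonneg (by linarith : 0 ≤ (4 / 3 * i - 7) - (14 / 15 + 8 / 9 * u)) hδ0.le
        push_cast; linarith
  · -- `k = 8`
    refine ⟨8, 4 / 3 * i - 8, by linarith, Or.inl ⟨?_, ?_⟩, ?_⟩
    · push_cast; linarith
    · have := hlev 8 (4 / 3 * i - 8) (by norm_num) (by linarith) (by linarith)
      push_cast; linarith
    · have h1 := mul_nonneg (by linarith : 0 ≤ 4 / 3 * u - (4 / 3 * i - 8))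
        (by linarith : 0 ≤ 3 / 4 + 2 * d - δ)
      have h2 := mul_nonneg (by linarith : 0 ≤ 23 / 36 - 5 / 12 * u)
        (by linarith : 0 ≤ 3 / 4 + 2 * d - δ)
      have h3 := mul_nonneg hd (by linarith : 0 ≤ 4 / 3 * i - 8)
      push_cast; linarith

/-- **six lumps**, `{1^6 | 5/6 κ - 6 + 1/45}`, `κ = 9 + u` -/
theorem sid6 (R : ExpRules (7 / 8 + d) r s) (Lv : ExpLv (7 / 8 + d) r) (hd : 0 ≤ d)
    (hd8 : d ≤ 1 / 8) {u F : ℝ} (hu : 0 ≤ u) (hu1 : u ≤ 3 / 4) (hF : 11 * d ≤ F) :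
    C1S744.Sid r (9 + u) 6 1 (3 / 2 + 5 / 6 * u + 1 / 45) F := by
  have hF0 : 0 ≤ F := by linarith
  refine sid_of_col (q := 5) R (by linarith) hF0 (by push_cast; linarith) ?_
  intro Z m a hZc hZ hm ha hma
  have hY4 := sidY4 R hd hu hu1
  have hY3 := sidY3 R hd hu hu1
  refine colX_eq Lv (by linarith) (w := 1) (fun y hy => (hZ y hy).2) zero_le_one hF0 ?_ ?_
  · intro i hi hii
    have hcard : ((Multiset.card Z : ℕ) : ℝ) = 5 := by rw [hZc]; norm_num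
    rw [hcard]
    have hiu : i ≤ 6 + u := by linarith
    refine ⟨?_, ?_, ?_⟩
    · intro φ δ _ hφ1 hδ0 hδ1
      have h := H1_6 R (i := i) (φ := φ) (δ := δ) hd hu hu1 hi hiu (by linarith) hδ0
        (by linarith) hF (fun v h0 h1 => mb_down hY4 hi hiu (by linarith) le_rfl h0 h1)
        fun v h0 h1 => mb_down hY3 hi hiu (by linarith) le_rfl h0 h1
      refine C1.mono h ?_
      have := mul_le_mul_of_nonneg_right hma hδ0.le
      linarith
    · intro φ _ hφ1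
      refine Or.inl ⟨4, 2 / 3 * ((6 + u) - i) + 6 * d, fun v h0 h1 _ =>
        mb_down hY4 hi hiu le_rfl (by linarith) h0 h1, ?_⟩
      push_cast
      linarith
    · intro δ hδ0 _
      refine Or.inr (Or.inl ⟨3 / 2 + 5 / 6 * u + 1 / 45, 2 / 3 * ((6 + u) - i), by linarith,
        mb_zero R hi hiu (by linarith) (by linarith), ?_⟩)
      have := mul_le_mul_of_nonneg_right hma hδ0.le
      linarith
  · intro Z' m' a' hZ' hm0 hm1 ha0 ha1 _
    have := hZ'.sum_nonneg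
    have h1 : 2 * d * m' ≤ 2 * (1 / 8) * m' := mul_le_mul_of_nonneg_right (by linarith) hm0
    linarith

/-! ### the window -/

/-- the loss of 645 / 744 -/
theorem loss_lb {d μ u : ℝ} (hd : 0 ≤ d) (hμ : 0 ≤ μ) (hμ1 : 72 * μ ≤ 1 - 8 * d)
    (hμ2 : 9 * μ ≤ d) (hu : 0 ≤ u) (hu1 : u ≤ 3 / 4) :
    11 * d ≤ (4 / 3 * d - μ) * (9 + u) ∧
      0 ≤ 7 / 32 - u / 12 - 2 * d * (51 / 8 + u) + (4 / 3 * d - μ) * (9 + u) := by
  have h1 := mul_nonneg (by linarith : 0 ≤ d - 9 * μ) hu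
  have h2 := mul_nonneg (by linarith : 0 ≤ 1 - 8 * d - 72 * μ) hu
  have h3 := mul_nonneg hd hu
  have h4 := mul_nonneg hd (by linarith : 0 ≤ 3 / 4 - u)
  have h5 := mul_nonneg hμ hu
  have h6 := mul_nonneg (by linarith : 0 ≤ 1 - 8 * d) (by linarith : 0 ≤ 3 / 4 - u)
  exact ⟨by linarith, by linarith⟩

/-- `Win` for `κ = 9 + u`, lumps `1` -/
theorem win2_one {d μ : ℝ} (R : ExpRules (7 / 8 + d) r s) (Lv : ExpLv (7 / 8 + d) r)
    (hd : 0 ≤ d) (hμ : 0 ≤ μ) (hμ1 : 72 * μ ≤ 1 - 8 * d) (hμ2 : 9 * μ ≤ d) {κ : ℝ}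
    (h9 : 9 ≤ κ) (h39 : κ ≤ 39 / 4) : Ey645.Win r κ 1 ((4 / 3 * d - μ) * κ) := by
  obtain ⟨u, hu⟩ : ∃ u, u = κ - 9 := ⟨_, rfl⟩
  have hκ : κ = 9 + u := by linarith
  subst hκ
  have hu0 : 0 ≤ u := by linarith
  have hu1 : u ≤ 3 / 4 := by linarith
  have hd8 : d ≤ 1 / 8 := by linarith
  obtain ⟨hF, hG⟩ := loss_lb hd hμ hμ1 hμ2 hu0 hu1
  refine ⟨6, 3 / 2 + 5 / 6 * u + 1 / 45, 3 / 8 + u, 2 / 3 * u, by linarith, by linarith, ?_,
    by linarith, by linarith, sid6 R Lv hd hd8 hu0 hu1 hF, sid7 R Lv hd hd8 hu0 hu1 hF hG, ?_⟩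
  · push_cast; ring
  · nlinarith [sq_nonneg (u - 53 / 120)]

/-! ### lumps of any length -/

/-- from lumps `1` to lumps `w` -/
theorem sid_unscale {w κ c F : ℝ} {q : ℕ} (hw : 0 < w) (H : C1S744.Sid (sc w r) κ q 1 c F) :
    C1S744.Sid r (w * κ) q w (w * c) (w * F) := by
  intro Y m a hY hYw hm ha hma κ' h0 h1
  have hw' : 0 < w⁻¹ := inv_pos.2 hw
  have key := H (Y.map (w⁻¹ * ·)) (w⁻¹ * m) (w⁻¹ * a) (by rw [Multiset.card_map]; exact hY) ?_
    (mul_nonneg hw'.le hm) (mul_nonneg hw'.le ha) ?_ (w⁻¹ * κ') (mul_nonneg hw'.le h0) ?_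
  · have e1 : ∀ x : ℝ, w * (w⁻¹ * x) = x := fun x => by field_simp
    have e2 := sc_eq hw r (w⁻¹ * κ') (Y.map (w⁻¹ * ·)) (w⁻¹ * m) (w⁻¹ * a)
    rw [sc_map_inv hw, e1, e1, e1] at e2
    rw [e2]
    have e3 : (Y.map (w⁻¹ * ·)).sum = w⁻¹ * Y.sum := sc_map_sum _ Y
    rw [e3] at key
    have e4 := mul_le_mul_of_nonneg_left key hw.le
    have e5 : w * (sc w r (w⁻¹ * κ') (Y.map (w⁻¹ * ·)) (w⁻¹ * m) (w⁻¹ * a) +
        (κ - w⁻¹ * κ') / 3) =
        w * sc w r (w⁻¹ * κ') (Y.map (w⁻¹ * ·)) (w⁻¹ * m) (w⁻¹ * a) + (w * κ - κ') / 3 := by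
      have := e1 κ'
      linear_combination (-1 / 3 : ℝ) * this
    have e6 : w * (κ + (w⁻¹ * Y.sum + w⁻¹ * m + w⁻¹ * a) + F) =
        w * κ + (Y.sum + m + a) + w * F := by
      have a1 := e1 Y.sum
      have a2 := e1 m
      have a3 := e1 a
      linear_combination a1 + a2 + a3
    rw [e5, e6] at e4
    exact e4
  · intro y hy
    obtain ⟨x, hx, rfl⟩ := Multiset.mem_map.1 hy
    exact ⟨mul_nonneg hw'.le (hYw x hx).1, by rw [inv_mul_le_iff₀ hw, mul_one]; exact (hYw x hx).2⟩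
  · rw [← mul_add, inv_mul_le_iff₀ hw]; exact hma
  · rw [inv_mul_le_iff₀ hw]; exact h1

/-- from lumps `1` to lumps `w`, windows -/
theorem win_unscale {w κ F : ℝ} (hw : 0 < w) (H : Ey645.Win (sc w r) κ 1 F) :
    Ey645.Win r (w * κ) w (w * F) := by
  obtain ⟨q, c₀, c₁, l, h0, h1, h2, h3, h4, h5, h6, h7⟩ := H
  refine ⟨q, w * c₀, w * c₁, l, h0, h1, ?_, mul_nonneg hw.le h3, mul_nonneg hw.le h4,
    sid_unscale hw h5, sid_unscale hw h6, ?_⟩
  · linear_combination w * h2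
  · have := mul_le_mul_of_nonneg_left h7 hw.le
    linarith

/-- **the field `w2` of 645's `Inp`** -/
theorem win2 {d μ : ℝ} (R : ExpRules (7 / 8 + d) r s) (Lv : ExpLv (7 / 8 + d) r)
    (hd : 0 ≤ d) (hμ : 0 ≤ μ) (hμ1 : 72 * μ ≤ 1 - 8 * d) (hμ2 : 9 * μ ≤ d) (κ w : ℝ)
    (hw : 0 < w) (h9 : 9 * w ≤ κ) (h39 : κ ≤ 39 / 4 * w) :
    Ey645.Win r κ w ((4 / 3 * d - μ) * κ) := by
  have h := win_unscale hw (win2_one (R.scale hw) (Lv.scale hw) hd hμ hμ1 hμ2 (κ := κ / w)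
    (by rw [le_div_iff₀ hw]; exact h9) (by rw [div_le_iff₀ hw]; exact h39))
  have e1 : w * (κ / w) = κ := by field_simp
  have e2 : w * ((4 / 3 * d - μ) * (κ / w)) = (4 / 3 * d - μ) * κ := by field_simp
  rw [e1, e2] at h
  exact h

end Crest.Agent.R017.C1w2_83
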