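import Crest.Agent.R017.C1w2_83

/-!
# Row 17, section D, C1: the longer member of the window `9 + 1/5 ≤ κ ≤ 39/4` (helper83)

`sid6b` : `{1^6 | 5/6 κ - 6 + 1/28}`, `κ = 9 + u`, `1/5 ≤ u ≤ 3/4` (for the mixture at `κ + 3`).
-/

set_option autoImplicit false

noncomputable section

namespace Crest.Agent.R017.C1w2_83

open Crest.Agent.R017.ER911 Crest.Agent.R017.SC777 Crest.Agent.R017.CE645

variable {θ d : ℝ} {r s : EF}

/-- the levels left by the sides with four and three lumps -/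
theorem lev_6b {u φ δ : ℝ} (hu : 1 / 5 ≤ u) (hu1 : u ≤ 3 / 4)
    (h4 : 1 ≤ φ + (1 / 2 - u / 12 + 1 / 28) * δ)
    (h3 : 1 ≤ 2 * φ - (11 / 18 - u / 18 - 1 / 28) * δ) {k f : ℝ} (hk : 5 ≤ k) (hf : 0 ≤ f)
    (hf1 : f ≤ 1) : 2 / 3 * (k + f) ≤ k * φ + f * δ := by
  have hN : 0 < 29 / 18 - 2 / 9 * u + 1 / 28 := by linarith
  have hA : 0 ≤ k * (11 / 18 - u / 18 - 1 / 28) + 2 * f := by
    have := mul_nonneg (by linarith : 0 ≤ k) (by linarith : 0 ≤ 11 / 18 - u / 18 - 1 / 28)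
    linarith
  have hB : 0 ≤ k * (1 / 2 - u / 12 + 1 / 28) - f := by
    have := mul_nonneg (by linarith : 0 ≤ k - 5) (by linarith : 0 ≤ 1 / 2 - u / 12 + 1 / 28)
    linarith
  have h1 := mul_nonneg hA (by linarith : 0 ≤ φ + (1 / 2 - u / 12 + 1 / 28) * δ - 1)
  have h2 := mul_nonneg hB (by linarith : 0 ≤ 2 * φ - (11 / 18 - u / 18 - 1 / 28) * δ - 1)
  have hR : 0 ≤ k / 3 * (5 / 126 + u / 36) - f * (37 / 378 - 4 / 27 * u) := by
    have e1 := mul_nonneg (by linarith : 0 ≤ k - 5) (by linarith : 0 ≤ 5 / 126 + u / 36)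
    have e2 := mul_nonneg hf (by linarith : 0 ≤ u - 1 / 5)
    linarith
  have key : (29 / 18 - 2 / 9 * u + 1 / 28) * (k * φ + f * δ - 2 / 3 * (k + f)) =
      (k * (11 / 18 - u / 18 - 1 / 28) + 2 * f) * (φ + (1 / 2 - u / 12 + 1 / 28) * δ - 1) +
      (k * (1 / 2 - u / 12 + 1 / 28) - f) * (2 * φ - (11 / 18 - u / 18 - 1 / 28) * δ - 1) +
      (k / 3 * (5 / 126 + u / 36) - f * (37 / 378 - 4 / 27 * u)) := by ring
  have h5 : 0 ≤ (29 / 18 - 2 / 9 * u + 1 / 28) * (k * φ + f * δ - 2 / 3 * (k + f)) := by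
    rw [key]; linarith
  have := (mul_nonneg_iff_of_pos_left hN).1 h5
  linarith

/-- a column `i` of `{1^5 | 3/2 + 5/6 u + 1/45}`, both kinds of mass -/
theorem H1_6b (R : ExpRules (7 / 8 + d) r s) {u i φ δ F : ℝ} (hd : 0 ≤ d)
    (hu5 : 1 / 5 ≤ u) (hu1 : u ≤ 3 / 4)
    (hi : 0 ≤ i) (hiu : i ≤ 6 + u) (hφ1 : φ ≤ 3 / 4 + 2 * d) (hδ0 : 0 < δ)
    (hδ1 : δ ≤ 3 / 4 + 2 * d) (hF : 11 * d ≤ F)
    (hY4 : ∀ v, 0 ≤ v → v ≤ 1 → MB r i (Multiset.replicate 4 v) (1 + 11 / 12 * u)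
      (2 / 3 * ((6 + u) - i) + 6 * d))
    (hY3 : ∀ v, 0 ≤ v → v ≤ 1 → MB r i (Multiset.replicate 3 v) ((19 + 7 * u) / 9)
      (2 / 3 * ((6 + u) - i) + 6 * d)) :
    C1 (7 / 8 + d) r i 1 φ δ
      (5 + 2 / 3 * u + i / 3 + F - 5 * φ - (3 / 2 + 5 / 6 * u + 1 / 28) * δ) := by
  have hu : 0 ≤ u := by linarith
  rcases le_or_gt (φ + (1 / 2 - u / 12 + 1 / 28) * δ) (1 + (F - 6 * d)) with h4 | h4
  · refine Or.inr (Or.inl ⟨4, 1 + 11 / 12 * u, 2 / 3 * ((6 + u) - i) + 6 * d, by linarith,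
      fun v h0 h1 _ => hY4 v h0 h1, ?_⟩)
    push_cast
    linarith
  rcases le_or_gt (2 * φ - (11 / 18 - u / 18 - 1 / 28) * δ) (1 + (F - 6 * d)) with h3 | h3
  · refine Or.inr (Or.inl ⟨3, (19 + 7 * u) / 9, 2 / 3 * ((6 + u) - i) + 6 * d, by linarith,
      fun v h0 h1 _ => hY3 v h0 h1, ?_⟩)
    push_cast
    linarith
  have hlev := fun (k f : ℝ) (hk : 5 ≤ k) (hf : 0 ≤ f) (hf1 : f ≤ 1) =>
    lev_6b (φ := φ) (δ := δ) hu5 hu1 (by linarith) (by linarith) hk hf hf1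
  have hφ : 2 / 3 ≤ φ := by
    have := hlev 5 0 le_rfl le_rfl zero_le_one
    linarith
  have hdu := mul_nonneg hd (by linarith : 0 ≤ 3 / 4 - u)
  have hdu' := mul_nonneg hd hu
  rcases le_total i 4 with hi4 | hi4
  · -- two lumps
    refine Or.inr (Or.inl ?_)
    rcases le_total i 2 with hi2 | hi2
    · refine ⟨2, 0, 0, le_rfl, fun v h0 h1 hvi => ?_, ?_⟩
      · have e : (Multiset.replicate 2 v : Multiset ℝ) = {v, v} := rfl
        have := R.tf i v v h0 h0 hvi hvi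
        rw [e]
        exact ⟨by rw [sum_pair]; linarith, by rw [sum_pair]; linarith⟩
      · have h1 := mul_nonneg (by linarith : 0 ≤ 3 / 2 + 5 / 6 * u + 1 / 28)
          (by linarith : 0 ≤ 3 / 4 + 2 * d - δ)
        push_cast
        linarith
    · have hg : 0 ≤ 7 / 9 * (i - 2) := by linarith
      have hdg := mul_nonneg hd (by linarith : 0 ≤ 4 - i)
      refine ⟨2, 7 / 9 * (i - 2), 2 * d * (7 / 9 * (i - 2)), hg, fun v h0 h1 hvi => ?_, ?_⟩
      · have e : (Multiset.replicate 2 v : Multiset ℝ) = {v, v} := rfl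
        have a1 := C5_720.E2 R hd hi h0 h0 h1 h1 hvi hvi hg (le_refl (0 : ℝ)) (by linarith)
          (le_refl (0 : ℝ)) (by linarith)
        have a2 := C5_720.E2 R hd hi h0 h0 h1 h1 hvi hvi (le_refl (0 : ℝ)) hg (by linarith)
          (le_refl (0 : ℝ)) (by linarith)
        rw [e]
        exact ⟨by rw [sum_pair]; linarith, by rw [sum_pair]; linarith⟩
      · push_cast
        rcases le_total (7 / 9 * (i - 2)) (3 / 2 + 5 / 6 * u + 1 / 28) with hc | hc
        · have h1 := mul_nonneg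
            (by linarith : 0 ≤ 3 / 2 + 5 / 6 * u + 1 / 28 - 7 / 9 * (i - 2))
            (by linarith : 0 ≤ 3 / 4 + 2 * d - δ)
          linarith
        · have h1 := mul_nonneg
            (by linarith : 0 ≤ 7 / 9 * (i - 2) - (3 / 2 + 5 / 6 * u + 1 / 28)) hδ0.le
          linarith
  refine Or.inl ?_
  rcases le_total i (9 / 2) with hi1 | hi1
  · -- `k = 5`
    refine ⟨5, 4 / 3 * i - 5, by linarith, Or.inl ⟨?_, ?_⟩, ?_⟩
    · push_cast; linarith
    · have := hlev 5 (4 / 3 * i - 5) le_rfl (by linarith) (by linarith)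
      push_cast; linarith
    · have h1 := mul_nonneg
        (by linarith : 0 ≤ 3 / 2 + 5 / 6 * u + 1 / 28 - (4 / 3 * i - 5))
        (by linarith : 0 ≤ 3 / 4 + 2 * d - δ)
      have h2 := mul_nonneg hd (by linarith : 0 ≤ 4 / 3 * i - 5)
      push_cast; linarith
  rcases le_total i (21 / 4) with hi2 | hi2
  · -- `k = 6`
    refine ⟨6, 4 / 3 * i - 6, by linarith, Or.inl ⟨?_, ?_⟩, ?_⟩
    · push_cast; linarith
    · have := hlev 6 (4 / 3 * i - 6) (by norm_num) (by linarith) (by linarith)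
      push_cast; linarith
    · have h1 := mul_nonneg
        (by linarith : 0 ≤ 3 / 2 + 5 / 6 * u + 1 / 28 - (4 / 3 * i - 6))
        (by linarith : 0 ≤ 3 / 4 + 2 * d - δ)
      have h2 := mul_nonneg hd (by linarith : 0 ≤ 4 / 3 * i - 6)
      push_cast; linarith
  rcases le_total i 6 with hi3 | hi3
  · -- `k = 7`
    refine ⟨7, 4 / 3 * i - 7, by linarith, Or.inl ⟨?_, ?_⟩, ?_⟩
    · push_cast; linarith
    · have := hlev 7 (4 / 3 * i - 7) (by norm_num) (by linarith) (by linarith)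
      push_cast; linarith
    · have h2 := mul_nonneg hd (by linarith : 0 ≤ 4 / 3 * i - 7)
      rcases le_total (4 / 3 * i - 7) (121 / 126 + 8 / 9 * u) with hc | hc
      · have h1 := mul_nonneg (by linarith : 0 ≤ 121 / 126 + 8 / 9 * u - (4 / 3 * i - 7))
          (by linarith : 0 ≤ 3 / 4 + 2 * d - δ)
        push_cast; linarith
      · have h1 := mul_nonneg (by linarith : 0 ≤ (4 / 3 * i - 7) - (121 / 126 + 8 / 9 * u)) hδ0.le
        push_cast; linarith
  · -- `k = 8`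
    have h1 := mul_nonneg (by linarith : 0 ≤ 4 / 3 * u - (4 / 3 * i - 8))
      (by linarith : 0 ≤ 3 / 4 + 2 * d - δ)
    have h3 := mul_nonneg hd (by linarith : 0 ≤ 4 / 3 * i - 8)
    rcases le_or_gt 0 (5 + 2 / 3 * u - i + F + 3 * φ +
      (4 / 3 * i - 8 - (3 / 2 + 5 / 6 * u + 1 / 28)) * δ) with hW | hW
    · refine ⟨8, 4 / 3 * i - 8, by linarith, Or.inl ⟨?_, ?_⟩, ?_⟩
      · push_cast; linarith
      · have := hlev 8 (4 / 3 * i - 8) (by norm_num) (by linarith) (by linarith)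
        push_cast; linarith
      · push_cast; linarith
    · have hδ2 : 83 / 120 ≤ δ := by
        by_contra hc
        have h2 := mul_nonneg (by linarith : 0 ≤ 113 / 168 - 5 / 12 * u)
          (by linarith : 0 ≤ 83 / 120 - δ)
        linarith
      have h4 := mul_nonneg hu (by linarith : 0 ≤ δ - 83 / 120)
      refine ⟨0, 4 / 3 * i, by linarith, Or.inl ⟨?_, ?_⟩, ?_⟩
      · push_cast; linarith
      · have := mul_nonneg (by linarith : 0 ≤ 4 / 3 * i) (by linarith : 0 ≤ δ - 2 / 3)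
        push_cast; linarith
      · push_cast; linarith

/-- **six lumps**, `{1^6 | 5/6 κ - 6 + 1/45}`, `κ = 9 + u` -/
theorem sid6b (R : ExpRules (7 / 8 + d) r s) (Lv : ExpLv (7 / 8 + d) r) (hd : 0 ≤ d)
    (hd8 : d ≤ 1 / 8) {u F : ℝ} (hu5 : 1 / 5 ≤ u) (hu1 : u ≤ 3 / 4) (hF : 11 * d ≤ F) :
    C1S744.Sid r (9 + u) 6 1 (3 / 2 + 5 / 6 * u + 1 / 28) F := by
  have hF0 : 0 ≤ F := by linarith
  have hu : 0 ≤ u := by linarith
  refine sid_of_col (q := 5) R (by linarith) hF0 (by push_cast; linarith) ?_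
  intro Z m a hZc hZ hm ha hma
  have hY4 := sidY4 R hd hu hu1
  have hY3 := sidY3 R hd hu hu1
  refine colX_eq Lv (by linarith) (w := 1) (fun y hy => (hZ y hy).2) zero_le_one hF0 ?_ ?_
  · intro i hi hii
    have hcard : ((Multiset.card Z : ℕ) : ℝ) = 5 := by rw [hZc]; norm_num
    rw [hcard]
    have hiu : i ≤ 6 + u := by linarith
    refine ⟨?_, ?_, ?_⟩
    · intro φ δ _ hφ1 hδ0 hδ1
      have h := H1_6b R (i := i) (φ := φ) (δ := δ) hd hu5 hu1 hi hiu (by linarith) hδ0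
        (by linarith) hF (fun v h0 h1 => mb_down hY4 hi hiu (by linarith) le_rfl h0 h1)
        fun v h0 h1 => mb_down hY3 hi hiu (by linarith) le_rfl h0 h1
      refine C1.mono h ?_
      have := mul_le_mul_of_nonneg_right hma hδ0.le
      linarith
    · intro φ _ hφ1
      refine Or.inl ⟨4, 2 / 3 * ((6 + u) - i) + 6 * d, fun v h0 h1 _ =>
        mb_down hY4 hi hiu le_rfl (by linarith) h0 h1, ?_⟩
      push_cast
      linarith
    · intro δ hδ0 _
      refine Or.inr (Or.inl ⟨3 / 2 + 5 / 6 * u + 1 / 28, 2 / 3 * ((6 + u) - i), by linarith,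
        mb_zero R hi hiu (by linarith) (by linarith), ?_⟩)
      have := mul_le_mul_of_nonneg_right hma hδ0.le
      linarith
  · intro Z' m' a' hZ' hm0 hm1 ha0 ha1 _
    have := hZ'.sum_nonneg
    have h1 : 2 * d * m' ≤ 2 * (1 / 8) * m' := mul_le_mul_of_nonneg_right (by linarith) hm0
    linarith

end Crest.Agent.R017.C1w2_83
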