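import Crest.Agent.R017.C1w_393
import Crest.Agent.R017.C1w1_61

/-!
# Row 17, section D, small lumps: five lumps, total `5/6 κ + 1/16`, `15/2 ≤ κ ≤ 61/8` (helper393)

`idl5v` : `{1⁵ | 5/6 κ - 5 + 1/16}` is ideal up to `2 d (5/6 κ + 1/16 - 2)` for
`15/2 ≤ κ ≤ 61/8`; `idl5long` : the same for `15/2 w ≤ κ ≤ 33/4 w` (with 61's `idl5u`).
-/

set_option autoImplicit false

noncomputable section

namespace Crest.Agent.R017.C1W393

open Crest.Agent.R017.ER911 Crest.Agent.R017.SC777 Crest.Agent.R017.CE645 Crest.Agent.R017.C161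

variable {θ d : ℝ} {r s : EF}

/-! ### real inequalities -/

theorem r5a {κ i f δ : ℝ} (hk0 : 15 / 2 ≤ κ) (hk1 : κ ≤ 61 / 8) (hi0 : 2 ≤ i)
    (hi1 : i ≤ 15 / 4) (hki : i ≤ κ - 3) (hf : f ≤ 3 / 4) (hδ0 : 0 ≤ δ) (hδ1 : δ ≤ 3 / 4) :
    (i + 2 * f + (5 / 6 * κ - 5 + 1 / 16 - 7 / 9 * (i - 2)) * δ ≤ (2 * κ + i) / 3 - 1) := by
  by_contra hcon
  have gM2 := not_le.1 hcon
  have hM2 := sub_pos.2 gM2
  have bd0 := hδ0
  have bd1 := sub_nonneg.2 hδ1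
  have bf := sub_nonneg.2 hf
  have bki : 0 ≤ κ - 3 - i := sub_nonneg.2 hki
  have bi0 := sub_nonneg.2 hi0
  have bi1 := sub_nonneg.2 hi1
  have bk0 := sub_nonneg.2 hk0
  have bk1 := sub_nonneg.2 hk1
  linarith [hM2, mul_nonneg bi0 bd0, mul_nonneg bi1 bd0, mul_nonneg bi1 bd1, mul_nonneg bk0 bd0, mul_nonneg bk0 bd1, bf]

theorem r5b {κ i f δ : ℝ} (hk0 : 15 / 2 ≤ κ) (hk1 : κ ≤ 61 / 8) (hi0 : 15 / 4 ≤ i)
    (hi1 : i ≤ 9 / 2) (hki : i ≤ κ - 3) (hf : f ≤ 3 / 4) (hδ0 : 0 ≤ δ) (hδ1 : δ ≤ 3 / 4) :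
    (i + 2 * f + (5 / 6 * κ - 5 + 1 / 16 - 7 / 9 * (i - 2)) * δ ≤ (2 * κ + i) / 3 - 1) ∨
    (i + (9 / 2 - i) / 3 + f + (5 / 6 * κ - 5 + 1 / 16 - (i - 9 / 4) / 3) * δ ≤ (2 * κ + i) / 3 - 1) ∨
    (i + 2 / 3 * (5 - i)  + (5 / 6 * κ - 5 + 1 / 16) * δ ≤ (2 * κ + i) / 3 - 1) ∨
    (2 / 3 * (4 / 3 * i) ≤ 5 * f + (4 / 3 * i - 5) * δ ∧ 4 / 3 * i - f + (5 / 6 * κ - 5 + 1 / 16 - (4 / 3 * i - 5)) * δ ≤ (2 * κ + i) / 3 - 1) ∨
    (2 / 3 ≤ f ∧ 6 - 2 * f + (5 / 6 * κ - 5 + 1 / 16) * δ ≤ (2 * κ + i) / 3 - 1) := by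
  by_contra hcon
  simp only [not_or, not_and, not_le] at hcon
  obtain ⟨gM2, gM3b, gM4_0, gLVx5, gLVr6⟩ := hcon
  have hM2 := sub_pos.2 gM2
  have hM3b := sub_pos.2 gM3b
  have hM4_0 := sub_pos.2 gM4_0
  have bd0 := hδ0
  have bd1 := sub_nonneg.2 hδ1
  have bf := sub_nonneg.2 hf
  have bki : 0 ≤ κ - 3 - i := sub_nonneg.2 hki
  have bi0 := sub_nonneg.2 hi0
  have bi1 := sub_nonneg.2 hi1
  have bk0 := sub_nonneg.2 hk0
  have bk1 := sub_nonneg.2 hk1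
  by_cases cLVx5 : 2 / 3 * (4 / 3 * i) ≤ 5 * f + (4 / 3 * i - 5) * δ
  · have hLVx5v := sub_pos.2 (gLVx5 cLVx5)
    by_cases cLVr6 : (2 / 3 : ℝ) ≤ f
    · have hLVr6v := sub_pos.2 (gLVr6 cLVr6)
      linarith [hM2, hLVx5v, mul_nonneg bi0 bd0, mul_nonneg bi1 bd0, mul_nonneg bi1 bd1, mul_nonneg bk0 bd0, mul_nonneg bk0 bd1]
    · have hLVr6i := sub_pos.2 (not_le.1 cLVr6)
      linarith [hM2, hM3b, hM4_0, hLVr6i, mul_nonneg bi1 bd0, mul_nonneg bi1 bd1, mul_nonneg bk0 bd0, mul_nonneg bk0 bd1]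
  · have hLVx5i := sub_pos.2 (not_le.1 cLVx5)
    by_cases cLVr6 : (2 / 3 : ℝ) ≤ f
    · have hLVr6v := sub_pos.2 (gLVr6 cLVr6)
      linarith [hM2, hM3b, hLVx5i, hLVr6v, mul_nonneg bi1 bd0, mul_nonneg bi1 bd1, mul_nonneg bk0 bd0, mul_nonneg bk0 bd1]
    · have hLVr6i := sub_pos.2 (not_le.1 cLVr6)
      linarith [hM2, hM3b, hM4_0, hLVr6i, mul_nonneg bi1 bd0, mul_nonneg bi1 bd1, mul_nonneg bk0 bd0, mul_nonneg bk0 bd1]

theorem r5c {κ i f δ : ℝ} (hk0 : 15 / 2 ≤ κ) (hk1 : κ ≤ 61 / 8) (hi0 : 9 / 2 ≤ i)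
    (hi1 : i ≤ 37 / 8) (hki : i ≤ κ - 3) (hf : f ≤ 3 / 4) (hδ0 : 0 ≤ δ) (hδ1 : δ ≤ 3 / 4) :
    (i + 2 * f + (5 / 6 * κ - 5 + 1 / 16 - 7 / 9 * (i - 2)) * δ ≤ (2 * κ + i) / 3 - 1) ∨
    (i + f + (5 / 6 * κ - 5 + 1 / 16 - (i - 15 / 4)) * δ ≤ (2 * κ + i) / 3 - 1) ∨
    (2 / 3 * (4 / 3 * i) ≤ 5 * f + (4 / 3 * i - 5) * δ ∧ 4 / 3 * i - f + (5 / 6 * κ - 5 + 1 / 16 - (4 / 3 * i - 5)) * δ ≤ (2 * κ + i) / 3 - 1) ∨
    (2 / 3 * (4 / 3 * i) ≤ 6 * f + (4 / 3 * i - 6) * δ ∧ 4 / 3 * i - 2 * f + (5 / 6 * κ - 5 + 1 / 16 - (4 / 3 * i - 6)) * δ ≤ (2 * κ + i) / 3 - 1) := by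
  by_contra hcon
  simp only [not_or, not_and, not_le] at hcon
  obtain ⟨gM2, gM3t, gLVx5, gLVx6⟩ := hcon
  have hM2 := sub_pos.2 gM2
  have hM3t := sub_pos.2 gM3t
  have bd0 := hδ0
  have bd1 := sub_nonneg.2 hδ1
  have bf := sub_nonneg.2 hf
  have bki : 0 ≤ κ - 3 - i := sub_nonneg.2 hki
  have bi0 := sub_nonneg.2 hi0
  have bi1 := sub_nonneg.2 hi1
  have bk0 := sub_nonneg.2 hk0
  have bk1 := sub_nonneg.2 hk1
  by_cases cLVx5 : 2 / 3 * (4 / 3 * i) ≤ 5 * f + (4 / 3 * i - 5) * δ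
  · have hLVx5v := sub_pos.2 (gLVx5 cLVx5)
    by_cases cLVx6 : 2 / 3 * (4 / 3 * i) ≤ 6 * f + (4 / 3 * i - 6) * δ
    · have hLVx6v := sub_pos.2 (gLVx6 cLVx6)
      linarith [hM2, hLVx5v, hLVx6v, mul_nonneg bi1 bd1, mul_nonneg bk0 bd0, mul_nonneg bk0 bd1, mul_nonneg bki bd0, mul_nonneg bki bd1]
    · have hLVx6i := sub_pos.2 (not_le.1 cLVx6)
      linarith [hM2, hM3t, hLVx6i, mul_nonneg bi0 bd0, mul_nonneg bi1 bd1, mul_nonneg bk0 bd0, mul_nonneg bk0 bd1, mul_nonneg bki bd1]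
  · have hLVx5i := sub_pos.2 (not_le.1 cLVx5)
    by_cases cLVx6 : 2 / 3 * (4 / 3 * i) ≤ 6 * f + (4 / 3 * i - 6) * δ
    · have hLVx6v := sub_pos.2 (gLVx6 cLVx6)
      linarith [hM2, hM3t, hLVx5i, hLVx6v, mul_nonneg bi0 bd0, mul_nonneg bi1 bd1, mul_nonneg bk0 bd0, mul_nonneg bk0 bd1]
    · have hLVx6i := sub_pos.2 (not_le.1 cLVx6)
      linarith [hM2, hM3t, hLVx6i, mul_nonneg bi0 bd0, mul_nonneg bi1 bd1, mul_nonneg bk0 bd0, mul_nonneg bk0 bd1, mul_nonneg bki bd1]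


/-- the columns `{1⁴ | 5/6 κ - 5 + 1/16}` -/
theorem q5v_H1 (R : ExpRules (7 / 8 + d) r s) (hd : 0 ≤ d) {κ i F φ δ : ℝ} (hκ : 15 / 2 ≤ κ)
    (hκ9 : κ ≤ 61 / 8) (hi : 0 ≤ i) (hi3 : i ≤ κ - 3)
    (hF : 2 * d * (5 / 6 * κ + 1 / 16 - 2) ≤ F) (hφ : φ ≤ 3 / 4 + 2 * d) (hδ0 : 0 < δ)
    (hδ : δ ≤ 3 / 4 + 2 * d) :
    C1 (7 / 8 + d) r i 1 φ δ
      ((2 * κ + i) / 3 - 1 + F - 4 * φ - (5 / 6 * κ - 5 + 1 / 16) * δ) := by
  have hc0 : 0 ≤ 5 / 6 * κ - 5 + 1 / 16 := by linarith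
  rcases le_total δ (2 * d) with hδd | hδd
  · -- light granular mass
    have h1 := mul_le_mul_of_nonneg_left hδd hc0
    refine c1_mom 4 le_rfl (m4z R hd (by linarith) (by linarith)) ?_
    push_cast
    linarith
  rcases le_total i 2 with h2 | h2
  · refine c1_mom2 R hd (by linarith) (by linarith) ?_
    rw [max_eq_left (by linarith : 7 / 9 * (i - 2) ≤ 0)]
    have h1 := mul_le_mul_of_nonneg_left hδ hc0
    linarith
  obtain ⟨f, rfl⟩ : ∃ f, φ = f + 2 * d := ⟨φ - 2 * d, by ring⟩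
  obtain ⟨ε, rfl⟩ : ∃ ε, δ = ε + 2 * d := ⟨δ - 2 * d, by ring⟩
  have hf : f ≤ 3 / 4 := by linarith
  have hε0 : 0 ≤ ε := by linarith
  have hε1 : ε ≤ 3 / 4 := by linarith
  have hdi : 0 ≤ d * (i - 2) := mul_nonneg hd (by linarith)
  rcases le_total i (15 / 4) with ha | ha
  · have h := r5a hκ hκ9 h2 ha hi3 hf hε0 hε1
    refine c1_mom2 R hd (by linarith) (by linarith) ?_
    rw [max_eq_right (by linarith : 0 ≤ 7 / 9 * (i - 2))]
    linarith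
  rcases le_total i (9 / 2) with hb | hb
  · rcases r5b hκ hκ9 ha hb hi3 hf hε0 hε1 with h | h | h | ⟨h, h'⟩ | ⟨h, h'⟩
    · refine c1_mom2 R hd (by linarith) (by linarith) ?_
      rw [max_eq_right (by linarith : 0 ≤ 7 / 9 * (i - 2))]
      linarith
    · refine c1_mom 3 (by linarith) (m3b R hd (by linarith) (by linarith)) ?_
      push_cast
      linarith
    · refine c1_mom 4 le_rfl (m4z R hd (by linarith) (by linarith)) ?_
      push_cast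
      linarith
    · refine c1_x 5 hd (by linarith) (by push_cast; linarith) (by push_cast; linarith) le_rfl ?_
      push_cast
      linarith
    · refine c1_r 6 hd (by push_cast; linarith) h le_rfl ?_
      push_cast
      linarith
  · rcases r5c hκ hκ9 hb (by linarith) hi3 hf hε0 hε1 with h | h | ⟨h, h'⟩ | ⟨h, h'⟩
    · refine c1_mom2 R hd (by linarith) (by linarith) ?_
      rw [max_eq_right (by linarith : 0 ≤ 7 / 9 * (i - 2))]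
      linarith
    · refine c1_mom 3 (by linarith) (m3t R hd (by linarith) (by linarith)) ?_
      push_cast
      linarith
    · refine c1_x 5 hd (by linarith) (by push_cast; linarith) (by push_cast; linarith) le_rfl ?_
      push_cast
      linarith
    · refine c1_x 6 hd (by linarith) (by push_cast; linarith) (by push_cast; linarith) le_rfl ?_
      push_cast
      linarith

/-- the columns of `{1⁴ | 5/6 κ - 5 + 1/16}` -/
theorem q5v_col (R : ExpRules (7 / 8 + d) r s) (Lv : ExpLv (7 / 8 + d) r) (hd : 0 ≤ d)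
    {κ i F m a : ℝ} {Z : Multiset ℝ} (hκ : 15 / 2 ≤ κ) (hκ9 : κ ≤ 61 / 8)
    (hi0 : 0 ≤ i) (hi3 : i ≤ κ - 3) (hF : 2 * d * (5 / 6 * κ + 1 / 16 - 2) ≤ F)
    (hZ : Multiset.card Z = 4) (hZ1 : ∀ y ∈ Z, 0 ≤ y ∧ y ≤ 1) (hZi : ∀ y ∈ Z, y ≤ i)
    (hm : 0 ≤ m) (ha : 0 ≤ a) (hma : m + a ≤ 5 / 6 * κ - 5 + 1 / 16) :
    r i Z m a ≤ (Z.sum + m + a) + ((2 * κ + i) / 3 - 1 + F) := by
  have hc0 : 0 ≤ 5 / 6 * κ - 5 + 1 / 16 := by linarith
  have hF2 : 2 * d * 2 ≤ F := le_trans (mul_le_mul_of_nonneg_left (by linarith) (by linarith)) hF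
  have hF0 : 0 ≤ F := le_trans (by positivity) hF2
  have key := col_ms2 Lv (by linarith) (N := 4) (by norm_num) (Z := Z) (i := i) (M := m) (A := a)
    (T := (2 * κ + i) / 3 - 1 + F) (w := 1) (c := 5 / 6 * κ - 5 + 1 / 16) hZ hi0
    (fun y hy => ⟨(hZ1 y hy).1, hZi y hy, (hZ1 y hy).2⟩) hm ha hma
    (by linarith)
    (fun φ δ h1 h2 h3 h4 => by
      have := q5v_H1 R hd hκ hκ9 hi0 hi3 hF (φ := φ) (δ := δ) (by linarith) h3 (by linarith)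
      push_cast
      exact this)
    (fun φ h1 h2 => by
      left
      refine ⟨4, 2 / 3 * (5 - i) + 2 * d, fun u hu hu1 _ =>
        m4z R hd hi0 (by linarith) u hu hu1, ?_⟩
      push_cast
      linarith)
    (fun δ h1 h2 => by
      have hδ : δ ≤ 3 / 4 + 2 * d := by linarith
      rcases le_total i (15 / 4) with h5 | h5
      · right; right
        have := mul_le_mul_of_nonneg_left hδ hc0
        linarith
      · right; left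
        refine ⟨2, max 0 (7 / 9 * (i - 2)), 2 * d * max 0 (7 / 9 * (i - 2)), by norm_num,
          le_max_left _ _, fun u hu hu1 hui => mom2 R hd hi0 (by linarith) u hu hu1 hui, ?_⟩
        rw [max_eq_right (by linarith : 0 ≤ 7 / 9 * (i - 2))]
        have hFg : 2 * d * (7 / 9 * (i - 2) + 1 / 4) ≤ 2 * d * (5 / 6 * κ + 1 / 16 - 2) :=
          mul_le_mul_of_nonneg_left (by linarith) (by linarith)
        have h6 : (5 / 6 * κ - 5 + 1 / 16 - 7 / 9 * (i - 2)) * δ ≤ 1 / 4 * δ :=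
          mul_le_mul_of_nonneg_right (by linarith) h1.le
        linarith)
  linarith

/-- **five equal lumps at total `5/6 κ + 1/16`**, `15/2 ≤ κ ≤ 61/8` -/
theorem idl5v (R : ExpRules (7 / 8 + d) r s) (Lv : ExpLv (7 / 8 + d) r) (hd : 0 ≤ d)
    {κ F : ℝ} (hκ : 15 / 2 ≤ κ) (hκ9 : κ ≤ 61 / 8)
    (hF : 2 * d * (5 / 6 * κ + 1 / 16 - 2) ≤ F) : Idl r 1 κ 5 (5 / 6 * κ - 5 + 1 / 16) F := by
  intro Y m a hY hYw hm ha hma
  have hF0 : 0 ≤ F :=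
    le_trans (mul_nonneg (by linarith) (by linarith)) hF
  have hsh := sh_replicate Y hYw
  rw [hY, show (5 : ℕ) = 1 + 4 from rfl, Multiset.replicate_add] at hsh
  obtain ⟨V', Y', rfl, hV', hY'⟩ := hsh.of_add
  have hVs := hV'.sum_le
  rw [Multiset.sum_replicate, nsmul_eq_mul] at hVs
  push_cast at hVs
  have hYs := hY'.sum_le
  rw [Multiset.sum_replicate, nsmul_eq_mul] at hYs
  push_cast at hYs
  have hC : ColX (7 / 8 + d) r κ 1 F Y' m a := by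
    refine ⟨?_, ?_⟩
    · intro Z m' a' i hZ hm0 hm1 ha0 ha1 hi hyi hii
      have hZ5 := hZ.trans hY'
      have := q5v_col R Lv hd (Z := Z) (m := m') (a := a') hκ hκ9 hi (by linarith) hF
        (by rw [hZ5.card, Multiset.card_replicate])
        (fun y hy => by
          obtain ⟨b, hb, hyb⟩ := Multiset.exists_mem_of_rel_of_mem hZ5 hy
          rw [Multiset.eq_of_mem_replicate hb] at hyb
          exact hyb)
        hyi hm0 ha0 (by linarith)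
      linarith
    · intro Z m' a' hZ hm0 hm1 ha0 ha1 _
      have hZ0 := hZ.sum_nonneg
      have h1 : 2 * d * m' ≤ 2 * d * (5 / 6 * κ + 1 / 16 - 2) :=
        mul_le_mul_of_nonneg_left (by linarith) (by linarith)
      linarith
  have key := side_xi R (κ := κ) (ξ := 1) (m := m) (b := 0) (a := a) (b' := 0)
    (F := F) (V := V') (Z := Y') (by linarith) hV'.nonneg hY'.nonneg hm le_rfl ha le_rfl
    hF0 (by linarith) (by linarith) hC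
  intro κ' h0 h1
  have := key κ' h0 h1
  rw [add_zero, add_zero] at this
  rw [Multiset.sum_add]
  linarith

/-- the long five on the whole window, unit `1` -/
theorem idl5long (R : ExpRules (7 / 8 + d) r s) (Lv : ExpLv (7 / 8 + d) r) (hd : 0 ≤ d)
    (hd8 : d ≤ 1 / 8) {κ F : ℝ} (hκ : 15 / 2 ≤ κ) (hκ9 : κ ≤ 33 / 4)
    (hF : 2 * d * (5 / 6 * κ + 1 / 16 - 2) ≤ F) : Idl r 1 κ 5 (5 / 6 * κ - 5 + 1 / 16) F := by
  rcases le_total κ (61 / 8) with h | h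
  · exact idl5v R Lv hd hκ h hF
  · exact idl5u R Lv hd hd8 h hκ9 hF

end Crest.Agent.R017.C1W393
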