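import Crest.Agent.R017.C1w8a_73
import Crest.Agent.R017.C1q6s_61
import Crest.Agent.R017.C5_720

/-!
# Row 17, C1: eight equal lumps on `[21/2, 45/4]` (helper73)

`idl8` : `{1⁸ | 5/6 κ - 8}` is ideal up to `F ≥ 12 d` for `21/2 ≤ κ ≤ 45/4`, all shortenings,
every amplifier share.

* `X` = one lump and `(κ - 21/2)/3` granular, columns `{1⁷ | ·}` at `i ≤ 15/2` (`col8`);
* moments of `col8`: `idl6p` (`{1⁶ | 3/4}` at `15/2`, loss `1/3 + 8 d`), `idl6c` (`{1⁶ | 1}` at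
  `[27/4, 15/2]`), `idl6z` (`{1⁶ | 0}` at `15/2`);
* moments of these: `idl5` (`{1⁵ | 5/8}` at `27/4`, helper720), `idl4w` (`{1⁴ | ·}` at
  `[15/4, 9/2]`), T6 sides of helper61.
-/

set_option autoImplicit false

noncomputable section

namespace Crest.Agent.R017.C1w873

open Crest.Agent.R017.ER911 Crest.Agent.R017.SC777 Crest.Agent.R017.CE645
open Crest.Agent.R017.C161

variable {d : ℝ} {r s : EF}

/-- moments of a side at smaller families -/
theorem mb_of_idl {κ c F u g i e : ℝ} {q : ℕ} (h : Idl r 1 κ q c F) (hu : 0 ≤ u) (hu1 : u ≤ 1)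
    (hg : 0 ≤ g) (hgc : g ≤ c) (hi : 0 ≤ i) (hiκ : i ≤ κ) (he : F + 2 / 3 * (κ - i) ≤ e) :
    MB r i (Multiset.replicate q u) g e :=
  (h.down (κ₁ := i) (F' := e) hiκ he).MB hu hu1 hg hgc hi

theorem mom2z (R : ExpRules (7 / 8 + d) r s) {i u : ℝ} (hi : 0 ≤ i) (hu : 0 ≤ u) (hui : u ≤ i) :
    MB r i (Multiset.replicate 2 u) 0 0 := by
  have hpair : Multiset.replicate 2 u = ({u, u} : Multiset ℝ) := by
    rw [Multiset.replicate_succ, Multiset.replicate_one]; rfl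
  rw [hpair]
  unfold MB
  rw [sum_pair]
  have e1 := sup_all R hi hu hu le_rfl le_rfl hui hui
  constructor <;> linarith

theorem mom2g (R : ExpRules (7 / 8 + d) r s) (hd : 0 ≤ d) {i u g : ℝ} (h0 : 2 ≤ i) (h6 : i ≤ 6)
    (hu : 0 ≤ u) (hu1 : u ≤ 1) (hg : g = 7 / 9 * (i - 2)) :
    MB r i (Multiset.replicate 2 u) g (2 * d * g) := by
  have hpair : Multiset.replicate 2 u = ({u, u} : Multiset ℝ) := by
    rw [Multiset.replicate_succ, Multiset.replicate_one]; rfl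
  rw [hpair]
  unfold MB
  rw [sum_pair]
  have e1 := side79a R hd (κ := i) (y₁ := u) (y₂ := u) (m := g) (a := 0) (e := 0)
    hu hu (by linarith) le_rfl (by linarith) le_rfl (by linarith) (by linarith) (by linarith)
    le_rfl (by linarith) (by linarith)
  have e2 := side79a R hd (κ := i) (y₁ := u) (y₂ := u) (a := g) (m := 0) (e := 0)
    hu hu le_rfl (by linarith) (by linarith) le_rfl (by linarith) (by linarith) (by linarith)
    le_rfl (by linarith) (by linarith)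
  constructor
  · linarith
  · linarith

theorem c2_mono {θ i δ B B' : ℝ} (h : C2 θ r i δ B) (hB : B ≤ B') : C2 θ r i δ B' := by
  rcases h with ⟨f, h0, h1, h2⟩ | ⟨g, e, h0, h1, h2⟩ | h
  · exact Or.inl ⟨f, h0, h1, h2.trans hB⟩
  · exact Or.inr (Or.inl ⟨g, e, h0, h1, h2.trans hB⟩)
  · exact Or.inr (Or.inr (h.trans hB))

/-- **the side from the columns of its rest**: `v` lumps and granular `x` in `X`, `p` lumps left -/
theorem idl_cols (R : ExpRules (7 / 8 + d) r s) (Lv : ExpLv (7 / 8 + d) r) (hd : 0 ≤ d)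
    (hd8 : 8 * d ≤ 1) {κ c x ξ F : ℝ} (v p : ℕ) (hκ : 0 ≤ κ) (hx : 0 ≤ x) (hxc : x ≤ c)
    (hF : 0 ≤ F) (hX : (v : ℝ) + x ≤ ξ) (hξ : 2 * ξ + ((p : ℝ) + (c - x)) ≤ κ + F)
    (hcube : c - x ≤ 2 / 3 * κ - ξ + F)
    (H : ∀ i : ℝ, 0 ≤ i → i ≤ κ - 3 * ξ →
      (∀ φ δ : ℝ, 0 ≤ φ → φ ≤ 3 / 4 + 2 * d → 0 < δ → δ ≤ 3 / 4 + 2 * d →
        C1 (7 / 8 + d) r i 1 φ δ ((2 * κ + i) / 3 - ξ + F - p * φ - (c - x) * δ)) ∧
      (∀ φ : ℝ, 0 ≤ φ → φ ≤ 3 / 4 + 2 * d →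
        C0 r i 1 φ ((2 * κ + i) / 3 - ξ + F - p * φ)) ∧
      (∀ δ : ℝ, 0 < δ → δ ≤ 3 / 4 + 2 * d →
        C2 (7 / 8 + d) r i δ ((2 * κ + i) / 3 - ξ + F - (c - x) * δ))) :
    Idl r 1 κ (v + p) c F := by
  intro Y m a hY hYw hm ha hma
  obtain ⟨b, b', hb0, hb, hb0', hb', hbg, hrest⟩ := split_g hm ha hma hx hxc
  have hsh := sh_replicate Y hYw
  rw [hY, Multiset.replicate_add] at hsh
  obtain ⟨V', Y', rfl, hV', hY'⟩ := hsh.of_add
  have hVs := hV'.sum_le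
  rw [Multiset.sum_replicate, nsmul_eq_mul, mul_one] at hVs
  have hYs := hY'.sum_le
  rw [Multiset.sum_replicate, nsmul_eq_mul, mul_one] at hYs
  have hv0 : (0 : ℝ) ≤ v := Nat.cast_nonneg v
  have hC : ColX (7 / 8 + d) r κ ξ F (Multiset.replicate p 1) (m - b) (a - b') := by
    refine colX_eq Lv (by linarith) (w := 1)
      (fun y hy => (Multiset.eq_of_mem_replicate hy).le) (by linarith) hF ?_ ?_
    · intro i h0 h1
      obtain ⟨H1, H0, H2⟩ := H i h0 h1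
      rw [Multiset.card_replicate]
      refine ⟨?_, ?_, ?_⟩
      · intro φ δ h2 h3 h4 h5
        refine c1_mono (H1 φ δ h2 (by linarith) h4 (by linarith)) ?_
        have := mul_le_mul_of_nonneg_right hrest h4.le
        linarith
      · intro φ h2 h3
        exact H0 φ h2 (by linarith)
      · intro δ h4 h5
        refine c2_mono (H2 δ h4 (by linarith)) ?_
        have := mul_le_mul_of_nonneg_right hrest h4.le
        linarith
    · intro Z' m' a' hZ' hm0 hm1 ha0 ha1 _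
      have hZ0 := hZ'.sum_nonneg
      have h1 : 0 ≤ (1 / 4 - 2 * d) * m' := mul_nonneg (by linarith) hm0
      linarith
  have key := side_xi R (κ := κ) (ξ := ξ) (m := m - b) (b := b) (a := a - b') (b' := b')
    (F := F) (V := V') (Z := Y') hκ hV'.nonneg hY'.nonneg (by linarith) hb0 (by linarith) hb0'
    hF (by linarith) (by linarith) (hC.mono hY' le_rfl le_rfl)
  intro κ' h0 h1
  have := key κ' h0 h1
  rw [sub_add_cancel, sub_add_cancel] at this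
  rw [Multiset.sum_add]
  linarith

/-- `{1⁴ | h + x}`, `x = (κ - 15/4)/3`, `κ ∈ [15/4, 9/2]` -/
theorem idl4w (R : ExpRules (7 / 8 + d) r s) (Lv : ExpLv (7 / 8 + d) r) (hd : 0 ≤ d)
    (hd8 : 8 * d ≤ 1) {κ h F : ℝ} (h1 : 15 / 4 ≤ κ) (h2 : κ ≤ 9 / 2) (hh0 : 5 / 8 ≤ h)
    (hh1 : h ≤ 7 / 10) (hF : 11 / 6 + 2 / 3 * h - κ / 3 + 6 * d ≤ F) :
    Idl r 1 κ 4 (h + (κ - 15 / 4) / 3) F := by
  have B1 := bl3s R hd (w := 1) (κ := 15 / 4) (F := 1 / 4 + 2 * d) zero_le_one (by norm_num)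
    (by norm_num) (by linarith)
  refine idl_cols R Lv hd hd8 (x := (κ - 15 / 4) / 3) (ξ := (κ - 15 / 4) / 3) 0 4 (by linarith)
    (by linarith) (by linarith) (by linarith) (by push_cast; linarith) (by push_cast; linarith)
    (by linarith) ?_
  intro i hi0 hi1
  obtain ⟨t, rfl⟩ : ∃ t, i = 15 / 4 - 3 * t := ⟨(15 / 4 - i) / 3, by ring⟩
  have ht0 : 0 ≤ t := by linarith
  have ht1 : t ≤ 5 / 4 := by linarith
  refine ⟨?_, ?_, ?_⟩
  · intro φ δ hφ0 hφ1 hδ0 hδ1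
    obtain ⟨σ, rfl⟩ : ∃ σ, φ = 2 / 3 + σ := ⟨φ - 2 / 3, by ring⟩
    obtain ⟨τ, rfl⟩ : ∃ τ, δ = 2 / 3 + τ := ⟨δ - 2 / 3, by ring⟩
    refine col4a (D := 6 * d) hd hd8 ht0 ht1 hh0 hh1 le_rfl (by linarith) (by linarith) ?_ ?_ ?_ ?_
    · push_cast
      linarith
    · intro u hu hu1 _
      exact mb_of_idl B1 hu hu1 (by norm_num) (by norm_num) hi0 (by linarith) (by linarith)
    · intro ht u hu hu1 _
      have B2 := bl3s R hd (w := 1) (κ := 15 / 4 - 3 * t) (F := 1 / 4 + t + 2 * d) zero_le_one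
        (by linarith) (by linarith) (by linarith)
      exact mb_of_idl B2 hu hu1 (by linarith) (by linarith) hi0 le_rfl (by linarith)
    · intro u hu _ hui
      exact mom2z R hi0 hu hui
  · intro φ hφ0 hφ1
    refine Or.inl ⟨3, 1 / 4 + 2 * d + 2 * t, fun u hu hu1 _ => ?_, ?_⟩
    · exact mb_of_idl B1 hu hu1 le_rfl (by norm_num) hi0 (by linarith) (by linarith)
    · push_cast
      linarith
  · intro δ hδ0 hδ1
    refine Or.inr (Or.inr ?_)
    have h3 : h * δ ≤ h * (3 / 4 + 2 * d) := mul_le_mul_of_nonneg_left hδ1 (by linarith)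
    have h4 : h * d ≤ 1 * d := mul_le_mul_of_nonneg_right (by linarith) hd
    have e1 : h + (κ - 15 / 4) / 3 - (κ - 15 / 4) / 3 = h := by ring
    rw [e1]
    linarith

/-- `{1⁵ | 5/8}` at `27/4` (helper720's `col4`) -/
theorem idl5 (R : ExpRules (7 / 8 + d) r s) (Lv : ExpLv (7 / 8 + d) r) (hd : 0 ≤ d) :
    Idl r 1 (27 / 4) 5 (5 / 8) (27 / 4 * d) := by
  intro Y m a hYc hY hm ha hma
  have hdκ : 0 ≤ d * (27 / 4) := mul_nonneg hd (by norm_num)
  have hsh := sh_replicate Y hY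
  rw [hYc, show (5 : ℕ) = 1 + 4 from rfl, Multiset.replicate_add] at hsh
  obtain ⟨V', Y', rfl, hV', hY'⟩ := hsh.of_add
  have hVs := hV'.sum_le
  rw [Multiset.sum_replicate, nsmul_eq_mul, mul_one] at hVs
  have hYs := hY'.sum_le
  rw [Multiset.sum_replicate, nsmul_eq_mul, mul_one] at hYs
  push_cast at hVs hYs
  obtain ⟨b, b', hb0, hbm, hb0', hbm', hbb, hbb'⟩ :=
    split_g hm ha hma (g := 1 / 8) (by norm_num) (by norm_num)
  have C := C5_720.col4 R Lv hd (κ := 27 / 4) (b₁ := 1) (b₂ := 1) (b₃ := 1) (b₄ := 1) (m := m - b)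
    (a := a - b') zero_le_one le_rfl le_rfl le_rfl (by norm_num) (by norm_num) (by norm_num)
    (by norm_num) (Or.inl (by norm_num)) (by linarith)
  have e4 : ((1 : ℝ) ::ₘ 1 ::ₘ {1, 1} : Multiset ℝ) = Multiset.replicate 4 1 := rfl
  rw [e4] at C
  have key := side_xi R (κ := 27 / 4) (ξ := 27 / 4 / 6) (m := m - b) (b := b) (a := a - b')
    (b' := b') (F := d * (27 / 4)) (V := V') (Z := Y') (by norm_num) hV'.nonneg hY'.nonneg
    (by linarith) hb0 (by linarith) hb0' hdκ (by linarith) (by linarith)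
    (C.mono hY' le_rfl le_rfl)
  intro κ' h0 h1
  have := key κ' h0 h1
  rw [sub_add_cancel, sub_add_cancel] at this
  rw [Multiset.sum_add]
  linarith

/-- `{1⁶ | 3/4}` at `15/2`, loss `1/3 + 8 d` -/
theorem idl6p (R : ExpRules (7 / 8 + d) r s) (Lv : ExpLv (7 / 8 + d) r) (hd : 0 ≤ d)
    (hd8 : 8 * d ≤ 1) : Idl r 1 (15 / 2) 6 (3 / 4) (1 / 3 + 8 * d) := by
  have B3 := idl3 R hd (w := 1) (κ := 9 / 2) (F := 2 * d) zero_le_one (by norm_num)
    (by norm_num) (by linarith)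
  have B4 := bl4 R hd (w := 1) (κ := 5) (F := 2 * d) zero_le_one (by norm_num)
    (by norm_num) (by linarith)
  have B17 := idl4w R Lv hd hd8 (κ := 17 / 4) (h := 7 / 10) (F := 53 / 60 + 6 * d) (by norm_num)
    (by norm_num) (by norm_num) le_rfl (by linarith)
  refine idl_cols R Lv hd hd8 (x := 0) (ξ := 1) 1 5 (by norm_num)
    le_rfl (by norm_num) (by linarith) (by norm_num) (by push_cast; linarith)
    (by linarith) ?_
  intro i hi0 hi1
  obtain ⟨t, rfl⟩ : ∃ t, i = 9 / 2 - 3 * t := ⟨(9 / 2 - i) / 3, by ring⟩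
  have ht0 : 0 ≤ t := by linarith
  have ht1 : t ≤ 3 / 2 := by linarith
  refine ⟨?_, ?_, ?_⟩
  · intro φ δ hφ0 hφ1 hδ0 hδ1
    obtain ⟨σ, rfl⟩ : ∃ σ, φ = 2 / 3 + σ := ⟨φ - 2 / 3, by ring⟩
    obtain ⟨τ, rfl⟩ : ∃ τ, δ = 2 / 3 + τ := ⟨δ - 2 / 3, by ring⟩
    refine col5a (D₃ := 2 * d) (D₄ := 6 * d) (D := 8 * d) hd hd8 ht0 ht1 (by linarith)
      (by linarith) (by linarith) (by linarith) (by linarith) ?_ ?_ ?_ ?_ ?_ ?_ ?_
    · push_cast
      linarith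
    · intro u hu hu1 _
      exact mb_of_idl B3 hu hu1 (by norm_num) (by norm_num) hi0 (by linarith) (by linarith)
    · intro h1 h2 u hu hu1 _
      have B := idl4w R Lv hd hd8 (κ := 9 / 2 - 3 * t) (h := 37 / 60 + t)
        (F := 67 / 90 + 5 / 3 * t + 6 * d) (by linarith)
        (by linarith) (by linarith) (by linarith) (by linarith)
      exact mb_of_idl B hu hu1 (by norm_num) (by linarith) hi0 le_rfl (by linarith)
    · intro h1 h2 u hu hu1 _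
      have B := idl4w R Lv hd hd8 (κ := 9 / 2 - 3 * t) (h := 7 / 10)
        (F := 4 / 5 + t + 6 * d) (by linarith)
        (by linarith) (by norm_num) le_rfl (by linarith)
      exact mb_of_idl B hu hu1 (by linarith) (by linarith) hi0 le_rfl (by linarith)
    · intro h1 u hu hu1 _
      exact mb_of_idl B17 hu hu1 (by norm_num) (by norm_num) hi0 (by linarith) (by linarith)
    · intro h1 u hu hu1 _
      exact mom2g R hd (by linarith) (by linarith) hu hu1 (by ring)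
    · intro u hu _ hui
      exact mom2z R hi0 hu hui
  · intro φ hφ0 hφ1
    refine Or.inl ⟨4, 1 / 3 + 2 * t + 2 * d, fun u hu hu1 _ => ?_, ?_⟩
    · exact mb_of_idl B4 hu hu1 le_rfl (by norm_num) hi0 (by linarith) (by linarith)
    · push_cast
      linarith
  · intro δ hδ0 hδ1
    refine Or.inr (Or.inr ?_)
    linarith

/-- `{1⁶ | 0}` at `15/2`, loss `1/4 + 8 d` -/
theorem idl6z (R : ExpRules (7 / 8 + d) r s) (Lv : ExpLv (7 / 8 + d) r) (hd : 0 ≤ d)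
    (hd8 : 8 * d ≤ 1) : Idl r 1 (15 / 2) 6 0 (1 / 4 + 8 * d) := by
  have B4 := bl4 R hd (w := 1) (κ := 5) (F := 2 * d) zero_le_one (by norm_num)
    (by norm_num) (by linarith)
  refine idl_cols R Lv hd hd8 (x := 0) (ξ := 1) 1 5 (by norm_num)
    le_rfl le_rfl (by linarith) (by norm_num) (by push_cast; linarith)
    (by linarith) ?_
  intro i hi0 hi1
  have hM : ∀ u, 0 ≤ u → u ≤ 1 → u ≤ i →
      MB r i (Multiset.replicate 4 u) 0 (2 * d + 2 / 3 * (5 - i)) := by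
    intro u hu hu1 _
    exact mb_of_idl B4 hu hu1 le_rfl (by norm_num) hi0 (by linarith) (by linarith)
  refine ⟨?_, ?_, ?_⟩
  · intro φ δ hφ0 hφ1 hδ0 hδ1
    refine Or.inr (Or.inl ⟨4, 0, _, le_rfl, hM, ?_⟩)
    push_cast
    linarith
  · intro φ hφ0 hφ1
    refine Or.inl ⟨4, _, hM, ?_⟩
    push_cast
    linarith
  · intro δ hδ0 hδ1
    refine Or.inr (Or.inr ?_)
    linarith

/-- `{1⁶ | 1}` at `κ ∈ [27/4, 15/2]`, loss `14/3 - 5/9 κ + 11 d` -/
theorem idl6c (R : ExpRules (7 / 8 + d) r s) (Lv : ExpLv (7 / 8 + d) r) (hd : 0 ≤ d)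
    (hd8 : 8 * d ≤ 1) {κ : ℝ} (h1 : 27 / 4 ≤ κ) (h2 : κ ≤ 15 / 2) :
    Idl r 1 κ 6 1 (14 / 3 - 5 / 9 * κ + 11 * d) := by
  have B5 := idl5 R Lv hd
  refine idl_cols R Lv hd hd8 (x := (κ - 27 / 4) / 3) (ξ := (κ - 27 / 4) / 3) 0 6 (by linarith)
    (by linarith) (by linarith) (by linarith) (by push_cast; linarith) (by push_cast; linarith)
    (by linarith) ?_
  intro i hi0 hi1
  obtain ⟨t, rfl⟩ : ∃ t, i = 27 / 4 - 3 * t := ⟨(27 / 4 - i) / 3, by ring⟩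
  have ht0 : 0 ≤ t := by linarith
  have ht1 : t ≤ 9 / 4 := by linarith
  refine ⟨?_, ?_, ?_⟩
  · intro φ δ hφ0 hφ1 hδ0 hδ1
    obtain ⟨σ, rfl⟩ : ∃ σ, φ = 2 / 3 + σ := ⟨φ - 2 / 3, by ring⟩
    obtain ⟨τ, rfl⟩ : ∃ τ, δ = 2 / 3 + τ := ⟨δ - 2 / 3, by ring⟩
    refine col6b (h := 1 - (κ - 27 / 4) / 3) (D₅ := 27 / 4 * d) (D := 11 * d) hd hd8 ht0 ht1
      (by linarith) (by linarith) (by linarith) (by linarith) (by linarith) (by linarith) ?_ ?_ ?_
    · push_cast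
      linarith
    · intro u hu hu1 _
      exact mb_of_idl B5 hu hu1 (by norm_num) le_rfl hi0 (by linarith) (by linarith)
    · intro u hu _ hui
      exact mom2z R hi0 hu hui
  · intro φ hφ0 hφ1
    refine Or.inl ⟨5, 27 / 4 * d + 2 * t, fun u hu hu1 _ => ?_, ?_⟩
    · exact mb_of_idl B5 hu hu1 le_rfl (by norm_num) hi0 (by linarith) (by linarith)
    · push_cast
      linarith
  · intro δ hδ0 hδ1
    refine Or.inr (Or.inr ?_)
    have h3 : (1 - (κ - 27 / 4) / 3) * δ ≤ 1 * δ :=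
      mul_le_mul_of_nonneg_right (by linarith) hδ0.le
    linarith

/-- **eight equal lumps at total `5/6 κ`**, `21/2 ≤ κ ≤ 45/4` -/
theorem idl8 (R : ExpRules (7 / 8 + d) r s) (Lv : ExpLv (7 / 8 + d) r) (hd : 0 ≤ d)
    (hd8 : 8 * d ≤ 1) {κ F : ℝ} (h1 : 21 / 2 ≤ κ) (h2 : κ ≤ 45 / 4) (hF : 12 * d ≤ F) :
    Idl r 1 κ 8 (5 / 6 * κ - 8) F := by
  have B6p := idl6p R Lv hd hd8
  have B6z := idl6z R Lv hd hd8
  have B6c := idl6c R Lv hd hd8 (κ := 27 / 4) le_rfl (by norm_num)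
  have hF0 : 0 ≤ F := by linarith
  refine idl_cols R Lv hd hd8 (x := (κ - 21 / 2) / 3) (ξ := 1 + (κ - 21 / 2) / 3) 1 7
    (by linarith) (by linarith) (by linarith) hF0 (by push_cast; linarith)
    (by push_cast; linarith) (by linarith) ?_
  intro i hi0 hi1
  obtain ⟨t, rfl⟩ : ∃ t, i = 15 / 2 - 3 * t := ⟨(15 / 2 - i) / 3, by ring⟩
  have ht0 : 0 ≤ t := by linarith
  have ht1 : t ≤ 5 / 2 := by linarith
  have e1 : 5 / 6 * κ - 8 - (κ - 21 / 2) / 3 = 3 / 4 + (κ - 21 / 2) / 2 := by ring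
  rw [e1]
  refine ⟨?_, ?_, ?_⟩
  · intro φ δ hφ0 hφ1 hδ0 hδ1
    obtain ⟨σ, rfl⟩ : ∃ σ, φ = 2 / 3 + σ := ⟨φ - 2 / 3, by ring⟩
    obtain ⟨τ, rfl⟩ : ∃ τ, δ = 2 / 3 + τ := ⟨δ - 2 / 3, by ring⟩
    refine col8 (h := 3 / 4 + (κ - 21 / 2) / 2) (F := F) (D := 11 * d) hd hd8 ht0 ht1
      (by linarith) (by linarith) (by linarith) hF (by linarith) (by linarith) ?_ ?_ ?_ ?_ ?_
    · push_cast
      linarith
    · intro u hu hu1 _
      exact mb_of_idl B6p hu hu1 (by norm_num) le_rfl hi0 (by linarith) (by linarith)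
    · intro h3 u hu hu1 _
      have B := idl6c R Lv hd hd8 (κ := 15 / 2 - 3 * t) (by linarith) (by linarith)
      exact mb_of_idl B hu hu1 (by norm_num) le_rfl hi0 le_rfl (by linarith)
    · intro h3 u hu hu1 _
      exact mb_of_idl B6c hu hu1 (by norm_num) le_rfl hi0 (by linarith) (by linarith)
    · intro u hu _ hui
      exact mom2z R hi0 hu hui
  · intro φ hφ0 hφ1
    refine Or.inl ⟨6, 1 / 4 + 8 * d + 2 * t, fun u hu hu1 _ => ?_, ?_⟩
    · exact mb_of_idl B6z hu hu1 le_rfl le_rfl hi0 (by linarith) (by linarith)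
    · push_cast
      linarith
  · intro δ hδ0 hδ1
    refine Or.inr (Or.inr ?_)
    have h3 : (3 / 4 + (κ - 21 / 2) / 2) * δ ≤ (3 / 4 + (κ - 21 / 2) / 2) * (3 / 4 + 2 * d) :=
      mul_le_mul_of_nonneg_left hδ1 (by linarith)
    have h4 : (3 / 4 + (κ - 21 / 2) / 2) * d ≤ 9 / 8 * d :=
      mul_le_mul_of_nonneg_right (by linarith) hd
    linarith

/-- **eight lumps of length `≤ w`**, `21/2 w ≤ κ ≤ 45/4 w` -/
theorem idl8w (R : ExpRules (7 / 8 + d) r s) (Lv : ExpLv (7 / 8 + d) r) (hd : 0 ≤ d)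
    (hd8 : 8 * d ≤ 1) {w κ F : ℝ} (hw : 0 < w) (h1 : 21 / 2 * w ≤ κ) (h2 : κ ≤ 45 / 4 * w)
    (hF : 12 * d * w ≤ F) : Idl r w κ 8 (5 / 6 * κ - 8 * w) F := by
  obtain ⟨k, rfl⟩ := sc_div hw κ
  have h1' : 21 / 2 ≤ k := by
    by_contra hc; push Not at hc; nlinarith
  have h2' : k ≤ 45 / 4 := by
    by_contra hc; push Not at hc; nlinarith
  have := Idl.of_scale hw (idl8 (R.scale hw) (Lv.scale hw) hd hd8 h1' h2' le_rfl)
  refine (Idl.mono this (le_of_eq (by ring)) ?_)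
  refine le_trans (le_of_eq ?_) hF
  ring

/-- **the field `w8`** : loss `(4/3 d - μ) κ` -/
theorem idl8F (R : ExpRules (7 / 8 + d) r s) (Lv : ExpLv (7 / 8 + d) r) (hd : 0 ≤ d)
    (hd8 : 8 * d ≤ 1) {μ w κ : ℝ} (hμ2 : 9 * μ ≤ d) (hw : 0 < w) (h1 : 21 / 2 * w ≤ κ)
    (h2 : κ ≤ 45 / 4 * w) : Idl r w κ 8 (5 / 6 * κ - 8 * w) ((4 / 3 * d - μ) * κ) := by
  refine idl8w R Lv hd hd8 hw h1 h2 ?_
  have hκ0 : 0 ≤ κ := by linarith
  have h3 : 9 * μ * κ ≤ d * κ := mul_le_mul_of_nonneg_right hμ2 hκ0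
  have h4 : d * (21 / 2 * w) ≤ d * κ := mul_le_mul_of_nonneg_left h1 hd
  have h5 : 0 ≤ d * w := mul_nonneg hd hw.le
  linarith

end Crest.Agent.R017.C1w873
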