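import Crest.Agent.R017.C1Id_61

/-!
# Row 17, C1: closers and the real column lemmas for the window `W_8` (helper73)

Unit lump `1`.  Coordinates: lump excess `φ = 2/3 + σ`, granular excess `δ = 2/3 + τ`
(`CE645.colX_eq`), top column `i₁` with `4/3 i₁` an integer, `i = i₁ - 3 s`.

* `cL`, `cX`, `cM` : LV with `k` lumps rounded up, LV with `k` lumps exact, moment;
* `col8`  : columns `i ≤ 15/2` of `{1^7 | h}`, `3/4 ≤ h ≤ 9/8`;
* `col6b` : columns `i ≤ 27/4` of `{1^6 | h}`, `3/4 ≤ h ≤ 1`;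
* `col5a` : columns `i ≤ 9/2` of `{1^5 | 3/4}`;
* `col4a` : columns `i ≤ 15/4` of `{1^4 | h}`, `5/8 ≤ h ≤ 7/10`.
-/

set_option autoImplicit false

noncomputable section

namespace Crest.Agent.R017.C1w873

open Crest.Agent.R017.ER911 Crest.Agent.R017.SC777 Crest.Agent.R017.CE645

variable {θ : ℝ} {r : EF}

theorem c1_mono {i w φ δ B B' : ℝ} (h : C1 θ r i w φ δ B) (hB : B ≤ B') :
    C1 θ r i w φ δ B' := by
  rcases h with ⟨k, f, h0, h1, h2⟩ | ⟨k, g, e, h0, h1, h2⟩ | h
  · exact Or.inl ⟨k, f, h0, h1, h2.trans hB⟩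
  · exact Or.inr (Or.inl ⟨k, g, e, h0, h1, h2.trans hB⟩)
  · exact Or.inr (Or.inr (h.trans hB))

/-- LV with `k` full lumps, rounded up -/
theorem cL {i σ δ B : ℝ} (k : ℕ) (K : ℝ) (hK : (k : ℝ) = K) (h1 : 4 / 3 * i ≤ K)
    (h2 : 0 ≤ σ) (h3 : K / 3 - K * σ ≤ B) : C1 θ r i 1 (2 / 3 + σ) δ B := by
  have hK0 : 0 ≤ K := by rw [← hK]; exact Nat.cast_nonneg k
  have h4 : 0 ≤ K * σ := mul_nonneg hK0 h2
  refine Or.inl ⟨k, 0, le_rfl, Or.inl ⟨?_, ?_⟩, ?_⟩
  · rw [hK]; linarith
  · rw [hK]; linarith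
  · rw [hK]; linarith

/-- LV with `k` full lumps, exact length -/
theorem cX {i σ τ B : ℝ} (k : ℕ) (K : ℝ) (hK : (k : ℝ) = K) (h1 : K ≤ 4 / 3 * i)
    (h2 : 0 ≤ K * σ + (4 / 3 * i - K) * τ)
    (h3 : 4 / 9 * i - (K * σ + (4 / 3 * i - K) * τ) ≤ B) :
    C1 θ r i 1 (2 / 3 + σ) (2 / 3 + τ) B := by
  refine Or.inl ⟨k, 4 / 3 * i - K, by linarith, Or.inl ⟨?_, ?_⟩, ?_⟩
  · rw [hK]; linarith
  · rw [hK]; linarith
  · rw [hK]; linarith

/-- a moment -/
theorem cM {i σ τ B : ℝ} (k : ℕ) (K g e : ℝ) (hK : (k : ℝ) = K) (hg : 0 ≤ g)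
    (hM : ∀ u, 0 ≤ u → u ≤ 1 → u ≤ i → MB r i (Multiset.replicate k u) g e)
    (h3 : i + e - K * (2 / 3 + σ) - g * (2 / 3 + τ) ≤ B) :
    C1 θ r i 1 (2 / 3 + σ) (2 / 3 + τ) B := by
  refine Or.inr (Or.inl ⟨k, g, e, hg, hM, ?_⟩)
  rw [hK]; exact h3

/-- columns of `{1^7 | h}`, top column `15/2` -/
theorem col8 {d s h F D B σ τ : ℝ} (hd : 0 ≤ d) (hd8 : 8 * d ≤ 1) (hs0 : 0 ≤ s)
    (hs1 : s ≤ 5 / 2) (hh0 : 3 / 4 ≤ h) (hh1 : h ≤ 9 / 8) (hDF : D ≤ F)
    (hF : 12 * d ≤ F) (hσ : σ ≤ 1 / 12 + 2 * d) (hτ1 : τ ≤ 1 / 12 + 2 * d)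
    (hB : 10 / 3 - s + F - 7 * σ - h * τ ≤ B)
    (M6a : ∀ u, 0 ≤ u → u ≤ 1 → u ≤ 15 / 2 - 3 * s →
      MB r (15 / 2 - 3 * s) (Multiset.replicate 6 u) (3 / 4) (1 / 3 + D + 2 * s))
    (M6b : s ≤ 1 / 4 → ∀ u, 0 ≤ u → u ≤ 1 → u ≤ 15 / 2 - 3 * s →
      MB r (15 / 2 - 3 * s) (Multiset.replicate 6 u) 1 (1 / 2 + 5 / 3 * s + D))
    (M6c : 1 / 4 ≤ s → ∀ u, 0 ≤ u → u ≤ 1 → u ≤ 15 / 2 - 3 * s →
      MB r (15 / 2 - 3 * s) (Multiset.replicate 6 u) 1 (5 / 12 + D + 2 * s))
    (M2 : ∀ u, 0 ≤ u → u ≤ 1 → u ≤ 15 / 2 - 3 * s →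
      MB r (15 / 2 - 3 * s) (Multiset.replicate 2 u) 0 0) :
    C1 θ r (15 / 2 - 3 * s) 1 (2 / 3 + σ) (2 / 3 + τ) B := by
  refine c1_mono ?_ hB
  rcases le_total (7 / 4) s with hs | hs
  · -- small columns
    refine cM 2 2 0 0 (by norm_num) le_rfl M2 ?_
    have h1 : h * τ ≤ 9 / 8 * (1 / 12 + 2 * d) :=
      (mul_le_mul_of_nonneg_left hτ1 (by linarith)).trans
        (mul_le_mul_of_nonneg_right hh1 (by linarith))
    linarith
  rcases le_total τ 0 with ht | ht
  · rcases le_total σ 0 with hs' | hs'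
    · refine cM 6 6 (3 / 4) _ (by norm_num) (by norm_num) M6a ?_
      have h1 : 0 ≤ (h - 3 / 4) * (-τ) := mul_nonneg (by linarith) (by linarith)
      linarith
    · have h0 : 0 ≤ (h - 3 / 4) * (-τ) := mul_nonneg (by linarith) (by linarith)
      rcases le_total s (1 / 4) with h4 | h4
      · rcases le_total (σ + (h - 1) * τ + D) (s / 3 + F) with hm | hm
        · exact cM 6 6 1 _ (by norm_num) (by norm_num) (M6b h4) (by linarith)
        · exact cL 10 10 (by norm_num) (by linarith) hs' (by linarith)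
      rcases le_total s (1 / 3) with h3 | h3
      · exact cL 9 9 (by norm_num) (by linarith) hs' (by linarith)
      rcases le_total s (1 / 2) with h2 | h2
      · rcases le_total (s - 1 / 3) (2 * σ - h * τ + F) with hm | hm
        · exact cL 9 9 (by norm_num) (by linarith) hs' (by linarith)
        · exact cM 6 6 1 _ (by norm_num) (by norm_num) (M6c h4) (by linarith)
      rcases le_total s (2 / 3) with h3' | h3'
      · exact cL 8 8 (by norm_num) (by linarith) hs' (by linarith)
      rcases le_total s (3 / 4) with h5 | h5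
      · rcases le_total (s - 2 / 3) (σ - h * τ + F) with hm | hm
        · exact cL 8 8 (by norm_num) (by linarith) hs' (by linarith)
        · exact cM 6 6 1 _ (by norm_num) (by norm_num) (M6c h4) (by linarith)
      rcases le_total s 1 with h6 | h6
      · exact cL 7 7 (by norm_num) (by linarith) hs' (by linarith)
      rcases le_total s (5 / 4) with h7 | h7
      · exact cL 6 6 (by norm_num) (by linarith) hs' (by linarith)
      rcases le_total s (3 / 2) with h8 | h8
      · exact cL 5 5 (by norm_num) (by linarith) hs' (by linarith)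
      · exact cL 4 4 (by norm_num) (by linarith) hs' (by linarith)
  · have hst : 0 ≤ s * τ := mul_nonneg hs0 ht
    have hst1 : 0 ≤ s * (1 / 12 + 2 * d - τ) := mul_nonneg hs0 (by linarith)
    have hst2 : 0 ≤ (7 / 4 - s) * τ := mul_nonneg (by linarith) ht
    have hht : 0 ≤ (9 / 8 - h) * τ := mul_nonneg (by linarith) ht
    have hsd : 0 ≤ (7 / 4 - s) * d := mul_nonneg (by linarith) hd
    rcases le_total σ 0 with hs' | hs'
    · refine cX 0 0 (by norm_num) (by linarith) ?_ ?_
      · linarith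
      · linarith
    · rcases le_total s (3 / 4) with h5 | h5
      · refine cX 7 7 (by norm_num) (by linarith) ?_ ?_
        · have : 0 ≤ (3 / 4 - s) * τ := mul_nonneg (by linarith) ht
          linarith
        · rcases le_total (h - 3 + 4 * s) 0 with hc | hc
          · have : 0 ≤ (-(h - 3 + 4 * s)) * τ := mul_nonneg (by linarith) ht
            linarith
          · have h1 : (h - 3 + 4 * s) * τ ≤ (h - 3 + 4 * s) * (1 / 12 + 2 * d) :=
              mul_le_mul_of_nonneg_left hτ1 hc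
            have h2 : (h - 3 + 4 * s) * d ≤ (9 / 8) * d :=
              mul_le_mul_of_nonneg_right (by linarith) hd
            linarith
      rcases le_total s (3 / 2) with h8 | h8
      · refine cX 4 4 (by norm_num) (by linarith) ?_ ?_
        · have : 0 ≤ (3 / 2 - s) * τ := mul_nonneg (by linarith) ht
          linarith
        · rcases le_total (h - 6 + 4 * s) 0 with hc | hc
          · have : 0 ≤ (-(h - 6 + 4 * s)) * τ := mul_nonneg (by linarith) ht
            linarith
          · have h1 : (h - 6 + 4 * s) * τ ≤ (h - 6 + 4 * s) * (1 / 12 + 2 * d) :=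
              mul_le_mul_of_nonneg_left hτ1 hc
            have h2 : (h - 6 + 4 * s) * d ≤ (9 / 8) * d :=
              mul_le_mul_of_nonneg_right (by linarith) hd
            linarith
      · refine cX 3 3 (by norm_num) (by linarith) ?_ ?_
        · linarith
        · rcases le_total (h - 7 + 4 * s) 0 with hc | hc
          · have : 0 ≤ (-(h - 7 + 4 * s)) * τ := mul_nonneg (by linarith) ht
            linarith
          · have h1 : (h - 7 + 4 * s) * τ ≤ (h - 7 + 4 * s) * (1 / 12 + 2 * d) :=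
              mul_le_mul_of_nonneg_left hτ1 hc
            have h2 : (h - 7 + 4 * s) * d ≤ (9 / 8) * d :=
              mul_le_mul_of_nonneg_right (by linarith) hd
            linarith

/-- columns of `{1^6 | h}`, `3/4 ≤ h ≤ 1`, top column `27/4` -/
theorem col6b {d s h D₅ D B σ τ : ℝ} (hd : 0 ≤ d) (hd8 : 8 * d ≤ 1) (hs0 : 0 ≤ s)
    (hs1 : s ≤ 9 / 4) (hh0 : 3 / 4 ≤ h) (hh1 : h ≤ 1) (hD5 : D₅ ≤ D)
    (hD : 10 * d ≤ D) (hσ : σ ≤ 1 / 12 + 2 * d) (hτ1 : τ ≤ 1 / 12 + 2 * d)
    (hB : 3 - s + D - 6 * σ - h * τ ≤ B)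
    (M5 : ∀ u, 0 ≤ u → u ≤ 1 → u ≤ 27 / 4 - 3 * s →
      MB r (27 / 4 - 3 * s) (Multiset.replicate 5 u) (5 / 8) (D₅ + 2 * s))
    (M2 : ∀ u, 0 ≤ u → u ≤ 1 → u ≤ 27 / 4 - 3 * s →
      MB r (27 / 4 - 3 * s) (Multiset.replicate 2 u) 0 0) :
    C1 θ r (27 / 4 - 3 * s) 1 (2 / 3 + σ) (2 / 3 + τ) B := by
  refine c1_mono ?_ hB
  rcases le_total (7 / 4) s with hs | hs
  · -- small columns
    refine cM 2 2 0 0 (by norm_num) le_rfl M2 ?_
    have h1 : h * τ ≤ 1 * (1 / 12 + 2 * d) :=
      (mul_le_mul_of_nonneg_left hτ1 (by linarith)).trans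
        (mul_le_mul_of_nonneg_right hh1 (by linarith))
    linarith
  rcases le_total τ 0 with ht | ht
  · have h0 : 0 ≤ (h - 3 / 4) * (-τ) := mul_nonneg (by linarith) (by linarith)
    have hst : 0 ≤ s * (-τ) := mul_nonneg hs0 (by linarith)
    rcases le_total σ ((h - 5 / 8) * (-τ)) with hs' | hs'
    · exact cM 5 5 (5 / 8) _ (by norm_num) (by norm_num) M5 (by linarith)
    · have hσ0 : 0 ≤ σ := by linarith
      rcases le_total s (1 / 4) with h4 | h4
      · exact cX 8 8 (by norm_num) (by linarith) (by linarith) (by linarith)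
      rcases le_total s (1 / 3) with h3 | h3
      · exact cL 8 8 (by norm_num) (by linarith) hσ0 (by linarith)
      have hst3 : 0 ≤ (s - 1 / 3) * (-τ) := mul_nonneg (by linarith) (by linarith)
      rcases le_total s (1 / 2) with h2 | h2
      · exact cX 7 7 (by norm_num) (by linarith) (by linarith) (by linarith)
      rcases le_total s (2 / 3) with h3' | h3'
      · exact cL 7 7 (by norm_num) (by linarith) hσ0 (by linarith)
      have hst4 : 0 ≤ (s - 2 / 3) * (-τ) := mul_nonneg (by linarith) (by linarith)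
      rcases le_total s (3 / 4) with h5 | h5
      · exact cX 6 6 (by norm_num) (by linarith) (by linarith) (by linarith)
      rcases le_total s 1 with h6 | h6
      · exact cL 6 6 (by norm_num) (by linarith) hσ0 (by linarith)
      rcases le_total s (5 / 4) with h7 | h7
      · exact cL 5 5 (by norm_num) (by linarith) hσ0 (by linarith)
      rcases le_total s (3 / 2) with h8 | h8
      · exact cL 4 4 (by norm_num) (by linarith) hσ0 (by linarith)
      · exact cL 3 3 (by norm_num) (by linarith) hσ0 (by linarith)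
  · have hst : 0 ≤ s * τ := mul_nonneg hs0 ht
    have hst2 : 0 ≤ (7 / 4 - s) * τ := mul_nonneg (by linarith) ht
    have hht : 0 ≤ (1 - h) * τ := mul_nonneg (by linarith) ht
    rcases le_total σ 0 with hs' | hs'
    · refine cX 0 0 (by norm_num) (by linarith) ?_ ?_
      · linarith
      · linarith
    · rcases le_total s (3 / 4) with h5 | h5
      · refine cX 6 6 (by norm_num) (by linarith) ?_ ?_
        · have : 0 ≤ (3 / 4 - s) * τ := mul_nonneg (by linarith) ht
          linarith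
        · rcases le_total (h - 3 + 4 * s) 0 with hc | hc
          · have : 0 ≤ (-(h - 3 + 4 * s)) * τ := mul_nonneg (by linarith) ht
            linarith
          · have h1 : (h - 3 + 4 * s) * τ ≤ (h - 3 + 4 * s) * (1 / 12 + 2 * d) :=
              mul_le_mul_of_nonneg_left hτ1 hc
            have h2 : (h - 3 + 4 * s) * d ≤ 1 * d :=
              mul_le_mul_of_nonneg_right (by linarith) hd
            linarith
      rcases le_total s (3 / 2) with h8 | h8
      · refine cX 3 3 (by norm_num) (by linarith) ?_ ?_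
        · have : 0 ≤ (3 / 2 - s) * τ := mul_nonneg (by linarith) ht
          linarith
        · rcases le_total (h - 6 + 4 * s) 0 with hc | hc
          · have : 0 ≤ (-(h - 6 + 4 * s)) * τ := mul_nonneg (by linarith) ht
            linarith
          · have h1 : (h - 6 + 4 * s) * τ ≤ (h - 6 + 4 * s) * (1 / 12 + 2 * d) :=
              mul_le_mul_of_nonneg_left hτ1 hc
            have h2 : (h - 6 + 4 * s) * d ≤ 1 * d :=
              mul_le_mul_of_nonneg_right (by linarith) hd
            linarith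
      · refine cX 2 2 (by norm_num) (by linarith) ?_ ?_
        · linarith
        · rcases le_total (h - 7 + 4 * s) 0 with hc | hc
          · have : 0 ≤ (-(h - 7 + 4 * s)) * τ := mul_nonneg (by linarith) ht
            linarith
          · have h1 : (h - 7 + 4 * s) * τ ≤ (h - 7 + 4 * s) * (1 / 12 + 2 * d) :=
              mul_le_mul_of_nonneg_left hτ1 hc
            have h2 : (h - 7 + 4 * s) * d ≤ 1 * d :=
              mul_le_mul_of_nonneg_right (by linarith) hd
            linarith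

/-- columns of `{1^5 | 3/4}`, top column `9/2` -/
theorem col5a {d s D₃ D₄ D B σ τ : ℝ} (hd : 0 ≤ d) (hd8 : 8 * d ≤ 1) (hs0 : 0 ≤ s)
    (hs1 : s ≤ 3 / 2) (hD3 : D₃ ≤ D) (hD4 : D₄ ≤ D)
    (hD : 15 / 2 * d ≤ D) (hσ : σ ≤ 1 / 12 + 2 * d) (hτ1 : τ ≤ 1 / 12 + 2 * d)
    (hB : 2 - s + D - 5 * σ - 3 / 4 * τ ≤ B)
    (M3 : ∀ u, 0 ≤ u → u ≤ 1 → u ≤ 9 / 2 - 3 * s →
      MB r (9 / 2 - 3 * s) (Multiset.replicate 3 u) (3 / 4) (D₃ + 2 * s))
    (M4g : 1 / 50 ≤ s → s ≤ 1 / 12 → ∀ u, 0 ≤ u → u ≤ 1 → u ≤ 9 / 2 - 3 * s →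
      MB r (9 / 2 - 3 * s) (Multiset.replicate 4 u) (13 / 15) (67 / 90 + 5 / 3 * s + D₄))
    (M4h : 1 / 12 ≤ s → s ≤ 1 / 4 → ∀ u, 0 ≤ u → u ≤ 1 → u ≤ 9 / 2 - 3 * s →
      MB r (9 / 2 - 3 * s) (Multiset.replicate 4 u) (19 / 20 - s) (4 / 5 + s + D₄))
    (M4c : 1 / 4 ≤ s → ∀ u, 0 ≤ u → u ≤ 1 → u ≤ 9 / 2 - 3 * s →
      MB r (9 / 2 - 3 * s) (Multiset.replicate 4 u) (13 / 15) (43 / 60 + 2 * s + D₄))
    (M2t : s ≤ 1 / 50 → ∀ u, 0 ≤ u → u ≤ 1 → u ≤ 9 / 2 - 3 * s →
      MB r (9 / 2 - 3 * s) (Multiset.replicate 2 u) (35 / 18 - 7 / 3 * s)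
        (2 * d * (35 / 18 - 7 / 3 * s)))
    (M2 : ∀ u, 0 ≤ u → u ≤ 1 → u ≤ 9 / 2 - 3 * s →
      MB r (9 / 2 - 3 * s) (Multiset.replicate 2 u) 0 0) :
    C1 θ r (9 / 2 - 3 * s) 1 (2 / 3 + σ) (2 / 3 + τ) B := by
  refine c1_mono ?_ hB
  rcases le_total (3 / 4) s with hs | hs
  · -- small columns
    exact cM 2 2 0 0 (by norm_num) le_rfl M2 (by linarith)
  rcases le_total τ 0 with ht | ht
  · have hst : 0 ≤ s * (-τ) := mul_nonneg hs0 (by linarith)
    have hds : 0 ≤ d * s := mul_nonneg hd hs0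
    rcases le_total σ 0 with hs' | hs'
    · exact cM 3 3 (3 / 4) _ (by norm_num) (by norm_num) M3 (by linarith)
    · rcases le_total s (1 / 4) with h4 | h4
      · rcases le_total s (σ - 3 / 4 * τ + D) with hm | hm
        · exact cL 6 6 (by norm_num) (by linarith) hs' (by linarith)
        rcases le_total s (1 / 50) with h50 | h50
        · exact cM 2 2 _ _ (by norm_num) (by linarith) (M2t h50) (by linarith)
        rcases le_total 0 (5 * σ + (1 - 4 * s) * τ) with hv | hv
        · exact cX 5 5 (by norm_num) (by linarith) (by linarith) (by linarith)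
        rcases le_total s (1 / 12) with h12 | h12
        · exact cM 4 4 (13 / 15) _ (by norm_num) (by norm_num) (M4g h50 h12) (by linarith)
        · refine cM 4 4 (19 / 20 - s) _ (by norm_num) (by linarith) (M4h h12 h4) ?_
          nlinarith
      rcases le_total s (1 / 3) with h3 | h3
      · exact cL 5 5 (by norm_num) (by linarith) hs' (by linarith)
      have hst3 : 0 ≤ (s - 1 / 3) * (-τ) := mul_nonneg (by linarith) (by linarith)
      rcases le_total s (1 / 2) with h2 | h2
      · rcases le_total (s - 1 / 3) (- 3 / 4 * τ + D) with hm | hm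
        · exact cL 5 5 (by norm_num) (by linarith) hs' (by linarith)
        rcases le_total 0 (4 * σ + (2 - 4 * s) * τ) with hv | hv
        · exact cX 4 4 (by norm_num) (by linarith) (by linarith) (by linarith)
        · refine cM 4 4 (13 / 15) _ (by norm_num) (by norm_num) (M4c h4) ?_
          have h1 : 0 ≤ (37 / 60 - s) * (4 / 3 * (s - 1 / 3) - (-τ)) :=
            mul_nonneg (by linarith) (by linarith)
          have h2 : 0 ≤ (s - 19 / 40) * (s - 19 / 40) := mul_self_nonneg _
          linarith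
      rcases le_total s (7 / 12) with h3' | h3'
      · exact cL 4 4 (by norm_num) (by linarith) hs' (by linarith)
      have hst4 : 0 ≤ (s - 7 / 12) * (-τ) := mul_nonneg (by linarith) (by linarith)
      rcases le_total (s - 2 / 3) (-σ - 3 / 4 * τ + D) with hm | hm
      · exact cL 4 4 (by norm_num) (by linarith) hs' (by linarith)
      rcases le_total 0 (3 * σ + (3 - 4 * s) * τ) with hv | hv
      · exact cX 3 3 (by norm_num) (by linarith) (by linarith) (by linarith)
      · refine cM 4 4 (13 / 15) _ (by norm_num) (by norm_num) (M4c h4) ?_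
        rcases le_total s (2 / 3) with h6 | h6
        · linarith
        have hst5 : 0 ≤ (s - 2 / 3) * (-τ) := mul_nonneg (by linarith) (by linarith)
        rcases le_total s (7 / 10) with h7 | h7
        · linarith
        · have hst6 : 0 ≤ (s - 7 / 10) * (-τ) := mul_nonneg (by linarith) (by linarith)
          linarith
  · have hst : 0 ≤ s * τ := mul_nonneg hs0 ht
    have hst2 : 0 ≤ (3 / 4 - s) * τ := mul_nonneg (by linarith) ht
    rcases le_total σ 0 with hs' | hs'
    · refine cX 0 0 (by norm_num) (by linarith) ?_ ?_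
      · linarith
      · linarith
    · rcases le_total s (1 / 4) with h5 | h5
      · refine cX 5 5 (by norm_num) (by linarith) ?_ ?_
        · have : 0 ≤ (1 / 4 - s) * τ := mul_nonneg (by linarith) ht
          linarith
        · have h1 : (4 * s) * τ ≤ (4 * s) * (1 / 12 + 2 * d) :=
            mul_le_mul_of_nonneg_left hτ1 (by linarith)
          have h2 : (4 * s) * d ≤ 1 * d :=
            mul_le_mul_of_nonneg_right (by linarith) hd
          linarith
      rcases le_total s (1 / 2) with h8 | h8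
      · refine cX 4 4 (by norm_num) (by linarith) ?_ ?_
        · have : 0 ≤ (1 / 2 - s) * τ := mul_nonneg (by linarith) ht
          linarith
        · rcases le_total (4 * s - 5 / 4) 0 with hc | hc
          · have : 0 ≤ (-(4 * s - 5 / 4)) * τ := mul_nonneg (by linarith) ht
            linarith
          · have h1 : (4 * s - 5 / 4) * τ ≤ (4 * s - 5 / 4) * (1 / 12 + 2 * d) :=
              mul_le_mul_of_nonneg_left hτ1 hc
            have h2 : (4 * s - 5 / 4) * d ≤ 1 * d :=
              mul_le_mul_of_nonneg_right (by linarith) hd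
            linarith
      · refine cX 3 3 (by norm_num) (by linarith) ?_ ?_
        · linarith
        · rcases le_total (4 * s - 9 / 4) 0 with hc | hc
          · have : 0 ≤ (-(4 * s - 9 / 4)) * τ := mul_nonneg (by linarith) ht
            linarith
          · have h1 : (4 * s - 9 / 4) * τ ≤ (4 * s - 9 / 4) * (1 / 12 + 2 * d) :=
              mul_le_mul_of_nonneg_left hτ1 hc
            have h2 : (4 * s - 9 / 4) * d ≤ 1 * d :=
              mul_le_mul_of_nonneg_right (by linarith) hd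
            linarith

/-- columns of `{1^4 | h}`, `5/8 ≤ h ≤ 7/10`, top column `15/4` -/
theorem col4a {d s h D B σ τ : ℝ} (hd : 0 ≤ d) (hd8 : 8 * d ≤ 1) (hs0 : 0 ≤ s)
    (hs1 : s ≤ 5 / 4) (hh0 : 5 / 8 ≤ h) (hh1 : h ≤ 7 / 10)
    (hD : 6 * d ≤ D) (hσ : σ ≤ 1 / 12 + 2 * d) (hτ1 : τ ≤ 1 / 12 + 2 * d)
    (hB : 5 / 3 - s + D - 4 * σ - h * τ ≤ B)
    (M3m : ∀ u, 0 ≤ u → u ≤ 1 → u ≤ 15 / 4 - 3 * s →
      MB r (15 / 4 - 3 * s) (Multiset.replicate 3 u) (1 / 2) (1 / 4 + 2 * d + 2 * s))
    (M3o : s ≤ 1 / 2 → ∀ u, 0 ≤ u → u ≤ 1 → u ≤ 15 / 4 - 3 * s →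
      MB r (15 / 4 - 3 * s) (Multiset.replicate 3 u) (1 / 2 - s) (1 / 4 + s + 2 * d))
    (M2 : ∀ u, 0 ≤ u → u ≤ 1 → u ≤ 15 / 4 - 3 * s →
      MB r (15 / 4 - 3 * s) (Multiset.replicate 2 u) 0 0) :
    C1 θ r (15 / 4 - 3 * s) 1 (2 / 3 + σ) (2 / 3 + τ) B := by
  refine c1_mono ?_ hB
  rcases le_total (1 / 2) s with hs | hs
  · -- small columns
    refine cM 2 2 0 0 (by norm_num) le_rfl M2 ?_
    have h1 : h * τ ≤ 7 / 10 * (1 / 12 + 2 * d) :=
      (mul_le_mul_of_nonneg_left hτ1 (by linarith)).trans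
        (mul_le_mul_of_nonneg_right hh1 (by linarith))
    linarith
  rcases le_total τ 0 with ht | ht
  · have h0 : 0 ≤ (h - 5 / 8) * (-τ) := mul_nonneg (by linarith) (by linarith)
    have hst : 0 ≤ s * (-τ) := mul_nonneg hs0 (by linarith)
    rcases le_total σ ((h - 1 / 2) * (-τ)) with hs' | hs'
    · exact cM 3 3 (1 / 2) _ (by norm_num) (by norm_num) M3m (by linarith)
    · have hσ0 : 0 ≤ σ := by linarith
      rcases le_total s (1 / 4) with h4 | h4
      · rcases le_total s (σ - h * τ + D) with hm | hm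
        · exact cL 5 5 (by norm_num) (by linarith) hσ0 (by linarith)
        rcases le_total (σ + (h - 1 / 2 + s) * τ + 2 * d) (s / 3 + D) with hn | hn
        · exact cM 3 3 _ _ (by norm_num) (by linarith) (M3o hs) (by linarith)
        · exact cX 4 4 (by norm_num) (by linarith) (by linarith) (by linarith)
      rcases le_total s (1 / 3) with h3 | h3
      · exact cL 4 4 (by norm_num) (by linarith) hσ0 (by linarith)
      have hst3 : 0 ≤ (s - 1 / 3) * (-τ) := mul_nonneg (by linarith) (by linarith)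
      rcases le_total (s - 1 / 3) (-(h * τ) + D) with hm | hm
      · exact cL 4 4 (by norm_num) (by linarith) hσ0 (by linarith)
      rcases le_total 0 (3 * σ + (2 - 4 * s) * τ) with hv | hv
      · exact cX 3 3 (by norm_num) (by linarith) (by linarith) (by linarith)
      · exact cM 3 3 _ _ (by norm_num) (by linarith) (M3o hs) (by linarith)
  · have hst : 0 ≤ s * τ := mul_nonneg hs0 ht
    have hst2 : 0 ≤ (1 / 2 - s) * τ := mul_nonneg (by linarith) ht
    have hht : 0 ≤ (7 / 10 - h) * τ := mul_nonneg (by linarith) ht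
    rcases le_total σ 0 with hs' | hs'
    · refine cX 0 0 (by norm_num) (by linarith) ?_ ?_
      · linarith
      · linarith
    · rcases le_total s (1 / 4) with h5 | h5
      · refine cX 4 4 (by norm_num) (by linarith) ?_ ?_
        · have : 0 ≤ (1 / 4 - s) * τ := mul_nonneg (by linarith) ht
          linarith
        · rcases le_total (h - 1 + 4 * s) 0 with hc | hc
          · have : 0 ≤ (-(h - 1 + 4 * s)) * τ := mul_nonneg (by linarith) ht
            linarith
          · have h1 : (h - 1 + 4 * s) * τ ≤ (h - 1 + 4 * s) * (1 / 12 + 2 * d) :=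
              mul_le_mul_of_nonneg_left hτ1 hc
            have h2 : (h - 1 + 4 * s) * d ≤ 1 * d :=
              mul_le_mul_of_nonneg_right (by linarith) hd
            linarith
      · refine cX 3 3 (by norm_num) (by linarith) ?_ ?_
        · linarith
        · rcases le_total (h - 2 + 4 * s) 0 with hc | hc
          · have : 0 ≤ (-(h - 2 + 4 * s)) * τ := mul_nonneg (by linarith) ht
            linarith
          · have h1 : (h - 2 + 4 * s) * τ ≤ (h - 2 + 4 * s) * (1 / 12 + 2 * d) :=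
              mul_le_mul_of_nonneg_left hτ1 hc
            have h2 : (h - 2 + 4 * s) * d ≤ 1 * d :=
              mul_le_mul_of_nonneg_right (by linarith) hd
            linarith

end Crest.Agent.R017.C1w873
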