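import Crest.Agent.R017.EqU_177

/-!
# Row 17, section D, C1: `stepU` of helper177 with a weaker condition on the loss (helper83)

`stepU2` : as `Eq177.stepU`, with `2 d (5/6 κ + U - 3 w) - (κ - 6 w)/24 + 3/4 U ≤ F` in place of
`2 d (5/6 κ + U - w) - (κ - 6 w)/24 + 3/4 U ≤ F` (the level rule is only used for `i ≥ 3/2 w`). With
`F = (4/3 d - μ) κ` the first condition fails for `d` near `1/8`, the second holds.
-/

set_option autoImplicit false

noncomputable section

namespace Crest.Agent.R017.EqU2_83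

open Crest.Agent.R017.ER911 Crest.Agent.R017.SC777 Crest.Agent.R017.Eq177

variable {θ d : ℝ} {r s : EF}

/-- the value of the (LV) closure, all lengths in real form: `Q` = gain -/
theorem lv_arith {κ w p c U η F i l Q : ℝ} (hw : 0 < w) (hd : 0 ≤ d) (hη : 0 ≤ η)
    (hη8 : 8 * η ≤ w) (hn : p * w + c ≤ 5 / 6 * κ + U - w) (hl : l = p * w + c)
    (hi : 3 / 2 * w ≤ i) (hiκ : i ≤ κ - 3 * w) (hC2 : 3 * U * w ≤ 2 * η * (κ / 2 - 3 * w - U))
    (hC3 : 2 * d * (5 / 6 * κ + U - 3 * w) - (κ - 6 * w) / 24 + 3 / 4 * U ≤ F) (hF : 0 ≤ F)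
    (hQ1 : l ≤ 4 / 3 * i → 2 * η / 9 * (4 / 3 * i - l) ≤ w * Q)
    (hQ2 : 4 / 3 * i ≤ l → -((1 / 24 + d) * (l - 4 / 3 * i)) ≤ Q) :
    4 / 9 * i + 2 / 3 * l - 2 * Q ≤ (2 * κ + i) / 3 - w + F := by
  rcases le_total l (4 / 3 * i) with h | h
  · have h1 := hQ1 h
    have h2 : 0 ≤ (w / 12 - 4 * η / 9) * (κ - 3 * w - i) :=
      mul_nonneg (by linarith) (by linarith)
    have h3 : 2 * η * (κ / 2 - 3 * w - U) ≤ 2 * η * (4 / 3 * (κ - 3 * w) - l) :=
      mul_le_mul_of_nonneg_left (by linarith) (by linarith)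
    have h4 : 0 ≤ w * F := mul_nonneg hw.le hF
    have h5 : w * l ≤ w * (5 / 6 * κ + U - w) := mul_le_mul_of_nonneg_left (by linarith) hw.le
    have h6 : 0 ≤ w * ((2 * κ + i) / 3 - w + F - (4 / 9 * i + 2 / 3 * l - 2 * Q)) := by
      nlinarith [h1, h2, h3, h4, h5]
    have h7 := (mul_nonneg_iff_of_pos_left hw).1 h6
    linarith
  · have h1 := hQ2 h
    have h2 : d * (l - 4 / 3 * i) ≤ d * (5 / 6 * κ + U - 3 * w) :=
      mul_le_mul_of_nonneg_left (by linarith) hd
    nlinarith [h1, h2]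

/-- the closures for the one-lump step -/
theorem clo_step (hd : 0 ≤ d) (hd8 : d ≤ 1 / 8) {κ w c g U η F F₁ i : ℝ} {p : ℕ} (hw : 0 < w)
    (hp : 2 ≤ p) (hU : 0 ≤ U) (hη : 0 ≤ η) (hη8 : 8 * η ≤ w)
    (hn : p * w + c ≤ 5 / 6 * κ + U - w) (hc : w ≤ c) (hg0 : 0 ≤ g) (hg : c - w / 2 + η = g)
    (hi : 3 / 2 * w ≤ i) (hiκ : i ≤ κ - 3 * w)
    (hC2 : 3 * U * w ≤ 2 * η * (κ / 2 - 3 * w - U))
    (hC3 : 2 * d * (5 / 6 * κ + U - 3 * w) - (κ - 6 * w) / 24 + 3 / 4 * U ≤ F) (hF : 0 ≤ F)
    (hFF : F₁ ≤ F) (hM : Mom r i w (p - 1) g (2 / 3 * (κ - 3 * w - i) + F₁)) {X u : ℝ}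
    (hX : X ≤ (1 / 24 + d) * w) (hu : -(1 / 3) ≤ u) (hu' : u ≤ 1 / 24 + d) :
    Clo r i w ((2 * κ + i) / 3 - w + F) p c X u := by
  have hi0 : 0 ≤ i := by linarith
  by_cases hMc : 2 * X + 2 * (w / 2 - η) * u ≤ 2 / 3 * η
  · -- the second moment closes
    left
    refine ⟨p - 1, g, _, hg0, hM, ?_⟩
    have h1 : ((p - 1 : ℕ) : ℝ) = p - 1 := by
      rw [Nat.cast_sub (by omega)]; simp
    rw [h1, ← hg]
    have h2 : (c - (c - w / 2 + η)) * (2 / 3 + 2 * u) = 2 / 3 * (w / 2 - η) +
      2 * (w / 2 - η) * u := by ring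
    rw [h2]
    linarith
  · right
    have hMc := not_le.mp hMc
    have hz : 0 ≤ w / 2 - η := by linarith
    obtain ⟨l, hl⟩ : ∃ l, l = p * w + c := ⟨_, rfl⟩
    have hp0 : (0 : ℝ) ≤ p := Nat.cast_nonneg p
    rcases le_total X (u * w) with hXu | hXu
    · -- granular mass is denser: pure granular (LV)
      refine ⟨0, by simp; positivity, ?_, ?_⟩
      · simp only [Nat.cast_zero, zero_mul, zero_add, sub_zero]
        have : 0 ≤ u := by
          by_contra hcon
          have hcon := not_le.mp hcon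
          nlinarith
        positivity
      · simp only [Nat.cast_zero, zero_mul, zero_add, sub_zero]
        have hu0 : 2 * η / 9 ≤ w * u := by nlinarith
        have key := lv_arith (Q := 4 / 3 * i * u - p * X - c * u) hw hd hη hη8 hn hl hi hiκ
          hC2 hC3 hF ?_ ?_
        · rw [hl] at key
          linarith
        · intro h
          have h1 : p * X ≤ p * (u * w) := mul_le_mul_of_nonneg_left hXu hp0
          have h2 : 2 * η / 9 * (4 / 3 * i - l) ≤ w * u * (4 / 3 * i - l) :=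
            mul_le_mul_of_nonneg_right hu0 (by linarith)
          have h3 : w * (p * X) ≤ w * (p * (u * w)) := mul_le_mul_of_nonneg_left h1 hw.le
          rw [hl] at h2 ⊢
          linarith
        · intro h
          have h1 : p * X ≤ p * (u * w) := mul_le_mul_of_nonneg_left hXu hp0
          have h2 : u * (l - 4 / 3 * i) ≤ (1 / 24 + d) * (l - 4 / 3 * i) :=
            mul_le_mul_of_nonneg_right hu' (by linarith)
          have h3 : 4 / 3 * i * u - p * X - c * u ≥ -(u * (l - 4 / 3 * i)) := by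
            rw [hl]; linarith
          linarith
    · -- lumps are denser: `K` copies and granular fill
      obtain ⟨K, hK⟩ : ∃ K : ℕ, K = ⌊4 / 3 * i / w⌋₊ := ⟨_, rfl⟩
      have hr : 0 ≤ 4 / 3 * i / w := by positivity
      have hK1 : (K : ℝ) * w ≤ 4 / 3 * i := by
        have := Nat.floor_le hr
        rw [← hK] at this
        calc (K : ℝ) * w ≤ 4 / 3 * i / w * w := mul_le_mul_of_nonneg_right this hw.le
          _ = 4 / 3 * i := by field_simp
      have hK2 : 4 / 3 * i < (K + 1) * w := by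
        have := Nat.lt_floor_add_one (4 / 3 * i / w)
        rw [← hK] at this
        calc 4 / 3 * i = 4 / 3 * i / w * w := by field_simp
          _ < (K + 1) * w := mul_lt_mul_of_pos_right this hw
      have hK3 : (2 : ℝ) ≤ K := by
        have h2 : (2 : ℕ) ≤ K := by
          rw [hK]
          apply Nat.le_floor
          rw [le_div_iff₀ hw]
          push_cast
          linarith
        exact_mod_cast h2
      obtain ⟨f, hf⟩ : ∃ f, f = 4 / 3 * i - K * w := ⟨_, rfl⟩
      have hf0 : 0 ≤ f := by linarith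
      have hf1 : f ≤ w := by linarith
      have hfc : f ≤ c := by linarith
      have hX0 : 2 * η / 9 ≤ X := by nlinarith
      have hXw : u ≤ X / w := by rwa [le_div_iff₀ hw]
      refine ⟨K, hK1, ?_, ?_⟩
      · rw [← hf]
        rcases le_total 0 u with h0 | h0
        · have hX' : 0 ≤ X := le_trans (by positivity) hX0
          exact add_nonneg (mul_nonneg (by linarith) hX') (mul_nonneg hf0 h0)
        · -- `K X + f u ≥ K (z t + η / 3) - f t`
          have h1 : K * (-((w / 2 - η) * u) + η / 3) ≤ K * X :=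
            mul_le_mul_of_nonneg_left (by linarith) (by linarith)
          have h2 : 0 ≤ (K - 2) * w * (-u) := by
            have : 0 ≤ (K : ℝ) - 2 := by linarith
            have hu0 : 0 ≤ -u := by linarith
            positivity
          have h3 : (w - f) * (-u) ≥ 0 := mul_nonneg (by linarith) (by linarith)
          have h4 : K * η * (1 / 3 + u) ≥ 0 :=
            mul_nonneg (mul_nonneg (by linarith) hη) (by linarith)
          nlinarith [h1, h2, h3, h4]
      · rw [← hf]
        have hQ : X * (4 / 3 * i - l) ≤ w * (K * X + f * u - p * X - c * u) := by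
          have h1 : (c - f) * (u * w) ≤ (c - f) * X := mul_le_mul_of_nonneg_left hXu (by linarith)
          have h2 : 4 / 3 * i = K * w + f := by linarith
          rw [h2, hl]
          nlinarith [h1]
        have key := lv_arith (Q := K * X + f * u - p * X - c * u) hw hd hη hη8 hn hl hi hiκ
          hC2 hC3 hF ?_ ?_
        · rw [hl] at key
          linarith
        · intro h
          have h2 : 2 * η / 9 * (4 / 3 * i - l) ≤ X * (4 / 3 * i - l) :=
            mul_le_mul_of_nonneg_right hX0 (by linarith)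
          linarith
        · intro h
          have h2 : X * (l - 4 / 3 * i) ≤ (1 / 24 + d) * w * (l - 4 / 3 * i) :=
            mul_le_mul_of_nonneg_right hX (by linarith)
          have h3 : w * (-((1 / 24 + d) * (l - 4 / 3 * i))) ≤
              w * (K * X + f * u - p * X - c * u) := by linarith
          exact le_of_mul_le_mul_left h3 hw

/-- **the one-lump step** -/
theorem stepU2 (R : ExpRules (7 / 8 + d) r s) (L : ExpLv (7 / 8 + d) r) (hd : 0 ≤ d)
    (hd8 : d ≤ 1 / 8) {κ w c U η F F₁ : ℝ} {q : ℕ} (hw : 0 < w) (hq : 3 ≤ q) (hU : 0 ≤ U)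
    (hUw : 2 * U ≤ w) (hη : 0 ≤ η) (hη8 : 8 * η ≤ w) (hn : q * w + c ≤ 5 / 6 * κ + U)
    (hc : w ≤ c) (hc' : c ≤ 2 / 3 * κ - w) (hκ : 6 * w + 6 * U ≤ κ)
    (hC2 : 3 * U * w ≤ 2 * η * (κ / 2 - 3 * w - U))
    (hC3 : 2 * d * (5 / 6 * κ + U - 3 * w) - (κ - 6 * w) / 24 + 3 / 4 * U ≤ F) (hF : 0 ≤ F)
    (hFF : F₁ ≤ F) (H : Sd r (κ - 3 * w) w (q - 2) (c - w / 2 + η) F₁) : Sd r κ w q c F := by
  obtain ⟨p, rfl⟩ : ∃ p, q = p + 1 := ⟨q - 1, by omega⟩
  have hp : 2 ≤ p := by omega
  have hpq : p + 1 - 2 = p - 1 := by omega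
  rw [hpq] at H
  push_cast at hn
  have hκ0 : 0 ≤ κ := by linarith
  intro Y m a hYc hY hm ha hma κ' hκ' hκκ
  obtain ⟨v, Z, rfl⟩ : ∃ v Z, Y = v ::ₘ Z := by
    have : Y ≠ 0 := by
      rintro rfl
      simp at hYc
    obtain ⟨v, hv⟩ := Multiset.exists_mem_of_ne_zero this
    exact ⟨v, Y.erase v, (Multiset.cons_erase hv).symm⟩
  have hZc : Z.card = p := by simpa using hYc
  have hv := hY v (Multiset.mem_cons_self v Z)
  have hZ : ∀ y ∈ Z, 0 ≤ y ∧ y ≤ w := fun y hy => hY y (Multiset.mem_cons_of_mem hy)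
  have hZs : Z.sum ≤ p * w := by
    have := sum_le_card_mul Z fun y hy => (hZ y hy).2
    rwa [hZc] at this
  have hC : ColX (7 / 8 + d) r κ w F Z m a := by
    refine ⟨?_, ?_⟩
    · intro Z' m' a' i hZ' hm0 hm1 ha0 ha1 hi hyi hii
      have hZ'c : Z'.card = p := by rw [hZ'.card, hZc]
      have hZ'w : ∀ y ∈ Z', y ≤ w := by
        intro y hy
        obtain ⟨b, hb, hyb⟩ := Multiset.exists_mem_of_rel_of_mem hZ' hy
        exact hyb.2.trans (hZ b hb).2
      have hZ'0 := hZ'.nonneg
      rcases le_total (3 / 2 * w) i with hiw | hiw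
      · have hMom := H.mom hi hii
        have := col_eq (r := r) (θ := 7 / 8 + d) (T := (2 * κ + i) / 3 - w + F) (c := c) L
          (by linarith) (p := p) (by omega) (i := i) (w := w) hi ?_ ?_ hZ'c
          (fun y hy => ⟨hZ'0 y hy, hZ'w y hy, hyi y hy⟩) hm0 ha0 (by linarith)
        · linarith
        · intro X hX
          refine ⟨p - 1, 2 / 3 * (κ - 3 * w - i) + F₁, hMom.mono (by linarith) le_rfl, ?_⟩
          have h1 : ((p - 1 : ℕ) : ℝ) = p - 1 := by
            rw [Nat.cast_sub (by omega)]; simp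
          rw [h1]
          have h2 : (7 / 8 + d - 5 / 6) * w ≤ 1 / 6 * w :=
            mul_le_mul_of_nonneg_right (by linarith) hw.le
          linarith
        · intro X u hX hu hu'
          exact clo_step (c := c) (g := c - w / 2 + η) (U := U) (η := η) (F₁ := F₁) hd hd8 hw hp
            hU hη hη8 (by linarith) hc (by linarith) rfl hiw hii hC2 hC3 hF hFF hMom
            (by linarith) hu (by linarith)
      · -- small families: two-factor theorem and pointwise bound
        obtain ⟨y₁, y₂, Z₂, rfl⟩ : ∃ y₁ y₂ Z₂, Z' = Z₂ + {y₁, y₂} := by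
          have h1 : Z' ≠ 0 := by
            rintro rfl
            simp at hZ'c
            omega
          obtain ⟨y₁, hy₁⟩ := Multiset.exists_mem_of_ne_zero h1
          have h2 : Z'.erase y₁ ≠ 0 := by
            intro h
            have := Multiset.card_erase_of_mem hy₁
            rw [h, hZ'c] at this
            simp at this
            omega
          obtain ⟨y₂, hy₂⟩ := Multiset.exists_mem_of_ne_zero h2
          refine ⟨y₁, y₂, (Z'.erase y₁).erase y₂, ?_⟩
          have e1 : (Z'.erase y₁).erase y₂ + {y₁, y₂} =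
              y₁ ::ₘ (y₂ ::ₘ (Z'.erase y₁).erase y₂) := by
            rw [add_comm, Multiset.insert_eq_cons, Multiset.cons_add, Multiset.singleton_add]
          rw [e1, Multiset.cons_erase hy₂, Multiset.cons_erase hy₁]
        have hy1 : y₁ ∈ Z₂ + {y₁, y₂} := Multiset.mem_add.2 (Or.inr (by simp))
        have hy2 : y₂ ∈ Z₂ + {y₁, y₂} := Multiset.mem_add.2 (Or.inr (by simp))
        have hZ2 : ∀ y ∈ Z₂, 0 ≤ y := fun y hy => hZ'0 y (Multiset.mem_add.2 (Or.inl hy))
        have hZ2w : ∀ y ∈ Z₂, y ≤ w := fun y hy => hZ'w y (Multiset.mem_add.2 (Or.inl hy))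
        have hc2 : (Z₂.card : ℝ) = p - 2 := by
          have : Z₂.card + 2 = p := by
            have := hZ'c
            rw [Multiset.card_add] at this
            simpa using this
          have h' : ((Z₂.card + 2 : ℕ) : ℝ) = p := by rw [this]
          push_cast at h'
          linarith
        have hs2 : Z₂.sum ≤ (p - 2) * w := by
          have := sum_le_card_mul Z₂ hZ2w
          rwa [hc2] at this
        have e0 := supV R hi {y₁, y₂} Z₂
          (ok_pair (m := 0) (a := 0) (hZ'0 _ hy1) (hZ'0 _ hy2) le_rfl le_rfl).1 hZ2 hm0 ha0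
        have e1 := sup_all R hi (hZ'0 _ hy1) (hZ'0 _ hy2) hm0 ha0 (hyi _ hy1) (hyi _ hy2)
        have hsum : (Z₂ + {y₁, y₂}).sum = Z₂.sum + (y₁ + y₂) := by
          rw [Multiset.sum_add, sum_pair]
        rw [hsum]
        have e2 : (3 / 4 + 2 * d) * (Z₂.sum + m' + a') ≤
            (3 / 4 + 2 * d) * (5 / 6 * κ + U - 3 * w) :=
          mul_le_mul_of_nonneg_left (by linarith) (by linarith)
        have e3 : 0 ≤ d * (4 * w - 2 * w) := by
          have : 0 ≤ 4 * w - 2 * w := by linarith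
          positivity
        nlinarith [e0, e1, e2, e3, hC3]
    · intro Z' m' a' hZ' hm0 hm1 ha0 ha1 _
      have hYs := hZ'.sum_nonneg
      have h1 : 2 * (7 / 8 + d) * m' ≤ 2 * m' := by nlinarith
      linarith
  have hVZ : ∀ y ∈ ({v} : Multiset ℝ), 0 ≤ y := by
    intro y hy
    rw [Multiset.mem_singleton.1 hy]
    exact hv.1
  have := side_xi R (κ := κ) (ξ := w) (m := m) (b := 0) (a := a) (b' := 0) (F := F)
    (V := {v}) (Z := Z) hκ0 hVZ (fun y hy => (hZ y hy).1) hm le_rfl ha le_rfl hF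
    (by rw [Multiset.sum_singleton]; linarith) (by linarith) hC κ' hκ' hκκ
  have e : ({v} : Multiset ℝ) + Z = v ::ₘ Z := Multiset.singleton_add v Z
  rw [e, Multiset.sum_singleton, add_zero, add_zero] at this
  rw [Multiset.sum_cons]
  linarith

end Crest.Agent.R017.EqU2_83
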