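import Crest.Agent.R017.C1w2b_83
import Crest.Agent.R017.EqU2_83

/-!
# Row 17, section D, C1: the window `12 w ≤ κ ≤ 51/4 w` (helper83)

`win9` : the mixture of `{w^8 | ·}` (total `5/6 κ + U`, by `stepU2` from `sid6`, `sid6b`) and
`{w^9 | κ - 89/8 w}` (744's `step3` from `sid7`).
-/

set_option autoImplicit false

noncomputable section

namespace Crest.Agent.R017.C1w9_83

open Crest.Agent.R017.ER911 Crest.Agent.R017.C1w2_83

variable {d : ℝ} {r s : EF}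

/-- nine lumps, `{1^9 | 7/8 + u}` at `12 + u` -/
theorem sid9 {μ : ℝ} (R : ExpRules (7 / 8 + d) r s) (Lv : ExpLv (7 / 8 + d) r) (hd : 0 ≤ d)
    (hμ : 0 ≤ μ) (hμ1 : 72 * μ ≤ 1 - 8 * d) (hμ2 : 9 * μ ≤ d) {u : ℝ} (hu : 0 ≤ u)
    (hu1 : u ≤ 3 / 4) :
    C1S744.Sid r (12 + u) 9 1 (7 / 8 + u) ((4 / 3 * d - μ) * (12 + u)) := by
  have hd8 : d ≤ 1 / 8 := by linarith
  obtain ⟨hF, hG⟩ := loss_lb hd hμ hμ1 hμ2 hu hu1
  refine C1S744.step3 (q := 7) R Lv hd hμ hμ1 hμ2 one_pos (by linarith) (by linarith)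
    (by norm_num) (by push_cast; linarith) (by linarith) ?_
  have e1 : 12 + u - 3 * 1 = 9 + u := by ring
  have e2 : 7 / 8 + u - 1 / 2 = 3 / 8 + u := by ring
  rw [e1, e2]
  exact sid7 R Lv hd hd8 hu hu1 hF hG

/-- the loss condition of `stepU2` -/
theorem c3_ok {μ u U : ℝ} (hd : 0 ≤ d) (hd8 : d ≤ 1 / 8) (hμ : 0 ≤ μ) (hμ2 : 9 * μ ≤ d)
    (hu : 0 ≤ u) (hu1 : u ≤ 3 / 4) (hU : 0 ≤ U) (hU1 : U ≤ 1 / 20) :
    2 * d * (5 / 6 * (12 + u) + U - 3 * 1) - ((12 + u) - 6 * 1) / 24 + 3 / 4 * U ≤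
      (4 / 3 * d - μ) * (12 + u) := by
  have h1 := mul_nonneg hd (by linarith : 0 ≤ 3 / 4 - u)
  have h2 := mul_nonneg hμ (by linarith : 0 ≤ 3 / 4 - u)
  have h3 := mul_nonneg hd (by linarith : 0 ≤ 1 / 20 - U)
  have h4 := mul_nonneg hd hu
  linarith

/-- eight lumps, `u ≤ 1/5` -/
theorem sid8a {μ : ℝ} (R : ExpRules (7 / 8 + d) r s) (Lv : ExpLv (7 / 8 + d) r) (hd : 0 ≤ d)
    (hμ : 0 ≤ μ) (hμ1 : 72 * μ ≤ 1 - 8 * d) (hμ2 : 9 * μ ≤ d) {u : ℝ} (hu : 0 ≤ u)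
    (hu1 : u ≤ 1 / 5) :
    C1S744.Sid r (12 + u) 8 1 (2 + 5 / 6 * u + 147 / 10000) ((4 / 3 * d - μ) * (12 + u)) := by
  have hd8 : d ≤ 1 / 8 := by linarith
  obtain ⟨hF, hG⟩ := loss_lb hd hμ hμ1 hμ2 hu (by linarith)
  have hlam : 0 ≤ 4 / 3 * d - μ := by linarith
  refine EqU2_83.stepU2 (U := 147 / 10000) (η := 1 / 45 - 147 / 10000)
    (F₁ := (4 / 3 * d - μ) * (9 + u)) R Lv hd hd8 one_pos (by norm_num) (by norm_num)
    (by norm_num) (by norm_num) (by norm_num) (by push_cast; linarith) (by linarith)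
    (by linarith) (by linarith) (by nlinarith) (c3_ok hd hd8 hμ hμ2 hu (by linarith)
      (by norm_num) (by norm_num)) (mul_nonneg hlam (by linarith))
    (mul_le_mul_of_nonneg_left (by linarith) hlam) ?_
  have e1 : 12 + u - 3 * 1 = 9 + u := by ring
  have e2 : 2 + 5 / 6 * u + 147 / 10000 - 1 / 2 + (1 / 45 - 147 / 10000) =
      3 / 2 + 5 / 6 * u + 1 / 45 := by ring
  rw [e1, e2]
  exact sid6 R Lv hd hd8 hu (by linarith) hF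

/-- eight lumps, `1/5 ≤ u` -/
theorem sid8b {μ : ℝ} (R : ExpRules (7 / 8 + d) r s) (Lv : ExpLv (7 / 8 + d) r) (hd : 0 ≤ d)
    (hμ : 0 ≤ μ) (hμ1 : 72 * μ ≤ 1 - 8 * d) (hμ2 : 9 * μ ≤ d) {u : ℝ} (hu : 1 / 5 ≤ u)
    (hu1 : u ≤ 3 / 4) :
    C1S744.Sid r (12 + u) 8 1 (2 + 5 / 6 * u + 239 / 10000) ((4 / 3 * d - μ) * (12 + u)) := by
  have hd8 : d ≤ 1 / 8 := by linarith
  obtain ⟨hF, hG⟩ := loss_lb hd hμ hμ1 hμ2 (u := u) (by linarith) (by linarith)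
  have hlam : 0 ≤ 4 / 3 * d - μ := by linarith
  refine EqU2_83.stepU2 (U := 239 / 10000) (η := 1 / 28 - 239 / 10000)
    (F₁ := (4 / 3 * d - μ) * (9 + u)) R Lv hd hd8 one_pos (by norm_num) (by norm_num)
    (by norm_num) (by norm_num) (by norm_num) (by push_cast; linarith) (by linarith)
    (by linarith) (by linarith) (by nlinarith) (c3_ok hd hd8 hμ hμ2 (by linarith) (by linarith)
      (by norm_num) (by norm_num)) (mul_nonneg hlam (by linarith))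
    (mul_le_mul_of_nonneg_left (by linarith) hlam) ?_
  have e1 : 12 + u - 3 * 1 = 9 + u := by ring
  have e2 : 2 + 5 / 6 * u + 239 / 10000 - 1 / 2 + (1 / 28 - 239 / 10000) =
      3 / 2 + 5 / 6 * u + 1 / 28 := by ring
  rw [e1, e2]
  exact sid6b R Lv hd hd8 hu (by linarith) hF

/-- `Win` for `κ = 12 + u`, lumps `1` -/
theorem win9_one {μ : ℝ} (R : ExpRules (7 / 8 + d) r s) (Lv : ExpLv (7 / 8 + d) r)
    (hd : 0 ≤ d) (hμ : 0 ≤ μ) (hμ1 : 72 * μ ≤ 1 - 8 * d) (hμ2 : 9 * μ ≤ d) {κ : ℝ}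
    (h12 : 12 ≤ κ) (h51 : κ ≤ 51 / 4) : Ey645.Win r κ 1 ((4 / 3 * d - μ) * κ) := by
  obtain ⟨u, hu⟩ : ∃ u, u = κ - 12 := ⟨_, rfl⟩
  have hκ : κ = 12 + u := by linarith
  subst hκ
  have hu0 : 0 ≤ u := by linarith
  have hu1 : u ≤ 3 / 4 := by linarith
  rcases le_total u (1 / 5) with h5 | h5
  · refine ⟨8, 2 + 5 / 6 * u + 147 / 10000, 7 / 8 + u, 2 / 3 * u, by linarith, by linarith, ?_,
      by linarith, by linarith, sid8a R Lv hd hμ hμ1 hμ2 hu0 h5,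
      sid9 R Lv hd hμ hμ1 hμ2 hu0 hu1, ?_⟩
    · push_cast; ring
    · nlinarith [mul_nonneg hu0 (by linarith : 0 ≤ 1 / 5 - u)]
  · refine ⟨8, 2 + 5 / 6 * u + 239 / 10000, 7 / 8 + u, 2 / 3 * u, by linarith, by linarith, ?_,
      by linarith, by linarith, sid8b R Lv hd hμ hμ1 hμ2 h5 hu1,
      sid9 R Lv hd hμ hμ1 hμ2 hu0 hu1, ?_⟩
    · push_cast; ring
    · nlinarith [sq_nonneg (u - 447 / 1000)]

/-- **the window `12 w ≤ κ ≤ 51/4 w`** -/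
theorem win9 {μ : ℝ} (R : ExpRules (7 / 8 + d) r s) (Lv : ExpLv (7 / 8 + d) r)
    (hd : 0 ≤ d) (hμ : 0 ≤ μ) (hμ1 : 72 * μ ≤ 1 - 8 * d) (hμ2 : 9 * μ ≤ d) (κ w : ℝ)
    (hw : 0 < w) (h12 : 12 * w ≤ κ) (h51 : κ ≤ 51 / 4 * w) :
    Ey645.Win r κ w ((4 / 3 * d - μ) * κ) := by
  have h := win_unscale hw (win9_one (R.scale hw) (Lv.scale hw) hd hμ hμ1 hμ2 (κ := κ / w)
    (by rw [le_div_iff₀ hw]; exact h12) (by rw [div_le_iff₀ hw]; exact h51))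
  have e1 : w * (κ / w) = κ := by field_simp
  have e2 : w * ((4 / 3 * d - μ) * (κ / w)) = (4 / 3 * d - μ) * κ := by field_simp
  rw [e1, e2] at h
  exact h

end Crest.Agent.R017.C1w9_83
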