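import Crest.Agent.R017.C1q6_61

/-!
# Row 17, section D, small lumps: window `61/8 ≤ κ ≤ 33/4`, six lumps, shorter side (helper393)

`idl6w` : `{1⁶ | 10/9 (κ - 15/2)}` is ideal up to `2 d (3 + 10/9 (κ - 15/2))` for
`61/8 ≤ κ ≤ 33/4`, all shortenings, every amplifier share. `X` = one lump; columns `{1⁵ | ·}` by
`{b³|·}`, `{b⁴|·}` and the level rule with 5, 6, 7 copies. The real inequalities `r6a .. r6d` are
exact certificates.
-/

set_option autoImplicit false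

noncomputable section

namespace Crest.Agent.R017.C1W393

open Crest.Agent.R017.ER911 Crest.Agent.R017.SC777 Crest.Agent.R017.CE645 Crest.Agent.R017.C161

variable {θ d : ℝ} {r s : EF}

/-! ### real inequalities -/

theorem r6a {κ i f δ : ℝ} (hk0 : 61 / 8 ≤ κ) (hk1 : κ ≤ 33 / 4) (hi0 : 11 / 4 ≤ i)
    (hi1 : i ≤ 15 / 4) (hki : i ≤ κ - 3) (hf : f ≤ 3 / 4) (hδ0 : 0 ≤ δ) (hδ1 : δ ≤ 3 / 4) :
    (i + (9 / 2 - i) / 3 + 2 * f + (10 / 9 * (κ - 15 / 2) - (i - 9 / 4) / 3) * δ ≤ (2 * κ + i) / 3 - 1) ∨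
    (2 / 3 ≤ f ∧ 5 + 10 / 9 * (κ - 15 / 2) * δ ≤ (2 * κ + i) / 3 - 1) := by
  by_contra hcon
  simp only [not_or, not_and, not_le] at hcon
  obtain ⟨gM3b, gLVr5⟩ := hcon
  have hM3b := sub_pos.2 gM3b
  have bd0 := hδ0
  have bd1 := sub_nonneg.2 hδ1
  have bf := sub_nonneg.2 hf
  have bki : 0 ≤ κ - 3 - i := sub_nonneg.2 hki
  have bi0 := sub_nonneg.2 hi0
  have bi1 := sub_nonneg.2 hi1
  have bk0 := sub_nonneg.2 hk0
  have bk1 := sub_nonneg.2 hk1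
  by_cases cLVr5 : (2 / 3 : ℝ) ≤ f
  · have hLVr5v := sub_pos.2 (gLVr5 cLVr5)
    linarith [hM3b, hLVr5v, mul_nonneg bi0 bd0, mul_nonneg bi1 bd1, mul_nonneg bk0 bd1, mul_nonneg bk1 bd0, bf, mul_nonneg bi0 (mul_nonneg bd0 bd1), mul_nonneg bi1 (mul_nonneg bd0 bd1), mul_nonneg bk1 (mul_nonneg bd0 bd0), mul_nonneg bf bd0, mul_nonneg hM3b.le bd0]
  · have hLVr5i := sub_pos.2 (not_le.1 cLVr5)
    linarith [hM3b, hLVr5i, mul_nonneg bi0 bd0, mul_nonneg bi1 bd0, mul_nonneg bi1 bd1, mul_nonneg bk0 bd1, mul_nonneg bk1 bd0]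

theorem r6b {κ i f δ : ℝ} (hk0 : 61 / 8 ≤ κ) (hk1 : κ ≤ 33 / 4) (hi0 : 15 / 4 ≤ i)
    (hi1 : i ≤ 9 / 2) (hki : i ≤ κ - 3) (hf : f ≤ 3 / 4) (hδ0 : 0 ≤ δ) (hδ1 : δ ≤ 3 / 4) :
    (i + (9 / 2 - i) / 3 + 2 * f + (10 / 9 * (κ - 15 / 2) - (i - 9 / 4) / 3) * δ ≤ (2 * κ + i) / 3 - 1) ∨
    (i + 2 / 3 * (5 - i) + f + 10 / 9 * (κ - 15 / 2) * δ ≤ (2 * κ + i) / 3 - 1) ∨
    (2 / 3 * (4 / 3 * i) ≤ 5 * f + (4 / 3 * i - 5) * δ ∧ 4 / 3 * i + (10 / 9 * (κ - 15 / 2) - (4 / 3 * i - 5)) * δ ≤ (2 * κ + i) / 3 - 1) ∨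
    (2 / 3 ≤ f ∧ 6 - f + 10 / 9 * (κ - 15 / 2) * δ ≤ (2 * κ + i) / 3 - 1) := by
  by_contra hcon
  simp only [not_or, not_and, not_le] at hcon
  obtain ⟨gM3b, gM4_0, gLVx5, gLVr6⟩ := hcon
  have hM3b := sub_pos.2 gM3b
  have hM4_0 := sub_pos.2 gM4_0
  have bd0 := hδ0
  have bd1 := sub_nonneg.2 hδ1
  have bf := sub_nonneg.2 hf
  have bki : 0 ≤ κ - 3 - i := sub_nonneg.2 hki
  have bi0 := sub_nonneg.2 hi0
  have bi1 := sub_nonneg.2 hi1
  have bk0 := sub_nonneg.2 hk0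
  have bk1 := sub_nonneg.2 hk1
  by_cases cLVx5 : 2 / 3 * (4 / 3 * i) ≤ 5 * f + (4 / 3 * i - 5) * δ
  · have hLVx5v := sub_pos.2 (gLVx5 cLVx5)
    by_cases cLVr6 : (2 / 3 : ℝ) ≤ f
    · have hLVr6v := sub_pos.2 (gLVr6 cLVr6)
      linarith [hM3b, hM4_0, hLVx5v, hLVr6v, mul_nonneg bi1 bd1, mul_nonneg bk0 bd1, mul_nonneg bi0 (mul_nonneg bd0 bd0), mul_nonneg bi1 (mul_nonneg bd0 bd1), mul_nonneg bk0 (mul_nonneg bd0 bd1), mul_nonneg bk1 (mul_nonneg bd0 bd0), mul_nonneg hLVx5v.le bd0]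
    · have hLVr6i := sub_pos.2 (not_le.1 cLVr6)
      linarith [hM3b, hM4_0, hLVr6i, mul_nonneg bi1 bd0, mul_nonneg bi1 bd1, mul_nonneg bk0 bd1, mul_nonneg bi1 (mul_nonneg bd0 bd0), mul_nonneg bk0 (mul_nonneg bd1 bd1), mul_nonneg bk1 (mul_nonneg bd0 bd0), mul_nonneg hM3b.le bd1, mul_nonneg hM4_0.le bd1, mul_nonneg hLVr6i.le bd1]
  · have hLVx5i := sub_pos.2 (not_le.1 cLVx5)
    by_cases cLVr6 : (2 / 3 : ℝ) ≤ f
    · have hLVr6v := sub_pos.2 (gLVr6 cLVr6)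
      linarith [hM3b, hLVx5i, hLVr6v, mul_nonneg bi1 bd1, mul_nonneg bk0 bd1, mul_nonneg bk1 bd0, mul_nonneg bi0 (mul_nonneg bd0 bd0), mul_nonneg bi1 (mul_nonneg bd1 bd1), mul_nonneg bk0 (mul_nonneg bd1 bd1), mul_nonneg bk1 (mul_nonneg bd0 bd0), mul_nonneg hM3b.le bd0, mul_nonneg hM4_0.le bd1]
    · have hLVr6i := sub_pos.2 (not_le.1 cLVr6)
      linarith [hM3b, hM4_0, hLVr6i, mul_nonneg bi1 bd0, mul_nonneg bi1 bd1, mul_nonneg bk0 bd1, mul_nonneg bi1 (mul_nonneg bd0 bd0), mul_nonneg bk0 (mul_nonneg bd1 bd1), mul_nonneg bk1 (mul_nonneg bd0 bd0), mul_nonneg hM3b.le bd1, mul_nonneg hM4_0.le bd1, mul_nonneg hLVr6i.le bd1]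

theorem r6c {κ i f δ : ℝ} (hk0 : 61 / 8 ≤ κ) (hk1 : κ ≤ 33 / 4) (hi0 : 9 / 2 ≤ i)
    (hi1 : i ≤ 5) (hki : i ≤ κ - 3) (hf : f ≤ 3 / 4) (hδ0 : 0 ≤ δ) (hδ1 : δ ≤ 3 / 4) :
    (i + 2 * f + (10 / 9 * (κ - 15 / 2) - (i - 15 / 4)) * δ ≤ (2 * κ + i) / 3 - 1) ∨
    (i + 2 / 3 * (5 - i) + f + 10 / 9 * (κ - 15 / 2) * δ ≤ (2 * κ + i) / 3 - 1) ∨
    (2 / 3 * (4 / 3 * i) ≤ 6 * f + (4 / 3 * i - 6) * δ ∧ 4 / 3 * i - f + (10 / 9 * (κ - 15 / 2) - (4 / 3 * i - 6)) * δ ≤ (2 * κ + i) / 3 - 1) := by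
  by_contra hcon
  simp only [not_or, not_and, not_le] at hcon
  obtain ⟨gM3t, gM4_0, gLVx6⟩ := hcon
  have hM3t := sub_pos.2 gM3t
  have hM4_0 := sub_pos.2 gM4_0
  have bd0 := hδ0
  have bd1 := sub_nonneg.2 hδ1
  have bf := sub_nonneg.2 hf
  have bki : 0 ≤ κ - 3 - i := sub_nonneg.2 hki
  rcases le_total κ (127 / 16) with hs1 | hs1
  · rcases le_total κ (249 / 32) with hs2 | hs2
    · have bi0 := sub_nonneg.2 hi0
      have bi1 := sub_nonneg.2 hi1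
      have bk0 := sub_nonneg.2 hk0
      have bk1 := sub_nonneg.2 hs2
      by_cases cLVx6 : 2 / 3 * (4 / 3 * i) ≤ 6 * f + (4 / 3 * i - 6) * δ
      · have hLVx6v := sub_pos.2 (gLVx6 cLVx6)
        linarith [hM4_0, hLVx6v, mul_nonneg bi0 bd0, mul_nonneg bi1 bd0, mul_nonneg bi1 bd1, mul_nonneg bk0 bd1, mul_nonneg bk1 bd0, mul_nonneg bki bd1]
      · have hLVx6i := sub_pos.2 (not_le.1 cLVx6)
        linarith [hM3t, hM4_0, hLVx6i, mul_nonneg bk0 bd1, mul_nonneg bki bd1, mul_nonneg bi0 (mul_nonneg bd0 bd0), mul_nonneg bk0 (mul_nonneg bd1 bd1), mul_nonneg bk1 (mul_nonneg bd0 bd0), mul_nonneg bki (mul_nonneg bd1 bd1), mul_nonneg hM3t.le bd1, mul_nonneg hM4_0.le bd1, mul_nonneg hLVx6i.le bd1]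
    · have bi0 := sub_nonneg.2 hi0
      have bi1 := sub_nonneg.2 hi1
      have bk0 := sub_nonneg.2 hs2
      have bk1 := sub_nonneg.2 hs1
      by_cases cLVx6 : 2 / 3 * (4 / 3 * i) ≤ 6 * f + (4 / 3 * i - 6) * δ
      · have hLVx6v := sub_pos.2 (gLVx6 cLVx6)
        linarith [hM4_0, hLVx6v, mul_nonneg bi0 bd0, mul_nonneg bi0 bd1, mul_nonneg bi1 bd0, mul_nonneg bi1 bd1, mul_nonneg bk0 bd1, mul_nonneg bk1 bd0]
      · have hLVx6i := sub_pos.2 (not_le.1 cLVx6)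
        linarith [hM3t, hM4_0, hLVx6i, mul_nonneg bk0 bd1, mul_nonneg bki bd1, mul_nonneg bi0 (mul_nonneg bd0 bd0), mul_nonneg bk0 (mul_nonneg bd1 bd1), mul_nonneg bk1 (mul_nonneg bd0 bd0), mul_nonneg bki (mul_nonneg bd1 bd1), mul_nonneg hM3t.le bd1, mul_nonneg hM4_0.le bd1, mul_nonneg hLVx6i.le bd1]
  · rcases le_total κ (259 / 32) with hs3 | hs3
    · have bi0 := sub_nonneg.2 hi0
      have bi1 := sub_nonneg.2 hi1
      have bk0 := sub_nonneg.2 hs1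
      have bk1 := sub_nonneg.2 hs3
      by_cases cLVx6 : 2 / 3 * (4 / 3 * i) ≤ 6 * f + (4 / 3 * i - 6) * δ
      · have hLVx6v := sub_pos.2 (gLVx6 cLVx6)
        linarith [hM3t, hM4_0, hLVx6v, mul_nonneg bi0 bd0, mul_nonneg bi0 bd1, mul_nonneg bi1 bd1, mul_nonneg bk0 bd1, mul_nonneg bk1 bd0]
      · have hLVx6i := sub_pos.2 (not_le.1 cLVx6)
        linarith [hM3t, hM4_0, hLVx6i, mul_nonneg bki bd1, mul_nonneg bi0 (mul_nonneg bd0 bd0), mul_nonneg bi1 (mul_nonneg bd0 bd1), mul_nonneg bk0 (mul_nonneg bd1 bd1), mul_nonneg bk1 (mul_nonneg bd0 bd0), mul_nonneg bki (mul_nonneg bd1 bd1), mul_nonneg hM3t.le bd1, mul_nonneg hM4_0.le bd1, mul_nonneg hLVx6i.le bd1]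
    · have bi0 := sub_nonneg.2 hi0
      have bi1 := sub_nonneg.2 hi1
      have bk0 := sub_nonneg.2 hs3
      have bk1 := sub_nonneg.2 hk1
      by_cases cLVx6 : 2 / 3 * (4 / 3 * i) ≤ 6 * f + (4 / 3 * i - 6) * δ
      · have hLVx6v := sub_pos.2 (gLVx6 cLVx6)
        linarith [hM3t, hM4_0, hLVx6v, mul_nonneg bi0 bd0, mul_nonneg bi0 bd1, mul_nonneg bi1 bd1, mul_nonneg bk0 bd1, mul_nonneg bk1 bd0]
      · have hLVx6i := sub_pos.2 (not_le.1 cLVx6)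
        linarith [hM3t, hM4_0, hLVx6i, mul_nonneg bi1 bd1, mul_nonneg bk0 bd1, mul_nonneg bi0 (mul_nonneg bd0 bd0), mul_nonneg bi1 (mul_nonneg bd1 bd1), mul_nonneg bk0 (mul_nonneg bd1 bd1), mul_nonneg bk1 (mul_nonneg bd0 bd0), mul_nonneg hM3t.le bd1, mul_nonneg hM4_0.le bd1, mul_nonneg hLVx6i.le bd1]

theorem r6d {κ i f δ : ℝ} (hk0 : 61 / 8 ≤ κ) (hk1 : κ ≤ 33 / 4) (hi0 : 5 ≤ i)
    (hi1 : i ≤ 21 / 4) (hki : i ≤ κ - 3) (hf : f ≤ 3 / 4) (hδ0 : 0 ≤ δ) (hδ1 : δ ≤ 3 / 4) :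
    (i + 2 * f + (10 / 9 * (κ - 15 / 2) - (i - 15 / 4)) * δ ≤ (2 * κ + i) / 3 - 1) ∨
    (i + f + (10 / 9 * (κ - 15 / 2) - (i - 5)) * δ ≤ (2 * κ + i) / 3 - 1) ∨
    (2 / 3 * (4 / 3 * i) ≤ 6 * f + (4 / 3 * i - 6) * δ ∧ 4 / 3 * i - f + (10 / 9 * (κ - 15 / 2) - (4 / 3 * i - 6)) * δ ≤ (2 * κ + i) / 3 - 1) ∨
    (2 / 3 ≤ f ∧ 7 - 2 * f + 10 / 9 * (κ - 15 / 2) * δ ≤ (2 * κ + i) / 3 - 1) := by
  by_contra hcon
  simp only [not_or, not_and, not_le] at hcon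
  obtain ⟨gM3t, gM4t, gLVx6, gLVr7⟩ := hcon
  have hM3t := sub_pos.2 gM3t
  have hM4t := sub_pos.2 gM4t
  have bd0 := hδ0
  have bd1 := sub_nonneg.2 hδ1
  have bf := sub_nonneg.2 hf
  have bki : 0 ≤ κ - 3 - i := sub_nonneg.2 hki
  have bi0 := sub_nonneg.2 hi0
  have bi1 := sub_nonneg.2 hi1
  have bk0 := sub_nonneg.2 hk0
  have bk1 := sub_nonneg.2 hk1
  by_cases cLVx6 : 2 / 3 * (4 / 3 * i) ≤ 6 * f + (4 / 3 * i - 6) * δ
  · have hLVx6v := sub_pos.2 (gLVx6 cLVx6)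
    by_cases cLVr7 : (2 / 3 : ℝ) ≤ f
    · have hLVr7v := sub_pos.2 (gLVr7 cLVr7)
      linarith [hM3t, hM4t, hLVx6v, mul_nonneg bi0 bd0, mul_nonneg bi1 bd1, mul_nonneg bk0 bd1, mul_nonneg bk1 bd0, mul_nonneg bki bd1]
    · have hLVr7i := sub_pos.2 (not_le.1 cLVr7)
      linarith [hM3t, hM4t, hLVr7i, mul_nonneg bi0 bd0, mul_nonneg bi1 bd1, mul_nonneg bk0 bd1, mul_nonneg bk1 bd0, mul_nonneg bki bd1]
  · have hLVx6i := sub_pos.2 (not_le.1 cLVx6)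
    by_cases cLVr7 : (2 / 3 : ℝ) ≤ f
    · have hLVr7v := sub_pos.2 (gLVr7 cLVr7)
      linarith [hM3t, hM4t, hLVx6i, hLVr7v, mul_nonneg bi0 bd0, mul_nonneg bi0 bd1, mul_nonneg bk1 bd0, mul_nonneg bki bd1]
    · have hLVr7i := sub_pos.2 (not_le.1 cLVr7)
      linarith [hM3t, hM4t, hLVr7i, mul_nonneg bi0 bd0, mul_nonneg bi1 bd1, mul_nonneg bk0 bd1, mul_nonneg bk1 bd0, mul_nonneg bki bd1]


/-! ### closings of 645's `C1` at `(f + 2 d, δ + 2 d)` -/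

/-- (LV) with `k` copies, exact length -/
theorem c1_x {i f δ d B B' : ℝ} (k : ℕ) (hd : 0 ≤ d) (hi : 0 ≤ i) (hf : (k : ℝ) ≤ 4 / 3 * i)
    (hv : 2 / 3 * (4 / 3 * i) ≤ k * f + (4 / 3 * i - k) * δ)
    (hc : 4 / 3 * i - k * f - (4 / 3 * i - k) * δ ≤ B') (hB : B' ≤ B + 2 * d * (4 / 3 * i)) :
    C1 θ r i 1 (f + 2 * d) (δ + 2 * d) B := by
  refine c1_lv k hf ?_ ?_
  · have := mul_nonneg hd hi
    linarith
  · linarith

/-- (LV) with `k` copies, rounded up -/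
theorem c1_r {i f δ d B B' : ℝ} (k : ℕ) (hd : 0 ≤ d) (hf : 4 / 3 * i ≤ k)
    (hv : 2 / 3 ≤ f) (hc : k - k * f ≤ B') (hB : B' ≤ B + 2 * d * k) :
    C1 θ r i 1 (f + 2 * d) (δ + 2 * d) B := by
  have hk : (0 : ℝ) ≤ k := Nat.cast_nonneg k
  have h1 := mul_nonneg hd hk
  have h2 := mul_le_mul_of_nonneg_left hv hk
  refine Or.inl ⟨k, 0, le_rfl, Or.inl ⟨by linarith, ?_⟩, ?_⟩
  · linarith
  · linarith

/-- `{b³ | (i - 9/4)/3}`, loss `(9/2 - i)/3` -/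
theorem m3b (R : ExpRules (7 / 8 + d) r s) (hd : 0 ≤ d) {i : ℝ} (h0 : 9 / 4 ≤ i)
    (h6 : i ≤ 9 / 2) : ∀ u : ℝ, 0 ≤ u → u ≤ 1 →
      MB r i (Multiset.replicate 3 u) ((i - 9 / 4) / 3) ((9 / 2 - i) / 3 + 2 * d) := by
  intro u hu hu1
  have h := bl3s R hd (w := 1) (κ := i) (F := (9 / 2 - i) / 3 + 2 * d) zero_le_one
    (by linarith) (by linarith) (by linarith)
  exact h.MB hu hu1 (by linarith) (by linarith) (by linarith)

/-- `{b³ | i - 15/4}` -/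
theorem m3t (R : ExpRules (7 / 8 + d) r s) (hd : 0 ≤ d) {i : ℝ} (h0 : 9 / 2 ≤ i)
    (h6 : i ≤ 43 / 8) : ∀ u : ℝ, 0 ≤ u → u ≤ 1 →
      MB r i (Multiset.replicate 3 u) (i - 15 / 4) (2 * d * (i - 7 / 2)) := by
  intro u hu hu1
  have h := bl3 R hd (w := 1) (κ := i) (F := 2 * d * (i - 7 / 2)) zero_le_one
    (by linarith) (by linarith) (by linarith)
  exact h.MB hu hu1 (by linarith) (by linarith) (by linarith)

/-- `{b⁴ | 0}`, `i ≤ 5`, loss `2/3 (5 - i)` -/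
theorem m4z (R : ExpRules (7 / 8 + d) r s) (hd : 0 ≤ d) {i : ℝ} (h0 : 0 ≤ i) (h6 : i ≤ 5) :
    ∀ u : ℝ, 0 ≤ u → u ≤ 1 →
      MB r i (Multiset.replicate 4 u) 0 (2 / 3 * (5 - i) + 2 * d) := by
  intro u hu hu1
  have h := (bl4 R hd (w := 1) (κ := 5) (F := 2 * d) zero_le_one (by linarith) (by linarith)
    (by linarith)).down (κ₁ := i) (F' := 2 / 3 * (5 - i) + 2 * d) h6 (by linarith)
  exact h.MB hu hu1 (g := 0) le_rfl (by linarith) h0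

/-- `{b⁴ | i - 5}`, `5 ≤ i` -/
theorem m4t (R : ExpRules (7 / 8 + d) r s) (hd : 0 ≤ d) {i g : ℝ} (h0 : 5 ≤ i)
    (h6 : i ≤ 13 / 2) (hg : 0 ≤ g) (hg' : g ≤ i - 5) : ∀ u : ℝ, 0 ≤ u → u ≤ 1 →
      MB r i (Multiset.replicate 4 u) g (2 * d * (i - 4)) := by
  intro u hu hu1
  have h := bl4 R hd (w := 1) (κ := i) (F := 2 * d * (i - 4)) zero_le_one (by linarith)
    (by linarith) (by linarith)
  exact h.MB hu hu1 (g := g) hg (by linarith) (by linarith)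

/-- the columns `{1⁵ | 10/9 (κ - 15/2)}` -/
theorem q6w_H1 (R : ExpRules (7 / 8 + d) r s) (hd : 0 ≤ d) {κ i F φ δ : ℝ} (hκ : 61 / 8 ≤ κ)
    (hκ9 : κ ≤ 33 / 4) (hi : 11 / 4 ≤ i) (hi3 : i ≤ κ - 3)
    (hF : 2 * d * (3 + 10 / 9 * (κ - 15 / 2)) ≤ F) (hφ : φ ≤ 3 / 4 + 2 * d) (hδ0 : 0 < δ)
    (hδ : δ ≤ 3 / 4 + 2 * d) :
    C1 (7 / 8 + d) r i 1 φ δ
      ((2 * κ + i) / 3 - 1 + F - 5 * φ - 10 / 9 * (κ - 15 / 2) * δ) := by
  have hc0 : 0 ≤ 10 / 9 * (κ - 15 / 2) := by linarith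
  rcases le_total δ (2 * d) with hδd | hδd
  · -- light granular mass
    have h1 := mul_le_mul_of_nonneg_left hδd hc0
    rcases le_total i 5 with h5 | h5
    · refine c1_mom 4 le_rfl (m4z R hd (by linarith) h5) ?_
      push_cast
      linarith
    · refine c1_mom 4 le_rfl (m4t R hd h5 (by linarith) le_rfl (by linarith)) ?_
      have h2 : d * (i - 4) ≤ d * 2 := mul_le_mul_of_nonneg_left (by linarith) hd
      push_cast
      linarith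
  obtain ⟨f, rfl⟩ : ∃ f, φ = f + 2 * d := ⟨φ - 2 * d, by ring⟩
  obtain ⟨ε, rfl⟩ : ∃ ε, δ = ε + 2 * d := ⟨δ - 2 * d, by ring⟩
  have hf : f ≤ 3 / 4 := by linarith
  have hε0 : 0 ≤ ε := by linarith
  have hε1 : ε ≤ 3 / 4 := by linarith
  have hdi : 0 ≤ d * (i - 9 / 4) := mul_nonneg hd (by linarith)
  rcases le_total i (15 / 4) with ha | ha
  · rcases r6a hκ hκ9 hi ha hi3 hf hε0 hε1 with h | ⟨h, h'⟩
    · refine c1_mom 3 (by linarith) (m3b R hd (by linarith) (by linarith)) ?_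
      push_cast
      linarith
    · refine c1_r 5 hd (by push_cast; linarith) h le_rfl ?_
      push_cast
      linarith
  rcases le_total i (9 / 2) with hb | hb
  · rcases r6b hκ hκ9 ha hb hi3 hf hε0 hε1 with h | h | ⟨h, h'⟩ | ⟨h, h'⟩
    · refine c1_mom 3 (by linarith) (m3b R hd (by linarith) (by linarith)) ?_
      push_cast
      linarith
    · refine c1_mom 4 le_rfl (m4z R hd (by linarith) (by linarith)) ?_
      push_cast
      linarith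
    · refine c1_x 5 hd (by linarith) (by push_cast; linarith) (by push_cast; linarith) le_rfl ?_
      push_cast
      linarith
    · refine c1_r 6 hd (by push_cast; linarith) h le_rfl ?_
      push_cast
      linarith
  rcases le_total i 5 with hc | hc
  · rcases r6c hκ hκ9 hb hc hi3 hf hε0 hε1 with h | h | ⟨h, h'⟩
    · refine c1_mom 3 (by linarith) (m3t R hd (by linarith) (by linarith)) ?_
      push_cast
      linarith
    · refine c1_mom 4 le_rfl (m4z R hd (by linarith) (by linarith)) ?_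
      push_cast
      linarith
    · refine c1_x 6 hd (by linarith) (by push_cast; linarith) (by push_cast; linarith) le_rfl ?_
      push_cast
      linarith
  · rcases r6d hκ hκ9 hc (by linarith) hi3 hf hε0 hε1 with h | h | ⟨h, h'⟩ | ⟨h, h'⟩
    · refine c1_mom 3 (by linarith) (m3t R hd (by linarith) (by linarith)) ?_
      push_cast
      linarith
    · refine c1_mom 4 (by linarith) (m4t R hd hc (by linarith) (by linarith) le_rfl) ?_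
      push_cast
      linarith
    · refine c1_x 6 hd (by linarith) (by push_cast; linarith) (by push_cast; linarith) le_rfl ?_
      push_cast
      linarith
    · refine c1_r 7 hd (by push_cast; linarith) h le_rfl ?_
      push_cast
      linarith

/-- the columns of `{1⁵ | 10/9 (κ - 15/2)}` -/
theorem q6w_col (R : ExpRules (7 / 8 + d) r s) (Lv : ExpLv (7 / 8 + d) r) (hd : 0 ≤ d)
    {κ i F m a : ℝ} {Z : Multiset ℝ} (hκ : 61 / 8 ≤ κ) (hκ9 : κ ≤ 33 / 4)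
    (hi0 : 0 ≤ i) (hi3 : i ≤ κ - 3) (hF : 2 * d * (3 + 10 / 9 * (κ - 15 / 2)) ≤ F)
    (hZ : Multiset.card Z = 5) (hZ1 : ∀ y ∈ Z, 0 ≤ y ∧ y ≤ 1) (hZi : ∀ y ∈ Z, y ≤ i)
    (hm : 0 ≤ m) (ha : 0 ≤ a) (hma : m + a ≤ 10 / 9 * (κ - 15 / 2)) :
    r i Z m a ≤ (Z.sum + m + a) + ((2 * κ + i) / 3 - 1 + F) := by
  have hc0 : 0 ≤ 10 / 9 * (κ - 15 / 2) := by linarith
  have hdc : 0 ≤ d * (10 / 9 * (κ - 15 / 2)) := mul_nonneg hd hc0
  rcases le_total i (κ - 39 / 8) with hlow | hlow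
  · -- three lumps by SUP, two-factor side
    have hsh := sh_replicate Z hZ1
    have hrep : Multiset.replicate (Multiset.card Z) (1 : ℝ) =
        Multiset.replicate 3 1 + {1, 1} := by
      rw [hZ]
      rw [show (5 : ℕ) = 3 + 2 from rfl, Multiset.replicate_add]
      rfl
    rw [hrep] at hsh
    obtain ⟨Z', P, rfl, hZ', hP⟩ := hsh.of_add
    obtain ⟨c₁, c₂, rfl, hc1, hc1', hc2, hc2'⟩ := hP.pair
    have hZs := hZ'.sum_le
    rw [Multiset.sum_replicate, nsmul_eq_mul] at hZs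
    push_cast at hZs
    have hZ0' := hZ'.sum_nonneg
    rw [Multiset.sum_add, sum_pair]
    have hi1 : c₁ ≤ i := hZi c₁ (Multiset.mem_add.2 (Or.inr (by simp)))
    have hi2 : c₂ ≤ i := hZi c₂ (Multiset.mem_add.2 (Or.inr (by simp)))
    have e0 := supV R hi0 {c₁, c₂} Z' (ok_pair (m := 0) (a := 0) hc1 hc2 le_rfl le_rfl).1
      hZ'.nonneg hm ha
    have e3 : 2 * d * (Z'.sum + (m + a)) ≤ 2 * d * (3 + 10 / 9 * (κ - 15 / 2)) :=
      mul_le_mul_of_nonneg_left (by linarith) (by linarith)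
    rcases le_or_gt i (c₁ + c₂) with hks | hks
    · have e1 := sup_all R hi0 hc1 hc2 hm ha hi1 hi2
      linarith
    · obtain ⟨e, he⟩ : ∃ e, e = max 0 (max (m + a - 7 / 9 * (i - (c₁ + c₂)))
        ((12 * a + 9 * m + 4 * (c₁ + c₂) - 8 * i) / 12)) := ⟨_, rfl⟩
      have he0 : 0 ≤ e := by rw [he]; exact le_max_left _ _
      have he1 : m + a - 7 / 9 * (i - (c₁ + c₂)) ≤ e := by
        rw [he]; exact (le_max_left _ _).trans (le_max_right _ _)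
      have he2 : (12 * a + 9 * m + 4 * (c₁ + c₂) - 8 * i) / 12 ≤ e := by
        rw [he]; exact (le_max_right _ _).trans (le_max_right _ _)
      have e1 := side79a R hd hc1 hc2 hm ha hks.le he0 he1 (by linarith) hi0 le_rfl hi1 hi2
      have e4 : 3 / 4 * e ≤ (2 * κ + i) / 3 - 1 - i - 3 / 4 * 3 := by
        have : e ≤ 4 / 3 * ((2 * κ + i) / 3 - 1 - i - 3 / 4 * 3) := by
          rw [he]
          refine max_le ?_ (max_le ?_ ?_)
          · linarith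
          · linarith
          · linarith
        linarith
      linarith
  · have key := col_ms Lv (by linarith) (Z := Z) (i := i) (M := m) (A := a)
      (T := (2 * κ + i) / 3 - 1 + F) (w := 1) (p := 5) (c := 10 / 9 * (κ - 15 / 2)) hi0
      (fun y hy => ⟨(hZ1 y hy).1, hZi y hy, (hZ1 y hy).2⟩) hm ha (by rw [hZ]; norm_num) hma
      (by linarith)
      (fun φ δ h1 h2 h3 h4 => q6w_H1 R hd hκ hκ9 (by linarith) hi3 hF (by linarith) h3
        (by linarith))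
      (fun φ h1 h2 => by
        left
        rcases le_total i 5 with h5 | h5
        · refine ⟨4, 2 / 3 * (5 - i) + 2 * d, fun u hu hu1 _ => m4z R hd hi0 h5 u hu hu1, ?_⟩
          push_cast
          linarith
        · refine ⟨4, 2 * d * (i - 4), fun u hu hu1 _ =>
            m4t R hd h5 (by linarith) le_rfl (by linarith) u hu hu1, ?_⟩
          have h2 : d * (i - 4) ≤ d * 2 := mul_le_mul_of_nonneg_left (by linarith) hd
          push_cast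
          linarith)
      (fun δ h1 h2 => by
        right; right
        have h3 : 10 / 9 * (κ - 15 / 2) * δ ≤ 10 / 9 * (κ - 15 / 2) * (3 / 4 + 2 * d) :=
          mul_le_mul_of_nonneg_left (by linarith) hc0
        linarith)
    linarith

/-- **six equal lumps, shorter side**, `61/8 ≤ κ ≤ 33/4` -/
theorem idl6w (R : ExpRules (7 / 8 + d) r s) (Lv : ExpLv (7 / 8 + d) r) (hd : 0 ≤ d)
    {κ F : ℝ} (hκ : 61 / 8 ≤ κ) (hκ9 : κ ≤ 33 / 4)
    (hF : 2 * d * (3 + 10 / 9 * (κ - 15 / 2)) ≤ F) :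
    Idl r 1 κ 6 (10 / 9 * (κ - 15 / 2)) F := by
  intro Y m a hY hYw hm ha hma
  have hc0 : 0 ≤ 10 / 9 * (κ - 15 / 2) := by linarith
  have hF0 : 0 ≤ F :=
    le_trans (mul_nonneg (by linarith) (by linarith)) hF
  have hsh := sh_replicate Y hYw
  rw [hY, show (6 : ℕ) = 1 + 5 from rfl, Multiset.replicate_add] at hsh
  obtain ⟨V', Y', rfl, hV', hY'⟩ := hsh.of_add
  have hVs := hV'.sum_le
  rw [Multiset.sum_replicate, nsmul_eq_mul] at hVs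
  push_cast at hVs
  have hYs := hY'.sum_le
  rw [Multiset.sum_replicate, nsmul_eq_mul] at hYs
  push_cast at hYs
  have hC : ColX (7 / 8 + d) r κ 1 F Y' m a := by
    refine ⟨?_, ?_⟩
    · intro Z m' a' i hZ hm0 hm1 ha0 ha1 hi hyi hii
      have hZ5 := hZ.trans hY'
      have := q6w_col R Lv hd (Z := Z) (m := m') (a := a') hκ hκ9 hi (by linarith) hF
        (by rw [hZ5.card, Multiset.card_replicate])
        (fun y hy => by
          obtain ⟨b, hb, hyb⟩ := Multiset.exists_mem_of_rel_of_mem hZ5 hy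
          rw [Multiset.eq_of_mem_replicate hb] at hyb
          exact hyb)
        hyi hm0 ha0 (by linarith)
      linarith
    · intro Z m' a' hZ hm0 hm1 ha0 ha1 _
      have hZ0 := hZ.sum_nonneg
      have h1 : 2 * d * m' ≤ 2 * d * (3 + 10 / 9 * (κ - 15 / 2)) :=
        mul_le_mul_of_nonneg_left (by linarith) (by linarith)
      linarith
  have key := side_xi R (κ := κ) (ξ := 1) (m := m) (b := 0) (a := a) (b' := 0)
    (F := F) (V := V') (Z := Y') (by linarith) hV'.nonneg hY'.nonneg hm le_rfl ha le_rfl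
    hF0 (by linarith) (by linarith) hC
  intro κ' h0 h1
  have := key κ' h0 h1
  rw [add_zero, add_zero] at this
  rw [Multiset.sum_add]
  linarith

end Crest.Agent.R017.C1W393
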