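import Crest.Agent.R017.C1w_393
import Crest.Agent.R017.C1w1_61
import Crest.Agent.R017.C1q6s_61
import Crest.Agent.R017.Ey_645

/-!
# Row 17, section D, small lumps: the first mixture window (helper393)

`win1` : 645's `Win` for `61/8 w ≤ κ ≤ 33/4 w` : 61's `idl5u` (five lumps, total `5/6 κ + w/16`) and
`idl6w` (six lumps, granular `10/9 (κ - 15/2 w)`).
-/

set_option autoImplicit false

noncomputable section

namespace Crest.Agent.R017.C1W393

open Crest.Agent.R017.ER911 Crest.Agent.R017.SC777 Crest.Agent.R017.C161 Crest.Agent.R017.Ey645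
open Crest.Agent.R017.C1S744

variable {d : ℝ} {r s : EF}

/-- six lumps, shorter side, general unit -/
theorem idl6s (R : ExpRules (7 / 8 + d) r s) (Lv : ExpLv (7 / 8 + d) r) (hd : 0 ≤ d)
    {w k F : ℝ} (hw : 0 < w) (h1 : 61 / 8 ≤ k) (h2 : k ≤ 33 / 4)
    (hF : w * (2 * d * (3 + 10 / 9 * (k - 15 / 2))) ≤ F) :
    Idl r w (w * k) 6 (w * (10 / 9 * (k - 15 / 2))) F :=
  Idl.mono (Idl.of_scale hw (C1W393.idl6w (R.scale hw) (Lv.scale hw) hd h1 h2 le_rfl)) le_rfl hF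

/-- **first mixture window** -/
theorem win1 (R : ExpRules (7 / 8 + d) r s) (Lv : ExpLv (7 / 8 + d) r) (hd : 0 ≤ d)
    (hd8 : d ≤ 1 / 8) {w κ μ : ℝ} (hμ2 : 9 * μ ≤ d) (hw : 0 < w) (hκ : 61 / 8 * w ≤ κ)
    (hκ9 : κ ≤ 33 / 4 * w) : Win r κ w ((4 / 3 * d - μ) * κ) := by
  obtain ⟨k, rfl⟩ := sc_div hw κ
  have h1 : 61 / 8 ≤ k := by
    by_contra hc; push Not at hc; nlinarith
  have h2 : k ≤ 33 / 4 := by
    by_contra hc; push Not at hc; nlinarith
  have hdk : 0 ≤ d * (33 / 4 - k) := mul_nonneg hd (by linarith)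
  have hμk : 0 ≤ (d / 9 - μ) * k := mul_nonneg (by linarith) (by linarith)
  have f5 : 2 * d * (5 / 6 * k + 1 / 16 - 2) ≤ (4 / 3 * d - μ) * k := by nlinarith
  have f6 : 2 * d * (3 + 10 / 9 * (k - 15 / 2)) ≤ (4 / 3 * d - μ) * k := by nlinarith
  have A5 : Idl r w (w * k) 5 (w * (5 / 6 * k - 5 + 1 / 16)) ((4 / 3 * d - μ) * (w * k)) := by
    refine Idl.mono (Idl.of_scale hw (idl5u (R.scale hw) (Lv.scale hw) hd hd8 h1 h2 le_rfl))
      le_rfl ?_
    have := mul_le_mul_of_nonneg_left f5 hw.le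
    linarith
  have A6 : Idl r w (w * k) 6 (w * (10 / 9 * (k - 15 / 2))) ((4 / 3 * d - μ) * (w * k)) := by
    refine idl6s R Lv hd hw h1 h2 ?_
    have := mul_le_mul_of_nonneg_left f6 hw.le
    linarith
  refine ⟨5, w * (5 / 6 * k - 5 + 1 / 16), w * (10 / 9 * (k - 15 / 2)), 2 / 3 * k - 5,
    by linarith, by linarith, ?_, mul_nonneg hw.le (by linarith),
    mul_nonneg hw.le (by linarith), A5, A6, ?_⟩
  · push_cast; ring
  · have key : k / 6 ≤ (1 - (2 / 3 * k - 5)) * (5 / 6 * k - 5 + 1 / 16) +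
        (2 / 3 * k - 5) * (10 / 9 * (k - 15 / 2)) := by
      nlinarith [sq_nonneg (k - 129 / 16)]
    have := mul_le_mul_of_nonneg_left key hw.le
    linarith

end Crest.Agent.R017.C1W393
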