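import Mathlib

/-!
# (C3): structured removal without loss, abstract operator lemma

If `‖V y‖² ≤ B ‖y‖² + q(y)` for every `y` (`q` a positive semidefinite quadratic form), then
`‖V* c‖² ≤ B ‖c‖² + q(V* c) / B` for every `c`.

This is 702's (C3)/632's projection: `x = V* c`, `M = B + G`, `⟨x, M⁻¹ x⟩ ≤ ‖c‖²`, and
`‖x‖² = B ⟨x, M⁻¹ x⟩ + ⟨x, G M⁻¹ x⟩ ≤ B ‖c‖² + ⟨x, G x⟩ / B`.
-/

set_option autoImplicit false

open scoped BigOperators InnerProductSpace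
open Finset MeasureTheory

namespace Crest.Agent.R017.C3829

section Abstract

variable {E F : Type*} [NormedAddCommGroup E] [InnerProductSpace ℂ E] [FiniteDimensional ℂ E]
  [NormedAddCommGroup F] [InnerProductSpace ℂ F]

/-- Abstract (C3). -/
theorem c3 (V : E →ₗ[ℂ] F) (V' : F →ₗ[ℂ] E) (hadj : ∀ y c, ⟪V y, c⟫_ℂ = ⟪y, V' c⟫_ℂ)
    (G : E →ₗ[ℂ] E) (hG : G.IsPositive) (B : ℝ) (hB : 0 < B)
    (h : ∀ y, ‖V y‖ ^ 2 ≤ B * ‖y‖ ^ 2 + (⟪G y, y⟫_ℂ).re) (c : F) :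
    ‖V' c‖ ^ 2 ≤ B * ‖c‖ ^ 2 + (⟪G (V' c), V' c⟫_ℂ).re / B := by
  -- M = B + G is invertible
  set M : E →ₗ[ℂ] E := (B : ℂ) • LinearMap.id + G with hM
  have hMy : ∀ y, M y = (B : ℂ) • y + G y := fun y => by simp [hM]
  have hGpos : ∀ y, 0 ≤ (⟪G y, y⟫_ℂ).re := fun y => hG.re_inner_nonneg_left y
  have hinj : Function.Injective M := by
    rw [← LinearMap.ker_eq_bot, LinearMap.ker_eq_bot']
    intro y hy
    have h1 : (⟪M y, y⟫_ℂ).re = B * ‖y‖ ^ 2 + (⟪G y, y⟫_ℂ).re := by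
      rw [hMy, inner_add_left, inner_smul_left, inner_self_eq_norm_sq_to_K]
      simp [← Complex.ofReal_pow]
    rw [hy, inner_zero_left] at h1
    have h2 : B * ‖y‖ ^ 2 ≤ 0 := by
      have := hGpos y
      simp only [Complex.zero_re] at h1
      linarith
    have h3 : ‖y‖ ^ 2 ≤ 0 := by
      by_contra hcon
      push Not at hcon
      have := mul_pos hB hcon
      linarith
    have h4 : ‖y‖ = 0 := by
      have : ‖y‖ ^ 2 = 0 := le_antisymm h3 (by positivity)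
      exact pow_eq_zero_iff (two_ne_zero) |>.1 this
    exact norm_eq_zero.1 h4
  have hsurj : Function.Surjective M := LinearMap.injective_iff_surjective.1 hinj
  set x := V' c with hx
  obtain ⟨y, hy⟩ := hsurj x
  rw [hMy] at hy
  -- real numbers
  have hGsym : ∀ u v, ⟪G u, v⟫_ℂ = ⟪u, G v⟫_ℂ := hG.1
  -- (1) re⟪y, x⟫ = B‖y‖² + re⟪G y,y⟫
  have e1 : (⟪y, x⟫_ℂ).re = B * ‖y‖ ^ 2 + (⟪G y, y⟫_ℂ).re := by
    rw [← hy, inner_add_right, inner_smul_right, inner_self_eq_norm_sq_to_K, ← hGsym]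
    simp [← Complex.ofReal_pow]
  have e1nn : 0 ≤ (⟪y, x⟫_ℂ).re := by
    rw [e1]; have := hGpos y; positivity
  -- (2) re⟪y,x⟫ ≤ ‖V y‖ ‖c‖
  have e2 : (⟪y, x⟫_ℂ).re ≤ ‖V y‖ * ‖c‖ := by
    rw [hx, ← hadj]
    exact (Complex.re_le_norm _).trans (norm_inner_le_norm _ _)
  have e3 : (⟪y, x⟫_ℂ).re ≤ ‖c‖ ^ 2 := by
    have hV := h y
    rw [← e1] at hV
    -- t ≤ v * n, v^2 ≤ t  => t ≤ n^2
    set t := (⟪y, x⟫_ℂ).re with ht
    set v := ‖V y‖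
    set n := ‖c‖
    have hn : 0 ≤ n := norm_nonneg _
    have hv : 0 ≤ v := norm_nonneg _
    by_contra hcon
    push Not at hcon
    have h1 : t ^ 2 ≤ (v * n) ^ 2 := by
      exact pow_le_pow_left₀ e1nn e2 2
    have h2 : (v * n) ^ 2 ≤ t * n ^ 2 := by
      rw [mul_pow]; exact mul_le_mul_of_nonneg_right hV (by positivity)
    have h3 : 0 < t := lt_of_le_of_lt (by positivity) hcon
    have h4 : t * n ^ 2 < t * t := mul_lt_mul_of_pos_left hcon h3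
    nlinarith
  -- (3) ‖x‖² = B re⟪y,x⟫ + re⟪G y, x⟫
  have e4 : ‖x‖ ^ 2 = B * (⟪y, x⟫_ℂ).re + (⟪G y, x⟫_ℂ).re := by
    have : (⟪x, x⟫_ℂ).re = B * (⟪y, x⟫_ℂ).re + (⟪G y, x⟫_ℂ).re := by
      conv_lhs => rw [← hy]
      rw [inner_add_left, inner_smul_left, hy]
      simp
    rw [← this, inner_self_eq_norm_sq_to_K]
    simp [← Complex.ofReal_pow]
  -- (4) B re⟪G y, x⟫ ≤ re⟪G x, x⟫
  have e5 : B * (⟪G y, x⟫_ℂ).re ≤ (⟪G x, x⟫_ℂ).re := by
    -- ⟪G x, x⟫ = B⟪G y, x⟫ + ⟪G (G y), x⟫ ; ⟪G(G y), x⟫ = ⟪G y, G x⟫ = B‖G y‖² + ⟪Gy, G G y⟫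
    have a1 : (⟪G x, x⟫_ℂ).re = B * (⟪G y, x⟫_ℂ).re + (⟪G (G y), x⟫_ℂ).re := by
      conv_lhs => rw [← hy, map_add, map_smul, hy, inner_add_left, inner_smul_left]
      simp
    have a2 : (⟪G (G y), x⟫_ℂ).re = B * ‖G y‖ ^ 2 + (⟪G (G y), G y⟫_ℂ).re := by
      conv_lhs => rw [← hy]
      rw [inner_add_right, inner_smul_right, hGsym (G y) y, inner_self_eq_norm_sq_to_K]
      simp [← Complex.ofReal_pow]
    have a3 := hGpos (G y)
    have a4 : 0 ≤ B * ‖G y‖ ^ 2 := by positivity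
    linarith
  have e6 : (⟪G y, x⟫_ℂ).re ≤ (⟪G x, x⟫_ℂ).re / B := by
    rw [le_div_iff₀ hB]; linarith
  calc ‖x‖ ^ 2 = B * (⟪y, x⟫_ℂ).re + (⟪G y, x⟫_ℂ).re := e4
    _ ≤ B * ‖c‖ ^ 2 + (⟪G x, x⟫_ℂ).re / B :=
        add_le_add (mul_le_mul_of_nonneg_left e3 hB.le) e6

end Abstract

section Kernel

variable {κ β : Type*}

open scoped ComplexConjugate

/-- (C3) for a matrix: `a k b` (k ∈ S, b ∈ T) and a positive semidefinite Hermitian kernel `g` on `S`.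
If `Σ_b |Σ_k a(k,b) y_k|² ≤ B Σ |y_k|² + ⟨y, g y⟩` for all `y`, then for all `c`, with
`x_k = Σ_b conj a(k,b) c_b`, `Σ_k |x_k|² ≤ B Σ |c_b|² + ⟨x, g x⟩ / B`. -/
theorem c3_kernel (S : Finset κ) (T : Finset β) (a : κ → β → ℂ) (g : κ → κ → ℂ)
    (hsymm : ∀ k ∈ S, ∀ k' ∈ S, g k' k = conj (g k k'))
    (hpos : ∀ y : κ → ℂ, 0 ≤ (∑ k ∈ S, ∑ k' ∈ S, conj (y k) * (g k k' * y k')).re)
    (B : ℝ) (hB : 0 < B)
    (h : ∀ y : κ → ℂ, ∑ b ∈ T, ‖∑ k ∈ S, a k b * y k‖ ^ 2 ≤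
      B * ∑ k ∈ S, ‖y k‖ ^ 2 + (∑ k ∈ S, ∑ k' ∈ S, conj (y k) * (g k k' * y k')).re)
    (c : β → ℂ) (x : κ → ℂ) (hx : ∀ k ∈ S, x k = ∑ b ∈ T, conj (a k b) * c b) :
    ∑ k ∈ S, ‖x k‖ ^ 2 ≤ B * ∑ b ∈ T, ‖c b‖ ^ 2 +
      (∑ k ∈ S, ∑ k' ∈ S, conj (x k) * (g k k' * x k')).re / B := by
  classical
  -- matrices
  let MV : Matrix T S ℂ := fun b k => a k b
  let MG : Matrix S S ℂ := fun k k' => g k k'
  let V : EuclideanSpace ℂ S →ₗ[ℂ] EuclideanSpace ℂ T := Matrix.toEuclideanLin MV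
  let V' : EuclideanSpace ℂ T →ₗ[ℂ] EuclideanSpace ℂ S := Matrix.toEuclideanLin MV.conjTranspose
  let G : EuclideanSpace ℂ S →ₗ[ℂ] EuclideanSpace ℂ S := Matrix.toEuclideanLin MG
  -- extension of a function on `S` to `κ`
  let ext : (S → ℂ) → κ → ℂ := fun y k => if hk : k ∈ S then y ⟨k, hk⟩ else 0
  have hext : ∀ (y : S → ℂ) (k : S), ext y k = y k := fun y k => by simp [ext]
  have hadj : ∀ y c, ⟪V y, c⟫_ℂ = ⟪y, V' c⟫_ℂ := by
    intro y c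
    have : V' = V.adjoint := Matrix.toEuclideanLin_conjTranspose_eq_adjoint MV
    rw [this, LinearMap.adjoint_inner_right]
  have hVn : ∀ y : EuclideanSpace ℂ S, ‖V y‖ ^ 2 = ∑ b ∈ T, ‖∑ k ∈ S, a k b * ext y.ofLp k‖ ^ 2 := by
    intro y
    rw [EuclideanSpace.norm_sq_eq, ← Finset.sum_coe_sort T]
    refine Finset.sum_congr rfl fun b _ => ?_
    rw [← Finset.sum_coe_sort S]
    simp only [hext]
    rfl
  have hyn : ∀ y : EuclideanSpace ℂ S, ‖y‖ ^ 2 = ∑ k ∈ S, ‖ext y.ofLp k‖ ^ 2 := by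
    intro y
    rw [EuclideanSpace.norm_sq_eq, ← Finset.sum_coe_sort S]
    simp only [hext]
  have hGn : ∀ y : EuclideanSpace ℂ S, ⟪G y, y⟫_ℂ =
      ∑ k ∈ S, ∑ k' ∈ S, conj (ext y.ofLp k') * (g k' k * ext y.ofLp k) := by
    intro y
    rw [EuclideanSpace.inner_eq_star_dotProduct, dotProduct]
    rw [← Finset.sum_coe_sort S]
    refine Finset.sum_congr rfl fun k _ => ?_
    rw [← Finset.sum_coe_sort S]
    have : (star (G y).ofLp) k = ∑ k' : S, conj (g k k' * y.ofLp k') := by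
      have e : (G y).ofLp k = ∑ k' : S, g k k' * y.ofLp k' := rfl
      rw [Pi.star_apply, e, star_sum]; rfl
    rw [this, Finset.mul_sum]
    refine Finset.sum_congr rfl fun k' _ => ?_
    rw [hext, hext, hsymm k k.2 k' k'.2, map_mul]
    ring
  have hGn' : ∀ y : EuclideanSpace ℂ S, (⟪G y, y⟫_ℂ).re =
      (∑ k ∈ S, ∑ k' ∈ S, conj (ext y.ofLp k) * (g k k' * ext y.ofLp k')).re := by
    intro y
    rw [hGn, Finset.sum_comm]
  have hGpos : G.IsPositive := by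
    refine ⟨?_, fun y => ?_⟩
    · rw [Matrix.isSymmetric_toEuclideanLin_iff]
      ext k k'
      simp only [Matrix.conjTranspose_apply, MG]
      exact (hsymm k' k'.2 k k.2).symm
    · have := hpos (ext y.ofLp)
      rw [← hGn'] at this
      exact this
  -- apply the abstract lemma
  let c' : EuclideanSpace ℂ T := WithLp.toLp 2 fun b : T => c b
  have key := c3 V V' hadj G hGpos B hB (fun y => by rw [hVn, hyn, hGn']; exact h _) c'
  have hxx : ∀ k ∈ S, ext (V' c').ofLp k = x k := by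
    intro k hk
    rw [hx k hk]
    have e : ext (V' c').ofLp k = (V' c').ofLp ⟨k, hk⟩ := hext _ ⟨k, hk⟩
    rw [e, ← Finset.sum_coe_sort T]
    rfl
  rw [hyn, hGn'] at key
  have e1 : ∑ k ∈ S, ‖ext (V' c').ofLp k‖ ^ 2 = ∑ k ∈ S, ‖x k‖ ^ 2 :=
    Finset.sum_congr rfl fun k hk => by rw [hxx k hk]
  have e2 : ∑ k ∈ S, ∑ k' ∈ S, conj (ext (V' c').ofLp k) * (g k k' * ext (V' c').ofLp k') =
      ∑ k ∈ S, ∑ k' ∈ S, conj (x k) * (g k k' * x k') :=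
    Finset.sum_congr rfl fun k hk => Finset.sum_congr rfl fun k' hk' => by
      rw [hxx k hk, hxx k' hk']
  have e3 : ‖c'‖ ^ 2 = ∑ b ∈ T, ‖c b‖ ^ 2 := by
    rw [EuclideanSpace.norm_sq_eq, ← Finset.sum_coe_sort T]
  rw [e1, e2, e3] at key
  exact key

end Kernel

section Concrete

variable {κ β ι : Type*}

open scoped ComplexConjugate

/-- (C3) with a finite family of vectors. -/
theorem c3_sum (S : Finset κ) (T : Finset β) (I : Finset ι) (a : κ → β → ℂ) (u : ι → κ → ℂ)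
    (m : ι → ℝ) (hm : ∀ i ∈ I, 0 ≤ m i) (B : ℝ) (hB : 0 < B)
    (h : ∀ y : κ → ℂ, ∑ b ∈ T, ‖∑ k ∈ S, a k b * y k‖ ^ 2 ≤
      B * ∑ k ∈ S, ‖y k‖ ^ 2 + ∑ i ∈ I, m i * ‖∑ k ∈ S, u i k * y k‖ ^ 2)
    (c : β → ℂ) (x : κ → ℂ) (hx : ∀ k ∈ S, x k = ∑ b ∈ T, conj (a k b) * c b) :
    ∑ k ∈ S, ‖x k‖ ^ 2 ≤ B * ∑ b ∈ T, ‖c b‖ ^ 2 +
      (∑ i ∈ I, m i * ‖∑ k ∈ S, u i k * x k‖ ^ 2) / B := by
  have hq : ∀ y : κ → ℂ, (∑ k ∈ S, ∑ k' ∈ S,
      conj (y k) * ((∑ i ∈ I, (m i : ℂ) * (conj (u i k) * u i k')) * y k')) =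
      ((∑ i ∈ I, m i * ‖∑ k ∈ S, u i k * y k‖ ^ 2 : ℝ) : ℂ) := by
    intro y
    push_cast
    have : ∀ i ∈ I, (m i : ℂ) * ((‖∑ k ∈ S, u i k * y k‖ : ℝ) : ℂ) ^ 2 =
        ∑ k ∈ S, ∑ k' ∈ S, conj (y k) * ((m i : ℂ) * (conj (u i k) * u i k') * y k') := by
      intro i _
      rw [← Complex.conj_mul', map_sum, Finset.sum_mul_sum, Finset.mul_sum]
      refine Finset.sum_congr rfl fun k _ => ?_
      rw [Finset.mul_sum]
      refine Finset.sum_congr rfl fun k' _ => ?_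
      rw [map_mul]; ring
    have h2 : ∑ i ∈ I, (m i : ℂ) * ((‖∑ k ∈ S, u i k * y k‖ : ℝ) : ℂ) ^ 2 =
        ∑ i ∈ I, ∑ k ∈ S, ∑ k' ∈ S, conj (y k) * ((m i : ℂ) * (conj (u i k) * u i k') * y k') :=
      Finset.sum_congr rfl this
    rw [h2]
    symm
    rw [Finset.sum_comm]
    refine Finset.sum_congr rfl fun k _ => ?_
    rw [Finset.sum_comm]
    refine Finset.sum_congr rfl fun k' _ => ?_
    rw [Finset.sum_mul, Finset.mul_sum]
  have key := c3_kernel S T a (fun k k' => ∑ i ∈ I, (m i : ℂ) * (conj (u i k) * u i k'))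
    (fun k _ k' _ => by
      simp only [map_sum, map_mul, Complex.conj_ofReal, Complex.conj_conj]
      exact Finset.sum_congr rfl fun i _ => by ring)
    (fun y => by
      simp only [hq, Complex.ofReal_re]
      exact Finset.sum_nonneg fun i hi => mul_nonneg (hm i hi) (by positivity))
    B hB (fun y => by simp only [hq, Complex.ofReal_re]; exact h y) c x hx
  simp only [hq, Complex.ofReal_re] at key
  exact key

/-- (C3) with a measure family of vectors (e.g. `Σ_i ∫ dt`). -/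
theorem c3_integral {Ω : Type*} [MeasurableSpace Ω] (μ : Measure Ω) (S : Finset κ) (T : Finset β)
    (a : κ → β → ℂ) (u : Ω → κ → ℂ) (hu : ∀ k ∈ S, MemLp (fun ω => u ω k) 2 μ)
    (B : ℝ) (hB : 0 < B)
    (h : ∀ y : κ → ℂ, ∑ b ∈ T, ‖∑ k ∈ S, a k b * y k‖ ^ 2 ≤
      B * ∑ k ∈ S, ‖y k‖ ^ 2 + ∫ ω, ‖∑ k ∈ S, u ω k * y k‖ ^ 2 ∂μ)
    (c : β → ℂ) (x : κ → ℂ) (hx : ∀ k ∈ S, x k = ∑ b ∈ T, conj (a k b) * c b) :
    ∑ k ∈ S, ‖x k‖ ^ 2 ≤ B * ∑ b ∈ T, ‖c b‖ ^ 2 +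
      (∫ ω, ‖∑ k ∈ S, u ω k * x k‖ ^ 2 ∂μ) / B := by
  have hint : ∀ k ∈ S, ∀ k' ∈ S, Integrable (fun ω => conj (u ω k) * u ω k') μ := by
    intro k hk k' hk'
    exact (hu k hk).star.integrable_mul (hu k' hk')
  have hq : ∀ y : κ → ℂ, (∑ k ∈ S, ∑ k' ∈ S,
      conj (y k) * ((∫ ω, conj (u ω k) * u ω k' ∂μ) * y k')) =
      ((∫ ω, ‖∑ k ∈ S, u ω k * y k‖ ^ 2 ∂μ : ℝ) : ℂ) := by
    intro y
    rw [← integral_complex_ofReal]
    have : ∀ ω, ((‖∑ k ∈ S, u ω k * y k‖ ^ 2 : ℝ) : ℂ) =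
        ∑ k ∈ S, ∑ k' ∈ S, (conj (y k) * y k') * (conj (u ω k) * u ω k') := by
      intro ω
      push_cast
      rw [← Complex.conj_mul', map_sum, Finset.sum_mul_sum]
      refine Finset.sum_congr rfl fun k _ => Finset.sum_congr rfl fun k' _ => ?_
      rw [map_mul]; ring
    simp_rw [this]
    rw [integral_finsetSum]
    swap
    · intro k hk
      exact integrable_finsetSum _ fun k' hk' => (hint k hk k' hk').const_mul _
    refine Finset.sum_congr rfl fun k hk => ?_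
    rw [integral_finsetSum]
    swap
    · intro k' hk'
      exact (hint k hk k' hk').const_mul _
    refine Finset.sum_congr rfl fun k' hk' => ?_
    rw [integral_const_mul]; ring
  have key := c3_kernel S T a (fun k k' => ∫ ω, conj (u ω k) * u ω k' ∂μ)
    (fun k _ k' _ => by
      rw [← integral_conj]
      refine integral_congr_ae (Filter.Eventually.of_forall fun ω => ?_)
      simp only [map_mul, Complex.conj_conj]; ring)
    (fun y => by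
      simp only [hq, Complex.ofReal_re]
      exact integral_nonneg fun ω => by positivity)
    B hB (fun y => by simp only [hq, Complex.ofReal_re]; exact h y) c x hx
  simp only [hq, Complex.ofReal_re] at key
  exact key

end Concrete

end Crest.Agent.R017.C3829
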