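import Crest.Agent.R017.C5_720

/-!
# Row 17, section D: five lumps, the smallest one replaced by a multiset (helper720)

`C5Q` : `C5V` with any multiset `Q` of lumps in place of `b₄`.
-/

set_option autoImplicit false

noncomputable section

namespace Crest.Agent.R017.C5_720

open Crest.Agent.R017.ER911 Crest.Agent.R017.SC777

variable {θ d : ℝ} {r s : EF}

theorem sum_single {n : ℕ} (y : Fin n → ℝ) : (∑ j : Fin n, ({y j} : Multiset ℝ)) =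
    (Finset.univ : Finset (Fin n)).val.map y := by
  rw [Finset.sum, ← Multiset.sum_map_singleton ((Finset.univ : Finset (Fin n)).val.map y),
    Multiset.map_map]
  rfl

theorem sum_repl {n : ℕ} (k : ℕ) (y : Fin n → ℝ) :
    (∑ j : Fin n, (Multiset.replicate k (y j) : Multiset ℝ)) =
      k • (Finset.univ : Finset (Fin n)).val.map y := by
  rw [← sum_single]
  simp [← Multiset.nsmul_singleton, Finset.smul_sum]

theorem sh_get (L : List ℝ) (y : Fin L.length → ℝ) (h : ∀ j, 0 ≤ y j ∧ y j ≤ L.get j) :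
    Sh ((Finset.univ : Finset (Fin L.length)).val.map y) (L : Multiset ℝ) := by
  have e : (L : Multiset ℝ) = (Finset.univ : Finset (Fin L.length)).val.map L.get := by
    rw [Fin.univ_val_map, List.ofFn_get]
  have : ∀ A B : Multiset ℝ, A = (L : Multiset ℝ) →
      B = (Finset.univ : Finset (Fin L.length)).val.map y → Sh B A := by
    intro A B hA hB
    rw [hA, e, hB]
    unfold Sh
    rw [Multiset.rel_map]
    exact Multiset.rel_refl_of_refl_on fun j _ => h j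
  exact this _ _ rfl rfl

/-- the level rule for three lumps and a multiset `Q` (used as one unit) -/
theorem levQ (Lv : ExpLv θ r) {κ M A E l₁ l₂ l₃ : ℝ} {Q : Multiset ℝ} (hκ : 0 ≤ κ)
    (h1 : 0 ≤ l₁) (h1' : l₁ ≤ κ) (h2 : 0 ≤ l₂) (h2' : l₂ ≤ κ) (h3 : 0 ≤ l₃) (h3' : l₃ ≤ κ)
    (hQ : ∀ y ∈ Q, 0 ≤ y ∧ y ≤ κ) (hM : 0 ≤ M) (hA : 0 ≤ A)
    (h : ∀ (y x : Fin 4 → ℝ) (Q' : Multiset ℝ) (m a ω α : ℝ), (0 ≤ y 0 ∧ y 0 ≤ l₁) →
      (0 ≤ y 1 ∧ y 1 ≤ l₂) → (0 ≤ y 2 ∧ y 2 ≤ l₃) → Sh Q' Q → y 3 = Q'.sum → 0 ≤ m → m ≤ M →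
      0 ≤ a → a ≤ A → (∀ j, x j ≤ θ * y j) → ω ≤ θ * m → α ≤ θ * a →
      (∃ (n : Fin 4 → ℕ) (f g : ℝ), 0 ≤ f ∧ (m = 0 → f = 0) ∧ 0 ≤ g ∧ (a = 0 → g = 0) ∧
        LVok θ κ ((∑ j, (n j : ℝ) * y j) + f + g)
          ((∑ j, (n j : ℝ) * x j) + f * (ω / m) + g * (α / a)) ∧
        2 * (((∑ j, (n j : ℝ) * y j) + f + g) -
            ((∑ j, (n j : ℝ) * x j) + f * (ω / m) + g * (α / a))) +
          2 * ((∑ j, x j) + ω + α) ≤ E) ∨
      (∃ (n : Fin 4 → ℕ) (f g : ℝ), 0 ≤ f ∧ (m = 0 → f = 0) ∧ 0 ≤ g ∧ (a = 0 → g = 0) ∧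
        r κ (Multiset.replicate (n 0) (y 0) + (Multiset.replicate (n 1) (y 1) +
          (Multiset.replicate (n 2) (y 2) + n 3 • Q'))) f g -
          2 * ((∑ j, (n j : ℝ) * x j) + f * (ω / m) + g * (α / a)) +
          2 * ((∑ j, x j) + ω + α) ≤ E)) :
    r κ (l₁ ::ₘ l₂ ::ₘ l₃ ::ₘ Q) M A ≤ E := by
  obtain ⟨L, rfl⟩ := Quot.exists_rep Q
  have e : (l₁ ::ₘ l₂ ::ₘ l₃ ::ₘ (L : Multiset ℝ)) =
      (Finset.univ : Finset (Fin (L.length + 1 + 1 + 1))).val.map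
        (Fin.cons l₁ (Fin.cons l₂ (Fin.cons l₃ L.get))) := by
    rw [Fin.univ_val_map, List.ofFn_cons, List.ofFn_cons, List.ofFn_cons, List.ofFn_get]
    rfl
  change r κ (l₁ ::ₘ l₂ ::ₘ l₃ ::ₘ (L : Multiset ℝ)) M A ≤ E
  rw [e]
  refine Lv.lev _ _ κ M A E hκ ?_ hM hA ?_
  · intro j
    refine Fin.cases ⟨h1, h1'⟩ (fun j => ?_) j
    refine Fin.cases ⟨h2, h2'⟩ (fun j => ?_) j
    refine Fin.cases ⟨h3, h3'⟩ (fun j => ?_) j
    simp only [Fin.cons_succ]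
    exact hQ _ (List.get_mem L j)
  intro y x m a ω α hy hm hmM ha haA hx hω hα
  have s4 : ∀ z : Fin (L.length + 1 + 1 + 1) → ℝ, ∑ j, z j =
      z 0 + (z 1 + (z 2 + ∑ j : Fin L.length, z j.succ.succ.succ)) := by
    intro z
    rw [Fin.sum_univ_succ, Fin.sum_univ_succ, Fin.sum_univ_succ]
    rfl
  have m4 : ∀ z : Fin (L.length + 1 + 1 + 1) → Multiset ℝ, ∑ j, z j =
      z 0 + (z 1 + (z 2 + ∑ j : Fin L.length, z j.succ.succ.succ)) := by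
    intro z
    rw [Fin.sum_univ_succ, Fin.sum_univ_succ, Fin.sum_univ_succ]
    rfl
  obtain ⟨y', hy'⟩ : ∃ y' : Fin L.length → ℝ, y' = fun j => y j.succ.succ.succ := ⟨_, rfl⟩
  obtain ⟨x', hx'⟩ : ∃ x' : Fin L.length → ℝ, x' = fun j => x j.succ.succ.succ := ⟨_, rfl⟩
  obtain ⟨Y, hY⟩ : ∃ Y : Fin 4 → ℝ, Y = ![y 0, y 1, y 2, ∑ j, y' j] := ⟨_, rfl⟩
  obtain ⟨X, hX⟩ : ∃ X : Fin 4 → ℝ, X = ![x 0, x 1, x 2, ∑ j, x' j] := ⟨_, rfl⟩
  obtain ⟨F, hF⟩ : ∃ F : (Fin 4 → ℕ) → Fin (L.length + 1 + 1 + 1) → ℕ,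
      F = fun n => Fin.cons (n 0) (Fin.cons (n 1) (Fin.cons (n 2) fun _ => n 3)) := ⟨_, rfl⟩
  have hFy : ∀ n : Fin 4 → ℕ, ∑ j, (F n j : ℝ) * y j = ∑ j, (n j : ℝ) * Y j := by
    intro n
    rw [s4 fun j => (F n j : ℝ) * y j, Fin.sum_univ_four]
    have e1 : ∀ j : Fin L.length, (F n j.succ.succ.succ : ℝ) * y j.succ.succ.succ =
        (n 3 : ℝ) * y' j := by
      intro j; rw [hF, hy']; rfl
    have e0 : (F n 0 : ℝ) * y 0 = (n 0 : ℝ) * Y 0 := by rw [hF, hY]; rfl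
    have e2 : (F n 1 : ℝ) * y 1 = (n 1 : ℝ) * Y 1 := by rw [hF, hY]; rfl
    have e3 : (F n 2 : ℝ) * y 2 = (n 2 : ℝ) * Y 2 := by rw [hF, hY]; rfl
    have e4 : Y 3 = ∑ j, y' j := by rw [hY]; rfl
    simp only [e1, ← Finset.mul_sum]
    rw [e4, ← e0, ← e2, ← e3]
    ring
  have hFx : ∀ n : Fin 4 → ℕ, ∑ j, (F n j : ℝ) * x j = ∑ j, (n j : ℝ) * X j := by
    intro n
    rw [s4 fun j => (F n j : ℝ) * x j, Fin.sum_univ_four]
    have e1 : ∀ j : Fin L.length, (F n j.succ.succ.succ : ℝ) * x j.succ.succ.succ =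
        (n 3 : ℝ) * x' j := by
      intro j; rw [hF, hx']; rfl
    have e0 : (F n 0 : ℝ) * x 0 = (n 0 : ℝ) * X 0 := by rw [hF, hX]; rfl
    have e2 : (F n 1 : ℝ) * x 1 = (n 1 : ℝ) * X 1 := by rw [hF, hX]; rfl
    have e3 : (F n 2 : ℝ) * x 2 = (n 2 : ℝ) * X 2 := by rw [hF, hX]; rfl
    have e4 : X 3 = ∑ j, x' j := by rw [hX]; rfl
    simp only [e1, ← Finset.mul_sum]
    rw [e4, ← e0, ← e2, ← e3]
    ring
  have hFm : ∀ n : Fin 4 → ℕ, ∑ j, Multiset.replicate (F n j) (y j) =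
      Multiset.replicate (n 0) (Y 0) + (Multiset.replicate (n 1) (Y 1) +
        (Multiset.replicate (n 2) (Y 2) +
          n 3 • (Finset.univ : Finset (Fin L.length)).val.map y')) := by
    intro n
    rw [m4 fun j => Multiset.replicate (F n j) (y j), ← sum_repl]
    rw [hF, hY, hy']
    rfl
  have hSx : ∑ j, x j = ∑ j, X j := by
    rw [s4 x, Fin.sum_univ_four, hX, hx']
    simp only [Matrix.cons_val_zero, Matrix.cons_val_one, Matrix.cons_val]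
    ring
  have hxθ : ∀ j, X j ≤ θ * Y j := by
    intro j
    fin_cases j
    · rw [hX, hY]; exact hx 0
    · rw [hX, hY]; exact hx 1
    · rw [hX, hY]; exact hx 2
    · have : ∑ j, x' j ≤ θ * ∑ j, y' j := by
        rw [Finset.mul_sum, hx', hy']
        exact Finset.sum_le_sum fun j _ => hx _
      rw [hX, hY]
      exact this
  have key := h Y X ((Finset.univ : Finset (Fin L.length)).val.map y') m a ω α
    (by rw [hY]; exact hy 0) (by rw [hY]; exact hy 1) (by rw [hY]; exact hy 2)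
    (sh_get L y' fun j => by rw [hy']; exact hy j.succ.succ.succ)
    (by rw [hY]; rfl) hm hmM ha haA hxθ hω hα
  rcases key with ⟨n, f, g, hf, hmf, hg, hag, h5, h6⟩ | ⟨n, f, g, hf, hmf, hg, hag, h5⟩
  · refine Or.inl ⟨F n, f, g, hf, hmf, hg, hag, ?_, ?_⟩
    · rw [hFy, hFx]; exact h5
    · rw [hFy, hFx, hSx]; exact h6
  · refine Or.inr (Or.inl ⟨F n, f, g, hf, hmf, hg, hag, ?_⟩)
    rw [hFm, hFx, hSx]
    exact h5

/-! ### two lumps and a multiset -/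

theorem sum_Q {Q : Multiset ℝ} {u v : ℝ} : (Q + {u, v} : Multiset ℝ).sum = Q.sum + (u + v) := by
  rw [Multiset.sum_add, sum_pair]

theorem nn_Q {Q : Multiset ℝ} {u v : ℝ} (hu : 0 ≤ u) (hv : 0 ≤ v) (hQ : ∀ y ∈ Q, 0 ≤ y) :
    ∀ y ∈ (Q + {u, v} : Multiset ℝ), 0 ≤ y := by
  intro y hy
  rcases Multiset.mem_add.1 hy with h | h
  · exact hQ y h
  · exact nn_pair hu hv y h

theorem sh_Q {Q Z' : Multiset ℝ} {u v : ℝ} (h : Sh Z' (Q + {u, v})) :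
    ∃ (Q' : Multiset ℝ) (u' v' : ℝ), Z' = Q' + {u', v'} ∧ Sh Q' Q ∧ 0 ≤ u' ∧ u' ≤ u ∧ 0 ≤ v' ∧
      v' ≤ v := by
  obtain ⟨Q', Z, rfl, hQ, hZ⟩ := h.of_add
  obtain ⟨u', v', rfl, hu0, hu1, hv0, hv1⟩ := hZ.pair
  exact ⟨Q', u', v', rfl, hQ, hu0, hu1, hv0, hv1⟩

/-- remove a multiset pointwise -/
theorem supQ (R : ExpRules (7 / 8 + d) r s) {k m a : ℝ} {Q Y : Multiset ℝ} (hk : 0 ≤ k)
    (hQ : ∀ y ∈ Q, 0 ≤ y) (hY : ∀ y ∈ Y, 0 ≤ y) (hm : 0 ≤ m) (ha : 0 ≤ a) :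
    r k (Q + Y) m a ≤ (7 / 4 + 2 * d) * Q.sum + r k Y m a :=
  supV R hk Y Q hY hQ hm ha

/-- two lumps and a multiset, all granular mass in `X` -/
theorem E30Q (R : ExpRules (7 / 8 + d) r s) (hd : 0 ≤ d) {k ξ F u v U V W m a : ℝ}
    {Q : Multiset ℝ} (hk : 0 ≤ k)
    (hu : 0 ≤ u) (hv : 0 ≤ v) (hQ : ∀ y ∈ Q, 0 ≤ y) (huU : u ≤ U) (hvV : v ≤ V)
    (hwW : Q.sum ≤ W)
    (hm : 0 ≤ m) (ha : 0 ≤ a) (hF : 0 ≤ F) (hg : m + a ≤ ξ) (h1 : 2 * ξ + (U + V + W) ≤ k + F)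
    (h2 : 3 / 4 * W ≤ ξ + F) :
    r k (Q + {u, v}) m a ≤ k + (u + v + Q.sum) + (m + a) + F + 2 * d * W := by
  have hw : 0 ≤ Q.sum := Multiset.sum_nonneg hQ
  have hW : 0 ≤ W := hw.trans hwW
  have hdW : 0 ≤ 2 * d * W := by positivity
  have C : ColX (7 / 8 + d) r k ξ (F + 2 * d * W) (Q + {u, v}) 0 0 := by
    refine ⟨?_, ?_⟩
    · intro Z' m' a' i hZ' hm0 hm1 ha0 ha1 hi hyi hii
      obtain ⟨Q', u', v', rfl, hQ', hu0, hu1, hv0, hv1⟩ := sh_Q hZ'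
      have hw0 := hQ'.sum_nonneg
      have hw1 := hQ'.sum_le
      have em : m' = 0 := le_antisymm hm1 hm0
      have ea : a' = 0 := le_antisymm ha1 ha0
      subst em; subst ea
      have hui : u' ≤ i := hyi u' (by simp)
      have hvi : v' ≤ i := hyi v' (by simp)
      have e1 := supQ R hi hQ'.nonneg (nn_pair hu0 hv0) (le_refl (0 : ℝ)) (le_refl (0 : ℝ))
        (d := d) (k := i)
      have e2 := R.tf i u' v' hu0 hv0 hui hvi
      have e3 : 2 * d * Q'.sum ≤ 2 * d * W :=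
        mul_le_mul_of_nonneg_left (hw1.trans hwW) (by linarith)
      rw [sum_Q]
      linarith
    · intro Z' m' a' hZ' hm0 hm1 ha0 ha1 _
      have := hZ'.sum_nonneg
      have em : m' = 0 := le_antisymm hm1 hm0
      have ea : a' = 0 := le_antisymm ha1 ha0
      subst em; subst ea
      linarith
  have := side_xi R (κ := k) (ξ := ξ) (m := 0) (b := m) (a := 0) (b' := a)
    (F := F + 2 * d * W) (V := 0) (Z := Q + {u, v}) hk (by simp) (nn_Q hu hv hQ) le_rfl hm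
    le_rfl ha (by linarith) (by simpa using hg) (by rw [sum_Q]; linarith) C k hk le_rfl
  rw [sum_Q] at this
  simp only [zero_add, Multiset.sum_zero] at this
  linarith

/-- two lumps and a multiset with granular mass at most `G`, `ξ ≤ G` -/
theorem E3gQ (R : ExpRules (7 / 8 + d) r s) (hd : 0 ≤ d) {k ξ F G u v U V W m a : ℝ}
    {Q : Multiset ℝ}
    (hk : 0 ≤ k) (hu : 0 ≤ u) (hv : 0 ≤ v) (hQ : ∀ y ∈ Q, 0 ≤ y) (huU : u ≤ U) (hvV : v ≤ V)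
    (hwW : Q.sum ≤ W) (hm : 0 ≤ m) (ha : 0 ≤ a) (hF : 0 ≤ F) (hξ : 0 ≤ ξ) (hξG : ξ ≤ G)
    (hg : m + a ≤ G) (h1 : ξ + (U + V + W + G) ≤ k + F) (h2 : 3 / 4 * W ≤ ξ + F)
    (h3 : 3 / 4 * (W + G) - 7 / 12 * (k - (U + V)) ≤ F) (h4 : G ≤ 2 / 3 * k + F)
    (h5 : k ≤ 4 * (U + V)) :
    r k (Q + {u, v}) m a ≤ k + (u + v + Q.sum) + (m + a) + F + 2 * d * (W + G) := by
  have hw : 0 ≤ Q.sum := Multiset.sum_nonneg hQ
  have hW : 0 ≤ W := hw.trans hwW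
  have hG : 0 ≤ G := hξ.trans hξG
  have hdW : 0 ≤ 2 * d * (W + G) := by positivity
  obtain ⟨b, b', hb0, hbm, hb0', hbm', hbb, hbb'⟩ : ∃ b b' : ℝ, 0 ≤ b ∧ b ≤ m ∧ 0 ≤ b' ∧
      b' ≤ a ∧ b + b' ≤ ξ ∧ ((m + a) - (b + b') ≤ G - ξ) := by
    rcases le_total ξ m with h | h
    · exact ⟨ξ, 0, hξ, h, le_rfl, ha, by linarith, by linarith⟩
    · rcases le_total ξ (m + a) with h' | h'
      · exact ⟨m, ξ - m, hm, le_rfl, by linarith, by linarith, by linarith, by linarith⟩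
      · exact ⟨m, a, hm, le_rfl, ha, le_rfl, by linarith, by linarith⟩
  have C : ColX (7 / 8 + d) r k ξ (F + 2 * d * (W + G)) (Q + {u, v}) (m - b) (a - b') := by
    refine ⟨?_, ?_⟩
    · intro Z' m' a' i hZ' hm0 hm1 ha0 ha1 hi hyi hii
      obtain ⟨Q', u', v', rfl, hQ', hu0, hu1, hv0, hv1⟩ := sh_Q hZ'
      have hw0 := hQ'.sum_nonneg
      have hw1 := hQ'.sum_le
      have hui : u' ≤ i := hyi u' (by simp)
      have hvi : v' ≤ i := hyi v' (by simp)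
      have e1 := supQ R hi hQ'.nonneg (nn_pair hu0 hv0) hm0 ha0 (d := d) (k := i)
      have e4 : 2 * d * (Q'.sum + (m' + a')) ≤ 2 * d * (W + G) :=
        mul_le_mul_of_nonneg_left (by linarith) (by linarith)
      rw [sum_Q]
      rcases le_total 0 (G - ξ - 7 / 9 * (i - (U + V))) with hc | hc
      · have e2 := E2 R hd hi hu0 hv0 (hu1.trans huU) (hv1.trans hvV) hui hvi hm0 ha0
          (by linarith) hc (by linarith)
        linarith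
      · have e2 := E2 R hd hi hu0 hv0 (hu1.trans huU) (hv1.trans hvV) hui hvi hm0 ha0
          (by linarith) (le_refl (0 : ℝ)) (by linarith)
        linarith
    · intro Z' m' a' hZ' hm0 hm1 ha0 ha1 _
      have := hZ'.sum_nonneg
      have e4 : 2 * d * m' ≤ 2 * d * (W + G) :=
        mul_le_mul_of_nonneg_left (by linarith) (by linarith)
      linarith
  have := side_xi R (κ := k) (ξ := ξ) (m := m - b) (b := b) (a := a - b') (b' := b')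
    (F := F + 2 * d * (W + G)) (V := 0) (Z := Q + {u, v}) hk (by simp) (nn_Q hu hv hQ)
    (by linarith) hb0 (by linarith) hb0' (by linarith) (by simpa using hbb)
    (by rw [sum_Q]; linarith) C k hk le_rfl
  rw [sum_Q] at this
  simp only [zero_add, Multiset.sum_zero, sub_add_cancel] at this
  linarith

/-! ### the long columns -/

theorem rq3 (y : Fin 4 → ℝ) (Q : Multiset ℝ) :
    Multiset.replicate ((![1, 1, 1, 0] : Fin 4 → ℕ) 0) (y 0) +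
      (Multiset.replicate ((![1, 1, 1, 0] : Fin 4 → ℕ) 1) (y 1) +
      (Multiset.replicate ((![1, 1, 1, 0] : Fin 4 → ℕ) 2) (y 2) +
        (![1, 1, 1, 0] : Fin 4 → ℕ) 3 • Q)) = y 2 ::ₘ {y 0, y 1} := by
  simp [Multiset.insert_eq_cons, ← Multiset.singleton_add]
  abel

theorem rq2 (y : Fin 4 → ℝ) (Q : Multiset ℝ) :
    Multiset.replicate ((![1, 1, 0, 1] : Fin 4 → ℕ) 0) (y 0) +
      (Multiset.replicate ((![1, 1, 0, 1] : Fin 4 → ℕ) 1) (y 1) +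
      (Multiset.replicate ((![1, 1, 0, 1] : Fin 4 → ℕ) 2) (y 2) +
        (![1, 1, 0, 1] : Fin 4 → ℕ) 3 • Q)) = Q + {y 0, y 1} := by
  simp [Multiset.insert_eq_cons, ← Multiset.singleton_add]
  abel

theorem rq1 (y : Fin 4 → ℝ) (Q : Multiset ℝ) :
    Multiset.replicate ((![1, 0, 1, 1] : Fin 4 → ℕ) 0) (y 0) +
      (Multiset.replicate ((![1, 0, 1, 1] : Fin 4 → ℕ) 1) (y 1) +
      (Multiset.replicate ((![1, 0, 1, 1] : Fin 4 → ℕ) 2) (y 2) +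
        (![1, 0, 1, 1] : Fin 4 → ℕ) 3 • Q)) = Q + {y 0, y 2} := by
  simp [Multiset.insert_eq_cons, ← Multiset.singleton_add]
  abel

theorem rq0 (y : Fin 4 → ℝ) (Q : Multiset ℝ) :
    Multiset.replicate ((![0, 1, 1, 1] : Fin 4 → ℕ) 0) (y 0) +
      (Multiset.replicate ((![0, 1, 1, 1] : Fin 4 → ℕ) 1) (y 1) +
      (Multiset.replicate ((![0, 1, 1, 1] : Fin 4 → ℕ) 2) (y 2) +
        (![0, 1, 1, 1] : Fin 4 → ℕ) 3 • Q)) = Q + {y 1, y 2} := by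
  simp [Multiset.insert_eq_cons, ← Multiset.singleton_add]
  abel

set_option maxHeartbeats 2000000 in
/-- the long columns `i` of `{b₁,b₂,b₃,Q | c}`, `c + S = 2/3 κ` -/
theorem lev4Q (R : ExpRules (7 / 8 + d) r s) (Lv : ExpLv (7 / 8 + d) r) (hd : 0 ≤ d)
    {κ i c b₁ b₂ b₃ b₄ l₁ l₂ l₃ M A : ℝ} {Q : Multiset ℝ} (hi : 2 * i ≤ κ) (hi4 : κ ≤ 4 * i) (hb4 : 0 ≤ b₄)
    (h43 : b₄ ≤ b₃) (h32 : b₃ ≤ b₂) (h21 : b₂ ≤ b₁)
    (hAA : 4 * (b₁ + b₂) + 10 * b₃ + 9 * b₄ ≤ 4 * κ)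
    (hBB : 18 * (b₁ + b₂) + 27 * b₃ + 45 * b₄ ≤ 16 * κ) (hEE : κ ≤ 2 * (b₂ + b₃) + 5 * b₄)
    (hiC : κ - 9 / 4 * b₃ - 3 / 2 * b₄ ≤ i)
    (hc : c + (b₁ + b₂ + b₃ + b₄) = 2 / 3 * κ) (hl1 : 0 ≤ l₁) (hl1' : l₁ ≤ b₁) (hl2 : 0 ≤ l₂)
    (hl2' : l₂ ≤ b₂) (hl3 : 0 ≤ l₃) (hl3' : l₃ ≤ b₃) (hQ : ∀ y ∈ Q, 0 ≤ y)
    (hQi : ∀ y ∈ Q, y ≤ i) (hl4' : Q.sum ≤ b₄)
    (hi1 : l₁ ≤ i) (hi2 : l₂ ≤ i) (hi3 : l₃ ≤ i) (hM : 0 ≤ M) (hA : 0 ≤ A)
    (hMA : M + A ≤ c) :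
    r i (l₁ ::ₘ l₂ ::ₘ l₃ ::ₘ Q) M A ≤
      i + (l₁ + l₂ + l₃ + Q.sum) + (M + A) + (κ / 2 - 2 / 3 * i) + d * κ := by
  have hi0 : 0 ≤ i := hl1.trans hi1
  have hκ0 : 0 ≤ κ := by linarith
  have hdκ : 0 ≤ d * κ := mul_nonneg hd hκ0
  refine levQ Lv hi0 hl1 hi1 hl2 hi2 hl3 hi3 (fun y hy => ⟨hQ y hy, hQi y hy⟩) hM hA ?_
  intro y x Q' m a ω α ⟨y0n, y0l⟩ ⟨y1n, y1l⟩ ⟨y2n, y2l⟩ hQ' hyQ hm hmM ha haA hx hω hα
  obtain ⟨l₄, hl₄⟩ : ∃ l₄, l₄ = Q.sum := ⟨_, rfl⟩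
  rw [← hl₄] at hl4' ⊢
  have y3n : 0 ≤ y 3 := by rw [hyQ]; exact hQ'.sum_nonneg
  have y3l : y 3 ≤ l₄ := by rw [hyQ, hl₄]; exact hQ'.sum_le
  have hQn := hQ'.nonneg
  have hl4 : 0 ≤ l₄ := y3n.trans y3l
  have x3 := hx 3
  have dy3 : d * y 3 ≤ d * b₄ := mul_le_mul_of_nonneg_left (by linarith) hd
  have db3 : 0 ≤ d * b₃ := mul_nonneg hd (by linarith)
  have db4 : 0 ≤ d * b₄ := mul_nonneg hd (by linarith)
  have db3κ : d * b₃ ≤ d * (κ / 4) := mul_le_mul_of_nonneg_left (by linarith) hd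
  have db4κ : d * b₄ ≤ d * (κ / 4) := mul_le_mul_of_nonneg_left (by linarith) hd
  -- low density or no granular mass
  have low : ω + α ≤ (m + a) * (1 / 2) → (∃ (n : Fin 4 → ℕ) (f g : ℝ), 0 ≤ f ∧ (m = 0 → f = 0) ∧
        0 ≤ g ∧ (a = 0 → g = 0) ∧
        r i (Multiset.replicate (n 0) (y 0) + (Multiset.replicate (n 1) (y 1) +
          (Multiset.replicate (n 2) (y 2) + n 3 • Q'))) f g -
          2 * ((∑ j, (n j : ℝ) * x j) + f * (ω / m) + g * (α / a)) +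
          2 * ((∑ j, x j) + ω + α) ≤
        i + (l₁ + l₂ + l₃ + l₄) + (M + A) + (κ / 2 - 2 / 3 * i) + d * κ) := by
    intro hlow
    refine ⟨![1, 1, 1, 0], 0, 0, le_rfl, fun _ => rfl, le_rfl, fun _ => rfl, ?_⟩
    have e := E30 R hd (k := i) (ξ := (i - b₁ - b₂ - b₃ / 4) / 3)
      (F := 3 / 4 * b₃ - (i - b₁ - b₂ - b₃ / 4) / 3) (U := b₁) (V := b₂) (W := b₃) (m := 0)
      (a := 0) hi0 y0n y1n y2n (by linarith) (by linarith) (by linarith) le_rfl le_rfl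
      (by linarith) (by linarith) (by linarith) (by linarith)
    rw [rq3]
    simp only [Fin.sum_univ_four, Matrix.cons_val_zero, Matrix.cons_val_one, Matrix.cons_val,
      Nat.cast_one, Nat.cast_zero, one_mul, zero_mul, add_zero]
    linarith
  rcases (add_nonneg hm ha).eq_or_lt with hz | hpos
  · have em : m = 0 := by linarith
    have ea : a = 0 := by linarith
    refine Or.inr (low ?_)
    rw [em] at hω
    rw [ea] at hα
    rw [em, ea]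
    linarith
  obtain ⟨D, hD, hωα, hG⟩ := dens hm ha hω hα hpos
  obtain ⟨P, hP⟩ : ∃ P, P = 2 * D - 1 := ⟨_, rfl⟩
  have hDP : D = (1 + P) / 2 := by linarith
  subst hDP
  rcases le_total P 0 with hP0 | hP0
  · refine Or.inr (low ?_)
    have : (m + a) * P ≤ 0 := mul_nonpos_of_nonneg_of_nonpos hpos.le hP0
    linarith
  have hmaP : (m + a) * P ≤ c * P := mul_le_mul_of_nonneg_right (by linarith) hP0
  -- the four moments
  obtain ⟨G3, hG3⟩ : ∃ G, G = (i - b₁ - b₂ - b₃ / 4) / 3 := ⟨_, rfl⟩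
  obtain ⟨G2, hG2⟩ : ∃ G, G = (i - b₁ - b₂ - b₄ / 4) / 3 := ⟨_, rfl⟩
  obtain ⟨G1, hG1⟩ : ∃ G, G = (i - b₁ - b₃ - b₄ / 4) / 3 := ⟨_, rfl⟩
  obtain ⟨G0, hG0⟩ : ∃ G, G = (i - b₂ - b₃ - b₄ / 4) / 3 := ⟨_, rfl⟩
  by_cases c3 : (2 * x 3 - y 3) + (c - G3) * P + (3 / 4 * b₃ - G3) + 2 * d * b₃ ≤
      (κ / 2 - 2 / 3 * i) + d * κ
  · obtain ⟨f, g, hf, hmf, hg, hag, hfg, hlev⟩ := hG G3 (by linarith)
    refine Or.inr ⟨![1, 1, 1, 0], f, g, hf, hmf, hg, hag, ?_⟩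
    have e := E30 R hd (k := i) (ξ := G3) (F := 3 / 4 * b₃ - G3) (U := b₁) (V := b₂) (W := b₃)
      (m := f) (a := g) hi0 y0n y1n y2n (by linarith) (by linarith) (by linarith) hf hg
      (by linarith) (by linarith) (by linarith) (by linarith)
    rw [rq3]
    simp only [Fin.sum_univ_four, Matrix.cons_val_zero, Matrix.cons_val_one, Matrix.cons_val,
      Nat.cast_one, Nat.cast_zero, one_mul, zero_mul, add_zero]
    linarith
  by_cases c2 : (2 * x 2 - y 2) + (c - G2) * P + (3 / 4 * b₄ - G2) + 2 * d * b₄ ≤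
      (κ / 2 - 2 / 3 * i) + d * κ
  · obtain ⟨f, g, hf, hmf, hg, hag, hfg, hlev⟩ := hG G2 (by linarith)
    refine Or.inr ⟨![1, 1, 0, 1], f, g, hf, hmf, hg, hag, ?_⟩
    have e := E30Q R hd (k := i) (ξ := G2) (F := 3 / 4 * b₄ - G2) (U := b₁) (V := b₂) (W := b₄)
      (m := f) (a := g) hi0 y0n y1n hQn (by linarith) (by linarith) (by linarith) hf hg
      (by linarith) (by linarith) (by linarith) (by linarith)
    rw [rq2]
    simp only [Fin.sum_univ_four, Matrix.cons_val_zero, Matrix.cons_val_one, Matrix.cons_val,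
      Nat.cast_one, Nat.cast_zero, one_mul, zero_mul, add_zero]
    linarith
  by_cases c1 : (2 * x 1 - y 1) + (c - G1) * P + (3 / 4 * b₄ - G1) + 2 * d * b₄ ≤
      (κ / 2 - 2 / 3 * i) + d * κ
  · obtain ⟨f, g, hf, hmf, hg, hag, hfg, hlev⟩ := hG G1 (by linarith)
    refine Or.inr ⟨![1, 0, 1, 1], f, g, hf, hmf, hg, hag, ?_⟩
    have e := E30Q R hd (k := i) (ξ := G1) (F := 3 / 4 * b₄ - G1) (U := b₁) (V := b₃) (W := b₄)
      (m := f) (a := g) hi0 y0n y2n hQn (by linarith) (by linarith) (by linarith) hf hg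
      (by linarith) (by linarith) (by linarith) (by linarith)
    rw [rq1]
    simp only [Fin.sum_univ_four, Matrix.cons_val_zero, Matrix.cons_val_one, Matrix.cons_val,
      Nat.cast_one, Nat.cast_zero, one_mul, zero_mul, add_zero]
    linarith
  by_cases c0 : (2 * x 0 - y 0) + (c - G0) * P + (3 / 4 * b₄ - G0) + 2 * d * b₄ ≤
      (κ / 2 - 2 / 3 * i) + d * κ
  · obtain ⟨f, g, hf, hmf, hg, hag, hfg, hlev⟩ := hG G0 (by linarith)
    refine Or.inr ⟨![0, 1, 1, 1], f, g, hf, hmf, hg, hag, ?_⟩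
    have e := E30Q R hd (k := i) (ξ := G0) (F := 3 / 4 * b₄ - G0) (U := b₂) (V := b₃) (W := b₄)
      (m := f) (a := g) hi0 y1n y2n hQn (by linarith) (by linarith) (by linarith) hf hg
      (by linarith) (by linarith) (by linarith) (by linarith)
    rw [rq0]
    simp only [Fin.sum_univ_four, Matrix.cons_val_zero, Matrix.cons_val_one, Matrix.cons_val,
      Nat.cast_one, Nat.cast_zero, one_mul, zero_mul]
    linarith
  push Not at c0 c1 c2 c3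
  -- Halász–Montgomery
  refine Or.inl ?_
  have hSP : (y 0 + y 1 + y 2 + y 3) * P ≤ (b₁ + b₂ + b₃ + b₄) * P :=
    mul_le_mul_of_nonneg_right (by linarith) hP0
  by_cases hv : 8 / 9 * i - P * (4 / 3 * i - (y 0 + y 1 + y 2 + y 3)) ≤
      2 * (x 0 + x 1 + x 2 + x 3) - (y 0 + y 1 + y 2 + y 3)
  · -- all four lumps
    obtain ⟨f, g, hf, hmf, hg, hag, hfg, hlev⟩ := hG (4 / 3 * i - (y 0 + y 1 + y 2 + y 3))
      (by linarith)
    have hdi : d * (κ / 2 - i) ≤ d * (κ / 4) := mul_le_mul_of_nonneg_left (by linarith) hd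
    have hPP : P * (4 / 3 * (κ / 2 - i)) ≤ (3 / 4 + 2 * d) * (4 / 3 * (κ / 2 - i)) :=
      mul_le_mul_of_nonneg_right (by linarith) (by linarith)
    have hcP : c * P = (2 / 3 * κ - (b₁ + b₂ + b₃ + b₄)) * P := by rw [← hc]; ring
    refine ⟨![1, 1, 1, 1], f, g, hf, hmf, hg, hag, ?_, ?_⟩
    · refine Or.inl ⟨?_, ?_⟩
      · simp only [Fin.sum_univ_four, Matrix.cons_val_zero, Matrix.cons_val_one, Matrix.cons_val,
          Nat.cast_one, one_mul]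
        linarith
      · simp only [Fin.sum_univ_four, Matrix.cons_val_zero, Matrix.cons_val_one, Matrix.cons_val,
          Nat.cast_one, one_mul]
        rw [add_assoc (x 0 + x 1 + x 2 + x 3), hlev]
        linarith
    · simp only [Fin.sum_univ_four, Matrix.cons_val_zero, Matrix.cons_val_one, Matrix.cons_val,
        Nat.cast_one, one_mul]
      linarith
  push Not at hv
  have hcP : c * P = (2 / 3 * κ - (b₁ + b₂ + b₃ + b₄)) * P := by rw [← hc]; ring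
  rcases le_total P (2 / 3) with hP2 | hP2
  · -- impossible
    exfalso
    have q0 : 0 ≤ 2 * κ - 20 / 9 * i - (b₁ + b₂ + b₃ + b₄) - 1 / 2 * (b₃ + 3 * b₄) := by linarith
    have q1 : 0 ≤ 2 / 9 * κ - 4 / 9 * i + 1 / 3 * ((b₁ + b₂ + b₃ + b₄) - (b₃ + 3 * b₄)) := by
      linarith
    have m0 := mul_nonneg (by linarith : 0 ≤ 1 - 3 / 2 * P) q0
    have m1 := mul_nonneg hP0 q1
    have e3 : G3 * P = (i - b₁ - b₂ - b₃ / 4) / 3 * P := by rw [hG3]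
    have e2 : G2 * P = (i - b₁ - b₂ - b₄ / 4) / 3 * P := by rw [hG2]
    have e1 : G1 * P = (i - b₁ - b₃ - b₄ / 4) / 3 * P := by rw [hG1]
    have e0 : G0 * P = (i - b₂ - b₃ - b₄ / 4) / 3 * P := by rw [hG0]
    linarith
  · -- granular mass alone
    obtain ⟨f, g, hf, hmf, hg, hag, hfg, hlev⟩ := hG (4 / 3 * i) (by linarith)
    have hiP : i * (2 / 3) ≤ i * P := mul_le_mul_of_nonneg_left hP2 hi0
    have hκP : (8 / 3 * i - 2 / 3 * κ) * (2 / 3) ≤ (8 / 3 * i - 2 / 3 * κ) * P :=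
      mul_le_mul_of_nonneg_left hP2 (by linarith)
    refine ⟨![0, 0, 0, 0], f, g, hf, hmf, hg, hag, ?_, ?_⟩
    · refine Or.inl ⟨?_, ?_⟩
      · simp only [Fin.sum_univ_four, Matrix.cons_val_zero, Matrix.cons_val_one, Matrix.cons_val,
          Nat.cast_zero, zero_mul]
        linarith
      · simp only [Fin.sum_univ_four, Matrix.cons_val_zero, Matrix.cons_val_one, Matrix.cons_val,
          Nat.cast_zero, zero_mul]
        linarith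
    · simp only [Fin.sum_univ_four, Matrix.cons_val_zero, Matrix.cons_val_one, Matrix.cons_val,
        Nat.cast_zero, zero_mul]
      linarith

theorem cons3 {l₁ l₂ l₃ : ℝ} {Q : Multiset ℝ} :
    (l₁ ::ₘ l₂ ::ₘ l₃ ::ₘ Q : Multiset ℝ) = Q + (l₃ ::ₘ {l₁, l₂}) := by
  simp only [Multiset.insert_eq_cons, ← Multiset.singleton_add]
  abel

/-! ### the side theorem -/

/-- the columns of `{b₁,b₂,b₃,Q | m, a}` -/
theorem col4Q (R : ExpRules (7 / 8 + d) r s) (Lv : ExpLv (7 / 8 + d) r) (hd : 0 ≤ d)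
    {κ b₁ b₂ b₃ b₄ m a : ℝ} {Q : Multiset ℝ} (hQ : Q.sum ≤ b₄) (hb4 : 0 ≤ b₄) (h43 : b₄ ≤ b₃) (h32 : b₃ ≤ b₂) (h21 : b₂ ≤ b₁)
    (h12 : κ ≤ 4 * (b₁ + b₂)) (hAA : 4 * (b₁ + b₂) + 10 * b₃ + 9 * b₄ ≤ 4 * κ)
    (hBB : 18 * (b₁ + b₂) + 27 * b₃ + 45 * b₄ ≤ 16 * κ)
    (hCC : 8 * (b₁ + b₂) + 11 * b₃ + 12 * b₄ ≤ 6 * κ)
    (hEE : κ ≤ 2 * (b₂ + b₃) + 5 * b₄ ∨ 9 * b₃ + 6 * b₄ ≤ 2 * κ)
    (hw : (b₁ + b₂ + b₃ + b₄) + (m + a) ≤ 2 / 3 * κ) :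
    ColX (7 / 8 + d) r κ (κ / 6) (d * κ) (Q + (b₃ ::ₘ {b₁, b₂})) m a := by
  have hκ0 : 0 ≤ κ := by linarith
  obtain ⟨c, hc⟩ : ∃ c, c = 2 / 3 * κ - (b₁ + b₂ + b₃ + b₄) := ⟨_, rfl⟩
  have hloss : ∀ z : ℝ, z ≤ 5 / 12 * κ → 2 * d * z ≤ d * κ := by
    intro z hz
    have h1 := mul_le_mul_of_nonneg_left hz (by linarith : 0 ≤ 2 * d)
    have h2 : 0 ≤ d * κ := mul_nonneg hd hκ0
    linarith
  refine ⟨?_, ?_⟩
  · intro Z' m' a' i hZ' hm0 hm1 ha0 ha1 hi hyi hii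
    obtain ⟨Q', Z₁, rfl, hQ', hZ1⟩ := hZ'.of_add
    have hQn := hQ'.nonneg
    have hQs := hQ'.sum_le
    obtain ⟨l₄, hl₄⟩ : ∃ l₄, l₄ = Q'.sum := ⟨_, rfl⟩
    have hl4 : 0 ≤ l₄ := by rw [hl₄]; exact hQ'.sum_nonneg
    have hl4' : l₄ ≤ b₄ := by rw [hl₄]; linarith
    obtain ⟨l₃, Z₂, rfl, hl3, hl3', hZ2⟩ := hZ1.of_cons
    obtain ⟨l₁, l₂, rfl, hl1, hl1', hl2, hl2'⟩ := hZ2.pair
    have hi1 : l₁ ≤ i := hyi l₁ (by simp)
    have hi2 : l₂ ≤ i := hyi l₂ (by simp)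
    have hi3 : l₃ ≤ i := hyi l₃ (by simp)
    have hQi : ∀ y ∈ Q', y ≤ i := fun y hy => hyi y (by simp [hy])
    have hsum : (Q' + (l₃ ::ₘ {l₁, l₂}) : Multiset ℝ).sum = l₁ + l₂ + l₃ + l₄ := by
      rw [Multiset.sum_add, sum_tri, hl₄]; ring
    rw [hsum]
    have s4 := supQ R hi hQn (nn_tri hl1 hl2 hl3) hm0 ha0 (d := d) (k := i)
    rw [← hl₄] at s4
    have s3 := sup1 R hi hl3 (nn_pair hl1 hl2) hm0 ha0 (d := d) (k := i)
    have hL1 := hloss (l₃ + l₄ + (m' + a')) (by linarith)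
    rcases le_total 0 (c - 7 / 9 * (i - (b₁ + b₂))) with hA | hA
    · have e2 := E2 R hd hi hl1 hl2 hl1' hl2' hi1 hi2 hm0 ha0 (by linarith) hA (by linarith)
      linarith
    rcases le_total i (3 / 4 * κ - 9 / 8 * (b₃ + b₄)) with hB | hB
    · have e2 := E2 R hd hi hl1 hl2 hl1' hl2' hi1 hi2 hm0 ha0 (by linarith) (le_refl (0 : ℝ))
        (by linarith)
      linarith
    have hlow : i ≤ κ - 9 / 4 * b₃ - 3 / 2 * b₄ →
        r i (Q' + (l₃ ::ₘ {l₁, l₂})) m' a' ≤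
          l₁ + l₂ + l₃ + l₄ + m' + a' + (2 * κ + i) / 3 - κ / 6 + d * κ := by
      intro hC
      obtain ⟨F, hF⟩ : ∃ F, F = max ((b₁ + b₂ + 7 / 4 * b₃ + c - i) / 2)
        (3 / 4 * (b₃ + c) - 7 / 12 * (i - (b₁ + b₂))) := ⟨_, rfl⟩
      have hF1 : (b₁ + b₂ + 7 / 4 * b₃ + c - i) / 2 ≤ F := by rw [hF]; exact le_max_left _ _
      have hF2 : 3 / 4 * (b₃ + c) - 7 / 12 * (i - (b₁ + b₂)) ≤ F := by
        rw [hF]; exact le_max_right _ _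
      have hF3 : F ≤ 3 / 4 * b₃ := by
        rw [hF]; exact max_le (by linarith) (by linarith)
      have hF4 : 3 / 4 * b₄ + F ≤ κ / 2 - 2 / 3 * i := by
        have : F ≤ κ / 2 - 2 / 3 * i - 3 / 4 * b₄ := by
          rw [hF]; exact max_le (by linarith) (by linarith)
        linarith
      have hL2 := hloss (l₄ + (b₃ + c)) (by linarith)
      have e3 := E3g R hd (k := i) (ξ := 3 / 4 * b₃ - F) (F := F) (G := c) (U := b₁) (V := b₂)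
        (W := b₃) hi hl1 hl2 hl3 hl1' hl2' hl3' hm0 ha0 (by linarith) (by linarith)
        (by linarith) (by linarith) (by linarith) (by linarith) (by linarith) (by linarith)
        (by linarith)
      linarith
    rcases le_total i (κ - 9 / 4 * b₃ - 3 / 2 * b₄) with hC | hC
    · exact hlow hC
    · rcases hEE with hEE | hEE
      swap
      · exact hlow (by linarith)
      have e := lev4Q R Lv hd (κ := κ) (i := i) (c := c) (M := m') (A := a') (by linarith)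
        (by linarith) hb4 h43 h32 h21 hAA hBB hEE hC (by linarith) hl1 hl1' hl2 hl2' hl3 hl3' hQn
        hQi (by linarith) hi1 hi2 hi3 hm0 ha0 (by linarith)
      rw [cons3, ← hl₄] at e
      linarith
  · intro Z' m' a' hZ' hm0 hm1 ha0 ha1 _
    have := hZ'.sum_nonneg
    have hL := hloss m' (by linarith)
    linarith

/-- **(C5Q)**, `X = V` any lumps of total `≤ κ/6`, `Z = {b₁, b₂, b₃} + Q`, `Q` any lumps of total
`≤ b₄` -/
theorem C5Q (R : ExpRules (7 / 8 + d) r s) (Lv : ExpLv (7 / 8 + d) r) (hd : 0 ≤ d)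
    {κ b₁ b₂ b₃ b₄ m a : ℝ} {V Q : Multiset ℝ} (hV : ∀ y ∈ V, 0 ≤ y) (hV' : 6 * V.sum ≤ κ)
    (hQ : ∀ y ∈ Q, 0 ≤ y) (hQ' : Q.sum = b₄)
    (h43 : b₄ ≤ b₃) (h32 : b₃ ≤ b₂) (h21 : b₂ ≤ b₁) (h12 : κ ≤ 4 * (b₁ + b₂))
    (hAA : 4 * (b₁ + b₂) + 10 * b₃ + 9 * b₄ ≤ 4 * κ)
    (hBB : 18 * (b₁ + b₂) + 27 * b₃ + 45 * b₄ ≤ 16 * κ)
    (hCC : 8 * (b₁ + b₂) + 11 * b₃ + 12 * b₄ ≤ 6 * κ)
    (hEE : κ ≤ 2 * (b₂ + b₃) + 5 * b₄ ∨ 9 * b₃ + 6 * b₄ ≤ 2 * κ)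
    (hS : 3 * (b₁ + b₂ + b₃ + b₄) ≤ 2 * κ) (hm : 0 ≤ m) (ha : 0 ≤ a)
    (hN : 6 * (V.sum + (b₁ + b₂ + b₃ + b₄) + m + a) ≤ 5 * κ) :
    ∀ κ' : ℝ, 0 ≤ κ' → κ' ≤ κ →
      r κ' (V + (Q + (b₃ ::ₘ {b₁, b₂}))) m a + (κ - κ') / 3 ≤
        κ + (V.sum + (b₁ + b₂ + b₃ + b₄) + m + a) + d * κ := by
  have hV0 : 0 ≤ V.sum := Multiset.sum_nonneg hV
  have hb4 : 0 ≤ b₄ := by rw [← hQ']; exact Multiset.sum_nonneg hQ
  have hκ0 : 0 ≤ κ := by linarith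
  have hdκ : 0 ≤ d * κ := mul_nonneg hd hκ0
  obtain ⟨b, b', hb0, hbm, hb0', hbm', hbb, hbb'⟩ : ∃ b b' : ℝ, 0 ≤ b ∧ b ≤ m ∧ 0 ≤ b' ∧
      b' ≤ a ∧ b + b' ≤ κ / 6 - V.sum ∧
      (b₁ + b₂ + b₃ + b₄) + ((m - b) + (a - b')) ≤ 2 / 3 * κ := by
    rcases le_total (κ / 6 - V.sum) m with h | h
    · exact ⟨κ / 6 - V.sum, 0, by linarith, h, le_rfl, ha, by linarith, by linarith⟩
    · rcases le_total (κ / 6 - V.sum) (m + a) with h' | h'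
      · exact ⟨m, κ / 6 - V.sum - m, hm, le_rfl, by linarith, by linarith, by linarith,
          by linarith⟩
      · exact ⟨m, a, hm, le_rfl, ha, le_rfl, by linarith, by linarith⟩
  have hsum : (Q + (b₃ ::ₘ {b₁, b₂}) : Multiset ℝ).sum = b₁ + b₂ + b₃ + b₄ := by
    rw [Multiset.sum_add, sum_tri, hQ']; ring
  have C := col4Q R Lv hd (κ := κ) (m := m - b) (a := a - b') hQ'.le hb4 h43 h32 h21 h12 hAA
    hBB hCC hEE hbb'
  have key := side_xi R (κ := κ) (ξ := κ / 6) (m := m - b) (b := b) (a := a - b') (b' := b')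
    (F := d * κ) (V := V) (Z := Q + (b₃ ::ₘ {b₁, b₂})) hκ0 hV
    (by
      intro y hy
      rcases Multiset.mem_add.1 hy with h | h
      · exact hQ y h
      · exact nn_tri (by linarith) (by linarith) (by linarith) y h)
    (by linarith) hb0 (by linarith) hb0' hdκ
    (by linarith) (by rw [hsum]; linarith) C
  intro κ' h0 h1
  have := key κ' h0 h1
  rw [hsum, sub_add_cancel, sub_add_cancel] at this
  linarith

/-- `(C5Q)` with `b₁ + b₂ + b₃ + |Q| ≤ 16/27 κ`, `|Q| ≤ b₃` -/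
theorem C5Q_lin (R : ExpRules (7 / 8 + d) r s) (Lv : ExpLv (7 / 8 + d) r) (hd : 0 ≤ d)
    {κ b₁ b₂ b₃ m a : ℝ} {V Q : Multiset ℝ} (hV : ∀ y ∈ V, 0 ≤ y) (hV' : 6 * V.sum ≤ κ)
    (hQ : ∀ y ∈ Q, 0 ≤ y) (h43 : Q.sum ≤ b₃) (h32 : b₃ ≤ b₂) (h21 : b₂ ≤ b₁)
    (h12 : κ ≤ 4 * (b₁ + b₂)) (hS : 27 * (b₁ + b₂ + b₃ + Q.sum) ≤ 16 * κ) (hm : 0 ≤ m)
    (ha : 0 ≤ a) (hN : 6 * (V.sum + (b₁ + b₂ + b₃ + Q.sum) + m + a) ≤ 5 * κ) :
    ∀ κ' : ℝ, 0 ≤ κ' → κ' ≤ κ →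
      r κ' (V + (Q + (b₃ ::ₘ {b₁, b₂}))) m a + (κ - κ') / 3 ≤
        κ + (V.sum + (b₁ + b₂ + b₃ + Q.sum) + m + a) + d * κ := by
  have hQ0 : 0 ≤ Q.sum := Multiset.sum_nonneg hQ
  refine C5Q R Lv hd hV hV' hQ rfl h43 h32 h21 h12 (by linarith) (by linarith) (by linarith) ?_
    (by linarith) hm ha hN
  rcases le_total (9 * b₃ + 6 * Q.sum) (2 * κ) with h | h
  · exact Or.inr h
  · exact Or.inl (by linarith)

/-- `{A, A, A, A} + Q`, `4/27 κ ≤ A ≤ κ/6`, `|Q| ≤ 4/3 κ - 8 A` : total up to `5/6 κ` -/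
theorem C5Q_corner (R : ExpRules (7 / 8 + d) r s) (Lv : ExpLv (7 / 8 + d) r) (hd : 0 ≤ d)
    {κ A m a : ℝ} {Q : Multiset ℝ} (hA : 4 * κ ≤ 27 * A) (hA' : 6 * A ≤ κ)
    (hQ : ∀ y ∈ Q, 0 ≤ y) (hQ' : 3 * Q.sum + 24 * A ≤ 4 * κ) (hm : 0 ≤ m) (ha : 0 ≤ a)
    (hN : 6 * (4 * A + Q.sum + m + a) ≤ 5 * κ) :
    ∀ κ' : ℝ, 0 ≤ κ' → κ' ≤ κ →
      r κ' (Multiset.replicate 4 A + Q) m a + (κ - κ') / 3 ≤
        κ + (4 * A + Q.sum + m + a) + d * κ := by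
  have hQ0 : 0 ≤ Q.sum := Multiset.sum_nonneg hQ
  have hA0 : 0 ≤ A := by linarith
  intro κ' h0 h1
  have := C5Q R Lv hd (κ := κ) (V := {A}) (Q := Q) (b₁ := A) (b₂ := A) (b₃ := A) (m := m) (a := a)
    (by intro y hy; rw [Multiset.mem_singleton.1 hy]; exact hA0)
    (by rw [Multiset.sum_singleton]; exact hA') hQ rfl (by linarith) le_rfl le_rfl (by linarith)
    (by linarith) (by linarith) (by linarith)
    (by
      rcases le_total (9 * A + 6 * Q.sum) (2 * κ) with h | h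
      · exact Or.inr h
      · exact Or.inl (by linarith))
    (by linarith) hm ha (by rw [Multiset.sum_singleton]; linarith) κ' h0 h1
  have e : ({A} + (Q + (A ::ₘ {A, A})) : Multiset ℝ) = Multiset.replicate 4 A + Q := by
    have : Multiset.replicate 4 A = {A} + (A ::ₘ {A, A}) := rfl
    rw [this]
    abel
  rw [e, Multiset.sum_singleton] at this
  linarith

end Crest.Agent.R017.C5_720
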