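import Crest.Agent.R017.C5_720

/-!
# Row 17, section D: C5 with the smallest lump replaced by any multiset `Q` (helper741, after 720)

`C5Q` : `X = V` any lumps of total `≤ κ/6`; `b₁ ≥ b₂ ≥ b₃ ≥ q = |Q|`, `Q` any lumps; the same linear
conditions as `C5_720.C5V` with `b₄ = q`.
-/

set_option autoImplicit false

noncomputable section

namespace Crest.Agent.R017.C5Q741

open Crest.Agent.R017.ER911 Crest.Agent.R017.SC777 Crest.Agent.R017.C5_720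

variable {d : ℝ} {r s : EF}

/-- remove a multiset of lumps pointwise -/
theorem supQ (R : ExpRules (7 / 8 + d) r s) {k m a : ℝ} {Y : Multiset ℝ} (Q : Multiset ℝ)
    (hk : 0 ≤ k) (hQ : ∀ y ∈ Q, 0 ≤ y) (hY : ∀ y ∈ Y, 0 ≤ y) (hm : 0 ≤ m) (ha : 0 ≤ a) :
    r k (Q + Y) m a ≤ (7 / 4 + 2 * d) * Q.sum + r k Y m a := by
  induction Q using Multiset.induction_on with
  | empty => simp
  | cons w Q ih =>
    have h1 := sup1 R hk (hQ w (by simp)) (Y := Q + Y) (fun y hy => by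
      rcases Multiset.mem_add.1 hy with h | h
      · exact hQ y (by simp [h])
      · exact hY y h) hm ha
    have h2 := ih fun y hy => hQ y (by simp [hy])
    rw [Multiset.cons_add, Multiset.sum_cons, mul_add]
    linarith

/-- every multiset is indexed -/
theorem exists_fin (Q : Multiset ℝ) : ∃ (n : ℕ) (f : Fin n → ℝ), Q = ∑ i, {f i} := by
  induction Q using Multiset.induction_on with
  | empty => exact ⟨0, Fin.elim0, by simp⟩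
  | cons w Q ih =>
    obtain ⟨n, f, rfl⟩ := ih
    exact ⟨n + 1, Fin.cons w f, by rw [Fin.sum_univ_succ]; simp⟩

theorem map_eq {n : ℕ} (f : Fin n → ℝ) : Finset.univ.val.map f = ∑ i, {f i} := by
  have h := Multiset.sum_map_singleton (Finset.univ.val.map f)
  rw [Multiset.map_map] at h
  exact h.symm

theorem sum_fin {n : ℕ} (f : Fin n → ℝ) : (∑ i, ({f i} : Multiset ℝ)).sum = ∑ i, f i := by
  rw [Multiset.sum_sum]
  simp

theorem mem_fin {n : ℕ} (f : Fin n → ℝ) {y : ℝ} (h : y ∈ ∑ i, ({f i} : Multiset ℝ)) :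
    ∃ i, y = f i := by
  obtain ⟨i, _, hi⟩ := Multiset.mem_sum.1 h
  exact ⟨i, Multiset.mem_singleton.1 hi⟩

/-- **the level rule with a block `Q`** of lumps used together (all of them or none) -/
theorem levQ {θ : ℝ} (Lv : ExpLv θ r) {Q : Multiset ℝ} {l₁ l₂ l₃ κ M A E : ℝ} (hκ : 0 ≤ κ)
    (hQ : ∀ y ∈ Q, 0 ≤ y ∧ y ≤ κ) (h1 : 0 ≤ l₁ ∧ l₁ ≤ κ) (h2 : 0 ≤ l₂ ∧ l₂ ≤ κ)
    (h3 : 0 ≤ l₃ ∧ l₃ ≤ κ) (hM : 0 ≤ M) (hA : 0 ≤ A)
    (H : ∀ (Q' : Multiset ℝ) (yq xq y₁ y₂ y₃ x₁ x₂ x₃ m a ω α : ℝ), (∀ y ∈ Q', 0 ≤ y ∧ y ≤ κ) →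
      Q'.sum = yq → 0 ≤ yq → yq ≤ Q.sum → 0 ≤ y₁ → y₁ ≤ l₁ → 0 ≤ y₂ → y₂ ≤ l₂ → 0 ≤ y₃ →
      y₃ ≤ l₃ → 0 ≤ m → m ≤ M → 0 ≤ a → a ≤ A → xq ≤ θ * yq → x₁ ≤ θ * y₁ → x₂ ≤ θ * y₂ →
      x₃ ≤ θ * y₃ → ω ≤ θ * m → α ≤ θ * a →
      (∃ (c n₁ n₂ n₃ : ℕ) (f g : ℝ), 0 ≤ f ∧ (m = 0 → f = 0) ∧ 0 ≤ g ∧ (a = 0 → g = 0) ∧
        LVok θ κ ((c * yq + (n₁ * y₁ + n₂ * y₂ + n₃ * y₃)) + f + g)
          ((c * xq + (n₁ * x₁ + n₂ * x₂ + n₃ * x₃)) + f * (ω / m) + g * (α / a)) ∧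
        2 * (((c * yq + (n₁ * y₁ + n₂ * y₂ + n₃ * y₃)) + f + g) -
            ((c * xq + (n₁ * x₁ + n₂ * x₂ + n₃ * x₃)) + f * (ω / m) + g * (α / a))) +
          2 * ((xq + (x₁ + x₂ + x₃)) + ω + α) ≤ E) ∨
      (∃ (c n₁ n₂ n₃ : ℕ) (f g : ℝ), 0 ≤ f ∧ (m = 0 → f = 0) ∧ 0 ≤ g ∧ (a = 0 → g = 0) ∧
        r κ (c • Q' + (Multiset.replicate n₁ y₁ + Multiset.replicate n₂ y₂ +
            Multiset.replicate n₃ y₃)) f g -
          2 * ((c * xq + (n₁ * x₁ + n₂ * x₂ + n₃ * x₃)) + f * (ω / m) + g * (α / a)) +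
          2 * ((xq + (x₁ + x₂ + x₃)) + ω + α) ≤ E) ∨
      κ + 2 * ((xq + (x₁ + x₂ + x₃)) + ω + α) ≤ E) :
    r κ (Q + (l₃ ::ₘ {l₁, l₂})) M A ≤ E := by
  obtain ⟨n, q, hq⟩ := exists_fin Q
  have e0 : Q + (l₃ ::ₘ {l₁, l₂}) = Finset.univ.val.map (Fin.append q ![l₁, l₂, l₃]) := by
    rw [map_eq, Fin.sum_univ_add, Fin.sum_univ_three, hq]
    simp only [Fin.append_left, Fin.append_right]
    congr 1
    simp only [Matrix.cons_val_zero, Matrix.cons_val_one, Matrix.cons_val,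
      Multiset.insert_eq_cons, ← Multiset.singleton_add]
    abel
  have hqm : ∀ i, q i ∈ Q := fun i => by
    rw [hq]
    exact Multiset.mem_sum.2 ⟨i, Finset.mem_univ i, Multiset.mem_singleton_self _⟩
  rw [e0]
  refine Lv.lev (n + 3) _ κ M A E hκ ?_ hM hA ?_
  · intro j
    refine Fin.addCases (fun i => ?_) (fun i => ?_) j
    · rw [Fin.append_left]; exact hQ _ (hqm i)
    · rw [Fin.append_right]
      fin_cases i
      · exact h1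
      · exact h2
      · exact h3
  intro y x m a ω α hy hm hmM ha haA hx hω hα
  have hyq : ∀ i : Fin n, 0 ≤ y (Fin.castAdd 3 i) ∧ y (Fin.castAdd 3 i) ≤ q i := fun i => by
    have := hy (Fin.castAdd 3 i)
    rwa [Fin.append_left] at this
  have hyr : ∀ i : Fin 3, 0 ≤ y (Fin.natAdd n i) ∧ y (Fin.natAdd n i) ≤ ![l₁, l₂, l₃] i :=
    fun i => by
      have := hy (Fin.natAdd n i)
      rwa [Fin.append_right] at this
  obtain ⟨y0n, y0l⟩ : 0 ≤ y (Fin.natAdd n 0) ∧ y (Fin.natAdd n 0) ≤ l₁ := hyr 0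
  obtain ⟨y1n, y1l⟩ : 0 ≤ y (Fin.natAdd n 1) ∧ y (Fin.natAdd n 1) ≤ l₂ := hyr 1
  obtain ⟨y2n, y2l⟩ : 0 ≤ y (Fin.natAdd n 2) ∧ y (Fin.natAdd n 2) ≤ l₃ := hyr 2
  have hsQ : Q.sum = ∑ i, q i := by rw [hq, sum_fin]
  have h := H (∑ i : Fin n, {y (Fin.castAdd 3 i)}) (∑ i : Fin n, y (Fin.castAdd 3 i))
    (∑ i : Fin n, x (Fin.castAdd 3 i)) (y (Fin.natAdd n 0)) (y (Fin.natAdd n 1))
    (y (Fin.natAdd n 2)) (x (Fin.natAdd n 0)) (x (Fin.natAdd n 1)) (x (Fin.natAdd n 2)) m a ω α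
    (fun z hz => by
      obtain ⟨i, rfl⟩ := mem_fin _ hz
      exact ⟨(hyq i).1, (hyq i).2.trans (hQ _ (hqm i)).2⟩)
    (sum_fin _) (Finset.sum_nonneg fun i _ => (hyq i).1)
    (by rw [hsQ]; exact Finset.sum_le_sum fun i _ => (hyq i).2) y0n y0l y1n y1l y2n y2l hm hmM ha
    haA (by rw [Finset.mul_sum]; exact Finset.sum_le_sum fun i _ => hx _) (hx _) (hx _) (hx _)
    hω hα
  have hsx : ∑ j, x j = (∑ i : Fin n, x (Fin.castAdd 3 i)) +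
      (x (Fin.natAdd n 0) + x (Fin.natAdd n 1) + x (Fin.natAdd n 2)) := by
    rw [Fin.sum_univ_add, Fin.sum_univ_three]
  have hmul : ∀ (c n₁ n₂ n₃ : ℕ) (z : Fin (n + 3) → ℝ),
      ∑ j, ((Fin.append (fun _ : Fin n => c) ![n₁, n₂, n₃] j : ℕ) : ℝ) * z j =
        c * (∑ i : Fin n, z (Fin.castAdd 3 i)) +
        (n₁ * z (Fin.natAdd n 0) + n₂ * z (Fin.natAdd n 1) + n₃ * z (Fin.natAdd n 2)) := by
    intro c n₁ n₂ n₃ z
    rw [Fin.sum_univ_add, Fin.sum_univ_three]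
    simp only [Fin.append_left, Fin.append_right, Finset.mul_sum]
    rfl
  have hrep : ∀ (c n₁ n₂ n₃ : ℕ),
      ∑ j, Multiset.replicate (Fin.append (fun _ : Fin n => c) ![n₁, n₂, n₃] j) (y j) =
        c • (∑ i : Fin n, ({y (Fin.castAdd 3 i)} : Multiset ℝ)) +
        (Multiset.replicate n₁ (y (Fin.natAdd n 0)) + Multiset.replicate n₂ (y (Fin.natAdd n 1)) +
          Multiset.replicate n₃ (y (Fin.natAdd n 2))) := by
    intro c n₁ n₂ n₃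
    rw [Fin.sum_univ_add, Fin.sum_univ_three, Finset.smul_sum]
    simp only [Fin.append_left, Fin.append_right, Multiset.nsmul_singleton]
    rfl
  rw [hsx]
  rcases h with ⟨c, n₁, n₂, n₃, f, g, h⟩ | ⟨c, n₁, n₂, n₃, f, g, h⟩ | h
  · refine Or.inl ⟨Fin.append (fun _ => c) ![n₁, n₂, n₃], f, g, ?_⟩
    rw [hmul, hmul]
    exact h
  · refine Or.inr (Or.inl ⟨Fin.append (fun _ => c) ![n₁, n₂, n₃], f, g, ?_⟩)
    rw [hmul, hrep]
    exact h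
  · exact Or.inr (Or.inr h)

/-! ### second moments with a block -/

theorem nn_add {Q Y : Multiset ℝ} (hQ : ∀ y ∈ Q, 0 ≤ y) (hY : ∀ y ∈ Y, 0 ≤ y) :
    ∀ y ∈ Q + Y, 0 ≤ y := fun y hy => (Multiset.mem_add.1 hy).elim (hQ y) (hY y)

/-- a block and two lumps, all granular mass in `X` (`C5_720.E30` with a block) -/
theorem E30Q (R : ExpRules (7 / 8 + d) r s) (hd : 0 ≤ d) {k ξ F u v U V W m a : ℝ}
    {Q : Multiset ℝ} (hk : 0 ≤ k) (hu : 0 ≤ u) (hv : 0 ≤ v) (hQ : ∀ y ∈ Q, 0 ≤ y) (huU : u ≤ U)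
    (hvV : v ≤ V) (hwW : Q.sum ≤ W)
    (hm : 0 ≤ m) (ha : 0 ≤ a) (hF : 0 ≤ F) (hg : m + a ≤ ξ) (h1 : 2 * ξ + (U + V + W) ≤ k + F)
    (h2 : 3 / 4 * W ≤ ξ + F) :
    r k (Q + {u, v}) m a ≤ k + (u + v + Q.sum) + (m + a) + F + 2 * d * W := by
  have hQ0 : 0 ≤ Q.sum := Multiset.sum_nonneg hQ
  have hW : 0 ≤ W := hQ0.trans hwW
  have hdW : 0 ≤ 2 * d * W := by positivity
  have C : ColX (7 / 8 + d) r k ξ (F + 2 * d * W) (Q + {u, v}) 0 0 := by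
    refine ⟨?_, ?_⟩
    · intro Z' m' a' i hZ' hm0 hm1 ha0 ha1 hi hyi hii
      obtain ⟨Q', P', rfl, hQ', hP'⟩ := hZ'.of_add
      obtain ⟨u', v', rfl, hu0, hu1, hv0, hv1⟩ := hP'.pair
      have em : m' = 0 := le_antisymm hm1 hm0
      have ea : a' = 0 := le_antisymm ha1 ha0
      subst em; subst ea
      have hui : u' ≤ i := hyi u' (by simp)
      have hvi : v' ≤ i := hyi v' (by simp)
      have hs := hQ'.sum_le
      have e1 := supQ R Q' hi hQ'.nonneg (nn_pair hu0 hv0) (le_refl (0 : ℝ)) (le_refl (0 : ℝ))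
      have e2 := R.tf i u' v' hu0 hv0 hui hvi
      have e3 : 2 * d * Q'.sum ≤ 2 * d * W :=
        mul_le_mul_of_nonneg_left (hs.trans hwW) (by linarith)
      rw [Multiset.sum_add, sum_pair]
      linarith
    · intro Z' m' a' hZ' hm0 hm1 ha0 ha1 _
      have := hZ'.sum_nonneg
      have em : m' = 0 := le_antisymm hm1 hm0
      have ea : a' = 0 := le_antisymm ha1 ha0
      subst em; subst ea
      linarith
  have := side_xi R (κ := k) (ξ := ξ) (m := 0) (b := m) (a := 0) (b' := a)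
    (F := F + 2 * d * W) (V := 0) (Z := Q + {u, v}) hk (by simp) (nn_add hQ (nn_pair hu hv)) le_rfl
    hm le_rfl ha (by linarith) (by simpa using hg) (by rw [Multiset.sum_add, sum_pair]; linarith)
    C k hk le_rfl
  rw [Multiset.sum_add, sum_pair] at this
  simp only [zero_add, Multiset.sum_zero] at this
  linarith

set_option maxHeartbeats 2000000 in
/-- the long columns `i` of `{b₁,b₂,b₃} Q | c`, `c + S = 2/3 κ` (`C5_720.lev4` with a block) -/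
theorem lev4Q (R : ExpRules (7 / 8 + d) r s) (Lv : ExpLv (7 / 8 + d) r) (hd : 0 ≤ d)
    {κ i c b₁ b₂ b₃ b₄ l₁ l₂ l₃ M A : ℝ} {Q : Multiset ℝ} (hi : 2 * i ≤ κ) (hi4 : κ ≤ 4 * i)
    (hb4 : 0 ≤ b₄)
    (h43 : b₄ ≤ b₃) (h32 : b₃ ≤ b₂) (h21 : b₂ ≤ b₁)
    (hAA : 4 * (b₁ + b₂) + 10 * b₃ + 9 * b₄ ≤ 4 * κ)
    (hBB : 18 * (b₁ + b₂) + 27 * b₃ + 45 * b₄ ≤ 16 * κ) (hEE : κ ≤ 2 * (b₂ + b₃) + 5 * b₄)
    (hiC : κ - 9 / 4 * b₃ - 3 / 2 * b₄ ≤ i)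
    (hc : c + (b₁ + b₂ + b₃ + b₄) = 2 / 3 * κ) (hl1 : 0 ≤ l₁) (hl1' : l₁ ≤ b₁) (hl2 : 0 ≤ l₂)
    (hl2' : l₂ ≤ b₂) (hl3 : 0 ≤ l₃) (hl3' : l₃ ≤ b₃) (hQ : ∀ y ∈ Q, 0 ≤ y) (hQ4 : Q.sum ≤ b₄)
    (hi1 : l₁ ≤ i) (hi2 : l₂ ≤ i) (hi3 : l₃ ≤ i) (hQi : ∀ y ∈ Q, y ≤ i) (hM : 0 ≤ M) (hA : 0 ≤ A)
    (hMA : M + A ≤ c) :
    r i (Q + (l₃ ::ₘ {l₁, l₂})) M A ≤
      i + (l₁ + l₂ + l₃ + Q.sum) + (M + A) + (κ / 2 - 2 / 3 * i) + d * κ := by
  have hi0 : 0 ≤ i := hl1.trans hi1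
  have hκ0 : 0 ≤ κ := by linarith
  have hdκ : 0 ≤ d * κ := mul_nonneg hd hκ0
  refine levQ Lv hi0 (fun y hy => ⟨hQ y hy, hQi y hy⟩) ⟨hl1, hi1⟩ ⟨hl2, hi2⟩ ⟨hl3, hi3⟩ hM hA ?_
  intro Q' y3 x3' y0 y1 y2 x0' x1' x2' m a ω α hQn hQs y3n y3l y0n y0l y1n y1l y2n y2l hm hmM ha
    haA x3 hx0 hx1 hx2 hω hα
  have y3l' : y3 ≤ b₄ := y3l.trans hQ4
  have hQn0 : ∀ y ∈ Q', 0 ≤ y := fun y hy => (hQn y hy).1
  have dy3 : d * y3 ≤ d * b₄ := mul_le_mul_of_nonneg_left (by linarith) hd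
  have db3 : 0 ≤ d * b₃ := mul_nonneg hd (by linarith)
  have db4 : 0 ≤ d * b₄ := mul_nonneg hd (by linarith)
  have db3κ : d * b₃ ≤ d * (κ / 4) := mul_le_mul_of_nonneg_left (by linarith) hd
  have db4κ : d * b₄ ≤ d * (κ / 4) := mul_le_mul_of_nonneg_left (by linarith) hd
  have r3 : (0 : ℕ) • Q' + (Multiset.replicate 1 y0 + Multiset.replicate 1 y1 +
      Multiset.replicate 1 y2) = y2 ::ₘ {y0, y1} := by
    simp only [zero_smul, zero_add, Multiset.replicate_one, Multiset.insert_eq_cons,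
      ← Multiset.singleton_add]
    abel
  have r2 : (1 : ℕ) • Q' + (Multiset.replicate 1 y0 + Multiset.replicate 1 y1 +
      Multiset.replicate 0 y2) = Q' + {y0, y1} := by
    simp only [one_smul, Multiset.replicate_one, Multiset.replicate_zero, add_zero,
      Multiset.insert_eq_cons, ← Multiset.singleton_add]
  have r1 : (1 : ℕ) • Q' + (Multiset.replicate 1 y0 + Multiset.replicate 0 y1 +
      Multiset.replicate 1 y2) = Q' + {y0, y2} := by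
    simp only [one_smul, Multiset.replicate_one, Multiset.replicate_zero, add_zero,
      Multiset.insert_eq_cons, ← Multiset.singleton_add]
  have r0 : (1 : ℕ) • Q' + (Multiset.replicate 0 y0 + Multiset.replicate 1 y1 +
      Multiset.replicate 1 y2) = Q' + {y1, y2} := by
    simp only [one_smul, Multiset.replicate_one, Multiset.replicate_zero, zero_add,
      Multiset.insert_eq_cons, ← Multiset.singleton_add]
  -- low density or no granular mass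
  have low : ω + α ≤ (m + a) * (1 / 2) → (∃ (c n₁ n₂ n₃ : ℕ) (f g : ℝ), 0 ≤ f ∧
        (m = 0 → f = 0) ∧ 0 ≤ g ∧ (a = 0 → g = 0) ∧
        r i (c • Q' + (Multiset.replicate n₁ y0 + Multiset.replicate n₂ y1 +
            Multiset.replicate n₃ y2)) f g -
          2 * ((c * x3' + (n₁ * x0' + n₂ * x1' + n₃ * x2')) + f * (ω / m) + g * (α / a)) +
          2 * ((x3' + (x0' + x1' + x2')) + ω + α) ≤
        i + (l₁ + l₂ + l₃ + Q.sum) + (M + A) + (κ / 2 - 2 / 3 * i) + d * κ) := by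
    intro hlow
    refine ⟨0, 1, 1, 1, 0, 0, le_rfl, fun _ => rfl, le_rfl, fun _ => rfl, ?_⟩
    have e := E30 R hd (k := i) (ξ := (i - b₁ - b₂ - b₃ / 4) / 3)
      (F := 3 / 4 * b₃ - (i - b₁ - b₂ - b₃ / 4) / 3) (U := b₁) (V := b₂) (W := b₃) (m := 0)
      (a := 0) hi0 y0n y1n y2n (by linarith) (by linarith) (by linarith) le_rfl le_rfl
      (by linarith) (by linarith) (by linarith) (by linarith)
    rw [r3]
    simp only [Nat.cast_one, Nat.cast_zero, one_mul, zero_mul, add_zero]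
    linarith
  rcases (add_nonneg hm ha).eq_or_lt with hz | hpos
  · have em : m = 0 := by linarith
    have ea : a = 0 := by linarith
    refine Or.inr (Or.inl (low ?_))
    rw [em] at hω
    rw [ea] at hα
    rw [em, ea]
    linarith
  obtain ⟨D, hD, hωα, hG⟩ := dens hm ha hω hα hpos
  obtain ⟨P, hP⟩ : ∃ P, P = 2 * D - 1 := ⟨_, rfl⟩
  have hDP : D = (1 + P) / 2 := by linarith
  subst hDP
  rcases le_total P 0 with hP0 | hP0
  · refine Or.inr (Or.inl (low ?_))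
    have : (m + a) * P ≤ 0 := mul_nonpos_of_nonneg_of_nonpos hpos.le hP0
    linarith
  have hmaP : (m + a) * P ≤ c * P := mul_le_mul_of_nonneg_right (by linarith) hP0
  -- the four moments
  obtain ⟨G3, hG3⟩ : ∃ G, G = (i - b₁ - b₂ - b₃ / 4) / 3 := ⟨_, rfl⟩
  obtain ⟨G2, hG2⟩ : ∃ G, G = (i - b₁ - b₂ - b₄ / 4) / 3 := ⟨_, rfl⟩
  obtain ⟨G1, hG1⟩ : ∃ G, G = (i - b₁ - b₃ - b₄ / 4) / 3 := ⟨_, rfl⟩
  obtain ⟨G0, hG0⟩ : ∃ G, G = (i - b₂ - b₃ - b₄ / 4) / 3 := ⟨_, rfl⟩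
  by_cases c3 : (2 * x3' - y3) + (c - G3) * P + (3 / 4 * b₃ - G3) + 2 * d * b₃ ≤
      (κ / 2 - 2 / 3 * i) + d * κ
  · obtain ⟨f, g, hf, hmf, hg, hag, hfg, hlev⟩ := hG G3 (by linarith)
    refine Or.inr (Or.inl ⟨0, 1, 1, 1, f, g, hf, hmf, hg, hag, ?_⟩)
    have e := E30 R hd (k := i) (ξ := G3) (F := 3 / 4 * b₃ - G3) (U := b₁) (V := b₂) (W := b₃)
      (m := f) (a := g) hi0 y0n y1n y2n (by linarith) (by linarith) (by linarith) hf hg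
      (by linarith) (by linarith) (by linarith) (by linarith)
    rw [r3]
    simp only [Nat.cast_one, Nat.cast_zero, one_mul, zero_mul, add_zero]
    linarith
  by_cases c2 : (2 * x2' - y2) + (c - G2) * P + (3 / 4 * b₄ - G2) + 2 * d * b₄ ≤
      (κ / 2 - 2 / 3 * i) + d * κ
  · obtain ⟨f, g, hf, hmf, hg, hag, hfg, hlev⟩ := hG G2 (by linarith)
    refine Or.inr (Or.inl ⟨1, 1, 1, 0, f, g, hf, hmf, hg, hag, ?_⟩)
    have e := E30Q R hd (k := i) (ξ := G2) (F := 3 / 4 * b₄ - G2) (U := b₁) (V := b₂) (W := b₄)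
      (m := f) (a := g) hi0 y0n y1n hQn0 (by linarith) (by linarith) (by linarith) hf hg
      (by linarith) (by linarith) (by linarith) (by linarith)
    rw [r2]
    simp only [Nat.cast_one, Nat.cast_zero, one_mul, zero_mul, add_zero]
    linarith
  by_cases c1 : (2 * x1' - y1) + (c - G1) * P + (3 / 4 * b₄ - G1) + 2 * d * b₄ ≤
      (κ / 2 - 2 / 3 * i) + d * κ
  · obtain ⟨f, g, hf, hmf, hg, hag, hfg, hlev⟩ := hG G1 (by linarith)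
    refine Or.inr (Or.inl ⟨1, 1, 0, 1, f, g, hf, hmf, hg, hag, ?_⟩)
    have e := E30Q R hd (k := i) (ξ := G1) (F := 3 / 4 * b₄ - G1) (U := b₁) (V := b₃) (W := b₄)
      (m := f) (a := g) hi0 y0n y2n hQn0 (by linarith) (by linarith) (by linarith) hf hg
      (by linarith) (by linarith) (by linarith) (by linarith)
    rw [r1]
    simp only [Nat.cast_one, Nat.cast_zero, one_mul, zero_mul, add_zero]
    linarith
  by_cases c0 : (2 * x0' - y0) + (c - G0) * P + (3 / 4 * b₄ - G0) + 2 * d * b₄ ≤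
      (κ / 2 - 2 / 3 * i) + d * κ
  · obtain ⟨f, g, hf, hmf, hg, hag, hfg, hlev⟩ := hG G0 (by linarith)
    refine Or.inr (Or.inl ⟨1, 0, 1, 1, f, g, hf, hmf, hg, hag, ?_⟩)
    have e := E30Q R hd (k := i) (ξ := G0) (F := 3 / 4 * b₄ - G0) (U := b₂) (V := b₃) (W := b₄)
      (m := f) (a := g) hi0 y1n y2n hQn0 (by linarith) (by linarith) (by linarith) hf hg
      (by linarith) (by linarith) (by linarith) (by linarith)
    rw [r0]
    simp only [Nat.cast_one, Nat.cast_zero, one_mul, zero_mul, add_zero, zero_add]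
    linarith
  push Not at c0 c1 c2 c3
  -- Halász–Montgomery
  refine Or.inl ?_
  have hSP : (y0 + y1 + y2 + y3) * P ≤ (b₁ + b₂ + b₃ + b₄) * P :=
    mul_le_mul_of_nonneg_right (by linarith) hP0
  by_cases hv : 8 / 9 * i - P * (4 / 3 * i - (y0 + y1 + y2 + y3)) ≤
      2 * (x0' + x1' + x2' + x3') - (y0 + y1 + y2 + y3)
  · -- all lumps
    obtain ⟨f, g, hf, hmf, hg, hag, hfg, hlev⟩ := hG (4 / 3 * i - (y0 + y1 + y2 + y3))
      (by linarith)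
    have hdi : d * (κ / 2 - i) ≤ d * (κ / 4) := mul_le_mul_of_nonneg_left (by linarith) hd
    have hPP : P * (4 / 3 * (κ / 2 - i)) ≤ (3 / 4 + 2 * d) * (4 / 3 * (κ / 2 - i)) :=
      mul_le_mul_of_nonneg_right (by linarith) (by linarith)
    have hcP : c * P = (2 / 3 * κ - (b₁ + b₂ + b₃ + b₄)) * P := by rw [← hc]; ring
    refine ⟨1, 1, 1, 1, f, g, hf, hmf, hg, hag, ?_, ?_⟩
    · refine Or.inl ⟨?_, ?_⟩
      · simp only [Nat.cast_one, one_mul]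
        linarith
      · simp only [Nat.cast_one, one_mul]
        rw [add_assoc (x3' + (x0' + x1' + x2')), hlev]
        linarith
    · simp only [Nat.cast_one, one_mul]
      linarith
  push Not at hv
  have hcP : c * P = (2 / 3 * κ - (b₁ + b₂ + b₃ + b₄)) * P := by rw [← hc]; ring
  rcases le_total P (2 / 3) with hP2 | hP2
  · -- impossible
    exfalso
    have q0 : 0 ≤ 2 * κ - 20 / 9 * i - (b₁ + b₂ + b₃ + b₄) - 1 / 2 * (b₃ + 3 * b₄) := by linarith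
    have q1 : 0 ≤ 2 / 9 * κ - 4 / 9 * i + 1 / 3 * ((b₁ + b₂ + b₃ + b₄) - (b₃ + 3 * b₄)) := by
      linarith
    have m0 := mul_nonneg (by linarith : 0 ≤ 1 - 3 / 2 * P) q0
    have m1 := mul_nonneg hP0 q1
    have e3 : G3 * P = (i - b₁ - b₂ - b₃ / 4) / 3 * P := by rw [hG3]
    have e2 : G2 * P = (i - b₁ - b₂ - b₄ / 4) / 3 * P := by rw [hG2]
    have e1 : G1 * P = (i - b₁ - b₃ - b₄ / 4) / 3 * P := by rw [hG1]
    have e0 : G0 * P = (i - b₂ - b₃ - b₄ / 4) / 3 * P := by rw [hG0]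
    linarith
  · -- granular mass alone
    obtain ⟨f, g, hf, hmf, hg, hag, hfg, hlev⟩ := hG (4 / 3 * i) (by linarith)
    have hiP : i * (2 / 3) ≤ i * P := mul_le_mul_of_nonneg_left hP2 hi0
    have hκP : (8 / 3 * i - 2 / 3 * κ) * (2 / 3) ≤ (8 / 3 * i - 2 / 3 * κ) * P :=
      mul_le_mul_of_nonneg_left hP2 (by linarith)
    refine ⟨0, 0, 0, 0, f, g, hf, hmf, hg, hag, ?_, ?_⟩
    · refine Or.inl ⟨?_, ?_⟩
      · simp only [Nat.cast_zero, zero_mul]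
        linarith
      · simp only [Nat.cast_zero, zero_mul]
        linarith
    · simp only [Nat.cast_zero, zero_mul]
      linarith

/-! ### the side theorem -/

/-- the columns of `{b₁,b₂,b₃} Q | m, a` -/
theorem col4Q (R : ExpRules (7 / 8 + d) r s) (Lv : ExpLv (7 / 8 + d) r) (hd : 0 ≤ d)
    {κ b₁ b₂ b₃ b₄ m a : ℝ} {Q : Multiset ℝ} (hQ : ∀ y ∈ Q, 0 ≤ y) (hq : Q.sum = b₄)
    (h43 : b₄ ≤ b₃) (h32 : b₃ ≤ b₂) (h21 : b₂ ≤ b₁)
    (h12 : κ ≤ 4 * (b₁ + b₂)) (hAA : 4 * (b₁ + b₂) + 10 * b₃ + 9 * b₄ ≤ 4 * κ)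
    (hBB : 18 * (b₁ + b₂) + 27 * b₃ + 45 * b₄ ≤ 16 * κ)
    (hCC : 8 * (b₁ + b₂) + 11 * b₃ + 12 * b₄ ≤ 6 * κ)
    (hEE : κ ≤ 2 * (b₂ + b₃) + 5 * b₄ ∨ 9 * b₃ + 6 * b₄ ≤ 2 * κ)
    (hw : (b₁ + b₂ + b₃ + b₄) + (m + a) ≤ 2 / 3 * κ) :
    ColX (7 / 8 + d) r κ (κ / 6) (d * κ) (Q + (b₃ ::ₘ {b₁, b₂})) m a := by
  have hb4 : 0 ≤ b₄ := by rw [← hq]; exact Multiset.sum_nonneg hQ
  have hκ0 : 0 ≤ κ := by linarith
  obtain ⟨c, hc⟩ : ∃ c, c = 2 / 3 * κ - (b₁ + b₂ + b₃ + b₄) := ⟨_, rfl⟩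
  have hloss : ∀ z : ℝ, z ≤ 5 / 12 * κ → 2 * d * z ≤ d * κ := by
    intro z hz
    have h1 := mul_le_mul_of_nonneg_left hz (by linarith : 0 ≤ 2 * d)
    have h2 : 0 ≤ d * κ := mul_nonneg hd hκ0
    linarith
  refine ⟨?_, ?_⟩
  · intro Z' m' a' i hZ' hm0 hm1 ha0 ha1 hi hyi hii
    obtain ⟨Q', Z₁, rfl, hQ', hZ1⟩ := hZ'.of_add
    obtain ⟨l₃, Z₂, rfl, hl3, hl3', hZ2⟩ := hZ1.of_cons
    obtain ⟨l₁, l₂, rfl, hl1, hl1', hl2, hl2'⟩ := hZ2.pair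
    have hQn := hQ'.nonneg
    have hQs := hQ'.sum_le
    rw [hq] at hQs
    have hi1 : l₁ ≤ i := hyi l₁ (by simp)
    have hi2 : l₂ ≤ i := hyi l₂ (by simp)
    have hi3 : l₃ ≤ i := hyi l₃ (by simp)
    have hQi : ∀ y ∈ Q', y ≤ i := fun y hy => hyi y (by simp [hy])
    obtain ⟨l₄, hl4e⟩ : ∃ l, l = Q'.sum := ⟨_, rfl⟩
    have hl4 : 0 ≤ l₄ := by rw [hl4e]; exact Multiset.sum_nonneg hQn
    have hl4' : l₄ ≤ b₄ := by rw [hl4e]; exact hQs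
    have hsum : (Q' + (l₃ ::ₘ {l₁, l₂}) : Multiset ℝ).sum = l₁ + l₂ + l₃ + l₄ := by
      rw [Multiset.sum_add, sum_tri, hl4e]; ring
    rw [hsum]
    have s4 := supQ R Q' hi hQn (nn_tri hl1 hl2 hl3) hm0 ha0
    rw [← hl4e] at s4
    have s3 := sup1 R hi hl3 (nn_pair hl1 hl2) hm0 ha0 (d := d) (k := i)
    have hL1 := hloss (l₃ + l₄ + (m' + a')) (by linarith)
    rcases le_total 0 (c - 7 / 9 * (i - (b₁ + b₂))) with hA | hA
    · have e2 := E2 R hd hi hl1 hl2 hl1' hl2' hi1 hi2 hm0 ha0 (by linarith) hA (by linarith)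
      linarith
    rcases le_total i (3 / 4 * κ - 9 / 8 * (b₃ + b₄)) with hB | hB
    · have e2 := E2 R hd hi hl1 hl2 hl1' hl2' hi1 hi2 hm0 ha0 (by linarith) (le_refl (0 : ℝ))
        (by linarith)
      linarith
    have hlow : i ≤ κ - 9 / 4 * b₃ - 3 / 2 * b₄ →
        r i (Q' + (l₃ ::ₘ {l₁, l₂})) m' a' ≤
          l₁ + l₂ + l₃ + l₄ + m' + a' + (2 * κ + i) / 3 - κ / 6 + d * κ := by
      intro hC
      obtain ⟨F, hF⟩ : ∃ F, F = max ((b₁ + b₂ + 7 / 4 * b₃ + c - i) / 2)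
        (3 / 4 * (b₃ + c) - 7 / 12 * (i - (b₁ + b₂))) := ⟨_, rfl⟩
      have hF1 : (b₁ + b₂ + 7 / 4 * b₃ + c - i) / 2 ≤ F := by rw [hF]; exact le_max_left _ _
      have hF2 : 3 / 4 * (b₃ + c) - 7 / 12 * (i - (b₁ + b₂)) ≤ F := by
        rw [hF]; exact le_max_right _ _
      have hF3 : F ≤ 3 / 4 * b₃ := by
        rw [hF]; exact max_le (by linarith) (by linarith)
      have hF4 : 3 / 4 * b₄ + F ≤ κ / 2 - 2 / 3 * i := by
        have : F ≤ κ / 2 - 2 / 3 * i - 3 / 4 * b₄ := by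
          rw [hF]; exact max_le (by linarith) (by linarith)
        linarith
      have hL2 := hloss (l₄ + (b₃ + c)) (by linarith)
      have e3 := E3g R hd (k := i) (ξ := 3 / 4 * b₃ - F) (F := F) (G := c) (U := b₁) (V := b₂)
        (W := b₃) hi hl1 hl2 hl3 hl1' hl2' hl3' hm0 ha0 (by linarith) (by linarith)
        (by linarith) (by linarith) (by linarith) (by linarith) (by linarith) (by linarith)
        (by linarith)
      linarith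
    rcases le_total i (κ - 9 / 4 * b₃ - 3 / 2 * b₄) with hC | hC
    · exact hlow hC
    · rcases hEE with hEE | hEE
      swap
      · exact hlow (by linarith)
      have e := lev4Q R Lv hd (κ := κ) (i := i) (c := c) (M := m') (A := a') (by linarith)
        (by linarith) hb4 h43 h32 h21 hAA hBB hEE hC (by linarith) hl1 hl1' hl2 hl2' hl3 hl3' hQn
        hQs hi1 hi2 hi3 hQi hm0 ha0 (by linarith)
      rw [← hl4e] at e
      linarith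
  · intro Z' m' a' hZ' hm0 hm1 ha0 ha1 _
    have := hZ'.sum_nonneg
    have hL := hloss m' (by linarith)
    linarith

/-- **(C5Q)**, `X = V` any lumps of total `≤ κ/6`, three lumps `b₁ ≥ b₂ ≥ b₃` and a block `Q` of
any lumps of total `q ≤ b₃` -/
theorem C5Q (R : ExpRules (7 / 8 + d) r s) (Lv : ExpLv (7 / 8 + d) r) (hd : 0 ≤ d)
    {κ b₁ b₂ b₃ q m a : ℝ} {V Q : Multiset ℝ} (hV : ∀ y ∈ V, 0 ≤ y) (hV' : 6 * V.sum ≤ κ)
    (hQ : ∀ y ∈ Q, 0 ≤ y) (hq : Q.sum = q)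
    (h43 : q ≤ b₃) (h32 : b₃ ≤ b₂) (h21 : b₂ ≤ b₁) (h12 : κ ≤ 4 * (b₁ + b₂))
    (hAA : 4 * (b₁ + b₂) + 10 * b₃ + 9 * q ≤ 4 * κ)
    (hBB : 18 * (b₁ + b₂) + 27 * b₃ + 45 * q ≤ 16 * κ)
    (hCC : 8 * (b₁ + b₂) + 11 * b₃ + 12 * q ≤ 6 * κ)
    (hEE : κ ≤ 2 * (b₂ + b₃) + 5 * q ∨ 9 * b₃ + 6 * q ≤ 2 * κ)
    (hS : 3 * (b₁ + b₂ + b₃ + q) ≤ 2 * κ) (hm : 0 ≤ m) (ha : 0 ≤ a)
    (hN : 6 * (V.sum + (b₁ + b₂ + b₃ + q) + m + a) ≤ 5 * κ) :
    ∀ κ' : ℝ, 0 ≤ κ' → κ' ≤ κ →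
      r κ' (V + (Q + (b₃ ::ₘ {b₁, b₂}))) m a + (κ - κ') / 3 ≤
        κ + (V.sum + (b₁ + b₂ + b₃ + q) + m + a) + d * κ := by
  have hq0 : 0 ≤ q := by rw [← hq]; exact Multiset.sum_nonneg hQ
  have hV0 : 0 ≤ V.sum := Multiset.sum_nonneg hV
  have hκ0 : 0 ≤ κ := by linarith
  have hdκ : 0 ≤ d * κ := mul_nonneg hd hκ0
  obtain ⟨b, b', hb0, hbm, hb0', hbm', hbb, hbb'⟩ : ∃ b b' : ℝ, 0 ≤ b ∧ b ≤ m ∧ 0 ≤ b' ∧
      b' ≤ a ∧ b + b' ≤ κ / 6 - V.sum ∧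
      (b₁ + b₂ + b₃ + q) + ((m - b) + (a - b')) ≤ 2 / 3 * κ := by
    rcases le_total (κ / 6 - V.sum) m with h | h
    · exact ⟨κ / 6 - V.sum, 0, by linarith, h, le_rfl, ha, by linarith, by linarith⟩
    · rcases le_total (κ / 6 - V.sum) (m + a) with h' | h'
      · exact ⟨m, κ / 6 - V.sum - m, hm, le_rfl, by linarith, by linarith, by linarith,
          by linarith⟩
      · exact ⟨m, a, hm, le_rfl, ha, le_rfl, by linarith, by linarith⟩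
  have hsum : (Q + (b₃ ::ₘ {b₁, b₂}) : Multiset ℝ).sum = b₁ + b₂ + b₃ + q := by
    rw [Multiset.sum_add, sum_tri, hq]; ring
  have C := col4Q R Lv hd (κ := κ) (m := m - b) (a := a - b') hQ hq h43 h32 h21 h12 hAA
    hBB hCC hEE hbb'
  have key := side_xi R (κ := κ) (ξ := κ / 6) (m := m - b) (b := b) (a := a - b') (b' := b')
    (F := d * κ) (V := V) (Z := Q + (b₃ ::ₘ {b₁, b₂})) hκ0 hV
    (nn_add hQ (nn_tri (by linarith) (by linarith) (by linarith)))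
    (by linarith) hb0 (by linarith) hb0' hdκ
    (by linarith) (by rw [hsum]; linarith) C
  intro κ' h0 h1
  have := key κ' h0 h1
  rw [hsum, sub_add_cancel, sub_add_cancel] at this
  linarith

/-- **(C5Q)**, total form: `27 (b₁ + b₂ + b₃ + q) ≤ 16 κ` -/
theorem C5Q' (R : ExpRules (7 / 8 + d) r s) (Lv : ExpLv (7 / 8 + d) r) (hd : 0 ≤ d)
    {κ b₁ b₂ b₃ q m a : ℝ} {V Q : Multiset ℝ} (hV : ∀ y ∈ V, 0 ≤ y) (hV' : 6 * V.sum ≤ κ)
    (hQ : ∀ y ∈ Q, 0 ≤ y) (hq : Q.sum = q)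
    (h43 : q ≤ b₃) (h32 : b₃ ≤ b₂) (h21 : b₂ ≤ b₁) (h12 : κ ≤ 4 * (b₁ + b₂))
    (hS : 27 * (b₁ + b₂ + b₃ + q) ≤ 16 * κ) (hm : 0 ≤ m) (ha : 0 ≤ a)
    (hN : 6 * (V.sum + (b₁ + b₂ + b₃ + q) + m + a) ≤ 5 * κ) :
    ∀ κ' : ℝ, 0 ≤ κ' → κ' ≤ κ →
      r κ' (V + (Q + (b₃ ::ₘ {b₁, b₂}))) m a + (κ - κ') / 3 ≤
        κ + (V.sum + (b₁ + b₂ + b₃ + q) + m + a) + d * κ := by
  have hq0 : 0 ≤ q := by rw [← hq]; exact Multiset.sum_nonneg hQ
  refine C5Q R Lv hd hV hV' hQ hq h43 h32 h21 h12 (by linarith) (by linarith) (by linarith) ?_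
    (by linarith) hm ha hN
  rcases le_total (9 * b₃ + 6 * q) (2 * κ) with h | h
  · exact Or.inr h
  · exact Or.inl (by linarith)

end Crest.Agent.R017.C5Q741
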