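import Crest.Agent.R017.C5Q_720

/-!
# Row 17, section D: five lumps, second range (helper720)

`C5bQ` : lumps `X = V`, `|V| ≤ 3/20 κ`, and `4/25 κ ≥ b₁ ≥ b₂ ≥ b₃ ≥ b₄ = |Q|` (`Q` any lumps),
`b₁ + b₂ ≥ κ/4`, `b₁ + b₂ + b₃ + b₄ ≤ 3/5 κ`, total `≤ 5/6 κ` : ideal up to `d κ`
(`θ = 7/8 + d`).
-/

set_option autoImplicit false

noncomputable section

namespace Crest.Agent.R017.C5_720

open Crest.Agent.R017.ER911 Crest.Agent.R017.SC777

variable {d : ℝ} {r s : EF}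

set_option maxHeartbeats 4000000 in
/-- the long columns `i` of `{b₁,b₂,b₃,Q | c}`, `c + S = 41/60 κ` -/
theorem lev4b (R : ExpRules (7 / 8 + d) r s) (Lv : ExpLv (7 / 8 + d) r) (hd : 0 ≤ d)
    {κ i c b₁ b₂ b₃ b₄ l₁ l₂ l₃ M A : ℝ} {Q : Multiset ℝ} (hi : 20 * i ≤ 11 * κ) (hb4 : 0 ≤ b₄)
    (h43 : b₄ ≤ b₃) (h32 : b₃ ≤ b₂) (h21 : b₂ ≤ b₁) (hb1 : 25 * b₁ ≤ 4 * κ)
    (hS : 5 * (b₁ + b₂ + b₃ + b₄) ≤ 3 * κ)
    (hiC : 21 / 20 * κ - 9 / 4 * b₃ - 3 / 2 * b₄ ≤ i)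
    (hc : c + (b₁ + b₂ + b₃ + b₄) = 41 / 60 * κ) (hl1 : 0 ≤ l₁) (hl1' : l₁ ≤ b₁) (hl2 : 0 ≤ l₂)
    (hl2' : l₂ ≤ b₂) (hl3 : 0 ≤ l₃) (hl3' : l₃ ≤ b₃) (hQ : ∀ y ∈ Q, 0 ≤ y)
    (hQi : ∀ y ∈ Q, y ≤ i) (hl4' : Q.sum ≤ b₄)
    (hi1 : l₁ ≤ i) (hi2 : l₂ ≤ i) (hi3 : l₃ ≤ i) (hM : 0 ≤ M) (hA : 0 ≤ A)
    (hMA : M + A ≤ c) :
    r i (l₁ ::ₘ l₂ ::ₘ l₃ ::ₘ Q) M A ≤
      i + (l₁ + l₂ + l₃ + Q.sum) + (M + A) + (31 / 60 * κ - 2 / 3 * i) + d * κ := by
  have hi0 : 0 ≤ i := hl1.trans hi1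
  have hκ0 : 0 ≤ κ := by linarith
  have hdκ : 0 ≤ d * κ := mul_nonneg hd hκ0
  refine levQ Lv hi0 hl1 hi1 hl2 hi2 hl3 hi3 (fun y hy => ⟨hQ y hy, hQi y hy⟩) hM hA ?_
  intro y x Q' m a ω α ⟨y0n, y0l⟩ ⟨y1n, y1l⟩ ⟨y2n, y2l⟩ hQ' hyQ hm hmM ha haA hx hω hα
  obtain ⟨l₄, hl₄⟩ : ∃ l₄, l₄ = Q.sum := ⟨_, rfl⟩
  rw [← hl₄] at hl4' ⊢
  have y3n : 0 ≤ y 3 := by rw [hyQ]; exact hQ'.sum_nonneg
  have y3l : y 3 ≤ l₄ := by rw [hyQ, hl₄]; exact hQ'.sum_le
  have hQn := hQ'.nonneg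
  have hl4 : 0 ≤ l₄ := y3n.trans y3l
  have x0 := hx 0
  have x1 := hx 1
  have x2 := hx 2
  have x3 := hx 3
  have dy0 : d * y 0 ≤ d * b₁ := mul_le_mul_of_nonneg_left (by linarith) hd
  have dy1 : d * y 1 ≤ d * b₂ := mul_le_mul_of_nonneg_left (by linarith) hd
  have dy2 : d * y 2 ≤ d * b₃ := mul_le_mul_of_nonneg_left (by linarith) hd
  have dy3 : d * y 3 ≤ d * b₄ := mul_le_mul_of_nonneg_left (by linarith) hd
  have db1 : d * b₁ ≤ d * (4 / 25 * κ) := mul_le_mul_of_nonneg_left (by linarith) hd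
  have db2 : d * b₂ ≤ d * (4 / 25 * κ) := mul_le_mul_of_nonneg_left (by linarith) hd
  have db3 : d * b₃ ≤ d * (4 / 25 * κ) := mul_le_mul_of_nonneg_left (by linarith) hd
  have db4 : d * b₄ ≤ d * (4 / 25 * κ) := mul_le_mul_of_nonneg_left (by linarith) hd
  have db4n : 0 ≤ d * b₄ := mul_nonneg hd hb4
  have db3n : 0 ≤ d * b₃ := mul_nonneg hd (by linarith)
  -- the four moments
  obtain ⟨G3, hG3⟩ : ∃ G, G = (i - b₁ - b₂ - b₃ / 4) / 3 := ⟨_, rfl⟩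
  obtain ⟨G2, hG2⟩ : ∃ G, G = (i - b₁ - b₂ - b₄ / 4) / 3 := ⟨_, rfl⟩
  obtain ⟨G1, hG1⟩ : ∃ G, G = (i - b₁ - b₃ - b₄ / 4) / 3 := ⟨_, rfl⟩
  obtain ⟨G0, hG0⟩ : ∃ G, G = (i - b₂ - b₃ - b₄ / 4) / 3 := ⟨_, rfl⟩
  obtain ⟨T, hT⟩ : ∃ T, T = 31 / 60 * κ - 2 / 3 * i := ⟨_, rfl⟩
  rw [← hT]
  have g3p : 0 ≤ G3 := by linarith
  have g2p : 0 ≤ G2 := by linarith
  have g1p : 0 ≤ G1 := by linarith
  have g0p : 0 ≤ G0 := by linarith
  have k3 : 2 / 3 * b₄ ≤ T - 3 / 4 * b₃ + G3 := by linarith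
  have k2 : 2 / 3 * b₃ ≤ T - 3 / 4 * b₄ + G2 := by linarith
  have k1 : 2 / 3 * b₂ ≤ T - 3 / 4 * b₄ + G1 := by linarith
  have k0 : 2 / 3 * b₁ ≤ T - 3 / 4 * b₄ + G0 := by linarith
  -- low density or no granular mass
  have low : 2 * (ω + α) ≤ m + a →
      (∃ (n : Fin 4 → ℕ) (f g : ℝ), 0 ≤ f ∧ (m = 0 → f = 0) ∧ 0 ≤ g ∧ (a = 0 → g = 0) ∧
        LVok (7 / 8 + d) i ((∑ j, (n j : ℝ) * y j) + f + g)
          ((∑ j, (n j : ℝ) * x j) + f * (ω / m) + g * (α / a)) ∧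
        2 * (((∑ j, (n j : ℝ) * y j) + f + g) -
            ((∑ j, (n j : ℝ) * x j) + f * (ω / m) + g * (α / a))) +
          2 * ((∑ j, x j) + ω + α) ≤ i + (l₁ + l₂ + l₃ + l₄) + (M + A) + T + d * κ) ∨
      (∃ (n : Fin 4 → ℕ) (f g : ℝ), 0 ≤ f ∧ (m = 0 → f = 0) ∧ 0 ≤ g ∧ (a = 0 → g = 0) ∧
        r i (Multiset.replicate (n 0) (y 0) + (Multiset.replicate (n 1) (y 1) +
          (Multiset.replicate (n 2) (y 2) + n 3 • Q'))) f g -
          2 * ((∑ j, (n j : ℝ) * x j) + f * (ω / m) + g * (α / a)) +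
          2 * ((∑ j, x j) + ω + α) ≤ i + (l₁ + l₂ + l₃ + l₄) + (M + A) + T + d * κ) := by
    intro hlow
    by_cases c3 : (2 * x 3 - y 3) + (3 / 4 * b₃ - G3) + 2 * d * b₃ ≤ T + d * κ
    · refine Or.inr ⟨![1, 1, 1, 0], 0, 0, le_rfl, fun _ => rfl, le_rfl, fun _ => rfl, ?_⟩
      have e := E30 R hd (k := i) (ξ := G3) (F := 3 / 4 * b₃ - G3) (U := b₁) (V := b₂) (W := b₃)
        (m := 0) (a := 0) hi0 y0n y1n y2n (by linarith) (by linarith) (by linarith) le_rfl le_rfl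
        (by linarith) (by linarith) (by linarith) (by linarith)
      rw [rq3]
      simp only [Fin.sum_univ_four, Matrix.cons_val_zero, Matrix.cons_val_one, Matrix.cons_val,
        Nat.cast_one, Nat.cast_zero, one_mul, zero_mul, add_zero]
      linarith
    by_cases c2 : (2 * x 2 - y 2) + (3 / 4 * b₄ - G2) + 2 * d * b₄ ≤ T + d * κ
    · refine Or.inr ⟨![1, 1, 0, 1], 0, 0, le_rfl, fun _ => rfl, le_rfl, fun _ => rfl, ?_⟩
      have e := E30Q R hd (k := i) (ξ := G2) (F := 3 / 4 * b₄ - G2) (U := b₁) (V := b₂) (W := b₄)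
        (m := 0) (a := 0) hi0 y0n y1n hQn (by linarith) (by linarith) (by linarith) le_rfl le_rfl
        (by linarith) (by linarith) (by linarith) (by linarith)
      rw [rq2]
      simp only [Fin.sum_univ_four, Matrix.cons_val_zero, Matrix.cons_val_one, Matrix.cons_val,
        Nat.cast_one, Nat.cast_zero, one_mul, zero_mul, add_zero]
      linarith
    by_cases c1 : (2 * x 1 - y 1) + (3 / 4 * b₄ - G1) + 2 * d * b₄ ≤ T + d * κ
    · refine Or.inr ⟨![1, 0, 1, 1], 0, 0, le_rfl, fun _ => rfl, le_rfl, fun _ => rfl, ?_⟩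
      have e := E30Q R hd (k := i) (ξ := G1) (F := 3 / 4 * b₄ - G1) (U := b₁) (V := b₃) (W := b₄)
        (m := 0) (a := 0) hi0 y0n y2n hQn (by linarith) (by linarith) (by linarith) le_rfl le_rfl
        (by linarith) (by linarith) (by linarith) (by linarith)
      rw [rq1]
      simp only [Fin.sum_univ_four, Matrix.cons_val_zero, Matrix.cons_val_one, Matrix.cons_val,
        Nat.cast_one, Nat.cast_zero, one_mul, zero_mul, add_zero]
      linarith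
    by_cases c0 : (2 * x 0 - y 0) + (3 / 4 * b₄ - G0) + 2 * d * b₄ ≤ T + d * κ
    · refine Or.inr ⟨![0, 1, 1, 1], 0, 0, le_rfl, fun _ => rfl, le_rfl, fun _ => rfl, ?_⟩
      have e := E30Q R hd (k := i) (ξ := G0) (F := 3 / 4 * b₄ - G0) (U := b₂) (V := b₃) (W := b₄)
        (m := 0) (a := 0) hi0 y1n y2n hQn (by linarith) (by linarith) (by linarith) le_rfl le_rfl
        (by linarith) (by linarith) (by linarith) (by linarith)
      rw [rq0]
      simp only [Fin.sum_univ_four, Matrix.cons_val_zero, Matrix.cons_val_one, Matrix.cons_val,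
        Nat.cast_one, Nat.cast_zero, one_mul, zero_mul, add_zero]
      linarith
    push Not at c0 c1 c2 c3
    refine Or.inl ?_
    by_cases hp : 4 / 3 * i ≤ (y 0 + y 1 + y 2 + y 3) + y 3
    · refine ⟨![1, 1, 1, 2], 0, 0, le_rfl, fun _ => rfl, le_rfl, fun _ => rfl, ?_, ?_⟩
      · refine Or.inl ⟨?_, ?_⟩
        · simp only [Fin.sum_univ_four, Matrix.cons_val_zero, Matrix.cons_val_one,
            Matrix.cons_val, Nat.cast_one, Nat.cast_ofNat, one_mul]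
          linarith
        · simp only [Fin.sum_univ_four, Matrix.cons_val_zero, Matrix.cons_val_one,
            Matrix.cons_val, Nat.cast_one, Nat.cast_ofNat, one_mul]
          linarith
      · simp only [Fin.sum_univ_four, Matrix.cons_val_zero, Matrix.cons_val_one,
          Matrix.cons_val, Nat.cast_one, Nat.cast_ofNat, one_mul]
        linarith
    · push Not at hp
      refine ⟨![1, 1, 1, 3], 0, 0, le_rfl, fun _ => rfl, le_rfl, fun _ => rfl, ?_, ?_⟩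
      · refine Or.inl ⟨?_, ?_⟩
        · simp only [Fin.sum_univ_four, Matrix.cons_val_zero, Matrix.cons_val_one,
            Matrix.cons_val, Nat.cast_one, Nat.cast_ofNat, one_mul]
          linarith
        · simp only [Fin.sum_univ_four, Matrix.cons_val_zero, Matrix.cons_val_one,
            Matrix.cons_val, Nat.cast_one, Nat.cast_ofNat, one_mul]
          linarith
      · simp only [Fin.sum_univ_four, Matrix.cons_val_zero, Matrix.cons_val_one,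
          Matrix.cons_val, Nat.cast_one, Nat.cast_ofNat, one_mul]
        linarith
  rcases (add_nonneg hm ha).eq_or_lt with hz | hpos
  · have em : m = 0 := by linarith
    have ea : a = 0 := by linarith
    refine low ?_
    rw [em] at hω
    rw [ea] at hα
    rw [em, ea]
    linarith
  obtain ⟨D, hD, hωα, hG⟩ := dens hm ha hω hα hpos
  obtain ⟨P, hP⟩ : ∃ P, P = 2 * D - 1 := ⟨_, rfl⟩
  have hDP : D = (1 + P) / 2 := by linarith
  subst hDP
  rcases le_total P 0 with hP0 | hP0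
  · refine low ?_
    have : (m + a) * P ≤ 0 := mul_nonpos_of_nonneg_of_nonpos hpos.le hP0
    linarith
  clear low
  have hmaP : (m + a) * P ≤ c * P := mul_le_mul_of_nonneg_right (by linarith) hP0
  by_cases c3 : (2 * x 3 - y 3) + (c - G3) * P + (3 / 4 * b₃ - G3) + 2 * d * b₃ ≤ T + d * κ
  · obtain ⟨f, g, hf, hmf, hg, hag, hfg, hlev⟩ := hG G3 g3p
    refine Or.inr ⟨![1, 1, 1, 0], f, g, hf, hmf, hg, hag, ?_⟩
    have e := E30 R hd (k := i) (ξ := G3) (F := 3 / 4 * b₃ - G3) (U := b₁) (V := b₂) (W := b₃)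
      (m := f) (a := g) hi0 y0n y1n y2n (by linarith) (by linarith) (by linarith) hf hg
      (by linarith) (by linarith) (by linarith) (by linarith)
    rw [rq3]
    simp only [Fin.sum_univ_four, Matrix.cons_val_zero, Matrix.cons_val_one, Matrix.cons_val,
      Nat.cast_one, Nat.cast_zero, one_mul, zero_mul, add_zero]
    linarith
  by_cases c2 : (2 * x 2 - y 2) + (c - G2) * P + (3 / 4 * b₄ - G2) + 2 * d * b₄ ≤ T + d * κ
  · obtain ⟨f, g, hf, hmf, hg, hag, hfg, hlev⟩ := hG G2 g2p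
    refine Or.inr ⟨![1, 1, 0, 1], f, g, hf, hmf, hg, hag, ?_⟩
    have e := E30Q R hd (k := i) (ξ := G2) (F := 3 / 4 * b₄ - G2) (U := b₁) (V := b₂) (W := b₄)
      (m := f) (a := g) hi0 y0n y1n hQn (by linarith) (by linarith) (by linarith) hf hg
      (by linarith) (by linarith) (by linarith) (by linarith)
    rw [rq2]
    simp only [Fin.sum_univ_four, Matrix.cons_val_zero, Matrix.cons_val_one, Matrix.cons_val,
      Nat.cast_one, Nat.cast_zero, one_mul, zero_mul, add_zero]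
    linarith
  by_cases c1 : (2 * x 1 - y 1) + (c - G1) * P + (3 / 4 * b₄ - G1) + 2 * d * b₄ ≤ T + d * κ
  · obtain ⟨f, g, hf, hmf, hg, hag, hfg, hlev⟩ := hG G1 g1p
    refine Or.inr ⟨![1, 0, 1, 1], f, g, hf, hmf, hg, hag, ?_⟩
    have e := E30Q R hd (k := i) (ξ := G1) (F := 3 / 4 * b₄ - G1) (U := b₁) (V := b₃) (W := b₄)
      (m := f) (a := g) hi0 y0n y2n hQn (by linarith) (by linarith) (by linarith) hf hg
      (by linarith) (by linarith) (by linarith) (by linarith)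
    rw [rq1]
    simp only [Fin.sum_univ_four, Matrix.cons_val_zero, Matrix.cons_val_one, Matrix.cons_val,
      Nat.cast_one, Nat.cast_zero, one_mul, zero_mul, add_zero]
    linarith
  by_cases c0 : (2 * x 0 - y 0) + (c - G0) * P + (3 / 4 * b₄ - G0) + 2 * d * b₄ ≤ T + d * κ
  · obtain ⟨f, g, hf, hmf, hg, hag, hfg, hlev⟩ := hG G0 g0p
    refine Or.inr ⟨![0, 1, 1, 1], f, g, hf, hmf, hg, hag, ?_⟩
    have e := E30Q R hd (k := i) (ξ := G0) (F := 3 / 4 * b₄ - G0) (U := b₂) (V := b₃) (W := b₄)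
      (m := f) (a := g) hi0 y1n y2n hQn (by linarith) (by linarith) (by linarith) hf hg
      (by linarith) (by linarith) (by linarith) (by linarith)
    rw [rq0]
    simp only [Fin.sum_univ_four, Matrix.cons_val_zero, Matrix.cons_val_one, Matrix.cons_val,
      Nat.cast_one, Nat.cast_zero, one_mul, zero_mul]
    linarith
  obtain ⟨H, hH⟩ : ∃ H, H = (i - b₁ - b₂) / 3 + b₃ / 2 := ⟨_, rfl⟩
  obtain ⟨F1, hF1⟩ : ∃ F, F = (b₁ + b₂ - i) / 3 + 9 / 8 * b₃ := ⟨_, rfl⟩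
  by_cases e3 : (2 * x 3 - y 3) + (c - H) * P + F1 + 2 * d * (b₃ + H) ≤ T + d * κ
  · obtain ⟨f, g, hf, hmf, hg, hag, hfg, hlev⟩ := hG H (by linarith)
    refine Or.inr ⟨![1, 1, 1, 0], f, g, hf, hmf, hg, hag, ?_⟩
    have e := E3g R hd (k := i) (ξ := (i - b₁ - b₂) / 3 - 3 / 8 * b₃) (F := F1) (G := H)
      (U := b₁) (V := b₂) (W := b₃) (m := f) (a := g) hi0 y0n y1n y2n (by linarith)
      (by linarith) (by linarith) hf hg (by linarith) (by linarith) (by linarith) hfg.le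
      (by linarith) (by linarith) (by linarith) (by linarith) (by linarith)
    rw [rq3]
    simp only [Fin.sum_univ_four, Matrix.cons_val_zero, Matrix.cons_val_one, Matrix.cons_val,
      Nat.cast_one, Nat.cast_zero, one_mul, zero_mul, add_zero]
    linarith
  push Not at c0 c1 c2 c3 e3
  refine Or.inl ?_
  have hYP : (y 0 + y 1 + y 2 + y 3) * P ≤ (b₁ + b₂ + b₃ + b₄) * P :=
    mul_le_mul_of_nonneg_right (by linarith) hP0
  have hy3P : (y 3) * P ≤ b₄ * P := mul_le_mul_of_nonneg_right (by linarith) hP0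
  have hcP : c * P = (41 / 60 * κ - (b₁ + b₂ + b₃ + b₄)) * P := by rw [← hc]; ring
  have eG3 : G3 * P = (i - b₁ - b₂ - b₃ / 4) / 3 * P := by rw [hG3]
  have eG2 : G2 * P = (i - b₁ - b₂ - b₄ / 4) / 3 * P := by rw [hG2]
  have eG1 : G1 * P = (i - b₁ - b₃ - b₄ / 4) / 3 * P := by rw [hG1]
  have eG0 : G0 * P = (i - b₂ - b₃ - b₄ / 4) / 3 * P := by rw [hG0]
  have eH : H * P = ((i - b₁ - b₂) / 3 + b₃ / 2) * P := by rw [hH]
  by_cases hE : i ≤ 31 / 60 * κ ∨ i - 31 / 60 * κ + (41 / 60 * κ - 4 / 3 * i) * P ≤ 0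
  · -- all four lumps
    have hclose : i - 31 / 60 * κ + (41 / 60 * κ - 4 / 3 * i) * P ≤ d * κ := by
      rcases hE with hE | hE
      · rcases le_total 0 (41 / 60 * κ - 4 / 3 * i) with h | h
        · have h1 : (41 / 60 * κ - 4 / 3 * i) * P ≤ (41 / 60 * κ - 4 / 3 * i) * (3 / 4 + 2 * d) :=
            mul_le_mul_of_nonneg_left (by linarith) h
          have h2 : d * (41 / 60 * κ - 4 / 3 * i) ≤ d * (κ / 4) :=
            mul_le_mul_of_nonneg_left (by linarith) hd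
          linarith
        · have h1 : (41 / 60 * κ - 4 / 3 * i) * P ≤ 0 := mul_nonpos_of_nonpos_of_nonneg h hP0
          linarith
      · linarith
    by_cases hv : 8 / 9 * i - P * (4 / 3 * i - (y 0 + y 1 + y 2 + y 3)) ≤
        2 * (x 0 + x 1 + x 2 + x 3) - (y 0 + y 1 + y 2 + y 3)
    · obtain ⟨f, g, hf, hmf, hg, hag, hfg, hlev⟩ := hG (4 / 3 * i - (y 0 + y 1 + y 2 + y 3))
        (by linarith)
      refine ⟨![1, 1, 1, 1], f, g, hf, hmf, hg, hag, ?_, ?_⟩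
      · refine Or.inl ⟨?_, ?_⟩
        · simp only [Fin.sum_univ_four, Matrix.cons_val_zero, Matrix.cons_val_one,
            Matrix.cons_val, Nat.cast_one, one_mul]
          linarith
        · simp only [Fin.sum_univ_four, Matrix.cons_val_zero, Matrix.cons_val_one,
            Matrix.cons_val, Nat.cast_one, one_mul]
          rw [add_assoc (x 0 + x 1 + x 2 + x 3), hlev]
          linarith
      · simp only [Fin.sum_univ_four, Matrix.cons_val_zero, Matrix.cons_val_one,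
          Matrix.cons_val, Nat.cast_one, one_mul]
        linarith
    push Not at hv
    rcases le_total P (2 / 3) with hP2 | hP2
    · exfalso
      rcases hE with hE | hE
      · have q0 : 0 ≤ 31 / 15 * κ - 20 / 9 * i - (b₁ + b₂ + b₃ + b₄) - 1 / 2 * (b₃ + 3 * b₄) := by
          linarith
        have q1 : 0 ≤ 11 / 45 * κ - 4 / 9 * i +
            1 / 3 * ((b₁ + b₂ + b₃ + b₄) - (b₃ + 3 * b₄)) := by linarith
        have m0 := mul_nonneg (by linarith : 0 ≤ 1 - 3 / 2 * P) q0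
        have m1 := mul_nonneg hP0 q1
        linarith
      · have q0 : 0 ≤ 31 / 15 * κ - 20 / 9 * i - (b₁ + b₂ + b₃ + b₄) -
            1 / 2 * (b₃ + 3 * b₄) + 5 / 3 * (i - 31 / 60 * κ) := by linarith
        have q1 : 0 ≤ 11 / 45 * κ - 4 / 9 * i +
            1 / 3 * ((b₁ + b₂ + b₃ + b₄) - (b₃ + 3 * b₄)) +
            5 / 3 * (i / 9 - 11 / 180 * κ) := by linarith
        have m0 := mul_nonneg (by linarith : 0 ≤ 1 - 3 / 2 * P) q0
        have m1 := mul_nonneg hP0 q1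
        linarith
    · -- granular mass alone
      obtain ⟨f, g, hf, hmf, hg, hag, hfg, hlev⟩ := hG (4 / 3 * i) (by linarith)
      have hiP : i * (2 / 3) ≤ i * P := mul_le_mul_of_nonneg_left hP2 hi0
      have hκP : (8 / 3 * i - 41 / 60 * κ) * (2 / 3) ≤ (8 / 3 * i - 41 / 60 * κ) * P :=
        mul_le_mul_of_nonneg_left hP2 (by linarith)
      refine ⟨![0, 0, 0, 0], f, g, hf, hmf, hg, hag, ?_, ?_⟩
      · refine Or.inl ⟨?_, ?_⟩
        · simp only [Fin.sum_univ_four, Matrix.cons_val_zero, Matrix.cons_val_one,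
            Matrix.cons_val, Nat.cast_zero, zero_mul]
          linarith
        · simp only [Fin.sum_univ_four, Matrix.cons_val_zero, Matrix.cons_val_one,
            Matrix.cons_val, Nat.cast_zero, zero_mul]
          linarith
      · simp only [Fin.sum_univ_four, Matrix.cons_val_zero, Matrix.cons_val_one,
          Matrix.cons_val, Nat.cast_zero, zero_mul]
        linarith
  push Not at hE
  obtain ⟨hE1, hE2⟩ := hE
  have hk : 0 ≤ 4 / 3 * i - 41 / 60 * κ := by linarith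
  have hP2 : P ≤ 2 / 3 := by
    by_contra h
    push Not at h
    have := mul_nonneg hk (by linarith : 0 ≤ P - 2 / 3)
    linarith
  have K0 : 0 ≤ (4 * T - 3 / 4 * (b₃ + 3 * b₄) + (G0 + G1 + G2 + G3)) + (T - 3 / 4 * b₃ + G3) -
      2 / 3 * ((b₁ + b₂ + b₃ + b₄) + b₄) := by linarith
  have K1 : 0 ≤ (4 * T - 3 / 4 * (b₃ + 3 * b₄) + (G0 + G1 + G2 + G3)) + (T - 3 / 4 * b₃ + G3) -
      2 / 3 * (5 * c - (G0 + G1 + G2 + G3) - G3) -
      2 / 3 * ((b₁ + b₂ + b₃ + b₄) + b₄) := by linarith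
  have mK1 := mul_nonneg hP0 K1
  have hPc : P ≤ 1 / 2 ∨ (1 / 2 ≤ P ∧ 21 / 40 * κ ≤ i) := by
    rcases le_total P (1 / 2) with h | h
    · exact Or.inl h
    · have := mul_nonneg hk (by linarith : 0 ≤ P - 1 / 2)
      exact Or.inr ⟨h, by linarith⟩
  have hdH : d * (b₃ + H) ≤ d * (κ / 2) := mul_le_mul_of_nonneg_left (by linarith) hd
  by_cases hp : 4 / 3 * i ≤ (y 0 + y 1 + y 2 + y 3) + y 3
  · have mK0 := mul_nonneg (by linarith : 0 ≤ 1 - 3 / 2 * P) K0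
    refine ⟨![1, 1, 1, 2], 0, 0, le_rfl, fun _ => rfl, le_rfl, fun _ => rfl, ?_, ?_⟩
    · refine Or.inl ⟨?_, ?_⟩
      · simp only [Fin.sum_univ_four, Matrix.cons_val_zero, Matrix.cons_val_one,
          Matrix.cons_val, Nat.cast_one, Nat.cast_ofNat, one_mul]
        linarith
      · simp only [Fin.sum_univ_four, Matrix.cons_val_zero, Matrix.cons_val_one,
          Matrix.cons_val, Nat.cast_one, Nat.cast_ofNat, one_mul]
        linarith
    · simp only [Fin.sum_univ_four, Matrix.cons_val_zero, Matrix.cons_val_one,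
        Matrix.cons_val, Nat.cast_one, Nat.cast_ofNat, one_mul]
      rcases hPc with hPh | ⟨hPh, hi2⟩
      · have p0 : 0 ≤ 2 * T + i - 3 / 4 * b₃ + G3 - (b₁ + b₂ + b₃ + b₄) - b₄ := by linarith
        have p1 : 0 ≤ 2 * T + i - 3 / 4 * b₃ + G3 - (b₁ + b₂ + b₃ + b₄) - b₄ +
            (G3 - 2 * c) / 2 := by linarith
        have m0 := mul_nonneg (by linarith : 0 ≤ 1 - 2 * P) p0
        have m1 := mul_nonneg hP0 p1
        linarith
      · have p0 : 0 ≤ 2 * T + i - F1 - (b₁ + b₂ + b₃ + b₄) - b₄ + (H - 2 * c) / 2 -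
            1 / 2 * (i / 3 - 7 / 40 * κ) := by linarith
        have p1 : 0 ≤ 2 * T + i - F1 - (b₁ + b₂ + b₃ + b₄) - b₄ + 2 / 3 * (H - 2 * c) -
            1 / 2 * (i / 9 - 11 / 180 * κ) := by linarith
        have m0 := mul_nonneg (by linarith : 0 ≤ 4 - 6 * P) p0
        have m1 := mul_nonneg (by linarith : 0 ≤ 6 * P - 3) p1
        linarith
  · push Not at hp
    obtain ⟨f, g, hf, hmf, hg, hag, hfg, hlev⟩ :=
      hG (4 / 3 * i - (y 0 + y 1 + y 2 + y 3) - y 3) (by linarith)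
    refine ⟨![1, 1, 1, 2], f, g, hf, hmf, hg, hag, ?_, ?_⟩
    · refine Or.inl ⟨?_, ?_⟩
      · simp only [Fin.sum_univ_four, Matrix.cons_val_zero, Matrix.cons_val_one,
          Matrix.cons_val, Nat.cast_one, Nat.cast_ofNat, one_mul]
        linarith
      · simp only [Fin.sum_univ_four, Matrix.cons_val_zero, Matrix.cons_val_one,
          Matrix.cons_val, Nat.cast_one, Nat.cast_ofNat, one_mul]
        have n1 : 0 ≤ (4 * T - 3 / 4 * (b₃ + 3 * b₄) + (G0 + G1 + G2 + G3)) +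
            (T - 3 / 4 * b₃ + G3) - 8 / 9 * i := by linarith
        have m0 := mul_nonneg (by linarith : 0 ≤ 1 - 3 / 2 * P) n1
        linarith
    · simp only [Fin.sum_univ_four, Matrix.cons_val_zero, Matrix.cons_val_one,
        Matrix.cons_val, Nat.cast_one, Nat.cast_ofNat, one_mul]
      rcases hPc with hPh | ⟨hPh, hi2⟩
      · have p0 : 0 ≤ 2 * T - i / 3 - 3 / 4 * b₃ + G3 := by linarith
        have p1 : 0 ≤ 2 * T - i / 3 - 3 / 4 * b₃ + G3 +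
            (G3 - 2 * c - (b₁ + b₂ + b₃ + b₄) - b₄ + 4 / 3 * i) / 2 := by linarith
        have m0 := mul_nonneg (by linarith : 0 ≤ 1 - 2 * P) p0
        have m1 := mul_nonneg hP0 p1
        linarith
      · have p0 : 0 ≤ 2 * T - i / 3 - F1 +
            (H - 2 * c - (b₁ + b₂ + b₃ + b₄) - b₄ + 4 / 3 * i) / 2 := by linarith
        have p1 : 0 ≤ 2 * T - i / 3 - F1 +
            2 / 3 * (H - 2 * c - (b₁ + b₂ + b₃ + b₄) - b₄ + 4 / 3 * i) := by linarith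
        have m0 := mul_nonneg (by linarith : 0 ≤ 4 - 6 * P) p0
        have m1 := mul_nonneg (by linarith : 0 ≤ 6 * P - 3) p1
        linarith

/-! ### the side theorem -/

/-- the columns of `{b₁,b₂,b₃,Q | m, a}` -/
theorem col4b (R : ExpRules (7 / 8 + d) r s) (Lv : ExpLv (7 / 8 + d) r) (hd : 0 ≤ d)
    {κ b₁ b₂ b₃ b₄ m a : ℝ} {Q : Multiset ℝ} (hQ : Q.sum ≤ b₄) (hb4 : 0 ≤ b₄)
    (h43 : b₄ ≤ b₃) (h32 : b₃ ≤ b₂) (h21 : b₂ ≤ b₁)
    (h12 : κ ≤ 4 * (b₁ + b₂)) (hb1 : 25 * b₁ ≤ 4 * κ)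
    (hS : 5 * (b₁ + b₂ + b₃ + b₄) ≤ 3 * κ)
    (hw : (b₁ + b₂ + b₃ + b₄) + (m + a) ≤ 41 / 60 * κ) :
    ColX (7 / 8 + d) r κ (3 / 20 * κ) (d * κ) (Q + (b₃ ::ₘ {b₁, b₂})) m a := by
  have hκ0 : 0 ≤ κ := by linarith
  obtain ⟨c, hc⟩ : ∃ c, c = 41 / 60 * κ - (b₁ + b₂ + b₃ + b₄) := ⟨_, rfl⟩
  have hloss : ∀ z : ℝ, z ≤ κ / 2 → 2 * d * z ≤ d * κ := by
    intro z hz
    have h1 := mul_le_mul_of_nonneg_left hz (by linarith : 0 ≤ 2 * d)
    have h2 : 0 ≤ d * κ := mul_nonneg hd hκ0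
    linarith
  refine ⟨?_, ?_⟩
  · intro Z' m' a' i hZ' hm0 hm1 ha0 ha1 hi hyi hii
    obtain ⟨Q', Z₁, rfl, hQ', hZ1⟩ := hZ'.of_add
    have hQn := hQ'.nonneg
    have hQs := hQ'.sum_le
    obtain ⟨l₄, hl₄⟩ : ∃ l₄, l₄ = Q'.sum := ⟨_, rfl⟩
    have hl4 : 0 ≤ l₄ := by rw [hl₄]; exact hQ'.sum_nonneg
    have hl4' : l₄ ≤ b₄ := by rw [hl₄]; linarith
    obtain ⟨l₃, Z₂, rfl, hl3, hl3', hZ2⟩ := hZ1.of_cons
    obtain ⟨l₁, l₂, rfl, hl1, hl1', hl2, hl2'⟩ := hZ2.pair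
    have hi1 : l₁ ≤ i := hyi l₁ (by simp)
    have hi2 : l₂ ≤ i := hyi l₂ (by simp)
    have hi3 : l₃ ≤ i := hyi l₃ (by simp)
    have hQi : ∀ y ∈ Q', y ≤ i := fun y hy => hyi y (by simp [hy])
    have hsum : (Q' + (l₃ ::ₘ {l₁, l₂}) : Multiset ℝ).sum = l₁ + l₂ + l₃ + l₄ := by
      rw [Multiset.sum_add, sum_tri, hl₄]; ring
    rw [hsum]
    have s4 := supQ R hi hQn (nn_tri hl1 hl2 hl3) hm0 ha0 (d := d) (k := i)
    rw [← hl₄] at s4
    have s3 := sup1 R hi hl3 (nn_pair hl1 hl2) hm0 ha0 (d := d) (k := i)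
    have hL1 := hloss (l₃ + l₄ + (m' + a')) (by linarith)
    rcases le_total 0 (c - 7 / 9 * (i - (b₁ + b₂))) with hA | hA
    · have e2 := E2 R hd hi hl1 hl2 hl1' hl2' hi1 hi2 hm0 ha0 (by linarith) hA (by linarith)
      linarith
    rcases le_total i (31 / 40 * κ - 9 / 8 * (b₃ + b₄)) with hB | hB
    · have e2 := E2 R hd hi hl1 hl2 hl1' hl2' hi1 hi2 hm0 ha0 (by linarith) (le_refl (0 : ℝ))
        (by linarith)
      linarith
    rcases le_total i (21 / 20 * κ - 9 / 4 * b₃ - 3 / 2 * b₄) with hC | hC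
    · obtain ⟨F, hF⟩ : ∃ F, F = max ((b₁ + b₂ + 7 / 4 * b₃ + c - i) / 2)
        (3 / 4 * (b₃ + c) - 7 / 12 * (i - (b₁ + b₂))) := ⟨_, rfl⟩
      have hF1 : (b₁ + b₂ + 7 / 4 * b₃ + c - i) / 2 ≤ F := by rw [hF]; exact le_max_left _ _
      have hF2 : 3 / 4 * (b₃ + c) - 7 / 12 * (i - (b₁ + b₂)) ≤ F := by
        rw [hF]; exact le_max_right _ _
      have hF3 : F ≤ 3 / 4 * b₃ := by
        rw [hF]; exact max_le (by linarith) (by linarith)
      have hF4 : 3 / 4 * b₄ + F ≤ 31 / 60 * κ - 2 / 3 * i := by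
        have : F ≤ 31 / 60 * κ - 2 / 3 * i - 3 / 4 * b₄ := by
          rw [hF]; exact max_le (by linarith) (by linarith)
        linarith
      have hL2 := hloss (l₄ + (b₃ + c)) (by linarith)
      have e3 := E3g R hd (k := i) (ξ := 3 / 4 * b₃ - F) (F := F) (G := c) (U := b₁) (V := b₂)
        (W := b₃) hi hl1 hl2 hl3 hl1' hl2' hl3' hm0 ha0 (by linarith) (by linarith)
        (by linarith) (by linarith) (by linarith) (by linarith) (by linarith) (by linarith)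
        (by linarith)
      linarith
    · have e := lev4b R Lv hd (κ := κ) (i := i) (c := c) (M := m') (A := a') (by linarith)
        hb4 h43 h32 h21 hb1 hS hC (by linarith) hl1 hl1' hl2 hl2' hl3 hl3' hQn
        hQi (by linarith) hi1 hi2 hi3 hm0 ha0 (by linarith)
      rw [cons3, ← hl₄] at e
      linarith
  · intro Z' m' a' hZ' hm0 hm1 ha0 ha1 _
    have := hZ'.sum_nonneg
    have hL := hloss m' (by linarith)
    linarith

/-- **(C5b)**, `X = V` any lumps of total `≤ 3/20 κ`, `Z = {b₁, b₂, b₃} + Q`, `Q` any lumps of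
total `b₄`, `b₁ + b₂ + b₃ + b₄ ≤ 3/5 κ` -/
theorem C5bQ (R : ExpRules (7 / 8 + d) r s) (Lv : ExpLv (7 / 8 + d) r) (hd : 0 ≤ d)
    {κ b₁ b₂ b₃ b₄ m a : ℝ} {V Q : Multiset ℝ} (hV : ∀ y ∈ V, 0 ≤ y) (hV' : 20 * V.sum ≤ 3 * κ)
    (hQ : ∀ y ∈ Q, 0 ≤ y) (hQ' : Q.sum = b₄)
    (h43 : b₄ ≤ b₃) (h32 : b₃ ≤ b₂) (h21 : b₂ ≤ b₁) (h12 : κ ≤ 4 * (b₁ + b₂))
    (hb1 : 25 * b₁ ≤ 4 * κ) (hS : 5 * (b₁ + b₂ + b₃ + b₄) ≤ 3 * κ) (hm : 0 ≤ m) (ha : 0 ≤ a)
    (hN : 6 * (V.sum + (b₁ + b₂ + b₃ + b₄) + m + a) ≤ 5 * κ) :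
    ∀ κ' : ℝ, 0 ≤ κ' → κ' ≤ κ →
      r κ' (V + (Q + (b₃ ::ₘ {b₁, b₂}))) m a + (κ - κ') / 3 ≤
        κ + (V.sum + (b₁ + b₂ + b₃ + b₄) + m + a) + d * κ := by
  have hV0 : 0 ≤ V.sum := Multiset.sum_nonneg hV
  have hb4 : 0 ≤ b₄ := by rw [← hQ']; exact Multiset.sum_nonneg hQ
  have hκ0 : 0 ≤ κ := by linarith
  have hdκ : 0 ≤ d * κ := mul_nonneg hd hκ0
  obtain ⟨b, b', hb0, hbm, hb0', hbm', hbb, hbb'⟩ : ∃ b b' : ℝ, 0 ≤ b ∧ b ≤ m ∧ 0 ≤ b' ∧
      b' ≤ a ∧ b + b' ≤ 3 / 20 * κ - V.sum ∧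
      (b₁ + b₂ + b₃ + b₄) + ((m - b) + (a - b')) ≤ 41 / 60 * κ := by
    rcases le_total (3 / 20 * κ - V.sum) m with h | h
    · exact ⟨3 / 20 * κ - V.sum, 0, by linarith, h, le_rfl, ha, by linarith, by linarith⟩
    · rcases le_total (3 / 20 * κ - V.sum) (m + a) with h' | h'
      · exact ⟨m, 3 / 20 * κ - V.sum - m, hm, le_rfl, by linarith, by linarith, by linarith,
          by linarith⟩
      · exact ⟨m, a, hm, le_rfl, ha, le_rfl, by linarith, by linarith⟩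
  have hsum : (Q + (b₃ ::ₘ {b₁, b₂}) : Multiset ℝ).sum = b₁ + b₂ + b₃ + b₄ := by
    rw [Multiset.sum_add, sum_tri, hQ']; ring
  have C := col4b R Lv hd (κ := κ) (m := m - b) (a := a - b') hQ'.le hb4 h43 h32 h21 h12 hb1
    hS hbb'
  have key := side_xi R (κ := κ) (ξ := 3 / 20 * κ) (m := m - b) (b := b) (a := a - b') (b' := b')
    (F := d * κ) (V := V) (Z := Q + (b₃ ::ₘ {b₁, b₂})) hκ0 hV
    (by
      intro y hy
      rcases Multiset.mem_add.1 hy with h | h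
      · exact hQ y h
      · exact nn_tri (by linarith) (by linarith) (by linarith) y h)
    (by linarith) hb0 (by linarith) hb0' hdκ
    (by linarith) (by rw [hsum]; linarith) C
  intro κ' h0 h1
  have := key κ' h0 h1
  rw [hsum, sub_add_cancel, sub_add_cancel] at this
  linarith

/-- **(C5b)** with a single lump `b₄` -/
theorem C5b (R : ExpRules (7 / 8 + d) r s) (Lv : ExpLv (7 / 8 + d) r) (hd : 0 ≤ d)
    {κ b₁ b₂ b₃ b₄ m a : ℝ} {V : Multiset ℝ} (hV : ∀ y ∈ V, 0 ≤ y) (hV' : 20 * V.sum ≤ 3 * κ)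
    (hb4 : 0 ≤ b₄) (h43 : b₄ ≤ b₃) (h32 : b₃ ≤ b₂) (h21 : b₂ ≤ b₁) (h12 : κ ≤ 4 * (b₁ + b₂))
    (hb1 : 25 * b₁ ≤ 4 * κ) (hS : 5 * (b₁ + b₂ + b₃ + b₄) ≤ 3 * κ) (hm : 0 ≤ m) (ha : 0 ≤ a)
    (hN : 6 * (V.sum + (b₁ + b₂ + b₃ + b₄) + m + a) ≤ 5 * κ) :
    ∀ κ' : ℝ, 0 ≤ κ' → κ' ≤ κ →
      r κ' (V + (b₄ ::ₘ b₃ ::ₘ {b₁, b₂})) m a + (κ - κ') / 3 ≤
        κ + (V.sum + (b₁ + b₂ + b₃ + b₄) + m + a) + d * κ :=
  C5bQ R Lv hd (Q := {b₄}) hV hV' (by
    intro y hy; rw [Multiset.mem_singleton.1 hy]; exact hb4) (Multiset.sum_singleton b₄) h43 h32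
    h21 h12 hb1 hS hm ha hN

/-- `(C5b)` for a multiset `W` of four lumps at most `4/25 κ`, two of them of sum `≥ κ/4`,
`|W| ≤ 3/5 κ` -/
theorem C5b_W (R : ExpRules (7 / 8 + d) r s) (Lv : ExpLv (7 / 8 + d) r) (hd : 0 ≤ d)
    {κ m a : ℝ} {V W : Multiset ℝ} (hV : ∀ y ∈ V, 0 ≤ y) (hV' : 20 * V.sum ≤ 3 * κ)
    (hc : Multiset.card W = 4) (hW : ∀ y ∈ W, 0 ≤ y) (hW' : ∀ y ∈ W, 25 * y ≤ 4 * κ)
    (h12 : ∃ x y : ℝ, x ∈ W ∧ y ∈ W.erase x ∧ κ ≤ 4 * (x + y)) (hS : 5 * W.sum ≤ 3 * κ)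
    (hm : 0 ≤ m) (ha : 0 ≤ a) (hN : 6 * (V.sum + W.sum + m + a) ≤ 5 * κ) :
    ∀ κ' : ℝ, 0 ≤ κ' → κ' ≤ κ →
      r κ' (V + W) m a + (κ - κ') / 3 ≤ κ + (V.sum + W.sum + m + a) + d * κ := by
  obtain ⟨b₁, b₂, b₃, b₄, rfl, h43, h32, h21⟩ := sorted4 W hc
  have hsum : (b₄ ::ₘ b₃ ::ₘ {b₁, b₂} : Multiset ℝ).sum = b₁ + b₂ + b₃ + b₄ := by
    rw [Multiset.sum_cons, sum_tri]; ring
  have hb4 : 0 ≤ b₄ := hW b₄ (by simp)
  have hb1 : 25 * b₁ ≤ 4 * κ := hW' b₁ (by simp)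
  have hp : κ ≤ 4 * (b₁ + b₂) := by
    obtain ⟨x, y, hx, hy, hxy⟩ := h12
    have hx' : x = b₄ ∨ x = b₃ ∨ x = b₁ ∨ x = b₂ := by simpa using hx
    have hy' : y = b₄ ∨ y = b₃ ∨ y = b₁ ∨ y = b₂ := by
      simpa using Multiset.mem_of_mem_erase hy
    have hyb : y ≤ b₁ := by rcases hy' with h | h | h | h <;> rw [h] <;> linarith
    by_cases hxb : x ≤ b₂
    · linarith
    · have hx1 : x = b₁ := by
        rcases hx' with h | h | h | h
        · exact absurd (by rw [h]; linarith) hxb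
        · exact absurd (by rw [h]; linarith) hxb
        · exact h
        · exact absurd (by rw [h]) hxb
      subst hx1
      have e : (b₄ ::ₘ b₃ ::ₘ {x, b₂} : Multiset ℝ) = x ::ₘ b₄ ::ₘ b₃ ::ₘ {b₂} := by
        simp only [Multiset.insert_eq_cons, ← Multiset.singleton_add]
        abel
      rw [e, Multiset.erase_cons_head] at hy
      have : y ≤ b₂ := by
        simp only [Multiset.mem_cons, Multiset.mem_singleton] at hy
        rcases hy with h | h | h <;> rw [h] <;> linarith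
      linarith
  rw [hsum] at hS hN ⊢
  exact C5b R Lv hd hV hV' hb4 h43 h32 h21 hp hb1 hS hm ha hN

end Crest.Agent.R017.C5_720
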