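import Crest.Agent.R017.C5_720

/-!
# Row 17, section D: the columns `c5w`, `c5v` of the coverage at family `1` (helper720)
-/

set_option autoImplicit false

noncomputable section

namespace Crest.Agent.R017.C5_720

open Crest.Agent.R017.ER911 Crest.Agent.R017.SC777

variable {d : ℝ} {r s : EF}

/-- 90's constructor `c5w` -/
theorem c5w_cpl (R : ExpRules (7 / 8 + d) r s) (Lv : ExpLv (7 / 8 + d) r) (hd : 0 ≤ d)
    {v a N f g : ℝ} {W Y : Multiset ℝ} {t : ℕ} (hY : Y + Multiset.replicate t v = {a} + W)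
    (hc : Multiset.card W = 4) (hnn : ∀ y ∈ Y + Multiset.replicate t v, 0 ≤ y)
    (h12 : ∃ x y : ℝ, x ∈ W ∧ y ∈ W.erase x ∧ 1 / 4 ≤ x + y) (hS : W.sum ≤ 16 / 27)
    (ha : a ≤ 1 / 6) (hN : N ≤ 5 / 6) (hf : 0 ≤ f) (hg : 0 ≤ g) (h5 : a + W.sum + f + g ≤ N) :
    ∀ k' : ℝ, 0 ≤ k' → k' ≤ 1 → r k' (Y + Multiset.replicate t v) f g + (1 - k') / 3 ≤
      1 + ((Y + Multiset.replicate t v).sum + f + g) + d := by
  intro k' h0 h1
  rw [hY] at hnn ⊢
  rw [Multiset.sum_add, Multiset.sum_singleton]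
  have ha0 : 0 ≤ a := hnn a (by simp)
  have hW : ∀ y ∈ W, 0 ≤ y := fun y hy => hnn y (Multiset.mem_add.2 (Or.inr hy))
  obtain ⟨x, y, hx, hy, hxy⟩ := h12
  have := C5_W R Lv hd (κ := 1) (a₀ := a) (m := f) (a := g) hc hW ⟨x, y, hx, hy, by linarith⟩
    (by linarith) ha0 (by linarith) hf hg (by linarith) k' h0 h1
  linarith

/-- T6 at `κ = 1`, total `≤ 5/6`: pair `{y₁,y₂}`, `Z = {v,v}`, `X = {v | filler}` -/
theorem t6_vvv (R : ExpRules (7 / 8 + d) r s) (hd : 0 ≤ d) {y₁ y₂ v f g : ℝ} (hv : 0 ≤ v)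
    (hv9 : 9 * v ≤ 1) (h1 : 0 ≤ y₁) (h2 : 0 ≤ y₂) (hs : 1 / 4 ≤ y₁ + y₂) (hf : 0 ≤ f)
    (hg : 0 ≤ g) (hN : y₁ + y₂ + 3 * v + f + g ≤ 5 / 6) (hs' : y₁ + y₂ + 2 * v ≤ 2 / 3) :
    ∀ k' : ℝ, 0 ≤ k' → k' ≤ 1 → r k' (v ::ₘ v ::ₘ v ::ₘ {y₁, y₂}) f g + (1 - k') / 3 ≤
      1 + (y₁ + y₂ + 3 * v + f + g) + d := by
  obtain ⟨b, b', hb0, hbm, hb0', hbm', hbb, hbb'⟩ : ∃ b b' : ℝ, 0 ≤ b ∧ b ≤ f ∧ 0 ≤ b' ∧
      b' ≤ g ∧ b + b' ≤ 1 / 6 - v ∧
      (v + v + (y₁ + y₂)) + ((f - b) + (g - b')) ≤ 2 / 3 := by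
    rcases le_total (1 / 6 - v) f with h | h
    · exact ⟨1 / 6 - v, 0, by linarith, h, le_rfl, hg, by linarith, by linarith⟩
    · rcases le_total (1 / 6 - v) (f + g) with h' | h'
      · exact ⟨f, 1 / 6 - v - f, hf, le_rfl, by linarith, by linarith, by linarith, by linarith⟩
      · exact ⟨f, g, hf, le_rfl, hg, le_rfl, by linarith, by linarith⟩
  have hZs : ({v, v} : Multiset ℝ).sum = v + v := sum_pair v v
  have := T6 R hd (κ := 1) (y₁ := y₁) (y₂ := y₂) (m := f - b) (b := b) (a := g - b') (b' := b')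
    (V := {v}) (Z := {v, v}) zero_le_one h1 h2
    (by intro y hy; rw [Multiset.mem_singleton.1 hy]; exact hv) (nn_pair hv hv) (by linarith) hb0
    (by linarith) hb0' (by rw [hZs, Multiset.sum_singleton]; linarith) (by rw [hZs]; linarith)
    (by rw [hZs]; linarith) (by rw [hZs]; linarith)
  intro k' h0 h1'
  have e := this k' h0 h1'
  have e1 : ({v} + ({v, v} + {y₁, y₂}) : Multiset ℝ) = v ::ₘ v ::ₘ v ::ₘ {y₁, y₂} := by
    simp only [Multiset.insert_eq_cons, ← Multiset.singleton_add]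
    abel
  rw [e1, hZs, Multiset.sum_singleton, sub_add_cancel, sub_add_cancel] at e
  have e2 : 2 * d * (v + v + (f - b) + (g - b')) ≤ 2 * d * (1 / 2) :=
    mul_le_mul_of_nonneg_left (by linarith) (by linarith)
  linarith

/-- 499's constructor `c5v`, with `t ≤ 2 ∨ 1/4 ≤ a + v` -/
theorem c5v_cpl (R : ExpRules (7 / 8 + d) r s) (Lv : ExpLv (7 / 8 + d) r) (hd : 0 ≤ d)
    {v a b N f g : ℝ} {W : Multiset ℝ} {t : ℕ} (hv : 0 ≤ v) (ha7 : 7 / 50 ≤ a) (ha : a ≤ 1 / 6)
    (hW7 : ∀ y ∈ W, 7 / 50 ≤ y) (hWb : ∀ y ∈ W, y ≤ b) (hvb : v ≤ b)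
    (hc : Multiset.card W + t = 4) (h1 : W.sum + t * v + b / 2 ≤ 2 / 3)
    (h6 : t ≤ 2 ∨ 1 / 4 ≤ a + v) (hN : N ≤ 5 / 6) (hf : 0 ≤ f) (hg : 0 ≤ g)
    (h5 : a + W.sum + t * v + f + g ≤ N) :
    ∀ k' : ℝ, 0 ≤ k' → k' ≤ 1 → r k' ({a} + W + Multiset.replicate t v) f g + (1 - k') / 3 ≤
      1 + (({a} + W + Multiset.replicate t v : Multiset ℝ).sum + f + g) + d := by
  have hsumr : (Multiset.replicate t v).sum = t * v := by
    rw [Multiset.sum_replicate, nsmul_eq_mul]
  have hcr : Multiset.card (W + Multiset.replicate t v) = 4 := by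
    rw [Multiset.card_add, Multiset.card_replicate]; exact hc
  have hS4 : (W + Multiset.replicate t v).sum ≤ 4 * b := by
    have h : ∀ x ∈ W + Multiset.replicate t v, x ≤ b := by
      intro x hx
      rcases Multiset.mem_add.1 hx with h | h
      · exact hWb x h
      · rw [Multiset.eq_of_mem_replicate h]; exact hvb
    have := Multiset.sum_le_card_nsmul _ b h
    rw [hcr, nsmul_eq_mul] at this
    exact_mod_cast this
  rw [Multiset.sum_add, hsumr] at hS4
  have hS : W.sum + t * v ≤ 16 / 27 := by linarith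
  have nnW : ∀ y ∈ W + Multiset.replicate t v, 0 ≤ y := by
    intro x hx
    rcases Multiset.mem_add.1 hx with h | h
    · linarith [hW7 x h]
    · rw [Multiset.eq_of_mem_replicate h]; exact hv
  -- the main case: two elements of sum `≥ 1/4`
  have main : (∃ x y : ℝ, x ∈ W + Multiset.replicate t v ∧
      y ∈ (W + Multiset.replicate t v).erase x ∧ 1 / 4 ≤ x + y) →
      ∀ k' : ℝ, 0 ≤ k' → k' ≤ 1 → r k' ({a} + W + Multiset.replicate t v) f g + (1 - k') / 3 ≤
      1 + (({a} + W + Multiset.replicate t v : Multiset ℝ).sum + f + g) + d := by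
    rintro ⟨x, y, hx, hy, hxy⟩ k' h0 h1'
    have := C5_W R Lv hd (κ := 1) (a₀ := a) (m := f) (a := g) hcr nnW
      ⟨x, y, hx, hy, by linarith⟩ (by rw [Multiset.sum_add, hsumr]; linarith) (by linarith)
      (by linarith) hf hg (by rw [Multiset.sum_add, hsumr]; linarith) k' h0 h1'
    rw [add_assoc ({a} : Multiset ℝ), Multiset.sum_add ({a} : Multiset ℝ), Multiset.sum_singleton]
    linarith
  have ht4 : t ≤ 4 := by omega
  rcases Nat.lt_or_ge t 3 with ht | ht
  · -- two big lumps in `W`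
    have hc2 : 2 ≤ Multiset.card W := by omega
    obtain ⟨x, hx⟩ := Multiset.card_pos_iff_exists_mem.1 (by omega : 0 < Multiset.card W)
    obtain ⟨W', hW'⟩ := Multiset.exists_cons_of_mem hx
    have hc' : 0 < Multiset.card W' := by
      rw [hW', Multiset.card_cons] at hc2; omega
    obtain ⟨y, hy⟩ := Multiset.card_pos_iff_exists_mem.1 hc'
    have hyW : y ∈ W := by rw [hW']; exact Multiset.mem_cons_of_mem hy
    refine main ⟨x, y, Multiset.mem_add.2 (Or.inl hx), ?_, ?_⟩
    · rw [hW', Multiset.cons_add, Multiset.erase_cons_head]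
      exact Multiset.mem_add.2 (Or.inl hy)
    · linarith [hW7 x hx, hW7 y hyW]
  · have hav : 1 / 4 ≤ a + v := by
      rcases h6 with h | h
      · omega
      · exact h
    rcases Nat.lt_or_ge t 4 with ht' | ht'
    · -- `t = 3`, one big lump
      have ht3 : t = 3 := by omega
      subst ht3
      obtain ⟨w, rfl⟩ := Multiset.card_eq_one.1 (by omega : Multiset.card W = 1)
      have hw7 := hW7 w (by simp)
      have hwb := hWb w (by simp)
      rw [Multiset.sum_singleton] at h1 h5 hS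
      push_cast at h1 h5 hS
      by_cases hwv : 1 / 4 ≤ w + v
      · refine main ⟨w, v, by simp, ?_, hwv⟩
        rw [Multiset.singleton_add, Multiset.erase_cons_head]
        exact Multiset.mem_replicate.2 ⟨by norm_num, rfl⟩
      · push Not at hwv
        intro k' h0 h1'
        have := t6_vvv R hd (y₁ := a) (y₂ := w) (v := v) (f := f) (g := g) hv (by linarith)
          (by linarith) (by linarith) (by linarith) hf hg (by linarith) (by linarith) k' h0 h1'
        have e : ({a} + {w} + Multiset.replicate 3 v : Multiset ℝ) =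
            v ::ₘ v ::ₘ v ::ₘ {a, w} := by
          have : Multiset.replicate 3 v = v ::ₘ v ::ₘ {v} := rfl
          rw [this]
          simp only [Multiset.insert_eq_cons, ← Multiset.singleton_add]
          abel
        have es : (v ::ₘ v ::ₘ v ::ₘ {a, w} : Multiset ℝ).sum = a + w + 3 * v := by
          rw [Multiset.sum_cons, Multiset.sum_cons, sum_tri]; ring
        rw [e, es]
        linarith
    · -- `t = 4`
      have ht4' : t = 4 := by omega
      subst ht4'
      have hW0 : W = 0 := Multiset.card_eq_zero.1 (by omega)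
      subst hW0
      rw [Multiset.sum_zero] at h1 h5 hS
      push_cast at h1 h5 hS
      by_cases hvv : 1 / 4 ≤ v + v
      · refine main ⟨v, v, by simp, ?_, hvv⟩
        rw [zero_add]
        have : Multiset.replicate 4 v = v ::ₘ Multiset.replicate 3 v := rfl
        rw [this, Multiset.erase_cons_head]
        exact Multiset.mem_replicate.2 ⟨by norm_num, rfl⟩
      · push Not at hvv
        intro k' h0 h1'
        have := C5_W R Lv hd (κ := 1) (a₀ := v) (m := f) (a := g)
          (W := a ::ₘ Multiset.replicate 3 v) (by simp)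
          (by
            intro y hy
            rcases Multiset.mem_cons.1 hy with h | h
            · rw [h]; linarith
            · rw [Multiset.eq_of_mem_replicate h]; exact hv)
          ⟨a, v, by simp, by
            rw [Multiset.erase_cons_head]
            exact Multiset.mem_replicate.2 ⟨by norm_num, rfl⟩, by linarith⟩
          (by rw [Multiset.sum_cons, Multiset.sum_replicate, nsmul_eq_mul]; push_cast; linarith)
          hv (by linarith) hf hg
          (by rw [Multiset.sum_cons, Multiset.sum_replicate, nsmul_eq_mul]; push_cast; linarith)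
          k' h0 h1'
        have e : ({a} + 0 + Multiset.replicate 4 v : Multiset ℝ) =
            {v} + a ::ₘ Multiset.replicate 3 v := by
          have h4 : Multiset.replicate 4 v = v ::ₘ Multiset.replicate 3 v := rfl
          rw [h4]
          simp only [← Multiset.singleton_add]
          abel
        rw [e, Multiset.sum_add ({v} : Multiset ℝ), Multiset.sum_singleton]
        linarith

end Crest.Agent.R017.C5_720
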