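import Crest.Agent.R017.C6a_325
import Crest.Agent.R017.C6b_325
import Crest.Agent.R017.C6c_325
import Crest.Agent.R017.C6d_325
import Crest.Agent.R017.C6e_325
import Crest.Agent.R017.C6f_325
import Crest.Agent.R017.C6g_325
import Crest.Agent.R017.C6h_325
import Crest.Agent.R017.C6i_325
import Crest.Agent.R017.C6j_325
import Crest.Agent.R017.C6k_325
import Crest.Agent.R017.C6l_325
import Crest.Agent.R017.C6m_325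

/-!
# Row 17, T.2 : certificates of Tree 6, glue (helper325)
-/

set_option autoImplicit false
set_option maxRecDepth 100000

namespace Crest.Agent.R017.C6_325

open Crest.Agent.R017.CovFar74 Crest.Agent.R017.CovChk74

theorem cA2_3 : CertT 6 false ([1, 0, 0, -1, -1, -2, -1] :: [8, 0, 0, -8, -8, 0, -27] :: [-4, 3, 3, 3, 3, 3, 3, 6] :: (X2 ++ rootA 6)) :=
  CertT.split [-2, 0, 0, 2, 2, 9] cA2_4 cA2_5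

theorem cA2_2 : CertT 6 false ([8, 0, 0, -8, -8, 0, -27] :: [-4, 3, 3, 3, 3, 3, 3, 6] :: (X2 ++ rootA 6)) :=
  CertT.split [1, 0, 0, -1, -1, -2, -1] cA2_3 cA2_6

theorem cA2_7 : CertT 6 false (smul (-1) [8, 0, 0, -8, -8, 0, -27] :: [-4, 3, 3, 3, 3, 3, 3, 6] :: (X2 ++ rootA 6)) :=
  CertT.split [2, 0, 0, -2, -5, -2] cA2_8 cA2_9

theorem cA2_1 : CertT 6 false ([-4, 3, 3, 3, 3, 3, 3, 6] :: (X2 ++ rootA 6)) :=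
  CertT.split [8, 0, 0, -8, -8, 0, -27] cA2_2 cA2_7

theorem cA2_16 : CertT 6 false (smul (-1) [2, 0, -2, 0, -2, -5, 0, -5] :: [-8, 0, 8, 0, 8, 0, 27, 27] :: [4, 0, 0, -9, 0, 0, -12] :: [8, 0, 0, -8, -8, 0, -27] :: [-4, 3, 3, 3, 3, 3, 3, 12] :: smul (-1) [-4, 3, 3, 3, 3, 3, 3, 6] :: (X2 ++ rootA 6)) :=
  CertT.split [0, 0, 0, 0, 0, 0, 4, -9] cA2_17 cA2_18

theorem cA2_14 : CertT 6 false ([-8, 0, 8, 0, 8, 0, 27, 27] :: [4, 0, 0, -9, 0, 0, -12] :: [8, 0, 0, -8, -8, 0, -27] :: [-4, 3, 3, 3, 3, 3, 3, 12] :: smul (-1) [-4, 3, 3, 3, 3, 3, 3, 6] :: (X2 ++ rootA 6)) :=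
  CertT.split [2, 0, -2, 0, -2, -5, 0, -5] cA2_15 cA2_16

theorem cA2_19 : CertT 6 false (smul (-1) [-8, 0, 8, 0, 8, 0, 27, 27] :: [4, 0, 0, -9, 0, 0, -12] :: [8, 0, 0, -8, -8, 0, -27] :: [-4, 3, 3, 3, 3, 3, 3, 12] :: smul (-1) [-4, 3, 3, 3, 3, 3, 3, 6] :: (X2 ++ rootA 6)) :=
  CertT.split [4, 0, 0, 0, 0, -12, -9, -18] cA2_20 cA2_21

theorem cA2_13 : CertT 6 false ([4, 0, 0, -9, 0, 0, -12] :: [8, 0, 0, -8, -8, 0, -27] :: [-4, 3, 3, 3, 3, 3, 3, 12] :: smul (-1) [-4, 3, 3, 3, 3, 3, 3, 6] :: (X2 ++ rootA 6)) :=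
  CertT.split [-8, 0, 8, 0, 8, 0, 27, 27] cA2_14 cA2_19

theorem cA2_23 : CertT 6 false ([0, 0, 0, 0, 0, 3, 0, -8] :: smul (-1) [4, 0, 0, -9, 0, 0, -12] :: [8, 0, 0, -8, -8, 0, -27] :: [-4, 3, 3, 3, 3, 3, 3, 12] :: smul (-1) [-4, 3, 3, 3, 3, 3, 3, 6] :: (X2 ++ rootA 6)) :=
  CertT.split [-8, 0, 0, 8, 8, 0, 27, 27] cA2_24 cA2_25

theorem cA2_22 : CertT 6 false (smul (-1) [4, 0, 0, -9, 0, 0, -12] :: [8, 0, 0, -8, -8, 0, -27] :: [-4, 3, 3, 3, 3, 3, 3, 12] :: smul (-1) [-4, 3, 3, 3, 3, 3, 3, 6] :: (X2 ++ rootA 6)) :=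
  CertT.split [0, 0, 0, 0, 0, 3, 0, -8] cA2_23 cA2_26

theorem cA2_12 : CertT 6 false ([8, 0, 0, -8, -8, 0, -27] :: [-4, 3, 3, 3, 3, 3, 3, 12] :: smul (-1) [-4, 3, 3, 3, 3, 3, 3, 6] :: (X2 ++ rootA 6)) :=
  CertT.split [4, 0, 0, -9, 0, 0, -12] cA2_13 cA2_22

theorem cA2_11 : CertT 6 false ([-4, 3, 3, 3, 3, 3, 3, 12] :: smul (-1) [-4, 3, 3, 3, 3, 3, 3, 6] :: (X2 ++ rootA 6)) :=
  CertT.split [8, 0, 0, -8, -8, 0, -27] cA2_12 cA2_27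

theorem cA2_10 : CertT 6 false (smul (-1) [-4, 3, 3, 3, 3, 3, 3, 6] :: (X2 ++ rootA 6)) :=
  CertT.split [-4, 3, 3, 3, 3, 3, 3, 12] cA2_11 cA2_28

theorem cA2_0 : CertT 6 false ((X2 ++ rootA 6)) :=
  CertT.split [-4, 3, 3, 3, 3, 3, 3, 6] cA2_1 cA2_10

theorem cA3_3 : CertT 6 false ([1, 0, -1, -1, 0, -2, 0, -3] :: [-4, 3, 3, 3, 3, 3, 3, 12] :: [1, 0, 0, 0, 0, -3, -3] :: (X3 ++ rootA 6)) :=
  CertT.split [1, -1, 0, 0, -1, 0, -2, -2] cA3_4 cA3_5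

theorem cA3_2 : CertT 6 false ([-4, 3, 3, 3, 3, 3, 3, 12] :: [1, 0, 0, 0, 0, -3, -3] :: (X3 ++ rootA 6)) :=
  CertT.split [1, 0, -1, -1, 0, -2, 0, -3] cA3_3 cA3_6

theorem cA3_13 : CertT 6 false ([8, 0, -8, -8, 0, 0, 0, -81] :: [1, 0, -1, 0, -1, -1, -2, -3] :: [-2, 0, 2, 0, 2, 9] :: [0, 0, 0, 0, 0, 4, 0, -9] :: [-8, 8, 0, 8, 0, 0, 27, 27] :: [-4, 3, 3, 3, 3, 3, 3, 18] :: smul (-1) [-4, 3, 3, 3, 3, 3, 3, 12] :: [1, 0, 0, 0, 0, -3, -3] :: (X3 ++ rootA 6)) :=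
  CertT.split [8, -8, 0, -8, 0, 0, 0, -81] cA3_14 cA3_15

theorem cA3_12 : CertT 6 false ([1, 0, -1, 0, -1, -1, -2, -3] :: [-2, 0, 2, 0, 2, 9] :: [0, 0, 0, 0, 0, 4, 0, -9] :: [-8, 8, 0, 8, 0, 0, 27, 27] :: [-4, 3, 3, 3, 3, 3, 3, 18] :: smul (-1) [-4, 3, 3, 3, 3, 3, 3, 12] :: [1, 0, 0, 0, 0, -3, -3] :: (X3 ++ rootA 6)) :=
  CertT.split [8, 0, -8, -8, 0, 0, 0, -81] cA3_13 cA3_16

theorem cA3_11 : CertT 6 false ([-2, 0, 2, 0, 2, 9] :: [0, 0, 0, 0, 0, 4, 0, -9] :: [-8, 8, 0, 8, 0, 0, 27, 27] :: [-4, 3, 3, 3, 3, 3, 3, 18] :: smul (-1) [-4, 3, 3, 3, 3, 3, 3, 12] :: [1, 0, 0, 0, 0, -3, -3] :: (X3 ++ rootA 6)) :=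
  CertT.split [1, 0, -1, 0, -1, -1, -2, -3] cA3_12 cA3_17

theorem cA3_10 : CertT 6 false ([0, 0, 0, 0, 0, 4, 0, -9] :: [-8, 8, 0, 8, 0, 0, 27, 27] :: [-4, 3, 3, 3, 3, 3, 3, 18] :: smul (-1) [-4, 3, 3, 3, 3, 3, 3, 12] :: [1, 0, 0, 0, 0, -3, -3] :: (X3 ++ rootA 6)) :=
  CertT.split [-2, 0, 2, 0, 2, 9] cA3_11 cA3_18

theorem cA3_9 : CertT 6 false ([-8, 8, 0, 8, 0, 0, 27, 27] :: [-4, 3, 3, 3, 3, 3, 3, 18] :: smul (-1) [-4, 3, 3, 3, 3, 3, 3, 12] :: [1, 0, 0, 0, 0, -3, -3] :: (X3 ++ rootA 6)) :=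
  CertT.split [0, 0, 0, 0, 0, 4, 0, -9] cA3_10 cA3_19

theorem cA3_8 : CertT 6 false ([-4, 3, 3, 3, 3, 3, 3, 18] :: smul (-1) [-4, 3, 3, 3, 3, 3, 3, 12] :: [1, 0, 0, 0, 0, -3, -3] :: (X3 ++ rootA 6)) :=
  CertT.split [-8, 8, 0, 8, 0, 0, 27, 27] cA3_9 cA3_20

theorem cA3_7 : CertT 6 false (smul (-1) [-4, 3, 3, 3, 3, 3, 3, 12] :: [1, 0, 0, 0, 0, -3, -3] :: (X3 ++ rootA 6)) :=
  CertT.split [-4, 3, 3, 3, 3, 3, 3, 18] cA3_8 cA3_21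

theorem cA3_1 : CertT 6 false ([1, 0, 0, 0, 0, -3, -3] :: (X3 ++ rootA 6)) :=
  CertT.split [-4, 3, 3, 3, 3, 3, 3, 12] cA3_2 cA3_7

theorem cA3_24 : CertT 6 false ([-4, 3, 3, 3, 3, 3, 3, 12] :: [4, 0, 0, 0, 0, -9, -12] :: smul (-1) [1, 0, 0, 0, 0, -3, -3] :: (X3 ++ rootA 6)) :=
  CertT.split [2, -2, 0, 0, -5, 0, -2] cA3_25 cA3_26

theorem cA3_23 : CertT 6 false ([4, 0, 0, 0, 0, -9, -12] :: smul (-1) [1, 0, 0, 0, 0, -3, -3] :: (X3 ++ rootA 6)) :=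
  CertT.split [-4, 3, 3, 3, 3, 3, 3, 12] cA3_24 cA3_27

theorem cA3_22 : CertT 6 false (smul (-1) [1, 0, 0, 0, 0, -3, -3] :: (X3 ++ rootA 6)) :=
  CertT.split [4, 0, 0, 0, 0, -9, -12] cA3_23 cA3_28

theorem cA3_0 : CertT 6 false ((X3 ++ rootA 6)) :=
  CertT.split [1, 0, 0, 0, 0, -3, -3] cA3_1 cA3_22

theorem cA5_0 : CertT 6 false ((X5 ++ rootA 6)) :=
  CertT.split [2, -2, 0, 0, -5, 0, -2] cA5_1 cA5_2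

theorem cA6_0 : CertT 6 false ((X6 ++ rootA 6)) :=
  CertT.split [-8, 8, 0, 0, 27, 0, 8] cA6_1 cA6_2

theorem cA8_7 : CertT 6 false (smul (-1) [1, -1, 0, 0, -1, 0, -2, -1] :: [2, 0, -2, -2, 0, -5, 0, -5] :: [-8, 0, 8, 8, 0, 27, 0, 27] :: [1, 0, 0, -1, -1, -1, -2, -2] :: [1, 0, 0, -2, -1, -1, -1, -1] :: [-4, 3, 3, 3, 3, 3, 3, 9] :: (X8 ++ rootA 6)) :=
  CertT.split [0, 0, 0, 3, 0, 0, -4, 3] cA8_8 cA8_9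

theorem cA8_5 : CertT 6 false ([2, 0, -2, -2, 0, -5, 0, -5] :: [-8, 0, 8, 8, 0, 27, 0, 27] :: [1, 0, 0, -1, -1, -1, -2, -2] :: [1, 0, 0, -2, -1, -1, -1, -1] :: [-4, 3, 3, 3, 3, 3, 3, 9] :: (X8 ++ rootA 6)) :=
  CertT.split [1, -1, 0, 0, -1, 0, -2, -1] cA8_6 cA8_7

theorem cA8_4 : CertT 6 false ([-8, 0, 8, 8, 0, 27, 0, 27] :: [1, 0, 0, -1, -1, -1, -2, -2] :: [1, 0, 0, -2, -1, -1, -1, -1] :: [-4, 3, 3, 3, 3, 3, 3, 9] :: (X8 ++ rootA 6)) :=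
  CertT.split [2, 0, -2, -2, 0, -5, 0, -5] cA8_5 cA8_10

theorem cA8_3 : CertT 6 false ([1, 0, 0, -1, -1, -1, -2, -2] :: [1, 0, 0, -2, -1, -1, -1, -1] :: [-4, 3, 3, 3, 3, 3, 3, 9] :: (X8 ++ rootA 6)) :=
  CertT.split [-8, 0, 8, 8, 0, 27, 0, 27] cA8_4 cA8_11

theorem cA8_2 : CertT 6 false ([1, 0, 0, -2, -1, -1, -1, -1] :: [-4, 3, 3, 3, 3, 3, 3, 9] :: (X8 ++ rootA 6)) :=
  CertT.split [1, 0, 0, -1, -1, -1, -2, -2] cA8_3 cA8_12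

theorem cA8_1 : CertT 6 false ([-4, 3, 3, 3, 3, 3, 3, 9] :: (X8 ++ rootA 6)) :=
  CertT.split [1, 0, 0, -2, -1, -1, -1, -1] cA8_2 cA8_13

theorem cA8_0 : CertT 6 false ((X8 ++ rootA 6)) :=
  CertT.split [-4, 3, 3, 3, 3, 3, 3, 9] cA8_1 cA8_14

theorem cB2_0 : CertT 6 false ((X2 ++ rootB 6)) :=
  CertT.split [-4, 3, 3, 3, 3, 3, 3, 6] cB2_1 cB2_2

theorem cB3_1 : CertT 6 false ([-4, 3, 3, 3, 3, 3, 3, 6] :: (X3 ++ rootB 6)) :=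
  CertT.split [0, 0, 0, 0, 0, -3, 4] cB3_2 cB3_3

theorem cB3_4 : CertT 6 false (smul (-1) [-4, 3, 3, 3, 3, 3, 3, 6] :: (X3 ++ rootB 6)) :=
  CertT.split [0, 0, 0, 0, 0, -4, 3, 3] cB3_5 cB3_6

theorem cB3_0 : CertT 6 false ((X3 ++ rootB 6)) :=
  CertT.split [-4, 3, 3, 3, 3, 3, 3, 6] cB3_1 cB3_4

theorem cB8_0 : CertT 6 false ((X8 ++ rootB 6)) :=
  CertT.split [-4, 3, 3, 3, 3, 3, 3, 6] cB8_1 cB8_2

theorem cB9_0 : CertT 6 false ((X9 ++ rootB 6)) :=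
  CertT.split [4, 0, 0, 0, 0, -9, -12, -9] cB9_1 cB9_2

theorem topA1 : CertT 6 false (X1 ++ rootA 6) := cA1_0

theorem topA2 : CertT 6 false (X2 ++ rootA 6) := cA2_0

theorem topA3 : CertT 6 false (X3 ++ rootA 6) := cA3_0

theorem topA4 : CertT 6 false (X4 ++ rootA 6) := cA4_0

theorem topA5 : CertT 6 false (X5 ++ rootA 6) := cA5_0

theorem topA6 : CertT 6 false (X6 ++ rootA 6) := cA6_0

theorem topA7 : CertT 6 false (X7 ++ rootA 6) := cA7_0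

theorem topA8 : CertT 6 false (X8 ++ rootA 6) := cA8_0

theorem topA9 : CertT 6 false (X9 ++ rootA 6) := cA9_0

theorem topB1 : CertT 6 false (X1 ++ rootB 6) := cB1_0

theorem topB2 : CertT 6 false (X2 ++ rootB 6) := cB2_0

theorem topB3 : CertT 6 false (X3 ++ rootB 6) := cB3_0

theorem topB4 : CertT 6 false (X4 ++ rootB 6) := cB4_0

theorem topB5 : CertT 6 false (X5 ++ rootB 6) := cB5_0

theorem topB6 : CertT 6 false (X6 ++ rootB 6) := cB6_0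

theorem topB7 : CertT 6 false (X7 ++ rootB 6) := cB7_0

theorem topB8 : CertT 6 false (X8 ++ rootB 6) := cB8_0

theorem topB9 : CertT 6 false (X9 ++ rootB 6) := cB9_0

end Crest.Agent.R017.C6_325
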