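import Crest.Agent.R017.CovTrim_74

/-!
# Row 17, T.2 : the roots of Tree 6, as lists of forms (helper325)
-/

set_option autoImplicit false
set_option maxRecDepth 100000

namespace Crest.Agent.R017.C6_325

open Crest.Agent.R017.CovFar74 Crest.Agent.R017.CovChk74

/-- root 1 of `Roots6741.roots6` -/
def X1 : List Form := [[-1, 2]]

/-- root 2 of `Roots6741.roots6` -/
def X2 : List Form := [[-2, 0, 0, 9], [1, -2]]

/-- root 3 of `Roots6741.roots6` -/
def X3 : List Form := [[-2, 0, 9], [-4, 0, 0, 0, 27], [2, 0, 0, -9], [1, -2]]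

/-- root 4 of `Roots6741.roots6` -/
def X4 : List Form := [[-2, 0, 9], [-1, 3], [4, 0, 0, 0, -27], [2, 0, 0, -9], [1, -2]]

/-- root 5 of `Roots6741.roots6` -/
def X5 : List Form := [[-2, 9], [-1, 0, 0, 0, 5], [-4, 0, 0, 0, 0, 27], [2, 0, -9], [1, -3]]

/-- root 6 of `Roots6741.roots6` -/
def X6 : List Form := [[-2, 9], [-1, 0, 0, 5], [-4, 0, 0, 0, 0, 0, 27], [2, 0, -9], [1, 0, 0, 0, -5], [1, -3]]

/-- root 7 of `Roots6741.roots6` -/
def X7 : List Form := [[-2, 9], [-4, 0, 0, 0, 21], [-1, 0, 5], [-4, 0, 0, 0, 0, 0, 27], [2, 0, -9], [1, 0, 0, -5], [1, -3]]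

/-- root 8 of `Roots6741.roots6` -/
def X8 : List Form := [[-1, 3], [-4, 0, 0, 0, 27], [2, 0, -9], [1, -2]]

/-- root 9 of `Roots6741.roots6` -/
def X9 : List Form := [[-1, 3], [-1, 0, 6], [-4, 0, 0, 27], [4, 0, 0, 0, -27], [2, 0, -9], [1, -2]]

end Crest.Agent.R017.C6_325
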