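import Crest.Agent.R017.C7a_325
import Crest.Agent.R017.C7b_325
import Crest.Agent.R017.C7c_325
import Crest.Agent.R017.C7d_325
import Crest.Agent.R017.C7e_325
import Crest.Agent.R017.C7f_325
import Crest.Agent.R017.C7g_325
import Crest.Agent.R017.C7h_325
import Crest.Agent.R017.C7i_325
import Crest.Agent.R017.C7j_325
import Crest.Agent.R017.C7k_325
import Crest.Agent.R017.C7l_325
import Crest.Agent.R017.C7m_325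
import Crest.Agent.R017.C7n_325
import Crest.Agent.R017.C7o_325

/-!
# Row 17, T.2 : certificates of Tree 7, glue (helper325)
-/

set_option autoImplicit false
set_option maxRecDepth 100000

namespace Crest.Agent.R017.C7_325

open Crest.Agent.R017.CovFar74 Crest.Agent.R017.CovChk74

theorem cAC_2 : CertT 7 false ([-1, 0, 0, 0, 0, 0, 0, 0, 20] :: [-231, 0, 0, 0, 0, 0, 0, 0, 5000] :: (XC ++ rootA 7)) :=
  CertT.split [-23, 0, 0, 0, 0, 0, 0, 0, 400] cAC_3 cAC_4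

theorem cAC_1 : CertT 7 false ([-231, 0, 0, 0, 0, 0, 0, 0, 5000] :: (XC ++ rootA 7)) :=
  CertT.split [-1, 0, 0, 0, 0, 0, 0, 0, 20] cAC_2 cAC_5

theorem cAC_0 : CertT 7 false ((XC ++ rootA 7)) :=
  CertT.split [-231, 0, 0, 0, 0, 0, 0, 0, 5000] cAC_1 cAC_6

theorem cAD_6 : CertT 7 false (smul (-1) [-77, 0, 0, 0, 0, 500] :: [8, -8, 0, -8, 0, -27] :: [-637, 0, 0, 0, 0, 0, 0, 0, 10000] :: [-303, 0, 0, 0, 0, 0, 0, 0, 5000] :: [-1, 0, 0, 0, 0, 0, 0, 0, 20] :: (XD ++ rootA 7)) :=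
  CertT.split [2, 0, -4, 0, 0, -9] cAD_7 cAD_8

theorem cAD_4 : CertT 7 false ([8, -8, 0, -8, 0, -27] :: [-637, 0, 0, 0, 0, 0, 0, 0, 10000] :: [-303, 0, 0, 0, 0, 0, 0, 0, 5000] :: [-1, 0, 0, 0, 0, 0, 0, 0, 20] :: (XD ++ rootA 7)) :=
  CertT.split [-77, 0, 0, 0, 0, 500] cAD_5 cAD_6

theorem cAD_3 : CertT 7 false ([-637, 0, 0, 0, 0, 0, 0, 0, 10000] :: [-303, 0, 0, 0, 0, 0, 0, 0, 5000] :: [-1, 0, 0, 0, 0, 0, 0, 0, 20] :: (XD ++ rootA 7)) :=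
  CertT.split [8, -8, 0, -8, 0, -27] cAD_4 cAD_9

theorem cAD_2 : CertT 7 false ([-303, 0, 0, 0, 0, 0, 0, 0, 5000] :: [-1, 0, 0, 0, 0, 0, 0, 0, 20] :: (XD ++ rootA 7)) :=
  CertT.split [-637, 0, 0, 0, 0, 0, 0, 0, 10000] cAD_3 cAD_10

theorem cAD_12 : CertT 7 false ([-23, 0, 0, 0, 0, 0, 0, 0, 400] :: smul (-1) [-303, 0, 0, 0, 0, 0, 0, 0, 5000] :: [-1, 0, 0, 0, 0, 0, 0, 0, 20] :: (XD ++ rootA 7)) :=
  CertT.split [-87, 0, 0, 500] cAD_13 cAD_14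

theorem cAD_18 : CertT 7 false (smul (-1) [-77, 0, 0, 0, 0, 500] :: [8, -8, 0, -8, 0, -27] :: smul (-1) [-23, 0, 0, 0, 0, 0, 0, 0, 400] :: smul (-1) [-303, 0, 0, 0, 0, 0, 0, 0, 5000] :: [-1, 0, 0, 0, 0, 0, 0, 0, 20] :: (XD ++ rootA 7)) :=
  CertT.split [0, 0, 0, 0, 0, 3, 0, 0, -8] cAD_19 cAD_20

theorem cAD_16 : CertT 7 false ([8, -8, 0, -8, 0, -27] :: smul (-1) [-23, 0, 0, 0, 0, 0, 0, 0, 400] :: smul (-1) [-303, 0, 0, 0, 0, 0, 0, 0, 5000] :: [-1, 0, 0, 0, 0, 0, 0, 0, 20] :: (XD ++ rootA 7)) :=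
  CertT.split [-77, 0, 0, 0, 0, 500] cAD_17 cAD_18

theorem cAD_15 : CertT 7 false (smul (-1) [-23, 0, 0, 0, 0, 0, 0, 0, 400] :: smul (-1) [-303, 0, 0, 0, 0, 0, 0, 0, 5000] :: [-1, 0, 0, 0, 0, 0, 0, 0, 20] :: (XD ++ rootA 7)) :=
  CertT.split [8, -8, 0, -8, 0, -27] cAD_16 cAD_21

theorem cAD_11 : CertT 7 false (smul (-1) [-303, 0, 0, 0, 0, 0, 0, 0, 5000] :: [-1, 0, 0, 0, 0, 0, 0, 0, 20] :: (XD ++ rootA 7)) :=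
  CertT.split [-23, 0, 0, 0, 0, 0, 0, 0, 400] cAD_12 cAD_15

theorem cAD_1 : CertT 7 false ([-1, 0, 0, 0, 0, 0, 0, 0, 20] :: (XD ++ rootA 7)) :=
  CertT.split [-303, 0, 0, 0, 0, 0, 0, 0, 5000] cAD_2 cAD_11

theorem cAD_27 : CertT 7 false ([8, 0, 0, -8, -8, -27, 0, 0, -27] :: smul (-1) [-33, 0, 0, 0, 0, 200] :: [-17, 0, 0, 0, 0, 0, 0, 0, 400] :: [-387, 0, 0, 0, 0, 0, 0, 0, 10000] :: smul (-1) [-1, 0, 0, 0, 0, 0, 0, 0, 20] :: (XD ++ rootA 7)) :=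
  CertT.split [8, 0, 0, 0, -27, -27] cAD_28 cAD_29

theorem cAD_26 : CertT 7 false (smul (-1) [-33, 0, 0, 0, 0, 200] :: [-17, 0, 0, 0, 0, 0, 0, 0, 400] :: [-387, 0, 0, 0, 0, 0, 0, 0, 10000] :: smul (-1) [-1, 0, 0, 0, 0, 0, 0, 0, 20] :: (XD ++ rootA 7)) :=
  CertT.split [8, 0, 0, -8, -8, -27, 0, 0, -27] cAD_27 cAD_30

theorem cAD_24 : CertT 7 false ([-17, 0, 0, 0, 0, 0, 0, 0, 400] :: [-387, 0, 0, 0, 0, 0, 0, 0, 10000] :: smul (-1) [-1, 0, 0, 0, 0, 0, 0, 0, 20] :: (XD ++ rootA 7)) :=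
  CertT.split [-33, 0, 0, 0, 0, 200] cAD_25 cAD_26

theorem cAD_31 : CertT 7 false (smul (-1) [-17, 0, 0, 0, 0, 0, 0, 0, 400] :: [-387, 0, 0, 0, 0, 0, 0, 0, 10000] :: smul (-1) [-1, 0, 0, 0, 0, 0, 0, 0, 20] :: (XD ++ rootA 7)) :=
  CertT.split [2, 0, 0, 0, -4, -9] cAD_32 cAD_33

theorem cAD_23 : CertT 7 false ([-387, 0, 0, 0, 0, 0, 0, 0, 10000] :: smul (-1) [-1, 0, 0, 0, 0, 0, 0, 0, 20] :: (XD ++ rootA 7)) :=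
  CertT.split [-17, 0, 0, 0, 0, 0, 0, 0, 400] cAD_24 cAD_31

theorem cAD_22 : CertT 7 false (smul (-1) [-1, 0, 0, 0, 0, 0, 0, 0, 20] :: (XD ++ rootA 7)) :=
  CertT.split [-387, 0, 0, 0, 0, 0, 0, 0, 10000] cAD_23 cAD_34

theorem cAD_0 : CertT 7 false ((XD ++ rootA 7)) :=
  CertT.split [-1, 0, 0, 0, 0, 0, 0, 0, 20] cAD_1 cAD_22

theorem cAE_0 : CertT 7 false ((XE ++ rootA 7)) :=
  CertT.split [-1, 0, 0, 0, 0, 0, 0, 0, 20] cAE_1 cAE_2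

theorem cAG_0 : CertT 7 false ((XG ++ rootA 7)) :=
  CertT.split [-231, 0, 0, 0, 0, 0, 0, 0, 5000] cAG_1 cAG_2

theorem cAJ_1 : CertT 7 false ([-537, 0, 0, 0, 0, 0, 0, 0, 10000] :: (XJ ++ rootA 7)) :=
  CertT.split [-637, 0, 0, 0, 0, 0, 0, 0, 10000] cAJ_2 cAJ_3

theorem cAJ_5 : CertT 7 false ([-231, 0, 0, 0, 0, 0, 0, 0, 5000] :: smul (-1) [-537, 0, 0, 0, 0, 0, 0, 0, 10000] :: (XJ ++ rootA 7)) :=
  CertT.split [-1, 0, 0, 0, 0, 0, 0, 0, 20] cAJ_6 cAJ_7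

theorem cAJ_8 : CertT 7 false (smul (-1) [-231, 0, 0, 0, 0, 0, 0, 0, 5000] :: smul (-1) [-537, 0, 0, 0, 0, 0, 0, 0, 10000] :: (XJ ++ rootA 7)) :=
  CertT.split [-17, 0, 0, 0, 0, 0, 0, 0, 400] cAJ_9 cAJ_10

theorem cAJ_4 : CertT 7 false (smul (-1) [-537, 0, 0, 0, 0, 0, 0, 0, 10000] :: (XJ ++ rootA 7)) :=
  CertT.split [-231, 0, 0, 0, 0, 0, 0, 0, 5000] cAJ_5 cAJ_8

theorem cAJ_0 : CertT 7 false ((XJ ++ rootA 7)) :=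
  CertT.split [-537, 0, 0, 0, 0, 0, 0, 0, 10000] cAJ_1 cAJ_4

theorem cBC_1 : CertT 7 true ([-9, 0, 0, 0, 0, 0, 0, 0, 100] :: (XC ++ rootB 7)) :=
  CertT.split [-1, 0, 0, 0, 0, 0, 0, 0, 10] cBC_2 cBC_3

theorem cBC_0 : CertT 7 true ((XC ++ rootB 7)) :=
  CertT.split [-9, 0, 0, 0, 0, 0, 0, 0, 100] cBC_1 cBC_4

theorem cBD_2 : CertT 7 true ([-43, 0, 0, 0, 0, 0, 0, 0, 400] :: [-9, 0, 0, 0, 0, 0, 0, 0, 100] :: (XD ++ rootB 7)) :=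
  CertT.split [-23, 0, 0, 0, 0, 0, 0, 0, 200] cBD_3 cBD_4

theorem cBD_7 : CertT 7 true (smul (-1) [-1, 0, 0, 0, 0, 0, 0, 0, 10] :: smul (-1) [-43, 0, 0, 0, 0, 0, 0, 0, 400] :: [-9, 0, 0, 0, 0, 0, 0, 0, 100] :: (XD ++ rootB 7)) :=
  CertT.split [1, 0, -6] cBD_8 cBD_9

theorem cBD_5 : CertT 7 true (smul (-1) [-43, 0, 0, 0, 0, 0, 0, 0, 400] :: [-9, 0, 0, 0, 0, 0, 0, 0, 100] :: (XD ++ rootB 7)) :=
  CertT.split [-1, 0, 0, 0, 0, 0, 0, 0, 10] cBD_6 cBD_7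

theorem cBD_1 : CertT 7 true ([-9, 0, 0, 0, 0, 0, 0, 0, 100] :: (XD ++ rootB 7)) :=
  CertT.split [-43, 0, 0, 0, 0, 0, 0, 0, 400] cBD_2 cBD_5

theorem cBD_11 : CertT 7 true ([-3, 0, 0, 0, 0, 0, 0, 0, 40] :: smul (-1) [-9, 0, 0, 0, 0, 0, 0, 0, 100] :: (XD ++ rootB 7)) :=
  CertT.split [-2, 0, 0, 0, 0, 0, 0, 0, 25] cBD_12 cBD_13

theorem cBD_10 : CertT 7 true (smul (-1) [-9, 0, 0, 0, 0, 0, 0, 0, 100] :: (XD ++ rootB 7)) :=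
  CertT.split [-3, 0, 0, 0, 0, 0, 0, 0, 40] cBD_11 cBD_14

theorem cBD_0 : CertT 7 true ((XD ++ rootB 7)) :=
  CertT.split [-9, 0, 0, 0, 0, 0, 0, 0, 100] cBD_1 cBD_10

theorem cBG_0 : CertT 7 true ((XG ++ rootB 7)) :=
  CertT.split [-9, 0, 0, 0, 0, 0, 0, 0, 100] cBG_1 cBG_2

theorem cBJ_2 : CertT 7 true ([-1, 0, 0, 0, 0, 0, 0, 0, 10] :: [-9, 0, 0, 0, 0, 0, 0, 0, 100] :: (XJ ++ rootB 7)) :=
  CertT.split [-23, 0, 0, 0, 0, 0, 0, 0, 200] cBJ_3 cBJ_4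

theorem cBJ_5 : CertT 7 true (smul (-1) [-1, 0, 0, 0, 0, 0, 0, 0, 10] :: [-9, 0, 0, 0, 0, 0, 0, 0, 100] :: (XJ ++ rootB 7)) :=
  CertT.split [1, 0, -6] cBJ_6 cBJ_7

theorem cBJ_1 : CertT 7 true ([-9, 0, 0, 0, 0, 0, 0, 0, 100] :: (XJ ++ rootB 7)) :=
  CertT.split [-1, 0, 0, 0, 0, 0, 0, 0, 10] cBJ_2 cBJ_5

theorem cBJ_9 : CertT 7 true ([-2, 0, 0, 0, 0, 0, 0, 0, 25] :: smul (-1) [-9, 0, 0, 0, 0, 0, 0, 0, 100] :: (XJ ++ rootB 7)) :=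
  CertT.split [1, 0, 0, 0, -6] cBJ_10 cBJ_11

theorem cBJ_8 : CertT 7 true (smul (-1) [-9, 0, 0, 0, 0, 0, 0, 0, 100] :: (XJ ++ rootB 7)) :=
  CertT.split [-2, 0, 0, 0, 0, 0, 0, 0, 25] cBJ_9 cBJ_12

theorem cBJ_0 : CertT 7 true ((XJ ++ rootB 7)) :=
  CertT.split [-9, 0, 0, 0, 0, 0, 0, 0, 100] cBJ_1 cBJ_8

theorem topAA : CertT 7 false (XA ++ rootA 7) := cAA_0

theorem topAB : CertT 7 false (XB ++ rootA 7) := cAB_0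

theorem topAC : CertT 7 false (XC ++ rootA 7) := cAC_0

theorem topAD : CertT 7 false (XD ++ rootA 7) := cAD_0

theorem topAE : CertT 7 false (XE ++ rootA 7) := cAE_0

theorem topAF : CertT 7 false (XF ++ rootA 7) := cAF_0

theorem topAG : CertT 7 false (XG ++ rootA 7) := cAG_0

theorem topAH : CertT 7 false (XH ++ rootA 7) := cAH_0

theorem topAI : CertT 7 false (XI ++ rootA 7) := cAI_0

theorem topAJ : CertT 7 false (XJ ++ rootA 7) := cAJ_0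

theorem topBA : CertT 7 true (XA ++ rootB 7) := cBA_0

theorem topBB : CertT 7 true (XB ++ rootB 7) := cBB_0

theorem topBC : CertT 7 true (XC ++ rootB 7) := cBC_0

theorem topBD : CertT 7 true (XD ++ rootB 7) := cBD_0

theorem topBE : CertT 7 true (XE ++ rootB 7) := cBE_0

theorem topBF : CertT 7 true (XF ++ rootB 7) := cBF_0

theorem topBG : CertT 7 true (XG ++ rootB 7) := cBG_0

theorem topBH : CertT 7 true (XH ++ rootB 7) := cBH_0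

theorem topBI : CertT 7 true (XI ++ rootB 7) := cBI_0

theorem topBJ : CertT 7 true (XJ ++ rootB 7) := cBJ_0

end Crest.Agent.R017.C7_325
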