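import Crest.Agent.R017.CovTrim_74

/-!
# Row 17, T.2 : the roots of Tree 7, as lists of forms (helper325)
-/

set_option autoImplicit false
set_option maxRecDepth 100000

namespace Crest.Agent.R017.C7_325

open Crest.Agent.R017.CovFar74 Crest.Agent.R017.CovChk74

/-- root A of `Roots7741.roots7` -/
def XA : List Form := [[-1, 3]]

/-- root B of `Roots7741.roots7` -/
def XB : List Form := [[1, -3], [-2, 0, 9]]

/-- root C of `Roots7741.roots7` -/
def XC : List Form := [[-2, 9], [1, -3], [2, 0, -9], [-1, 0, 5], [-4, 0, 0, 27]]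

/-- root D of `Roots7741.roots7` -/
def XD : List Form := [[-2, 9], [1, -3], [1, 0, -5], [-4, 0, 0, 0, 27]]

/-- root E of `Roots7741.roots7` -/
def XE : List Form := [[2, -9], [-1, 0, 0, 5], [-4, 0, 0, 0, 0, 27]]

/-- root F of `Roots7741.roots7` -/
def XF : List Form := [[2, -9], [-1, 0, 5], [1, 0, 0, -5], [-4, 0, 0, 0, 0, 21]]

/-- root G of `Roots7741.roots7` -/
def XG : List Form := [[2, -9], [-1, 0, 5], [1, 0, 0, -5], [4, 0, 0, 0, 0, -21], [-4, 0, 0, 0, 0, 0, 27]]

/-- root H of `Roots7741.roots7` -/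
def XH : List Form := [[2, -9], [-1, 5], [1, 0, -5], [-4, 0, 0, 21], [-4, 0, 0, 0, 0, 0, 27]]

/-- root I of `Roots7741.roots7` -/
def XI : List Form := [[2, -9], [1, 0, -5], [-4, 0, 0, 0, 0, 21], [-4, 0, 0, 0, 0, 0, 27]]

/-- root J of `Roots7741.roots7` -/
def XJ : List Form := [[2, -9], [1, 0, -5], [-4, 21], [-4, 0, 0, 0, 0, 0, 0, 27]]

end Crest.Agent.R017.C7_325
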