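import Crest.Agent.R017.E4Tc_918

/-!
# Row 17, block C70, leaf E4, class E (helper266): the bias lump is short, no window on `d`

* `c_bd'` : `17/100 r + topK + 9/8 d ≤ N` on every box of class E (`d ≤ 1/42` is a field)
-/

set_option autoImplicit false

noncomputable section

namespace Crest.Agent.R017.CB266

open Crest.Agent.R017.R8C918 Crest.Agent.R017.Bx918 Crest.Agent.R017.E4R70
open Crest.Agent.R017.Nm918 Crest.Agent.R017.Tc918

variable {μ d r N M u a c x v : ℝ}

/-- `na_third` with the exact price near `N = 4/5`, `r = 1` -/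
lemma na_third' (B : Bx4 μ d r N M u a c x v) (hN : N ≤ 4 / 5) {y : ℝ} (hy : Adm N c y) :
    5 / 12 * r - 5 / 3 + 3 / 4 * (N + M + a + c) + d - 5 / 63 * (4 / 5 - N) - (r - 1) / 63 ≤
      3 / 4 * max 0 (a + c - y - 7 / 9 * (1 - M)) +
        max 0 (max (5 / 4 * N - 1) (N + u - 1)) / 3 := by
  have h := B.na y hy
  have h1 : r * (5 / 12 - 2 / 3 * d) - 5 / 3 + (3 / 4 + 2 * d) * (N + M + a + c) ≤
      Al d r (N + M + a) c := by
    unfold Al
    exact (le_max_right _ _).trans (le_max_right _ _)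
  unfold LA at h
  have h5 := B.d0
  have e1 : 0 ≤ d * (3 * M - 2 * N) := mul_nonneg h5 (by linarith [B.MN])
  have e2 : 0 ≤ (1 / 42 - d) * (4 / 5 - N) := mul_nonneg (by linarith [B.d42]) (by linarith)
  have e3 : 0 ≤ (1 / 42 - d) * (r - 1) := mul_nonneg (by linarith [B.d42]) (by linarith [B.r1])
  linarith

lemma na_second' (B : Bx4 μ d r N M u a c x v) {y : ℝ} (hy : Adm N c y) :
    r / 2 - 1 + (N + M + a - c) / 2 + d - a / 21 ≤
      3 / 4 * max 0 (a + c - y - 7 / 9 * (1 - M)) +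
        max 0 (max (5 / 4 * N - 1) (N + u - 1)) / 3 := by
  have h := B.na y hy
  have h1 : r * (8 / 3 * d + 1 / 2) - 1 + (N + M + a - c) / 2 ≤ Al d r (N + M + a) c := by
    unfold Al
    exact (le_max_left _ _).trans (le_max_right _ _)
  unfold LA at h
  have h5 := B.d0
  have e1 : 0 ≤ d * (r - 3 * c) := mul_nonneg h5 (by linarith [B.cr])
  have e2 : 0 ≤ (1 / 42 - d) * a := mul_nonneg (by linarith [B.d42]) B.a0
  have e3 : 0 ≤ d * (r - 1) := mul_nonneg h5 (by linarith [B.r1])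
  linarith

set_option maxHeartbeats 4000000 in
/-- **the replaced list is short enough** -/
theorem c_bd' (B : Bx4 μ d r N M u a c x v) :
    17 / 100 * r + topK N x + 9 / 8 * d ≤ N := by
  have b1 := B.near
  have b2 := B.μd
  have b3 := B.d42
  have b4 := B.d0
  have b5 := B.r1
  have b6 := B.D
  have b7 := B.a0
  have b8 := B.MN
  have b9 := B.N34
  have b10 := B.cr
  have b11 := B.P
  have b12 := B.c0
  have b13 := B.r28
  have b14 := B.N84
  have b15 := B.u5
  have b16 := B.q43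
  have ht : topK N x ≤ 2 * N - 1 + 9 / 4 * x := by
    unfold topK
    have := min_le_left (2 * N - 1) (3 / 4 * N)
    linarith
  have ht2 : topK N x ≤ 3 / 4 * N + 9 / 4 * x := by
    unfold topK
    have := min_le_right (2 * N - 1) (3 / 4 * N)
    linarith
  have n0 := na_third B (y := 0) ⟨le_rfl, B.c0, Or.inl rfl⟩
  have m0 := na_second B (y := 0) ⟨le_rfl, B.c0, Or.inl rfl⟩
  have q0 : N ≤ 4 / 5 → _ := fun h => na_third' B h (y := 0) ⟨le_rfl, B.c0, Or.inl rfl⟩
  have p0 := na_second' B (y := 0) ⟨le_rfl, B.c0, Or.inl rfl⟩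
  have hc : 1 / 7 ≤ c := by linarith
  have he : max 0 (max (5 / 4 * N - 1) (N + u - 1)) = 0 ∨
      max 0 (max (5 / 4 * N - 1) (N + u - 1)) = 5 / 4 * N - 1 ∨
      max 0 (max (5 / 4 * N - 1) (N + u - 1)) = N + u - 1 := by
    rcases max_choice 0 (max (5 / 4 * N - 1) (N + u - 1)) with h | h
    · exact Or.inl h
    · rcases max_choice (5 / 4 * N - 1) (N + u - 1) with h' | h'
      · exact Or.inr (Or.inl (h.trans h'))
      · exact Or.inr (Or.inr (h.trans h'))
  have he0 : 0 ≤ max 0 (max (5 / 4 * N - 1) (N + u - 1)) := le_max_left _ _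
  have he1 : 5 / 4 * N - 1 ≤ max 0 (max (5 / 4 * N - 1) (N + u - 1)) :=
    (le_max_left _ _).trans (le_max_right _ _)
  have he2 : N + u - 1 ≤ max 0 (max (5 / 4 * N - 1) (N + u - 1)) :=
    (le_max_right _ _).trans (le_max_right _ _)
  rcases B.shr with hx | ⟨hx1, hx2, hx3⟩
  · -- no shortening
    subst hx
    generalize max 0 (max (5 / 4 * N - 1) (N + u - 1)) = e at *
    rcases le_total N (4 / 5) with hN | hN
    · have q0 := q0 hN
      rcases max_cases 0 (a + c - 0 - 7 / 9 * (1 - M)) with ⟨e1, e2⟩ | ⟨e1, e2⟩ <;>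
      rw [e1] at n0 m0 q0 p0 <;> rcases he with he | he | he <;> linarith
    · clear q0
      rcases max_cases 0 (a + c - 0 - 7 / 9 * (1 - M)) with ⟨e1, e2⟩ | ⟨e1, e2⟩ <;>
      rw [e1] at n0 m0 p0 <;> rcases he with he | he | he <;> linarith
  · -- shortening
    have hx0 := B.adm.1
    have hN8 : N ≤ 4 / 5 := by linarith
    have q0 := q0 hN8
    have n1 := na_third B (y := 4 / 5 - N) ⟨by linarith, by linarith, Or.inr (by linarith)⟩
    have m1 := na_second B (y := 4 / 5 - N) ⟨by linarith, by linarith, Or.inr (by linarith)⟩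
    have hn := B.need
    generalize max 0 (max (5 / 4 * N - 1) (N + u - 1)) = e at *
    rcases max_cases 0 (a + c - 7 / 9 * (1 - M)) with ⟨f1, f2⟩ | ⟨f1, f2⟩ <;>
    rw [f1] at hn <;>
    rcases max_cases 0 (a + c - 0 - 7 / 9 * (1 - M)) with ⟨e1, e2⟩ | ⟨e1, e2⟩ <;>
    rw [e1] at n0 m0 q0 p0 <;>
    rcases max_cases 0 (a + c - (4 / 5 - N) - 7 / 9 * (1 - M)) with ⟨e7, e8⟩ | ⟨e7, e8⟩ <;>
    rw [e7] at n1 m1 <;>
    rcases he with he | he | he <;> linarith

end Crest.Agent.R017.CB266
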