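import Crest.Agent.R017.E4Tc_918

/-!
# Row 17, E4 (x-side), class E: the lump of the bias is short (helper372)

helper743's `c_bd` on the whole range `d ≤ 1/42` of the box.

* **`c_bd`** : `17/100 r + topK + 9/8 d ≤ N`
-/

set_option autoImplicit false
set_option linter.unusedVariables false

noncomputable section

namespace Crest.Agent.R017.CBd372

open Crest.Agent.R017.R8C918 Crest.Agent.R017.Bx918 Crest.Agent.R017.Tc918

variable {μ d r N M u a c x v : ℝ}

/-- no share -/
theorem c_bd0 (B : Bx4 μ d r N M u a c 0 v) :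
    17 / 100 * r + E4R70.topK N 0 + 9 / 8 * d ≤ N := by
  have b1 := B.near
  have b2 := B.μd
  have b3 := B.d42
  have b4 := B.d0
  have b5 := B.r1
  have b6 := B.D
  have b7 := B.a0
  have b8 := B.MN
  have b9 := B.N34
  have b10 := B.cr
  have b11 := B.P
  have b12 := B.c0
  have b13 := B.r28
  have b14 := B.N84
  have b15 := B.u5
  have b16 := B.q43
  have b17 := B.Mu
  have b18 := B.a12
  have ht : E4R70.topK N 0 ≤ 2 * N - 1 := by
    unfold E4R70.topK
    have := min_le_left (2 * N - 1) (3 / 4 * N)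
    linarith
  have ht2 : E4R70.topK N 0 ≤ 3 / 4 * N := by
    unfold E4R70.topK
    have := min_le_right (2 * N - 1) (3 / 4 * N)
    linarith
  have n0 := na_third B (y := 0) ⟨le_rfl, B.c0, Or.inl rfl⟩
  have m0 := na_second B (y := 0) ⟨le_rfl, B.c0, Or.inl rfl⟩
  have hc : max 0 (max (5 / 4 * N - 1) (N + u - 1)) = 0 ∨
      max 0 (max (5 / 4 * N - 1) (N + u - 1)) = 5 / 4 * N - 1 ∨
      max 0 (max (5 / 4 * N - 1) (N + u - 1)) = N + u - 1 := by
    rcases max_choice 0 (max (5 / 4 * N - 1) (N + u - 1)) with h | h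
    · exact Or.inl h
    · rcases max_choice (5 / 4 * N - 1) (N + u - 1) with h' | h'
      · exact Or.inr (Or.inl (h.trans h'))
      · exact Or.inr (Or.inr (h.trans h'))
  generalize max 0 (max (5 / 4 * N - 1) (N + u - 1)) = e at *
  rcases max_cases 0 (a + c - 0 - 7 / 9 * (1 - M)) with ⟨e1, e2⟩ | ⟨e1, e2⟩ <;>
  rw [e1] at n0 m0 <;>
  rcases hc with hc | hc | hc <;>
  rcases le_total N (4 / 5) with h | h <;> linarith

/-- with a share -/
theorem c_bd1 (B : Bx4 μ d r N M u a c x v) (hx1 : x + 2 * d ≤ 1 / 36)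
    (hx2 : x + 7 / 10 * N ≤ 199 / 360) (hx3 : N + x ≤ 15 / 19) :
    17 / 100 * r + E4R70.topK N x + 9 / 8 * d ≤ N := by
  have b1 := B.near
  have b2 := B.μd
  have b3 := B.d42
  have b4 := B.d0
  have b5 := B.r1
  have b6 := B.D
  have b7 := B.a0
  have b8 := B.MN
  have b9 := B.N34
  have b10 := B.cr
  have b11 := B.P
  have b12 := B.c0
  have b13 := B.r28
  have b14 := B.N84
  have b15 := B.u5
  have b16 := B.q43
  have b17 := B.Mu
  have b18 := B.a12
  have ht : E4R70.topK N x ≤ 2 * N - 1 + 9 / 4 * x := by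
    unfold E4R70.topK
    have := min_le_left (2 * N - 1) (3 / 4 * N)
    linarith
  have ht2 : E4R70.topK N x ≤ 3 / 4 * N + 9 / 4 * x := by
    unfold E4R70.topK
    have := min_le_right (2 * N - 1) (3 / 4 * N)
    linarith
  have n0 := na_third B (y := 0) ⟨le_rfl, B.c0, Or.inl rfl⟩
  have m0 := na_second B (y := 0) ⟨le_rfl, B.c0, Or.inl rfl⟩
  have hx0 := B.adm.1
  have n1 := na_third B (y := 4 / 5 - N) ⟨by linarith, by linarith, Or.inr (by linarith)⟩
  have m1 := na_second B (y := 4 / 5 - N) ⟨by linarith, by linarith, Or.inr (by linarith)⟩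
  have hn := B.need
  have he : max 0 (max (5 / 4 * N - 1) (N + u - 1)) = 0 ∨
      max 0 (max (5 / 4 * N - 1) (N + u - 1)) = 5 / 4 * N - 1 ∨
      max 0 (max (5 / 4 * N - 1) (N + u - 1)) = N + u - 1 := by
    rcases max_choice 0 (max (5 / 4 * N - 1) (N + u - 1)) with h | h
    · exact Or.inl h
    · rcases max_choice (5 / 4 * N - 1) (N + u - 1) with h' | h'
      · exact Or.inr (Or.inl (h.trans h'))
      · exact Or.inr (Or.inr (h.trans h'))
  generalize max 0 (max (5 / 4 * N - 1) (N + u - 1)) = e at *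
  rcases max_cases 0 (a + c - 7 / 9 * (1 - M)) with ⟨f1, f2⟩ | ⟨f1, f2⟩ <;>
  rw [f1] at hn <;>
  rcases max_cases 0 (a + c - 0 - 7 / 9 * (1 - M)) with ⟨e1, e2⟩ | ⟨e1, e2⟩ <;>
  rw [e1] at n0 m0 <;>
  rcases max_cases 0 (a + c - (4 / 5 - N) - 7 / 9 * (1 - M)) with ⟨e7, e8⟩ | ⟨e7, e8⟩ <;>
  rw [e7] at n1 m1 <;>
  rcases he with he | he | he <;> linarith

/-- **the lump of the bias is short** -/
theorem c_bd (B : Bx4 μ d r N M u a c x v) :
    17 / 100 * r + E4R70.topK N x + 9 / 8 * d ≤ N := by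
  rcases B.shr with hx | ⟨hx1, hx2, hx3⟩
  · subst hx
    exact c_bd0 B
  · exact c_bd1 B hx1 hx2 hx3

end Crest.Agent.R017.CBd372
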