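import Crest.Agent.R017.XiI1_590
import Crest.Agent.R017.Sx1_440

/-!
# Row 17: the conductor of `ψ⁶` (helper499)

* `FL N m ψ` : `ψ = 1` on the elements `≡ 1 mod m`, prime to `N`
* `dvd_iff_FL` : for `ξ` primitive modulo `m`, `ξ = χ` prime to `N`: `m ∣ D ↔ FL N D χ` (`D ∣ N`)
* `cond_eq` : the norm of the conductor from a minimal `D`
* local statements: `FL.six_*`
-/

set_option autoImplicit false

noncomputable section

open Complex
open scoped ComplexConjugate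

namespace Crest.Agent.R017.Cond499

open Crest.Agent.R012 Crest.Agent.R012.Eis Crest.Agent.R012.Gauss880 Crest.Agent.R017.Loc266
open Crest.Agent.R017.XiI590 Crest.Agent.R017.Sx440

/-- `ψ = 1` on the elements `≡ 1 mod m`, prime to `N` -/
def FL (N m : Eis) (ψ : Eis → ℂ) : Prop := ∀ c, IsCoprime c N → m ∣ c - 1 → ψ c = 1

variable {N m D B P p : Eis} {ψ χ ξ : Eis → ℂ}

lemma FL.mono {m' : Eis} (h : FL N m ψ) (hm : m ∣ m') : FL N m' ψ :=
  fun c hc h1 => h c hc (hm.trans h1)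

lemma FL.pow (h : FL N m ψ) (n : ℕ) : FL N m (fun c => ψ c ^ n) :=
  fun c hc h1 => by simp only; rw [h c hc h1, one_pow]

lemma fl_self (hψ : IsCh N ψ) : FL N N ψ := fun c _ h => by rw [hψ.per.congr h, hψ.one]

lemma isCh_pow (hψ : IsCh N ψ) {n : ℕ} (hn : n ≠ 0) : IsCh N (fun c => ψ c ^ n) where
  one := by rw [hψ.one, one_pow]
  mul x y := by rw [hψ.mul, mul_pow]
  per x t := by beta_reduce; rw [hψ.per x t]
  zero x hx := by rw [hψ.zero x hx, zero_pow hn]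

lemma psi_pow (hψ : IsCh N ψ) (c : Eis) : ∀ n : ℕ, ψ (c ^ n) = ψ c ^ n
  | 0 => by rw [pow_zero, pow_zero, hψ.one]
  | n + 1 => by rw [pow_succ, hψ.mul, psi_pow hψ c n, pow_succ]

/-! ### the conductor -/

theorem dvd_iff_FL (hN : N ≠ 0) (hm : m ∣ N) (hξ : IsCh m ξ) (hp : Prm m ξ)
    (he : ∀ a, IsCoprime a N → ξ a = χ a) (hD : D ∣ N) : m ∣ D ↔ FL N D χ := by
  classical
  have hm0 : m ≠ 0 := fun h0 => hN (zero_dvd_iff.mp (h0 ▸ hm))
  constructor
  · intro h c hc h1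
    rw [← he c hc, hξ.per.congr (h.trans h1), hξ.one]
  · intro h
    by_contra hmD
    -- `g = gcd (m, D)`
    set g : Eis := EuclideanDomain.gcd m D with hg
    obtain ⟨m1, hm1⟩ : g ∣ m := EuclideanDomain.gcd_dvd_left m D
    obtain ⟨D1, hD1⟩ : g ∣ D := EuclideanDomain.gcd_dvd_right m D
    have hg0 : g ≠ 0 := fun h0 => hm0 (by rw [hm1, h0, zero_mul])
    have hcop : IsCoprime m1 D1 := by
      have h1 := EuclideanDomain.gcd_eq_gcd_ab m D
      rw [← hg] at h1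
      refine ⟨EuclideanDomain.gcdA m D, EuclideanDomain.gcdB m D, ?_⟩
      apply mul_left_cancel₀ hg0
      rw [mul_one]
      conv_rhs => rw [h1]
      rw [show EuclideanDomain.gcdA m D = EuclideanDomain.gcdA m D from rfl]
      generalize EuclideanDomain.gcdA m D = a
      generalize EuclideanDomain.gcdB m D = b
      linear_combination -a * hm1 - b * hD1
    have hnu : ¬ IsUnit m1 := by
      intro hu
      apply hmD
      obtain ⟨v, hv⟩ := hu.exists_right_inv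
      refine ⟨v * D1, ?_⟩
      rw [hD1, hm1]
      linear_combination -(g * D1) * hv
    have hm10 : m1 ≠ 0 := fun h0 => hm0 (by rw [hm1, h0, mul_zero])
    obtain ⟨q, hq, hqm⟩ := WfDvdMonoid.exists_irreducible_factor hnu hm10
    have hqp : Prime q := hq.prime
    obtain ⟨m2, hm2⟩ := hqm
    obtain ⟨u, hu, h1, h2⟩ := hp.prp q hqp ⟨g * m2, by rw [hm1, hm2]; ring⟩
    -- `g ∣ u - 1`
    have h3 : g * m2 ∣ u - 1 := by
      obtain ⟨t, ht⟩ := h1
      refine ⟨t, ?_⟩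
      apply mul_right_cancel₀ hqp.ne_zero
      rw [ht, hm1, hm2]
      ring
    obtain ⟨z, hz⟩ := (dvd_mul_right g m2).trans h3
    -- `c ≡ u mod m`, `c ≡ 1 mod D`
    obtain ⟨a, b, hab⟩ := hcop
    have hc1 : D ∣ (u + m * (-(z * a))) - 1 := by
      refine ⟨z * b, ?_⟩
      rw [hD1]
      have : m = g * m1 := hm1
      linear_combination hz - (z * a) * this - (g * z) * hab
    set c := u + m * (-(z * a)) with hc
    have hcm : IsCoprime c m := by
      obtain ⟨x, y, hxy⟩ := hu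
      exact ⟨x, y + x * (z * a), by rw [hc]; linear_combination hxy⟩
    have hcD : IsCoprime c D1 := by
      obtain ⟨t, ht⟩ := (Dvd.intro_left g hD1.symm).trans hc1
      exact ⟨1, -t, by linear_combination ht⟩
    have hL : m * D1 ∣ N := by
      obtain ⟨N1, hN1⟩ := hm
      obtain ⟨N2, hN2⟩ := hD
      have e1 : m1 * N1 = D1 * N2 := by
        apply mul_left_cancel₀ hg0
        linear_combination -N1 * hm1 + N2 * hD1 - hN1 + hN2
      have h5 : D1 ∣ N1 := (IsCoprime.symm ⟨a, b, hab⟩).dvd_of_dvd_mul_left ⟨N2, e1⟩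
      obtain ⟨N3, hN3⟩ := h5
      exact ⟨N3, by rw [hN1, hN3]; ring⟩
    obtain ⟨c', hc', hcc⟩ := exists_lift hN hL (hcm.mul_right hcD)
    have h6 : χ c' = 1 := by
      refine h c' hc' ?_
      have h7 : D ∣ c' - c := by
        refine dvd_trans ⟨m1, ?_⟩ hcc
        rw [hD1]
        linear_combination D1 * hm1
      have := dvd_add h7 hc1
      rwa [sub_add_sub_cancel] at this
    rw [← he c' hc'] at h6
    have h8 : m ∣ c' - u := by
      have := dvd_add ((dvd_mul_right m D1).trans hcc)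
        (show m ∣ c - u from ⟨-(z * a), by rw [hc]; ring⟩)
      rwa [sub_add_sub_cancel] at this
    rw [hξ.per.congr h8] at h6
    exact h2 h6

/-- the norm of the conductor. -/
theorem cond_eq (hN : N ≠ 0) (hm : m ∣ N) (hξ : IsCh m ξ) (hp : Prm m ξ)
    (he : ∀ a, IsCoprime a N → ξ a = χ a) (hD : D ∣ N) (h1 : FL N D χ)
    (h2 : ∀ p D', Prime p → D = p * D' → ¬ FL N D' χ) : Associated m D := by
  have hD0 : D ≠ 0 := fun h0 => hN (zero_dvd_iff.mp (h0 ▸ hD))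
  obtain ⟨k, hk⟩ := (dvd_iff_FL hN hm hξ hp he hD).mpr h1
  by_cases hu : IsUnit k
  · obtain ⟨v, hv⟩ := hu
    exact ⟨v, by rw [hv, hk]⟩
  · have hk0 : k ≠ 0 := fun h0 => hD0 (by rw [hk, h0, mul_zero])
    obtain ⟨q, hq, ⟨k', hk'⟩⟩ := WfDvdMonoid.exists_irreducible_factor hu hk0
    have hD' : D = q * (m * k') := by rw [hk, hk']; ring
    exact absurd ((dvd_iff_FL hN hm hξ hp he
      ((Dvd.intro_left q hD'.symm).trans hD)).mp (dvd_mul_right m k'))
      (h2 q _ hq.prime hD')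

/-! ### gluing -/

lemma crt_two (h : IsCoprime P B) (x y : Eis) : ∃ u, P ∣ u - x ∧ B ∣ u - y := by
  obtain ⟨a, b, hab⟩ := h
  refine ⟨x * (b * B) + y * (a * P), ⟨a * (y - x), ?_⟩, ⟨b * (x - y), ?_⟩⟩
  · linear_combination x * hab
  · linear_combination y * hab

lemma cop_of_sub {u x : Eis} (h : P ∣ u - x) (hx : IsCoprime x P) : IsCoprime u P := by
  obtain ⟨t, ht⟩ := h
  obtain ⟨a, b, hab⟩ := hx
  exact ⟨a, b - a * t, by linear_combination hab + a * ht⟩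

lemma cop_one_sub {u : Eis} (h : B ∣ u - 1) : IsCoprime u B := cop_of_sub h isCoprime_one_left

/-- a class modulo `P`, `≡ 1 mod B` -/
lemma exists_cls (h : IsCoprime P B) {x : Eis} (hx : IsCoprime x P) :
    ∃ u, IsCoprime u (P * B) ∧ P ∣ u - x ∧ B ∣ u - 1 := by
  obtain ⟨u, h1, h2⟩ := crt_two h x 1
  exact ⟨u, (cop_of_sub h1 hx).mul_right (cop_one_sub h2), h1, h2⟩

lemma FL.glue (h : IsCoprime P B) (hψ : IsCh (P * B) ψ) {D1 D2 : Eis} (hD1 : D1 ∣ P)
    (hD2 : D2 ∣ B) (h1 : FL (P * B) (D1 * B) ψ) (h2 : FL (P * B) (P * D2) ψ) :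
    FL (P * B) (D1 * D2) ψ := by
  intro c hc hd
  obtain ⟨c1, k1, k2, k3⟩ := exists_cls h (x := c) (IsCoprime.of_isCoprime_of_dvd_right hc
    (dvd_mul_right P B))
  obtain ⟨c2, k4, k5, k6⟩ := exists_cls h.symm (x := c) (IsCoprime.of_isCoprime_of_dvd_right hc
    (dvd_mul_left B P))
  rw [mul_comm B P] at k4
  have e1 : ψ c1 = 1 := by
    refine h1 c1 k1 ((IsCoprime.of_isCoprime_of_dvd_left h hD1).mul_dvd ?_ k3)
    have := dvd_add (hD1.trans k2) ((dvd_mul_right D1 D2).trans hd)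
    rwa [sub_add_sub_cancel] at this
  have e2 : ψ c2 = 1 := by
    refine h2 c2 k4 ((IsCoprime.of_isCoprime_of_dvd_right h hD2).mul_dvd k6 ?_)
    have := dvd_add (hD2.trans k5) ((dvd_mul_left D2 D1).trans hd)
    rwa [sub_add_sub_cancel] at this
  have e3 : P * B ∣ c - c1 * c2 := by
    refine h.mul_dvd ?_ ?_
    · have : c - c1 * c2 = -(c1 - c) * c2 - c * (c2 - 1) := by ring
      rw [this]
      exact dvd_sub ((dvd_neg.mpr k2).mul_right _) (k6.mul_left _)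
    · have : c - c1 * c2 = -(c2 - c) * c1 - c * (c1 - 1) := by ring
      rw [this]
      exact dvd_sub ((dvd_neg.mpr k5).mul_right _) (k3.mul_left _)
  rw [hψ.per.congr e3, hψ.mul, e1, e2, one_mul]

/-! ### roots of unity -/

lemma eq_one_of_coprime {z : ℂ} {a b : ℕ} (h : Nat.Coprime a b) (ha : z ^ a = 1)
    (hb : z ^ b = 1) : z = 1 := by
  have h1 := orderOf_dvd_of_pow_eq_one ha
  have h2 := orderOf_dvd_of_pow_eq_one hb
  have h3 : orderOf z ∣ 1 := by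
    have := Nat.dvd_gcd h1 h2
    rwa [h] at this
  exact orderOf_eq_one_iff.mp (Nat.dvd_one.mp h3)

/-! ### primes prime to 6 -/

lemma dvd_nm (p : Eis) : p ∣ (nm p : Eis) := ⟨_, (Eis.mul_conj p).symm⟩

lemma prime_conj {p : Eis} (hp : Prime p) : Prime (Eis.conj p) := by
  have hinj : ∀ a b : Eis, Eis.conj a = Eis.conj b → a = b := by
    intro a b h
    rw [← Eis.conj_conj a, h, Eis.conj_conj]
  refine Irreducible.prime ⟨fun hu => hp.not_isUnit ?_, fun a b hab => ?_⟩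
  · rw [isUnit_iff] at hu ⊢
    rwa [nm_conj] at hu
  · have h1 : p = Eis.conj a * Eis.conj b := by
      rw [← Eis.conj_mul, ← hab, Eis.conj_conj]
    rcases hp.irreducible.isUnit_or_isUnit h1 with h | h
    · left
      rw [isUnit_iff] at h ⊢
      rwa [nm_conj] at h
    · right
      rw [isUnit_iff] at h ⊢
      rwa [nm_conj] at h

/-- `p ∤ 6` prime: `gcd (nm p, 6) = 1` -/
lemma nm_coprime_six {p : Eis} (hp : Prime p) (h6 : ¬ p ∣ 6) : Nat.Coprime (nm p) 6 := by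
  have key : ∀ q : Eis, Prime q → q ∣ 6 → Associated (Eis.conj q) q → ¬ q ∣ (nm p : Eis) := by
    intro q hq hq6 hqc h
    rw [← Eis.mul_conj] at h
    rcases hq.dvd_or_dvd h with h1 | h1
    · exact h6 (((hq.associated_of_dvd hp h1).symm.dvd).trans hq6)
    · have h2 : Associated q (Eis.conj p) := hq.associated_of_dvd (prime_conj hp) h1
      have h3 : p ∣ Eis.conj q := by
        obtain ⟨t, ht⟩ := h2.symm.dvd
        refine ⟨Eis.conj t, ?_⟩
        rw [ht, Eis.conj_mul, Eis.conj_conj]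
      exact h6 ((h3.trans hqc.dvd).trans hq6)
  have h2 : ¬ (2 : Eis) ∣ (nm p : Eis) := key 2 prime_two ⟨3, by norm_num⟩ (by
    have : Eis.conj (2 : Eis) = 2 := by decide
    rw [this])
  have h3 : ¬ lam ∣ (nm p : Eis) := key lam prime_lam
    ((Dvd.intro_left (-w ^ 2 * lam) (by rw [three_eq]; ring : (-w ^ 2 * lam) * lam = 3)).trans
      ⟨2, by norm_num⟩) (by
    refine ⟨⟨-w, -w ^ 2, by decide, by decide⟩, ?_⟩
    decide)
  rw [show (6 : ℕ) = 2 * 3 by norm_num]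
  refine Nat.Coprime.mul_right ?_ ?_
  · rw [Nat.coprime_comm, Nat.Prime.coprime_iff_not_dvd Nat.prime_two]
    rintro ⟨k, hk⟩
    exact h2 ⟨(k : Eis), by rw [hk]; push_cast; ring⟩
  · rw [Nat.coprime_comm, Nat.Prime.coprime_iff_not_dvd Nat.prime_three]
    rintro ⟨k, hk⟩
    apply h3
    rw [hk]
    push_cast
    rw [three_eq]
    exact Dvd.intro_left (-w ^ 2 * lam * k) (by ring)

lemma add_pow_le_aux (x : Eis) : ∀ n : ℕ, ∃ k, (1 + x) ^ n = 1 + (n : Eis) * x + x ^ 2 * k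
  | 0 => ⟨0, by simp⟩
  | n + 1 => by
    obtain ⟨k, hk⟩ := add_pow_le_aux x n
    refine ⟨(n : Eis) + k + x * k, ?_⟩
    rw [pow_succ, hk]
    push_cast
    ring

lemma six_mod_eight {c : Eis} (hc : ¬ (2 : Eis) ∣ c) : (8 : Eis) ∣ c ^ 6 - 1 ∨ (8 : Eis) ∣ c ^ 6 - 5 := by
  obtain ⟨a, b⟩ := c
  -- `c³ = 1 + 2 y`
  have h1 : ∃ y : Eis, (⟨a, b⟩ : Eis) ^ 3 = 1 + 2 * y := by
    have h2 : ∀ c : Eis, ∃ q : Eis, c = 2 * q + ⟨c.re % 2, c.im % 2⟩ := by
      intro c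
      refine ⟨⟨c.re / 2, c.im / 2⟩, ?_⟩
      apply ext'
      · simp
        omega
      · simp
        omega
    obtain ⟨q, hq⟩ := h2 ⟨a, b⟩
    simp only at hq
    rw [hq] at hc ⊢
    rcases Int.emod_two_eq_zero_or_one a with ha | ha <;>
      rcases Int.emod_two_eq_zero_or_one b with hb | hb
    · exfalso
      apply hc
      rw [ha, hb]
      exact ⟨q, by apply ext' <;> simp⟩
    · rw [ha, hb]
      have e : (⟨0, 1⟩ : Eis) = w := rfl
      rw [e]
      have h3 := w_cube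
      exact ⟨4 * q ^ 3 + 6 * q ^ 2 * w + 3 * q * w ^ 2, by linear_combination h3⟩
    · rw [ha, hb]
      have e : (⟨1, 0⟩ : Eis) = 1 := rfl
      rw [e]
      exact ⟨4 * q ^ 3 + 6 * q ^ 2 + 3 * q, by ring⟩
    · rw [ha, hb]
      have e : (⟨1, 1⟩ : Eis) = 1 + w := by decide
      rw [e]
      have h3 : (1 + w) ^ 3 = (-1 : Eis) := by decide
      exact ⟨4 * q ^ 3 + 6 * q ^ 2 * (1 + w) + 3 * q * (1 + w) ^ 2 - 1, by
        linear_combination h3⟩
  obtain ⟨y, hy⟩ := h1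
  -- `y + y²` modulo 2
  have h2 : ∃ z : Eis, y + y ^ 2 = 2 * z ∨ y + y ^ 2 = 1 + 2 * z := by
    obtain ⟨q, hq⟩ : ∃ q : Eis, y = 2 * q + ⟨y.re % 2, y.im % 2⟩ := by
      refine ⟨⟨y.re / 2, y.im / 2⟩, ?_⟩
      apply ext'
      · simp
        omega
      · simp
        omega
    rw [hq]
    rcases Int.emod_two_eq_zero_or_one y.re with ha | ha <;>
      rcases Int.emod_two_eq_zero_or_one y.im with hb | hb
    · rw [ha, hb]
      have e : (⟨0, 0⟩ : Eis) = 0 := rfl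
      rw [e]
      exact ⟨q + 2 * q ^ 2, Or.inl (by ring)⟩
    · rw [ha, hb]
      have e : (⟨0, 1⟩ : Eis) = w := rfl
      rw [e]
      have h3 := w_sq
      exact ⟨q + 2 * q ^ 2 + 2 * q * w - 1, Or.inr (by linear_combination h3)⟩
    · rw [ha, hb]
      have e : (⟨1, 0⟩ : Eis) = 1 := rfl
      rw [e]
      exact ⟨q + 2 * q ^ 2 + 2 * q + 1, Or.inl (by ring)⟩
    · rw [ha, hb]
      have e : (⟨1, 1⟩ : Eis) = 1 + w := by decide
      rw [e]
      have h3 := w_sq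
      exact ⟨q + 2 * q ^ 2 + 2 * q * (1 + w) + w, Or.inr (by linear_combination h3)⟩
  obtain ⟨z, hz⟩ := h2
  have e6 : (⟨a, b⟩ : Eis) ^ 6 = (1 + 2 * y) ^ 2 := by rw [← hy]; ring
  rcases hz with hz | hz
  · left
    exact ⟨z, by rw [e6]; linear_combination 4 * hz⟩
  · right
    exact ⟨z, by rw [e6]; linear_combination 4 * hz⟩

/-! ### local statements: `p ∤ 6` -/

/-- `p ∤ 6`, `p ∣ D`: if `ψ⁶` is trivial on `1 mod D` and `ψ` on `1 mod p D`, then `ψ` is trivial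
on `1 mod D`. -/
theorem FL.desc (hψ : IsCh N ψ) {p : Eis} (hp : Prime p) (h6 : ¬ p ∣ 6) (hpD : p ∣ D)
    (h1 : FL N (p * D) ψ) (h2 : FL N D (fun c => ψ c ^ 6)) : FL N D ψ := by
  intro c hc hd
  have e1 : ψ c ^ 6 = 1 := h2 c hc hd
  have e2 : ψ c ^ nm p = 1 := by
    rw [← psi_pow hψ]
    refine h1 _ hc.pow_left ?_
    obtain ⟨y, hy⟩ := hd
    obtain ⟨t, ht⟩ := dvd_nm p
    obtain ⟨D', hD'⟩ := hpD
    have ec : c = 1 + D * y := by linear_combination hy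
    obtain ⟨k, hk⟩ := add_pow_le_aux (D * y) (nm p)
    rw [ec, hk]
    have : (1 + (nm p : Eis) * (D * y) + (D * y) ^ 2 * k) - 1 =
        p * D * (t * y + D' * y ^ 2 * k) := by
      rw [ht]
      linear_combination (D * y ^ 2 * k) * hD'
    rw [this]
    exact dvd_mul_right _ _
  exact eq_one_of_coprime (nm_coprime_six hp h6) e2 e1

/-! ### local statements: `p = 2` -/

section two

variable {r k f : ℕ}

lemma sq_lift {k : ℕ} (hk : 1 ≤ k) {c : Eis} (h : (2 : Eis) ^ k * B ∣ c - 1) :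
    (2 : Eis) ^ (k + 1) * B ∣ c ^ 2 - 1 := by
  obtain ⟨y, hy⟩ := h
  obtain ⟨j, rfl⟩ := Nat.exists_eq_add_of_le' hk
  refine ⟨y + 2 ^ j * B * y ^ 2, ?_⟩
  have ec : c = 1 + 2 ^ (j + 1) * B * y := by linear_combination hy
  rw [ec]
  ring

/-- `ψ⁶` is trivial one level below. -/
theorem FL.two_up (hψ : IsCh N ψ) (hk : 1 ≤ k) (h : FL N ((2 : Eis) ^ (k + 1) * B) ψ) :
    FL N ((2 : Eis) ^ k * B) (fun c => ψ c ^ 6) := by
  intro c hc hd
  have h1 : ψ (c ^ 2) = 1 := h _ hc.pow_left (sq_lift hk hd)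
  beta_reduce
  rw [show (6 : ℕ) = 2 * 3 by norm_num, pow_mul, ← psi_pow hψ, h1, one_pow]

/-- wild case -/
theorem FL.two_wild (hψ : IsCh (2 ^ r * B) ψ) (hf : 4 ≤ f)
    (hfr : f ≤ r) (h1 : FL (2 ^ r * B) ((2 : Eis) ^ f * B) ψ)
    (h2 : ¬ FL (2 ^ r * B) ((2 : Eis) ^ (f - 1) * B) ψ) :
    ¬ FL (2 ^ r * B) ((2 : Eis) ^ (f - 2) * B) (fun c => ψ c ^ 6) := by
  intro h
  apply h2
  obtain ⟨j, rfl⟩ : ∃ j, f = j + 4 := ⟨f - 4, by omega⟩
  rw [show j + 4 - 1 = j + 3 by omega]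
  rw [show j + 4 - 2 = j + 2 by omega] at h
  intro c hc hd
  obtain ⟨y, hy⟩ := hd
  have ec : c = 1 + 2 ^ (j + 3) * B * y := by linear_combination hy
  -- `d = 1 + 2^(j+2) B y`
  set d : Eis := 1 + 2 ^ (j + 2) * B * y with hd'
  have hdc : IsCoprime d (2 ^ r * B) := by
    refine IsCoprime.mul_right (IsCoprime.pow_right ?_) ?_
    · exact cop_one_sub ⟨2 ^ (j + 1) * B * y, by rw [hd']; ring⟩
    · exact cop_one_sub ⟨2 ^ (j + 2) * y, by rw [hd']; ring⟩
  have e1 : ψ d ^ 6 = 1 := h d hdc ⟨y, by rw [hd']; ring⟩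
  -- `d² ≡ c mod 2^(j+4) B`
  obtain ⟨c', hc', hcc⟩ := exists_inv hc
  have e2 : ψ (d ^ 2 * c') = 1 := by
    refine h1 _ (hdc.pow_left.mul_left hc') ?_
    obtain ⟨t, ht⟩ := hcc
    have h5 : (2 : Eis) ^ r = 2 ^ (j + 4) * 2 ^ (r - (j + 4)) := by
      rw [← pow_add]; congr 1; omega
    refine ⟨2 ^ j * B * y ^ 2 * c' + 2 ^ (r - (j + 4)) * t, ?_⟩
    have h6 : c * c' - 1 = 2 ^ (j + 4) * 2 ^ (r - (j + 4)) * B * t := by rw [ht, h5]
    have h7 : d ^ 2 = c + 2 ^ (j + 4) * B * (2 ^ j * B * y ^ 2) := by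
      rw [hd', ec]; ring
    rw [h7]
    linear_combination h6
  have e3 : ψ c * ψ c' = 1 := by
    rw [← hψ.mul, hψ.per.congr hcc, hψ.one]
  have e4 : ψ d ^ 2 = ψ c := by
    rw [hψ.mul, psi_pow hψ] at e2
    have : ψ c' ≠ 0 := right_ne_zero_of_mul_eq_one e3
    exact mul_right_cancel₀ this (e2.trans e3.symm)
  have e5 : ψ c ^ 3 = 1 := by
    rw [← e4, ← pow_mul]; exact e1
  have e6 : ψ c ^ 2 = 1 := by
    rw [← psi_pow hψ]
    exact h1 _ hc.pow_left (sq_lift (k := j + 3) (by omega) ⟨y, hy⟩)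
  exact eq_one_of_coprime (by norm_num) e5 e6

/-- level three, nontrivial at `5`. -/
theorem FL.two_three (hψ : IsCh (2 ^ r * B) ψ) (hB : IsCoprime ((2 : Eis) ^ r) B) (hr : 3 ≤ r)
    (h1 : FL (2 ^ r * B) ((2 : Eis) ^ 3 * B) ψ)
    (h5 : ∃ c, (8 : Eis) ∣ c - 5 ∧ B ∣ c - 1 ∧ ψ c ≠ 1) :
    ¬ FL (2 ^ r * B) ((2 : Eis) ^ 1 * B) (fun c => ψ c ^ 6) := by
  intro h
  obtain ⟨c, hc5, hcB, hc1⟩ := h5
  apply hc1
  have hB2 : IsCoprime (2 : Eis) B := IsCoprime.of_isCoprime_of_dvd_left hB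
    (dvd_pow_self 2 (by omega))
  have hodd : IsCoprime c 2 := cop_one_sub (by
    obtain ⟨t, ht⟩ := hc5
    exact ⟨4 * t + 2, by linear_combination ht⟩)
  have hc : IsCoprime c (2 ^ r * B) := (IsCoprime.pow_right hodd).mul_right (cop_one_sub hcB)
  obtain ⟨d, hd, hd1, hd2⟩ := exists_cls (hB2.pow_left (m := 3)) (x := 1 + 2 * w)
    (IsCoprime.pow_right (cop_one_sub ⟨w, by ring⟩))
  have hdc : IsCoprime d (2 ^ r * B) := by
    refine IsCoprime.mul_right (IsCoprime.pow_right ?_) (cop_one_sub hd2)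
    exact IsCoprime.of_isCoprime_of_dvd_right hd (Dvd.intro (2 ^ 2 * B) (by ring))
  have hd2' : (2 : Eis) ∣ d - 1 := by
    obtain ⟨t, ht⟩ := hd1
    exact ⟨2 ^ 2 * t + w, by linear_combination ht⟩
  have e1 : ψ d ^ 6 = 1 := h d hdc (by
    rw [pow_one]
    exact hB2.mul_dvd hd2' hd2)
  obtain ⟨c', hc', hcc⟩ := exists_inv hc
  have h8 : (8 : Eis) ∣ d ^ 2 - c := by
    obtain ⟨t, ht⟩ := hd1
    obtain ⟨s, hs⟩ := hc5
    refine ⟨t * (d + (1 + 2 * w)) - s - 1, ?_⟩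
    have hw : w ^ 2 = -1 - w := w_sq
    linear_combination (d + (1 + 2 * w)) * ht - hs + 4 * hw
  have e2 : ψ (d ^ 2 * c') = 1 := by
    refine h1 _ (hdc.pow_left.mul_left hc') ?_
    refine (hB2.pow_left (m := 3)).mul_dvd ?_ ?_
    · have h9 : (2 : Eis) ^ 3 ∣ c * c' - 1 :=
        (Dvd.dvd.mul_right (pow_dvd_pow 2 hr) B).trans hcc
      have : d ^ 2 * c' - 1 = (d ^ 2 - c) * c' + (c * c' - 1) := by ring
      rw [this]
      refine dvd_add ?_ h9
      rw [show (2 : Eis) ^ 3 = 8 by norm_num]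
      exact h8.mul_right _
    · have h9 : B ∣ c * c' - 1 := (dvd_mul_left B _).trans hcc
      have : d ^ 2 * c' - 1 = (d - 1) * ((d + 1) * c') - (c - 1) * c' + (c * c' - 1) := by ring
      rw [this]
      exact dvd_add (dvd_sub (hd2.mul_right _) (hcB.mul_right _)) h9
  have e3 : ψ c * ψ c' = 1 := by
    rw [← hψ.mul, hψ.per.congr hcc, hψ.one]
  have e4 : ψ d ^ 2 = ψ c := by
    rw [hψ.mul, psi_pow hψ] at e2
    have : ψ c' ≠ 0 := right_ne_zero_of_mul_eq_one e3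
    exact mul_right_cancel₀ this (e2.trans e3.symm)
  have e5 : ψ c ^ 3 = 1 := by
    rw [← e4, ← pow_mul]; exact e1
  have e6 : ψ c ^ 2 = 1 := by
    rw [← psi_pow hψ]
    refine h1 _ hc.pow_left ((hB2.pow_left (m := 3)).mul_dvd ?_ ?_)
    · obtain ⟨s, hs⟩ := hc5
      refine ⟨8 * s ^ 2 + 10 * s + 3, ?_⟩
      have : c = 5 + 8 * s := by linear_combination hs
      rw [this]
      ring
    · have : c ^ 2 - 1 = (c - 1) * (c + 1) := by ring
      rw [this]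
      exact hcB.mul_right _
  exact eq_one_of_coprime (by norm_num) e5 e6

/-- Hilbert type at `2` -/
theorem FL.two_hilb (hψ : IsCh (2 ^ r * B) ψ) (hB : IsCoprime ((2 : Eis) ^ r) B) (hr : 3 ≤ r)
    (h1 : FL (2 ^ r * B) ((2 : Eis) ^ 3 * B) ψ)
    (h5 : ∀ c, (8 : Eis) ∣ c - 5 → B ∣ c - 1 → ψ c = 1) :
    FL (2 ^ r * B) B (fun c => ψ c ^ 6) := by
  intro c hc hcB
  have hB2 : IsCoprime (2 : Eis) B := IsCoprime.of_isCoprime_of_dvd_left hB
    (dvd_pow_self 2 (by omega))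
  have hodd : ¬ (2 : Eis) ∣ c := by
    intro h
    have h1 : IsCoprime c 2 := IsCoprime.of_isCoprime_of_dvd_right hc
      ((dvd_pow_self 2 (by omega)).mul_right B)
    have h2 : IsCoprime (2 : Eis) 2 := IsCoprime.of_isCoprime_of_dvd_left h1 h
    exact prime_two.not_isUnit (isCoprime_self.mp h2)
  have h6B : B ∣ c ^ 6 - 1 := by
    have : c ^ 6 - 1 = (c - 1) * (c ^ 5 + c ^ 4 + c ^ 3 + c ^ 2 + c + 1) := by ring
    rw [this]
    exact hcB.mul_right _
  beta_reduce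
  rw [← psi_pow hψ]
  rcases six_mod_eight hodd with h | h
  · refine h1 _ hc.pow_left ((hB2.pow_left (m := 3)).mul_dvd ?_ h6B)
    rw [show (2 : Eis) ^ 3 = 8 by norm_num]
    exact h
  · exact h5 _ h h6B

end two

/-! ### local statements: `p = λ` -/

section lambda

variable {r k f : ℕ}

lemma cube_lift {k : ℕ} (hk : 1 ≤ k) {c : Eis} (h : lam ^ k * B ∣ c - 1) :
    lam ^ (k + 2) * B ∣ c ^ 3 - 1 := by
  obtain ⟨y, hy⟩ := h
  obtain ⟨j, rfl⟩ := Nat.exists_eq_add_of_le' hk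
  have h3 := three_eq
  refine ⟨-w ^ 2 * y - w ^ 2 * lam ^ (j + 1) * B * y ^ 2 + lam ^ (2 * j) * B ^ 2 * y ^ 3, ?_⟩
  have ec : c = 1 + lam ^ (j + 1) * B * y := by linear_combination hy
  rw [ec]
  linear_combination (lam ^ (j + 1) * B * y + (lam ^ (j + 1) * B * y) ^ 2) * h3

/-- `ψ⁶` is trivial two levels below. -/
theorem FL.lam_up (hψ : IsCh N ψ) (hk : 1 ≤ k) (h : FL N (lam ^ (k + 2) * B) ψ) :
    FL N (lam ^ k * B) (fun c => ψ c ^ 6) := by
  intro c hc hd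
  have h1 : ψ (c ^ 3) = 1 := h _ hc.pow_left (cube_lift hk hd)
  beta_reduce
  rw [show (6 : ℕ) = 3 * 2 by norm_num, pow_mul, ← psi_pow hψ, h1, one_pow]

/-- wild case -/
theorem FL.lam_wild (hψ : IsCh (lam ^ r * B) ψ) (hf : 5 ≤ f) (hfr : f ≤ r)
    (h1 : FL (lam ^ r * B) (lam ^ f * B) ψ) (h2 : ¬ FL (lam ^ r * B) (lam ^ (f - 1) * B) ψ) :
    ¬ FL (lam ^ r * B) (lam ^ (f - 3) * B) (fun c => ψ c ^ 6) := by
  intro h
  apply h2
  obtain ⟨j, rfl⟩ : ∃ j, f = j + 5 := ⟨f - 5, by omega⟩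
  rw [show j + 5 - 1 = j + 4 by omega]
  rw [show j + 5 - 3 = j + 2 by omega] at h
  intro c hc hd
  obtain ⟨y, hy⟩ := hd
  have ec : c = 1 + lam ^ (j + 4) * B * y := by linear_combination hy
  set d : Eis := 1 - w * lam ^ (j + 2) * B * y with hd'
  have hdc : IsCoprime d (lam ^ r * B) := by
    refine IsCoprime.mul_right (IsCoprime.pow_right ?_) ?_
    · exact cop_one_sub ⟨-w * lam ^ (j + 1) * B * y, by rw [hd']; ring⟩
    · exact cop_one_sub ⟨-w * lam ^ (j + 2) * y, by rw [hd']; ring⟩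
  have e1 : ψ d ^ 6 = 1 := h d hdc ⟨-w * y, by rw [hd']; ring⟩
  obtain ⟨c', hc', hcc⟩ := exists_inv hc
  have h3 := three_eq
  have hw := w_cube
  have h7 : d ^ 3 = c + lam ^ (j + 5) * B *
      (-w * lam ^ (j + 1) * B * y ^ 2 - lam ^ (2 * j + 1) * B ^ 2 * y ^ 3) := by
    rw [hd', ec]
    linear_combination (-w * lam ^ (j + 2) * B * y + w ^ 2 * (lam ^ (j + 2) * B * y) ^ 2) * h3 +
      (lam ^ (j + 4) * B * y - w * lam ^ (2 * j + 6) * B ^ 2 * y ^ 2 -
        (lam ^ (j + 2) * B * y) ^ 3) * hw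
  have e2 : ψ (d ^ 3 * c') = 1 := by
    refine h1 _ (hdc.pow_left.mul_left hc') ?_
    obtain ⟨t, ht⟩ := hcc
    have h5 : lam ^ r = lam ^ (j + 5) * lam ^ (r - (j + 5)) := by
      rw [← pow_add]; congr 1; omega
    refine ⟨(-w * lam ^ (j + 1) * B * y ^ 2 - lam ^ (2 * j + 1) * B ^ 2 * y ^ 3) * c' +
      lam ^ (r - (j + 5)) * t, ?_⟩
    have h6 : c * c' - 1 = lam ^ (j + 5) * lam ^ (r - (j + 5)) * B * t := by rw [ht, h5]
    rw [h7]
    linear_combination h6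
  have e3 : ψ c * ψ c' = 1 := by
    rw [← hψ.mul, hψ.per.congr hcc, hψ.one]
  have e4 : ψ d ^ 3 = ψ c := by
    rw [hψ.mul, psi_pow hψ] at e2
    have : ψ c' ≠ 0 := right_ne_zero_of_mul_eq_one e3
    exact mul_right_cancel₀ this (e2.trans e3.symm)
  have e5 : ψ c ^ 2 = 1 := by
    rw [← e4, ← pow_mul]; exact e1
  have e6 : ψ c ^ 3 = 1 := by
    rw [← psi_pow hψ]
    refine h1 _ hc.pow_left (dvd_trans ?_ (cube_lift (k := j + 4) (by omega) ⟨y, hy⟩))
    exact mul_dvd_mul_right (pow_dvd_pow lam (by omega)) B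
  exact eq_one_of_coprime (by norm_num) e5 e6

lemma unit_six {u : Eis} (hu : IsUnit u) : u ^ 6 = 1 := by
  rcases isUnit_cases hu with h | h | h | h | h | h <;> subst h <;> decide

/-- Hilbert type at `λ` -/
theorem FL.lam_hilb (hψ : IsCh (lam ^ r * B) ψ) (hB : IsCoprime lam B) (hr : 1 ≤ r)
    (h1 : FL (lam ^ r * B) (lam ^ 4 * B) ψ) :
    FL (lam ^ r * B) B (fun c => ψ c ^ 6) := by
  intro c hc hcB
  have hl : ¬ lam ∣ c := by
    intro h
    have h1 : IsCoprime c lam := IsCoprime.of_isCoprime_of_dvd_right hc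
      ((dvd_pow_self lam (by omega)).mul_right B)
    have h2 : IsCoprime lam lam := IsCoprime.of_isCoprime_of_dvd_left h1 h
    exact prime_lam.not_isUnit (isCoprime_self.mp h2)
  beta_reduce
  rw [← psi_pow hψ]
  refine h1 _ hc.pow_left ((hB.pow_left (m := 4)).mul_dvd ?_ ?_)
  · obtain ⟨u, hu⟩ := exists_unit_mul_isPrim hl
    obtain ⟨y, hy⟩ := hu
    have h6 := unit_six u.isUnit
    have e1 : c ^ 6 = ((u : Eis) * c) ^ 6 := by rw [mul_pow, h6, one_mul]
    have e2 : (u : Eis) * c = 1 + 3 * y := by linear_combination hy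
    have h9 : (9 : Eis) = lam ^ 4 * w := by
      have h3 := three_eq
      have hw := w_cube
      linear_combination (3 - w ^ 2 * lam ^ 2) * h3 + lam ^ 4 * w * hw
    rw [e1, e2]
    have : (1 + 3 * y) ^ 6 - 1 = 9 * ((y + 3 * y ^ 2 + 3 * y ^ 3) * (2 + 9 * (y + 3 * y ^ 2 +
        3 * y ^ 3))) := by ring
    rw [this, h9, mul_assoc]
    exact dvd_mul_right _ _
  · have : c ^ 6 - 1 = (c - 1) * (c ^ 5 + c ^ 4 + c ^ 3 + c ^ 2 + c + 1) := by ring
    rw [this]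
    exact hcB.mul_right _

end lambda

/-! ### the norm of the conductor -/

/-- exact level `s` of `χ` at `p`, `N = p^r B` -/
structure Lvx (N B p : Eis) (r s : ℕ) (χ : Eis → ℂ) : Prop where
  le : s ≤ r
  fl : FL N (p ^ s * B) χ
  nfl : s ≠ 0 → ¬ FL N (p ^ (s - 1) * B) χ

lemma pow_dvd_split {p : Eis} (hp : Prime p) {s : ℕ} {q D' X : Eis} (hq : Prime q)
    (h : p ^ s * X = q * D') (hqX : ¬ q ∣ X) :
    s ≠ 0 ∧ ∃ u : Eisˣ, q = p * u ∧ p ^ (s - 1) * X = u * D' := by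
  have h1 : q ∣ p ^ s * X := ⟨D', h⟩
  rcases hq.dvd_or_dvd h1 with h2 | h2
  · have hs : s ≠ 0 := by
      rintro rfl
      rw [pow_zero] at h2
      exact hq.not_isUnit (isUnit_of_dvd_one h2)
    have h3 : Associated p q := ((hq.associated_of_dvd hp (hq.dvd_of_dvd_pow h2))).symm
    obtain ⟨u, hu⟩ := h3
    refine ⟨hs, u, hu.symm, ?_⟩
    apply mul_left_cancel₀ hp.ne_zero
    have e : p * p ^ (s - 1) = p ^ s := by
      rw [← pow_succ']; congr 1; omega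
    rw [← mul_assoc, e, h, ← hu]
    ring
  · exact absurd h2 hqX

/-- **The norm of the conductor**, `N = 2^r₂ λ^r₃ A`. -/
theorem nm_cond {r2 rl s2 sl : ℕ} {A m1 : Eis} (hN : N = (2 : Eis) ^ r2 * (lam ^ rl * A))
    (hN0 : N ≠ 0) (h2A : ¬ (2 : Eis) ∣ A) (hlA : ¬ lam ∣ A) (hχ : IsCh N χ) (hm : m ∣ N)
    (hξ : IsCh m ξ) (hp : Prm m ξ) (he : ∀ a, IsCoprime a N → ξ a = χ a)
    (L2 : Lvx N (lam ^ rl * A) 2 r2 s2 χ) (Ll : Lvx N ((2 : Eis) ^ r2 * A) lam rl sl χ)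
    (hm1 : m1 ∣ A) (hA : FL N (m1 * ((2 : Eis) ^ r2 * lam ^ rl)) χ)
    (hA' : ∀ p m2, Prime p → m1 = p * m2 → ¬ FL N (m2 * ((2 : Eis) ^ r2 * lam ^ rl)) χ) :
    nm m = 4 ^ s2 * 3 ^ sl * nm m1 := by
  have hp2 : Prime (2 : Eis) := prime_two
  have hpl : Prime lam := prime_lam
  have h2l : ¬ (2 : Eis) ∣ lam := by
    rintro ⟨t, ht⟩
    have := congrArg nm ht
    have e1 : nm (2 : Eis) = 4 := by decide
    have e2 : nm lam = 3 := by decide
    rw [nm_mul, e1, e2] at this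
    omega
  have hl2 : ¬ lam ∣ (2 : Eis) := by
    rintro ⟨t, ht⟩
    have := congrArg nm ht
    have e1 : nm (2 : Eis) = 4 := by decide
    have e2 : nm lam = 3 := by decide
    rw [nm_mul, e1, e2] at this
    omega
  have c2l : IsCoprime (2 : Eis) lam := (hp2.irreducible.coprime_iff_not_dvd).mpr h2l
  have c2A : IsCoprime (2 : Eis) A := (hp2.irreducible.coprime_iff_not_dvd).mpr h2A
  have clA : IsCoprime lam A := (hpl.irreducible.coprime_iff_not_dvd).mpr hlA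
  set D : Eis := (2 : Eis) ^ s2 * (lam ^ sl * m1) with hD
  have hDN : D ∣ N := by
    rw [hN, hD]
    exact mul_dvd_mul (pow_dvd_pow _ L2.le) (mul_dvd_mul (pow_dvd_pow _ Ll.le) hm1)
  have hass : Associated m D := by
    refine cond_eq hN0 hm hξ hp he hDN ?_ ?_
    · -- trivial modulo `D`
      subst hN
      refine FL.glue ((c2l.pow_right.mul_right c2A).pow_left) hχ (pow_dvd_pow _ L2.le)
        (mul_dvd_mul (pow_dvd_pow _ Ll.le) hm1) L2.fl ?_
      have e1 : (2 : Eis) ^ r2 * (lam ^ rl * A) = lam ^ rl * ((2 : Eis) ^ r2 * A) := by ring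
      have e2 : (2 : Eis) ^ r2 * (lam ^ sl * m1) = lam ^ sl * ((2 : Eis) ^ r2 * m1) := by ring
      rw [e1, e2]
      have hχ' : IsCh (lam ^ rl * ((2 : Eis) ^ r2 * A)) χ := by rw [← e1]; exact hχ
      refine FL.glue (((c2l.symm.pow_right).mul_right clA).pow_left) hχ' (pow_dvd_pow _ Ll.le)
        (mul_dvd_mul dvd_rfl hm1) ?_ ?_
      · rw [← e1]; exact Ll.fl
      · rw [← e1, show lam ^ rl * ((2 : Eis) ^ r2 * m1) = m1 * ((2 : Eis) ^ r2 * lam ^ rl) by ring]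
        exact hA
    · intro q D' hq hqD hFL
      have hq2 : q ∣ D := ⟨D', hqD⟩
      rw [hD] at hq2
      rcases hq.dvd_or_dvd hq2 with h | h
      · -- `q ~ 2`
        have hqq : Associated q 2 := hq.associated_of_dvd hp2 (hq.dvd_of_dvd_pow h)
        have hqX : ¬ q ∣ lam ^ sl * m1 := by
          intro h'
          rcases hq.dvd_or_dvd h' with h3 | h3
          · exact h2l (hqq.symm.dvd.trans (hq.dvd_of_dvd_pow h3))
          · exact h2A (hqq.symm.dvd.trans (h3.trans hm1))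
        obtain ⟨hs, u, -, hu⟩ := pow_dvd_split hp2 hq (by rw [← hD]; exact hqD) hqX
        refine L2.nfl hs (hFL.mono ?_)
        have h5 : D' ∣ (2 : Eis) ^ (s2 - 1) * (lam ^ sl * m1) := ⟨u, by rw [hu]; ring⟩
        exact h5.trans (mul_dvd_mul_left _ (mul_dvd_mul (pow_dvd_pow _ Ll.le) hm1))
      · rcases hq.dvd_or_dvd h with h | h
        · have hqq : Associated q lam := hq.associated_of_dvd hpl (hq.dvd_of_dvd_pow h)
          have hqX : ¬ q ∣ (2 : Eis) ^ s2 * m1 := by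
            intro h'
            rcases hq.dvd_or_dvd h' with h3 | h3
            · exact hl2 (hqq.symm.dvd.trans (hq.dvd_of_dvd_pow h3))
            · exact hlA (hqq.symm.dvd.trans (h3.trans hm1))
          obtain ⟨hs, u, -, hu⟩ := pow_dvd_split (s := sl) (X := (2 : Eis) ^ s2 * m1) hpl hq
            (by rw [← hqD, hD]; ring) hqX
          refine Ll.nfl hs (hFL.mono ?_)
          have h5 : D' ∣ lam ^ (sl - 1) * ((2 : Eis) ^ s2 * m1) := ⟨u, by rw [hu]; ring⟩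
          exact h5.trans (mul_dvd_mul_left _ (mul_dvd_mul (pow_dvd_pow _ L2.le) hm1))
        · obtain ⟨m2, hm2⟩ := h
          refine hA' q m2 hq hm2 (hFL.mono ?_)
          have h5 : D' = (2 : Eis) ^ s2 * lam ^ sl * m2 := by
            apply mul_left_cancel₀ hq.ne_zero
            rw [← hqD, hD, hm2]
            ring
          rw [h5, mul_comm m2]
          exact mul_dvd_mul_right (mul_dvd_mul (pow_dvd_pow _ L2.le) (pow_dvd_pow _ Ll.le)) m2
  have h1 : nm m = nm D := by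
    obtain ⟨u, hu⟩ := hass
    rw [← hu, nm_mul, isUnit_iff.mp u.isUnit, mul_one]
  rw [h1, hD, nm_mul, nm_mul, nm_pow, nm_pow]
  have e1 : nm (2 : Eis) = 4 := by decide
  have e2 : nm lam = 3 := by decide
  rw [e1, e2]
  ring

end Crest.Agent.R017.Cond499
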