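import Crest.Agent.R017.Loc2_266

/-!
# Row 17: the complete sums vanish unless `(h, m) = 1`

* `exists_split` : `h = h₁ h₂`, `h₁` prime to `m`, every prime of `h₂` divides `m`.
* `exists_u` : `χ` character modulo `m`, primitive; `p ∣ m`, `p ∣ h`, `p² ∣ m`; then there is `u`
  prime to `m h`, `m ∣ (u-1) h`, `u ≡ 1` modulo every prime of `m h` other than those `q ∥ m`,
  `χ u ≠ 1`.
* `tot_zero` : the complete sum modulo `m h` is zero when `(h, m) ≠ 1`, `m` squarefull.
* `sy_eq_one` : `(u/c)_3 = 1` if `u ≡ 1` modulo every prime of `c`.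
-/

set_option autoImplicit false

noncomputable section

open Complex
open scoped ComplexConjugate

namespace Crest.Agent.R017.Loc266

open Crest.Agent.R012 Crest.Agent.R012.Eis Crest.Agent.R012.Gauss880

variable {m n c d : Eis} {α β g k : Eis → ℂ}

lemma exists_split (m : Eis) {h : Eis} (hh : h ≠ 0) :
    ∃ h1 h2, h = h1 * h2 ∧ IsCoprime h1 m ∧ ∀ q, Prime q → q ∣ h2 → q ∣ m := by
  induction h using UniqueFactorizationMonoid.induction_on_prime with
  | h₁ => exact absurd rfl hh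
  | h₂ x hx =>
    exact ⟨x, 1, by ring, isCoprime_of_isUnit hx m, fun q hq h => absurd (isUnit_of_dvd_one h)
      hq.not_isUnit⟩
  | h₃ a p ha hp ih =>
    obtain ⟨h1, h2, he, hc, hd⟩ := ih ha
    by_cases hpm : p ∣ m
    · refine ⟨h1, p * h2, by rw [he]; ring, hc, fun q hq h => ?_⟩
      rcases hq.dvd_or_dvd h with h' | h'
      · exact h'.trans hpm
      · exact hd q hq h'
    · refine ⟨p * h1, h2, by rw [he]; ring, IsCoprime.mul_left ?_ hc, hd⟩
      exact hp.irreducible.coprime_iff_not_dvd.mpr hpm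

/-- squarefull -/
def SqFull (m : Eis) : Prop := ∀ q, Prime q → q ∣ m → q ^ 2 ∣ m

theorem exists_u (hm : m ≠ 0) (hfull : SqFull m) {h : Eis} (hh : h ≠ 0)
    (hα : IsCh m α) (hprp : Prp m α) (hcop : ¬ IsCoprime h m) :
    ∃ u, IsCoprime u (m * h) ∧ m ∣ (u - 1) * h ∧ (∀ q, Prime q → q ∣ m * h → q ∣ u - 1) ∧
      α u ≠ 1 := by
  obtain ⟨p, hp, hph, hpm⟩ : ∃ p, Prime p ∧ p ∣ h ∧ p ∣ m := by
    by_contra hcon
    push Not at hcon
    exact hcop (isCoprime_of_prime_dvd (fun h0 => hm h0.2) (fun p hp h1 h2 => hcon p hp h1 h2))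
  obtain ⟨u0, hu0, hd0, h0⟩ := hprp p hp hpm
  have hp0 := hp.ne_zero
  -- `u0 ≡ 1` modulo every prime of `m`
  have hq0 : ∀ q, Prime q → q ∣ m → q ∣ u0 - 1 := by
    intro q hq hqm
    obtain ⟨m', rfl⟩ := hpm
    obtain ⟨t, ht⟩ := hd0
    have h1 : u0 - 1 = m' * t := by
      apply mul_left_cancel₀ hp0
      linear_combination ht
    rw [h1]
    refine Dvd.dvd.mul_right ?_ t
    have h2 := hfull q hq hqm
    by_cases hqp : q ∣ p
    · have hass : Associated q p := hq.associated_of_dvd hp hqp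
      have h3 : p * q ∣ p * m' := by
        have h4 : p * q ∣ q ^ 2 := by
          rw [pow_two]; exact mul_dvd_mul_right (hass.symm.dvd) q
        exact h4.trans h2
      exact (mul_dvd_mul_iff_left hp0).mp h3
    · exact (hq.dvd_or_dvd hqm).resolve_left hqp
  obtain ⟨h1, h2, he, hc, hd⟩ := exists_split m hh
  -- `u = u0 + m y ≡ 1 mod h1`
  obtain ⟨a, b, hab⟩ := hc
  -- a * h1 + b * m = 1
  set u : Eis := u0 + m * (b * (1 - u0)) with hu
  have hu1 : h1 ∣ u - 1 := by
    refine ⟨a * (u0 - 1), ?_⟩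
    rw [hu]
    linear_combination (u0 - 1) * (-hab)
  have hum : m ∣ u - u0 := ⟨b * (1 - u0), by rw [hu]; ring⟩
  have hqu : ∀ q, Prime q → q ∣ m * h → q ∣ u - 1 := by
    intro q hq hqd
    have hcase : q ∣ m ∨ q ∣ h1 := by
      rcases hq.dvd_or_dvd hqd with h3 | h3
      · exact Or.inl h3
      · rw [he] at h3
        rcases hq.dvd_or_dvd h3 with h4 | h4
        · exact Or.inr h4
        · exact Or.inl (hd q hq h4)
    rcases hcase with h3 | h3
    · have h4 := hq0 q hq h3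
      have h5 : u - 1 = (u - u0) + (u0 - 1) := by ring
      rw [h5]
      exact dvd_add (h3.trans hum) h4
    · exact h3.trans hu1
  have hmh : m * h ≠ 0 := mul_ne_zero hm hh
  refine ⟨u, ?_, ?_, hqu, ?_⟩
  · refine isCoprime_of_prime_dvd (fun h3 => hmh h3.2) (fun q hq h3 h4 => ?_)
    have h5 := hqu q hq h4
    have h6 : q ∣ 1 := by
      have : (1 : Eis) = u - (u - 1) := by ring
      rw [this]; exact dvd_sub h3 h5
    exact hq.not_isUnit (isUnit_of_dvd_one h6)
  · obtain ⟨h', rfl⟩ := hph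
    have h5 : (u - 1) * (p * h') = (u0 - 1) * p * h' + (u - u0) * (p * h') := by ring
    rw [h5]
    exact dvd_add (hd0.mul_right h') (hum.mul_right _)
  · rwa [hα.per.congr hum]

/-- The complete sum vanishes when `(h, m) ≠ 1` (`m` squarefull, `αβ` primitive). -/
theorem tot_zero (hm : m ≠ 0) (hfull : SqFull m) {h : Eis} (hh0 : h ≠ 0) (hα : IsCh m α)
    (hβ : IsCh m β) (hp : Prp m (fun x => α x * β x))
    (hk : PMod (m * h) k) (hkm : ∀ x y, k (x * y) = k x * k y)
    (hk1 : ∀ u, (∀ q, Prime q → q ∣ m * h → q ∣ u - 1) → k u = 1)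
    (hcop : ¬ IsCoprime h m) (c0 d0 c1 d1 : Eis) :
    sumMod (m * h) (fun x => k x * (α (x * c0 + h * c1) * β (x * d0 + h * d1))) = 0 := by
  obtain ⟨u, hu, h1, h2, h3⟩ := exists_u hm hfull hh0 (hα.mul_same hβ) hp hcop
  exact tot_vanish hm hh0 hα hβ hk hkm hu h1 (by rw [hk1 u h2, one_mul]; exact h3) c0 d0 c1 d1

/-- `(u/c)_3 = 1` if `u ≡ 1` modulo every prime of `c`. -/
lemma sy_eq_one {u : Eis} (h : ∀ q, Prime q → q ∣ c → q ∣ u - 1) : sy u c = 1 := by
  unfold sy
  apply Multiset.prod_eq_one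
  intro x hx
  obtain ⟨q, hq, rfl⟩ := Multiset.mem_map.mp hx
  have hc0 : c ≠ 0 := by
    rintro rfl
    rw [UniqueFactorizationMonoid.factors_zero] at hq
    exact absurd hq (Multiset.notMem_zero q)
  have hqp : Prime q := UniqueFactorizationMonoid.prime_of_factor q hq
  have hqd : q ∣ c := UniqueFactorizationMonoid.dvd_of_mem_factors hq
  have hqu := h q hqp hqd
  unfold sy0
  have h1 : ¬ q ∣ u := by
    intro h2
    have h6 : q ∣ 1 := by
      have : (1 : Eis) = u - (u - 1) := by ring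
      rw [this]; exact dvd_sub h2 hqu
    exact hqp.not_isUnit (isUnit_of_dvd_one h6)
  rw [if_neg h1, if_pos]
  exact hqu.trans (sub_one_dvd_pow_sub_one u _)
where
  sub_one_dvd_pow_sub_one (u : Eis) (n : ℕ) : u - 1 ∣ u ^ n - 1 := by
    have := sub_dvd_pow_sub_pow u 1 n
    rwa [one_pow] at this

end Crest.Agent.R017.Loc266
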