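import Crest.Agent.R017.XnDefs_590
import Crest.Agent.R017.Loc3_266

/-!
# Row 17: the primitive character inducing a character modulo `N` (helper590)

`exists_xi` : for a character `χ` modulo `N ≠ 0`, trivial on units, there are `m ∣ N`, `ξ`, `τ`
with `XiD ξ m τ` (primitive, all Gauss sums) and `ξ = χ` on the elements prime to `N`.
-/

set_option autoImplicit false

noncomputable section

open Complex
open scoped ComplexConjugate

namespace Crest.Agent.R017.XiI590

open Crest.Agent.R012 Crest.Agent.R012.Eis Crest.Agent.R012.Gauss880 Crest.Agent.R017.Loc266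
open Crest.Agent.R017.Xi499 Crest.Agent.R017.Xn590

/-- `χ` (mod `N`) is trivial on the classes `≡ 1 mod m`. -/
def FT (N m : Eis) (χ : Eis → ℂ) : Prop :=
  m ∣ N ∧ ∀ a, IsCoprime a N → m ∣ a - 1 → χ a = 1

variable {N m : Eis} {χ : Eis → ℂ}

lemma ft_self (hχ : IsCh N χ) : FT N N χ :=
  ⟨dvd_rfl, fun a _ h => by rw [hχ.per.congr h, hχ.one]⟩

lemma exists_lift (hN : N ≠ 0) (hm : m ∣ N) {a : Eis} (ha : IsCoprime a m) :
    ∃ a', IsCoprime a' N ∧ m ∣ a' - a := by
  obtain ⟨h1, h2, he, hc, hd⟩ := exists_split a hN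
  refine ⟨a + m * h1, ?_, ⟨h1, by ring⟩⟩
  refine isCoprime_of_prime_dvd (fun h0 => hN h0.2) (fun q hq h3 h4 => ?_)
  have key : q ∣ a → q ∣ h1 → False := fun h5 h6 =>
    hq.not_isUnit (hc.isUnit_of_dvd' h6 h5)
  rw [he] at h4
  rcases hq.dvd_or_dvd h4 with h5 | h5
  · have h6 : q ∣ a := by
      have := dvd_sub h3 (h5.mul_left m)
      rwa [add_sub_cancel_right] at this
    exact key h6 h5
  · have h6 := hd q hq h5
    have h7 : q ∣ m * h1 := by
      have := dvd_sub h3 h6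
      rwa [add_sub_cancel_left] at this
    rcases hq.dvd_or_dvd h7 with h8 | h8
    · exact hq.not_isUnit (ha.isUnit_of_dvd' h6 h8)
    · exact key h6 h8

lemma ft_congr (hN : N ≠ 0) (hχ : IsCh N χ) (h : FT N m χ) {a b : Eis} (ha : IsCoprime a N)
    (hb : IsCoprime b N) (hab : m ∣ a - b) : χ a = χ b := by
  obtain ⟨c, hc, hc1⟩ := exists_inv hb
  have h1 : χ (b * c) = 1 := by rw [hχ.per.congr hc1, hχ.one]
  have h2 : χ (a * c) = 1 := by
    refine h.2 _ (ha.mul_left hc) ?_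
    have : a * c - 1 = (a - b) * c + (b * c - 1) := by ring
    rw [this]
    exact dvd_add (hab.mul_right _) (h.1.trans hc1)
  rw [hχ.mul] at h1 h2
  exact mul_right_cancel₀ (hχ.ne_zero hN hc) (h2.trans h1.symm)

open Classical in
/-- the character modulo `m` -/
def low (N m : Eis) (χ : Eis → ℂ) (a : Eis) : ℂ :=
  if h : ∃ a', IsCoprime a' N ∧ m ∣ a' - a then χ h.choose else 0

lemma low_eq (hN : N ≠ 0) (hχ : IsCh N χ) (h : FT N m χ) {a a' : Eis} (ha' : IsCoprime a' N)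
    (haa : m ∣ a' - a) : low N m χ a = χ a' := by
  have he : ∃ a', IsCoprime a' N ∧ m ∣ a' - a := ⟨a', ha', haa⟩
  unfold low
  rw [dif_pos he]
  refine ft_congr hN hχ h he.choose_spec.1 ha' ?_
  have := dvd_sub he.choose_spec.2 haa
  rwa [sub_sub_sub_cancel_right] at this

lemma low_zero (hm : m ∣ N) {a : Eis} (ha : ¬ IsCoprime a m) : low N m χ a = 0 := by
  unfold low
  rw [dif_neg]
  rintro ⟨a', h1, h2⟩
  apply ha
  have h3 : IsCoprime a' m := IsCoprime.of_isCoprime_of_dvd_right h1 hm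
  obtain ⟨t, ht⟩ := h2
  obtain ⟨u, v, huv⟩ := h3
  exact ⟨u, v + u * t, by linear_combination huv - u * ht⟩

lemma low_isCh (hN : N ≠ 0) (hχ : IsCh N χ) (h : FT N m χ) : IsCh m (low N m χ) where
  one := by rw [low_eq hN hχ h (a' := 1) isCoprime_one_left (by simp), hχ.one]
  mul x y := by
    by_cases hx : IsCoprime x m
    · by_cases hy : IsCoprime y m
      · obtain ⟨x', h1, h2⟩ := exists_lift hN h.1 hx
        obtain ⟨y', h3, h4⟩ := exists_lift hN h.1 hy
        rw [low_eq hN hχ h h1 h2, low_eq hN hχ h h3 h4,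
          low_eq hN hχ h (h1.mul_left h3) (a := x * y), hχ.mul]
        have : x' * y' - x * y = (x' - x) * y' + x * (y' - y) := by ring
        rw [this]
        exact dvd_add (h2.mul_right _) (h4.mul_left _)
      · rw [low_zero h.1 hy, mul_zero, low_zero h.1]
        exact fun hxy => hy (IsCoprime.of_mul_left_right hxy)
    · rw [low_zero h.1 hx, zero_mul, low_zero h.1]
      exact fun hxy => hx (IsCoprime.of_mul_left_left hxy)
  per := by
    intro x t
    by_cases hx : IsCoprime x m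
    · obtain ⟨x', h1, h2⟩ := exists_lift hN h.1 hx
      rw [low_eq hN hχ h h1 h2, low_eq hN hχ h h1]
      have : x' - (x + m * t) = (x' - x) - m * t := by ring
      rw [this]
      exact dvd_sub h2 (dvd_mul_right _ _)
    · rw [low_zero h.1 hx, low_zero h.1]
      rintro ⟨u, v, huv⟩
      exact hx ⟨u, v + u * t, by linear_combination huv⟩
  zero x hx := low_zero h.1 hx

lemma low_coprime (hN : N ≠ 0) (hχ : IsCh N χ) (h : FT N m χ) {a : Eis} (ha : IsCoprime a N) :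
    low N m χ a = χ a := low_eq hN hχ h ha (by simp)

/-- existence of the conductor and of the primitive character -/
theorem exists_prim (hN : N ≠ 0) (hχ : IsCh N χ) :
    ∃ (m : Eis) (ξ : Eis → ℂ), m ∣ N ∧ m ≠ 0 ∧ IsCh m ξ ∧ Prm m ξ ∧
      ∀ a, IsCoprime a N → ξ a = χ a := by
  classical
  have hex : ∃ k : ℕ, ∃ m : Eis, nm m = k ∧ FT N m χ := ⟨nm N, N, rfl, ft_self hχ⟩
  obtain ⟨m, hm1, hm2⟩ := Nat.find_spec hex
  have hm0 : m ≠ 0 := fun h0 => hN (zero_dvd_iff.mp (h0 ▸ hm2.1))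
  refine ⟨m, low N m χ, hm2.1, hm0, low_isCh hN hχ hm2, prm_of_prp hm0 ?_,
    fun a ha => low_coprime hN hχ hm2 ha⟩
  intro p hp hpm
  obtain ⟨m', rfl⟩ := hpm
  have hm'0 : m' ≠ 0 := right_ne_zero_of_mul hm0
  have hlt : nm m' < nm (p * m') := by
    rw [nm_mul]
    have h1 : 0 < nm m' := nm_pos.mpr hm'0
    have h2 : 1 < nm p := by
      have h3 : nm p ≠ 0 := (nm_pos.mpr hp.ne_zero).ne'
      have h4 : nm p ≠ 1 := fun h => hp.not_isUnit (isUnit_iff.mpr h)
      omega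
    nlinarith
  have hnot : ¬ FT N m' χ := by
    intro h
    have := Nat.find_min' hex ⟨m', rfl, h⟩
    omega
  have hm'N : m' ∣ N := (dvd_mul_left m' p).trans hm2.1
  unfold FT at hnot
  push Not at hnot
  obtain ⟨a, ha1, ha2, ha3⟩ := hnot hm'N
  refine ⟨a, IsCoprime.of_isCoprime_of_dvd_right ha1 hm2.1, ?_, ?_⟩
  · rw [mul_comm p m']
    exact mul_dvd_mul_right ha2 p
  · rwa [low_coprime hN hχ hm2 ha1]

/-- **the inducing primitive character**, in the format of the pair theorem. -/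
theorem exists_xi (hN : N ≠ 0) (hχ : IsCh N χ) (hu : ∀ u, IsUnit u → χ u = 1) :
    ∃ (m : Eis) (ξ : Eis → ℂ) (τ : ℂ), m ∣ N ∧ IsCh m ξ ∧ XiD ξ m τ ∧
      ∀ a, IsCoprime a N → ξ a = χ a := by
  obtain ⟨m, ξ, hmN, hm, h1, h2, h3⟩ := exists_prim hN hχ
  refine ⟨m, ξ, gl ξ 1 m, hmN, h1, ?_, h3⟩
  exact
    { m0 := hm
      mul := h1.mul
      unit := fun a ha => by rw [h3 a (isCoprime_of_isUnit ha N), hu a ha]
      per := h1.per
      norm_le := fun a => h1.norm_le_one hm a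
      gauss := fun k => gl_prim hm h1 h2 k
      abs := norm_gl_sq hm h1 h2 }

/-- the same with the Poisson formula `XiP` -/
theorem exists_xiP (hN : N ≠ 0) (hχ : IsCh N χ) (hu : ∀ u, IsUnit u → χ u = 1) :
    ∃ (m : Eis) (ξ : Eis → ℂ) (c : ℂ), m ∣ N ∧ m ≠ 0 ∧ IsCh m ξ ∧
      XiP ξ (toC sq3 * toC m) c ∧ ‖c‖ ^ 2 * (3 * nm m) = 4 ∧ (∀ u, IsUnit u → ξ u = 1) ∧
      ∀ a, IsCoprime a N → ξ a = χ a := by
  obtain ⟨m, ξ, τ, hmN, h1, h2, h3⟩ := exists_xi hN hχ hu
  refine ⟨m, ξ, _, hmN, h2.m0, h1, xiP_of_D h2, ?_, h2.unit, h3⟩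
  rw [norm_mul, mul_pow, h2.abs, Complex.norm_real, Real.norm_eq_abs, sq_abs, div_pow, mul_pow,
    Real.sq_sqrt (by norm_num)]
  have h4 : (nm m : ℝ) ≠ 0 := by exact_mod_cast (nm_pos.mpr h2.m0).ne'
  field_simp
  norm_num

end Crest.Agent.R017.XiI590
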