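import Crest.Agent.R017.CT0_590
import Crest.Agent.R017.XiI1_590
import Crest.Agent.R017.Cond1_499
import Crest.Agent.R017.AS8_590
import Crest.Agent.R012.Sym5_645

/-!
# Row 17, twisted cubic functional equation (C.F1tw), part (B): the character decomposition (helper47)

`ψ` a character on the primary elements modulo `M = lam^k M0`, `9 ∣ M`, pure at the primes of `M0`,
trivial on `1 + 9 M0`: `ψ c = φ c * sy (w^a lam^b) c` with a character `φ` modulo a primary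
`m ∣ M0` (same primes as `M0`), `φ ^ 3` primitive.

* `exists_phi0` : the part prime to `lam`, modulo `M0`
* `exists_lamPart` : the part at `lam`
* `exists_dec` : the decomposition
-/

set_option autoImplicit false

noncomputable section

open Complex
open scoped ComplexConjugate

namespace Crest.Agent.R017.CD47

open Crest.Agent.R012 Crest.Agent.R012.Eis Crest.Agent.R012.Gauss880 Crest.Agent.R017.Loc266
open Crest.Agent.R017.End699 Crest.Agent.R017.Sx545 Crest.Agent.R017.B770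
open Crest.Agent.R017.A590 Crest.Agent.R017.C590
open Crest.Agent.R017.Sx440 (isCoprime_of_not_dvd)
open Crest.Agent.R017.Cond499 (crt_two cop_of_sub cop_one_sub eq_one_of_coprime dvd_nm)

variable {M M0 : Eis} {ψ : Eis → ℂ} {k : ℕ}

/-! ### generalities on `M = lam^k M0` -/

lemma nine_eq : (9 : Eis) = w ^ 4 * lam ^ 4 := by
  have h : (9 : Eis) = 3 * 3 := by norm_num
  rw [h, three_eq]; ring

lemma lam4_dvd_nine : lam ^ 4 ∣ (9 : Eis) := ⟨w ^ 4, by rw [nine_eq]; ring⟩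

lemma nine_dvd_lam4 : (9 : Eis) ∣ lam ^ 4 := by
  refine ⟨w ^ 2, ?_⟩
  rw [nine_eq]
  linear_combination (-(lam ^ 4) - lam ^ 4 * w ^ 3) * w_cube

lemma cop_lam_nine {x : Eis} (h : ¬ lam ∣ x) : IsCoprime x 9 := by
  have h1 : IsCoprime lam x := (prime_lam.irreducible.coprime_iff_not_dvd).mpr h
  have h2 : IsCoprime (lam ^ 4) x := h1.pow_left
  exact (IsCoprime.of_isCoprime_of_dvd_left h2 nine_dvd_lam4).symm

/-- setting -/
structure Dc (M M0 : Eis) (k : ℕ) (ψ : Eis → ℂ) : Prop where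
  nine : (9 : Eis) ∣ M
  hc : HC M ψ
  eq : M = lam ^ k * M0
  nl : ¬ lam ∣ M0
  low : ∀ c, IsPrim c → 9 * M0 ∣ c - 1 → ψ c = 1

namespace Dc

variable (H : Dc M M0 k ψ)
include H

lemma M0_ne : M0 ≠ 0 := by
  rintro h
  exact H.nl (h ▸ dvd_zero _)

lemma M0_dvd : M0 ∣ M := by rw [H.eq]; exact dvd_mul_left _ _

lemma three : (3 : Eis) ∣ M := Dvd.dvd.trans ⟨3, by norm_num⟩ H.nine

lemma cop9 : IsCoprime M0 9 := cop_lam_nine H.nl

lemma nM0 : 9 * M0 ∣ M := (H.cop9.symm).mul_dvd H.nine H.M0_dvd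

lemma uni : Uni M ψ := uni_of_HC H.hc

lemma sm_iff {c : Eis} : Sm M c ↔ IsPrim c ∧ IsCoprime c M0 := by
  constructor
  · exact fun h => ⟨h.1, IsCoprime.of_isCoprime_of_dvd_right h.2 H.M0_dvd⟩
  · rintro ⟨h1, h2⟩
    refine ⟨h1, ?_⟩
    rw [H.eq]
    exact (h1.isCoprime_lam.pow_right).mul_right h2

lemma per9 {a b : Eis} (ha : Sm M a) (hb : Sm M b) (hab : 9 * M0 ∣ a - b) : ψ a = ψ b := by
  obtain ⟨c, hc, hbc⟩ := exists_inv_sm H.three hb
  have e1 : ψ (b * c) = 1 := by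
    rw [H.uni.per _ 1 (hb.mul hc) (Sm.one M) hbc, H.uni.one]
  have e2 : ψ (a * c) = 1 := by
    refine H.low _ (ha.mul hc).1 ?_
    have : a * c - 1 = (a - b) * c + (b * c - 1) := by ring
    rw [this]
    exact dvd_add (hab.mul_right _) (H.nM0.trans hbc)
  rw [H.uni.mul _ _ hb hc] at e1
  rw [H.uni.mul _ _ ha hc] at e2
  have hc0 : ψ c ≠ 0 := by
    intro h0
    have := H.uni.norm c hc
    rw [h0, norm_zero] at this
    exact zero_ne_one this
  exact mul_right_cancel₀ hc0 (e2.trans e1.symm)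

/-- classes -/
lemma exists_c {x : Eis} (hx : IsCoprime x M0) : ∃ c, Sm M c ∧ M0 ∣ c - x ∧ (9 : Eis) ∣ c - 1 := by
  obtain ⟨c, h1, h2⟩ := crt_two H.cop9 x 1
  refine ⟨c, H.sm_iff.mpr ⟨?_, cop_of_sub h1 hx⟩, h1, h2⟩
  exact Dvd.dvd.trans ⟨3, by norm_num⟩ h2

lemma exists_d (x : Eis) (hx : IsPrim x) : ∃ c, Sm M c ∧ M0 ∣ c - 1 ∧ (9 : Eis) ∣ c - x := by
  obtain ⟨c, h1, h2⟩ := crt_two H.cop9 1 x
  refine ⟨c, H.sm_iff.mpr ⟨?_, cop_one_sub h1⟩, h1, h2⟩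
  have h3 : (3 : Eis) ∣ c - x := Dvd.dvd.trans ⟨3, by norm_num⟩ h2
  unfold IsPrim at *
  have := dvd_add h3 hx
  rwa [sub_add_sub_cancel] at this

end Dc

open Classical in
/-- the part prime to `lam` -/
def ph0 (M M0 : Eis) (ψ : Eis → ℂ) (x : Eis) : ℂ :=
  if h : ∃ c, Sm M c ∧ M0 ∣ c - x ∧ (9 : Eis) ∣ c - 1 then ψ h.choose else 0

namespace Dc

variable (H : Dc M M0 k ψ)
include H

lemma ph0_eq {c x : Eis} (hc : Sm M c) (h1 : M0 ∣ c - x) (h2 : (9 : Eis) ∣ c - 1) :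
    ph0 M M0 ψ x = ψ c := by
  have he : ∃ c, Sm M c ∧ M0 ∣ c - x ∧ (9 : Eis) ∣ c - 1 := ⟨c, hc, h1, h2⟩
  unfold ph0
  rw [dif_pos he]
  obtain ⟨k1, k2, k3⟩ := he.choose_spec
  refine H.per9 k1 hc ((H.cop9.symm).mul_dvd ?_ ?_)
  · have := dvd_sub k3 h2
    rwa [sub_sub_sub_cancel_right] at this
  · have := dvd_sub k2 h1
    rwa [sub_sub_sub_cancel_right] at this

lemma ph0_zero {x : Eis} (hx : ¬ IsCoprime x M0) : ph0 M M0 ψ x = 0 := by
  unfold ph0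
  rw [dif_neg]
  rintro ⟨c, h1, h2, -⟩
  apply hx
  refine cop_of_sub (x := c) ?_ (H.sm_iff.mp h1).2
  rwa [dvd_sub_comm]

lemma ph0_isCh : IsCh M0 (ph0 M M0 ψ) where
  one := by rw [H.ph0_eq (Sm.one M) (by simp) (by simp), H.uni.one]
  mul x y := by
    by_cases hx : IsCoprime x M0
    · by_cases hy : IsCoprime y M0
      · obtain ⟨x', h1, h2, h3⟩ := H.exists_c hx
        obtain ⟨y', h4, h5, h6⟩ := H.exists_c hy
        rw [H.ph0_eq h1 h2 h3, H.ph0_eq h4 h5 h6, H.ph0_eq (x := x * y) (h1.mul h4),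
          H.uni.mul _ _ h1 h4]
        · have : x' * y' - x * y = (x' - x) * y' + x * (y' - y) := by ring
          rw [this]
          exact dvd_add (h2.mul_right _) (h5.mul_left _)
        · have : x' * y' - 1 = (x' - 1) * y' + (y' - 1) := by ring
          rw [this]
          exact dvd_add (h3.mul_right _) h6
      · rw [H.ph0_zero hy, mul_zero, H.ph0_zero]
        exact fun hxy => hy (IsCoprime.of_mul_left_right hxy)
    · rw [H.ph0_zero hx, zero_mul, H.ph0_zero]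
      exact fun hxy => hx (IsCoprime.of_mul_left_left hxy)
  per := by
    intro x t
    by_cases hx : IsCoprime x M0
    · obtain ⟨x', h1, h2, h3⟩ := H.exists_c hx
      rw [H.ph0_eq h1 h2 h3, H.ph0_eq h1 ?_ h3]
      have : x' - (x + M0 * t) = (x' - x) - M0 * t := by ring
      rw [this]
      exact dvd_sub h2 (dvd_mul_right _ _)
    · rw [H.ph0_zero hx, H.ph0_zero]
      rintro ⟨u, v, huv⟩
      exact hx ⟨u, v + u * t, by linear_combination huv⟩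
  zero x hx := H.ph0_zero hx

end Dc

/-! ### the part at `lam` -/

lemma lam_cls {c : Eis} (hc : IsPrim c) : ∃ i j : ℕ, i ≤ 2 ∧ j ≤ 2 ∧
    (9 : Eis) ∣ c - 4 ^ i * (1 + 3 * w) ^ j := by
  obtain ⟨x, hx⟩ := hc
  have hc' : c = 1 + 3 * x := by linear_combination hx
  obtain ⟨i, hi, hi2⟩ : ∃ i : ℕ, i ≤ 2 ∧ (3 : ℤ) ∣ x.re - i := by
    refine ⟨(x.re % 3).toNat, ?_, ?_⟩ <;> omega
  obtain ⟨j, hj, hj2⟩ : ∃ j : ℕ, j ≤ 2 ∧ (3 : ℤ) ∣ x.im - j := by
    refine ⟨(x.im % 3).toNat, ?_, ?_⟩ <;> omega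
  refine ⟨i, j, hi, hj, ?_⟩
  have h1 : (9 : Eis) ∣ c - (1 + 3 * ((i : Eis) + (j : Eis) * w)) := by
    obtain ⟨a, ha⟩ := hi2
    obtain ⟨b, hb⟩ := hj2
    refine ⟨(a : Eis) + (b : Eis) * w, ?_⟩
    rw [hc']
    have hx' : x = (x.re : Eis) + (x.im : Eis) * w := by
      apply ext' <;> simp
    rw [hx']
    have ha' : x.re = 3 * a + i := by linarith
    have hb' : x.im = 3 * b + j := by linarith
    rw [ha', hb']
    push_cast
    ring
  have h2 : (9 : Eis) ∣ (1 + 3 * ((i : Eis) + (j : Eis) * w)) - 4 ^ i * (1 + 3 * w) ^ j := by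
    interval_cases i <;> interval_cases j <;> push_cast
    · exact ⟨0, by ring⟩
    · exact ⟨0, by ring⟩
    · exact ⟨-w ^ 2, by ring⟩
    · exact ⟨0, by ring⟩
    · exact ⟨-w, by ring⟩
    · exact ⟨-2 * w - 4 * w ^ 2, by ring⟩
    · exact ⟨-1, by ring⟩
    · exact ⟨-1 - 5 * w, by ring⟩
    · exact ⟨-1 - 10 * w - 16 * w ^ 2, by ring⟩
  have := dvd_add h1 h2
  rwa [sub_add_sub_cancel] at this


/-- multiplicative, unimodular, `9`-periodic functions on `Sm M` -/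
structure L9 (M : Eis) (F : Eis → ℂ) : Prop where
  one : F 1 = 1
  mul : ∀ a b, Sm M a → Sm M b → F (a * b) = F a * F b
  per : ∀ a b, Sm M a → Sm M b → (9 : Eis) ∣ a - b → F a = F b

lemma L9.powm {F : Eis → ℂ} (h : L9 M F) {b : Eis} (hb : Sm M b) (n : ℕ) : F (b ^ n) = F b ^ n := by
  induction n with
  | zero => simp [h.one]
  | succ n ih => rw [pow_succ, h.mul _ _ (hb.pow n) hb, ih, pow_succ]

lemma L9.ext {F G : Eis → ℂ} (h : L9 M F) (h' : L9 M G) {g1 g2 : Eis} (s1 : Sm M g1)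
    (s2 : Sm M g2) (e1 : (9 : Eis) ∣ g1 - 4) (e2 : (9 : Eis) ∣ g2 - (1 + 3 * w))
    (f1 : F g1 = G g1) (f2 : F g2 = G g2) {c : Eis} (hc : Sm M c) : F c = G c := by
  obtain ⟨i, j, -, -, hd⟩ := lam_cls hc.1
  have h1 : (9 : Eis) ∣ c - g1 ^ i * g2 ^ j := by
    have k1 : (9 : Eis) ∣ g1 ^ i - 4 ^ i := e1.trans (sub_dvd_pow_sub_pow g1 4 i)
    have k2 : (9 : Eis) ∣ g2 ^ j - (1 + 3 * w) ^ j := e2.trans (sub_dvd_pow_sub_pow g2 _ j)
    have e : c - g1 ^ i * g2 ^ j = (c - 4 ^ i * (1 + 3 * w) ^ j) -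
        ((g1 ^ i - 4 ^ i) * g2 ^ j + 4 ^ i * (g2 ^ j - (1 + 3 * w) ^ j)) := by ring
    rw [e]
    exact dvd_sub hd (dvd_add (k1.mul_right _) (k2.mul_left _))
  have s3 := (s1.pow i).mul (s2.pow j)
  rw [h.per _ _ hc s3 h1, h'.per _ _ hc s3 h1, h.mul _ _ (s1.pow i) (s2.pow j),
    h'.mul _ _ (s1.pow i) (s2.pow j), h.powm s1, h.powm s2, h'.powm s1, h'.powm s2, f1, f2]

lemma sy_w_four : sy w 4 = wC ^ 2 := by
  have h4 : IsPrim (4 : Eis) := ⟨1, by ring⟩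
  have h : (4 : Eis).re = 4 := rfl
  have h' : (4 : Eis).im = 0 := rfl
  rw [Sym645.sy_w_prim h4, h, h', ← zpow_natCast]
  exact Sym645.wC_zpow_mod _ _ (by norm_num)

lemma sy_lam_four : sy lam 4 = wC := by
  have h4 : IsPrim (4 : Eis) := ⟨1, by ring⟩
  have h : (4 : Eis).re = 4 := rfl
  rw [Sym645.sy_lam h4, h, ← zpow_one wC]
  norm_num

lemma prim_one_add : IsPrim (1 + 3 * w) := ⟨w, by ring⟩

lemma sy_w_gen : sy w (1 + 3 * w) = wC ^ 2 := by
  have h : (1 + 3 * w : Eis).re = 1 := by decide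
  have h' : (1 + 3 * w : Eis).im = 3 := by decide
  rw [Sym645.sy_w_prim prim_one_add, h, h', ← zpow_natCast]
  exact Sym645.wC_zpow_mod _ _ (by norm_num)

lemma sy_lam_gen : sy lam (1 + 3 * w) = 1 := by
  have h : (1 + 3 * w : Eis).re = 1 := by decide
  rw [Sym645.sy_lam prim_one_add, h]
  norm_num

/-- the cubic symbols ramified at `lam` -/
def lm (a b : ℕ) : Eis := w ^ a * lam ^ b

lemma sy_lm (a b : ℕ) {c : Eis} (hc : IsPrim c) : sy (lm a b) c = sy w c ^ a * sy lam c ^ b := by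
  unfold lm
  rw [Char766.sy_mul_left hc, Char766.sy_pow_left hc, Char766.sy_pow_left hc]

lemma l9_lm (M : Eis) (a b : ℕ) : L9 M (sy (lm a b)) where
  one := by
    rw [sy_lm a b isPrim_one, Sym645.sy_w_prim isPrim_one, Sym645.sy_lam isPrim_one]
    have h : (1 : Eis).re = 1 := rfl
    have h' : (1 : Eis).im = 0 := rfl
    rw [h, h']; simp
  mul a' b' ha hb := Char766.sy_mul_right ha.1 hb.1
  per a' b' ha hb hab := by
    rw [sy_lm _ _ ha.1, sy_lm _ _ hb.1, Sym645.sy_w_congr ha.1 hb.1 hab,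
      Sym645.sy_lam_congr ha.1 hb.1 hab]

lemma isPrimitiveRoot_wC : IsPrimitiveRoot wC 3 := by
  refine ⟨wC_cube, fun l hl => ?_⟩
  by_contra h
  exact Char766.wC_pow_ne_one h hl

theorem L9.exists_lm {F : Eis → ℂ} (h : L9 M F) {g1 g2 : Eis} (s1 : Sm M g1)
    (s2 : Sm M g2) (e1 : (9 : Eis) ∣ g1 - 4) (e2 : (9 : Eis) ∣ g2 - (1 + 3 * w)) :
    ∃ a b : ℕ, a ≤ 2 ∧ b ≤ 2 ∧ ∀ c, Sm M c → F c = sy (lm a b) c := by
  have h4 : IsPrim (4 : Eis) := ⟨1, by ring⟩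
  have c1 : F g1 ^ 3 = 1 := by
    rw [← h.powm s1, h.per _ 1 (s1.pow 3) (Sm.one M), h.one]
    have k1 : (9 : Eis) ∣ g1 ^ 3 - 4 ^ 3 := e1.trans (sub_dvd_pow_sub_pow g1 4 3)
    have k2 : g1 ^ 3 - 1 = (g1 ^ 3 - 4 ^ 3) + 9 * 7 := by ring
    rw [k2]
    exact dvd_add k1 (dvd_mul_right _ _)
  have c2 : F g2 ^ 3 = 1 := by
    rw [← h.powm s2, h.per _ 1 (s2.pow 3) (Sm.one M), h.one]
    have k1 : (9 : Eis) ∣ g2 ^ 3 - (1 + 3 * w) ^ 3 := e2.trans (sub_dvd_pow_sub_pow g2 _ 3)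
    have k2 : g2 ^ 3 - 1 = (g2 ^ 3 - (1 + 3 * w) ^ 3) + 9 * (w + 3 * w ^ 2 + 3 * w ^ 3) := by ring
    rw [k2]
    exact dvd_add k1 (dvd_mul_right _ _)
  obtain ⟨α, hα, hα'⟩ := isPrimitiveRoot_wC.eq_pow_of_pow_eq_one c1
  obtain ⟨β, hβ, hβ'⟩ := isPrimitiveRoot_wC.eq_pow_of_pow_eq_one c2
  refine ⟨2 * β % 3, (α + 2 * β) % 3, by omega, by omega, fun c hc => ?_⟩
  refine h.ext (l9_lm M _ _) s1 s2 e1 e2 ?_ ?_ hc
  · rw [sy_lm _ _ s1.1, Sym645.sy_w_congr s1.1 h4 e1, Sym645.sy_lam_congr s1.1 h4 e1, sy_w_four,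
      sy_lam_four, ← hα', ← pow_mul, ← pow_add]
    exact Sym645.wC_pow_mod _ _ (by omega)
  · rw [sy_lm _ _ s2.1, Sym645.sy_w_congr s2.1 prim_one_add e2,
      Sym645.sy_lam_congr s2.1 prim_one_add e2, sy_w_gen, sy_lam_gen, ← hβ', one_pow, mul_one,
      ← pow_mul]
    exact Sym645.wC_pow_mod _ _ (by omega)

namespace Dc

variable (H : Dc M M0 k ψ)
include H

lemma norm_ph0 {c : Eis} (hc : Sm M c) : ph0 M M0 ψ c * conj (ph0 M M0 ψ c) = 1 := by
  have h := H.ph0_isCh.norm_eq_one H.M0_ne (H.sm_iff.mp hc).2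
  rw [Complex.mul_conj, Complex.normSq_eq_norm_sq, h]; simp

/-- the part at `lam` -/
lemma l9 : L9 M (fun c => ψ c * conj (ph0 M M0 ψ c)) where
  one := by rw [H.ph0_isCh.one, H.uni.one]; simp
  mul a b ha hb := by
    rw [H.ph0_isCh.mul, H.uni.mul _ _ ha hb, map_mul]; ring
  per a b ha hb hab := by
    obtain ⟨a', h1, h2, h3⟩ := H.exists_c (H.sm_iff.mp ha).2
    obtain ⟨b', h4, h5, h6⟩ := H.exists_c (H.sm_iff.mp hb).2
    have na := H.norm_ph0 ha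
    have nb := H.norm_ph0 hb
    rw [H.ph0_eq h1 h2 h3] at na ⊢
    rw [H.ph0_eq h4 h5 h6] at nb ⊢
    have key : ψ (a * b') = ψ (b * a') := by
      refine H.per9 (ha.mul h4) (hb.mul h1) ((H.cop9.symm).mul_dvd ?_ ?_)
      · have : a * b' - b * a' = a * (b' - 1) - b * (a' - 1) + (a - b) := by ring
        rw [this]
        exact dvd_add (dvd_sub (h6.mul_left _) (h3.mul_left _)) hab
      · have : a * b' - b * a' = a * (b' - b) - b * (a' - a) := by ring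
        rw [this]
        exact dvd_sub (h5.mul_left _) (h2.mul_left _)
    rw [H.uni.mul _ _ ha h4, H.uni.mul _ _ hb h1] at key
    calc ψ a * conj (ψ a') = ψ a * (ψ b' * conj (ψ b')) * conj (ψ a') := by rw [nb, mul_one]
      _ = (ψ a * ψ b') * conj (ψ b') * conj (ψ a') := by ring
      _ = (ψ b * ψ a') * conj (ψ b') * conj (ψ a') := by rw [key]
      _ = ψ b * conj (ψ b') * (ψ a' * conj (ψ a')) := by ring
      _ = _ := by rw [na, mul_one]

theorem exists_lamPart : ∃ a b : ℕ, a ≤ 2 ∧ b ≤ 2 ∧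
    ∀ c, Sm M c → ψ c = ph0 M M0 ψ c * sy (lm a b) c := by
  obtain ⟨g1, s1, -, e1⟩ := H.exists_d 4 ⟨1, by ring⟩
  obtain ⟨g2, s2, -, e2⟩ := H.exists_d (1 + 3 * w) prim_one_add
  obtain ⟨a, b, ha, hb, hab⟩ := H.l9.exists_lm s1 s2 e1 e2
  refine ⟨a, b, ha, hb, fun c hc => ?_⟩
  rw [← hab c hc]
  calc ψ c = ψ c * (ph0 M M0 ψ c * conj (ph0 M M0 ψ c)) := by rw [H.norm_ph0 hc, mul_one]
    _ = _ := by ring

end Dc

/-! ### the conductor -/

lemma isCh_assoc {m m' : Eis} {χ : Eis → ℂ} (h : Associated m m') (hχ : IsCh m χ) :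
    IsCh m' χ where
  one := hχ.one
  mul := hχ.mul
  per := by
    intro x t
    obtain ⟨s, hs⟩ := h.dvd
    rw [hs, mul_assoc]
    exact hχ.per x (s * t)
  zero x hx := hχ.zero x (fun h' => hx (IsCoprime.of_isCoprime_of_dvd_right h' h.symm.dvd))

lemma prp_assoc {m m' : Eis} {χ : Eis → ℂ} (h : Associated m m') (hχ : Prp m χ) :
    Prp m' χ := by
  intro p hp hpm
  obtain ⟨u, h1, h2, h3⟩ := hχ p hp (hpm.trans h.symm.dvd)
  exact ⟨u, IsCoprime.of_isCoprime_of_dvd_right h1 h.symm.dvd, h.symm.dvd.trans h2, h3⟩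

lemma not_dvd_three {p : Eis} (hp : Prime p) (h : p ∣ M0) (hl : ¬ lam ∣ M0) : ¬ p ∣ 3 := by
  intro h3
  have h9 : p ∣ 9 := h3.trans ⟨3, by norm_num⟩
  exact hp.not_isUnit ((cop_lam_nine hl).isUnit_of_dvd' h h9)

lemma nm_coprime_three {p : Eis} (hp : Prime p) (h3 : ¬ p ∣ 3) : Nat.Coprime (nm p) 3 := by
  have hl : ¬ lam ∣ p := by
    intro h
    have h1 : Associated lam p := prime_lam.associated_of_dvd hp h
    exact h3 (h1.symm.dvd.trans ⟨-w ^ 2 * lam, by rw [three_eq]; ring⟩)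
  have h := nm_mod_three_of_not_dvd hl
  rw [Nat.coprime_comm, Nat.Prime.coprime_iff_not_dvd Nat.prime_three]
  omega

lemma one_add_pow_mod {p n t : Eis} (hpn : p ∣ n) : p * n ∣ (1 + n * t) ^ (nm p) - 1 := by
  obtain ⟨k, hk⟩ := Cond499.add_pow_le_aux (n * t) (nm p)
  rw [hk]
  have e : 1 + (nm p : Eis) * (n * t) + (n * t) ^ 2 * k - 1 =
      (nm p : Eis) * n * t + (n * n) * (t ^ 2 * k) := by ring
  rw [e]
  refine dvd_add ?_ ?_
  · exact (mul_dvd_mul (dvd_nm p) dvd_rfl).mul_right _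
  · exact (mul_dvd_mul hpn dvd_rfl).mul_right _

namespace Dc

variable (H : Dc M M0 k ψ)
include H

/-- the local test element at `p ∣ M0` -/
lemma exists_b (hP : Pure3 M ψ) {p : Eis} (hp : Prime p) (hpM : p ∣ M0) :
    ∃ (v : ℕ) (N₁ b : Eis), M0 = p ^ v * N₁ ∧ ¬ p ∣ N₁ ∧ Sm M b ∧ N₁ ∣ b - 1 ∧
      ph0 M M0 ψ b ^ 3 ≠ 1 := by
  have h3 := not_dvd_three hp hpM H.nl
  obtain ⟨N₁, hN, hpN⟩ := (FiniteMultiplicity.of_prime_left hp
    H.M0_ne).exists_eq_pow_mul_and_not_dvd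
  set v := multiplicity p M0
  have hpl : ¬ p ∣ lam := by
    intro h
    have h1 : Associated p lam := hp.associated_of_dvd prime_lam h
    exact H.nl (h1.symm.dvd.trans hpM)
  have hpM1 : ¬ p ∣ lam ^ k * N₁ := by
    intro h
    rcases hp.dvd_or_dvd h with h1 | h1
    · exact hpl (hp.dvd_of_dvd_pow h1)
    · exact hpN h1
  obtain ⟨b, b1, b2, b3, b4⟩ := hP p hp (hpM.trans H.M0_dvd) h3 v (lam ^ k * N₁)
    (by rw [H.eq, hN]; ring) hpM1
  have hcp : IsCoprime p 9 := IsCoprime.of_isCoprime_of_dvd_left H.cop9 hpM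
  have h9 : (9 : Eis) ∣ lam ^ k * N₁ := by
    have h := H.nine
    have e : M = p ^ v * (lam ^ k * N₁) := by rw [H.eq, hN]; ring
    rw [e] at h
    exact (hcp.symm.pow_right).dvd_of_dvd_mul_left h
  have hN1 : N₁ ∣ b - 1 := (dvd_mul_left N₁ (lam ^ k)).trans b2
  have hb : Sm M b := by
    refine H.sm_iff.mpr ⟨b1, ?_⟩
    rw [hN]
    exact ((isCoprime_of_not_dvd hp b3).pow_right).mul_right (cop_one_sub hN1)
  refine ⟨v, N₁, b, hN, hpN, hb, hN1, ?_⟩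
  rwa [H.ph0_eq hb (by simp) (h9.trans b2)]

/-- **The character decomposition.** -/
theorem exists_dec (hP : Pure3 M ψ) : ∃ (m : Eis) (φ : Eis → ℂ) (a b : ℕ), IsPrim m ∧ IsCh m φ ∧
    Prp m (fun z => φ z ^ 3) ∧ m ∣ M0 ∧ (∀ p, Prime p → (p ∣ m ↔ p ∣ M0)) ∧ a ≤ 2 ∧ b ≤ 2 ∧
    ∀ c, Sm M c → ψ c = φ c * sy (lm a b) c := by
  obtain ⟨a, b, ha, hb, hab⟩ := H.exists_lamPart
  obtain ⟨m', ξ, hmM, hm0, hξ, hpr, hξe⟩ := XiI590.exists_prim H.M0_ne H.ph0_isCh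
  have hpm : ∀ p, Prime p → (p ∣ m' ↔ p ∣ M0) := by
    intro p hp
    refine ⟨fun h => h.trans hmM, fun h => ?_⟩
    by_contra hpm'
    obtain ⟨v, N₁, c, hN, hpN, hc, hN1, hc3⟩ := H.exists_b hP hp h
    have h1 : m' ∣ N₁ := by
      have h2 := hmM
      rw [hN] at h2
      exact (((isCoprime_of_not_dvd hp hpm').pow_right)).dvd_of_dvd_mul_left h2
    apply hc3
    rw [← hξe c (H.sm_iff.mp hc).2, hξ.per.congr (h1.trans hN1), hξ.one, one_pow]
  have hprp : Prp m' (fun z => ξ z ^ 3) := by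
    intro p hp hpm'
    have hpM : p ∣ M0 := hpm'.trans hmM
    have h3 := not_dvd_three hp hpM H.nl
    obtain ⟨n, hn⟩ := hpm'
    by_cases hpn : p ∣ n
    · obtain ⟨u, h1, h2, h4⟩ := hpr.prp p hp ⟨n, hn⟩
      refine ⟨u, h1, h2, fun h5 => h4 ?_⟩
      rw [hn] at h2
      have hnd : n ∣ u - 1 := by
        rw [mul_comm p n] at h2
        exact (mul_dvd_mul_iff_right hp.ne_zero).mp h2
      obtain ⟨t, ht⟩ := hnd
      have hu : u = 1 + n * t := by linear_combination ht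
      have h6 : m' ∣ u ^ (nm p) - 1 := by
        rw [hn, hu]
        exact one_add_pow_mod hpn
      have h7 : ξ u ^ (nm p) = 1 := by
        rw [← hξ.pow, hξ.per.congr h6, hξ.one]
      exact eq_one_of_coprime (nm_coprime_three hp h3) h7 h5
    · obtain ⟨v, N₁, c, hN, hpN, hc, hN1, hc3⟩ := H.exists_b hP hp hpM
      have h1 : n ∣ N₁ := by
        have h2 : n ∣ M0 := (Dvd.intro_left p hn.symm).trans hmM
        rw [hN] at h2
        exact (((isCoprime_of_not_dvd hp hpn).pow_right)).dvd_of_dvd_mul_left h2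
      refine ⟨c, IsCoprime.of_isCoprime_of_dvd_right (H.sm_iff.mp hc).2 hmM, ?_, ?_⟩
      · rw [hn, mul_comm p n]
        exact mul_dvd_mul (h1.trans hN1) dvd_rfl
      · simp only
        rwa [hξe c (H.sm_iff.mp hc).2]
  have hlm : ¬ lam ∣ m' := fun h => H.nl (h.trans hmM)
  obtain ⟨m, hm, has⟩ := exists_isPrim_associated hlm
  refine ⟨m, ξ, a, b, hm, isCh_assoc has hξ, prp_assoc has hprp, has.symm.dvd.trans hmM,
    fun p hp => ?_, ha, hb, fun c hc => ?_⟩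
  · rw [← hpm p hp]
    exact ⟨fun h => h.trans has.symm.dvd, fun h => h.trans has.dvd⟩
  · rw [hab c hc, hξe c (H.sm_iff.mp hc).2]

end Dc

end Crest.Agent.R017.CD47
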