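import Crest.Agent.R017.EndA0_92
import Crest.Agent.R017.AS4_590

/-!
# Row 17, section A, end of A, part 3 (helper92): the right side

* `Wd` : the dual weight, `rd_Wd : RD Wd`
* `right_term` : one dilate of the right side
-/

set_option autoImplicit false

noncomputable section

open MeasureTheory Complex Set Filter
open scoped ComplexConjugate SchwartzMap ContDiff Topology

namespace Crest.Agent.R017.EndA92

open Crest.Agent.R012 Crest.Agent.R012.Eis Crest.Agent.R012.K695 Crest.Agent.R012.Gauss880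
open Crest.Agent.R012.Mob705
open Crest.Agent.R012.Parseval499 Crest.Agent.R012.FourCoef499
open Crest.Agent.R017.Xn590 Crest.Agent.R017.Coef92 Crest.Agent.R017.Orth681
open Crest.Agent.R017.Glue681 Crest.Agent.R017.Wt92 Crest.Agent.R017.XiI590
open Crest.Agent.R017.B770 Crest.Agent.R017.A590 Crest.Agent.R017.Rw266
open Crest.Agent.R017.Sx440 Crest.Agent.R017.Sx545 Crest.Agent.R017.Loc266

/-! ### closure properties of `RDF` -/

lemma rdf_tneg {w : ℝ → ℝ → ℂ} (h : RDF w) : RDF (fun τ x => w (-τ) x) where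
  smooth τ := h.smooth (-τ)
  bd m := by
    intro N
    obtain ⟨C, A, hC, hb⟩ := h.bd m N
    refine ⟨C, A, hC, fun τ x => ?_⟩
    have := hb (-τ) x
    rwa [abs_neg] at this

lemma rdf_conj {w : ℝ → ℝ → ℂ} (h : RDF w) : RDF (fun τ x => conj (w τ x)) where
  smooth τ := Complex.conjCLE.contDiff.comp (h.smooth τ)
  bd m := by
    intro N
    obtain ⟨C, A, hC, hb⟩ := h.bd m N
    refine ⟨C, A, hC, fun τ x => ?_⟩
    have h2 : ‖iteratedDeriv m (fun x => (starRingEnd ℂ) (w τ x)) x‖ = ‖iteratedDeriv m (w τ) x‖ := by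
      rw [← norm_iteratedFDeriv_eq_norm_iteratedDeriv, ← norm_iteratedFDeriv_eq_norm_iteratedDeriv]
      exact LinearIsometryEquiv.norm_iteratedFDeriv_comp_left Complex.conjLIE (w τ) x m
    simp only [h2]
    exact hb τ x

/-! ### the dual weight -/

variable {ξ : Eis → ℂ} {κ c : ℂ} {Vc : ℝ} {h0 B : ℂ} {L : ℤ} {V : ℝ → ℂ}

/-- the dual weight -/
def Wd (ξ : Eis → ℂ) (Vc : ℝ) (h0 B : ℂ) (L : ℤ) (V : ℝ → ℂ) (τ y : ℝ) : ℂ :=
  ((y ^ (-(1 / 2) : ℝ) : ℝ) : ℂ) * conj (vO 6 ξ Vc h0 B L (Vt (V1 V) (-τ)) (-Real.log y))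

lemma Wd_exp (τ x : ℝ) : Wd ξ Vc h0 B L V τ (Real.exp x) =
    cexp ((-(1 / 2) : ℂ) * x) * conj (vO 6 ξ Vc h0 B L (Vt (V1 V) (-τ)) (-x)) := by
  unfold Wd
  rw [Real.log_exp, ← Real.exp_mul, Complex.ofReal_exp]
  congr 2
  push_cast
  ring

lemma rdf_Wd (hξ : XiP ξ κ c) (h : VD V) (hh0 : h0 ≠ 0) (hL : L ≠ 0) :
    RDF (fun τ x => Wd ξ Vc h0 B L V τ (Real.exp x)) := by
  have h1 := (rdf_conj (rdf_tneg (rdf_vO (n := 6) (Vc := Vc) (B := B) hξ (vd_V1 h) (by norm_num)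
    hh0 (Or.inr hL))).neg).exp_mul (-(1 / 2) : ℂ)
  have h2 : (fun τ x => Wd ξ Vc h0 B L V τ (Real.exp x)) = fun τ x : ℝ =>
      cexp ((-(1 / 2) : ℂ) * x) * conj (vO 6 ξ Vc h0 B L (Vt (V1 V) (-τ)) (-x)) := by
    funext τ x
    exact Wd_exp τ x
  rw [h2]
  exact h1

lemma rd_of_rdf {W : ℝ → ℝ → ℂ} (h : RDF (fun τ x => W τ (Real.exp x))) : RD W where
  smooth τ := by
    have h1 : ContDiffOn ℝ ∞ ((fun x => W τ (Real.exp x)) ∘ Real.log) (Set.Ioi 0) := by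
      refine (h.smooth τ).comp_contDiffOn ?_
      intro y hy
      exact (Real.contDiffAt_log.mpr (ne_of_gt hy)).contDiffWithinAt
    refine h1.congr fun y hy => ?_
    simp only [Function.comp_apply]
    rw [Real.exp_log hy]
  dec m N := by
    obtain ⟨C, A, hC, hb⟩ := h.bd m N
    refine ⟨C, A, hC, fun τ y hy => ?_⟩
    have h1 := hb τ (Real.log y)
    rw [Real.rpow_natCast]
    refine h1.trans ?_
    have h2 : Real.exp (-(N * |Real.log y|)) ≤ min (y ^ N) ((y ^ N)⁻¹) := by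
      have e1 : y ^ N = Real.exp (N * Real.log y) := by
        rw [Real.exp_nat_mul, Real.exp_log hy]
      rw [e1, ← Real.exp_neg, le_min_iff]
      have h3 : (0 : ℝ) ≤ N := Nat.cast_nonneg N
      have h4 := neg_abs_le (Real.log y)
      have h5 := le_abs_self (Real.log y)
      constructor
      · apply Real.exp_le_exp.mpr; nlinarith
      · apply Real.exp_le_exp.mpr; nlinarith
    have h3 := one_le_par τ
    gcongr

/-- **the dual weight is `RD`** -/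
theorem rd_Wd (hξ : XiP ξ κ c) (h : VD V) (hh0 : h0 ≠ 0) (hL : L ≠ 0) :
    RD (Wd ξ Vc h0 B L V) := rd_of_rdf (rdf_Wd hξ h hh0 hL)

/-! ### the dual of `fQ` -/

lemma sph_inv (k : ℤ) (z : ℂ) : sph k z⁻¹ = sph (-k) z := by
  unfold sph
  rw [norm_inv, Complex.ofReal_inv, zpow_neg, ← inv_zpow]
  congr 1
  rw [inv_div_inv, inv_div]

lemma fOn_fQ (τ : ℝ) {Q : ℝ} (hQ : 0 < Q) {u : ℂ} (hu : u ≠ 0) :
    fOn 6 ξ Vc h0 B (fQ V L τ Q) u =
      ((Real.sqrt Q : ℝ) : ℂ) *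
        (vO 6 ξ Vc h0 B L (Vt (V1 V) (-τ)) (-Real.log (Q / ‖u‖ ^ 2)) * sph L u) := by
  have hq : 0 < Real.sqrt Q := Real.sqrt_pos.mpr hQ
  have hqC : ((Real.sqrt Q : ℝ) : ℂ) ≠ 0 := by exact_mod_cast hq.ne'
  have hun : 0 < ‖u‖ := norm_pos_iff.mpr hu
  have e : fQ V L τ Q = fun z => ((Q ^ (-(1 / 2) : ℝ) : ℝ) : ℂ) *
      (fun z => wt (Vt (V1 V) (-τ)) L (z / ((Real.sqrt Q : ℝ) : ℂ))) z := rfl
  rw [e, Wt92.fOn_smul, fOn_scale 6 ξ Vc h0 B (wt (Vt (V1 V) (-τ)) L) hqC u]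
  have hv : u / ((Real.sqrt Q : ℝ) : ℂ) ≠ 0 := div_ne_zero hu hqC
  have hR : Rot L (fOn 6 ξ Vc h0 B (wt (Vt (V1 V) (-τ)) L)) := (rot_wt _ L).fOn 6 ξ Vc h0 B
  rw [hR.eq hv, sph_div_pos L u hq]
  have hn : ‖u / ((Real.sqrt Q : ℝ) : ℂ)‖ = Real.exp (-Real.log (Q / ‖u‖ ^ 2) / 2) := by
    rw [norm_div, Complex.norm_real, Real.norm_of_nonneg hq.le, ← Real.log_inv, inv_div]
    have h1 : ‖u‖ ^ 2 / Q = (‖u‖ / Real.sqrt Q) ^ 2 := by rw [div_pow, Real.sq_sqrt hQ.le]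
    rw [h1, Real.log_pow]
    have h2 : ((2 : ℕ) : ℝ) * Real.log (‖u‖ / Real.sqrt Q) / 2 = Real.log (‖u‖ / Real.sqrt Q) := by
      push_cast; ring
    rw [h2, Real.exp_log (by positivity)]
  rw [hn]
  have h3 : ((Q ^ (-(1 / 2) : ℝ) : ℝ) : ℂ) * ((‖((Real.sqrt Q : ℝ) : ℂ)‖ ^ 2 : ℝ) : ℂ) =
      ((Real.sqrt Q : ℝ) : ℂ) := by
    rw [← Complex.ofReal_mul, Complex.norm_real, Real.norm_of_nonneg hq.le, Real.sq_sqrt hQ.le,
      Real.sqrt_eq_rpow]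
    congr 1
    nth_rewrite 2 [← Real.rpow_one Q]
    rw [← Real.rpow_add hQ]
    norm_num
  unfold vO
  rw [← mul_assoc, ← mul_assoc, h3, mul_assoc]

lemma fOn_lin_redf {J : Type} [Fintype J] {M : Eis} {km : ℕ} {μ : Fin km → ℂ} {d : Fin km → Eis}
    (hξ : ∀ a, ‖ξ a‖ ≤ 1) (hh : h0 ≠ 0) (hM : Mob M km μ d) {f : ℂ → ℂ} (h : Xi590.CS f)
    (cr br : J → ℂ) (hb : ∀ j, br j ≠ 0) {u : ℂ} (hu : u ≠ 0) :
    fOn 6 ξ Vc h0 B (lin Finset.univ cr br (redf 6 ξ km μ d f)) u =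
      ∑ p : J × Fin km, (cr p.1 * (((‖br p.1‖ ^ 2)⁻¹ : ℝ) : ℂ) *
        (μ p.2 * ξ (d p.2) * ((nm (d p.2) : ℂ))⁻¹)) *
          fOn 6 ξ Vc h0 B f ((toC (d p.2) ^ 6 * br p.1) * u) := by
  have h1 : Xi590.CS (redf 6 ξ km μ d f) := cs_lin h _ _ _ fun i _ => hM.b_ne i
  rw [fOn_lin (by norm_num) hξ hh h1 _ _ _ (fun j _ => hb j) hu, Fintype.sum_prod_type]
  refine Finset.sum_congr rfl fun j _ => ?_
  rw [fOn_redf (by norm_num) hξ hh hM h (mul_ne_zero (hb j) hu), Finset.mul_sum, Finset.mul_sum]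
  refine Finset.sum_congr rfl fun i _ => ?_
  rw [← mul_assoc (toC (d i) ^ 6)]
  ring

/-! ### one term -/

lemma norm_s3_sq : ‖toC Parseval499.s3‖ ^ 2 = 3 := by
  rw [norm_toC_sq]
  have : nm Parseval499.s3 = 3 := by decide
  rw [this]; norm_num

lemma s3C_ne : toC Parseval499.s3 ≠ 0 := by
  intro h
  have := norm_s3_sq
  rw [h] at this
  norm_num at this

/-- the dual character -/
def psD (N : Eis) (g : Eis → ℂ) (c : Eis) : ℂ :=
  conj (g c * sy6 (N * sq3) c) * sy 2 c * conj (LS848.eps2 c)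

/-- `ρ = |b|² / (3 N(N))` -/
def rhoD (N : Eis) (b : ℂ) : ℝ := ‖b‖ ^ 2 / (3 * nm N)

lemma rhoD_pos {N : Eis} (hN : N ≠ 0) {b : ℂ} (hb : b ≠ 0) : 0 < rhoD N b := by
  unfold rhoD
  have h1 : 0 < ‖b‖ := norm_pos_iff.mpr hb
  have h2 : (0 : ℝ) < nm N := by exact_mod_cast nm_pos.mpr hN
  positivity

/-- the constant of one dilate -/
def kD (N : Eis) (l : ℤ) (b : ℂ) : ℂ :=
  (nm N : ℂ) * ((rhoD N b ^ (-(1 / 2) : ℝ) : ℝ) : ℂ) *
    sph (l + 1) (b / (toC N * toC Parseval499.s3))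

lemma real_id {ρ ν c Q : ℝ} (hρ : 0 < ρ) (hν : 0 < ν) (hc : 0 < c) (hQ : 0 < Q) :
    Q / Real.sqrt ν * ρ ^ (-(1 / 2) : ℝ) * (Real.sqrt c)⁻¹ * (c / (ρ * ν / Q)) ^ (-(1 / 2) : ℝ) =
      c⁻¹ * Real.sqrt Q := by
  have h1 : (c / (ρ * ν / Q)) ^ (-(1 / 2) : ℝ) =
      (Real.sqrt c)⁻¹ * (Real.sqrt ρ * Real.sqrt ν / Real.sqrt Q) := by
    rw [Real.rpow_neg (by positivity), ← Real.sqrt_eq_rpow, Real.sqrt_div' _ (by positivity),
      Real.sqrt_div' _ hQ.le, Real.sqrt_mul hρ.le]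
    rw [inv_div, div_eq_mul_inv, mul_comm]
  have h2 : ρ ^ (-(1 / 2) : ℝ) = (Real.sqrt ρ)⁻¹ := by
    rw [Real.rpow_neg hρ.le, ← Real.sqrt_eq_rpow]
  rw [h1, h2]
  have e1 := Real.mul_self_sqrt hc.le
  have e2 := Real.mul_self_sqrt hQ.le
  have p1 := Real.sqrt_pos.mpr hρ
  have p2 := Real.sqrt_pos.mpr hν
  have p3 := Real.sqrt_pos.mpr hc
  have p4 := Real.sqrt_pos.mpr hQ
  calc Q / Real.sqrt ν * (Real.sqrt ρ)⁻¹ * (Real.sqrt c)⁻¹ *
        ((Real.sqrt c)⁻¹ * (Real.sqrt ρ * Real.sqrt ν / Real.sqrt Q))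
      = (Q / Real.sqrt Q) * (Real.sqrt c * Real.sqrt c)⁻¹ := by field_simp
    _ = c⁻¹ * Real.sqrt Q := by
        rw [e1]
        have : Q / Real.sqrt Q = Real.sqrt Q := by
          rw [div_eq_iff p4.ne', e2]
        rw [this, mul_comm]

lemma right_term {N ν c x : Eis} {g : Eis → ℂ} {l : ℤ} (hN : Lev N) (hc : Gd c)
    (hcN : IsCoprime c N) (hx : N ∣ x + ν) (hν : ν ≠ 0) (τ : ℝ) {Q : ℝ} (hQ : 0 < Q) {b : ℂ}
    (hb : b ≠ 0) :
    conj ((((nm c : ℝ)⁻¹ : ℝ) : ℂ) *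
        fOn 6 ξ Vc h0 B (fQ V (-(l + 1)) τ Q) (b * (frq (toC N) ν / toC c)) *
          SC (rowA N x g) N ν c) =
      ((Q / Real.sqrt (nm ν) : ℝ) : ℂ) * (kD N l b * ang (l + 1) ν *
        (End699.tw (psD N g) (-(l + 2)) c * HN ν c *
          Wd ξ Vc h0 B (-(l + 1)) V τ (nm c / (rhoD N b * nm ν / Q)))) := by
  have hNC : toC N ≠ 0 := Po581.toC_ne_zero hN.ne
  have hcC : toC c ≠ 0 := Po581.toC_ne_zero hc.ne
  have hνC : toC ν ≠ 0 := Po581.toC_ne_zero hν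
  have hs3 := s3C_ne
  have hNp : (0 : ℝ) < nm N := by exact_mod_cast nm_pos.mpr hN.ne
  have hcp : (0 : ℝ) < nm c := by exact_mod_cast nm_pos.mpr hc.ne
  have hνp : (0 : ℝ) < nm ν := by exact_mod_cast nm_pos.mpr hν
  have hρ := rhoD_pos hN.ne hb
  have hbp : 0 < ‖b‖ := norm_pos_iff.mpr hb
  set u : ℂ := b * (frq (toC N) ν / toC c) with hu
  have hu0 : u ≠ 0 := mul_ne_zero hb (div_ne_zero (div_ne_zero hνC (mul_ne_zero hNC hs3)) hcC)
  set y : ℝ := nm c / (rhoD N b * nm ν / Q) with hy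
  have hyp : 0 < y := by positivity
  have hyu : Q / ‖u‖ ^ 2 = y := by
    rw [hu, hy]
    unfold frq rhoD
    rw [norm_mul, norm_div, norm_div, norm_mul]
    rw [mul_pow, div_pow, div_pow, mul_pow, norm_s3_sq, norm_toC_sq, norm_toC_sq, norm_toC_sq]
    field_simp
  have hsph : sph (-(-(l + 1))) u =
      sph (l + 1) (b / (toC N * toC Parseval499.s3)) * ang (l + 1) ν * ang (-(l + 1)) c := by
    have e1 : u = (b / (toC N * toC Parseval499.s3)) * (toC ν * (toC c)⁻¹) := by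
      rw [hu]; unfold frq
      field_simp
    rw [neg_neg, e1, sph_mul, sph_mul, sph_inv, ang_eq, ang_eq]
    ring
  have hang : ang (-(l + 2)) c * ang 1 c = ang (-(l + 1)) c := by
    rw [ang_eq, ang_eq, ang_eq, ← sph_add _ _ hcC]
    congr 1
    ring
  have hsy : sy 2 c * conj (sy 2 c) = 1 := sy_mul_conj hc ((ss_two hN).cop hcN)
  have heps : conj (LS848.eps2 c) * LS848.eps2 c = 1 := by
    rw [mul_comm, Complex.mul_conj, Complex.normSq_eq_norm_sq, LS848.norm_eps2 hc.1 hc.2]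
    norm_num
  have hreal := congrArg (fun t : ℝ => (t : ℂ))
    (real_id hρ hνp hcp hQ)
  simp only [Complex.ofReal_mul] at hreal
  rw [fOn_fQ τ hQ hu0, hyu, SC_rowA hN hc hcN hx]
  simp only [map_mul, Complex.conj_ofReal, Complex.conj_natCast]
  rw [conj_sph _ hu0, hsph]
  unfold Wd End699.tw HN psD kD
  rw [← hy] at hreal
  simp only [map_mul]
  rw [← hang]
  generalize conj (vO 6 ξ Vc h0 B (-(l + 1)) (Vt (V1 V) (-τ)) (-Real.log y)) = t1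
  generalize conj (gs6 ν c) = t2
  generalize conj (sy6 N c) = t3
  generalize conj (g c) = t4
  generalize conj (sy6 (N * sq3) c) = t5 at *
  generalize conj (sy 2 c) = t6 at *
  generalize conj (LS848.eps2 c) = t7 at *
  generalize sph (l + 1) (b / (toC N * toC Parseval499.s3)) = t8
  generalize ang (l + 1) ν = t9
  generalize ang (-(l + 2)) c = t10
  generalize ang 1 c = t11
  generalize ((y ^ (-(1 / 2) : ℝ) : ℝ) : ℂ) = t12 at *
  generalize ((rhoD N b ^ (-(1 / 2) : ℝ) : ℝ) : ℂ) = t13 at *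
  rw [div_eq_mul_inv (t11 * t6 * LS848.eps2 c * t2)]
  have hreal' : ((Q / Real.sqrt (nm ν) : ℝ) : ℂ) * t13 * ((Real.sqrt (nm c) : ℝ) : ℂ)⁻¹ * t12 =
      (((nm c : ℝ)⁻¹ : ℝ) : ℂ) * ((Real.sqrt Q : ℝ) : ℂ) := by
    rw [← hreal, ← Complex.ofReal_inv]
  generalize ((Real.sqrt (nm c) : ℝ) : ℂ)⁻¹ = t14 at *
  generalize ((Q / Real.sqrt (nm ν) : ℝ) : ℂ) = t15 at *
  generalize (((nm c : ℝ)⁻¹ : ℝ) : ℂ) = t16 at *
  generalize ((Real.sqrt Q : ℝ) : ℂ) = t17 at *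
  generalize (nm N : ℂ) = t18 at *
  generalize sy 2 c = t19 at *
  generalize LS848.eps2 c = t20 at *
  have : t16 * (t17 * (t1 * (t8 * t9 * (t10 * t11)))) * (t18 * (t4 * (t5 * t2))) =
      (t16 * t17) * (t1 * t8 * t9 * t10 * t11 * t18 * t4 * t5 * t2) := by ring
  rw [this, ← hreal']
  linear_combination (-(t15 * t13 * t14 * t12 * t1 * t8 * t9 * t10 * t11 * t18 * t4 * t5 * t2)) *
    (hsy + t19 * t6 * heps)

/-! ### the right side -/

/-- coefficients of the family -/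
def cfD {J : Type} {km : ℕ} (ξ : Eis → ℂ) (μ : Fin km → ℂ) (d : Fin km → Eis) (cr br : J → ℂ)
    (p : J × Fin km) : ℂ :=
  cr p.1 * (((‖br p.1‖ ^ 2)⁻¹ : ℝ) : ℂ) * (μ p.2 * ξ (d p.2) * ((nm (d p.2) : ℂ))⁻¹)

/-- dilates of the family -/
def bD {J : Type} {km : ℕ} (d : Fin km → Eis) (br : J → ℂ) (p : J × Fin km) : ℂ :=
  toC (d p.2) ^ 6 * br p.1

lemma norm_psD_le {N c : Eis} {g : Eis → ℂ} (hc : Gd c) (hg : ‖g c‖ ≤ 1) : ‖psD N g c‖ ≤ 1 := by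
  unfold psD
  rw [norm_mul, norm_mul, RCLike.norm_conj, RCLike.norm_conj, norm_mul,
    LS848.norm_eps2 hc.1 hc.2, mul_one]
  have h1 := norm_sy6_le hc.1 hc.2 (N * sq3)
  have h2 : ‖sy 2 c‖ ≤ 1 := res_sy.norm_le_one 2 ⟨hc.1, isCoprime_one_right⟩
  calc ‖g c‖ * ‖sy6 (N * sq3) c‖ * ‖sy 2 c‖ ≤ 1 * 1 * 1 := by gcongr
    _ = 1 := by norm_num

open Classical in
/-- **the right side**, one member. -/
theorem right_eval {M N ν x : Eis} {g : Eis → ℂ} {l : ℤ} {J : Type} [Fintype J] {km : ℕ}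
    {μ : Fin km → ℂ} {d : Fin km → Eis} (hξ : XiP ξ κ c) (hV : VD V) (hl : l ≠ -1) (hh : h0 ≠ 0)
    (h2 : (2 : Eis) ∣ M) (hN : Lev N) (hMob : Mob M km μ d)
    (hSm : ∀ c, Sm M c ↔ (Gd c ∧ IsCoprime c N)) (hx : N ∣ x + ν) (hν : ν ≠ 0)
    {cr br : J → ℂ} (hb : ∀ j, br j ≠ 0) (hg : ∀ c, Sm M c → ‖g c‖ ≤ 1) (τ : ℝ) {Q : ℝ}
    (hQ : 0 < Q) :
    conj (RS 6 ξ Vc h0 B (lin Finset.univ cr br (redf 6 ξ km μ d (fQ V (-(l + 1)) τ Q)))
        (rowA N x g) N ν) =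
      ((Q / Real.sqrt (nm ν) : ℝ) : ℂ) * ∑ p : J × Fin km,
        conj (cfD ξ μ d cr br p) * kD N l (bD d br p) * ang (l + 1) ν *
          PsiF M (End699.tw (psD N g) (-(l + 2))) ν (Wd ξ Vc h0 B (-(l + 1)) V τ)
            (rhoD N (bD d br p) * nm ν / Q) := by
  have hbD : ∀ p : J × Fin km, bD d br p ≠ 0 := fun p =>
    mul_ne_zero (hMob.b_ne p.2) (hb p.1)
  have hνp : (0 : ℝ) < nm ν := by exact_mod_cast nm_pos.mpr hν
  have hL : -(l + 1) ≠ 0 := by omega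
  set T : J × Fin km → Eis → ℂ := fun p c => if Sm M c then
    End699.tw (psD N g) (-(l + 2)) c * HN ν c *
      Wd ξ Vc h0 B (-(l + 1)) V τ (nm c / (rhoD N (bD d br p) * nm ν / Q)) else 0 with hT
  have hsum : ∀ p, Summable (T p) := by
    intro p
    have hQ' : 0 < rhoD N (bD d br p) * nm ν / Q := by
      have := rhoD_pos hN.ne (hbD p)
      positivity
    refine summable_RD (rd_Wd hξ hV hh hL) τ h2 hν (fun b hb' => ?_) hQ'
    unfold End699.tw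
    rw [norm_mul, ang_eq]
    have e1 := norm_psD_le (N := N) ((hSm b).mp hb').1 (hg b hb')
    have e2 := norm_sph_le (-(l + 2)) (toC b)
    exact mul_le_one₀ e1 (norm_nonneg _) e2
  unfold RS
  rw [Complex.conj_tsum]
  have e1 : ∀ c : Eis, conj (if c = 0 then 0 else (((nm c : ℝ)⁻¹ : ℝ) : ℂ) *
      fOn 6 ξ Vc h0 B (lin Finset.univ cr br (redf 6 ξ km μ d (fQ V (-(l + 1)) τ Q)))
        (frq (toC N) ν / toC c) * SC (rowA N x g) N ν c) =
      ∑ p : J × Fin km, ((Q / Real.sqrt (nm ν) : ℝ) : ℂ) *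
        (conj (cfD ξ μ d cr br p) * kD N l (bD d br p) * ang (l + 1) ν) * T p c := by
    intro c
    by_cases hc : Sm M c
    · obtain ⟨hgd, hcop⟩ := (hSm c).mp hc
      have hcC : toC c ≠ 0 := Po581.toC_ne_zero hgd.ne
      have hu : frq (toC N) ν / toC c ≠ 0 := div_ne_zero (frq_ne_zero hN.ne hν) hcC
      rw [if_neg hgd.ne, fOn_lin_redf hξ.le1 hh hMob (fQ_cs hV _ τ hQ) cr br hb hu,
        Finset.mul_sum, Finset.sum_mul, map_sum]
      refine Finset.sum_congr rfl fun p _ => ?_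
      have h1 := right_term (ξ := ξ) (Vc := Vc) (h0 := h0) (B := B) (V := V) (g := g) (l := l)
        hN hgd hcop hx hν τ hQ (hbD p)
      have h3 : T p c = End699.tw (psD N g) (-(l + 2)) c * HN ν c *
          Wd ξ Vc h0 B (-(l + 1)) V τ (nm c / (rhoD N (bD d br p) * nm ν / Q)) := if_pos hc
      rw [h3]
      have h4 : (((nm c : ℝ)⁻¹ : ℝ) : ℂ) * (cr p.1 * (((‖br p.1‖ ^ 2)⁻¹ : ℝ) : ℂ) *
          (μ p.2 * ξ (d p.2) * ((nm (d p.2) : ℂ))⁻¹) *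
            fOn 6 ξ Vc h0 B (fQ V (-(l + 1)) τ Q)
              ((toC (d p.2) ^ 6 * br p.1) * (frq (toC N) ν / toC c))) * SC (rowA N x g) N ν c =
          cfD ξ μ d cr br p * ((((nm c : ℝ)⁻¹ : ℝ) : ℂ) *
            fOn 6 ξ Vc h0 B (fQ V (-(l + 1)) τ Q) (bD d br p * (frq (toC N) ν / toC c)) *
              SC (rowA N x g) N ν c) := by
        unfold cfD bD; ring
      rw [h4, map_mul, h1]
      ring
    · have e2 : ∀ p, T p c = 0 := fun p => if_neg hc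
      have e3 : (if c = 0 then 0 else (((nm c : ℝ)⁻¹ : ℝ) : ℂ) *
          fOn 6 ξ Vc h0 B (lin Finset.univ cr br (redf 6 ξ km μ d (fQ V (-(l + 1)) τ Q)))
            (frq (toC N) ν / toC c) * SC (rowA N x g) N ν c) = 0 := by
        by_cases hc0 : c = 0
        · rw [if_pos hc0]
        · rw [if_neg hc0, SC_rowA_zero (fun h => hc ((hSm c).mpr h)) (mul_ne_zero hN.ne hc0),
            mul_zero]
      rw [e3, map_zero]
      symm
      exact Finset.sum_eq_zero fun p _ => by rw [e2, mul_zero]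
  rw [tsum_congr e1, Summable.tsum_finsetSum (fun p _ => (hsum p).mul_left _), Finset.mul_sum]
  refine Finset.sum_congr rfl fun p _ => ?_
  rw [tsum_mul_left]
  unfold PsiF
  rw [hT]
  ring

end Crest.Agent.R017.EndA92
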