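import Crest.Agent.R017.EndE_699
import Crest.Agent.R012.Gauss_880
import Mathlib.NumberTheory.MulChar.Duality
import Mathlib.Analysis.SpecialFunctions.Complex.CircleAddChar
import Mathlib.RingTheory.RootsOfUnity.AlgebraicallyClosed

/-!
# Row 17: every function of the residue class is a combination of characters (helper266)

* `exists_isCh_expansion` : `r a = Σ κ_i η_i(a)` with `IsCh M η_i`, for `a` prime to `M`
* `exists_hc_expansion` : the same for 699's `HC M`
-/

set_option autoImplicit false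

noncomputable section

namespace Crest.Agent.R017.HcExp266

open Crest.Agent.R012 Crest.Agent.R012.Eis Crest.Agent.R012.Gauss880 Crest.Agent.R017.End699
open Crest.Agent.R012.PSer47

variable {M : Eis}

lemma isUnit_mkQ {x : Eis} : IsUnit (mkQ M x) ↔ IsCoprime x M := by
  constructor
  · intro h
    obtain ⟨q, hq⟩ := h.exists_right_inv
    obtain ⟨y, rfl⟩ := mkQ_surjective M q
    rw [← map_mul, ← map_one (mkQ M), mkQ_eq_iff] at hq
    obtain ⟨t, ht⟩ := hq
    exact ⟨y, -t, by linear_combination ht⟩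
  · rintro ⟨a, b, hab⟩
    refine IsUnit.of_mul_eq_one (mkQ M a) ?_
    rw [← map_mul, ← map_one (mkQ M), mkQ_eq_iff]
    exact ⟨-b, by linear_combination hab⟩

lemma sum_mulChar {R : Type*} [CommRing R] [Finite R] [Fintype (MulChar R ℂ)] {a : R}
    (ha : a ≠ 1) : ∑ χ : MulChar R ℂ, χ a = 0 := by
  obtain ⟨χ, hχ⟩ := MulChar.exists_apply_ne_one_of_hasEnoughRootsOfUnity R ℂ ha
  refine eq_zero_of_mul_eq_self_left hχ ?_
  simp only [Finset.mul_sum, ← MulChar.mul_apply]
  exact Fintype.sum_bijective _ (Group.mulLeft_bijective χ) _ _ fun χ' ↦ rfl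

/-- `MulChar` of the quotient as a character modulo `M`. -/
lemma isCh_mulChar (hM : M ≠ 0) (χ : MulChar (QE M) ℂ) : IsCh M (fun a => χ (mkQ M a)) where
  one := by simp
  mul a b := by simp
  per a t := by
    have : mkQ M (a + M * t) = mkQ M a := mkQ_eq_iff.mpr ⟨t, by ring⟩
    simp only [this]
  zero a ha := χ.map_nonunit (fun h => ha (isUnit_mkQ.mp h))

theorem exists_isCh_expansion (hM : M ≠ 0) {r : Eis → ℂ}
    (hr : ∀ a b, IsCoprime a M → IsCoprime b M → M ∣ a - b → r a = r b) :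
    ∃ (n : ℕ) (κ : Fin n → ℂ) (η : Fin n → Eis → ℂ), (∀ i, IsCh M (η i)) ∧
      ∀ a, IsCoprime a M → r a = ∑ i, κ i * η i a := by
  classical
  have hfin := finite_QE hM
  let _ : Fintype (QE M)ˣ := Fintype.ofFinite _
  have hfc : Finite (MulChar (QE M) ℂ) := inferInstance
  let _ : Fintype (MulChar (QE M) ℂ) := Fintype.ofFinite _
  let e := Fintype.equivFin (MulChar (QE M) ℂ)
  set c : ℂ := (Fintype.card (MulChar (QE M) ℂ) : ℂ) with hc
  have hc0 : c ≠ 0 := by
    rw [hc]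
    exact_mod_cast (Fintype.card_pos (α := MulChar (QE M) ℂ)).ne'
  refine ⟨Fintype.card (MulChar (QE M) ℂ),
    fun i => c⁻¹ * ∑ u : (QE M)ˣ, r (Quotient.out (u : QE M)) * (e.symm i) ((u⁻¹ : (QE M)ˣ) : QE M),
    fun i a => (e.symm i) (mkQ M a), fun i => isCh_mulChar hM _, fun a ha => ?_⟩
  rw [Equiv.sum_comp e.symm (fun χ : MulChar (QE M) ℂ =>
    c⁻¹ * (∑ u : (QE M)ˣ, r (Quotient.out (u : QE M)) * χ ((u⁻¹ : (QE M)ˣ) : QE M)) * χ (mkQ M a))]
  obtain ⟨v, hv⟩ := isUnit_mkQ.mpr ha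
  have e1 : ∀ χ : MulChar (QE M) ℂ,
      c⁻¹ * (∑ u : (QE M)ˣ, r (Quotient.out (u : QE M)) * χ ((u⁻¹ : (QE M)ˣ) : QE M)) *
        χ (mkQ M a) = ∑ u : (QE M)ˣ, c⁻¹ * r (Quotient.out (u : QE M)) *
          χ (((u⁻¹ * v : (QE M)ˣ)) : QE M) := by
    intro χ
    rw [← hv, Finset.mul_sum, Finset.sum_mul]
    refine Finset.sum_congr rfl fun u _ => ?_
    rw [Units.val_mul, map_mul]
    ring
  simp_rw [e1]
  rw [Finset.sum_comm, Finset.sum_eq_single v]
  · have h1 : (((v⁻¹ * v : (QE M)ˣ)) : QE M) = 1 := by rw [inv_mul_cancel, Units.val_one]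
    simp_rw [h1, map_one]
    rw [Finset.sum_const, Finset.card_univ, nsmul_eq_mul, mul_one]
    have h2 : r (Quotient.out (v : QE M)) = r a := by
      refine hr _ _ (isUnit_mkQ.mp ?_) ha ?_
      · rw [mkQ_out]; exact v.isUnit
      · rw [← mkQ_eq_iff, mkQ_out, hv]
    rw [h2, ← hc, ← mul_assoc, mul_inv_cancel₀ hc0, one_mul]
  · intro u _ hu
    rw [← Finset.mul_sum, sum_mulChar, mul_zero]
    intro h1
    apply hu
    have h2 : u⁻¹ * v = 1 := Units.ext h1
    exact (inv_mul_eq_one.mp h2)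
  · intro h; exact absurd (Finset.mem_univ _) h

lemma hc_of_isCh (hM : M ≠ 0) (h3 : (3 : Eis) ∣ M) {χ : Eis → ℂ} (h : IsCh M χ) : HC M χ where
  q0 := hM
  three := h3
  char := {
    one := h.one
    mul := fun a b _ _ => h.mul a b
    norm := fun a _ => by
      by_cases ha : IsCoprime a M
      · exact Or.inr (h.norm_eq_one hM ha)
      · exact Or.inl (h.zero a ha) }
  per _ _ _ _ hab := h.per.congr hab
  van a _ ha := h.zero a ha

theorem exists_hc_expansion (hM : M ≠ 0) (h3 : (3 : Eis) ∣ M) {r : Eis → ℂ}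
    (hr : ∀ a b, IsPrim a → IsPrim b → IsCoprime a M → IsCoprime b M → M ∣ a - b → r a = r b) :
    ∃ (n : ℕ) (κ : Fin n → ℂ) (η : Fin n → Eis → ℂ), (∀ i, HC M (η i)) ∧
      ∀ a, IsPrim a → IsCoprime a M → r a = ∑ i, κ i * η i a := by
  classical
  have hprim : ∀ a b : Eis, M ∣ a - b → (IsPrim a ↔ IsPrim b) := by
    intro a b hab
    have h1 : (3 : Eis) ∣ a - b := h3.trans hab
    unfold IsPrim
    have e : a - 1 = (b - 1) + (a - b) := by ring
    rw [e]
    exact dvd_add_left h1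
  obtain ⟨n, κ, η, h1, h2⟩ := exists_isCh_expansion hM (r := fun a => if IsPrim a then r a else 0)
    (fun a b ha hb hab => by
      beta_reduce
      by_cases hp : IsPrim a
      · rw [if_pos hp, if_pos ((hprim a b hab).mp hp)]
        exact hr a b hp ((hprim a b hab).mp hp) ha hb hab
      · rw [if_neg hp, if_neg (fun h => hp ((hprim a b hab).mpr h))])
  refine ⟨n, κ, η, fun i => hc_of_isCh hM h3 (h1 i), fun a ha hc => ?_⟩
  rw [← h2 a hc, if_pos ha]

end Crest.Agent.R017.HcExp266
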