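import Crest.Agent.R017.CD1_47
import Crest.Agent.R017.CT2_590
import Crest.Agent.R017.EndA3_92
import Crest.Agent.R017.F1Cln2_180
import Crest.Agent.R017.HcExp_266

/-!
# Row 17, twisted cubic functional equation (C.F1tw), last step, part 1: weights and cells (helper47)

* `fT V l τ Q` : the test function `z ↦ sph l z (|z|²/Q)^{iτ} V(|z|²/Q)`
* `RW l R` : `R V τ Q z = Q sph l z W(τ, Q/|z|²)` with `RD W`
* `Cgt ψ u R = Σ_{c primary} ψ(c) conj (gs u c) R(c)`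
* `rep_cell` : one cell as a right side of 590's `Rep`
* `Rep.fmul`, `Rep.sum`
-/

set_option autoImplicit false

noncomputable section

open MeasureTheory Complex Set Filter
open scoped ComplexConjugate SchwartzMap ContDiff Topology

namespace Crest.Agent.R017.CD47

open Crest.Agent.R012 Crest.Agent.R012.Eis Crest.Agent.R012.Gauss880 Crest.Agent.R017.Loc266
open Crest.Agent.R017.Sx545 Crest.Agent.R017.B770
open Crest.Agent.R017.A590 Crest.Agent.R017.C590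
open Crest.Agent.R017.Xn590 Crest.Agent.R017.Wt92 Crest.Agent.R017.EndA92
open Crest.Agent.R017.End699 (HC)
open Crest.Agent.R017.E2440 (NT DS)

/-! ### the test function -/

/-- the test function -/
def fT (V : ℝ → ℂ) (l : ℤ) (τ Q : ℝ) (z : ℂ) : ℂ := wt (Vt V τ) l (z / ((Real.sqrt Q : ℝ) : ℂ))

lemma sqrtQ_ne {Q : ℝ} (hQ : 0 < Q) : ((Real.sqrt Q : ℝ) : ℂ) ≠ 0 := by
  exact_mod_cast (Real.sqrt_pos.mpr hQ).ne'

lemma fT_eq (V : ℝ → ℂ) (l : ℤ) (τ : ℝ) {Q : ℝ} (hQ : 0 < Q) (z : ℂ) :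
    fT V l τ Q z = sph l z * (((‖z‖ ^ 2 / Q : ℝ) : ℂ) ^ (I * τ) * V (‖z‖ ^ 2 / Q)) := by
  unfold fT wt Vt
  have hq := Real.sqrt_pos.mpr hQ
  have h1 : ‖z / ((Real.sqrt Q : ℝ) : ℂ)‖ ^ 2 = ‖z‖ ^ 2 / Q := by
    rw [norm_div, Complex.norm_real, Real.norm_of_nonneg hq.le, div_pow, Real.sq_sqrt hQ.le]
  rw [h1, sph_div_pos l z hq]
  ring

lemma fT_cs {V : ℝ → ℂ} (h : VD V) (l : ℤ) (τ : ℝ) {Q : ℝ} (hQ : 0 < Q) :
    Xi590.CS (fT V l τ Q) := by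
  have h1 : Xi590.CS (wt (Vt V τ) l) := (h.Vt τ).cs l
  have h2 := XiI590.cs_dil h1 (inv_ne_zero (sqrtQ_ne hQ))
  have e : fT V l τ Q = fun x => wt (Vt V τ) l ((((Real.sqrt Q : ℝ) : ℂ))⁻¹ * x) := by
    funext x
    unfold fT
    rw [div_eq_inv_mul x]
  rw [e]
  exact h2

lemma fT_dat {V : ℝ → ℂ} (h : VD V) {l : ℤ} {ξ : Eis → ℂ} (hl : ξ 0 = 0 ∨ l ≠ 0) (τ : ℝ) {Q : ℝ}
    (hQ : 0 < Q) : DatN 3 ((-1) ^ l) ξ (fT V l τ Q) := by
  have h1 : DatN 3 ((-1) ^ l) ξ (wt (Vt V τ) l) := datN_wt (h.Vt τ) (by norm_num) hl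
  have h2 := Glue681.DatN.dil (by norm_num) h1 (inv_ne_zero (sqrtQ_ne hQ))
  have e : fT V l τ Q = fun x => wt (Vt V τ) l ((((Real.sqrt Q : ℝ) : ℂ))⁻¹ * x) := by
    funext x
    unfold fT
    rw [div_eq_inv_mul x]
  rw [e]
  exact h2

/-! ### families with a rapidly decreasing weight -/

/-- `R V τ Q z = Q sph l z W(τ, Q/|z|²)` -/
def RW (l : ℤ) (R : (ℝ → ℂ) → ℝ → ℝ → ℂ → ℂ) : Prop :=
  ∀ V : ℝ → ℂ, SW V → ∃ W : ℝ → ℝ → ℂ, RDF (fun τ x => W τ (Real.exp x)) ∧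
    ∀ τ Q : ℝ, 0 < Q → ∀ z : ℂ, z ≠ 0 → R V τ Q z = (Q : ℂ) * (sph l z * W τ (Q / ‖z‖ ^ 2))

variable {l : ℤ} {R R' : (ℝ → ℂ) → ℝ → ℝ → ℂ → ℂ}

lemma RW.add (h : RW l R) (h' : RW l R') : RW l (fun V τ Q z => R V τ Q z + R' V τ Q z) := by
  intro V hV
  obtain ⟨W, hW, h1⟩ := h V hV
  obtain ⟨W', hW', h2⟩ := h' V hV
  refine ⟨fun τ y => W τ y + W' τ y, hW.add hW', fun τ Q hQ z hz => ?_⟩
  beta_reduce
  rw [h1 τ Q hQ z hz, h2 τ Q hQ z hz]; ring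

lemma RW.cmul (h : RW l R) (a : ℂ) : RW l (fun V τ Q z => a * R V τ Q z) := by
  intro V hV
  obtain ⟨W, hW, h1⟩ := h V hV
  refine ⟨fun τ y => a * W τ y, hW.const_mul a, fun τ Q hQ z hz => ?_⟩
  beta_reduce
  rw [h1 τ Q hQ z hz]; ring

lemma RW.dil (h : RW l R) {b : ℂ} (hb : b ≠ 0) : RW l (fun V τ Q z => R V τ Q (b * z)) := by
  intro V hV
  obtain ⟨W, hW, h1⟩ := h V hV
  have hbn : 0 < ‖b‖ := norm_pos_iff.mpr hb
  refine ⟨fun τ y => sph l b * W τ (y / ‖b‖ ^ 2), ?_, fun τ Q hQ z hz => ?_⟩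
  · have h2 := (hW.shift (-Real.log (‖b‖ ^ 2))).const_mul (sph l b)
    have e : (fun (τ x : ℝ) => sph l b * W τ (Real.exp x / ‖b‖ ^ 2)) =
        fun (τ x : ℝ) => sph l b * W τ (Real.exp (x + -Real.log (‖b‖ ^ 2))) := by
      funext τ x
      rw [← sub_eq_add_neg, Real.exp_sub, Real.exp_log (by positivity)]
    rw [e]
    exact h2
  · beta_reduce
    rw [h1 τ Q hQ (b * z) (mul_ne_zero hb hz), sph_mul, norm_mul, mul_pow]
    have e : Q / (‖b‖ ^ 2 * ‖z‖ ^ 2) = Q / ‖z‖ ^ 2 / ‖b‖ ^ 2 := by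
      rw [div_div, mul_comm (‖z‖ ^ 2)]
    rw [e]; ring

variable {ξ : Eis → ℂ} {κ c : ℂ} {Vc : ℝ} {h0 B : ℂ}

/-- the dual of the test function -/
theorem rw_fOn (hξ : XiP ξ κ c) (hh0 : h0 ≠ 0) (hl : ξ 0 = 0 ∨ l ≠ 0) :
    RW l (fun V τ Q z => fOn 3 ξ Vc h0 B (fT V l τ Q) z) := by
  intro V hV
  have hVD := vd_sw hV
  refine ⟨fun τ y => vO 3 ξ Vc h0 B l (Vt V τ) (-Real.log y), ?_, fun τ Q hQ z hz => ?_⟩
  · have h1 := (rdf_vO (n := 3) (Vc := Vc) (B := B) (l := l) hξ hVD (by norm_num) hh0 hl).neg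
    have e : (fun (τ x : ℝ) => vO 3 ξ Vc h0 B l (Vt V τ) (-Real.log (Real.exp x))) =
        fun τ x => vO 3 ξ Vc h0 B l (Vt V τ) (-x) := by
      funext τ x
      rw [Real.log_exp]
    rw [e]
    exact h1
  · have hq : 0 < Real.sqrt Q := Real.sqrt_pos.mpr hQ
    have hqC := sqrtQ_ne hQ
    have hzn : 0 < ‖z‖ := norm_pos_iff.mpr hz
    have e : fT V l τ Q = fun z => wt (Vt V τ) l (z / ((Real.sqrt Q : ℝ) : ℂ)) := rfl
    beta_reduce
    rw [e, fOn_scale 3 ξ Vc h0 B (wt (Vt V τ) l) hqC z]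
    have hv : z / ((Real.sqrt Q : ℝ) : ℂ) ≠ 0 := div_ne_zero hz hqC
    have hR : Rot l (fOn 3 ξ Vc h0 B (wt (Vt V τ) l)) := (rot_wt _ l).fOn 3 ξ Vc h0 B
    rw [hR.eq hv, sph_div_pos l z hq]
    have hn : ‖z / ((Real.sqrt Q : ℝ) : ℂ)‖ = Real.exp (-Real.log (Q / ‖z‖ ^ 2) / 2) := by
      rw [norm_div, Complex.norm_real, Real.norm_of_nonneg hq.le, ← Real.log_inv, inv_div]
      have h1 : ‖z‖ ^ 2 / Q = (‖z‖ / Real.sqrt Q) ^ 2 := by rw [div_pow, Real.sq_sqrt hQ.le]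
      rw [h1, Real.log_pow]
      have h2 : ((2 : ℕ) : ℝ) * Real.log (‖z‖ / Real.sqrt Q) / 2 =
          Real.log (‖z‖ / Real.sqrt Q) := by push_cast; ring
      rw [h2, Real.exp_log (by positivity)]
    rw [hn]
    have h3 : ((‖((Real.sqrt Q : ℝ) : ℂ)‖ ^ 2 : ℝ) : ℂ) = (Q : ℂ) := by
      rw [Complex.norm_real, Real.norm_of_nonneg hq.le, Real.sq_sqrt hQ.le]
    rw [h3]
    unfold vO
    ring

/-! ### cells -/

open Classical in
/-- `Σ_{c primary} ψ(c) conj (gs u c) R(c)` -/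
def Cgt (ψ : Eis → ℂ) (u : Eis) (R : ℂ → ℂ) : ℂ :=
  ∑' c : Eis, if IsPrim c then ψ c * conj (gs u c) * R (toC c) else 0

variable {M M' : Eis} {φ : Eis → ℂ}

/-- one cell -/
lemma cell_eq (hφ0 : ∀ c, IsPrim c → ¬ Sm M c → φ c = 0) {δ : Eis}
    (hδ : ∀ c, Sm M c → IsCoprime δ c) {u : Eis} (hu : u ≠ 0) {Q : ℝ} (hQ : 0 < Q)
    {F : ℂ → ℂ} {W : ℝ → ℂ} (hF : ∀ z : ℂ, z ≠ 0 → F z = (Q : ℂ) * (sph l z * W (Q / ‖z‖ ^ 2)))
    {t : ℂ} (ht : t ≠ 0) :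
    Cgt φ (δ * u) (F1.rc F (t * toC u)) =
      (Q : ℂ) * (sph l t * ang l u *
        D3 M (End699.tw (fun c => φ c * sy δ c) (-l)) u W (‖t‖ ^ 2 * nm u / Q)) := by
  classical
  unfold Cgt D3 DS
  rw [← tsum_mul_left, ← tsum_mul_left]
  refine tsum_congr fun c => ?_
  have huC : toC u ≠ 0 := Po581.toC_ne_zero hu
  by_cases hc : Sm M c
  · rw [if_pos hc.1, if_pos hc]
    have hc0 := hc.1.ne_zero
    have hcC : toC c ≠ 0 := Po581.toC_ne_zero hc0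
    have hcp : (0 : ℝ) < nm c := by exact_mod_cast nm_pos.mpr hc0
    have hup : (0 : ℝ) < nm u := by exact_mod_cast nm_pos.mpr hu
    have htn : 0 < ‖t‖ := norm_pos_iff.mpr ht
    have h1 : gs (δ * u) c = conj (sy δ c) * gs u c := by
      rw [mul_comm]
      exact gs_mul_of_coprime syG hc.1 u (hδ c hc)
    unfold F1.rc End699.tw
    rw [hF _ (div_ne_zero (mul_ne_zero ht huC) hcC), h1]
    have h2 : sph l (t * toC u / toC c) = sph l t * ang l u * ang (-l) c := by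
      rw [div_eq_mul_inv, sph_mul, sph_mul, sph_inv, ang_eq, ang_eq]
    have h3 : Q / ‖t * toC u / toC c‖ ^ 2 = nm c / (‖t‖ ^ 2 * nm u / Q) := by
      rw [norm_div, norm_mul, div_pow, mul_pow, norm_toC_sq, norm_toC_sq]
      field_simp
    rw [h2, h3, norm_toC_sq, map_mul, Complex.conj_conj]
    push_cast
    ring
  · rw [if_neg hc]
    by_cases hp : IsPrim c
    · rw [if_pos hp, hφ0 c hp hc]; ring
    · rw [if_neg hp]; ring

lemma uni_one (q : Eis) : Uni q (fun _ => (1 : ℂ)) where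
  one := rfl
  mul _ _ _ _ := by norm_num
  norm _ _ := norm_one
  per _ _ _ _ _ := rfl

/-- **one cell as a right side** -/
theorem rep_cell (hM0 : M' ≠ 0) (h3 : (3 : Eis) ∣ M') (hcop : ∀ b, Sm M b → IsCoprime b M')
    (hφ0 : ∀ c, IsPrim c → ¬ Sm M c → φ c = 0) {δ : Eis}
    (hδ : ∀ c, Sm M c → IsCoprime δ c) (hU : Uni M' (fun c => φ c * sy δ c)) (hR : RW l R)
    {t : ℂ} (ht : t ≠ 0) :
    Rep M M' l (-l) (fun V u Q τ => Cgt φ (δ * u) (F1.rc (R V τ Q) (t * toC u))) := by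
  have htn : 0 < ‖t‖ := norm_pos_iff.mpr ht
  refine ⟨Unit, inferInstance, fun _ => sph l t, fun _ => Rst M' (fun _ => 1),
    fun _ => Rst M' (fun c => φ c * sy δ c), fun _ => ‖t‖ ^ 2, fun _ => hc_rst hM0 h3 (uni_one M'),
    fun _ => hc_rst hM0 h3 hU, fun _ => by positivity, fun V hV => ?_⟩
  obtain ⟨W, hW, h1⟩ := hR V hV
  refine ⟨fun _ => W, fun _ => rd_of_rdf hW, fun u hu Q hQ τ => ?_⟩
  have hu0 := hu.1.ne_zero
  beta_reduce
  rw [cell_eq hφ0 hδ hu0 hQ (fun z hz => h1 τ Q hQ z hz) ht]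
  simp only [Finset.univ_unique, Finset.sum_singleton]
  rw [tw_rst hcop _ _ hu]
  have e : D3 M (End699.tw (fun c => φ c * sy δ c) (-l)) u (W τ) (‖t‖ ^ 2 * nm u / Q) =
      D3 M (End699.tw (Rst M' (fun c => φ c * sy δ c)) (-l)) u (W τ) (‖t‖ ^ 2 * nm u / Q) := by
    refine D3_congr (fun b hb => ?_) u _ _
    rw [tw_rst hcop _ _ hb]
    rfl
  rw [e]
  ring

/-! ### closure -/

lemma Rep.zero (M M' : Eis) (j l' : ℤ) : Rep M M' j l' (fun _ _ _ _ => 0) := by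
  refine ⟨Empty, inferInstance, Empty.elim, Empty.elim, Empty.elim, Empty.elim,
    fun i => i.elim, fun i => i.elim, fun i => i.elim, fun V hV => ⟨Empty.elim, fun i => i.elim,
      fun u hu Q hQ τ => ?_⟩⟩
  simp

lemma Rep.sum {M M' : Eis} {j l' : ℤ} {ι : Type*} (s : Finset ι)
    {F : ι → (ℝ → ℂ) → Eis → ℝ → ℝ → ℂ} (h : ∀ i ∈ s, Rep M M' j l' (F i)) :
    Rep M M' j l' (fun V u Q τ => ∑ i ∈ s, F i V u Q τ) := by
  classical
  induction s using Finset.induction_on with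
  | empty => simpa using Rep.zero M M' j l'
  | insert i s hi ih =>
    simp only [Finset.sum_insert hi]
    exact (h i (Finset.mem_insert_self i s)).add (ih fun k hk => h k (Finset.mem_insert_of_mem hk))

lemma uni_of_isCh {q : Eis} {χ : Eis → ℂ} (hq : q ≠ 0) (h : IsCh q χ) : Uni q χ where
  one := h.one
  mul := fun a b _ _ => h.mul a b
  norm a ha := h.norm_eq_one hq ha.2
  per a b _ _ hab := h.per.congr hab

/-- multiplication by a function of the class of `u` modulo `M'` -/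
lemma Rep.fmul {M M' : Eis} {j l' : ℤ} (hM0 : M' ≠ 0) (h3 : (3 : Eis) ∣ M')
    (hcop : ∀ b, Sm M b → IsCoprime b M') {F : (ℝ → ℂ) → Eis → ℝ → ℝ → ℂ}
    (hF : Rep M M' j l' F) {r : Eis → ℂ}
    (hr : ∀ a b, IsCoprime a M' → IsCoprime b M' → M' ∣ a - b → r a = r b) :
    Rep M M' j l' (fun V u Q τ => r u * F V u Q τ) := by
  obtain ⟨n, κ, η, hη, he⟩ := HcExp266.exists_isCh_expansion hM0 hr
  have h1 := Rep.sum (M := M) (M' := M') (j := j) (l' := l') (Finset.univ : Finset (Fin n))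
    (F := fun i V u Q τ => κ i * η i u * F V u Q τ)
    (fun i _ => hF.cmul hM0 h3 hcop (κ i) (uni_of_isCh hM0 (hη i)))
  refine h1.congr fun V hV u hu Q hQ τ => ?_
  rw [he u (hcop u hu), Finset.sum_mul]

end Crest.Agent.R017.CD47
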