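import Crest.Agent.R017.CD2_47

/-!
# Row 17, twisted cubic functional equation (C.F1tw), last step, part 2 (helper47)

* `left_N3` : the left side is 590's `N3`
* `Raw3` (590) : the functional equation for the test functions of central type `l`
* `raw3_hasFE3 : Raw3 M M' ψ l → HasFE3 M ψ l`
-/

set_option autoImplicit false

noncomputable section

open MeasureTheory Complex Set Filter
open scoped ComplexConjugate SchwartzMap ContDiff Topology

namespace Crest.Agent.R017.CD47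

open Crest.Agent.R012 Crest.Agent.R012.Eis Crest.Agent.R012.Gauss880 Crest.Agent.R017.Loc266
open Crest.Agent.R012.Mob705
open Crest.Agent.R017.Sx545 Crest.Agent.R017.B770
open Crest.Agent.R017.A590 Crest.Agent.R017.C590
open Crest.Agent.R017.Xn590 Crest.Agent.R017.Wt92 Crest.Agent.R017.EndA92
open Crest.Agent.R017.End699 (HC)
open Crest.Agent.R017.E2440 (NT DS)

variable {M M' : Eis} {ψ : Eis → ℂ} {l : ℤ}

/-! ### the left side -/

lemma finite_pairs3 {f : ℂ → ℂ} (hf : Xi590.CS f) :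
    {p : Eis × Eis | p.1 ≠ 0 ∧ p.2 ≠ 0 ∧ f (toC p.2 ^ 3 * toC p.1) ≠ 0}.Finite := by
  obtain ⟨a, K, ha, haK, hs⟩ := hf.supp
  have hKpos : 0 < K := ha.trans haK
  refine ((finite_nm_le (K ^ 2)).prod (finite_nm_le (K ^ 2))).subset ?_
  rintro ⟨c, e⟩ ⟨hc, he, hne⟩
  simp only at hc he hne
  have h1 : ‖toC e ^ 3 * toC c‖ ≤ K := by
    by_contra hlt
    exact hne (hs _ (Or.inr (not_le.mp hlt)))
  rw [norm_mul, norm_pow] at h1
  have hc1 := one_le_norm_toC' hc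
  have he1 := one_le_norm_toC' he
  have he3 : ‖toC e‖ ≤ ‖toC e‖ ^ 3 := le_self_pow₀ he1 (by norm_num)
  have he3' : 1 ≤ ‖toC e‖ ^ 3 := one_le_pow₀ he1
  have h2 : ‖toC c‖ ≤ K := by nlinarith
  have h3 : ‖toC e‖ ≤ K := by nlinarith
  simp only [Set.mem_prod, Set.mem_ofPred_eq]
  constructor
  · rw [← norm_toC_sq]; gcongr
  · rw [← norm_toC_sq]; gcongr

/-- the left side of the raw form -/
def LRaw (M : Eis) (ψ : Eis → ℂ) (u : Eis) (f : ℂ → ℂ) : ℂ := by
  classical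
  exact ∑' c : Eis, if Sm M c then ψ c * conj (gs u c) *
    (∑' e : Eis, if Sm M e then ψ e ^ 3 * (nm e : ℂ) ^ 2 * f (toC e ^ 3 * toC c) else 0) else 0

/-- one dual term of the raw form -/
def RRaw (M : Eis) (ψ : Eis → ℂ) (u : Eis) (g : ℂ → ℂ) (r : ℂ) : ℂ := by
  classical
  exact ∑' c : Eis, if Sm M c then ψ c * conj (gs u c) * (nm c : ℂ)⁻¹ *
    g (r * toC u / toC c) else 0

theorem left_N3 (hψ : HC M ψ) {V : ℝ → ℂ} (hV : SW V) (τ : ℝ) {Q : ℝ} (hQ : 0 < Q) (u : Eis) :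
    LRaw M ψ u (fT V l τ Q) =
      N3 M (End699.tw ψ l) u (fun y => (y : ℂ) ^ (I * τ) * V y) Q := by
  classical
  set f := fT V l τ Q with hf
  have hfc : Xi590.CS f := fT_cs (vd_sw hV) l τ hQ
  set G : Eis → Eis → ℂ := fun c e => if Sm M c ∧ Sm M e then
    ψ c * conj (gs u c) * (ψ e ^ 3 * (nm e : ℂ) ^ 2 * f (toC e ^ 3 * toC c)) else 0 with hG
  have hfin : (Function.support (Function.uncurry G)).Finite := by
    refine (finite_pairs3 hfc).subset ?_
    rintro ⟨c, e⟩ hne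
    rw [Function.mem_support] at hne
    simp only [Function.uncurry_apply_pair, hG] at hne
    split_ifs at hne with hs
    · refine ⟨hs.1.ne_zero, hs.2.ne_zero, fun h0 => hne ?_⟩
      simp only at h0
      rw [h0, mul_zero, mul_zero]
    · exact absurd rfl hne
  have hsum : Summable (Function.uncurry G) := summable_of_hasFiniteSupport hfin
  have e1 : LRaw M ψ u f = ∑' c : Eis, ∑' e : Eis, G c e := by
    unfold LRaw
    refine tsum_congr fun c => ?_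
    by_cases hc : Sm M c
    · rw [if_pos hc, ← tsum_mul_left]
      refine tsum_congr fun e => ?_
      simp only [hG]
      by_cases he : Sm M e
      · rw [if_pos he, if_pos ⟨hc, he⟩]
      · rw [if_neg he, if_neg (fun h => he h.2), mul_zero]
    · have e2 : ∀ e : Eis, G c e = 0 := fun e => by
        simp only [hG]
        rw [if_neg (fun h => hc h.1)]
      rw [if_neg hc, tsum_congr e2, tsum_zero]
  have e3 : ∑' c : Eis, ∑' e : Eis, G c e = ∑' e : Eis, ∑' c : Eis, G c e :=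
    (Summable.tsum_comm (f := G) hsum).symm
  rw [e1, e3]
  unfold N3 NT DS
  refine tsum_congr fun e => ?_
  by_cases he : Sm M e
  · rw [if_pos he, ← tsum_mul_left]
    refine tsum_congr fun c => ?_
    simp only [hG]
    by_cases hc : Sm M c
    · rw [if_pos ⟨hc, he⟩, if_pos hc, hf, fT_eq V l τ hQ]
      have h1 : ‖toC e ^ 3 * toC c‖ ^ 2 = (nm (c * e ^ 3) : ℝ) := by
        rw [← norm_toC_sq, map_mul, map_pow, mul_comm]
      have h2 : ψ (c * e ^ 3) = ψ c * ψ e ^ 3 := by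
        have hm := hψ.char.mul
        rw [hm c (e ^ 3) hc.1 (he.pow 3).1]
        have h4 : e ^ 3 = e * (e * e) := by ring
        rw [h4, hm e (e * e) he.1 (he.mul he).1, hm e e he.1 he.1]
        ring
      have h3 : End699.tw ψ l (c * e ^ 3) = ψ c * ψ e ^ 3 * sph l (toC e ^ 3 * toC c) := by
        unfold End699.tw
        rw [h2, ang_eq, map_mul, map_pow, mul_comm (toC c)]
      rw [h3, h1]
      ring
    · rw [if_neg (fun h => hc h.1), if_neg hc, mul_zero]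
  · have e2 : ∀ c : Eis, G c e = 0 := fun c => by
      simp only [hG]
      rw [if_neg (fun h => he h.2)]
    rw [if_neg he, tsum_congr e2, tsum_zero]

/-! ### the right side -/

/-- one dual term -/
lemma rraw_eq {u : Eis} (hu : u ≠ 0) {Q : ℝ} (hQ : 0 < Q) {F : ℂ → ℂ} {W : ℝ → ℂ}
    (hF : ∀ z : ℂ, z ≠ 0 → F z = (Q : ℂ) * (sph l z * W (Q / ‖z‖ ^ 2))) {t : ℂ} (ht : t ≠ 0) :
    RRaw M ψ u F t = (Q : ℂ) * (sph l t * ang l u *
      D3 M (End699.tw ψ (-l)) u W (‖t‖ ^ 2 * nm u / Q)) := by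
  classical
  unfold RRaw D3 DS
  rw [← tsum_mul_left, ← tsum_mul_left]
  refine tsum_congr fun c => ?_
  have huC : toC u ≠ 0 := Po581.toC_ne_zero hu
  by_cases hc : Sm M c
  · rw [if_pos hc, if_pos hc]
    have hc0 := hc.1.ne_zero
    have hcC : toC c ≠ 0 := Po581.toC_ne_zero hc0
    have hcp : (0 : ℝ) < nm c := by exact_mod_cast nm_pos.mpr hc0
    have hup : (0 : ℝ) < nm u := by exact_mod_cast nm_pos.mpr hu
    have htn : 0 < ‖t‖ := norm_pos_iff.mpr ht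
    unfold End699.tw
    rw [hF _ (div_ne_zero (mul_ne_zero ht huC) hcC)]
    have h2 : sph l (t * toC u / toC c) = sph l t * ang l u * ang (-l) c := by
      rw [div_eq_mul_inv, sph_mul, sph_mul, sph_inv, ang_eq, ang_eq]
    have h3 : Q / ‖t * toC u / toC c‖ ^ 2 = nm c / (‖t‖ ^ 2 * nm u / Q) := by
      rw [norm_div, norm_mul, div_pow, mul_pow, norm_toC_sq, norm_toC_sq]
      field_simp
    rw [h2, h3]
    ring
  · rw [if_neg hc, if_neg hc]; ring

/-- one dual term as a right side -/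
theorem rep_rraw (hM0 : M' ≠ 0) (h3 : (3 : Eis) ∣ M') (hcop : ∀ b, Sm M b → IsCoprime b M')
    (hU : Uni M' ψ) {R : (ℝ → ℂ) → ℝ → ℝ → ℂ → ℂ} (hR : RW l R) {t : ℂ} (ht : t ≠ 0) :
    Rep M M' l (-l) (fun V u Q τ => RRaw M ψ u (R V τ Q) t) := by
  have htn : 0 < ‖t‖ := norm_pos_iff.mpr ht
  refine ⟨Unit, inferInstance, fun _ => sph l t, fun _ => Rst M' (fun _ => 1),
    fun _ => Rst M' ψ, fun _ => ‖t‖ ^ 2, fun _ => hc_rst hM0 h3 (uni_one M'),
    fun _ => hc_rst hM0 h3 hU, fun _ => by positivity, fun V hV => ?_⟩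
  obtain ⟨W, hW, h1⟩ := hR V hV
  refine ⟨fun _ => W, fun _ => rd_of_rdf hW, fun u hu Q hQ τ => ?_⟩
  have hu0 := hu.1.ne_zero
  beta_reduce
  rw [rraw_eq hu0 hQ (fun z hz => h1 τ Q hQ z hz) ht]
  simp only [Finset.univ_unique, Finset.sum_singleton]
  rw [tw_rst hcop _ _ hu]
  have e : D3 M (End699.tw ψ (-l)) u (W τ) (‖t‖ ^ 2 * nm u / Q) =
      D3 M (End699.tw (Rst M' ψ) (-l)) u (W τ) (‖t‖ ^ 2 * nm u / Q) := by
    refine D3_congr (fun b hb => ?_) u _ _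
    rw [tw_rst hcop _ _ hb]
    rfl
  rw [e]
  ring

open Classical in
/-- extension of a function of the class -/
def Kx (M M' : Eis) (K : Eis → ℂ) (a : Eis) : ℂ :=
  if h : ∃ u, Sm M u ∧ M' ∣ u - a then K h.choose else 0

lemma Kx_eq {K : Eis → ℂ} (hK : ∀ a b, Sm M a → Sm M b → M' ∣ a - b → K a = K b) {u a : Eis}
    (hu : Sm M u) (h : M' ∣ u - a) : Kx M M' K a = K u := by
  have he : ∃ u, Sm M u ∧ M' ∣ u - a := ⟨u, hu, h⟩
  unfold Kx
  rw [dif_pos he]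
  refine hK _ _ he.choose_spec.1 hu ?_
  have := dvd_sub he.choose_spec.2 h
  rwa [sub_sub_sub_cancel_right] at this

lemma Kx_congr {K : Eis → ℂ} (hK : ∀ a b, Sm M a → Sm M b → M' ∣ a - b → K a = K b) {a b : Eis}
    (hab : M' ∣ a - b) : Kx M M' K a = Kx M M' K b := by
  by_cases he : ∃ u, Sm M u ∧ M' ∣ u - a
  · obtain ⟨u, hu, h⟩ := he
    rw [Kx_eq hK hu h, Kx_eq hK hu]
    have := dvd_add h hab
    rwa [sub_add_sub_cancel] at this
  · have he' : ¬ ∃ u, Sm M u ∧ M' ∣ u - b := by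
      rintro ⟨u, hu, h⟩
      refine he ⟨u, hu, ?_⟩
      have := dvd_sub h hab
      rwa [sub_sub_sub_cancel_right] at this
    unfold Kx
    rw [dif_neg he, dif_neg he']

/-- multiplication by a function of the class of `u ∈ Sm M` modulo `M'` -/
lemma Rep.fmul' {j l' : ℤ} (hM0 : M' ≠ 0) (h3 : (3 : Eis) ∣ M')
    (hcop : ∀ b, Sm M b → IsCoprime b M') {F : (ℝ → ℂ) → Eis → ℝ → ℝ → ℂ}
    (hF : Rep M M' j l' F) {K : Eis → ℂ}
    (hK : ∀ a b, Sm M a → Sm M b → M' ∣ a - b → K a = K b) :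
    Rep M M' j l' (fun V u Q τ => K u * F V u Q τ) := by
  refine (Rep.fmul hM0 h3 hcop hF (r := Kx M M' K) (fun a b _ _ hab => Kx_congr hK hab)).congr
    fun V hV u hu Q hQ τ => ?_
  rw [Kx_eq hK hu (by simp)]

/-! ### the raw form -/

/-- the functional equation for test functions of central type `l` (590's text, `K`-version) -/
def Raw3 (M M' : Eis) (ψ : Eis → ℂ) (l : ℤ) : Prop :=
  ∃ (ι : Type) (_ : Fintype ι) (ξ : Eis → ℂ) (κx cx : ℂ) (Vc : ℝ) (h0 B : ℂ)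
    (K ψ' : ι → Eis → ℂ) (r : ι → ℂ),
    XiP ξ κx cx ∧ h0 ≠ 0 ∧ (ξ 0 = 0 ∨ l ≠ 0) ∧
    (∀ i a b, Sm M a → Sm M b → M' ∣ a - b → K i a = K i b) ∧
    (∀ i, Uni M' (ψ' i)) ∧ (∀ i, r i ≠ 0) ∧
    ∀ f, DatN 3 ((-1) ^ l) ξ f → Rot l f → ∀ u, Sm M u →
      LRaw M ψ u f = ∑ i, K i u * RRaw M (ψ' i) u (fOn 3 ξ Vc h0 B f) (r i)

lemma rot_fT (V : ℝ → ℂ) (l : ℤ) (τ : ℝ) {Q : ℝ} : Rot l (fT V l τ Q) := by
  intro u hu x
  unfold fT
  rw [mul_div_assoc]
  exact rot_wt (Vt V τ) l u hu _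

/-- **from the raw form to 590's functional equation** -/
theorem raw3_hasFE3 (hMM : M ∣ M') (hM0 : M' ≠ 0) (hrad : ∀ p : Eis, Prime p → p ∣ M' → p ∣ M)
    (hψ : HC M ψ) (H : Raw3 M M' ψ l) : HasFE3 M ψ l := by
  obtain ⟨ι, iι, ξ, κx, cx, Vc, h0, B, K, ψ', r, hξ, hh0, hl, hK, hU, hr, hFE⟩ := H
  have h3 : (3 : Eis) ∣ M' := hψ.three.trans hMM
  have hcop : ∀ b, Sm M b → IsCoprime b M' := by
    intro b hb
    refine isCoprime_of_prime_dvd (fun h' => hM0 h'.2) (fun p hp h5 h6 => ?_)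
    exact hp.not_isUnit (hb.2.isUnit_of_dvd' h5 (hrad p hp h6))
  have h1 := Rep.sum (M := M) (M' := M') (j := l) (l' := -l) (Finset.univ : Finset ι)
    (F := fun i V u Q τ => K i u * RRaw M (ψ' i) u (fOn 3 ξ Vc h0 B (fT V l τ Q)) (r i))
    (fun i _ => Rep.fmul' hM0 h3 hcop (rep_rraw hM0 h3 hcop (hU i)
      (rw_fOn (Vc := Vc) (B := B) hξ hh0 hl) (hr i)) (hK i))
  have h2 : Rep M M' l (-l) (fun V u Q τ =>
      N3 M (End699.tw ψ l) u (fun y => (y : ℂ) ^ (I * τ) * V y) Q) := by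
    refine h1.congr fun V hV u hu Q hQ τ => ?_
    rw [← left_N3 hψ hV τ hQ u]
    exact hFE _ (fT_dat (vd_sw hV) hl τ hQ) (rot_fT V l τ) u hu
  obtain ⟨κι, iκ, κ, η, ψ2, ρ, a1, a2, a3, a4⟩ := h2
  refine ⟨κι, iκ, ⟨M', κ, η, ψ2, l, -l, ρ⟩, ?_, a4⟩
  exact
    { ne := hM0
      dvd := hMM
      rad := hrad
      η := a1
      ψ' := a2
      ρ := a3 }

end Crest.Agent.R017.CD47
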