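import Crest.Agent.R017.Glue2_681

/-!
# Row 17, sextic F2: the vector glue (helper266)

One left row function `a`, finitely many right row functions `a' k` (`k : κ`), dual laws with values
in finitely many row functions `am m` (`m : μ`), `am m₀ = a`.

* `LawV` : `S_a(h) + s S_a(-h) = 2 N(h) Σ_k W_k(h) a'_k(br g)` on the rows `Rg`
* `PairV` : `Φ_{W_k} F = F'_k`, `Σ_k Φ_{W'_{k,m}} F'_k = δ_{m m₀} F`
* `glueV` : `E_{a,F} = Σ_k E_{a'_k, F'_k}`
-/

set_option autoImplicit false

noncomputable section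

open MeasureTheory Complex Set Filter
open scoped ENNReal ComplexConjugate Topology

namespace Crest.Agent.R017.GlueV266

open Crest.Agent.R012 Crest.Agent.R012.Eis Crest.Agent.R012.K695 Crest.Agent.R012.AU681
  Crest.Agent.R012.Parseval499 Crest.Agent.R017.Orth681 Crest.Agent.R017.Xn590 Crest.Agent.R017.F1
  Crest.Agent.R017.Glue681

variable {κ μ : Type} [Fintype κ] [Fintype μ] [DecidableEq μ]

/-- **Symmetrised vector law** on the rows `Rg`. -/
def LawV (N : Eis) (Rg : SLE → Prop) (s : ℂ) (W : κ → Eis → ℂ) (a : Eis × Eis → ℂ)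
    (a' : κ → Eis × Eis → ℂ) : Prop :=
  ∀ g : SLE, Rg g → ∀ h : Eis, h ≠ 0 →
    SA N a g h + s * SA N a g (-h) = 2 * ((nm h : ℂ) * ∑ k, W k h * a' k (br g))

/-- Constant term at one row, with arbitrary weights. -/
theorem ct_at {N : Eis} (hN : N ≠ 0) {χ : GN N → ℂ} {s : ℂ} {U : Eis → ℂ}
    {a : Eis × Eis → ℂ} (ha : Cof N χ a) {H : ℂ → Vec → ℂ} (hH : TFD H)
    (hHpar : ∀ δ u, H δ (-u) = s * H δ u) {g : SLE} (hg : Reg χ g)
    (hlaw : ∀ h : Eis, h ≠ 0 → SA N a g h + s * SA N a g (-h) = 2 * ((nm h : ℂ) * U h))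
    {M : K695.Frm} (hM : det2 M ≠ 0) :
    CT N g (ED a H) M =
      (covol (toC N) : ℂ) * ∑' y : Eis, a (rmulS (0, y) g) * H (det2 M) (toC y • M.2) +
      opW U (H (det2 M)) M := by
  classical
  rw [ct_formula hN ha hH hg hM]
  congr 1
  set f : Eis → ℂ := fun h => if h = 0 then 0 else ((nm h : ℂ))⁻¹ *
        (sumMod (h * N) (fun y => a (rmulS (h, y) g)) *
          ∫ z : ℂ, H (det2 M) (toC h • M.1 + z • M.2)) with hf
  have hfs : Summable f := summable_ct hN ha hH hg hM
  have e1 : ∑' h, f h = (1 / 2 : ℂ) * ∑' h, (f h + f (-h)) := tsum_symm hfs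
  rw [e1]
  unfold opW
  rw [← tsum_mul_left]
  refine tsum_congr fun h => ?_
  by_cases h0 : h = 0
  · rw [if_pos h0, h0, neg_zero, hf]
    simp only [if_true]
    ring
  · have hl := hlaw h h0
    unfold SA at hl
    have f1 : f h = ((nm h : ℂ))⁻¹ * (sumMod (h * N) (fun y => a (rmulS (h, y) g)) *
        IL (H (det2 M)) M (toC h)) := by
      rw [hf]
      simp only
      rw [if_neg h0]
      rfl
    have f2 : f (-h) = ((nm h : ℂ))⁻¹ * (sumMod (-h * N) (fun y => a (rmulS (-h, y) g)) *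
        (s * IL (H (det2 M)) M (toC h))) := by
      rw [hf]
      simp only
      rw [if_neg (neg_ne_zero.mpr h0), nm_neg, ← IL_neg (hHpar (det2 M)) M (toC h), ← map_neg]
      rfl
    rw [f1, f2, if_neg h0]
    have hnm : (nm h : ℂ) ≠ 0 := by exact_mod_cast (nm_pos.mpr h0).ne'
    generalize sumMod (h * N) (fun y => a (rmulS (h, y) g)) = S1 at hl ⊢
    generalize sumMod (-h * N) (fun y => a (rmulS (-h, y) g)) = S2 at hl ⊢
    generalize IL (H (det2 M)) M (toC h) = I1
    generalize (nm h : ℂ) = n1 at hl hnm ⊢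
    have e2 : (1 / 2 : ℂ) * (n1⁻¹ * (S1 * I1) + n1⁻¹ * (S2 * (s * I1))) =
        (1 / 2 : ℂ) * n1⁻¹ * I1 * (S1 + s * S2) := by ring
    rw [e2, hl]
    field_simp

lemma bdd_sum {ι : Type*} (T : Finset ι) {W : ι → Eis → ℂ} (hW : ∀ i, Bdd (W i)) :
    Bdd (fun h => ∑ i ∈ T, W i h) := by
  classical
  choose K hK using hW
  refine ⟨∑ i ∈ T, K i, fun h => ?_⟩
  exact (norm_sum_le _ _).trans (Finset.sum_le_sum fun i _ => hK i h)

lemma opW_sumW {ι : Type*} (T : Finset ι) {W : ι → Eis → ℂ} (hW : ∀ i, Bdd (W i)) {F : Vec → ℂ}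
    (hF : Adm F) {M : K695.Frm} (hM : det2 M ≠ 0) :
    opW (fun h => ∑ i ∈ T, W i h) F M = ∑ i ∈ T, opW (W i) F M := by
  classical
  induction T using Finset.induction_on with
  | empty =>
    simp only [Finset.sum_empty]
    unfold opW
    simp
  | insert i T hi ih =>
    have h1 := opW_addW (hW i) (bdd_sum T hW) hF hM
    simp only [Finset.sum_insert hi]
    rw [← ih, ← h1]

/-- vector pairs -/
structure PairV (s : ℂ) (m₀ : μ) (W : κ → Eis → ℂ) (W' : κ → μ → Eis → ℂ) (F : Vec → ℂ)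
    (F' : κ → Vec → ℂ) : Prop where
  bW : ∀ k, Bdd (W k)
  bW' : ∀ k m, Bdd (W' k m)
  tst : TstN s F
  tst' : ∀ k, TstN s (F' k)
  m1 : ∀ (k : κ) (M : K695.Frm), det2 M ≠ 0 → opW (W k) F M = scl (det2 M) (F' k) M.2
  m2 : ∀ (m : μ) (M : K695.Frm), det2 M ≠ 0 →
    ∑ k, opW (W' k m) (scl (det2 M) (F' k)) M = if m = m₀ then F M.2 else 0

/-- the unit term at one row -/
def UnitAt (a : Eis × Eis → ℂ) (g : SLE) : Prop := ∀ y : Eis, a (rmulS (0, y) g) ≠ 0 → y = 1

lemma unit_at {a : Eis × Eis → ℂ} {g : SLE} (h : UnitAt a g) (F : Vec → ℂ) (v : Vec) :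
    ∑' y : Eis, a (rmulS (0, y) g) * F (toC y • v) = a (br g) * F v := by
  rw [tsum_eq_single (1 : Eis)]
  · have e1 : rmulS (0, 1) g = br g := by simp [rmulS, br]
    rw [e1, map_one, one_smul]
  · intro y hy
    have : a (rmulS (0, y) g) = 0 := by
      by_contra hne
      exact hy (h y hne)
    rw [this, zero_mul]

/-- **The vector glue.** -/
theorem glueV {N : Eis} (hN : N ≠ 0) {χ : GN N → ℂ} (hχ : ∀ g, ‖χ g‖ = 1) {s : ℂ}
    {Rg : SLE → Prop} {W : κ → Eis → ℂ} {W' : κ → μ → Eis → ℂ} {m₀ : μ}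
    {a : Eis × Eis → ℂ} {a' : κ → Eis × Eis → ℂ} {am : μ → Eis × Eis → ℂ} (ham : am m₀ = a)
    (ha : Cof N χ a) (ha' : ∀ k, Cof N χ (a' k))
    (hR : ∀ g, a (br g) ≠ 0 → Rg g) (hR' : ∀ k g, a' k (br g) ≠ 0 → Rg g)
    (hlaw : LawV N Rg s W a a') (hlaw' : ∀ k, LawV N Rg s (W' k) (a' k) am)
    (hu : ∀ g, Rg g → UnitAt a g) (hu' : ∀ k g, Rg g → UnitAt (a' k) g)
    {F : Vec → ℂ} {F' : κ → Vec → ℂ}
    (hp : PairV s m₀ (fun k h => (covol (toC N) : ℂ)⁻¹ * W k h)
      (fun k m h => (covol (toC N) : ℂ)⁻¹ * W' k m h) F F')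
    {M : K695.Frm} (hM : det2 M ≠ 0) :
    EC a F M = ∑ k, EC (a' k) (scl (det2 M) (F' k)) M := by
  classical
  have hNC : toC N ≠ 0 := by rwa [Ne, toC_eq_zero]
  have hcv : (covol (toC N) : ℂ) ≠ 0 := by exact_mod_cast (covol_pos hNC).ne'
  let A : Option κ → Eis × Eis → ℂ := fun o => o.elim a a'
  let HH : Option κ → ℂ → Vec → ℂ := fun o => o.elim (fun _ u => F u) (fun k δ u => -scl δ (F' k) u)
  have hA : ∀ o, Cof N χ (A o) := by
    intro o; cases o with
    | none => exact ha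
    | some k => exact ha' k
  have hT' : ∀ k, TFD (fun δ u => scl δ (F' k) u) := fun k => tfd_scl (hp.tst' k)
  have hHH : ∀ o, TFD (HH o) := by
    intro o; cases o with
    | none => exact tfd_const hp.tst
    | some k => exact (hT' k).neg
  have key := orth hN hχ hA hHH ?_ hM
  · rw [Fintype.sum_option] at key
    change ED a (fun _ u => F u) M + ∑ k, ED (a' k) (fun δ u => -scl δ (F' k) u) M = 0 at key
    simp_rw [ED_neg] at key
    rw [Finset.sum_neg_distrib] at key
    exact add_neg_eq_zero.mp key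
  · intro o g ho X hX
    have hrg : Rg g := by
      cases o with
      | none => exact hR g ho
      | some k => exact hR' k g ho
    have hreg : Reg χ g := reg_of_ne (hA o) ho
    rw [CT_sum hN (fun i => (hA i).bdd) hHH g hX, Fintype.sum_option]
    change CT N g (ED a (fun _ u => F u)) X +
      ∑ k, CT N g (ED (a' k) (fun δ u => -scl δ (F' k) u)) X = 0
    have hneg : ∀ k, CT N g (ED (a' k) (fun δ u => -scl δ (F' k) u)) X =
        -CT N g (ED (a' k) (fun δ u => scl δ (F' k) u)) X := by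
      intro k
      unfold CT
      rw [← integral_neg]
      refine integral_congr_ae (Filter.Eventually.of_forall fun x => ?_)
      exact ED_neg _ _ _
    simp_rw [hneg]
    -- left constant term
    have hc1 := ct_at hN ha (s := s) (U := fun h => ∑ k, W k h * a' k (br g))
      (tfd_const hp.tst) (fun _ u => hp.tst.par u) hreg (fun h h0 => hlaw g hrg h h0) hX
    rw [unit_at (hu g hrg)] at hc1
    have hbW : ∀ k, Bdd (W k) := by
      intro k
      obtain ⟨K, hK⟩ := hp.bW k
      refine ⟨‖(covol (toC N) : ℂ)‖ * K, fun h => ?_⟩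
      have e : W k h = (covol (toC N) : ℂ) * ((covol (toC N) : ℂ)⁻¹ * W k h) := by
        field_simp
      rw [e, norm_mul]
      exact mul_le_mul_of_nonneg_left (hK h) (norm_nonneg _)
    have hbW' : ∀ k m, Bdd (W' k m) := by
      intro k m
      obtain ⟨K, hK⟩ := hp.bW' k m
      refine ⟨‖(covol (toC N) : ℂ)‖ * K, fun h => ?_⟩
      have e : W' k m h = (covol (toC N) : ℂ) * ((covol (toC N) : ℂ)⁻¹ * W' k m h) := by
        field_simp
      rw [e, norm_mul]
      exact mul_le_mul_of_nonneg_left (hK h) (norm_nonneg _)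
    have hb2 : ∀ (c : ℂ) {U : Eis → ℂ}, Bdd U → Bdd (fun h => U h * c) := by
      intro c U hU
      obtain ⟨K, hK⟩ := hU
      exact ⟨K * ‖c‖, fun h => by
        rw [norm_mul]
        exact mul_le_mul_of_nonneg_right (hK h) (norm_nonneg _)⟩
    have hswap : ∀ (c : ℂ) (U : Eis → ℂ) (G : Vec → ℂ), opW (fun h => U h * c) G X =
        c * opW U G X := by
      intro c U G
      rw [← opW_smulW]
      exact opW_congr (fun h _ => mul_comm _ _) _ _
    rw [opW_sumW Finset.univ (fun k => hb2 _ (hbW k)) (adm_tst hp.tst) hX] at hc1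
    simp_rw [hswap] at hc1
    have hm1 : ∀ k, opW (W k) (fun u => F u) X = covol (toC N) * scl (det2 X) (F' k) X.2 := by
      intro k
      have h1 := hp.m1 k X hX
      rw [opW_smulW] at h1
      rw [← h1]
      field_simp
    simp_rw [hm1] at hc1
    -- right constant terms
    have hc2 : ∀ k, CT N g (ED (a' k) (fun δ u => scl δ (F' k) u)) X =
        covol (toC N) * (a' k (br g) * scl (det2 X) (F' k) X.2) +
          ∑ m, am m (br g) * opW (W' k m) (scl (det2 X) (F' k)) X := by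
      intro k
      have h1 := ct_at hN (ha' k) (s := s) (U := fun h => ∑ m, W' k m h * am m (br g))
        (hT' k) (fun δ u => scl_neg (hp.tst' k) δ u) hreg (fun h h0 => hlaw' k g hrg h h0) hX
      rw [unit_at (hu' k g hrg) (fun u => scl (det2 X) (F' k) u)] at h1
      rw [opW_sumW Finset.univ (fun m => hb2 _ (hbW' k m))
        ((adm_tst (hp.tst' k)).scl hX) hX] at h1
      simp_rw [hswap] at h1
      exact h1
    rw [hc1, Finset.sum_neg_distrib]
    simp_rw [hc2]
    rw [Finset.sum_add_distrib, Finset.sum_comm]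
    have hm2 : ∀ m, ∑ k, am m (br g) * opW (W' k m) (scl (det2 X) (F' k)) X =
        if m = m₀ then am m (br g) * (covol (toC N) * F X.2) else 0 := by
      intro m
      rw [← Finset.mul_sum]
      have h1 := hp.m2 m X hX
      simp_rw [opW_smulW] at h1
      rw [← Finset.mul_sum] at h1
      have h2 : ∑ k, opW (W' k m) (scl (det2 X) (F' k)) X =
          covol (toC N) * (if m = m₀ then F X.2 else 0) := by
        rw [← h1]
        field_simp
      rw [h2]
      split_ifs <;> ring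
    simp_rw [hm2]
    rw [Finset.sum_ite_eq' Finset.univ m₀, if_pos (Finset.mem_univ _), ham]
    have e3 : ∑ k, a' k (br g) * ((covol (toC N) : ℂ) * scl (det2 X) (F' k) X.2) =
        ∑ k, (covol (toC N) : ℂ) * (a' k (br g) * scl (det2 X) (F' k) X.2) :=
      Finset.sum_congr rfl fun k _ => by ring
    rw [e3]
    ring

end Crest.Agent.R017.GlueV266
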