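import Crest.Agent.R017.Kub6C_64

/-!
# Row 17: the Kubota character on `Γ(q)`, transposed row law

For `γ = (a b; c d) ≡ 1 mod q`:
* `kub_eq_top` : `s c d = s b a`;
* `row_law_top` : `s (x b + y d) (x a + y c) = s y x * s c d` for rows `(x, y)` with good `x`;
* the group `GamN q` and the character `kubN s q : GamN q → ℂ`, `kubN (g h) = kubN g * kubN h`;
  `kubN6` for the sextic symbol, `q = 72` (and every multiple of `72`).
-/

set_option autoImplicit false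

noncomputable section

namespace Crest.Agent.R017.Kub664

open Crest.Agent.R012 Eis Crest.Agent.R017.Sx440 Crest.Agent.R017.Sx146

namespace RowAPI

variable {s : Eis → Eis → ℂ} {q : Eis} {Xc Gd : Eis → Prop}

/-- `(c/d) = (b/a)` for `γ = (a b; c d) ≡ 1 mod q`. -/
theorem kub_eq_top (H : RowAPI s q Xc Gd) {a b c d : Eis} (hdet : a * d - b * c = 1)
    (ha : q ∣ a - 1) (hb : q ∣ b) (hc : q ∣ c) (hd : q ∣ d - 1) : s c d = s b a := by
  have hga := H.gd_of_one ha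
  have hgd := H.gd_of_one hd
  by_cases hc0 : c = 0
  · subst hc0
    have hau : IsUnit a := IsUnit.of_mul_eq_one d (by linear_combination hdet)
    have hdu : IsUnit d := IsUnit.of_mul_eq_one a (by linear_combination hdet)
    rw [H.unit_right _ _ hdu hgd, H.unit_right _ _ hau hga]
  · have e1 : s c a * s b a = 1 := H.b_mul_c (a := d) (b := c) (c := b) (d := a)
      (by linear_combination hdet) ha
    have e2 : s c a * s c d = 1 := by
      rw [← H.mul_right _ _ _ hga hgd, H.period c (a * d) 1 hc0 (H.xc_dvd c hc)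
        (H.gd_mul _ _ hga hgd) H.gd_one]
      · exact H.unit_right c 1 isUnit_one H.gd_one
      · obtain ⟨t, ht⟩ := hb
        exact ⟨t, by linear_combination hdet + c * ht⟩
    have e3 : s c a ≠ 0 := left_ne_zero_of_mul_eq_one e1
    exact mul_left_cancel₀ e3 (e2.trans e1.symm)

/-- The transposed row law. -/
theorem row_law_top (H : RowAPI s q Xc Gd) {a b c d x y : Eis} (hdet : a * d - b * c = 1)
    (ha : q ∣ a - 1) (hb : q ∣ b) (hc : q ∣ c) (hd : q ∣ d - 1) (hy : Xc y) (hx : Gd x)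
    (hxy : IsCoprime x y) :
    s (x * b + y * d) (x * a + y * c) = s y x * s c d := by
  have h := H.row_law (a := d) (b := c) (c := b) (d := a) (x := y) (y := x)
    (by linear_combination hdet) hc ha hy hx hxy.symm
  rw [H.kub_eq_top hdet ha hb hc hd, ← h]
  congr 1 <;> ring

end RowAPI

/-! ### the group `Γ(N)` -/

/-- The principal congruence subgroup `Γ(N)` of `SL₂(ℤ[ω])`. -/
def GamN (N : Eis) : Subgroup (Matrix.SpecialLinearGroup (Fin 2) Eis) where
  carrier := {g | N ∣ g 0 0 - 1 ∧ N ∣ g 0 1 ∧ N ∣ g 1 0 ∧ N ∣ g 1 1 - 1}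
  one_mem' := by simp
  mul_mem' := by
    rintro g h ⟨g1, g2, g3, g4⟩ ⟨h1, h2, h3, h4⟩
    simp only [Set.mem_ofPred_eq, Matrix.SpecialLinearGroup.coe_mul, Matrix.mul_apply,
      Fin.sum_univ_two] at *
    refine ⟨?_, ?_, ?_, ?_⟩
    · have : (g 0 0 * h 0 0 + g 0 1 * h 1 0 - 1 : Eis) =
          (g 0 0 - 1) * h 0 0 + (h 0 0 - 1) + g 0 1 * h 1 0 := by ring
      rw [this]
      exact dvd_add (dvd_add (g1.mul_right _) h1) (g2.mul_right _)
    · exact dvd_add (h2.mul_left _) (g2.mul_right _)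
    · exact dvd_add (g3.mul_right _) (h3.mul_left _)
    · have : (g 1 0 * h 0 1 + g 1 1 * h 1 1 - 1 : Eis) =
          (g 1 1 - 1) * h 1 1 + (h 1 1 - 1) + g 1 0 * h 0 1 := by ring
      rw [this]
      exact dvd_add (dvd_add (g4.mul_right _) h4) (g3.mul_right _)
  inv_mem' := by
    rintro g ⟨g1, g2, g3, g4⟩
    simp only [Set.mem_ofPred_eq, Matrix.SpecialLinearGroup.coe_inv, Matrix.adjugate_fin_two] at *
    refine ⟨by simpa using g4, by simpa using g2, by simpa using g3, by simpa using g1⟩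

lemma mem_GamN {N : Eis} {g : Matrix.SpecialLinearGroup (Fin 2) Eis} : g ∈ GamN N ↔
    N ∣ g 0 0 - 1 ∧ N ∣ g 0 1 ∧ N ∣ g 1 0 ∧ N ∣ g 1 1 - 1 := Iff.rfl

lemma GamN_mono {N M : Eis} (h : M ∣ N) : GamN N ≤ GamN M := fun _ hg =>
  ⟨h.trans hg.1, h.trans hg.2.1, h.trans hg.2.2.1, h.trans hg.2.2.2⟩

lemma det_eq' (g : Matrix.SpecialLinearGroup (Fin 2) Eis) :
    g 0 0 * g 1 1 - g 0 1 * g 1 0 = 1 := by
  have := g.2
  rw [Matrix.det_fin_two] at this
  exact this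

/-- The Kubota symbol `(c/d)` of a matrix `(a b; c d)`. -/
def kubN (s : Eis → Eis → ℂ) (g : Matrix.SpecialLinearGroup (Fin 2) Eis) : ℂ := s (g 1 0) (g 1 1)

namespace RowAPI

variable {s : Eis → Eis → ℂ} {q : Eis} {Xc Gd : Eis → Prop}

/-- Automorphy of the row symbol. -/
theorem row_mul (H : RowAPI s q Xc Gd) {N : Eis} (hN : q ∣ N)
    {g : Matrix.SpecialLinearGroup (Fin 2) Eis} (hg : g ∈ GamN N) {x y : Eis} (hx : Xc x)
    (hy : Gd y) (hxy : IsCoprime x y) :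
    s (x * g 0 0 + y * g 1 0) (x * g 0 1 + y * g 1 1) = s x y * kubN s g :=
  H.row_law (det_eq' g) (hN.trans hg.2.1) (hN.trans hg.2.2.2) hx hy hxy

/-- Automorphy of the transposed row symbol. -/
theorem row_mul_top (H : RowAPI s q Xc Gd) {N : Eis} (hN : q ∣ N)
    {g : Matrix.SpecialLinearGroup (Fin 2) Eis} (hg : g ∈ GamN N) {x y : Eis} (hy : Xc y)
    (hx : Gd x) (hxy : IsCoprime x y) :
    s (x * g 0 1 + y * g 1 1) (x * g 0 0 + y * g 1 0) = s y x * kubN s g :=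
  H.row_law_top (det_eq' g) (hN.trans hg.1) (hN.trans hg.2.1) (hN.trans hg.2.2.1)
    (hN.trans hg.2.2.2) hy hx hxy

/-- **Kubota's theorem**: the symbol is a homomorphism on `Γ(N)`, `q ∣ N`. -/
theorem kubN_mul (H : RowAPI s q Xc Gd) {N : Eis} (hN : q ∣ N)
    {g h : Matrix.SpecialLinearGroup (Fin 2) Eis} (hg : g ∈ GamN N) (hh : h ∈ GamN N) :
    kubN s (g * h) = kubN s g * kubN s h := by
  have e := H.row_mul hN hh (x := g 1 0) (y := g 1 1) (H.xc_dvd _ (hN.trans hg.2.2.1))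
    (H.gd_of_one (hN.trans hg.2.2.2)) ⟨-g 0 1, g 0 0, by linear_combination det_eq' g⟩
  unfold kubN at *
  rw [← e]
  simp [Matrix.mul_apply, Fin.sum_univ_two]

lemma kubN_one (H : RowAPI s q Xc Gd) : kubN s 1 = 1 := by
  unfold kubN
  simp [H.unit_right 0 1 isUnit_one H.gd_one]

lemma kubN_ne_zero (H : RowAPI s q Xc Gd) {N : Eis} (hN : q ∣ N)
    {g : Matrix.SpecialLinearGroup (Fin 2) Eis} (hg : g ∈ GamN N) : kubN s g ≠ 0 :=
  H.ne_zero _ _ (H.gd_of_one (hN.trans hg.2.2.2)) ⟨-g 0 1, g 0 0, by linear_combination det_eq' g⟩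

lemma kubN_inv (H : RowAPI s q Xc Gd) {N : Eis} (hN : q ∣ N)
    {g : Matrix.SpecialLinearGroup (Fin 2) Eis} (hg : g ∈ GamN N) :
    kubN s g⁻¹ = (kubN s g)⁻¹ := by
  have h1 := H.kubN_mul hN ((GamN N).inv_mem hg) hg
  rw [inv_mul_cancel, H.kubN_one] at h1
  exact eq_inv_of_mul_eq_one_left h1.symm

end RowAPI

/-! ### the sextic Kubota character -/

/-- The sextic Kubota symbol. -/
def kub6 (g : Matrix.SpecialLinearGroup (Fin 2) Eis) : ℂ := sy6 (g 1 0) (g 1 1)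

theorem kub6_mul {N : Eis} (hN : (72 : Eis) ∣ N) {g h : Matrix.SpecialLinearGroup (Fin 2) Eis}
    (hg : g ∈ GamN N) (hh : h ∈ GamN N) : kub6 (g * h) = kub6 g * kub6 h :=
  api6.kubN_mul hN hg hh

/-- Level `12` suffices. -/
theorem kub6_mul' {N : Eis} (hN : (12 : Eis) ∣ N) {g h : Matrix.SpecialLinearGroup (Fin 2) Eis}
    (hg : g ∈ GamN N) (hh : h ∈ GamN N) : kub6 (g * h) = kub6 g * kub6 h :=
  api6'.kubN_mul hN hg hh

theorem kub6_top {N : Eis} (hN : (12 : Eis) ∣ N) {g : Matrix.SpecialLinearGroup (Fin 2) Eis}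
    (hg : g ∈ GamN N) : kub6 g = sy6 (g 0 1) (g 0 0) :=
  api6'.kub_eq_top (det_eq' g) (hN.trans hg.1) (hN.trans hg.2.1) (hN.trans hg.2.2.1)
    (hN.trans hg.2.2.2)

theorem norm_kub6 {N : Eis} (hN : (12 : Eis) ∣ N) {g : Matrix.SpecialLinearGroup (Fin 2) Eis}
    (hg : g ∈ GamN N) : ‖kub6 g‖ = 1 := by
  have h := api6'.gd_of_one (hN.trans hg.2.2.2)
  exact norm_sy6 h.2 h.1 ⟨-g 0 1, g 0 0, by linear_combination det_eq' g⟩

/-- Rows `(x, y)` with `y` prime to `6`. -/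
theorem sy6_row_mul {N : Eis} (hN : (72 : Eis) ∣ N)
    {g : Matrix.SpecialLinearGroup (Fin 2) Eis} (hg : g ∈ GamN N) {x y : Eis}
    (hy : Od y) (hy3 : G3 y) (hxy : IsCoprime x y) :
    sy6 (x * g 0 0 + y * g 1 0) (x * g 0 1 + y * g 1 1) = sy6 x y * kub6 g :=
  api6.row_mul hN hg trivial ⟨hy, hy3⟩ hxy

/-- Rows `(x, y)` with `x` prime to `6`: the transposed symbol `(y/x)_6`. -/
theorem sy6_row_mul_top {N : Eis} (hN : (72 : Eis) ∣ N)
    {g : Matrix.SpecialLinearGroup (Fin 2) Eis} (hg : g ∈ GamN N) {x y : Eis}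
    (hx : Od x) (hx3 : G3 x) (hxy : IsCoprime x y) :
    sy6 (x * g 0 1 + y * g 1 1) (x * g 0 0 + y * g 1 0) = sy6 y x * kub6 g :=
  api6.row_mul_top hN hg trivial ⟨hx, hx3⟩ hxy

end Crest.Agent.R017.Kub664
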