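import Crest.Agent.R017.Tw1_266
import Crest.Agent.R017.Kub6D_64

/-!
# Row 17, sextic F2: the row function `rowA` (one character, additive phase in `d / c`)

`rowA N x g (c, d) = g c · e(x d c̄ / N) · (d/c)_6` on rows with `c` primary, odd, prime to `N`.

* `Lev N` : `72 ∣ N`, `72 p ∣ N` for all primes `p ∣ N`
* `sy6_key` : the symbol on the rows `h s₁ + y r₀`
* `sum_rowA` : the constant term sum, for every `h` and every row with `c₀` prime to `N`
* `sum_rowA_gam` : scalar form for `g = ψ γ`, `γ(ab) = γ(a) γ(b) ρ₂(a, b)`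
-/

set_option autoImplicit false

noncomputable section

open Complex
open scoped ComplexConjugate

namespace Crest.Agent.R017.Rw266

open Crest.Agent.R012 Crest.Agent.R012.Eis Crest.Agent.R012.Gauss880 Crest.Agent.R017.Loc266
open Crest.Agent.R017.Sx440 Crest.Agent.R017.Kub664 Crest.Agent.R017.Tw266

/-- admissible levels -/
structure Lev (N : Eis) : Prop where
  ne : N ≠ 0
  d72 : (72 : Eis) ∣ N
  pr : ∀ p : Eis, Prime p → p ∣ N → 72 * p ∣ N

/-- primary and odd -/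
def Gd (c : Eis) : Prop := IsPrim c ∧ Od c

lemma Gd.prim {c : Eis} (h : Gd c) : IsPrim c := h.1
lemma Gd.od {c : Eis} (h : Gd c) : Od c := h.2
lemma Gd.ne {c : Eis} (h : Gd c) : c ≠ 0 := h.2.ne_zero

lemma Gd.g3 {c : Eis} (h : Gd c) : G3 c := Sym645.prim_nm_mod h.1
lemma Gd.g6 {c : Eis} (h : Gd c) : G6' c := ⟨h.2, h.g3⟩

lemma Gd.mul {a b : Eis} (ha : Gd a) (hb : Gd b) : Gd (a * b) := ⟨ha.1.mul hb.1, ha.2.mul hb.2⟩

lemma three_dvd_72 : (3 : Eis) ∣ 72 := ⟨24, by norm_num⟩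
lemma two_dvd_72 : (2 : Eis) ∣ 72 := ⟨36, by norm_num⟩
lemma four_dvd_72 : (4 : Eis) ∣ 72 := ⟨18, by norm_num⟩

lemma prim_congr' {a b : Eis} (h : (3 : Eis) ∣ a - b) (ha : IsPrim a) : IsPrim b := by
  unfold IsPrim at *
  have : b - 1 = (a - 1) - (a - b) := by ring
  rw [this]; exact dvd_sub ha h

lemma od_congr' {a b : Eis} (h : (2 : Eis) ∣ a - b) (ha : Od a) : Od b := fun h2 =>
  ha (by have := dvd_add h h2; rwa [sub_add_cancel] at this)

lemma gd_congr {a b : Eis} (h : (72 : Eis) ∣ a - b) : Gd a ↔ Gd b := by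
  have h' : (72 : Eis) ∣ b - a := by rw [← neg_sub, dvd_neg]; exact h
  exact ⟨fun ha => ⟨prim_congr' (three_dvd_72.trans h) ha.1, od_congr' (two_dvd_72.trans h) ha.2⟩,
    fun hb => ⟨prim_congr' (three_dvd_72.trans h') hb.1, od_congr' (two_dvd_72.trans h') hb.2⟩⟩

lemma gd_mul_iff {a b : Eis} (ha : Gd a) : Gd (a * b) ↔ Gd b := by
  constructor
  · intro h
    exact ⟨Sym645.prim_of_mul_left ha.1 h.1, h.2.right⟩
  · exact ha.mul

lemma cop_congr {N a b : Eis} (h : N ∣ a - b) : IsCoprime a N ↔ IsCoprime b N := by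
  obtain ⟨t, ht⟩ := h
  constructor
  · rintro ⟨u, v, huv⟩
    exact ⟨u, v + u * t, by linear_combination huv - u * ht⟩
  · rintro ⟨u, v, huv⟩
    exact ⟨u, v - u * t, by linear_combination huv + u * ht⟩

/-! ### inverse modulo `N` -/

open Classical in
/-- an inverse of `c` modulo `N` -/
def ivN (N c : Eis) : Eis :=
  if h : IsCoprime c N then Classical.choose (exists_inv h) else 0

lemma ivN_spec {N c : Eis} (h : IsCoprime c N) : IsCoprime (ivN N c) N ∧ N ∣ c * ivN N c - 1 := by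
  unfold ivN
  rw [dif_pos h]
  exact Classical.choose_spec (exists_inv h)

lemma iv_unique {N c a b : Eis} (h1 : N ∣ c * a - 1) (h2 : N ∣ c * b - 1) : N ∣ a - b := by
  have : a - b = b * (c * a - 1) - a * (c * b - 1) := by ring
  rw [this]
  exact dvd_sub (h1.mul_left _) (h2.mul_left _)

lemma ivN_congr {N c c' : Eis} (hc : IsCoprime c N) (h : N ∣ c - c') :
    N ∣ ivN N c - ivN N c' := by
  have hc' : IsCoprime c' N := (cop_congr h).mp hc
  refine iv_unique (ivN_spec hc).2 ?_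
  have : c * ivN N c' - 1 = (c' * ivN N c' - 1) + (c - c') * ivN N c' := by ring
  rw [this]
  exact dvd_add (ivN_spec hc').2 (h.mul_right _)

lemma ivN_mul {N a b : Eis} (ha : IsCoprime a N) (hb : IsCoprime b N) :
    N ∣ ivN N (a * b) - ivN N a * ivN N b := by
  refine iv_unique (ivN_spec (ha.mul_left hb)).2 ?_
  have : a * b * (ivN N a * ivN N b) - 1 =
    (a * ivN N a - 1) * (b * ivN N b) + (b * ivN N b - 1) := by ring
  rw [this]
  exact dvd_add ((ivN_spec ha).2.mul_right _) (ivN_spec hb).2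

lemma ea_congr_right {N x a b : Eis} (hN : N ≠ 0) (h : N ∣ a - b) : ea N x a = ea N x b := by
  rw [ea_comm N x a, ea_comm N x b, ea_congr hN h]

/-! ### the symbol modulo `N` -/

variable {N : Eis}

theorem api6N (hN : Lev N) :
    RowAPI sy6 N (fun _ => True) (fun c => G6' c ∧ IsCoprime c N) where
  q_ne := hN.ne
  gd_one := ⟨api6.gd_one, isCoprime_one_left⟩
  gd_mul x y hx hy := ⟨api6.gd_mul x y hx.1 hy.1, hx.2.mul_left hy.2⟩
  gd_congr x y hx h := ⟨api6.gd_congr x y hx.1 (hN.d72.trans h), (cop_congr h).mp hx.2⟩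
  gd_coprime x hx := hx.2
  gd_ne x hx := api6.gd_ne x hx.1
  xc_congr _ _ _ _ := trivial
  xc_dvd _ _ := trivial
  unit_right x u hu hg := api6.unit_right x u hu hg.1
  mul_left x y c hc := api6.mul_left x y c hc.1
  mul_right x c d hc hd := api6.mul_right x c d hc.1 hd.1
  congr x y c hc h := api6.congr x y c hc.1 h
  ne_zero x c hc h := api6.ne_zero x c hc.1 h
  recip d y hd hy := api6.recip d y (hN.d72.trans hd) hy.1
  neg_one d hd := api6.neg_one d (hN.d72.trans hd)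
  period x m n hx _ hm hn h :=
    api6.period x m n hx trivial hm.1 hn.1 ((mul_dvd_mul_right hN.d72 x).trans h)

theorem recF6N (hN : Lev N) : RecF sy6 N (fun c => G6' c ∧ IsCoprime c N) rho6 where
  rel a b ha hb := recF6.rel a b ha.1 hb.1
  congr_left a a' b ha ha' hb h := recF6.congr_left a a' b ha.1 ha'.1 hb.1 (hN.d72.trans h)
  congr_right a b b' ha hb hb' h := recF6.congr_right a b b' ha.1 hb.1 hb'.1 (hN.d72.trans h)

lemma rho6_prim {a b : Eis} (ha : IsPrim a) (hb : IsPrim b) : rho6 a b = rho2 a b := by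
  unfold rho6
  rw [rho3_pm (Or.inl ha) (Or.inl hb), map_one, mul_one]

lemma rho2_sq (a b : Eis) : rho2 a b * rho2 a b = 1 := by
  unfold rho2
  rw [← Int.cast_mul, Sx146.sg_mul_self, Int.cast_one]

lemma conj_rho2 (a b : Eis) : conj (rho2 a b) = rho2 a b := by
  unfold rho2; simp

lemma rho2_congr_right {a b b' : Eis} (ha : Od a) (hb : Od b) (h : (4 : Eis) ∣ b - b') :
    rho2 a b = rho2 a b' :=
  recF2.congr_right a b b' ha hb (od_congr' (Dvd.dvd.trans ⟨2, by norm_num⟩ h) hb) h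

lemma rho2_congr_left {a a' b : Eis} (ha : Od a) (hb : Od b) (h : (4 : Eis) ∣ a - a') :
    rho2 a b = rho2 a' b :=
  recF2.congr_left a a' b ha (od_congr' (Dvd.dvd.trans ⟨2, by norm_num⟩ h) ha) hb h

lemma rho2_mul_right {a b c : Eis} (ha : Od a) (hb : Od b) (hc : Od c) :
    rho2 a (b * c) = rho2 a b * rho2 a c := by
  have h1 := un_ui ha
  have h2 := un_ui hb
  have h3 := un_ui hc
  have h4 : Sx146.Un (w ^ (ui b + ui c) * (b * c)) := by
    have : w ^ (ui b + ui c) * (b * c) = (w ^ ui b * b) * (w ^ ui c * c) := by ring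
    rw [this]; exact h2.mul h3
  rw [rho2_eq h1 h4, rho2_eq h1 h2, rho2_eq h1 h3,
    show w ^ (ui b + ui c) * (b * c) = (w ^ ui b * b) * (w ^ ui c * c) by ring,
    Sx146.sg_mul_right h2 h3 h1, Int.cast_mul]

lemma rho2_symm (a b : Eis) : rho2 a b = rho2 b a := by
  unfold rho2; rw [Sx146.sg_symm]

lemma rho2_mul_left {a b c : Eis} (ha : Od a) (hb : Od b) (hc : Od c) :
    rho2 (a * b) c = rho2 a c * rho2 b c := by
  rw [rho2_symm, rho2_mul_right hc ha hb, rho2_symm c a, rho2_symm c b]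

/-- `(z/·)_6` is periodic modulo `N` if all primes of `z` divide `N`. -/
theorem per_S (hN : Lev N) {z : Eis} (hz : z ≠ 0) (hp : ∀ p, Prime p → p ∣ z → p ∣ N)
    {c c' : Eis} (hc : G6' c) (hc' : G6' c') (h : N ∣ c - c') : sy6 z c = sy6 z c' := by
  induction z using UniqueFactorizationMonoid.induction_on_prime with
  | h₁ => exact absurd rfl hz
  | h₂ u hu =>
    refine api6.period u c c' hz trivial hc hc' ?_
    obtain ⟨v, hv⟩ := hu.exists_right_inv
    have h1 : 72 * u ∣ 72 := ⟨v, by linear_combination -72 * hv⟩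
    exact h1.trans (hN.d72.trans h)
  | h₃ a p ha hpp ih =>
    have hpN : p ∣ N := hp p hpp (dvd_mul_right p a)
    have h1 := ih ha (fun q hq hqa => hp q hq (hqa.mul_left p))
    rw [api6.mul_left p a c hc, api6.mul_left p a c' hc', h1,
      api6.period p c c' hpp.ne_zero trivial hc hc' ((hN.pr p hpp hpN).trans h)]

/-- an `S`-unit part `hS` and a good part `h'`. -/
structure Dec (N hS h' : Eis) : Prop where
  ne : hS ≠ 0
  pr : ∀ p, Prime p → p ∣ hS → p ∣ N
  gd : Gd h'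
  cop : IsCoprime h' N

lemma Dec.neS {hS h' : Eis} (D : Dec N hS h') : hS * h' ≠ 0 := mul_ne_zero D.ne D.gd.ne

lemma Dec.cop_S {hS h' : Eis} (D : Dec N hS h') {c : Eis} (hc : IsCoprime c N) :
    IsCoprime hS c := by
  refine isCoprime_of_prime_dvd (fun h => D.ne h.1) (fun q hq h1 h2 => ?_)
  have h3 : IsCoprime q q := IsCoprime.of_isCoprime_of_dvd_left
    (IsCoprime.of_isCoprime_of_dvd_right hc (D.pr q hq h1)) h2
  exact hq.not_isUnit (isCoprime_self.mp h3)

lemma exists_dec (hN : Lev N) {h : Eis} (hh : h ≠ 0) : ∃ hS h', h = hS * h' ∧ Dec N hS h' := by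
  obtain ⟨h1, h2, he, hc, hd⟩ := exists_split N hh
  have h10 : h1 ≠ 0 := by rintro rfl; exact hh (by rw [he, zero_mul])
  have h20 : h2 ≠ 0 := by rintro rfl; exact hh (by rw [he, mul_zero])
  have hlam : ¬ lam ∣ h1 := by
    intro h'
    have h3 : lam ∣ N := (dvd_trans (dvd_trans ⟨-w ^ 2 * lam, by
      rw [three_eq]; ring⟩ three_dvd_72) hN.d72)
    have h4 : IsCoprime lam lam :=
      IsCoprime.of_isCoprime_of_dvd_left (IsCoprime.of_isCoprime_of_dvd_right hc h3) h'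
    exact prime_lam.not_isUnit (isCoprime_self.mp h4)
  obtain ⟨u, hu⟩ := exists_unit_mul_isPrim hlam
  have hodd : Od h1 := by
    intro h'
    have h3 : (2 : Eis) ∣ N := two_dvd_72.trans hN.d72
    have h4 : IsCoprime (2 : Eis) 2 :=
      IsCoprime.of_isCoprime_of_dvd_left (IsCoprime.of_isCoprime_of_dvd_right hc h3) h'
    exact prime_two.not_isUnit (isCoprime_self.mp h4)
  refine ⟨((u⁻¹ : Eisˣ) : Eis) * h2, u * h1, ?_, ?_⟩
  · rw [he]
    have : ((u⁻¹ : Eisˣ) : Eis) * (u : Eis) = 1 := Units.inv_mul u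
    linear_combination (-(h1 * h2)) * this
  · refine ⟨mul_ne_zero (Units.ne_zero _) h20, fun p hp hpd => ?_,
      ⟨hu, (od_of_isUnit u.isUnit).mul hodd⟩, (isCoprime_of_isUnit u.isUnit N).mul_left hc⟩
    rcases hp.dvd_or_dvd hpd with h' | h'
    · exact absurd (isUnit_of_dvd_unit h' (u⁻¹).isUnit) hp.not_isUnit
    · exact hd p hp h'

/-- `H(-h, c)`, `h = hS h'`. -/
def etaH (hS h' c : Eis) : ℂ := sy6 (-hS) c * rho2 h' c

/-- **the symbol on the row** `(c, d)`, `c d₀ - d c₀ = h`. -/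
theorem sy6_key (hN : Lev N) {hS h' : Eis} (D : Dec N hS h') {c d c0 d0 y : Eis}
    (hc : Gd c) (hcN : IsCoprime c N) (hc0 : Gd c0) (hc0N : IsCoprime c0 N)
    (hcop : IsCoprime c0 d0) (hdet : c * d0 - d * c0 = hS * h')
    (hyc : h' ∣ c - y * c0) (hyd : h' ∣ d - y * d0) :
    sy6 d c = sy6 d0 c0 * sy6 y h' * (etaH hS h' c * rho2 c c0) *
      conj (sy6 hS c0 * rho2 h' c0) := by
  have key := (api6N hN).row_identity (recF6N hN) (c := d) (d := c) (c0 := d0) (d0 := c0)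
    (hS := -hS) (h' := h') (x := y) hcop.symm ⟨hc.g6, hcN⟩ ⟨hc0.g6, hc0N⟩ ⟨D.gd.g6, D.cop⟩
    (neg_ne_zero.mpr D.ne) (fun p hp h => D.pr p hp ((dvd_neg).mp h))
    (by linear_combination -hdet) hyd hyc
  rw [rho6_prim D.gd.1 hc0.1, rho6_prim D.gd.1 hc.1, rho6_prim hc.1 hc0.1] at key
  have e1 : sy6 (-hS) c0 = sy6 (-1) c0 * sy6 hS c0 := by
    rw [← sy6_mul_left hc0.1 hc0.2]; congr 1; ring
  rw [e1] at key
  have n1 : ‖sy6 (-1) c0‖ = 1 := norm_sy6 hc0.1 hc0.2 (isCoprime_of_isUnit isUnit_one.neg _)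
  have n2 : ‖sy6 hS c0‖ = 1 := norm_sy6 hc0.1 hc0.2 (D.cop_S hc0N)
  have m1 : sy6 (-1) c0 ≠ 0 := by intro h; rw [h, norm_zero] at n1; exact zero_ne_one n1
  have m2 : sy6 hS c0 * conj (sy6 hS c0) = 1 := by
    rw [Complex.mul_conj, Complex.normSq_eq_norm_sq, n2]; simp
  have m3 := rho2_sq h' c0
  apply mul_left_cancel₀ m1
  rw [map_mul, conj_rho2]
  unfold etaH
  linear_combination (conj (sy6 hS c0) * rho2 h' c0) * key -
    (sy6 (-1) c0 * sy6 d c * rho2 h' c0 * rho2 h' c0) * m2 - (sy6 (-1) c0 * sy6 d c) * m3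

/-! ### the row function -/

open Classical in
/-- `g(c) e(x d c̄ / N) (d/c)_6` -/
def rowA (N x : Eis) (g : Eis → ℂ) (r : Eis × Eis) : ℂ :=
  if Gd r.1 ∧ IsCoprime r.1 N then g r.1 * ea N x (r.2 * ivN N r.1) * sy6 r.2 r.1 else 0

open Classical in
/-- the Gauss sum of the constant term, with `c₀` -/
def GG0 (N x : Eis) (g : Eis → ℂ) (hS h' c0 : Eis) : ℂ :=
  sumMod N (fun c => if Gd c ∧ IsCoprime c N then
    g c * (etaH hS h' c * rho2 c c0) * ea N x (-(hS * h') * (ivN N c0 * ivN N c)) else 0)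

open Classical in
/-- the Gauss sum of the constant term -/
def GG (N x : Eis) (g : Eis → ℂ) (hS h' : Eis) : ℂ :=
  sumMod N (fun c => if Gd c ∧ IsCoprime c N then
    g c * etaH hS h' c * ea N x (-(hS * h') * ivN N c) else 0)

lemma etaH_congr (hN : Lev N) {hS h' : Eis} (D : Dec N hS h') {c c' : Eis} (hc : Gd c)
    (hc' : Gd c') (h : N ∣ c - c') : etaH hS h' c = etaH hS h' c' := by
  unfold etaH
  rw [per_S hN (neg_ne_zero.mpr D.ne) (fun p hp h => D.pr p hp ((dvd_neg).mp h)) hc.g6 hc'.g6 h,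
    rho2_congr_right D.gd.2 hc.2 (four_dvd_72.trans (hN.d72.trans h))]

open Classical in
lemma pmod_GG0 (hN : Lev N) {x : Eis} {g : Eis → ℂ} (hg : PMod N g) {hS h' c0 : Eis}
    (D : Dec N hS h') (hc0 : Gd c0) :
    PMod N (fun c => if Gd c ∧ IsCoprime c N then
      g c * (etaH hS h' c * rho2 c c0) * ea N x (-(hS * h') * (ivN N c0 * ivN N c)) else 0) := by
  intro c t
  have hd : N ∣ (c + N * t) - c := ⟨t, by ring⟩
  have h72 := hN.d72.trans hd
  have e1 : (Gd (c + N * t) ∧ IsCoprime (c + N * t) N) ↔ (Gd c ∧ IsCoprime c N) :=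
    and_congr (gd_congr h72) (cop_congr hd)
  beta_reduce
  by_cases hc : Gd c ∧ IsCoprime c N
  · have hc' := e1.mpr hc
    rw [if_pos hc, if_pos hc', hg, etaH_congr hN D hc'.1 hc.1 hd,
      rho2_congr_left hc'.1.2 hc0.2 (four_dvd_72.trans h72)]
    congr 1
    apply ea_congr_right hN.ne
    have h3 := ivN_congr hc'.2 hd
    have : -(hS * h') * (ivN N c0 * ivN N (c + N * t)) - -(hS * h') * (ivN N c0 * ivN N c) =
      (ivN N (c + N * t) - ivN N c) * (-(hS * h') * ivN N c0) := by ring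
    rw [this]; exact h3.mul_right _
  · rw [if_neg hc, if_neg (fun h => hc (e1.mp h))]

/-- **Constant term sum**, every `h = hS h'`, every row `r₀ = (c₀, d₀)` with `c₀` prime to `N`. -/
theorem sum_rowA (hN : Lev N) {x : Eis} {g : Eis → ℂ} (hg : PMod N g) {hS h' : Eis}
    (D : Dec N hS h') {A B c0 d0 : Eis} (hdet : A * d0 - B * c0 = 1) (hc0 : Gd c0)
    (hc0N : IsCoprime c0 N) :
    sumMod (hS * h' * N) (fun y => rowA N x g (hS * h' * A + y * c0, hS * h' * B + y * d0)) =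
      conj (sy6 hS c0 * rho2 h' c0) * (ea N x (d0 * ivN N c0) * sy6 d0 c0) *
        (sumMod h' (fun y => sy6 y h') * (nm hS * GG0 N x g hS h' c0)) := by
  classical
  set h : Eis := hS * h' with hh
  set Ψ : Eis → ℂ := fun c => if Gd c ∧ IsCoprime c N then
      g c * (etaH hS h' c * rho2 c c0) * ea N x (-(hS * h') * (ivN N c0 * ivN N c)) else 0 with hΨ
  have hPΨ : PMod N Ψ := pmod_GG0 hN hg D hc0
  have hcop : IsCoprime c0 d0 := ⟨-B, A, by linear_combination hdet⟩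
  -- pointwise
  have e1 : ∀ y, rowA N x g (h * A + y * c0, h * B + y * d0) =
      conj (sy6 hS c0 * rho2 h' c0) * (ea N x (d0 * ivN N c0) * sy6 d0 c0) *
        (sy6 y h' * Ψ (c0 * y + h * A)) := by
    intro y
    set c := h * A + y * c0 with hc
    set d := h * B + y * d0 with hd
    have ec : c0 * y + h * A = c := by rw [hc]; ring
    rw [ec]
    unfold rowA
    simp only [hΨ]
    by_cases hcc : Gd c ∧ IsCoprime c N
    · rw [if_pos hcc, if_pos hcc]
      have hdet' : c * d0 - d * c0 = hS * h' := by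
        rw [hc, hd, ← hh]; linear_combination h * hdet
      rw [sy6_key hN D hcc.1 hcc.2 hc0 hc0N hcop hdet' (y := y)
        ⟨hS * A, by rw [hc, hh]; ring⟩ ⟨hS * B, by rw [hd, hh]; ring⟩]
      have e2 : ea N x (d * ivN N c) =
          ea N x (d0 * ivN N c0) * ea N x (-(hS * h') * (ivN N c0 * ivN N c)) := by
        rw [← ea_add hN.ne]
        apply ea_congr_right hN.ne
        obtain ⟨s, hs⟩ := (ivN_spec hcc.2).2
        obtain ⟨t, ht⟩ := (ivN_spec hc0N).2
        refine ⟨d0 * ivN N c0 * s - d * ivN N c * t, ?_⟩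
        linear_combination (d0 * ivN N c0) * hs - (d * ivN N c) * ht -
          (ivN N c0 * ivN N c) * hdet'
      rw [e2]
      ring
    · rw [if_neg hcc, if_neg hcc]; ring
  rw [sumMod_congr e1, sumMod_mul_left (mul_ne_zero (by rw [hh]; exact D.neS) hN.ne)]
  congr 1
  have hPsy : PMod h' (fun y => sy6 y h') := (isCh_sy6 D.gd.1 D.gd.2).per
  have hP2 : PMod N (fun y => Ψ (c0 * y + h * A)) := (hPΨ.comp_add _).comp_mul _
  have hcopN : IsCoprime h' (N * hS) := D.cop.mul_right ((D.cop_S D.cop).symm)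
  rw [show h * N = h' * (N * hS) by rw [hh]; ring,
    sumMod_mul_of_coprime D.gd.ne (mul_ne_zero hN.ne D.ne) hcopN hPsy
      (hP2.mono (dvd_mul_right N hS)), sumMod_of_pmod_dvd hN.ne D.ne hP2]
  congr 2
  have h3 := sumMod_mul_coprime hN.ne (hPΨ.comp_add (h * A)) hc0N
  rw [h3, sumMod_shift hN.ne hPΨ]
  rfl

/-! ### scalar form -/

/-- `γ` splits the reciprocity factor; periodic modulo `4` (any divisor of `N`). -/
structure Gm (N : Eis) (γ : Eis → ℂ) : Prop where
  per : PMod N γ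
  mul : ∀ a b, Od a → Od b → γ (a * b) = γ a * γ b * rho2 a b
  norm : ∀ a, Od a → ‖γ a‖ = 1

lemma Gm.mul_conj {γ : Eis → ℂ} (H : Gm N γ) {a : Eis} (ha : Od a) : γ a * conj (γ a) = 1 := by
  rw [Complex.mul_conj, Complex.normSq_eq_norm_sq, H.norm a ha]; simp

/-- the dual weight -/
def gdual (ψ γ : Eis → ℂ) (hS c : Eis) : ℂ :=
  conj (ψ c * γ c) * sy6 (-1) c * conj (sy hS c)

theorem GG0_eq (hN : Lev N) {x : Eis} {ψ γ : Eis → ℂ} (hψ : IsCh N ψ) (hγ : Gm N γ) {hS h' : Eis}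
    (D : Dec N hS h') {c0 : Eis} (hc0 : Gd c0) (hc0N : IsCoprime c0 N) :
    GG0 N x (fun c => ψ c * γ c) hS h' c0 =
      conj (ψ c0) * conj (γ c0) * conj (sy6 (-hS) c0) * rho2 h' c0 *
        GG N x (fun c => ψ c * γ c) hS h' := by
  classical
  have hD' : IsCoprime (-hS) c0 := (D.cop_S hc0N).neg_left
  set H : Eis → ℂ := fun c => if Gd c ∧ IsCoprime c N then
    (ψ c * γ c) * etaH hS h' c * ea N x (-(hS * h') * ivN N c) else 0 with hH
  have hPH : PMod N H := by
    intro c t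
    have hd : N ∣ (c + N * t) - c := ⟨t, by ring⟩
    have h72 := hN.d72.trans hd
    have e1 : (Gd (c + N * t) ∧ IsCoprime (c + N * t) N) ↔ (Gd c ∧ IsCoprime c N) :=
      and_congr (gd_congr h72) (cop_congr hd)
    simp only [hH]
    by_cases hc : Gd c ∧ IsCoprime c N
    · have hc' := e1.mpr hc
      rw [if_pos hc, if_pos hc', hψ.per, hγ.per, etaH_congr hN D hc'.1 hc.1 hd]
      congr 1
      apply ea_congr_right hN.ne
      have h3 := ivN_congr hc'.2 hd
      have : -(hS * h') * ivN N (c + N * t) - -(hS * h') * ivN N c =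
        (ivN N (c + N * t) - ivN N c) * (-(hS * h')) := by ring
      rw [this]; exact h3.mul_right _
    · rw [if_neg hc, if_neg (fun h => hc (e1.mp h))]
  have hGG : GG N x (fun c => ψ c * γ c) hS h' = sumMod N H := rfl
  rw [hGG, ← sumMod_mul_coprime hN.ne hPH hc0N, ← sumMod_mul_left hN.ne]
  unfold GG0
  refine sumMod_congr fun c => ?_
  simp only [hH]
  have e1 : (Gd (c0 * c) ∧ IsCoprime (c0 * c) N) ↔ (Gd c ∧ IsCoprime c N) := by
    refine and_congr (gd_mul_iff hc0) ?_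
    exact ⟨fun h => h.of_mul_left_right, fun h => hc0N.mul_left h⟩
  by_cases hc : Gd c ∧ IsCoprime c N
  · rw [if_pos hc, if_pos (e1.mpr hc)]
    have f1 : ψ (c0 * c) = ψ c0 * ψ c := hψ.mul _ _
    have f2 : γ (c0 * c) = γ c0 * γ c * rho2 c0 c := hγ.mul _ _ hc0.2 hc.1.2
    have f3 : etaH hS h' (c0 * c) = sy6 (-hS) c0 * rho2 h' c0 * etaH hS h' c := by
      unfold etaH
      rw [sy6_mul_right _ hc0.ne hc.1.ne, rho2_mul_right D.gd.2 hc0.2 hc.1.2]; ring
    have f4 : ea N x (-(hS * h') * ivN N (c0 * c)) =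
        ea N x (-(hS * h') * (ivN N c0 * ivN N c)) := by
      apply ea_congr_right hN.ne
      have h3 := ivN_mul hc0N hc.2
      have : -(hS * h') * ivN N (c0 * c) - -(hS * h') * (ivN N c0 * ivN N c) =
        (ivN N (c0 * c) - ivN N c0 * ivN N c) * (-(hS * h')) := by ring
      rw [this]; exact h3.mul_right _
    rw [f1, f2, f3, f4, rho2_symm c0 c]
    have g1 : ψ c0 * conj (ψ c0) = 1 := hψ.mul_conj_self hN.ne hc0N
    have g2 := hγ.mul_conj hc0.2
    have g3 : sy6 (-hS) c0 * conj (sy6 (-hS) c0) = 1 := by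
      rw [Complex.mul_conj, Complex.normSq_eq_norm_sq, norm_sy6 hc0.1 hc0.2 hD']; simp
    have g4 := rho2_sq h' c0
    set E := ea N x (-(hS * h') * (ivN N c0 * ivN N c)) with hE
    set R := rho2 c c0 with hR
    have : conj (ψ c0) * conj (γ c0) * conj (sy6 (-hS) c0) * rho2 h' c0 *
        (ψ c0 * ψ c * (γ c0 * γ c * R) * (sy6 (-hS) c0 * rho2 h' c0 * etaH hS h' c) * E) =
        (ψ c0 * conj (ψ c0)) * (γ c0 * conj (γ c0)) * (sy6 (-hS) c0 * conj (sy6 (-hS) c0)) *
          (rho2 h' c0 * rho2 h' c0) * (ψ c * γ c * (etaH hS h' c * R) * E) := by ring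
    rw [this, g1, g2, g3, g4]; ring
  · rw [if_neg hc, if_neg (fun h => hc (e1.mp h)), mul_zero]

/-- **Scalar form of the constant term sum.** -/
theorem sum_rowA_gam (hN : Lev N) {x : Eis} {ψ γ : Eis → ℂ} (hψ : IsCh N ψ) (hγ : Gm N γ)
    {hS h' : Eis} (D : Dec N hS h') {A B c0 d0 : Eis} (hdet : A * d0 - B * c0 = 1)
    (hc0 : Gd c0) (hc0N : IsCoprime c0 N) :
    sumMod (hS * h' * N)
        (fun y => rowA N x (fun c => ψ c * γ c) (hS * h' * A + y * c0, hS * h' * B + y * d0)) =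
      (nm hS * sumMod h' (fun y => sy6 y h') * GG N x (fun c => ψ c * γ c) hS h') *
        rowA N x (gdual ψ γ hS) (c0, d0) := by
  have hg : PMod N (fun c => ψ c * γ c) := hψ.per.mul hγ.per
  rw [sum_rowA hN hg D hdet hc0 hc0N, GG0_eq hN hψ hγ D hc0 hc0N]
  unfold rowA gdual
  rw [if_pos ⟨hc0, hc0N⟩, map_mul, conj_rho2]
  have e1 : sy6 (-hS) c0 = sy6 (-1) c0 * sy6 hS c0 := by
    rw [← sy6_mul_left hc0.1 hc0.2]; congr 1; ring
  have e2 : conj (sy6 (-1) c0) = sy6 (-1) c0 := by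
    have h1 : sy6 (-1) c0 * sy6 (-1) c0 = 1 := by
      rw [← sy6_mul_left hc0.1 hc0.2]; norm_num
      exact sy6_one_left hc0.1 hc0.2
    have h2 : ‖sy6 (-1) c0‖ = 1 :=
      norm_sy6 hc0.1 hc0.2 (isCoprime_of_isUnit isUnit_one.neg _)
    have h3 : sy6 (-1) c0 * conj (sy6 (-1) c0) = 1 := by
      rw [Complex.mul_conj, Complex.normSq_eq_norm_sq, h2]; simp
    have h4 : sy6 (-1) c0 ≠ 0 := left_ne_zero_of_mul_eq_one h1
    exact mul_left_cancel₀ h4 (h3.trans h1.symm)
  have e3 : conj (sy hS c0) = conj (sy6 hS c0) * conj (sy6 hS c0) := by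
    rw [← sy6_sq hc0.1 hc0.2, map_pow, pow_two]
  have e4 := rho2_sq h' c0
  rw [e1, map_mul, e2, e3]
  simp only [map_mul]
  linear_combination (conj (sy6 hS c0) * conj (sy6 hS c0) * conj (ψ c0) * conj (γ c0) *
    sy6 (-1) c0 * ea N x (d0 * ivN N c0) * sy6 d0 c0 * sumMod h' (fun y => sy6 y h') * nm hS *
    GG N x (fun c => ψ c * γ c) hS h') * e4

end Crest.Agent.R017.Rw266
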