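import Crest.Agent.R017.F1Eq5_180
import Crest.Agent.R017.Rw1_266
import Crest.Agent.R017.GlueV_266

/-!
# Row 17, twisted cubic F1 (helper541), part A: the additive row `rb` and the local sums

* `rb m x ψ (c, d) = ψ(c) e(x d c̄ / m)`
* `TwD m ψ` : `ψ` character modulo `m`, `λ ∤ m`, `ψ_p³ ≠ 1` for all `p ∣ m` (`NH sy m ψ`)
* `sum_th` : the Gauss sum of the line, `sum_th_zero` : vanishing when `(h, m) ≠ 1`
-/

set_option autoImplicit false

noncomputable section

open Complex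
open scoped ComplexConjugate

namespace Crest.Agent.R017.Tw3

open Crest.Agent.R012 Crest.Agent.R012.Eis Crest.Agent.R012.Gauss880 Crest.Agent.R017.Loc266
open Crest.Agent.R012.Sym645 (prim_nm_mod)
open Crest.Agent.R017.Tw266 (NH sumMod_mul_of_coprime)
open Crest.Agent.R017.Rw266 (ivN ivN_spec ivN_congr ivN_mul ea_congr_right cop_congr iv_unique)

variable {m x : Eis} {ψ : Eis → ℂ}

/-- the pure twist data: `ψ³` is primitive modulo `m` -/
structure TwD (m : Eis) (ψ : Eis → ℂ) : Prop where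
  m0 : m ≠ 0
  lm : ¬ lam ∣ m
  ch : IsCh m ψ
  p3 : Prp m (fun z => ψ z ^ 3)

lemma TwD.nh (T : TwD m ψ) : NH sy m ψ := by
  intro p hp hpm j
  obtain ⟨u, hu, hd, h1⟩ := T.p3 p hp hpm
  refine ⟨u, hu, hd, fun h => h1 ?_⟩
  have hl : ¬ lam ∣ p := fun h' => T.lm (h'.trans hpm)
  have h3 := Sym645.sy_cube (nm_mod_three_of_not_dvd hl) (IsCoprime.of_isCoprime_of_dvd_right hu hpm)
  have h4 : (sy u p ^ j * ψ u) ^ 3 = 1 := by rw [h, one_pow]
  have h5 : (sy u p ^ j * ψ u) ^ 3 = (sy u p ^ 3) ^ j * ψ u ^ 3 := by ring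
  rw [h5, h3, one_pow, one_mul] at h4
  exact h4

lemma TwD.conj (T : TwD m ψ) : TwD m (fun z => conj (ψ z)) where
  m0 := T.m0
  lm := T.lm
  ch := T.ch.conj
  p3 p hp hpm := by
    obtain ⟨u, hu, hd, h1⟩ := T.p3 p hp hpm
    refine ⟨u, hu, hd, fun h => h1 ?_⟩
    have := congrArg conj h
    simpa using this

/-- `ψ(c) e(x d c̄ / m)` -/
def rb (m x : Eis) (ψ : Eis → ℂ) (r : Eis × Eis) : ℂ := ψ r.1 * ea m x (r.2 * ivN m r.1)

lemma rb_congr (hm : m ≠ 0) (hψ : IsCh m ψ) {r r' : Eis × Eis} (h1 : m ∣ r.1 - r'.1)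
    (h2 : m ∣ r.2 - r'.2) : rb m x ψ r = rb m x ψ r' := by
  unfold rb
  rw [hψ.per.congr h1]
  by_cases hc : IsCoprime r.1 m
  · congr 1
    apply ea_congr_right hm
    have h3 := ivN_congr hc h1
    have : r.2 * ivN m r.1 - r'.2 * ivN m r'.1 =
      r.2 * (ivN m r.1 - ivN m r'.1) + (r.2 - r'.2) * ivN m r'.1 := by ring
    rw [this]
    exact dvd_add (h3.mul_left _) (h2.mul_right _)
  · have : ψ r'.1 = 0 := hψ.zero _ (fun h => hc ((cop_congr h1).mpr h))
    rw [this, zero_mul, zero_mul]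

lemma norm_rb_le (hm : m ≠ 0) (hψ : IsCh m ψ) (r : Eis × Eis) : ‖rb m x ψ r‖ ≤ 1 := by
  unfold rb
  rw [norm_mul, norm_ea, mul_one]
  exact hψ.norm_le_one hm _

/-- the `c`-part of `rb` on a line. -/
def th (m x : Eis) (ψ : Eis → ℂ) (h c0 C : Eis) : ℂ := ψ C * ea m x (-h * (ivN m c0 * ivN m C))

lemma pmod_th (hm : m ≠ 0) (hψ : IsCh m ψ) (h c0 : Eis) : PMod m (th m x ψ h c0) := by
  intro C t
  have h1 : m ∣ (C + m * t) - C := ⟨t, by ring⟩
  unfold th
  rw [hψ.per]
  by_cases hc : IsCoprime (C + m * t) m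
  · congr 1
    apply ea_congr_right hm
    have h3 := ivN_congr hc h1
    have : -h * (ivN m c0 * ivN m (C + m * t)) - -h * (ivN m c0 * ivN m C) =
      (ivN m (C + m * t) - ivN m C) * (-h * ivN m c0) := by ring
    rw [this]
    exact h3.mul_right _
  · have : ψ C = 0 := hψ.zero _ (fun h' => hc ((cop_congr h1).mpr h'))
    rw [this, zero_mul, zero_mul]

/-- `rb` on the line through a row with `c₀` prime to `m`. -/
lemma rb_line (hm : m ≠ 0) (hψ : IsCh m ψ) {A B c0 d0 : Eis} (hdet : A * d0 - B * c0 = 1)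
    (hc0 : IsCoprime c0 m) (h y : Eis) :
    rb m x ψ (h * A + y * c0, h * B + y * d0) =
      ea m x (d0 * ivN m c0) * th m x ψ h c0 (h * A + y * c0) := by
  unfold rb th
  simp only
  set c := h * A + y * c0 with hc
  set d := h * B + y * d0 with hd
  by_cases hcc : IsCoprime c m
  · have hdet' : c * d0 - d * c0 = h := by rw [hc, hd]; linear_combination h * hdet
    have e2 : ea m x (d * ivN m c) = ea m x (d0 * ivN m c0) *
        ea m x (-h * (ivN m c0 * ivN m c)) := by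
      rw [← ea_add hm]
      apply ea_congr_right hm
      obtain ⟨s, hs⟩ := (ivN_spec hcc).2
      obtain ⟨t, ht⟩ := (ivN_spec hc0).2
      refine ⟨d0 * ivN m c0 * s - d * ivN m c * t, ?_⟩
      linear_combination (d0 * ivN m c0) * hs - (d * ivN m c) * ht -
        (ivN m c0 * ivN m c) * hdet'
    rw [e2]; ring
  · rw [hψ.zero _ hcc]; ring

/-- the Gauss sum of the line, any character -/
lemma sum_th (hm : m ≠ 0) (hψ : IsCh m ψ) (h c0 : Eis) :
    sumMod m (th m x ψ h c0) = gl (fun z => conj (ψ z)) (-(x * h * ivN m c0)) m := by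
  unfold gl
  refine sumMod_inv hm (fun C hC => ?_) (fun Z hZ => ?_) (fun C Z hCZ => ?_)
  · unfold th; rw [hψ.zero _ hC, zero_mul]
  · simp only; rw [hψ.zero _ hZ, map_zero, zero_mul]
  · have hC : IsCoprime C m := by
      obtain ⟨k, hk⟩ := hCZ
      exact ⟨Z, -k, by linear_combination hk⟩
    have hZ : IsCoprime Z m := by
      obtain ⟨k, hk⟩ := hCZ
      exact ⟨C, -k, by linear_combination hk⟩
    have h1 : ψ C = conj (ψ Z) := IsCh.inv hψ hm hZ (by rw [mul_comm]; exact hCZ)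
    unfold th
    rw [h1]
    congr 1
    have h2 : m ∣ ivN m C - Z := iv_unique (ivN_spec hC).2 hCZ
    rw [ea_mul, ea_mul, ea_comm _ _ (ivN m C), ea_congr hm h2, ea_comm]
    congr 1
    ring

/-- `(·/k)_3` is periodic modulo `m` if all primes of `k` divide `m`. -/
lemma sy_per {k : Eis} (hk : k ≠ 0) (hl : ¬ lam ∣ k) (hp : ∀ p, Prime p → p ∣ k → p ∣ m)
    {a b : Eis} (h : m ∣ a - b) : sy a k = sy b k := by
  induction k using UniqueFactorizationMonoid.induction_on_prime with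
  | h₁ => exact absurd rfl hk
  | h₂ u hu =>
    obtain ⟨v, hv⟩ := hu.exists_right_inv
    exact Sym645.sy_congr (by rw [isUnit_iff.mp hu]) (hu.dvd)
  | h₃ c p hc hpp ih =>
    have hl1 : ¬ lam ∣ p := fun h' => hl (h'.mul_right c)
    have hl2 : ¬ lam ∣ c := fun h' => hl (h'.mul_left p)
    rw [Sym645.sy_mul_right _ hpp.ne_zero hc, Sym645.sy_mul_right _ hpp.ne_zero hc,
      ih hc hl2 (fun q hq hqc => hp q hq (hqc.mul_left p)),
      Sym645.sy_congr (nm_mod_three_of_not_dvd hl1) ((hp p hpp (dvd_mul_right p c)).trans h)]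

/-- the twist of `ψ` by `conj (·/k)_3` -/
def twc (k : Eis) (ψ : Eis → ℂ) (C : Eis) : ℂ := conj (sy C k) * ψ C

lemma isCh_twc (hψ : IsCh m ψ) {k : Eis} (hk : IsPrim k) (hp : ∀ p, Prime p → p ∣ k → p ∣ m) :
    IsCh m (twc k ψ) where
  one := by
    unfold twc
    rw [sy_eq_one (fun q _ _ => by simp), map_one, one_mul, hψ.one]
  mul a b := by
    unfold twc
    rw [Sym645.sy_mul_left (prim_nm_mod hk), hψ.mul, map_mul]; ring
  per a t := by
    unfold twc
    rw [hψ.per, sy_per hk.ne_zero (fun h => hk.not_lam_dvd h) hp (a := a + m * t) (b := a)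
      ⟨t, by ring⟩]
  zero a ha := by
    unfold twc
    rw [hψ.zero a ha, mul_zero]

lemma conj_sy_pow {u p : Eis} (hl : ¬ lam ∣ p) (hu : IsCoprime u p) (k : ℕ) :
    conj (sy u p ^ k) = sy u p ^ (2 * k) := by
  have h3 : nm p % 3 = 1 := nm_mod_three_of_not_dvd hl
  have h1 := Sym645.sy_cube h3 hu
  have h2 := Sym645.norm_sy_of_isCoprime h3 hu
  have h4 : sy u p * conj (sy u p) = 1 := by
    rw [Complex.mul_conj, Complex.normSq_eq_norm_sq, h2]; simp
  have h5 : conj (sy u p) = sy u p ^ 2 := by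
    have h6 : sy u p ≠ 0 := left_ne_zero_of_mul_eq_one h4
    apply mul_left_cancel₀ h6
    rw [h4, ← h1]; ring
  rw [map_pow, h5, ← pow_mul]

lemma sy_pow_right (u : Eis) {p : Eis} (hp : p ≠ 0) (n : ℕ) : sy u (p ^ n) = sy u p ^ n := by
  induction n with
  | zero => simp [Sym645.sy_one_right]
  | succ n ih => rw [pow_succ, Sym645.sy_mul_right _ (pow_ne_zero n hp) hp, ih, pow_succ]

lemma prm_twc (T : TwD m ψ) {k : Eis} (hk : IsPrim k) (hp : ∀ p, Prime p → p ∣ k → p ∣ m) :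
    Prm m (twc k ψ) := by
  refine prm_of_prp T.m0 (fun p hpp hpm => ?_)
  have hlp : ¬ lam ∣ p := fun h => T.lm (h.trans hpm)
  obtain ⟨n, h', he, hh'⟩ := Tw266.exists_pow_mul hpp hk.ne_zero
  obtain ⟨u, hu, hd, h1⟩ := T.nh p hpp hpm (2 * n)
  refine ⟨u, hu, hd, ?_⟩
  have hup : IsCoprime u p := IsCoprime.of_isCoprime_of_dvd_right hu hpm
  have h'0 : h' ≠ 0 := by
    rintro rfl
    exact hk.ne_zero (by rw [he, mul_zero])
  have e1 : sy u k = sy u p ^ n := by
    have hpn : p ^ n ≠ 0 := pow_ne_zero n hpp.ne_zero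
    rw [he, Sym645.sy_mul_right _ hpn h'0]
    have e2 : sy u h' = 1 := by
      apply sy_eq_one
      intro q hq hqh
      have hqm : q ∣ m := hp q hq (by rw [he]; exact hqh.mul_left _)
      have hq2 : q ∣ (u - 1) * p := hqm.trans hd
      rcases hq.dvd_or_dvd hq2 with h3 | h3
      · exact h3
      · exfalso
        exact hh' ((hpp.associated_of_dvd hq ((hq.associated_of_dvd hpp h3).symm.dvd)).dvd.trans hqh)
    rw [e2, mul_one, sy_pow_right _ hpp.ne_zero]
  unfold twc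
  rw [e1, conj_sy_pow hlp hup]
  exact h1

lemma prm_self (T : TwD m ψ) : Prm m ψ := by
  have h := prm_twc T (k := 1) (by simp [IsPrim]) (fun p hp h => absurd (isUnit_of_dvd_one h)
    hp.not_isUnit)
  have e : twc 1 ψ = ψ := by
    funext C
    unfold twc
    rw [Sym645.sy_one_right, map_one, one_mul]
  rwa [e] at h

/-- the Gauss sum of the line for pure `ψ`. -/
lemma sum_th_pure (T : TwD m ψ) (h c0 : Eis) (hc0 : IsCoprime c0 m) :
    sumMod m (th m x ψ h c0) =
      ψ (-x) * ψ h * conj (ψ c0) * gl (fun z => conj (ψ z)) 1 m := by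
  rw [sum_th T.m0 T.ch, gl_prim T.m0 (T.ch.conj) (prm_self T).conj, Complex.conj_conj]
  have h1 : ψ (ivN m c0) = conj (ψ c0) := IsCh.inv T.ch T.m0 hc0 (ivN_spec hc0).2
  rw [show -(x * h * ivN m c0) = (-x) * h * ivN m c0 by ring, T.ch.mul, T.ch.mul, h1]

/-- vanishing of the twisted line sum -/
lemma sum_th_zero (T : TwD m ψ) {k h c0 A : Eis} (hk : IsPrim k)
    (hp : ∀ p, Prime p → p ∣ k → p ∣ m) (hku : ∃ p, Prime p ∧ p ∣ k) (hkh : k ∣ h)
    (hc0 : IsCoprime c0 m) :
    sumMod (m * k) (fun y => conj (sy y k) * th m x ψ h c0 (h * A + y * c0)) = 0 := by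
  have hk3 := prim_nm_mod hk
  have hχ := isCh_twc T.ch hk hp
  have hmk : m * k ≠ 0 := mul_ne_zero T.m0 hk.ne_zero
  have hck : IsCoprime c0 k := by
    refine isCoprime_of_prime_dvd (fun h' => hk.ne_zero h'.2) (fun q hq h1 h2 => ?_)
    have h3 : IsCoprime q q := IsCoprime.of_isCoprime_of_dvd_left
      (IsCoprime.of_isCoprime_of_dvd_right hc0 (hp q hq h2)) h1
    exact hq.not_isUnit (isCoprime_self.mp h3)
  have hn : sy c0 k * conj (sy c0 k) = 1 := by
    rw [Complex.mul_conj, Complex.normSq_eq_norm_sq, Sym645.norm_sy_of_isCoprime hk3 hck]; simp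
  have e1 : ∀ y, conj (sy y k) * th m x ψ h c0 (h * A + y * c0) =
      sy c0 k * th m x (twc k ψ) h c0 (h * A + y * c0) := by
    intro y
    have e2 : sy (h * A + y * c0) k = sy y k * sy c0 k := by
      rw [Sym645.sy_congr hk3 (y := y * c0) (by
        rw [add_sub_cancel_right]; exact hkh.mul_right A), Sym645.sy_mul_left hk3]
    unfold th twc
    rw [e2, map_mul]
    linear_combination (-(conj (sy y k) * (ψ (h * A + y * c0) *
      ea m x (-h * (ivN m c0 * ivN m (h * A + y * c0)))))) * hn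
  rw [sumMod_congr e1, sumMod_mul_left hmk]
  have hP := pmod_th (x := x) T.m0 hχ h c0
  have hP2 : PMod m (fun y => th m x (twc k ψ) h c0 (h * A + y * c0)) := by
    intro y t
    have : h * A + (y + m * t) * c0 = (h * A + y * c0) + m * (t * c0) := by ring
    simp only
    rw [this]
    exact hP _ _
  rw [sumMod_of_pmod_dvd T.m0 hk.ne_zero hP2]
  have e3 : sumMod m (fun y => th m x (twc k ψ) h c0 (h * A + y * c0)) =
      sumMod m (th m x (twc k ψ) h c0) := by
    rw [← sumMod_shift T.m0 hP (h * A), ← sumMod_mul_coprime T.m0 (hP.comp_add (h * A)) hc0]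
    exact sumMod_congr fun y => by rw [show c0 * y + h * A = h * A + y * c0 by ring]
  rw [e3, sum_th T.m0 hχ, gl_eq_zero T.m0 hχ.conj (prm_twc T hk hp).conj, mul_zero, mul_zero]
  obtain ⟨p, hpp, hpk⟩ := hku
  intro hc
  have hph : p ∣ -(x * h * ivN m c0) := by
    rw [dvd_neg]; exact ((hpk.trans hkh).mul_left x).mul_right _
  have h3 : IsCoprime p p := IsCoprime.of_isCoprime_of_dvd_left
    (IsCoprime.of_isCoprime_of_dvd_right hc (hp p hpp hpk)) hph
  exact hpp.not_isUnit (isCoprime_self.mp h3)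

end Crest.Agent.R017.Tw3
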