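import Crest.Agent.R017.CD3_47
import Crest.Agent.R017.Tw3A_541

/-!
# Row 17, twisted cubic functional equation (C.F1tw), the low case, preparations (helper47)

* `rawW_hasFE3` : the raw form with arbitrary weight families
* periodicity of `e(ν/(3√-3))` and of `F1.Lam δ ν`; `F1.Dl (lm a b * u) = F1.Dl (lm a b)`
* `lraw_low` : the left side at the frequency `lm a b * u`
-/

set_option autoImplicit false

noncomputable section

open MeasureTheory Complex Set Filter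
open scoped ComplexConjugate SchwartzMap ContDiff Topology

namespace Crest.Agent.R017.CD47

open Crest.Agent.R012 Crest.Agent.R012.Eis Crest.Agent.R012.Gauss880 Crest.Agent.R017.Loc266
open Crest.Agent.R012.Mob705
open Crest.Agent.R012.Parseval499 (frq s3 toC_s3_ne)
open Crest.Agent.R017.Sx545 Crest.Agent.R017.B770
open Crest.Agent.R017.A590 Crest.Agent.R017.C590
open Crest.Agent.R017.Xn590 Crest.Agent.R017.Wt92 Crest.Agent.R017.EndA92
open Crest.Agent.R017.End699 (HC)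
open Crest.Agent.R017.E2440 (NT DS)

variable {M M' : Eis} {ψ : Eis → ℂ} {l : ℤ}

/-- the raw form with weight families -/
theorem rawW_hasFE3 (hMM : M ∣ M') (hM0 : M' ≠ 0) (hrad : ∀ p : Eis, Prime p → p ∣ M' → p ∣ M)
    (hψ : HC M ψ) {ι : Type} [Fintype ι] {K ψ' : ι → Eis → ℂ}
    {R : ι → (ℝ → ℂ) → ℝ → ℝ → ℂ → ℂ} {r : ι → ℂ}
    (hK : ∀ i a b, Sm M a → Sm M b → M' ∣ a - b → K i a = K i b) (hU : ∀ i, Uni M' (ψ' i))
    (hr : ∀ i, r i ≠ 0) (hR : ∀ i, RW l (R i))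
    (hFE : ∀ V, SW V → ∀ τ Q : ℝ, 0 < Q → ∀ u, Sm M u →
      LRaw M ψ u (fT V l τ Q) = ∑ i, K i u * RRaw M (ψ' i) u (R i V τ Q) (r i)) :
    HasFE3 M ψ l := by
  have h3 : (3 : Eis) ∣ M' := hψ.three.trans hMM
  have hcop : ∀ b, Sm M b → IsCoprime b M' := by
    intro b hb
    refine isCoprime_of_prime_dvd (fun h' => hM0 h'.2) (fun p hp h5 h6 => ?_)
    exact hp.not_isUnit (hb.2.isUnit_of_dvd' h5 (hrad p hp h6))
  have h1 := Rep.sum (M := M) (M' := M') (j := l) (l' := -l) (Finset.univ : Finset ι)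
    (F := fun i V u Q τ => K i u * RRaw M (ψ' i) u (R i V τ Q) (r i))
    (fun i _ => Rep.fmul' hM0 h3 hcop (rep_rraw hM0 h3 hcop (hU i) (hR i) (hr i)) (hK i))
  have h2 : Rep M M' l (-l) (fun V u Q τ =>
      N3 M (End699.tw ψ l) u (fun y => (y : ℂ) ^ (I * τ) * V y) Q) := by
    refine h1.congr fun V hV u hu Q hQ τ => ?_
    rw [← left_N3 hψ hV τ hQ u]
    exact hFE V hV τ Q hQ u hu
  obtain ⟨κι, iκ, κ, η, ψ2, ρ, a1, a2, a3, a4⟩ := h2
  refine ⟨κι, iκ, ⟨M', κ, η, ψ2, l, -l, ρ⟩, ?_, a4⟩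
  exact
    { ne := hM0
      dvd := hMM
      rad := hrad
      η := a1
      ψ' := a2
      ρ := a3 }

/-! ### periodicity -/

/-- `e(ν/(3√-3))` -/
lemma eC_frq_congr {a b : Eis} (h : 3 * s3 ∣ a - b) : eC (frq 3 a) = eC (frq 3 b) := by
  obtain ⟨t, ht⟩ := h
  have e : frq 3 a = toC t + frq 3 b := by
    unfold frq
    have hs := toC_s3_ne
    have ha : a = b + 3 * s3 * t := by linear_combination ht
    have h3 : toC (3 : Eis) = 3 := map_ofNat toC 3
    rw [ha]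
    simp only [map_add, map_mul, h3]
    field_simp
    ring
  rw [e, R012.eC_add, eC_toC, one_mul]

lemma Lam_congr {δ a b : Eis} (hδ : δ ≠ 0) (h : 3 * δ * s3 ∣ a - b) : F1.Lam δ a = F1.Lam δ b := by
  classical
  obtain ⟨t, ht⟩ := h
  unfold F1.Lam
  refine sumMod_congr fun x => ?_
  congr 1
  have e : toC a * toC x / (toC s3 * toC (3 * δ)) =
      toC (t * x) + toC b * toC x / (toC s3 * toC (3 * δ)) := by
    have hs := toC_s3_ne
    have hδC : toC δ ≠ 0 := Po581.toC_ne_zero hδ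
    have h3 : toC (3 : Eis) = 3 := map_ofNat toC 3
    have ha : a = b + 3 * δ * s3 * t := by linear_combination ht
    rw [ha]
    simp only [map_add, map_mul, h3]
    field_simp
    ring
  rw [e, R012.eC_add, eC_toC, one_mul]

/-! ### the divisors at `lam` -/

lemma sm3_dvd_pow {δ : Eis} (h : δ ∈ FE47.SM 3) {x u : Eis} (hu : IsPrim u) (hd : δ ∣ x * u) :
    δ ∣ x := by
  have h1 : IsCoprime δ u := (FE47.SM.coprime h hu.isCoprime_three).symm
  exact h1.dvd_of_dvd_mul_right hd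

lemma Dl_lm {x u : Eis} (hx : x ≠ 0) (hu : IsPrim u) : F1.Dl (x * u) = F1.Dl x := by
  ext δ
  rw [F1.mem_Dl (mul_ne_zero hx hu.ne_zero), F1.mem_Dl hx]
  constructor
  · rintro ⟨h1, h2, h3⟩
    refine ⟨h1, h2, sm3_dvd_pow h1 hu ?_⟩
    rwa [← mul_assoc] at h3
  · rintro ⟨h1, h2, h3⟩
    refine ⟨h1, h2, ?_⟩
    rw [← mul_assoc]
    exact h3.mul_right u

lemma lm_ne (a b : ℕ) : lm a b ≠ 0 :=
  mul_ne_zero (pow_ne_zero _ (by decide)) (pow_ne_zero _ lam_ne_zero)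

/-- `3 δ √-3 ∣ 81` for `δ ∣ 3 lm a b`, `b ≤ 2` -/
lemma dl_dvd {a b : ℕ} (hb : b ≤ 2) {δ : Eis} (h : δ ∣ 3 * lm a b) : 3 * δ * s3 ∣ 81 := by
  have h1 : 3 * δ * s3 ∣ 3 * (3 * lm a b) * s3 := mul_dvd_mul (mul_dvd_mul dvd_rfl h) dvd_rfl
  refine h1.trans ?_
  have e : (3 * (3 * lm a b) * s3 : Eis) = 9 * (w ^ a * lam ^ b) * s3 := by unfold lm; ring
  have hs : s3 ∣ (3 : Eis) := ⟨-s3, by decide⟩
  have hl2 : lam ^ 2 ∣ (3 : Eis) := ⟨-w ^ 2, by decide⟩
  have hlb : lam ^ b ∣ (3 : Eis) := (pow_dvd_pow lam hb).trans hl2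
  have hwa : (w ^ a : Eis) ∣ 1 := (isUnit_w.pow a).dvd
  rw [e]
  have h2 : w ^ a * lam ^ b ∣ (3 : Eis) := by
    have := mul_dvd_mul hwa hlb
    rwa [one_mul] at this
  have h3 : 9 * (w ^ a * lam ^ b) * s3 ∣ 9 * 3 * 3 := mul_dvd_mul (mul_dvd_mul dvd_rfl h2) hs
  exact h3.trans ⟨1, by norm_num⟩

/-! ### the left side at the frequency `lm a b * u` -/

open Classical in
/-- 541's left side -/
def LPr (φ : Eis → ℂ) (ν : Eis) (f : ℂ → ℂ) : ℂ :=
  ∑' c : Eis, if IsPrim c then φ c * conj (gs ν c) *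
    (∑' e : Eis, if IsPrim e then φ e ^ 3 * (nm e : ℂ) ^ 2 * f (toC e ^ 3 * toC c) else 0) else 0

lemma lm_cop {a b : ℕ} {c : Eis} (hc : IsPrim c) : IsCoprime (lm a b) c :=
  (Sym645.isCoprime_unit_left (isUnit_w.pow a)).mul_left (hc.isCoprime_lam.symm.pow_left)

lemma lraw_low {φ : Eis → ℂ} {a b : ℕ} (hφ0 : ∀ c, IsPrim c → ¬ Sm M c → φ c = 0)
    (hψ : ∀ c, Sm M c → ψ c = φ c * sy (lm a b) c) (u : Eis) (f : ℂ → ℂ) :
    LRaw M ψ u f = LPr φ (lm a b * u) f := by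
  classical
  unfold LRaw LPr
  refine tsum_congr fun c => ?_
  by_cases hc : Sm M c
  · rw [if_pos hc, if_pos hc.1]
    have h1 : gs (lm a b * u) c = conj (sy (lm a b) c) * gs u c := by
      rw [mul_comm]
      exact gs_mul_of_coprime syG hc.1 u (lm_cop hc.1)
    rw [h1, hψ c hc, map_mul, Complex.conj_conj]
    have h2 : (∑' e : Eis, if Sm M e then ψ e ^ 3 * (nm e : ℂ) ^ 2 * f (toC e ^ 3 * toC c) else 0) =
        ∑' e : Eis, if IsPrim e then φ e ^ 3 * (nm e : ℂ) ^ 2 * f (toC e ^ 3 * toC c) else 0 := by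
      refine tsum_congr fun e => ?_
      by_cases he : Sm M e
      · rw [if_pos he, if_pos he.1, hψ e he, mul_pow,
          Sym645.sy_cube (Sym645.prim_nm_mod he.1) (lm_cop he.1), mul_one]
      · rw [if_neg he]
        by_cases hp : IsPrim e
        · rw [if_pos hp, hφ0 e hp he]; ring
        · rw [if_neg hp]
    rw [h2]
    ring
  · rw [if_neg hc]
    by_cases hp : IsPrim c
    · rw [if_pos hp, hφ0 c hp hc]; ring
    · rw [if_neg hp]

end Crest.Agent.R017.CD47
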