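import Crest.Agent.R017.CD4_47

/-!
# Row 17, twisted cubic functional equation (C.F1tw), the low case, assembly (helper47)

* `uni_sy_S` : `sy d` for `d` composed of `lam`
* `cells_hasFE3` : a functional equation written with cells gives `HasFE3`
-/

set_option autoImplicit false

noncomputable section

open MeasureTheory Complex Set Filter
open scoped ComplexConjugate SchwartzMap ContDiff Topology

namespace Crest.Agent.R017.CD47

open Crest.Agent.R012 Crest.Agent.R012.Eis Crest.Agent.R012.Gauss880 Crest.Agent.R017.Loc266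
open Crest.Agent.R012.Mob705
open Crest.Agent.R012.Parseval499 (frq s3 toC_s3_ne)
open Crest.Agent.R017.Sx545 Crest.Agent.R017.B770
open Crest.Agent.R017.A590 Crest.Agent.R017.C590
open Crest.Agent.R017.Xn590 Crest.Agent.R017.Wt92 Crest.Agent.R017.EndA92
open Crest.Agent.R017.End699 (HC)
open Crest.Agent.R017.E2440 (NT DS)

variable {M M' m : Eis} {ψ φ : Eis → ℂ} {l : ℤ}

/-! ### `sy d`, `d` composed of `lam` -/

/-- non zero, all prime divisors divide `3` -/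
lemma sm3_decomp {d : Eis} (h : d ∈ FE47.SM 3) : ∃ (k : ℕ) (v : Eis), IsUnit v ∧ d = lam ^ k * v := by
  obtain ⟨k, v, m, hv, hm, hdec⟩ := Sym645.exists_lam_decomp h.1
  have hm1 : m = 1 := by
    have hmu : IsUnit m := by
      by_contra hmu
      obtain ⟨p, hp', hpm⟩ := WfDvdMonoid.exists_irreducible_factor hmu hm.ne_zero
      have hp : Prime p := hp'.prime
      have h1 : p ∣ d := by rw [hdec]; exact (hpm.mul_left _).mul_left _
      have h2 : p ∣ 3 := h.2 p hp h1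
      exact hp.not_isUnit (hm.isCoprime_three.isUnit_of_dvd' hpm h2)
    exact K695.prim_eq_one_of_isUnit hm hmu
  exact ⟨k, v, hv, by rw [hdec, hm1, mul_one]⟩

lemma lm_mem (a b : ℕ) : lm a b ∈ FE47.SM 3 := by
  refine ⟨lm_ne a b, fun p hp h => ?_⟩
  rcases hp.dvd_or_dvd h with h1 | h1
  · exact absurd (isUnit_of_dvd_unit h1 (isUnit_w.pow a)) hp.not_isUnit
  · exact (hp.dvd_of_dvd_pow h1).trans ⟨-w ^ 2 * lam, by rw [three_eq]; ring⟩

lemma sm3_mul {d e : Eis} (h : d ∈ FE47.SM 3) (h' : e ∈ FE47.SM 3) : d * e ∈ FE47.SM 3 := by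
  refine ⟨mul_ne_zero h.1 h'.1, fun p hp hd => ?_⟩
  rcases hp.dvd_or_dvd hd with h1 | h1
  · exact h.2 p hp h1
  · exact h'.2 p hp h1

lemma sm3_cop {d c : Eis} (h : d ∈ FE47.SM 3) (hc : IsPrim c) : IsCoprime d c :=
  (FE47.SM.coprime h hc.isCoprime_three).symm

lemma uni_sy_S {q d : Eis} (h9 : (9 : Eis) ∣ q) (h : d ∈ FE47.SM 3) : Uni q (sy d) where
  one := Sym645.sy_one_right d
  mul a b ha hb := Char766.sy_mul_right ha.1 hb.1
  norm a ha := Sym645.norm_sy_of_isCoprime (Sym645.prim_nm_mod ha.1) (sm3_cop h ha.1)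
  per a b ha hb hab := by
    obtain ⟨k, v, hv, rfl⟩ := sm3_decomp h
    have h9' : (9 : Eis) ∣ a - b := h9.trans hab
    rw [Char766.sy_mul_left ha.1, Char766.sy_mul_left hb.1, Char766.sy_pow_left ha.1,
      Char766.sy_pow_left hb.1, Sym645.sy_lam_congr ha.1 hb.1 h9',
      Sym645.sy_unit_congr hv ha.1 hb.1 h9']

/-! ### the dual character -/

/-- `φ'(c) = (c/m)_3 conj φ(c)` -/
def dph (m : Eis) (φ : Eis → ℂ) (c : Eis) : ℂ := sy c m * conj (φ c)

lemma uni_dph (hm : IsPrim m) (hφ : IsCh m φ) {q : Eis} (hq : m ∣ q) : Uni q (dph m φ) where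
  one := by
    unfold dph
    rw [hφ.one, map_one, mul_one]
    exact Sym645.sy_one_left (Sym645.prim_nm_mod hm)
  mul a b ha hb := by
    unfold dph
    rw [hφ.mul, map_mul, Char766.sy_mul_left hm]
    ring
  norm a ha := by
    have hc : IsCoprime a m := IsCoprime.of_isCoprime_of_dvd_right ha.2 hq
    unfold dph
    rw [norm_mul, RCLike.norm_conj, hφ.norm_eq_one hm.ne_zero hc,
      Sym645.norm_sy_of_isCoprime (Sym645.prim_nm_mod hm) hc, mul_one]
  per a b ha hb hab := by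
    unfold dph
    rw [hφ.per.congr (hq.trans hab), Sym645.sy_congr (Sym645.prim_nm_mod hm) (hq.trans hab)]

lemma dph_zero (hφ : IsCh m φ) {c : Eis} (hc : ¬ IsCoprime c m) :
    dph m φ c = 0 := by
  unfold dph
  rw [hφ.zero c hc, map_zero, mul_zero]

/-! ### cells -/

/-- **a functional equation in terms of cells** -/
theorem cells_hasFE3 (h9 : (9 : Eis) ∣ M) (hMM : M ∣ M') (hM0 : M' ≠ 0)
    (hrad : ∀ p : Eis, Prime p → p ∣ M' → p ∣ M)
    (hψ : HC M ψ) (hm : IsPrim m) (hφ : IsCh m φ) (hmM : m ∣ M)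
    (hSm : ∀ c, IsPrim c → (Sm M c ↔ IsCoprime c m))
    {ι : Type} [Fintype ι] {K : ι → Eis → ℂ} {d : ι → Eis}
    {R : ι → (ℝ → ℂ) → ℝ → ℝ → ℂ → ℂ} {r : ι → ℂ}
    (hK : ∀ i a b, Sm M a → Sm M b → M' ∣ a - b → K i a = K i b) (hd : ∀ i, d i ∈ FE47.SM 3)
    (hr : ∀ i, r i ≠ 0) (hR : ∀ i, RW l (R i))
    (hFE : ∀ V, SW V → ∀ τ Q : ℝ, 0 < Q → ∀ u, Sm M u →
      LRaw M ψ u (fT V l τ Q) =
        ∑ i, K i u * Cgt (dph m φ) (d i * u) (F1.rc (R i V τ Q) (r i * toC u))) :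
    HasFE3 M ψ l := by
  have h3 : (3 : Eis) ∣ M' := hψ.three.trans hMM
  have hcop : ∀ b, Sm M b → IsCoprime b M' := by
    intro b hb
    refine isCoprime_of_prime_dvd (fun h' => hM0 h'.2) (fun p hp h5 h6 => ?_)
    exact hp.not_isUnit (hb.2.isUnit_of_dvd' h5 (hrad p hp h6))
  have hφ0 : ∀ c, IsPrim c → ¬ Sm M c → dph m φ c = 0 := fun c hc hn =>
    dph_zero hφ (fun h => hn ((hSm c hc).mpr h))
  have h1 := Rep.sum (M := M) (M' := M') (j := l) (l' := -l) (Finset.univ : Finset ι)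
    (F := fun i V u Q τ => K i u * Cgt (dph m φ) (d i * u) (F1.rc (R i V τ Q) (r i * toC u)))
    (fun i _ => Rep.fmul' hM0 h3 hcop (rep_cell hM0 h3 hcop hφ0
      (fun c hc => sm3_cop (hd i) hc.1)
      ((uni_dph hm hφ (hmM.trans hMM)).mul' (uni_sy_S (h9.trans hMM) (hd i))) (hR i) (hr i)) (hK i))
  have h2 : Rep M M' l (-l) (fun V u Q τ =>
      N3 M (End699.tw ψ l) u (fun y => (y : ℂ) ^ (I * τ) * V y) Q) := by
    refine h1.congr fun V hV u hu Q hQ τ => ?_
    rw [← left_N3 hψ hV τ hQ u]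
    exact hFE V hV τ Q hQ u hu
  obtain ⟨κι, iκ, κ, η, ψ2, ρ, a1, a2, a3, a4⟩ := h2
  refine ⟨κι, iκ, ⟨M', κ, η, ψ2, l, -l, ρ⟩, ?_, a4⟩
  exact
    { ne := hM0
      dvd := hMM
      rad := hrad
      η := a1
      ψ' := a2
      ρ := a3 }

end Crest.Agent.R017.CD47
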