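import Crest.Agent.R017.CD5_47

/-!
# Row 17, twisted cubic functional equation (C.F1tw), the low case, from the explicit identity
(helper47)

* `Low M m φ ψ a b` : the decomposition data of `CD1_47`
* `rep_kcell` : one cell with a coefficient periodic in `u`
* `even_hasFE3`, `odd_hasFE3` : from 541's explicit functional equations
-/

set_option autoImplicit false

noncomputable section

open MeasureTheory Complex Set Filter
open scoped ComplexConjugate SchwartzMap ContDiff Topology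

namespace Crest.Agent.R017.CD47

open Crest.Agent.R012 Crest.Agent.R012.Eis Crest.Agent.R012.Gauss880 Crest.Agent.R017.Loc266
open Crest.Agent.R012.Mob705
open Crest.Agent.R012.Parseval499 (frq s3 toC_s3_ne)
open Crest.Agent.R017.Sx545 Crest.Agent.R017.B770
open Crest.Agent.R017.A590 Crest.Agent.R017.C590
open Crest.Agent.R017.Xn590 Crest.Agent.R017.Wt92 Crest.Agent.R017.EndA92
open Crest.Agent.R017.End699 (HC)
open Crest.Agent.R017.E2440 (NT DS)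

variable {M m : Eis} {ψ φ : Eis → ℂ} {l : ℤ} {a b : ℕ}

/-- the decomposition data -/
structure Low (M m : Eis) (ψ φ : Eis → ℂ) (a b : ℕ) : Prop where
  nine : (9 : Eis) ∣ M
  hc : HC M ψ
  mp : IsPrim m
  ch : IsCh m φ
  prp : Prp m (fun z => φ z ^ 3)
  dvd : m ∣ M
  sm : ∀ c, IsPrim c → (Sm M c ↔ IsCoprime c m)
  b2 : b ≤ 2
  eq : ∀ c, Sm M c → ψ c = φ c * sy (lm a b) c

theorem Dc.exists_low {M0 : Eis} {k : ℕ} (H : Dc M M0 k ψ) (hP : Pure3 M ψ) :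
    ∃ (m : Eis) (φ : Eis → ℂ) (a b : ℕ), Low M m ψ φ a b ∧ ph0 M M0 ψ (-1) = φ (-1) := by
  obtain ⟨m, φ, a, b, hm, hch, hprp, hmM, hpr, -, hb, he⟩ := H.exists_dec hP
  refine ⟨m, φ, a, b, ⟨H.nine, H.hc, hm, hch, hprp, hmM.trans H.M0_dvd, fun c hc => ?_, hb, he⟩, ?_⟩
  · rw [H.sm_iff]
    constructor
    · exact fun h => IsCoprime.of_isCoprime_of_dvd_right h.2 hmM
    · refine fun h => ⟨hc, isCoprime_of_prime_dvd (fun h0 => H.M0_ne h0.2) (fun p hp h1 h2 => ?_)⟩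
      exact hp.not_isUnit (h.isUnit_of_dvd' h1 ((hpr p hp).mpr h2))
  · obtain ⟨c, hc, h1, h2⟩ := H.exists_c (x := -1) isCoprime_one_left.neg_left
    have h4 : sy (lm a b) c = 1 := by
      rw [(l9_lm M a b).per c 1 hc (Sm.one M) h2, (l9_lm M a b).one]
    rw [H.ph0_eq hc h1 h2, he c hc, h4, mul_one]
    exact hch.per.congr (hmM.trans h1)

namespace Low

variable (H : Low M m ψ φ a b)
include H

lemma M_ne : M ≠ 0 := H.hc.q0

lemma M'_ne : 81 * M ≠ 0 := mul_ne_zero (by decide) H.M_ne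

lemma rad (p : Eis) (hp : Prime p) (h : p ∣ 81 * M) : p ∣ M := by
  rcases hp.dvd_or_dvd h with h1 | h1
  · have h2 : (81 : Eis) = 9 ^ 2 := by norm_num
    rw [h2] at h1
    exact (hp.dvd_of_dvd_pow h1).trans H.nine
  · exact h1

lemma cop (c : Eis) (hc : Sm M c) : IsCoprime c (81 * M) := by
  refine isCoprime_of_prime_dvd (fun h' => H.M'_ne h'.2) (fun p hp h5 h6 => ?_)
  exact hp.not_isUnit (hc.2.isUnit_of_dvd' h5 (H.rad p hp h6))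

omit H in
lemma three : (3 : Eis) ∣ 81 * M := (Dvd.dvd.trans ⟨27, by norm_num⟩ (dvd_mul_right 81 M))

lemma mM' : m ∣ 81 * M := H.dvd.mul_left _

lemma phi0 (c : Eis) (hc : IsPrim c) (hn : ¬ Sm M c) : φ c = 0 :=
  H.ch.zero c (fun h => hn ((H.sm c hc).mpr h))

/-- one cell with a coefficient -/
theorem rep_kcell {R : (ℝ → ℂ) → ℝ → ℝ → ℂ → ℂ} (hR : RW l R) {d : Eis} (hd : d ∈ FE47.SM 3)
    {t : ℂ} (ht : t ≠ 0) {K : Eis → ℂ}
    (hK : ∀ u v, Sm M u → Sm M v → 81 * M ∣ u - v → K u = K v) :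
    Rep M (81 * M) l (-l) (fun V u Q τ =>
      K u * Cgt (dph m φ) (d * u) (F1.rc (R V τ Q) (t * toC u))) :=
  Rep.fmul' H.M'_ne Low.three H.cop (rep_cell H.M'_ne Low.three H.cop
    (fun _ hc hn => dph_zero H.ch (fun h => hn ((H.sm _ hc).mpr h)))
    (fun _ hc => sm3_cop hd hc.1)
    ((uni_dph H.mp H.ch H.mM').mul' (uni_sy_S (H.nine.mul_left 81) hd)) hR ht) hK

/-- the end -/
theorem fin (h : Rep M (81 * M) l (-l) (fun V u Q τ => LPr φ (lm a b * u) (fT V l τ Q))) :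
    HasFE3 M ψ l := by
  have h2 : Rep M (81 * M) l (-l) (fun V u Q τ =>
      N3 M (End699.tw ψ l) u (fun y => (y : ℂ) ^ (I * τ) * V y) Q) := by
    refine h.congr fun V hV u hu Q hQ τ => ?_
    rw [← left_N3 H.hc hV τ hQ u, lraw_low H.phi0 H.eq]
  obtain ⟨κι, iκ, κ, η, ψ2, ρ, a1, a2, a3, a4⟩ := h2
  refine ⟨κι, iκ, ⟨81 * M, κ, η, ψ2, l, -l, ρ⟩, ?_, a4⟩
  exact
    { ne := H.M'_ne
      dvd := dvd_mul_left _ _
      rad := H.rad
      η := a1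
      ψ' := a2
      ρ := a3 }

/-! periodic coefficients -/

lemma kphi {u v : Eis} (h : 81 * M ∣ u - v) : φ (lm a b * u) = φ (lm a b * v) := by
  refine H.ch.per.congr ?_
  rw [← mul_sub]
  exact (H.mM'.trans h).mul_left _

lemma ksy {u v : Eis} (h : 81 * M ∣ u - v) : sy (lm a b * u) m = sy (lm a b * v) m := by
  refine Sym645.sy_congr (Sym645.prim_nm_mod H.mp) ?_
  rw [← mul_sub]
  exact (H.mM'.trans h).mul_left _

omit H in
lemma kth {u v : Eis} (h : 81 * M ∣ u - v) :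
    eC (frq 3 (lm a b * u)) = eC (frq 3 (lm a b * v)) := by
  refine eC_frq_congr ?_
  have h1 : 3 * s3 ∣ (81 : Eis) := ⟨-(9 * s3), by decide⟩
  rw [← mul_sub]
  exact (((h1.mul_right M).trans h)).mul_left _

omit H in
lemma frq_neg' (ν : Eis) : -frq 3 ν = frq 3 (-ν) := by
  unfold frq
  rw [map_neg, neg_div]

omit H in
lemma kth' {u v : Eis} (h : 81 * M ∣ u - v) :
    eC (-frq 3 (lm a b * u)) = eC (-frq 3 (lm a b * v)) := by
  rw [frq_neg', frq_neg']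
  refine eC_frq_congr ?_
  have h1 : 3 * s3 ∣ (81 : Eis) := ⟨-(9 * s3), by decide⟩
  have e : -(lm a b * u) - -(lm a b * v) = -(lm a b) * (u - v) := by ring
  rw [e]
  exact (((h1.mul_right M).trans h)).mul_left _

lemma klam {δ : Eis} (hδ : δ ∈ F1.Dl (lm a b)) {u v : Eis} (h : 81 * M ∣ u - v) :
    F1.Lam δ (lm a b * u) = F1.Lam δ (lm a b * v) := by
  obtain ⟨h1, -, h3⟩ := (F1.mem_Dl (lm_ne a b)).mp hδ
  refine Lam_congr h1.1 ?_
  rw [← mul_sub]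
  exact ((((dl_dvd H.b2 h3).mul_right M).trans h)).mul_left _

lemma mC : toC m ≠ 0 := Po581.toC_ne_zero H.mp.ne_zero

end Low

/-! ### from an explicit identity -/

/-- the general shape of 541's identities -/
def GenId (m : Eis) (φ ξ : Eis → ℂ) (s A1 A2 A3 A4 K0 : ℂ) (G1 G2 : (ℂ → ℂ) → ℂ → ℂ) : Prop :=
  ∀ f, DatN 3 s ξ f → ∀ ν, ν ≠ 0 → IsCoprime ν m →
    LPr φ ν f = K0 * φ ν * sy ν m * (A1 * Cgt (dph m φ) ν (F1.rc (G1 f) (toC ν / toC m)) +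
      (A2 * eC (frq 3 ν) + A3 * eC (-frq 3 ν)) *
        Cgt (dph m φ) ν (F1.rc (G2 f) (toC ν / toC m)) +
      A4 * ∑ δ ∈ F1.Dl ν, F1.Lam δ ν * (nm δ : ℂ)⁻¹ * dph m φ δ *
        Cgt (dph m φ) (δ * ν) (F1.rc (G2 f) (toC ν / (toC m * toC δ))))

section

variable {ξ : Eis → ℂ} {κ c : ℂ} {Vc : ℝ} {h0 B y K0 A1 A2 A3 A4 s : ℂ}
  {G1 G2 : (ℂ → ℂ) → ℂ → ℂ}

theorem Low.gen (H : Low M m ψ φ a b) (hl : ξ 0 = 0 ∨ l ≠ 0) (hs : s = (-1) ^ l)
    (hE : GenId m φ ξ s A1 A2 A3 A4 K0 G1 G2) (hG1 : RW l (fun V τ Q => G1 (fT V l τ Q)))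
    (hG2 : RW l (fun V τ Q => G2 (fT V l τ Q))) : HasFE3 M ψ l := by
  classical
  refine H.fin ?_
  have hmC := H.mC
  have hL : toC (lm a b) ≠ 0 := Po581.toC_ne_zero (lm_ne a b)
  have R1 := H.rep_kcell hG1 (lm_mem a b) (t := toC (lm a b) / toC m)
    (div_ne_zero hL hmC) (K := fun u => K0 * φ (lm a b * u) * sy (lm a b * u) m * A1)
    (fun u v _ _ h => by rw [H.kphi h, H.ksy h])
  have R2 := H.rep_kcell hG2 (lm_mem a b)
    (t := toC (lm a b) / toC m) (div_ne_zero hL hmC)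
    (K := fun u => K0 * φ (lm a b * u) * sy (lm a b * u) m *
      (A2 * eC (frq 3 (lm a b * u)) + A3 * eC (-frq 3 (lm a b * u))))
    (fun u v _ _ h => by rw [H.kphi h, H.ksy h, Low.kth h, Low.kth' h])
  have R3 := Rep.sum (F1.Dl (lm a b)) (fun δ hδ => by
    obtain ⟨h1, -, h3⟩ := (F1.mem_Dl (lm_ne a b)).mp hδ
    have hδC : toC δ ≠ 0 := Po581.toC_ne_zero h1.1
    exact H.rep_kcell hG2 (sm3_mul h1 (lm_mem a b))
      (t := toC (lm a b) / (toC m * toC δ)) (div_ne_zero hL (mul_ne_zero hmC hδC))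
      (K := fun u => K0 * φ (lm a b * u) * sy (lm a b * u) m *
        (A4 * (F1.Lam δ (lm a b * u) * (nm δ : ℂ)⁻¹ * dph m φ δ)))
      (fun u v _ _ h => by rw [H.kphi h, H.ksy h, H.klam hδ h]))
  refine ((R1.add R2).add R3).congr fun V hV u hu Q hQ τ => ?_
  have hν0 : lm a b * u ≠ 0 := mul_ne_zero (lm_ne a b) hu.1.ne_zero
  have hνm : IsCoprime (lm a b * u) m :=
    (lm_cop H.mp).mul_left ((H.sm u hu.1).mp hu)
  rw [hE _ (hs ▸ fT_dat (vd_sw hV) hl τ hQ) _ hν0 hνm, Dl_lm (lm_ne a b) hu.1]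
  have e1 : toC (lm a b * u) / toC m = toC (lm a b) / toC m * toC u := by
    rw [map_mul]; ring
  have e2 : ∀ δ : Eis, toC (lm a b * u) / (toC m * toC δ) =
      toC (lm a b) / (toC m * toC δ) * toC u := by
    intro δ; rw [map_mul]; ring
  have e3 : ∀ δ : Eis, δ * (lm a b * u) = δ * lm a b * u := fun δ => by ring
  simp only [e1, e2, e3]
  rw [mul_add, mul_add, Finset.mul_sum, Finset.mul_sum]
  congr 1
  · congr 1
    · ring
    · ring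
  · refine Finset.sum_congr rfl fun δ _ => ?_
    ring

/-! ### the two cases -/

/-- `g(z) = (ρ(z/(3√-3)) - y ρ(-z))/3` -/
def gE (y : ℂ) (ρ : ℂ → ℂ) (z : ℂ) : ℂ := (1 / 3 : ℂ) * (ρ (z / (3 * toC s3)) - y * ρ (-z))

/-- 541's even identity -/
def EvenId (m : Eis) (φ ξ : Eis → ℂ) (Vc : ℝ) (h0 B s y K0 : ℂ) : Prop :=
  GenId m φ ξ s (2 * y / 3) 1 1 1 K0 (fun f z => fOn 3 ξ Vc h0 B f (-z))
    (fun f => gE y (fOn 3 ξ Vc h0 B f))

/-- 541's odd identity -/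
def OddId (m : Eis) (φ ξ : Eis → ℂ) (Vc : ℝ) (h0 B s A2 A3 A4 K0 : ℂ) : Prop :=
  GenId m φ ξ s 0 A2 A3 A4 K0 (fun f => fOn 3 ξ Vc h0 B f)
    (fun f z => fOn 3 ξ Vc h0 B f (z / (3 * toC s3)))

lemma rw_neg (hξ : XiP ξ κ c) (hh0 : h0 ≠ 0) (hl : ξ 0 = 0 ∨ l ≠ 0) :
    RW l (fun V τ Q z => fOn 3 ξ Vc h0 B (fT V l τ Q) (-z)) := by
  have h1 := (rw_fOn (Vc := Vc) (B := B) (l := l) hξ hh0 hl).dil (b := -1) (by norm_num)
  have e : (fun (V : ℝ → ℂ) (τ Q : ℝ) (z : ℂ) => fOn 3 ξ Vc h0 B (fT V l τ Q) (-z)) =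
      fun V τ Q z => fOn 3 ξ Vc h0 B (fT V l τ Q) (-1 * z) := by
    funext V τ Q z
    rw [neg_one_mul]
  rw [e]
  exact h1

lemma rw_s3 (hξ : XiP ξ κ c) (hh0 : h0 ≠ 0) (hl : ξ 0 = 0 ∨ l ≠ 0) :
    RW l (fun V τ Q z => fOn 3 ξ Vc h0 B (fT V l τ Q) (z / (3 * toC s3))) := by
  have hs : (3 * toC s3 : ℂ)⁻¹ ≠ 0 := inv_ne_zero (mul_ne_zero (by norm_num) toC_s3_ne)
  have h1 := (rw_fOn (Vc := Vc) (B := B) (l := l) hξ hh0 hl).dil hs
  have e : (fun (V : ℝ → ℂ) (τ Q : ℝ) (z : ℂ) =>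
      fOn 3 ξ Vc h0 B (fT V l τ Q) (z / (3 * toC s3))) =
      fun V τ Q z => fOn 3 ξ Vc h0 B (fT V l τ Q) ((3 * toC s3)⁻¹ * z) := by
    funext V τ Q z
    rw [div_eq_inv_mul z]
  rw [e]
  exact h1

lemma rw_gE (hξ : XiP ξ κ c) (hh0 : h0 ≠ 0) (hl : ξ 0 = 0 ∨ l ≠ 0) (y : ℂ) :
    RW l (fun V τ Q z => gE y (fOn 3 ξ Vc h0 B (fT V l τ Q)) z) := by
  have h1 := ((rw_s3 (Vc := Vc) (B := B) hξ hh0 hl).add
    ((rw_neg (Vc := Vc) (B := B) hξ hh0 hl).cmul (-y))).cmul (1 / 3)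
  have e : (fun (V : ℝ → ℂ) (τ Q : ℝ) (z : ℂ) => gE y (fOn 3 ξ Vc h0 B (fT V l τ Q)) z) =
      fun V τ Q z => (1 / 3 : ℂ) * (fOn 3 ξ Vc h0 B (fT V l τ Q) (z / (3 * toC s3)) +
        -y * fOn 3 ξ Vc h0 B (fT V l τ Q) (-z)) := by
    funext V τ Q z
    unfold gE
    ring
  rw [e]
  exact h1

theorem Low.even (H : Low M m ψ φ a b) (hξ : XiP ξ κ c) (hh0 : h0 ≠ 0) (hl : ξ 0 = 0 ∨ l ≠ 0)
    (hs : s = (-1) ^ l) (hE : EvenId m φ ξ Vc h0 B s y K0) : HasFE3 M ψ l :=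
  H.gen hl hs hE (rw_neg hξ hh0 hl) (rw_gE hξ hh0 hl y)

theorem Low.odd (H : Low M m ψ φ a b) (hξ : XiP ξ κ c) (hh0 : h0 ≠ 0) (hl : ξ 0 = 0 ∨ l ≠ 0)
    (hs : s = (-1) ^ l) (hE : OddId m φ ξ Vc h0 B s A2 A3 A4 K0) : HasFE3 M ψ l :=
  H.gen hl hs hE (rw_fOn hξ hh0 hl) (rw_s3 hξ hh0 hl)

end

end Crest.Agent.R017.CD47
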