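import Crest.Agent.R017.AS8t_960

/-!
# Row 17: a character of order dividing `3` at `p` is a power of `sy · p` (helper960)

* `exists_theta3`
-/

set_option autoImplicit false

noncomputable section

open Complex
open scoped ComplexConjugate

namespace Crest.Agent.R017.A590

open Crest.Agent.R012 Crest.Agent.R012.Eis Crest.Agent.R012.Mob705 Crest.Agent.R012.Gauss880
open Crest.Agent.R017.End699 Crest.Agent.R017.Sx440 Crest.Agent.R017.Sx545 Crest.Agent.R017.B770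
open Crest.Agent.R017.QS411

section th3_960

variable {M M₁ p : Eis} {v : ℕ} {ψ : Eis → ℂ}

lemma th3_sm (hp : Prime p) (h3 : (3 : Eis) ∣ M₁) (hM : M = p ^ v * M₁) {b : Eis}
    (hb : M₁ ∣ b - 1) (hpb : ¬ p ∣ b) : Sm M b := by
  refine ⟨h3.trans hb, ?_⟩
  rw [hM]
  exact (isCoprime_of_not_dvd hp hpb).pow_right.mul_right (th_copM1 hb)

lemma nm_coprime_three (hsp : Sm M₁ p) : Nat.Coprime (nm p) 3 := by
  have h3 : nm p % 3 = 1 := nm_mod_three_of_not_dvd hsp.not_lam_dvd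
  rw [Nat.coprime_comm]
  refine (Nat.Prime.coprime_iff_not_dvd (by norm_num)).mpr ?_
  omega

lemma th3_one (hp : Prime p) (hsp : Sm M₁ p) (h3 : (3 : Eis) ∣ M₁) (hM : M = p ^ v * M₁)
    (h : Uni M ψ)
    (hc : ∀ b, IsPrim b → M₁ ∣ b - 1 → ¬ p ∣ b → ψ b ^ 3 = 1) {b : Eis}
    (hb : M₁ ∣ b - 1) (hpb : p ∣ b - 1) : ψ b = 1 := by
  have hnb : ¬ p ∣ b := by
    intro h1
    have h2 := dvd_sub h1 hpb
    rw [sub_sub_cancel] at h2
    exact hp.not_isUnit (isUnit_of_dvd_one h2)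
  have hsm := th3_sm (v := v) hp h3 hM hb hnb
  have hq : p ∣ ((nm p : ℕ) : Eis) := ⟨Eis.conj p, (Eis.mul_conj p).symm⟩
  have h1 : M ∣ b ^ (nm p ^ v) - 1 := by
    rw [hM]
    refine IsCoprime.mul_dvd hsp.2.pow_left ?_ ?_
    · exact (pow_dvd_pow p (Nat.le_succ v)).trans (th_iter hq hpb v)
    · exact hb.trans (by simpa using sub_dvd_pow_sub_pow b 1 (nm p ^ v))
  have h2 : ψ b ^ (nm p ^ v) = 1 := by
    rw [← h.pow_arg hsm, h.per _ 1 (hsm.pow _) (Sm.one M) h1, h.one]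
  have h4 := hc b (h3.trans hb) hb hnb
  have h5 : Nat.Coprime (nm p ^ v) 3 := (nm_coprime_three hsp).pow_left v
  have h6 : orderOf (ψ b) ∣ 1 := by
    rw [← h5]
    exact Nat.dvd_gcd (orderOf_dvd_of_pow_eq_one h2) (orderOf_dvd_of_pow_eq_one h4)
  exact orderOf_eq_one_iff.mp (Nat.dvd_one.mp h6)

/-- **a character of order dividing `3` at `p`** (`p = -2` allowed) -/
theorem exists_theta3 (hp : Prime p) (hsp : Sm M₁ p)
    (h3 : (3 : Eis) ∣ M₁) (hM : M = p ^ v * M₁) (_hv : v ≠ 0) (h : Uni M ψ)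
    (hc : ∀ b, IsPrim b → M₁ ∣ b - 1 → ¬ p ∣ b → ψ b ^ 3 = 1) :
    ∃ i ≤ 2, ∀ b, IsPrim b → M₁ ∣ b - 1 → ¬ p ∣ b → ψ b = sy b p ^ i := by
  obtain ⟨g, hg1, hg2, hg⟩ := th_gen hp hsp
  have hsp2 : Sm 1 p := hsp.mono (one_dvd _)
  set ζ := sy g p with hζ
  have hpow : ∀ (x : Eis) (k : ℕ), sy (x ^ k) p = sy x p ^ k := by
    intro x k
    induction k with
    | zero => simp [res_sy.one_left hsp2]
    | succ k ih => rw [pow_succ, res_sy.mul_left _ _ p hsp2, ih, pow_succ]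
  have key : ∀ b : Eis, ¬ p ∣ b → ∀ k : ℕ, p ∣ b * g ^ k - 1 → sy b p * ζ ^ k = 1 := by
    intro b hb k hk
    have h3 := res_sy.congr _ _ p hsp2 hk
    rw [res_sy.one_left hsp2, res_sy.mul_left _ _ p hsp2, hpow] at h3
    exact h3
  have hord : ∀ j : ℕ, ζ ^ j = 1 → 3 ∣ j := by
    intro j hj
    refine res_sy.order p hsp2 hp j fun x hx => ?_
    obtain ⟨k, hk⟩ := hg x (not_dvd_of_isCoprime hp hx)
    have h3 := key x (not_dvd_of_isCoprime hp hx) k hk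
    have h4 : (sy x p * ζ ^ k) ^ j = 1 := by rw [h3, one_pow]
    rw [mul_pow, ← pow_mul, mul_comm k j, pow_mul, hj, one_pow, mul_one] at h4
    exact h4
  have hcop : IsCoprime g p := isCoprime_of_not_dvd hp hg2
  have hζ3 : ζ ^ 3 = 1 := res_sy.pow_eq g p hsp2 hcop
  have hprim : IsPrimitiveRoot ζ 3 := ⟨hζ3, hord⟩
  have hgp : IsPrim g := h3.trans hg1
  obtain ⟨i, hi, hi2⟩ := hprim.eq_pow_of_pow_eq_one (hc g hgp hg1 hg2)
  refine ⟨i, by omega, fun b hb hb1 hpb => ?_⟩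
  obtain ⟨k, hk⟩ := hg b hpb
  have h4 := key b hpb k hk
  have hsb := th3_sm (v := v) hp h3 hM hb1 hpb
  have hsg := th3_sm (v := v) hp h3 hM hg1 hg2
  have hM1 : M₁ ∣ b * g ^ k - 1 := by
    have h4 : M₁ ∣ g ^ k - 1 := hg1.trans (by simpa using sub_dvd_pow_sub_pow g 1 k)
    obtain ⟨t, ht⟩ := h4
    obtain ⟨r, hr⟩ := hb1
    exact ⟨r * g ^ k + t, by linear_combination hr * g ^ k + ht⟩
  have h5 := th3_one hp hsp h3 hM h hc hM1 hk
  rw [h.mul _ _ hsb (hsg.pow k), h.pow_arg hsg, ← hi2] at h5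
  have hz0 : ζ ≠ 0 := hprim.ne_zero (by norm_num)
  have h6 : (sy b p * ζ ^ k) ^ i = 1 := by rw [h4, one_pow]
  have h6' : sy b p ^ i * (ζ ^ i) ^ k = 1 := by
    rw [← h6]; ring
  have h7 : (ζ ^ i) ^ k ≠ 0 := pow_ne_zero _ (pow_ne_zero _ hz0)
  exact mul_right_cancel₀ h7 (h5.trans h6'.symm)

end th3_960

end Crest.Agent.R017.A590
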