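import Crest.Agent.R017.CT3_590
import Crest.Agent.R017.CT3t_960

/-!
# Row 17, C.F1tw: cubic functional equations for all characters from `StepPure3` (helper590)
-/

set_option autoImplicit false

namespace Crest.Agent.R017.C590

open Crest.Agent.R012 Crest.Agent.R012.Eis Crest.Agent.R017.Sx545 Crest.Agent.R017.B770
open Crest.Agent.R017.End699

theorem thetaP3 : ThetaP3 := fun hp hsp h3 hM hv _ h hc => A590.exists_theta3 hp hsp h3 hM hv h hc

/-- **C.F1tw from pure characters** -/
theorem f1tw (H : StepPure3) {M : Eis} (h9 : (9 : Eis) ∣ M) {ψ : Eis → ℂ}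
    (hψ : HC M ψ) {l : ℤ} (hl : NoPole M ψ l) : HasFE3 M ψ l := hasFE3 thetaP3 H h9 hψ hl

end Crest.Agent.R017.C590
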