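import Crest.Agent.R017.CD6_47
import Crest.Agent.R017.CT4_590

/-!
# Row 17, twisted cubic functional equation (C.F1tw): `StepPure3` from its three cases (helper47)

* `EvenAll` (541), `OddAll` (541 / 266), `NotLowAll` (681)
* `stepPure3_of : NotLowAll → EvenAll → OddAll → StepPure3`
* `f1tw_of` : the functional equations for all characters
-/

set_option autoImplicit false

noncomputable section

open Complex
open scoped ComplexConjugate

namespace Crest.Agent.R017.CD47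

open Crest.Agent.R012 Crest.Agent.R012.Eis Crest.Agent.R012.Gauss880 Crest.Agent.R017.Loc266
open Crest.Agent.R017.Sx545 Crest.Agent.R017.B770
open Crest.Agent.R017.A590 Crest.Agent.R017.C590 Crest.Agent.R017.Xn590
open Crest.Agent.R017.End699 (HC)
open Crest.Agent.R017.Tw3 (TwD)

variable {M m : Eis} {ψ φ : Eis → ℂ} {l : ℤ} {a b : ℕ}

/-- the even case (541) -/
def EvenAll : Prop := ∀ (m : Eis) (φ : Eis → ℂ), IsPrim m → TwD m φ →
  ∃ (Vc : ℝ) (h0 B y K0 κ c : ℂ), XiP (fun z => φ z ^ 3) κ c ∧ h0 ≠ 0 ∧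
    EvenId m φ (fun z => φ z ^ 3) Vc h0 B (φ (-1)) y K0

/-- the odd case (541 / 266) -/
def OddAll : Prop := ∀ (m : Eis) (φ : Eis → ℂ), IsPrim m → TwD m φ →
  ∃ (ξ : Eis → ℂ) (Vc : ℝ) (h0 B A2 A3 A4 K0 κ c : ℂ), XiP ξ κ c ∧ h0 ≠ 0 ∧ ξ 0 = 0 ∧
    OddId m φ ξ Vc h0 B (-φ (-1)) A2 A3 A4 K0

/-- the case of a character which is not low (681) -/
def NotLowAll : Prop := ∀ (M M0 : Eis) (k : ℕ) (ψ : Eis → ℂ), (9 : Eis) ∣ M → HC M ψ →
  Pure3 M ψ → M = lam ^ k * M0 → ¬ lam ∣ M0 →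
  (∃ c, IsPrim c ∧ 9 * M0 ∣ c - 1 ∧ ψ c ≠ 1) → ∀ l : ℤ, NoPole M ψ l → HasFE3 M ψ l

lemma Low.twD (H : Low M m ψ φ a b) : TwD m φ := ⟨H.mp.ne_zero, H.mp.not_lam_dvd, H.ch, H.prp⟩

lemma Low.pole (H : Low M m ψ φ a b) (hl : NoPole M ψ l) : φ 0 ^ 3 = 0 ∨ l ≠ 0 := by
  rcases hl with h | ⟨c, hc, h⟩
  · exact Or.inr h
  · left
    have h1 : ¬ IsCoprime (0 : Eis) m := by
      intro h2
      have hu : IsUnit m := isCoprime_zero_left.mp h2
      apply h
      have h3 : φ c = 1 := by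
        have : m ∣ c - 1 := hu.dvd
        rw [H.ch.per.congr this, H.ch.one]
      rw [H.eq c hc, h3, one_mul]
      exact Sym645.sy_cube (Sym645.prim_nm_mod hc.1) (lm_cop hc.1)
    rw [H.ch.zero 0 h1]; norm_num

theorem low_hasFE3 (hE : EvenAll) (hO : OddAll) (H : Low M m ψ φ a b) (hl : NoPole M ψ l) :
    HasFE3 M ψ l := by
  have T := H.twD
  have hs : (-1 : ℂ) ^ l = 1 ∨ (-1 : ℂ) ^ l = -1 := by
    rcases Int.even_or_odd l with h | h
    · left; exact h.neg_one_zpow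
    · right; exact h.neg_one_zpow
  have hp : φ (-1) = 1 ∨ φ (-1) = -1 := by
    have h1 : φ (-1) * φ (-1) = 1 := by rw [← T.ch.mul, neg_one_mul, neg_neg, T.ch.one]
    have h2 : (φ (-1) - 1) * (φ (-1) + 1) = 0 := by linear_combination h1
    rcases mul_eq_zero.mp h2 with h | h
    · left; exact sub_eq_zero.mp h
    · right; exact eq_neg_of_add_eq_zero_left h
  by_cases h : φ (-1) = (-1) ^ l
  · obtain ⟨Vc, h0, B, y, K0, κ, c, h1, h2, h3⟩ := hE m φ H.mp T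
    exact H.even h1 h2 (H.pole hl) h h3
  · have h' : -φ (-1) = (-1) ^ l := by
      rcases hs with h1 | h1 <;> rcases hp with h2 | h2
      · exact absurd (h2.trans h1.symm) h
      · rw [h1, h2, neg_neg]
      · rw [h1, h2]
      · exact absurd (h2.trans h1.symm) h
    obtain ⟨ξ, Vc, h0, B, A2, A3, A4, K0, κ, c, h1, h2, h4, h3⟩ := hO m φ H.mp T
    exact H.odd h1 h2 (Or.inl h4) h' h3

/-- **`StepPure3` from the three cases** -/
theorem stepPure3_of (hN : NotLowAll) (hE : EvenAll) (hO : OddAll) : StepPure3 := by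
  intro M h9 ψ hψ hP l hl
  obtain ⟨M0, hM, hn⟩ := (FiniteMultiplicity.of_prime_left prime_lam
    hψ.q0).exists_eq_pow_mul_and_not_dvd
  by_cases hlow : ∀ c, IsPrim c → 9 * M0 ∣ c - 1 → ψ c = 1
  · have D : Dc M M0 (multiplicity lam M) ψ := ⟨h9, hψ, hM, hn, hlow⟩
    obtain ⟨m, φ, a, b, H, -⟩ := D.exists_low hP
    exact low_hasFE3 hE hO H hl
  · push Not at hlow
    obtain ⟨c, h1, h2, h3⟩ := hlow
    exact hN M M0 _ ψ h9 hψ hP hM hn ⟨c, h1, h2, h3⟩ l hl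

/-- **C.F1tw** from the three cases -/
theorem f1tw_of (hN : NotLowAll) (hE : EvenAll) (hO : OddAll) {M : Eis} (h9 : (9 : Eis) ∣ M)
    {ψ : Eis → ℂ} (hψ : HC M ψ) {l : ℤ} (hl : NoPole M ψ l) : HasFE3 M ψ l :=
  f1tw (stepPure3_of hN hE hO) h9 hψ hl

end Crest.Agent.R017.CD47
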