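import Crest.Agent.R017.I1p_146
import Crest.Agent.R017.P1t_54
import Crest.Agent.R017.FNEb_708

/-!
# Row 17, R8 (E3): the T-claims for all blocks of `e` (helper146)

* `ShT` : the adapted T-numbers (flat with the own family, `C + TF` with the smallest lump)
* `lipS_ShT`, `min_le_ShT`, `ShT_le`
* **`cellT`** : `CellS` for all blocks in helper708's frame `PD`
-/

set_option autoImplicit false
set_option linter.unusedSectionVars false

noncomputable section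

open Set Finset

namespace Crest.Agent.R017.E3N146

open Crest.Agent.R012 Crest.Agent.R012.Eis
open Crest.Agent.R017.FE47 (PU cx)
open Crest.Agent.R017.CM106
open Crest.Agent.R017.Prov71
open Crest.Agent.R017.B770
open Crest.Agent.R017.ER911
open Crest.Agent.R017.HP842 (Pc pc)
open Crest.Agent.R017.I1146 (ChN LN cN SN CellS LipS)
open Crest.Agent.R017.TM708 (T5 K5 eF eH FE2L PD R5 L5 L5_nonneg tAll tCT tCT3 tCT_le tAll_le_CT3)

/-- **the T-numbers** : family `k5 + b/2`, share `x`, smallest lump `um`, parent length `p` -/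
def ShT (k5 x um p γ b v : ℝ) : ℝ :=
  min (eH (k5 + b / 2) (v + b) (p - γ - b))
    (max ((v + b) + (p - γ - b) + min (um + x) ((p - γ - b) / 3 + 2 / 3 * x))
      (5 / 3 * (p - γ - b) + (v + b) / 3))

lemma lipS_ShT (k5 x um p : ℝ) : LipS 3 (ShT k5 x um p) := by
  intro γ b v b' v'
  unfold ShT eH eF
  have h1 := le_abs_self (b - b')
  have h2 := le_abs_self (v - v')
  have h3 := neg_abs_le (b - b')
  have h4 := neg_abs_le (v - v')
  have h0 := abs_nonneg (b - b')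
  have h0' := abs_nonneg (v - v')
  set m := |b - b'| + |v - v'| with hm
  have a1 : max (k5 + b / 2) (3 / 2 * (v + b)) ≤
      max (k5 + b' / 2) (3 / 2 * (v' + b')) + 3 / 2 * m := by
    have e1 := le_max_left (k5 + b' / 2) (3 / 2 * (v' + b'))
    have e2 := le_max_right (k5 + b' / 2) (3 / 2 * (v' + b'))
    exact max_le (by linarith) (by linarith)
  have a2 : max (2 * (p - γ - b)) (4 / 3 * (p - γ - b) +
      (max (k5 + b / 2) (3 / 2 * (v + b)) + (v + b)) / 3) ≤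
      max (2 * (p - γ - b')) (4 / 3 * (p - γ - b') +
      (max (k5 + b' / 2) (3 / 2 * (v' + b')) + (v' + b')) / 3) + 3 * m := by
    have e1 := le_max_left (2 * (p - γ - b')) (4 / 3 * (p - γ - b') +
      (max (k5 + b' / 2) (3 / 2 * (v' + b')) + (v' + b')) / 3)
    have e2 := le_max_right (2 * (p - γ - b')) (4 / 3 * (p - γ - b') +
      (max (k5 + b' / 2) (3 / 2 * (v' + b')) + (v' + b')) / 3)
    exact max_le (by linarith) (by linarith)
  have a3 : max (max (2 * (p - γ - b)) (4 / 3 * (p - γ - b) +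
      (max (k5 + b / 2) (3 / 2 * (v + b)) + (v + b)) / 3)) ((v + b) + (p - γ - b)) ≤
      max (max (2 * (p - γ - b')) (4 / 3 * (p - γ - b') +
      (max (k5 + b' / 2) (3 / 2 * (v' + b')) + (v' + b')) / 3)) ((v' + b') + (p - γ - b')) +
        3 * m := by
    refine max_le (a2.trans (by
      have := le_max_left (max (2 * (p - γ - b')) (4 / 3 * (p - γ - b') +
        (max (k5 + b' / 2) (3 / 2 * (v' + b')) + (v' + b')) / 3)) ((v' + b') + (p - γ - b'))
      linarith)) ?_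
    have := le_max_right (max (2 * (p - γ - b')) (4 / 3 * (p - γ - b') +
        (max (k5 + b' / 2) (3 / 2 * (v' + b')) + (v' + b')) / 3)) ((v' + b') + (p - γ - b'))
    linarith
  have a4 : min (um + x) ((p - γ - b) / 3 + 2 / 3 * x) ≤
      min (um + x) ((p - γ - b') / 3 + 2 / 3 * x) + m / 3 := by
    rw [← min_add_add_right]
    exact min_le_min (by linarith) (by linarith)
  have a5 : max ((v + b) + (p - γ - b) + min (um + x) ((p - γ - b) / 3 + 2 / 3 * x))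
      (5 / 3 * (p - γ - b) + (v + b) / 3) ≤
      max ((v' + b') + (p - γ - b') + min (um + x) ((p - γ - b') / 3 + 2 / 3 * x))
      (5 / 3 * (p - γ - b') + (v' + b') / 3) + 3 * m := by
    have e1 := le_max_left ((v' + b') + (p - γ - b') +
      min (um + x) ((p - γ - b') / 3 + 2 / 3 * x)) (5 / 3 * (p - γ - b') + (v' + b') / 3)
    have e2 := le_max_right ((v' + b') + (p - γ - b') +
      min (um + x) ((p - γ - b') / 3 + 2 / 3 * x)) (5 / 3 * (p - γ - b') + (v' + b') / 3)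
    exact max_le (by linarith) (by linarith)
  rw [← min_add_add_right]
  exact min_le_min a3 a5

/-- the version with the smallest lump -/
theorem tAll_le_Cm {d v z₁ z₂ z₃ w V : ℝ} (h : ∀ C : ℝ, 0 ≤ C → C ≤ z₁ → C ≤ z₂ → C ≤ z₃ →
      v + (z₁ + z₂ + z₃ + w) + (C + w) ≤ V ∧
      5 / 3 * (z₁ + z₂ + z₃ + w) - (C + w) / 3 + v / 3 ≤ V) (h1 : 0 ≤ z₁) (h2 : 0 ≤ z₂)
    (h3 : 0 ≤ z₃) : tAll d v z₁ z₂ z₃ w ≤ V := by
  have key := tAll_le_CT3 d v z₁ z₂ z₃ w
  unfold tCT3 at key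
  have hC : ∀ A B C : ℝ, A + B + C = z₁ + z₂ + z₃ → 0 ≤ C → C ≤ z₁ → C ≤ z₂ → C ≤ z₃ →
      tCT v A B C w ≤ V := by
    intro A B C hs hC0 c1 c2 c3
    obtain ⟨g1, g2⟩ := h C hC0 c1 c2 c3
    exact tCT_le (by linarith) (by linarith)
  rcases le_total z₃ z₁ with a1 | a1
  · rcases le_total z₃ z₂ with a2 | a2
    · exact (key.trans (min_le_left _ _)).trans (hC z₁ z₂ z₃ rfl h3 a1 a2 le_rfl)
    · exact (key.trans (min_le_right _ _)).trans ((min_le_right _ _).trans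
        (hC z₃ z₁ z₂ (by ring) h2 (by linarith) le_rfl a2))
  · rcases le_total z₁ z₂ with a2 | a2
    · exact (key.trans (min_le_right _ _)).trans ((min_le_left _ _).trans
        (hC z₂ z₃ z₁ (by ring) h1 le_rfl a2 a1))
    · exact (key.trans (min_le_right _ _)).trans ((min_le_right _ _).trans
        (hC z₃ z₁ z₂ (by ring) h2 a2 le_rfl (by linarith)))

/-- helper708's numbers are at most `ShT` -/
lemma min_le_ShT {K' k5 x um θ d γ b l n p t z₁ z₂ z₃ w : ℝ} (ht : 0 ≤ t) (hθ : 0 ≤ θ)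
    (hb : 0 ≤ b) (hk5 : K' ≤ k5 + t) (hW : l + (n + w) / 2 ≤ k5 + b / 2 + 3 * θ + 10 * t)
    (hn : n ≤ p - γ - b + t) (h1 : 0 ≤ z₁) (h2 : 0 ≤ z₂) (h3 : 0 ≤ z₃) (hw0 : 0 ≤ w)
    (hw : w ≤ x + 5 * t) (hs : z₁ + z₂ + z₃ + w = n) (hu : min z₁ (min z₂ z₃) ≤ um + t) :
    min (eH (max K' (l + (n + w) / 2)) l n) (tAll d l z₁ z₂ z₃ w) ≤
      ShT k5 x um p γ b (l - b) + θ + 20 * t := by
  unfold ShT
  have e : l - b + b = l := by ring
  rw [e, add_assoc, ← min_add_add_right]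
  refine min_le_min ?_ ?_
  · unfold eH
    refine max_le ?_ ?_
    · unfold eF
      have hm := le_max_left (max (2 * (p - γ - b))
          (4 / 3 * (p - γ - b) + (max (k5 + b / 2) (3 / 2 * l) + l) / 3)) (l + (p - γ - b))
      refine max_le ?_ ?_
      · have := le_max_left (2 * (p - γ - b))
          (4 / 3 * (p - γ - b) + (max (k5 + b / 2) (3 / 2 * l) + l) / 3)
        linarith
      · have h4 := le_max_right (2 * (p - γ - b))
          (4 / 3 * (p - γ - b) + (max (k5 + b / 2) (3 / 2 * l) + l) / 3)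
        have h5 : max (max K' (l + (n + w) / 2)) (3 / 2 * l) ≤
            max (k5 + b / 2) (3 / 2 * l) + (3 * θ + 10 * t) := by
          rw [max_add]
          exact max_le_max (max_le (by linarith) (by linarith)) (by linarith)
        linarith
    · have hm := le_max_right (eF (k5 + b / 2) l (p - γ - b)) (l + (p - γ - b))
      linarith
  · refine tAll_le_Cm (fun C hC0 c1 c2 c3 => ?_) h1 h2 h3
    have hCu : C ≤ um + t := (le_min c1 (le_min c2 c3)).trans hu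
    have h4 := le_max_left (l + (p - γ - b) + min (um + x) ((p - γ - b) / 3 + 2 / 3 * x))
      (5 / 3 * (p - γ - b) + l / 3)
    have h5 := le_max_right (l + (p - γ - b) + min (um + x) ((p - γ - b) / 3 + 2 / 3 * x))
      (5 / 3 * (p - γ - b) + l / 3)
    have h6 : C + w ≤ min (um + x) ((p - γ - b) / 3 + 2 / 3 * x) + 10 * t := by
      rw [← min_add_add_right]
      exact le_min (by linarith) (by linarith)
    constructor
    · linarith
    · linarith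

/-- helper904's numbers `tL`, plus the large sieve for the very short children -/
lemma ShT_le {k5 x um p γ b l m : ℝ} (hm : min (um + x) ((p - γ - b) / 3 + 2 / 3 * x) ≤ m) :
    ShT k5 x um p γ b (l - b) ≤ max (min (max (2 * (p - γ - b)) (4 / 3 * (p - γ - b) +
      (max (k5 + b / 2) (3 / 2 * l) + l) / 3)) (max (l + (p - γ - b) + m)
        (5 / 3 * (p - γ - b) + l / 3))) (l + (p - γ - b)) := by
  unfold ShT eH eF
  have e : l - b + b = l := by ring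
  rw [e]
  set G := l + (p - γ - b) with hG
  set F := max (2 * (p - γ - b)) (4 / 3 * (p - γ - b) +
      (max (k5 + b / 2) (3 / 2 * l) + l) / 3)
  have h1 : max (G + min (um + x) ((p - γ - b) / 3 + 2 / 3 * x)) (5 / 3 * (p - γ - b) + l / 3) ≤
      max (G + m) (5 / 3 * (p - γ - b) + l / 3) := max_le_max (by linarith) le_rfl
  rcases le_total F G with h | h
  · refine (min_le_left _ _).trans ?_
    rw [max_eq_right h]
    exact le_max_right _ _
  · rw [max_eq_left h]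
    exact (min_le_min le_rfl h1).trans (le_max_left _ _)

variable {Λ : Type*} {π : Λ → DPar} {h : ℝ → ℝ} {d : ℝ} {rr : EF}

/-- the claims of the children with the own family (helper708's `cell_le`) -/
def CL5 (π : Λ → DPar) (h : ℝ → ℝ) (d : ℝ) (D5 : Set (Fin 5 → ℝ)) (ℓ : (Fin 5 → ℝ) → ℝ) (ε : ℝ) :
    Prop :=
  ∃ τ : ℝ, 0 < τ ∧ τ ≤ ε ∧ ∀ (lam : Λ) (N : ℕ) (B : ℝ), ∃ M₀ : ℕ, ∀ r : ℝ, 0 ≤ r →
      ∃ X₀ : ℝ, 1 < X₀ ∧ ∀ X : ℝ, X₀ ≤ X →
      (N + 1) * r ≤ τ * Real.log X ∧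
      ∀ b ∈ D5, ∀ (q : Eis) (us : Fin 3 → Pq) (gs : List Pq) (κ H : ℝ),
      PD X τ B H N b q us gs κ → ∀ T : ℝ, T ≤ (T5 b + τ) * Real.log X → ∀ M : ℝ, (M₀ : ℝ) ≤ M →
      ∀ g : Eis, IsPrim g → (nm g : ℝ) ≤ X ^ B → ∀ (c β l : ℝ) (ps' : List Pq), 0 ≤ c →
      c ≤ Real.log X * b 4 + τ * Real.log X → 2 * c ≤ Real.log (nm g) → 0 ≤ β → 0 ≤ l →
      List.Forall₂ (ChN r) ps' ([us 0, us 1, us 2] ++ gs) →
      |LN ps' - (LN ([us 0, us 1, us 2] ++ gs) - Real.log (nm g) - β)| ≤ r →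
      l ≤ T - 2 * Real.log (nm g) + 5 * c + β + r → ∀ V : ℝ,
      (∀ z₁ z₂ z₃ w : ℝ, 0 ≤ z₁ → 0 ≤ z₂ → 0 ≤ z₃ → 0 ≤ w →
        w ≤ Real.log X * b 4 + 4 * (τ * Real.log X) → z₁ + z₂ + z₃ + w = LN ps' →
        LN ps' ≤ Real.log X * (b 1 + b 2 + b 3) + Real.log X * b 4 - Real.log (nm g) - β +
          5 * (τ * Real.log X) →
        z₁ ≤ (us 0).z + r → z₂ ≤ (us 1).z + r → z₃ ≤ (us 2).z + r →
        min (eH (max (Real.log X * K5 b) (l + (LN ps' + w) / 2)) l (LN ps'))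
            (tAll d l z₁ z₂ z₃ w) ≤
          V + Real.log X * L5 b + 200 * (τ * Real.log X)) →
      SN (q * g) (π lam) h l ps' ≤ H ^ M₀ * X ^ (L5 b + ℓ b + ε) *
        cN ps' ([us 0, us 1, us 2] ++ gs) ^ M * Real.exp V

/-- **the T-claims for all blocks of `e`** -/
theorem cellT {D5 : Set (Fin 5 → ℝ)} (hR : ∀ b ∈ D5, R5 b) {ℓ : (Fin 5 → ℝ) → ℝ} {ε : ℝ}
    (hCL : CL5 π h d D5 ℓ ε) : ∃ τ : ℝ, 0 < τ ∧ τ ≤ ε ∧ ∀ (lam : Λ) (N : ℕ) (B : ℝ),
    ∃ M₀ : ℕ, ∀ r : ℝ, 0 ≤ r → ∃ X₀ : ℝ, 1 < X₀ ∧ ∀ X : ℝ, X₀ ≤ X → ∀ b ∈ D5, ∀ (q : Eis)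
      (us : Fin 3 → Pq) (gs : List Pq) (κ H : ℝ), PD X τ B H N b q us gs κ → ∀ T θ : ℝ, 0 ≤ θ →
      T ≤ (T5 b + τ) * Real.log X →
      T ≤ (K5 b - (b 1 + b 2 + b 3) / 2 - b 4 + 3 * θ + τ) * Real.log X →
      ∀ M : ℝ, (M₀ : ℝ) ≤ M → ∀ E k5 x um : ℝ, |k5 - K5 b * Real.log X| ≤ τ * Real.log X →
      |x - b 4 * Real.log X| ≤ τ * Real.log X →
      min (us 0).z (min (us 1).z (us 2).z) ≤ um + τ * Real.log X →
      CellS h (π lam) q ([us 0, us 1, us 2] ++ gs) (X ^ B) r M T E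
        (H ^ M₀ * X ^ (θ + ℓ b + ε)) (ShT k5 x um (LN ([us 0, us 1, us 2] ++ gs))) := by
  obtain ⟨τ, hτ, hτε, G⟩ := hCL
  refine ⟨τ, hτ, hτε, fun lam N B => ?_⟩
  obtain ⟨M₀, G⟩ := G lam N B
  refine ⟨M₀, fun r hr => ?_⟩
  obtain ⟨X₀, hX₀, G⟩ := G r hr
  refine ⟨X₀, hX₀, ?_⟩
  intro X hX b hb q us gs κ H hPD T θ hθ hT hT2 M hM E k5 x um hk5 hx hum
  obtain ⟨hNr, G⟩ := G X hX
  replace G := G b hb q us gs κ H hPD T hT M hM
  have hX1 : 1 < X := by linarith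
  set L := Real.log X with hLd
  have hL : 0 < L := Real.log_pos hX1
  have hN0 : (0 : ℝ) ≤ N := Nat.cast_nonneg N
  have hrL : r ≤ τ * L := by nlinarith
  have hRb := hR b hb
  have hx0L := mul_nonneg hL.le hRb.x0
  set ps := [us 0, us 1, us 2] ++ gs with hps
  set t := τ * L with ht
  have ht0 : 0 ≤ t := by positivity
  obtain ⟨hk1, hk2⟩ := abs_le.1 hk5
  obtain ⟨hx1, hx2⟩ := abs_le.1 hx
  have hθL : 0 ≤ θ * L := by positivity
  have hT2' : T ≤ L * K5 b - (L * b 1 + L * b 2 + L * b 3) / 2 - L * b 4 + 3 * (θ * L) + t := by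
    rw [ht]; linarith
  intro g hg hgB β l ps' hβ _ hl hch hn hlev
  have hγ : 0 ≤ Real.log (nm g : ℝ) := Real.log_nonneg (by exact_mod_cast nm_pos.2 hg.ne_zero)
  obtain ⟨hn1, hn2⟩ := abs_le.1 hn
  have key := G g hg hgB 0 β l ps' le_rfl (by linarith) (by linarith) hβ hl hch hn (by linarith)
    (ShT k5 x um (LN ps) (Real.log (nm g)) β (l - β) + θ * L - L * L5 b) (by
      intro z₁ z₂ z₃ w h1 h2 h3 hw hwx hsum hnx u1 u2 u3
      have hu : min z₁ (min z₂ z₃) ≤ um + 2 * t := by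
        have : min z₁ (min z₂ z₃) ≤ min (us 0).z (min (us 1).z (us 2).z) + r := by
          rw [← min_add_add_right, ← min_add_add_right]
          exact min_le_min u1 (min_le_min u2 u3)
        linarith
      have h5 := min_le_ShT (K' := L * K5 b) (k5 := k5) (x := x) (um := um) (θ := θ * L) (d := d)
        (γ := Real.log (nm g)) (b := β) (l := l) (n := LN ps') (p := LN ps) (t := 2 * t)
        (z₁ := z₁) (z₂ := z₂) (z₃ := z₃) (w := w) (by linarith) hθL hβ (by linarith)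
        (by linarith) (by linarith) h1 h2 h3 hw (by linarith) hsum hu
      linarith)
  refine key.trans (le_of_eq ?_)
  have e1 : Real.exp (ShT k5 x um (LN ps) (Real.log (nm g)) β (l - β) + θ * L - L * L5 b) =
      X ^ (θ - L5 b) * Real.exp (ShT k5 x um (LN ps) (Real.log (nm g)) β (l - β)) := by
    rw [Real.rpow_def_of_pos (by linarith), ← Real.exp_add]
    congr 1
    ring
  rw [e1]
  have e2 : X ^ (L5 b + ℓ b + ε) * X ^ (θ - L5 b) = X ^ (θ + ℓ b + ε) := by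
    rw [← Real.rpow_add (by linarith)]
    congr 1
    ring
  rw [← e2]
  ring

/-- **the T-claims for all blocks of `e`**, from the claims of helper708 -/
theorem cellT_of {c₀ : ℝ} (hpu : PU h c₀) (hP : ∀ lam, (π lam).OK)
    (R : ExpRules (7 / 8 + d) rr (ex Dq fun lam => Sp (π lam) h)) (hd : 0 ≤ d) (hd1 : d ≤ 1 / 40)
    {D5 : Set (Fin 5 → ℝ)} (hD : IsCompact D5) (hR : ∀ b ∈ D5, R5 b)
    {ℓ : (Fin 5 → ℝ) → ℝ} (hℓ : Continuous ℓ) (hℓ0 : ∀ b ∈ D5, 0 ≤ ℓ b)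
    (hFE : FE2L (ex Dq fun lam => S0p (π lam) h) D5 ℓ) {ε : ℝ} (hε : 0 < ε) :
    ∃ τ : ℝ, 0 < τ ∧ τ ≤ ε ∧ ∀ (lam : Λ) (N : ℕ) (B : ℝ),
    ∃ M₀ : ℕ, ∀ r : ℝ, 0 ≤ r → ∃ X₀ : ℝ, 1 < X₀ ∧ ∀ X : ℝ, X₀ ≤ X → ∀ b ∈ D5, ∀ (q : Eis)
      (us : Fin 3 → Pq) (gs : List Pq) (κ H : ℝ), PD X τ B H N b q us gs κ → ∀ T θ : ℝ, 0 ≤ θ →
      T ≤ (T5 b + τ) * Real.log X →
      T ≤ (K5 b - (b 1 + b 2 + b 3) / 2 - b 4 + 3 * θ + τ) * Real.log X →
      ∀ M : ℝ, (M₀ : ℝ) ≤ M → ∀ E k5 x um : ℝ, |k5 - K5 b * Real.log X| ≤ τ * Real.log X →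
      |x - b 4 * Real.log X| ≤ τ * Real.log X →
      min (us 0).z (min (us 1).z (us 2).z) ≤ um + τ * Real.log X →
      CellS h (π lam) q ([us 0, us 1, us 2] ++ gs) (X ^ B) r M T E
        (H ^ M₀ * X ^ (θ + ℓ b + ε)) (ShT k5 x um (LN ([us 0, us 1, us 2] ++ gs))) :=
  cellT (d := d) hR (TM708.cell_le hpu hP R hd hd1 hD hℓ hℓ0 hFE hε)

end Crest.Agent.R017.E3N146
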