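import Crest.Agent.R017.CGtX_48
import Crest.Agent.R017.E3Nd_146

/-!
# Row 17, the flat T-claims of one natural triple, and the slopes of the numbers (helper48)

* `snk_gen` : all children of one natural triple, any closed form
* `FRf` : the flat number with the shortest lump; `cellK_flat`, `cellD_flat`
* `GN`, `FR`, `lipS_GN`, `lipS_FR`, `lipS_max`
-/

set_option autoImplicit false
set_option linter.unusedVariables false

noncomputable section

open scoped ComplexConjugate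

namespace Crest.Agent.R017.CGt48

open Crest.Agent.R012 Crest.Agent.R012.Eis
open Crest.Agent.R017.XG702 (Pcs)
open Crest.Agent.R017.XT71 (Sys mx le_mx)
open Crest.Agent.R017.HP842 (Pc pc Ker Kg)
open Crest.Agent.R017.FE47 (PU cx)
open Crest.Agent.R017.Prov71 hiding K0
open Crest.Agent.R017.B770
open Crest.Agent.R017.ER911
open Crest.Agent.R017.I1146 (ChN LN cN SN CellS LipS)
open Crest.Agent.R017.I1K764 (SNK CellK)
open Crest.Agent.R017.TEM792 (LD)
open Crest.Agent.R017.TEX792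
open Crest.Agent.R017.TM708
open Crest.Agent.R017.TK708 (Wd tq tq_K AllT)
open Crest.Agent.R017.XS0298 (S0K)
open Crest.Agent.R017.PX764 (Dk)
open Crest.Agent.R017.Red848 (red Sh Exc exists_sh red_ok)
open Crest.Agent.R017.OwA90 (Gt K0 Gt_cont4 Gt_slope K0_a K0_b K0_c K0_d)

variable {Λ : Type*} {π : Λ → DPar} {h : ℝ → ℝ}

/-- **all children of one natural triple, any closed form** -/
theorem snk_gen {Kn : Eis → Eis → ℂ} (hW : Wd fun lam => S0K Kn (π lam) h)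
    {G : (Fin 4 → ℝ) → ℝ} (hG : Continuous G)
    (hGH : ∀ q : Fin 4 → ℝ, (∀ i, 0 ≤ q i) →
      ex Dq (fun lam => S0K Kn (π lam) h) (q 0) {q 1, q 2, q 3} 0 0 ≤ G q)
    {ε : ℝ} (hε : 0 < ε) {B₂ : ℝ} (hB₂ : 0 < B₂) (lam : Λ) (B : ℝ) : ∃ M : ℕ, ∀ r : ℝ, 0 ≤ r →
    ∀ C₁ : ℝ, ∃ X₀ : ℝ, 3 ≤ X₀ ∧ ∀ X : ℝ, X₀ ≤ X → ∀ H : ℝ, 1 ≤ H → ∀ us : Fin 3 → Pq,
      (∀ i, Dq.lump (us i) ∧ 0 ≤ (us i).z ∧ (us i).z ≤ Real.log X ∧ (nm (us i).d : ℝ) ≤ X ^ B ∧
        1 + |(us i).t| ≤ H) →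
      ∀ q : Eis, q ≠ 0 → (nm q : ℝ) ≤ X ^ B →
      ∀ g : Eis, IsPrim g → (nm g : ℝ) ≤ X ^ B₂ → ∀ (b l : ℝ) (ps' : List Pq), 0 ≤ b →
      b ≤ B₂ * Real.log X + r → 0 ≤ l → List.Forall₂ (ChN r) ps' [us 0, us 1, us 2] →
      |LN ps' - (LN [us 0, us 1, us 2] - Real.log (nm g) - b)| ≤ r →
      l ≤ B₂ * Real.log X - 2 * Real.log (nm g) + b + r → ∀ V : ℝ,
      (∀ z' : Fin 3 → ℝ, (∀ i, 0 ≤ z' i ∧ z' i ≤ (us i).z + r) → z' 0 + z' 1 + z' 2 = LN ps' →
        Real.log X * G ![l / Real.log X, z' 0 / Real.log X, z' 1 / Real.log X,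
          z' 2 / Real.log X] ≤ V + C₁) →
      SNK Kn (q * g) (π lam) h l ps' ≤ H ^ M * X ^ ε * cN ps' [us 0, us 1, us 2] ^ (M : ℝ) *
        Real.exp V := by
  set K : ℝ := 1 + |B| + B₂ with hK
  have hB := abs_nonneg B
  have hBle := le_abs_self B
  have hK1 : 1 ≤ K := by rw [hK]; linarith
  set Kb : ℝ := 2 * B₂ + 2 with hKb
  obtain ⟨σ, hσ, G1⟩ := own_near hW (bx4_compact Kb) (fun q hq i => ((mem_bx4.1 hq) i).1)
    hG (fun q hq => hGH q fun i => ((mem_bx4.1 hq) i).1) (show 0 < ε / 2 by positivity)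
  obtain ⟨M, X₁, hX₁, G2⟩ := G1 lam (5 * K)
  refine ⟨M, fun r hr C₁ => ?_⟩
  obtain ⟨X₂, hX₂, G3⟩ := TEX792.const_le (Real.exp C₁) (ε / 2) (by positivity)
  refine ⟨max (max X₁ X₂) (max 3 (Real.exp (2 * r))),
    (le_max_left _ _).trans (le_max_right _ _), ?_⟩
  intro X hX H hH us hus q hq hqX g hg hgX b l ps' hb hbE hl hch hLN hlT V hV
  have hXX1 : X₁ ≤ X := ((le_max_left _ _).trans (le_max_left _ _)).trans hX
  have hXX2 : X₂ ≤ X := ((le_max_right _ _).trans (le_max_left _ _)).trans hX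
  have hX3 : 3 ≤ X := ((le_max_left _ _).trans (le_max_right _ _)).trans hX
  have hXr : Real.exp (2 * r) ≤ X := ((le_max_right _ _).trans (le_max_right _ _)).trans hX
  have hX1 : 1 < X := by linarith
  have hX0 : 0 < X := by linarith
  set L := Real.log X with hL
  have hL0 : 0 < L := Real.log_pos hX1
  have hrL : 2 * r ≤ L := (Real.le_log_iff_exp_le hX0).2 hXr
  have elist : List.ofFn us = [us 0, us 1, us 2] := by simp [List.ofFn_succ]
  have hLD : LD X K H us (fun _ => 1) :=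
    { lump := fun i => (hus i).1
      z0 := fun i => (hus i).2.1
      zK := fun i => (hus i).2.2.1.trans (le_mul_of_one_le_left hL0.le hK1)
      dK := fun i => (hus i).2.2.2.1.trans
        (Real.rpow_le_rpow_of_exponent_le hX1.le (by linarith))
      tH := fun i => (hus i).2.2.2.2
      bp := fun i => isPrim_one
      bK := fun i => by
        rw [nm_one]
        push_cast
        exact Real.one_le_rpow hX1.le (by linarith) }
  have hQ0 : q * g ≠ 0 := mul_ne_zero hq hg.ne_zero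
  have hQX : (nm (q * g) : ℝ) ≤ X ^ (5 * K) := by
    rw [nm_mul]
    push_cast
    calc (nm q : ℝ) * nm g ≤ X ^ B * X ^ B₂ := by gcongr
      _ = X ^ (B + B₂) := by rw [← Real.rpow_add hX0]
      _ ≤ X ^ (5 * K) := Real.rpow_le_rpow_of_exponent_le hX1.le (by linarith)
  rw [← elist] at hch
  obtain ⟨a, ha1, ha2, hps, haok, hs2, hs1, hz', hLa⟩ :=
    child3 (l := l) hX1 hK1 hH hLD hQ0 hQX hch
  rw [elist] at hs1 hch
  have hev : S3.ev X a = ![l / L, (a.us 0).z / L, (a.us 1).z / L, (a.us 2).z / L] := by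
    rw [← ha1]
    rfl
  have hgn : (1 : ℝ) ≤ nm g := by exact_mod_cast nm_pos.2 hg.ne_zero
  have hγ0 : 0 ≤ Real.log (nm g) := Real.log_nonneg hgn
  have hlK : l ≤ Kb * L := by
    rw [hKb]
    nlinarith
  have hzK : ∀ i, (a.us i).z ≤ Kb * L := fun i => by
    have h1 := (hz' i).2
    have h2 := (hus i).2.2.1
    have h3 : 0 ≤ B₂ * L := by positivity
    rw [hKb]
    nlinarith
  have hKL : ∀ {y : ℝ}, y ≤ Kb * L → y / L ≤ Kb := fun h => by rwa [div_le_iff₀ hL0]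
  have hmem : S3.ev X a ∈ bx4 Kb := by
    rw [mem_bx4, hev]
    intro i
    fin_cases i
    · exact ⟨div_nonneg hl hL0.le, hKL hlK⟩
    · exact ⟨div_nonneg (hz' 0).1 hL0.le, hKL (hzK 0)⟩
    · exact ⟨div_nonneg (hz' 1).1 hL0.le, hKL (hzK 1)⟩
    · exact ⟨div_nonneg (hz' 2).1 hL0.le, hKL (hzK 2)⟩
  have hc1 := one_le_cN hch
  have hK1' : 1 ≤ cN ps' [us 0, us 1, us 2] * H := one_le_mul_of_one_le_of_one_le hc1 hH
  have key := G2 X hXX1 a haok hs2 ⟨_, hmem, by rw [dist_self]; exact hσ.le⟩ _ hK1' hs1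
  rw [ha1, ha2, ← hps] at key
  have e1 := tq_K (π := π) (h := h) Kn hQ0 lam l ps'
  unfold TK708.tq at e1
  rw [← e1]
  refine key.trans ?_
  have hGV := hV (fun i => (a.us i).z) (fun i => hz' i) hLa.symm
  rw [← hev] at hGV
  have hX3' := G3 X hXX2
  have hexp : X ^ (G (S3.ev X a) + ε / 2) ≤ X ^ ε * Real.exp V := by
    rw [Real.rpow_add hX0, Real.rpow_def_of_pos hX0, ← hL]
    calc Real.exp (L * G (S3.ev X a)) * X ^ (ε / 2)
        ≤ (Real.exp V * X ^ (ε / 2)) * X ^ (ε / 2) := by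
          refine mul_le_mul_of_nonneg_right ?_ (by positivity)
          refine (Real.exp_le_exp.2 hGV).trans ?_
          rw [Real.exp_add]
          exact mul_le_mul_of_nonneg_left hX3' (Real.exp_pos _).le
      _ = Real.exp V * (X ^ (ε / 2) * X ^ (ε / 2)) := by ring
      _ = _ := by
          rw [← Real.rpow_add hX0, add_halves, mul_comm]
  calc (cN ps' [us 0, us 1, us 2] * H) ^ M * _
      ≤ (cN ps' [us 0, us 1, us 2] * H) ^ M * (X ^ ε * Real.exp V) :=
        mul_le_mul_of_nonneg_left hexp (by positivity)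
    _ = _ := by
        rw [mul_pow, Real.rpow_natCast]
        ring

/-! ### the flat number -/

/-- **the flat number** : level `v`, length `n`, shortest lump `m` -/
def FRf (v n m : ℝ) : ℝ := max (v + n + min m (n / 3)) (5 / 3 * n + v / 3)

lemma FRf_cont4 : Continuous fun q : Fin 4 → ℝ =>
    FRf (q 0) (q 1 + q 2 + q 3) (min (q 1) (min (q 2) (q 3))) := by
  unfold FRf
  fun_prop

lemma FRf_hom {s : ℝ} (hs : 0 ≤ s) (v n m : ℝ) :
    FRf (s * v) (s * n) (s * m) = s * FRf v n m := by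
  unfold FRf
  rw [mul_max_of_nonneg _ _ hs]
  congr 1
  · rw [mul_add, mul_min_of_nonneg _ _ hs, mul_add]
    congr 2
    ring
  · ring

lemma FRf_lip {v n m n' m' t : ℝ} (ht : 0 ≤ t) (hn : n' ≤ n + t) (hm : m' ≤ m + t) :
    FRf v n' m' ≤ FRf v n m + 2 * t := by
  unfold FRf
  have h1 := le_max_left (v + n + min m (n / 3)) (5 / 3 * n + v / 3)
  have h2 := le_max_right (v + n + min m (n / 3)) (5 / 3 * n + v / 3)
  have h3 : min m' (n' / 3) ≤ min m (n / 3) + t := by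
    rw [← min_add_add_right]
    exact min_le_min hm (by linarith)
  exact max_le (by linarith) (by linarith)

lemma FRf_slope {v σ n m : ℝ} (hσ : 0 ≤ σ) : FRf (v + σ) n m ≤ FRf v n m + σ := by
  unfold FRf
  have h1 := le_max_left (v + n + min m (n / 3)) (5 / 3 * n + v / 3)
  have h2 := le_max_right (v + n + min m (n / 3)) (5 / 3 * n + v / 3)
  exact max_le (by linarith) (by linarith)

/-- from the claims of all triples -/
lemma tAll_le_FRf {d v z₁ z₂ z₃ : ℝ} (h1 : 0 ≤ z₁) (h2 : 0 ≤ z₂) (h3 : 0 ≤ z₃) :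
    tAll d v z₁ z₂ z₃ 0 ≤ FRf v (z₁ + z₂ + z₃) (min z₁ (min z₂ z₃)) := by
  refine E3N146.tAll_le_Cm (fun C hC0 c1 c2 c3 => ?_) h1 h2 h3
  have h4 : C ≤ min (min z₁ (min z₂ z₃)) ((z₁ + z₂ + z₃) / 3) :=
    le_min (le_min c1 (le_min c2 c3)) (by linarith)
  have h5 := le_max_left (v + (z₁ + z₂ + z₃) + min (min z₁ (min z₂ z₃)) ((z₁ + z₂ + z₃) / 3))
    (5 / 3 * (z₁ + z₂ + z₃) + v / 3)
  have h6 := le_max_right (v + (z₁ + z₂ + z₃) + min (min z₁ (min z₂ z₃)) ((z₁ + z₂ + z₃) / 3))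
    (5 / 3 * (z₁ + z₂ + z₃) + v / 3)
  unfold FRf
  constructor
  · linarith
  · linarith

/-- the natural number -/
def GN (d z p γ b v : ℝ) : ℝ := Gt d (v + min b (p - γ)) (max 0 (p - γ - b)) z

/-- the flat number -/
def FR (z p γ b v : ℝ) : ℝ :=
  max ((v + min b (p - γ)) + max 0 (p - γ - b) + min z (max 0 (p - γ - b) / 3))
    (5 / 3 * max 0 (p - γ - b) + (v + min b (p - γ)) / 3)

lemma FR_eq (m p γ b v : ℝ) : FR m p γ b v = FRf (v + min b (p - γ)) (max 0 (p - γ - b)) m := rfl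

/-- the flat number of one child -/
lemma FRf_child {p m γ b l n' m' r : ℝ} (hr : 0 ≤ r) (hn0 : 0 ≤ n')
    (hn : |n' - (p - γ - b)| ≤ r) (hm : m' ≤ m + r) :
    FRf l n' m' ≤ FR m p γ b (l - b) + 3 * r := by
  obtain ⟨h1, h2⟩ := abs_le.1 hn
  have h3 := le_max_left 0 (p - γ - b)
  have h4 := le_max_right 0 (p - γ - b)
  have e1 := FRf_lip (v := l) (n := max 0 (p - γ - b)) (m := m) hr (by linarith : n' ≤ _ + r) hm
  set σ := b - min b (p - γ) with hσ
  have hσ0 : 0 ≤ σ := sub_nonneg.2 (min_le_left _ _)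
  have hσr : σ ≤ r := by
    rw [hσ]
    rcases min_choice b (p - γ) with h | h <;> rw [h] <;> linarith
  have e2 := FRf_slope (v := l - b + min b (p - γ)) (n := max 0 (p - γ - b)) (m := m) hσ0
  have e3 : l - b + min b (p - γ) + σ = l := by rw [hσ]; ring
  rw [e3] at e2
  rw [FR_eq]
  linarith

/-- **`CellK` of one natural triple with the flat number** -/
theorem cellK_flat {Kn : Eis → Eis → ℂ} (hW : Wd fun lam => S0K Kn (π lam) h) {d : ℝ}
    (hall : AllT d (ex Dq fun lam => S0K Kn (π lam) h))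
    {ε : ℝ} (hε : 0 < ε) {B₂ : ℝ} (hB₂ : 0 < B₂) (lam : Λ) (B : ℝ) : ∃ M : ℕ, ∀ r : ℝ, 0 ≤ r →
    ∃ X₀ : ℝ, 3 ≤ X₀ ∧ ∀ X : ℝ, X₀ ≤ X → ∀ H : ℝ, 1 ≤ H → ∀ us : Fin 3 → Pq,
      (∀ i, Dq.lump (us i) ∧ 0 ≤ (us i).z ∧ (us i).z ≤ Real.log X ∧ (nm (us i).d : ℝ) ≤ X ^ B ∧
        1 + |(us i).t| ≤ H) →
      ∀ zR : ℝ, min (us 0).z (min (us 1).z (us 2).z) ≤ zR →
      ∀ q : Eis, q ≠ 0 → (nm q : ℝ) ≤ X ^ B →
      CellK Kn h (π lam) q [us 0, us 1, us 2] (X ^ B₂) r M (B₂ * Real.log X) (B₂ * Real.log X)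
        (H ^ M * X ^ ε) (fun γ b v =>
          max ((v + min b (LN [us 0, us 1, us 2] - γ)) + max 0 (LN [us 0, us 1, us 2] - γ - b) +
              min zR (max 0 (LN [us 0, us 1, us 2] - γ - b) / 3))
            (5 / 3 * max 0 (LN [us 0, us 1, us 2] - γ - b) +
              (v + min b (LN [us 0, us 1, us 2] - γ)) / 3)) := by
  obtain ⟨M, G⟩ := snk_gen hW FRf_cont4 (fun q hq => by
    have h1 := hall (q 0) (q 1) (q 2) (q 3) 0 0 (hq 0) (hq 1) (hq 2) (hq 3) le_rfl le_rfl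
    rw [add_zero] at h1
    exact h1.trans (tAll_le_FRf (hq 1) (hq 2) (hq 3))) hε hB₂ lam B
  refine ⟨M, fun r hr => ?_⟩
  obtain ⟨X₀, hX₀, G2⟩ := G r hr (3 * r)
  refine ⟨X₀, hX₀, fun X hX H hH us hus zR hzR q hq hqX => ?_⟩
  intro g hg hgX b l ps' hb hbE hl hch hLN hlT
  have hL0 : 0 < Real.log X := Real.log_pos (by linarith)
  refine G2 X hX H hH us hus q hq hqX g hg hgX b l ps' hb hbE hl hch hLN hlT _ fun z' hz' hs => ?_
  have hn0 : 0 ≤ LN ps' := by
    rw [← hs]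
    have h0 := (hz' 0).1
    have h1 := (hz' 1).1
    have h2 := (hz' 2).1
    linarith
  have hm' : min (z' 0) (min (z' 1) (z' 2)) ≤ zR + r := by
    refine le_trans ?_ (add_le_add_left hzR r)
    rw [← min_add_add_right, ← min_add_add_right]
    exact min_le_min (hz' 0).2 (min_le_min (hz' 1).2 (hz' 2).2)
  have hch2 := FRf_child (l := l) (p := LN [us 0, us 1, us 2]) (γ := Real.log (nm g)) (b := b)
    hr hn0 hLN hm'
  refine le_trans (le_of_eq ?_) hch2
  rw [← hs]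
  show Real.log X * FRf (l / Real.log X) (z' 0 / Real.log X + z' 1 / Real.log X +
    z' 2 / Real.log X) (min (z' 0 / Real.log X) (min (z' 1 / Real.log X) (z' 2 / Real.log X))) = _
  rw [← FRf_hom hL0.le, mul_min_of_nonneg _ _ hL0.le, mul_min_of_nonneg _ _ hL0.le, mul_add,
    mul_add, mul_div_cancel₀ _ hL0.ne', mul_div_cancel₀ _ hL0.ne', mul_div_cancel₀ _ hL0.ne',
    mul_div_cancel₀ _ hL0.ne']

/-- **the case `Kn = Dk`, class E** -/
theorem cellD_flat {c₀ : ℝ} (hpu : PU h c₀) (hP : ∀ lam, (π lam).OK) (hE : ∀ lam, Exc (π lam))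
    {d : ℝ} (hall : AllT d (ex Dq fun lam => S0K Dk (red (π lam)) h))
    {ε : ℝ} (hε : 0 < ε) {B₂ : ℝ} (hB₂ : 0 < B₂) (lam : Λ) (B : ℝ) : ∃ M : ℕ, ∀ r : ℝ, 0 ≤ r →
    ∃ X₀ : ℝ, 3 ≤ X₀ ∧ ∀ X : ℝ, X₀ ≤ X → ∀ H : ℝ, 1 ≤ H → ∀ us : Fin 3 → Pq,
      (∀ i, Dq.lump (us i) ∧ 0 ≤ (us i).z ∧ (us i).z ≤ Real.log X ∧ (nm (us i).d : ℝ) ≤ X ^ B ∧
        1 + |(us i).t| ≤ H) →
      ∀ zR : ℝ, min (us 0).z (min (us 1).z (us 2).z) ≤ zR →
      ∀ q : Eis, q ≠ 0 → (nm q : ℝ) ≤ X ^ B →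
      CellK Dk h (red (π lam)) q [us 0, us 1, us 2] (X ^ B₂) r M (B₂ * Real.log X)
        (B₂ * Real.log X)
        (H ^ M * X ^ ε) (fun γ b v =>
          max ((v + min b (LN [us 0, us 1, us 2] - γ)) + max 0 (LN [us 0, us 1, us 2] - γ - b) +
              min zR (max 0 (LN [us 0, us 1, us 2] - γ - b) / 3))
            (5 / 3 * max 0 (LN [us 0, us 1, us 2] - γ - b) +
              (v + min b (LN [us 0, us 1, us 2] - γ)) / 3)) :=
  cellK_flat (π := fun lam => red (π lam))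
    (TK708.wd_E hpu fun lam => red_ok (hP lam) (hE lam)) hall hε hB₂ lam B

/-! ### slopes -/

lemma Gt_lip2 {d v v' n n' z t : ℝ} (hd : 0 ≤ d) (hd1 : d ≤ 1) (ht : 0 ≤ t) (hv : v' ≤ v + t)
    (hn : n' ≤ n + t) : Gt d v' n' z ≤ Gt d v n z + 3 * t := by
  have hdt : d * t ≤ t := mul_le_of_le_one_left ht hd1
  have hK : K0 v' n' z ≤ K0 v n z + 3 / 2 * t := by
    have h1 := K0_a v n z
    have h2 := K0_b v n z
    have h3 := K0_c v n z
    have h4 := K0_d v n z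
    exact max_le (by linarith) (max_le (by linarith) (max_le (by linarith) (by linarith)))
  have hdn : 2 / 3 * d * n' ≤ 2 / 3 * d * n + 2 / 3 * t := by nlinarith
  unfold Gt
  rw [← min_add_add_right]
  refine min_le_min ?_ ?_
  · have h1 := le_max_left (max (2 * n) (v + n)) (4 / 3 * n + (v + K0 v n z) / 3)
    have h2 := le_max_right (max (2 * n) (v + n)) (4 / 3 * n + (v + K0 v n z) / 3)
    have h3 := (le_max_left (2 * n) (v + n)).trans h1
    have h4 := (le_max_right (2 * n) (v + n)).trans h1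
    have : max (max (2 * n') (v' + n')) (4 / 3 * n' + (v' + K0 v' n' z) / 3) ≤
        max (max (2 * n) (v + n)) (4 / 3 * n + (v + K0 v n z) / 3) + 7 / 3 * t :=
      max_le (max_le (by linarith) (by linarith)) (by linarith)
    linarith
  · have h1 := le_max_left (v + 4 / 3 * n) (5 / 3 * n + v / 3)
    have h2 := le_max_right (v + 4 / 3 * n) (5 / 3 * n + v / 3)
    exact max_le (by linarith) (by linarith)

lemma lev_lip (c b b' v v' : ℝ) :
    v + min b c ≤ v' + min b' c + (|b - b'| + |v - v'|) := by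
  have h1 := le_abs_self (b - b')
  have h2 := le_abs_self (v - v')
  have h0 := abs_nonneg (b - b')
  have h3 : min b c ≤ min b' c + |b - b'| := by
    rw [← min_add_add_right]
    exact min_le_min (by linarith) (by linarith)
  linarith

lemma len_lip (p γ b b' v v' : ℝ) :
    max 0 (p - γ - b) ≤ max 0 (p - γ - b') + (|b - b'| + |v - v'|) := by
  have h1 := neg_abs_le (b - b')
  have h2 := abs_nonneg (v - v')
  have h0 := abs_nonneg (b - b')
  have h3 := le_max_left 0 (p - γ - b')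
  have h4 := le_max_right 0 (p - γ - b')
  exact max_le (by linarith) (by linarith)

/-- slope of the natural number -/
lemma lipS_GN {d : ℝ} (hd : 0 ≤ d) (hd1 : d ≤ 1) (z p : ℝ) : LipS 3 (GN d z p) := by
  intro γ b v b' v'
  have h0 : 0 ≤ |b - b'| + |v - v'| := by positivity
  exact Gt_lip2 (z := z) hd hd1 h0 (lev_lip (p - γ) b b' v v') (len_lip p γ b b' v v')

/-- slope of the flat number -/
lemma lipS_FR (m p : ℝ) : LipS 3 (FR m p) := by
  intro γ b v b' v'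
  have h0 : 0 ≤ |b - b'| + |v - v'| := by positivity
  have h1 := lev_lip (p - γ) b b' v v'
  have h2 := len_lip p γ b b' v v'
  set t := |b - b'| + |v - v'| with ht
  have h3 : min m (max 0 (p - γ - b) / 3) ≤ min m (max 0 (p - γ - b') / 3) + t := by
    rw [← min_add_add_right]
    exact min_le_min (by linarith) (by linarith)
  have h4 := le_max_left ((v' + min b' (p - γ)) + max 0 (p - γ - b') +
    min m (max 0 (p - γ - b') / 3)) (5 / 3 * max 0 (p - γ - b') + (v' + min b' (p - γ)) / 3)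
  have h5 := le_max_right ((v' + min b' (p - γ)) + max 0 (p - γ - b') +
    min m (max 0 (p - γ - b') / 3)) (5 / 3 * max 0 (p - γ - b') + (v' + min b' (p - γ)) / 3)
  unfold FR
  exact max_le (by linarith) (by linarith)

lemma lipS_mono {L L' : ℝ} {F : ℝ → ℝ → ℝ → ℝ} (hF : LipS L F) (h : L ≤ L') : LipS L' F := by
  intro γ b v b' v'
  have h0 : 0 ≤ |b - b'| + |v - v'| := by positivity
  have h1 := hF γ b v b' v'
  nlinarith

lemma lipS_max {L : ℝ} {F G : ℝ → ℝ → ℝ → ℝ} (hF : LipS L F) (hG : LipS L G) :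
    LipS L fun γ b v => max (F γ b v) (G γ b v) := by
  intro γ b v b' v'
  have h1 := hF γ b v b' v'
  have h2 := hG γ b v b' v'
  have h3 := le_max_left (F γ b' v') (G γ b' v')
  have h4 := le_max_right (F γ b' v') (G γ b' v')
  exact max_le (by linarith) (by linarith)

/-- `CellK` is monotone in the number -/
lemma cellK_mono {Kn : Eis → Eis → ℂ} {P : DPar} {q : Eis} {ps : List Pq} {X₂ r M T E F : ℝ}
    {Sh Sh' : ℝ → ℝ → ℝ → ℝ} (hF : 0 ≤ F) (hM : 0 ≤ M)
    (H : CellK Kn h P q ps X₂ r M T E F Sh)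
    (hS : ∀ γ b v, Sh γ b v ≤ Sh' γ b v) : CellK Kn h P q ps X₂ r M T E F Sh' := by
  intro g hg hgX b l ps' hb hbE hl hch hLN hlT
  refine (H g hg hgX b l ps' hb hbE hl hch hLN hlT).trans ?_
  have h1 := one_le_cN hch
  exact mul_le_mul_of_nonneg_left (Real.exp_le_exp.2 (hS _ _ _))
    (mul_nonneg hF (Real.rpow_nonneg (by linarith) _))

end Crest.Agent.R017.CGt48
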