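import Crest.Agent.R017.I1LP_764
import Crest.Agent.R017.I1o_146
import Crest.Agent.R017.I1p_146

/-!
# Row 17, T.4 (helper764): the cross error of a difference, T-side

* `JB_min` : the joint block of a difference, bias with the minimum
* `CellK` : 146's `CellS` for a kernel (708's `CellG (SNK Kn)`)
* `numSx` : the numbers of the joint blocks of a difference (146's `numS`)
* `TJGx` : the T-moment with the adapted weight (146's `TJG`)
* `E2Gx` : the compensated cross error (two scales) with level weights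
-/

set_option autoImplicit false
set_option linter.unusedSectionVars false

noncomputable section

open Finset MeasureTheory
open scoped ComplexConjugate Classical

namespace Crest.Agent.R017.I1K764

open Crest.Agent.R012 Crest.Agent.R012.Eis Crest.Agent.R012.MC Crest.Agent.R012.Gauss880
open Crest.Agent.R012.LS2 (S mem_S)
open Crest.Agent.R012.Weight600 (pw)
open Crest.Agent.R017.CM106 (CS FS TG)
open Crest.Agent.R017.C70
open Crest.Agent.R017.HP842 (Pc pc sqc alL KS Ker)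
open Crest.Agent.R017.B770
open Crest.Agent.R017.FE47 (PU cx)
open Crest.Agent.R017.Prov71
open Crest.Agent.R017.Leg381 (Pf alF SF LF natl alF_natl)
open Crest.Agent.R017.RG64 (FS_alF Ht one_le_Ht)
open Crest.Agent.R017.E1551
open Crest.Agent.R017.E2440 (StE TE Fh)
open Crest.Agent.R017.LB48 (CrP GrP)
open Crest.Agent.R017.Rough381 (VF)
open Crest.Agent.R017.X6C180 (GF)
open Crest.Agent.R017.WDec180 (WD sc sc_pos E2e cross_ex)
open Crest.Agent.R017.Ex385 (CrQ)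
open Crest.Agent.R017.PX764 (Dk)
open Crest.Agent.R017.LegK545 (VK SFK JBK)
open Crest.Agent.R017.RX241 (Md Nb Nb_nonneg BJ BJ_le JB_x_le)
open Crest.Agent.R017.ExT764 (PBh ext_num num_L')
open Crest.Agent.R017.End699 (HC)
open Crest.Agent.R017.Sup271 (NPm)
open Crest.Agent.R017.I1146

/-- **the joint block of a difference, bias with the minimum** -/
theorem JB_min {ε : ℝ} (hε : 0 < ε) : ∃ C : ℝ, 0 ≤ C ∧ ∀ (a b x : Eis → ℂ) (ζ : ℂ), ‖ζ‖ ≤ 1 →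
    FS a → FS b → (∀ n, x n = a n - ζ * b n) → ∀ (E s0 Y P J : ℝ), 0 ≤ E → 0 ≤ Y →
    ∀ (Q : Eis → Prop) (g : Eis), IsPrim g → ∀ B V t : ℝ, 1 ≤ B → 1 ≤ V → V * B ≤ P →
    (∀ U ∈ S Y, (nm U : ℝ) ≤ B → ∀ j, CubeFree j → (nm j : ℝ) ≤ V * B →
      ‖Md (tws (sg x (g * U)) t) j‖ ^ 2 ≤ E * (nm (g * U) : ℝ) ^ (-(5 / 3) : ℝ) *
        min 1 (nm (g * U) * Real.exp (-s0)) * (1 + |t|) ^ J) →
    JB Y x Q g B V t ≤ 3 * JBK Dk Y a Q g B V t + 3 * JBK Dk Y b Q g B V t +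
      C * P ^ ε * (E * Real.exp (2 / 3 * (Real.log V + Real.log B) -
        5 / 3 * (Real.log (nm g) + Real.log B) -
        max 0 (s0 - (Real.log (nm g) + Real.log B))) * (1 + |t|) ^ J) := by
  obtain ⟨C, hC, H⟩ := BJ_le hε
  refine ⟨3 * pC ^ 2 * (C * 4), by positivity, ?_⟩
  intro a b x ζ hζ ha hb hx E s0 Y P J hE hY Q g hg B V t hB hV hVB hPB
  have hg0 : (0 : ℝ) < nm g := by exact_mod_cast nm_pos.2 hg.ne_zero
  have hB0 : 0 < B := by linarith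
  have hV0 : 0 < V := by linarith
  have h3 := JB_x_le hζ ha hb hx hY Q hg B V t
  have hT : 0 ≤ (1 + |t|) ^ J := by positivity
  set T := (1 + |t|) ^ J with hTd
  have hVB1 : 1 ≤ V * B := one_le_mul_of_one_le_of_one_le hV hB
  have hP0 : 0 < P := by linarith
  set lg := Real.log (nm g) with hlg
  set lB := Real.log B with hlB
  set lV := Real.log V with hlV
  have hgB : (nm g : ℝ) * B = Real.exp (lg + lB) := by
    rw [Real.exp_add, Real.exp_log hg0, Real.exp_log hB0]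
  have hm : min 1 ((nm g : ℝ) * B * Real.exp (-s0)) = Real.exp (-max 0 (s0 - (lg + lB))) := by
    rw [hgB, ← Real.exp_add]
    nth_rewrite 1 [← Real.exp_zero]
    rw [← Real.exp_monotone.map_min]
    congr 1
    rw [← min_neg_neg, neg_zero]
    congr 1
    ring
  have h4 : BJ Y x Q g B V t ≤ C * (V * B) ^ ε * (V * B) ^ ((2 : ℝ) / 3) *
      (E * (4 * ((nm g : ℝ) * B) ^ (-(5 / 3) : ℝ)) *
        min 1 ((nm g : ℝ) * B * Real.exp (-s0)) * T) := by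
    refine H Y B V _ t Q g x hY hB hV (by positivity) fun U hU hU1 hU2 hQ κ hκ => ?_
    obtain ⟨⟨hκ1, hκ2⟩, hκ3⟩ := mem_BU.1 hκ
    have hUp : IsPrim U := ((mem_S hY).1 hU).2.1
    have hjV : (nm (κ * U) : ℝ) ≤ V * B := by
      rw [nm_mul]; push_cast; gcongr
    refine (hPB U hU hU2 (κ * U) hκ3 hjV).trans ?_
    have hUn : (0 : ℝ) < nm U := by exact_mod_cast nm_pos.2 hUp.ne_zero
    have hgU : (nm (g * U) : ℝ) = nm g * nm U := by rw [nm_mul]; push_cast; ring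
    have g3 : (nm (g * U) : ℝ) ^ (-(5 / 3) : ℝ) ≤ 4 * ((nm g : ℝ) * B) ^ (-(5 / 3) : ℝ) := by
      have h5 : (nm g : ℝ) * B / 2 ≤ nm (g * U) := by
        rw [hgU]
        nlinarith
      calc (nm (g * U) : ℝ) ^ (-(5 / 3) : ℝ) ≤ ((nm g : ℝ) * B / 2) ^ (-(5 / 3) : ℝ) :=
            Real.rpow_le_rpow_of_nonpos (by positivity) h5 (by norm_num)
        _ = (2 : ℝ) ^ (5 / 3 : ℝ) * ((nm g : ℝ) * B) ^ (-(5 / 3) : ℝ) := by
            rw [Real.div_rpow (by positivity) (by norm_num), Real.rpow_neg (by norm_num : (0:ℝ) ≤ 2),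
              div_eq_mul_inv, inv_inv, mul_comm]
        _ ≤ 4 * ((nm g : ℝ) * B) ^ (-(5 / 3) : ℝ) := by
            have : (2 : ℝ) ^ (5 / 3 : ℝ) ≤ 4 := by
              calc (2 : ℝ) ^ (5 / 3 : ℝ) ≤ 2 ^ (2 : ℝ) :=
                    Real.rpow_le_rpow_of_exponent_le (by norm_num) (by norm_num)
                _ = 4 := by norm_num
            gcongr
    have g4 : min 1 ((nm (g * U) : ℝ) * Real.exp (-s0)) ≤
        min 1 ((nm g : ℝ) * B * Real.exp (-s0)) := by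
      rw [hgU]
      exact min_le_min_left _ (by gcongr)
    have g5 : 0 ≤ min 1 ((nm (g * U) : ℝ) * Real.exp (-s0)) := le_min zero_le_one (by positivity)
    gcongr
  have h5 : (V * B) ^ ((2 : ℝ) / 3) * (((nm g : ℝ) * B) ^ (-(5 / 3) : ℝ) *
      min 1 ((nm g : ℝ) * B * Real.exp (-s0))) =
      Real.exp (2 / 3 * (lV + lB) - 5 / 3 * (lg + lB) - max 0 (s0 - (lg + lB))) := by
    have e1 : V * B = Real.exp (lV + lB) := by
      rw [Real.exp_add, Real.exp_log hV0, Real.exp_log hB0]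
    rw [hm, hgB, e1, ← Real.exp_mul, ← Real.exp_mul, ← Real.exp_add, ← Real.exp_add]
    congr 1
    ring
  have hpw : (V * B) ^ ε ≤ P ^ ε := Real.rpow_le_rpow (by positivity) hVB hε.le
  have h6 : BJ Y x Q g B V t ≤ C * 4 * P ^ ε * (E * Real.exp (2 / 3 * (lV + lB) -
      5 / 3 * (lg + lB) - max 0 (s0 - (lg + lB))) * T) := by
    rw [← h5]
    have hmn : 0 ≤ min 1 ((nm g : ℝ) * B * Real.exp (-s0)) := le_min zero_le_one (by positivity)
    calc BJ Y x Q g B V t ≤ C * (V * B) ^ ε * (V * B) ^ ((2 : ℝ) / 3) *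
          (E * (4 * ((nm g : ℝ) * B) ^ (-(5 / 3) : ℝ)) *
            min 1 ((nm g : ℝ) * B * Real.exp (-s0)) * T) := h4
      _ = C * 4 * (V * B) ^ ε * (E * ((V * B) ^ ((2 : ℝ) / 3) *
          (((nm g : ℝ) * B) ^ (-(5 / 3) : ℝ) *
            min 1 ((nm g : ℝ) * B * Real.exp (-s0)))) * T) := by ring
      _ ≤ _ := by gcongr
  have hpc := Cst401.pC_pos
  calc JB Y x Q g B V t
      ≤ 3 * (JBK Dk Y a Q g B V t + JBK Dk Y b Q g B V t + pC ^ 2 * BJ Y x Q g B V t) := h3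
    _ ≤ 3 * (JBK Dk Y a Q g B V t + JBK Dk Y b Q g B V t + pC ^ 2 *
          (C * 4 * P ^ ε * (E * Real.exp (2 / 3 * (lV + lB) -
      5 / 3 * (lg + lB) - max 0 (s0 - (lg + lB))) * T))) := by
        gcongr
    _ = _ := by ring

/-- **the T-claims for a kernel** : 708's `CellG (fun q l ps => SNK Kn q P h l ps)` -/
def CellK (Kn : Eis → Eis → ℂ) (h : ℝ → ℝ) (P : DPar) (q : Eis) (ps : List Pq)
    (G r M T E F : ℝ) (Sh : ℝ → ℝ → ℝ → ℝ) : Prop :=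
  ∀ g : Eis, IsPrim g → (nm g : ℝ) ≤ G → ∀ (b l : ℝ) (ps' : List Pq), 0 ≤ b → b ≤ E + r → 0 ≤ l →
    List.Forall₂ (ChN r) ps' ps → |LN ps' - (LN ps - Real.log (nm g) - b)| ≤ r →
    l ≤ T - 2 * Real.log (nm g) + b + r →
    SNK Kn (q * g) P h l ps' ≤ F * cN ps' ps ^ M * Real.exp (Sh (Real.log (nm g)) b (l - b))

lemma CellK.mono {Kn : Eis → Eis → ℂ} {h : ℝ → ℝ} {P : DPar} {q : Eis} {ps : List Pq}
    {G r r' M T E F : ℝ} {Sh : ℝ → ℝ → ℝ → ℝ} (hr : r ≤ r')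
    (H : CellK Kn h P q ps G r' M T E F Sh) : CellK Kn h P q ps G r M T E F Sh :=
  fun g hg hG b l ps' hb hbE hl hc h1 h2 => H g hg hG b l ps' hb (by linarith) hl
    (hc.imp fun _ _ hc => ⟨hc.1, hc.2.1, hc.2.2.1, hc.2.2.2.1, hc.2.2.2.2.trans (by linarith)⟩)
    (h1.trans hr) (by linarith)

lemma CellK.monoS {Kn : Eis → Eis → ℂ} {h : ℝ → ℝ} {P : DPar} {q : Eis} {ps : List Pq}
    {G r M T E F : ℝ} {Sh Sh' : ℝ → ℝ → ℝ → ℝ} (hF : 0 ≤ F) (hS : ∀ γ b v, Sh γ b v ≤ Sh' γ b v)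
    (H : CellK Kn h P q ps G r M T E F Sh) : CellK Kn h P q ps G r M T E F Sh' :=
  fun g hg hG b l ps' hb hbE hl hc h1 h2 => (H g hg hG b l ps' hb hbE hl hc h1 h2).trans
    (mul_le_mul_of_nonneg_left (Real.exp_le_exp.2 (hS _ _ _))
      (mul_nonneg hF (Real.rpow_nonneg (cN_nonneg _ _) _)))

/-- **the numbers of the joint blocks, any kernel** (146's `numS`) -/
theorem numSK {Kn : Eis → Eis → ℂ} (hKn : Ker Kn) {h : ℝ → ℝ} {c : ℝ} (hpu : PU h c) (N : ℕ)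
    {B₀ : ℝ} (hB₀ : 0 ≤ B₀) {ε : ℝ} (hε : 0 < ε) {M : ℝ} (hM : 0 ≤ M) {L : ℝ} (hL : 0 ≤ L) :
    ∃ C r : ℝ, 1 ≤ C ∧ 0 ≤ r ∧ ∀ X : ℝ, 3 ≤ X →
    ∀ (P : DPar), P.OK → ∀ (q : Eis) (ps : List Pq), ps.length ≤ N →
    (∀ p ∈ ps, 0 ≤ p.z ∧ p.z ≤ Real.log X) → ∀ (T E F : ℝ) (Sh : ℝ → ℝ → ℝ → ℝ), 0 ≤ F →
    LipS L Sh → CellK Kn h P q ps (X ^ B₀) (r + 1) M T E F Sh →
    ∀ g : Eis, IsPrim g → (nm g : ℝ) ≤ X ^ B₀ →
    ∀ (B V Y t : ℝ) (Q : Eis → Prop), 1 ≤ B → B ≤ X ^ B₀ → Real.log B ≤ E + 1 → 1 ≤ V → V ≤ X →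
    0 ≤ Y → Real.log V ≤ T - 2 * Real.log (nm g) →
    JBK Kn Y (sqc q (alF 1 1 P h (natl ps))) Q g B V t ≤
      C * X ^ ε * F * Real.exp (Sh (Real.log (nm g)) (Real.log B) (Real.log V)) *
        (1 + |t|) ^ ((N : ℝ) * M) := by
  obtain ⟨C, r, hC, hr, H⟩ := numJK hKn hpu N hB₀ hε hM
  refine ⟨C * Real.exp (r + L * (2 * r)), 2 * r, ?_, by positivity, ?_⟩
  · have : 1 ≤ Real.exp (r + L * (2 * r)) := Real.one_le_exp (by positivity)
    nlinarith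
  intro X hX P hP q ps hN hz T E F Sh hF hLip hcl g hg hgX B V Y t Q hB1 hBX hBE hV1 hVX hY hVT
  have hb0 : 0 ≤ Real.log B := Real.log_nonneg hB1
  have key := H X hX P hP q ps hN hz g hg hgX B V Y t Q hB1 hBX hV1 hVX hY F
    (Sh (Real.log (nm g)) (Real.log B) (Real.log V) + (r + L * (2 * r))) hF ?_
  · refine key.trans (le_of_eq ?_)
    rw [Real.exp_add]
    ring
  · intro l ps' hl hch h1 h2
    obtain ⟨h1a, h1b⟩ := abs_le.1 h1
    obtain ⟨h2a, h2b⟩ := abs_le.1 h2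
    have h7 := hcl g hg hgX (Real.log B) l ps' hb0 (by linarith) hl
      (hch.imp fun _ _ hc => ⟨hc.1, hc.2.1, hc.2.2.1,
        hc.2.2.2.1, hc.2.2.2.2.trans (by linarith)⟩) (h1.trans (by linarith)) (by linarith)
    refine h7.trans ?_
    have h8 := hLip (Real.log (nm g)) (Real.log B) (l - Real.log B) (Real.log B) (Real.log V)
    rw [sub_self, abs_zero, zero_add] at h8
    have h9 : |l - Real.log B - Real.log V| ≤ 2 * r := by
      rw [abs_le]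
      constructor <;> linarith
    have h10 := mul_le_mul_of_nonneg_left h9 hL
    refine mul_le_mul_of_nonneg_left (Real.exp_le_exp.2 (by linarith))
      (mul_nonneg hF (Real.rpow_nonneg (cN_nonneg _ _) _))

/-- the bias cell: `(2/3)(v + b) - (5/3)(γ + b) - max 0 (s0 - γ - b)` (relative to `(5/3) n`) -/
def bcx (s0 γ b v : ℝ) : ℝ := 2 / 3 * (v + b) - 5 / 3 * (γ + b) - max 0 (s0 - (γ + b))

/-- **the numbers of the joint blocks of a difference** -/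
theorem numSx {h : ℝ → ℝ} {c : ℝ} (hpu : PU h c) (N : ℕ) {B₀ : ℝ} (hB₀ : 0 ≤ B₀) {ε : ℝ}
    (hε : 0 < ε) {M : ℝ} (hM : 0 ≤ M) {L : ℝ} (hL : 0 ≤ L) :
    ∃ C r : ℝ, 1 ≤ C ∧ 0 ≤ r ∧ ∀ X : ℝ, 3 ≤ X →
    ∀ (P : DPar), P.OK → ∀ (q : Eis) (ps ps' : List Pq), ps.length ≤ N → ps'.length ≤ N →
    (∀ p ∈ ps, 0 ≤ p.z ∧ p.z ≤ Real.log X) → (∀ p ∈ ps', 0 ≤ p.z ∧ p.z ≤ Real.log X) →
    ∀ ζ : ℂ, ‖ζ‖ ≤ 1 → ∀ x : Eis → ℂ,
    (∀ n, x n = sqc q (alF 1 1 P h (natl ps)) n - ζ * sqc q (alF 1 1 P h (natl ps')) n) →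
    ∀ (T E F F' Eb s0 Fb : ℝ) (Sh : ℝ → ℝ → ℝ → ℝ), 0 ≤ F → 0 ≤ F' → 0 ≤ Eb → 0 ≤ Fb →
    LipS L Sh → CellK Dk h P q ps (X ^ B₀) (r + 1) M T E F Sh →
    CellK Dk h P q ps' (X ^ B₀) (r + 1) M T E F' Sh →
    PBh x Eb (Real.exp (-s0)) (max (N * M) 12) ((X ^ (B₀ + 1)) ^ 2) →
    (∀ γ b v : ℝ, 0 ≤ γ → 0 ≤ b → b ≤ E + 1 → 0 ≤ v → v ≤ T - 2 * γ →
      Eb * Real.exp (bcx s0 γ b v) ≤ Fb * Real.exp (Sh γ b v)) →
    ∀ g : Eis, IsPrim g → (nm g : ℝ) ≤ X ^ B₀ →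
    ∀ (B V Y t : ℝ) (Q : Eis → Prop), 1 ≤ B → B ≤ X ^ B₀ → Real.log B ≤ E + 1 → 1 ≤ V → V ≤ X →
    0 ≤ Y → Y ≤ X ^ B₀ → Real.log V ≤ T - 2 * Real.log (nm g) →
    JB Y x Q g B V t ≤
      C * X ^ ε * (F + F' + Fb) *
        Real.exp (Sh (Real.log (nm g)) (Real.log B) (Real.log V)) *
        (1 + |t|) ^ (max ((N : ℝ) * M) 12) := by
  set ε' : ℝ := ε / (B₀ + 1) with hε'
  have hε'0 : 0 < ε' := by positivity
  obtain ⟨Cb, rb, hCb, hrb, Hb⟩ := numSK Dk848.ker_Dk hpu N hB₀ hε hM hL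
  obtain ⟨Cx, hCx, Hx⟩ := JB_min (ε := ε') hε'0
  refine ⟨3 * Cb + Cx, rb, by linarith, hrb, ?_⟩
  intro X hX P hP q ps ps' hN hN' hz hz' ζ hζ x hx T E F F' Eb s0 Fb Sh hF hF' hEb hFb hLip hcl
    hcl' hPB hbias g hg hgX B V Y t Q hB1 hBX hBE hV1 hVX hY hYX hVT
  have hX1 : (1 : ℝ) ≤ X := by linarith
  have hX0 : 0 < X := by linarith
  set J : ℝ := max ((N : ℝ) * M) 12 with hJ
  set Pb : ℝ := X ^ (B₀ + 1) with hPb
  have hPb1 : 1 ≤ Pb := Real.one_le_rpow hX1 (by positivity)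
  have hPe : Pb ^ ε' = X ^ ε := by
    rw [hPb, ← Real.rpow_mul hX0.le]
    congr 1
    rw [hε']
    field_simp
  have hXPb : X ^ B₀ ≤ Pb := Real.rpow_le_rpow_of_exponent_le hX1 (by linarith)
  have hPP : Pb ≤ Pb ^ 2 := by nlinarith
  have hV0 : 0 < V := by linarith
  have hB0 : 0 < B := by linarith
  have hg1 : (1 : ℝ) ≤ nm g := by exact_mod_cast nm_pos.2 hg.ne_zero
  have hVB : V * B ≤ Pb := by
    rw [hPb, Real.rpow_add hX0, Real.rpow_one, mul_comm]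
    exact mul_le_mul hBX hVX hV0.le (by positivity)
  have hbump := bump_of_cs hpu.cs
  have hFα : FS (sqc q (alF 1 1 P h (natl ps))) := HP842.FS.sqc (FS_alF hbump hP 1 1 _) q
  have hFβ : FS (sqc q (alF 1 1 P h (natl ps'))) := HP842.FS.sqc (FS_alF hbump hP 1 1 _) q
  have main := Hx _ _ x ζ hζ hFα hFβ hx Eb s0 Y Pb J hEb hY Q g hg B V t hB1 hV1 hVB
    (fun U hU _ j hj hjV => by
      obtain ⟨hUY, hUp, -⟩ := (mem_S hY).1 hU
      refine hPB (g * U) (hg.mul hUp) ?_ j hj (hjV.trans (hVB.trans hPP)) t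
      rw [nm_mul, pow_two]
      push_cast
      exact mul_le_mul (hgX.trans hXPb) (hUY.trans (hYX.trans hXPb)) (Nat.cast_nonneg _)
        (by linarith))
  rw [hPe] at main
  have h5 := Hb X hX P hP q ps hN hz T E F Sh hF hLip hcl g hg hgX B V Y t Q hB1 hBX hBE hV1 hVX
    hY hVT
  have h6 := Hb X hX P hP q ps' hN' hz' T E F' Sh hF' hLip hcl' g hg hgX B V Y t Q hB1 hBX hBE hV1
    hVX hY hVT
  have hpw : (1 + |t|) ^ ((N : ℝ) * M) ≤ (1 + |t|) ^ J :=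
    Real.rpow_le_rpow_of_exponent_le (by linarith [abs_nonneg t]) (le_max_left _ _)
  have hT0 : 0 ≤ (1 + |t|) ^ J := Real.rpow_nonneg (by positivity) _
  have h7 := hbias (Real.log (nm g)) (Real.log B) (Real.log V) (Real.log_nonneg hg1)
    (Real.log_nonneg hB1) hBE (Real.log_nonneg hV1) hVT
  unfold bcx at h7
  set ES := Real.exp (Sh (Real.log (nm g)) (Real.log B) (Real.log V)) with hES
  have hES0 : 0 ≤ ES := (Real.exp_pos _).le
  have h8 : Cb * X ^ ε * F * ES * (1 + |t|) ^ ((N : ℝ) * M) ≤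
      Cb * X ^ ε * F * ES * (1 + |t|) ^ J := mul_le_mul_of_nonneg_left hpw (by positivity)
  have h9 : Cb * X ^ ε * F' * ES * (1 + |t|) ^ ((N : ℝ) * M) ≤
      Cb * X ^ ε * F' * ES * (1 + |t|) ^ J := mul_le_mul_of_nonneg_left hpw (by positivity)
  have h10 : Cx * X ^ ε * (Eb * Real.exp (2 / 3 * (Real.log V + Real.log B) -
        5 / 3 * (Real.log (nm g) + Real.log B) -
        max 0 (s0 - (Real.log (nm g) + Real.log B))) * (1 + |t|) ^ J) ≤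
      Cx * X ^ ε * (Fb * ES * (1 + |t|) ^ J) := by gcongr
  have e1 : (3 * Cb + Cx) * X ^ ε * (F + F' + Fb) * ES * (1 + |t|) ^ J =
      3 * (Cb * X ^ ε * F * ES * (1 + |t|) ^ J) + 3 * (Cb * X ^ ε * F' * ES * (1 + |t|) ^ J) +
      Cx * X ^ ε * (Fb * ES * (1 + |t|) ^ J) +
      (Cx * X ^ ε * (F + F') * ES + 3 * Cb * X ^ ε * Fb * ES) * (1 + |t|) ^ J := by ring
  rw [e1]
  have h11 : 0 ≤ (Cx * X ^ ε * (F + F') * ES + 3 * Cb * X ^ ε * Fb * ES) * (1 + |t|) ^ J := by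
    positivity
  linarith

set_option maxHeartbeats 1000000 in
/-- **the T-moment with the adapted weight** (146's `TJG` for differences) -/
theorem TJGx {h : ℝ → ℝ} {c : ℝ} (hpu : PU h c) (N : ℕ) {ε M B₂ : ℝ} (hε : 0 < ε) (hM : 0 ≤ M)
    (hB₂ : 0 < B₂) {ν Dd : ℝ} (hν : 1 ≤ ν) (hDd : 0 ≤ Dd) {A : ℕ}
    (hA : max ((N : ℝ) * M) 12 + 1 < A) {L : ℝ} (hL : 0 ≤ L) :
    ∃ C r : ℝ, 0 ≤ C ∧ 0 ≤ r ∧ ∀ X : ℝ, 3 ≤ X → ∀ (P : DPar), P.OK →
      ∀ (q : Eis) (ps ps' : List Pq), ps.length ≤ N → ps'.length ≤ N →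
      (∀ p ∈ ps, 0 ≤ p.z ∧ p.z ≤ Real.log X) → (∀ p ∈ ps', 0 ≤ p.z ∧ p.z ≤ Real.log X) →
      ∀ ζ : ℂ, ‖ζ‖ ≤ 1 → ∀ x : Eis → ℂ,
      (∀ n, x n = sqc q (alF 1 1 P h (natl ps)) n - ζ * sqc q (alF 1 1 P h (natl ps')) n) →
      ∀ (K Y D Y₀ Z T E0 Tg F F' Eb s0 Fb n : ℝ) (Sh : ℝ → ℝ → ℝ → ℝ), 0 < K → 1 ≤ Y →
      Y ≤ X ^ B₂ → 0 < Z → Z * ν ≤ X → Real.log (Z * ν) ≤ T → 0 < E0 → 0 ≤ F → 0 ≤ F' →
      0 ≤ Eb → 0 ≤ Fb → LipS L Sh →
      CellK Dk h P q ps (X ^ B₂) r M T (Real.log E0) F Sh →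
      CellK Dk h P q ps' (X ^ B₂) r M T (Real.log E0) F' Sh →
      PBh x Eb (Real.exp (-s0)) (max (N * M) 12) ((X ^ (B₂ + 1)) ^ 2) →
      (∀ γ b v : ℝ, 0 ≤ γ → 0 ≤ b → b ≤ Real.log E0 + 1 → 0 ≤ v → v ≤ T - 2 * γ →
        Eb * Real.exp (bcx s0 γ b v) ≤ Fb * Real.exp (Sh γ b v)) →
      ∀ al : Eis → ℂ, Dom ν Dd x al → (∀ n, al n ≠ 0 → n ∈ S Y) →
      TJ (cG (rhoS Tg (Real.log K) Sh) E0) A K (Real.exp n) Y (JW D Y₀ Z) al ≤
        C * X ^ ε * ((F + F' + Fb) * Real.exp (Tg + 2 / 3 * n)) := by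
  set a₁ : ℝ := B₂ + 1 with ha₁
  have ha₁0 : 0 < a₁ := by positivity
  set ε' : ℝ := ε / (2 * a₁) with hε'
  have hε'0 : 0 < ε' := by positivity
  have hε2 : 0 < ε / 2 := by positivity
  obtain ⟨Cb, rb, hCb, hrb, Hb⟩ := numSx hpu N hB₂.le hε2 hM hL
  set J : ℝ := max ((N : ℝ) * M) 12 with hJ
  have hJ0 : 0 ≤ J := (by norm_num : (0 : ℝ) ≤ 12).trans (le_max_right _ _)
  obtain ⟨C₁, hC₁, H₁⟩ := TJ_le (A := A) (J := J) (ε := ε') hA hJ0 hε'0
  set lν := Real.log ν with hlν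
  have hlν0 : 0 ≤ lν := Real.log_nonneg hν
  set Kc : ℝ := Real.exp (1 + L + L * 3 + L * lν) with hKc
  refine ⟨C₁ * (Dd * Kc * Cb), rb + 1, by positivity, by positivity, ?_⟩
  intro X hX P hP q ps ps' hN hN' hz hz' ζ hζ x hx K Y D Y₀ Z T E0 Tg F F' Eb s0 Fb n Sh hK0 hY1
    hYu hZ hZX hT hE0 hF hF' hEb hFb hLip hcl hcl' hPB hbias al hdom hsup
  have hX1 : (1 : ℝ) ≤ X := by linarith
  have hX0 : 0 < X := by linarith
  have hY0 : 0 < Y := by linarith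
  have hν0 : 0 < ν := by linarith
  set κ := Real.log K with hκ
  set Pb : ℝ := X ^ a₁ with hPb
  have hPb1 : 1 ≤ Pb := Real.one_le_rpow hX1 ha₁0.le
  have hYPb : Y ≤ Pb := hYu.trans (Real.rpow_le_rpow_of_exponent_le hX1 (by rw [ha₁]; linarith))
  have hXPb : X ≤ Pb := by
    calc X = X ^ (1 : ℝ) := (Real.rpow_one X).symm
      _ ≤ _ := Real.rpow_le_rpow_of_exponent_le hX1 (by rw [ha₁]; linarith)
  have hPe : Pb ^ ε' = X ^ (ε / 2) := by
    rw [hPb, ← Real.rpow_mul hX0.le]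
    congr 1
    rw [hε']
    field_simp
  have hXe : X ^ (ε / 2) * X ^ (ε / 2) = X ^ ε := by
    rw [← Real.rpow_add hX0]; congr 1; ring
  have hZPb : Z ≤ Pb := (le_mul_of_one_le_right hZ.le hν).trans (hZX.trans hXPb)
  have hrw := rw_rhoS hLip hL Tg κ
  have hl2 : Real.log 2 ≤ 1 := by
    have := Real.log_two_lt_d9
    linarith
  set FF := F + F' + Fb with hFF
  have hFF0 : 0 ≤ FF := by positivity
  have key := H₁ Pb K (Real.exp n) Y D Y₀ Z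
    (Dd * Kc * (Cb * X ^ (ε / 2) * (FF * Real.exp (Tg + 2 / 3 * n)))) al hPb1 hK0
    (Real.exp_pos n) hY1 hYPb
    hZPb (by positivity) hsup (cG (rhoS Tg κ Sh) E0)
    (cG_nonneg hrw E0)
    (fun δ B V => if Real.log B ≤ Real.log E0 + 1 then
      Real.exp (1 + L + L * 3) * Real.exp (Tg + (κ + Real.log V) / 3 - 4 / 3 * Real.log (nm δ) -
        Sh (Real.log (nm δ)) (Real.log B) (Real.log V)) else 0)
    (fun δ B V => by
      split_ifs
      · positivity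
      · exact le_rfl)
    (fun δ hδ t ht j hj B V hB1 hB2 hV1 hV2 => by
      have htp := ((mem_S hY0.le).1 ht).2.1
      have ht0 : (0 : ℝ) < nm t := by exact_mod_cast nm_pos.2 htp.ne_zero
      have hj0 : (0 : ℝ) < nm j := by exact_mod_cast nm_pos.2 hj
      unfold cG
      by_cases hE : t ∈ S E0
      swap
      · rw [if_neg hE]
        split_ifs
        · positivity
        · exact le_rfl
      rw [if_pos hE]
      have htE := ((mem_S hE0.le).1 hE).1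
      have hbt : Real.log (nm t) ≤ Real.log B := Real.log_le_log ht0 hB1
      have hbt2 : Real.log B ≤ Real.log (nm t) + Real.log 2 := by
        rw [← Real.log_mul ht0.ne' (by norm_num)]
        exact Real.log_le_log (ht0.trans_le hB1) (by linarith)
      have hvt : Real.log (nm j) ≤ Real.log V := Real.log_le_log hj0 hV1
      have hvt2 : Real.log V ≤ Real.log (nm j) + Real.log 2 := by
        rw [← Real.log_mul hj0.ne' (by norm_num)]
        exact Real.log_le_log (hj0.trans_le hV1) (by linarith)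
      have hlE : Real.log (nm t) ≤ Real.log E0 := Real.log_le_log ht0 htE
      rw [if_pos (by linarith)]
      unfold rhoS
      rw [← Real.exp_add]
      refine Real.exp_le_exp.2 ?_
      have h3 := hLip (Real.log (nm δ)) (Real.log B) (Real.log V) (Real.log (nm t))
        (Real.log (nm j))
      rw [abs_of_nonneg (by linarith), abs_of_nonneg (by linarith)] at h3
      have h5 : L * (Real.log B - Real.log (nm t) + (Real.log V - Real.log (nm j))) ≤ L * 2 :=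
        mul_le_mul_of_nonneg_left (by linarith) hL
      show Tg + (κ + Real.log (nm j)) / 3 - 4 / 3 * Real.log (nm δ) -
        Sh (Real.log (nm δ)) (Real.log (nm t)) (Real.log (nm j)) ≤ _
      linarith)
    (fun δ hδ B V hB1 hB2 hV1 hV2 t => by
      obtain ⟨h2, h1, -⟩ := (mem_S hY0.le).1 hδ
      have hδn : (0 : ℝ) < nm δ := by exact_mod_cast nm_pos.2 h1.ne_zero
      have hδ1 : (1 : ℝ) ≤ nm δ := by exact_mod_cast nm_pos.2 h1.ne_zero
      have hV0 : 0 < V := by linarith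
      have hB0 : 0 < B := by linarith
      by_cases hBE : Real.log B ≤ Real.log E0 + 1
      swap
      · rw [if_neg hBE]
        simp only [zero_mul]
        positivity
      rw [if_pos hBE]
      have hVν : 1 ≤ V * ν := one_le_mul_of_one_le_of_one_le hV1 hν
      have hVZ : V ≤ Z := hV2.trans (div_le_self hZ.le (one_le_pow₀ hδ1))
      have hVX : V * ν ≤ X := (mul_le_mul_of_nonneg_right hVZ hν0.le).trans hZX
      have hVT : Real.log (V * ν) ≤ T - 2 * Real.log (nm δ) := by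
        have h3 := Real.log_le_log hV0 hV2
        rw [Real.log_div hZ.ne' (by positivity), Real.log_pow] at h3
        push_cast at h3
        rw [Real.log_mul hV0.ne' hν0.ne']
        rw [Real.log_mul hZ.ne' hν0.ne'] at hT
        linarith
      have h5 := Hb X hX P hP q ps ps' hN hN' hz hz' ζ hζ x hx T (Real.log E0) F F' Eb s0 Fb Sh
        hF hF' hEb hFb hLip hcl hcl' hPB hbias δ h1 (h2.trans hYu) B
        (V * ν) Y t (fun _ => True) hB1 (hB2.trans hYu) hBE hVν hVX hY0.le hYu hVT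
      have h6 := hdom.jb Y (fun _ => True) δ B V t h1 hY0.le hV1
      have hlVν : Real.log (V * ν) = Real.log V + lν := by
        rw [Real.log_mul hV0.ne' hν0.ne']
      have h7 : Real.exp (Sh (Real.log (nm δ)) (Real.log B) (Real.log (V * ν))) ≤
          Real.exp (L * lν) *
            Real.exp (Sh (Real.log (nm δ)) (Real.log B) (Real.log V)) := by
        rw [← Real.exp_add]
        refine Real.exp_le_exp.2 ?_
        have h3 := hLip (Real.log (nm δ)) (Real.log B) (Real.log (V * ν)) (Real.log B)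
          (Real.log V)
        rw [sub_self, abs_zero, zero_add, hlVν, add_sub_cancel_left, abs_of_nonneg hlν0] at h3
        rw [hlVν]
        linarith
      set s₀ := Sh (Real.log (nm δ)) (Real.log B) (Real.log V) with hs₀
      have hyv : nm δ * (yv K (Real.exp n) δ V)⁻¹ =
          Real.exp (Real.log (nm δ) - ((κ + Real.log V) / 3 -
            2 / 3 * (n - Real.log (nm δ)))) := by
        rw [yv_exp hK0 hV0 n h1.ne_zero, ← Real.exp_neg]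
        calc (nm δ : ℝ) * Real.exp (-((Real.log K + Real.log V) / 3 -
              2 / 3 * (n - Real.log (nm δ)))) =
              Real.exp (Real.log (nm δ)) * Real.exp (-((Real.log K + Real.log V) / 3 -
              2 / 3 * (n - Real.log (nm δ)))) := by rw [Real.exp_log hδn]
          _ = _ := by rw [← Real.exp_add, hκ]; congr 1
      have h8 : Real.exp (Tg + (κ + Real.log V) / 3 - 4 / 3 * Real.log (nm δ) - s₀) *
          (nm δ * (yv K (Real.exp n) δ V)⁻¹) * Real.exp s₀ =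
          Real.exp (Tg + 2 / 3 * n) / nm δ := by
        rw [hyv, ← Real.exp_add, ← Real.exp_add]
        have e1 : Real.exp (Tg + 2 / 3 * n) / nm δ =
            Real.exp (Tg + 2 / 3 * n - Real.log (nm δ)) := by
          rw [Real.exp_sub, Real.exp_log hδn]
        rw [e1]
        congr 1
        ring
      have hKc' : Kc = Real.exp (1 + L + L * 3) * Real.exp (L * lν) := by
        rw [hKc, ← Real.exp_add]
      have hyn : 0 ≤ nm δ * (yv K (Real.exp n) δ V)⁻¹ := by rw [hyv]; positivity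
      calc Real.exp (1 + L + L * 3) * Real.exp (Tg + (κ + Real.log V) / 3 -
            4 / 3 * Real.log (nm δ) - s₀) * (nm δ * (yv K (Real.exp n) δ V)⁻¹) *
            JB Y al (fun _ => True) δ B V t ≤
          Real.exp (1 + L + L * 3) * Real.exp (Tg + (κ + Real.log V) / 3 -
            4 / 3 * Real.log (nm δ) - s₀) * (nm δ * (yv K (Real.exp n) δ V)⁻¹) *
            (Dd * (Cb * X ^ (ε / 2) * FF * (Real.exp (L * lν) * Real.exp s₀) *
              (1 + |t|) ^ J)) := by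
            refine mul_le_mul_of_nonneg_left (h6.trans (mul_le_mul_of_nonneg_left
              (h5.trans ?_) hDd)) (by positivity)
            have h9 : 0 ≤ Cb * X ^ (ε / 2) * FF := by positivity
            exact mul_le_mul_of_nonneg_right (mul_le_mul_of_nonneg_left h7 h9) (by positivity)
        _ = (Real.exp (Tg + (κ + Real.log V) / 3 - 4 / 3 * Real.log (nm δ) - s₀) *
              (nm δ * (yv K (Real.exp n) δ V)⁻¹) * Real.exp s₀) *
              (Dd * Kc * (Cb * X ^ (ε / 2) * FF) * (1 + |t|) ^ J) := by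
            rw [hKc']; ring
        _ = _ := by rw [h8]; ring)
  refine key.trans (le_of_eq ?_)
  rw [hPe]
  calc C₁ * X ^ (ε / 2) * (Dd * Kc * (Cb * X ^ (ε / 2) * (FF * Real.exp (Tg + 2 / 3 * n)))) =
        C₁ * (Dd * Kc * Cb) * (X ^ (ε / 2) * X ^ (ε / 2)) * (FF * Real.exp (Tg + 2 / 3 * n)) := by
          ring
    _ = _ := by rw [hXe]

/-- **the compensated pieces with level weights** (146's `E2G`) -/
theorem E2Gx {w : ℝ → ℝ} {N : ℕ} {M : ℝ} {F : ℕ → ℝ → ℂ} (_h : WD w N M F) (R : ℝ) (hR : 0 ≤ R)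
    (A : ℕ) (hA : 2 ≤ A) {c : ℝ} (hc : 0 ≤ c) : ∃ C : ℝ, 0 ≤ C ∧
    ∀ (ρ : Eis → Eis → ℝ → ℝ), RW ρ c →
    ∀ (Y X K D Y₀ Z E0 η : ℝ) (I : ℕ), 0 ≤ Y → 0 < X → 0 < K → 0 ≤ D → 0 < Z →
      0 ≤ E0 → ∀ α : Eis → ℂ, Adm Y X R α → ∀ om : Eis × Eis → ℂ, (∀ x, ‖om x‖ ≤ 1) →
      ∑ i ∈ Finset.range N, E2e (GF (Fh (F i) η)) (sc K M i) E0 (S D) Z I (JW D Y₀ Z) om α ≤
      C * (K / X) * TJ (cG ρ E0) A K X Y (JW D Y₀ Z) α +
        ∑ i ∈ Finset.range N, RPg ρ α (sc K M i) (GF (Fh (F i) η)) (S D) I E0 Z := by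
  obtain ⟨C₁, hC₁, H₁⟩ := TRg_le R hR A hA
  refine ⟨(∑ i ∈ Finset.range N, c * (Real.exp (i - M)) ^ (2 / 3 : ℝ)) * C₁,
    mul_nonneg (Finset.sum_nonneg fun _ _ => by positivity) hC₁, ?_⟩
  intro ρ hρ Y X K D Y₀ Z E0 η I hY hX hK hD hZ hE0 α hα om hom
  have h2 := H₁ Y X K E0 hY hX hK α hα (JW D Y₀ Z) (okJ_JW D Y₀ Z) ρ c hρ
  have h3 : ∀ i ∈ Finset.range N, E2e (GF (Fh (F i) η)) (sc K M i) E0 (S D) Z I (JW D Y₀ Z) om α ≤
      c * (Real.exp (i - M)) ^ (2 / 3 : ℝ) *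
        (C₁ * ((K / X) * TJ (cG ρ E0) A K X Y (JW D Y₀ Z) α)) +
        RPg ρ α (sc K M i) (GF (Fh (F i) η)) (S D) I E0 Z := by
    intro i _
    have hs := sc_pos hK M i
    have h4 := crossG hρ (Y₀ := Y₀) (D := D) (E0 := E0) hs one_pos hZ α (TE α) (Ds := S D)
      (fun δ hδ => ⟨((mem_S hD).1 hδ).2.1, ((mem_S hD).1 hδ).2.2⟩) I hom (GF (Fh (F i) η))
    have e1 : (sc K M i) ^ (2 / 3 : ℝ) = (Real.exp (i - M)) ^ (2 / 3 : ℝ) * K ^ (2 / 3 : ℝ) := by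
      unfold WDec180.sc
      rw [Real.mul_rpow hK.le (Real.exp_pos _).le]
      ring
    rw [e1, inv_one, one_mul, mul_one] at h4
    refine h4.trans ?_
    have h5 : 0 ≤ c * (Real.exp (i - M)) ^ (2 / 3 : ℝ) := by positivity
    have h6 := mul_le_mul_of_nonneg_left h2 h5
    refine add_le_add (le_trans (le_of_eq ?_) (h6.trans (le_of_eq ?_))) le_rfl
    · ring
    · ring
  refine (Finset.sum_le_sum h3).trans ?_
  rw [Finset.sum_add_distrib, ← Finset.sum_mul]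
  refine add_le_add (le_of_eq ?_) le_rfl
  ring

set_option maxHeartbeats 1000000 in
/-- **the cross error of a sequence dominated by a difference, two scales** -/
theorem crossX {w : ℝ → ℝ} {Nw : ℕ} {Mw : ℝ} {Fw : ℕ → ℝ → ℂ}
    (hWD : WD w Nw Mw Fw) {h : ℝ → ℝ} {c : ℝ} (hpu : PU h c)
    (N : ℕ) {R₁ : ℝ} (hR₁ : 0 ≤ R₁) (hR : ∀ u, cx h u ≠ 0 → |u| ≤ R₁) {ε M B₂ : ℝ}
    (hε : 0 < ε) (hM : 0 ≤ M) (hB₂ : 0 < B₂) {ν Dd : ℝ} (hν : 1 ≤ ν)
    (hDd : 0 ≤ Dd) {L : ℝ} (hL : 0 ≤ L) :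
    ∃ C r : ℝ, 0 ≤ C ∧ 0 ≤ r ∧ ∀ X : ℝ, 3 ≤ X → ∀ (P : DPar), P.OK →
      ∀ (q : Eis) (ps ps' : List Pq), ps.length ≤ N → ps'.length ≤ N →
      (∀ p ∈ ps, 0 ≤ p.z ∧ p.z ≤ Real.log X) → (∀ p ∈ ps', 0 ≤ p.z ∧ p.z ≤ Real.log X) →
      LN ps' = LN ps → ∀ ζ : ℂ, ‖ζ‖ ≤ 1 → ∀ x : Eis → ℂ,
      (∀ n, x n = sqc q (alF 1 1 P h (natl ps)) n - ζ * sqc q (alF 1 1 P h (natl ps')) n) →
      ∀ (K Y D Y₀ Y₁ E0 Tg F F' Eb s0 Fb η : ℝ) (Sh : ℝ → ℝ → ℝ → ℝ) (I : ℕ), 1 ≤ K →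
      Real.exp (LN ps + N * R₁ + 1) ≤ Y → Y ≤ X ^ B₂ → 0 ≤ D → 0 < Y₁ → Y₁ * ν ≤ X → 0 < E0 →
      Y₁ < 2 ^ I → 0 ≤ η → 0 ≤ F → 0 ≤ F' → 0 ≤ Eb → 0 ≤ Fb → LipS L Sh →
      CellK Dk h P q ps (X ^ B₂) r M (Real.log (Y₁ * ν)) (Real.log E0) F Sh →
      CellK Dk h P q ps' (X ^ B₂) r M (Real.log (Y₁ * ν)) (Real.log E0) F' Sh →
      PBh x Eb (Real.exp (-s0)) (max (N * M) 12) ((X ^ (B₂ + 1)) ^ 2) →
      (∀ γ b v : ℝ, 0 ≤ γ → 0 ≤ b → b ≤ Real.log E0 + 1 → 0 ≤ v →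
        v ≤ Real.log (Y₁ * ν) - 2 * γ →
        Eb * Real.exp (bcx s0 γ b v) ≤ Fb * Real.exp (Sh γ b v)) →
      ∀ al : Eis → ℂ, Dom ν Dd x al →
      ∀ om : Eis × Eis → ℂ, (∀ x, ‖om x‖ ≤ 1) → ∀ (Q : Eis → Prop),
      ‖CrP w K al (fun k => if Q k then StE E0 (JW D Y₀ Y₁) om al k else 0) -
        ((pC * c3 w K : ℝ) : ℂ) * X2 Y E0 (JW D Y₀ Y₁) om al‖ ≤
      C * X ^ ε * (K / Real.exp (LN ps)) * ((F + F' + Fb) * Real.exp (Tg + 2 / 3 * LN ps)) +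
      ∑ i ∈ Finset.range Nw, RPg (rhoS Tg (Real.log K) Sh) al (sc K Mw i) (GF (Fh (Fw i) η))
        (S D) I E0 Y₁ +
      ∑ i ∈ Finset.range Nw, ‖CrQ (GF (Fh (Fw i) η)) (fun k => ¬ Q k) (sc K Mw i) al
          (StE E0 (JW D Y₀ Y₁) om al)‖ +
      Real.exp (η / 3) * ‖CrP w (K * Real.exp (-η)) al
          (fun k => if Q k then StE E0 (JW D Y₀ Y₁) om al k else 0)‖ +
      Real.exp (-(η / 3)) * ‖((pC * c3 w K : ℝ) : ℂ) * X2 Y E0 (JW D Y₀ Y₁) om al‖ := by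
  have hN0 : (0 : ℝ) ≤ N := Nat.cast_nonneg _
  set A : ℕ := ⌈max ((N : ℝ) * M) 12⌉₊ + 2 with hA
  have hA2 : 2 ≤ A := by omega
  have hJA : max ((N : ℝ) * M) 12 + 1 < A := by
    have h1 := Nat.le_ceil (max ((N : ℝ) * M) 12)
    rw [hA]
    push_cast
    linarith
  obtain ⟨C₂, r₂, hC₂, hr₂, H₂⟩ := TJGx hpu N hε hM hB₂ hν hDd hJA hL
  obtain ⟨C₃, hC₃, H₃⟩ := E2Gx hWD (2 * (N * R₁)) (by positivity) A hA2
    (Real.exp_pos (1 + L)).le
  refine ⟨C₃ * C₂, r₂, by positivity, hr₂, ?_⟩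
  intro X hX P hP q ps ps' hN hN' hz hz' hLN ζ hζ x hx K Y D Y₀ Y₁ E0 Tg F F' Eb s0 Fb η Sh I hK
    hYl hYu hD hY₁ hYX hE0 hI hη hF hF' hEb hFb hLip hcs hcs' hPB hbias al hdom om homb Q
  have hX1 : (1 : ℝ) ≤ X := by linarith
  have hX0 : 0 < X := by linarith
  have hK0 : 0 < K := by linarith
  set n := LN ps with hn
  have hn0 : 0 ≤ n := by
    rw [hn]
    unfold LN
    refine List.sum_nonneg fun x hx => ?_
    obtain ⟨p, hp, rfl⟩ := List.mem_map.1 hx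
    exact (hz p hp).1
  have hY1 : 1 ≤ Y := le_trans (Real.one_le_exp (by positivity)) hYl
  have hY0 : 0 < Y := by linarith
  have hadm₀ : Adm Y (Real.exp n) (2 * (N * R₁)) (sqc q (alF 1 1 P h (natl ps))) :=
    Adm_list hR₁ hR P q hN (le_trans (Real.exp_le_exp.2 (by linarith)) hYl)
  have hadm₁ : Adm Y (Real.exp n) (2 * (N * R₁)) (sqc q (alF 1 1 P h (natl ps'))) := by
    have h1 := Adm_list (Y := Y) hR₁ hR P q hN' (le_trans (Real.exp_le_exp.2 (by linarith)) hYl)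
    rwa [hLN] at h1
  have hne : ∀ m, al m ≠ 0 → sqc q (alF 1 1 P h (natl ps)) m ≠ 0 ∨
      sqc q (alF 1 1 P h (natl ps')) m ≠ 0 := fun m hm => by
    by_contra h0
    push Not at h0
    apply hm
    have := hdom.le m
    rw [hx m, h0.1, h0.2, mul_zero, sub_zero, norm_zero] at this
    exact norm_le_zero_iff.1 (by simpa using this)
  have hadm : Adm Y (Real.exp n) (2 * (N * R₁)) al :=
    ⟨fun m hm => (hne m hm).elim (hadm₀.sup m) (hadm₁.sup m),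
      fun m hm => (hne m hm).elim (hadm₀.win m) (hadm₁.win m)⟩
  have b1 := H₂ X hX P hP q ps ps' hN hN' hz hz' ζ hζ x hx K Y D Y₀ Y₁ (Real.log (Y₁ * ν)) E0 Tg
    F F' Eb s0 Fb n Sh hK0 hY1 hYu hY₁ hYX le_rfl hE0 hF hF' hEb hFb hLip hcs hcs' hPB hbias al
    hdom hadm.sup
  have b2 := H₃ (rhoS Tg (Real.log K) Sh) (rw_rhoS hLip hL Tg (Real.log K)) Y (Real.exp n) K D Y₀
    Y₁ E0 η I hY0.le (Real.exp_pos n) hK0 hD hY₁ hE0.le al hadm om homb
  have b3 : C₃ * (K / Real.exp n) * TJ (cG (rhoS Tg (Real.log K) Sh) E0) A K (Real.exp n) Y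
      (JW D Y₀ Y₁) al ≤ C₃ * C₂ * X ^ ε * (K / Real.exp n) *
        ((F + F' + Fb) * Real.exp (Tg + 2 / 3 * n)) := by
    calc _ ≤ C₃ * (K / Real.exp n) * (C₂ * X ^ ε * ((F + F' + Fb) *
          Real.exp (Tg + 2 / 3 * n))) := mul_le_mul_of_nonneg_left b1 (by positivity)
      _ = _ := by ring
  have b4 := cross_ex (Y₀ := Y₀) hWD hη Q hK0 hE0.le hY0.le hD hY₁ hI hadm.sup om
  refine b4.trans ?_
  exact add_le_add (add_le_add (add_le_add (b2.trans (add_le_add b3 le_rfl)) le_rfl) le_rfl) le_rfl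

end Crest.Agent.R017.I1K764
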