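import Crest.Agent.R017.CGt_48
import Crest.Agent.R017.E2Xa_764

/-!
# Row 17, the T-claims of one natural triple with helper90's own number, any kernel (helper48)

* `cellK_own` : `CellK Kn` of one natural triple, everything prime to `q`
* `cellD_own` : the case `Kn = Dk`, reduced data
-/

set_option autoImplicit false
set_option linter.unusedVariables false

noncomputable section

open scoped ComplexConjugate

namespace Crest.Agent.R017.CGt48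

open Crest.Agent.R012 Crest.Agent.R012.Eis
open Crest.Agent.R017.HP842 (Pc pc Ker Kg)
open Crest.Agent.R017.FE47 (PU cx)
open Crest.Agent.R017.Prov71
open Crest.Agent.R017.B770
open Crest.Agent.R017.ER911
open Crest.Agent.R017.I1146 (ChN LN cN SN CellS)
open Crest.Agent.R017.I1K764 (SNK)
open Crest.Agent.R017.TEX792
open Crest.Agent.R017.TM708
open Crest.Agent.R017.TK708 (Wd tq tq_K)
open Crest.Agent.R017.XS0298 (S0K)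
open Crest.Agent.R017.PX764 (Dk)
open Crest.Agent.R017.Red848 (red Sh Exc exists_sh red_ok)
open Crest.Agent.R017.OwA90 (Gt K0 Gt_cont4 Gt_slope K0_a K0_b K0_c K0_d)
open Crest.Agent.R017.I1K764 (CellK)

variable {Λ : Type*} {π : Λ → DPar} {h : ℝ → ℝ}

/-- **`CellK` of one natural triple** -/
theorem cellK_own {Kn : Eis → Eis → ℂ} (hW : Wd fun lam => S0K Kn (π lam) h) {d : ℝ}
    (hd : 0 ≤ d)
    (hown : ∀ v z₁ z₂ z₃ : ℝ, 0 ≤ v → 0 ≤ z₁ → 0 ≤ z₂ → 0 ≤ z₃ →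
      ex Dq (fun lam => S0K Kn (π lam) h) v {z₁, z₂, z₃} 0 0 ≤
        Gt d v (z₁ + z₂ + z₃) (max z₁ (max z₂ z₃)))
    {ε : ℝ} (hε : 0 < ε) {B₂ : ℝ} (hB₂ : 0 < B₂) (lam : Λ) (B : ℝ) : ∃ M : ℕ, ∀ r : ℝ, 0 ≤ r →
    ∃ X₀ : ℝ, 3 ≤ X₀ ∧ ∀ X : ℝ, X₀ ≤ X → ∀ H : ℝ, 1 ≤ H → ∀ us : Fin 3 → Pq,
      (∀ i, Dq.lump (us i) ∧ 0 ≤ (us i).z ∧ (us i).z ≤ Real.log X ∧ (nm (us i).d : ℝ) ≤ X ^ B ∧
        1 + |(us i).t| ≤ H) → ∀ z : ℝ, (∀ i, (us i).z ≤ z) →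
      ∀ q : Eis, q ≠ 0 → (nm q : ℝ) ≤ X ^ B →
      CellK Kn h (π lam) q [us 0, us 1, us 2] (X ^ B₂) r M (B₂ * Real.log X) (B₂ * Real.log X)
        (H ^ M * X ^ ε) (fun γ b v => Gt d (v + min b (LN [us 0, us 1, us 2] - γ))
          (max 0 (LN [us 0, us 1, us 2] - γ - b)) z) := by
  obtain ⟨M, G⟩ := snk_own hW hd hown hε hB₂ lam B
  refine ⟨M, fun r hr => ?_⟩
  obtain ⟨X₀, hX₀, G2⟩ := G r hr
  refine ⟨X₀, hX₀, fun X hX H hH us hus z hz q hq hqX => ?_⟩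
  intro g hg hgX b l ps' hb hbE hl hch hLN hlT
  exact G2 X hX H hH us hus z hz q hq hqX g hg hgX b l ps' hb hbE hl hch hLN hlT

/-- **`CellK Dk` of one natural triple, class E** -/
theorem cellD_own {c₀ : ℝ} (hpu : PU h c₀) (hP : ∀ lam, (π lam).OK) (hE : ∀ lam, Exc (π lam))
    {d : ℝ} (hd : 0 ≤ d)
    (hown : ∀ v z₁ z₂ z₃ : ℝ, 0 ≤ v → 0 ≤ z₁ → 0 ≤ z₂ → 0 ≤ z₃ →
      ex Dq (fun lam => S0K Dk (red (π lam)) h) v {z₁, z₂, z₃} 0 0 ≤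
        Gt d v (z₁ + z₂ + z₃) (max z₁ (max z₂ z₃)))
    {ε : ℝ} (hε : 0 < ε) {B₂ : ℝ} (hB₂ : 0 < B₂) (lam : Λ) (B : ℝ) : ∃ M : ℕ, ∀ r : ℝ, 0 ≤ r →
    ∃ X₀ : ℝ, 3 ≤ X₀ ∧ ∀ X : ℝ, X₀ ≤ X → ∀ H : ℝ, 1 ≤ H → ∀ us : Fin 3 → Pq,
      (∀ i, Dq.lump (us i) ∧ 0 ≤ (us i).z ∧ (us i).z ≤ Real.log X ∧ (nm (us i).d : ℝ) ≤ X ^ B ∧
        1 + |(us i).t| ≤ H) → ∀ z : ℝ, (∀ i, (us i).z ≤ z) →
      ∀ q : Eis, q ≠ 0 → (nm q : ℝ) ≤ X ^ B →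
      CellK Dk h (red (π lam)) q [us 0, us 1, us 2] (X ^ B₂) r M (B₂ * Real.log X)
        (B₂ * Real.log X)
        (H ^ M * X ^ ε) (fun γ b v => Gt d (v + min b (LN [us 0, us 1, us 2] - γ))
          (max 0 (LN [us 0, us 1, us 2] - γ - b)) z) :=
  cellK_own (π := fun lam => red (π lam))
    (TK708.wd_E hpu fun lam => red_ok (hP lam) (hE lam)) hd hown hε hB₂ lam B

end Crest.Agent.R017.CGt48
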