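import Crest.Agent.R017.I1j_146
import Crest.Agent.R017.E5BDefs_71

/-!
# Row 17, block C70, the assembly (I1) (helper146): `(I1)` for natural lists twisted by `S`-units

* `I1LD` : `I1L` for a sequence dominated by a natural list
* `sqc_tw` : the twisted list;  **`I1LT`** : `(I1)` for `sqc q (alL h (ps.map (Pt P s)))`
-/

set_option autoImplicit false

noncomputable section

open Finset MeasureTheory
open scoped ComplexConjugate Classical

namespace Crest.Agent.R017.I1146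

open Crest.Agent.R012 Crest.Agent.R012.Eis Crest.Agent.R012.MC Crest.Agent.R012.Gauss880
open Crest.Agent.R012.LS2 (S mem_S)
open Crest.Agent.R012.Mob705 (PE)
open Crest.Agent.R012.Weight600 (pw)
open Crest.Agent.R017.CM106 (CS FS TG)
open Crest.Agent.R017.C70
open Crest.Agent.R017.HP842 (Pc pc sqc alL)
open Crest.Agent.R017.B770
open Crest.Agent.R017.FE47 (PU cx)
open Crest.Agent.R017.Prov71
open Crest.Agent.R017.Leg381 (Pf alF SF LF natl alF_natl cstF ChG sub_list)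
open Crest.Agent.R017.RG64 (shT LF_shT VF_tws_sg_le FS_alF JB_list shT_length)
open Crest.Agent.R017.E1551
open Crest.Agent.R017.E2440 (StE)
open Crest.Agent.R017.LB48 (CrP GrP)
open Crest.Agent.R017.Rough381 (VF)
open Crest.Agent.R017.AL813 (al_supp al_mem_S sum_alF_le cx_bdd norm_alF_le norm_sqc_le)

lemma max_nu {x ν : ℝ} (hx : 0 ≤ x) (hν : 1 ≤ ν) :
    max 1 ((x * ν) ^ (1 / 3 : ℝ)) ≤ ν ^ (1 / 3 : ℝ) * max 1 (x ^ (1 / 3 : ℝ)) := by
  have h1 : 1 ≤ ν ^ (1 / 3 : ℝ) := Real.one_le_rpow hν (by norm_num)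
  rw [Real.mul_rpow hx (by linarith)]
  have h2 : 1 ≤ max 1 (x ^ (1 / 3 : ℝ)) := le_max_left _ _
  have h3 : x ^ (1 / 3 : ℝ) ≤ max 1 (x ^ (1 / 3 : ℝ)) := le_max_right _ _
  refine max_le (one_le_mul_of_one_le_of_one_le h1 h2) ?_
  rw [mul_comm]
  exact mul_le_mul_of_nonneg_left h3 (by linarith)

lemma yv_nu {K X : ℝ} (hK : 0 ≤ K) (g : Eis) {V ν : ℝ} (hV : 0 ≤ V) (hν : 0 ≤ ν) :
    yv K X g (V * ν) = ν ^ (1 / 3 : ℝ) * yv K X g V := by
  unfold E1551.yv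
  rw [← mul_assoc, Real.mul_rpow (by positivity) hν]
  ring

lemma JB_nonneg (Y : ℝ) (al : Eis → ℂ) (Q : Eis → Prop) (g : Eis) (B V t : ℝ) :
    0 ≤ JB Y al Q g B V t := by
  unfold E1551.JB
  exact Finset.sum_nonneg fun _ _ => Finset.sum_nonneg fun _ _ => by positivity

/-- the diagonal -/
lemma Dg_dom (w : ℝ → ℝ) {h : ℝ → ℝ} {c : ℝ} (hpu : PU h c) (N : ℕ)
    {R₁ : ℝ} (hR₁ : 0 ≤ R₁) (hR : ∀ u, cx h u ≠ 0 → |u| ≤ R₁) {ε : ℝ} (hε : 0 < ε) :
    ∃ C : ℝ, 0 ≤ C ∧ ∀ X : ℝ, 1 ≤ X → ∀ (P : DPar), P.OK → ∀ (q : Eis) (ps : List Pq),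
      ps.length ≤ N → 0 ≤ LN ps → LN ps ≤ Real.log X → ∀ K Y : ℝ, 0 ≤ K → 0 ≤ Y →
      ∀ al : Eis → ℂ, (∀ m, ‖al m‖ ≤ ‖sqc q (alF 1 1 P h (natl ps)) m‖) →
      Dg w K Y al ≤ C * X ^ ε * (K * Real.exp (LN ps)) := by
  obtain ⟨A, hA1, hA⟩ := cx_bdd hpu
  have hN0 : (0 : ℝ) ≤ N := Nat.cast_nonneg _
  set η : ℝ := ε / (4 * N + 4) with hη
  have hη0 : 0 < η := by positivity
  obtain ⟨C, hC, hτ⟩ := Div277.tau_le_rpow hη0
  set c₁ : ℝ := Real.exp (N * R₁) with hc₁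
  have hc₁1 : 1 ≤ c₁ := Real.one_le_exp (by positivity)
  refine ⟨2 / (9 * Real.sqrt 3) * |Wt w 0| * (16 * c₁ * (A ^ N * (C * c₁ ^ η) ^ (2 * N)) ^ 2),
    by positivity, ?_⟩
  intro X hX P hP q ps hN hn0 hnX K Y hK hY al hle
  set α := sqc q (alF 1 1 P h (natl ps)) with hα
  set n := LN ps with hn
  have hX0 : 0 < X := by linarith
  have hlen : (natl ps).length ≤ N := by rw [length_natl]; exact hN
  have hYc : Real.exp (LF (natl ps) + (natl ps).length * R₁) ≤ c₁ * Real.exp n := by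
    rw [LF_natl, Real.exp_add, mul_comm]
    refine mul_le_mul_of_nonneg_right (Real.exp_le_exp.2 ?_) (Real.exp_pos _).le
    exact mul_le_mul_of_nonneg_right (by exact_mod_cast hlen) hR₁
  have hsup : ∀ m, α m ≠ 0 → m ∈ S (c₁ * Real.exp n) := fun m hm =>
    al_mem_S hR 1 1 P q (natl ps) hYc hm
  have hZ1 : 1 ≤ c₁ * Real.exp n := by
    have : 1 ≤ Real.exp n := Real.one_le_exp hn0
    nlinarith
  have hZ0 : 0 ≤ c₁ * Real.exp n := by linarith
  have hpt : ∀ m ∈ S (c₁ * Real.exp n), ‖α m‖ ≤ A ^ N * (C * c₁ ^ η) ^ (2 * N) *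
      X ^ (ε / 2) := by
    intro m hm
    obtain ⟨h1, h2, -⟩ := (mem_S hZ0).1 hm
    have hm0 := h2.ne_zero
    have hmp : (0 : ℝ) < nm m := by exact_mod_cast nm_pos.2 hm0
    have ht : (1 : ℝ) ≤ Div277.tau m := Leg381.one_le_tau hm0
    refine ((norm_sqc_le q _ m).trans (norm_alF_le hA 1 1 hP (natl ps) m)).trans ?_
    have h3 : A ^ (natl ps).length ≤ A ^ N := pow_le_pow_right₀ hA1 hlen
    have h4 : (Div277.tau m : ℝ) ^ (2 * (natl ps).length) ≤ (Div277.tau m : ℝ) ^ (2 * N) :=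
      pow_le_pow_right₀ ht (by omega)
    have hEX : Real.exp n ≤ X := by
      rw [← Real.exp_log hX0]; exact Real.exp_le_exp.2 hnX
    have h5 : (Div277.tau m : ℝ) ≤ C * c₁ ^ η * X ^ η := by
      refine (hτ m hm0).trans ?_
      rw [mul_assoc, ← Real.mul_rpow (by positivity) hX0.le]
      refine mul_le_mul_of_nonneg_left (Real.rpow_le_rpow hmp.le (h1.trans ?_) hη0.le)
        (by linarith)
      exact mul_le_mul_of_nonneg_left hEX (by positivity)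
    have h6 : (Div277.tau m : ℝ) ^ (2 * N) ≤ (C * c₁ ^ η) ^ (2 * N) * X ^ (ε / 2) := by
      calc (Div277.tau m : ℝ) ^ (2 * N) ≤ (C * c₁ ^ η * X ^ η) ^ (2 * N) :=
            pow_le_pow_left₀ (by linarith) h5 _
        _ = (C * c₁ ^ η) ^ (2 * N) * (X ^ η) ^ (2 * N) := by rw [mul_pow]
        _ ≤ _ := by
            refine mul_le_mul_of_nonneg_left ?_ (by positivity)
            rw [← Real.rpow_natCast, ← Real.rpow_mul hX0.le]
            refine Real.rpow_le_rpow_of_exponent_le hX ?_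
            rw [hη]
            push_cast
            rw [div_mul_eq_mul_div, div_le_div_iff₀ (by positivity) (by norm_num)]
            nlinarith
    calc A ^ (natl ps).length * (Div277.tau m : ℝ) ^ (2 * (natl ps).length) ≤
          A ^ N * ((C * c₁ ^ η) ^ (2 * N) * X ^ (ε / 2)) := by
          gcongr
          exact h4.trans h6
      _ = _ := by ring
  have hsum : ∑ d ∈ S Y, PE d * ‖al d‖ ^ 2 ≤
      (16 * c₁ * (A ^ N * (C * c₁ ^ η) ^ (2 * N)) ^ 2) * X ^ ε * Real.exp n := by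
    have h1 : ∑ d ∈ S Y, PE d * ‖al d‖ ^ 2 ≤ ∑ d ∈ S (c₁ * Real.exp n), ‖al d‖ ^ 2 := by
      have h2 : ∑ d ∈ S Y, PE d * ‖al d‖ ^ 2 ≤ ∑ d ∈ (S Y).filter (fun d => al d ≠ 0),
          ‖al d‖ ^ 2 := by
        rw [Finset.sum_filter]
        refine Finset.sum_le_sum fun d _ => ?_
        split_ifs with h0
        · exact mul_le_of_le_one_left (by positivity) (Mob705.PE_le_one d)
        · rw [not_not] at h0
          rw [h0, norm_zero]; simp
      refine h2.trans (Finset.sum_le_sum_of_subset_of_nonneg ?_ fun _ _ _ => by positivity)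
      intro d hd
      exact hsup d fun h0 => (Finset.mem_filter.1 hd).2 (norm_le_zero_iff.1 (by
        rw [← norm_zero (E := ℂ), ← h0]; exact hle d))
    refine h1.trans ?_
    have h3 : ∑ d ∈ S (c₁ * Real.exp n), ‖al d‖ ^ 2 ≤ ∑ _d ∈ S (c₁ * Real.exp n),
        (A ^ N * (C * c₁ ^ η) ^ (2 * N) * X ^ (ε / 2)) ^ 2 :=
      Finset.sum_le_sum fun d hd => pow_le_pow_left₀ (norm_nonneg _) ((hle d).trans (hpt d hd)) 2
    refine h3.trans ?_
    rw [Finset.sum_const, nsmul_eq_mul]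
    have h4 := GLS106.card_S_le hZ1
    have e1 : (X ^ (ε / 2)) ^ 2 = X ^ ε := by
      rw [← Real.rpow_natCast, ← Real.rpow_mul hX0.le]
      congr 1; push_cast; ring
    calc ((S (c₁ * Real.exp n)).card : ℝ) * (A ^ N * (C * c₁ ^ η) ^ (2 * N) *
          X ^ (ε / 2)) ^ 2 ≤ (16 * (c₁ * Real.exp n)) * (A ^ N * (C * c₁ ^ η) ^ (2 * N) *
          X ^ (ε / 2)) ^ 2 := mul_le_mul_of_nonneg_right h4 (by positivity)
      _ = (16 * c₁ * (A ^ N * (C * c₁ ^ η) ^ (2 * N)) ^ 2) * (X ^ (ε / 2)) ^ 2 *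
          Real.exp n := by ring
      _ = _ := by rw [e1]
  unfold Dg
  have hPE : 0 ≤ ∑ d ∈ S Y, PE d * ‖al d‖ ^ 2 :=
    Finset.sum_nonneg fun d _ => mul_nonneg (Mob705.PE_pos d).le (by positivity)
  calc 2 * K / (9 * Real.sqrt 3) * Wt w 0 * ∑ d ∈ S Y, PE d * ‖al d‖ ^ 2 ≤
        2 * K / (9 * Real.sqrt 3) * |Wt w 0| * ∑ d ∈ S Y, PE d * ‖al d‖ ^ 2 := by
        refine mul_le_mul_of_nonneg_right (mul_le_mul_of_nonneg_left (le_abs_self _)
          (by positivity)) hPE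
    _ ≤ 2 * K / (9 * Real.sqrt 3) * |Wt w 0| *
          ((16 * c₁ * (A ^ N * (C * c₁ ^ η) ^ (2 * N)) ^ 2) * X ^ ε * Real.exp n) :=
        mul_le_mul_of_nonneg_left hsum (by positivity)
    _ = _ := by ring

set_option maxHeartbeats 1000000 in
/-- **(I1) for a sequence dominated by a natural list.** -/
theorem I1LD {w : ℝ → ℝ} (hw : Wgt w) (hw0 : ∀ x, 0 ≤ w x) {h : ℝ → ℝ} {c : ℝ} (hpu : PU h c)
    (N : ℕ) {R₁ : ℝ} (hR₁ : 0 ≤ R₁) (hR : ∀ u, cx h u ≠ 0 → |u| ≤ R₁) {ε e₁ M B₂ : ℝ}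
    (hε : 0 < ε) (he₁ : 0 < e₁) (hM : 0 ≤ M) (hB₂ : 0 < B₂) {ν Dd : ℝ} (hν : 1 ≤ ν)
    (hDd : 0 ≤ Dd) :
    ∃ C r : ℝ, 0 ≤ C ∧ 0 ≤ r ∧ ∀ X : ℝ, 3 ≤ X → ∀ (P : DPar), P.OK → ∀ (q : Eis) (ps : List Pq),
      ps.length ≤ N → (∀ p ∈ ps, 0 ≤ p.z ∧ p.z ≤ Real.log X) → LN ps ≤ Real.log X →
      ∀ (K Y D Y₀ Y₁ D' Y₁' T₀ E0 F F₂ : ℝ) (I : ℕ), 1 ≤ K →
      Real.exp (LN ps + N * R₁ + 1) ≤ Y → Y ≤ X ^ B₂ → 0 ≤ D → 0 < Y₁ → D ≤ D' → Y₁ ≤ Y₁' →
      Y₁' ≤ D' ^ 2 → Y₁' * ν ≤ X → Real.exp (2 * LN ps) * X ^ e₁ ≤ K * Y₁' → Y₀ < 1 → 0 < E0 →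
      Y₁ < 2 ^ I → 0 < T₀ → 0 ≤ F → 0 ≤ F₂ →
      FlatO h P q ps r M (Real.log K) (Real.log (Y₁' * ν)) F →
      FlatL h P q ps (X ^ B₂) r M (Real.log K) (Real.log (Y₁' * ν)) F →
      Tail h P q ps (X ^ B₂) r M (Real.log K) (Real.log (Y₁' * ν)) (Real.log T₀) (Real.log E0)
        F₂ → ∀ al : Eis → ℂ, Dom ν Dd (sqc q (alF 1 1 P h (natl ps))) al →
      ∀ om : Eis × Eis → ℂ, (∀ x, ‖1 - om x‖ ≤ 1) →
      (∀ x : Eis × Eis, (nm (x.2 * x.1 ^ 2) : ℝ) ≤ T₀ → om x = 1) →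
      (∀ x ∈ JW D' Y₀ Y₁', x ∉ JW D Y₀ Y₁ → om x = 0) → ∀ (Q : Eis → Prop) (et e₃ : ℝ),
      ‖CrP w K al
        (fun k => if Q k then 0 else
          StE E0 (JW D Y₀ Y₁) om al k)‖ ≤ et →
      GrP w K (fun k => if Q k then
          StE E0 (JW D Y₀ Y₁) om al k else 0) ≤
        c3 w K * (X3 Y E0 (JW D Y₀ Y₁) om al).re + e₃ →
      ∑' k : Eis, (if IsPrim k ∧ Q k then w (nm k / K) *
        ‖CS al k -
          (pC : ℂ) * StE E0 (JW D Y₀ Y₁) om al k‖ ^ 2 else 0) ≤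
      C * X ^ ε * (K * Real.exp (LN ps)) * (1 + F + F₂) +
        2 * pC * (E2s w K E0 D Y₀ Y₁ I om al + et) +
        pC ^ 2 * e₃ := by
  have hN0 : (0 : ℝ) ≤ N := Nat.cast_nonneg _
  -- the scale
  set a₁ : ℝ := B₂ + 1 with ha₁
  have ha₁0 : 0 < a₁ := by positivity
  set ε' : ℝ := ε / (2 * a₁) with hε'
  have hε'0 : 0 < ε' := by positivity
  have hε2 : 0 < ε / 2 := by positivity
  -- the numbers
  obtain ⟨Ca, ra, hCa, hra, Ha⟩ := num0 hpu N hB₂.le hε2 hM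
  obtain ⟨Cb, rb, hCb, hrb, Hb⟩ := numL hpu N hB₂.le hε2 hM
  obtain ⟨Cc, rc, hCc, hrc, Hc⟩ := numT hpu N hB₂.le hε2 hM
  obtain ⟨Cd, hCd, Hd⟩ := Dg_dom w hpu N hR₁ hR hε
  obtain ⟨Cs, hCs, Hs⟩ := sum_alF_le hpu N
  -- the tail of E1
  set A : ℕ := ⌈(N : ℝ) * M⌉₊ + 2 with hA
  have hA2 : 2 ≤ A := by omega
  have hJA : (N : ℝ) * M + 1 < A := by
    have h1 := Nat.le_ceil ((N : ℝ) * M)
    rw [hA]
    push_cast
    linarith
  set a : ℝ := 2 + Real.log Cs with ha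
  have hlCs : 0 ≤ Real.log Cs := Real.log_nonneg hCs
  have ha0 : 0 ≤ a := by positivity
  set e₃' : ℝ := e₁ / B₂ with he₃'
  have he₃'0 : 0 < e₃' := by positivity
  obtain ⟨B, Ce, hB1, hCe, He⟩ := RGw813.Et_small (A : ℝ) he₃'0 ha0 (le_refl (1 : ℝ))
  obtain ⟨C₁, hC₁, H₁⟩ := I1WN hw hw0 (R := 2 * (N * R₁)) (by positivity) (A := A) (B := B)
    (J := (N : ℝ) * M) (ε := ε') hA2 hB1 hJA (by positivity) hε'0
  refine ⟨Cd + C₁ * (Dd * ν ^ (1 / 3 : ℝ) * (Ca + Cb + Cc) + Ce), max ra (max rb rc),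
    by positivity,
    le_max_of_le_left hra, ?_⟩
  intro X hX P hP q ps hN hz hLX K Y D Y₀ Y₁ D' Y₁' T₀ E0 F F₂ I hK hYl hYu hD hY₁ hDD hYY hYD
    hYX hKX hY₀ hE0 hI hT₀ hF hF₂ hco hcl htl al hdom om hom1 hom homJ Q et e₃ ht he
  have hX1 : (1 : ℝ) ≤ X := by linarith
  have hX0 : 0 < X := by linarith
  have hK0 : 0 < K := by linarith
  set n := LN ps with hn
  have hn0 : 0 ≤ n := by
    rw [hn]
    unfold LN
    refine List.sum_nonneg fun x hx => ?_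
    obtain ⟨p, hp, rfl⟩ := List.mem_map.1 hx
    exact (hz p hp).1
  set α := sqc q (alF 1 1 P h (natl ps)) with hα
  have hY1 : 1 ≤ Y := le_trans (Real.one_le_exp (by positivity)) hYl
  have hY0 : 0 < Y := by linarith
  have hYe : Real.exp 1 ≤ Y := le_trans (Real.exp_le_exp.2 (by
    have : 0 ≤ (N : ℝ) * R₁ := by positivity
    linarith)) hYl
  have hadm₀ : Adm Y (Real.exp n) (2 * (N * R₁)) α := Adm_list hR₁ hR P q hN
    (le_trans (Real.exp_le_exp.2 (by linarith)) hYl)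
  have hne : ∀ m, al m ≠ 0 → α m ≠ 0 := fun m hm h0 => hm (norm_le_zero_iff.1 (by
    have := hdom.le m
    rw [h0, norm_zero] at this
    exact this))
  have hadm : Adm Y (Real.exp n) (2 * (N * R₁)) al :=
    ⟨fun m hm => hadm₀.sup m (hne m hm), fun m hm => hadm₀.win m (hne m hm)⟩
  have hν0 : 0 < ν := by linarith
  set ν₃ : ℝ := ν ^ (1 / 3 : ℝ) with hν₃
  have hν₃1 : 1 ≤ ν₃ := Real.one_le_rpow hν (by norm_num)
  have hY₁'0 : 0 < Y₁' := hY₁.trans_le hYY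
  set Pb : ℝ := X ^ a₁ with hPb
  have hPb1 : 1 ≤ Pb := Real.one_le_rpow hX1 ha₁0.le
  have hYPb : Y ≤ Pb := hYu.trans (Real.rpow_le_rpow_of_exponent_le hX1 (by rw [ha₁]; linarith))
  have hXPb : X ≤ Pb := by
    calc X = X ^ (1 : ℝ) := (Real.rpow_one X).symm
      _ ≤ _ := Real.rpow_le_rpow_of_exponent_le hX1 (by rw [ha₁]; linarith)
  have hPe : Pb ^ ε' = X ^ (ε / 2) := by
    rw [hPb, ← Real.rpow_mul hX0.le]
    congr 1
    rw [hε']
    field_simp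
  have hXe : X ^ (ε / 2) * X ^ (ε / 2) = X ^ ε := by
    rw [← Real.rpow_add hX0]; congr 1; ring
  have hXe1 : 1 ≤ X ^ (ε / 2) := Real.one_le_rpow hX1 hε2.le
  have hEt : (1 + Ct Y) * Et A B K (Real.exp n) Y Y₁' al ≤ Ce := by
    have h1 := He K (Real.exp n) Y Y₁' al hY1 (Real.exp_pos n) ?_ ?_ hY₁'0 ?_ ?_
    · rw [one_mul] at h1
      refine le_trans (mul_le_mul_of_nonneg_right (by linarith)
        (Et_nonneg hK0.le (Real.exp_pos n).le hY₁'0.le _)) h1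
    · calc Real.exp n ≤ Y := le_trans (Real.exp_le_exp.2 (by
            have : 0 ≤ (N : ℝ) * R₁ := by positivity
            linarith)) hYl
        _ = Y ^ (1 : ℝ) := (Real.rpow_one Y).symm
        _ ≤ Y ^ a := Real.rpow_le_rpow_of_exponent_le hY1 (by rw [ha]; linarith)
    · exact (Real.rpow_le_one_of_one_le_of_nonpos hY1 (by linarith)).trans hK
    · refine le_trans ?_ hKX
      have e1 : Real.exp n ^ 2 = Real.exp (2 * n) := by rw [two_mul, Real.exp_add]; ring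
      rw [e1]
      refine mul_le_mul_of_nonneg_left ?_ (Real.exp_pos _).le
      calc Y ^ e₃' ≤ (X ^ B₂) ^ e₃' := Real.rpow_le_rpow hY0.le hYu he₃'0.le
        _ = X ^ e₁ := by
            rw [← Real.rpow_mul hX0.le]
            congr 1
            rw [he₃']
            field_simp
    · refine ((Finset.sum_le_sum fun m _ => hdom.le m).trans
        (Hs 1 1 P hP q (natl ps) (by rw [length_natl]; exact hN) Y hY1)).trans ?_
      have h2 : Cs ≤ Y ^ Real.log Cs := by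
        have h3 : Real.exp 1 ^ Real.log Cs ≤ Y ^ Real.log Cs :=
          Real.rpow_le_rpow (Real.exp_pos _).le hYe hlCs
        rw [← Real.exp_mul, one_mul, Real.exp_log (by linarith)] at h3
        exact h3
      calc Cs * Y ^ 2 ≤ Y ^ Real.log Cs * Y ^ 2 :=
            mul_le_mul_of_nonneg_right h2 (by positivity)
        _ = Y ^ a := by
            rw [ha, Real.rpow_add hY0, Real.rpow_two]; ring
  -- the hypotheses of `I1WN`
  have hcla := hco.mono (le_max_left ra (max rb rc))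
  have hclb := hcl.mono ((le_max_left rb rc).trans (le_max_right ra (max rb rc)))
  have htlc := htl.mono ((le_max_right rb rc).trans (le_max_right ra (max rb rc)))
  have hgS : ∀ g ∈ S Y, IsPrim g ∧ (nm g : ℝ) ≤ X ^ B₂ := fun g hg => by
    obtain ⟨h1, h2, -⟩ := (mem_S hY0.le).1 hg
    exact ⟨h2, h1.trans hYu⟩
  have hVb : ∀ g ∈ S Y, ∀ V : ℝ, V ≤ Y₁' / (nm g : ℝ) ^ 2 → 1 ≤ V → V * ν ≤ X ∧
      Real.log (V * ν) ≤ Real.log (Y₁' * ν) - 2 * Real.log (nm g) := by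
    intro g hg V hV hV1
    have hgp := (hgS g hg).1.ne_zero
    have hg1 : (1 : ℝ) ≤ nm g := by exact_mod_cast nm_pos.2 hgp
    have h1 : Y₁' / (nm g : ℝ) ^ 2 ≤ Y₁' := div_le_self hY₁'0.le (one_le_pow₀ hg1)
    have h0 : V * ν ≤ Y₁' * ν := mul_le_mul_of_nonneg_right (hV.trans h1) hν0.le
    refine ⟨h0.trans hYX, ?_⟩
    have h2 := Real.log_le_log (by linarith) hV
    rw [Real.log_div hY₁'0.ne' (by positivity), Real.log_pow] at h2
    push_cast at h2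
    rw [Real.log_mul (by linarith) hν0.ne', Real.log_mul hY₁'0.ne' hν0.ne']
    linarith
  have key := H₁ Pb K (Real.exp n) Y D Y₀ Y₁ D' Y₁' T₀ E0 0
    (Dd * ν₃ * (Ca * X ^ (ε / 2) * (F * Real.exp (2 * n)))) 0
    (Dd * ν₃ * (Cb * X ^ (ε / 2) * (F * Real.exp (2 * n))))
    (Dd * ν₃ * (Cc * X ^ (ε / 2) * (F₂ * Real.exp (2 * n)))) I hPb1 hK0 (Real.exp_pos n) hY1 hYPb hD hY₁ hDD
    hYY ((le_mul_of_one_le_right hY₁'0.le hν).trans (hYX.trans hXPb)) hY₀ hE0.le (Or.inl hYD) hI (by positivity) le_rfl (by positivity)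
    (by positivity) al hadm om hom1 hom homJ Q et e₃
    (fun V hV1 hV2 t => by
      have hV0 : 0 < V := by linarith
      have hVν : 1 ≤ V * ν := one_le_mul_of_one_le_of_one_le hV1 hν
      have h1 := Ha X hX P hP q ps hN hz K (Real.log (Y₁' * ν)) F hK0 hF hcla (V * ν) t hVν
        ((mul_le_mul_of_nonneg_right hV2 hν0.le).trans hYX)
          (Real.log_le_log (by linarith) (mul_le_mul_of_nonneg_right hV2 hν0.le))
      have h2 := (hdom.vf V t hV1).trans (mul_le_mul_of_nonneg_left h1 hDd)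
      refine h2.trans ?_
      have h3 : max 1 ((V * ν * K / Real.exp n ^ 2) ^ (1 / 3 : ℝ)) ≤
          ν₃ * max 1 ((V * K / Real.exp n ^ 2) ^ (1 / 3 : ℝ)) := by
        have e2 : V * ν * K / Real.exp n ^ 2 = V * K / Real.exp n ^ 2 * ν := by ring
        rw [e2]
        exact max_nu (by positivity) hν
      calc Dd * (Ca * X ^ (ε / 2) * (F * Real.exp (2 * n)) *
            max 1 ((V * ν * K / Real.exp n ^ 2) ^ (1 / 3 : ℝ)) * (1 + |t|) ^ ((N : ℝ) * M)) ≤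
            Dd * (Ca * X ^ (ε / 2) * (F * Real.exp (2 * n)) *
            (ν₃ * max 1 ((V * K / Real.exp n ^ 2) ^ (1 / 3 : ℝ))) *
              (1 + |t|) ^ ((N : ℝ) * M)) := by gcongr
        _ = _ := by ring)
    (fun g hg _ hg0 => by
      exfalso
      have : (1 : ℝ) ≤ nm g := by exact_mod_cast nm_pos.2 (hgS g hg).1.ne_zero
      linarith)
    (fun g hg B' V hB1' hB2' hV1 hV2 t => by
      obtain ⟨h1, h2⟩ := hgS g hg
      obtain ⟨h3, h4⟩ := hVb g hg V hV2 hV1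
      have hV0 : 0 < V := by linarith
      have hVν : 1 ≤ V * ν := one_le_mul_of_one_le_of_one_le hV1 hν
      have h5 := Hb X hX P hP q ps hN hz K (Real.log (Y₁' * ν)) F hK0 hF hclb g h1 h2 B' (V * ν)
        Y t (fun U => (0 : ℝ) < nm (g * U)) hB1' (hB2'.trans hYu) hVν h3 hY0.le h4
      refine ((hdom.jb Y _ g B' V t h1 hY0.le hV1).trans
        (mul_le_mul_of_nonneg_left h5 hDd)).trans ?_
      have hy := (yv_pos hK0 (Real.exp_pos n) hV0 h1.ne_zero).le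
      have hB'0 : 0 < B' := by linarith
      rw [yv_nu hK0.le g hV0.le hν0.le]
      have h6 : max B'⁻¹ (ν₃ * yv K (Real.exp n) g V) ≤
          ν₃ * max B'⁻¹ (yv K (Real.exp n) g V) := by
        refine max_le ?_ (mul_le_mul_of_nonneg_left (le_max_right _ _) (by linarith))
        calc B'⁻¹ ≤ ν₃ * B'⁻¹ := le_mul_of_one_le_left (by positivity) hν₃1
          _ ≤ _ := mul_le_mul_of_nonneg_left (le_max_left _ _) (by linarith)
      calc Dd * (Cb * X ^ (ε / 2) * (F * Real.exp (2 * n)) / (nm g : ℝ) ^ 2 *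
            max B'⁻¹ (ν ^ (1 / 3 : ℝ) * yv K (Real.exp n) g V) * (1 + |t|) ^ ((N : ℝ) * M)) ≤
            Dd * (Cb * X ^ (ε / 2) * (F * Real.exp (2 * n)) / (nm g : ℝ) ^ 2 *
            (ν₃ * max B'⁻¹ (yv K (Real.exp n) g V)) * (1 + |t|) ^ ((N : ℝ) * M)) := by gcongr
        _ = _ := by ring)
    (fun g hg B' V hB1' hB2' hV1 hV2 hET t => by
      obtain ⟨h1, h2⟩ := hgS g hg
      obtain ⟨h3, h4⟩ := hVb g hg V hV2 hV1
      have hgn : (0 : ℝ) < nm g := by exact_mod_cast nm_pos.2 h1.ne_zero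
      have hV0 : 0 < V := by linarith
      have hVν : 1 ≤ V * ν := one_le_mul_of_one_le_of_one_le hV1 hν
      have hB'0 : 0 < B' := by linarith
      have h5 := Hc X hX P hP q ps hN hz K (Real.log (Y₁' * ν)) (Real.log T₀) (Real.log E0) F₂
        hK0 hF₂ htlc g h1 h2 B' (V * ν) Y t (fun _ => True) hB1' (hB2'.trans hYu) hVν h3 hY0.le
        h4 (by
          rcases hET with h5 | h5
          · exact Or.inl (Real.log_le_log hE0 h5.le)
          · right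
            have h6 := Real.log_le_log hT₀ h5.le
            rw [Real.log_mul (by positivity) (by positivity), Real.log_pow] at h6
            push_cast at h6
            have h7 : Real.log V ≤ Real.log (V * ν) :=
              Real.log_le_log hV0 (le_mul_of_one_le_right hV0.le hν)
            linarith)
      have hy := yv_pos hK0 (Real.exp_pos n) hV0 h1.ne_zero
      rw [yv_nu hK0.le g hV0.le hν0.le] at h5
      have h6 := hdom.jb Y (fun _ => True) g B' V t h1 hY0.le hV1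
      have hν₃0 : 0 < ν₃ := by linarith
      calc B'⁻¹ * (nm g * (yv K (Real.exp n) g V)⁻¹) * JB Y al (fun _ => True) g B' V t ≤
            B'⁻¹ * (nm g * (yv K (Real.exp n) g V)⁻¹) *
              (Dd * JB Y α (fun _ => True) g B' (V * ν) t) :=
            mul_le_mul_of_nonneg_left h6 (by positivity)
        _ = Dd * ν₃ * (B'⁻¹ * (nm g * (ν ^ (1 / 3 : ℝ) * yv K (Real.exp n) g V)⁻¹) *
              JB Y α (fun _ => True) g B' (V * ν) t) := by
            rw [← hν₃]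
            field_simp
        _ ≤ Dd * ν₃ * (Cc * X ^ (ε / 2) * (F₂ * Real.exp (2 * n)) / nm g *
              (1 + |t|) ^ ((N : ℝ) * M)) := mul_le_mul_of_nonneg_left h5 (by positivity)
        _ = _ := by ring)
    ht he
  refine key.trans ?_
  have hD := Hd X hX1 P hP q ps hN hn0 hLX K Y hK0.le hY0.le al hdom.le
  rw [hPe]
  have hEn : Real.exp (2 * n) = Real.exp n * Real.exp n := by rw [two_mul, Real.exp_add]
  have hmain : C₁ * X ^ (ε / 2) * (K / Real.exp n) *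
      (Dd * ν₃ * (Ca * X ^ (ε / 2) * (F * Real.exp (2 * n))) + 0 +
        Dd * ν₃ * (Cb * X ^ (ε / 2) * (F * Real.exp (2 * n))) +
        Dd * ν₃ * (Cc * X ^ (ε / 2) * (F₂ * Real.exp (2 * n))) +
        (1 + Ct Y) * Et A B K (Real.exp n) Y Y₁' al) ≤
      C₁ * (Dd * ν₃ * (Ca + Cb + Cc) + Ce) * X ^ ε * (K * Real.exp n) * (1 + F + F₂) := by
    have h1 : (1 + Ct Y) * Et A B K (Real.exp n) Y Y₁' al ≤
        Ce * (X ^ (ε / 2) * Real.exp (2 * n)) := by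
      refine hEt.trans ?_
      have h2 : 1 ≤ Real.exp (2 * n) := Real.one_le_exp (by positivity)
      exact le_mul_of_one_le_right hCe (one_le_mul_of_one_le_of_one_le hXe1 h2)
    have h4 : Dd * ν₃ * (Ca * X ^ (ε / 2) * (F * Real.exp (2 * n))) + 0 +
        Dd * ν₃ * (Cb * X ^ (ε / 2) * (F * Real.exp (2 * n))) +
        Dd * ν₃ * (Cc * X ^ (ε / 2) * (F₂ * Real.exp (2 * n))) +
        (1 + Ct Y) * Et A B K (Real.exp n) Y Y₁' al ≤
      (Dd * ν₃ * (Ca + Cb + Cc) + Ce) * (1 + F + F₂) * (X ^ (ε / 2) * Real.exp (2 * n)) := by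
      have h5 : 0 ≤ X ^ (ε / 2) * Real.exp (2 * n) := by positivity
      have h6 : Dd * ν₃ * (Ca * F + Cb * F + Cc * F₂) + Ce ≤
          (Dd * ν₃ * (Ca + Cb + Cc) + Ce) * (1 + F + F₂) := by
        have p0 : 0 ≤ Dd * ν₃ * (Ca * (1 + F₂) + Cb * (1 + F₂) + Cc * (1 + F)) := by positivity
        have p4 : 0 ≤ Ce * (F + F₂) := by positivity
        have e5 : (Dd * ν₃ * (Ca + Cb + Cc) + Ce) * (1 + F + F₂) =
          Dd * ν₃ * (Ca * F + Cb * F + Cc * F₂) + Ce +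
          (Dd * ν₃ * (Ca * (1 + F₂) + Cb * (1 + F₂) + Cc * (1 + F)) + Ce * (F + F₂)) := by ring
        rw [e5]
        linarith
      calc _ ≤ Dd * ν₃ * (Ca * X ^ (ε / 2) * (F * Real.exp (2 * n))) + 0 +
            Dd * ν₃ * (Cb * X ^ (ε / 2) * (F * Real.exp (2 * n))) +
            Dd * ν₃ * (Cc * X ^ (ε / 2) * (F₂ * Real.exp (2 * n))) +
            Ce * (X ^ (ε / 2) * Real.exp (2 * n)) := by linarith
        _ = (Dd * ν₃ * (Ca * F + Cb * F + Cc * F₂) + Ce) *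
            (X ^ (ε / 2) * Real.exp (2 * n)) := by ring
        _ ≤ _ := mul_le_mul_of_nonneg_right h6 h5
    calc _ ≤ C₁ * X ^ (ε / 2) * (K / Real.exp n) * ((Dd * ν₃ * (Ca + Cb + Cc) + Ce) *
          (1 + F + F₂) * (X ^ (ε / 2) * Real.exp (2 * n))) :=
          mul_le_mul_of_nonneg_left h4 (by positivity)
      _ = C₁ * (Dd * ν₃ * (Ca + Cb + Cc) + Ce) * (X ^ (ε / 2) * X ^ (ε / 2)) *
          (K / Real.exp n * (Real.exp n * Real.exp n)) * (1 + F + F₂) := by rw [hEn]; ring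
      _ = _ := by
          rw [hXe]
          have : K / Real.exp n * (Real.exp n * Real.exp n) = K * Real.exp n := by
            field_simp
          rw [this]
  have hdiag : Cd * X ^ ε * (K * Real.exp n) ≤ Cd * X ^ ε * (K * Real.exp n) *
      (1 + F + F₂) := le_mul_of_one_le_right (by positivity) (by linarith)
  have e9 : (Cd + C₁ * (Dd * ν₃ * (Ca + Cb + Cc) + Ce)) * X ^ ε * (K * Real.exp n) *
      (1 + F + F₂) = Cd * X ^ ε * (K * Real.exp n) * (1 + F + F₂) +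
      C₁ * (Dd * ν₃ * (Ca + Cb + Cc) + Ce) * X ^ ε * (K * Real.exp n) * (1 + F + F₂) := by ring
  rw [e9]
  linarith

/-! ### the twisted lists -/

lemma chK_cop {P : DPar} (hP : P.OK) (k : Kd) {n : Eis} (hn : IsPrim n) (h : chK P k n ≠ 0) :
    IsCoprime n P.n := by
  by_contra hc
  cases k with
  | mo =>
    have h1 : P.ψ n * ang P.l₂ n ≠ 0 := h
    exact (left_ne_zero_of_mul h1) (hP.ψ.van n hn hc)
  | am =>
    have h1 : conj (P.φ n * ang P.l₁ n) ≠ 0 := h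
    have h2 : P.φ n * ang P.l₁ n ≠ 0 := fun h0 => h1 (by rw [h0, map_zero])
    exact (left_ne_zero_of_mul h2) (hP.φ.van n hn hc)

lemma pc_cop {P : DPar} (hP : P.OK) {h : ℝ → ℝ} (p : Pq) {n : Eis} (hn : pc h (p.pc P) n ≠ 0) :
    IsPrim n ∧ IsCoprime n P.n := by
  unfold pc at hn
  split_ifs at hn with hp
  · have h1 := right_ne_zero_of_mul (left_ne_zero_of_mul hn)
    have h2 : chK P p.kd n * _ ≠ 0 := h1
    exact ⟨hp, chK_cop hP p.kd hp (left_ne_zero_of_mul h2)⟩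
  · exact absurd rfl hn

lemma alL_prim {P : DPar} {h : ℝ → ℝ} {ps : List Pq} {n : Eis}
    (hn : alL h (ps.map (Pq.pc P)) n ≠ 0) : IsPrim n := by
  induction ps generalizing n with
  | nil =>
    have h1 : n = 1 := by
      by_contra h0
      exact hn (HP842.dl_ne h0)
    subst h1
    exact isPrim_one
  | cons p ps ih =>
    have e : alL h ((p :: ps).map (Pq.pc P)) n =
        ∑ d ∈ Div277.dvs n, pc h (p.pc P) d * alL h (ps.map (Pq.pc P)) (n / d) := rfl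
    rw [e] at hn
    obtain ⟨d, hd, h1⟩ := Finset.exists_ne_zero_of_sum_ne_zero hn
    rw [← TP320.mul_div_of_mem hd]
    exact (Div277.isPrim_of_mem_dvs hd).mul (ih (right_ne_zero_of_mul h1))

lemma alL_cop {P : DPar} (hP : P.OK) {h : ℝ → ℝ} {ps : List Pq} {n : Eis}
    (hn : alL h (ps.map (Pq.pc P)) n ≠ 0) : IsPrim n ∧ IsCoprime n P.n := by
  induction ps generalizing n with
  | nil =>
    have h1 : n = 1 := by
      by_contra h0
      exact hn (HP842.dl_ne h0)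
    subst h1
    exact ⟨isPrim_one, isCoprime_one_left⟩
  | cons p ps ih =>
    have e : alL h ((p :: ps).map (Pq.pc P)) n =
        ∑ d ∈ Div277.dvs n, pc h (p.pc P) d * alL h (ps.map (Pq.pc P)) (n / d) := rfl
    rw [e] at hn
    obtain ⟨d, hd, h1⟩ := Finset.exists_ne_zero_of_sum_ne_zero hn
    obtain ⟨h2, h3⟩ := pc_cop hP p (left_ne_zero_of_mul h1)
    obtain ⟨h4, h5⟩ := ih (right_ne_zero_of_mul h1)
    have h6 := TP320.mul_div_of_mem hd
    rw [← h6]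
    exact ⟨h2.mul h4, IsCoprime.mul_left h3 h5⟩

lemma SM_cop {n s m : Eis} (hs : s ∈ FE47.SM n) (h : IsCoprime m n) : IsCoprime s m := by
  refine isCoprime_of_prime_dvd (fun h0 => hs.1 h0.1) fun p hp hps hpm => ?_
  exact hp.not_isUnit (h.isUnit_of_dvd' hpm (hs.2 p hp hps))

open Crest.Agent.R017.E5B71 (Pt) in
/-- the twisted list -/
lemma alL_tw {P : DPar} (h : ℝ → ℝ) (s : Eis) (ps : List Pq) :
    alL h (ps.map (Pt P s)) = tw3 s (alL h (ps.map (Pq.pc P))) := by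
  induction ps with
  | nil =>
    funext n
    show HP842.dl n = sy s n * HP842.dl n
    unfold HP842.dl
    split_ifs with h1
    · rw [h1, Char766.sy_one_right]; simp
    · simp
  | cons p ps ih =>
    funext n
    have e : alL h ((p :: ps).map (Pt P s)) n =
        ∑ d ∈ Div277.dvs n, pc h (Pt P s p) d * alL h (ps.map (Pt P s)) (n / d) := rfl
    have e' : alL h ((p :: ps).map (Pq.pc P)) n =
        ∑ d ∈ Div277.dvs n, pc h (p.pc P) d * alL h (ps.map (Pq.pc P)) (n / d) := rfl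
    rw [e, ih]
    unfold tw3
    rw [e', Finset.mul_sum]
    refine Finset.sum_congr rfl fun d hd => ?_
    have hdp := Div277.isPrim_of_mem_dvs hd
    by_cases h0 : alL h (ps.map (Pq.pc P)) (n / d) = 0
    · rw [h0]; ring
    have h6 := TP320.mul_div_of_mem hd
    have hq : IsPrim (n / d) := alL_prim h0
    have e1 : sy s n = sy s d * sy s (n / d) := by
      conv_lhs => rw [← h6]
      exact Char766.sy_mul_right hdp hq
    have e2 : pc h (Pt P s p) d = sy s d * pc h (p.pc P) d := by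
      unfold pc
      rw [if_pos hdp, if_pos hdp]
      show HP842.uv p.u d * ((p.pc P).ψ d * sy s d) * HSep813.gw h (Real.exp p.z) p.t d =
        sy s d * (HP842.uv p.u d * (p.pc P).ψ d * HSep813.gw h (Real.exp p.z) p.t d)
      ring
    rw [e1, e2]
    ring

open Crest.Agent.R017.E5B71 (Pt) in
lemma sqc_tw {P : DPar} (h : ℝ → ℝ) (s q : Eis) (ps : List Pq) :
    sqc q (alL h (ps.map (Pt P s))) = tw3 s (sqc q (alF 1 1 P h (natl ps))) := by
  rw [alF_natl, alL_tw]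
  funext n
  unfold HP842.sqc tw3
  ring

lemma nm_ne {s : Eis} (hs : s ≠ 0) : (1 : ℝ) ≤ nm s := by exact_mod_cast nm_pos.2 hs

open Crest.Agent.R017.E5B71 (Pt) in
/-- the twisted list is dominated by the natural list -/
lemma dom_list {P : DPar} (hP : P.OK) (h : ℝ → ℝ) {s : Eis} (hs : s ∈ FE47.SM P.n) (q : Eis)
    (ps : List Pq) : Dom ((nm s : ℝ) ^ 2) (ds s).card (sqc q (alF 1 1 P h (natl ps)))
      (sqc q (alL h (ps.map (Pt P s)))) := by
  rw [sqc_tw]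
  refine dom_tw hs.1 (fun n hn => ?_) fun n hn => ?_
  · have h1 := right_ne_zero_of_mul hn
    rw [alF_natl] at h1
    exact alL_prim h1
  · have h1 := right_ne_zero_of_mul hn
    rw [alF_natl] at h1
    exact SM_cop hs (alL_cop hP h1).2

open Crest.Agent.R017.E5B71 (Pt) in
/-- **(I1) for natural lists twisted by an `S`-unit `s`.** -/
theorem I1LT {w : ℝ → ℝ} (hw : Wgt w) (hw0 : ∀ x, 0 ≤ w x) {h : ℝ → ℝ} {c : ℝ} (hpu : PU h c)
    (N : ℕ) {R₁ : ℝ} (hR₁ : 0 ≤ R₁) (hR : ∀ u, cx h u ≠ 0 → |u| ≤ R₁) {ε e₁ M B₂ : ℝ}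
    (hε : 0 < ε) (he₁ : 0 < e₁) (hM : 0 ≤ M) (hB₂ : 0 < B₂) {s : Eis} (hs0 : s ≠ 0) :
    ∃ C r : ℝ, 0 ≤ C ∧ 0 ≤ r ∧ ∀ X : ℝ, 3 ≤ X → ∀ (P : DPar), P.OK → s ∈ FE47.SM P.n →
      ∀ (q : Eis) (ps : List Pq),
      ps.length ≤ N → (∀ p ∈ ps, 0 ≤ p.z ∧ p.z ≤ Real.log X) → LN ps ≤ Real.log X →
      ∀ (K Y D Y₀ Y₁ D' Y₁' T₀ E0 F F₂ : ℝ) (I : ℕ), 1 ≤ K →
      Real.exp (LN ps + N * R₁ + 1) ≤ Y → Y ≤ X ^ B₂ → 0 ≤ D → 0 < Y₁ → D ≤ D' → Y₁ ≤ Y₁' →
      Y₁' ≤ D' ^ 2 → Y₁' * (nm s : ℝ) ^ 2 ≤ X → Real.exp (2 * LN ps) * X ^ e₁ ≤ K * Y₁' →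
      Y₀ < 1 → 0 < E0 → Y₁ < 2 ^ I → 0 < T₀ → 0 ≤ F → 0 ≤ F₂ →
      FlatO h P q ps r M (Real.log K) (Real.log (Y₁' * (nm s : ℝ) ^ 2)) F →
      FlatL h P q ps (X ^ B₂) r M (Real.log K) (Real.log (Y₁' * (nm s : ℝ) ^ 2)) F →
      Tail h P q ps (X ^ B₂) r M (Real.log K) (Real.log (Y₁' * (nm s : ℝ) ^ 2)) (Real.log T₀)
        (Real.log E0) F₂ →
      ∀ om : Eis × Eis → ℂ, (∀ x, ‖1 - om x‖ ≤ 1) →
      (∀ x : Eis × Eis, (nm (x.2 * x.1 ^ 2) : ℝ) ≤ T₀ → om x = 1) →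
      (∀ x ∈ JW D' Y₀ Y₁', x ∉ JW D Y₀ Y₁ → om x = 0) → ∀ (Q : Eis → Prop) (et e₃ : ℝ),
      ‖CrP w K (sqc q (alL h (ps.map (Pt P s)))) (fun k => if Q k then 0 else
          StE E0 (JW D Y₀ Y₁) om (sqc q (alL h (ps.map (Pt P s)))) k)‖ ≤ et →
      GrP w K (fun k => if Q k then
          StE E0 (JW D Y₀ Y₁) om (sqc q (alL h (ps.map (Pt P s)))) k else 0) ≤
        c3 w K * (X3 Y E0 (JW D Y₀ Y₁) om (sqc q (alL h (ps.map (Pt P s))))).re + e₃ →
      ∑' k : Eis, (if IsPrim k ∧ Q k then w (nm k / K) *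
        ‖CS (sqc q (alL h (ps.map (Pt P s)))) k -
          (pC : ℂ) * StE E0 (JW D Y₀ Y₁) om (sqc q (alL h (ps.map (Pt P s)))) k‖ ^ 2 else 0) ≤
      C * X ^ ε * (K * Real.exp (LN ps)) * (1 + F + F₂) +
        2 * pC * (E2s w K E0 D Y₀ Y₁ I om (sqc q (alL h (ps.map (Pt P s)))) + et) +
        pC ^ 2 * e₃ := by
  obtain ⟨C, r, hC, hr, H⟩ := I1LD hw hw0 hpu N hR₁ hR hε he₁ hM hB₂
    (one_le_pow₀ (nm_ne hs0) (n := 2)) (Nat.cast_nonneg (ds s).card)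
  refine ⟨C, r, hC, hr, ?_⟩
  intro X hX P hP hs q ps hN hz hLX K Y D Y₀ Y₁ D' Y₁' T₀ E0 F F₂ I hK hYl hYu hD hY₁ hDD hYY hYD
    hYX hKX hY₀ hE0 hI hT₀ hF hF₂ hco hcl htl om hom1 hom homJ Q et e₃ ht he
  exact H X hX P hP q ps hN hz hLX K Y D Y₀ Y₁ D' Y₁' T₀ E0 F F₂ I hK hYl hYu hD hY₁ hDD hYY hYD
    hYX hKX hY₀ hE0 hI hT₀ hF hF₂ hco hcl htl _ (dom_list hP h hs q ps) om hom1 hom homJ Q et e₃ ht he

end Crest.Agent.R017.I1146
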