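import Crest.Agent.R017.P1k_54

/-!
# Row 17, R8/P1 at list level, part 7 (helper54): children as typed lists, the inputs

* `chP` : a shortened typed piece, `Pt_chP`
* `fam` : the family of a base datum, `reY_chS`
* `alb_eq` : one side as a typed list
* `S8`, `ErC`, `Dom8`, `E8`, **`P10`** : the error moment of natural lists (no amplifier factor)
* `S9`, `MmC`, `Dom9`, `E9`, **`P1M`** : the mismatch moment
-/

set_option autoImplicit false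

noncomputable section

open Finset
open scoped ComplexConjugate ContDiff

namespace Crest.Agent.R017.P1l54

open Crest.Agent.R012 Crest.Agent.R012.Eis Crest.Agent.R012.Div277
open Crest.Agent.R012.Mob705 hiding pb mem_pb
open Crest.Agent.R012.LS2 (S mem_S)
open Crest.Agent.R017.CM106 Crest.Agent.R017.C70
open Crest.Agent.R017.FE47 (PU cx SM)
open Crest.Agent.R017.StD828 (ln Tm)
open Crest.Agent.R017.E2440 (TE StE)
open Crest.Agent.R017.E5k54 (PT alb)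
open Crest.Agent.R017.P1e54 Crest.Agent.R017.P1f54 Crest.Agent.R017.P1i54 Crest.Agent.R017.P1j54
open Crest.Agent.R017.P1k54
open Crest.Agent.R017.HP842 (Pc pc al alL cv Tu mem_Tu sqc Th)
open Crest.Agent.R017.B770 Crest.Agent.R017.Prov71
open Crest.Agent.R017.XT71 (Sys Win mx)
open Crest.Agent.R017.UM71 Crest.Agent.R017.End699
open Crest.Agent.R017.E5B71 Crest.Agent.R017.E5P571 Crest.Agent.R017.E5L770
open Crest.Agent.R017.Rough381 (sh)

/-! ### pieces -/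

/-- the piece `p`, `a` taken out, made prime to `m`, with length `z` and height `t` -/
def chP (p : Pq) (a m : Eis) (hm : m ≠ 0) (z t : ℝ) : Pq :=
  ⟨p.kd, p.u.sub a, p.d * m, mul_ne_zero p.d0 hm, z, t⟩

lemma Pt_OK {P : DPar} (hP : P.OK) (t₀ : Eis) (p : Pq) : (Pt P t₀ p).OK where
  ch := (Pq.ok hP p).ch.mul' (Char766.isChar_sy t₀)
  Y0 := (Pq.ok hP p).Y0

lemma prin0_mul3 (x y b : Eis) : prin0 (x * y) b = prin0 x b * prin0 y b := by
  unfold prin0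
  by_cases h1 : IsCoprime b x
  · by_cases h2 : IsCoprime b y
    · rw [if_pos (h1.mul_right h2), if_pos h1, if_pos h2, one_mul]
    · rw [if_neg fun h => h2 h.of_mul_right_right, if_neg h2, mul_zero]
  · rw [if_neg fun h => h1 h.of_mul_right_left, if_neg h1, zero_mul]

lemma Pt_chP (P : DPar) (t₀ : Eis) (p : Pq) (a m : Eis) (hm : m ≠ 0) (z t : ℝ) :
    Pt P t₀ (chP p a m hm z t) = ⟨((sh (Pt P t₀ p) a).cop m).u,
      ((sh (Pt P t₀ p) a).cop m).ψ, Real.exp z, t⟩ := by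
  unfold Pt SU770.tw1 chP
  show (⟨p.u.sub a, _, Real.exp z, t⟩ : Pc) = ⟨p.u.sub a, _, Real.exp z, t⟩
  congr 1
  funext b
  show chK P p.kd b * prin0 (p.d * m) b * sy t₀ b =
    (chK P p.kd b * prin0 p.d b * sy t₀ b) * prin0 m b
  rw [prin0_mul3]
  ring

lemma chP_lump {p : Pq} (hp : Dq.lump p) (a m : Eis) (hm : m ≠ 0) (z t : ℝ) :
    Dq.lump (chP p a m hm z t) := by
  refine ⟨hp.1, ?_⟩
  show p.u.sub a = .one
  rw [hp.2]
  unfold HP842.UT.sub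
  rw [if_neg]
  rintro ⟨h, -⟩
  cases h

/-! ### families -/

section fam

variable {m : ℕ} (P : DPar) (t₀ : Eis)

/-- the family: amplifier pieces, lumps -/
def fam (ps : Fin m → Pq) (vs : Fin 3 → Pq) : Fin m ⊕ Fin 3 → Pc :=
  Sum.elim (fun i => Pt P t₀ (ps i)) fun j => Pt P t₀ (vs j)

lemma fam_OK (hP : P.OK) (ps : Fin m → Pq) (vs : Fin 3 → Pq) (i : Fin m ⊕ Fin 3) :
    (fam P t₀ ps vs i).OK := by
  rcases i with i | j
  · exact Pt_OK hP t₀ _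
  · exact Pt_OK hP t₀ _

/-- the modulus of a side is not `0` -/
lemma mod_ne {ι : Type*} [Fintype ι] {γ : ι → Eis} (hγ : ∀ i, IsPrim (γ i)) {g : Eis}
    (hg : IsPrim g) : (∏ i, γ i) * g ≠ 0 :=
  mul_ne_zero (E554.isPrim_prod fun i _ => hγ i).ne_zero hg.ne_zero

variable {ps : Fin m → Pq} {vs : Fin 3 → Pq} {γ x : Fin m → Eis} {β y : Fin 3 → Eis} {g : Eis}

/-- the children with new lengths and heights -/
theorem reY_chS (hγ : ∀ i, IsPrim (γ i)) (hβ : ∀ i, IsPrim (β i)) (hg : IsPrim g)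
    (z t : Fin m ⊕ Fin 3 → ℝ) :
    reY (chS (fam P t₀ ps vs) γ β g x y) (fun i => Real.exp (z i)) t =
      fam P t₀ (fun i => chP (ps i) (γ i * x i) ((∏ i, γ i) * g) (mod_ne hγ hg) (z (.inl i))
        (t (.inl i))) (fun j => chP (vs j) (β j * y j) ((∏ j, β j) * g) (mod_ne hβ hg)
        (z (.inr j)) (t (.inr j))) := by
  funext i
  rcases i with i | j
  · show _ = Pt P t₀ _
    rw [Pt_chP]
    rfl
  · show _ = Pt P t₀ _
    rw [Pt_chP]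
    rfl

/-- the sequence of a family as a list -/
theorem al_fam (h : ℝ → ℝ) (ps : Fin m → Pq) (vs : Fin 3 → Pq) :
    al h (fam P t₀ ps vs) = alL h ((List.ofFn vs ++ List.ofFn ps).map (Pt P t₀)) := by
  rw [al_sum, List.map_append, List.map_ofFn, List.map_ofFn]
  rfl

end fam

/-! ### one side as a typed list -/

section side

variable {ι : Type*} [Fintype ι] [DecidableEq ι]

lemma Tu_one : Tu ι 1 = {fun _ => 1} := by
  ext x
  rw [mem_Tu, mem_singleton]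
  constructor
  · rintro ⟨h1, h2⟩
    funext i
    refine HP842.eq_one_of_isUnit (h1 i) (isUnit_of_dvd_one ?_)
    rw [← h2]
    exact Finset.dvd_prod_of_mem x (Finset.mem_univ i)
  · rintro rfl
    exact ⟨fun _ => isPrim_one, by simp⟩

theorem alb_eq {h : ℝ → ℝ} {s : ι → Pc} (hs : ∀ i, (s i).OK) {γ : ι → Eis}
    (hγ : ∀ i, IsPrim (γ i)) : alb (fun i => pc h (s i)) γ =
      k1 s γ (fun _ => 1) 1 • sqc 1 (al h (ch1 s γ (fun _ => 1) 1)) := by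
  classical
  have hprim : ∀ i m, pc h (s i) m ≠ 0 → IsPrim m := by
    intro i m hm
    by_contra h0
    apply hm
    unfold pc
    rw [if_neg h0]
  funext a
  rw [Pi.smul_apply, smul_eq_mul]
  by_cases ha : IsPrim a ∧ Squarefree a
  · have h1 := side_eq (h := h) hs hγ isPrim_one squarefree_one ha.1 ha.2
    rw [Tu_one, sum_singleton] at h1
    have h2 : sub (alb (fun i => pc h (s i)) γ) 1 a = alb (fun i => pc h (s i)) γ a := by
      unfold sub; rw [one_mul]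
    rw [← h2, h1]
    congr 1
    show _ = Th 1 a * cv _ a
    unfold Th
    rw [if_pos ⟨ha.2, isCoprime_one_right⟩, one_mul]
  · have h1 : alb (fun i => pc h (s i)) γ a = 0 := by
      by_contra hne
      exact ha ⟨alb_prim hprim hγ hne, (alb_ne hne).1⟩
    have h2 : sqc 1 (al h (ch1 s γ (fun _ => 1) 1)) a = 0 := by
      by_contra hne
      apply ha
      have h3 : Th 1 a * cv (fun i => pc h (ch1 s γ (fun _ => 1) 1 i)) a ≠ 0 := hne
      constructor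
      · have h4 := right_ne_zero_of_mul h3
        unfold cv at h4
        obtain ⟨x, hx, -⟩ := Finset.exists_ne_zero_of_sum_ne_zero h4
        rw [mem_Tu] at hx
        rw [← hx.2]
        exact E554.isPrim_prod fun i _ => hx.1 i
      · have h4 := left_ne_zero_of_mul h3
        by_contra h5
        apply h4
        unfold Th
        rw [if_neg fun h => h5 h.1]
    rw [h1, h2, mul_zero]

end side

/-- the mismatch of two sides -/
theorem M2_Mm_alb {ι κ : Type*} [Fintype ι] [DecidableEq ι] [Fintype κ] [DecidableEq κ]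
    {h : ℝ → ℝ} {R : ℝ} (hR : ∀ u, cx h u ≠ 0 → |u| ≤ R) {s : ι → Pc} {s' : κ → Pc}
    (hs : ∀ i, (s i).OK) (hs' : ∀ i, (s' i).OK) {γ : ι → Eis} {β : κ → Eis}
    (hγ : ∀ i, IsPrim (γ i)) (hβ : ∀ i, IsPrim (β i)) {u : Eis → ℝ} (h0 : ∀ k, 0 ≤ u k)
    (hu : (Function.support u).Finite) {JJ : Finset (Eis × Eis)} (hJ : ∀ x ∈ JJ, x.1 ≠ 0)
    {E0 Z : ℝ} (hZ : 0 ≤ Z) (o : Eis → ℂ) (g : Eis) :
    M2 u (Mm JJ E0 Z o g (alb (fun i => pc h (s i)) γ) (alb (fun j => pc h (s' j)) β)) ≤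
      M2 u (Mm JJ E0 Z o g (sqc 1 (al h (ch1 s γ (fun _ => 1) 1)))
        (sqc 1 (al h (ch1 s' β (fun _ => 1) 1)))) := by
  classical
  have hOK := ch1_OK hs' hβ (x := fun _ => 1) (fun _ => isPrim_one) 1
  have hfs : FS (sqc 1 (al h (ch1 s' β (fun _ => 1) 1))) := FS_sqc_al hR hOK 1
  rw [alb_eq hs hγ, alb_eq hs' hβ]
  refine M2_mono h0 hu fun k => ?_
  have e1 := Mm_sum_left ({()} : Finset Unit) (fun _ => k1 s γ (fun _ => 1) 1)
    (fun _ => sqc 1 (al h (ch1 s γ (fun _ => 1) 1))) JJ E0 Z o g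
    (k1 s' β (fun _ => 1) 1 • sqc 1 (al h (ch1 s' β (fun _ => 1) 1))) k
  have e2 := Mm_sum_right ({()} : Finset Unit) (fun _ => k1 s' β (fun _ => 1) 1)
    (fun _ => sqc 1 (al h (ch1 s' β (fun _ => 1) 1))) (fun _ _ => hfs) hJ hZ E0 o g
    (sqc 1 (al h (ch1 s γ (fun _ => 1) 1))) k
  simp only [sum_singleton] at e1 e2
  rw [e1, e2, norm_mul, norm_mul]
  have h1 := norm_k1_le hs hγ (x := fun _ => 1) (fun _ => isPrim_one) 1
  have h2 := norm_k1_le hs' hβ (x := fun _ => 1) (fun _ => isPrim_one) 1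
  have h3 := norm_nonneg (Mm JJ E0 Z o g (sqc 1 (al h (ch1 s γ (fun _ => 1) 1)))
        (sqc 1 (al h (ch1 s' β (fun _ => 1) 1))) k)
  calc _ ≤ 1 * (1 * ‖Mm JJ E0 Z o g (sqc 1 (al h (ch1 s γ (fun _ => 1) 1)))
        (sqc 1 (al h (ch1 s' β (fun _ => 1) 1))) k‖) :=
        mul_le_mul h1 (mul_le_mul_of_nonneg_right h2 h3) (by positivity) zero_le_one
    _ = _ := by ring

/-! ### the inputs -/

/-- base datum and three lumps -/
abbrev Bc := Bd × (Fin 3 → Pq)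

/-- exponents of `Bc` : `inl` = the base datum, `inr i` = the lumps of the child -/
def S8 : Sys Bc ((Fin 3 ⊕ Fin 5) ⊕ Fin 3) where
  ev X a := Sum.elim (S5.ev X a.1) fun i => Dq.nl X (a.2 i)
  g _ := 1
  n _ := 0
  s₁ a := max (S5.s₁ a.1) (mx Dq.s1 (List.ofFn a.2))
  s₂ a := max (S5.s₂ a.1) (mx Dq.s2 (List.ofFn a.2))

/-- base datum, three lumps, `g`, `log Z` -/
abbrev Bm := Bc × Eis × ℝ

/-- exponents of `Bm` : `inr 0` = `log N g`, `inr 1` = `log Z` -/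
def S9 : Sys Bm (((Fin 3 ⊕ Fin 5) ⊕ Fin 3) ⊕ Fin 2) where
  ev X a := Sum.elim (S8.ev X a.1) ![Real.log (nm a.2.1) / Real.log X, a.2.2 / Real.log X]
  g _ := 1
  n _ := 0
  s₁ a := S8.s₁ a.1
  s₂ a := S8.s₂ a.1

/-- admissible data: `t ∈ SM n`, lumps not short, amplifier pieces -/
def okC (P : DPar) (t₀ : Eis) (a : Bc) (qs : List Pq) : Prop :=
  a.1.ok ∧ t₀ ∈ SM P.n ∧ (∀ i, Dq.lump (a.2 i) ∧ 0 ≤ (a.2 i).z) ∧ ∀ p ∈ qs, p.kd = .am

/-- number of levels of the window -/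
def nO (a : Bd) : ℕ := nL a.l (a3 a) a.z

/-- top of the window -/
def YT (l N z : ℝ) : ℝ := 2 ^ nL l N z

/-- **the official window** -/
def Jo (l N z : ℝ) : Finset (Eis × Eis) := JW (Real.sqrt (YT l N z)) (1 / 10) (YT l N z)

/-- the plateau as a function of the norm: `omP n x = oN n (ln x)` -/
def oN (n : ℕ) (z : Eis) : ℂ := ∑ i ∈ range n, (wL i (Real.log (nm z)) : ℂ)

lemma omP_eq (n : ℕ) : omP n = fun x => oN n (ln x) := rfl

variable {Λ : Type*} (π : Λ → DPar) (h : ℝ → ℝ) (e0 : ℝ)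

open Classical in
/-- **the error moment of a natural list** -/
def ErC (R : Λ → ℝ) (lam : Λ × Eis) (a : Bc) (qs : List Pq) : ℝ :=
  if okC (π lam.1) lam.2 a qs then
    M2 (uM (R lam.1) (Real.exp a.1.l) (Real.exp (a.1.l / 20)))
      (Er (pC : ℂ) (Real.exp (e0 * a.1.l)) (Jo a.1.l (a3 a.1) a.1.z) (omP (nO a.1))
        (sqc 1 (alL h ((List.ofFn a.2 ++ qs).map (Pt (π lam.1) lam.2)))))
  else 0

open Classical in
/-- **the mismatch moment**: lumps `a.1.2`, amplifier list `qs`, common divisor `g = a.2.1`,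
`Z = e^{a.2.2}`, the amplifier sequence supported in `nm n ≤ Z` -/
def MmC (R : Λ → ℝ) (lam : Λ × Eis) (a : Bm) (qs : List Pq) : ℝ :=
  if okC (π lam.1) lam.2 a.1 qs ∧ IsPrim a.2.1 ∧ Squarefree a.2.1 ∧ 0 ≤ a.2.2 ∧
      ∀ n, sqc 1 (alL h (qs.map (Pt (π lam.1) lam.2))) n ≠ 0 → (nm n : ℝ) ≤ Real.exp a.2.2 then
    M2 (uM (R lam.1) (Real.exp a.1.1.l) (Real.exp (a.1.1.l / 20)))
      (Mm (JW (Real.sqrt (YT a.1.1.l (a3 a.1.1) a.1.1.z) * Real.exp a.2.2) (1 / 10)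
          (YT a.1.1.l (a3 a.1.1) a.1.1.z * Real.exp a.2.2 ^ 2)) (Real.exp (e0 * a.1.1.l))
        (Real.exp a.2.2) (oN (nO a.1.1)) a.2.1
        (sqc 1 (alL h (qs.map (Pt (π lam.1) lam.2))))
        (sqc 1 (alL h ((List.ofFn a.1.2).map (Pt (π lam.1) lam.2)))))
  else 0

/-- the parents: what the reduction needs -/
structure ParOK (p : Fin 3 ⊕ Fin 5 → ℝ) : Prop where
  κ0 : 8 / 9 ≤ cκ p
  κ1 : cκ p ≤ 1
  u0 : ∀ i, 0 ≤ cu p i
  N0 : 3 / 5 * cκ p ≤ cN p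
  N1 : cN p ≤ 1
  x0 : 0 ≤ cx' p
  x1 : cx' p ≤ 1 / 3

/-- configurations of the children: parents in `Par`, shortened lumps, shortened amplifier share,
total length `≥ κ/2 - 2x` -/
def Dom8 (Par : Set (Fin 3 ⊕ Fin 5 → ℝ)) : Set (((Fin 3 ⊕ Fin 5) ⊕ Fin 3 → ℝ) × (Kd → ℝ)) :=
  {q | (fun i => q.1 (.inl i)) ∈ Par ∧
    (∀ i : Fin 3, 0 ≤ q.1 (.inr i) ∧ q.1 (.inr i) ≤ cu (fun i => q.1 (.inl i)) (Fin.natAdd 2 i)) ∧
    q.2 .mo = 0 ∧ 0 ≤ q.2 .am ∧ q.2 .am ≤ cx' (fun i => q.1 (.inl i)) ∧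
    cκ (fun i => q.1 (.inl i)) / 2 ≤
      ∑ i : Fin 3, q.1 (.inr i) + q.2 .am + 2 * cx' (fun i => q.1 (.inl i))}

/-- target of the children -/
def E8 (L0 : (Fin 3 ⊕ Fin 5 → ℝ) → ℝ) (q : ((Fin 3 ⊕ Fin 5) ⊕ Fin 3 → ℝ) × (Kd → ℝ)) : ℝ :=
  cκ (fun i => q.1 (.inl i)) + ∑ i : Fin 3, q.1 (.inr i) + q.2 .am + L0 (fun i => q.1 (.inl i))

/-- **P1_0** : the error moment of all natural children -/
def P10 (Par : Set (Fin 3 ⊕ Fin 5 → ℝ)) (L0 : (Fin 3 ⊕ Fin 5 → ℝ) → ℝ) : Prop :=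
  ∀ R : Λ → ℝ, (∀ lam, 0 ≤ R lam) → UB S8 Dq (ErC π h e0 R) (Dom8 Par) ∅ (E8 L0)

/-- configurations of the mismatch -/
def Dom9 (Par : Set (Fin 3 ⊕ Fin 5 → ℝ)) :
    Set ((((Fin 3 ⊕ Fin 5) ⊕ Fin 3) ⊕ Fin 2 → ℝ) × (Kd → ℝ)) :=
  {q | (fun i => q.1 (.inl (.inl i))) ∈ Par ∧
    (∀ i : Fin 3, 0 ≤ q.1 (.inl (.inr i)) ∧
      q.1 (.inl (.inr i)) ≤ cu (fun i => q.1 (.inl (.inl i))) (Fin.natAdd 2 i)) ∧
    q.2 .mo = 0 ∧ 0 ≤ q.2 .am ∧ q.2 .am ≤ cx' (fun i => q.1 (.inl (.inl i))) ∧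
    0 ≤ q.1 (.inr 0) ∧ q.1 (.inr 0) ≤ q.2 .am ∧
    q.1 (.inr 1) = cx' (fun i => q.1 (.inl (.inl i))) ∧
    cκ (fun i => q.1 (.inl (.inl i))) / 2 ≤ ∑ i : Fin 3, q.1 (.inl (.inr i)) + q.2 .am -
      2 * q.1 (.inr 0) + 2 * cx' (fun i => q.1 (.inl (.inl i)))}

/-- target of the mismatch -/
def E9 (L0 : (Fin 3 ⊕ Fin 5 → ℝ) → ℝ)
    (q : (((Fin 3 ⊕ Fin 5) ⊕ Fin 3) ⊕ Fin 2 → ℝ) × (Kd → ℝ)) : ℝ :=
  cκ (fun i => q.1 (.inl (.inl i))) + ∑ i : Fin 3, q.1 (.inl (.inr i)) + q.2 .am -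
    2 * q.1 (.inr 0) + L0 (fun i => q.1 (.inl (.inl i)))

/-- **P1M** : the mismatch moment -/
def P1M (Par : Set (Fin 3 ⊕ Fin 5 → ℝ)) (L0 : (Fin 3 ⊕ Fin 5 → ℝ) → ℝ) : Prop :=
  ∀ R : Λ → ℝ, (∀ lam, 0 ≤ R lam) → UB S9 Dq (MmC π h e0 R) (Dom9 Par) ∅ (E9 L0)

end Crest.Agent.R017.P1l54
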