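import Crest.Agent.R017.HP5_842
import Crest.Agent.R017.ProvI_71

/-!
# Row 17, sides: squarefree ↔ natural for typed pieces (helper842)

* `sq_nat_pc`, `nat_sq_pc` : for families of typed pieces, real length bound
* `sq_eq_sqc` : `TP320.sq q w = sqc q w`
* `sqc_absorb` : the condition `(n, q) = 1` goes into the characters
* `Pq.sub`, `Pq.cop` : the same for the pieces of the provider
-/

set_option autoImplicit false
set_option linter.unusedSectionVars false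
set_option linter.unusedVariables false
set_option maxHeartbeats 400000

noncomputable section

open Complex
open scoped ComplexConjugate

namespace Crest.Agent.R017.HP842

open Crest.Agent.R012 Crest.Agent.R012.Eis Crest.Agent.R012.LS2 Crest.Agent.R012.Gauss880
open Crest.Agent.R012.Mob705
open Crest.Agent.R012.PSer47 (padiv mem_padiv IsChar)
open Crest.Agent.R012.Div277 (tau dvs mem_dvs tau_le_rpow)
open Crest.Agent.R017.CM106 Crest.Agent.R017.FE47 Crest.Agent.R017.End699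
open Crest.Agent.R017.Asm986 (Pf)
open Crest.Agent.R017.HSep813 (gw norm_gw_le)

/-! ### scalars -/

lemma CS_smul (c : ℂ) (α : Eis → ℂ) (k : Eis) : CS (fun n => c * α n) k = c * CS α k := by
  unfold CS
  rw [← tsum_mul_left]
  exact tsum_congr fun m => by ring

lemma sqc_smul (q : Eis) (c : ℂ) (α : Eis → ℂ) :
    sqc q (fun n => c * α n) = fun n => c * sqc q α n := by
  funext n
  unfold sqc
  ring

lemma KS_smul (K : Eis → Eis → ℂ) (c : ℂ) (α : Eis → ℂ) (k : Eis) :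
    KS K (fun n => c * α n) k = c * KS K α k := by
  unfold KS
  rw [← tsum_mul_left]
  exact tsum_congr fun m => by ring

/-- 320's restriction -/
lemma sq_eq_sqc {w : Eis → ℂ} (hw : ∀ n, w n ≠ 0 → IsPrim n) (q : Eis) :
    TP320.sq q w = sqc q w := by
  classical
  funext n
  unfold TP320.sq sqc Th
  by_cases hn : w n = 0
  · simp [hn]
  · have hp := hw n hn
    by_cases h : Squarefree n ∧ IsCoprime n q
    · rw [if_pos ⟨hp, h⟩, if_pos h, one_mul]
    · rw [if_neg (fun h' => h h'.2), if_neg h, zero_mul]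

/-! ### supports -/

lemma pc_support {h : ℝ → ℝ} {R : ℝ} (hR : ∀ u, cx h u ≠ 0 → |u| ≤ R) {P : Pc} (hP : 0 < P.Y)
    {b : Eis} (hb : pc h P b ≠ 0) : IsPrim b ∧ (nm b : ℝ) ≤ Real.exp R * P.Y := by
  classical
  unfold pc at hb
  split_ifs at hb with hp
  · refine ⟨hp, ?_⟩
    have h1 : gw h P.Y P.t b ≠ 0 := right_ne_zero_of_mul hb
    unfold gw at h1
    have h2 := hR _ (right_ne_zero_of_mul h1)
    have h3 : (0 : ℝ) < nm b := by exact_mod_cast nm_pos.2 hp.ne_zero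
    have h4 : Real.log (nm b) ≤ R + Real.log P.Y := by
      have := (abs_le.1 h2).2
      linarith
    calc (nm b : ℝ) = Real.exp (Real.log (nm b)) := (Real.exp_log h3).symm
      _ ≤ Real.exp (R + Real.log P.Y) := Real.exp_le_exp.2 h4
      _ = _ := by rw [Real.exp_add, Real.exp_log hP]
  · exact absurd rfl hb

section fam

variable {ι : Type} [Fintype ι] [DecidableEq ι]

lemma Bd_pc {h : ℝ → ℝ} {R : ℝ} (hR : ∀ u, cx h u ≠ 0 → |u| ≤ R) {s : ι → Pc}
    (hs : ∀ i, (s i).OK) {X : ℝ} (hX : ∀ i, (s i).Y ≤ X) :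
    Bd ⌈Real.exp R * X⌉₊ (fun i => pc h (s i)) := by
  intro i b hb
  have h1 := pc_support hR (hs i).Y0 hb
  rw [mem_primBall]
  refine ⟨?_, h1.1⟩
  have h2 : (nm b : ℝ) ≤ Real.exp R * X := h1.2.trans (by
    have := hX i
    gcongr)
  exact_mod_cast h2.trans (Nat.le_ceil _)

lemma nm_prod_cast (a : ι → Eis) : (nm (∏ i, a i) : ℝ) = ∏ i, (nm (a i) : ℝ) := by
  rw [nm_prod']
  push_cast
  rfl

lemma ceil_le {R X ε : ℝ} (hR : 0 ≤ R) (hX : 1 ≤ X) (hε : 0 < ε) :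
    (⌈Real.exp R * X⌉₊ : ℝ) ^ ε ≤ (2 * Real.exp R) ^ ε * X ^ ε := by
  have h1 : 1 ≤ Real.exp R := Real.one_le_exp hR
  have h2 : 1 ≤ Real.exp R * X := one_le_mul_of_one_le_of_one_le h1 hX
  have h3 : (⌈Real.exp R * X⌉₊ : ℝ) ≤ 2 * Real.exp R * X := by
    have := (Nat.ceil_lt_add_one (by linarith : (0 : ℝ) ≤ Real.exp R * X)).le
    linarith
  calc (⌈Real.exp R * X⌉₊ : ℝ) ^ ε ≤ (2 * Real.exp R * X) ^ ε :=
        Real.rpow_le_rpow (Nat.cast_nonneg _) h3 hε.le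
    _ = _ := by rw [Real.mul_rpow (by positivity) (by linarith)]

/-- the sub-side of a family at a tuple -/
lemma norm_CS_sub {h : ℝ → ℝ} {s : ι → Pc} (hs : ∀ i, (s i).OK) {a : ι → Eis}
    (ha : ∀ i, IsPrim (a i)) (k : Eis) :
    ‖CS (cv (fun i => sub (pc h (s i)) (a i))) k‖ ≤ ‖CS (al h (ssub s a)) k‖ := by
  rw [cv_sub_pc hs ha, CS_smul, norm_mul]
  exact mul_le_of_le_one_left (norm_nonneg _) (norm_scS_le hs ha)

lemma norm_CS_sub_sqc {h : ℝ → ℝ} {s : ι → Pc} (hs : ∀ i, (s i).OK) {a : ι → Eis}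
    (ha : ∀ i, IsPrim (a i)) (q k : Eis) :
    ‖CS (sqc q (cv (fun i => sub (pc h (s i)) (a i)))) k‖ ≤ ‖CS (sqc q (al h (ssub s a))) k‖ := by
  rw [cv_sub_pc hs ha, sqc_smul, CS_smul, norm_mul]
  exact mul_le_of_le_one_left (norm_nonneg _) (norm_scS_le hs ha)

lemma ssub_Y (s : ι → Pc) (a : ι → Eis) :
    ∏ i, (ssub s a i).Y = (∏ i, (s i).Y) / nm (∏ i, a i) := by
  rw [nm_prod_cast, ← Finset.prod_div_distrib]
  rfl

end fam

/-- **squarefree → natural** for typed pieces -/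
theorem sq_nat_pc (r : ℕ) {R ε : ℝ} (hR0 : 0 ≤ R) (hε : 0 < ε) : ∃ C : ℝ, 1 ≤ C ∧ ∀ (h : ℝ → ℝ),
    (∀ u, cx h u ≠ 0 → |u| ≤ R) → ∀ (ι : Type) [Fintype ι] [DecidableEq ι], Fintype.card ι ≤ r →
    ∀ (s : ι → Pc), (∀ i, (s i).OK) → ∀ X : ℝ, 1 ≤ X → (∀ i, (s i).Y ≤ X) →
    ∀ q : Eis, q ≠ 0 → ∀ (Ks : Finset Eis) (W : Eis → ℝ), (∀ k ∈ Ks, 0 ≤ W k) → ∀ B : ℝ, 0 ≤ B →
    (∀ a : ι → Eis, (∀ i, IsPrim (a i)) →
      ∑ k ∈ Ks, W k * ‖CS (al h (ssub s a)) k‖ ^ 2 ≤ B * ∏ i, (ssub s a i).Y) →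
    ∑ k ∈ Ks, W k * ‖CS (sqc q (al h s)) k‖ ^ 2 ≤
      C * (nm q : ℝ) ^ ε * X ^ ε * (B * ∏ i, (s i).Y) := by
  obtain ⟨C, hC, H⟩ := sq_nat r hε
  have hc1 : (1 : ℝ) ≤ (2 * Real.exp R) ^ ε :=
    Real.one_le_rpow (by have := Real.one_le_exp hR0; linarith) hε.le
  refine ⟨C * (2 * Real.exp R) ^ ε, one_le_mul_of_one_le_of_one_le hC hc1, ?_⟩
  intro h hR ι _ _ hcard s hs X hX hsX q hq Ks W hW B hB hyp
  have hX' : 1 ≤ ⌈Real.exp R * X⌉₊ := by
    rw [Nat.one_le_ceil_iff]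
    have := Real.exp_pos R
    positivity
  have hY : 0 ≤ ∏ i, (s i).Y := Finset.prod_nonneg fun i _ => (hs i).Y0.le
  have h1 := H ι hcard (fun i => pc h (s i)) ⌈Real.exp R * X⌉₊ hX' (Bd_pc hR hs hsX)
    (fun i => FS_pc hR (hs i)) q hq Ks W hW (B * ∏ i, (s i).Y) (mul_nonneg hB hY)
    (fun a ha _ => by
      have h2 := hyp a ha
      rw [ssub_Y, mul_div_assoc'] at h2
      refine le_trans (Finset.sum_le_sum fun k hk => ?_) h2
      refine mul_le_mul_of_nonneg_left ?_ (hW k hk)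
      exact pow_le_pow_left₀ (norm_nonneg _) (norm_CS_sub hs ha k) 2)
  refine h1.trans ?_
  have h3 := ceil_le hR0 hX hε
  have hq0 : 0 ≤ (nm q : ℝ) ^ ε := by positivity
  calc C * (nm q : ℝ) ^ ε * (⌈Real.exp R * X⌉₊ : ℝ) ^ ε * (B * ∏ i, (s i).Y)
      ≤ C * (nm q : ℝ) ^ ε * ((2 * Real.exp R) ^ ε * X ^ ε) * (B * ∏ i, (s i).Y) := by
        have := mul_nonneg hB hY
        gcongr
    _ = _ := by ring

/-- **natural → squarefree** for typed pieces -/
theorem nat_sq_pc (r : ℕ) {R ε : ℝ} (hR0 : 0 ≤ R) (hε : 0 < ε) : ∃ C : ℝ, 1 ≤ C ∧ ∀ (h : ℝ → ℝ),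
    (∀ u, cx h u ≠ 0 → |u| ≤ R) → ∀ (ι : Type) [Fintype ι] [DecidableEq ι], Fintype.card ι ≤ r →
    ∀ (s : ι → Pc), (∀ i, (s i).OK) → ∀ X : ℝ, 1 ≤ X → (∀ i, (s i).Y ≤ X) →
    ∀ (Ks : Finset Eis) (W : Eis → ℝ), (∀ k ∈ Ks, 0 ≤ W k) → ∀ B : ℝ, 0 ≤ B →
    (∀ a : ι → Eis, (∀ i, IsPrim (a i)) → Pf (∏ i, a i) →
      ∑ k ∈ Ks, W k * ‖CS (sqc (∏ i, a i) (al h (ssub s a))) k‖ ^ 2 ≤
        B * ∏ i, (ssub s a i).Y) →
    ∑ k ∈ Ks, W k * ‖CS (al h s) k‖ ^ 2 ≤ C * X ^ ε * (B * ∏ i, (s i).Y) := by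
  obtain ⟨C, hC, H⟩ := nat_sq r hε
  have hc1 : (1 : ℝ) ≤ (2 * Real.exp R) ^ ε :=
    Real.one_le_rpow (by have := Real.one_le_exp hR0; linarith) hε.le
  refine ⟨C * (2 * Real.exp R) ^ ε, one_le_mul_of_one_le_of_one_le hC hc1, ?_⟩
  intro h hR ι _ _ hcard s hs X hX hsX Ks W hW B hB hyp
  have hX' : 1 ≤ ⌈Real.exp R * X⌉₊ := by
    rw [Nat.one_le_ceil_iff]
    have := Real.exp_pos R
    positivity
  have hY : 0 ≤ ∏ i, (s i).Y := Finset.prod_nonneg fun i _ => (hs i).Y0.le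
  have h1 := H ι hcard (fun i => pc h (s i)) ⌈Real.exp R * X⌉₊ hX' (Bd_pc hR hs hsX)
    (fun i => FS_pc hR (hs i)) Ks W hW (B * ∏ i, (s i).Y) (mul_nonneg hB hY)
    (fun a ha _ hpf => by
      have h2 := hyp a ha hpf
      rw [ssub_Y, mul_div_assoc'] at h2
      refine le_trans (Finset.sum_le_sum fun k hk => ?_) h2
      refine mul_le_mul_of_nonneg_left ?_ (hW k hk)
      exact pow_le_pow_left₀ (norm_nonneg _) (norm_CS_sub_sqc hs ha _ k) 2)
  refine h1.trans ?_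
  have h3 := ceil_le hR0 hX hε
  calc C * (⌈Real.exp R * X⌉₊ : ℝ) ^ ε * (B * ∏ i, (s i).Y)
      ≤ C * ((2 * Real.exp R) ^ ε * X ^ ε) * (B * ∏ i, (s i).Y) := by
        have := mul_nonneg hB hY
        gcongr
    _ = _ := by ring

/-! ### the condition `(n, q) = 1` in the characters -/

lemma prin0_mul {d a b : Eis} : prin0 (d * a) b = prin0 d b * prin0 a b := by
  unfold prin0
  by_cases h1 : IsCoprime b d
  · by_cases h2 : IsCoprime b a
    · rw [if_pos (h1.mul_right h2), if_pos h1, if_pos h2, one_mul]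
    · rw [if_neg (fun h => h2 h.of_mul_right_right), if_neg h2, mul_zero]
  · rw [if_neg (fun h => h1 h.of_mul_right_left), if_neg h1, zero_mul]

/-- the piece prime to `q` -/
def Pc.cop (P : Pc) (q : Eis) : Pc := ⟨P.u, fun b => P.ψ b * prin0 q b, P.Y, P.t⟩

lemma pc_cop (h : ℝ → ℝ) (P : Pc) (q b : Eis) : pc h (P.cop q) b = pc h P b * prin0 q b := by
  classical
  unfold pc Pc.cop
  split_ifs
  · ring
  · rw [zero_mul]

lemma Pc.OK.cop {P : Pc} (hP : P.OK) (q : Eis) : (P.cop q).OK where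
  ch := hP.ch.mul' (prin0_isChar q)
  Y0 := hP.Y0

/-- **the coprimality condition goes into the characters** -/
theorem sqc_absorb {ι : Type*} [Fintype ι] [DecidableEq ι] (h : ℝ → ℝ) (s : ι → Pc) (q q' : Eis) :
    sqc (q * q') (al h s) = sqc q (al h fun i => (s i).cop q') := by
  classical
  funext n
  unfold sqc Th
  by_cases hn : Squarefree n ∧ IsCoprime n q
  swap
  · rw [if_neg hn, if_neg (fun h => hn ⟨h.1, h.2.of_mul_right_left⟩), zero_mul, zero_mul]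
  rw [if_pos hn, one_mul]
  unfold al cv
  have e1 : ∀ x ∈ Tu ι n, ∏ i, pc h ((s i).cop q') (x i) =
      (∏ i, pc h (s i) (x i)) * prin0 q' n := by
    intro x hx
    rw [mem_Tu] at hx
    rw [Finset.prod_congr rfl fun i _ => pc_cop h (s i) q' (x i), Finset.prod_mul_distrib]
    congr 1
    rw [← hx.2]
    unfold prin0
    by_cases h1 : IsCoprime (∏ i, x i) q'
    · rw [if_pos h1]
      refine Finset.prod_eq_one fun i _ => ?_
      rw [if_pos]
      exact h1.of_isCoprime_of_dvd_left (Finset.dvd_prod_of_mem x (Finset.mem_univ i))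
    · rw [if_neg h1]
      by_contra h0
      apply h1
      refine IsCoprime.prod_left fun i _ => ?_
      by_contra h2
      exact h0 (Finset.prod_eq_zero (Finset.mem_univ i) (if_neg h2))
  rw [Finset.sum_congr rfl e1, ← Finset.sum_mul]
  unfold prin0
  by_cases h1 : IsCoprime n q'
  · rw [if_pos ⟨hn.1, hn.2.mul_right h1⟩, if_pos h1, one_mul, mul_one]
  · rw [if_neg (fun h => h1 h.2.of_mul_right_right), if_neg h1, zero_mul, mul_zero]

/-! ### the pieces of the provider -/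

section prov

open Crest.Agent.R017.Prov71
open Crest.Agent.R017.B770

/-- the sub-piece -/
def _root_.Crest.Agent.R017.Prov71.Pq.sub (p : Pq) (a : Eis) (ha : a ≠ 0) : Pq where
  kd := p.kd
  u := p.u.sub a
  d := by classical exact if p.u = .mu ∨ p.u = .sq then p.d * a else p.d
  d0 := by
    split_ifs
    · exact mul_ne_zero p.d0 ha
    · exact p.d0
  z := p.z - Real.log (nm a)
  t := p.t

/-- the piece prime to `q` -/
def _root_.Crest.Agent.R017.Prov71.Pq.cop (p : Pq) (q : Eis) (hq : q ≠ 0) : Pq where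
  kd := p.kd
  u := p.u
  d := p.d * q
  d0 := mul_ne_zero p.d0 hq
  z := p.z
  t := p.t

lemma Pq_cop_pc (P : DPar) (p : Pq) {q : Eis} (hq : q ≠ 0) :
    (p.cop q hq).pc P = (p.pc P).cop q := by
  unfold Pq.pc Pq.cop Pc.cop
  congr 1
  funext b
  simp only
  rw [prin0_mul, mul_assoc]

lemma Pq_sub_pc (P : DPar) (p : Pq) {a : Eis} (ha : a ≠ 0) :
    (p.sub a ha).pc P = (p.pc P).sub a := by
  have hn : (0 : ℝ) < nm a := by exact_mod_cast nm_pos.2 ha
  unfold Pq.pc Pq.sub Pc.sub psub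
  simp only
  congr 1
  · by_cases h : p.u = .mu ∨ p.u = .sq
    · rw [if_pos h]
      funext b
      rw [if_pos h, prin0_mul, mul_assoc]
    · rw [if_neg h]
      funext b
      rw [if_neg h]
  · rw [Real.exp_sub, Real.exp_log hn]

end prov

end Crest.Agent.R017.HP842
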