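import Crest.Agent.R017.HP1_842

/-!
# Row 17, sides: exact conversions (helper842)

* `KS_cop` : removal of the condition `(m, q) = 1` on the Gauss side (any kernel with `Ker`)
* `KS_sub_cv` : sub-sequences of convolutions under a kernel
* `lamQ` : Möbius transform (componentwise) of the indicator of `∏ x` squarefree and prime to `q`
* `sum_sqc_cv` : squarefree → natural, exact identity
* `lamQ_support`, `norm_lamQ_le`
-/

set_option autoImplicit false
set_option linter.unusedSectionVars false
set_option linter.unusedVariables false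

noncomputable section

open Complex
open scoped ComplexConjugate

namespace Crest.Agent.R017.HP842

open Crest.Agent.R012 Crest.Agent.R012.Eis Crest.Agent.R012.LS2 Crest.Agent.R012.Gauss880
open Crest.Agent.R012.Mob705
open Crest.Agent.R012.PSer47 (padiv mem_padiv)
open Crest.Agent.R012.Div277 (tau dvs mem_dvs tau_le_rpow)
open Crest.Agent.R017.CM106

variable {ι : Type*} [Fintype ι] [DecidableEq ι]

/-! ### coprimality on the Gauss side -/

/-- **removal of the coprimality condition** -/
theorem KS_cop {K : Eis → Eis → ℂ} (hK : Ker K) {α : Eis → ℂ} (h : FS α) {q : Eis} (hq : q ≠ 0)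
    (l : Eis) :
    KS K (cop q α) l = ∑ d ∈ dvs q, (muE d : ℂ) * ((G d * conj (sy l d)) *
      KS K (sub α d) (l * d)) := by
  classical
  have e1 : KS K (cop q α) l =
      ∑' m : Eis, ∑ d ∈ dvs q, (muE d : ℂ) * (if d ∣ m then α m * K l m else 0) := by
    unfold KS
    refine tsum_congr fun m => ?_
    by_cases hm : α m = 0
    · unfold cop
      rw [hm]; simp
    · have hp := h.prim m hm
      have h1 := sum_muE_coprime hp hq
      have h2 : (if IsCoprime m q then (1 : ℂ) else 0) =
          ∑ d ∈ dvs q, (if d ∣ m then (muE d : ℂ) else 0) := by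
        have := congrArg (fun z : ℤ => (z : ℂ)) h1
        simp only [Int.cast_sum, Int.cast_ite, Int.cast_one, Int.cast_zero] at this
        exact this.symm
      have h3 : cop q α m * K l m = (if IsCoprime m q then (1 : ℂ) else 0) * (α m * K l m) := by
        unfold cop; split_ifs <;> simp
      rw [h3, h2, Finset.sum_mul]
      refine Finset.sum_congr rfl fun d _ => ?_
      split_ifs <;> simp
  rw [e1]
  have hs : ∀ d ∈ dvs q, Summable fun m : Eis =>
      (muE d : ℂ) * (if d ∣ m then α m * K l m else 0) := by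
    intro d _
    refine summable_of_hasFiniteSupport (h.fin.subset ?_)
    intro m hm h0
    apply hm
    have h0' : α m = 0 := h0
    simp [h0']
  rw [Summable.tsum_finsetSum hs]
  refine Finset.sum_congr rfl fun d hd => ?_
  have hdp := Div277.isPrim_of_mem_dvs hd
  rw [tsum_mul_left, ← tsum_mult hdp.ne_zero (fun m => α m * K l m)]
  by_cases hsq : Squarefree d
  · congr 1
    unfold KS
    rw [← tsum_mul_left]
    refine tsum_congr fun m => ?_
    by_cases hm : α (d * m) = 0
    · unfold sub; rw [hm]; ring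
    · have hmp : IsPrim m := (h.prim _ hm).of_mul_left hdp
      rw [hK.mul l d m hdp hsq hmp]
      unfold sub; ring
  · have : (muE d : ℂ) = 0 := by
      rw [muE_of_not_squarefree hsq]; simp
    rw [this, zero_mul, zero_mul]

/-- under a kernel at a frequency divisible by `d`, `sub (cv f) d` is a sum of convolutions -/
theorem KS_sub_cv {K : Eis → Eis → ℂ} (hK : Ker K) {f : ι → Eis → ℂ} (hf : ∀ i, FS (f i))
    {d : Eis} (hd : IsPrim d) (l : Eis) :
    KS K (sub (cv f) d) (l * d) =
      ∑ x ∈ Tu ι d, KS K (cv (fun i => sub (f i) (x i))) (l * d) := by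
  classical
  have e1 : KS K (sub (cv f) d) (l * d) =
      ∑' m : Eis, ∑ x ∈ Tu ι d, cv (fun i => sub (f i) (x i)) m * K (l * d) m := by
    unfold KS
    refine tsum_congr fun m => ?_
    by_cases hm : IsPrim m
    · by_cases hc : IsCoprime m (l * d)
      · have hc' : IsCoprime d m := (hc.of_isCoprime_of_dvd_right (dvd_mul_left d l)).symm
        unfold sub
        rw [cv_mul f hd hm hc', Finset.sum_mul]
        rfl
      · rw [hK.cop (l * d) m hm hc]
        simp
    · have h1 : sub (cv f) d m = 0 := by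
        unfold sub
        refine cv_not_prim fun h => hm (h.of_mul_left hd)
      rw [h1, zero_mul]
      symm
      refine Finset.sum_eq_zero fun x _ => ?_
      rw [cv_not_prim hm, zero_mul]
  rw [e1, Summable.tsum_finsetSum]
  · rfl
  · intro x hx
    rw [mem_Tu] at hx
    exact (FS_cv (f := fun i => sub (f i) (x i)) fun i => (hf i).sub (hx.1 i)).summable _

/-! ### componentwise Möbius inversion -/

/-- componentwise primary divisors -/
def dvT (x : ι → Eis) : Finset (ι → Eis) := Fintype.piFinset fun i => dvs (x i)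

lemma mem_dvT {x a : ι → Eis} (hx : ∀ i, IsPrim (x i)) :
    a ∈ dvT x ↔ ∀ i, IsPrim (a i) ∧ a i ∣ x i := by
  unfold dvT
  rw [Fintype.mem_piFinset]
  exact forall_congr' fun i => mem_dvs (hx i).ne_zero

/-- componentwise Möbius transform -/
def lamT (Θ : (ι → Eis) → ℂ) (a : ι → Eis) : ℂ :=
  ∑ p ∈ Fintype.piFinset (fun i => padiv (a i)),
    (∏ i, (muE (p i).1 : ℂ)) * Θ (fun i => (p i).2)

lemma mob1 {b y : Eis} (hb : IsPrim b) (hy : IsPrim y) :
    ∑ a ∈ dvs b, ∑ p ∈ padiv a, (muE p.1 : ℂ) * (if p.2 = y then 1 else 0) =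
      if b = y then 1 else 0 := by
  classical
  by_cases hd : y ∣ b
  · obtain ⟨c, rfl⟩ := hd
    have hc : IsPrim c := hb.of_mul_left hy
    rw [Finset.sum_sigma']
    have e1 : ∑ x ∈ (dvs (y * c)).sigma (fun a => padiv a),
        (muE x.2.1 : ℂ) * (if x.2.2 = y then 1 else 0) = ∑ e ∈ dvs c, (muE e : ℂ) := by
      have e2 : ∑ x ∈ (dvs (y * c)).sigma (fun a => padiv a),
          (muE x.2.1 : ℂ) * (if x.2.2 = y then 1 else 0) =
          ∑ x ∈ ((dvs (y * c)).sigma (fun a => padiv a)).filter (fun x => x.2.2 = y),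
            (muE x.2.1 : ℂ) := by
        rw [Finset.sum_filter]
        refine Finset.sum_congr rfl fun x _ => ?_
        split_ifs <;> simp
      rw [e2]
      refine Finset.sum_bij (fun x _ => x.2.1) ?_ ?_ ?_ ?_
      · rintro ⟨a, p⟩ hx
        simp only [Finset.mem_filter, Finset.mem_sigma, mem_padiv, mem_dvs hb.ne_zero] at hx
        rw [mem_dvs hc.ne_zero]
        refine ⟨hx.1.2.2.1, ?_⟩
        have h1 : p.1 * p.2 ∣ y * c := hx.1.2.1 ▸ hx.1.1.2
        have h2 : y * p.1 ∣ y * c := by rw [mul_comm y p.1, ← hx.2]; rwa [hx.2] at h1 ⊢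
        exact (mul_dvd_mul_iff_left hy.ne_zero).1 h2
      · rintro ⟨a, p⟩ hx ⟨a', p'⟩ hx' e
        simp only [Finset.mem_filter, Finset.mem_sigma, mem_padiv] at hx hx'
        have e' : p.1 = p'.1 := e
        have h1 : p = p' := Prod.ext e' (hx.2.trans hx'.2.symm)
        subst h1
        have h2 : a = a' := hx.1.2.1.symm.trans hx'.1.2.1
        subst h2
        rfl
      · intro e he
        rw [mem_dvs hc.ne_zero] at he
        refine ⟨⟨e * y, (e, y)⟩, ?_, rfl⟩
        simp only [Finset.mem_filter, Finset.mem_sigma, mem_padiv, mem_dvs hb.ne_zero]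
        refine ⟨⟨⟨he.1.mul hy, ?_⟩, trivial, he.1, hy⟩, trivial⟩
        rw [mul_comm e y]
        exact mul_dvd_mul_left y he.2
      · intros; rfl
    rw [e1]
    have h1 := congrArg (fun z : ℤ => (z : ℂ)) (sum_dvs_muE_one hc)
    simp only [Int.cast_sum, Int.cast_ite, Int.cast_one, Int.cast_zero] at h1
    rw [h1]
    by_cases hc1 : c = 1
    · rw [if_pos hc1, if_pos (by rw [hc1, mul_one])]
    · rw [if_neg hc1, if_neg]
      intro h2
      apply hc1
      exact mul_left_cancel₀ hy.ne_zero (h2.trans (mul_one y).symm)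
  · rw [if_neg (fun h => hd (by rw [h]))]
    refine Finset.sum_eq_zero fun a ha => Finset.sum_eq_zero fun p hp => ?_
    rw [mem_padiv] at hp
    rw [if_neg, mul_zero]
    intro h2
    apply hd
    rw [← h2]
    exact (hp.1 ▸ dvd_mul_left p.2 p.1).trans (Div277.dvd_of_mem_dvs ha)

/-- **componentwise Möbius inversion** -/
theorem sum_lamT (Θ : (ι → Eis) → ℂ) {x : ι → Eis} (hx : ∀ i, IsPrim (x i)) :
    ∑ a ∈ dvT x, lamT Θ a = Θ x := by
  classical
  have e1 : ∀ a ∈ dvT x, lamT Θ a = ∑ y ∈ dvT x, Θ y *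
      ∏ i, ∑ p ∈ padiv (a i), ((muE p.1 : ℂ) * (if p.2 = y i then 1 else 0)) := by
    intro a ha
    rw [mem_dvT hx] at ha
    unfold lamT
    have e2 : ∀ y : ι → Eis, ∏ i, ∑ p ∈ padiv (a i), ((muE p.1 : ℂ) * (if p.2 = y i then 1 else 0))
        = ∑ p ∈ Fintype.piFinset (fun i => padiv (a i)),
          ∏ i, ((muE (p i).1 : ℂ) * (if (p i).2 = y i then 1 else 0)) := by
      intro y
      rw [Finset.prod_univ_sum]
    simp_rw [e2, Finset.mul_sum]
    rw [Finset.sum_comm]
    refine Finset.sum_congr rfl fun p hp => ?_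
    rw [Fintype.mem_piFinset] at hp
    rw [Finset.sum_eq_single (fun i => (p i).2)]
    · simp only [if_true, mul_one]
      ring
    · intro y _ hy
      have : ∃ i, (p i).2 ≠ y i := by
        by_contra hcon
        push Not at hcon
        exact hy (funext fun i => (hcon i).symm)
      obtain ⟨i, hi⟩ := this
      rw [Finset.prod_eq_zero (Finset.mem_univ i) (by rw [if_neg hi, mul_zero]), mul_zero]
    · intro hno
      exfalso
      apply hno
      rw [mem_dvT hx]
      intro i
      have h1 := (mem_padiv).1 (hp i)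
      exact ⟨h1.2.2, (h1.1 ▸ dvd_mul_left _ _).trans (ha i).2⟩
  rw [Finset.sum_congr rfl e1, Finset.sum_comm]
  have e3 : ∀ y ∈ dvT x, ∑ a ∈ dvT x, Θ y *
      ∏ i, ∑ p ∈ padiv (a i), ((muE p.1 : ℂ) * (if p.2 = y i then 1 else 0)) =
      Θ y * (if x = y then 1 else 0) := by
    intro y hy
    rw [mem_dvT hx] at hy
    rw [← Finset.mul_sum]
    congr 1
    unfold dvT
    rw [← Finset.prod_univ_sum (fun i => dvs (x i))
      (fun i a => ∑ p ∈ padiv a, ((muE p.1 : ℂ) * (if p.2 = y i then 1 else 0)))]
    rw [Finset.prod_congr rfl fun i _ => mob1 (hx i) (hy i).1]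
    by_cases h : x = y
    · rw [if_pos h, h]; simp
    · rw [if_neg h]
      have : ∃ i, x i ≠ y i := by
        by_contra hcon
        push Not at hcon
        exact h (funext hcon)
      obtain ⟨i, hi⟩ := this
      exact Finset.prod_eq_zero (Finset.mem_univ i) (if_neg hi)
  rw [Finset.sum_congr rfl e3, Finset.sum_eq_single x]
  · rw [if_pos rfl, mul_one]
  · intro y _ hy
    rw [if_neg (fun h => hy h.symm), mul_zero]
  · intro h
    exfalso
    apply h
    rw [mem_dvT hx]
    exact fun i => ⟨hx i, dvd_rfl⟩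

/-! ### squarefree → natural -/

/-- indicator of: squarefree and prime to `q` -/
def Th (q n : Eis) : ℂ := by
  classical exact if Squarefree n ∧ IsCoprime n q then 1 else 0

/-- the coefficients of the conversion -/
def lamQ (q : Eis) (a : ι → Eis) : ℂ := lamT (fun x => Th q (∏ i, x i)) a

/-- restriction to squarefree elements prime to `q` -/
def sqc (q : Eis) (α : Eis → ℂ) (n : Eis) : ℂ := Th q n * α n

lemma FS.sqc {α : Eis → ℂ} (h : FS α) (q : Eis) : FS (sqc q α) where
  fin := h.fin.subset fun n hn h0 => hn (by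
    have h0' : α n = 0 := h0
    unfold HP842.sqc; rw [h0', mul_zero])
  prim := fun m hm => h.prim m (fun h0 => hm (by unfold HP842.sqc; rw [h0, mul_zero]))

lemma Bd_sub {X : ℕ} {f : ι → Eis → ℂ} (hf : Bd X f) {a : ι → Eis} (ha : ∀ i, IsPrim (a i)) :
    Bd X (fun i => sub (f i) (a i)) := by
  intro i b hb
  have h1 := hf i _ hb
  rw [mem_primBall] at h1 ⊢
  have h2 : IsPrim b := h1.2.of_mul_left (ha i)
  refine ⟨le_trans ?_ h1.1, h2⟩
  rw [nm_mul]
  exact Nat.le_mul_of_pos_left _ (nm_pos.mpr (ha i).ne_zero)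

/-- **squarefree → natural**, exact identity -/
theorem sum_sqc_cv {f : ι → Eis → ℂ} {X : ℕ} (hf : Bd X f) (q : Eis) (F : Eis → ℂ) :
    ∑' n : Eis, sqc q (cv f) n * F n =
      ∑ a ∈ Fintype.piFinset (fun _ : ι => primBall X), lamQ q a *
        ∑' m : Eis, cv (fun i => sub (f i) (a i)) m * F ((∏ i, a i) * m) := by
  classical
  set A := Fintype.piFinset (fun _ : ι => primBall X) with hA
  have hmA : ∀ x, x ∈ A ↔ ∀ i, nm (x i) ≤ X ∧ IsPrim (x i) := by
    intro x
    rw [hA, Fintype.mem_piFinset]
    exact forall_congr' fun i => mem_primBall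
  have e1 : ∑' n : Eis, sqc q (cv f) n * F n = ∑' n : Eis, cv f n * (Th q n * F n) := by
    refine tsum_congr fun n => ?_
    unfold sqc; ring
  rw [e1, sum_cv hf]
  have e2 : ∀ x ∈ A, (∏ i, f i (x i)) * (Th q (∏ i, x i) * F (∏ i, x i)) =
      ∑ a ∈ A, if (∀ i, a i ∣ x i) then lamQ q a * ((∏ i, f i (x i)) * F (∏ i, x i)) else 0 := by
    intro x hx
    rw [hmA] at hx
    have h1 := sum_lamT (fun x => Th q (∏ i, x i)) (x := x) (fun i => (hx i).2)
    rw [← h1, Finset.sum_mul, Finset.mul_sum, ← Finset.sum_filter]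
    refine Finset.sum_congr ?_ ?_
    · ext a
      rw [mem_dvT (fun i => (hx i).2), Finset.mem_filter, hmA]
      constructor
      · intro h
        refine ⟨fun i => ⟨?_, (h i).1⟩, fun i => (h i).2⟩
        exact (Div277.nm_le_of_dvd (hx i).2.ne_zero (h i).2).trans (hx i).1
      · intro h i
        exact ⟨(h.1 i).2, h.2 i⟩
    · intro a _
      unfold lamQ; ring
  rw [Finset.sum_congr rfl e2, Finset.sum_comm]
  refine Finset.sum_congr rfl fun a ha => ?_
  rw [hmA] at ha
  rw [sum_cv (Bd_sub hf fun i => (ha i).2), Finset.mul_sum, ← hA, ← Finset.sum_filter]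
  -- terms with `a * y ∉ A` vanish
  have e3 : ∑ y ∈ A, lamQ q a * ((∏ i, sub (f i) (a i) (y i)) * F ((∏ i, a i) * ∏ i, y i)) =
      ∑ y ∈ A.filter (fun y => (fun i => a i * y i) ∈ A),
        lamQ q a * ((∏ i, sub (f i) (a i) (y i)) * F ((∏ i, a i) * ∏ i, y i)) := by
    symm
    refine Finset.sum_subset (Finset.filter_subset _ _) fun y hy hne => ?_
    have : ∃ i, f i (a i * y i) = 0 := by
      by_contra hcon
      push Not at hcon
      apply hne
      rw [Finset.mem_filter]
      refine ⟨hy, ?_⟩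
      rw [hA, Fintype.mem_piFinset]
      exact fun i => hf i _ (hcon i)
    obtain ⟨i, hi⟩ := this
    rw [Finset.prod_eq_zero (Finset.mem_univ i) (show sub (f i) (a i) (y i) = 0 from hi)]
    ring
  rw [e3]
  symm
  refine Finset.sum_bij (fun y _ => fun i => a i * y i) ?_ ?_ ?_ ?_
  · intro y hy
    rw [Finset.mem_filter] at hy ⊢
    exact ⟨hy.2, fun i => dvd_mul_right _ _⟩
  · intro y hy y' hy' e
    funext i
    exact mul_left_cancel₀ (ha i).2.ne_zero (congrFun e i)
  · intro x hx
    rw [Finset.mem_filter] at hx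
    choose y hy using hx.2
    have hxm := (hmA x).1 hx.1
    refine ⟨y, ?_, ?_⟩
    · rw [Finset.mem_filter]
      constructor
      · rw [hmA]
        intro i
        have hyi : IsPrim (y i) := (hy i ▸ (hxm i).2 : IsPrim (a i * y i)).of_mul_left (ha i).2
        refine ⟨le_trans ?_ (hxm i).1, hyi⟩
        refine Div277.nm_le_of_dvd (hxm i).2.ne_zero ?_
        rw [hy i]; exact dvd_mul_left _ _
      · have : (fun i => a i * y i) = x := funext fun i => (hy i).symm
        rw [this]; exact hx.1
    · funext i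
      exact (hy i).symm
  · intro y hy
    have : ∏ i, a i * y i = (∏ i, a i) * ∏ i, y i := Finset.prod_mul_distrib
    rw [this]
    rfl

end Crest.Agent.R017.HP842
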