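import Crest.Agent.R017.TPDefs_320
import Crest.Agent.R017.HP2_842
import Crest.Agent.R017.LBp_744

/-!
# Row 17, sides: rule (C) for convolutions (helper858)

* `TG_sqc_conv` : `TG (sqc q (conv a b)) l = ∑ d, sqc q a d * (G d conj (sy l d)) * TG (sqc q b) (l d)`
  (exact; the coprimality of the two factors is automatic at the frequency `l d`)
* `ruleC_conv` : rule (C), `VG L (sqc q (conv a b)) ≤ C B^{1+ε} (L B)^ε VG (L B) (sqc q b)`
-/

set_option autoImplicit false

noncomputable section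

open Complex
open scoped ComplexConjugate

namespace Crest.Agent.R017.XC858

open Crest.Agent.R012 Crest.Agent.R012.Eis Crest.Agent.R012.LS2 Crest.Agent.R012.Gauss880
open Crest.Agent.R012.Div277 (tau dvs mem_dvs tau_le_rpow)
open Crest.Agent.R017.CM106 Crest.Agent.R017.HP842
open Crest.Agent.R017.TP320 (conv VG VC VG_nonneg VG_mono tsum_conv)

/-- the indicator splits along a product, up to the coprimality of the factors -/
lemma Th_mul {q x y : Eis} (hc : IsCoprime x y) : Th q (x * y) = Th q x * Th q y := by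
  classical
  have h1 : Squarefree (x * y) ↔ Squarefree x ∧ Squarefree y := by
    rw [squarefree_mul_iff]
    exact ⟨fun h => h.2, fun h => ⟨hc.isRelPrime, h⟩⟩
  have h2 : IsCoprime (x * y) q ↔ IsCoprime x q ∧ IsCoprime y q := IsCoprime.mul_left_iff
  unfold Th
  by_cases hx : Squarefree x ∧ IsCoprime x q
  · by_cases hy : Squarefree y ∧ IsCoprime y q
    · rw [if_pos hx, if_pos hy, if_pos ⟨h1.2 ⟨hx.1, hy.1⟩, h2.2 ⟨hx.2, hy.2⟩⟩, mul_one]
    · rw [if_neg hy, if_neg (fun h => hy ⟨(h1.1 h.1).2, (h2.1 h.2).2⟩), mul_zero]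
  · rw [if_neg hx, if_neg (fun h => hx ⟨(h1.1 h.1).1, (h2.1 h.2).1⟩), zero_mul]

/-- the pointwise identity behind rule (C) -/
lemma Th_Kg_mul (q l : Eis) {x y : Eis} (hx : IsPrim x) (hy : IsPrim y) :
    Th q (x * y) * (G (x * y) * conj (sy l (x * y))) =
      (Th q x * (G x * conj (sy l x))) * (Th q y * (G y * conj (sy (l * x) y))) := by
  by_cases hc : IsCoprime x y
  · rw [Th_mul hc, TG_term hx hy]; ring
  · have h1 : ¬ Squarefree (x * y) := by
      intro h
      rw [squarefree_mul_iff] at h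
      exact hc (isRelPrime_iff_isCoprime.1 h.1)
    have h2 : sy (l * x) y = 0 := by
      refine (syG.eq_zero (l * x) y hy).2 fun h' => hc ?_
      exact h'.of_mul_left_right
    have h3 : Th q (x * y) = 0 := by
      unfold Th
      rw [if_neg (fun h => h1 h.1)]
    rw [h3, h2]; simp

/-- **exact split of the Gauss side along a convolution** -/
theorem TG_sqc_conv {a b : Eis → ℂ} (ha : FS a) (hb : FS b) (q l : Eis) :
    TG (sqc q (conv a b)) l =
      ∑ x ∈ ha.fin.toFinset, sqc q a x * (G x * conj (sy l x)) * TG (sqc q b) (l * x) := by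
  classical
  have e1 : TG (sqc q (conv a b)) l =
      ∑' n, conv a b n * (Th q n * (G n * conj (sy l n))) := by
    unfold TG sqc
    exact tsum_congr fun n => by ring
  rw [e1, tsum_conv ha hb]
  have e2 : ∀ p : Eis × Eis, a p.1 * b p.2 * (Th q (p.1 * p.2) *
      (G (p.1 * p.2) * conj (sy l (p.1 * p.2)))) =
      (sqc q a p.1 * (G p.1 * conj (sy l p.1))) *
        (sqc q b p.2 * (G p.2 * conj (sy (l * p.1) p.2))) := by
    intro p
    by_cases h1 : a p.1 = 0
    · unfold sqc; rw [h1]; ring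
    by_cases h2 : b p.2 = 0
    · unfold sqc; rw [h2]; ring
    rw [Th_Kg_mul q l (ha.prim _ h1) (hb.prim _ h2)]
    unfold sqc; ring
  rw [tsum_congr e2]
  set A := ha.fin.toFinset with hA
  set B := hb.fin.toFinset with hB
  have hA' : ∀ x, x ∉ A → a x = 0 := fun x hx => by
    by_contra h; exact hx (ha.fin.mem_toFinset.2 h)
  have hB' : ∀ x, x ∉ B → b x = 0 := fun x hx => by
    by_contra h; exact hx (hb.fin.mem_toFinset.2 h)
  rw [tsum_eq_sum (s := A ×ˢ B)]
  · rw [Finset.sum_product]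
    refine Finset.sum_congr rfl fun x _ => ?_
    show ∑ y ∈ B, (sqc q a x * (G x * conj (sy l x))) *
      (sqc q b y * (G y * conj (sy (l * x) y))) = _
    rw [← Finset.mul_sum]
    congr 1
    unfold TG
    refine (tsum_eq_sum (s := B) fun y hy => ?_).symm
    unfold sqc
    rw [hB' y hy]; ring
  · intro p hp
    rw [Finset.mem_product, not_and_or] at hp
    rcases hp with h | h
    · unfold sqc; rw [hA' _ h]; ring
    · unfold sqc; rw [hB' _ h]; ring

lemma norm_Th_le (q n : Eis) : ‖Th q n‖ ≤ 1 := by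
  unfold Th; split_ifs <;> simp

lemma norm_sqc_le (q : Eis) (a : Eis → ℂ) (n : Eis) : ‖sqc q a n‖ ≤ ‖a n‖ := by
  unfold sqc
  rw [norm_mul]
  exact mul_le_of_le_one_left (norm_nonneg _) (norm_Th_le q n)

/-- **rule (C) for a convolution** -/
theorem ruleC_conv {B L : ℝ} (hB : 0 ≤ B) (hL : 0 ≤ L) {a b : Eis → ℂ} (ha : FS a)
    (hBa : ∀ n, a n ≠ 0 → (nm n : ℝ) ≤ B) (hb : FS b) (q : Eis) :
    VG L (sqc q (conv a b)) ≤
      (∑' n, ‖a n‖ ^ 2) * ∑ r ∈ bl (L * B), (tau r : ℝ) * ‖TG (sqc q b) r‖ ^ 2 := by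
  classical
  set A := ha.fin.toFinset with hA
  have hmA : ∀ x ∈ A, IsPrim x ∧ (nm x : ℝ) ≤ B := fun x hx => by
    have : a x ≠ 0 := ha.fin.mem_toFinset.1 hx
    exact ⟨ha.prim x this, hBa x this⟩
  have hts : ∑' n, ‖a n‖ ^ 2 = ∑ n ∈ A, ‖a n‖ ^ 2 := by
    refine tsum_eq_sum fun n hn => ?_
    have : a n = 0 := by
      by_contra h; exact hn (ha.fin.mem_toFinset.2 h)
    rw [this]; simp
  rw [hts]
  unfold VG
  calc ∑ l ∈ bl L, ‖TG (sqc q (conv a b)) l‖ ^ 2
      ≤ ∑ l ∈ bl L, (∑ x ∈ A, ‖a x‖ ^ 2) * ∑ x ∈ A, ‖TG (sqc q b) (l * x)‖ ^ 2 := by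
        refine Finset.sum_le_sum fun l _ => ?_
        rw [TG_sqc_conv ha hb]
        refine (cauchy A (fun x => sqc q a x * (G x * conj (sy l x)))
          (fun x => TG (sqc q b) (l * x))).trans ?_
        refine mul_le_mul_of_nonneg_right ?_ (Finset.sum_nonneg fun _ _ => by positivity)
        refine Finset.sum_le_sum fun x hx => ?_
        refine pow_le_pow_left₀ (norm_nonneg _) ?_ 2
        rw [norm_mul]
        calc ‖sqc q a x‖ * ‖G x * conj (sy l x)‖ ≤ ‖a x‖ * 1 :=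
              mul_le_mul (norm_sqc_le q a x) (norm_Gsy_le (hmA x hx).1) (norm_nonneg _)
                (norm_nonneg _)
          _ = ‖a x‖ := mul_one _
    _ = (∑ x ∈ A, ‖a x‖ ^ 2) * ∑ x ∈ A, ∑ l ∈ bl L, ‖TG (sqc q b) (l * x)‖ ^ 2 := by
        rw [← Finset.mul_sum, Finset.sum_comm]
    _ ≤ _ := by
        refine mul_le_mul_of_nonneg_left ?_ (Finset.sum_nonneg fun _ _ => by positivity)
        exact merge hB hL hmA (fun r => ‖TG (sqc q b) r‖ ^ 2) fun r => by positivity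

/-- **rule (C)** with the divisor function removed, for divisor-bounded sequences -/
theorem ruleC_Cf (r : ℕ) {ε : ℝ} (hε : 0 < ε) : ∃ C : ℝ, 1 ≤ C ∧ ∀ (B L : ℝ), 1 ≤ B → 0 ≤ L →
    ∀ (a b : Eis → ℂ) (q : Eis), LBp744.Cf r B a → FS b →
      VG L (sqc q (conv a b)) ≤ C * (B ^ (1 + ε) * (L * B) ^ ε) * VG (L * B) (sqc q b) := by
  obtain ⟨C1, hC1, H1⟩ := LBp744.l2_bound r hε
  obtain ⟨C2, hC2, H2⟩ := sum_tau_le hε
  refine ⟨C1 * C2, by nlinarith, fun B L hB hL a b q ha hb => ?_⟩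
  have hB0 : 0 ≤ B := by linarith
  have hLB : 0 ≤ L * B := mul_nonneg hL hB0
  refine (ruleC_conv hB0 hL ha.fs ha.le hb q).trans ?_
  have h1 := H1 B a hB0 ha
  have h2 := H2 (L * B) hLB (fun r => ‖TG (sqc q b) r‖ ^ 2) fun r => by positivity
  have h3 : 0 ≤ ∑ r ∈ bl (L * B), (tau r : ℝ) * ‖TG (sqc q b) r‖ ^ 2 :=
    Finset.sum_nonneg fun _ _ => by positivity
  calc (∑' n, ‖a n‖ ^ 2) * ∑ r ∈ bl (L * B), (tau r : ℝ) * ‖TG (sqc q b) r‖ ^ 2
      ≤ (C1 * B ^ (1 + ε)) * (C2 * (L * B) ^ ε * ∑ r ∈ bl (L * B), ‖TG (sqc q b) r‖ ^ 2) :=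
        mul_le_mul h1 h2 h3 (by positivity)
    _ = _ := by unfold VG; ring

end Crest.Agent.R017.XC858
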