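import Crest.Agent.R017.HP3_842
import Crest.Agent.R017.XC1_858

/-!
# Row 17, RG3 (helper381): smooth / rough splitting of the Gauss side

* `Rg z n`, `Sm z n` : all primary primes dividing `n` have norm `> z`, resp. `≤ z`
* `rgh z f` : restriction to rough elements
* `Pc.sh P a` : the piece `P` shortened by `a` (rough part: no change of the character)
* `TG_rough` : `TG (sqc q (cv (pc h P_i))) l = ∑_x (…) TG (sqc q (cv (rgh z (pc h (P_i.sh x_i))))) (l ∏ x)`
-/

set_option autoImplicit false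
set_option linter.unusedSectionVars false
set_option linter.unusedVariables false

noncomputable section

open Complex
open scoped ComplexConjugate

namespace Crest.Agent.R017.Rough381

open Crest.Agent.R012 Crest.Agent.R012.Eis Crest.Agent.R012.LS2 Crest.Agent.R012.Gauss880
open Crest.Agent.R012.Mob705
open Crest.Agent.R012.PSer47 (IsChar)
open Crest.Agent.R012.Div277 (tau dvs mem_dvs tau_le_rpow)
open Crest.Agent.R017.CM106 Crest.Agent.R017.HP842 Crest.Agent.R017.FE47
open Crest.Agent.R017.End699 Crest.Agent.R017.XC858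
open Crest.Agent.R017.HSep813 (gw norm_gw_le)

/-- rough: all primes dividing `n` are large -/
def Rg (z : ℝ) (n : Eis) : Prop := ∀ p, Mob705.IsPP p → p ∣ n → z < nm p

/-- smooth: all primes dividing `n` are small -/
def Sm (z : ℝ) (n : Eis) : Prop := ∀ p, Mob705.IsPP p → p ∣ n → (nm p : ℝ) ≤ z

lemma Rg.of_dvd {z : ℝ} {a b : Eis} (h : Rg z b) (hd : a ∣ b) : Rg z a :=
  fun p hp hpa => h p hp (hpa.trans hd)

lemma Sm.of_dvd {z : ℝ} {a b : Eis} (h : Sm z b) (hd : a ∣ b) : Sm z a :=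
  fun p hp hpa => h p hp (hpa.trans hd)

lemma Rg.mul {z : ℝ} {a b : Eis} (ha : Rg z a) (hb : Rg z b) : Rg z (a * b) := by
  intro p hp hd
  rcases hp.prime.dvd_or_dvd hd with h | h
  · exact ha p hp h
  · exact hb p hp h

lemma Sm.mul {z : ℝ} {a b : Eis} (ha : Sm z a) (hb : Sm z b) : Sm z (a * b) := by
  intro p hp hd
  rcases hp.prime.dvd_or_dvd hd with h | h
  · exact ha p hp h
  · exact hb p hp h

lemma Rg_one (z : ℝ) : Rg z 1 := fun p hp hd =>
  absurd (isUnit_of_dvd_one hd) hp.prime.not_isUnit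

lemma Sm_one (z : ℝ) : Sm z 1 := fun p hp hd =>
  absurd (isUnit_of_dvd_one hd) hp.prime.not_isUnit

lemma isCoprime_Sm_Rg {z : ℝ} {x y : Eis} (hx : IsPrim x) (h1 : Sm z x) (h2 : Rg z y) :
    IsCoprime x y := by
  by_contra h
  obtain ⟨p, hp, hpx, hpy⟩ := exists_common_pp hx h
  exact absurd (h1 p hp hpx) (not_le.2 (h2 p hp hpy))

lemma Sm_Rg_unique {z : ℝ} {x y x' y' : Eis} (hx : IsPrim x) (hx' : IsPrim x')
    (h1 : Sm z x) (h2 : Rg z y) (h1' : Sm z x') (h2' : Rg z y')
    (e : x * y = x' * y') : x = x' ∧ y = y' := by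
  have c1 : IsCoprime x y' := isCoprime_Sm_Rg hx h1 h2'
  have c2 : IsCoprime x' y := isCoprime_Sm_Rg hx' h1' h2
  have d1 : x ∣ x' := c1.dvd_of_dvd_mul_right (e ▸ dvd_mul_right x y)
  have d2 : x' ∣ x := c2.dvd_of_dvd_mul_right (e ▸ dvd_mul_right x' y')
  have h3 := prim_ext hx hx' d1 d2
  subst h3
  exact ⟨rfl, mul_left_cancel₀ hx.ne_zero e⟩

open Classical in
/-- the smooth part of a squarefree element -/
def smp (z : ℝ) (n : Eis) : Eis := ∏ p ∈ (pp n).filter (fun p => (nm p : ℝ) ≤ z), p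

open Classical in
/-- the rough part of a squarefree element -/
def rgp (z : ℝ) (n : Eis) : Eis := ∏ p ∈ (pp n).filter (fun p => ¬ (nm p : ℝ) ≤ z), p

lemma isPrim_smp (z : ℝ) (n : Eis) : IsPrim (smp z n) :=
  ((ppSet_pp n).subset (Finset.filter_subset _ _)).isPrim_prod

lemma isPrim_rgp (z : ℝ) (n : Eis) : IsPrim (rgp z n) :=
  ((ppSet_pp n).subset (Finset.filter_subset _ _)).isPrim_prod

lemma smp_mul_rgp (z : ℝ) {n : Eis} (hn : IsPrim n) (hs : Squarefree n) :
    smp z n * rgp z n = n := by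
  classical
  unfold smp rgp
  rw [Finset.prod_filter_mul_prod_filter_not]
  exact prod_pp hn hs

lemma Sm_smp (z : ℝ) (n : Eis) : Sm z (smp z n) := by
  classical
  intro p hp hd
  have hS := (ppSet_pp n).subset (Finset.filter_subset (fun p => (nm p : ℝ) ≤ z) (pp n))
  have := (hS.dvd_prod hp).1 hd
  exact (Finset.mem_filter.1 this).2

lemma Rg_rgp (z : ℝ) (n : Eis) : Rg z (rgp z n) := by
  classical
  intro p hp hd
  have hS := (ppSet_pp n).subset (Finset.filter_subset (fun p => ¬ (nm p : ℝ) ≤ z) (pp n))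
  have := (hS.dvd_prod hp).1 hd
  exact not_le.1 (Finset.mem_filter.1 this).2

open Classical in
/-- restriction to rough elements -/
def rgh (z : ℝ) (f : Eis → ℂ) (n : Eis) : ℂ := if Rg z n then f n else 0

lemma FS_rgh {z : ℝ} {f : Eis → ℂ} (h : FS f) : FS (rgh z f) where
  fin := h.fin.subset fun n hn h0 => hn (by
    have h0' : f n = 0 := h0
    show rgh z f n = 0
    unfold rgh; rw [h0']; simp)
  prim := fun m hm => h.prim m (fun h0 => hm (by unfold rgh; rw [h0]; simp))

/-- the shortened piece, rough part -/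
def sh (P : Pc) (a : Eis) : Pc := ⟨P.u.sub a, P.ψ, P.Y / nm a, P.t⟩

lemma pc_sub_rough {h : ℝ → ℝ} (P : Pc) {a b : Eis} (hab : IsCoprime a b) :
    pc h (P.sub a) b = pc h (sh P a) b := by
  unfold pc
  split_ifs with hb
  · show uv (P.u.sub a) b * psub P.u P.ψ a b * gw h (P.Y / nm a) P.t b =
      uv (P.u.sub a) b * P.ψ b * gw h (P.Y / nm a) P.t b
    have : psub P.u P.ψ a b = P.ψ b := by
      unfold psub
      split_ifs
      · show P.ψ b * prin0 a b = P.ψ b
        unfold prin0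
        rw [if_pos hab.symm, mul_one]
      · rfl
    rw [this]
  · rfl

lemma pc_mul_rough {h : ℝ → ℝ} {P : Pc} (hP : P.OK) {z : ℝ} {a b : Eis} (ha : IsPrim a)
    (h1 : Sm z a) (h2 : Rg z b) :
    pc h P (a * b) = sc' P a * rgh z (pc h (sh P a)) b := by
  rw [pc_mul h hP.ch hP.Y0 ha, pc_sub_rough P (isCoprime_Sm_Rg ha h1 h2)]
  unfold rgh
  rw [if_pos h2]

variable {ι : Type*} [Fintype ι] [DecidableEq ι]

/-- shortened families -/
def shS (s : ι → Pc) (x : ι → Eis) : ι → Pc := fun i => sh (s i) (x i)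

/-- the rough sequence of a family -/
def alr (z : ℝ) (h : ℝ → ℝ) (s : ι → Pc) : Eis → ℂ := cv (fun i => rgh z (pc h (s i)))

lemma Bd_pc {h : ℝ → ℝ} {R : ℝ} (hR : ∀ u, cx h u ≠ 0 → |u| ≤ R) {P : Pc} (hY : 0 < P.Y)
    {X : ℕ} (hX : P.Y * Real.exp R ≤ X) {b : Eis} (hb : pc h P b ≠ 0) : b ∈ primBall X := by
  classical
  unfold pc at hb
  split_ifs at hb with hp
  · rw [mem_primBall]
    refine ⟨?_, hp⟩
    have h1 : gw h P.Y P.t b ≠ 0 := right_ne_zero_of_mul hb
    unfold gw at h1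
    have h2 := hR _ (right_ne_zero_of_mul h1)
    have h3 : (0 : ℝ) < nm b := by exact_mod_cast nm_pos.2 hp.ne_zero
    have h4 : Real.log (nm b) ≤ Real.log P.Y + R := by
      have := (abs_le.1 h2).2
      linarith
    have h5 : (nm b : ℝ) ≤ P.Y * Real.exp R := by
      calc (nm b : ℝ) = Real.exp (Real.log (nm b)) := (Real.exp_log h3).symm
        _ ≤ Real.exp (Real.log P.Y + R) := Real.exp_le_exp.2 h4
        _ = P.Y * Real.exp R := by rw [Real.exp_add, Real.exp_log hY]
    exact_mod_cast h5.trans hX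
  · exact absurd rfl hb

lemma sh_Y_le {P : Pc} (hY : 0 < P.Y) {a : Eis} (ha : IsPrim a) : (sh P a).Y ≤ P.Y := by
  show P.Y / nm a ≤ P.Y
  have : (1 : ℝ) ≤ nm a := by exact_mod_cast nm_pos.2 ha.ne_zero
  exact div_le_self hY.le this

lemma sh_OK {P : Pc} (hP : P.OK) {a : Eis} (ha : IsPrim a) : (sh P a).OK where
  ch := hP.ch
  Y0 := by
    have : (0 : ℝ) < nm a := by exact_mod_cast nm_pos.2 ha.ne_zero
    exact div_pos hP.Y0 this

/-- a sum against the squarefree kernel -/
lemma TG_sqc_eq (q l : Eis) (w : Eis → ℂ) :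
    TG (sqc q w) l = ∑' n, w n * (Th q n * (G n * conj (sy l n))) := by
  unfold TG sqc
  exact tsum_congr fun n => by ring

lemma squarefree_of_Th {q n : Eis} (h : Th q n ≠ 0) : Squarefree n := by
  unfold Th at h
  split_ifs at h with h1
  · exact h1.1
  · exact absurd rfl h

open Classical in
/-- smooth tuples -/
def smT (ι : Type*) [Fintype ι] [DecidableEq ι] (X : ℕ) (z : ℝ) : Finset (ι → Eis) :=
  (Fintype.piFinset (fun _ : ι => primBall X)).filter (fun x => ∀ i, Sm z (x i))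

lemma mem_smT {X : ℕ} {z : ℝ} {x : ι → Eis} :
    x ∈ smT ι X z ↔ ∀ i, (nm (x i) ≤ X ∧ IsPrim (x i)) ∧ Sm z (x i) := by
  classical
  unfold smT
  rw [Finset.mem_filter, Fintype.mem_piFinset]
  constructor
  · rintro ⟨h1, h2⟩ i
    exact ⟨mem_primBall.1 (h1 i), h2 i⟩
  · intro h
    exact ⟨fun i => mem_primBall.2 (h i).1, fun i => (h i).2⟩

/-- **exact splitting of the Gauss side into smooth and rough parts** -/
theorem TG_rough {h : ℝ → ℝ} {R : ℝ} (hR : ∀ u, cx h u ≠ 0 → |u| ≤ R) {s : ι → Pc}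
    (hs : ∀ i, (s i).OK) {X : ℕ} (hX : ∀ i, (s i).Y * Real.exp R ≤ X) (z : ℝ) (q l : Eis) :
    TG (sqc q (cv fun i => pc h (s i))) l =
      ∑ x ∈ smT ι X z, Th q (∏ i, x i) * (G (∏ i, x i) * conj (sy l (∏ i, x i))) *
        scS s x * TG (sqc q (alr z h (shS s x))) (l * ∏ i, x i) := by
  classical
  set A := Fintype.piFinset (fun _ : ι => primBall X) with hA
  have hbd : Bd X (fun i => pc h (s i)) := fun i b hb => Bd_pc hR (hs i).Y0 (hX i) hb
  rw [TG_sqc_eq, sum_cv hbd (fun n => Th q n * (G n * conj (sy l n)))]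
  -- the right side as a double sum
  have hrhs : ∀ x ∈ smT ι X z, Th q (∏ i, x i) * (G (∏ i, x i) * conj (sy l (∏ i, x i))) *
        scS s x * TG (sqc q (alr z h (shS s x))) (l * ∏ i, x i) =
      ∑ y ∈ A.filter (fun y => ∀ i, Rg z (y i)), (∏ i, pc h (s i) (x i * y i)) *
        (Th q (∏ i, x i * y i) * (G (∏ i, x i * y i) * conj (sy l (∏ i, x i * y i)))) := by
    intro x hx
    rw [mem_smT] at hx
    have hxp : ∀ i, IsPrim (x i) := fun i => (hx i).1.2
    have hbd' : Bd X (fun i => rgh z (pc h (shS s x i))) := by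
      intro i b hb
      have hb' : pc h (shS s x i) b ≠ 0 := by
        intro h0
        apply hb
        show rgh z (pc h (shS s x i)) b = 0
        unfold rgh
        rw [h0]; simp
      refine Bd_pc hR (sh_OK (hs i) (hxp i)).Y0 ?_ hb'
      exact (mul_le_mul_of_nonneg_right (sh_Y_le (hs i).Y0 (hxp i)) (Real.exp_pos _).le).trans
        (hX i)
    unfold alr
    rw [TG_sqc_eq, sum_cv hbd' (fun n => Th q n * (G n * conj (sy (l * ∏ i, x i) n))),
      Finset.mul_sum, Finset.sum_filter]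
    refine Finset.sum_congr rfl fun y hy => ?_
    rw [hA, Fintype.mem_piFinset] at hy
    have hyp : ∀ i, IsPrim (y i) := fun i => (mem_primBall.1 (hy i)).2
    split_ifs with hr
    · have e1 : ∏ i, pc h (s i) (x i * y i) =
          scS s x * ∏ i, rgh z (pc h (shS s x i)) (y i) := by
        unfold scS
        rw [← Finset.prod_mul_distrib]
        exact Finset.prod_congr rfl fun i _ =>
          pc_mul_rough (hs i) (hxp i) (hx i).2 (hr i)
      have e2 : ∏ i, x i * y i = (∏ i, x i) * ∏ i, y i := Finset.prod_mul_distrib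
      rw [e1, e2, Th_Kg_mul q l (isPrim_prod hxp) (isPrim_prod hyp)]
      ring
    · push Not at hr
      obtain ⟨i, hi⟩ := hr
      have : ∏ i, rgh z (pc h (shS s x i)) (y i) = 0 := by
        refine Finset.prod_eq_zero (Finset.mem_univ i) ?_
        unfold rgh
        rw [if_neg hi]
      rw [this]; ring
  rw [Finset.sum_congr rfl hrhs, ← Finset.sum_product']
  symm
  refine Finset.sum_bij_ne_zero (fun p _ _ => fun i => p.1 i * p.2 i) ?_ ?_ ?_ ?_
  · rintro ⟨x, y⟩ hp hne
    rw [Finset.mem_product, mem_smT, Finset.mem_filter] at hp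
    have h1 : ∀ i, pc h (s i) (x i * y i) ≠ 0 := fun i =>
      Finset.prod_ne_zero_iff.1 (left_ne_zero_of_mul hne) i (Finset.mem_univ i)
    rw [Fintype.mem_piFinset]
    exact fun i => hbd i _ (h1 i)
  · rintro ⟨x, y⟩ hp _ ⟨x', y'⟩ hp' _ e
    rw [Finset.mem_product, mem_smT, Finset.mem_filter] at hp hp'
    have key : ∀ i, x i = x' i ∧ y i = y' i := fun i =>
      Sm_Rg_unique (hp.1 i).1.2 (hp'.1 i).1.2 (hp.1 i).2 (hp.2.2 i) (hp'.1 i).2 (hp'.2.2 i)
        (congrFun e i)
    exact Prod.ext (funext fun i => (key i).1) (funext fun i => (key i).2)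
  · intro b hb hne
    rw [Fintype.mem_piFinset] at hb
    have hbp : ∀ i, nm (b i) ≤ X ∧ IsPrim (b i) := fun i => mem_primBall.1 (hb i)
    have hsq : Squarefree (∏ i, b i) :=
      squarefree_of_Th (left_ne_zero_of_mul (right_ne_zero_of_mul hne))
    have hsqi : ∀ i, Squarefree (b i) := fun i =>
      hsq.squarefree_of_dvd (Finset.dvd_prod_of_mem _ (Finset.mem_univ i))
    have hmul : ∀ i, smp z (b i) * rgp z (b i) = b i := fun i =>
      smp_mul_rgp z (hbp i).2 (hsqi i)
    have hle1 : ∀ i, nm (smp z (b i)) ≤ X := fun i => by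
      refine le_trans ?_ (hbp i).1
      conv_rhs => rw [← hmul i, nm_mul]
      exact Nat.le_mul_of_pos_right _ (nm_pos.mpr (isPrim_rgp z (b i)).ne_zero)
    have hle2 : ∀ i, nm (rgp z (b i)) ≤ X := fun i => by
      refine le_trans ?_ (hbp i).1
      conv_rhs => rw [← hmul i, nm_mul]
      exact Nat.le_mul_of_pos_left _ (nm_pos.mpr (isPrim_smp z (b i)).ne_zero)
    have hfun : (fun i => smp z (b i) * rgp z (b i)) = b := funext hmul
    refine ⟨(fun i => smp z (b i), fun i => rgp z (b i)), ?_, ?_, hfun⟩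
    · rw [Finset.mem_product, mem_smT, Finset.mem_filter, hA, Fintype.mem_piFinset]
      exact ⟨fun i => ⟨⟨hle1 i, isPrim_smp z (b i)⟩, Sm_smp z (b i)⟩,
        fun i => mem_primBall.2 ⟨hle2 i, isPrim_rgp z (b i)⟩, fun i => Rg_rgp z (b i)⟩
    · show (∏ i, pc h (s i) (smp z (b i) * rgp z (b i))) * _ ≠ 0
      simp only [hmul]
      exact hne
  · rintro ⟨x, y⟩ _ _
    rfl

end Crest.Agent.R017.Rough381
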