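import Crest.Agent.R017.P1e_54
import Crest.Agent.R017.Rough_381
import Crest.Agent.R017.HP6_842

/-!
# Row 17, R8/P1 at list level, part 2 (helper54): `rho` as typed lists

* `cv_elim` : the convolution of a family on `ι ⊕ κ`
* `chS` : the children, `rho_eq` : `rho = Σ_{x ∈ Tu ι g} Σ_{x' ∈ Tu κ g} KK • sqc 1 (al h (chS ..))`
* `err_rho_le` : the second moment of the error of `rho` through the children
-/

set_option autoImplicit false

noncomputable section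

open Finset
open scoped ComplexConjugate

namespace Crest.Agent.R017.P1f54

open Crest.Agent.R012 Crest.Agent.R012.Eis Crest.Agent.R012.Div277
open Crest.Agent.R012.Mob705 hiding pb mem_pb
open Crest.Agent.R012.LS2 (S mem_S)
open Crest.Agent.R017.CM106 Crest.Agent.R017.C70
open Crest.Agent.R017.StC828 (SqS cvc)
open Crest.Agent.R017.StD828 (ln Tm)
open Crest.Agent.R017.E2440 (TE StE)
open Crest.Agent.R017.E3A164 (SteT)
open Crest.Agent.R017.E5k54 (PT alb SS)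
open Crest.Agent.R017.P1e54
open Crest.Agent.R017.HP842 (Pc pc al cv Tu mem_Tu scS sc' sqc Th)
open Crest.Agent.R017.Rough381 (sh)
open Crest.Agent.R017.End699 (prin0)

variable {ι κ : Type*} [Fintype ι] [Fintype κ] [DecidableEq ι] [DecidableEq κ]

/-! ### families on a sum type -/

theorem cv_elim (A : ι → Eis → ℂ) (B : κ → Eis → ℂ) {n : Eis} (hn : IsPrim n) :
    cv (Sum.elim A B) n = ∑ a ∈ dvs n, cv A a * cv B (n / a) := by
  classical
  have e1 : ∀ a ∈ dvs n, cv A a * cv B (n / a) =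
      ∑ p ∈ Tu ι a ×ˢ Tu κ (n / a), (∏ i, A i (p.1 i)) * ∏ j, B j (p.2 j) := by
    intro a _
    unfold cv
    rw [sum_mul_sum, sum_product]
  rw [sum_congr rfl e1, sum_sigma']
  unfold cv
  refine sum_bij' (fun z _ => ⟨∏ i, z (.inl i), (fun i => z (.inl i), fun j => z (.inr j))⟩)
    (fun p _ => Sum.elim p.2.1 p.2.2) ?_ ?_ ?_ ?_ ?_
  · intro z hz
    rw [mem_Tu, Fintype.prod_sum_type] at hz
    have h1 : IsPrim (∏ i, z (.inl i)) := HP842.isPrim_prod fun i => hz.1 _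
    rw [mem_sigma, mem_product, mem_Tu, mem_Tu, mem_dvs hn.ne_zero]
    refine ⟨⟨h1, ⟨_, hz.2.symm⟩⟩, ⟨fun i => hz.1 _, rfl⟩, fun j => hz.1 _, ?_⟩
    show ∏ j, z (.inr j) = n / ∏ i, z (.inl i)
    conv_rhs => rw [← hz.2]
    rw [mul_div_cancel_left₀ _ h1.ne_zero]
  · rintro ⟨a, x, y⟩ hp
    rw [mem_sigma, mem_product, mem_Tu, mem_Tu, mem_dvs hn.ne_zero] at hp
    obtain ⟨⟨h1, h2⟩, ⟨h3, h4⟩, h5, h6⟩ := hp
    simp only at h1 h2 h3 h4 h5 h6 ⊢
    rw [mem_Tu]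
    refine ⟨?_, ?_⟩
    · rintro (i | j)
      · exact h3 i
      · exact h5 j
    · rw [Fintype.prod_sum_type]
      simp only [Sum.elim_inl, Sum.elim_inr]
      rw [h4, h6]
      obtain ⟨b, rfl⟩ := h2
      rw [mul_div_cancel_left₀ _ h1.ne_zero]
  · intro z _
    funext s
    rcases s with i | j <;> rfl
  · rintro ⟨a, x, y⟩ hp
    rw [mem_sigma, mem_product, mem_Tu] at hp
    have : ∏ i, x i = a := hp.2.1.2
    subst this
    rfl
  · intro z _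
    rw [Fintype.prod_sum_type]
    rfl

/-! ### one side -/

/-- a child of one side -/
def ch1 (s : ι → Pc) (γ x : ι → Eis) (g : Eis) (i : ι) : Pc :=
  (sh (s i) (γ i * x i)).cop ((∏ i, γ i) * g)

open Classical in
/-- its scalar -/
def k1 (s : ι → Pc) (γ x : ι → Eis) (g : Eis) : ℂ :=
  if IsCoprime g (∏ i, γ i) then ∏ i, sc' (s i) (γ i * x i) else 0

lemma norm_k1_le {s : ι → Pc} (hs : ∀ i, (s i).OK) {γ x : ι → Eis} (hγ : ∀ i, IsPrim (γ i))
    (hx : ∀ i, IsPrim (x i)) (g : Eis) : ‖k1 s γ x g‖ ≤ 1 := by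
  unfold k1
  split_ifs
  · rw [norm_prod]
    exact Finset.prod_le_one (fun i _ => norm_nonneg _) fun i _ =>
      HP842.norm_sc'_le (hs i).ch ((hγ i).mul (hx i))
  · simp

lemma ch1_OK {s : ι → Pc} (hs : ∀ i, (s i).OK) {γ x : ι → Eis} (hγ : ∀ i, IsPrim (γ i))
    (hx : ∀ i, IsPrim (x i)) (g : Eis) (i : ι) : (ch1 s γ x g i).OK :=
  (Rough381.sh_OK (hs i) ((hγ i).mul (hx i))).cop _

theorem side_eq {h : ℝ → ℝ} {s : ι → Pc} (hs : ∀ i, (s i).OK) {γ : ι → Eis}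
    (hγ : ∀ i, IsPrim (γ i)) {g : Eis} (hg : IsPrim g) (hgs : Squarefree g) {a : Eis}
    (ha : IsPrim a) (has : Squarefree a) :
    sub (alb (fun i => pc h (s i)) γ) g a =
      ∑ x ∈ Tu ι g, k1 s γ x g * cv (fun i => pc h (ch1 s γ x g i)) a := by
  classical
  have hγP : IsPrim (∏ i, γ i) := HP842.isPrim_prod hγ
  -- the right hand side at an element prime to the modulus
  have hcop : ∀ x : ι → Eis, cv (fun i => pc h (ch1 s γ x g i)) a =
      cv (fun i => pc h (sh (s i) (γ i * x i))) a * prin0 ((∏ i, γ i) * g) a := by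
    intro x
    unfold cv
    rw [sum_mul]
    refine sum_congr rfl fun y hy => ?_
    rw [mem_Tu] at hy
    have e1 : ∀ i ∈ (univ : Finset ι), pc h (ch1 s γ x g i) (y i) =
        pc h (sh (s i) (γ i * x i)) (y i) * prin0 ((∏ i, γ i) * g) (y i) := fun i _ =>
      HP842.pc_cop h _ _ _
    rw [prod_congr rfl e1, prod_mul_distrib]
    congr 1
    rw [← hy.2]
    unfold prin0
    by_cases h1 : IsCoprime (∏ i, y i) ((∏ i, γ i) * g)
    · rw [if_pos h1]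
      refine Finset.prod_eq_one fun i _ => ?_
      rw [if_pos]
      exact h1.of_isCoprime_of_dvd_left (Finset.dvd_prod_of_mem y (Finset.mem_univ i))
    · rw [if_neg h1]
      by_contra h0
      apply h1
      refine IsCoprime.prod_left fun i _ => ?_
      by_contra h2
      exact h0 (Finset.prod_eq_zero (Finset.mem_univ i) (if_neg h2))
  by_cases hc : IsCoprime a ((∏ i, γ i) * g)
  swap
  · have h0 : sub (alb (fun i => pc h (s i)) γ) g a = 0 := by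
      by_contra hne
      obtain ⟨h1, h2, -⟩ := alb_ne (f := fun i => pc h (s i)) (β := γ) (n := g * a) hne
      exact hc ((h2.of_mul_left_right).mul_right (squarefree_mul_iff.1 h1).1.isCoprime.symm)
    rw [h0]
    symm
    refine sum_eq_zero fun x _ => ?_
    rw [hcop]
    unfold prin0
    rw [if_neg hc, mul_zero, mul_zero]
  by_cases hgc : IsCoprime g (∏ i, γ i)
  swap
  · have h0 : sub (alb (fun i => pc h (s i)) γ) g a = 0 := by
      by_contra hne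
      obtain ⟨h1, h2, -⟩ := alb_ne (f := fun i => pc h (s i)) (β := γ) (n := g * a) hne
      exact hgc h2.of_mul_left_left
    rw [h0]
    symm
    refine sum_eq_zero fun x _ => ?_
    unfold k1
    rw [if_neg hgc, zero_mul]
  have hag : IsCoprime a g := hc.of_mul_right_right
  have haγ : IsCoprime a (∏ i, γ i) := hc.of_mul_right_left
  have hsq : Squarefree (g * a) := (squarefree_mul_iff.2 ⟨hag.symm.isRelPrime, hgs, has⟩)
  have e0 : sub (alb (fun i => pc h (s i)) γ) g a =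
      cv (fun i => sub (pc h (s i)) (γ i)) (g * a) := by
    show alb (fun i => pc h (s i)) γ (g * a) = _
    unfold alb
    rw [E5d54.sqc_eq_cv, if_pos ⟨hsq, hgc.mul_left haγ⟩]
  rw [e0, HP842.cv_mul _ hg ha hag.symm]
  refine sum_congr rfl fun x hx => ?_
  rw [hcop]
  unfold prin0 k1
  rw [if_pos hc, mul_one, if_pos hgc]
  unfold cv
  rw [mul_sum]
  refine sum_congr rfl fun y hy => ?_
  rw [mem_Tu] at hx hy
  rw [← prod_mul_distrib]
  refine prod_congr rfl fun i _ => ?_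
  show pc h (s i) (γ i * (x i * y i)) = _
  rw [← mul_assoc]
  have hci : IsCoprime (γ i * x i) (y i) := by
    have d1 : y i ∣ a := by rw [← hy.2]; exact Finset.dvd_prod_of_mem _ (Finset.mem_univ i)
    have d2 : x i ∣ g := by rw [← hx.2]; exact Finset.dvd_prod_of_mem _ (Finset.mem_univ i)
    have d3 : γ i ∣ ∏ i, γ i := Finset.dvd_prod_of_mem _ (Finset.mem_univ i)
    exact ((haγ.symm.of_isCoprime_of_dvd_left d3).mul_left
      (hag.symm.of_isCoprime_of_dvd_left d2)).of_isCoprime_of_dvd_right d1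
  rw [HP842.pc_mul h (hs i).ch (hs i).Y0 ((hγ i).mul (hx.1 i)), Rough381.pc_sub_rough _ hci]

/-! ### the product -/

/-- the children of the product -/
def chS (s : ι ⊕ κ → Pc) (γ : ι → Eis) (β : κ → Eis) (g : Eis) (x : ι → Eis) (y : κ → Eis) :
    ι ⊕ κ → Pc :=
  Sum.elim (ch1 (fun i => s (.inl i)) γ x g) (ch1 (fun j => s (.inr j)) β y g)

/-- the scalar -/
def kS (s : ι ⊕ κ → Pc) (γ : ι → Eis) (β : κ → Eis) (g : Eis) (x : ι → Eis) (y : κ → Eis) : ℂ :=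
  k1 (fun i => s (.inl i)) γ x g * k1 (fun j => s (.inr j)) β y g

lemma chS_OK {s : ι ⊕ κ → Pc} (hs : ∀ i, (s i).OK) {γ x : ι → Eis} {β y : κ → Eis}
    (hγ : ∀ i, IsPrim (γ i)) (hx : ∀ i, IsPrim (x i)) (hβ : ∀ i, IsPrim (β i))
    (hy : ∀ i, IsPrim (y i)) (g : Eis) (i : ι ⊕ κ) : (chS s γ β g x y i).OK := by
  rcases i with i | j
  · exact ch1_OK (fun i => hs (.inl i)) hγ hx g i
  · exact ch1_OK (fun i => hs (.inr i)) hβ hy g j

lemma norm_kS_le {s : ι ⊕ κ → Pc} (hs : ∀ i, (s i).OK) {γ x : ι → Eis} {β y : κ → Eis}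
    (hγ : ∀ i, IsPrim (γ i)) (hx : ∀ i, IsPrim (x i)) (hβ : ∀ i, IsPrim (β i))
    (hy : ∀ i, IsPrim (y i)) (g : Eis) : ‖kS s γ β g x y‖ ≤ 1 := by
  unfold kS
  rw [norm_mul]
  exact mul_le_one₀ (norm_k1_le (fun i => hs (.inl i)) hγ hx g) (norm_nonneg _)
    (norm_k1_le (fun i => hs (.inr i)) hβ hy g)

lemma div_sq {n a : Eis} (hn : Squarefree n) (ha : a ∣ n) (ha0 : a ≠ 0) :
    IsCoprime a (n / a) := by
  obtain ⟨b, rfl⟩ := ha
  rw [mul_div_cancel_left₀ _ ha0]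
  exact (squarefree_mul_iff.1 hn).1.isCoprime

/-- **the sequence of the product through typed lists** -/
theorem rho_eq {h : ℝ → ℝ} {s : ι ⊕ κ → Pc} (hs : ∀ i, (s i).OK) {γ : ι → Eis} {β : κ → Eis}
    (hγ : ∀ i, IsPrim (γ i)) (hβ : ∀ i, IsPrim (β i)) {g : Eis} (hg : IsPrim g)
    (hgs : Squarefree g) {Z : ℝ} (hZ : 0 ≤ Z)
    (hsup : ∀ a, sub (alb (fun i => pc h (s (.inl i))) γ) g a ≠ 0 → a ∈ S Z) :
    rho Z (fun j => pc h (s (.inr j))) (fun i => pc h (s (.inl i))) β γ g =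
      ∑ p ∈ Tu ι g ×ˢ Tu κ g, kS s γ β g p.1 p.2 • sqc 1 (al h (chS s γ β g p.1 p.2)) := by
  classical
  set A := sub (alb (fun i => pc h (s (.inl i))) γ) g with hA
  set B := sub (alb (fun j => pc h (s (.inr j))) β) g with hB
  have hA' : ∀ a, A a ≠ 0 → IsPrim a ∧ Squarefree a := fun a ha =>
    ⟨((mem_S hZ).1 (hsup a ha)).2.1, ((mem_S hZ).1 (hsup a ha)).2.2⟩
  have hB' : ∀ b, B b ≠ 0 → IsPrim b ∧ Squarefree b := by
    intro b hb
    have h1 := alb_ne (f := fun j => pc h (s (.inr j))) (β := β) (n := g * b) hb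
    have h2 : IsPrim (g * b) := alb_prim (f := fun j => pc h (s (.inr j)))
      (fun i m hm => by
        by_contra h0
        apply hm
        unfold pc
        rw [if_neg h0]) hβ hb
    exact ⟨h2.of_mul_left hg, h1.1.of_mul_right⟩
  funext n
  rw [Finset.sum_apply]
  show (∑ a ∈ S Z, A a • StA828.xa a B) n = _
  rw [Finset.sum_apply]
  simp only [Pi.smul_apply, smul_eq_mul]
  by_cases hn : IsPrim n ∧ Squarefree n
  swap
  · rw [sum_eq_zero, sum_eq_zero]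
    · intro p _
      have h0 : sqc 1 (al h (chS s γ β g p.1 p.2)) n = 0 := by
        unfold sqc Th al
        by_cases h1 : IsPrim n
        · rw [if_neg (fun h2 => hn ⟨h1, h2.1⟩), zero_mul]
        · rw [HP842.cv_not_prim h1, mul_zero]
      rw [h0, mul_zero]
    · intro a ha
      obtain ⟨-, ha1, ha2⟩ := (mem_S hZ).1 ha
      by_contra hne
      have h1 : StA828.xa a B n ≠ 0 := right_ne_zero_of_mul hne
      obtain ⟨m, rfl, h3, h4⟩ := StC828.xa_ne ha1.ne_zero h1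
      exact hn ⟨ha1.mul (hB' m h4).1, squarefree_mul_iff.2 ⟨h3.isRelPrime, ha2, (hB' m h4).2⟩⟩
  obtain ⟨hnp, hns⟩ := hn
  -- the left hand side
  have e1 : ∑ a ∈ S Z, A a * StA828.xa a B n = ∑ a ∈ dvs n, A a * B (n / a) := by
    have e2 : ∑ a ∈ S Z, A a * StA828.xa a B n = ∑ a ∈ S Z ∩ dvs n, A a * B (n / a) := by
      symm
      rw [← sum_subset (Finset.inter_subset_left (s₁ := S Z) (s₂ := dvs n))]
      · refine sum_congr rfl fun a ha => ?_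
        obtain ⟨h1, h2⟩ := mem_inter.1 ha
        obtain ⟨h3, h4⟩ := (mem_dvs hnp.ne_zero).1 h2
        unfold StA828.xa
        rw [if_pos ⟨h4, div_sq hns h4 h3.ne_zero⟩]
      · intro a ha hna
        have h1 : ¬ a ∣ n := fun h => hna (mem_inter.2 ⟨ha, (mem_dvs hnp.ne_zero).2
          ⟨((mem_S hZ).1 ha).2.1, h⟩⟩)
        rw [StC828.xa_eq_zero h1, mul_zero]
    rw [e2]
    refine sum_subset Finset.inter_subset_right fun a ha hna => ?_
    by_contra hne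
    exact hna (mem_inter.2 ⟨hsup a (left_ne_zero_of_mul hne), ha⟩)
  rw [e1]
  have e3 : ∀ a ∈ dvs n, A a * B (n / a) = ∑ p ∈ Tu ι g ×ˢ Tu κ g, kS s γ β g p.1 p.2 *
      (cv (fun i => pc h (ch1 (fun i => s (.inl i)) γ p.1 g i)) a *
        cv (fun j => pc h (ch1 (fun j => s (.inr j)) β p.2 g j)) (n / a)) := by
    intro a ha
    obtain ⟨h3, h4⟩ := (mem_dvs hnp.ne_zero).1 ha
    obtain ⟨b, rfl⟩ := h4
    have hb : IsPrim b := hnp.of_mul_left h3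
    rw [mul_div_cancel_left₀ _ h3.ne_zero, hA, hB,
      side_eq (fun i => hs (.inl i)) hγ hg hgs h3 hns.of_mul_left,
      side_eq (fun i => hs (.inr i)) hβ hg hgs hb hns.of_mul_right, sum_mul_sum, sum_product]
    refine sum_congr rfl fun x _ => sum_congr rfl fun y _ => ?_
    unfold kS
    ring
  rw [sum_congr rfl e3, sum_comm]
  refine sum_congr rfl fun p _ => ?_
  rw [← mul_sum]
  congr 1
  unfold sqc Th al
  rw [if_pos ⟨hns, isCoprime_one_right⟩, one_mul]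
  have e5 : (fun i => pc h (chS s γ β g p.1 p.2 i)) =
      Sum.elim (fun i => pc h (ch1 (fun i => s (.inl i)) γ p.1 g i))
        (fun j => pc h (ch1 (fun j => s (.inr j)) β p.2 g j)) := by
    funext i
    rcases i with i | j <;> rfl
  rw [e5, cv_elim _ _ hnp]

/-! ### the error is linear -/

/-- the error of the structured function -/
def Er (c : ℂ) (E0 : ℝ) (J : Finset (Eis × Eis)) (om : Eis × Eis → ℂ) (α : Eis → ℂ) (k : Eis) : ℂ :=
  CS α k - c * StE E0 J om α k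

lemma Er_sum {τ : Type*} (t : Finset τ) (K : τ → ℂ) (f : τ → Eis → ℂ) (hf : ∀ i ∈ t, FS (f i))
    (c : ℂ) (E0 : ℝ) {J : Finset (Eis × Eis)} (hJ : ∀ x ∈ J, x.1 ≠ 0) (om : Eis × Eis → ℂ)
    (k : Eis) : Er c E0 J om (∑ i ∈ t, K i • f i) k = ∑ i ∈ t, K i * Er c E0 J om (f i) k := by
  have h1 : ∀ i ∈ t, FS (K i • f i) := fun i hi => StC828.FS_smul (hf i hi) _
  have h2 : ∀ i ∈ t, StE E0 J om (K i • f i) k = K i * StE E0 J om (f i) k := by
    intro i _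
    unfold StE
    rw [mul_sum]
    refine sum_congr rfl fun x _ => ?_
    simp_rw [StC828.TE_smul, mul_sum]
    refine sum_congr rfl fun e _ => ?_
    ring
  unfold Er
  rw [StC828.CS_sum' t _ h1, StC828.StE_sum t _ h1 hJ, mul_sum, ← sum_sub_distrib]
  refine sum_congr rfl fun i hi => ?_
  rw [StC828.CS_smul', h2 i hi]
  ring

lemma FS_sqc_al {h : ℝ → ℝ} {R : ℝ} (hR : ∀ u, FE47.cx h u ≠ 0 → |u| ≤ R) {s : ι → Pc}
    (hs : ∀ i, (s i).OK) (q : Eis) : FS (sqc q (al h s)) :=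
  HP842.FS.sqc (HP842.FS_cv fun i => HP842.FS_pc hR (hs i)) q

/-- **the error of `rho` through the children** -/
theorem err_rho_le {h : ℝ → ℝ} {R : ℝ} (hR : ∀ u, FE47.cx h u ≠ 0 → |u| ≤ R) {s : ι ⊕ κ → Pc}
    (hs : ∀ i, (s i).OK) {γ : ι → Eis} {β : κ → Eis}
    (hγ : ∀ i, IsPrim (γ i)) (hβ : ∀ i, IsPrim (β i)) {g : Eis} (hg : IsPrim g)
    (hgs : Squarefree g) {Z : ℝ} (hZ : 0 ≤ Z)
    (hsup : ∀ a, sub (alb (fun i => pc h (s (.inl i))) γ) g a ≠ 0 → a ∈ S Z)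
    (c : ℂ) (E0 : ℝ) {J : Finset (Eis × Eis)} (hJ : ∀ x ∈ J, x.1 ≠ 0) (om : Eis × Eis → ℂ)
    {u : Eis → ℝ} (h0 : ∀ k, 0 ≤ u k) (hu : (Function.support u).Finite) {B : ℝ} (hB : 0 ≤ B)
    (hch : ∀ x ∈ Tu ι g, ∀ y ∈ Tu κ g, M2 u (Er c E0 J om (sqc 1 (al h (chS s γ β g x y)))) ≤ B) :
    M2 u (Er c E0 J om (rho Z (fun j => pc h (s (.inr j))) (fun i => pc h (s (.inl i))) β γ g)) ≤
      ((tau g : ℝ) ^ Fintype.card ι * (tau g : ℝ) ^ Fintype.card κ) ^ 2 * B := by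
  classical
  have e1 : Er c E0 J om (rho Z (fun j => pc h (s (.inr j))) (fun i => pc h (s (.inl i))) β γ g) =
      fun k => ∑ p ∈ Tu ι g ×ˢ Tu κ g, kS s γ β g p.1 p.2 *
        Er c E0 J om (sqc 1 (al h (chS s γ β g p.1 p.2))) k := by
    funext k
    rw [rho_eq hs hγ hβ hg hgs hZ hsup]
    refine Er_sum _ _ _ (fun p hp => ?_) c E0 hJ om k
    obtain ⟨h1, h2⟩ := mem_product.1 hp
    exact FS_sqc_al hR (chS_OK hs hγ ((mem_Tu.1 h1).1) hβ ((mem_Tu.1 h2).1) g) 1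
  rw [e1]
  refine (M2_sum_le h0 hu _ _ (fun _ => 1) (fun _ _ => one_pos)).trans ?_
  have hcard : ((Tu ι g ×ˢ Tu κ g).card : ℝ) ≤
      (tau g : ℝ) ^ Fintype.card ι * (tau g : ℝ) ^ Fintype.card κ := by
    rw [card_product]
    push_cast
    exact mul_le_mul (by exact_mod_cast HP842.card_Tu_le g) (by exact_mod_cast HP842.card_Tu_le g)
      (Nat.cast_nonneg _) (by positivity)
  have h2 : ∑ p ∈ Tu ι g ×ˢ Tu κ g, ((1 : ℝ))⁻¹ * M2 u (fun k => kS s γ β g p.1 p.2 *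
        Er c E0 J om (sqc 1 (al h (chS s γ β g p.1 p.2))) k) ≤ ∑ _p ∈ Tu ι g ×ˢ Tu κ g, B := by
    refine sum_le_sum fun p hp => ?_
    obtain ⟨h1, h2⟩ := mem_product.1 hp
    rw [inv_one, one_mul]
    refine (M2_mono h0 hu fun k => ?_).trans (hch p.1 h1 p.2 h2)
    rw [norm_mul]
    exact mul_le_of_le_one_left (norm_nonneg _)
      (norm_kS_le hs hγ ((mem_Tu.1 h1).1) hβ ((mem_Tu.1 h2).1) g)
  rw [sum_const, nsmul_eq_mul] at h2
  have h3 : ∑ _p ∈ Tu ι g ×ˢ Tu κ g, (1 : ℝ) = ((Tu ι g ×ˢ Tu κ g).card : ℝ) := by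
    rw [sum_const, nsmul_eq_mul, mul_one]
  rw [h3]
  calc ((Tu ι g ×ˢ Tu κ g).card : ℝ) * _ ≤ ((Tu ι g ×ˢ Tu κ g).card : ℝ) *
        (((Tu ι g ×ˢ Tu κ g).card : ℝ) * B) := mul_le_mul_of_nonneg_left h2 (Nat.cast_nonneg _)
    _ = ((Tu ι g ×ˢ Tu κ g).card : ℝ) ^ 2 * B := by ring
    _ ≤ _ := mul_le_mul_of_nonneg_right (pow_le_pow_left₀ (Nat.cast_nonneg _) hcard 2) hB

/-! ### the list form -/

lemma nmP {τ : Type*} [Fintype τ] {β : τ → Eis} (h : ∀ i, IsPrim (β i)) :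
    (1 : ℝ) ≤ nm (∏ i, β i) := one_le_nm (E554.isPrim_prod fun i _ => h i)

/-- the shortening factor -/
def sf (γ : ι → Eis) (β : κ → Eis) (g : Eis) : ℝ :=
  ((nm (∏ i, γ i) : ℝ) * nm (∏ j, β j) * (nm g : ℝ) ^ 2)⁻¹

lemma sf_wt {δ : ℝ} {γ : ι → Eis} {β : κ → Eis} {g : Eis} (hγ : ∀ i, IsPrim (γ i))
    (hβ : ∀ i, IsPrim (β i)) (hg : IsPrim g) :
    (wt δ β γ g)⁻¹ * sf γ β g = wt δ β γ g *
      (((nm (∏ i, γ i) : ℝ) * nm (∏ j, β j) * nm g) ^ (2 * δ)) := by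
  have h1 := nmP hγ
  have h2 := nmP hβ
  have h3 := one_le_nm hg
  have p1 : (0 : ℝ) < nm (∏ i, γ i) := by linarith
  have p2 : (0 : ℝ) < nm (∏ j, β j) := by linarith
  have p3 : (0 : ℝ) < nm g := by linarith
  unfold wt sf
  rw [mul_inv, mul_inv, mul_inv, mul_inv, ← Real.rpow_neg p1.le, ← Real.rpow_neg p2.le,
    ← Real.rpow_neg p3.le, Real.mul_rpow (by positivity) p3.le, Real.mul_rpow p1.le p2.le]
  have e1 : ((nm (∏ i, γ i) : ℝ))⁻¹ = (nm (∏ i, γ i) : ℝ) ^ (-1 : ℝ) := (Real.rpow_neg_one _).symm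
  have e2 : ((nm (∏ j, β j) : ℝ))⁻¹ = (nm (∏ j, β j) : ℝ) ^ (-1 : ℝ) := (Real.rpow_neg_one _).symm
  have e3 : ((nm g : ℝ) ^ 2)⁻¹ = (nm g : ℝ) ^ (-2 : ℝ) := by
    rw [Real.rpow_neg p3.le]; norm_num
  rw [e1, e2, e3]
  have f1 : (nm (∏ i, γ i) : ℝ) ^ (-(-(1 / 2 + δ))) * (nm (∏ i, γ i) : ℝ) ^ (-1 : ℝ) =
      (nm (∏ i, γ i) : ℝ) ^ (-(1 / 2 + δ)) * (nm (∏ i, γ i) : ℝ) ^ (2 * δ) := by
    rw [← Real.rpow_add p1, ← Real.rpow_add p1]; congr 1; ring
  have f2 : (nm (∏ j, β j) : ℝ) ^ (-(-(1 / 2 + δ))) * (nm (∏ j, β j) : ℝ) ^ (-1 : ℝ) =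
      (nm (∏ j, β j) : ℝ) ^ (-(1 / 2 + δ)) * (nm (∏ j, β j) : ℝ) ^ (2 * δ) := by
    rw [← Real.rpow_add p2, ← Real.rpow_add p2]; congr 1; ring
  have f3 : (nm g : ℝ) ^ (-(-(1 + δ))) * (nm g : ℝ) ^ (-2 : ℝ) =
      (nm g : ℝ) ^ (-(1 + δ)) * (nm g : ℝ) ^ (2 * δ) := by
    rw [← Real.rpow_add p3, ← Real.rpow_add p3]; congr 1; ring
  calc _ = ((nm (∏ i, γ i) : ℝ) ^ (-(-(1 / 2 + δ))) * (nm (∏ i, γ i) : ℝ) ^ (-1 : ℝ)) *
        ((nm (∏ j, β j) : ℝ) ^ (-(-(1 / 2 + δ))) * (nm (∏ j, β j) : ℝ) ^ (-1 : ℝ)) *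
        ((nm g : ℝ) ^ (-(-(1 + δ))) * (nm g : ℝ) ^ (-2 : ℝ)) := by ring
    _ = _ := by rw [f1, f2, f3]; ring

/-- the norm of a tuple -/
lemma PT_nm_le {τ : Type*} [Fintype τ] {X : ℝ} {Y : ℕ} (hYX : (Y : ℝ) ≤ X) {β : τ → Eis}
    (hβ : β ∈ PT τ Y) : (nm (∏ i, β i) : ℝ) ≤ X ^ (Fintype.card τ : ℝ) := by
  classical
  unfold PT at hβ
  rw [mem_filter, Fintype.mem_piFinset] at hβ
  rw [E554.nm_prod]
  push_cast
  calc ∏ i, (nm (β i) : ℝ) ≤ ∏ _i : τ, X := prod_le_prod (fun i _ => Nat.cast_nonneg _) fun i _ =>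
        le_trans (by exact_mod_cast (mem_primBall.mp (hβ.1 i)).1) hYX
    _ = X ^ (Fintype.card τ : ℝ) := by rw [prod_const, card_univ, Real.rpow_natCast]

set_option maxHeartbeats 1000000 in
/-- **the second moment of the amplified error, list form**: if the errors of all children and the
mismatches are `≤ B / (N(γ) N(β) N(g)²)`, then the total is `≤ C X^ε B`. -/
theorem err_list (ι κ : Type*) [Fintype ι] [Fintype κ] [DecidableEq ι] [DecidableEq κ]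
    {ε : ℝ} (hε : 0 < ε) : ∃ C : ℝ, 0 ≤ C ∧ ∀ (X : ℝ), 1 ≤ X → ∀ {h : ℝ → ℝ} {R : ℝ},
      (∀ u, FE47.cx h u ≠ 0 → |u| ≤ R) → ∀ {s : ι ⊕ κ → Pc}, (∀ i, (s i).OK) →
      ∀ {Y : ℕ} {Z : ℝ}, (Y : ℝ) ≤ X → 0 ≤ Z → Z ≤ X →
      (∀ i m, pc h (s i) m ≠ 0 → nm m ≤ Y) →
      ∏ i : ι, ((s (.inl i)).Y * Real.exp R) ≤ Z →
      ∀ {D Y₀ Y₁ D' Y₀' Y₁' : ℝ}, 0 ≤ D → Y₀ < 1 → 0 ≤ Y₁ → Y₁ ≤ D ^ 2 → 0 ≤ D' → Y₀' < 1 →
      Y₁' ≤ D' ^ 2 → Y₁ * Z ^ 2 ≤ Y₁' → ∀ {o : Eis → ℂ}, (∀ z, o z ≠ 0 → (nm z : ℝ) ≤ Y₁) →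
      ∀ {E0 : ℝ}, 0 ≤ E0 → ∀ (c : ℂ) {u : Eis → ℝ}, (∀ k, 0 ≤ u k) →
      (Function.support u).Finite → ∀ {B : ℝ}, 0 ≤ B →
      (∀ (γ : ι → Eis) (β : κ → Eis) (g : Eis), γ ∈ PT ι Y → β ∈ PT κ Y → g ∈ S Z →
        ∀ x ∈ Tu ι g, ∀ y ∈ Tu κ g,
        M2 u (Er c E0 (JW D Y₀ Y₁) (fun x => o (ln x)) (sqc 1 (al h (chS s γ β g x y)))) ≤
          B * sf γ β g) →
      (∀ (γ : ι → Eis) (β : κ → Eis) (g : Eis), γ ∈ PT ι Y → β ∈ PT κ Y → g ∈ S Z →
        M2 u (SteT (JW D' Y₀' Y₁') (fun _ => 1) (E0 * Z)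
          (Tm E0 Z o (alb (fun i => pc h (s (.inl i))) γ) (alb (fun j => pc h (s (.inr j))) β) g)) ≤
          B * sf γ β g) →
      M2 u (fun k => (∏ i, CS (pc h (s (.inl i))) k) * (∏ j, CS (pc h (s (.inr j))) k -
        c * SS (fun j => pc h (s (.inr j))) Y E0 (JW D Y₀ Y₁) (fun x => o (ln x)) k)) ≤
      C * X ^ ε * ((1 + ‖c‖ ^ 2) * B) := by
  classical
  set n := Fintype.card ι + Fintype.card κ + 1 with hn
  have hn0 : (0 : ℝ) < n := by positivity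
  set δ := ε / (4 * n) with hδd
  have hδ : 0 < δ := by positivity
  obtain ⟨C1, hC1, h1⟩ := err_le ι κ hδ
  obtain ⟨C2, hC2, h2⟩ := sum_wt_le ι κ hδ
  obtain ⟨C3, hC31, h3⟩ := Div277.tau_le_rpow (ε := δ) hδ
  have hC3 : 0 ≤ C3 := by linarith
  refine ⟨C1 * (C2 * (1 + (C3 ^ Fintype.card ι * C3 ^ Fintype.card κ) ^ 2)), by positivity, ?_⟩
  intro X hX h R hR s hs Y Z hYX hZ0 hZX hY hZ D Y₀ Y₁ D' Y₀' Y₁' hD h0 hY1 h1' hD' h0' h1'' hYY
    o ho E0 hE c u hu0 hu B hB hch hmm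
  have hprim : ∀ i m, pc h (s i) m ≠ 0 → IsPrim m := by
    intro i m hm
    by_contra h0
    apply hm
    unfold pc
    rw [if_neg h0]
  have hsupp : ∀ i m, pc h (s i) m ≠ 0 → IsPrim m ∧ (nm m : ℝ) ≤ (s i).Y * Real.exp R := by
    intro i m hm
    refine ⟨hprim i m hm, ?_⟩
    have hX' : (s i).Y * Real.exp R ≤ (⌈(s i).Y * Real.exp R⌉₊ : ℝ) := Nat.le_ceil _
    have h5 := hm
    unfold pc at h5
    rw [if_pos (hprim i m hm)] at h5
    have h6 : HSep813.gw h (s i).Y (s i).t m ≠ 0 := right_ne_zero_of_mul h5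
    unfold HSep813.gw at h6
    have h7 := hR _ (right_ne_zero_of_mul h6)
    have h8 : (0 : ℝ) < nm m := by exact_mod_cast nm_pos.2 (hprim i m hm).ne_zero
    have h9 : Real.log (nm m) ≤ Real.log (s i).Y + R := by
      have := (abs_le.1 h7).2
      linarith
    calc (nm m : ℝ) = Real.exp (Real.log (nm m)) := (Real.exp_log h8).symm
      _ ≤ Real.exp (Real.log (s i).Y + R) := Real.exp_le_exp.2 h9
      _ = (s i).Y * Real.exp R := by rw [Real.exp_add, Real.exp_log (hs i).Y0]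
  have key := h1 (f := fun j => pc h (s (.inr j))) (fa := fun i => pc h (s (.inl i))) (Y := Y)
    (fun i m hm => ⟨hprim _ m hm, hY _ m hm⟩) (fun i m hm => ⟨hprim _ m hm, hY _ m hm⟩)
    (fun i m hm => hsupp (.inr i) m hm) (fun i m hm => hsupp (.inl i) m hm) hZ hZ0 hD h0 hY1 h1'
    hD' h0' h1'' hYY ho hE c hu0 hu
  refine key.trans ?_
  rw [mul_assoc C1, mul_assoc C1]
  refine mul_le_mul_of_nonneg_left ?_ hC1
  have hXp : (0 : ℝ) < X := by linarith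
  have hterm : ∀ β ∈ PT κ Y, ∀ γ ∈ PT ι Y, ∀ g ∈ S Z, (wt δ β γ g)⁻¹ *
      (M2 u (fun k => CS (rho Z (fun j => pc h (s (.inr j))) (fun i => pc h (s (.inl i))) β γ g) k -
            c * StE E0 (JW D Y₀ Y₁) (fun x => o (ln x))
              (rho Z (fun j => pc h (s (.inr j))) (fun i => pc h (s (.inl i))) β γ g) k) +
          ‖c‖ ^ 2 * M2 u (SteT (JW D' Y₀' Y₁') (fun _ => 1) (E0 * Z)
            (Tm E0 Z o (alb (fun i => pc h (s (.inl i))) γ)
              (alb (fun j => pc h (s (.inr j))) β) g))) ≤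
      wt δ β γ g * ((1 + (C3 ^ Fintype.card ι * C3 ^ Fintype.card κ) ^ 2) *
        (X ^ ε * ((1 + ‖c‖ ^ 2) * B))) := by
    intro β hβ γ hγ g hg
    obtain ⟨g1, g2, g3⟩ := (mem_S hZ0).1 hg
    have pγ := mem_PT hγ
    have pβ := mem_PT hβ
    have hw := wt_pos (δ := δ) pβ pγ g2
    have hsfn : 0 ≤ sf γ β g := by unfold sf; positivity
    have hBs : 0 ≤ B * sf γ β g := mul_nonneg hB hsfn
    have hsup : ∀ a, sub (alb (fun i => pc h (s (.inl i))) γ) g a ≠ 0 → a ∈ S Z := by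
      intro a ha
      have h5 := alb_mem_S (f := fun i => pc h (s (.inl i))) (β := γ)
        (fun i m hm => hsupp (.inl i) m hm) pγ hZ hZ0 (n := g * a) ha
      obtain ⟨b1, b2, b3⟩ := (mem_S hZ0).1 h5
      refine (mem_S hZ0).2 ⟨le_trans ?_ b1, b2.of_mul_left g2, b3.of_mul_right⟩
      rw [nm_mul]
      push_cast
      exact le_mul_of_one_le_left (Nat.cast_nonneg _) (one_le_nm g2)
    have hr := err_rho_le hR hs pγ pβ g2 g3 hZ0 hsup c E0 (J := JW D Y₀ Y₁)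
      (fun x hx => ((okJ_JW D Y₀ Y₁).prim x hx).ne_zero) (fun x => o (ln x)) hu0 hu hBs
      (fun x hx y hy => hch γ β g hγ hβ hg x hx y hy)
    have hm := hmm γ β g hγ hβ hg
    have hτ : (tau g : ℝ) ≤ C3 * (nm g : ℝ) ^ δ := h3 g g2.ne_zero
    have hng : (1 : ℝ) ≤ nm g := one_le_nm g2
    have hngX : (nm g : ℝ) ≤ X := g1.trans hZX
    have hgδ : (nm g : ℝ) ^ δ ≤ X ^ δ := Real.rpow_le_rpow (Nat.cast_nonneg _) hngX hδ.le
    have hτ2 : (tau g : ℝ) ^ Fintype.card ι * (tau g : ℝ) ^ Fintype.card κ ≤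
        (C3 ^ Fintype.card ι * C3 ^ Fintype.card κ) * X ^ (δ * n) := by
      have h5 : (tau g : ℝ) ≤ C3 * X ^ δ := hτ.trans (mul_le_mul_of_nonneg_left hgδ hC3)
      have h6 : (1 : ℝ) ≤ X ^ δ := Real.one_le_rpow hX hδ.le
      calc (tau g : ℝ) ^ Fintype.card ι * (tau g : ℝ) ^ Fintype.card κ
          ≤ (C3 * X ^ δ) ^ Fintype.card ι * (C3 * X ^ δ) ^ Fintype.card κ :=
            mul_le_mul (pow_le_pow_left₀ (Nat.cast_nonneg _) h5 _)
              (pow_le_pow_left₀ (Nat.cast_nonneg _) h5 _) (by positivity) (by positivity)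
        _ = (C3 ^ Fintype.card ι * C3 ^ Fintype.card κ) *
              (X ^ δ) ^ (Fintype.card ι + Fintype.card κ) := by
            rw [mul_pow, mul_pow, pow_add]; ring
        _ ≤ (C3 ^ Fintype.card ι * C3 ^ Fintype.card κ) * (X ^ δ) ^ n :=
            mul_le_mul_of_nonneg_left (pow_le_pow_right₀ h6 (by omega)) (by positivity)
        _ = _ := by rw [← Real.rpow_natCast (X ^ δ) n, ← Real.rpow_mul hXp.le]
    set c3 := C3 ^ Fintype.card ι * C3 ^ Fintype.card κ with hc3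
    have hc30 : 0 ≤ c3 := by positivity
    have hτ3 : ((tau g : ℝ) ^ Fintype.card ι * (tau g : ℝ) ^ Fintype.card κ) ^ 2 ≤
        c3 ^ 2 * X ^ (2 * (δ * n)) := by
      calc _ ≤ (c3 * X ^ (δ * n)) ^ 2 := pow_le_pow_left₀ (by positivity) hτ2 2
        _ = c3 ^ 2 * X ^ (2 * (δ * n)) := by
            rw [mul_pow, ← Real.rpow_natCast (X ^ (δ * (n : ℝ))) 2, ← Real.rpow_mul hXp.le]
            congr 2
            push_cast; ring
    have h1X : (1 : ℝ) ≤ X ^ (2 * (δ * n)) := Real.one_le_rpow hX (by positivity)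
    have hinner : M2 u (fun k => CS (rho Z (fun j => pc h (s (.inr j)))
            (fun i => pc h (s (.inl i))) β γ g) k -
            c * StE E0 (JW D Y₀ Y₁) (fun x => o (ln x))
              (rho Z (fun j => pc h (s (.inr j))) (fun i => pc h (s (.inl i))) β γ g) k) +
          ‖c‖ ^ 2 * M2 u (SteT (JW D' Y₀' Y₁') (fun _ => 1) (E0 * Z)
            (Tm E0 Z o (alb (fun i => pc h (s (.inl i))) γ)
              (alb (fun j => pc h (s (.inr j))) β) g)) ≤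
        ((1 + c3 ^ 2) * (X ^ (2 * (δ * n)) * ((1 + ‖c‖ ^ 2) * B))) * sf γ β g := by
      have a1 : M2 u (fun k => CS (rho Z (fun j => pc h (s (.inr j)))
            (fun i => pc h (s (.inl i))) β γ g) k -
            c * StE E0 (JW D Y₀ Y₁) (fun x => o (ln x))
              (rho Z (fun j => pc h (s (.inr j))) (fun i => pc h (s (.inl i))) β γ g) k) ≤
          c3 ^ 2 * X ^ (2 * (δ * n)) * (B * sf γ β g) :=
        le_trans hr (mul_le_mul_of_nonneg_right hτ3 hBs)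
      have a2 := mul_le_mul_of_nonneg_left hm (sq_nonneg ‖c‖)
      have hX2 : 0 ≤ X ^ (2 * (δ * n)) := by linarith
      have a3 : ‖c‖ ^ 2 * (B * sf γ β g) ≤ ‖c‖ ^ 2 * (B * sf γ β g) * X ^ (2 * (δ * n)) :=
        le_mul_of_one_le_right (by positivity) h1X
      have a4 : 0 ≤ ‖c‖ ^ 2 * (B * sf γ β g) * X ^ (2 * (δ * n)) := by positivity
      have a5 : 0 ≤ c3 ^ 2 * X ^ (2 * (δ * n)) * (B * sf γ β g) := by positivity
      have a6 : 0 ≤ X ^ (2 * (δ * n)) * (B * sf γ β g) := by positivity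
      nlinarith [mul_nonneg a4 (sq_nonneg c3), mul_nonneg (sq_nonneg ‖c‖) a5]
    have hwi : 0 ≤ (wt δ β γ g)⁻¹ := inv_nonneg.2 hw.le
    refine (mul_le_mul_of_nonneg_left hinner hwi).trans ?_
    have e5 : (wt δ β γ g)⁻¹ * ((1 + c3 ^ 2) * (X ^ (2 * (δ * n)) * ((1 + ‖c‖ ^ 2) * B)) *
        sf γ β g) = ((wt δ β γ g)⁻¹ * sf γ β g) *
          ((1 + c3 ^ 2) * (X ^ (2 * (δ * n)) * ((1 + ‖c‖ ^ 2) * B))) := by ring
    rw [e5, sf_wt pγ pβ g2]
    have hprod : ((nm (∏ i, γ i) : ℝ) * nm (∏ j, β j) * nm g) ^ (2 * δ) ≤ X ^ (2 * (δ * n)) := by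
      have h7 : (nm (∏ i, γ i) : ℝ) * nm (∏ j, β j) * nm g ≤ X ^ (n : ℝ) := by
        calc (nm (∏ i, γ i) : ℝ) * nm (∏ j, β j) * nm g
            ≤ X ^ (Fintype.card ι : ℝ) * X ^ (Fintype.card κ : ℝ) * X := by
              refine mul_le_mul (mul_le_mul (PT_nm_le hYX hγ) (PT_nm_le hYX hβ) (Nat.cast_nonneg _)
                (by positivity)) hngX (Nat.cast_nonneg _) (by positivity)
          _ = X ^ (n : ℝ) := by
              have e6 : (n : ℝ) = (Fintype.card ι : ℝ) + (Fintype.card κ : ℝ) + 1 := by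
                rw [hn]; push_cast; ring
              rw [e6, Real.rpow_add hXp, Real.rpow_add hXp, Real.rpow_one]
      calc _ ≤ (X ^ (n : ℝ)) ^ (2 * δ) := Real.rpow_le_rpow (by positivity) h7 (by positivity)
        _ = X ^ (2 * (δ * n)) := by
            rw [← Real.rpow_mul hXp.le]; congr 1; ring
    have hfin : X ^ (2 * (δ * n)) * X ^ (2 * (δ * n)) = X ^ ε := by
      rw [← Real.rpow_add hXp]
      congr 1
      rw [hδd]; field_simp; ring
    calc wt δ β γ g * ((nm (∏ i, γ i) : ℝ) * nm (∏ j, β j) * nm g) ^ (2 * δ) *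
          ((1 + c3 ^ 2) * (X ^ (2 * (δ * n)) * ((1 + ‖c‖ ^ 2) * B)))
        ≤ wt δ β γ g * X ^ (2 * (δ * n)) *
          ((1 + c3 ^ 2) * (X ^ (2 * (δ * n)) * ((1 + ‖c‖ ^ 2) * B))) := by
          refine mul_le_mul_of_nonneg_right (mul_le_mul_of_nonneg_left hprod hw.le) ?_
          positivity
      _ = wt δ β γ g * ((1 + c3 ^ 2) * ((X ^ (2 * (δ * n)) * X ^ (2 * (δ * n))) *
            ((1 + ‖c‖ ^ 2) * B))) := by ring
      _ = _ := by rw [hfin]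
  have hsum := sum_le_sum fun β hβ => sum_le_sum fun γ hγ => sum_le_sum fun g hg =>
    hterm β hβ γ hγ g hg
  refine hsum.trans ?_
  simp_rw [← sum_mul]
  have hnn : 0 ≤ (1 + (C3 ^ Fintype.card ι * C3 ^ Fintype.card κ) ^ 2) *
        (X ^ ε * ((1 + ‖c‖ ^ 2) * B)) := by positivity
  refine (mul_le_mul_of_nonneg_right (h2 Y Z) hnn).trans (le_of_eq ?_)
  ring

end Crest.Agent.R017.P1f54
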