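import Crest.Agent.R017.FEz_436
import Crest.Agent.R017.P1l_54
import Crest.Agent.R017.MgF_828
import Crest.Agent.R017.I1k_146
import Crest.Agent.R017.VFalb_436

/-!
# Row 17, R8 / P1M: the claims on the children of 54's families (helper436)

* `chF_fam` : the children of a family of pieces are families of pieces
* `clm_N`   : the cube-free moments of the children of `fam P t₀ ps us` (twisted by an `S`-unit),
  class N, from the flat claims with extraction (callback form)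
-/

set_option autoImplicit false
set_option linter.unusedSectionVars false
set_option linter.unusedVariables false

noncomputable section

open Set

namespace Crest.Agent.R017.FEx436

open Crest.Agent.R012 Crest.Agent.R012.Eis
open Crest.Agent.R017.CM106
open Crest.Agent.R017.FE47 (PU cx SM)
open Crest.Agent.R017.ER911
open Crest.Agent.R017.B770
open Crest.Agent.R017.Prov71
open Crest.Agent.R017.TM708
open Crest.Agent.R017.TK708
open Crest.Agent.R017.E1551 (tws)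
open Crest.Agent.R017.Rough381 (VF)
open Crest.Agent.R017.HP842 (Pc pc sqc al alL)
open Crest.Agent.R017.E5B71 (Pt)
open Crest.Agent.R017.End699 (prin0)
open Crest.Agent.R017.I1146 (ChN LN cN SN FlatO FlatL Tail)

/-! ### shifts of the level -/

lemma eW_shift {K v n w σ : ℝ} (hσ : 0 ≤ σ) : eW K (v + σ) n w ≤ eW K v n w + 4 / 3 * σ := by
  unfold eW kW eH eF
  have a1 := le_max_left (max K (v + (n + w) / 2)) (3 / 2 * v)
  have a2 := le_max_right (max K (v + (n + w) / 2)) (3 / 2 * v)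
  have a3 := le_max_left K (v + (n + w) / 2)
  have a4 := le_max_right K (v + (n + w) / 2)
  have h1 : max (max K (v + σ + (n + w) / 2)) (3 / 2 * (v + σ)) ≤
      max (max K (v + (n + w) / 2)) (3 / 2 * v) + 3 / 2 * σ :=
    max_le (max_le (by linarith) (by linarith)) (by linarith)
  have h2 := le_max_left (max (2 * n) (4 / 3 * n +
    (max (max K (v + (n + w) / 2)) (3 / 2 * v) + v) / 3)) (v + n)
  have h3 := le_max_right (max (2 * n) (4 / 3 * n +
    (max (max K (v + (n + w) / 2)) (3 / 2 * v) + v) / 3)) (v + n)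
  have h4 := le_max_left (2 * n) (4 / 3 * n +
    (max (max K (v + (n + w) / 2)) (3 / 2 * v) + v) / 3)
  have h5 := le_max_right (2 * n) (4 / 3 * n +
    (max (max K (v + (n + w) / 2)) (3 / 2 * v) + v) / 3)
  refine max_le (max_le ?_ ?_) ?_ <;> linarith

lemma gv_shift {v b n σ : ℝ} (hσ : 0 ≤ σ) : gv (v + σ) b n ≤ gv v b n + σ := by
  rw [gv_eq, gv_eq]
  have h1 := le_max_left (v + n) (n + (2 * b + v) / 3)
  have h2 := le_max_right (v + n) (n + (2 * b + v) / 3)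
  refine max_le ?_ ?_ <;> linarith

lemma tAll_shift {d v z₁ z₂ z₃ w σ : ℝ} (hσ : 0 ≤ σ) :
    tAll d (v + σ) z₁ z₂ z₃ w ≤ tAll d v z₁ z₂ z₃ w + σ := by
  have hB : ∀ n : ℝ, tHB (v + σ) n ≤ tHB v n + σ := by
    intro n
    unfold tHB
    have h1 := le_max_left (v + n) (max (2 * n + v / 3) (n + 2 / 3 * (v + n)))
    have h2 := le_max_right (v + n) (max (2 * n + v / 3) (n + 2 / 3 * (v + n)))
    have h3 := le_max_left (2 * n + v / 3) (n + 2 / 3 * (v + n))
    have h4 := le_max_right (2 * n + v / 3) (n + 2 / 3 * (v + n))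
    refine max_le ?_ (max_le ?_ ?_) <;> linarith
  have hT : ∀ a b c : ℝ, tCT (v + σ) a b c w ≤ tCT v a b c w + σ := by
    intro a b c
    unfold tCT
    have h1 := gv_shift (v := v + (c + w)) (b := a + b) (n := a + b) hσ
    have e : v + σ + (c + w) = v + (c + w) + σ := by ring
    rw [e]
    linarith
  have hP : ∀ a b c : ℝ, tCP d (v + σ) a b c w ≤ tCP d v a b c w + σ := by
    intro a b c
    unfold tCP
    have h1 := gv_shift (v := v + c) (b := a + b + w + (3 / 2 + 72 / 5 * d) * w)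
      (n := a + b + w) hσ
    have e : v + σ + c = v + c + σ := by ring
    rw [e]
    linarith
  have hQ : ∀ a b c : ℝ, tP d (v + σ) a b c w ≤ tP d v a b c w + σ := by
    intro a b c
    unfold tP
    exact gv_shift hσ
  unfold tAll tCT3 tCP3 tP3
  rw [← min_add_add_right, ← min_add_add_right, ← min_add_add_right, ← min_add_add_right,
    ← min_add_add_right, ← min_add_add_right, ← min_add_add_right, ← min_add_add_right,
    ← min_add_add_right]
  exact min_le_min (min_le_min (hB _) (min_le_min (hT _ _ _) (min_le_min (hT _ _ _) (hT _ _ _))))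
    (min_le_min (min_le_min (hP _ _ _) (min_le_min (hP _ _ _) (hP _ _ _)))
      (min_le_min (hQ _ _ _) (min_le_min (hQ _ _ _) (hQ _ _ _))))

/-- the number of a child, lengths and level absolute -/
def NX (d K lo v n z₁ z₂ z₃ w : ℝ) : ℝ :=
  min (min (eW K v n w + lo) (w + (eW K (v + w) (z₁ + z₂ + z₃) 0 + lo))) (tAll d v z₁ z₂ z₃ w)

lemma NX_shift {d K lo v n z₁ z₂ z₃ w σ : ℝ} (hσ : 0 ≤ σ) :
    NX d K lo (v + σ) n z₁ z₂ z₃ w ≤ NX d K lo v n z₁ z₂ z₃ w + 4 / 3 * σ := by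
  unfold NX
  rw [← min_add_add_right, ← min_add_add_right]
  have h1 := eW_shift (K := K) (v := v) (n := n) (w := w) hσ
  have h2 := eW_shift (K := K) (v := v + w) (n := z₁ + z₂ + z₃) (w := 0) hσ
  have h3 := tAll_shift (d := d) (v := v) (z₁ := z₁) (z₂ := z₂) (z₃ := z₃) (w := w) hσ
  have e : v + σ + w = v + w + σ := by ring
  rw [e]
  exact min_le_min (min_le_min (by linarith) (by linarith)) (by linarith)

/-! ### children of families -/

lemma tws_zero (a : Eis → ℂ) : tws a 0 = a := by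
  funext n
  show a n * R012.Weight600.osc 0 _ = a n
  unfold R012.Weight600.osc
  simp

lemma chN_of {P : DPar} {t₀ : Eis} {r : ℝ} {c : Pc} {p : Pq} (h1 : c.ψ = (Pt P t₀ p).ψ)
    (h2 : (Pt P t₀ p).u = .one → c.u = .one) (h3 : 1 ≤ c.Y)
    (h4 : Real.log c.Y ≤ Real.log (Pt P t₀ p).Y + r) :
    ∃ p' : Pq, c = Pt P t₀ p' ∧ ChN r p' p ∧ p'.z = Real.log c.Y ∧ p'.t = c.t := by
  refine ⟨⟨p.kd, c.u, p.d, p.d0, Real.log c.Y, c.t⟩, ?_, ⟨rfl, rfl, fun h => h2 h,
    Real.log_nonneg h3, ?_⟩, rfl, rfl⟩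
  · obtain ⟨u, ψ, Y, t⟩ := c
    have hY : 0 < Y := by
      have : (1 : ℝ) ≤ Y := h3
      linarith
    show (⟨u, ψ, Y, t⟩ : Pc) = ⟨u, fun b => chK P p.kd b * prin0 p.d b * sy t₀ b,
      Real.exp (Real.log Y), t⟩
    have e1 : ψ = fun b => chK P p.kd b * prin0 p.d b * sy t₀ b := h1
    rw [Real.exp_log hY, e1]
  · have e : Real.log (Pt P t₀ p).Y = p.z := Real.log_exp p.z
    show Real.log c.Y ≤ p.z + r
    rw [← e]
    exact h4

/-- **the children of a family of pieces** -/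
theorem chF_fam {P : DPar} {t₀ : Eis} {m : ℕ} {r : ℝ} {ps : Fin m → Pq} {vs : Fin 3 → Pq}
    {s' : Fin m ⊕ Fin 3 → Pc} (h : GrC828.ChF r s' (P1l54.fam P t₀ ps vs)) :
    ∃ (ps' : Fin m → Pq) (vs' : Fin 3 → Pq), s' = P1l54.fam P t₀ ps' vs' ∧
      (∀ i, ChN r (ps' i) (ps i)) ∧ ∀ j, ChN r (vs' j) (vs j) := by
  have h1 : ∀ i : Fin m, ∃ p' : Pq, s' (.inl i) = Pt P t₀ p' ∧ ChN r p' (ps i) := fun i => by
    obtain ⟨a1, a2, a3, a4⟩ := h (.inl i)
    obtain ⟨p', b1, b2, -⟩ := chN_of (p := ps i) a1 a2 a3 a4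
    exact ⟨p', b1, b2⟩
  have h2 : ∀ j : Fin 3, ∃ p' : Pq, s' (.inr j) = Pt P t₀ p' ∧ ChN r p' (vs j) := fun j => by
    obtain ⟨a1, a2, a3, a4⟩ := h (.inr j)
    obtain ⟨p', b1, b2, -⟩ := chN_of (p := vs j) a1 a2 a3 a4
    exact ⟨p', b1, b2⟩
  choose f hf using h1
  choose g hg using h2
  refine ⟨f, g, ?_, fun i => (hf i).2, fun j => (hg j).2⟩
  funext i
  rcases i with i | j
  · exact (hf i).1
  · exact (hg j).1

variable {m : ℕ}

lemma LY_fam {P : DPar} {t₀ : Eis} (ps : Fin m → Pq) (vs : Fin 3 → Pq) :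
    GrC828.LY (P1l54.fam P t₀ ps vs) = (∑ i, (ps i).z) + ∑ j, (vs j).z := by
  unfold GrC828.LY
  rw [Fintype.sum_sum_type]
  congr 1
  · exact Finset.sum_congr rfl fun i _ => Real.log_exp _
  · exact Finset.sum_congr rfl fun i _ => Real.log_exp _

lemma cF_fam {P : DPar} {t₀ : Eis} (ps ps' : Fin m → Pq) (vs vs' : Fin 3 → Pq) :
    GrC828.cF (P1l54.fam P t₀ ps' vs') (P1l54.fam P t₀ ps vs) =
      cN ([vs' 0, vs' 1, vs' 2] ++ List.ofFn ps') ([vs 0, vs 1, vs 2] ++ List.ofFn ps) := by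
  have e1 : cN ([vs' 0, vs' 1, vs' 2] ++ List.ofFn ps') ([vs 0, vs 1, vs 2] ++ List.ofFn ps) =
      cN [vs' 0, vs' 1, vs' 2] [vs 0, vs 1, vs 2] * cN (List.ofFn ps') (List.ofFn ps) := by
    unfold I1146.cN
    rw [List.zipWith_append (by simp), List.prod_append]
  have e2 : cN [vs' 0, vs' 1, vs' 2] [vs 0, vs 1, vs 2] =
      ∏ j : Fin 3, (1 + |(vs' j).t - (vs j).t|) := by
    rw [Fin.prod_univ_three]
    unfold I1146.cN
    simp only [List.zipWith_cons_cons, List.zipWith_nil_left, List.prod_cons, List.prod_nil,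
      mul_one]
    exact (mul_assoc _ _ _).symm
  rw [e1, VFa436.cN_ofFn, e2, mul_comm]
  unfold GrC828.cF
  rw [Fintype.prod_sum_type]
  rfl

variable {Λ : Type*} {π : Λ → DPar} {h : ℝ → ℝ} {s : EF} {d : ℝ} {D5 : Set (Fin 5 → ℝ)}
  {Kf Tf ℓ : (Fin 5 → ℝ) → ℝ}

/-- **the moments of the children of a family, class N** -/
theorem clm_N {c₀ : ℝ} (hpu : PU h c₀) (hP : ∀ lam, (π lam).OK)
    (h0 : ExpS0 s (ex Dq fun lam => S0p (π lam) h)) (hA : AllT d (ex Dq fun lam => S0p (π lam) h))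
    (hKf : Continuous Kf) (hTf : Continuous Tf) (hD : IsCompact D5)
    (hD4 : ∀ b ∈ D5, 0 ≤ b 4) (hℓ : Continuous ℓ)
    (H : FE2G (ex Dq fun lam => S0p (π lam) h) D5 Kf Tf ℓ) {ε : ℝ} (hε : 0 < ε) :
    ∃ σ : ℝ, 0 < σ ∧ ∀ (lam : Λ) (t₀ : Eis), t₀ ∈ SM (π lam).n → ∀ (N : ℕ) (B : ℝ), ∃ M : ℕ,
      ∀ r : ℝ, 0 ≤ r → ∃ X₀ : ℝ, 1 < X₀ ∧
      ∀ X : ℝ, X₀ ≤ X → ∀ b ∈ D5, ∀ (m : ℕ) (us : Fin 3 → Pq) (ps : Fin m → Pq) (κ Ht : ℝ),
      PD X (σ / 2) B Ht N b 1 us (List.ofFn ps) κ → ∀ g : Eis, IsPrim g → (nm g : ℝ) ≤ X ^ B →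
      ∀ (l : ℝ) (s' : Fin m ⊕ Fin 3 → Pc), 0 ≤ l →
      GrC828.ChF r s' (P1l54.fam (π lam) t₀ ps us) →
      l + GrC828.LY s' ≤ (Tf b + (b 1 + b 2 + b 3 + b 4) + σ / 2) * Real.log X →
      ∀ V : ℝ,
      (∀ z₁ z₂ z₃ w : ℝ, 0 ≤ z₁ → 0 ≤ z₂ → 0 ≤ z₃ → 0 ≤ w → z₁ ≤ (us 0).z + r →
        z₂ ≤ (us 1).z + r → z₃ ≤ (us 2).z + r → w ≤ LN (List.ofFn ps) + N * r →
        z₁ + z₂ + z₃ + w = GrC828.LY s' → w = GrC828.LY (fun i : Fin m => s' (.inl i)) →
        NX d (Real.log X * Kf b) (Real.log X * ℓ b) l (GrC828.LY s') z₁ z₂ z₃ w ≤ V) →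
      VF (Real.exp l) (sqc g (al h s')) ≤
        GrC828.cF s' (P1l54.fam (π lam) t₀ ps us) ^ (M : ℝ) * (Ht ^ M * X ^ ε * Real.exp V) := by
  obtain ⟨σ, hσ, G⟩ := child_ex (wd_N hpu hP) h0 hA hKf hTf hD hD4 hℓ H (half_pos hε)
  refine ⟨σ, hσ, fun lam t₀ ht₀ N B => ?_⟩
  obtain ⟨M, G⟩ := G lam N B
  refine ⟨M, fun r hr => ?_⟩
  obtain ⟨X₁, hX₁, G⟩ := G r hr
  have hs0 : t₀ ≠ 0 := ht₀.1
  have hsn1 : (1 : ℝ) ≤ nm t₀ := by exact_mod_cast nm_pos.2 hs0
  have hsn : (0 : ℝ) < nm t₀ := by linarith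
  set c := 2 * Real.log (nm t₀) with hc
  have hc0 : 0 ≤ c := by have := Real.log_nonneg hsn1; positivity
  set Cd : ℝ := (I1146.ds t₀).card + 1 with hCd
  have hCd0 : 0 < Cd := by positivity
  set L₀ : ℝ := max (2 * c / σ) (2 / ε * (Real.log Cd + 4 / 3 * c)) with hL₀
  refine ⟨max X₁ (Real.exp L₀), lt_of_lt_of_le hX₁ (le_max_left _ _), ?_⟩
  intro X hX b hb m us ps κ Ht hPD g hg hgB l s' hl hch hlev V hV
  have hXX : X₁ ≤ X := (le_max_left _ _).trans hX
  have hX1 : 1 < X := lt_of_lt_of_le hX₁ hXX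
  have hX0 : 0 < X := by linarith
  have hXe : Real.exp L₀ ≤ X := (le_max_right _ _).trans hX
  set L := Real.log X with hL
  have hL0 : 0 < L := Real.log_pos hX1
  have hLL : L₀ ≤ L := (Real.le_log_iff_exp_le hX0).2 hXe
  have l2 : 2 * c ≤ σ * L := by
    have := (le_max_left _ _).trans hLL
    rw [div_le_iff₀ hσ] at this
    linarith
  have l3 : Real.log Cd + 4 / 3 * c ≤ ε / 2 * L := by
    have h1 := (le_max_right _ _).trans hLL
    have e : 2 / ε * (Real.log Cd + 4 / 3 * c) = (Real.log Cd + 4 / 3 * c) / (ε / 2) := by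
      field_simp
    rw [e, div_le_iff₀ (by positivity)] at h1
    linarith
  obtain ⟨ps', us', rfl, hp1, hp2⟩ := chF_fam hch
  have hLY : GrC828.LY (P1l54.fam (π lam) t₀ ps' us') =
      LN ([us' 0, us' 1, us' 2] ++ List.ofFn ps') := by
    rw [LY_fam, Fin.sum_univ_three]
    unfold I1146.LN
    rw [List.map_append, List.sum_append, List.map_ofFn, List.sum_ofFn]
    simp only [List.map_cons, List.map_nil, List.sum_cons, List.sum_nil]
    show _ + _ = _ + ∑ i, (ps' i).z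
    ring
  have hofn : List.ofFn us' = [us' 0, us' 1, us' 2] := by simp [List.ofFn_succ]
  have hch2 : List.Forall₂ (ChN r) ([us' 0, us' 1, us' 2] ++ List.ofFn ps')
      ([us 0, us 1, us 2] ++ List.ofFn ps) := by
    refine List.rel_append ?_ (VFa436.forall₂_ofFn _ _ hp1)
    exact List.Forall₂.cons (hp2 0) (List.Forall₂.cons (hp2 1) (List.Forall₂.cons (hp2 2)
      List.Forall₂.nil))
  rw [hLY] at hlev
  obtain ⟨z₁, z₂, z₃, w, h1, h2, h3, h4, h5, h6, h7, h8, h9, h10, h11, h12⟩ :=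
    G X hXX b hb 1 us (List.ofFn ps) κ Ht hPD g hg hgB (l + c)
      ([us' 0, us' 1, us' 2] ++ List.ofFn ps') (by linarith) hch2 (by
        have : (Tf b + (b 1 + b 2 + b 3 + b 4) + σ) * L =
          (Tf b + (b 1 + b 2 + b 3 + b 4) + σ / 2) * L + σ / 2 * L := by ring
        rw [← hL, this]
        linarith)
  rw [← hL] at h12
  have hw : w = GrC828.LY (fun i : Fin m => P1l54.fam (π lam) t₀ ps' us' (.inl i)) := by
    rw [h11]
    unfold GrC828.LY I1146.LN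
    show ((List.ofFn ps').map fun p => p.z).sum = _
    rw [List.map_ofFn, List.sum_ofFn]
    exact Finset.sum_congr rfl fun i _ => (Real.log_exp _).symm
  have hnum := hV z₁ z₂ z₃ w h1 h2 h3 h4 h5 h6 h7 h8 (by rw [hLY]; exact h9) hw
  rw [hLY] at hnum
  have hsh := NX_shift (d := d) (K := L * Kf b) (lo := L * ℓ b) (v := l)
    (n := LN ([us' 0, us' 1, us' 2] ++ List.ofFn ps')) (z₁ := z₁) (z₂ := z₂) (z₃ := z₃) (w := w)
    hc0
  -- the moment
  have hHt : 0 ≤ Ht := zero_le_one.trans hPD.H1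
  have e1 : al h (P1l54.fam (π lam) t₀ ps' us') =
      alL h (([us' 0, us' 1, us' 2] ++ List.ofFn ps').map (Pt (π lam) t₀)) := by
    rw [P1l54.al_fam, hofn]
  have hdom := I1146.dom_list (hP lam) h ht₀ g ([us' 0, us' 1, us' 2] ++ List.ofFn ps')
  have hvf := hdom.vf (Real.exp l) 0 (Real.one_le_exp hl)
  rw [tws_zero, tws_zero, Leg381.alF_natl] at hvf
  have e2 : Real.exp l * (nm t₀ : ℝ) ^ 2 = Real.exp (l + c) := by
    rw [Real.exp_add, hc, two_mul, Real.exp_add, Real.exp_log hsn]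
    ring
  rw [e2] at hvf
  have e3 : tq (fun lam => S0p (π lam) h) lam (1 * g) (l + c)
      ([us' 0, us' 1, us' 2] ++ List.ofFn ps') =
      VF (Real.exp (l + c)) (sqc g (alL h (([us' 0, us' 1, us' 2] ++ List.ofFn ps').map
        (Pq.pc (π lam))))) := by
    have := SN_eq_S0p (q := g) hg.ne_zero (π lam) h (l + c)
      ([us' 0, us' 1, us' 2] ++ List.ofFn ps')
    rw [one_mul]
    exact this.symm
  rw [e3] at h12
  rw [e1]
  have hcF : GrC828.cF (P1l54.fam (π lam) t₀ ps' us') (P1l54.fam (π lam) t₀ ps us) =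
      cN ([us' 0, us' 1, us' 2] ++ List.ofFn ps') ([us 0, us 1, us 2] ++ List.ofFn ps) :=
    cF_fam _ _ _ _
  have hcN0 : 0 ≤ cN ([us' 0, us' 1, us' 2] ++ List.ofFn ps')
      ([us 0, us 1, us 2] ++ List.ofFn ps) := I1146.cN_nonneg _ _
  rw [hcF, Real.rpow_natCast]
  refine hvf.trans ?_
  have hdc : ((I1146.ds t₀).card : ℝ) ≤ Cd := by rw [hCd]; linarith
  have h13 : Real.exp (min (min (eW (L * Kf b) (l + c)
        (LN ([us' 0, us' 1, us' 2] ++ List.ofFn ps')) w + L * ℓ b)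
        (w + (eW (L * Kf b) (l + c + w) (z₁ + z₂ + z₃) 0 + L * ℓ b)))
        (tAll d (l + c) z₁ z₂ z₃ w) + ε / 2 * L) ≤ Real.exp (V + 4 / 3 * c + ε / 2 * L) := by
    refine Real.exp_le_exp.2 ?_
    have : NX d (L * Kf b) (L * ℓ b) (l + c)
      (LN ([us' 0, us' 1, us' 2] ++ List.ofFn ps')) z₁ z₂ z₃ w ≤ V + 4 / 3 * c := by linarith
    unfold NX at this
    linarith
  have h14 : Cd * Real.exp (V + 4 / 3 * c + ε / 2 * L) ≤ X ^ ε * Real.exp V := by
    rw [Real.rpow_def_of_pos hX0, ← hL, ← Real.exp_log hCd0, ← Real.exp_add, ← Real.exp_add]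
    refine Real.exp_le_exp.2 ?_
    linarith
  have h15 : 0 ≤ (cN ([us' 0, us' 1, us' 2] ++ List.ofFn ps')
      ([us 0, us 1, us 2] ++ List.ofFn ps) * Ht) ^ M := by positivity
  calc ((I1146.ds t₀).card : ℝ) * VF (Real.exp (l + c)) _ ≤
        Cd * ((cN ([us' 0, us' 1, us' 2] ++ List.ofFn ps')
          ([us 0, us 1, us 2] ++ List.ofFn ps) * Ht) ^ M * Real.exp (V + 4 / 3 * c + ε / 2 * L)) :=
        mul_le_mul hdc (h12.trans (mul_le_mul_of_nonneg_left h13 h15)) (Rough381.VF_nonneg _ _)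
          hCd0.le
    _ = (cN ([us' 0, us' 1, us' 2] ++ List.ofFn ps') ([us 0, us 1, us 2] ++ List.ofFn ps) * Ht) ^ M
          * (Cd * Real.exp (V + 4 / 3 * c + ε / 2 * L)) := by ring
    _ ≤ (cN ([us' 0, us' 1, us' 2] ++ List.ofFn ps') ([us 0, us 1, us 2] ++ List.ofFn ps) * Ht) ^ M
          * (X ^ ε * Real.exp V) := mul_le_mul_of_nonneg_left h14 h15
    _ = _ := by rw [mul_pow]; ring

end Crest.Agent.R017.FEx436
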