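import Crest.Agent.R017.CLM_436

/-!
# Row 17, R8 / P1M: the claims on the children with the constant family (helper436)

* `clm_gen` : the moments of the children of `fam P t₀ ps us`, class N, any claim `G`
* `kV`, `NV`: the family `max K (5/7 (v + n))`, the number of a child with it
* `child_V` : `child_ex` with `NV`
* `clm_V`   : `clm_N` with `NV`
-/

set_option autoImplicit false
set_option linter.unusedSectionVars false
set_option linter.unusedVariables false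

noncomputable section

open Set

namespace Crest.Agent.R017.FEx436

open Crest.Agent.R012 Crest.Agent.R012.Eis
open Crest.Agent.R017.CM106
open Crest.Agent.R017.FE47 (PU cx SM)
open Crest.Agent.R017.ER911
open Crest.Agent.R017.B770
open Crest.Agent.R017.Prov71
open Crest.Agent.R017.TM708
open Crest.Agent.R017.TK708
open Crest.Agent.R017.E1551 (tws)
open Crest.Agent.R017.Rough381 (VF)
open Crest.Agent.R017.HP842 (Pc pc sqc al alL)
open Crest.Agent.R017.E5B71 (Pt)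
open Crest.Agent.R017.End699 (prin0)
open Crest.Agent.R017.I1146 (ChN LN cN SN FlatO FlatL Tail)

variable {Λ : Type*} {π : Λ → DPar} {h : ℝ → ℝ} {s s₀ : EF} {d : ℝ} {D5 : Set (Fin 5 → ℝ)}
  {Kf Tf ℓ : (Fin 5 → ℝ) → ℝ}

/-- **the moments of the children of a family, class N, any claim** -/
theorem clm_gen {c₀ : ℝ} (hpu : PU h c₀) (hP : ∀ lam, (π lam).OK)
    (hTf : Continuous Tf) (hD : IsCompact D5) {G : (Fin 5 → ℝ) → ℝ → ℝ → ℝ → ℝ → ℝ → ℝ}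
    (hG : ContG G) (hC : ClG (ex Dq fun lam => S0p (π lam) h) D5 Tf G)
    (hsh : ∀ (b : Fin 5 → ℝ) (v z₁ z₂ z₃ w σ : ℝ), 0 ≤ σ →
      G b (v + σ) z₁ z₂ z₃ w ≤ G b v z₁ z₂ z₃ w + 4 / 3 * σ) {ε : ℝ} (hε : 0 < ε) :
    ∃ σ : ℝ, 0 < σ ∧ ∀ (lam : Λ) (t₀ : Eis), t₀ ∈ SM (π lam).n → ∀ (N : ℕ) (B : ℝ), ∃ M : ℕ,
      ∀ r : ℝ, 0 ≤ r → ∃ X₀ : ℝ, 1 < X₀ ∧
      ∀ X : ℝ, X₀ ≤ X → ∀ b ∈ D5, ∀ (m : ℕ) (us : Fin 3 → Pq) (ps : Fin m → Pq) (κ Ht : ℝ),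
      PD X (σ / 2) B Ht N b 1 us (List.ofFn ps) κ → ∀ g : Eis, IsPrim g → (nm g : ℝ) ≤ X ^ B →
      ∀ (l : ℝ) (s' : Fin m ⊕ Fin 3 → Pc), 0 ≤ l →
      GrC828.ChF r s' (P1l54.fam (π lam) t₀ ps us) →
      l + GrC828.LY s' ≤ (Tf b + (b 1 + b 2 + b 3 + b 4) + σ / 2) * Real.log X →
      ∀ V : ℝ,
      (∀ z₁ z₂ z₃ w : ℝ, 0 ≤ z₁ → 0 ≤ z₂ → 0 ≤ z₃ → 0 ≤ w → z₁ ≤ (us 0).z + r →
        z₂ ≤ (us 1).z + r → z₃ ≤ (us 2).z + r → w ≤ LN (List.ofFn ps) + N * r →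
        z₁ + z₂ + z₃ + w = GrC828.LY s' → w = GrC828.LY (fun i : Fin m => s' (.inl i)) →
        Real.log X * G b (l / Real.log X) (z₁ / Real.log X) (z₂ / Real.log X)
          (z₃ / Real.log X) (w / Real.log X) ≤ V) →
      VF (Real.exp l) (sqc g (al h s')) ≤
        GrC828.cF s' (P1l54.fam (π lam) t₀ ps us) ^ (M : ℝ) * (Ht ^ M * X ^ ε * Real.exp V) := by
  obtain ⟨σ, hσ, G'⟩ := child_gen (wd_N hpu hP) hTf hD hG hC (half_pos hε)
  refine ⟨σ, hσ, fun lam t₀ ht₀ N B => ?_⟩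
  obtain ⟨M, G'⟩ := G' lam N B
  refine ⟨M, fun r hr => ?_⟩
  obtain ⟨X₁, hX₁, G'⟩ := G' r hr
  have hs0 : t₀ ≠ 0 := ht₀.1
  have hsn1 : (1 : ℝ) ≤ nm t₀ := by exact_mod_cast nm_pos.2 hs0
  have hsn : (0 : ℝ) < nm t₀ := by linarith
  set c := 2 * Real.log (nm t₀) with hc
  have hc0 : 0 ≤ c := by have := Real.log_nonneg hsn1; positivity
  set Cd : ℝ := (I1146.ds t₀).card + 1 with hCd
  have hCd0 : 0 < Cd := by positivity
  set L₀ : ℝ := max (2 * c / σ) (2 / ε * (Real.log Cd + 4 / 3 * c)) with hL₀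
  refine ⟨max X₁ (Real.exp L₀), lt_of_lt_of_le hX₁ (le_max_left _ _), ?_⟩
  intro X hX b hb m us ps κ Ht hPD g hg hgB l s' hl hch hlev V hV
  have hXX : X₁ ≤ X := (le_max_left _ _).trans hX
  have hX1 : 1 < X := lt_of_lt_of_le hX₁ hXX
  have hX0 : 0 < X := by linarith
  have hXe : Real.exp L₀ ≤ X := (le_max_right _ _).trans hX
  set L := Real.log X with hL
  have hL0 : 0 < L := Real.log_pos hX1
  have hLL : L₀ ≤ L := (Real.le_log_iff_exp_le hX0).2 hXe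
  have l2 : 2 * c ≤ σ * L := by
    have := (le_max_left _ _).trans hLL
    rw [div_le_iff₀ hσ] at this
    linarith
  have l3 : Real.log Cd + 4 / 3 * c ≤ ε / 2 * L := by
    have h1 := (le_max_right _ _).trans hLL
    have e : 2 / ε * (Real.log Cd + 4 / 3 * c) = (Real.log Cd + 4 / 3 * c) / (ε / 2) := by
      field_simp
    rw [e, div_le_iff₀ (by positivity)] at h1
    linarith
  obtain ⟨ps', us', rfl, hp1, hp2⟩ := chF_fam hch
  have hLY : GrC828.LY (P1l54.fam (π lam) t₀ ps' us') =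
      LN ([us' 0, us' 1, us' 2] ++ List.ofFn ps') := by
    rw [LY_fam, Fin.sum_univ_three]
    unfold I1146.LN
    rw [List.map_append, List.sum_append, List.map_ofFn, List.sum_ofFn]
    simp only [List.map_cons, List.map_nil, List.sum_cons, List.sum_nil]
    show _ + _ = _ + ∑ i, (ps' i).z
    ring
  have hofn : List.ofFn us' = [us' 0, us' 1, us' 2] := by simp [List.ofFn_succ]
  have hch2 : List.Forall₂ (ChN r) ([us' 0, us' 1, us' 2] ++ List.ofFn ps')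
      ([us 0, us 1, us 2] ++ List.ofFn ps) := by
    refine List.rel_append ?_ (VFa436.forall₂_ofFn _ _ hp1)
    exact List.Forall₂.cons (hp2 0) (List.Forall₂.cons (hp2 1) (List.Forall₂.cons (hp2 2)
      List.Forall₂.nil))
  rw [hLY] at hlev
  obtain ⟨z₁, z₂, z₃, w, h1, h2, h3, h4, h5, h6, h7, h8, h9, h10, h11, h12⟩ :=
    G' X hXX b hb 1 us (List.ofFn ps) κ Ht hPD g hg hgB (l + c)
      ([us' 0, us' 1, us' 2] ++ List.ofFn ps') (by linarith) hch2 (by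
        have : (Tf b + (b 1 + b 2 + b 3 + b 4) + σ) * L =
          (Tf b + (b 1 + b 2 + b 3 + b 4) + σ / 2) * L + σ / 2 * L := by ring
        rw [← hL, this]
        linarith)
  rw [← hL] at h12
  have hw : w = GrC828.LY (fun i : Fin m => P1l54.fam (π lam) t₀ ps' us' (.inl i)) := by
    rw [h11]
    unfold GrC828.LY I1146.LN
    show ((List.ofFn ps').map fun p => p.z).sum = _
    rw [List.map_ofFn, List.sum_ofFn]
    exact Finset.sum_congr rfl fun i _ => (Real.log_exp _).symm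
  have hnum := hV z₁ z₂ z₃ w h1 h2 h3 h4 h5 h6 h7 h8 (by rw [hLY]; exact h9) hw
  have hcL : 0 ≤ c / L := div_nonneg hc0 hL0.le
  have hsh' := hsh b (l / L) (z₁ / L) (z₂ / L) (z₃ / L) (w / L) (c / L) hcL
  have hlc : l / L + c / L = (l + c) / L := by ring
  rw [hlc] at hsh'
  have hGV : L * G b ((l + c) / L) (z₁ / L) (z₂ / L) (z₃ / L) (w / L) ≤ V + 4 / 3 * c := by
    have e1 := mul_le_mul_of_nonneg_left hsh' hL0.le
    have e2 : L * (G b (l / L) (z₁ / L) (z₂ / L) (z₃ / L) (w / L) + 4 / 3 * (c / L)) =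
        L * G b (l / L) (z₁ / L) (z₂ / L) (z₃ / L) (w / L) + 4 / 3 * c := by
      field_simp
    linarith
  -- the moment
  have hHt : 0 ≤ Ht := zero_le_one.trans hPD.H1
  have e1 : al h (P1l54.fam (π lam) t₀ ps' us') =
      alL h (([us' 0, us' 1, us' 2] ++ List.ofFn ps').map (Pt (π lam) t₀)) := by
    rw [P1l54.al_fam, hofn]
  have hdom := I1146.dom_list (hP lam) h ht₀ g ([us' 0, us' 1, us' 2] ++ List.ofFn ps')
  have hvf := hdom.vf (Real.exp l) 0 (Real.one_le_exp hl)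
  rw [tws_zero, tws_zero, Leg381.alF_natl] at hvf
  have e2 : Real.exp l * (nm t₀ : ℝ) ^ 2 = Real.exp (l + c) := by
    rw [Real.exp_add, hc, two_mul, Real.exp_add, Real.exp_log hsn]
    ring
  rw [e2] at hvf
  have e3 : tq (fun lam => S0p (π lam) h) lam (1 * g) (l + c)
      ([us' 0, us' 1, us' 2] ++ List.ofFn ps') =
      VF (Real.exp (l + c)) (sqc g (alL h (([us' 0, us' 1, us' 2] ++ List.ofFn ps').map
        (Pq.pc (π lam))))) := by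
    have := SN_eq_S0p (q := g) hg.ne_zero (π lam) h (l + c)
      ([us' 0, us' 1, us' 2] ++ List.ofFn ps')
    rw [one_mul]
    exact this.symm
  rw [e3] at h12
  rw [e1]
  have hcF : GrC828.cF (P1l54.fam (π lam) t₀ ps' us') (P1l54.fam (π lam) t₀ ps us) =
      cN ([us' 0, us' 1, us' 2] ++ List.ofFn ps') ([us 0, us 1, us 2] ++ List.ofFn ps) :=
    cF_fam _ _ _ _
  have hcN0 : 0 ≤ cN ([us' 0, us' 1, us' 2] ++ List.ofFn ps')
      ([us 0, us 1, us 2] ++ List.ofFn ps) := I1146.cN_nonneg _ _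
  rw [hcF, Real.rpow_natCast]
  refine hvf.trans ?_
  have hdc : ((I1146.ds t₀).card : ℝ) ≤ Cd := by rw [hCd]; linarith
  have h13 : Real.exp (L * G b ((l + c) / L) (z₁ / L) (z₂ / L) (z₃ / L) (w / L) + ε / 2 * L) ≤
      Real.exp (V + 4 / 3 * c + ε / 2 * L) := Real.exp_le_exp.2 (by linarith)
  have h14 : Cd * Real.exp (V + 4 / 3 * c + ε / 2 * L) ≤ X ^ ε * Real.exp V := by
    rw [Real.rpow_def_of_pos hX0, ← hL, ← Real.exp_log hCd0, ← Real.exp_add, ← Real.exp_add]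
    refine Real.exp_le_exp.2 ?_
    linarith
  have h15 : 0 ≤ (cN ([us' 0, us' 1, us' 2] ++ List.ofFn ps')
      ([us 0, us 1, us 2] ++ List.ofFn ps) * Ht) ^ M := by positivity
  calc ((I1146.ds t₀).card : ℝ) * VF (Real.exp (l + c)) _ ≤
        Cd * ((cN ([us' 0, us' 1, us' 2] ++ List.ofFn ps')
          ([us 0, us 1, us 2] ++ List.ofFn ps) * Ht) ^ M * Real.exp (V + 4 / 3 * c + ε / 2 * L)) :=
        mul_le_mul hdc (h12.trans (mul_le_mul_of_nonneg_left h13 h15)) (Rough381.VF_nonneg _ _)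
          hCd0.le
    _ = (cN ([us' 0, us' 1, us' 2] ++ List.ofFn ps') ([us 0, us 1, us 2] ++ List.ofFn ps) * Ht) ^ M
          * (Cd * Real.exp (V + 4 / 3 * c + ε / 2 * L)) := by ring
    _ ≤ (cN ([us' 0, us' 1, us' 2] ++ List.ofFn ps') ([us 0, us 1, us 2] ++ List.ofFn ps) * Ht) ^ M
          * (X ^ ε * Real.exp V) := mul_le_mul_of_nonneg_left h14 h15
    _ = _ := by rw [mul_pow]; ring

/-! ### the constant family -/

/-- the family of the flat claims : constant for `5 (v + n) ≤ 7 K` -/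
protected def kV (K v n : ℝ) : ℝ := max K (5 / 7 * (v + n))

lemma kV_eq {K v n : ℝ} (h : 5 * (v + n) ≤ 7 * K) : FEx436.kV K v n = K :=
  max_eq_left (by linarith)

lemma eHV_shift {K v n σ : ℝ} (hσ : 0 ≤ σ) :
    eH (FEx436.kV K (v + σ) n) (v + σ) n ≤ eH (FEx436.kV K v n) v n + 4 / 3 * σ := by
  unfold FEx436.kV eH eF
  have a1 := le_max_left (max K (5 / 7 * (v + n))) (3 / 2 * v)
  have a2 := le_max_right (max K (5 / 7 * (v + n))) (3 / 2 * v)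
  have a3 := le_max_left K (5 / 7 * (v + n))
  have a4 := le_max_right K (5 / 7 * (v + n))
  have h1 : max (max K (5 / 7 * (v + σ + n))) (3 / 2 * (v + σ)) ≤
      max (max K (5 / 7 * (v + n))) (3 / 2 * v) + 3 / 2 * σ :=
    max_le (max_le (by linarith) (by linarith)) (by linarith)
  have h2 := le_max_left (max (2 * n) (4 / 3 * n +
    (max (max K (5 / 7 * (v + n))) (3 / 2 * v) + v) / 3)) (v + n)
  have h3 := le_max_right (max (2 * n) (4 / 3 * n +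
    (max (max K (5 / 7 * (v + n))) (3 / 2 * v) + v) / 3)) (v + n)
  have h4 := le_max_left (2 * n) (4 / 3 * n +
    (max (max K (5 / 7 * (v + n))) (3 / 2 * v) + v) / 3)
  have h5 := le_max_right (2 * n) (4 / 3 * n +
    (max (max K (5 / 7 * (v + n))) (3 / 2 * v) + v) / 3)
  refine max_le (max_le ?_ ?_) ?_ <;> linarith

/-- **the number of a child, constant family** -/
def NV (d K lo v n z₁ z₂ z₃ w : ℝ) : ℝ :=
  min (min (eH (FEx436.kV K v n) v n + lo)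
    (w + (eH (FEx436.kV K v n) (v + w) (z₁ + z₂ + z₃) + lo))) (tAll d v z₁ z₂ z₃ w)

lemma NV_const {d K lo v n z₁ z₂ z₃ w : ℝ} (h : 5 * (v + n) ≤ 7 * K) :
    NV d K lo v n z₁ z₂ z₃ w = min (min (eH K v n + lo)
      (w + (eH K (v + w) (z₁ + z₂ + z₃) + lo))) (tAll d v z₁ z₂ z₃ w) := by
  unfold NV
  rw [kV_eq h]

/-- the two flat bounds at `n = z₁ + z₂ + z₃ + w` -/
lemma kV_ex {K v z₁ z₂ z₃ w : ℝ} :
    FEx436.kV K (v + w) (z₁ + z₂ + z₃) = FEx436.kV K v (z₁ + z₂ + z₃ + w) := by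
  unfold FEx436.kV
  have : v + w + (z₁ + z₂ + z₃) = v + (z₁ + z₂ + z₃ + w) := by ring
  rw [this]

lemma NV_shift {d K lo v n z₁ z₂ z₃ w σ : ℝ} (hn : z₁ + z₂ + z₃ + w = n) (hσ : 0 ≤ σ) :
    NV d K lo (v + σ) n z₁ z₂ z₃ w ≤ NV d K lo v n z₁ z₂ z₃ w + 4 / 3 * σ := by
  subst hn
  unfold NV
  rw [← min_add_add_right, ← min_add_add_right]
  have h1 := eHV_shift (K := K) (v := v) (n := z₁ + z₂ + z₃ + w) hσ
  have h2 := eHV_shift (K := K) (v := v + w) (n := z₁ + z₂ + z₃) hσ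
  have h3 := tAll_shift (d := d) (v := v) (z₁ := z₁) (z₂ := z₂) (z₃ := z₃) (w := w) hσ
  have e : v + w + σ = v + σ + w := by ring
  have e1 : FEx436.kV K (v + σ + w) (z₁ + z₂ + z₃) = FEx436.kV K (v + σ) (z₁ + z₂ + z₃ + w) :=
    kV_ex
  have e2 : FEx436.kV K (v + w) (z₁ + z₂ + z₃) = FEx436.kV K v (z₁ + z₂ + z₃ + w) := kV_ex
  rw [e, e1, e2] at h2
  exact min_le_min (min_le_min (by linarith) (by linarith)) (by linarith)

lemma NV_hom {L : ℝ} (hL : 0 < L) (d K lo v n z₁ z₂ z₃ w : ℝ) :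
    L * NV d K lo (v / L) (n / L) (z₁ / L) (z₂ / L) (z₃ / L) (w / L) =
      NV d (L * K) (L * lo) v n z₁ z₂ z₃ w := by
  have e0 : ∀ y : ℝ, L * (y / L) = y := fun y => by field_simp
  have hk : L * FEx436.kV K (v / L) (n / L) = FEx436.kV (L * K) v n := by
    unfold FEx436.kV
    rw [mul_max_of_nonneg _ _ hL.le]
    congr 1
    have : L * (5 / 7 * (v / L + n / L)) = 5 / 7 * (L * (v / L) + L * (n / L)) := by ring
    rw [this, e0, e0]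
  have e1 : L * eH (FEx436.kV K (v / L) (n / L)) (v / L) (n / L) =
      eH (FEx436.kV (L * K) v n) v n := by
    rw [← eH_hom hL.le, hk, e0, e0]
  have e2 : L * eH (FEx436.kV K (v / L) (n / L)) (v / L + w / L) (z₁ / L + z₂ / L + z₃ / L) =
      eH (FEx436.kV (L * K) v n) (v + w) (z₁ + z₂ + z₃) := by
    rw [← eH_hom hL.le, hk, mul_add, mul_add, mul_add, e0, e0, e0, e0, e0]
  have e3 : L * tAll d (v / L) (z₁ / L) (z₂ / L) (z₃ / L) (w / L) = tAll d v z₁ z₂ z₃ w := by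
    rw [← tAll_hom hL.le, e0, e0, e0, e0, e0]
  unfold NV
  rw [mul_min_of_nonneg _ _ hL.le, mul_min_of_nonneg _ _ hL.le, e3]
  congr 2
  · rw [mul_add, e1]
  · rw [mul_add, mul_add, e0, e2]

/-- **the claim of the flat claims with the constant family** -/
theorem clG_NV (h0 : ExpS0 s s₀) (hA : AllT d s₀)
    (H : ClG s₀ D5 Tf fun b v z₁ z₂ z₃ w =>
      eH (FEx436.kV (Kf b) v (z₁ + z₂ + z₃ + w)) v (z₁ + z₂ + z₃ + w) + ℓ b)
    (hD4 : ∀ b ∈ D5, 0 ≤ b 4) :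
    ClG s₀ D5 Tf fun b v z₁ z₂ z₃ w =>
      NV d (Kf b) (ℓ b) v (z₁ + z₂ + z₃ + w) z₁ z₂ z₃ w := by
  refine clG_min (clG_min H ?_) (clG_tAll hA)
  have h1 := clG_ex (F := fun b v z₁ z₂ z₃ =>
    eH (FEx436.kV (Kf b) v (z₁ + z₂ + z₃)) v (z₁ + z₂ + z₃) + ℓ b) h0 (D5 := D5) (Tf := Tf) ?_
  · refine clG_mono h1 ?_
    intro b hb v z₁ z₂ z₃ w _ _ _ _ _ _ _ _ _ _
    show w + (eH (FEx436.kV (Kf b) (v + w) (z₁ + z₂ + z₃)) (v + w) (z₁ + z₂ + z₃) + ℓ b) ≤ _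
    rw [kV_ex]
  · intro b hb v z₁ z₂ z₃ hv h1 h1' h2 h2' h3 h3' hlev
    have := H b hb v z₁ z₂ z₃ 0 hv h1 h1' h2 h2' h3 h3' le_rfl (hD4 b hb)
      (by rw [add_zero]; exact hlev)
    simp only [add_zero] at this
    exact this

lemma contG_NV (hKf : Continuous Kf) (hℓ : Continuous ℓ) :
    ContG fun b v z₁ z₂ z₃ w => NV d (Kf b) (ℓ b) v (z₁ + z₂ + z₃ + w) z₁ z₂ z₃ w := by
  have hb : Continuous fun p : (Fin 5 → ℝ) × ℝ × ℝ × ℝ × ℝ × ℝ => Kf p.1 :=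
    hKf.comp continuous_fst
  have hl : Continuous fun p : (Fin 5 → ℝ) × ℝ × ℝ × ℝ × ℝ × ℝ => ℓ p.1 :=
    hℓ.comp continuous_fst
  have hT := contG_tAll d
  unfold ContG at *
  unfold NV
  refine Continuous.min (Continuous.min (Continuous.add ?_ hl)
    (Continuous.add (by fun_prop) (Continuous.add ?_ hl))) hT
  · unfold FEx436.kV eH eF
    fun_prop
  · unfold FEx436.kV eH eF
    fun_prop

variable {Φ : Λ → ℝ → List Pq → ℝ}

/-- **the moments of the children, with extraction, constant family** -/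
theorem child_V (hW : Wd Φ) (h0 : ExpS0 s (ex Dq Φ)) (hA : AllT d (ex Dq Φ))
    (hKf : Continuous Kf) (hTf : Continuous Tf) (hD : IsCompact D5)
    (hD4 : ∀ b ∈ D5, 0 ≤ b 4) (hℓ : Continuous ℓ)
    (H : ClG (ex Dq Φ) D5 Tf fun b v z₁ z₂ z₃ w =>
      eH (FEx436.kV (Kf b) v (z₁ + z₂ + z₃ + w)) v (z₁ + z₂ + z₃ + w) + ℓ b)
    {ε : ℝ} (hε : 0 < ε) :
    ∃ σ : ℝ, 0 < σ ∧ ∀ (lam : Λ) (N : ℕ) (B : ℝ), ∃ M : ℕ, ∀ r : ℝ, 0 ≤ r → ∃ X₀ : ℝ, 1 < X₀ ∧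
      ∀ X : ℝ, X₀ ≤ X → ∀ b ∈ D5, ∀ (q : Eis) (us : Fin 3 → Pq) (gs : List Pq) (κ H : ℝ),
      PD X (σ / 2) B H N b q us gs κ → ∀ g : Eis, IsPrim g → (nm g : ℝ) ≤ X ^ B →
      ∀ (l : ℝ) (ps' : List Pq), 0 ≤ l →
      List.Forall₂ (ChN r) ps' ([us 0, us 1, us 2] ++ gs) →
      l + LN ps' ≤ (Tf b + (b 1 + b 2 + b 3 + b 4) + σ) * Real.log X →
      ∃ z₁ z₂ z₃ w : ℝ, 0 ≤ z₁ ∧ 0 ≤ z₂ ∧ 0 ≤ z₃ ∧ 0 ≤ w ∧ z₁ ≤ (us 0).z + r ∧
        z₂ ≤ (us 1).z + r ∧ z₃ ≤ (us 2).z + r ∧ w ≤ LN gs + N * r ∧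
        z₁ + z₂ + z₃ + w = LN ps' ∧ (ps'.take 3).map Pq.z = [z₁, z₂, z₃] ∧
        w = LN (ps'.drop 3) ∧
        tq Φ lam (q * g) l ps' ≤ (cN ps' ([us 0, us 1, us 2] ++ gs) * H) ^ M *
          Real.exp (NV d (Real.log X * Kf b) (Real.log X * ℓ b) l (LN ps') z₁ z₂ z₃ w +
            ε * Real.log X) := by
  obtain ⟨σ, hσ, G⟩ := child_gen hW hTf hD (contG_NV (d := d) hKf hℓ) (clG_NV h0 hA H hD4) hε
  refine ⟨σ, hσ, fun lam N B => ?_⟩
  obtain ⟨M, G⟩ := G lam N B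
  refine ⟨M, fun r hr => ?_⟩
  obtain ⟨X₀, hX₀, G⟩ := G r hr
  refine ⟨X₀, hX₀, fun X hX b hb q us gs κ H hPD g hg hgB l ps' hl hch hlev => ?_⟩
  obtain ⟨z₁, z₂, z₃, w, h1, h2, h3, h4, h5, h6, h7, h8, h9, h10, h11, h12⟩ :=
    G X hX b hb q us gs κ H hPD g hg hgB l ps' hl hch hlev
  refine ⟨z₁, z₂, z₃, w, h1, h2, h3, h4, h5, h6, h7, h8, h9, h10, h11, h12.trans (le_of_eq ?_)⟩
  have hX1 : 1 < X := hX₀.trans_le hX
  have hL : 0 < Real.log X := Real.log_pos hX1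
  have e3 : z₁ / Real.log X + z₂ / Real.log X + z₃ / Real.log X + w / Real.log X =
      LN ps' / Real.log X := by
    rw [← h9]; ring
  rw [e3, NV_hom hL]

/-- **the moments of the children of a family, class N, constant family** -/
theorem clm_V {c₀ : ℝ} (hpu : PU h c₀) (hP : ∀ lam, (π lam).OK)
    (h0 : ExpS0 s (ex Dq fun lam => S0p (π lam) h)) (hA : AllT d (ex Dq fun lam => S0p (π lam) h))
    (hKf : Continuous Kf) (hTf : Continuous Tf) (hD : IsCompact D5)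
    (hD4 : ∀ b ∈ D5, 0 ≤ b 4) (hℓ : Continuous ℓ)
    (H : ClG (ex Dq fun lam => S0p (π lam) h) D5 Tf fun b v z₁ z₂ z₃ w =>
      eH (FEx436.kV (Kf b) v (z₁ + z₂ + z₃ + w)) v (z₁ + z₂ + z₃ + w) + ℓ b)
    {ε : ℝ} (hε : 0 < ε) :
    ∃ σ : ℝ, 0 < σ ∧ ∀ (lam : Λ) (t₀ : Eis), t₀ ∈ SM (π lam).n → ∀ (N : ℕ) (B : ℝ), ∃ M : ℕ,
      ∀ r : ℝ, 0 ≤ r → ∃ X₀ : ℝ, 1 < X₀ ∧
      ∀ X : ℝ, X₀ ≤ X → ∀ b ∈ D5, ∀ (m : ℕ) (us : Fin 3 → Pq) (ps : Fin m → Pq) (κ Ht : ℝ),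
      PD X (σ / 2) B Ht N b 1 us (List.ofFn ps) κ → ∀ g : Eis, IsPrim g → (nm g : ℝ) ≤ X ^ B →
      ∀ (l : ℝ) (s' : Fin m ⊕ Fin 3 → Pc), 0 ≤ l →
      GrC828.ChF r s' (P1l54.fam (π lam) t₀ ps us) →
      l + GrC828.LY s' ≤ (Tf b + (b 1 + b 2 + b 3 + b 4) + σ / 2) * Real.log X →
      ∀ V : ℝ,
      (∀ z₁ z₂ z₃ w : ℝ, 0 ≤ z₁ → 0 ≤ z₂ → 0 ≤ z₃ → 0 ≤ w → z₁ ≤ (us 0).z + r →
        z₂ ≤ (us 1).z + r → z₃ ≤ (us 2).z + r → w ≤ LN (List.ofFn ps) + N * r →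
        z₁ + z₂ + z₃ + w = GrC828.LY s' → w = GrC828.LY (fun i : Fin m => s' (.inl i)) →
        NV d (Real.log X * Kf b) (Real.log X * ℓ b) l (GrC828.LY s') z₁ z₂ z₃ w ≤ V) →
      VF (Real.exp l) (sqc g (al h s')) ≤
        GrC828.cF s' (P1l54.fam (π lam) t₀ ps us) ^ (M : ℝ) * (Ht ^ M * X ^ ε * Real.exp V) := by
  obtain ⟨σ, hσ, G⟩ := clm_gen (π := π) (h := h) hpu hP hTf hD (contG_NV (d := d) hKf hℓ)
    (clG_NV h0 hA H hD4) (fun b v z₁ z₂ z₃ w σ hσ => NV_shift rfl hσ) hε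
  refine ⟨σ, hσ, fun lam t₀ ht₀ N B => ?_⟩
  obtain ⟨M, G⟩ := G lam t₀ ht₀ N B
  refine ⟨M, fun r hr => ?_⟩
  obtain ⟨X₀, hX₀, G⟩ := G r hr
  refine ⟨X₀, hX₀, fun X hX b hb m us ps κ Ht hPD g hg hgB l s' hl hch hlev V hV => ?_⟩
  refine G X hX b hb m us ps κ Ht hPD g hg hgB l s' hl hch hlev V ?_
  intro z₁ z₂ z₃ w h1 h2 h3 h4 h5 h6 h7 h8 h9 h10
  have hL : 0 < Real.log X := Real.log_pos (hX₀.trans_le hX)
  have e3 : z₁ / Real.log X + z₂ / Real.log X + z₃ / Real.log X + w / Real.log X =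
      GrC828.LY s' / Real.log X := by
    rw [← h9]; ring
  show Real.log X * NV d (Kf b) (ℓ b) (l / Real.log X) (z₁ / Real.log X + z₂ / Real.log X +
    z₃ / Real.log X + w / Real.log X) (z₁ / Real.log X) (z₂ / Real.log X) (z₃ / Real.log X)
    (w / Real.log X) ≤ V
  rw [e3, NV_hom hL]
  exact hV z₁ z₂ z₃ w h1 h2 h3 h4 h5 h6 h7 h8 h9 h10

end Crest.Agent.R017.FEx436
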