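import Crest.Agent.R017.ExRed_848

/-!
# Row 17, exceptional class: reduction to principal Möbius character (helper848), part 4

* `red_ok` : the reduced data are admissible (`CaseX`, or `CaseD` for zero weight)
* `red_cases`, `red_exc`, `red_red_φ`
-/

set_option autoImplicit false

noncomputable section

open Complex
open scoped ComplexConjugate

namespace Crest.Agent.R017.Red848

open Crest.Agent.R012 Crest.Agent.R012.Eis
open Crest.Agent.R017.FE47 Crest.Agent.R017.End699
open Crest.Agent.R017.Sup271
open Crest.Agent.R017.B770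

variable {P : DPar}

/-- exceptional data are not of class (R) -/
lemma Exc.not_caseR (hψ : HC P.n P.ψ) (hE : Exc P) : ¬ P.CaseR := by
  obtain ⟨k₀, hs⟩ := exists_sh hψ hE
  exact fun h => h.l₂ne hs.l₂

theorem red_cases (hP : P.OK) (hE : Exc P) : (red P).CaseX ∨ (red P).CaseD := by
  rcases hP.cases with h | h | h | h
  · exact Or.inl ⟨h.1, rfl, h.2.1, rfl, h.2.2.2⟩
  · exact absurd h (hE.not_caseR hP.ψ)
  · exact Or.inl ⟨h.1, rfl, h.2.2.1, rfl, h.2.2.2.2⟩
  · exact Or.inr h

/-- **the reduced data are admissible** -/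
theorem red_ok (hP : P.OK) (hE : Exc P) : (red P).OK where
  h₀ := hP.h₀
  h := hP.h
  V := hP.V
  U := hP.U
  n36 := hP.n36
  φ := hc_mul hP.φ hP.ψ
  ψ := hc_prin0 hP.ψ.q0 hP.ψ.three
  χ₃ := hP.χ₃
  rad := hP.rad
  cases := Or.inr (Or.inr (red_cases hP hE))

/-- the reduced data are exceptional -/
theorem red_exc : Exc (red P) := by
  refine ⟨1, one_ne_zero, ?_⟩
  rintro (h | ⟨a, ha, hc, hne⟩)
  · exact h rfl
  · refine hne ?_
    have h1 : IsCoprime a P.n := hc.of_mul_right_left
    show prin0 P.n a * sy 1 a = 1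
    unfold End699.prin0
    rw [if_pos h1, one_mul]
    exact Char766.sy_one_left ha

end Crest.Agent.R017.Red848
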