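import Crest.Agent.R017.E2b_440
import Crest.Agent.R017.PX1_764
import Crest.Agent.R012.TauDef_85

/-!
# Row 17, block C70, leaf E2, part c (helper440): theta sums = natural cubic series

`TS M r φ = Σ_{k primary, prime to M} th (r k) φ k`, `th = PX764.th` the normalised theta
coefficients (all frequencies).

* `TH` : `TS M (h a) φ = th (h a) * NT M (h a) (N^(-2/3) φ)` (`a` squarefree, `h` without primes
  prime to `M`)
* `TS_sq` : `TS M (u p²) φ = TS M u (φ (p ·))`
-/

set_option autoImplicit false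
set_option linter.unusedVariables false
set_option linter.unusedSectionVars false

noncomputable section

open Complex
open scoped ComplexConjugate

namespace Crest.Agent.R017.E2440

open Crest.Agent.R012 Crest.Agent.R012.Eis Crest.Agent.R012.GaussLoc283
open Crest.Agent.R012.Tau85 (TP cp)
open Crest.Agent.R017.Sx545 (Sm)
open Crest.Agent.R017.PX764 (th Gh n6)

/-! ### a bound for the theta coefficients -/

lemma exists_norm_th_le : ∃ B : ℝ, 0 ≤ B ∧ ∀ h : Eis, h ≠ 0 → ‖th h‖ ≤ B := by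
  classical
  set S : Finset Eis := (Finset.range 3 ×ˢ Finset.range 3).image (fun q => w ^ q.1 * lam ^ q.2)
  have h0 : ∀ x ∈ S, ‖th x‖ ≤ ∑ y ∈ S, ‖th y‖ := fun x hx =>
    Finset.single_le_sum (f := fun y => ‖th y‖) (fun y _ => norm_nonneg _) hx
  have hlam : ∀ (k : ℕ) (x : Eis), th (lam ^ k * x) = th (lam ^ (k % 3) * x) := by
    intro k
    induction k using Nat.strong_induction_on with
    | _ k ih =>
      intro x
      rcases lt_or_ge k 3 with h3 | h3
      · rw [Nat.mod_eq_of_lt h3]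
      · obtain ⟨i, rfl⟩ := Nat.exists_eq_add_of_le h3
        rw [show lam ^ (3 + i) * x = lam ^ 3 * (lam ^ i * x) by ring, PX764.th_lam3,
          ih i (by omega), Nat.add_mod_left]
  refine ⟨∑ y ∈ S, ‖th y‖, Finset.sum_nonneg fun y _ => norm_nonneg _, fun h hh => ?_⟩
  obtain ⟨k, u, m, hu, hm, rfl⟩ := CharSum852.exists_decomp hh
  -- the part without `m`
  have hbase : ‖th (lam ^ k * u)‖ ≤ ∑ y ∈ S, ‖th y‖ := by
    rw [hlam]
    obtain ⟨i, hi, rfl | rfl⟩ := isUnit_exists hu
    · apply h0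
      refine Finset.mem_image.mpr ⟨(i, k % 3), ?_, by ring⟩
      rw [Finset.mem_product, Finset.mem_range, Finset.mem_range]
      exact ⟨by omega, Nat.mod_lt _ (by norm_num)⟩
    · rw [show lam ^ (k % 3) * -w ^ i = -(w ^ i * lam ^ (k % 3)) by ring, PX764.th_neg]
      apply h0
      refine Finset.mem_image.mpr ⟨(i, k % 3), ?_, rfl⟩
      rw [Finset.mem_product, Finset.mem_range, Finset.mem_range]
      exact ⟨by omega, Nat.mod_lt _ (by norm_num)⟩
  have hprime : ∀ p : Eis, Prime p → IsPrim p → ¬ p ∣ lam ^ k * u := by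
    intro p hp hpp hd
    rcases hp.dvd_or_dvd hd with h1 | h1
    · have h2 : p ∣ lam := hp.dvd_of_dvd_pow h1
      have h3 := (hp.associated_of_dvd prime_lam h2)
      exact hpp.not_lam_dvd h3.symm.dvd
    · exact hp.not_isUnit (isUnit_of_dvd_unit h1 hu)
  rw [show lam ^ k * (u * m) = (lam ^ k * u) * m by ring]
  have key : ∀ c, Sm 1 c → ∀ r : Eis, (∀ p : Eis, Prime p → IsPrim p → p ∣ c → ¬ p ∣ r) →
      ‖th (r * c)‖ ≤ ‖th r‖ := by
    refine Sm.induction_coprime (m := 1) ?_ ?_
    · intro r _; rw [mul_one]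
    · intro p j b hp hpp hj hb hpb ih r hr
      have hpr : ¬ p ∣ r := hr p hpp hp.prim (dvd_mul_of_dvd_left (dvd_pow_self p (by omega)) b)
      have hprb : ¬ p ∣ r * b := fun hd => (hpp.dvd_or_dvd hd).elim hpr hpb
      have hb' := ih r (fun q hq hqp hqb => hr q hq hqp (dvd_mul_of_dvd_right hqb _))
      have hpow : ∀ (i : ℕ) (x : Eis), th (x * p ^ (3 * i)) = th x := by
        intro i x
        rw [show x * p ^ (3 * i) = x * (p ^ i) ^ 3 by ring, PX764.th_cube (hp.prim.pow i)]
      obtain ⟨i, t, ht, rfl⟩ : ∃ i t, t < 3 ∧ j = 3 * i + t :=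
        ⟨j / 3, j % 3, Nat.mod_lt _ (by norm_num), (Nat.div_add_mod j 3).symm⟩
      have e1 : r * (p ^ (3 * i + t) * b) = (r * b * p ^ t) * p ^ (3 * i) := by ring
      rw [e1, hpow]
      interval_cases t
      · rw [pow_zero, mul_one]; exact hb'
      · rw [pow_one, PX764.th_mul hp.prim hpp.squarefree ((cop_iff hpp _).mpr hprb), norm_mul,
          norm_mul, RCLike.norm_conj, Complex.norm_real]
        have h1 : ‖Gh (r * b) p‖ = 1 :=
          PX764.norm_Gh_one hp.prim hpp.squarefree ((cop_iff hpp _).mpr hprb)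
        have h2 : ‖n6 p‖ ≤ 1 := by
          rw [Real.norm_of_nonneg (PX764.n6_pos hp.ne_zero).le]
          exact PX764.n6_le_one hp.ne_zero
        rw [h1, one_mul]
        calc ‖n6 p‖ * ‖th (r * b)‖ ≤ 1 * ‖th (r * b)‖ :=
              mul_le_mul_of_nonneg_right h2 (norm_nonneg _)
          _ ≤ _ := by rw [one_mul]; exact hb'
      · rw [PX764.th_two hpp hp.prim hprb, norm_zero]
        exact norm_nonneg _
  exact (key m (Sx545.sm_one_iff.mpr hm) _ (fun p hp hpp _ => hprime p hp hpp)).trans hbase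

/-- the bound -/
def Bth : ℝ := Classical.choose exists_norm_th_le

lemma Bth_nonneg : 0 ≤ Bth := (Classical.choose_spec exists_norm_th_le).1

lemma norm_th_le {h : Eis} (hh : h ≠ 0) : ‖th h‖ ≤ Bth :=
  (Classical.choose_spec exists_norm_th_le).2 h hh

/-! ### theta sums -/

/-- theta sums -/
def TS (M r : Eis) (φ : Eis → ℂ) : ℂ := by
  classical
  exact ∑' k : Eis, if Sm M k then th (r * k) * φ k else 0

open Classical in
lemma ts_term_le {M r : Eis} (hr : r ≠ 0) {φ : Eis → ℂ} {C : ℝ} (hC0 : 0 ≤ C)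
    (hC : ∀ k, k ≠ 0 → ‖φ k‖ ≤ C * ((nm k : ℝ) ^ 3)⁻¹) (k : Eis) :
    ‖if Sm M k then th (r * k) * φ k else 0‖ ≤ (Bth * C) * ((nm k : ℝ) ^ 2)⁻¹ := by
  split_ifs with h
  · have h1 := one_le_nm h.ne_zero
    rw [norm_mul, mul_assoc]
    refine mul_le_mul (norm_th_le (mul_ne_zero hr h.ne_zero)) ((hC k h.ne_zero).trans ?_)
      (norm_nonneg _) Bth_nonneg
    apply mul_le_mul_of_nonneg_left _ hC0
    apply inv_anti₀ (by positivity)
    exact pow_le_pow_right₀ h1 (by norm_num)
  · rw [norm_zero]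
    have := Bth_nonneg
    positivity

open Classical in
lemma summable_TS {M r : Eis} (hr : r ≠ 0) {φ : Eis → ℂ} (h : Dcy φ) :
    Summable (fun k : Eis => if Sm M k then th (r * k) * φ k else 0) := by
  obtain ⟨C, hC0, hC⟩ := h.nonneg
  exact Summable.of_norm_bounded (summable_nm2.mul_left (Bth * C)) (ts_term_le hr hC0 hC)

lemma norm_TS_le {M r : Eis} (hr : r ≠ 0) {φ : Eis → ℂ} {C : ℝ} (hC0 : 0 ≤ C)
    (hC : ∀ k, k ≠ 0 → ‖φ k‖ ≤ C * ((nm k : ℝ) ^ 3)⁻¹) : ‖TS M r φ‖ ≤ (Bth * C) * K0 := by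
  classical
  unfold TS K0
  rw [← tsum_mul_left]
  exact tsum_of_norm_bounded (summable_nm2.mul_left (Bth * C)).hasSum (ts_term_le hr hC0 hC)

/-- `N(k)^(-2/3)` -/
def n23 (k : Eis) : ℂ := (((nm k : ℝ) ^ (-(2 / 3 : ℝ)) : ℝ) : ℂ)

lemma n23_mul (a b : Eis) : n23 (a * b) = n23 a * n23 b := by
  unfold n23
  rw [nm_mul]
  push_cast
  rw [← Complex.ofReal_mul, ← Real.mul_rpow (Nat.cast_nonneg _) (Nat.cast_nonneg _)]

lemma n23_cube {e : Eis} (he : e ≠ 0) : (nm e : ℂ) ^ 2 * n23 (e ^ 3) = 1 := by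
  unfold n23
  have h0 : (0 : ℝ) < nm e := by exact_mod_cast nm_pos.2 he
  rw [nm_pow]
  push_cast
  rw [← Complex.ofReal_natCast, ← Complex.ofReal_pow, ← Complex.ofReal_mul]
  rw [← Real.rpow_natCast (nm e : ℝ) 3, ← Real.rpow_mul h0.le, ← Real.rpow_natCast (nm e : ℝ) 2,
    ← Real.rpow_add h0]
  norm_num

lemma norm_n23_le {k : Eis} (hk : k ≠ 0) : ‖n23 k‖ ≤ 1 := by
  unfold n23
  rw [Complex.norm_real, Real.norm_of_nonneg (by positivity)]
  exact Real.rpow_le_one_of_one_le_of_nonpos (one_le_nm hk) (by norm_num)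

lemma Dcy.n23 {φ : Eis → ℂ} (h : Dcy φ) : Dcy (fun k => n23 k * φ k) :=
  h.mul_bdd fun k hk => norm_n23_le hk

/-- the frequencies without primes prime to `M` -/
def NoP (M h : Eis) : Prop := h ≠ 0 ∧ ∀ p : Eis, Prime p → Sm M p → ¬ p ∣ h

lemma NoP.coprime {M h : Eis} (H : NoP M h) {c : Eis} (hc : Sm M c) : IsCoprime h c := by
  refine isCoprime_of_prime_dvd (fun h0 => H.1 h0.1) (fun p hp hph hpc => ?_)
  have hlam : ¬ lam ∣ p := fun hl => hc.not_lam_dvd (hl.trans hpc)
  obtain ⟨u, hu⟩ := exists_unit_mul_isPrim hlam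
  have hup : Prime ((u : Eis) * p) := (Associated.prime_iff ⟨u, mul_comm _ _⟩).mp hp
  exact H.2 _ hup (hc.of_dvd hu ((Units.mul_left_dvd).mpr hpc)) ((Units.mul_left_dvd).mpr hph)

/-! ### the base case -/

lemma gs_NoP {M h d : Eis} (H : NoP M h) (hd : Sm M d) (hs : Squarefree d) :
    gs h d = ((Real.sqrt (nm d) : ℝ) : ℂ) * Gh h d := by
  rw [Gauss880.gs_eq_G Gauss880.syG hd.prim hs]
  unfold Gh
  ring

lemma sm_cp {M : Eis} {q : Eis × Eis} (hq : q ∈ TP) : Sm M (cp q) ↔ Sm M q.1 ∧ Sm M q.2 := by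
  unfold Sm
  rw [Tau85.isCoprime_cp]
  have h1 := Tau85.cp_isPrim hq
  have h2 := hq.1
  have h3 := hq.2.2
  tauto

/-- primary elements which are not `a₀ m³` : some prime with exponent `2 mod 3` -/
lemma th_eq_zero_of_not_TP {M h : Eis} (H : NoP M h) {k : Eis} (hk : Sm M k)
    (hz : ∀ q ∈ TP, cp q ≠ k) : th (h * k) = 0 := by
  -- induction over prime powers: either `k` is of the form `cp q` or the value vanishes
  have key : ∀ c, Sm M c → ∀ r : Eis, (∀ p : Eis, Prime p → Sm M p → p ∣ c → ¬ p ∣ r) →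
      (∃ q ∈ TP, cp q = c) ∨ th (r * c) = 0 := by
    refine Sm.induction_coprime (m := M) ?_ ?_
    · intro r _
      exact Or.inl ⟨(1, 1), ⟨isPrim_one, squarefree_one, isPrim_one⟩, by simp [cp]⟩
    · intro p j b hp hpp hj hb hpb ih r hr
      have hpr : ¬ p ∣ r := hr p hpp hp (dvd_mul_of_dvd_left (dvd_pow_self p (by omega)) b)
      have hprb : ¬ p ∣ r * b := fun hd => (hpp.dvd_or_dvd hd).elim hpr hpb
      have hpow : ∀ (i : ℕ) (x : Eis), th (x * p ^ (3 * i)) = th x := by
        intro i x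
        rw [show x * p ^ (3 * i) = x * (p ^ i) ^ 3 by ring, PX764.th_cube (hp.prim.pow i)]
      obtain ⟨i, t, ht, rfl⟩ : ∃ i t, t < 3 ∧ j = 3 * i + t :=
        ⟨j / 3, j % 3, Nat.mod_lt _ (by norm_num), (Nat.div_add_mod j 3).symm⟩
      have e1 : r * (p ^ (3 * i + t) * b) = (r * b * p ^ t) * p ^ (3 * i) := by ring
      rw [e1, hpow]
      interval_cases t
      · rcases ih r (fun q hq hqp hqb => hr q hq hqp (dvd_mul_of_dvd_right hqb _)) with h1 | h1
        · obtain ⟨q, hq, hqb⟩ := h1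
          refine Or.inl ⟨(q.1, q.2 * p ^ i), ⟨hq.1, hq.2.1, hq.2.2.mul (hp.prim.pow i)⟩, ?_⟩
          rw [← hqb]
          unfold cp
          ring
        · right
          rw [pow_zero, mul_one]; exact h1
      · rcases ih (r * p) (fun q hq hqp hqb hd => by
            rcases hq.dvd_or_dvd hd with h2 | h2
            · exact hr q hq hqp (dvd_mul_of_dvd_right hqb _) h2
            · have h3 : q = p := by
                have h4 : Associated q p := hq.associated_of_dvd hpp h2
                exact hqp.prim.eq_of_associated hp.prim h4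
              exact hpb (h3 ▸ hqb)) with h1 | h1
        · obtain ⟨q, hq, hqb⟩ := h1
          have hpq : ¬ p ∣ q.1 := fun hd => hpb (by
            rw [← hqb]; unfold cp; exact dvd_mul_of_dvd_left hd _)
          refine Or.inl ⟨(p * q.1, q.2 * p ^ i), ⟨hp.prim.mul hq.1, ?_,
            hq.2.2.mul (hp.prim.pow i)⟩, ?_⟩
          · exact (PX764.sqf_mul ((cop_iff hpp _).mpr hpq).symm).mpr ⟨hpp.squarefree, hq.2.1⟩
          · rw [← hqb]
            unfold cp
            ring
        · right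
          rw [pow_one, show r * b * p = r * p * b by ring]; exact h1
      · right
        exact PX764.th_two hpp hp.prim hprb
  rcases key k hk h (fun p hp hpp _ => H.2 p hp hpp) with h1 | h1
  · obtain ⟨q, hq, hqk⟩ := h1
    exact absurd hqk (hz q hq)
  · exact h1

lemma sqrt_n23 {d : Eis} (hd : d ≠ 0) : ((Real.sqrt (nm d) : ℝ) : ℂ) * n23 d = (n6 d : ℂ) := by
  unfold n23 n6
  have h0 : (0 : ℝ) < nm d := by exact_mod_cast nm_pos.2 hd
  rw [← Complex.ofReal_mul, Real.sqrt_eq_rpow, ← Real.rpow_add h0]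
  norm_num

open Classical in
theorem TH_base {M h : Eis} (H : NoP M h) {φ : Eis → ℂ} (hφ : Dcy φ) :
    TS M h φ = th h * NT M h (fun k => n23 k * φ k) := by
  set f : Eis → ℂ := fun k => if Sm M k then th (h * k) * φ k else 0 with hf
  have hfz : ∀ a, (∀ q ∈ TP, cp q ≠ a) → f a = 0 := by
    intro a ha
    rw [hf]
    by_cases h1 : Sm M a
    · simp only [if_pos h1]
      rw [th_eq_zero_of_not_TP H h1 ha, zero_mul]
    · simp only [if_neg h1]
  have hsum : Summable f := summable_TS H.1 hφ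
  have hsub : Summable (fun q : TP => f (cp q.1)) := (Tau85.summable_TP_iff f hfz).mpr hsum
  set F : Eis × Eis → ℂ := fun q => if q ∈ TP then f (cp q) else 0 with hF
  have hFs : Summable F := by
    have h1 : Summable (Set.indicator TP (fun q => f (cp q))) :=
      summable_subtype_iff_indicator.mp hsub
    refine h1.congr fun q => ?_
    rw [hF, Set.indicator_apply]
  have e1 : TS M h φ = ∑' q, F q := by
    unfold TS
    exact Tau85.tsum_TP' f hfz
  have hFs2 : Summable (fun q : Eis × Eis => F (q.2, q.1)) :=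
    (Equiv.prodComm Eis Eis).summable_iff (f := F) |>.mpr hFs
  have e2 : ∑' q, F q = ∑' q : Eis × Eis, F (q.2, q.1) :=
    ((Equiv.prodComm Eis Eis).tsum_eq F).symm
  rw [e1, e2, hFs2.tsum_prod]
  unfold NT
  rw [← tsum_mul_left]
  refine tsum_congr fun e => ?_
  by_cases he : Sm M e
  · rw [if_pos he]
    unfold DS
    rw [← tsum_mul_left, ← tsum_mul_left]
    refine tsum_congr fun d => ?_
    simp only [hF]
    by_cases hd : Sm M d
    · rw [if_pos hd]
      by_cases hs : Squarefree d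
      · have hq : (d, e) ∈ TP := ⟨hd.prim, hs, he.prim⟩
        rw [if_pos hq]
        have hc : Sm M (cp (d, e)) := (sm_cp hq).mpr ⟨hd, he⟩
        simp only [hf]
        rw [if_pos hc]
        have h2 : th (h * cp (d, e)) = conj (Gh h d) * (n6 d : ℂ) * th h := by
          unfold cp
          rw [show h * (d * e ^ 3) = (h * d) * e ^ 3 by ring, PX764.th_cube he.prim,
            PX764.th_mul hd.prim hs (H.coprime hd)]
        have h3 : cp (d, e) = d * e ^ 3 := rfl
        rw [h2, gs_NoP H hd hs, h3, n23_mul, ← sqrt_n23 hd.ne_zero, map_mul, Complex.conj_ofReal]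
        have h4 := n23_cube he.ne_zero
        linear_combination (-(th h * (((Real.sqrt (nm d) : ℝ) : ℂ) * conj (Gh h d)) * n23 d *
          φ (d * e ^ 3))) * h4
      · have hq : (d, e) ∉ TP := fun hq => hs hq.2.1
        rw [if_neg hq]
        have h2 : gs h d = 0 := by
          have h3 := gs_eq_conj_mul syAx hd.prim (H.coprime hd)
          rw [h3, Gauss880.gs_one_eq hd.prim, Gauss880.G_eq_zero Gauss880.syG hd.prim hs]
          simp
        rw [h2]; simp
    · rw [if_neg hd]
      have hq : (if (d, e) ∈ TP then f (cp (d, e)) else 0) = 0 := by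
        split_ifs with hq
        · simp only [hf]
          rw [if_neg (fun hc => hd ((sm_cp hq).mp hc).1)]
        · rfl
      rw [hq]; simp
  · rw [if_neg he]
    have hz : ∀ d, F (d, e) = 0 := by
      intro d
      simp only [hF]
      split_ifs with hq
      · simp only [hf]
        rw [if_neg (fun hc => he ((sm_cp hq).mp hc).2)]
      · rfl
    simp only [hz, tsum_zero, mul_zero]

/-! ### the inductive step -/

section step

variable {M p u : Eis}

lemma TS_step1 (hu0 : u ≠ 0) (hp : Sm M p) (hpp : Prime p) (hpu : ¬ p ∣ u) {φ : Eis → ℂ}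
    (hφ : Dcy φ) :
    TS M (u * p) φ = TS (M * p) (u * p) φ + TS (M * p) u (fun k => φ (p ^ 2 * k)) +
      TS M (u * p) (fun k => φ (p ^ 3 * k)) := by
  classical
  have hp0 := hp.ne_zero
  have hs := summable_TS (M := M) (r := u * p) (mul_ne_zero hu0 hp0) hφ
  have hs1 := summable_dil hp hs
  have hs2 := summable_dil hp hs1
  have h1 : TS M (u * p) φ = _ := sum_split hp hpp hs
  have h2 := sum_split hp hpp hs1
  have h3 := sum_split hp hpp hs2
  rw [h1, h2, h3]
  have z1 : ∀ d, (if Sm (M * p) d then th (u * p * (p * d)) * φ (p * d) else 0) = 0 := by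
    intro d
    split_ifs with hd
    · rw [sm_mul_right] at hd
      have hpd : ¬ p ∣ u * d := fun h => (hpp.dvd_or_dvd h).elim hpu ((cop_iff hpp d).mp hd.2)
      rw [show u * p * (p * d) = (u * d) * p ^ 2 by ring, PX764.th_two hpp hp.prim hpd, zero_mul]
    · rfl
  rw [tsum_congr z1, tsum_zero, zero_add, add_assoc]
  unfold TS
  congr 1
  congr 1
  · refine tsum_congr fun d => ?_
    split_ifs with hd
    · rw [show u * p * (p * (p * d)) = (u * d) * p ^ 3 by ring, PX764.th_cube hp.prim,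
        show p * (p * d) = p ^ 2 * d by ring]
    · rfl
  · refine tsum_congr fun d => ?_
    split_ifs with hd
    · rw [show u * p * (p * (p * (p * d))) = (u * p * d) * p ^ 3 by ring, PX764.th_cube hp.prim,
        show p * (p * (p * d)) = p ^ 3 * d by ring]
    · rfl

lemma NT_smul (M u : Eis) (a : ℂ) (φ : Eis → ℂ) :
    NT M u (fun k => a * φ k) = a * NT M u φ := by
  classical
  unfold NT DS
  rw [← tsum_mul_left]
  refine tsum_congr fun e => ?_
  split_ifs
  · rw [← tsum_mul_left, ← tsum_mul_left, ← tsum_mul_left]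
    refine tsum_congr fun d => ?_
    split_ifs
    · ring
    · simp
  · simp

lemma n23_pow_mul (p k : Eis) (i : ℕ) : n23 (p ^ i * k) = n23 (p ^ i) * n23 k := n23_mul _ _

lemma nmC_ne {p : Eis} (hp : p ≠ 0) : (nm p : ℂ) ≠ 0 := by
  exact_mod_cast (nm_pos.mpr hp).ne'

lemma c1_th (hp : Sm M p) (hpp : Prime p) (hpu : ¬ p ∣ u) :
    th (u * p) * c1 p u * n23 (p ^ 2) = th u := by
  rw [PX764.th_mul hp.prim hpp.squarefree ((cop_iff hpp u).mpr hpu)]
  unfold c1 Gh
  have h1 : G p * conj (G p) = 1 := Gauss880.G_mul_conj Gauss880.syG hp.prim hpp.squarefree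
  have h2 : sy u p * conj (sy u p) = 1 := syAx.mul_conj hp.prim ((cop_iff hpp u).mpr hpu)
  have h3 : (n6 p : ℂ) = ((Real.sqrt (nm p) : ℝ) : ℂ) * n23 p := (sqrt_n23 hp.ne_zero).symm
  have h4 := sqrtC_mul_self p
  have h5 : n23 (p ^ 2) = n23 p * n23 p := by rw [pow_two, n23_mul]
  have h6 : (nm p : ℂ) ^ 2 * n23 (p ^ 3) = 1 := n23_cube hp.ne_zero
  have h7 : n23 (p ^ 3) = n23 p * n23 p * n23 p := by
    rw [show p ^ 3 = p * p * p by ring, n23_mul, n23_mul]
  rw [h7] at h6
  simp only [map_mul, Complex.conj_conj]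
  rw [h3, h5]
  calc _ = (G p * conj (G p)) * (sy u p * conj (sy u p)) *
        (((Real.sqrt (nm p) : ℝ) : ℂ) * ((Real.sqrt (nm p) : ℝ) : ℂ)) * (nm p : ℂ) *
        (n23 p * n23 p * n23 p) * th u := by ring
    _ = _ := by
        rw [h1, h2, h4]
        linear_combination (th u) * h6

end step

/-- the statement -/
def THs (M u : Eis) : Prop :=
  ∀ φ : Eis → ℂ, Dcy φ → TS M u φ = th u * NT M u (fun k => n23 k * φ k)

lemma th_step {M p u : Eis} (hu0 : u ≠ 0) (hp : Sm M p) (hpp : Prime p) (hpu : ¬ p ∣ u)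
    (h1 : THs (M * p) (u * p)) (h2 : THs (M * p) u) : THs M (u * p) := by
  have hp0 := hp.ne_zero
  have hup0 := mul_ne_zero hu0 hp0
  set D : (Eis → ℂ) → ℂ := fun φ => TS M (u * p) φ - th (u * p) * NT M (u * p) (fun k => n23 k * φ k)
    with hD
  have hstep : ∀ φ, Dcy φ → D φ = D (fun k => φ (p ^ 3 * k)) := by
    intro φ hφ
    simp only [hD]
    rw [TS_step1 hu0 hp hpp hpu hφ, NT_step1 hp hpp hpu hφ.n23, h1 φ hφ,
      h2 _ (hφ.dil (pow_ne_zero 2 hp0))]
    have e1 : NT (M * p) u (fun k => n23 (p ^ 2 * k) * φ (p ^ 2 * k)) =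
        n23 (p ^ 2) * NT (M * p) u (fun k => n23 k * φ (p ^ 2 * k)) := by
      rw [← NT_smul]
      congr 1
      funext k
      rw [n23_mul]; ring
    have e2 : (nm p : ℂ) ^ 2 * NT M (u * p) (fun k => n23 (p ^ 3 * k) * φ (p ^ 3 * k)) =
        NT M (u * p) (fun k => n23 k * φ (p ^ 3 * k)) := by
      have h6 : (nm p : ℂ) ^ 2 * n23 (p ^ 3) = 1 := n23_cube hp0
      have h7 : (fun k => n23 (p ^ 3 * k) * φ (p ^ 3 * k)) =
          (fun k => n23 (p ^ 3) * (n23 k * φ (p ^ 3 * k))) := by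
        funext k; rw [n23_mul]; ring
      rw [h7, NT_smul, ← mul_assoc, h6, one_mul]
    rw [e1, e2]
    have h8 := c1_th hp hpp hpu
    linear_combination (-(NT (M * p) u (fun k => n23 k * φ (p ^ 2 * k)))) * h8
  -- iterate
  have hiter : ∀ (i : ℕ) (φ : Eis → ℂ), Dcy φ → D φ = D (fun k => φ (p ^ (3 * i) * k)) := by
    intro i
    induction i with
    | zero => intro φ _; simp
    | succ i ih =>
      intro φ hφ
      rw [ih φ hφ, hstep _ (hφ.dil (pow_ne_zero _ hp0))]
      congr 1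
      funext k
      congr 1
      ring
  -- the bound
  have hbd : ∀ (φ : Eis → ℂ) (C : ℝ), 0 ≤ C → (∀ k, k ≠ 0 → ‖φ k‖ ≤ C * ((nm k : ℝ) ^ 3)⁻¹) →
      ‖D φ‖ ≤ C * (Bth * K0 + Bth * (K0 * K0)) := by
    intro φ C hC0 hC
    simp only [hD]
    have a1 := norm_TS_le (M := M) hup0 hC0 hC
    have a2 : ‖NT M (u * p) (fun k => n23 k * φ k)‖ ≤ C * K0 * K0 := by
      refine norm_NT_le hC0 fun k hk => ?_
      rw [norm_mul]
      calc ‖n23 k‖ * ‖φ k‖ ≤ 1 * (C * ((nm k : ℝ) ^ 3)⁻¹) :=
            mul_le_mul (norm_n23_le hk) (hC k hk) (norm_nonneg _) (by norm_num)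
        _ = _ := one_mul _
    have a3 := norm_th_le hup0
    have a4 := Bth_nonneg
    calc _ ≤ ‖TS M (u * p) φ‖ + ‖th (u * p)‖ * ‖NT M (u * p) (fun k => n23 k * φ k)‖ := by
          rw [← norm_mul]; exact norm_sub_le _ _
      _ ≤ Bth * C * K0 + Bth * (C * K0 * K0) :=
          add_le_add a1 (mul_le_mul a3 a2 (norm_nonneg _) a4)
      _ = _ := by ring
  intro φ hφ
  obtain ⟨C, hC0, hC⟩ := hφ.nonneg
  have hq2 : (2 : ℝ) ≤ (nm p : ℝ) := by
    have h3 : 1 < nm p := one_lt_nm_of_prime hpp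
    exact_mod_cast h3
  have hz : ∀ i : ℕ, ‖D φ‖ ≤ (C * (1 / 2) ^ i) * (Bth * K0 + Bth * (K0 * K0)) := by
    intro i
    rw [hiter i φ hφ]
    refine hbd _ _ (by positivity) fun k hk => ?_
    refine (hC _ (mul_ne_zero (pow_ne_zero _ hp0) hk)).trans ?_
    rw [nm_mul, nm_pow]
    push_cast
    have h5 : (0 : ℝ) < nm k := by exact_mod_cast nm_pos.mpr hk
    rw [mul_pow, mul_inv, mul_assoc]
    apply mul_le_mul_of_nonneg_left _ hC0
    apply mul_le_mul_of_nonneg_right _ (by positivity)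
    rw [← pow_mul, one_div, inv_pow]
    apply inv_anti₀ (by positivity)
    calc (2 : ℝ) ^ i ≤ (nm p : ℝ) ^ i := pow_le_pow_left₀ (by norm_num) hq2 i
      _ ≤ (nm p : ℝ) ^ (3 * i * 3) := pow_le_pow_right₀ (by linarith) (by omega)
  have hlim : Filter.Tendsto (fun i : ℕ => (C * (1 / 2 : ℝ) ^ i) * (Bth * K0 + Bth * (K0 * K0)))
      Filter.atTop (nhds 0) := by
    have := (tendsto_pow_atTop_nhds_zero_of_lt_one (r := (1 / 2 : ℝ)) (by norm_num)
      (by norm_num)).const_mul C
    have := this.mul_const (Bth * K0 + Bth * (K0 * K0))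
    simpa using this
  have h0 : ‖D φ‖ ≤ 0 := ge_of_tendsto' hlim hz
  have h9 : D φ = 0 := norm_le_zero_iff.mp h0
  exact sub_eq_zero.mp h9

/-- **theta sums = natural cubic series**, `h` without primes prime to `M`, `a` squarefree. -/
theorem TH_mul : ∀ a : Eis, ∀ M h : Eis, NoP M h → Sm M a → Squarefree a → THs M (h * a) := by
  have key : ∀ n : ℕ, ∀ a, nm a ≤ n → ∀ M h : Eis, NoP M h → Sm M a → Squarefree a →
      THs M (h * a) := by
    intro n
    induction n with
    | zero =>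
      intro a hn M h _ ha _
      exact absurd (nm_eq_zero.mp (Nat.le_zero.mp hn)) ha.ne_zero
    | succ n ih =>
      intro a hn M h H ha hs
      by_cases ha1 : a = 1
      · subst ha1
        rw [mul_one]
        intro φ hφ
        exact TH_base H hφ
      · obtain ⟨p, hp, hpa⟩ := Mob705.exists_pp_dvd_of_isPrim ha.prim ha1
        have hpS : Sm M p := ha.of_dvd hp.isPrim hpa
        have hpp : Prime p := hp.prime
        obtain ⟨b, rfl⟩ := hpa
        have hbS : Sm M b := hpS.mul_iff.mp ha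
        have hpb : ¬ p ∣ b := by
          rintro ⟨t, rfl⟩
          exact hpp.not_isUnit (hs p ⟨t, by ring⟩)
        have hsb : Squarefree b := hs.of_mul_right
        have hph : ¬ p ∣ h := H.2 p hpp hpS
        have hbn : nm b ≤ n := by
          have h1 : nm (p * b) = nm p * nm b := nm_mul _ _
          have h3 : 1 < nm p := one_lt_nm_of_prime hpp
          have h5 : 0 < nm b := nm_pos.mpr hbS.ne_zero
          nlinarith
        have hbS' : Sm (M * p) b := by
          rw [sm_mul_right]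
          exact ⟨hbS, (cop_iff hpp b).mpr hpb⟩
        have hNo1 : NoP (M * p) h := by
          refine ⟨H.1, fun q hq hqS hqh => ?_⟩
          rw [sm_mul_right] at hqS
          exact H.2 q hq hqS.1 hqh
        have hNo2 : NoP (M * p) (h * p) := by
          refine ⟨mul_ne_zero H.1 hpS.ne_zero, fun q hq hqS hqh => ?_⟩
          rw [sm_mul_right] at hqS
          rcases hq.dvd_or_dvd hqh with h1 | h1
          · exact H.2 q hq hqS.1 h1
          · have h2 : Associated q p := hq.associated_of_dvd hpp h1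
            have h3 : q = p := hqS.1.prim.eq_of_associated hpS.prim h2
            exact (cop_iff hpp q).mp hqS.2 (h3 ▸ dvd_rfl)
        have i1 := ih b hbn (M * p) (h * p) hNo2 hbS' hsb
        have i2 := ih b hbn (M * p) h hNo1 hbS' hsb
        have e1 : h * (p * b) = (h * b) * p := by ring
        rw [e1]
        refine th_step (mul_ne_zero H.1 hbS.ne_zero) hpS hpp
          (fun hd => (hpp.dvd_or_dvd hd).elim hph hpb) ?_ i2
        rw [show h * b * p = h * p * b by ring]
        exact i1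
  intro a M h
  exact key (nm a) a le_rfl M h

end Crest.Agent.R017.E2440
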