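import Crest.Agent.R017.RGKa_545

/-!
# Row 17, C.REMg (RG), every kernel (helper545): helper64's `RGc`, `RGd` for the kernel `Kn`

* `VK_tws_sg_le`, `sub_numX`, `sub_num`, `sub_num0` : the small divisors
* `MergeListK`, `mergeListK` (proved), `ClNK`, `large_num` : the large divisors
-/

set_option autoImplicit false
set_option maxHeartbeats 1600000

noncomputable section

open Complex
open scoped ComplexConjugate

namespace Crest.Agent.R017.RGK545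

open Crest.Agent.R012 Crest.Agent.R012.Eis Crest.Agent.R012.LS2 Crest.Agent.R012.Gauss880
open Crest.Agent.R012.Div277 (dvs mem_dvs isPrim_of_mem_dvs dvs_zero)
open Crest.Agent.R012.Weight600 (osc pw)
open Crest.Agent.R017.CM106 Crest.Agent.R017.HP842 Crest.Agent.R017.FE47
open Crest.Agent.R017.End699 hiding pw
open Crest.Agent.R017.B770
open Crest.Agent.R017.TP320 (conv)
open Crest.Agent.R017.Prov71
open Crest.Agent.R017.Rough381 (VF VF_nonneg)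
open Crest.Agent.R017.Leg381
open Crest.Agent.R017.E1551 (sg tws yv BU mem_BU CF)
open Crest.Agent.R017.LegK545 (VK VK_Kg VK_nonneg VK_mono SFK SFK_Kg JBK JBK_Kg KS_const_mul)
open Crest.Agent.R017.RG64 hiding ClX ClX.mono ClX.weaken ClX.expo ClX.union ClX.ext Cl
  leg_step2 rec_j sub_numX sub_num sub_num0 MergeList ClN large_num

variable {Kn : Eis → Eis → ℂ}

lemma VK_const_mul_le (L : ℝ) {c : ℂ} (hc : ‖c‖ ≤ 1) (w : Eis → ℂ) :
    VK Kn L (fun n => c * w n) ≤ VK Kn L w := by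
  unfold VK
  refine Finset.sum_le_sum fun j _ => ?_
  rw [KS_const_mul, norm_mul, mul_pow]
  have : ‖c‖ ^ 2 ≤ 1 := pow_le_one₀ (norm_nonneg _) hc
  exact mul_le_of_le_one_left (by positivity) this

lemma VK_tws_sg_le (z D0 : ℝ) (P : DPar) (h : ℝ → ℝ) (ps : List Pf) (q : Eis) {g : Eis}
    (hg : g ≠ 0) (t V : ℝ) (hprim : ∀ n, alF z D0 P h ps n ≠ 0 → IsPrim n) :
    VK Kn V (tws (sg (sqc q (alF z D0 P h ps)) g) t) ≤
      VK Kn V (sqc (q * g) (CM106.sub (alF z D0 P h (shT t ps)) g)) := by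
  rw [tws_sg z D0 P h ps q hg t hprim]
  refine VK_const_mul_le V ?_ _
  rw [norm_mul, norm_pw, mul_one]
  exact norm_Th_le _ _

/-- **the subsequences** of a flagged list from a claim -/
theorem sub_numX (hKn : Ker Kn) {h : ℝ → ℝ} {c : ℝ} (hpu : PU h c) (N : ℕ) {B₀ : ℝ} (hB₀ : 0 ≤ B₀) {ε : ℝ}
    (hε : 0 < ε) {J : ℝ} (hJ : 0 ≤ J) : ∃ C r : ℝ, 1 ≤ C ∧ 0 ≤ r ∧ ∀ X : ℝ, 3 ≤ X →
    ∀ D : Dat, D.P.OK → D.h = h → 1 ≤ D.D0 → D.J = J → D.ps₀.length ≤ N →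
    ∀ (E : ℝ → ℝ → ℝ) (B s a Q q₀ σ' lo T : ℝ), 0 ≤ B → Real.exp r ≤ q₀ →
    ClXK Kn E D (Ge lo) B (s + r) (a + r) (Q * q₀) σ' →
    ∀ (q g : Eis) (ps : List Pf) (t V : ℝ), IsPrim q → (nm q : ℝ) * Real.exp (LF ps) ≤ Q →
    IsPrim g → (nm g : ℝ) ≤ X ^ B₀ → SbL s ps D.ps₀ → LF ps ≤ Real.log X →
    (∀ x : ℝ, x ≤ LF ps - Real.log (nm g) + r → (g ≠ 1 → 1 ≤ D.z → NT ps →
      x ≤ LF ps - min (Real.log D.z) (Real.log D.D0) + r) → x ≤ σ') →
    lo + Real.log (nm g) + N * Real.log D.D0 + r ≤ LF ps →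
    1 ≤ V → V ≤ X → Real.log V ≤ D.v + (D.n - LF ps) + a + Real.log (nm g) →
    (∀ l m' : ℝ, |l - (Real.log V + LF ps - Real.log (nm g) - m')| ≤ r →
      m' ≤ LF ps - Real.log (nm g) + r → E l m' ≤ T + (m' + Real.log (nm g) - LF ps)) →
    VK Kn V (tws (sg (sqc q (alF D.z D.D0 D.P D.h ps)) g) t) ≤
      C * X ^ ε * B * Ht ps ^ J * (1 + |t|) ^ ((N : ℝ) * J) * Real.exp T := by
  obtain ⟨C, r, hC, hr, H⟩ := LegK545.sub_list hKn hpu N hB₀ hε hJ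
  refine ⟨C, r, hC, hr, ?_⟩
  intro X hX D hP hh hD0 hDJ hN E B s a Q q₀ σ' lo T hB hq₀ hCl q g ps t V hq hqQ hg hgX hps
    hLX hσ hlo hV hVX hk hT
  have hX1 : (1 : ℝ) ≤ X := by linarith
  have hBump := bump_of_cs hpu.cs
  have hprim : ∀ n, alF D.z D.D0 D.P D.h ps n ≠ 0 → IsPrim n := by
    rw [hh]; exact (FS_alF hBump hP D.z D.D0 ps).prim
  refine (VK_tws_sg_le D.z D.D0 D.P D.h ps q hg.ne_zero t V hprim).trans ?_
  have hlen : ps.length ≤ N := hps.length ▸ hN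
  have hV0 : 0 < V := by linarith
  have hng : (0 : ℝ) < nm g := by exact_mod_cast nm_pos.2 hg.ne_zero
  set k := Real.log V with hkd
  have hk0 : 0 ≤ k := Real.log_nonneg hV
  have hkX : k ≤ Real.log X := Real.log_le_log hV0 hVX
  set γ := Real.log (nm g) with hγ
  have heγ : Real.exp γ = nm g := Real.exp_log hng
  set m := LF ps with hm
  set ps₁ := shT t ps with hps₁
  have hps₁' : SbL s ps₁ D.ps₀ := SbL_shT hps
  have hz := hps₁'.z_nonneg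
  have hlen₁ : ps₁.length ≤ N := by rw [hps₁, shT_length]; exact hlen
  have hLF₁ : LF ps₁ = m := LF_shT t ps
  have hHt1 := one_le_Ht ps₁
  have hHt0 := one_le_Ht ps
  have key := H X hX D.P hP D.z D.D0 q hD0 g hg hgX k ps₁ hk0 hkX hlen₁
    (fun p hp => ⟨hz p hp, (z_le_LF hz p hp).trans (by rw [hLF₁]; exact hLX)⟩)
    (B * Ht ps₁ ^ J * Real.exp T) (by positivity) ?_
  · have e1 : Real.exp k = V := Real.exp_log hV0
    rw [e1, ← hh] at key
    refine key.trans ?_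
    have h1 : Ht ps₁ ^ J ≤ Ht ps ^ J * (1 + |t|) ^ ((N : ℝ) * J) := Ht_shT_rpow hJ t hlen
    have hE : 0 ≤ C * X ^ ε := by positivity
    calc C * X ^ ε * (B * Ht ps₁ ^ J * Real.exp T) ≤
          C * X ^ ε * (B * (Ht ps ^ J * (1 + |t|) ^ ((N : ℝ) * J)) * Real.exp T) := by gcongr
      _ = _ := by ring
  · intro l ps' hl hch h1 h2 h3 h4
    rw [hLF₁] at h1 h2 h3 h4 ⊢
    have hps' := hps₁'.childG hch
    have hcst := cstF_nonneg ps' ps₁
    have hq' : IsPrim (q * g) := hq.mul hg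
    have hqQ' : (nm (q * g) : ℝ) * Real.exp (LF ps') ≤ Q * q₀ := by
      rw [nm_mul]; push_cast
      have h5 : (nm g : ℝ) * Real.exp (LF ps') ≤ Real.exp m * Real.exp r := by
        rw [← heγ, ← Real.exp_add, ← Real.exp_add]
        exact Real.exp_le_exp.2 (by linarith)
      calc (nm q : ℝ) * nm g * Real.exp (LF ps') = nm q * (nm g * Real.exp (LF ps')) := by ring
        _ ≤ nm q * (Real.exp m * Real.exp r) := mul_le_mul_of_nonneg_left h5 (Nat.cast_nonneg _)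
        _ = (nm q * Real.exp m) * Real.exp r := by ring
        _ ≤ Q * q₀ := mul_le_mul hqQ hq₀ (Real.exp_pos _).le ((by positivity : (0 : ℝ) ≤
            nm q * Real.exp m).trans hqQ)
    have hc1 := hCl (q * g) ps' l hq' hqQ' (by
        show lo ≤ LF ps'
        linarith) hps' (hσ _ h1 fun a1 a2 a3 => h3 a1 a2 fun p hp => NT_shT a3 p hp) hl (by
        have := (abs_le.1 h4).2
        linarith)
    have hHt' : Ht ps' ^ J ≤ Ht ps₁ ^ J * cstF ps' ps₁ ^ J := by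
      rw [← Real.mul_rpow (by linarith) hcst]
      exact Real.rpow_le_rpow (by linarith [one_le_Ht ps']) (Ht_le_cst hch) hJ
    have hfl := hT l (LF ps') h4 h1
    rw [hDJ] at hc1
    rw [hh] at hc1
    refine hc1.trans ?_
    have hE : Real.exp (E l (LF ps')) ≤ Real.exp T * Real.exp (LF ps' + γ - m) := by
      rw [← Real.exp_add]
      exact Real.exp_le_exp.2 hfl
    calc B * Ht ps' ^ J * Real.exp (E l (LF ps')) ≤
          B * (Ht ps₁ ^ J * cstF ps' ps₁ ^ J) * (Real.exp T * Real.exp (LF ps' + γ - m)) := by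
          gcongr
      _ = _ := by ring

/-- **the subsequences**, flat claims -/
theorem sub_num (hKn : Ker Kn) {h : ℝ → ℝ} {c : ℝ} (hpu : PU h c) (N : ℕ) {B₀ : ℝ} (hB₀ : 0 ≤ B₀) {ε : ℝ}
    (hε : 0 < ε) {J : ℝ} (hJ : 0 ≤ J) : ∃ C r : ℝ, 1 ≤ C ∧ 0 ≤ r ∧ ∀ X : ℝ, 3 ≤ X →
    ∀ D : Dat, D.P.OK → D.h = h → 1 ≤ D.D0 → D.J = J → D.ps₀.length ≤ N →
    ∀ (B s a Q q₀ σ' lo : ℝ), 0 ≤ B → Real.exp r ≤ q₀ →
    ClK Kn D (Ge lo) B (s + r) (a + r) (Q * q₀) σ' →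
    ∀ (q g : Eis) (ps : List Pf) (t V : ℝ), IsPrim q → (nm q : ℝ) * Real.exp (LF ps) ≤ Q →
    IsPrim g → (nm g : ℝ) ≤ X ^ B₀ → SbL s ps D.ps₀ → LF ps ≤ Real.log X →
    (∀ x : ℝ, x ≤ LF ps - Real.log (nm g) + r → (g ≠ 1 → 1 ≤ D.z → NT ps →
      x ≤ LF ps - min (Real.log D.z) (Real.log D.D0) + r) → x ≤ σ') →
    lo + Real.log (nm g) + N * Real.log D.D0 + r ≤ LF ps →
    1 ≤ V → V ≤ X → Real.log V ≤ D.v + (D.n - LF ps) + a + Real.log (nm g) →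
    VK Kn V (tws (sg (sqc q (alF D.z D.D0 D.P D.h ps)) g) t) ≤
      C * X ^ ε * B * Ht ps ^ J * (1 + |t|) ^ ((N : ℝ) * J) *
        Real.exp (2 * LF ps - 2 * Real.log (nm g) +
          max 0 ((Real.log V - 2 * LF ps + 2 * Real.log (nm g) + D.κ) / 3)) := by
  obtain ⟨C, r, hC, hr, H⟩ := sub_numX hKn hpu N hB₀ hε hJ
  refine ⟨C * Real.exp r, r, ?_, hr, ?_⟩
  · have : 1 ≤ Real.exp r := Real.one_le_exp hr
    nlinarith
  intro X hX D hP hh hD0 hDJ hN B s a Q q₀ σ' lo hB hq₀ hCl q g ps t V hq hqQ hg hgX hps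
    hLX hσ hlo hV hVX hk
  have := H X hX D hP hh hD0 hDJ hN (fl D.κ) B s a Q q₀ σ' lo
    (2 * LF ps - 2 * Real.log (nm g) +
      max 0 ((Real.log V - 2 * LF ps + 2 * Real.log (nm g) + D.κ) / 3) + r) hB hq₀ hCl q g ps t V
    hq hqQ hg hgX hps hLX hσ hlo hV hVX hk (fun l m' h1 h2 => fl_sub h1 h2 hr)
  refine this.trans (le_of_eq ?_)
  rw [Real.exp_add _ r]
  ring

/-- **the subsequences**, slope claims -/
theorem sub_num0 (hKn : Ker Kn) {h : ℝ → ℝ} {c : ℝ} (hpu : PU h c) (N : ℕ) {B₀ : ℝ} (hB₀ : 0 ≤ B₀) {ε : ℝ}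
    (hε : 0 < ε) {J : ℝ} (hJ : 0 ≤ J) : ∃ C r : ℝ, 1 ≤ C ∧ 0 ≤ r ∧ ∀ X : ℝ, 3 ≤ X →
    ∀ D : Dat, D.P.OK → D.h = h → 1 ≤ D.D0 → D.J = J → D.ps₀.length ≤ N →
    ∀ (B s a Q q₀ σ' lo : ℝ), 0 ≤ B → Real.exp r ≤ q₀ →
    ClXK Kn (fun k m => 4 / 3 * m + (k + D.κ) / 3) D (Ge lo) B (s + r) (a + r) (Q * q₀) σ' →
    ∀ (q g : Eis) (ps : List Pf) (t V : ℝ), IsPrim q → (nm q : ℝ) * Real.exp (LF ps) ≤ Q →
    IsPrim g → (nm g : ℝ) ≤ X ^ B₀ → SbL s ps D.ps₀ → LF ps ≤ Real.log X →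
    (∀ x : ℝ, x ≤ LF ps - Real.log (nm g) + r → x ≤ σ') →
    lo + Real.log (nm g) + N * Real.log D.D0 + r ≤ LF ps →
    1 ≤ V → V ≤ X → Real.log V ≤ D.v + (D.n - LF ps) + a + Real.log (nm g) →
    VK Kn V (tws (sg (sqc q (alF D.z D.D0 D.P D.h ps)) g) t) ≤
      C * X ^ ε * B * Ht ps ^ J * (1 + |t|) ^ ((N : ℝ) * J) *
        Real.exp (4 / 3 * (LF ps - Real.log (nm g)) + (Real.log V + D.κ) / 3) := by
  obtain ⟨C, r, hC, hr, H⟩ := sub_numX hKn hpu N hB₀ hε hJ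
  refine ⟨C * Real.exp r, r, ?_, hr, ?_⟩
  · have : 1 ≤ Real.exp r := Real.one_le_exp hr
    nlinarith
  intro X hX D hP hh hD0 hDJ hN B s a Q q₀ σ' lo hB hq₀ hCl q g ps t V hq hqQ hg hgX hps
    hLX hσ hlo hV hVX hk
  have := H X hX D hP hh hD0 hDJ hN _ B s a Q q₀ σ' lo
    (4 / 3 * (LF ps - Real.log (nm g)) + (Real.log V + D.κ) / 3 + r) hB hq₀ hCl q g ps t V
    hq hqQ hg hgX hps hLX (fun x h1 _ => hσ x h1) hlo hV hVX hk (fun l m' h1 _ => ex_sub h1)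
  refine this.trans (le_of_eq ?_)
  rw [Real.exp_add _ r]
  ring

open Classical in
/-- 381's merged rule (literal text of #21390) -/
def MergeListK (Kn : Eis → Eis → ℂ) (h : ℝ → ℝ) (N : ℕ) (B₀ ε M : ℝ) : Prop :=
  ∃ C r : ℝ, 1 ≤ C ∧ 0 ≤ r ∧ ∀ X : ℝ, 3 ≤ X → ∀ P : DPar, P.OK → ∀ (z D0 : ℝ) (q g0 : Eis),
    1 ≤ D0 → IsPrim g0 → (nm g0 : ℝ) ≤ X ^ B₀ → ∀ b : ℝ, 0 ≤ b → b ≤ B₀ * Real.log X →
    ∀ Us : Finset Eis, (∀ U ∈ Us, IsPrim U ∧ IsCoprime g0 U ∧ |Real.log (nm U) - b| ≤ 1) →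
    ∀ (k : ℝ) (ps : List Pf), 0 ≤ k → k ≤ Real.log X → ps.length ≤ N →
    (∀ p ∈ ps, 0 ≤ p.1.z ∧ p.1.z ≤ Real.log X) → ∀ Bd : ℝ, 0 ≤ Bd →
    (∀ (l : ℝ) (ps' : List Pf), 0 ≤ l → List.Forall₂ (ChG r) ps' ps →
      (∀ p ∈ ps', p.2 = false) →
      LF ps' ≤ LF ps - Real.log (nm g0) - b + r →
      LF ps - Real.log (nm g0) - b - N * Real.log D0 - r ≤ LF ps' →
      |l - (k + LF ps - Real.log (nm g0) - LF ps')| ≤ r →
      SFK Kn z D0 (q * g0) P h l ps' ≤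
        Bd * cstF ps' ps ^ M * Real.exp (LF ps' + Real.log (nm g0) + b - LF ps)) →
    ∑ U ∈ Us, ∑ κ ∈ (bl (Real.exp k)).filter (fun κ => CubeFree (κ * U)),
      ‖KS Kn (sqc (q * (g0 * U)) (CM106.sub (alF z D0 P h ps) (g0 * U))) (κ * U)‖ ^ 2 ≤
      C * X ^ ε * Bd

/-- the claim for natural lists, exponent `E (level) (length)` -/
def ClNK (Kn : Eis → Eis → ℂ) (D : Dat) (E : ℝ → ℝ → ℝ) (B s a Q lo σ : ℝ) : Prop :=
  ∀ (q : Eis) (ps : List Pf) (k : ℝ), IsPrim q → (nm q : ℝ) ≤ Q → (∀ p ∈ ps, p.2 = false) →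
    SbL s ps D.ps₀ → lo ≤ LF ps → LF ps ≤ σ → 0 ≤ k → k ≤ D.v + (D.n - LF ps) + a →
    SFK Kn D.z D.D0 q D.P D.h k ps ≤ B * Ht ps ^ D.J * Real.exp (E k (LF ps))

/-- the merged rule for every kernel -/
theorem mergeListK (hKn : Ker Kn) {h : ℝ → ℝ} {c : ℝ} (hpu : PU h c) (N : ℕ) {B₀ : ℝ}
    (hB₀ : 0 ≤ B₀) {ε : ℝ} (hε : 0 < ε) {M : ℝ} (hM : 0 ≤ M) : MergeListK Kn h N B₀ ε M := by
  obtain ⟨C, r, hC, hr, H⟩ := LegK545.merge_list hKn hpu N hB₀ hε hM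
  exact ⟨C, r, hC, hr, fun X hX P hP z D0 q g0 hD0 hg hgX b hb hbX Us hUs k ps hk hkX hlen hps
    Bd hBd hyp => H X hX P hP z D0 q hD0 g0 hg hgX b Us hb hbX hUs k ps hk hkX hlen hps Bd hBd
    hyp⟩

/-- **the number (L+)** : the joint blocks from the natural lists -/
theorem large_num {h : ℝ → ℝ} {c : ℝ} (hpu : PU h c) (N : ℕ) {B₀ : ℝ} {ε : ℝ} {J : ℝ}
    (hJ : 0 ≤ J) (hML : MergeListK Kn h N B₀ ε J) : ∃ C r : ℝ, 1 ≤ C ∧ 0 ≤ r ∧ ∀ X : ℝ, 3 ≤ X →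
    ∀ D : Dat, D.P.OK → D.h = h → 1 ≤ D.D0 → D.J = J → D.ps₀.length ≤ N →
    ∀ (B s a Q q₀ cc lo x₁ : ℝ), 0 ≤ B → Real.exp r ≤ q₀ → 0 ≤ a → lo ≤ 0 → 0 ≤ x₁ →
    ClNK Kn D (exJ D.κ D.v D.n cc) B (s + r) (a + r) (Q * q₀) lo (D.n - cc + x₁) →
    ∀ (q g : Eis) (ps : List Pf) (Y G₀ Bb V t : ℝ), IsPrim q →
    (nm q : ℝ) * Real.exp (LF ps) ≤ Q → IsPrim g →
    (nm g : ℝ) ≤ X ^ B₀ → SbL s ps D.ps₀ → LF ps ≤ Real.log X → D.n - cc ≤ LF ps →
    0 ≤ Y → 1 ≤ Bb → Bb ≤ X ^ B₀ → 0 < G₀ → LF ps - Real.log G₀ + r ≤ D.n - cc + x₁ →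
    1 ≤ V → V ≤ X → Real.log V + 2 * Real.log (nm g) ≤ D.v + (D.n - LF ps) + a →
    JBK Kn Y (sqc q (alF D.z D.D0 D.P D.h ps)) (fun U => G₀ < nm (g * U)) g Bb V t ≤
      (C * X ^ ε * B * Ht ps ^ J * Real.exp (N * Real.log D.D0 + a) * Real.exp (2 * LF ps)) /
        (nm g : ℝ) ^ 2 * yv (Real.exp D.κ) (Real.exp (LF ps)) g V *
        (1 + |t|) ^ ((N : ℝ) * J) := by
  classical
  obtain ⟨C, r, hC, hr, H⟩ := hML
  refine ⟨C * Real.exp (3 * r), r, ?_, hr, ?_⟩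
  · have : 1 ≤ Real.exp (3 * r) := Real.one_le_exp (by positivity)
    nlinarith
  intro X hX D hP hh hD0 hDJ hN B s a Q q₀ cc lo x₁ hB hq₀ ha hlo hx₁ hCl q g ps Y G₀ Bb V t hq
    hqQ hg hgX hps hLX hcm hY hBb hBbX hG₀ hGn hV hVX hk
  have hX1 : (1 : ℝ) ≤ X := by linarith
  have hX0 : 0 < X := by linarith
  have hBump := bump_of_cs hpu.cs
  have hprim : ∀ n, alF D.z D.D0 D.P D.h ps n ≠ 0 → IsPrim n := by
    rw [hh]; exact (FS_alF hBump hP D.z D.D0 ps).prim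
  have hlen : ps.length ≤ N := hps.length ▸ hN
  have hV0 : 0 < V := by linarith
  set k := Real.log V with hkd
  have hk0 : 0 ≤ k := Real.log_nonneg hV
  have hkX : k ≤ Real.log X := Real.log_le_log hV0 hVX
  have hng : (0 : ℝ) < nm g := by exact_mod_cast nm_pos.2 hg.ne_zero
  set η := Real.log (nm g) with hη
  have heη : Real.exp η = nm g := Real.exp_log hng
  have hη0 : 0 ≤ η := by
    rw [hη]
    refine Real.log_nonneg ?_
    exact_mod_cast nm_pos.2 hg.ne_zero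
  set b := Real.log Bb with hb
  have hBb0 : 0 < Bb := by linarith
  have hb0 : 0 ≤ b := Real.log_nonneg hBb
  have hbX : b ≤ B₀ * Real.log X := by
    rw [hb, ← Real.log_rpow hX0]
    exact Real.log_le_log hBb0 hBbX
  set m := LF ps with hm
  set ps₁ := shT t ps with hps₁
  have hps₁' : SbL s ps₁ D.ps₀ := SbL_shT hps
  have hz := hps₁'.z_nonneg
  have hlen₁ : ps₁.length ≤ N := by rw [hps₁, shT_length]; exact hlen
  have hLF₁ : LF ps₁ = m := LF_shT t ps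
  have hHt1 := one_le_Ht ps₁
  have hHt0 := one_le_Ht ps
  have hlD : 0 ≤ Real.log D.D0 := Real.log_nonneg hD0
  have hN0 : (0 : ℝ) ≤ N := Nat.cast_nonneg _
  set x₀ : ℝ := N * Real.log D.D0 + r with hx₀
  have hx₀0 : 0 ≤ x₀ := by positivity
  set α := sqc q (alF D.z D.D0 D.P D.h ps) with hα
  -- the set of divisors
  set Us : Finset Eis := ((S Y).filter fun U => Bb / 2 < nm U ∧ (nm U : ℝ) ≤ Bb ∧
    G₀ < nm (g * U)).filter (fun U => IsCoprime g U) with hUs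
  have hUs' : ∀ U ∈ Us, IsPrim U ∧ IsCoprime g U ∧ |Real.log (nm U) - b| ≤ 1 := by
    intro U hU
    obtain ⟨h1, h2⟩ := Finset.mem_filter.1 hU
    obtain ⟨h3, h4, h5, h6⟩ := Finset.mem_filter.1 h1
    have hUp := ((mem_S hY).1 h3).2.1
    have hU0 : (0 : ℝ) < nm U := by exact_mod_cast nm_pos.2 hUp.ne_zero
    refine ⟨hUp, h2, ?_⟩
    rw [abs_le]
    constructor
    · have h7 : Real.log (Bb / 2) ≤ Real.log (nm U) := Real.log_le_log (by positivity) h4.le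
      rw [Real.log_div hBb0.ne' (by norm_num)] at h7
      have := Real.log_two_lt_d9
      linarith
    · have h7 : Real.log (nm U) ≤ b := Real.log_le_log hU0 h5
      linarith
  -- reduction
  have hred : JBK Kn Y α (fun U => G₀ < nm (g * U)) g Bb V t ≤
      ∑ U ∈ Us, ∑ κ ∈ (bl (Real.exp k)).filter (fun κ => CubeFree (κ * U)),
        ‖KS Kn (sqc (q * (g * U)) (CM106.sub (alF D.z D.D0 D.P D.h ps₁) (g * U))) (κ * U)‖ ^ 2 := by
    unfold JBK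
    have e1 : ∑ U ∈ (S Y).filter (fun U => Bb / 2 < nm U ∧ (nm U : ℝ) ≤ Bb ∧ G₀ < nm (g * U)),
        ∑ κ ∈ BU V U, ‖KS Kn (tws (sg α (g * U)) t) (κ * U)‖ ^ 2 =
        ∑ U ∈ Us, ∑ κ ∈ BU V U, ‖KS Kn (tws (sg α (g * U)) t) (κ * U)‖ ^ 2 := by
      rw [hUs, Finset.sum_filter (fun U => IsCoprime g U)]
      refine Finset.sum_congr rfl fun U hU => ?_
      split_ifs with hc
      · rfl
      · refine Finset.sum_eq_zero fun κ _ => ?_
        have hU' := Finset.mem_filter.1 hU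
        have hUp := ((mem_S hY).1 hU'.1).2.1
        have h1 : Th q (g * U) = 0 := by
          unfold Th
          rw [if_neg]
          rintro ⟨h2, _⟩
          rw [squarefree_mul_iff] at h2
          exact hc (isRelPrime_iff_isCoprime.1 h2.1)
        rw [hα, tws_sg D.z D.D0 D.P D.h ps q (mul_ne_zero hg.ne_zero hUp.ne_zero) t hprim, h1,
          KS_const_mul]
        simp
    rw [e1]
    refine Finset.sum_le_sum fun U hU => ?_
    have hUp := (hUs' U hU).1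
    have hsub : BU V U ⊆ (bl (Real.exp k)).filter (fun κ => CubeFree (κ * U)) := by
      intro κ hκ
      obtain ⟨⟨h1, h2⟩, h3⟩ := mem_BU.1 hκ
      rw [Finset.mem_filter, mem_bl (Real.exp_pos _).le, hkd, Real.exp_log hV0]
      exact ⟨⟨h1.1, h2⟩, h3⟩
    refine (Finset.sum_le_sum_of_subset_of_nonneg hsub fun _ _ _ => by positivity).trans
      (Finset.sum_le_sum fun κ _ => ?_)
    rw [hα, tws_sg D.z D.D0 D.P D.h ps q (mul_ne_zero hg.ne_zero hUp.ne_zero) t hprim,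
      KS_const_mul, norm_mul, mul_pow]
    refine mul_le_of_le_one_left (by positivity) (pow_le_one₀ (norm_nonneg _) ?_)
    rw [norm_mul, norm_pw, mul_one]
    exact norm_Th_le _ _
  refine hred.trans ?_
  -- the exponents
  have hyv : yv (Real.exp D.κ) (Real.exp m) g V =
      Real.exp ((D.κ + k) / 3 - 2 / 3 * (m - η)) := by
    unfold yv
    rw [← heη, ← Real.exp_log hV0, ← hkd, ← Real.exp_add, ← Real.exp_sub, ← Real.exp_mul,
      ← Real.exp_mul, ← Real.exp_add]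
    congr 1
    ring
  have hg2 : ((nm g : ℝ) ^ 2)⁻¹ = Real.exp (-(2 * η)) := by
    rw [← heη, ← Real.exp_nat_mul, ← Real.exp_neg]
    congr 1
  rcases Us.eq_empty_or_nonempty with hE | ⟨U₀, hU₀⟩
  · rw [hE, Finset.sum_empty]
    have : 0 ≤ yv (Real.exp D.κ) (Real.exp m) g V := by rw [hyv]; positivity
    positivity
  have hηb : Real.log G₀ ≤ η + b := by
    obtain ⟨h1, _⟩ := Finset.mem_filter.1 hU₀
    obtain ⟨h3, h4, h5, h6⟩ := Finset.mem_filter.1 h1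
    rw [nm_mul] at h6
    push_cast at h6
    have h7 : G₀ ≤ nm g * Bb := by
      have : (nm g : ℝ) * nm U₀ ≤ nm g * Bb := mul_le_mul_of_nonneg_left h5 hng.le
      linarith
    have h8 := Real.log_le_log hG₀ h7
    rwa [Real.log_mul hng.ne' hBb0.ne'] at h8
  set Et : ℝ := 2 * m - 2 * η + ((D.κ + k) / 3 - 2 / 3 * (m - η)) + r + (a + r) + x₀ with hEt
  have key := H X hX D.P hP D.z D.D0 q g hD0 hg hgX b hb0 hbX Us hUs' k ps₁ hk0 hkX hlen₁
    (fun p hp => ⟨hz p hp, (z_le_LF hz p hp).trans (by rw [hLF₁]; exact hLX)⟩)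
    (B * Ht ps₁ ^ J * Real.exp Et) (by positivity) ?_
  · rw [← hh] at key
    refine key.trans ?_
    have h1 : Ht ps₁ ^ J ≤ Ht ps ^ J * (1 + |t|) ^ ((N : ℝ) * J) := Ht_shT_rpow hJ t hlen
    have e2 : Real.exp Et = Real.exp (3 * r) * Real.exp (N * Real.log D.D0 + a) *
        Real.exp (2 * m) * Real.exp (-(2 * η)) *
        Real.exp ((D.κ + k) / 3 - 2 / 3 * (m - η)) := by
      rw [← Real.exp_add, ← Real.exp_add, ← Real.exp_add, ← Real.exp_add, hEt, hx₀]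
      congr 1
      ring
    rw [hyv, div_eq_mul_inv, hg2, e2]
    calc C * X ^ ε * (B * Ht ps₁ ^ J * (Real.exp (3 * r) * Real.exp (N * Real.log D.D0 + a) *
          Real.exp (2 * m) * Real.exp (-(2 * η)) *
          Real.exp ((D.κ + k) / 3 - 2 / 3 * (m - η)))) ≤
        C * X ^ ε * (B * (Ht ps ^ J * (1 + |t|) ^ ((N : ℝ) * J)) *
          (Real.exp (3 * r) * Real.exp (N * Real.log D.D0 + a) *
          Real.exp (2 * m) * Real.exp (-(2 * η)) *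
          Real.exp ((D.κ + k) / 3 - 2 / 3 * (m - η)))) := by gcongr
      _ = _ := by ring
  · intro l ps' hl hch hnat h1 h2 h3
    rw [hLF₁] at h1 h2 h3 ⊢
    have hps' := hps₁'.childG hch
    have hcst := cstF_nonneg ps' ps₁
    have hq' : IsPrim (q * g) := hq.mul hg
    have hqQ' : (nm (q * g) : ℝ) ≤ Q * q₀ := by
      rw [nm_mul]; push_cast
      have h5 : (nm g : ℝ) ≤ Real.exp m * Real.exp r := by
        rw [← heη, ← Real.exp_add]
        refine Real.exp_le_exp.2 ?_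
        have := LF_nonneg hps'.z_nonneg
        linarith
      calc (nm q : ℝ) * nm g ≤
            nm q * (Real.exp m * Real.exp r) := mul_le_mul_of_nonneg_left h5 (Nat.cast_nonneg _)
        _ = (nm q * Real.exp m) * Real.exp r := by ring
        _ ≤ Q * q₀ := mul_le_mul hqQ hq₀ (Real.exp_pos _).le ((by positivity : (0 : ℝ) ≤
            nm q * Real.exp m).trans hqQ)
    have h3' := (abs_le.1 h3).2
    have hc1 := hCl (q * g) ps' l hq' hqQ' hnat hps'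
      (hlo.trans (LF_nonneg hps'.z_nonneg)) (by linarith) hl (by linarith)
    have hHt' : Ht ps' ^ J ≤ Ht ps₁ ^ J * cstF ps' ps₁ ^ J := by
      rw [← Real.mul_rpow (by linarith) hcst]
      exact Real.rpow_le_rpow (by linarith [one_le_Ht ps']) (Ht_le_cst hch) hJ
    have hex := exJ_sub (κ := D.κ) (v := D.v) (n := D.n) (c := cc) (k := k) (m := m) (η := η)
      (b := b) (l := l) (m' := LF ps') (r := r) (a₁ := a + r) (x₀ := x₀) h3 (by linarith) hr hx₀0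
      (by linarith) hb0 (by linarith) (by linarith)
    rw [hDJ] at hc1
    rw [hh] at hc1
    refine hc1.trans ?_
    have hE : Real.exp (exJ D.κ D.v D.n cc l (LF ps')) ≤ Real.exp Et *
        Real.exp (LF ps' + η + b - m) := by
      rw [← Real.exp_add]
      exact Real.exp_le_exp.2 hex
    calc B * Ht ps' ^ J * Real.exp (exJ D.κ D.v D.n cc l (LF ps')) ≤
          B * (Ht ps₁ ^ J * cstF ps' ps₁ ^ J) * (Real.exp Et *
            Real.exp (LF ps' + η + b - m)) := by gcongr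
      _ = _ := by ring

end Crest.Agent.R017.RGK545
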