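import Crest.Agent.R017.I1h_146
import Crest.Agent.R017.RGKc_545
import Crest.Agent.R017.LegK10_381

/-!
# Row 17, T.4 (helper764): helper146's numbers of the T-side for every kernel

Copy of `I1h_146` with the kernel `Kn` (`Ker Kn`): `SNK`, `FlatOK`, `FlatLK`, `TailK`, `num0K`,
`numJK`, `numLK`, `numTK`.
-/

set_option autoImplicit false
set_option linter.unusedSectionVars false

noncomputable section

open Finset MeasureTheory
open scoped ComplexConjugate Classical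

namespace Crest.Agent.R017.I1K764

open Crest.Agent.R012 Crest.Agent.R012.Eis Crest.Agent.R012.MC Crest.Agent.R012.Gauss880
open Crest.Agent.R012.LS2 (S mem_S)
open Crest.Agent.R012.Weight600 (pw)
open Crest.Agent.R017.CM106 (CS FS TG)
open Crest.Agent.R017.HP842 (Pc pc sqc alL KS Ker)
open Crest.Agent.R017.B770
open Crest.Agent.R017.FE47 (PU cx)
open Crest.Agent.R017.Prov71
open Crest.Agent.R017.Leg381 (Pf alF LF natl alF_natl cstF ChG)
open Crest.Agent.R017.RG64 (shT LF_shT FS_alF shT_length)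
open Crest.Agent.R017.RGK545 (VK_tws_sg_le)
open Crest.Agent.R017.LegK545 (VK SFK JBK JBK_list)
open Crest.Agent.R017.E1551 (sg tws yv yv_pos Adm)
open Crest.Agent.R017.I1146

variable {Kn : Eis → Eis → ℂ}

/-- the cube-free Gauss moment of a natural list, prime to `q` -/
def SNK (Kn : Eis → Eis → ℂ) (q : Eis) (P : DPar) (h : ℝ → ℝ) (l : ℝ) (ps : List Pq) : ℝ :=
  VK Kn (Real.exp l) (sqc q (alL h (ps.map (Pq.pc P))))

lemma SNK_eq (Kn : Eis → Eis → ℂ) (z D0 : ℝ) (q : Eis) (P : DPar) (h : ℝ → ℝ) (l : ℝ) (ps : List Pq) :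
    SFK Kn z D0 q P h l (natl ps) = SNK Kn q P h l ps := by
  unfold SFK SNK
  rw [alF_natl]

/-- **the flat claim at the list itself** : `s₀(l; n') ≤ 2 n' + max 0 ((l + κ - 2 n')/3)`,
`l ≤ T` -/
def FlatOK (Kn : Eis → Eis → ℂ) (h : ℝ → ℝ) (P : DPar) (q : Eis) (ps : List Pq) (r M κ T F : ℝ) : Prop :=
  ∀ (l : ℝ) (ps' : List Pq), 0 ≤ l → List.Forall₂ (ChN r) ps' ps → |LN ps' - LN ps| ≤ r →
    l ≤ T + r → SNK Kn q P h l ps' ≤ F * cN ps' ps ^ M *
      Real.exp (2 * LN ps' + max 0 ((l - 2 * LN ps' + κ) / 3))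

/-- **the flat claims for the joint blocks** : `n' = n - log (nm g) - b`,
`s₀(l; n') ≤ 2 n' + max 0 ((l + κ - 2 n')/3) + b`, `l ≤ T - 2 log (nm g) + b` -/
def FlatLK (Kn : Eis → Eis → ℂ) (h : ℝ → ℝ) (P : DPar) (q : Eis) (ps : List Pq) (G r M κ T F : ℝ) : Prop :=
  ∀ g : Eis, IsPrim g → (nm g : ℝ) ≤ G → ∀ (b l : ℝ) (ps' : List Pq), 0 ≤ b → 0 ≤ l →
    List.Forall₂ (ChN r) ps' ps → |LN ps' - (LN ps - Real.log (nm g) - b)| ≤ r →
    l ≤ T - 2 * Real.log (nm g) + b + r →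
    SNK Kn (q * g) P h l ps' ≤ F * cN ps' ps ^ M *
      Real.exp (2 * LN ps' + max 0 ((l - 2 * LN ps' + κ) / 3) + b)

/-- **the claims for the tails of the main forms**: `e ~ exp b`, level `l`;
`s₀(l; n') ≤ (4/3) n' + (l + κ)/3 + 2 b`, needed if `b ≥ E` or above the plateau `T₀` -/
def TailK (Kn : Eis → Eis → ℂ) (h : ℝ → ℝ) (P : DPar) (q : Eis) (ps : List Pq) (G r M κ T T₀ E F : ℝ) : Prop :=
  ∀ g : Eis, IsPrim g → (nm g : ℝ) ≤ G → ∀ (b l : ℝ) (ps' : List Pq), 0 ≤ b → 0 ≤ l →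
    List.Forall₂ (ChN r) ps' ps → |LN ps' - (LN ps - Real.log (nm g) - b)| ≤ r →
    l ≤ T - 2 * Real.log (nm g) + b + r →
    (E ≤ b ∨ T₀ ≤ l - b + 2 * Real.log (nm g) + 4 * r) →
    SNK Kn (q * g) P h l ps' ≤ F * cN ps' ps ^ M *
      Real.exp (4 / 3 * LN ps' + (l + κ) / 3 + 2 * b)

lemma FlatLK.toO {h : ℝ → ℝ} {P : DPar} {q : Eis} {ps : List Pq} {G r M κ T F : ℝ} (hG : 1 ≤ G)
    (H : FlatLK Kn h P q ps G r M κ T F) : FlatOK Kn h P q ps r M κ T F := by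
  intro l ps' hl hc h1 h2
  have h3 := H 1 isPrim_one (by rw [nm_one, Nat.cast_one]; exact hG) 0 l ps' le_rfl hl hc
    (by rw [nm_one, Nat.cast_one, Real.log_one, sub_zero, sub_zero]; exact h1)
    (by rw [nm_one, Nat.cast_one, Real.log_one]; linarith)
  rw [mul_one, add_zero] at h3
  exact h3

/-- **the first numbers** (`g = 1`). -/
theorem num0K (hKn : Ker Kn) {h : ℝ → ℝ} {c : ℝ} (hpu : PU h c) (N : ℕ) {B₀ : ℝ} (hB₀ : 0 ≤ B₀) {ε : ℝ}
    (hε : 0 < ε) {M : ℝ} (hM : 0 ≤ M) : ∃ C r : ℝ, 1 ≤ C ∧ 0 ≤ r ∧ ∀ X : ℝ, 3 ≤ X →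
    ∀ (P : DPar), P.OK → ∀ (q : Eis) (ps : List Pq), ps.length ≤ N →
    (∀ p ∈ ps, 0 ≤ p.z ∧ p.z ≤ Real.log X) → ∀ (K T F : ℝ), 0 < K → 0 ≤ F →
    FlatOK Kn h P q ps r M (Real.log K) T F → ∀ V t : ℝ, 1 ≤ V → V ≤ X →
    Real.log V ≤ T →
    VK Kn V (tws (sqc q (alF 1 1 P h (natl ps))) t) ≤
      C * X ^ ε * (F * Real.exp (2 * LN ps)) *
        max 1 ((V * K / Real.exp (LN ps) ^ 2) ^ (1 / 3 : ℝ)) *
        (1 + |t|) ^ ((N : ℝ) * M) := by
  obtain ⟨C, r, hC, hr, H⟩ := LegK545.sub_list hKn hpu N hB₀ hε hM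
  refine ⟨C * Real.exp r, 2 * r, ?_, by positivity, ?_⟩
  · have : 1 ≤ Real.exp r := Real.one_le_exp hr
    nlinarith
  intro X hX P hP q ps hN hz K T F hK hF hcl V t hV1 hVX hVT
  have hX1 : (1 : ℝ) ≤ X := by linarith
  have hBump := bump_of_cs hpu.cs
  have hprim : ∀ n, alF 1 1 P h (natl ps) n ≠ 0 → IsPrim n := (FS_alF hBump hP 1 1 _).prim
  have esg : sg (sqc q (alF 1 1 P h (natl ps))) 1 = sqc q (alF 1 1 P h (natl ps)) := by
    funext m
    show sqc q (alF 1 1 P h (natl ps)) (1 * m) = _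
    rw [one_mul]
  have h0 := VK_tws_sg_le (Kn := Kn) 1 1 P h (natl ps) q (isPrim_one).ne_zero t V hprim
  rw [esg] at h0
  refine h0.trans ?_
  have hV0 : 0 < V := by linarith
  set k := Real.log V with hkd
  have hk0 : 0 ≤ k := Real.log_nonneg hV1
  have hkX : k ≤ Real.log X := Real.log_le_log hV0 hVX
  set m := LN ps with hm
  have hLF₁ : LF (shT t (natl ps)) = m := by rw [LF_shT, LF_natl]
  have hlen₁ : (shT t (natl ps)).length ≤ N := by rw [shT_length, length_natl]; exact hN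
  have hl1 : Real.log (nm (1 : Eis)) = 0 := by rw [nm_one, Nat.cast_one, Real.log_one]
  set M0 := max 0 ((k - 2 * m + 2 * 0 + Real.log K) / 3) with hM0
  have key := H X hX P hP 1 1 q le_rfl 1 isPrim_one
    (by rw [nm_one, Nat.cast_one]; exact Real.one_le_rpow hX1 hB₀) k (shT t (natl ps)) hk0 hkX
    hlen₁ (len_z hz)
    (F * (1 + |t|) ^ ((N : ℝ) * M) * Real.exp (2 * m + M0 + r)) (by positivity) ?_
  · have e1 : Real.exp k = V := Real.exp_log hV0
    rw [e1] at key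
    refine key.trans (le_of_eq ?_)
    have e2 : Real.exp (2 * m + M0 + r) =
        Real.exp (2 * m) *
          max 1 ((V * K / Real.exp m ^ 2) ^ (1 / 3 : ℝ)) * Real.exp r := by
      have e3 : max 1 ((V * K / Real.exp m ^ 2) ^ (1 / 3 : ℝ)) = Real.exp M0 := by
        have e4 : (V * K / Real.exp m ^ 2) ^ (1 / 3 : ℝ) =
            Real.exp ((k - 2 * m + 2 * 0 + Real.log K) / 3) := by
          have e5 : V * K / Real.exp m ^ 2 =
              Real.exp (k - 2 * m + 2 * 0 + Real.log K) := by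
            rw [Real.exp_add, Real.exp_log hK, Real.exp_add, Real.exp_sub, e1, mul_zero,
              Real.exp_zero]
            have e7 : Real.exp (2 * m) = Real.exp m ^ 2 := by rw [two_mul, Real.exp_add]; ring
            rw [e7]
            field_simp
          rw [e5, ← Real.exp_mul]
          congr 1
          ring
        rw [e4, hM0]
        have h0 : Real.exp 0 = 1 := Real.exp_zero
        rw [← h0]
        exact (Real.exp_monotone.map_max).symm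
      rw [e3, Real.exp_add, Real.exp_add]
    rw [e2]
    ring
  · intro l ps' hl hch h1 h2 _ h4
    rw [hLF₁, hl1] at h1 h2 h4 ⊢
    rw [Real.log_one, mul_zero] at h2
    obtain ⟨ps'', rfl, h5, h6⟩ := child_conv hch (false_of_child hch (shT_natl_false t ps))
    rw [mul_one, SNK_eq]
    rw [LF_natl] at h1 h2 h4 ⊢
    have h4' := abs_le.1 h4
    have h12 : |LN ps'' - LN ps| ≤ 2 * r := by
      rw [abs_le]
      constructor <;> linarith
    have h7 := hcl l ps'' hl (h5.imp fun _ _ hc => ⟨hc.1, hc.2.1, hc.2.2.1, hc.2.2.2.1,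
      hc.2.2.2.2.trans (by linarith)⟩) h12 (by linarith)
    have h8 := cN_rpow hM hN h6
    have h9 := RG64.fl_sub (κ := Real.log K) h4 (by linarith) hr
    unfold RG64.fl at h9
    have h10 := Real.rpow_nonneg (RG64.cstF_nonneg (natl ps'') (shT t (natl ps))) M
    calc SNK Kn q P h l ps'' ≤ F * cN ps'' ps ^ M *
          Real.exp (2 * LN ps'' + max 0 ((l - 2 * LN ps'' + Real.log K) / 3)) := h7
      _ ≤ F * (cstF (natl ps'') (shT t (natl ps)) ^ M * (1 + |t|) ^ ((N : ℝ) * M)) *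
          Real.exp ((2 * m + max 0 ((k - 2 * m + 2 * 0 + Real.log K) / 3) + r) +
            (LN ps'' + 0 - m)) := by
          have h11 := Real.exp_le_exp.2 (h9.trans (le_of_eq (by ring_nf)) : _ ≤
            (2 * m + max 0 ((k - 2 * m + 2 * 0 + Real.log K) / 3) + r) + (LN ps'' + 0 - m))
          gcongr
      _ = _ := by
          rw [Real.exp_add]
          ring

/-- **the joint blocks**, in exponent form. -/
theorem numJK (hKn : Ker Kn) {h : ℝ → ℝ} {c : ℝ} (hpu : PU h c) (N : ℕ) {B₀ : ℝ} (hB₀ : 0 ≤ B₀) {ε : ℝ}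
    (hε : 0 < ε) {M : ℝ} (hM : 0 ≤ M) : ∃ C r : ℝ, 1 ≤ C ∧ 0 ≤ r ∧ ∀ X : ℝ, 3 ≤ X →
    ∀ (P : DPar), P.OK → ∀ (q : Eis) (ps : List Pq), ps.length ≤ N →
    (∀ p ∈ ps, 0 ≤ p.z ∧ p.z ≤ Real.log X) → ∀ g : Eis, IsPrim g → (nm g : ℝ) ≤ X ^ B₀ →
    ∀ (B V Y t : ℝ) (Q : Eis → Prop), 1 ≤ B → B ≤ X ^ B₀ → 1 ≤ V → V ≤ X → 0 ≤ Y →
    ∀ (F E : ℝ), 0 ≤ F →
    (∀ (l : ℝ) (ps' : List Pq), 0 ≤ l → List.Forall₂ (ChN r) ps' ps →
      |LN ps' - (LN ps - Real.log (nm g) - Real.log B)| ≤ r →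
      |l - (Real.log V + LN ps - Real.log (nm g) - LN ps')| ≤ r →
      SNK Kn (q * g) P h l ps' ≤ F * cN ps' ps ^ M *
        Real.exp (E + (LN ps' + Real.log (nm g) + Real.log B - LN ps))) →
    JBK Kn Y (sqc q (alF 1 1 P h (natl ps))) Q g B V t ≤
      C * X ^ ε * F * (1 + |t|) ^ ((N : ℝ) * M) * Real.exp E := by
  obtain ⟨C, r, hC, hr, H⟩ := JBK_list hKn hpu N hB₀ hε hM
  refine ⟨C, r, hC, hr, ?_⟩
  intro X hX P hP q ps hN hz g hg hgX B V Y t Q hB1 hBX hV1 hVX hY F E hF hyp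
  have key := H X hX P hP 1 1 q le_rfl g hg hgX B V Y t Q hB1 hBX hV1 hVX hY (natl ps)
    (by rw [length_natl]; exact hN) (len_z' hz)
    (F * (1 + |t|) ^ ((N : ℝ) * M) * Real.exp E) (by positivity) ?_
  · refine key.trans (le_of_eq ?_)
    ring
  · intro l ps' hl hch hf h1 h2 h4
    obtain ⟨ps'', rfl, h5, h6⟩ := child_conv hch hf
    rw [SNK_eq]
    rw [LF_natl, LF_natl] at h1 h2 h4
    rw [LF_natl, LF_natl]
    have h7 := hyp l ps'' hl h5 (by
      rw [abs_le]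
      rw [Real.log_one] at h2
      constructor <;> linarith) h4
    have h8 := cN_rpow hM hN h6
    have h10 := Real.rpow_nonneg (RG64.cstF_nonneg (natl ps'') (shT t (natl ps))) M
    calc SNK Kn (q * g) P h l ps'' ≤ F * cN ps'' ps ^ M *
          Real.exp (E + (LN ps'' + Real.log (nm g) + Real.log B - LN ps)) := h7
      _ ≤ F * (cstF (natl ps'') (shT t (natl ps)) ^ M * (1 + |t|) ^ ((N : ℝ) * M)) *
          Real.exp (E + (LN ps'' + Real.log (nm g) + Real.log B - LN ps)) := by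
          gcongr
      _ = _ := by
          rw [Real.exp_add]
          ring

/-- **the second numbers** (`(L)` of `I1WN`). -/
theorem numLK (hKn : Ker Kn) {h : ℝ → ℝ} {c : ℝ} (hpu : PU h c) (N : ℕ) {B₀ : ℝ} (hB₀ : 0 ≤ B₀) {ε : ℝ}
    (hε : 0 < ε) {M : ℝ} (hM : 0 ≤ M) : ∃ C r : ℝ, 1 ≤ C ∧ 0 ≤ r ∧ ∀ X : ℝ, 3 ≤ X →
    ∀ (P : DPar), P.OK → ∀ (q : Eis) (ps : List Pq), ps.length ≤ N →
    (∀ p ∈ ps, 0 ≤ p.z ∧ p.z ≤ Real.log X) → ∀ (K T F : ℝ), 0 < K → 0 ≤ F →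
    FlatLK Kn h P q ps (X ^ B₀) r M (Real.log K) T F →
    ∀ g : Eis, IsPrim g → (nm g : ℝ) ≤ X ^ B₀ →
    ∀ (B V Y t : ℝ) (Q : Eis → Prop), 1 ≤ B → B ≤ X ^ B₀ → 1 ≤ V → V ≤ X → 0 ≤ Y →
    Real.log V ≤ T - 2 * Real.log (nm g) →
    JBK Kn Y (sqc q (alF 1 1 P h (natl ps))) Q g B V t ≤
      C * X ^ ε * (F * Real.exp (2 * LN ps)) / (nm g : ℝ) ^ 2 *
        max B⁻¹ (yv K (Real.exp (LN ps)) g V) * (1 + |t|) ^ ((N : ℝ) * M) := by
  obtain ⟨C, r, hC, hr, H⟩ := numJK hKn hpu N hB₀ hε hM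
  refine ⟨C * Real.exp r, 2 * r, ?_, by positivity, ?_⟩
  · have : 1 ≤ Real.exp r := Real.one_le_exp hr
    nlinarith
  intro X hX P hP q ps hN hz K T F hK hF hcl g hg hgX B V Y t Q hB1 hBX hV1 hVX hY hVT
  have hgn : (0 : ℝ) < nm g := by exact_mod_cast nm_pos.2 hg.ne_zero
  have hg1 : (1 : ℝ) ≤ nm g := by exact_mod_cast nm_pos.2 hg.ne_zero
  have hB0 : 0 < B := by linarith
  have hV0 : 0 < V := by linarith
  set γ := Real.log (nm g) with hγ
  set b := Real.log B with hb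
  set k := Real.log V with hk
  set m := LN ps with hm
  have hb0 : 0 ≤ b := Real.log_nonneg hB1
  set y := (Real.log K + k) / 3 - 2 / 3 * (m - γ) with hy
  have key := H X hX P hP q ps hN hz g hg hgX B V Y t Q hB1 hBX hV1 hVX hY F
    (2 * m - 2 * γ + max (-b) y + r) hF ?_
  · refine key.trans (le_of_eq ?_)
    have e1 : Real.exp (2 * m - 2 * γ + max (-b) y + r) =
        Real.exp (2 * m) / (nm g : ℝ) ^ 2 * max B⁻¹ (yv K (Real.exp m) g V) * Real.exp r := by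
      rw [yv_exp hK hV0 m hg.ne_zero, Real.exp_add, Real.exp_add, Real.exp_sub]
      have e6 : Real.exp (2 * γ) = (nm g : ℝ) ^ 2 := by
        rw [two_mul, Real.exp_add, hγ, Real.exp_log hgn]; ring
      have e7 : Real.exp (max (-b) y) = max B⁻¹ (Real.exp y) := by
        rw [Real.exp_monotone.map_max, Real.exp_neg, hb, Real.exp_log hB0]
      rw [e6, e7]
    rw [e1]
    ring
  · intro l ps' hl hch h1 h2
    obtain ⟨h1a, h1b⟩ := abs_le.1 h1
    obtain ⟨h2a, h2b⟩ := abs_le.1 h2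
    have h7 := hcl g hg hgX b l ps' hb0 hl (hch.imp fun _ _ hc => ⟨hc.1, hc.2.1, hc.2.2.1,
      hc.2.2.2.1, hc.2.2.2.2.trans (by linarith)⟩) (h1.trans (by linarith)) (by linarith)
    refine h7.trans ?_
    have h8 : 2 * LN ps' + max 0 ((l - 2 * LN ps' + Real.log K) / 3) + b ≤
        2 * m - 2 * γ + max (-b) y + r + (LN ps' + γ + b - m) := by
      have h9 : -b ≤ max (-b) y := le_max_left _ _
      have h10 : y ≤ max (-b) y := le_max_right _ _
      rcases le_total 0 ((l - 2 * LN ps' + Real.log K) / 3) with h | h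
      · rw [max_eq_right h]
        linarith
      · rw [max_eq_left h]
        linarith
    exact mul_le_mul_of_nonneg_left (Real.exp_le_exp.2 h8)
      (mul_nonneg hF (Real.rpow_nonneg (cN_nonneg _ _) _))

/-- **the third numbers** (the tails of the main forms). -/
theorem numTK (hKn : Ker Kn) {h : ℝ → ℝ} {c : ℝ} (hpu : PU h c) (N : ℕ) {B₀ : ℝ} (hB₀ : 0 ≤ B₀) {ε : ℝ}
    (hε : 0 < ε) {M : ℝ} (hM : 0 ≤ M) : ∃ C r : ℝ, 1 ≤ C ∧ 0 ≤ r ∧ ∀ X : ℝ, 3 ≤ X →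
    ∀ (P : DPar), P.OK → ∀ (q : Eis) (ps : List Pq), ps.length ≤ N →
    (∀ p ∈ ps, 0 ≤ p.z ∧ p.z ≤ Real.log X) → ∀ (K T T₀ E F : ℝ), 0 < K → 0 ≤ F →
    TailK Kn h P q ps (X ^ B₀) r M (Real.log K) T T₀ E F →
    ∀ g : Eis, IsPrim g → (nm g : ℝ) ≤ X ^ B₀ →
    ∀ (B V Y t : ℝ) (Q : Eis → Prop), 1 ≤ B → B ≤ X ^ B₀ → 1 ≤ V → V ≤ X → 0 ≤ Y →
    Real.log V ≤ T - 2 * Real.log (nm g) → (E ≤ Real.log B ∨ T₀ ≤ Real.log V + 2 * Real.log (nm g)) →
    B⁻¹ * (nm g * (yv K (Real.exp (LN ps)) g V)⁻¹) *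
      JBK Kn Y (sqc q (alF 1 1 P h (natl ps))) Q g B V t ≤
      C * X ^ ε * (F * Real.exp (2 * LN ps)) / nm g * (1 + |t|) ^ ((N : ℝ) * M) := by
  obtain ⟨C, r, hC, hr, H⟩ := numJK hKn hpu N hB₀ hε hM
  refine ⟨C * Real.exp r, 2 * r, ?_, by positivity, ?_⟩
  · have : 1 ≤ Real.exp r := Real.one_le_exp hr
    nlinarith
  intro X hX P hP q ps hN hz K T T₀ E F hK hF hcl g hg hgX B V Y t Q hB1 hBX hV1 hVX hY hVT hET
  have hgn : (0 : ℝ) < nm g := by exact_mod_cast nm_pos.2 hg.ne_zero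
  have hB0 : 0 < B := by linarith
  have hV0 : 0 < V := by linarith
  set γ := Real.log (nm g) with hγ
  set b := Real.log B with hb
  set k := Real.log V with hk
  set m := LN ps with hm
  have hb0 : 0 ≤ b := Real.log_nonneg hB1
  set y := (Real.log K + k) / 3 - 2 / 3 * (m - γ) with hy
  have key := H X hX P hP q ps hN hz g hg hgX B V Y t Q hB1 hBX hV1 hVX hY F
    (2 * m + b + y - 2 * γ + r) hF ?_
  · have e1 : B⁻¹ * (nm g * (yv K (Real.exp m) g V)⁻¹) = Real.exp (γ - b - y) := by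
      rw [yv_exp hK hV0 m hg.ne_zero, ← Real.exp_neg, Real.exp_sub, Real.exp_sub, hγ,
        Real.exp_log hgn, hb, Real.exp_log hB0, Real.exp_neg]
      ring
    rw [e1]
    calc Real.exp (γ - b - y) * JBK Kn Y (sqc q (alF 1 1 P h (natl ps))) Q g B V t ≤
          Real.exp (γ - b - y) * (C * X ^ ε * F * (1 + |t|) ^ ((N : ℝ) * M) *
            Real.exp (2 * m + b + y - 2 * γ + r)) :=
          mul_le_mul_of_nonneg_left key (Real.exp_pos _).le
      _ = C * X ^ ε * F * (1 + |t|) ^ ((N : ℝ) * M) *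
          (Real.exp (γ - b - y) * Real.exp (2 * m + b + y - 2 * γ + r)) := by ring
      _ = C * X ^ ε * F * (1 + |t|) ^ ((N : ℝ) * M) *
          (Real.exp (2 * m) / nm g * Real.exp r) := by
          congr 1
          rw [← Real.exp_add]
          have e2 : γ - b - y + (2 * m + b + y - 2 * γ + r) = 2 * m - γ + r := by ring
          rw [e2, Real.exp_add, Real.exp_sub, hγ, Real.exp_log hgn]
      _ = _ := by ring
  · intro l ps' hl hch h1 h2
    obtain ⟨h1a, h1b⟩ := abs_le.1 h1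
    obtain ⟨h2a, h2b⟩ := abs_le.1 h2
    have h7 := hcl g hg hgX b l ps' hb0 hl (hch.imp fun _ _ hc => ⟨hc.1, hc.2.1, hc.2.2.1,
      hc.2.2.2.1, hc.2.2.2.2.trans (by linarith)⟩) (h1.trans (by linarith)) (by linarith) (by
      rcases hET with h | h
      · exact Or.inl h
      · right
        linarith)
    refine h7.trans ?_
    have h8 : 4 / 3 * LN ps' + (l + Real.log K) / 3 + 2 * b ≤
        2 * m + b + y - 2 * γ + r + (LN ps' + γ + b - m) := by
      rw [hy]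
      linarith
    exact mul_le_mul_of_nonneg_left (Real.exp_le_exp.2 h8)
      (mul_nonneg hF (Real.rpow_nonneg (cN_nonneg _ _) _))

end Crest.Agent.R017.I1K764
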