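import Crest.Agent.R017.P3allF_283
import Crest.Agent.R017.PX1_764

/-!
# Row 17, C.exc item X2 (helper283): mean squares of `th` over all frequencies

For `A > 0`, `b` primary, `c0 = 2π/(9√3) Γ(2/3)`:
* `P3all_one`   : `Σ_{l ≠ 0, (l,b)=1} |th l|² e^{-N(l)/A} = 3 c0 PE(b) A^(2/3) + O(..)`
* `P3all_three` : `Σ_{l ≠ 0, (l,b)=1} |th (3l)|² e^{-N(l)/A} = 3^(4/3) c0 PE(b) A^(2/3) + O(..)`
error `C τ(b)^k A^(1/3) (1 + log(1+A))`.
* `norm_th_sq_le` : `|th h|² ≤ 1` for `h ≠ 0`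
-/

set_option autoImplicit false

noncomputable section

open Finset

namespace Crest.Agent.R017.P3all283

open Crest.Agent.R012 Crest.Agent.R012.Eis Crest.Agent.R012.Tau85 Crest.Agent.R012.T3_85
open Crest.Agent.R012.Mob705 Crest.Agent.R012.Div277

/-- `|ρ(v λ^s · u λ^k a)|²` -/
lemma norm_rhoR {ρ : Eis → ℂ} (hMS : M49.MS ρ) (hR : M49.RhoRel ρ) (h18 : Rho18 ρ) {v : Eis}
    (hv : IsUnit v) (s : ℕ) {u : Eis} (hu : IsUnit u) (k : ℕ) {a : Eis} (ha : IsPrim a) :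
    ‖ρ (v * lam ^ s * (u * lam ^ k * a))‖ ^ 2 =
      (pC * M49.Dsf) ^ 2 * MC.kapR (v * u * lam ^ ((k + s) % 3)) * ‖tauE a‖ ^ 2 := by
  have hvu : IsUnit (v * u) := hv.mul hu
  have e1 : v * lam ^ s * (u * lam ^ k * a) = (v * u * lam ^ (k + s)) * a := by ring
  rw [e1, norm_rho_mul hR (lamish_ulam hvu (k + s)) ha, rho_lam_mod hMS (v * u) (k + s),
    h18 _ hvu _ (by omega)]

/-- the sum over the units -/
def sR (v : Eis) (s k : ℕ) : ℝ := ∑ u ∈ U6, MC.kapR (v * u * lam ^ ((k + s) % 3))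

lemma kapR_nonneg (r : Eis) : 0 ≤ MC.kapR r := by
  unfold MC.kapR
  split_ifs <;> positivity

lemma kapR_le {r : Eis} (hr : r ≠ 0) : MC.kapR r ≤ 1 := by
  unfold MC.kapR
  split_ifs
  · apply Real.rpow_le_one_of_one_le_of_nonpos _ (by norm_num)
    exact_mod_cast nm_pos.2 hr
  · exact zero_le_one

lemma sR_nonneg (v : Eis) (s k : ℕ) : 0 ≤ sR v s k :=
  Finset.sum_nonneg fun _ _ => kapR_nonneg _

lemma sR_le {v : Eis} (hv : IsUnit v) (s k : ℕ) : sR v s k ≤ 6 := by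
  have h1 : sR v s k ≤ ∑ _u ∈ U6, (1 : ℝ) :=
    Finset.sum_le_sum fun u hu => kapR_le (mul_ne_zero (mul_ne_zero hv.ne_zero
      (isUnit_of_mem hu).ne_zero) (pow_ne_zero _ lam_ne_zero))
  have h2 : U6.card = 6 := by decide
  rw [Finset.sum_const, h2] at h1
  simpa using h1

lemma summable_sR {v : Eis} (hv : IsUnit v) (s : ℕ) {y : ℝ} (h0 : 0 ≤ y) (h1 : y < 1) :
    Summable (fun k : ℕ => sR v s k * y ^ k) := by
  refine Summable.of_nonneg_of_le (fun k => mul_nonneg (sR_nonneg v s k) (by positivity))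
    (fun k => ?_) ((summable_geometric_of_lt_one h0 h1).mul_left 6)
  exact mul_le_mul_of_nonneg_right (sR_le hv s k) (by positivity)

/-- the constant -/
def cR (v : Eis) (s : ℕ) : ℝ := ∑' k : ℕ, sR v s k * x23 ^ k

open Classical in
/-- the summand -/
def fr (ρ : Eis → ℂ) (r : Eis) (A : ℝ) (b l : Eis) : ℝ :=
  if l ≠ 0 ∧ IsCoprime l b then ‖ρ (r * l) / ((pC * M49.Dsf : ℝ) : ℂ)‖ ^ 2 *
    Real.exp (-(nm l : ℝ) / A) else 0

lemma fr_nonneg (ρ : Eis → ℂ) (r : Eis) (A : ℝ) (b l : Eis) : 0 ≤ fr ρ r A b l := by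
  unfold fr; split_ifs <;> positivity

lemma fr_eq {ρ : Eis → ℂ} (hMS : M49.MS ρ) (hR : M49.RhoRel ρ) (h18 : Rho18 ρ) {v : Eis}
    (hv : IsUnit v) (s : ℕ) (A : ℝ) {b : Eis}
    (hb : IsPrim b) {u : Eis} (hu : IsUnit u) (k : ℕ) {a : Eis} (ha : IsPrim a) :
    fr ρ (v * lam ^ s) A b (u * lam ^ k * a) = MC.kapR (v * u * lam ^ ((k + s) % 3)) *
      (g2 b a * Real.exp (-(nm a : ℝ) / (A / 3 ^ k))) := by
  classical
  have hne : u * lam ^ k * a ≠ 0 :=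
    mul_ne_zero (mul_ne_zero hu.ne_zero (pow_ne_zero _ lam_ne_zero)) ha.ne_zero
  have hK := pCD_pos
  unfold fr g2
  by_cases hc : IsCoprime a b
  · rw [if_pos ⟨hne, (isCoprime_ulam hu k hb).mpr hc⟩, if_pos hc, norm_div, div_pow,
      norm_rhoR hMS hR h18 hv s hu k ha, Complex.norm_real, Real.norm_of_nonneg hK.le]
    have e1 : -(nm (u * lam ^ k * a) : ℝ) / A = -(nm a : ℝ) / (A / 3 ^ k) := by
      rw [nm_mul, nm_ulam hu]
      push_cast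
      rw [div_div_eq_mul_div]
      ring
    rw [e1]
    have e2 : ∀ K x y z : ℝ, 0 < K → K ^ 2 * x * y / K ^ 2 * z = x * (y * z) := by
      intro K x y z hK
      field_simp
    exact e2 _ _ _ _ hK
  · rw [if_neg (fun h => hc ((isCoprime_ulam hu k hb).mp h.2)), if_neg hc]
    ring

/-- boundedness of the residues -/
lemma norm_rho_le {ρ : Eis → ℂ} (hMS : M49.MS ρ) (hR : M49.RhoRel ρ) (h18 : Rho18 ρ) {l : Eis}
    (hl : l ≠ 0) : ‖ρ l / ((pC * M49.Dsf : ℝ) : ℂ)‖ ^ 2 ≤ 1 := by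
  obtain ⟨⟨k, u, a⟩, rfl⟩ := exists_phi hl
  have hK := pCD_pos
  have hu := isUnit_of_mem u.2
  have e : phi (k, u, a) = 1 * lam ^ 0 * (u.1 * lam ^ k * a.1) := by
    rw [pow_zero, one_mul, one_mul]; rfl
  rw [e, norm_div, div_pow, norm_rhoR hMS hR h18 isUnit_one 0 hu k a.2, Complex.norm_real,
    Real.norm_of_nonneg hK.le]
  have hne : 1 * u.1 * lam ^ ((k + 0) % 3) ≠ 0 :=
    mul_ne_zero (mul_ne_zero one_ne_zero hu.ne_zero) (pow_ne_zero _ lam_ne_zero)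
  have h1 := kapR_le hne
  have h2 := norm_tauE_sq_le_one a.1
  have h3 : (0 : ℝ) < (pC * M49.Dsf) ^ 2 := by positivity
  rw [div_le_one h3]
  have h4 : MC.kapR (1 * u.1 * lam ^ ((k + 0) % 3)) * ‖tauE a.1‖ ^ 2 ≤ 1 :=
    mul_le_one₀ h1 (by positivity) h2
  calc (pC * M49.Dsf) ^ 2 * MC.kapR (1 * u.1 * lam ^ ((k + 0) % 3)) * ‖tauE a.1‖ ^ 2
      = (pC * M49.Dsf) ^ 2 * (MC.kapR (1 * u.1 * lam ^ ((k + 0) % 3)) * ‖tauE a.1‖ ^ 2) := by
        ring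
    _ ≤ (pC * M49.Dsf) ^ 2 * 1 := mul_le_mul_of_nonneg_left h4 h3.le
    _ = _ := mul_one _

lemma fr_le {ρ : Eis → ℂ} (hMS : M49.MS ρ) (hR : M49.RhoRel ρ) (h18 : Rho18 ρ) {r : Eis}
    (hr : r ≠ 0) (A : ℝ) (b l : Eis) : fr ρ r A b l ≤ Real.exp (-(nm l : ℝ) / A) := by
  unfold fr
  split_ifs with h
  · exact mul_le_of_le_one_left (Real.exp_pos _).le (norm_rho_le hMS hR h18 (mul_ne_zero hr h.1))
  · exact (Real.exp_pos _).le

lemma summable_fr {ρ : Eis → ℂ} (hMS : M49.MS ρ) (hR : M49.RhoRel ρ) (h18 : Rho18 ρ) {r : Eis}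
    (hr : r ≠ 0) {A : ℝ} (hA : 0 < A) (b : Eis) : Summable (fr ρ r A b) :=
  Summable.of_nonneg_of_le (fun l => fr_nonneg ρ r A b l) (fun l => fr_le hMS hR h18 hr A b l)
    (summable_exp hA)

lemma tsum_fr {ρ : Eis → ℂ} (hMS : M49.MS ρ) (hR : M49.RhoRel ρ) (h18 : Rho18 ρ) {v : Eis}
    (hv : IsUnit v) (s : ℕ) {A : ℝ} (hA : 0 < A) {b : Eis} (hb : IsPrim b) :
    ∑' l, fr ρ (v * lam ^ s) A b l = ∑' k : ℕ, sR v s k * T411.P3 (A / 3 ^ k) b := by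
  classical
  have h0 : fr ρ (v * lam ^ s) A b 0 = 0 := by unfold fr; rw [if_neg (fun h => h.1 rfl)]
  have hne : v * lam ^ s ≠ 0 := mul_ne_zero hv.ne_zero (pow_ne_zero _ lam_ne_zero)
  rw [tsum_nonzero h0 (summable_fr hMS hR h18 hne hA b)]
  refine tsum_congr fun k => ?_
  unfold sR
  rw [Finset.sum_mul]
  refine Finset.sum_congr rfl fun u hu => ?_
  rw [P3_eq_tsum, ← tsum_mul_left]
  refine tsum_congr fun a => ?_
  by_cases ha : IsPrim a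
  · rw [if_pos ha, fr_eq hMS hR h18 hv s A hb (isUnit_of_mem hu) k ha]
  · rw [if_neg ha]
    have h0 : g2 b a = 0 := by
      unfold g2
      rw [tauE_eq_zero_of_not_isPrim ha]
      simp
    rw [h0]; ring

/-- the mean square at the frequencies `v λ^s l` -/
theorem P3allR {v : Eis} (hv : IsUnit v) (s : ℕ) : ∃ (C : ℝ) (k : ℕ), 0 ≤ C ∧
    ∀ ρ : Eis → ℂ, M49.MS ρ → M49.RhoRel ρ → Rho18 ρ → ∀ (A : ℝ) (b : Eis), 0 < A → IsPrim b →
    |∑' l, fr ρ (v * lam ^ s) A b l - cR v s * c0 * PE b * A ^ ((2 : ℝ) / 3)| ≤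
      C * (tau b : ℝ) ^ k * A ^ ((1 : ℝ) / 3) * (1 + Real.log (1 + A)) := by
  obtain ⟨C, k, hC0, hC⟩ := P3_all_A
  set y : ℝ := (3 : ℝ) ^ (-(1 / 3) : ℝ) with hy
  have hy0 : 0 < y := by positivity
  have hy1 : y < 1 := Real.rpow_lt_one_of_one_lt_of_neg (by norm_num) (by norm_num)
  refine ⟨C * ∑' n : ℕ, sR v s n * y ^ n, k, ?_, ?_⟩
  · exact mul_nonneg hC0 (tsum_nonneg fun n => mul_nonneg (sR_nonneg v s n) (by positivity))
  intro ρ hMS hR h18 A b hA hb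
  rw [tsum_fr hMS hR h18 hv s hA hb]
  have ht : 1 ≤ (tau b : ℝ) ^ k := one_le_pow₀ (one_le_tau hb)
  have hlog : 0 ≤ Real.log (1 + A) := Real.log_nonneg (by linarith)
  -- powers of `A / 3^n`
  have hpow : ∀ (s : ℝ) (n : ℕ), (A / 3 ^ n) ^ s = A ^ s * ((3 : ℝ) ^ (-s)) ^ n := by
    intro s n
    rw [Real.div_rpow hA.le (by positivity), ← Real.rpow_natCast, ← Real.rpow_natCast,
      ← Real.rpow_mul (by norm_num), ← Real.rpow_mul (by norm_num), div_eq_mul_inv,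
      ← Real.rpow_neg (by norm_num)]
    congr 2
    ring
  have hmain : ∀ n : ℕ, sR v s n * (c0 * PE b * (A / 3 ^ n) ^ ((2 : ℝ) / 3)) =
      c0 * PE b * A ^ ((2 : ℝ) / 3) * (sR v s n * x23 ^ n) := by
    intro n
    rw [hpow]
    unfold x23
    ring
  have hS1 : Summable (fun n : ℕ => sR v s n * (c0 * PE b * (A / 3 ^ n) ^ ((2 : ℝ) / 3))) := by
    simp_rw [hmain]
    exact (summable_sR hv s x23_pos.le x23_lt).mul_left _
  -- termwise bound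
  have hterm : ∀ n : ℕ,
      |sR v s n * (T411.P3 (A / 3 ^ n) b - c0 * PE b * (A / 3 ^ n) ^ ((2 : ℝ) / 3))| ≤
      C * (tau b : ℝ) ^ k * A ^ ((1 : ℝ) / 3) * (1 + Real.log (1 + A)) * (sR v s n * y ^ n) := by
    intro n
    have hAn : 0 < A / 3 ^ n := by positivity
    have hle : A / 3 ^ n ≤ A := div_le_self hA.le (one_le_pow₀ (by norm_num))
    rw [abs_mul, abs_of_nonneg (sR_nonneg v s n)]
    have h1 := hC (A / 3 ^ n) b hAn hb
    have h2 : (A / 3 ^ n) ^ ((1 : ℝ) / 3) = A ^ ((1 : ℝ) / 3) * y ^ n := hpow _ n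
    have h3 : Real.log (1 + A / 3 ^ n) ≤ Real.log (1 + A) :=
      Real.log_le_log (by positivity) (by linarith)
    have h4 : C * (tau b : ℝ) ^ k * (A / 3 ^ n) ^ ((1 : ℝ) / 3) * (1 + Real.log (1 + A / 3 ^ n)) ≤
        C * (tau b : ℝ) ^ k * (A ^ ((1 : ℝ) / 3) * y ^ n) * (1 + Real.log (1 + A)) := by
      rw [h2]
      gcongr
    calc sR v s n * |T411.P3 (A / 3 ^ n) b - c0 * PE b * (A / 3 ^ n) ^ ((2 : ℝ) / 3)|
        ≤ sR v s n * (C * (tau b : ℝ) ^ k * (A ^ ((1 : ℝ) / 3) * y ^ n) *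
            (1 + Real.log (1 + A))) :=
          mul_le_mul_of_nonneg_left (h1.trans h4) (sR_nonneg v s n)
      _ = _ := by ring
  have hS3 : Summable (fun n : ℕ =>
      C * (tau b : ℝ) ^ k * A ^ ((1 : ℝ) / 3) * (1 + Real.log (1 + A)) * (sR v s n * y ^ n)) :=
    (summable_sR hv s hy0.le hy1).mul_left _
  have hS2 : Summable (fun n : ℕ =>
      sR v s n * (T411.P3 (A / 3 ^ n) b - c0 * PE b * (A / 3 ^ n) ^ ((2 : ℝ) / 3))) :=
    Summable.of_norm_bounded hS3 (fun n => by rw [Real.norm_eq_abs]; exact hterm n)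
  have e1 : ∑' n : ℕ, sR v s n * T411.P3 (A / 3 ^ n) b =
      (∑' n : ℕ, sR v s n * (T411.P3 (A / 3 ^ n) b - c0 * PE b * (A / 3 ^ n) ^ ((2 : ℝ) / 3))) +
      ∑' n : ℕ, sR v s n * (c0 * PE b * (A / 3 ^ n) ^ ((2 : ℝ) / 3)) := by
    rw [← hS2.tsum_add hS1]
    refine tsum_congr fun n => ?_
    ring
  have e2 : ∑' n : ℕ, sR v s n * (c0 * PE b * (A / 3 ^ n) ^ ((2 : ℝ) / 3)) =
      cR v s * c0 * PE b * A ^ ((2 : ℝ) / 3) := by
    simp_rw [hmain]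
    rw [tsum_mul_left]
    unfold cR
    ring
  rw [e1, e2, add_sub_cancel_right, ← Real.norm_eq_abs]
  refine (norm_tsum_le_tsum_norm hS2.norm).trans ?_
  calc ∑' n : ℕ, ‖sR v s n * (T411.P3 (A / 3 ^ n) b - c0 * PE b * (A / 3 ^ n) ^ ((2 : ℝ) / 3))‖
      ≤ ∑' n : ℕ, C * (tau b : ℝ) ^ k * A ^ ((1 : ℝ) / 3) * (1 + Real.log (1 + A)) *
          (sR v s n * y ^ n) :=
        hS2.norm.tsum_le_tsum (fun n => by rw [Real.norm_eq_abs]; exact hterm n) hS3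
    _ = _ := by rw [tsum_mul_left]; ring

/-! ### the two constants -/

lemma sR_three (k : ℕ) : sR (-w ^ 2) 2 k = sU k := rfl

lemma cR_three : cR (-w ^ 2) 2 = (3 : ℝ) ^ ((4 : ℝ) / 3) := tsum_sU

lemma sR_one_zero {k : ℕ} (h : (k + 0) % 3 = 0) : sR 1 0 k = 2 := by
  unfold sR
  rw [h, U6_sum, kapR_of_dvd (by decide), kapR_of_dvd (by decide), kapR_of_not (by decide),
    kapR_of_not (by decide), kapR_of_not (by decide), kapR_of_not (by decide)]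
  rw [nm_ulam (isUnit_one.mul isUnit_one), nm_ulam (isUnit_one.mul isUnit_one.neg)]
  norm_num

lemma sR_one_one {k : ℕ} (h : (k + 0) % 3 = 1) : sR 1 0 k = 0 := by
  unfold sR
  rw [h, U6_sum, kapR_of_not (by decide), kapR_of_not (by decide), kapR_of_not (by decide),
    kapR_of_not (by decide), kapR_of_not (by decide), kapR_of_not (by decide)]
  norm_num

lemma sR_one_two {k : ℕ} (h : (k + 0) % 3 = 2) : sR 1 0 k = 6 * (9 : ℝ) ^ (-(1 / 3) : ℝ) := by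
  unfold sR
  have hw := isUnit_w
  have h1 : IsUnit (1 : Eis) := isUnit_one
  rw [h, U6_sum, kapR_of_dvd (by decide), kapR_of_dvd (by decide), kapR_of_dvd (by decide),
    kapR_of_dvd (by decide), kapR_of_dvd (by decide), kapR_of_dvd (by decide),
    nm_ulam (h1.mul isUnit_one), nm_ulam (h1.mul isUnit_one.neg),
    nm_ulam (h1.mul hw), nm_ulam (h1.mul hw.neg),
    nm_ulam (h1.mul (hw.pow 2)), nm_ulam (h1.mul (hw.pow 2).neg)]
  norm_num
  ring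

lemma cR_one : cR 1 0 = 3 := by
  have hs := summable_sR isUnit_one 0 x23_pos.le x23_lt
  have h := hs.sum_add_tsum_nat_add 3
  have e1 : ∑' k : ℕ, sR 1 0 (k + 3) * x23 ^ (k + 3) = x23 ^ 3 * ∑' k : ℕ, sR 1 0 k * x23 ^ k := by
    rw [← tsum_mul_left]
    refine tsum_congr fun k => ?_
    have : sR 1 0 (k + 3) = sR 1 0 k := by
      unfold sR
      have : (k + 3 + 0) % 3 = (k + 0) % 3 := by omega
      rw [this]
    rw [this]; ring
  have hx := x23_cube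
  rw [e1, Finset.sum_range_succ, Finset.sum_range_succ, Finset.sum_range_one,
    sR_one_zero (k := 0) rfl, sR_one_one (k := 1) rfl, sR_one_two (k := 2) rfl, nine_rpow,
    hx] at h
  unfold cR
  set T := ∑' k : ℕ, sR 1 0 k * x23 ^ k
  have h2 : 6 * x23 * x23 ^ 2 = 6 * (1 / 9) := by rw [← hx]; ring
  rw [h2] at h
  linarith

/-! ### final forms -/

open PX764 in
lemma norm_th_sq_le {h : Eis} (hh : h ≠ 0) : ‖th h‖ ^ 2 ≤ 1 :=
  norm_rho_le rho_MS rho_rel (rho18 rho_MS rho_rel) hh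

open PX764 in
lemma norm_th_le {h : Eis} (hh : h ≠ 0) : ‖th h‖ ≤ 1 := by
  have := norm_th_sq_le hh
  nlinarith [norm_nonneg (th h)]

open Classical in
/-- summand with `th` -/
def ft3 (r : Eis) (A : ℝ) (b l : Eis) : ℝ :=
  if l ≠ 0 ∧ IsCoprime l b then ‖PX764.th (r * l)‖ ^ 2 * Real.exp (-(nm l : ℝ) / A) else 0

lemma ft3_eq (r : Eis) (A : ℝ) (b l : Eis) : ft3 r A b l = fr PX764.rho r A b l := rfl

lemma summable_ft3 {r : Eis} (hr : r ≠ 0) {A : ℝ} (hA : 0 < A) (b : Eis) :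
    Summable (ft3 r A b) :=
  summable_fr PX764.rho_MS PX764.rho_rel (rho18 PX764.rho_MS PX764.rho_rel) hr hA b

/-- **X2**, frequencies `l`. -/
theorem P3all_one : ∃ (C : ℝ) (k : ℕ), 0 ≤ C ∧ ∀ (A : ℝ) (b : Eis), 0 < A → IsPrim b →
    Summable (ft3 1 A b) ∧
    |∑' l, ft3 1 A b l - 3 * c0 * PE b * A ^ ((2 : ℝ) / 3)| ≤
      C * (tau b : ℝ) ^ k * A ^ ((1 : ℝ) / 3) * (1 + Real.log (1 + A)) := by
  obtain ⟨C, k, h0, h⟩ := P3allR isUnit_one 0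
  refine ⟨C, k, h0, fun A b hA hb => ⟨summable_ft3 one_ne_zero hA b, ?_⟩⟩
  have := h PX764.rho PX764.rho_MS PX764.rho_rel (rho18 PX764.rho_MS PX764.rho_rel) A b hA hb
  rw [cR_one, pow_zero, one_mul] at this
  exact this

/-- **X2**, frequencies `3 l`. -/
theorem P3all_three : ∃ (C : ℝ) (k : ℕ), 0 ≤ C ∧ ∀ (A : ℝ) (b : Eis), 0 < A → IsPrim b →
    Summable (ft3 3 A b) ∧
    |∑' l, ft3 3 A b l - (3 : ℝ) ^ ((4 : ℝ) / 3) * c0 * PE b * A ^ ((2 : ℝ) / 3)| ≤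
      C * (tau b : ℝ) ^ k * A ^ ((1 : ℝ) / 3) * (1 + Real.log (1 + A)) := by
  obtain ⟨C, k, h0, h⟩ := P3allR ((isUnit_w.pow 2).neg) 2
  have h3 : (3 : Eis) ≠ 0 := by decide
  refine ⟨C, k, h0, fun A b hA hb => ⟨summable_ft3 h3 hA b, ?_⟩⟩
  have := h PX764.rho PX764.rho_MS PX764.rho_rel (rho18 PX764.rho_MS PX764.rho_rel) A b hA hb
  rw [cR_three, ← three_eq] at this
  exact this

/-- for `b` primary the factor `3` does not matter -/
lemma isCoprime_three_mul {b l : Eis} (hb : IsPrim b) : IsCoprime (3 * l) b ↔ IsCoprime l b := by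
  have h : IsCoprime (3 : Eis) b := by
    obtain ⟨t, ht⟩ := hb
    exact ⟨-t, 1, by linear_combination ht⟩
  rw [IsCoprime.mul_left_iff]
  exact ⟨fun h' => h'.2, fun h' => ⟨h, h'⟩⟩

end Crest.Agent.R017.P3all283
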