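import Crest.Agent.R017.XC5_858
import Crest.Agent.R017.ProvI_71

/-!
# Row 17: rule (C) for the provider (helper858)

`SKq K P h l ps = SK K h l (ps.map (Pq.pc P))` for any kernel with `Ker K` (`Sp P h = SKq Kg P h`)
* `RC_SKq` : rule (C)
* `cau_858`, `cauS_858` : the fields `cau`, `cauS` of `BRules` (`Sp P h`)
* `cauK_858`, `cauSK_858` : the same for every kernel `K` with `Ker K`
-/

set_option autoImplicit false
set_option linter.unusedSectionVars false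

noncomputable section

namespace Crest.Agent.R017.XC858

open Crest.Agent.R012 Crest.Agent.R012.Eis Crest.Agent.R012.LS2 Crest.Agent.R012.Gauss880
open Crest.Agent.R017.CM106 Crest.Agent.R017.FE47
open Crest.Agent.R017.HP842 (Ker ker_Kg KS sqc Kg pc dl alL alL_cons)
open Crest.Agent.R017.XG702 (Pcs BG)
open Crest.Agent.R017.B770
open Crest.Agent.R017.Prov71
open Crest.Agent.R017.LBp744 (oneS)

lemma dl_eq : (dl : Eis → ℂ) = oneS := by
  funext n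
  by_cases h : n = 1
  · subst h
    rw [HP842.dl_one]
    unfold LBp744.oneS
    rw [if_pos rfl]
  · rw [HP842.dl_ne h]
    unfold LBp744.oneS
    rw [if_neg h]

/-- the two names of the sequence of a list -/
lemma alP_eq (h : ℝ → ℝ) (ps : List HP842.Pc) : alP h ps = alL h ps := by
  induction ps with
  | nil => exact dl_eq.symm
  | cons p ps ih => rw [alP_cons, alL_cons, ih]

/-- the Gauss side of the provider with kernel `K` -/
def SKq (K : Eis → Eis → ℂ) (P : DPar) (h : ℝ → ℝ) (l : ℝ) (ps : List Pq) : ℝ :=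
  SK K h l (ps.map (Pq.pc P))

lemma Sp_eq (P : DPar) (h : ℝ → ℝ) : Sp P h = SKq Kg P h := rfl

lemma SKq_eq (K : Eis → Eis → ℂ) (P : DPar) (h : ℝ → ℝ) : SKq K P h = SV K h 1 (Pq.pc P) := by
  funext l ps
  unfold SKq SK SV VK
  rw [alP_eq]

/-- bounds for the bump -/
lemma bump_data {h : ℝ → ℝ} {c : ℝ} (hh : PU h c) : ∃ R H : ℝ, 0 ≤ R ∧ 0 < H ∧
    (∀ u, cx h u ≠ 0 → |u| ≤ R) ∧ ∀ u, ‖cx h u‖ ≤ H := by
  obtain ⟨R, hR⟩ := bump_of_cs hh.cs
  obtain ⟨H, hH⟩ := hh.cs.exists_bound_of_continuous hh.cd.continuous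
  refine ⟨max R 0, max H 1, le_max_right _ _, lt_max_of_lt_right one_pos,
    fun u hu => (hR u hu).trans (le_max_left _ _), fun u => ?_⟩
  unfold cx
  rw [Complex.norm_real]
  exact (hH u).trans (le_max_left _ _)

variable {Lam : Type*}

lemma pinv_SKq (K : Eis → Eis → ℂ) (π : Lam → DPar) (h : ℝ → ℝ) :
    Pinv (fun lam => SKq K (π lam) h) :=
  fun _ l _ _ hp => SK_perm K h l (hp.map _)

/-- **rule (C)** for the provider, every kernel -/
theorem RC_SKq {K : Eis → Eis → ℂ} (hK : Ker K) {P : DPar} (hP : P.OK) {h : ℝ → ℝ} {c : ℝ}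
    (hh : PU h c) : ∃ R : ℝ, 0 ≤ R ∧ RC Dq (SKq K P h) R := by
  obtain ⟨R, H, hR0, hH0, hR, hH⟩ := bump_data hh
  refine ⟨R, hR0, ?_⟩
  rw [SKq_eq]
  exact SV_RC hK hR0 hR hH0 hH (fun p => Pq.ok hP p) fun p => rfl

/-- **the field `cau`**, every kernel -/
theorem cauK_858 {K : Eis → Eis → ℂ} (hK : Ker K) {π : Lam → DPar} (hP : ∀ lam, (π lam).OK)
    {h : ℝ → ℝ} {c₀ : ℝ} (hh : PU h c₀) (κ : ℝ) (u : List ℝ) (m a b c e : ℝ) (_hκ : 0 ≤ κ)
    (_hu : Okl u m a) (hb : 0 ≤ b) (hbm : b ≤ m) (hc : 0 ≤ c) (hca : c ≤ a)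
    (H : BG Dq (fun lam => SKq K (π lam) h) (κ + (b + c)) u (wt (m - b) (a - c)) e) :
    BG Dq (fun lam => SKq K (π lam) h) κ u (wt m a) ((b + c) + e) :=
  cau_of_RC (pinv_SKq K π h) (fun lam => RC_SKq hK (hP lam) hh) κ u m a b c e hb hbm hc hca H

/-- **the field `cauS`**, every kernel -/
theorem cauSK_858 {K : Eis → Eis → ℂ} (hK : Ker K) {π : Lam → DPar} (hP : ∀ lam, (π lam).OK)
    {h : ℝ → ℝ} {c₀ : ℝ} (hh : PU h c₀) (κ y : ℝ) (u : List ℝ) (m a e : ℝ) (_hκ : 0 ≤ κ)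
    (_hy : 0 ≤ y) (hu : Okl u m a)
    (H : BG Dq (fun lam => SKq K (π lam) h) (κ + y) u (wt m a) e) :
    BG Dq (fun lam => SKq K (π lam) h) κ (y :: u) (wt m a) (y + e) :=
  cauS_of_RC (pinv_SKq K π h) (fun lam => RC_SKq hK (hP lam) hh) κ y u m a e hu.2.1 hu.2.2 H

/-- **the field `cau`** of `BRules` -/
theorem cau_858 {π : Lam → DPar} (hP : ∀ lam, (π lam).OK) {h : ℝ → ℝ} {c₀ : ℝ} (hh : PU h c₀)
    (κ : ℝ) (u : List ℝ) (m a b c e : ℝ) (hκ : 0 ≤ κ) (hu : Okl u m a) (hb : 0 ≤ b) (hbm : b ≤ m)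
    (hc : 0 ≤ c) (hca : c ≤ a)
    (H : BG Dq (fun lam => Sp (π lam) h) (κ + (b + c)) u (wt (m - b) (a - c)) e) :
    BG Dq (fun lam => Sp (π lam) h) κ u (wt m a) ((b + c) + e) :=
  cauK_858 ker_Kg hP hh κ u m a b c e hκ hu hb hbm hc hca H

/-- **the field `cauS`** of `BRules` -/
theorem cauS_858 {π : Lam → DPar} (hP : ∀ lam, (π lam).OK) {h : ℝ → ℝ} {c₀ : ℝ} (hh : PU h c₀)
    (κ y : ℝ) (u : List ℝ) (m a e : ℝ) (hκ : 0 ≤ κ) (hy : 0 ≤ y) (hu : Okl u m a)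
    (H : BG Dq (fun lam => Sp (π lam) h) (κ + y) u (wt m a) e) :
    BG Dq (fun lam => Sp (π lam) h) κ (y :: u) (wt m a) (y + e) :=
  cauSK_858 ker_Kg hP hh κ y u m a e hκ hy hu H

end Crest.Agent.R017.XC858
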