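import Crest.Agent.R017.XHB4_411
import Crest.Agent.R017.XC6_858
import Crest.Agent.R017.Mono4_858
import Crest.Agent.R017.P3th_283

/-!
# Row 17, exceptional class: the kernel `Dk` on the Gauss side (helper848)

* `ker_Dk`, `Dk_cube'` : `Dk` satisfies `HP842.Ker` and is invariant under cubes
* `sum_th_sq` : `∑_{x ∈ bl L} ‖th x‖² ≤ C L^(2/3)`
* `hbD_cf`, `hbL_D`, `bg_SD` : rule HB for the kernel `Dk`, **the field `hbG`**
* `cauD`, `cauSD`, `monoD`, `rawMonoD` : rules (C), (Mono)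
-/

set_option autoImplicit false

noncomputable section

open Complex Finset
open scoped BigOperators ComplexConjugate

namespace Crest.Agent.R017.Dk848

open Crest.Agent.R012 Crest.Agent.R012.Eis Crest.Agent.R012.Gauss880 Crest.Agent.R012.Div277
open Crest.Agent.R012.LS2 (bl mem_bl)
open Crest.Agent.R017.CM106 (CS TG)
open Crest.Agent.R017.FE47 (cx PU)
open Crest.Agent.R017.Lbc298 (Cf one_le_tau_of_prim)
open Crest.Agent.R017.HP842 (KS Kg Ker sqc Pc pc alL)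
open Crest.Agent.R017.PX764 (th n6 md Gh Dk pC_pos n6_pos n6_le_one md_nonneg)
open Crest.Agent.R017.P3all283 (ft3 P3all_one c0)
open Crest.Agent.R017.XHB411
open Crest.Agent.R017.Prov71 Crest.Agent.R017.XG702 Crest.Agent.R017.B770

/-- **rule (C), rule "coprime"** -/
lemma ker_Dk : Ker Dk where
  mul h w m hw hs hm := PX764.Dk_mul hw hs hm
  cop h m hm hc := by
    unfold PX764.Dk PX764.md
    have h1 : ¬ IsCoprime h m := fun h' => hc h'.symm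
    rw [PX764.Gh_zero hm h1, if_neg (fun h2 => hc h2.2)]
    simp

lemma Dk_cube' (x p m : Eis) (hp : Prime p) (_hpp : IsPrim p) (hm : IsPrim m)
    (hc : IsCoprime m p) : Dk (x * p ^ 3) m = Dk x m :=
  PX764.Dk_cube hp.ne_zero hm hc.symm

/-- the second moment of the theta coefficients -/
theorem sum_th_sq : ∃ C : ℝ, 0 ≤ C ∧ ∀ L : ℝ, 1 ≤ L →
    ∑ x ∈ bl L, ‖th x‖ ^ 2 ≤ C * L ^ ((2 : ℝ) / 3) := by
  classical
  obtain ⟨C, k, hC, h⟩ := P3all_one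
  obtain ⟨D, hD, hlog⟩ : ∃ D : ℝ, 0 ≤ D ∧ ∀ L : ℝ, 1 ≤ L →
      1 + Real.log (1 + L) ≤ D * L ^ ((1 : ℝ) / 3) := by
    refine ⟨1 + 6, by norm_num, fun L hL => ?_⟩
    have hL0 : (0 : ℝ) < L := by linarith
    have h1 : 1 ≤ L ^ ((1 : ℝ) / 3) := Real.one_le_rpow hL (by norm_num)
    have h2 : Real.log (1 + L) ≤ (1 + L) ^ ((1 : ℝ) / 3) / (1 / 3) :=
      Real.log_le_rpow_div (by linarith) (by norm_num)
    have h3 : (1 + L) ^ ((1 : ℝ) / 3) ≤ 2 * L ^ ((1 : ℝ) / 3) := by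
      calc (1 + L) ^ ((1 : ℝ) / 3) ≤ (2 * L) ^ ((1 : ℝ) / 3) := by
            apply Real.rpow_le_rpow (by linarith) (by linarith) (by norm_num)
        _ = (2 : ℝ) ^ ((1 : ℝ) / 3) * L ^ ((1 : ℝ) / 3) := Real.mul_rpow (by norm_num) hL0.le
        _ ≤ 2 * L ^ ((1 : ℝ) / 3) := by
            have : (2 : ℝ) ^ ((1 : ℝ) / 3) ≤ 2 ^ (1 : ℝ) :=
              Real.rpow_le_rpow_of_exponent_le (by norm_num) (by norm_num)
            rw [Real.rpow_one] at this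
            gcongr
    have h4 : (1 + L) ^ ((1 : ℝ) / 3) / (1 / 3) = 3 * (1 + L) ^ ((1 : ℝ) / 3) := by ring
    rw [h4] at h2
    linarith
  set M : ℝ := |3 * c0 * Mob705.PE 1| + C * (tau (1 : Eis) : ℝ) ^ k * D with hM
  have hM0 : 0 ≤ M := by positivity
  refine ⟨Real.exp 1 * M, by positivity, fun L hL => ?_⟩
  have hL0 : (0 : ℝ) < L := by linarith
  obtain ⟨hs, h1⟩ := h L 1 hL0 isPrim_one
  have h2 : ∑ x ∈ bl L, ‖th x‖ ^ 2 ≤ Real.exp 1 * ∑ x ∈ bl L, ft3 1 L 1 x := by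
    rw [Finset.mul_sum]
    refine Finset.sum_le_sum fun x hx => ?_
    obtain ⟨hx0, hxL⟩ := (mem_bl hL0.le).1 hx
    unfold P3all283.ft3
    rw [if_pos ⟨hx0, isCoprime_one_right⟩, one_mul]
    have h3 : 1 ≤ Real.exp 1 * Real.exp (-(nm x : ℝ) / L) := by
      rw [← Real.exp_add]
      apply Real.one_le_exp
      have : (nm x : ℝ) / L ≤ 1 := (div_le_one hL0).2 hxL
      rw [neg_div]
      linarith
    calc ‖th x‖ ^ 2 = ‖th x‖ ^ 2 * 1 := (mul_one _).symm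
      _ ≤ ‖th x‖ ^ 2 * (Real.exp 1 * Real.exp (-(nm x : ℝ) / L)) := by gcongr
      _ = _ := by ring
  have h3 : ∑ x ∈ bl L, ft3 1 L 1 x ≤ ∑' x, ft3 1 L 1 x := by
    refine hs.sum_le_tsum _ fun x _ => ?_
    unfold P3all283.ft3
    split_ifs <;> positivity
  have h4 : ∑' x, ft3 1 L 1 x ≤ M * L ^ ((2 : ℝ) / 3) := by
    have h5 := (abs_le.1 h1).2
    have h6 : C * (tau (1 : Eis) : ℝ) ^ k * L ^ ((1 : ℝ) / 3) * (1 + Real.log (1 + L)) ≤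
        C * (tau (1 : Eis) : ℝ) ^ k * D * L ^ ((2 : ℝ) / 3) := by
      have e : L ^ ((2 : ℝ) / 3) = L ^ ((1 : ℝ) / 3) * L ^ ((1 : ℝ) / 3) := by
        rw [← Real.rpow_add hL0]; norm_num
      calc C * (tau (1 : Eis) : ℝ) ^ k * L ^ ((1 : ℝ) / 3) * (1 + Real.log (1 + L))
          ≤ C * (tau (1 : Eis) : ℝ) ^ k * L ^ ((1 : ℝ) / 3) * (D * L ^ ((1 : ℝ) / 3)) := by
            gcongr
            exact hlog L hL
        _ = _ := by rw [e]; ring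
    have h7 : 3 * c0 * Mob705.PE 1 * L ^ ((2 : ℝ) / 3) ≤ |3 * c0 * Mob705.PE 1| * L ^ ((2 : ℝ) / 3) := by
      gcongr
      exact le_abs_self _
    rw [hM, add_mul]
    linarith
  calc ∑ x ∈ bl L, ‖th x‖ ^ 2 ≤ Real.exp 1 * ∑ x ∈ bl L, ft3 1 L 1 x := h2
    _ ≤ Real.exp 1 * (M * L ^ ((2 : ℝ) / 3)) := by gcongr; exact h3.trans h4
    _ = _ := by ring

/-- the absolute sum -/
def asum (α : Eis → ℂ) : ℝ := ∑' n : Eis, ‖α n‖ * n6 n

lemma KS_Dk {α : Eis → ℂ} (hα : CM106.FS α) (x : Eis) :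
    KS Dk α x = KS Kg α x - (pC : ℂ) * th x * ∑' n : Eis, α n * (md x n : ℂ) := by
  unfold KS
  have hf : ∀ f : Eis → ℂ, ∑' n : Eis, α n * f n = ∑ n ∈ hα.fin.toFinset, α n * f n := by
    intro f
    refine tsum_eq_sum fun n hn => ?_
    have : α n = 0 := by
      by_contra h0
      exact hn (hα.fin.mem_toFinset.2 h0)
    rw [this, zero_mul]
  rw [hf (fun n => Dk x n), hf (fun n => Kg x n), hf (fun n => (md x n : ℂ)), Finset.mul_sum,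
    ← Finset.sum_sub_distrib]
  refine Finset.sum_congr rfl fun n _ => ?_
  unfold PX764.Dk PX764.Gh HP842.Kg
  ring

lemma md_le_n6 {x n : Eis} (hn : n ≠ 0) : md x n ≤ n6 n := by
  unfold PX764.md
  split_ifs
  · exact le_rfl
  · exact (n6_pos hn).le

/-- the absolute sum of a coefficient class -/
lemma asum_le {α : Eis → ℂ} {W X : ℝ} (hX : 1 ≤ X) (hW : 0 ≤ W) (hα : CM106.FS α)
    (hs : ∀ n, α n ≠ 0 → (nm n : ℝ) ≤ X) (hb : ∀ n, ‖α n‖ ≤ W) :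
    asum α ≤ W * (X ^ ((5 : ℝ) / 6) * (100 * (1 + Real.log X))) := by
  have hX0 : (0 : ℝ) < X := by linarith
  have h1 : asum α = ∑ n ∈ hα.fin.toFinset, ‖α n‖ * n6 n := by
    unfold asum
    refine tsum_eq_sum fun n hn => ?_
    have : α n = 0 := by
      by_contra h0
      exact hn (hα.fin.mem_toFinset.2 h0)
    rw [this, norm_zero, zero_mul]
  rw [h1]
  have hsub : hα.fin.toFinset ⊆ nz ⌊X⌋₊ := by
    intro n hn
    have h2 : α n ≠ 0 := hα.fin.mem_toFinset.1 hn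
    exact mem_nz.2 ⟨(hα.prim n h2).ne_zero, Nat.le_floor (hs n h2)⟩
  have h0 : (0 : ℝ) < (⌊X⌋₊ : ℝ) := by
    have := Nat.floor_pos.2 hX
    exact_mod_cast this
  calc ∑ n ∈ hα.fin.toFinset, ‖α n‖ * n6 n
      ≤ ∑ n ∈ hα.fin.toFinset, W * X ^ ((5 : ℝ) / 6) * (1 / (nm n : ℝ)) := by
        refine Finset.sum_le_sum fun n hn => ?_
        have h2 : α n ≠ 0 := hα.fin.mem_toFinset.1 hn
        have hn0 := (hα.prim n h2).ne_zero
        have hn1 : (0 : ℝ) < nm n := by exact_mod_cast nm_pos.2 hn0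
        have e1 : n6 n = (nm n : ℝ) ^ ((5 : ℝ) / 6) * (1 / (nm n : ℝ)) := by
          unfold PX764.n6
          rw [one_div, ← Real.rpow_neg_one, ← Real.rpow_add hn1]
          norm_num
        rw [e1, mul_assoc]
        have e2 : (nm n : ℝ) ^ ((5 : ℝ) / 6) ≤ X ^ ((5 : ℝ) / 6) :=
          Real.rpow_le_rpow hn1.le (hs n h2) (by norm_num)
        have e3 := hb n
        gcongr
    _ ≤ ∑ n ∈ nz ⌊X⌋₊, W * X ^ ((5 : ℝ) / 6) * (1 / (nm n : ℝ)) :=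
        Finset.sum_le_sum_of_subset_of_nonneg hsub fun _ _ _ => by positivity
    _ = W * X ^ ((5 : ℝ) / 6) * ∑ n ∈ nz ⌊X⌋₊, 1 / (nm n : ℝ) := by rw [Finset.mul_sum]
    _ ≤ W * X ^ ((5 : ℝ) / 6) * (100 * (1 + Real.log X)) := by
        have h3 : ∑ n ∈ nz ⌊X⌋₊, 1 / (nm n : ℝ) ≤ 100 * (1 + Real.log (⌊X⌋₊ : ℝ)) := sum_inv_nz_le _
        have h4 := Real.log_le_log h0 (Nat.floor_le hX0.le)
        have h5 : ∑ n ∈ nz ⌊X⌋₊, 1 / (nm n : ℝ) ≤ 100 * (1 + Real.log X) := by linarith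
        gcongr
    _ = _ := by ring

lemma norm_bias_le {α : Eis → ℂ} (hα : CM106.FS α) (x : Eis) :
    ‖∑' n : Eis, α n * (md x n : ℂ)‖ ≤ asum α := by
  have h1 : ∑' n : Eis, α n * (md x n : ℂ) = ∑ n ∈ hα.fin.toFinset, α n * (md x n : ℂ) := by
    refine tsum_eq_sum fun n hn => ?_
    have : α n = 0 := by
      by_contra h0
      exact hn (hα.fin.mem_toFinset.2 h0)
    rw [this, zero_mul]
  have h2 : asum α = ∑ n ∈ hα.fin.toFinset, ‖α n‖ * n6 n := by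
    unfold asum
    refine tsum_eq_sum fun n hn => ?_
    have : α n = 0 := by
      by_contra h0
      exact hn (hα.fin.mem_toFinset.2 h0)
    rw [this, norm_zero, zero_mul]
  rw [h1, h2]
  refine (norm_sum_le _ _).trans (Finset.sum_le_sum fun n hn => ?_)
  have hn0 := (hα.prim n (hα.fin.mem_toFinset.1 hn)).ne_zero
  rw [norm_mul, Complex.norm_real, Real.norm_of_nonneg (md_nonneg hn0)]
  exact mul_le_mul_of_nonneg_left (md_le_n6 hn0) (norm_nonneg _)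

/-- **rule HB for the kernel `Dk`, a coefficient class, complete family** -/
theorem hbD_cf (r : ℕ) {ε : ℝ} (hε : 0 < ε) : ∃ C : ℝ, 1 ≤ C ∧ ∀ (K X : ℝ) (α : Eis → ℂ),
    1 ≤ K → 1 ≤ X → Cf r X α →
      ∑ k ∈ bl K, ‖KS Dk α k‖ ^ 2 ≤ C * (K * X) ^ ε * HBa K X * X := by
  obtain ⟨C1, hC1, h1⟩ := hbG_cf r hε
  obtain ⟨C2, hC2, h2⟩ := sum_th_sq
  obtain ⟨Ct, hCt, ht⟩ := tau_le_rpow (ε := ε / (4 * (r + 1))) (by positivity)
  set κ : ℝ := (100 * (1 + ((2 : ℕ) : ℝ) / (ε / 2))) ^ 2 with hκ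
  have hκ0 : 0 < κ := by positivity
  have hpC := pC_pos
  set C3 : ℝ := 2 * pC ^ 2 * C2 * (Ct ^ r) ^ 2 * κ with hC3
  have hC30 : 0 ≤ C3 := by positivity
  refine ⟨2 * C1 + C3, by linarith, ?_⟩
  intro K X α hK hX hα
  have hK0 : 0 < K := by linarith
  have hX0 : 0 < X := by linarith
  set W : ℝ := Ct ^ r * X ^ (ε / 4) with hW
  have hWpos : 0 < W := by positivity
  have hbd : ∀ n, ‖α n‖ ≤ W := by
    intro n
    by_cases h1 : α n = 0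
    · rw [h1, norm_zero]; exact hWpos.le
    have hp := hα.fs.prim n h1
    have hnX := hα.supp n h1
    have hn1 : (1 : ℝ) ≤ nm n := by exact_mod_cast nm_pos.2 hp.ne_zero
    calc ‖α n‖ ≤ (tau n : ℝ) ^ r := hα.bd n
      _ ≤ (Ct * (nm n : ℝ) ^ (ε / (4 * (r + 1)))) ^ r := by
          have := ht n hp.ne_zero
          gcongr
      _ ≤ (Ct * X ^ (ε / (4 * (r + 1)))) ^ r := by gcongr
      _ = Ct ^ r * X ^ (ε / (4 * (r + 1)) * r) := by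
          rw [mul_pow, ← Real.rpow_natCast (X ^ _), ← Real.rpow_mul hX0.le]
      _ ≤ Ct ^ r * X ^ (ε / 4) := by
          refine mul_le_mul_of_nonneg_left ?_ (by positivity)
          refine Real.rpow_le_rpow_of_exponent_le hX ?_
          rw [div_mul_eq_mul_div, div_le_div_iff₀ (by positivity) (by norm_num)]
          nlinarith
  have hA := asum_le hX hWpos.le hα.fs hα.supp hbd
  have hlogX : 0 ≤ Real.log X := Real.log_nonneg hX
  set A : ℝ := W * (X ^ ((5 : ℝ) / 6) * (100 * (1 + Real.log X))) with hAd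
  have hA0 : 0 ≤ A := by positivity
  have hpt : ∀ x ∈ bl K, ‖KS Dk α x‖ ^ 2 ≤
      2 * ‖KS Kg α x‖ ^ 2 + 2 * pC ^ 2 * A ^ 2 * ‖th x‖ ^ 2 := by
    intro x _
    rw [KS_Dk hα.fs]
    set u := KS Kg α x
    set v := (pC : ℂ) * th x * ∑' n : Eis, α n * (md x n : ℂ) with hv
    have hv1 : ‖v‖ ≤ pC * ‖th x‖ * A := by
      rw [hv, norm_mul, norm_mul, Complex.norm_real, Real.norm_of_nonneg hpC.le]
      have := (norm_bias_le hα.fs x).trans hA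
      gcongr
    have h3 : ‖u - v‖ ^ 2 ≤ 2 * ‖u‖ ^ 2 + 2 * ‖v‖ ^ 2 := by
      have h4 := norm_sub_le u v
      have h5 : ‖u - v‖ ^ 2 ≤ (‖u‖ + ‖v‖) ^ 2 := by gcongr
      nlinarith [sq_nonneg (‖u‖ - ‖v‖)]
    have h4 : ‖v‖ ^ 2 ≤ (pC * ‖th x‖ * A) ^ 2 := by gcongr
    calc ‖u - v‖ ^ 2 ≤ 2 * ‖u‖ ^ 2 + 2 * ‖v‖ ^ 2 := h3
      _ ≤ 2 * ‖u‖ ^ 2 + 2 * (pC * ‖th x‖ * A) ^ 2 := by linarith
      _ = _ := by ring
  have hlog2 : (100 * (1 + Real.log X)) ^ 2 ≤ κ * X ^ (ε / 2) := poly_log_le 2 hX (by positivity)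
  have hA2 : A ^ 2 ≤ (Ct ^ r) ^ 2 * κ * ((K * X) ^ ε * X ^ ((5 : ℝ) / 3)) := by
    have e1 : X ^ (ε / 4) * X ^ (ε / 4) * X ^ (ε / 2) = X ^ ε := by
      rw [← Real.rpow_add hX0, ← Real.rpow_add hX0]; congr 1; ring
    have e2 : X ^ ((5 : ℝ) / 6) * X ^ ((5 : ℝ) / 6) = X ^ ((5 : ℝ) / 3) := by
      rw [← Real.rpow_add hX0]; norm_num
    have e3 : X ^ ε ≤ (K * X) ^ ε := by
      apply Real.rpow_le_rpow hX0.le _ hε.le
      nlinarith
    calc A ^ 2 = (Ct ^ r) ^ 2 * (X ^ (ε / 4) * X ^ (ε / 4)) *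
          (X ^ ((5 : ℝ) / 6) * X ^ ((5 : ℝ) / 6)) * (100 * (1 + Real.log X)) ^ 2 := by
          rw [hAd, hW]; ring
      _ ≤ (Ct ^ r) ^ 2 * (X ^ (ε / 4) * X ^ (ε / 4)) *
          (X ^ ((5 : ℝ) / 6) * X ^ ((5 : ℝ) / 6)) * (κ * X ^ (ε / 2)) := by gcongr
      _ = (Ct ^ r) ^ 2 * κ * ((X ^ (ε / 4) * X ^ (ε / 4) * X ^ (ε / 2)) *
          (X ^ ((5 : ℝ) / 6) * X ^ ((5 : ℝ) / 6))) := by ring
      _ = (Ct ^ r) ^ 2 * κ * (X ^ ε * X ^ ((5 : ℝ) / 3)) := by rw [e1, e2]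
      _ ≤ _ := by gcongr
  have hHB : K ^ ((2 : ℝ) / 3) * X ^ ((5 : ℝ) / 3) ≤ HBa K X * X := by
    have e1 : X ^ ((5 : ℝ) / 3) = X ^ ((2 : ℝ) / 3) * X := by
      nth_rw 3 [← Real.rpow_one X]
      rw [← Real.rpow_add hX0]; norm_num
    have e2 : (K * X) ^ ((2 : ℝ) / 3) ≤ HBa K X := by
      unfold HBa
      have : 0 ≤ K + X * K ^ ((1 : ℝ) / 3) := by positivity
      linarith
    calc K ^ ((2 : ℝ) / 3) * X ^ ((5 : ℝ) / 3) = (K * X) ^ ((2 : ℝ) / 3) * X := by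
          rw [e1, Real.mul_rpow hK0.le hX0.le]; ring
      _ ≤ _ := by gcongr
  have hH0 : 0 ≤ HBa K X := HBa_nonneg hK0.le hX0.le
  calc ∑ k ∈ bl K, ‖KS Dk α k‖ ^ 2
      ≤ ∑ x ∈ bl K, (2 * ‖KS Kg α x‖ ^ 2 + 2 * pC ^ 2 * A ^ 2 * ‖th x‖ ^ 2) :=
        Finset.sum_le_sum hpt
    _ = 2 * ∑ x ∈ bl K, ‖KS Kg α x‖ ^ 2 + 2 * pC ^ 2 * A ^ 2 * ∑ x ∈ bl K, ‖th x‖ ^ 2 := by
        rw [Finset.sum_add_distrib, Finset.mul_sum, Finset.mul_sum]
    _ ≤ 2 * (C1 * (K * X) ^ ε * HBa K X * X) +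
        2 * pC ^ 2 * ((Ct ^ r) ^ 2 * κ * ((K * X) ^ ε * X ^ ((5 : ℝ) / 3))) *
          (C2 * K ^ ((2 : ℝ) / 3)) := by
        have a1 := h1 K X α hK hX hα
        have a2 := h2 K hK
        have a3 : 0 ≤ ∑ x ∈ bl K, ‖th x‖ ^ 2 := Finset.sum_nonneg fun _ _ => by positivity
        gcongr
    _ = 2 * C1 * ((K * X) ^ ε * HBa K X * X) +
        C3 * ((K * X) ^ ε * (K ^ ((2 : ℝ) / 3) * X ^ ((5 : ℝ) / 3))) := by rw [hC3]; ring
    _ ≤ 2 * C1 * ((K * X) ^ ε * HBa K X * X) + C3 * ((K * X) ^ ε * (HBa K X * X)) := by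
        gcongr
    _ = _ := by ring

/-- **rule HB for the kernel `Dk`, lists** -/
theorem hbL_D {h : ℝ → ℝ} {c : ℝ} (hpu : PU h c) (n : ℕ) {ε : ℝ} (hε : 0 < ε) :
    ∃ C : ℝ, 1 ≤ C ∧ ∀ (q : Eis) (l : ℝ) (ps : List Pc), 0 ≤ l → ps.length ≤ n →
      (∀ p ∈ ps, p.OK) → (∀ p ∈ ps, 1 ≤ p.Y) →
      ∑ k ∈ bl (Real.exp l), ‖KS Dk (sqc q (alL0 h ps)) k‖ ^ 2 ≤
        C * Real.exp (ε * (l + LL ps)) * Real.exp (EHB l (LL ps)) := by
  obtain ⟨R, hR0, hR⟩ := FE47.exists_R (FE47.cs_cx hpu.cs)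
  obtain ⟨H1, hH1⟩ := (FE47.cs_cx hpu.cs).exists_bound_of_continuous (FE47.cd_cx hpu.cd).continuous
  set H0 : ℝ := max 1 H1 with hH0d
  have hH01 : 1 ≤ H0 := le_max_left _ _
  have hH0 : 0 < H0 := by linarith
  have hH : ∀ u, ‖cx h u‖ ≤ H0 := fun u => (hH1 u).trans (le_max_right _ _)
  obtain ⟨C0, hC0, hb⟩ := hbD_cf n hε
  have hRn : 0 ≤ R * n := by positivity
  refine ⟨(H0 ^ n) ^ 2 * (C0 * Real.exp (ε * (R * n)) * (3 * Real.exp (2 * (R * n)))), ?_, ?_⟩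
  · have a1 : 1 ≤ (H0 ^ n) ^ 2 := one_le_pow₀ (one_le_pow₀ hH01)
    have a2 : 1 ≤ Real.exp (ε * (R * n)) := Real.one_le_exp (by positivity)
    have a3 : 1 ≤ 3 * Real.exp (2 * (R * n)) := by
      have := Real.one_le_exp (show 0 ≤ 2 * (R * n) by positivity)
      linarith
    exact one_le_mul_of_one_le_of_one_le a1
      (one_le_mul_of_one_le_of_one_le (one_le_mul_of_one_le_of_one_le hC0 a2) a3)
  intro q l ps hl hlen hok hY
  have hL := LL_nonneg hY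
  set m : ℕ := ps.length with hm
  have hmn : (m : ℝ) ≤ n := by exact_mod_cast hlen
  have hcls := Cf_alL0 hH0 hH hR ps hok
  have hRm : R * m ≤ R * n := by gcongr
  have hcls' : Cf n (Real.exp (R * n + LL ps))
      (sqc q (fun x => (((H0⁻¹ : ℝ) : ℂ) ^ m) * alL0 h ps x)) :=
    Cf_sqc (hcls.mono hlen (Real.exp_le_exp.2 (by linarith))) q
  have h1 := hb (Real.exp l) (Real.exp (R * n + LL ps)) _ (Real.one_le_exp hl)
    (Real.one_le_exp (by linarith)) hcls'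
  have e0 : ∀ k, KS Dk (sqc q (fun x => (((H0⁻¹ : ℝ) : ℂ) ^ m) * alL0 h ps x)) k =
      (((H0⁻¹ : ℝ) : ℂ) ^ m) * KS Dk (sqc q (alL0 h ps)) k := by
    intro k
    unfold KS HP842.sqc
    rw [← tsum_mul_left]
    exact tsum_congr fun x => by ring
  have e1 : ∀ k, ‖KS Dk (sqc q (alL0 h ps)) k‖ ^ 2 =
      (H0 ^ m) ^ 2 * ‖KS Dk (sqc q (fun x => (((H0⁻¹ : ℝ) : ℂ) ^ m) * alL0 h ps x)) k‖ ^ 2 := by
    intro k
    have h9 : H0 ^ m * H0⁻¹ ^ m = 1 := by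
      rw [← mul_pow, mul_inv_cancel₀ hH0.ne', one_pow]
    rw [e0, norm_mul, norm_pow, Complex.norm_real, Real.norm_of_nonneg (by positivity),
      ← mul_pow, ← mul_assoc, h9, one_mul]
  rw [Finset.sum_congr rfl fun k _ => e1 k, ← Finset.mul_sum]
  have hH0m : (H0 ^ m) ^ 2 ≤ (H0 ^ n) ^ 2 := by
    gcongr
  have h2 : (Real.exp l * Real.exp (R * n + LL ps)) ^ ε =
      Real.exp (ε * (R * n)) * Real.exp (ε * (l + LL ps)) := by
    rw [← Real.exp_add, ← Real.exp_mul, ← Real.exp_add]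
    congr 1; ring
  calc (H0 ^ m) ^ 2 * ∑ k ∈ bl (Real.exp l),
        ‖KS Dk (sqc q (fun x => (((H0⁻¹ : ℝ) : ℂ) ^ m) * alL0 h ps x)) k‖ ^ 2
      ≤ (H0 ^ n) ^ 2 * (C0 * (Real.exp l * Real.exp (R * n + LL ps)) ^ ε *
          HBa (Real.exp l) (Real.exp (R * n + LL ps)) * Real.exp (R * n + LL ps)) :=
        mul_le_mul hH0m h1 (Finset.sum_nonneg fun _ _ => by positivity) (by positivity)
    _ = (H0 ^ n) ^ 2 * (C0 * (Real.exp (ε * (R * n)) * Real.exp (ε * (l + LL ps))) *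
          (HBa (Real.exp l) (Real.exp (R * n + LL ps)) * Real.exp (R * n + LL ps))) := by
        rw [h2]; ring
    _ ≤ (H0 ^ n) ^ 2 * (C0 * (Real.exp (ε * (R * n)) * Real.exp (ε * (l + LL ps))) *
          (3 * Real.exp (2 * (R * n)) * Real.exp (EHB l (LL ps)))) := by
        have := HBa_exp (l := l) (L := LL ps) hRn
        gcongr
    _ = _ := by ring

variable {Lam : Type*}

/-- **field `hbG`, kernel `Dk`** -/
theorem bg_SD {π : Lam → DPar} (hP : ∀ lam, (π lam).OK) {h : ℝ → ℝ} {c : ℝ} (hpu : PU h c)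
    (κ : ℝ) (u : List ℝ) (m a : ℝ) :
    BG Dq (fun lam l ps => SK Dk h l (ps.map (Pq.pc (π lam)))) κ u (wt m a)
      (max (κ + (u.sum + m + a))
      (max (2 * (u.sum + m + a) + κ / 3) ((u.sum + m + a) + 2 / 3 * (κ + (u.sum + m + a))))) := by
  have h1 := BG_of_bound (D := Dq)
    (Ψ := fun lam l ps => SK Dk h l (ps.map (Pq.pc (π lam)))) EHB EHB_lip EHB_hom ?_ ?_ κ u
    (wt m a)
  · rw [sum_wt, EHB_field] at h1
    exact h1
  · intro lam n ε hε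
    obtain ⟨C, hC, hb⟩ := hbL_D hpu n hε
    refine ⟨C, hC, fun l ps hl hlen hz => ?_⟩
    have h2 := hb 1 l (ps.map (Pq.pc (π lam))) hl (by rw [List.length_map]; exact hlen)
      (ok_map (hP lam) ps) (one_le_map hz)
    rw [LL_pc, alL0_eq] at h2
    exact h2
  · intro lam l ps hl
    unfold SK
    rw [bl_neg hl, Finset.sum_empty]

/-- `hbG`, kernel `Dk`, in the form of helper858 -/
theorem bg_SKq {π : Lam → DPar} (hP : ∀ lam, (π lam).OK) {h : ℝ → ℝ} {c : ℝ} (hpu : PU h c)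
    (κ : ℝ) (u : List ℝ) (m a : ℝ) :
    BG Dq (fun lam => XC858.SKq Dk (π lam) h) κ u (wt m a)
      (max (κ + (u.sum + m + a))
      (max (2 * (u.sum + m + a) + κ / 3) ((u.sum + m + a) + 2 / 3 * (κ + (u.sum + m + a))))) :=
  bg_SD hP hpu κ u m a

/-- trivial bounds exist -/
theorem triv_SD {π : Lam → DPar} (hP : ∀ lam, (π lam).OK) {h : ℝ → ℝ} {c : ℝ}
    (hpu : PU h c) : Triv Dq (fun lam => XC858.SKq Dk (π lam) h) :=
  fun κ u m a _ _ => ⟨_, bg_SKq hP hpu κ u m a⟩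

lemma pinv_SD (π : Lam → DPar) (h : ℝ → ℝ) : Pinv (fun lam => XC858.SKq Dk (π lam) h) :=
  XC858.pinv_SKq Dk π h

/-- the analytic trivial bound (`triv` of `ruleBG`) -/
theorem trivL_SD {P : DPar} (hP : P.OK) {h : ℝ → ℝ} {c : ℝ} (hpu : PU h c) (N : ℕ) :
    ∃ C T : ℝ, 0 ≤ C ∧ 0 ≤ T ∧ ∀ (l : ℝ) (ps : List Pq), 0 ≤ l → ps.length ≤ N →
      (∀ p ∈ ps, 0 ≤ Dq.len p) →
      XC858.SKq Dk P h l ps ≤ C * Real.exp (T * (l + (ps.map Dq.len).sum)) := by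
  obtain ⟨C, hC, hb⟩ := hbL_D hpu N one_pos
  refine ⟨C, 4, by linarith, by norm_num, fun l ps hl hlen hz => ?_⟩
  have h2 := hb 1 l (ps.map (Pq.pc P)) hl (by rw [List.length_map]; exact hlen)
    (ok_map hP ps) (one_le_map hz)
  rw [LL_pc, alL0_eq] at h2
  refine h2.trans ?_
  have h3 : 0 ≤ (ps.map Dq.len).sum := by
    apply List.sum_nonneg
    intro x hx
    obtain ⟨p, hp, rfl⟩ := List.mem_map.1 hx
    exact hz p hp
  rw [mul_assoc, ← Real.exp_add]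
  refine mul_le_mul_of_nonneg_left (Real.exp_le_exp.2 ?_) (by linarith)
  have h4 : EHB l (tl Dq ps) ≤ 3 * (l + tl Dq ps) := by
    have h5 : 0 ≤ tl Dq ps := h3
    unfold EHB
    refine max_le ?_ (max_le ?_ ?_) <;> linarith
  have h6 : tl Dq ps = (ps.map Dq.len).sum := rfl
  rw [h6] at h4 ⊢
  linarith

/-- the family is monotone -/
lemma mono_SD (P : DPar) (h : ℝ → ℝ) {l l' : ℝ} (ps : List Pq) (hl : l ≤ l') :
    XC858.SKq Dk P h l ps ≤ XC858.SKq Dk P h l' ps := by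
  unfold XC858.SKq SK
  refine Finset.sum_le_sum_of_subset_of_nonneg ?_ fun _ _ _ => by positivity
  intro x hx
  rw [mem_bl (Real.exp_pos _).le] at hx ⊢
  exact ⟨hx.1, hx.2.trans (Real.exp_le_exp.2 hl)⟩

/-- **field `cau`, kernel `Dk`** -/
theorem cauD {π : Lam → DPar} (hP : ∀ lam, (π lam).OK)
    {h : ℝ → ℝ} {c₀ : ℝ} (hh : PU h c₀) (κ : ℝ) (u : List ℝ) (m a b c e : ℝ) (hκ : 0 ≤ κ)
    (hu : Okl u m a) (hb : 0 ≤ b) (hbm : b ≤ m) (hc : 0 ≤ c) (hca : c ≤ a)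
    (H : BG Dq (fun lam => XC858.SKq Dk (π lam) h) (κ + (b + c)) u (wt (m - b) (a - c)) e) :
    BG Dq (fun lam => XC858.SKq Dk (π lam) h) κ u (wt m a) ((b + c) + e) :=
  XC858.cauK_858 ker_Dk hP hh κ u m a b c e hκ hu hb hbm hc hca H

/-- **field `cauS`, kernel `Dk`** -/
theorem cauSD {π : Lam → DPar} (hP : ∀ lam, (π lam).OK)
    {h : ℝ → ℝ} {c₀ : ℝ} (hh : PU h c₀) (κ y : ℝ) (u : List ℝ) (m a e : ℝ) (hκ : 0 ≤ κ)
    (hy : 0 ≤ y) (hu : Okl u m a)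
    (H : BG Dq (fun lam => XC858.SKq Dk (π lam) h) (κ + y) u (wt m a) e) :
    BG Dq (fun lam => XC858.SKq Dk (π lam) h) κ (y :: u) (wt m a) (y + e) :=
  XC858.cauSK_858 ker_Dk hP hh κ y u m a e hκ hy hu H

/-- **monotonicity, kernel `Dk`** -/
theorem monoD {π : Lam → DPar} (hP : ∀ lam, (π lam).OK) {h : ℝ → ℝ} {c₀ : ℝ} (hh : PU h c₀)
    {κ κ' E : ℝ} {u : List ℝ}
    {wm : Kd → ℝ} (hκ : κ' ≤ κ) (h1 : BG Dq (fun lam => XC858.SKq Dk (π lam) h) κ u wm E)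
    (h2 : ∀ u₁ y u₂, u = u₁ ++ y :: u₂ → (κ - κ') / 3 ≤ y →
      BG Dq (fun lam => XC858.SKq Dk (π lam) h) (κ' + (κ - κ') / 3)
        (u₁ ++ (y - (κ - κ') / 3) :: u₂) wm (E - (κ - κ') / 3)) :
    BG Dq (fun lam => XC858.SKq Dk (π lam) h) κ' u wm (E - (κ - κ') / 3) :=
  Mono858.monoK_858 ker_Dk Dk_cube' hP hh hκ h1 h2

end Crest.Agent.R017.Dk848
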