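import Crest.Agent.R017.XLBx_298
import Crest.Agent.R017.ProvM_71

/-!
# Row 17, provider of the exceptional class (helper298)

The character side of the exceptional class (helper764) is
`Rt P h l ps = Rp P h l ps + [all lumps ≤ l] e^{l + total length}`.

* `idt_lower`, `idt_void` : the exponent of the extra term
* `tf_ex`, `flip_ex`, `sup_ex`, `supS_ex`, `blb_Rt`, `blv_Rt` : the fields for `Rt`
* `OpenX`, `prov_ex` : the bundle for the exceptional class from the kernel fields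
-/

set_option autoImplicit false

noncomputable section

open scoped ComplexConjugate

namespace Crest.Agent.R017.XEx298

open Crest.Agent.R012 Crest.Agent.R012.Eis Crest.Agent.R012.LS2
open Crest.Agent.R017.XG702 (Pcs BG Loc)
open Crest.Agent.R017.ER911
open Crest.Agent.R017.B770 Crest.Agent.R017.FE47 Crest.Agent.R017.End699
open Crest.Agent.R017.Prov71
open Crest.Agent.R017.XHB411 (idt idt_nonneg)
open Crest.Agent.R017.Lbc298 (bg_idt)

variable {Lam : Type*}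

/-- all lumps are at most `l` -/
def Zl (l : ℝ) (ps : List Pq) : Prop := ∀ p ∈ ps, Dq.lump p → p.z ≤ l

/-- the character side of the exceptional class -/
def Rt (P : DPar) (h : ℝ → ℝ) (l : ℝ) (ps : List Pq) : ℝ := Rp P h l ps + idt Zl l ps

lemma idt_perm {l : ℝ} {ps qs : List Pq} (h : ps.Perm qs) : idt Zl l ps = idt Zl l qs := by
  have h1 : Zl l ps ↔ Zl l qs := by
    unfold Zl
    exact ⟨fun H p hp => H p (h.mem_iff.2 hp), fun H p hp => H p (h.mem_iff.1 hp)⟩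
  have h2 : XHB411.tl Dq ps = XHB411.tl Dq qs := (h.map _).sum_eq
  unfold XHB411.idt
  by_cases hz : 0 ≤ l ∧ Zl l ps
  · rw [if_pos hz, if_pos ⟨hz.1, h1.1 hz.2⟩, h2]
  · rw [if_neg hz, if_neg fun H => hz ⟨H.1, h1.2 H.2⟩]

lemma pinv_Rt (π : Lam → DPar) (h : ℝ → ℝ) : Pinv (fun lam => Rt (π lam) h) := by
  intro lam l ps qs hp
  show Rt (π lam) h l ps = Rt (π lam) h l qs
  unfold Rt
  rw [idt_perm hp]
  congr 1
  exact pinv_Rp π h lam l ps qs hp

lemma bg_empty [IsEmpty Lam] {Ψ : Lam → ℝ → List Pq → ℝ} {κ : ℝ} {u : List ℝ} {w : Kd → ℝ}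
    {e : ℝ} : BG Dq Ψ κ u w e := fun _ _ => ⟨1, one_pos, fun lam => isEmptyElim lam⟩

lemma near_lump {X δ : ℝ} {us : List Pq} {u : List ℝ} (hn : Dq.Near X δ us u) :
    ∀ y ∈ u, ∃ p ∈ us, Dq.lump p ∧ |Dq.nl X p - y| ≤ δ := by
  unfold Pcs.Near at hn
  induction hn with
  | nil => simp
  | cons h1 h2 ih =>
    rename_i p x us u
    intro y hy
    rcases List.mem_cons.1 hy with rfl | hy'
    · exact ⟨p, List.mem_cons_self, h1⟩
    · obtain ⟨q, hq, hq'⟩ := ih y hy'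
      exact ⟨q, List.mem_cons_of_mem _ hq, hq'⟩

/-- a lump longer than the family: the extra term vanishes -/
theorem idt_void {κ : ℝ} {u : List ℝ} {w : Kd → ℝ} (hc : ∃ y ∈ u, κ < y) (e : ℝ) :
    BG Dq (fun _ : Lam => idt Zl) κ u w e := by
  obtain ⟨y, hy, hκy⟩ := hc
  intro ε hε
  refine ⟨(y - κ) / 4, by linarith, fun _ N B => ⟨1, one_pos, 2, by norm_num, ?_⟩⟩
  intro X hX k us gs hk hn _ _
  have hX1 : 1 < X := by linarith
  have hlog : 0 < Real.log X := Real.log_pos hX1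
  obtain ⟨p, hp, hl, hpy⟩ := near_lump hn y hy
  have h1 := (abs_le.1 hpy).1
  have h2 := (abs_le.1 hk).2
  have h3 : k * Real.log X < p.z := by
    unfold Pcs.nl at h1
    rw [Dq_len] at h1
    have h4 : k < p.z / Real.log X := by linarith
    rwa [lt_div_iff₀ hlog] at h4
  show idt Zl (k * Real.log X) (us ++ gs) ≤ _
  have h5 : idt Zl (k * Real.log X) (us ++ gs) = 0 := by
    unfold XHB411.idt
    refine if_neg fun h => ?_
    exact absurd (h.2 p (List.mem_append_left _ hp) hl) (not_le.2 h3)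
  rw [h5]
  positivity

/-- the test piece -/
def tp (kd : Kd) (u : HP842.UT) (z : ℝ) : Pq := ⟨kd, u, 1, one_ne_zero, z, 0⟩

/-- **lower bound for the exponent of the extra term** -/
theorem idt_lower [Nonempty Lam] {κ : ℝ} {u : List ℝ} {m a e : ℝ} (hκ : 0 ≤ κ)
    (hok : Okl u m a) (hle : ∀ y ∈ u, y ≤ κ)
    (h : BG Dq (fun _ : Lam => idt Zl) κ u (wt m a) e) : κ + (u.sum + m + a) ≤ e := by
  obtain ⟨lam⟩ := ‹Nonempty Lam›
  refine le_of_forall_pos_le_add fun ε hε => ?_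
  obtain ⟨δ, hδ, H⟩ := h ε hε
  obtain ⟨n, hn⟩ := exists_nat_gt ((m + a + 1) / δ)
  have hm := hok.2.1
  have ha := hok.2.2
  have hn0 : (0 : ℝ) < n := lt_of_le_of_lt (by positivity) hn
  have hnδ : m + a + 1 < n * δ := by rwa [div_lt_iff₀ hδ] at hn
  obtain ⟨δ', hδ', X₀, hX₀, H1⟩ := H lam (2 * n) 0
  set X := max X₀ 2 with hX
  have hX1 : 1 < X := lt_of_lt_of_le hX₀ (le_max_left _ _)
  have hX0 : 0 < X := by linarith
  have hlog : 0 < Real.log X := Real.log_pos hX1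
  set us : List Pq := u.map fun y => tp .mo .one (y * Real.log X) with hus
  set gs : List Pq := List.replicate n (tp .mo .mu (m / n * Real.log X)) ++
    List.replicate n (tp .am .mu (a / n * Real.log X)) with hgs
  have hnl : ∀ (kd : Kd) (v : HP842.UT) (z : ℝ), Dq.nl X (tp kd v (z * Real.log X)) = z := by
    intro kd v z
    unfold Pcs.nl tp
    rw [Dq_len]
    field_simp
  have hnear : Dq.Near X δ us u := by
    unfold Pcs.Near
    rw [hus, List.forall₂_map_left_iff, List.forall₂_same]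
    intro y _
    refine ⟨⟨rfl, rfl⟩, ?_⟩
    rw [hnl, sub_self, abs_zero]
    exact hδ.le
  have hmass : ∀ t, Dq.mass X gs t = wt m a t := by
    intro t
    rw [hgs, Pcs.mass_append]
    unfold Pcs.mass
    rw [List.map_replicate, List.map_replicate, List.sum_replicate, List.sum_replicate, hnl, hnl]
    cases t with
    | mo =>
      have e1 : Dq.kind (tp .mo .mu (m / n * Real.log X)) = Kd.mo := rfl
      have e2 : Dq.kind (tp .am .mu (a / n * Real.log X)) ≠ Kd.mo := by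
        show Kd.am ≠ Kd.mo
        decide
      rw [if_pos e1, if_neg e2, nsmul_eq_mul, smul_zero, add_zero, mul_div_cancel₀ _ hn0.ne']
      rfl
    | am =>
      have e1 : Dq.kind (tp .mo .mu (m / n * Real.log X)) ≠ Kd.am := by
        show Kd.mo ≠ Kd.am
        decide
      have e2 : Dq.kind (tp .am .mu (a / n * Real.log X)) = Kd.am := rfl
      rw [if_neg e1, if_pos e2, nsmul_eq_mul, nsmul_eq_mul, mul_zero, zero_add,
        mul_div_cancel₀ _ hn0.ne']
      rfl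
  have hgran : Dq.Gran X δ (2 * n) gs (wt m a) := by
    refine ⟨?_, ?_, fun t => ?_⟩
    · rw [hgs, List.length_append, List.length_replicate, List.length_replicate]
      omega
    · intro g hg
      rw [hgs] at hg
      rcases List.mem_append.1 hg with hg | hg
      · rw [(List.mem_replicate.1 hg).2, hnl, div_le_iff₀ hn0]
        nlinarith
      · rw [(List.mem_replicate.1 hg).2, hnl, div_le_iff₀ hn0]
        nlinarith
    · rw [hmass, sub_self, abs_zero]
      exact hδ.le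
  have hgood : Dq.Good X δ' 0 (us ++ gs) := by
    have key : ∀ (kd : Kd) (v : HP842.UT) (z : ℝ), 0 ≤ z →
        Dq.s1 (tp kd v z) ≤ X ^ δ' ∧ Dq.s2 (tp kd v z) ≤ X ^ (0 : ℝ) ∧ 0 ≤ Dq.len (tp kd v z) := by
      intro kd v z hz
      refine ⟨?_, ?_, hz⟩
      · show 1 + |(0 : ℝ)| ≤ X ^ δ'
        rw [abs_zero, add_zero]
        exact Real.one_le_rpow hX1.le hδ'.le
      · show ((nm (1 : Eis) : ℕ) : ℝ) ≤ X ^ (0 : ℝ)
        rw [Real.rpow_zero, nm_one]
        simp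
    intro p hp
    rcases List.mem_append.1 hp with hp | hp
    · obtain ⟨y, hy, rfl⟩ := List.mem_map.1 hp
      exact key _ _ _ (mul_nonneg (hok.1 y hy) hlog.le)
    · rcases List.mem_append.1 hp with hp | hp
      · rw [(List.mem_replicate.1 hp).2]
        exact key _ _ _ (by positivity)
      · rw [(List.mem_replicate.1 hp).2]
        exact key _ _ _ (by positivity)
  have h1 := H1 X (le_max_left _ _) κ us gs (by rw [sub_self, abs_zero]; exact hδ.le) hnear hgran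
    hgood
  have hZ : Zl (κ * Real.log X) (us ++ gs) := by
    intro p hp hl
    rcases List.mem_append.1 hp with hp | hp
    · obtain ⟨y, hy, rfl⟩ := List.mem_map.1 hp
      exact mul_le_mul_of_nonneg_right (hle y hy) hlog.le
    · exfalso
      have hl2 : p.u = HP842.UT.one := hl.2
      rcases List.mem_append.1 hp with hp | hp
      · rw [(List.mem_replicate.1 hp).2] at hl2
        exact absurd hl2 (by unfold tp; simp)
      · rw [(List.mem_replicate.1 hp).2] at hl2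
        exact absurd hl2 (by unfold tp; simp)
  have htl : XHB411.tl Dq (us ++ gs) = (u.sum + m + a) * Real.log X := by
    unfold XHB411.tl
    rw [hus, hgs, List.map_append, List.map_append, List.sum_append, List.sum_append,
      List.map_map, List.map_replicate, List.map_replicate, List.sum_replicate,
      List.sum_replicate, nsmul_eq_mul, nsmul_eq_mul]
    have e1 : ∀ l : List ℝ, (l.map (Dq.len ∘ fun y => tp .mo .one (y * Real.log X))).sum =
        l.sum * Real.log X := by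
      intro l
      induction l with
      | nil => simp
      | cons y l ih =>
        rw [List.map_cons, List.sum_cons, ih, List.sum_cons]
        show y * Real.log X + _ = _
        ring
    rw [e1]
    show u.sum * Real.log X + (n * (m / n * Real.log X) + n * (a / n * Real.log X)) = _
    field_simp
    ring
  have h2 : idt Zl (κ * Real.log X) (us ++ gs) = X ^ (κ + (u.sum + m + a)) := by
    unfold XHB411.idt
    rw [if_pos ⟨mul_nonneg hκ hlog.le, hZ⟩, htl, Real.rpow_def_of_pos hX0]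
    congr 1; ring
  have h3 : X ^ (κ + (u.sum + m + a)) ≤ X ^ (e + ε) := by
    rw [← h2]; exact h1
  exact (Real.rpow_le_rpow_left_iff hX1).1 h3

section

variable {π : Lam → DPar} {h : ℝ → ℝ}

lemma Rt_R {κ : ℝ} {u : List ℝ} {w : Kd → ℝ} {e : ℝ}
    (H : BG Dq (fun lam => Rt (π lam) h) κ u w e) : BG Dq (fun lam => Rp (π lam) h) κ u w e :=
  H.comp fun lam l ps => by
    show Rp (π lam) h l ps ≤ Rp (π lam) h l ps + idt Zl l ps
    have := idt_nonneg Zl l ps
    linarith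

lemma Rt_lower [Nonempty Lam] {κ : ℝ} {u : List ℝ} {m a e : ℝ}
    (H : BG Dq (fun lam => Rt (π lam) h) κ u (wt m a) e) (hκ : 0 ≤ κ)
    (hok : Okl u m a) (hle : ∀ y ∈ u, y ≤ κ) : κ + (u.sum + m + a) ≤ e :=
  idt_lower (Lam := Lam) hκ hok hle (H.comp fun lam l ps => by
    show idt Zl l ps ≤ Rp (π lam) h l ps + idt Zl l ps
    have := Rp_nonneg (π lam) h l ps
    linarith)

lemma Rt_of {κ : ℝ} {u : List ℝ} {m a e : ℝ}
    (h1 : BG Dq (fun lam => Rp (π lam) h) κ u (wt m a) e)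
    (h2 : (∀ y ∈ u, y ≤ κ) → κ + (u.sum + m + a) ≤ e) :
    BG Dq (fun lam => Rt (π lam) h) κ u (wt m a) e := by
  refine BG_add h1 (Φ₂ := fun _ => idt Zl) ?_ (fun _ _ _ => le_rfl)
  by_cases hc : ∀ y ∈ u, y ≤ κ
  · exact (bg_idt Zl κ u m a).mono (h2 hc)
  · push Not at hc
    exact idt_void hc e

/-- field `tf` -/
theorem tf_ex (hP : ∀ lam, (π lam).OK) {c : ℝ} (hh : PU h c) {κ y₁ y₂ : ℝ} (hκ : 0 ≤ κ)
    (h1 : 0 ≤ y₁) (h2 : 0 ≤ y₂) :
    BG Dq (fun lam => Rt (π lam) h) κ [y₁, y₂] (wt 0 0) (κ + (y₁ + y₂)) :=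
  Rt_of (XTf164.tf_BG π hP hh (fun lam => TXF791.TF4_Qp hh (hP lam)) hκ h1 h2) fun _ => by simp

/-- field `flip` -/
theorem flip_ex (hP : ∀ lam, (π lam).OK) {c : ℝ} (hpu : PU h c) (κ y : ℝ) (u : List ℝ)
    (m a E : ℝ) (hκ : 0 ≤ κ) (hy : 0 ≤ y) (hok : Okl u m a)
    (h1 : ∀ y' : ℝ, 0 ≤ y' → y' ≤ y → 2 * y' ≤ κ →
      BG Dq (fun lam => Rt (π lam) h) κ (y' :: u) (wt m a) E)
    (h2 : ∀ y' t : ℝ, y' ≤ y → y' ≤ κ → κ ≤ 2 * y' → 0 ≤ t → t ≤ κ - y' →
      BG Dq (fun lam => Rt (π lam) h) κ ((κ - t - y') :: u) (wt m a) (E - (2 * y' - κ + t))) :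
    BG Dq (fun lam => Rt (π lam) h) κ (y :: u) (wt m a) E := by
  rcases isEmpty_or_nonempty Lam with hL | hL
  · exact bg_empty
  refine Rt_of (XFl571.flip_Rp hP hpu κ y u m a E hκ hy hok
    (fun y' a1 a2 a3 => Rt_R (h1 y' a1 a2 a3))
    (fun y' t a1 a2 a3 a4 a5 => Rt_R (h2 y' t a1 a2 a3 a4 a5))) fun hle => ?_
  have hyκ : y ≤ κ := hle y List.mem_cons_self
  have hu : ∀ x ∈ u, x ≤ κ := fun x hx => hle x (List.mem_cons_of_mem _ hx)
  by_cases hc : 2 * y ≤ κ
  · exact Rt_lower (h1 y hy le_rfl hc) hκ ⟨fun x hx => by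
      rcases List.mem_cons.1 hx with rfl | hx
      · exact hy
      · exact hok.1 x hx, hok.2⟩ hle
  · push Not at hc
    have h3 := Rt_lower (h2 y 0 le_rfl hyκ hc.le le_rfl (by linarith)) hκ ⟨fun x hx => by
      rcases List.mem_cons.1 hx with rfl | hx
      · linarith
      · exact hok.1 x hx, hok.2⟩ (fun x hx => by
      rcases List.mem_cons.1 hx with rfl | hx
      · linarith
      · exact hu x hx)
    rw [List.sum_cons] at h3 ⊢
    linarith

/-- field `sup` -/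
theorem sup_ex {θ : ℝ} (hθ : 1 / 2 < θ) (hθ1 : θ ≤ 1) (hPF : PF Set.univ θ) {c₀ : ℝ}
    (hh : PU h c₀) (hP : ∀ lam, (π lam).OK) (κ : ℝ) (u : List ℝ) (m a b c e : ℝ) (hκ : 0 ≤ κ)
    (hok : Okl u m a) (hb : 0 ≤ b) (hbm : b ≤ m) (hc : 0 ≤ c) (hca : c ≤ a)
    (H : BG Dq (fun lam => Rt (π lam) h) κ u (wt (m - b) (a - c)) e) :
    BG Dq (fun lam => Rt (π lam) h) κ u (wt m a) (2 * θ * (b + c) + e) := by
  rcases isEmpty_or_nonempty Lam with hL | hL
  · exact bg_empty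
  refine Rt_of (SupI271.sup_271 hθ hθ1 hPF hh π hP κ u m a b c e hκ hok hb hbm hc hca (Rt_R H))
    fun hle => ?_
  have h3 := Rt_lower H hκ ⟨hok.1, by linarith, by linarith⟩ hle
  nlinarith

/-- field `supS` -/
theorem supS_ex {θ : ℝ} (hθ : 1 / 2 < θ) (hθ1 : θ ≤ 1) (hPF : PF Set.univ θ) {c₀ : ℝ}
    (hh : PU h c₀) (hP : ∀ lam, (π lam).OK) (κ y : ℝ) (u : List ℝ) (m a e : ℝ) (hκ : 0 ≤ κ)
    (hy : 0 ≤ y) (hok : Okl u m a) (H : BG Dq (fun lam => Rt (π lam) h) κ u (wt m a) e) :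
    BG Dq (fun lam => Rt (π lam) h) κ (y :: u) (wt m a) (2 * θ * y + e) := by
  rcases isEmpty_or_nonempty Lam with hL | hL
  · exact bg_empty
  refine Rt_of (SupI271.supS_271 hθ hθ1 hPF hh π hP κ y u m a e hκ hy hok (Rt_R H))
    fun hle => ?_
  have h3 := Rt_lower H hκ hok fun x hx => hle x (List.mem_cons_of_mem _ hx)
  rw [List.sum_cons]
  nlinarith

/-- **the B-line** -/
theorem blb_Rt {θ : ℝ} (hθ : 7 / 8 ≤ θ) (hθ1 : θ ≤ 1) (hPF : PF Set.univ θ) {c₀ : ℝ}
    (hh : PU h c₀) (hP : ∀ lam, (π lam).OK) : BLB θ Dq (fun lam => Rt (π lam) h) :=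
  Lbc298.blb_ex hθ hθ1 hPF hh π hP (fun lam => Qp (π lam)) (fun _ _ hk => hk) Zl

/-- **the level rule** -/
theorem blv_Rt {θ : ℝ} (hθ : 1 / 2 < θ) (hθ1 : θ ≤ 1) (hPF : PF Set.univ θ) {c₀ : ℝ}
    (hh : PU h c₀) (hP : ∀ lam, (π lam).OK) : BLv θ Dq (fun lam => Rt (π lam) h) where
  lev := by
    intro N Y κ M A E hκ hY hM hA hlev
    rcases isEmpty_or_nonempty Lam with hL | hL
    · exact bg_empty
    refine Rt_of ((XLvC702.blv_702 hθ hθ1 hPF hh hP).lev N Y κ M A E hκ hY hM hA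
      fun y x m a ω α a1 a2 a3 a4 a5 a6 a7 a8 => ?_) fun _ => ?_
    · rcases hlev y x m a ω α a1 a2 a3 a4 a5 a6 a7 a8 with h1 | h1 | h1
      · exact Or.inl h1
      · obtain ⟨n, f, g, e, b1, b2, b3, b4, b5, b6⟩ := h1
        exact Or.inr (Or.inl ⟨n, f, g, e, b1, b2, b3, b4, Rt_R b5, b6⟩)
      · exact Or.inr (Or.inr h1)
    · have hθ2 : ∀ z : ℝ, 0 ≤ z → z / 2 ≤ θ * z := fun z hz => by nlinarith
      have hsum : (List.ofFn Y).sum = ∑ j, Y j := List.sum_ofFn
      rw [hsum]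
      have hsx : ∑ j, Y j / 2 = (∑ j, Y j) / 2 := by rw [Finset.sum_div]
      have hsn : ∀ n : Fin N → ℕ, ∑ j, (n j : ℝ) * (Y j / 2) = (∑ j, (n j : ℝ) * Y j) / 2 := by
        intro n
        rw [Finset.sum_div]
        exact Finset.sum_congr rfl fun j _ => by ring
      have hhalf : ∀ z f : ℝ, (z = 0 → f = 0) → f * (z / 2 / z) = f / 2 := by
        intro z f hz
        by_cases h0 : z = 0
        · rw [hz h0]; simp
        · field_simp
      rcases hlev Y (fun j => Y j / 2) M A (M / 2) (A / 2) (fun j => ⟨(hY j).1, le_rfl⟩) hM le_rfl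
        hA le_rfl (fun j => hθ2 _ (hY j).1) (hθ2 _ hM) (hθ2 _ hA) with h1 | h1 | h1
      · obtain ⟨n, f, g, hf, hf0, hg, hg0, hok, h1⟩ := h1
        rw [hsn, hsx, hhalf M f hf0, hhalf A g hg0] at h1
        rw [hsn, hhalf M f hf0, hhalf A g hg0] at hok
        have hL0 : 0 ≤ ∑ j, (n j : ℝ) * Y j := Finset.sum_nonneg fun j _ =>
          mul_nonneg (Nat.cast_nonneg _) (hY j).1
        have hκ0 : κ ≤ 0 := by
          rcases hok with h2 | h2
          · have := h2.1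
            have := h2.2
            linarith
          · have h3 : 0 ≤ (1 - θ) * ((∑ j, (n j : ℝ) * Y j) + f + g) :=
              mul_nonneg (by linarith) (by linarith)
            have h4 : (2 * θ - 1) * κ ≤ 0 := by nlinarith
            by_contra hc
            push Not at hc
            nlinarith
        linarith
      · obtain ⟨n, f, g, e, hf, hf0, hg, hg0, hB, h1⟩ := h1
        rw [hsn, hsx, hhalf M f hf0, hhalf A g hg0] at h1
        have h3 := Rt_lower hB hκ (okl_rpl n (fun j => (hY j).1) hf hg) (fun y hy => by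
          obtain ⟨j, rfl⟩ := mem_rpl hy
          exact (hY j).2)
        have h4 : (rpl n Y).sum = ∑ j, (n j : ℝ) * Y j := by
          have h5 := congrArg Multiset.sum (coe_rpl n Y)
          rw [Multiset.sum_coe] at h5
          rw [h5, Multiset.sum_sum]
          exact Finset.sum_congr rfl fun j _ => by rw [Multiset.sum_replicate, nsmul_eq_mul]
        rw [h4] at h3
        linarith
      · rw [hsx] at h1
        linarith

/-- trivial bound -/
theorem triv_Rt (hP : ∀ lam, (π lam).OK) {c : ℝ} (hh : PU h c) :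
    Triv Dq (fun lam => Rt (π lam) h) :=
  XHB411.triv_Rt hP hh (fun lam => Qp (π lam)) Zl

/-- comparison of the exponents -/
theorem ex_Rp_le (hP : ∀ lam, (π lam).OK) {c : ℝ} (hh : PU h c) {κ : ℝ} {Y : Multiset ℝ}
    {m a : ℝ} (hκ : 0 ≤ κ) (hY : Ok Y m a) :
    ex Dq (fun lam => Rp (π lam) h) κ Y m a ≤ ex Dq (fun lam => Rt (π lam) h) κ Y m a := by
  have h1 := ex_spec (pinv_Rt π h) (triv_Rt hP hh) hκ (okl_of hY)
  rw [Multiset.coe_toList] at h1
  exact ex_le' (ex_nonneg _ _ _ _) (Rt_R h1)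

/-- **complete families** -/
theorem expC_Rt (hP : ∀ lam, (π lam).OK) {c : ℝ} (hh : PU h c) :
    ExpC702.ExpC (ex Dq (fun lam => Rt (π lam) h)) (ex Dq (fun lam => Rc (π lam) h)) where
  le := by
    intro κ Y m a E hκ hY H
    refine (ExpC702.expC_702 hP hh).le κ Y m a E hκ hY fun κ' h0 h1 => ?_
    have h2 := ex_Rp_le hP hh h0 hY
    have h3 := H κ' h0 h1
    linarith

/-- **the kernel fields of the exceptional class** (`S` Gauss side, `S₀` its cube-free version) -/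
structure OpenX (θ : ℝ) (π : Lam → DPar) (h : ℝ → ℝ) (S S₀ : Lam → ℝ → List Pq → ℝ) : Prop where
  permS : Pinv S
  trivS : Triv Dq S
  hbG : ∀ (κ : ℝ) (u : List ℝ) (m a : ℝ), 0 ≤ κ → Okl u m a →
    BG Dq S κ u (wt m a) (max (κ + (u.sum + m + a)) (max (2 * (u.sum + m + a) + κ / 3)
      ((u.sum + m + a) + 2 / 3 * (κ + (u.sum + m + a)))))
  poisC : ∀ (κ : ℝ) (u : List ℝ) (m a E : ℝ), 0 ≤ κ → Okl u m a →
    κ + (u.sum + m + a) ≤ E → 2 * (u.sum + m + a) ≤ E →
    (∀ (u' : List ℝ) (m' a' i : ℝ), Shl u' u → 0 ≤ m' → m' ≤ m → 0 ≤ a' → a' ≤ a → 0 ≤ i →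
      i ≤ 2 * (u'.sum + m' + a') - κ →
      BG Dq S i u' (wt m' a') (E - (κ + (u.sum + m + a) -
        2 * (u'.sum + m' + a') + (2 * (u'.sum + m' + a') - κ - i) / 3))) →
    ∀ κ' : ℝ, 0 ≤ κ' → κ' ≤ κ →
      BG Dq (fun lam => Rt (π lam) h) κ' u (wt m a) (E - (κ - κ') / 3)
  poisG : ∀ (κ : ℝ) (u : List ℝ) (m a E : ℝ), 0 ≤ κ → Okl u m a →
    κ + (u.sum + m + a) ≤ E →
    (∀ (u' : List ℝ) (m' a' i : ℝ), Shl u' u → 0 ≤ m' → m' ≤ m → 0 ≤ a' → a' ≤ a → 0 ≤ i →
      (∀ y ∈ u', y ≤ i) → i ≤ 2 * (u.sum + m + a) - κ →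
      BG Dq (fun lam => Rt (π lam) h) i u' (wt m' a') (E - (κ - (u'.sum + m' + a') +
        (2 * (u.sum + m + a) - κ - i) / 3))) →
    (∀ (u' : List ℝ) (m' a' : ℝ), Shl u' u → 0 ≤ m' → m' ≤ m → 0 ≤ a' → a' ≤ a →
      κ ≤ 2 * (u.sum + m + a) →
      κ - (u'.sum + m' + a') + (2 * (u.sum + m + a) - κ) / 3 + 2 * a' + 2 * θ * m' ≤ E) →
    ∀ κ' : ℝ, 0 ≤ κ' → κ' ≤ κ → BG Dq S κ' u (wt m a) (E - (κ - κ') / 3)
  cau : ∀ (κ : ℝ) (u : List ℝ) (m a b c e : ℝ), 0 ≤ κ → Okl u m a → 0 ≤ b → b ≤ m → 0 ≤ c →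
    c ≤ a → BG Dq S (κ + (b + c)) u (wt (m - b) (a - c)) e → BG Dq S κ u (wt m a) ((b + c) + e)
  cauS : ∀ (κ y : ℝ) (u : List ℝ) (m a e : ℝ), 0 ≤ κ → 0 ≤ y → Okl u m a →
    BG Dq S (κ + y) u (wt m a) e → BG Dq S κ (y :: u) (wt m a) (y + e)
  rem : T3F986.T3Fld θ (ex Dq (fun lam => Rt (π lam) h))

/-- the rules for the exceptional class -/
theorem brules_ex {θ : ℝ} (hθ : 1 / 2 < θ) (hθ1 : θ ≤ 1) (hPF : PF Set.univ θ) {c : ℝ}
    (hh : PU h c) (hP : ∀ lam, (π lam).OK) {S S₀ : Lam → ℝ → List Pq → ℝ}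
    (H : OpenX θ π h S S₀) : BRules θ Dq (fun lam => Rt (π lam) h) S where
  permR := pinv_Rt π h
  permS := H.permS
  trivR := triv_Rt hP hh
  trivS := H.trivS
  hbC κ u m a _ _ := XHB411.bg_Rt hP hh (fun lam => Qp (π lam)) Zl κ u m a
  hbG := H.hbG
  tf κ y₁ y₂ h1 h2 h3 _ := tf_ex hP hh (h1.trans h3) h1 h2
  poisC := H.poisC
  poisG := H.poisG
  cau := H.cau
  cauS := H.cauS
  flip := flip_ex hP hh
  sup := sup_ex hθ hθ1 hPF hh hP
  supS := supS_ex hθ hθ1 hPF hh hP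

/-- **the provider of the exceptional class** from the kernel fields -/
theorem prov_ex {θ : ℝ} (hθ : 7 / 8 ≤ θ) (hθ1 : θ ≤ 1) (hPF : PF Set.univ θ) {c : ℝ}
    (hh : PU h c) (hP : ∀ lam, (π lam).OK) {S S₀ : Lam → ℝ → List Pq → ℝ}
    (H : OpenX θ π h S S₀) :
    ProvE θ (ex Dq (fun lam => Rt (π lam) h)) (ex Dq S) (ex Dq S₀)
      (ex Dq (fun lam => Rc (π lam) h)) (ex Dq (fun lam => Bc (π lam) h)) where
  rules := BRules.exp (by linarith) (brules_ex (by linarith) hθ1 hPF hh hP H)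
  lb := (blb_Rt hθ hθ1 hPF hh hP).exp (by linarith) hθ1 (pinv_Rt π h) (triv_Rt hP hh)
  lv := (blv_Rt (by linarith) hθ1 hPF hh hP).exp (by linarith) (pinv_Rt π h) (triv_Rt hP hh)
  rem := H.rem
  cpl := expC_Rt hP hh
  box := ExpC702.expBoxC_702 (by linarith) hθ1 hPF hh hP

end

end Crest.Agent.R017.XEx298
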