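import Crest.Agent.R017.XC7_71
import Crest.Agent.R017.DkB_848
import Crest.Agent.R017.XEx_298

/-!
# Row 17, exceptional class: the cube-free families on the Gauss side (helper298)

* `cfK K`, `ker_cfK` : the kernel `K` on the cube-free frequencies is again a kernel
* `S0x` : the cube-free Gauss side with kernel `Dk`
* `BG_Sx` : the complete Gauss side from the cube-free one
* `cauX`, `cauSX` : rule (C)
* `bremX_of` : `BRem` from the field `rem`
-/

set_option autoImplicit false

noncomputable section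

open scoped ComplexConjugate

namespace Crest.Agent.R017.XS0298

open Crest.Agent.R012 Crest.Agent.R012.Eis Crest.Agent.R012.LS2 Crest.Agent.R012.Gauss880
open Crest.Agent.R017.CM106 Crest.Agent.R017.FE47
open Crest.Agent.R017.HP842 (Ker ker_Kg KS sqc Kg pc dl alL alL_cons)
open Crest.Agent.R017.XG702 (Pcs BG)
open Crest.Agent.R017.B770 Crest.Agent.R017.End699
open Crest.Agent.R017.Prov71
open Crest.Agent.R017.XC858 (SKq cauK_858 cauSK_858)
open Crest.Agent.R017.PX764 (Dk Dk_cube)
open Crest.Agent.R017.Dk848 (ker_Dk)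
open Crest.Agent.R017.XEx298

/-! ### the cube-free cut of a kernel -/

open Classical in
/-- the kernel `K` on the cube-free frequencies -/
def cfK (K : Eis → Eis → ℂ) (h m : Eis) : ℂ := if CubeFree h then K h m else 0

lemma ker_cfK {K : Eis → Eis → ℂ} (hK : Ker K) : Ker (cfK K) where
  mul h w m hw hsw hm := by
    classical
    unfold cfK
    by_cases hh : CubeFree h
    · rw [if_pos hh]
      by_cases hc : IsCoprime h w
      · rw [if_pos (Prov71.CubeFree.mul hh hsw hc)]
        exact hK.mul h w m hw hsw hm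
      · have h0 : sy h w = 0 := (syG.eq_zero h w hw).2 hc
        rw [hK.mul h w m hw hsw hm, h0, map_zero, mul_zero, zero_mul, zero_mul]
    · have h1 : ¬ CubeFree (h * w) := fun H => hh (cubeFree_of_mul H)
      rw [if_neg hh, if_neg h1, mul_zero]
  cop h m hm hc := by
    classical
    unfold cfK
    split_ifs
    · exact hK.cop h m hm hc
    · rfl

lemma KS_cfK (K : Eis → Eis → ℂ) (α : Eis → ℂ) (x : Eis) :
    KS (cfK K) α x = (open Classical in if CubeFree x then KS K α x else 0) := by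
  classical
  unfold HP842.KS cfK
  split_ifs with h
  · simp
  · simp

open Classical in
/-- **the cube-free Gauss side of a kernel** -/
def S0K (K : Eis → Eis → ℂ) (P : DPar) (h : ℝ → ℝ) (l : ℝ) (ps : List Pq) : ℝ :=
  ∑ x ∈ (bl (Real.exp l)).filter CubeFree, ‖KS K (sqc 1 (alL h (ps.map (Pq.pc P)))) x‖ ^ 2

lemma S0K_eq (K : Eis → Eis → ℂ) (P : DPar) (h : ℝ → ℝ) : S0K K P h = SKq (cfK K) P h := by
  classical
  funext l ps
  unfold S0K XC858.SKq SK
  rw [Finset.sum_filter]
  refine Finset.sum_congr (by congr) fun x _ => ?_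
  rw [KS_cfK]
  split_ifs <;> simp

lemma S0K_Kg (P : DPar) (h : ℝ → ℝ) : S0K Kg P h = S0p P h := rfl

lemma S0K_le (K : Eis → Eis → ℂ) (P : DPar) (h : ℝ → ℝ) (l : ℝ) (ps : List Pq) :
    S0K K P h l ps ≤ SKq K P h l ps := by
  classical
  unfold S0K XC858.SKq SK
  exact Finset.sum_le_sum_of_subset_of_nonneg (Finset.filter_subset _ _) fun _ _ _ => by positivity

lemma pinv_S0K {Lam : Type*} (K : Eis → Eis → ℂ) (π : Lam → DPar) (h : ℝ → ℝ) :
    Pinv (fun lam => S0K K (π lam) h) := by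
  intro lam l ps qs hp
  beta_reduce
  unfold S0K
  rw [alL_perm h (hp.map (Pq.pc (π lam)))]

/-! ### the kernel `Dk` -/

/-- the cube-free Gauss side of the exceptional class -/
abbrev S0x (P : DPar) (h : ℝ → ℝ) : ℝ → List Pq → ℝ := S0K Dk P h

/-- the kernel at `x` is that of `red x` -/
lemma Dk_red {x n : Eis} (hx : x ≠ 0) (hn : IsPrim n) :
    Dk x n = prin0 (Lbc298.dc x).m n * Dk (Lbc298.red x) n := by
  unfold End699.prin0
  have hm := Lbc298.m_ne_zero hx
  by_cases hc : IsCoprime n (Lbc298.dc x).m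
  · rw [if_pos hc, one_mul]
    conv_lhs => rw [Lbc298.red_mul hx]
    exact Dk_cube hm hn hc.symm
  · rw [if_neg hc, zero_mul]
    refine ker_Dk.cop x n hn fun h1 => hc ?_
    rw [Lbc298.red_mul hx] at h1
    exact (IsCoprime.pow_right_iff (by norm_num)).1 h1.of_mul_right_right

lemma KS_redD {α : Eis → ℂ} (hα : FS α) {x : Eis} (hx : x ≠ 0) :
    KS Dk α x = KS Dk (fun n => α n * prin0 (Lbc298.dc x).m n) (Lbc298.red x) := by
  classical
  unfold HP842.KS
  refine tsum_congr fun n => ?_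
  by_cases h0 : α n = 0
  · simp only [h0, zero_mul]
  · rw [Dk_red hx (hα.prim n h0)]
    ring

/-- **complete Gauss side from the cube-free one** -/
theorem BG_Sx {Lam : Type*} {π : Lam → DPar} (hP : ∀ lam, (π lam).OK) {h : ℝ → ℝ} (hh : Bump h)
    {κ E : ℝ} {u : List ℝ} {w : Kd → ℝ} (hκ : 0 ≤ κ)
    (H : ∀ i, 0 ≤ i → i ≤ κ → BG Dq (fun lam => S0x (π lam) h) i u w (E - (κ - i) / 3)) :
    BG Dq (fun lam => SKq Dk (π lam) h) κ u w E := by
  classical
  refine BG_cubes tws_tw (fun lam l ps _ => ?_) (fun lam l ps hl => ?_) hκ H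
  · have h1 := Lbc298.cube_le_f (K := Real.exp l) (Real.exp_pos _).le (fun _ => True)
      (fun _ _ _ => trivial)
      (F := fun x => ‖KS Dk (sqc 1 (alL h (ps.map (Pq.pc (π lam))))) x‖ ^ 2)
      (G := fun m x => ‖KS Dk (sqc 1 (alL h ((ps.map (Pq.tw m)).map (Pq.pc (π lam))))) x‖ ^ 2)
      (fun m k => by positivity)
      (fun x hx _ => by
        refine le_of_eq ?_
        have hm := Lbc298.m_ne_zero hx
        have hfs : FS (sqc 1 (alL h (ps.map (Pq.pc (π lam))))) :=
          HP842.FS.sqc (fs_alL hh fun p hp => by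
            obtain ⟨q, _, rfl⟩ := List.mem_map.1 hp
            exact q.ok (hP lam)) 1
        have e : sqc 1 (alL h ((ps.map (Pq.tw (Lbc298.dc x).m)).map (Pq.pc (π lam)))) =
            fun n => sqc 1 (alL h (ps.map (Pq.pc (π lam)))) n * prin0 (Lbc298.dc x).m n := by
          funext n
          rw [alL_tw (π lam) h hm]
          unfold HP842.sqc
          ring
        rw [e, ← KS_redD hfs hx])
    rw [exp_third] at h1
    unfold XC858.SKq SK
    have e0 : (bl (Real.exp l)).filter (fun _ => True) = bl (Real.exp l) := by simp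
    rw [e0] at h1
    refine h1.trans (le_of_eq ?_)
    refine Finset.sum_congr rfl fun m hm => ?_
    rw [mem_bl (Real.exp_pos _).le] at hm
    unfold S0x S0K
    rw [exp_div_cube l hm.1]
    refine Finset.sum_congr ?_ fun _ _ => rfl
    ext k
    rw [Finset.mem_filter, Finset.mem_filter]
    constructor
    · rintro ⟨a, b, c⟩; exact ⟨a, b⟩
    · rintro ⟨a, b⟩; exact ⟨a, b, trivial⟩
  · unfold XC858.SKq SK
    rw [bl_exp_neg hl, Finset.sum_empty]

section

variable {Lam : Type*} {π : Lam → DPar} {h : ℝ → ℝ} {c₀ : ℝ}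

/-- rule (C) -/
theorem cauX (hP : ∀ lam, (π lam).OK) (hh : PU h c₀) (κ : ℝ) (u : List ℝ) (m a b c e : ℝ)
    (hκ : 0 ≤ κ) (hu : Okl u m a) (hb : 0 ≤ b) (hbm : b ≤ m) (hc : 0 ≤ c) (hca : c ≤ a)
    (H : BG Dq (fun lam => S0x (π lam) h) (κ + (b + c)) u (wt (m - b) (a - c)) e) :
    BG Dq (fun lam => S0x (π lam) h) κ u (wt m a) ((b + c) + e) := by
  simp only [S0x, S0K_eq] at H ⊢
  exact cauK_858 (ker_cfK ker_Dk) hP hh κ u m a b c e hκ hu hb hbm hc hca H

theorem cauSX (hP : ∀ lam, (π lam).OK) (hh : PU h c₀) (κ y : ℝ) (u : List ℝ) (m a e : ℝ)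
    (hκ : 0 ≤ κ) (hy : 0 ≤ y) (hu : Okl u m a)
    (H : BG Dq (fun lam => S0x (π lam) h) (κ + y) u (wt m a) e) :
    BG Dq (fun lam => S0x (π lam) h) κ (y :: u) (wt m a) (y + e) := by
  simp only [S0x, S0K_eq] at H ⊢
  exact cauSK_858 (ker_cfK ker_Dk) hP hh κ y u m a e hκ hy hu H

end

end Crest.Agent.R017.XS0298
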