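import Crest.Agent.R017.FNEg_708
import Crest.Agent.R017.XS0_298
import Crest.Agent.R017.I1K_764
import Crest.Agent.R017.E2c_440

/-!
# Row 17, R8 / P1: the T-inputs of `(I1)` for every kernel (helper708), part 2

* `FBS`          : the T-inputs of `(I1)` for one parent, any functional `S q l ps`
* `flat_bundleG` : **`FE2G` ⇒ `FBS`** for any functional `Φ`, any family `Kf`, level bound `Tf`
* `FB_of_S`, `FBK` : class N literally; the kernels (`FlatLK`, `TailK` of helper764)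
-/

set_option autoImplicit false
set_option linter.unusedSectionVars false

noncomputable section

open Set

namespace Crest.Agent.R017.TK708

open Crest.Agent.R012 Crest.Agent.R012.Eis
open Crest.Agent.R017.FE47 (PU)
open Crest.Agent.R017.CM106
open Crest.Agent.R017.XG702 (Pcs BG)
open Crest.Agent.R017.XT71 (Sys Win mx le_mx one_le_mx)
open Crest.Agent.R017.Prov71
open Crest.Agent.R017.B770
open Crest.Agent.R017.ER911
open Crest.Agent.R017.HP842 (Pc pc sqc alL KS Ker)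
open Crest.Agent.R017.TM708
open Crest.Agent.R017.I1146 (ChN LN cN SN FlatO FlatL Tail)
open Crest.Agent.R017.XS0298 (S0K S0x S0K_le pinv_S0K)
open Crest.Agent.R017.XC858 (SKq)
open Crest.Agent.R017.PX764 (Dk)
open Crest.Agent.R017.I1K764 (SNK FlatLK TailK)

variable {Λ : Type*} {π : Λ → DPar} {h : ℝ → ℝ} {d : ℝ} {Φ : Λ → ℝ → List Pq → ℝ} {n : ℕ}
  {Kf Tf : (Fin 5 → ℝ) → ℝ}

/-- the loss of the family -/
def LK (Kf : (Fin 5 → ℝ) → ℝ) (b : Fin 5 → ℝ) : ℝ := (Kf b - b 0) / 3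

/-- the region of the parents for the family `Kf` and the level bound `Tf` -/
structure RG5 (Kf Tf : (Fin 5 → ℝ) → ℝ) (b : Fin 5 → ℝ) : Prop where
  k0 : 0 ≤ b 0
  x0 : 0 ≤ b 4
  hN : b 1 + b 2 + b 3 ≤ 102 / 125 * b 0
  x1 : b 4 ≤ 1 / 36 * b 0
  adm : b 4 ≤ 0 ∨ (b 1 + b 2 + b 3 + b 4 ≤ 4 / 5 * b 0 ∧
    2 * (b 1 + b 2 + b 3) + 5 * b 4 ≤ 59 / 36 * b 0)
  kK : b 0 ≤ Kf b
  T1 : Tf b ≤ 23 / 36 * b 0
  T2 : Tf b + b 4 ≤ 2 / 3 * b 0

lemma R5.toG {b : Fin 5 → ℝ} (h : R5 b) : RG5 K5 T5 b :=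
  ⟨h.k0, h.x0, h.hN, h.x1, h.adm.imp id fun h => ⟨h.1, h.2.1⟩, le_max_left _ _, h.T5_le,
    h.T5x_le⟩

section claims

variable (S : Eis → ℝ → List Pq → ℝ)

/-- `FlatL` for a functional -/
def FlatLS (q : Eis) (ps : List Pq) (G r M κ T F : ℝ) : Prop :=
  ∀ g : Eis, IsPrim g → (nm g : ℝ) ≤ G → ∀ (b l : ℝ) (ps' : List Pq), 0 ≤ b → 0 ≤ l →
    List.Forall₂ (ChN r) ps' ps → |LN ps' - (LN ps - Real.log (nm g) - b)| ≤ r →
    l ≤ T - 2 * Real.log (nm g) + b + r →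
    S (q * g) l ps' ≤ F * cN ps' ps ^ M *
      Real.exp (2 * LN ps' + max 0 ((l - 2 * LN ps' + κ) / 3) + b)

/-- `Tail` for a functional -/
def TailS (q : Eis) (ps : List Pq) (G r M κ T T₀ E F : ℝ) : Prop :=
  ∀ g : Eis, IsPrim g → (nm g : ℝ) ≤ G → ∀ (b l : ℝ) (ps' : List Pq), 0 ≤ b → 0 ≤ l →
    List.Forall₂ (ChN r) ps' ps → |LN ps' - (LN ps - Real.log (nm g) - b)| ≤ r →
    l ≤ T - 2 * Real.log (nm g) + b + r →
    (E ≤ b ∨ T₀ ≤ l - b + 2 * Real.log (nm g) + 4 * r) →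
    S (q * g) l ps' ≤ F * cN ps' ps ^ M *
      Real.exp (4 / 3 * LN ps' + (l + κ) / 3 + 2 * b)

/-- `TailM` for a functional -/
def TailMS (q : Eis) (ps : List Pq) (G r M κ T T₀ E c₀ F : ℝ) : Prop :=
  ∀ g : Eis, IsPrim g → (nm g : ℝ) ≤ G → ∀ (c b l : ℝ) (ps' : List Pq), 0 ≤ c → c ≤ c₀ →
    2 * c ≤ Real.log (nm g) → 0 ≤ b → 0 ≤ l → List.Forall₂ (ChN r) ps' ps →
    |LN ps' - (LN ps - Real.log (nm g) - b)| ≤ r →
    l ≤ T - 2 * Real.log (nm g) + 5 * c + b + r →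
    (E ≤ b + c + r ∨ T₀ ≤ l - b + 2 * Real.log (nm g) - 2 * c + r) →
    S (q * g) l ps' ≤ F * cN ps' ps ^ M *
      Real.exp (4 / 3 * LN ps' + (l + κ) / 3 + 2 * b)

/-- `FlatM` for a functional -/
def FlatMS (q : Eis) (ps : List Pq) (G r M κ T c₀ F : ℝ) : Prop :=
  ∀ g : Eis, IsPrim g → (nm g : ℝ) ≤ G → ∀ (c b l : ℝ) (ps' : List Pq), 0 ≤ c → c ≤ c₀ →
    2 * c ≤ Real.log (nm g) → 0 ≤ b → 0 ≤ l → List.Forall₂ (ChN r) ps' ps →
    |LN ps' - (LN ps - Real.log (nm g) - b)| ≤ r →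
    l ≤ T - 2 * Real.log (nm g) + 5 * c + b + r →
    S (q * g) l ps' ≤ F * cN ps' ps ^ M *
      Real.exp (2 * LN ps' + max 0 ((l - 2 * LN ps' + κ) / 3) + b)

/-- `SBc` for a functional -/
def SBcS (q : Eis) (ps : List Pq) (G r M T E : ℝ) (φ : ℝ → ℝ) : Prop :=
  ∀ g : Eis, IsPrim g → (nm g : ℝ) ≤ G → ∀ (b l : ℝ) (ps' : List Pq), 0 ≤ b → 0 ≤ l →
    List.Forall₂ (ChN r) ps' ps → |LN ps' - (LN ps - Real.log (nm g) - b)| ≤ r →
    l ≤ T - 2 * Real.log (nm g) + b + r →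
    S (q * g) l ps' ≤ cN ps' ps ^ M * (φ (l + 2 * Real.log (nm g) - b) *
      Real.exp (-2 * Real.log (nm g) - 5 / 6 * b + 2 * max 0 (b - E)))

/-- **the T-inputs of `(I1)` for one parent, any functional** -/
structure FBS (q : Eis) (ps : List Pq) (G r M κ T k x L3 τ F : ℝ) : Prop where
  flat : FlatLS S q ps G r M κ T F
  flatM : ∀ c₀ : ℝ, c₀ ≤ x → FlatMS S q ps G r M κ T c₀ F
  tail : ∀ T₀ E : ℝ, k / 64 - τ ≤ E → 2 * LN ps - κ ≤ T₀ + L3 + τ →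
    TailS S q ps G r M κ T T₀ E F
  tailM : ∀ T₀ E c₀ : ℝ, k / 20 - τ ≤ E → c₀ ≤ x → 2 * LN ps - κ ≤ T₀ + L3 + τ →
    TailMS S q ps G r M κ T T₀ E c₀ F
  sbF : ∀ E : ℝ, 0 ≤ E → E ≤ k / 20 + τ → T + E ≤ 2 / 3 * k + τ →
    SBcS S q ps G r M T E (ΦF (LN ps) κ F)
  sbS : ∀ E : ℝ, 0 ≤ E → E ≤ k / 20 + τ → SBcS S q ps G r M T E (ΦS (LN ps) κ F)

end claims

/-- class N literally -/
lemma FBS_iff {P : DPar} {q : Eis} {ps : List Pq} {G r M κ T k x L3 τ F : ℝ} :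
    FBS (fun q l ps => SN q P h l ps) q ps G r M κ T k x L3 τ F ↔
      FB h P q ps G r M κ T k x L3 τ F :=
  ⟨fun H => ⟨H.flat, H.flatM, H.tail, H.tailM, H.sbF, H.sbS⟩,
    fun H => ⟨H.flat, H.flatM, H.tail, H.tailM, H.sbF, H.sbS⟩⟩

/-- comparison of functionals -/
lemma FBS.mono {S S' : Eis → ℝ → List Pq → ℝ} {q : Eis} {ps : List Pq}
    {G r M κ T k x L3 τ F : ℝ} (H : FBS S q ps G r M κ T k x L3 τ F)
    (h : ∀ g, IsPrim g → ∀ l ps', S' (q * g) l ps' ≤ S (q * g) l ps') :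
    FBS S' q ps G r M κ T k x L3 τ F := by
  refine ⟨?_, ?_, ?_, ?_, ?_, ?_⟩
  · intro g hg h1 b l ps' h2 h3 h4 h5 h6
    exact (h g hg l ps').trans (H.flat g hg h1 b l ps' h2 h3 h4 h5 h6)
  · intro c₀ hc g hg h1 c b l ps' h2 h3 h4 h5 h6 h7 h8 h9
    exact (h g hg l ps').trans (H.flatM c₀ hc g hg h1 c b l ps' h2 h3 h4 h5 h6 h7 h8 h9)
  · intro T₀ E hE hT g hg h1 b l ps' h2 h3 h4 h5 h6 h7
    exact (h g hg l ps').trans (H.tail T₀ E hE hT g hg h1 b l ps' h2 h3 h4 h5 h6 h7)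
  · intro T₀ E c₀ hE hc hT g hg h1 c b l ps' h2 h3 h4 h5 h6 h7 h8 h9 h10
    exact (h g hg l ps').trans
      (H.tailM T₀ E c₀ hE hc hT g hg h1 c b l ps' h2 h3 h4 h5 h6 h7 h8 h9 h10)
  · intro E h0 hE hT g hg h1 b l ps' h2 h3 h4 h5 h6
    exact (h g hg l ps').trans (H.sbF E h0 hE hT g hg h1 b l ps' h2 h3 h4 h5 h6)
  · intro E h0 hE g hg h1 b l ps' h2 h3 h4 h5 h6
    exact (h g hg l ps').trans (H.sbS E h0 hE g hg h1 b l ps' h2 h3 h4 h5 h6)

set_option maxHeartbeats 1600000 in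
/-- **the cells of a parent near the region** : `T ≤ Tf b + τ`; all bounds in the units of `log X`
(`L = log X`), `V` = the bound to be proved for the exponents -/
theorem cell_leG (hW : Wd Φ) (hA : AllT d (ex Dq Φ)) (hKf : Continuous Kf) (hTf : Continuous Tf)
    {D5 : Set (Fin 5 → ℝ)} (hD : IsCompact D5)
    {ℓ : (Fin 5 → ℝ) → ℝ} (hℓ : Continuous ℓ) (hℓ0 : ∀ b ∈ D5, 0 ≤ ℓ b)
    (hFE : FE2G (ex Dq Φ) D5 Kf Tf ℓ) {ε : ℝ} (hε : 0 < ε) :
    ∃ τ : ℝ, 0 < τ ∧ τ ≤ ε ∧ ∀ (lam : Λ) (N : ℕ) (B : ℝ), ∃ M₀ : ℕ, ∀ r : ℝ, 0 ≤ r →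
      ∃ X₀ : ℝ, 1 < X₀ ∧ ∀ X : ℝ, X₀ ≤ X →
      (N + 1) * r ≤ τ * Real.log X ∧
      ∀ b ∈ D5, ∀ (q : Eis) (us : Fin 3 → Pq) (gs : List Pq) (κ H : ℝ),
      PD X τ B H N b q us gs κ → ∀ T : ℝ, T ≤ (Tf b + τ) * Real.log X → ∀ M : ℝ, (M₀ : ℝ) ≤ M →
      ∀ g : Eis, IsPrim g → (nm g : ℝ) ≤ X ^ B → ∀ (c β l : ℝ) (ps' : List Pq), 0 ≤ c →
      c ≤ Real.log X * b 4 + τ * Real.log X → 2 * c ≤ Real.log (nm g) → 0 ≤ β → 0 ≤ l →
      List.Forall₂ (ChN r) ps' ([us 0, us 1, us 2] ++ gs) →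
      |LN ps' - (LN ([us 0, us 1, us 2] ++ gs) - Real.log (nm g) - β)| ≤ r →
      l ≤ T - 2 * Real.log (nm g) + 5 * c + β + r → ∀ V : ℝ,
      (∀ z₁ z₂ z₃ w : ℝ, 0 ≤ z₁ → 0 ≤ z₂ → 0 ≤ z₃ → 0 ≤ w →
        w ≤ Real.log X * b 4 + 4 * (τ * Real.log X) → z₁ + z₂ + z₃ + w = LN ps' →
        LN ps' ≤ Real.log X * (b 1 + b 2 + b 3) + Real.log X * b 4 - Real.log (nm g) - β +
          5 * (τ * Real.log X) →
        z₁ ≤ (us 0).z + r → z₂ ≤ (us 1).z + r → z₃ ≤ (us 2).z + r →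
        min (eW (Real.log X * Kf b) l (LN ps') w) (tAll d l z₁ z₂ z₃ w) ≤
          V + Real.log X * LK Kf b + 200 * (τ * Real.log X)) →
      tq Φ lam (q * g) l ps' ≤ H ^ M₀ * X ^ (LK Kf b + ℓ b + ε) *
        cN ps' ([us 0, us 1, us 2] ++ gs) ^ M * Real.exp V := by
  obtain ⟨σ, hσ, G⟩ := child_leG hW hA hKf hTf hD hℓ hFE (half_pos hε)
  set τ := min (σ / 20) (ε / 400) with hτd
  have hτ : 0 < τ := lt_min (by positivity) (by positivity)
  have hτσ : τ ≤ σ / 20 := min_le_left _ _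
  have hτε : τ ≤ ε / 400 := min_le_right _ _
  refine ⟨τ, hτ, by linarith, fun lam N B => ?_⟩
  obtain ⟨M₀, G'⟩ := G lam N B
  refine ⟨M₀, fun r hr => ?_⟩
  obtain ⟨X₀, hX₀, G1⟩ := G' r hr
  refine ⟨max X₀ (Real.exp ((N + 1) * r / τ)), lt_of_lt_of_le hX₀ (le_max_left _ _), ?_⟩
  intro X hX
  have hX0' : X₀ ≤ X := (le_max_left _ _).trans hX
  have hX1 : 1 < X := by linarith
  set L := Real.log X with hLd
  have hL : 0 < L := Real.log_pos hX1
  have hN0 : (0 : ℝ) ≤ N := Nat.cast_nonneg N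
  have hNrL : (N + 1) * r ≤ τ * L := by
    have h1 : Real.exp ((N + 1) * r / τ) ≤ X := (le_max_right _ _).trans hX
    have h2 : (N + 1) * r / τ ≤ L := by
      have := Real.log_le_log (Real.exp_pos _) h1
      rwa [Real.log_exp] at this
    rw [div_le_iff₀ hτ] at h2
    linarith
  refine ⟨hNrL, ?_⟩
  intro b hb q us gs κ H hPD T hT M hM g hg hgB c β l ps' hc hcx hcγ hβ hl hch hn hlev V hV
  have hrL : r ≤ τ * L := by nlinarith
  have hNr : N * r ≤ τ * L := by nlinarith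
  have hℓb := mul_nonneg hL.le (hℓ0 b hb)
  have hPD' : PD X (σ / 2) B H N b q us gs κ := by
    have hm : ∀ {c : ℝ}, (c + τ) * L ≤ (c + σ / 2) * L := fun {c} =>
      mul_le_mul_of_nonneg_right (by linarith) hL.le
    have hm0 : τ * L ≤ σ / 2 * L := mul_le_mul_of_nonneg_right (by linarith) hL.le
    exact ⟨hPD.q0, hPD.qB, hPD.H1, hPD.lump, hPD.us0, hPD.usB, hPD.usH, hPD.z1.trans hm,
      hPD.z2.trans hm, hPD.z3.trans hm, fun p hp => ⟨(hPD.am p hp).1, (hPD.am p hp).2.1,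
        (hPD.am p hp).2.2.1.trans hm0, (hPD.am p hp).2.2.2⟩, hPD.len, hPD.x.trans hm,
      hPD.k.trans hm0⟩
  set ps := [us 0, us 1, us 2] ++ gs with hps
  -- the length of the parent
  have hLNp : LN ps ≤ L * (b 1 + b 2 + b 3) + L * b 4 + 4 * (τ * L) := by
    have e : LN ps = (us 0).z + (us 1).z + (us 2).z + LN gs := by
      rw [hps]
      unfold LN
      simp only [List.cons_append, List.nil_append, List.map_cons, List.sum_cons]
      ring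
    rw [e]
    have h1 := hPD.z1
    have h2 := hPD.z2
    have h3 := hPD.z3
    have h4 := hPD.x
    rw [← hLd] at h1 h2 h3 h4
    linarith
  set t := τ * L with ht
  have ht0 : 0 ≤ t := by positivity
  have hT' : T ≤ L * Tf b + t := by rw [ht]; linarith
  have hγ : 0 ≤ Real.log (nm g) := Real.log_nonneg (by exact_mod_cast nm_pos.2 hg.ne_zero)
  set γ := Real.log (nm g)
  obtain ⟨hn1, hn2⟩ := abs_le.1 hn
  obtain ⟨z₁, z₂, z₃, w, h1, h2, h3, hw, hm1, hm2, hm3, hwx, hsum, key⟩ := G1 X hX0' b hb q us gs κ H hPD' g hg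
    hgB l ps' hl hch (by
      have : 20 * t ≤ σ * L := by rw [ht]; nlinarith
      rw [← hLd]
      linarith)
  have h4 := hV z₁ z₂ z₃ w h1 h2 h3 hw (by
    have := hPD.x
    rw [← hLd] at this
    linarith) hsum (by linarith) hm1 hm2 hm3
  refine fin_conv (e₁ := ε / 2) (e₂ := 200 * τ) hX1 (one_le_cN hch) hPD.H1 hM key ?_
    (by linarith)
  have h5 : (LK Kf b + ℓ b + 200 * τ) * L = L * LK Kf b + L * ℓ b + 200 * t := by rw [ht]; ring
  rw [← hLd, h5]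
  have h6 : min (eW (L * Kf b) l (LN ps') w + L * ℓ b) (tAll d l z₁ z₂ z₃ w) ≤
      min (eW (L * Kf b) l (LN ps') w) (tAll d l z₁ z₂ z₃ w) + L * ℓ b := by
    rcases le_total (eW (L * Kf b) l (LN ps') w) (tAll d l z₁ z₂ z₃ w) with h | h
    · rw [min_eq_left h]; exact min_le_left _ _
    · rw [min_eq_right h]; exact (min_le_right _ _).trans (by linarith)
  linarith

set_option maxHeartbeats 1600000 in
/-- **`FE2L` gives all T-inputs of `(I1)`** (`FE2` : `ℓ = 0`) : `b` = parent coordinates in units of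
`log X`, every parent list within `τ log X` of the region -/
theorem flat_bundleG (hW : Wd Φ) (hd : 0 ≤ d) (hd1 : d ≤ 1 / 40) (hA : AllT d (ex Dq Φ))
    (hKf : Continuous Kf) (hTf : Continuous Tf)
    {D5 : Set (Fin 5 → ℝ)} (hD : IsCompact D5) (hR : ∀ b ∈ D5, RG5 Kf Tf b)
    {ℓ : (Fin 5 → ℝ) → ℝ} (hℓ : Continuous ℓ) (hℓ0 : ∀ b ∈ D5, 0 ≤ ℓ b)
    (hFE : FE2G (ex Dq Φ) D5 Kf Tf ℓ) {ε : ℝ} (hε : 0 < ε) :
    ∃ τ : ℝ, 0 < τ ∧ ∀ (lam : Λ) (N : ℕ) (B : ℝ), ∃ M₀ : ℕ, ∀ r : ℝ, 0 ≤ r →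
      ∃ X₀ : ℝ, 1 < X₀ ∧
      ∀ X : ℝ, X₀ ≤ X → ∀ b ∈ D5, ∀ (q : Eis) (us : Fin 3 → Pq) (gs : List Pq) (κ H : ℝ),
      PD X τ B H N b q us gs κ → ∀ T : ℝ, T ≤ (Tf b + τ) * Real.log X → ∀ θ : ℝ, 0 ≤ θ →
      T ≤ (Kf b - (b 1 + b 2 + b 3) / 2 - b 4 + 3 * θ + τ) * Real.log X → ∀ M : ℝ, (M₀ : ℝ) ≤ M →
      (b 0 / 2 - 2 * b 4 - τ) * Real.log X ≤ LN ([us 0, us 1, us 2] ++ gs) →
      FBS (tq Φ lam) q ([us 0, us 1, us 2] ++ gs) (X ^ B) r M κ T (Real.log X * b 0)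
        (Real.log X * b 4 + τ * Real.log X) (Real.log X * (3 * LK Kf b)) (τ * Real.log X)
        (H ^ M₀ * X ^ (LK Kf b + θ + ℓ b + ε)) := by
  obtain ⟨τ, hτ, hτε, G⟩ := cell_leG hW hA hKf hTf hD hℓ hℓ0 hFE hε
  refine ⟨τ, hτ, fun lam N B => ?_⟩
  obtain ⟨M₀, G'⟩ := G lam N B
  refine ⟨M₀, fun r hr => ?_⟩
  obtain ⟨X₀, hX₀, G1⟩ := G' r hr
  refine ⟨X₀, hX₀, ?_⟩
  intro X hX b hb q us gs κ H hPD T hT θ hθ hTθ M hM hmin
  obtain ⟨hNrL, G2⟩ := G1 X hX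
  replace G2 := G2 b hb q us gs κ H hPD T hT M hM
  have hX1 : 1 < X := by linarith
  set L := Real.log X with hLd
  have hL : 0 < L := Real.log_pos hX1
  have hθL : 0 ≤ L * θ := mul_nonneg hL.le hθ
  have toθ : ∀ {S c V : ℝ}, S ≤ H ^ M₀ * X ^ (LK Kf b + ℓ b + ε) * c * Real.exp (V + L * θ) →
      S ≤ H ^ M₀ * X ^ (LK Kf b + θ + ℓ b + ε) * c * Real.exp V := by
    intro S c V h
    refine h.trans (le_of_eq ?_)
    have e1 : X ^ (LK Kf b + θ + ℓ b + ε) = X ^ (LK Kf b + ℓ b + ε) * Real.exp (L * θ) := by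
      rw [rpow_exp hX1, rpow_exp hX1, ← Real.exp_add, ← hLd]
      congr 1
      ring
    rw [e1, Real.exp_add]
    ring
  have hN0 : (0 : ℝ) ≤ N := Nat.cast_nonneg N
  have hrL : r ≤ τ * L := by nlinarith
  have hRb := hR b hb
  have hT5 := mul_le_mul_of_nonneg_left hRb.T1 hL.le
  have hT5x := mul_le_mul_of_nonneg_left hRb.T2 hL.le
  have hK5 : b 0 ≤ Kf b := hRb.kK
  have hK5L := mul_le_mul_of_nonneg_left hK5 hL.le
  have hk0L := mul_nonneg hL.le hRb.k0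
  have hx0L := mul_nonneg hL.le hRb.x0
  have hL5 : LK Kf b = (Kf b - b 0) / 3 := rfl
  have hL50 : 0 ≤ L * LK Kf b := mul_nonneg hL.le (by unfold LK; linarith)
  have hx1L := mul_le_mul_of_nonneg_left hRb.x1 hL.le
  have hNL := mul_le_mul_of_nonneg_left hRb.hN hL.le
  obtain ⟨hk1, hk2⟩ := abs_le.1 hPD.k
  rw [← hLd] at hk1 hk2
  set ps := [us 0, us 1, us 2] ++ gs with hps
  set t := τ * L with ht
  have ht0 : 0 ≤ t := by positivity
  have hT' : T ≤ L * Tf b + t := by rw [ht]; linarith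
  have hTN : T + L * (b 1 + b 2 + b 3) / 2 + L * b 4 ≤
      L * b 0 + 3 * (L * LK Kf b + L * θ) + t := by
    rw [hL5, ht]
    have e : (Kf b - (b 1 + b 2 + b 3) / 2 - b 4 + 3 * θ + τ) * L =
      L * Kf b - L * (b 1 + b 2 + b 3) / 2 - L * b 4 + 3 * (L * θ) + τ * L := by ring
    rw [e] at hTθ
    linarith
  have hadm : L * b 4 ≤ 0 ∨ (L * (b 1 + b 2 + b 3) + L * b 4 ≤ 4 / 5 * (L * b 0) ∧
      2 * (L * (b 1 + b 2 + b 3)) + 5 * (L * b 4) ≤ 59 / 36 * (L * b 0)) := by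
    rcases hRb.adm with h | ⟨h, h'⟩
    · exact Or.inl (mul_nonpos_of_nonneg_of_nonpos hL.le h)
    · right
      have e1 := mul_le_mul_of_nonneg_left h hL.le
      have e2 := mul_le_mul_of_nonneg_left h' hL.le
      constructor <;> linarith
  have hadm' : L * b 4 ≤ 0 ∨ L * (b 1 + b 2 + b 3) + L * b 4 ≤ 4 / 5 * (L * b 0) :=
    hadm.imp id And.left
  have hmin' : L * b 0 / 2 - 2 * (L * b 4) - t ≤ LN ps := by
    have e : (b 0 / 2 - 2 * b 4 - τ) * L = L * b 0 / 2 - 2 * (L * b 4) - t := by rw [ht]; ring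
    linarith
  have hKL : L * Kf b ≤ L * b 0 + 3 * (L * LK Kf b + L * θ) := by rw [hL5]; linarith
  have hLθ0 : 0 ≤ L * LK Kf b + L * θ := by positivity
  have hcc : ∀ c : ℝ, 0 ≤ c → c ≤ L * b 4 + t →
      ∃ c', 0 ≤ c' ∧ c' ≤ c ∧ c ≤ c' + t ∧ c' ≤ L * b 4 := by
    intro c hc hcx
    refine ⟨min c (L * b 4), le_min hc hx0L, min_le_left _ _, ?_, min_le_right _ _⟩
    rcases min_cases c (L * b 4) with ⟨h, -⟩ | ⟨h, -⟩ <;> rw [h] <;> linarith
  have hγ0 : ∀ g : Eis, IsPrim g → 0 ≤ Real.log (nm g : ℝ) := fun g hg =>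
    Real.log_nonneg (by exact_mod_cast nm_pos.2 hg.ne_zero)
  -- the flat cells
  have flat : ∀ g : Eis, IsPrim g → (nm g : ℝ) ≤ X ^ B → ∀ (c β l : ℝ) (ps' : List Pq), 0 ≤ c →
      c ≤ L * b 4 + t → 2 * c ≤ Real.log (nm g) → 0 ≤ β → 0 ≤ l →
      List.Forall₂ (ChN r) ps' ps → |LN ps' - (LN ps - Real.log (nm g) - β)| ≤ r →
      l ≤ T - 2 * Real.log (nm g) + 5 * c + β + r →
      tq Φ lam (q * g) l ps' ≤ H ^ M₀ * X ^ (LK Kf b + θ + ℓ b + ε) * cN ps' ps ^ M *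
        Real.exp (2 * LN ps' + max 0 ((l - 2 * LN ps' + κ) / 3) + β) := by
    intro g hg hgB c β l ps' hc hcx hcγ hβ hl hch hn hlev
    obtain ⟨hn1, hn2⟩ := abs_le.1 hn
    obtain ⟨c', hc', hcc, hcc', hcx'⟩ := hcc c hc hcx
    refine toθ (G2 g hg hgB c β l ps' hc hcx hcγ hβ hl hch hn hlev _ ?_)
    intro z₁ z₂ z₃ w h1 h2 h3 hw hwx hsum hnx _ _ _
    refine (min_le_left _ _).trans ?_
    have h4 := kW_cell (K' := L * Kf b) (κ := L * b 0) (L := L * LK Kf b + L * θ) (T := T)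
      (γ := Real.log (nm g)) (b := β) (c := c') (l := l) (n := LN ps') (w := w) (x := L * b 4)
      (N := L * (b 1 + b 2 + b 3)) (t := 12 * t) (by positivity) hKL hβ (by linarith)
      (hγ0 g hg) hc' (by linarith) (by linarith) (by linarith) (by linarith)
    have h5 := eW_flat (κ := L * b 0) (K' := L * Kf b) (L := L * LK Kf b + L * θ) (T := T)
      (γ := Real.log (nm g)) (b := β) (c := c') (l := l) (n := LN ps') (t := 12 * t)
      (p := LN ps) (by positivity) h4 hKL hβ hc' (by linarith) (by linarith) (by linarith)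
      hLθ0 (by linarith) (by linarith)
    unfold eW
    have h6 : max 0 ((l - 2 * LN ps' + L * b 0) / 3) ≤
        max 0 ((l - 2 * LN ps' + κ) / 3) + t / 3 := by
      refine max_le ?_ ?_
      · have := le_max_left 0 ((l - 2 * LN ps' + κ) / 3)
        linarith
      · have := le_max_right 0 ((l - 2 * LN ps' + κ) / 3)
        linarith
    linarith
  -- the tails
  have tail : ∀ T₀ E : ℝ, 2 * LN ps - κ ≤ T₀ + L * (3 * LK Kf b) + t →
      ∀ g : Eis, IsPrim g → (nm g : ℝ) ≤ X ^ B → ∀ (c β l : ℝ) (ps' : List Pq), 0 ≤ c →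
      c ≤ L * b 4 + t → 2 * c ≤ Real.log (nm g) → 0 ≤ β → 0 ≤ l →
      List.Forall₂ (ChN r) ps' ps → |LN ps' - (LN ps - Real.log (nm g) - β)| ≤ r →
      l ≤ T - 2 * Real.log (nm g) + 5 * c + β + r →
      ((c = 0 ∧ L * b 0 / 64 - t ≤ E ∧ E ≤ β) ∨ (L * b 0 / 20 - t ≤ E ∧ E ≤ β + c + r) ∨
        T₀ ≤ l - β + 2 * Real.log (nm g) - 2 * c + 4 * r) →
      tq Φ lam (q * g) l ps' ≤ H ^ M₀ * X ^ (LK Kf b + θ + ℓ b + ε) * cN ps' ps ^ M *
        Real.exp (4 / 3 * LN ps' + (l + κ) / 3 + 2 * β) := by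
    intro T₀ E hT₀ g hg hgB c β l ps' hc hcx hcγ hβ hl hch hn hlev hor
    obtain ⟨hn1, hn2⟩ := abs_le.1 hn
    obtain ⟨c', hc', hcc, hcc', hcx'⟩ := hcc c hc hcx
    refine toθ (G2 g hg hgB c β l ps' hc hcx hcγ hβ hl hch hn hlev _ ?_)
    intro z₁ z₂ z₃ w h1 h2 h3 hw hwx hsum hnx _ _ _
    have h4 := kW_cell (K' := L * Kf b) (κ := L * b 0) (L := L * LK Kf b + L * θ) (T := T)
      (γ := Real.log (nm g)) (b := β) (c := c') (l := l) (n := LN ps') (w := w) (x := L * b 4)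
      (N := L * (b 1 + b 2 + b 3)) (t := 12 * t) (by positivity) hKL hβ (by linarith)
      (hγ0 g hg) hc' (by linarith) (by linarith) (by linarith) (by linarith)
    unfold eW
    rcases hor with ⟨rfl, hE, hor⟩ | ⟨hE, hor⟩ | hor
    · have h5 := mixW_tail (κ := L * b 0) (K' := L * Kf b) (L := L * LK Kf b + L * θ)
        (N := L * (b 1 + b 2 + b 3)) (x := L * b 4) (d := d) (T := T) (γ := Real.log (nm g))
        (b := β) (l := l) (n := LN ps') (p := LN ps) (t := 12 * t) (z₁ := z₁) (z₂ := z₂)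
        (z₃ := z₃) (w := w) (by positivity) hk0L h4 hLθ0 hKL hK5L (by linarith) hx0L (by linarith)
        hadm' (by linarith) (by linarith) hβ h1 h2 h3 hw (by linarith) hsum (by linarith)
        (by linarith) (by linarith) (by linarith) (by linarith)
      linarith
    · refine (min_le_right _ _).trans ?_
      have h5 := tAll_tail (κ := L * b 0) (N := L * (b 1 + b 2 + b 3)) (x := L * b 4) (d := d)
        (T := T) (γ := Real.log (nm g)) (b := β) (c := c') (l := l) (p := LN ps) (t := 16 * t)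
        (z₁ := z₁) (z₂ := z₂) (z₃ := z₃) (w := w) (by positivity) hk0L hd hd1 (by linarith)
        hx0L (by linarith) hadm hβ hc' hcx' (by linarith) (by linarith)
        h1 h2 h3 hw (by linarith) (by linarith) (by linarith) (by linarith) (by linarith)
        (by linarith)
      rw [hsum] at h5
      linarith
    · refine (min_le_left _ _).trans ?_
      have h5 := eW_tail (κ := L * b 0) (K' := L * Kf b) (L := L * LK Kf b + L * θ) (T := T)
        (T₀ := T₀) (γ := Real.log (nm g)) (b := β) (c := c') (l := l) (n := LN ps') (p := LN ps)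
        (t := 12 * t) (by positivity) h4 hKL hβ hc' (by linarith) (by linarith)
        (by linarith) (by linarith) (by linarith) (by linarith) (by linarith) (by linarith) hLθ0
      linarith
  -- the cells of the T-numbers
  have toSB : ∀ {S F c y A B E : ℝ}, S ≤ F * c * Real.exp y → y = A + B →
      S ≤ c * (F * Real.exp A * Real.exp B) := by
    intro S F c y A B E h e
    refine h.trans (le_of_eq ?_)
    rw [e, Real.exp_add]; ring
  refine ⟨?_, ?_, ?_, ?_, ?_, ?_⟩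
  · intro g hg hgB β l ps' hβ hl hch hn hlev
    exact flat g hg hgB 0 β l ps' le_rfl (by linarith) (by linarith [hγ0 g hg]) hβ hl hch hn
      (by linarith)
  · intro c₀ hc₀ g hg hgB c β l ps' hc hcc₀ hcγ hβ hl hch hn hlev
    exact flat g hg hgB c β l ps' hc (hcc₀.trans hc₀) hcγ hβ hl hch hn hlev
  · intro T₀ E hE hT₀ g hg hgB β l ps' hβ hl hch hn hlev hor
    refine tail T₀ E hT₀ g hg hgB 0 β l ps' le_rfl (by linarith) (by linarith [hγ0 g hg]) hβ hl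
      hch hn (by linarith) ?_
    rcases hor with h | h
    · exact Or.inl ⟨rfl, hE, h⟩
    · exact Or.inr (Or.inr (by linarith))
  · intro T₀ E c₀ hE hc₀ hT₀ g hg hgB c β l ps' hc hcc₀ hcγ hβ hl hch hn hlev hor
    refine tail T₀ E hT₀ g hg hgB c β l ps' hc (hcc₀.trans hc₀) hcγ hβ hl hch hn hlev ?_
    rcases hor with h | h
    · exact Or.inr (Or.inl ⟨hE, h⟩)
    · exact Or.inr (Or.inr (by linarith))
  · intro E hE0 hE1 hTE g hg hgB β l ps' hβ hl hch hn hlev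
    obtain ⟨hn1, hn2⟩ := abs_le.1 hn
    have hγ := hγ0 g hg
    unfold ΦF
    refine toSB (E := E) (toθ (G2 g hg hgB 0 β l ps' le_rfl (by linarith) (by linarith) hβ hl
      hch hn (by linarith) (2 * LN ps + max 0 ((l + 2 * Real.log (nm g) - β - 2 * LN ps + κ) / 3) +
        (-2 * Real.log (nm g) - 5 / 6 * β + 2 * max 0 (β - E)) + L * θ) ?_)) rfl
    intro z₁ z₂ z₃ w h1 h2 h3 hw hwx hsum hnx _ _ _
    refine (min_le_left _ _).trans ?_
    have h4 := kW_cell (K' := L * Kf b) (κ := L * b 0) (L := L * LK Kf b + L * θ) (T := T)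
      (γ := Real.log (nm g)) (b := β) (c := 0) (l := l) (n := LN ps') (w := w) (x := L * b 4)
      (N := L * (b 1 + b 2 + b 3)) (t := 12 * t) (by positivity) hKL hβ (by linarith)
      (hγ0 g hg) le_rfl (by linarith) (by linarith) (by linarith) (by linarith)
    unfold eW
    have h5 := mixW_sflat (κ := L * b 0) (K' := L * Kf b) (L := L * LK Kf b + L * θ) (T := T)
      (γ := Real.log (nm g)) (b := β) (l := l) (n := LN ps') (t := 12 * t)
      (p := LN ps) (E := E) (by positivity) hk0L h4 hLθ0 hKL hK5L hγ hβ hE0 (by linarith)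
      (by linarith) (by linarith) (by linarith) (by linarith) (by linarith)
    have h6 : max 0 ((l + 2 * Real.log (nm g) - β - 2 * LN ps + L * b 0) / 3) ≤
        max 0 ((l + 2 * Real.log (nm g) - β - 2 * LN ps + κ) / 3) + t / 3 := by
      refine max_le ?_ ?_
      · have := le_max_left 0 ((l + 2 * Real.log (nm g) - β - 2 * LN ps + κ) / 3)
        linarith
      · have := le_max_right 0 ((l + 2 * Real.log (nm g) - β - 2 * LN ps + κ) / 3)
        linarith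
    linarith
  · intro E hE0 hE1 g hg hgB β l ps' hβ hl hch hn hlev
    obtain ⟨hn1, hn2⟩ := abs_le.1 hn
    have hγ := hγ0 g hg
    unfold ΦS
    refine toSB (E := E) (toθ (G2 g hg hgB 0 β l ps' le_rfl (by linarith) (by linarith) hβ hl
      hch hn (by linarith) (4 / 3 * LN ps + (l + 2 * Real.log (nm g) - β + κ) / 3 + κ / 30 +
        (-2 * Real.log (nm g) - 5 / 6 * β + 2 * max 0 (β - E)) + L * θ) ?_)) rfl
    intro z₁ z₂ z₃ w h1 h2 h3 hw hwx hsum hnx _ _ _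
    have h4 := kW_cell (K' := L * Kf b) (κ := L * b 0) (L := L * LK Kf b + L * θ) (T := T)
      (γ := Real.log (nm g)) (b := β) (c := 0) (l := l) (n := LN ps') (w := w) (x := L * b 4)
      (N := L * (b 1 + b 2 + b 3)) (t := 12 * t) (by positivity) hKL hβ (by linarith)
      (hγ0 g hg) le_rfl (by linarith) (by linarith) (by linarith) (by linarith)
    unfold eW
    have h5 := mixW_slope (κ := L * b 0) (K' := L * Kf b) (L := L * LK Kf b + L * θ)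
      (N := L * (b 1 + b 2 + b 3)) (x := L * b 4) (d := d) (T := T) (γ := Real.log (nm g))
      (b := β) (l := l) (n := LN ps') (p := LN ps) (t := 12 * t) (E := E) (z₁ := z₁) (z₂ := z₂)
      (z₃ := z₃) (w := w) (by positivity) hk0L h4 hLθ0 hKL hK5L (by linarith) hx0L (by linarith)
      hadm' hγ hβ hE0 (by linarith) h1 h2 h3 hw (by linarith) hsum (by linarith)
      (by linarith) (by linarith) (by linarith) (by linarith) (by linarith) (by linarith)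
    linarith


/-! ### kernels -/

/-- the kernel `Dk` is bounded -/
lemma norm_Dk_le : ∃ B : ℝ, 0 ≤ B ∧ ∀ x m : Eis, IsPrim m → ‖Dk x m‖ ≤ B := by
  have hpC := PX764.pC_pos
  refine ⟨1 + pC * max E2440.Bth ‖PX764.th 0‖, ?_, fun x m hm => ?_⟩
  · have := le_max_right E2440.Bth ‖PX764.th 0‖
    have := norm_nonneg (PX764.th 0)
    have h3 : 0 ≤ max E2440.Bth ‖PX764.th 0‖ := by linarith
    have := mul_nonneg hpC.le h3
    linarith
  have h1 : ‖PX764.th x‖ ≤ max E2440.Bth ‖PX764.th 0‖ := by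
    by_cases hx : x = 0
    · rw [hx]; exact le_max_right _ _
    · exact (E2440.norm_th_le hx).trans (le_max_left _ _)
  have h2 : ‖((PX764.md x m : ℝ) : ℂ)‖ ≤ 1 := by
    rw [Complex.norm_real, Real.norm_of_nonneg (PX764.md_nonneg hm.ne_zero)]
    exact PX764.md_le_one hm.ne_zero
  have h3 : ‖PX764.Gh x m‖ ≤ 1 := UBT973.norm_Kg_le x m hm
  unfold PX764.Dk
  refine (norm_sub_le _ _).trans ?_
  rw [norm_mul, norm_mul, Complex.norm_real, Real.norm_of_nonneg hpC.le]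
  have h4 : pC * ‖PX764.th x‖ * ‖((PX764.md x m : ℝ) : ℂ)‖ ≤
      pC * max E2440.Bth ‖PX764.th 0‖ * 1 :=
    mul_le_mul (mul_le_mul_of_nonneg_left h1 hpC.le) h2 (norm_nonneg _)
      (mul_nonneg hpC.le ((norm_nonneg _).trans h1))
  linarith

/-- a bounded kernel -/
theorem wd_K {c₀ : ℝ} (hpu : PU h c₀) (hP : ∀ lam, (π lam).OK) (Kn : Eis → Eis → ℂ)
    (hB : ∃ B : ℝ, 0 ≤ B ∧ ∀ x m : Eis, IsPrim m → ‖Kn x m‖ ≤ B)
    (ht : Prov71.Triv Dq (fun lam => SKq Kn (π lam) h)) :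
    Wd (fun lam => S0K Kn (π lam) h) where
  inv := pinv_S0K Kn π h
  triv := fun κ u m a hκ hu => by
    obtain ⟨e, he⟩ := ht κ u m a hκ hu
    exact ⟨e, he.comp fun lam => S0K_le Kn (π lam) h⟩
  bd := by
    obtain ⟨B, hB0, hB⟩ := hB
    obtain ⟨C, hC, hb⟩ := UBT973.triv_SK' (h := h) hpu.cd.continuous hpu.cs
    exact ⟨100 * B ^ 2, C, by positivity, hC, fun lam l ps =>
      (S0K_le Kn (π lam) h l ps).trans (hb _ (hP lam) Kn B hB0 hB l ps)⟩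

/-- class E : the kernel `Dk` -/
theorem wd_E {c₀ : ℝ} (hpu : PU h c₀) (hP : ∀ lam, (π lam).OK) :
    Wd (fun lam => S0K Dk (π lam) h) :=
  wd_K hpu hP Dk norm_Dk_le (Dk848.triv_SD hP hpu)

/-- natural lists prime to `q`, any kernel -/
lemma tq_K (Kn : Eis → Eis → ℂ) {q : Eis} (hq : q ≠ 0) (lam : Λ) (l : ℝ) (ps : List Pq) :
    tq (fun lam => S0K Kn (π lam) h) lam q l ps = SNK Kn q (π lam) h l ps := by
  have e : sqc 1 (alL h ((ps.map (Pq.tw q)).map (Pq.pc (π lam)))) =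
      sqc q (alL h (ps.map (Pq.pc (π lam)))) := by
    funext n
    rw [alL_tw (π lam) h hq]
    unfold HP842.sqc
    rw [Th_mul q n]
    ring
  unfold tq S0K I1K764.SNK LegK545.VK
  beta_reduce
  rw [e]

/-- **class N, any kernel, any functional : the conclusion for `SN`** -/
theorem FBS.toN {q : Eis} {lam : Λ} {ps : List Pq} {G r M κ T k x L3 τ F : ℝ} (hq : q ≠ 0)
    (H : FBS (tq (fun lam => S0p (π lam) h) lam) q ps G r M κ T k x L3 τ F) :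
    FB h (π lam) q ps G r M κ T k x L3 τ F :=
  FBS_iff.1 (H.mono fun _ hg l ps' => (tq_N (mul_ne_zero hq hg.ne_zero) lam l ps').ge)

/-- **the conclusion for `SNK`** -/
theorem FBS.toK (Kn : Eis → Eis → ℂ) {q : Eis} {lam : Λ} {ps : List Pq}
    {G r M κ T k x L3 τ F : ℝ} (hq : q ≠ 0)
    (H : FBS (tq (fun lam => S0K Kn (π lam) h) lam) q ps G r M κ T k x L3 τ F) :
    FBS (fun q l ps => SNK Kn q (π lam) h l ps) q ps G r M κ T k x L3 τ F :=
  H.mono fun _ hg l ps' => (tq_K Kn (mul_ne_zero hq hg.ne_zero) lam l ps').ge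

/-- `FlatLK` of helper764 -/
theorem FBS.flatK {Kn : Eis → Eis → ℂ} {P : DPar} {q : Eis} {ps : List Pq}
    {G r M κ T k x L3 τ F : ℝ}
    (H : FBS (fun q l ps => SNK Kn q P h l ps) q ps G r M κ T k x L3 τ F) :
    FlatLK Kn h P q ps G r M κ T F := H.flat

/-- `TailK` of helper764 -/
theorem FBS.tailK {Kn : Eis → Eis → ℂ} {P : DPar} {q : Eis} {ps : List Pq}
    {G r M κ T k x L3 τ F T₀ E : ℝ}
    (H : FBS (fun q l ps => SNK Kn q P h l ps) q ps G r M κ T k x L3 τ F)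
    (hE : k / 64 - τ ≤ E) (hT : 2 * LN ps - κ ≤ T₀ + L3 + τ) :
    TailK Kn h P q ps G r M κ T T₀ E F := H.tail T₀ E hE hT

/-- **`flat_bundle` for the kernel `Dk`** (class E: `π := red π`); natural and replaced lists are
parent lists `[us 0, us 1, us 2] ++ gs` at their own coordinates `b` -/
theorem flat_bundleE {c₀ : ℝ} (hpu : PU h c₀) (hP : ∀ lam, (π lam).OK) (hd : 0 ≤ d)
    (hd1 : d ≤ 1 / 40) (hA : AllT d (ex Dq fun lam => S0K Dk (π lam) h))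
    (hKf : Continuous Kf) (hTf : Continuous Tf)
    {D5 : Set (Fin 5 → ℝ)} (hD : IsCompact D5) (hR : ∀ b ∈ D5, RG5 Kf Tf b)
    {ℓ : (Fin 5 → ℝ) → ℝ} (hℓ : Continuous ℓ) (hℓ0 : ∀ b ∈ D5, 0 ≤ ℓ b)
    (hFE : FE2G (ex Dq fun lam => S0K Dk (π lam) h) D5 Kf Tf ℓ) {ε : ℝ} (hε : 0 < ε) :
    ∃ τ : ℝ, 0 < τ ∧ ∀ (lam : Λ) (N : ℕ) (B : ℝ), ∃ M₀ : ℕ, ∀ r : ℝ, 0 ≤ r →
      ∃ X₀ : ℝ, 1 < X₀ ∧
      ∀ X : ℝ, X₀ ≤ X → ∀ b ∈ D5, ∀ (q : Eis) (us : Fin 3 → Pq) (gs : List Pq) (κ H : ℝ),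
      PD X τ B H N b q us gs κ → ∀ T : ℝ, T ≤ (Tf b + τ) * Real.log X → ∀ θ : ℝ, 0 ≤ θ →
      T ≤ (Kf b - (b 1 + b 2 + b 3) / 2 - b 4 + 3 * θ + τ) * Real.log X → ∀ M : ℝ, (M₀ : ℝ) ≤ M →
      (b 0 / 2 - 2 * b 4 - τ) * Real.log X ≤ LN ([us 0, us 1, us 2] ++ gs) →
      FBS (fun q l ps => SNK Dk q (π lam) h l ps) q ([us 0, us 1, us 2] ++ gs) (X ^ B) r M κ T
        (Real.log X * b 0) (Real.log X * b 4 + τ * Real.log X) (Real.log X * (3 * LK Kf b))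
        (τ * Real.log X) (H ^ M₀ * X ^ (LK Kf b + θ + ℓ b + ε)) := by
  obtain ⟨τ, hτ, G⟩ := flat_bundleG (wd_E (π := π) hpu hP) hd hd1 hA hKf hTf hD hR hℓ hℓ0 hFE hε
  refine ⟨τ, hτ, fun lam N B => ?_⟩
  obtain ⟨M₀, G1⟩ := G lam N B
  refine ⟨M₀, fun r hr => ?_⟩
  obtain ⟨X₀, hX₀, G2⟩ := G1 r hr
  exact ⟨X₀, hX₀, fun X hX b hb q us gs κ H hPD T hT θ hθ hTθ M hM hmin =>
    (G2 X hX b hb q us gs κ H hPD T hT θ hθ hTθ M hM hmin).toK Dk hPD.q0⟩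

end Crest.Agent.R017.TK708
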