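import Crest.Agent.R017.CLV_436
import Crest.Agent.R017.FNEh_708
import Crest.Agent.R017.ExRed4_848

/-!
# Row 17, R8 / P1M, class E: the claims on the children, any kernel (helper436)

* `clm_genK` : the moments `VK Kn` of the children of `fam P 1 ps us` (untwisted), any claim `G`
* `clm_VK`   : the number `NV` (constant family)
* `clm_VX`   : class E : `Kn = Dk`, `P = red (π lam)`
-/

set_option autoImplicit false
set_option linter.unusedSectionVars false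
set_option linter.unusedVariables false

noncomputable section

open Set

namespace Crest.Agent.R017.FEx436

open Crest.Agent.R012 Crest.Agent.R012.Eis
open Crest.Agent.R017.CM106
open Crest.Agent.R017.FE47 (PU cx SM)
open Crest.Agent.R017.ER911
open Crest.Agent.R017.B770
open Crest.Agent.R017.Prov71
open Crest.Agent.R017.TM708
open Crest.Agent.R017.TK708
open Crest.Agent.R017.HP842 (Pc pc sqc al alL)
open Crest.Agent.R017.E5B71 (Pt)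
open Crest.Agent.R017.I1146 (ChN LN cN tw3)
open Crest.Agent.R017.LegK545 (VK VK_nonneg)
open Crest.Agent.R017.XS0298 (S0K)
open Crest.Agent.R017.PX764 (Dk)
open Crest.Agent.R017.Red848 (red Exc red_ok)
open Crest.Agent.R012.Gauss880 (syG)

variable {Λ : Type*} {π : Λ → DPar} {h : ℝ → ℝ} {s : EF} {d : ℝ} {D5 : Set (Fin 5 → ℝ)}
  {Kf Tf ℓ : (Fin 5 → ℝ) → ℝ} {Kn : Eis → Eis → ℂ}

/-- the twist by `1` -/
lemma alL_Pt_one (P : DPar) (h : ℝ → ℝ) (ps : List Pq) :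
    alL h (ps.map (Pt P 1)) = alL h (ps.map (Pq.pc P)) := by
  rw [I1146.alL_tw]
  funext n
  show sy 1 n * alL h (ps.map (Pq.pc P)) n = _
  by_cases h0 : alL h (ps.map (Pq.pc P)) n = 0
  · rw [h0, mul_zero]
  · rw [Gauss880.sy_one_left syG (I1146.alL_prim h0), one_mul]

/-- **the moments of the children of an untwisted family, any kernel, any claim** -/
theorem clm_genK (hW : Wd fun lam => S0K Kn (π lam) h)
    (hTf : Continuous Tf) (hD : IsCompact D5) {G : (Fin 5 → ℝ) → ℝ → ℝ → ℝ → ℝ → ℝ → ℝ}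
    (hG : ContG G) (hC : ClG (ex Dq fun lam => S0K Kn (π lam) h) D5 Tf G)
    {ε : ℝ} (hε : 0 < ε) :
    ∃ σ : ℝ, 0 < σ ∧ ∀ (lam : Λ) (N : ℕ) (B : ℝ), ∃ M : ℕ,
      ∀ r : ℝ, 0 ≤ r → ∃ X₀ : ℝ, 1 < X₀ ∧
      ∀ X : ℝ, X₀ ≤ X → ∀ b ∈ D5, ∀ (m : ℕ) (us : Fin 3 → Pq) (ps : Fin m → Pq) (κ Ht : ℝ),
      PD X (σ / 2) B Ht N b 1 us (List.ofFn ps) κ → ∀ g : Eis, IsPrim g → (nm g : ℝ) ≤ X ^ B →
      ∀ (l : ℝ) (s' : Fin m ⊕ Fin 3 → Pc), 0 ≤ l →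
      GrC828.ChF r s' (P1l54.fam (π lam) 1 ps us) →
      l + GrC828.LY s' ≤ (Tf b + (b 1 + b 2 + b 3 + b 4) + σ) * Real.log X →
      ∀ V : ℝ,
      (∀ z₁ z₂ z₃ w : ℝ, 0 ≤ z₁ → 0 ≤ z₂ → 0 ≤ z₃ → 0 ≤ w → z₁ ≤ (us 0).z + r →
        z₂ ≤ (us 1).z + r → z₃ ≤ (us 2).z + r → w ≤ LN (List.ofFn ps) + N * r →
        z₁ + z₂ + z₃ + w = GrC828.LY s' → w = GrC828.LY (fun i : Fin m => s' (.inl i)) →
        Real.log X * G b (l / Real.log X) (z₁ / Real.log X) (z₂ / Real.log X)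
          (z₃ / Real.log X) (w / Real.log X) ≤ V) →
      VK Kn (Real.exp l) (sqc g (al h s')) ≤
        GrC828.cF s' (P1l54.fam (π lam) 1 ps us) ^ (M : ℝ) * (Ht ^ M * X ^ ε * Real.exp V) := by
  obtain ⟨σ, hσ, G'⟩ := child_gen hW hTf hD hG hC hε
  refine ⟨σ, hσ, fun lam N B => ?_⟩
  obtain ⟨M, G'⟩ := G' lam N B
  refine ⟨M, fun r hr => ?_⟩
  obtain ⟨X₁, hX₁, G'⟩ := G' r hr
  refine ⟨X₁, hX₁, ?_⟩
  intro X hX b hb m us ps κ Ht hPD g hg hgB l s' hl hch hlev V hV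
  have hX1 : 1 < X := lt_of_lt_of_le hX₁ hX
  have hX0 : 0 < X := by linarith
  obtain ⟨ps', us', rfl, hp1, hp2⟩ := chF_fam hch
  have hLY : GrC828.LY (P1l54.fam (π lam) 1 ps' us') =
      LN ([us' 0, us' 1, us' 2] ++ List.ofFn ps') := by
    rw [LY_fam, Fin.sum_univ_three]
    unfold I1146.LN
    rw [List.map_append, List.sum_append, List.map_ofFn, List.sum_ofFn]
    simp only [List.map_cons, List.map_nil, List.sum_cons, List.sum_nil]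
    show _ + _ = _ + ∑ i, (ps' i).z
    ring
  have hofn : List.ofFn us' = [us' 0, us' 1, us' 2] := by simp [List.ofFn_succ]
  have hch2 : List.Forall₂ (ChN r) ([us' 0, us' 1, us' 2] ++ List.ofFn ps')
      ([us 0, us 1, us 2] ++ List.ofFn ps) := by
    refine List.rel_append ?_ (VFa436.forall₂_ofFn _ _ hp1)
    exact List.Forall₂.cons (hp2 0) (List.Forall₂.cons (hp2 1) (List.Forall₂.cons (hp2 2)
      List.Forall₂.nil))
  rw [hLY] at hlev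
  obtain ⟨z₁, z₂, z₃, w, h1, h2, h3, h4, h5, h6, h7, h8, h9, h10, h11, h12⟩ :=
    G' X hX b hb 1 us (List.ofFn ps) κ Ht hPD g hg hgB l
      ([us' 0, us' 1, us' 2] ++ List.ofFn ps') hl hch2 hlev
  have hw : w = GrC828.LY (fun i : Fin m => P1l54.fam (π lam) 1 ps' us' (.inl i)) := by
    rw [h11]
    unfold GrC828.LY I1146.LN
    show ((List.ofFn ps').map fun p => p.z).sum = _
    rw [List.map_ofFn, List.sum_ofFn]
    exact Finset.sum_congr rfl fun i _ => (Real.log_exp _).symm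
  have hnum := hV z₁ z₂ z₃ w h1 h2 h3 h4 h5 h6 h7 h8 (by rw [hLY]; exact h9) hw
  -- the moment
  have hHt : 0 ≤ Ht := zero_le_one.trans hPD.H1
  have e1 : al h (P1l54.fam (π lam) 1 ps' us') =
      alL h (([us' 0, us' 1, us' 2] ++ List.ofFn ps').map (Pq.pc (π lam))) := by
    rw [P1l54.al_fam, hofn, alL_Pt_one]
  have e3 : tq (fun lam => S0K Kn (π lam) h) lam (1 * g) l
      ([us' 0, us' 1, us' 2] ++ List.ofFn ps') =
      VK Kn (Real.exp l) (sqc g (alL h (([us' 0, us' 1, us' 2] ++ List.ofFn ps').map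
        (Pq.pc (π lam))))) := by
    rw [one_mul, tq_K Kn hg.ne_zero]
    rfl
  rw [e3] at h12
  rw [e1]
  have hcF : GrC828.cF (P1l54.fam (π lam) 1 ps' us') (P1l54.fam (π lam) 1 ps us) =
      cN ([us' 0, us' 1, us' 2] ++ List.ofFn ps') ([us 0, us 1, us 2] ++ List.ofFn ps) :=
    cF_fam _ _ _ _
  have hcN0 : 0 ≤ cN ([us' 0, us' 1, us' 2] ++ List.ofFn ps')
      ([us 0, us 1, us 2] ++ List.ofFn ps) := I1146.cN_nonneg _ _
  rw [hcF, Real.rpow_natCast]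
  refine h12.trans ?_
  have h15 : 0 ≤ (cN ([us' 0, us' 1, us' 2] ++ List.ofFn ps')
      ([us 0, us 1, us 2] ++ List.ofFn ps) * Ht) ^ M := by positivity
  have h16 : Real.exp (Real.log X * G b (l / Real.log X) (z₁ / Real.log X) (z₂ / Real.log X)
      (z₃ / Real.log X) (w / Real.log X) + ε * Real.log X) ≤ X ^ ε * Real.exp V := by
    rw [Real.rpow_def_of_pos hX0, ← Real.exp_add]
    refine Real.exp_le_exp.2 ?_
    linarith
  refine (mul_le_mul_of_nonneg_left h16 h15).trans (le_of_eq ?_)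
  rw [mul_pow]
  ring

/-- **the same with the number `NV`** (constant family) -/
theorem clm_VK (hW : Wd fun lam => S0K Kn (π lam) h)
    (h0 : ExpS0 s (ex Dq fun lam => S0K Kn (π lam) h))
    (hA : AllT d (ex Dq fun lam => S0K Kn (π lam) h))
    (hKf : Continuous Kf) (hTf : Continuous Tf) (hD : IsCompact D5)
    (hD4 : ∀ b ∈ D5, 0 ≤ b 4) (hℓ : Continuous ℓ)
    (H : ClG (ex Dq fun lam => S0K Kn (π lam) h) D5 Tf fun b v z₁ z₂ z₃ w =>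
      eH (FEx436.kV (Kf b) v (z₁ + z₂ + z₃ + w)) v (z₁ + z₂ + z₃ + w) + ℓ b)
    {ε : ℝ} (hε : 0 < ε) :
    ∃ σ : ℝ, 0 < σ ∧ ∀ (lam : Λ) (N : ℕ) (B : ℝ), ∃ M : ℕ,
      ∀ r : ℝ, 0 ≤ r → ∃ X₀ : ℝ, 1 < X₀ ∧
      ∀ X : ℝ, X₀ ≤ X → ∀ b ∈ D5, ∀ (m : ℕ) (us : Fin 3 → Pq) (ps : Fin m → Pq) (κ Ht : ℝ),
      PD X (σ / 2) B Ht N b 1 us (List.ofFn ps) κ → ∀ g : Eis, IsPrim g → (nm g : ℝ) ≤ X ^ B →
      ∀ (l : ℝ) (s' : Fin m ⊕ Fin 3 → Pc), 0 ≤ l →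
      GrC828.ChF r s' (P1l54.fam (π lam) 1 ps us) →
      l + GrC828.LY s' ≤ (Tf b + (b 1 + b 2 + b 3 + b 4) + σ) * Real.log X →
      ∀ V : ℝ,
      (∀ z₁ z₂ z₃ w : ℝ, 0 ≤ z₁ → 0 ≤ z₂ → 0 ≤ z₃ → 0 ≤ w → z₁ ≤ (us 0).z + r →
        z₂ ≤ (us 1).z + r → z₃ ≤ (us 2).z + r → w ≤ LN (List.ofFn ps) + N * r →
        z₁ + z₂ + z₃ + w = GrC828.LY s' → w = GrC828.LY (fun i : Fin m => s' (.inl i)) →
        NV d (Real.log X * Kf b) (Real.log X * ℓ b) l (GrC828.LY s') z₁ z₂ z₃ w ≤ V) →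
      VK Kn (Real.exp l) (sqc g (al h s')) ≤
        GrC828.cF s' (P1l54.fam (π lam) 1 ps us) ^ (M : ℝ) * (Ht ^ M * X ^ ε * Real.exp V) := by
  obtain ⟨σ, hσ, G⟩ := clm_genK hW hTf hD (contG_NV (d := d) hKf hℓ) (clG_NV h0 hA H hD4) hε
  refine ⟨σ, hσ, fun lam N B => ?_⟩
  obtain ⟨M, G⟩ := G lam N B
  refine ⟨M, fun r hr => ?_⟩
  obtain ⟨X₀, hX₀, G⟩ := G r hr
  refine ⟨X₀, hX₀, fun X hX b hb m us ps κ Ht hPD g hg hgB l s' hl hch hlev V hV => ?_⟩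
  refine G X hX b hb m us ps κ Ht hPD g hg hgB l s' hl hch hlev V ?_
  intro z₁ z₂ z₃ w h1 h2 h3 h4 h5 h6 h7 h8 h9 h10
  have hL : 0 < Real.log X := Real.log_pos (hX₀.trans_le hX)
  have e3 : z₁ / Real.log X + z₂ / Real.log X + z₃ / Real.log X + w / Real.log X =
      GrC828.LY s' / Real.log X := by
    rw [← h9]; ring
  show Real.log X * NV d (Kf b) (ℓ b) (l / Real.log X) (z₁ / Real.log X + z₂ / Real.log X +
    z₃ / Real.log X + w / Real.log X) (z₁ / Real.log X) (z₂ / Real.log X) (z₃ / Real.log X)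
    (w / Real.log X) ≤ V
  rw [e3, NV_hom hL]
  exact hV z₁ z₂ z₃ w h1 h2 h3 h4 h5 h6 h7 h8 h9 h10

/-- **class E** : kernel `Dk`, reduced data, untwisted families -/
theorem clm_VX {c₀ : ℝ} (hpu : PU h c₀) (hP : ∀ lam, (π lam).OK) (hE : ∀ lam, Exc (π lam))
    (h0 : ExpS0 s (ex Dq fun lam => S0K Dk (red (π lam)) h))
    (hA : AllT d (ex Dq fun lam => S0K Dk (red (π lam)) h))
    (hKf : Continuous Kf) (hTf : Continuous Tf) (hD : IsCompact D5)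
    (hD4 : ∀ b ∈ D5, 0 ≤ b 4) (hℓ : Continuous ℓ)
    (H : ClG (ex Dq fun lam => S0K Dk (red (π lam)) h) D5 Tf fun b v z₁ z₂ z₃ w =>
      eH (FEx436.kV (Kf b) v (z₁ + z₂ + z₃ + w)) v (z₁ + z₂ + z₃ + w) + ℓ b)
    {ε : ℝ} (hε : 0 < ε) :
    ∃ σ : ℝ, 0 < σ ∧ ∀ (lam : Λ) (N : ℕ) (B : ℝ), ∃ M : ℕ,
      ∀ r : ℝ, 0 ≤ r → ∃ X₀ : ℝ, 1 < X₀ ∧
      ∀ X : ℝ, X₀ ≤ X → ∀ b ∈ D5, ∀ (m : ℕ) (us : Fin 3 → Pq) (ps : Fin m → Pq) (κ Ht : ℝ),
      PD X (σ / 2) B Ht N b 1 us (List.ofFn ps) κ → ∀ g : Eis, IsPrim g → (nm g : ℝ) ≤ X ^ B →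
      ∀ (l : ℝ) (s' : Fin m ⊕ Fin 3 → Pc), 0 ≤ l →
      GrC828.ChF r s' (P1l54.fam (red (π lam)) 1 ps us) →
      l + GrC828.LY s' ≤ (Tf b + (b 1 + b 2 + b 3 + b 4) + σ) * Real.log X →
      ∀ V : ℝ,
      (∀ z₁ z₂ z₃ w : ℝ, 0 ≤ z₁ → 0 ≤ z₂ → 0 ≤ z₃ → 0 ≤ w → z₁ ≤ (us 0).z + r →
        z₂ ≤ (us 1).z + r → z₃ ≤ (us 2).z + r → w ≤ LN (List.ofFn ps) + N * r →
        z₁ + z₂ + z₃ + w = GrC828.LY s' → w = GrC828.LY (fun i : Fin m => s' (.inl i)) →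
        NV d (Real.log X * Kf b) (Real.log X * ℓ b) l (GrC828.LY s') z₁ z₂ z₃ w ≤ V) →
      VK Dk (Real.exp l) (sqc g (al h s')) ≤
        GrC828.cF s' (P1l54.fam (red (π lam)) 1 ps us) ^ (M : ℝ) *
          (Ht ^ M * X ^ ε * Real.exp V) :=
  clm_VK (π := fun lam => red (π lam)) (wd_E hpu fun lam => red_ok (hP lam) (hE lam))
    h0 hA hKf hTf hD hD4 hℓ H hε

end Crest.Agent.R017.FEx436
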