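import Crest.Agent.R017.FNEr_708

/-!
# Row 17, R8/P1M: the mains of the mismatch, real lines (helper176)

helper828's (E) in helper54's shape, for helper436's number `NV` (constant family).  `k`, `N`, `x` :
the parent (exact), `ex` the excess, `am = LN qs`, `γ = log N(g)`, `p` the total length of the child,
`v` the level of the class, `t` the tolerance.

* `XF` : the frame
* `NVx` : helper436's `NV` (same body)
* `xm_lo` : types 0, 1 (`Ilo`);  `xm_hi` : types 2, 3 (`Ihi`);  `xm_2z` : type 4 (`I2z`)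
-/

set_option autoImplicit false
set_option linter.unusedVariables false

noncomputable section

namespace Crest.Agent.R017.P1XM176

open Crest.Agent.R017.TM708 (eF eH tAll tAll_le_C)

/-- the frame of the mains -/
structure XF (k N x ex am γ p t : ℝ) : Prop where
  k0 : 0 < k
  N0 : 3 / 4 * k ≤ N
  N1 : N ≤ 84 / 103 * k
  x0 : 0 ≤ x
  adm : x = 0 ∨ (x ≤ 1 / 36 * k ∧ x + 7 / 10 * N ≤ 199 / 360 * k ∧ N + x ≤ 15 / 19 * k)
  ex0 : 0 ≤ ex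
  ex1 : 5 / 4 * N - k ≤ ex
  am1 : am ≤ x + t
  g0 : 0 ≤ γ
  g1 : γ ≤ am + t
  p0 : k / 2 - 2 * x - t ≤ p
  p1 : p ≤ N + am - 2 * γ + t
  t0 : 0 ≤ t

/-- helper436's number of a child (constant family) -/
def NVx (d K lo v n z₁ z₂ z₃ w : ℝ) : ℝ :=
  min (min (eH (max K (5 / 7 * (v + n))) v n + lo)
    (w + (eH (max K (5 / 7 * (v + n))) (v + w) (z₁ + z₂ + z₃) + lo))) (tAll d v z₁ z₂ z₃ w)

/-- the cases of the number -/
def TX (K l n w T : ℝ) : Prop :=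
  (T ≤ 2 * n - w ∨ T ≤ 4 / 3 * n + (K + l) / 3 ∨ T ≤ 4 / 3 * n + (5 / 7 * (l + n) + l) / 3 ∨
    T ≤ 4 / 3 * n + 5 / 6 * l + w / 2 ∨ T ≤ l + n + w) ∧
  (T ≤ l + n + ((n - w) / 3 + w) ∨ T ≤ 5 / 3 * n + l / 3)

lemma tx_of {d K lo l n z₁ z₂ z₃ w : ℝ} (lo0 : 0 ≤ lo) (h1 : 0 ≤ z₁) (h2 : 0 ≤ z₂) (h3 : 0 ≤ z₃)
    (hw : 0 ≤ w) (hs : z₁ + z₂ + z₃ + w = n) :
    TX K l n w (NVx d K lo l n z₁ z₂ z₃ w - lo) := by
  constructor
  · have h : NVx d K lo l n z₁ z₂ z₃ w ≤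
        w + (eH (max K (5 / 7 * (l + n))) (l + w) (z₁ + z₂ + z₃) + lo) :=
      (min_le_left _ _).trans (min_le_right _ _)
    generalize NVx d K lo l n z₁ z₂ z₃ w = T at h
    unfold eH eF at h
    have e : z₁ + z₂ + z₃ = n - w := by linarith
    rw [e] at h
    rcases max_choice (max (2 * (n - w)) (4 / 3 * (n - w) +
      (max (max K (5 / 7 * (l + n))) (3 / 2 * (l + w)) + (l + w)) / 3)) (l + w + (n - w)) with
      c | c <;> rw [c] at h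
    · rcases max_choice (2 * (n - w)) (4 / 3 * (n - w) +
        (max (max K (5 / 7 * (l + n))) (3 / 2 * (l + w)) + (l + w)) / 3) with c | c <;>
        rw [c] at h
      · left; linarith
      · rcases max_choice (max K (5 / 7 * (l + n))) (3 / 2 * (l + w)) with c | c <;> rw [c] at h
        · rcases max_choice K (5 / 7 * (l + n)) with c | c <;> rw [c] at h
          · right; left; linarith
          · right; right; left; linarith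
        · right; right; right; left; linarith
    · right; right; right; right; linarith
  · have h : tAll d l z₁ z₂ z₃ w ≤ max (l + n + ((n - w) / 3 + w)) (5 / 3 * n + l / 3) := by
      refine tAll_le_C (fun C hC0 hC => ?_) h1 h2 h3
      have m1 := le_max_left (l + n + ((n - w) / 3 + w)) (5 / 3 * n + l / 3)
      have m2 := le_max_right (l + n + ((n - w) / 3 + w)) (5 / 3 * n + l / 3)
      rw [hs]
      constructor <;> linarith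
    have h' : NVx d K lo l n z₁ z₂ z₃ w ≤ tAll d l z₁ z₂ z₃ w := min_le_right _ _
    have h'' := h'.trans h
    rcases le_max_iff.1 h'' with c | c
    · left; linarith
    · right; linarith

set_option maxHeartbeats 4000000 in
/-- **types 0, 1** -/
theorem core_lo {k N x ex am γ p t v δ b l n w K T : ℝ} (H : XF k N x ex am γ p t)
    (hK : K ≤ k + ex + t) (hT : TX K l n w T) (δ0 : 0 ≤ δ) (b0 : 0 ≤ b) (w0 : 0 ≤ w)
    (w1 : w ≤ am + t) (hl : l ≤ v - 2 * δ + b + t) (n1 : n ≤ p - δ - b + t)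
    (v1 : v ≤ min (2 * N - k) (3 / 4 * N) + 11 / 5 * x + t)
    (v0 : min (2 * N - k) (3 / 4 * N) + 11 / 5 * x - x - γ - t ≤ v)
    (hw : am - γ - (x + γ) / 3 - b - t ≤ w) :
    2 / 3 * k - v / 3 - p / 3 + 2 * δ + T ≤ k + p + ex + 20 * t := by
  obtain ⟨k0, N0, N1, x0, adm, ex0, ex1, am1, g0, g1, p0, p1, t0⟩ := H
  obtain ⟨hA, hB⟩ := hT
  have hmn : (min (2 * N - k) (3 / 4 * N) = 2 * N - k ∧ 2 * N - k ≤ 3 / 4 * N) ∨
      (min (2 * N - k) (3 / 4 * N) = 3 / 4 * N ∧ 3 / 4 * N ≤ 2 * N - k) := by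
    rcases le_total (2 * N - k) (3 / 4 * N) with h | h
    · exact Or.inl ⟨min_eq_left h, h⟩
    · exact Or.inr ⟨min_eq_right h, h⟩
  rcases hB with hB | hB
  · rcases hmn with ⟨e, he⟩ | ⟨e, he⟩ <;> rw [e] at v0 v1 <;>
      rcases adm with rfl | ⟨a1, a2, a3⟩ <;> rcases hA with hA | hA | hA | hA | hA <;> linarith
  · rcases hmn with ⟨e, he⟩ | ⟨e, he⟩ <;> rw [e] at v0 v1 <;>
      rcases adm with rfl | ⟨a1, a2, a3⟩ <;> linarith

set_option maxHeartbeats 4000000 in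
/-- **types 2, 3** -/
theorem core_hi {k N x ex am γ p t v δ b l n w K T : ℝ} (H : XF k N x ex am γ p t)
    (hK : K ≤ k + ex + t) (hT : TX K l n w T) (δ0 : 0 ≤ δ) (b0 : 0 ≤ b) (w0 : 0 ≤ w)
    (w1 : w ≤ am + t) (hl : l ≤ v - 2 * δ + b + t) (n1 : n ≤ p - δ - b + t)
    (v1 : v ≤ min (2 * N - k) (3 / 4 * N) + 21 / 5 * x - γ + t)
    (v0 : min (2 * N - k) (3 / 4 * N) + 11 / 5 * x - t ≤ v) :
    2 / 3 * k - v / 3 - p / 3 + 2 * δ + T ≤ k + p + ex + 20 * t := by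
  obtain ⟨k0, N0, N1, x0, adm, ex0, ex1, am1, g0, g1, p0, p1, t0⟩ := H
  obtain ⟨hA, hB⟩ := hT
  have hmn : (min (2 * N - k) (3 / 4 * N) = 2 * N - k ∧ 2 * N - k ≤ 3 / 4 * N) ∨
      (min (2 * N - k) (3 / 4 * N) = 3 / 4 * N ∧ 3 / 4 * N ≤ 2 * N - k) := by
    rcases le_total (2 * N - k) (3 / 4 * N) with h | h
    · exact Or.inl ⟨min_eq_left h, h⟩
    · exact Or.inr ⟨min_eq_right h, h⟩
  rcases hB with hB | hB
  · rcases hmn with ⟨e, he⟩ | ⟨e, he⟩ <;> rw [e] at v0 v1 <;>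
      rcases adm with rfl | ⟨a1, a2, a3⟩ <;> rcases hA with hA | hA | hA | hA | hA <;> linarith
  · rcases hmn with ⟨e, he⟩ | ⟨e, he⟩ <;> rw [e] at v0 v1 <;>
      rcases adm with rfl | ⟨a1, a2, a3⟩ <;> linarith

set_option maxHeartbeats 4000000 in
/-- **type 4** (`cc = log N(g/h)`) -/
theorem core_2z {k N x ex am γ p t v δ b l n w K T cc : ℝ} (H : XF k N x ex am γ p t)
    (hK : K ≤ k + ex + t) (hT : TX K l n w T) (δ0 : 0 ≤ δ) (b0 : 0 ≤ b) (w0 : 0 ≤ w)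
    (w1 : w ≤ am + t) (hl : l ≤ v - 2 * δ + b + t) (n1 : n ≤ p - δ - b + t)
    (v1 : v ≤ min (2 * N - k) (3 / 4 * N) + 21 / 5 * x - γ + t)
    (c1 : cc ≤ γ + t) (hb : k / 64 - cc - t ≤ b) :
    2 / 3 * k - v / 3 - p / 3 + 2 * δ + T - k / 64 ≤ k + p + ex + 20 * t := by
  obtain ⟨k0, N0, N1, x0, adm, ex0, ex1, am1, g0, g1, p0, p1, t0⟩ := H
  obtain ⟨hA, hB⟩ := hT
  have hmn : (min (2 * N - k) (3 / 4 * N) = 2 * N - k ∧ 2 * N - k ≤ 3 / 4 * N) ∨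
      (min (2 * N - k) (3 / 4 * N) = 3 / 4 * N ∧ 3 / 4 * N ≤ 2 * N - k) := by
    rcases le_total (2 * N - k) (3 / 4 * N) with h | h
    · exact Or.inl ⟨min_eq_left h, h⟩
    · exact Or.inr ⟨min_eq_right h, h⟩
  rcases hB with hB | hB
  · rcases hmn with ⟨e, he⟩ | ⟨e, he⟩ <;> rw [e] at v1 <;>
      rcases adm with rfl | ⟨a1, a2, a3⟩ <;> rcases hA with hA | hA | hA | hA | hA <;> linarith
  · rcases hmn with ⟨e, he⟩ | ⟨e, he⟩ <;> rw [e] at v1 <;>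
      rcases adm with rfl | ⟨a1, a2, a3⟩ <;> linarith

/-- **(E)(ii)**: types 0, 1 -/
theorem xm_lo {d k N x ex am γ p t v δ b l n w K lo z₁ z₂ z₃ : ℝ} (H : XF k N x ex am γ p t)
    (hK : K ≤ k + ex + t) (lo0 : 0 ≤ lo) (h1 : 0 ≤ z₁) (h2 : 0 ≤ z₂) (h3 : 0 ≤ z₃)
    (w0 : 0 ≤ w) (hs : z₁ + z₂ + z₃ + w = n) (δ0 : 0 ≤ δ) (b0 : 0 ≤ b)
    (w1 : w ≤ am + t) (hl : l ≤ v - 2 * δ + b + t) (n1 : n ≤ p - δ - b + t)
    (v1 : v ≤ min (2 * N - k) (3 / 4 * N) + 11 / 5 * x + t)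
    (v0 : min (2 * N - k) (3 / 4 * N) + 11 / 5 * x - x - γ - t ≤ v)
    (hw : am - γ - (x + γ) / 3 - b - t ≤ w) :
    2 / 3 * k - v / 3 - p / 3 + 2 * δ + NVx d K lo l n z₁ z₂ z₃ w ≤ k + p + ex + lo + 20 * t := by
  have := core_lo H hK (tx_of (d := d) (K := K) (l := l) lo0 h1 h2 h3 w0 hs) δ0 b0 w0 w1 hl n1 v1
    v0 hw
  linarith

/-- **(E)(i)**: types 2, 3 -/
theorem xm_hi {d k N x ex am γ p t v δ b l n w K lo z₁ z₂ z₃ : ℝ} (H : XF k N x ex am γ p t)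
    (hK : K ≤ k + ex + t) (lo0 : 0 ≤ lo) (h1 : 0 ≤ z₁) (h2 : 0 ≤ z₂) (h3 : 0 ≤ z₃)
    (w0 : 0 ≤ w) (hs : z₁ + z₂ + z₃ + w = n) (δ0 : 0 ≤ δ) (b0 : 0 ≤ b)
    (w1 : w ≤ am + t) (hl : l ≤ v - 2 * δ + b + t) (n1 : n ≤ p - δ - b + t)
    (v1 : v ≤ min (2 * N - k) (3 / 4 * N) + 21 / 5 * x - γ + t)
    (v0 : min (2 * N - k) (3 / 4 * N) + 11 / 5 * x - t ≤ v) :
    2 / 3 * k - v / 3 - p / 3 + 2 * δ + NVx d K lo l n z₁ z₂ z₃ w ≤ k + p + ex + lo + 20 * t := by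
  have := core_hi H hK (tx_of (d := d) (K := K) (l := l) lo0 h1 h2 h3 w0 hs) δ0 b0 w0 w1 hl n1 v1
    v0
  linarith

/-- **(E)(iii)**: type 4 (`cc = log N(g/h)`) -/
theorem xm_2z {d k N x ex am γ p t v δ b l n w K lo z₁ z₂ z₃ cc : ℝ}
    (H : XF k N x ex am γ p t)
    (hK : K ≤ k + ex + t) (lo0 : 0 ≤ lo) (h1 : 0 ≤ z₁) (h2 : 0 ≤ z₂) (h3 : 0 ≤ z₃)
    (w0 : 0 ≤ w) (hs : z₁ + z₂ + z₃ + w = n) (δ0 : 0 ≤ δ) (b0 : 0 ≤ b)
    (w1 : w ≤ am + t) (hl : l ≤ v - 2 * δ + b + t) (n1 : n ≤ p - δ - b + t)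
    (v1 : v ≤ min (2 * N - k) (3 / 4 * N) + 21 / 5 * x - γ + t)
    (c1 : cc ≤ γ + t) (hb : k / 64 - cc - t ≤ b) :
    2 / 3 * k - v / 3 - p / 3 + 2 * δ + NVx d K lo l n z₁ z₂ z₃ w - k / 64 ≤
      k + p + ex + lo + 20 * t := by
  have := core_2z H hK (tx_of (d := d) (K := K) (l := l) lo0 h1 h2 h3 w0 hs) δ0 b0 w0 w1 hl n1 v1
    c1 hb
  linarith

end Crest.Agent.R017.P1XM176
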