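import Crest.Agent.R017.P1yX_72
import Crest.Agent.R017.P1XM_176
import Crest.Agent.R017.GrX_404

/-!
# Row 17, exceptional class (helper72): `CoreB` of a class of the mismatch, as a Prop

* `nD` : the length of the children;  **`CoreG`** : `CoreB` at one `D` with any exponent above the
  numbers of the children (`P1XM176.NVx`) and the bias
-/

set_option autoImplicit false

noncomputable section

open Finset Filter
open scoped Classical ComplexConjugate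

namespace Crest.Agent.R017.P1yX72

open Crest.Agent.R012 Crest.Agent.R012.Eis Crest.Agent.R012.Div277
open Crest.Agent.R017.GrC828 Crest.Agent.R017.GrT828 Crest.Agent.R017.GrG404 Crest.Agent.R017.GrK404
open Crest.Agent.R017.P1e54 Crest.Agent.R017.P1f54 Crest.Agent.R017.P1k54
open Crest.Agent.R017.P1l54 (ParOK oN)
open Crest.Agent.R017.P1u54
open Crest.Agent.R017.P1v54 (ηC)
open Crest.Agent.R017.B770 Crest.Agent.R017.Prov71
open Crest.Agent.R017.E5B71 Crest.Agent.R017.E5L770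
open Crest.Agent.R017.ExBox960 Crest.Agent.R017.ExP960
open Crest.Agent.R017.P1X960
open Crest.Agent.R017.I1146 (LN)
open Crest.Agent.R017.P1MU960
open Crest.Agent.R017.P1XM176 (NVx)

/-- the length of the children at `D`, `b` -/
def nD (a : BmX) (qs : List Pq) (D : Eis) (b : ℝ) : ℝ :=
  LN qs + lM a - Real.log (nm a.2.1) - Real.log (nm D * nm (GrT828.cc a.2.1 D)) - b

section
variable {Λ : Type*} (π : Λ → DPar) (h : ℝ → ℝ) (e0 c : ℝ)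
  (ok : Λ × Eis → BmX → List Pq → Prop) (α : Λ × Eis → BmX → Eis → ℂ)
  (Fx : (IX5 → ℝ) → ℝ → ℝ → ℝ → ℝ → ℕ → BmX → List Pq → Prop)
  (β : ℝ) (Par : Set (Fin 3 ⊕ Fin 5 → ℝ)) (Kf Tf ℓ : (Fin 5 → ℝ) → ℝ) (dA : ℝ) (S0 : BmX → ℝ)

/-- **`CoreB` of a class of the mismatch at one `D`** -/
def CoreG : Prop :=
  ∀ ε : ℝ, 0 < ε → ∃ τ : ℝ, 0 < τ ∧ ∀ (lam : Λ × Eis) (N : ℕ) (B : ℝ), 0 ≤ B →
    ∀ B₀ : ℝ, 0 ≤ B₀ → ∃ J M₀ : ℕ, ∃ r : ℝ, 0 ≤ r ∧ ∃ X₀ : ℝ, 1 < X₀ ∧ ∀ X : ℝ, X₀ ≤ X →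
      ∀ H : ℝ, 1 ≤ H → ∀ p : IX5 → ℝ, prX p ∈ Par →
      ∀ (a : BmX) (qs : List Pq) (c5 : Fin 5) (i : ℕ) (b : Eis) (s : ℝ),
      Hyp9 π h c ok Fx β lam p X τ B H N a qs c5 i b →
      ∀ D : Eis, IsPrim D → (nm D : ℝ) ≤ X ^ B₀ → ∀ b' k : ℝ, 0 ≤ b' → b' ≤ B₀ * Real.log X →
      0 ≤ k → k ≤ B₀ * Real.log X →
      (∀ bb : Fin 5 → ℝ, bb = bNx p ∨ bb = bRx p → k + b' + nD a qs D b' ≤
        (Tf bb + (bb 1 + bb 2 + bb 3 + bb 4) + τ) * Real.log X) →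
      ∀ V : ℝ,
      (∀ bb : Fin 5 → ℝ, bb = bNx p ∨ bb = bRx p → ∀ l z₁ z₂ z₃ w : ℝ, 0 ≤ l →
        |l - (k + b')| ≤ r → 0 ≤ z₁ → 0 ≤ z₂ → 0 ≤ z₃ → 0 ≤ w →
        |z₁ + z₂ + z₃ + w - nD a qs D b'| ≤ r → w ≤ LN qs + r →
        LN qs - Real.log (nm a.2.1) - min (y5 (Real.exp a.2.2) a.2.1 c5) (Real.log (nm D)) -
          b' - r ≤ w →
        NVx dA (Real.log X * Kf bb) (Real.log X * ℓ bb) l (z₁ + z₂ + z₃ + w) z₁ z₂ z₃ w ≤ V) →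
      2 / 3 * (k + b') + 5 / 3 * nD a qs D b' -
        max 0 (S0 a - Real.log (nm D * nm (GrT828.cc a.2.1 D)) - b') ≤ V →
      CoreB (fun e => Ae (Real.exp a.2.2) (Real.exp (e0 * a.1.1.l)) (ηC π h lam qs) (α lam a)
        a.2.1 c5 s e D) (GrT828.cc a.2.1 D) b' k J
        (H ^ M₀ * X ^ ε * (1 + |s|) ^ J * Real.exp V)

end

end Crest.Agent.R017.P1yX72
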