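import Crest.Agent.R017.CRa_791
import Crest.Agent.R017.CR9_72
import Crest.Agent.R017.CLX_436

/-!
# Row 17, exceptional class (helper791): the core of the mismatch of the differences

* **`core_D`** : 72's `CoreG` at `okX`, `αX`, `FrD`
-/

set_option autoImplicit false
set_option linter.unusedSectionVars false

noncomputable section

open Finset
open scoped ComplexConjugate

namespace Crest.Agent.R017.CR791

open Crest.Agent.R012 Crest.Agent.R012.Eis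
open Crest.Agent.R012.LS2 (S mem_S)
open Crest.Agent.R017.ER911
open Crest.Agent.R017.HP842 (Pc pc al alL sqc)
open Crest.Agent.R017.B770 Crest.Agent.R017.Prov71
open Crest.Agent.R017.FE47 (PU cx SM)
open Crest.Agent.R017.TM708 Crest.Agent.R017.TK708
open Crest.Agent.R017.End699 (prin0)
open Crest.Agent.R017.E5B71 (Pt cκ cN cx')
open Crest.Agent.R017.I1146 (tw3 LN)
open Crest.Agent.R017.Sup271 (NPm)
open Crest.Agent.R017.ExT764 (Shf shY zeP)
open Crest.Agent.R017.P1X960 (xD rzD cmb dz okCX okD BmX)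
open Crest.Agent.R017.FEx436 (ClG)
open Crest.Agent.R017.ExP960 (oc norm_oc IX5 prX ZR)
open Crest.Agent.R017.GrC828 (LY)
open Crest.Agent.R017.XS0298 (S0K)
open Crest.Agent.R017.PX764 (Dk)
open Crest.Agent.R017.GrG404 (Ae y5)
open Crest.Agent.R017.GrK404 (CoreB)
open Crest.Agent.R017.P1MU960
open Crest.Agent.R017.P1yX72
open Crest.Agent.R017.P1v54 (ηC)

/-- a larger range of the moduli -/
lemma PD_B {X τ B B' H : ℝ} {N : ℕ} {b : Fin 5 → ℝ} {q : Eis} {us : Fin 3 → Pq} {gs : List Pq}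
    {κ : ℝ} (hX : 1 ≤ X) (hB : B ≤ B') (F : PD X τ B H N b q us gs κ) :
    PD X τ B' H N b q us gs κ := by
  have h : X ^ B ≤ X ^ B' := Real.rpow_le_rpow_of_exponent_le hX hB
  exact ⟨F.q0, F.qB.trans h, F.H1, F.lump, F.us0, fun i => (F.usB i).trans h, F.usH, F.z1, F.z2,
    F.z3, fun p hp => by
      obtain ⟨h2, h3, h4, h5, h6⟩ := F.am p hp
      exact ⟨h2, h3, h4, h5.trans h, h6⟩, F.len, F.x, F.k⟩

lemma ar1 {l k lt b' r n : ℝ} (h : |l - (k + lt + b')| ≤ r) (hl : 0 ≤ lt) (hr : 0 ≤ r)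
    (hn : 0 ≤ n) : |l - (k + b')| ≤ (n + 1) * r + lt := by
  have h1 := abs_le.1 h
  have h2 : 0 ≤ n * r := mul_nonneg hn hr
  have e : (n + 1) * r = n * r + r := by ring
  rw [e, abs_le]
  constructor <;> linarith [h1.1, h1.2]

lemma ar2 {y r lt n : ℝ} (h : y ≤ r) (hl : 0 ≤ lt) (hr : 0 ≤ r) (hn : 0 ≤ n) :
    y ≤ (n + 1) * r + lt := by
  have h2 : 0 ≤ n * r := mul_nonneg hn hr
  have e : (n + 1) * r = n * r + r := by ring
  rw [e]; linarith

lemma ar3 {w x r lt n : ℝ} (h : w ≤ x + n * r) (hl : 0 ≤ lt) (hr : 0 ≤ r) :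
    w ≤ x + ((n + 1) * r + lt) := by
  have e : (n + 1) * r = n * r + r := by ring
  rw [e]; linarith

lemma ar4 {a b r lt n : ℝ} (h : a - r ≤ b) (hl : 0 ≤ lt) (hr : 0 ≤ r) (hn : 0 ≤ n) :
    a - ((n + 1) * r + lt) ≤ b := by
  have h2 : 0 ≤ n * r := mul_nonneg hn hr
  have e : (n + 1) * r = n * r + r := by ring
  rw [e]; linarith

lemma ar5 {l y k lt b' nd r T S τ σ L : ℝ} (h1 : |y - nd| ≤ r) (h2 : |l - (k + lt + b')| ≤ r)
    (h3 : k + b' + nd ≤ (T + S + τ) * L) (h4 : τ ≤ σ / 2) (h5 : 2 * r + lt ≤ σ / 2 * L)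
    (hL : 0 ≤ L) : l + y ≤ (T + S + σ) * L := by
  have a1 := (abs_le.1 h1).2
  have a2 := (abs_le.1 h2).2
  have a3 : τ * L ≤ σ / 2 * L := mul_le_mul_of_nonneg_right h4 hL
  have e1 : (T + S + τ) * L = (T + S) * L + τ * L := by ring
  have e2 : (T + S + σ) * L = (T + S) * L + (σ / 2 * L + σ / 2 * L) := by ring
  rw [e1] at h3
  rw [e2]
  linarith

lemma ar6 {x y c τ L : ℝ} (h1 : x ≤ c * L + τ * L) (hc : c ≤ 1 / 3) (hτ : τ ≤ 1 / 100)
    (hL : 0 ≤ L) (hy : y ≤ x + τ * L) : x ≤ 2 / 5 * L ∧ y ≤ L := by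
  have a1 : c * L ≤ 1 / 3 * L := mul_le_mul_of_nonneg_right hc hL
  have a2 : τ * L ≤ 1 / 100 * L := mul_le_mul_of_nonneg_right hτ hL
  constructor <;> linarith

lemma ar7 {m q n c τ L : ℝ} (h1 : m + q ≤ (n + c) * L + τ * L) (hn : n ≤ 1) (hc : c ≤ 1 / 3)
    (hτ : τ ≤ 1 / 100) (hL : 0 ≤ L) (hq : 0 ≤ q) : m ≤ 2 * L := by
  have a1 : (n + c) * L ≤ (4 / 3) * L := mul_le_mul_of_nonneg_right (by linarith) hL
  have a2 : τ * L ≤ 1 / 100 * L := mul_le_mul_of_nonneg_right hτ hL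
  linarith

lemma ar8 {x B₀ B' L y : ℝ} (h1 : x ≤ B₀ * L) (hy : y ≤ L) (hB : B₀ + 1 ≤ B') (hL : 0 ≤ L)
    (hB' : 0 ≤ B') : x + y ≤ B' * (2 * L) := by
  have a1 : (B₀ + 1) * L ≤ B' * L := mul_le_mul_of_nonneg_right hB hL
  have a2 : 0 ≤ B' * L := mul_nonneg hB' hL
  have e1 : (B₀ + 1) * L = B₀ * L + L := by ring
  have e2 : B' * (2 * L) = B' * L + B' * L := by ring
  rw [e2]
  linarith

/-- the bias saving of a difference -/
def S0X (a : BmX) : ℝ :=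
  min (min (a.1.2.1 0).z (a.1.2.1 1).z) (min ((a.1.2.1 0).z - dz a.1.1) ((a.1.2.1 1).z + dz a.1.1))

variable {Λ : Type*} {π : Λ → DPar} {h : ℝ → ℝ}

set_option maxHeartbeats 2000000 in
/-- **the core of the mismatch of the differences** -/
theorem core_D {c₀ : ℝ} (hpu : PU h c₀) (hP : ∀ lam, (π lam).OK)
    (hn : ∀ lam, ¬ NPm (π lam).n (π lam).ψ (π lam).l₂ 1) {Rh : ℝ} (hR0 : 0 ≤ Rh)
    (hR : ∀ u, cx h u ≠ 0 → |u| ≤ Rh) {s₁ : EF} {dA : ℝ} {D5 : Set (Fin 5 → ℝ)}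
    {Kf Tf ℓ : (Fin 5 → ℝ) → ℝ}
    (h0 : ExpS0 s₁ (ex Dq fun lam => S0K Dk (π lam) h))
    (hA : AllT dA (ex Dq fun lam => S0K Dk (π lam) h))
    (hKf : Continuous Kf) (hTf : Continuous Tf) (hD : IsCompact D5)
    (hD4 : ∀ b ∈ D5, 0 ≤ b 4) (hℓ : Continuous ℓ)
    (Hc : ClG (ex Dq fun lam => S0K Dk (π lam) h) D5 Tf fun b v z₁ z₂ z₃ w =>
      eH (FEx436.kV (Kf b) v (z₁ + z₂ + z₃ + w)) v (z₁ + z₂ + z₃ + w) + ℓ b)
    {e0 c β : ℝ} {Par : Set (Fin 3 ⊕ Fin 5 → ℝ)}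
    (hDN : ∀ p : IX5 → ℝ, prX p ∈ Par → ZR β p → bNx p ∈ D5)
    (hDR : ∀ p : IX5 → ℝ, prX p ∈ Par → ZR β p → bRx p ∈ D5) :
    CoreG π h e0 c (okX π) (αX π h) FrD β Par Kf Tf ℓ dA S0X := by
  intro ε hε
  obtain ⟨σ, hσ, G⟩ := FEx436.clm_VK (Kn := Dk) (π := π) (wd_E hpu hP) h0 hA hKf hTf hD hD4 hℓ Hc
    (show 0 < ε / 4 by linarith)
  refine ⟨min (σ / 2) (1 / 100), lt_min (by linarith) (by norm_num), ?_⟩
  intro lam N B hB B₀ hB₀
  set τ := min (σ / 2) (1 / 100) with hτ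
  have hτ1 : τ ≤ σ / 2 := min_le_left _ _
  have hτ2 : τ ≤ 1 / 100 := min_le_right _ _
  set B' : ℝ := B + B₀ + 2 with hB'
  have hB'0 : 0 ≤ B' := by positivity
  obtain ⟨M, G⟩ := G lam.1 N B'
  set J : ℕ := 12 + (N + 3) * M with hJ
  have hJ1 : (((N + 3 : ℕ) : ℝ)) * (M : ℝ) ≤ (J : ℝ) := by
    rw [hJ]; push_cast; nlinarith
  have hJ2 : (12 : ℝ) ≤ (J : ℝ) := by
    rw [hJ]; push_cast; nlinarith [Nat.cast_nonneg (α := ℝ) N, Nat.cast_nonneg (α := ℝ) M,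
      mul_nonneg (Nat.cast_nonneg (α := ℝ) N) (Nat.cast_nonneg (α := ℝ) M)]
  obtain ⟨C, r, hC, hr, K⟩ := TPX791.coreB_xb hpu hR0 hR (N + 3) (B₀ := B') hB'0 (ε := ε / 8)
    (by linarith) (M := (M : ℝ)) (Nat.cast_nonneg M) (J := (J : ℝ)) hJ1 hJ2
  obtain ⟨X₁, hX₁, G⟩ := G r hr
  have hC0 : 0 ≤ C := by linarith
  set lt : ℝ := 2 * Real.log (nm lam.2) with hlt
  have hlt0 : 0 ≤ lt := by
    have := Real.log_natCast_nonneg (nm lam.2)
    positivity
  set CC : ℝ := (I1146.ds lam.2).card * (C * (2 + Real.exp (2 / 3 * lt))) + 1 with hCC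
  have hCC1 : 1 ≤ CC := by
    have : 0 ≤ ((I1146.ds lam.2).card : ℝ) * (C * (2 + Real.exp (2 / 3 * lt))) := by positivity
    linarith
  have hlCC : 0 ≤ Real.log CC := Real.log_nonneg hCC1
  set Q : ℝ := 2 + (2 * r + lt) * (2 / σ) + lt + Real.log (nm (π lam.1).n) + Real.log CC * (2 / ε)
    with hQ
  have hln : 0 ≤ Real.log (nm (π lam.1).n) := Real.log_natCast_nonneg _
  have hq1 : 0 ≤ (2 * r + lt) * (2 / σ) := by positivity
  have hq2 : 0 ≤ Real.log CC * (2 / ε) := by positivity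
  refine ⟨J, M + 12, (N + 1) * r + lt, by positivity, max X₁ (Real.exp Q),
    hX₁.trans_le (le_max_left _ _), ?_⟩
  intro X hX H hH p hp a qs c5 i b s Hy D hDp hDX b' k hb' hb'X hk hkX hlev V hV hbias
  obtain ⟨hfr, hfx, hok, hgp, hgs, hζ0, hsup, hgS, -, -⟩ := Hy
  have hXX₁ : X₁ ≤ X := (le_max_left _ _).trans hX
  have hXQ : Real.exp Q ≤ X := (le_max_right _ _).trans hX
  have hX1 : 1 < X := hX₁.trans_le hXX₁
  have hX0 : 0 < X := by linarith
  have hX3 : 3 ≤ X := hfr.X3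
  set L := Real.log X with hL
  have hL0 : 0 < L := hfr.L
  have hQL : Q ≤ L := (Real.le_log_iff_exp_le hX0).2 hXQ
  have hQ1 : (2 * r + lt) ≤ σ / 2 * L := by
    have h1 : (2 * r + lt) * (2 / σ) ≤ L := by linarith
    have h2 := mul_le_mul_of_nonneg_left h1 (show 0 ≤ σ / 2 by linarith)
    have h3 : σ / 2 * ((2 * r + lt) * (2 / σ)) = 2 * r + lt := by field_simp
    linarith
  have hQ2 : lt ≤ L := by linarith
  have hQ3 : Real.log (nm (π lam.1).n) ≤ L := by linarith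
  have hQ4 : CC ≤ X ^ (ε / 2) := by
    rw [Real.rpow_def_of_pos hX0, ← Real.exp_log (show 0 < CC by linarith)]
    refine Real.exp_le_exp.2 ?_
    have h1 : Real.log CC * (2 / ε) ≤ L := by linarith
    have h2 := mul_le_mul_of_nonneg_right h1 (show 0 ≤ ε / 2 by linarith)
    have h3 : Real.log CC * (2 / ε) * (ε / 2) = Real.log CC := by field_simp
    linarith
  -- the data
  obtain ⟨hokC, hokD⟩ := hok
  have htS : lam.2 ∈ SM (π lam.1).n := hokC.2.1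
  have ht0 : lam.2 ≠ 0 := htS.1
  set P := π lam.1 with hPd
  have hPok : P.OK := hP lam.1
  have hPn := hn lam.1
  set vs := a.1.2.1 with hvs
  set dd := dz a.1.1 with hdd
  set g := a.2.1 with hg
  set s1 : Fin qs.length → Pc := fun i => Pt P 1 (qs.get i) with hs1
  set s2 : Fin 3 → Pc := fun j => Pt P 1 (vs j) with hs2
  set s3 : Fin 3 → Pc := fun j => Pt P 1 (rzD vs dd j) with hs3
  have pdN := PD_mono hL0.le hfx.pdN hτ1
  have pdR := PD_mono hL0.le hfx.pdR hτ1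
  have pdN' := PD_B hX1.le (show B ≤ B' by linarith) pdN
  have pdR' := PD_B hX1.le (show B ≤ B' by linarith) pdR
  have hofn : List.ofFn (fun i => qs.get i) = qs := List.ofFn_get qs
  have hlen : qs.length ≤ N := hfx.pdN.len
  have hcard : Fintype.card (Fin qs.length) + Fintype.card (Fin 3) ≤ N + 3 := by
    rw [Fintype.card_fin, Fintype.card_fin]; omega
  -- sizes
  have hX2 : 3 ≤ X ^ (2 : ℝ) := by
    have h1 : X ^ (1 : ℝ) ≤ X ^ (2 : ℝ) := Real.rpow_le_rpow_of_exponent_le hX1.le (by norm_num)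
    rw [Real.rpow_one] at h1
    linarith
  have hlX2 : Real.log (X ^ (2 : ℝ)) = 2 * L := Real.log_rpow hX0 2
  have hup : ∀ y : ℝ, y ≤ B' → X ^ y ≤ (X ^ (2 : ℝ)) ^ B' := by
    intro y hy
    rw [← Real.rpow_mul hX0.le]
    exact Real.rpow_le_rpow_of_exponent_le hX1.le (by linarith)
  have hpar := hfr.par
  have hc0 : 0 ≤ cx' (prX p) := hpar.x0
  have hlg : Real.log (nm g) ≤ L := (ar6 hfr.qs1 hpar.x1 hτ2 hL0.le hfr.g1).2
  have hlM : (vs 0).z + (vs 1).z + (vs 2).z ≤ 2 * L :=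
    ar7 (hfr.cl ▸ hfr.up) hpar.N1 hpar.x1 hτ2 hL0.le hfr.qs0
  have hNn : (0 : ℝ) ≤ N := Nat.cast_nonneg N
  have hτL : τ * L ≤ L := mul_le_of_le_one_left hL0.le (by linarith)
  have hz0 := pdN.us0 0
  have hz1 := pdN.us0 1
  have hz2 := pdN.us0 2
  have hd0 : 0 ≤ (vs 0).z - dd := hokD.1
  have hd1 : 0 ≤ (vs 1).z + dd := hokD.2
  have h1X : ∀ i, Real.log (s1 i).Y ≤ Real.log (X ^ (2 : ℝ)) := by
    intro i
    show Real.log (Pt P 1 (qs.get i)).Y ≤ _
    rw [log_Pt, hlX2]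
    obtain ⟨-, -, h4, -, -⟩ := hfx.pdN.am (qs.get i) (List.get_mem _ _)
    exact h4.trans (hτL.trans (by linarith))
  have h2X : ∀ j, Real.log (s2 j).Y ≤ Real.log (X ^ (2 : ℝ)) := by
    intro j
    show Real.log (Pt P 1 (vs j)).Y ≤ _
    rw [log_Pt, hlX2]
    fin_cases j
    · show (vs 0).z ≤ _
      linarith
    · show (vs 1).z ≤ _
      linarith
    · show (vs 2).z ≤ _
      linarith
  have h3X : ∀ j, Real.log (s3 j).Y ≤ Real.log (X ^ (2 : ℝ)) := by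
    intro j
    show Real.log (Pt P 1 (rzD vs dd j)).Y ≤ _
    rw [log_Pt, hlX2]
    fin_cases j
    · show (vs 0).z - dd ≤ _
      linarith
    · show (vs 1).z + dd ≤ _
      linarith
    · show (vs 2).z ≤ _
      linarith
  have hlum := hfx.pdN.lump
  have hρ : ∀ j : Fin 3, P.n * (vs j).d ≠ 0 := fun j => mul_ne_zero hPok.ψ.q0 (vs j).d0
  have hn1 : (1 : ℝ) ≤ nm P.n := by exact_mod_cast nm_pos.2 hPok.ψ.q0
  have hnX : (nm P.n : ℝ) ≤ X := by
    rw [← Real.exp_log (show (0 : ℝ) < nm P.n by linarith), ← Real.exp_log hX0]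
    exact Real.exp_le_exp.2 hQ3
  have hρX : ∀ j : Fin 3, (nm (P.n * (vs j).d) : ℝ) ≤ (X ^ (2 : ℝ)) ^ B' := by
    intro j
    rw [nm_mul]
    push_cast
    have h1 := hfx.pdN.usB j
    refine le_trans ?_ (hup (1 + B) (by linarith))
    rw [Real.rpow_add hX0, Real.rpow_one]
    exact mul_le_mul hnX h1 (Nat.cast_nonneg _) hX0.le
  have hgX : (nm g : ℝ) ≤ X := by
    have h1 : (0 : ℝ) < nm g := by exact_mod_cast nm_pos.2 hgp.ne_zero
    rw [← Real.exp_log h1, ← Real.exp_log hX0]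
    exact Real.exp_le_exp.2 hlg
  have hgX' : (nm g : ℝ) ≤ (X ^ (2 : ℝ)) ^ B' := by
    refine hgX.trans ?_
    have := hup 1 (by linarith)
    rwa [Real.rpow_one] at this
  have hDX' : (nm D : ℝ) ≤ (X ^ (2 : ℝ)) ^ B' := hDX.trans (hup B₀ (by linarith))
  have hcp : IsPrim (GrT828.cc g D) := GrT828.cc_prim hgp
  have hccX : (nm (GrT828.cc g D) : ℝ) ≤ X := by
    refine le_trans ?_ hgX
    exact_mod_cast Div277.nm_le_of_dvd hgp.ne_zero (GrT828.cc_dvd hgp)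
  have hmod : (nm (D * GrT828.cc g D) : ℝ) ≤ X ^ B' := by
    rw [nm_mul]
    push_cast
    calc (nm D : ℝ) * nm (GrT828.cc g D) ≤ X ^ B₀ * X := by gcongr
      _ = X ^ (B₀ + 1) := by rw [Real.rpow_add hX0, Real.rpow_one]
      _ ≤ X ^ B' := Real.rpow_le_rpow_of_exponent_le hX1.le (by linarith)
  -- the sequences
  have eη : ηC π h lam qs = tw3 lam.2 (sqc 1 (al h s1)) := by
    show sqc 1 (alL h (qs.map (Pt P lam.2))) = _
    rw [sqc_Pt P h lam.2, al_get]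
  have eα : αX π h lam a = fun n => oc vs (vs 0).z (vs 1).z * tw3 lam.2 (xU h P vs dd) n :=
    xD_fam h P lam.2 vs dd
  have hsup' : ∀ n, sqc 1 (al h s1) n ≠ 0 → (nm n : ℝ) ≤ Real.exp a.2.2 := by
    intro n hn'
    refine hsup n ?_
    rw [eη]
    have h1 : sqc 1 (alL h (qs.map (Pt P 1))) n ≠ 0 := by rw [al_get]; exact hn'
    obtain ⟨h2, h3⟩ := sqc_cop hPok htS h1
    refine mul_ne_zero ?_ hn'
    have h4 : ‖sy lam.2 n‖ = 1 := by
      rcases (Char766.isChar_sy lam.2).norm n h2 with h5 | h5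
      · exact absurd h5 (Char766.sy_ne_zero h2 h3)
      · exact h5
    intro h5
    rw [h5, norm_zero] at h4
    exact zero_ne_one h4
  have hηc : ∀ n, sqc 1 (al h s1) n ≠ 0 → IsCoprime lam.2 n := by
    intro n hn'
    have h1 : sqc 1 (alL h (qs.map (Pt P 1))) n ≠ 0 := by rw [al_get]; exact hn'
    exact (sqc_cop hPok htS h1).2
  -- lengths
  have eL1 : LY s1 = LN qs := LY_get P 1 qs
  have eL2 : LY s2 = lM a := LY_fn3 P 1 vs
  have eL3 : LY s3 = lM a := by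
    show LY (fun j => Pt P 1 (rzD vs dd j)) = _
    rw [LY_fn3]
    show ((vs 0).z - dd) + ((vs 1).z + dd) + (vs 2).z = (vs 0).z + (vs 1).z + (vs 2).z
    ring
  have hnD : LN qs + lM a - Real.log (nm g) - Real.log (nm D * nm (GrT828.cc g D)) - b' =
      nD a qs D b' := rfl
  set k₁ : ℝ := k + lt with hk₁
  set Bd : ℝ := H ^ M * X ^ (ε / 4) * Real.exp V with hBd
  have hH0 : 0 ≤ H := by linarith
  have hBd0 : 0 ≤ Bd := by positivity
  have hXe2 : (X ^ (2 : ℝ)) ^ (ε / 8) = X ^ (ε / 4) := by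
    rw [← Real.rpow_mul hX0.le]; congr 1; ring
  -- the claims
  have claim : ∀ (bb : Fin 5 → ℝ), bb = bNx p ∨ bb = bRx p → bb ∈ D5 →
      ∀ us : Fin 3 → Pq, PD X (σ / 2) B' H N bb 1 us qs a.1.1.l → ∀ (l : ℝ)
      (s' : Fin qs.length ⊕ Fin 3 → Pc), 0 ≤ l →
      GrC828.ChF r s' (Sum.elim s1 fun j => Pt P 1 (us j)) →
      |LY s' - nD a qs D b'| ≤ r → |l - (k₁ + b')| ≤ r →
      LN qs - Real.log (nm g) - min (y5 (Real.exp a.2.2) g c5) (Real.log (nm D)) - b' - r ≤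
        LY (fun i => s' (.inl i)) →
      GrC828.LY s' = GrC828.LY s' →
      LegK545.VK Dk (Real.exp l) (sqc (D * GrT828.cc g D) (al h s')) ≤
        Bd * GrC828.cF s' (Sum.elim s1 fun j => Pt P 1 (us j)) ^ (M : ℝ) := by
    intro bb hbb hbD us hpd l s' hl hF hLY hlk hgate _
    have h1 := G X hXX₁ bb hbD qs.length us (fun i => qs.get i) a.1.1.l H
      (by rw [hofn]; exact hpd) (D * GrT828.cc g D) (hDp.mul hcp) hmod l s' hl hF
      (ar5 hLY hlk (hlev bb hbb) hτ1 hQ1 hL0.le) V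
      (by
        intro z₁ z₂ z₃ w w1 w2 w3 w4 w5 w6 w7 w8 w9 w10
        rw [hofn] at w8
        have h2 := hV bb hbb l z₁ z₂ z₃ w hl (ar1 hlk hlt0 hr hNn) w1 w2 w3 w4
          (by rw [w9]; exact ar2 hLY hlt0 hr hNn) (ar3 w8 hlt0 hr)
          (by rw [w10]; exact ar4 hgate hlt0 hr hNn)
        rw [w9] at h2
        exact h2)
    refine h1.trans (le_of_eq ?_)
    rw [hBd]
    show GrC828.cF s' (Sum.elim s1 fun j => Pt P 1 (us j)) ^ (M : ℝ) * _ = _
    ring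
  have h2 : ∀ j, (s2 j).OK := fun j => P1l54.Pt_OK hPok 1 _
  have hS0 : S0X a = min (min (vs 0).z (vs 1).z) (min ((vs 0).z - dd) ((vs 1).z + dd)) := rfl
  have main := K (X ^ (2 : ℝ)) hX2 (Fin qs.length) (Fin 3) hcard s1 s2 s3 0 1 (-dd)
    (shf_rzD P 1 vs dd) (fun i => P1l54.Pt_OK hPok 1 _) h2 h1X h2X h3X (hlum 0).2 (hlum 1).2
    (P.n * (vs 0).d) (P.n * (vs 1).d) (hρ 0) (hρ 1) (hρX 0) (hρX 1)
    (Pt_prin hPok hPn (hlum 0).1) (Pt_prin hPok hPn (hlum 1).1) (S0X a)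
    (by
      rw [hS0]; show _ ≤ Real.log (Pt P 1 (vs 0)).Y
      rw [log_Pt]; exact (min_le_left _ _).trans (min_le_left _ _))
    (by
      rw [hS0]; show _ ≤ Real.log (Pt P 1 (vs 1)).Y
      rw [log_Pt]; exact (min_le_left _ _).trans (min_le_right _ _))
    (by
      rw [hS0]; show _ ≤ Real.log (Pt P 1 (rzD vs dd 0)).Y
      rw [log_Pt]; exact (min_le_right _ _).trans (min_le_left _ _))
    (by
      rw [hS0]; show _ ≤ Real.log (Pt P 1 (rzD vs dd 1)).Y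
      rw [log_Pt]; exact (min_le_right _ _).trans (min_le_right _ _))
    (Real.exp a.2.2) (Real.exp_pos _).le hsup' (xU h P vs dd) (fun n => rfl)
    (Real.exp (e0 * a.1.1.l)) c5 s g D hgp hDp hgX' hDX' b' k₁ hb'
    (by
      rw [hlX2]
      have := ar8 (B' := B') hb'X hL0.le (by linarith) hL0.le hB'0
      rwa [add_zero] at this) (add_nonneg hk hlt0)
    (by
      rw [hlX2]
      exact ar8 hkX hQ2 (by linarith) hL0.le hB'0) Bd Bd hBd0 hBd0
    (by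
      intro l s' hl hF hLY hlk hgate
      rw [eL1, eL2, hnD] at hLY
      rw [eL1] at hgate
      exact claim (bNx p) (Or.inl rfl) (hDN p hp hfr.zr) vs pdN' l s' hl hF hLY hlk hgate rfl)
    (by
      intro l s' hl hF hLY hlk hgate
      rw [eL1, eL3, hnD] at hLY
      rw [eL1] at hgate
      exact claim (bRx p) (Or.inr rfl) (hDR p hp hfr.zr) (rzD vs dd) pdR' l s' hl hF hLY hlk
        hgate rfl)
  have htw := coreB_twZ ht0 hηc (fun n hn' => (xU_cop hPok htS hn').1)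
    (fun n hn' => (xU_cop hPok htS hn').2) (z := oc vs (vs 0).z (vs 1).z) (norm_oc _ _ _).le
    (Real.exp_pos _).le hgp hDp main
  rw [eη, eα]
  refine GrK404.CoreB.mono htw ?_
  -- the constants
  rw [hXe2, eL1, eL2]
  have hHt : ((1 + |(s2 0).t|) * (1 + |(s2 1).t|)) ^ 6 ≤ H ^ 12 := by
    have u0 := hfx.pdN.usH 0
    have u1 := hfx.pdN.usH 1
    have h3 : (1 + |(s2 0).t|) * (1 + |(s2 1).t|) ≤ H * H :=
      mul_le_mul u0 u1 (by positivity) hH0
    calc ((1 + |(s2 0).t|) * (1 + |(s2 1).t|)) ^ 6 ≤ (H * H) ^ 6 :=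
          pow_le_pow_left₀ (by positivity) h3 6
      _ = H ^ 12 := by ring
  have hex : Real.exp (2 / 3 * (k₁ + b')) * Real.exp (TPX791.ebx (LN qs + lM a)
      (Real.log (nm g)) (Real.log (nm D * nm (GrT828.cc g D))) b' (S0X a)) ≤
      Real.exp (2 / 3 * lt) * Real.exp V := by
    rw [← Real.exp_add, ← Real.exp_add]
    refine Real.exp_le_exp.2 ?_
    unfold TPX791.ebx
    have h3 : min 0 (Real.log (nm D * nm (GrT828.cc g D)) + b' - S0X a) =
        -max 0 (S0X a - Real.log (nm D * nm (GrT828.cc g D)) - b') := by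
      rcases le_total 0 (S0X a - Real.log (nm D * nm (GrT828.cc g D)) - b') with h4 | h4
      · rw [max_eq_right h4, min_eq_right (by linarith)]; ring
      · rw [max_eq_left h4, min_eq_left (by linarith)]; ring
    rw [h3, hnD]
    have h5 : 2 / 3 * (k + b') + 5 / 3 * nD a qs D b' -
        max 0 (S0X a - Real.log (nm D * nm (GrT828.cc g D)) - b') ≤ V := hbias
    rw [hk₁]
    linarith
  have hHM : H ^ M ≤ H ^ (M + 12) := pow_le_pow_right₀ hH (by omega)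
  have hH12 : H ^ 12 ≤ H ^ (M + 12) := pow_le_pow_right₀ hH (by omega)
  have hXe1 : 1 ≤ X ^ (ε / 4) := Real.one_le_rpow hX1.le (by linarith)
  have hsJ : 0 ≤ (1 + |s|) ^ (J : ℝ) := by positivity
  have hE0 : 0 < Real.exp V := Real.exp_pos _
  set HH : ℝ := H ^ (M + 12) with hHH
  have hHH0 : 0 ≤ HH := by positivity
  set Xe : ℝ := X ^ (ε / 4) with hXe
  have hXe0 : 0 ≤ Xe := by linarith
  have hb1 : Bd ≤ HH * Xe * Real.exp V := by
    rw [hBd]; gcongr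
  have hb2 : Real.exp (2 / 3 * (k₁ + b')) * (((1 + |(s2 0).t|) * (1 + |(s2 1).t|)) ^ 6 *
      Real.exp (TPX791.ebx (LN qs + lM a) (Real.log (nm g))
        (Real.log (nm D * nm (GrT828.cc g D))) b' (S0X a))) ≤
      Real.exp (2 / 3 * lt) * (HH * Xe * Real.exp V) := by
    calc _ = ((1 + |(s2 0).t|) * (1 + |(s2 1).t|)) ^ 6 * (Real.exp (2 / 3 * (k₁ + b')) *
          Real.exp (TPX791.ebx (LN qs + lM a) (Real.log (nm g))
            (Real.log (nm D * nm (GrT828.cc g D))) b' (S0X a))) := by ring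
      _ ≤ HH * (Real.exp (2 / 3 * lt) * Real.exp V) :=
          mul_le_mul (hHt.trans hH12) hex (by positivity) hHH0
      _ = Real.exp (2 / 3 * lt) * (HH * 1 * Real.exp V) := by ring
      _ ≤ _ := by gcongr
  have hfin : (I1146.ds lam.2).card * (C * Xe * (1 + |s|) ^ (J : ℝ) *
      (Bd + Bd + Real.exp (2 / 3 * (k₁ + b')) * (((1 + |(s2 0).t|) * (1 + |(s2 1).t|)) ^ 6 *
        Real.exp (TPX791.ebx (LN qs + lM a) (Real.log (nm g))
          (Real.log (nm D * nm (GrT828.cc g D))) b' (S0X a))))) ≤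
      CC * (HH * (Xe * Xe) * (1 + |s|) ^ (J : ℝ) * Real.exp V) := by
    calc _ ≤ (I1146.ds lam.2).card * (C * Xe * (1 + |s|) ^ (J : ℝ) *
          (HH * Xe * Real.exp V + HH * Xe * Real.exp V +
            Real.exp (2 / 3 * lt) * (HH * Xe * Real.exp V))) := by gcongr
      _ = ((I1146.ds lam.2).card * (C * (2 + Real.exp (2 / 3 * lt)))) *
          (HH * (Xe * Xe) * (1 + |s|) ^ (J : ℝ) * Real.exp V) := by ring
      _ ≤ _ := mul_le_mul_of_nonneg_right (by rw [hCC]; linarith) (by positivity)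
  refine hfin.trans ?_
  have hXX : X ^ ε = X ^ (ε / 2) * (Xe * Xe) := by
    rw [hXe, ← Real.rpow_add hX0, ← Real.rpow_add hX0]; congr 1; ring
  calc CC * (HH * (Xe * Xe) * (1 + |s|) ^ (J : ℝ) * Real.exp V) ≤
        X ^ (ε / 2) * (HH * (Xe * Xe) * (1 + |s|) ^ (J : ℝ) * Real.exp V) :=
        mul_le_mul_of_nonneg_right hQ4 (by positivity)
    _ = HH * X ^ ε * (1 + |s|) ^ (J : ℝ) * Real.exp V := by rw [hXX]; ring
    _ = _ := by rw [Real.rpow_natCast]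

end Crest.Agent.R017.CR791
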