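import Crest.Agent.R017.One_HB_411
import Crest.Agent.R017.HPL_842
import Crest.Agent.R012.LS2Tail_381

/-!
# Row 17, T.3 / P1: the cubic large sieve for natural lists (helper445)

* `pc_ne`, `norm_pc_le`, `al_ne`, `norm_al_le` : support and size
* `hbs` : `Σ_{k ≠ 0, nm k ≤ K} ‖CS (sqc 1 (al h s)) k‖² ≤ C X^ε (K + K^{1/3} N + (K N)^{2/3}) N`
* `hbs_short` : the same with `N² ≤ ρ K` : `≤ C X^ε ρ K N`
* `hbs_prim`, `hbs_short_prim` : over primary `k`;  `hbsL`, `hbsL_short` : lists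
-/

set_option autoImplicit false

noncomputable section

open Finset
open scoped ComplexConjugate

namespace Crest.Agent.R017.HBs445

open Crest.Agent.R012 Crest.Agent.R012.Eis
open Crest.Agent.R012.LS2 (S mem_S bl mem_bl)
open Crest.Agent.R012.Div277 (tau dvs mem_dvs)
open Crest.Agent.R017.CM106 (CS FS)
open Crest.Agent.R017.FE47 (cx)
open Crest.Agent.R017.HP842 (Pc pc al alL cv Tu mem_Tu sqc Th)

/-! ### support and size -/

lemma nm_prodF {κ : Type*} (s : Finset κ) (a : κ → Eis) :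
    nm (∏ i ∈ s, a i) = ∏ i ∈ s, nm (a i) := by
  classical
  induction s using Finset.induction_on with
  | empty => simp
  | insert i s hi ih => rw [Finset.prod_insert hi, Finset.prod_insert hi, nm_mul, ih]

lemma pc_ne {h : ℝ → ℝ} {R : ℝ} (hR : ∀ u, cx h u ≠ 0 → |u| ≤ R) {P : Pc} (hP : P.OK) {m : Eis}
    (hm : pc h P m ≠ 0) : IsPrim m ∧ (nm m : ℝ) ≤ P.Y * Real.exp R := by
  classical
  have hp : IsPrim m := by
    by_contra h0
    apply hm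
    unfold pc
    rw [if_neg h0]
  refine ⟨hp, ?_⟩
  have h5 := hm
  unfold pc at h5
  rw [if_pos hp] at h5
  have h6 : HSep813.gw h P.Y P.t m ≠ 0 := right_ne_zero_of_mul h5
  unfold HSep813.gw at h6
  have h7 := hR _ (right_ne_zero_of_mul h6)
  have h8 : (0 : ℝ) < nm m := by exact_mod_cast nm_pos.2 hp.ne_zero
  have h9 : Real.log (nm m) ≤ Real.log P.Y + R := by
    have := (abs_le.1 h7).2
    linarith
  calc (nm m : ℝ) = Real.exp (Real.log (nm m)) := (Real.exp_log h8).symm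
    _ ≤ Real.exp (Real.log P.Y + R) := Real.exp_le_exp.2 h9
    _ = P.Y * Real.exp R := by rw [Real.exp_add, Real.exp_log hP.Y0]

lemma norm_pc_le {h : ℝ → ℝ} {A : ℝ} (hA : ∀ u, ‖cx h u‖ ≤ A) {P : Pc} (hP : P.OK) (m : Eis) :
    ‖pc h P m‖ ≤ A := by
  classical
  have hA0 : 0 ≤ A := (norm_nonneg _).trans (hA 0)
  unfold pc
  split_ifs with hm
  · rw [norm_mul, norm_mul]
    have e1 := HP842.norm_uv_le P.u m
    have e2 := hP.ch.norm_le hm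
    have e3 := HSep813.norm_gw_le hA P.Y P.t m
    calc ‖HP842.uv P.u m‖ * ‖P.ψ m‖ * ‖HSep813.gw h P.Y P.t m‖ ≤ 1 * 1 * A := by gcongr
      _ = A := by ring
  · simpa using hA0

section
variable {ι : Type*} [Fintype ι] [DecidableEq ι]

lemma al_ne {h : ℝ → ℝ} {R : ℝ} (hR : ∀ u, cx h u ≠ 0 → |u| ≤ R) {s : ι → Pc}
    (hs : ∀ i, (s i).OK) {n : Eis} (hn : al h s n ≠ 0) :
    IsPrim n ∧ (nm n : ℝ) ≤ ∏ i, ((s i).Y * Real.exp R) := by
  classical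
  unfold al cv at hn
  obtain ⟨x, hx, h0⟩ := Finset.exists_ne_zero_of_sum_ne_zero hn
  rw [mem_Tu] at hx
  have h1 : ∀ i, IsPrim (x i) ∧ (nm (x i) : ℝ) ≤ (s i).Y * Real.exp R := fun i =>
    pc_ne hR (hs i) (fun h2 => h0 (Finset.prod_eq_zero (Finset.mem_univ i) h2))
  refine ⟨hx.2 ▸ HP842.isPrim_prod hx.1, ?_⟩
  rw [← hx.2]
  have e1 : ((nm (∏ i, x i) : ℕ) : ℝ) = ∏ i, (nm (x i) : ℝ) := by
    rw [nm_prodF]
    push_cast
    rfl
  rw [e1]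
  exact Finset.prod_le_prod (fun i _ => Nat.cast_nonneg _) fun i _ => (h1 i).2

lemma norm_al_le {h : ℝ → ℝ} {A : ℝ} (hA : ∀ u, ‖cx h u‖ ≤ A) {s : ι → Pc}
    (hs : ∀ i, (s i).OK) (n : Eis) :
    ‖al h s n‖ ≤ (tau n : ℝ) ^ Fintype.card ι * A ^ Fintype.card ι := by
  classical
  have hA0 : 0 ≤ A := (norm_nonneg _).trans (hA 0)
  unfold al cv
  refine (norm_sum_le _ _).trans ?_
  have h1 : ∀ x ∈ Tu ι n, ‖∏ i, pc h (s i) (x i)‖ ≤ A ^ Fintype.card ι := by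
    intro x _
    rw [norm_prod]
    calc ∏ i, ‖pc h (s i) (x i)‖ ≤ ∏ _i : ι, A :=
          Finset.prod_le_prod (fun i _ => norm_nonneg _) fun i _ => norm_pc_le hA (hs i) _
      _ = A ^ Fintype.card ι := by rw [Finset.prod_const, Finset.card_univ]
  refine (Finset.sum_le_sum h1).trans ?_
  rw [Finset.sum_const, nsmul_eq_mul]
  exact mul_le_mul_of_nonneg_right (by exact_mod_cast HP842.card_Tu_le n) (by positivity)

lemma sqc_ne {q : Eis} {α : Eis → ℂ} {n : Eis} (hn : sqc q α n ≠ 0) :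
    Squarefree n ∧ α n ≠ 0 := by
  classical
  unfold sqc Th at hn
  refine ⟨?_, right_ne_zero_of_mul hn⟩
  by_contra h0
  exact hn (by rw [if_neg (fun h => h0 h.1), zero_mul])

lemma norm_sqc_le (q : Eis) (α : Eis → ℂ) (n : Eis) : ‖sqc q α n‖ ≤ ‖α n‖ := by
  classical
  unfold sqc Th
  split_ifs
  · rw [one_mul]
  · rw [zero_mul, norm_zero]; exact norm_nonneg _

end

/-! ### the large sieve -/

/-- **the cubic large sieve for a natural list** -/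
theorem hbs (ι : Type*) [Fintype ι] [DecidableEq ι] {ε : ℝ} (hε : 0 < ε) (A : ℝ) :
    ∃ C : ℝ, 0 ≤ C ∧ ∀ X : ℝ, 1 ≤ X → ∀ {K N : ℝ}, 1 ≤ K → K ≤ X → N ≤ X →
      ∀ {h : ℝ → ℝ} {R : ℝ}, (∀ u, cx h u ≠ 0 → |u| ≤ R) → (∀ u, ‖cx h u‖ ≤ A) →
      ∀ {s : ι → Pc}, (∀ i, (s i).OK) → ∏ i, ((s i).Y * Real.exp R) ≤ N → ∀ q : Eis,
      ∑ k ∈ bl K, ‖CS (sqc q (al h s)) k‖ ^ 2 ≤
        C * X ^ ε * ((K + K ^ (1 / 3 : ℝ) * N + (K * N) ^ (2 / 3 : ℝ)) * N) := by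
  classical
  set n := Fintype.card ι + 1 with hn
  have hn0 : (0 : ℝ) < n := by positivity
  set δ := ε / (4 * n) with hδd
  have hδ : 0 < δ := by positivity
  obtain ⟨C1, hC1, h1⟩ := OneHB411.hball (ε / 4) (by positivity)
  obtain ⟨C2, hC2, h2⟩ := Div277.tau_le_rpow (ε := δ) hδ
  have hC20 : (0 : ℝ) ≤ C2 := by linarith
  refine ⟨C1 * (16 * ((C2 ^ Fintype.card ι * A ^ Fintype.card ι) ^ 2)), by positivity, ?_⟩
  intro X hX K N hK hKX hNX h R hR hA s hs hN q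
  have hX0 : (0 : ℝ) < X := by linarith
  have hA0 : 0 ≤ A := (norm_nonneg _).trans (hA 0)
  have hNp : 0 < N := lt_of_lt_of_le (Finset.prod_pos fun i _ =>
    mul_pos (hs i).Y0 (Real.exp_pos _)) hN
  set c := sqc q (al h s) with hc
  have hcne : ∀ m, c m ≠ 0 → m ∈ S N := by
    intro m hm
    obtain ⟨h3, h4⟩ := sqc_ne hm
    obtain ⟨h5, h6⟩ := al_ne hR hs h4
    exact (mem_S hNp.le).2 ⟨h6.trans hN, h5, h3⟩
  have hCS : ∀ k, CS c k = ∑ m ∈ S N, c m * sy k m := by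
    intro k
    unfold CS
    refine tsum_eq_sum fun m hm => ?_
    have : c m = 0 := by
      by_contra h0
      exact hm (hcne m h0)
    rw [this, zero_mul]
  have hKn : (0 : ℝ) ≤ K ^ (1 / 3 : ℝ) := Real.rpow_nonneg (by linarith) _
  have hKNn : (0 : ℝ) ≤ (K * N) ^ (2 / 3 : ℝ) := Real.rpow_nonneg (by positivity) _
  rcases lt_or_ge N 1 with hN1 | hN1
  · have h0 : ∀ k ∈ bl K, ‖CS c k‖ ^ 2 = 0 := by
      intro k _
      have : S N = ∅ := by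
        rw [Finset.eq_empty_iff_forall_notMem]
        intro m hm
        obtain ⟨h3, h4, -⟩ := (mem_S hNp.le).1 hm
        have : (1 : ℝ) ≤ nm m := by exact_mod_cast nm_pos.2 h4.ne_zero
        linarith
      rw [hCS, this, Finset.sum_empty, norm_zero]
      norm_num
    rw [Finset.sum_eq_zero h0]
    positivity
  have key := h1 K N hK hN1 c
  have e1 : ∑ k ∈ bl K, ‖CS c k‖ ^ 2 = ∑ k ∈ bl K, ‖∑ m ∈ S N, c m * sy k m‖ ^ 2 :=
    Finset.sum_congr rfl fun k _ => by rw [hCS]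
  rw [e1]
  refine key.trans ?_
  -- the coefficient side
  have hcoef : ∑ m ∈ S N, ‖c m‖ ^ 2 ≤ 16 * N * ((C2 ^ Fintype.card ι * A ^ Fintype.card ι) ^ 2 *
      X ^ (ε / 2)) := by
    have h3 : ∀ m ∈ S N, ‖c m‖ ^ 2 ≤ (C2 ^ Fintype.card ι * A ^ Fintype.card ι) ^ 2 *
        X ^ (ε / 2) := by
      intro m hm
      obtain ⟨h4, h5, -⟩ := (mem_S hNp.le).1 hm
      have h6 : ‖c m‖ ≤ (tau m : ℝ) ^ Fintype.card ι * A ^ Fintype.card ι :=
        (norm_sqc_le _ _ _).trans (norm_al_le hA hs m)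
      have h7 : (tau m : ℝ) ≤ C2 * X ^ δ := by
        refine (h2 m h5.ne_zero).trans (mul_le_mul_of_nonneg_left ?_ hC20)
        exact Real.rpow_le_rpow (Nat.cast_nonneg _) (h4.trans hNX) hδ.le
      have h8 : ‖c m‖ ≤ (C2 ^ Fintype.card ι * A ^ Fintype.card ι) *
          (X ^ δ) ^ Fintype.card ι := by
        calc ‖c m‖ ≤ (tau m : ℝ) ^ Fintype.card ι * A ^ Fintype.card ι := h6
          _ ≤ (C2 * X ^ δ) ^ Fintype.card ι * A ^ Fintype.card ι :=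
              mul_le_mul_of_nonneg_right (pow_le_pow_left₀ (Nat.cast_nonneg _) h7 _)
                (by positivity)
          _ = _ := by rw [mul_pow]; ring
      have h9 : ((X ^ δ) ^ Fintype.card ι) ^ 2 ≤ X ^ (ε / 2) := by
        rw [← pow_mul, ← Real.rpow_natCast (X ^ δ), ← Real.rpow_mul hX0.le]
        refine Real.rpow_le_rpow_of_exponent_le hX ?_
        rw [hδd]
        have : ((Fintype.card ι * 2 : ℕ) : ℝ) ≤ 2 * n := by
          rw [hn]; push_cast; linarith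
        calc ε / (4 * n) * ((Fintype.card ι * 2 : ℕ) : ℝ) ≤ ε / (4 * n) * (2 * n) :=
              mul_le_mul_of_nonneg_left this (by positivity)
          _ = ε / 2 := by field_simp; ring
      calc ‖c m‖ ^ 2 ≤ ((C2 ^ Fintype.card ι * A ^ Fintype.card ι) *
            (X ^ δ) ^ Fintype.card ι) ^ 2 := pow_le_pow_left₀ (norm_nonneg _) h8 2
        _ = (C2 ^ Fintype.card ι * A ^ Fintype.card ι) ^ 2 * ((X ^ δ) ^ Fintype.card ι) ^ 2 := by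
            rw [mul_pow]
        _ ≤ _ := mul_le_mul_of_nonneg_left h9 (by positivity)
    refine (Finset.sum_le_sum h3).trans ?_
    rw [Finset.sum_const, nsmul_eq_mul]
    exact mul_le_mul_of_nonneg_right (LS2.card_S_le' hN1) (by positivity)
  have hKN : (K * N) ^ (ε / 4) ≤ X ^ (ε / 2) := by
    calc (K * N) ^ (ε / 4) ≤ (X * X) ^ (ε / 4) :=
          Real.rpow_le_rpow (by positivity) (mul_le_mul hKX hNX hNp.le hX0.le) (by positivity)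
      _ = X ^ (ε / 2) := by
          rw [← pow_two, ← Real.rpow_natCast X 2, ← Real.rpow_mul hX0.le]
          congr 1
          push_cast; ring
  have hX2 : X ^ (ε / 2) * X ^ (ε / 2) = X ^ ε := by
    rw [← Real.rpow_add hX0]
    congr 1
    ring
  set Q := K + K ^ (1 / 3 : ℝ) * N + (K * N) ^ (2 / 3 : ℝ) with hQ
  have hQ0 : 0 ≤ Q := by positivity
  set c2 := (C2 ^ Fintype.card ι * A ^ Fintype.card ι) ^ 2 with hc2
  have hc20 : 0 ≤ c2 := by positivity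
  calc C1 * (K * N) ^ (ε / 4) * Q * ∑ m ∈ S N, ‖c m‖ ^ 2
      ≤ C1 * X ^ (ε / 2) * Q * (16 * N * (c2 * X ^ (ε / 2))) := by
        refine mul_le_mul ?_ hcoef (Finset.sum_nonneg fun _ _ => by positivity) (by positivity)
        exact mul_le_mul_of_nonneg_right (mul_le_mul_of_nonneg_left hKN hC1.le) hQ0
    _ = C1 * (16 * c2) * (X ^ (ε / 2) * X ^ (ε / 2)) * (Q * N) := by ring
    _ = _ := by rw [hX2]

lemma q_le {K N ρ : ℝ} (hK : 1 ≤ K) (hN : 0 ≤ N) (hρ : 1 ≤ ρ) (h : N ^ 2 ≤ ρ * K) :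
    K + K ^ (1 / 3 : ℝ) * N + (K * N) ^ (2 / 3 : ℝ) ≤ 3 * (ρ * K) := by
  have hK0 : (0 : ℝ) ≤ K := by linarith
  have hM1 : 1 ≤ ρ * K := by nlinarith
  have hM0 : (0 : ℝ) < ρ * K := by linarith
  have hKM : K ≤ ρ * K := by nlinarith
  have hN2 : N ≤ (ρ * K) ^ (1 / 2 : ℝ) := by
    rw [← Real.sqrt_eq_rpow]
    exact Real.le_sqrt_of_sq_le h
  have a1 : K ^ (1 / 3 : ℝ) * N ≤ ρ * K := by
    calc K ^ (1 / 3 : ℝ) * N ≤ (ρ * K) ^ (1 / 3 : ℝ) * (ρ * K) ^ (1 / 2 : ℝ) :=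
          mul_le_mul (Real.rpow_le_rpow hK0 hKM (by norm_num)) hN2 hN
            (Real.rpow_nonneg hM0.le _)
      _ = (ρ * K) ^ (5 / 6 : ℝ) := by rw [← Real.rpow_add hM0]; norm_num
      _ ≤ (ρ * K) ^ (1 : ℝ) := Real.rpow_le_rpow_of_exponent_le hM1 (by norm_num)
      _ = ρ * K := Real.rpow_one _
  have a2 : (K * N) ^ (2 / 3 : ℝ) ≤ ρ * K := by
    calc (K * N) ^ (2 / 3 : ℝ) ≤ (ρ * K * (ρ * K) ^ (1 / 2 : ℝ)) ^ (2 / 3 : ℝ) :=
          Real.rpow_le_rpow (by positivity) (mul_le_mul hKM hN2 hN hM0.le) (by norm_num)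
      _ = ((ρ * K) ^ (3 / 2 : ℝ)) ^ (2 / 3 : ℝ) := by
          congr 1
          conv_lhs => rw [← Real.rpow_one (ρ * K), ← Real.rpow_mul hM0.le, one_mul,
            ← Real.rpow_add hM0]
          norm_num
      _ = ρ * K := by
          rw [← Real.rpow_mul hM0.le]
          norm_num
  linarith

/-- **short lists**: `N² ≤ ρ K` -/
theorem hbs_short (ι : Type*) [Fintype ι] [DecidableEq ι] {ε : ℝ} (hε : 0 < ε) (A : ℝ) :
    ∃ C : ℝ, 0 ≤ C ∧ ∀ X : ℝ, 1 ≤ X → ∀ {K N ρ : ℝ}, 1 ≤ K → K ≤ X → N ≤ X → 1 ≤ ρ →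
      N ^ 2 ≤ ρ * K →
      ∀ {h : ℝ → ℝ} {R : ℝ}, (∀ u, cx h u ≠ 0 → |u| ≤ R) → (∀ u, ‖cx h u‖ ≤ A) →
      ∀ {s : ι → Pc}, (∀ i, (s i).OK) → ∏ i, ((s i).Y * Real.exp R) ≤ N → ∀ q : Eis,
      ∑ k ∈ bl K, ‖CS (sqc q (al h s)) k‖ ^ 2 ≤ C * X ^ ε * (ρ * K * N) := by
  obtain ⟨C, hC, key⟩ := hbs ι hε A
  refine ⟨3 * C, by positivity, ?_⟩
  intro X hX K N ρ hK hKX hNX hρ hNK h R hR hA s hs hN q
  have hNp : 0 < N := lt_of_lt_of_le (Finset.prod_pos fun i _ =>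
    mul_pos (hs i).Y0 (Real.exp_pos _)) hN
  have hX0 : (0 : ℝ) < X := by linarith
  refine (key X hX hK hKX hNX hR hA hs hN q).trans ?_
  have h1 := mul_le_mul_of_nonneg_right (q_le hK hNp.le hρ hNK) hNp.le
  calc C * X ^ ε * ((K + K ^ (1 / 3 : ℝ) * N + (K * N) ^ (2 / 3 : ℝ)) * N)
      ≤ C * X ^ ε * (3 * (ρ * K) * N) := mul_le_mul_of_nonneg_left h1 (by positivity)
    _ = _ := by ring

lemma primBall_sub {K : ℝ} (hK : 0 ≤ K) : primBall ⌊K⌋₊ ⊆ bl K := by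
  intro k hk
  rw [mem_primBall, Nat.le_floor_iff hK] at hk
  exact (mem_bl hK).2 ⟨hk.2.ne_zero, hk.1⟩

/-- over primary `k` -/
theorem hbs_prim (ι : Type*) [Fintype ι] [DecidableEq ι] {ε : ℝ} (hε : 0 < ε) (A : ℝ) :
    ∃ C : ℝ, 0 ≤ C ∧ ∀ X : ℝ, 1 ≤ X → ∀ {K N : ℝ}, 1 ≤ K → K ≤ X → N ≤ X →
      ∀ {h : ℝ → ℝ} {R : ℝ}, (∀ u, cx h u ≠ 0 → |u| ≤ R) → (∀ u, ‖cx h u‖ ≤ A) →
      ∀ {s : ι → Pc}, (∀ i, (s i).OK) → ∏ i, ((s i).Y * Real.exp R) ≤ N → ∀ q : Eis,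
      ∑ k ∈ primBall ⌊K⌋₊, ‖CS (sqc q (al h s)) k‖ ^ 2 ≤
        C * X ^ ε * ((K + K ^ (1 / 3 : ℝ) * N + (K * N) ^ (2 / 3 : ℝ)) * N) := by
  obtain ⟨C, hC, key⟩ := hbs ι hε A
  refine ⟨C, hC, ?_⟩
  intro X hX K N hK hKX hNX h R hR hA s hs hN q
  refine (Finset.sum_le_sum_of_subset_of_nonneg (primBall_sub (by linarith))
    fun _ _ _ => by positivity).trans (key X hX hK hKX hNX hR hA hs hN q)

/-- short lists over primary `k` -/
theorem hbs_short_prim (ι : Type*) [Fintype ι] [DecidableEq ι] {ε : ℝ} (hε : 0 < ε) (A : ℝ) :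
    ∃ C : ℝ, 0 ≤ C ∧ ∀ X : ℝ, 1 ≤ X → ∀ {K N ρ : ℝ}, 1 ≤ K → K ≤ X → N ≤ X → 1 ≤ ρ →
      N ^ 2 ≤ ρ * K →
      ∀ {h : ℝ → ℝ} {R : ℝ}, (∀ u, cx h u ≠ 0 → |u| ≤ R) → (∀ u, ‖cx h u‖ ≤ A) →
      ∀ {s : ι → Pc}, (∀ i, (s i).OK) → ∏ i, ((s i).Y * Real.exp R) ≤ N → ∀ q : Eis,
      ∑ k ∈ primBall ⌊K⌋₊, ‖CS (sqc q (al h s)) k‖ ^ 2 ≤ C * X ^ ε * (ρ * K * N) := by
  obtain ⟨C, hC, key⟩ := hbs_short ι hε A
  refine ⟨C, hC, ?_⟩
  intro X hX K N ρ hK hKX hNX hρ hNK h R hR hA s hs hN q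
  refine (Finset.sum_le_sum_of_subset_of_nonneg (primBall_sub (by linarith))
    fun _ _ _ => by positivity).trans (key X hX hK hKX hNX hρ hNK hR hA hs hN q)

/-! ### lists -/

lemma prod_get {ps : List Pc} (f : Pc → ℝ) :
    ∏ i : Fin ps.length, f (ps.get i) = (ps.map f).prod := by
  rw [← List.prod_ofFn]
  congr 1
  conv_rhs => rw [← List.ofFn_get ps, List.map_ofFn]
  rfl

/-- **the cubic large sieve for a list of at most `L` pieces** -/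
theorem hbsL (L : ℕ) {ε : ℝ} (hε : 0 < ε) (A : ℝ) :
    ∃ C : ℝ, 0 ≤ C ∧ ∀ X : ℝ, 1 ≤ X → ∀ {K N : ℝ}, 1 ≤ K → K ≤ X → N ≤ X →
      ∀ {h : ℝ → ℝ} {R : ℝ}, (∀ u, cx h u ≠ 0 → |u| ≤ R) → (∀ u, ‖cx h u‖ ≤ A) →
      ∀ {ps : List Pc}, ps.length ≤ L → (∀ p ∈ ps, p.OK) →
      (ps.map fun p => p.Y * Real.exp R).prod ≤ N → ∀ q : Eis,
      ∑ k ∈ bl K, ‖CS (sqc q (alL h ps)) k‖ ^ 2 ≤
        C * X ^ ε * ((K + K ^ (1 / 3 : ℝ) * N + (K * N) ^ (2 / 3 : ℝ)) * N) := by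
  classical
  choose C hC key using fun n : ℕ => hbs (Fin n) hε A
  refine ⟨∑ n ∈ range (L + 1), C n, Finset.sum_nonneg fun n _ => hC n, ?_⟩
  intro X hX K N hK hKX hNX h R hR hA ps hL hps hN q
  have hX0 : (0 : ℝ) < X := by linarith
  have hs : ∀ i : Fin ps.length, (ps.get i).OK := fun i => hps _ (List.get_mem ps i)
  have hN' : ∏ i : Fin ps.length, ((ps.get i).Y * Real.exp R) ≤ N := by
    rw [prod_get fun p => p.Y * Real.exp R]; exact hN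
  have hNp : 0 < N := lt_of_lt_of_le (Finset.prod_pos fun i _ =>
    mul_pos (hs i).Y0 (Real.exp_pos _)) hN'
  have h1 := key ps.length X hX hK hKX hNX hR hA hs hN' q
  have e1 : alL h ps = al h (fun i : Fin ps.length => ps.get i) := HP842.alL_eq h ps
  rw [e1]
  refine h1.trans ?_
  have h2 : C ps.length ≤ ∑ n ∈ range (L + 1), C n :=
    Finset.single_le_sum (f := C) (fun n _ => hC n) (Finset.mem_range.2 (by omega))
  have hKn : (0 : ℝ) ≤ K ^ (1 / 3 : ℝ) := Real.rpow_nonneg (by linarith) _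
  have hKNn : (0 : ℝ) ≤ (K * N) ^ (2 / 3 : ℝ) := Real.rpow_nonneg (by positivity) _
  refine mul_le_mul_of_nonneg_right (mul_le_mul_of_nonneg_right h2 (by positivity)) ?_
  positivity

/-- short lists: `N² ≤ ρ K` -/
theorem hbsL_short (L : ℕ) {ε : ℝ} (hε : 0 < ε) (A : ℝ) :
    ∃ C : ℝ, 0 ≤ C ∧ ∀ X : ℝ, 1 ≤ X → ∀ {K N ρ : ℝ}, 1 ≤ K → K ≤ X → N ≤ X → 1 ≤ ρ →
      N ^ 2 ≤ ρ * K →
      ∀ {h : ℝ → ℝ} {R : ℝ}, (∀ u, cx h u ≠ 0 → |u| ≤ R) → (∀ u, ‖cx h u‖ ≤ A) →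
      ∀ {ps : List Pc}, ps.length ≤ L → (∀ p ∈ ps, p.OK) →
      (ps.map fun p => p.Y * Real.exp R).prod ≤ N → ∀ q : Eis,
      ∑ k ∈ bl K, ‖CS (sqc q (alL h ps)) k‖ ^ 2 ≤ C * X ^ ε * (ρ * K * N) := by
  obtain ⟨C, hC, key⟩ := hbsL L hε A
  refine ⟨3 * C, by positivity, ?_⟩
  intro X hX K N ρ hK hKX hNX hρ hNK h R hR hA ps hL hps hN q
  have hX0 : (0 : ℝ) < X := by linarith
  have hs : ∀ i : Fin ps.length, (ps.get i).OK := fun i => hps _ (List.get_mem ps i)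
  have hN' : ∏ i : Fin ps.length, ((ps.get i).Y * Real.exp R) ≤ N := by
    rw [prod_get fun p => p.Y * Real.exp R]; exact hN
  have hNp : 0 < N := lt_of_lt_of_le (Finset.prod_pos fun i _ =>
    mul_pos (hs i).Y0 (Real.exp_pos _)) hN'
  refine (key X hX hK hKX hNX hR hA hL hps hN q).trans ?_
  have h1 := mul_le_mul_of_nonneg_right (q_le hK hNp.le hρ hNK) hNp.le
  calc C * X ^ ε * ((K + K ^ (1 / 3 : ℝ) * N + (K * N) ^ (2 / 3 : ℝ)) * N)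
      ≤ C * X ^ ε * (3 * (ρ * K) * N) := mul_le_mul_of_nonneg_left h1 (by positivity)
    _ = _ := by ring

end Crest.Agent.R017.HBs445
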