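import Crest.Agent.R017.TPXa_791
import Crest.Agent.R017.HBs_445

/-!
# Row 17, exceptional class (helper791): `CoreB` of a single list from its claims

* `Md_triv` : the trivial bound of the bias of a list
* **`coreB_sb`** : `CoreB` at one list from the claims `VK Dk` (404's `coreB_xd` at `ζ = 0`)
-/

set_option autoImplicit false
set_option linter.unusedSectionVars false

noncomputable section

open Finset
open scoped ComplexConjugate

namespace Crest.Agent.R017.CR791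

open Crest.Agent.R012 Crest.Agent.R012.Eis
open Crest.Agent.R012.Div277 (tau tau_le_rpow)
open Crest.Agent.R012.LS2 (S mem_S)
open Crest.Agent.R017.HP842 (Pc pc al sqc)
open Crest.Agent.R017.FE47 (PU cx)
open Crest.Agent.R017.Rough381 (sh shS sh_OK nm_prodI)
open Crest.Agent.R017.StA828 Crest.Agent.R017.StC828 Crest.Agent.R017.StF828
open Crest.Agent.R017.StB828 (one_le_nmR)
open Crest.Agent.R017.GrC828 Crest.Agent.R017.GrT828
open Crest.Agent.R017.LegK545 (VK)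
open Crest.Agent.R017.PX764 (Dk md n6)
open Crest.Agent.R017.RX241 (Md)
open Crest.Agent.R017.Prov71 (CubeFree)
open Crest.Agent.R017.GrG404 Crest.Agent.R017.GrK404

set_option maxHeartbeats 1000000 in
/-- **the trivial bound of the bias of a list** -/
theorem Md_triv {h : ℝ → ℝ} {c₀ : ℝ} (hpu : PU h c₀) {R : ℝ} (hR0 : 0 ≤ R)
    (hR : ∀ u, cx h u ≠ 0 → |u| ≤ R) (N : ℕ) {B : ℝ} (hB : 0 ≤ B) {ε : ℝ} (hε : 0 < ε) :
    ∃ C : ℝ, 1 ≤ C ∧ ∀ X : ℝ, 3 ≤ X → ∀ (ι : Type) [Fintype ι] [DecidableEq ι],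
      Fintype.card ι ≤ N → ∀ s : ι → Pc, (∀ i, (s i).OK) → LY s ≤ B * Real.log X →
      ∀ q j : Eis, ‖Md (sqc q (al h s)) j‖ ^ 2 ≤ C * X ^ ε * Real.exp (5 / 3 * LY s) := by
  classical
  obtain ⟨A, hA⟩ : ∃ A, ∀ u, ‖cx h u‖ ≤ A := by
    have hc : Continuous fun u => cx h u := Complex.continuous_ofReal.comp hpu.cd.continuous
    have hcs : HasCompactSupport fun u => cx h u := by
      refine hpu.cs.mono fun u hu => ?_
      rw [Function.mem_support] at hu ⊢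
      intro h0
      exact hu (by unfold FE47.cx; rw [h0]; simp)
    obtain ⟨A, hA⟩ := hc.bounded_above_of_compact_support hcs
    exact ⟨A, hA⟩
  have hA0 : 0 ≤ A := (norm_nonneg _).trans (hA 0)
  set A₁ : ℝ := A + 1 with hA1
  have hA11 : 1 ≤ A₁ := by linarith
  have hN0 : (0 : ℝ) ≤ N := Nat.cast_nonneg N
  set δ := ε / (2 * ((N + 1) * (B + N * R + 1))) with hδ
  have hδ0 : 0 < δ := by positivity
  obtain ⟨C₂, hC₂, hτ⟩ := tau_le_rpow hδ0
  have hC20 : 0 ≤ C₂ := by linarith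
  set E : ℝ := Real.exp (2 * (N * R)) with hE
  have hE1 : 1 ≤ E := Real.one_le_exp (by positivity)
  refine ⟨(16 * E * (C₂ ^ N * A₁ ^ N)) ^ 2, one_le_pow₀ (one_le_mul_of_one_le_of_one_le
    (by linarith) (one_le_mul_of_one_le_of_one_le (one_le_pow₀ hC₂) (one_le_pow₀ hA11))), ?_⟩
  intro X hX ι _ _ hcard s hs hL q j
  have hX1 : (1 : ℝ) ≤ X := by linarith
  have hX0 : (0 : ℝ) < X := by linarith
  have hlX : 0 ≤ Real.log X := Real.log_nonneg hX1
  have hlX1 : 1 ≤ Real.log X := by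
    rw [Real.le_log_iff_exp_le hX0]
    have := Real.exp_one_lt_d9
    linarith
  have hNR : 0 ≤ (N : ℝ) * R := by positivity
  have hcR : (Fintype.card ι : ℝ) * R ≤ N * R :=
    mul_le_mul_of_nonneg_right (by exact_mod_cast hcard) hR0
  set w := sqc q (al h s) with hw
  set Y : ℝ := Real.exp (LY s + N * R) with hY
  have hwin : ∀ n, w n ≠ 0 → IsPrim n ∧ (nm n : ℝ) ≤ Y ∧
      Real.exp (LY s - N * R) ≤ nm n := by
    intro n hn
    obtain ⟨h1, h2, h3⟩ := al_win hR hs hn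
    have h4 : (0 : ℝ) < nm n := by exact_mod_cast nm_pos.2 h1.ne_zero
    have h5 := abs_le.1 (h3.trans hcR)
    refine ⟨h1, ?_, ?_⟩
    · rw [hY, ← Real.log_le_iff_le_exp h4]; linarith
    · rw [← Real.le_log_iff_exp_le h4]; linarith
  have hYX : Y ≤ X ^ (B + N * R + 1) := by
    rw [hY, Real.rpow_def_of_pos hX0]
    refine Real.exp_le_exp.2 ?_
    nlinarith
  have hτX : ∀ n : Eis, n ≠ 0 → (nm n : ℝ) ≤ Y → (tau n : ℝ) ^ N ≤ C₂ ^ N * X ^ (ε / 2) := by
    intro n hn hnY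
    have h1 : (tau n : ℝ) ≤ C₂ * X ^ ((B + N * R + 1) * δ) := by
      refine (hτ n hn).trans (mul_le_mul_of_nonneg_left ?_ hC20)
      rw [Real.rpow_mul hX0.le]
      exact Real.rpow_le_rpow (Nat.cast_nonneg _) (hnY.trans hYX) hδ0.le
    refine (pow_le_pow_left₀ (Nat.cast_nonneg _) h1 N).trans ?_
    rw [mul_pow, ← Real.rpow_natCast (X ^ ((B + N * R + 1) * δ)), ← Real.rpow_mul hX0.le]
    refine mul_le_mul_of_nonneg_left (Real.rpow_le_rpow_of_exponent_le hX1 ?_) (by positivity)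
    have e1 : δ * (2 * ((N + 1) * (B + N * R + 1))) = ε := by rw [hδ]; field_simp
    have h2 : 0 ≤ (B + N * R + 1) * δ := by positivity
    nlinarith
  have hwn : ∀ n, ‖w n‖ ≤ C₂ ^ N * A₁ ^ N * X ^ (ε / 2) := by
    intro n
    by_cases h0 : w n = 0
    · rw [h0, norm_zero]; positivity
    obtain ⟨h1, h2, h3⟩ := hwin n h0
    have h4 : ‖w n‖ ≤ ‖al h s n‖ := HBs445.norm_sqc_le _ _ _
    have h5 := HBs445.norm_al_le hA hs n
    have hτ1 : (1 : ℝ) ≤ tau n := by exact_mod_cast Div277.one_le_tau h1.ne_zero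
    have h6 : (tau n : ℝ) ^ Fintype.card ι ≤ (tau n : ℝ) ^ N := pow_le_pow_right₀ hτ1 hcard
    have h7 : A ^ Fintype.card ι ≤ A₁ ^ N := (pow_le_pow_left₀ hA0 (by linarith) _).trans
      (pow_le_pow_right₀ hA11 hcard)
    calc ‖w n‖ ≤ (tau n : ℝ) ^ Fintype.card ι * A ^ Fintype.card ι := h4.trans h5
      _ ≤ (C₂ ^ N * X ^ (ε / 2)) * A₁ ^ N :=
          mul_le_mul (h6.trans (hτX n h1.ne_zero h2)) h7 (by positivity) (by positivity)
      _ = _ := by ring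
  -- the sum
  by_cases hY1 : 1 ≤ Y
  swap
  · have hz : ∀ n, w n = 0 := by
      intro n
      by_contra h0
      obtain ⟨h1, h2, -⟩ := hwin n h0
      have h3 : (1 : ℝ) ≤ nm n := by exact_mod_cast nm_pos.2 h1.ne_zero
      exact hY1 (h3.trans h2)
    have : Md w j = 0 := by
      unfold RX241.Md
      simp [hz]
    rw [this, norm_zero, zero_pow two_ne_zero]
    positivity
  have hY0 : 0 ≤ Y := by linarith
  have hsum : Md w j = ∑ n ∈ S Y, w n * (md j n : ℂ) := by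
    unfold RX241.Md
    refine tsum_eq_sum fun n hn => ?_
    have : w n = 0 := by
      by_contra h0
      obtain ⟨h1, h2, -⟩ := hwin n h0
      have hsq : Squarefree n := (HBs445.sqc_ne h0).1
      exact hn ((mem_S hY0).2 ⟨h2, h1, hsq⟩)
    rw [this, zero_mul]
  have hterm : ∀ n ∈ S Y, ‖w n * (md j n : ℂ)‖ ≤
      C₂ ^ N * A₁ ^ N * X ^ (ε / 2) * Real.exp (-(1 / 6) * (LY s - N * R)) := by
    intro n _
    by_cases h0 : w n = 0
    · rw [h0, zero_mul, norm_zero]; positivity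
    obtain ⟨h1, h2, h3⟩ := hwin n h0
    have hn0 : (0 : ℝ) < nm n := by exact_mod_cast nm_pos.2 h1.ne_zero
    rw [norm_mul]
    refine mul_le_mul (hwn n) ?_ (norm_nonneg _) (by positivity)
    rw [Complex.norm_real, Real.norm_eq_abs, abs_of_nonneg (PX764.md_nonneg h1.ne_zero)]
    unfold PX764.md
    split_ifs
    · unfold PX764.n6
      rw [Real.rpow_def_of_pos hn0]
      refine Real.exp_le_exp.2 ?_
      have h5 := (Real.le_log_iff_exp_le hn0).2 h3
      linarith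
    · positivity
  have hMd : ‖Md w j‖ ≤ 16 * Y * (C₂ ^ N * A₁ ^ N * X ^ (ε / 2) *
      Real.exp (-(1 / 6) * (LY s - N * R))) := by
    rw [hsum]
    refine (norm_sum_le _ _).trans ((sum_le_sum hterm).trans ?_)
    rw [sum_const, nsmul_eq_mul]
    exact mul_le_mul_of_nonneg_right (GLS106.card_S_le hY1) (by positivity)
  have hexp : Y * Real.exp (-(1 / 6) * (LY s - N * R)) ≤ E * Real.exp (5 / 6 * LY s) := by
    rw [hY, hE, ← Real.exp_add, ← Real.exp_add]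
    refine Real.exp_le_exp.2 ?_
    linarith
  have h6 : ‖Md w j‖ ≤ 16 * E * (C₂ ^ N * A₁ ^ N) * (X ^ (ε / 2) * Real.exp (5 / 6 * LY s)) := by
    refine hMd.trans ?_
    calc 16 * Y * (C₂ ^ N * A₁ ^ N * X ^ (ε / 2) * Real.exp (-(1 / 6) * (LY s - N * R)))
        = 16 * (C₂ ^ N * A₁ ^ N * X ^ (ε / 2)) * (Y * Real.exp (-(1 / 6) * (LY s - N * R))) := by
          ring
      _ ≤ 16 * (C₂ ^ N * A₁ ^ N * X ^ (ε / 2)) * (E * Real.exp (5 / 6 * LY s)) := by gcongr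
      _ = _ := by ring
  refine (pow_le_pow_left₀ (norm_nonneg _) h6 2).trans (le_of_eq ?_)
  have e1 : (X ^ (ε / 2)) ^ 2 = X ^ ε := by
    rw [← Real.rpow_natCast, ← Real.rpow_mul hX0.le]; congr 1; push_cast; ring
  have e2 : (Real.exp (5 / 6 * LY s)) ^ 2 = Real.exp (5 / 3 * LY s) := by
    rw [← Real.exp_nat_mul]; congr 1; push_cast; ring
  rw [mul_pow, mul_pow (X ^ (ε / 2)), e1, e2]
  ring


set_option maxHeartbeats 1000000 in
/-- **`CoreB` at a single list from its claims** -/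
theorem coreB_sb {h : ℝ → ℝ} {c₀ : ℝ} (hpu : PU h c₀) {R : ℝ}
    (hR0 : 0 ≤ R) (hR : ∀ u, cx h u ≠ 0 → |u| ≤ R) (N : ℕ) {B₀ : ℝ} (hB₀ : 0 ≤ B₀) {ε : ℝ}
    (hε : 0 < ε) {M : ℝ} (hM : 0 ≤ M) {J : ℝ} (hJ : (N : ℝ) * M ≤ J) :
    ∃ C r : ℝ, 1 ≤ C ∧ 0 ≤ r ∧ ∀ X : ℝ, 3 ≤ X →
    ∀ (ι κ : Type) [Fintype ι] [Fintype κ] [DecidableEq ι] [DecidableEq κ],
    Fintype.card ι + Fintype.card κ ≤ N → ∀ (s1 : ι → Pc) (s2 : κ → Pc),
    (∀ i, (s1 i).OK) → (∀ j, (s2 j).OK) →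
    (∀ i, Real.log (s1 i).Y ≤ Real.log X) → (∀ j, Real.log (s2 j).Y ≤ Real.log X) →
    ∀ Z : ℝ, 0 ≤ Z → (∀ n, sqc 1 (al h s1) n ≠ 0 → (nm n : ℝ) ≤ Z) →
    ∀ (E0 : ℝ) (c : Fin 5) (s : ℝ) (g D : Eis),
    IsPrim g → IsPrim D → (nm g : ℝ) ≤ X ^ B₀ → (nm D : ℝ) ≤ X ^ B₀ →
    ∀ (b k : ℝ), 0 ≤ b → b ≤ B₀ * Real.log X → 0 ≤ k → k ≤ B₀ * Real.log X →
    ∀ Bd : ℝ, 0 ≤ Bd →
    (∀ (l : ℝ) (s' : ι ⊕ κ → Pc), 0 ≤ l → ChF r s' (Sum.elim s1 s2) →
      |LY s' - (LY s1 + LY s2 - Real.log (nm g) - Real.log (nm D * nm (cc g D)) - b)| ≤ r →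
      |l - (k + b)| ≤ r →
      LY s1 - Real.log (nm g) - min (y5 Z g c) (Real.log (nm D)) - b - r ≤
        LY (fun i => s' (.inl i)) →
      VK Dk (Real.exp l) (sqc (D * cc g D) (al h s')) ≤ Bd * cF s' (Sum.elim s1 s2) ^ M) →
    CoreB (fun e => Ae Z E0 (sqc 1 (al h s1)) (sqc 1 (al h s2)) g c s e D) (cc g D) b k J
      (C * X ^ ε * (1 + |s|) ^ J * (Bd + Real.exp (2 / 3 * (k + b)) *
        Real.exp (5 / 3 * (LY s1 + LY s2 - Real.log (nm g) -
          Real.log (nm D * nm (cc g D)) - b)))) := by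
  have hN0 : (0 : ℝ) ≤ N := Nat.cast_nonneg N
  have hJ0 : 0 ≤ J := le_trans (by positivity) hJ
  obtain ⟨C₁, r, hC₁, hr, H⟩ := TPX791.coreB_xd2 hpu hR0 hR N hB₀ (ε := ε / 2) (by linarith) hM hJ
  obtain ⟨C₂, hC₂, H₂⟩ := Md_triv hpu hR0 hR N (B := (N : ℝ)) hN0 (ε := ε / 2) (by linarith)
  have hC10 : 0 ≤ C₁ := by linarith
  have hC20 : 0 ≤ C₂ := by linarith
  set K : ℝ := Real.exp 2 with hK
  have hK1 : 1 ≤ K := Real.one_le_exp (by norm_num)
  refine ⟨2 * C₁ * (C₂ * K), r, ?_, hr, ?_⟩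
  · have := one_le_mul_of_one_le_of_one_le hC₁ (one_le_mul_of_one_le_of_one_le hC₂ hK1)
    nlinarith
  intro X hX ι κ _ _ _ _ hcard s1 s2 h1 h2 h1X h2X Z hZ hsup E0 c s g D hg hD hgX hDX b k hb hbX
    hk hkX Bd hBd hyp
  have hX1 : (1 : ℝ) ≤ X := by linarith
  have hX0 : (0 : ℝ) < X := by linarith
  have hlX : 0 ≤ Real.log X := Real.log_nonneg hX1
  have hs1 : (1 : ℝ) ≤ 1 + |s| := by linarith [abs_nonneg s]
  have hsJ1 : 1 ≤ (1 + |s|) ^ J := Real.one_le_rpow hs1 hJ0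
  have hcp : IsPrim (cc g D) := cc_prim hg
  have hcc1 : (1 : ℝ) ≤ nm (cc g D) := one_le_nmR hcp
  have hD1 : (1 : ℝ) ≤ nm D := one_le_nmR hD
  set lam : ℝ := Real.log (nm D * nm (cc g D)) with hlam
  set Ex : ℝ := Real.exp (5 / 3 * (LY s1 + LY s2 - Real.log (nm g) - lam - b)) with hEx
  have hEx0 : 0 ≤ Ex := (Real.exp_pos _).le
  have hXe1 : 1 ≤ X ^ (ε / 2) := Real.one_le_rpow hX1 (by linarith)
  have hXe0 : 0 ≤ X ^ (ε / 2) := by linarith
  have hK0 : 0 ≤ K := by linarith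
  set Eb : ℝ := C₂ * K * X ^ (ε / 2) * Ex with hEb
  have hEb0 : 0 ≤ Eb := by positivity
  have main := H X hX ι κ hcard s1 s2 s2 h1 h2 h2 (fun _ => ⟨rfl, rfl, rfl⟩) h1X h2X h2X Z hZ hsup
    0 (by simp) (sqc 1 (al h s2)) (fun n => by ring) E0 c s g D hg hD hgX hDX b k hb hbX hk hkX
    Bd Bd Eb hBd hBd hEb0 hyp hyp
    (fun U hU hUb hsq a ha hap hdv j hj hjk hjc θ τ hθ => by
      have hU0 : (0 : ℝ) < nm U := by exact_mod_cast nm_pos.2 hU.ne_zero
      have hUb' := abs_le.1 hUb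
      set S' : ι ⊕ κ → Pc := shS (fun i => ht τ (fam θ s1 s2 i)) a with hS'
      have hSok : ∀ i, (S' i).OK := fun i => sh_OK (ht_OK (fam_OK h1 h2 i)) (ha i)
      have hapos : ∀ i, (0 : ℝ) < nm (a i) := fun i => by
        exact_mod_cast nm_pos.2 (ha i).ne_zero
      have ha1 : ∀ i, (1 : ℝ) ≤ nm (a i) := fun i => by exact_mod_cast nm_pos.2 (ha i).ne_zero
      have hlogS : ∀ i, Real.log (S' i).Y =
          Real.log (fam θ s1 s2 i).Y - Real.log (nm (a i)) := fun i => by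
        show Real.log ((fam θ s1 s2 i).Y / nm (a i)) = _
        rw [Real.log_div (fam_OK h1 h2 i).Y0.ne' (hapos i).ne']
      have hFX : ∀ i, Real.log (fam θ s1 s2 i).Y ≤ Real.log X := by
        rintro (i | i)
        · exact h1X i
        · exact h2X i
      have hsumv : ∑ i, Real.log (nm (a i)) = Real.log (nm (∏ i, a i)) := by
        rw [nm_prodI]
        push_cast
        rw [Real.log_prod fun i _ => (hapos i).ne']
      have hLS : LY S' = LY s1 + LY s2 - Real.log (nm (∏ i, a i)) := by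
        show ∑ i, Real.log (S' i).Y = _
        have hLYF : ∑ i, Real.log (fam θ s1 s2 i).Y = LY s1 + LY s2 := LY_fam (τ := 0)
        rw [Finset.sum_congr rfl fun i _ => hlogS i, Finset.sum_sub_distrib, hLYF, hsumv]
      have hLSX : LY S' ≤ N * Real.log X := by
        show ∑ i, Real.log (S' i).Y ≤ _
        refine (Finset.sum_le_card_nsmul _ _ (Real.log X) fun i _ => ?_).trans ?_
        · rw [hlogS i]
          linarith [hFX i, Real.log_nonneg (ha1 i)]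
        · rw [nsmul_eq_mul, Finset.card_univ, Fintype.card_sum]
          refine mul_le_mul_of_nonneg_right ?_ hlX
          exact_mod_cast hcard
      have h5 := H₂ X hX (ι ⊕ κ) (by rw [Fintype.card_sum]; exact hcard) S' hSok hLSX
        (D * (cc g D * U)) (j * (cc g D * U))
      have e0 : cdf h 0 τ θ s1 s2 s2 (D * (cc g D * U)) a =
          sqc (D * (cc g D * U)) (al h S') := by
        funext n
        unfold cdf
        rw [zero_mul, sub_zero]
      rw [e0]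
      have hlq : Real.log (nm (∏ i, a i) : ℝ) = Real.log (nm g) + (lam + Real.log (nm U)) := by
        have hg0 : (0 : ℝ) < nm g := by exact_mod_cast nm_pos.2 hg.ne_zero
        rw [hap, nm_mul, nm_mul, nm_mul]
        push_cast
        have e5 : (nm g : ℝ) * (nm D * (nm (cc g D) * nm U)) =
            nm g * (nm D * nm (cc g D) * nm U) := by ring
        rw [e5, Real.log_mul hg0.ne' (by positivity), Real.log_mul (by positivity) hU0.ne']
      have h6 : Real.exp (5 / 3 * LY S') ≤ K * Ex := by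
        rw [hLS, hlq, hK, hEx, ← Real.exp_add]
        refine Real.exp_le_exp.2 ?_
        linarith [hUb'.1]
      have hτ1 : 1 ≤ (1 + |τ|) ^ J := Real.one_le_rpow (by linarith [abs_nonneg τ]) hJ0
      calc _ ≤ C₂ * X ^ (ε / 2) * Real.exp (5 / 3 * LY S') := h5
        _ ≤ C₂ * X ^ (ε / 2) * (K * Ex) := by gcongr
        _ = Eb * 1 * 1 := by rw [hEb]; ring
        _ ≤ Eb * (1 + |s|) ^ J * (1 + |τ|) ^ J := by gcongr)
  refine main.mono ?_
  have hXe : X ^ ε = X ^ (ε / 2) * X ^ (ε / 2) := by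
    rw [← Real.rpow_add hX0]; congr 1; ring
  set F := Real.exp (2 / 3 * (k + b)) with hF
  have hF0 : 0 ≤ F := (Real.exp_pos _).le
  have q2 : 1 ≤ C₂ * K * X ^ (ε / 2) := one_le_mul_of_one_le_of_one_le
    (one_le_mul_of_one_le_of_one_le hC₂ hK1) hXe1
  have hsJ0 : 0 ≤ (1 + |s|) ^ J := by linarith
  have p1 : Bd + Bd + F * Eb ≤ 2 * (C₂ * K * X ^ (ε / 2)) * (Bd + F * Ex) := by
    have e1 : F * Eb = C₂ * K * X ^ (ε / 2) * (F * Ex) := by rw [hEb]; ring
    have e2 : Bd ≤ C₂ * K * X ^ (ε / 2) * Bd := le_mul_of_one_le_left hBd q2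
    have e3 : 0 ≤ C₂ * K * X ^ (ε / 2) * (F * Ex) := by positivity
    rw [e1]
    linarith
  calc C₁ * X ^ (ε / 2) * (1 + |s|) ^ J * (Bd + Bd + F * Eb) ≤
        C₁ * X ^ (ε / 2) * (1 + |s|) ^ J * (2 * (C₂ * K * X ^ (ε / 2)) * (Bd + F * Ex)) := by
        gcongr
    _ = _ := by
        rw [hXe]
        ring

end Crest.Agent.R017.CR791
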