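import Crest.Agent.R017.CRD_791
import Crest.Agent.R017.CRb_791

/-!
# Row 17, exceptional class (helper791): the core of the mismatch of the single lists

* **`core_S`** : 72's `CoreG` at `okS`, `αS`, `FrS`
-/

set_option autoImplicit false
set_option linter.unusedSectionVars false

noncomputable section

open Finset
open scoped ComplexConjugate

namespace Crest.Agent.R017.CR791

open Crest.Agent.R012 Crest.Agent.R012.Eis
open Crest.Agent.R012.LS2 (S mem_S)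
open Crest.Agent.R017.ER911
open Crest.Agent.R017.HP842 (Pc pc al alL sqc)
open Crest.Agent.R017.B770 Crest.Agent.R017.Prov71
open Crest.Agent.R017.FE47 (PU cx SM)
open Crest.Agent.R017.TM708 Crest.Agent.R017.TK708
open Crest.Agent.R017.End699 (prin0)
open Crest.Agent.R017.E5B71 (Pt cκ cN cx')
open Crest.Agent.R017.I1146 (tw3 LN)
open Crest.Agent.R017.Sup271 (NPm)
open Crest.Agent.R017.ExT764 (Shf shY zeP)
open Crest.Agent.R017.P1X960 (xD rzD cmb dz okCX okD BmX)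
open Crest.Agent.R017.FEx436 (ClG)
open Crest.Agent.R017.ExP960 (oc norm_oc IX5 prX ZR)
open Crest.Agent.R017.GrC828 (LY)
open Crest.Agent.R017.XS0298 (S0K)
open Crest.Agent.R017.PX764 (Dk)
open Crest.Agent.R017.GrG404 (Ae y5)
open Crest.Agent.R017.GrK404 (CoreB)
open Crest.Agent.R017.P1MU960
open Crest.Agent.R017.P1yX72
open Crest.Agent.R017.P1v54 (ηC)

variable {Λ : Type*} {π : Λ → DPar} {h : ℝ → ℝ}

set_option maxHeartbeats 2000000 in
/-- **the core of the mismatch of the single lists** -/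
theorem core_S {c₀ : ℝ} (hpu : PU h c₀) (hP : ∀ lam, (π lam).OK)
    {Rh : ℝ} (hR0 : 0 ≤ Rh)
    (hR : ∀ u, cx h u ≠ 0 → |u| ≤ Rh) {s₁ : EF} {dA : ℝ} {D5 : Set (Fin 5 → ℝ)}
    {Kf Tf ℓ : (Fin 5 → ℝ) → ℝ}
    (h0 : ExpS0 s₁ (ex Dq fun lam => S0K Dk (π lam) h))
    (hA : AllT dA (ex Dq fun lam => S0K Dk (π lam) h))
    (hKf : Continuous Kf) (hTf : Continuous Tf) (hD : IsCompact D5)
    (hD4 : ∀ b ∈ D5, 0 ≤ b 4) (hℓ : Continuous ℓ)
    (Hc : ClG (ex Dq fun lam => S0K Dk (π lam) h) D5 Tf fun b v z₁ z₂ z₃ w =>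
      eH (FEx436.kV (Kf b) v (z₁ + z₂ + z₃ + w)) v (z₁ + z₂ + z₃ + w) + ℓ b)
    {e0 c β : ℝ} {Par : Set (Fin 3 ⊕ Fin 5 → ℝ)}
    (hDN : ∀ p : IX5 → ℝ, prX p ∈ Par → ZR β p → bNx p ∈ D5)
    (hDR : ∀ p : IX5 → ℝ, prX p ∈ Par → ZR β p → bRx p ∈ D5) :
    CoreG π h e0 c (okS π) (αS π h) (FrS β) β Par Kf Tf ℓ dA fun _ => 0 := by
  intro ε hε
  obtain ⟨σ, hσ, G⟩ := FEx436.clm_VK (Kn := Dk) (π := π) (wd_E hpu hP) h0 hA hKf hTf hD hD4 hℓ Hc
    (show 0 < ε / 4 by linarith)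
  refine ⟨min (σ / 2) (1 / 100), lt_min (by linarith) (by norm_num), ?_⟩
  intro lam N B hB B₀ hB₀
  set τ := min (σ / 2) (1 / 100) with hτ
  have hτ1 : τ ≤ σ / 2 := min_le_left _ _
  have hτ2 : τ ≤ 1 / 100 := min_le_right _ _
  set B' : ℝ := B + B₀ + 2 with hB'
  have hB'0 : 0 ≤ B' := by positivity
  obtain ⟨M, G⟩ := G lam.1 N B'
  set J : ℕ := 12 + (N + 3) * M with hJ
  have hJ1 : (((N + 3 : ℕ) : ℝ)) * (M : ℝ) ≤ (J : ℝ) := by
    rw [hJ]; push_cast; nlinarith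
  have hJ2 : (12 : ℝ) ≤ (J : ℝ) := by
    rw [hJ]; push_cast; nlinarith [Nat.cast_nonneg (α := ℝ) N, Nat.cast_nonneg (α := ℝ) M,
      mul_nonneg (Nat.cast_nonneg (α := ℝ) N) (Nat.cast_nonneg (α := ℝ) M)]
  obtain ⟨C, r, hC, hr, K⟩ := coreB_sb hpu hR0 hR (N + 3) (B₀ := B') hB'0 (ε := ε / 8)
    (by linarith) (M := (M : ℝ)) (Nat.cast_nonneg M) (J := (J : ℝ)) hJ1
  obtain ⟨X₁, hX₁, G⟩ := G r hr
  have hC0 : 0 ≤ C := by linarith
  set lt : ℝ := 2 * Real.log (nm lam.2) with hlt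
  have hlt0 : 0 ≤ lt := by
    have := Real.log_natCast_nonneg (nm lam.2)
    positivity
  set CC : ℝ := (I1146.ds lam.2).card * (C * (2 + Real.exp (2 / 3 * lt))) + 1 with hCC
  have hCC1 : 1 ≤ CC := by
    have : 0 ≤ ((I1146.ds lam.2).card : ℝ) * (C * (2 + Real.exp (2 / 3 * lt))) := by positivity
    linarith
  have hlCC : 0 ≤ Real.log CC := Real.log_nonneg hCC1
  set Q : ℝ := 2 + (2 * r + lt) * (2 / σ) + lt + Real.log (nm (π lam.1).n) + Real.log CC * (2 / ε)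
    with hQ
  have hln : 0 ≤ Real.log (nm (π lam.1).n) := Real.log_natCast_nonneg _
  have hq1 : 0 ≤ (2 * r + lt) * (2 / σ) := by positivity
  have hq2 : 0 ≤ Real.log CC * (2 / ε) := by positivity
  refine ⟨J, M + 12, (N + 1) * r + lt, by positivity, max X₁ (Real.exp Q),
    hX₁.trans_le (le_max_left _ _), ?_⟩
  intro X hX H hH p hp a qs c5 i b s Hy D hDp hDX b' k hb' hb'X hk hkX hlev V hV hbias
  obtain ⟨hfr, hfx, hok, hgp, hgs, hζ0, hsup, hgS, -, -⟩ := Hy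
  have hXX₁ : X₁ ≤ X := (le_max_left _ _).trans hX
  have hXQ : Real.exp Q ≤ X := (le_max_right _ _).trans hX
  have hX1 : 1 < X := hX₁.trans_le hXX₁
  have hX0 : 0 < X := by linarith
  have hX3 : 3 ≤ X := hfr.X3
  set L := Real.log X with hL
  have hL0 : 0 < L := hfr.L
  have hQL : Q ≤ L := (Real.le_log_iff_exp_le hX0).2 hXQ
  have hQ1 : (2 * r + lt) ≤ σ / 2 * L := by
    have h1 : (2 * r + lt) * (2 / σ) ≤ L := by linarith
    have h2 := mul_le_mul_of_nonneg_left h1 (show 0 ≤ σ / 2 by linarith)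
    have h3 : σ / 2 * ((2 * r + lt) * (2 / σ)) = 2 * r + lt := by field_simp
    linarith
  have hQ2 : lt ≤ L := by linarith
  have hQ3 : Real.log (nm (π lam.1).n) ≤ L := by linarith
  have hQ4 : CC ≤ X ^ (ε / 2) := by
    rw [Real.rpow_def_of_pos hX0, ← Real.exp_log (show 0 < CC by linarith)]
    refine Real.exp_le_exp.2 ?_
    have h1 : Real.log CC * (2 / ε) ≤ L := by linarith
    have h2 := mul_le_mul_of_nonneg_right h1 (show 0 ≤ ε / 2 by linarith)
    have h3 : Real.log CC * (2 / ε) * (ε / 2) = Real.log CC := by field_simp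
    linarith
  -- the data
  have htS : lam.2 ∈ SM (π lam.1).n := hok.2.1
  have ht0 : lam.2 ≠ 0 := htS.1
  set P := π lam.1 with hPd
  have hPok : P.OK := hP lam.1
  set vs := a.1.2.1 with hvs
  set g := a.2.1 with hg
  set s1 : Fin qs.length → Pc := fun i => Pt P 1 (qs.get i) with hs1
  set s2 : Fin 3 → Pc := fun j => Pt P 1 (vs j) with hs2
  obtain ⟨bb, hbb, hpd⟩ : ∃ bb : Fin 5 → ℝ, (bb = bNx p ∨ bb = bRx p) ∧
      PD X τ B H N bb 1 vs qs a.1.1.l := by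
    rcases hfx.pd with h1 | h1
    · exact ⟨_, Or.inl rfl, h1⟩
    · exact ⟨_, Or.inr rfl, h1⟩
  have hbbD : bb ∈ D5 := by
    rcases hbb with h1 | h1
    · rw [h1]; exact hDN p hp hfr.zr
    · rw [h1]; exact hDR p hp hfr.zr
  have pdN' := PD_B hX1.le (show B ≤ B' by linarith) (PD_mono hL0.le hpd hτ1)
  have hofn : List.ofFn (fun i => qs.get i) = qs := List.ofFn_get qs
  have hlen : qs.length ≤ N := hpd.len
  have hcard : Fintype.card (Fin qs.length) + Fintype.card (Fin 3) ≤ N + 3 := by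
    rw [Fintype.card_fin, Fintype.card_fin]; omega
  -- sizes
  have hX2 : 3 ≤ X ^ (2 : ℝ) := by
    have h1 : X ^ (1 : ℝ) ≤ X ^ (2 : ℝ) := Real.rpow_le_rpow_of_exponent_le hX1.le (by norm_num)
    rw [Real.rpow_one] at h1
    linarith
  have hlX2 : Real.log (X ^ (2 : ℝ)) = 2 * L := Real.log_rpow hX0 2
  have hup : ∀ y : ℝ, y ≤ B' → X ^ y ≤ (X ^ (2 : ℝ)) ^ B' := by
    intro y hy
    rw [← Real.rpow_mul hX0.le]
    exact Real.rpow_le_rpow_of_exponent_le hX1.le (by linarith)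
  have hpar := hfr.par
  have hc0 : 0 ≤ cx' (prX p) := hpar.x0
  have hlg : Real.log (nm g) ≤ L := (ar6 hfr.qs1 hpar.x1 hτ2 hL0.le hfr.g1).2
  have hlM : (vs 0).z + (vs 1).z + (vs 2).z ≤ 2 * L :=
    ar7 (hfr.cl ▸ hfr.up) hpar.N1 hpar.x1 hτ2 hL0.le hfr.qs0
  have hNn : (0 : ℝ) ≤ N := Nat.cast_nonneg N
  have hτL : τ * L ≤ L := mul_le_of_le_one_left hL0.le (by linarith)
  have hz0 := hpd.us0 0
  have hz1 := hpd.us0 1
  have hz2 := hpd.us0 2
  have h1X : ∀ i, Real.log (s1 i).Y ≤ Real.log (X ^ (2 : ℝ)) := by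
    intro i
    show Real.log (Pt P 1 (qs.get i)).Y ≤ _
    rw [log_Pt, hlX2]
    obtain ⟨-, -, h4, -, -⟩ := hpd.am (qs.get i) (List.get_mem _ _)
    exact h4.trans (hτL.trans (by linarith))
  have h2X : ∀ j, Real.log (s2 j).Y ≤ Real.log (X ^ (2 : ℝ)) := by
    intro j
    show Real.log (Pt P 1 (vs j)).Y ≤ _
    rw [log_Pt, hlX2]
    fin_cases j
    · show (vs 0).z ≤ _
      linarith
    · show (vs 1).z ≤ _
      linarith
    · show (vs 2).z ≤ _
      linarith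
  have hgX : (nm g : ℝ) ≤ X := by
    have h1 : (0 : ℝ) < nm g := by exact_mod_cast nm_pos.2 hgp.ne_zero
    rw [← Real.exp_log h1, ← Real.exp_log hX0]
    exact Real.exp_le_exp.2 hlg
  have hgX' : (nm g : ℝ) ≤ (X ^ (2 : ℝ)) ^ B' := by
    refine hgX.trans ?_
    have := hup 1 (by linarith)
    rwa [Real.rpow_one] at this
  have hDX' : (nm D : ℝ) ≤ (X ^ (2 : ℝ)) ^ B' := hDX.trans (hup B₀ (by linarith))
  have hcp : IsPrim (GrT828.cc g D) := GrT828.cc_prim hgp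
  have hccX : (nm (GrT828.cc g D) : ℝ) ≤ X := by
    refine le_trans ?_ hgX
    exact_mod_cast Div277.nm_le_of_dvd hgp.ne_zero (GrT828.cc_dvd hgp)
  have hmod : (nm (D * GrT828.cc g D) : ℝ) ≤ X ^ B' := by
    rw [nm_mul]
    push_cast
    calc (nm D : ℝ) * nm (GrT828.cc g D) ≤ X ^ B₀ * X := by gcongr
      _ = X ^ (B₀ + 1) := by rw [Real.rpow_add hX0, Real.rpow_one]
      _ ≤ X ^ B' := Real.rpow_le_rpow_of_exponent_le hX1.le (by linarith)
  -- the sequences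
  have eη : ηC π h lam qs = tw3 lam.2 (sqc 1 (al h s1)) := by
    show sqc 1 (alL h (qs.map (Pt P lam.2))) = _
    rw [sqc_Pt P h lam.2, al_get]
  have eα : αS π h lam a = fun n => (1 : ℂ) * tw3 lam.2 (sqc 1 (al h s2)) n := by
    show sqc 1 (alL h ((List.ofFn vs).map (Pt P lam.2))) = _
    rw [sqc_Pt P h lam.2, al_fn]
    funext n
    rw [one_mul]
  have hsup' : ∀ n, sqc 1 (al h s1) n ≠ 0 → (nm n : ℝ) ≤ Real.exp a.2.2 := by
    intro n hn'
    refine hsup n ?_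
    rw [eη]
    have h1 : sqc 1 (alL h (qs.map (Pt P 1))) n ≠ 0 := by rw [al_get]; exact hn'
    obtain ⟨h2, h3⟩ := sqc_cop hPok htS h1
    refine mul_ne_zero ?_ hn'
    have h4 : ‖sy lam.2 n‖ = 1 := by
      rcases (Char766.isChar_sy lam.2).norm n h2 with h5 | h5
      · exact absurd h5 (Char766.sy_ne_zero h2 h3)
      · exact h5
    intro h5
    rw [h5, norm_zero] at h4
    exact zero_ne_one h4
  have hηc : ∀ n, sqc 1 (al h s1) n ≠ 0 → IsCoprime lam.2 n := by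
    intro n hn'
    have h1 : sqc 1 (alL h (qs.map (Pt P 1))) n ≠ 0 := by rw [al_get]; exact hn'
    exact (sqc_cop hPok htS h1).2
  -- lengths
  have eL1 : LY s1 = LN qs := LY_get P 1 qs
  have eL2 : LY s2 = lM a := LY_fn3 P 1 vs
  have hnD : LN qs + lM a - Real.log (nm g) - Real.log (nm D * nm (GrT828.cc g D)) - b' =
      nD a qs D b' := rfl
  set k₁ : ℝ := k + lt with hk₁
  set Bd : ℝ := H ^ M * X ^ (ε / 4) * Real.exp V with hBd
  have hH0 : 0 ≤ H := by linarith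
  have hBd0 : 0 ≤ Bd := by positivity
  have hXe2 : (X ^ (2 : ℝ)) ^ (ε / 8) = X ^ (ε / 4) := by
    rw [← Real.rpow_mul hX0.le]; congr 1; ring
  -- the claims
  have claim : ∀ (bb : Fin 5 → ℝ), bb = bNx p ∨ bb = bRx p → bb ∈ D5 →
      ∀ us : Fin 3 → Pq, PD X (σ / 2) B' H N bb 1 us qs a.1.1.l → ∀ (l : ℝ)
      (s' : Fin qs.length ⊕ Fin 3 → Pc), 0 ≤ l →
      GrC828.ChF r s' (Sum.elim s1 fun j => Pt P 1 (us j)) →
      |LY s' - nD a qs D b'| ≤ r → |l - (k₁ + b')| ≤ r →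
      LN qs - Real.log (nm g) - min (y5 (Real.exp a.2.2) g c5) (Real.log (nm D)) - b' - r ≤
        LY (fun i => s' (.inl i)) →
      GrC828.LY s' = GrC828.LY s' →
      LegK545.VK Dk (Real.exp l) (sqc (D * GrT828.cc g D) (al h s')) ≤
        Bd * GrC828.cF s' (Sum.elim s1 fun j => Pt P 1 (us j)) ^ (M : ℝ) := by
    intro bb hbb hbD us hpd l s' hl hF hLY hlk hgate _
    have h1 := G X hXX₁ bb hbD qs.length us (fun i => qs.get i) a.1.1.l H
      (by rw [hofn]; exact hpd) (D * GrT828.cc g D) (hDp.mul hcp) hmod l s' hl hF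
      (ar5 hLY hlk (hlev bb hbb) hτ1 hQ1 hL0.le) V
      (by
        intro z₁ z₂ z₃ w w1 w2 w3 w4 w5 w6 w7 w8 w9 w10
        rw [hofn] at w8
        have h2 := hV bb hbb l z₁ z₂ z₃ w hl (ar1 hlk hlt0 hr hNn) w1 w2 w3 w4
          (by rw [w9]; exact ar2 hLY hlt0 hr hNn) (ar3 w8 hlt0 hr)
          (by rw [w10]; exact ar4 hgate hlt0 hr hNn)
        rw [w9] at h2
        exact h2)
    refine h1.trans (le_of_eq ?_)
    rw [hBd]
    show GrC828.cF s' (Sum.elim s1 fun j => Pt P 1 (us j)) ^ (M : ℝ) * _ = _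
    ring
  have h2 : ∀ j, (s2 j).OK := fun j => P1l54.Pt_OK hPok 1 _
  have main := K (X ^ (2 : ℝ)) hX2 (Fin qs.length) (Fin 3) hcard s1 s2
    (fun i => P1l54.Pt_OK hPok 1 _) h2 h1X h2X
    (Real.exp a.2.2) (Real.exp_pos _).le hsup'
    (Real.exp (e0 * a.1.1.l)) c5 s g D hgp hDp hgX' hDX' b' k₁ hb'
    (by
      rw [hlX2]
      have := ar8 (B' := B') hb'X hL0.le (by linarith) hL0.le hB'0
      rwa [add_zero] at this) (add_nonneg hk hlt0)
    (by
      rw [hlX2]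
      exact ar8 hkX hQ2 (by linarith) hL0.le hB'0) Bd hBd0
    (by
      intro l s' hl hF hLY hlk hgate
      rw [eL1, eL2, hnD] at hLY
      rw [eL1] at hgate
      exact claim bb hbb hbbD vs pdN' l s' hl hF hLY hlk hgate rfl)
  have hαc : ∀ n, sqc 1 (al h s2) n ≠ 0 → IsPrim n ∧ IsCoprime lam.2 n := by
    intro n hn'
    have h1 : sqc 1 (alL h ((List.ofFn vs).map (Pt P 1))) n ≠ 0 := by rw [al_fn]; exact hn'
    exact sqc_cop hPok htS h1
  have htw := coreB_twZ ht0 hηc (fun n hn' => (hαc n hn').1)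
    (fun n hn' => (hαc n hn').2) (z := 1) (by simp)
    (Real.exp_pos _).le hgp hDp main
  rw [eη, eα]
  refine GrK404.CoreB.mono htw ?_
  -- the constants
  rw [hXe2, eL1, eL2]
  have hex : Real.exp (2 / 3 * (k₁ + b')) * Real.exp (5 / 3 * (LN qs + lM a -
      Real.log (nm g) - Real.log (nm D * nm (GrT828.cc g D)) - b')) ≤
      Real.exp (2 / 3 * lt) * Real.exp V := by
    rw [← Real.exp_add, ← Real.exp_add]
    refine Real.exp_le_exp.2 ?_
    rw [hnD]
    have h5 : 2 / 3 * (k + b') + 5 / 3 * nD a qs D b' -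
        max 0 (0 - Real.log (nm D * nm (GrT828.cc g D)) - b') ≤ V := hbias
    have h6 : 0 ≤ Real.log ((nm D : ℝ) * nm (GrT828.cc g D)) := by
      refine Real.log_nonneg ?_
      have h7 : (1 : ℝ) ≤ nm D := by exact_mod_cast nm_pos.2 hDp.ne_zero
      have h8 : (1 : ℝ) ≤ nm (GrT828.cc g D) := by exact_mod_cast nm_pos.2 hcp.ne_zero
      nlinarith
    rw [max_eq_left (by linarith)] at h5
    rw [hk₁]
    linarith
  have hHM : H ^ M ≤ H ^ (M + 12) := pow_le_pow_right₀ hH (by omega)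
  have hH12 : 1 ≤ H ^ (M + 12) := one_le_pow₀ hH
  have hXe1 : 1 ≤ X ^ (ε / 4) := Real.one_le_rpow hX1.le (by linarith)
  have hsJ : 0 ≤ (1 + |s|) ^ (J : ℝ) := by positivity
  have hE0 : 0 < Real.exp V := Real.exp_pos _
  set HH : ℝ := H ^ (M + 12) with hHH
  have hHH0 : 0 ≤ HH := by positivity
  set Xe : ℝ := X ^ (ε / 4) with hXe
  have hXe0 : 0 ≤ Xe := by linarith
  have hb1 : Bd ≤ HH * Xe * Real.exp V := by
    rw [hBd]; gcongr
  have hb2 : Real.exp (2 / 3 * (k₁ + b')) * Real.exp (5 / 3 * (LN qs + lM a -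
      Real.log (nm g) - Real.log (nm D * nm (GrT828.cc g D)) - b')) ≤
      Real.exp (2 / 3 * lt) * (HH * Xe * Real.exp V) := by
    refine hex.trans ?_
    calc Real.exp (2 / 3 * lt) * Real.exp V = Real.exp (2 / 3 * lt) * (1 * 1 * Real.exp V) := by
          ring
      _ ≤ _ := by gcongr
  have hfin : (I1146.ds lam.2).card * (C * Xe * (1 + |s|) ^ (J : ℝ) *
      (Bd + Real.exp (2 / 3 * (k₁ + b')) * Real.exp (5 / 3 * (LN qs + lM a -
      Real.log (nm g) - Real.log (nm D * nm (GrT828.cc g D)) - b')))) ≤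
      CC * (HH * (Xe * Xe) * (1 + |s|) ^ (J : ℝ) * Real.exp V) := by
    have hb3 : 0 ≤ HH * Xe * Real.exp V := by positivity
    calc _ ≤ (I1146.ds lam.2).card * (C * Xe * (1 + |s|) ^ (J : ℝ) *
          (HH * Xe * Real.exp V + Real.exp (2 / 3 * lt) * (HH * Xe * Real.exp V))) := by gcongr
      _ ≤ (I1146.ds lam.2).card * (C * Xe * (1 + |s|) ^ (J : ℝ) *
          (2 * (HH * Xe * Real.exp V) + Real.exp (2 / 3 * lt) * (HH * Xe * Real.exp V))) := by
          refine mul_le_mul_of_nonneg_left (mul_le_mul_of_nonneg_left ?_ (by positivity))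
            (by positivity)
          linarith
      _ = ((I1146.ds lam.2).card * (C * (2 + Real.exp (2 / 3 * lt)))) *
          (HH * (Xe * Xe) * (1 + |s|) ^ (J : ℝ) * Real.exp V) := by ring
      _ ≤ _ := mul_le_mul_of_nonneg_right (by rw [hCC]; linarith) (by positivity)
  refine hfin.trans ?_
  have hXX : X ^ ε = X ^ (ε / 2) * (Xe * Xe) := by
    rw [hXe, ← Real.rpow_add hX0, ← Real.rpow_add hX0]; congr 1; ring
  calc CC * (HH * (Xe * Xe) * (1 + |s|) ^ (J : ℝ) * Real.exp V) ≤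
        X ^ (ε / 2) * (HH * (Xe * Xe) * (1 + |s|) ^ (J : ℝ) * Real.exp V) :=
        mul_le_mul_of_nonneg_right hQ4 (by positivity)
    _ = HH * X ^ ε * (1 + |s|) ^ (J : ℝ) * Real.exp V := by rw [hXX]; ring
    _ = _ := by rw [Real.rpow_natCast]

end Crest.Agent.R017.CR791
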