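import Crest.Agent.R017.I1i_146

/-!
# Row 17, block C70, the assembly (I1) (helper146): `S`-unit twists

* `tws2 s al` : the twist `n ↦ (s/n) al n`
* `Dom ν D be al` : `al` is dominated by `be` on the T-side (levels times `ν`)
* `dom_tw` : the twist by `s` is dominated
-/

set_option autoImplicit false

noncomputable section

open Finset MeasureTheory
open scoped ComplexConjugate Classical

namespace Crest.Agent.R017.I1146

open Crest.Agent.R012 Crest.Agent.R012.Eis Crest.Agent.R012.MC Crest.Agent.R012.Gauss880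
open Crest.Agent.R012.LS2 (S mem_S bl)
open Crest.Agent.R012.Char766 (sy_mul_left sy_pow_left sy_cube conj_sy norm_sy_le)
open Crest.Agent.R012.Weight600 (pw)
open Crest.Agent.R017.CM106 (CS FS TG)
open Crest.Agent.R017.E1551
open Crest.Agent.R017.Rough381 (VF)

/-- the twist -/
def tw3 (s : Eis) (al : Eis → ℂ) : Eis → ℂ := fun n => sy s n * al n

/-- `al` is dominated by `be` on the T-side -/
structure Dom (ν D : ℝ) (be al : Eis → ℂ) : Prop where
  le : ∀ m, ‖al m‖ ≤ ‖be m‖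
  vf : ∀ V t : ℝ, 1 ≤ V → VF V (tws al t) ≤ D * VF (V * ν) (tws be t)
  jb : ∀ (Y : ℝ) (Q : Eis → Prop) (g : Eis) (B V t : ℝ), IsPrim g → 0 ≤ Y → 1 ≤ V →
    JB Y al Q g B V t ≤ D * JB Y be Q g B (V * ν) t

lemma dom_refl (al : Eis → ℂ) : Dom 1 1 al al where
  le _ := le_rfl
  vf V t _ := by rw [mul_one, one_mul]
  jb Y Q g B V t _ _ _ := by rw [mul_one, one_mul]

lemma CF_dvd {k κ : Eis} (h : CF κ) (hk : k ∣ κ) : CF k :=
  ⟨fun h0 => h.1 (by rw [h0] at hk; exact zero_dvd_iff.1 hk),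
    fun p hp hd => h.2 p hp (hd.trans hk)⟩

/-- the cube-free part of `s² l` -/
lemma exists_cf (s : Eis) (hs : s ≠ 0) : ∀ l : Eis, CF l → ∃ l' c : Eis, s ^ 2 * l = l' * c ^ 3 ∧
    CF l' ∧ c ∣ s := by
  induction s using WfDvdMonoid.induction_on_irreducible with
  | zero => exact absurd rfl hs
  | unit u hu =>
    intro l hl
    refine ⟨u ^ 2 * l, 1, by ring, ⟨mul_ne_zero (pow_ne_zero _ hu.ne_zero) hl.1,
      fun p hp h => hl.2 p hp ?_⟩, one_dvd _⟩
    exact (IsUnit.dvd_mul_left (hu.pow 2)).1 h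
  | mul a p ha hp ih =>
    intro l hl
    obtain ⟨l₀, c₀, h1, h2, h3⟩ := ih ha l hl
    have hpr := hp.prime
    by_cases h : p ∣ l₀
    · obtain ⟨l₁, rfl⟩ := h
      refine ⟨l₁, p * c₀, ?_, CF_dvd h2 (dvd_mul_left _ _), mul_dvd_mul_left p h3⟩
      calc (p * a) ^ 2 * l = p ^ 2 * (a ^ 2 * l) := by ring
        _ = p ^ 2 * (p * l₁ * c₀ ^ 3) := by rw [h1]
        _ = _ := by ring
    · refine ⟨p ^ 2 * l₀, c₀, ?_, ⟨mul_ne_zero (pow_ne_zero _ hp.ne_zero) h2.1, ?_⟩,
        h3.mul_left p⟩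
      · calc (p * a) ^ 2 * l = p ^ 2 * (a ^ 2 * l) := by ring
          _ = p ^ 2 * (l₀ * c₀ ^ 3) := by rw [h1]
          _ = _ := by ring
      · intro r hr hd
        by_cases hrp : r ∣ p
        · have has : Associated r p := (hr.dvd_prime_iff_associated hpr).1 hrp
          have h4 : p ^ 3 ∣ p ^ 2 * l₀ := (has.symm.pow_pow (n := 3)).dvd.trans hd
          have h5 : p ^ 2 * p ∣ p ^ 2 * l₀ := by
            have e : p ^ 3 = p ^ 2 * p := by ring
            rwa [e] at h4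
          exact h ((mul_dvd_mul_iff_left (pow_ne_zero 2 hp.ne_zero)).1 h5)
        · have h6 : IsCoprime (r ^ 3) (p ^ 2) :=
            (hr.irreducible.coprime_iff_not_dvd.2 hrp).pow
          exact h2.2 r hr (h6.dvd_of_dvd_mul_left hd)

/-! ### the transfer -/

lemma TG_tw3 {al : Eis → ℂ} (h : ∀ n, al n ≠ 0 → IsPrim n) (s l : Eis) :
    TG (tw3 s al) l = TG al (s ^ 2 * l) := by
  unfold CM106.TG tw3
  refine tsum_congr fun n => ?_
  by_cases h0 : al n = 0
  · simp [h0]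
  have hn := h n h0
  have e1 : sy (s ^ 2 * l) n = sy s n ^ 2 * sy l n := by
    rw [sy_mul_left hn, sy_pow_left hn]
  have e2 : sy s n = conj (sy s n ^ 2) := by
    rw [← conj_sy hn, Complex.conj_conj]
  rw [e1, map_mul, ← e2]
  ring

lemma TG_cube {al : Eis → ℂ} (h : ∀ n, al n ≠ 0 → IsPrim n) {c : Eis}
    (hc : ∀ n, al n ≠ 0 → IsCoprime c n) (l : Eis) : TG al (l * c ^ 3) = TG al l := by
  unfold CM106.TG
  refine tsum_congr fun n => ?_
  by_cases h0 : al n = 0
  · simp [h0]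
  have hn := h n h0
  have e1 : sy (l * c ^ 3) n = sy l n := by
    rw [sy_mul_left hn, sy_pow_left hn, sy_cube hn (hc n h0), mul_one]
  rw [e1]

/-- the finite set of the divisors of `s` -/
def ds (s : Eis) : Finset Eis := (ball (nm s)).filter (fun c => c ∣ s)

lemma mem_ds {s c : Eis} (hs : s ≠ 0) (h : c ∣ s) : c ∈ ds s := by
  unfold ds
  rw [Finset.mem_filter, mem_ball]
  exact ⟨Leg381.nm_le_of_dvd' hs h, h⟩

/-- moments at `s² l` -/
lemma sum_tw {s : Eis} (hs : s ≠ 0) (f : Eis → ℝ) (hf : ∀ l, 0 ≤ f l)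
    (hc : ∀ l c, c ∣ s → f (l * c ^ 3) = f l) (T T' : Finset Eis) (hT : ∀ l ∈ T, CF l)
    (hT' : ∀ l ∈ T, ∀ l' c, s ^ 2 * l = l' * c ^ 3 → CF l' → c ∣ s → l' ∈ T') :
    ∑ l ∈ T, f (s ^ 2 * l) ≤ (ds s).card * ∑ l ∈ T', f l := by
  have h1 : ∀ l ∈ T, ∃ y : Eis × Eis, s ^ 2 * l = y.1 * y.2 ^ 3 ∧ CF y.1 ∧ y.2 ∣ s :=
    fun l hl => by
      obtain ⟨l', c, h⟩ := exists_cf s hs l (hT l hl)
      exact ⟨(l', c), h⟩
  choose! ψ hψ using h1
  have hinj : Set.InjOn ψ (T : Set Eis) := by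
    intro l hl m hm he
    have a1 := (hψ l hl).1
    have a2 := (hψ m hm).1
    rw [← he, ← a1] at a2
    exact (mul_left_cancel₀ (pow_ne_zero 2 hs) a2).symm
  calc ∑ l ∈ T, f (s ^ 2 * l) = ∑ l ∈ T, f (ψ l).1 := by
        refine Finset.sum_congr rfl fun l hl => ?_
        rw [(hψ l hl).1, hc _ _ (hψ l hl).2.2]
    _ = ∑ y ∈ T.image ψ, f y.1 := (Finset.sum_image (f := fun y : Eis × Eis => f y.1) hinj).symm
    _ ≤ ∑ y ∈ T' ×ˢ ds s, f y.1 := by
        refine Finset.sum_le_sum_of_subset_of_nonneg ?_ fun _ _ _ => hf _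
        intro y hy
        obtain ⟨l, hl, rfl⟩ := Finset.mem_image.1 hy
        obtain ⟨a1, a2, a3⟩ := hψ l hl
        exact Finset.mem_product.2 ⟨hT' l hl _ _ a1 a2 a3, mem_ds hs a3⟩
    _ = (ds s).card * ∑ l ∈ T', f l := by
        rw [Finset.sum_product, Finset.mul_sum]
        refine Finset.sum_congr rfl fun l _ => ?_
        show ∑ _y ∈ ds s, f l = _
        rw [Finset.sum_const, nsmul_eq_mul]

lemma nm_le_of_eq {s l l' c : Eis} (hl : l ≠ 0) (hs : s ≠ 0) (h : s ^ 2 * l = l' * c ^ 3) :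
    (nm l' : ℝ) ≤ nm l * (nm s : ℝ) ^ 2 := by
  have h0 : s ^ 2 * l ≠ 0 := mul_ne_zero (pow_ne_zero 2 hs) hl
  have h1 : nm l' ≤ nm (s ^ 2 * l) := Leg381.nm_le_of_dvd' h0 (h ▸ dvd_mul_right _ _)
  rw [nm_mul, nm_pow] at h1
  have h2 : (nm l' : ℝ) ≤ (nm s : ℝ) ^ 2 * nm l := by exact_mod_cast h1
  linarith

/-- **the twist is dominated** -/
theorem dom_tw {s : Eis} (hs : s ≠ 0) {be : Eis → ℂ} (hp : ∀ n, be n ≠ 0 → IsPrim n)
    (hc : ∀ n, be n ≠ 0 → IsCoprime s n) :
    Dom ((nm s : ℝ) ^ 2) (ds s).card be (tw3 s be) where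
  le m := by
    unfold tw3
    by_cases h0 : be m = 0
    · simp [h0]
    rw [norm_mul]
    exact mul_le_of_le_one_left (norm_nonneg _) (norm_sy_le (hp m h0))
  vf V t hV := by
    have e0 : tws (tw3 s be) t = tw3 s (tws be t) := by
      funext n; unfold tws tw3; ring
    have hp' : ∀ n, tws be t n ≠ 0 → IsPrim n := fun n hn => hp n (left_ne_zero_of_mul hn)
    have hc' : ∀ n, tws be t n ≠ 0 → IsCoprime s n := fun n hn => hc n (left_ne_zero_of_mul hn)
    rw [e0]
    unfold Rough381.VF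
    simp only [TG_tw3 hp' s]
    refine sum_tw hs (fun l => ‖TG (tws be t) l‖ ^ 2) (fun l => by positivity) ?_ _ _ ?_ ?_
    · intro l c hcs
      show ‖TG (tws be t) (l * c ^ 3)‖ ^ 2 = ‖TG (tws be t) l‖ ^ 2
      rw [TG_cube hp' (fun n hn => (hc' n hn).of_isCoprime_of_dvd_left hcs)]
    · intro l hl
      exact (Finset.mem_filter.1 hl).2
    · intro l hl l' c h1 h2 _
      obtain ⟨h3, h4⟩ := Finset.mem_filter.1 hl
      unfold LS2.bl at h3 ⊢
      rw [Finset.mem_erase, mem_ball] at h3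
      rw [Finset.mem_filter, Finset.mem_erase, mem_ball]
      refine ⟨⟨h2.1, Nat.le_floor ?_⟩, h2⟩
      have h5 := nm_le_of_eq h3.1 hs h1
      have h6 : (nm l : ℝ) ≤ V := (Nat.cast_le.2 h3.2).trans (Nat.floor_le (by linarith))
      exact h5.trans (mul_le_mul_of_nonneg_right h6 (by positivity))
  jb Y Q g B V t hg hY hV := by
    unfold E1551.JB
    rw [Finset.mul_sum]
    refine Finset.sum_le_sum fun U hU => ?_
    have hUp := ((mem_S hY).1 (Finset.mem_filter.1 hU).1).2.1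
    have hgU := hg.mul hUp
    set b2 := tws (sg be (g * U)) t with hb2
    have hp' : ∀ n, b2 n ≠ 0 → IsPrim n := fun n hn => by
      have h1 : be (g * U * n) ≠ 0 := left_ne_zero_of_mul hn
      exact IsPrim.of_mul_left (hp _ h1) hgU
    have hc' : ∀ n, b2 n ≠ 0 → IsCoprime s n := fun n hn => by
      have h1 : be (g * U * n) ≠ 0 := left_ne_zero_of_mul hn
      exact (hc _ h1).of_mul_right_right
    have e0 : ∀ r, ‖TG (tws (sg (tw3 s be) (g * U)) t) r‖ ≤ ‖TG (tw3 s b2) r‖ := by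
      intro r
      have e1 : tws (sg (tw3 s be) (g * U)) t = fun n => sy s (g * U) * tw3 s b2 n := by
        funext n
        show sy s (g * U * n) * be (g * U * n) * pw t (nm n) =
          sy s (g * U) * (sy s n * (be (g * U * n) * pw t (nm n)))
        by_cases h0 : be (g * U * n) = 0
        · simp [h0]
        have hn : IsPrim n := IsPrim.of_mul_left (hp _ h0) hgU
        rw [Char766.sy_mul_right hgU hn]
        ring
      rw [e1, RG64.TG_const_mul, norm_mul]
      exact mul_le_of_le_one_left (norm_nonneg _) (norm_sy_le hgU)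
    by_cases hsU : IsCoprime s U
    swap
    · have hz : ∀ n, b2 n = 0 := fun n => by
        by_contra h0
        have h1 : be (g * U * n) ≠ 0 := left_ne_zero_of_mul h0
        exact hsU ((hc _ h1).of_mul_right_left.of_mul_right_right)
      have hz2 : ∀ r, TG (tw3 s b2) r = 0 := fun r => by
        unfold CM106.TG tw3
        simp [hz]
      refine le_trans (Finset.sum_nonpos fun κ _ => ?_) (by positivity)
      have h1 := e0 (κ * U)
      rw [hz2, norm_zero] at h1
      have h2 := le_antisymm h1 (norm_nonneg _)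
      rw [h2]; simp
    refine (Finset.sum_le_sum fun κ _ => pow_le_pow_left₀ (norm_nonneg _) (e0 (κ * U)) 2).trans ?_
    simp only [TG_tw3 hp' s]
    have h9 := sum_tw hs (fun l => ‖TG b2 (l * U)‖ ^ 2) (fun l => by positivity) (by
        intro l c hcs
        show ‖TG b2 (l * c ^ 3 * U)‖ ^ 2 = ‖TG b2 (l * U)‖ ^ 2
        have e2 : l * c ^ 3 * U = l * U * c ^ 3 := by ring
        rw [e2, TG_cube hp' (fun n hn => (hc' n hn).of_isCoprime_of_dvd_left hcs)])
      (BU V U) (BU (V * (nm s : ℝ) ^ 2) U) (fun l hl => (mem_BU.1 hl).1.1) ?_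
    · refine le_trans (le_of_eq ?_) h9
      refine Finset.sum_congr rfl fun κ _ => ?_
      have e3 : s ^ 2 * (κ * U) = s ^ 2 * κ * U := by ring
      rw [e3]
    · intro l hl l' c h1 h2 hcs
      obtain ⟨⟨h3, h4⟩, h5⟩ := mem_BU.1 hl
      refine mem_BU.2 ⟨⟨h2, ?_⟩, ?_⟩
      · exact (nm_le_of_eq h3.1 hs h1).trans (mul_le_mul_of_nonneg_right h4 (by positivity))
      · refine ⟨mul_ne_zero h2.1 hUp.ne_zero, fun r hr hd => ?_⟩
        by_cases hrs : r ∣ s
        · have h6 : ¬ r ∣ U := fun hrU => hr.not_isUnit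
            (hsU.isUnit_of_dvd' hrs hrU)
          have h7 : IsCoprime (r ^ 3) U := (hr.irreducible.coprime_iff_not_dvd.2 h6).pow_left
          exact h2.2 r hr (h7.dvd_of_dvd_mul_right hd)
        · have h6 : IsCoprime (r ^ 3) (s ^ 2) :=
            (hr.irreducible.coprime_iff_not_dvd.2 hrs).pow
          have h7 : r ^ 3 ∣ s ^ 2 * (l * U) := by
            have e4 : s ^ 2 * (l * U) = l' * U * c ^ 3 := by
              rw [← mul_assoc, h1]; ring
            rw [e4]
            exact hd.mul_right _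
          exact h5.2 r hr (h6.dvd_of_dvd_mul_left h7)

end Crest.Agent.R017.I1146
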