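import Crest.Agent.R017.GrX_404
import Crest.Agent.R017.I1j_146

/-!
# Row 17, R8 / P1M: removing the twist by an `S`-unit at the level of `CoreB` (helper436)

* `coreB_tw`  : `CoreB` of the family twisted by `sy s`
* `afW_tw`    : the coefficient of the mismatch of twisted sequences
* `coreB_twA` : `CoreB` of `Ae` at twisted sequences
-/

set_option autoImplicit false
set_option linter.unusedSectionVars false
set_option linter.unusedVariables false

noncomputable section

open Finset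
open scoped ComplexConjugate

namespace Crest.Agent.R017.CTw436

open Crest.Agent.R012 Crest.Agent.R012.Eis
open Crest.Agent.R012.LS2 (S mem_S bl mem_bl)
open Crest.Agent.R012.Weight600 (pw norm_pw)
open Crest.Agent.R017.CM106 (CS TG FS)
open Crest.Agent.R017.Prov71 (CubeFree)
open Crest.Agent.R017.StA828 Crest.Agent.R017.StC828 Crest.Agent.R017.StF828
open Crest.Agent.R017.GrC828 Crest.Agent.R017.GrT828 Crest.Agent.R017.GrG404
open Crest.Agent.R017.GrK404
open Crest.Agent.R017.I1146 (tw3 ds TG_tw3 TG_cube sum_tw nm_le_of_eq)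

/-- **`CoreB` of the twisted family** -/
theorem coreB_tw {s : Eis} (hs : s ≠ 0) {a a' : Eis → Eis → ℂ} {c : Eis} (hc : IsPrim c)
    {b k J Bd : ℝ}
    (hp : ∀ e m, a e m ≠ 0 → IsPrim m) (hcop : ∀ e m, a e m ≠ 0 → IsCoprime s m)
    {z : ℂ} (hz : ‖z‖ ≤ 1) (ha : ∀ e m, a' e m = z * (sy s m * a e m))
    (H : CoreB a c b (k + 2 * Real.log (nm s)) J Bd) :
    CoreB a' c b k J ((ds s).card * Bd) := by
  classical
  intro Us Js hU hJ es hes τ
  have hsn : (1 : ℝ) ≤ nm s := by exact_mod_cast nm_pos.2 hs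
  have hsn0 : (0 : ℝ) < nm s := by linarith
  have hcn : (0 : ℝ) < nm c := by exact_mod_cast nm_pos.2 hc.ne_zero
  have hek : Real.exp (k + 2 * Real.log (nm s)) = Real.exp k * (nm s : ℝ) ^ 2 := by
    rw [Real.exp_add, two_mul, Real.exp_add, Real.exp_log hsn0]; ring
  set W : ℝ := Real.exp (k + 2 * Real.log (nm s)) / nm c with hW
  have hW0 : 0 ≤ W := by positivity
  set Js' : Finset Eis := (bl W).filter CubeFree with hJs'
  have key := H Us Js' hU (fun j hj => by
    obtain ⟨h1, h2⟩ := Finset.mem_filter.1 hj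
    refine ⟨h2, ?_⟩
    have h3 := ((mem_bl hW0).1 h1).2
    rwa [hW, le_div_iff₀ hcn] at h3) es hes τ
  have hstep : ∀ U ∈ Us, ∑ j ∈ Js.filter (fun j => IsCoprime j (c * U)),
      ‖TG (fun m => a' (es U) (c * U * m) * pw τ (nm m)) (j * (c * U))‖ ^ 2 ≤
      (ds s).card * ∑ j ∈ Js'.filter (fun j => IsCoprime j (c * U)),
        ‖TG (fun m => a (es U) (c * U * m) * pw τ (nm m)) (j * (c * U))‖ ^ 2 := by
    intro U hUU
    have hUp := (hU U hUU).1
    have hcU : IsPrim (c * U) := hc.mul hUp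
    set β : Eis → ℂ := fun m => a (es U) (c * U * m) * pw τ (nm m) with hβ
    have hp' : ∀ n, β n ≠ 0 → IsPrim n := fun n hn => by
      have h1 : a (es U) (c * U * n) ≠ 0 := left_ne_zero_of_mul hn
      exact IsPrim.of_mul_left (hp _ _ h1) hcU
    have hc' : ∀ n, β n ≠ 0 → IsCoprime s n := fun n hn => by
      have h1 : a (es U) (c * U * n) ≠ 0 := left_ne_zero_of_mul hn
      exact (hcop _ _ h1).of_mul_right_right
    have e1 : (fun m => a' (es U) (c * U * m) * pw τ (nm m)) =
        fun m => (z * sy s (c * U)) * tw3 s β m := by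
      funext m
      rw [ha]
      show z * (sy s (c * U * m) * a (es U) (c * U * m)) * pw τ (nm m) =
        (z * sy s (c * U)) * (sy s m * (a (es U) (c * U * m) * pw τ (nm m)))
      by_cases h0 : a (es U) (c * U * m) = 0
      · simp [h0]
      have hm : IsPrim m := IsPrim.of_mul_left (hp _ _ h0) hcU
      rw [Char766.sy_mul_right hcU hm]
      ring
    have hz1 : ‖z * sy s (c * U)‖ ≤ 1 := by
      rw [norm_mul]
      exact mul_le_one₀ hz (norm_nonneg _) (CM106.norm_sy_le' hcU)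
    have e0 : ∀ r, ‖TG (fun m => a' (es U) (c * U * m) * pw τ (nm m)) r‖ ≤
        ‖TG (tw3 s β) r‖ := by
      intro r
      rw [e1, RG64.TG_const_mul, norm_mul]
      exact mul_le_of_le_one_left (norm_nonneg _) hz1
    by_cases hsU : IsCoprime s (c * U)
    swap
    · have hz0 : ∀ n, β n = 0 := fun n => by
        by_contra h0
        have h1 : a (es U) (c * U * n) ≠ 0 := left_ne_zero_of_mul h0
        exact hsU (hcop _ _ h1).of_mul_right_left
      have hz2 : ∀ r, TG (tw3 s β) r = 0 := fun r => by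
        unfold CM106.TG tw3
        simp [hz0]
      refine le_trans (Finset.sum_nonpos fun j _ => ?_)
        (mul_nonneg (Nat.cast_nonneg _) (Finset.sum_nonneg fun _ _ => by positivity))
      have h1 := e0 (j * (c * U))
      rw [hz2, norm_zero] at h1
      have h2 := le_antisymm h1 (norm_nonneg _)
      rw [h2]; simp
    refine (Finset.sum_le_sum fun j _ =>
      pow_le_pow_left₀ (norm_nonneg _) (e0 (j * (c * U))) 2).trans ?_
    simp only [TG_tw3 hp' s]
    have h9 := sum_tw hs (fun l => ‖TG β (l * (c * U))‖ ^ 2) (fun l => by positivity) (by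
        intro l x hxs
        show ‖TG β (l * x ^ 3 * (c * U))‖ ^ 2 = ‖TG β (l * (c * U))‖ ^ 2
        have e2 : l * x ^ 3 * (c * U) = l * (c * U) * x ^ 3 := by ring
        rw [e2, TG_cube hp' (fun n hn => (hc' n hn).of_isCoprime_of_dvd_left hxs)])
      (Js.filter fun j => IsCoprime j (c * U)) (Js'.filter fun j => IsCoprime j (c * U))
      (fun l hl => (hJ l (Finset.mem_filter.1 hl).1).1) ?_
    · refine le_trans (le_of_eq ?_) h9
      refine Finset.sum_congr rfl fun j _ => ?_
      have e3 : s ^ 2 * (j * (c * U)) = s ^ 2 * j * (c * U) := by ring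
      rw [e3]
    · intro l hl l' x h1 h2 hxs
      obtain ⟨h3, h4⟩ := Finset.mem_filter.1 hl
      obtain ⟨h5, h6⟩ := hJ l h3
      have hl0 : l ≠ 0 := h5.1
      refine Finset.mem_filter.2 ⟨Finset.mem_filter.2 ⟨?_, h2⟩, ?_⟩
      · rw [mem_bl hW0]
        refine ⟨h2.1, ?_⟩
        rw [hW, le_div_iff₀ hcn, hek]
        have h7 := nm_le_of_eq hl0 hs h1
        calc (nm l' : ℝ) * nm c ≤ (nm l * (nm s : ℝ) ^ 2) * nm c :=
              mul_le_mul_of_nonneg_right h7 hcn.le
          _ = (nm l * nm c) * (nm s : ℝ) ^ 2 := by ring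
          _ ≤ _ := mul_le_mul_of_nonneg_right h6 (by positivity)
      · have h8 : IsCoprime (s ^ 2 * l) (c * U) := (hsU.pow_left).mul_left h4
        rw [h1] at h8
        exact h8.of_mul_left_left
  calc ∑ U ∈ Us, ∑ j ∈ Js.filter (fun j => IsCoprime j (c * U)),
        ‖TG (fun m => a' (es U) (c * U * m) * pw τ (nm m)) (j * (c * U))‖ ^ 2 ≤
      ∑ U ∈ Us, (ds s).card * ∑ j ∈ Js'.filter (fun j => IsCoprime j (c * U)),
        ‖TG (fun m => a (es U) (c * U * m) * pw τ (nm m)) (j * (c * U))‖ ^ 2 :=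
        Finset.sum_le_sum hstep
    _ = (ds s).card * ∑ U ∈ Us, ∑ j ∈ Js'.filter (fun j => IsCoprime j (c * U)),
        ‖TG (fun m => a (es U) (c * U * m) * pw τ (nm m)) (j * (c * U))‖ ^ 2 := by
        rw [Finset.mul_sum]
    _ ≤ (ds s).card * (Bd * (1 + |τ|) ^ J) :=
        mul_le_mul_of_nonneg_left key (Nat.cast_nonneg _)
    _ = _ := by ring

/-- a nonzero term of the coefficient -/
lemma xa_rs_ne {a g n : Eis} {α : Eis → ℂ} (h : xa a (rs g α) n ≠ 0) :
    a ∣ n ∧ α (n / a) ≠ 0 := by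
  classical
  unfold xa at h
  split_ifs at h with h1
  · exact ⟨h1.1, (rs_ne h).2⟩
  · exact absurd rfl h

/-- **the coefficient of the twisted sequences** -/
lemma afW_tw {s : Eis} {W : Eis → Eis → Eis → ℂ} {Z : ℝ} (hZ : 0 ≤ Z) {η α : Eis → ℂ}
    (hαp : ∀ n, α n ≠ 0 → IsPrim n) {g D : Eis} (hg : IsPrim g) (hD : IsPrim D) (e m : Eis) :
    afW W Z (tw3 s η) (tw3 s α) g e D m = (sy s g * sy s D) * (sy s m * afW W Z η α g e D m) := by
  classical
  unfold afW
  rw [Finset.mul_sum, Finset.mul_sum]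
  refine Finset.sum_congr rfl fun a ha => ?_
  have hap : IsPrim a := ((mem_S hZ).1 ha).2.1
  by_cases h0 : xa a (rs g α) (D * m) = 0
  · have h1 : xa a (rs g (tw3 s α)) (D * m) = 0 := by
      unfold xa at h0 ⊢
      split_ifs at h0 ⊢ with h2
      · unfold rs at h0 ⊢
        split_ifs at h0 ⊢ with h3
        · show sy s _ * α _ = 0
          rw [h0, mul_zero]
        · rfl
      · rfl
    rw [h0, h1]
    simp
  · obtain ⟨h1, h2⟩ := xa_rs_ne h0
    have h3 := hαp _ h2
    have h4 : a * (D * m / a) = D * m := EuclideanDomain.mul_div_cancel' hap.ne_zero h1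
    have h5 : IsPrim (D * m) := h4 ▸ hap.mul h3
    have h6 : IsPrim m := IsPrim.of_mul_left h5 hD
    have e1 : xa a (rs g (tw3 s α)) (D * m) = sy s (D * m / a) * xa a (rs g α) (D * m) := by
      unfold xa
      split_ifs with h7
      · unfold rs
        split_ifs with h8
        · rfl
        · rw [mul_zero]
      · rw [mul_zero]
    have e2 : tw3 s η (g * a) = sy s g * sy s a * η (g * a) := by
      show sy s (g * a) * _ = _
      rw [Char766.sy_mul_right hg hap]
    have e3 : sy s a * sy s (D * m / a) = sy s D * sy s m := by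
      rw [← Char766.sy_mul_right hap h3, h4, Char766.sy_mul_right hD h6]
    rw [e1, e2]
    linear_combination (sy s g * η (g * a) * W e D a * xa a (rs g α) (D * m)) * e3

/-- **`CoreB` of `Ae` at twisted sequences** -/
theorem coreB_twA {s : Eis} (hs : s ≠ 0) {η α : Eis → ℂ} (hηc : ∀ n, η n ≠ 0 → IsCoprime s n)
    (hαp : ∀ n, α n ≠ 0 → IsPrim n) (hαc : ∀ n, α n ≠ 0 → IsCoprime s n)
    {Z E0 : ℝ} (hZ : 0 ≤ Z) {g D : Eis} (hg : IsPrim g) (hD : IsPrim D) {c : Fin 5} {t : ℝ}
    {b k J Bd : ℝ}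
    (H : CoreB (fun e => Ae Z E0 η α g c t e D) (GrT828.cc g D) b (k + 2 * Real.log (nm s)) J Bd) :
    CoreB (fun e => Ae Z E0 (tw3 s η) (tw3 s α) g c t e D) (GrT828.cc g D) b k J
      ((ds s).card * Bd) := by
  have hne : ∀ e m, Ae Z E0 η α g c t e D m ≠ 0 → ∃ a : Eis, IsPrim a ∧ a ∣ D * m ∧
      η (g * a) ≠ 0 ∧ α (D * m / a) ≠ 0 := by
    intro e m hm
    unfold Ae afW at hm
    obtain ⟨a, ha, h1⟩ := Finset.exists_ne_zero_of_sum_ne_zero hm
    obtain ⟨h2, h3⟩ := xa_rs_ne (right_ne_zero_of_mul h1)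
    exact ⟨a, ((mem_S hZ).1 ha).2.1, h2, left_ne_zero_of_mul (left_ne_zero_of_mul h1), h3⟩
  have hp : ∀ e m, Ae Z E0 η α g c t e D m ≠ 0 → IsPrim (D * m) ∧ IsCoprime s (D * m) := by
    intro e m hm
    obtain ⟨a, h1, h2, h3, h4⟩ := hne e m hm
    have h5 : a * (D * m / a) = D * m := EuclideanDomain.mul_div_cancel' h1.ne_zero h2
    refine ⟨h5 ▸ h1.mul (hαp _ h4), ?_⟩
    rw [← h5]
    exact (hηc _ h3).of_mul_right_right.mul_right (hαc _ h4)
  refine coreB_tw hs (cc_prim hg) (fun e m hm => IsPrim.of_mul_left (hp e m hm).1 hD)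
    (fun e m hm => (hp e m hm).2.of_mul_right_right) (z := sy s g * sy s D) ?_ ?_ H
  · rw [norm_mul]
    exact mul_le_one₀ (CM106.norm_sy_le' hg) (norm_nonneg _) (CM106.norm_sy_le' hD)
  · intro e m
    exact afW_tw hZ hαp hg hD e m

end Crest.Agent.R017.CTw436
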