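import Crest.Agent.R017.ExSf_960
import Crest.Agent.R017.Sf_770

/-!
# Row 17, exceptional class, R8: the level split for the double difference (helper770)

v3 (on helper960's `ExSf_960`):
* `SfE` : **the official structured function of the double difference** : zero at the cubes
  (helper974, helper372, helper319 (A)), sum over the levels of the differences `difX` of the level
  functions, the cut `Bf i` of the powerful tuples depends on the level (helper319 (B) = helper73)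
* `SfEV` : one level
* `midE_lev`, `tailE_lev` : the level split;  `strUX_of_lev`, `tailUX_of_lev`
* `bfE c` : the official cut `min (N + z - l/2) ((T_S - i log 2)/2 + c l)`;  `SfEO`
* `at_SfEO` : every `β` with its own plateau `omP (min n (nB (T_S + 2 c l) N(∏ β)))`
-/

set_option autoImplicit false

noncomputable section

open Finset
open scoped ComplexConjugate

namespace Crest.Agent.R017.E5LX770

open Crest.Agent.R012 Crest.Agent.R012.Eis
open Crest.Agent.R017.HP842 (Pc pc)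
open Crest.Agent.R017.B770 Crest.Agent.R017.Prov71
open Crest.Agent.R017.SSb54 (SST SSb PTb)
open Crest.Agent.R017.E5B71 Crest.Agent.R017.E5P571
open Crest.Agent.R017.ExBox960 Crest.Agent.R017.ExP960
open Crest.Agent.R017.E5L770 Crest.Agent.R017.Sf770

variable {Λ : Type*} (π : Λ → DPar) (h : ℝ → ℝ)

open Classical in
/-- one level: zero at the cubes -/
def SfEV (e0 r : ℝ) (Bf : ℝ → ℝ → ℝ → ℝ) (Jf : ℝ → ℝ → ℝ → Finset (Eis × Eis)) (i : ℕ) : SFX Λ :=
  fun lam t l ps Z Z' z k => if ∃ w : Eis, k = w ^ 3 then 0 else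
    difX (SfV π h e0 r Bf Jf i) lam t l ps Z Z' z k

open Classical in
/-- **the structured function of the double difference** -/
def SfE (e0 r : ℝ) (Bf : ℕ → ℝ → ℝ → ℝ → ℝ) (Jf : ℝ → ℝ → ℝ → Finset (Eis × Eis))
    (nf : ℝ → ℝ → ℝ → ℕ) : SFX Λ :=
  fun lam t l ps Z Z' z k => if ∃ w : Eis, k = w ^ 3 then 0 else
    ∑ i ∈ range (nf l (∑ j, (ps j).z) z), difX (SfV π h e0 r (Bf i) Jf i) lam t l ps Z Z' z k

open Classical in
lemma atEV (e0 r : ℝ) (Bf : ℝ → ℝ → ℝ → ℝ) (Jf : ℝ → ℝ → ℝ → Finset (Eis × Eis)) (i : ℕ)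
    (lam : Λ × Eis) (a : BdX) (k : Eis) : SFX.at (SfEV π h e0 r Bf Jf i) lam a k =
      if ∃ w : Eis, k = w ^ 3 then 0 else
        ph a * SfV π h e0 r Bf Jf i lam.1 lam.2 a.l (u3 a) a.z k -
          ph' a * SfV π h e0 r Bf Jf i lam.1 lam.2 a.l (u3' a) a.z k := rfl

lemma atE (e0 r : ℝ) (Bf : ℕ → ℝ → ℝ → ℝ → ℝ) (Jf : ℝ → ℝ → ℝ → Finset (Eis × Eis))
    (nf : ℝ → ℝ → ℝ → ℕ) (lam : Λ × Eis) (a : BdX) (k : Eis) :
    SFX.at (SfE π h e0 r Bf Jf nf) lam a k =
      ∑ i ∈ range (nf a.l (a3 a.toBd) a.z), SFX.at (SfEV π h e0 r (Bf i) Jf i) lam a k := by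
  classical
  unfold SFX.at SfE SfEV
  rw [sum_a3]
  split_ifs with hc
  · simp
  · rfl

theorem midE_lev (e0 r : ℝ) (Bf : ℕ → ℝ → ℝ → ℝ → ℝ) (Jf : ℝ → ℝ → ℝ → Finset (Eis × Eis))
    (nf : ℝ → ℝ → ℝ → ℕ) {lam : Λ × Eis} (hP : (π lam.1).OK) (a : BdX) (ps : List Pq) :
    MidX π h (SfE π h e0 r Bf Jf nf) lam a ps ≤
      ∑ i ∈ range (nf a.l (a3 a.toBd) a.z), MidX π h (SfEV π h e0 r (Bf i) Jf i) lam a ps :=
  midX_le_sum π h hP a ps _ _ _ fun _ k => atE π h e0 r Bf Jf nf lam a k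

theorem tailE_lev (e0 r : ℝ) (Bf : ℕ → ℝ → ℝ → ℝ → ℝ) (Jf : ℝ → ℝ → ℝ → Finset (Eis × Eis))
    (nf : ℝ → ℝ → ℝ → ℕ) (R : Λ → ℝ) (lam : Λ × Eis) (a : BdX) (ps : List Pq) :
    TailSX π h (SfE π h e0 r Bf Jf nf) R lam a ps ≤
      ∑ i ∈ range (nf a.l (a3 a.toBd) a.z), TailSX π h (SfEV π h e0 r (Bf i) Jf i) R lam a ps :=
  tailSX_le_sum π h R lam a ps _ _ _ fun _ k => atE π h e0 r Bf Jf nf lam a k

/-- the domain of the levels -/
def SqLX (A d β : ℝ) : Set ((Option IX5 → ℝ) × (Kd → ℝ)) :=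
  DomL (liftD β (SqD A d)) (fun p => top5 (prX p))

lemma nLX_le {X : ℝ} (hX : 1 < X) (a : BdX) : Real.log 2 * (nL a.l (a3 a.toBd) a.z : ℝ) ≤
    max 0 (top5 (prX (S5X.ev X a))) * Real.log X + Real.log 2 := nL_le hX a.toBd

/-- **StrUX from one level** -/
theorem strUX_of_lev (hP : ∀ lam, (π lam).OK) {θ A d β μ : ℝ} (hA : 2 / 3 ≤ A)
    (e0 r : ℝ) (Bf : ℕ → ℝ → ℝ → ℝ → ℝ) (Jf : ℝ → ℝ → ℝ → Finset (Eis × Eis))
    (H : UB (lev (Real.log 2) S5X) Dq
      (fun lam a ps => MidX π h (SfEV π h e0 r (Bf a.2) Jf a.2) lam a.1 ps)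
      (SqLX A d β) (alL alX) fun q => T5 θ (prQ (dn q.1, q.2)) - μ) :
    StrUX π h θ (SfE π h e0 r Bf Jf nL) A d β μ :=
  ub_of_lev (S := S5X)
    (Ψl := fun i lam a ps => MidX π h (SfEV π h e0 r (Bf i) Jf i) lam a ps)
    (top := fun p => top5 (prX p))
    (C₀ := 10) (M := 2) (c := Real.log 2) (c₁ := Real.log 2) (by norm_num)
    (Real.log_pos (by norm_num)) (nT := fun a => nL a.l (a3 a.toBd) a.z)
    (fun q hq => top5_nonneg hA hq.1) (fun q hq => top5_le hA hq.1)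
    (fun p p' δ hδ hh => top5_lip _ _ δ hδ fun i => hh (.inl i))
    (fun X a hX => nLX_le hX a)
    (fun lam a ps => midE_lev π h e0 r Bf Jf nL (hP lam.1) a ps)
    (fun q _ => le_rfl) H

/-- **TailUX from one level** -/
theorem tailUX_of_lev {θ A d β μ : ℝ} (hA : 2 / 3 ≤ A)
    (e0 r : ℝ) (Bf : ℕ → ℝ → ℝ → ℝ → ℝ) (Jf : ℝ → ℝ → ℝ → Finset (Eis × Eis))
    (H : ∀ R : Λ → ℝ, (∀ lam, 0 ≤ R lam) → UB (lev (Real.log 2) S5X) Dq
      (fun lam a ps => TailSX π h (SfEV π h e0 r (Bf a.2) Jf a.2) R lam a.1 ps)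
      (SqLX A d β) (alL alX) fun q => T5 θ (prQ (dn q.1, q.2)) - μ) :
    TailUX π h θ (SfE π h e0 r Bf Jf nL) A d β μ := fun R hR =>
  ub_of_lev (S := S5X)
    (Ψl := fun i lam a ps => TailSX π h (SfEV π h e0 r (Bf i) Jf i) R lam a ps)
    (top := fun p => top5 (prX p))
    (C₀ := 10) (M := 2) (c := Real.log 2) (c₁ := Real.log 2) (by norm_num)
    (Real.log_pos (by norm_num)) (nT := fun a => nL a.l (a3 a.toBd) a.z)
    (fun q hq => top5_nonneg hA hq.1) (fun q hq => top5_le hA hq.1)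
    (fun p p' δ hδ hh => top5_lip _ _ δ hδ fun i => hh (.inl i))
    (fun X a hX => nLX_le hX a)
    (fun lam a ps => tailE_lev π h e0 r Bf Jf nL R lam a ps)
    (fun q _ => le_rfl) (H R hR)

/-! ### the official one -/

/-- the official cut of the powerful tuples at level `i` : `log N(∏ β) ≤ N + z - l/2` and
`2 log N(∏ β) ≤ T_S - i log 2 + 2 c l` -/
def bfE (c : ℝ) (i : ℕ) (l N z : ℝ) : ℝ :=
  min (bfO l N z) ((topL l N z - Real.log 2 * i) / 2 + c * l)

/-- **the official structured function of the double difference** -/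
def SfEO (e0 r c : ℝ) : SFX Λ := SfE π h e0 r (bfE c) (fun l N z => JS (nL l N z)) nL

/-- one level -/
def SfEOV (e0 r c : ℝ) (i : ℕ) : SFX Λ :=
  SfEV π h e0 r (bfE c i) (fun l N z => JS (nL l N z)) i

open Classical in
/-- number of levels of a powerful tuple of norm `B`, top `T` : `v ≤ T - 2 log B` -/
def nB (T B : ℝ) : ℕ :=
  if 2 * Real.log B ≤ T then ⌊(T - 2 * Real.log B) / Real.log 2⌋₊ + 1 else 0

lemma lt_nB {T B : ℝ} (hB : 0 < B) (i : ℕ) :
    i < nB T B ↔ B ≤ Real.exp ((T - Real.log 2 * i) / 2) := by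
  have h2 : 0 < Real.log 2 := Real.log_pos (by norm_num)
  rw [← Real.log_le_iff_le_exp hB]
  unfold nB
  split_ifs with hc
  · have h0 : 0 ≤ (T - 2 * Real.log B) / Real.log 2 := div_nonneg (by linarith) h2.le
    rw [Nat.lt_succ_iff, Nat.le_floor_iff h0, le_div_iff₀ h2]
    constructor <;> intro h <;> linarith
  · constructor
    · intro h; omega
    · intro h
      exfalso
      apply hc
      have : 0 ≤ Real.log 2 * i := by positivity
      linarith

/-- the plateau of `β` ends at `T - 2 log B` -/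
lemma nB_le {T B : ℝ} (h0 : 0 < nB T B) : Real.log 2 * nB T B ≤ T - 2 * Real.log B + Real.log 2 := by
  have h2 : 0 < Real.log 2 := Real.log_pos (by norm_num)
  unfold nB at h0 ⊢
  split_ifs at h0 ⊢ with hc
  · push_cast
    have h := Nat.floor_le (a := (T - 2 * Real.log B) / Real.log 2)
      (div_nonneg (by linarith) h2.le)
    rw [le_div_iff₀ h2] at h
    linarith
  · simp at h0

lemma le_nB {T B : ℝ} (hc : 2 * Real.log B ≤ T) : T - 2 * Real.log B ≤ Real.log 2 * nB T B := by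
  have h2 : 0 < Real.log 2 := Real.log_pos (by norm_num)
  unfold nB
  rw [if_pos hc]
  push_cast
  have h := Nat.lt_floor_add_one ((T - 2 * Real.log B) / Real.log 2)
  rw [div_lt_iff₀ h2] at h
  linarith

variable {ι : Type*} [Fintype ι]

lemma one_le_nm_PT {Y : ℕ} {β : ι → Eis} (hβ : β ∈ E5k54.PT ι Y) :
    (1 : ℝ) ≤ nm (∏ i, β i) := by
  classical
  unfold E5k54.PT at hβ
  have h := (Fintype.mem_piFinset.1 (mem_filter.1 hβ).1)
  have h0 : ∏ i, β i ≠ 0 := prod_ne_zero_iff.2 fun i _ => (mem_primBall.1 (h i)).2.ne_zero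
  exact_mod_cast nm_pos.2 h0

/-- **every powerful tuple with its own plateau** -/
theorem sum_own (n : ℕ) (b T : ℝ) (f : ι → Eis → ℂ) (Y : ℕ) (E0 : ℝ) (J : Finset (Eis × Eis))
    (k : Eis) :
    ∑ i ∈ range n, SSb (Real.exp (min b ((T - Real.log 2 * i) / 2))) f Y E0 J (omL i) k =
    ∑ β ∈ PTb ι Y (Real.exp b), sy k (∏ i, β i) *
      E2440.StE E0 J (omP (min n (nB T (nm (∏ i, β i))))) (E5k54.alb f β) k := by
  classical
  have h1 : ∀ i : ℕ, SSb (Real.exp (min b ((T - Real.log 2 * i) / 2))) f Y E0 J (omL i) k =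
      ∑ β ∈ PTb ι Y (Real.exp b), if i < nB T (nm (∏ i, β i)) then
        sy k (∏ i, β i) * E2440.StE E0 J (omL i) (E5k54.alb f β) k else 0 := by
    intro i
    have e : PTb ι Y (Real.exp (min b ((T - Real.log 2 * i) / 2))) =
        (PTb ι Y (Real.exp b)).filter fun β => i < nB T (nm (∏ i, β i)) := by
      ext β
      rw [mem_filter, SSb54.mem_PTb, SSb54.mem_PTb, Real.exp_monotone.map_min, le_min_iff]
      constructor
      · intro h
        exact ⟨⟨h.1, h.2.1⟩, (lt_nB (lt_of_lt_of_le one_pos (one_le_nm_PT h.1)) i).2 h.2.2⟩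
      · intro h
        exact ⟨h.1.1, h.1.2, (lt_nB (lt_of_lt_of_le one_pos (one_le_nm_PT h.1.1)) i).1 h.2⟩
    unfold SSb SST
    rw [e, sum_filter]
  simp only [h1]
  rw [sum_comm]
  refine sum_congr rfl fun β hβ => ?_
  have h2 : omP (min n (nB T (nm (∏ i, β i)))) =
    fun x => ∑ i ∈ range (min n (nB T (nm (∏ i, β i)))), omL i x := rfl
  rw [h2, StE_sum, mul_sum, ← sum_filter]
  refine sum_congr ?_ fun _ _ => rfl
  ext i
  rw [mem_filter, mem_range, mem_range, lt_min_iff]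

open Classical in
/-- **the official structured function at a base datum** : common `J = JS n`, `β` has the plateau
`omP (min n (nB (T_S + 2 c l) N(∏ β)))` -/
theorem at_SfEO (e0 r c : ℝ) (lam : Λ × Eis) {a : BdX} (ha : a.ok) (k : Eis) :
    SFX.at (SfEO π h e0 r c) lam a k = if ∃ w : Eis, k = w ^ 3 then 0 else
      (pC : ℂ) * ∑ β ∈ PTb (Fin 3) ⌊Real.exp (a3 a.toBd + r)⌋₊
          (Real.exp (a3 a.toBd + a.z - a.l / 2)), sy k (∏ i, β i) *
        (ph a * E2440.StE (Real.exp (e0 * a.l)) (JS (nO a.toBd))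
            (omP (min (nO a.toBd) (nB (tO a.toBd + 2 * (c * a.l)) (nm (∏ i, β i)))))
            (E5k54.alb (fun i : Fin 3 => pc h (Pt (π lam.1) lam.2 (u3 a i))) β) k -
        ph' a * E2440.StE (Real.exp (e0 * a.l)) (JS (nO a.toBd))
            (omP (min (nO a.toBd) (nB (tO a.toBd + 2 * (c * a.l)) (nm (∏ i, β i)))))
            (E5k54.alb (fun i : Fin 3 => pc h (Pt (π lam.1) lam.2 (u3' a i))) β) k) := by
  unfold SfEO
  rw [atE]
  simp only [atEV]
  split_ifs with hc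
  · simp
  · have e : ∀ f : Fin 3 → Eis → ℂ, ∑ i ∈ range (nL a.l (a3 a.toBd) a.z),
        SSb (Real.exp (bfE c i a.l (a3 a.toBd) a.z)) f ⌊Real.exp (a3 a.toBd + r)⌋₊
          (Real.exp (e0 * a.l)) (JS (nL a.l (a3 a.toBd) a.z)) (omL i) k =
        ∑ β ∈ PTb (Fin 3) ⌊Real.exp (a3 a.toBd + r)⌋₊ (Real.exp (a3 a.toBd + a.z - a.l / 2)),
          sy k (∏ i, β i) * E2440.StE (Real.exp (e0 * a.l)) (JS (nO a.toBd))
            (omP (min (nO a.toBd) (nB (tO a.toBd + 2 * (c * a.l)) (nm (∏ i, β i)))))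
            (E5k54.alb f β) k := by
      intro f
      have h3 := sum_own (nO a.toBd) (bfO a.l (a3 a.toBd) a.z) (tO a.toBd + 2 * (c * a.l)) f
        ⌊Real.exp (a3 a.toBd + r)⌋₊ (Real.exp (e0 * a.l)) (JS (nO a.toBd)) k
      rw [show Real.exp (a3 a.toBd + a.z - a.l / 2) = Real.exp (bfO a.l (a3 a.toBd) a.z) from rfl,
        ← h3]
      refine sum_congr rfl fun i _ => ?_
      have e5 : bfE c i a.l (a3 a.toBd) a.z = min (bfO a.l (a3 a.toBd) a.z)
          ((tO a.toBd + 2 * (c * a.l) - Real.log 2 * i) / 2) := by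
        unfold bfE
        congr 1
        show (tO a.toBd - Real.log 2 * i) / 2 + c * a.l = _
        ring
      rw [e5]
      rfl
    have e1 : ∀ i : ℕ, SfV π h e0 r (bfE c i) (fun l N z => JS (nL l N z)) i lam.1 lam.2 a.l
        (u3 a) a.z k = (pC : ℂ) * SSb (Real.exp (bfE c i a.l (a3 a.toBd) a.z))
          (fun i : Fin 3 => pc h (Pt (π lam.1) lam.2 (u3 a i))) ⌊Real.exp (a3 a.toBd + r)⌋₊
          (Real.exp (e0 * a.l)) (JS (nL a.l (a3 a.toBd) a.z)) (omL i) k := by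
      intro i
      unfold SfV SfJ
      rw [sum_u3]
    have e2 : ∀ i : ℕ, SfV π h e0 r (bfE c i) (fun l N z => JS (nL l N z)) i lam.1 lam.2 a.l
        (u3' a) a.z k = (pC : ℂ) * SSb (Real.exp (bfE c i a.l (a3 a.toBd) a.z))
          (fun i : Fin 3 => pc h (Pt (π lam.1) lam.2 (u3' a i))) ⌊Real.exp (a3 a.toBd + r)⌋₊
          (Real.exp (e0 * a.l)) (JS (nL a.l (a3 a.toBd) a.z)) (omL i) k := by
      intro i
      unfold SfV SfJ
      rw [sum_u3' ha]
    simp only [e1, e2]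
    rw [sum_sub_distrib, ← mul_sum, ← mul_sum, ← mul_sum, ← mul_sum, e, e, mul_sum, mul_sum,
      mul_sum, mul_sum, mul_sum, ← sum_sub_distrib]
    refine sum_congr rfl fun β _ => ?_
    ring

end Crest.Agent.R017.E5LX770
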