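import Crest.Agent.R017.P1X2_960
import Crest.Agent.R017.P1l_54
import Crest.Agent.R017.E5LX_770

/-!
# Row 17, exceptional class, P1X: the inputs (helper960)

The twins of 54's `P10`, `P1M` for the double difference (770's `SfEO`, own windows).

* `xD` : the difference of a list: lumps `vs`, replaced lengths `(vs 0).z - D`, `(vs 1).z + D`
* `BcX`, `S8X`, `nW` : base datum, lumps of the child, `b = log N(∏ β)`; the plateau of `β`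
* `ErX`, **`P10X`** : the error moment of the differences (all four lengths of the pair `≥ 0`)
* `ErS`, **`P10S`** : the error moment of single lists which lost at least `β κ` (no gain needed)
* `MmX`, **`P1MX`**, `MmS`, **`P1MS`** : the mismatch moments
-/

set_option autoImplicit false

noncomputable section

open Finset
open scoped ComplexConjugate ContDiff

namespace Crest.Agent.R017.P1X960

open Crest.Agent.R012 Crest.Agent.R012.Eis Crest.Agent.R012.Div277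
open Crest.Agent.R012.Mob705 hiding pb mem_pb
open Crest.Agent.R012.LS2 (S mem_S)
open Crest.Agent.R017.CM106 Crest.Agent.R017.C70
open Crest.Agent.R017.FE47 (PU cx SM)
open Crest.Agent.R017.E2440 (TE StE)
open Crest.Agent.R017.P1e54 Crest.Agent.R017.P1f54 Crest.Agent.R017.P1i54 Crest.Agent.R017.P1k54
open Crest.Agent.R017.P1l54 (oN)
open Crest.Agent.R017.HP842 (Pc pc al alL sqc)
open Crest.Agent.R017.B770 Crest.Agent.R017.Prov71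
open Crest.Agent.R017.XT71 (Sys Win mx)
open Crest.Agent.R017.UM71 Crest.Agent.R017.End699
open Crest.Agent.R017.E5B71 Crest.Agent.R017.E5P571 Crest.Agent.R017.E5L770
open Crest.Agent.R017.ExBox960 Crest.Agent.R017.ExP960
open Crest.Agent.R017.Sf770
open Crest.Agent.R017.E5LX770 (nB)

/-! ### the difference of a list -/

/-- the lumps with the replaced pair -/
def rzD (vs : Fin 3 → Pq) (D : ℝ) : Fin 3 → Pq := rz vs ((vs 0).z - D) ((vs 1).z + D)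

/-- **the difference**: lumps `vs`, other pieces `qs` -/
def xD (h : ℝ → ℝ) (P : DPar) (t : Eis) (vs : Fin 3 → Pq) (D : ℝ) (qs : List Pq) : Eis → ℂ :=
  cmb (oc vs (vs 0).z (vs 1).z) (-oc vs ((vs 0).z - D) ((vs 1).z + D))
    (sqc 1 (alL h ((List.ofFn vs ++ qs).map (Pt P t))))
    (sqc 1 (alL h ((List.ofFn (rzD vs D) ++ qs).map (Pt P t))))

/-- the shift of the pair -/
def dz (a : BdX) : ℝ := (a.us 2).z - a.zs 2

/-! ### data -/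

/-- base datum, three lumps of the child, `b = log N(∏ β)` -/
abbrev BcX := BdX × (Fin 3 → Pq) × ℝ

/-- coordinates: base datum; lumps of the child (`0, 1, 2`), `b` (`3`) -/
abbrev I8X := IX5 ⊕ Fin 4

/-- exponents -/
def S8X : Sys BcX I8X where
  ev X a := Sum.elim (S5X.ev X a.1)
    ![Dq.nl X (a.2.1 0), Dq.nl X (a.2.1 1), Dq.nl X (a.2.1 2), a.2.2 / Real.log X]
  g _ := 1
  n _ := 0
  s₁ a := max (S5X.s₁ a.1) (mx Dq.s1 (List.ofFn a.2.1))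
  s₂ a := max (S5X.s₂ a.1) (mx Dq.s2 (List.ofFn a.2.1))

/-- child, `g`, `log Z` -/
abbrev BmX := BcX × Eis × ℝ

/-- exponents: `inr 0` = `log N g`, `inr 1` = `log Z` -/
def S9X : Sys BmX (I8X ⊕ Fin 2) where
  ev X a := Sum.elim (S8X.ev X a.1) ![Real.log (nm a.2.1) / Real.log X, a.2.2 / Real.log X]
  g _ := 1
  n _ := 0
  s₁ a := S8X.s₁ a.1
  s₂ a := S8X.s₂ a.1

/-- admissible data -/
def okCX (P : DPar) (t₀ : Eis) (a : BcX) (qs : List Pq) : Prop :=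
  a.1.ok ∧ t₀ ∈ SM P.n ∧ (∀ i, Dq.lump (a.2.1 i) ∧ 0 ≤ (a.2.1 i).z) ∧ (∀ p ∈ qs, p.kd = .am) ∧
    0 ≤ a.2.2

/-- the replaced lengths are not negative -/
def okD (a : BcX) : Prop := 0 ≤ (a.2.1 0).z - dz a.1 ∧ 0 ≤ (a.2.1 1).z + dz a.1

/-- number of levels of the plateau of `β` -/
def nW (c : ℝ) (a : Bd) (b : ℝ) : ℕ := min (nO a) (nB (tO a + 2 * (c * a.l)) (Real.exp b))

section
variable {Λ : Type*} (π : Λ → DPar) (h : ℝ → ℝ) (e0 c : ℝ)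

open Classical in
/-- **the error moment of a difference** -/
def ErX (R : Λ → ℝ) (lam : Λ × Eis) (a : BcX) (qs : List Pq) : ℝ :=
  if okCX (π lam.1) lam.2 a qs ∧ okD a then
    M2 (uM (R lam.1) (Real.exp a.1.l) (Real.exp (a.1.l / 20)))
      (Er (pC : ℂ) (Real.exp (e0 * a.1.l)) (JS (nO a.1.toBd)) (omP (nW c a.1.toBd a.2.2))
        (xD h (π lam.1) lam.2 a.2.1 (dz a.1) qs))
  else 0

open Classical in
/-- **the error moment of a single list** -/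
def ErS (R : Λ → ℝ) (lam : Λ × Eis) (a : BcX) (qs : List Pq) : ℝ :=
  if okCX (π lam.1) lam.2 a qs then
    M2 (uM (R lam.1) (Real.exp a.1.l) (Real.exp (a.1.l / 20)))
      (Er (pC : ℂ) (Real.exp (e0 * a.1.l)) (JS (nO a.1.toBd)) (omP (nW c a.1.toBd a.2.2))
        (sqc 1 (alL h ((List.ofFn a.2.1 ++ qs).map (Pt (π lam.1) lam.2)))))
  else 0

open Classical in
/-- **the mismatch moment of a difference**: lumps `a.1.2.1`, amplifier list `qs`, common divisor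
`g = a.2.1`, `Z = e^{a.2.2}` bounds the support of the amplifier -/
def MmX (R : Λ → ℝ) (lam : Λ × Eis) (a : BmX) (qs : List Pq) : ℝ :=
  if (okCX (π lam.1) lam.2 a.1 qs ∧ okD a.1) ∧ IsPrim a.2.1 ∧ Squarefree a.2.1 ∧ 0 ≤ a.2.2 ∧
      ∀ n, sqc 1 (alL h (qs.map (Pt (π lam.1) lam.2))) n ≠ 0 → (nm n : ℝ) ≤ Real.exp a.2.2 then
    M2 (uM (R lam.1) (Real.exp a.1.1.l) (Real.exp (a.1.1.l / 20)))
      (Mm (JW (Real.sqrt (2 ^ nO a.1.1.toBd) * Real.exp a.2.2) (1 / 10)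
          (2 ^ nO a.1.1.toBd * Real.exp a.2.2 ^ 2)) (Real.exp (e0 * a.1.1.l))
        (Real.exp a.2.2) (oN (nW c a.1.1.toBd a.1.2.2)) a.2.1
        (sqc 1 (alL h (qs.map (Pt (π lam.1) lam.2))))
        (xD h (π lam.1) lam.2 a.1.2.1 (dz a.1.1) []))
  else 0

open Classical in
/-- **the mismatch moment of a single list** -/
def MmS (R : Λ → ℝ) (lam : Λ × Eis) (a : BmX) (qs : List Pq) : ℝ :=
  if okCX (π lam.1) lam.2 a.1 qs ∧ IsPrim a.2.1 ∧ Squarefree a.2.1 ∧ 0 ≤ a.2.2 ∧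
      ∀ n, sqc 1 (alL h (qs.map (Pt (π lam.1) lam.2))) n ≠ 0 → (nm n : ℝ) ≤ Real.exp a.2.2 then
    M2 (uM (R lam.1) (Real.exp a.1.1.l) (Real.exp (a.1.1.l / 20)))
      (Mm (JW (Real.sqrt (2 ^ nO a.1.1.toBd) * Real.exp a.2.2) (1 / 10)
          (2 ^ nO a.1.1.toBd * Real.exp a.2.2 ^ 2)) (Real.exp (e0 * a.1.1.l))
        (Real.exp a.2.2) (oN (nW c a.1.1.toBd a.1.2.2)) a.2.1
        (sqc 1 (alL h (qs.map (Pt (π lam.1) lam.2))))
        (sqc 1 (alL h ((List.ofFn a.1.2.1).map (Pt (π lam.1) lam.2)))))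
  else 0

end

/-! ### configurations

`p` = parent (`cu 2, cu 3, cu 4 | cx'`), `p (.inr 1)` = the short replaced length `zs 2`,
`D = cu 2 - zs 2`; child: lumps `v₀ v₁ v₂`, share `x'`, `b` = size of `β` -/

/-- what all the children have -/
structure ChC (c β : ℝ) (Par : Set (Fin 3 ⊕ Fin 5 → ℝ)) (p : IX5 → ℝ) (v₀ v₁ v₂ b x' : ℝ) :
    Prop where
  par : prX p ∈ Par
  zr : ZR β p
  v0 : 0 ≤ v₀
  v1 : 0 ≤ v₁
  v2 : 0 ≤ v₂
  x0 : 0 ≤ x'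
  x1 : x' ≤ cx' (prX p)
  b0 : 0 ≤ b
  /-- the own window is not empty -/
  b1 : 2 * b ≤ top5 (prX p) + 2 * c * cκ (prX p)
  /-- what the lumps lost is `b` + (common divisors with the amplifier) -/
  s1 : b ≤ cN (prX p) - (v₀ + v₁ + v₂)
  s2 : cN (prX p) - (v₀ + v₁ + v₂) ≤ b + (cx' (prX p) - x')

/-- natural lengths -/
def NatL (p : IX5 → ℝ) (v₀ v₁ v₂ : ℝ) : Prop :=
  v₀ ≤ cu (prX p) 2 ∧ v₁ ≤ cu (prX p) 3 ∧ v₂ ≤ cu (prX p) 4

/-- replaced lengths -/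
def RepL (p : IX5 → ℝ) (v₀ v₁ v₂ : ℝ) : Prop :=
  v₀ ≤ p (.inr 1) ∧ v₁ ≤ cu (prX p) 2 + cu (prX p) 3 - p (.inr 1) ∧ v₂ ≤ cu (prX p) 4

/-- the difference of the pair makes sense -/
def DifL (p : IX5 → ℝ) (v₀ v₁ v₂ : ℝ) : Prop :=
  NatL p v₀ v₁ v₂ ∧ 0 ≤ v₀ - (cu (prX p) 2 - p (.inr 1)) ∧ 0 ≤ v₁ + (cu (prX p) 2 - p (.inr 1))

/-- a single list: natural or replaced, lost at least `β κ` -/
def SinL (β : ℝ) (p : IX5 → ℝ) (v₀ v₁ v₂ : ℝ) : Prop :=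
  (NatL p v₀ v₁ v₂ ∨ RepL p v₀ v₁ v₂) ∧ β * cκ (prX p) ≤ cN (prX p) - (v₀ + v₁ + v₂)

section
variable (c β : ℝ) (Par : Set (Fin 3 ⊕ Fin 5 → ℝ))

/-- the base point -/
def bp (q : I8X → ℝ) : IX5 → ℝ := fun i => q (.inl i)

/-- configurations of the children; `L` = `DifL` or `SinL β` -/
def Dom8X (L : (IX5 → ℝ) → ℝ → ℝ → ℝ → Prop) : Set ((I8X → ℝ) × (Kd → ℝ)) :=
  {q | ChC c β Par (bp q.1) (q.1 (.inr 0)) (q.1 (.inr 1)) (q.1 (.inr 2)) (q.1 (.inr 3)) (q.2 .am) ∧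
    L (bp q.1) (q.1 (.inr 0)) (q.1 (.inr 1)) (q.1 (.inr 2)) ∧ q.2 .mo = 0 ∧
    cκ (prX (bp q.1)) / 2 ≤ q.1 (.inr 0) + q.1 (.inr 1) + q.1 (.inr 2) + q.2 .am +
      2 * cx' (prX (bp q.1))}

/-- target of the children -/
def E8X (L0 : (Fin 3 ⊕ Fin 5 → ℝ) → ℝ) (q : (I8X → ℝ) × (Kd → ℝ)) : ℝ :=
  cκ (prX (bp q.1)) + (q.1 (.inr 0) + q.1 (.inr 1) + q.1 (.inr 2)) + q.2 .am +
    L0 (prX (bp q.1))

/-- configurations of the mismatch -/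
def Dom9X (L : (IX5 → ℝ) → ℝ → ℝ → ℝ → Prop) : Set ((I8X ⊕ Fin 2 → ℝ) × (Kd → ℝ)) :=
  {q | (fun q₁ : I8X → ℝ => ChC c β Par (bp q₁) (q₁ (.inr 0)) (q₁ (.inr 1)) (q₁ (.inr 2))
      (q₁ (.inr 3)) (q.2 .am) ∧ L (bp q₁) (q₁ (.inr 0)) (q₁ (.inr 1)) (q₁ (.inr 2)) ∧
      q₁ (.inr 3) = cN (prX (bp q₁)) - (q₁ (.inr 0) + q₁ (.inr 1) + q₁ (.inr 2)) ∧
      q.2 .mo = 0 ∧ 0 ≤ q.1 (.inr 0) ∧ q.1 (.inr 0) ≤ q.2 .am ∧
      q.1 (.inr 1) = cx' (prX (bp q₁)) ∧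
      cκ (prX (bp q₁)) / 2 ≤ q₁ (.inr 0) + q₁ (.inr 1) + q₁ (.inr 2) + q.2 .am -
        2 * q.1 (.inr 0) + 2 * cx' (prX (bp q₁))) fun i => q.1 (.inl i)}

/-- target of the mismatch -/
def E9X (L0 : (Fin 3 ⊕ Fin 5 → ℝ) → ℝ) (q : (I8X ⊕ Fin 2 → ℝ) × (Kd → ℝ)) : ℝ :=
  E8X L0 (fun i => q.1 (.inl i), q.2) - 2 * q.1 (.inr 0)

end

section
variable {Λ : Type*} (π : Λ → DPar) (h : ℝ → ℝ) (e0 c β : ℝ) (Par : Set (Fin 3 ⊕ Fin 5 → ℝ))
  (L0 : (Fin 3 ⊕ Fin 5 → ℝ) → ℝ)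

/-- **P1_0** for the differences -/
def P10X : Prop := ∀ R : Λ → ℝ, (∀ lam, 0 ≤ R lam) →
  UB S8X Dq (ErX π h e0 c R) (Dom8X c β Par DifL) ∅ (E8X L0)

/-- **P1_0** for the single lists which lost at least `β κ` -/
def P10S : Prop := ∀ R : Λ → ℝ, (∀ lam, 0 ≤ R lam) →
  UB S8X Dq (ErS π h e0 c R) (Dom8X c β Par (SinL β)) ∅ (E8X L0)

/-- **P1M** for the differences -/
def P1MX : Prop := ∀ R : Λ → ℝ, (∀ lam, 0 ≤ R lam) →
  UB S9X Dq (MmX π h e0 c R) (Dom9X c β Par DifL) ∅ (E9X L0)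

/-- **P1M** for the single lists which lost at least `β κ` -/
def P1MS : Prop := ∀ R : Λ → ℝ, (∀ lam, 0 ≤ R lam) →
  UB S9X Dq (MmS π h e0 c R) (Dom9X c β Par (SinL β)) ∅ (E9X L0)

end

end Crest.Agent.R017.P1X960
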