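import Crest.Agent.R017.TPXa_791
import Crest.Agent.R017.CTw_436
import Crest.Agent.R017.P1X3_960
import Crest.Agent.R017.P1l_54
import Crest.Agent.R017.I1k_146

/-!
# Row 17, exceptional class (helper791): the lists of the mismatch as untwisted families

* `Pt_prin` : the character of an untwisted lump of an exceptional datum is principal
* `shf_rzD` : the replaced lumps are a shifted pair
* `xD_fam`, `list_fam` : the difference / the single list from the untwisted families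
-/

set_option autoImplicit false
set_option linter.unusedSectionVars false

noncomputable section

open Finset
open scoped ComplexConjugate

namespace Crest.Agent.R017.CR791

open Crest.Agent.R012 Crest.Agent.R012.Eis
open Crest.Agent.R012.Weight600 (osc norm_osc)
open Crest.Agent.R017.HP842 (Pc pc al alL sqc)
open Crest.Agent.R017.B770 Crest.Agent.R017.Prov71
open Crest.Agent.R017.End699 (prin0 NP)
open Crest.Agent.R017.E5B71 (Pt)
open Crest.Agent.R017.I1146 (tw3 LN alL_cop SM_cop)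
open Crest.Agent.R017.FE47 (SM)
open Crest.Agent.R017.ExT764 (Shf shY zeP)
open Crest.Agent.R017.P1X960 (xD rzD cmb)
open Crest.Agent.R017.ExP960 (oc norm_oc rz stz)
open Crest.Agent.R017.GrC828 (LY)
open Crest.Agent.R012.Gauss880 (syG)
open Crest.Agent.R017.Sup271 (NPm)

/-- an untwisted lump of an exceptional datum is principal -/
lemma Pt_prin {P : DPar} (hP : P.OK) (hn : ¬ NPm P.n P.ψ P.l₂ 1) {p : Pq} (hk : p.kd = .mo)
    (b : Eis) (hb : IsPrim b) : (Pt P 1 p).ψ b = prin0 (P.n * p.d) b := by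
  show chK P p.kd b * prin0 p.d b * sy 1 b = _
  rw [hk]
  show P.ψ b * ang P.l₂ b * prin0 p.d b * sy 1 b = _
  unfold NPm NP at hn
  push Not at hn
  obtain ⟨h1, h2⟩ := hn
  have e1 : sy 1 b = 1 := Gauss880.sy_one_left syG hb
  have e2 : ang P.l₂ b = 1 := by rw [h1]; exact End699.ang_zero' b
  rw [P1l54.prin0_mul3, e1, e2]
  by_cases hc : IsCoprime b P.n
  · have h36 : (9 : Eis) ∣ P.n := Dvd.dvd.trans (show (9 : Eis) ∣ 36 from ⟨4, by norm_num⟩) hP.n36
    have h9 : IsCoprime b 9 := hc.of_isCoprime_of_dvd_right h36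
    have h3 := h2 b hb (hc.mul_right (by rw [mul_one]; exact h9))
    rw [e1, mul_one] at h3
    have e3 : prin0 P.n b = 1 := by unfold End699.prin0; rw [if_pos hc]
    rw [h3, e3]
    ring
  · have e3 : prin0 P.n b = 0 := by unfold End699.prin0; rw [if_neg hc]
    rw [hP.ψ.van b hb hc, e3]
    ring

/-- the replaced lumps are a shifted pair -/
lemma shf_rzD (P : DPar) (t : Eis) (vs : Fin 3 → Pq) (D : ℝ) :
    Shf (fun j : Fin 3 => Pt P t (vs j)) (fun j => Pt P t (rzD vs D j)) 0 1 (-D) where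
  ne := by decide
  e1 := by
    show (⟨(vs 0).u, _, Real.exp ((vs 0).z - D), (vs 0).t⟩ : Pc) =
      ⟨(vs 0).u, _, Real.exp (vs 0).z * Real.exp (-D), (vs 0).t⟩
    rw [← Real.exp_add, ← sub_eq_add_neg]
    rfl
  e2 := by
    show (⟨(vs 1).u, _, Real.exp ((vs 1).z + D), (vs 1).t⟩ : Pc) =
      ⟨(vs 1).u, _, Real.exp (vs 1).z * Real.exp (- -D), (vs 1).t⟩
    rw [← Real.exp_add, neg_neg]
    rfl
  e3 := by
    intro i h0 h1
    fin_cases i
    · exact absurd rfl h0
    · exact absurd rfl h1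
    · rfl

lemma alL_Pt (P : DPar) (h : ℝ → ℝ) (t : Eis) (ps : List Pq) :
    alL h (ps.map (Pt P t)) = tw3 t (alL h (ps.map (Pt P 1))) := by
  rw [I1146.alL_tw, I1146.alL_tw h 1]
  funext n
  show sy t n * alL h (ps.map (Pq.pc P)) n = sy t n * (sy 1 n * alL h (ps.map (Pq.pc P)) n)
  by_cases h0 : alL h (ps.map (Pq.pc P)) n = 0
  · simp [h0]
  · rw [Gauss880.sy_one_left syG (I1146.alL_prim h0), one_mul]

lemma sqc_Pt (P : DPar) (h : ℝ → ℝ) (t q : Eis) (ps : List Pq) :
    sqc q (alL h (ps.map (Pt P t))) = tw3 t (sqc q (alL h (ps.map (Pt P 1)))) := by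
  rw [alL_Pt]
  funext n
  unfold HP842.sqc I1146.tw3
  ring

lemma al_get (P : DPar) (h : ℝ → ℝ) (t : Eis) (ps : List Pq) :
    alL h (ps.map (Pt P t)) = al h fun i => Pt P t (ps.get i) := by
  have e : ps.map (Pt P t) = List.ofFn fun i => Pt P t (ps.get i) := by
    conv_lhs => rw [← List.ofFn_get ps]
    rw [List.map_ofFn]
    rfl
  rw [e, ← HP842.al_eq]

lemma al_fn (P : DPar) (h : ℝ → ℝ) (t : Eis) (us : Fin 3 → Pq) :
    alL h ((List.ofFn us).map (Pt P t)) = al h fun j => Pt P t (us j) := by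
  rw [List.map_ofFn, ← HP842.al_eq]
  rfl

lemma LY_get (P : DPar) (t : Eis) (ps : List Pq) :
    LY (fun i => Pt P t (ps.get i)) = LN ps := by
  unfold GrC828.LY
  have e2 : LN ps = (ps.map (·.z)).sum := rfl
  rw [e2]
  conv_rhs => rw [← List.ofFn_get ps]
  rw [List.map_ofFn, List.sum_ofFn]
  refine sum_congr rfl fun i _ => ?_
  show Real.log (Real.exp _) = _
  rw [Real.log_exp]
  rfl

lemma log_Pt (P : DPar) (t : Eis) (p : Pq) : Real.log (Pt P t p).Y = p.z := by
  show Real.log (Real.exp _) = _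
  rw [Real.log_exp]

lemma LY_fn3 (P : DPar) (t : Eis) (us : Fin 3 → Pq) :
    LY (fun j => Pt P t (us j)) = (us 0).z + (us 1).z + (us 2).z := by
  unfold GrC828.LY
  rw [Fin.sum_univ_three, log_Pt, log_Pt, log_Pt]

/-- support of a single list -/
lemma sqc_cop {P : DPar} (hP : P.OK) {h : ℝ → ℝ} {t : Eis} (ht : t ∈ SM P.n) {q : Eis}
    {ps : List Pq} {n : Eis} (hn : sqc q (alL h (ps.map (Pt P 1))) n ≠ 0) :
    IsPrim n ∧ IsCoprime t n := by
  have h1 : alL h (ps.map (Pt P 1)) n ≠ 0 := by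
    unfold HP842.sqc at hn
    exact right_ne_zero_of_mul hn
  rw [I1146.alL_tw] at h1
  have h2 : alL h (ps.map (Pq.pc P)) n ≠ 0 := right_ne_zero_of_mul h1
  obtain ⟨h3, h4⟩ := alL_cop hP h2
  exact ⟨h3, SM_cop ht h4⟩

/-- the difference of the untwisted families of lumps -/
def xU (h : ℝ → ℝ) (P : DPar) (vs : Fin 3 → Pq) (D : ℝ) (n : Eis) : ℂ :=
  sqc 1 (al h fun j => Pt P 1 (vs j)) n -
    zeP (Pt P 1 (vs 0)) (Pt P 1 (vs 1)) (-D) * sqc 1 (al h fun j => Pt P 1 (rzD vs D j)) n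

lemma oc_shift (P : DPar) (vs : Fin 3 → Pq) (D : ℝ) :
    oc vs ((vs 0).z - D) ((vs 1).z + D) =
      oc vs (vs 0).z (vs 1).z * zeP (Pt P 1 (vs 0)) (Pt P 1 (vs 1)) (-D) := by
  show osc (vs 0).t (-((vs 0).z - D)) * osc (vs 1).t (-((vs 1).z + D)) =
    osc (vs 0).t (-(vs 0).z) * osc (vs 1).t (-(vs 1).z) *
      (osc (vs 0).t (- -D) * osc (vs 1).t (-D))
  have e1 : -((vs 0).z - D) = -(vs 0).z + - -D := by ring
  have e2 : -((vs 1).z + D) = -(vs 1).z + -D := by ring
  rw [e1, e2, Weight600.osc_add_right, Weight600.osc_add_right]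
  ring

/-- the difference through the untwisted families -/
lemma xD_fam (h : ℝ → ℝ) (P : DPar) (t : Eis) (vs : Fin 3 → Pq) (D : ℝ) :
    xD h P t vs D [] = fun n => oc vs (vs 0).z (vs 1).z * tw3 t (xU h P vs D) n := by
  funext n
  unfold P1X960.xD P1X960.cmb
  rw [List.append_nil, List.append_nil]
  show oc vs (vs 0).z (vs 1).z * sqc 1 (alL h ((List.ofFn vs).map (Pt P t))) n +
    -oc vs ((vs 0).z - D) ((vs 1).z + D) *
      sqc 1 (alL h ((List.ofFn (rzD vs D)).map (Pt P t))) n = _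
  rw [sqc_Pt P h t, sqc_Pt P h t, oc_shift P, al_fn, al_fn]
  show oc vs (vs 0).z (vs 1).z * (sy t n * sqc 1 (al h fun j => Pt P 1 (vs j)) n) +
    -(oc vs (vs 0).z (vs 1).z * zeP (Pt P 1 (vs 0)) (Pt P 1 (vs 1)) (-D)) *
      (sy t n * sqc 1 (al h fun j => Pt P 1 (rzD vs D j)) n) =
    oc vs (vs 0).z (vs 1).z * (sy t n * xU h P vs D n)
  unfold xU
  ring

lemma xU_cop {P : DPar} (hP : P.OK) {h : ℝ → ℝ} {t : Eis} (ht : t ∈ SM P.n) {vs : Fin 3 → Pq}
    {D : ℝ} {n : Eis} (hn : xU h P vs D n ≠ 0) : IsPrim n ∧ IsCoprime t n := by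
  by_cases h1 : sqc 1 (al h fun j => Pt P 1 (vs j)) n = 0
  · by_cases h2 : sqc 1 (al h fun j => Pt P 1 (rzD vs D j)) n = 0
    · exact absurd (by unfold xU; rw [h1, h2]; ring) hn
    · rw [← al_fn] at h2
      exact sqc_cop hP ht h2
  · rw [← al_fn] at h1
    exact sqc_cop hP ht h1

/-- the coefficient is linear -/
lemma Ae_smul (Z E0 : ℝ) (η α : Eis → ℂ) (z : ℂ) (g : Eis) (c : Fin 5) (s : ℝ) (e D m : Eis) :
    GrG404.Ae Z E0 η (fun n => z * α n) g c s e D m = z * GrG404.Ae Z E0 η α g c s e D m := by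
  classical
  unfold GrG404.Ae GrT828.afW
  rw [mul_sum]
  refine sum_congr rfl fun a _ => ?_
  have e1 : StA828.xa a (StC828.rs g fun n => z * α n) (D * m) =
      z * StA828.xa a (StC828.rs g α) (D * m) := by
    unfold StA828.xa
    split_ifs
    · unfold StC828.rs
      split_ifs
      · rfl
      · ring
    · ring
  rw [e1]
  ring

/-- **`CoreB` at the twisted sequences from the untwisted ones**, unimodular factor -/
theorem coreB_twZ {s : Eis} (hs : s ≠ 0) {η α : Eis → ℂ} (hηc : ∀ n, η n ≠ 0 → IsCoprime s n)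
    (hαp : ∀ n, α n ≠ 0 → IsPrim n) (hαc : ∀ n, α n ≠ 0 → IsCoprime s n) {z : ℂ} (hz : ‖z‖ ≤ 1)
    {Z E0 : ℝ} (hZ : 0 ≤ Z) {g D : Eis} (hg : IsPrim g) (hD : IsPrim D) {c : Fin 5} {t : ℝ}
    {b k J Bd : ℝ}
    (H : GrK404.CoreB (fun e => GrG404.Ae Z E0 η α g c t e D) (GrT828.cc g D) b
      (k + 2 * Real.log (nm s)) J Bd) :
    GrK404.CoreB (fun e => GrG404.Ae Z E0 (tw3 s η) (fun n => z * tw3 s α n) g c t e D)
      (GrT828.cc g D) b k J ((I1146.ds s).card * Bd) := by
  have hαc' : ∀ n, (fun n => z * α n) n ≠ 0 → IsCoprime s n := fun n hn =>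
    hαc n (right_ne_zero_of_mul hn)
  have hαp' : ∀ n, (fun n => z * α n) n ≠ 0 → IsPrim n := fun n hn =>
    hαp n (right_ne_zero_of_mul hn)
  have H' : GrK404.CoreB (fun e => GrG404.Ae Z E0 η (fun n => z * α n) g c t e D)
      (GrT828.cc g D) b (k + 2 * Real.log (nm s)) J Bd := by
    intro Us Js hU hJ es hes τ
    refine le_trans (sum_le_sum fun U _ => sum_le_sum fun j _ => ?_) (H Us Js hU hJ es hes τ)
    have e1 : (fun m => GrG404.Ae Z E0 η (fun n => z * α n) g c t (es U) D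
        (GrT828.cc g D * U * m) * Weight600.pw τ (nm m)) =
        fun m => z * (GrG404.Ae Z E0 η α g c t (es U) D (GrT828.cc g D * U * m) *
          Weight600.pw τ (nm m)) := by
      funext m
      rw [Ae_smul]
      ring
    rw [e1, RG64.TG_const_mul, norm_mul]
    refine pow_le_pow_left₀ (by positivity) (mul_le_of_le_one_left (norm_nonneg _) hz) 2
  have e2 : (fun n => z * tw3 s α n) = tw3 s (fun n => z * α n) := by
    funext n
    show z * (sy s n * α n) = sy s n * (z * α n)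
    ring
  rw [e2]
  exact CTw436.coreB_twA hs hηc hαp' hαc' hZ hg hD H'

end Crest.Agent.R017.CR791
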