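import Crest.Agent.R017.E2b_440
import Crest.Agent.R017.BDefs2_770

/-!
# Row 17, twisted cubic functional equation (C.F1tw): interface (helper590)

* `N3` : natural cubic series with character (440's `NT`)
* `D3` : the dual series (no `e`-sum)
* `Dt3 ι`, `Dt3.OK`, `FE3`, `HasFE3`
* `Pure3 M ψ` : `ψ_p^3 ≠ 1` for all primes `p ∣ M`, `p ∤ 3`
* `StepPure3` : functional equations for pure characters
-/

set_option autoImplicit false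

noncomputable section

open MeasureTheory Complex Set
open scoped ComplexConjugate ContDiff

namespace Crest.Agent.R017.C590

open Crest.Agent.R012 Crest.Agent.R012.Eis
open Crest.Agent.R017.End699 Crest.Agent.R017.Sx440 Crest.Agent.R017.Sx545 Crest.Agent.R017.B770

/-- `Σ_{e,d ∈ Sm M} N(e)² conj (gs u d) χ(d e³) V(N(d e³)/Q)` -/
def N3 (M : Eis) (χ : Eis → ℂ) (u : Eis) (V : ℝ → ℂ) (Q : ℝ) : ℂ :=
  E2440.NT M u (fun k => χ k * V (nm k / Q))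

/-- `Σ_{d ∈ Sm M} conj (gs u d) χ(d) N(d)⁻¹ W(N(d)/Y)` -/
def D3 (M : Eis) (χ : Eis → ℂ) (u : Eis) (W : ℝ → ℂ) (Y : ℝ) : ℂ :=
  E2440.DS M u (fun d => χ d * (nm d : ℂ)⁻¹ * W (nm d / Y))

/-- data of a cubic functional equation -/
structure Dt3 (ι : Type) where
  M' : Eis
  κ : ι → ℂ
  η : ι → Eis → ℂ
  ψ' : ι → Eis → ℂ
  j : ℤ
  l' : ℤ
  ρ : ι → ℝ

/-- well-formedness -/
structure Dt3.OK {ι : Type} (D : Dt3 ι) (M : Eis) : Prop where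
  ne : D.M' ≠ 0
  dvd : M ∣ D.M'
  rad : ∀ p : Eis, Prime p → p ∣ D.M' → p ∣ M
  η : ∀ i, HC D.M' (D.η i)
  ψ' : ∀ i, HC D.M' (D.ψ' i)
  ρ : ∀ i, 0 < D.ρ i

/-- **the cubic functional equation at all primary frequencies prime to `M`** -/
def FE3 {ι : Type} [Fintype ι] (M : Eis) (ψ : Eis → ℂ) (l : ℤ) (D : Dt3 ι) : Prop :=
  ∀ V : ℝ → ℂ, SW V → ∃ W : ι → ℝ → ℝ → ℂ, (∀ i, RD (W i)) ∧
    ∀ (u : Eis), Sm M u → ∀ Q : ℝ, 0 < Q → ∀ τ : ℝ,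
      N3 M (End699.tw ψ l) u (fun y => (y : ℂ) ^ (I * τ) * V y) Q =
        (Q : ℂ) * ∑ i, D.κ i * End699.tw (D.η i) D.j u *
          D3 M (End699.tw (D.ψ' i) D.l') u (W i τ) (D.ρ i * nm u / Q)

/-- existence of a cubic functional equation for `(ψ, l)` on `Sm M` -/
def HasFE3 (M : Eis) (ψ : Eis → ℂ) (l : ℤ) : Prop :=
  ∃ (ι : Type) (_ : Fintype ι) (D : Dt3 ι), D.OK M ∧ FE3 M ψ l D

/-- `ψ` is pure at `p` (prime, `p ∤ 3`): `ψ_p^3 ≠ 1`. -/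
def PureAt3 (M : Eis) (ψ : Eis → ℂ) (p : Eis) : Prop :=
  ∀ (v : ℕ) (M₁ : Eis), M = p ^ v * M₁ → ¬ p ∣ M₁ →
    ∃ b : Eis, IsPrim b ∧ M₁ ∣ b - 1 ∧ ¬ p ∣ b ∧ ψ b ^ 3 ≠ 1

/-- `ψ` is pure at all primes `p ∣ M`, `p ∤ 3` -/
def Pure3 (M : Eis) (ψ : Eis → ℂ) : Prop :=
  ∀ p : Eis, Prime p → p ∣ M → ¬ p ∣ 3 → PureAt3 M ψ p

/-- no main term -/
def NoPole (M : Eis) (ψ : Eis → ℂ) (l : ℤ) : Prop := l ≠ 0 ∨ ∃ b, Sm M b ∧ ψ b ^ 3 ≠ 1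

/-- **the input**: cubic functional equations for pure characters -/
def StepPure3 : Prop :=
  ∀ M : Eis, (9 : Eis) ∣ M → ∀ ψ : Eis → ℂ, HC M ψ → Pure3 M ψ → ∀ l : ℤ, NoPole M ψ l →
    HasFE3 M ψ l

end Crest.Agent.R017.C590
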