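import Crest.Agent.R017.CT0_590
import Crest.Agent.R017.AS5_590

/-!
# Row 17, C.F1tw part (D): the local identities (helper590)

* `N3_zero`, `N3_one`, `N3_two` : the left series modulo `M = p^v M₁` with character `χ sy(p,·)^i`
* `D3_zero`, `D3_one`, `D3_two` : the dual series modulo `M₁` at the frequencies `u p^i`
-/

set_option autoImplicit false

noncomputable section

open Complex Set
open scoped ComplexConjugate ContDiff

namespace Crest.Agent.R017.C590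

open Crest.Agent.R012 Crest.Agent.R012.Eis Crest.Agent.R012.GaussLoc283
open Crest.Agent.R017.End699 Crest.Agent.R017.Sx440 Crest.Agent.R017.Sx545 Crest.Agent.R017.B770
open Crest.Agent.R017.A590
open Crest.Agent.R017.E2440 (NT DS Dcy c0 c1)

variable {M M₁ p u : Eis} {χ : Eis → ℂ} {V : ℝ → ℂ} {Q : ℝ}

/-- the elements prime to `M` are the elements prime to `M₁` and `p` -/
structure Ext3 (M M₁ p : Eis) : Prop where
  three : (3 : Eis) ∣ M₁
  pr : Prime p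
  sp : Sm M₁ p
  iff : ∀ b, Sm M b ↔ Sm M₁ b ∧ ¬ p ∣ b

lemma Ext3.low (h : Ext3 M M₁ p) {b : Eis} (hb : Sm M b) : Sm M₁ b := ((h.iff b).mp hb).1
lemma Ext3.ndvd (h : Ext3 M M₁ p) {b : Eis} (hb : Sm M b) : ¬ p ∣ b := ((h.iff b).mp hb).2
lemma Ext3.cop (h : Ext3 M M₁ p) {b : Eis} (hb : Sm M b) : IsCoprime p b :=
  h.pr.irreducible.coprime_iff_not_dvd.mpr (h.ndvd hb)

lemma Ext3.q_pos (h : Ext3 M M₁ p) : (0 : ℝ) < nm p := by
  exact_mod_cast nm_pos.mpr h.pr.ne_zero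

lemma Ext3.qC (h : Ext3 M M₁ p) : (nm p : ℂ) ≠ 0 := by
  have := h.q_pos
  exact_mod_cast this.ne'

lemma Ext3.sm_eq (h : Ext3 M M₁ p) : Sm (M₁ * p) = Sm M := by
  funext b
  have := congrFun (E2440.sm_mul_right (M := M₁) (p := p)) b
  rw [this]
  refine propext ?_
  rw [h.iff b, E2440.cop_iff h.pr b]

lemma NT_ext (h : Ext3 M M₁ p) (u : Eis) (φ : Eis → ℂ) : NT (M₁ * p) u φ = NT M u φ := by
  unfold NT DS
  rw [h.sm_eq]

lemma DS_ext (h : Ext3 M M₁ p) (u : Eis) (φ : Eis → ℂ) : DS (M₁ * p) u φ = DS M u φ := by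
  unfold DS
  rw [h.sm_eq]

lemma DS_congr {φ φ' : Eis → ℂ} (h : ∀ k, Sm M k → φ k = φ' k) (u : Eis) :
    DS M u φ = DS M u φ' := by
  classical
  unfold DS
  refine tsum_congr fun d => ?_
  by_cases hd : Sm M d
  · rw [if_pos hd, if_pos hd, h d hd]
  · rw [if_neg hd, if_neg hd]

lemma NT_congr {φ φ' : Eis → ℂ} (h : ∀ k, Sm M k → φ k = φ' k) (u : Eis) :
    NT M u φ = NT M u φ' := by
  classical
  unfold NT
  refine tsum_congr fun e => ?_
  by_cases he : Sm M e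
  · rw [if_pos he, if_pos he]
    congr 1
    exact DS_congr (fun k hk => h _ (hk.mul (he.pow 3))) u
  · rw [if_neg he, if_neg he]

lemma DS_smul (c : ℂ) (u : Eis) (φ : Eis → ℂ) : DS M u (fun d => c * φ d) = c * DS M u φ := by
  classical
  unfold DS
  rw [← tsum_mul_left]
  refine tsum_congr fun d => ?_
  split_ifs
  · ring
  · rw [mul_zero]

lemma NT_smul (c : ℂ) (u : Eis) (φ : Eis → ℂ) : NT M u (fun d => c * φ d) = c * NT M u φ := by
  classical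
  unfold NT
  rw [← tsum_mul_left]
  refine tsum_congr fun d => ?_
  split_ifs
  · rw [DS_smul]; ring
  · rw [mul_zero]

/-- frequency shift -/
lemma DS_shift (hp : ∀ d, Sm M d → IsCoprime p d) (k : ℕ) (u : Eis) (φ : Eis → ℂ) :
    DS M (u * p ^ k) φ = DS M u (fun d => sy p d ^ k * φ d) := by
  classical
  unfold DS
  refine tsum_congr fun d => ?_
  by_cases hd : Sm M d
  · rw [if_pos hd, if_pos hd, gs_mul_left syAx u hd.1 (hp d hd).pow_left, syAx.pow_left p hd.1 k,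
      map_mul, map_pow, map_pow, Complex.conj_conj]
    ring
  · rw [if_neg hd, if_neg hd]

lemma NT_shift (hp : ∀ d, Sm M d → IsCoprime p d) (k : ℕ) (u : Eis) (φ : Eis → ℂ) :
    NT M (u * p ^ k) φ = NT M u (fun d => sy p d ^ k * φ d) := by
  classical
  unfold NT
  refine tsum_congr fun e => ?_
  by_cases he : Sm M e
  · rw [if_pos he, if_pos he, DS_shift hp]
    congr 1
    refine DS_congr (fun d hd => ?_) u
    congr 2
    rw [syAx.mul_right p d (e ^ 3) hd.1 (he.1.pow 3), syAx.pow_right p he.1 3,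
      syAx.cube p e he.1 (hp e he), mul_one]
  · rw [if_neg he, if_neg he]

/-! ### the weights -/

/-- decay of order 3 at infinity -/
def VB (V : ℝ → ℂ) : Prop := ∃ C : ℝ, 0 ≤ C ∧ ∀ y, 0 < y → ‖V y‖ ≤ C * (y ^ 3)⁻¹

lemma vb_of_sw (hV : SW V) (τ : ℝ) : VB (fun y => (y : ℂ) ^ (I * τ) * V y) := by
  obtain ⟨C, hC⟩ := hV.cpt.exists_bound_of_continuous hV.smooth.continuous
  have hC0 : 0 ≤ C := (norm_nonneg _).trans (hC 0)
  obtain ⟨R, hR⟩ := hV.cpt.isCompact.bddAbove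
  refine ⟨C * (max R 1) ^ 3, by positivity, fun y hy => ?_⟩
  have h1 : ‖(y : ℂ) ^ (I * τ)‖ = 1 := by
    rw [Complex.norm_cpow_eq_rpow_re_of_pos hy]
    simp
  rw [norm_mul, h1, one_mul]
  by_cases hy2 : y ≤ max R 1
  · have h2 : (1 : ℝ) ≤ (max R 1) ^ 3 * (y ^ 3)⁻¹ := by
      rw [← div_eq_mul_inv, le_div_iff₀ (by positivity), one_mul]
      exact pow_le_pow_left₀ hy.le hy2 3
    calc ‖V y‖ ≤ C := hC y
      _ = C * 1 := (mul_one C).symm
      _ ≤ C * ((max R 1) ^ 3 * (y ^ 3)⁻¹) := mul_le_mul_of_nonneg_left h2 hC0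
      _ = _ := by ring
  · have h3 : V y = 0 := by
      apply image_eq_zero_of_notMem_tsupport
      intro hmem
      exact hy2 ((hR hmem).trans (le_max_left R 1))
    rw [h3, norm_zero]
    positivity

open Classical in
/-- restriction to `Sm M` -/
def fr (M : Eis) (φ : Eis → ℂ) (k : Eis) : ℂ := if Sm M k then φ k else 0

lemma fr_of {φ : Eis → ℂ} {k : Eis} (hk : Sm M k) : fr M φ k = φ k := by
  unfold fr; rw [if_pos hk]

lemma NT_fr (u : Eis) (φ : Eis → ℂ) : NT M u (fr M φ) = NT M u φ :=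
  NT_congr (fun _ hk => fr_of hk) u

lemma DS_fr (u : Eis) (φ : Eis → ℂ) : DS M u (fr M φ) = DS M u φ :=
  DS_congr (fun _ hk => fr_of hk) u

lemma dcy_fr {φ : Eis → ℂ} {C : ℝ} (hC : 0 ≤ C)
    (h : ∀ k, Sm M k → ‖φ k‖ ≤ C * ((nm k : ℝ) ^ 3)⁻¹) : Dcy (fr M φ) := by
  refine ⟨C, fun k _ => ?_⟩
  unfold fr
  split_ifs with hk
  · exact h k hk
  · rw [norm_zero]; positivity

lemma dcy_N (hb : ∀ k, Sm M₁ k → ‖χ k‖ ≤ 1) (hV : VB V) (hQ : 0 < Q) :
    Dcy (fr M₁ (fun k => χ k * V (nm k / Q))) := by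
  obtain ⟨C, hC, h⟩ := hV
  refine dcy_fr (C := C * Q ^ 3) (by positivity) fun k hk => ?_
  have hk0 : (0 : ℝ) < nm k := by exact_mod_cast nm_pos.mpr hk.ne_zero
  rw [norm_mul]
  calc ‖χ k‖ * ‖V (nm k / Q)‖ ≤ 1 * (C * (((nm k : ℝ) / Q) ^ 3)⁻¹) :=
        mul_le_mul (hb k hk) (h _ (by positivity)) (norm_nonneg _) zero_le_one
    _ = _ := by rw [div_pow, inv_div]; ring

/-! ### the left side -/

section left

variable (h : Ext3 M M₁ p) (hmul : ∀ a b, Sm M₁ a → Sm M₁ b → χ (a * b) = χ a * χ b)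
  (hb : ∀ k, Sm M₁ k → ‖χ k‖ ≤ 1) (hV : VB V) (hu : Sm M u) (hQ : 0 < Q)
include h hmul hb hV hu hQ

lemma N3_dil (v : Eis) (k : ℕ) : NT M₁ v (fun x => fr M₁ (fun x => χ x * V (nm x / Q)) (p ^ k * x)) =
    χ (p ^ k) * N3 M₁ χ v V (Q / (nm p : ℝ) ^ k) := by
  unfold N3
  rw [← NT_smul]
  refine NT_congr (fun x hx => ?_) v
  have hpk := h.sp.pow k
  rw [fr_of (hpk.mul hx), hmul _ _ hpk hx, nm_mul, nm_pow]
  push_cast
  rw [div_div_eq_mul_div, mul_comm ((nm p : ℝ) ^ k), mul_assoc]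

theorem N3_zero : N3 M χ u V Q = N3 M₁ χ u V Q -
    c0 p u * χ p * N3 M₁ χ (u * p) V (Q / nm p) := by
  have h1 := E2440.NT_rem0 h.sp h.pr (h.ndvd hu) (dcy_N hb hV hQ)
  have h2 := N3_dil h hmul hb hV hu hQ (u * p) 1
  rw [pow_one, pow_one] at h2
  rw [h2, NT_ext h, NT_fr] at h1
  have h3 : NT M u (fr M₁ fun k => χ k * V (nm k / Q)) = N3 M χ u V Q :=
    NT_congr (fun x hx => fr_of (h.low hx)) u
  rw [h3] at h1
  rw [h1]
  unfold N3
  ring

theorem N3_one : N3 M (fun k => χ k * sy p k) u V Q = N3 M₁ χ (u * p) V Q -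
    c1 p u * χ (p ^ 2) * N3 M₁ χ u V (Q / (nm p : ℝ) ^ 2) := by
  have h1 := E2440.NT_rem1 h.sp h.pr (h.ndvd hu) (dcy_N hb hV hQ)
  have h2 := N3_dil h hmul hb hV hu hQ u 2
  rw [h2, NT_ext h, NT_fr] at h1
  have h3 : NT M (u * p) (fr M₁ fun k => χ k * V (nm k / Q)) =
      N3 M (fun k => χ k * sy p k) u V Q := by
    have h4 := NT_shift (M := M) (fun d hd => h.cop hd) 1 u (fr M₁ fun k => χ k * V (nm k / Q))
    rw [pow_one] at h4
    rw [h4]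
    refine NT_congr (fun x hx => ?_) u
    rw [fr_of (h.low hx), pow_one]
    ring
  rw [h3] at h1
  rw [h1]
  unfold N3
  ring

theorem N3_two : N3 M (fun k => χ k * sy p k ^ 2) u V Q = N3 M₁ χ (u * p ^ 2) V Q := by
  have h1 := E2440.NT_rem2 h.sp h.pr (h.ndvd hu) (dcy_N hb hV hQ)
  rw [NT_ext h, NT_fr] at h1
  have h3 : NT M (u * p ^ 2) (fr M₁ fun k => χ k * V (nm k / Q)) =
      N3 M (fun k => χ k * sy p k ^ 2) u V Q := by
    rw [NT_shift (M := M) (fun d hd => h.cop hd) 2 u]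
    refine NT_congr (fun x hx => ?_) u
    rw [fr_of (h.low hx)]
    ring
  rw [h3] at h1
  exact h1

end left

/-! ### the dual side -/

section dual

variable {W : ℝ → ℂ} {Y : ℝ}

/-- decay of order 2 at infinity -/
def WB (W : ℝ → ℂ) : Prop := ∃ C : ℝ, 0 ≤ C ∧ ∀ y, 0 < y → ‖W y‖ ≤ C * (y ^ 2)⁻¹

lemma wb_of_rd {W : ℝ → ℝ → ℂ} (hW : RD W) (τ : ℝ) : WB (W τ) := by
  obtain ⟨C, hC, hb⟩ := RD.bound hW 2 τ
  exact ⟨C, hC, fun y hy => (hb y hy).trans (mul_le_mul_of_nonneg_left (min_le_right _ _) hC)⟩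

lemma dcy_D (hb : ∀ k, Sm M₁ k → ‖χ k‖ ≤ 1) (hW : WB W) (hY : 0 < Y) :
    Dcy (fr M₁ (fun d => χ d * (nm d : ℂ)⁻¹ * W (nm d / Y))) := by
  obtain ⟨C, hC, h⟩ := hW
  refine dcy_fr (C := C * Y ^ 2) (by positivity) fun k hk => ?_
  have hk0 : (0 : ℝ) < nm k := by exact_mod_cast nm_pos.mpr hk.ne_zero
  rw [norm_mul, norm_mul, norm_inv, Complex.norm_natCast]
  calc ‖χ k‖ * (nm k : ℝ)⁻¹ * ‖W (nm k / Y)‖ ≤ 1 * (nm k : ℝ)⁻¹ * (C * (((nm k : ℝ) / Y) ^ 2)⁻¹) := by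
        gcongr
        · exact hb k hk
        · exact h _ (by positivity)
    _ = _ := by rw [div_pow, inv_div]; field_simp

variable (h : Ext3 M M₁ p) (hmul : ∀ a b, Sm M₁ a → Sm M₁ b → χ (a * b) = χ a * χ b)
  (hb : ∀ k, Sm M₁ k → ‖χ k‖ ≤ 1) (hW : WB W) (hu : Sm M u) (hY : 0 < Y)
include h hmul hb hW hu hY

lemma D3_dil (v : Eis) (k : ℕ) :
    DS M v (fun x => fr M₁ (fun d => χ d * (nm d : ℂ)⁻¹ * W (nm d / Y)) (p ^ k * x)) =
    χ (p ^ k) * ((nm p : ℂ) ^ k)⁻¹ * D3 M χ v W (Y / (nm p : ℝ) ^ k) := by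
  unfold D3
  rw [← DS_smul]
  refine DS_congr (fun x hx => ?_) v
  have hpk := h.sp.pow k
  have hx1 := h.low hx
  rw [fr_of (hpk.mul hx1), hmul _ _ hpk hx1, nm_mul, nm_pow]
  push_cast
  rw [div_div_eq_mul_div, mul_comm ((nm p : ℝ) ^ k), mul_inv]
  ring

lemma D3_fr (v : Eis) : DS M v (fr M₁ fun d => χ d * (nm d : ℂ)⁻¹ * W (nm d / Y)) = D3 M χ v W Y :=
  DS_congr (fun x hx => fr_of (h.low hx)) v

lemma D3_shift (k : ℕ) : D3 M χ (u * p ^ k) W Y = D3 M (fun d => χ d * sy p d ^ k) u W Y := by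
  unfold D3
  rw [DS_shift (M := M) (fun d hd => h.cop hd) k u]
  exact DS_congr (fun x hx => by ring) u

theorem D3_zero : D3 M₁ χ u W Y = D3 M χ u W Y + c0 p u * (χ p * ((nm p : ℂ))⁻¹) *
    D3 M (fun d => χ d * sy p d) u W (Y / nm p) := by
  have hY' : 0 < Y / (nm p : ℝ) := by have := h.q_pos; positivity
  have h1 := E2440.DS_p0 h.sp h.pr (h.ndvd hu) (dcy_D hb hW hY)
  have h2 := D3_dil h hmul hb hW hu hY (u * p) 1
  have h3 := D3_shift h hmul hb hW hu hY' 1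
  simp only [pow_one] at h2 h3
  rw [DS_fr, DS_ext h, DS_ext h, h2, h3, D3_fr h hmul hb hW hu hY] at h1
  unfold D3 at h1 ⊢
  rw [h1]
  unfold c0
  ring

theorem D3_one : D3 M₁ χ (u * p) W Y = D3 M (fun d => χ d * sy p d) u W Y +
    c1 p u * (χ (p ^ 2) * ((nm p : ℂ) ^ 2)⁻¹) * D3 M χ u W (Y / (nm p : ℝ) ^ 2) := by
  have h1 := E2440.DS_p1 h.sp h.pr (h.ndvd hu) (dcy_D hb hW hY)
  have h2 := D3_dil h hmul hb hW hu hY u 2
  have h3 := D3_shift h hmul hb hW hu hY 1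
  simp only [pow_one] at h3
  rw [DS_fr, DS_ext h, DS_ext h, h2, D3_fr h hmul hb hW hu hY, h3] at h1
  unfold D3 at h1 ⊢
  rw [h1]
  unfold c1
  ring

theorem D3_two : D3 M₁ χ (u * p ^ 2) W Y = D3 M (fun d => χ d * sy p d ^ 2) u W Y +
    (-(nm p : ℂ) ^ 2) * (χ (p ^ 3) * ((nm p : ℂ) ^ 3)⁻¹) *
      D3 M (fun d => χ d * sy p d ^ 2) u W (Y / (nm p : ℝ) ^ 3) := by
  have hY' : 0 < Y / (nm p : ℝ) ^ 3 := by have := h.q_pos; positivity
  have h1 := E2440.DS_p2 h.sp h.pr (h.ndvd hu) (dcy_D hb hW hY)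
  have h2 := D3_dil h hmul hb hW hu hY (u * p ^ 2) 3
  have h3 := D3_shift h hmul hb hW hu hY 2
  have h4 := D3_shift h hmul hb hW hu hY' 2
  rw [DS_fr, DS_ext h, DS_ext h, h2, D3_fr h hmul hb hW hu hY, h3, h4] at h1
  unfold D3 at h1 ⊢
  rw [h1]
  ring

end dual

end Crest.Agent.R017.C590
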