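import Crest.Agent.R017.CT2_590
import Crest.Agent.R017.AS8_590

/-!
# Row 17, C.F1tw part (D): reduction to pure characters (helper590)

`exists_low3` : `ψ = ψ₁ sy(p,·)^m`; `hasFE3_of_pure : StepPure3 → HasFE3` for all characters.
-/

set_option autoImplicit false

noncomputable section

open Complex Set
open scoped ComplexConjugate ContDiff

namespace Crest.Agent.R017.C590

open Crest.Agent.R012 Crest.Agent.R012.Eis Crest.Agent.R012.GaussLoc283
open Crest.Agent.R017.End699 Crest.Agent.R017.Sx440 Crest.Agent.R017.Sx545 Crest.Agent.R017.B770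
open Crest.Agent.R017.A590

variable {M M₁ p : Eis} {ψ χ : Eis → ℂ}

/-- the local statement at `p` (helper960): `ψ_p^3 = 1` implies `ψ_p = (·/p)_3^i` -/
def ThetaP3 : Prop := ∀ {M M₁ p : Eis} {v : ℕ} (_hp : Prime p) (_hsp : Sm M₁ p)
  (_h3 : (3 : Eis) ∣ M₁) (_hM : M = p ^ v * M₁) (_hv : v ≠ 0) {ψ : Eis → ℂ} (_h : Uni M ψ)
  (_hc : ∀ b, IsPrim b → M₁ ∣ b - 1 → ¬ p ∣ b → ψ b ^ 3 = 1),
  ∃ i ≤ 2, ∀ b, IsPrim b → M₁ ∣ b - 1 → ¬ p ∣ b → ψ b = sy b p ^ i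

lemma exists_up3 (h : Ext3 M M₁ p) {b : Eis} (hb : Sm M₁ b) :
    ∃ b', Sm M b' ∧ M₁ ∣ b' - b := by
  by_cases hpb : p ∣ b
  · refine ⟨b + M₁, (h.iff _).mpr ⟨⟨?_, ?_⟩, ?_⟩, by simp⟩
    · have : b + M₁ - 1 = (b - 1) + M₁ := by ring
      unfold IsPrim
      rw [this]
      exact dvd_add hb.1 h.three
    · obtain ⟨u, v, huv⟩ := hb.2
      exact ⟨u, v - u, by linear_combination huv⟩
    · intro h1
      have h2 : p ∣ M₁ := (dvd_add_right hpb).mp h1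
      exact h.pr.not_isUnit (h.sp.2.isUnit_of_dvd' dvd_rfl h2)
  · exact ⟨b, (h.iff b).mpr ⟨hb, hpb⟩, by simp⟩

lemma uni_congr3 (h : Ext3 M M₁ p) (hM₁ : M₁ ∣ M) (hχ : Uni M χ)
    (ht : ∀ b, AA M₁ p b → χ b = 1) {a b : Eis} (ha : Sm M a) (hb : Sm M b) (hab : M₁ ∣ a - b) :
    χ a = χ b := by
  have h3 : (3 : Eis) ∣ M := h.three.trans hM₁
  obtain ⟨c, hc, hbc⟩ := exists_inv_sm h3 hb
  have e1 : χ (b * c) = 1 := by
    rw [hχ.per _ 1 (hb.mul hc) (Sm.one M) hbc, hχ.one]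
  have e2 : χ (a * c) = 1 := by
    refine ht _ ⟨(ha.mul hc).1, ?_, h.ndvd (ha.mul hc)⟩
    have : a * c - 1 = (a - b) * c + (b * c - 1) := by ring
    rw [this]
    exact dvd_add (hab.mul_right _) (hM₁.trans hbc)
  rw [hχ.mul _ _ hb hc] at e1
  rw [hχ.mul _ _ ha hc] at e2
  have hc0 : χ c ≠ 0 := by
    intro h0
    have := hχ.norm c hc
    rw [h0, norm_zero] at this
    exact zero_ne_one this
  exact mul_right_cancel₀ hc0 (e2.trans e1.symm)

lemma dn_eq3 (h : Ext3 M M₁ p) (hM₁ : M₁ ∣ M) (hχ : Uni M χ)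
    (ht : ∀ b, AA M₁ p b → χ b = 1) {a a' : Eis} (ha' : Sm M a') (haa : M₁ ∣ a' - a) :
    dn M M₁ χ a = χ a' := by
  have he : ∃ a', Sm M a' ∧ M₁ ∣ a' - a := ⟨a', ha', haa⟩
  unfold dn
  rw [dif_pos he]
  refine uni_congr3 h hM₁ hχ ht he.choose_spec.1 ha' ?_
  have := dvd_sub he.choose_spec.2 haa
  rwa [sub_sub_sub_cancel_right] at this

lemma dn_uni3 (h : Ext3 M M₁ p) (hM₁ : M₁ ∣ M) (hχ : Uni M χ)
    (ht : ∀ b, AA M₁ p b → χ b = 1) : Uni M₁ (dn M M₁ χ) where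
  one := by rw [dn_eq3 h hM₁ hχ ht (Sm.one M) (by simp), hχ.one]
  mul a b ha hb := by
    obtain ⟨a', ha', haa⟩ := exists_up3 h ha
    obtain ⟨b', hb', hbb⟩ := exists_up3 h hb
    rw [dn_eq3 h hM₁ hχ ht ha' haa, dn_eq3 h hM₁ hχ ht hb' hbb,
      dn_eq3 h hM₁ hχ ht (ha'.mul hb') (a := a * b), hχ.mul _ _ ha' hb']
    have : a' * b' - a * b = (a' - a) * b' + a * (b' - b) := by ring
    rw [this]
    exact dvd_add (haa.mul_right _) (hbb.mul_left _)
  norm a ha := by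
    obtain ⟨a', ha', haa⟩ := exists_up3 h ha
    rw [dn_eq3 h hM₁ hχ ht ha' haa, hχ.norm a' ha']
  per a b ha hb hab := by
    obtain ⟨a', ha', haa⟩ := exists_up3 h ha
    rw [dn_eq3 h hM₁ hχ ht ha' haa, dn_eq3 h hM₁ hχ ht ha']
    have : a' - b = (a' - a) + (a - b) := by ring
    rw [this]
    exact dvd_add haa hab

/-- **splitting off the cubic component** -/
theorem exists_low3 (hΘ : ThetaP3) (h : Ext3 M M₁ p) {v : ℕ} (hv0 : v ≠ 0) (hv : M = p ^ v * M₁)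
    (hψ : HC M ψ) (h6 : ∀ b, IsPrim b → M₁ ∣ b - 1 → ¬ p ∣ b → ψ b ^ 3 = 1) :
    ∃ ψ₁, HC M₁ ψ₁ ∧ ∃ m ≤ 2, ∀ b, Sm M b → ψ b = ψ₁ b * sy p b ^ m := by
  have hM₁ : M₁ ∣ M := by rw [hv]; exact dvd_mul_left _ _
  have hM₁0 : M₁ ≠ 0 := fun h0 => hψ.q0 (zero_dvd_iff.mp (h0 ▸ hM₁))
  have hp : p ∣ M := by rw [hv]; exact (dvd_pow_self p hv0).mul_right _
  have hU := uni_of_HC hψ
  obtain ⟨i, hi, hth⟩ := hΘ h.pr h.sp h.three hv hv0 hU h6
  have u1 : Uni M (fun b => sy b p) :=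
    { one := syAx.one_left h.sp.1
      mul := fun a b _ _ => syAx.mul_left a b p h.sp.1
      norm := fun a ha => syAx.norm_eq_one h.sp.1 (IsCoprime.of_isCoprime_of_dvd_right ha.2 hp)
      per := fun a b _ _ hab => syAx.congr a b p h.sp.1 (hp.trans hab) }
  have hχ : Uni M (fun b => ψ b * conj (sy b p) ^ i) := by
    have := hU.mul' (u1.conj'.pow i)
    exact this
  set χ : Eis → ℂ := fun b => ψ b * conj (sy b p) ^ i with hχd
  have hcm : ∀ b, IsCoprime b p → conj (sy b p) * sy b p = 1 :=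
    fun b hb => syAx.conj_mul h.sp.1 hb
  have ht : ∀ b, AA M₁ p b → χ b = 1 := by
    intro b hb
    have hbp : IsCoprime b p := (E2440.cop_iff h.pr b).mpr hb.2.2
    simp only [hχd]
    rw [hth b hb.1 hb.2.1 hb.2.2, ← mul_pow, mul_comm, hcm b hbp, one_pow]
  have hdn := dn_uni3 h hM₁ hχ ht
  refine ⟨Rst M₁ (dn M M₁ χ), hc_rst hM₁0 h.three hdn, i, hi, fun b hb => ?_⟩
  have hb1 := h.low hb
  rw [Rst_of hb1.2, dn_eq3 h hM₁ hχ ht hb (by simp)]
  simp only [hχd]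
  rw [syAx.recip p b h.sp.1 hb.1, mul_assoc, ← mul_pow, hcm b (h.cop hb).symm, one_pow, mul_one]

/-- the setting of the induction step -/
lemma exists_ext3 {M p : Eis} {v : ℕ} {M₁ : Eis} (h9 : (9 : Eis) ∣ M) (hp : Prime p)
    (hp3 : ¬ p ∣ 3) (hpM : p ∣ M) (hM : M = p ^ v * M₁) (hpM₁ : ¬ p ∣ M₁) (hprim : IsPrim p) :
    Ext3 M M₁ p ∧ v ≠ 0 ∧ (9 : Eis) ∣ M₁ := by
  have hv : v ≠ 0 := by
    rintro rfl
    rw [pow_zero, one_mul] at hM
    exact hpM₁ (hM ▸ hpM)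
  have hp9 : ¬ p ∣ 9 := by
    intro h
    have : (9 : Eis) = 3 * 3 := by norm_num
    rw [this] at h
    rcases hp.dvd_or_dvd h with h | h <;> exact hp3 h
  have hcop9 : IsCoprime (9 : Eis) (p ^ v) :=
    (hp.irreducible.coprime_iff_not_dvd.mpr hp9).symm.pow_right
  have h9' : (9 : Eis) ∣ M₁ := by
    rw [hM] at h9
    exact hcop9.dvd_of_dvd_mul_left h9
  have hcop : IsCoprime p M₁ := hp.irreducible.coprime_iff_not_dvd.mpr hpM₁
  refine ⟨⟨Dvd.dvd.trans ⟨3, by norm_num⟩ h9', hp, ⟨hprim, hcop⟩, fun b => ?_⟩, hv, h9'⟩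
  constructor
  · rintro ⟨hb1, hb2⟩
    rw [hM] at hb2
    refine ⟨⟨hb1, hb2.of_mul_right_right⟩, fun hd => ?_⟩
    have h1 : IsCoprime b (p ^ v) := hb2.of_mul_right_left
    have h2 : p ∣ p ^ v := dvd_pow_self p hv
    exact hp.not_isUnit (h1.isUnit_of_dvd' hd h2)
  · rintro ⟨⟨hb1, hb2⟩, hb3⟩
    refine ⟨hb1, ?_⟩
    rw [hM]
    exact IsCoprime.mul_right (hp.irreducible.coprime_iff_not_dvd.mpr hb3).symm.pow_right hb2

theorem hasFE3_aux (hΘ : ThetaP3) (H : StepPure3) : ∀ n : ℕ, ∀ M : Eis, nm M = n → (9 : Eis) ∣ M →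
    ∀ ψ : Eis → ℂ, HC M ψ → ∀ l : ℤ, NoPole M ψ l → HasFE3 M ψ l := by
  intro n
  induction n using Nat.strong_induction_on with
  | _ n ih =>
    intro M hn h9 ψ hψ l hl
    by_cases hP : Pure3 M ψ
    · exact H M h9 ψ hψ hP l hl
    · unfold Pure3 PureAt3 at hP
      push Not at hP
      obtain ⟨p, hp, hpM, hp3, v, M₁, hM, hpM₁, h6⟩ := hP
      have hlam : ¬ lam ∣ p := by
        intro hd
        have h1 : Associated lam p := prime_lam.associated_of_dvd hp hd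
        exact hp3 (h1.symm.dvd.trans lam_dvd_three)
      obtain ⟨u, hu⟩ := exists_unit_mul_isPrim hlam
      -- the primary associate
      set p' : Eis := u * p with hp'
      set M₁' : Eis := ((u⁻¹ : Eisˣ) : Eis) ^ v * M₁ with hM₁'
      have huu : ((u⁻¹ : Eisˣ) : Eis) * (u : Eis) = 1 := by simp
      have hM' : M = p' ^ v * M₁' := by
        rw [hp', hM₁', mul_pow, hM]
        calc p ^ v * M₁ = (((u⁻¹ : Eisˣ) : Eis) * (u : Eis)) ^ v * (p ^ v * M₁) := by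
              rw [huu, one_pow, one_mul]
          _ = _ := by rw [mul_pow]; ring
      have hass : Associated p p' := ⟨u, by rw [hp']; ring⟩
      have hpp' : Prime p' := hass.prime hp
      have hp3' : ¬ p' ∣ 3 := fun h => hp3 (hass.dvd.trans h)
      have hpM' : p' ∣ M := hass.symm.dvd.trans hpM
      have hass1 : Associated M₁ M₁' := by
        refine ⟨(u⁻¹) ^ v, ?_⟩
        rw [hM₁']
        push_cast
        ring
      have hpM₁' : ¬ p' ∣ M₁' := fun h => hpM₁ (hass.dvd.trans (h.trans hass1.symm.dvd))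
      obtain ⟨hE, hv0, h9'⟩ := exists_ext3 h9 hpp' hp3' hpM' hM' hpM₁' hu
      obtain ⟨ψ₁, hψ₁, m, hm, hd⟩ := exists_low3 hΘ hE hv0 hM' hψ (by
        intro b hb1 hb2 hb3
        exact h6 b hb1 (hass1.dvd.trans hb2) (fun h => hb3 (hass.symm.dvd.trans h)))
      have hlt : nm M₁' < n := by
        have key : nm M = nm p' ^ v * nm M₁' := by
          rw [hM']; rw [nm_mul (p' ^ v) M₁', nm_pow p' v]
        rw [← hn, key]
        have h1 : 0 < nm M₁' := nm_pos.mpr hψ₁.q0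
        have h2 : 1 < nm p' := by
          have h3 : nm p' ≠ 0 := (nm_pos.mpr hpp'.ne_zero).ne'
          have h4 : nm p' ≠ 1 := fun h => hpp'.not_isUnit (isUnit_iff.mpr h)
          omega
        have h3 : 1 < nm p' ^ v := Nat.one_lt_pow hv0 h2
        calc nm M₁' = 1 * nm M₁' := (one_mul _).symm
          _ < nm p' ^ v * nm M₁' := Nat.mul_lt_mul_of_pos_right h3 h1
      have hNP : NoPole M₁' ψ₁ l := by
        rcases hl with hl | ⟨b, hb, hb3⟩
        · exact Or.inl hl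
        · refine Or.inr ⟨b, hE.low hb, fun h0 => hb3 ?_⟩
          rw [hd b hb, mul_pow, h0, one_mul, ← pow_mul, mul_comm m 3, pow_mul,
            syAx.cube p' b hb.1 (hE.cop hb), one_pow]
      have hlow := ih (nm M₁') hlt M₁' rfl h9' ψ₁ hψ₁ l hNP
      exact step_cubic hE hv0 hM' hψ₁ hlow hm hd

/-- **cubic functional equations for all characters** -/
theorem hasFE3 (hΘ : ThetaP3) (H : StepPure3) {M : Eis} (h9 : (9 : Eis) ∣ M) {ψ : Eis → ℂ}
    (hψ : HC M ψ) {l : ℤ} (hl : NoPole M ψ l) : HasFE3 M ψ l :=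
  hasFE3_aux hΘ H (nm M) M rfl h9 ψ hψ l hl

end Crest.Agent.R017.C590
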