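import Crest.Agent.R017.CT4_590
import Crest.Agent.R017.EndA3_92
import Crest.Agent.R017.HcExp_266

/-!
# Row 17, C.F1tw, the last step: weights (helper590)

`Raw3 M M' ψ l` : functional equation for all test functions of central type `l`;
`raw3_hasFE3 : Raw3 → HasFE3`.
-/

set_option autoImplicit false

noncomputable section

open MeasureTheory Complex Set
open scoped ComplexConjugate ContDiff

namespace Crest.Agent.R017.C590

open Crest.Agent.R012 Crest.Agent.R012.Eis Crest.Agent.R012.GaussLoc283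
open Crest.Agent.R017.End699 Crest.Agent.R017.Sx440 Crest.Agent.R017.Sx545 Crest.Agent.R017.B770
open Crest.Agent.R017.A590 Crest.Agent.R017.Xn590 Crest.Agent.R017.Wt92 Crest.Agent.R017.EndA92
open Crest.Agent.R017.E2440 (NT DS Dcy)
open Crest.Agent.R017.Glue681 Crest.Agent.R017.XiI590

/-- **raw functional equation** for `ψ` on `Sm M`, central type `l` -/
def Raw3 (M M' : Eis) (ψ : Eis → ℂ) (l : ℤ) : Prop := by
  classical
  exact ∃ (ι : Type) (_ : Fintype ι) (ξ : Eis → ℂ) (κx cx : ℂ) (Vc : ℝ) (h0 B : ℂ)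
    (K ψ' : ι → Eis → ℂ) (r : ι → ℂ),
    XiP ξ κx cx ∧ h0 ≠ 0 ∧ (ξ 0 = 0 ∨ l ≠ 0) ∧
    (∀ i u u', Sm M u → Sm M u' → M' ∣ u - u' → K i u = K i u') ∧ (∀ i, Uni M' (ψ' i)) ∧
    (∀ i, r i ≠ 0) ∧
    ∀ f : ℂ → ℂ, DatN 3 ((-1) ^ l) ξ f → Rot l f → ∀ u, Sm M u →
      (∑' c : Eis, if Sm M c then ψ c * conj (gs u c) *
        (∑' e : Eis, if Sm M e then ψ e ^ 3 * (nm e : ℂ) ^ 2 * f (toC e ^ 3 * toC c) else 0)
          else 0) =
      ∑ i, K i u * ∑' c : Eis, if Sm M c then ψ' i c * conj (gs u c) * (nm c : ℂ)⁻¹ *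
        fOn 3 ξ Vc h0 B f (r i * toC u / toC c) else 0

variable {M M' u : Eis} {ψ : Eis → ℂ} {V : ℝ → ℂ} {l : ℤ} {Q τ : ℝ}

/-- the test function at scale `Q` -/
def fQ3 (V : ℝ → ℂ) (l : ℤ) (τ Q : ℝ) (z : ℂ) : ℂ := wt (Vt V τ) l (z / ((Real.sqrt Q : ℝ) : ℂ))

lemma fQ3_cs (h : VD V) (l : ℤ) (τ : ℝ) (hQ : 0 < Q) : Xi590.CS (fQ3 V l τ Q) := by
  have hq : ((Real.sqrt Q : ℝ) : ℂ) ≠ 0 := by exact_mod_cast (Real.sqrt_pos.mpr hQ).ne'
  have h2 := cs_dil ((h.Vt τ).cs l) (inv_ne_zero hq)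
  have e : fQ3 V l τ Q = fun x => wt (Vt V τ) l ((((Real.sqrt Q : ℝ) : ℂ))⁻¹ * x) := by
    funext x
    unfold fQ3
    rw [div_eq_inv_mul x]
  rw [e]
  exact h2

lemma fQ3_dat (h : VD V) {ξ : Eis → ℂ} (hl : ξ 0 = 0 ∨ l ≠ 0) (τ : ℝ) (hQ : 0 < Q) :
    DatN 3 ((-1) ^ l) ξ (fQ3 V l τ Q) := by
  have hq : ((Real.sqrt Q : ℝ) : ℂ) ≠ 0 := by exact_mod_cast (Real.sqrt_pos.mpr hQ).ne'
  have h1 : DatN 3 ((-1) ^ l) ξ (wt (Vt V τ) l) := datN_wt (h.Vt τ) (by norm_num) hl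
  have h2 := DatN.dil (by norm_num) h1 (inv_ne_zero hq)
  have e : fQ3 V l τ Q = fun x => wt (Vt V τ) l ((((Real.sqrt Q : ℝ) : ℂ))⁻¹ * x) := by
    funext x
    unfold fQ3
    rw [div_eq_inv_mul x]
  rw [e]
  exact h2

lemma fQ3_rot (V : ℝ → ℂ) (l : ℤ) (τ Q : ℝ) : Rot l (fQ3 V l τ Q) := by
  intro v hv x
  unfold fQ3
  rw [mul_div_assoc]
  exact rot_wt _ _ v hv _

lemma fQ3_eval (V : ℝ → ℂ) (l : ℤ) (τ : ℝ) (hQ : 0 < Q) {k : Eis} {z : ℂ} (hz : z = toC k) :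
    fQ3 V l τ Q z = Vt V τ (nm k / Q) * ang l k := by
  have hq : 0 < Real.sqrt Q := Real.sqrt_pos.mpr hQ
  unfold fQ3 wt
  rw [sph_div_pos l z hq, norm_div, Complex.norm_real, Real.norm_of_nonneg hq.le, div_pow,
    Real.sq_sqrt hQ.le, hz, norm_toC_sq, ang_eq]

lemma finite_pairs3 {f : ℂ → ℂ} (hf : Xi590.CS f) :
    {p : Eis × Eis | p.1 ≠ 0 ∧ p.2 ≠ 0 ∧ f (toC p.2 ^ 3 * toC p.1) ≠ 0}.Finite := by
  obtain ⟨a, K, ha, haK, hs⟩ := hf.supp
  have hKpos : 0 < K := ha.trans haK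
  refine ((finite_nm_le (K ^ 2)).prod (finite_nm_le (K ^ 2))).subset ?_
  rintro ⟨c, e⟩ ⟨hc, he, hne⟩
  simp only at hc he hne
  have h1 : ‖toC e ^ 3 * toC c‖ ≤ K := by
    by_contra hlt
    exact hne (hs _ (Or.inr (not_le.mp hlt)))
  rw [norm_mul, norm_pow] at h1
  have hc1 := one_le_norm_toC' hc
  have he1 := one_le_norm_toC' he
  have he3 : ‖toC e‖ ≤ ‖toC e‖ ^ 3 := le_self_pow₀ he1 (by norm_num)
  have he3' : 1 ≤ ‖toC e‖ ^ 3 := one_le_pow₀ he1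
  have h2 : ‖toC c‖ ≤ K := by nlinarith
  have h3 : ‖toC e‖ ≤ K := by nlinarith
  simp only [Set.mem_prod, Set.mem_ofPred_eq]
  constructor
  · rw [← norm_toC_sq]; gcongr
  · rw [← norm_toC_sq]; gcongr

open Classical in
/-- **the left side** -/
theorem left3 (hV : VD V) (hψ : HC M ψ) (l : ℤ) (τ : ℝ) (hQ : 0 < Q) (u : Eis) :
    N3 M (End699.tw ψ l) u (fun y => (y : ℂ) ^ (I * τ) * V y) Q =
      ∑' c : Eis, if Sm M c then ψ c * conj (gs u c) *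
        (∑' e : Eis, if Sm M e then ψ e ^ 3 * (nm e : ℂ) ^ 2 *
          fQ3 V l τ Q (toC e ^ 3 * toC c) else 0) else 0 := by
  set f := fQ3 V l τ Q with hf
  have hfc : Xi590.CS f := fQ3_cs hV l τ hQ
  set G : Eis → Eis → ℂ := fun c e => if Sm M c ∧ Sm M e then
    ψ c * conj (gs u c) * (ψ e ^ 3 * (nm e : ℂ) ^ 2 * f (toC e ^ 3 * toC c)) else 0 with hG
  have hfin : (Function.support (Function.uncurry G)).Finite := by
    refine (finite_pairs3 hfc).subset ?_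
    rintro ⟨c, e⟩ hne
    rw [Function.mem_support] at hne
    simp only [Function.uncurry_apply_pair, hG] at hne
    split_ifs at hne with hs
    · refine ⟨ne_zero_of_sm hs.1, ne_zero_of_sm hs.2, fun h0 => hne ?_⟩
      rw [h0, mul_zero, mul_zero]
    · exact absurd rfl hne
  have hsum : Summable (Function.uncurry G) := summable_of_hasFiniteSupport hfin
  have e1 : N3 M (End699.tw ψ l) u (fun y => (y : ℂ) ^ (I * τ) * V y) Q =
      ∑' e : Eis, ∑' c : Eis, G c e := by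
    unfold N3 NT DS
    refine tsum_congr fun e => ?_
    by_cases he : Sm M e
    · rw [if_pos he, ← tsum_mul_left]
      refine tsum_congr fun c => ?_
      simp only [hG]
      by_cases hc : Sm M c
      · rw [if_pos hc, if_pos ⟨hc, he⟩]
        have e3 : f (toC e ^ 3 * toC c) = Vt V τ (nm (c * e ^ 3) / Q) * ang l (c * e ^ 3) :=
          fQ3_eval V l τ hQ (by rw [map_mul, map_pow]; ring)
        have e4 : ψ (c * e ^ 3) = ψ c * ψ e ^ 3 := by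
          rw [hψ.char.mul c (e ^ 3) hc.1 (he.1.pow 3)]
          congr 1
          have h1 := hψ.char.mul e e he.1 he.1
          have h2 := hψ.char.mul (e * e) e (he.1.mul he.1) he.1
          have : e ^ 3 = e * e * e := by ring
          rw [this, h2, h1]
          ring
        rw [e3]
        unfold End699.tw Wt92.Vt
        rw [e4]
        ring
      · rw [if_neg hc, if_neg (fun h => hc h.1), mul_zero]
    · rw [if_neg he]
      have : ∀ c : Eis, G c e = 0 := fun c => by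
        simp only [hG]
        rw [if_neg (fun h => he h.2)]
      rw [tsum_congr this, tsum_zero]
  rw [e1, Summable.tsum_comm (f := G) hsum]
  refine tsum_congr fun c => ?_
  by_cases hc : Sm M c
  · rw [if_pos hc, ← tsum_mul_left]
    refine tsum_congr fun e => ?_
    simp only [hG]
    by_cases he : Sm M e
    · rw [if_pos ⟨hc, he⟩, if_pos he]
    · rw [if_neg (fun h => he h.2), if_neg he, mul_zero]
  · rw [if_neg hc]
    have : ∀ e : Eis, G c e = 0 := fun e => by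
      simp only [hG]
      rw [if_neg (fun h => hc h.1)]
    rw [tsum_congr this, tsum_zero]

/-! ### the dual weight -/

variable {ξ : Eis → ℂ} {κx cx : ℂ} {Vc : ℝ} {h0 B : ℂ}

/-- the dual weight -/
def Wd3 (ξ : Eis → ℂ) (Vc : ℝ) (h0 B : ℂ) (l : ℤ) (V : ℝ → ℂ) (r : ℂ) (τ y : ℝ) : ℂ :=
  sph l r * vO 3 ξ Vc h0 B l (Vt V τ) (-Real.log y)

theorem rd_Wd3 (hξ : XiP ξ κx cx) (h : VD V) (hh0 : h0 ≠ 0) (hl : ξ 0 = 0 ∨ l ≠ 0) (r : ℂ) :
    RD (Wd3 ξ Vc h0 B l V r) := by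
  refine rd_of_rdf ?_
  have h1 := ((rdf_vO (n := 3) (Vc := Vc) (B := B) hξ h (by norm_num) hh0 hl).neg).const_mul
    (sph l r)
  have h2 : (fun τ x => Wd3 ξ Vc h0 B l V r τ (Real.exp x)) = fun τ x =>
      sph l r * vO 3 ξ Vc h0 B l (Vt V τ) (-x) := by
    funext τ x
    unfold Wd3
    rw [Real.log_exp]
  rw [h2]
  exact h1

lemma fOn_fQ3 (V : ℝ → ℂ) (l : ℤ) (τ : ℝ) (hQ : 0 < Q) {z : ℂ} (hz : z ≠ 0) :
    fOn 3 ξ Vc h0 B (fQ3 V l τ Q) z =
      (Q : ℂ) * (vO 3 ξ Vc h0 B l (Vt V τ) (-Real.log (Q / ‖z‖ ^ 2)) * sph l z) := by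
  have hq : 0 < Real.sqrt Q := Real.sqrt_pos.mpr hQ
  have hqC : ((Real.sqrt Q : ℝ) : ℂ) ≠ 0 := by exact_mod_cast hq.ne'
  have hun : 0 < ‖z‖ := norm_pos_iff.mpr hz
  have e : fQ3 V l τ Q = fun z => wt (Vt V τ) l (z / ((Real.sqrt Q : ℝ) : ℂ)) := rfl
  rw [e, fOn_scale 3 ξ Vc h0 B (wt (Vt V τ) l) hqC z]
  have hv : z / ((Real.sqrt Q : ℝ) : ℂ) ≠ 0 := div_ne_zero hz hqC
  have hR : Rot l (fOn 3 ξ Vc h0 B (wt (Vt V τ) l)) := (rot_wt _ l).fOn 3 ξ Vc h0 B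
  rw [hR.eq hv, sph_div_pos l z hq]
  have hn : ‖z / ((Real.sqrt Q : ℝ) : ℂ)‖ = Real.exp (-Real.log (Q / ‖z‖ ^ 2) / 2) := by
    rw [norm_div, Complex.norm_real, Real.norm_of_nonneg hq.le, ← Real.log_inv, inv_div]
    have h1 : ‖z‖ ^ 2 / Q = (‖z‖ / Real.sqrt Q) ^ 2 := by rw [div_pow, Real.sq_sqrt hQ.le]
    rw [h1, Real.log_pow]
    have h2 : ((2 : ℕ) : ℝ) * Real.log (‖z‖ / Real.sqrt Q) / 2 = Real.log (‖z‖ / Real.sqrt Q) := by
      push_cast; ring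
    rw [h2, Real.exp_log (by positivity)]
  rw [hn]
  have h3 : ((‖((Real.sqrt Q : ℝ) : ℂ)‖ ^ 2 : ℝ) : ℂ) = (Q : ℂ) := by
    rw [Complex.norm_real, Real.norm_of_nonneg hq.le, Real.sq_sqrt hQ.le]
  rw [h3]
  rfl

lemma sph_inv' (k : ℤ) (z : ℂ) : sph k z⁻¹ = sph (-k) z := by
  unfold sph
  rw [norm_inv, Complex.ofReal_inv, zpow_neg, ← inv_zpow]
  congr 1
  rw [inv_div_inv, inv_div]

open Classical in
/-- **one term of the right side** -/
lemma right3 (hM' : M' ≠ 0) (hcop : ∀ b, Sm M b → IsCoprime b M') (ψ' : Eis → ℂ) {r : ℂ}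
    (hr : r ≠ 0) (V : ℝ → ℂ) (l : ℤ) (τ : ℝ) (hQ : 0 < Q) (hu : Sm M u) :
    (∑' c : Eis, if Sm M c then ψ' c * conj (gs u c) * (nm c : ℂ)⁻¹ *
        fOn 3 ξ Vc h0 B (fQ3 V l τ Q) (r * toC u / toC c) else 0) =
      (Q : ℂ) * (ang l u * D3 M (End699.tw (Rst M' ψ') (-l)) u (Wd3 ξ Vc h0 B l V r τ)
        (‖r‖ ^ 2 * nm u / Q)) := by
  have huC : toC u ≠ 0 := Po581.toC_ne_zero hu.ne_zero
  have hup : (0 : ℝ) < nm u := by exact_mod_cast nm_pos.mpr hu.ne_zero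
  have hrn : 0 < ‖r‖ := norm_pos_iff.mpr hr
  unfold D3 DS
  rw [← mul_assoc, ← tsum_mul_left]
  refine tsum_congr fun c => ?_
  by_cases hc : Sm M c
  · have hcC : toC c ≠ 0 := Po581.toC_ne_zero hc.ne_zero
    have hcp : (0 : ℝ) < nm c := by exact_mod_cast nm_pos.mpr hc.ne_zero
    have hz : r * toC u / toC c ≠ 0 := div_ne_zero (mul_ne_zero hr huC) hcC
    rw [if_pos hc, if_pos hc, fOn_fQ3 V l τ hQ hz]
    beta_reduce
    rw [tw_rst hcop _ _ hc]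
    have e1 : Q / ‖r * toC u / toC c‖ ^ 2 = nm c / (‖r‖ ^ 2 * nm u / Q) := by
      rw [norm_div, norm_mul, div_pow, mul_pow, norm_toC_sq, norm_toC_sq]
      field_simp
    have e2 : sph l (r * toC u / toC c) = sph l r * ang l u * ang (-l) c := by
      rw [div_eq_mul_inv, sph_mul, sph_mul, sph_inv', ang_eq, ang_eq]
    rw [e1, e2]
    unfold Wd3
    ring
  · rw [if_neg hc, if_neg hc, mul_zero]

/-- **the cubic functional equation from the raw form** -/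
theorem raw3_hasFE3 (hM' : M' ≠ 0) (h3 : (3 : Eis) ∣ M') (hd : M ∣ M')
    (hrad : ∀ p : Eis, Prime p → p ∣ M' → p ∣ M) (hψ : HC M ψ) (H : Raw3 M M' ψ l) :
    HasFE3 M ψ l := by
  classical
  obtain ⟨ι, iι, ξ, κx, cx, Vc, h0, B, K, ψ', r, hξ, hh0, hl, hK, hψ', hr, hraw⟩ := H
  have hcop : ∀ b, Sm M b → IsCoprime b M' := by
    intro b hb
    refine isCoprime_of_prime_dvd (fun h' => hM' h'.2) (fun q hq h5 h6 => ?_)
    exact hq.not_isUnit (hb.2.isUnit_of_dvd' h5 (hrad q hq h6))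
  have hex : ∀ i, ∃ (n : ℕ) (κ : Fin n → ℂ) (η : Fin n → Eis → ℂ), (∀ i, HC M' (η i)) ∧
      ∀ a, IsPrim a → IsCoprime a M' → K i a = ∑ j, κ j * η j a := by
    intro i
    refine HcExp266.exists_hc_expansion hM' h3 fun a b ha hb hca hcb hab => ?_
    exact hK i a b ⟨ha, hca.of_isCoprime_of_dvd_right hd⟩ ⟨hb, hcb.of_isCoprime_of_dvd_right hd⟩ hab
  choose n κ η hη hexp using hex
  refine ⟨(i : ι) × Fin (n i), inferInstance,
    { M' := M', κ := fun p => κ p.1 p.2, η := fun p => η p.1 p.2, ψ' := fun p => Rst M' (ψ' p.1),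
      j := l, l' := -l, ρ := fun p => ‖r p.1‖ ^ 2 }, ?_, ?_⟩
  · exact
      { ne := hM'
        dvd := hd
        rad := hrad
        η := fun p => hη p.1 p.2
        ψ' := fun p => hc_rst hM' h3 (hψ' p.1)
        ρ := fun p => by
          have := norm_pos_iff.mpr (hr p.1)
          positivity }
  · intro V hV
    have hVD := vd_sw hV
    refine ⟨fun p => Wd3 ξ Vc h0 B l V (r p.1), fun p => rd_Wd3 hξ hVD hh0 hl _,
      fun u hu Q hQ τ => ?_⟩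
    rw [left3 hVD hψ l τ hQ u, hraw (fQ3 V l τ Q) (fQ3_dat hVD hl τ hQ) (fQ3_rot V l τ Q) u hu,
      Fintype.sum_sigma, Finset.mul_sum]
    refine Finset.sum_congr rfl fun i _ => ?_
    rw [right3 hM' hcop (ψ' i) (hr i) V l τ hQ hu, hexp i u hu.1 (hcop u hu), Finset.sum_mul,
      Finset.mul_sum]
    refine Finset.sum_congr rfl fun j _ => ?_
    simp only
    have e : End699.tw (η i j) l u = η i j u * ang l u := rfl
    rw [e]
    ring

end Crest.Agent.R017.C590
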