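import Crest.Agent.R017.E3Jb_290

/-!
# Row 17, T.7 (class E), E3: second form of the structured number of a tuple, both forms of a
character, in classes, the twist `u` coprime to the support only (helper290, copy of helper72's
`E3Xb_72`, `E3Xc_72`, `E3Xd_72`)
-/

set_option autoImplicit false
set_option linter.unusedVariables false

noncomputable section

open Complex MeasureTheory
open scoped ComplexConjugate Classical

namespace Crest.Agent.R017.E3Jb290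

open Crest.Agent.R012 Crest.Agent.R012.Eis Crest.Agent.R012.MC
open Crest.Agent.R012.LS2 (S mem_S bl mem_bl)
open Crest.Agent.R017.CM106 (CS TG FS)
open Crest.Agent.R017.GrB829 (IsC)
open Crest.Agent.R017.PX764 (n6)
open Crest.Agent.R017.E1551 (nmpos)
open Crest.Agent.R017.E3D579 (uS bF b0 bt)
open Crest.Agent.R017.E3T829 (Cd UT SU kU kU_nonneg F2 bu)
open Crest.Agent.R017.Mode405
open Crest.Agent.R017.E3Sx579
open Crest.Agent.R017.MX744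
open Crest.Agent.R017.ROX744
open Crest.Agent.R017.PoHx72
open Crest.Agent.R017.Rsx72 (Cnd prT prT_nonneg S1hx S2hx)
open Crest.Agent.R017.E3Xa72 (RHRx nfp_le S1hx_mono S2hx_mono)

set_option maxHeartbeats 1000000 in
/-- **second form for the canonical number, in classes** -/
theorem S2hx_Q {χ : Eis → ℂ} {w : ℝ → ℝ} {R0 : ℝ} (hR0 : 0 ≤ R0) {a A : ℕ} {ε C c : ℝ} {A₀ : ℕ}
    (hC : 0 ≤ C) (hc : 1 ≤ c) (h : Cel2 χ (w6 w) 1 R0 a A ε C c A₀) {cs : ℝ} (hcs : 1 ≤ cs) :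
    ∀ A' : ℝ, (A₀ : ℝ) ≤ A' →
      ∀ z Zm K V H X : ℝ, 1 ≤ z → 2 * z ^ 3 ≤ Zm → 0 < K → 0 < V → 0 < H → 0 < X →
      4 * (H * V ^ 2) * Real.exp (2 * R0 + 3) < K * X → 2 * (cs * V) ≤ Zm →
      2 * z * (Real.exp R0 * X) ≤ Zm →
      ∀ (R : Finset (Eis × Eis)) (af : Eis → Eis → Eis → ℂ), (∀ ρ ∈ R, FS (af ρ.1 ρ.2)) →
      (∀ ρ ∈ R, ∀ n, af ρ.1 ρ.2 n ≠ 0 → Squarefree n) →
      (∀ ρ ∈ R, ∀ n, af ρ.1 ρ.2 n ≠ 0 → |Real.log (nm ρ.1 * nm n) - Real.log X| ≤ R0) →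
      ∀ u : Eis, u ≠ 0 → (∀ ρ ∈ R, ∀ n, af ρ.1 ρ.2 n ≠ 0 → IsCoprime u n) →
      ∀ W0 : Bool → Eis → Eis → ℝ → ℝ, (∀ jj d e, Slp a (W0 jj d e)) →
      RHRx (Zm ^ 4) A R af u W0 →
      S2hx z R (fun d => H * V ^ 2 / (K * nm d))
        (fun d => 4 * cs * (H * V ^ 2 / (K * nm d)) * (X * V * H / K) ^ (-(2 / 3) : ℝ))
        (X * V * H / K)
        (fun d e => 144 * cs * C * Zm ^ (2 * ε) * W0 false d e (2 * c * (X * V * H / K)))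
        (fun d e => 144 * cs * C * Zm ^ (2 * ε) * W0 true d e (2 * c * (X * V * H / K)))
        (BsQt ε χ w A' cs K V H af) := by
  intro A' hA' z Zm K V H X hz hzZ hK hV hH hX hKX hVZ hXZ R af haf hsf hwin u hu huc W0 hW0 hRH ρ
    hρ q hq k hk g hg F hF Δ hΔ Kp hKp
  obtain ⟨d, e⟩ := ρ
  have hz0 : 0 ≤ z := by linarith
  have hcs0 : 0 < cs := by linarith
  have hΔ0 : 0 < Δ := by linarith
  have hc0 : 0 < c := by linarith
  have hz3 : z ≤ z ^ 3 := by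
    calc z = z ^ 1 := (pow_one z).symm
      _ ≤ z ^ 3 := pow_le_pow_right₀ hz (by norm_num)
  have hZm : 1 ≤ Zm := by linarith
  have hI0 : 0 < X * V * H / K := by positivity
  have hcI0 : 0 < 2 * c * (X * V * H / K) := by positivity
  have hW : ∀ jj, 0 ≤ W0 jj d e (2 * c * (X * V * H / K)) := fun jj =>
    (hW0 jj d e).nonneg _ hcI0
  obtain ⟨nzq, pq, -⟩ := (mem_S hz0).1 hq
  obtain ⟨nzg, pg, -⟩ := (mem_S hz0).1 hg
  obtain ⟨nzF, pF, -⟩ := (mem_S hz0).1 hF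
  have hkne := isC_ne0 hk
  have nk := nmpos hkne
  have k1' : (1 : ℝ) ≤ nm k := E1551.nm_ge_one hkne
  have k9 : (nm k : ℝ) ≤ 9 := by exact_mod_cast (E3T829.Cd.nm_c_le hk).2
  have nq := nmpos pq.ne_zero
  have ng := nmpos pg.ne_zero
  have nF := nmpos pF.ne_zero
  have q1 : (1 : ℝ) ≤ nm q := E1551.nm_ge_one pq.ne_zero
  have g1 : (1 : ℝ) ≤ nm g := E1551.nm_ge_one pg.ne_zero
  have F1 : (1 : ℝ) ≤ nm F := E1551.nm_ge_one pF.ne_zero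
  -- the reduction to the admissible members
  set Kp' : Finset Eis := Kp.filter (fun κ => TQc cs V (d, e, q, k, g, κ, 1, F) ∧
    1 ≤ E3Sw290.LtU K V H (d, e, q, k, g, κ, 1, F)) with hKp'
  have hsum : ∑ κ ∈ Kp, BsQt ε χ w A' cs K V H af (d, e, q, k, g, κ, 1, F) =
      ∑ κ ∈ Kp', BsQ ε χ (w6 w) 1 A' (E3Sw290.LtU K V H (d, e, q, k, g, κ, 1, F))
        (cs * E3Sw290.YU V (d, e, q, k, g, κ, 1, F))
        (bF κ F (b0 (af d e) d e (q * k * g ^ 2))) (g * κ * F) κ := by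
    rw [hKp', Finset.sum_filter]
    refine Finset.sum_congr rfl fun κ _ => ?_
    unfold BsQt
    by_cases h1 : TQc cs V (d, e, q, k, g, κ, 1, F)
    · rw [if_pos h1]
      by_cases h2 : 1 ≤ E3Sw290.LtU K V H (d, e, q, k, g, κ, 1, F)
      · rw [if_pos ⟨h1, h2⟩]
        change BsQ ε χ (w6 w) 1 A' _ _ (bF (κ * 1) F (b0 (af d e) d e (q * k * g ^ 2)))
          (g * (κ * 1) * F) (κ * 1) = _
        rw [mul_one]
      · rw [if_neg fun h3 => h2 h3.2]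
        unfold BsQ
        rw [if_neg h2]
    · rw [if_neg h1, if_neg fun h3 => h1 h3.1]
  have hF20 : ∀ d' : ℝ, 0 ≤ d' → 0 ≤ F2 (H * V ^ 2 / (K * d') / (Δ ^ 2 * (nm (q * g * F) : ℝ) ^ 3)) Δ
      (X * V * H / K / nm (q ^ 2 * g * F ^ 2)) := by
    intro d' hd'
    unfold E3T829.F2
    positivity
  obtain ⟨Lf, hLf⟩ : ∃ Lf : Eis → ℝ, Lf = fun d : Eis => H * V ^ 2 / (K * nm d) := ⟨_, rfl⟩
  obtain ⟨Mxf, hMxf⟩ : ∃ Mxf : Eis → ℝ, Mxf = fun d : Eis =>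
      4 * cs * (H * V ^ 2 / (K * nm d)) * (X * V * H / K) ^ (-(2 / 3) : ℝ) := ⟨_, rfl⟩
  obtain ⟨Wxf, hWxf⟩ : ∃ Wxf : Eis → Eis → ℝ, Wxf = fun d e =>
      144 * cs * C * Zm ^ (2 * ε) * W0 true d e (2 * c * (X * V * H / K)) := ⟨_, rfl⟩
  have hMx0 : ∀ d, 0 ≤ Mxf d := fun d => by rw [hMxf]; positivity
  have hWx0 : ∀ d e, 0 ≤ Wxf d e := fun d e => by
    rw [hWxf]
    exact mul_nonneg (by positivity) ((hW0 true d e).nonneg _ hcI0)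
  have hprT0 : 0 ≤ ∑ κ ∈ Kp, prT Lf Mxf Wxf (d, e, q, k, g, κ, 1, F) :=
    Finset.sum_nonneg fun κ _ => prT_nonneg hMx0 hWx0 _
  rw [← hLf, ← hMxf, ← hWxf]
  change ∑ κ ∈ Kp, BsQt ε χ w A' cs K V H af (d, e, q, k, g, κ, 1, F) ≤
    F2 (Lf d / (Δ ^ 2 * (nm (q * g * F) : ℝ) ^ 3)) Δ
      (X * V * H / K / nm (q ^ 2 * g * F ^ 2)) *
      (144 * cs * C * Zm ^ (2 * ε) * W0 false d e (2 * c * (X * V * H / K))) +
      ∑ κ ∈ Kp, prT Lf Mxf Wxf (d, e, q, k, g, κ, 1, F)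
  have eLf : Lf d = H * V ^ 2 / (K * nm d) := by rw [hLf]
  rw [hsum, eLf]
  by_cases hemp : Kp' = ∅
  · rw [hemp, Finset.sum_empty]
    exact add_nonneg (mul_nonneg (hF20 _ (Nat.cast_nonneg _)) (mul_nonneg (by positivity)
      (hW false))) hprT0
  obtain ⟨κ₀, hκ₀⟩ := Finset.nonempty_iff_ne_empty.mpr hemp
  have hκ₀' := hκ₀
  rw [hKp', Finset.mem_filter] at hκ₀'
  obtain ⟨hκ₀K, ⟨pd, pe, -, hsq0, hY0⟩, -⟩ := hκ₀'
  change IsPrim d at pd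
  change IsPrim e at pe
  change Squarefree (g * (κ₀ * 1) * F) at hsq0
  have nd := nmpos pd.ne_zero
  have d1 : (1 : ℝ) ≤ nm d := E1551.nm_ge_one pd.ne_zero
  obtain ⟨hκS, hκ1, hκ2⟩ := hKp κ₀ hκ₀K
  have hκz : (nm κ₀ : ℝ) ≤ z := ((mem_S hz0).1 hκS).1
  have hΔz : Δ ≤ 2 * z := by linarith
  have hsq : Squarefree (g * F) := hsq0.squarefree_of_dvd ⟨κ₀, by ring⟩
  -- the lengths of the family
  set B : ℝ := V / nm k / (nm q * (nm d : ℝ) ^ 2 * (nm g : ℝ) ^ 2) with hB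
  have hB0 : 0 < B := by rw [hB]; positivity
  have hBV : B ≤ V := by
    have h1 : (1 : ℝ) ≤ nm q * (nm d : ℝ) ^ 2 * (nm g : ℝ) ^ 2 :=
      one_le_mul_of_one_le_of_one_le (one_le_mul_of_one_le_of_one_le q1 (one_le_pow₀ d1))
        (one_le_pow₀ g1)
    exact (div_le_self (by positivity) h1).trans (div_le_self hV.le k1')
  set Y : ℝ := 2 * (cs * (B / (Δ * nm F))) with hY
  set A₂ : ℝ := H * (V / nm k) ^ 2 / (K * nm d) with hA₂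
  have hA₂0 : 0 < A₂ := by rw [hA₂]; positivity
  have hA₂le : A₂ ≤ H * V ^ 2 / (K * nm d) := by
    rw [hA₂]
    have h2 : V / nm k ≤ V := div_le_self hV.le k1'
    have h3 : 0 ≤ V / nm k := by positivity
    gcongr
  set G : ℝ := (nm q * nm g * nm F : ℝ) ^ 3 with hG
  have hG0 : 0 < G := by rw [hG]; positivity
  have hG1 : 1 ≤ G := by
    rw [hG]
    exact one_le_pow₀ (one_le_mul_of_one_le_of_one_le (one_le_mul_of_one_le_of_one_le q1 g1) F1)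
  set Lt : ℝ := 4 * (A₂ / (Δ ^ 2 * G)) with hLt
  have hLt0 : 0 < Lt := by rw [hLt]; positivity
  have hLtA : Lt ≤ 4 * (H * V ^ 2 / (K * nm d)) := by
    rw [hLt]
    have h1 : (1 : ℝ) ≤ Δ ^ 2 * G := one_le_mul_of_one_le_of_one_le (one_le_pow₀ hΔ) hG1
    have h2 : A₂ / (Δ ^ 2 * G) ≤ A₂ := div_le_self hA₂0.le h1
    linarith
  have hexp : 1 ≤ Real.exp (2 * R0 + 3) := Real.one_le_exp (by positivity)
  have hLX : Lt * Real.exp (2 * R0 + 3) < X / nm d := by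
    calc Lt * Real.exp (2 * R0 + 3) ≤ 4 * (H * V ^ 2 / (K * nm d)) * Real.exp (2 * R0 + 3) :=
          mul_le_mul_of_nonneg_right hLtA (Real.exp_pos _).le
      _ = (4 * (H * V ^ 2) * Real.exp (2 * R0 + 3)) / (K * nm d) := by ring
      _ < (K * X) / (K * nm d) := div_lt_div_of_pos_right hKX (by positivity)
      _ = X / nm d := by field_simp
  have hXm : X ≤ Zm := by
    refine le_trans ?_ hXZ
    have h1 : 1 ≤ 2 * z * Real.exp R0 :=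
      one_le_mul_of_one_le_of_one_le (by linarith) (Real.one_le_exp hR0)
    calc X ≤ (2 * z * Real.exp R0) * X := le_mul_of_one_le_left hX.le h1
      _ = _ := by ring
  have hLZ : Lt ≤ Zm := by
    have h1 := le_mul_of_one_le_right hLt0.le hexp
    have h2 : X / nm d ≤ X := div_le_self hX.le d1
    linarith
  have hYZ : Y ≤ Zm := by
    refine le_trans ?_ hVZ
    rw [hY]
    have h1 : (1 : ℝ) ≤ Δ * nm F := one_le_mul_of_one_le_of_one_le hΔ F1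
    have h2 : B / (Δ * nm F) ≤ V := (div_le_self hB0.le h1).trans hBV
    have h3 := mul_le_mul_of_nonneg_left h2 hcs0.le
    linarith
  have hYd : ∀ κ ∈ Kp', Y / 4 ≤ cs * E3Sw290.YU V (d, e, q, k, g, κ, 1, F) ∧
      cs * E3Sw290.YU V (d, e, q, k, g, κ, 1, F) ≤ Y := by
    intro κ hκ
    rw [hKp', Finset.mem_filter] at hκ
    obtain ⟨-, h1, h2⟩ := hKp κ hκ.1
    have h3 := fam_Y (cs := cs) hB0.le hΔ0 nF hcs0 h1 h2
    have e1 : E3Sw290.YU V (d, e, q, k, g, κ, 1, F) = B / (nm κ * 1 * nm F) := by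
      unfold E3Sw290.YU E3Sw290.ZU
      simp only [nm_one, Nat.cast_one]
      rw [hB]
    rw [e1]
    exact h3
  have hY1 : 1 ≤ Y := hY0.trans (hYd κ₀ hκ₀).2
  have hLe : ∀ κ ∈ Kp', E3Sw290.LtU K V H (d, e, q, k, g, κ, 1, F) = A₂ / ((nm κ * 1) ^ 2 * G) := by
    intro κ hκ
    rw [hKp', Finset.mem_filter] at hκ
    obtain ⟨h0, h1, h2⟩ := hKp κ hκ.1
    have pκ := ((mem_S hz0).1 h0).2.1
    rw [LtU_eq (t := (d, e, q, k, g, κ, 1, F)) hK hV hH pd.ne_zero pq.ne_zero hkne pg.ne_zero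
      pκ.ne_zero isPrim_one.ne_zero pF.ne_zero]
    unfold LtU
    simp only [nm_mul, nm_one, Nat.cast_one, Nat.cast_mul]
    rw [hA₂, hG]
  have hLd : ∀ κ ∈ Kp', E3Sw290.LtU K V H (d, e, q, k, g, κ, 1, F) ≤ Lt := by
    intro κ hκ
    rw [hLe κ hκ]
    rw [hKp', Finset.mem_filter] at hκ
    obtain ⟨h0, h1, h2⟩ := hKp κ hκ.1
    exact fam_Lt (G := G) hA₂0.le hΔ0 hG0 h1
  have hfam : ∀ κ ∈ Kp', IsPrim κ ∧ Squarefree κ ∧ Δ / 4 < nm κ ∧ (nm κ : ℝ) ≤ Δ ∧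
      Y / 4 ≤ cs * E3Sw290.YU V (d, e, q, k, g, κ, 1, F) ∧
      cs * E3Sw290.YU V (d, e, q, k, g, κ, 1, F) ≤ Y ∧
      E3Sw290.LtU K V H (d, e, q, k, g, κ, 1, F) ≤ Lt := by
    intro κ hκ
    have hκ' := hκ
    rw [hKp', Finset.mem_filter] at hκ'
    obtain ⟨h0, h1, h2⟩ := hKp κ hκ'.1
    obtain ⟨-, pκ, sκ⟩ := (mem_S hz0).1 h0
    exact ⟨pκ, sκ, by linarith, h2, (hYd κ hκ).1, (hYd κ hκ).2, hLd κ hκ⟩
  -- the hypotheses
  have j1 : FS (af d e) := haf (d, e) hρ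
  have j2 : ∀ n, af d e n ≠ 0 → Squarefree n := fun n hn => hsf (d, e) hρ n hn
  have j3 : ∀ n, af d e n ≠ 0 → |Real.log (nm d * nm n) - Real.log X| ≤ R0 :=
    fun n hn => hwin (d, e) hρ n hn
  have j4 : ∀ jj γ π, IsPrim γ → IsPrim π → (nm π : ℝ) ≤ Zm ^ 4 →
    ∀ P : ℝ, 0 < P → (nm γ : ℝ) * n6 γ ^ 2 * ∑ r ∈ (bl P).filter (Cls (PrU u) jj),
      R3571.RMm A (af d e) e γ π r ≤ W0 jj d e P := by
    intro jj γ π hγ hπ hn P hP
    exact hRH jj (d, e) hρ γ π hγ hπ hn P hP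
  have hIl : Il (X / nm d * Δ) Lt Y =
      2 * (X * (V / nm k) * H / K / (cs * ((nm F : ℝ) ^ 2 * (nm q : ℝ) ^ 2 * nm g))) :=
    fam_Il hX nd hΔ0 hH hV nk hK nq ng nF hcs0
  have j5 : 1 ≤ Lt → Lt * Real.exp (2 * R0 + 3) < X / nm d * Δ ∧
      ∀ jj, W0 jj d e (c * (Il (X / nm d * Δ) Lt Y *
        ((nm F : ℝ) ^ 2 * (nm q : ℝ) ^ 2 * nm g))) ≤ W0 jj d e (2 * c * (X * V * H / K)) := by
    intro _
    refine ⟨hLX.trans_le (le_mul_of_one_le_right (by positivity) hΔ), fun jj => ?_⟩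
    have e1 : c * (Il (X / nm d * Δ) Lt Y * ((nm F : ℝ) ^ 2 * (nm q : ℝ) ^ 2 * nm g)) =
        2 * c * (X * (V / nm k) * H / K / (cs * ((nm F : ℝ) ^ 2 * (nm q : ℝ) ^ 2 * nm g)) *
          ((nm F : ℝ) ^ 2 * (nm q : ℝ) ^ 2 * nm g)) := by
      rw [hIl]; ring
    rw [e1]
    exact slp_Il (hW0 jj d e) (by positivity) hX hV hH hK hcs k1' nF nq ng
  have hnm : (nm (q * g * F) : ℝ) ≤ Zm := by
    simp only [nm_mul, Nat.cast_mul]
    calc (nm q : ℝ) * nm g * nm F ≤ z * z * z := by gcongr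
      _ = z ^ 3 := by ring
      _ ≤ Zm := by linarith
  have hΔm : Δ ≤ Zm := by linarith
  have hΔX : Δ * (Real.exp R0 * X) ≤ Zm :=
    (mul_le_mul_of_nonneg_right hΔz (by positivity)).trans hXZ
  have key := h A' hA' Zm hZm (af d e) j1 j2 d e q g F k pd pe pq pg pF hk hsq hnm X hX j3 Δ hΔ
    hΔm hΔX u hu (huc (d, e) hρ) (fun jj => W0 jj d e) (fun jj => hW0 jj d e) j4 Y Lt
    (fun jj => W0 jj d e (2 * c * (X * V * H / K))) hY1 hYZ hLZ hW j5 Kp'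
    (fun κ => cs * E3Sw290.YU V (d, e, q, k, g, κ, 1, F))
    (fun κ => E3Sw290.LtU K V H (d, e, q, k, g, κ, 1, F)) hfam
  refine key.trans ?_
  -- the number
  set L : ℝ := H * V ^ 2 / (K * nm d) / (Δ ^ 2 * G) with hLdef
  set I : ℝ := X * V * H / K / ((nm q : ℝ) ^ 2 * nm g * (nm F : ℝ) ^ 2) with hIdef
  have hL0 : 0 ≤ L := by rw [hLdef]; positivity
  have hI0' : 0 < I := by rw [hIdef]; positivity
  have eL : Lt = 4 * (L / (nm k : ℝ) ^ 2) := by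
    rw [hLt, hA₂, hLdef, hG]
    exact fam_L nk
  have eI : Il (X / nm d * Δ) Lt Y = 2 * I / (nm k * cs) := by
    rw [hIl, hIdef]
    exact fam_I nk
  have hF2 := nfD_F2 (Δ := Δ) (L := L) (I := I) (cs := cs) (cc := nm k) hΔ0.le hL0 hI0' hcs k1' k9
  have e3 : F2 (H * V ^ 2 / (K * nm d) / (Δ ^ 2 * (nm (q * g * F) : ℝ) ^ 3)) Δ
      (X * V * H / K / nm (q ^ 2 * g * F ^ 2)) = F2 L Δ I := by
    simp only [nm_mul, nm_pow, Nat.cast_mul, Nat.cast_pow]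
    rfl
  rw [e3]
  have hF0 : 0 ≤ F2 L Δ I := by unfold E3T829.F2; positivity
  have hCm : 0 ≤ C * Zm ^ (2 * ε) := by positivity
  -- the principal part
  have hpr : ∀ κ ∈ Kp', C * Zm ^ (2 * ε) * (Lt * (Il (X / nm d * Δ) Lt Y) ^ (-(2 / 3) : ℝ) *
      W0 true d e (2 * c * (X * V * H / K))) ≤ prT Lf Mxf Wxf (d, e, q, k, g, κ, 1, F) := by
    intro κ hκ
    have hLκ := hLe κ hκ
    have hκ' := hκ
    rw [hKp', Finset.mem_filter] at hκ'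
    obtain ⟨h0, h1, h2⟩ := hKp κ hκ'.1
    have h3 := hκ'.2.2
    have pκ := ((mem_S hz0).1 h0).2.1
    have nκ := nmpos pκ.ne_zero
    have hcnd : Cnd Lf (d, e, q, k, g, κ, 1, F) := by
      unfold Rsx72.Cnd
      change (nm (κ * 1) : ℝ) ^ 2 * (nm (q * g * F) : ℝ) ^ 3 ≤ Lf d
      rw [hLκ, one_le_div (by positivity)] at h3
      rw [eLf]
      simp only [nm_mul, nm_one, Nat.cast_one, Nat.cast_mul]
      exact h3.trans hA₂le
    unfold Rsx72.prT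
    rw [if_pos hcnd]
    have h4 := nfp_le (H := H) (V := V) (K := K) (d := nm d) (Δ := Δ) (q := nm q) (g := nm g)
      (F := nm F) (cc := nm k) (cs := cs) (X := X) (x := nm κ) hH hV hK nd hΔ q1 g1 F1 k1' hcs hX
      nκ h2
    have e5 : Lt * (Il (X / nm d * Δ) Lt Y) ^ (-(2 / 3) : ℝ) =
        4 * (H * (V / nm k) ^ 2 / (K * nm d) / (Δ ^ 2 * (nm q * nm g * nm F : ℝ) ^ 3)) *
      (2 * (X * (V / nm k) * H / K / (cs * ((nm F : ℝ) ^ 2 * (nm q : ℝ) ^ 2 * nm g)))) ^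
        (-(2 / 3) : ℝ) := by
      rw [hIl, hLt, hA₂, hG]
    have e6 : Mxf d * kU (d, e, q, k, g, κ, 1, F) =
        4 * cs * (H * V ^ 2 / (K * nm d)) * (X * V * H / K) ^ (-(2 / 3) : ℝ) *
        (1 / (nm q : ℝ) * (1 / nm g) * (1 / nm F) * (1 / nm κ) * (1 / 1)) := by
      rw [hMxf]
      unfold E3T829.kU
      simp only [nm_one, Nat.cast_one]
    change _ ≤ Mxf d * kU (d, e, q, k, g, κ, 1, F) * Wxf d e
    rw [e5, e6, hWxf]
    have hWt := hW true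
    have hkp : 0 ≤ 4 * cs * (H * V ^ 2 / (K * nm d)) * (X * V * H / K) ^ (-(2 / 3) : ℝ) *
        (1 / (nm q : ℝ) * (1 / nm g) * (1 / nm F) * (1 / nm κ) * (1 / 1)) := by positivity
    have h5 : C * Zm ^ (2 * ε) ≤ 144 * cs * C * Zm ^ (2 * ε) := by
      have : C * Zm ^ (2 * ε) ≤ 144 * cs * (C * Zm ^ (2 * ε)) :=
        le_mul_of_one_le_left hCm (by linarith)
      linarith
    calc C * Zm ^ (2 * ε) * (4 * (H * (V / nm k) ^ 2 / (K * nm d) /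
          (Δ ^ 2 * (nm q * nm g * nm F : ℝ) ^ 3)) *
        (2 * (X * (V / nm k) * H / K / (cs * ((nm F : ℝ) ^ 2 * (nm q : ℝ) ^ 2 * nm g)))) ^
          (-(2 / 3) : ℝ) * W0 true d e (2 * c * (X * V * H / K)))
        ≤ C * Zm ^ (2 * ε) * (4 * cs * (H * V ^ 2 / (K * nm d)) *
          (X * V * H / K) ^ (-(2 / 3) : ℝ) *
          (1 / (nm q : ℝ) * (1 / nm g) * (1 / nm F) * (1 / nm κ) * (1 / 1)) *
          W0 true d e (2 * c * (X * V * H / K))) :=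
          mul_le_mul_of_nonneg_left (mul_le_mul_of_nonneg_right h4 hWt) hCm
      _ ≤ (144 * cs * C * Zm ^ (2 * ε)) * (4 * cs * (H * V ^ 2 / (K * nm d)) *
          (X * V * H / K) ^ (-(2 / 3) : ℝ) *
          (1 / (nm q : ℝ) * (1 / nm g) * (1 / nm F) * (1 / nm κ) * (1 / 1)) *
          W0 true d e (2 * c * (X * V * H / K))) :=
          mul_le_mul_of_nonneg_right h5 (mul_nonneg hkp hWt)
      _ = _ := by ring
  have hsumP : C * Zm ^ (2 * ε) * ((Kp'.card : ℝ) * (Lt * (Il (X / nm d * Δ) Lt Y) ^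
      (-(2 / 3) : ℝ)) * W0 true d e (2 * c * (X * V * H / K))) ≤
      ∑ κ ∈ Kp, prT Lf Mxf Wxf (d, e, q, k, g, κ, 1, F) := by
    calc _ = ∑ κ ∈ Kp', C * Zm ^ (2 * ε) * (Lt * (Il (X / nm d * Δ) Lt Y) ^ (-(2 / 3) : ℝ) *
          W0 true d e (2 * c * (X * V * H / K))) := by
          rw [Finset.sum_const, nsmul_eq_mul]; ring
      _ ≤ ∑ κ ∈ Kp', prT Lf Mxf Wxf (d, e, q, k, g, κ, 1, F) := Finset.sum_le_sum hpr
      _ ≤ _ := Finset.sum_le_sum_of_subset_of_nonneg (Finset.filter_subset _ _) fun κ _ _ =>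
          prT_nonneg hMx0 hWx0 _
  by_cases hL1 : 1 ≤ Lt
  · rw [if_pos hL1]
    have hIe : nfD Δ Lt (Il (X / nm d * Δ) Lt Y) ≤ 144 * cs * F2 L Δ I := by
      rw [eI, eL]
      exact hF2
    have h6 : C * Zm ^ (2 * ε) * (nfD Δ Lt (Il (X / nm d * Δ) Lt Y) *
        W0 false d e (2 * c * (X * V * H / K))) ≤
        F2 L Δ I * (144 * cs * C * Zm ^ (2 * ε) * W0 false d e (2 * c * (X * V * H / K))) := by
      calc _ ≤ C * Zm ^ (2 * ε) * ((144 * cs * F2 L Δ I) *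
            W0 false d e (2 * c * (X * V * H / K))) :=
            mul_le_mul_of_nonneg_left (mul_le_mul_of_nonneg_right hIe (hW false)) hCm
        _ = _ := by ring
    rw [mul_add]
    exact add_le_add h6 hsumP
  · rw [if_neg hL1, mul_zero]
    exact add_nonneg (mul_nonneg hF0 (mul_nonneg (by positivity) (hW false))) hprT0

/-- the two forms of the number of a character -/
def S12xs (χ : Eis → ℂ) (w : ℝ → ℝ) (R0 : ℝ) (a A : ℕ) (ε cs C c : ℝ) (A₀ : ℕ) : Prop :=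
  ∀ A' : ℝ, (A₀ : ℝ) ≤ A' →
      ∀ z Zm K V H X : ℝ, 1 ≤ z → 2 * z ^ 5 ≤ Zm → 0 < K → 0 < V → 0 < H → 0 < X →
      c * (H * V ^ 2) ≤ K * X → 2 * (cs * V) ≤ Zm → 2 * z ^ 2 * (Real.exp R0 * X) ≤ Zm →
      ∀ (R : Finset (Eis × Eis)) (af : Eis → Eis → Eis → ℂ), (∀ ρ ∈ R, FS (af ρ.1 ρ.2)) →
      (∀ ρ ∈ R, ∀ n, af ρ.1 ρ.2 n ≠ 0 → Squarefree n) →
      (∀ ρ ∈ R, ∀ n, af ρ.1 ρ.2 n ≠ 0 → |Real.log (nm ρ.1 * nm n) - Real.log X| ≤ R0) →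
      ∀ u : Eis, u ≠ 0 → (∀ ρ ∈ R, ∀ n, af ρ.1 ρ.2 n ≠ 0 → IsCoprime u n) →
      ∀ W0 : Bool → Eis → Eis → ℝ → ℝ, (∀ jj d e, Slp a (W0 jj d e)) →
      (∀ jj, ∀ ρ ∈ R, ∀ γ π, IsPrim γ → IsPrim π → (nm π : ℝ) ≤ Zm ^ 4 →
        ∀ P : ℝ, 0 < P → (nm γ : ℝ) * n6 γ ^ 2 * ∑ r ∈ (bl P).filter (Cls (PrU u) jj),
          R3571.RMm A (af ρ.1 ρ.2) ρ.2 γ π r ≤ W0 jj ρ.1 ρ.2 P) →
      (∀ ρ ∈ R, ρ.1 ≠ 0) →
      S1hx z R (fun d => H * V ^ 2 / (K * nm d))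
        (fun d => cs * (H * V ^ 2 / (K * nm d)) * (X * V * H / K) ^ (-(1 / 2) : ℝ))
        (fun d => 4 * cs * (H * V ^ 2 / (K * nm d)) * (X * V * H / K) ^ (-(2 / 3) : ℝ))
        (fun d e => C * Zm ^ (2 * ε) * W0 false d e (c * (X * V * H / K)))
        (fun d e => C * Zm ^ (2 * ε) * W0 true d e (c * (X * V * H / K)))
        (BsQt ε χ w A' cs K V H af) ∧
      S2hx z R (fun d => H * V ^ 2 / (K * nm d))
        (fun d => 4 * cs * (H * V ^ 2 / (K * nm d)) * (X * V * H / K) ^ (-(2 / 3) : ℝ))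
        (X * V * H / K)
        (fun d e => C * Zm ^ (2 * ε) * W0 false d e (c * (X * V * H / K)))
        (fun d e => C * Zm ^ (2 * ε) * W0 true d e (c * (X * V * H / K)))
        (BsQt ε χ w A' cs K V H af)

set_option maxHeartbeats 400000 in
/-- **both forms of the number of a character, in classes** -/
theorem S12x_of {χ : Eis → ℂ} {w : ℝ → ℝ} {R0 : ℝ} (hR0 : 0 ≤ R0) {a A : ℕ} {ε : ℝ}
    (h1 : ∃ (C c : ℝ) (A₀ : ℕ), 0 ≤ C ∧ 1 ≤ c ∧ Cel1 χ (w6 w) 1 R0 a A ε C c A₀)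
    (h2 : ∃ (C c : ℝ) (A₀ : ℕ), 0 ≤ C ∧ 1 ≤ c ∧ Cel2 χ (w6 w) 1 R0 a A ε C c A₀)
    {cs : ℝ} (hcs : 1 ≤ cs) :
    ∃ (C c : ℝ) (A₀ : ℕ), 0 ≤ C ∧ 1 ≤ c ∧ S12xs χ w R0 a A ε cs C c A₀ := by
  obtain ⟨C1, c1, A1, hC1, hc1, h1⟩ := h1
  obtain ⟨C2, c2, A2, hC2, hc2, h2⟩ := h2
  have k1 := S1hx_Q hR0 hC1 hc1 h1 hcs
  have k2 := S2hx_Q hR0 hC2 hc2 h2 hcs
  have heR3 := Real.exp_pos (2 * R0 + 3)
  have hC2' : 0 ≤ 144 * cs * C2 := by positivity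
  refine ⟨C1 + 144 * cs * C2, c1 + 2 * c2 + (4 * Real.exp (2 * R0 + 3) + 1), A1 + A2,
    by linarith, by linarith, ?_⟩
  obtain ⟨c, hcd⟩ : ∃ c, c = c1 + 2 * c2 + (4 * Real.exp (2 * R0 + 3) + 1) := ⟨_, rfl⟩
  obtain ⟨C, hCd⟩ : ∃ C, C = C1 + 144 * cs * C2 := ⟨_, rfl⟩
  rw [← hcd, ← hCd]
  intro A' hA' z Zm K V H X hz hz5 hK hV hH hX hKX hVZ hXZ R af haf hsf hwin u hu huc W0 hW0 hRH
    hne
  have hz0 : 0 < z := by linarith
  have hA1 : (A1 : ℝ) ≤ A' := le_trans (by push_cast; linarith [Nat.cast_nonneg (α := ℝ) A2]) hA'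
  have hA2 : (A2 : ℝ) ≤ A' := le_trans (by push_cast; linarith [Nat.cast_nonneg (α := ℝ) A1]) hA'
  have hHV : 0 < H * V ^ 2 := by positivity
  have hcsV : 0 < cs * V := by positivity
  have hz51 : 1 ≤ z ^ 5 := one_le_pow₀ hz
  have hz35 : z ^ 3 ≤ z ^ 5 := pow_le_pow_right₀ hz (by norm_num)
  have hKX2 : 4 * (H * V ^ 2) * Real.exp (2 * R0 + 3) < K * X := by
    have e1 : (4 * Real.exp (2 * R0 + 3) + 1) * (H * V ^ 2) ≤ c * (H * V ^ 2) :=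
      mul_le_mul_of_nonneg_right (by rw [hcd]; linarith) hHV.le
    have e2 : (4 * Real.exp (2 * R0 + 3) + 1) * (H * V ^ 2) =
        4 * (H * V ^ 2) * Real.exp (2 * R0 + 3) + H * V ^ 2 := by ring
    linarith
  have hE : Real.exp (2 * R0) ≤ Real.exp (2 * R0 + 3) := Real.exp_le_exp.mpr (by linarith)
  have hKX1 : H * V ^ 2 * Real.exp (2 * R0) < K * X := by
    refine lt_of_le_of_lt ?_ hKX2
    have h3 : 0 < Real.exp (2 * R0) := Real.exp_pos _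
    calc H * V ^ 2 * Real.exp (2 * R0) ≤ (4 * (H * V ^ 2)) * Real.exp (2 * R0) := by
          refine mul_le_mul_of_nonneg_right (by linarith) h3.le
      _ ≤ _ := mul_le_mul_of_nonneg_left hE (by positivity)
  have hXp : 0 < Real.exp R0 * X := by positivity
  have hZm : 1 ≤ Zm := by linarith
  have hI : 0 < X * V * H / K := by positivity
  have hZ2 : 0 ≤ Zm ^ (2 * ε) := by positivity
  have hz12 : z ≤ z ^ 2 := le_self_pow₀ hz (by norm_num)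
  have m1 := k1 A' hA1 z Zm K V H X hz (by linarith) hK hV hH hX hKX1 (by linarith)
    (by
      have : 0 < z ^ 2 * (Real.exp R0 * X) := by positivity
      linarith) R af haf hsf hwin u hu huc W0 hW0 hRH hne
  have m2 := k2 A' hA2 z Zm K V H X hz (by linarith) hK hV hH hX hKX2 hVZ
    (by
      have : z * (Real.exp R0 * X) ≤ z ^ 2 * (Real.exp R0 * X) :=
        mul_le_mul_of_nonneg_right hz12 hXp.le
      linarith) R af haf hsf hwin u hu huc W0 hW0 hRH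
  have hw : ∀ C' c', 0 ≤ C' → 0 < c' → C' ≤ C → c' ≤ c → ∀ jj d e,
      C' * Zm ^ (2 * ε) * W0 jj d e (c' * (X * V * H / K)) ≤
        C * Zm ^ (2 * ε) * W0 jj d e (c * (X * V * H / K)) := by
    intro C' c' hC' hc' h3 h4 jj d e
    have hcI : 0 < c' * (X * V * H / K) := mul_pos hc' hI
    have k3 : W0 jj d e (c' * (X * V * H / K)) ≤ W0 jj d e (c * (X * V * H / K)) :=
      slp_mono (hW0 jj d e) hcI (mul_le_mul_of_nonneg_right h4 hI.le)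
    have k0 := (hW0 jj d e).nonneg _ hcI
    exact mul_le_mul (mul_le_mul_of_nonneg_right h3 hZ2) k3 k0
      (mul_nonneg (hC'.trans h3) hZ2)
  have hw0 : ∀ C' c', 0 ≤ C' → 0 < c' → ∀ jj d e,
      0 ≤ C' * Zm ^ (2 * ε) * W0 jj d e (c' * (X * V * H / K)) := by
    intro C' c' hC' hc' jj d e
    exact mul_nonneg (mul_nonneg hC' hZ2) ((hW0 jj d e).nonneg _ (mul_pos hc' hI))
  have hcc1 : c1 ≤ c := by rw [hcd]; linarith
  have hcc2 : 2 * c2 ≤ c := by rw [hcd]; linarith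
  have hCC1 : C1 ≤ C := by rw [hCd]; linarith
  have hCC2 : 144 * cs * C2 ≤ C := by rw [hCd]; linarith
  have hM : ∀ d : Eis, 0 ≤ cs * (H * V ^ 2 / (K * nm d)) * (X * V * H / K) ^ (-(1 / 2) : ℝ) :=
    fun d => by positivity
  have hMx : ∀ d : Eis, 0 ≤ cs * (H * V ^ 2 / (K * nm d)) * (X * V * H / K) ^ (-(2 / 3) : ℝ) :=
    fun d => by positivity
  have hMx4 : ∀ d : Eis, 0 ≤ 4 * cs * (H * V ^ 2 / (K * nm d)) *
      (X * V * H / K) ^ (-(2 / 3) : ℝ) := fun d => by positivity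
  constructor
  · refine S1hx_mono hM hMx (fun _ => le_rfl) (fun d => ?_) (hw0 C1 c1 hC1 (by linarith) false)
      (hw0 C1 c1 hC1 (by linarith) true) (hw C1 c1 hC1 (by linarith) hCC1 hcc1 false)
      (hw C1 c1 hC1 (by linarith) hCC1 hcc1 true) m1
    have := hMx d
    linarith
  · exact S2hx_mono (fun d => by positivity) hI.le hMx4 (fun _ => le_rfl)
      (hw0 _ _ hC2' (by linarith) true) (hw _ _ hC2' (by linarith) hCC2 hcc2 false)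
      (hw _ _ hC2' (by linarith) hCC2 hcc2 true) m2

theorem cel1_of {χ : Eis → ℂ} (hχ : Mul1 χ) {w : ℝ → ℝ} (hP : PoHWx χ (w6 w))
    (hw1 : ∀ x, w x ≠ 0 → x ≤ 1) {R0 : ℝ} (hR0 : 0 ≤ R0) (a A : ℕ) (hA : 1 < A) {ε : ℝ}
    (hε : 0 < ε) :
    ∃ (C c : ℝ) (A₀ : ℕ), 0 ≤ C ∧ 1 ≤ c ∧ Cel1 χ (w6 w) 1 R0 a A ε C c A₀ :=
  E3Ja290.bsq_cellx hχ hP le_rfl (fun x hx => w6_le hw1 hx) hR0 a A hA hε

theorem cel2_of {χ : Eis → ℂ} (hχ : Mul1 χ) {w : ℝ → ℝ} (hG : PoHGx (GDx χ (w6 w)))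
    (hw1 : ∀ x, w x ≠ 0 → x ≤ 1) {R0 : ℝ} (hR0 : 0 ≤ R0) (a A : ℕ) (hA : 1 < A) {ε : ℝ}
    (hε : 0 < ε) :
    ∃ (C c : ℝ) (A₀ : ℕ), 0 ≤ C ∧ 1 ≤ c ∧ Cel2 χ (w6 w) 1 R0 a A ε C c A₀ := by
  obtain ⟨C, c, A₀, hC, hc, h⟩ := E3Ja290.bsq_cellfx hχ hG le_rfl (fun x hx => w6_le hw1 hx) hR0 a A
    hA hε
  refine ⟨C, c, A₀, hC, hc, ?_⟩
  intro A' hA' Z hZ af haf hsf d e q g F cc hd he hq hg hF hcc hsq hnm X hX hwin Δ hΔ hΔZ hΔX u hu
    huc W0 hW0 hRH Y Lt W1 hY hYZ hLtZ hW1 hyp 𝒟 Yd Ltd h𝒟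
  refine (h A' hA' Z hZ af haf hsf d e q g F cc hd he hq hg hF hcc hsq hnm X hX hwin Δ hΔ hΔZ hΔX u
    hu huc W0 hW0 hRH Y Lt W1 hY hYZ hLtZ hW1 hyp 𝒟 Yd Ltd h𝒟).trans (le_of_eq ?_)
  split_ifs
  · rw [Fintype.sum_bool]
    unfold MX744.nfDx
    simp only [if_true, Bool.false_eq_true, if_false]
    ring
  · rfl

/-- **both forms of the number of a character, in classes** -/
theorem S12x_char {χ : Eis → ℂ} (hχ : Mul1 χ) {w : ℝ → ℝ} (hP : PoHWx χ (w6 w))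
    (hG : PoHGx (GDx χ (w6 w))) (hw1 : ∀ x, w x ≠ 0 → x ≤ 1) {R0 : ℝ} (hR0 : 0 ≤ R0) (a A : ℕ)
    (hA : 1 < A) {ε : ℝ} (hε : 0 < ε) {cs : ℝ} (hcs : 1 ≤ cs) :
    ∃ (C c : ℝ) (A₀ : ℕ), 0 ≤ C ∧ 1 ≤ c ∧ S12xs χ w R0 a A ε cs C c A₀ :=
  S12x_of hR0 (cel1_of hχ hP hw1 hR0 a A hA hε) (cel2_of hχ hG hw1 hR0 a A hA hε) hcs

end Crest.Agent.R017.E3Jb290
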