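import Crest.Agent.R017.E3Hl_290
import Crest.Agent.R017.E3Jd_290

/-!
# Row 17, T.7 (class E), R8 (E3) (Z2) (helper290): the non-sharp Gram sum, second form in classes, the
twist `u` coprime to the supports only

* `Z2sy` : `Z2sx` with `(∀ d e n, af d e n ≠ 0 → IsCoprime u n)`
-/

set_option autoImplicit false
set_option linter.unusedVariables false

noncomputable section

open Finset
open scoped Classical ComplexConjugate ContDiff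

namespace Crest.Agent.R017.E3Je290

open Crest.Agent.R012 Crest.Agent.R012.Eis Crest.Agent.R012.Div277
open Crest.Agent.R012.MC (Wgt)
open Crest.Agent.R012.LS2 (S mem_S)
open Crest.Agent.R012.Mob705 (pb mem_pb pdiv mem_pdiv)
open Crest.Agent.R012.Weight600 (pw)
open Crest.Agent.R017.C70 (JC OKJ JW okJ_JW)
open Crest.Agent.R017.CM106 (CS FS)
open Crest.Agent.R017.HB645 (hh hh_nonneg hh_le_one abs_lt_of_hh contDiff_hh sum_hh_eq_one)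
open Crest.Agent.R017.E3D579 (TE0)
open Crest.Agent.R017.E1551 (nmpos)
open Crest.Agent.R017.E3A164 (Yp Ys SteT)
open Crest.Agent.R017.E3M829 (TC Tal Cut)
open Crest.Agent.R017.E3F548
open Crest.Agent.R017.E3T1579 (T3 WQ)
open Crest.Agent.R017.E3T2579 (wL)
open Crest.Agent.R017.E3T829 (hE hE_nonneg RR)
open Crest.Agent.R017.E3Z548
open Crest.Agent.R017.E3Kc548 Crest.Agent.R017.E3Ke548
open Crest.Agent.R017.Mode405 (Slp)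
open Crest.Agent.R017.E3Sx579 (RHR)
open Crest.Agent.R017.E3Sz579 (Ld Md Ld_nonneg Md_nonneg)
open Crest.Agent.R017.E3Hb290 (LVH)
open Crest.Agent.R017.E3Hi290 (RN2XF RN2XF_nonneg)
open Crest.Agent.R017.E3Jd290 (PAIR_RHF2y')
open Crest.Agent.R017.E3Sx744 (Mxd Mxd_nonneg)
open Crest.Agent.R017.E3Xa72 (RHRx)

set_option maxHeartbeats 1000000 in
/-- **(Z2), the second form, class E** -/
theorem Z2sy {w : ℝ → ℝ} (hw : Wgt w) (hw0 : ∀ x, 0 ≤ w x) {R0 : ℝ} (hR0 : 0 ≤ R0) (a A₁ : ℕ)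
    (hA₁ : 1 < A₁) {ε : ℝ} (hε : 0 < ε) (hε1 : ε ≤ 1) :
    ∃ (A : ℕ) (c C : ℝ), 1 ≤ c ∧ 1 ≤ C ∧
    ∀ (Om : ℝ → ℂ) (Mb : ℝ), 0 ≤ Mb → ContDiff ℝ ∞ Om →
      (∀ n ≤ A + 2, ∀ x, ‖iteratedDeriv n Om x‖ ≤ Mb) →
    ∀ (τ : ℝ) (κ : ℂ), ‖κ‖ ≤ 1 → ∀ (Z : ℝ), 1 ≤ Z → ∀ (D Y₀ Y₁ : ℝ)
      (om : Eis × Eis → ℂ) (T : Eis → Eis → Eis → ℂ) (af : Eis → Eis → Eis → ℂ)
      (E0 E1 R B K X : ℝ) (H : ℕ → Eis → Eis → ℝ) (u : Eis)
      (W0 : ℕ → Bool → Eis → Eis → ℝ → ℝ),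
      u ≠ 0 → (∀ d ∈ (JW D Y₀ Y₁).image Prod.fst, ∀ e ∈ S E0, ∀ n, af d e n ≠ 0 → IsCoprime u n) →
      TC (T3 af) → (∀ d e, FS (af d e)) →
      (∀ x ∈ JW D Y₀ Y₁, ∀ e ∈ S E0, T x.1 e x.2 = T3 af x.1 e x.2) → 0 ≤ D → 0 ≤ Y₁ →
      (∀ x ∈ JW D Y₀ Y₁, om x = κ * (Om (Real.log (nm (x.2 * x.1 ^ 2))) * pw τ (nm x.2))) →
      (∀ i ∈ LI Y₀ Y₁, ∀ n : ℕ, 0 < n → hh (Real.log n - i) ≠ 0 → Om (Real.log n) ≠ 0 →
        Y₀ < n ∧ (n : ℝ) ≤ Y₁) →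
      0 < K → K ≤ Z → 0 ≤ R → R ≤ Z → 1 ≤ B → B ≤ Z → 0 ≤ E0 → E0 ≤ Z → 0 ≤ E1 → E1 ≤ Z → Y₁ ≤ Z →
      (∀ x ∈ JW D Y₀ Y₁, (nm x.1 : ℝ) ≤ Z) → (∀ x ∈ JW D Y₀ Y₁, (nm x.2 : ℝ) ≤ R) →
      0 < X → X ≤ Z ^ 5 → (∀ i d e, 0 < H i d e) → (∀ i ∈ LI Y₀ Y₁, c * Real.exp i ≤ Z ^ 5) →
      (∀ i ∈ LI Y₀ Y₁, ∀ d ∈ S (Z ^ 5), ∀ e ∈ S E0, c * (H i d e * Real.exp i ^ 2) ≤ K * X) →
      (∀ d ∈ (JW D Y₀ Y₁).image Prod.fst, ∀ e ∈ S E0, ∀ n, af d e n ≠ 0 → Squarefree n) →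
      (∀ d ∈ (JW D Y₀ Y₁).image Prod.fst, ∀ e ∈ S E0, ∀ n, af d e n ≠ 0 →
        |Real.log (nm d * nm n) - Real.log X| ≤ R0) →
      (∀ i jj d e, Slp a (W0 i jj d e)) →
      (∀ i ∈ LI Y₀ Y₁, RHRx (c * Z ^ 300) A₁ (RR (JW D Y₀ Y₁) (S E0)) af u (W0 i)) →
      (∑' k : Eis, if IsPrim k ∧ Cut E1 k then
        w ((nm k : ℝ) / K) * ‖SteT (JW D Y₀ Y₁) om E0 T k‖ ^ 2 else 0) ≤
      C * Z ^ ε * (K ^ (2 / 3 : ℝ) * ∑ e ∈ S E0, (((nm e : ℝ) ^ (-1 : ℝ) +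
        (R / K ^ 2) ^ (1 / 6 : ℝ) * (nm e : ℝ) ^ (1 / 2 : ℝ) + E1 ^ 2 * B ^ 2 * R / K) *
          XE (JW D Y₀ Y₁) om T e) +
      Mb ^ 2 * (1 + |τ|) ^ A * ∑ e ∈ S E0, ∑ i ∈ LI Y₀ Y₁, ∑ d ∈ (JW D Y₀ Y₁).image Prod.fst,
        (nm e : ℝ)⁻¹ * LVn af {d} {e} c (Z ^ 5) K (H i d e) (Real.exp i) (Real.exp i) E1 B 1
          (RN2XF c K (Real.exp i) X (H i) (W0 i) d e)) := by
  have hε2 : 0 < ε / 2 := by positivity
  obtain ⟨w1, hW1, hw1s, hw1e⟩ := exists_w1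
  obtain ⟨b₀, hb0, hcore⟩ := Z2core hw hw0 hε2
  obtain ⟨A₀, c, hc, hpair⟩ := PAIR_RHF2y' (Rw := 3) (by norm_num) contDiff_hh hhc hW1 hw1s hw1e hR0 a A₁
    hA₁ hb0 hε2 (by linarith)
  obtain ⟨C1, hC1, h1⟩ := hcore 3 (max A₀ 2) 4 (by norm_num) (by omega) (by norm_num)
  obtain ⟨C2, hC2, h2⟩ := hpair (max A₀ 2) (le_max_left _ _) 4 le_rfl
  refine ⟨max A₀ 2, c, C1 * (1 + 2 * C2), hc,
    one_le_mul_of_one_le_of_one_le hC1 (by linarith), ?_⟩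
  intro Om Mb hMb hOm hOb τ κ hκ Z hZ D Y₀ Y₁ om T af E0 E1 R B K X H u W0 hu huc hT haf hTT hD hY0 hom hwn
    hK hKZ hR0' hRZ hB hBZ hE0 hE0Z hE1 hE1Z hYZ hJ1 hJ2 hX hXZ hH hcV hKX hsf hwin hS hRH
  have hZ0 : (0 : ℝ) < Z := by linarith
  have hB0 : 0 ≤ B := by linarith
  obtain ⟨A, hA⟩ : ∃ A, A = max A₀ 2 := ⟨_, rfl⟩
  rw [← hA] at h1 h2 hOb ⊢
  have hJ := okJ_JW D Y₀ Y₁
  obtain ⟨F, hF⟩ : ∃ F : ℕ → Eis → Eis → ℝ, F = fun i e d =>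
      (nm e : ℝ)⁻¹ * LVn af {d} {e} c (Z ^ 5) K (H i d e) (Real.exp i) (Real.exp i) E1 B 1
          (RN2XF c K (Real.exp i) X (H i) (W0 i) d e) := ⟨_, rfl⟩
  have key := h1 D Y₀ Y₁ om T af K R Z B E0 E1 (2 * C2 * Mb ^ 2 * (1 + |τ|) ^ A * Z ^ (ε / 2)) F hT
    hTT hK hZ hKZ hR0' hRZ hB hE0 hE0Z hE1 hY0 hYZ hJ1 hJ2 (by
      intro e he b i hi
      have hsub : ∀ x ∈ Jat (JW D Y₀ Y₁) b, x ∈ JW D Y₀ Y₁ := fun x hx => (mem_filter.mp hx).1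
      have hWQ := WQ_Jat (omk_WQ (κ := κ) (Om := Om) (τ := τ) (E0 := E0) (R := R) hD hY0 hom i
        (hwn i hi)) hJ b
      have hTa : TC (T3 (afat af e)) := by rw [← T3_Tat]; exact TC_Tat hT e
      have haf' : afat af e = fun d e' m => if e' = e then af d e' m else 0 := rfl
      have haf2 : ∀ d, afat af e d e = af d e := fun d => by
        funext m
        simp [afat]
      have himg : ∀ {d}, d ∈ (Jat (JW D Y₀ Y₁) b).image Prod.fst →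
          d ∈ (JW D Y₀ Y₁).image Prod.fst := fun {d} hd => by
        obtain ⟨x, hx, rfl⟩ := mem_image.mp hd
        exact mem_image_of_mem _ (hsub x hx)
      have hRHe : RHRx (c * Z ^ 300) A₁ (RR (Jat (JW D Y₀ Y₁) b) {e}) (afat af e) u (W0 i) := by
        intro jj ρ hρ γ π hγ hπ hπm P hP
        unfold RR at hρ
        obtain ⟨hρ1, hρ2⟩ := mem_product.mp hρ
        have hρe := mem_singleton.mp hρ2
        have hmem : ρ ∈ RR (JW D Y₀ Y₁) (S E0) := by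
          unfold RR
          exact mem_product.mpr ⟨himg hρ1, hρe ▸ he⟩
        have hafe : afat af e ρ.1 ρ.2 = af ρ.1 ρ.2 := by
          rw [hρe]; exact haf2 ρ.1
        rw [hafe]
        exact hRH i hi jj ρ hmem γ π hγ hπ hπm P hP
      have p := h2 Om Om Mb hMb hOm hOm hOb hOb (Real.exp i) (Real.exp i) τ κ κ (Real.exp_pos _)
        (Real.exp_pos _) hκ hκ Z hZ Pg (Jat (JW D Y₀ Y₁) b) (omk om i) (omk om i) (afat af e) {e}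
        E0 E1 R B K X 1 1 (H i) (H i) u (W0 i) (W0 i) hu
        (fun d hd e' he' n hn => by
          rw [mem_singleton.mp he', haf2] at hn
          exact huc d (himg hd) e he n hn) hTa (FS_afat haf e) (OKJ_Jat hJ b)
        (EE_afat af e) hK hR0' hRZ hB0 hBZ hE1 hE1Z (fun x hx => hJ1 x (hsub x hx))
        (fun x hx => hJ2 x (hsub x hx)) hWQ hWQ hX (hH i) (hH i) zero_le_one zero_le_one
        (hKZ.trans (le_self_pow₀ hZ (by norm_num))) hXZ (hcV i hi) (hcV i hi)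
        (fun d hd e' he' => by rw [mem_singleton.mp he']; exact hKX i hi d hd e he)
        (fun d hd e' he' => by rw [mem_singleton.mp he']; exact hKX i hi d hd e he)
        (Or.inr ⟨ClsP_Jat hJ b E0 R, le_rfl⟩) (Or.inr ⟨ClsP_Jat hJ b E0 R, le_rfl⟩)
        (fun d hd e' he' n hn => by
          rw [mem_singleton.mp he', haf2] at hn
          exact hsf d (himg hd) e he n hn)
        (fun d hd e' he' n hn => by
          rw [mem_singleton.mp he', haf2] at hn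
          exact hwin d (himg hd) e he n hn)
        (hS i) (hS i) hRHe hRHe
      refine p.trans (le_of_eq ?_)
      have e4 : hE {e} = (nm e : ℝ)⁻¹ := by
        unfold hE
        rw [sum_singleton, one_div]
      rw [LVH_afat, e4, hF, ← mul_sum]
      ring)
  refine key.trans ?_
  have hze : (Z ^ (ε / 2)) * Z ^ (ε / 2) = Z ^ ε := by
    rw [← Real.rpow_add hZ0]; congr 1; ring
  have hz1 : 1 ≤ Z ^ (ε / 2) := Real.one_le_rpow hZ hε2.le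
  have hF0 : ∀ i e d, 0 ≤ F i e d := fun i e d => by
    rw [hF]
    have hh := hH i d e
    have hI : 0 < c * (X * Real.exp i * H i d e / K) := by
      have := Real.exp_pos (i : ℝ)
      positivity
    have he3 := Real.exp_pos (i : ℝ)
    exact mul_nonneg (by positivity) (LVn_nonneg hK.le hh.le (Real.exp_pos _).le
      (Real.exp_pos _).le hE1 zero_le_one (RN2XF_nonneg (Ld_nonneg hK hh d)
        (Md_nonneg (by linarith) hK (Real.exp_pos _) hh hX d)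
        (Mxd_nonneg (by linarith) hK (Real.exp_pos _) hh hX d) (by positivity)
        (fun jj => (hS i jj d e).nonneg _ hI)))
  rw [show (∑ e ∈ S E0, ∑ i ∈ LI Y₀ Y₁, ∑ d ∈ (JW D Y₀ Y₁).image Prod.fst,
        (nm e : ℝ)⁻¹ * LVn af {d} {e} c (Z ^ 5) K (H i d e) (Real.exp i) (Real.exp i) E1 B 1
          (RN2XF c K (Real.exp i) X (H i) (W0 i) d e)) =
      ∑ e ∈ S E0, ∑ i ∈ LI Y₀ Y₁, ∑ d ∈ (JW D Y₀ Y₁).image Prod.fst, F i e d by rw [hF]]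
  have hS2 : 0 ≤ ∑ e ∈ S E0, ∑ i ∈ LI Y₀ Y₁, ∑ d ∈ (JW D Y₀ Y₁).image Prod.fst, F i e d :=
    sum_nonneg fun e _ => sum_nonneg fun i _ => sum_nonneg fun d _ => hF0 i e d
  have hS1 : 0 ≤ K ^ (2 / 3 : ℝ) * ∑ e ∈ S E0, (((nm e : ℝ) ^ (-1 : ℝ) +
        (R / K ^ 2) ^ (1 / 6 : ℝ) * (nm e : ℝ) ^ (1 / 2 : ℝ) + E1 ^ 2 * B ^ 2 * R / K) *
          XE (JW D Y₀ Y₁) om T e) :=
    mul_nonneg (by positivity) (sum_nonneg fun e _ => mul_nonneg (by positivity)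
      (XE_nonneg _ _ _ _))
  obtain ⟨S1, hS1d⟩ : ∃ S1, S1 = K ^ (2 / 3 : ℝ) * ∑ e ∈ S E0, (((nm e : ℝ) ^ (-1 : ℝ) +
        (R / K ^ 2) ^ (1 / 6 : ℝ) * (nm e : ℝ) ^ (1 / 2 : ℝ) + E1 ^ 2 * B ^ 2 * R / K) *
          XE (JW D Y₀ Y₁) om T e) := ⟨_, rfl⟩
  obtain ⟨S2, hS2d⟩ : ∃ S2, S2 = ∑ e ∈ S E0, ∑ i ∈ LI Y₀ Y₁,
      ∑ d ∈ (JW D Y₀ Y₁).image Prod.fst, F i e d := ⟨_, rfl⟩
  rw [← hS2d] at hS2 ⊢
  rw [← hS1d] at hS1 ⊢
  obtain ⟨z, hz⟩ : ∃ z, z = Z ^ (ε / 2) := ⟨_, rfl⟩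
  rw [← hz] at hze hz1 ⊢
  rw [← hze]
  have hM : 0 ≤ Mb ^ 2 * (1 + |τ|) ^ A := by positivity
  obtain ⟨M, hMd⟩ : ∃ M, M = Mb ^ 2 * (1 + |τ|) ^ A := ⟨_, rfl⟩
  rw [← hMd] at hM ⊢
  rw [show 2 * C2 * Mb ^ 2 * (1 + |τ|) ^ A * z = 2 * C2 * M * z by rw [hMd]; ring]
  have hz0 : 0 ≤ z := by linarith
  have hMS : 0 ≤ M * S2 := mul_nonneg hM hS2
  have a1 : S1 ≤ (1 + 2 * C2) * z * S1 := by
    have : 1 ≤ (1 + 2 * C2) * z := one_le_mul_of_one_le_of_one_le (by linarith) hz1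
    exact le_mul_of_one_le_left hS1 this
  have a2 : 2 * C2 * M * z * S2 ≤ (1 + 2 * C2) * z * (M * S2) := by
    have : 0 ≤ z * (M * S2) := mul_nonneg hz0 hMS
    nlinarith
  calc C1 * z * (S1 + 2 * C2 * M * z * S2) ≤
      C1 * z * ((1 + 2 * C2) * z * S1 + (1 + 2 * C2) * z * (M * S2)) :=
        mul_le_mul_of_nonneg_left (add_le_add a1 a2) (by positivity)
    _ = C1 * (1 + 2 * C2) * (z * z) * (S1 + M * S2) := by ring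

end Crest.Agent.R017.E3Je290
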