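import Crest.Agent.R017.ET4a_548
import Crest.Agent.R017.E3Je_290

/-!
# Row 17, T.7 (class E), R8 (E3t) (helper290): the Gram sum of the structured function at `m³ k`

* `ET4ayQ`, `ET4ay` : helper548's `ET4aQ`, `ET4a` in classes, from `Z2sy`
-/

set_option autoImplicit false
set_option linter.unusedVariables false

noncomputable section

open Finset
open scoped Classical ComplexConjugate ContDiff

namespace Crest.Agent.R017.ET4ax290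

open Crest.Agent.R012 Crest.Agent.R012.Eis Crest.Agent.R012.Div277
open Crest.Agent.R012.MC (Wgt)
open Crest.Agent.R012.LS2 (S mem_S bl)
open Crest.Agent.R012.Mob705 (mu)
open Crest.Agent.R012.Weight600 (pw)
open Crest.Agent.R017.C70 (JC OKJ JW okJ_JW CbF)
open Crest.Agent.R017.CM106 (CS FS)
open Crest.Agent.R017.HB645 (hh)
open Crest.Agent.R017.E3D579 (TE0)
open Crest.Agent.R017.E1551 (nmpos)
open Crest.Agent.R017.E3A164 (SteT)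
open Crest.Agent.R017.E3M829 (TC Tal Cut)
open Crest.Agent.R017.E3F548
open Crest.Agent.R017.E3T1579 (T3)
open Crest.Agent.R017.E3T829 (cg hE RR)
open Crest.Agent.R017.E3Z548
open Crest.Agent.R017.E3Kc548 Crest.Agent.R017.E3Ke548
open Crest.Agent.R017.Mode405 (Slp)
open Crest.Agent.R017.E3Sx579 (RHR)
open Crest.Agent.R017.E3Sz579 (Ld Md Ld_nonneg Md_nonneg)
open Crest.Agent.R017.E3Hi290 (RN2XF RN2XF_nonneg)
open Crest.Agent.R017.E3Sx744 (Mxd Mxd_nonneg)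
open Crest.Agent.R017.E3Xa72 (RHRx)
open Crest.Agent.R017.PoHx72 (Cls)
open Crest.Agent.R017.ROX744 (PrU)
open Crest.Agent.R017.ET4a548
open Crest.Agent.R017.E2440 (TE StE StT)
open Crest.Agent.R017.End699 (prin0)
open Crest.Agent.R017.CubL813 (StE_cubeT split_unique)
open Crest.Agent.R017.PX764 (th Gh n6)
open Crest.Agent.R017.R3571 (RMm RMm_nonneg rm)

/-- the number of one side at `e` and at `e0 e` -/
lemma LVn_afx {α : Eis → ℂ} {Q : Eis → Prop} {m e0 : Eis} (hp : ∀ n, α n ≠ 0 → IsPrim n) (h0 : e0 ∣ m) (h0p : IsPrim e0) (d : Eis) {e : Eis}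
    (he : IsPrim e) {c Y K V X : ℝ} (hK : 0 ≤ K) (hV : 0 ≤ V)
    {H H' : Eis → Eis → ℝ} {W W' : Bool → Eis → Eis → ℝ → ℝ} (hH : 0 ≤ H d (e0 * e))
    (hHH : H' d e = H d (e0 * e)) (hWW : ∀ jj, W' jj d e = W jj d (e0 * e)) :
    (nm e : ℝ)⁻¹ * LVn (afm α m Q e0) {d} {e} c Y K (H' d e) V V 1 1 1 (RN2XF c K V X H' W' d e) ≤
      (nm (e0 * e) : ℝ)⁻¹ * LVn (fun d _ n => α (d * n)) {d} {e0 * e} c Y K (H d (e0 * e)) V V
        1 1 1 (RN2XF c K V X H W d (e0 * e)) := by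
  have h1 := nmpos he.ne_zero
  have h2 := nmpos (h0p.mul he).ne_zero
  have t0 := TN_afm (Q := Q) hp h0 h0p d he (om := fun _ => (1 : ℝ)) (fun _ => zero_le_one) {1} (JVc c V) id
  have t1 := TN_afm (Q := Q) hp h0 h0p d he (om := fun γ => (nm γ : ℝ)⁻¹) (fun _ => by positivity)
    (primBall ⌊Y⌋₊) (JV c V) (fun _ => 1)
  have t2 := TN_afm (Q := Q) hp h0 h0p d he (om := fun γ => (nm γ : ℝ) ^ (-(1 / 2) : ℝ))
    (fun _ => by positivity) (primBall ⌊Y⌋₊) (JV c V) (fun _ => 1)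
  have t3 : (nm e : ℝ)⁻¹ * RN2XF c K V X H' W' d e =
      (nm (e0 * e) : ℝ)⁻¹ * RN2XF c K V X H W d (e0 * e) := by
    unfold RN2XF
    rw [hHH, hWW, hWW]
    have e1 : ∀ (x : ℝ) (y u : ℝ), x ≠ 0 → x⁻¹ * (y * x * u) = y * u := by
      intro x y u hx
      field_simp
    rw [e1 _ _ _ h1.ne', e1 _ _ _ h2.ne']
  rw [hHH]
  have hF : 0 ≤ FH K (H d (e0 * e)) V := FH_nonneg hK hH hV
  unfold LVn
  have x0 : 0 ≤ 1 + (H d (e0 * e) * (V / V)) ^ (1 / 3 : ℝ) * (V / K) * (1 ^ 2 * 1 ^ 2 * 1) +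
      (H d (e0 * e) * V ^ 2 * V * 1 ^ 3 * 1 ^ 2 / K ^ 2) ^ (1 / 3 : ℝ) := by positivity
  have x1 : 0 ≤ 1 + (H d (e0 * e) ^ 2 * V ^ 3 / K ^ 2) ^ (1 / 3 : ℝ) := by positivity
  have x2 : 0 ≤ (H d (e0 * e) ^ 2 * V ^ 3 / K ^ 2) ^ (1 / 2 : ℝ) := by positivity
  have key := mul_le_mul_of_nonneg_left (add_le_add (add_le_add (add_le_add
    (mul_le_mul_of_nonneg_left t0 x0) (mul_le_mul_of_nonneg_left t1 x1))
    (mul_le_mul_of_nonneg_left t2 x2)) t3.le) hF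
  refine le_trans (le_of_eq ?_) (key.trans (le_of_eq ?_)) <;> ring

/-- **(E3t), square-free part: the second moment over the cube-free `k ∈ [ρ K, K]` at `m³ k`,
range `Q` of `f = e0 e`** -/
theorem ET4ayQ {ρ : ℝ} (hρ : 0 < ρ) (hρ1 : ρ ≤ 1) {R0 : ℝ} (hR0 : 0 ≤ R0) (a A₁ : ℕ)
    (hA₁ : 1 < A₁) {ε : ℝ} (hε : 0 < ε) (hε1 : ε ≤ 1) :
    ∃ (A : ℕ) (c C : ℝ), 1 ≤ c ∧ 1 ≤ C ∧
    ∀ (Om : ℝ → ℂ) (Mb : ℝ), 0 ≤ Mb → ContDiff ℝ ∞ Om →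
      (∀ n ≤ A + 2, ∀ x, ‖iteratedDeriv n Om x‖ ≤ Mb) →
    ∀ (τ : ℝ) (κ : ℂ), ‖κ‖ ≤ 1 → ∀ (Z : ℝ), 1 ≤ Z → ∀ (D Y₀ Y₁ : ℝ)
      (om : Eis × Eis → ℂ) (α : Eis → ℂ) (Q : Eis → Prop) (E0 R K X : ℝ) (m : Eis)
      (KK : Finset Eis) (H : ℕ → Eis → Eis → ℝ) (u : Eis)
      (W0 : ℕ → Bool → Eis → Eis → ℝ → ℝ), u ≠ 0 → (∀ n, α n ≠ 0 → IsCoprime u n) →
      FS α → (∀ n, α n ≠ 0 → Squarefree n) →
      (∀ n, α n ≠ 0 → |Real.log (nm n) - Real.log X| ≤ R0) →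
      IsPrim m → (nm m : ℝ) ≤ Z → 0 ≤ D → 0 ≤ Y₁ →
      (∀ x ∈ JW D Y₀ Y₁, om x = κ * (Om (Real.log (nm (x.2 * x.1 ^ 2))) * pw τ (nm x.2))) →
      (∀ i ∈ LI Y₀ Y₁, ∀ n : ℕ, 0 < n → hh (Real.log n - i) ≠ 0 → Om (Real.log n) ≠ 0 →
        Y₀ < n ∧ (n : ℝ) ≤ Y₁) →
      0 < K → K ≤ Z → (∀ k ∈ KK, IsPrim k ∧ CbF k ∧ ρ * K ≤ nm k ∧ (nm k : ℝ) ≤ K) →
      0 ≤ R → R ≤ Z → 0 ≤ E0 → E0 ≤ Z → Y₁ ≤ Z →
      (∀ x ∈ JW D Y₀ Y₁, (nm x.1 : ℝ) ≤ Z) → (∀ x ∈ JW D Y₀ Y₁, (nm x.2 : ℝ) ≤ R) →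
      0 < X → X ≤ Z ^ 5 → (∀ i d f, 0 < H i d f) → (∀ i ∈ LI Y₀ Y₁, c * Real.exp i ≤ Z ^ 5) →
      (∀ i ∈ LI Y₀ Y₁, ∀ d ∈ S (Z ^ 5), ∀ f ∈ (S E0).filter Q,
        c * (H i d f * Real.exp i ^ 2) ≤ K * X) →
      (∀ i jj d f, Slp a (W0 i jj d f)) →
      (∀ i ∈ LI Y₀ Y₁, ∀ jj, ∀ d ∈ (JW D Y₀ Y₁).image Prod.fst, ∀ f ∈ (S E0).filter Q, ∀ γ π,
        IsPrim γ → IsPrim π → (nm π : ℝ) ≤ c * Z ^ 300 → ∀ P : ℝ, 0 < P →
        (nm γ : ℝ) * n6 γ ^ 2 * ∑ r ∈ (bl P).filter (Cls (PrU u) jj),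
          RMm A₁ (fun n => α (d * n)) f γ π r ≤ W0 i jj d f P) →
      ∑ k ∈ KK, ‖StT E0 (JW D Y₀ Y₁) om (fun x e => if Q e then TE α x e else 0) (m ^ 3 * k)‖ ^ 2 ≤
      C * Z ^ ε * (K ^ (2 / 3 : ℝ) * ∑ f ∈ (S E0).filter Q, (((nm (EuclideanDomain.gcd f m) : ℝ) / nm f +
        (R / K ^ 2) ^ (1 / 6 : ℝ) * (nm f : ℝ) ^ (1 / 2 : ℝ) + R / K) *
          XE (JW D Y₀ Y₁) om (Tal α) f) +
      Mb ^ 2 * (1 + |τ|) ^ A * ∑ f ∈ (S E0).filter Q, ∑ i ∈ LI Y₀ Y₁, ∑ d ∈ (JW D Y₀ Y₁).image Prod.fst,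
        (nm f : ℝ)⁻¹ * LVn (fun d _ n => α (d * n)) {d} {f} c (Z ^ 5) K (H i d f) (Real.exp i)
          (Real.exp i) 1 1 1 (RN2XF c K (Real.exp i) X (H i) (W0 i) d f)) := by
  have hε2 : 0 < ε / 2 := by positivity
  obtain ⟨w, hw, hw0, hw1⟩ := exists_wr hρ hρ1
  obtain ⟨A, c, C1, hc, hC1, h⟩ := E3Je290.Z2sy hw hw0 hR0 a A₁ hA₁ hε2 (by linarith)
  obtain ⟨C2, hC2, htau⟩ := tau_le_rpow hε2
  refine ⟨A, c, C2 * C1, hc, one_le_mul_of_one_le_of_one_le hC2 hC1, ?_⟩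
  intro Om Mb hMb hOm hOb τ κ hκ Z hZ D Y₀ Y₁ om α Q E0 R K X m KK H u W0 hu huc hα hsq hwin hm hmZ hD hY hom
    hwn hK hKZ hKK hR0' hRZ hE0 hE0Z hYZ hJ1 hJ2 hX hXZ hH hcV hKX hS hRH
  have hZ0 : (0 : ℝ) < Z := by linarith
  have hp : ∀ n, α n ≠ 0 → IsPrim n := fun n hn => hα.prim n hn
  have hJ := okJ_JW D Y₀ Y₁
  obtain ⟨M, hMd⟩ : ∃ M, M = Mb ^ 2 * (1 + |τ|) ^ A := ⟨_, rfl⟩
  have hM : 0 ≤ M := by rw [hMd]; positivity
  obtain ⟨G, hG⟩ : ∃ G : Eis → ℝ, G = fun f => ((nm (EuclideanDomain.gcd f m) : ℝ) / nm f +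
        (R / K ^ 2) ^ (1 / 6 : ℝ) * (nm f : ℝ) ^ (1 / 2 : ℝ) + R / K) *
          XE (JW D Y₀ Y₁) om (Tal α) f := ⟨_, rfl⟩
  obtain ⟨L, hL⟩ : ∃ L : Eis → ℝ, L = fun f => ∑ i ∈ LI Y₀ Y₁,
      ∑ d ∈ (JW D Y₀ Y₁).image Prod.fst,
        (nm f : ℝ)⁻¹ * LVn (fun d _ n => α (d * n)) {d} {f} c (Z ^ 5) K (H i d f) (Real.exp i)
          (Real.exp i) 1 1 1 (RN2XF c K (Real.exp i) X (H i) (W0 i) d f) := ⟨_, rfl⟩
  have hR2 : ∀ (i : ℕ) (d f : Eis), 0 ≤ RN2XF c K (Real.exp i) X (H i) (W0 i) d f := fun i d f => by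
    have hh := hH i d f
    have he3 := Real.exp_pos (i : ℝ)
    have hI : 0 < c * (X * Real.exp i * H i d f / K) := by positivity
    exact RN2XF_nonneg (Ld_nonneg hK hh d) (Md_nonneg (by linarith) hK he3 hh hX d)
      (Mxd_nonneg (by linarith) hK he3 hh hX d)
      (by positivity) (fun jj => (hS i jj d f).nonneg _ hI)
  have hG0 : ∀ f, 0 ≤ G f := fun f => by
    rw [hG]
    exact mul_nonneg (by positivity) (XE_nonneg _ _ _ _)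
  have hL0 : ∀ f, 0 ≤ L f := fun f => by
    rw [hL]
    exact sum_nonneg fun i _ => sum_nonneg fun d _ => mul_nonneg (by positivity)
      (LVn_nonneg hK.le (hH i d f).le (Real.exp_pos _).le (Real.exp_pos _).le zero_le_one
        zero_le_one (hR2 i d f))
  -- one divisor
  have h1 : ∀ e0 ∈ Pm m E0, ∑ k ∈ KK, ‖SteT (JW D Y₀ Y₁) om (E0 / nm e0) (T3 (afm α m Q e0)) k‖ ^ 2 ≤
      C1 * Z ^ (ε / 2) * (K ^ (2 / 3 : ℝ) *
        ∑ e ∈ (S (E0 / nm e0)).filter (fun e => IsCoprime e m ∧ Q (e0 * e)), G (e0 * e) +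
        M * ∑ e ∈ (S (E0 / nm e0)).filter (fun e => IsCoprime e m ∧ Q (e0 * e)), L (e0 * e)) := by
    intro e0 he0
    obtain ⟨⟨q1, q2⟩, q3, q4⟩ := (mem_Pm hm.ne_zero).mp he0
    have n1 : (1 : ℝ) ≤ nm e0 := by exact_mod_cast nm_pos.mpr q1.ne_zero
    obtain ⟨H', hH'd⟩ : ∃ H' : ℕ → Eis → Eis → ℝ, H' = fun i d e =>
      if IsCoprime e m ∧ Q (e0 * e) then H i d (e0 * e) else K * X / (c * Real.exp i ^ 2) := ⟨_, rfl⟩
    obtain ⟨W', hW'd⟩ : ∃ W' : ℕ → Bool → Eis → Eis → ℝ → ℝ, W' = fun i jj d e =>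
      if IsCoprime e m ∧ Q (e0 * e) then W0 i jj d (e0 * e) else fun _ => 0 := ⟨_, rfl⟩
    have hH'1 : ∀ {e}, IsCoprime e m ∧ Q (e0 * e) → ∀ i d, H' i d e = H i d (e0 * e) := fun {e} he i d => by
      rw [hH'd]; exact if_pos he
    have hH'2 : ∀ {e}, ¬ (IsCoprime e m ∧ Q (e0 * e)) → ∀ i d,
        H' i d e = K * X / (c * Real.exp i ^ 2) := fun {e} he i d => by
      rw [hH'd]; exact if_neg he
    have hW'1 : ∀ {e}, IsCoprime e m ∧ Q (e0 * e) → ∀ i jj d, W' i jj d e = W0 i jj d (e0 * e) := fun {e} he i jj d => by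
      rw [hW'd]; exact if_pos he
    have hW'2 : ∀ {e}, ¬ (IsCoprime e m ∧ Q (e0 * e)) → ∀ i jj d, W' i jj d e = fun _ => 0 := fun {e} he i jj d => by
      rw [hW'd]; exact if_neg he
    have hH'0 : ∀ i d e, 0 < H' i d e := fun i d e => by
      by_cases he : IsCoprime e m ∧ Q (e0 * e)
      · rw [hH'1 he]; exact hH _ _ _
      · rw [hH'2 he]
        have := Real.exp_pos (i : ℝ)
        positivity
    have hW'S : ∀ i jj d e, Slp a (W' i jj d e) := fun i jj d e => by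
      by_cases he : IsCoprime e m ∧ Q (e0 * e)
      · rw [hW'1 he]; exact hS _ _ _ _
      · rw [hW'2 he]; exact Slp_zero a
    have k := h Om Mb hMb hOm hOb τ κ hκ Z hZ D Y₀ Y₁ om (T3 (afm α m Q e0)) (afm α m Q e0)
      (E0 / nm e0) 1 R 1 K X H' u W' hu
      (fun d hd e he n hn => (huc _ (afm_ne hn).2).of_mul_right_right) (TC_afm hsq) (fun d e => FS_afm hα d e)
      (fun x hx e he => rfl) hD hY hom hwn hK hKZ hR0' hRZ le_rfl hZ (by positivity)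
      ((div_le_self hE0 n1).trans hE0Z) zero_le_one hZ hYZ hJ1 hJ2 hX hXZ hH'0 hcV
      (fun i hi d hd e he => by
        by_cases hc' : IsCoprime e m ∧ Q (e0 * e)
        · rw [hH'1 hc']
          exact hKX i hi d hd _ (mem_filter.mpr
            ⟨mul_mem_S hm.ne_zero hE0 he0 he hc'.1, hc'.2⟩)
        · rw [hH'2 hc']
          have := Real.exp_pos (i : ℝ)
          refine le_of_eq ?_
          field_simp)
      (fun d hd e he n hn => afm_sqf hsq hn)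
      (fun d hd e he n hn => afm_win hwin hn) hW'S
      (fun i hi jj ρ' hρ' γ π hγ hπ hπm P hP => by
        unfold RR at hρ'
        obtain ⟨r1, r2⟩ := mem_product.mp hρ'
        obtain ⟨x, hx, hx1⟩ := mem_image.mp r1
        by_cases hc' : IsCoprime ρ'.2 m ∧ Q (e0 * ρ'.2)
        · rw [hW'1 hc']
          refine le_trans ?_ (hRH i hi jj ρ'.1 r1 (e0 * ρ'.2) (mem_filter.mpr
            ⟨mul_mem_S hm.ne_zero hE0 he0 r2 hc'.1, hc'.2⟩) γ π hγ hπ hπm P hP)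
          refine mul_le_mul_of_nonneg_left (sum_le_sum fun r _ => ?_) (by positivity)
          exact RMm_afm hp q2 (hx1 ▸ hJ.prim x hx) hc' _ _ _ _
        · rw [hW'2 hc', afm_bad (fun h => hc' h.2.2)]
          simp only [RMm_zero, sum_const_zero, mul_zero, le_refl])
    refine (sum_le_smooth hw hw0 hw1 hK hKK _).trans (k.trans ?_)
    refine mul_le_mul_of_nonneg_left (add_le_add (mul_le_mul_of_nonneg_left ?_ (by positivity)) ?_)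
      (by positivity)
    · -- the diagonal
      rw [sum_filter]
      refine sum_le_sum fun e he => ?_
      have he' := (mem_Sdiv hE0 q1).mp he
      have hep := ((mem_S hE0).mp he'.1).2.1
      split_ifs with hc'
      · rw [hG]
        have g1 : (nm (e0 * e) : ℝ) = nm e0 * nm e := by rw [nm_mul, Nat.cast_mul]
        have g2 : (nm e : ℝ) ^ (-1 : ℝ) = (nm (EuclideanDomain.gcd (e0 * e) m) : ℝ) / nm (e0 * e) := by
          have := nmpos hep.ne_zero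
          have := nmpos q1.ne_zero
          rw [nm_gcd q2 hc'.1, g1, Real.rpow_neg_one]
          field_simp
        have g3 : (nm e : ℝ) ≤ nm (e0 * e) := by
          rw [g1]
          exact le_mul_of_one_le_left (Nat.cast_nonneg _) n1
        refine mul_le_mul ?_ (XE_afm hp q2 hJ om e) (XE_nonneg _ _ _ _) (by positivity)
        rw [g2]
        have g4 : (nm e : ℝ) ^ (1 / 2 : ℝ) ≤ (nm (e0 * e) : ℝ) ^ (1 / 2 : ℝ) :=
          Real.rpow_le_rpow (Nat.cast_nonneg _) g3 (by norm_num)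
        have g5 := mul_le_mul_of_nonneg_left g4 (by positivity : 0 ≤ (R / K ^ 2) ^ (1 / 6 : ℝ))
        have g6 : (1 : ℝ) ^ 2 * 1 ^ 2 * R / K = R / K := by ring
        rw [g6]
        linarith
      · have g1 : XE (JW D Y₀ Y₁) om (T3 (afm α m Q e0)) e = 0 := by
          unfold XE
          refine sum_eq_zero fun x hx => ?_
          have : T3 (afm α m Q e0) x.1 e x.2 = 0 := by
            have hb := TE0_bad (α := α) (Q := Q) (m := m) (e0 := e0) (d := x.1) (e := e)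
              (fun h => hc' h.2.2) 1 x.1 x.2
            rwa [cg_one'] at hb
          rw [this]
          simp
        rw [g1, mul_zero]
    · -- the modes
      rw [← hMd]
      refine mul_le_mul_of_nonneg_left ?_ hM
      rw [sum_filter]
      refine sum_le_sum fun e he => ?_
      have he' := (mem_Sdiv hE0 q1).mp he
      have hep := ((mem_S hE0).mp he'.1).2.1
      split_ifs with hc'
      · rw [hL]
        refine sum_le_sum fun i _ => sum_le_sum fun d _ => ?_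
        exact LVn_afx hp q2 q1 d hep hK.le (Real.exp_pos _).le (hH _ _ _).le (hH'1 hc' i d)
          (fun jj => hW'1 hc' i jj d)
      · refine (sum_eq_zero fun i _ => sum_eq_zero fun d _ => ?_).le
        have z0 : ∀ (om' : Eis → ℝ) (Gs : Finset Eis) (As : Eis → Eis → Finset Eis)
            (dl : Eis → Eis), TN (afm α m Q e0) (fun e => (nm e : ℝ)) {d} {e} om' Gs As dl = 0 := by
          intro om' Gs As dl
          unfold TN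
          rw [sum_singleton, sum_singleton]
          have : ∀ γ j, ‖TE0 (cg γ (afm α m Q e0 d e)) (dl d) j e‖ ^ 2 = 0 := fun γ j => by
            rw [TE0_bad (fun h => hc' h.2.2), norm_zero]
            norm_num
          simp only [this, sum_const_zero, mul_zero]
        have z1 : RN2XF c K (Real.exp i) X (H' i) (W' i) d e = 0 := by
          unfold RN2XF
          rw [hW'2 hc', hW'2 hc']
          simp
        unfold LVn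
        rw [z0, z0, z0, z1]
        simp
  -- the sum over the divisors
  have hcard : ((Pm m E0).card : ℝ) ≤ C2 * Z ^ (ε / 2) := by
    have c1 : ((Pm m E0).card : ℝ) ≤ tau m := by
      unfold Pm tau
      exact_mod_cast card_filter_le _ _
    refine c1.trans ((htau m hm.ne_zero).trans ?_)
    exact mul_le_mul_of_nonneg_left (Real.rpow_le_rpow (Nat.cast_nonneg _) hmZ hε2.le)
      (by linarith)
  have h2 : ∑ k ∈ KK, ‖StT E0 (JW D Y₀ Y₁) om (fun x e => if Q e then TE α x e else 0) (m ^ 3 * k)‖ ^ 2 ≤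
      (Pm m E0).card * ∑ e0 ∈ Pm m E0,
        ∑ k ∈ KK, ‖SteT (JW D Y₀ Y₁) om (E0 / nm e0) (T3 (afm α m Q e0)) k‖ ^ 2 := by
    rw [sum_comm, mul_sum]
    refine sum_le_sum fun k _ => ?_
    rw [StT_m3 hp Q hm hE0 hJ om k]
    refine (pow_le_pow_left₀ (norm_nonneg _) (norm_sum_le _ _) 2).trans ?_
    refine (sq_sum_le_card_mul_sum_sq).trans ?_
    refine mul_le_mul_of_nonneg_left (sum_le_sum fun e0 _ => ?_) (Nat.cast_nonneg _)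
    refine pow_le_pow_left₀ (norm_nonneg _) ?_ 2
    rw [norm_mul]
    have : ‖(muE e0 : ℂ)‖ ≤ 1 := by
      rw [Complex.norm_intCast]
      exact_mod_cast CubL813.abs_muE_le_one e0
    exact mul_le_of_le_one_left (norm_nonneg _) this
  have h3 := sum_le_sum h1
  have h4 : ∑ e0 ∈ Pm m E0, C1 * Z ^ (ε / 2) * (K ^ (2 / 3 : ℝ) *
        ∑ e ∈ (S (E0 / nm e0)).filter (fun e => IsCoprime e m ∧ Q (e0 * e)), G (e0 * e) +
        M * ∑ e ∈ (S (E0 / nm e0)).filter (fun e => IsCoprime e m ∧ Q (e0 * e)), L (e0 * e)) ≤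
      C1 * Z ^ (ε / 2) * (K ^ (2 / 3 : ℝ) * ∑ f ∈ (S E0).filter Q, G f + M * ∑ f ∈ (S E0).filter Q, L f) := by
    rw [← mul_sum, sum_add_distrib, ← mul_sum, ← mul_sum]
    exact mul_le_mul_of_nonneg_left (add_le_add (mul_le_mul_of_nonneg_left
      (reindex Q hm.ne_zero hE0 hG0) (by positivity)) (mul_le_mul_of_nonneg_left
      (reindex Q hm.ne_zero hE0 hL0) hM)) (by positivity)
  have hS0 : 0 ≤ K ^ (2 / 3 : ℝ) * ∑ f ∈ (S E0).filter Q, G f + M * ∑ f ∈ (S E0).filter Q, L f :=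
    add_nonneg (mul_nonneg (by positivity) (sum_nonneg fun f _ => hG0 f))
      (mul_nonneg hM (sum_nonneg fun f _ => hL0 f))
  have h5 := h2.trans (mul_le_mul hcard (h3.trans h4) (sum_nonneg fun e0 _ => sum_nonneg fun k _ =>
    by positivity) (by positivity))
  refine h5.trans (le_of_eq ?_)
  have hze : (Z ^ (ε / 2)) * Z ^ (ε / 2) = Z ^ ε := by
    rw [← Real.rpow_add hZ0]; congr 1; ring
  rw [← hze, ← hMd, hG, hL]
  ring

/-- **all `f`** -/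
theorem ET4ay {ρ : ℝ} (hρ : 0 < ρ) (hρ1 : ρ ≤ 1) {R0 : ℝ} (hR0 : 0 ≤ R0) (a A₁ : ℕ)
    (hA₁ : 1 < A₁) {ε : ℝ} (hε : 0 < ε) (hε1 : ε ≤ 1) :
    ∃ (A : ℕ) (c C : ℝ), 1 ≤ c ∧ 1 ≤ C ∧
    ∀ (Om : ℝ → ℂ) (Mb : ℝ), 0 ≤ Mb → ContDiff ℝ ∞ Om →
      (∀ n ≤ A + 2, ∀ x, ‖iteratedDeriv n Om x‖ ≤ Mb) →
    ∀ (τ : ℝ) (κ : ℂ), ‖κ‖ ≤ 1 → ∀ (Z : ℝ), 1 ≤ Z → ∀ (D Y₀ Y₁ : ℝ)
      (om : Eis × Eis → ℂ) (α : Eis → ℂ) (E0 R K X : ℝ) (m : Eis) (KK : Finset Eis)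
      (H : ℕ → Eis → Eis → ℝ) (u : Eis)
      (W0 : ℕ → Bool → Eis → Eis → ℝ → ℝ), u ≠ 0 → (∀ n, α n ≠ 0 → IsCoprime u n) →
      FS α → (∀ n, α n ≠ 0 → Squarefree n) →
      (∀ n, α n ≠ 0 → |Real.log (nm n) - Real.log X| ≤ R0) →
      IsPrim m → (nm m : ℝ) ≤ Z → 0 ≤ D → 0 ≤ Y₁ →
      (∀ x ∈ JW D Y₀ Y₁, om x = κ * (Om (Real.log (nm (x.2 * x.1 ^ 2))) * pw τ (nm x.2))) →
      (∀ i ∈ LI Y₀ Y₁, ∀ n : ℕ, 0 < n → hh (Real.log n - i) ≠ 0 → Om (Real.log n) ≠ 0 →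
        Y₀ < n ∧ (n : ℝ) ≤ Y₁) →
      0 < K → K ≤ Z → (∀ k ∈ KK, IsPrim k ∧ CbF k ∧ ρ * K ≤ nm k ∧ (nm k : ℝ) ≤ K) →
      0 ≤ R → R ≤ Z → 0 ≤ E0 → E0 ≤ Z → Y₁ ≤ Z →
      (∀ x ∈ JW D Y₀ Y₁, (nm x.1 : ℝ) ≤ Z) → (∀ x ∈ JW D Y₀ Y₁, (nm x.2 : ℝ) ≤ R) →
      0 < X → X ≤ Z ^ 5 → (∀ i d f, 0 < H i d f) → (∀ i ∈ LI Y₀ Y₁, c * Real.exp i ≤ Z ^ 5) →
      (∀ i ∈ LI Y₀ Y₁, ∀ d ∈ S (Z ^ 5), ∀ f ∈ S E0, c * (H i d f * Real.exp i ^ 2) ≤ K * X) →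
      (∀ i jj d f, Slp a (W0 i jj d f)) →
      (∀ i ∈ LI Y₀ Y₁, ∀ jj, ∀ d ∈ (JW D Y₀ Y₁).image Prod.fst, ∀ f ∈ S E0, ∀ γ π, IsPrim γ →
        IsPrim π → (nm π : ℝ) ≤ c * Z ^ 300 → ∀ P : ℝ, 0 < P →
        (nm γ : ℝ) * n6 γ ^ 2 * ∑ r ∈ (bl P).filter (Cls (PrU u) jj),
          RMm A₁ (fun n => α (d * n)) f γ π r ≤ W0 i jj d f P) →
      ∑ k ∈ KK, ‖StE E0 (JW D Y₀ Y₁) om α (m ^ 3 * k)‖ ^ 2 ≤
      C * Z ^ ε * (K ^ (2 / 3 : ℝ) * ∑ f ∈ S E0, (((nm (EuclideanDomain.gcd f m) : ℝ) / nm f +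
        (R / K ^ 2) ^ (1 / 6 : ℝ) * (nm f : ℝ) ^ (1 / 2 : ℝ) + R / K) *
          XE (JW D Y₀ Y₁) om (Tal α) f) +
      Mb ^ 2 * (1 + |τ|) ^ A * ∑ f ∈ S E0, ∑ i ∈ LI Y₀ Y₁, ∑ d ∈ (JW D Y₀ Y₁).image Prod.fst,
        (nm f : ℝ)⁻¹ * LVn (fun d _ n => α (d * n)) {d} {f} c (Z ^ 5) K (H i d f) (Real.exp i)
          (Real.exp i) 1 1 1 (RN2XF c K (Real.exp i) X (H i) (W0 i) d f)) := by
  obtain ⟨A, c, C, hc, hC, h⟩ := ET4ayQ hρ hρ1 hR0 a A₁ hA₁ hε hε1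
  refine ⟨A, c, C, hc, hC, ?_⟩
  intro Om Mb hMb hOm hOb τ κ hκ Z hZ D Y₀ Y₁ om α E0 R K X m KK H u W0 hu huc hα hsq hwin hm hmZ hD hY hom
    hwn hK hKZ hKK hR0' hRZ hE0 hE0Z hYZ hJ1 hJ2 hX hXZ hH hcV hKX hS hRH
  have k := h Om Mb hMb hOm hOb τ κ hκ Z hZ D Y₀ Y₁ om α (fun _ => True) E0 R K X m KK H u W0 hu huc hα
    hsq hwin hm hmZ hD hY hom hwn hK hKZ hKK hR0' hRZ hE0 hE0Z hYZ hJ1 hJ2 hX hXZ hH hcV
    (fun i hi d hd f hf => hKX i hi d hd f (by rwa [filt_true] at hf)) hS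
    (fun i hi jj d hd f hf => hRH i hi jj d hd f (by rwa [filt_true] at hf))
  simp only [filt_true, if_true] at k
  exact k

end Crest.Agent.R017.ET4ax290
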