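import Crest.Agent.R017.TNj_90
import Crest.Agent.R017.E2Xa_764

/-!
# Row 17, R8 (E3): the claims of the joint blocks, differences (helper744)

* **`jbc_x`** : `JBc` of a sequence dominated by a difference from helper764's `numSx`
-/

set_option autoImplicit false

noncomputable section

open Finset MeasureTheory
open scoped ComplexConjugate Classical

namespace Crest.Agent.R017.E3Nx744

open Crest.Agent.R012 Crest.Agent.R012.Eis Crest.Agent.R012.MC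
open Crest.Agent.R012.LS2 (S mem_S)
open Crest.Agent.R017.CM106 (CS FS TG)
open Crest.Agent.R017.C70
open Crest.Agent.R017.HP842 (Pc pc sqc alL)
open Crest.Agent.R017.B770
open Crest.Agent.R017.FE47 (PU cx)
open Crest.Agent.R017.Prov71
open Crest.Agent.R017.Leg381 (Pf alF SF LF natl alF_natl)
open Crest.Agent.R017.I1146 (ChN LN cN SN Dom cN_nonneg CellS LipS numS)
open Crest.Agent.R017.E1551 hiding tau Dg
open Crest.Agent.R017.PX764 (Dk)
open Crest.Agent.R017.ExT764 (PBh)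
open Crest.Agent.R017.I1K764 (CellK bcx numSx)
open Crest.Agent.R017.TNj90 (JBc)

/-- `V * ν`, `V` -/
lemma lip_nu {L ν : ℝ} (hν : 1 ≤ ν) {Sh : ℝ → ℝ → ℝ → ℝ} (hLip : LipS L Sh) {γ b V : ℝ}
    (hV : 1 ≤ V) : Real.exp (Sh γ b (Real.log (V * ν))) ≤
      Real.exp (L * Real.log ν) * Real.exp (Sh γ b (Real.log V)) := by
  have hV0 : 0 < V := by linarith
  have hν0 : 0 < ν := by linarith
  have hlν0 : 0 ≤ Real.log ν := Real.log_nonneg hν
  have hlVν : Real.log (V * ν) = Real.log V + Real.log ν := by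
    rw [Real.log_mul hV0.ne' hν0.ne']
  rw [← Real.exp_add]
  refine Real.exp_le_exp.2 ?_
  have h3 := hLip γ b (Real.log (V * ν)) b (Real.log V)
  rw [sub_self, abs_zero, zero_add, hlVν, add_sub_cancel_left, abs_of_nonneg hlν0] at h3
  rw [hlVν]
  linarith

/-- the sizes of a pair `(d, V)` -/
lemma size_nu {ν : ℝ} (hν : 1 ≤ ν) {Y W X T V : ℝ} (hWX : W * ν ≤ X)
    (hWT : Real.log (W * ν) ≤ T) {d : Eis} (hd : IsPrim d) (hV1 : 1 ≤ V)
    (hV2 : V ≤ W / (nm d : ℝ) ^ 2) :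
    1 ≤ V * ν ∧ V * ν ≤ X ∧ Real.log (V * ν) ≤ T - 2 * Real.log (nm d) := by
  have hdn : (0 : ℝ) < nm d := by exact_mod_cast nm_pos.2 hd.ne_zero
  have hd1 : (1 : ℝ) ≤ nm d := by exact_mod_cast nm_pos.2 hd.ne_zero
  have hV0 : 0 < V := by linarith
  have hν0 : 0 < ν := by linarith
  have hVν : 1 ≤ V * ν := one_le_mul_of_one_le_of_one_le hV1 hν
  have hVd : V * (nm d : ℝ) ^ 2 ≤ W := (le_div_iff₀ (by positivity)).mp hV2
  have hW0 : 0 < W := lt_of_lt_of_le (by positivity) hVd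
  have hVW : V ≤ W := (le_mul_of_one_le_right hV0.le (one_le_pow₀ hd1)).trans hVd
  have hVX : V * ν ≤ X := (mul_le_mul_of_nonneg_right hVW hν0.le).trans hWX
  have hVT0 : Real.log V + 2 * Real.log (nm d) ≤ Real.log W := by
    have h3 := Real.log_le_log (by positivity) hVd
    rw [Real.log_mul hV0.ne' (by positivity), Real.log_pow] at h3
    push_cast at h3
    exact h3
  refine ⟨hVν, hVX, ?_⟩
  rw [Real.log_mul hV0.ne' hν0.ne']
  rw [Real.log_mul hW0.ne' hν0.ne'] at hWT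
  linarith

/-- **the joint blocks of a sequence dominated by a difference** -/
theorem jbc_x {h : ℝ → ℝ} {c : ℝ} (hpu : PU h c) (N : ℕ) {ε M B₂ : ℝ} (hε : 0 < ε)
    (hM : 0 ≤ M) (hB₂ : 0 < B₂) {ν Dd : ℝ} (hν : 1 ≤ ν) (hDd : 0 ≤ Dd) {L : ℝ} (hL : 0 ≤ L) :
    ∃ C r : ℝ, 0 ≤ C ∧ 0 ≤ r ∧ ∀ X : ℝ, 3 ≤ X → ∀ (P : DPar), P.OK →
      ∀ (q : Eis) (ps ps' : List Pq), ps.length ≤ N → ps'.length ≤ N →
      (∀ p ∈ ps, 0 ≤ p.z ∧ p.z ≤ Real.log X) → (∀ p ∈ ps', 0 ≤ p.z ∧ p.z ≤ Real.log X) →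
      ∀ ζ : ℂ, ‖ζ‖ ≤ 1 → ∀ x : Eis → ℂ,
      (∀ n, x n = sqc q (alF 1 1 P h (natl ps)) n - ζ * sqc q (alF 1 1 P h (natl ps')) n) →
      ∀ (Y W T F F' Eb s0 Fb : ℝ) (Sh : ℝ → ℝ → ℝ → ℝ), 1 ≤ Y → Y ≤ X ^ B₂ → W * ν ≤ X →
      Real.log (W * ν) ≤ T → 0 ≤ F → 0 ≤ F' → 0 ≤ Eb → 0 ≤ Fb → LipS L Sh →
      CellK Dk h P q ps (X ^ B₂) r M T (B₂ * Real.log X) F Sh →
      CellK Dk h P q ps' (X ^ B₂) r M T (B₂ * Real.log X) F' Sh →
      PBh x Eb (Real.exp (-s0)) (max (N * M) 12) ((X ^ (B₂ + 1)) ^ 2) →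
      (∀ γ b v : ℝ, 0 ≤ γ → 0 ≤ b → b ≤ B₂ * Real.log X + 1 → 0 ≤ v → v ≤ T - 2 * γ →
        Eb * Real.exp (bcx s0 γ b v) ≤ Fb * Real.exp (Sh γ b v)) →
      ∀ al : Eis → ℂ, Dom ν Dd x al →
      JBc Y W (C * X ^ ε * (F + F' + Fb)) (max ((N : ℝ) * M) 12) Sh al := by
  obtain ⟨Cb, rb, hCb, hrb, Hb⟩ := numSx hpu N hB₂.le hε hM hL
  refine ⟨Dd * Real.exp (L * Real.log ν) * Cb, rb + 1, by positivity, by positivity, ?_⟩
  intro X hX P hP q ps ps' hN hN' hz hz' ζ hζ x hx Y W T F F' Eb s0 Fb Sh hY1 hYu hWX hWT hF hF'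
    hEb hFb hLip hcl hcl' hPB hbias al hdom
  have hX0 : 0 < X := by linarith
  have hY0 : 0 < Y := by linarith
  intro d hd B V hB1 hB2 hV1 hV2 t
  obtain ⟨h2, h1, -⟩ := (mem_S hY0.le).1 hd
  obtain ⟨g1, g2, g3⟩ := size_nu (Y := Y) hν hWX hWT h1 hV1 hV2
  have hB0 : 0 < B := by linarith
  have hlB : Real.log B ≤ B₂ * Real.log X + 1 := by
    have h3 := Real.log_le_log hB0 (hB2.trans hYu)
    rw [Real.log_rpow hX0] at h3
    linarith
  have h5 := Hb X hX P hP q ps ps' hN hN' hz hz' ζ hζ x hx T (B₂ * Real.log X) F F' Eb s0 Fb Sh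
    hF hF' hEb hFb hLip hcl hcl' hPB hbias d h1 (h2.trans hYu) B (V * ν) Y t (fun _ => True) hB1
    (hB2.trans hYu) hlB g1 g2 hY0.le hYu g3
  have h6 := hdom.jb Y (fun _ => True) d B V t h1 hY0.le hV1
  have h7 := lip_nu (γ := Real.log (nm d)) (b := Real.log B) hν hLip hV1
  refine h6.trans ((mul_le_mul_of_nonneg_left h5 hDd).trans ?_)
  have h9 : 0 ≤ Cb * X ^ ε * (F + F' + Fb) := by positivity
  calc Dd * (Cb * X ^ ε * (F + F' + Fb) * Real.exp (Sh (Real.log (nm d)) (Real.log B)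
        (Real.log (V * ν))) * (1 + |t|) ^ (max ((N : ℝ) * M) 12))
      ≤ Dd * (Cb * X ^ ε * (F + F' + Fb) * (Real.exp (L * Real.log ν) *
            Real.exp (Sh (Real.log (nm d)) (Real.log B) (Real.log V))) *
            (1 + |t|) ^ (max ((N : ℝ) * M) 12)) :=
        mul_le_mul_of_nonneg_left (mul_le_mul_of_nonneg_right
            (mul_le_mul_of_nonneg_left h7 h9) (by positivity)) hDd
    _ = _ := by ring

end Crest.Agent.R017.E3Nx744
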