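import Crest.Agent.R017.E3Nz_744
import Crest.Agent.R017.E3Ny_744

/-!
# Row 17, exceptional class, P1X (helper579): the frame `S8X` in the form of the joint numbers

* `lmX`, `ShXl` : shift of the numbers of the lists, number of a difference with the shift
* `FrXD` : the facts of a child of `Dom8X`
* **`frX`** : `FrXD` from `UB`'s premises and the T-claims `CBA`
-/

set_option autoImplicit false
set_option linter.unusedSectionVars false
set_option linter.unusedVariables false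

noncomputable section

open Finset MeasureTheory
open scoped ComplexConjugate Classical

namespace Crest.Agent.R017.FrX579

open Crest.Agent.R012 Crest.Agent.R012.Eis Crest.Agent.R012.MC Crest.Agent.R012.Gauss880
open Crest.Agent.R012.LS2 (S mem_S)
open Crest.Agent.R012.Weight600 (osc norm_osc osc_add_right)
open Crest.Agent.R017.CM106 (CS FS TG)
open Crest.Agent.R017.C70
open Crest.Agent.R017.HP842 (Pc pc sqc alL)
open Crest.Agent.R017.B770
open Crest.Agent.R017.FE47 (PU cx SM)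
open Crest.Agent.R017.Prov71
open Crest.Agent.R017.Leg381 (Pf alF SF LF natl alF_natl)
open Crest.Agent.R017.RG64 (Ht)
open Crest.Agent.R017.E2440 (StE TE Fh)
open Crest.Agent.R017.Ex385 (CrQ)
open Crest.Agent.R017.LB48 (CrP GrP)
open Crest.Agent.R017.X6C180 (GF)
open Crest.Agent.R017.WDec180 (WD sc)
open Crest.Agent.R017.I1146 hiding cN
open Crest.Agent.R017.I1K764
open Crest.Agent.R017.StD828 (ln)
open Crest.Agent.R017.StE828 (wD oD oD_zero oD_one log_nm_nonneg)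
open Crest.Agent.R017.XG702 (Pcs)
open Crest.Agent.R017.XT71 (Sys Win mx)
open Crest.Agent.R017.UM71 Crest.Agent.R017.End699
open Crest.Agent.R017.E5B71 Crest.Agent.R017.E5P571 Crest.Agent.R017.E5L770
open Crest.Agent.R017.ExBox960 Crest.Agent.R017.ExP960
open Crest.Agent.R017.Sf770
open Crest.Agent.R017.E5LX770 (nB)
open Crest.Agent.R017.P1e54 Crest.Agent.R017.P1f54 Crest.Agent.R017.P1k54
open Crest.Agent.R017.P1l54 (ParOK)
open Crest.Agent.R017.P1X960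
open Crest.Agent.R017.Sup271 (NPm)
open Crest.Agent.R017.PX764 (Dk)
open Crest.Agent.R017.TM708 (PD R5)
open Crest.Agent.R017.P10X764
open Crest.Agent.R017.E3N146 (ShT lipS_ShT)
open Crest.Agent.R017.E3Nx744 (CBA thK jbc_x)
open Crest.Agent.R017.TNj90 (JBc)
open Crest.Agent.R017.E1551 (Adm)

/-- the shift of the numbers of the lists -/
def lmX (ℓ Kf Tf : (Fin 5 → ℝ) → ℝ) (p : IX5 → ℝ) : ℝ :=
  max 0 (max (thK Kf Tf (bN p) + ℓ (bN p)) (thK Kf Tf (bR p) + ℓ (bR p)))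

/-- the number of a difference, the numbers of the lists with the shift `lm` -/
def ShXl (lm : ℝ) (a : BcX) (qs : List Pq) : ℝ → ℝ → ℝ → ℝ :=
  shB (s0X a) (LN (clN a qs)) (fun γ b v => ShT (k5X a) a.1.z (a.2.1 2).z (LN (clN a qs)) γ b v + lm)

lemma lipS_ShXl (lm : ℝ) (a : BcX) (qs : List Pq) : LipS 3 (ShXl lm a qs) := by
  refine lipS_shB ?_
  intro γ b v b' v'
  have := lipS_ShT (k5X a) a.1.z (a.2.1 2).z (LN (clN a qs)) γ b v b' v'
  simp only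
  linarith

/-- the length of a child, real -/
def svX (q : (I8X → ℝ) × (Kd → ℝ)) : ℝ := q.1 (.inr 0) + q.1 (.inr 1) + q.1 (.inr 2) + q.2 .am

/-- the shortest of the four lengths, real -/
def s0R (q : (I8X → ℝ) × (Kd → ℝ)) : ℝ :=
  min (min (q.1 (.inr 0)) (q.1 (.inr 1)))
    (min (q.1 (.inr 0) - (cu (prX (bp q.1)) 2 - (bp q.1) (.inr 1)))
      (q.1 (.inr 1) + (cu (prX (bp q.1)) 2 - (bp q.1) (.inr 1))))

variable {Λ : Type*}

/-- **the facts of a child**, tolerance `t₀ log X` -/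
structure FrXD (π : Λ → DPar) (h : ℝ → ℝ) (Rh e0 c : ℝ) (ℓ Kf Tf : (Fin 5 → ℝ) → ℝ)
    (cw B₂ J R' t₀ ε X : ℝ) (lam : Λ × Eis) (a : BcX) (qs : List Pq)
    (q : (I8X → ℝ) × (Kd → ℝ)) : Prop where
  X3 : 3 ≤ X
  kl : |a.1.l - cκ (prX (bp q.1)) * Real.log X| ≤ t₀ * Real.log X
  zl : |a.1.z - cx' (prX (bp q.1)) * Real.log X| ≤ t₀ * Real.log X
  Al : |a3 a.1.toBd - cN (prX (bp q.1)) * Real.log X| ≤ t₀ * Real.log X
  nl : |LN (clN a qs) - svX q * Real.log X| ≤ t₀ * Real.log X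
  n0 : (cκ (prX (bp q.1)) / 2 - 2 * cx' (prX (bp q.1))) * Real.log X - t₀ * Real.log X ≤
    LN (clN a qs)
  n1 : LN (clN a qs) ≤ (cN (prX (bp q.1)) + cx' (prX (bp q.1))) * Real.log X + t₀ * Real.log X
  np : 0 ≤ LN (clN a qs)
  yl : Real.log (2 ^ nw c a) ≤ tpW c (bp q.1) (q.1 (.inr 3)) * Real.log X + t₀ * Real.log X
  yX : cw * 2 ^ nw c a ≤ X
  sl : |s0X a - s0R q * Real.log X| ≤ t₀ * Real.log X
  Y1 : 1 ≤ YcX Rh a qs
  YX : YcX Rh a qs ≤ X ^ B₂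
  EX : Real.exp (e0 * a.1.l) ≤ X ^ B₂
  jb : JBc (YcX Rh a qs) (cw * 2 ^ nw c a) (X ^ ε) J
    (ShXl (lmX ℓ Kf Tf (bp q.1) * Real.log X) a qs) (alX π h lam a qs)
  adm : Adm (YcX Rh a qs) (Real.exp (LN (clN a qs))) R' (alX π h lam a qs)

set_option maxHeartbeats 4000000 in
/-- **the frame `S8X`** -/
theorem frX {π : Λ → DPar} {h : ℝ → ℝ} {c₀ : ℝ} (hpu : PU h c₀) (hP : ∀ lam, (π lam).OK)
    (hex : ∀ lam, ¬ NPm (π lam).n (π lam).ψ (π lam).l₂ 1)
    {Rh : ℝ} (hRh0 : 0 ≤ Rh) (hRh : ∀ u, cx h u ≠ 0 → |u| ≤ Rh) {e0 : ℝ}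
    (he0 : 0 ≤ e0) (he0' : e0 ≤ 1) {c β : ℝ} (hc0 : 0 ≤ c) (hc1 : c ≤ 1)
    {Par : Set (Fin 3 ⊕ Fin 5 → ℝ)} (hPar : ∀ p ∈ Par, ParOK p)
    {D5 : Set (Fin 5 → ℝ)} {ℓ Kf Tf : (Fin 5 → ℝ) → ℝ}
    (hDN : ∀ p : IX5 → ℝ, prX p ∈ Par → ZR β p → bN p ∈ D5)
    (hDR : ∀ p : IX5 → ℝ, prX p ∈ Par → ZR β p → bR p ∈ D5)
    (hR5 : ∀ p : IX5 → ℝ, prX p ∈ Par → ZR β p → R5 (bN p))
    (hKN : ∀ p : IX5 → ℝ, prX p ∈ Par → ZR β p →
      Kf (bN p) = max (cκ (prX p)) (5 / 4 * cN (prX p)))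
    (hKR : ∀ p : IX5 → ℝ, prX p ∈ Par → ZR β p →
      Kf (bR p) = max (cκ (prX p)) (5 / 4 * cN (prX p)))
    (hTN : ∀ (p : IX5 → ℝ) (v₀ v₁ v₂ b x' : ℝ), ChC c β Par p v₀ v₁ v₂ b x' →
      DifL p v₀ v₁ v₂ → tpW c p b ≤ Tf (bN p))
    (hTR : ∀ (p : IX5 → ℝ) (v₀ v₁ v₂ b x' : ℝ), ChC c β Par p v₀ v₁ v₂ b x' →
      DifL p v₀ v₁ v₂ → tpW c p b ≤ Tf (bR p))
    (hcb : CBA π h Dk Kf Tf D5 ℓ) {ε t₀ : ℝ} (hε : 0 < ε) (ht₀ : 0 < t₀) :
    ∃ δ : ℝ, 0 < δ ∧ ∀ (lam : Λ × Eis) (N : ℕ) (B cw : ℝ), 1 ≤ cw →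
    ∃ B₂ J R' : ℝ, 1 ≤ B₂ ∧ 0 ≤ J ∧ 0 ≤ R' ∧
    ∃ δ' : ℝ, 0 < δ' ∧ ∃ X₀ : ℝ, 1 < X₀ ∧ ∀ X : ℝ, X₀ ≤ X → ∀ (a : BcX) (qs : List Pq),
      qs.length ≤ N → (∀ p ∈ qs, Dq.lump p ∨ Dq.nl X p ≤ δ) → ∀ q ∈ Dom8X c β Par DifL,
      Win S8X q.1 δ N B δ' X a → (∀ t, |Dq.mass X qs t - q.2 t| ≤ δ) → Dq.Good X δ' B qs →
      (∀ p ∈ qs, ¬ Dq.lump p) → okCX (π lam.1) lam.2 a qs ∧ okD a →
      FrXD π h Rh e0 c ℓ Kf Tf cw B₂ J R' t₀ ε X lam a qs q := by
  obtain ⟨τ₁, hτ₁, hτ₁ε, hcb⟩ := hcb (ε / 16) (by positivity)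
  obtain ⟨τ, hτ, hττ₁, hτ8, hτε, hτt⟩ : ∃ τ : ℝ, 0 < τ ∧ τ ≤ τ₁ ∧ τ ≤ 1 / 8 ∧ τ ≤ ε / 16 ∧ τ ≤ t₀ :=
    ⟨min (min τ₁ t₀) (min (1 / 8) (ε / 16)), lt_min (lt_min hτ₁ ht₀)
      (lt_min (by norm_num) (by positivity)),
      (min_le_left _ _).trans (min_le_left _ _), (min_le_right _ _).trans (min_le_left _ _),
      (min_le_right _ _).trans (min_le_right _ _), (min_le_left _ _).trans (min_le_right _ _)⟩
  obtain ⟨δ, hδ, hδτ, hδε⟩ : ∃ δ : ℝ, 0 < δ ∧ δ ≤ τ / 100 ∧ δ ≤ ε / 100 :=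
    ⟨min (τ / 100) (ε / 100), lt_min (by positivity) (by positivity), min_le_left _ _,
      min_le_right _ _⟩
  refine ⟨δ, hδ, ?_⟩
  rintro ⟨lam, s⟩ N B cw hcw
  -- the constants
  by_cases hs0 : s = 0
  · refine ⟨1, 0, 0, le_rfl, le_rfl, le_rfl, 1, one_pos, 2, by norm_num, ?_⟩
    intro X hX a qs _ _ q _ _ _ _ _ hok
    exact absurd hs0 hok.1.2.1.1
  set B₂ : ℝ := max B 3 with hB₂
  have hBB : B ≤ B₂ := le_max_left _ _
  have hB3 : 3 ≤ B₂ := le_max_right _ _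
  have hB0 : 0 < B₂ := by linarith
  obtain ⟨M₁, hcb⟩ := hcb lam N B₂
  set M : ℝ := (M₁ : ℝ) with hM
  have hM0 : 0 ≤ M := Nat.cast_nonneg M₁
  have hε16 : 0 < ε / 16 := by positivity
  have hsn : (1 : ℝ) ≤ (nm s : ℝ) ^ 2 := one_le_pow₀ (by exact_mod_cast nm_pos.2 hs0)
  obtain ⟨C, r, hC, hr, HI⟩ := jbc_x hpu (N + 3)
    (ε := ε / 16) (M := M) (B₂ := B₂) hε16 hM0 hB0
    hsn (Dd := ((ds s).card : ℝ)) (Nat.cast_nonneg _) (L := 3) (by norm_num)
  have hBp : (1 : ℝ) ≤ 2 * (B₂ + 1) := by linarith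
  obtain ⟨C₀, hC₀, HP⟩ := pbh_xN hpu (N + 1) (B := 2 * (B₂ + 1)) hBp (ε := ε / 16) hε16
  obtain ⟨X₁, hX₁, hcb⟩ := hcb r hr
  set m₀ : ℝ := (M₁ : ℝ) + 6 * (N + 3) + 1 with hm₀
  have hm₀1 : 0 < m₀ := by positivity
  obtain ⟨δ', hδ', hdM⟩ : ∃ δ' : ℝ, 0 < δ' ∧ δ' ≤ ε / (16 * m₀) :=
    ⟨ε / (16 * m₀), by positivity, le_rfl⟩
  set cs : ℝ := Real.log ((nm s : ℝ) ^ 2) + Real.log cw with hcs
  have hcw0 : 0 < cw := by linarith
  have hcs1 : 0 ≤ Real.log ((nm s : ℝ) ^ 2) := Real.log_nonneg hsn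
  have hcs2 : 0 ≤ Real.log cw := Real.log_nonneg hcw
  have hcs0 : 0 ≤ cs := by linarith
  set CC : ℝ := C * (2 + C₀) + 1 with hCC
  have hCC1 : 1 ≤ CC := by
    have : 0 ≤ C * (2 + C₀) := by positivity
    linarith
  have hlCC : 0 ≤ Real.log CC := Real.log_nonneg hCC1
  have hlog2 : 0 < Real.log 2 := Real.log_pos (by norm_num)
  have hn1 : (1 : ℝ) ≤ nm (π lam).n := by exact_mod_cast nm_pos.2 (hP lam).ψ.q0
  set Q : ℝ := 2 + (((N + 3 : ℕ) : ℝ) * Rh + 1) + 8 * (Real.log 2 + cs) / τ +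
    2 * Real.log CC / ε + Real.log (nm (π lam).n) with hQ
  have hQ1 : 0 ≤ ((N + 3 : ℕ) : ℝ) * Rh + 1 := by positivity
  have hQ2 : 0 ≤ 8 * (Real.log 2 + cs) / τ := by positivity
  have hQ3 : 0 ≤ 2 * Real.log CC / ε := by positivity
  have hQ4 : 0 ≤ Real.log (nm (π lam).n) := Real.log_nonneg hn1
  refine ⟨B₂, max (((N + 3 : ℕ) : ℝ) * M) 12, 2 * (((N + 3 : ℕ) : ℝ) * Rh), by linarith,
    (by norm_num : (0 : ℝ) ≤ 12).trans (le_max_right _ _), by positivity, δ', hδ',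
    max X₁ (Real.exp Q), hX₁.trans_le (le_max_left _ _), ?_⟩
  intro X hX a qs hlen hgl q hq hw hm hg hl hok
  have hX1' : X₁ ≤ X := (le_max_left _ _).trans hX
  have hXQ : Real.exp Q ≤ X := (le_max_right _ _).trans hX
  have hX1 : 1 < X := by linarith
  have hX0 : 0 < X := by linarith
  set L := Real.log X with hL
  have hQL : Q ≤ L := by
    have := Real.log_le_log (Real.exp_pos Q) hXQ
    rwa [Real.log_exp] at this
  have hL2 : 2 ≤ L := by linarith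
  have hL0' : 0 < L := by linarith
  have hX3 : 3 ≤ X := by
    have h1 : Real.exp 2 ≤ X := (Real.exp_le_exp.2 (by linarith)).trans hXQ
    have h2 := Real.add_one_le_exp 2
    linarith
  have hLN' : ((N + 3 : ℕ) : ℝ) * Rh + 1 ≤ L := by linarith
  have hLτ : Real.log 2 + cs ≤ τ / 8 * L := by
    have h1 : 8 * (Real.log 2 + cs) / τ ≤ L := by linarith
    rw [div_le_iff₀ hτ] at h1
    linarith
  have hLC : CC ≤ X ^ (ε / 2) := by
    have h1 : 2 * Real.log CC / ε ≤ L := by linarith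
    rw [div_le_iff₀ hε] at h1
    rw [Real.rpow_def_of_pos hX0, ← hL]
    rw [← Real.exp_log (show 0 < CC by linarith)]
    exact Real.exp_le_exp.2 (by linarith)
  have hnX : (nm (π lam).n : ℝ) ≤ X ^ B₂ := by
    have h1 : (nm (π lam).n : ℝ) ≤ X := by
      rw [← Real.exp_log (show (0 : ℝ) < nm (π lam).n by linarith), ← Real.exp_log hX0, ← hL]
      exact Real.exp_le_exp.2 (by linarith)
    refine h1.trans ?_
    calc X = X ^ (1 : ℝ) := (Real.rpow_one X).symm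
      _ ≤ X ^ B₂ := Real.rpow_le_rpow_of_exponent_le hX1.le (by linarith)
  obtain ⟨⟨hbok, hsm, hlmp, hamq, hb0⟩, hD0, hD1⟩ := hok
  have hok : okCX (π lam) s a qs ∧ okD a := ⟨⟨hbok, hsm, hlmp, hamq, hb0⟩, hD0, hD1⟩
  -- the window
  obtain ⟨hq1, hq2, hq3, hq4⟩ := hq
  set p : IX5 → ℝ := bp q.1 with hp
  have hpar : prX p ∈ Par := hq1.par
  have hzr : ZR β p := hq1.zr
  have hPp := hPar _ hpar
  have hbN := hDN p hpar hzr
  have hbR := hDR p hpar hzr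
  have hRb := hR5 p hpar hzr
  have hKNp := hKN p hpar hzr
  have hKRp := hKR p hpar hzr
  set κ := cκ (prX p) with hκ
  set NN := cN (prX p) with hNN
  set xx := cx' (prX p) with hxx
  set v₀ := q.1 (.inr 0) with hv₀
  set v₁ := q.1 (.inr 1) with hv₁
  set v₂ := q.1 (.inr 2) with hv₂
  set bb := q.1 (.inr 3) with hbb
  set x' := q.2 .am with hx'
  have hev : ∀ i, |S8X.ev X a i - q.1 i| ≤ δ := hw.ev
  have hdiv : ∀ {z c : ℝ}, |z / L - c| ≤ δ → |z - c * L| ≤ δ * L := by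
    intro z c h1
    have h2 : z - c * L = (z / L - c) * L := by field_simp
    rw [h2, abs_mul, abs_of_pos hL0']
    exact mul_le_mul_of_nonneg_right h1 hL0'.le
  have hk : |a.1.l - κ * L| ≤ δ * L := hdiv (hev (.inl (.inl (.inl 0))))
  have hz : |a.1.z - xx * L| ≤ δ * L := hdiv (hev (.inl (.inl (.inl 1))))
  have hu2 : |(a.1.us 2).z - cu (prX p) 2 * L| ≤ δ * L := hdiv (hev (.inl (.inl (.inr 2))))
  have hu3 : |(a.1.us 3).z - cu (prX p) 3 * L| ≤ δ * L := hdiv (hev (.inl (.inl (.inr 3))))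
  have hu4 : |(a.1.us 4).z - cu (prX p) 4 * L| ≤ δ * L := hdiv (hev (.inl (.inl (.inr 4))))
  have hzs : |a.1.zs 2 - p (.inr 1) * L| ≤ δ * L := hdiv (hev (.inl (.inr 1)))
  have hv0 : |(a.2.1 0).z - v₀ * L| ≤ δ * L := hdiv (hev (.inr 0))
  have hv1 : |(a.2.1 1).z - v₁ * L| ≤ δ * L := hdiv (hev (.inr 1))
  have hv2 : |(a.2.1 2).z - v₂ * L| ≤ δ * L := hdiv (hev (.inr 2))
  have hbw : |a.2.2 - bb * L| ≤ δ * L := hdiv (hev (.inr 3))
  have hma : |LN qs - x' * L| ≤ δ * L := by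
    have h1 := hm .am
    rw [mass_am hamq] at h1
    exact hdiv h1
  have hA : |a3 a.1.toBd - NN * L| ≤ 3 * (δ * L) := by
    have e1 : a3 a.1.toBd - NN * L = ((a.1.us 2).z - cu (prX p) 2 * L) +
        ((a.1.us 3).z - cu (prX p) 3 * L) + ((a.1.us 4).z - cu (prX p) 4 * L) := by
      rw [hNN]; unfold E5L770.a3 cN; ring
    rw [e1]
    refine (abs_add_le _ _).trans ?_
    have := abs_add_le ((a.1.us 2).z - cu (prX p) 2 * L) ((a.1.us 3).z - cu (prX p) 3 * L)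
    linarith
  obtain ⟨k1, k2⟩ := abs_le.1 hk
  obtain ⟨z1, z2⟩ := abs_le.1 hz
  obtain ⟨u21, u22⟩ := abs_le.1 hu2
  obtain ⟨zs1, zs2⟩ := abs_le.1 hzs
  obtain ⟨v01, v02⟩ := abs_le.1 hv0
  obtain ⟨v11, v12⟩ := abs_le.1 hv1
  obtain ⟨v21, v22⟩ := abs_le.1 hv2
  obtain ⟨m1, m2⟩ := abs_le.1 hma
  obtain ⟨A1, A2⟩ := abs_le.1 hA
  have hnat := hq2.1
  have w0 : 0 ≤ v₀ ∧ v₀ ≤ cu (prX p) 2 := ⟨hq1.v0, hnat.1⟩
  have w1 : 0 ≤ v₁ ∧ v₁ ≤ cu (prX p) 3 := ⟨hq1.v1, hnat.2.1⟩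
  have w2 : 0 ≤ v₂ ∧ v₂ ≤ cu (prX p) 4 := ⟨hq1.v2, hnat.2.2⟩
  have hs1 : bb ≤ NN - (v₀ + v₁ + v₂) := hq1.s1
  have hx1 : x' ≤ xx := hq1.x1
  have hcN : NN = cu (prX p) 2 + cu (prX p) 3 + cu (prX p) 4 := rfl
  set n := LN (clN a qs) with hn
  have hnz : n = (a.2.1 0).z + (a.2.1 1).z + (a.2.1 2).z + LN qs := LN_clN a qs
  have hLqs : 0 ≤ LN qs := by
    unfold LN
    refine List.sum_nonneg fun x hx => ?_
    obtain ⟨p', hp', rfl⟩ := List.mem_map.1 hx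
    exact (hg p' hp').2.2
  have g0 := (hlmp 0).2
  have g1 := (hlmp 1).2
  have g2 := (hlmp 2).2
  have hδL : 0 ≤ δ * L := by positivity
  have w0L := mul_le_mul_of_nonneg_right w0.2 hL0'.le
  have w1L := mul_le_mul_of_nonneg_right w1.2 hL0'.le
  have w2L := mul_le_mul_of_nonneg_right w2.2 hL0'.le
  have hx1L := mul_le_mul_of_nonneg_right hx1 hL0'.le
  have hq4L := mul_le_mul_of_nonneg_right hq4 hL0'.le
  have hκp : 0 ≤ κ := by linarith [hPp.κ0]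
  have hκpL : 0 ≤ κ * L := by positivity
  set sv : ℝ := v₀ + v₁ + v₂ + x' with hsv
  have hnup : n ≤ sv * L + 4 * (δ * L) := by
    rw [hnz, hsv]
    linarith
  have hnlow : sv * L - 4 * (δ * L) ≤ n := by
    rw [hnz, hsv]
    linarith
  have hnlo : (κ / 2 - 2 * xx) * L - 4 * (δ * L) ≤ n := by
    rw [hnz]
    linarith
  -- the region
  have e0b : bN p 0 = κ := rfl
  have e1b : bN p 1 = cu (prX p) 2 := rfl
  have e2b : bN p 2 = cu (prX p) 3 := rfl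
  have e3b : bN p 3 = cu (prX p) 4 := rfl
  have e4b : bN p 4 = xx := rfl
  have f0b : bR p 0 = κ := rfl
  have f1b : bR p 1 = p (.inr 1) := rfl
  have f2b : bR p 2 = cu (prX p) 2 + cu (prX p) 3 - p (.inr 1) := rfl
  have f3b : bR p 3 = cu (prX p) 4 := rfl
  have f4b : bR p 4 = xx := rfl
  have rN := hRb.hN
  have rx1 := hRb.x1
  have radm := hRb.adm
  rw [e1b, e2b, e3b, e0b, ← hcN] at rN
  rw [e4b, e0b] at rx1
  rw [e1b, e2b, e3b, e0b, e4b, ← hcN] at radm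
  set Yt : ℝ := 2 ^ nw c a with hYt
  have hYt0 : 0 < Yt := by positivity
  set y : ℝ := Real.log Yt with hy
  have hyn : y = Real.log 2 * nw c a := by rw [hy, hYt, Real.log_pow, mul_comm]
  have hy1 : y ≤ max 0 (min (tO a.1.toBd) (tO a.1.toBd + 2 * (c * a.1.l) - 2 * a.2.2)) +
      Real.log 2 := by
    rw [hyn]; exact nW_hi c a
  have hy2 : min (tO a.1.toBd) (tO a.1.toBd + 2 * (c * a.1.l) - 2 * a.2.2) ≤ y := by
    rw [hyn]; exact nW_lo c a
  have htO : |tO a.1.toBd - top5 (prX p) * L| ≤ 10 * (δ * L) := by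
    unfold Sf770.tO E5L770.top5
    exact tO_near hL0' hδ.le (by norm_num) (by norm_num) hk hz hA
  have htt2 : min (2 * NN - κ) (3 / 4 * NN) + 2 * xx ≤ top5 (prX p) := by
    have := hPp.x0
    unfold E5L770.top5
    linarith
  have htt3 : top5 (prX p) ≤ min (2 * NN - κ) (3 / 4 * NN) + 3 * xx := by
    have := hPp.x0
    unfold E5L770.top5
    linarith
  obtain ⟨F1, F2, F3, F4⟩ := frameX (L := L) (δ := δ) (τ := τ) (κ := κ) (N := NN)
    (x := xx) (l := a.1.l) (tO := tO a.1.toBd) (tt := top5 (prX p)) (n := n) (y := y) (cs := cs)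
    (e₁ := τ / 4) (c := c) (b := bb) (b' := a.2.2) (sv := sv) hL0' hδ.le hδτ hτ8 rfl hLτ hcs0
    hc0 hc1 hk htO htt2 htt3 hbw hnup (by rw [hsv]; linarith) hq1.b0 hκp hPp.κ1 hPp.x0
    (by linarith [hPp.N0]) rN rx1 (by rcases radm with h | ⟨h, h', -⟩
                                      · exact Or.inl h
                                      · exact Or.inr ⟨h, h'⟩) hq1.b1 hy1 hy2
  have F5 := frameY (L := L) (δ := δ) (τ := τ) (κ := κ) (N := NN)
    (x := xx) (l := a.1.l) (tO := tO a.1.toBd) (tt := top5 (prX p)) (y := y) (cs := cs)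
    (c := c) (b := bb) (b' := a.2.2) hL0' hδ.le hδτ hLτ
    hc0 hc1 hk htO htt2 hbw hPp.x0 hκp (by linarith [hPp.N0]) hq1.b1 hy1
  -- the sets
  set E0 := Real.exp (e0 * a.1.l) with hE0
  have hlT : Real.log (cw * Yt * (nm s : ℝ) ^ 2) = y + cs := by
    rw [Real.log_mul (by positivity) (by positivity), Real.log_mul hcw0.ne' hYt0.ne', hcs]
    ring
  -- parent data
  set H : ℝ := X ^ δ' with hH
  have hH1 : 1 ≤ H := Real.one_le_rpow hX1.le hδ'.le
  have hs1' : ∀ i, Dq.s1 (a.2.1 i) ≤ H := by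
    intro i
    have h1 : mx Dq.s1 (List.ofFn a.2.1) ≤ X ^ δ' := (le_max_right _ _).trans hw.s₁
    exact (XT71.le_mx (List.mem_ofFn.2 ⟨i, rfl⟩)).trans h1
  have hs2' : ∀ i, Dq.s2 (a.2.1 i) ≤ X ^ B₂ := by
    intro i
    have h1 : mx Dq.s2 (List.ofFn a.2.1) ≤ X ^ B := (le_max_right _ _).trans hw.s₂
    exact ((XT71.le_mx (List.mem_ofFn.2 ⟨i, rfl⟩)).trans h1).trans
      (Real.rpow_le_rpow_of_exponent_le hX1.le hBB)
  have hgran : ∀ p' ∈ qs, p'.z ≤ δ * L := by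
    intro p' hp'
    rcases hgl p' hp' with h1 | h1
    · exact absurd h1 (hl p' hp')
    · unfold Pcs.nl at h1
      rw [div_le_iff₀ hL0'] at h1
      exact h1
  have hδτL : δ * L ≤ τ / 100 * L := mul_le_mul_of_nonneg_right hδτ hL0'.le
  have hτL : 0 ≤ τ * L := by positivity
  have hττL : τ * L ≤ τ₁ * L := mul_le_mul_of_nonneg_right hττ₁ hL0'.le
  have ham : ∀ p' ∈ qs, p'.kd = .am ∧ 0 ≤ p'.z ∧ p'.z ≤ τ₁ * Real.log X ∧
      (nm p'.d : ℝ) ≤ X ^ B₂ ∧ 1 + |p'.t| ≤ H := by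
    intro p' hp'
    obtain ⟨s1', s2', z0'⟩ := hg p' hp'
    refine ⟨hamq p' hp', z0', ?_, s2'.trans (Real.rpow_le_rpow_of_exponent_le hX1.le hBB), s1'⟩
    rw [← hL]
    have := hgran p' hp'
    linarith
  have hxqs : LN qs ≤ (xx + τ₁) * L := by linarith
  have hkk : |a.1.l - κ * L| ≤ τ₁ * L := hk.trans (by linarith)
  have hPDN : PD X τ₁ B₂ H N (bN p) 1 a.2.1 qs a.1.l := by
    refine ⟨one_ne_zero, ?_, hH1, fun i => (hlmp i).1, fun i => (hlmp i).2, fun i => hs2' i,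
      fun i => hs1' i, ?_, ?_, ?_, ham, hlen, hxqs, hkk⟩
    · rw [nm_one, Nat.cast_one]
      exact Real.one_le_rpow hX1.le hB0.le
    · rw [← hL, e1b]
      linarith
    · rw [← hL, e2b]
      linarith
    · rw [← hL, e3b]
      linarith
  have hPDR : PD X τ₁ B₂ H N (bR p) 1 (rzD a.2.1 (dz a.1)) qs a.1.l := by
    refine ⟨one_ne_zero, ?_, hH1, ?_, ?_, ?_, ?_, ?_, ?_, ?_, ham, hlen, hxqs, hkk⟩
    · rw [nm_one, Nat.cast_one]
      exact Real.one_le_rpow hX1.le hB0.le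
    · intro i
      fin_cases i
      · exact (hlmp 0).1
      · exact (hlmp 1).1
      · exact (hlmp 2).1
    · intro i
      fin_cases i
      · exact hD0
      · exact hD1
      · exact (hlmp 2).2
    · intro i
      fin_cases i
      · exact hs2' 0
      · exact hs2' 1
      · exact hs2' 2
    · intro i
      fin_cases i
      · exact hs1' 0
      · exact hs1' 1
      · exact hs1' 2
    · rw [← hL, f1b]
      show (a.2.1 0).z - dz a.1 ≤ _
      unfold dz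
      linarith
    · rw [← hL, f2b]
      show (a.2.1 1).z + dz a.1 ≤ _
      unfold dz
      linarith
    · rw [← hL, f3b]
      show (a.2.1 2).z ≤ _
      linarith
  have hcl : [a.2.1 0, a.2.1 1, a.2.1 2] ++ qs = clN a qs := (clN_eq a qs).symm
  set p1 := a.2.1 0 with hp1
  set p2 := a.2.1 1 with hp2
  set lr := a.2.1 2 :: qs with hlr
  set dd := p2.z + dz a.1 with hdd
  have hclN : clN a qs = p1 :: p2 :: lr := clN_eq a qs
  have hclR : [(rzD a.2.1 (dz a.1)) 0, (rzD a.2.1 (dz a.1)) 1, (rzD a.2.1 (dz a.1)) 2] ++ qs =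
      rl p1 p2 lr dd := by
    rw [← ofFn3]
    exact (rl_eq a.2.1 (dz a.1) qs).symm
  have hLNr : LN (rl p1 p2 lr dd) = n := by
    rw [LN_rl, ← hclN]
  have hlo : ∀ bq : Fin 5 → ℝ, bq 0 = κ → bq 4 = xx → ∀ lst : List Pq, LN lst = n →
      (bq 0 / 2 - 2 * bq 4 - τ₁) * L ≤ LN lst := by
    intro bq h0 h4 lst hlst
    rw [hlst, h0, h4]
    linarith
  have htN := hTN p v₀ v₁ v₂ bb x' hq1 hq2
  have htR := hTR p v₀ v₁ v₂ bb x' hq1 hq2
  have htpW : tpW c p bb = min (top5 (prX p)) (top5 (prX p) + 2 * (c * κ) - 2 * bb) := rfl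
  rw [← htpW] at F1 F5
  have hTleN : Real.log (cw * Yt * (nm s : ℝ) ^ 2) ≤ (Tf (bN p) + τ₁) * Real.log X := by
    rw [hlT, ← hL]
    refine F5.trans (mul_le_mul_of_nonneg_right (by linarith) hL0'.le)
  have hTleR : Real.log (cw * Yt * (nm s : ℝ) ^ 2) ≤ (Tf (bR p) + τ₁) * Real.log X := by
    rw [hlT, ← hL]
    refine F5.trans (mul_le_mul_of_nonneg_right (by linarith) hL0'.le)
  have hth : ∀ bq : Fin 5 → ℝ, Tf bq ≤ Kf bq - (bq 1 + bq 2 + bq 3) / 2 - bq 4 + 3 * thK Kf Tf bq := by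
    intro bq
    have := le_max_right 0 ((Tf bq + (bq 1 + bq 2 + bq 3) / 2 + bq 4 - Kf bq) / 3)
    unfold thK
    linarith
  have hth0 : ∀ bq : Fin 5 → ℝ, 0 ≤ thK Kf Tf bq := fun bq => le_max_left _ _
  have hTleN2 := hTleN.trans (mul_le_mul_of_nonneg_right
    (add_le_add_left (hth (bN p)) τ₁) hL0'.le)
  have hTleR2 := hTleR.trans (mul_le_mul_of_nonneg_right
    (add_le_add_left (hth (bR p)) τ₁) hL0'.le)
  have hk5 : |k5X a - max κ (5 / 4 * NN) * L| ≤ τ₁ * L := by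
    unfold k5X
    rw [max_mul_of_nonneg _ _ hL0'.le]
    refine (abs_max_sub_max_le_max _ _ _ _).trans (max_le ?_ ?_)
    · linarith
    · have e : 5 / 4 * a3 a.1.toBd - 5 / 4 * NN * L = 5 / 4 * (a3 a.1.toBd - NN * L) := by ring
      rw [e, abs_mul, abs_of_pos (by norm_num : (0 : ℝ) < 5 / 4)]
      linarith
  have hxw : |a.1.z - xx * L| ≤ τ₁ * L := by linarith
  have humN : min (a.2.1 0).z (min (a.2.1 1).z (a.2.1 2).z) ≤ (a.2.1 2).z + τ₁ * Real.log X := by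
    have h1 := (min_le_right (a.2.1 0).z (min (a.2.1 1).z (a.2.1 2).z)).trans (min_le_right _ _)
    rw [← hL]
    have : 0 ≤ τ₁ * L := by positivity
    linarith
  have humR : min ((rzD a.2.1 (dz a.1)) 0).z (min ((rzD a.2.1 (dz a.1)) 1).z
      ((rzD a.2.1 (dz a.1)) 2).z) ≤ (a.2.1 2).z + τ₁ * Real.log X := by
    have h1 : min ((rzD a.2.1 (dz a.1)) 0).z (min ((rzD a.2.1 (dz a.1)) 1).z
      ((rzD a.2.1 (dz a.1)) 2).z) ≤ (a.2.1 2).z := (min_le_right _ _).trans (min_le_right _ _)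
    refine h1.trans ?_
    rw [← hL]
    exact le_add_of_nonneg_right (by positivity)
  have hFL := hcb X hX1' (bN p) hbN 1 a.2.1 qs a.1.l H hPDN _ (thK Kf Tf (bN p)) (hth0 _) hTleN
    hTleN2 M le_rfl (B₂ * Real.log X) (k5X a) a.1.z (a.2.1 2).z
    (by rw [hKNp]; exact hk5) (by rw [e4b]; exact hxw) humN
  have hFR := hcb X hX1' (bR p) hbR 1 (rzD a.2.1 (dz a.1)) qs a.1.l H hPDR _ (thK Kf Tf (bR p))
    (hth0 _) hTleR hTleR2 M le_rfl (B₂ * Real.log X) (k5X a) a.1.z (a.2.1 2).z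
    (by rw [hKRp]; exact hk5) (by rw [f4b]; exact hxw) humR
  rw [hcl, hclN] at hFL
  rw [hclR, hLNr] at hFR
  have hLNn : LN (p1 :: p2 :: lr) = n := by rw [← hclN]
  rw [hLNn] at hFL
  set lm : ℝ := lmX ℓ Kf Tf p with hlm
  have hlm0 : 0 ≤ lm := le_max_left _ _
  have hlmN : thK Kf Tf (bN p) + ℓ (bN p) ≤ lm := (le_max_left _ _).trans (le_max_right _ _)
  have hlmR : thK Kf Tf (bR p) + ℓ (bR p) ≤ lm := (le_max_right _ _).trans (le_max_right _ _)
  set Sh : ℝ → ℝ → ℝ → ℝ := ShXl (lm * L) a qs with hSh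
  have hHM : ∀ m : ℕ, (m : ℝ) ≤ m₀ → H ^ m ≤ X ^ (ε / 16) := by
    intro m hm'
    rw [hH, ← Real.rpow_natCast, ← Real.rpow_mul hX0.le]
    refine Real.rpow_le_rpow_of_exponent_le hX1.le ?_
    have h1 : δ' * m₀ ≤ ε / 16 := by
      have := mul_le_mul_of_nonneg_right hdM hm₀1.le
      refine this.trans (le_of_eq ?_)
      field_simp
    exact (mul_le_mul_of_nonneg_left hm' hδ'.le).trans h1
  have hM₁m : (M₁ : ℝ) ≤ m₀ := by
    have : (0 : ℝ) ≤ (N : ℝ) := Nat.cast_nonneg _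
    linarith
  set F : ℝ := X ^ (ε / 8) with hF
  have hF0 : 0 ≤ F := by positivity
  have hFle : ∀ x : ℝ, x ≤ lm → H ^ M₁ * X ^ (x + ε / 16) ≤ F * Real.exp (lm * L) := by
    intro x hx
    have e1 : Real.exp (lm * L) = X ^ lm := by
      rw [Real.rpow_def_of_pos hX0, ← hL, mul_comm]
    rw [e1, hF]
    calc H ^ M₁ * X ^ (x + ε / 16) ≤ X ^ (ε / 16) * X ^ (lm + ε / 16) :=
          mul_le_mul (hHM M₁ hM₁m) (Real.rpow_le_rpow_of_exponent_le hX1.le (by linarith))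
            (by positivity) (by positivity)
      _ = X ^ (ε / 8) * X ^ lm := by
          rw [← Real.rpow_add hX0, ← Real.rpow_add hX0]
          congr 1
          ring
  have hcell : ∀ (lst : List Pq) (x : ℝ), x ≤ lm →
      CellK Dk h (π lam) 1 lst (X ^ B₂) r M (Real.log (cw * Yt * (nm s : ℝ) ^ 2))
        (B₂ * Real.log X) (H ^ M₁ * X ^ (x + ε / 16)) (ShT (k5X a) a.1.z (a.2.1 2).z n) →
      CellK Dk h (π lam) 1 lst (X ^ B₂) r M (Real.log (cw * Yt * (nm s : ℝ) ^ 2))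
        (B₂ * Real.log X) F Sh := by
    intro lst x hx hcl g hgp hgX b l ps' hb hbE hl' hch h1 h2
    refine (hcl g hgp hgX b l ps' hb hbE hl' hch h1 h2).trans ?_
    have hc0 : 0 ≤ I1146.cN ps' lst ^ M := Real.rpow_nonneg (cN_nonneg _ _) _
    have e1 : ShT (k5X a) a.1.z (a.2.1 2).z n (Real.log (nm g)) b (l - b) + lm * L ≤
        Sh (Real.log (nm g)) b (l - b) := le_max_left _ _
    calc H ^ M₁ * X ^ (x + ε / 16) * I1146.cN ps' lst ^ M *
          Real.exp (ShT (k5X a) a.1.z (a.2.1 2).z n (Real.log (nm g)) b (l - b)) ≤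
        F * Real.exp (lm * L) * I1146.cN ps' lst ^ M *
          Real.exp (ShT (k5X a) a.1.z (a.2.1 2).z n (Real.log (nm g)) b (l - b)) := by
          have := hFle x hx
          gcongr
      _ = F * I1146.cN ps' lst ^ M * Real.exp
          (ShT (k5X a) a.1.z (a.2.1 2).z n (Real.log (nm g)) b (l - b) + lm * L) := by
          rw [Real.exp_add]; ring
      _ ≤ _ := by gcongr
  have hCL := hcell _ _ hlmN hFL
  have hCR := hcell _ _ hlmR hFR
  -- the sequence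
  have hdom := dom_xD (hP lam) h hsm a.2.1 (dz a.1) qs
  have hlen3 : (p1 :: p2 :: lr).length ≤ N + 3 := by
    rw [hlr]
    simp only [List.length_cons]
    omega
  have hcz : ∀ p' ∈ p1 :: p2 :: lr, 0 ≤ p'.z := by
    intro p' hp'
    rw [hlr] at hp'
    simp only [List.mem_cons] at hp'
    rcases hp' with rfl | rfl | rfl | h1
    · exact g0
    · exact g1
    · exact g2
    · exact (hg p' h1).2.2
  have hn0 : 0 ≤ n := by rw [hnz]; positivity
  have hal : alX π h (lam, s) a qs = xD h (π lam) s a.2.1 (dz a.1) qs := rfl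
  have hclen : (clN a qs).length ≤ N + 3 := by rw [hclN]; exact hlen3
  have hYc1 : 1 ≤ YcX Rh a qs := by
    refine Real.one_le_exp ?_
    have : 0 ≤ ((clN a qs).length : ℝ) * Rh := by positivity
    linarith
  have hrlen' : (rl p1 p2 lr dd).length = (clN a qs).length := by
    rw [hclN]
    unfold rl
    simp
  have hadm : Adm (YcX Rh a qs) (Real.exp n) (2 * (((N + 3 : ℕ) : ℝ) * Rh))
      (alX π h (lam, s) a qs) := by
    have hadm1 := Adm_list (h := h) (N := (clN a qs).length) hRh0 hRh (π lam) 1 (ps := clN a qs)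
      le_rfl (Y := YcX Rh a qs) (Real.exp_le_exp.2 (by linarith))
    have hadm2 := Adm_list (h := h) (N := (clN a qs).length) hRh0 hRh (π lam) 1
      (ps := rl p1 p2 lr dd) hrlen'.le (Y := YcX Rh a qs) (Real.exp_le_exp.2 (by
        rw [hLNr]; linarith))
    rw [hclN, hLNn] at hadm1
    rw [hLNr] at hadm2
    have hlR : ((clN a qs).length : ℝ) * Rh ≤ ((N + 3 : ℕ) : ℝ) * Rh :=
      mul_le_mul_of_nonneg_right (by exact_mod_cast hclen) hRh0
    have key : ∀ m, alX π h (lam, s) a qs m ≠ 0 →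
        sqc 1 (alF 1 1 (π lam) h (natl (p1 :: p2 :: lr))) m ≠ 0 ∨
        sqc 1 (alF 1 1 (π lam) h (natl (rl p1 p2 lr dd))) m ≠ 0 := by
      intro m hm
      by_contra hcon
      push_neg at hcon
      obtain ⟨e1, e2⟩ := hcon
      apply hm
      have h1 := hdom.le m
      have h2 : xN (π lam) h 1 p1 p2 lr dd m = 0 := by
        rw [xN_eq, e1, e2]
        simp
      have h3 : xN (π lam) h 1 (a.2.1 0) (a.2.1 1) (a.2.1 2 :: qs) ((a.2.1 1).z + dz a.1) m = 0 :=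
        h2
      rw [h3, norm_zero] at h1
      rw [hal]
      exact norm_le_zero_iff.1 (by simpa using h1)
    refine ⟨fun m hm => ?_, fun m hm => ?_⟩
    · rcases key m hm with h1 | h1
      · exact hadm1.sup m h1
      · exact hadm2.sup m h1
    · rcases key m hm with h1 | h1
      · refine (hadm1.win m h1).trans ?_
        rw [hclN] at hlR
        linarith
      · refine (hadm2.win m h1).trans ?_
        linarith
  have hYrX : YcX Rh a qs ≤ X ^ B₂ := by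
    rw [Real.rpow_def_of_pos hX0, ← hL]
    refine Real.exp_le_exp.2 ?_
    have h1 : ((clN a qs).length : ℝ) * Rh ≤ ((N + 3 : ℕ) : ℝ) * Rh :=
      mul_le_mul_of_nonneg_right (by exact_mod_cast hclen) hRh0
    have : L * 3 ≤ L * B₂ := mul_le_mul_of_nonneg_left hB3 hL0'.le
    linarith
  have hnsX : cw * Yt * (nm s : ℝ) ^ 2 ≤ X := by
    rw [← Real.exp_log (show 0 < cw * Yt * (nm s : ℝ) ^ 2 by positivity), ← Real.exp_log hX0, hlT]
    refine Real.exp_le_exp.2 ?_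
    have h1 := le_max_left y (τ / 4 * L + 2 * n - a.1.l)
    linarith
  have hB21 : (1 : ℝ) ≤ X ^ B₂ := Real.one_le_rpow hX1.le hB0.le
  set s0 : ℝ := s0X a with hs0'
  have ss1 : s0 ≤ p1.z := (min_le_left _ _).trans (min_le_left _ _)
  have ss2 : s0 ≤ p2.z := (min_le_left _ _).trans (min_le_right _ _)
  have ss3 : s0 ≤ p1.z + p2.z - dd := by
    have : s0 ≤ p1.z - dz a.1 := (min_le_right _ _).trans (min_le_left _ _)
    rw [hdd]
    linarith
  have ss4 : s0 ≤ dd := (min_le_right _ _).trans (min_le_right _ _)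
  have hd0 : 0 ≤ dd := hD1
  have hd1' : dd ≤ p1.z + p2.z := by
    have := hD0
    rw [hdd]
    linarith
  have hXB3 : X ^ B₂ ≤ X ^ (2 * (B₂ + 1)) := Real.rpow_le_rpow_of_exponent_le hX1.le (by linarith)
  have hlrlen : lr.length ≤ N + 1 := by
    simp only [List.length_cons] at hlen3
    omega
  set Htt : ℝ := Ht (natl (p1 :: p2 :: lr)) with hHtt
  have hHt1 : 1 ≤ Htt := RG64.one_le_Ht _
  set Eb : ℝ := C₀ * X ^ (ε / 16) * Htt ^ 6 * Real.exp (5 / 3 * LN (p1 :: p2 :: lr)) with hEb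
  have hEb0 : 0 ≤ Eb := by positivity
  have hPB := HP X hX3 (π lam) (hP lam) (hP lam).ψ (hnX.trans hXB3) (hex lam) 1 one_ne_zero (by
      rw [nm_one, Nat.cast_one]; exact hB21.trans hXB3) p1 p2 lr (hlmp 0).1.2 (hlmp 1).1.2
    (hlmp 0).1.1 (hlmp 1).1.1 ((hs2' 0).trans hXB3) ((hs2' 1).trans hXB3) hlrlen hcz
    (by rw [hLNn]; exact F4) dd s0 ss1 ss2 ss3 ss4 (max (((N + 3 : ℕ) : ℝ) * M) 12)
    (le_max_right _ _) ((X ^ (B₂ + 1)) ^ 2) (by
      rw [← Real.rpow_natCast, ← Real.rpow_mul hX0.le]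
      refine Real.rpow_le_rpow_of_exponent_le hX1.le (le_of_eq ?_)
      push_cast; ring)
  rw [← hEb] at hPB
  set Fb : ℝ := C₀ * X ^ (ε / 16) * Htt ^ 6 with hFb
  have hFb0 : 0 ≤ Fb := by positivity
  have hbias : ∀ γ b v : ℝ, 0 ≤ γ → 0 ≤ b → b ≤ B₂ * Real.log X + 1 → 0 ≤ v →
      v ≤ Real.log (cw * Yt * (nm s : ℝ) ^ 2) - 2 * γ →
      Eb * Real.exp (bcx s0 γ b v) ≤ Fb * Real.exp (Sh γ b v) := by
    intro γ b v _ _ _ _ _
    have e1 : Eb * Real.exp (bcx s0 γ b v) = Fb * Real.exp (5 / 3 * n + bcx s0 γ b v) := by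
      rw [hEb, hFb, hLNn, Real.exp_add]
      ring
    rw [e1]
    refine mul_le_mul_of_nonneg_left (Real.exp_le_exp.2 ?_) hFb0
    exact le_max_right _ _
  have hrlen : (rl p1 p2 lr dd).length ≤ N + 3 := by
    unfold rl
    simpa using hlen3
  have hzz : ∀ p' ∈ p1 :: p2 :: lr, 0 ≤ p'.z ∧ p'.z ≤ Real.log X := by
    intro p' hp'
    refine ⟨hcz p' hp', ?_⟩
    have h1 : p'.z ≤ LN (p1 :: p2 :: lr) := by
      unfold LN
      refine List.single_le_sum ?_ _ (List.mem_map.2 ⟨p', hp', rfl⟩)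
      intro x hx
      obtain ⟨p'', hp'', rfl⟩ := List.mem_map.1 hx
      exact hcz p'' hp''
    rw [hLNn] at h1
    exact h1.trans F4
  have hzr' : ∀ p' ∈ rl p1 p2 lr dd, 0 ≤ p'.z ∧ p'.z ≤ Real.log X := by
    have hnn : ∀ p' ∈ rl p1 p2 lr dd, 0 ≤ p'.z := by
      intro p' hp'
      unfold rl at hp'
      rcases List.mem_cons.1 hp' with rfl | hp'
      · show 0 ≤ p1.z + p2.z - dd
        linarith
      rcases List.mem_cons.1 hp' with rfl | hp'
      · exact hd0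
      · exact hcz p' (List.mem_cons_of_mem _ (List.mem_cons_of_mem _ hp'))
    intro p' hp'
    refine ⟨hnn p' hp', ?_⟩
    have h1 : p'.z ≤ LN (rl p1 p2 lr dd) := by
      unfold LN
      refine List.single_le_sum ?_ _ (List.mem_map.2 ⟨p', hp', rfl⟩)
      intro x hx
      obtain ⟨p'', hp'', rfl⟩ := List.mem_map.1 hx
      exact hnn p'' hp''
    rw [hLNr] at h1
    exact h1.trans F4
  have key := HI X hX3 (π lam) (hP lam) 1 (p1 :: p2 :: lr) (rl p1 p2 lr dd) hlen3 hrlen hzz hzr'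
    (zN p1 p2 dd) (norm_zN _ _ _).le (xN (π lam) h 1 p1 p2 lr dd)
    (xN_eq (π lam) h 1 p1 p2 lr dd) (YcX Rh a qs) (cw * Yt)
    (Real.log (cw * Yt * (nm s : ℝ) ^ 2)) F F Eb s0 Fb
    Sh hYc1 hYrX hnsX le_rfl hF0 hF0 hEb0 hFb0 (lipS_ShXl _ _ _) hCL hCR hPB hbias
    (alX π h (lam, s) a qs) hdom
  -- the factor
  have hHt : Htt ^ 6 ≤ X ^ (ε / 16) := by
    have h1 : Htt ≤ H ^ (N + 3) := by
      refine (Ht_pow hH1 ?_).trans (pow_le_pow_right₀ hH1 hlen3)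
      intro p' hp'
      rw [hlr] at hp'
      simp only [List.mem_cons] at hp'
      rcases hp' with rfl | rfl | rfl | h1
      · exact hs1' 0
      · exact hs1' 1
      · exact hs1' 2
      · exact (hg p' h1).1
    refine (pow_le_pow_left₀ (by linarith) h1 6).trans ?_
    rw [← pow_mul]
    refine hHM _ ?_
    push_cast
    have : (0 : ℝ) ≤ (M₁ : ℝ) := Nat.cast_nonneg _
    rw [hm₀]
    linarith
  have hFb8 : Fb ≤ C₀ * X ^ (ε / 8) := by
    rw [hFb]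
    calc C₀ * X ^ (ε / 16) * Htt ^ 6 ≤ C₀ * X ^ (ε / 16) * X ^ (ε / 16) := by gcongr
      _ = C₀ * X ^ (ε / 8) := by
          rw [mul_assoc, ← Real.rpow_add hX0]
          congr 2
          ring
  have hFac : C * X ^ (ε / 16) * (F + F + Fb) ≤ X ^ ε := by
    calc C * X ^ (ε / 16) * (F + F + Fb) ≤
          C * X ^ (ε / 16) * (X ^ (ε / 8) + X ^ (ε / 8) + C₀ * X ^ (ε / 8)) := by
          rw [hF]; gcongr
      _ = C * (2 + C₀) * X ^ (3 * ε / 16) := by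
          have e1 : X ^ (3 * ε / 16) = X ^ (ε / 16) * X ^ (ε / 8) := by
            rw [← Real.rpow_add hX0]; congr 1; ring
          rw [e1]; ring
      _ ≤ CC * X ^ (3 * ε / 16) := mul_le_mul_of_nonneg_right (by linarith) (by positivity)
      _ ≤ X ^ (ε / 2) * X ^ (3 * ε / 16) := mul_le_mul_of_nonneg_right hLC (by positivity)
      _ = X ^ (ε / 2 + 3 * ε / 16) := by rw [← Real.rpow_add hX0]
      _ ≤ X ^ ε := Real.rpow_le_rpow_of_exponent_le hX1.le (by linarith)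
  have hjb : JBc (YcX Rh a qs) (cw * Yt) (X ^ ε) (max (((N + 3 : ℕ) : ℝ) * M) 12) Sh
      (alX π h (lam, s) a qs) := fun d hd Bb V h1 h2 h3 h4 t =>
    (key d hd Bb V h1 h2 h3 h4 t).trans (by gcongr)
  have hδt : ∀ m : ℝ, m ≤ 40 → m * (δ * L) ≤ t₀ * L := by
    intro m hm'
    have h1 : δ * L ≤ τ / 100 * L := mul_le_mul_of_nonneg_right hδτ hL0'.le
    have h2 : τ * L ≤ t₀ * L := mul_le_mul_of_nonneg_right hτt hL0'.le
    have h3 : m * (δ * L) ≤ 40 * (δ * L) := mul_le_mul_of_nonneg_right hm' hδL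
    linarith
  have hδ1 := hδt 1 (by norm_num)
  have hδ3 := hδt 3 (by norm_num)
  have hδ4 := hδt 4 (by norm_num)
  have hδ40 := hδt 40 le_rfl
  refine ⟨hX3, ?_, ?_, ?_, ?_, ?_, ?_, hn0, ?_, ?_, ?_, hYc1, hYrX, ?_, hjb, hadm⟩
  · exact hk.trans (by linarith)
  · exact hz.trans (by linarith)
  · exact hA.trans (by linarith)
  · have e1 : svX q = sv := rfl
    rw [e1, abs_le]
    constructor <;> linarith
  · linarith
  · have h1 : sv * L ≤ (NN + xx) * L := mul_le_mul_of_nonneg_right (by rw [hsv]; linarith) hL0'.le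
    show n ≤ (NN + xx) * L + t₀ * L
    linarith
  · have h1 : y + cs ≤ (tpW c p bb + τ) * L := F5
    have h2 : τ * L ≤ t₀ * L := mul_le_mul_of_nonneg_right hτt hL0'.le
    show y ≤ tpW c p bb * L + t₀ * L
    linarith
  · have h1 : cw * Yt ≤ cw * Yt * (nm s : ℝ) ^ 2 := le_mul_of_one_le_right (by positivity) hsn
    exact h1.trans hnsX
  · have e1 : s0R q * L = min (min (v₀ * L) (v₁ * L))
        (min (v₀ * L - (cu (prX p) 2 - p (.inr 1)) * L) (v₁ * L + (cu (prX p) 2 - p (.inr 1)) * L)) := by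
      unfold s0R
      rw [min_mul_of_nonneg _ _ hL0'.le, min_mul_of_nonneg _ _ hL0'.le,
        min_mul_of_nonneg _ _ hL0'.le, sub_mul, add_mul]
    have hdz : |dz a.1 - (cu (prX p) 2 - p (.inr 1)) * L| ≤ 2 * (δ * L) := by
      unfold dz
      rw [abs_le]
      obtain ⟨zs1', zs2'⟩ := abs_le.1 hzs
      constructor <;> linarith
    obtain ⟨dz1, dz2⟩ := abs_le.1 hdz
    rw [e1]
    unfold s0X
    refine (abs_min_sub_min_le_max _ _ _ _).trans (max_le ?_ ?_)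
    · refine (abs_min_sub_min_le_max _ _ _ _).trans (max_le ?_ ?_)
      · exact hv0.trans (by linarith)
      · exact hv1.trans (by linarith)
    · refine (abs_min_sub_min_le_max _ _ _ _).trans (max_le ?_ ?_)
      · rw [abs_le]
        constructor <;> linarith
      · rw [abs_le]
        constructor <;> linarith
  · rw [Real.rpow_def_of_pos hX0, ← hL]
    refine Real.exp_le_exp.2 ?_
    have h0 : 0 ≤ a.1.l := by
      have h3 : 8 / 9 * L ≤ κ * L := mul_le_mul_of_nonneg_right hPp.κ0 hL0'.le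
      have h4 : τ * L ≤ 1 / 8 * L := mul_le_mul_of_nonneg_right hτ8 hL0'.le
      linarith
    have h1 : e0 * a.1.l ≤ 1 * a.1.l := mul_le_mul_of_nonneg_right he0' h0
    have h2 : κ * L ≤ 1 * L := mul_le_mul_of_nonneg_right hPp.κ1 hL0'.le
    have h3 : L * 3 ≤ L * B₂ := mul_le_mul_of_nonneg_left hB3 hL0'.le
    have h4 : τ * L ≤ 1 / 8 * L := mul_le_mul_of_nonneg_right hτ8 hL0'.le
    linarith

end Crest.Agent.R017.FrX579
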