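import Crest.Agent.R017.GkXa_381
import Crest.Agent.R017.P1Ld_904
import Crest.Agent.R017.ET4cx_968
import Crest.Agent.R017.FrX_579

/-!
# Row 17, exceptional class (helper381): the class Gram sums of `et`, the `T`-lines of a difference

* **`lnt_X`** : `LnT` for the numbers of a difference, at the exponent `hX`
-/

set_option autoImplicit false
set_option linter.unusedVariables false

noncomputable section

namespace Crest.Agent.R017.GkX381

open Crest.Agent.R017.RnP571 (Dh)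
open Crest.Agent.R017.P1L904 (RSm hL tL RSm_le0 RSm_le1 hL_ge hL_le tG_le sF_le Ge Ge_eq thF_le hF_neg)
open Crest.Agent.R017.I1K764 (bcx)
open Crest.Agent.R017.P10X764 (shB)
open Crest.Agent.R017.E3N146 (ShT)
open Crest.Agent.R017.ET490 (LnT lw0 lw1)
open Crest.Agent.R017.TM708 (eH eF)

section
variable {k y₃ y₄ u x D t q p um s v δ b l h F : ℝ}

lemma lw0_le {B G : ℝ} (h0 : h ≤ 0) (hA : 2 / 3 * q - (h + v) / 3 + B ≤ G)
    (hB : 2 / 3 * v + B ≤ G) : lw0 q v h + B ≤ G := by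
  unfold ET490.lw0
  have : max (2 / 3 * q - v / 3) (max (2 / 3 * q - (h + v) / 3) (2 / 3 * v)) ≤ G - B :=
    max_le (by linarith) (max_le (by linarith) (by linarith))
  linarith

lemma lw1_le {B G : ℝ} (h0 : 2 * h + 3 * v ≤ 2 * q) (hA : 2 / 3 * q - (h + v) / 3 + B ≤ G) :
    lw1 q v h + B ≤ G := by
  unfold ET490.lw1
  have : max (2 / 3 * q - (h + v) / 3) (max (h / 3 + 2 / 3 * v) (2 / 3 * h + 7 / 6 * v - q / 3)) ≤
      G - B :=
    max_le (by linarith) (max_le (by linarith) (by linarith))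
  linarith

/-- the size of `hX` -/
lemma hX_le (H : Cf k y₃ y₄ u x D t p um s)
    (q0 : 3 / 5 * k - t ≤ q) (q1 : q ≤ 17 / 20 * k + t) (v0 : 0 ≤ v)
    (v1 : v ≤ 2 * (y₃ + y₄ + u) - k + 11 / 5 * x + t)
    (v2 : v ≤ 3 / 4 * (y₃ + y₄ + u) + 11 / 5 * x + t) (hs : (v + p - k) / 3 - t ≤ s)
    (δ0 : 0 ≤ δ) (F1 : F ≤ 5 / 9 * D) :
    hX q v p δ x (max k (5 / 4 * (y₃ + y₄ + u))) s (Ge (y₃ + y₄ + u) k q p um x D)
      (Ge (y₃ + y₄ + u) k q p um x D - F) + k / 100 ≤ 0 ∧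
    2 * hX q v p δ x (max k (5 / 4 * (y₃ + y₄ + u))) s (Ge (y₃ + y₄ + u) k q p um x D)
      (Ge (y₃ + y₄ + u) k q p um x D - F) + 3 * v + k / 200 ≤ 2 * q := by
  have k0 := H.dh.k0
  have a1 := thF_le (δ := δ) H.dh H.t0 H.t1 q0 q1 H.p0 H.p1 H.p2 H.um0 H.um1 H.um2 v1 v2 δ0 F1
  have a2 := hF_neg (δ := δ) H.dh H.t0 H.t1 q0 q1 H.p0 H.p1 H.p2 H.um0 H.um1 H.um2 v1 v2 δ0 F1
  obtain ⟨a3, a4⟩ := coreCb H q0 q1 v0 v1 v2 hs (max_choice k (5 / 4 * (y₃ + y₄ + u)))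
    (le_max_left _ _) (le_max_right _ _) (Ge_eq (y₃ + y₄ + u) k q p um x D).le
    (RSm_le0 k q p um x)
  have a5 : hB q v p δ s (Ge (y₃ + y₄ + u) k q p um x D) ≤
      2 * q + v + 4 * p - 3 * s - 3 * Ge (y₃ + y₄ + u) k q p um x D := by
    unfold hB
    have := le_max_right 0 (s - δ)
    linarith
  unfold hX
  rcases max_choice (hL q v p δ x (max k (5 / 4 * (y₃ + y₄ + u)))
    (Ge (y₃ + y₄ + u) k q p um x D - F)) (hB q v p δ s (Ge (y₃ + y₄ + u) k q p um x D)) with e | e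
  · rw [e]
    constructor <;> linarith
  · rw [e]
    constructor <;> linarith

/-- **the lists** -/
theorem lnt_T {n m x' T : ℝ} (H : Cf k y₃ y₄ u x D t p um s)
    (q0 : 3 / 5 * k - t ≤ q) (q1 : q ≤ 17 / 20 * k + t) (v0 : 0 ≤ v)
    (v1 : v ≤ 2 * (y₃ + y₄ + u) - k + 11 / 5 * x + t)
    (v2 : v ≤ 3 / 4 * (y₃ + y₄ + u) + 11 / 5 * x + t)
    (δ0 : 0 ≤ δ) (F1 : F ≤ 5 / 9 * D)
    (b0 : 0 ≤ b) (hl : l ≤ v - 2 * δ + t) (x0' : 0 ≤ x') (x1' : x' ≤ x + t)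
    (hn : n ≤ p - δ - b + t) (hm : 3 * (m - x') ≤ n - x')
    (hT : T ≤ max (tL (max k (5 / 4 * (y₃ + y₄ + u))) b (l + b) n m) (l + b + n))
    (h1 : hL q v p δ x (max k (5 / 4 * (y₃ + y₄ + u))) (Ge (y₃ + y₄ + u) k q p um x D - F) ≤ h)
    (h2 : h ≤ 0) (h3 : 2 * h + 3 * v ≤ 2 * q) :
    lw0 q v h + (T + F + 2 * δ - p / 3) ≤ Ge (y₃ + y₄ + u) k q p um x D + 12 * t ∧
    lw1 q v h + (T + F + 2 * δ + (v - 2 * δ - l) / 3 - p / 3) ≤
      Ge (y₃ + y₄ + u) k q p um x D + 12 * t := by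
  have k0 := H.dh.k0
  have t0 := H.t0
  have x0 := H.dh.x0
  have hA := tG_le (q := q) (G := Ge (y₃ + y₄ + u) k q p um x D - F) H.dh H.t0 H.t1 H.p0
    (by linarith) (by linarith) δ0 b0
    (by linarith : l + b ≤ v - 2 * δ + b + t) x0' x1' hn hm hT
  have hB := sF_le H.dh H.t0 H.t1 q0 q1 H.p0 H.p1 H.um1 H.um2 v1 v2 δ0 b0
    (by linarith : l + b ≤ v - 2 * δ + b + t) x0' x1' hn hm F1 hT
  refine ⟨lw0_le h2 (by linarith) (by linarith), lw1_le h3 (by linarith)⟩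

/-- **the bias** -/
theorem lnt_B {w : ℝ} (H : Cf k y₃ y₄ u x D t p um s)
    (q0 : 3 / 5 * k - t ≤ q) (q1 : q ≤ 17 / 20 * k + t) (v0 : 0 ≤ v)
    (v1 : v ≤ 2 * (y₃ + y₄ + u) - k + 11 / 5 * x + t)
    (v2 : v ≤ 3 / 4 * (y₃ + y₄ + u) + 11 / 5 * x + t) (hs : (v + p - k) / 3 - t ≤ s)
    (δ0 : 0 ≤ δ) (b0 : 0 ≤ b) (hl : l ≤ v - 2 * δ + t) (hw : 0 ≤ w)
    (h1 : hB q v p δ s (Ge (y₃ + y₄ + u) k q p um x D) ≤ h)
    (h2 : h ≤ 0) (h3 : 2 * h + 3 * v ≤ 2 * q) :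
    lw0 q v h + (5 / 3 * p + bcx s δ b l + 2 * δ - w - p / 3) ≤
      Ge (y₃ + y₄ + u) k q p um x D + 12 * t ∧
    lw1 q v h + (5 / 3 * p + bcx s δ b l + 2 * δ - w + (v - 2 * δ - l) / 3 - p / 3) ≤
      Ge (y₃ + y₄ + u) k q p um x D + 12 * t := by
  have k0 := H.dh.k0
  have t0 := H.t0
  have x0 := H.dh.x0
  have hC := coreBb H q0 q1 v1 v2 hs (max_choice k (5 / 4 * (y₃ + y₄ + u)))
    (le_max_left _ _) (le_max_right _ _) (Ge_eq (y₃ + y₄ + u) k q p um x D).le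
    (RSm_le0 k q p um x)
  have e1 : bcx s δ b l = 2 / 3 * (l + b) - 5 / 3 * (δ + b) - max 0 (s - (δ + b)) := rfl
  have e2 : max 0 (s - δ) ≤ b + max 0 (s - (δ + b)) := by
    refine max_le (by have := le_max_left 0 (s - (δ + b)); linarith) ?_
    have := le_max_right 0 (s - (δ + b))
    linarith
  have e3 : s ≤ δ + b + max 0 (s - (δ + b)) := by
    have := le_max_right 0 (s - (δ + b))
    linarith
  unfold hB at h1
  rw [e1]
  generalize max 0 (s - (δ + b)) = M at *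
  generalize max 0 (s - δ) = M' at *
  refine ⟨lw0_le h2 (by linarith) (by linarith), lw1_le h3 (by linarith)⟩

/-- the numbers of the lists have the form of helper904 -/
lemma ShT_le (k5 x um p δ b l : ℝ) (x0 : 0 ≤ x) :
    ∃ m, 3 * (m - x) ≤ p - δ - b - x ∧
      ShT k5 x um p δ b l ≤ max (tL k5 b (l + b) (p - δ - b) m) (l + b + (p - δ - b)) := by
  refine ⟨min (um + x) ((p - δ - b) / 3 + 2 / 3 * x), ?_, ?_⟩
  · have := min_le_right (um + x) ((p - δ - b) / 3 + 2 / 3 * x)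
    linarith
  · unfold E3N146.ShT TM708.eH TM708.eF P1L904.tL
    rcases le_total (max (2 * (p - δ - b)) (4 / 3 * (p - δ - b) +
      (max (k5 + b / 2) (3 / 2 * (l + b)) + (l + b)) / 3)) (l + b + (p - δ - b)) with e | e
    · rw [max_eq_right e]
      exact (min_le_left _ _).trans (le_max_right _ _)
    · rw [max_eq_left e]
      exact le_max_left _ _

/-- **the `T`-lines of a difference**, `lm` = loss of the lists -/
theorem lnt_X {um' E z lm : ℝ} (H : Cf k y₃ y₄ u x D t p um s)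
    (q0 : 3 / 5 * k - t ≤ q) (q1 : q ≤ 17 / 20 * k + t) (v0 : 0 ≤ v)
    (v1 : v ≤ 2 * (y₃ + y₄ + u) - k + 11 / 5 * x + t)
    (v2 : v ≤ 3 / 4 * (y₃ + y₄ + u) + 11 / 5 * x + t) (hs : (v + p - k) / 3 - t ≤ s)
    (δ0 : 0 ≤ δ) (F1 : F ≤ 5 / 9 * D) (hlm : lm ≤ F + t) {k5 c₁ : ℝ}
    (hk5 : k5 ≤ max k (5 / 4 * (y₃ + y₄ + u)) + t) (z0 : 0 ≤ z) (z1 : z ≤ x + t) (c0 : 0 ≤ c₁)
    (c1 : c₁ ≤ t) {G' : ℝ} (hG' : Ge (y₃ + y₄ + u) k q p um x D + 14 * t ≤ G')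
    (h1 : hX q v p δ x (max k (5 / 4 * (y₃ + y₄ + u))) s (Ge (y₃ + y₄ + u) k q p um x D)
      (Ge (y₃ + y₄ + u) k q p um x D - F) = h) :
    LnT (shB s p fun γ b v => ShT k5 z um' p γ b v + lm) q v h p E δ c₁ G' := by
  obtain ⟨g1, g2⟩ := hX_le H q0 q1 v0 v1 v2 hs δ0 F1
  rw [h1] at g1 g2
  have k0 := H.dh.k0
  have t0 := H.t0
  have hh1 : hL q v p δ x (max k (5 / 4 * (y₃ + y₄ + u))) (Ge (y₃ + y₄ + u) k q p um x D - F) ≤ h :=
    h1 ▸ le_max_left _ _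
  have hh2 : hB q v p δ s (Ge (y₃ + y₄ + u) k q p um x D) ≤ h := h1 ▸ le_max_right _ _
  have key : ∀ b l : ℝ, 0 ≤ b → 0 ≤ l → l ≤ v - 2 * δ + c₁ →
      ShT k5 z um' p δ b l ≤ ShT (max k (5 / 4 * (y₃ + y₄ + u))) z um' p δ b l + t := by
    intro b l _ _ _
    unfold E3N146.ShT TM708.eH TM708.eF
    have a0 : max (k5 + b / 2) (3 / 2 * (l + b)) ≤
        max (max k (5 / 4 * (y₃ + y₄ + u)) + b / 2) (3 / 2 * (l + b)) + t :=
      max_le (by have := le_max_left (max k (5 / 4 * (y₃ + y₄ + u)) + b / 2) (3 / 2 * (l + b)); linarith)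
        (by have := le_max_right (max k (5 / 4 * (y₃ + y₄ + u)) + b / 2) (3 / 2 * (l + b)); linarith)
    generalize max (max k (5 / 4 * (y₃ + y₄ + u)) + b / 2) (3 / 2 * (l + b)) = A at *
    generalize max (k5 + b / 2) (3 / 2 * (l + b)) = A' at *
    have a1 : max (2 * (p - δ - b)) (4 / 3 * (p - δ - b) + (A' + (l + b)) / 3) ≤
        max (2 * (p - δ - b)) (4 / 3 * (p - δ - b) + (A + (l + b)) / 3) + t :=
      max_le (by have := le_max_left (2 * (p - δ - b)) (4 / 3 * (p - δ - b) + (A + (l + b)) / 3)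
                 linarith)
        (by have := le_max_right (2 * (p - δ - b)) (4 / 3 * (p - δ - b) + (A + (l + b)) / 3)
            linarith)
    generalize max (2 * (p - δ - b)) (4 / 3 * (p - δ - b) + (A' + (l + b)) / 3) = B' at *
    generalize max (2 * (p - δ - b)) (4 / 3 * (p - δ - b) + (A + (l + b)) / 3) = B at *
    have a2 : max B' (l + b + (p - δ - b)) ≤ max B (l + b + (p - δ - b)) + t :=
      max_le (by have := le_max_left B (l + b + (p - δ - b)); linarith)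
        (by have := le_max_right B (l + b + (p - δ - b)); linarith)
    rw [← min_add_add_right]
    exact min_le_min a2 (by linarith)
  constructor
  · intro b l b0 l0 hl
    have hl' : l ≤ v - 2 * δ + t := by linarith
    have hw : 0 ≤ max 0 (b - E) := le_max_left _ _
    obtain ⟨m, hm, hT⟩ := ShT_le (max k (5 / 4 * (y₃ + y₄ + u))) z um' p δ b l z0
    have a1 := (lnt_T (h := h) H q0 q1 v0 v1 v2 δ0 F1 b0 hl' z0 z1 (n := p - δ - b) (by linarith) hm hT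
      hh1 (by linarith) (by linarith)).1
    have a2 := (lnt_B (h := h) H q0 q1 v0 v1 v2 hs δ0 b0 hl' hw hh2 (by linarith) (by linarith)).1
    have a3 := key b l b0 l0 hl
    unfold P10X764.shB
    rcases max_choice (ShT k5 z um' p δ b l + lm) (5 / 3 * p + bcx s δ b l) with e | e <;> rw [e] <;>
      linarith
  · intro b l b0 l0 hl
    have hl' : l ≤ v - 2 * δ + t := by linarith
    have hw : 0 ≤ max 0 (b - E) := le_max_left _ _
    obtain ⟨m, hm, hT⟩ := ShT_le (max k (5 / 4 * (y₃ + y₄ + u))) z um' p δ b l z0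
    have a1 := (lnt_T (h := h) H q0 q1 v0 v1 v2 δ0 F1 b0 hl' z0 z1 (n := p - δ - b) (by linarith) hm hT
      hh1 (by linarith) (by linarith)).2
    have a2 := (lnt_B (h := h) H q0 q1 v0 v1 v2 hs δ0 b0 hl' hw hh2 (by linarith) (by linarith)).2
    have a3 := key b l b0 l0 hl
    unfold P10X764.shB
    rcases max_choice (ShT k5 z um' p δ b l + lm) (5 / 3 * p + bcx s δ b l) with e | e <;> rw [e] <;>
      linarith

end

end Crest.Agent.R017.GkX381
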