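import Crest.Agent.R017.GHB3_842

/-!
# Row 17, R8: Gram sums by the cubic large sieve, part 4 (helper842)

`gram_hb` : for arbitrary coefficients `T`, arbitrary `om`, arbitrary natural factor `b`.
-/

set_option autoImplicit false
set_option maxHeartbeats 400000

noncomputable section

open Complex
open scoped ComplexConjugate Classical

namespace Crest.Agent.R017.GHB842

open Crest.Agent.R012 Crest.Agent.R012.Eis
open Crest.Agent.R012.LS2 (S mem_S HB Final)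
open Crest.Agent.R012.Div277 (dvs mem_dvs isPrim_of_mem_dvs dvd_of_mem_dvs tau tau_le_rpow
  sum_primBall_dvs sum_inv_primBall_le poly_log_le)
open Crest.Agent.R017.CM106 (CS)
open Crest.Agent.R017.PX764 (norm_sy_le' n6)
open Crest.Agent.R017.E1551 (nmpos CS_fin nm_ge_one)
open Crest.Agent.R017.C70 (JC CbF OKJ)
open Crest.Agent.R017.GrB829 (IsC)
open Crest.Agent.R017.E3P842
open Crest.Agent.R017.E3A164
open Gauss880 (syG)

variable {J : Finset (Eis × Eis)} {om : Eis × Eis → ℂ} {T : Eis → Eis → Eis → ℂ} {q t : Eis}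

lemma JC_ne {j : Eis} (h : JC j) : j ≠ 0 := by
  obtain ⟨c, hc, j', hj', -, rfl⟩ := h
  exact mul_ne_zero (GrB829.IsC.ne_zero hc) hj'.ne_zero

set_option maxHeartbeats 4000000 in
/-- the multiplicity of `(q, c, g, n) ↦ q c n g²` -/
lemma sum_fq (hJ : OKJ J) {Qs Gs Ns : Finset Eis} (hQ : ∀ q ∈ Qs, IsPrim q)
    (hG : ∀ g ∈ Gs, IsPrim g) {τ : ℝ} (hτ0 : 0 ≤ τ) (hτ : ∀ x ∈ J, (tau x.2 : ℝ) ≤ τ)
    (F : Eis × Eis → ℝ) (hF : ∀ x, 0 ≤ F x) :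
    ∑ q ∈ Qs, ∑ d ∈ J.image Prod.fst, ∑ c ∈ Cs, ∑ g ∈ Gs, ∑ n ∈ Ns,
      (if (d, fq q c g n) ∈ J then F (d, fq q c g n) else 0) ≤ 4 * τ ^ 2 * ∑ x ∈ J, F x := by
  set Om := Qs ×ˢ (J.image Prod.fst ×ˢ (Cs ×ˢ (Gs ×ˢ Ns))) with hOm
  set f : Eis × Eis × Eis × Eis × Eis → Eis × Eis :=
    fun z => (z.2.1, fq z.1 z.2.2.1 z.2.2.2.1 z.2.2.2.2) with hf
  have e1 : ∑ q ∈ Qs, ∑ d ∈ J.image Prod.fst, ∑ c ∈ Cs, ∑ g ∈ Gs, ∑ n ∈ Ns,
      (if (d, fq q c g n) ∈ J then F (d, fq q c g n) else 0) =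
      ∑ z ∈ Om.filter (fun z => f z ∈ J), F (f z) := by
    rw [Finset.sum_filter, hOm]
    simp only [Finset.sum_product, hf]
  have hmap : ∀ z ∈ Om.filter (fun z => f z ∈ J), f z ∈ J := fun z hz =>
    (Finset.mem_filter.mp hz).2
  rw [e1, ← Finset.sum_fiberwise_of_maps_to hmap, Finset.mul_sum]
  refine Finset.sum_le_sum fun x hx => ?_
  have hx0 : x.2 ≠ 0 := JC_ne (hJ.jc x hx)
  set A := (Om.filter (fun z => f z ∈ J)).filter (fun z => f z = x) with hA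
  have e2 : ∑ z ∈ A, F (f z) = (A.card : ℝ) * F x := by
    rw [Finset.sum_congr rfl (fun z hz => by rw [(Finset.mem_filter.mp hz).2]), Finset.sum_const,
      nsmul_eq_mul]
  rw [e2]
  refine mul_le_mul_of_nonneg_right ?_ (hF x)
  have hmemA : ∀ z ∈ A, IsPrim z.1 ∧ IsC z.2.2.1 ∧ IsPrim z.2.2.2.1 ∧ z.2.1 = x.1 ∧
      fq z.1 z.2.2.1 z.2.2.2.1 z.2.2.2.2 = x.2 := by
    intro z hz
    rw [hA, Finset.mem_filter, Finset.mem_filter, hOm, Finset.mem_product, Finset.mem_product,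
      Finset.mem_product, Finset.mem_product, mem_Cs] at hz
    obtain ⟨⟨⟨h1, h2, h3, h4, h5⟩, h6⟩, h7⟩ := hz
    exact ⟨hQ _ h1, h3, hG _ h4, congrArg Prod.fst h7, congrArg Prod.snd h7⟩
  have hcard : A.card ≤ (dvs x.2 ×ˢ (Cs ×ˢ dvs x.2)).card := by
    refine Finset.card_le_card_of_injOn (fun z => (z.1, z.2.2.1, z.2.2.2.1)) (fun z hz => ?_)
      (fun z hz z' hz' he => ?_)
    · obtain ⟨h1, h2, h3, h4, h5⟩ := hmemA z hz
      rw [Finset.coe_product, Finset.coe_product]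
      refine ⟨?_, mem_Cs.mpr h2, ?_⟩
      · refine (mem_dvs hx0).mpr ⟨h1, ?_⟩
        rw [← h5]
        exact ⟨z.2.2.1 * z.2.2.2.2 * z.2.2.2.1 ^ 2, by unfold fq; ring⟩
      · refine (mem_dvs hx0).mpr ⟨h3, ?_⟩
        rw [← h5]
        exact ⟨z.1 * z.2.2.1 * z.2.2.2.2 * z.2.2.2.1, by unfold fq; ring⟩
    · obtain ⟨h1, h2, h3, h4, h5⟩ := hmemA z hz
      obtain ⟨h1', h2', h3', h4', h5'⟩ := hmemA z' hz'
      obtain ⟨a, d, c, g, n⟩ := z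
      obtain ⟨a', d', c', g', n'⟩ := z'
      simp only [Prod.mk.injEq] at he h4 h5 h4' h5' h1 h2 h3
      obtain ⟨rfl, rfl, rfl⟩ := he
      have hn : n = n' := by
        have h6 : fq a c g n = fq a c g n' := h5.trans h5'.symm
        unfold fq at h6
        have h7 : (a * c * g ^ 2) * n = (a * c * g ^ 2) * n' := by linear_combination h6
        exact mul_left_cancel₀ (mul_ne_zero (mul_ne_zero h1.ne_zero h2.ne_zero)
          (pow_ne_zero 2 h3.ne_zero)) h7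
      rw [hn, h4, h4']
  have c1 : Cs.card ≤ 4 := by unfold Cs; exact Finset.card_le_four
  have c2 : ((dvs x.2).card : ℝ) ≤ τ := hτ x hx
  calc (A.card : ℝ) ≤ ((dvs x.2 ×ˢ (Cs ×ˢ dvs x.2)).card : ℝ) := by exact_mod_cast hcard
    _ = (dvs x.2).card * ((Cs.card : ℝ) * (dvs x.2).card) := by
        rw [Finset.card_product, Finset.card_product]; push_cast; ring
    _ ≤ τ * (4 * τ) := by
        have : (Cs.card : ℝ) ≤ 4 := by exact_mod_cast c1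
        gcongr
    _ = _ := by ring

/-- with explicit parameters -/
lemma gram_hb0 {ε C : ℝ} (hε : 0 ≤ ε) (hC0 : 0 ≤ C) (hC : ∀ M N : ℝ, 1 ≤ M → 1 ≤ N →
    HB M N (C * (M * N) ^ ε * (M + N + (M * N) ^ ((2 : ℝ) / 3)))) {K V B : ℝ} (hK : 1 ≤ K)
    (hV : 1 ≤ V) (hB : 1 ≤ B) (hJ : OKJ J)
    (hJV : ∀ x ∈ J, (nm x.2 : ℝ) * (nm x.1 : ℝ) ^ 2 ≤ V) {E0 : ℝ}
    (ht : IsPrim t)
    {b : Eis → ℂ} (hb : ∀ n, b n ≠ 0 → n ∈ primBall ⌊B⌋₊) {Mb : ℝ} (hMb0 : 0 ≤ Mb)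
    (hMb : ∀ s, IsPrim s → ∑ d ∈ primBall ⌊B⌋₊, ‖b (s * d)‖ ^ 2 ≤ Mb / nm s) {τ Z : ℝ}
    (hZ : K ^ 2 * nm t ≤ Z) (hZV : V * B ≤ Z)
    (hτ : ∀ u : Eis, u ≠ 0 → (nm u : ℝ) ≤ Z → (tau u : ℝ) ≤ τ) (hτ0 : 0 ≤ τ) :
    ∑ k ∈ (primBall ⌊K⌋₊).filter CbF, (nm k : ℝ) ^ ((1 : ℝ) / 3) *
      (‖SteT J om E0 T (k * t ^ 3)‖ ^ 2 * ‖CS b (k * t ^ 3)‖ ^ 2) ≤
      (100 * (1 + Real.log V)) * (4 * τ ^ 2) * (WW C ε τ K V B * (3 * Mb)) * (4 * τ ^ 2) *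
        ∑ x ∈ J, (nm x.1 : ℝ) * Qd K V B (nm x.1) * ((nm x.2 : ℝ) ^ (-(1 : ℝ) / 3) *
          (‖om x‖ ^ 2 * ∑ e ∈ S E0, ‖T x.1 e x.2‖ ^ 2)) := by
  have hV0 : 0 ≤ V := by linarith
  have hB0 : 0 ≤ B := by linarith
  have hK0 : 0 ≤ K := by linarith
  have hlogV := Real.log_nonneg hV
  have hlogB := Real.log_nonneg hB
  have hVB1 : 1 ≤ V * B := by nlinarith
  have hlogVB := Real.log_nonneg hVB1
  have nt : (1 : ℝ) ≤ nm t := nm_ge_one ht.ne_zero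
  have hWW0 : 0 ≤ WW C ε τ K V B := by unfold WW; positivity
  have hR : ∀ x ∈ J, (nm x.2 : ℝ) ≤ V := fun x hx => by
    have h1 := hJV x hx
    have h2 : (1 : ℝ) ≤ nm x.1 := nm_ge_one (hJ.prim x hx).ne_zero
    have h3 : (0 : ℝ) ≤ nm x.2 := Nat.cast_nonneg _
    have h4 : (1 : ℝ) ≤ (nm x.1 : ℝ) ^ 2 := one_le_pow₀ h2
    nlinarith
  have hD : ∀ x ∈ J, (nm x.1 : ℝ) ≤ V := fun x hx => by
    have h1 := hJV x hx
    have h2 : (1 : ℝ) ≤ nm x.1 := nm_ge_one (hJ.prim x hx).ne_zero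
    have h3 : (1 : ℝ) ≤ nm x.2 := nm_ge_one (JC_ne (hJ.jc x hx))
    nlinarith
  set L : ℝ := (100 * (1 + Real.log V)) * (4 * τ ^ 2) with hL
  have hL0 : 0 ≤ L := by positivity
  set G : Eis → ℝ := fun k => (nm k : ℝ) ^ ((1 : ℝ) / 3) *
      (‖SteT J om E0 T (k * t ^ 3)‖ ^ 2 * ‖CS b (k * t ^ 3)‖ ^ 2) with hG
  have hG0 : ∀ k, 0 ≤ G k := fun k => by rw [hG]; positivity
  -- step 1
  have s1 : ∑ k ∈ (primBall ⌊K⌋₊).filter CbF, G k ≤ ∑ q ∈ S K,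
      ∑ k₁ ∈ (S (K / (nm q : ℝ) ^ 2)).filter (fun k => IsCoprime k q), G (k₁ * q ^ 2) :=
    sum_CbF hK G hG0
  -- step 2
  have s2 : ∀ q ∈ S K, ∑ k₁ ∈ (S (K / (nm q : ℝ) ^ 2)).filter (fun k => IsCoprime k q),
      G (k₁ * q ^ 2) ≤ L * ∑ y ∈ Ys J E0 V, (nm y.1 : ℝ) *
        (WW C ε τ K V B * (3 * Mb) * Qd K V B (nm y.1) * ∑ n ∈ S V, hn J om T q y n) := by
    intro q hq
    obtain ⟨hq1, hqp, hqs⟩ := (mem_S hK0).1 hq
    have nq : (1 : ℝ) ≤ nm q := nm_ge_one hqp.ne_zero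
    have hKq : 0 ≤ K / (nm q : ℝ) ^ 2 := by positivity
    have p1 : ∀ k₁ ∈ (S (K / (nm q : ℝ) ^ 2)).filter (fun k => IsCoprime k q),
        G (k₁ * q ^ 2) ≤ L * ∑ y ∈ (Ys J E0 V).filter (fun y => y.2.2.2 ∣ k₁), (nm y.1 : ℝ) *
          ((nm (k₁ * q ^ 2) : ℝ) ^ ((1 : ℝ) / 3) *
        (‖Fy J om T q t k₁ y‖ ^ 2 * ‖CS b (k₁ * q ^ 2 * t ^ 3)‖ ^ 2)) := by
      intro k₁ hk
      rw [Finset.mem_filter, mem_S hKq] at hk
      obtain ⟨⟨k1, k2, k3⟩, k4⟩ := hk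
      have nk : (1 : ℝ) ≤ nm k₁ := nm_ge_one k2.ne_zero
      have k1' : (nm k₁ : ℝ) * (nm q : ℝ) ^ 2 ≤ K := by
        rwa [le_div_iff₀ (by positivity)] at k1
      have kK : (nm k₁ : ℝ) ≤ K := by nlinarith [one_le_pow₀ nq (n := 2)]
      have z1 : (nm k₁ : ℝ) ≤ Z := by
        refine le_trans ?_ hZ
        calc (nm k₁ : ℝ) ≤ K := kK
          _ ≤ K ^ 2 := by nlinarith
          _ ≤ K ^ 2 * nm t := by nlinarith [sq_nonneg K]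
      have z2 : (nm (k₁ * q * t) : ℝ) ≤ Z := by
        refine le_trans ?_ hZ
        rw [nm_mul, nm_mul]
        push_cast
        refine mul_le_mul_of_nonneg_right ?_ (by positivity)
        rw [pow_two]
        exact mul_le_mul kK hq1 (by positivity) hK0
      have hc := pt_cauchy (om := om) (T := T) (q := q) (t := t) hJ hV hR hD E0 k2 k3 hqp hqs k4
        ht hτ0 (hτ _ k2.ne_zero z1) (hτ _ ((k2.mul hqp).mul ht).ne_zero z2)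
      rw [hG]
      simp only
      calc (nm (k₁ * q ^ 2) : ℝ) ^ ((1 : ℝ) / 3) * (‖SteT J om E0 T (k₁ * q ^ 2 * t ^ 3)‖ ^ 2 *
            ‖CS b (k₁ * q ^ 2 * t ^ 3)‖ ^ 2)
          ≤ (nm (k₁ * q ^ 2) : ℝ) ^ ((1 : ℝ) / 3) * ((L *
            ∑ y ∈ (Ys J E0 V).filter (fun y => y.2.2.2 ∣ k₁), (nm y.1 : ℝ) *
              ‖Fy J om T q t k₁ y‖ ^ 2) * ‖CS b (k₁ * q ^ 2 * t ^ 3)‖ ^ 2) := by gcongr
        _ = L * ((∑ y ∈ (Ys J E0 V).filter (fun y => y.2.2.2 ∣ k₁), (nm y.1 : ℝ) *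
              ‖Fy J om T q t k₁ y‖ ^ 2) * ((nm (k₁ * q ^ 2) : ℝ) ^ ((1 : ℝ) / 3) *
                ‖CS b (k₁ * q ^ 2 * t ^ 3)‖ ^ 2)) := by ring
        _ = _ := by
            rw [Finset.sum_mul]
            congr 1
            refine Finset.sum_congr rfl fun y _ => ?_
            ring
    refine (Finset.sum_le_sum p1).trans ?_
    rw [← Finset.mul_sum]
    refine mul_le_mul_of_nonneg_left ?_ hL0
    calc ∑ k₁ ∈ (S (K / (nm q : ℝ) ^ 2)).filter (fun k => IsCoprime k q),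
          ∑ y ∈ (Ys J E0 V).filter (fun y => y.2.2.2 ∣ k₁), (nm y.1 : ℝ) *
          ((nm (k₁ * q ^ 2) : ℝ) ^ ((1 : ℝ) / 3) *
        (‖Fy J om T q t k₁ y‖ ^ 2 * ‖CS b (k₁ * q ^ 2 * t ^ 3)‖ ^ 2))
        ≤ ∑ k₁ ∈ S (K / (nm q : ℝ) ^ 2),
          ∑ y ∈ (Ys J E0 V).filter (fun y => y.2.2.2 ∣ k₁), (nm y.1 : ℝ) *
          ((nm (k₁ * q ^ 2) : ℝ) ^ ((1 : ℝ) / 3) *
        (‖Fy J om T q t k₁ y‖ ^ 2 * ‖CS b (k₁ * q ^ 2 * t ^ 3)‖ ^ 2)) :=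
          Finset.sum_le_sum_of_subset_of_nonneg (Finset.filter_subset _ _)
            fun _ _ _ => Finset.sum_nonneg fun _ _ => by positivity
      _ = ∑ y ∈ Ys J E0 V, ∑ k₁ ∈ (S (K / (nm q : ℝ) ^ 2)).filter (fun k => y.2.2.2 ∣ k),
          (nm y.1 : ℝ) * ((nm (k₁ * q ^ 2) : ℝ) ^ ((1 : ℝ) / 3) *
        (‖Fy J om T q t k₁ y‖ ^ 2 * ‖CS b (k₁ * q ^ 2 * t ^ 3)‖ ^ 2)) := by
          refine Finset.sum_comm' fun k₁ y => ?_
          simp only [Finset.mem_filter]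
          tauto
      _ ≤ _ := by
          refine Finset.sum_le_sum fun y hy => ?_
          rw [← Finset.mul_sum]
          refine mul_le_mul_of_nonneg_left ?_ (by positivity)
          refine one_y hε hC0 hC hK hV hB hJ hJV hqp ht hy hb hMb0 hMb (fun u hu => ?_) hτ0
          obtain ⟨u1, u2⟩ := mem_primBall.mp hu
          exact hτ u u2.ne_zero (((Nat.le_floor_iff (by positivity)).mp u1).trans hZV)
  refine s1.trans ((Finset.sum_le_sum s2).trans ?_)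
  -- step 3
  set Ph : Eis → Eis × Eis → ℝ := fun e x => (nm x.1 : ℝ) * Qd K V B (nm x.1) *
    ((nm x.2 : ℝ) ^ (-(1 : ℝ) / 3) * (‖om x‖ ^ 2 * ‖T x.1 e x.2‖ ^ 2)) with hPh
  have hPh0 : ∀ e x, 0 ≤ Ph e x := fun e x => by
    rw [hPh]
    have := Qd_nonneg hK0 hV0 hB0 (Nat.cast_nonneg (nm x.1) : (0 : ℝ) ≤ _)
    positivity
  have e3 : ∀ q, ∑ y ∈ Ys J E0 V, (nm y.1 : ℝ) *
        (WW C ε τ K V B * (3 * Mb) * Qd K V B (nm y.1) * ∑ n ∈ S V, hn J om T q y n) =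
      (WW C ε τ K V B * (3 * Mb)) * ∑ e ∈ S E0, ∑ d ∈ J.image Prod.fst, ∑ c ∈ Cs, ∑ g ∈ S V,
        ∑ n ∈ S V, (if (d, fq q c g n) ∈ J then Ph e (d, fq q c g n) else 0) := by
    intro q
    unfold Ys
    simp only [Finset.sum_product]
    rw [Finset.sum_comm, Finset.mul_sum]
    refine Finset.sum_congr rfl fun e _ => ?_
    rw [Finset.mul_sum]
    refine Finset.sum_congr rfl fun d _ => ?_
    rw [Finset.mul_sum]
    refine Finset.sum_congr rfl fun c _ => ?_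
    rw [Finset.mul_sum]
    refine Finset.sum_congr rfl fun g _ => ?_
    rw [Finset.mul_sum, Finset.mul_sum, Finset.mul_sum]
    refine Finset.sum_congr rfl fun n _ => ?_
    unfold hn
    simp only [hPh]
    split_ifs <;> ring
  simp only [e3]
  have e4 : ∑ q ∈ S K, L * ((WW C ε τ K V B * (3 * Mb)) * ∑ e ∈ S E0, ∑ d ∈ J.image Prod.fst,
      ∑ c ∈ Cs, ∑ g ∈ S V, ∑ n ∈ S V,
        (if (d, fq q c g n) ∈ J then Ph e (d, fq q c g n) else 0)) =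
      L * (WW C ε τ K V B * (3 * Mb)) * ∑ e ∈ S E0, ∑ q ∈ S K, ∑ d ∈ J.image Prod.fst,
      ∑ c ∈ Cs, ∑ g ∈ S V, ∑ n ∈ S V,
        (if (d, fq q c g n) ∈ J then Ph e (d, fq q c g n) else 0) := by
    rw [← Finset.mul_sum, ← Finset.mul_sum, Finset.sum_comm]
    ring
  rw [e4, mul_assoc (L * (WW C ε τ K V B * (3 * Mb)))]
  refine mul_le_mul_of_nonneg_left ?_ (by positivity)
  calc ∑ e ∈ S E0, ∑ q ∈ S K, ∑ d ∈ J.image Prod.fst,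
      ∑ c ∈ Cs, ∑ g ∈ S V, ∑ n ∈ S V,
        (if (d, fq q c g n) ∈ J then Ph e (d, fq q c g n) else 0)
      ≤ ∑ e ∈ S E0, 4 * τ ^ 2 * ∑ x ∈ J, Ph e x := by
        refine Finset.sum_le_sum fun e _ => ?_
        refine sum_fq hJ (fun q hq => ((mem_S hK0).1 hq).2.1)
          (fun g hg => ((mem_S hV0).1 hg).2.1) hτ0 (fun x hx => ?_) (Ph e) (hPh0 e)
        refine hτ _ (JC_ne (hJ.jc x hx)) ((hR x hx).trans ?_)
        exact le_trans (by nlinarith) hZV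
    _ = _ := by
        rw [← Finset.mul_sum, Finset.sum_comm]
        congr 1
        refine Finset.sum_congr rfl fun x _ => ?_
        simp only [hPh]
        rw [Finset.mul_sum, Finset.mul_sum, Finset.mul_sum]

lemma final_alg {C1 C2 P6 Y LX Mb Sx W lv : ℝ} (h1 : 0 ≤ C1) (h2 : 0 ≤ C2) (h3 : 0 ≤ P6)
    (h4 : 0 ≤ Y) (h5 : 0 ≤ LX) (h6 : 0 ≤ Mb) (h7 : 0 ≤ Sx) (h8 : 0 ≤ W)
    (a1 : lv ≤ LX) (b1 : W ≤ LX ^ 4 * (LX * (C1 * Y ^ 3) * (C2 * Y ^ 3) ^ 2))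
    (b2 : LX ^ 6 ≤ 64 * (P6 * Y)) :
    lv * (4 * (C2 * Y ^ 3) ^ 2) * (W * (3 * Mb)) * (4 * (C2 * Y ^ 3) ^ 2) * Sx ≤
      48 * C1 * (64 * P6) * C2 ^ 6 * Y ^ 22 * (Mb * Sx) := by
  calc lv * (4 * (C2 * Y ^ 3) ^ 2) * (W * (3 * Mb)) * (4 * (C2 * Y ^ 3) ^ 2) * Sx
      ≤ LX * (4 * (C2 * Y ^ 3) ^ 2) * ((LX ^ 4 * (LX * (C1 * Y ^ 3) * (C2 * Y ^ 3) ^ 2)) *
          (3 * Mb)) * (4 * (C2 * Y ^ 3) ^ 2) * Sx := by gcongr
    _ = 48 * C1 * C2 ^ 6 * Y ^ 21 * (LX ^ 6) * (Mb * Sx) := by ring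
    _ ≤ 48 * C1 * C2 ^ 6 * Y ^ 21 * (64 * (P6 * Y)) * (Mb * Sx) := by gcongr
    _ = 48 * C1 * (64 * P6) * C2 ^ 6 * Y ^ 22 * (Mb * Sx) := by ring

/-- **the Gram sum of the structured function with a natural factor, by the large sieve** -/
theorem gram_hb {ε : ℝ} (hε : 0 < ε) : ∃ C : ℝ, 0 < C ∧ ∀ X K V B Mb : ℝ,
    1 ≤ K → 1 ≤ V → 1 ≤ B → K ≤ X → V ≤ X → B ≤ X → 0 ≤ Mb →
    ∀ (J : Finset (Eis × Eis)) (om : Eis × Eis → ℂ) (T : Eis → Eis → Eis → ℂ) (E0 : ℝ) (t : Eis)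
      (b : Eis → ℂ), OKJ J → (∀ x ∈ J, (nm x.2 : ℝ) * (nm x.1 : ℝ) ^ 2 ≤ V) → IsPrim t →
      (nm t : ℝ) ≤ X → (∀ n, b n ≠ 0 → n ∈ primBall ⌊B⌋₊) →
      (∀ s, IsPrim s → ∑ d ∈ primBall ⌊B⌋₊, ‖b (s * d)‖ ^ 2 ≤ Mb / nm s) →
    ∑ k ∈ (primBall ⌊K⌋₊).filter CbF, (nm k : ℝ) ^ ((1 : ℝ) / 3) *
      (‖SteT J om E0 T (k * t ^ 3)‖ ^ 2 * ‖CS b (k * t ^ 3)‖ ^ 2) ≤
      C * X ^ ε * (Mb * ∑ x ∈ J, (nm x.1 : ℝ) * Qd K V B (nm x.1) *
        ((nm x.2 : ℝ) ^ (-(1 : ℝ) / 3) * (‖om x‖ ^ 2 * ∑ e ∈ S E0, ‖T x.1 e x.2‖ ^ 2))) := by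
  set η : ℝ := ε / 22 with hη
  have hη0 : 0 < η := by positivity
  obtain ⟨C1, hC1, hHB⟩ := LS2.hb_final η hη0
  obtain ⟨C2, hC2, hτ⟩ := tau_le_rpow hη0
  have hC20 : 0 < C2 := by linarith
  set P6 : ℝ := (100 * (1 + ((6 : ℕ) : ℝ) / η)) ^ 6 with hP6
  have hP60 : 0 < P6 := by positivity
  refine ⟨48 * C1 * (64 * P6) * C2 ^ 6, by positivity, ?_⟩
  intro X K V B Mb hK hV hB hKX hVX hBX hMb0 J om T E0 t b hJ hJV ht htX hb hMb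
  have hX : 1 ≤ X := hK.trans hKX
  have hX0 : 0 < X := by linarith
  have nt0 : (0 : ℝ) ≤ nm t := Nat.cast_nonneg _
  have hZ : K ^ 2 * nm t ≤ X ^ 3 := by
    calc K ^ 2 * nm t ≤ X ^ 2 * X := mul_le_mul (pow_le_pow_left₀ (by linarith) hKX 2) htX nt0
          (by positivity)
      _ = X ^ 3 := by ring
  have hVB : V * B ≤ X ^ 2 := by
    rw [pow_two]
    exact mul_le_mul hVX hBX (by linarith) hX0.le
  have hZV : V * B ≤ X ^ 3 := hVB.trans (pow_le_pow_right₀ hX (by norm_num))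
  set Y : ℝ := X ^ η with hY
  have hY0 : 0 < Y := by positivity
  have hY3 : (X ^ 3) ^ η = Y ^ 3 := by
    rw [hY, ← Real.rpow_natCast X 3, ← Real.rpow_mul hX0.le, ← Real.rpow_natCast (X ^ η) 3,
      ← Real.rpow_mul hX0.le]
    congr 1
    ring
  set τ : ℝ := C2 * Y ^ 3 with hτd
  have hτ0 : 0 ≤ τ := by positivity
  have hτ' : ∀ u : Eis, u ≠ 0 → (nm u : ℝ) ≤ X ^ 3 → (tau u : ℝ) ≤ τ := by
    intro u hu huX
    refine (hτ u hu).trans ?_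
    rw [hτd, ← hY3]
    exact mul_le_mul_of_nonneg_left (Real.rpow_le_rpow (Nat.cast_nonneg _) huX hη0.le) hC20.le
  refine (gram_hb0 (om := om) (T := T) (E0 := E0) hη0.le hC1.le hHB hK hV hB hJ hJV ht hb hMb0 hMb
    hZ hZV hτ' hτ0).trans ?_
  set Sx : ℝ := ∑ x ∈ J, (nm x.1 : ℝ) * Qd K V B (nm x.1) *
        ((nm x.2 : ℝ) ^ (-(1 : ℝ) / 3) * (‖om x‖ ^ 2 * ∑ e ∈ S E0, ‖T x.1 e x.2‖ ^ 2)) with hSx
  have hSx0 : 0 ≤ Sx := Finset.sum_nonneg fun x _ => by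
    have := Qd_nonneg (by linarith : 0 ≤ K) (by linarith : 0 ≤ V) (by linarith : 0 ≤ B)
      (Nat.cast_nonneg (nm x.1) : (0 : ℝ) ≤ _)
    have h2 : 0 ≤ ∑ e ∈ S E0, ‖T x.1 e x.2‖ ^ 2 := Finset.sum_nonneg fun _ _ => by positivity
    positivity
  set LX : ℝ := 200 * (1 + Real.log X) with hLX
  have lX := Real.log_nonneg hX
  have lV := Real.log_nonneg hV
  have lB := Real.log_nonneg hB
  have lVB : 0 ≤ Real.log (V * B) := Real.log_nonneg (by nlinarith)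
  have l1 : Real.log V ≤ Real.log X := Real.log_le_log (by linarith) hVX
  have l2 : Real.log B ≤ Real.log X := Real.log_le_log (by linarith) hBX
  have l3 : Real.log (V * B) ≤ 2 * Real.log X := by
    rw [Real.log_mul (by linarith) (by linarith)]; linarith
  have a1 : 100 * (1 + Real.log V) ≤ LX := by rw [hLX]; linarith
  have a2 : 100 * (1 + Real.log B) ≤ LX := by rw [hLX]; linarith
  have a3 : 100 * (1 + Real.log (V * B)) ≤ LX := by rw [hLX]; linarith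
  have a4 : (K * (V * B)) ^ η ≤ Y ^ 3 := by
    rw [← hY3]
    refine Real.rpow_le_rpow (by positivity) ?_ hη0.le
    calc K * (V * B) ≤ X * X ^ 2 := mul_le_mul hKX hVB (by positivity) hX0.le
      _ = X ^ 3 := by ring
  have hLX0 : 0 ≤ LX := by positivity
  have b1 : WW C1 η τ K V B ≤ LX ^ 4 * (LX * (C1 * Y ^ 3) * τ ^ 2) := by
    unfold WW
    gcongr
  have b2 : LX ^ 6 ≤ 64 * (P6 * Y) := by
    have h1 := poly_log_le 6 hX hη0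
    calc LX ^ 6 = 64 * (100 * (1 + Real.log X)) ^ 6 := by rw [hLX]; ring
      _ ≤ 64 * (P6 * Y) := mul_le_mul_of_nonneg_left h1 (by norm_num)
  have b3 : X ^ ε = Y ^ 22 := by
    rw [hY, ← Real.rpow_natCast (X ^ η) 22, ← Real.rpow_mul hX0.le]
    congr 1
    rw [hη]; push_cast; ring
  have hWW0 : 0 ≤ WW C1 η τ K V B := by unfold WW; positivity
  have hlv : 0 ≤ 100 * (1 + Real.log V) := by positivity
  rw [b3]
  exact final_alg hC1.le hC20.le hP60.le hY0.le hLX0 hMb0 hSx0 hWW0 a1 b1 b2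

/-- bounded coefficients: `Mb = 100 β² B` -/
lemma Mb_of_bdd {B : ℝ} (hB : 0 ≤ B) {b : Eis → ℂ} (hb : ∀ n, b n ≠ 0 → n ∈ primBall ⌊B⌋₊)
    {β : ℝ} (hβ : ∀ n, ‖b n‖ ≤ β) (s : Eis) (hs : IsPrim s) :
    ∑ d ∈ primBall ⌊B⌋₊, ‖b (s * d)‖ ^ 2 ≤ (100 * β ^ 2 * B) / nm s := by
  have ns := nmpos hs.ne_zero
  have hβ0 : 0 ≤ β := (norm_nonneg _).trans (hβ 0)
  have e1 : ∑ d ∈ primBall ⌊B⌋₊, ‖b (s * d)‖ ^ 2 ≤ ∑ d ∈ primBall (⌊B⌋₊ / nm s), β ^ 2 := by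
    calc ∑ d ∈ primBall ⌊B⌋₊, ‖b (s * d)‖ ^ 2 = ∑ d ∈ primBall (⌊B⌋₊ / nm s), ‖b (s * d)‖ ^ 2 := by
          symm
          refine Finset.sum_subset (Div277.primBall_mono (Nat.div_le_self _ _)) ?_
          intro d hd hdn
          by_contra hne
          apply hdn
          have h2 : b (s * d) ≠ 0 := by
            intro h0; apply hne; rw [h0]; simp
          have h3 := mem_primBall.mp (hb _ h2)
          rw [mem_primBall]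
          refine ⟨?_, (mem_primBall.mp hd).2⟩
          rw [Nat.le_div_iff_mul_le (nm_pos.mpr hs.ne_zero), mul_comm, ← nm_mul]
          exact h3.1
      _ ≤ _ := Finset.sum_le_sum fun d _ => pow_le_pow_left₀ (norm_nonneg _) (hβ _) 2
  refine e1.trans ?_
  rw [Finset.sum_const, nsmul_eq_mul]
  have h1 : ((primBall (⌊B⌋₊ / nm s)).card : ℝ) ≤ 100 * (B / nm s) := by
    calc ((primBall (⌊B⌋₊ / nm s)).card : ℝ) ≤ ((Div277.nz (⌊B⌋₊ / nm s)).card : ℝ) := by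
          exact_mod_cast Finset.card_le_card (Div277.primBall_subset_nz _)
      _ ≤ 100 * ((⌊B⌋₊ / nm s : ℕ) : ℝ) := Div277.card_nz_le _
      _ ≤ 100 * (B / nm s) := by
          refine mul_le_mul_of_nonneg_left ?_ (by norm_num)
          calc ((⌊B⌋₊ / nm s : ℕ) : ℝ) ≤ (⌊B⌋₊ : ℝ) / nm s := Nat.cast_div_le
            _ ≤ B / nm s := div_le_div_of_nonneg_right (Nat.floor_le hB) ns.le
  calc ((primBall (⌊B⌋₊ / nm s)).card : ℝ) * β ^ 2 ≤ 100 * (B / nm s) * β ^ 2 :=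
        mul_le_mul_of_nonneg_right h1 (by positivity)
    _ = _ := by ring

end Crest.Agent.R017.GHB842
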