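import Crest.Agent.R017.I1j_146
import Crest.Agent.R017.GHB4_842

/-!
# Row 17, R8 (helper968): the side with the structured function by the large sieve, natural lists

* `tmom_core` : a weighted second moment of `TE` over the classes of one level, abstract sequence
* `jb_raw`, `tmom_raw` : the same for natural lists, raw form (one condition for every child)
* `gram_raw` : 842's `gram_hb` at a natural list, one real condition for every child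
* `gram_raw1` : the same without amplifier factor
* `Qd_le` , `raw_of` : the condition in exponent form
-/

set_option autoImplicit false

noncomputable section

open Finset MeasureTheory
open scoped ComplexConjugate Classical

namespace Crest.Agent.R017.TM968

open Crest.Agent.R012 Crest.Agent.R012.Eis
open Crest.Agent.R012.LS2 (S mem_S)
open Crest.Agent.R017.CM106 (CS FS TG)
open Crest.Agent.R017.C70
open Crest.Agent.R017.HP842 (Pc pc sqc alL)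
open Crest.Agent.R017.B770
open Crest.Agent.R017.FE47 (PU cx)
open Crest.Agent.R017.Prov71
open Crest.Agent.R017.Leg381 (Pf alF SF LF natl alF_natl cstF ChG sub_list)
open Crest.Agent.R017.E1551
open Crest.Agent.R017.E2440 (TE StE)
open Crest.Agent.R017.I1146
open Crest.Agent.R017.GHB842 (Qd Qd_nonneg gram_hb)
open Crest.Agent.R017.E3A164 (SteT)

/-- the classes of level `≤ V` are in the window -/
lemma sub_JW {J : Finset (Eis × Eis)} (hJ : OKJ J) {V : ℝ}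
    (hV : ∀ x ∈ J, (nm (x.2 * x.1 ^ 2) : ℝ) ≤ V) : J ⊆ JW V 0 V := by
  intro x hx
  have hp := hJ.prim x hx
  have hj := hJ.jc x hx
  have hj0 : x.2 ≠ 0 := (E5b54.JC_cf hj).1
  have h1 : (1 : ℝ) ≤ nm x.1 := nm_ge_one hp.ne_zero
  have h2 : (1 : ℝ) ≤ nm x.2 := nm_ge_one hj0
  have h3 := hV x hx
  have h4 : (nm (x.2 * x.1 ^ 2) : ℝ) = nm x.2 * (nm x.1 : ℝ) ^ 2 := by
    rw [nm_mul, nm_pow]; push_cast; ring
  have h7 : (nm x.1 : ℝ) ≤ (nm x.1 : ℝ) ^ 2 := by nlinarith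
  have h8 : (nm x.1 : ℝ) ^ 2 ≤ nm x.2 * (nm x.1 : ℝ) ^ 2 :=
    le_mul_of_one_le_left (by positivity) h2
  have h9 : (nm x.2 : ℝ) ≤ nm x.2 * (nm x.1 : ℝ) ^ 2 :=
    le_mul_of_one_le_right (by linarith) (one_le_pow₀ h1)
  rw [h4] at h3
  unfold JW
  rw [Finset.mem_filter, Finset.mem_product, mem_primBall, mem_ball]
  refine ⟨⟨⟨Nat.le_floor (by linarith), hp⟩, Nat.le_floor (by linarith)⟩, hJ.sqf x hx, hj, ?_, ?_⟩
  · rw [h4]; linarith
  · rw [h4]; exact h3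

lemma LN_nonneg' {ps : List Pq} {L : ℝ} (hz : ∀ p ∈ ps, 0 ≤ p.z ∧ p.z ≤ L) : 0 ≤ LN ps := by
  unfold LN
  refine List.sum_nonneg fun x hx => ?_
  obtain ⟨p, hp, rfl⟩ := List.mem_map.1 hx
  exact (hz p hp).1

lemma LN_le' {ps : List Pq} {L : ℝ} (hL : 0 ≤ L) {N : ℕ} (hN : ps.length ≤ N)
    (hz : ∀ p ∈ ps, 0 ≤ p.z ∧ p.z ≤ L) : LN ps ≤ N * L := by
  unfold LN
  have h1 := List.sum_le_card_nsmul (ps.map fun p => p.z) L (by
    intro x hx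
    obtain ⟨p, hp, rfl⟩ := List.mem_map.1 hx
    exact (hz p hp).2)
  rw [List.length_map, nsmul_eq_mul] at h1
  exact h1.trans (mul_le_mul_of_nonneg_right (by exact_mod_cast hN) hL)

set_option maxHeartbeats 1000000 in
/-- **the T-moment of one level, abstract sequence** -/
theorem tmom_core {ε J₀ c₀ R a₁ : ℝ} (hε : 0 < ε) (hJ₀ : 0 ≤ J₀) (hc₀ : 1 ≤ c₀) (hR : 0 ≤ R)
    (ha₁ : 1 ≤ a₁) : ∃ C : ℝ, 0 ≤ C ∧ ∀ X : ℝ, 1 ≤ X → ∀ (Y n : ℝ) (α : Eis → ℂ), 1 ≤ Y →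
      Y ≤ X ^ a₁ → Adm Y (Real.exp n) R α → ∀ (V E0 G : ℝ) (w : ℝ → ℝ), 1 ≤ V → V ≤ X ^ a₁ →
      0 ≤ G → (∀ d, 1 ≤ d → 0 ≤ w d) →
      ∀ (J : Finset (Eis × Eis)) (om : Eis × Eis → ℂ), OKJ J →
      (∀ x ∈ J, (nm (x.2 * x.1 ^ 2) : ℝ) ≤ V) →
      (∀ x ∈ J, om x ≠ 0 → V ≤ c₀ * nm (x.2 * x.1 ^ 2)) → (∀ x, ‖om x‖ ≤ 1) →
      (∀ δ ∈ S Y, (nm δ : ℝ) ^ 2 ≤ V → ∀ B V' : ℝ, 1 ≤ B → B ≤ Y → 1 ≤ V' →
        V' ≤ V / (nm δ : ℝ) ^ 2 → V ≤ c₀ * (V' * (nm δ : ℝ) ^ 2) → ∀ t : ℝ,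
        w (nm δ) * (nm δ : ℝ) ^ 2 * JB Y α (fun _ => True) δ B V' t ≤ G * (1 + |t|) ^ J₀) →
      ∑ x ∈ J, w (nm x.1) * ((nm x.2 : ℝ) ^ (-(1 : ℝ) / 3) * (‖om x‖ ^ 2 *
        ∑ e ∈ S E0, ‖TE α x e‖ ^ 2)) ≤
        C * X ^ ε * G * Real.exp (-n / 3 - Real.log V / 3) := by
  have ha₁0 : 0 < a₁ := by linarith
  set ε' : ℝ := ε / a₁ with hε'
  have hε'0 : 0 < ε' := by positivity
  set A : ℕ := ⌈J₀⌉₊ + 2 with hA
  have hA2 : 2 ≤ A := by omega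
  have hJA : J₀ + 1 < A := by
    have h1 := Nat.le_ceil J₀
    rw [hA]
    push_cast
    linarith
  obtain ⟨C₂, hC₂, H₂⟩ := W_le_TJ R hR A hA2
  obtain ⟨C₃, hC₃, H₃⟩ := TJ_le (A := (A : ℝ)) (J := J₀) (ε := ε') hJA hJ₀ hε'0
  have hlc : 0 ≤ Real.log c₀ := Real.log_nonneg hc₀
  have hc₀0 : 0 < c₀ := by linarith
  refine ⟨C₂ * C₃ * c₀, by positivity, ?_⟩
  intro X hX1 Y n α hY1 hYX hadm V E0 G w hV1 hVX hG hw J om hJ hJV hJl hom H
  have hX0 : 0 < X := by linarith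
  have hV0 : 0 < V := by linarith
  have hY0 : 0 ≤ Y := by linarith
  set Pb : ℝ := X ^ a₁ with hPb
  have hPb1 : 1 ≤ Pb := Real.one_le_rpow hX1 ha₁0.le
  have hPe : Pb ^ ε' = X ^ ε := by
    rw [hPb, ← Real.rpow_mul hX0.le]
    congr 1
    rw [hε']
    field_simp
  -- the weights
  set cc : Eis × Eis → Eis → ℝ := fun x _ => if x ∈ J ∧ om x ≠ 0 then w (nm x.1) else 0 with hcc
  have hcc0 : ∀ x t, 0 ≤ cc x t := by
    intro x t
    rw [hcc]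
    simp only
    split_ifs with h1
    · exact hw _ (nm_ge_one (hJ.prim x h1.1).ne_zero)
    · exact le_rfl
  set cb : Eis → ℝ → ℝ → ℝ := fun δ _ V' =>
    if V ≤ c₀ * (V' * (nm δ : ℝ) ^ 2) ∧ (1 : ℝ) ≤ nm δ then w (nm δ) else 0 with hcb
  have hcb0 : ∀ δ B V', 0 ≤ cb δ B V' := by
    intro δ B V'
    rw [hcb]
    simp only
    split_ifs with h1
    · exact hw _ h1.2
    · exact le_rfl
  set M' : ℝ := G * (c₀ * Real.exp (2 * n / 3 - Real.log V / 3)) with hM'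
  have hM'0 : 0 ≤ M' := by positivity
  have hTJ := H₃ Pb 1 (Real.exp n) Y V 0 V M' α hPb1 one_pos (Real.exp_pos n) hY1 hYX hVX hM'0
    hadm.sup cc hcc0 cb hcb0
    (fun δ hδ t ht j hj B V' hB1 hB2 hV1' hV2' => by
      rw [hcc, hcb]
      simp only
      by_cases h1 : (δ, j) ∈ J ∧ om (δ, j) ≠ 0
      · rw [if_pos h1, if_pos]
        have h2 := hJl _ h1.1 h1.2
        have h3 : (nm ((δ, j).2 * (δ, j).1 ^ 2) : ℝ) = nm j * (nm δ : ℝ) ^ 2 := by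
          show ((nm (j * δ ^ 2) : ℕ) : ℝ) = _
          rw [nm_mul, nm_pow]; push_cast; ring
        rw [h3] at h2
        refine ⟨h2.trans ?_, nm_ge_one (hJ.prim _ h1.1).ne_zero⟩
        have h4 : (nm j : ℝ) * (nm δ : ℝ) ^ 2 ≤ V' * (nm δ : ℝ) ^ 2 :=
          mul_le_mul_of_nonneg_right hV1' (by positivity)
        exact mul_le_mul_of_nonneg_left h4 hc₀0.le
      · rw [if_neg h1]
        split_ifs with h2
        · exact hw _ h2.2
        · exact le_rfl)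
    (fun δ hδ B V' hB1 hB2 hV1' hV2' t => by
      have hδp : IsPrim δ := ((mem_S hY0).1 hδ).2.1
      have hδ1 : (1 : ℝ) ≤ nm δ := nm_ge_one hδp.ne_zero
      have hδ0 : (0 : ℝ) < nm δ := by linarith
      have hV'0 : 0 < V' := by linarith
      have hδV : (nm δ : ℝ) ^ 2 ≤ V := by
        have h1 := hV2'
        rw [le_div_iff₀ (by positivity)] at h1
        nlinarith [sq_nonneg (nm δ : ℝ)]
      have hyv : 0 < yv 1 (Real.exp n) δ V' := yv_pos one_pos (Real.exp_pos n) hV'0 hδp.ne_zero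
      have ht1 : 0 ≤ (1 + |t|) ^ J₀ := by positivity
      by_cases hc : V ≤ c₀ * (V' * (nm δ : ℝ) ^ 2) ∧ (1 : ℝ) ≤ nm δ
      swap
      · have e0 : cb δ B V' = 0 := by
          rw [hcb]
          exact if_neg hc
        rw [e0, zero_mul, zero_mul]
        positivity
      have e1 : cb δ B V' = w (nm δ) := by
        rw [hcb]
        exact if_pos hc
      rw [e1]
      set γ := Real.log (nm δ) with hγ
      -- the logarithm of the block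
      have hl2 : Real.log V - Real.log c₀ - 2 * γ ≤ Real.log V' := by
        have h1 := Real.log_le_log hV0 hc.1
        rw [Real.log_mul hc₀0.ne' (by positivity), Real.log_mul hV'0.ne' (by positivity),
          Real.log_pow] at h1
        push_cast at h1
        linarith
      have key := H δ hδ hδV B V' hB1 hB2 hV1' hV2' hc.1 t
      have e3 : (yv 1 (Real.exp n) δ V')⁻¹ ≤ c₀ * Real.exp (2 * n / 3 - Real.log V / 3) := by
        rw [yv_exp one_pos hV'0 n hδp.ne_zero, ← Real.exp_neg]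
        have e4 : c₀ * Real.exp (2 * n / 3 - Real.log V / 3) =
            Real.exp (Real.log c₀ + (2 * n / 3 - Real.log V / 3)) := by
          rw [Real.exp_add, Real.exp_log hc₀0]
        rw [e4, Real.log_one]
        refine Real.exp_le_exp.2 ?_
        linarith
      have hyi : 0 ≤ (yv 1 (Real.exp n) δ V')⁻¹ := (inv_pos.2 hyv).le
      calc w (nm δ) * (nm δ * (yv 1 (Real.exp n) δ V')⁻¹) * JB Y α (fun _ => True) δ B V' t
          = (w (nm δ) * (nm δ : ℝ) ^ 2 * JB Y α (fun _ => True) δ B V' t) *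
            ((yv 1 (Real.exp n) δ V')⁻¹ / nm δ) := by
            field_simp
        _ ≤ (G * (1 + |t|) ^ J₀) * ((c₀ * Real.exp (2 * n / 3 - Real.log V / 3)) / nm δ) := by
            refine mul_le_mul key ?_ (by positivity) (by positivity)
            exact div_le_div_of_nonneg_right e3 hδ0.le
        _ = _ := by
            rw [hM']
            ring)
  have hWJ := H₂ Y (Real.exp n) 1 hY0 (Real.exp_pos n) one_pos α hadm (JW V 0 V) (okJ_JW _ _ _)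
    cc hcc0
  rw [Real.one_rpow, one_mul] at hWJ
  have hn13 : ∀ j : Eis, 0 ≤ X6C180.n13 j := fun j => X6C180.n13_nonneg j
  have hfirst : ∑ x ∈ J, w (nm x.1) * ((nm x.2 : ℝ) ^ (-(1 : ℝ) / 3) * (‖om x‖ ^ 2 *
        ∑ e ∈ S E0, ‖TE α x e‖ ^ 2)) ≤
      ∑ x ∈ JW V 0 V, X6C180.n13 x.2 * ∑ t ∈ S Y, cc x t * ‖TE α x t‖ ^ 2 := by
    refine le_trans (Finset.sum_le_sum fun x hx => ?_)
      (Finset.sum_le_sum_of_subset_of_nonneg (sub_JW hJ hJV) fun x _ _ =>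
        mul_nonneg (hn13 _) (Finset.sum_nonneg fun t _ => mul_nonneg (hcc0 x t) (by positivity)))
    by_cases h0 : om x = 0
    · rw [h0, norm_zero]
      have h1 : 0 ≤ X6C180.n13 x.2 * ∑ t ∈ S Y, cc x t * ‖TE α x t‖ ^ 2 :=
        mul_nonneg (hn13 _) (Finset.sum_nonneg fun t _ => mul_nonneg (hcc0 x t) (by positivity))
      simpa using h1
    have hxp := hJ.prim x hx
    have hw0 : 0 ≤ w (nm x.1) := hw _ (nm_ge_one hxp.ne_zero)
    have e1 : ∑ t ∈ S Y, cc x t * ‖TE α x t‖ ^ 2 = w (nm x.1) * ∑ t ∈ S Y, ‖TE α x t‖ ^ 2 := by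
      rw [Finset.mul_sum]
      refine Finset.sum_congr rfl fun t _ => ?_
      rw [hcc]
      simp only
      rw [if_pos ⟨hx, h0⟩]
    have e2 : ∑ e ∈ S E0, ‖TE α x e‖ ^ 2 ≤ ∑ t ∈ S Y, ‖TE α x t‖ ^ 2 := by
      rw [← Finset.sum_filter_ne_zero]
      refine Finset.sum_le_sum_of_subset_of_nonneg (fun e he => ?_) fun _ _ _ => by positivity
      obtain ⟨he1, he2⟩ := Finset.mem_filter.1 he
      by_contra hne
      have hep : IsPrim e := by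
        unfold LS2.S at he1
        rw [Finset.mem_filter, mem_primBall] at he1
        exact he1.1.2
      apply he2
      rw [I1146.TE_zero hY0 hadm.sup hxp hep hne]
      simp
    have e3 : ‖om x‖ ^ 2 ≤ 1 := pow_le_one₀ (norm_nonneg _) (hom x)
    have hS0 : 0 ≤ ∑ e ∈ S E0, ‖TE α x e‖ ^ 2 := Finset.sum_nonneg fun _ _ => by positivity
    have e4 : (nm x.2 : ℝ) ^ (-(1 : ℝ) / 3) = X6C180.n13 x.2 := rfl
    rw [e1, e4]
    calc w (nm x.1) * (X6C180.n13 x.2 * (‖om x‖ ^ 2 * ∑ e ∈ S E0, ‖TE α x e‖ ^ 2))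
        ≤ w (nm x.1) * (X6C180.n13 x.2 * (1 * ∑ t ∈ S Y, ‖TE α x t‖ ^ 2)) := by
          refine mul_le_mul_of_nonneg_left ?_ hw0
          refine mul_le_mul_of_nonneg_left ?_ (hn13 _)
          exact mul_le_mul e3 e2 hS0 zero_le_one
      _ = _ := by ring
  refine hfirst.trans (hWJ.trans ?_)
  have h9 : C₂ * (1 / Real.exp n) * TJ cc A 1 (Real.exp n) Y (JW V 0 V) α ≤
      C₂ * (1 / Real.exp n) * (C₃ * Pb ^ ε' * M') :=
    mul_le_mul_of_nonneg_left hTJ (by positivity)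
  refine h9.trans (le_of_eq ?_)
  rw [hPe, hM']
  have e5 : 1 / Real.exp n * Real.exp (2 * n / 3 - Real.log V / 3) =
      Real.exp (-n / 3 - Real.log V / 3) := by
    rw [one_div, ← Real.exp_neg, ← Real.exp_add]
    congr 1
    ring
  rw [← e5]
  ring

/-- **the joint blocks of a dominated sequence** -/
theorem jb_raw {h : ℝ → ℝ} {c : ℝ} (hpu : PU h c) (N : ℕ) {R₁ : ℝ} (hR₁ : 0 ≤ R₁) {ε M c₀ ν Dd : ℝ}
    (hε : 0 < ε) (hM : 0 ≤ M) (hc₀ : 1 ≤ c₀) (hν : 1 ≤ ν) (hDd : 1 ≤ Dd) :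
    ∃ C r : ℝ, 1 ≤ C ∧ 0 ≤ r ∧ ∀ X : ℝ, 3 ≤ X → ∀ (P : DPar), P.OK → ∀ (q : Eis) (ps : List Pq),
      ps.length ≤ N → (∀ p ∈ ps, 0 ≤ p.z ∧ p.z ≤ Real.log X) →
      ∀ al : Eis → ℂ, Dom ν Dd (sqc q (alF 1 1 P h (natl ps))) al →
      ∀ (V F W : ℝ), 1 ≤ V → V ≤ X → 0 ≤ F → 0 ≤ W → ∀ g : Eis, IsPrim g → (nm g : ℝ) ^ 2 ≤ V →
      (nm g : ℝ) ≤ Real.exp (LN ps + N * R₁) →
      ∀ B V' t Y : ℝ, 1 ≤ B → B ≤ Real.exp (LN ps + N * R₁) → 1 ≤ V' →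
      V' ≤ V / (nm g : ℝ) ^ 2 → V ≤ c₀ * (V' * (nm g : ℝ) ^ 2) → 0 ≤ Y →
      (∀ (b l : ℝ) (ps' : List Pq), 0 ≤ b → 0 ≤ l →
        List.Forall₂ (ChN r) ps' ps → |LN ps' - (LN ps - Real.log (nm g) - b)| ≤ r →
        |l - (Real.log V - 2 * Real.log (nm g) + b)| ≤ r →
        W * SN (q * g) P h l ps' ≤ F * cN ps' ps ^ M) →
      W * JB Y al (fun _ => True) g B V' t ≤ C * X ^ ε * F * (1 + |t|) ^ ((N : ℝ) * M) := by
  have hN0 : (0 : ℝ) ≤ N := Nat.cast_nonneg _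
  have hNR : 0 ≤ (N : ℝ) * R₁ := by positivity
  set B₀ : ℝ := N + N * R₁ + 1 with hB₀
  have hB₀1 : 1 ≤ B₀ := by linarith
  have hB₀0 : 0 < B₀ := by linarith
  obtain ⟨C₁, r₁, hC₁, hr₁, H₁⟩ := numJ hpu N hB₀0.le hε hM
  have hlc : 0 ≤ Real.log c₀ := Real.log_nonneg hc₀
  have hlν : 0 ≤ Real.log ν := Real.log_nonneg hν
  have hc₀0 : 0 < c₀ := by linarith
  have hν0 : 0 < ν := by linarith
  have hνe : 1 ≤ ν ^ ε := Real.one_le_rpow hν hε.le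
  refine ⟨Dd * (C₁ * ν ^ ε * Real.exp r₁), 2 * r₁ + Real.log c₀ + Real.log ν, ?_, by positivity, ?_⟩
  · have h1 : 1 ≤ C₁ * ν ^ ε := one_le_mul_of_one_le_of_one_le hC₁ hνe
    have h2 : 1 ≤ C₁ * ν ^ ε * Real.exp r₁ :=
      one_le_mul_of_one_le_of_one_le h1 (Real.one_le_exp hr₁)
    exact one_le_mul_of_one_le_of_one_le hDd h2
  intro X hX P hP q ps hN hz al hdom V F W hV1 hVX hF hW g hg hgV hgY B V' t Y hB1 hBY hV1' hV2'
    hV3' hY0 H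
  have hX1 : (1 : ℝ) ≤ X := by linarith
  have hX0 : 0 < X := by linarith
  have hV0 : 0 < V := by linarith
  have hV'0 : 0 < V' := by linarith
  have hlX : 1 ≤ Real.log X := (Real.le_log_iff_exp_le hX0).2 (by
    linarith [Real.exp_one_lt_d9])
  set X₂ : ℝ := X * ν with hX₂
  have hXX₂ : X ≤ X₂ := le_mul_of_one_le_right hX0.le hν
  have hX₂0 : 0 < X₂ := by linarith
  have hlXX : Real.log X ≤ Real.log X₂ := Real.log_le_log hX0 hXX₂
  set n := LN ps with hn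
  have hnX : n ≤ N * Real.log X := LN_le' (by linarith) hN hz
  have hYX : Real.exp (n + N * R₁) ≤ X₂ ^ B₀ := by
    rw [Real.rpow_def_of_pos hX₂0]
    refine Real.exp_le_exp.2 ?_
    have h1 : (N : ℝ) * R₁ ≤ Real.log X * (N * R₁) := le_mul_of_one_le_left hNR hlX
    have h2 : Real.log X * B₀ ≤ Real.log X₂ * B₀ := mul_le_mul_of_nonneg_right hlXX hB₀0.le
    have h3 : Real.log X * B₀ = N * Real.log X + Real.log X * (N * R₁) + Real.log X := by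
      rw [hB₀]; ring
    linarith
  have hg1 : (1 : ℝ) ≤ nm g := nm_ge_one hg.ne_zero
  have hg0 : (0 : ℝ) < nm g := by linarith
  have ht1 : 0 ≤ (1 + |t|) ^ ((N : ℝ) * M) := by positivity
  rcases hW.eq_or_lt with h0 | hW0
  · rw [← h0, zero_mul]
    positivity
  set γ := Real.log (nm g) with hγ
  have hγ0 : 0 ≤ γ := Real.log_nonneg hg1
  have hl1 : Real.log V' ≤ Real.log V - 2 * γ := by
    have h1 := Real.log_le_log hV'0 hV2'
    rw [Real.log_div hV0.ne' (by positivity), Real.log_pow] at h1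
    push_cast at h1
    exact h1
  have hl2 : Real.log V - Real.log c₀ - 2 * γ ≤ Real.log V' := by
    have h1 := Real.log_le_log hV0 hV3'
    rw [Real.log_mul hc₀0.ne' (by positivity), Real.log_mul hV'0.ne' (by positivity),
      Real.log_pow] at h1
    push_cast at h1
    linarith
  have hlB : 0 ≤ Real.log B := Real.log_nonneg hB1
  have hV'V : V' ≤ V := hV2'.trans (div_le_self hV0.le (one_le_pow₀ hg1))
  have hVν : V' * ν ≤ X₂ := mul_le_mul_of_nonneg_right (hV'V.trans hVX) hν0.le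
  have hVν1 : 1 ≤ V' * ν := one_le_mul_of_one_le_of_one_le hV1' hν
  have hlVν : Real.log (V' * ν) = Real.log V' + Real.log ν := Real.log_mul hV'0.ne' hν0.ne'
  have key := H₁ X₂ (by linarith) P hP q ps hN
    (fun p hp => ⟨(hz p hp).1, (hz p hp).2.trans hlXX⟩) g hg (hgY.trans hYX) B (V' * ν) Y t
    (fun _ => True) hB1 (hBY.trans hYX) hVν1 hVν hY0 F (-Real.log W + r₁) hF (by
      intro l ps' hl hch h1 h2
      rw [hlVν] at h2
      have h1' := abs_le.1 h1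
      have h2' := abs_le.1 h2
      have h3 := H (Real.log B) l ps' hlB hl
        (hch.imp fun _ _ => ChN.mono (by linarith)) (h1.trans (by linarith)) (by
          rw [abs_le]
          constructor <;> linarith)
      have h4 : SN (q * g) P h l ps' ≤ F * cN ps' ps ^ M * W⁻¹ := by
        rw [← div_eq_mul_inv, le_div_iff₀ hW0, mul_comm]
        exact h3
      refine h4.trans ?_
      refine mul_le_mul_of_nonneg_left ?_
        (mul_nonneg hF (Real.rpow_nonneg (cN_nonneg _ _) _))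
      have h5 : W⁻¹ = Real.exp (-Real.log W) := by
        rw [Real.exp_neg, Real.exp_log hW0]
      rw [h5]
      refine Real.exp_le_exp.2 ?_
      linarith)
  have h6 := hdom.jb Y (fun _ => True) g B V' t hg hY0 hV1'
  have e2 : Real.exp (-Real.log W + r₁) = W⁻¹ * Real.exp r₁ := by
    rw [Real.exp_add, Real.exp_neg, Real.exp_log hW0]
  rw [e2, hX₂, Real.mul_rpow hX0.le hν0.le] at key
  calc W * JB Y al (fun _ => True) g B V' t
      ≤ W * (Dd * (C₁ * (X ^ ε * ν ^ ε) * F * (1 + |t|) ^ ((N : ℝ) * M) *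
        (W⁻¹ * Real.exp r₁))) := by
        refine mul_le_mul_of_nonneg_left (h6.trans ?_) hW
        exact mul_le_mul_of_nonneg_left key (by linarith)
    _ = (W * W⁻¹) * (Dd * (C₁ * ν ^ ε * Real.exp r₁) * X ^ ε * F *
        (1 + |t|) ^ ((N : ℝ) * M)) := by ring
    _ = _ := by rw [mul_inv_cancel₀ hW0.ne', one_mul]

/-- the window of a dominated sequence -/
lemma Adm_dom {h : ℝ → ℝ} {R₁ : ℝ} (hR₁ : 0 ≤ R₁) (hR : ∀ u, cx h u ≠ 0 → |u| ≤ R₁) {N : ℕ}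
    {P : DPar} {q : Eis} {ps : List Pq} (hN : ps.length ≤ N) {ν Dd : ℝ} {al : Eis → ℂ}
    (hdom : Dom ν Dd (sqc q (alF 1 1 P h (natl ps))) al) :
    Adm (Real.exp (LN ps + N * R₁)) (Real.exp (LN ps)) (2 * (N * R₁)) al := by
  have hadm₀ := Adm_list hR₁ hR P q hN (le_refl (Real.exp (LN ps + N * R₁)))
  have hne : ∀ m, al m ≠ 0 → sqc q (alF 1 1 P h (natl ps)) m ≠ 0 := fun m hm h0 =>
    hm (norm_le_zero_iff.1 (by
      have := hdom.le m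
      rw [h0, norm_zero] at this
      exact this))
  exact ⟨fun m hm => hadm₀.sup m (hne m hm), fun m hm => hadm₀.win m (hne m hm)⟩

/-- **the T-moment of one level, natural lists (dominated), raw form** -/
theorem tmom_raw {h : ℝ → ℝ} {c : ℝ} (hpu : PU h c) (N : ℕ) {R₁ : ℝ} (hR₁ : 0 ≤ R₁)
    (hR : ∀ u, cx h u ≠ 0 → |u| ≤ R₁) {ε M c₀ ν Dd : ℝ} (hε : 0 < ε) (hM : 0 ≤ M) (hc₀ : 1 ≤ c₀)
    (hν : 1 ≤ ν) (hDd : 1 ≤ Dd) :
    ∃ C r : ℝ, 1 ≤ C ∧ 0 ≤ r ∧ ∀ X : ℝ, 3 ≤ X → ∀ (P : DPar), P.OK → ∀ (q : Eis) (ps : List Pq),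
      ps.length ≤ N → (∀ p ∈ ps, 0 ≤ p.z ∧ p.z ≤ Real.log X) →
      ∀ al : Eis → ℂ, Dom ν Dd (sqc q (alF 1 1 P h (natl ps))) al →
      ∀ (V E0 F : ℝ) (w : ℝ → ℝ), 1 ≤ V → V ≤ X → 0 ≤ F → (∀ d, 1 ≤ d → 0 ≤ w d) →
      ∀ (J : Finset (Eis × Eis)) (om : Eis × Eis → ℂ), OKJ J →
      (∀ x ∈ J, (nm (x.2 * x.1 ^ 2) : ℝ) ≤ V) →
      (∀ x ∈ J, om x ≠ 0 → V ≤ c₀ * nm (x.2 * x.1 ^ 2)) → (∀ x, ‖om x‖ ≤ 1) →
      (∀ g : Eis, IsPrim g → (nm g : ℝ) ^ 2 ≤ V → ∀ (b l : ℝ) (ps' : List Pq), 0 ≤ b → 0 ≤ l →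
        List.Forall₂ (ChN r) ps' ps → |LN ps' - (LN ps - Real.log (nm g) - b)| ≤ r →
        |l - (Real.log V - 2 * Real.log (nm g) + b)| ≤ r →
        w (nm g) * (nm g : ℝ) ^ 2 * SN (q * g) P h l ps' ≤ F * cN ps' ps ^ M) →
      ∑ x ∈ J, w (nm x.1) * ((nm x.2 : ℝ) ^ (-(1 : ℝ) / 3) * (‖om x‖ ^ 2 *
        ∑ e ∈ S E0, ‖TE al x e‖ ^ 2)) ≤
        C * X ^ ε * F * Real.exp (-(LN ps) / 3 - Real.log V / 3) := by
  have hN0 : (0 : ℝ) ≤ N := Nat.cast_nonneg _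
  have hNR : 0 ≤ (N : ℝ) * R₁ := by positivity
  set B₀ : ℝ := N + N * R₁ + 1 with hB₀
  have hB₀1 : 1 ≤ B₀ := by linarith
  have hB₀0 : 0 < B₀ := by linarith
  obtain ⟨C₁, r, hC₁, hr, H₁⟩ := jb_raw hpu N hR₁ (ε := ε / 2) (by positivity) hM hc₀ hν hDd
  obtain ⟨C₂, hC₂, H₂⟩ := tmom_core (ε := ε / 2) (J₀ := (N : ℝ) * M) (c₀ := c₀)
    (R := 2 * (N * R₁)) (a₁ := B₀) (by positivity) (by positivity) hc₀ (by positivity) hB₀1
  refine ⟨C₂ * C₁ + 1, r, ?_, hr, ?_⟩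
  · have : 0 ≤ C₂ * C₁ := by positivity
    linarith
  intro X hX P hP q ps hN hz al hdom V E0 F w hV1 hVX hF hw J om hJ hJV hJl hom H
  have hX1 : (1 : ℝ) ≤ X := by linarith
  have hX0 : 0 < X := by linarith
  have hlX : 1 ≤ Real.log X := (Real.le_log_iff_exp_le hX0).2 (by
    linarith [Real.exp_one_lt_d9])
  have hn0 : 0 ≤ LN ps := LN_nonneg' hz
  have hnX : LN ps ≤ N * Real.log X := LN_le' (by linarith) hN hz
  have hYX : Real.exp (LN ps + N * R₁) ≤ X ^ B₀ := by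
    rw [Real.rpow_def_of_pos hX0]
    refine Real.exp_le_exp.2 ?_
    have h1 : (N : ℝ) * R₁ ≤ Real.log X * (N * R₁) := le_mul_of_one_le_left hNR hlX
    have h3 : Real.log X * B₀ = N * Real.log X + Real.log X * (N * R₁) + Real.log X := by
      rw [hB₀]; ring
    linarith
  have hY1 : 1 ≤ Real.exp (LN ps + N * R₁) := Real.one_le_exp (by positivity)
  have hVX' : V ≤ X ^ B₀ := by
    calc V ≤ X := hVX
      _ = X ^ (1 : ℝ) := (Real.rpow_one X).symm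
      _ ≤ _ := Real.rpow_le_rpow_of_exponent_le hX1 hB₀1
  have hXe : X ^ (ε / 2) * X ^ (ε / 2) = X ^ ε := by
    rw [← Real.rpow_add hX0]; congr 1; ring
  have hG0 : 0 ≤ C₁ * X ^ (ε / 2) * F := by positivity
  have key := H₂ X hX1 (Real.exp (LN ps + N * R₁)) (LN ps) al hY1 hYX
    (Adm_dom hR₁ hR hN hdom) V E0 (C₁ * X ^ (ε / 2) * F) w hV1 hVX' hG0 hw J om hJ hJV hJl hom
    (fun δ hδ hδV B V' hB1 hB2 hV1' hV2' hV3' t => by
      have hδ' := (mem_S (by linarith : (0 : ℝ) ≤ Real.exp (LN ps + N * R₁))).1 hδ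
      have hδ1 : (1 : ℝ) ≤ nm δ := nm_ge_one hδ'.2.1.ne_zero
      exact H₁ X hX P hP q ps hN hz al hdom V F (w (nm δ) * (nm δ : ℝ) ^ 2) hV1 hVX hF
        (mul_nonneg (hw _ hδ1) (by positivity)) δ hδ'.2.1 hδV hδ'.1 B V' t _ hB1 hB2 hV1' hV2'
        hV3' (by linarith) (H δ hδ'.2.1 hδV))
  refine key.trans ?_
  calc C₂ * X ^ (ε / 2) * (C₁ * X ^ (ε / 2) * F) * Real.exp (-(LN ps) / 3 - Real.log V / 3)
      = C₂ * C₁ * ((X ^ (ε / 2) * X ^ (ε / 2)) * F *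
        Real.exp (-(LN ps) / 3 - Real.log V / 3)) := by ring
    _ = C₂ * C₁ * (X ^ ε * F * Real.exp (-(LN ps) / 3 - Real.log V / 3)) := by rw [hXe]
    _ ≤ _ := by
        have h10 : 0 ≤ X ^ ε * F * Real.exp (-(LN ps) / 3 - Real.log V / 3) := by positivity
        nlinarith

/-! ### the Gram sum -/

lemma SteT_TE (J : Finset (Eis × Eis)) (om : Eis × Eis → ℂ) (E0 : ℝ) (α : Eis → ℂ) (k : Eis) :
    SteT J om E0 (fun d e j => TE α (d, j) e) k = StE E0 J om α k := by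
  unfold SteT E2440.StE
  rfl

/-- **the Gram sum of one level by the large sieve, abstract sequence** -/
theorem gram_core {ε J₀ c₀ R a₁ : ℝ} (hε : 0 < ε) (hJ₀ : 0 ≤ J₀) (hc₀ : 1 ≤ c₀) (hR : 0 ≤ R)
    (ha₁ : 1 ≤ a₁) : ∃ C : ℝ, 0 ≤ C ∧ ∀ X : ℝ, 1 ≤ X → ∀ (Y n : ℝ) (α : Eis → ℂ), 1 ≤ Y →
      Y ≤ X ^ a₁ → Adm Y (Real.exp n) R α → ∀ (K V B Mb E0 G : ℝ), 1 ≤ K → K ≤ X → 1 ≤ V →
      V ≤ X → 1 ≤ B → B ≤ X → 0 ≤ Mb → 0 ≤ G →
      ∀ (J : Finset (Eis × Eis)) (om : Eis × Eis → ℂ), OKJ J →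
      (∀ x ∈ J, (nm (x.2 * x.1 ^ 2) : ℝ) ≤ V) →
      (∀ x ∈ J, om x ≠ 0 → V ≤ c₀ * nm (x.2 * x.1 ^ 2)) → (∀ x, ‖om x‖ ≤ 1) →
      ∀ (t : Eis) (b : Eis → ℂ), IsPrim t → (nm t : ℝ) ≤ X →
      (∀ n, b n ≠ 0 → n ∈ primBall ⌊B⌋₊) →
      (∀ s, IsPrim s → ∑ d ∈ primBall ⌊B⌋₊, ‖b (s * d)‖ ^ 2 ≤ Mb / nm s) →
      (∀ δ ∈ S Y, (nm δ : ℝ) ^ 2 ≤ V → ∀ B' V' : ℝ, 1 ≤ B' → B' ≤ Y → 1 ≤ V' →
        V' ≤ V / (nm δ : ℝ) ^ 2 → V ≤ c₀ * (V' * (nm δ : ℝ) ^ 2) → ∀ t : ℝ,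
        (nm δ : ℝ) ^ 3 * Qd K V B (nm δ) * JB Y α (fun _ => True) δ B' V' t ≤
          G * (1 + |t|) ^ J₀) →
      ∑ k ∈ (primBall ⌊K⌋₊).filter CbF, (nm k : ℝ) ^ ((1 : ℝ) / 3) *
        (‖StE E0 J om α (k * t ^ 3)‖ ^ 2 * ‖CS b (k * t ^ 3)‖ ^ 2) ≤
        C * X ^ ε * (Mb * G * Real.exp (-n / 3 - Real.log V / 3)) := by
  obtain ⟨C₁, hC₁, H₁⟩ := tmom_core (ε := ε / 2) (J₀ := J₀) (c₀ := c₀) (R := R) (a₁ := a₁)
    (by positivity) hJ₀ hc₀ hR ha₁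
  obtain ⟨C₂, hC₂, H₂⟩ := gram_hb (ε := ε / 2) (by positivity)
  refine ⟨C₂ * C₁, by positivity, ?_⟩
  intro X hX1 Y n α hY1 hYX hadm K V B Mb E0 G hK hKX hV hVX hB hBX hMb hG J om hJ hJV hJl hom t b
    ht htX hb hMb' H
  have hX0 : 0 < X := by linarith
  have hVX' : V ≤ X ^ a₁ := by
    calc V ≤ X := hVX
      _ = X ^ (1 : ℝ) := (Real.rpow_one X).symm
      _ ≤ _ := Real.rpow_le_rpow_of_exponent_le hX1 ha₁
  have h1 := H₂ X K V B Mb hK hV hB hKX hVX hBX hMb J om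
    (fun d e j => TE α (d, j) e) E0 t b hJ
    (fun x hx => by
      have h2 := hJV x hx
      rw [nm_mul, nm_pow] at h2
      push_cast at h2
      exact h2) ht htX hb hMb'
  have h3 := H₁ X hX1 Y n α hY1 hYX hadm V E0 G (fun d => d * Qd K V B d) hV hVX' hG
    (fun d hd => mul_nonneg (by linarith)
      (Qd_nonneg (by linarith) (by linarith) (by linarith) (by linarith))) J om hJ hJV hJl hom
    (fun δ hδ hδV B' V' h4 h5 h6 h7 h8 t => by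
      refine le_of_eq_of_le ?_ (H δ hδ hδV B' V' h4 h5 h6 h7 h8 t)
      ring)
  simp only [SteT_TE] at h1
  refine h1.trans ?_
  have h6 : ∑ x ∈ J, (nm x.1 : ℝ) * Qd K V B (nm x.1) * ((nm x.2 : ℝ) ^ (-(1 : ℝ) / 3) *
      (‖om x‖ ^ 2 * ∑ e ∈ S E0, ‖TE α (x.1, x.2) e‖ ^ 2)) ≤
      C₁ * X ^ (ε / 2) * G * Real.exp (-n / 3 - Real.log V / 3) := h3
  have hXe : X ^ (ε / 2) * X ^ (ε / 2) = X ^ ε := by
    rw [← Real.rpow_add hX0]; congr 1; ring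
  calc C₂ * X ^ (ε / 2) * (Mb * ∑ x ∈ J, (nm x.1 : ℝ) * Qd K V B (nm x.1) *
        ((nm x.2 : ℝ) ^ (-(1 : ℝ) / 3) * (‖om x‖ ^ 2 *
          ∑ e ∈ S E0, ‖TE α (x.1, x.2) e‖ ^ 2)))
      ≤ C₂ * X ^ (ε / 2) * (Mb * (C₁ * X ^ (ε / 2) * G *
        Real.exp (-n / 3 - Real.log V / 3))) := by
        refine mul_le_mul_of_nonneg_left ?_ (by positivity)
        exact mul_le_mul_of_nonneg_left h6 hMb
    _ = C₂ * C₁ * (X ^ (ε / 2) * X ^ (ε / 2)) *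
        (Mb * G * Real.exp (-n / 3 - Real.log V / 3)) := by ring
    _ = _ := by rw [hXe]

/-- **the Gram sum of one level by the large sieve, natural lists, raw form** -/
theorem gram_raw {h : ℝ → ℝ} {c : ℝ} (hpu : PU h c) (N : ℕ) {R₁ : ℝ} (hR₁ : 0 ≤ R₁)
    (hR : ∀ u, cx h u ≠ 0 → |u| ≤ R₁) {ε M c₀ ν Dd : ℝ} (hε : 0 < ε) (hM : 0 ≤ M) (hc₀ : 1 ≤ c₀)
    (hν : 1 ≤ ν) (hDd : 1 ≤ Dd) :
    ∃ C r : ℝ, 1 ≤ C ∧ 0 ≤ r ∧ ∀ X : ℝ, 3 ≤ X → ∀ (P : DPar), P.OK → ∀ (q : Eis) (ps : List Pq),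
      ps.length ≤ N → (∀ p ∈ ps, 0 ≤ p.z ∧ p.z ≤ Real.log X) →
      ∀ al : Eis → ℂ, Dom ν Dd (sqc q (alF 1 1 P h (natl ps))) al →
      ∀ (K V B Mb E0 F : ℝ), 1 ≤ K → K ≤ X → 1 ≤ V → V ≤ X → 1 ≤ B → B ≤ X → 0 ≤ Mb → 0 ≤ F →
      ∀ (J : Finset (Eis × Eis)) (om : Eis × Eis → ℂ), OKJ J →
      (∀ x ∈ J, (nm (x.2 * x.1 ^ 2) : ℝ) ≤ V) →
      (∀ x ∈ J, om x ≠ 0 → V ≤ c₀ * nm (x.2 * x.1 ^ 2)) → (∀ x, ‖om x‖ ≤ 1) →
      ∀ (t : Eis) (b : Eis → ℂ), IsPrim t → (nm t : ℝ) ≤ X →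
      (∀ n, b n ≠ 0 → n ∈ primBall ⌊B⌋₊) →
      (∀ s, IsPrim s → ∑ d ∈ primBall ⌊B⌋₊, ‖b (s * d)‖ ^ 2 ≤ Mb / nm s) →
      (∀ g : Eis, IsPrim g → (nm g : ℝ) ^ 2 ≤ V → ∀ (b l : ℝ) (ps' : List Pq), 0 ≤ b → 0 ≤ l →
        List.Forall₂ (ChN r) ps' ps → |LN ps' - (LN ps - Real.log (nm g) - b)| ≤ r →
        |l - (Real.log V - 2 * Real.log (nm g) + b)| ≤ r →
        (nm g : ℝ) ^ 3 * Qd K V B (nm g) * SN (q * g) P h l ps' ≤ F * cN ps' ps ^ M) →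
      ∑ k ∈ (primBall ⌊K⌋₊).filter CbF, (nm k : ℝ) ^ ((1 : ℝ) / 3) *
        (‖StE E0 J om al (k * t ^ 3)‖ ^ 2 *
          ‖CS b (k * t ^ 3)‖ ^ 2) ≤
        C * X ^ ε * (Mb * F * Real.exp (-(LN ps) / 3 - Real.log V / 3)) := by
  obtain ⟨C₁, r, hC₁, hr, H₁⟩ := tmom_raw hpu N hR₁ hR (ε := ε / 2) (M := M) (c₀ := c₀)
    (by positivity) hM hc₀ hν hDd
  obtain ⟨C₂, hC₂, H₂⟩ := gram_hb (ε := ε / 2) (by positivity)
  refine ⟨C₂ * C₁ + 1, r, ?_, hr, ?_⟩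
  · have : 0 ≤ C₂ * C₁ := by positivity
    linarith
  intro X hX P hP q ps hN hz al hdom K V B Mb E0 F hK hKX hV hVX hB hBX hMb hF J om hJ hJV hJl hom t b
    ht htX hb hMb' H
  have hX0 : 0 < X := by linarith
  have h1 := H₂ X K V B Mb hK hV hB hKX hVX hBX hMb J om
    (fun d e j => TE al (d, j) e) E0 t b hJ
    (fun x hx => by
      have h2 := hJV x hx
      rw [nm_mul, nm_pow] at h2
      push_cast at h2
      exact h2) ht htX hb hMb'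
  have h3 := H₁ X hX P hP q ps hN hz al hdom V E0 F (fun d => d * Qd K V B d) hV hVX hF
    (fun d hd => mul_nonneg (by linarith)
      (Qd_nonneg (by linarith) (by linarith) (by linarith) (by linarith))) J om hJ hJV hJl hom
    (fun g hg hgV b l ps' hb hl hch h4 h5 => by
      refine le_of_eq_of_le ?_ (H g hg hgV b l ps' hb hl hch h4 h5)
      ring)
  simp only [SteT_TE] at h1
  refine h1.trans ?_
  have h6 : ∑ x ∈ J, (nm x.1 : ℝ) * Qd K V B (nm x.1) * ((nm x.2 : ℝ) ^ (-(1 : ℝ) / 3) *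
      (‖om x‖ ^ 2 * ∑ e ∈ S E0, ‖TE al (x.1, x.2) e‖ ^ 2)) ≤
      C₁ * X ^ (ε / 2) * F * Real.exp (-(LN ps) / 3 - Real.log V / 3) := h3
  have hXe : X ^ (ε / 2) * X ^ (ε / 2) = X ^ ε := by
    rw [← Real.rpow_add hX0]; congr 1; ring
  calc C₂ * X ^ (ε / 2) * (Mb * ∑ x ∈ J, (nm x.1 : ℝ) * Qd K V B (nm x.1) *
        ((nm x.2 : ℝ) ^ (-(1 : ℝ) / 3) * (‖om x‖ ^ 2 *
          ∑ e ∈ S E0, ‖TE al (x.1, x.2) e‖ ^ 2)))
      ≤ C₂ * X ^ (ε / 2) * (Mb * (C₁ * X ^ (ε / 2) * F *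
        Real.exp (-(LN ps) / 3 - Real.log V / 3))) := by
        refine mul_le_mul_of_nonneg_left ?_ (by positivity)
        exact mul_le_mul_of_nonneg_left h6 hMb
    _ = C₂ * C₁ * (X ^ (ε / 2) * X ^ (ε / 2)) *
        (Mb * F * Real.exp (-(LN ps) / 3 - Real.log V / 3)) := by ring
    _ ≤ _ := by
        rw [hXe]
        have h10 : 0 ≤ X ^ ε * (Mb * F * Real.exp (-(LN ps) / 3 - Real.log V / 3)) := by
          positivity
        nlinarith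

/-! ### no amplifier factor -/

/-- the unit sequence -/
def one1 (n : Eis) : ℂ := if n = 1 then 1 else 0

lemma CS_one1 (k : Eis) : CS one1 k = 1 := by
  unfold CM106.CS
  rw [tsum_eq_single 1]
  · unfold one1
    rw [if_pos rfl, one_mul]
    exact Sym645.sy_one_right k
  · intro n hn
    unfold one1
    rw [if_neg hn, zero_mul]

lemma one1_bd (s : Eis) (hs : IsPrim s) :
    ∑ d ∈ primBall ⌊(1 : ℝ)⌋₊, ‖one1 (s * d)‖ ^ 2 ≤ 1 / nm s := by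
  have hs0 : (0 : ℝ) < nm s := lt_of_lt_of_le one_pos (nm_ge_one hs.ne_zero)
  by_cases h : ∃ d ∈ primBall ⌊(1 : ℝ)⌋₊, s * d = 1
  · obtain ⟨d, hd, hsd⟩ := h
    have h1 : nm s * nm d = 1 := by rw [← nm_mul, hsd, nm_one]
    have h2 : nm s = 1 := Nat.eq_one_of_mul_eq_one_right h1
    rw [h2, Nat.cast_one, div_one]
    have h3 : ∑ e ∈ primBall ⌊(1 : ℝ)⌋₊, ‖one1 (s * e)‖ ^ 2 = ‖one1 (s * d)‖ ^ 2 := by
      refine Finset.sum_eq_single d (fun e _ he => ?_) fun h => absurd hd h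
      unfold one1
      rw [if_neg, norm_zero, zero_pow two_ne_zero]
      intro h4
      exact he (mul_left_cancel₀ hs.ne_zero (h4.trans hsd.symm))
    rw [h3, hsd]
    unfold one1
    simp
  · push Not at h
    rw [Finset.sum_eq_zero fun d hd => by
      unfold one1
      rw [if_neg (h d hd), norm_zero, zero_pow two_ne_zero]]
    positivity

/-- **no amplifier** -/
theorem gram_raw1 {h : ℝ → ℝ} {c : ℝ} (hpu : PU h c) (N : ℕ) {R₁ : ℝ} (hR₁ : 0 ≤ R₁)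
    (hR : ∀ u, cx h u ≠ 0 → |u| ≤ R₁) {ε M c₀ ν Dd : ℝ} (hε : 0 < ε) (hM : 0 ≤ M) (hc₀ : 1 ≤ c₀)
    (hν : 1 ≤ ν) (hDd : 1 ≤ Dd) :
    ∃ C r : ℝ, 1 ≤ C ∧ 0 ≤ r ∧ ∀ X : ℝ, 3 ≤ X → ∀ (P : DPar), P.OK → ∀ (q : Eis) (ps : List Pq),
      ps.length ≤ N → (∀ p ∈ ps, 0 ≤ p.z ∧ p.z ≤ Real.log X) →
      ∀ al : Eis → ℂ, Dom ν Dd (sqc q (alF 1 1 P h (natl ps))) al →
      ∀ (K V E0 F : ℝ), 1 ≤ K → K ≤ X → 1 ≤ V → V ≤ X → 0 ≤ F →
      ∀ (J : Finset (Eis × Eis)) (om : Eis × Eis → ℂ), OKJ J →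
      (∀ x ∈ J, (nm (x.2 * x.1 ^ 2) : ℝ) ≤ V) →
      (∀ x ∈ J, om x ≠ 0 → V ≤ c₀ * nm (x.2 * x.1 ^ 2)) → (∀ x, ‖om x‖ ≤ 1) →
      ∀ t : Eis, IsPrim t → (nm t : ℝ) ≤ X →
      (∀ g : Eis, IsPrim g → (nm g : ℝ) ^ 2 ≤ V → ∀ (b l : ℝ) (ps' : List Pq), 0 ≤ b → 0 ≤ l →
        List.Forall₂ (ChN r) ps' ps → |LN ps' - (LN ps - Real.log (nm g) - b)| ≤ r →
        |l - (Real.log V - 2 * Real.log (nm g) + b)| ≤ r →
        (nm g : ℝ) ^ 3 * Qd K V 1 (nm g) * SN (q * g) P h l ps' ≤ F * cN ps' ps ^ M) →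
      ∑ k ∈ (primBall ⌊K⌋₊).filter CbF, (nm k : ℝ) ^ ((1 : ℝ) / 3) *
        ‖StE E0 J om al (k * t ^ 3)‖ ^ 2 ≤
        C * X ^ ε * (F * Real.exp (-(LN ps) / 3 - Real.log V / 3)) := by
  obtain ⟨C, r, hC, hr, H₁⟩ := gram_raw hpu N hR₁ hR hε hM hc₀ hν hDd
  refine ⟨C, r, hC, hr, ?_⟩
  intro X hX P hP q ps hN hz al hdom K V E0 F hK hKX hV hVX hF J om hJ hJV hJl hom t ht htX H
  have h1 := H₁ X hX P hP q ps hN hz al hdom K V 1 1 E0 F hK hKX hV hVX le_rfl (by linarith) zero_le_one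
    hF J om hJ hJV hJl hom t one1 ht htX (fun n hn => by
      unfold one1 at hn
      split_ifs at hn with h
      · rw [h, mem_primBall]
        refine ⟨?_, isPrim_one⟩
        rw [nm_one, Nat.floor_one]
      · exact absurd rfl hn) one1_bd H
  simp only [CS_one1, norm_one, one_pow, mul_one] at h1
  simpa only [one_mul] using h1

/-! ### exponent form -/

lemma exp_max3 (a b c : ℝ) : Real.exp a + Real.exp b + Real.exp c ≤
    3 * Real.exp (max a (max b c)) := by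
  have h1 : Real.exp a ≤ Real.exp (max a (max b c)) := Real.exp_le_exp.2 (le_max_left _ _)
  have h2 : Real.exp b ≤ Real.exp (max a (max b c)) :=
    Real.exp_le_exp.2 ((le_max_left _ _).trans (le_max_right _ _))
  have h3 : Real.exp c ≤ Real.exp (max a (max b c)) :=
    Real.exp_le_exp.2 ((le_max_right _ _).trans (le_max_right _ _))
  linarith

/-- exponent of `Qd` -/
def qd (k v b g : ℝ) : ℝ := max k (max (v + b - 2 * g) (2 / 3 * (k + (v + b - 2 * g))))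

lemma Qd_le {K V B d : ℝ} (hK : 0 < K) (hV : 0 < V) (hB : 0 < B) (hd : 0 < d) :
    Qd K V B d ≤ 3 * Real.exp (qd (Real.log K) (Real.log V) (Real.log B) (Real.log d)) := by
  have e2 : V * B / d ^ 2 = Real.exp (Real.log V + Real.log B - 2 * Real.log d) := by
    rw [Real.exp_sub, Real.exp_add, Real.exp_log hV, Real.exp_log hB, two_mul, Real.exp_add,
      Real.exp_log hd, pow_two]
  have e3 : (K * (V * B / d ^ 2)) ^ ((2 : ℝ) / 3) =
      Real.exp (2 / 3 * (Real.log K + (Real.log V + Real.log B - 2 * Real.log d))) := by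
    have e4 : K * (V * B / d ^ 2) =
        Real.exp (Real.log K + (Real.log V + Real.log B - 2 * Real.log d)) := by
      rw [Real.exp_add, Real.exp_log hK, e2]
    rw [e4, ← Real.exp_mul]
    congr 1
    ring
  unfold GHB842.Qd qd
  rw [e3, e2]
  have h1 := exp_max3 (Real.log K) (Real.log V + Real.log B - 2 * Real.log d)
    (2 / 3 * (Real.log K + (Real.log V + Real.log B - 2 * Real.log d)))
  rw [Real.exp_log hK] at h1
  exact h1

/-- **the condition of `gram_raw` from an exponent** -/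
lemma raw_of {K V B F E τ Z G : ℝ} {g : Eis} (hg : IsPrim g) (hK : 0 < K) (hV : 0 < V)
    (hB : 0 < B) (hF : 0 ≤ F) (hG : 0 ≤ G) (h1 : Z ≤ F * G * Real.exp τ)
    (h2 : 3 * Real.log (nm g) + qd (Real.log K) (Real.log V) (Real.log B) (Real.log (nm g)) + τ ≤
      E) : (nm g : ℝ) ^ 3 * Qd K V B (nm g) * Z ≤ 3 * F * Real.exp E * G := by
  have hg0 : (0 : ℝ) < nm g := lt_of_lt_of_le one_pos (nm_ge_one hg.ne_zero)
  have h3 := Qd_le hK hV hB hg0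
  have h4 : (nm g : ℝ) ^ 3 = Real.exp (3 * Real.log (nm g)) := by
    rw [mul_comm, Real.exp_mul, Real.exp_log hg0]
    norm_num
  have h5 : 0 ≤ Qd K V B (nm g) := Qd_nonneg hK.le hV.le hB.le hg0.le
  calc (nm g : ℝ) ^ 3 * Qd K V B (nm g) * Z
      ≤ (nm g : ℝ) ^ 3 * Qd K V B (nm g) * (F * G * Real.exp τ) :=
        mul_le_mul_of_nonneg_left h1 (by positivity)
    _ ≤ (nm g : ℝ) ^ 3 *
        (3 * Real.exp (qd (Real.log K) (Real.log V) (Real.log B) (Real.log (nm g)))) *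
        (F * G * Real.exp τ) := by
        refine mul_le_mul_of_nonneg_right ?_ (by positivity)
        exact mul_le_mul_of_nonneg_left h3 (by positivity)
    _ = 3 * F * G * Real.exp (3 * Real.log (nm g) +
        qd (Real.log K) (Real.log V) (Real.log B) (Real.log (nm g)) + τ) := by
        rw [h4, Real.exp_add, Real.exp_add]
        ring
    _ ≤ 3 * F * G * Real.exp E := by
        refine mul_le_mul_of_nonneg_left (Real.exp_le_exp.2 h2) (by positivity)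
    _ = _ := by ring

end Crest.Agent.R017.TM968
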