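import Crest.Agent.R017.GkLa_381
import Crest.Agent.R017.GkXb_381
import Crest.Agent.R017.TMn_968

/-!
# Row 17, exceptional class (helper381): the class Gram sums of `et`, families `q ≤ 3/5 κ`

* **`lnl_X`** : the real line of the second moment for the numbers of a difference
* **`lnl_S`** : the same for the numbers of a single list
-/

set_option autoImplicit false
set_option linter.unusedVariables false

noncomputable section

namespace Crest.Agent.R017.GkL381

open Crest.Agent.R017.RnP571 (Dh)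
open Crest.Agent.R017.I1K764 (bcx)
open Crest.Agent.R017.P10X764 (shB)
open Crest.Agent.R017.E3N146 (ShT)
open Crest.Agent.R017.TM968 (qd)

/-- the room of the low families, `D = d k` -/
def GLo (d N k q p um x D : ℝ) : ℝ :=
  2 * (k + p + (max 0 (5 / 4 * N - k) + 3 / 4 * D)) - 2 / 3 * (k - q) -
    (q + p + (3 / 4 + 2 * d) * (um + x))

lemma GLo_ge {d k y₃ y₄ u x D t q p um v : ℝ} (H : CL k y₃ y₄ u x D t q p um v) (hd : 0 ≤ d)
    (hd1 : d ≤ 1 / 2) (hD : D = d * k) :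
    2 * (k + p + max 0 (5 / 4 * (y₃ + y₄ + u) - k) + 3 / 4 * D) - 2 / 3 * (k - q) -
      (q + p + 3 / 4 * (um + x) + 3 / 5 * D) ≤ GLo d (y₃ + y₄ + u) k q p um x D + t := by
  obtain ⟨⟨k0, u4, y43, u0, y3, N1, near, x0, adm, d0, d1⟩, t0, t1, q0, q1, p0, p1, um0, um1, um2,
    v0, v1, v2⟩ := H
  have h1 : um + x ≤ 3 / 10 * k + t := by
    rcases adm with ⟨a0, rfl | a1⟩ | ⟨a1, a2, a3⟩ <;> linarith
  have h2 : d * (um + x) ≤ d * (3 / 10 * k + t) := mul_le_mul_of_nonneg_left h1 hd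
  have h3 : d * t ≤ 1 / 2 * t := mul_le_mul_of_nonneg_right hd1 t0
  unfold GLo
  nlinarith

lemma qd_cs (q v δ : ℝ) : qd q v 0 δ ≤ q ∨ qd q v 0 δ ≤ v - 2 * δ ∨
    qd q v 0 δ ≤ 2 / 3 * (q + (v - 2 * δ)) := by
  unfold TM968.qd
  rcases max_choice q (max (v + 0 - 2 * δ) (2 / 3 * (q + (v + 0 - 2 * δ)))) with h | h
  · rw [h]; exact Or.inl le_rfl
  · rw [h]
    rcases max_choice (v + 0 - 2 * δ) (2 / 3 * (q + (v + 0 - 2 * δ))) with h' | h'
    · rw [h']; right; left; linarith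
    · rw [h']; right; right; linarith

/-- the cases of the numbers of the lists -/
lemma sht_cs {k N t k5 z x p um' δ b l : ℝ} (t0 : 0 ≤ t) (hk5 : k5 ≤ max k (5 / 4 * N) + t)
    (z1 : z ≤ x + t) :
    (ShT k5 z um' p δ b l ≤ 2 * (p - δ - b) ∨
      ShT k5 z um' p δ b l ≤ 4 / 3 * (p - δ - b) + (k + t + b / 2 + (l + b)) / 3 ∨
      ShT k5 z um' p δ b l ≤ 4 / 3 * (p - δ - b) + (5 / 4 * N + t + b / 2 + (l + b)) / 3 ∨
      ShT k5 z um' p δ b l ≤ 4 / 3 * (p - δ - b) + (3 / 2 * (l + b) + (l + b)) / 3 ∨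
      ShT k5 z um' p δ b l ≤ (l + b) + (p - δ - b)) ∧
    (ShT k5 z um' p δ b l ≤ (l + b) + (p - δ - b) + ((p - δ - b) / 3 + 2 / 3 * (x + t)) ∨
      ShT k5 z um' p δ b l ≤ 5 / 3 * (p - δ - b) + (l + b) / 3) := by
  obtain ⟨S, hS⟩ : ∃ S, S = ShT k5 z um' p δ b l := ⟨_, rfl⟩
  rw [← hS]
  unfold E3N146.ShT TM708.eH TM708.eF at hS
  constructor
  · have hmn : S ≤ max (max (2 * (p - δ - b)) (4 / 3 * (p - δ - b) +
        (max (k5 + b / 2) (3 / 2 * (l + b)) + (l + b)) / 3)) (l + b + (p - δ - b)) :=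
      hS ▸ min_le_left _ _
    rcases max_choice (max (2 * (p - δ - b)) (4 / 3 * (p - δ - b) +
        (max (k5 + b / 2) (3 / 2 * (l + b)) + (l + b)) / 3)) (l + b + (p - δ - b)) with e | e
    · rw [e] at hmn
      rcases max_choice (2 * (p - δ - b)) (4 / 3 * (p - δ - b) +
          (max (k5 + b / 2) (3 / 2 * (l + b)) + (l + b)) / 3) with e' | e'
      · rw [e'] at hmn
        left; linarith
      · rw [e'] at hmn
        rcases max_choice (k5 + b / 2) (3 / 2 * (l + b)) with f | f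
        · rw [f] at hmn
          rcases max_choice k (5 / 4 * N) with g | g
          · right; left; rw [g] at hk5; linarith
          · right; right; left; rw [g] at hk5; linarith
        · rw [f] at hmn
          right; right; right; left; linarith
    · rw [e] at hmn
      right; right; right; right; linarith
  · have hmn : S ≤ max (l + b + (p - δ - b) + min (um' + z) ((p - δ - b) / 3 + 2 / 3 * z))
          (5 / 3 * (p - δ - b) + (l + b) / 3) := hS ▸ min_le_right _ _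
    have h1 := min_le_right (um' + z) ((p - δ - b) / 3 + 2 / 3 * z)
    rcases max_choice (l + b + (p - δ - b) + min (um' + z) ((p - δ - b) / 3 + 2 / 3 * z))
          (5 / 3 * (p - δ - b) + (l + b) / 3) with e | e
    · rw [e] at hmn
      left; linarith
    · rw [e] at hmn
      right; linarith

section
variable {d k y₃ y₄ u x D t q p um v δ b l F s k5 z um' lm : ℝ}

/-- the lists, families `q ≤ 3/5 κ` -/
theorem lnl_S (H : CL k y₃ y₄ u x D t q p um v) (hd : 0 ≤ d) (hd1 : d ≤ 1 / 2) (hD : D = d * k)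
    (δ0 : 0 ≤ δ) (δ1 : 2 * δ ≤ v + t) (b0 : 0 ≤ b) (l0 : 0 ≤ l)
    (hl : l ≤ v - 2 * δ + t) (F1 : F ≤ 5 / 9 * D) (hlm : lm ≤ F + t)
    (hk5 : k5 ≤ max k (5 / 4 * (y₃ + y₄ + u)) + t) (z1 : z ≤ x + t) :
    - p / 3 - v / 3 + 3 * δ + qd q v 0 δ + (ShT k5 z um' p δ b l + lm) - q / 3 ≤
      GLo d (y₃ + y₄ + u) k q p um x D + 24 * t := by
  obtain ⟨h1, h2⟩ := sht_cs (p := p) (um' := um') (δ := δ) (b := b) (l := l) H.t0 hk5 z1
  have h3 := GLo_ge H hd hd1 hD
  have h4 := coreT (n := p - δ - b) (F := F) (Q := qd q v 0 δ)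
    (T := ShT k5 z um' p δ b l - t) H (le_max_left 0 (5 / 4 * (y₃ + y₄ + u) - k))
    (le_max_right 0 (5 / 4 * (y₃ + y₄ + u) - k)) δ0 δ1 b0 l0 hl (by linarith [H.t0]) F1
    (qd_cs q v δ) (by
      have t0 := H.t0
      rcases h1 with h | h | h | h | h
      · left; linarith
      · right; left; linarith
      · right; right; left; linarith
      · right; right; right; left; linarith
      · right; right; right; right; linarith) (by
      have t0 := H.t0
      rcases h2 with h | h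
      · left; linarith
      · right; linarith)
  linarith [H.t0]

/-- **the numbers of a difference**, families `q ≤ 3/5 κ` -/
theorem lnl_X (H : CL k y₃ y₄ u x D t q p um v) (hd : 0 ≤ d) (hd1 : d ≤ 1 / 2) (hD : D = d * k)
    (hs : (v + p - k) / 3 - t ≤ s)
    (δ0 : 0 ≤ δ) (δ1 : 2 * δ ≤ v + t) (b0 : 0 ≤ b) (l0 : 0 ≤ l)
    (hl : l ≤ v - 2 * δ + t) (F1 : F ≤ 5 / 9 * D) (hlm : lm ≤ F + t)
    (hk5 : k5 ≤ max k (5 / 4 * (y₃ + y₄ + u)) + t) (z1 : z ≤ x + t) :
    - p / 3 - v / 3 + 3 * δ + qd q v 0 δ +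
      shB s p (fun γ b v => ShT k5 z um' p γ b v + lm) δ b l - q / 3 ≤
      GLo d (y₃ + y₄ + u) k q p um x D + 24 * t := by
  have h1 := lnl_S (um' := um') H hd hd1 hD δ0 δ1 b0 l0 hl F1 hlm hk5 z1
  have h2 := coreB (Q := qd q v 0 δ) H (le_max_left 0 (5 / 4 * (y₃ + y₄ + u) - k))
    (le_max_right 0 (5 / 4 * (y₃ + y₄ + u) - k)) hs δ0 δ1 b0 l0 hl
    (le_max_left 0 (s - (δ + b))) (le_max_right 0 (s - (δ + b))) (qd_cs q v δ)
  have h3 := GLo_ge H hd hd1 hD
  have e1 : bcx s δ b l = 2 / 3 * (l + b) - 5 / 3 * (δ + b) - max 0 (s - (δ + b)) := rfl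
  have t0 := H.t0
  unfold P10X764.shB
  rcases max_choice (ShT k5 z um' p δ b l + lm) (5 / 3 * p + bcx s δ b l) with e | e
  · rw [e]; exact h1
  · rw [e, e1]; linarith

end

end Crest.Agent.R017.GkL381
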