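import Crest.Agent.R017.GkW_968
import Crest.Agent.R017.GkLb_381

/-!
# Row 17, class E, R8 (helper968): the real line of the low families at a child, single lists

* `GLS` : the exponent;  **`loT_S`** : `LoT` at a child of `Dom8X`, `SinL`
* **`gkLoS`** : `GkGUc (3/5)` of the single lists
-/

set_option autoImplicit false
set_option linter.unusedSectionVars false
set_option linter.unusedVariables false

noncomputable section

open Finset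
open scoped ComplexConjugate Classical

namespace Crest.Agent.R017.GkLs968

open Crest.Agent.R012 Crest.Agent.R012.Eis
open Crest.Agent.R017.FE47 (PU cx SM)
open Crest.Agent.R017.CM106
open Crest.Agent.R017.XG702 (Pcs Good_mono)
open Crest.Agent.R017.XT71 (Sys Win mx)
open Crest.Agent.R017.Prov71
open Crest.Agent.R017.B770
open Crest.Agent.R017.E5B71 Crest.Agent.R017.E5P571 Crest.Agent.R017.E5L770
open Crest.Agent.R017.ExBox960 Crest.Agent.R017.ExP960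
open Crest.Agent.R017.Sf770
open Crest.Agent.R017.I1146 (LN)
open Crest.Agent.R017.Sup271 (NPm)
open Crest.Agent.R017.PX764 (Dk)
open Crest.Agent.R017.TM708 (R5)
open Crest.Agent.R017.P1e54 Crest.Agent.R017.P1f54 Crest.Agent.R017.P1k54
open Crest.Agent.R017.P1l54 (ParOK)
open Crest.Agent.R017.P1X960
open Crest.Agent.R017.P10X764
open Crest.Agent.R017.E3Nx744 (CBA)
open Crest.Agent.R017.ETd548 (BkX S8Xk GkG stG)
open Crest.Agent.R017.ETk548 (DomKc GkGUc)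
open Crest.Agent.R017.FrX579 (lmX svX)
open Crest.Agent.R017.FrS829 (ShSl FrSD frS)
open Crest.Agent.R017.GLo968 Crest.Agent.R017.GkW968
open Crest.Agent.R017.RnP571 (Dh)
open Crest.Agent.R017.GkL381

lemma Dh_scale {k y₃ y₄ u x D L : ℝ} (hL : 0 < L) (h : Dh k y₃ y₄ u x D) :
    Dh (k * L) (y₃ * L) (y₄ * L) (u * L) (x * L) (D * L) := by
  obtain ⟨k0, u4, y43, u0, y3, N1, near, x0, adm, d0, d1⟩ := h
  have m : ∀ {a b : ℝ}, a ≤ b → a * L ≤ b * L := fun h => mul_le_mul_of_nonneg_right h hL.le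
  have m1 := m u0
  have m2 := m y3
  have m3 := m N1
  have m4 := m near
  have m5 := m d1
  refine ⟨by positivity, m u4, m y43, by linarith, by linarith, by linarith, by linarith,
    by positivity, ?_, by positivity, by linarith⟩
  rcases adm with ⟨a0, h | a1⟩ | ⟨a1, a2, a3⟩
  · refine Or.inl ⟨by linarith [m a0], Or.inl (by rw [h, zero_mul])⟩
  · refine Or.inl ⟨by linarith [m a0], Or.inr (by linarith [m a1])⟩
  · exact Or.inr ⟨by linarith [m a1], by linarith [m a2], by linarith [m a3]⟩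

/-- third lump, or a third of the length -/
def umv (q : QK) : ℝ := min (q.1 (.inl (.inr 2))) (svX (q8 q) / 3)

/-- **the exponent of the low families** -/
def GLq (d : ℝ) (q : QK) : ℝ :=
  GLo d (cN (prX (bp (q8 q).1))) (cκ (prX (bp (q8 q).1))) (q.1 (.inr ())) (svX (q8 q)) (umv q)
    (cx' (prX (bp (q8 q).1))) (d * cκ (prX (bp (q8 q).1)))

lemma GLo_move {d N k q p um x D q' p' e L : ℝ} (hL : 0 ≤ L) (hp : p' ≤ p * L + e)
    (hq : q * L ≤ q' + e) (he : 0 ≤ e) :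
    GLo d (N * L) (k * L) q' p' (um * L) (x * L) (D * L) ≤ GLo d N k q p um x D * L + 2 * e := by
  have e1 : max 0 (5 / 4 * (N * L) - k * L) = max 0 (5 / 4 * N - k) * L := by
    rw [max_mul_of_nonneg _ _ hL, zero_mul]
    congr 1
    ring
  unfold GkL381.GLo
  rw [e1]
  linarith

set_option maxHeartbeats 1000000 in
/-- **the real line at a child, single lists** -/
theorem loT_S {Λ : Type*} {π : Λ → DPar} {h : ℝ → ℝ} {Rh e0 c β d : ℝ}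
    {Par : Set (Fin 3 ⊕ Fin 5 → ℝ)} (hc0 : 0 ≤ c) (hPar : ∀ p ∈ Par, ParOK p) (hd0 : 0 ≤ d)
    (hd1 : d ≤ 1 / 2) (hcD : 4 * c ≤ d) (hβ : 17 / 100 ≤ β)
    (hDh : ∀ p ∈ Par, Dh (cκ p) (cu p 2) (cu p 3) (cu p 4) (cx' p) (d * cκ p))
    {ℓ Kf Tf : (Fin 5 → ℝ) → ℝ}
    (hlm : ∀ p : IX5 → ℝ, prX p ∈ Par → ZR β p → lmX ℓ Kf Tf p ≤ 5 / 9 * (d * cκ (prX p)))
    (cw B₂ J R' t₀ ε X : ℝ) (lam : Λ × Eis) (a : BkX) (qs : List Pq) (q : QK)
    (F : FrSD π h Rh e0 c ℓ Kf Tf cw B₂ J R' t₀ ε X lam a.1 qs (q8 q)) (hX : 1 < X) (ht₀ : 0 < t₀)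
    (ht1 : t₀ ≤ 1 / 1000000) (h4 : 4 ≤ t₀ * Real.log X) (hq : q ∈ DomKc (3 / 5) c β Par (SinL β))
    (hfam : |((a.2.2.1 : ℝ) + 1) * Real.log 2 - q.1 (.inr ()) * Real.log X| ≤ t₀ * Real.log X)
    (hlv : a.2.1 < nw c a.1) :
    LoT (ShSl (lmX ℓ Kf Tf (bp (q8 q).1) * Real.log X) a.1 qs)
      (((a.2.2.1 : ℝ) + 1) * Real.log 2) (((a.2.1 : ℝ) + 1) * Real.log 2) (LN (clN a.1 qs))
      (2 * Real.log 2) (GLq d q * Real.log X + 100 * (t₀ * Real.log X)) := by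
  have hL : 0 < Real.log X := Real.log_pos hX
  obtain ⟨L, hLL⟩ : ∃ L, L = Real.log X := ⟨_, rfl⟩
  have hC := hq.1.1
  have hS := hq.1.2.1
  have hk0 := hq.2.1
  have hk1 := hq.2.2
  have e8 : (bp fun i => q.1 (.inl i)) = bp (q8 q).1 := rfl
  have hpar : prX (bp (q8 q).1) ∈ Par := hC.par
  have hD := hDh _ hpar
  have hP := hPar _ hpar
  have hlm1 := hlm _ hpar hC.zr
  obtain ⟨k1, k2⟩ := abs_le.1 F.kl
  obtain ⟨z1, z2⟩ := abs_le.1 F.zl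
  obtain ⟨A1, A2⟩ := abs_le.1 F.Al
  obtain ⟨n1, n2⟩ := abs_le.1 F.nl
  obtain ⟨f1, f2⟩ := abs_le.1 hfam
  have m0 := F.n0
  have m1 := F.n1
  have mp := F.np
  have my := F.yl
  rw [← hLL] at hL k1 k2 z1 z2 A1 A2 n1 n2 f1 f2 m0 m1 my h4 ⊢
  set p₅ := prX (bp (q8 q).1) with hp₅
  have hlog2 : 0 < Real.log 2 := Real.log_pos (by norm_num)
  have hlog2' : Real.log 2 ≤ 1 := by linarith [Real.log_two_lt_d9]
  set T := t₀ * L with hT
  have hT0 : 0 < T := by positivity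
  have hκ0 := hP.κ0
  have hκ1 := hP.κ1
  have hcN : cN p₅ = cu p₅ 2 + cu p₅ 3 + cu p₅ 4 := rfl
  have hvw : ((a.2.1 : ℝ) + 1) * Real.log 2 ≤ Real.log (2 ^ nw c a.1) := by
    rw [Real.log_pow]
    refine mul_le_mul_of_nonneg_right ?_ hlog2.le
    exact_mod_cast hlv
  have htop1 : tpW c (bp (q8 q).1) ((q8 q).1 (.inr 3)) ≤ top5 p₅ := min_le_left _ _
  have htop2 : tpW c (bp (q8 q).1) ((q8 q).1 (.inr 3)) ≤
    top5 p₅ + 2 * (c * cκ p₅) - 2 * (q8 q).1 (.inr 3) := min_le_right _ _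
  have ht5a : top5 p₅ ≤ 2 * cN p₅ - cκ p₅ + 11 / 5 * cx' p₅ := by
    unfold E5L770.top5
    linarith [min_le_left (2 * cN p₅ - cκ p₅) (3 / 4 * cN p₅)]
  have ht5b : top5 p₅ ≤ 3 / 4 * cN p₅ + 11 / 5 * cx' p₅ := by
    unfold E5L770.top5
    linarith [min_le_right (2 * cN p₅ - cκ p₅) (3 / 4 * cN p₅)]
  -- the levels
  have v1 : ((a.2.1 : ℝ) + 1) * Real.log 2 ≤ (2 * cN p₅ - cκ p₅ + 11 / 5 * cx' p₅) * L + T := by
    have := mul_le_mul_of_nonneg_right (htop1.trans ht5a) hL.le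
    linarith
  have v2 : ((a.2.1 : ℝ) + 1) * Real.log 2 ≤ (3 / 4 * cN p₅ + 11 / 5 * cx' p₅) * L + T := by
    have := mul_le_mul_of_nonneg_right (htop1.trans ht5b) hL.le
    linarith
  -- the bias of a single list
  have hs1 : cN p₅ - ((q8 q).1 (.inr 0) + (q8 q).1 (.inr 1) + (q8 q).1 (.inr 2)) ≤
    (q8 q).1 (.inr 3) + (cx' p₅ - (q8 q).2 .am) := hC.s2
  have hs2 : β * cκ p₅ ≤ cN p₅ - ((q8 q).1 (.inr 0) + (q8 q).1 (.inr 1) + (q8 q).1 (.inr 2)) :=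
    hS.2
  have hx1 : (q8 q).2 .am ≤ cx' p₅ := hC.x1
  have hx0 : 0 ≤ (q8 q).2 .am := hC.x0
  have hβ' : 17 / 100 * cκ p₅ ≤ β * cκ p₅ := mul_le_mul_of_nonneg_right hβ (by linarith)
  have hcD' : 4 * c * cκ p₅ ≤ d * cκ p₅ := mul_le_mul_of_nonneg_right hcD (by linarith)
  have hsv : svX (q8 q) = (q8 q).1 (.inr 0) + (q8 q).1 (.inr 1) + (q8 q).1 (.inr 2) +
    (q8 q).2 .am := rfl
  have hbias : (tpW c (bp (q8 q).1) ((q8 q).1 (.inr 3))) + svX (q8 q) - cκ p₅ ≤ 0 := by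
    rcases hD.adm with ⟨a0, hh | a1⟩ | ⟨a1, a2, a3⟩
    · have := hD.N1; have := hD.d1; have := hD.x0
      linarith
    · have := hD.N1; have := hD.d1; have := hD.x0
      linarith
    · have := hD.N1; have := hD.d1; have := hD.x0; have := hD.d0
      linarith
  have hs : ((((a.2.1 : ℝ) + 1) * Real.log 2 + LN (clN a.1 qs) - cκ p₅ * L) / 3) - 3 * T ≤ 0 := by
    have := mul_le_mul_of_nonneg_right hbias hL.le
    linarith
  -- the third lump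
  have hv2 : (q8 q).1 (.inr 2) ≤ cu p₅ 4 := by
    rcases hS.1 with h1 | h1
    · exact h1.2.2
    · exact h1.2.2
  have hu0 : 0 ≤ umv q := by
    refine le_min hC.v2 ?_
    rw [hsv]
    have := hC.v0
    have := hC.v1
    have := hC.v2
    have a0 : (0 : ℝ) ≤ (q8 q).1 (.inr 0) := hC.v0
    have a1 : (0 : ℝ) ≤ (q8 q).1 (.inr 1) := hC.v1
    have a2 : (0 : ℝ) ≤ (q8 q).1 (.inr 2) := hC.v2
    linarith
  have hu1 : umv q ≤ cu p₅ 4 := (min_le_left _ _).trans hv2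
  have hu2 : 3 * umv q ≤ svX (q8 q) := by
    have := min_le_right (q.1 (.inl (.inr 2))) (svX (q8 q) / 3)
    have h1 : umv q ≤ svX (q8 q) / 3 := this
    linarith
  -- the windows
  have CLh : CL (cκ p₅ * L) (cu p₅ 2 * L) (cu p₅ 3 * L) (cu p₅ 4 * L) (cx' p₅ * L)
      (d * cκ p₅ * L) (3 * T) (((a.2.2.1 : ℝ) + 1) * Real.log 2) (LN (clN a.1 qs)) (umv q * L)
      (((a.2.1 : ℝ) + 1) * Real.log 2) := by
    refine ⟨Dh_scale hL hD, by positivity, ?_, by positivity, ?_, by linarith, ?_, by positivity,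
      ?_, ?_, by positivity, ?_, ?_⟩
    · have : T ≤ 1 / 1000000 * L := mul_le_mul_of_nonneg_right ht1 hL.le
      have : 8 / 9 * L ≤ cκ p₅ * L := mul_le_mul_of_nonneg_right hκ0 hL.le
      linarith
    · have h1 : q.1 (.inr ()) * L ≤ 3 / 5 * cκ p₅ * L := mul_le_mul_of_nonneg_right hk1 hL.le
      linarith
    · have : cN p₅ * L = cu p₅ 2 * L + cu p₅ 3 * L + cu p₅ 4 * L := by rw [hcN]; ring
      linarith
    · have := mul_le_mul_of_nonneg_right hu1 hL.le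
      linarith
    · have := mul_le_mul_of_nonneg_right hu2 hL.le
      linarith
    · rw [hcN] at v1
      linarith
    · rw [hcN] at v2
      linarith
  constructor
  intro δ b l δ0 δ1 b0 l0 hl hl'
  have hk5 : k5X a.1 ≤ max (cκ p₅ * L) (5 / 4 * (cu p₅ 2 * L + cu p₅ 3 * L + cu p₅ 4 * L)) +
      3 * T := by
    have h9 : cN p₅ * L = cu p₅ 2 * L + cu p₅ 3 * L + cu p₅ 4 * L := by rw [hcN]; ring
    unfold P10X764.k5X
    refine max_le ?_ ?_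
    · linarith [le_max_left (cκ p₅ * L) (5 / 4 * (cu p₅ 2 * L + cu p₅ 3 * L + cu p₅ 4 * L))]
    · linarith [le_max_right (cκ p₅ * L) (5 / 4 * (cu p₅ 2 * L + cu p₅ 3 * L + cu p₅ 4 * L))]
  have key := lnl_X (d := d) (s := 0) (F := lmX ℓ Kf Tf (bp (q8 q).1) * L)
    (lm := lmX ℓ Kf Tf (bp (q8 q).1) * L) (k5 := k5X a.1) (z := a.1.1.z) (um' := (a.1.2.1 2).z)
    (δ := δ) (b := b) (l := l) CLh hd0 hd1 (by ring) (by linarith) δ0 (by linarith) b0 l0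
    (by linarith) (by
      have := mul_le_mul_of_nonneg_right hlm1 hL.le
      linarith) (by linarith) hk5 (by linarith)
  have hmv := GLo_move (d := d) (N := cN p₅) (k := cκ p₅) (q := q.1 (.inr ())) (p := svX (q8 q))
    (um := umv q) (x := cx' p₅) (D := d * cκ p₅) (q' := ((a.2.2.1 : ℝ) + 1) * Real.log 2)
    (p' := LN (clN a.1 qs)) (e := T) hL.le (by linarith) (by linarith) hT0.le
  have h9 : cN p₅ * L = cu p₅ 2 * L + cu p₅ 3 * L + cu p₅ 4 * L := by rw [hcN]; ring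
  rw [← h9] at key
  have e1 : ShSl (lmX ℓ Kf Tf (bp (q8 q).1) * L) a.1 qs δ b l =
    shB 0 (LN (clN a.1 qs)) (fun γ b v => E3N146.ShT (k5X a.1) a.1.1.z (a.1.2.1 2).z
      (LN (clN a.1 qs)) γ b v + lmX ℓ Kf Tf (bp (q8 q).1) * L) δ b l := rfl
  rw [e1]
  have e2 : GLq d q = GLo d (cN p₅) (cκ p₅) (q.1 (.inr ())) (svX (q8 q)) (umv q) (cx' p₅)
    (d * cκ p₅) := rfl
  rw [e2]
  linarith

set_option maxHeartbeats 1000000 in
/-- **`GkGUc (3/5)` of the single lists** -/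
theorem gkLoS {Λ : Type*} {π : Λ → DPar} {h : ℝ → ℝ} {c₀ : ℝ} (hpu : PU h c₀)
    (hP : ∀ lam, (π lam).OK)
    {Rh : ℝ} (hRh0 : 0 ≤ Rh) (hRh : ∀ u, cx h u ≠ 0 → |u| ≤ Rh) {e0 : ℝ}
    (he0 : 0 ≤ e0) (he0' : e0 ≤ 1) {c β d : ℝ} (hc0 : 0 ≤ c) (hc1 : c ≤ 1)
    {Par : Set (Fin 3 ⊕ Fin 5 → ℝ)} (hPar : ∀ p ∈ Par, ParOK p)
    {D5 : Set (Fin 5 → ℝ)} {ℓ Kf Tf : (Fin 5 → ℝ) → ℝ}
    (hDN : ∀ p : IX5 → ℝ, prX p ∈ Par → ZR β p → bN p ∈ D5)
    (hDR : ∀ p : IX5 → ℝ, prX p ∈ Par → ZR β p → bR p ∈ D5)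
    (hR5 : ∀ p : IX5 → ℝ, prX p ∈ Par → ZR β p → R5 (bN p))
    (hKN : ∀ p : IX5 → ℝ, prX p ∈ Par → ZR β p →
      Kf (bN p) = max (cκ (prX p)) (5 / 4 * cN (prX p)))
    (hKR : ∀ p : IX5 → ℝ, prX p ∈ Par → ZR β p →
      Kf (bR p) = max (cκ (prX p)) (5 / 4 * cN (prX p)))
    (hTN : ∀ (p : IX5 → ℝ) (v₀ v₁ v₂ b x' : ℝ), ChC c β Par p v₀ v₁ v₂ b x' →
      SinL β p v₀ v₁ v₂ → tpW c p b ≤ Tf (bN p))
    (hTR : ∀ (p : IX5 → ℝ) (v₀ v₁ v₂ b x' : ℝ), ChC c β Par p v₀ v₁ v₂ b x' →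
      SinL β p v₀ v₁ v₂ → tpW c p b ≤ Tf (bR p))
    (hcb : CBA π h Dk Kf Tf D5 ℓ) {ok : Λ × Eis → BcX → List Pq → Prop}
    (hok : ∀ lam a qs, ok lam a qs → okCX (π lam.1) lam.2 a qs)
    (hd0 : 0 ≤ d) (hd1 : d ≤ 1 / 2) (hcD : 4 * c ≤ d) (hβ : 17 / 100 ≤ β)
    (hDh : ∀ p ∈ Par, Dh (cκ p) (cu p 2) (cu p 3) (cu p 4) (cx' p) (d * cκ p))
    (hlm : ∀ p : IX5 → ℝ, prX p ∈ Par → ZR β p → lmX ℓ Kf Tf p ≤ 5 / 9 * (d * cκ (prX p))) :
    GkGUc (3 / 5) (alS π h) ok e0 c β Par (SinL β) (GLq d) :=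
  gkLo_S hpu hP hRh0 hRh he0 he0' hc0 hc1 hPar hDN hDR hR5 hKN hKR hTN hTR hcb hok
    (loT_S hc0 hPar hd0 hd1 hcD hβ hDh hlm)

end Crest.Agent.R017.GkLs968
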