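import Crest.Agent.R017.E3Ty_744
import Crest.Agent.R017.FrX_579

/-!
# Row 17, exceptional class, E3 (helper744): the T-half of E3 of `P1_0`, uniform bound

* `TB`     : the frames `Tf`, `Bf` of a child of `Dom8X c β Par DifL`
* **`tnX`** : helper61's input (T) of E3XU
-/

set_option autoImplicit false
set_option linter.unusedVariables false

noncomputable section

open Finset
open scoped Classical

namespace Crest.Agent.R017.E3Nx744

open Crest.Agent.R012 Crest.Agent.R012.Eis Crest.Agent.R012.MC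
open Crest.Agent.R012.LS2 (S mem_S)
open Crest.Agent.R017.C70
open Crest.Agent.R017.OT551
open Crest.Agent.R017.B770
open Crest.Agent.R017.FE47 (PU cx)
open Crest.Agent.R017.Prov71
open Crest.Agent.R017.ER911
open Crest.Agent.R017.I1146 hiding cN
open Crest.Agent.R017.XG702 (Pcs)
open Crest.Agent.R017.XT71 (Sys Win mx)
open Crest.Agent.R017.E5B71 Crest.Agent.R017.E5P571 Crest.Agent.R017.E5L770
open Crest.Agent.R017.ExBox960 Crest.Agent.R017.ExP960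
open Crest.Agent.R017.Sf770
open Crest.Agent.R017.P1l54 (ParOK)
open Crest.Agent.R017.P1X960
open Crest.Agent.R017.Sup271 (NPm)
open Crest.Agent.R017.PX764 (Dk)
open Crest.Agent.R017.TM708 (PD R5)
open Crest.Agent.R017.P10X764
open Crest.Agent.R017.E3Kc548 (LI afT)
open Crest.Agent.R017.E3Z548 (LVn)
open Crest.Agent.R017.E3N146 (ShT Tf Bf)
open Crest.Agent.R017.TNj90 (JBc)
open Crest.Agent.R017.RnP571 (Dh)
open Crest.Agent.R017.FrX579

set_option maxHeartbeats 1600000 in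
/-- the frames of the T-lines -/
lemma TB {κ N x y₃ y₄ u D Z v₀ v₁ v₂ x' b c β L t₀ vt n s0A w B : ℝ} (hL : 0 < L)
    (hκ0 : 8 / 9 ≤ κ) (hκ1 : κ ≤ 1) (ht₀ : 0 ≤ t₀) (ht₀' : t₀ ≤ 1 / 1000000)
    (hN : N = y₃ + y₄ + u) (hD : Dh κ y₃ y₄ u x D) (hc : 4 * (c * κ) ≤ D) (hc0 : 0 ≤ c)
    (hβ : 17 / 100 ≤ β) (hZ : β * κ ≤ Z) (hZ2 : Z ≤ 6 / 25 * κ)
    (hv0 : v₀ ≤ y₃) (hv1 : v₁ ≤ y₄) (hv2 : v₂ ≤ u) (hx0' : 0 ≤ x') (hx' : x' ≤ x)
    (hs2 : N - (v₀ + v₁ + v₂) ≤ b + (x - x')) (hs1 : b ≤ N - (v₀ + v₁ + v₂)) (hb : 0 ≤ b)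
    (htop : vt ≤ min (min (2 * N - κ) (3 / 4 * N) + 11 / 5 * x)
      (min (2 * N - κ) (3 / 4 * N) + 11 / 5 * x + 2 * (c * κ) - 2 * b) * L + 2 * (t₀ * L))
    (hn : |n - (v₀ + v₁ + v₂ + x') * L| ≤ t₀ * L)
    (hn0 : (κ / 2 - 2 * x) * L - t₀ * L ≤ n) (hn1 : n ≤ (N + x) * L + t₀ * L)
    (hs : |s0A - min (min v₀ v₁) (min (v₀ - (y₃ - Z)) (v₁ + (y₃ - Z))) * L| ≤ t₀ * L) :
    Tf (κ * L) (N * L) (x * L) (max 0 (5 / 4 * (N * L) - κ * L)) vt n (40 * (t₀ * L)) ∧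
    Bf (κ * L) (N * L) (x * L) (max 0 (5 / 4 * (N * L) - κ * L)) vt n s0A (D * L)
      ((N - (v₀ + v₁ + v₂)) * L) ((x - x') * L) (40 * (t₀ * L)) := by
  obtain ⟨k0, u4, y43, u0, y3, N1, near, x0, adm, d0, d1⟩ := hD
  rw [← hN] at N1 adm
  have htL : 0 ≤ t₀ * L := by positivity
  obtain ⟨n1, n2⟩ := abs_le.1 hn
  obtain ⟨s1, s2⟩ := abs_le.1 hs
  have t1 : 40 * (t₀ * L) ≤ κ * L / 20000 := by
    have h1 := mul_le_mul_of_nonneg_right ht₀' hL.le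
    have h2 := mul_le_mul_of_nonneg_right hκ0 hL.le
    linarith
  have hm : 0 ≤ N - (v₀ + v₁ + v₂) := by rw [hN]; linarith
  have hadm : (x * L ≤ κ * L / 320 ∧ (x * L = 0 ∨ N * L + x * L ≤ 4 / 5 * (κ * L))) ∨
      (3 / 4 * (κ * L) ≤ N * L ∧ x * L ≤ κ * L / 36 ∧
        x * L + 7 / 10 * (N * L) ≤ 199 / 360 * (κ * L)) := by
    rcases adm with ⟨a0, a1⟩ | ⟨a1, a2, a3⟩
    · left
      have b0 : x ≤ κ / 320 := by linarith
      have b1 := mul_le_mul_of_nonneg_right b0 hL.le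
      refine ⟨by linarith, ?_⟩
      rcases a1 with a1 | a1
      · left; rw [a1, zero_mul]
      · right
        have b2 := mul_le_mul_of_nonneg_right a1 hL.le
        linarith
    · right
      have b0 : x ≤ κ / 36 := by linarith
      have b1 := mul_le_mul_of_nonneg_right b0 hL.le
      have b2 := mul_le_mul_of_nonneg_right a1 hL.le
      have b3 := mul_le_mul_of_nonneg_right a3 hL.le
      exact ⟨by linarith, by linarith, by linarith⟩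
  have hex0 := le_max_left 0 (5 / 4 * (N * L) - κ * L)
  have hex1 := le_max_right 0 (5 / 4 * (N * L) - κ * L)
  set mm : ℝ := min (2 * N - κ) (3 / 4 * N) with hmm
  have hm1 : mm ≤ 2 * N - κ := min_le_left _ _
  have hm2 : mm ≤ 3 / 4 * N := min_le_right _ _
  have h1 := mul_le_mul_of_nonneg_right (min_le_left (mm + 11 / 5 * x)
    (mm + 11 / 5 * x + 2 * (c * κ) - 2 * b)) hL.le
  have h2 := mul_le_mul_of_nonneg_right (min_le_right (mm + 11 / 5 * x)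
    (mm + 11 / 5 * x + 2 * (c * κ) - 2 * b)) hL.le
  have h3 := mul_le_mul_of_nonneg_right hm1 hL.le
  have h4 := mul_le_mul_of_nonneg_right hm2 hL.le
  have h5 := mul_le_mul_of_nonneg_right hs2 hL.le
  have h6 := mul_le_mul_of_nonneg_right hc hL.le
  have x0L := mul_nonneg x0 hL.le
  have kL : 0 < κ * L := by positivity
  have NL := mul_le_mul_of_nonneg_right N1 hL.le
  have hmL := mul_nonneg hm hL.le
  have hyL := mul_nonneg (sub_nonneg.2 hx') hL.le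
  have hx0L := mul_nonneg hx0' hL.le
  have hdL := mul_le_mul_of_nonneg_right d1 hL.le
  have hsmin : 17 / 100 * κ - (N - (v₀ + v₁ + v₂)) ≤
      min (min v₀ v₁) (min (v₀ - (y₃ - Z)) (v₁ + (y₃ - Z))) := by
    have hβκ : 17 / 100 * κ ≤ β * κ := mul_le_mul_of_nonneg_right hβ k0.le
    refine le_min (le_min ?_ ?_) (le_min ?_ ?_) <;> rw [hN] <;> linarith
  have hsL := mul_le_mul_of_nonneg_right hsmin hL.le
  refine ⟨⟨kL, x0L, by linarith, hadm, hex0, hex1, by linarith, by linarith, by linarith,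
    by linarith, by linarith, t1⟩, ⟨kL, x0L, by linarith, hadm, hex0, hex1, hmL, hyL, by linarith,
    by linarith, by linarith, by linarith, by linarith, by linarith, by linarith, by linarith,
    by linarith, t1⟩⟩

/-- the shift of the numbers of the lists as a factor -/
lemma jbc_shift {Y W F J lm : ℝ} {a : BcX} {qs : List Pq} {al : Eis → ℂ} (hF : 0 ≤ F)
    (hlm : 0 ≤ lm) (h : JBc Y W F J (ShXl lm a qs) al) :
    JBc Y W (F * Real.exp lm) J (ShXT a qs) al := by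
  intro d hd B V h1 h2 h3 h4 t
  refine (h d hd B V h1 h2 h3 h4 t).trans ?_
  refine mul_le_mul_of_nonneg_right ?_ (Real.rpow_nonneg (by positivity) _)
  rw [mul_assoc, ← Real.exp_add]
  refine mul_le_mul_of_nonneg_left (Real.exp_le_exp.2 ?_) hF
  unfold ShXl ShXT shB
  refine max_le ?_ ?_
  · have := le_max_left (ShT (k5X a) a.1.z (a.2.1 2).z (LN (clN a qs)) (Real.log (nm d))
      (Real.log B) (Real.log V)) (5 / 3 * LN (clN a qs) +
        I1K764.bcx (s0X a) (Real.log (nm d)) (Real.log B) (Real.log V))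
    linarith
  · have := le_max_right (ShT (k5X a) a.1.z (a.2.1 2).z (LN (clN a qs)) (Real.log (nm d))
      (Real.log B) (Real.log V)) (5 / 3 * LN (clN a qs) +
        I1K764.bcx (s0X a) (Real.log (nm d)) (Real.log B) (Real.log V))
    linarith

variable {Λ : Type*}

set_option maxHeartbeats 4000000 in
/-- **the T-half of E3 of `P1_0` in class E** -/
theorem tnX {π : Λ → DPar} {h : ℝ → ℝ} {c₀ : ℝ} (hpu : PU h c₀) (hP : ∀ lam, (π lam).OK)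
    (hex : ∀ lam, ¬ NPm (π lam).n (π lam).ψ (π lam).l₂ 1)
    {Rh : ℝ} (hRh0 : 0 ≤ Rh) (hRh : ∀ u, cx h u ≠ 0 → |u| ≤ Rh) {e0 : ℝ}
    (he0 : 0 ≤ e0) (he0' : e0 ≤ 1 / 64) {c β : ℝ} (hc0 : 0 ≤ c) (hc1 : c ≤ 1)
    {Par : Set (Fin 3 ⊕ Fin 5 → ℝ)} (hPar : ∀ p ∈ Par, ParOK p)
    {D5 : Set (Fin 5 → ℝ)} {ℓ Kf Tf : (Fin 5 → ℝ) → ℝ}
    (hDN : ∀ p : IX5 → ℝ, prX p ∈ Par → ZR β p → bN p ∈ D5)
    (hDR : ∀ p : IX5 → ℝ, prX p ∈ Par → ZR β p → bR p ∈ D5)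
    (hR5 : ∀ p : IX5 → ℝ, prX p ∈ Par → ZR β p → R5 (bN p))
    (hKN : ∀ p : IX5 → ℝ, prX p ∈ Par → ZR β p →
      Kf (bN p) = max (cκ (prX p)) (5 / 4 * cN (prX p)))
    (hKR : ∀ p : IX5 → ℝ, prX p ∈ Par → ZR β p →
      Kf (bR p) = max (cκ (prX p)) (5 / 4 * cN (prX p)))
    (hTN : ∀ (p : IX5 → ℝ) (v₀ v₁ v₂ b x' : ℝ), ChC c β Par p v₀ v₁ v₂ b x' →
      DifL p v₀ v₁ v₂ → tpW c p b ≤ Tf (bN p))
    (hTR : ∀ (p : IX5 → ℝ) (v₀ v₁ v₂ b x' : ℝ), ChC c β Par p v₀ v₁ v₂ b x' →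
      DifL p v₀ v₁ v₂ → tpW c p b ≤ Tf (bR p))
    (hcb : CBA π h Dk Kf Tf D5 ℓ)
    {Dp : (Fin 3 ⊕ Fin 5 → ℝ) → ℝ}
    (hDh : ∀ p ∈ Par, Dh (cκ p) (cu p 2) (cu p 3) (cu p 4) (cx' p) (Dp p))
    (hcD : ∀ p ∈ Par, 4 * (c * cκ p) ≤ Dp p)
    (hβ : 17 / 100 ≤ β) (hβ' : β ≤ 1 / 5) {L0 : (Fin 3 ⊕ Fin 5 → ℝ) → ℝ}
    (hL0 : ∀ p : IX5 → ℝ, prX p ∈ Par → ZR β p →
      max 0 (5 / 4 * cN (prX p) - cκ (prX p)) + lmX ℓ Kf Tf p ≤ L0 (prX p)) :
    ∀ ε : ℝ, 0 < ε → ∃ δ : ℝ, 0 < δ ∧ ∀ (lam : Λ × Eis) (N : ℕ) (B cc : ℝ), 1 ≤ cc →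
    ∃ δ' : ℝ, 0 < δ' ∧ ∃ X₀ : ℝ, 1 < X₀ ∧ ∀ X : ℝ, X₀ ≤ X → ∀ (a : BcX) (qs : List Pq),
      qs.length ≤ N → (∀ p ∈ qs, Dq.lump p ∨ Dq.nl X p ≤ δ) → ∀ q ∈ Dom8X c β Par DifL,
      Win S8X q.1 δ N B δ' X a → (∀ t, |Dq.mass X qs t - q.2 t| ≤ δ) → Dq.Good X δ' B qs →
      (∀ p ∈ qs, ¬ Dq.lump p) → okCX (π lam.1) lam.2 a qs ∧ okD a → ∀ Yg : ℝ,
      ∑ i ∈ LI (1 / 10) (2 ^ nw c a), ∑ d ∈ (JS (nw c a)).image Prod.fst,
        ∑ e ∈ S (Real.exp (e0 * a.1.l)),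
        LVn (afT (alX π h lam a qs) (Real.exp (e0 * a.1.l))) {d} {e} cc Yg (Real.exp a.1.l)
          (HX cc a (LN (clN a qs)) i d) (Real.exp i) (Real.exp 1 * 2 ^ nw c a)
          (Real.exp (a.1.l / 22)) 2 (Real.sqrt (cc * Real.exp i)) 0 ≤ X ^ (E8X L0 q + ε) := by
  intro ε hε
  obtain ⟨t₀, ht₀, ht₀', ht₀ε⟩ : ∃ t₀ : ℝ, 0 < t₀ ∧ t₀ ≤ 1 / 1000000 ∧ t₀ ≤ ε / 2000 :=
    ⟨min (1 / 1000000) (ε / 2000), lt_min (by norm_num) (by positivity), min_le_left _ _,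
      min_le_right _ _⟩
  have hε8 : 0 < ε / 8 := by positivity
  obtain ⟨δ, hδ, HF⟩ := frX hpu hP hex hRh0 hRh he0 (he0'.trans (by norm_num)) hc0 hc1 hPar hDN
    hDR hR5 hKN hKR hTN hTR hcb hε8 ht₀
  refine ⟨δ, hδ, fun lam N B cc hcc => ?_⟩
  have he1 : (1 : ℝ) ≤ Real.exp 1 := Real.one_le_exp zero_le_one
  obtain ⟨B₂, J, R', hB₂, hJ, hR', δ', hδ', X₁, hX₁, HF⟩ := HF lam N B (cc * Real.exp 1)
    (one_le_mul_of_one_le_of_one_le hcc he1)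
  obtain ⟨C, hC, HT⟩ := tnF (R := R') hR' hε8 hJ (B₂ := B₂) (by linarith) hcc
  have hlc : 0 ≤ Real.log cc := Real.log_nonneg hcc
  set Q : ℝ := 2 + (2 * Real.log cc + 4) / t₀ + 8 * Real.log (C + 1) / ε with hQ
  have hQ1 : 0 ≤ (2 * Real.log cc + 4) / t₀ := by positivity
  have hC1 : 0 ≤ Real.log (C + 1) := Real.log_nonneg (by linarith)
  have hQ2 : 0 ≤ 8 * Real.log (C + 1) / ε := by positivity
  refine ⟨δ', hδ', max X₁ (Real.exp Q), hX₁.trans_le (le_max_left _ _), ?_⟩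
  intro X hX a qs hlen hgl q hq hw hm hg hl hok Yg
  have hX1' : X₁ ≤ X := (le_max_left _ _).trans hX
  have hXQ : Real.exp Q ≤ X := (le_max_right _ _).trans hX
  have hX1 : 1 < X := by linarith
  have hX0 : 0 < X := by linarith
  set L := Real.log X with hL
  have hQL : Q ≤ L := by
    have := Real.log_le_log (Real.exp_pos Q) hXQ
    rwa [Real.log_exp] at this
  have hL0' : 0 < L := by linarith
  have hLt : 2 * Real.log cc + 4 ≤ t₀ * L := by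
    have h1 : (2 * Real.log cc + 4) / t₀ ≤ L := by linarith
    rw [div_le_iff₀ ht₀] at h1
    linarith
  have hCX : C ≤ X ^ (ε / 8) := by
    have h1 : 8 * Real.log (C + 1) / ε ≤ L := by linarith
    rw [div_le_iff₀ hε] at h1
    have h2 : C + 1 ≤ X ^ (ε / 8) := by
      rw [Real.rpow_def_of_pos hX0, ← hL, ← Real.exp_log (show 0 < C + 1 by linarith)]
      exact Real.exp_le_exp.2 (by linarith)
    linarith
  have FR := HF X hX1' a qs hlen hgl q hq hw hm hg hl hok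
  obtain ⟨X3, kl, zl, Al, nl, n0, n1, np, yl, yX, sl, Y1, YX, EX, jb, adm⟩ := FR
  obtain ⟨hq1, hq2, hq3, hq4⟩ := hq
  set p : IX5 → ℝ := bp q.1 with hp
  have hpar : prX p ∈ Par := hq1.par
  have hzr : ZR β p := hq1.zr
  have hPp := hPar _ hpar
  set n := LN (clN a qs) with hn
  have hκp : 0 < cκ (prX p) := by linarith [hPp.κ0]
  have hlm0 : 0 ≤ lmX ℓ Kf Tf p := le_max_left _ _
  have hXB : X ≤ X ^ B₂ := by
    calc X = X ^ (1 : ℝ) := (Real.rpow_one X).symm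
      _ ≤ X ^ B₂ := Real.rpow_le_rpow_of_exponent_le hX1.le hB₂
  have hZ2 : p (.inr 1) ≤ 6 / 25 * cκ (prX p) := by
    have h1 := (hzr 1).2
    have h2 := hPp.κ0
    linarith
  have hvt : (1 : ℝ) + nw c a * Real.log 2 ≤ tpW c p (q.1 (.inr 3)) * L + 2 * (t₀ * L) := by
    rw [Real.log_pow] at yl
    linarith
  obtain ⟨hTf, hBf⟩ := TB (N := cN (prX p)) (x := cx' (prX p)) (y₃ := cu (prX p) 2)
    (y₄ := cu (prX p) 3) (u := cu (prX p) 4) (D := Dp (prX p)) (Z := p (.inr 1))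
    (v₀ := q.1 (.inr 0)) (v₁ := q.1 (.inr 1)) (v₂ := q.1 (.inr 2)) (x' := q.2 .am)
    (b := q.1 (.inr 3)) (c := c) (β := β) (t₀ := t₀) (vt := 1 + nw c a * Real.log 2) (n := n)
    (s0A := s0X a) (w := 0) (B := 0) hL0' hPp.κ0 hPp.κ1 ht₀.le ht₀' rfl (hDh _ hpar)
    (hcD _ hpar) hc0 hβ (hzr 1).1 hZ2 hq2.1.1 hq2.1.2.1 hq2.1.2.2 hq1.x0 hq1.x1 hq1.s2 hq1.s1
    hq1.b0 hvt nl n0 n1 sl
  have hprim : ∀ m, alX π h lam a qs m ≠ 0 → IsPrim m := fun m hm0 =>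
    ((mem_S (by linarith)).1 (adm.sup m hm0)).2.1
  have hlmL : 0 ≤ lmX ℓ Kf Tf p * L := by positivity
  have hjb2 := jbc_shift (Real.rpow_nonneg hX0.le _) hlmL jb
  have ecw : cc * Real.exp 1 * 2 ^ nw c a = cc * (Real.exp 1 * 2 ^ nw c a) := by ring
  rw [ecw] at hjb2 yX
  have hkA0 : 0 ≤ a.1.l := by
    have h1 := (abs_le.1 kl).1
    have h2 := hBf.t1
    have h3 := hBf.k0
    have h4 : 0 ≤ t₀ * L := by positivity
    linarith
  have key := HT X X3 (nw c a) (cκ (prX p) * L) (cN (prX p) * L) (cx' (prX p) * L)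
    (max 0 (5 / 4 * (cN (prX p) * L) - cκ (prX p) * L)) a.1.l (a3 a.1.toBd) a.1.z
    (max 0 (5 / 4 * a3 a.1.toBd - a.1.l)) n (s0X a) _ _ _ (40 * (t₀ * L)) (t₀ * L)
    (a.2.1 2).z (Real.log cc + 1) e0 (YcX Rh a qs) (X ^ (ε / 8) * Real.exp (lmX ℓ Kf Tf p * L))
    (alX π h lam a qs) hTf hBf rfl rfl (by positivity) (by linarith) kl Al zl hkA0 (by linarith)
    (by linarith) (by linarith) he0' Y1 YX (yX.trans hXB) (by positivity) hjb2 adm hprim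
    (fun i d _ => HX cc a n i d) Yg (fun i d e => HX_pos) (fun i d e hh => HX_small hh)
    (fun i d e hh => HX_large hh)
  refine key.trans ?_
  have hn2 := (abs_le.1 nl).2
  have hL0p := mul_le_mul_of_nonneg_right (hL0 p hpar hzr) hL0'.le
  have hexL : max 0 (5 / 4 * (cN (prX p) * L) - cκ (prX p) * L) =
      max 0 (5 / 4 * cN (prX p) - cκ (prX p)) * L := by
    rw [max_mul_of_nonneg _ _ hL0'.le, zero_mul]
    congr 1
    ring
  have htL : 0 ≤ t₀ * L := by positivity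
  have htε : 1000 * (t₀ * L) ≤ ε / 2 * L := by
    have := mul_le_mul_of_nonneg_right ht₀ε hL0'.le
    linarith
  calc C * X ^ (ε / 8) * (X ^ (ε / 8) * Real.exp (lmX ℓ Kf Tf p * L)) *
        Real.exp (cκ (prX p) * L + n + max 0 (5 / 4 * (cN (prX p) * L) - cκ (prX p) * L) +
          12 * (40 * (t₀ * L)))
      ≤ X ^ (ε / 8) * X ^ (ε / 8) * (X ^ (ε / 8) * Real.exp (lmX ℓ Kf Tf p * L)) *
        Real.exp (cκ (prX p) * L + n + max 0 (5 / 4 * (cN (prX p) * L) - cκ (prX p) * L) +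
          12 * (40 * (t₀ * L))) := by gcongr
    _ = Real.exp (ε / 8 * L * 3 + lmX ℓ Kf Tf p * L + (cκ (prX p) * L + n +
          max 0 (5 / 4 * (cN (prX p) * L) - cκ (prX p) * L) + 12 * (40 * (t₀ * L)))) := by
        rw [Real.rpow_def_of_pos hX0, ← hL]
        simp only [← Real.exp_add]
        congr 1
        ring
    _ ≤ Real.exp (L * (E8X L0 q + ε)) := by
        refine Real.exp_le_exp.2 ?_
        unfold svX at hn2
        unfold P1X960.E8X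
        rw [← hp, hexL]
        nlinarith
    _ = X ^ (E8X L0 q + ε) := by rw [Real.rpow_def_of_pos hX0]

end Crest.Agent.R017.E3Nx744
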