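import Crest.Agent.R017.E3Nb_146

/-!
# Row 17, R8 (E3): the T-part of the numbers of a level from joint numbers (helper90)

The same as helper146's `TNblk`, `TNw`, `TNw1` for any sequence with joint numbers

* `JBc`  : the joint numbers `JB ≤ F e^(Sh δ b v) (1+|t|)^J`
* `jbc_of_cell` : natural lists, from `CellS`
* `TNj`  : blocks of `d`;  `TNjw` : weights in `d`;  `TNj1` : total weight `1` in `e`
-/

set_option autoImplicit false

noncomputable section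

open Finset MeasureTheory
open scoped ComplexConjugate Classical

namespace Crest.Agent.R017.TNj90

open Crest.Agent.R012 Crest.Agent.R012.Eis Crest.Agent.R012.MC
open Crest.Agent.R012.LS2 (S mem_S)
open Crest.Agent.R017.CM106 (CS FS TG)
open Crest.Agent.R017.C70
open Crest.Agent.R017.HP842 (Pc pc sqc alL)
open Crest.Agent.R017.B770
open Crest.Agent.R017.FE47 (PU cx)
open Crest.Agent.R017.Prov71
open Crest.Agent.R017.Leg381 (Pf alF SF LF natl alF_natl)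
open Crest.Agent.R017.I1146 (ChN LN cN SN Dom cN_nonneg CellS LipS numS)
open Crest.Agent.R017.E1551 hiding tau Dg
open Crest.Agent.R017.E3D579 (TE0)
open Crest.Agent.R017.E3T829 (cg)
open Crest.Agent.R017.OT551
open Crest.Agent.R017.E3N146 (blk_log blk_card blk_lt wsum TN_sum e_line esum)

/-- **joint numbers of a sequence** -/
def JBc (Y W F J : ℝ) (Sh : ℝ → ℝ → ℝ → ℝ) (al : Eis → ℂ) : Prop :=
  ∀ d ∈ S Y, ∀ B V : ℝ, 1 ≤ B → B ≤ Y → 1 ≤ V → V ≤ W / (nm d : ℝ) ^ 2 → ∀ t : ℝ,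
    JB Y al (fun _ => True) d B V t ≤
      F * Real.exp (Sh (Real.log (nm d)) (Real.log B) (Real.log V)) * (1 + |t|) ^ J

lemma JBc.mono {Y W W' F J : ℝ} {Sh : ℝ → ℝ → ℝ → ℝ} {al : Eis → ℂ} (h : JBc Y W' F J Sh al)
    (hW : W ≤ W') : JBc Y W F J Sh al := fun d hd B V h1 h2 h3 h4 t =>
  h d hd B V h1 h2 h3 (h4.trans (by gcongr)) t

/-- natural lists -/
theorem jbc_of_cell {h : ℝ → ℝ} {c : ℝ} (hpu : PU h c) (N : ℕ) {ε M B₂ : ℝ}
    (hε : 0 < ε) (hM : 0 ≤ M) (hB₂ : 0 < B₂) {ν Dd : ℝ} (hν : 1 ≤ ν) (hDd : 0 ≤ Dd) {L : ℝ}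
    (hL : 0 ≤ L) :
    ∃ C r : ℝ, 0 ≤ C ∧ 0 ≤ r ∧ ∀ X : ℝ, 3 ≤ X → ∀ (P : DPar), P.OK → ∀ (q : Eis) (ps : List Pq),
      ps.length ≤ N → (∀ p ∈ ps, 0 ≤ p.z ∧ p.z ≤ Real.log X) →
      ∀ (Y W T F : ℝ) (Sh : ℝ → ℝ → ℝ → ℝ), 1 ≤ Y → Y ≤ X ^ B₂ → W * ν ≤ X →
      Real.log (W * ν) ≤ T → 0 ≤ F → LipS L Sh →
      CellS h P q ps (X ^ B₂) r M T (B₂ * Real.log X) F Sh →
      ∀ al : Eis → ℂ, Dom ν Dd (sqc q (alF 1 1 P h (natl ps))) al →
      JBc Y W (C * X ^ ε * F) ((N : ℝ) * M) Sh al := by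
  obtain ⟨Cb, rb, hCb, hrb, Hb⟩ := numS hpu N hB₂.le hε hM hL
  set lν := Real.log ν with hlν
  have hlν0 : 0 ≤ lν := Real.log_nonneg hν
  refine ⟨Dd * Real.exp (L * lν) * Cb, rb + 1, by positivity, by positivity, ?_⟩
  intro X hX P hP q ps hN hz Y W T F Sh hY1 hYu hWX hWT hF hLip hcl al hdom
  have hX1 : (1 : ℝ) ≤ X := by linarith
  have hX0 : 0 < X := by linarith
  have hY0 : 0 < Y := by linarith
  have hν0 : 0 < ν := by linarith
  intro d hd B V hB1 hB2 hV1 hV2 t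
  obtain ⟨h2, h1, -⟩ := (mem_S hY0.le).1 hd
  have hdn : (0 : ℝ) < nm d := by exact_mod_cast nm_pos.2 h1.ne_zero
  have hd1 : (1 : ℝ) ≤ nm d := by exact_mod_cast nm_pos.2 h1.ne_zero
  have hV0 : 0 < V := by linarith
  have hB0 : 0 < B := by linarith
  have hVν : 1 ≤ V * ν := one_le_mul_of_one_le_of_one_le hV1 hν
  have hVd : V * (nm d : ℝ) ^ 2 ≤ W := (le_div_iff₀ (by positivity)).mp hV2
  have hW0 : 0 < W := lt_of_lt_of_le (by positivity) hVd
  have hVW : V ≤ W := (le_mul_of_one_le_right hV0.le (one_le_pow₀ hd1)).trans hVd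
  have hVX : V * ν ≤ X := (mul_le_mul_of_nonneg_right hVW hν0.le).trans hWX
  have hVT0 : Real.log V + 2 * Real.log (nm d) ≤ Real.log W := by
    have h3 := Real.log_le_log (by positivity) hVd
    rw [Real.log_mul hV0.ne' (by positivity), Real.log_pow] at h3
    push_cast at h3
    exact h3
  have hVT : Real.log (V * ν) ≤ T - 2 * Real.log (nm d) := by
    rw [Real.log_mul hV0.ne' hν0.ne']
    rw [Real.log_mul hW0.ne' hν0.ne'] at hWT
    linarith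
  have hlB : Real.log B ≤ B₂ * Real.log X + 1 := by
    have h3 := Real.log_le_log hB0 (hB2.trans hYu)
    rw [Real.log_rpow hX0] at h3
    linarith
  have h5 := Hb X hX P hP q ps hN hz T (B₂ * Real.log X) F Sh hF hLip hcl d h1
    (h2.trans hYu) B (V * ν) Y t (fun _ => True) hB1 (hB2.trans hYu) hlB hVν hVX hY0.le hVT
  have h6 := hdom.jb Y (fun _ => True) d B V t h1 hY0.le hV1
  have hlVν : Real.log (V * ν) = Real.log V + lν := by
    rw [Real.log_mul hV0.ne' hν0.ne']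
  have h7 : Real.exp (Sh (Real.log (nm d)) (Real.log B) (Real.log (V * ν))) ≤
      Real.exp (L * lν) * Real.exp (Sh (Real.log (nm d)) (Real.log B) (Real.log V)) := by
    rw [← Real.exp_add]
    refine Real.exp_le_exp.2 ?_
    have h3 := hLip (Real.log (nm d)) (Real.log B) (Real.log (V * ν)) (Real.log B)
      (Real.log V)
    rw [sub_self, abs_zero, zero_add, hlVν, add_sub_cancel_left, abs_of_nonneg hlν0] at h3
    rw [hlVν]
    linarith
  calc JB Y al (fun _ => True) d B V t ≤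
        Dd * (Cb * X ^ ε * F * Real.exp (Sh (Real.log (nm d)) (Real.log B)
          (Real.log (V * ν))) * (1 + |t|) ^ ((N : ℝ) * M)) :=
        h6.trans (mul_le_mul_of_nonneg_left h5 hDd)
    _ ≤ Dd * (Cb * X ^ ε * F * (Real.exp (L * lν) *
          Real.exp (Sh (Real.log (nm d)) (Real.log B) (Real.log V))) *
          (1 + |t|) ^ ((N : ℝ) * M)) := by
        have h9 : 0 ≤ Cb * X ^ ε * F := by positivity
        exact mul_le_mul_of_nonneg_left (mul_le_mul_of_nonneg_right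
          (mul_le_mul_of_nonneg_left h7 h9) (by positivity)) hDd
    _ = _ := by ring

/-- **the T-lines, blocks of `d`** -/
theorem TNj {R : ℝ} (hR : 0 ≤ R) {ε J B₂ : ℝ} (hε : 0 < ε) (hJ : 0 ≤ J) (hB₂ : 0 < B₂) :
    ∃ C : ℝ, 0 ≤ C ∧ ∀ X : ℝ, 3 ≤ X → ∀ (n Y W E0 F : ℝ) (Sh : ℝ → ℝ → ℝ → ℝ),
      1 ≤ Y → Y ≤ X ^ B₂ → W ≤ X ^ B₂ → 0 < E0 → 0 ≤ F →
      ∀ al : Eis → ℂ, JBc Y W F J Sh al →
      Adm Y (Real.exp n) R al → ∀ (Ds EE : Finset Eis) (m : ℝ),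
      (∀ d ∈ Ds, IsPrim d) → (∀ e ∈ EE, e ∈ S E0) →
      ((∀ d ∈ Ds, ∀ b v : ℝ, 0 ≤ b → 0 ≤ v → v ≤ Real.log W - 2 * Real.log (nm d) →
          Sh (Real.log (nm d)) b v + 2 * Real.log (nm d) + b - 2 * max 0 (b - Real.log E0) ≤ m) →
        ∀ (om : Eis → ℝ) (As : Eis → Eis → Finset Eis) (dl : Eis → Eis), 0 ≤ om 1 → om 1 ≤ 1 →
        (∀ d ∈ Ds, ∀ j ∈ As d 1, CF j ∧ (nm j : ℝ) * (nm d : ℝ) ^ 2 ≤ W) →
        E3Z548.TN (fun d _ m => al (d * m)) (fun e => (nm e : ℝ)) Ds EE om {1} As dl ≤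
          C * X ^ ε * F * Real.exp (-(n / 3)) * Real.exp m) ∧
      ((∀ d ∈ Ds, ∀ b v : ℝ, 0 ≤ b → 0 ≤ v → v ≤ Real.log W - 2 * Real.log (nm d) →
          Sh (Real.log (nm d)) b v + 2 * Real.log (nm d) + b - 2 * max 0 (b - Real.log E0) +
            (Real.log W - v - 2 * Real.log (nm d)) / 3 ≤ m) →
        ∀ (om : Eis → ℝ) (Gs : Finset Eis) (As : Eis → Eis → Finset Eis) (dl : Eis → Eis),
        (∀ γ ∈ Gs, IsPrim γ ∧ 0 ≤ om γ ∧ om γ ≤ (nm γ : ℝ) ^ (-(1 / 2) : ℝ)) →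
        (∀ d ∈ Ds, ∀ γ ∈ Gs, ∀ j ∈ As d γ, j ≠ 0 ∧
          (nm j : ℝ) * (nm d : ℝ) ^ 2 * (nm γ : ℝ) ^ 3 ≤ W) →
        E3Z548.TN (fun d _ m => al (d * m)) (fun e => (nm e : ℝ)) Ds EE om Gs As dl ≤
          C * X ^ ε * F * Real.exp (-(n / 3)) * Real.exp m) := by
  set ε' : ℝ := ε / B₂ with hε'
  have hε'0 : 0 < ε' := by positivity
  set A : ℕ := ⌈J⌉₊ + 2 with hA
  have hA2 : 2 ≤ A := by omega
  have hJA : J + 1 < A := by
    have h1 := Nat.le_ceil J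
    rw [hA]
    push_cast
    linarith
  obtain ⟨C₁, hC₁, H₁⟩ := TN_cf_Jd R hR A hA2 (J := J) hJA hJ hε'0
  obtain ⟨C₂, hC₂, H₂⟩ := TN_Jd R hR A hA2 (J := J) hJA hJ hε'0
  refine ⟨C₁ + C₂, by positivity, ?_⟩
  intro X hX n Y W E0 F Sh hY1 hYu hWX hE0 hF al hjbc hadm Ds EE m hDs hEE
  have hX1 : (1 : ℝ) ≤ X := by linarith
  have hX0 : 0 < X := by linarith
  have hY0 : 0 < Y := by linarith
  set Pb : ℝ := X ^ B₂ with hPb
  have hPb1 : 1 ≤ Pb := Real.one_le_rpow hX1 hB₂.le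
  have hPe : Pb ^ ε' = X ^ ε := by
    rw [hPb, ← Real.rpow_mul hX0.le]
    congr 1
    rw [hε']
    field_simp
  set Mn : ℝ := F * Real.exp m with hMn
  have hMn0 : 0 ≤ Mn := by positivity
  have hexn : Real.exp n ^ (-(1 / 3) : ℝ) = Real.exp (-(n / 3)) := by
    rw [← Real.exp_mul]; congr 1; ring
  -- the joint numbers of `al`
  have hjb : ∀ d ∈ S Y, ∀ B V, 1 ≤ B → B ≤ Y → 1 ≤ V → V ≤ W / (nm d : ℝ) ^ 2 → ∀ t : ℝ,
      JB Y al (fun _ => True) d B V t ≤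
        F * Real.exp (Sh (Real.log (nm d)) (Real.log B) (Real.log V)) * (1 + |t|) ^ J ∧
      Real.log V ≤ Real.log W - 2 * Real.log (nm d) ∧ 0 < W := by
    intro d hd B V hB1 hB2 hV1 hV2 t
    obtain ⟨h2, h1, -⟩ := (mem_S hY0.le).1 hd
    have hdn : (0 : ℝ) < nm d := by exact_mod_cast nm_pos.2 h1.ne_zero
    have hV0 : 0 < V := by linarith
    have hVd : V * (nm d : ℝ) ^ 2 ≤ W := (le_div_iff₀ (by positivity)).mp hV2
    have hW0 : 0 < W := lt_of_lt_of_le (by positivity) hVd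
    have hVT0 : Real.log V + 2 * Real.log (nm d) ≤ Real.log W := by
      have h3 := Real.log_le_log (by positivity) hVd
      rw [Real.log_mul hV0.ne' (by positivity), Real.log_pow] at h3
      push_cast at h3
      exact h3
    exact ⟨hjbc d hd B V hB1 hB2 hV1 hV2 t, by linarith, hW0⟩
  -- the weights
  have hwt : ∀ d ∈ S Y, ∀ B, 1 ≤ B → Real.exp (-(2 * Real.log (nm d)) -
      Real.log B + 2 * max 0 (Real.log B - Real.log E0)) =
      ((nm d : ℝ) ^ 2)⁻¹ * (B⁻¹ * (max 1 (B / E0)) ^ 2) := by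
    intro d hd B hB1
    have hB0 : 0 < B := by linarith
    obtain ⟨-, h1, -⟩ := (mem_S hY0.le).1 hd
    have hdn : (0 : ℝ) < nm d := by exact_mod_cast nm_pos.2 h1.ne_zero
    have e2 : Real.exp (-(2 * Real.log (nm d))) = ((nm d : ℝ) ^ 2)⁻¹ := by
      rw [Real.exp_neg, two_mul, Real.exp_add, Real.exp_log hdn, sq]
    have e3 : Real.exp (-Real.log B) = B⁻¹ := by rw [Real.exp_neg, Real.exp_log hB0]
    have e4 : Real.exp (2 * max 0 (Real.log B - Real.log E0)) = (max 1 (B / E0)) ^ 2 := by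
      have h5 : Real.exp (max 0 (Real.log B - Real.log E0)) = max 1 (B / E0) := by
        rw [Real.exp_monotone.map_max, Real.exp_zero, Real.exp_sub, Real.exp_log hB0,
          Real.exp_log hE0]
      rw [two_mul, Real.exp_add, h5, sq]
    have e5 : -(2 * Real.log (nm d)) - Real.log B + 2 * max 0 (Real.log B - Real.log E0) =
        -(2 * Real.log (nm d)) + (-Real.log B) + 2 * max 0 (Real.log B - Real.log E0) := by ring
    rw [e5, Real.exp_add, Real.exp_add, e2, e3, e4]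
    ring
  refine ⟨?_, ?_⟩
  · intro hm om As dl ho0 ho1 hAs
    have key := H₁ Pb Y (Real.exp n) W E0 Mn hPb1 hY1 hYu (Real.exp_pos n) hWX hE0 hMn0 al hadm
      Ds EE om As dl (fun d hdD hd B V hB1 hB2 hV1 hV2 t => by
        obtain ⟨h1, h2, -⟩ := hjb d hd B V hB1 hB2 hV1 hV2 t
        refine h1.trans ?_
        have h3 := hm d hdD (Real.log B) (Real.log V) (Real.log_nonneg hB1)
          (Real.log_nonneg hV1) h2
        have h4 : Real.exp (Sh (Real.log (nm d)) (Real.log B) (Real.log V)) ≤ Real.exp m *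
            (((nm d : ℝ) ^ 2)⁻¹ * (B⁻¹ * (max 1 (B / E0)) ^ 2)) := by
          rw [← hwt d hd B hB1, ← Real.exp_add]
          exact Real.exp_le_exp.2 (by linarith)
        have h5 : 0 ≤ F := hF
        calc F *
              Real.exp (Sh (Real.log (nm d)) (Real.log B) (Real.log V)) *
              (1 + |t|) ^ J ≤
              F * (Real.exp m *
                (((nm d : ℝ) ^ 2)⁻¹ * (B⁻¹ * (max 1 (B / E0)) ^ 2))) *
              (1 + |t|) ^ J :=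
              mul_le_mul_of_nonneg_right (mul_le_mul_of_nonneg_left h4 h5) (by positivity)
          _ = _ := by rw [hMn]; ring) hDs hEE ho0 ho1 hAs
    refine key.trans ?_
    rw [hPe, hexn, hMn]
    calc C₁ * X ^ ε * Real.exp (-(n / 3)) * (F * Real.exp m) =
          C₁ * (X ^ ε * F * Real.exp (-(n / 3)) * Real.exp m) := by ring
      _ ≤ (C₁ + C₂) * (X ^ ε * F * Real.exp (-(n / 3)) * Real.exp m) :=
          mul_le_mul_of_nonneg_right (by linarith) (by positivity)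
      _ = _ := by ring
  · intro hm om Gs As dl hG hAs
    have key := H₂ Pb Y (Real.exp n) W E0 Mn hPb1 hY1 hYu (Real.exp_pos n) hWX hE0 hMn0 al hadm
      Ds EE om Gs As dl (fun d hdD hd B V hB1 hB2 hV1 hV2 t => by
        obtain ⟨h1, h2, hW0⟩ := hjb d hd B V hB1 hB2 hV1 hV2 t
        refine h1.trans ?_
        have hV0 : 0 < V := by linarith
        obtain ⟨-, hdp, -⟩ := (mem_S hY0.le).1 hd
        have hdn : (0 : ℝ) < nm d := by exact_mod_cast nm_pos.2 hdp.ne_zero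
        have h3 := hm d hdD (Real.log B) (Real.log V) (Real.log_nonneg hB1)
          (Real.log_nonneg hV1) h2
        have e2 : Real.exp (-((Real.log W - Real.log V - 2 * Real.log (nm d)) / 3)) =
            (V * (nm d : ℝ) ^ 2 / W) ^ (1 / 3 : ℝ) := by
          rw [Real.rpow_def_of_pos (by positivity), Real.log_div (by positivity) hW0.ne',
            Real.log_mul hV0.ne' (by positivity), Real.log_pow]
          congr 1
          push_cast
          ring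
        have h4 : Real.exp (Sh (Real.log (nm d)) (Real.log B) (Real.log V)) ≤ Real.exp m *
            ((V * (nm d : ℝ) ^ 2 / W) ^ (1 / 3 : ℝ)) *
            (((nm d : ℝ) ^ 2)⁻¹ * (B⁻¹ * (max 1 (B / E0)) ^ 2)) := by
          rw [← hwt d hd B hB1, ← e2, ← Real.exp_add, ← Real.exp_add]
          exact Real.exp_le_exp.2 (by linarith)
        have h5 : 0 ≤ F := hF
        calc F *
              Real.exp (Sh (Real.log (nm d)) (Real.log B) (Real.log V)) *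
              (1 + |t|) ^ J ≤
              F * (Real.exp m *
                ((V * (nm d : ℝ) ^ 2 / W) ^ (1 / 3 : ℝ)) *
                (((nm d : ℝ) ^ 2)⁻¹ * (B⁻¹ * (max 1 (B / E0)) ^ 2))) *
              (1 + |t|) ^ J :=
              mul_le_mul_of_nonneg_right (mul_le_mul_of_nonneg_left h4 h5) (by positivity)
          _ = _ := by rw [hMn]; ring) hDs hEE hG hAs
    refine key.trans ?_
    rw [hPe, hexn, hMn]
    calc C₂ * X ^ ε * Real.exp (-(n / 3)) * (F * Real.exp m) =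
          C₂ * (X ^ ε * F * Real.exp (-(n / 3)) * Real.exp m) := by ring
      _ ≤ (C₁ + C₂) * (X ^ ε * F * Real.exp (-(n / 3)) * Real.exp m) :=
          mul_le_mul_of_nonneg_right (by linarith) (by positivity)
      _ = _ := by ring

/-- **the T-part of a level, weights in `d`** -/
theorem TNjw {R : ℝ} (hR : 0 ≤ R) {ε J B₂ : ℝ} (hε : 0 < ε) (hJ : 0 ≤ J) (hB₂ : 0 < B₂) {Lφ : ℝ}
    (hLφ : 0 ≤ Lφ) :
    ∃ C : ℝ, 0 ≤ C ∧ ∀ X : ℝ, 3 ≤ X → ∀ (n Y W E0 F : ℝ) (Sh : ℝ → ℝ → ℝ → ℝ),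
      1 ≤ Y → Y ≤ X ^ B₂ → W ≤ X ^ B₂ → 0 < E0 → 0 ≤ F →
      ∀ al : Eis → ℂ, JBc Y W F J Sh al → Adm Y (Real.exp n) R al → ∀ (Ds EE : Finset Eis) (m : ℝ) (φ : ℝ → ℝ)
        (w : Eis → Eis → ℝ), (∀ x y, φ x ≤ φ y + Lφ * |x - y|) →
      (∀ d ∈ Ds, IsPrim d ∧ (nm d : ℝ) ≤ X ^ B₂) → (∀ e ∈ EE, e ∈ S E0) →
      (∀ d ∈ Ds, ∀ e ∈ EE, w d e ≤ Real.exp (φ (Real.log (nm d)))) →
      ((∀ d ∈ Ds, ∀ b v : ℝ, 0 ≤ b → 0 ≤ v → v ≤ Real.log W - 2 * Real.log (nm d) →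
          φ (Real.log (nm d)) + Sh (Real.log (nm d)) b v + 2 * Real.log (nm d) + b -
            2 * max 0 (b - Real.log E0) ≤ m) →
        ∀ (om : Eis → ℝ) (As : Eis → Eis → Finset Eis) (dl : Eis → Eis), 0 ≤ om 1 → om 1 ≤ 1 →
        (∀ γ, 0 ≤ om γ) →
        (∀ d ∈ Ds, ∀ j ∈ As d 1, CF j ∧ (nm j : ℝ) * (nm d : ℝ) ^ 2 ≤ W) →
        ∑ d ∈ Ds, ∑ e ∈ EE, w d e *
          E3Z548.TN (fun d _ m => al (d * m)) (fun e => (nm e : ℝ)) {d} {e} om {1} As dl ≤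
          C * X ^ ε * F * Real.exp (-(n / 3)) * Real.exp m) ∧
      ((∀ d ∈ Ds, ∀ b v : ℝ, 0 ≤ b → 0 ≤ v → v ≤ Real.log W - 2 * Real.log (nm d) →
          φ (Real.log (nm d)) + Sh (Real.log (nm d)) b v + 2 * Real.log (nm d) + b -
            2 * max 0 (b - Real.log E0) + (Real.log W - v - 2 * Real.log (nm d)) / 3 ≤ m) →
        ∀ (om : Eis → ℝ) (Gs : Finset Eis) (As : Eis → Eis → Finset Eis) (dl : Eis → Eis),
        (∀ γ, 0 ≤ om γ) →
        (∀ γ ∈ Gs, IsPrim γ ∧ 0 ≤ om γ ∧ om γ ≤ (nm γ : ℝ) ^ (-(1 / 2) : ℝ)) →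
        (∀ d ∈ Ds, ∀ γ ∈ Gs, ∀ j ∈ As d γ, j ≠ 0 ∧
          (nm j : ℝ) * (nm d : ℝ) ^ 2 * (nm γ : ℝ) ^ 3 ≤ W) →
        ∑ d ∈ Ds, ∑ e ∈ EE, w d e *
          E3Z548.TN (fun d _ m => al (d * m)) (fun e => (nm e : ℝ)) {d} {e} om Gs As dl ≤
          C * X ^ ε * F * Real.exp (-(n / 3)) * Real.exp m) := by
  have hε2 : 0 < ε / 2 := by positivity
  obtain ⟨C₁, hC₁, H⟩ := TNj hR hε2 hJ hB₂
  obtain ⟨C₂, hC₂, H₂⟩ := blk_card hB₂.le hε2
  refine ⟨C₂ * (Real.exp (2 * Lφ * Real.log 2) * C₁), by positivity, ?_⟩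
  intro X hX n Y W E0 F Sh hY1 hYu hWX hE0 hF al hjb hadm Ds EE m φ w
    hφ hDs hEE hw
  have hX0 : 0 < X := by linarith
  have hXe : X ^ (ε / 2) * X ^ (ε / 2) = X ^ ε := by
    rw [← Real.rpow_add hX0]; congr 1; ring
  have hd0 : ∀ d ∈ Ds, d ≠ 0 := fun d hd => (hDs d hd).1.ne_zero
  have hI : ∀ d ∈ Ds, Nat.log 2 (nm d) ∈ range (⌊2 * (B₂ * Real.log X)⌋₊ + 1) := fun d hd =>
    blk_lt hX (nm_pos.2 (hd0 d hd)).ne' (hDs d hd).2
  set Q : ℝ := C₁ * X ^ (ε / 2) * F * Real.exp (-(n / 3)) with hQ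
  have hQ0 : 0 ≤ Q := by positivity
  have hfin : ((⌊2 * (B₂ * Real.log X)⌋₊ + 1 : ℕ) : ℝ) *
      (Real.exp (2 * Lφ * Real.log 2) * Q * Real.exp m) ≤
      C₂ * (Real.exp (2 * Lφ * Real.log 2) * C₁) * X ^ ε * F * Real.exp (-(n / 3)) *
        Real.exp m := by
    refine (mul_le_mul_of_nonneg_right (H₂ X hX) (by positivity)).trans (le_of_eq ?_)
    rw [hQ, ← hXe]
    ring
  refine ⟨?_, ?_⟩
  · intro hm om As dl ho0 ho1 hom hAs
    refine le_trans (wsum hφ hLφ (T := fun d e => E3Z548.TN (fun d _ m => al (d * m))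
      (fun e => (nm e : ℝ)) {d} {e} om {1} As dl) (fun d _ e _ =>
        E3Z548.TN_nonneg _ (fun e => Nat.cast_nonneg _) _ _ hom _ _ _) hd0 hw hI (Q := Q) (m := m)
        ?_) hfin
    intro a _ m' hm'
    rw [← TN_sum]
    have h1 := (H X hX n Y W E0 F Sh hY1 hYu hWX hE0 hF al hjb hadm
      (Ds.filter (fun d => Nat.log 2 (nm d) = a)) EE m'
      (fun d hd => (hDs d (mem_filter.1 hd).1).1) hEE).1 (fun d hd b v hb hv hvW => by
        have h2 := hm d (mem_filter.1 hd).1 b v hb hv hvW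
        have h3 := hm' d hd
        linarith) om As dl ho0 ho1 (fun d hd => hAs d (mem_filter.1 hd).1)
    exact h1
  · intro hm om Gs As dl hom hG hAs
    refine le_trans (wsum hφ hLφ (T := fun d e => E3Z548.TN (fun d _ m => al (d * m))
      (fun e => (nm e : ℝ)) {d} {e} om Gs As dl) (fun d _ e _ =>
        E3Z548.TN_nonneg _ (fun e => Nat.cast_nonneg _) _ _ hom _ _ _) hd0 hw hI (Q := Q) (m := m)
        ?_) hfin
    intro a _ m' hm'
    rw [← TN_sum]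
    have h1 := (H X hX n Y W E0 F Sh hY1 hYu hWX hE0 hF al hjb hadm
      (Ds.filter (fun d => Nat.log 2 (nm d) = a)) EE m'
      (fun d hd => (hDs d (mem_filter.1 hd).1).1) hEE).2 (fun d hd b v hb hv hvW => by
        have h2 := hm d (mem_filter.1 hd).1 b v hb hv hvW
        have h3 := hm' d hd
        linarith) om Gs As dl hG (fun d hd => hAs d (mem_filter.1 hd).1)
    exact h1

/-- **the T-part of a level, weights in `d`, total weight `1` in `e`** -/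
theorem TNj1 {R : ℝ} (hR : 0 ≤ R) {ε J B₂ : ℝ} (hε : 0 < ε) (hJ : 0 ≤ J) (hB₂ : 0 < B₂) {Lφ : ℝ}
    (hLφ : 0 ≤ Lφ) :
    ∃ C : ℝ, 0 ≤ C ∧ ∀ X : ℝ, 3 ≤ X → ∀ (n Y W E0 F : ℝ) (Sh : ℝ → ℝ → ℝ → ℝ),
      1 ≤ Y → Y ≤ X ^ B₂ → W ≤ X ^ B₂ → 0 < E0 → E0 ≤ X ^ B₂ → 0 ≤ F →
      ∀ al : Eis → ℂ, JBc Y W F J Sh al → Adm Y (Real.exp n) R al → ∀ (Ds EE : Finset Eis) (m : ℝ) (φ : ℝ → ℝ)
        (w : Eis → Eis → ℝ), (∀ x y, φ x ≤ φ y + Lφ * |x - y|) →
      (∀ d ∈ Ds, IsPrim d ∧ (nm d : ℝ) ≤ X ^ B₂) → (∀ e ∈ EE, e ∈ S E0) →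
      (∀ d ∈ Ds, ∀ e ∈ EE, 0 ≤ w d e) →
      (∀ d ∈ Ds, ∀ e ∈ EE, w d e ≤ Real.exp (φ (Real.log (nm d)))) →
      ((∀ d ∈ Ds, ∀ b v : ℝ, 0 ≤ b → 0 ≤ v → v ≤ Real.log W - 2 * Real.log (nm d) →
          φ (Real.log (nm d)) + Sh (Real.log (nm d)) b v + 2 * Real.log (nm d) -
            max 0 (b - Real.log E0) ≤ m) →
        ∀ (om : Eis → ℝ) (As : Eis → Eis → Finset Eis) (dl : Eis → Eis), 0 ≤ om 1 → om 1 ≤ 1 →
        (∀ γ, 0 ≤ om γ) →
        (∀ d ∈ Ds, ∀ j ∈ As d 1, CF j ∧ (nm j : ℝ) * (nm d : ℝ) ^ 2 ≤ W) →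
        ∑ d ∈ Ds, ∑ e ∈ EE, (nm e : ℝ)⁻¹ * (w d e *
          E3Z548.TN (fun d _ m => al (d * m)) (fun e => (nm e : ℝ)) {d} {e} om {1} As dl) ≤
          C * X ^ ε * F * Real.exp (-(n / 3)) * Real.exp m) ∧
      ((∀ d ∈ Ds, ∀ b v : ℝ, 0 ≤ b → 0 ≤ v → v ≤ Real.log W - 2 * Real.log (nm d) →
          φ (Real.log (nm d)) + Sh (Real.log (nm d)) b v + 2 * Real.log (nm d) -
            max 0 (b - Real.log E0) + (Real.log W - v - 2 * Real.log (nm d)) / 3 ≤ m) →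
        ∀ (om : Eis → ℝ) (Gs : Finset Eis) (As : Eis → Eis → Finset Eis) (dl : Eis → Eis),
        (∀ γ, 0 ≤ om γ) →
        (∀ γ ∈ Gs, IsPrim γ ∧ 0 ≤ om γ ∧ om γ ≤ (nm γ : ℝ) ^ (-(1 / 2) : ℝ)) →
        (∀ d ∈ Ds, ∀ γ ∈ Gs, ∀ j ∈ As d γ, j ≠ 0 ∧
          (nm j : ℝ) * (nm d : ℝ) ^ 2 * (nm γ : ℝ) ^ 3 ≤ W) →
        ∑ d ∈ Ds, ∑ e ∈ EE, (nm e : ℝ)⁻¹ * (w d e *
          E3Z548.TN (fun d _ m => al (d * m)) (fun e => (nm e : ℝ)) {d} {e} om Gs As dl) ≤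
          C * X ^ ε * F * Real.exp (-(n / 3)) * Real.exp m) := by
  have hε2 : 0 < ε / 2 := by positivity
  obtain ⟨C₁, hC₁, H⟩ := TNjw hR hε2 hJ hB₂ hLφ
  obtain ⟨C₂, hC₂, H₂⟩ := blk_card hB₂.le hε2
  refine ⟨C₂ * (Real.exp (2 * Real.log 2) * C₁), by positivity, ?_⟩
  intro X hX n Y W E0 F Sh hY1 hYu hWX hE0 hE0X hF al hjb hadm Ds EE
    m φ w hφ hDs hEE hw0 hw
  have hX0 : 0 < X := by linarith
  have hl2 : 0 ≤ Real.log 2 := Real.log_nonneg (by norm_num)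
  have hXe : X ^ (ε / 2) * X ^ (ε / 2) = X ^ ε := by
    rw [← Real.rpow_add hX0]; congr 1; ring
  have he0 : ∀ e ∈ EE, e ≠ 0 := fun e he => ((mem_S hE0.le).1 (hEE e he)).2.1.ne_zero
  have hI : ∀ e ∈ EE, Nat.log 2 (nm e) ∈ range (⌊2 * (B₂ * Real.log X)⌋₊ + 1) := fun e he =>
    blk_lt hX (nm_pos.2 (he0 e he)).ne' ((((mem_S hE0.le).1 (hEE e he)).1).trans hE0X)
  set Q : ℝ := Real.exp (2 * Real.log 2) * (C₁ * X ^ (ε / 2) * F * Real.exp (-(n / 3))) with hQ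
  have hQ0 : 0 ≤ Q := by positivity
  have hfin : ((⌊2 * (B₂ * Real.log X)⌋₊ + 1 : ℕ) : ℝ) * (Q * Real.exp m) ≤
      C₂ * (Real.exp (2 * Real.log 2) * C₁) * X ^ ε * F * Real.exp (-(n / 3)) *
        Real.exp m := by
    refine (mul_le_mul_of_nonneg_right (H₂ X hX) (by positivity)).trans (le_of_eq ?_)
    rw [hQ, ← hXe]
    ring
  -- a block
  have hblk : ∀ a : ℕ, ∀ e ∈ EE.filter (fun e => Nat.log 2 (nm e) = a),
      e ∈ S (Real.exp ((a : ℝ) * Real.log 2 + Real.log 2)) := by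
    intro a e he
    obtain ⟨heE, hea⟩ := mem_filter.1 he
    obtain ⟨-, h3, h4⟩ := (mem_S hE0.le).1 (hEE e heE)
    refine (mem_S (Real.exp_pos _).le).2 ⟨?_, h3, h4⟩
    obtain ⟨-, h2⟩ := blk_log (nm_pos.2 h3.ne_zero).ne' hea
    have hn0 : (0 : ℝ) < nm e := by exact_mod_cast nm_pos.2 h3.ne_zero
    rw [← Real.exp_log hn0]
    exact Real.exp_le_exp.2 h2
  have hexp : ∀ a : ℕ, Q * Real.exp (m + a * Real.log 2) =
      C₁ * X ^ (ε / 2) * F * Real.exp (-(n / 3)) *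
        Real.exp (m + a * Real.log 2 + 2 * Real.log 2) := by
    intro a
    rw [hQ, Real.exp_add (m + a * Real.log 2) (2 * Real.log 2)]
    ring
  -- the blocks which are not empty
  have hne : ∀ a : ℕ, (EE.filter (fun e => Nat.log 2 (nm e) = a)).Nonempty →
      (a : ℝ) * Real.log 2 ≤ Real.log E0 := by
    rintro a ⟨e, he⟩
    obtain ⟨heE, hea⟩ := mem_filter.1 he
    obtain ⟨h2, h3, -⟩ := (mem_S hE0.le).1 (hEE e heE)
    obtain ⟨h4, -⟩ := blk_log (nm_pos.2 h3.ne_zero).ne' hea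
    have hn0 : (0 : ℝ) < nm e := by exact_mod_cast nm_pos.2 h3.ne_zero
    exact h4.trans (Real.log_le_log hn0 h2)
  refine ⟨?_, ?_⟩
  · intro hm om As dl ho0 ho1 hom hAs
    have hTn : ∀ d ∈ Ds, ∀ e ∈ EE, 0 ≤ w d e *
        E3Z548.TN (fun d _ m => al (d * m)) (fun e => (nm e : ℝ)) {d} {e} om {1} As dl :=
      fun d hd e he => mul_nonneg (hw0 d hd e he)
        (E3Z548.TN_nonneg _ (fun e => Nat.cast_nonneg _) _ _ hom _ _ _)
    refine le_trans (esum hTn he0 hI (Q := Q) (m := m) ?_) hfin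
    intro a _
    rcases (EE.filter (fun e => Nat.log 2 (nm e) = a)).eq_empty_or_nonempty with h0 | h0
    · rw [h0]
      simp only [sum_empty, sum_const_zero]
      positivity
    rw [hexp]
    refine (H X hX n Y W (Real.exp ((a : ℝ) * Real.log 2 + Real.log 2)) F Sh hY1
      hYu hWX (Real.exp_pos _) hF al hjb hadm Ds
      (EE.filter (fun e => Nat.log 2 (nm e) = a)) (m + a * Real.log 2 + 2 * Real.log 2) φ w hφ hDs
      (hblk a) (fun d hd e he => hw d hd e (mem_filter.1 he).1)).1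
      (fun d hd b v hb hv hvW => ?_) om As dl ho0 ho1 hom hAs
    rw [Real.log_exp]
    have h2 := hm d hd b v hb hv hvW
    have h3 := e_line (b := b) hl2 (hne a h0)
    linarith
  · intro hm om Gs As dl hom hG hAs
    have hTn : ∀ d ∈ Ds, ∀ e ∈ EE, 0 ≤ w d e *
        E3Z548.TN (fun d _ m => al (d * m)) (fun e => (nm e : ℝ)) {d} {e} om Gs As dl :=
      fun d hd e he => mul_nonneg (hw0 d hd e he)
        (E3Z548.TN_nonneg _ (fun e => Nat.cast_nonneg _) _ _ hom _ _ _)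
    refine le_trans (esum hTn he0 hI (Q := Q) (m := m) ?_) hfin
    intro a _
    rcases (EE.filter (fun e => Nat.log 2 (nm e) = a)).eq_empty_or_nonempty with h0 | h0
    · rw [h0]
      simp only [sum_empty, sum_const_zero]
      positivity
    rw [hexp]
    refine (H X hX n Y W (Real.exp ((a : ℝ) * Real.log 2 + Real.log 2)) F Sh hY1
      hYu hWX (Real.exp_pos _) hF al hjb hadm Ds
      (EE.filter (fun e => Nat.log 2 (nm e) = a)) (m + a * Real.log 2 + 2 * Real.log 2) φ w hφ hDs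
      (hblk a) (fun d hd e he => hw d hd e (mem_filter.1 he).1)).2
      (fun d hd b v hb hv hvW => ?_) om Gs As dl hom hG hAs
    rw [Real.log_exp]
    have h2 := hm d hd b v hb hv hvW
    have h3 := e_line (b := b) hl2 (hne a h0)
    linarith

end Crest.Agent.R017.TNj90
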