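import Crest.Agent.R017.GHL_90
import Crest.Agent.R017.TMn_968
import Crest.Agent.R017.TNj_90
import Crest.Agent.R017.E5L_770

/-!
# Row 17, class E, R8 (E3): the Gram sum of the low families by the large sieve (helper968)

* `LoT` : one real line of a sequence with joint numbers `Sh`
* **`gram_lo`** : from `JBc` and `LoT`, the Gram sum of one level at a fixed cube and one block
-/

set_option autoImplicit false
set_option linter.unusedVariables false

noncomputable section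

open Finset
open scoped ComplexConjugate Classical

namespace Crest.Agent.R017.GLo968

open Crest.Agent.R012 Crest.Agent.R012.Eis
open Crest.Agent.R012.LS2 (S mem_S)
open Crest.Agent.R017.CM106 (CS FS)
open Crest.Agent.R017.C70 (JW JC CbF OKJ)
open Crest.Agent.R017.E2440 (StE TE)
open Crest.Agent.R017.E1551 (nm_ge_one JB Adm)
open Crest.Agent.R017.TNj90 (JBc)
open Crest.Agent.R017.TM968 (gram_core qd Qd_le raw_of one1 CS_one1 one1_bd)
open Crest.Agent.R017.GHB842 (Qd Qd_nonneg)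
open Crest.Agent.R017.GHL90 (sum_low OKJ_sub)
open Crest.Agent.R017.E5L770 (omL omL_supp Jv mem_Jv StE_Jv lv)

/-- **the real line of the low families** : family `q`, level `v`, length `p`, tolerance `t` -/
structure LoT (Sh : ℝ → ℝ → ℝ → ℝ) (q v p t G : ℝ) : Prop where
  ln : ∀ δ b l : ℝ, 0 ≤ δ → 2 * δ ≤ v → 0 ≤ b → 0 ≤ l → l ≤ v - 2 * δ → v ≤ l + 2 * δ + t →
    3 * δ + qd q v 0 δ + Sh δ b l - p / 3 - v / 3 - q / 3 ≤ G

lemma floor_one_ball {n : Eis} (h : one1 n ≠ 0) : n ∈ primBall ⌊(1 : ℝ)⌋₊ := by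
  have h1 : n = 1 := by
    by_contra h0
    exact h (if_neg h0)
  subst h1
  rw [mem_primBall, nm_one, Nat.floor_one]
  exact ⟨le_rfl, isPrim_one⟩

lemma blk_eq (i : ℕ) : (primBall (2 ^ (i + 1))).filter (fun k => CbF k ∧ 2 ^ i ≤ nm k) =
    (primBall ⌊(2 : ℝ) ^ (i + 1)⌋₊).filter
      (fun k => CbF k ∧ (2 : ℝ) ^ (i + 1) / 2 ≤ nm k) := by
  have e1 : ⌊(2 : ℝ) ^ (i + 1)⌋₊ = 2 ^ (i + 1) := by
    have : ((2 ^ (i + 1) : ℕ) : ℝ) = (2 : ℝ) ^ (i + 1) := by push_cast; rfl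
    rw [← this, Nat.floor_natCast]
  have e2 : (2 : ℝ) ^ (i + 1) / 2 = ((2 ^ i : ℕ) : ℝ) := by
    rw [pow_succ]; push_cast; ring
  rw [e1, e2]
  refine Finset.filter_congr fun k _ => ?_
  rw [Nat.cast_le]

lemma norm_omL (i : ℕ) (x : Eis × Eis) : ‖omL i x‖ ≤ 1 := by
  unfold E5L770.omL E5L770.wL FE47.hD
  rw [Complex.norm_real, Real.norm_eq_abs, abs_le]
  have h1 := HBI146.cutR_nonneg (Real.exp (lv x - Real.log 2 * i))
  have h2 := HBI146.cutR_le_one (Real.exp (lv x - Real.log 2 * i))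
  have h3 := HBI146.cutR_nonneg (2 * Real.exp (lv x - Real.log 2 * i))
  have h4 := HBI146.cutR_le_one (2 * Real.exp (lv x - Real.log 2 * i))
  constructor <;> linarith

/-- **the Gram sum of one level at a fixed cube and one block, low families** -/
theorem gram_lo {ε J₀ R a₁ : ℝ} (hε : 0 < ε) (hJ₀ : 0 ≤ J₀) (hR : 0 ≤ R) (ha₁ : 1 ≤ a₁) :
    ∃ C : ℝ, 0 ≤ C ∧ ∀ X : ℝ, 1 ≤ X → ∀ (Y p : ℝ) (α : Eis → ℂ), 1 ≤ Y → Y ≤ X ^ a₁ →
      Adm Y (Real.exp p) R α →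
      ∀ (i j : ℕ) (E0 F G : ℝ) (Sh : ℝ → ℝ → ℝ → ℝ), (2 : ℝ) ^ (i + 1) ≤ X →
      (2 : ℝ) ^ (j + 1) ≤ X → 0 ≤ F → JBc Y (2 ^ (j + 1)) F J₀ Sh α →
      LoT Sh ((i + 1) * Real.log 2) ((j + 1) * Real.log 2) p (2 * Real.log 2) G →
      ∀ (J : Finset (Eis × Eis)), OKJ J → ∀ m : Eis, IsPrim m → (nm m : ℝ) ≤ X →
      ∑ k ∈ (primBall (2 ^ (i + 1))).filter (fun k => CbF k ∧ 2 ^ i ≤ nm k),
        ‖StE E0 J (omL j) α (m ^ 3 * k)‖ ^ 2 ≤ C * X ^ ε * (F * Real.exp G) := by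
  obtain ⟨C, hC, H⟩ := gram_core (ε := ε) (J₀ := J₀) (c₀ := 4) (R := R) (a₁ := a₁) hε hJ₀
    (by norm_num) hR ha₁
  refine ⟨C * 6, by positivity, ?_⟩
  intro X hX Y p α hY hYX hadm i j E0 F G Sh hKX hVX hF hjb hlo J hJ m hm hmX
  have hX0 : 0 < X := by linarith
  have hK1 : (1 : ℝ) ≤ 2 ^ (i + 1) := one_le_pow₀ (by norm_num)
  have hV1 : (1 : ℝ) ≤ 2 ^ (j + 1) := one_le_pow₀ (by norm_num)
  have hK0 : (0 : ℝ) < 2 ^ (i + 1) := by positivity
  have hV0 : (0 : ℝ) < 2 ^ (j + 1) := by positivity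
  have hlK : Real.log ((2 : ℝ) ^ (i + 1)) = (i + 1) * Real.log 2 := by
    rw [Real.log_pow]; push_cast; rfl
  have hlV : Real.log ((2 : ℝ) ^ (j + 1)) = (j + 1) * Real.log 2 := by
    rw [Real.log_pow]; push_cast; rfl
  set q : ℝ := (i + 1) * Real.log 2 with hq
  set v : ℝ := (j + 1) * Real.log 2 with hv
  have hJJ : OKJ (Jv J j) := OKJ_sub hJ fun x hx => (mem_Jv.mp hx).1
  have hnx : ∀ x ∈ Jv J j, (0 : ℝ) < nm (x.2 * x.1 ^ 2) := fun x hx =>
    Nat.cast_pos.mpr (Nat.pos_of_ne_zero (GHL90.nm_pos_x hJJ hx))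
  have hJV : ∀ x ∈ Jv J j, (nm (x.2 * x.1 ^ 2) : ℝ) ≤ 2 ^ (j + 1) := by
    intro x hx
    obtain ⟨-, h2⟩ := mem_Jv.mp hx
    obtain ⟨-, h3⟩ := abs_le.mp h2
    refine (Real.log_le_log_iff (hnx x hx) hV0).1 ?_
    rw [hlV]
    have : lv x = Real.log (nm (x.2 * x.1 ^ 2)) := rfl
    rw [← this, hv]
    linarith
  have hJl : ∀ x ∈ Jv J j, omL j x ≠ 0 → (2 : ℝ) ^ (j + 1) ≤ 4 * nm (x.2 * x.1 ^ 2) := by
    intro x hx _
    obtain ⟨-, h2⟩ := mem_Jv.mp hx
    obtain ⟨h3, -⟩ := abs_le.mp h2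
    have h5 := hnx x hx
    refine (Real.log_le_log_iff hV0 (by positivity)).1 ?_
    rw [hlV, Real.log_mul (by norm_num) h5.ne', show (4 : ℝ) = 2 ^ 2 by norm_num, Real.log_pow]
    have : lv x = Real.log (nm (x.2 * x.1 ^ 2)) := rfl
    rw [← this, hv]
    push_cast
    linarith
  have main := H X hX Y p α hY hYX hadm (2 ^ (i + 1)) (2 ^ (j + 1)) 1 1 E0
    (3 * F * Real.exp (G + p / 3 + v / 3 + q / 3)) hK1 hKX hV1 hVX le_rfl hX zero_le_one
    (by positivity) (Jv J j) (omL j) hJJ hJV hJl (norm_omL j) m one1 hm hmX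
    (fun n hn => floor_one_ball hn) one1_bd ?_
  · have hF0 : ∀ k : Eis, 0 ≤ ‖StE E0 (Jv J j) (omL j) α (k * m ^ 3)‖ ^ 2 := fun k => by positivity
    have h1 := sum_low (A := (primBall ⌊(2 : ℝ) ^ (i + 1)⌋₊).filter CbF) (L := (2 : ℝ) ^ (i + 1) / 2)
      (by positivity) (fun k => ‖StE E0 (Jv J j) (omL j) α (k * m ^ 3)‖ ^ 2) hF0
    rw [Finset.filter_filter, ← blk_eq i] at h1
    have h0 : ∀ k : Eis, ‖StE E0 J (omL j) α (m ^ 3 * k)‖ ^ 2 =
        ‖StE E0 (Jv J j) (omL j) α (k * m ^ 3)‖ ^ 2 := fun k => by rw [StE_Jv, mul_comm]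
    simp only [h0]
    refine h1.trans ?_
    simp only [CS_one1, norm_one, one_pow, mul_one, one_mul] at main
    have h2 : ((2 : ℝ) ^ (i + 1) / 2) ^ (-(1 : ℝ) / 3) ≤ 2 * Real.exp (-q / 3) := by
      have e1 : ((2 : ℝ) ^ (i + 1) / 2) ^ (-(1 : ℝ) / 3) =
          Real.exp (-q / 3) * Real.exp (Real.log 2 / 3) := by
        rw [Real.rpow_def_of_pos (by positivity), Real.log_div hK0.ne' (by norm_num), hlK,
          ← Real.exp_add]
        congr 1
        ring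
      have e2 : Real.exp (Real.log 2 / 3) ≤ 2 := by
        calc Real.exp (Real.log 2 / 3) ≤ Real.exp (Real.log 2) :=
              Real.exp_le_exp.2 (by linarith [Real.log_pos (by norm_num : (1 : ℝ) < 2)])
          _ = 2 := Real.exp_log (by norm_num)
      rw [e1]
      nlinarith [Real.exp_pos (-q / 3)]
    rw [hlV] at main
    calc ((2 : ℝ) ^ (i + 1) / 2) ^ (-(1 : ℝ) / 3) * ∑ k ∈ (primBall ⌊(2 : ℝ) ^ (i + 1)⌋₊).filter CbF,
          (nm k : ℝ) ^ ((1 : ℝ) / 3) * ‖StE E0 (Jv J j) (omL j) α (k * m ^ 3)‖ ^ 2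
        ≤ (2 * Real.exp (-q / 3)) * (C * X ^ ε * (3 * F * Real.exp (G + p / 3 + v / 3 + q / 3) *
            Real.exp (-p / 3 - v / 3))) :=
          mul_le_mul h2 main (Finset.sum_nonneg fun k _ => by positivity) (by positivity)
      _ = C * 6 * X ^ ε * (F * (Real.exp (-q / 3) * Real.exp (G + p / 3 + v / 3 + q / 3) *
            Real.exp (-p / 3 - v / 3))) := by ring
      _ = _ := by
          rw [← Real.exp_add, ← Real.exp_add]
          congr 3
          ring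
  · intro δ hδ hδV B' V' hB1 hBY hV'1 hV'2 hV'3 t
    obtain ⟨-, h4, -⟩ := (mem_S (by linarith)).mp hδ
    have hg0 : (1 : ℝ) ≤ nm δ := nm_ge_one h4.ne_zero
    have hδ0 : 0 ≤ Real.log (nm δ) := Real.log_nonneg hg0
    have hlp : Real.log ((nm δ : ℝ) ^ 2) = 2 * Real.log (nm δ) := by
      rw [Real.log_pow]; norm_num
    have hl4 : Real.log (4 : ℝ) = 2 * Real.log 2 := by
      rw [show (4 : ℝ) = 2 ^ 2 by norm_num, Real.log_pow]; norm_num
    have hδ2 : 2 * Real.log (nm δ) ≤ v := by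
      have h2 := Real.log_le_log (by positivity) hδV
      rw [hlp, hlV] at h2
      exact h2
    have hl1 : Real.log V' ≤ v - 2 * Real.log (nm δ) := by
      have h2 := Real.log_le_log (by linarith) hV'2
      rw [Real.log_div hV0.ne' (by positivity), hlp, hlV] at h2
      exact h2
    have hl2 : v ≤ Real.log V' + 2 * Real.log (nm δ) + 2 * Real.log 2 := by
      have h2 := Real.log_le_log hV0 hV'3
      rw [Real.log_mul (by norm_num) (by positivity), Real.log_mul (by positivity) (by positivity),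
        hlp, hl4, hlV] at h2
      linarith
    have h3 := hlo.ln (Real.log (nm δ)) (Real.log B') (Real.log V') hδ0 hδ2 (Real.log_nonneg hB1)
      (Real.log_nonneg hV'1) hl1 hl2
    have h5 := hjb δ hδ B' V' hB1 hBY hV'1 hV'2 t
    refine raw_of (τ := Sh (Real.log (nm δ)) (Real.log B') (Real.log V')) h4 hK0 hV0 one_pos hF
      (Real.rpow_nonneg (by positivity) _) ?_ ?_
    · exact h5.trans (le_of_eq (by ring))
    · rw [hlK, hlV, Real.log_one]
      linarith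

end Crest.Agent.R017.GLo968
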