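import Crest.Agent.R017.ETk_548

/-!
# Row 17 (helper381): `UB` on a union of two domains

* **`ub_or`** ; **`gk_or`** : `GkGUc` from its two ranges of families (`k ≤ k₀ κ`, `k₀ κ < k`)
-/

set_option autoImplicit false
set_option linter.unusedSectionVars false
set_option linter.unusedVariables false

noncomputable section

open Finset
open scoped ComplexConjugate Classical

namespace Crest.Agent.R017.UbOr381

open Crest.Agent.R012 Crest.Agent.R012.Eis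
open Crest.Agent.R017.B770
open Crest.Agent.R017.XG702 (Pcs Good_mono)
open Crest.Agent.R017.Prov71
open Crest.Agent.R017.XT71 (Sys Win mx)
open Crest.Agent.R017.E5B71 Crest.Agent.R017.E5P571 Crest.Agent.R017.E5L770
open Crest.Agent.R017.ExBox960 Crest.Agent.R017.ExP960
open Crest.Agent.R017.Sf770
open Crest.Agent.R017.P1e54 Crest.Agent.R017.P1f54 Crest.Agent.R017.P1k54
open Crest.Agent.R017.P1l54 (ParOK)
open Crest.Agent.R017.P1X960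
open Crest.Agent.R017.ETd548 Crest.Agent.R017.ETk548

/-- **`UB` on a union** -/
theorem ub_or {Λ A ι Pc' τ : Type*} [Fintype ι] [Fintype τ] [DecidableEq τ] {S : Sys A ι}
    {D : Pcs Pc' τ} {Ψ : Λ → A → List Pc' → ℝ} {Dom Dom₁ Dom₂ : Set ((ι → ℝ) × (τ → ℝ))}
    {al : Set ((ι → ℝ) × ℝ)} {E E₁ E₂ : (ι → ℝ) × (τ → ℝ) → ℝ}
    (h₁ : UB S D Ψ Dom₁ al E₁) (h₂ : UB S D Ψ Dom₂ al E₂)
    (hE : ∀ q ∈ Dom, (q ∈ Dom₁ ∧ E₁ q ≤ E q) ∨ (q ∈ Dom₂ ∧ E₂ q ≤ E q)) :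
    UB S D Ψ Dom al E := by
  intro ε hε
  obtain ⟨δ₁, hδ₁, G₁⟩ := h₁ ε hε
  obtain ⟨δ₂, hδ₂, G₂⟩ := h₂ ε hε
  refine ⟨min δ₁ δ₂, lt_min hδ₁ hδ₂, fun lam N B => ?_⟩
  obtain ⟨r₁, hr₁, X₁, hX₁, F₁⟩ := G₁ lam N B
  obtain ⟨r₂, hr₂, X₂, hX₂, F₂⟩ := G₂ lam N B
  refine ⟨min r₁ r₂, lt_min hr₁ hr₂, max X₁ X₂, hX₁.trans_le (le_max_left _ _), ?_⟩
  intro X hX a ps hN hnl q hq hw hm hg hal
  have hX1' : X₁ ≤ X := (le_max_left _ _).trans hX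
  have hX2' : X₂ ≤ X := (le_max_right _ _).trans hX
  have hX1 : 1 ≤ X := hX₁.le.trans hX1'
  rcases hE q hq with ⟨hq', hE'⟩ | ⟨hq', hE'⟩
  · refine (F₁ X hX1' a ps hN (fun p hp => (hnl p hp).imp id fun h3 => h3.trans (min_le_left _ _))
      q hq' (hw.mono hX1 (min_le_left _ _) le_rfl le_rfl (min_le_left _ _))
      (fun t => (hm t).trans (min_le_left _ _)) (Good_mono hX1 hg (min_le_left _ _)) hal).trans ?_
    exact Real.rpow_le_rpow_of_exponent_le hX1 (by linarith)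
  · refine (F₂ X hX2' a ps hN (fun p hp => (hnl p hp).imp id fun h3 => h3.trans (min_le_right _ _))
      q hq' (hw.mono hX1 (min_le_right _ _) le_rfl le_rfl (min_le_right _ _))
      (fun t => (hm t).trans (min_le_right _ _)) (Good_mono hX1 hg (min_le_right _ _)) hal).trans ?_
    exact Real.rpow_le_rpow_of_exponent_le hX1 (by linarith)

section
variable {Λ : Type*} {k₀ k₁ : ℝ} {al : Λ × Eis → BcX → List Pq → Eis → ℂ}
  {ok : Λ × Eis → BcX → List Pq → Prop} {e0 c β : ℝ} {Par : Set (Fin 3 ⊕ Fin 5 → ℝ)}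
  {L : (IX5 → ℝ) → ℝ → ℝ → ℝ → Prop}

/-- the configurations with the family `≥ k₀ κ` -/
def DomHi (k₀ k₁ c β : ℝ) (Par : Set (Fin 3 ⊕ Fin 5 → ℝ)) (L : (IX5 → ℝ) → ℝ → ℝ → ℝ → Prop) :
    Set ((I8X ⊕ Unit → ℝ) × (Kd → ℝ)) :=
  {q | q ∈ DomKc k₁ c β Par L ∧ k₀ * cκ (prX (bp fun i => q.1 (.inl i))) ≤ q.1 (.inr ())}

/-- **the class Gram sums from the two ranges of families** -/
theorem gk_or {GE GE₁ GE₂ : (I8X ⊕ Unit → ℝ) × (Kd → ℝ) → ℝ}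
    (h₁ : GkGUc k₀ al ok e0 c β Par L GE₁)
    (h₂ : UB S8Xk Dq (GkG al ok e0 c) (DomHi k₀ k₁ c β Par L) ∅ GE₂)
    (hE₁ : ∀ q ∈ DomKc k₀ c β Par L, GE₁ q ≤ GE q)
    (hE₂ : ∀ q ∈ DomKc k₁ c β Par L,
      k₀ * cκ (prX (bp fun i => q.1 (.inl i))) < q.1 (.inr ()) → GE₂ q ≤ GE q) :
    GkGUc k₁ al ok e0 c β Par L GE := by
  refine ub_or h₁ h₂ fun q hq => ?_
  by_cases hk : q.1 (.inr ()) ≤ k₀ * cκ (prX (bp fun i => q.1 (.inl i)))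
  · exact Or.inl ⟨⟨hq.1, hq.2.1, hk⟩, hE₁ q ⟨hq.1, hq.2.1, hk⟩⟩
  · push Not at hk
    exact Or.inr ⟨⟨hq, hk.le⟩, hE₂ q hq hk⟩

end

end Crest.Agent.R017.UbOr381
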