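import Crest.Agent.R017.GkLb_381
import Crest.Agent.R017.UbOr_381
import Crest.Agent.R017.GLo_968
import Crest.Agent.R017.E3Tz_744

/-!
# Row 17, exceptional class (helper744): the class Gram sums of `et`, families `q ≤ 3/5 κ`, differences

* **`lowX`** : `GkGUc (3/5)` for `alX` with helper381's room `GLo`
-/

set_option autoImplicit false
set_option linter.unusedVariables false

noncomputable section

open Finset
open scoped ComplexConjugate Classical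

namespace Crest.Agent.R017.GkL744

open Crest.Agent.R012 Crest.Agent.R012.Eis Crest.Agent.R012.MC
open Crest.Agent.R012.LS2 (S mem_S)
open Crest.Agent.R017.C70 (OKJ CbF)
open Crest.Agent.R017.B770
open Crest.Agent.R017.FE47 (PU cx)
open Crest.Agent.R017.Prov71
open Crest.Agent.R017.ER911
open Crest.Agent.R017.I1146 hiding cN
open Crest.Agent.R017.OT551
open Crest.Agent.R017.XG702 (Pcs Good_mono)
open Crest.Agent.R017.XT71 (Sys Win mx)
open Crest.Agent.R017.E5B71 Crest.Agent.R017.E5P571 Crest.Agent.R017.E5L770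
open Crest.Agent.R017.ExBox960 Crest.Agent.R017.ExP960
open Crest.Agent.R017.Sf770
open Crest.Agent.R017.P1e54 Crest.Agent.R017.P1f54 Crest.Agent.R017.P1k54
open Crest.Agent.R017.P1l54 (ParOK)
open Crest.Agent.R017.P1X960
open Crest.Agent.R017.Sup271 (NPm)
open Crest.Agent.R017.PX764 (Dk)
open Crest.Agent.R017.TM708 (PD R5)
open Crest.Agent.R017.P10X764
open Crest.Agent.R017.E3N146 (ShT Tf Bf)
open Crest.Agent.R017.TNj90 (JBc)
open Crest.Agent.R017.RnP571 (Dh)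
open Crest.Agent.R017.FrX579
open Crest.Agent.R017.ETd548 Crest.Agent.R017.ETk548
open Crest.Agent.R017.GkL381
open Crest.Agent.R017.TM968 (qd)
open Crest.Agent.R017.GLo968 (LoT gram_lo)
open Crest.Agent.R017.E3Nx744 (CBA TB)

lemma dh_mul {k y₃ y₄ u x D L : ℝ} (hL : 0 < L) (h : Dh k y₃ y₄ u x D) :
    Dh (k * L) (y₃ * L) (y₄ * L) (u * L) (x * L) (D * L) := by
  obtain ⟨k0, u4, y43, u0, y3, N1, near, x0, adm, d0, d1⟩ := h
  have h1 := mul_le_mul_of_nonneg_right u4 hL.le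
  have h2 := mul_le_mul_of_nonneg_right y43 hL.le
  have h3 := mul_le_mul_of_nonneg_right u0 hL.le
  have h4 := mul_le_mul_of_nonneg_right y3 hL.le
  have h5 := mul_le_mul_of_nonneg_right N1 hL.le
  have h6 := mul_le_mul_of_nonneg_right near hL.le
  have h7 := mul_le_mul_of_nonneg_right d1 hL.le
  refine ⟨by positivity, h1, h2, by linarith, by linarith, by linarith, by linarith,
    by positivity, ?_, by positivity, by linarith⟩
  rcases adm with ⟨a0, a1⟩ | ⟨a1, a2, a3⟩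
  · left
    have b0 := mul_le_mul_of_nonneg_right a0 hL.le
    refine ⟨by linarith, ?_⟩
    rcases a1 with a1 | a1
    · left; rw [a1, zero_mul]
    · right
      have b1 := mul_le_mul_of_nonneg_right a1 hL.le
      linarith
  · right
    have b0 := mul_le_mul_of_nonneg_right a1 hL.le
    have b1 := mul_le_mul_of_nonneg_right a2 hL.le
    have b2 := mul_le_mul_of_nonneg_right a3 hL.le
    exact ⟨by linarith, by linarith, by linarith⟩

lemma GLo_mul {d N k q p um x D L : ℝ} (hL : 0 ≤ L) :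
    GLo d (N * L) (k * L) (q * L) (p * L) (um * L) (x * L) (D * L) =
      GLo d N k q p um x D * L := by
  have h1 : max 0 (5 / 4 * (N * L) - k * L) = max 0 (5 / 4 * N - k) * L := by
    rw [max_mul_of_nonneg _ _ hL, zero_mul]
    congr 1
    ring
  unfold GLo
  rw [h1]
  ring

lemma GLo_near {d N k q p q' p' um x D s : ℝ} (h1 : |q' - q| ≤ s) (h2 : |p' - p| ≤ s) :
    GLo d N k q' p' um x D ≤ GLo d N k q p um x D + 2 * s := by
  obtain ⟨a1, a2⟩ := abs_le.1 h1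
  obtain ⟨b1, b2⟩ := abs_le.1 h2
  unfold GLo
  linarith

/-- the line `hs` of helper381's `lnl_X` from the frame `Bf` -/
lemma hs_of {k N x ex vt p s0 D m y t : ℝ} (H : Bf k N x ex vt p s0 D m y t) :
    (vt + p - k) / 3 - t ≤ s0 := by
  obtain ⟨k0, x0, N1, adm, ex0, ex1, m0, y0, yx, D1, v1, v2, v3, v4, p1, s1, t0, t1⟩ := H
  rcases adm with ⟨a0, a1⟩ | ⟨a1, a2, a3⟩ <;> linarith

variable {Λ : Type*}

set_option maxHeartbeats 4000000 in
/-- **the class Gram sums, families `q ≤ 3/5 κ`, differences** -/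
theorem lowX {π : Λ → DPar} {h : ℝ → ℝ} {c₀ : ℝ} (hpu : PU h c₀) (hP : ∀ lam, (π lam).OK)
    (hex : ∀ lam, ¬ NPm (π lam).n (π lam).ψ (π lam).l₂ 1)
    {Rh : ℝ} (hRh0 : 0 ≤ Rh) (hRh : ∀ u, cx h u ≠ 0 → |u| ≤ Rh) {e0 : ℝ}
    (he0 : 0 ≤ e0) (he0' : e0 ≤ 1) {c β : ℝ} (hc0 : 0 ≤ c) (hc1 : c ≤ 1)
    {Par : Set (Fin 3 ⊕ Fin 5 → ℝ)} (hPar : ∀ p ∈ Par, ParOK p)
    {D5 : Set (Fin 5 → ℝ)} {ℓ Kf Tf : (Fin 5 → ℝ) → ℝ}
    (hDN : ∀ p : IX5 → ℝ, prX p ∈ Par → ZR β p → bN p ∈ D5)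
    (hDR : ∀ p : IX5 → ℝ, prX p ∈ Par → ZR β p → bR p ∈ D5)
    (hR5 : ∀ p : IX5 → ℝ, prX p ∈ Par → ZR β p → R5 (bN p))
    (hKN : ∀ p : IX5 → ℝ, prX p ∈ Par → ZR β p →
      Kf (bN p) = max (cκ (prX p)) (5 / 4 * cN (prX p)))
    (hKR : ∀ p : IX5 → ℝ, prX p ∈ Par → ZR β p →
      Kf (bR p) = max (cκ (prX p)) (5 / 4 * cN (prX p)))
    (hTN : ∀ (p : IX5 → ℝ) (v₀ v₁ v₂ b x' : ℝ), ChC c β Par p v₀ v₁ v₂ b x' →
      DifL p v₀ v₁ v₂ → tpW c p b ≤ Tf (bN p))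
    (hTR : ∀ (p : IX5 → ℝ) (v₀ v₁ v₂ b x' : ℝ), ChC c β Par p v₀ v₁ v₂ b x' →
      DifL p v₀ v₁ v₂ → tpW c p b ≤ Tf (bR p))
    (hcb : CBA π h Dk Kf Tf D5 ℓ) {d : ℝ} (hd0 : 0 ≤ d) (hd1 : d ≤ 1 / 2)
    (hDh : ∀ p ∈ Par, Dh (cκ p) (cu p 2) (cu p 3) (cu p 4) (cx' p) (d * cκ p))
    (hcD : ∀ p ∈ Par, 4 * (c * cκ p) ≤ d * cκ p)
    (hβ : 17 / 100 ≤ β) (hβ' : β ≤ 1 / 5)
    (hF : ∀ p : IX5 → ℝ, prX p ∈ Par → ZR β p → lmX ℓ Kf Tf p ≤ 5 / 9 * (d * cκ (prX p))) :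
    GkGUc (3 / 5) (alX π h) (fun lam a qs => okCX (π lam.1) lam.2 a qs ∧ okD a) e0 c β Par DifL
      (fun q => GLo d (cN (prX (bp fun i => q.1 (.inl i)))) (cκ (prX (bp fun i => q.1 (.inl i))))
        (q.1 (.inr ()))
        (q.1 (.inl (.inr 0)) + q.1 (.inl (.inr 1)) + q.1 (.inl (.inr 2)) + q.2 .am)
        (min (q.1 (.inl (.inr 2)))
          ((q.1 (.inl (.inr 0)) + q.1 (.inl (.inr 1)) + q.1 (.inl (.inr 2)) + q.2 .am) / 3))
        (cx' (prX (bp fun i => q.1 (.inl i))))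
        (d * cκ (prX (bp fun i => q.1 (.inl i))))) := by
  intro ε hε
  obtain ⟨t₀, ht₀, ht₀', ht₀ε⟩ : ∃ t₀ : ℝ, 0 < t₀ ∧ t₀ ≤ 1 / 1000000 ∧ t₀ ≤ ε / 4000 :=
    ⟨min (1 / 1000000) (ε / 4000), lt_min (by norm_num) (by positivity), min_le_left _ _,
      min_le_right _ _⟩
  have hε8 : 0 < ε / 8 := by positivity
  obtain ⟨δ₀, hδ₀, HF⟩ := frX hpu hP hex hRh0 hRh he0 he0' hc0 hc1 hPar hDN
    hDR hR5 hKN hKR hTN hTR hcb hε8 ht₀
  refine ⟨min δ₀ t₀, lt_min hδ₀ ht₀, fun lam N B => ?_⟩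
  obtain ⟨B₂, J, R', hB₂, hJ, hR', δ', hδ', X₁, hX₁, HF⟩ := HF lam N B 1 le_rfl
  set A : ℝ := max B₂ (max B 1) with hA
  have hA1 : 1 ≤ A := hB₂.trans (le_max_left _ _)
  have hA2 : B ≤ A := (le_max_left _ _).trans (le_max_right _ _)
  have hε8A : 0 < ε / (8 * A) := by positivity
  obtain ⟨C, hC, HG⟩ := gram_lo (R := R') (a₁ := 1) hε8A hJ hR' le_rfl
  set Q : ℝ := 2 + 4 / t₀ + 8 * Real.log (C + 1) / ε with hQ
  have hQ1 : 0 ≤ 4 / t₀ := by positivity
  have hC1 : 0 ≤ Real.log (C + 1) := Real.log_nonneg (by linarith)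
  have hQ2 : 0 ≤ 8 * Real.log (C + 1) / ε := by positivity
  refine ⟨δ', hδ', max X₁ (Real.exp Q), hX₁.trans_le (le_max_left _ _), ?_⟩
  rintro X hX ⟨a, j, i, m⟩ qs hlen hgl q hq hw hm hg hl
  have hX1' : X₁ ≤ X := (le_max_left _ _).trans hX
  have hXQ : Real.exp Q ≤ X := (le_max_right _ _).trans hX
  have hX1 : 1 < X := by linarith
  have hX0 : 0 < X := by linarith
  unfold GkG
  split_ifs with hcond
  swap
  · exact Real.rpow_nonneg hX0.le _
  obtain ⟨hok, hmp, hj⟩ := hcond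
  simp only at hok hmp hj ⊢
  set L := Real.log X with hL
  have hQL : Q ≤ L := by
    have := Real.log_le_log (Real.exp_pos Q) hXQ
    rwa [Real.log_exp] at this
  have hL0' : 0 < L := by linarith
  have hLt : 4 ≤ t₀ * L := by
    have h1 : 4 / t₀ ≤ L := by linarith
    rw [div_le_iff₀ ht₀] at h1
    linarith
  have hCX : C ≤ X ^ (ε / 8) := by
    have h1 : 8 * Real.log (C + 1) / ε ≤ L := by linarith
    rw [div_le_iff₀ hε] at h1
    have h2 : C + 1 ≤ X ^ (ε / 8) := by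
      rw [Real.rpow_def_of_pos hX0, ← hL, ← Real.exp_log (show 0 < C + 1 by linarith)]
      exact Real.exp_le_exp.2 (by linarith)
    linarith
  obtain ⟨hqd, hk0, hk1⟩ := hq
  set q8 : (I8X → ℝ) × (Kd → ℝ) := (fun i => q.1 (.inl i), q.2) with hq8
  have hw' := hw.mono hX1.le (min_le_left _ _) le_rfl le_rfl le_rfl
  have hwX : Win S8X q8.1 δ₀ N B δ' X a :=
    ⟨fun i => hw'.ev (.inl i), hw'.g, Nat.zero_le _, hw'.s₁, (le_max_left _ _).trans hw'.s₂⟩
  have hmB : (nm m : ℝ) ≤ X ^ B := (le_max_right _ _).trans hw.s₂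
  have FR := HF X hX1' a qs hlen (fun p hp => (hgl p hp).imp id fun h3 => h3.trans
    (min_le_left _ _)) q8 hqd hwX (fun t => (hm t).trans (min_le_left _ _)) hg
    (fun p hp hlp => (hl p hp hlp).elim) hok
  obtain ⟨X3, kl, zl, Al, nl, n0, n1, np, yl, yX, sl, Y1, YX, EX, jb, adm⟩ := FR
  obtain ⟨hq1, hq2, hq3, hq4⟩ := hqd
  -- the family
  have hev : |((i : ℝ) + 1) * Real.log 2 / L - q.1 (.inr ())| ≤ t₀ := by
    have := hw.ev (.inr ())
    exact this.trans (min_le_right _ _)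
  set p : IX5 → ℝ := bp q8.1 with hp
  have hpar : prX p ∈ Par := hq1.par
  have hzr : ZR β p := hq1.zr
  have hPp := hPar _ hpar
  set n := LN (clN a qs) with hn
  set k := q.1 (.inr ()) with hk
  set κ := cκ (prX p) with hκ
  have hκp : 0 < κ := by linarith [hPp.κ0]
  have hκ1 : κ ≤ 1 := hPp.κ1
  have htL : 0 ≤ t₀ * L := by positivity
  have hqa : |((i : ℝ) + 1) * Real.log 2 - k * L| ≤ t₀ * L := by
    have e1 : ((i : ℝ) + 1) * Real.log 2 - k * L =
        (((i : ℝ) + 1) * Real.log 2 / L - k) * L := by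
      field_simp
    rw [e1, abs_mul, abs_of_pos hL0']
    exact mul_le_mul_of_nonneg_right hev hL0'.le
  have hl2 : 0 < Real.log 2 := Real.log_pos (by norm_num)
  have hl2' : Real.log 2 ≤ 1 := by
    have := Real.log_two_lt_d9
    linarith
  have hkL : k * L ≤ 3 / 5 * (κ * L) := by
    have := mul_le_mul_of_nonneg_right hk1 hL0'.le
    linarith
  have hjn : ((j : ℝ) + 1) ≤ nw c a := by exact_mod_cast hj
  have hvt : ((j : ℝ) + 1) * Real.log 2 ≤ tpW c p (q8.1 (.inr 3)) * L + 2 * (t₀ * L) := by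
    rw [Real.log_pow] at yl
    have := mul_le_mul_of_nonneg_right hjn hl2.le
    linarith
  have hZ2 : p (.inr 1) ≤ 6 / 25 * κ := by
    have h1 := (hzr 1).2
    have h2 := hPp.κ0
    linarith
  obtain ⟨hTf, hBf⟩ := TB (N := cN (prX p)) (x := cx' (prX p)) (y₃ := cu (prX p) 2)
    (y₄ := cu (prX p) 3) (u := cu (prX p) 4) (D := d * κ) (Z := p (.inr 1))
    (v₀ := q8.1 (.inr 0)) (v₁ := q8.1 (.inr 1)) (v₂ := q8.1 (.inr 2)) (x' := q8.2 .am)
    (b := q8.1 (.inr 3)) (c := c) (β := β) (t₀ := t₀) (vt := ((j : ℝ) + 1) * Real.log 2) (n := n)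
    (s0A := s0X a) (w := 0) (B := 0) hL0' hPp.κ0 hPp.κ1 ht₀.le ht₀' rfl (hDh _ hpar)
    (hcD _ hpar) hc0 hβ (hzr 1).1 hZ2 hq2.1.1 hq2.1.2.1 hq2.1.2.2 hq1.x0 hq1.x1 hq1.s2 hq1.s1
    hq1.b0 hvt nl n0 n1 sl
  set UM : ℝ := min (q8.1 (.inr 2))
    ((q8.1 (.inr 0) + q8.1 (.inr 1) + q8.1 (.inr 2) + q8.2 .am) / 3) with hUM
  have hUM0 : 0 ≤ UM := le_min hq1.v2 (by
    have := hq1.v0
    have := hq1.v1
    have := hq1.v2
    have := hq1.x0
    positivity)
  have hUM1 : UM ≤ cu (prX p) 4 := (min_le_left _ _).trans hq2.1.2.2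
  have hUM2 : 3 * UM ≤ svX q8 := by
    have : UM ≤ svX q8 / 3 := min_le_right _ _
    linarith
  obtain ⟨nl1, nl2⟩ := abs_le.1 nl
  obtain ⟨qa1, qa2⟩ := abs_le.1 hqa
  obtain ⟨kl1, kl2⟩ := abs_le.1 kl
  obtain ⟨Al1, Al2⟩ := abs_le.1 Al
  obtain ⟨zl1, zl2⟩ := abs_le.1 zl
  have hcl : CL (κ * L) (cu (prX p) 2 * L) (cu (prX p) 3 * L) (cu (prX p) 4 * L)
      (cx' (prX p) * L) (d * κ * L) (40 * (t₀ * L)) (((i : ℝ) + 1) * Real.log 2) n (UM * L)
      (((j : ℝ) + 1) * Real.log 2) := by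
    have eN : cN (prX p) = cu (prX p) 2 + cu (prX p) 3 + cu (prX p) 4 := rfl
    have h1 := hTf.p0
    have h2 := hTf.p1
    have h3 := hBf.v1
    have h4 := hBf.v2
    have h5 := mul_le_mul_of_nonneg_right hUM1 hL0'.le
    have h6 := mul_le_mul_of_nonneg_right hUM2 hL0'.le
    rw [eN] at h2 h3 h4
    refine ⟨dh_mul hL0' (hDh _ hpar), by positivity, hTf.t1, by positivity, by linarith, h1,
      by linarith, by positivity, by linarith, by linarith, by positivity, by linarith,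
      by linarith⟩
  have hlo : LoT (ShXl (lmX ℓ Kf Tf p * L) a qs) (((i : ℝ) + 1) * Real.log 2)
      (((j : ℝ) + 1) * Real.log 2) n (2 * Real.log 2)
      (GLo d (cN (prX p)) κ k (svX q8) UM (cx' (prX p)) (d * κ) * L + 962 * (t₀ * L)) := by
    constructor
    intro δ b l δ0 δ1 b0 l0 hl1 hl3
    have hFp := mul_le_mul_of_nonneg_right (hF p hpar hzr) hL0'.le
    have hk5 : k5X a ≤ max (κ * L) (5 / 4 * (cu (prX p) 2 * L + cu (prX p) 3 * L +
        cu (prX p) 4 * L)) + 40 * (t₀ * L) := by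
      have eN : cN (prX p) = cu (prX p) 2 + cu (prX p) 3 + cu (prX p) 4 := rfl
      have g1 := le_max_left (κ * L) (5 / 4 * (cu (prX p) 2 * L + cu (prX p) 3 * L +
        cu (prX p) 4 * L))
      have g2 := le_max_right (κ * L) (5 / 4 * (cu (prX p) 2 * L + cu (prX p) 3 * L +
        cu (prX p) 4 * L))
      rw [eN] at Al2
      unfold k5X
      refine max_le (by linarith) (by linarith)
    have key := lnl_X (d := d) (F := 5 / 9 * (d * κ * L)) (lm := lmX ℓ Kf Tf p * L)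
      (k5 := k5X a) (z := a.1.z) (um' := (a.2.1 2).z) (s := s0X a) (δ := δ) (b := b) (l := l)
      hcl hd0 hd1 (by ring) (hs_of hBf) δ0 (by linarith) b0 l0 (by linarith) le_rfl
      (by linarith) hk5 (by linarith)
    have e2 : cu (prX p) 2 * L + cu (prX p) 3 * L + cu (prX p) 4 * L = cN (prX p) * L := by
      have eN : cN (prX p) = cu (prX p) 2 + cu (prX p) 3 + cu (prX p) 4 := rfl
      rw [eN]; ring
    rw [e2] at key
    have g1 := GLo_near (d := d) (N := cN (prX p) * L) (k := κ * L) (um := UM * L)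
      (x := cx' (prX p) * L) (D := d * κ * L) hqa nl
    rw [GLo_mul hL0'.le] at g1
    have e3 : ShXl (lmX ℓ Kf Tf p * L) a qs δ b l =
        shB (s0X a) n (fun γ b v => ShT (k5X a) a.1.z (a.2.1 2).z n γ b v + lmX ℓ Kf Tf p * L)
          δ b l := rfl
    rw [e3]
    linarith
  have hXA : X ≤ X ^ A := by
    calc X = X ^ (1 : ℝ) := (Real.rpow_one X).symm
      _ ≤ X ^ A := Real.rpow_le_rpow_of_exponent_le hX1.le hA1
  have hXA1 : 1 ≤ X ^ A := hX1.le.trans hXA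
  have h2j : (2 : ℝ) ^ (j + 1) ≤ 1 * 2 ^ nw c a := by
    rw [one_mul]
    exact pow_le_pow_right₀ (by norm_num) hj
  have h2i : (2 : ℝ) ^ (i + 1) ≤ X := by
    refine (Real.log_le_log_iff (by positivity) hX0).1 ?_
    rw [Real.log_pow]
    push_cast
    have h1 := mul_le_mul_of_nonneg_right hκ1 hL0'.le
    have h2 := mul_le_mul_of_nonneg_right ht₀' hL0'.le
    linarith
  have main := HG (X ^ A) hXA1 (YcX Rh a qs) n (alX π h lam a qs) Y1
    (by
      rw [Real.rpow_one]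
      exact YX.trans (Real.rpow_le_rpow_of_exponent_le hX1.le (le_max_left _ _))) adm i j
    (Real.exp (e0 * a.1.l)) (X ^ (ε / 8)) _ _ (h2i.trans hXA) ((h2j.trans yX).trans hXA)
    (Real.rpow_nonneg hX0.le _) (jb.mono h2j) hlo (JS (nw c a)) (okJ_JS _) m hmp
    (hmB.trans (Real.rpow_le_rpow_of_exponent_le hX1.le hA2))
  refine main.trans ?_
  have e4 : (X ^ A) ^ (ε / (8 * A)) = X ^ (ε / 8) := by
    rw [← Real.rpow_mul hX0.le]
    congr 1
    have : A ≠ 0 := by positivity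
    field_simp
  rw [e4]
  have htε : 1000 * (t₀ * L) ≤ ε / 4 * L := by
    have := mul_le_mul_of_nonneg_right ht₀ε hL0'.le
    linarith
  set GG := GLo d (cN (prX p)) κ k (svX q8) UM (cx' (prX p)) (d * κ) with hGG
  calc C * X ^ (ε / 8) * (X ^ (ε / 8) * Real.exp (GG * L + 962 * (t₀ * L)))
      ≤ X ^ (ε / 8) * X ^ (ε / 8) * (X ^ (ε / 8) * Real.exp (GG * L + 962 * (t₀ * L))) := by
        gcongr
    _ = Real.exp (ε / 8 * L * 3 + (GG * L + 962 * (t₀ * L))) := by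
        rw [Real.rpow_def_of_pos hX0, ← hL]
        simp only [← Real.exp_add]
        congr 1
        ring
    _ ≤ Real.exp (L * (GG + ε)) := by
        refine Real.exp_le_exp.2 ?_
        nlinarith
    _ = X ^ (GG + ε) := by rw [Real.rpow_def_of_pos hX0]

end Crest.Agent.R017.GkL744
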