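import Crest.Agent.R017.P10e_146

/-!
# Row 17, class E: the domain of the flat claims (helper939)

* `D5X` : the domain (natural and replaced parents), `D5X_compact`, `D5_subset`
* `bP_memX`, `bR_memX` : the base points of the natural and the replaced parents
-/

set_option autoImplicit false
set_option linter.unusedVariables false

noncomputable section

open Set

namespace Crest.Agent.R017.D5X939

open Crest.Agent.R012 Crest.Agent.R012.Eis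
open Crest.Agent.R017.ER911
open Crest.Agent.R017.E5B71
open Crest.Agent.R017.P1t54 (ParS)
open Crest.Agent.R017.TM708 (T5 K5 FE2L R5)
open Crest.Agent.R017.FN708 (R5s)
open Crest.Agent.R017.P10146 (D5 bP bP_mem sq_facts)

/-- **the domain of the flat claims, class E** : every triple far, or no long lump -/
def D5X : Set (Fin 5 → ℝ) :=
  {b | R5 b ∧ R5s b ∧ 2 / 3 ≤ b 0 ∧ b 0 ≤ 11 / 10 ∧
    ((b 1 + b 2 + b 3 + b 1 ≤ K5 b ∨ b 1 + b 2 + b 3 + b 2 ≤ K5 b ∨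
      b 1 + b 2 + b 3 + b 3 ≤ K5 b) ∨
      (200 * b 1 ≤ 61 * K5 b ∧ 200 * b 2 ≤ 61 * K5 b ∧ 200 * b 3 ≤ 61 * K5 b))}

lemma D5X_compact : IsCompact D5X := by
  refine Metric.isCompact_of_isClosed_isBounded ?_ ?_
  · have e : D5X = {b : Fin 5 → ℝ | 0 ≤ b 0 ∧ 0 ≤ b 1 ∧ 0 ≤ b 2 ∧ 0 ≤ b 3 ∧ 0 ≤ b 4 ∧
        b 1 + b 2 + b 3 ≤ 102 / 125 * b 0 ∧ b 4 ≤ 1 / 36 * b 0 ∧
        (b 4 ≤ 0 ∨ (b 1 + b 2 + b 3 + b 4 ≤ 4 / 5 * b 0 ∧
          2 * (b 1 + b 2 + b 3) + 5 * b 4 ≤ 59 / 36 * b 0 ∧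
          2 * (b 1 + b 2 + b 3) + 6 * b 4 ≤ 5 / 3 * b 0)) ∧
        (b 4 ≤ 0 ∨ 3 * (b 1 + b 2 + b 3) + 6 * b 4 ≤ 29 / 12 * b 0) ∧
        2 / 3 ≤ b 0 ∧ b 0 ≤ 11 / 10 ∧
        ((b 1 + b 2 + b 3 + b 1 ≤ K5 b ∨ b 1 + b 2 + b 3 + b 2 ≤ K5 b ∨
          b 1 + b 2 + b 3 + b 3 ≤ K5 b) ∨
        (200 * b 1 ≤ 61 * K5 b ∧ 200 * b 2 ≤ 61 * K5 b ∧ 200 * b 3 ≤ 61 * K5 b))} := by
      ext b
      constructor
      · rintro ⟨⟨k0, y1, y2, y3, x0, hN, x1, adm⟩, hs, h⟩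
        exact ⟨k0, y1, y2, y3, x0, hN, x1, adm, hs, h⟩
      · rintro ⟨k0, y1, y2, y3, x0, hN, x1, adm, hs, h⟩
        exact ⟨⟨k0, y1, y2, y3, x0, hN, x1, adm⟩, hs, h⟩
    rw [e]
    have c : ∀ i : Fin 5, Continuous fun b : Fin 5 → ℝ => b i := fun i => continuous_apply i
    have hK := TM708.K5_cont
    have hK61 : Continuous fun b : Fin 5 → ℝ => 61 * K5 b := hK.const_mul 61
    have hle : ∀ {f g : (Fin 5 → ℝ) → ℝ}, Continuous f → Continuous g → IsClosed {b | f b ≤ g b} :=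
      fun hf hg => isClosed_le hf hg
    refine (hle (by fun_prop) (by fun_prop)).inter ((hle (by fun_prop) (by fun_prop)).inter
      ((hle (by fun_prop) (by fun_prop)).inter ((hle (by fun_prop) (by fun_prop)).inter
      ((hle (by fun_prop) (by fun_prop)).inter ((hle (by fun_prop) (by fun_prop)).inter
      ((hle (by fun_prop) (by fun_prop)).inter
      (((hle (by fun_prop) (by fun_prop)).union ((hle (by fun_prop) (by fun_prop)).inter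
        ((hle (by fun_prop) (by fun_prop)).inter (hle (by fun_prop) (by fun_prop))))).inter
      (((hle (by fun_prop) (by fun_prop)).union (hle (by fun_prop) (by fun_prop))).inter
      ((hle (by fun_prop) (by fun_prop)).inter ((hle (by fun_prop) (by fun_prop)).inter
      (((hle (by fun_prop) hK).union ((hle (by fun_prop) hK).union (hle (by fun_prop) hK))).union
      ((hle (by fun_prop) hK61).inter ((hle (by fun_prop) hK61).inter
        (hle (by fun_prop) hK61))))))))))))))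
  · refine (Metric.isBounded_iff_subset_closedBall (0 : Fin 5 → ℝ)).2 ⟨2, ?_⟩
    rintro b ⟨⟨k0, y1, y2, y3, x0, hN, x1, adm⟩, -, -, hb, -⟩
    rw [mem_closedBall_zero_iff, pi_norm_le_iff_of_nonneg (by norm_num)]
    intro i
    rw [Real.norm_eq_abs, abs_le]
    fin_cases i
    · show -2 ≤ b 0 ∧ b 0 ≤ 2
      constructor <;> linarith
    · show -2 ≤ b 1 ∧ b 1 ≤ 2
      constructor <;> linarith
    · show -2 ≤ b 2 ∧ b 2 ≤ 2
      constructor <;> linarith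
    · show -2 ≤ b 3 ∧ b 3 ≤ 2
      constructor <;> linarith
    · show -2 ≤ b 4 ∧ b 4 ≤ 2
      constructor <;> linarith

lemma D5_subset : D5 ⊆ D5X := by
  rintro b ⟨h1, h2, h3, h4, h5, h6, h7⟩
  exact ⟨h1, h2, h3, h4, Or.inr ⟨h7, by linarith, by linarith⟩⟩

lemma FE2L_mono {s : EF} {D D' : Set (Fin 5 → ℝ)} {ℓ : (Fin 5 → ℝ) → ℝ} (h : D ⊆ D')
    (H : FE2L s D' ℓ) : FE2L s D ℓ := fun b hb => H b (h hb)

/-- the natural parent -/
theorem bP_memX {A d : ℝ} (hd : 0 ≤ d) (hd1 : d ≤ 1 / 8) (hA1 : 16 * (1 - A) ≤ d)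
    {p : Fin 3 ⊕ Fin 5 → ℝ} (hp : p ∈ ParS A d) : bP p ∈ D5X :=
  D5_subset (bP_mem hd hd1 hA1 hp)

/-- **the parent of the replaced pair** -/
theorem bR_memX {A d β : ℝ} (hd : 0 ≤ d) (hd1 : d ≤ 1 / 8) (hA1 : 16 * (1 - A) ≤ d)
    (hβ0 : 0 ≤ β) (hβ : β ≤ 8 / 45) {p : Fin 3 ⊕ Fin 5 → ℝ} (hp : p ∈ ParS A d) {Z : ℝ}
    (hZ : β * cκ p ≤ Z) (hZ1 : Z ≤ β) :
    (![cκ p, Z, cu p 2 + cu p 3 - Z, cu p 4, cx' p] : Fin 5 → ℝ) ∈ D5X := by
  obtain ⟨k0, k1, u4, u34, u23, y27, n0, n1, x0, hx⟩ := sq_facts hd hd1 hA1 hp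
  have eN : cN p = cu p 2 + cu p 3 + cu p 4 := rfl
  have hZ0 : 0 ≤ Z := le_trans (mul_nonneg hβ0 (by linarith)) hZ
  have hZκ : Z ≤ 1 / 5 * cκ p := by linarith
  have eS : Z + (cu p 2 + cu p 3 - Z) + cu p 4 = cN p := by rw [eN]; ring
  refine ⟨⟨?_, ?_, ?_, ?_, ?_, ?_, ?_, ?_⟩, ?_, ?_, ?_, ?_⟩
  · show 0 ≤ cκ p; linarith
  · exact hZ0
  · show 0 ≤ cu p 2 + cu p 3 - Z; linarith
  · show 0 ≤ cu p 4; linarith
  · show 0 ≤ cx' p; linarith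
  · show Z + (cu p 2 + cu p 3 - Z) + cu p 4 ≤ 102 / 125 * cκ p; linarith
  · show cx' p ≤ 1 / 36 * cκ p
    rcases hx with h | ⟨h1, h2, h3⟩ <;> linarith
  · show cx' p ≤ 0 ∨ (Z + (cu p 2 + cu p 3 - Z) + cu p 4 + cx' p ≤ 4 / 5 * cκ p ∧
      2 * (Z + (cu p 2 + cu p 3 - Z) + cu p 4) + 5 * cx' p ≤ 59 / 36 * cκ p ∧
      2 * (Z + (cu p 2 + cu p 3 - Z) + cu p 4) + 6 * cx' p ≤ 5 / 3 * cκ p)
    rcases hx with h | ⟨h1, h2, h3⟩
    · exact Or.inl h.le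
    · right
      refine ⟨by linarith, by linarith, by linarith⟩
  · show cx' p ≤ 0 ∨ 3 * (Z + (cu p 2 + cu p 3 - Z) + cu p 4) + 6 * cx' p ≤ 29 / 12 * cκ p
    rcases hx with h | ⟨h1, h2, h3⟩
    · exact Or.inl h.le
    · right; linarith
  · show 2 / 3 ≤ cκ p; linarith
  · show cκ p ≤ 11 / 10; linarith
  · left; left
    show Z + (cu p 2 + cu p 3 - Z) + cu p 4 + Z ≤
      max (cκ p) (5 / 4 * (Z + (cu p 2 + cu p 3 - Z) + cu p 4))
    rcases le_total (cN p) (4 / 5 * cκ p) with h | h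
    · exact le_max_of_le_left (by linarith)
    · exact le_max_of_le_right (by linarith)

end Crest.Agent.R017.D5X939
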