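import Crest.Agent.R017.I1n_146
import Crest.Agent.R017.P1l_54
import Crest.Agent.R017.FNEb_708
import Crest.Agent.R017.WDec2_180
import Crest.Agent.R017.Sf_770

/-!
# Row 17, R8 / P1 (helper146): the assembly of `P10`, definitions

* `omP_bd` : the plateau takes values in `[0, 1]`
* `EtC`, `E3C` : two inputs (cross tail, Gram error) in the frame `S8`; `EtU`, `E3U`
-/

set_option autoImplicit false

noncomputable section

open Finset MeasureTheory
open scoped ComplexConjugate Classical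

namespace Crest.Agent.R017.P10146

open Crest.Agent.R012 Crest.Agent.R012.Eis Crest.Agent.R012.MC Crest.Agent.R012.Gauss880
open Crest.Agent.R012.LS2 (S mem_S)
open Crest.Agent.R017.CM106 (CS FS TG)
open Crest.Agent.R017.C70
open Crest.Agent.R017.HP842 (Pc pc sqc alL)
open Crest.Agent.R017.B770
open Crest.Agent.R017.FE47 (PU cx SM)
open Crest.Agent.R017.Prov71
open Crest.Agent.R017.Leg381 (Pf alF SF LF natl alF_natl)
open Crest.Agent.R017.E1551
open Crest.Agent.R017.E2440 (StE TE)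
open Crest.Agent.R017.LB48 (CrP GrP)
open Crest.Agent.R017.X6C180 (GF)
open Crest.Agent.R017.WDec180 (WD sc)
open Crest.Agent.R017.I1146
open Crest.Agent.R017.StD828 (ln)
open Crest.Agent.R017.StE828 (wD oD oD_zero oD_one log_nm_nonneg)
open Crest.Agent.R017.XT71 (Sys Win mx)
open Crest.Agent.R017.UM71 Crest.Agent.R017.End699
open Crest.Agent.R017.E5B71 Crest.Agent.R017.E5P571 Crest.Agent.R017.E5L770
open Crest.Agent.R017.P1e54 Crest.Agent.R017.P1f54 Crest.Agent.R017.P1k54 Crest.Agent.R017.P1l54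
open Crest.Agent.R017.TM708

/-! ### the plateau -/

/-- the telescoping sum -/
lemma sum_hD (n : ℕ) (u : ℝ) : ∑ i ∈ range n, wD i u =
    HBI146.cutR (Real.exp (u - Real.log 2 * n) * 2) - HBI146.cutR (2 * Real.exp u) := by
  induction n with
  | zero => simp [mul_comm]
  | succ n ih =>
    rw [sum_range_succ, ih]
    unfold wD
    unfold FE47.hD
    have e1 : Real.exp (u - Real.log 2 * ((n + 1 : ℕ) : ℝ)) * 2 =
        Real.exp (u - Real.log 2 * n) := by
      have : u - Real.log 2 * n = (u - Real.log 2 * ((n + 1 : ℕ) : ℝ)) + Real.log 2 := by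
        push_cast; ring
      rw [this, Real.exp_add, Real.exp_log (by norm_num)]
    rw [e1, mul_comm 2 (Real.exp (u - Real.log 2 * (n : ℝ)))]
    ring

lemma sum_wD_bd (n : ℕ) {u : ℝ} (hu : 0 ≤ u) :
    0 ≤ ∑ i ∈ range n, wD i u ∧ ∑ i ∈ range n, wD i u ≤ 1 := by
  have h0 : HBI146.cutR (2 * Real.exp u) = 0 := by
    unfold HBI146.cutR
    rw [Real.smoothTransition.one_of_one_le, sub_self]
    have := Real.one_le_exp hu
    linarith
  rw [sum_hD, h0, sub_zero]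
  exact ⟨HBI146.cutR_nonneg _, HBI146.cutR_le_one _⟩

/-- **the plateau takes values in `[0, 1]`** -/
theorem omP_bd (n : ℕ) (x : Eis × Eis) : ‖omP n x‖ ≤ 1 ∧ ‖1 - omP n x‖ ≤ 1 := by
  have e : omP n x = ((∑ i ∈ range n, wD i (Real.log (nm (ln x))) : ℝ) : ℂ) := by
    rw [Sf770.omP_eq]
    unfold oD
    push_cast
    rfl
  obtain ⟨h1, h2⟩ := sum_wD_bd n (log_nm_nonneg (ln x))
  rw [e]
  set s := ∑ i ∈ range n, wD i (Real.log (nm (ln x)))
  constructor
  · rw [Complex.norm_real, Real.norm_eq_abs, abs_of_nonneg h1]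
    exact h2
  · rw [← Complex.ofReal_one, ← Complex.ofReal_sub, Complex.norm_real, Real.norm_eq_abs,
      abs_of_nonneg (by linarith)]
    linarith

/-- outside the window the plateau vanishes -/
lemma omP_out {n : ℕ} {D' Y₁' : ℝ} {x : Eis × Eis} (hx : x ∈ JW D' (1 / 10) Y₁')
    (hn : x ∉ JW (Real.sqrt (2 ^ n)) (1 / 10) (2 ^ n)) : omP n x = 0 := by
  rw [Sf770.omP_eq]
  apply oD_zero
  by_contra h
  push Not at h
  apply hn
  unfold JW at hx ⊢
  rw [mem_filter, mem_product, mem_primBall] at hx ⊢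
  obtain ⟨⟨⟨h1, h2⟩, h3⟩, h4, h5, h6, h7⟩ := hx
  have hx1 : x.1 ≠ 0 := h2.ne_zero
  have hx2 : x.2 ≠ 0 := (E5b54.JC_cf h5).1
  have hl0 : ln x ≠ 0 := mul_ne_zero hx2 (pow_ne_zero 2 hx1)
  have hlp : (0 : ℝ) < nm (ln x) := by exact_mod_cast nm_pos.2 hl0
  have h8 : (nm (x.2 * x.1 ^ 2) : ℝ) ≤ 2 ^ n := by
    have h9 : (nm (ln x) : ℝ) < 2 ^ n := by
      rw [← Real.exp_log hlp]
      have : (2 : ℝ) ^ n = Real.exp (Real.log 2 * n) := by
        rw [mul_comm, Real.exp_nat_mul, Real.exp_log (by norm_num)]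
      rw [this]
      exact Real.exp_lt_exp.2 h
    exact h9.le
  have h9 : (nm x.1 : ℝ) ≤ Real.sqrt (2 ^ n) := by
    apply Real.le_sqrt_of_sq_le
    refine le_trans ?_ h8
    rw [nm_mul, nm_pow]
    push_cast
    have : (1 : ℝ) ≤ nm x.2 := by exact_mod_cast nm_pos.2 hx2
    exact le_mul_of_one_le_left (by positivity) this
  have h10 : (nm x.2 : ℝ) ≤ 2 ^ n := by
    refine le_trans ?_ h8
    rw [nm_mul, nm_pow]
    push_cast
    have : (1 : ℝ) ≤ nm x.1 := by exact_mod_cast nm_pos.2 hx1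
    exact le_mul_of_one_le_right (Nat.cast_nonneg _) (one_le_pow₀ this)
  refine ⟨⟨⟨Nat.le_floor h9, h2⟩, ?_⟩, h4, h5, h6, h8⟩
  rw [mem_ball]
  exact Nat.le_floor h10

/-! ### the inputs -/

variable {Λ : Type*} (π : Λ → DPar) (h : ℝ → ℝ) (e0 : ℝ)

/-- the list of a child -/
def cl (a : Bc) (qs : List Pq) : List Pq := List.ofFn a.2 ++ qs

/-- the sequence of a child -/
def alC (lam : Λ × Eis) (a : Bc) (qs : List Pq) : Eis → ℂ :=
  sqc 1 (alL h ((cl a qs).map (Pt (π lam.1) lam.2)))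

/-- the structured function of a child -/
def stC (lam : Λ × Eis) (a : Bc) (qs : List Pq) : Eis → ℂ :=
  StE (Real.exp (e0 * a.1.l)) (Jo a.1.l (a3 a.1) a.1.z) (omP (nO a.1)) (alC π h lam a qs)

/-- **cross tail** -/
def EtC (R : Λ → ℝ) (lam : Λ × Eis) (a : Bc) (qs : List Pq) : ℝ :=
  if okC (π lam.1) lam.2 a qs then
    ‖CrP (wM (R lam.1)) (Real.exp a.1.l) (alC π h lam a qs)
      (fun k => if cutE (Real.exp (a.1.l / 20)) k then 0 else stC π h e0 lam a qs k)‖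
  else 0

/-- range of the divisors in the main forms -/
def Yc (Rh : ℝ) (a : Bc) (qs : List Pq) : ℝ :=
  Real.exp (LN (cl a qs) + (cl a qs).length * Rh + 1)

/-- **Gram error** -/
def E3C (Rh : ℝ) (R : Λ → ℝ) (lam : Λ × Eis) (a : Bc) (qs : List Pq) : ℝ :=
  if okC (π lam.1) lam.2 a qs then
    max 0 (GrP (wM (R lam.1)) (Real.exp a.1.l)
        (fun k => if cutE (Real.exp (a.1.l / 20)) k then stC π h e0 lam a qs k else 0) -
      c3 (wM (R lam.1)) (Real.exp a.1.l) * (X3 (Yc Rh a qs) (Real.exp (e0 * a.1.l))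
        (Jo a.1.l (a3 a.1) a.1.z) (omP (nO a.1)) (alC π h lam a qs)).re)
  else 0

/-- cross tail, all lists -/
def EtU (Par : Set (Fin 3 ⊕ Fin 5 → ℝ)) (L0 : (Fin 3 ⊕ Fin 5 → ℝ) → ℝ) : Prop :=
  ∀ R : Λ → ℝ, (∀ lam, 0 ≤ R lam) → UB S8 Dq (EtC π h e0 R) (Dom8 Par) ∅ (E8 L0)

/-- Gram error, all lists -/
def E3U (Rh : ℝ) (Par : Set (Fin 3 ⊕ Fin 5 → ℝ)) (L0 : (Fin 3 ⊕ Fin 5 → ℝ) → ℝ) : Prop :=
  ∀ R : Λ → ℝ, (∀ lam, 0 ≤ R lam) → UB S8 Dq (E3C π h e0 Rh R) (Dom8 Par) ∅ (E8 L0)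

/-- the parent coordinates of helper708's bundle -/
def bP (p : Fin 3 ⊕ Fin 5 → ℝ) : Fin 5 → ℝ := ![cκ p, cu p 2, cu p 3, cu p 4, cx' p]

end Crest.Agent.R017.P10146
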