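import Crest.Agent.R017.I1LP_764
import Crest.Agent.R017.P1X3_960
import Crest.Agent.R017.P10d_146

/-!
# Row 17, exceptional class, P1X (helper764): `P10X`, definitions

* `dom_xD` : 960's difference `xD` is dominated by the untwisted difference `xN`
* `alX`, `stX`, `E2X`, `E3X` : the sequence, the structured function, cross error, Gram error
* `nW_lo`, `nW_hi` : the own window
-/

set_option autoImplicit false
set_option linter.unusedSectionVars false

noncomputable section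

open Finset MeasureTheory
open scoped ComplexConjugate Classical

namespace Crest.Agent.R017.P10X764

open Crest.Agent.R012 Crest.Agent.R012.Eis Crest.Agent.R012.MC Crest.Agent.R012.Gauss880
open Crest.Agent.R012.LS2 (S mem_S)
open Crest.Agent.R012.Weight600 (osc norm_osc osc_add_right)
open Crest.Agent.R017.CM106 (CS FS TG)
open Crest.Agent.R017.C70
open Crest.Agent.R017.HP842 (Pc pc sqc alL)
open Crest.Agent.R017.B770
open Crest.Agent.R017.FE47 (PU cx SM)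
open Crest.Agent.R017.Prov71
open Crest.Agent.R017.Leg381 (Pf alF SF LF natl alF_natl)
open Crest.Agent.R017.E1551 hiding Adm Dg
open Crest.Agent.R017.E2440 (StE TE)
open Crest.Agent.R017.LB48 (CrP GrP)
open Crest.Agent.R017.X6C180 (GF)
open Crest.Agent.R017.WDec180 (WD sc)
open Crest.Agent.R017.I1146 hiding cN
open Crest.Agent.R017.I1K764
open Crest.Agent.R017.StD828 (ln)
open Crest.Agent.R017.StE828 (wD oD oD_zero oD_one log_nm_nonneg)
open Crest.Agent.R017.XT71 (Sys Win mx)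
open Crest.Agent.R017.UM71 Crest.Agent.R017.End699
open Crest.Agent.R017.E5B71 Crest.Agent.R017.E5P571 Crest.Agent.R017.E5L770
open Crest.Agent.R017.ExBox960 Crest.Agent.R017.ExP960
open Crest.Agent.R017.Sf770
open Crest.Agent.R017.E5LX770 (nB)
open Crest.Agent.R017.P1e54 Crest.Agent.R017.P1f54 Crest.Agent.R017.P1k54
open Crest.Agent.R017.P1X960
open Crest.Agent.R017.PX764 (Dk)
open Crest.Agent.R017.TM708 (PD)

/-! ### domination -/

lemma dom_smul {ν D : ℝ} (_hD : 0 ≤ D) {be al : Eis → ℂ} (h : Dom ν D be al) {z : ℂ}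
    (hz : ‖z‖ ≤ 1) : Dom ν D be (z • al) where
  le m := by
    show ‖z * al m‖ ≤ _
    rw [norm_mul]
    exact (mul_le_of_le_one_left (norm_nonneg _) hz).trans (h.le m)
  vf V t hV := by
    refine le_trans ?_ (h.vf V t hV)
    have e : tws (z • al) t = fun n => z * tws al t n := by
      funext n
      show z * al n * _ = z * (al n * _)
      ring
    rw [e]
    unfold Rough381.VF
    refine Finset.sum_le_sum fun j _ => ?_
    rw [RG64.TG_const_mul, norm_mul]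
    exact pow_le_pow_left₀ (by positivity) (mul_le_of_le_one_left (norm_nonneg _) hz) 2
  jb Y Q g B V t hg hY hV := by
    refine le_trans ?_ (h.jb Y Q g B V t hg hY hV)
    unfold E1551.JB
    refine Finset.sum_le_sum fun U _ => Finset.sum_le_sum fun κ _ => ?_
    have e : tws (sg (z • al) (g * U)) t = fun n => z * tws (sg al (g * U)) t n := by
      funext n
      show z * al (g * U * n) * _ = z * (al (g * U * n) * _)
      ring
    rw [e, RG64.TG_const_mul, norm_mul]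
    exact pow_le_pow_left₀ (by positivity) (mul_le_of_le_one_left (norm_nonneg _) hz) 2

lemma oc_shift (vs : Fin 3 → Pq) (D : ℝ) : oc vs ((vs 0).z - D) ((vs 1).z + D) =
    oc vs (vs 0).z (vs 1).z * zN (vs 0) (vs 1) ((vs 1).z + D) := by
  unfold oc zN ExD791.zet
  show osc (vs 0).t (-((vs 0).z - D)) * osc (vs 1).t (-((vs 1).z + D)) =
    osc (vs 0).t (-(vs 0).z) * osc (vs 1).t (-(vs 1).z) *
      (osc (vs 0).t (-((vs 1).z - ((vs 1).z + D))) * osc (vs 1).t ((vs 1).z - ((vs 1).z + D)))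
  have e1 : osc (vs 0).t (-((vs 0).z - D)) = osc (vs 0).t (-(vs 0).z) *
      osc (vs 0).t (-((vs 1).z - ((vs 1).z + D))) := by
    rw [← osc_add_right]; congr 1; ring
  have e2 : osc (vs 1).t (-((vs 1).z + D)) = osc (vs 1).t (-(vs 1).z) *
      osc (vs 1).t ((vs 1).z - ((vs 1).z + D)) := by
    rw [← osc_add_right]; congr 1; ring
  rw [e1, e2]
  ring

lemma ofFn3 {α : Type*} (f : Fin 3 → α) : List.ofFn f = [f 0, f 1, f 2] := by
  simp [List.ofFn_succ]

lemma rl_eq (vs : Fin 3 → Pq) (D : ℝ) (qs : List Pq) :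
    rl (vs 0) (vs 1) (vs 2 :: qs) ((vs 1).z + D) = List.ofFn (rzD vs D) ++ qs := by
  rw [ofFn3]
  unfold rl
  have e : (vs 0).z + (vs 1).z - ((vs 1).z + D) = (vs 0).z - D := by ring
  rw [e]
  rfl

lemma xD_eq (h : ℝ → ℝ) (P : DPar) (t : Eis) (vs : Fin 3 → Pq) (D : ℝ) (qs : List Pq) :
    xD h P t vs D qs = oc vs (vs 0).z (vs 1).z •
      xT P h t 1 (vs 0) (vs 1) (vs 2 :: qs) ((vs 1).z + D) := by
  funext n
  unfold xD P1X960.cmb xT
  rw [rl_eq, ofFn3 vs, oc_shift]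
  show oc vs (vs 0).z (vs 1).z * _ + -(oc vs (vs 0).z (vs 1).z * zN _ _ _) * _ =
    oc vs (vs 0).z (vs 1).z * (sqc 1 (alL h (([vs 0, vs 1, vs 2] ++ qs).map (Pt P t))) n -
      zN (vs 0) (vs 1) ((vs 1).z + D) *
        sqc 1 (alL h ((List.ofFn (rzD vs D) ++ qs).map (Pt P t))) n)
  ring

/-- **960's difference is dominated by the untwisted difference** -/
theorem dom_xD {P : DPar} (hP : P.OK) (h : ℝ → ℝ) {s : Eis} (hs : s ∈ SM P.n)
    (vs : Fin 3 → Pq) (D : ℝ) (qs : List Pq) : Dom ((nm s : ℝ) ^ 2) (ds s).card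
      (xN P h 1 (vs 0) (vs 1) (vs 2 :: qs) ((vs 1).z + D)) (xD h P s vs D qs) := by
  rw [xD_eq]
  exact dom_smul (Nat.cast_nonneg _) (dom_xT hP h hs 1 _ _ _ _) (norm_oc _ _ _).le

/-! ### the inputs -/

section
variable {Λ : Type*} (π : Λ → DPar) (h : ℝ → ℝ) (e0 c : ℝ)

/-- the natural list of a child -/
def clN (a : BcX) (qs : List Pq) : List Pq := List.ofFn a.2.1 ++ qs

/-- number of levels of the own window -/
def nw (a : BcX) : ℕ := nW c a.1.toBd a.2.2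

/-- the sequence of a child -/
def alX (lam : Λ × Eis) (a : BcX) (qs : List Pq) : Eis → ℂ :=
  xD h (π lam.1) lam.2 a.2.1 (dz a.1) qs

/-- the structured function of a child, own window -/
def stX (lam : Λ × Eis) (a : BcX) (qs : List Pq) : Eis → ℂ :=
  StE (Real.exp (e0 * a.1.l)) (JS (nw c a)) (omP (nw c a)) (alX π h lam a qs)

/-- range of the divisors in the main forms -/
def YcX (Rh : ℝ) (a : BcX) (qs : List Pq) : ℝ :=
  Real.exp (LN (clN a qs) + (clN a qs).length * Rh + 1)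

/-- **cross error** -/
def E2X (Rh : ℝ) (R : Λ → ℝ) (lam : Λ × Eis) (a : BcX) (qs : List Pq) : ℝ :=
  if okCX (π lam.1) lam.2 a qs ∧ okD a then
    ‖CrP (wM (R lam.1)) (Real.exp a.1.l) (alX π h lam a qs)
        (fun k => if cutE (Real.exp (a.1.l / 20)) k then stX π h e0 c lam a qs k else 0) -
      ((pC * c3 (wM (R lam.1)) (Real.exp a.1.l) : ℝ) : ℂ) * X2 (YcX Rh a qs)
        (Real.exp (e0 * a.1.l)) (JS (nw c a)) (omP (nw c a)) (alX π h lam a qs)‖
  else 0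

/-- **Gram error** -/
def E3X (Rh : ℝ) (R : Λ → ℝ) (lam : Λ × Eis) (a : BcX) (qs : List Pq) : ℝ :=
  if okCX (π lam.1) lam.2 a qs ∧ okD a then
    max 0 (GrP (wM (R lam.1)) (Real.exp a.1.l)
        (fun k => if cutE (Real.exp (a.1.l / 20)) k then stX π h e0 c lam a qs k else 0) -
      c3 (wM (R lam.1)) (Real.exp a.1.l) * (X3 (YcX Rh a qs) (Real.exp (e0 * a.1.l))
        (JS (nw c a)) (omP (nw c a)) (alX π h lam a qs)).re)
  else 0

/-- cross error, all lists -/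
def E2XU (Rh β : ℝ) (Par : Set (Fin 3 ⊕ Fin 5 → ℝ)) (L0 : (Fin 3 ⊕ Fin 5 → ℝ) → ℝ) : Prop :=
  ∀ R : Λ → ℝ, (∀ lam, 0 ≤ R lam) →
    UB S8X Dq (E2X π h e0 c Rh R) (Dom8X c β Par DifL) ∅ (E8X L0)

/-- Gram error, all lists -/
def E3XU (Rh β : ℝ) (Par : Set (Fin 3 ⊕ Fin 5 → ℝ)) (L0 : (Fin 3 ⊕ Fin 5 → ℝ) → ℝ) : Prop :=
  ∀ R : Λ → ℝ, (∀ lam, 0 ≤ R lam) →
    UB S8X Dq (E3X π h e0 c Rh R) (Dom8X c β Par DifL) ∅ (E8X L0)

end

/-- the natural parent -/
def bN (p : IX5 → ℝ) : Fin 5 → ℝ :=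
  ![cκ (prX p), cu (prX p) 2, cu (prX p) 3, cu (prX p) 4, cx' (prX p)]

/-- the replaced parent -/
def bR (p : IX5 → ℝ) : Fin 5 → ℝ :=
  ![cκ (prX p), p (.inr 1), cu (prX p) 2 + cu (prX p) 3 - p (.inr 1), cu (prX p) 4, cx' (prX p)]

/-- top of the own window -/
def tpW (c : ℝ) (p : IX5 → ℝ) (b : ℝ) : ℝ :=
  min (top5 (prX p)) (top5 (prX p) + 2 * (c * cκ (prX p)) - 2 * b)

/-- **the bias line (BT)** and the range of the levels -/
structure BTl (c β : ℝ) (Par : Set (Fin 3 ⊕ Fin 5 → ℝ)) (L0 : (Fin 3 ⊕ Fin 5 → ℝ) → ℝ)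
    (Tt : (Fin 5 → ℝ) → ℝ) : Prop where
  bt : ∀ (p : IX5 → ℝ) (v₀ v₁ v₂ b x' : ℝ), ChC c β Par p v₀ v₁ v₂ b x' → DifL p v₀ v₁ v₂ →
    (max (tpW c p b) (2 * (v₀ + v₁ + v₂ + x') - cκ (prX p)) + (v₀ + v₁ + v₂ + x') -
      cκ (prX p)) / 3 ≤ min (min v₀ v₁) (min (v₀ - (cu (prX p) 2 - p (.inr 1)))
        (v₁ + (cu (prX p) 2 - p (.inr 1)))) + L0 (prX p)
  tN : ∀ (p : IX5 → ℝ) (v₀ v₁ v₂ b x' : ℝ), ChC c β Par p v₀ v₁ v₂ b x' → DifL p v₀ v₁ v₂ →
    max (tpW c p b) (2 * (v₀ + v₁ + v₂ + x') - cκ (prX p)) ≤ Tt (bN p)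
  tR : ∀ (p : IX5 → ℝ) (v₀ v₁ v₂ b x' : ℝ), ChC c β Par p v₀ v₁ v₂ b x' → DifL p v₀ v₁ v₂ →
    max (tpW c p b) (2 * (v₀ + v₁ + v₂ + x') - cκ (prX p)) ≤ Tt (bR p)

/-! ### the own window -/

lemma nW_lo (c : ℝ) (a : BcX) : min (tO a.1.toBd) (tO a.1.toBd + 2 * (c * a.1.l) - 2 * a.2.2) ≤
    Real.log 2 * nw c a := by
  have h2 : 0 < Real.log 2 := Real.log_pos (by norm_num)
  unfold nw P1X960.nW
  rcases le_total (nO a.1.toBd) (nB (tO a.1.toBd + 2 * (c * a.1.l)) (Real.exp a.2.2)) with h | h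
  · rw [min_eq_left h]
    exact (min_le_left _ _).trans (lt_nO _)
  · rw [min_eq_right h]
    refine (min_le_right _ _).trans ?_
    unfold E5LX770.nB
    rw [Real.log_exp]
    split_ifs with h3
    · have h4 := Nat.lt_floor_add_one ((tO a.1.toBd + 2 * (c * a.1.l) - 2 * a.2.2) / Real.log 2)
      rw [div_lt_iff₀ h2] at h4
      push_cast
      linarith
    · push_cast
      push Not at h3
      linarith

lemma nW_hi (c : ℝ) (a : BcX) : Real.log 2 * nw c a ≤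
    max 0 (min (tO a.1.toBd) (tO a.1.toBd + 2 * (c * a.1.l) - 2 * a.2.2)) + Real.log 2 := by
  have h2 : 0 < Real.log 2 := Real.log_pos (by norm_num)
  have key : ∀ t : ℝ, Real.log 2 * ((⌊t / Real.log 2⌋₊ + 1 : ℕ) : ℝ) ≤ max 0 t + Real.log 2 := by
    intro t
    push_cast
    rcases le_total 0 t with h | h
    · have h4 := Nat.floor_le (div_nonneg h h2.le)
      rw [le_div_iff₀ h2] at h4
      have := le_max_right 0 t
      linarith
    · rw [Nat.floor_of_nonpos (div_nonpos_of_nonpos_of_nonneg h h2.le)]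
      have := le_max_left 0 t
      push_cast
      linarith
  have h5 : Real.log 2 * nw c a ≤ max 0 (tO a.1.toBd) + Real.log 2 := by
    refine le_trans ?_ (key (tO a.1.toBd))
    refine mul_le_mul_of_nonneg_left ?_ h2.le
    rw [← nO_eq]
    exact_mod_cast min_le_left _ _
  have h6 : Real.log 2 * nw c a ≤
      max 0 (tO a.1.toBd + 2 * (c * a.1.l) - 2 * a.2.2) + Real.log 2 := by
    have h7 : (nw c a : ℝ) ≤ (nB (tO a.1.toBd + 2 * (c * a.1.l)) (Real.exp a.2.2) : ℕ) := by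
      exact_mod_cast min_le_right _ _
    refine (mul_le_mul_of_nonneg_left h7 h2.le).trans ?_
    unfold E5LX770.nB
    rw [Real.log_exp]
    split_ifs with h3
    · exact key _
    · push_cast
      have := le_max_left 0 (tO a.1.toBd + 2 * (c * a.1.l) - 2 * a.2.2)
      linarith
  have h8 : max 0 (min (tO a.1.toBd) (tO a.1.toBd + 2 * (c * a.1.l) - 2 * a.2.2)) =
      min (max 0 (tO a.1.toBd)) (max 0 (tO a.1.toBd + 2 * (c * a.1.l) - 2 * a.2.2)) :=
    max_min_distrib_left _ _ _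
  rw [h8, ← min_add_add_right]
  exact le_min h5 h6

/-! ### the plateau -/

/-- the plateau, `1` at the degenerate pairs -/
def omW (n : ℕ) (x : Eis × Eis) : ℂ := if nm (ln x) = 0 then 1 else omP n x

lemma omW_bd (n : ℕ) (x : Eis × Eis) : ‖omW n x‖ ≤ 1 ∧ ‖1 - omW n x‖ ≤ 1 := by
  unfold omW
  split_ifs
  · simp
  · exact P10146.omP_bd n x

lemma ln_ne {D Y₀ Y₁ : ℝ} {x : Eis × Eis} (hx : x ∈ JW D Y₀ Y₁) : nm (ln x) ≠ 0 := by
  have h1 := (okJ_JW D Y₀ Y₁).prim x hx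
  unfold JW at hx
  rw [mem_filter, mem_product, mem_primBall] at hx
  obtain ⟨⟨⟨-, h2⟩, h3⟩, h4, h5, h6, h7⟩ := hx
  have hx1 : x.1 ≠ 0 := h2.ne_zero
  have hx2 : x.2 ≠ 0 := (E5b54.JC_cf h5).1
  have hl0 : ln x ≠ 0 := mul_ne_zero hx2 (pow_ne_zero 2 hx1)
  exact (nm_pos.2 hl0).ne'

lemma omW_eq {n : ℕ} {D Y₀ Y₁ : ℝ} {x : Eis × Eis} (hx : x ∈ JW D Y₀ Y₁) : omW n x = omP n x := by
  unfold omW
  rw [if_neg (ln_ne hx)]

lemma omW_one {n : ℕ} {x : Eis × Eis} (hx : (nm (ln x) : ℝ) ≤ 2 ^ n / 2) : omW n x = 1 := by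
  unfold omW
  split_ifs with h0
  · rfl
  have h2 : 0 < Real.log 2 := Real.log_pos (by norm_num)
  rw [Sf770.omP_eq]
  apply oD_one
  have hp0 : (0 : ℝ) < nm (ln x) := by exact_mod_cast Nat.pos_of_ne_zero h0
  have h1 := Real.log_le_log hp0 hx
  rw [Real.log_div (by positivity) (by norm_num), Real.log_pow] at h1
  linarith

lemma StE_om {E0 : ℝ} {J : Finset (Eis × Eis)} {om om' : Eis × Eis → ℂ}
    (h : ∀ x ∈ J, om x = om' x) (α : Eis → ℂ) (k : Eis) : StE E0 J om α k = StE E0 J om' α k := by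
  unfold StE
  exact Finset.sum_congr rfl fun x hx => by rw [h x hx]

lemma X2_om {Y E0 : ℝ} {J : Finset (Eis × Eis)} {om om' : Eis × Eis → ℂ}
    (h : ∀ x ∈ J, om x = om' x) (α : Eis → ℂ) : X2 Y E0 J om α = X2 Y E0 J om' α := by
  unfold X2
  exact Finset.sum_congr rfl fun x hx => by rw [h x hx]

lemma X3_om {Y E0 : ℝ} {J : Finset (Eis × Eis)} {om om' : Eis × Eis → ℂ}
    (h : ∀ x ∈ J, om x = om' x) (α : Eis → ℂ) : X3 Y E0 J om α = X3 Y E0 J om' α := by
  unfold X3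
  exact Finset.sum_congr rfl fun x hx => by rw [h x hx]

lemma JS_mono {m n : ℕ} (h : m ≤ n) : JS m ⊆ JS n := by
  unfold Sf770.JS
  have h1 : (2 : ℝ) ^ m ≤ 2 ^ n := pow_le_pow_right₀ (by norm_num) h
  exact JW_mono (Real.sqrt_le_sqrt h1) h1

/-- the official error has levels in the own window only -/
lemma StE_own {m n : ℕ} (h : m ≤ n) (E0 : ℝ) (α : Eis → ℂ) (k : Eis) :
    StE E0 (JS n) (omP m) α k = StE E0 (JS m) (omP m) α k :=
  I1146.StE_congr (JS_mono h) (fun _ hx hn => P10146.omP_out hx hn) α k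

end Crest.Agent.R017.P10X764
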