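import Crest.Agent.R017.NrX_986
import Crest.Agent.R017.D5X_939
import Crest.Agent.R017.P10Xa_764

/-!
# Row 17, class E: the flat claims over the exact square (helper986)

* `D5X_near` : helper939's domain `D5X`, the near lists
* `Kf1`, `Tf1` : the family and the level range of the flat bundle
* `fe2G_D`, `fe2G_1` : `FE2G` at `(K5, T5)` and at `(Kf1, Tf1)`, loss `3/4 d b₀`
* `bN_mem`, `bR_mem` : the parents of `ParS A d`
-/

set_option autoImplicit false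

noncomputable section

open Set

namespace Crest.Agent.R017.NrX986

open Crest.Agent.R017.ER911 Crest.Agent.R017.SC777
open Crest.Agent.R017.NE73 Crest.Agent.R017.NEx911
open Crest.Agent.R017.TM708 (T5 K5 R5 K5_cont T5_cont)
open Crest.Agent.R017.TK708 (FE2G RG5)
open Crest.Agent.R017.FN708 (R5s RF RF_of mnb)
open Crest.Agent.R017.D5X939 (D5X)
open Crest.Agent.R017.B770 Crest.Agent.R017.E5B71 Crest.Agent.R017.E5L770
open Crest.Agent.R017.ExP960 (IX5 prX ZR)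
open Crest.Agent.R017.P1t54 (ParS LS0)
open Crest.Agent.R017.P10X764 (bN bR)

/-- near parents are natural -/
lemma D5X_near {b : Fin 5 → ℝ} (hb : b ∈ D5X) (hn : K5 b < b 1 + b 2 + b 3 + mnb b) :
    200 * max (b 1) (max (b 2) (b 3)) ≤ 61 * K5 b := by
  have h1 : mnb b ≤ b 1 := min_le_left _ _
  have h2 : mnb b ≤ b 2 := (min_le_right _ _).trans (min_le_left _ _)
  have h3 : mnb b ≤ b 3 := (min_le_right _ _).trans (min_le_right _ _)
  rcases hb.2.2.2.2 with (h | h | h) | ⟨k1, k2, k3⟩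
  · exact absurd hn (by linarith)
  · exact absurd hn (by linarith)
  · exact absurd hn (by linarith)
  · rcases max_cases (b 1) (max (b 2) (b 3)) with ⟨e, -⟩ | ⟨e, -⟩ <;> rw [e]
    · exact k1
    · rcases max_cases (b 2) (b 3) with ⟨e, -⟩ | ⟨e, -⟩ <;> rw [e]
      · exact k2
      · exact k3

/-- the family of the flat bundle -/
def Kf1 (b : Fin 5 → ℝ) : ℝ := b 0 + 4 / 3 * max 0 (5 / 4 * (b 1 + b 2 + b 3) - b 0)

/-- the levels of the flat bundle -/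
def Tf1 (b : Fin 5 → ℝ) : ℝ := max (T5 b) (2 * (b 1 + b 2 + b 3 + b 4) - b 0)

lemma Kf1_cont : Continuous Kf1 := by unfold Kf1; fun_prop

lemma Tf1_cont : Continuous Tf1 := by
  have := T5_cont
  unfold Tf1
  fun_prop

lemma K5_le_Kf1 (b : Fin 5 → ℝ) : K5 b ≤ Kf1 b := by
  have h1 := le_max_left 0 (5 / 4 * (b 1 + b 2 + b 3) - b 0)
  have h2 := le_max_right 0 (5 / 4 * (b 1 + b 2 + b 3) - b 0)
  unfold K5 Kf1
  exact max_le (by linarith) (by linarith)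

lemma rf_D {b : Fin 5 → ℝ} (hb : b ∈ D5X) : RF K5 T5 b := RF_of hb.1 hb.2.1

lemma rg_D {b : Fin 5 → ℝ} (hb : b ∈ D5X) : RG5 K5 T5 b := TK708.R5.toG hb.1

lemma rf_1 {b : Fin 5 → ℝ} (hb : b ∈ D5X) : RF Kf1 Tf1 b := by
  have h := rf_D hb
  obtain ⟨k0, y1, y2, y3, x0, hN, x1, adm⟩ := hb.1
  have hK := K5_le_Kf1 b
  refine ⟨h.k0.trans hK, y1, y2, y3, x0, h.x36.trans hK, by linarith [h.n5], ?_⟩
  rcases max_cases (T5 b) (2 * (b 1 + b 2 + b 3 + b 4) - b 0) with ⟨e, -⟩ | ⟨e, -⟩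
  · have := h.vn
    unfold Tf1
    rw [e]
    linarith
  · unfold Tf1
    rw [e]
    have h1 := le_max_left 0 (5 / 4 * (b 1 + b 2 + b 3) - b 0)
    have h2 := le_max_right 0 (5 / 4 * (b 1 + b 2 + b 3) - b 0)
    unfold Kf1
    rcases adm with hx | ⟨hx, -, -⟩
    · rcases le_total (b 1 + b 2 + b 3) (4 / 5 * b 0) with h3 | h3 <;> linarith
    · linarith

lemma rg_1 {b : Fin 5 → ℝ} (hb : b ∈ D5X) : RG5 Kf1 Tf1 b := by
  have h := rg_D hb
  obtain ⟨k0, y1, y2, y3, x0, hN, x1, adm⟩ := hb.1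
  refine ⟨h.k0, h.x0, h.hN, h.x1, h.adm, h.kK.trans (K5_le_Kf1 b), ?_, ?_⟩
  · refine max_le h.T1 ?_
    rcases adm with hx | ⟨hx, hy, hz⟩ <;> linarith
  · have h2 := h.T2
    rcases max_cases (T5 b) (2 * (b 1 + b 2 + b 3 + b 4) - b 0) with ⟨e, -⟩ | ⟨e, -⟩
    · unfold Tf1
      rw [e]
      exact h2
    · unfold Tf1
      rw [e]
      rcases adm with hx | ⟨hx, hy, hz⟩ <;> linarith

variable {d : ℝ} {r s s₀ : EF}

lemma ell_le (hd : 0 ≤ d) {b : Fin 5 → ℝ} (hb : b ∈ D5X) :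
    2 * d * ((b 1 + b 2 + b 3) / 3 + b 4) ≤ 3 / 4 * d * b 0 := by
  obtain ⟨k0, y1, y2, y3, x0, hN, x1, adm⟩ := hb.1
  have h4 : d * ((b 1 + b 2 + b 3) / 3 + b 4) ≤ d * (3 / 8 * b 0) :=
    mul_le_mul_of_nonneg_left (by linarith) hd
  linarith

/-- **the flat claims at `(K5, T5)`** -/
theorem fe2G_D (R : ExpRules (7 / 8 + d) r s) (Rm : ExpRGFz (7 / 8 + d) r s s₀)
    (hd : 0 ≤ d) (hd8 : 8 * d ≤ 1) (hG : NearAllX d s₀) :
    FE2G s₀ D5X K5 T5 fun b => 3 / 4 * d * b 0 :=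
  fe2G_of_nex R Rm hd hd8 (fun _ hb => rf_D hb) (fun _ hb hn => D5X_near hb hn)
    (fun _ hb => ell_le hd hb) hG

/-- **the flat claims at `(Kf1, Tf1)`** -/
theorem fe2G_1 (R : ExpRules (7 / 8 + d) r s) (Rm : ExpRGFz (7 / 8 + d) r s s₀)
    (hd : 0 ≤ d) (hd8 : 8 * d ≤ 1) (hG : NearAllX d s₀) :
    FE2G s₀ D5X Kf1 Tf1 fun b => 3 / 4 * d * b 0 :=
  fe2G_of_nex R Rm hd hd8 (fun _ hb => rf_1 hb)
    (fun b hb hn => (D5X_near hb ((K5_le_Kf1 b).trans_lt hn)).trans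
      (by linarith [K5_le_Kf1 b]))
    (fun _ hb => ell_le hd hb) hG

/-- **the natural parents** -/
theorem bN_mem {A : ℝ} (hd : 0 ≤ d) (hd1 : d ≤ 1 / 8) (hA1 : 16 * (1 - A) ≤ d)
    {p : IX5 → ℝ} (hp : prX p ∈ ParS A d) : bN p ∈ D5X :=
  D5X939.bP_memX hd hd1 hA1 hp

/-- **the replaced parents** -/
theorem bR_mem {A : ℝ} (hd : 0 ≤ d) (hd1 : d ≤ 1 / 8) (hA1 : 16 * (1 - A) ≤ d)
    {p : IX5 → ℝ} (hp : prX p ∈ ParS A d) (hz : ZR (17 / 100) p) : bR p ∈ D5X :=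
  D5X939.bR_memX hd hd1 hA1 (by norm_num) (by norm_num) hp (hz 1).1 (hz 1).2

end Crest.Agent.R017.NrX986
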