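import Crest.Agent.R017.E3Uy_744
import Crest.Agent.R017.NrY_986
import Crest.Agent.R017.GkLx_744
import Crest.Agent.R017.GkLs_968

/-!
# Row 17, class E (helper744): the frames of the Gram sums at the loss `5/9 d b₀`

* `fe2G_59`, **`cba_59`** : flat claims and T-claims at `(K5, T5)` / `(K5, T9)`, loss `5/9 d b₀`
* `lm_59` : the shift of the lists is `≤ 5/9 d κ`
* **`frH_59`, `frHS_59`** : the frames at `ParS A d`, `LS0 d`
* **`low_X`, `low_S`** : `GkGUc (3/5)` at the reduced data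
-/

set_option autoImplicit false

noncomputable section

open Set

namespace Crest.Agent.R017.Cba59744

open Crest.Agent.R012 Crest.Agent.R012.Eis
open Crest.Agent.R017.FE47 (PU cx)
open Crest.Agent.R017.Prov71 Crest.Agent.R017.ER911 Crest.Agent.R017.SC777
open Crest.Agent.R017.B770 Crest.Agent.R017.E5B71 Crest.Agent.R017.E5L770
open Crest.Agent.R017.ExP960 (IX5 prX ZR)
open Crest.Agent.R017.P1t54 (ParS LS0 parOK_Sq5)
open Crest.Agent.R017.P1X960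
open Crest.Agent.R017.P10X764
open Crest.Agent.R017.TM708 (T5 K5 R5)
open Crest.Agent.R017.TK708 (FE2G AllT)
open Crest.Agent.R017.D5X939 (D5X D5X_compact)
open Crest.Agent.R017.NrX986 (bN_mem bR_mem Tf1 rf_D NearAllX D5X_near)
open Crest.Agent.R017.NEx911 (fe2G_of_nex)
open Crest.Agent.R017.Red848 (red Exc red_ok)
open Crest.Agent.R017.PX764 (Dk)
open Crest.Agent.R017.XS0298 (S0K)
open Crest.Agent.R017.LfP986 (npm_one r5_bN bts_of' btl_of)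
open Crest.Agent.R017.LfX986 (T9 T9_le T9_cont K5_cont K5_bN K5_bR T9_bN T9_bR thK_bN thK_bR)
open Crest.Agent.R017.E3Nx744 (CBA thK cba_K)
open Crest.Agent.R017.ETk548 (GkGUc)

variable {A d : ℝ} {r s s₀ : EF}

lemma ell_59 (hd : 0 ≤ d) {b : Fin 5 → ℝ} (hb : b ∈ D5X) :
    2 * d * ((b 1 + b 2 + b 3) / 3 + b 4) ≤ 5 / 9 * d * b 0 := by
  obtain ⟨k0, y1, y2, y3, x0, hN, x1, adm⟩ := hb.1
  have h1 : (b 1 + b 2 + b 3) / 3 + b 4 ≤ 5 / 18 * b 0 := by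
    rcases adm with hx | ⟨hx, hy, hz⟩ <;> linarith
  have h4 : d * ((b 1 + b 2 + b 3) / 3 + b 4) ≤ d * (5 / 18 * b 0) :=
    mul_le_mul_of_nonneg_left h1 hd
  linarith

/-- **the flat claims at `(K5, T5)`**, loss `5/9 d b₀` -/
theorem fe2G_59 (R : ExpRules (7 / 8 + d) r s) (Rm : ExpRGFz (7 / 8 + d) r s s₀)
    (hd : 0 ≤ d) (hd8 : 8 * d ≤ 1) (hG : NearAllX d s₀) :
    FE2G s₀ D5X K5 T5 fun b => 5 / 9 * d * b 0 :=
  fe2G_of_nex R Rm hd hd8 (fun _ hb => rf_D hb) (fun _ hb hn => D5X_near hb hn)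
    (fun _ hb => ell_59 hd hb) hG

variable {Λ : Type*} {π : Λ → DPar} {h : ℝ → ℝ} {c₀ : ℝ}

/-- **the T-claims at `(K5, T9)`**, loss `5/9 d b₀` -/
theorem cba_59 (hpu : PU h c₀) (hP : ∀ lam, (π lam).OK) (hE : ∀ lam, Exc (π lam)) (hd : 0 ≤ d)
    (hAll : AllT d (ex Dq fun lam => S0K Dk (red (π lam)) h))
    (hFE : FE2G (ex Dq fun lam => S0K Dk (red (π lam)) h) D5X K5 T5 fun b => 5 / 9 * d * b 0) :
    CBA (fun lam => red (π lam)) h Dk K5 T9 D5X fun b => 5 / 9 * d * b 0 :=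
  cba_K (π := fun lam => red (π lam)) hpu (fun lam => red_ok (hP lam) (hE lam)) hAll K5_cont
    T9_cont D5X_compact (fun b hb => hb.1.x0) (ℓ := fun b => 5 / 9 * d * b 0) (by fun_prop)
    (fun b hb => mul_nonneg (by linarith) hb.1.k0)
    fun b hb v z₁ z₂ z₃ w h0 h1 h2 h3 h4 h5 h6 h7 h8 h9 =>
      hFE b hb v z₁ z₂ z₃ w h0 h1 h2 h3 h4 h5 h6 h7 h8 (by linarith [T9_le hb.1.x0])

/-- the shift of the numbers of the lists -/
lemma lm_eq (hd : 0 ≤ d) (hd1 : d ≤ 1 / 8) (hA1 : 16 * (1 - A) ≤ d) {p : IX5 → ℝ}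
    (hp : prX p ∈ ParS A d) :
    FrX579.lmX (fun b => 5 / 9 * d * b 0) K5 T9 p = 5 / 9 * d * cκ (prX p) := by
  have h1 := thK_bN hd hd1 hA1 hp
  have h2 : (0 : ℝ) ≤ 5 / 9 * d * cκ (prX p) := by
    have := LfP986.κ_nonneg hp
    positivity
  unfold FrX579.lmX
  rw [thK_bR, h1]
  show max 0 (max (0 + 5 / 9 * d * cκ (prX p)) (0 + 5 / 9 * d * cκ (prX p))) = _
  rw [max_self, zero_add, max_eq_right h2]

/-- **the shift of the lists is `≤ 5/9 d κ`** -/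
lemma lm_59 (hd : 0 ≤ d) (hd1 : d ≤ 1 / 8) (hA1 : 16 * (1 - A) ≤ d) {p : IX5 → ℝ}
    (hp : prX p ∈ ParS A d) :
    FrX579.lmX (fun b => 5 / 9 * d * b 0) K5 T9 p ≤ 5 / 9 * (d * cκ (prX p)) := by
  rw [lm_eq hd hd1 hA1 hp]
  linarith

lemma L0_59 (hd : 0 ≤ d) (hd1 : d ≤ 1 / 8) (hA1 : 16 * (1 - A) ≤ d) {p : IX5 → ℝ}
    (hp : prX p ∈ ParS A d) :
    max 0 (5 / 4 * cN (prX p) - cκ (prX p)) +
      FrX579.lmX (fun b => 5 / 9 * d * b 0) K5 T9 p ≤ LS0 d (prX p) := by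
  have h2 : (0 : ℝ) ≤ d * cκ (prX p) := mul_nonneg hd (LfP986.κ_nonneg hp)
  rw [lm_eq hd hd1 hA1 hp]
  unfold P1t54.LS0
  linarith

/-- **helper579's `FrH` at the reduced data**, loss `5/9 d b₀` -/
theorem frH_59 (hpu : PU h c₀) (hP : ∀ lam, (π lam).OK) (hE : ∀ lam, Exc (π lam))
    (hd : 0 ≤ d) (hd1 : d ≤ 1 / 42) (hA : 9 / 10 ≤ A) (hA0 : A ≤ 1) (hA1 : 16 * (1 - A) ≤ d)
    (hAll : AllT d (ex Dq fun lam => S0K Dk (red (π lam)) h))
    (hFE : FE2G (ex Dq fun lam => S0K Dk (red (π lam)) h) D5X K5 T5 fun b => 5 / 9 * d * b 0)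
    {Rh : ℝ} (hRh0 : 0 ≤ Rh) (hRh : ∀ u, cx h u ≠ 0 → |u| ≤ Rh) :
    E3Fw579.FrH (fun lam => red (π lam)) h c₀ Rh (1 / 64) (d / 4) (17 / 100) (ParS A d) D5X
      (fun b => 5 / 9 * d * b 0) K5 T9 Tf1 (LS0 d) where
  hpu := hpu
  hP := fun lam => red_ok (hP lam) (hE lam)
  hex := fun lam => npm_one (π lam)
  hRh0 := hRh0
  hRh := hRh
  he0 := by norm_num
  he0' := le_rfl
  hc0 := by linarith
  hc1 := by linarith
  hPar := fun p hp => parOK_Sq5 hA hp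
  hDN := fun p hp _ => bN_mem hd (by linarith) hA1 hp
  hDR := fun p hp hz => bR_mem hd (by linarith) hA1 hp hz
  hR5 := fun p hp _ => r5_bN hd hd1 hA1 hp
  hKN := fun p _ _ => K5_bN p
  hKR := fun p _ _ => (K5_bR p).trans (K5_bN p)
  hTN := fun p _ _ _ _ _ _ _ => (min_le_left _ _).trans (T9_bN p).ge
  hTR := fun p _ _ _ _ _ _ _ => (min_le_left _ _).trans ((T9_bR p).trans (T9_bN p)).ge
  hcb := cba_59 hpu hP hE hd hAll hFE
  hL0 := fun p hp _ => L0_59 hd (by linarith) hA1 hp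
  hbt := btl_of hd hd1 hA hA0 hA1

/-- **helper829's `FrHS` at the reduced data**, loss `5/9 d b₀` -/
theorem frHS_59 (hpu : PU h c₀) (hP : ∀ lam, (π lam).OK) (hE : ∀ lam, Exc (π lam))
    (hd : 0 ≤ d) (hd1 : d ≤ 1 / 42) (hA : 9 / 10 ≤ A) (hA1 : 16 * (1 - A) ≤ d)
    (hAll : AllT d (ex Dq fun lam => S0K Dk (red (π lam)) h))
    (hFE : FE2G (ex Dq fun lam => S0K Dk (red (π lam)) h) D5X K5 T5 fun b => 5 / 9 * d * b 0)
    {Rh : ℝ} (hRh0 : 0 ≤ Rh) (hRh : ∀ u, cx h u ≠ 0 → |u| ≤ Rh) :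
    E3Sw829.FrHS (fun lam => red (π lam)) h c₀ Rh (1 / 64) (d / 4) (17 / 100) (ParS A d) D5X
      (fun b => 5 / 9 * d * b 0) K5 T9 Tf1 (LS0 d) where
  hpu := hpu
  hP := fun lam => red_ok (hP lam) (hE lam)
  hRh0 := hRh0
  hRh := hRh
  he0 := by norm_num
  he0' := le_rfl
  hc0 := by linarith
  hc1 := by linarith
  hPar := fun p hp => parOK_Sq5 hA hp
  hDN := fun p hp _ => bN_mem hd (by linarith) hA1 hp
  hDR := fun p hp hz => bR_mem hd (by linarith) hA1 hp hz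
  hR5 := fun p hp _ => r5_bN hd hd1 hA1 hp
  hKN := fun p _ _ => K5_bN p
  hKR := fun p _ _ => (K5_bR p).trans (K5_bN p)
  hTN := fun p _ _ _ _ _ _ _ => (min_le_left _ _).trans (T9_bN p).ge
  hTR := fun p _ _ _ _ _ _ _ => (min_le_left _ _).trans ((T9_bR p).trans (T9_bN p)).ge
  hcb := cba_59 hpu hP hE hd hAll hFE
  hL0 := fun p hp _ => L0_59 hd (by linarith) hA1 hp
  hbt := bts_of' hd hd1 hA hA1

/-- **the class Gram sums, families `q ≤ 3/5 κ`, differences**, reduced data -/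
theorem low_X (hpu : PU h c₀) (hP : ∀ lam, (π lam).OK) (hE : ∀ lam, Exc (π lam))
    (hd : 0 ≤ d) (hd1 : d ≤ 1 / 42) (hA : 9 / 10 ≤ A) (hA0 : A ≤ 1) (hA1 : 16 * (1 - A) ≤ d)
    (hAll : AllT d (ex Dq fun lam => S0K Dk (red (π lam)) h))
    (hFE : FE2G (ex Dq fun lam => S0K Dk (red (π lam)) h) D5X K5 T5 fun b => 5 / 9 * d * b 0)
    {Rh : ℝ} (hRh0 : 0 ≤ Rh) (hRh : ∀ u, cx h u ≠ 0 → |u| ≤ Rh) :
    GkGUc (3 / 5) (alX (fun lam => red (π lam)) h)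
      (fun lam a qs => okCX (red (π lam.1)) lam.2 a qs ∧ okD a) (1 / 64) (d / 4) (17 / 100)
      (ParS A d) DifL
      (fun q => GkL381.GLo d (cN (prX (bp fun i => q.1 (.inl i))))
        (cκ (prX (bp fun i => q.1 (.inl i)))) (q.1 (.inr ()))
        (q.1 (.inl (.inr 0)) + q.1 (.inl (.inr 1)) + q.1 (.inl (.inr 2)) + q.2 .am)
        (min (q.1 (.inl (.inr 2)))
          ((q.1 (.inl (.inr 0)) + q.1 (.inl (.inr 1)) + q.1 (.inl (.inr 2)) + q.2 .am) / 3))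
        (cx' (prX (bp fun i => q.1 (.inl i))))
        (d * cκ (prX (bp fun i => q.1 (.inl i))))) := by
  have H := frH_59 hpu hP hE hd hd1 hA hA0 hA1 hAll hFE hRh0 hRh
  exact GkL744.lowX hpu H.hP H.hex hRh0 hRh H.he0 (H.he0'.trans (by norm_num)) H.hc0 H.hc1 H.hPar
    H.hDN H.hDR H.hR5 H.hKN H.hKR H.hTN H.hTR H.hcb hd (by linarith)
    (fun p hp => E3Nx744.dh_sq5 hd (by linarith) hA0 hA1 hp) (fun p _ => by linarith) le_rfl
    (by norm_num) (fun p hp _ => lm_59 hd (by linarith) hA1 hp)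

/-- **the class Gram sums, families `q ≤ 3/5 κ`, single lists**, reduced data -/
theorem low_S (hpu : PU h c₀) (hP : ∀ lam, (π lam).OK) (hE : ∀ lam, Exc (π lam))
    (hd : 0 ≤ d) (hd1 : d ≤ 1 / 42) (hA : 9 / 10 ≤ A) (hA0 : A ≤ 1) (hA1 : 16 * (1 - A) ≤ d)
    (hAll : AllT d (ex Dq fun lam => S0K Dk (red (π lam)) h))
    (hFE : FE2G (ex Dq fun lam => S0K Dk (red (π lam)) h) D5X K5 T5 fun b => 5 / 9 * d * b 0)
    {Rh : ℝ} (hRh0 : 0 ≤ Rh) (hRh : ∀ u, cx h u ≠ 0 → |u| ≤ Rh) :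
    GkGUc (3 / 5) (alS (fun lam => red (π lam)) h)
      (fun lam a qs => okCX (red (π lam.1)) lam.2 a qs) (1 / 64) (d / 4) (17 / 100)
      (ParS A d) (SinL (17 / 100)) (GkLs968.GLq d) := by
  have H := frHS_59 hpu hP hE hd hd1 hA hA1 hAll hFE hRh0 hRh
  exact GkLs968.gkLoS hpu H.hP hRh0 hRh H.he0 (H.he0'.trans (by norm_num)) H.hc0 H.hc1 H.hPar
    H.hDN H.hDR H.hR5 H.hKN H.hKR H.hTN H.hTR H.hcb (fun _ _ _ h => h) hd (by linarith)
    (by linarith) le_rfl (fun p hp => E3Nx744.dh_sq5 hd (by linarith) hA0 hA1 hp)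
    (fun p hp _ => lm_59 hd (by linarith) hA1 hp)

end Crest.Agent.R017.Cba59744
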