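import Crest.Agent.R017.P1X7_904

/-!
# Row 17, class E, R8 (helper629): the child of helper904's real lines from the windows

* **`chX`** : difference (natural lengths, four lengths `≥ 0`)
* **`chN`**, **`chR`** : one list, natural / replaced lengths
-/

set_option autoImplicit false
set_option linter.unusedVariables false

noncomputable section

namespace Crest.Agent.R017.ChX629

open Crest.Agent.R017.RnP571 (Dh)
open Crest.Agent.R017.P1L7904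

lemma min3_sum {a b c : ℝ} : 3 * min a (min b c) ≤ a + b + c := by
  have h1 := min_le_left a (min b c)
  have h2 := min_le_right a (min b c)
  have h3 := min_le_left b c
  have h4 := min_le_right b c
  linarith

/-- the windows of a level -/
lemma lev {κ N x b c m y t v D : ℝ} (hc : 4 * (c * κ) ≤ D) (hs2 : m ≤ b + y)
    (hv : v ≤ min (min (2 * N - κ) (3 / 4 * N) + 11 / 5 * x)
      (min (2 * N - κ) (3 / 4 * N) + 11 / 5 * x + 2 * (c * κ) - 2 * b) + t) :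
    v ≤ 2 * N - κ + 11 / 5 * x + t ∧ v ≤ 3 / 4 * N + 11 / 5 * x + t ∧
      v ≤ 2 * N - κ + 11 / 5 * x + D / 2 - 2 * (m - y) + t ∧
      v ≤ 3 / 4 * N + 11 / 5 * x + D / 2 - 2 * (m - y) + t := by
  have h1 := min_le_left (2 * N - κ) (3 / 4 * N)
  have h2 := min_le_right (2 * N - κ) (3 / 4 * N)
  have h3 := min_le_left (min (2 * N - κ) (3 / 4 * N) + 11 / 5 * x)
      (min (2 * N - κ) (3 / 4 * N) + 11 / 5 * x + 2 * (c * κ) - 2 * b)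
  have h4 := min_le_right (min (2 * N - κ) (3 / 4 * N) + 11 / 5 * x)
      (min (2 * N - κ) (3 / 4 * N) + 11 / 5 * x + 2 * (c * κ) - 2 * b)
  refine ⟨?_, ?_, ?_, ?_⟩ <;> linarith

variable {κ N x y₃ y₄ u D Z v₀ v₁ v₂ x' b c β t q p v s₀ : ℝ}

/-- **difference** -/
theorem chX (hκ0 : 8 / 9 ≤ κ) (t0 : 0 ≤ t) (t1 : t ≤ κ / 20000) (hN : N = y₃ + y₄ + u)
    (hD : Dh κ y₃ y₄ u x D) (hc : 4 * (c * κ) ≤ D) (hβ : β = 17 / 100) (hZ : β * κ ≤ Z)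
    (hZ2 : Z ≤ β) (hv0' : 0 ≤ v₀) (hv1' : 0 ≤ v₁) (hv2' : 0 ≤ v₂)
    (hv0 : v₀ ≤ y₃) (hv1 : v₁ ≤ y₄) (hv2 : v₂ ≤ u) (hx0' : 0 ≤ x') (hx' : x' ≤ x)
    (hs2 : N - (v₀ + v₁ + v₂) ≤ b + (x - x'))
    (q0 : 3 / 5 * κ - t ≤ q) (q1 : q ≤ 7 / 8 * κ + t)
    (hv : v ≤ min (min (2 * N - κ) (3 / 4 * N) + 11 / 5 * x)
      (min (2 * N - κ) (3 / 4 * N) + 11 / 5 * x + 2 * (c * κ) - 2 * b) + t)
    (hp : |p - (v₀ + v₁ + v₂ + x')| ≤ t) (hp0 : κ / 2 - 2 * x - t ≤ p)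
    (hs : |s₀ - min (min v₀ v₁) (min (v₀ - (y₃ - Z)) (v₁ + (y₃ - Z)))| ≤ t) :
    Ch κ y₃ y₄ u x D t q p (min v₀ (min v₁ v₂)) (min (v₀ - (y₃ - Z)) (min (v₁ + (y₃ - Z)) v₂)) v
      (N - (v₀ + v₁ + v₂)) s₀ := by
  obtain ⟨k0, u4, y43, u0, y3, N1, near, x0, adm, d0, d1⟩ := hD
  obtain ⟨p1, p2⟩ := abs_le.1 hp
  obtain ⟨s1, s2⟩ := abs_le.1 hs
  obtain ⟨w1, w2, w3, w4⟩ := lev hc hs2 hv
  have a1 := min_le_left v₀ (min v₁ v₂)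
  have a2 := min_le_right v₀ (min v₁ v₂)
  have a3 := min_le_left v₁ v₂
  have a4 := min_le_right v₁ v₂
  have a5 : 3 * min v₀ (min v₁ v₂) ≤ v₀ + v₁ + v₂ := min3_sum
  have b1 := min_le_left (v₀ - (y₃ - Z)) (min (v₁ + (y₃ - Z)) v₂)
  have b2 := min_le_right (v₀ - (y₃ - Z)) (min (v₁ + (y₃ - Z)) v₂)
  have b4 := min_le_right (v₁ + (y₃ - Z)) v₂
  have b5 : 3 * min (v₀ - (y₃ - Z)) (min (v₁ + (y₃ - Z)) v₂) ≤
      v₀ - (y₃ - Z) + (v₁ + (y₃ - Z)) + v₂ := min3_sum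
  have e0 : v₀ + v₁ + v₂ ≤ y₃ + y₄ + min v₀ (min v₁ v₂) := by
    rcases min_choice v₀ (min v₁ v₂) with h | h
    · rw [h]; linarith
    · rw [h]
      rcases min_choice v₁ v₂ with h' | h' <;> rw [h'] <;> linarith
  have c1 : 17 / 100 * κ - (N - (v₀ + v₁ + v₂)) ≤
      min (min v₀ v₁) (min (v₀ - (y₃ - Z)) (v₁ + (y₃ - Z))) := by
    rw [hβ] at hZ
    refine le_min (le_min ?_ ?_) (le_min ?_ ?_) <;> rw [hN] <;> linarith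
  rw [hN] at w1 w2 w3 w4 ⊢
  rw [hN] at c1
  exact ⟨t0, t1, q0, q1, hp0, by linarith, by linarith, by linarith,
    le_min hv0' (le_min hv1' hv2'), by linarith, by linarith, by linarith, by linarith,
    by linarith, w1, w2, ⟨x - x', by linarith, by linarith, by linarith, w3, w4⟩,
    by linarith, by linarith⟩

/-- **one list, natural lengths** (`uR := 0`, `s₀ := 0`) -/
theorem chN (hκ0 : 8 / 9 ≤ κ) (t0 : 0 ≤ t) (t1 : t ≤ κ / 20000) (hN : N = y₃ + y₄ + u)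
    (hD : Dh κ y₃ y₄ u x D) (hc : 4 * (c * κ) ≤ D)
    (hv0' : 0 ≤ v₀) (hv1' : 0 ≤ v₁) (hv2' : 0 ≤ v₂)
    (hv0 : v₀ ≤ y₃) (hv1 : v₁ ≤ y₄) (hv2 : v₂ ≤ u) (hx0' : 0 ≤ x') (hx' : x' ≤ x)
    (hs2 : N - (v₀ + v₁ + v₂) ≤ b + (x - x')) (hm : 17 / 100 * κ ≤ N - (v₀ + v₁ + v₂))
    (q0 : 3 / 5 * κ - t ≤ q) (q1 : q ≤ 7 / 8 * κ + t)
    (hv : v ≤ min (min (2 * N - κ) (3 / 4 * N) + 11 / 5 * x)
      (min (2 * N - κ) (3 / 4 * N) + 11 / 5 * x + 2 * (c * κ) - 2 * b) + t)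
    (hp : |p - (v₀ + v₁ + v₂ + x')| ≤ t) (hp0 : κ / 2 - 2 * x - t ≤ p) :
    Ch κ y₃ y₄ u x D t q p (min v₀ (min v₁ v₂)) 0 v (N - (v₀ + v₁ + v₂)) 0 := by
  obtain ⟨k0, u4, y43, u0, y3, N1, near, x0, adm, d0, d1⟩ := hD
  obtain ⟨p1, p2⟩ := abs_le.1 hp
  obtain ⟨w1, w2, w3, w4⟩ := lev hc hs2 hv
  have a1 := min_le_left v₀ (min v₁ v₂)
  have a2 := min_le_right v₀ (min v₁ v₂)
  have a3 := min_le_left v₁ v₂
  have a4 := min_le_right v₁ v₂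
  have a5 : 3 * min v₀ (min v₁ v₂) ≤ v₀ + v₁ + v₂ := min3_sum
  have e0 : v₀ + v₁ + v₂ ≤ y₃ + y₄ + min v₀ (min v₁ v₂) := by
    rcases min_choice v₀ (min v₁ v₂) with h | h
    · rw [h]; linarith
    · rw [h]
      rcases min_choice v₁ v₂ with h' | h' <;> rw [h'] <;> linarith
  rw [hN] at w1 w2 w3 w4 hm ⊢
  exact ⟨t0, t1, q0, q1, hp0, by linarith, by linarith, by linarith,
    le_min hv0' (le_min hv1' hv2'), by linarith, by linarith, by linarith, by linarith,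
    by linarith, w1, w2, ⟨x - x', by linarith, by linarith, by linarith, w3, w4⟩,
    by linarith, by linarith⟩

/-- **one list, replaced lengths** (`uN := min u (p / 3)`, `s₀ := 0`) -/
theorem chR (hκ0 : 8 / 9 ≤ κ) (t0 : 0 ≤ t) (t1 : t ≤ κ / 20000) (hN : N = y₃ + y₄ + u)
    (hD : Dh κ y₃ y₄ u x D) (hc : 4 * (c * κ) ≤ D) (hβ : β = 17 / 100)
    (hZ2 : Z ≤ β) (hv0' : 0 ≤ v₀) (hv1' : 0 ≤ v₁) (hv2' : 0 ≤ v₂)
    (hv0 : v₀ ≤ Z) (hv1 : v₁ ≤ y₃ + y₄ - Z) (hv2 : v₂ ≤ u) (hx0' : 0 ≤ x') (hx' : x' ≤ x)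
    (hs2 : N - (v₀ + v₁ + v₂) ≤ b + (x - x')) (hm : 17 / 100 * κ ≤ N - (v₀ + v₁ + v₂))
    (q0 : 3 / 5 * κ - t ≤ q) (q1 : q ≤ 7 / 8 * κ + t)
    (hv : v ≤ min (min (2 * N - κ) (3 / 4 * N) + 11 / 5 * x)
      (min (2 * N - κ) (3 / 4 * N) + 11 / 5 * x + 2 * (c * κ) - 2 * b) + t)
    (hp : |p - (v₀ + v₁ + v₂ + x')| ≤ t) (hp0 : κ / 2 - 2 * x - t ≤ p) :
    Ch κ y₃ y₄ u x D t q p (min u (p / 3)) (min v₀ (min v₁ v₂)) v (N - (v₀ + v₁ + v₂)) 0 := by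
  obtain ⟨k0, u4, y43, u0, y3, N1, near, x0, adm, d0, d1⟩ := hD
  obtain ⟨p1, p2⟩ := abs_le.1 hp
  obtain ⟨w1, w2, w3, w4⟩ := lev hc hs2 hv
  have a1 := min_le_left v₀ (min v₁ v₂)
  have a2 := min_le_right v₀ (min v₁ v₂)
  have a3 := min_le_left v₁ v₂
  have a4 := min_le_right v₁ v₂
  have a5 : 3 * min v₀ (min v₁ v₂) ≤ v₀ + v₁ + v₂ := min3_sum
  have f1 := min_le_left u (p / 3)
  have f2 := min_le_right u (p / 3)
  rw [hN] at hm w1 w2 w3 w4 ⊢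
  have hp00 : 0 ≤ p + t := by linarith
  have g0 : 0 ≤ κ / 2 - 2 * x - t := by
    rcases adm with ⟨a0, -⟩ | ⟨-, a0, -⟩ <;> linarith
  have e0 : p ≤ y₃ + y₄ + min u (p / 3) + x + t := by
    rcases min_choice u (p / 3) with h | h
    · rw [h]; linarith
    · rw [h]; linarith
  exact ⟨t0, t1, q0, q1, hp0, by linarith, by linarith, e0,
    le_min (by linarith) (by linarith), by linarith, by linarith, by linarith, by linarith,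
    by linarith, w1, w2, ⟨x - x', by linarith, by linarith, by linarith, w3, w4⟩,
    by linarith, by linarith⟩

/-- **one list, replaced lengths** (`uN := u - 17/100 κ`, `s₀ := 0`) -/
theorem chR' (hκ0 : 8 / 9 ≤ κ) (t0 : 0 ≤ t) (t1 : t ≤ κ / 20000) (hN : N = y₃ + y₄ + u)
    (hD : Dh κ y₃ y₄ u x D) (hc : 4 * (c * κ) ≤ D) (hβ : β = 17 / 100)
    (hZ2 : Z ≤ β) (hv0' : 0 ≤ v₀) (hv1' : 0 ≤ v₁) (hv2' : 0 ≤ v₂)
    (hv0 : v₀ ≤ Z) (hv1 : v₁ ≤ y₃ + y₄ - Z) (hv2 : v₂ ≤ u) (hx0' : 0 ≤ x') (hx' : x' ≤ x)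
    (hs2 : N - (v₀ + v₁ + v₂) ≤ b + (x - x')) (hm : 17 / 100 * κ ≤ N - (v₀ + v₁ + v₂))
    (q0 : 3 / 5 * κ - t ≤ q) (q1 : q ≤ 7 / 8 * κ + t)
    (hv : v ≤ min (min (2 * N - κ) (3 / 4 * N) + 11 / 5 * x)
      (min (2 * N - κ) (3 / 4 * N) + 11 / 5 * x + 2 * (c * κ) - 2 * b) + t)
    (hp : |p - (v₀ + v₁ + v₂ + x')| ≤ t) (hp0 : κ / 2 - 2 * x - t ≤ p) :
    Ch κ y₃ y₄ u x D t q p (u - 17 / 100 * κ) (min v₀ (min v₁ v₂)) v (N - (v₀ + v₁ + v₂)) 0 := by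
  obtain ⟨k0, u4, y43, u0, y3, N1, near, x0, adm, d0, d1⟩ := hD
  obtain ⟨p1, p2⟩ := abs_le.1 hp
  obtain ⟨w1, w2, w3, w4⟩ := lev hc hs2 hv
  have a1 := min_le_left v₀ (min v₁ v₂)
  have a2 := min_le_right v₀ (min v₁ v₂)
  have a3 := min_le_left v₁ v₂
  have a4 := min_le_right v₁ v₂
  have a5 : 3 * min v₀ (min v₁ v₂) ≤ v₀ + v₁ + v₂ := min3_sum
  rw [hN] at hm w1 w2 w3 w4 ⊢
  have hp00 : 0 ≤ p + t := by linarith
  have g0 : 0 ≤ κ / 2 - 2 * x - t := by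
    rcases adm with ⟨a0, -⟩ | ⟨-, a0, -⟩ <;> linarith
  have e1 : x ≤ 1 / 32 * κ := by
    rcases adm with ⟨a0, -⟩ | ⟨-, a0, -⟩ <;> linarith
  exact ⟨t0, t1, q0, q1, hp0, by linarith, by linarith, by linarith,
    by linarith, by linarith, by linarith, by linarith, by linarith,
    by linarith, w1, w2, ⟨x - x', by linarith, by linarith, by linarith, w3, w4⟩,
    by linarith, by linarith⟩

end Crest.Agent.R017.ChX629
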