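import Crest.Agent.R017.F1Row_180
import Crest.Agent.R012.ThetaDom_131

/-!
# Row 17, section F, part 2 (helper180): the series `E2 F = EC a2 F`
-/

set_option autoImplicit false

noncomputable section

open MeasureTheory Complex Set

namespace Crest.Agent.R017.F1

open Crest.Agent.R012 Crest.Agent.R012.Eis Crest.Agent.R012.Sym645
open Crest.Agent.R012.K695 (SyAPI Gam ga gb gc gd kub rmul rowv act det2 n2 Vec EC allEquiv
  mkGam ga_prim gb_dvd gc_dvd gd_prim det_eq kub_mul_conj sy_rmul IsRow)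

/-- The `Γ₂` pseudo-Eisenstein series. -/
def E2 (F : Vec → ℂ) (M : K695.Frm) : ℂ := EC a2 F M

lemma E2_act (F : Vec → ℂ) (g : Gam) (M : K695.Frm) : E2 F (act g M) = kub g * E2 F M := by
  unfold E2 EC
  rw [← tsum_mul_left, ← (allEquiv g).tsum_eq (fun r => kub g * (a2 r * F (rowv r M)))]
  apply tsum_congr
  intro r
  have h1 : allEquiv g r = rmul r g := rfl
  rw [K695.rowv_act, h1, a2_rmul g r]
  have h2 := kub_mul_conj syAPI g
  linear_combination (-(a2 r) * F (rowv (rmul r g) M)) * h2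

/-! ### Summability -/

lemma summable_one_add {e : ℝ} (he : 0 < e) :
    Summable fun z : Eis => ((1 + e * (nm z : ℝ)) ^ 2)⁻¹ := by
  refine Summable.of_nonneg_of_le (fun z => by positivity) (fun z => ?_)
    ((Theta131.summable_nm_two).mul_left ((max 1 (e⁻¹)) ^ 2))
  set t : ℝ := max 1 (e⁻¹) with ht
  have h1 : 1 ≤ t := le_max_left _ _
  have h2 : e⁻¹ ≤ t := le_max_right _ _
  have h3 : (1 + (nm z : ℝ)) ≤ t * (1 + e * nm z) := by
    have h4 : (1 : ℝ) ≤ t * e := by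
      have := mul_le_mul_of_nonneg_right h2 he.le
      rwa [inv_mul_cancel₀ he.ne'] at this
    have h5 : (0 : ℝ) ≤ nm z := Nat.cast_nonneg _
    nlinarith
  have h5 : (0 : ℝ) < 1 + nm z := by positivity
  have h6 : (0 : ℝ) < 1 + e * nm z := by positivity
  rw [inv_eq_one_div, inv_eq_one_div, mul_one_div, div_le_div_iff₀ (by positivity) (by positivity)]
  rw [one_mul, ← mul_pow]
  exact pow_le_pow_left₀ h5.le h3 2

lemma tst_const_nonneg {F : Vec → ℂ} {C : ℝ} (h : ∀ u, ‖F u‖ ≤ C * ((1 + n2 u) ^ 4)⁻¹) :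
    0 ≤ C := by
  have h1 := (norm_nonneg _).trans (h 0)
  have h2 : n2 0 = 0 := by simp [n2]
  rw [h2] at h1
  simpa using h1

lemma n2_nonneg' (u : Vec) : 0 ≤ n2 u := K695.n2_nonneg u

/-- The lower bound `e (N c + N d) ≤ |c η + d ζ|²`. -/
def ee (M : K695.Frm) : ℝ := ‖det2 M‖ ^ 2 / (n2 M.1 + n2 M.2)

lemma ee_pos {M : K695.Frm} (hM : det2 M ≠ 0) : 0 < ee M := by
  have h2 := K695.snd_ne_zero_of_det hM
  have h3 : n2 M.2 ≠ 0 := fun h => h2 (K695.n2_eq_zero.mp h)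
  have h4 := n2_nonneg' M.1
  have h5 := n2_nonneg' M.2
  have h6 : 0 < n2 M.1 + n2 M.2 := by positivity
  have h7 : 0 < ‖det2 M‖ := norm_pos_iff.mpr hM
  unfold ee
  positivity

lemma ee_le (r : Eis × Eis) {M : K695.Frm} (hM : det2 M ≠ 0) :
    ((nm r.1 : ℝ) + nm r.2) * ee M ≤ n2 (rowv r M) := by
  have h2 := K695.snd_ne_zero_of_det hM
  have h3 : n2 M.2 ≠ 0 := fun h => h2 (K695.n2_eq_zero.mp h)
  have h4 := n2_nonneg' M.1
  have h5 := n2_nonneg' M.2
  have h6 : 0 < n2 M.1 + n2 M.2 := by positivity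
  unfold ee
  rw [mul_div_assoc', div_le_iff₀ h6]
  exact K695.row_bound r M

lemma dec_row_le (r : Eis × Eis) {M : K695.Frm} (hM : det2 M ≠ 0) :
    ((1 + n2 (rowv r M)) ^ 4)⁻¹ ≤
      ((1 + ee M * (nm r.1 : ℝ)) ^ 2)⁻¹ * ((1 + ee M * (nm r.2 : ℝ)) ^ 2)⁻¹ := by
  have h0 := ee_pos hM
  have h1 := ee_le r hM
  have h2 : (0 : ℝ) ≤ nm r.1 := Nat.cast_nonneg _
  have h3 : (0 : ℝ) ≤ nm r.2 := Nat.cast_nonneg _
  rw [← mul_inv, ← mul_pow]
  apply inv_anti₀ (by positivity)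
  have h4 : (1 + ee M * (nm r.1 : ℝ)) * (1 + ee M * nm r.2) ≤ (1 + n2 (rowv r M)) ^ 2 := by
    have h5 : ee M * nm r.1 ≤ n2 (rowv r M) := by nlinarith [mul_nonneg h3 h0.le]
    have h6 : ee M * nm r.2 ≤ n2 (rowv r M) := by nlinarith [mul_nonneg h2 h0.le]
    rw [pow_two]
    have h7 : 0 ≤ ee M * nm r.2 := by positivity
    have h8 : 0 ≤ n2 (rowv r M) := n2_nonneg' _
    gcongr
  calc ((1 + ee M * (nm r.1 : ℝ)) * (1 + ee M * nm r.2)) ^ 2
      ≤ ((1 + n2 (rowv r M)) ^ 2) ^ 2 := pow_le_pow_left₀ (by positivity) h4 2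
    _ = (1 + n2 (rowv r M)) ^ 4 := by ring

lemma summable_dec {M : K695.Frm} (hM : det2 M ≠ 0) :
    Summable fun r : Eis × Eis => ((1 + n2 (rowv r M)) ^ 4)⁻¹ := by
  have h0 := ee_pos hM
  refine Summable.of_nonneg_of_le (fun r => by have := n2_nonneg' (rowv r M); positivity)
    (fun r => dec_row_le r hM) ?_
  exact (summable_one_add h0).mul_of_nonneg (summable_one_add h0) (fun _ => by positivity)
    (fun _ => by positivity)

lemma Tst.summable_norm {F : Vec → ℂ} (hF : Tst F) {M : K695.Frm} (hM : det2 M ≠ 0) :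
    Summable fun r : Eis × Eis => ‖F (rowv r M)‖ := by
  obtain ⟨C, hC⟩ := hF.dec
  exact Summable.of_nonneg_of_le (fun _ => norm_nonneg _) (fun r => hC _)
    ((summable_dec hM).mul_left C)

lemma Tst.summable_a {F : Vec → ℂ} (hF : Tst F) {M : K695.Frm} (hM : det2 M ≠ 0)
    {a : Eis × Eis → ℂ} (ha : ∀ r, ‖a r‖ ≤ 1) :
    Summable fun r : Eis × Eis => a r * F (rowv r M) := by
  refine Summable.of_norm_bounded (hF.summable_norm hM) fun r => ?_
  rw [norm_mul]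
  calc ‖a r‖ * ‖F (rowv r M)‖ ≤ 1 * ‖F (rowv r M)‖ := by gcongr; exact ha r
    _ = _ := one_mul _

lemma Tst.measurable {F : Vec → ℂ} (hF : Tst F) : Measurable F := hF.cont.measurable

/-! ### `SL₂(ℤ)`-invariance -/

/-- `(c, d) ↦ (c, d + c)`. -/
def eqT : Eis × Eis ≃ Eis × Eis where
  toFun r := (r.1, r.2 + r.1)
  invFun r := (r.1, r.2 - r.1)
  left_inv r := by ext1 <;> simp
  right_inv r := by ext1 <;> simp

/-- `(c, d) ↦ (d, -c)`. -/
def eqS : Eis × Eis ≃ Eis × Eis where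
  toFun r := (r.2, -r.1)
  invFun r := (-r.2, r.1)
  left_inv r := by ext1 <;> simp
  right_inv r := by ext1 <;> simp

/-- `(η, ζ) ↦ (η + ζ, ζ)`. -/
def mT (M : K695.Frm) : K695.Frm := (M.1 + M.2, M.2)
/-- `(η, ζ) ↦ (-ζ, η)`. -/
def mS (M : K695.Frm) : K695.Frm := (-M.2, M.1)

lemma rowv_mT (r : Eis × Eis) (M : K695.Frm) : rowv r (mT M) = rowv (eqT r) M := by
  simp only [rowv, mT, eqT, Equiv.coe_fn_mk, map_add, smul_add, add_smul]
  abel

lemma rowv_mS (r : Eis × Eis) (M : K695.Frm) : rowv r (mS M) = rowv (eqS r) M := by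
  simp only [rowv, mS, eqS, Equiv.coe_fn_mk, map_neg, smul_neg, neg_smul]
  abel

lemma rowv_neg (r : Eis × Eis) (M : K695.Frm) : rowv (-r) M = -rowv r M := by
  simp only [rowv, Prod.fst_neg, Prod.snd_neg, map_neg, neg_smul]
  abel

theorem E2_mT (F : Vec → ℂ) (M : K695.Frm) : E2 F (mT M) = E2 F M := by
  unfold E2 EC
  rw [← eqT.tsum_eq (fun r => a2 r * F (rowv r M))]
  apply tsum_congr
  intro r
  rw [rowv_mT]
  have : a2 (eqT r) = a2 r := a2_T r.1 r.2
  rw [this]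

theorem E2_mS {F : Vec → ℂ} (hF : Tst F) {M : K695.Frm} (hM : det2 M ≠ 0) :
    E2 F (mS M) = E2 F M := by
  have hneg : ∀ a : Eis × Eis → ℂ, ∑' r, a (-r) * F (rowv r M) = ∑' r, a r * F (rowv r M) := by
    intro a
    rw [← (Equiv.neg (Eis × Eis)).tsum_eq (fun r => a r * F (rowv r M))]
    apply tsum_congr
    intro r
    simp only [Equiv.neg_apply]
    rw [rowv_neg, hF.even]
  have h1 : E2 F (mS M) = ∑' r : Eis × Eis, a2 (-r.2, r.1) * F (rowv r M) := by
    unfold E2 EC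
    rw [← eqS.tsum_eq (fun r : Eis × Eis => a2 (-r.2, r.1) * F (rowv r M))]
    apply tsum_congr
    intro r
    rw [rowv_mS]
    have : ((-(eqS r).2, (eqS r).1) : Eis × Eis) = r := by
      ext1 <;> simp [eqS]
    rw [this]
  have h2 := hneg (fun r => a2 (-r.2, r.1))
  have h3 := hneg a2
  have s1 := hF.summable_a hM (a := fun r => a2 (-r.2, r.1)) (fun r => norm_a2_le _)
  have s2 := hF.summable_a hM (a := fun r => a2 (-(-r).2, (-r).1)) (fun r => norm_a2_le _)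
  have s3 := hF.summable_a hM (a := a2) (fun r => norm_a2_le _)
  have s4 := hF.summable_a hM (a := fun r => a2 (-r)) (fun r => norm_a2_le _)
  have h4 : (∑' r : Eis × Eis, a2 (-r.2, r.1) * F (rowv r M)) +
      (∑' r : Eis × Eis, a2 (-(-r).2, (-r).1) * F (rowv r M)) =
      (∑' r : Eis × Eis, a2 r * F (rowv r M)) + ∑' r : Eis × Eis, a2 (-r) * F (rowv r M) := by
    rw [← s1.tsum_add s2, ← s3.tsum_add s4]
    apply tsum_congr
    intro r
    have h5 := a2_S r.1 r.2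
    have e1 : ((-(-r).2, (-r).1) : Eis × Eis) = (r.2, -r.1) := by ext1 <;> simp
    have e2 : (-r : Eis × Eis) = (-r.1, -r.2) := rfl
    have e3 : (r.1, r.2) = r := rfl
    rw [e1, e2, ← add_mul, ← add_mul, h5]
  rw [h2, h3] at h4
  rw [h1]
  unfold E2 EC
  have h6 : (2 : ℂ) * (∑' r : Eis × Eis, a2 (-r.2, r.1) * F (rowv r M)) =
      2 * ∑' r : Eis × Eis, a2 r * F (rowv r M) := by
    rw [two_mul, two_mul]; exact h4
  exact mul_left_cancel₀ two_ne_zero h6

end Crest.Agent.R017.F1
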