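import Crest.Agent.R012.FourCoef_499
import Crest.Agent.R017.F1Ser_180
import Crest.Agent.R017.XnDefs_590

/-!
# Row 17, section F: Fourier coefficients at the standard frame (helper92, AF1)

For a bounded coefficient function `a` on `ℤ[ω]²` with `d ↦ a (c, d)` periodic mod `N c`
(`c ≠ 0`), a test function `F` on `ℂ²` and `ν ≠ 0`:

`∫_{par N} EC a F (stF x) e(-ω x) dx = Σ_{c ≠ 0} S_a(ν; c) ∫ F (c, c x) e(-ω x) dx`,

`ω = ν / (N √-3)`, `S_a(ν; c) = Σ_{d mod N c} a (c, d) e (ν d / (√-3 N c))`.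
-/

set_option autoImplicit false

noncomputable section

open MeasureTheory Complex Set
open scoped ComplexConjugate ENNReal

namespace Crest.Agent.R017.Coef92

open Crest.Agent.R012 Crest.Agent.R012.Eis Crest.Agent.R012.K695
open Crest.Agent.R012.Parseval499 Crest.Agent.R012.FourCoef499
open Crest.Agent.R012.Four813 (phat)
open Crest.Agent.R017.Xn590

/-- The standard frame `((1, x), (0, 1))`. -/
def stF (x : ℂ) : K695.Frm := ((1, x), (0, 1))

lemma det2_stF (x : ℂ) : K695.det2 (stF x) = 1 := by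
  simp [K695.det2, stF]

lemma rowv_stF (r : Eis × Eis) (x : ℂ) :
    rowv r (stF x) = (toC r.1, toC r.1 * x + toC r.2) := by
  unfold rowv stF
  ext
  · simp
  · simp

/-- `S_a(ν; c) = Σ_{d mod N c} a (c, d) e (ν d / (√-3 N c))`. -/
def SC (a : Eis × Eis → ℂ) (N ν c : Eis) : ℂ :=
  sumMod (N * c) (fun d => a (c, d) * eC (toC ν * toC d / (toC s3 * toC (N * c))))

/-! ### the plane integrals -/

lemma n2_mk (c y : ℂ) : K695.n2 (c, y) = ‖c‖ ^ 2 + ‖y‖ ^ 2 := rfl

lemma one_le_nm {c : Eis} (hc : c ≠ 0) : (1 : ℝ) ≤ nm c := by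
  exact_mod_cast nm_pos.mpr hc

lemma dec_slice {c : Eis} (hc : c ≠ 0) (z : ℂ) :
    ((1 + K695.n2 (toC c, toC c * z)) ^ 4)⁻¹ ≤ (((nm c : ℝ)) ^ 4)⁻¹ * ((1 + ‖z‖ ^ 2) ^ 4)⁻¹ := by
  have h1 := one_le_nm hc
  have h2 : K695.n2 (toC c, toC c * z) = (nm c : ℝ) + nm c * ‖z‖ ^ 2 := by
    rw [n2_mk, norm_mul, mul_pow, norm_toC_sq]
  rw [h2, ← mul_inv, ← mul_pow]
  apply inv_anti₀ (by positivity)
  apply pow_le_pow_left₀ (by positivity)
  nlinarith [sq_nonneg ‖z‖]

lemma integrable_dec : Integrable (fun z : ℂ => ((1 + ‖z‖ ^ 2) ^ 4)⁻¹) := by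
  have h := integrable_rpow_neg_one_add_norm_sq (E := ℂ) (μ := volume) (r := 8)
    (by rw [Complex.finrank_real_complex]; norm_num)
  refine h.congr (Filter.Eventually.of_forall fun z => ?_)
  simp only
  have h1 : (0 : ℝ) ≤ 1 + ‖z‖ ^ 2 := by positivity
  rw [show (-8 / 2 : ℝ) = -(4 : ℕ) by norm_num, Real.rpow_neg h1, Real.rpow_natCast]

/-- the `L¹` norm of the standard majorant. -/
def ID : ℝ≥0∞ := ∫⁻ z : ℂ, ENNReal.ofReal (((1 + ‖z‖ ^ 2) ^ 4)⁻¹)

lemma ID_ne_top : ID ≠ ∞ := by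
  have h := integrable_dec.2
  rw [hasFiniteIntegral_iff_norm] at h
  refine ne_of_lt (lt_of_le_of_lt (le_of_eq ?_) h)
  unfold ID
  refine lintegral_congr fun z => ?_
  rw [Real.norm_eq_abs, abs_of_nonneg (by positivity)]

section slice

variable {F : Vec → ℂ} {C : ℝ}

lemma lintegral_slice_le (hC : ∀ u, ‖F u‖ ≤ C * ((1 + K695.n2 u) ^ 4)⁻¹) {c : Eis} (hc : c ≠ 0) :
    ∫⁻ z : ℂ, ‖F (toC c, toC c * z)‖ₑ ≤
      ENNReal.ofReal (C * ((nm c : ℝ) ^ 4)⁻¹) * ID := by
  have hC0 : 0 ≤ C := F1.tst_const_nonneg hC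
  unfold ID
  rw [← lintegral_const_mul' _ _ ENNReal.ofReal_ne_top]
  refine lintegral_mono fun z => ?_
  rw [← ENNReal.ofReal_mul (by positivity), ← ofReal_norm]
  apply ENNReal.ofReal_le_ofReal
  refine (hC _).trans ?_
  rw [mul_assoc]
  exact mul_le_mul_of_nonneg_left (dec_slice hc z) hC0

lemma integrable_slice (hF : Continuous F) (hC : ∀ u, ‖F u‖ ≤ C * ((1 + K695.n2 u) ^ 4)⁻¹)
    {c : Eis} (hc : c ≠ 0) : Integrable (fun z : ℂ => F (toC c, toC c * z)) := by
  refine ⟨(hF.comp (by fun_prop)).aestronglyMeasurable, ?_⟩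
  exact lt_of_le_of_lt (lintegral_slice_le hC hc)
    (ENNReal.mul_lt_top ENNReal.ofReal_lt_top (lt_top_iff_ne_top.mpr ID_ne_top))

end slice

/-! ### the zero row -/

lemma fco_one {A : ℂ} (hA : A ≠ 0) {u : Eis} (hu : u ≠ 0) : fco A (fun _ => 1) u = 0 := by
  have hvol : ∫ _ in par A, (1 : ℝ) = covol A := by
    rw [integral_par hA (fun _ => (1 : ℝ))]
    have hb : (volume (box)).toReal = 1 := by
      have : box = Set.pi Set.univ (fun _ : Fin 2 => Set.Ioc (0 : ℝ) 1) := by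
        ext x; simp [box]
      rw [this, Real.volume_pi_Ioc_toReal]
      · simp
      · intro i; simp
    simp [Measure.real, hb]
  have hfin : IsFiniteMeasure (volume.restrict (par A)) := by
    refine ⟨?_⟩
    rw [Measure.restrict_apply_univ]
    refine lt_of_le_of_lt (measure_mono ?_) (isCompact_closedBall (0 : ℂ) (2 * ‖A‖)).measure_lt_top
    intro z hz
    rw [mem_closedBall_zero_iff]
    exact norm_le_of_mem_par hz
  have h1 := hasSum_sq_fco hA (f := fun _ => (1 : ℂ)) (memLp_const 1)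
  have h2 : (covol A)⁻¹ * ∫ z in par A, ‖(1 : ℂ)‖ ^ 2 = 1 := by
    rw [norm_one, one_pow, hvol, inv_mul_cancel₀ (covol_pos hA).ne']
  rw [h2] at h1
  have h3 : fco A (fun _ => 1) 0 = 1 := by
    unfold fco
    have e : ∀ z : ℂ, (1 : ℂ) * eC (-(frq A 0 * z)) = ((1 : ℝ) : ℂ) := by
      intro z
      simp [frq]
    have e2 : ∫ _ in par A, ((1 : ℝ) : ℂ) = ((∫ _ in par A, (1 : ℝ) : ℝ) : ℂ) :=
      integral_ofReal (f := fun _ : ℂ => (1 : ℝ)) (μ := volume.restrict (par A)) (𝕜 := ℂ)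
    rw [setIntegral_congr_fun (measurableSet_par hA) (fun z _ => e z), e2, hvol,
      inv_mul_cancel₀ (by exact_mod_cast (covol_pos hA).ne')]
  have h4 := sum_le_hasSum {0, u} (fun _ _ => by positivity) h1
  rw [Finset.sum_pair (Ne.symm hu), h3, norm_one, one_pow] at h4
  have h5 : ‖fco A (fun _ => 1) u‖ ^ 2 ≤ 0 := by linarith
  have h6 : ‖fco A (fun _ => 1) u‖ = 0 := by
    have := sq_nonneg ‖fco A (fun _ => 1) u‖
    exact pow_eq_zero_iff (two_ne_zero) |>.mp (le_antisymm h5 this)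
  exact norm_eq_zero.mp h6

lemma integral_par_eC {A : ℂ} (hA : A ≠ 0) {u : Eis} (hu : u ≠ 0) :
    ∫ z in par A, eC (-(frq A u * z)) = 0 := by
  have h := fco_one hA hu
  unfold fco at h
  have h1 : (covol A : ℂ)⁻¹ ≠ 0 := inv_ne_zero (by exact_mod_cast (covol_pos hA).ne')
  have h2 := (mul_eq_zero.mp h).resolve_left h1
  simpa using h2

/-! ### AF1 -/

lemma rowv_slice {N c d : Eis} (hN : N ≠ 0) (hc : c ≠ 0) (z : ℂ) :
    rowv (c, d) (stF z) = (toC c, toC c * (z + toC N * (toC d / toC (N * c)))) := by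
  have hN' : toC N ≠ 0 := by rwa [Ne, toC_eq_zero]
  have hc' : toC c ≠ 0 := by rwa [Ne, toC_eq_zero]
  rw [rowv_stF, map_mul]
  ext
  · rfl
  · simp only
    field_simp

lemma volume_par_ne_top {A : ℂ} : volume (par A) ≠ ∞ := by
  refine ne_of_lt (lt_of_le_of_lt (measure_mono ?_)
    (isCompact_closedBall (0 : ℂ) (2 * ‖A‖)).measure_lt_top)
  intro z hz
  rw [mem_closedBall_zero_iff]
  exact norm_le_of_mem_par hz

lemma summable_nm_inv_sq : Summable fun z : Eis => ((1 + (nm z : ℝ)) ^ 2)⁻¹ :=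
  Theta131.summable_nm_two

/-- The total mass of the rows over the parallelogram is finite. -/
lemma tsum_mass_ne_top {a : Eis × Eis → ℂ} {K : ℝ} (hK : ∀ r, ‖a r‖ ≤ K) {F : Vec → ℂ} {C : ℝ}
    (hC : ∀ u, ‖F u‖ ≤ C * ((1 + K695.n2 u) ^ 4)⁻¹) {N : Eis} (hN : N ≠ 0) (ν : Eis) :
    ∑' p : Eis × Eis, ∫⁻ z in par (toC N),
      ‖a p * F (rowv p (stF z)) * eC (-(frq (toC N) ν * z))‖ₑ ≠ ∞ := by
  have hN' : toC N ≠ 0 := by rwa [Ne, toC_eq_zero]
  have hC0 : 0 ≤ C := F1.tst_const_nonneg hC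
  have hK0 : 0 ≤ K := (norm_nonneg _).trans (hK 0)
  have hn2 : ∀ p : Eis × Eis, ∫⁻ z in par (toC N),
      ‖a p * F (rowv p (stF z)) * eC (-(frq (toC N) ν * z))‖ₑ ≤
      ENNReal.ofReal K * ∫⁻ z in par (toC N), ‖F (rowv p (stF z))‖ₑ := by
    intro p
    rw [← lintegral_const_mul' _ _ ENNReal.ofReal_ne_top]
    refine lintegral_mono fun z => ?_
    rw [enorm_mul, enorm_mul, ← ofReal_norm (eC _), Parseval499.norm_eC, ENNReal.ofReal_one,
      mul_one]
    refine mul_le_mul_left ?_ _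
    rw [← ofReal_norm]
    exact ENNReal.ofReal_le_ofReal (hK p)
  refine ne_top_of_le_ne_top ?_ (ENNReal.tsum_le_tsum hn2)
  rw [ENNReal.tsum_mul_left]
  refine ENNReal.mul_ne_top ENNReal.ofReal_ne_top ?_
  rw [ENNReal.tsum_prod (f := fun c d => ∫⁻ z in par (toC N), ‖F (rowv (c, d) (stF z))‖ₑ)]
  -- the majorant
  set B : ℝ≥0∞ := ∑' c : Eis, ENNReal.ofReal (((1 + (nm c : ℝ)) ^ 2)⁻¹) with hB
  have hBt : B ≠ ∞ := summable_nm_inv_sq.tsum_ofReal_ne_top
  set K0 : ℝ≥0∞ := volume (par (toC N)) * ENNReal.ofReal C * B with hK0'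
  set K1 : ℝ≥0∞ := (Eis.nm N : ℝ≥0∞) * (ENNReal.ofReal (4 * C) * ID) with hK1
  have hK0t : K0 ≠ ∞ :=
    ENNReal.mul_ne_top (ENNReal.mul_ne_top volume_par_ne_top ENNReal.ofReal_ne_top) hBt
  have hK1t : K1 ≠ ∞ := ENNReal.mul_ne_top (ENNReal.natCast_ne_top _)
    (ENNReal.mul_ne_top ENNReal.ofReal_ne_top ID_ne_top)
  have hrow : ∀ c : Eis, ∑' d : Eis, ∫⁻ z in par (toC N), ‖F (rowv (c, d) (stF z))‖ₑ ≤
      (K0 + K1) * (ENNReal.ofReal (((1 + (nm c : ℝ)) ^ 2)⁻¹)) := by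
    intro c
    by_cases hc : c = 0
    · subst hc
      have h1 : ∀ d : Eis, ∫⁻ z in par (toC N), ‖F (rowv (0, d) (stF z))‖ₑ ≤
          volume (par (toC N)) * ENNReal.ofReal C *
            ENNReal.ofReal (((1 + (nm d : ℝ)) ^ 2)⁻¹) := by
        intro d
        have h2 : ∀ z : ℂ, ‖F (rowv (0, d) (stF z))‖ₑ ≤ ENNReal.ofReal C *
            ENNReal.ofReal (((1 + (nm d : ℝ)) ^ 2)⁻¹) := by
          intro z
          rw [← ENNReal.ofReal_mul hC0, ← ofReal_norm]
          apply ENNReal.ofReal_le_ofReal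
          refine (hC _).trans (mul_le_mul_of_nonneg_left ?_ hC0)
          have e : K695.n2 (rowv (0, d) (stF z)) = nm d := by
            rw [rowv_stF, n2_mk]
            simp [norm_toC_sq]
          rw [e]
          apply inv_anti₀ (by positivity)
          have : (1 : ℝ) ≤ 1 + nm d := by
            have : (0 : ℝ) ≤ nm d := Nat.cast_nonneg _
            linarith
          exact pow_le_pow_right₀ this (by norm_num)
        calc ∫⁻ z in par (toC N), ‖F (rowv (0, d) (stF z))‖ₑ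
            ≤ ∫⁻ _ in par (toC N), ENNReal.ofReal C *
                ENNReal.ofReal (((1 + (nm d : ℝ)) ^ 2)⁻¹) := lintegral_mono h2
          _ = _ := by
            rw [lintegral_const, Measure.restrict_apply_univ]
            ring
      have e0 : ((1 + ((nm (0 : Eis) : ℕ) : ℝ)) ^ 2)⁻¹ = 1 := by
        have : nm (0 : Eis) = 0 := by simp
        rw [this]; norm_num
      rw [e0, ENNReal.ofReal_one, mul_one]
      refine le_trans (ENNReal.tsum_le_tsum h1) ?_
      rw [ENNReal.tsum_mul_left]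
      exact le_self_add
    · have hNc : N * c ≠ 0 := mul_ne_zero hN hc
      have h1 : ∀ d : Eis, ∫⁻ z in par (toC N), ‖F (rowv (c, d) (stF z))‖ₑ =
          ∫⁻ z in par (toC N), (fun w : ℂ => ‖F (toC c, toC c * w)‖ₑ)
            (z + toC N * (toC d / toC (N * c))) := by
        intro d
        refine lintegral_congr fun z => ?_
        rw [rowv_slice hN hc]
      rw [tsum_congr h1, tsum_lintegral_row hNc hN' (fun w : ℂ => ‖F (toC c, toC c * w)‖ₑ)]
      have h2 := lintegral_slice_le hC hc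
      have h3 : (Eis.nm (N * c) : ℝ≥0∞) = (Eis.nm N : ℝ≥0∞) * ENNReal.ofReal (nm c : ℝ) := by
        rw [nm_mul, Nat.cast_mul, ENNReal.ofReal_natCast]
      have hn := one_le_nm hc
      have hn0 : (0 : ℝ) < nm c := by linarith
      calc (Eis.nm (N * c) : ℝ≥0∞) * ∫⁻ w : ℂ, ‖F (toC c, toC c * w)‖ₑ
          ≤ (Eis.nm N : ℝ≥0∞) * ENNReal.ofReal (nm c : ℝ) *
              (ENNReal.ofReal (C * ((nm c : ℝ) ^ 4)⁻¹) * ID) := by
            rw [h3]; exact mul_le_mul_right h2 _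
        _ = (Eis.nm N : ℝ≥0∞) * (ENNReal.ofReal ((nm c : ℝ) * (C * ((nm c : ℝ) ^ 4)⁻¹)) * ID) := by
            rw [ENNReal.ofReal_mul hn0.le]; ring
        _ ≤ (Eis.nm N : ℝ≥0∞) * (ENNReal.ofReal (4 * C * ((1 + (nm c : ℝ)) ^ 2)⁻¹) * ID) := by
            refine mul_le_mul_right (mul_le_mul_left (ENNReal.ofReal_le_ofReal ?_) _) _
            have e1 : (nm c : ℝ) * (C * ((nm c : ℝ) ^ 4)⁻¹) = C * ((nm c : ℝ) ^ 3)⁻¹ := by
              field_simp
            rw [e1, mul_comm 4 C, mul_assoc]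
            refine mul_le_mul_of_nonneg_left ?_ hC0
            rw [← div_eq_mul_inv, inv_eq_one_div, div_le_div_iff₀ (by positivity) (by positivity)]
            nlinarith [mul_pos hn0 hn0, mul_pos (mul_pos hn0 hn0) hn0,
              mul_nonneg (sub_nonneg.mpr hn) (mul_pos hn0 hn0).le]
        _ = K1 * ENNReal.ofReal (((1 + (nm c : ℝ)) ^ 2)⁻¹) := by
            rw [hK1, ENNReal.ofReal_mul (by positivity)]; ring
        _ ≤ (K0 + K1) * ENNReal.ofReal (((1 + (nm c : ℝ)) ^ 2)⁻¹) :=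
            mul_le_mul_left le_add_self _
  refine ne_top_of_le_ne_top ?_ (ENNReal.tsum_le_tsum hrow)
  rw [ENNReal.tsum_mul_left]
  exact ENNReal.mul_ne_top (ENNReal.add_ne_top.mpr ⟨hK0t, hK1t⟩) hBt

open Classical in
/-- **AF1**: the Fourier coefficient of `EC a F` along the standard frames. -/
theorem coef_EC {a : Eis × Eis → ℂ} {K : ℝ} (hK : ∀ r, ‖a r‖ ≤ K) {F : Vec → ℂ}
    (hF : Continuous F) {C : ℝ} (hC : ∀ u, ‖F u‖ ≤ C * ((1 + K695.n2 u) ^ 4)⁻¹)
    {N : Eis} (hN : N ≠ 0) (hper : ∀ c, c ≠ 0 → PMod (N * c) (fun d => a (c, d)))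
    {ν : Eis} (hν : ν ≠ 0) :
    ∫ x in par (toC N), EC a F (stF x) * eC (-(frq (toC N) ν * x)) =
      ∑' c : Eis, if c = 0 then 0 else
        SC a N ν c * ∫ x : ℂ, F (toC c, toC c * x) * eC (-(frq (toC N) ν * x)) := by
  have hN' : toC N ≠ 0 := by rwa [Ne, toC_eq_zero]
  set G : Eis × Eis → ℂ → ℂ := fun p z =>
    a p * F (rowv p (stF z)) * eC (-(frq (toC N) ν * z)) with hG
  have hcr : ∀ p : Eis × Eis, Continuous fun z : ℂ => rowv p (stF z) := by
    intro p
    have : (fun z : ℂ => rowv p (stF z)) = fun z => (toC p.1, toC p.1 * z + toC p.2) := by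
      funext z; exact rowv_stF p z
    rw [this]
    fun_prop
  have hGm : ∀ p, AEStronglyMeasurable (G p) (volume.restrict (par (toC N))) := by
    intro p
    refine (Continuous.mul (continuous_const.mul (hF.comp (hcr p))) ?_).aestronglyMeasurable
    exact Parseval499.continuous_eC.comp (by fun_prop)
  have hfin := tsum_mass_ne_top hK hC hN ν
  have hI := integral_tsum hGm hfin
  have hL : ∫ x in par (toC N), EC a F (stF x) * eC (-(frq (toC N) ν * x)) =
      ∑' p : Eis × Eis, ∫ z in par (toC N), G p z := by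
    rw [← hI]
    refine integral_congr_ae (Filter.Eventually.of_forall fun z => ?_)
    simp only [hG, EC]
    rw [tsum_mul_right]
  rw [hL]
  have hS : Summable (fun p : Eis × Eis => ∫ z in par (toC N), G p z) := by
    refine Summable.of_norm_bounded (ENNReal.summable_toReal hfin) fun p => ?_
    have h1 := norm_integral_le_lintegral_norm (μ := volume.restrict (par (toC N))) (G p)
    simpa only [ofReal_norm] using h1
  rw [hS.tsum_prod]
  refine tsum_congr fun c => ?_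
  by_cases hc : c = 0
  · subst hc
    rw [if_pos rfl]
    have h2 : ∀ d : Eis, ∫ z in par (toC N), G (0, d) z = 0 := by
      intro d
      have e : ∀ z : ℂ, G (0, d) z = a (0, d) * F (0, toC d) * eC (-(frq (toC N) ν * z)) := by
        intro z
        simp only [hG]
        rw [rowv_stF]
        simp
      simp only [e]
      rw [integral_const_mul, integral_par_eC hN' hν, mul_zero]
    rw [tsum_congr h2, tsum_zero]
  · rw [if_neg hc]
    have hNc : N * c ≠ 0 := mul_ne_zero hN hc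
    have h1 := tsum_integral_row hNc hN' (hper c hc) (integrable_slice hF hC hc) ν
    unfold SC
    rw [← h1]
    refine tsum_congr fun d => ?_
    rw [← integral_const_mul]
    refine integral_congr_ae (Filter.Eventually.of_forall fun z => ?_)
    simp only [hG]
    rw [rowv_slice hN hc]
    ring

end Crest.Agent.R017.Coef92
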