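import Crest.Agent.R017.Coef1_92

/-!
# Row 17, section F: Fourier coefficients of the pair `(F, F')` (helper92, AF1 part 2)

* `coef_FP`, `coef_FO`: the `ν`-th Fourier coefficient of `EC a F`, `EC a' F'` along the standard
  frames for the product test functions of the pair theorem.
* `coef_FE`: an identity `EC a F = EC a' F'` on the standard frames gives
  `Σ_{c ≠ 0} f_+(c) S_a(ν; c) = Σ_{c ≠ 0} N(c)⁻¹ f°(ω / c) S_{a'}(ν; c)`.
-/

set_option autoImplicit false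

noncomputable section

open MeasureTheory Complex Set
open scoped ComplexConjugate ENNReal

namespace Crest.Agent.R017.Coef92

open Crest.Agent.R012 Crest.Agent.R012.Eis Crest.Agent.R012.K695
open Crest.Agent.R012.Parseval499 Crest.Agent.R012.FourCoef499
open Crest.Agent.R012.Four813 (phat)
open Crest.Agent.R017.Xn590

/-- `Σ_{c ≠ 0} f_+(c) S_a(ν; c)`. -/
def LS (n : ℕ) (ξ : Eis → ℂ) (f : ℂ → ℂ) (a : Eis × Eis → ℂ) (N ν : Eis) : ℂ := by
  classical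
  exact ∑' c : Eis, if c = 0 then 0 else fPn n ξ f (toC c) * SC a N ν c

/-- `Σ_{c ≠ 0} N(c)⁻¹ f°(ω / c) S_{a'}(ν; c)`, `ω = ν / (N √-3)`. -/
def RS (n : ℕ) (ξ : Eis → ℂ) (V : ℝ) (h0 B : ℂ) (f : ℂ → ℂ) (a : Eis × Eis → ℂ) (N ν : Eis) :
    ℂ := by
  classical
  exact ∑' c : Eis, if c = 0 then 0 else
    (((nm c : ℝ)⁻¹ : ℝ) : ℂ) * fOn n ξ V h0 B f (frq (toC N) ν / toC c) * SC a N ν c

section

variable {n : ℕ} {s : ℂ} {ξ : Eis → ℂ} {V : ℝ} {h0 B B' : ℂ} {f : ℂ → ℂ}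
  {k : SchwartzMap ℂ ℂ} {a : Eis × Eis → ℂ} {K : ℝ} {N ν : Eis}

lemma slice_FP {c : Eis} (hc : c ≠ 0) (ω : ℂ) :
    ∫ x : ℂ, FPn n ξ f k (toC c, toC c * x) * eC (-(ω * x)) =
      fPn n ξ f (toC c) * phat k ω := by
  have hc' : toC c ≠ 0 := by rwa [Ne, toC_eq_zero]
  unfold FPn phat
  rw [← integral_const_mul]
  refine integral_congr_ae (Filter.Eventually.of_forall fun x => ?_)
  simp only
  rw [mul_div_cancel_left₀ _ hc']
  ring

lemma slice_FO {κ c₁ : ℂ} (hCT : CoefThmN) (hξ : XiP ξ κ c₁) (hC : XnC n s κ V h0 B B')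
    (hf : DatN n s ξ f) {c : Eis} (hc : c ≠ 0) {ω : ℂ} (hω : ω ≠ 0) :
    ∫ x : ℂ, FOn n ξ V h0 B f k (toC c, toC c * x) * eC (-(ω * x)) =
      (((nm c : ℝ)⁻¹ : ℝ) : ℂ) * fOn n ξ V h0 B f (ω / toC c) * phat k ω := by
  have hc' : toC c ≠ 0 := by rwa [Ne, toC_eq_zero]
  have h1 := hCT n s ξ κ c₁ V h0 B B' hξ hC f k hf (toC c) ω hc' hω
  rw [Four813.integral_comp_mul_left' hc'] at h1
  have hn : (nm c : ℝ) ≠ 0 := (one_le_nm hc).trans_lt' one_pos |>.ne'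
  have h2 : ∫ x : ℂ, FOn n ξ V h0 B f k (toC c, toC c * x) * eC (-(ω * (toC c * x) / toC c)) =
      ∫ x : ℂ, FOn n ξ V h0 B f k (toC c, toC c * x) * eC (-(ω * x)) := by
    refine integral_congr_ae (Filter.Eventually.of_forall fun x => ?_)
    simp only
    congr 3
    field_simp
  rw [h2, norm_toC_sq, Complex.real_smul] at h1
  have h3 : (((nm c : ℝ)⁻¹ : ℝ) : ℂ) * ((nm c : ℝ) : ℂ) = 1 := by
    rw [← Complex.ofReal_mul, inv_mul_cancel₀ hn, Complex.ofReal_one]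
  calc ∫ x : ℂ, FOn n ξ V h0 B f k (toC c, toC c * x) * eC (-(ω * x))
      = ((((nm c : ℝ)⁻¹ : ℝ) : ℂ) * ((nm c : ℝ) : ℂ)) *
        ∫ x : ℂ, FOn n ξ V h0 B f k (toC c, toC c * x) * eC (-(ω * x)) := by rw [h3, one_mul]
    _ = (((nm c : ℝ)⁻¹ : ℝ) : ℂ) * (((nm c : ℝ) : ℂ) *
        ∫ x : ℂ, FOn n ξ V h0 B f k (toC c, toC c * x) * eC (-(ω * x))) := by ring
    _ = _ := by rw [h1]; ring

/-- The `ν`-th coefficient of `EC a F`, `F = f_+(z₁) k(z₂/z₁)`. -/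
theorem coef_FP (hF : TstN s (FPn n ξ f k)) (hK : ∀ r, ‖a r‖ ≤ K) (hN : N ≠ 0)
    (hper : ∀ c, c ≠ 0 → PMod (N * c) (fun d => a (c, d))) (hν : ν ≠ 0) :
    ∫ x in par (toC N), EC a (FPn n ξ f k) (stF x) * eC (-(frq (toC N) ν * x)) =
      LS n ξ f a N ν * phat k (frq (toC N) ν) := by
  classical
  obtain ⟨C, hC⟩ := hF.dec
  rw [coef_EC hK hF.cont hC hN hper hν, LS, ← tsum_mul_right]
  refine tsum_congr fun c => ?_
  by_cases hc : c = 0
  · simp [hc]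
  · rw [if_neg hc, if_neg hc, slice_FP hc]
    ring

lemma frq_ne_zero (hN : N ≠ 0) (hν : ν ≠ 0) : frq (toC N) ν ≠ 0 := by
  unfold frq
  exact div_ne_zero (by rwa [Ne, toC_eq_zero])
    (mul_ne_zero (by rwa [Ne, toC_eq_zero]) toC_s3_ne)

/-- The `ν`-th coefficient of `EC a' F'`. -/
theorem coef_FO {κ c₁ : ℂ} (hCT : CoefThmN) (hξ : XiP ξ κ c₁) (hC : XnC n s κ V h0 B B')
    (hf : DatN n s ξ f) (hF : TstN s (FOn n ξ V h0 B f k)) (hK : ∀ r, ‖a r‖ ≤ K) (hN : N ≠ 0)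
    (hper : ∀ c, c ≠ 0 → PMod (N * c) (fun d => a (c, d))) (hν : ν ≠ 0) :
    ∫ x in par (toC N), EC a (FOn n ξ V h0 B f k) (stF x) * eC (-(frq (toC N) ν * x)) =
      RS n ξ V h0 B f a N ν * phat k (frq (toC N) ν) := by
  classical
  obtain ⟨C, hC'⟩ := hF.dec
  rw [coef_EC hK hF.cont hC' hN hper hν, RS, ← tsum_mul_right]
  refine tsum_congr fun c => ?_
  by_cases hc : c = 0
  · simp [hc]
  · rw [if_neg hc, if_neg hc, slice_FO hCT hξ hC hf hc (frq_ne_zero hN hν)]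
    ring

end

/-! ### a Schwartz function with `k̂(ω) ≠ 0` -/

lemma contDiff_eC : ContDiff ℝ ((⊤ : ℕ∞) : WithTop ℕ∞) eC := by
  have h : eC = fun z : ℂ => Complex.exp ((2 * Real.pi * (2 * z.re) : ℝ) * Complex.I) := by
    funext z; exact eC_eq z
  rw [h]
  refine ContDiff.cexp ?_
  refine ContDiff.mul ?_ contDiff_const
  refine Complex.ofRealCLM.contDiff.comp ?_
  exact contDiff_const.mul (contDiff_const.mul Complex.reCLM.contDiff)

lemma exists_phat_ne (ω : ℂ) : ∃ k : SchwartzMap ℂ ℂ, phat k ω ≠ 0 := by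
  set b : ContDiffBump (0 : ℂ) := ⟨1, 2, one_pos, one_lt_two⟩ with hb
  set g : ℂ → ℂ := fun z => (b z : ℂ) * eC (ω * z) with hg
  have hgs : ContDiff ℝ ((⊤ : ℕ∞) : WithTop ℕ∞) g := by
    refine ContDiff.mul (Complex.ofRealCLM.contDiff.comp b.contDiff) ?_
    exact contDiff_eC.comp (contDiff_const.mul contDiff_id)
  have hgc : HasCompactSupport g := by
    have h1 : HasCompactSupport (fun z : ℂ => ((b z : ℝ) : ℂ)) :=
      b.hasCompactSupport.comp_left (g := fun x : ℝ => (x : ℂ)) Complex.ofReal_zero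
    exact h1.mul_right
  refine ⟨hgc.toSchwartzMap hgs, ?_⟩
  have h1 : phat (hgc.toSchwartzMap hgs) ω = ((∫ z, b z : ℝ) : ℂ) := by
    unfold phat
    rw [← integral_complex_ofReal]
    refine integral_congr_ae (Filter.Eventually.of_forall fun z => ?_)
    simp only
    have h2 : (hgc.toSchwartzMap hgs : ℂ → ℂ) z = g z := rfl
    rw [h2, hg]
    simp only
    rw [mul_assoc, ← Parseval499.eC_add, add_neg_cancel, Parseval499.eC_zero, mul_one]
  rw [h1]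
  exact_mod_cast b.integral_pos.ne'

section

variable {n : ℕ} {s : ℂ} {ξ : Eis → ℂ} {V : ℝ} {h0 B B' : ℂ} {f : ℂ → ℂ}
  {a a' : Eis × Eis → ℂ} {K K' : ℝ} {N ν : Eis}

/-- **AF1**: coefficient extraction from `EC a F = EC a' F'`. -/
theorem coef_FE {κ c₁ : ℂ} (hPT : PairThmN) (hCT : CoefThmN) (hξ : XiP ξ κ c₁)
    (hC : XnC n s κ V h0 B B') (hf : DatN n s ξ f)
    (hK : ∀ r, ‖a r‖ ≤ K) (hK' : ∀ r, ‖a' r‖ ≤ K') (hN : N ≠ 0)
    (hper : ∀ c, c ≠ 0 → PMod (N * c) (fun d => a (c, d)))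
    (hper' : ∀ c, c ≠ 0 → PMod (N * c) (fun d => a' (c, d)))
    (hFE : ∀ (k : SchwartzMap ℂ ℂ) (x : ℂ), EC a (FPn n ξ f k) (stF x) =
      EC a' (FOn n ξ V h0 B f k) (stF x)) (hν : ν ≠ 0) :
    LS n ξ f a N ν = RS n ξ V h0 B f a' N ν := by
  obtain ⟨k, hk⟩ := exists_phat_ne (frq (toC N) ν)
  have hP := hPT n s ξ κ c₁ V h0 B B' hξ hC f k hf
  have h1 := coef_FP (k := k) (a := a) hP.tst hK hN hper hν
  have h2 := coef_FO (k := k) (a := a') hCT hξ hC hf hP.tst' hK' hN hper' hν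
  have h3 : ∫ x in par (toC N), EC a (FPn n ξ f k) (stF x) * eC (-(frq (toC N) ν * x)) =
      ∫ x in par (toC N), EC a' (FOn n ξ V h0 B f k) (stF x) * eC (-(frq (toC N) ν * x)) := by
    refine integral_congr_ae (Filter.Eventually.of_forall fun x => ?_)
    simp only
    rw [hFE]
  rw [h1, h2] at h3
  exact mul_right_cancel₀ hk h3

end

end Crest.Agent.R017.Coef92
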