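import Crest.Agent.R017.SideD_777

/-!
# Row 17, section D: columns of sides with few small lumps (helper645)

`ExpLv.lev` in excess coordinates: `φ j = 2 x j - y j` (excess of the lump `j` over density `1/2`)
and `δ = 2 d - 1` (`d` the larger granular density). In these coordinates the target of a column
(`T` over the length of the shortened side) and the moments do not see the lengths any more.

* `col_phi` : the general form.
* `col_eq`  : at most `p` lumps of length `≤ w`; only `(φ, δ)` (largest lump excess, granular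
  excess) remain, monomials `{w^k | f}`; `lev` for shortened lumps is harmless.
* `col_dens` : lumps of total length `≤ Λ`; `(u, ρ, δ)` = length and density excess of the densest
  lump.
-/

set_option autoImplicit false

noncomputable section

namespace Crest.Agent.R017.CE645

open Crest.Agent.R017.ER911

variable {θ : ℝ} {r : EF}

/-- moment bound for a monomial, both granular kinds -/
def MB (r : EF) (i : ℝ) (W : Multiset ℝ) (g e : ℝ) : Prop :=
  r i W g 0 ≤ i + (W.sum + g) + e ∧ r i W 0 g ≤ i + (W.sum + g) + e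

/-- (LV)/(LV') in excess coordinates: length `l`, excess `E = 2 v - l` -/
def LVe (θ i l E : ℝ) : Prop :=
  (4 / 3 * i ≤ l ∧ 2 / 3 * l ≤ E) ∨ (1 - θ) * l + (2 * θ - 1) * i ≤ E

theorem LVe.mono {θ i l E E' : ℝ} (h : LVe θ i l E) (hE : E ≤ E') : LVe θ i l E' := by
  rcases h with ⟨h1, h2⟩ | h
  · exact Or.inl ⟨h1, by linarith⟩
  · exact Or.inr (by linarith)

theorem LVe.ok {θ i l v : ℝ} (h : LVe θ i l (2 * v - l)) : LVok θ i l v := by
  rcases h with ⟨h1, h2⟩ | h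
  · exact Or.inl ⟨h1, by linarith⟩
  · exact Or.inr (by linarith)

/-- **the level rule in excess coordinates** (target `T` over the length of the side) -/
theorem col_phi (Lv : ExpLv θ r) (hθ : 1 / 2 ≤ θ) {N : ℕ} (Y : Fin N → ℝ) {i M A T : ℝ}
    (hi : 0 ≤ i) (hY : ∀ j, 0 ≤ Y j ∧ Y j ≤ i) (hM : 0 ≤ M) (hA : 0 ≤ A)
    (H : ∀ (y φ : Fin N → ℝ) (δ : ℝ), (∀ j, 0 ≤ y j ∧ y j ≤ Y j) →
      (∀ j, φ j ≤ (2 * θ - 1) * y j) → 0 ≤ δ → δ ≤ 2 * θ - 1 →
      (∃ (n : Fin N → ℕ) (f : ℝ), 0 ≤ f ∧ (δ = 0 → f = 0) ∧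
        LVe θ i ((∑ j, (n j : ℝ) * y j) + f) ((∑ j, (n j : ℝ) * φ j) + f * δ) ∧
        (∑ j, (n j : ℝ) * y j) + f - ((∑ j, (n j : ℝ) * φ j) + f * δ) ≤
          T - ∑ j, φ j - (M + A) * δ) ∨
      (∃ (n : Fin N → ℕ) (g e : ℝ), 0 ≤ g ∧ (δ = 0 → g = 0) ∧
        MB r i (∑ j, Multiset.replicate (n j) (y j)) g e ∧
        i + e - (∑ j, (n j : ℝ) * φ j) - g * δ ≤ T - ∑ j, φ j - (M + A) * δ) ∨
      i ≤ T - ∑ j, φ j - (M + A) * δ) :
    r i (Finset.univ.val.map Y) M A ≤ (∑ j, Y j) + M + A + T := by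
  refine Lv.lev N Y i M A _ hi hY hM hA ?_
  intro y x m a ω α hy hm0 hm1 ha0 ha1 hx hω hα
  have hys : ∑ j, y j ≤ ∑ j, Y j := Finset.sum_le_sum fun j _ => (hy j).2
  -- excess coordinates
  obtain ⟨φ, hφ⟩ : ∃ φ : Fin N → ℝ, φ = fun j => 2 * x j - y j := ⟨_, rfl⟩
  have hφj : ∀ j, 2 * x j = φ j + y j := fun j => by rw [hφ]; ring
  have hφs : 2 * ∑ j, x j = (∑ j, φ j) + ∑ j, y j := by
    rw [Finset.mul_sum, ← Finset.sum_add_distrib]
    exact Finset.sum_congr rfl fun j _ => hφj j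
  have hφn : ∀ n : Fin N → ℕ, 2 * ∑ j, (n j : ℝ) * x j =
      (∑ j, (n j : ℝ) * φ j) + ∑ j, (n j : ℝ) * y j := by
    intro n
    rw [Finset.mul_sum, ← Finset.sum_add_distrib]
    exact Finset.sum_congr rfl fun j _ => by rw [← mul_add, ← hφj j]; ring
  have hφle : ∀ j, φ j ≤ (2 * θ - 1) * y j := fun j => by
    have := hx j
    have := hφj j
    nlinarith
  have hrep : ∀ n : Fin N → ℕ, (∑ j, Multiset.replicate (n j) (y j)).sum =
      ∑ j, (n j : ℝ) * y j := by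
    intro n
    rw [Multiset.sum_sum]
    exact Finset.sum_congr rfl fun j _ => by rw [Multiset.sum_replicate, nsmul_eq_mul]
  have hθ0 : 0 ≤ 2 * θ - 1 := by linarith
  -- one kind `(mass μ, level τ)` with excess `δ = 2 τ / μ - 1`
  have key : ∀ δ : ℝ, 0 ≤ δ → δ ≤ 2 * θ - 1 → (2 * ω - m) + (2 * α - a) ≤ (M + A) * δ →
      ((δ = 0) ∨ (m ≠ 0 ∧ ω / m = (1 + δ) / 2) ∨ (a ≠ 0 ∧ α / a = (1 + δ) / 2)) →
      (∃ (n : Fin N → ℕ) (f g : ℝ), 0 ≤ f ∧ (m = 0 → f = 0) ∧ 0 ≤ g ∧ (a = 0 → g = 0) ∧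
        LVok θ i ((∑ j, (n j : ℝ) * y j) + f + g)
          ((∑ j, (n j : ℝ) * x j) + f * (ω / m) + g * (α / a)) ∧
        2 * (((∑ j, (n j : ℝ) * y j) + f + g) -
            ((∑ j, (n j : ℝ) * x j) + f * (ω / m) + g * (α / a))) +
          2 * ((∑ j, x j) + ω + α) ≤ (∑ j, Y j) + M + A + T) ∨
      (∃ (n : Fin N → ℕ) (f g : ℝ), 0 ≤ f ∧ (m = 0 → f = 0) ∧ 0 ≤ g ∧ (a = 0 → g = 0) ∧
        r i (∑ j, Multiset.replicate (n j) (y j)) f g -
          2 * ((∑ j, (n j : ℝ) * x j) + f * (ω / m) + g * (α / a)) +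
          2 * ((∑ j, x j) + ω + α) ≤ (∑ j, Y j) + M + A + T) ∨
      i + 2 * ((∑ j, x j) + ω + α) ≤ (∑ j, Y j) + M + A + T := by
    intro δ hδ0 hδ1 hψ hkind
    -- choose the slot
    have slot : ∀ f : ℝ, 0 ≤ f → (δ = 0 → f = 0) → ∃ f₁ g₁ : ℝ, 0 ≤ f₁ ∧ (m = 0 → f₁ = 0) ∧
        0 ≤ g₁ ∧ (a = 0 → g₁ = 0) ∧ f₁ + g₁ = f ∧
        2 * (f₁ * (ω / m) + g₁ * (α / a)) = f * (1 + δ) ∧
        ((f₁ = f ∧ g₁ = 0) ∨ (f₁ = 0 ∧ g₁ = f)) := by
      intro f hf hfδ
      rcases hkind with h | ⟨h, h'⟩ | ⟨h, h'⟩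
      · have hf0 := hfδ h
        exact ⟨0, 0, le_rfl, fun _ => rfl, le_rfl, fun _ => rfl, by rw [hf0]; ring,
          by rw [hf0]; ring, Or.inl ⟨hf0.symm, rfl⟩⟩
      · exact ⟨f, 0, hf, fun hm => absurd hm h, le_rfl, fun _ => rfl, by ring,
          by rw [h']; ring, Or.inl ⟨rfl, rfl⟩⟩
      · exact ⟨0, f, le_rfl, fun _ => rfl, hf, fun ha => absurd ha h, by ring,
          by rw [h']; ring, Or.inr ⟨rfl, rfl⟩⟩
    rcases H y φ δ hy hφle hδ0 hδ1 with ⟨n, f, hf, hfδ, hLV, hle⟩ | ⟨n, g, e, hg, hgδ, hMB, hle⟩ |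
      hle
    · obtain ⟨f₁, g₁, h1, h2, h3, h4, h5, h6, -⟩ := slot f hf hfδ
      left
      refine ⟨n, f₁, g₁, h1, h2, h3, h4, ?_, ?_⟩
      · apply LVe.ok
        have e1 : (∑ j, (n j : ℝ) * y j) + f₁ + g₁ = (∑ j, (n j : ℝ) * y j) + f := by
          rw [← h5]; ring
        rw [e1]
        refine hLV.mono (le_of_eq ?_)
        have := hφn n
        linarith
      · have := hφn n
        linarith
    · obtain ⟨f₁, g₁, h1, h2, h3, h4, h5, h6, h7⟩ := slot g hg hgδ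
      right; left
      refine ⟨n, f₁, g₁, h1, h2, h3, h4, ?_⟩
      have hr : r i (∑ j, Multiset.replicate (n j) (y j)) f₁ g₁ ≤
          i + ((∑ j, (n j : ℝ) * y j) + g) + e := by
        rcases h7 with ⟨ha, hb⟩ | ⟨ha, hb⟩
        · rw [ha, hb]
          have := hMB.1
          rwa [hrep n] at this
        · rw [ha, hb]
          have := hMB.2
          rwa [hrep n] at this
      have := hφn n
      linarith
    · right; right
      linarith
  -- the granular kinds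
  have hψm : 0 < m → 2 * ω - m ≤ (2 * θ - 1) * m := fun _ => by linarith
  have hm' : m = 0 → 2 * ω - m ≤ 0 := fun h => by
    rw [h] at hω ⊢
    linarith
  have ha' : a = 0 → 2 * α - a ≤ 0 := fun h => by
    rw [h] at hα ⊢
    linarith
  by_cases hMm : 0 < 2 * ω - m
  · have hmpos : 0 < m := by
      rcases hm0.lt_or_eq with h | h
      · exact h
      · exact absurd (hm' h.symm) (not_le.2 hMm)
    by_cases hAa : 0 < 2 * α - a
    · have hapos : 0 < a := by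
        rcases ha0.lt_or_eq with h | h
        · exact h
        · exact absurd (ha' h.symm) (not_le.2 hAa)
      rcases le_total ((2 * α - a) / a) ((2 * ω - m) / m) with hc | hc
      · have hδ0 : 0 ≤ (2 * ω - m) / m := by positivity
        refine key ((2 * ω - m) / m) hδ0 ?_ ?_ (Or.inr (Or.inl ⟨hmpos.ne', ?_⟩))
        · rw [div_le_iff₀ hmpos]; linarith
        · have h1 : 2 * ω - m = m * ((2 * ω - m) / m) := by field_simp
          have h2 : 2 * α - a ≤ a * ((2 * ω - m) / m) := by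
            calc 2 * α - a = a * ((2 * α - a) / a) := by field_simp
              _ ≤ _ := mul_le_mul_of_nonneg_left hc ha0
          nlinarith
        · field_simp; ring
      · have hδ0 : 0 ≤ (2 * α - a) / a := by positivity
        refine key ((2 * α - a) / a) hδ0 ?_ ?_ (Or.inr (Or.inr ⟨hapos.ne', ?_⟩))
        · rw [div_le_iff₀ hapos]; linarith
        · have h1 : 2 * α - a = a * ((2 * α - a) / a) := by field_simp
          have h2 : 2 * ω - m ≤ m * ((2 * α - a) / a) := by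
            calc 2 * ω - m = m * ((2 * ω - m) / m) := by field_simp
              _ ≤ _ := mul_le_mul_of_nonneg_left hc hm0
          nlinarith
        · field_simp; ring
    · have hδ0 : 0 ≤ (2 * ω - m) / m := by positivity
      refine key ((2 * ω - m) / m) hδ0 ?_ ?_ (Or.inr (Or.inl ⟨hmpos.ne', ?_⟩))
      · rw [div_le_iff₀ hmpos]; linarith
      · have h1 : 2 * ω - m = m * ((2 * ω - m) / m) := by field_simp
        nlinarith
      · field_simp; ring
  · by_cases hAa : 0 < 2 * α - a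
    · have hapos : 0 < a := by
        rcases ha0.lt_or_eq with h | h
        · exact h
        · exact absurd (ha' h.symm) (not_le.2 hAa)
      have hδ0 : 0 ≤ (2 * α - a) / a := by positivity
      refine key ((2 * α - a) / a) hδ0 ?_ ?_ (Or.inr (Or.inr ⟨hapos.ne', ?_⟩))
      · rw [div_le_iff₀ hapos]; linarith
      · have h1 : 2 * α - a = a * ((2 * α - a) / a) := by field_simp
        nlinarith
      · field_simp; ring
    · exact key 0 le_rfl hθ0 (by linarith) (Or.inl rfl)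

theorem sum_single {N : ℕ} (b : Fin N) (k : ℕ) (z : Fin N → ℝ) :
    ∑ j, ((Pi.single b k : Fin N → ℕ) j : ℝ) * z j = (k : ℝ) * z b := by
  rw [Finset.sum_eq_single b]
  · rw [Pi.single_eq_same]
  · intro j _ hj
    rw [Pi.single_eq_of_ne hj]; simp
  · intro h; exact absurd (Finset.mem_univ b) h

theorem rep_single {N : ℕ} (b : Fin N) (k : ℕ) (z : Fin N → ℝ) :
    ∑ j, Multiset.replicate ((Pi.single b k : Fin N → ℕ) j) (z j) =
      Multiset.replicate k (z b) := by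
  rw [Finset.sum_eq_single b]
  · rw [Pi.single_eq_same]
  · intro j _ hj
    rw [Pi.single_eq_of_ne hj]; simp
  · intro h; exact absurd (Finset.mem_univ b) h

/-- what has to be shown at the lump excess `φ`, granular excess `δ`, budget `B` -/
def C1 (θ : ℝ) (r : EF) (i w φ δ B : ℝ) : Prop :=
  (∃ (k : ℕ) (f : ℝ), 0 ≤ f ∧ LVe θ i (k * w + f) (k * φ + f * δ) ∧
    k * w + f - (k * φ + f * δ) ≤ B) ∨
  (∃ (k : ℕ) (g e : ℝ), 0 ≤ g ∧
    (∀ u, 0 ≤ u → u ≤ w → u ≤ i → MB r i (Multiset.replicate k u) g e) ∧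
    i + e - k * φ - g * δ ≤ B) ∨
  i ≤ B

/-- the same without granular mass -/
def C0 (r : EF) (i w φ B : ℝ) : Prop :=
  (∃ (k : ℕ) (e : ℝ), (∀ u, 0 ≤ u → u ≤ w → u ≤ i → MB r i (Multiset.replicate k u) 0 e) ∧
    i + e - k * φ ≤ B) ∨ i ≤ B

/-- the same without lumps -/
def C2 (θ : ℝ) (r : EF) (i δ B : ℝ) : Prop :=
  (∃ f : ℝ, 0 ≤ f ∧ LVe θ i f (f * δ) ∧ f - f * δ ≤ B) ∨
  (∃ g e : ℝ, 0 ≤ g ∧ MB r i 0 g e ∧ i + e - g * δ ≤ B) ∨ i ≤ B

/-- **at most `p` lumps of length `≤ w`, granular mass `≤ c`** : only the largest lump excess `φ`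
and the granular excess `δ` remain. -/
theorem col_eq (Lv : ExpLv θ r) (hθ : 1 / 2 ≤ θ) {N : ℕ} (Y : Fin N → ℝ) {i M A T w p c : ℝ}
    (hi : 0 ≤ i) (hY : ∀ j, 0 ≤ Y j ∧ Y j ≤ i) (hw : ∀ j, Y j ≤ w) (hM : 0 ≤ M) (hA : 0 ≤ A)
    (hp : (N : ℝ) ≤ p) (hc : M + A ≤ c) (hT : i ≤ T)
    (H1 : ∀ φ δ : ℝ, 0 ≤ φ → φ ≤ (2 * θ - 1) * w → 0 < δ → δ ≤ 2 * θ - 1 →
      C1 θ r i w φ δ (T - p * φ - c * δ))
    (H0 : ∀ φ : ℝ, 0 ≤ φ → φ ≤ (2 * θ - 1) * w → C0 r i w φ (T - p * φ))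
    (H2 : ∀ δ : ℝ, 0 < δ → δ ≤ 2 * θ - 1 → C2 θ r i δ (T - c * δ)) :
    r i (Finset.univ.val.map Y) M A ≤ (∑ j, Y j) + M + A + T := by
  have hθ0 : 0 ≤ 2 * θ - 1 := by linarith
  refine col_phi Lv hθ Y hi hY hM hA ?_
  intro y φ δ hy hφ hδ0 hδ1
  have hcδ : (M + A) * δ ≤ c * δ := mul_le_mul_of_nonneg_right hc hδ0
  by_cases hneg : ∀ j, φ j < 0
  · -- no dense lump
    have hs : ∑ j, φ j ≤ 0 := Finset.sum_nonpos fun j _ => (hneg j).le
    rcases hδ0.lt_or_eq with hδ | hδ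
    · rcases H2 δ hδ hδ1 with ⟨f, hf, hLV, hle⟩ | ⟨g, e, hg, hMB, hle⟩ | hle
      · left
        refine ⟨fun _ => 0, f, hf, fun h => absurd h hδ.ne', ?_, ?_⟩
        · simpa using hLV
        · simp only [Nat.cast_zero, zero_mul, Finset.sum_const_zero, zero_add]
          linarith
      · right; left
        refine ⟨fun _ => 0, g, e, hg, fun h => absurd h hδ.ne', ?_, ?_⟩
        · simpa using hMB
        · simp only [Nat.cast_zero, zero_mul, Finset.sum_const_zero]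
          linarith
      · right; right; linarith
    · right; right
      rw [← hδ]
      linarith
  · push Not at hneg
    obtain ⟨j₀, hj₀⟩ := hneg
    obtain ⟨b, -, hb⟩ := Finset.exists_max_image Finset.univ φ ⟨j₀, Finset.mem_univ j₀⟩
    have hφb : 0 ≤ φ b := hj₀.trans (hb j₀ (Finset.mem_univ j₀))
    have hub : y b ≤ w := (hy b).2.trans (hw b)
    have hui : y b ≤ i := (hy b).2.trans (hY b).2
    have hφw : φ b ≤ (2 * θ - 1) * w := (hφ b).trans (mul_le_mul_of_nonneg_left hub hθ0)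
    have hs : ∑ j, φ j ≤ p * φ b := by
      calc ∑ j, φ j ≤ ∑ _j : Fin N, φ b := Finset.sum_le_sum fun j hj => hb j hj
        _ = (N : ℝ) * φ b := by simp
        _ ≤ p * φ b := mul_le_mul_of_nonneg_right hp hφb
    rcases hδ0.lt_or_eq with hδ | hδ
    · rcases H1 (φ b) δ hφb hφw hδ hδ1 with ⟨k, f, hf, hLV, hle⟩ | ⟨k, g, e, hg, hMB, hle⟩ | hle
      · left
        have hk : 0 ≤ (k : ℝ) * (w - y b) := mul_nonneg (Nat.cast_nonneg k) (by linarith)
        refine ⟨Pi.single b k, f + k * (w - y b), by linarith, fun h => absurd h hδ.ne', ?_, ?_⟩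
        · rw [sum_single, sum_single]
          have e1 : (k : ℝ) * y b + (f + k * (w - y b)) = k * w + f := by ring
          rw [e1]
          exact hLV.mono (by nlinarith)
        · rw [sum_single, sum_single]
          nlinarith
      · right; left
        refine ⟨Pi.single b k, g, e, hg, fun h => absurd h hδ.ne', ?_, ?_⟩
        · rw [rep_single]
          exact hMB _ (hy b).1 hub hui
        · rw [sum_single]
          linarith
      · right; right; linarith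
    · rcases H0 (φ b) hφb hφw with ⟨k, e, hMB, hle⟩ | hle
      · right; left
        refine ⟨Pi.single b k, 0, e, le_rfl, fun _ => rfl, ?_, ?_⟩
        · rw [rep_single]
          exact hMB _ (hy b).1 hub hui
        · rw [sum_single, ← hδ]
          linarith
      · right; right
        rw [← hδ]
        linarith

/-- a multiset as a family -/
theorem exists_fin (Z : Multiset ℝ) : ∃ Y : Fin (Multiset.card Z) → ℝ,
    Finset.univ.val.map Y = Z := by
  induction Z using Quotient.inductionOn with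
  | h l =>
    refine ⟨fun j => l.get j, ?_⟩
    have h := Fin.univ_val_map (fun j : Fin l.length => l.get j)
    rw [List.ofFn_get] at h
    exact h

/-- `col_eq` for a multiset of lumps -/
theorem col_ms (Lv : ExpLv θ r) (hθ : 1 / 2 ≤ θ) {Z : Multiset ℝ} {i M A T w p c : ℝ}
    (hi : 0 ≤ i) (hZ : ∀ y ∈ Z, 0 ≤ y ∧ y ≤ i ∧ y ≤ w) (hM : 0 ≤ M) (hA : 0 ≤ A)
    (hp : (Multiset.card Z : ℝ) ≤ p) (hc : M + A ≤ c) (hT : i ≤ T)
    (H1 : ∀ φ δ : ℝ, 0 ≤ φ → φ ≤ (2 * θ - 1) * w → 0 < δ → δ ≤ 2 * θ - 1 →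
      C1 θ r i w φ δ (T - p * φ - c * δ))
    (H0 : ∀ φ : ℝ, 0 ≤ φ → φ ≤ (2 * θ - 1) * w → C0 r i w φ (T - p * φ))
    (H2 : ∀ δ : ℝ, 0 < δ → δ ≤ 2 * θ - 1 → C2 θ r i δ (T - c * δ)) :
    r i Z M A ≤ Z.sum + M + A + T := by
  obtain ⟨Y, hYZ⟩ := exists_fin Z
  have hm : ∀ j, Y j ∈ Z := fun j => by
    rw [← hYZ]
    exact Multiset.mem_map_of_mem Y (Finset.mem_univ_val j)
  have := col_eq Lv hθ Y hi (fun j => ⟨(hZ _ (hm j)).1, (hZ _ (hm j)).2.1⟩)
    (fun j => (hZ _ (hm j)).2.2) hM hA hp hc hT H1 H0 H2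
  have hs : ∑ j, Y j = Z.sum := by
    have := congrArg Multiset.sum hYZ
    exact this
  rw [hYZ, hs] at this
  exact this

/-- **the columns of `side_xi` for at most `p` lumps of length `≤ w`** -/
theorem colX_eq (Lv : ExpLv θ r) (hθ : 1 / 2 ≤ θ) {κ ξ F m a w : ℝ} {Z : Multiset ℝ}
    (hZ : ∀ y ∈ Z, y ≤ w) (hξ : 0 ≤ ξ) (hF : 0 ≤ F)
    (H : ∀ i : ℝ, 0 ≤ i → i ≤ κ - 3 * ξ →
      (∀ φ δ : ℝ, 0 ≤ φ → φ ≤ (2 * θ - 1) * w → 0 < δ → δ ≤ 2 * θ - 1 →
        C1 θ r i w φ δ ((2 * κ + i) / 3 - ξ + F - Multiset.card Z * φ - (m + a) * δ)) ∧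
      (∀ φ : ℝ, 0 ≤ φ → φ ≤ (2 * θ - 1) * w →
        C0 r i w φ ((2 * κ + i) / 3 - ξ + F - Multiset.card Z * φ)) ∧
      (∀ δ : ℝ, 0 < δ → δ ≤ 2 * θ - 1 →
        C2 θ r i δ ((2 * κ + i) / 3 - ξ + F - (m + a) * δ)))
    (cube : ∀ (Z' : Multiset ℝ) (m' a' : ℝ), Sh Z' Z → 0 ≤ m' → m' ≤ m → 0 ≤ a' → a' ≤ a →
      0 ≤ κ - 3 * ξ →
      2 * a' + 2 * θ * m' ≤ (Z'.sum + m' + a') + 2 / 3 * κ - ξ + F) :
    SC777.ColX θ r κ ξ F Z m a where
  col Z' m' a' i hZ' hm0 hm1 ha0 ha1 hi hyi hii := by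
    obtain ⟨H1, H0, H2⟩ := H i hi hii
    have hnn := hZ'.nonneg
    have hle : ∀ y ∈ Z', y ≤ w := by
      intro y hy
      obtain ⟨b, hb, hyb⟩ := Multiset.exists_mem_of_rel_of_mem hZ' hy
      exact hyb.2.trans (hZ b hb)
    have := col_ms Lv hθ (Z := Z') (w := w) (p := Multiset.card Z) (c := m + a)
      (T := (2 * κ + i) / 3 - ξ + F) hi (fun y hy => ⟨hnn y hy, hyi y hy, hle y hy⟩) hm0 ha0
      (by rw [hZ'.card]) (by linarith) (by linarith) H1 H0 H2
    linarith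
  cube := cube

end Crest.Agent.R017.CE645
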