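import Crest.Agent.R017.GLm_74

/-!
# Row 17, sextic F2: the conductor of the block of the pure primes

* `perA_one`, `perA_low` : the minimal period `m₁` of `ψ_A`: `ψ = 1` on `c ≡ 1 mod m₁ B`, and for
  every prime `p ∣ m₁` there is `c ≡ 1 mod (m₁/p) B` with `ψ(c)^6 ≠ 1`
* `pure_block'` : `pure_block` with these two properties
* `xi_part` : the `A`-part of the conductor of a primitive `ξ` with `ξ = ψ^6` on `a ≡ 1 mod B` is
  `m₁`.
-/

set_option autoImplicit false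

noncomputable section

open Complex
open scoped ComplexConjugate

namespace Crest.Agent.R017.GLn74

open Crest.Agent.R012 Crest.Agent.R012.Eis Crest.Agent.R012.Gauss880 Crest.Agent.R017.Loc266
open Crest.Agent.R017.Sx440 Crest.Agent.R017.Kub664 Crest.Agent.R017.Tw266
open Crest.Agent.R017.Rw266 Crest.Agent.R017.GG90 Crest.Agent.R017.Tame74 Crest.Agent.R017.GLm74

variable {A B e : Eis} {ψ γ : Eis → ℂ} {t x : Eis}

lemma perA_one (H : Lvl A B e) (hψ : IsCh (A * B) ψ) {m c : Eis} (hm : PerA A e ψ m)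
    (hc : IsCoprime c A) (h : m * B ∣ c - 1) : ψ c = 1 := by
  have h2 := hm.2 c hc ((dvd_mul_right m B).trans h)
  have h3 : A * B ∣ lf e c - c := by
    refine H.toBlk.cop.mul_dvd (lf_A H.toBlk c) ?_
    rw [show lf e c - c = (lf e c - 1) - (c - 1) by ring]
    exact dvd_sub (lf_B H.toBlk c) ((dvd_mul_left B m).trans h)
  rw [← hψ.per.congr h3]; exact h2

lemma perA_congr (H : Lvl A B e) (hψ : IsCh (A * B) ψ) {m a b : Eis} (hm : PerA A e ψ m)
    (ha : IsCoprime a (A * B)) (hb : IsCoprime b (A * B)) (h : m * B ∣ a - b) : ψ a = ψ b := by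
  obtain ⟨c, hc, hc1⟩ := exists_inv hb
  have h1 : ψ (b * c) = 1 := by rw [hψ.per.congr hc1, hψ.one]
  have h2 : ψ (a * c) = 1 := by
    refine perA_one H hψ hm ((ha.mul_left hc).of_mul_right_left) ?_
    have : a * c - 1 = (a - b) * c + (b * c - 1) := by ring
    rw [this]
    exact dvd_add (h.mul_right _) ((mul_dvd_mul_right hm.1.dvd B).trans hc1)
  rw [hψ.mul] at h1 h2
  exact mul_right_cancel₀ (hψ.ne_zero H.lev.ne hc) (h2.trans h1.symm)

lemma cop_of_dvd_sub_one {m c : Eis} (h : m ∣ c - 1) : IsCoprime c m := by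
  obtain ⟨k, hk⟩ := h
  exact ⟨1, -k, by linear_combination hk⟩

theorem perA_low (H : Lvl A B e) (h8 : (8 : Eis) ∣ B) (h9 : (9 : Eis) ∣ B)
    (hψ : IsCh (A * B) ψ) (hP : PureL A B ψ) {m : Eis}
    (hm : PerA A e ψ m) (hmin : ∀ m', PerA A e ψ m' → nm m ≤ nm m') {p m2 : Eis} (hp : Prime p)
    (hm2 : m = p * m2) : ∃ c, IsCoprime c A ∧ m2 * B ∣ c - 1 ∧ ψ c ^ 6 ≠ 1 := by
  have hm0 : m ≠ 0 := fun h0 => H.A0 (zero_dvd_iff.mp (h0 ▸ hm.1.dvd))
  have hm20 : m2 ≠ 0 := by rintro rfl; exact hm0 (by rw [hm2, mul_zero])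
  have hpm : p ∣ m := ⟨m2, hm2⟩
  have hpA : p ∣ A := hpm.trans hm.1.dvd
  have hm2A : m2 ∣ A := (Dvd.intro_left p hm2.symm).trans hm.1.dvd
  have hcop2 : IsCoprime m2 B := IsCoprime.of_isCoprime_of_dvd_left H.toBlk.cop hm2A
  by_cases hp2 : p ∣ m2
  · -- wild part
    have hS : SameP A m2 := by
      refine ⟨hm2A, fun q hq hqA => ?_⟩
      have h1 := hm.1.pr q hq hqA
      rw [hm2] at h1
      rcases hq.dvd_or_dvd h1 with h2 | h2
      · exact ((hq.associated_of_dvd hp h2).dvd).trans hp2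
      · exact h2
    have hlt : nm m2 < nm m := by
      rw [hm2, nm_mul]
      have h1 : 1 < nm p := by
        have h2 := nm_pos.mpr hp.ne_zero
        have h3 : nm p ≠ 1 := fun h => hp.not_isUnit (isUnit_iff.mpr h)
        omega
      have h4 := nm_pos.mpr hm20
      nlinarith
    have hnot : ¬ PerA A e ψ m2 := fun h => absurd (hmin m2 h) (not_le.mpr hlt)
    unfold PerA at hnot
    push Not at hnot
    obtain ⟨c0, hc0, h1, h2⟩ := hnot hS
    set c := lf e c0 with hcdef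
    have hcB : B ∣ c - 1 := lf_B H.toBlk c0
    have hc2 : m2 ∣ c - 1 := by
      rw [show c - 1 = (c - c0) + (c0 - 1) by ring]
      exact dvd_add (hm2A.trans (lf_A H.toBlk c0)) h1
    have hcd : m2 * B ∣ c - 1 := hcop2.mul_dvd hc2 hcB
    -- `6 u ≡ 1 mod p`
    have h6 : IsCoprime (6 : Eis) p := by
      have h3 : (6 : Eis) ∣ B := (Dvd.dvd.trans ⟨12, by norm_num⟩ (dvd72B h8 h9))
      exact (IsCoprime.of_isCoprime_of_dvd_left
        (IsCoprime.of_isCoprime_of_dvd_right H.toBlk.cop h3) hpA).symm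
    obtain ⟨u, v, huv⟩ := h6
    have hd1 : m2 * B ∣ (1 + u * (c - 1)) - 1 := by
      rw [add_sub_cancel_left]; exact hcd.mul_left u
    have hcopA : ∀ {z : Eis}, m2 * B ∣ z - 1 → IsCoprime z A := fun {z} hz =>
      (hS.cop H.A0).mp (cop_of_dvd_sub_one ((dvd_mul_right m2 B).trans hz))
    have hcopN : ∀ {z : Eis}, m2 * B ∣ z - 1 → IsCoprime z (A * B) := fun {z} hz =>
      (hcopA hz).mul_right (cop_of_dvd_sub_one ((dvd_mul_left B m2).trans hz))
    refine ⟨1 + u * (c - 1), hcopA hd1, hd1, ?_⟩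
    have hpow : ψ ((1 + u * (c - 1)) ^ 6) = ψ (1 + u * (c - 1)) ^ 6 := by
      simp only [pow_succ, pow_zero, one_mul, hψ.mul]
    rw [← hpow]
    have hcong : m * B ∣ (1 + u * (c - 1)) ^ 6 - c := by
      have e1 : (1 + u * (c - 1)) ^ 6 - c = (u * 6 - 1) * (c - 1) +
          (c - 1) * (c - 1) * (u ^ 2 * (15 + 20 * (u * (c - 1)) + 15 * (u * (c - 1)) ^ 2 +
            6 * (u * (c - 1)) ^ 3 + (u * (c - 1)) ^ 4)) := by ring
      rw [e1, hm2]
      refine dvd_add ?_ (Dvd.dvd.mul_right ?_ _)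
      · have h3 : p ∣ u * 6 - 1 := ⟨-v, by linear_combination huv⟩
        rw [mul_assoc]
        exact mul_dvd_mul h3 hcd
      · rw [mul_assoc]
        exact mul_dvd_mul (hp2.trans ((dvd_mul_right m2 B).trans hcd)) hcd
    have hc6 : IsCoprime ((1 + u * (c - 1)) ^ 6) (A * B) := (hcopN hd1).pow_left
    rw [perA_congr H hψ hm hc6 (hcopN hcd) hcong]
    exact h2
  · -- tame part
    obtain ⟨b, ⟨k, hk⟩, hpb, hb⟩ := hP p hp hpA
    have hcopq : ∀ q, Prime q → q ∣ A * B → ¬ q ∣ b := by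
      intro q hq hqN hqb
      by_cases hqp : q ∣ p
      · exact hpb (((hq.associated_of_dvd hp hqp).symm.dvd).trans hqb)
      · have h1 := hqN.trans hk
        rcases hq.dvd_or_dvd h1 with h2 | h2
        · have : q ∣ 1 := by
            rw [show (1 : Eis) = b - (b - 1) by ring]; exact dvd_sub hqb h2
          exact hq.not_isUnit (isUnit_of_dvd_one this)
        · exact hqp (hq.dvd_of_dvd_pow h2)
    have hbA : IsCoprime b A := isCoprime_of_prime_dvd (fun h0 => H.A0 h0.2)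
      (fun q hq h1 h2 => hcopq q hq (h2.mul_right B) h1)
    have hpcop : ∀ {z : Eis}, z ∣ A * B → ¬ p ∣ z → z ∣ b - 1 := by
      intro z hz hpz
      have h1 : IsCoprime z (p ^ k) :=
        (((hp.irreducible.coprime_iff_not_dvd).mpr hpz).pow_left).symm
      exact h1.dvd_of_dvd_mul_right (hz.trans hk)
    have hpB : ¬ p ∣ B := by
      intro h
      have h1 : IsCoprime p p := IsCoprime.of_isCoprime_of_dvd_left
        (IsCoprime.of_isCoprime_of_dvd_right H.toBlk.cop h) hpA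
      exact hp.not_isUnit (isCoprime_self.mp h1)
    exact ⟨b, hbA, hcop2.mul_dvd (hpcop (hm2A.mul_right B) hp2)
      (hpcop (dvd_mul_left B A) hpB), hb⟩

/-- **The block of the pure primes**, for the minimal period. -/
theorem pure_block_min (H : Lvl A B e) (h8 : (8 : Eis) ∣ B) (h9 : (9 : Eis) ∣ B)
    (hψ : IsCh (A * B) ψ) (hγ : Gam4 γ) (hx : IsCoprime x A) (hP : PureL A B ψ) {m t0 : Eis}
    (hm : PerA A e ψ m) (hmin : ∀ m', PerA A e ψ m' → nm m ≤ nm m') (ht0 : A = m * t0) :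
      (∀ t, SU (A * B) t → SL (A * B) A e x ψ γ t ≠ 0 → ∃ b, t = t0 * b ∧ IsCoprime b A) ∧
      ∀ b, SU (A * B) b → IsCoprime b A →
        ‖SL (A * B) A e x ψ γ (t0 * b)‖ ^ 2 = (nm t0 : ℝ) ^ 2 * nm m := by
  have hm0 : m ≠ 0 := fun h0 => H.A0 (zero_dvd_iff.mp (h0 ▸ hm.1.dvd))
  have ht00 : t0 ≠ 0 := by rintro rfl; exact H.A0 (by rw [ht0, mul_zero])
  obtain ⟨b0, hb0⟩ := H.e0
  have hb0A : IsCoprime b0 A := by
    obtain ⟨k, hk⟩ := H.e1
    exact ⟨B, -k, by linear_combination hk - hb0⟩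
  have hxb : IsCoprime (-(x * b0)) A := (hx.mul_left hb0A).neg_left
  have key : ∀ t, SU (A * B) t → SL (A * B) A e x ψ γ t =
      gl (fun c => conj (Et A B e ψ γ t c)) (-(x * b0) * t) (m * t0) := by
    intro t ht
    rw [SL_eq_gl H h8 h9 hψ hγ ht hb0, ← ht0]
    congr 1
    ring
  have hch : ∀ t, SU (A * B) t → IsCh m (fun c => conj (Et A B e ψ γ t c)) := fun t ht =>
    (isCh_min H h8 h9 hψ hγ ht hm).conj
  have hpr : ∀ t, SU (A * B) t → Prm m (fun c => conj (Et A B e ψ γ t c)) := fun t ht =>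
    (prm_of_prp hm0 (prp_min H h8 h9 hψ hγ ht hP hm hmin)).conj
  have hdvd : ∀ {v : Eis}, t0 ∣ -(x * b0) * v → t0 ∣ v := by
    intro v hv
    have h1 : IsCoprime t0 (-(x * b0)) :=
      (IsCoprime.of_isCoprime_of_dvd_right hxb (ht0 ▸ dvd_mul_left t0 m)).symm
    exact h1.dvd_of_dvd_mul_left hv
  have hval : ∀ b, SU (A * B) (t0 * b) → SL (A * B) A e x ψ γ (t0 * b) =
      nm t0 * gl (fun c => conj (Et A B e ψ γ (t0 * b) c)) (-(x * b0) * b) m := by
    intro b hb
    rw [key _ hb, show -(x * b0) * (t0 * b) = t0 * (-(x * b0) * b) by ring,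
      gl_level_mul hm0 ht00 (hch _ hb).per]
  have hSUt0 : SU (A * B) t0 := ⟨ht00, fun p _ hd => by
    rw [ht0]
    exact (hd.mul_left m).mul_right B⟩
  refine ⟨fun t ht hne => ?_, fun b hbS hb => ?_⟩
  · have h1 : t0 ∣ t := by
      by_contra hno
      apply hne
      rw [key t ht, gl_level_zero hm0 ht00 (hch t ht).per (fun h => hno (hdvd h))]
    obtain ⟨b, rfl⟩ := h1
    refine ⟨b, rfl, ?_⟩
    by_contra hno
    apply hne
    rw [hval b ht, gl_eq_zero hm0 (hch _ ht) (hpr _ ht), mul_zero]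
    intro h2
    apply hno
    exact (hm.1.cop H.A0).mp h2.of_mul_left_right
  · have hS := hSUt0.mul hbS
    rw [hval b hS, norm_mul, mul_pow]
    have h2 : IsCoprime (-(x * b0) * b) m := (hm.1.cop H.A0).mpr (hxb.mul_left hb)
    have h3 := gl_mul_of_coprime hm0 (hch _ hS) 1 h2
    rw [one_mul] at h3
    rw [h3, norm_mul, mul_pow, norm_gl_sq hm0 (hch _ hS) (hpr _ hS)]
    have h4 : ‖conj (conj (Et A B e ψ γ (t0 * b) (-(x * b0) * b)))‖ = 1 := by
      rw [RCLike.norm_conj]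
      exact (hch _ hS).norm_eq_one hm0 h2
    rw [h4]
    simp

/-- The minimal period of `ψ_A`. -/
structure Cnd (A B : Eis) (ψ : Eis → ℂ) (m : Eis) : Prop where
  sam : SameP A m
  one : ∀ c, IsCoprime c A → m * B ∣ c - 1 → ψ c = 1
  low : ∀ p m2, Prime p → m = p * m2 → ∃ c, IsCoprime c A ∧ m2 * B ∣ c - 1 ∧ ψ c ^ 6 ≠ 1

/-- **The block of the pure primes**, with the conductor. -/
theorem pure_block' (H : Lvl A B e) (h8 : (8 : Eis) ∣ B) (h9 : (9 : Eis) ∣ B)
    (hψ : IsCh (A * B) ψ) (hγ : Gam4 γ) (hP : PureL A B ψ) :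
    ∃ t₀ m₁ : Eis, A = m₁ * t₀ ∧ Cnd A B ψ m₁ ∧
      (∀ x, IsCoprime x A → ∀ t, SU (A * B) t → SL (A * B) A e x ψ γ t ≠ 0 →
        ∃ b, t = t₀ * b ∧ IsCoprime b A) ∧
      ∀ x, IsCoprime x A → ∀ b, SU (A * B) b → IsCoprime b A →
        ‖SL (A * B) A e x ψ γ (t₀ * b)‖ ^ 2 = (nm t₀ : ℝ) ^ 2 * nm m₁ := by
  obtain ⟨m, hm, hmin⟩ := exists_min H hψ
  obtain ⟨t0, ht0⟩ := hm.1.dvd
  refine ⟨t0, m, ht0, ⟨hm.1, fun c hc h => perA_one H hψ hm hc h,
    fun p m2 hp h => perA_low H h8 h9 hψ hP hm hmin hp h⟩, fun x hx => ?_, fun x hx => ?_⟩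
  · exact (pure_block_min H h8 h9 hψ hγ hx hP hm hmin ht0).1
  · exact (pure_block_min H h8 h9 hψ hγ hx hP hm hmin ht0).2

/-- **The `A`-part of the conductor of `ξ`.** -/
theorem xi_part (H : Lvl A B e) {m : Eis} (hm : Cnd A B ψ m) {M : Eis} {ξ : Eis → ℂ}
    (hM : M ∣ A * B) (hξ : IsCh M ξ) (hpr : Prm M ξ)
    (h : ∀ a, IsCoprime a (A * B) → B ∣ a - 1 → ξ a = ψ a ^ 6) {a b : Eis} (hab : M = a * b)
    (ha : a ∣ A) (hb : b ∣ B) : Associated a m := by
  classical
  have hN0 : A * B ≠ 0 := H.lev.ne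
  have hM0 : M ≠ 0 := fun h0 => hN0 (zero_dvd_iff.mp (h0 ▸ hM))
  have ha0 : a ≠ 0 := by rintro rfl; exact hM0 (by rw [hab, zero_mul])
  have hb0 : b ≠ 0 := by rintro rfl; exact hM0 (by rw [hab, mul_zero])
  have hm0 : m ≠ 0 := fun h0 => H.A0 (zero_dvd_iff.mp (h0 ▸ hm.sam.dvd))
  have hcopm : ∀ {z : Eis}, m * B ∣ z - 1 → IsCoprime z (A * B) := fun {z} hz =>
    ((hm.sam.cop H.A0).mp (cop_of_dvd_sub_one ((dvd_mul_right m B).trans hz))).mul_right
      (cop_of_dvd_sub_one ((dvd_mul_left B m).trans hz))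
  -- `a ∣ m`
  have key : a ∣ m := by
    obtain ⟨s, hs⟩ := EuclideanDomain.gcd_dvd_left a m
    have hg := EuclideanDomain.gcd_eq_gcd_ab a m
    set g := EuclideanDomain.gcd a m with hgdef
    by_contra hno
    have hs1 : ¬ IsUnit s := by
      intro hu
      apply hno
      have h1 : Associated g a := by
        rw [hs]; exact associated_mul_unit_right g s hu
      exact h1.symm.dvd.trans (EuclideanDomain.gcd_dvd_right a m)
    have hs2 : ¬ IsCoprime s M := by
      intro hc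
      have h1 : s ∣ M := by rw [hab, hs]; exact (dvd_mul_left s g).mul_right b
      exact hs1 (hc.isUnit_of_dvd' dvd_rfl h1)
    obtain ⟨u, hu, h1, h2⟩ := hpr s hs2
    have hs0 : s ≠ 0 := by rintro rfl; exact ha0 (by rw [hs, mul_zero])
    have h3 : g * b ∣ u - 1 := by
      have h4 : s * (g * b) ∣ s * (u - 1) := by
        rw [mul_comm s (u - 1)]
        refine dvd_trans ?_ h1
        rw [hab]
        exact ⟨1, by linear_combination b * hs⟩
      exact (mul_dvd_mul_iff_left hs0).mp h4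
    obtain ⟨k, hk⟩ := h3
    obtain ⟨b', hb'⟩ := hb
    have hcab : IsCoprime a b' := IsCoprime.of_isCoprime_of_dvd_left
      (IsCoprime.of_isCoprime_of_dvd_right H.toBlk.cop (hb' ▸ dvd_mul_left b' b)) ha
    obtain ⟨r, s', hrs⟩ := hcab
    set X := EuclideanDomain.gcdA a m
    set Y := EuclideanDomain.gcdB a m
    set u' := u - M * ((X + m * r * Y) * k) with hu'
    have h4 : u' - 1 = m * B * (s' * Y * k) := by
      have h5 : u' - 1 = g * b * k - a * b * ((X + m * r * Y) * k) := by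
        rw [hu', hab]; linear_combination hk
      rw [h5, hg, hb']
      linear_combination (-(m * b * Y * k)) * hrs
    have h5 : m * B ∣ u' - 1 := ⟨_, h4⟩
    have h6 := hcopm h5
    have h7 : ξ u' = ξ u := hξ.per.congr ⟨-((X + m * r * Y) * k), by rw [hu']; ring⟩
    apply h2
    rw [← h7, h u' h6 ((dvd_mul_left B m).trans h5), hm.one u' h6.of_mul_right_left h5, one_pow]
  refine associated_of_dvd_dvd key ?_
  obtain ⟨m', hm'⟩ := key
  by_contra hno
  have hm'1 : ¬ IsUnit m' := by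
    intro hu
    apply hno
    rw [hm']
    exact (associated_mul_unit_right a m' hu).symm.dvd
  have hm'0 : m' ≠ 0 := by rintro rfl; exact hm0 (by rw [hm', mul_zero])
  obtain ⟨p, hp, m3, hp3⟩ := WfDvdMonoid.exists_irreducible_factor hm'1 hm'0
  obtain ⟨c, hc, h1, h2⟩ := hm.low p (a * m3) hp.prime (by rw [hm', hp3]; ring)
  apply h2
  have hcB : B ∣ c - 1 := (dvd_mul_left B _).trans h1
  have hcN : IsCoprime c (A * B) := hc.mul_right (cop_of_dvd_sub_one hcB)
  rw [← h c hcN hcB]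
  have h3 : M ∣ c - 1 := by
    rw [hab]
    exact (mul_dvd_mul (dvd_mul_right a m3) hb).trans h1
  rw [hξ.per.congr h3, hξ.one]

lemma nm_assoc {a b : Eis} (h : Associated a b) : nm a = nm b := by
  obtain ⟨u, rfl⟩ := h
  rw [nm_mul, isUnit_iff.mp u.isUnit, mul_one]

end Crest.Agent.R017.GLn74
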