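import Crest.Agent.R017.Cond1_499
import Crest.Agent.R017.GLn_74

/-!
# Row 17: the norm of the conductor of `ψ⁶` (helper499)

`N = 2^r₂ √-3^r₃ A`.  Exact levels `Lvx` of `ψ` at `2` and `√-3`, `Cnd` (74) at `A`:

* `Lvx.two_*`, `Lvx.sq3_*` : exact levels of `ψ⁶`
* `nm_xi` : `nm m = 4^s₂ 3^s₃ nm m₁`
-/

set_option autoImplicit false

noncomputable section

open Complex
open scoped ComplexConjugate

namespace Crest.Agent.R017.Cond499

open Crest.Agent.R012 Crest.Agent.R012.Eis Crest.Agent.R012.Gauss880 Crest.Agent.R017.Loc266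
open Crest.Agent.R017.XiI590 Crest.Agent.R017.Sx440 Crest.Agent.R017.GLn74

variable {N m B : Eis} {ψ χ ξ : Eis → ℂ} {r c : ℕ}

lemma sq3_eq_lam : sq3 = w * lam := by
  unfold lam
  have h := w_sq
  have e : sq3 = 1 + 2 * w := by decide
  rw [e]
  linear_combination h

lemma assoc_pow (k : ℕ) (B : Eis) : Associated (sq3 ^ k * B) (lam ^ k * B) := by
  have h : Associated sq3 lam :=
    Associated.symm ⟨(GG90.isUnit_w).unit, by rw [sq3_eq_lam]; exact mul_comm _ _⟩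
  exact (h.pow_pow).mul_right B

lemma fl_assoc {D D' : Eis} (h : Associated D D') : FL N D ψ ↔ FL N D' ψ :=
  ⟨fun h1 => h1.mono h.dvd, fun h1 => h1.mono h.symm.dvd⟩

lemma fl_sq3 (k : ℕ) : FL N (sq3 ^ k * B) ψ ↔ FL N (lam ^ k * B) ψ := fl_assoc (assoc_pow k B)

/-- a character modulo `N` is a character modulo an associate -/
lemma isCh_assoc {N' : Eis} (h : Associated N N') (hψ : IsCh N ψ) : IsCh N' ψ where
  one := hψ.one
  mul := hψ.mul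
  per x t := by
    obtain ⟨u, rfl⟩ := h
    rw [mul_assoc]
    exact hψ.per x _
  zero x hx := hψ.zero x fun h' => hx (IsCoprime.of_isCoprime_of_dvd_right h' h.symm.dvd)

lemma fl_assoc_left {N' D : Eis} (h : Associated N N') : FL N D ψ ↔ FL N' D ψ := by
  constructor
  · intro h1 c hc hd
    exact h1 c (IsCoprime.of_isCoprime_of_dvd_right hc h.dvd) hd
  · intro h1 c hc hd
    exact h1 c (IsCoprime.of_isCoprime_of_dvd_right hc h.symm.dvd) hd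

lemma lvx_sq3 {s : ℕ} (hN : N = sq3 ^ r * B) :
    Lvx N B sq3 r s χ ↔ Lvx (lam ^ r * B) B lam r s χ := by
  have hass : Associated N (lam ^ r * B) := hN ▸ assoc_pow r B
  constructor
  · rintro ⟨h1, h2, h3⟩
    refine ⟨h1, ?_, fun hs h => h3 hs ?_⟩
    · rw [← fl_assoc_left hass, ← fl_sq3]; exact h2
    · rw [fl_sq3, fl_assoc_left hass]; exact h
  · rintro ⟨h1, h2, h3⟩
    refine ⟨h1, ?_, fun hs h => h3 hs ?_⟩
    · rw [fl_sq3, fl_assoc_left hass]; exact h2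
    · rw [← fl_assoc_left hass, ← fl_sq3]; exact h

/-! ### exact levels of `ψ⁶` at `2` -/

theorem Lvx.two_wild (hψ : IsCh ((2 : Eis) ^ r * B) ψ) (h : Lvx ((2 : Eis) ^ r * B) B 2 r c ψ)
    (hc : 4 ≤ c) : Lvx ((2 : Eis) ^ r * B) B 2 r (c - 1) (fun z => ψ z ^ 6) where
  le := by have := h.le; omega
  fl := FL.two_up hψ (by omega) (by rw [show c - 1 + 1 = c by omega]; exact h.fl)
  nfl _ := by
    rw [show c - 1 - 1 = c - 2 by omega]
    exact FL.two_wild hψ hc h.le h.fl (h.nfl (by omega))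

theorem Lvx.two_three (hψ : IsCh ((2 : Eis) ^ r * B) ψ) (hB : IsCoprime ((2 : Eis) ^ r) B)
    (h : Lvx ((2 : Eis) ^ r * B) B 2 r c ψ) (hr : 3 ≤ r) (hc : c ≤ 3)
    (h5 : ∃ c, (8 : Eis) ∣ c - 5 ∧ B ∣ c - 1 ∧ ψ c ≠ 1) :
    Lvx ((2 : Eis) ^ r * B) B 2 r 2 (fun z => ψ z ^ 6) := by
  have h3 : FL ((2 : Eis) ^ r * B) ((2 : Eis) ^ 3 * B) ψ :=
    h.fl.mono (mul_dvd_mul_right (pow_dvd_pow 2 hc) B)
  exact ⟨by omega, FL.two_up hψ (by norm_num) h3, fun _ => FL.two_three hψ hB hr h3 h5⟩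

theorem Lvx.two_hilb (hψ : IsCh ((2 : Eis) ^ r * B) ψ) (hB : IsCoprime ((2 : Eis) ^ r) B)
    (h : Lvx ((2 : Eis) ^ r * B) B 2 r c ψ) (hr : 3 ≤ r) (hc : c ≤ 3)
    (h5 : ∀ c, (8 : Eis) ∣ c - 5 → B ∣ c - 1 → ψ c = 1) :
    Lvx ((2 : Eis) ^ r * B) B 2 r 0 (fun z => ψ z ^ 6) := by
  have h3 : FL ((2 : Eis) ^ r * B) ((2 : Eis) ^ 3 * B) ψ :=
    h.fl.mono (mul_dvd_mul_right (pow_dvd_pow 2 hc) B)
  exact ⟨by omega, by rw [pow_zero, one_mul]; exact FL.two_hilb hψ hB hr h3 h5, fun h => absurd rfl h⟩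

/-! ### exact levels of `ψ⁶` at `√-3` -/

theorem Lvx.sq3_wild (hψ : IsCh (sq3 ^ r * B) ψ) (h : Lvx (sq3 ^ r * B) B sq3 r c ψ)
    (hc : 5 ≤ c) : Lvx (sq3 ^ r * B) B sq3 r (c - 2) (fun z => ψ z ^ 6) := by
  have hψ' := isCh_assoc (assoc_pow r B) hψ
  rw [lvx_sq3 rfl] at h ⊢
  exact ⟨by have := h.le; omega,
    FL.lam_up hψ' (by omega) (by rw [show c - 2 + 2 = c by omega]; exact h.fl),
    fun _ => by
      rw [show c - 2 - 1 = c - 3 by omega]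
      exact FL.lam_wild hψ' hc h.le h.fl (h.nfl (by omega))⟩

theorem Lvx.sq3_hilb (hψ : IsCh (sq3 ^ r * B) ψ) (hB : IsCoprime sq3 B)
    (h : Lvx (sq3 ^ r * B) B sq3 r c ψ) (hr : 1 ≤ r) (hc : c ≤ 4) :
    Lvx (sq3 ^ r * B) B sq3 r 0 (fun z => ψ z ^ 6) := by
  have hψ' := isCh_assoc (assoc_pow r B) hψ
  rw [lvx_sq3 rfl] at h ⊢
  have hB' : IsCoprime lam B := IsCoprime.of_isCoprime_of_dvd_left hB
    ⟨w, by rw [sq3_eq_lam]; ring⟩
  refine ⟨by omega, ?_, fun h => absurd rfl h⟩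
  rw [pow_zero, one_mul]
  exact FL.lam_hilb hψ' hB' hr (h.fl.mono (mul_dvd_mul_right (pow_dvd_pow lam hc) B))

/-! ### existence of the exact level -/

theorem exists_lvx {p : Eis} (hψ : IsCh (p ^ r * B) ψ) : ∃ c, Lvx (p ^ r * B) B p r c ψ := by
  classical
  have hex : ∃ k, k ≤ r ∧ FL (p ^ r * B) (p ^ k * B) ψ := ⟨r, le_rfl, fl_self hψ⟩
  obtain ⟨h1, h2⟩ := Nat.find_spec hex
  refine ⟨Nat.find hex, h1, h2, fun h0 h3 => ?_⟩
  exact Nat.find_min hex (m := Nat.find hex - 1) (by omega) ⟨by omega, h3⟩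

/-! ### the norm of the conductor -/

/-- **The norm of the conductor**, `N = 2^r₂ √-3^r₃ A`. -/
theorem nm_xi {r2 rl s2 sl : ℕ} {A m1 : Eis} (hN : N = (2 : Eis) ^ r2 * (sq3 ^ rl * A))
    (hN0 : N ≠ 0) (h2A : ¬ (2 : Eis) ∣ A) (hlA : ¬ sq3 ∣ A) (hψ : IsCh N ψ) (hm : m ∣ N)
    (hξ : IsCh m ξ) (hp : Prm m ξ) (he : ∀ a, IsCoprime a N → ξ a = ψ a ^ 6)
    (L2 : Lvx N (sq3 ^ rl * A) 2 r2 s2 (fun z => ψ z ^ 6))
    (Ll : Lvx N ((2 : Eis) ^ r2 * A) sq3 rl sl (fun z => ψ z ^ 6))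
    (C : Cnd A ((2 : Eis) ^ r2 * sq3 ^ rl) ψ m1) :
    nm m = 4 ^ s2 * 3 ^ sl * nm m1 := by
  have hls : sq3 ∣ lam := ⟨w ^ 2, by
    rw [sq3_eq_lam]; have := w_cube; linear_combination -lam * this⟩
  have hsl : lam ∣ sq3 := ⟨w, by rw [sq3_eq_lam]; ring⟩
  have hass : Associated N ((2 : Eis) ^ r2 * (lam ^ rl * A)) := by
    rw [hN]; exact (assoc_pow rl A).mul_left _
  have e1 : N = sq3 ^ rl * ((2 : Eis) ^ r2 * A) := by rw [hN]; ring
  have hχ := isCh_pow hψ (n := 6) (by norm_num)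
  set N' : Eis := (2 : Eis) ^ r2 * (lam ^ rl * A) with hN'
  have hN'0 : N' ≠ 0 := fun h => hN0 (hass.eq_zero_iff.mpr h)
  have hcop : ∀ a, IsCoprime a N' → IsCoprime a N := fun a ha =>
    IsCoprime.of_isCoprime_of_dvd_right ha hass.dvd
  refine nm_cond (N := N') (χ := fun z => ψ z ^ 6) rfl hN'0 h2A
    (fun h => hlA (hls.trans h)) (isCh_assoc hass hχ) (hm.trans hass.dvd) hξ hp
    (fun a ha => he a (hcop a ha)) ?_ ?_ (C.sam.dvd) ?_ ?_
  · obtain ⟨h1, h2, h3⟩ := L2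
    have ha : ∀ k, Associated ((2 : Eis) ^ k * (sq3 ^ rl * A)) ((2 : Eis) ^ k * (lam ^ rl * A)) :=
      fun k => (assoc_pow rl A).mul_left _
    refine ⟨h1, ?_, fun hs h => h3 hs ?_⟩
    · rw [← fl_assoc_left hass, ← fl_assoc (ha s2)]; exact h2
    · rw [fl_assoc (ha _), fl_assoc_left hass]; exact h
  · rw [lvx_sq3 e1] at Ll
    have e2 : N' = lam ^ rl * ((2 : Eis) ^ r2 * A) := by rw [hN']; ring
    rw [e2]
    exact Ll
  · intro c hc hd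
    have h1 : ψ c = 1 := by
      refine C.one c (IsCoprime.of_isCoprime_of_dvd_right hc ?_) (dvd_trans ?_ hd)
      · exact ⟨(2 : Eis) ^ r2 * lam ^ rl, by rw [hN']; ring⟩
      · refine mul_dvd_mul_left _ (mul_dvd_mul_left _ (pow_dvd_pow_of_dvd hls rl))
    beta_reduce
    rw [h1, one_pow]
  · intro p m2 hpp hm2 hFL
    obtain ⟨c, hc, hd, h1⟩ := C.low p m2 hpp hm2
    apply h1
    refine hFL c ?_ (dvd_trans ?_ hd)
    · have h2 : IsCoprime c ((2 : Eis) ^ r2 * sq3 ^ rl) :=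
        cop_one_sub ((dvd_mul_left _ m2).trans hd)
      have h3 : IsCoprime c ((2 : Eis) ^ r2 * sq3 ^ rl * A) := h2.mul_right hc
      refine IsCoprime.of_isCoprime_of_dvd_right h3 ?_
      rw [hN', ← mul_assoc]
      exact mul_dvd_mul_right (mul_dvd_mul_left _ (pow_dvd_pow_of_dvd hsl rl)) A
    · exact mul_dvd_mul_left _ (mul_dvd_mul_left _ (pow_dvd_pow_of_dvd hsl rl))

end Crest.Agent.R017.Cond499
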