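import Crest.Agent.R017.P1MUX_960

/-!
# Row 17, mismatch moments (helper631): the twisted sequences live on elements prime to the twist

* `cop_alL` : a convolution of pieces twisted by `t` is `0` at `n` unless `t` is prime to `n`
* **`cop_u`** : `sqc 1 (alL h (ps.map (Pt P t))) n ≠ 0 → IsCoprime (t * t) n`
* `cop_eta`, `cop_xD`, `cop_alX`, `cop_alS` : the same for `ηC`, `xD`, `αX`, `αS`
-/

set_option autoImplicit false

noncomputable section

open Finset

namespace Crest.Agent.R017.CopU631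

open Crest.Agent.R012 Crest.Agent.R012.Eis
open Crest.Agent.R017.CM106 Crest.Agent.R017.B770 Crest.Agent.R017.Prov71
open Crest.Agent.R017.E5B71 Crest.Agent.R017.ExBox960 Crest.Agent.R017.ExP960
open Crest.Agent.R017.HP842 (Pc pc sqc al alL cv Tu mem_Tu Th)

/-- a list of pieces twisted by `t` -/
theorem cop_alL (h : ℝ → ℝ) (t : Eis) (ps : List Pc) {n : Eis}
    (hn : alL h (ps.map fun p => SU770.tw1 p t) n ≠ 0) : IsCoprime t n := by
  rw [HP842.alL_eq] at hn
  unfold HP842.al HP842.cv at hn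
  obtain ⟨x, hx, h0⟩ := Finset.exists_ne_zero_of_sum_ne_zero hn
  rw [mem_Tu] at hx
  rw [← hx.2]
  refine IsCoprime.prod_right fun i _ => ?_
  have h1 : HP842.pc h ((ps.map fun p => SU770.tw1 p t).get i) (x i) ≠ 0 :=
    (Finset.prod_ne_zero_iff.1 h0) i (Finset.mem_univ i)
  obtain ⟨q, hq⟩ : ∃ q : Pc, ((ps.map fun p => SU770.tw1 p t).get i) = SU770.tw1 q t := by
    have h2 := List.get_mem (ps.map fun p => SU770.tw1 p t) i
    rw [List.mem_map] at h2
    obtain ⟨q, _, hq⟩ := h2
    exact ⟨q, hq.symm⟩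
  rw [hq] at h1
  unfold HP842.pc SU770.tw1 at h1
  split_ifs at h1 with hb
  · refine Char766.coprime_of_sy_ne_zero hb ?_
    intro h3
    apply h1
    simp [h3]
  · exact absurd rfl h1

/-- **the sequence of a list of twisted pieces lives on elements prime to the twist** -/
theorem cop_u {h : ℝ → ℝ} {P : DPar} {t n : Eis} {ps : List Pq}
    (hn : sqc 1 (alL h (ps.map (Pt P t))) n ≠ 0) : IsCoprime (t * t) n := by
  have hn' : Th 1 n * alL h (ps.map (Pt P t)) n ≠ 0 := hn
  have h1 : alL h (ps.map (Pt P t)) n ≠ 0 := right_ne_zero_of_mul hn'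
  have h2 : ps.map (Pt P t) = (ps.map fun p => p.pc P).map fun p => SU770.tw1 p t := by
    rw [List.map_map]; rfl
  rw [h2] at h1
  have h3 := cop_alL h t _ h1
  exact h3.mul_left h3

/-- the difference of a list -/
theorem cop_xD {h : ℝ → ℝ} {P : DPar} {t n : Eis} {vs : Fin 3 → Pq} {D : ℝ} {qs : List Pq}
    (hn : P1X960.xD h P t vs D qs n ≠ 0) : IsCoprime (t * t) n := by
  by_cases h1 : sqc 1 (alL h ((List.ofFn vs ++ qs).map (Pt P t))) n = 0
  · by_cases h2 : sqc 1 (alL h ((List.ofFn (P1X960.rzD vs D) ++ qs).map (Pt P t))) n = 0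
    · exfalso
      apply hn
      unfold P1X960.xD P1X960.cmb
      rw [Pi.add_apply, Pi.smul_apply, Pi.smul_apply, h1, h2, smul_zero, smul_zero, add_zero]
    · exact cop_u h2
  · exact cop_u h1

variable {Λ : Type*} {π : Λ → DPar} {h : ℝ → ℝ}

theorem cop_eta {lam : Λ × Eis} {qs : List Pq} {n : Eis} (hn : P1v54.ηC π h lam qs n ≠ 0) :
    IsCoprime (lam.2 * lam.2) n := cop_u hn

theorem cop_alX {lam : Λ × Eis} {a : P1X960.BmX} {n : Eis} (hn : P1MU960.αX π h lam a n ≠ 0) :
    IsCoprime (lam.2 * lam.2) n := cop_xD hn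

theorem cop_alS {lam : Λ × Eis} {a : P1X960.BmX} {n : Eis} (hn : P1MU960.αS π h lam a n ≠ 0) :
    IsCoprime (lam.2 * lam.2) n := cop_u hn

end Crest.Agent.R017.CopU631
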