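import Crest.Agent.R017.CovNear_177

/-!
# Row 17, section D: the point of one corner lump `A ∈ [4/27, 1/6]` (helper744)

For 177's averaging lemma: a point of lump mass exactly `2/3` and total `5/6` with `≥ 7/2` copies
of `A`, the rest copies of a small lump `c ≤ 13/100` (`corS`) or Möbius mass (`corM`).

* light column `{A⁴ | 5/6}` (T6)
* heavy columns: `{A⁴, c}` for `2/3 - 4 A ≤ c ≤ 4/9 - 2 A`, `{A³, c²}` for `c ≥ 4/9 - 2 A`,
  `{A⁴, c^b}` for `c < 2/3 - 4 A` (T6 if `A + b c ≤ 2/9`, else 720's (C5Q), hypothesis `ExtQ`).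
-/

set_option autoImplicit false

noncomputable section

namespace Crest.Agent.R017.CorPt744

open Crest.Agent.R017.ER911 Crest.Agent.R017.Hull741 Crest.Agent.R017.CovM59
  Crest.Agent.R017.CovGlue741 Crest.Agent.R017.Cov499 Crest.Agent.R017.HC777
  Crest.Agent.R017.ExpC702 Crest.Agent.R017.CovNine358 Crest.Agent.R017.CovNear177

variable {d : ℝ} {r s rc : EF}

/-- **two columns of length `5/6`, mean lump mass `2/3`** -/
theorem pt2 {e₀ t : ℝ} (ht : 0 ≤ t) (ht3 : t ≤ 1 / 3) {N : ℕ} {w : Fin N → ℝ}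
    {n₀ n₁ : Fin N → ℕ} {x : ℝ} (hx0 : 0 ≤ x) (hx1 : x ≤ 1)
    (h0 : MCol rc e₀ (lum w n₀) (5 / 6)) (l0 : (lum w n₀).sum ≤ 5 / 6)
    (h1 : MCol rc e₀ (lum w n₁) (5 / 6)) (l1 : (lum w n₁).sum ≤ 5 / 6)
    (hm : (1 - x) * (lum w n₀).sum + x * (lum w n₁).sum = 2 / 3) :
    ((fun j => (1 - x) * (n₀ j : ℝ) + x * (n₁ j : ℝ), 0, 1 / 6 - t / 2) : Mon N) ∈
      Hull (Col rc e₀ w) := by
  have k0 : 0 ≤ 5 / 6 - (lum w n₀).sum := by linarith
  have k1 : 0 ≤ 5 / 6 - (lum w n₁).sum := by linarith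
  have g0 : 0 ≤ (1 - 3 * t) * (5 / 6 - (lum w n₀).sum) := mul_nonneg (by linarith) k0
  have g1 : 0 ≤ (1 - 3 * t) * (5 / 6 - (lum w n₁).sum) := mul_nonneg (by linarith) k1
  refine ⟨2, ![1 - x, x], ![n₀, n₁], ![0, 0],
    ![(1 - 3 * t) * (5 / 6 - (lum w n₀).sum), (1 - 3 * t) * (5 / 6 - (lum w n₁).sum)], ?_, ?_,
    ?_, ?_⟩
  · intro q
    fin_cases q
    · simpa using hx1
    · simpa using hx0
  · simp [Fin.sum_univ_two]
  · intro q
    fin_cases q
    · refine colM le_rfl g0 h0 ?_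
      show (lum w n₀).sum + 0 + (1 - 3 * t) * (5 / 6 - (lum w n₀).sum) ≤ 5 / 6
      have : 0 ≤ t * (5 / 6 - (lum w n₀).sum) := mul_nonneg ht k0
      linarith
    · refine colM le_rfl g1 h1 ?_
      show (lum w n₁).sum + 0 + (1 - 3 * t) * (5 / 6 - (lum w n₁).sum) ≤ 5 / 6
      have : 0 ≤ t * (5 / 6 - (lum w n₁).sum) := mul_nonneg ht k1
      linarith
  · refine Prod.ext ?_ (Prod.ext ?_ ?_)
    · funext j
      simp [Fin.sum_univ_two]
    · simp [Fin.sum_univ_two]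
    · simp only [Fin.sum_univ_two, Matrix.cons_val_zero, Matrix.cons_val_one]
      have : (1 - x) * ((1 - 3 * t) * (5 / 6 - (lum w n₀).sum)) +
          x * ((1 - 3 * t) * (5 / 6 - (lum w n₁).sum)) =
          (1 - 3 * t) * (5 / 6 - ((1 - x) * (lum w n₀).sum + x * (lum w n₁).sum)) := by ring
      rw [this, hm]
      ring

theorem lum2 (A c : ℝ) (n k : ℕ) :
    lum ![A, c] ![n, k] = Multiset.replicate n A + Multiset.replicate k c := by
  simp [lum, Fin.sum_univ_two]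

theorem lum2_sum (A c : ℝ) (n k : ℕ) : (lum ![A, c] ![n, k]).sum = n * A + k * c := by
  rw [lum2, Multiset.sum_add, Multiset.sum_replicate, Multiset.sum_replicate, nsmul_eq_mul,
    nsmul_eq_mul]

theorem rep4 (A : ℝ) : Multiset.replicate 4 A = {A} + ({A} + {A, A}) := by
  rw [show (4 : ℕ) = 1 + (1 + (1 + 1)) from rfl]
  simp only [Multiset.replicate_add, Multiset.replicate_one, Multiset.insert_eq_cons,
    ← Multiset.singleton_add]

theorem nn1 {A : ℝ} (hA : 0 ≤ A) : ∀ y ∈ ({A} : Multiset ℝ), 0 ≤ y := by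
  intro y hy
  rw [Multiset.mem_singleton.1 hy]; exact hA

theorem nnr {c : ℝ} (hc : 0 ≤ c) (b : ℕ) : ∀ y ∈ Multiset.replicate b c, 0 ≤ y := by
  intro y hy
  rw [Multiset.eq_of_mem_replicate hy]; exact hc

/-- `{A⁴, V | 5/6}` by (T6) -/
theorem colT (C : ExpC r rc) (R : ExpRules (7 / 8 + d) r s) (hd : 0 ≤ d) {e₀ : ℝ}
    (he : 10 / 9 * d ≤ e₀) {A : ℝ} {V : Multiset ℝ} (hA : 1 / 8 ≤ A) (hA6 : A ≤ 1 / 6)
    (hV : ∀ y ∈ V, 0 ≤ y) (hAV : A + V.sum ≤ 2 / 9) :
    MCol rc e₀ (Multiset.replicate 4 A + V) (5 / 6) := by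
  have e : Multiset.replicate 4 A + V = {A} + (({A} + V) + {A, A}) := by
    rw [rep4]; abel
  have hA0 : 0 ≤ A := by linarith
  rw [e]
  refine m6 C R hd he hA0 hA0 ?_ (nn1 hA0) (by linarith)
    (by rw [Multiset.sum_singleton]; exact hA6)
    (by rw [Multiset.sum_add, Multiset.sum_singleton]; exact hAV)
    (by rw [Multiset.sum_add, Multiset.sum_singleton]; linarith)
  intro y hy
  rcases Multiset.mem_add.1 hy with h | h
  · exact nn1 hA0 y h
  · exact hV y h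

/-- (C5V) in `MCol` form -/
theorem colC (C : ExpC r rc) (R : ExpRules (7 / 8 + d) r s) (Lv : ExpLv (7 / 8 + d) r)
    (hd : 0 ≤ d) {e₀ : ℝ} (he : d ≤ e₀) {b₁ b₂ b₃ b₄ : ℝ} {V : Multiset ℝ}
    (hV : ∀ y ∈ V, 0 ≤ y) (hV' : 6 * V.sum ≤ 1)
    (hb4 : 0 ≤ b₄) (h43 : b₄ ≤ b₃) (h32 : b₃ ≤ b₂) (h21 : b₂ ≤ b₁) (h12 : 1 ≤ 4 * (b₁ + b₂))
    (hAA : 4 * (b₁ + b₂) + 10 * b₃ + 9 * b₄ ≤ 4)
    (hBB : 18 * (b₁ + b₂) + 27 * b₃ + 45 * b₄ ≤ 16)
    (hCC : 8 * (b₁ + b₂) + 11 * b₃ + 12 * b₄ ≤ 6)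
    (hEE : 1 ≤ 2 * (b₂ + b₃) + 5 * b₄ ∨ 9 * b₃ + 6 * b₄ ≤ 2)
    (hS : 3 * (b₁ + b₂ + b₃ + b₄) ≤ 2) :
    MCol rc e₀ (V + (b₄ ::ₘ b₃ ::ₘ {b₁, b₂})) (5 / 6) := by
  have hsum : (b₄ ::ₘ b₃ ::ₘ {b₁, b₂} : Multiset ℝ).sum = b₁ + b₂ + b₃ + b₄ := by
    rw [Multiset.sum_cons, C5_720.sum_tri]; ring
  refine mcol_of C (fun y hy => ?_) fun f g hf hg hN => ?_
  · rcases Multiset.mem_add.1 hy with h | h
    · exact hV y h
    · simp only [Multiset.insert_eq_cons, Multiset.mem_cons, Multiset.mem_singleton] at h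
      rcases h with rfl | rfl | rfl | rfl <;> linarith
  · rw [Multiset.sum_add, hsum] at hN
    intro κ' h0 h1
    have := C5_720.C5V R Lv hd (κ := 1) (V := V) (m := f) (a := g) hV (by linarith)
      hb4 h43 h32 h21 (by linarith) (by linarith) (by linarith) (by linarith)
      (by rcases hEE with h | h
          · exact Or.inl (by linarith)
          · exact Or.inr (by linarith)) (by linarith) hf hg (by linarith) κ' h0 h1
    rw [Multiset.sum_add, hsum]
    linarith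

/-- 720's (C5Q) for `V = {A}`, `b = (A, A, A)` : the smallest "lump" is a multiset `Q` -/
def ExtQ (rc : EF) (e₀ : ℝ) : Prop :=
  ∀ (A : ℝ) (Q : Multiset ℝ), 4 / 27 ≤ A → A ≤ 1 / 6 → (∀ y ∈ Q, 0 ≤ y) → Q.sum ≤ A →
    18 * A + 9 * Q.sum ≤ 4 → 63 * A + 45 * Q.sum ≤ 16 → 2 / 3 ≤ 4 * A + Q.sum →
    MCol rc e₀ ({A} + (Q + {A, A, A})) (5 / 6)

/-- the weight of the heavy column -/
theorem exists_x {D z : ℝ} (hD : 0 ≤ D) (hz : D ≤ z) : ∃ x : ℝ, 0 ≤ x ∧ x ≤ 1 ∧ x * z = D ∧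
    ∀ k : ℝ, k * D ≤ z → x * k ≤ 1 := by
  rcases hD.eq_or_lt with h | h
  · exact ⟨0, le_rfl, zero_le_one, by rw [zero_mul]; exact h, fun k _ => by
      rw [zero_mul]; exact zero_le_one⟩
  · have hz0 : 0 < z := by linarith
    refine ⟨D / z, div_nonneg hD hz0.le, by rw [div_le_one hz0]; exact hz,
      div_mul_cancel₀ _ hz0.ne', fun k hk => ?_⟩
    rw [div_mul_eq_mul_div, div_le_one hz0]
    linarith

/-- **the point of a corner lump, small lumps `c`** -/
theorem corS (C : ExpC r rc) (R : ExpRules (7 / 8 + d) r s) (Lv : ExpLv (7 / 8 + d) r)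
    (hd : 0 ≤ d) {e₀ t : ℝ} (he : 10 / 9 * d ≤ e₀) (hX : ExtQ rc e₀) (ht : 0 ≤ t)
    (ht3 : t ≤ 1 / 3) {A c : ℝ} (hA : 4 / 27 ≤ A) (hA6 : A ≤ 1 / 6) (hc : 0 < c)
    (hc1 : c ≤ 13 / 100) : PtS rc e₀ t (7 / 2) A c := by
  have hA0 : 0 ≤ A := by linarith
  -- the light column
  have L4 : MCol rc e₀ (lum ![A, c] ![4, 0]) (5 / 6) := by
    rw [lum2, Multiset.replicate_zero]
    exact colT C R hd he (by linarith) hA6 (by simp)
      (by rw [Multiset.sum_zero]; linarith)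
  have s4 : (lum ![A, c] ![4, 0]).sum = 4 * A := by
    rw [lum2_sum]; push_cast; ring
  -- from a heavy column
  have key : ∀ (p q : ℕ), p ≤ 4 → MCol rc e₀ (lum ![A, c] ![p, q]) (5 / 6) →
      (p : ℝ) * A + q * c ≤ 5 / 6 → 2 / 3 ≤ (p : ℝ) * A + q * c →
      2 * (4 - (p : ℝ)) * (2 / 3 - 4 * A) ≤ (p : ℝ) * A + q * c - 4 * A →
      PtS rc e₀ t (7 / 2) A c := by
    intro p q hp4 hcol hl hm hpx
    obtain ⟨x, hx0, hx1, hx, hxk⟩ := exists_x (D := 2 / 3 - 4 * A)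
      (z := (p : ℝ) * A + q * c - 4 * A) (by linarith) (by linarith)
    have hp4' : (p : ℝ) ≤ 4 := by exact_mod_cast hp4
    have hxp := hxk _ hpx
    have hxp0 : 0 ≤ x * (4 - p) := mul_nonneg hx0 (by linarith)
    refine ⟨4 - x * (4 - p), by linarith, ?_, ?_⟩
    · have : 0 ≤ x * (4 - p) * A := mul_nonneg hxp0 hA0
      linarith
    · have h := pt2 ht ht3 hx0 hx1 L4 (by rw [s4]; linarith) hcol (by rw [lum2_sum]; exact hl)
        (by rw [s4, lum2_sum]; linarith)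
      refine (congrArg (· ∈ Hull (Col rc e₀ ![A, c])) ?_).mp h
      refine Prod.ext ?_ rfl
      funext j
      fin_cases j
      · simp
        ring
      · simp
        rw [eq_div_iff hc.ne']
        linarith
  rcases le_or_gt (4 / 9 - 2 * A) c with h2 | h2
  · -- `{A³, c²}`
    refine key 3 2 (by norm_num) ?_ (by push_cast; linarith) (by push_cast; linarith)
      (by push_cast; linarith)
    have e : lum ![A, c] ![3, 2] = {A} + (c ::ₘ c ::ₘ {A, A}) := by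
      rw [lum2, show (3 : ℕ) = 1 + (1 + 1) from rfl, show (2 : ℕ) = 1 + 1 from rfl]
      simp only [Multiset.replicate_add, Multiset.replicate_one, Multiset.insert_eq_cons,
        ← Multiset.singleton_add]
      abel
    rw [e]
    exact colC C R Lv hd (by linarith) (nn1 hA0) (by rw [Multiset.sum_singleton]; linarith)
      hc.le le_rfl (by linarith) le_rfl (by linarith) (by linarith) (by linarith) (by linarith)
      (Or.inl (by linarith)) (by linarith)
  rcases le_or_gt (2 / 3 - 4 * A) c with h1 | h1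
  · -- `{A⁴, c}`
    refine key 4 1 le_rfl ?_ (by push_cast; linarith) (by push_cast; linarith)
      (by push_cast; linarith)
    have e : lum ![A, c] ![4, 1] = {A} + (c ::ₘ A ::ₘ {A, A}) := by
      rw [lum2, rep4, Multiset.replicate_one]
      simp only [Multiset.insert_eq_cons, ← Multiset.singleton_add]
      abel
    rw [e]
    refine colC C R Lv hd (by linarith) (nn1 hA0) (by rw [Multiset.sum_singleton]; linarith)
      hc.le (by linarith) le_rfl le_rfl (by linarith) (by linarith) (by linarith) (by linarith)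
      ?_ (by linarith)
    rcases le_total (1 - 4 * A) (5 * c) with h | h
    · exact Or.inl (by linarith)
    · exact Or.inr (by linarith)
  · -- `{A⁴, c^b}`
    obtain ⟨b, hb⟩ : ∃ b : ℕ, b = ⌈(2 / 3 - 4 * A) / c⌉₊ := ⟨_, rfl⟩
    have hb1 : 2 / 3 - 4 * A ≤ b * c := by
      have := Nat.le_ceil ((2 / 3 - 4 * A) / c)
      rw [← hb, div_le_iff₀ hc] at this
      exact this
    have hb2 : (b : ℝ) * c ≤ 2 * (2 / 3 - 4 * A) := by
      have h3 : 0 ≤ (2 / 3 - 4 * A) / c := div_nonneg (by linarith) hc.le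
      have := (Nat.ceil_lt_add_one h3).le
      rw [← hb] at this
      have h4 := mul_le_mul_of_nonneg_right this hc.le
      rw [add_mul, div_mul_cancel₀ _ hc.ne'] at h4
      linarith
    have hbs : (Multiset.replicate b c).sum = b * c := by
      rw [Multiset.sum_replicate, nsmul_eq_mul]
    refine key 4 b le_rfl ?_ (by push_cast; linarith) (by push_cast; linarith)
      (by push_cast; linarith)
    have e : lum ![A, c] ![4, b] = {A} + (Multiset.replicate b c + {A, A, A}) := by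
      rw [lum2, rep4]
      simp only [Multiset.insert_eq_cons, ← Multiset.singleton_add]
      abel
    rw [e]
    exact hX A _ hA hA6 (nnr hc.le b) (by rw [hbs]; linarith) (by rw [hbs]; linarith)
      (by rw [hbs]; linarith) (by rw [hbs]; linarith)

/-- **the point of a corner lump, Möbius mass** -/
theorem corM (C : ExpC r rc) (R : ExpRules (7 / 8 + d) r s) (hd : 0 ≤ d) {e₀ t : ℝ}
    (he : 10 / 9 * d ≤ e₀) (ht : 0 ≤ t) (ht3 : t ≤ 1 / 3) {A : ℝ} (hA : 4 / 27 ≤ A)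
    (hA6 : A ≤ 1 / 6) : PtM rc e₀ t 4 A := by
  refine ⟨4, le_rfl, by linarith, ?_⟩
  have e : lum (fun _ : Fin 1 => A) (fun _ => 4) = Multiset.replicate 4 A + 0 := by
    simp [lum]
  have h := subset_hull (colM (rc := rc) (e₀ := e₀) (w := fun _ : Fin 1 => A)
    (n := fun _ => 4) (M := 2 / 3 - 4 * A) (G := 1 / 6 - t / 2) (N := 5 / 6) (by linarith)
    (by linarith)
    (by rw [e]; exact colT C R hd he (by linarith) hA6 (by simp)
          (by rw [Multiset.sum_zero]; linarith))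
    (by rw [lum_sum]; simp; linarith))
  refine (congrArg (· ∈ Hull (Col rc e₀ (fun _ : Fin 1 => A))) ?_).mp h
  unfold pt
  refine Prod.ext ?_ rfl
  funext j
  norm_num

end Crest.Agent.R017.CorPt744
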