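import Crest.Agent.R017.Cov5_325

/-!
# Row 17, hcore : three and four big lumps (helper325)

`k = 3` : `{u₀ | chunks} , {u₁, u₂ | chunks}`, region `1/2 ≤ u₀`, `2/9 ≤ u₁`.
`k = 4` : `{u₀, u₃ | chunks} , {u₁, u₂ | chunks}`, region `1/3 ≤ u₀`, `2/9 ≤ u₁`, and
`2/3 ≤ u₀`.
-/

set_option autoImplicit false

namespace Crest.Agent.R017.Cov34_325

open Crest.Agent.R017.Cov499 Crest.Agent.R017.Cov5_325

/-- two columns of weight `1/2` -/
theorem cov_one {k : ℕ} {u : Fin k → ℝ} {v : ℝ} {n n' : Fin k → ℕ} (hn : ∀ j, n j + n' j = 1)
    {t t' : ℕ} {N N' : ℝ} (c1 : Col0 v (lum u n) t N) (c2 : Col0 v (lum u n') t' N')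
    (hN : 5 / 3 ≤ N + N') (hS : 4 / 3 ≤ (∑ j, u j) + ((t + t' : ℕ) : ℝ) * v) : Cov0 u v := by
  push_cast at hS
  refine ⟨2, ![1 / 2, 1 / 2], ![n, n'], ![t, t'], ![N, N'], ?_, ?_, ?_, ?_, ?_, ?_⟩
  · intro q; fin_cases q <;> norm_num
  · intro j
    have h : ((n j : ℝ) + (n' j : ℝ)) = 1 := by exact_mod_cast hn j
    simp only [Fin.sum_univ_two, Matrix.cons_val_zero, Matrix.cons_val_one]
    linarith
  · intro q
    fin_cases q
    · exact c1
    · exact c2
  · simp [Fin.sum_univ_two]; norm_num
  · unfold R₁
    simp only [Fin.sum_univ_two, Matrix.cons_val_zero, Matrix.cons_val_one]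
    nlinarith
  · have : min (R₁ u v ![1 / 2, 1 / 2] ![t, t'])
        (1 - ∑ q, (![1 / 2, 1 / 2] : Fin 2 → ℝ) q) ≤ 0 := by
      refine (min_le_right _ _).trans ?_
      simp [Fin.sum_univ_two]; norm_num
    simp only [Fin.sum_univ_two, Matrix.cons_val_zero, Matrix.cons_val_one] at this ⊢
    linarith

/-- four columns of weight `1/4` -/
theorem cov_two {k : ℕ} {u : Fin k → ℝ} {v : ℝ} {n₁ n₂ n₃ n₄ : Fin k → ℕ}
    (hn : ∀ j, n₁ j + n₂ j + n₃ j + n₄ j = 2) {t₁ t₂ t₃ t₄ : ℕ} {N₁ N₂ N₃ N₄ : ℝ}
    (c1 : Col0 v (lum u n₁) t₁ N₁) (c2 : Col0 v (lum u n₂) t₂ N₂) (c3 : Col0 v (lum u n₃) t₃ N₃)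
    (c4 : Col0 v (lum u n₄) t₄ N₄) (hN : 10 / 3 ≤ N₁ + N₂ + N₃ + N₄)
    (hS : 4 / 3 ≤ (∑ j, u j) + ((t₁ + t₂ + t₃ + t₄ : ℕ) : ℝ) / 2 * v) : Cov0 u v := by
  push_cast at hS
  refine ⟨4, ![1 / 4, 1 / 4, 1 / 4, 1 / 4], ![n₁, n₂, n₃, n₄], ![t₁, t₂, t₃, t₄],
    ![N₁, N₂, N₃, N₄], ?_, ?_, ?_, ?_, ?_, ?_⟩
  · intro q; fin_cases q <;> norm_num
  · intro j
    have h : ((n₁ j : ℝ) + (n₂ j : ℝ) + (n₃ j : ℝ) + (n₄ j : ℝ)) = 2 := by exact_mod_cast hn j
    simp only [Fin.sum_univ_four, Matrix.cons_val_zero, Matrix.cons_val_one, Matrix.cons_val]
    linarith
  · intro q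
    fin_cases q
    · exact c1
    · exact c2
    · exact c3
    · exact c4
  · simp [Fin.sum_univ_four]; norm_num
  · unfold R₁
    simp only [Fin.sum_univ_four, Matrix.cons_val_zero, Matrix.cons_val_one, Matrix.cons_val]
    nlinarith
  · have : min (R₁ u v ![1 / 4, 1 / 4, 1 / 4, 1 / 4] ![t₁, t₂, t₃, t₄])
        (1 - ∑ q, (![1 / 4, 1 / 4, 1 / 4, 1 / 4] : Fin 4 → ℝ) q) ≤ 0 := by
      refine (min_le_right _ _).trans ?_
      simp [Fin.sum_univ_four]; norm_num
    simp only [Fin.sum_univ_four, Matrix.cons_val_zero, Matrix.cons_val_one,
      Matrix.cons_val] at this ⊢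
    linarith

/-- a pair of lumps -/
theorem PC.pair {y₁ y₂ v N : ℝ} {t : ℕ} (h0 : 1 / 4 ≤ y₁ + y₂) (h : PC (y₁ + y₂) v t N) :
    Col0 v {y₁, y₂} t N := by
  cases h with
  | mk a b A B _ hA hB h1 h2 h3 h4 h5 =>
    subst hA; subst hB
    have := Col0.t6 (v := v) y₁ y₂ 0 0 a b N h0 (by simpa using h1) (by simpa using h2) h3
      (by simpa using h4) (by simpa using h5)
    simpa using this

/-- columns `{y}` with `a` chunks in `Z`, `b` chunks in `X` -/
inductive SC (y v : ℝ) : ℕ → ℝ → Prop
  | mk (a b : ℕ) (A B N : ℝ) (hA : (a : ℝ) = A) (hB : (b : ℝ) = B)
      (h1 : N + B * v ≤ 1) (h2 : N + 3 / 4 * (A * v) ≤ 1) (h3 : N ≤ 7 / 9 + 2 / 9 * y)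
      (h4 : y + 5 / 2 * (A * v) ≤ 1) (h5 : y + (A + B) * v ≤ N)
      (h0 : 4 * N ≤ 8 / 3 + 8 / 3 * y) : SC y v (a + b) N

/-- one lump -/
theorem SC.single {y v N : ℝ} {t : ℕ} (h : SC y v t N) : Col0 v {y} t N := by
  cases h with
  | mk a b A B _ hA hB h1 h2 h3 h4 h5 h0 =>
    subst hA; subst hB
    have := Col0.t6s (v := v) y 0 0 a b N h0 (by simpa using h1) (by simpa using h2) h3
      (by simpa using h4) (by simpa using h5)
    simpa using this

/-- leaves, `k = 3` -/
inductive G3 (a b v : ℝ) : Prop
  | one (t t' : ℕ) (N N' T : ℝ) (hP : SC a v t N) (hQ : PC b v t' N')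
      (hT : (((t + t' : ℕ) : ℝ)) = T) (hN : 5 / 3 ≤ N + N') (hS : 4 / 3 ≤ a + b + T * v)

/-- leaves, `k = 4` -/
inductive G4 (a b v : ℝ) : Prop
  | one (t t' : ℕ) (N N' T : ℝ) (hP : PC a v t N) (hQ : PC b v t' N')
      (hT : (((t + t' : ℕ) : ℝ)) = T) (hN : 5 / 3 ≤ N + N') (hS : 4 / 3 ≤ a + b + T * v)
  | two (t₁ t₂ t₃ t₄ : ℕ) (N₁ N₂ N₃ N₄ T : ℝ) (hP₁ : PC a v t₁ N₁) (hP₂ : PC a v t₂ N₂)
      (hQ₁ : PC b v t₃ N₃) (hQ₂ : PC b v t₄ N₄) (hT : (((t₁ + t₂ + t₃ + t₄ : ℕ) : ℝ)) = T)
      (hN : 10 / 3 ≤ N₁ + N₂ + N₃ + N₄) (hS : 4 / 3 ≤ a + b + T / 2 * v)

theorem G3.cov {u : Fin 3 → ℝ} {v : ℝ} (h12 : 1 / 4 ≤ u 1 + u 2)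
    (h : G3 (u 0) (u 1 + u 2) v) : Cov0 u v := by
  have hs : (∑ j, u j) = u 0 + (u 1 + u 2) := by rw [Fin.sum_univ_three]; ring
  have e1 : lum u ![1, 0, 0] = {u 0} := by simp [lum, Fin.sum_univ_three]
  have e2 : lum u ![0, 1, 1] = {u 1, u 2} := by
    simp [lum, Fin.sum_univ_three, Multiset.singleton_add]
  cases h with
  | one t t' N N' T hP hQ hT hN hS =>
    refine cov_one (n := ![1, 0, 0]) (n' := ![0, 1, 1]) (by decide) (t := t) (t' := t')
      (N := N) (N' := N') ?_ ?_ hN ?_
    · rw [e1]; exact hP.single
    · rw [e2]; exact PC.pair h12 hQ
    · rw [hs, hT]; exact hS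

theorem G4.cov {u : Fin 4 → ℝ} {v : ℝ} (h03 : 1 / 4 ≤ u 0 + u 3) (h12 : 1 / 4 ≤ u 1 + u 2)
    (h : G4 (u 0 + u 3) (u 1 + u 2) v) : Cov0 u v := by
  have hs : (∑ j, u j) = u 0 + u 3 + (u 1 + u 2) := by rw [Fin.sum_univ_four]; ring
  have e1 : lum u ![1, 0, 0, 1] = {u 0, u 3} := by
    simp [lum, Fin.sum_univ_four, Multiset.singleton_add]
  have e2 : lum u ![0, 1, 1, 0] = {u 1, u 2} := by
    simp [lum, Fin.sum_univ_four, Multiset.singleton_add]
  cases h with
  | one t t' N N' T hP hQ hT hN hS =>
    refine cov_one (n := ![1, 0, 0, 1]) (n' := ![0, 1, 1, 0]) (by decide) (t := t) (t' := t')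
      (N := N) (N' := N') ?_ ?_ hN ?_
    · rw [e1]; exact PC.pair h03 hP
    · rw [e2]; exact PC.pair h12 hQ
    · rw [hs, hT]; exact hS
  | two t₁ t₂ t₃ t₄ N₁ N₂ N₃ N₄ T hP₁ hP₂ hQ₁ hQ₂ hT hN hS =>
    refine cov_two (n₁ := ![1, 0, 0, 1]) (n₂ := ![1, 0, 0, 1]) (n₃ := ![0, 1, 1, 0])
      (n₄ := ![0, 1, 1, 0]) (by decide) (t₁ := t₁) (t₂ := t₂) (t₃ := t₃) (t₄ := t₄)
      (N₁ := N₁) (N₂ := N₂) (N₃ := N₃) (N₄ := N₄) ?_ ?_ ?_ ?_ hN ?_
    · rw [e1]; exact PC.pair h03 hP₁
    · rw [e1]; exact PC.pair h03 hP₂
    · rw [e2]; exact PC.pair h12 hQ₁
    · rw [e2]; exact PC.pair h12 hQ₂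
    · rw [hs, hT]; exact hS

set_option maxHeartbeats 4000000 in
theorem tree3A {a b v : ℝ} (d1 : 1 / 2 ≤ a) (d2 : 317 / 900 ≤ b) (d3 : a + b ≤ 4 / 3)
    (d4 : a ≤ 5 / 6) (d5 : 7 / 200 ≤ v) (d6 : v ≤ 7 / 100) : G3 a b v := by
  rcases le_total 0 (a + b + (3)*v + (-4/3)) with h | h
  · rcases le_total 0 ((-1)*b + (-6)*v + (1)) with h | h
    · rcases le_total 0 ((2/9)*b + (3)*v + (-2/9)) with h | h
      · exact .one _ _ _ _ 3
            (.mk 0 0 0 0 ((2/9)*a + (7/9)) (by norm_num) (by norm_num) (by linarith) (by linarith) (by linarith) (by linarith) (by linarith) (by linarith))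
            (.mk 0 3 0 3 ((-3)*v + (1)) (by norm_num) (by norm_num) (by linarith) (by linarith) (by linarith) (by linarith) (by linarith))
            (by norm_num) (by linarith) (by linarith)
      · exact .one _ _ _ _ 5
            (.mk 0 0 0 0 ((2/9)*a + (7/9)) (by norm_num) (by norm_num) (by linarith) (by linarith) (by linarith) (by linarith) (by linarith) (by linarith))
            (.mk 0 5 0 5 ((-5)*v + (1)) (by norm_num) (by norm_num) (by linarith) (by linarith) (by linarith) (by linarith) (by linarith))
            (by norm_num) (by linarith) (by linarith)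
    · rcases le_total 0 ((-1)*b + (-4)*v + (1)) with h | h
      · exact .one _ _ _ _ 3
            (.mk 1 0 1 0 ((2/9)*a + (7/9)) (by norm_num) (by norm_num) (by linarith) (by linarith) (by linarith) (by linarith) (by linarith) (by linarith))
            (.mk 0 2 0 2 ((-2)*v + (1)) (by norm_num) (by norm_num) (by linarith) (by linarith) (by linarith) (by linarith) (by linarith))
            (by norm_num) (by linarith) (by linarith)
      · exact .one _ _ _ _ 2
            (.mk 1 1 1 1 ((2/9)*a + (7/9)) (by norm_num) (by norm_num) (by linarith) (by linarith) (by linarith) (by linarith) (by linarith) (by linarith))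
            (.mk 0 0 0 0 ((2/9)*b + (7/9)) (by norm_num) (by norm_num) (by linarith) (by linarith) (by linarith) (by linarith) (by linarith))
            (by norm_num) (by linarith) (by linarith)
  · rcases le_total 0 (a + b + (5)*v + (-4/3)) with h | h
    · rcases le_total 0 ((-1)*b + (-8)*v + (1)) with h | h
      · rcases le_total 0 ((2/9)*b + (3)*v + (-2/9)) with h | h
        · exact .one _ _ _ _ 5
              (.mk 0 0 0 0 ((2/9)*a + (7/9)) (by norm_num) (by norm_num) (by linarith) (by linarith) (by linarith) (by linarith) (by linarith) (by linarith))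
              (.mk 2 3 2 3 ((-3)*v + (1)) (by norm_num) (by norm_num) (by linarith) (by linarith) (by linarith) (by linarith) (by linarith))
              (by norm_num) (by linarith) (by linarith)
        · exact .one _ _ _ _ 6
              (.mk 0 0 0 0 ((2/9)*a + (7/9)) (by norm_num) (by norm_num) (by linarith) (by linarith) (by linarith) (by linarith) (by linarith) (by linarith))
              (.mk 1 5 1 5 ((-5)*v + (1)) (by norm_num) (by norm_num) (by linarith) (by linarith) (by linarith) (by linarith) (by linarith))
              (by norm_num) (by linarith) (by linarith)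
      · exact .one _ _ _ _ 5
            (.mk 1 1 1 1 ((2/9)*a + (7/9)) (by norm_num) (by norm_num) (by linarith) (by linarith) (by linarith) (by linarith) (by linarith) (by linarith))
            (.mk 1 2 1 2 ((-2)*v + (1)) (by norm_num) (by norm_num) (by linarith) (by linarith) (by linarith) (by linarith) (by linarith))
            (by norm_num) (by linarith) (by linarith)
    · rcases le_total 0 (a + b + (7)*v + (-4/3)) with h | h
      · rcases le_total 0 ((2/9)*b + (3)*v + (-2/9)) with h | h
        · rcases le_total 0 ((-1)*b + (-8)*v + (1)) with h | h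
          · exact .one _ _ _ _ 7
                (.mk 1 1 1 1 ((2/9)*a + (7/9)) (by norm_num) (by norm_num) (by linarith) (by linarith) (by linarith) (by linarith) (by linarith) (by linarith))
                (.mk 2 3 2 3 ((-3)*v + (1)) (by norm_num) (by norm_num) (by linarith) (by linarith) (by linarith) (by linarith) (by linarith))
                (by norm_num) (by linarith) (by linarith)
          · exact .one _ _ _ _ 6
                (.mk 1 1 1 1 ((2/9)*a + (7/9)) (by norm_num) (by norm_num) (by linarith) (by linarith) (by linarith) (by linarith) (by linarith) (by linarith))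
                (.mk 1 3 1 3 ((-3)*v + (1)) (by norm_num) (by norm_num) (by linarith) (by linarith) (by linarith) (by linarith) (by linarith))
                (by norm_num) (by linarith) (by linarith)
        · exact .one _ _ _ _ 8
              (.mk 0 0 0 0 ((2/9)*a + (7/9)) (by norm_num) (by norm_num) (by linarith) (by linarith) (by linarith) (by linarith) (by linarith) (by linarith))
              (.mk 3 5 3 5 ((-5)*v + (1)) (by norm_num) (by norm_num) (by linarith) (by linarith) (by linarith) (by linarith) (by linarith))
              (by norm_num) (by linarith) (by linarith)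
      · rcases le_total 0 (a + b + (9)*v + (-4/3)) with h | h
        · rcases le_total 0 ((2/9)*b + (3)*v + (-2/9)) with h | h
          · exact .one _ _ _ _ 9
                (.mk 2 1 2 1 ((2/9)*a + (7/9)) (by norm_num) (by norm_num) (by linarith) (by linarith) (by linarith) (by linarith) (by linarith) (by linarith))
                (.mk 3 3 3 3 ((-3)*v + (1)) (by norm_num) (by norm_num) (by linarith) (by linarith) (by linarith) (by linarith) (by linarith))
                (by norm_num) (by linarith) (by linarith)
          · exact .one _ _ _ _ 9
                (.mk 1 1 1 1 ((2/9)*a + (7/9)) (by norm_num) (by norm_num) (by linarith) (by linarith) (by linarith) (by linarith) (by linarith) (by linarith))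
                (.mk 4 3 4 3 ((2/9)*b + (7/9)) (by norm_num) (by norm_num) (by linarith) (by linarith) (by linarith) (by linarith) (by linarith))
                (by norm_num) (by linarith) (by linarith)
        · rcases le_total 0 (a + b + (11)*v + (-4/3)) with h | h
          · rcases le_total 0 ((2/9)*b + (4)*v + (-2/9)) with h | h
            · exact .one _ _ _ _ 11
                  (.mk 2 1 2 1 ((2/9)*a + (7/9)) (by norm_num) (by norm_num) (by linarith) (by linarith) (by linarith) (by linarith) (by linarith) (by linarith))
                  (.mk 4 4 4 4 ((-4)*v + (1)) (by norm_num) (by norm_num) (by linarith) (by linarith) (by linarith) (by linarith) (by linarith))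
                  (by norm_num) (by linarith) (by linarith)
            · exact .one _ _ _ _ 12
                  (.mk 0 1 0 1 ((2/9)*a + (7/9)) (by norm_num) (by norm_num) (by linarith) (by linarith) (by linarith) (by linarith) (by linarith) (by linarith))
                  (.mk 5 6 5 6 ((-6)*v + (1)) (by norm_num) (by norm_num) (by linarith) (by linarith) (by linarith) (by linarith) (by linarith))
                  (by norm_num) (by linarith) (by linarith)
          · exact .one _ _ _ _ 14
                (.mk 3 4 3 4 ((-4)*v + (1)) (by norm_num) (by norm_num) (by linarith) (by linarith) (by linarith) (by linarith) (by linarith) (by linarith))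
                (.mk 4 3 4 3 ((2/9)*b + (7/9)) (by norm_num) (by norm_num) (by linarith) (by linarith) (by linarith) (by linarith) (by linarith))
                (by norm_num) (by linarith) (by linarith)

set_option maxHeartbeats 4000000 in
theorem tree3B {a b v : ℝ} (d1 : 1 / 2 ≤ a) (d2 : 317 / 900 ≤ b) (d3 : a + b + v ≤ 4 / 3)
    (d4 : a ≤ 5 / 6) (d5 : 7 / 100 ≤ v) (d6 : v ≤ 13 / 100) : G3 a b v := by
  rcases le_total 0 ((-1)*b + (-5)*v + (1)) with h | h
  · rcases le_total 0 (a + b + (3)*v + (-4/3)) with h | h
    · rcases le_total 0 ((2/9)*b + (3/2)*v + (-2/9)) with h | h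
      · exact .one _ _ _ _ 3
            (.mk 0 0 0 0 ((2/9)*a + (7/9)) (by norm_num) (by norm_num) (by linarith) (by linarith) (by linarith) (by linarith) (by linarith) (by linarith))
            (.mk 2 1 2 1 ((-3/2)*v + (1)) (by norm_num) (by norm_num) (by linarith) (by linarith) (by linarith) (by linarith) (by linarith))
            (by norm_num) (by linarith) (by linarith)
      · exact .one _ _ _ _ 3
            (.mk 0 0 0 0 ((2/9)*a + (7/9)) (by norm_num) (by norm_num) (by linarith) (by linarith) (by linarith) (by linarith) (by linarith) (by linarith))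
            (.mk 2 1 2 1 ((2/9)*b + (7/9)) (by norm_num) (by norm_num) (by linarith) (by linarith) (by linarith) (by linarith) (by linarith))
            (by norm_num) (by linarith) (by linarith)
    · rcases le_total 0 (a + b + (4)*v + (-4/3)) with h | h
      · rcases le_total 0 ((2/9)*b + (-2)*v + (1/9)) with h | h
        · rcases le_total 0 ((-1)*a + (-4)*v + (1)) with h | h
          · exact .one _ _ _ _ 4
                (.mk 0 2 0 2 ((-2)*v + (1)) (by norm_num) (by norm_num) (by linarith) (by linarith) (by linarith) (by linarith) (by linarith) (by linarith))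
                (.mk 1 1 1 1 ((2/9)*b + (7/9)) (by norm_num) (by norm_num) (by linarith) (by linarith) (by linarith) (by linarith) (by linarith))
                (by norm_num) (by linarith) (by linarith)
          · exact .one _ _ _ _ 4
                (.mk 1 1 1 1 ((-1)*v + (1)) (by norm_num) (by norm_num) (by linarith) (by linarith) (by linarith) (by linarith) (by linarith) (by linarith))
                (.mk 1 1 1 1 ((2/9)*b + (7/9)) (by norm_num) (by norm_num) (by linarith) (by linarith) (by linarith) (by linarith) (by linarith))
                (by norm_num) (by linarith) (by linarith)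
        · rcases le_total 0 ((2/9)*a + v + (-2/9)) with h | h
          · exact .one _ _ _ _ 4
                (.mk 1 1 1 1 ((-1)*v + (1)) (by norm_num) (by norm_num) (by linarith) (by linarith) (by linarith) (by linarith) (by linarith) (by linarith))
                (.mk 1 1 1 1 ((2/9)*b + (7/9)) (by norm_num) (by norm_num) (by linarith) (by linarith) (by linarith) (by linarith) (by linarith))
                (by norm_num) (by linarith) (by linarith)
          · exact .one _ _ _ _ 4
                (.mk 1 0 1 0 ((2/9)*a + (7/9)) (by norm_num) (by norm_num) (by linarith) (by linarith) (by linarith) (by linarith) (by linarith) (by linarith))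
                (.mk 2 1 2 1 ((-3/2)*v + (1)) (by norm_num) (by norm_num) (by linarith) (by linarith) (by linarith) (by linarith) (by linarith))
                (by norm_num) (by linarith) (by linarith)
      · rcases le_total 0 (a + b + (5)*v + (-4/3)) with h | h
        · rcases le_total 0 ((-1)*a + (-5)*v + (1)) with h | h
          · rcases le_total 0 ((2/9)*b + (-2)*v + (1/9)) with h | h
            · exact .one _ _ _ _ 5
                  (.mk 1 2 1 2 ((-2)*v + (1)) (by norm_num) (by norm_num) (by linarith) (by linarith) (by linarith) (by linarith) (by linarith) (by linarith))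
                  (.mk 1 1 1 1 ((2/9)*b + (7/9)) (by norm_num) (by norm_num) (by linarith) (by linarith) (by linarith) (by linarith) (by linarith))
                  (by norm_num) (by linarith) (by linarith)
            · exact .one _ _ _ _ 5
                  (.mk 1 0 1 0 ((2/9)*a + (7/9)) (by norm_num) (by norm_num) (by linarith) (by linarith) (by linarith) (by linarith) (by linarith) (by linarith))
                  (.mk 2 2 2 2 ((-2)*v + (1)) (by norm_num) (by norm_num) (by linarith) (by linarith) (by linarith) (by linarith) (by linarith))
                  (by norm_num) (by linarith) (by linarith)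
          · rcases le_total 0 ((-2/9)*b + (-3/2)*v + (2/9)) with h | h
            · rcases le_total 0 ((2/9)*b + (2)*v + (-2/9)) with h | h
              · exact .one _ _ _ _ 5
                    (.mk 1 0 1 0 ((2/9)*a + (7/9)) (by norm_num) (by norm_num) (by linarith) (by linarith) (by linarith) (by linarith) (by linarith) (by linarith))
                    (.mk 2 2 2 2 ((-2)*v + (1)) (by norm_num) (by norm_num) (by linarith) (by linarith) (by linarith) (by linarith) (by linarith))
                    (by norm_num) (by linarith) (by linarith)
              · exact .one _ _ _ _ 5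
                    (.mk 0 0 0 0 ((2/9)*a + (7/9)) (by norm_num) (by norm_num) (by linarith) (by linarith) (by linarith) (by linarith) (by linarith) (by linarith))
                    (.mk 2 3 2 3 ((-3)*v + (1)) (by norm_num) (by norm_num) (by linarith) (by linarith) (by linarith) (by linarith) (by linarith))
                    (by norm_num) (by linarith) (by linarith)
            · rcases le_total 0 ((-2/9)*a + (-1)*v + (2/9)) with h | h
              · exact .one _ _ _ _ 5
                    (.mk 1 1 1 1 ((2/9)*a + (7/9)) (by norm_num) (by norm_num) (by linarith) (by linarith) (by linarith) (by linarith) (by linarith) (by linarith))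
                    (.mk 2 1 2 1 ((-3/2)*v + (1)) (by norm_num) (by norm_num) (by linarith) (by linarith) (by linarith) (by linarith) (by linarith))
                    (by norm_num) (by linarith) (by linarith)
              · exact .one _ _ _ _ 5
                    (.mk 1 1 1 1 ((-1)*v + (1)) (by norm_num) (by norm_num) (by linarith) (by linarith) (by linarith) (by linarith) (by linarith) (by linarith))
                    (.mk 2 1 2 1 ((-3/2)*v + (1)) (by norm_num) (by norm_num) (by linarith) (by linarith) (by linarith) (by linarith) (by linarith))
                    (by norm_num) (by linarith) (by linarith)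
        · rcases le_total 0 (a + b + (6)*v + (-4/3)) with h | h
          · rcases le_total 0 ((-1)*b + (-15/2)*v + (1)) with h | h
            · exact .one _ _ _ _ 6
                  (.mk 1 1 1 1 ((2/9)*a + (7/9)) (by norm_num) (by norm_num) (by linarith) (by linarith) (by linarith) (by linarith) (by linarith) (by linarith))
                  (.mk 3 1 3 1 ((-9/4)*v + (1)) (by norm_num) (by norm_num) (by linarith) (by linarith) (by linarith) (by linarith) (by linarith))
                  (by norm_num) (by linarith) (by linarith)
            · exact .one _ _ _ _ 6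
                  (.mk 1 1 1 1 ((2/9)*a + (7/9)) (by norm_num) (by norm_num) (by linarith) (by linarith) (by linarith) (by linarith) (by linarith) (by linarith))
                  (.mk 2 2 2 2 ((-2)*v + (1)) (by norm_num) (by norm_num) (by linarith) (by linarith) (by linarith) (by linarith) (by linarith))
                  (by norm_num) (by linarith) (by linarith)
          · exact .one _ _ _ _ 7
                (.mk 2 2 2 2 ((-2)*v + (1)) (by norm_num) (by norm_num) (by linarith) (by linarith) (by linarith) (by linarith) (by linarith) (by linarith))
                (.mk 2 1 2 1 ((2/9)*b + (7/9)) (by norm_num) (by norm_num) (by linarith) (by linarith) (by linarith) (by linarith) (by linarith))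
                (by norm_num) (by linarith) (by linarith)
  · rcases le_total 0 ((-1)*b + (-4)*v + (1)) with h | h
    · rcases le_total 0 (a + b + (2)*v + (-4/3)) with h | h
      · rcases le_total 0 ((2/9)*a + (-2)*v + (1/9)) with h | h
        · exact .one _ _ _ _ 2
              (.mk 0 0 0 0 ((2/9)*a + (7/9)) (by norm_num) (by norm_num) (by linarith) (by linarith) (by linarith) (by linarith) (by linarith) (by linarith))
              (.mk 0 2 0 2 ((-2)*v + (1)) (by norm_num) (by norm_num) (by linarith) (by linarith) (by linarith) (by linarith) (by linarith))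
              (by norm_num) (by linarith) (by linarith)
        · exact .one _ _ _ _ 2
              (.mk 0 1 0 1 ((-1)*v + (1)) (by norm_num) (by norm_num) (by linarith) (by linarith) (by linarith) (by linarith) (by linarith) (by linarith))
              (.mk 1 0 1 0 ((2/9)*b + (7/9)) (by norm_num) (by norm_num) (by linarith) (by linarith) (by linarith) (by linarith) (by linarith))
              (by norm_num) (by linarith) (by linarith)
      · rcases le_total 0 (a + b + (3)*v + (-4/3)) with h | h
        · rcases le_total 0 ((2/9)*a + v + (-2/9)) with h | h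
          · rcases le_total 0 ((-2/9)*b + (-1)*v + (2/9)) with h | h
            · exact .one _ _ _ _ 3
                  (.mk 0 1 0 1 ((-1)*v + (1)) (by norm_num) (by norm_num) (by linarith) (by linarith) (by linarith) (by linarith) (by linarith) (by linarith))
                  (.mk 1 1 1 1 ((2/9)*b + (7/9)) (by norm_num) (by norm_num) (by linarith) (by linarith) (by linarith) (by linarith) (by linarith))
                  (by norm_num) (by linarith) (by linarith)
            · exact .one _ _ _ _ 3
                  (.mk 0 1 0 1 ((-1)*v + (1)) (by norm_num) (by norm_num) (by linarith) (by linarith) (by linarith) (by linarith) (by linarith) (by linarith))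
                  (.mk 1 1 1 1 ((-1)*v + (1)) (by norm_num) (by norm_num) (by linarith) (by linarith) (by linarith) (by linarith) (by linarith))
                  (by norm_num) (by linarith) (by linarith)
          · exact .one _ _ _ _ 3
                (.mk 1 0 1 0 ((2/9)*a + (7/9)) (by norm_num) (by norm_num) (by linarith) (by linarith) (by linarith) (by linarith) (by linarith) (by linarith))
                (.mk 0 2 0 2 ((-2)*v + (1)) (by norm_num) (by norm_num) (by linarith) (by linarith) (by linarith) (by linarith) (by linarith))
                (by norm_num) (by linarith) (by linarith)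
        · rcases le_total 0 ((2/9)*a + v + (-2/9)) with h | h
          · rcases le_total 0 ((-2/9)*b + (-1)*v + (2/9)) with h | h
            · exact .one _ _ _ _ 4
                  (.mk 1 1 1 1 ((-1)*v + (1)) (by norm_num) (by norm_num) (by linarith) (by linarith) (by linarith) (by linarith) (by linarith) (by linarith))
                  (.mk 1 1 1 1 ((2/9)*b + (7/9)) (by norm_num) (by norm_num) (by linarith) (by linarith) (by linarith) (by linarith) (by linarith))
                  (by norm_num) (by linarith) (by linarith)
            · exact .one _ _ _ _ 4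
                  (.mk 1 1 1 1 ((-1)*v + (1)) (by norm_num) (by norm_num) (by linarith) (by linarith) (by linarith) (by linarith) (by linarith) (by linarith))
                  (.mk 1 1 1 1 ((-1)*v + (1)) (by norm_num) (by norm_num) (by linarith) (by linarith) (by linarith) (by linarith) (by linarith))
                  (by norm_num) (by linarith) (by linarith)
          · exact .one _ _ _ _ 4
                (.mk 1 1 1 1 ((2/9)*a + (7/9)) (by norm_num) (by norm_num) (by linarith) (by linarith) (by linarith) (by linarith) (by linarith) (by linarith))
                (.mk 0 2 0 2 ((-2)*v + (1)) (by norm_num) (by norm_num) (by linarith) (by linarith) (by linarith) (by linarith) (by linarith))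
                (by norm_num) (by linarith) (by linarith)
    · rcases le_total 0 ((-1)*a + (-4)*v + (1)) with h | h
      · rcases le_total 0 ((-3)*v + (1/3)) with h | h
        · exact .one _ _ _ _ 3
              (.mk 0 2 0 2 ((-2)*v + (1)) (by norm_num) (by norm_num) (by linarith) (by linarith) (by linarith) (by linarith) (by linarith) (by linarith))
              (.mk 0 1 0 1 ((-1)*v + (1)) (by norm_num) (by norm_num) (by linarith) (by linarith) (by linarith) (by linarith) (by linarith))
              (by norm_num) (by linarith) (by linarith)
        · exact .one _ _ _ _ 3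
              (.mk 1 1 1 1 ((-1)*v + (1)) (by norm_num) (by norm_num) (by linarith) (by linarith) (by linarith) (by linarith) (by linarith) (by linarith))
              (.mk 0 1 0 1 ((-1)*v + (1)) (by norm_num) (by norm_num) (by linarith) (by linarith) (by linarith) (by linarith) (by linarith))
              (by norm_num) (by linarith) (by linarith)
      · rcases le_total 0 (a + b + (2)*v + (-4/3)) with h | h
        · exact .one _ _ _ _ 2
              (.mk 0 1 0 1 ((-1)*v + (1)) (by norm_num) (by norm_num) (by linarith) (by linarith) (by linarith) (by linarith) (by linarith) (by linarith))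
              (.mk 0 1 0 1 ((-1)*v + (1)) (by norm_num) (by norm_num) (by linarith) (by linarith) (by linarith) (by linarith) (by linarith))
              (by norm_num) (by linarith) (by linarith)
        · exact .one _ _ _ _ 3
              (.mk 0 1 0 1 ((-1)*v + (1)) (by norm_num) (by norm_num) (by linarith) (by linarith) (by linarith) (by linarith) (by linarith) (by linarith))
              (.mk 1 1 1 1 ((-1)*v + (1)) (by norm_num) (by norm_num) (by linarith) (by linarith) (by linarith) (by linarith) (by linarith))
              (by norm_num) (by linarith) (by linarith)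

set_option maxHeartbeats 4000000 in
theorem tree4A {a b v : ℝ} (d1 : 139 / 300 ≤ a) (d2 : 317 / 900 ≤ b) (d3 : a + b ≤ 4 / 3)
    (d4 : a ≤ 1) (d5 : b + 13 / 50 ≤ 2 * a) (d6 : 7 / 200 ≤ v) (d7 : v ≤ 7 / 100) :
    G4 a b v := by
  rcases le_total 0 (a + b + (4)*v + (-4/3)) with h | h
  · rcases le_total 0 ((-1)*b + (-7)*v + (1)) with h | h
    · rcases le_total 0 ((2/9)*b + (3)*v + (-2/9)) with h | h
      · exact .one _ _ _ _ 4
            (.mk 0 0 0 0 ((2/9)*a + (7/9)) (by norm_num) (by norm_num) (by linarith) (by linarith) (by linarith) (by linarith) (by linarith))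
            (.mk 1 3 1 3 ((-3)*v + (1)) (by norm_num) (by norm_num) (by linarith) (by linarith) (by linarith) (by linarith) (by linarith))
            (by norm_num) (by linarith) (by linarith)
      · exact .one _ _ _ _ 5
            (.mk 0 0 0 0 ((2/9)*a + (7/9)) (by norm_num) (by norm_num) (by linarith) (by linarith) (by linarith) (by linarith) (by linarith))
            (.mk 0 5 0 5 ((-5)*v + (1)) (by norm_num) (by norm_num) (by linarith) (by linarith) (by linarith) (by linarith) (by linarith))
            (by norm_num) (by linarith) (by linarith)
    · rcases le_total 0 ((-1)*a + (-7)*v + (1)) with h | h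
      · rcases le_total 0 ((2/9)*a + (3)*v + (-2/9)) with h | h
        · exact .one _ _ _ _ 4
              (.mk 1 3 1 3 ((-3)*v + (1)) (by norm_num) (by norm_num) (by linarith) (by linarith) (by linarith) (by linarith) (by linarith))
              (.mk 0 0 0 0 ((2/9)*b + (7/9)) (by norm_num) (by norm_num) (by linarith) (by linarith) (by linarith) (by linarith) (by linarith))
              (by norm_num) (by linarith) (by linarith)
        · exact .one _ _ _ _ 5
              (.mk 0 5 0 5 ((-5)*v + (1)) (by norm_num) (by norm_num) (by linarith) (by linarith) (by linarith) (by linarith) (by linarith))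
              (.mk 0 0 0 0 ((2/9)*b + (7/9)) (by norm_num) (by norm_num) (by linarith) (by linarith) (by linarith) (by linarith) (by linarith))
              (by norm_num) (by linarith) (by linarith)
      · rcases le_total 0 ((-1)*a + (-4)*v + (1)) with h | h
        · rcases le_total 0 ((-1)*b + (-4)*v + (1)) with h | h
          · exact .one _ _ _ _ 4
                (.mk 0 2 0 2 ((-2)*v + (1)) (by norm_num) (by norm_num) (by linarith) (by linarith) (by linarith) (by linarith) (by linarith))
                (.mk 0 2 0 2 ((-2)*v + (1)) (by norm_num) (by norm_num) (by linarith) (by linarith) (by linarith) (by linarith) (by linarith))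
                (by norm_num) (by linarith) (by linarith)
          · exact .one _ _ _ _ 2
                (.mk 0 2 0 2 ((-2)*v + (1)) (by norm_num) (by norm_num) (by linarith) (by linarith) (by linarith) (by linarith) (by linarith))
                (.mk 0 0 0 0 ((2/9)*b + (7/9)) (by norm_num) (by norm_num) (by linarith) (by linarith) (by linarith) (by linarith) (by linarith))
                (by norm_num) (by linarith) (by linarith)
        · exact .one _ _ _ _ 2
              (.mk 0 0 0 0 ((2/9)*a + (7/9)) (by norm_num) (by norm_num) (by linarith) (by linarith) (by linarith) (by linarith) (by linarith))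
              (.mk 0 2 0 2 ((-2)*v + (1)) (by norm_num) (by norm_num) (by linarith) (by linarith) (by linarith) (by linarith) (by linarith))
              (by norm_num) (by linarith) (by linarith)
  · rcases le_total 0 (a + b + (6)*v + (-4/3)) with h | h
    · rcases le_total 0 ((-1)*b + (-8)*v + (1)) with h | h
      · rcases le_total 0 ((2/9)*b + (3)*v + (-2/9)) with h | h
        · exact .one _ _ _ _ 6
              (.mk 1 0 1 0 ((2/9)*a + (7/9)) (by norm_num) (by norm_num) (by linarith) (by linarith) (by linarith) (by linarith) (by linarith))
              (.mk 2 3 2 3 ((-3)*v + (1)) (by norm_num) (by norm_num) (by linarith) (by linarith) (by linarith) (by linarith) (by linarith))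
              (by norm_num) (by linarith) (by linarith)
        · exact .one _ _ _ _ 7
              (.mk 0 0 0 0 ((2/9)*a + (7/9)) (by norm_num) (by norm_num) (by linarith) (by linarith) (by linarith) (by linarith) (by linarith))
              (.mk 2 5 2 5 ((-5)*v + (1)) (by norm_num) (by norm_num) (by linarith) (by linarith) (by linarith) (by linarith) (by linarith))
              (by norm_num) (by linarith) (by linarith)
      · rcases le_total 0 ((-1)*b + (-7)*v + (1)) with h | h
        · exact .one _ _ _ _ 6
              (.mk 1 1 1 1 ((2/9)*a + (7/9)) (by norm_num) (by norm_num) (by linarith) (by linarith) (by linarith) (by linarith) (by linarith))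
              (.mk 1 3 1 3 ((-3)*v + (1)) (by norm_num) (by norm_num) (by linarith) (by linarith) (by linarith) (by linarith) (by linarith))
              (by norm_num) (by linarith) (by linarith)
        · rcases le_total 0 ((-1)*a + (-8)*v + (1)) with h | h
          · exact .one _ _ _ _ 6
                (.mk 2 3 2 3 ((-3)*v + (1)) (by norm_num) (by norm_num) (by linarith) (by linarith) (by linarith) (by linarith) (by linarith))
                (.mk 1 0 1 0 ((2/9)*b + (7/9)) (by norm_num) (by norm_num) (by linarith) (by linarith) (by linarith) (by linarith) (by linarith))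
                (by norm_num) (by linarith) (by linarith)
          · exact .one _ _ _ _ 6
                (.mk 1 2 1 2 ((-2)*v + (1)) (by norm_num) (by norm_num) (by linarith) (by linarith) (by linarith) (by linarith) (by linarith))
                (.mk 1 2 1 2 ((-2)*v + (1)) (by norm_num) (by norm_num) (by linarith) (by linarith) (by linarith) (by linarith) (by linarith))
                (by norm_num) (by linarith) (by linarith)
    · rcases le_total 0 (a + b + (8)*v + (-4/3)) with h | h
      · rcases le_total 0 ((2/9)*b + (3)*v + (-2/9)) with h | h
        · rcases le_total 0 ((-1)*b + (-9)*v + (1)) with h | h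
          · exact .one _ _ _ _ 8
                (.mk 1 1 1 1 ((2/9)*a + (7/9)) (by norm_num) (by norm_num) (by linarith) (by linarith) (by linarith) (by linarith) (by linarith))
                (.mk 3 3 3 3 ((-3)*v + (1)) (by norm_num) (by norm_num) (by linarith) (by linarith) (by linarith) (by linarith) (by linarith))
                (by norm_num) (by linarith) (by linarith)
          · rcases le_total 0 (a + b + (7)*v + (-4/3)) with h | h
            · exact .one _ _ _ _ 7
                  (.mk 1 1 1 1 ((2/9)*a + (7/9)) (by norm_num) (by norm_num) (by linarith) (by linarith) (by linarith) (by linarith) (by linarith))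
                  (.mk 3 2 3 2 ((-9/4)*v + (1)) (by norm_num) (by norm_num) (by linarith) (by linarith) (by linarith) (by linarith) (by linarith))
                  (by norm_num) (by linarith) (by linarith)
            · exact .one _ _ _ _ 8
                  (.mk 2 2 2 2 ((-2)*v + (1)) (by norm_num) (by norm_num) (by linarith) (by linarith) (by linarith) (by linarith) (by linarith))
                  (.mk 3 1 3 1 ((-9/4)*v + (1)) (by norm_num) (by norm_num) (by linarith) (by linarith) (by linarith) (by linarith) (by linarith))
                  (by norm_num) (by linarith) (by linarith)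
        · exact .one _ _ _ _ 9
              (.mk 1 0 1 0 ((2/9)*a + (7/9)) (by norm_num) (by norm_num) (by linarith) (by linarith) (by linarith) (by linarith) (by linarith))
              (.mk 3 5 3 5 ((-5)*v + (1)) (by norm_num) (by norm_num) (by linarith) (by linarith) (by linarith) (by linarith) (by linarith))
              (by norm_num) (by linarith) (by linarith)
      · rcases le_total 0 (a + b + (10)*v + (-4/3)) with h | h
        · rcases le_total 0 ((2/9)*b + (-4)*v + (1/9)) with h | h
          · rcases le_total 0 ((-1)*a + (-10)*v + (1)) with h | h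
            · exact .one _ _ _ _ 10
                  (.mk 2 4 2 4 ((-4)*v + (1)) (by norm_num) (by norm_num) (by linarith) (by linarith) (by linarith) (by linarith) (by linarith))
                  (.mk 2 2 2 2 ((2/9)*b + (7/9)) (by norm_num) (by norm_num) (by linarith) (by linarith) (by linarith) (by linarith) (by linarith))
                  (by norm_num) (by linarith) (by linarith)
            · exact .one _ _ _ _ 10
                  (.mk 2 3 2 3 ((-3)*v + (1)) (by norm_num) (by norm_num) (by linarith) (by linarith) (by linarith) (by linarith) (by linarith))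
                  (.mk 3 2 3 2 ((2/9)*b + (7/9)) (by norm_num) (by norm_num) (by linarith) (by linarith) (by linarith) (by linarith) (by linarith))
                  (by norm_num) (by linarith) (by linarith)
          · rcases le_total 0 ((2/9)*b + (3)*v + (-2/9)) with h | h
            · exact .one _ _ _ _ 10
                  (.mk 2 1 2 1 ((2/9)*a + (7/9)) (by norm_num) (by norm_num) (by linarith) (by linarith) (by linarith) (by linarith) (by linarith))
                  (.mk 4 3 4 3 ((-3)*v + (1)) (by norm_num) (by norm_num) (by linarith) (by linarith) (by linarith) (by linarith) (by linarith))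
                  (by norm_num) (by linarith) (by linarith)
            · exact .one _ _ _ _ 10
                  (.mk 1 1 1 1 ((2/9)*a + (7/9)) (by norm_num) (by norm_num) (by linarith) (by linarith) (by linarith) (by linarith) (by linarith))
                  (.mk 4 4 4 4 ((-4)*v + (1)) (by norm_num) (by norm_num) (by linarith) (by linarith) (by linarith) (by linarith) (by linarith))
                  (by norm_num) (by linarith) (by linarith)
        · rcases le_total 0 (a + b + (12)*v + (-4/3)) with h | h
          · rcases le_total 0 ((2/9)*b + (4)*v + (-2/9)) with h | h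
            · exact .one _ _ _ _ 12
                  (.mk 2 2 2 2 ((2/9)*a + (7/9)) (by norm_num) (by norm_num) (by linarith) (by linarith) (by linarith) (by linarith) (by linarith))
                  (.mk 4 4 4 4 ((-4)*v + (1)) (by norm_num) (by norm_num) (by linarith) (by linarith) (by linarith) (by linarith) (by linarith))
                  (by norm_num) (by linarith) (by linarith)
            · exact .one _ _ _ _ 13
                  (.mk 2 4 2 4 ((-4)*v + (1)) (by norm_num) (by norm_num) (by linarith) (by linarith) (by linarith) (by linarith) (by linarith))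
                  (.mk 4 3 4 3 ((2/9)*b + (7/9)) (by norm_num) (by norm_num) (by linarith) (by linarith) (by linarith) (by linarith) (by linarith))
                  (by norm_num) (by linarith) (by linarith)
          · exact .one _ _ _ _ 15
                (.mk 4 4 4 4 ((-4)*v + (1)) (by norm_num) (by norm_num) (by linarith) (by linarith) (by linarith) (by linarith) (by linarith))
                (.mk 4 3 4 3 ((2/9)*b + (7/9)) (by norm_num) (by norm_num) (by linarith) (by linarith) (by linarith) (by linarith) (by linarith))
                (by norm_num) (by linarith) (by linarith)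

set_option maxHeartbeats 4000000 in
theorem tree4B {a b v : ℝ} (d1 : 139 / 300 ≤ a) (d2 : 317 / 900 ≤ b) (d3 : a + b + v ≤ 4 / 3)
    (d4 : a ≤ 1) (d5 : b + 13 / 50 ≤ 2 * a) (d6 : 7 / 100 ≤ v) (d7 : v ≤ 13 / 100) :
    G4 a b v := by
  rcases le_total 0 ((-1)*a + (-4)*v + (1)) with h | h
  · rcases le_total 0 (a + b + (3)*v + (-4/3)) with h | h
    · rcases le_total 0 ((2/9)*b + v + (-2/9)) with h | h
      · rcases le_total 0 ((-3)*v + (1/3)) with h | h
        · exact .one _ _ _ _ 3
              (.mk 0 2 0 2 ((-2)*v + (1)) (by norm_num) (by norm_num) (by linarith) (by linarith) (by linarith) (by linarith) (by linarith))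
              (.mk 0 1 0 1 ((-1)*v + (1)) (by norm_num) (by norm_num) (by linarith) (by linarith) (by linarith) (by linarith) (by linarith))
              (by norm_num) (by linarith) (by linarith)
        · rcases le_total 0 ((2/9)*a + v + (-2/9)) with h | h
          · exact .one _ _ _ _ 3
                (.mk 1 1 1 1 ((-1)*v + (1)) (by norm_num) (by norm_num) (by linarith) (by linarith) (by linarith) (by linarith) (by linarith))
                (.mk 0 1 0 1 ((-1)*v + (1)) (by norm_num) (by norm_num) (by linarith) (by linarith) (by linarith) (by linarith) (by linarith))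
                (by norm_num) (by linarith) (by linarith)
          · exact .one _ _ _ _ 3
                (.mk 1 1 1 1 ((2/9)*a + (7/9)) (by norm_num) (by norm_num) (by linarith) (by linarith) (by linarith) (by linarith) (by linarith))
                (.mk 0 1 0 1 ((-1)*v + (1)) (by norm_num) (by norm_num) (by linarith) (by linarith) (by linarith) (by linarith) (by linarith))
                (by norm_num) (by linarith) (by linarith)
      · exact .one _ _ _ _ 3
            (.mk 1 0 1 0 ((2/9)*a + (7/9)) (by norm_num) (by norm_num) (by linarith) (by linarith) (by linarith) (by linarith) (by linarith))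
            (.mk 1 1 1 1 ((2/9)*b + (7/9)) (by norm_num) (by norm_num) (by linarith) (by linarith) (by linarith) (by linarith) (by linarith))
            (by norm_num) (by linarith) (by linarith)
    · rcases le_total 0 (a + b + (4)*v + (-4/3)) with h | h
      · rcases le_total 0 ((2/9)*b + (-2)*v + (1/9)) with h | h
        · rcases le_total 0 ((-2/9)*b + (-1)*v + (2/9)) with h | h
          · exact .one _ _ _ _ 4
                (.mk 0 2 0 2 ((-2)*v + (1)) (by norm_num) (by norm_num) (by linarith) (by linarith) (by linarith) (by linarith) (by linarith))
                (.mk 1 1 1 1 ((2/9)*b + (7/9)) (by norm_num) (by norm_num) (by linarith) (by linarith) (by linarith) (by linarith) (by linarith))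
                (by norm_num) (by linarith) (by linarith)
          · exact .one _ _ _ _ 4
                (.mk 1 1 1 1 ((2/9)*a + (7/9)) (by norm_num) (by norm_num) (by linarith) (by linarith) (by linarith) (by linarith) (by linarith))
                (.mk 1 1 1 1 ((-1)*v + (1)) (by norm_num) (by norm_num) (by linarith) (by linarith) (by linarith) (by linarith) (by linarith))
                (by norm_num) (by linarith) (by linarith)
        · rcases le_total 0 ((2/9)*a + v + (-2/9)) with h | h
          · rcases le_total 0 ((-2/9)*b + (-1)*v + (2/9)) with h | h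
            · exact .one _ _ _ _ 4
                  (.mk 1 1 1 1 ((-1)*v + (1)) (by norm_num) (by norm_num) (by linarith) (by linarith) (by linarith) (by linarith) (by linarith))
                  (.mk 1 1 1 1 ((2/9)*b + (7/9)) (by norm_num) (by norm_num) (by linarith) (by linarith) (by linarith) (by linarith) (by linarith))
                  (by norm_num) (by linarith) (by linarith)
            · exact .one _ _ _ _ 4
                  (.mk 1 1 1 1 ((-1)*v + (1)) (by norm_num) (by norm_num) (by linarith) (by linarith) (by linarith) (by linarith) (by linarith))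
                  (.mk 1 1 1 1 ((-1)*v + (1)) (by norm_num) (by norm_num) (by linarith) (by linarith) (by linarith) (by linarith) (by linarith))
                  (by norm_num) (by linarith) (by linarith)
          · rcases le_total 0 ((-2/9)*b + (-1)*v + (2/9)) with h | h
            · exact .one _ _ _ _ 4
                  (.mk 1 1 1 1 ((2/9)*a + (7/9)) (by norm_num) (by norm_num) (by linarith) (by linarith) (by linarith) (by linarith) (by linarith))
                  (.mk 1 1 1 1 ((2/9)*b + (7/9)) (by norm_num) (by norm_num) (by linarith) (by linarith) (by linarith) (by linarith) (by linarith))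
                  (by norm_num) (by linarith) (by linarith)
            · exact .one _ _ _ _ 4
                  (.mk 1 1 1 1 ((2/9)*a + (7/9)) (by norm_num) (by norm_num) (by linarith) (by linarith) (by linarith) (by linarith) (by linarith))
                  (.mk 1 1 1 1 ((-1)*v + (1)) (by norm_num) (by norm_num) (by linarith) (by linarith) (by linarith) (by linarith) (by linarith))
                  (by norm_num) (by linarith) (by linarith)
      · rcases le_total 0 (a + b + (5)*v + (-4/3)) with h | h
        · rcases le_total 0 ((2/9)*b + (-2)*v + (1/9)) with h | h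
          · rcases le_total 0 ((-1)*a + (-5)*v + (1)) with h | h
            · exact .one _ _ _ _ 5
                  (.mk 1 2 1 2 ((-2)*v + (1)) (by norm_num) (by norm_num) (by linarith) (by linarith) (by linarith) (by linarith) (by linarith))
                  (.mk 1 1 1 1 ((2/9)*b + (7/9)) (by norm_num) (by norm_num) (by linarith) (by linarith) (by linarith) (by linarith) (by linarith))
                  (by norm_num) (by linarith) (by linarith)
            · rcases le_total 0 ((-2/9)*b + (-3/2)*v + (2/9)) with h | h
              · exact .one _ _ _ _ 5
                    (.mk 0 2 0 2 ((-2)*v + (1)) (by norm_num) (by norm_num) (by linarith) (by linarith) (by linarith) (by linarith) (by linarith))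
                    (.mk 2 1 2 1 ((2/9)*b + (7/9)) (by norm_num) (by norm_num) (by linarith) (by linarith) (by linarith) (by linarith) (by linarith))
                    (by norm_num) (by linarith) (by linarith)
              · rcases le_total 0 ((-1)*b + (-6)*v + (1)) with h | h
                · exact .one _ _ _ _ 5
                      (.mk 1 0 1 0 ((2/9)*a + (7/9)) (by norm_num) (by norm_num) (by linarith) (by linarith) (by linarith) (by linarith) (by linarith))
                      (.mk 2 2 2 2 ((-2)*v + (1)) (by norm_num) (by norm_num) (by linarith) (by linarith) (by linarith) (by linarith) (by linarith))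
                      (by norm_num) (by linarith) (by linarith)
                · exact .one _ _ _ _ 5
                      (.mk 1 1 1 1 ((2/9)*a + (7/9)) (by norm_num) (by norm_num) (by linarith) (by linarith) (by linarith) (by linarith) (by linarith))
                      (.mk 1 2 1 2 ((-2)*v + (1)) (by norm_num) (by norm_num) (by linarith) (by linarith) (by linarith) (by linarith) (by linarith))
                      (by norm_num) (by linarith) (by linarith)
          · rcases le_total 0 ((2/9)*a + (-2)*v + (1/9)) with h | h
            · rcases le_total 0 ((-2/9)*a + (-1)*v + (2/9)) with h | h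
              · exact .one _ _ _ _ 5
                    (.mk 1 1 1 1 ((2/9)*a + (7/9)) (by norm_num) (by norm_num) (by linarith) (by linarith) (by linarith) (by linarith) (by linarith))
                    (.mk 1 2 1 2 ((-2)*v + (1)) (by norm_num) (by norm_num) (by linarith) (by linarith) (by linarith) (by linarith) (by linarith))
                    (by norm_num) (by linarith) (by linarith)
              · rcases le_total 0 ((-1)*b + (-6)*v + (1)) with h | h
                · exact .one _ _ _ _ 5
                      (.mk 1 0 1 0 ((2/9)*a + (7/9)) (by norm_num) (by norm_num) (by linarith) (by linarith) (by linarith) (by linarith) (by linarith))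
                      (.mk 2 2 2 2 ((-2)*v + (1)) (by norm_num) (by norm_num) (by linarith) (by linarith) (by linarith) (by linarith) (by linarith))
                      (by norm_num) (by linarith) (by linarith)
                · exact .one _ _ _ _ 5
                      (.mk 1 1 1 1 ((-1)*v + (1)) (by norm_num) (by norm_num) (by linarith) (by linarith) (by linarith) (by linarith) (by linarith))
                      (.mk 2 1 2 1 ((-3/2)*v + (1)) (by norm_num) (by norm_num) (by linarith) (by linarith) (by linarith) (by linarith) (by linarith))
                      (by norm_num) (by linarith) (by linarith)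
            · rcases le_total 0 ((-2/9)*a + (-1)*v + (2/9)) with h | h
              · exact .one _ _ _ _ 5
                    (.mk 1 1 1 1 ((2/9)*a + (7/9)) (by norm_num) (by norm_num) (by linarith) (by linarith) (by linarith) (by linarith) (by linarith))
                    (.mk 2 1 2 1 ((-3/2)*v + (1)) (by norm_num) (by norm_num) (by linarith) (by linarith) (by linarith) (by linarith) (by linarith))
                    (by norm_num) (by linarith) (by linarith)
              · exact .one _ _ _ _ 5
                    (.mk 1 1 1 1 ((-1)*v + (1)) (by norm_num) (by norm_num) (by linarith) (by linarith) (by linarith) (by linarith) (by linarith))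
                    (.mk 2 1 2 1 ((-3/2)*v + (1)) (by norm_num) (by norm_num) (by linarith) (by linarith) (by linarith) (by linarith) (by linarith))
                    (by norm_num) (by linarith) (by linarith)
        · rcases le_total 0 (a + b + (6)*v + (-4/3)) with h | h
          · rcases le_total 0 ((2/9)*b + (2)*v + (-2/9)) with h | h
            · exact .one _ _ _ _ 6
                  (.mk 1 1 1 1 ((2/9)*a + (7/9)) (by norm_num) (by norm_num) (by linarith) (by linarith) (by linarith) (by linarith) (by linarith))
                  (.mk 2 2 2 2 ((-2)*v + (1)) (by norm_num) (by norm_num) (by linarith) (by linarith) (by linarith) (by linarith) (by linarith))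
                  (by norm_num) (by linarith) (by linarith)
            · exact .one _ _ _ _ 6
                  (.mk 1 2 1 2 ((-2)*v + (1)) (by norm_num) (by norm_num) (by linarith) (by linarith) (by linarith) (by linarith) (by linarith))
                  (.mk 2 1 2 1 ((2/9)*b + (7/9)) (by norm_num) (by norm_num) (by linarith) (by linarith) (by linarith) (by linarith) (by linarith))
                  (by norm_num) (by linarith) (by linarith)
          · rcases le_total 0 (a + b + (7)*v + (-4/3)) with h | h
            · exact .one _ _ _ _ 7
                  (.mk 2 2 2 2 ((-2)*v + (1)) (by norm_num) (by norm_num) (by linarith) (by linarith) (by linarith) (by linarith) (by linarith))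
                  (.mk 2 1 2 1 ((2/9)*b + (7/9)) (by norm_num) (by norm_num) (by linarith) (by linarith) (by linarith) (by linarith) (by linarith))
                  (by norm_num) (by linarith) (by linarith)
            · exact .one _ _ _ _ 8
                  (.mk 1 2 1 2 ((-2)*v + (1)) (by norm_num) (by norm_num) (by linarith) (by linarith) (by linarith) (by linarith) (by linarith))
                  (.mk 3 2 3 2 ((-9/4)*v + (1)) (by norm_num) (by norm_num) (by linarith) (by linarith) (by linarith) (by linarith) (by linarith))
                  (by norm_num) (by linarith) (by linarith)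
  · rcases le_total 0 (a + b + (2)*v + (-4/3)) with h | h
    · rcases le_total 0 ((-1)*a + (-3)*v + (1)) with h | h
      · exact .one _ _ _ _ 2
            (.mk 1 1 1 1 ((-1)*v + (1)) (by norm_num) (by norm_num) (by linarith) (by linarith) (by linarith) (by linarith) (by linarith))
            (.mk 0 0 0 0 ((2/9)*b + (7/9)) (by norm_num) (by norm_num) (by linarith) (by linarith) (by linarith) (by linarith) (by linarith))
            (by norm_num) (by linarith) (by linarith)
      · rcases le_total 0 ((-1)*a + (-2)*v + (1)) with h | h
        · rcases le_total 0 ((-2/9)*b + (-3/4)*v + (2/9)) with h | h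
          · exact .one _ _ _ _ 2
                (.mk 0 1 0 1 ((-1)*v + (1)) (by norm_num) (by norm_num) (by linarith) (by linarith) (by linarith) (by linarith) (by linarith))
                (.mk 1 0 1 0 ((2/9)*b + (7/9)) (by norm_num) (by norm_num) (by linarith) (by linarith) (by linarith) (by linarith) (by linarith))
                (by norm_num) (by linarith) (by linarith)
          · exact .one _ _ _ _ 2
                (.mk 0 1 0 1 ((-1)*v + (1)) (by norm_num) (by norm_num) (by linarith) (by linarith) (by linarith) (by linarith) (by linarith))
                (.mk 0 1 0 1 ((-1)*v + (1)) (by norm_num) (by norm_num) (by linarith) (by linarith) (by linarith) (by linarith) (by linarith))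
                (by norm_num) (by linarith) (by linarith)
        · rcases le_total 0 ((2/9)*b + (2)*v + (-2/9)) with h | h
          · exact .one _ _ _ _ 2
                (.mk 0 0 0 0 ((2/9)*a + (7/9)) (by norm_num) (by norm_num) (by linarith) (by linarith) (by linarith) (by linarith) (by linarith))
                (.mk 0 2 0 2 ((-2)*v + (1)) (by norm_num) (by norm_num) (by linarith) (by linarith) (by linarith) (by linarith) (by linarith))
                (by norm_num) (by linarith) (by linarith)
          · exact .one _ _ _ _ 3
                (.mk 0 0 0 0 ((2/9)*a + (7/9)) (by norm_num) (by norm_num) (by linarith) (by linarith) (by linarith) (by linarith) (by linarith))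
                (.mk 0 3 0 3 ((-3)*v + (1)) (by norm_num) (by norm_num) (by linarith) (by linarith) (by linarith) (by linarith) (by linarith))
                (by norm_num) (by linarith) (by linarith)
    · rcases le_total 0 (a + b + (3)*v + (-4/3)) with h | h
      · rcases le_total 0 ((-2/9)*b + (-1)*v + (2/9)) with h | h
        · exact .one _ _ _ _ 3
              (.mk 0 1 0 1 ((-1)*v + (1)) (by norm_num) (by norm_num) (by linarith) (by linarith) (by linarith) (by linarith) (by linarith))
              (.mk 1 1 1 1 ((2/9)*b + (7/9)) (by norm_num) (by norm_num) (by linarith) (by linarith) (by linarith) (by linarith) (by linarith))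
              (by norm_num) (by linarith) (by linarith)
        · exact .one _ _ _ _ 3
              (.mk 0 1 0 1 ((-1)*v + (1)) (by norm_num) (by norm_num) (by linarith) (by linarith) (by linarith) (by linarith) (by linarith))
              (.mk 1 1 1 1 ((-1)*v + (1)) (by norm_num) (by norm_num) (by linarith) (by linarith) (by linarith) (by linarith) (by linarith))
              (by norm_num) (by linarith) (by linarith)
      · rcases le_total 0 ((-2/9)*b + (-1)*v + (2/9)) with h | h
        · exact .one _ _ _ _ 4
              (.mk 1 1 1 1 ((-1)*v + (1)) (by norm_num) (by norm_num) (by linarith) (by linarith) (by linarith) (by linarith) (by linarith))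
              (.mk 1 1 1 1 ((2/9)*b + (7/9)) (by norm_num) (by norm_num) (by linarith) (by linarith) (by linarith) (by linarith) (by linarith))
              (by norm_num) (by linarith) (by linarith)
        · exact .one _ _ _ _ 4
              (.mk 1 1 1 1 ((-1)*v + (1)) (by norm_num) (by norm_num) (by linarith) (by linarith) (by linarith) (by linarith) (by linarith))
              (.mk 1 1 1 1 ((-1)*v + (1)) (by norm_num) (by norm_num) (by linarith) (by linarith) (by linarith) (by linarith) (by linarith))
              (by norm_num) (by linarith) (by linarith)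

set_option maxHeartbeats 4000000 in
theorem tree4C {a b v : ℝ} (d1 : 239 / 300 ≤ a) (d2 : 13 / 50 ≤ b) (d3 : a + b ≤ 4 / 3)
    (d4 : a ≤ 1) (d6 : 7 / 200 ≤ v) (d7 : v ≤ 7 / 100) : G4 a b v := by
  rcases le_total 0 (a + b + (2)*v + (-4/3)) with h | h
  · exact .one _ _ _ _ 2
        (.mk 0 0 0 0 ((2/9)*a + (7/9)) (by norm_num) (by norm_num) (by linarith) (by linarith) (by linarith) (by linarith) (by linarith))
        (.mk 1 1 1 1 ((2/9)*b + (7/9)) (by norm_num) (by norm_num) (by linarith) (by linarith) (by linarith) (by linarith) (by linarith))
        (by norm_num) (by linarith) (by linarith)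
  · rcases le_total 0 (a + b + (3)*v + (-4/3)) with h | h
    · exact .one _ _ _ _ 3
          (.mk 0 0 0 0 ((2/9)*a + (7/9)) (by norm_num) (by norm_num) (by linarith) (by linarith) (by linarith) (by linarith) (by linarith))
          (.mk 2 1 2 1 ((2/9)*b + (7/9)) (by norm_num) (by norm_num) (by linarith) (by linarith) (by linarith) (by linarith) (by linarith))
          (by norm_num) (by linarith) (by linarith)
    · rcases le_total 0 (a + b + (4)*v + (-4/3)) with h | h
      · exact .one _ _ _ _ 4
            (.mk 0 0 0 0 ((2/9)*a + (7/9)) (by norm_num) (by norm_num) (by linarith) (by linarith) (by linarith) (by linarith) (by linarith))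
            (.mk 2 2 2 2 ((2/9)*b + (7/9)) (by norm_num) (by norm_num) (by linarith) (by linarith) (by linarith) (by linarith) (by linarith))
            (by norm_num) (by linarith) (by linarith)
      · rcases le_total 0 (a + b + (5)*v + (-4/3)) with h | h
        · exact .one _ _ _ _ 5
              (.mk 0 0 0 0 ((2/9)*a + (7/9)) (by norm_num) (by norm_num) (by linarith) (by linarith) (by linarith) (by linarith) (by linarith))
              (.mk 3 2 3 2 ((2/9)*b + (7/9)) (by norm_num) (by norm_num) (by linarith) (by linarith) (by linarith) (by linarith) (by linarith))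
              (by norm_num) (by linarith) (by linarith)
        · exact .one _ _ _ _ 8
              (.mk 0 0 0 0 ((2/9)*a + (7/9)) (by norm_num) (by norm_num) (by linarith) (by linarith) (by linarith) (by linarith) (by linarith))
              (.mk 3 5 3 5 ((-5)*v + (1)) (by norm_num) (by norm_num) (by linarith) (by linarith) (by linarith) (by linarith) (by linarith))
              (by norm_num) (by linarith) (by linarith)

set_option maxHeartbeats 4000000 in
theorem tree4D {a b v : ℝ} (d1 : 239 / 300 ≤ a) (d2 : 13 / 50 ≤ b) (d3 : a + b + v ≤ 4 / 3)
    (d4 : a ≤ 1) (d6 : 7 / 100 ≤ v) (d7 : v ≤ 13 / 100) : G4 a b v := by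
  rcases le_total 0 (a + b + (2)*v + (-4/3)) with h | h
  · exact .one _ _ _ _ 2
        (.mk 0 0 0 0 ((2/9)*a + (7/9)) (by norm_num) (by norm_num) (by linarith) (by linarith) (by linarith) (by linarith) (by linarith))
        (.mk 1 1 1 1 ((2/9)*b + (7/9)) (by norm_num) (by norm_num) (by linarith) (by linarith) (by linarith) (by linarith) (by linarith))
        (by norm_num) (by linarith) (by linarith)
  · rcases le_total 0 (a + b + (3)*v + (-4/3)) with h | h
    · rcases le_total 0 ((2/9)*b + (2)*v + (-2/9)) with h | h
      · exact .one _ _ _ _ 3
            (.mk 0 0 0 0 ((2/9)*a + (7/9)) (by norm_num) (by norm_num) (by linarith) (by linarith) (by linarith) (by linarith) (by linarith))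
            (.mk 1 2 1 2 ((-2)*v + (1)) (by norm_num) (by norm_num) (by linarith) (by linarith) (by linarith) (by linarith) (by linarith))
            (by norm_num) (by linarith) (by linarith)
      · exact .one _ _ _ _ 4
            (.mk 0 0 0 0 ((2/9)*a + (7/9)) (by norm_num) (by norm_num) (by linarith) (by linarith) (by linarith) (by linarith) (by linarith))
            (.mk 1 3 1 3 ((-3)*v + (1)) (by norm_num) (by norm_num) (by linarith) (by linarith) (by linarith) (by linarith) (by linarith))
            (by norm_num) (by linarith) (by linarith)
    · exact .one _ _ _ _ 4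
          (.mk 0 0 0 0 ((2/9)*a + (7/9)) (by norm_num) (by norm_num) (by linarith) (by linarith) (by linarith) (by linarith) (by linarith))
          (.mk 1 3 1 3 ((-3)*v + (1)) (by norm_num) (by norm_num) (by linarith) (by linarith) (by linarith) (by linarith) (by linarith))
          (by norm_num) (by linarith) (by linarith)

/-- **three lumps**, `1/2 ≤ u₀`, `2/9 ≤ u₁` -/
theorem cov3 (u : Fin 3 → ℝ) (hlo : ∀ j, 13 / 100 ≤ u j) (hhi : ∀ j, u j ≤ 5 / 6)
    (hS : ∑ j, u j ≤ 4 / 3) (h0 : 1 / 2 ≤ u 0) (h1 : 2 / 9 ≤ u 1) :
    (∀ v, 7 / 200 ≤ v → v ≤ 7 / 100 → Cov0 u v) ∧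
    (∀ v, 7 / 100 ≤ v → v ≤ 13 / 100 → (∑ j, u j) + v ≤ 4 / 3 → Cov0 u v) := by
  have l2 := hlo 2
  have l0 := hhi 0
  have hs : (∑ j, u j) = u 0 + (u 1 + u 2) := by rw [Fin.sum_univ_three]; ring
  rw [hs] at hS ⊢
  exact ⟨fun v v0 v1 => G3.cov (by linarith) (tree3A h0 (by linarith) hS l0 v0 v1),
    fun v v0 v1 hv => G3.cov (by linarith) (tree3B h0 (by linarith) hv l0 v0 v1)⟩

/-- **four lumps**, `1/3 ≤ u₀`, `2/9 ≤ u₁` or `2/3 ≤ u₀` -/
theorem cov4 (u : Fin 4 → ℝ) (hu : Antitone u) (hlo : ∀ j, 13 / 100 ≤ u j)
    (hhi : ∀ j, u j ≤ 5 / 6) (hS : ∑ j, u j ≤ 4 / 3)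
    (h : (1 / 3 ≤ u 0 ∧ 2 / 9 ≤ u 1) ∨ 2 / 3 ≤ u 0) :
    (∀ v, 7 / 200 ≤ v → v ≤ 7 / 100 → Cov0 u v) ∧
    (∀ v, 7 / 100 ≤ v → v ≤ 13 / 100 → (∑ j, u j) + v ≤ 4 / 3 → Cov0 u v) := by
  have a01 : u 1 ≤ u 0 := hu (by decide)
  have a12 : u 2 ≤ u 1 := hu (by decide)
  have a23 : u 3 ≤ u 2 := hu (by decide)
  have l3 := hlo 3
  have l0 := hhi 0
  have hs : (∑ j, u j) = u 0 + u 3 + (u 1 + u 2) := by rw [Fin.sum_univ_four]; ring
  rw [hs] at hS ⊢
  rcases h with ⟨h0, h1⟩ | h0
  · exact ⟨fun v v0 v1 => G4.cov (by linarith) (by linarith) (tree4A (by linarith) (by linarith)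
        hS (by linarith) (by linarith) v0 v1),
      fun v v0 v1 hv => G4.cov (by linarith) (by linarith) (tree4B (by linarith) (by linarith)
        hv (by linarith) (by linarith) v0 v1)⟩
  · exact ⟨fun v v0 v1 => G4.cov (by linarith) (by linarith) (tree4C (by linarith) (by linarith)
        hS (by linarith) v0 v1),
      fun v v0 v1 hv => G4.cov (by linarith) (by linarith) (tree4D (by linarith) (by linarith)
        hv (by linarith) v0 v1)⟩

end Crest.Agent.R017.Cov34_325
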