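import Crest.Agent.R017.CovDefs_499

/-!
# Row 17, hcore : CovK 5 with three lumps `≥ 2/9` (helper325)

Partition `{u₀, u₁ | chunks} , {u₂, u₃, u₄ | chunks}` of weights `1/2`; every condition depends on
`s = u₀ + u₁`, `w = u₂ + u₃`, `e = u₄`, `v` only.  The two trees (`treeA` : `7/200 ≤ v ≤ 7/100`,
`treeB` : `7/100 ≤ v ≤ 14/100`) are found by polytope splitting.
-/

set_option autoImplicit false

namespace Crest.Agent.R017.Cov5_325

open Crest.Agent.R017.Cov499

/-- columns `{u₀, u₁}` with `a` chunks in `Z`, `b` chunks in `X` -/
inductive PC (s v : ℝ) : ℕ → ℝ → Prop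
  | mk (a b : ℕ) (A B N : ℝ) (hA : (a : ℝ) = A) (hB : (b : ℝ) = B)
      (h1 : N + B * v ≤ 1) (h2 : N + 3 / 4 * (A * v) ≤ 1) (h3 : N ≤ 7 / 9 + 2 / 9 * s)
      (h4 : s + 5 / 2 * (A * v) ≤ 1) (h5 : s + (A + B) * v ≤ N) : PC s v (a + b) N

/-- columns `{u₂, u₃, u₄}` -/
inductive QC (w e v : ℝ) : ℕ → ℝ → Prop
  | k1 (a b : ℕ) (A B N : ℝ) (hA : (a : ℝ) = A) (hB : (b : ℝ) = B)
      (h1 : N + B * v ≤ 1) (h2 : N + 3 / 4 * (e + A * v) ≤ 1) (h3 : N ≤ 7 / 9 + 2 / 9 * w)
      (h4 : w + 5 / 2 * (e + A * v) ≤ 1) (h5 : w + e + (A + B) * v ≤ N) : QC w e v (a + b) N
  | k2 (a b : ℕ) (A B N : ℝ) (hA : (a : ℝ) = A) (hB : (b : ℝ) = B)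
      (h1 : N + (e + B * v) ≤ 1) (h2 : N + 3 / 4 * (A * v) ≤ 1) (h3 : N ≤ 7 / 9 + 2 / 9 * w)
      (h4 : w + 5 / 2 * (A * v) ≤ 1) (h5 : w + e + (A + B) * v ≤ N) : QC w e v (a + b) N
  | k3 (N : ℝ) (h1 : w + 2 * e ≤ 1) (h2 : 49 * N ≤ 36 + 9 * w) (h7 : 80 * N + 30 * e ≤ 73)
      (h6 : 6 * N ≤ 5) (h8 : 36 * N + 6 * e ≤ 31) (h9 : 100 * N ≤ 81)
      (h10 : 15 * N + 3 * e ≤ 13) (h13 : 14 * N + 3 * e ≤ 12) (h14 : 27 * N ≤ 21 + 2 * w)
      (h5 : w + e ≤ N) : QC w e v 0 N
  | k4 (N : ℝ) (h1 : 29 * (w + e) + 21 / 2 * e ≤ 22) (h2 : 22 * (w + e) ≤ 15)
      (h3 : 2 * N ≤ 1 + (w + e)) (h4 : 3 * N + 3 / 4 * e ≤ 2 + (w + e)) (h5 : w + e ≤ N) :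
      QC w e v 0 N

/-- the three kinds of leaves -/
inductive Good (s w e v : ℝ) : Prop
  | one (t t' : ℕ) (N N' T : ℝ) (hP : PC s v t N) (hQ : QC w e v t' N')
      (hT : (((t + t' : ℕ) : ℝ)) = T) (hN : 5 / 3 ≤ N + N') (hS : 4 / 3 ≤ s + w + e + T * v)
  | two (t₁ t₂ t₃ t₄ : ℕ) (N₁ N₂ N₃ N₄ T : ℝ) (hP₁ : PC s v t₁ N₁) (hP₂ : PC s v t₂ N₂)
      (hQ₁ : QC w e v t₃ N₃) (hQ₂ : QC w e v t₄ N₄) (hT : (((t₁ + t₂ + t₃ + t₄ : ℕ) : ℝ)) = T)
      (hN : 10 / 3 ≤ N₁ + N₂ + N₃ + N₄) (hS : 4 / 3 ≤ s + w + e + T / 2 * v)
  | m (h1 : v ≤ 7 / 50) (h2 : e ≤ 14 / 75) (h3 : w ≤ 14 / 75 + 2 / 9)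
      (h4 : s + 5 / 2 * w ≤ 14 / 9) (h5 : s + 5 / 2 * e ≤ 1) (h6 : s + e + v ≤ 43 / 50)
      (h7 : s + w + v ≤ 43 / 50 + 2 / 9) (h8 : w + 5 / 2 * e ≤ 1) (h9 : w + e + v ≤ 171 / 200)
      (h10 : s + 5 / 2 * v ≤ 1) (h11 : s + 2 * v ≤ 43 / 50)
      (h12 : 7 / 8 ≤ 3 / 4 * (s + w + e) + 3 / 2 * v)

set_option maxHeartbeats 4000000 in
theorem treeA {s w e v : ℝ} (d1 : 4 / 9 ≤ s) (d2 : 2 / 9 + e ≤ w) (d3 : w ≤ s) (d4 : 2 * e ≤ w)
    (d5 : 13 / 100 ≤ e) (d6 : s + w + e ≤ 4 / 3) (d7 : w + 2 * e ≤ 1) (d8 : 7 / 200 ≤ v)
    (d9 : v ≤ 7 / 100) : Good s w e v := by
  rcases le_total 0 (s + w + e + (4)*v + (-4/3)) with h | h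
  · rcases le_total 0 (s + w + e + (3)*v + (-4/3)) with h | h
    · rcases le_total 0 ((-1)*w + (-2)*e + (-1)*v + (1)) with h | h
      · rcases le_total 0 ((-2/9)*s + (-1)*v + (2/9)) with h | h
        · rcases le_total 0 ((2/9)*w + e + (-2/9)) with h | h
          · rcases le_total 0 ((2/9)*s + (-1)*e + (1/9)) with h | h
            · exact .one _ _ _ _ 3
                  (.mk 1 1 1 1 ((2/9)*s + (7/9)) (by norm_num) (by norm_num) (by linarith) (by linarith) (by linarith) (by linarith) (by linarith))
                  (.k2 1 0 1 0 ((-1)*e + (1)) (by norm_num) (by norm_num) (by linarith) (by linarith) (by linarith) (by linarith) (by linarith))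
                  (by norm_num) (by linarith) (by linarith)
            · rcases le_total 0 ((-2/9)*s + (-3/2)*v + (2/9)) with h | h
              · exact .one _ _ _ _ 3
                    (.mk 2 1 2 1 ((2/9)*s + (7/9)) (by norm_num) (by norm_num) (by linarith) (by linarith) (by linarith) (by linarith) (by linarith))
                    (.k3 ((4/5)) (by linarith) (by linarith) (by linarith) (by linarith) (by linarith) (by linarith) (by linarith) (by linarith) (by linarith) (by linarith))
                    (by norm_num) (by linarith) (by linarith)
              · exact .one _ _ _ _ 2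
                    (.mk 0 2 0 2 ((-2)*v + (1)) (by norm_num) (by norm_num) (by linarith) (by linarith) (by linarith) (by linarith) (by linarith))
                    (.k3 ((-3/14)*e + (6/7)) (by linarith) (by linarith) (by linarith) (by linarith) (by linarith) (by linarith) (by linarith) (by linarith) (by linarith) (by linarith))
                    (by norm_num) (by linarith) (by linarith)
          · exact .one _ _ _ _ 3
                (.mk 0 0 0 0 ((2/9)*s + (7/9)) (by norm_num) (by norm_num) (by linarith) (by linarith) (by linarith) (by linarith) (by linarith))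
                (.k2 2 1 2 1 ((-1)*e + (-1)*v + (1)) (by norm_num) (by norm_num) (by linarith) (by linarith) (by linarith) (by linarith) (by linarith))
                (by norm_num) (by linarith) (by linarith)
        · rcases le_total 0 ((-1)*w + (-2)*e + (-3)*v + (1)) with h | h
          · exact .one _ _ _ _ 3
                (.mk 0 1 0 1 ((-1)*v + (1)) (by norm_num) (by norm_num) (by linarith) (by linarith) (by linarith) (by linarith) (by linarith))
                (.k2 1 1 1 1 ((-1)*e + (-1)*v + (1)) (by norm_num) (by norm_num) (by linarith) (by linarith) (by linarith) (by linarith) (by linarith))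
                (by norm_num) (by linarith) (by linarith)
          · exact .one _ _ _ _ 1
                (.mk 0 0 0 0 ((2/9)*s + (7/9)) (by norm_num) (by norm_num) (by linarith) (by linarith) (by linarith) (by linarith) (by linarith))
                (.k2 1 0 1 0 ((-1)*e + (1)) (by norm_num) (by norm_num) (by linarith) (by linarith) (by linarith) (by linarith) (by linarith))
                (by norm_num) (by linarith) (by linarith)
      · rcases le_total 0 ((-2/9)*s + (-3/2)*v + (2/9)) with h | h
        · exact .one _ _ _ _ 3
              (.mk 2 1 2 1 ((2/9)*s + (7/9)) (by norm_num) (by norm_num) (by linarith) (by linarith) (by linarith) (by linarith) (by linarith))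
              (.k3 ((4/5)) (by linarith) (by linarith) (by linarith) (by linarith) (by linarith) (by linarith) (by linarith) (by linarith) (by linarith) (by linarith))
              (by norm_num) (by linarith) (by linarith)
        · exact .one _ _ _ _ 2
              (.mk 1 1 1 1 ((2/9)*s + (7/9)) (by norm_num) (by norm_num) (by linarith) (by linarith) (by linarith) (by linarith) (by linarith))
              (.k3 ((4/5)) (by linarith) (by linarith) (by linarith) (by linarith) (by linarith) (by linarith) (by linarith) (by linarith) (by linarith) (by linarith))
              (by norm_num) (by linarith) (by linarith)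
    · rcases le_total 0 ((-1)*w + (-2)*e + (-2)*v + (1)) with h | h
      · rcases le_total 0 ((2/9)*s + (-1)*e + (1/9)) with h | h
        · rcases le_total 0 ((2/9)*w + e + (-2/9)) with h | h
          · exact .one _ _ _ _ 4
                (.mk 1 1 1 1 ((2/9)*s + (7/9)) (by norm_num) (by norm_num) (by linarith) (by linarith) (by linarith) (by linarith) (by linarith))
                (.k2 2 0 2 0 ((-1)*e + (1)) (by norm_num) (by norm_num) (by linarith) (by linarith) (by linarith) (by linarith) (by linarith))
                (by norm_num) (by linarith) (by linarith)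
          · exact .one _ _ _ _ 4
                (.mk 0 1 0 1 ((2/9)*s + (7/9)) (by norm_num) (by norm_num) (by linarith) (by linarith) (by linarith) (by linarith) (by linarith))
                (.k2 2 1 2 1 ((-1)*e + (-1)*v + (1)) (by norm_num) (by norm_num) (by linarith) (by linarith) (by linarith) (by linarith) (by linarith))
                (by norm_num) (by linarith) (by linarith)
        · exact .two _ _ _ _ _ _ _ _ 8
              (.mk 2 1 2 1 ((2/9)*s + (7/9)) (by norm_num) (by norm_num) (by linarith) (by linarith) (by linarith) (by linarith) (by linarith))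
              (.mk 2 1 2 1 ((2/9)*s + (7/9)) (by norm_num) (by norm_num) (by linarith) (by linarith) (by linarith) (by linarith) (by linarith))
              (.k2 2 0 2 0 ((-1)*e + (1)) (by norm_num) (by norm_num) (by linarith) (by linarith) (by linarith) (by linarith) (by linarith))
              (.k3 ((803/1000)) (by linarith) (by linarith) (by linarith) (by linarith) (by linarith) (by linarith) (by linarith) (by linarith) (by linarith) (by linarith))
              (by norm_num) (by linarith) (by linarith)
      · rcases le_total 0 ((-2/9)*s + (-2)*v + (2/9)) with h | h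
        · exact .one _ _ _ _ 4
              (.mk 2 2 2 2 ((2/9)*s + (7/9)) (by norm_num) (by norm_num) (by linarith) (by linarith) (by linarith) (by linarith) (by linarith))
              (.k3 ((4/5)) (by linarith) (by linarith) (by linarith) (by linarith) (by linarith) (by linarith) (by linarith) (by linarith) (by linarith) (by linarith))
              (by norm_num) (by linarith) (by linarith)
        · rcases le_total 0 ((-1)*w + (-5/2)*e + (1)) with h | h
          · exact .one _ _ _ _ 4
                (.mk 0 2 0 2 ((-2)*v + (1)) (by norm_num) (by norm_num) (by linarith) (by linarith) (by linarith) (by linarith) (by linarith))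
                (.k1 0 2 0 2 ((-3/4)*e + (1)) (by norm_num) (by norm_num) (by linarith) (by linarith) (by linarith) (by linarith) (by linarith))
                (by norm_num) (by linarith) (by linarith)
          · rcases le_total 0 ((-2)*v + (409/3000)) with h | h
            · exact .one _ _ _ _ 4
                  (.mk 2 2 2 2 ((-2)*v + (1)) (by norm_num) (by norm_num) (by linarith) (by linarith) (by linarith) (by linarith) (by linarith))
                  (.k3 ((803/1000)) (by linarith) (by linarith) (by linarith) (by linarith) (by linarith) (by linarith) (by linarith) (by linarith) (by linarith) (by linarith))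
                  (by norm_num) (by linarith) (by linarith)
            · exact .two _ _ _ _ _ _ _ _ 7
                  (.mk 2 1 2 1 ((2/9)*s + (7/9)) (by norm_num) (by norm_num) (by linarith) (by linarith) (by linarith) (by linarith) (by linarith))
                  (.mk 2 1 2 1 ((2/9)*s + (7/9)) (by norm_num) (by norm_num) (by linarith) (by linarith) (by linarith) (by linarith) (by linarith))
                  (.k2 1 0 1 0 ((-1)*e + (1)) (by norm_num) (by norm_num) (by linarith) (by linarith) (by linarith) (by linarith) (by linarith))
                  (.k3 ((803/1000)) (by linarith) (by linarith) (by linarith) (by linarith) (by linarith) (by linarith) (by linarith) (by linarith) (by linarith) (by linarith))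
                  (by norm_num) (by linarith) (by linarith)
  · rcases le_total 0 (s + w + e + (6)*v + (-4/3)) with h | h
    · rcases le_total 0 ((-1)*w + (-2)*e + (-3)*v + (1)) with h | h
      · rcases le_total 0 ((-2/9)*s + (-3/2)*v + (2/9)) with h | h
        · rcases le_total 0 ((2/9)*w + e + (-2/9)) with h | h
          · rcases le_total 0 (e + (-9/4)*v) with h | h
            · rcases le_total 0 ((2/9)*s + (-1)*e + (1/9)) with h | h
              · exact .one _ _ _ _ 6
                    (.mk 2 1 2 1 ((2/9)*s + (7/9)) (by norm_num) (by norm_num) (by linarith) (by linarith) (by linarith) (by linarith) (by linarith))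
                    (.k2 3 0 3 0 ((-1)*e + (1)) (by norm_num) (by norm_num) (by linarith) (by linarith) (by linarith) (by linarith) (by linarith))
                    (by norm_num) (by linarith) (by linarith)
              · exact .two _ _ _ _ _ _ _ _ 12
                    (.mk 2 2 2 2 ((2/9)*s + (7/9)) (by norm_num) (by norm_num) (by linarith) (by linarith) (by linarith) (by linarith) (by linarith))
                    (.mk 3 2 3 2 ((2/9)*s + (7/9)) (by norm_num) (by norm_num) (by linarith) (by linarith) (by linarith) (by linarith) (by linarith))
                    (.k2 3 0 3 0 ((-1)*e + (1)) (by norm_num) (by norm_num) (by linarith) (by linarith) (by linarith) (by linarith) (by linarith))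
                    (.k3 ((803/1000)) (by linarith) (by linarith) (by linarith) (by linarith) (by linarith) (by linarith) (by linarith) (by linarith) (by linarith) (by linarith))
                    (by norm_num) (by linarith) (by linarith)
            · exact .one _ _ _ _ 6
                  (.mk 2 1 2 1 ((2/9)*s + (7/9)) (by norm_num) (by norm_num) (by linarith) (by linarith) (by linarith) (by linarith) (by linarith))
                  (.k2 3 0 3 0 ((-9/4)*v + (1)) (by norm_num) (by norm_num) (by linarith) (by linarith) (by linarith) (by linarith) (by linarith))
                  (by norm_num) (by linarith) (by linarith)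
          · rcases le_total 0 ((2/9)*s + (-1)*e + (-1)*v + (1/9)) with h | h
            · exact .one _ _ _ _ 6
                  (.mk 2 1 2 1 ((2/9)*s + (7/9)) (by norm_num) (by norm_num) (by linarith) (by linarith) (by linarith) (by linarith) (by linarith))
                  (.k2 2 1 2 1 ((-1)*e + (-1)*v + (1)) (by norm_num) (by norm_num) (by linarith) (by linarith) (by linarith) (by linarith) (by linarith))
                  (by norm_num) (by linarith) (by linarith)
            · exact .one _ _ _ _ 6
                  (.mk 1 2 1 2 ((-2)*v + (1)) (by norm_num) (by norm_num) (by linarith) (by linarith) (by linarith) (by linarith) (by linarith))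
                  (.k1 1 2 1 2 ((-3/4)*e + (-3/4)*v + (1)) (by norm_num) (by norm_num) (by linarith) (by linarith) (by linarith) (by linarith) (by linarith))
                  (by norm_num) (by linarith) (by linarith)
        · exact .one _ _ _ _ 5
              (.mk 1 1 1 1 ((2/9)*s + (7/9)) (by norm_num) (by norm_num) (by linarith) (by linarith) (by linarith) (by linarith) (by linarith))
              (.k1 0 3 0 3 ((-3)*v + (1)) (by norm_num) (by norm_num) (by linarith) (by linarith) (by linarith) (by linarith) (by linarith))
              (by norm_num) (by linarith) (by linarith)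
      · rcases le_total 0 (s + w + e + (5)*v + (-4/3)) with h | h
        · rcases le_total 0 ((-1)*w + (-5/2)*e + (1)) with h | h
          · rcases le_total 0 ((3/4)*e + (-2)*v) with h | h
            · exact .one _ _ _ _ 5
                  (.mk 2 1 2 1 ((2/9)*s + (7/9)) (by norm_num) (by norm_num) (by linarith) (by linarith) (by linarith) (by linarith) (by linarith))
                  (.k1 0 2 0 2 ((-3/4)*e + (1)) (by norm_num) (by norm_num) (by linarith) (by linarith) (by linarith) (by linarith) (by linarith))
                  (by norm_num) (by linarith) (by linarith)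
            · exact .one _ _ _ _ 5
                  (.mk 1 2 1 2 ((-2)*v + (1)) (by norm_num) (by norm_num) (by linarith) (by linarith) (by linarith) (by linarith) (by linarith))
                  (.k1 0 2 0 2 ((-2)*v + (1)) (by norm_num) (by norm_num) (by linarith) (by linarith) (by linarith) (by linarith) (by linarith))
                  (by norm_num) (by linarith) (by linarith)
          · rcases le_total 0 ((-2/9)*s + (-9/4)*v + (2/9)) with h | h
            · exact .one _ _ _ _ 5
                  (.mk 3 2 3 2 ((2/9)*s + (7/9)) (by norm_num) (by norm_num) (by linarith) (by linarith) (by linarith) (by linarith) (by linarith))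
                  (.k3 ((4/5)) (by linarith) (by linarith) (by linarith) (by linarith) (by linarith) (by linarith) (by linarith) (by linarith) (by linarith) (by linarith))
                  (by norm_num) (by linarith) (by linarith)
            · exact .one _ _ _ _ 5
                  (.mk 2 3 2 3 ((-3)*v + (1)) (by norm_num) (by norm_num) (by linarith) (by linarith) (by linarith) (by linarith) (by linarith))
                  (.k4 ((1/3)*w + (1/12)*e + (2/3)) (by linarith) (by linarith) (by linarith) (by linarith) (by linarith))
                  (by norm_num) (by linarith) (by linarith)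
        · rcases le_total 0 ((-2/9)*s + (-3)*v + (2/9)) with h | h
          · exact .one _ _ _ _ 6
                (.mk 3 3 3 3 ((2/9)*s + (7/9)) (by norm_num) (by norm_num) (by linarith) (by linarith) (by linarith) (by linarith) (by linarith))
                (.k3 ((4/5)) (by linarith) (by linarith) (by linarith) (by linarith) (by linarith) (by linarith) (by linarith) (by linarith) (by linarith) (by linarith))
                (by norm_num) (by linarith) (by linarith)
          · exact .two _ _ _ _ _ _ _ _ 12
                (.mk 3 2 3 2 ((2/9)*s + (7/9)) (by norm_num) (by norm_num) (by linarith) (by linarith) (by linarith) (by linarith) (by linarith))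
                (.mk 3 2 3 2 ((2/9)*s + (7/9)) (by norm_num) (by norm_num) (by linarith) (by linarith) (by linarith) (by linarith) (by linarith))
                (.k2 2 0 2 0 ((-1)*e + (1)) (by norm_num) (by norm_num) (by linarith) (by linarith) (by linarith) (by linarith) (by linarith))
                (.k3 ((803/1000)) (by linarith) (by linarith) (by linarith) (by linarith) (by linarith) (by linarith) (by linarith) (by linarith) (by linarith) (by linarith))
                (by norm_num) (by linarith) (by linarith)
    · rcases le_total 0 (s + w + e + (8)*v + (-4/3)) with h | h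
      · rcases le_total 0 ((2/9)*s + (-1)*e + (1/9)) with h | h
        · rcases le_total 0 ((-2/9)*s + (-2)*v + (2/9)) with h | h
          · rcases le_total 0 ((-2/9)*s + (-9/4)*v + (2/9)) with h | h
            · rcases le_total 0 ((2/9)*w + e + (-2/9)) with h | h
              · exact .one _ _ _ _ 8
                    (.mk 3 2 3 2 ((2/9)*s + (7/9)) (by norm_num) (by norm_num) (by linarith) (by linarith) (by linarith) (by linarith) (by linarith))
                    (.k2 3 0 3 0 ((-1)*e + (1)) (by norm_num) (by norm_num) (by linarith) (by linarith) (by linarith) (by linarith) (by linarith))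
                    (by norm_num) (by linarith) (by linarith)
              · exact .one _ _ _ _ 8
                    (.mk 2 2 2 2 ((2/9)*s + (7/9)) (by norm_num) (by norm_num) (by linarith) (by linarith) (by linarith) (by linarith) (by linarith))
                    (.k2 3 1 3 1 ((-1)*e + (-1)*v + (1)) (by norm_num) (by norm_num) (by linarith) (by linarith) (by linarith) (by linarith) (by linarith))
                    (by norm_num) (by linarith) (by linarith)
            · exact .one _ _ _ _ 8
                  (.mk 3 3 3 3 ((-3)*v + (1)) (by norm_num) (by norm_num) (by linarith) (by linarith) (by linarith) (by linarith) (by linarith))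
                  (.k1 0 2 0 2 ((2/9)*w + (7/9)) (by norm_num) (by norm_num) (by linarith) (by linarith) (by linarith) (by linarith) (by linarith))
                  (by norm_num) (by linarith) (by linarith)
          · exact .one _ _ _ _ 7
                (.mk 1 2 1 2 ((-2)*v + (1)) (by norm_num) (by norm_num) (by linarith) (by linarith) (by linarith) (by linarith) (by linarith))
                (.k2 3 1 3 1 ((-1)*e + (-1)*v + (1)) (by norm_num) (by norm_num) (by linarith) (by linarith) (by linarith) (by linarith) (by linarith))
                (by norm_num) (by linarith) (by linarith)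
        · exact .two _ _ _ _ _ _ _ _ 15
              (.mk 3 3 3 3 ((2/9)*s + (7/9)) (by norm_num) (by norm_num) (by linarith) (by linarith) (by linarith) (by linarith) (by linarith))
              (.mk 4 3 4 3 ((2/9)*s + (7/9)) (by norm_num) (by norm_num) (by linarith) (by linarith) (by linarith) (by linarith) (by linarith))
              (.k2 2 0 2 0 ((-1)*e + (1)) (by norm_num) (by norm_num) (by linarith) (by linarith) (by linarith) (by linarith) (by linarith))
              (.k3 ((803/1000)) (by linarith) (by linarith) (by linarith) (by linarith) (by linarith) (by linarith) (by linarith) (by linarith) (by linarith) (by linarith))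
              (by norm_num) (by linarith) (by linarith)
      · rcases le_total 0 ((-1)*s + (-12)*v + (1)) with h | h
        · rcases le_total 0 (s + w + e + (10)*v + (-4/3)) with h | h
          · rcases le_total 0 ((-2/9)*w + (-3/4)*e + (2/9)) with h | h
            · exact .one _ _ _ _ 10
                  (.mk 4 4 4 4 ((-4)*v + (1)) (by norm_num) (by norm_num) (by linarith) (by linarith) (by linarith) (by linarith) (by linarith))
                  (.k1 0 2 0 2 ((2/9)*w + (7/9)) (by norm_num) (by norm_num) (by linarith) (by linarith) (by linarith) (by linarith) (by linarith))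
                  (by norm_num) (by linarith) (by linarith)
            · exact .one _ _ _ _ 9
                  (.mk 0 4 0 4 ((-4)*v + (1)) (by norm_num) (by norm_num) (by linarith) (by linarith) (by linarith) (by linarith) (by linarith))
                  (.k1 1 4 1 4 ((-3/4)*e + (-3/4)*v + (1)) (by norm_num) (by norm_num) (by linarith) (by linarith) (by linarith) (by linarith) (by linarith))
                  (by norm_num) (by linarith) (by linarith)
          · exact .one _ _ _ _ 12
                (.mk 2 3 2 3 ((2/9)*s + (7/9)) (by norm_num) (by norm_num) (by linarith) (by linarith) (by linarith) (by linarith) (by linarith))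
                (.k1 2 5 2 5 ((-5)*v + (1)) (by norm_num) (by norm_num) (by linarith) (by linarith) (by linarith) (by linarith) (by linarith))
                (by norm_num) (by linarith) (by linarith)
        · exact .one _ _ _ _ 9
              (.mk 1 3 1 3 ((-3)*v + (1)) (by norm_num) (by norm_num) (by linarith) (by linarith) (by linarith) (by linarith) (by linarith))
              (.k1 2 3 2 3 ((-3/4)*e + (-3/2)*v + (1)) (by norm_num) (by norm_num) (by linarith) (by linarith) (by linarith) (by linarith) (by linarith))
              (by norm_num) (by linarith) (by linarith)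

set_option maxHeartbeats 4000000 in
theorem treeB {s w e v : ℝ} (d1 : 4 / 9 ≤ s) (d2 : 2 / 9 + e ≤ w) (d3 : w ≤ s) (d4 : 2 * e ≤ w)
    (d5 : 13 / 100 ≤ e) (d6 : s + w + e + v ≤ 4 / 3) (d7 : w + 2 * e ≤ 1) (d8 : 7 / 100 ≤ v)
    (d9 : v ≤ 7 / 50) : Good s w e v := by
  rcases le_total 0 (s + w + e + (2)*v + (-4/3)) with h | h
  · rcases le_total 0 ((-1)*w + (-2)*e + (-1)*v + (1)) with h | h
    · rcases le_total 0 ((-2/9)*s + (-3/4)*v + (2/9)) with h | h
      · rcases le_total 0 ((2/9)*w + e + (-2/9)) with h | h
        · rcases le_total 0 ((2/9)*s + (-1)*e + (1/9)) with h | h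
          · exact .one _ _ _ _ 2
                (.mk 1 0 1 0 ((2/9)*s + (7/9)) (by norm_num) (by norm_num) (by linarith) (by linarith) (by linarith) (by linarith) (by linarith))
                (.k2 1 0 1 0 ((-1)*e + (1)) (by norm_num) (by norm_num) (by linarith) (by linarith) (by linarith) (by linarith) (by linarith))
                (by norm_num) (by linarith) (by linarith)
          · rcases le_total 0 ((-2/9)*s + (-1)*v + (2/9)) with h | h
            · exact .one _ _ _ _ 2
                  (.mk 1 1 1 1 ((2/9)*s + (7/9)) (by norm_num) (by norm_num) (by linarith) (by linarith) (by linarith) (by linarith) (by linarith))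
                  (.k3 ((4/5)) (by linarith) (by linarith) (by linarith) (by linarith) (by linarith) (by linarith) (by linarith) (by linarith) (by linarith) (by linarith))
                  (by norm_num) (by linarith) (by linarith)
            · exact .one _ _ _ _ 2
                  (.mk 0 1 0 1 ((-1)*v + (1)) (by norm_num) (by norm_num) (by linarith) (by linarith) (by linarith) (by linarith) (by linarith))
                  (.k1 0 1 0 1 ((-3/4)*e + (1)) (by norm_num) (by norm_num) (by linarith) (by linarith) (by linarith) (by linarith) (by linarith))
                  (by norm_num) (by linarith) (by linarith)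
        · exact .one _ _ _ _ 2
              (.mk 1 0 1 0 ((2/9)*s + (7/9)) (by norm_num) (by norm_num) (by linarith) (by linarith) (by linarith) (by linarith) (by linarith))
              (.k2 1 0 1 0 ((2/9)*w + (7/9)) (by norm_num) (by norm_num) (by linarith) (by linarith) (by linarith) (by linarith) (by linarith))
              (by norm_num) (by linarith) (by linarith)
      · rcases le_total 0 ((2/9)*w + e + (-2/9)) with h | h
        · rcases le_total 0 ((-1)*s + (-5/2)*v + (1)) with h | h
          · exact .one _ _ _ _ 2
                (.mk 1 0 1 0 ((-3/4)*v + (1)) (by norm_num) (by norm_num) (by linarith) (by linarith) (by linarith) (by linarith) (by linarith))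
                (.k2 1 0 1 0 ((-1)*e + (1)) (by norm_num) (by norm_num) (by linarith) (by linarith) (by linarith) (by linarith) (by linarith))
                (by norm_num) (by linarith) (by linarith)
          · exact .one _ _ _ _ 2
                (.mk 0 1 0 1 ((-1)*v + (1)) (by norm_num) (by norm_num) (by linarith) (by linarith) (by linarith) (by linarith) (by linarith))
                (.k2 1 0 1 0 ((-1)*e + (1)) (by norm_num) (by norm_num) (by linarith) (by linarith) (by linarith) (by linarith) (by linarith))
                (by norm_num) (by linarith) (by linarith)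
        · exact .one _ _ _ _ 2
              (.mk 0 1 0 1 ((-1)*v + (1)) (by norm_num) (by norm_num) (by linarith) (by linarith) (by linarith) (by linarith) (by linarith))
              (.k2 1 0 1 0 ((2/9)*w + (7/9)) (by norm_num) (by norm_num) (by linarith) (by linarith) (by linarith) (by linarith) (by linarith))
              (by norm_num) (by linarith) (by linarith)
    · rcases le_total 0 ((-2/9)*s + (-1)*v + (2/9)) with h | h
      · exact .one _ _ _ _ 2
            (.mk 1 1 1 1 ((2/9)*s + (7/9)) (by norm_num) (by norm_num) (by linarith) (by linarith) (by linarith) (by linarith) (by linarith))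
            (.k3 ((4/5)) (by linarith) (by linarith) (by linarith) (by linarith) (by linarith) (by linarith) (by linarith) (by linarith) (by linarith) (by linarith))
            (by norm_num) (by linarith) (by linarith)
      · rcases le_total 0 ((-1)*v + (409/3000)) with h | h
        · exact .one _ _ _ _ 2
              (.mk 1 1 1 1 ((-1)*v + (1)) (by norm_num) (by norm_num) (by linarith) (by linarith) (by linarith) (by linarith) (by linarith))
              (.k3 ((803/1000)) (by linarith) (by linarith) (by linarith) (by linarith) (by linarith) (by linarith) (by linarith) (by linarith) (by linarith) (by linarith))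
              (by norm_num) (by linarith) (by linarith)
        · rcases le_total 0 ((-1)*w + (-5/2)*e + (1)) with h | h
          · exact .one _ _ _ _ 2
                (.mk 1 1 1 1 ((-1)*v + (1)) (by norm_num) (by norm_num) (by linarith) (by linarith) (by linarith) (by linarith) (by linarith))
                (.k1 0 0 0 0 ((-3/4)*e + (1)) (by norm_num) (by norm_num) (by linarith) (by linarith) (by linarith) (by linarith) (by linarith))
                (by norm_num) (by linarith) (by linarith)
          · rcases le_total 0 ((3/14)*e + (-33/700)) with h | h
            · rcases le_total 0 ((-3/14)*e + (-1)*v + (4/21)) with h | h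
              · exact .one _ _ _ _ 2
                    (.mk 1 1 1 1 ((-1)*v + (1)) (by norm_num) (by norm_num) (by linarith) (by linarith) (by linarith) (by linarith) (by linarith))
                    (.k3 ((-3/14)*e + (6/7)) (by linarith) (by linarith) (by linarith) (by linarith) (by linarith) (by linarith) (by linarith) (by linarith) (by linarith) (by linarith))
                    (by norm_num) (by linarith) (by linarith)
              · exact .two _ _ _ _ _ _ _ _ 3
                    (.mk 1 0 1 0 ((2/9)*s + (7/9)) (by norm_num) (by norm_num) (by linarith) (by linarith) (by linarith) (by linarith) (by linarith))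
                    (.mk 1 1 1 1 ((-1)*v + (1)) (by norm_num) (by norm_num) (by linarith) (by linarith) (by linarith) (by linarith) (by linarith))
                    (.k3 ((-3/14)*e + (6/7)) (by linarith) (by linarith) (by linarith) (by linarith) (by linarith) (by linarith) (by linarith) (by linarith) (by linarith) (by linarith))
                    (.k3 ((-3/14)*e + (6/7)) (by linarith) (by linarith) (by linarith) (by linarith) (by linarith) (by linarith) (by linarith) (by linarith) (by linarith) (by linarith))
                    (by norm_num) (by linarith) (by linarith)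
            · exact .one _ _ _ _ 2
                  (.mk 1 1 1 1 ((-1)*v + (1)) (by norm_num) (by norm_num) (by linarith) (by linarith) (by linarith) (by linarith) (by linarith))
                  (.k3 ((81/100)) (by linarith) (by linarith) (by linarith) (by linarith) (by linarith) (by linarith) (by linarith) (by linarith) (by linarith) (by linarith))
                  (by norm_num) (by linarith) (by linarith)
  · rcases le_total 0 ((-2/9)*s + (-1)*v + (2/9)) with h | h
    · rcases le_total 0 (s + w + e + (3)*v + (-4/3)) with h | h
      · rcases le_total 0 ((2/9)*w + e + (-2/9)) with h | h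
        · rcases le_total 0 ((-1)*w + (-2)*e + (-1)*v + (1)) with h | h
          · rcases le_total 0 ((2/9)*s + (-1)*e + (1/9)) with h | h
            · exact .one _ _ _ _ 3
                  (.mk 1 1 1 1 ((2/9)*s + (7/9)) (by norm_num) (by norm_num) (by linarith) (by linarith) (by linarith) (by linarith) (by linarith))
                  (.k2 1 0 1 0 ((-1)*e + (1)) (by norm_num) (by norm_num) (by linarith) (by linarith) (by linarith) (by linarith) (by linarith))
                  (by norm_num) (by linarith) (by linarith)
            · rcases le_total 0 ((-2/9)*s + (-3/2)*v + (2/9)) with h | h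
              · exact .one _ _ _ _ 3
                    (.mk 2 1 2 1 ((2/9)*s + (7/9)) (by norm_num) (by norm_num) (by linarith) (by linarith) (by linarith) (by linarith) (by linarith))
                    (.k3 ((4/5)) (by linarith) (by linarith) (by linarith) (by linarith) (by linarith) (by linarith) (by linarith) (by linarith) (by linarith) (by linarith))
                    (by norm_num) (by linarith) (by linarith)
              · rcases le_total 0 ((-3/2)*v + (409/3000)) with h | h
                · exact .one _ _ _ _ 3
                      (.mk 2 1 2 1 ((-3/2)*v + (1)) (by norm_num) (by norm_num) (by linarith) (by linarith) (by linarith) (by linarith) (by linarith))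
                      (.k3 ((803/1000)) (by linarith) (by linarith) (by linarith) (by linarith) (by linarith) (by linarith) (by linarith) (by linarith) (by linarith) (by linarith))
                      (by norm_num) (by linarith) (by linarith)
                · rcases le_total 0 ((-1)*w + (-5/2)*e + (1)) with h | h
                  · exact .one _ _ _ _ 3
                        (.mk 1 1 1 1 ((2/9)*s + (7/9)) (by norm_num) (by norm_num) (by linarith) (by linarith) (by linarith) (by linarith) (by linarith))
                        (.k1 0 1 0 1 ((-3/4)*e + (1)) (by norm_num) (by norm_num) (by linarith) (by linarith) (by linarith) (by linarith) (by linarith))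
                        (by norm_num) (by linarith) (by linarith)
                  · rcases le_total 0 ((-29)*w + (-79/2)*e + (22)) with h | h
                    · exact .one _ _ _ _ 3
                          (.mk 2 1 2 1 ((-3/2)*v + (1)) (by norm_num) (by norm_num) (by linarith) (by linarith) (by linarith) (by linarith) (by linarith))
                          (.k4 ((1/3)*w + (1/12)*e + (2/3)) (by linarith) (by linarith) (by linarith) (by linarith) (by linarith))
                          (by norm_num) (by linarith) (by linarith)
                    · exact .two _ _ _ _ _ _ _ _ 5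
                          (.mk 1 1 1 1 ((2/9)*s + (7/9)) (by norm_num) (by norm_num) (by linarith) (by linarith) (by linarith) (by linarith) (by linarith))
                          (.mk 2 1 2 1 ((-3/2)*v + (1)) (by norm_num) (by norm_num) (by linarith) (by linarith) (by linarith) (by linarith) (by linarith))
                          (.k3 ((803/1000)) (by linarith) (by linarith) (by linarith) (by linarith) (by linarith) (by linarith) (by linarith) (by linarith) (by linarith) (by linarith))
                          (.k3 ((803/1000)) (by linarith) (by linarith) (by linarith) (by linarith) (by linarith) (by linarith) (by linarith) (by linarith) (by linarith) (by linarith))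
                          (by norm_num) (by linarith) (by linarith)
          · rcases le_total 0 ((-2/9)*s + (-3/2)*v + (2/9)) with h | h
            · exact .one _ _ _ _ 3
                  (.mk 2 1 2 1 ((2/9)*s + (7/9)) (by norm_num) (by norm_num) (by linarith) (by linarith) (by linarith) (by linarith) (by linarith))
                  (.k3 ((-3/14)*e + (6/7)) (by linarith) (by linarith) (by linarith) (by linarith) (by linarith) (by linarith) (by linarith) (by linarith) (by linarith) (by linarith))
                  (by norm_num) (by linarith) (by linarith)
            · rcases le_total 0 ((-3/14)*e + (-3/2)*v + (4/21)) with h | h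
              · exact .one _ _ _ _ 3
                    (.mk 2 1 2 1 ((-3/2)*v + (1)) (by norm_num) (by norm_num) (by linarith) (by linarith) (by linarith) (by linarith) (by linarith))
                    (.k3 ((-3/14)*e + (6/7)) (by linarith) (by linarith) (by linarith) (by linarith) (by linarith) (by linarith) (by linarith) (by linarith) (by linarith) (by linarith))
                    (by norm_num) (by linarith) (by linarith)
              · rcases le_total 0 ((-29)*w + (-79/2)*e + (22)) with h | h
                · exact .one _ _ _ _ 3
                      (.mk 2 1 2 1 ((-3/2)*v + (1)) (by norm_num) (by norm_num) (by linarith) (by linarith) (by linarith) (by linarith) (by linarith))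
                      (.k4 ((1/3)*w + (1/12)*e + (2/3)) (by linarith) (by linarith) (by linarith) (by linarith) (by linarith))
                      (by norm_num) (by linarith) (by linarith)
                · exact .two _ _ _ _ _ _ _ _ 5
                      (.mk 1 1 1 1 ((2/9)*s + (7/9)) (by norm_num) (by norm_num) (by linarith) (by linarith) (by linarith) (by linarith) (by linarith))
                      (.mk 2 1 2 1 ((-3/2)*v + (1)) (by norm_num) (by norm_num) (by linarith) (by linarith) (by linarith) (by linarith) (by linarith))
                      (.k3 ((-3/14)*e + (6/7)) (by linarith) (by linarith) (by linarith) (by linarith) (by linarith) (by linarith) (by linarith) (by linarith) (by linarith) (by linarith))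
                      (.k3 ((-3/14)*e + (6/7)) (by linarith) (by linarith) (by linarith) (by linarith) (by linarith) (by linarith) (by linarith) (by linarith) (by linarith) (by linarith))
                      (by norm_num) (by linarith) (by linarith)
        · exact .one _ _ _ _ 3
              (.mk 1 1 1 1 ((2/9)*s + (7/9)) (by norm_num) (by norm_num) (by linarith) (by linarith) (by linarith) (by linarith) (by linarith))
              (.k1 0 1 0 1 ((2/9)*w + (7/9)) (by norm_num) (by norm_num) (by linarith) (by linarith) (by linarith) (by linarith) (by linarith))
              (by norm_num) (by linarith) (by linarith)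
      · rcases le_total 0 ((2/9)*s + (-2)*v + (1/9)) with h | h
        · rcases le_total 0 (s + w + e + (4)*v + (-4/3)) with h | h
          · rcases le_total 0 ((2/9)*w + (2)*v + (-2/9)) with h | h
            · rcases le_total 0 ((-3/4)*e + (2)*v) with h | h
              · exact .one _ _ _ _ 4
                    (.mk 1 1 1 1 ((2/9)*s + (7/9)) (by norm_num) (by norm_num) (by linarith) (by linarith) (by linarith) (by linarith) (by linarith))
                    (.k1 0 2 0 2 ((-2)*v + (1)) (by norm_num) (by norm_num) (by linarith) (by linarith) (by linarith) (by linarith) (by linarith))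
                    (by norm_num) (by linarith) (by linarith)
              · rcases le_total 0 ((-1)*w + (-5/2)*e + (1)) with h | h
                · exact .one _ _ _ _ 4
                      (.mk 0 2 0 2 ((-2)*v + (1)) (by norm_num) (by norm_num) (by linarith) (by linarith) (by linarith) (by linarith) (by linarith))
                      (.k1 0 2 0 2 ((-3/4)*e + (1)) (by norm_num) (by norm_num) (by linarith) (by linarith) (by linarith) (by linarith) (by linarith))
                      (by norm_num) (by linarith) (by linarith)
                · exact .one _ _ _ _ 4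
                      (.mk 2 2 2 2 ((-2)*v + (1)) (by norm_num) (by norm_num) (by linarith) (by linarith) (by linarith) (by linarith) (by linarith))
                      (.k4 ((1/3)*w + (1/12)*e + (2/3)) (by linarith) (by linarith) (by linarith) (by linarith) (by linarith))
                      (by norm_num) (by linarith) (by linarith)
            · exact .one _ _ _ _ 4
                  (.mk 0 1 0 1 ((2/9)*s + (7/9)) (by norm_num) (by norm_num) (by linarith) (by linarith) (by linarith) (by linarith) (by linarith))
                  (.k1 0 3 0 3 ((-3)*v + (1)) (by norm_num) (by norm_num) (by linarith) (by linarith) (by linarith) (by linarith) (by linarith))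
                  (by norm_num) (by linarith) (by linarith)
          · rcases le_total 0 ((-2/9)*w + (-3/4)*e + (2/9)) with h | h
            · rcases le_total 0 ((-1)*s + (-6)*v + (1)) with h | h
              · rcases le_total 0 (s + w + e + (5)*v + (-4/3)) with h | h
                · exact .one _ _ _ _ 5
                      (.mk 2 2 2 2 ((-2)*v + (1)) (by norm_num) (by norm_num) (by linarith) (by linarith) (by linarith) (by linarith) (by linarith))
                      (.k1 0 1 0 1 ((2/9)*w + (7/9)) (by norm_num) (by norm_num) (by linarith) (by linarith) (by linarith) (by linarith) (by linarith))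
                      (by norm_num) (by linarith) (by linarith)
                · exact .one _ _ _ _ 6
                      (.mk 2 2 2 2 ((-2)*v + (1)) (by norm_num) (by norm_num) (by linarith) (by linarith) (by linarith) (by linarith) (by linarith))
                      (.k1 1 1 1 1 ((-3/4)*e + (-3/4)*v + (1)) (by norm_num) (by norm_num) (by linarith) (by linarith) (by linarith) (by linarith) (by linarith))
                      (by norm_num) (by linarith) (by linarith)
              · exact .one _ _ _ _ 5
                    (.mk 2 1 2 1 ((-3/2)*v + (1)) (by norm_num) (by norm_num) (by linarith) (by linarith) (by linarith) (by linarith) (by linarith))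
                    (.k1 1 1 1 1 ((-3/4)*e + (-3/4)*v + (1)) (by norm_num) (by norm_num) (by linarith) (by linarith) (by linarith) (by linarith) (by linarith))
                    (by norm_num) (by linarith) (by linarith)
            · exact .one _ _ _ _ 5
                  (.mk 1 2 1 2 ((-2)*v + (1)) (by norm_num) (by norm_num) (by linarith) (by linarith) (by linarith) (by linarith) (by linarith))
                  (.k2 2 0 2 0 ((-1)*e + (1)) (by norm_num) (by norm_num) (by linarith) (by linarith) (by linarith) (by linarith) (by linarith))
                  (by norm_num) (by linarith) (by linarith)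
        · rcases le_total 0 ((-1)*e + (3/2)*v) with h | h
          · rcases le_total 0 ((-1)*w + (-5)*v + (1)) with h | h
            · exact .one _ _ _ _ 4
                  (.mk 1 1 1 1 ((2/9)*s + (7/9)) (by norm_num) (by norm_num) (by linarith) (by linarith) (by linarith) (by linarith) (by linarith))
                  (.k2 2 0 2 0 ((-3/2)*v + (1)) (by norm_num) (by norm_num) (by linarith) (by linarith) (by linarith) (by linarith) (by linarith))
                  (by norm_num) (by linarith) (by linarith)
            · exact .m (by linarith) (by linarith) (by linarith) (by linarith) (by linarith) (by linarith) (by linarith) (by linarith) (by linarith) (by linarith) (by linarith) (by linarith)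
          · exact .one _ _ _ _ 4
                (.mk 1 1 1 1 ((2/9)*s + (7/9)) (by norm_num) (by norm_num) (by linarith) (by linarith) (by linarith) (by linarith) (by linarith))
                (.k2 2 0 2 0 ((-1)*e + (1)) (by norm_num) (by norm_num) (by linarith) (by linarith) (by linarith) (by linarith) (by linarith))
                (by norm_num) (by linarith) (by linarith)
    · rcases le_total 0 ((2/9)*w + e + (-2/9)) with h | h
      · rcases le_total 0 (s + w + e + (3)*v + (-4/3)) with h | h
        · exact .one _ _ _ _ 3
              (.mk 1 1 1 1 ((-1)*v + (1)) (by norm_num) (by norm_num) (by linarith) (by linarith) (by linarith) (by linarith) (by linarith))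
              (.k2 1 0 1 0 ((-1)*e + (1)) (by norm_num) (by norm_num) (by linarith) (by linarith) (by linarith) (by linarith) (by linarith))
              (by norm_num) (by linarith) (by linarith)
        · exact .m (by linarith) (by linarith) (by linarith) (by linarith) (by linarith) (by linarith) (by linarith) (by linarith) (by linarith) (by linarith) (by linarith) (by linarith)
      · rcases le_total 0 (s + w + e + (3)*v + (-4/3)) with h | h
        · exact .one _ _ _ _ 3
              (.mk 1 1 1 1 ((-1)*v + (1)) (by norm_num) (by norm_num) (by linarith) (by linarith) (by linarith) (by linarith) (by linarith))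
              (.k2 1 0 1 0 ((2/9)*w + (7/9)) (by norm_num) (by norm_num) (by linarith) (by linarith) (by linarith) (by linarith) (by linarith))
              (by norm_num) (by linarith) (by linarith)
        · exact .m (by linarith) (by linarith) (by linarith) (by linarith) (by linarith) (by linarith) (by linarith) (by linarith) (by linarith) (by linarith) (by linarith) (by linarith)

section cover

variable {u : Fin 5 → ℝ} {v : ℝ}

theorem lum01 (u : Fin 5 → ℝ) : lum u ![1, 1, 0, 0, 0] = {u 0, u 1} := by
  simp [lum, Fin.sum_univ_five, Multiset.singleton_add]

theorem lum234 (u : Fin 5 → ℝ) : lum u ![0, 0, 1, 1, 1] = {u 2, u 3, u 4} := by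
  simp [lum, Fin.sum_univ_five, Multiset.singleton_add]

theorem PC.col {t : ℕ} {N : ℝ} (h0 : 1 / 4 ≤ u 0 + u 1) (h : PC (u 0 + u 1) v t N) :
    Col0 v (lum u ![1, 1, 0, 0, 0]) t N := by
  cases h with
  | mk a b A B _ hA hB h1 h2 h3 h4 h5 =>
    subst hA; subst hB
    have := Col0.t6 (v := v) (u 0) (u 1) 0 0 a b N h0 (by simpa using h1) (by simpa using h2) h3
      (by simpa using h4) (by simpa using h5)
    rw [lum01]
    simpa using this

theorem QC.col {t : ℕ} {N : ℝ} (h0 : 1 / 4 ≤ u 2 + u 3) (h : QC (u 2 + u 3) (u 4) v t N) :
    Col0 v (lum u ![0, 0, 1, 1, 1]) t N := by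
  rw [lum234]
  have e3 : ({u 2, u 3} + {u 4} : Multiset ℝ) = {u 2, u 3, u 4} := by
    rw [Multiset.insert_eq_cons, Multiset.insert_eq_cons, Multiset.insert_eq_cons,
      Multiset.cons_add, Multiset.singleton_add]
  cases h with
  | k1 a b A B _ hA hB h1 h2 h3 h4 h5 =>
    subst hA; subst hB
    have := Col0.t6 (v := v) (u 2) (u 3) {u 4} 0 a b N h0 (by simpa using h1) (by simpa using h2)
      h3 (by simpa using h4) (by simpa using h5)
    rw [add_zero, e3] at this
    exact this
  | k2 a b A B _ hA hB h1 h2 h3 h4 h5 =>
    subst hA; subst hB
    have := Col0.t6 (v := v) (u 2) (u 3) 0 {u 4} a b N h0 (by simpa using h1) (by simpa using h2)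
      h3 (by simpa using h4) (by simpa using h5)
    rw [add_zero, e3] at this
    exact this
  | k3 N h1 h2 h7 h6 h8 h9 h10 h13 h14 h5 => apply Col0.t3a (u 2) (u 3) (u 4) N <;> linarith
  | k4 _ h1 h2 h3 h4 h5 =>
    exact .t3l _ _ _ _ h1 h2 h3 h4 h5

theorem good_cov (hu : Antitone u) (h4 : 0 ≤ u 4) (h2 : 2 / 9 ≤ u 2)
    (hg : Good (u 0 + u 1) (u 2 + u 3) (u 4) v) (hv : 0 ≤ v) (h3 : 13 / 100 ≤ u 3) :
    Cov0 u v := by
  have a01 : u 1 ≤ u 0 := hu (by decide)
  have a12 : u 2 ≤ u 1 := hu (by decide)
  have a23 : u 3 ≤ u 2 := hu (by decide)
  have a34 : u 4 ≤ u 3 := hu (by decide)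
  have hs : (∑ j, u j) = u 0 + u 1 + (u 2 + u 3) + u 4 := by
    rw [Fin.sum_univ_five]; ring
  cases hg with
  | one t t' N N' T hP hQ hT hN hS =>
    subst hT
    have c1 := hP.col (by linarith)
    have c2 := hQ.col (by linarith)
    push_cast at hS
    refine ⟨2, ![1 / 2, 1 / 2], ![![1, 1, 0, 0, 0], ![0, 0, 1, 1, 1]], ![t, t'], ![N, N'],
      ?_, ?_, ?_, ?_, ?_, ?_⟩
    · intro q; fin_cases q <;> norm_num
    · intro j; fin_cases j <;> simp [Fin.sum_univ_two]
    · intro q
      fin_cases q
      · exact c1
      · exact c2
    · simp [Fin.sum_univ_two]; norm_num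
    · unfold R₁
      rw [hs]
      simp only [Fin.sum_univ_two, Matrix.cons_val_zero, Matrix.cons_val_one]
      nlinarith
    · have : min (R₁ u v ![1 / 2, 1 / 2] ![t, t']) (1 - ∑ q, (![1 / 2, 1 / 2] : Fin 2 → ℝ) q) ≤ 0 := by
        refine (min_le_right _ _).trans ?_
        simp [Fin.sum_univ_two]; norm_num
      simp only [Fin.sum_univ_two, Matrix.cons_val_zero, Matrix.cons_val_one] at this ⊢
      linarith
  | two t₁ t₂ t₃ t₄ N₁ N₂ N₃ N₄ T hP₁ hP₂ hQ₁ hQ₂ hT hN hS =>
    subst hT
    have c1 := hP₁.col (by linarith)
    have c2 := hP₂.col (by linarith)
    have c3 := hQ₁.col (by linarith)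
    have c4 := hQ₂.col (by linarith)
    push_cast at hS
    refine ⟨4, ![1 / 4, 1 / 4, 1 / 4, 1 / 4], ![![1, 1, 0, 0, 0], ![1, 1, 0, 0, 0],
      ![0, 0, 1, 1, 1], ![0, 0, 1, 1, 1]], ![t₁, t₂, t₃, t₄], ![N₁, N₂, N₃, N₄],
      ?_, ?_, ?_, ?_, ?_, ?_⟩
    · intro q; fin_cases q <;> norm_num
    · intro j; fin_cases j <;> simp [Fin.sum_univ_four] <;> norm_num
    · intro q
      fin_cases q
      · exact c1
      · exact c2
      · exact c3
      · exact c4
    · simp [Fin.sum_univ_four]; norm_num
    · unfold R₁
      rw [hs]
      simp only [Fin.sum_univ_four, Matrix.cons_val_zero, Matrix.cons_val_one, Matrix.cons_val]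
      nlinarith
    · have : min (R₁ u v ![1 / 4, 1 / 4, 1 / 4, 1 / 4] ![t₁, t₂, t₃, t₄])
          (1 - ∑ q, (![1 / 4, 1 / 4, 1 / 4, 1 / 4] : Fin 4 → ℝ) q) ≤ 0 := by
        refine (min_le_right _ _).trans ?_
        simp [Fin.sum_univ_four]; norm_num
      simp only [Fin.sum_univ_four, Matrix.cons_val_zero, Matrix.cons_val_one,
        Matrix.cons_val] at this ⊢
      linarith
  | m h1 h2' h3' h4' h5 h6 h7 h8 h9 h10 h11 h12 =>
    have c1 : Col0 v (lum u ![1, 1, 0, 0, 1]) 1 (43 / 50) := by
      have e : lum u ![1, 1, 0, 0, 1] = {u 0, u 1} + {u 4} + 0 := by
        simp [lum, Fin.sum_univ_five, Multiset.singleton_add, Multiset.insert_eq_cons]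
      rw [e]
      exact Col0.t6 (v := v) (u 0) (u 1) {u 4} 0 0 1 (43 / 50) (by linarith) (by simp; linarith)
        (by simp; linarith) (by linarith) (by simp; linarith) (by simp; linarith)
    have c2 : Col0 v (lum u ![1, 1, 0, 1, 0]) 1 (43 / 50) := by
      have e : lum u ![1, 1, 0, 1, 0] = {u 0, u 1} + {u 3} + 0 := by
        simp [lum, Fin.sum_univ_five, Multiset.singleton_add, Multiset.insert_eq_cons]
      rw [e]
      exact Col0.t6 (v := v) (u 0) (u 1) {u 3} 0 0 1 (43 / 50) (by linarith) (by simp; linarith)
        (by simp; linarith) (by linarith) (by simp; linarith) (by simp; linarith)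
    have c3 : Col0 v (lum u ![0, 0, 1, 1, 1]) 1 (171 / 200) := by
      refine QC.col (by linarith) (.k1 0 1 0 1 (171 / 200) (by norm_num) (by norm_num)
        (by linarith) (by linarith) (by linarith) (by linarith) (by linarith))
    have c4 : Col0 v (lum u ![0, 0, 2, 0, 0]) 2 (43 / 50) := by
      have e : lum u ![0, 0, 2, 0, 0] = {u 2, u 2} + 0 + 0 := by
        simp [lum, Fin.sum_univ_five, Multiset.replicate_succ, Multiset.insert_eq_cons]
      rw [e]
      exact Col0.t6 (v := v) (u 2) (u 2) 0 0 1 1 (43 / 50) (by linarith) (by simp; linarith)
        (by simp; linarith) (by linarith) (by simp; linarith) (by simp; linarith)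
    refine ⟨4, ![1 / 4, 1 / 4, 1 / 4, 1 / 8], ![![1, 1, 0, 0, 1], ![1, 1, 0, 1, 0],
      ![0, 0, 1, 1, 1], ![0, 0, 2, 0, 0]], ![1, 1, 1, 2], ![43 / 50, 43 / 50, 171 / 200, 43 / 50],
      ?_, ?_, ?_, ?_, ?_, ?_⟩
    · intro q; fin_cases q <;> norm_num
    · intro j; fin_cases j <;> simp [Fin.sum_univ_four] <;> norm_num
    · intro q
      fin_cases q
      · exact c1
      · exact c2
      · exact c3
      · exact c4
    · simp [Fin.sum_univ_four]; norm_num
    · unfold R₁
      rw [hs]
      simp only [Fin.sum_univ_four, Matrix.cons_val_zero, Matrix.cons_val_one, Matrix.cons_val]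
      push_cast
      linarith
    · have : min (R₁ u v ![1 / 4, 1 / 4, 1 / 4, 1 / 8] ![1, 1, 1, 2])
          (1 - ∑ q, (![1 / 4, 1 / 4, 1 / 4, 1 / 8] : Fin 4 → ℝ) q) ≤ 1 / 8 := by
        refine (min_le_right _ _).trans ?_
        simp [Fin.sum_univ_four]; norm_num
      simp only [Fin.sum_univ_four, Matrix.cons_val_zero, Matrix.cons_val_one,
        Matrix.cons_val] at this ⊢
      linarith

end cover

/-- **CovK 5 for three lumps `≥ 2/9`** -/
theorem cov5_hi (u : Fin 5 → ℝ) (hu : Antitone u) (hlo : ∀ j, 13 / 100 ≤ u j)
    (hS : ∑ j, u j ≤ 4 / 3) (hNE : NoNE u) (h2 : 2 / 9 ≤ u 2) :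
    (∀ v, 7 / 200 ≤ v → v ≤ 7 / 100 → Cov0 u v) ∧
    (∀ v, 7 / 100 ≤ v → v ≤ 7 / 50 → (∑ j, u j) + v ≤ 4 / 3 → Cov0 u v) := by
  have a01 : u 1 ≤ u 0 := hu (by decide)
  have a12 : u 2 ≤ u 1 := hu (by decide)
  have a23 : u 3 ≤ u 2 := hu (by decide)
  have a34 : u 4 ≤ u 3 := hu (by decide)
  have l4 := hlo 4
  have hs : (∑ j, u j) = u 0 + u 1 + (u 2 + u 3) + u 4 := by
    rw [Fin.sum_univ_five]; ring
  have hne : u 2 + u 3 + 2 * u 4 ≤ 1 := hNE le_rfl
  rw [hs] at hS ⊢
  refine ⟨fun v v0 v1 => ?_, fun v v0 v1 hv => ?_⟩
  · exact good_cov hu (by linarith) h2 (treeA (by linarith) (by linarith) (by linarith)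
      (by linarith) (by linarith) (by linarith) (by linarith) v0 v1) (by linarith) (by linarith)
  · exact good_cov hu (by linarith) h2 (treeB (by linarith) (by linarith) (by linarith)
      (by linarith) (by linarith) (by linarith) (by linarith) v0 v1) (by linarith) (by linarith)

end Crest.Agent.R017.Cov5_325
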