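import Crest.Agent.R017.Cov5_325

/-!
# Row 17, hcore : five lumps, the largest `≥ 1/3`, the third `≤ 2/9` (helper325)
-/

set_option autoImplicit false

namespace Crest.Agent.R017.Cov5_325

open Crest.Agent.R017.Cov499

/-- the two kinds of leaves which need no lower bound of the third lump -/
inductive GoodB (s w e v : ℝ) : Prop
  | one (t t' : ℕ) (N N' T : ℝ) (hP : PC s v t N) (hQ : QC w e v t' N')
      (hT : (((t + t' : ℕ) : ℝ)) = T) (hN : 5 / 3 ≤ N + N') (hS : 4 / 3 ≤ s + w + e + T * v)
  | two (t₁ t₂ t₃ t₄ : ℕ) (N₁ N₂ N₃ N₄ T : ℝ) (hP₁ : PC s v t₁ N₁) (hP₂ : PC s v t₂ N₂)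
      (hQ₁ : QC w e v t₃ N₃) (hQ₂ : QC w e v t₄ N₄) (hT : (((t₁ + t₂ + t₃ + t₄ : ℕ) : ℝ)) = T)
      (hN : 10 / 3 ≤ N₁ + N₂ + N₃ + N₄) (hS : 4 / 3 ≤ s + w + e + T / 2 * v)

set_option maxHeartbeats 4000000 in
theorem treeC {s w e v : ℝ} (d1 : 1 / 3 + w / 2 ≤ s) (d2 : w ≤ 4 / 9) (d3 : 2 * e ≤ w)
    (d4 : 13 / 100 ≤ e) (d5 : s + w + e ≤ 4 / 3) (d6 : 7 / 200 ≤ v) (d7 : v ≤ 7 / 100) :
    GoodB s w e v := by
  rcases le_total 0 (s + w + e + (4)*v + (-4/3)) with h | h
  · rcases le_total 0 ((-1)*w + (-2)*e + (-5)*v + (1)) with h | h
    · rcases le_total 0 ((2/9)*s + (-1)*e + (-1)*v + (1/9)) with h | h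
      · exact .one _ _ _ _ 4
            (.mk 0 0 0 0 ((2/9)*s + (7/9)) (by norm_num) (by norm_num) (by linarith) (by linarith) (by linarith) (by linarith) (by linarith))
            (.k2 3 1 3 1 ((-1)*e + (-1)*v + (1)) (by norm_num) (by norm_num) (by linarith) (by linarith) (by linarith) (by linarith) (by linarith))
            (by norm_num) (by linarith) (by linarith)
      · exact .one _ _ _ _ 5
            (.mk 0 1 0 1 ((2/9)*s + (7/9)) (by norm_num) (by norm_num) (by linarith) (by linarith) (by linarith) (by linarith) (by linarith))
            (.k2 4 0 4 0 ((-1)*e + (1)) (by norm_num) (by norm_num) (by linarith) (by linarith) (by linarith) (by linarith) (by linarith))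
            (by norm_num) (by linarith) (by linarith)
    · rcases le_total 0 ((-1)*w + (-2)*e + (-4)*v + (1)) with h | h
      · rcases le_total 0 ((-1)*w + (-5/2)*e + (-5/2)*v + (1)) with h | h
        · rcases le_total 0 (s + w + e + (3)*v + (-4/3)) with h | h
          · exact .one _ _ _ _ 3
                (.mk 0 0 0 0 ((2/9)*s + (7/9)) (by norm_num) (by norm_num) (by linarith) (by linarith) (by linarith) (by linarith) (by linarith))
                (.k1 1 2 1 2 ((-3/4)*e + (-3/4)*v + (1)) (by norm_num) (by norm_num) (by linarith) (by linarith) (by linarith) (by linarith) (by linarith))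
                (by norm_num) (by linarith) (by linarith)
          · exact .one _ _ _ _ 4
                (.mk 0 1 0 1 ((2/9)*s + (7/9)) (by norm_num) (by norm_num) (by linarith) (by linarith) (by linarith) (by linarith) (by linarith))
                (.k1 1 2 1 2 ((-3/4)*e + (-3/4)*v + (1)) (by norm_num) (by norm_num) (by linarith) (by linarith) (by linarith) (by linarith) (by linarith))
                (by norm_num) (by linarith) (by linarith)
        · exact .one _ _ _ _ 4
              (.mk 1 0 1 0 ((2/9)*s + (7/9)) (by norm_num) (by norm_num) (by linarith) (by linarith) (by linarith) (by linarith) (by linarith))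
              (.k2 3 0 3 0 ((-1)*e + (1)) (by norm_num) (by norm_num) (by linarith) (by linarith) (by linarith) (by linarith) (by linarith))
              (by norm_num) (by linarith) (by linarith)
      · rcases le_total 0 (s + w + e + (2)*v + (-4/3)) with h | h
        · rcases le_total 0 ((-1)*w + (-2)*e + (-2)*v + (1)) with h | h
          · exact .one _ _ _ _ 2
                (.mk 0 0 0 0 ((2/9)*s + (7/9)) (by norm_num) (by norm_num) (by linarith) (by linarith) (by linarith) (by linarith) (by linarith))
                (.k2 2 0 2 0 ((-1)*e + (1)) (by norm_num) (by norm_num) (by linarith) (by linarith) (by linarith) (by linarith) (by linarith))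
                (by norm_num) (by linarith) (by linarith)
          · exact .one _ _ _ _ 2
                (.mk 1 0 1 0 ((2/9)*s + (7/9)) (by norm_num) (by norm_num) (by linarith) (by linarith) (by linarith) (by linarith) (by linarith))
                (.k2 1 0 1 0 ((-1)*e + (1)) (by norm_num) (by norm_num) (by linarith) (by linarith) (by linarith) (by linarith) (by linarith))
                (by norm_num) (by linarith) (by linarith)
        · exact .one _ _ _ _ 4
              (.mk 1 1 1 1 ((2/9)*s + (7/9)) (by norm_num) (by norm_num) (by linarith) (by linarith) (by linarith) (by linarith) (by linarith))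
              (.k2 2 0 2 0 ((-1)*e + (1)) (by norm_num) (by norm_num) (by linarith) (by linarith) (by linarith) (by linarith) (by linarith))
              (by norm_num) (by linarith) (by linarith)
  · rcases le_total 0 (s + w + e + (6)*v + (-4/3)) with h | h
    · rcases le_total 0 ((-1)*w + (-2)*e + (-5)*v + (1)) with h | h
      · rcases le_total 0 ((2/9)*s + (-1)*e + (-1)*v + (1/9)) with h | h
        · exact .one _ _ _ _ 6
              (.mk 1 1 1 1 ((2/9)*s + (7/9)) (by norm_num) (by norm_num) (by linarith) (by linarith) (by linarith) (by linarith) (by linarith))
              (.k2 3 1 3 1 ((-1)*e + (-1)*v + (1)) (by norm_num) (by norm_num) (by linarith) (by linarith) (by linarith) (by linarith) (by linarith))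
              (by norm_num) (by linarith) (by linarith)
        · rcases le_total 0 ((3/4)*e + (-9/4)*v) with h | h
          · exact .one _ _ _ _ 6
                (.mk 1 1 1 1 ((2/9)*s + (7/9)) (by norm_num) (by norm_num) (by linarith) (by linarith) (by linarith) (by linarith) (by linarith))
                (.k2 4 0 4 0 ((-1)*e + (1)) (by norm_num) (by norm_num) (by linarith) (by linarith) (by linarith) (by linarith) (by linarith))
                (by norm_num) (by linarith) (by linarith)
          · exact .one _ _ _ _ 6
                (.mk 1 1 1 1 ((2/9)*s + (7/9)) (by norm_num) (by norm_num) (by linarith) (by linarith) (by linarith) (by linarith) (by linarith))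
                (.k1 1 3 1 3 ((-3)*v + (1)) (by norm_num) (by norm_num) (by linarith) (by linarith) (by linarith) (by linarith) (by linarith))
                (by norm_num) (by linarith) (by linarith)
      · rcases le_total 0 ((-1)*w + (-5/2)*e + (-5/2)*v + (1)) with h | h
        · exact .one _ _ _ _ 5
              (.mk 1 1 1 1 ((2/9)*s + (7/9)) (by norm_num) (by norm_num) (by linarith) (by linarith) (by linarith) (by linarith) (by linarith))
              (.k1 1 2 1 2 ((-3/4)*e + (-3/4)*v + (1)) (by norm_num) (by norm_num) (by linarith) (by linarith) (by linarith) (by linarith) (by linarith))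
              (by norm_num) (by linarith) (by linarith)
        · exact .one _ _ _ _ 6
              (.mk 2 1 2 1 ((2/9)*s + (7/9)) (by norm_num) (by norm_num) (by linarith) (by linarith) (by linarith) (by linarith) (by linarith))
              (.k2 3 0 3 0 ((-1)*e + (1)) (by norm_num) (by norm_num) (by linarith) (by linarith) (by linarith) (by linarith) (by linarith))
              (by norm_num) (by linarith) (by linarith)
    · rcases le_total 0 (s + w + e + (7)*v + (-4/3)) with h | h
      · rcases le_total 0 ((2/9)*s + (-1)*e + (-1)*v + (1/9)) with h | h
        · exact .one _ _ _ _ 7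
              (.mk 2 1 2 1 ((2/9)*s + (7/9)) (by norm_num) (by norm_num) (by linarith) (by linarith) (by linarith) (by linarith) (by linarith))
              (.k2 3 1 3 1 ((-1)*e + (-1)*v + (1)) (by norm_num) (by norm_num) (by linarith) (by linarith) (by linarith) (by linarith) (by linarith))
              (by norm_num) (by linarith) (by linarith)
        · exact .one _ _ _ _ 7
              (.mk 2 1 2 1 ((2/9)*s + (7/9)) (by norm_num) (by norm_num) (by linarith) (by linarith) (by linarith) (by linarith) (by linarith))
              (.k2 4 0 4 0 ((-1)*e + (1)) (by norm_num) (by norm_num) (by linarith) (by linarith) (by linarith) (by linarith) (by linarith))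
              (by norm_num) (by linarith) (by linarith)
      · rcases le_total 0 (s + w + e + (9)*v + (-4/3)) with h | h
        · rcases le_total 0 (e + (-11/4)*v) with h | h
          · exact .one _ _ _ _ 9
                (.mk 2 1 2 1 ((2/9)*s + (7/9)) (by norm_num) (by norm_num) (by linarith) (by linarith) (by linarith) (by linarith) (by linarith))
                (.k2 5 1 5 1 ((-1)*e + (-1)*v + (1)) (by norm_num) (by norm_num) (by linarith) (by linarith) (by linarith) (by linarith) (by linarith))
                (by norm_num) (by linarith) (by linarith)
          · rcases le_total 0 ((-1)*s + (-9)*v + (1)) with h | h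
            · exact .one _ _ _ _ 9
                  (.mk 2 2 2 2 ((2/9)*s + (7/9)) (by norm_num) (by norm_num) (by linarith) (by linarith) (by linarith) (by linarith) (by linarith))
                  (.k1 2 3 2 3 ((-3/4)*e + (-3/2)*v + (1)) (by norm_num) (by norm_num) (by linarith) (by linarith) (by linarith) (by linarith) (by linarith))
                  (by norm_num) (by linarith) (by linarith)
            · rcases le_total 0 (s + w + e + (8)*v + (-4/3)) with h | h
              · exact .one _ _ _ _ 8
                    (.mk 3 2 3 2 ((-9/4)*v + (1)) (by norm_num) (by norm_num) (by linarith) (by linarith) (by linarith) (by linarith) (by linarith))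
                    (.k1 1 2 1 2 ((2/9)*w + (7/9)) (by norm_num) (by norm_num) (by linarith) (by linarith) (by linarith) (by linarith) (by linarith))
                    (by norm_num) (by linarith) (by linarith)
              · exact .one _ _ _ _ 9
                    (.mk 3 2 3 2 ((-9/4)*v + (1)) (by norm_num) (by norm_num) (by linarith) (by linarith) (by linarith) (by linarith) (by linarith))
                    (.k1 2 2 2 2 ((-3/4)*e + (-3/2)*v + (1)) (by norm_num) (by norm_num) (by linarith) (by linarith) (by linarith) (by linarith) (by linarith))
                    (by norm_num) (by linarith) (by linarith)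
        · rcases le_total 0 (s + w + e + (11)*v + (-4/3)) with h | h
          · rcases le_total 0 ((2/9)*s + (-1)*e + (-2)*v + (1/9)) with h | h
            · exact .one _ _ _ _ 11
                  (.mk 2 2 2 2 ((2/9)*s + (7/9)) (by norm_num) (by norm_num) (by linarith) (by linarith) (by linarith) (by linarith) (by linarith))
                  (.k2 5 2 5 2 ((-1)*e + (-2)*v + (1)) (by norm_num) (by norm_num) (by linarith) (by linarith) (by linarith) (by linarith) (by linarith))
                  (by norm_num) (by linarith) (by linarith)
            · rcases le_total 0 (e + (-11/4)*v) with h | h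
              · exact .one _ _ _ _ 11
                    (.mk 3 2 3 2 ((2/9)*s + (7/9)) (by norm_num) (by norm_num) (by linarith) (by linarith) (by linarith) (by linarith) (by linarith))
                    (.k2 5 1 5 1 ((-1)*e + (-1)*v + (1)) (by norm_num) (by norm_num) (by linarith) (by linarith) (by linarith) (by linarith) (by linarith))
                    (by norm_num) (by linarith) (by linarith)
              · exact .one _ _ _ _ 11
                    (.mk 4 3 4 3 ((-3)*v + (1)) (by norm_num) (by norm_num) (by linarith) (by linarith) (by linarith) (by linarith) (by linarith))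
                    (.k1 1 3 1 3 ((2/9)*w + (7/9)) (by norm_num) (by norm_num) (by linarith) (by linarith) (by linarith) (by linarith) (by linarith))
                    (by norm_num) (by linarith) (by linarith)
          · rcases le_total 0 (s + w + e + (12)*v + (-4/3)) with h | h
            · exact .one _ _ _ _ 12
                  (.mk 3 2 3 2 ((2/9)*s + (7/9)) (by norm_num) (by norm_num) (by linarith) (by linarith) (by linarith) (by linarith) (by linarith))
                  (.k1 3 4 3 4 ((-3/4)*e + (-9/4)*v + (1)) (by norm_num) (by norm_num) (by linarith) (by linarith) (by linarith) (by linarith) (by linarith))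
                  (by norm_num) (by linarith) (by linarith)
            · exact .one _ _ _ _ 14
                  (.mk 3 2 3 2 ((2/9)*s + (7/9)) (by norm_num) (by norm_num) (by linarith) (by linarith) (by linarith) (by linarith) (by linarith))
                  (.k2 7 2 7 2 ((-1)*e + (-2)*v + (1)) (by norm_num) (by norm_num) (by linarith) (by linarith) (by linarith) (by linarith) (by linarith))
                  (by norm_num) (by linarith) (by linarith)

set_option maxHeartbeats 4000000 in
theorem treeD {s w e v : ℝ} (d1 : 1 / 3 + w / 2 ≤ s) (d2 : w ≤ 4 / 9) (d3 : 2 * e ≤ w)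
    (d4 : 13 / 100 ≤ e) (d5 : s + w + e + v ≤ 4 / 3) (d6 : 7 / 100 ≤ v) (d7 : v ≤ 13 / 100) :
    GoodB s w e v := by
  rcases le_total 0 (s + w + e + (2)*v + (-4/3)) with h | h
  · rcases le_total 0 ((-2/9)*s + (-3/4)*v + (2/9)) with h | h
    · rcases le_total 0 ((2/9)*w + e + (-2/9)) with h | h
      · exact .one _ _ _ _ 2
            (.mk 1 0 1 0 ((2/9)*s + (7/9)) (by norm_num) (by norm_num) (by linarith) (by linarith) (by linarith) (by linarith) (by linarith))
            (.k2 1 0 1 0 ((-1)*e + (1)) (by norm_num) (by norm_num) (by linarith) (by linarith) (by linarith) (by linarith) (by linarith))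
            (by norm_num) (by linarith) (by linarith)
      · exact .one _ _ _ _ 2
            (.mk 1 0 1 0 ((2/9)*s + (7/9)) (by norm_num) (by norm_num) (by linarith) (by linarith) (by linarith) (by linarith) (by linarith))
            (.k1 0 1 0 1 ((2/9)*w + (7/9)) (by norm_num) (by norm_num) (by linarith) (by linarith) (by linarith) (by linarith) (by linarith))
            (by norm_num) (by linarith) (by linarith)
    · rcases le_total 0 ((2/9)*s + (-1)*e + (-1)*v + (1/9)) with h | h
      · rcases le_total 0 ((-1)*s + (-2)*v + (1)) with h | h
        · exact .one _ _ _ _ 2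
              (.mk 0 1 0 1 ((-1)*v + (1)) (by norm_num) (by norm_num) (by linarith) (by linarith) (by linarith) (by linarith) (by linarith))
              (.k1 0 1 0 1 ((2/9)*w + (7/9)) (by norm_num) (by norm_num) (by linarith) (by linarith) (by linarith) (by linarith) (by linarith))
              (by norm_num) (by linarith) (by linarith)
        · exact .one _ _ _ _ 2
              (.mk 0 0 0 0 ((2/9)*s + (7/9)) (by norm_num) (by norm_num) (by linarith) (by linarith) (by linarith) (by linarith) (by linarith))
              (.k2 1 1 1 1 ((-1)*e + (-1)*v + (1)) (by norm_num) (by norm_num) (by linarith) (by linarith) (by linarith) (by linarith) (by linarith))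
              (by norm_num) (by linarith) (by linarith)
      · rcases le_total 0 ((-1)*s + (-5/2)*v + (1)) with h | h
        · rcases le_total 0 ((2/9)*w + e + (-2/9)) with h | h
          · exact .one _ _ _ _ 2
                (.mk 1 0 1 0 ((-3/4)*v + (1)) (by norm_num) (by norm_num) (by linarith) (by linarith) (by linarith) (by linarith) (by linarith))
                (.k2 1 0 1 0 ((-1)*e + (1)) (by norm_num) (by norm_num) (by linarith) (by linarith) (by linarith) (by linarith) (by linarith))
                (by norm_num) (by linarith) (by linarith)
          · exact .one _ _ _ _ 2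
                (.mk 0 1 0 1 ((-1)*v + (1)) (by norm_num) (by norm_num) (by linarith) (by linarith) (by linarith) (by linarith) (by linarith))
                (.k1 0 1 0 1 ((2/9)*w + (7/9)) (by norm_num) (by norm_num) (by linarith) (by linarith) (by linarith) (by linarith) (by linarith))
                (by norm_num) (by linarith) (by linarith)
        · rcases le_total 0 ((-1)*s + (-2)*v + (1)) with h | h
          · exact .one _ _ _ _ 2
                (.mk 0 1 0 1 ((-1)*v + (1)) (by norm_num) (by norm_num) (by linarith) (by linarith) (by linarith) (by linarith) (by linarith))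
                (.k1 0 1 0 1 ((2/9)*w + (7/9)) (by norm_num) (by norm_num) (by linarith) (by linarith) (by linarith) (by linarith) (by linarith))
                (by norm_num) (by linarith) (by linarith)
          · exact .one _ _ _ _ 2
                (.mk 0 0 0 0 ((2/9)*s + (7/9)) (by norm_num) (by norm_num) (by linarith) (by linarith) (by linarith) (by linarith) (by linarith))
                (.k2 2 0 2 0 ((-3/2)*v + (1)) (by norm_num) (by norm_num) (by linarith) (by linarith) (by linarith) (by linarith) (by linarith))
                (by norm_num) (by linarith) (by linarith)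
  · rcases le_total 0 (s + w + e + (3)*v + (-4/3)) with h | h
    · rcases le_total 0 ((2/9)*w + (-2)*v + (1/9)) with h | h
      · rcases le_total 0 ((-1)*s + (-4)*v + (1)) with h | h
        · rcases le_total 0 ((-2/9)*w + (-3/4)*e + (2/9)) with h | h
          · exact .one _ _ _ _ 3
                (.mk 0 2 0 2 ((-2)*v + (1)) (by norm_num) (by norm_num) (by linarith) (by linarith) (by linarith) (by linarith) (by linarith))
                (.k1 0 1 0 1 ((2/9)*w + (7/9)) (by norm_num) (by norm_num) (by linarith) (by linarith) (by linarith) (by linarith) (by linarith))
                (by norm_num) (by linarith) (by linarith)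
          · exact .one _ _ _ _ 3
                (.mk 1 0 1 0 ((2/9)*s + (7/9)) (by norm_num) (by norm_num) (by linarith) (by linarith) (by linarith) (by linarith) (by linarith))
                (.k2 2 0 2 0 ((-1)*e + (1)) (by norm_num) (by norm_num) (by linarith) (by linarith) (by linarith) (by linarith) (by linarith))
                (by norm_num) (by linarith) (by linarith)
        · rcases le_total 0 ((-1)*e + (-2)*v + (1/3)) with h | h
          · exact .one _ _ _ _ 3
                (.mk 0 1 0 1 ((-1)*v + (1)) (by norm_num) (by norm_num) (by linarith) (by linarith) (by linarith) (by linarith) (by linarith))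
                (.k2 1 1 1 1 ((-1)*e + (-1)*v + (1)) (by norm_num) (by norm_num) (by linarith) (by linarith) (by linarith) (by linarith) (by linarith))
                (by norm_num) (by linarith) (by linarith)
          · exact .one _ _ _ _ 3
                (.mk 0 1 0 1 ((-1)*v + (1)) (by norm_num) (by norm_num) (by linarith) (by linarith) (by linarith) (by linarith) (by linarith))
                (.k1 0 2 0 2 ((-2)*v + (1)) (by norm_num) (by norm_num) (by linarith) (by linarith) (by linarith) (by linarith) (by linarith))
                (by norm_num) (by linarith) (by linarith)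
      · rcases le_total 0 ((-1)*s + (-3)*v + (1)) with h | h
        · rcases le_total 0 ((2/9)*s + v + (-2/9)) with h | h
          · rcases le_total 0 ((-2/9)*w + (-3/4)*e + (2/9)) with h | h
            · exact .one _ _ _ _ 3
                  (.mk 1 1 1 1 ((-1)*v + (1)) (by norm_num) (by norm_num) (by linarith) (by linarith) (by linarith) (by linarith) (by linarith))
                  (.k1 0 1 0 1 ((2/9)*w + (7/9)) (by norm_num) (by norm_num) (by linarith) (by linarith) (by linarith) (by linarith) (by linarith))
                  (by norm_num) (by linarith) (by linarith)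
            · exact .one _ _ _ _ 3
                  (.mk 1 1 1 1 ((-1)*v + (1)) (by norm_num) (by norm_num) (by linarith) (by linarith) (by linarith) (by linarith) (by linarith))
                  (.k2 1 0 1 0 ((-1)*e + (1)) (by norm_num) (by norm_num) (by linarith) (by linarith) (by linarith) (by linarith) (by linarith))
                  (by norm_num) (by linarith) (by linarith)
          · rcases le_total 0 ((-1)*w + (-1)*e + (-4)*v + (1)) with h | h
            · exact .one _ _ _ _ 3
                  (.mk 1 0 1 0 ((2/9)*s + (7/9)) (by norm_num) (by norm_num) (by linarith) (by linarith) (by linarith) (by linarith) (by linarith))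
                  (.k1 0 2 0 2 ((-2)*v + (1)) (by norm_num) (by norm_num) (by linarith) (by linarith) (by linarith) (by linarith) (by linarith))
                  (by norm_num) (by linarith) (by linarith)
            · exact .one _ _ _ _ 3
                  (.mk 1 0 1 0 ((2/9)*s + (7/9)) (by norm_num) (by norm_num) (by linarith) (by linarith) (by linarith) (by linarith) (by linarith))
                  (.k2 2 0 2 0 ((-1)*e + (1)) (by norm_num) (by norm_num) (by linarith) (by linarith) (by linarith) (by linarith) (by linarith))
                  (by norm_num) (by linarith) (by linarith)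
        · rcases le_total 0 ((-3)*v + (1/3)) with h | h
          · exact .one _ _ _ _ 3
                (.mk 0 1 0 1 ((-1)*v + (1)) (by norm_num) (by norm_num) (by linarith) (by linarith) (by linarith) (by linarith) (by linarith))
                (.k1 0 2 0 2 ((-2)*v + (1)) (by norm_num) (by norm_num) (by linarith) (by linarith) (by linarith) (by linarith) (by linarith))
                (by norm_num) (by linarith) (by linarith)
          · exact .one _ _ _ _ 3
                (.mk 0 1 0 1 ((-1)*v + (1)) (by norm_num) (by norm_num) (by linarith) (by linarith) (by linarith) (by linarith) (by linarith))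
                (.k2 2 0 2 0 ((-3/2)*v + (1)) (by norm_num) (by norm_num) (by linarith) (by linarith) (by linarith) (by linarith) (by linarith))
                (by norm_num) (by linarith) (by linarith)
    · rcases le_total 0 (s + w + e + (4)*v + (-4/3)) with h | h
      · rcases le_total 0 ((-2/9)*s + (-1)*v + (2/9)) with h | h
        · rcases le_total 0 ((2/9)*s + (-1)*e + (-1)*v + (1/9)) with h | h
          · exact .one _ _ _ _ 4
                (.mk 1 1 1 1 ((2/9)*s + (7/9)) (by norm_num) (by norm_num) (by linarith) (by linarith) (by linarith) (by linarith) (by linarith))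
                (.k2 1 1 1 1 ((-1)*e + (-1)*v + (1)) (by norm_num) (by norm_num) (by linarith) (by linarith) (by linarith) (by linarith) (by linarith))
                (by norm_num) (by linarith) (by linarith)
          · rcases le_total 0 ((-1)*w + (-5/2)*e + (-5/2)*v + (1)) with h | h
            · exact .one _ _ _ _ 4
                  (.mk 1 1 1 1 ((2/9)*s + (7/9)) (by norm_num) (by norm_num) (by linarith) (by linarith) (by linarith) (by linarith) (by linarith))
                  (.k1 1 1 1 1 ((-3/4)*e + (-3/4)*v + (1)) (by norm_num) (by norm_num) (by linarith) (by linarith) (by linarith) (by linarith) (by linarith))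
                  (by norm_num) (by linarith) (by linarith)
            · rcases le_total 0 (e + (-3/2)*v) with h | h
              · exact .one _ _ _ _ 4
                    (.mk 1 1 1 1 ((2/9)*s + (7/9)) (by norm_num) (by norm_num) (by linarith) (by linarith) (by linarith) (by linarith) (by linarith))
                    (.k2 2 0 2 0 ((-1)*e + (1)) (by norm_num) (by norm_num) (by linarith) (by linarith) (by linarith) (by linarith) (by linarith))
                    (by norm_num) (by linarith) (by linarith)
              · exact .one _ _ _ _ 4
                    (.mk 1 1 1 1 ((2/9)*s + (7/9)) (by norm_num) (by norm_num) (by linarith) (by linarith) (by linarith) (by linarith) (by linarith))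
                    (.k2 2 0 2 0 ((-3/2)*v + (1)) (by norm_num) (by norm_num) (by linarith) (by linarith) (by linarith) (by linarith) (by linarith))
                    (by norm_num) (by linarith) (by linarith)
        · rcases le_total 0 ((-3)*v + (1/3)) with h | h
          · rcases le_total 0 ((2/9)*w + (2)*v + (-2/9)) with h | h
            · exact .one _ _ _ _ 4
                  (.mk 1 1 1 1 ((-1)*v + (1)) (by norm_num) (by norm_num) (by linarith) (by linarith) (by linarith) (by linarith) (by linarith))
                  (.k1 0 2 0 2 ((-2)*v + (1)) (by norm_num) (by norm_num) (by linarith) (by linarith) (by linarith) (by linarith) (by linarith))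
                  (by norm_num) (by linarith) (by linarith)
            · exact .one _ _ _ _ 4
                  (.mk 0 0 0 0 ((2/9)*s + (7/9)) (by norm_num) (by norm_num) (by linarith) (by linarith) (by linarith) (by linarith) (by linarith))
                  (.k2 3 1 3 1 ((-1)*e + (-1)*v + (1)) (by norm_num) (by norm_num) (by linarith) (by linarith) (by linarith) (by linarith) (by linarith))
                  (by norm_num) (by linarith) (by linarith)
          · exact .one _ _ _ _ 4
                (.mk 1 1 1 1 ((-1)*v + (1)) (by norm_num) (by norm_num) (by linarith) (by linarith) (by linarith) (by linarith) (by linarith))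
                (.k2 2 0 2 0 ((-3/2)*v + (1)) (by norm_num) (by norm_num) (by linarith) (by linarith) (by linarith) (by linarith) (by linarith))
                (by norm_num) (by linarith) (by linarith)
      · rcases le_total 0 (s + w + e + (5)*v + (-4/3)) with h | h
        · rcases le_total 0 ((2/9)*s + (-1)*e + (-1)*v + (1/9)) with h | h
          · exact .one _ _ _ _ 5
                (.mk 1 1 1 1 ((2/9)*s + (7/9)) (by norm_num) (by norm_num) (by linarith) (by linarith) (by linarith) (by linarith) (by linarith))
                (.k2 2 1 2 1 ((-1)*e + (-1)*v + (1)) (by norm_num) (by norm_num) (by linarith) (by linarith) (by linarith) (by linarith) (by linarith))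
                (by norm_num) (by linarith) (by linarith)
          · rcases le_total 0 ((3/4)*e + (-5/4)*v) with h | h
            · exact .one _ _ _ _ 5
                  (.mk 1 1 1 1 ((2/9)*s + (7/9)) (by norm_num) (by norm_num) (by linarith) (by linarith) (by linarith) (by linarith) (by linarith))
                  (.k1 1 2 1 2 ((-3/4)*e + (-3/4)*v + (1)) (by norm_num) (by norm_num) (by linarith) (by linarith) (by linarith) (by linarith) (by linarith))
                  (by norm_num) (by linarith) (by linarith)
            · rcases le_total 0 ((2/9)*s + (-2)*v + (1/9)) with h | h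
              · exact .one _ _ _ _ 5
                    (.mk 1 1 1 1 ((2/9)*s + (7/9)) (by norm_num) (by norm_num) (by linarith) (by linarith) (by linarith) (by linarith) (by linarith))
                    (.k1 1 2 1 2 ((-2)*v + (1)) (by norm_num) (by norm_num) (by linarith) (by linarith) (by linarith) (by linarith) (by linarith))
                    (by norm_num) (by linarith) (by linarith)
              · rcases le_total 0 ((-2/9)*s + (-1)*v + (2/9)) with h | h
                · exact .two _ _ _ _ _ _ _ _ 9
                      (.mk 1 1 1 1 ((2/9)*s + (7/9)) (by norm_num) (by norm_num) (by linarith) (by linarith) (by linarith) (by linarith) (by linarith))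
                      (.mk 1 1 1 1 ((2/9)*s + (7/9)) (by norm_num) (by norm_num) (by linarith) (by linarith) (by linarith) (by linarith) (by linarith))
                      (.k1 1 1 1 1 ((-3/4)*e + (-3/4)*v + (1)) (by norm_num) (by norm_num) (by linarith) (by linarith) (by linarith) (by linarith) (by linarith))
                      (.k1 1 2 1 2 ((-2)*v + (1)) (by norm_num) (by norm_num) (by linarith) (by linarith) (by linarith) (by linarith) (by linarith))
                      (by norm_num) (by linarith) (by linarith)
                · exact .two _ _ _ _ _ _ _ _ 9
                      (.mk 1 1 1 1 ((-1)*v + (1)) (by norm_num) (by norm_num) (by linarith) (by linarith) (by linarith) (by linarith) (by linarith))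
                      (.mk 1 1 1 1 ((-1)*v + (1)) (by norm_num) (by norm_num) (by linarith) (by linarith) (by linarith) (by linarith) (by linarith))
                      (.k1 1 2 1 2 ((-2)*v + (1)) (by norm_num) (by norm_num) (by linarith) (by linarith) (by linarith) (by linarith) (by linarith))
                      (.k2 2 0 2 0 ((-3/2)*v + (1)) (by norm_num) (by norm_num) (by linarith) (by linarith) (by linarith) (by linarith) (by linarith))
                      (by norm_num) (by linarith) (by linarith)
        · rcases le_total 0 (s + w + e + (6)*v + (-4/3)) with h | h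
          · rcases le_total 0 ((2/9)*s + (-1)*e + (-1)*v + (1/9)) with h | h
            · exact .one _ _ _ _ 6
                  (.mk 1 1 1 1 ((2/9)*s + (7/9)) (by norm_num) (by norm_num) (by linarith) (by linarith) (by linarith) (by linarith) (by linarith))
                  (.k2 3 1 3 1 ((-1)*e + (-1)*v + (1)) (by norm_num) (by norm_num) (by linarith) (by linarith) (by linarith) (by linarith) (by linarith))
                  (by norm_num) (by linarith) (by linarith)
            · rcases le_total 0 ((2/9)*w + (-2)*v + (1/9)) with h | h
              · rcases le_total 0 ((-2/9)*w + (-1)*e + (2/9)) with h | h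
                · rcases le_total 0 ((-1)*s + (-6)*v + (1)) with h | h
                  · exact .one _ _ _ _ 6
                        (.mk 2 2 2 2 ((-2)*v + (1)) (by norm_num) (by norm_num) (by linarith) (by linarith) (by linarith) (by linarith) (by linarith))
                        (.k2 2 0 2 0 ((2/9)*w + (7/9)) (by norm_num) (by norm_num) (by linarith) (by linarith) (by linarith) (by linarith) (by linarith))
                        (by norm_num) (by linarith) (by linarith)
                  · exact .one _ _ _ _ 6
                        (.mk 2 1 2 1 ((-3/2)*v + (1)) (by norm_num) (by norm_num) (by linarith) (by linarith) (by linarith) (by linarith) (by linarith))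
                        (.k1 1 2 1 2 ((-2)*v + (1)) (by norm_num) (by norm_num) (by linarith) (by linarith) (by linarith) (by linarith) (by linarith))
                        (by norm_num) (by linarith) (by linarith)
                · exact .one _ _ _ _ 6
                      (.mk 1 2 1 2 ((-2)*v + (1)) (by norm_num) (by norm_num) (by linarith) (by linarith) (by linarith) (by linarith) (by linarith))
                      (.k1 1 2 1 2 ((-3/4)*e + (-3/4)*v + (1)) (by norm_num) (by norm_num) (by linarith) (by linarith) (by linarith) (by linarith) (by linarith))
                      (by norm_num) (by linarith) (by linarith)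
              · rcases le_total 0 ((-7/2)*v + (1/3)) with h | h
                · exact .one _ _ _ _ 6
                      (.mk 2 1 2 1 ((-3/2)*v + (1)) (by norm_num) (by norm_num) (by linarith) (by linarith) (by linarith) (by linarith) (by linarith))
                      (.k1 1 2 1 2 ((-2)*v + (1)) (by norm_num) (by norm_num) (by linarith) (by linarith) (by linarith) (by linarith) (by linarith))
                      (by norm_num) (by linarith) (by linarith)
                · exact .two _ _ _ _ _ _ _ _ 11
                      (.mk 2 1 2 1 ((-3/2)*v + (1)) (by norm_num) (by norm_num) (by linarith) (by linarith) (by linarith) (by linarith) (by linarith))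
                      (.mk 2 1 2 1 ((-3/2)*v + (1)) (by norm_num) (by norm_num) (by linarith) (by linarith) (by linarith) (by linarith) (by linarith))
                      (.k1 1 2 1 2 ((-2)*v + (1)) (by norm_num) (by norm_num) (by linarith) (by linarith) (by linarith) (by linarith) (by linarith))
                      (.k2 2 0 2 0 ((2/9)*w + (7/9)) (by norm_num) (by norm_num) (by linarith) (by linarith) (by linarith) (by linarith) (by linarith))
                      (by norm_num) (by linarith) (by linarith)
          · rcases le_total 0 ((-2/9)*w + (-3/4)*e + (-3/4)*v + (2/9)) with h | h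
            · exact .one _ _ _ _ 7
                  (.mk 2 2 2 2 ((-2)*v + (1)) (by norm_num) (by norm_num) (by linarith) (by linarith) (by linarith) (by linarith) (by linarith))
                  (.k1 1 2 1 2 ((2/9)*w + (7/9)) (by norm_num) (by norm_num) (by linarith) (by linarith) (by linarith) (by linarith) (by linarith))
                  (by norm_num) (by linarith) (by linarith)
            · exact .one _ _ _ _ 7
                  (.mk 2 1 2 1 ((2/9)*s + (7/9)) (by norm_num) (by norm_num) (by linarith) (by linarith) (by linarith) (by linarith) (by linarith))
                  (.k2 3 1 3 1 ((-1)*e + (-1)*v + (1)) (by norm_num) (by norm_num) (by linarith) (by linarith) (by linarith) (by linarith) (by linarith))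
                  (by norm_num) (by linarith) (by linarith)

section cover

variable {u : Fin 5 → ℝ} {v : ℝ}

theorem goodB_cov (h01 : 1 / 4 ≤ u 0 + u 1) (h23 : 1 / 4 ≤ u 2 + u 3)
    (hg : GoodB (u 0 + u 1) (u 2 + u 3) (u 4) v) : Cov0 u v := by
  have hs : (∑ j, u j) = u 0 + u 1 + (u 2 + u 3) + u 4 := by
    rw [Fin.sum_univ_five]; ring
  cases hg with
  | one t t' N N' T hP hQ hT hN hS =>
    subst hT
    have c1 := hP.col h01
    have c2 := hQ.col h23
    push_cast at hS
    refine ⟨2, ![1 / 2, 1 / 2], ![![1, 1, 0, 0, 0], ![0, 0, 1, 1, 1]], ![t, t'], ![N, N'],
      ?_, ?_, ?_, ?_, ?_, ?_⟩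
    · intro q; fin_cases q <;> norm_num
    · intro j; fin_cases j <;> simp [Fin.sum_univ_two]
    · intro q
      fin_cases q
      · exact c1
      · exact c2
    · simp [Fin.sum_univ_two]; norm_num
    · unfold R₁
      rw [hs]
      simp only [Fin.sum_univ_two, Matrix.cons_val_zero, Matrix.cons_val_one]
      nlinarith
    · have : min (R₁ u v ![1 / 2, 1 / 2] ![t, t']) (1 - ∑ q, (![1 / 2, 1 / 2] : Fin 2 → ℝ) q) ≤ 0 := by
        refine (min_le_right _ _).trans ?_
        simp [Fin.sum_univ_two]; norm_num
      simp only [Fin.sum_univ_two, Matrix.cons_val_zero, Matrix.cons_val_one] at this ⊢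
      linarith
  | two t₁ t₂ t₃ t₄ N₁ N₂ N₃ N₄ T hP₁ hP₂ hQ₁ hQ₂ hT hN hS =>
    subst hT
    have c1 := hP₁.col h01
    have c2 := hP₂.col h01
    have c3 := hQ₁.col h23
    have c4 := hQ₂.col h23
    push_cast at hS
    refine ⟨4, ![1 / 4, 1 / 4, 1 / 4, 1 / 4], ![![1, 1, 0, 0, 0], ![1, 1, 0, 0, 0],
      ![0, 0, 1, 1, 1], ![0, 0, 1, 1, 1]], ![t₁, t₂, t₃, t₄], ![N₁, N₂, N₃, N₄],
      ?_, ?_, ?_, ?_, ?_, ?_⟩
    · intro q; fin_cases q <;> norm_num
    · intro j; fin_cases j <;> simp [Fin.sum_univ_four] <;> norm_num
    · intro q
      fin_cases q
      · exact c1
      · exact c2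
      · exact c3
      · exact c4
    · simp [Fin.sum_univ_four]; norm_num
    · unfold R₁
      rw [hs]
      simp only [Fin.sum_univ_four, Matrix.cons_val_zero, Matrix.cons_val_one, Matrix.cons_val]
      nlinarith
    · have : min (R₁ u v ![1 / 4, 1 / 4, 1 / 4, 1 / 4] ![t₁, t₂, t₃, t₄])
          (1 - ∑ q, (![1 / 4, 1 / 4, 1 / 4, 1 / 4] : Fin 4 → ℝ) q) ≤ 0 := by
        refine (min_le_right _ _).trans ?_
        simp [Fin.sum_univ_four]; norm_num
      simp only [Fin.sum_univ_four, Matrix.cons_val_zero, Matrix.cons_val_one,
        Matrix.cons_val] at this ⊢
      linarith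

end cover

/-- **five lumps, the largest `≥ 1/3`, the third `≤ 2/9`** -/
theorem cov5_big (u : Fin 5 → ℝ) (hu : Antitone u) (hlo : ∀ j, 13 / 100 ≤ u j)
    (hS : ∑ j, u j ≤ 4 / 3) (h0 : 1 / 3 ≤ u 0) (h2 : u 2 ≤ 2 / 9) :
    (∀ v, 7 / 200 ≤ v → v ≤ 7 / 100 → Cov0 u v) ∧
    (∀ v, 7 / 100 ≤ v → v ≤ 13 / 100 → (∑ j, u j) + v ≤ 4 / 3 → Cov0 u v) := by
  have a01 : u 1 ≤ u 0 := hu (by decide)
  have a12 : u 2 ≤ u 1 := hu (by decide)
  have a23 : u 3 ≤ u 2 := hu (by decide)
  have a34 : u 4 ≤ u 3 := hu (by decide)
  have l4 := hlo 4
  have hs : (∑ j, u j) = u 0 + u 1 + (u 2 + u 3) + u 4 := by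
    rw [Fin.sum_univ_five]; ring
  rw [hs] at hS ⊢
  refine ⟨fun v v0 v1 => ?_, fun v v0 v1 hv => ?_⟩
  · exact goodB_cov (by linarith) (by linarith) (treeC (by linarith) (by linarith) (by linarith)
      (by linarith) (by linarith) v0 v1)
  · exact goodB_cov (by linarith) (by linarith) (treeD (by linarith) (by linarith) (by linarith)
      (by linarith) (by linarith) v0 v1)

end Crest.Agent.R017.Cov5_325
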