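import Crest.Agent.R017.PCol_325

/-!
# Row 17, T.2 : seven big lumps, the third `≥ 2/9` (helper325)
-/

set_option autoImplicit false

namespace Crest.Agent.R017.Cov7_325

open Crest.Agent.R017.Cov499 Crest.Agent.R017.PCol325

set_option maxHeartbeats 4000000 in
theorem t7A (u : Fin 7 → ℝ) (v : ℝ)
    (r0 : 0 ≤ u 0 + (-13/100))
    (r1 : 0 ≤ (-1)*u 0 + (1))
    (r2 : 0 ≤ u 1 + (-13/100))
    (r3 : 0 ≤ (-1)*u 1 + (1))
    (r4 : 0 ≤ u 2 + (-13/100))
    (r5 : 0 ≤ (-1)*u 2 + (1))
    (r6 : 0 ≤ u 3 + (-13/100))
    (r7 : 0 ≤ (-1)*u 3 + (1))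
    (r8 : 0 ≤ u 4 + (-13/100))
    (r9 : 0 ≤ (-1)*u 4 + (1))
    (r10 : 0 ≤ u 5 + (-13/100))
    (r11 : 0 ≤ (-1)*u 5 + (1))
    (r12 : 0 ≤ u 6 + (-13/100))
    (r13 : 0 ≤ (-1)*u 6 + (1))
    (r14 : 0 ≤ v + (-7/200))
    (r15 : 0 ≤ (-1)*v + (7/100))
    (r16 : 0 ≤ (-1)*u 0 + (-1)*u 1 + (-1)*u 2 + (-1)*u 3 + (-1)*u 4 + (-1)*u 5 + (-1)*u 6 + (4/3))
    (r17 : 0 ≤ u 0 + (-1)*u 1)
    (r18 : 0 ≤ u 1 + (-1)*u 2)
    (r19 : 0 ≤ u 2 + (-1)*u 3)
    (r20 : 0 ≤ u 3 + (-1)*u 4)
    (r21 : 0 ≤ u 4 + (-1)*u 5)
    (r22 : 0 ≤ u 5 + (-1)*u 6)
    (r23 : 0 ≤ u 2 + (-2/9))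
    (r24 : 0 ≤ u 0 + u 1 + u 2 + u 3 + u 4 + u 5 + u 6 + (-28/27)) :
    PG u v (u 0 + u 1 + u 2 + u 3 + u 4 + u 5 + u 6) := by
  rcases le_total 0 ((-3/4)*u 4 + u 6) with q25 | q25
  · rcases le_total 0 ((2/9)*u 0 + (2/9)*u 3 + (3/4)*u 5 + (3/4)*v + (-2/9)) with q26 | q26
    · rcases le_total 0 ((-1)*u 0 + (-1)*u 2 + (-15/2)*v + (1)) with q27 | q27
      · rcases le_total 0 ((-3/4)*u 5 + (-1)*u 6 + (-3/4)*v + (1/3)) with q28 | q28
        · rcases le_total 0 ((-1)*u 0 + (-1)*u 3 + (-5/2)*u 5 + (-5/2)*v + (1)) with q29 | q29
          · exact part (l := [0, 3, 5]) (l' := [1, 2, 4, 6]) (by decide) 3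
              (.t6 0 3 [5] [] 1 2 1 2 (u 5 + 0) 0 ((-3/4)*u 5 + (-3/4)*v + (1)) (by norm_num) (by norm_num) rfl rfl
                (by linarith only [r12, r15, r16, r17, r19, r21, r23, q29]) (by linarith only [r6, r8, r10, r12, r15, r17, r18, r20, r21, r22, r23]) (by linarith only [r14, r17, r18, r20, r21, r22, r23, q26]) (by linarith only [r8, r10, r12, r15, r16, r17, r18, r19, r21, r22]) (by linarith only []) (by linarith only [r12, r16, r18, r19, r21, r23, q27, q29]))
              (.t6 1 2 [4] [6] 0 0 0 0 (u 4 + 0) (u 6 + 0) ((-1)*u 6 + (1)) (by norm_num) (by norm_num) rfl rfl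
                (by linarith only [r14, r16, r17, r18, r20, r22, r23, q25]) (by linarith only [r6, r8, r10, r12, r14, r16, r18, r20, r21, r22, r23]) (by linarith only [r6, r8, r10, r12, r14, r16, r18, r20, r21, r22, r23]) (by linarith only []) (by linarith only [r15, r16, r17, r18, r20, r22, q25, q27]) (by linarith only [r14, r16, r17, r18, r20, r21, r22, r23]))
              (by norm_num) (by linarith only [r15, r17, r18, r20, r21, r22, r23, q28]) (by linarith only [r12, r14, r17, r18, r20, r21, r23, q26])
          · rcases le_total 0 ((2/9)*u 0 + (2/9)*u 3 + (2)*v + (-2/9)) with q30 | q30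
            · rcases le_total 0 (u 5 + (-3/4)*u 6 + (-3/4)*v) with q31 | q31
              · rcases le_total 0 (u 4 + (-9/4)*v) with q32 | q32
                · exact part (l := [0, 3, 4]) (l' := [1, 2, 5, 6]) (by decide) 3
                    (.t6 0 3 [] [4] 3 0 3 0 0 (u 4 + 0) ((-1)*u 4 + (1)) (by norm_num) (by norm_num) rfl rfl
                      (by linarith only [r12, r15, r16, r18, r19, r23, q31, q32]) (by linarith only [r12, r15, r17, r18, r20, r21, r23, q29]) (by linarith only [r12, r16, r18, r19, r21, r23, q29, q32]) (by linarith only []) (by linarith only [r16, r17, r18, r19, r21, r23, q29, q31, q32]) (by linarith only [r12, r15, r16, r18, r20, r23, q25, q29]))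
                    (.t6 1 2 [5] [6] 0 0 0 0 (u 5 + 0) (u 6 + 0) ((-1)*u 6 + (1)) (by norm_num) (by norm_num) rfl rfl
                      (by linarith only [r12, r15, r16, r17, r18, r20, r21, q25]) (by linarith only [r12, r15, r17, r18, r20, r21, r23, q25]) (by linarith only [r12, r15, r17, r18, r20, r21, r23, q25]) (by linarith only []) (by linarith only [r12, r15, r16, r17, r18, r20, r21, q25]) (by linarith only [r15, r16, r17, r18, r20, r21, r23, q29]))
                    (by norm_num) (by linarith only [r15, r16, r17, r18, r20, r21, r23, q29]) (by linarith only [r12, r18, r20, r21, r23, q25, q29, q30])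
                · rcases le_total 0 ((-1)*u 0 + (-1)*u 1 + (-1)*u 4 + (-21/4)*v + (1)) with q33 | q33
                  · rcases le_total 0 ((2/9)*u 2 + (2/9)*u 3 + u 6 + (-2/9)) with q34 | q34
                    · exact part (l := [0, 2, 4]) (l' := [1, 3, 5, 6]) (by decide) 3
                        (.t6 0 2 [] [4] 3 0 3 0 0 (u 4 + 0) ((-9/4)*v + (1)) (by norm_num) (by norm_num) rfl rfl
                          (by linarith only [r12, r15, r16, r18, q27, q29, q31, q32, q33]) (by linarith only [r12, r15, r16, r17, r18, r19, r21, r23]) (by linarith only [r12, r16, r18, r19, r21, r23, q29, q32]) (by linarith only [r16, r18, r21, r23, q27, q29, q31, q32, q33]) (by linarith only []) (by linarith only [r12, r15, r16, r18, q27, q29, q31, q32, q33]))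
                        (.t6 1 3 [5] [6] 0 0 0 0 (u 5 + 0) (u 6 + 0) ((-1)*u 6 + (1)) (by norm_num) (by norm_num) rfl rfl
                          (by linarith only [r12, r15, r16, r17, r18, r21, r23, q32]) (by linarith only [r15, r18, r21, r23, q27, q29, q31, q32, q33]) (by linarith only [r12, r16, r18, r21, q27, q29, q31, q34]) (by linarith only []) (by linarith only [r12, r15, r16, r17, r18, r21, r23, q32]) (by linarith only [r16, r17, r18, r19, r21, r23, q29, q31, q32]))
                        (by norm_num) (by linarith only [r15, r16, r17, r18, r21, r23, q31, q32]) (by linarith only [r12, r15, r17, r18, r21, r23, q29, q32])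
                    · exact part (l := [1, 2, 4]) (l' := [0, 3, 5, 6]) (by decide) 3
                        (.t6 1 2 [] [4] 3 0 3 0 0 (u 4 + 0) ((-9/4)*v + (1)) (by norm_num) (by norm_num) rfl rfl
                          (by linarith only [r12, r15, r16, r18, r21, q27, q29, q32, q33]) (by linarith only [r12, r16, r18, r21, r23, q27, q29, q31]) (by linarith only [r12, r16, r18, r21, r23, q27, q29, q32, q33]) (by linarith only [r12, r15, r16, r18, r21, r23, q27, q32, q33]) (by linarith only []) (by linarith only [r12, r15, r16, r18, r21, q27, q29, q32, q33]))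
                        (.t6 0 3 [5] [6] 0 0 0 0 (u 5 + 0) (u 6 + 0) ((-1)*u 6 + (1)) (by norm_num) (by norm_num) rfl rfl
                          (by linarith only [r12, r15, r16, r18, r21, r23, q27, q32, q33]) (by linarith only [r12, r15, r18, r21, r23, q27, q29, q32, q33]) (by linarith only [r12, r15, r18, r21, r23, q27, q29, q32, q33]) (by linarith only []) (by linarith only [r12, r15, r16, r18, r21, r23, q27, q32, q33]) (by linarith only [r16, r18, r21, r23, q27, q29, q31, q34]))
                        (by norm_num) (by linarith only [r15, r18, r21, r23, q27, q29, q32, q33, q34]) (by linarith only [r12, r15, r18, r21, r23, q27, q29, q32, q33])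
                  · exact part (l := [1, 2, 4]) (l' := [0, 3, 5, 6]) (by decide) 3
                      (.t6 1 2 [] [4] 3 0 3 0 0 (u 4 + 0) ((-9/4)*v + (1)) (by norm_num) (by norm_num) rfl rfl
                        (by linarith only [r12, r15, r16, r18, r21, q27, q29, q32, q33]) (by linarith only [r12, r15, r16, r18, r21, r23, q27, q32, q33]) (by linarith only [r12, r16, r18, r21, r23, q27, q29, q32, q33]) (by linarith only [r16, r18, r21, r23, q27, q29, q31, q32, q33]) (by linarith only []) (by linarith only [r12, r15, r16, r18, r21, q27, q29, q32, q33]))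
                      (.t6 0 3 [5] [6] 0 0 0 0 (u 5 + 0) (u 6 + 0) ((-1)*u 6 + (1)) (by norm_num) (by norm_num) rfl rfl
                        (by linarith only [r12, r15, r16, r18, r21, r23, q27, q32, q33]) (by linarith only [r12, r15, r18, r21, r23, q27, q29, q32, q33]) (by linarith only [r12, r15, r18, r21, r23, q27, q29, q32, q33]) (by linarith only []) (by linarith only [r12, r15, r16, r18, r21, r23, q27, q32, q33]) (by linarith only [r16, r18, r21, r23, q27, q29, q31, q32, q33]))
                      (by norm_num) (by linarith only [r15, r16, r18, r21, r23, q27, q31, q32, q33]) (by linarith only [r12, r15, r18, r21, r23, q27, q29, q32, q33])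
              · rcases le_total 0 ((-1)*u 0 + (-1)*u 1 + (-15/2)*v + (1)) with q32 | q32
                · rcases le_total 0 ((-1)*u 4 + (9/4)*v) with q33 | q33
                  · rcases le_total 0 ((2/9)*u 2 + (2/9)*u 3 + u 6 + (-2/9)) with q34 | q34
                    · exact part (l := [0, 1, 4]) (l' := [2, 3, 5, 6]) (by decide) 3
                        (.t6 0 1 [] [4] 3 0 3 0 0 (u 4 + 0) ((-9/4)*v + (1)) (by norm_num) (by norm_num) rfl rfl
                          (by linarith only [r12, r15, r16, r19, r21, r23, q29, q32]) (by linarith only [r15, r16, r17, r18, r19, r21, r23, q29]) (by linarith only [r16, r17, r18, r19, r21, r23, q29, q31, q33]) (by linarith only [r16, r18, r21, r23, q27, q29, q31, q32, q33]) (by linarith only []) (by linarith only [r12, r15, r16, r18, q27, q29, q31, q32, q33]))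
                        (.t6 2 3 [5] [6] 0 0 0 0 (u 5 + 0) (u 6 + 0) ((-1)*u 6 + (1)) (by norm_num) (by norm_num) rfl rfl
                          (by linarith only [r15, r16, r17, r18, r19, r21, r23, q31]) (by linarith only [r15, r16, r18, r21, r23, q27, q29, q32, q33]) (by linarith only [r12, r16, r18, r21, q27, q29, q31, q32, q34]) (by linarith only []) (by linarith only [r12, r15, r16, r18, r21, r23, q27, q31, q32]) (by linarith only [r15, r16, r17, r18, r19, r21, r23, q29]))
                        (by norm_num) (by linarith only [r15, r16, r18, r21, r23, q27, q29, q32, q33]) (by linarith only [r12, r16, r18, r19, r21, r23, q29, q31])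
                    · exact part (l := [0, 1, 4]) (l' := [2, 3, 6, 5]) (by decide) 3
                        (.t6 0 1 [4] [] 0 2 0 2 (u 4 + 0) 0 ((-2)*v + (1)) (by norm_num) (by norm_num) rfl rfl
                          (by linarith only [r12, r16, r18, r23, q27, q29, q31, q32, q34]) (by linarith only [r12, r18, r21, r23, q27, q29, q31, q32, q34]) (by linarith only [r12, r16, r18, r21, r23, q29, q31, q34]) (by linarith only []) (by linarith only [r12, r16, r18, r23, q27, q29, q31, q32, q34]) (by linarith only [r16, r18, r21, r23, q27, q29, q31, q32, q34]))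
                        (.t6 2 3 [6] [5] 1 0 1 0 (u 6 + 0) (u 5 + 0) ((-3/4)*u 6 + (-3/4)*v + (1)) (by norm_num) (by norm_num) rfl rfl
                          (by linarith only [r12, r18, r21, r23, q27, q29, q31, q32, q34]) (by linarith only [r16, r18, r21, r23, q27, q29, q31, q32, q34]) (by linarith only [r12, r16, r18, r21, r23, q27, q29, q31, q32]) (by linarith only [r16, r18, r21, r23, q27, q29, q31, q32, q34]) (by linarith only []) (by linarith only [r12, r18, r21, r23, q27, q29, q31, q32, q34]))
                        (by norm_num) (by linarith only [r12, r18, r21, r23, q27, q29, q31, q32, q34]) (by linarith only [r12, r16, r18, r21, r23, q27, q29, q31, q32])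
                  · rcases le_total 0 ((-1)*u 5 + (9/4)*v) with q34 | q34
                    · exact part (l := [0, 1, 5]) (l' := [2, 3, 4, 6]) (by decide) 3
                        (.t6 0 1 [] [5] 3 0 3 0 0 (u 5 + 0) ((-9/4)*v + (1)) (by norm_num) (by norm_num) rfl rfl
                          (by linarith only [r12, r15, r16, r18, q27, q29, q31, q32, q33]) (by linarith only [r16, r17, r18, r19, r21, r23, q29, q31, q33, q34]) (by linarith only [r16, r17, r18, r19, r21, r23, q29, q31, q33, q34]) (by linarith only [r16, r18, r21, r23, q27, q29, q31, q32, q33, q34]) (by linarith only []) (by linarith only [r15, r16, r18, r21, r23, q27, q29, q32, q33, q34]))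
                        (.t6 2 3 [4] [6] 0 0 0 0 (u 4 + 0) (u 6 + 0) ((-1)*u 6 + (1)) (by norm_num) (by norm_num) rfl rfl
                          (by linarith only [r15, r16, r17, r18, r19, r23, q29, q31]) (by linarith only [r15, r16, r18, r21, r23, q27, q29, q32, q33, q34]) (by linarith only [r12, r16, r18, r23, q27, q29, q31, q32, q33]) (by linarith only []) (by linarith only [r12, r15, r16, r18, r19, r23, q29, q31]) (by linarith only [r15, r16, r17, r18, r21, r23, q29, q33, q34]))
                        (by norm_num) (by linarith only [r15, r16, r18, r21, r23, q27, q29, q32, q33, q34]) (by linarith only [r16, r18, r21, r23, q27, q29, q31, q32, q33, q34])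
                    · exact part (l := [0, 1, 4]) (l' := [2, 3, 6, 5]) (by decide) 3
                        (.t6 0 1 [4] [] 0 2 0 2 (u 4 + 0) 0 ((-2)*v + (1)) (by norm_num) (by norm_num) rfl rfl
                          (by linarith only [r15, r16, r18, r21, r23, q27, q29, q31, q32]) (by linarith only [r16, r17, r18, r19, r21, r23, q29, q31, q33, q34]) (by linarith only [r16, r17, r18, r19, r21, r23, q29, q31, q33, q34]) (by linarith only []) (by linarith only [r15, r16, r18, r21, r23, q27, q29, q31, q32]) (by linarith only [r15, r16, r18, r21, r23, q27, q29, q31, q32]))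
                        (.t6 2 3 [6] [5] 1 0 1 0 (u 6 + 0) (u 5 + 0) ((-3/4)*u 6 + (-3/4)*v + (1)) (by norm_num) (by norm_num) rfl rfl
                          (by linarith only [r15, r16, r17, r18, r21, r23, q29, q33, q34]) (by linarith only [r15, r16, r18, r21, r23, q27, q29, q31, q32]) (by linarith only [r16, r18, r21, r23, q27, q29, q31, q32, q33, q34]) (by linarith only [r15, r16, r17, r18, r21, r23, q29, q31]) (by linarith only []) (by linarith only [r15, r16, r17, r18, r21, r23, q29, q33, q34]))
                        (by norm_num) (by linarith only [r15, r16, r18, r21, r23, q27, q29, q31, q32]) (by linarith only [r16, r18, r21, r23, q27, q29, q31, q32, q33, q34])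
                · rcases le_total 0 ((-1)*u 4 + (9/4)*v) with q33 | q33
                  · rcases le_total 0 ((2/9)*u 1 + (2/9)*u 3 + u 6 + (-2/9)) with q34 | q34
                    · exact part (l := [0, 2, 4]) (l' := [1, 3, 5, 6]) (by decide) 3
                        (.t6 0 2 [] [4] 3 0 3 0 0 (u 4 + 0) ((-9/4)*v + (1)) (by norm_num) (by norm_num) rfl rfl
                          (by linarith only [r12, r15, r16, r18, q27, q29, q31, q32, q33]) (by linarith only [r12, r15, r16, r21, r23, q29, q31, q32]) (by linarith only [r12, r15, r16, r21, r23, q29, q31, q32]) (by linarith only [r16, r18, r21, r23, q27, q29, q31, q32, q33]) (by linarith only []) (by linarith only [r12, r15, r16, r18, q27, q29, q31, q32, q33]))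
                        (.t6 1 3 [5] [6] 0 0 0 0 (u 5 + 0) (u 6 + 0) ((-1)*u 6 + (1)) (by norm_num) (by norm_num) rfl rfl
                          (by linarith only [r12, r15, r16, r21, r23, q29, q31, q32]) (by linarith only [r15, r16, r18, r21, r23, q27, q29, q32, q33]) (by linarith only [r12, r16, r18, r21, q27, q29, q31, q32, q34]) (by linarith only []) (by linarith only [r12, r15, r16, r18, r21, r23, q27, q31, q32]) (by linarith only [r15, r16, r18, r19, r21, r23, q27, q29, q32]))
                        (by norm_num) (by linarith only [r15, r16, r18, r21, r23, q27, q29, q32, q33]) (by linarith only [r12, r18, r21, r23, q27, q29, q31, q32, q34])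
                    · exact part (l := [0, 1, 4]) (l' := [2, 3, 6, 5]) (by decide) 3
                        (.t6 0 1 [4] [] 0 2 0 2 (u 4 + 0) 0 ((-2)*v + (1)) (by norm_num) (by norm_num) rfl rfl
                          (by linarith only [r12, r16, r18, r23, q27, q29, q31, q32, q34]) (by linarith only [r12, r18, r21, r23, q27, q29, q31, q32, q34]) (by linarith only [r12, r16, r18, r21, r23, q27, q29, q31, q32]) (by linarith only []) (by linarith only [r12, r16, r18, r23, q27, q29, q31, q32, q34]) (by linarith only [r16, r18, r21, r23, q27, q29, q31, q32, q34]))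
                        (.t6 2 3 [6] [5] 1 0 1 0 (u 6 + 0) (u 5 + 0) ((-3/4)*u 6 + (-3/4)*v + (1)) (by norm_num) (by norm_num) rfl rfl
                          (by linarith only [r12, r18, r21, r23, q27, q29, q31, q32, q34]) (by linarith only [r16, r18, r21, r23, q27, q29, q31, q32, q34]) (by linarith only [r12, r16, r18, r21, r23, q27, q29, q31, q32]) (by linarith only [r16, r18, r21, r23, q27, q29, q31, q32, q34]) (by linarith only []) (by linarith only [r12, r18, r21, r23, q27, q29, q31, q32, q34]))
                        (by norm_num) (by linarith only [r12, r18, r21, r23, q27, q29, q31, q32, q34]) (by linarith only [r12, r16, r18, r21, r23, q27, q29, q31, q32])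
                  · rcases le_total 0 ((-1)*u 5 + (9/4)*v) with q34 | q34
                    · exact part (l := [0, 2, 5]) (l' := [1, 3, 4, 6]) (by decide) 3
                        (.t6 0 2 [] [5] 3 0 3 0 0 (u 5 + 0) ((-9/4)*v + (1)) (by norm_num) (by norm_num) rfl rfl
                          (by linarith only [r12, r15, r16, r18, q27, q29, q31, q32, q33]) (by linarith only [r15, r16, r21, r23, q29, q31, q32, q33, q34]) (by linarith only [r16, r18, r21, r23, q27, q29, q31, q32, q33, q34]) (by linarith only [r16, r18, r21, r23, q27, q29, q31, q32, q33, q34]) (by linarith only []) (by linarith only [r15, r16, r18, r21, r23, q27, q29, q32, q33, q34]))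
                        (.t6 1 3 [4] [6] 0 0 0 0 (u 4 + 0) (u 6 + 0) ((-1)*u 6 + (1)) (by norm_num) (by norm_num) rfl rfl
                          (by linarith only [r12, r15, r16, r18, r23, q27, q29, q31, q32]) (by linarith only [r15, r16, r18, r21, r23, q27, q29, q32, q33, q34]) (by linarith only [r12, r16, r18, r23, q27, q29, q31, q32, q33]) (by linarith only []) (by linarith only [r12, r15, r16, r18, r23, q27, q29, q31, q32]) (by linarith only [r15, r16, r21, r23, q29, q31, q32, q33, q34]))
                        (by norm_num) (by linarith only [r15, r16, r18, r21, r23, q27, q29, q32, q33, q34]) (by linarith only [r16, r18, r21, r23, q27, q29, q31, q32, q33, q34])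
                    · exact part (l := [0, 1, 3]) (l' := [2, 4, 6, 5]) (by decide) 3
                        (.t6 0 1 [3] [] 0 2 0 2 (u 3 + 0) 0 ((-2)*v + (1)) (by norm_num) (by norm_num) rfl rfl
                          (by linarith only [r16, r18, r21, r23, q27, q29, q31, q32, q33, q34]) (by linarith only [r15, r16, r18, r21, r23, q27, q29, q31, q32]) (by linarith only [r16, r18, r21, r23, q27, q29, q31, q32, q33, q34]) (by linarith only []) (by linarith only [r16, r18, r21, r23, q27, q29, q31, q32, q33, q34]) (by linarith only [r16, r18, r21, r23, q27, q29, q31, q32, q33, q34]))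
                        (.t6 2 4 [6] [5] 1 0 1 0 (u 6 + 0) (u 5 + 0) ((-3/4)*u 6 + (-3/4)*v + (1)) (by norm_num) (by norm_num) rfl rfl
                          (by linarith only [r15, r16, r18, r21, r23, q27, q29, q31, q32]) (by linarith only [r16, r18, r21, r23, q27, q29, q31, q32, q33, q34]) (by linarith only [r16, r18, r21, r23, q27, q29, q31, q32, q33, q34]) (by linarith only [r16, r18, r21, r23, q27, q29, q31, q32, q33, q34]) (by linarith only []) (by linarith only [r15, r16, r18, r21, r23, q27, q29, q31, q32]))
                        (by norm_num) (by linarith only [r15, r16, r18, r21, r23, q27, q29, q31, q32]) (by linarith only [r16, r18, r21, r23, q27, q29, q31, q32, q33, q34])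
            · exact part (l := [0, 3, 5]) (l' := [1, 2, 4, 6]) (by decide) 3
                (.t6 0 3 [] [5] 3 0 3 0 0 (u 5 + 0) ((-1)*u 5 + (1)) (by norm_num) (by norm_num) rfl rfl
                  (by linarith only [r12, r16, r18, r20, r21, r23, q29, q30]) (by linarith only [r17, r18, r20, r21, r23, q25, q29, q30]) (by linarith only [r12, r16, r18, r20, r21, r23, q29, q30]) (by linarith only []) (by linarith only [r12, r16, r18, r20, r21, r23, q29, q30]) (by linarith only [r16, r17, r18, r20, r21, r23, q25, q30]))
                (.t6 1 2 [4] [6] 0 0 0 0 (u 4 + 0) (u 6 + 0) ((-1)*u 6 + (1)) (by norm_num) (by norm_num) rfl rfl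
                  (by linarith only [r16, r17, r18, r20, r23, q25, q29, q30]) (by linarith only [r12, r16, r18, r20, r21, r23, q25, q29]) (by linarith only [r12, r16, r18, r20, r21, r23, q25, q29]) (by linarith only []) (by linarith only [r12, r16, r17, r18, r20, r21, q25, q29]) (by linarith only [r16, r17, r18, r20, r21, r23, q29, q30]))
                (by norm_num) (by linarith only [r16, r17, r18, r20, r21, r23, q29, q30]) (by linarith only [r12, r16, r18, r20, r21, r23, q25, q29])
        · exact part (l := [0, 3, 4]) (l' := [1, 2, 5, 6]) (by decide) 1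
            (.t6 0 3 [4] [] 0 1 0 1 (u 4 + 0) 0 ((2/9)*u 0 + (2/9)*u 3 + (7/9)) (by norm_num) (by norm_num) rfl rfl
              (by linarith only [r15, r16, r17, r18, r20, r22, r23, q28]) (by linarith only [r15, r17, r18, r20, r21, r22, r23, q28]) (by linarith only []) (by linarith only [r15, r16, r17, r18, r21, r22, r23, q28]) (by linarith only [r15, r16, r17, r18, r20, r22, r23, q28]) (by linarith only [r15, r16, r17, r18, r20, r22, r23, q28]))
            (.t6 1 2 [5] [6] 0 0 0 0 (u 5 + 0) (u 6 + 0) ((-1)*u 6 + (1)) (by norm_num) (by norm_num) rfl rfl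
              (by linarith only [r15, r16, r17, r18, r20, r21, r23, q28]) (by linarith only [r15, r16, r17, r18, r20, r21, r22, r23]) (by linarith only [r15, r16, r17, r18, r20, r21, r23, q28]) (by linarith only []) (by linarith only [r15, r16, r17, r18, r20, r21, r23, q28]) (by linarith only [r15, r16, r17, r18, r20, r21, r22, r23]))
            (by norm_num) (by linarith only [r15, r16, r17, r18, r20, r21, r22, r23]) (by linarith only [r15, r17, r18, r20, r21, r22, r23, q28])
      · rcases le_total 0 ((-1)*u 5 + (9/4)*v) with q28 | q28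
        · rcases le_total 0 ((-1)*u 0 + (-1)*u 3 + (-15/2)*v + (1)) with q29 | q29
          · exact part (l := [0, 3, 5]) (l' := [1, 2, 4, 6]) (by decide) 3
              (.t6 0 3 [] [5] 3 0 3 0 0 (u 5 + 0) ((-9/4)*v + (1)) (by norm_num) (by norm_num) rfl rfl
                (by linarith only [r8, r10, r12, r16, r18, r19, r21, r22, r23, q27, q29]) (by linarith only [r6, r8, r10, r12, r15, r17, r18, r20, r21, r22, q27]) (by linarith only [r6, r8, r10, r12, r16, r17, r18, r20, r21, r22, q27]) (by linarith only [r12, r16, r17, r18, r20, r21, q27, q28]) (by linarith only []) (by linarith only [r12, r15, r16, r18, r19, r21, r23, q27, q29]))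
              (.t6 1 2 [4] [6] 0 0 0 0 (u 4 + 0) (u 6 + 0) ((-1)*u 6 + (1)) (by norm_num) (by norm_num) rfl rfl
                (by linarith only [r15, r16, r17, r18, r20, r22, q25, q27]) (by linarith only [r10, r12, r15, r16, r18, r20, r22, r23, q25]) (by linarith only [r10, r12, r15, r16, r18, r20, r22, r23, q25]) (by linarith only []) (by linarith only [r15, r16, r17, r18, r20, r22, q25, q27]) (by linarith only [r15, r16, r17, r18, r20, r21, r22, q27]))
              (by norm_num) (by linarith only [r15, r16, r18, r20, r21, r22, r23, q28]) (by linarith only [r6, r8, r10, r12, r15, r18, r20, r21, r22, r23, q27])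
          · exact part (l := [1, 2, 4]) (l' := [0, 3, 5, 6]) (by decide) 3
              (.t6 1 2 [] [4] 3 0 3 0 0 (u 4 + 0) ((-9/4)*v + (1)) (by norm_num) (by norm_num) rfl rfl
                (by linarith only [r8, r10, r12, r15, r16, r18, r19, r21, r22, q27, q29]) (by linarith only [r6, r8, r10, r12, r15, r16, r18, r20, r21, r22, r23]) (by linarith only [r8, r10, r12, r16, r18, r19, r21, r22, r23, q27, q29]) (by linarith only [r10, r12, r15, r16, r18, r19, r22, r23, q27, q29]) (by linarith only []) (by linarith only [r8, r10, r12, r15, r16, r18, r19, r21, r22, q27, q29]))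
              (.t6 0 3 [5] [6] 0 0 0 0 (u 5 + 0) (u 6 + 0) ((-1)*u 6 + (1)) (by norm_num) (by norm_num) rfl rfl
                (by linarith only [r12, r15, r16, r18, r19, r21, r23, q27, q29]) (by linarith only [r8, r10, r12, r15, r16, r18, r19, r21, r22, q27, q29]) (by linarith only [r8, r10, r12, r15, r16, r18, r19, r21, r22, q27, q29]) (by linarith only []) (by linarith only [r12, r15, r16, r18, r19, r21, r23, q27, q29]) (by linarith only [r6, r8, r10, r12, r15, r16, r18, r20, r21, r22, r23]))
              (by norm_num) (by linarith only [r15, r16, r18, r19, r21, r22, r23, q27, q29]) (by linarith only [r8, r10, r12, r15, r18, r19, r21, r22, r23, q27, q29])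
        · rcases le_total 0 ((2/9)*u 0 + (2/9)*u 3 + u 6 + (-2/9)) with q29 | q29
          · rcases le_total 0 ((-1)*u 1 + (-1)*u 2 + (-2)*u 5 + (-3)*v + (1)) with q30 | q30
            · exact part (l := [1, 2, 5]) (l' := [0, 3, 4, 6]) (by decide) 3
                (.t6 1 2 [] [5] 3 0 3 0 0 (u 5 + 0) ((-1)*u 5 + (1)) (by norm_num) (by norm_num) rfl rfl
                  (by linarith only [r15, r16, r17, r18, r20, r21, q27, q28, q30]) (by linarith only [r6, r8, r10, r12, r16, r18, r20, r21, r22, r23, q27]) (by linarith only [r6, r8, r10, r12, r16, r18, r20, r21, r22, r23, q27]) (by linarith only []) (by linarith only [r15, r16, r17, r18, r20, r21, q27, q28, q30]) (by linarith only [r15, r16, r17, r18, r20, r21, q27, q28, q30]))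
                (.t6 0 3 [4] [6] 0 0 0 0 (u 4 + 0) (u 6 + 0) ((-1)*u 6 + (1)) (by norm_num) (by norm_num) rfl rfl
                  (by linarith only [r12, r16, r18, r20, r23, q25, q27, q28]) (by linarith only [r15, r16, r17, r18, r20, r21, q27, q28, q30]) (by linarith only [r15, r16, r17, r18, r20, q27, q28, q29, q30]) (by linarith only []) (by linarith only [r12, r15, r16, r18, r20, r23, q25, q27]) (by linarith only [r8, r10, r12, r16, r18, r21, r22, r23, q27, q28]))
                (by norm_num) (by linarith only [r15, r16, r18, r20, r21, r22, r23, q27]) (by linarith only [r6, r8, r10, r12, r18, r20, r21, r22, r23, q27, q28])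
            · exact part (l := [0, 3, 5]) (l' := [1, 2, 4, 6]) (by decide) 3
                (.t6 0 3 [] [5] 3 0 3 0 0 (u 5 + 0) ((-1)*u 5 + (1)) (by norm_num) (by norm_num) rfl rfl
                  (by linarith only [r15, r16, r17, r18, r21, q27, q28, q29, q30]) (by linarith only [r15, r16, r17, r18, r20, r21, q27, q28, q30]) (by linarith only [r16, r17, r18, r20, r21, q27, q28, q29, q30]) (by linarith only []) (by linarith only [r15, r16, r17, r18, r20, r21, q27, q28, q30]) (by linarith only [r15, r16, r18, r20, r21, q27, q29, q30]))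
                (.t6 1 2 [4] [6] 0 0 0 0 (u 4 + 0) (u 6 + 0) ((-1)*u 6 + (1)) (by norm_num) (by norm_num) rfl rfl
                  (by linarith only [r15, r16, r17, r18, r20, q27, q28, q29, q30]) (by linarith only [r15, r16, r18, r20, r21, q27, q29, q30]) (by linarith only [r15, r16, r18, r20, r21, q27, q29, q30]) (by linarith only []) (by linarith only [r15, r16, r18, r20, r21, q27, q29, q30]) (by linarith only [r15, r16, r17, r18, r20, r21, q27, q28, q30]))
                (by norm_num) (by linarith only [r15, r16, r17, r18, r20, r21, q27, q28, q30]) (by linarith only [r15, r17, r18, r20, r21, q27, q28, q29, q30])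
          · exact part (l := [0, 3, 5]) (l' := [1, 2, 4, 6]) (by decide) 3
              (.t6 0 3 [] [5] 3 0 3 0 0 (u 5 + 0) ((-1)*u 5 + (1)) (by norm_num) (by norm_num) rfl rfl
                (by linarith only [r12, r15, r16, r18, r20, r21, q27, q29]) (by linarith only [r12, r15, r17, r18, r20, r21, q27, q28]) (by linarith only [r12, r16, r18, r20, r21, q27, q28, q29]) (by linarith only []) (by linarith only [r12, r15, r16, r17, r18, r20, r21, q28]) (by linarith only [r12, r15, r16, r18, r20, r21, q27, q29]))
              (.t6 1 2 [4] [6] 0 0 0 0 (u 4 + 0) (u 6 + 0) ((-1)*u 6 + (1)) (by norm_num) (by norm_num) rfl rfl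
                (by linarith only [r12, r15, r16, r17, r18, r20, q27, q28]) (by linarith only [r12, r15, r18, r20, r21, r23, q27, q28]) (by linarith only [r12, r15, r18, r20, r21, r23, q27, q28]) (by linarith only []) (by linarith only [r12, r15, r16, r18, r20, q27, q28, q29]) (by linarith only [r16, r17, r18, r20, r21, q27, q28, q29]))
              (by norm_num) (by linarith only [r12, r15, r16, r18, r20, r21, q27, q29]) (by linarith only [r12, r18, r20, r21, r23, q27, q28, q29])
    · exact part (l := [0, 3, 5]) (l' := [1, 2, 4, 6]) (by decide) 5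
        (.t6 0 3 [5] [] 2 3 2 3 (u 5 + 0) 0 ((-3/4)*u 5 + (-3/2)*v + (1)) (by norm_num) (by norm_num) rfl rfl
          (by linarith only [r6, r8, r10, r12, r17, r18, r20, r21, r22, r23, q26]) (by linarith only [r6, r8, r10, r12, r14, r17, r18, r20, r21, r22, r23]) (by linarith only [r6, r8, r10, r12, r14, r17, r18, r20, r21, r22, r23]) (by linarith only [r6, r8, r10, r12, r17, r18, r20, r21, r22, r23, q26]) (by linarith only []) (by linarith only [r6, r8, r10, r12, r17, r18, r20, r21, r22, r23, q26]))
        (.t6 1 2 [4] [6] 0 0 0 0 (u 4 + 0) (u 6 + 0) ((-1)*u 6 + (1)) (by norm_num) (by norm_num) rfl rfl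
          (by linarith only [r14, r16, r17, r18, r20, r22, q25, q26]) (by linarith only [r6, r8, r10, r12, r14, r17, r18, r20, r21, r22, r23]) (by linarith only [r6, r8, r10, r12, r14, r17, r18, r20, r21, r22, r23]) (by linarith only []) (by linarith only [r10, r12, r14, r16, r17, r18, r20, r22, q25]) (by linarith only [r14, r16, r17, r18, r20, r21, r22, q26]))
        (by norm_num) (by linarith only [r6, r8, r10, r12, r17, r18, r20, r21, r22, r23, q26]) (by linarith only [r6, r8, r10, r12, r14, r17, r18, r20, r21, r22, r23])
  · rcases le_total 0 ((2/9)*u 2 + (2/9)*u 3 + (3/4)*u 5 + (3/4)*v + (-2/9)) with q26 | q26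
    · rcases le_total 0 ((-1)*u 0 + (-1)*u 3 + (-5/2)*u 5 + (-5/2)*v + (1)) with q27 | q27
      · rcases le_total 0 ((3/4)*u 5 + (-1)*u 6 + (3/4)*v) with q28 | q28
        · rcases le_total 0 ((3/4)*u 4 + (-2)*v) with q29 | q29
          · exact part (l := [0, 1, 4]) (l' := [2, 3, 5, 6]) (by decide) 3
              (.t6 0 1 [4] [] 0 2 0 2 (u 4 + 0) 0 ((-3/4)*u 4 + (1)) (by norm_num) (by norm_num) rfl rfl
                (by linarith only [r10, r12, r15, r16, r17, r18, r20, r22, r23]) (by linarith only [r12, r14, r16, r17, r18, r20, r21, r23]) (by linarith only [r12, r14, r17, r18, r20, r21, r23, q25]) (by linarith only [r12, r16, r17, r18, r20, r23, q27, q29]) (by linarith only []) (by linarith only [r10, r12, r15, r16, r18, r20, r22, r23, q29]))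
              (.t6 2 3 [5] [6] 1 0 1 0 (u 5 + 0) (u 6 + 0) ((-3/4)*u 5 + (-3/4)*v + (1)) (by norm_num) (by norm_num) rfl rfl
                (by linarith only [r12, r16, r17, r18, r20, r21, q27, q29]) (by linarith only [r12, r14, r17, r18, r20, r21, r23, q25]) (by linarith only [r14, r16, r17, r18, r20, q25, q26, q28]) (by linarith only [r14, r16, r17, r18, r20, q25, q26, q28]) (by linarith only []) (by linarith only [r16, r17, r18, r20, r23, q25, q27, q29]))
              (by norm_num) (by linarith only [r12, r16, r17, r18, r20, r23, q27, q29]) (by linarith only [r12, r14, r17, r18, r20, r23, q25, q26])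
          · exact part (l := [0, 3, 5]) (l' := [1, 2, 4, 6]) (by decide) 3
              (.t6 0 3 [5] [] 1 2 1 2 (u 5 + 0) 0 ((-3/4)*u 5 + (-3/4)*v + (1)) (by norm_num) (by norm_num) rfl rfl
                (by linarith only [r12, r16, r17, r18, r20, r21, q27, q29]) (by linarith only [r10, r12, r15, r17, r18, r20, r22, r23, q25]) (by linarith only [r10, r12, r17, r18, r20, r22, r23, q25, q29]) (by linarith only [r10, r12, r15, r16, r17, r18, r19, r22, r23]) (by linarith only []) (by linarith only [r12, r15, r16, r18, r20, r23, q25, q27]))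
              (.t6 1 2 [4] [6] 0 0 0 0 (u 4 + 0) (u 6 + 0) ((-3/4)*u 4 + (1)) (by norm_num) (by norm_num) rfl rfl
                (by linarith only [r10, r12, r15, r16, r17, r18, r20, r22, q29]) (by linarith only [r10, r12, r15, r16, r17, r18, r19, r22, r23]) (by linarith only [r10, r12, r15, r17, r18, r20, r22, r23, q25]) (by linarith only [r16, r17, r20, r21, r23, q25, q27, q29]) (by linarith only []) (by linarith only [r10, r12, r15, r16, r17, r18, r20, r22, q29]))
              (by norm_num) (by linarith only [r12, r15, r16, r17, r18, r20, r23, q27]) (by linarith only [r10, r12, r17, r18, r20, r22, r23, q25, q29])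
        · rcases le_total 0 ((-1)*u 0 + (-1)*u 1 + (-1)*u 4 + (-8)*v + (1)) with q29 | q29
          · rcases le_total 0 ((-3/4)*u 4 + (4)*v) with q30 | q30
            · exact part (l := [0, 1, 4]) (l' := [2, 3, 5, 6]) (by decide) 5
                (.t6 0 1 [4] [] 0 4 0 4 (u 4 + 0) 0 ((-4)*v + (1)) (by norm_num) (by norm_num) rfl rfl
                  (by linarith only [r10, r12, r16, r17, r18, r20, r22, r23, q26]) (by linarith only [r10, r12, r14, r16, r17, r18, r19, r22, r23]) (by linarith only [r10, r12, r14, r16, r17, r18, r19, r22, r23]) (by linarith only []) (by linarith only [r14, r16, r17, r18, r22, r23, q25, q30]) (by linarith only [r10, r12, r16, r17, r18, r20, r22, q28, q29]))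
                (.t6 2 3 [5] [6] 1 0 1 0 (u 5 + 0) (u 6 + 0) ((-1)*u 6 + (1)) (by norm_num) (by norm_num) rfl rfl
                  (by linarith only [r16, r17, r18, r22, r23, q25, q28, q29]) (by linarith only [r14, r17, r18, r20, r23, q25, q26, q28]) (by linarith only [r12, r14, r16, r17, r18, r20, q26, q28]) (by linarith only []) (by linarith only [r16, r17, r18, r20, r23, q25, q28, q30]) (by linarith only [r16, r17, r18, r22, r23, q25, q28, q29]))
                (by norm_num) (by linarith only [r16, r17, r18, r20, r22, r23, q25, q29]) (by linarith only [r14, r17, r18, r20, r23, q25, q26, q28])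
            · exact part (l := [0, 1, 4]) (l' := [2, 3, 6, 5]) (by decide) 6
                (.t6 0 1 [4] [] 0 4 0 4 (u 4 + 0) 0 ((-3/4)*u 4 + (1)) (by norm_num) (by norm_num) rfl rfl
                  (by linarith only [r12, r16, r17, r18, r20, r23, q26, q30]) (by linarith only [r14, r16, r17, r18, r20, r22, r23, q25]) (by linarith only [r14, r16, r17, r18, r22, r23, q25, q30]) (by linarith only [r14, r16, r17, r18, r22, r23, q25, q30]) (by linarith only []) (by linarith only [r12, r16, r17, r18, r20, r23, q26, q30]))
                (.t6 2 3 [6] [5] 2 0 2 0 (u 6 + 0) (u 5 + 0) ((-3/4)*u 6 + (-3/2)*v + (1)) (by norm_num) (by norm_num) rfl rfl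
                  (by linarith only [r16, r17, r18, r20, r22, r23, q25, q30]) (by linarith only [r14, r17, r18, r20, r23, q25, q26, q30]) (by linarith only [r14, r17, r18, r20, r23, q26, q28, q30]) (by linarith only [r14, r16, r17, r18, r20, r23, q25, q28]) (by linarith only []) (by linarith only [r16, r17, r18, r20, r22, r23, q25, q30]))
                (by norm_num) (by linarith only [r16, r17, r18, r20, r22, r23, q26, q30]) (by linarith only [r14, r17, r18, r20, r23, q26, q28, q30])
          · rcases le_total 0 ((-1)*u 0 + (-1)*u 3 + (-25/2)*v + (1)) with q30 | q30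
            · rcases le_total 0 ((2/9)*u 0 + (2/9)*u 4 + u 6 + (-2/9)) with q31 | q31
              · exact part (l := [1, 2, 3]) (l' := [0, 4, 5, 6]) (by decide) 4
                  (.t6 1 2 [3] [] 0 3 0 3 (u 3 + 0) 0 ((-3/4)*u 3 + (1)) (by norm_num) (by norm_num) rfl rfl
                    (by linarith only [r16, r17, r22, r23, q25, q28, q29, q31]) (by linarith only [r10, r12, r16, r18, r20, r22, r23, q26, q28]) (by linarith only [r16, r18, r20, r22, r23, q25, q26, q28, q30]) (by linarith only [r16, r18, r20, r22, r23, q25, q26, q28, q30]) (by linarith only []) (by linarith only [r16, r17, r22, r23, q25, q28, q29, q30]))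
                  (.t6 0 4 [5] [6] 1 0 1 0 (u 5 + 0) (u 6 + 0) ((-1)*u 6 + (1)) (by norm_num) (by norm_num) rfl rfl
                    (by linarith only [r16, r18, r20, r22, r23, q25, q26, q28, q30]) (by linarith only [r17, r18, r20, r22, r23, q25, q28, q29]) (by linarith only [r10, r12, r17, r18, r20, r22, q25, q26, q28, q31]) (by linarith only []) (by linarith only [r12, r16, r17, r18, q25, q28, q29, q31]) (by linarith only [r16, r18, r20, r22, r23, q25, q26, q28, q30]))
                  (by norm_num) (by linarith only [r16, r17, r18, r22, r23, q25, q29, q30]) (by linarith only [r17, r20, r22, r23, q25, q26, q28, q29])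
              · exact part (l := [0, 3, 5]) (l' := [1, 2, 4, 6]) (by decide) 5
                  (.t6 0 3 [] [5] 5 0 5 0 0 (u 5 + 0) ((-15/4)*v + (1)) (by norm_num) (by norm_num) rfl rfl
                    (by linarith only [r10, r12, r16, r22, r23, q25, q28, q29, q31]) (by linarith only [r17, r18, r20, r22, q25, q26, q28, q29, q31]) (by linarith only [r12, r17, r18, r20, q25, q26, q28, q29, q31]) (by linarith only [r12, r17, r18, r20, q25, q26, q28, q29, q31]) (by linarith only []) (by linarith only [r10, r12, r16, r22, r23, q25, q28, q29, q31]))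
                  (.t6 1 2 [4] [6] 0 0 0 0 (u 4 + 0) (u 6 + 0) ((-3/4)*u 4 + (1)) (by norm_num) (by norm_num) rfl rfl
                    (by linarith only [r10, r12, r17, r18, r20, r22, q26, q28, q29, q31]) (by linarith only [r10, r12, r16, r17, r22, r23, q28, q29, q31]) (by linarith only [r10, r12, r16, r22, r23, q25, q28, q29, q31]) (by linarith only [r10, r12, r17, r18, r20, r22, q25, q26, q28, q31]) (by linarith only []) (by linarith only [r10, r12, r17, r18, r20, r22, q25, q26, q28, q31]))
                  (by norm_num) (by linarith only [r10, r12, r17, r18, r20, r22, q26, q28, q29, q31]) (by linarith only [r17, r18, r20, r22, q25, q26, q28, q29, q31])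
            · exact part (l := [0, 1, 3]) (l' := [2, 4, 5, 6]) (by decide) 4
                (.t6 0 1 [3] [] 0 3 0 3 (u 3 + 0) 0 ((-3/4)*u 3 + (1)) (by norm_num) (by norm_num) rfl rfl
                  (by linarith only [r16, r18, r22, r23, q25, q28, q29, q30]) (by linarith only [r16, r17, r18, r20, r22, r23, q25, q28]) (by linarith only [r17, r18, r20, r22, r23, q25, q28, q30]) (by linarith only [r16, r17, r18, r20, r22, r23, q25, q28]) (by linarith only []) (by linarith only [r16, r18, r22, r23, q25, q28, q29, q30]))
                (.t6 2 4 [5] [6] 1 0 1 0 (u 5 + 0) (u 6 + 0) ((-1)*u 6 + (1)) (by norm_num) (by norm_num) rfl rfl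
                  (by linarith only [r16, r17, r18, r20, r22, r23, q25, q28]) (by linarith only [r16, r18, r20, r22, r23, q25, q26, q28, q30]) (by linarith only [r16, r18, r20, r22, r23, q25, q26, q28, q30]) (by linarith only []) (by linarith only [r16, r18, r22, r23, q25, q28, q29, q30]) (by linarith only [r16, r17, r18, r20, r22, r23, q25, q28]))
                (by norm_num) (by linarith only [r16, r17, r18, r22, r23, q25, q28, q29]) (by linarith only [r16, r18, r20, r22, r23, q25, q26, q28, q30])
      · exact part (l := [0, 3, 5]) (l' := [1, 2, 4, 6]) (by decide) 3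
          (.t6 0 3 [] [5] 3 0 3 0 0 (u 5 + 0) ((-1)*u 5 + (1)) (by norm_num) (by norm_num) rfl rfl
            (by linarith only [r12, r15, r16, r18, r20, r23, q25, q27]) (by linarith only [r12, r15, r17, r18, r20, r21, r23, q25]) (by linarith only [r12, r15, r16, r18, r20, r23, q25, q27]) (by linarith only []) (by linarith only [r12, r15, r16, r18, r20, r23, q25, q27]) (by linarith only [r12, r15, r16, r17, r18, r20, r21, r23]))
          (.t6 1 2 [4] [6] 0 0 0 0 (u 4 + 0) (u 6 + 0) ((-3/4)*u 4 + (1)) (by norm_num) (by norm_num) rfl rfl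
            (by linarith only [r12, r15, r16, r17, r18, r20, r23, q27]) (by linarith only [r12, r15, r16, r17, r18, r20, r21, r23]) (by linarith only [r12, r15, r17, r18, r20, r21, r23, q25]) (by linarith only [r15, r16, r17, r18, r20, r21, r23, q25]) (by linarith only []) (by linarith only [r12, r15, r16, r17, r18, r20, r23, q27]))
          (by norm_num) (by linarith only [r12, r15, r16, r17, r18, r20, r21, r23]) (by linarith only [r12, r16, r17, r18, r20, r21, r23, q27])
    · rcases le_total 0 ((3/4)*u 4 + (-3)*v) with q27 | q27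
      · exact part (l := [0, 1, 4]) (l' := [2, 3, 6, 5]) (by decide) 5
          (.t6 0 1 [4] [] 0 3 0 3 (u 4 + 0) 0 ((-3/4)*u 4 + (1)) (by norm_num) (by norm_num) rfl rfl
            (by linarith only [r10, r12, r14, r16, r17, r18, r20, r22, r23]) (by linarith only [r10, r12, r14, r16, r17, r18, r20, r22, r23]) (by linarith only [r10, r12, r14, r17, r18, r20, r22, r23, q25]) (by linarith only [r10, r12, r17, r18, r20, r22, r23, q25, q27]) (by linarith only []) (by linarith only [r10, r12, r16, r18, r20, r22, r23, q26, q27]))
          (.t6 2 3 [6] [5] 2 0 2 0 (u 6 + 0) (u 5 + 0) ((-3/4)*u 6 + (-3/2)*v + (1)) (by norm_num) (by norm_num) rfl rfl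
            (by linarith only [r10, r12, r17, r18, r20, r22, r23, q26, q27]) (by linarith only [r10, r12, r14, r17, r18, r20, r22, r23, q25]) (by linarith only [r10, r12, r14, r17, r18, r20, r22, r23, q25]) (by linarith only [r12, r14, r17, r18, r20, r23, q25, q26]) (by linarith only []) (by linarith only [r10, r12, r17, r18, r20, r22, r23, q26, q27]))
          (by norm_num) (by linarith only [r10, r12, r16, r17, r18, r20, r22, r23, q26]) (by linarith only [r10, r12, r14, r17, r18, r20, r22, r23, q25])
      · rcases le_total 0 ((-1)*u 0 + (-1)*u 3 + (-5/2)*u 4 + (-5/2)*v + (1)) with q28 | q28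
        · rcases le_total 0 ((-1)*u 0 + (-1)*u 3 + (-5/2)*u 5 + (-5)*v + (1)) with q29 | q29
          · exact part (l := [0, 3, 5]) (l' := [1, 2, 4, 6]) (by decide) 5
              (.t6 0 3 [5] [] 2 3 2 3 (u 5 + 0) 0 ((-3/4)*u 5 + (-3/2)*v + (1)) (by norm_num) (by norm_num) rfl rfl
                (by linarith only [r10, r12, r16, r20, r22, r23, q26, q28, q29]) (by linarith only [r10, r12, r17, r18, r20, r22, r23, q25, q26]) (by linarith only [r10, r12, r17, r18, r20, r22, r23, q25, q27]) (by linarith only [r10, r12, r17, r18, r20, r22, r23, q25, q26]) (by linarith only []) (by linarith only [r10, r12, r18, r20, r22, r23, q25, q26, q29]))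
              (.t6 1 2 [4] [6] 0 0 0 0 (u 4 + 0) (u 6 + 0) ((-3/4)*u 4 + (1)) (by norm_num) (by norm_num) rfl rfl
                (by linarith only [r10, r12, r16, r17, r20, r22, q26, q27, q28]) (by linarith only [r10, r12, r17, r18, r20, r22, r23, q25, q26]) (by linarith only [r10, r12, r17, r18, r20, r22, r23, q25, q26]) (by linarith only [r10, r12, r17, r18, r20, r22, r23, q25, q26]) (by linarith only []) (by linarith only [r10, r12, r16, r17, r20, r22, q25, q26, q27]))
              (by norm_num) (by linarith only [r10, r12, r17, r18, r20, r22, r23, q26, q27]) (by linarith only [r10, r12, r17, r18, r20, r22, r23, q25, q27])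
          · exact part (l := [0, 1, 4]) (l' := [2, 3, 5, 6]) (by decide) 4
              (.t6 0 1 [4] [] 0 3 0 3 (u 4 + 0) 0 ((-3)*v + (1)) (by norm_num) (by norm_num) rfl rfl
                (by linarith only [r10, r12, r16, r20, r22, r23, q26, q28, q29]) (by linarith only [r10, r12, r18, r20, r22, r23, q25, q26, q29]) (by linarith only [r12, r16, r18, r23, q25, q26, q27, q29]) (by linarith only []) (by linarith only [r16, r18, r20, r22, r23, q25, q26, q27, q28, q29]) (by linarith only [r10, r12, r16, r20, r22, r23, q25, q26, q29]))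
              (.t6 2 3 [5] [6] 1 0 1 0 (u 5 + 0) (u 6 + 0) ((2/9)*u 2 + (2/9)*u 3 + (7/9)) (by norm_num) (by norm_num) rfl rfl
                (by linarith only [r10, r12, r16, r18, r22, r23, q25, q26, q29]) (by linarith only [r12, r16, r18, r20, r23, q25, q26, q27]) (by linarith only []) (by linarith only [r16, r18, r20, r22, r23, q25, q26, q27, q28, q29]) (by linarith only [r10, r12, r16, r18, r20, r22, q26, q28, q29]) (by linarith only [r10, r12, r16, r18, r22, r23, q25, q26, q29]))
              (by norm_num) (by linarith only [r10, r12, r18, r20, r22, r23, q25, q26, q28]) (by linarith only [r12, r18, r20, r23, q25, q26, q27, q29])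
        · exact part (l := [0, 1, 4]) (l' := [2, 3, 5, 6]) (by decide) 4
            (.t6 0 1 [4] [] 0 3 0 3 (u 4 + 0) 0 ((-3)*v + (1)) (by norm_num) (by norm_num) rfl rfl
              (by linarith only [r10, r12, r16, r18, r20, r22, r23, q26, q27]) (by linarith only [r10, r12, r18, r20, r22, r23, q26, q27, q28]) (by linarith only [r10, r12, r16, r18, r22, r23, q26, q27, q28]) (by linarith only []) (by linarith only [r10, r12, r16, r18, r20, r22, r23, q26, q27]) (by linarith only [r10, r12, r16, r18, r20, r22, r23, q25, q26]))
            (.t6 2 3 [5] [6] 1 0 1 0 (u 5 + 0) (u 6 + 0) ((2/9)*u 2 + (2/9)*u 3 + (7/9)) (by norm_num) (by norm_num) rfl rfl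
              (by linarith only [r10, r12, r16, r18, r22, r23, q26, q27, q28]) (by linarith only [r10, r12, r16, r18, r20, r22, r23, q25, q26]) (by linarith only []) (by linarith only [r16, r18, r20, r22, r23, q25, q26, q27, q28]) (by linarith only [r10, r12, r16, r18, r20, r22, r23, q26, q27]) (by linarith only [r10, r12, r16, r18, r22, r23, q26, q27, q28]))
            (by norm_num) (by linarith only [r10, r12, r16, r18, r20, r22, r23, q25, q26]) (by linarith only [r10, r12, r18, r20, r22, r23, q26, q27, q28])


set_option maxHeartbeats 4000000 in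
theorem t7B (u : Fin 7 → ℝ) (v : ℝ)
    (r0 : 0 ≤ u 0 + (-13/100))
    (r1 : 0 ≤ (-1)*u 0 + (1))
    (r2 : 0 ≤ u 1 + (-13/100))
    (r3 : 0 ≤ (-1)*u 1 + (1))
    (r4 : 0 ≤ u 2 + (-13/100))
    (r5 : 0 ≤ (-1)*u 2 + (1))
    (r6 : 0 ≤ u 3 + (-13/100))
    (r7 : 0 ≤ (-1)*u 3 + (1))
    (r8 : 0 ≤ u 4 + (-13/100))
    (r9 : 0 ≤ (-1)*u 4 + (1))
    (r10 : 0 ≤ u 5 + (-13/100))
    (r11 : 0 ≤ (-1)*u 5 + (1))
    (r12 : 0 ≤ u 6 + (-13/100))
    (r13 : 0 ≤ (-1)*u 6 + (1))
    (r14 : 0 ≤ v + (-7/100))
    (r15 : 0 ≤ (-1)*v + (13/100))
    (r16 : 0 ≤ (-1)*u 0 + (-1)*u 1 + (-1)*u 2 + (-1)*u 3 + (-1)*u 4 + (-1)*u 5 + (-1)*u 6 + (4/3))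
    (r17 : 0 ≤ (-1)*u 0 + (-1)*u 1 + (-1)*u 2 + (-1)*u 3 + (-1)*u 4 + (-1)*u 5 + (-1)*u 6 + (-1)*v + (4/3))
    (r18 : 0 ≤ u 0 + (-1)*u 1)
    (r19 : 0 ≤ u 1 + (-1)*u 2)
    (r20 : 0 ≤ u 2 + (-1)*u 3)
    (r21 : 0 ≤ u 3 + (-1)*u 4)
    (r22 : 0 ≤ u 4 + (-1)*u 5)
    (r23 : 0 ≤ u 5 + (-1)*u 6)
    (r24 : 0 ≤ u 2 + (-2/9))
    (r25 : 0 ≤ u 0 + u 1 + u 2 + u 3 + u 4 + u 5 + u 6 + (-28/27)) :
    PG u v (u 0 + u 1 + u 2 + u 3 + u 4 + u 5 + u 6) := by
  rcases le_total 0 ((-3/4)*u 3 + u 4) with q26 | q26
  · rcases le_total 0 ((-2/9)*u 0 + (-2/9)*u 1 + (-1)*v + (2/9)) with q27 | q27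
    · rcases le_total 0 ((-2/9)*u 0 + (-2/9)*u 1 + (-3/4)*u 4 + (2/9)) with q28 | q28
      · rcases le_total 0 ((-1)*u 2 + (-1)*u 3 + (-5/2)*u 5 + (-5/2)*v + (1)) with q29 | q29
        · rcases le_total 0 ((-1)*u 5 + (3/4)*u 6 + (3/4)*v) with q30 | q30
          · rcases le_total 0 (u 0 + u 1 + u 2 + u 3 + u 4 + u 5 + u 6 + (2)*v + (-4/3)) with q31 | q31
            · rcases le_total 0 ((-2/9)*u 0 + (-2/9)*u 1 + (-3/4)*u 3 + (2/9)) with q32 | q32
              · exact part (l := [0, 1, 3]) (l' := [2, 4, 5, 6]) (by decide) 2
                  (.t6 0 1 [3] [] 0 1 0 1 (u 3 + 0) 0 ((2/9)*u 0 + (2/9)*u 1 + (7/9)) (by norm_num) (by norm_num) rfl rfl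
                    (by linarith only [r8, r10, r12, r14, r17, r19, r22, r23, r24, q32]) (by linarith only [r14, r17, r18, r19, r21, r22, r23, r24]) (by linarith only []) (by linarith only [r6, r8, r10, r12, r17, r18, r19, r21, r22, r23, q27]) (by linarith only [r8, r10, r12, r14, r17, r19, r22, r23, r24, q32]) (by linarith only [r8, r10, r12, r17, r18, r19, r22, r23, r24, q29]))
                  (.t6 2 4 [5] [6] 1 0 1 0 (u 5 + 0) (u 6 + 0) ((-3/4)*u 5 + (-3/4)*v + (1)) (by norm_num) (by norm_num) rfl rfl
                    (by linarith only [r17, r18, r19, r21, r22, r23, q27, q29]) (by linarith only [r6, r8, r10, r12, r14, r17, r19, r21, r22, r23, r24]) (by linarith only [r6, r8, r10, r12, r14, r17, r19, r21, r22, r23, r24]) (by linarith only [r14, r17, r18, r19, r21, r22, r23, r24]) (by linarith only []) (by linarith only [r17, r18, r19, r21, r22, r23, r24, q29]))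
                  (by norm_num) (by linarith only [r12, r18, r19, r21, r22, r24, q27, q29]) (by linarith only [r10, r12, r14, r18, r19, r21, r23, r24, q31])
              · rcases le_total 0 (u 4 + (-3/2)*v) with q33 | q33
                · rcases le_total 0 ((-1)*u 4 + (3/4)*u 5 + (3/4)*v) with q34 | q34
                  · rcases le_total 0 (u 5 + (-3/2)*v) with q35 | q35
                    · rcases le_total 0 (u 6 + (-3/2)*v) with q36 | q36
                      · exact part (l := [0, 3, 5, 4]) (l' := [1, 2, 6]) (by decide) 3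
                          (.t6 0 3 [5] [4] 1 0 1 0 (u 5 + 0) (u 4 + 0) ((-3/4)*u 5 + (-3/4)*v + (1)) (by norm_num) (by norm_num) rfl rfl
                            (by linarith only [r12, r17, r18, r19, r22, r24, q32, q36]) (by linarith only [r8, r10, r12, r14, r18, r19, r22, r23, r24, q32]) (by linarith only [r8, r10, r12, r14, r18, r19, r22, r23, r24, q32]) (by linarith only [r10, r12, r14, r17, r18, r19, r23, r24, q34]) (by linarith only []) (by linarith only [r12, r17, r18, r19, r22, r24, q32, q36]))
                          (.t6 1 2 [] [6] 2 0 2 0 0 (u 6 + 0) ((-1)*u 6 + (1)) (by norm_num) (by norm_num) rfl rfl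
                            (by linarith only [r17, r18, r19, r22, r23, r24, q32, q33, q35, q36]) (by linarith only [r8, r10, r12, r14, r18, r19, r22, r23, r24, q26]) (by linarith only [r8, r10, r12, r14, r18, r19, r22, r23, r24, q26]) (by linarith only []) (by linarith only [r8, r10, r12, r17, r18, r19, r22, r23, q26, q33, q35, q36]) (by linarith only [r17, r18, r19, r22, r23, r24, q32, q33, q35, q36]))
                          (by norm_num) (by linarith only [r17, r18, r19, r22, r23, r24, q32, q33, q35, q36]) (by linarith only [r8, r10, r12, r14, r18, r19, r22, r23, r24, q32])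
                      · exact part (l := [0, 1, 5]) (l' := [2, 3, 6, 4]) (by decide) 3
                          (.t6 0 1 [] [5] 2 0 2 0 0 (u 5 + 0) ((-1)*u 5 + (1)) (by norm_num) (by norm_num) rfl rfl
                            (by linarith only [r8, r10, r12, r17, r19, r22, r23, r24, q32, q33, q35, q36]) (by linarith only [r8, r10, r12, r18, r19, r22, r23, r24, q26, q33, q35, q36]) (by linarith only [r8, r10, r12, r18, r19, r22, r23, r24, q26, q33, q35, q36]) (by linarith only []) (by linarith only [r8, r10, r12, r17, r18, r19, r22, r23, q26, q33, q35, q36]) (by linarith only [r8, r10, r12, r17, r19, r22, r23, r24, q32, q33, q35, q36]))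
                          (.t6 2 3 [6] [4] 1 0 1 0 (u 6 + 0) (u 4 + 0) ((-3/4)*u 6 + (-3/4)*v + (1)) (by norm_num) (by norm_num) rfl rfl
                            (by linarith only [r17, r18, r19, r22, r23, r24, q32, q33, q35, q36]) (by linarith only [r8, r10, r12, r17, r19, r22, r23, r24, q32, q33, q35, q36]) (by linarith only [r8, r10, r12, r17, r19, r22, r23, r24, q32, q33, q35, q36]) (by linarith only [r10, r12, r17, r18, r19, r23, r24, q32, q35, q36]) (by linarith only []) (by linarith only [r17, r18, r19, r22, r23, r24, q32, q33, q35, q36]))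
                          (by norm_num) (by linarith only [r17, r18, r19, r22, r23, r24, q32, q33, q35, q36]) (by linarith only [r8, r10, r12, r18, r19, r22, r23, r24, q32, q33, q35, q36])
                    · exact part (l := [0, 1, 5]) (l' := [2, 3, 6, 4]) (by decide) 3
                        (.t6 0 1 [] [5] 2 0 2 0 0 (u 5 + 0) ((-3/2)*v + (1)) (by norm_num) (by norm_num) rfl rfl
                          (by linarith only [r10, r12, r17, r18, r19, r23, r24, q32, q33]) (by linarith only [r8, r10, r12, r18, r19, r22, r23, r24, q26, q33, q35]) (by linarith only [r8, r10, r12, r18, r19, r22, r23, r24, q26, q33, q35]) (by linarith only [r17, r18, r19, r22, r23, r24, q26, q33, q35]) (by linarith only []) (by linarith only [r8, r10, r12, r17, r19, r22, r23, r24, q32, q33, q35]))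
                        (.t6 2 3 [6] [4] 1 0 1 0 (u 6 + 0) (u 4 + 0) ((-3/4)*u 6 + (-3/4)*v + (1)) (by norm_num) (by norm_num) rfl rfl
                          (by linarith only [r17, r18, r19, r22, r23, r24, q32, q33, q35]) (by linarith only [r8, r10, r12, r17, r19, r22, r23, r24, q32, q33, q35]) (by linarith only [r8, r10, r12, r17, r19, r22, r23, r24, q32, q33, q35]) (by linarith only [r10, r12, r17, r18, r19, r23, r24, q32, q35]) (by linarith only []) (by linarith only [r10, r12, r17, r18, r19, r23, r24, q32, q33]))
                        (by norm_num) (by linarith only [r10, r12, r17, r18, r19, r23, r24, q32, q33]) (by linarith only [r8, r10, r12, r18, r19, r22, r23, r24, q32, q33, q35])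
                  · exact part (l := [0, 1, 5]) (l' := [2, 3, 6, 4]) (by decide) 3
                      (.t6 0 1 [] [5] 2 0 2 0 0 (u 5 + 0) ((-1)*u 5 + (1)) (by norm_num) (by norm_num) rfl rfl
                        (by linarith only [r10, r12, r17, r18, r19, r23, r24, q32, q34]) (by linarith only [r10, r12, r14, r18, r19, r21, r23, r24, q28, q32]) (by linarith only [r10, r12, r14, r18, r19, r21, r23, r24, q28, q32]) (by linarith only []) (by linarith only [r10, r12, r17, r18, r19, r23, r24, q32, q34]) (by linarith only [r10, r12, r14, r17, r19, r23, r24, q32, q34]))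
                      (.t6 2 3 [6] [4] 1 0 1 0 (u 6 + 0) (u 4 + 0) ((-1)*u 4 + (1)) (by norm_num) (by norm_num) rfl rfl
                        (by linarith only [r10, r12, r17, r18, r19, r23, r24, q32, q34]) (by linarith only [r10, r12, r14, r17, r19, r23, r24, q32, q34]) (by linarith only [r10, r12, r14, r17, r19, r23, r24, q32, q34]) (by linarith only []) (by linarith only [r10, r12, r14, r18, r19, r23, r24, q32, q34]) (by linarith only [r10, r12, r14, r17, r18, r19, r23, r24, q28]))
                      (by norm_num) (by linarith only [r12, r14, r17, r18, r19, r21, r24, q28, q32]) (by linarith only [r10, r12, r14, r18, r19, r23, r24, q32, q34])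
                · rcases le_total 0 ((-3/4)*u 6 + (-9/4)*v + (1/3)) with q34 | q34
                  · exact part (l := [0, 1, 4]) (l' := [2, 3, 6, 5]) (by decide) 3
                      (.t6 0 1 [] [4] 2 0 2 0 0 (u 4 + 0) ((-3/2)*v + (1)) (by norm_num) (by norm_num) rfl rfl
                        (by linarith only [r8, r10, r12, r17, r19, r22, r23, r24, q32, q34]) (by linarith only [r8, r10, r12, r17, r18, r19, r22, r23, r24, q26]) (by linarith only [r8, r10, r12, r18, r19, r22, r23, r24, q26, q33]) (by linarith only [r17, r18, r19, r22, r23, r24, q26, q33]) (by linarith only []) (by linarith only [r8, r10, r12, r17, r19, r22, r23, r24, q32, q34]))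
                      (.t6 2 3 [6] [5] 1 0 1 0 (u 6 + 0) (u 5 + 0) ((-3/4)*u 6 + (-3/4)*v + (1)) (by norm_num) (by norm_num) rfl rfl
                        (by linarith only [r8, r10, r12, r17, r18, r19, r22, r23, r24, q34]) (by linarith only [r8, r10, r12, r17, r19, r22, r23, r24, q32, q33]) (by linarith only [r8, r10, r12, r17, r19, r22, r23, r24, q32, q33]) (by linarith only [r12, r17, r18, r19, r22, r24, q32, q33]) (by linarith only []) (by linarith only [r8, r10, r12, r17, r18, r19, r22, r23, r24, q34]))
                      (by norm_num) (by linarith only [r10, r12, r17, r18, r19, r23, r24, q32, q34]) (by linarith only [r8, r10, r12, r18, r19, r22, r23, r24, q32, q33])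
                  · exact part (l := [0, 1, 3]) (l' := [2, 4, 5, 6]) (by decide) 2
                      (.t6 0 1 [3] [] 0 1 0 1 (u 3 + 0) 0 ((-3/4)*u 3 + (1)) (by norm_num) (by norm_num) rfl rfl
                        (by linarith only [r8, r10, r12, r17, r18, r19, r22, r23, r24, q34]) (by linarith only [r8, r10, r12, r17, r18, r19, r22, r23, r24, q32]) (by linarith only [r8, r10, r12, r17, r18, r19, r22, r23, q32, q34]) (by linarith only [r8, r10, r12, r17, r18, r19, r22, r23, r24, q32]) (by linarith only []) (by linarith only [r8, r10, r12, r17, r18, r19, r22, r23, r24, q34]))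
                      (.t6 2 4 [5] [6] 1 0 1 0 (u 5 + 0) (u 6 + 0) ((-3/4)*u 5 + (-3/4)*v + (1)) (by norm_num) (by norm_num) rfl rfl
                        (by linarith only [r8, r10, r12, r17, r18, r19, r22, r23, r24, q32]) (by linarith only [r8, r10, r12, r17, r18, r19, r22, r23, r24, q32]) (by linarith only [r8, r10, r12, r17, r18, r19, r22, r23, r24, q34]) (by linarith only [r17, r18, r19, r22, r23, r24, q32, q34]) (by linarith only []) (by linarith only [r8, r10, r12, r17, r18, r19, r22, r23, r24, q32]))
                      (by norm_num) (by linarith only [r8, r10, r12, r17, r18, r19, r22, r23, r24, q32]) (by linarith only [r8, r10, r12, r18, r19, r22, r23, r24, q32, q34])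
            · exact part (l := [0, 1, 3]) (l' := [2, 4, 5, 6]) (by decide) 4
                (.t6 0 1 [3] [] 1 2 1 2 (u 3 + 0) 0 ((-3/4)*u 3 + (-3/4)*v + (1)) (by norm_num) (by norm_num) rfl rfl
                  (by linarith only [r8, r10, r12, r14, r18, r19, r22, r23, r24, q31]) (by linarith only [r6, r8, r10, r12, r14, r18, r19, r21, r22, r23, r24]) (by linarith only [r6, r8, r10, r12, r14, r18, r19, r21, r22, r23, r24]) (by linarith only [r6, r8, r10, r12, r18, r19, r21, r22, r23, r24, q31]) (by linarith only []) (by linarith only [r6, r8, r10, r12, r18, r19, r21, r22, r23, r24, q31]))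
                (.t6 2 4 [5] [6] 1 0 1 0 (u 5 + 0) (u 6 + 0) ((-3/4)*u 5 + (-3/4)*v + (1)) (by norm_num) (by norm_num) rfl rfl
                  (by linarith only [r6, r8, r10, r12, r18, r19, r21, r22, r23, r24, q31]) (by linarith only [r6, r8, r10, r12, r14, r18, r19, r21, r22, r23, r24]) (by linarith only [r6, r8, r10, r12, r14, r18, r19, r21, r22, r23, r24]) (by linarith only [r14, r18, r19, r21, r22, r23, r24, q31]) (by linarith only []) (by linarith only [r14, r18, r19, r21, r22, r23, r24, q31]))
                (by norm_num) (by linarith only [r8, r10, r12, r14, r18, r19, r22, r23, r24, q31]) (by linarith only [r6, r8, r10, r12, r14, r18, r19, r21, r22, r23, r24])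
          · exact part (l := [0, 1, 3]) (l' := [2, 4, 6, 5]) (by decide) 3
              (.t6 0 1 [3] [] 0 2 0 2 (u 3 + 0) 0 ((-2)*v + (1)) (by norm_num) (by norm_num) rfl rfl
                (by linarith only [r12, r14, r17, r18, r19, r22, r24, q30]) (by linarith only [r12, r14, r17, r18, r19, r21, r22, r24]) (by linarith only [r12, r14, r17, r18, r19, r21, r22, r24]) (by linarith only []) (by linarith only [r12, r14, r17, r18, r19, r22, r24, q30]) (by linarith only [r12, r17, r18, r19, r21, r22, r24, q30]))
              (.t6 2 4 [6] [5] 1 0 1 0 (u 6 + 0) (u 5 + 0) ((-1)*u 5 + (1)) (by norm_num) (by norm_num) rfl rfl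
                (by linarith only [r14, r17, r18, r19, r21, r22, r24, q30]) (by linarith only [r12, r14, r18, r19, r21, r22, r24, q30]) (by linarith only [r12, r14, r18, r19, r21, r22, r24, q30]) (by linarith only []) (by linarith only [r12, r14, r17, r18, r19, r21, r22, q30]) (by linarith only [r12, r14, r17, r18, r19, r21, r22, r24]))
              (by norm_num) (by linarith only [r12, r17, r18, r19, r21, r22, r24, q30]) (by linarith only [r12, r14, r18, r19, r21, r22, r24, q30])
        · rcases le_total 0 ((-1)*u 2 + (-1)*u 4 + (-5/2)*u 6 + (-5/2)*v + (1)) with q30 | q30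
          · exact part (l := [0, 1, 3]) (l' := [2, 4, 6, 5]) (by decide) 2
              (.t6 0 1 [3] [] 0 1 0 1 (u 3 + 0) 0 ((2/9)*u 0 + (2/9)*u 1 + (7/9)) (by norm_num) (by norm_num) rfl rfl
                (by linarith only [r8, r10, r12, r17, r18, r19, r22, r23, r24, q29]) (by linarith only [r12, r17, r18, r19, r21, r22, r24, q27]) (by linarith only []) (by linarith only [r12, r17, r18, r19, r21, r22, r24, q27]) (by linarith only [r8, r10, r12, r17, r18, r19, r22, r23, r24, q29]) (by linarith only [r8, r10, r12, r17, r18, r19, r22, r23, r24, q29]))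
              (.t6 2 4 [6] [5] 1 0 1 0 (u 6 + 0) (u 5 + 0) ((-3/4)*u 6 + (-3/4)*v + (1)) (by norm_num) (by norm_num) rfl rfl
                (by linarith only [r17, r18, r19, r21, r22, r23, q27, q29, q30]) (by linarith only [r8, r10, r12, r17, r18, r19, r22, r23, r24, q27]) (by linarith only [r12, r17, r18, r19, r21, r22, r24, q29]) (by linarith only [r12, r17, r18, r19, r21, r22, r24, q29]) (by linarith only []) (by linarith only [r17, r18, r19, r21, r22, r23, r24, q29, q30]))
              (by norm_num) (by linarith only [r18, r19, r21, r22, r23, r24, q27, q29, q30]) (by linarith only [r12, r18, r19, r21, r22, r24, q27, q29])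
          · exact part (l := [0, 3, 4]) (l' := [1, 2, 5, 6]) (by decide) 2
              (.t6 0 3 [] [4] 2 0 2 0 0 (u 4 + 0) ((-3/2)*v + (1)) (by norm_num) (by norm_num) rfl rfl
                (by linarith only [r17, r18, r19, r22, r23, r24, q27, q30]) (by linarith only [r18, r19, r21, r22, r23, r24, q27, q29, q30]) (by linarith only [r17, r18, r19, r21, r22, r23, r24, q29, q30]) (by linarith only [r17, r18, r19, r21, r22, r23, r24, q29, q30]) (by linarith only []) (by linarith only [r17, r18, r19, r21, r23, r24, q27, q29, q30]))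
              (.t6 1 2 [5] [6] 0 0 0 0 (u 5 + 0) (u 6 + 0) ((-1)*u 6 + (1)) (by norm_num) (by norm_num) rfl rfl
                (by linarith only [r17, r18, r19, r21, r22, r23, r24, q29, q30]) (by linarith only [r17, r18, r19, r21, r22, r23, r24, q27]) (by linarith only [r17, r18, r19, r21, r23, r24, q27, q29, q30]) (by linarith only []) (by linarith only [r17, r18, r19, r21, r22, r24, q27, q30]) (by linarith only [r17, r18, r19, r21, r22, r23, r24, q29, q30]))
              (by norm_num) (by linarith only [r17, r18, r19, r21, r22, r23, r24, q27]) (by linarith only [r18, r19, r21, r22, r23, r24, q27, q29, q30])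
      · exact part (l := [0, 1, 3]) (l' := [2, 4, 5, 6]) (by decide) 3
          (.t6 0 1 [3] [] 0 2 0 2 (u 3 + 0) 0 ((-2)*v + (1)) (by norm_num) (by norm_num) rfl rfl
            (by linarith only [r10, r12, r14, r17, r18, r19, r23, r24, q28]) (by linarith only [r10, r12, r14, r17, r18, r19, r21, r23, r24]) (by linarith only [r10, r12, r14, r17, r18, r19, r21, r23, r24]) (by linarith only []) (by linarith only [r10, r12, r14, r17, r18, r19, r23, r24, q28]) (by linarith only [r10, r12, r17, r18, r19, r21, r23, r24, q28]))
          (.t6 2 4 [5] [6] 1 0 1 0 (u 5 + 0) (u 6 + 0) ((-3/4)*u 5 + (-3/4)*v + (1)) (by norm_num) (by norm_num) rfl rfl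
            (by linarith only [r12, r14, r17, r18, r19, r21, r24, q28]) (by linarith only [r10, r12, r14, r17, r19, r21, r23, r24, q28]) (by linarith only [r10, r12, r14, r17, r19, r21, r23, r24, q28]) (by linarith only [r14, r17, r18, r19, r21, r23, r24, q28]) (by linarith only []) (by linarith only [r12, r14, r17, r18, r19, r21, r24, q28]))
          (by norm_num) (by linarith only [r10, r12, r17, r18, r19, r21, r23, r24, q28]) (by linarith only [r10, r12, r14, r18, r19, r21, r23, r24, q28])
    · rcases le_total 0 ((-1)*u 2 + (-1)*u 6 + (-5)*v + (1)) with q28 | q28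
      · rcases le_total 0 ((-1)*u 2 + (-1)*u 4 + (-5)*v + (1)) with q29 | q29
        · rcases le_total 0 ((-1)*u 1 + (-1)*u 4 + (-5)*v + (1)) with q30 | q30
          · exact part (l := [1, 4, 3]) (l' := [0, 2, 5, 6]) (by decide) 2
              (.t6 1 4 [] [3] 2 0 2 0 0 (u 3 + 0) ((-3/2)*v + (1)) (by norm_num) (by norm_num) rfl rfl
                (by linarith only [r10, r12, r17, r18, r19, r21, r23, r24, q29, q30]) (by linarith only [r6, r8, r10, r12, r18, r19, r21, r22, r23, r24, q27]) (by linarith only [r6, r8, r10, r12, r17, r19, r21, r22, r23, r24, q27]) (by linarith only [r8, r10, r12, r17, r18, r19, r22, r23, r24, q27]) (by linarith only []) (by linarith only [r8, r10, r12, r17, r18, r19, r22, r23, r24, q28, q29, q30]))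
              (.t6 0 2 [5] [6] 0 0 0 0 (u 5 + 0) (u 6 + 0) ((-1)*u 6 + (1)) (by norm_num) (by norm_num) rfl rfl
                (by linarith only [r6, r8, r10, r12, r17, r19, r21, r22, r23, r24, q27]) (by linarith only [r6, r8, r10, r12, r18, r19, r21, r22, r23, r24, q27]) (by linarith only [r6, r8, r10, r12, r18, r19, r21, r22, r23, r24, q27]) (by linarith only []) (by linarith only [r12, r17, r18, r19, r21, r22, r24, q27]) (by linarith only [r6, r8, r10, r12, r17, r19, r21, r22, r23, r24, q27]))
              (by norm_num) (by linarith only [r17, r18, r19, r21, r22, r23, r24, q28, q29, q30]) (by linarith only [r6, r8, r10, r12, r18, r19, r21, r22, r23, r24, q27])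
          · exact part (l := [2, 4, 3]) (l' := [0, 1, 5, 6]) (by decide) 2
              (.t6 2 4 [] [3] 2 0 2 0 0 (u 3 + 0) ((-3/2)*v + (1)) (by norm_num) (by norm_num) rfl rfl
                (by linarith only [r10, r12, r17, r18, r19, r21, r23, r24, q29, q30]) (by linarith only [r6, r8, r10, r12, r18, r19, r21, r22, r23, r24, q28, q29, q30]) (by linarith only [r6, r8, r10, r12, r17, r18, r21, r22, r23, r24, q30]) (by linarith only [r8, r10, r12, r17, r18, r19, r22, r23, r24, q28, q29, q30]) (by linarith only []) (by linarith only [r8, r10, r12, r17, r18, r19, r22, r23, r24, q28, q29, q30]))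
              (.t6 0 1 [5] [6] 0 0 0 0 (u 5 + 0) (u 6 + 0) ((-1)*u 6 + (1)) (by norm_num) (by norm_num) rfl rfl
                (by linarith only [r6, r8, r10, r12, r17, r18, r21, r22, r23, r24, q30]) (by linarith only [r6, r8, r10, r12, r18, r19, r21, r22, r23, r24, q28, q29, q30]) (by linarith only [r6, r8, r10, r12, r18, r19, r21, r22, r23, r24, q28, q29, q30]) (by linarith only []) (by linarith only [r12, r17, r18, r19, r21, r22, r24, q29, q30]) (by linarith only [r6, r8, r10, r12, r17, r18, r21, r22, r23, r24, q30]))
              (by norm_num) (by linarith only [r17, r18, r19, r21, r22, r23, r24, q28, q29, q30]) (by linarith only [r6, r8, r10, r12, r18, r19, r21, r22, r23, r24, q28, q29, q30])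
        · exact part (l := [0, 1, 3, 5]) (l' := [2, 6, 4]) (by decide) 2
            (.t6 0 1 [3] [5] 0 0 0 0 (u 3 + 0) (u 5 + 0) ((-1)*u 5 + (1)) (by norm_num) (by norm_num) rfl rfl
              (by linarith only [r8, r10, r12, r17, r18, r19, r22, r23, r24, q28, q29]) (by linarith only [r6, r8, r10, r12, r18, r19, r21, r22, r23, r24, q28, q29]) (by linarith only [r6, r8, r10, r12, r18, r19, r21, r22, r23, r24, q28, q29]) (by linarith only []) (by linarith only [r8, r10, r12, r17, r18, r19, r22, r23, r24, q28, q29]) (by linarith only [r12, r17, r18, r19, r21, r22, r24, q29]))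
            (.t6 2 6 [] [4] 2 0 2 0 0 (u 4 + 0) ((-3/2)*v + (1)) (by norm_num) (by norm_num) rfl rfl
              (by linarith only [r6, r8, r10, r12, r18, r19, r21, r22, r23, r24, q28, q29]) (by linarith only [r6, r8, r10, r12, r18, r19, r21, r22, r23, r24, q28, q29]) (by linarith only [r10, r12, r17, r18, r19, r21, r23, r24, q29]) (by linarith only [r10, r12, r17, r18, r19, r21, r23, r24, q29]) (by linarith only []) (by linarith only [r10, r12, r17, r18, r19, r21, r23, r24, q28]))
            (by norm_num) (by linarith only [r12, r17, r18, r19, r21, r22, r24, q28]) (by linarith only [r6, r8, r10, r12, r18, r19, r21, r22, r23, r24, q28, q29])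
      · exact part4 (l₁ := [1, 2, 5]) (l₂ := [0, 3, 6, 4]) (l₃ := [0, 1]) (l₄ := [3, 5, 4, 6, 2]) (by decide) 3
          (.t6 1 2 [5] [] 0 1 0 1 (u 5 + 0) 0 ((-1)*v + (1)) (by norm_num) (by norm_num) rfl rfl
            (by linarith only [r12, r17, r18, r19, r21, r22, r24, q28]) (by linarith only [r6, r8, r10, r12, r15, r18, r19, r21, r22, r23, r24]) (by linarith only [r17, r18, r19, r21, r22, r23, r24, q28]) (by linarith only []) (by linarith only [r17, r18, r19, r21, r22, r23, r24, q28]) (by linarith only [r6, r8, r10, r12, r15, r17, r18, r19, r21, r22, r23]))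
          (.t6 0 3 [6] [4] 0 0 0 0 (u 6 + 0) (u 4 + 0) ((2/9)*u 0 + (2/9)*u 3 + (7/9)) (by norm_num) (by norm_num) rfl rfl
            (by linarith only [r6, r8, r10, r12, r17, r19, r21, r22, r23, r24, q28]) (by linarith only [r6, r8, r10, r12, r15, r18, r19, r21, r22, r23, r24]) (by linarith only []) (by linarith only [r10, r12, r17, r18, r19, r21, r23, r24, q28]) (by linarith only [r17, r18, r19, r21, r22, r23, r24, q28]) (by linarith only [r10, r12, r17, r18, r19, r21, r23, r24, q28]))
          (.t6 0 1 [] [] 1 1 1 1 0 0 ((-1)*v + (1)) (by norm_num) (by norm_num) rfl rfl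
            (by linarith only [r6, r8, r10, r12, r15, r17, r19, r21, r22, r23, r24]) (by linarith only [r6, r8, r10, r12, r15, r18, r19, r21, r22, r23, r24]) (by linarith only [r17, r18, r19, r21, r22, r23, r24, q28]) (by linarith only []) (by linarith only [r6, r8, r10, r12, r17, r18, r19, r21, r22, r23, q28]) (by linarith only [r6, r8, r10, r12, r15, r17, r19, r21, r22, r23, r24]))
          (.t6 3 5 [4, 6] [2] 0 0 0 0 (u 4 + (u 6 + 0)) (u 2 + 0) ((-1)*u 2 + (1)) (by norm_num) (by norm_num) rfl rfl
            (by linarith only [r17, r18, r19, r21, r22, r23, r24, q28]) (by linarith only [r6, r8, r10, r12, r15, r17, r18, r19, r21, r22, r23]) (by linarith only [r6, r8, r10, r12, r15, r18, r19, r21, r22, r23, r24]) (by linarith only []) (by linarith only [r17, r18, r19, r21, r22, r23, r24, q28]) (by linarith only [r17, r18, r19, r21, r22, r23, r24, q28]))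
          (by norm_num) (by linarith only [r6, r8, r10, r12, r15, r17, r18, r19, r21, r22, r23]) (by linarith only [r6, r8, r10, r12, r18, r19, r21, r22, r23, r24, q28])
  · rcases le_total 0 ((-3/4)*u 5 + (-3/4)*u 6 + (-3/2)*v + (1/3)) with q27 | q27
    · exact part (l := [0, 1, 3]) (l' := [2, 4, 5, 6]) (by decide) 2
        (.t6 0 1 [3] [] 0 1 0 1 (u 3 + 0) 0 ((-3/4)*u 3 + (1)) (by norm_num) (by norm_num) rfl rfl
          (by linarith only [r8, r10, r12, r14, r17, r18, r19, r22, r23, r24]) (by linarith only [r8, r10, r12, r14, r17, r18, r19, r22, r23, r24]) (by linarith only [r8, r10, r12, r14, r18, r19, r22, r23, r24, q26]) (by linarith only [r8, r10, r12, r17, r18, r19, r22, r23, q26, q27]) (by linarith only []) (by linarith only [r8, r10, r12, r14, r17, r18, r19, r22, r23, r24]))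
        (.t6 2 4 [5] [6] 1 0 1 0 (u 5 + 0) (u 6 + 0) ((-3/4)*u 5 + (-3/4)*v + (1)) (by norm_num) (by norm_num) rfl rfl
          (by linarith only [r12, r17, r18, r19, r22, r24, q26, q27]) (by linarith only [r8, r10, r12, r14, r17, r18, r19, r22, r23, r24]) (by linarith only [r8, r10, r12, r14, r17, r18, r19, r22, r23, r24]) (by linarith only [r14, r17, r18, r19, r22, r23, r24, q26]) (by linarith only []) (by linarith only [r12, r17, r18, r19, r22, r24, q26, q27]))
        (by norm_num) (by linarith only [r8, r10, r12, r17, r18, r19, r22, r23, r24, q27]) (by linarith only [r8, r10, r12, r14, r18, r19, r22, r23, r24, q26])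
    · exact part (l := [0, 1, 4]) (l' := [2, 3, 6, 5]) (by decide) 3
        (.t6 0 1 [] [4] 2 0 2 0 0 (u 4 + 0) ((-3/2)*v + (1)) (by norm_num) (by norm_num) rfl rfl
          (by linarith only [r8, r10, r12, r17, r18, r19, r22, r23, r24, q26]) (by linarith only [r8, r10, r12, r17, r18, r19, r22, r23, r24, q26]) (by linarith only [r17, r18, r19, r22, r23, r24, q26, q27]) (by linarith only [r17, r18, r19, r22, r23, r24, q26, q27]) (by linarith only []) (by linarith only [r8, r10, r12, r17, r18, r19, r22, r23, r24, q26]))
        (.t6 2 3 [6] [5] 1 0 1 0 (u 6 + 0) (u 5 + 0) ((-3/4)*u 6 + (-3/4)*v + (1)) (by norm_num) (by norm_num) rfl rfl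
          (by linarith only [r8, r10, r12, r17, r18, r19, r22, r23, r24, q26]) (by linarith only [r8, r10, r12, r17, r18, r19, r22, r23, r24, q26]) (by linarith only [r12, r17, r18, r19, r22, r24, q26, q27]) (by linarith only [r12, r17, r18, r19, r22, r24, q26, q27]) (by linarith only []) (by linarith only [r8, r10, r12, r17, r18, r19, r22, r23, r24, q26]))
        (by norm_num) (by linarith only [r8, r10, r12, r17, r18, r19, r22, r23, r24, q26]) (by linarith only [r8, r10, r12, r18, r19, r22, r23, r24, q26, q27])


/-- **seven lumps, the third `≥ 2/9`** -/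
theorem cov7_hi (u : Fin 7 → ℝ) (hu : Antitone u) (hlo : ∀ j, 13 / 100 ≤ u j)
    (hS : ∑ j, u j ≤ 4 / 3) (h2 : 2 / 9 ≤ u 2) :
    (∀ v, 7 / 200 ≤ v → v ≤ 7 / 100 → Cov0 u v) ∧
    (∀ v, 7 / 100 ≤ v → v ≤ 13 / 100 → (∑ j, u j) + v ≤ 4 / 3 → Cov0 u v) := by
  have a01 : u 1 ≤ u 0 := hu (by decide)
  have a12 : u 2 ≤ u 1 := hu (by decide)
  have a23 : u 3 ≤ u 2 := hu (by decide)
  have a34 : u 4 ≤ u 3 := hu (by decide)
  have a45 : u 5 ≤ u 4 := hu (by decide)
  have a56 : u 6 ≤ u 5 := hu (by decide)
  have l6 := hlo 6
  have hs : (∑ j, u j) = u 0 + u 1 + u 2 + u 3 + u 4 + u 5 + u 6 := Fin.sum_univ_seven u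
  rw [hs] at hS ⊢
  refine ⟨fun v v0 v1 => t7A u v ?_ ?_ ?_ ?_ ?_ ?_ ?_ ?_ ?_ ?_ ?_ ?_ ?_ ?_ ?_ ?_ ?_ ?_ ?_ ?_ ?_ ?_ ?_ ?_ ?_ hs,
    fun v v0 v1 hv => t7B u v ?_ ?_ ?_ ?_ ?_ ?_ ?_ ?_ ?_ ?_ ?_ ?_ ?_ ?_ ?_ ?_ ?_ ?_ ?_ ?_ ?_ ?_ ?_ ?_ ?_ ?_ hs⟩ <;> linarith

end Crest.Agent.R017.Cov7_325
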