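import Crest.Agent.R017.Cov8a_90

/-!
# Row 17, section D: boxes with eight lumps `≥ 13/100` (helper90, tree generated)
-/

set_option autoImplicit false
set_option maxHeartbeats 1000000
set_option linter.unusedSimpArgs false

noncomputable section

namespace Crest.Agent.R017.Cov8_90

open Crest.Agent.R017.ER911 Crest.Agent.R017.Hull741 Crest.Agent.R017.CovM59
  Crest.Agent.R017.CovGlue741 Crest.Agent.R017.Cov499 Crest.Agent.R017.HC777
  Crest.Agent.R017.ExpC702 Crest.Agent.R017.CovNine358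

variable {d : ℝ} {r s rc : EF}

theorem exists_min_list {l : List ℝ} (hl : l ≠ []) : ∃ c ∈ l, ∀ c' ∈ l, c ≤ c' := by
  induction l with
  | nil => exact absurd rfl hl
  | cons a l ih =>
    by_cases h : l = []
    · subst h
      exact ⟨a, by simp, by simp⟩
    · obtain ⟨c, hc, hc'⟩ := ih h
      rcases le_total a c with h1 | h1
      · refine ⟨a, by simp, fun c' h' => ?_⟩
        rcases List.mem_cons.1 h' with h2 | h2
        · exact h2.ge
        · exact h1.trans (hc' c' h2)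
      · refine ⟨c, by simp [hc], fun c' h' => ?_⟩
        rcases List.mem_cons.1 h' with h2 | h2
        · rw [h2]; exact h1
        · exact hc' c' h2

/-- two lengths from the caps -/
theorem exists_len {t₁ t₂ : ℝ} (l₁ l₂ : List ℝ) (h1 : ∀ c ∈ l₁, t₁ ≤ c) (h2 : ∀ c ∈ l₂, t₂ ≤ c)
    (h : ∀ c ∈ l₁, ∀ c' ∈ l₂, 5 / 3 ≤ c + c') (n1 : l₁ ≠ [] := by simp)
    (n2 : l₂ ≠ [] := by simp) : ∃ N₁ N₂ : ℝ, 5 / 3 ≤ N₁ + N₂ ∧
      (t₁ ≤ N₁ ∧ ∀ c ∈ l₁, N₁ ≤ c) ∧ (t₂ ≤ N₂ ∧ ∀ c ∈ l₂, N₂ ≤ c) := by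
  obtain ⟨a, ha, ha'⟩ := exists_min_list n1
  obtain ⟨b, hb, hb'⟩ := exists_min_list n2
  exact ⟨a, b, h a ha b hb, ⟨h1 a ha, ha'⟩, ⟨h2 b hb, hb'⟩⟩

/-- **eight lumps `≥ 13/100`**, all other lumps as one block -/
theorem covM_eight (C : ExpC r rc) (R : ExpRules (7 / 8 + d) r s) (Lv : ExpLv (7 / 8 + d) r)
    (hd : 0 ≤ d) {e₀ t : ℝ} (he : 10 / 9 * d ≤ e₀) (ht : 0 ≤ t) (ht3 : t ≤ 1 / 3) {N : ℕ}
    {u : Fin N → ℝ} (hu : ∀ j, 0 ≤ u j) (hs : ∑ j, u j ≤ 4 / 3) (ι : Fin 8 → Fin N)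
    (hι : Function.Injective ι) (hanti : Antitone (u ∘ ι)) (hlo : ∀ i, 13 / 100 ≤ u (ι i))
    (hreg : 4 ≤ 27 * u (ι 3) ∨ (1 ≤ 6 * u (ι 0) ∧ 4 ≤ 27 * u (ι 2)) ∨ 2 ≤ 9 * u (ι 0)) :
    CovM rc e₀ t u (fun _ => 1) := by
  obtain ⟨w, hw⟩ : ∃ w : Fin 8 → ℝ, w = fun i => u (ι i) := ⟨_, rfl⟩
  have hS' := sum_rest u ⟨ι, hι⟩
  have hr := rest_nonneg hu ⟨ι, hι⟩
  have hr0 : 0 ≤ (rest u ⟨ι, hι⟩).sum := Multiset.sum_nonneg hr
  have hwsum : ∑ i, u ((⟨ι, hι⟩ : Fin 8 ↪ Fin N) i) =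
      w 0 + w 1 + w 2 + w 3 + w 4 + w 5 + w 6 + w 7 := by
    rw [hw, Fin.sum_univ_eight]
    rfl
  rw [hwsum] at hS'
  have hk : ∀ i, 13 / 100 ≤ w i := fun i => by rw [hw]; exact hlo i
  have a : ∀ i j : Fin 8, i ≤ j → w j ≤ w i := fun i j h => by rw [hw]; exact hanti h
  have k7 := hk 7
  have a1 := a 0 1 (by decide)
  have a2 := a 1 2 (by decide)
  have a3 := a 2 3 (by decide)
  have a4 := a 3 4 (by decide)
  have a5 := a 4 5 (by decide)
  have a6 := a 5 6 (by decide)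
  have a7 := a 6 7 (by decide)
  have he' : d ≤ e₀ := by linarith
  have fin : ∀ (B : Finset (Fin 8)) (N₁ N₂ : ℝ), 5 / 3 ≤ N₁ + N₂ →
      (MCol rc e₀ (B.val.map w) N₁ ∧ (B.val.map w).sum ≤ N₁) →
      (MCol rc e₀ (Bᶜ.val.map w + rest u ⟨ι, hι⟩) N₂ ∧
        (Bᶜ.val.map w + rest u ⟨ι, hι⟩).sum ≤ N₂) → CovM rc e₀ t u (fun _ => 1) := by
    intro B N₁ N₂ hN h1 h2
    rw [hw] at h1 h2
    exact covM_of_part2 ht ht3 hs ⟨ι, hι⟩ B hN h1.1 h1.2 h2.1 h2.2
  have hreg' : 4 ≤ 27 * w 3 ∨ (1 ≤ 6 * w 0 ∧ 4 ≤ 27 * w 2) ∨ 2 ≤ 9 * w 0 := by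
    rw [hw]; exact hreg
  clear hreg hlo hanti a hwsum
  generalize rest u ⟨ι, hι⟩ = V' at hr hr0 hS' fin
  obtain ⟨V, hV⟩ : ∃ V, V = V'.sum := ⟨_, rfl⟩
  rw [← hV] at hS' hr0
  obtain ⟨S, hS⟩ : ∃ S, S = 4 / 3 - (w 0 + w 1 + w 2 + w 3 + w 4 + w 5 + w 6 + w 7) := ⟨_, rfl⟩
  have hVS : V ≤ S := by linarith
  clear hS' hs
  have hreg2 : 4 ≤ 27 * w 3 ∨ (1 ≤ 6 * w 0 ∧ 4 ≤ 27 * w 2 ∧ 27 * w 3 ≤ 4) ∨
      (2 ≤ 9 * w 0 ∧ 27 * w 3 ≤ 4) := by
    rcases le_total 4 (27 * w 3) with h | h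
    · exact Or.inl h
    · rcases hreg' with h' | h' | h'
      · exact Or.inl h'
      · exact Or.inr (Or.inl ⟨h'.1, h'.2, h⟩)
      · exact Or.inr (Or.inr ⟨h', h⟩)
  clear hreg'
  rcases hreg2 with hR | ⟨hR1, hR2, hR3⟩ | ⟨hR1, hR2⟩
  · rcases le_total (w 1 + w 4 + w 5 + S) (16 / 27) with h2 | h2
    · rcases le_total (S) (w 5) with h4 | h4
      · rcases le_total (w 6) (1 / 6) with h6 | h6
        · refine fin {0, 1, 2, 6} (5 / 6) (5 / 6) (by norm_num)
            (tA hk C R hd he (N := 5 / 6) 0 1 {2} {6} (by decide) ?_ ?_ ?_ ?_ ?_)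
            (qV hk C R Lv hd he' hr 3 4 5 {7} (by decide) ?_ ?_ ?_ ?_ ?_)
          all_goals
            try simp only [Multiset.insert_eq_cons, Multiset.map_cons, Multiset.map_singleton,
              Multiset.map_zero, Multiset.sum_cons, Multiset.sum_singleton, Multiset.sum_zero]
            linarith
        · obtain ⟨N₁, N₂, hN, hN1, hN2⟩ := exists_len (t₁ := w 0 + w 2 + w 3 + w 1) (t₂ := w 4 + w 5 + w 6 + w 7 + V)
            [1 - (w 1), 1 - 3 / 4 * (w 3), 7 / 9 + 2 / 9 * (w 0 + w 2)] [1 - (w 7), 1 - 3 / 4 * (w 6 + V), 7 / 9 + 2 / 9 * (w 4 + w 5)]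
            (by simp only [List.forall_mem_cons, List.not_mem_nil, false_imp_iff, implies_true, and_true]; refine ⟨?_, ?_, ?_⟩ <;> linarith)
            (by simp only [List.forall_mem_cons, List.not_mem_nil, false_imp_iff, implies_true, and_true]; refine ⟨?_, ?_, ?_⟩ <;> linarith)
            (by simp only [List.forall_mem_cons, List.not_mem_nil, false_imp_iff, implies_true, and_true]; refine ⟨⟨?_, ?_, ?_⟩, ⟨?_, ?_, ?_⟩, ⟨?_, ?_, ?_⟩⟩ <;> linarith)
          simp only [List.forall_mem_cons, List.not_mem_nil, false_imp_iff, implies_true, and_true] at hN1 hN2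
          refine fin {0, 1, 2, 3} N₁ N₂ hN
            (tA hk C R hd he (N := N₁) 0 2 {3} {1} (by decide) ?_ ?_ ?_ ?_ ?_)
            (tZ hk C R hd he hr (N := N₂) 4 5 {6} {7} (by decide) ?_ ?_ ?_ ?_ ?_)
          all_goals
            try simp only [Multiset.insert_eq_cons, Multiset.map_cons, Multiset.map_singleton,
              Multiset.map_zero, Multiset.sum_cons, Multiset.sum_singleton, Multiset.sum_zero]
            linarith
      · rcases le_total (w 3) (1 / 6) with h6 | h6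
        · refine fin {1, 4, 5, 6, 7} (5 / 6) (5 / 6) (by norm_num)
            (cA hk C R Lv hd he' {1, 4, 5, 7} {6} (by decide) rfl ?_ ?_)
            (tZ hk C R hd he hr (N := 5 / 6) 0 2 0 {3} (by decide) ?_ ?_ ?_ ?_ ?_)
          all_goals
            try simp only [Multiset.insert_eq_cons, Multiset.map_cons, Multiset.map_singleton,
              Multiset.map_zero, Multiset.sum_cons, Multiset.sum_singleton, Multiset.sum_zero]
            linarith
        · refine fin {0, 1, 3, 4} (5 / 6) (5 / 6) (by norm_num)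
            (tA hk C R hd he (N := 5 / 6) 0 3 {1} {4} (by decide) ?_ ?_ ?_ ?_ ?_)
            (cX hk C R Lv hd he' hr {2, 5, 6, 7} 0 (by decide) rfl ?_ ?_)
          all_goals
            try simp only [Multiset.insert_eq_cons, Multiset.map_cons, Multiset.map_singleton,
              Multiset.map_zero, Multiset.sum_cons, Multiset.sum_singleton, Multiset.sum_zero]
            linarith
    · refine fin {1, 2, 4, 6, 7} (5 / 6) (5 / 6) (by norm_num)
        (cA hk C R Lv hd he' {1, 4, 6, 7} {2} (by decide) rfl ?_ ?_)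
        (tZ hk C R hd he hr (N := 5 / 6) 0 3 0 {5} (by decide) ?_ ?_ ?_ ?_ ?_)
      all_goals
        try simp only [Multiset.insert_eq_cons, Multiset.map_cons, Multiset.map_singleton,
          Multiset.map_zero, Multiset.sum_cons, Multiset.sum_singleton, Multiset.sum_zero]
        linarith
  · rcases le_total (w 2) (1 / 6) with h2 | h2
    · refine fin {2, 3, 5, 6, 7} (5 / 6) (5 / 6) (by norm_num)
        (cA hk C R Lv hd he' {3, 5, 6, 7} {2} (by decide) rfl ?_ ?_)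
        (tZ hk C R hd he hr (N := 5 / 6) 0 1 0 {4} (by decide) ?_ ?_ ?_ ?_ ?_)
      all_goals
        try simp only [Multiset.insert_eq_cons, Multiset.map_cons, Multiset.map_singleton,
          Multiset.map_zero, Multiset.sum_cons, Multiset.sum_singleton, Multiset.sum_zero]
        linarith
    · rcases le_total (w 1 + w 3 + w 4 + S) (16 / 27) with h4 | h4
      · rcases le_total (w 0 + w 1 + 5 / 2 * w 2) (1) with h6 | h6
        · refine fin {3, 4, 5, 6, 7} (5 / 6) (5 / 6) (by norm_num)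
            (cA hk C R Lv hd he' {3, 4, 5, 6} {7} (by decide) rfl ?_ ?_)
            (tX hk C R hd he hr (N := 5 / 6) 0 1 {2} 0 (by decide) ?_ ?_ ?_ ?_ ?_)
          all_goals
            try simp only [Multiset.insert_eq_cons, Multiset.map_cons, Multiset.map_singleton,
              Multiset.map_zero, Multiset.sum_cons, Multiset.sum_singleton, Multiset.sum_zero]
            linarith
        · obtain ⟨N₁, N₂, hN, hN1, hN2⟩ := exists_len (t₁ := w 0 + w 1 + w 4 + w 3) (t₂ := w 5 + w 6 + w 2 + w 7 + V)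
            [1 - (w 3), 1 - 3 / 4 * (w 4), 7 / 9 + 2 / 9 * (w 0 + w 1)] [1 - (w 7), 1 - 3 / 4 * (w 2 + V), 7 / 9 + 2 / 9 * (w 5 + w 6)]
            (by simp only [List.forall_mem_cons, List.not_mem_nil, false_imp_iff, implies_true, and_true]; refine ⟨?_, ?_, ?_⟩ <;> linarith)
            (by simp only [List.forall_mem_cons, List.not_mem_nil, false_imp_iff, implies_true, and_true]; refine ⟨?_, ?_, ?_⟩ <;> linarith)
            (by simp only [List.forall_mem_cons, List.not_mem_nil, false_imp_iff, implies_true, and_true]; refine ⟨⟨?_, ?_, ?_⟩, ⟨?_, ?_, ?_⟩, ⟨?_, ?_, ?_⟩⟩ <;> linarith)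
          simp only [List.forall_mem_cons, List.not_mem_nil, false_imp_iff, implies_true, and_true] at hN1 hN2
          refine fin {0, 1, 3, 4} N₁ N₂ hN
            (tA hk C R hd he (N := N₁) 0 1 {4} {3} (by decide) ?_ ?_ ?_ ?_ ?_)
            (tZ hk C R hd he hr (N := N₂) 5 6 {2} {7} (by decide) ?_ ?_ ?_ ?_ ?_)
          all_goals
            try simp only [Multiset.insert_eq_cons, Multiset.map_cons, Multiset.map_singleton,
              Multiset.map_zero, Multiset.sum_cons, Multiset.sum_singleton, Multiset.sum_zero]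
            linarith
      · refine fin {0, 3, 4, 5, 7} (5 / 6) (5 / 6) (by norm_num)
          (cA hk C R Lv hd he' {0, 3, 5, 7} {4} (by decide) rfl ?_ ?_)
          (tZ hk C R hd he hr (N := 5 / 6) 1 2 0 {6} (by decide) ?_ ?_ ?_ ?_ ?_)
        all_goals
          try simp only [Multiset.insert_eq_cons, Multiset.map_cons, Multiset.map_singleton,
            Multiset.map_zero, Multiset.sum_cons, Multiset.sum_singleton, Multiset.sum_zero]
          linarith
  · rcases le_total (S) (w 3) with h2 | h2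
    · refine fin {0, 4, 6, 7} (5 / 6) (5 / 6) (by norm_num)
        (tA hk C R hd he (N := 5 / 6) 0 4 {7} {6} (by decide) ?_ ?_ ?_ ?_ ?_)
        (qV hk C R Lv hd he' hr 1 2 3 {5} (by decide) ?_ ?_ ?_ ?_ ?_)
      all_goals
        try simp only [Multiset.insert_eq_cons, Multiset.map_cons, Multiset.map_singleton,
          Multiset.map_zero, Multiset.sum_cons, Multiset.sum_singleton, Multiset.sum_zero]
        linarith
    · refine fin {1, 2, 3, 5, 6} (5 / 6) (5 / 6) (by norm_num)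
        (cA hk C R Lv hd he' {1, 2, 3, 6} {5} (by decide) rfl ?_ ?_)
        (tZ hk C R hd he hr (N := 5 / 6) 0 7 0 {4} (by decide) ?_ ?_ ?_ ?_ ?_)
      all_goals
        try simp only [Multiset.insert_eq_cons, Multiset.map_cons, Multiset.map_singleton,
          Multiset.map_zero, Multiset.sum_cons, Multiset.sum_singleton, Multiset.sum_zero]
        linarith

end Crest.Agent.R017.Cov8_90
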