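import Crest.Agent.R017.CovMap2_702
import Crest.Agent.R017.Cov8b_90

/-!
# Row 17, T.2 : the boxes with eight big lumps (helper90)

`tree8 : TreeD lw 8`, `tree8' : TreeD lw2 8`, from `covM_eight` (direct 2-partitions).
-/

set_option autoImplicit false

noncomputable section

namespace Crest.Agent.R017.Cov8_90

open Crest.Agent.R017.CovSmall741 Crest.Agent.R017.ER911 Crest.Agent.R017.Hull741 Crest.Agent.R017.CovM59
  Crest.Agent.R017.CovGlue741 Crest.Agent.R017.Cov499 Crest.Agent.R017.HC777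
  Crest.Agent.R017.ExpC702 Crest.Agent.R017.CovMap702 Crest.Agent.R017.Prov71

/-- bounds of the weight of one lump -/
theorem P_le (u : ℝ) :
    (u ≤ 4 / 27 → 1 / (2 * lw u) ≤ 1 / 9) ∧ (u ≤ 1 / 6 → 1 / (2 * lw u) ≤ 1 / 7) ∧
      (u ≤ 2 / 9 → 1 / (2 * lw u) ≤ 1 / 6) := by
  unfold lw
  split_ifs with h1 h2 h3 h4 h5
  · refine ⟨fun _ => by norm_num, fun _ => by norm_num, fun _ => by norm_num⟩
  · refine ⟨fun h => absurd h h1, fun _ => by norm_num, fun _ => by norm_num⟩
  · refine ⟨fun h => absurd h h1, fun h => absurd h h2, fun _ => by norm_num⟩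
  · exact ⟨fun h => absurd h h1, fun h => absurd h h2, fun h => absurd h h3⟩
  · exact ⟨fun h => absurd h h1, fun h => absurd h h2, fun h => absurd h h3⟩
  · exact ⟨fun h => absurd h h1, fun h => absurd h h2, fun h => absurd h h3⟩

/-- the region of the eight lumps -/
theorem reg8 (w : Fin 8 → ℝ) (ha : Antitone w) (hP : 1 < ∑ j, 1 / (2 * lw (w j))) :
    4 ≤ 27 * w 3 ∨ (1 ≤ 6 * w 0 ∧ 4 ≤ 27 * w 2) ∨ 2 ≤ 9 * w 0 := by
  by_contra hc
  push Not at hc
  obtain ⟨h3, h02, h0⟩ := hc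
  have m (i : Fin 8) (h : 3 ≤ i) : 1 / (2 * lw (w i)) ≤ 1 / 9 :=
    (P_le _).1 (by linarith [ha h])
  have s (i : Fin 8) : w i ≤ w 0 := ha (Fin.zero_le i)
  have e3 := m 3 (by decide)
  have e4 := m 4 (by decide)
  have e5 := m 5 (by decide)
  have e6 := m 6 (by decide)
  have e7 := m 7 (by decide)
  simp only [Fin.sum_univ_eight] at hP
  by_cases hh : 1 ≤ 6 * w 0
  · have h2 := h02 hh
    have e2 : 1 / (2 * lw (w 2)) ≤ 1 / 9 := (P_le _).1 (by linarith)
    have e0 : 1 / (2 * lw (w 0)) ≤ 1 / 6 := (P_le _).2.2 (by linarith)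
    have e1 : 1 / (2 * lw (w 1)) ≤ 1 / 6 := (P_le _).2.2 (by linarith [s 1])
    linarith
  · push Not at hh
    have e0 : 1 / (2 * lw (w 0)) ≤ 1 / 7 := (P_le _).2.1 (by linarith)
    have e1 : 1 / (2 * lw (w 1)) ≤ 1 / 7 := (P_le _).2.1 (by linarith [s 1])
    have e2 : 1 / (2 * lw (w 2)) ≤ 1 / 7 := (P_le _).2.1 (by linarith [s 2])
    linarith

/-- `TreeD` is monotone in the weights -/
theorem treeD_mono {l l' : ℝ → ℝ} {k : ℕ} (h : TreeD l k) (hl : ∀ u, 1 ≤ l u)
    (hll : ∀ u, l u ≤ l' u) : TreeD l' k := by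
  intro d e₀ t P r s s₀ rc bc B N u hu hs h56 hNE hk hP
  refine h d e₀ t P r s s₀ rc bc B N u hu hs h56 hNE hk
    (hP.trans_le (Finset.sum_le_sum fun j _ => ?_))
  have h3 := hl (u j)
  have h4 := hll (u j)
  exact one_div_le_one_div_of_le (by linarith) (by linarith)

/-- **eight big lumps** -/
theorem tree8 : TreeD lw 8 := by
  intro d e₀ t P r s s₀ rc bc B N u hu hs _ _ hk hP
  have ht3 : t ≤ 1 / 3 := by linarith [P.t3]
  obtain ⟨k, ι, hι, hanti, hmem⟩ := exists_sorted u (Finset.univ.filter fun j => 13 / 100 < u j)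
  have hmem' : ∀ j, 13 / 100 < u j ↔ ∃ i, ι i = j := fun j => by
    rw [← hmem]; simp
  have himg : (Finset.univ.filter fun j => 13 / 100 < u j) = Finset.univ.image ι := by
    classical
    ext j
    simp [hmem' j]
  have hkk : k = 8 := by
    classical
    rw [← hk, himg, Finset.card_image_of_injective _ hι, Finset.card_univ, Fintype.card_fin]
  subst hkk
  have hP' : 1 < ∑ i, 1 / (2 * lw ((u ∘ ι) i)) := by
    classical
    rw [himg, Finset.sum_image fun a _ b _ h => hι h] at hP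
    exact hP
  exact covM_eight B.cpl B.rules B.lv P.d0.le (by linarith [P.de, P.d0]) P.t0.le ht3
    (fun j => (hu j).le) hs ι hι hanti (fun i => ((hmem' _).2 ⟨i, rfl⟩).le)
    (reg8 (u ∘ ι) hanti hP')

theorem one_le_lw (u : ℝ) : 1 ≤ lw u := by
  unfold lw
  split_ifs with h1 h2 h3 h4 h5
  · norm_num
  · norm_num
  · norm_num
  · norm_num
  · have : 0 < u := by linarith [not_le.1 h4]
    rw [le_div_iff₀ (by linarith)]
    linarith
  · norm_num

theorem lw_le_lw2 (u : ℝ) : lw u ≤ lw2 u := by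
  unfold lw lw2
  by_cases h1 : u ≤ 4 / 27
  · simp [h1]
  by_cases h2 : u ≤ 1 / 6
  · have : u ≤ 4 / 21 := by linarith
    simp only [h1, h2, this, if_true, if_false]
    norm_num
  by_cases h3 : u ≤ 4 / 21
  · have : u ≤ 2 / 9 := by linarith
    simp only [h1, h2, h3, this, if_true, if_false]
    norm_num
  by_cases h4 : u ≤ 1 / 5
  · have h5 : u ≤ 2 / 9 := by linarith
    have h6 : 0 < u := by linarith [not_le.1 h1]
    simp only [h1, h2, h3, h4, h5, if_true, if_false]
    rw [le_div_iff₀ (by linarith)]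
    linarith
  by_cases h5 : u ≤ 2 / 9
  · simp only [h1, h2, h3, h4, h5, if_true, if_false]
    norm_num
  · simp only [h1, h2, h3, h4, h5, if_false]
    exact le_rfl

theorem tree8' : TreeD lw2 8 := treeD_mono tree8 one_le_lw lw_le_lw2

end Crest.Agent.R017.Cov8_90
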