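import Crest.Agent.R017.CovNine_358
import Crest.Agent.R017.C5Q_720

/-!
# Row 17, section D: boxes with eight lumps `≥ 13/100`, direct partitions (helper90)

Two columns of weight `1/2`; all small lumps form one block `V`. The two lengths need only satisfy
`5/3 ≤ N₁ + N₂`.
-/

set_option autoImplicit false

noncomputable section

namespace Crest.Agent.R017.Cov8_90

open Crest.Agent.R017.ER911 Crest.Agent.R017.Hull741 Crest.Agent.R017.CovM59
  Crest.Agent.R017.CovGlue741 Crest.Agent.R017.Cov499 Crest.Agent.R017.HC777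
  Crest.Agent.R017.ExpC702 Crest.Agent.R017.CovNine358

variable {d : ℝ} {r s rc : EF}

/-- **a partition of the box in two sides of lengths `N₁ + N₂ ≥ 5/3`** -/
theorem covM_of_part2 {e₀ t N₁ N₂ : ℝ} (ht : 0 ≤ t) (ht3 : t ≤ 1 / 3) {k N : ℕ} {u : Fin N → ℝ}
    (hs : ∑ j, u j ≤ 4 / 3) (ι : Fin k ↪ Fin N) (B : Finset (Fin k)) (hN : 5 / 3 ≤ N₁ + N₂)
    (h1 : MCol rc e₀ (B.val.map fun i => u (ι i)) N₁)
    (l1 : (B.val.map fun i => u (ι i)).sum ≤ N₁)
    (h2 : MCol rc e₀ ((Bᶜ.val.map fun i => u (ι i)) + rest u ι) N₂)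
    (l2 : ((Bᶜ.val.map fun i => u (ι i)) + rest u ι).sum ≤ N₂) :
    CovM rc e₀ t u (fun _ => 1) := by
  classical
  have e1 : lum u (fun j => if j ∈ B.map ι then 1 else 0) = B.val.map fun i => u (ι i) := by
    rw [lum_ind, Finset.map_val, Multiset.map_map]
    rfl
  have e2 : lum u (fun j => if j ∈ (B.map ι)ᶜ then 1 else 0) =
      (Bᶜ.val.map fun i => u (ι i)) + rest u ι := by
    rw [lum_ind]
    have hd : Disjoint (Bᶜ.map ι) (Finset.univ \ Finset.univ.map ι) :=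
      Finset.disjoint_of_subset_left (Finset.map_subset_map.2 (Finset.subset_univ _))
        Finset.disjoint_sdiff
    have he : (B.map ι)ᶜ = (Bᶜ.map ι).disjUnion (Finset.univ \ Finset.univ.map ι) hd := by
      ext j
      simp only [Finset.mem_compl, Finset.disjUnion_eq_union, Finset.mem_union, Finset.mem_map,
        Finset.mem_sdiff, Finset.mem_univ, true_and]
      constructor
      · intro h
        by_cases hj : ∃ i, ι i = j
        · obtain ⟨i, hi⟩ := hj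
          exact Or.inl ⟨i, fun hi' => h ⟨i, hi', hi⟩, hi⟩
        · exact Or.inr hj
      · rintro (⟨i, hi, rfl⟩ | h)
        · rintro ⟨i', hi', h'⟩
          exact hi (ι.injective h' ▸ hi')
        · rintro ⟨i', -, h'⟩
          exact h ⟨i', h'⟩
    rw [he, Finset.disjUnion_val, Multiset.map_add, Finset.map_val, Multiset.map_map]
    rfl
  refine covM_of_cols ht ht3 hs (M := 2) ![1 / 2, 1 / 2] ?_ ?_
    ![fun j => if j ∈ B.map ι then 1 else 0, fun j => if j ∈ (B.map ι)ᶜ then 1 else 0] ?_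
    ![N₁, N₂] ?_ ?_ ?_
  · intro q
    fin_cases q <;> norm_num
  · simp [Fin.sum_univ_two]
    norm_num
  · intro j
    simp only [Fin.sum_univ_two, Matrix.cons_val_zero, Matrix.cons_val_one, Finset.mem_compl]
    by_cases h : j ∈ B.map ι
    · simp [h]
    · simp [h]
  · intro q
    fin_cases q
    · show MCol rc e₀ (lum u fun j => if j ∈ B.map ι then 1 else 0) N₁
      rw [e1]; exact h1
    · show MCol rc e₀ (lum u fun j => if j ∈ (B.map ι)ᶜ then 1 else 0) N₂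
      rw [e2]; exact h2
  · intro q
    fin_cases q
    · show (lum u fun j => if j ∈ B.map ι then 1 else 0).sum ≤ N₁
      rw [e1]; exact l1
    · show (lum u fun j => if j ∈ (B.map ι)ᶜ then 1 else 0).sum ≤ N₂
      rw [e2]; exact l2
  · simp only [Fin.sum_univ_two, Matrix.cons_val_zero, Matrix.cons_val_one]
    linarith

/-! ### the columns -/

/-- **(T6)** at length `N` -/
theorem mT (C : ExpC r rc) (R : ExpRules (7 / 8 + d) r s)
    (hd : 0 ≤ d) {e₀ N : ℝ} (he : 10 / 9 * d ≤ e₀) {y₁ y₂ : ℝ} {Z X : Multiset ℝ} (h1 : 0 ≤ y₁)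
    (h2 : 0 ≤ y₂) (hZ : ∀ y ∈ Z, 0 ≤ y) (hX : ∀ y ∈ X, 0 ≤ y) (hs : 1 / 4 ≤ y₁ + y₂)
    (hx : N + X.sum ≤ 1) (hz : N + 3 / 4 * Z.sum ≤ 1) (h79 : N ≤ 7 / 9 + 2 / 9 * (y₁ + y₂))
    (h52 : y₁ + y₂ + 5 / 2 * Z.sum ≤ 1) :
    MCol rc e₀ (X + (Z + {y₁, y₂})) N := by
  have hsum : (X + (Z + {y₁, y₂}) : Multiset ℝ).sum = X.sum + Z.sum + (y₁ + y₂) := by
    rw [Multiset.sum_add, Multiset.sum_add, sum_pair]; ring
  have hZ0 : 0 ≤ Z.sum := Multiset.sum_nonneg hZ
  refine mcol_of C (fun y hy => ?_) fun f g hf hg hN => ?_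
  · rcases Multiset.mem_add.1 hy with h | h
    · exact hX y h
    · rcases Multiset.mem_add.1 h with h | h
      · exact hZ y h
      · simp only [Multiset.insert_eq_cons, Multiset.mem_cons, Multiset.mem_singleton] at h
        rcases h with rfl | rfl <;> assumption
  · rw [hsum] at hN
    exact (cpl_t6 R hd h1 h2 hZ hX hf hg (by linarith) (by linarith) (by linarith) h52
      (by linarith)).mono he

/-- **(C5Q)** : three lumps and the block `Q` -/
theorem mQ (C : ExpC r rc) (R : ExpRules (7 / 8 + d) r s) (Lv : ExpLv (7 / 8 + d) r)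
    (hd : 0 ≤ d) {e₀ : ℝ} (he : d ≤ e₀) {V Q : Multiset ℝ} {b₁ b₂ b₃ : ℝ} (k3 : 13 / 100 ≤ b₃)
    (h32 : b₃ ≤ b₂) (h21 : b₂ ≤ b₁) (hQ : ∀ y ∈ Q, 0 ≤ y) (hQ3 : Q.sum ≤ b₃)
    (hS : b₁ + b₂ + b₃ + Q.sum ≤ 16 / 27) (hV : ∀ y ∈ V, 0 ≤ y)
    (hV6 : V.sum ≤ 1 / 6) : MCol rc e₀ (V + (Q + (b₃ ::ₘ {b₁, b₂}))) (5 / 6) := by
  have hsum : (V + (Q + (b₃ ::ₘ {b₁, b₂})) : Multiset ℝ).sum
      = V.sum + (b₁ + b₂ + b₃ + Q.sum) := by
    rw [Multiset.sum_add, Multiset.sum_add, Multiset.sum_cons, sum_pair]; ring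
  refine mcol_of C (fun y hy => ?_) fun f g hf hg hN => ?_
  · rcases Multiset.mem_add.1 hy with h | h
    · exact hV y h
    · rcases Multiset.mem_add.1 h with h | h
      · exact hQ y h
      · simp only [Multiset.insert_eq_cons, Multiset.mem_cons, Multiset.mem_singleton] at h
        rcases h with rfl | rfl | rfl <;> linarith
  · rw [hsum] at hN
    intro κ' h0 h1
    have := C5_720.C5Q_lin R Lv hd (κ := 1) (V := V) (Q := Q) (b₁ := b₁) (b₂ := b₂) (b₃ := b₃)
      (m := f) (a := g) hV (by linarith) hQ hQ3 h32 h21 (by linarith) (by linarith) hf hg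
      (by linarith) κ' h0 h1
    rw [hsum]
    linarith

/-! ### sides by indices -/

section
variable {k : ℕ} {w : Fin k → ℝ} (hw : ∀ i, 13 / 100 ≤ w i)
include hw

theorem map_nonneg (Y : Multiset (Fin k)) : ∀ y ∈ Y.map w, 0 ≤ y := by
  intro y hy
  obtain ⟨i, -, rfl⟩ := Multiset.mem_map.1 hy
  exact le_trans (by norm_num) (hw i)

/-- (T6), no block -/
theorem tA (C : ExpC r rc) (R : ExpRules (7 / 8 + d) r s) (hd : 0 ≤ d) {e₀ N : ℝ}
    (he : 10 / 9 * d ≤ e₀) {B : Finset (Fin k)} (a b : Fin k) (Z X : Multiset (Fin k))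
    (hB : B.val = X + (Z + {a, b}))
    (hx : N + (X.map w).sum ≤ 1) (hz : N + 3 / 4 * (Z.map w).sum ≤ 1)
    (h79 : N ≤ 7 / 9 + 2 / 9 * (w a + w b)) (h52 : w a + w b + 5 / 2 * (Z.map w).sum ≤ 1)
    (hl : w a + w b + (Z.map w).sum + (X.map w).sum ≤ N) :
    MCol rc e₀ (B.val.map w) N ∧ (B.val.map w).sum ≤ N := by
  have e : B.val.map w = X.map w + (Z.map w + {w a, w b}) := by rw [hB]; simp
  rw [e]
  have h1 := hw a
  have h2 := hw b
  refine ⟨mT C R hd he (by linarith) (by linarith) (map_nonneg hw Z) (map_nonneg hw X)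
    (by linarith) hx hz h79 h52, ?_⟩
  rw [Multiset.sum_add, Multiset.sum_add, sum_pair]
  linarith

/-- (T6), the block in `Z` -/
theorem tZ (C : ExpC r rc) (R : ExpRules (7 / 8 + d) r s) (hd : 0 ≤ d) {e₀ N : ℝ}
    (he : 10 / 9 * d ≤ e₀) {B : Finset (Fin k)} {V : Multiset ℝ} (hV : ∀ y ∈ V, 0 ≤ y)
    (a b : Fin k) (Z X : Multiset (Fin k))
    (hB : B.val = X + (Z + {a, b}))
    (hx : N + (X.map w).sum ≤ 1) (hz : N + 3 / 4 * ((Z.map w).sum + V.sum) ≤ 1)
    (h79 : N ≤ 7 / 9 + 2 / 9 * (w a + w b))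
    (h52 : w a + w b + 5 / 2 * ((Z.map w).sum + V.sum) ≤ 1)
    (hl : w a + w b + (Z.map w).sum + (X.map w).sum + V.sum ≤ N) :
    MCol rc e₀ (B.val.map w + V) N ∧ (B.val.map w + V).sum ≤ N := by
  have e : B.val.map w + V = X.map w + ((Z.map w + V) + {w a, w b}) := by
    rw [hB]; simp only [Multiset.map_add, Multiset.insert_eq_cons, Multiset.map_cons,
      Multiset.map_singleton]
    abel
  rw [e]
  have h1 := hw a
  have h2 := hw b
  refine ⟨mT C R hd he (by linarith) (by linarith) (fun y hy => ?_) (map_nonneg hw X)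
    (by linarith) hx (by rw [Multiset.sum_add]; exact hz) h79
    (by rw [Multiset.sum_add]; exact h52), ?_⟩
  · rcases Multiset.mem_add.1 hy with h | h
    · exact map_nonneg hw Z y h
    · exact hV y h
  · rw [Multiset.sum_add, Multiset.sum_add, Multiset.sum_add, sum_pair]
    linarith

/-- (T6), the block in `X` -/
theorem tX (C : ExpC r rc) (R : ExpRules (7 / 8 + d) r s) (hd : 0 ≤ d) {e₀ N : ℝ}
    (he : 10 / 9 * d ≤ e₀) {B : Finset (Fin k)} {V : Multiset ℝ} (hV : ∀ y ∈ V, 0 ≤ y)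
    (a b : Fin k) (Z X : Multiset (Fin k))
    (hB : B.val = X + (Z + {a, b}))
    (hx : N + ((X.map w).sum + V.sum) ≤ 1) (hz : N + 3 / 4 * (Z.map w).sum ≤ 1)
    (h79 : N ≤ 7 / 9 + 2 / 9 * (w a + w b)) (h52 : w a + w b + 5 / 2 * (Z.map w).sum ≤ 1)
    (hl : w a + w b + (Z.map w).sum + (X.map w).sum + V.sum ≤ N) :
    MCol rc e₀ (B.val.map w + V) N ∧ (B.val.map w + V).sum ≤ N := by
  have e : B.val.map w + V = (X.map w + V) + (Z.map w + {w a, w b}) := by
    rw [hB]; simp only [Multiset.map_add, Multiset.insert_eq_cons, Multiset.map_cons,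
      Multiset.map_singleton]
    abel
  rw [e]
  have h1 := hw a
  have h2 := hw b
  refine ⟨mT C R hd he (by linarith) (by linarith) (map_nonneg hw Z) (fun y hy => ?_)
    (by linarith) (by rw [Multiset.sum_add]; exact hx) hz h79 h52, ?_⟩
  · rcases Multiset.mem_add.1 hy with h | h
    · exact map_nonneg hw X y h
    · exact hV y h
  · rw [Multiset.sum_add, Multiset.sum_add, Multiset.sum_add, sum_pair]
    linarith

/-- (C5), no block -/
theorem cA (C : ExpC r rc) (R : ExpRules (7 / 8 + d) r s) (Lv : ExpLv (7 / 8 + d) r)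
    (hd : 0 ≤ d) {e₀ : ℝ} (he : d ≤ e₀) {B : Finset (Fin k)} (W X : Multiset (Fin k))
    (hB : B.val = W + X) (hc : Multiset.card W = 4) (hS : (W.map w).sum ≤ 16 / 27)
    (hX : (X.map w).sum ≤ 1 / 6) :
    MCol rc e₀ (B.val.map w) (5 / 6) ∧ (B.val.map w).sum ≤ 5 / 6 := by
  have e : B.val.map w = W.map w + X.map w := by rw [hB, Multiset.map_add]
  rw [e]
  refine ⟨m5 C R Lv hd he (by rw [Multiset.card_map]; exact hc) (fun y hy => ?_) hS
    (map_nonneg hw X) hX, ?_⟩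
  · obtain ⟨i, -, rfl⟩ := Multiset.mem_map.1 hy
    exact hw i
  · rw [Multiset.sum_add]; linarith

/-- (C5), the block in `X` -/
theorem cX (C : ExpC r rc) (R : ExpRules (7 / 8 + d) r s) (Lv : ExpLv (7 / 8 + d) r)
    (hd : 0 ≤ d) {e₀ : ℝ} (he : d ≤ e₀) {B : Finset (Fin k)} {V : Multiset ℝ}
    (hV : ∀ y ∈ V, 0 ≤ y) (W X : Multiset (Fin k))
    (hB : B.val = W + X) (hc : Multiset.card W = 4) (hS : (W.map w).sum ≤ 16 / 27)
    (hX : (X.map w).sum + V.sum ≤ 1 / 6) :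
    MCol rc e₀ (B.val.map w + V) (5 / 6) ∧ (B.val.map w + V).sum ≤ 5 / 6 := by
  have e : B.val.map w + V = W.map w + (X.map w + V) := by rw [hB, Multiset.map_add, add_assoc]
  rw [e]
  refine ⟨m5 C R Lv hd he (by rw [Multiset.card_map]; exact hc) (fun y hy => ?_) hS
    (fun y hy => ?_) (by rw [Multiset.sum_add]; exact hX), ?_⟩
  · obtain ⟨i, -, rfl⟩ := Multiset.mem_map.1 hy
    exact hw i
  · rcases Multiset.mem_add.1 hy with h | h
    · exact map_nonneg hw X y h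
    · exact hV y h
  · rw [Multiset.sum_add, Multiset.sum_add]; linarith

/-- (C5Q), the block is `Q` -/
theorem qV (C : ExpC r rc) (R : ExpRules (7 / 8 + d) r s) (Lv : ExpLv (7 / 8 + d) r)
    (hd : 0 ≤ d) {e₀ : ℝ} (he : d ≤ e₀) {B : Finset (Fin k)} {V : Multiset ℝ}
    (hV : ∀ y ∈ V, 0 ≤ y) (a b c : Fin k) (X : Multiset (Fin k))
    (hB : B.val = X + (c ::ₘ {a, b})) (h32 : w c ≤ w b) (h21 : w b ≤ w a) (hQ : V.sum ≤ w c)
    (hS : w a + w b + w c + V.sum ≤ 16 / 27) (hX : (X.map w).sum ≤ 1 / 6) :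
    MCol rc e₀ (B.val.map w + V) (5 / 6) ∧ (B.val.map w + V).sum ≤ 5 / 6 := by
  have e : B.val.map w + V = X.map w + (V + (w c ::ₘ {w a, w b})) := by
    rw [hB]; simp only [Multiset.map_add, Multiset.insert_eq_cons, Multiset.map_cons,
      Multiset.map_singleton]
    abel
  rw [e]
  refine ⟨mQ C R Lv hd he (hw c) h32 h21 hV hQ hS (map_nonneg hw X) hX, ?_⟩
  rw [Multiset.sum_add, Multiset.sum_add, Multiset.sum_cons, sum_pair]; linarith

end

end Crest.Agent.R017.Cov8_90
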