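import Crest.Agent.R017.CovFar_74

/-!
# Row 17, hcore : integer quadratic forms and quadratic Farkas certificates (helper74)

`QForm` = upper triangular quadratic form; `farQ ctx φ (d, w)` checks that
`d φ - ∑ c · ctx' i · ctx' j` is a nonnegative constant, where `w` = list of `(c, i, j)` and
`ctx' = [1] :: ctx` (index `0` is the constant `1`).
-/

set_option autoImplicit false

namespace Crest.Agent.R017.CovFar74

/-- upper triangular quadratic form -/
abbrev QForm := List Form

noncomputable def evQ : QForm → (ℕ → ℝ) → ℝ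
  | [], _ => 0
  | r :: Q, x => x 0 * ev r x + evQ Q (fun n => x (n + 1))

def addQ : QForm → QForm → QForm
  | [], Q => Q
  | a :: P, [] => a :: P
  | a :: P, b :: Q => add a b :: addQ P Q

def smulQ (c : Int) : QForm → QForm
  | [] => []
  | a :: P => smul c a :: smulQ c P

def mul : Form → Form → QForm
  | [], _ => []
  | _ :: _, [] => []
  | a :: φ, b :: ψ => ((a * b) :: add (smul a ψ) (smul b φ)) :: mul φ ψ

def allZeroQ : QForm → Bool
  | [] => true
  | a :: P => allZero a && allZeroQ P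

def isNNQ : QForm → Bool
  | [] => true
  | a :: P => isNN a && allZeroQ P

def nth : List Form → Nat → Form
  | [], _ => []
  | φ :: _, 0 => φ
  | _ :: ctx, n + 1 => nth ctx n

/-- `∑ c · ctx i · ctx j` -/
def combQ (ctx : List Form) : List (Nat × Nat × Nat) → QForm
  | [] => []
  | (c, i, j) :: w => addQ (smulQ (Int.ofNat c) (mul (nth ctx i) (nth ctx j))) (combQ ctx w)

/-- quadratic Farkas certificate of `0 ≤ φ` -/
def farQ (ctx : List Form) (φ : QForm) (w : Nat × List (Nat × Nat × Nat)) : Bool :=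
  (decide (0 < w.1)) && isNNQ (addQ (smulQ (Int.ofNat w.1) φ)
    (smulQ (-1) (combQ ([1] :: ctx) w.2)))

@[simp] theorem evQ_nil (x : ℕ → ℝ) : evQ [] x = 0 := rfl

@[simp] theorem evQ_cons (r : Form) (Q : QForm) (x : ℕ → ℝ) :
    evQ (r :: Q) x = x 0 * ev r x + evQ Q (fun n => x (n + 1)) := rfl

theorem evQ_add (P Q : QForm) (x : ℕ → ℝ) : evQ (addQ P Q) x = evQ P x + evQ Q x := by
  induction P generalizing Q x with
  | nil => simp [addQ]
  | cons a P ih =>
    cases Q with
    | nil => simp [addQ]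
    | cons b Q => simp only [addQ, evQ_cons, ih, ev_add]; ring

theorem evQ_smul (c : Int) (P : QForm) (x : ℕ → ℝ) : evQ (smulQ c P) x = c * evQ P x := by
  induction P generalizing x with
  | nil => simp [smulQ]
  | cons a P ih => simp only [smulQ, evQ_cons, ih, ev_smul]; ring

theorem evQ_mul (φ ψ : Form) (x : ℕ → ℝ) : evQ (mul φ ψ) x = ev φ x * ev ψ x := by
  induction φ generalizing ψ x with
  | nil => simp [mul]
  | cons a φ ih =>
    cases ψ with
    | nil => simp [mul]
    | cons b ψ =>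
      simp only [mul, evQ_cons, ev_cons, ih, ev_add, ev_smul]
      push_cast
      ring

theorem evQ_allZero {P : QForm} (h : allZeroQ P = true) (x : ℕ → ℝ) : evQ P x = 0 := by
  induction P generalizing x with
  | nil => simp
  | cons a P ih =>
    simp only [allZeroQ, Bool.and_eq_true] at h
    simp only [evQ_cons]
    rw [ev_allZero h.1, ih h.2]
    simp

theorem evQ_isNN {P : QForm} (h : isNNQ P = true) {x : ℕ → ℝ} (hx : 0 ≤ x 0) : 0 ≤ evQ P x := by
  cases P with
  | nil => simp
  | cons a P =>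
    simp only [isNNQ, Bool.and_eq_true] at h
    simp only [evQ_cons]
    rw [evQ_allZero h.2, add_zero]
    exact mul_nonneg hx (ev_isNN h.1 hx)

theorem nth_nonneg {ctx : List Form} {x : ℕ → ℝ} (h : ∀ ψ ∈ ctx, 0 ≤ ev ψ x) (i : ℕ) :
    0 ≤ ev (nth ctx i) x := by
  induction ctx generalizing i with
  | nil => simp [nth]
  | cons φ ctx ih =>
    cases i with
    | zero => exact h φ List.mem_cons_self
    | succ i => exact ih (fun ψ hψ => h ψ (List.mem_cons_of_mem _ hψ)) i

theorem combQ_nonneg {ctx : List Form} {x : ℕ → ℝ} (h : ∀ ψ ∈ ctx, 0 ≤ ev ψ x)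
    (w : List (Nat × Nat × Nat)) : 0 ≤ evQ (combQ ctx w) x := by
  induction w with
  | nil => simp [combQ]
  | cons a w ih =>
    obtain ⟨c, i, j⟩ := a
    simp only [combQ, evQ_add, evQ_smul, evQ_mul]
    have h1 : (0 : ℝ) ≤ ((Int.ofNat c : Int) : ℝ) := by
      simp only [Int.ofNat_eq_natCast, Int.cast_natCast]
      positivity
    have h2 := mul_nonneg h1 (mul_nonneg (nth_nonneg h i) (nth_nonneg h j))
    linarith

theorem farQ_sound {ctx : List Form} {φ : QForm} {w : Nat × List (Nat × Nat × Nat)}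
    (h : farQ ctx φ w = true) {x : ℕ → ℝ} (hx : 0 ≤ x 0) (hc : ∀ ψ ∈ ctx, 0 ≤ ev ψ x) :
    0 ≤ evQ φ x := by
  simp only [farQ, Bool.and_eq_true, decide_eq_true_eq] at h
  have h1 := evQ_isNN h.2 hx
  rw [evQ_add, evQ_smul, evQ_smul] at h1
  have h2 : 0 ≤ evQ (combQ ([1] :: ctx) w.2) x := by
    refine combQ_nonneg (fun ψ hψ => ?_) w.2
    rcases List.mem_cons.1 hψ with rfl | hψ
    · rw [ev_const]; push_cast; linarith
    · exact hc ψ hψ
  have h3 : (0 : ℝ) < ((Int.ofNat w.1 : Int) : ℝ) := by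
    simp only [Int.ofNat_eq_natCast, Int.cast_natCast]
    exact_mod_cast h.1
  have h4 : 0 ≤ ((Int.ofNat w.1 : Int) : ℝ) * evQ φ x := by
    push_cast at h1 ⊢
    linarith
  exact (mul_nonneg_iff_of_pos_left h3).1 h4

end Crest.Agent.R017.CovFar74
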