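import Crest.Agent.R017.CovDefs_499
import Crest.Agent.R017.CovQ_74

/-!
# Row 17, hcore : certificate checker for the coverage `CovK` (helper74)

Variables: `x 0 = 1`, `x (i+1) = u i` (`i < k`), `x (k+1) = v`.
-/

set_option autoImplicit false

namespace Crest.Agent.R017.CovChk74

open Crest.Agent.R017.Cov499 Crest.Agent.R017.CovFar74

/-- a column: `kind` 0 t6, 1 t6s, 2 t1, 3 t3a, 4 t3l, 5 c5, 6 t6v, 7 t1v, 8 c5w, 9 v4, 10 c5g,
11 t7 (t3a with the five caps of 49's R20); weight `p` (weights over `P`, a form; a constant is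
`[p]`); distinguished lumps `ys`; lumps `Z`, `X`; chunks `tz`, `tx` (t7: `tx` = the case 0, 1, 2 of
its disjunction, no chunks); total `N` (integer form over the common denominator `D`); `xi` = the
form `ξ` of v4 and t7 (over `D`; `[]` for the other kinds); Farkas certificates `ws` of the forms
`forms k D c`, in this order. -/
structure ColD where
  kind : ℕ
  p : Form
  ys : List ℕ
  Z : List ℕ
  X : List ℕ
  tz : ℕ
  tx : ℕ
  N : Form
  xi : Form
  ws : List (Nat × List Nat)

/-- the lumps of a column -/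
def ColD.lumps (c : ColD) : List ℕ := c.ys ++ (c.Z ++ c.X)

/-- the number of chunks of a column -/
def ColD.tt (c : ColD) : ℕ := match c.kind with
  | 6 => c.tz + c.tx + 1
  | 7 => c.tz + c.tx + 1
  | 8 => (match c.ys with
    | [] => c.tz + 1
    | _ :: _ => c.tz)
  | 11 => 0
  | _ => c.tz + c.tx

/-- `t` chunks -/
def ch (k t : ℕ) : Form := smul (Int.ofNat t) (e (k + 1))

/-- the third distinguished lump -/
def last : List ℕ → ℕ
  | _ :: _ :: c :: _ => c
  | _ => 0

/-- the form of the second largest lump of c5: the first lump of `Z` -/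
def bf (k : ℕ) : List ℕ → Form
  | [] => e (k + 1)
  | i :: _ => e (i + 1)

/-- `4 (x + y) - 1` for the first two elements of `Z ++ v^tz` (C5) -/
def twof (k : ℕ) : List ℕ → Form
  | [] => add [-1] (smul 8 (e (k + 1)))
  | [i] => add [-1] (smul 4 (add (e (i + 1)) (e (k + 1))))
  | i :: j :: _ => add [-1] (smul 4 (add (e (i + 1)) (e (j + 1))))

/-- the distinguished lump of c5w : the first of `ys`, or `v` -/
def af (k : ℕ) : List ℕ → Form
  | [] => e (k + 1)
  | i :: _ => e (i + 1)

/-- forms of v4 -/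
def formsV4 (D : Int) (y₁ y₂ y₃ N xi : Form) : List Form :=
  [add y₁ (smul (-1) y₂), add y₂ (smul (-1) y₃),
    add [D] (add (smul (-2) xi) (smul (-D) (add y₁ (add y₂ y₃)))),
    add [D] (add (smul (-1) N) (smul (-1) xi)),
    add [6 * D] (add (smul 30 xi) (smul (-D) (add (smul 48 y₃) (add (smul 2 y₁) y₂)))),
    add [-(3 * D)] (add (smul 25 xi) (smul (-(2 * D)) y₃)),
    add [8 * D] (add (smul (-12) xi) (add (smul (-(9 * D)) y₃) (smul (-(8 * D)) (add y₁ y₂)))),
    add [56 * D] (add (smul 12 xi) (add (smul (33 * D) y₃) (add (smul (40 * D) (add y₁ y₂))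
      (smul (-96) N)))),
    add [12 * D] (add (smul 16 xi) (smul (-D) (add (smul 16 y₁) (add (smul 8 y₂)
      (smul 43 y₃))))),
    add N (smul (-D) (add y₁ (add y₂ y₃)))]

/-- `w = N - (y₁ + y₂ + y₃) - ξ` of t7 -/
def wT7 (D : Int) (y₁ y₂ y₃ N xi : Form) : Form :=
  add N (add (smul (-D) (add y₁ (add y₂ y₃))) (smul (-1) xi))

/-- first inequality of the case of t7 -/
def aT7 (D : Int) (y₁ y₂ y₃ xi : Form) : ℕ → Form
  | 0 => add [-(6 * D)] (add (smul 42 xi) (smul (-D) (add y₁ (add y₂ y₃))))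
  | 1 => add [-(6 * D)] (add (smul 42 xi) (smul (-D) (add y₂ (smul 2 y₃))))
  | _ => add [-(2 * D)] (add (smul 14 xi) (smul (-D) y₃))

/-- second inequality of the case of t7 -/
def bT7 (D : Int) (y₁ y₂ y₃ N xi : Form) : ℕ → Form
  | 0 => add [8 * D] (add (smul (-(8 * D)) (add y₁ (add y₂ y₃)))
      (add (smul (-6) (wT7 D y₁ y₂ y₃ N xi)) (add (smul (-12) xi) (smul (-(3 * D)) y₃))))
  | 1 => add [4 * D] (add (smul (-D) (add y₂ (smul 2 y₃)))
      (add (smul (-(3 * D)) (add (add y₁ (add y₂ y₃)) y₃))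
        (add (smul (-3) (wT7 D y₁ y₂ y₃ N xi)) (smul (-4) xi))))
  | _ => add [4 * D] (add (smul (-(12 * D)) y₃) (add (smul (-(3 * D)) (add y₁ y₂))
      (smul (-3) (wT7 D y₁ y₂ y₃ N xi))))

/-- forms of t7, case `cs` -/
def formsT7 (D : Int) (cs : ℕ) (y₁ y₂ y₃ N xi : Form) : List Form :=
  [add y₁ (smul (-1) y₃), add y₂ (smul (-1) y₃),
    add [D] (add (smul (-1) N) (smul (-1) xi)), wT7 D y₁ y₂ y₃ N xi,
    aT7 D y₁ y₂ y₃ xi cs, bT7 D y₁ y₂ y₃ N xi cs,
    add [56 * D] (add (smul (-84) xi) (add (smul (-(63 * D)) y₃)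
      (add (smul (-(56 * D)) (add y₁ y₂)) (smul (-72) (wT7 D y₁ y₂ y₃ N xi))))),
    add [8 * D] (add (smul (-12) xi) (add (smul (-(9 * D)) y₃)
      (add (smul (-(4 * D)) (add y₁ y₂)) (smul (-12) (wT7 D y₁ y₂ y₃ N xi))))),
    add [-(2 * D)] (add (smul 6 xi) (smul (3 * D) (add y₁ y₂))),
    add N (smul (-D) (add y₁ (add y₂ y₃)))]

/-- the side conditions of a column -/
def forms (k : ℕ) (D : Int) (c : ColD) : List Form :=
  let Y := sf c.ys
  let Zs := add (sf c.Z) (ch k c.tz)
  let Xs := add (sf c.X) (ch k c.tx)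
  let fX := add [D] (add (smul (-D) Xs) (smul (-1) c.N))
  let fZ := add [4 * D] (add (smul (-(3 * D)) Zs) (smul (-4) c.N))
  let fN := add c.N (smul (-D) (add Y (add Zs Xs)))
  match c.kind with
  | 0 => [add [-1] (smul 4 Y), fX, fZ, add [7 * D] (add (smul (2 * D) Y) (smul (-9) c.N)),
      add [2] (add (smul (-2) Y) (smul (-5) Zs)), fN]
  | 1 => [add [8 * D] (add (smul (8 * D) Y) (smul (-12) c.N)), fX, fZ,
      add [7 * D] (add (smul (2 * D) Y) (smul (-9) c.N)),
      add [2] (add (smul (-2) Y) (smul (-5) Zs)), fN]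
  | 2 => [add [-1] (smul 5 Y), add [497] (smul (-3000) Xs), add [5 * D] (smul (-6) c.N), fN]
  | 3 => [add [1] (add (smul (-1) Y) (smul (-1) (sf [last c.ys]))),
      add [36 * D] (add (smul (9 * D) (add Y (smul (-1) (sf [last c.ys])))) (smul (-49) c.N)),
      add [5 * D] (smul (-6) c.N),
      add [73 * D] (add (smul (-(30 * D)) (sf [last c.ys])) (smul (-80) c.N)),
      add [31 * D] (add (smul (-(6 * D)) (sf [last c.ys])) (smul (-36) c.N)),
      add [13 * D] (add (smul (2 * D) (add Y (smul (-1) (sf [last c.ys])))) (smul (-17) c.N)),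
      add [13 * D] (add (smul (-(3 * D)) (sf [last c.ys])) (smul (-15) c.N)),
      add [33 * D] (smul (-40) c.N), fN]
  | 4 => [add [44] (add (smul (-58) Y) (smul (-21) (sf [last c.ys]))), add [15] (smul (-22) Y),
      add [D] (add (smul D Y) (smul (-2) c.N)),
      add [8 * D] (add (smul (4 * D) Y) (add (smul (-(3 * D)) (sf [last c.ys])) (smul (-12) c.N))),
      fN]
  | 5 => add [497] (smul (-3000) Y) ::
      add [4] (add (smul (-6) Zs) (smul (-3) (bf k c.Z))) ::
      add [5 * D] (smul (-6) c.N) :: fN ::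
      c.Z.map fun i => add (bf k c.Z) (smul (-1) (sf [i]))
  | 6 => [add [8 * D] (add (smul (8 * D) (add Y (ch k 1))) (add (smul (3 * D) Zs)
        (smul (-12) c.N))), fX, fZ,
      add [7 * D] (add (smul (2 * D) (add Y (ch k 1))) (smul (-9) c.N)),
      add [2] (add (smul (-2) (add Y (ch k 1))) (smul (-5) Zs)),
      add c.N (smul (-D) (add (add Y (ch k 1)) (add Zs Xs)))]
  | 7 => [add [-1] (smul 5 (add Y (ch k 1))), add [497] (smul (-3000) Xs),
      add [5 * D] (smul (-6) c.N), add c.N (smul (-D) (add (add Y (ch k 1)) (add Zs Xs)))]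
  | 8 => [add [1] (smul (-6) (af k c.ys)), add [16] (smul (-27) Zs),
      add [5 * D] (smul (-6) c.N), add c.N (smul (-D) (add (af k c.ys) Zs)), twof k c.Z]
  | 9 => (match c.ys with
    | i :: j :: l :: _ => formsV4 D (e (i + 1)) (e (j + 1)) (e (l + 1)) c.N c.xi
    | _ => [])
  | 10 => [add [1] (smul (-6) Y), add [16] (smul (-27) Zs), add [5 * D] (smul (-6) c.N), fN]
  | 11 => (match c.ys with
    | i :: j :: l :: _ => formsT7 D c.tx (e (i + 1)) (e (j + 1)) (e (l + 1)) c.N c.xi
    | _ => [])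
  | _ => []

/-- shape of a column (`m2`: columns with a smooth chunk allowed) -/
def shape (m2 : Bool) (c : ColD) : Bool := match c.kind with
  | 0 => c.ys.length == 2
  | 1 => c.ys.length == 1
  | 2 => c.ys.length == 2 && (c.Z.isEmpty && c.tz == 0)
  | 3 => c.ys.length == 3 && (c.Z.isEmpty && (c.X.isEmpty && (c.tz == 0 && c.tx == 0)))
  | 4 => c.ys.length == 3 && (c.Z.isEmpty && (c.X.isEmpty && (c.tz == 0 && c.tx == 0)))
  | 5 => c.ys.length == 1 && (c.Z.length == 4 && (c.X.isEmpty && (c.tz == 0 && c.tx == 0)))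
  | 6 => m2 && c.ys.length == 1
  | 7 => m2 && (c.ys.length == 1 && (c.Z.isEmpty && c.tz == 0))
  | 8 => m2 && (Nat.ble c.ys.length 1 && (c.Z.length + c.tz == 4 && (c.X.isEmpty && c.tx == 0)))
  | 9 => c.ys.length == 3 && (c.Z.isEmpty && (c.X.isEmpty && (c.tz == 0 && c.tx == 0)))
  | 10 => c.ys.length == 1 && (c.Z.length == 4 && (c.X.isEmpty && (c.tz == 0 && c.tx == 0)))
  | 11 => c.ys.length == 3 && (c.Z.isEmpty && (c.X.isEmpty && (c.tz == 0 && Nat.ble c.tx 2)))
  | _ => false

section sound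

variable {k : ℕ} {x : ℕ → ℝ} {D : Int}

/-- the multiset of the lumps -/
noncomputable def ml (x : ℕ → ℝ) (L : List ℕ) : Multiset ℝ := ↑(L.map fun i => x (i + 1))

theorem ml_sum (x : ℕ → ℝ) (L : List ℕ) : (ml x L).sum = ev (sf L) x := by
  rw [ev_sf]; simp [ml]

theorem ml_append (x : ℕ → ℝ) (L M : List ℕ) : ml x (L ++ M) = ml x L + ml x M := by
  simp [ml]

theorem ml_nil (x : ℕ → ℝ) : ml x [] = 0 := by simp [ml]

theorem ml_cons (x : ℕ → ℝ) (i : ℕ) (L : List ℕ) : ml x (i :: L) = x (i + 1) ::ₘ ml x L := by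
  simp [ml]

theorem ev_ch (k t : ℕ) (x : ℕ → ℝ) : ev (ch k t) x = t * x (k + 1) := by
  simp [ch, ev_smul, ev_e]

theorem div_pos_of {D : Int} (hD : 0 < D) {a : ℝ} (h : 0 ≤ (D : ℝ) * a) : 0 ≤ a := by
  have h1 : (0 : ℝ) < D := by exact_mod_cast hD
  exact (mul_nonneg_iff_of_pos_left h1).1 h

/-- value of `N` -/
noncomputable def NN (D : Int) (c : ColD) (x : ℕ → ℝ) : ℝ := ev c.N x / D

theorem ev_N (hD : 0 < D) (c : ColD) (x : ℕ → ℝ) : ev c.N x = D * NN D c x := by
  have h1 : (D : ℝ) ≠ 0 := by exact_mod_cast hD.ne'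
  unfold NN
  field_simp

theorem len1 {L : List ℕ} (h : (L.length == 1) = true) : ∃ a, L = [a] := by
  match L, h with
  | [a], _ => exact ⟨a, rfl⟩

theorem len2 {L : List ℕ} (h : (L.length == 2) = true) : ∃ a b, L = [a, b] := by
  match L, h with
  | [a, b], _ => exact ⟨a, b, rfl⟩

theorem len3 {L : List ℕ} (h : (L.length == 3) = true) : ∃ a b c, L = [a, b, c] := by
  match L, h with
  | [a, b, c], _ => exact ⟨a, b, c, rfl⟩

theorem emp {L : List ℕ} (h : L.isEmpty = true) : L = [] := by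
  match L, h with
  | [], _ => rfl

theorem col0_sound {m2 : Bool} {c : ColD} (hD : 0 < D) (hx : x 0 = 1)
    (hs : shape m2 c = true) (hk : c.kind ≤ 5 ∨ 9 ≤ c.kind) (hf : ∀ φ ∈ forms k D c, 0 ≤ ev φ x) :
    Col0 (x (k + 1)) (ml x c.lumps) c.tt (NN D c x) := by
  have hN := ev_N hD c x
  have hk10 : c.kind ≤ 11 := by
    by_contra hc
    obtain ⟨j, hj⟩ : ∃ j, c.kind = j + 12 := ⟨c.kind - 12, by omega⟩
    simp [shape, hj] at hs
  obtain ⟨kind, p, ys, Z, X, tz, tx, N, xi, ws⟩ := c
  simp only at hk hk10 hN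
  generalize NN D _ x = nn at hN ⊢
  have hk' : kind = 0 ∨ kind = 1 ∨ kind = 2 ∨ kind = 3 ∨ kind = 4 ∨ kind = 5 ∨ kind = 9
    ∨ kind = 10 ∨ kind = 11 := by omega
  rcases hk' with rfl | rfl | rfl | rfl | rfl | rfl | rfl | rfl | rfl
  · -- t6
    obtain ⟨a, b, rfl⟩ := len2 hs
    simp only [forms, List.mem_cons, List.not_mem_nil, or_false, forall_eq_or_imp, forall_eq,
      ev_add, ev_smul, ev_ch, ev_cons, ev_nil, sf, ev_e, ← ml_sum, hx, hN] at hf
    obtain ⟨h1, h2, h3, h4, h5, h6⟩ := hf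
    push_cast at h1 h2 h3 h4 h5 h6
    have g2 := div_pos_of hD (a := 1 - ((ml x X).sum + tx * x (k + 1)) - nn) (by linarith)
    have g3 := div_pos_of hD (a := 4 - 3 * ((ml x Z).sum + tz * x (k + 1)) - 4 * nn) (by linarith)
    have g4 := div_pos_of hD (a := 7 + 2 * (x (a + 1) + x (b + 1)) - 9 * nn) (by linarith)
    have g6 := div_pos_of hD (a := nn - (x (a + 1) + x (b + 1) + ((ml x Z).sum + tz * x (k + 1))
      + ((ml x X).sum + tx * x (k + 1)))) (by linarith)
    have := Col0.t6 (v := x (k + 1)) (x (a + 1)) (x (b + 1)) (ml x Z) (ml x X) tz tx nn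
      (by linarith) (by linarith) (by linarith) (by linarith) (by linarith) (by linarith)
    have e1 : ml x (ColD.lumps ⟨0, p, [a, b], Z, X, tz, tx, N, xi, ws⟩)
        = {x (a + 1), x (b + 1)} + ml x Z + ml x X := by
      show ml x ([a, b] ++ (Z ++ X)) = _
      rw [ml_append, ml_append, add_assoc]
      simp [ml]
    rw [e1]; exact this
  · -- t6s
    obtain ⟨a, rfl⟩ := len1 hs
    simp only [forms, List.mem_cons, List.not_mem_nil, or_false, forall_eq_or_imp, forall_eq,
      ev_add, ev_smul, ev_ch, ev_cons, ev_nil, sf, ev_e, ← ml_sum, hx, hN] at hf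
    obtain ⟨h1, h2, h3, h4, h5, h6⟩ := hf
    push_cast at h1 h2 h3 h4 h5 h6
    have g1 := div_pos_of hD (a := 8 + 8 * x (a + 1) - 12 * nn) (by linarith)
    have g2 := div_pos_of hD (a := 1 - ((ml x X).sum + tx * x (k + 1)) - nn) (by linarith)
    have g3 := div_pos_of hD (a := 4 - 3 * ((ml x Z).sum + tz * x (k + 1)) - 4 * nn) (by linarith)
    have g4 := div_pos_of hD (a := 7 + 2 * x (a + 1) - 9 * nn) (by linarith)
    have g6 := div_pos_of hD (a := nn - (x (a + 1) + ((ml x Z).sum + tz * x (k + 1))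
      + ((ml x X).sum + tx * x (k + 1)))) (by linarith)
    have := Col0.t6s (v := x (k + 1)) (x (a + 1)) (ml x Z) (ml x X) tz tx nn
      (by linarith) (by linarith) (by linarith) (by linarith) (by linarith) (by linarith)
    have e1 : ml x (ColD.lumps ⟨1, p, [a], Z, X, tz, tx, N, xi, ws⟩)
        = {x (a + 1)} + ml x Z + ml x X := by
      show ml x ([a] ++ (Z ++ X)) = _
      rw [ml_append, ml_append, add_assoc]
      simp [ml]
    rw [e1]; exact this
  · -- t1
    simp only [shape, Bool.and_eq_true, beq_iff_eq] at hs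
    obtain ⟨hs1, hs2, rfl⟩ := hs
    obtain ⟨a, b, rfl⟩ := len2 (by simpa using hs1)
    obtain rfl := emp hs2
    simp only [forms, List.mem_cons, List.not_mem_nil, or_false, forall_eq_or_imp, forall_eq,
      ev_add, ev_smul, ev_ch, ev_cons, ev_nil, sf, ev_e, ← ml_sum, hx, hN] at hf
    obtain ⟨h1, h2, h3, h6⟩ := hf
    push_cast at h1 h2 h3 h6
    have g3 := div_pos_of hD (a := 5 - 6 * nn) (by linarith)
    have g6 := div_pos_of hD (a := nn - (x (a + 1) + x (b + 1)
      + ((ml x X).sum + tx * x (k + 1)))) (by linarith)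
    have := Col0.t1 (v := x (k + 1)) (x (a + 1)) (x (b + 1)) (ml x X) tx nn
      (by linarith) (by unfold z₀; linarith) (by linarith) (by linarith)
    have e1 : ml x (ColD.lumps ⟨2, p, [a, b], [], X, 0, tx, N, xi, ws⟩)
        = {x (a + 1), x (b + 1)} + ml x X := by
      show ml x ([a, b] ++ ([] ++ X)) = _
      rw [ml_append, List.nil_append]
      simp [ml]
    rw [e1]
    have e2 : (ColD.tt ⟨2, p, [a, b], [], X, 0, tx, N, xi, ws⟩) = tx := by simp [ColD.tt]
    rw [e2]; exact this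
  · -- t3a
    simp only [shape, Bool.and_eq_true, beq_iff_eq] at hs
    obtain ⟨hs1, hs2, hs3, rfl, rfl⟩ := hs
    obtain ⟨a, b, c, rfl⟩ := len3 (by simpa using hs1)
    obtain rfl := emp hs2
    obtain rfl := emp hs3
    simp only [forms, List.mem_cons, List.not_mem_nil, or_false, forall_eq_or_imp, forall_eq,
      ev_add, ev_smul, ev_ch, ev_cons, ev_nil, sf, ev_e, hx, hN, last] at hf
    obtain ⟨h1, h2, h3, h7, h8, h9, h10, h11, h6⟩ := hf
    push_cast at h1 h2 h3 h6 h7 h8 h9 h10 h11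
    have g2 := div_pos_of hD (a := 36 + 9 * (x (a + 1) + x (b + 1)) - 49 * nn) (by linarith)
    have g3 := div_pos_of hD (a := 5 - 6 * nn) (by linarith)
    have g7 := div_pos_of hD (a := 73 - 30 * x (c + 1) - 80 * nn) (by linarith)
    have g8 := div_pos_of hD (a := 31 - 6 * x (c + 1) - 36 * nn) (by linarith)
    have g9 := div_pos_of hD (a := 13 + 2 * (x (a + 1) + x (b + 1)) - 17 * nn) (by linarith)
    have g10 := div_pos_of hD (a := 13 - 3 * x (c + 1) - 15 * nn) (by linarith)
    have g11 := div_pos_of hD (a := 33 - 40 * nn) (by linarith)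
    have g6 := div_pos_of hD (a := nn - (x (a + 1) + x (b + 1) + x (c + 1))) (by linarith)
    have : Col0 (x (k + 1)) {x (a + 1), x (b + 1), x (c + 1)} 0 nn := by
      apply Col0.t3a (v := x (k + 1)) (x (a + 1)) (x (b + 1)) (x (c + 1)) nn <;> linarith
    have e1 : ml x (ColD.lumps ⟨3, p, [a, b, c], [], [], 0, 0, N, xi, ws⟩)
        = {x (a + 1), x (b + 1), x (c + 1)} := by
      rfl
    rw [e1]; exact this
  · -- t3l
    simp only [shape, Bool.and_eq_true, beq_iff_eq] at hs
    obtain ⟨hs1, hs2, hs3, rfl, rfl⟩ := hs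
    obtain ⟨a, b, c, rfl⟩ := len3 (by simpa using hs1)
    obtain rfl := emp hs2
    obtain rfl := emp hs3
    simp only [forms, List.mem_cons, List.not_mem_nil, or_false, forall_eq_or_imp, forall_eq,
      ev_add, ev_smul, ev_ch, ev_cons, ev_nil, sf, ev_e, hx, hN, last] at hf
    obtain ⟨h1, h2, h3, h4, h6⟩ := hf
    push_cast at h1 h2 h3 h4 h6
    have g3 := div_pos_of hD (a := 1 + (x (a + 1) + x (b + 1) + x (c + 1)) - 2 * nn) (by linarith)
    have g4 := div_pos_of hD (a := 8 + 4 * (x (a + 1) + x (b + 1) + x (c + 1)) - 3 * x (c + 1)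
      - 12 * nn) (by linarith)
    have g6 := div_pos_of hD (a := nn - (x (a + 1) + x (b + 1) + x (c + 1))) (by linarith)
    have := Col0.t3l (v := x (k + 1)) (x (a + 1)) (x (b + 1)) (x (c + 1)) nn
      (by linarith) (by linarith) (by linarith) (by linarith) (by linarith)
    have e1 : ml x (ColD.lumps ⟨4, p, [a, b, c], [], [], 0, 0, N, xi, ws⟩)
        = {x (a + 1), x (b + 1), x (c + 1)} := by
      rfl
    rw [e1]; exact this
  · -- c5
    simp only [shape, Bool.and_eq_true, beq_iff_eq] at hs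
    obtain ⟨hs1, hs2, hs3, rfl, rfl⟩ := hs
    obtain ⟨a, rfl⟩ := len1 (by simpa using hs1)
    obtain rfl := emp hs3
    simp only [forms, List.mem_cons, List.mem_map, forall_eq_or_imp, forall_exists_index, and_imp,
      forall_apply_eq_imp_iff₂,
      ev_add, ev_smul, ev_ch, ev_cons, ev_nil, sf, ev_e, ← ml_sum, hx, hN] at hf
    obtain ⟨h1, h2, h3, h6, h7⟩ := hf
    push_cast at h1 h2 h3 h6 h7
    have g3 := div_pos_of hD (a := 5 - 6 * nn) (by linarith)
    have g6 := div_pos_of hD (a := nn - (x (a + 1) + (ml x Z).sum)) (by linarith)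
    have hW : ∀ y ∈ ml x Z, y ≤ ev (bf k Z) x := by
      intro y hy
      simp only [ml, Multiset.mem_coe, List.mem_map] at hy
      obtain ⟨i, hi, rfl⟩ := hy
      have := h7 i hi
      linarith
    have := Col0.c5 (v := x (k + 1)) (x (a + 1)) (ev (bf k Z) x) (ml x Z) nn
      (by unfold z₀; linarith) hW (by simp [ml, hs2]) (by linarith) (by linarith) (by linarith)
    have e1 : ml x (ColD.lumps ⟨5, p, [a], Z, [], 0, 0, N, xi, ws⟩) = {x (a + 1)} + ml x Z := by
      show ml x ([a] ++ (Z ++ [])) = _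
      rw [List.append_nil, ml_append]
      simp [ml]
    rw [e1]; exact this
  · -- v4
    simp only [shape, Bool.and_eq_true, beq_iff_eq] at hs
    obtain ⟨hs1, hs2, hs3, rfl, rfl⟩ := hs
    obtain ⟨a, b, c, rfl⟩ := len3 (by simpa using hs1)
    obtain rfl := emp hs2
    obtain rfl := emp hs3
    have hxi : ev xi x = D * (ev xi x / D) := by
      have h1 : (D : ℝ) ≠ 0 := by exact_mod_cast hD.ne'
      field_simp
    generalize ev xi x / D = ξ at hxi
    simp only [forms, formsV4, List.mem_cons, List.not_mem_nil, or_false, forall_eq_or_imp,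
      forall_eq, ev_add, ev_smul, ev_cons, ev_nil, ev_e, hx, hN, hxi] at hf
    obtain ⟨o1, o2, h1, h2, h3, h4, h6, h7, h8, h5⟩ := hf
    push_cast at o1 o2 h1 h2 h3 h4 h6 h7 h8 h5
    have g1 := div_pos_of hD (a := 1 - 2 * ξ - (x (a + 1) + x (b + 1) + x (c + 1))) (by linarith)
    have g2 := div_pos_of hD (a := 1 - nn - ξ) (by linarith)
    have g3 := div_pos_of hD (a := 6 + 30 * ξ - (48 * x (c + 1) + 2 * x (a + 1) + x (b + 1)))
      (by linarith)
    have g4 := div_pos_of hD (a := 25 * ξ - 3 - 2 * x (c + 1)) (by linarith)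
    have g6 := div_pos_of hD (a := 8 - 12 * ξ - 9 * x (c + 1) - 8 * (x (a + 1) + x (b + 1)))
      (by linarith)
    have g7 := div_pos_of hD (a := 56 + 12 * ξ + 33 * x (c + 1) + 40 * (x (a + 1) + x (b + 1))
      - 96 * nn) (by linarith)
    have g8 := div_pos_of hD (a := 12 + 16 * ξ - (16 * x (a + 1) + 8 * x (b + 1)
      + 43 * x (c + 1))) (by linarith)
    have g5 := div_pos_of hD (a := nn - (x (a + 1) + x (b + 1) + x (c + 1))) (by linarith)
    have : Col0 (x (k + 1)) {x (a + 1), x (b + 1), x (c + 1)} 0 nn := by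
      apply Col0.v4 (v := x (k + 1)) (x (a + 1)) (x (b + 1)) (x (c + 1)) nn ξ <;> linarith
    have e1 : ml x (ColD.lumps ⟨9, p, [a, b, c], [], [], 0, 0, N, xi, ws⟩)
        = {x (a + 1), x (b + 1), x (c + 1)} := by
      rfl
    rw [e1]; exact this
  · -- c5g
    simp only [shape, Bool.and_eq_true, beq_iff_eq] at hs
    obtain ⟨hs1, hs2, hs3, rfl, rfl⟩ := hs
    obtain ⟨a, rfl⟩ := len1 (by simpa using hs1)
    obtain rfl := emp hs3
    simp only [forms, List.mem_cons, List.not_mem_nil, or_false, forall_eq_or_imp, forall_eq,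
      ev_add, ev_smul, ev_ch, ev_cons, ev_nil, sf, ev_e, ← ml_sum, hx, hN] at hf
    obtain ⟨h1, h2, h3, h6⟩ := hf
    push_cast at h1 h2 h3 h6
    have g3 := div_pos_of hD (a := 5 - 6 * nn) (by linarith)
    have g6 := div_pos_of hD (a := nn - (x (a + 1) + (ml x Z).sum)) (by linarith)
    have := Col0.c5g (v := x (k + 1)) (x (a + 1)) (ml x Z) nn
      (by linarith) (by simp [ml, hs2]) (by linarith) (by linarith) (by linarith)
    have e1 : ml x (ColD.lumps ⟨10, p, [a], Z, [], 0, 0, N, xi, ws⟩) = {x (a + 1)} + ml x Z := by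
      show ml x ([a] ++ (Z ++ [])) = _
      rw [List.append_nil, ml_append]
      simp [ml]
    rw [e1]; exact this
  · -- t7
    simp only [shape, Bool.and_eq_true, beq_iff_eq, Nat.ble_eq] at hs
    obtain ⟨hs1, hs2, hs3, rfl, htx⟩ := hs
    obtain ⟨a, b, c, rfl⟩ := len3 (by simpa using hs1)
    obtain rfl := emp hs2
    obtain rfl := emp hs3
    have hxi : ev xi x = D * (ev xi x / D) := by
      have h1 : (D : ℝ) ≠ 0 := by exact_mod_cast hD.ne'
      field_simp
    generalize ev xi x / D = ξ at hxi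
    have e1 : ml x (ColD.lumps ⟨11, p, [a, b, c], [], [], 0, tx, N, xi, ws⟩)
        = {x (a + 1), x (b + 1), x (c + 1)} := by
      rfl
    have e2 : (ColD.tt ⟨11, p, [a, b, c], [], [], 0, tx, N, xi, ws⟩) = 0 := rfl
    rw [e1, e2]
    simp only [forms, formsT7, wT7, List.mem_cons, List.not_mem_nil, or_false, forall_eq_or_imp,
      forall_eq, ev_add, ev_smul, ev_cons, ev_nil, ev_e, hx, hN, hxi] at hf
    obtain ⟨h31, h32, hx1, w0, ca, cb, e1, e2, e3, h5⟩ := hf
    push_cast at h31 h32 hx1 w0 e1 e2 e3 h5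
    have g6 := div_pos_of hD (a := nn - (x (a + 1) + x (b + 1) + x (c + 1))) (by linarith)
    have g1 := div_pos_of hD (a := 1 - nn - ξ) (by linarith)
    have g2 := div_pos_of hD (a := nn - (x (a + 1) + x (b + 1) + x (c + 1)) - ξ) (by linarith)
    have g3 := div_pos_of hD (a := 56 - 84 * ξ - 63 * x (c + 1) - 56 * (x (a + 1) + x (b + 1))
      - 72 * (nn - (x (a + 1) + x (b + 1) + x (c + 1)) - ξ)) (by linarith)
    have g4 := div_pos_of hD (a := 8 - 12 * ξ - 9 * x (c + 1) - 4 * (x (a + 1) + x (b + 1))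
      - 12 * (nn - (x (a + 1) + x (b + 1) + x (c + 1)) - ξ)) (by linarith)
    have g5 := div_pos_of hD (a := 3 * (x (a + 1) + x (b + 1)) + 6 * ξ - 2) (by linarith)
    have hc : tx = 0 ∨ tx = 1 ∨ tx = 2 := by omega
    refine Col0.t7 (v := x (k + 1)) (x (a + 1)) (x (b + 1)) (x (c + 1)) nn ξ (by linarith)
      (by linarith) (by linarith) (by linarith) ?_ (by linarith) (by linarith) (by linarith)
      (by linarith)
    rcases hc with rfl | rfl | rfl
    · simp only [aT7, bT7, wT7, ev_add, ev_smul, ev_cons, ev_nil, ev_e, hx, hN, hxi] at ca cb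
      push_cast at ca cb
      have ga := div_pos_of hD (a := 42 * ξ - (6 + (x (a + 1) + x (b + 1) + x (c + 1))))
        (by linarith)
      have gb := div_pos_of hD (a := 8 - (8 * (x (a + 1) + x (b + 1) + x (c + 1))
        + 6 * (nn - (x (a + 1) + x (b + 1) + x (c + 1)) - ξ) + 12 * ξ + 3 * x (c + 1)))
        (by linarith)
      exact Or.inl ⟨by linarith, by linarith⟩
    · simp only [aT7, bT7, wT7, ev_add, ev_smul, ev_cons, ev_nil, ev_e, hx, hN, hxi] at ca cb
      push_cast at ca cb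
      have ga := div_pos_of hD (a := 42 * ξ - (6 + x (b + 1) + 2 * x (c + 1))) (by linarith)
      have gb := div_pos_of hD (a := 4 - ((x (b + 1) + 2 * x (c + 1))
        + 3 * ((x (a + 1) + x (b + 1) + x (c + 1))
          + (nn - (x (a + 1) + x (b + 1) + x (c + 1)) - ξ) + x (c + 1)) + 4 * ξ)) (by linarith)
      exact Or.inr (Or.inl ⟨by linarith, by linarith⟩)
    · simp only [aT7, bT7, wT7, ev_add, ev_smul, ev_cons, ev_nil, ev_e, hx, hN, hxi] at ca cb
      push_cast at ca cb
      have ga := div_pos_of hD (a := 14 * ξ - (2 + x (c + 1))) (by linarith)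
      have gb := div_pos_of hD (a := 4 - (12 * x (c + 1) + 3 * (x (a + 1) + x (b + 1)
        + (nn - (x (a + 1) + x (b + 1) + x (c + 1)) - ξ)))) (by linarith)
      exact Or.inr (Or.inr ⟨by linarith, by linarith⟩)

theorem col2_sound {m2 : Bool} {c : ColD} (hD : 0 < D) (hx : x 0 = 1)
    (hs : shape m2 c = true) (hf : ∀ φ ∈ forms k D c, 0 ≤ ev φ x) :
    Col2 (x (k + 1)) (ml x c.lumps) c.tt (NN D c x) := by
  by_cases hk : c.kind ≤ 5 ∨ 9 ≤ c.kind
  · exact .of0 _ _ _ (col0_sound hD hx hs hk hf)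
  have hN := ev_N hD c x
  obtain ⟨kind, p, ys, Z, X, tz, tx, N, xi, ws⟩ := c
  simp only at hk hN
  generalize NN D _ x = nn at hN ⊢
  have hk' : kind = 6 ∨ kind = 7 ∨ kind = 8 := by omega
  rcases hk' with rfl | rfl | rfl
  · -- t6v
    simp only [shape, Bool.and_eq_true] at hs
    obtain ⟨a, rfl⟩ := len1 hs.2
    simp only [forms, List.mem_cons, List.not_mem_nil, or_false, forall_eq_or_imp, forall_eq,
      ev_add, ev_smul, ev_ch, ev_cons, ev_nil, sf, ev_e, ← ml_sum, hx, hN] at hf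
    obtain ⟨h1, h2, h3, h4, h5, h6⟩ := hf
    push_cast at h1 h2 h3 h4 h5 h6
    have g1 := div_pos_of hD (a := 8 + 8 * (x (a + 1) + x (k + 1))
      + 3 * ((ml x Z).sum + tz * x (k + 1)) - 12 * nn) (by linarith)
    have g2 := div_pos_of hD (a := 1 - ((ml x X).sum + tx * x (k + 1)) - nn) (by linarith)
    have g3 := div_pos_of hD (a := 4 - 3 * ((ml x Z).sum + tz * x (k + 1)) - 4 * nn) (by linarith)
    have g4 := div_pos_of hD (a := 7 + 2 * (x (a + 1) + x (k + 1)) - 9 * nn) (by linarith)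
    have g6 := div_pos_of hD (a := nn - (x (a + 1) + x (k + 1) + ((ml x Z).sum + tz * x (k + 1))
      + ((ml x X).sum + tx * x (k + 1)))) (by linarith)
    have := Col2.t6v (v := x (k + 1)) (x (a + 1)) (ml x Z) (ml x X) tz tx nn
      (by linarith) (by linarith) (by linarith) (by linarith) (by linarith) (by linarith)
    have e1 : ml x (ColD.lumps ⟨6, p, [a], Z, X, tz, tx, N, xi, ws⟩)
        = {x (a + 1)} + ml x Z + ml x X := by
      show ml x ([a] ++ (Z ++ X)) = _
      rw [ml_append, ml_append, add_assoc]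
      simp [ml]
    rw [e1]; exact this
  · -- t1v
    simp only [shape, Bool.and_eq_true, beq_iff_eq] at hs
    obtain ⟨_, hs1, hs2, rfl⟩ := hs
    obtain ⟨a, rfl⟩ := len1 (by simpa using hs1)
    obtain rfl := emp hs2
    simp only [forms, List.mem_cons, List.not_mem_nil, or_false, forall_eq_or_imp, forall_eq,
      ev_add, ev_smul, ev_ch, ev_cons, ev_nil, sf, ev_e, ← ml_sum, hx, hN] at hf
    obtain ⟨h1, h2, h3, h6⟩ := hf
    push_cast at h1 h2 h3 h6
    have g3 := div_pos_of hD (a := 5 - 6 * nn) (by linarith)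
    have g6 := div_pos_of hD (a := nn - (x (a + 1) + x (k + 1)
      + ((ml x X).sum + tx * x (k + 1)))) (by linarith)
    have := Col2.t1v (v := x (k + 1)) (x (a + 1)) (ml x X) tx nn
      (by linarith) (by unfold z₀; linarith) (by linarith) (by linarith)
    have e1 : ml x (ColD.lumps ⟨7, p, [a], [], X, 0, tx, N, xi, ws⟩)
        = {x (a + 1)} + ml x X := by
      show ml x ([a] ++ ([] ++ X)) = _
      rw [ml_append, List.nil_append]
      simp [ml]
    rw [e1]
    have e2 : (ColD.tt ⟨7, p, [a], [], X, 0, tx, N, xi, ws⟩) = tx + 1 := by simp [ColD.tt]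
    rw [e2]; exact this
  · -- c5w
    simp only [shape, Bool.and_eq_true, Nat.ble_eq, beq_iff_eq] at hs
    obtain ⟨_, hs1, hs2, hs3, rfl⟩ := hs
    obtain rfl := emp hs3
    simp only [forms, List.mem_cons, List.not_mem_nil, or_false, forall_eq_or_imp, forall_eq,
      ev_add, ev_smul, ev_ch, ev_cons, ev_nil, ← ml_sum, hx, hN] at hf
    obtain ⟨h1, h2, h3, h6, h7⟩ := hf
    push_cast at h1 h2 h3 h6
    have g3 := div_pos_of hD (a := 5 - 6 * nn) (by linarith)
    have g6 := div_pos_of hD (a := nn - (ev (af k ys) x + ((ml x Z).sum + tz * x (k + 1))))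
      (by linarith)
    -- the multiset `W`
    set W : Multiset ℝ := ml x Z + Multiset.replicate tz (x (k + 1)) with hW
    have hWs : W.sum = (ml x Z).sum + tz * x (k + 1) := by
      rw [hW, Multiset.sum_add, Multiset.sum_replicate, nsmul_eq_mul]
    have hWc : Multiset.card W = 4 := by simp [hW, ml, hs2]
    have h12 : ∃ a b : ℝ, a ∈ W ∧ b ∈ W.erase a ∧ 1 / 4 ≤ a + b := by
      match Z, hs2, hW, h7 with
      | [], hs2, hW, h7 =>
        obtain rfl : tz = 4 := by simpa using hs2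
        refine ⟨x (k + 1), x (k + 1), ?_, ?_, ?_⟩
        · rw [hW]; simp [ml]
        · rw [hW, ml_nil, zero_add, Multiset.replicate_succ, Multiset.erase_cons_head]
          simp
        · rw [twof, ev_add, ev_smul, ev_e, ev_const, hx] at h7
          push_cast at h7; linarith
      | [i], hs2, hW, h7 =>
        obtain rfl : tz = 3 := by simpa [add_comm] using hs2
        refine ⟨x (i + 1), x (k + 1), ?_, ?_, ?_⟩
        · rw [hW, ml_cons]; simp
        · rw [hW, ml_cons, Multiset.cons_add, Multiset.erase_cons_head]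
          simp
        · rw [twof, ev_add, ev_smul, ev_add, ev_e, ev_e, ev_const, hx] at h7
          push_cast at h7; linarith
      | i :: j :: L, hs2, hW, h7 =>
        refine ⟨x (i + 1), x (j + 1), ?_, ?_, ?_⟩
        · rw [hW, ml_cons]; simp
        · rw [hW, ml_cons, Multiset.cons_add, Multiset.erase_cons_head, ml_cons]
          simp
        · rw [twof, ev_add, ev_smul, ev_add, ev_e, ev_e, ev_const, hx] at h7
          push_cast at h7; linarith
    match ys, hs1, h1, g6 with
    | [], _, h1, g6 =>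
      have e1 : ml x (ColD.lumps ⟨8, p, [], Z, [], tz, 0, N, xi, ws⟩) = ml x Z := by
        show ml x ([] ++ (Z ++ [])) = _
        rw [List.append_nil, List.nil_append]
      rw [e1]
      show Col2 _ (ml x Z) (tz + 1) nn
      rw [af, ev_e] at h1 g6
      refine Col2.c5w (x (k + 1)) W (ml x Z) (tz + 1) nn ?_ hWc h12 (by linarith) (by linarith)
        (by linarith) (by linarith)
      rw [hW, Multiset.replicate_succ, Multiset.add_cons, ← Multiset.singleton_add]
    | [a], _, h1, g6 =>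
      have e1 : ml x (ColD.lumps ⟨8, p, [a], Z, [], tz, 0, N, xi, ws⟩)
          = {x (a + 1)} + ml x Z := by
        show ml x ([a] ++ (Z ++ [])) = _
        rw [List.append_nil, ml_append]
        simp [ml]
      rw [e1]
      show Col2 _ ({x (a + 1)} + ml x Z) tz nn
      rw [af, ev_e] at h1 g6
      exact Col2.c5w (x (a + 1)) W _ tz nn (by rw [hW, add_assoc]) hWc h12 (by linarith)
        (by linarith) (by linarith) (by linarith)

theorem ml_eq_lum {L : List ℕ} (h : ∀ i ∈ L, i < k) :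
    ml x L = lum (fun j : Fin k => x (j + 1)) (fun j : Fin k => L.count (j : ℕ)) := by
  induction L with
  | nil => simp [ml, lum]
  | cons i L ih =>
    rw [ml_cons, ih fun j hj => h j (List.mem_cons_of_mem _ hj)]
    have hi : i < k := h i List.mem_cons_self
    unfold lum
    have e1 : ∀ j : Fin k, Multiset.replicate ((i :: L).count (j : ℕ)) (x (j + 1))
        = Multiset.replicate (L.count (j : ℕ)) (x (j + 1))
          + if j = ⟨i, hi⟩ then {x (i + 1)} else 0 := by
      intro j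
      rw [List.count_cons]
      by_cases hj : j = ⟨i, hi⟩
      · subst hj
        simp [Multiset.add_comm, ← Multiset.singleton_add]
      · have : ¬ (i = (j : ℕ)) := fun h => hj (Fin.ext h.symm)
        simp [hj, this]
    rw [Finset.sum_congr rfl fun j _ => e1 j, Finset.sum_add_distrib, Finset.sum_ite_eq']
    simp only [Finset.mem_univ, if_true]
    rw [← Multiset.singleton_add, add_comm]

end sound

/-- multiplicity -/
def cnt (j : ℕ) : List ℕ → ℕ
  | [] => 0
  | i :: L => (bif Nat.beq i j then 1 else 0) + cnt j L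

theorem cnt_eq (j : ℕ) (L : List ℕ) : cnt j L = L.count j := by
  induction L with
  | nil => rfl
  | cons i L ih =>
    rw [cnt, ih, List.count_cons]
    by_cases h : i = j
    · subst h; simp [add_comm]
    · have : Nat.beq i j = false := by
        rw [← Bool.not_eq_true]; exact fun h1 => h (Nat.eq_of_beq_eq_true h1)
      simp [this, h]

def allLt (k : ℕ) : List ℕ → Bool
  | [] => true
  | i :: L => Nat.blt i k && allLt k L

theorem allLt_iff {k : ℕ} {L : List ℕ} (h : allLt k L = true) : ∀ i ∈ L, i < k := by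
  induction L with
  | nil => simp
  | cons i L ih =>
    simp only [allLt, Bool.and_eq_true, Nat.blt_eq] at h
    intro j hj
    rcases List.mem_cons.1 hj with rfl | hj
    · exact h.1
    · exact ih h.2 j hj

/-- `∑ p_q` -/
def SP : List ColD → Form
  | [] => []
  | c :: L => add c.p (SP L)

/-- `∑ t_q p_q` -/
def ST : List ColD → Form
  | [] => []
  | c :: L => add (smul (Int.ofNat c.tt) c.p) (ST L)

/-- `∑ p_q mult_q(j)` -/
def SC (j : ℕ) : List ColD → Form
  | [] => []
  | c :: L => add (smul (Int.ofNat (cnt j c.lumps)) c.p) (SC j L)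

/-- `6 N - 5 D` -/
def nf (D : ℕ) (c : ColD) : Form := add (smul 6 c.N) [-(5 * Int.ofNat D)]

def hd : Form → Int
  | [] => 0
  | a :: _ => a

def isC : Form → Bool
  | [] => true
  | [_] => true
  | _ => false

theorem ev_isC {φ : Form} (h : isC φ = true) {x : ℕ → ℝ} (hx : x 0 = 1) : ev φ x = hd φ := by
  match φ, h with
  | [], _ => simp [hd]
  | [a], _ => simp [hd, hx]

/-- `∑ p_q (6 N_q - 5 D)`, constant weights -/
def SN (D : ℕ) : List ColD → Form
  | [] => []
  | c :: L => add (smul (hd c.p) (nf D c)) (SN D L)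

/-- `∑ p_q (6 N_q - 5 D)`, affine weights -/
def SQ (D : ℕ) : List ColD → QForm
  | [] => []
  | c :: L => addQ (mul c.p (nf D c)) (SQ D L)

def allC : List ColD → Bool
  | [] => true
  | c :: L => isC c.p && allC L

def chkCols (k : ℕ) (m2 : Bool) (D : Int) (ctx : List Form) : List ColD → Bool
  | [] => true
  | c :: L => shape m2 c && (allLt k c.lumps && (fars ctx (c.p :: forms k D c) c.ws &&
      chkCols k m2 D ctx L))

theorem chkCols_mem {k : ℕ} {m2 : Bool} {D : Int} {ctx : List Form} {L : List ColD}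
    (h : chkCols k m2 D ctx L = true) : ∀ c ∈ L, shape m2 c = true ∧ allLt k c.lumps = true ∧
      fars ctx (c.p :: forms k D c) c.ws = true := by
  induction L with
  | nil => simp
  | cons c L ih =>
    simp only [chkCols, Bool.and_eq_true] at h
    intro j hj
    rcases List.mem_cons.1 hj with rfl | hj
    · exact ⟨h.1, h.2.1, h.2.2.1⟩
    · exact ih h.2.2.2 j hj

/-- all multiplicities are right -/
def chkMult (P : ℕ) (cols : List ColD) : ℕ → Bool
  | 0 => true
  | j + 1 => allZero (add (smul 2 (SC j cols)) [-Int.ofNat P]) && chkMult P cols j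

theorem chkMult_mem {P : ℕ} {cols : List ColD} {k : ℕ} (h : chkMult P cols k = true) :
    ∀ j < k, allZero (add (smul 2 (SC j cols)) [-Int.ofNat P]) = true := by
  induction k with
  | zero => intro j hj; omega
  | succ k ih =>
    simp only [chkMult, Bool.and_eq_true] at h
    intro j hj
    rcases Nat.lt_succ_iff_lt_or_eq.1 hj with hj | rfl
    · exact ih h.2 j hj
    · exact h.1

/-- `u 0 + … + u (k-1)` -/
def sU : ℕ → Form
  | 0 => []
  | k + 1 => add (sU k) (e (k + 1))

theorem ev_sU (k : ℕ) (x : ℕ → ℝ) : ev (sU k) x = ∑ j : Fin k, x (j + 1) := by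
  induction k with
  | zero => simp [sU]
  | succ k ih => rw [sU, ev_add, ih, ev_e, Fin.sum_univ_castSucc]; simp

theorem sum_list (cols : List ColD) (f : ColD → ℝ) :
    ∑ q : Fin cols.length, f cols[q] = (cols.map f).sum := Fin.sum_univ_fun_getElem ..

theorem SP_eq (x : ℕ → ℝ) (cols : List ColD) :
    (cols.map fun c => ev c.p x).sum = ev (SP cols) x := by
  induction cols with
  | nil => simp [SP]
  | cons c L ih => simp [SP, ih, ev_add]

theorem ST_eq (x : ℕ → ℝ) (cols : List ColD) :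
    (cols.map fun c => ev c.p x * c.tt).sum = ev (ST cols) x := by
  induction cols with
  | nil => simp [ST]
  | cons c L ih => simp [ST, ih, ev_add, ev_smul, mul_comm]

theorem SC_eq (x : ℕ → ℝ) (j : ℕ) (cols : List ColD) :
    (cols.map fun c => ev c.p x * (c.lumps.count j : ℝ)).sum = ev (SC j cols) x := by
  induction cols with
  | nil => simp [SC]
  | cons c L ih => simp [SC, ih, ev_add, ev_smul, cnt_eq, mul_comm]

theorem ev_nf {D : ℕ} (hD : 0 < D) {x : ℕ → ℝ} (hx : x 0 = 1) (c : ColD) :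
    ev (nf D c) x = D * (6 * NN D c x - 5) := by
  have hDz : (0 : ℤ) < (D : ℤ) := by exact_mod_cast hD
  rw [nf, ev_add, ev_smul, ev_N hDz, ev_const, hx]
  simp only [Int.ofNat_eq_natCast]
  push_cast
  ring

theorem SQ_eq {D : ℕ} (hD : 0 < D) {x : ℕ → ℝ} (hx : x 0 = 1) (cols : List ColD) :
    (cols.map fun c => ev c.p x * (D * (6 * NN D c x - 5))).sum = evQ (SQ D cols) x := by
  induction cols with
  | nil => simp [SQ]
  | cons c L ih => simp only [List.map_cons, List.sum_cons, SQ, ih, evQ_add, evQ_mul, ev_nf hD hx]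

theorem SN_eq {D : ℕ} (hD : 0 < D) {x : ℕ → ℝ} (hx : x 0 = 1) {cols : List ColD}
    (h : allC cols = true) :
    (cols.map fun c => ev c.p x * (D * (6 * NN D c x - 5))).sum = ev (SN D cols) x := by
  induction cols with
  | nil => simp [SN]
  | cons c L ih =>
    simp only [allC, Bool.and_eq_true] at h
    simp only [List.map_cons, List.sum_cons, SN, ih h.2, ev_add, ev_smul, ev_nf hD hx,
      ev_isC h.1 hx]

section sem

variable {k : ℕ} {x : ℕ → ℝ} {m2 : Bool} {ctx : List Form} {P D : ℕ} {cols : List ColD}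

/-- value of `4 P R₁` -/
noncomputable def vR (k P : ℕ) (cols : List ColD) (x : ℕ → ℝ) : ℝ :=
  3 * P * ev (sU k) x - 4 * ev (SP cols) x + 6 * (ev (ST cols) x * x (k + 1))

/-- value of `6 D P` times the gain -/
noncomputable def vG (D : ℕ) (cols : List ColD) (x : ℕ → ℝ) : ℝ :=
  (cols.map fun c => ev c.p x * (D * (6 * NN D c x - 5))).sum

theorem vR_eq (hP : 0 < P) :
    4 * (P : ℝ) * R₁ (fun j : Fin k => x (j + 1)) (x (k + 1))
      (fun q : Fin cols.length => ev cols[q].p x / P) (fun q => cols[q].tt)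
      = vR k P cols x := by
  have hP' : (0 : ℝ) < P := by exact_mod_cast hP
  have e1 : ∑ q : Fin cols.length, ev cols[q].p x / P
      * (1 - 3 / 2 * ((cols[q].tt : ℝ) * x (k + 1)))
      = (ev (SP cols) x - 3 / 2 * x (k + 1) * ev (ST cols) x) / P := by
    rw [← SP_eq, ← ST_eq, ← sum_list, ← sum_list, Finset.mul_sum, ← Finset.sum_sub_distrib,
      Finset.sum_div]
    exact Finset.sum_congr rfl fun q _ => by ring
  unfold R₁ vR
  rw [e1, ev_sU]
  field_simp
  ring

theorem vG_eq (hP : 0 < P) (hD : 0 < D) :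
    6 * (D : ℝ) * P * (∑ q : Fin cols.length, ev cols[q].p x / P
      * (NN D cols[q] x - 5 / 6)) = vG D cols x := by
  have hP' : (0 : ℝ) < P := by exact_mod_cast hP
  unfold vG
  rw [← sum_list, Finset.mul_sum]
  refine Finset.sum_congr rfl fun q _ => ?_
  field_simp

theorem sP_eq : ∑ q : Fin cols.length, ev cols[q].p x / P = ev (SP cols) x / P := by
  rw [← Finset.sum_div, ← SP_eq, ← sum_list]

theorem mult_eq (hP : 0 < P) (hx : x 0 = 1) (h : chkMult P cols k = true) (j : Fin k) :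
    ∑ q : Fin cols.length, ev cols[q].p x / P * (cols[q].lumps.count (j : ℕ) : ℝ) = 1 / 2 := by
  have hP' : (0 : ℝ) < P := by exact_mod_cast hP
  have h1 := ev_allZero (chkMult_mem h j j.2) x
  rw [ev_add, ev_smul, ev_const, hx] at h1
  simp only [Int.ofNat_eq_natCast] at h1
  push_cast at h1
  have e1 : ∑ q : Fin cols.length, ev cols[q].p x / P
      * (cols[q].lumps.count (j : ℕ) : ℝ) = ev (SC j cols) x / P := by
    rw [← SC_eq, ← sum_list, Finset.sum_div]
    exact Finset.sum_congr rfl fun q _ => by ring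
  rw [e1, div_eq_div_iff hP'.ne' (by norm_num)]
  linarith

theorem kind_le {c : ColD} (h : shape false c = true) : c.kind ≤ 5 ∨ 9 ≤ c.kind := by
  by_contra hc
  have h3 : c.kind = 6 ∨ c.kind = 7 ∨ c.kind = 8 := by omega
  rcases h3 with h3 | h3 | h3 <;> simp [shape, h3] at h

/-- coverage without trimming or with it -/
theorem sem0 (hP : 0 < P) (hD : 0 < D) (hx : x 0 = 1) (hc : ∀ ψ ∈ ctx, 0 ≤ ev ψ x)
    (hM : chkMult P cols k = true) (hC : chkCols k false D ctx cols = true)
    (hS : ev (SP cols) x ≤ P) (hR : 0 ≤ vR k P cols x)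
    (hG : D * vR k P cols x ≤ 4 * vG D cols x ∨ D * (P - ev (SP cols) x) ≤ vG D cols x) :
    Cov0 (fun j : Fin k => x (j + 1)) (x (k + 1)) := by
  have hx0 : 0 ≤ x 0 := by rw [hx]; norm_num
  have hP' : (0 : ℝ) < P := by exact_mod_cast hP
  have hD' : (0 : ℝ) < D := by exact_mod_cast hD
  have hDz : (0 : ℤ) < (D : ℤ) := by exact_mod_cast hD
  have hmem : ∀ q : Fin cols.length, cols[q] ∈ cols := fun q => List.getElem_mem _
  have R1 := vR_eq (k := k) (x := x) (cols := cols) hP
  have G1 := vG_eq (x := x) (cols := cols) hP hD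
  set R := R₁ (fun j : Fin k => x (j + 1)) (x (k + 1))
      (fun q : Fin cols.length => ev cols[q].p x / P) (fun q => cols[q].tt) with hRdef
  set G := ∑ q : Fin cols.length, ev cols[q].p x / P * (NN D cols[q] x - 5 / 6) with hGdef
  have hR0 : 0 ≤ R := by
    rw [← R1] at hR
    exact (mul_nonneg_iff_of_pos_left (by positivity)).1 hR
  have hfar : ∀ q : Fin cols.length, ∀ φ ∈ cols[q].p :: forms k D cols[q], 0 ≤ ev φ x :=
    fun q => fars_sound (chkCols_mem hC _ (hmem q)).2.2 hx0 hc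
  refine ⟨cols.length, fun q => ev cols[q].p x / P,
    fun q j => cols[q].lumps.count (j : ℕ), fun q => cols[q].tt,
    fun q => NN D cols[q] x, fun q => ?_, fun j => mult_eq hP hx hM j, fun q => ?_, ?_, hR0, ?_⟩
  · have := hfar q _ List.mem_cons_self
    positivity
  · have h1 := chkCols_mem hC _ (hmem q)
    rw [← ml_eq_lum (allLt_iff h1.2.1)]
    exact col0_sound hDz hx h1.1 (kind_le h1.1)
      fun φ hφ => hfar q φ (List.mem_cons_of_mem _ hφ)
  · rw [sP_eq, div_le_one hP']; exact hS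
  · rcases hG with h | h
    · refine le_trans (div_le_div_of_nonneg_right (min_le_left _ _) (by norm_num)) ?_
      rw [← R1, ← G1] at h
      have h2 : 0 ≤ (24 * (D : ℝ) * P) * (G - R / 6) := by
        have : (24 * (D : ℝ) * P) * (G - R / 6)
          = 4 * (6 * D * P * G) - D * (4 * P * R) := by ring
        rw [this]; linarith
      have := (mul_nonneg_iff_of_pos_left (by positivity)).1 h2
      linarith
    · refine le_trans (div_le_div_of_nonneg_right (min_le_right _ _) (by norm_num)) ?_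
      rw [← G1] at h
      rw [sP_eq]
      have h2 : 0 ≤ (6 * (D : ℝ) * P) * (G - (1 - ev (SP cols) x / P) / 6) := by
        have : (6 * (D : ℝ) * P) * (G - (1 - ev (SP cols) x / P) / 6)
          = 6 * D * P * G - D * (P - ev (SP cols) x) := by
          field_simp
        rw [this]; linarith
      have := (mul_nonneg_iff_of_pos_left (by positivity)).1 h2
      linarith

/-- coverage by small lumps -/
theorem sem2 (hP : 0 < P) (hD : 0 < D) (hx : x 0 = 1) (hc : ∀ ψ ∈ ctx, 0 ≤ ev ψ x)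
    (hM : chkMult P cols k = true) (hC : chkCols k true D ctx cols = true)
    (hS : vR k P cols x ≤ 4 * P - 4 * ev (SP cols) x) (hR : 0 ≤ vR k P cols x)
    (hG : D * vR k P cols x ≤ 4 * vG D cols x) :
    Cov2 (fun j : Fin k => x (j + 1)) (x (k + 1)) := by
  have hx0 : 0 ≤ x 0 := by rw [hx]; norm_num
  have hP' : (0 : ℝ) < P := by exact_mod_cast hP
  have hD' : (0 : ℝ) < D := by exact_mod_cast hD
  have hDz : (0 : ℤ) < (D : ℤ) := by exact_mod_cast hD
  have hmem : ∀ q : Fin cols.length, cols[q] ∈ cols := fun q => List.getElem_mem _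
  have R1 := vR_eq (k := k) (x := x) (cols := cols) hP
  have G1 := vG_eq (x := x) (cols := cols) hP hD
  set R := R₁ (fun j : Fin k => x (j + 1)) (x (k + 1))
      (fun q : Fin cols.length => ev cols[q].p x / P) (fun q => cols[q].tt) with hRdef
  set G := ∑ q : Fin cols.length, ev cols[q].p x / P * (NN D cols[q] x - 5 / 6) with hGdef
  have hR0 : 0 ≤ R := by
    rw [← R1] at hR
    exact (mul_nonneg_iff_of_pos_left (by positivity)).1 hR
  have hfar : ∀ q : Fin cols.length, ∀ φ ∈ cols[q].p :: forms k D cols[q], 0 ≤ ev φ x :=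
    fun q => fars_sound (chkCols_mem hC _ (hmem q)).2.2 hx0 hc
  refine ⟨cols.length, fun q => ev cols[q].p x / P,
    fun q j => cols[q].lumps.count (j : ℕ), fun q => cols[q].tt,
    fun q => NN D cols[q] x, fun q => ?_, fun j => mult_eq hP hx hM j, fun q => ?_, ?_, hR0, ?_⟩
  · have := hfar q _ List.mem_cons_self
    positivity
  · have h1 := chkCols_mem hC _ (hmem q)
    rw [← ml_eq_lum (allLt_iff h1.2.1)]
    exact col2_sound hDz hx h1.1
      fun φ hφ => hfar q φ (List.mem_cons_of_mem _ hφ)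
  · rw [← R1] at hS
    rw [sP_eq]
    have h5 : 0 ≤ (4 * (P : ℝ)) * (1 - ev (SP cols) x / P - R) := by
      have : (4 * (P : ℝ)) * (1 - ev (SP cols) x / P - R)
        = 4 * P - 4 * ev (SP cols) x - 4 * P * R := by
        field_simp
      rw [this]; linarith
    have := (mul_nonneg_iff_of_pos_left (by positivity)).1 h5
    linarith
  · rw [← R1, ← G1] at hG
    have h2 : 0 ≤ (24 * (D : ℝ) * P) * (G - R / 6) := by
      have : (24 * (D : ℝ) * P) * (G - R / 6)
        = 4 * (6 * D * P * G) - D * (4 * P * R) := by ring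
      rw [this]; linarith
    have := (mul_nonneg_iff_of_pos_left (by positivity)).1 h2
    linarith

end sem

/-- a leaf with constant weights: `P` = common denominator of the weights, `D` of the totals;
`mode` 0: the gain is at least `R₁/6`, 1: at least `(1 - ∑ p)/6`, 2: `Cov2`; `wR`, `wF`, `wM`:
certificates of `0 ≤ R₁`, of the gain, of `R₁ ≤ 1 - ∑ p` (mode 2 only). -/
structure Leaf where
  P : ℕ
  D : ℕ
  mode : ℕ
  cols : List ColD
  wR : Nat × List Nat
  wF : Nat × List Nat
  wM : Nat × List Nat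

/-- a leaf with affine weights; certificates `wR`, `wF`, `wM` quadratic, `wS` (linear) of
`∑ p ≤ 1` (modes 0, 1) -/
structure LeafQ where
  P : ℕ
  D : ℕ
  mode : ℕ
  cols : List ColD
  wR : Nat × List (Nat × Nat × Nat)
  wF : Nat × List (Nat × Nat × Nat)
  wM : Nat × List (Nat × Nat × Nat)
  wS : Nat × List Nat

/-- `4 P R₁`, constant weights -/
def rf (k : ℕ) (L : Leaf) : Form :=
  add (smul (-4) (SP L.cols)) (add (smul (3 * Int.ofNat L.P) (sU k))
    (smul (6 * hd (ST L.cols)) (e (k + 1))))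

/-- `4 P R₁`, affine weights -/
def rq (k : ℕ) (L : LeafQ) : QForm :=
  addQ (mul (add (smul (-4) (SP L.cols)) (smul (3 * Int.ofNat L.P) (sU k))) [1])
    (mul (smul 6 (ST L.cols)) (e (k + 1)))

def leafOK (k : ℕ) (m2 : Bool) (ctx : List Form) (L : Leaf) : Bool :=
  Nat.blt 0 L.P && (Nat.blt 0 L.D && (chkMult L.P L.cols k && (allC L.cols &&
  (isC (ST L.cols) && (isC (SP L.cols) && (far ctx (rf k L) L.wR &&
  match L.mode with
  | 0 => decide (hd (SP L.cols) ≤ Int.ofNat L.P) && (chkCols k false L.D ctx L.cols &&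
      far ctx (add (smul 4 (SN L.D L.cols)) (smul (-Int.ofNat L.D) (rf k L))) L.wF)
  | 1 => decide (hd (SP L.cols) ≤ Int.ofNat L.P) && (chkCols k false L.D ctx L.cols &&
      far ctx (add (SN L.D L.cols) [-(Int.ofNat L.D * (Int.ofNat L.P - hd (SP L.cols)))]) L.wF)
  | 2 => m2 && (chkCols k true L.D ctx L.cols &&
      (far ctx (add (smul 4 (SN L.D L.cols)) (smul (-Int.ofNat L.D) (rf k L))) L.wF &&
       far ctx (add [4 * Int.ofNat L.P - 4 * hd (SP L.cols)] (smul (-1) (rf k L))) L.wM))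
  | _ => false))))))

def leafQOK (k : ℕ) (m2 : Bool) (ctx : List Form) (L : LeafQ) : Bool :=
  Nat.blt 0 L.P && (Nat.blt 0 L.D && (chkMult L.P L.cols k && (farQ ctx (rq k L) L.wR &&
  match L.mode with
  | 0 => far ctx (add [Int.ofNat L.P] (smul (-1) (SP L.cols))) L.wS &&
      (chkCols k false L.D ctx L.cols &&
      farQ ctx (addQ (smulQ 4 (SQ L.D L.cols)) (smulQ (-Int.ofNat L.D) (rq k L))) L.wF)
  | 1 => far ctx (add [Int.ofNat L.P] (smul (-1) (SP L.cols))) L.wS &&
      (chkCols k false L.D ctx L.cols &&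
      farQ ctx (addQ (SQ L.D L.cols) (mul (smul (-Int.ofNat L.D)
        (add [Int.ofNat L.P] (smul (-1) (SP L.cols)))) [1])) L.wF)
  | 2 => m2 && (chkCols k true L.D ctx L.cols &&
      (farQ ctx (addQ (smulQ 4 (SQ L.D L.cols)) (smulQ (-Int.ofNat L.D) (rq k L))) L.wF &&
       farQ ctx (addQ (mul (smul 4 (add [Int.ofNat L.P] (smul (-1) (SP L.cols)))) [1])
        (smulQ (-1) (rq k L))) L.wM))
  | _ => false)))

section leaf

variable {k : ℕ} {x : ℕ → ℝ} {m2 : Bool} {ctx : List Form}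

theorem ev_rf {L : Leaf} (hx : x 0 = 1) (h : isC (ST L.cols) = true) :
    ev (rf k L) x = vR k L.P L.cols x := by
  unfold rf vR
  rw [ev_add, ev_add, ev_smul, ev_smul, ev_smul, ev_e, ev_isC h hx]
  simp only [Int.ofNat_eq_natCast]
  push_cast
  ring

theorem evQ_rq {L : LeafQ} (hx : x 0 = 1) : evQ (rq k L) x = vR k L.P L.cols x := by
  unfold rq vR
  rw [evQ_add, evQ_mul, evQ_mul, ev_add, ev_smul, ev_smul, ev_smul, ev_e, ev_const, hx]
  simp only [Int.ofNat_eq_natCast]
  push_cast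
  ring

theorem leaf_sound {L : Leaf} (h : leafOK k m2 ctx L = true) (hx : x 0 = 1)
    (hc : ∀ ψ ∈ ctx, 0 ≤ ev ψ x) :
    Cov0 (fun j : Fin k => x (j + 1)) (x (k + 1)) ∨
      (m2 = true ∧ Cov2 (fun j : Fin k => x (j + 1)) (x (k + 1))) := by
  have hx0 : 0 ≤ x 0 := by rw [hx]; norm_num
  simp only [leafOK, Bool.and_eq_true, Nat.blt_eq] at h
  obtain ⟨hP, hD, hM, hA, hT, hS, hR, h⟩ := h
  have R2 := far_sound hR hx0 hc
  rw [ev_rf hx hT] at R2
  have S1 : ev (SP L.cols) x = hd (SP L.cols) := ev_isC hS hx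
  have G1 : vG L.D L.cols x = ev (SN L.D L.cols) x := SN_eq hD hx hA
  have gA : far ctx (add (smul 4 (SN L.D L.cols)) (smul (-Int.ofNat L.D) (rf k L))) L.wF = true →
      L.D * vR k L.P L.cols x ≤ 4 * vG L.D L.cols x := fun h => by
    have := far_sound h hx0 hc
    rw [ev_add, ev_smul, ev_smul, ev_rf hx hT, ← G1] at this
    simp only [Int.ofNat_eq_natCast] at this
    push_cast at this
    linarith
  split at h
  · simp only [Bool.and_eq_true, decide_eq_true_eq] at h
    refine Or.inl (sem0 hP hD hx hc hM h.2.1 ?_ R2 (Or.inl (gA h.2.2)))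
    rw [S1]
    have := h.1
    rw [Int.ofNat_eq_natCast] at this
    exact_mod_cast this
  · simp only [Bool.and_eq_true, decide_eq_true_eq] at h
    refine Or.inl (sem0 hP hD hx hc hM h.2.1 ?_ R2 (Or.inr ?_))
    · rw [S1]
      have := h.1
      rw [Int.ofNat_eq_natCast] at this
      exact_mod_cast this
    · have := far_sound h.2.2 hx0 hc
      rw [ev_add, ev_const, hx, ← G1] at this
      simp only [Int.ofNat_eq_natCast] at this
      push_cast at this
      rw [S1]
      linarith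
  · simp only [Bool.and_eq_true] at h
    refine Or.inr ⟨h.1, sem2 hP hD hx hc hM h.2.1 ?_ R2 (gA h.2.2.1)⟩
    have := far_sound h.2.2.2 hx0 hc
    rw [ev_add, ev_smul, ev_const, hx, ev_rf hx hT] at this
    simp only [Int.ofNat_eq_natCast] at this
    push_cast at this
    rw [S1]
    linarith
  · simp at h

theorem leafQ_sound {L : LeafQ} (h : leafQOK k m2 ctx L = true) (hx : x 0 = 1)
    (hc : ∀ ψ ∈ ctx, 0 ≤ ev ψ x) :
    Cov0 (fun j : Fin k => x (j + 1)) (x (k + 1)) ∨
      (m2 = true ∧ Cov2 (fun j : Fin k => x (j + 1)) (x (k + 1))) := by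
  have hx0 : 0 ≤ x 0 := by rw [hx]; norm_num
  simp only [leafQOK, Bool.and_eq_true, Nat.blt_eq] at h
  obtain ⟨hP, hD, hM, hR, h⟩ := h
  have R2 := farQ_sound hR hx0 hc
  rw [evQ_rq hx] at R2
  have G1 : vG L.D L.cols x = evQ (SQ L.D L.cols) x := SQ_eq hD hx L.cols
  have gS : far ctx (add [Int.ofNat L.P] (smul (-1) (SP L.cols))) L.wS = true →
      ev (SP L.cols) x ≤ L.P := fun h => by
    have := far_sound h hx0 hc
    rw [ev_add, ev_smul, ev_const, hx] at this
    simp only [Int.ofNat_eq_natCast] at this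
    push_cast at this
    linarith
  have gA : farQ ctx (addQ (smulQ 4 (SQ L.D L.cols)) (smulQ (-Int.ofNat L.D) (rq k L))) L.wF
      = true → L.D * vR k L.P L.cols x ≤ 4 * vG L.D L.cols x := fun h => by
    have := farQ_sound h hx0 hc
    rw [evQ_add, evQ_smul, evQ_smul, evQ_rq hx, ← G1] at this
    simp only [Int.ofNat_eq_natCast] at this
    push_cast at this
    linarith
  split at h
  · simp only [Bool.and_eq_true] at h
    exact Or.inl (sem0 hP hD hx hc hM h.2.1 (gS h.1) R2 (Or.inl (gA h.2.2)))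
  · simp only [Bool.and_eq_true] at h
    refine Or.inl (sem0 hP hD hx hc hM h.2.1 (gS h.1) R2 (Or.inr ?_))
    have := farQ_sound h.2.2 hx0 hc
    rw [evQ_add, evQ_mul, ev_smul, ev_add, ev_smul, ev_const, ev_const, hx, ← G1] at this
    simp only [Int.ofNat_eq_natCast] at this
    push_cast at this
    linarith
  · simp only [Bool.and_eq_true] at h
    refine Or.inr ⟨h.1, sem2 hP hD hx hc hM h.2.1 ?_ R2 (gA h.2.2.1)⟩
    have := farQ_sound h.2.2.2 hx0 hc
    rw [evQ_add, evQ_mul, evQ_smul, ev_smul, ev_add, ev_smul, ev_const, ev_const, hx,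
      evQ_rq hx] at this
    simp only [Int.ofNat_eq_natCast] at this
    push_cast at this
    linarith
  · simp at h

end leaf

/-- certificate trees: `split f l r` (context `f :: ctx`, `-f :: ctx`), `inf c` (Farkas
certificate of infeasibility), `leaf L` (constant weights), `leafQ L` (affine weights) -/
inductive Tree where
  | split (f : Form) (l r : Tree)
  | inf (c : List Nat)
  | leaf (L : Leaf)
  | leafQ (L : LeafQ)

def chk (k : ℕ) (m2 : Bool) : List Form → Tree → Bool
  | ctx, .split f l r => chk k m2 (f :: ctx) l && chk k m2 (smul (-1) f :: ctx) r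
  | ctx, .inf c => farN ctx c
  | ctx, .leaf L => leafOK k m2 ctx L
  | ctx, .leafQ L => leafQOK k m2 ctx L

/-- the statement certified by a tree -/
def Cert (k : ℕ) (m2 : Bool) (ctx : List Form) : Prop :=
  ∀ x : ℕ → ℝ, x 0 = 1 → (∀ ψ ∈ ctx, 0 ≤ ev ψ x) →
    Cov0 (fun j : Fin k => x (j + 1)) (x (k + 1)) ∨
      (m2 = true ∧ Cov2 (fun j : Fin k => x (j + 1)) (x (k + 1)))

theorem Cert.split {k : ℕ} {m2 : Bool} {ctx : List Form} (f : Form)
    (h1 : Cert k m2 (f :: ctx)) (h2 : Cert k m2 (smul (-1) f :: ctx)) : Cert k m2 ctx := by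
  intro x hx hc
  rcases le_total 0 (ev f x) with h | h
  · refine h1 x hx fun ψ hψ => ?_
    rcases List.mem_cons.1 hψ with rfl | hψ
    · exact h
    · exact hc ψ hψ
  · refine h2 x hx fun ψ hψ => ?_
    rcases List.mem_cons.1 hψ with rfl | hψ
    · rw [ev_smul]; push_cast; linarith
    · exact hc ψ hψ

theorem Cert.of_chk {k : ℕ} {m2 : Bool} {ctx : List Form} (T : Tree)
    (h : chk k m2 ctx T = true) : Cert k m2 ctx := by
  induction T generalizing ctx with
  | split f l r ihl ihr =>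
    simp only [chk, Bool.and_eq_true] at h
    exact Cert.split f (ihl h.1) (ihr h.2)
  | inf c =>
    intro x hx hc
    exact (farN_sound h (by rw [hx]; norm_num) hc).elim
  | leaf L =>
    intro x hx hc
    exact leaf_sound h hx hc
  | leafQ L =>
    intro x hx hc
    exact leafQ_sound h hx hc

/-- order, `u (i) - u (i+1)`, `i + 1 < k` (form number `i`) -/
def ordF : ℕ → ℕ → List Form
  | _, 0 => []
  | i, n + 1 => add (e (i + 1)) (smul (-1) (e (i + 2))) :: ordF (i + 1) n

/-- the common part of the roots: `u_i - u_{i+1}`, `100 u_{k-1} - 13`, `1 - u_0`, `4 - 3 ∑ u`,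
`1 - u_2 - u_3 - 2 u_4` (`0` if `k < 5`) -/
def rootC (k : ℕ) : List Form :=
  ordF 0 (k - 1) ++ [add [-13] (smul 100 (e k)), add [1] (smul (-1) (e 1)),
    add [4] (smul (-3) (sU k)),
    (match k with
      | 0 | 1 | 2 | 3 | 4 => [0]
      | _ => [1, 0, 0, -1, -1, -2])]

/-- root of the region `7/200 ≤ v ≤ 7/100`: the common part, then `200 v - 7`, `7 - 100 v` -/
def rootA (k : ℕ) : List Form :=
  rootC k ++ [add [-7] (smul 200 (e (k + 1))), add [7] (smul (-100) (e (k + 1)))]

/-- root of the region `7/100 ≤ v ≤ 13/100`: the common part, then `100 v - 7`, `13 - 100 v`,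
`4 - 3 ∑ u - 3 v` -/
def rootB (k : ℕ) : List Form :=
  rootC k ++ [add [-7] (smul 100 (e (k + 1))), add [13] (smul (-100) (e (k + 1))),
    add [4] (add (smul (-3) (sU k)) (smul (-3) (e (k + 1))))]

theorem ordF_mem {i n : ℕ} {ψ : Form} (h : ψ ∈ ordF i n) :
    ∃ j, j < i + n ∧ ψ = add (e (j + 1)) (smul (-1) (e (j + 2))) := by
  induction n generalizing i with
  | zero => simp [ordF] at h
  | succ n ih =>
    rcases List.mem_cons.1 h with rfl | h
    · exact ⟨i, by omega, rfl⟩
    · obtain ⟨j, h1, h2⟩ := ih h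
      exact ⟨j, by omega, h2⟩

/-- the point `(1, u, v)` -/
noncomputable def pt {k : ℕ} (u : Fin k → ℝ) (v : ℝ) : ℕ → ℝ
  | 0 => 1
  | n + 1 => if h : n < k then u ⟨n, h⟩ else v

theorem pt_at {k : ℕ} (u : Fin k → ℝ) (v : ℝ) (i : ℕ) (h : i < k) :
    pt u v (i + 1) = u ⟨i, h⟩ := dif_pos h

theorem pt_u {k : ℕ} (u : Fin k → ℝ) (v : ℝ) : (fun j : Fin k => pt u v (j + 1)) = u := by
  funext j; simp [pt]

theorem pt_v {k : ℕ} (u : Fin k → ℝ) (v : ℝ) : pt u v (k + 1) = v := by simp [pt]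

theorem rootC_mem {k : ℕ} (hk : 0 < k) {u : Fin k → ℝ} {v : ℝ} (hu : Antitone u)
    (h1 : ∀ j, 13 / 100 ≤ u j) (h2 : ∀ j, u j ≤ 1) (h3 : ∑ j, u j ≤ 4 / 3) (h4 : NoNE u) :
    ∀ ψ ∈ rootC k, 0 ≤ ev ψ (pt u v) := by
  obtain ⟨k, rfl⟩ : ∃ l, k = l + 1 := ⟨k - 1, by omega⟩
  intro ψ hψ
  rcases List.mem_append.1 hψ with hψ | hψ
  · obtain ⟨j, hj, rfl⟩ := ordF_mem hψ
    rw [ev_add, ev_smul, ev_e, ev_e]
    have e1 : pt u v (j + 1) = u ⟨j, by omega⟩ := dif_pos (by omega)
    have e2 : pt u v (j + 2) = u ⟨j + 1, by omega⟩ := dif_pos (by omega)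
    rw [e1, e2]
    have := hu (show (⟨j, by omega⟩ : Fin (k + 1)) ≤ ⟨j + 1, by omega⟩ from by
      rw [Fin.le_def]; exact Nat.le_succ j)
    push_cast
    linarith
  · have e0 : pt u v 0 = 1 := rfl
    have eU : ∑ j : Fin (k + 1), pt u v (j + 1) = ∑ j, u j :=
      congrArg (fun f : Fin (k + 1) → ℝ => ∑ j, f j) (pt_u u v)
    simp only [List.mem_cons, List.not_mem_nil, or_false] at hψ
    rcases hψ with rfl | rfl | rfl | rfl
    · rw [ev_add, ev_smul, ev_e, ev_const, e0]
      have e1 : pt u v (k + 1) = u ⟨k, by omega⟩ := dif_pos (by omega)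
      rw [e1]
      have := h1 ⟨k, by omega⟩
      push_cast
      linarith
    · rw [ev_add, ev_smul, ev_e, ev_const, e0]
      have e1 : pt u v 1 = u ⟨0, by omega⟩ := pt_at u v 0 (by omega)
      rw [e1]
      have := h2 ⟨0, by omega⟩
      push_cast
      linarith
    · rw [ev_add, ev_smul, ev_sU, ev_const, e0, eU]
      push_cast
      linarith
    · match k, u, h4, e0 with
      | 0, u, _, e0 => simp
      | 1, u, _, e0 => simp
      | 2, u, _, e0 => simp
      | 3, u, _, e0 => simp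
      | k + 4, u, h4, e0 =>
        have h := h4 (by omega)
        have e2 : pt u v 3 = u ⟨2, by omega⟩ := pt_at u v 2 (by omega)
        have e3 : pt u v 4 = u ⟨3, by omega⟩ := pt_at u v 3 (by omega)
        have e4 : pt u v 5 = u ⟨4, by omega⟩ := pt_at u v 4 (by omega)
        simp only [ev_cons, ev_nil, e0, Nat.reduceAdd, e2, e3, e4]
        push_cast
        linarith

theorem eU {k : ℕ} (u : Fin k → ℝ) (v : ℝ) : ∑ j : Fin k, pt u v (j + 1) = ∑ j, u j :=
  congrArg (fun f : Fin k → ℝ => ∑ j, f j) (pt_u u v)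

theorem rootA_mem {k : ℕ} (hk : 0 < k) {u : Fin k → ℝ} {v : ℝ} (hu : Antitone u)
    (h1 : ∀ j, 13 / 100 ≤ u j) (h2 : ∀ j, u j ≤ 1) (h3 : ∑ j, u j ≤ 4 / 3) (h4 : NoNE u)
    (hv1 : 7 / 200 ≤ v) (hv2 : v ≤ 7 / 100) : ∀ ψ ∈ rootA k, 0 ≤ ev ψ (pt u v) := by
  intro ψ hψ
  rcases List.mem_append.1 hψ with hψ | hψ
  · exact rootC_mem hk hu h1 h2 h3 h4 ψ hψ
  · simp only [List.mem_cons, List.not_mem_nil, or_false] at hψ
    have e0 : pt u v 0 = 1 := rfl
    rcases hψ with rfl | rfl
    · rw [ev_add, ev_smul, ev_e, ev_const, e0, pt_v]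
      push_cast; linarith
    · rw [ev_add, ev_smul, ev_e, ev_const, e0, pt_v]
      push_cast; linarith

theorem rootB_mem {k : ℕ} (hk : 0 < k) {u : Fin k → ℝ} {v : ℝ} (hu : Antitone u)
    (h1 : ∀ j, 13 / 100 ≤ u j) (h2 : ∀ j, u j ≤ 1) (h3 : ∑ j, u j ≤ 4 / 3) (h4 : NoNE u)
    (hv1 : 7 / 100 ≤ v) (hv2 : v ≤ 13 / 100) (hv3 : (∑ j, u j) + v ≤ 4 / 3) :
    ∀ ψ ∈ rootB k, 0 ≤ ev ψ (pt u v) := by
  intro ψ hψ
  rcases List.mem_append.1 hψ with hψ | hψ
  · exact rootC_mem hk hu h1 h2 h3 h4 ψ hψ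
  · simp only [List.mem_cons, List.not_mem_nil, or_false] at hψ
    have e0 : pt u v 0 = 1 := rfl
    rcases hψ with rfl | rfl | rfl
    · rw [ev_add, ev_smul, ev_e, ev_const, e0, pt_v]
      push_cast; linarith
    · rw [ev_add, ev_smul, ev_e, ev_const, e0, pt_v]
      push_cast; linarith
    · rw [ev_add, ev_add, ev_smul, ev_smul, ev_sU, ev_e, ev_const, e0, pt_v, eU]
      push_cast; linarith

/-- a certificate, applied to `(u, v)` -/
theorem Cert.apply {k : ℕ} {m2 : Bool} {ctx : List Form} (h : Cert k m2 ctx) (u : Fin k → ℝ)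
    (v : ℝ) (hc : ∀ ψ ∈ ctx, 0 ≤ ev ψ (pt u v)) : Cov0 u v ∨ (m2 = true ∧ Cov2 u v) := by
  have := h (pt u v) rfl hc
  rwa [pt_u, pt_v] at this

/-- the first region -/
theorem Cert.cov0 {k : ℕ} {ctx : List Form} (h : Cert k false ctx) (u : Fin k → ℝ)
    (v : ℝ) (hc : ∀ ψ ∈ ctx, 0 ≤ ev ψ (pt u v)) : Cov0 u v := by
  rcases h.apply u v hc with h | ⟨h, _⟩
  · exact h
  · exact absurd h (by simp)

/-- the second region -/
theorem Cert.cov2 {k : ℕ} {ctx : List Form} (h : Cert k true ctx) (u : Fin k → ℝ)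
    (v : ℝ) (hc : ∀ ψ ∈ ctx, 0 ≤ ev ψ (pt u v)) : Cov0 u v ∨ Cov2 u v := by
  rcases h.apply u v hc with h | ⟨_, h⟩
  · exact Or.inl h
  · exact Or.inr h

/-- **certificates of the two regions give `CovK k`** -/
theorem covK_of_cert {k : ℕ} (hk : 0 < k) (hA : Cert k false (rootA k))
    (hB : Cert k true (rootB k)) : CovK k := by
  intro u hu h1 h2 h3 h4
  exact ⟨fun v hv1 hv2 => hA.cov0 u v (rootA_mem hk hu h1 h2 h3 h4 hv1 hv2),
    fun v hv1 hv2 hv3 => hB.cov2 u v (rootB_mem hk hu h1 h2 h3 h4 hv1 hv2 hv3)⟩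

/-- no big lump -/
theorem covK_zero : CovK 0 := by
  intro u _ _ _ _ _
  have h : ∀ v, Cov0 u v := fun v => by
    refine ⟨0, fun _ => 0, fun q => q.elim0, fun _ => 0, fun _ => 0, fun q => q.elim0,
      fun j => j.elim0, fun q => q.elim0, ?_, ?_, ?_⟩
    · simp
    · simp [R₁]
    · simp [R₁]
  exact ⟨fun v _ _ => h v, fun v _ _ _ => Or.inl (h v)⟩

end Crest.Agent.R017.CovChk74
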