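import Mathlib

/-!
# Row 17, hcore : the coverage problem, pure reals (helper499)

Family `1`, `θ = 7/8 + d`. A *column* is an ideal monomial: big lumps `Y` (multiset, with
multiplicity), `t` chunks of small mass `v`, total length `N` (the rest is granular filler).

* `Col0 v Y t N` : columns in which a chunk may be any mass `≤ v` of small lumps (or granular)
* `Col2 v Y t N` : the same plus the columns in which a chunk is used as one smooth piece of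
  length `v` (only for a real small lump of size `v`)
* `Cov C u v` : the big lumps `u : Fin k → ℝ` and a small class of chunk size `v` are covered
-/

set_option autoImplicit false

namespace Crest.Agent.R017.Cov499

/-- margin of the lumps in (T1), (C5) -/
noncomputable def z₀ : ℝ := 1 / 1000

/-- columns, chunks only in `Z` (sup) and `X` (Cauchy) positions -/
inductive Col0 (v : ℝ) : Multiset ℝ → ℕ → ℝ → Prop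
  /-- 777's T6 with two big lumps -/
  | t6 (y₁ y₂ : ℝ) (Z X : Multiset ℝ) (tz tx : ℕ) (N : ℝ)
      (hs : 1 / 4 ≤ y₁ + y₂)
      (h1 : N + (X.sum + tx * v) ≤ 1)
      (h2 : N + 3 / 4 * (Z.sum + tz * v) ≤ 1)
      (h3 : N ≤ 7 / 9 + 2 / 9 * (y₁ + y₂))
      (h4 : y₁ + y₂ + 5 / 2 * (Z.sum + tz * v) ≤ 1)
      (h5 : y₁ + y₂ + Z.sum + X.sum + (tz + tx) * v ≤ N) :
      Col0 v ({y₁, y₂} + Z + X) (tz + tx) N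
  /-- 777's T6 with one big lump in front -/
  | t6s (y₁ : ℝ) (Z X : Multiset ℝ) (tz tx : ℕ) (N : ℝ)
      (h0 : 4 * N ≤ 8 / 3 + 8 / 3 * y₁)
      (h1 : N + (X.sum + tx * v) ≤ 1)
      (h2 : N + 3 / 4 * (Z.sum + tz * v) ≤ 1)
      (h3 : N ≤ 7 / 9 + 2 / 9 * y₁)
      (h4 : y₁ + 5 / 2 * (Z.sum + tz * v) ≤ 1)
      (h5 : y₁ + Z.sum + X.sum + (tz + tx) * v ≤ N) :
      Col0 v ({y₁} + Z + X) (tz + tx) N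
  /-- T1 -/
  | t1 (y₁ y₂ : ℝ) (V : Multiset ℝ) (t : ℕ) (N : ℝ)
      (hs : 1 / 5 ≤ y₁ + y₂)
      (h1 : V.sum + t * v ≤ 1 / 6 - z₀) (hN : N ≤ 5 / 6)
      (h5 : y₁ + y₂ + V.sum + t * v ≤ N) :
      Col0 v ({y₁, y₂} + V) t N
  /-- three big lumps, RG -/
  | t3a (y₁ y₂ y₃ N : ℝ) (h1 : y₁ + y₂ + 2 * y₃ ≤ 1)
      (h2 : 49 * N ≤ 36 + 9 * (y₁ + y₂)) (h6 : 6 * N ≤ 5) (h7 : 80 * N + 30 * y₃ ≤ 73)
      (h8 : 36 * N + 6 * y₃ ≤ 31) (h9 : 17 * N ≤ 13 + 2 * (y₁ + y₂)) (h10 : 15 * N + 3 * y₃ ≤ 13)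
      (h11 : 40 * N ≤ 33) (h5 : y₁ + y₂ + y₃ ≤ N) :
      Col0 v {y₁, y₂, y₃} 0 N
  /-- three big lumps, LV (126's T3L) -/
  | t3l (y₁ y₂ y₃ N : ℝ) (h1 : 29 * (y₁ + y₂ + y₃) + 21 / 2 * y₃ ≤ 22)
      (h2 : 22 * (y₁ + y₂ + y₃) ≤ 15)
      (h3 : 2 * N ≤ 1 + (y₁ + y₂ + y₃)) (h4 : 3 * N + 3 / 4 * y₃ ≤ 2 + (y₁ + y₂ + y₃))
      (h5 : y₁ + y₂ + y₃ ≤ N) :
      Col0 v {y₁, y₂, y₃} 0 N
  /-- three big lumps, LV on two monomials (358's V4), `ξ` = length of `X` -/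
  | v4 (y₁ y₂ y₃ N ξ : ℝ) (o1 : y₂ ≤ y₁) (o2 : y₃ ≤ y₂)
      (h1 : 2 * ξ + (y₁ + y₂ + y₃) ≤ 1) (h2 : N + ξ ≤ 1)
      (h3 : 48 * y₃ + 2 * y₁ + y₂ ≤ 6 + 30 * ξ) (h4 : 3 + 2 * y₃ ≤ 25 * ξ)
      (h6 : 0 ≤ 1 - 3 / 2 * ξ - 9 / 8 * y₃ - (y₁ + y₂))
      (h7 : 4 / 3 * (N - (y₁ + y₂ + y₃) - ξ) ≤
        7 / 9 * (1 - 3 / 2 * ξ - 9 / 8 * y₃ - (y₁ + y₂)))
      (h8 : 2 * y₁ + y₂ + 2 * y₃ + 9 / 2 * (3 / 4 * y₃ - ξ) ≤ 3 / 2 - 5 / 2 * ξ)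
      (h5 : y₁ + y₂ + y₃ ≤ N) :
      Col0 v {y₁, y₂, y₃} 0 N
  /-- 358's V4 with `ξ = (48 y₃ + 2 y₁ + y₂ - 6) / 30` -/
  | t7c (y₁ y₂ y₃ N : ℝ) (h32 : y₃ ≤ y₂) (h21 : y₂ ≤ y₁)
      (n1 : 30 * N + 48 * y₃ + 2 * y₁ + y₂ ≤ 36) (n2 : 48 ≤ 228 * y₃ + 10 * y₁ + 5 * y₂)
      (n3 : 308 ≤ 236 * y₁ + 218 * y₂ + 1029 * y₃) (n4 : 38 * y₁ + 19 * y₂ + 52 * y₃ ≤ 24)
      (n5 : 17 * y₁ + 16 * y₂ + 63 * y₃ ≤ 21) (h5 : y₁ + y₂ + y₃ ≤ N) :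
      Col0 v {y₁, y₂, y₃} 0 N
  /-- five lumps, 720's C5 (one of them `≤ 1/6`, the four others of sum `≤ 16/27`) -/
  | c5g (a : ℝ) (W : Multiset ℝ) (N : ℝ) (ha : a ≤ 1 / 6)
      (hc : Multiset.card W = 4) (h1 : W.sum ≤ 16 / 27) (hN : N ≤ 5 / 6) (h5 : a + W.sum ≤ N) :
      Col0 v ({a} + W) 0 N
  /-- five lumps `≤ 1/6` (49's game, `i_min(4) = 27/8`) -/
  | c5 (a b : ℝ) (W : Multiset ℝ) (N : ℝ) (ha : a ≤ 1 / 6 - z₀)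
      (hW : ∀ y ∈ W, y ≤ b) (hc : Multiset.card W = 4)
      (h1 : W.sum + b / 2 ≤ 2 / 3) (hN : N ≤ 5 / 6) (h5 : a + W.sum ≤ N) :
      Col0 v ({a} + W) 0 N
  /-- 720's C5V : four lumps of sum `≤ 16/27`, the rest (lumps and chunks) `≤ 1/6` -/
  | c5v (V W : Multiset ℝ) (t : ℕ) (N : ℝ) (hc : Multiset.card W = 4)
      (h12 : ∃ x y : ℝ, x ∈ W ∧ y ∈ W.erase x ∧ 1 / 4 ≤ x + y) (hS : W.sum ≤ 16 / 27)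
      (hV : V.sum + t * v ≤ 1 / 6) (hN : N ≤ 5 / 6) (h5 : V.sum + t * v + W.sum ≤ N) :
      Col0 v (V + W) t N
  /-- three big lumps, the full T7 (`SideF_777`), `ξ` = length of `X` -/
  | t7 (y₁ y₂ y₃ N ξ : ℝ) (h31 : y₃ ≤ y₁) (h32 : y₃ ≤ y₂) (hx : N + ξ ≤ 1)
      (w0 : y₁ + y₂ + y₃ + ξ ≤ N)
      (hc : (6 + (y₁ + y₂ + y₃) ≤ 42 * ξ ∧
          8 * (y₁ + y₂ + y₃) + 6 * (N - (y₁ + y₂ + y₃) - ξ) + 12 * ξ + 3 * y₃ ≤ 8) ∨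
        (6 + (y₂ + 2 * y₃) ≤ 42 * ξ ∧
          (y₂ + 2 * y₃) + 3 * (y₁ + y₂ + y₃ + (N - (y₁ + y₂ + y₃) - ξ) + y₃) + 4 * ξ ≤ 4) ∨
        (2 + y₃ ≤ 14 * ξ ∧ 12 * y₃ + 3 * (y₁ + y₂ + (N - (y₁ + y₂ + y₃) - ξ)) ≤ 4))
      (e1 : N - (y₁ + y₂ + y₃) - ξ ≤ 7 / 9 * (1 - 3 / 2 * ξ - 9 / 8 * y₃ - (y₁ + y₂)))
      (e2 : 12 * (N - (y₁ + y₂ + y₃) - ξ) + 4 * (y₁ + y₂) ≤ 8 * (1 - 3 / 2 * ξ - 9 / 8 * y₃))
      (e3 : 2 - 6 * ξ ≤ 3 * (y₁ + y₂)) (h5 : y₁ + y₂ + y₃ ≤ N) :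
      Col0 v {y₁, y₂, y₃} 0 N
  /-- 358's V5, V6, V7, `ξ` = length of `X` -/
  | v5 (y₁ y₂ y₃ N ξ : ℝ) (o1 : y₂ ≤ y₁) (o2 : y₃ ≤ y₂) (h1 : 2 * ξ + (y₁ + y₂ + y₃) ≤ 1)
      (hR : (2 * (y₂ + y₃) ≤ 1 - ξ ∧ 3 + (y₂ + y₃) ≤ 25 * ξ) ∨
        (2 * y₂ + 3 * y₃ ≤ 1 ∧ 6 + 2 * y₂ + 3 * y₃ ≤ 58 * ξ) ∨
        (2 ≤ 15 * ξ ∧ y₂ + y₃ ≤ 3 * ξ ∧ 2 * (y₂ + y₃) ≤ 1 - ξ))
      (hN : N ≤ y₁ + y₂ + y₃ + ξ) (h5 : y₁ + y₂ + y₃ ≤ N) : Col0 v {y₁, y₂, y₃} 0 N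
  /-- 720's C5b : four lumps `≤ 4/25` of sum `≤ 3/5`, the rest (lumps and chunks) `≤ 3/20` -/
  | c5b (V W : Multiset ℝ) (t : ℕ) (N : ℝ) (hc : Multiset.card W = 4)
      (h12 : ∃ x y : ℝ, x ∈ W ∧ y ∈ W.erase x ∧ 1 / 4 ≤ x + y) (hb : ∀ y ∈ W, y ≤ 4 / 25)
      (hS : W.sum ≤ 3 / 5) (hV : V.sum + t * v ≤ 3 / 20) (hN : N ≤ 5 / 6)
      (h5 : V.sum + t * v + W.sum ≤ N) : Col0 v (V + W) t N

/-- columns in which one chunk may be used as a smooth piece of length `v` (a real small lump) -/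
inductive Col2 (v : ℝ) : Multiset ℝ → ℕ → ℝ → Prop
  | of0 (Y : Multiset ℝ) (t : ℕ) (N : ℝ) (h : Col0 v Y t N) : Col2 v Y t N
  /-- T6 with `y₂ = v` -/
  | t6v (y₁ : ℝ) (Z X : Multiset ℝ) (tz tx : ℕ) (N : ℝ)
      (h0 : 4 * N ≤ 8 / 3 + 8 / 3 * (y₁ + v) + (Z.sum + tz * v))
      (h1 : N + (X.sum + tx * v) ≤ 1)
      (h2 : N + 3 / 4 * (Z.sum + tz * v) ≤ 1)
      (h3 : N ≤ 7 / 9 + 2 / 9 * (y₁ + v))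
      (h4 : y₁ + v + 5 / 2 * (Z.sum + tz * v) ≤ 1)
      (h5 : y₁ + Z.sum + X.sum + (tz + tx + 1) * v ≤ N) :
      Col2 v ({y₁} + Z + X) (tz + tx + 1) N
  /-- T1 with `y₂ = v` -/
  | t1v (y₁ : ℝ) (V : Multiset ℝ) (t : ℕ) (N : ℝ) (hs : 1 / 5 ≤ y₁ + v)
      (h1 : V.sum + t * v ≤ 1 / 6 - z₀) (hN : N ≤ 5 / 6)
      (h5 : y₁ + V.sum + (t + 1) * v ≤ N) :
      Col2 v ({y₁} + V) (t + 1) N
  /-- five lumps, `t` of them of length `v` : 720's C5 (`a ≤ 1/6` any of the five) -/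
  | c5w (a : ℝ) (W Y : Multiset ℝ) (t : ℕ) (N : ℝ)
      (hY : Y + Multiset.replicate t v = {a} + W) (hc : Multiset.card W = 4)
      (h12 : ∃ x y : ℝ, x ∈ W ∧ y ∈ W.erase x ∧ 1 / 4 ≤ x + y) (hS : W.sum ≤ 16 / 27)
      (ha : a ≤ 1 / 6) (hN : N ≤ 5 / 6) (h5 : a + W.sum ≤ N) : Col2 v Y t N
  /-- 720's C5V with small lumps of length `v` at any place -/
  | c5vw (V W Y : Multiset ℝ) (t : ℕ) (N : ℝ)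
      (hY : Y + Multiset.replicate t v = V + W) (hc : Multiset.card W = 4)
      (h12 : ∃ x y : ℝ, x ∈ W ∧ y ∈ W.erase x ∧ 1 / 4 ≤ x + y) (hS : W.sum ≤ 16 / 27)
      (hV : V.sum ≤ 1 / 6) (hN : N ≤ 5 / 6) (h5 : V.sum + W.sum ≤ N) : Col2 v Y t N
  /-- 720's C5b with small lumps of length `v` at any place -/
  | c5bw (V W Y : Multiset ℝ) (t : ℕ) (N : ℝ)
      (hY : Y + Multiset.replicate t v = V + W) (hc : Multiset.card W = 4)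
      (h12 : ∃ x y : ℝ, x ∈ W ∧ y ∈ W.erase x ∧ 1 / 4 ≤ x + y) (hb : ∀ y ∈ W, y ≤ 4 / 25)
      (hS : W.sum ≤ 3 / 5) (hV : V.sum ≤ 3 / 20) (hN : N ≤ 5 / 6) (h5 : V.sum + W.sum ≤ N) :
      Col2 v Y t N

/-- the multiset of big lumps with multiplicities `n` -/
def lum {k : ℕ} (u : Fin k → ℝ) (n : Fin k → ℕ) : Multiset ℝ :=
  ∑ j, Multiset.replicate (n j) (u j)

/-- weight left over when the small class is covered as well -/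
noncomputable def R₁ {k M : ℕ} (u : Fin k → ℝ) (v : ℝ) (p : Fin M → ℝ) (t : Fin M → ℕ) : ℝ :=
  3 / 4 * (∑ j, u j) - ∑ q, p q * (1 - 3 / 2 * ((t q : ℝ) * v))

/-- **coverage**, chunk size `v`, trimming allowed -/
def Cov0 {k : ℕ} (u : Fin k → ℝ) (v : ℝ) : Prop :=
  ∃ (M : ℕ) (p : Fin M → ℝ) (n : Fin M → Fin k → ℕ) (t : Fin M → ℕ) (N : Fin M → ℝ),
    (∀ q, 0 ≤ p q) ∧ (∀ j, ∑ q, p q * (n q j : ℝ) = 1 / 2) ∧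
    (∀ q, Col0 v (lum u (n q)) (t q) (N q)) ∧ ∑ q, p q ≤ 1 ∧ 0 ≤ R₁ u v p t ∧
    min (R₁ u v p t) (1 - ∑ q, p q) / 6 ≤ ∑ q, p q * (N q - 5 / 6)

/-- **coverage**, small lumps of size `v`, no trimming -/
def Cov2 {k : ℕ} (u : Fin k → ℝ) (v : ℝ) : Prop :=
  ∃ (M : ℕ) (p : Fin M → ℝ) (n : Fin M → Fin k → ℕ) (t : Fin M → ℕ) (N : Fin M → ℝ),
    (∀ q, 0 ≤ p q) ∧ (∀ j, ∑ q, p q * (n q j : ℝ) = 1 / 2) ∧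
    (∀ q, Col2 v (lum u (n q)) (t q) (N q)) ∧ R₁ u v p t ≤ 1 - ∑ q, p q ∧ 0 ≤ R₁ u v p t ∧
    R₁ u v p t / 6 ≤ ∑ q, p q * (N q - 5 / 6)

/-- no near-equal five lumps (`u` antitone) -/
def NoNE {k : ℕ} (u : Fin k → ℝ) : Prop :=
  ∀ h : 5 ≤ k, u ⟨2, by omega⟩ + u ⟨3, by omega⟩ + 2 * u ⟨4, by omega⟩ ≤ 1

/-- **the statement to be proved for every number `k` of big lumps** -/
def CovK (k : ℕ) : Prop :=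
  ∀ u : Fin k → ℝ, Antitone u → (∀ j, 13 / 100 ≤ u j) → (∀ j, u j ≤ 1) → ∑ j, u j ≤ 4 / 3 →
    NoNE u →
    (∀ v, 7 / 200 ≤ v → v ≤ 7 / 100 → Cov0 u v) ∧
    (∀ v, 7 / 100 ≤ v → v ≤ 13 / 100 → (∑ j, u j) + v ≤ 4 / 3 → Cov0 u v ∨ Cov2 u v)

theorem Col0.zero {v : ℝ} (hv : 0 ≤ v) {Y : Multiset ℝ} {t : ℕ} {N : ℝ} (h : Col0 v Y t N) :
    Col0 v Y 0 N := by
  cases h with
  | t6 y₁ y₂ Z X tz tx N hs h1 h2 h3 h4 h5 =>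
    have e1 : 0 ≤ (tz : ℝ) * v := by positivity
    have e2 : 0 ≤ (tx : ℝ) * v := by positivity
    exact .t6 y₁ y₂ Z X 0 0 N hs (by push_cast; linarith) (by push_cast; linarith) h3
      (by push_cast; linarith) (by push_cast; linarith)
  | t6s y₁ Z X tz tx N hs h1 h2 h3 h4 h5 =>
    have e1 : 0 ≤ (tz : ℝ) * v := by positivity
    have e2 : 0 ≤ (tx : ℝ) * v := by positivity
    exact .t6s y₁ Z X 0 0 N hs (by push_cast; linarith) (by push_cast; linarith) h3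
      (by push_cast; linarith) (by push_cast; linarith)
  | t1 y₁ y₂ V t N hs h1 hN h5 =>
    have e1 : 0 ≤ (t : ℝ) * v := by positivity
    exact .t1 y₁ y₂ V 0 N hs (by push_cast; linarith) hN (by push_cast; linarith)
  | t3a y₁ y₂ y₃ N h1 h2 h6 h7 h8 h9 h10 h11 h5 =>
    exact .t3a y₁ y₂ y₃ N h1 h2 h6 h7 h8 h9 h10 h11 h5
  | t3l y₁ y₂ y₃ N h1 h2 h3 h4 h5 => exact .t3l y₁ y₂ y₃ N h1 h2 h3 h4 h5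
  | v4 y₁ y₂ y₃ N ξ o1 o2 h1 h2 h3 h4 h6 h7 h8 h5 =>
    exact .v4 y₁ y₂ y₃ N ξ o1 o2 h1 h2 h3 h4 h6 h7 h8 h5
  | t7c y₁ y₂ y₃ N h32 h21 n1 n2 n3 n4 n5 h5 => exact .t7c y₁ y₂ y₃ N h32 h21 n1 n2 n3 n4 n5 h5
  | c5g a W N ha hc h1 hN h5 => exact .c5g a W N ha hc h1 hN h5
  | c5 a b W N ha hW hc h1 hN h5 => exact .c5 a b W N ha hW hc h1 hN h5
  | c5v V W t N hc h12 hS hV hN h5 =>
    have e1 : 0 ≤ (t : ℝ) * v := by positivity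
    exact .c5v V W 0 N hc h12 hS (by push_cast; linarith) hN (by push_cast; linarith)
  | t7 y₁ y₂ y₃ N ξ h31 h32 hx w0 hc e1 e2 e3 h5 =>
    exact .t7 y₁ y₂ y₃ N ξ h31 h32 hx w0 hc e1 e2 e3 h5
  | v5 y₁ y₂ y₃ N ξ o1 o2 h1 hR hN h5 => exact .v5 y₁ y₂ y₃ N ξ o1 o2 h1 hR hN h5
  | c5b V W t N hc h12 hb hS hV hN h5 =>
    have e1 : 0 ≤ (t : ℝ) * v := by positivity
    exact .c5b V W 0 N hc h12 hb hS (by push_cast; linarith) hN (by push_cast; linarith)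

end Crest.Agent.R017.Cov499
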