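import Crest.Agent.R017.CovGlue_741
import Crest.Agent.R017.C5_720

/-!
# Row 17, section D: boxes covered directly by two real columns (helper499)

* `lumS u s` : the lumps of a finset
* `covM_of_two` : two complementary columns of capacity `5/6` cover the box
* `C5Col` : the input (720's `C5V`), `c5col` : it holds
* `direct8` : `W₁, W₂` four lumps each, the rest in `V₁, V₂` of total `≤ 1/6`
* `direct9` : nine lumps `≥ 13/100`, the four largest `≤ 16/27`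
* `direct10` : ten lumps `≥ 13/100`
-/

set_option autoImplicit false

noncomputable section

namespace Crest.Agent.R017.CovDir499

open Crest.Agent.R017.ER911 Crest.Agent.R017.Hull741 Crest.Agent.R017.CovM59
  Crest.Agent.R017.Cov499 Crest.Agent.R017.CovGlue741 Crest.Agent.R017.ExpC702

variable {rc : EF} {e₀ t : ℝ} {N : ℕ}

/-- the lumps of a finset -/
def lumS (u : Fin N → ℝ) (s : Finset (Fin N)) : Multiset ℝ := ∑ j ∈ s, {u j}

theorem lumS_sum (u : Fin N → ℝ) (s : Finset (Fin N)) : (lumS u s).sum = ∑ j ∈ s, u j := by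
  unfold lumS
  rw [← Multiset.coe_sumAddMonoidHom, map_sum]
  exact Finset.sum_congr rfl fun j _ => by simp

theorem lumS_card (u : Fin N → ℝ) (s : Finset (Fin N)) : Multiset.card (lumS u s) = s.card := by
  unfold lumS
  rw [Multiset.card_sum]
  simp

theorem mem_lumS {u : Fin N → ℝ} {s : Finset (Fin N)} {y : ℝ} (h : y ∈ lumS u s) :
    ∃ j ∈ s, y = u j := by
  obtain ⟨j, hj, hy⟩ := Multiset.mem_sum.1 h
  exact ⟨j, hj, Multiset.mem_singleton.1 hy⟩

theorem lumS_union (u : Fin N → ℝ) {s s' : Finset (Fin N)} (h : Disjoint s s') :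
    lumS u (s ∪ s') = lumS u s + lumS u s' := Finset.sum_union h

/-- indicator -/
def ind (s : Finset (Fin N)) (j : Fin N) : ℕ := if j ∈ s then 1 else 0

theorem lum_ind (u : Fin N → ℝ) (s : Finset (Fin N)) : lum u (ind s) = lumS u s := by
  unfold lum lumS ind
  rw [← Finset.sum_filter_add_sum_filter_not Finset.univ (· ∈ s)]
  have h1 : ∑ j ∈ Finset.univ.filter (fun j => ¬ j ∈ s),
      Multiset.replicate (if j ∈ s then 1 else 0) (u j) = 0 :=
    Finset.sum_eq_zero fun j hj => by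
      rw [if_neg (Finset.mem_filter.1 hj).2, Multiset.replicate_zero]
  have h2 : Finset.univ.filter (fun j => j ∈ s) = s := by ext; simp
  rw [h1, add_zero, h2]
  exact Finset.sum_congr rfl fun j hj => by rw [if_pos hj, Multiset.replicate_one]

/-- **two complementary columns of capacity `5/6` cover the box** -/
theorem covM_of_two (ht : 0 ≤ t) (ht3 : t ≤ 1 / 3) {u : Fin N → ℝ} (hs : ∑ j, u j ≤ 4 / 3)
    (s s' : Finset (Fin N)) (hd : Disjoint s s') (hun : s ∪ s' = Finset.univ)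
    (h1 : MCol rc e₀ (lumS u s) (5 / 6)) (h2 : MCol rc e₀ (lumS u s') (5 / 6))
    (hl1 : ∑ j ∈ s, u j ≤ 5 / 6) (hl2 : ∑ j ∈ s', u j ≤ 5 / 6) :
    CovM rc e₀ t u (fun _ => 1) := by
  classical
  have hsum : ∑ j ∈ s, u j + ∑ j ∈ s', u j = ∑ j, u j := by
    rw [← hun, Finset.sum_union hd]
  set S1 := ∑ j ∈ s, u j with hS1
  set S2 := ∑ j ∈ s', u j with hS2
  set S := ∑ j, u j with hS
  -- the masses
  obtain ⟨M1, M2, A1, A2, hM1, hM2, hA1, hA2, hM, hA, hc1, hc2⟩ : ∃ M1 M2 A1 A2 : ℝ,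
      0 ≤ M1 ∧ 0 ≤ M2 ∧ 0 ≤ A1 ∧ 0 ≤ A2 ∧ M1 + M2 = 4 / 3 - S ∧ A1 + A2 = 1 / 3 - t ∧
      S1 + M1 + A1 ≤ 5 / 6 ∧ S2 + M2 + A2 ≤ 5 / 6 := by
    rcases le_total (5 / 6 - S1) (4 / 3 - S) with h | h
    · exact ⟨5 / 6 - S1, 4 / 3 - S - (5 / 6 - S1), 0, 1 / 3 - t, by linarith, by linarith, le_rfl,
        by linarith, by ring, by ring, by linarith, by linarith⟩
    · rcases le_total (5 / 6 - S1 - (4 / 3 - S)) (1 / 3 - t) with h' | h'
      · exact ⟨4 / 3 - S, 0, 5 / 6 - S1 - (4 / 3 - S), 1 / 3 - t - (5 / 6 - S1 - (4 / 3 - S)),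
          by linarith, le_rfl, by linarith, by linarith, by ring, by ring, by linarith,
          by linarith⟩
      · exact ⟨4 / 3 - S, 0, 1 / 3 - t, 0, by linarith, le_rfl, by linarith, le_rfl, by ring,
          by ring, by linarith, by linarith⟩
  have c1 : Col rc e₀ u (ind s) M1 A1 :=
    colM hM1 hA1 (by rw [lum_ind]; exact h1) (by rw [lum_ind, lumS_sum]; exact hc1)
  have c2 : Col rc e₀ u (ind s') M2 A2 :=
    colM hM2 hA2 (by rw [lum_ind]; exact h2) (by rw [lum_ind, lumS_sum]; exact hc2)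
  have p1 := subset_hull (Id := Col rc e₀ u) c1
  have p2 := subset_hull (Id := Col rc e₀ u) c2
  have hmem := (convex_hull (Col rc e₀ u)) p1 p2 (a := 1 / 2) (b := 1 / 2) (by norm_num)
    (by norm_num) (by norm_num)
  unfold CovM
  have heq : ((1 / 2 : ℝ) • pt (ind s) M1 A1 + (1 / 2 : ℝ) • pt (ind s') M2 A2 : Mon N) =
      ((fun _ => 1 / 2), (4 / 3 - ∑ j, 1 * u j) / 2, 1 / 6 - t / 2) := by
    refine Prod.ext ?_ (Prod.ext ?_ ?_)
    · funext j
      show 1 / 2 * ((ind s j : ℕ) : ℝ) + 1 / 2 * ((ind s' j : ℕ) : ℝ) = 1 / 2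
      have hj : j ∈ s ∪ s' := by rw [hun]; exact Finset.mem_univ j
      rcases Finset.mem_union.1 hj with h | h
      · have h' : j ∉ s' := Finset.disjoint_left.1 hd h
        unfold ind
        rw [if_pos h, if_neg h']; norm_num
      · have h' : j ∉ s := Finset.disjoint_right.1 hd h
        unfold ind
        rw [if_pos h, if_neg h']; norm_num
    · show 1 / 2 * M1 + 1 / 2 * M2 = (4 / 3 - ∑ j, 1 * u j) / 2
      simp only [one_mul]
      rw [← hS]
      linarith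
    · show 1 / 2 * A1 + 1 / 2 * A2 = 1 / 6 - t / 2
      linarith
  rw [← heq]
  exact hmem

/-- the input: 720's `C5V` at family `1` -/
def C5Col (rc : EF) (e₀ : ℝ) : Prop :=
  ∀ V W : Multiset ℝ, Multiset.card W = 4 → (∀ y ∈ V, 0 ≤ y) → (∀ y ∈ W, 13 / 100 ≤ y) →
    V.sum ≤ 1 / 6 → W.sum ≤ 16 / 27 → MCol rc e₀ (V + W) (5 / 6)

/-- the input holds -/
theorem c5col {d : ℝ} {r s : EF} (R : ExpRules (7 / 8 + d) r s) (Lv : ExpLv (7 / 8 + d) r)
    (C : ExpC r rc) (hd : 0 ≤ d) (he : d ≤ e₀) : C5Col rc e₀ := by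
  intro V W hc hV hW hVs hWs f g hf hg hN
  obtain ⟨b₁, b₂, b₃, b₄, rfl, h43, h32, h21⟩ := C5_720.sorted4 W hc
  have hsum : (b₄ ::ₘ b₃ ::ₘ {b₁, b₂} : Multiset ℝ).sum = b₁ + b₂ + b₃ + b₄ := by
    rw [Multiset.sum_cons, C5_720.sum_tri]; ring
  have hb4 : 13 / 100 ≤ b₄ := hW b₄ (by simp)
  rw [Multiset.sum_add, hsum] at hN ⊢
  rw [hsum] at hWs
  have hok : Ok (V + (b₄ ::ₘ b₃ ::ₘ {b₁, b₂})) f g := by
    refine ⟨fun y hy => ?_, hf, hg⟩
    rcases Multiset.mem_add.1 hy with h | h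
    · exact hV y h
    · exact le_trans (by norm_num) (hW y h)
  have hEE : (1 : ℝ) ≤ 2 * (b₂ + b₃) + 5 * b₄ ∨ 9 * b₃ + 6 * b₄ ≤ 2 * 1 := by
    rcases le_total (9 * b₃ + 6 * b₄) (2 * 1) with h | h
    · exact Or.inr h
    · exact Or.inl (by linarith)
  have key := C5_720.C5V R Lv hd (κ := 1) (b₁ := b₁) (b₂ := b₂) (b₃ := b₃) (b₄ := b₄) (m := f)
    (a := g) hV (by linarith) (by linarith) h43 h32 h21 (by linarith) (by linarith)
    (by linarith) (by linarith) hEE (by linarith) hf hg (by linarith)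
  refine C.le 1 _ f g _ zero_le_one hok fun κ' h0 h1 => ?_
  have := key κ' h0 h1
  linarith

/-- four lumps each on the two sides, the rest of total `≤ 1/6` on each side -/
theorem direct8 (H : C5Col rc e₀) (ht : 0 ≤ t) (ht3 : t ≤ 1 / 3) {u : Fin N → ℝ}
    (hu : ∀ j, 0 < u j) (hs : ∑ j, u j ≤ 4 / 3) (V₁ W₁ V₂ W₂ : Finset (Fin N))
    (d1 : Disjoint V₁ W₁) (d2 : Disjoint V₂ W₂) (hd : Disjoint (V₁ ∪ W₁) (V₂ ∪ W₂))
    (hun : (V₁ ∪ W₁) ∪ (V₂ ∪ W₂) = Finset.univ) (c1 : W₁.card = 4) (c2 : W₂.card = 4)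
    (b1 : ∀ j ∈ W₁, 13 / 100 ≤ u j) (b2 : ∀ j ∈ W₂, 13 / 100 ≤ u j)
    (v1 : ∑ j ∈ V₁, u j ≤ 1 / 6) (v2 : ∑ j ∈ V₂, u j ≤ 1 / 6)
    (w1 : ∑ j ∈ W₁, u j ≤ 16 / 27) (w2 : ∑ j ∈ W₂, u j ≤ 16 / 27) :
    CovM rc e₀ t u (fun _ => 1) := by
  have side : ∀ V W : Finset (Fin N), Disjoint V W → W.card = 4 → (∀ j ∈ W, 13 / 100 ≤ u j) →
      ∑ j ∈ V, u j ≤ 1 / 6 → ∑ j ∈ W, u j ≤ 16 / 27 → MCol rc e₀ (lumS u (V ∪ W)) (5 / 6) := by
    intro V W hd hc hb hv hw
    rw [lumS_union u hd]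
    refine H _ _ (by rw [lumS_card, hc]) (fun y hy => ?_) (fun y hy => ?_)
      (by rw [lumS_sum]; exact hv) (by rw [lumS_sum]; exact hw)
    · obtain ⟨j, _, rfl⟩ := mem_lumS hy
      exact (hu j).le
    · obtain ⟨j, hj, rfl⟩ := mem_lumS hy
      exact hb j hj
  refine covM_of_two ht ht3 hs (V₁ ∪ W₁) (V₂ ∪ W₂) hd hun (side _ _ d1 c1 b1 v1 w1)
    (side _ _ d2 c2 b2 v2 w2) ?_ ?_
  · rw [Finset.sum_union d1]; linarith
  · rw [Finset.sum_union d2]; linarith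

/-- **nine lumps `≥ 13/100`, the four largest of total `≤ 16/27`** -/
theorem direct9 (H : C5Col rc e₀) (ht : 0 ≤ t) (ht3 : t ≤ 1 / 3) {u : Fin N → ℝ}
    (hu : ∀ j, 0 < u j) (hs : ∑ j, u j ≤ 4 / 3) (ι : Fin 9 → Fin N) (hι : Function.Injective ι)
    (ha : Antitone (u ∘ ι)) (hb : ∀ i, 13 / 100 ≤ u (ι i))
    (h4 : u (ι 0) + u (ι 1) + u (ι 2) + u (ι 3) ≤ 16 / 27) :
    CovM rc e₀ t u (fun _ => 1) := by
  classical
  set W₁ : Finset (Fin N) := ({0, 2, 4, 6} : Finset (Fin 9)).image ι with hW₁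
  set W₂ : Finset (Fin N) := ({1, 3, 5, 7} : Finset (Fin 9)).image ι with hW₂
  set V₁ : Finset (Fin N) := ({8} : Finset (Fin 9)).image ι with hV₁
  set V₂ : Finset (Fin N) := Finset.univ \ (V₁ ∪ W₁ ∪ W₂) with hV₂
  have im : ∀ s : Finset (Fin 9), ∑ j ∈ s.image ι, u j = ∑ i ∈ s, u (ι i) := fun s =>
    Finset.sum_image fun a _ b _ h => hι h
  have dd : ∀ s s' : Finset (Fin 9), Disjoint s s' → Disjoint (s.image ι) (s'.image ι) :=
    fun s s' h => (Finset.disjoint_image hι).2 h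
  have d11 : Disjoint V₁ W₁ := dd _ _ (by decide)
  have d12 : Disjoint V₁ W₂ := dd _ _ (by decide)
  have dW : Disjoint W₁ W₂ := dd _ _ (by decide)
  have hsub : ∀ s, s ⊆ V₁ ∪ W₁ ∪ W₂ → Disjoint s V₂ := fun s hs' =>
    Finset.disjoint_sdiff.mono_left hs'
  have s1 : V₁ ⊆ V₁ ∪ W₁ ∪ W₂ := fun x hx => by simp [hx]
  have s2 : W₁ ⊆ V₁ ∪ W₁ ∪ W₂ := fun x hx => by simp [hx]
  have s3 : W₂ ⊆ V₁ ∪ W₁ ∪ W₂ := fun x hx => by simp [hx]
  have hV1 : ∑ j ∈ V₁, u j = u (ι 8) := by rw [im]; simp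
  have hW1 : ∑ j ∈ W₁, u j = u (ι 0) + u (ι 2) + u (ι 4) + u (ι 6) := by
    rw [im, Finset.sum_insert (by decide), Finset.sum_insert (by decide),
      Finset.sum_insert (by decide), Finset.sum_singleton]; ring
  have hW2 : ∑ j ∈ W₂, u j = u (ι 1) + u (ι 3) + u (ι 5) + u (ι 7) := by
    rw [im, Finset.sum_insert (by decide), Finset.sum_insert (by decide),
      Finset.sum_insert (by decide), Finset.sum_singleton]; ring
  have htot : ∑ j ∈ V₂, u j + (∑ j ∈ V₁, u j + ∑ j ∈ W₁, u j + ∑ j ∈ W₂, u j) = ∑ j, u j := by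
    have h1 := Finset.sum_sdiff (Finset.subset_univ (V₁ ∪ W₁ ∪ W₂)) (f := u)
    rw [← hV₂, Finset.sum_union (Finset.disjoint_union_left.2 ⟨d12, dW⟩),
      Finset.sum_union d11] at h1
    exact h1
  have an : ∀ i j : Fin 9, i ≤ j → u (ι j) ≤ u (ι i) := fun i j h => ha h
  have a01 := an 0 1 (by decide)
  have a12 := an 1 2 (by decide)
  have a23 := an 2 3 (by decide)
  have a34 := an 3 4 (by decide)
  have a45 := an 4 5 (by decide)
  have a56 := an 5 6 (by decide)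
  have a67 := an 6 7 (by decide)
  have a78 := an 7 8 (by decide)
  have b8 := hb 8
  have hV20 : 0 ≤ ∑ j ∈ V₂, u j := Finset.sum_nonneg fun j _ => (hu j).le
  rw [hV1, hW1, hW2] at htot
  have c4 : ∀ s : Finset (Fin 9), (s.image ι).card = s.card := fun s =>
    Finset.card_image_of_injective s hι
  refine direct8 H ht ht3 hu hs V₁ W₁ V₂ W₂ d11 (hsub _ s3).symm ?_ ?_
    (by rw [hW₁, c4]; decide) (by rw [hW₂, c4]; decide) ?_ ?_ (by rw [hV1]; linarith)
    (by linarith) (by rw [hW1]; linarith) (by rw [hW2]; linarith)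
  · rw [Finset.disjoint_union_left, Finset.disjoint_union_right, Finset.disjoint_union_right]
    exact ⟨⟨hsub _ s1, d12⟩, hsub _ s2, dW⟩
  · ext x
    simp only [hV₂, Finset.mem_union, Finset.mem_sdiff, Finset.mem_univ, true_and, iff_true]
    tauto
  · intro j hj
    obtain ⟨i, _, rfl⟩ := Finset.mem_image.1 hj
    exact hb i
  · intro j hj
    obtain ⟨i, _, rfl⟩ := Finset.mem_image.1 hj
    exact hb i

/-- **ten lumps `≥ 13/100`** -/
theorem direct10 (H : C5Col rc e₀) (ht : 0 ≤ t) (ht3 : t ≤ 1 / 3) {u : Fin N → ℝ}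
    (hu : ∀ j, 0 < u j) (hs : ∑ j, u j ≤ 4 / 3) {k : ℕ} (hk : 10 ≤ k) (ι : Fin k → Fin N)
    (hι : Function.Injective ι) (ha : Antitone (u ∘ ι)) (hb : ∀ i, 13 / 100 ≤ u (ι i)) :
    CovM rc e₀ t u (fun _ => 1) := by
  classical
  let e : Fin 10 → Fin k := Fin.castLE hk
  have he : Function.Injective e := Fin.castLE_injective hk
  have hm : Monotone e := fun a b h => by
    show (e a).val ≤ (e b).val
    exact h
  let e' : Fin 9 → Fin 10 := Fin.castLE (by norm_num)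
  have he' : Function.Injective e' := Fin.castLE_injective _
  have hm' : Monotone e' := fun a b h => by
    show (e' a).val ≤ (e' b).val
    exact h
  have hsum : ∑ i : Fin 10, u (ι (e i)) ≤ 4 / 3 := by
    have h1 : ∑ i : Fin 10, u (ι (e i)) =
        ∑ j ∈ (Finset.univ : Finset (Fin 10)).image (ι ∘ e), u j :=
      (Finset.sum_image fun a _ b _ h => (hι.comp he) h).symm
    rw [h1]
    exact (Finset.sum_le_sum_of_subset_of_nonneg (Finset.subset_univ _)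
      fun j _ _ => (hu j).le).trans hs
  have hsum' : u (ι (e 0)) + u (ι (e 1)) + u (ι (e 2)) + u (ι (e 3)) + u (ι (e 4)) +
      u (ι (e 5)) + u (ι (e 6)) + u (ι (e 7)) + u (ι (e 8)) + u (ι (e 9)) ≤ 4 / 3 := by
    rw [Fin.sum_univ_castSucc, Fin.sum_univ_castSucc, Fin.sum_univ_eight] at hsum
    exact hsum
  have b4 := hb (e 4)
  have b5 := hb (e 5)
  have b6 := hb (e 6)
  have b7 := hb (e 7)
  have b8 := hb (e 8)
  have b9 := hb (e 9)
  refine direct9 H ht ht3 hu hs (ι ∘ e ∘ e') (hι.comp (he.comp he'))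
    (fun a b h => ha (hm (hm' h))) (fun i => hb _) ?_
  show u (ι (e 0)) + u (ι (e 1)) + u (ι (e 2)) + u (ι (e 3)) ≤ 16 / 27
  linarith

end Crest.Agent.R017.CovDir499
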