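import Crest.Agent.R017.CovNine_358
import Crest.Agent.R017.C5Q_720

/-!
# Row 17, T.2 : boxes with eight lumps `≥ 13/100` (helper301)

`Σ P(u_j) > 1` means `Reg8` : four lumps `≥ 4/27` and none `> 1/6`, or a lump `≥ 2/9`, or a lump
`≥ 1/6` and three lumps `≥ 4/27`. There the box is a disjoint union of two columns, all the small
lumps together in one block `V`. Nine partitions are enough.

* `covM_of_part2` : a partition of the box in two sides of lengths `L₁ + L₂ ≥ 5/3`
* `t6g`, `c5g` : the columns (T6) and (C5)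
* `covM_eight` : the boxes in `Reg8`; `reg8_of_sumP`
-/

set_option autoImplicit false

noncomputable section

namespace Crest.Agent.R017.CovEight301

open Crest.Agent.R017.ER911 Crest.Agent.R017.Hull741 Crest.Agent.R017.CovM59
  Crest.Agent.R017.CovGlue741 Crest.Agent.R017.Cov499 Crest.Agent.R017.HC777
  Crest.Agent.R017.ExpC702 Crest.Agent.R017.CovNine358

variable {d : ℝ} {r s rc : EF}

/-- **a partition of the box in two sides of lengths `L₁ + L₂ ≥ 5/3`** -/
theorem covM_of_part2 {e₀ t : ℝ} (ht : 0 ≤ t) (ht3 : t ≤ 1 / 3) {k N : ℕ} {u : Fin N → ℝ}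
    (hs : ∑ j, u j ≤ 4 / 3) (ι : Fin k ↪ Fin N) (B : Finset (Fin k)) {L₁ L₂ : ℝ}
    (hL : 5 / 3 ≤ L₁ + L₂)
    (h1 : MCol rc e₀ (B.val.map fun i => u (ι i)) L₁)
    (l1 : (B.val.map fun i => u (ι i)).sum ≤ L₁)
    (h2 : MCol rc e₀ ((Bᶜ.val.map fun i => u (ι i)) + rest u ι) L₂)
    (l2 : ((Bᶜ.val.map fun i => u (ι i)) + rest u ι).sum ≤ L₂) :
    CovM rc e₀ t u (fun _ => 1) := by
  classical
  have e1 : lum u (fun j => if j ∈ B.map ι then 1 else 0) = B.val.map fun i => u (ι i) := by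
    rw [lum_ind, Finset.map_val, Multiset.map_map]
    rfl
  have e2 : lum u (fun j => if j ∈ (B.map ι)ᶜ then 1 else 0) =
      (Bᶜ.val.map fun i => u (ι i)) + rest u ι := by
    rw [lum_ind]
    have hd : Disjoint (Bᶜ.map ι) (Finset.univ \ Finset.univ.map ι) :=
      Finset.disjoint_of_subset_left (Finset.map_subset_map.2 (Finset.subset_univ _))
        Finset.disjoint_sdiff
    have he : (B.map ι)ᶜ = (Bᶜ.map ι).disjUnion (Finset.univ \ Finset.univ.map ι) hd := by
      ext j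
      simp only [Finset.mem_compl, Finset.disjUnion_eq_union, Finset.mem_union, Finset.mem_map,
        Finset.mem_sdiff, Finset.mem_univ, true_and]
      constructor
      · intro h
        by_cases hj : ∃ i, ι i = j
        · obtain ⟨i, hi⟩ := hj
          exact Or.inl ⟨i, fun hi' => h ⟨i, hi', hi⟩, hi⟩
        · exact Or.inr hj
      · rintro (⟨i, hi, rfl⟩ | h)
        · rintro ⟨i', hi', h'⟩
          exact hi (ι.injective h' ▸ hi')
        · rintro ⟨i', -, h'⟩
          exact h ⟨i', h'⟩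
    rw [he, Finset.disjUnion_val, Multiset.map_add, Finset.map_val, Multiset.map_map]
    rfl
  refine covM_of_cols ht ht3 hs (M := 2) ![1 / 2, 1 / 2] ?_ ?_
    ![fun j => if j ∈ B.map ι then 1 else 0, fun j => if j ∈ (B.map ι)ᶜ then 1 else 0] ?_
    ![L₁, L₂] ?_ ?_ ?_
  · intro q
    fin_cases q <;> norm_num
  · simp [Fin.sum_univ_two]
    norm_num
  · intro j
    simp only [Fin.sum_univ_two, Matrix.cons_val_zero, Matrix.cons_val_one, Finset.mem_compl]
    by_cases h : j ∈ B.map ι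
    · simp [h]
    · simp [h]
  · intro q
    fin_cases q
    · show MCol rc e₀ (lum u fun j => if j ∈ B.map ι then 1 else 0) L₁
      rw [e1]; exact h1
    · show MCol rc e₀ (lum u fun j => if j ∈ (B.map ι)ᶜ then 1 else 0) L₂
      rw [e2]; exact h2
  · intro q
    fin_cases q
    · show (lum u fun j => if j ∈ B.map ι then 1 else 0).sum ≤ L₁
      rw [e1]; exact l1
    · show (lum u fun j => if j ∈ (B.map ι)ᶜ then 1 else 0).sum ≤ L₂
      rw [e2]; exact l2
  · simp only [Fin.sum_univ_two, Matrix.cons_val_zero, Matrix.cons_val_one]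
    linarith

/-! ### the columns -/

/-- **(T6)** `{y₁, y₂ | Z | X}` of any length `N` -/
theorem t6g (C : ExpC r rc) (R : ExpRules (7 / 8 + d) r s) (hd : 0 ≤ d) {e₀ : ℝ}
    (he : 10 / 9 * d ≤ e₀) {y₁ y₂ z x N : ℝ} {Z X Y : Multiset ℝ} (h1 : 0 ≤ y₁)
    (h2 : 0 ≤ y₂) (hZ : ∀ y ∈ Z, 0 ≤ y) (hX : ∀ y ∈ X, 0 ≤ y) (hz : Z.sum = z) (hx : X.sum = x)
    (hY : Y = X + (Z + {y₁, y₂})) (hs : 1 / 4 ≤ y₁ + y₂) (hX1 : N + x ≤ 1)
    (hZ1 : N + 3 / 4 * z ≤ 1) (h79 : N ≤ 7 / 9 + 2 / 9 * (y₁ + y₂))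
    (h52 : y₁ + y₂ + 5 / 2 * z ≤ 1) (hM : y₁ + y₂ + z + x ≤ N) :
    MCol rc e₀ Y N ∧ Y.sum ≤ N := by
  subst hY
  have hsum : (X + (Z + {y₁, y₂}) : Multiset ℝ).sum = x + z + (y₁ + y₂) := by
    rw [Multiset.sum_add, Multiset.sum_add, sum_pair, hz, hx]; ring
  have hz0 : 0 ≤ z := hz ▸ Multiset.sum_nonneg hZ
  refine ⟨mcol_of C (fun y hy => ?_) fun f g hf hg hN => ?_, by rw [hsum]; linarith⟩
  · rcases Multiset.mem_add.1 hy with h | h
    · exact hX y h
    · rcases Multiset.mem_add.1 h with h | h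
      · exact hZ y h
      · simp only [Multiset.insert_eq_cons, Multiset.mem_cons, Multiset.mem_singleton] at h
        rcases h with rfl | rfl <;> assumption
  · rw [hsum] at hN
    exact (cpl_t6 R hd h1 h2 hZ hX hf hg (by rw [hz, hx]; linarith) (by rw [hz, hx]; linarith)
      (by rw [hz, hx]; linarith) (by rw [hz]; linarith) (by rw [hz, hx]; linarith)).mono he

/-- **(C5)** `V | Q, b₁, b₂, b₃` of length `5/6` -/
theorem c5g (C : ExpC r rc) (R : ExpRules (7 / 8 + d) r s) (Lv : ExpLv (7 / 8 + d) r)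
    (hd : 0 ≤ d) {e₀ : ℝ} (he : 10 / 9 * d ≤ e₀) {b₁ b₂ b₃ q v : ℝ} {V Q Y : Multiset ℝ}
    (h3 : 13 / 100 ≤ b₃) (hV : ∀ y ∈ V, 0 ≤ y) (hQ : ∀ y ∈ Q, 0 ≤ y) (hv : V.sum = v)
    (hq : Q.sum = q) (hY : Y = V + (Q + (b₃ ::ₘ {b₁, b₂}))) (hv6 : v ≤ 1 / 6) (h43 : q ≤ b₃)
    (h32 : b₃ ≤ b₂) (h21 : b₂ ≤ b₁) (hS : b₁ + b₂ + b₃ + q ≤ 16 / 27)
    (hM : b₁ + b₂ + b₃ + q + v ≤ 5 / 6) : MCol rc e₀ Y (5 / 6) ∧ Y.sum ≤ 5 / 6 := by
  subst hY
  have hsum : (V + (Q + (b₃ ::ₘ {b₁, b₂})) : Multiset ℝ).sum = v + (b₁ + b₂ + b₃ + q) := by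
    rw [Multiset.sum_add, Multiset.sum_add, Multiset.sum_cons, sum_pair, hv, hq]; ring
  have hv0 : 0 ≤ v := hv ▸ Multiset.sum_nonneg hV
  have hq0 : 0 ≤ q := hq ▸ Multiset.sum_nonneg hQ
  refine ⟨mcol_of C (fun y hy => ?_) fun f g hf hg hN => ?_, by rw [hsum]; linarith⟩
  · rcases Multiset.mem_add.1 hy with h | h
    · exact hV y h
    · rcases Multiset.mem_add.1 h with h | h
      · exact hQ y h
      · simp only [Multiset.insert_eq_cons, Multiset.mem_cons, Multiset.mem_singleton] at h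
        rcases h with rfl | rfl | rfl <;> linarith
  · rw [hsum] at hN
    intro κ' h0 h1
    have := C5_720.C5Q_lin R Lv hd (κ := 1) (V := V) (Q := Q) (b₁ := b₁) (b₂ := b₂) (b₃ := b₃)
      (m := f) (a := g) hV (by rw [hv]; linarith) hQ (by rw [hq]; exact h43) h32 h21
      (by linarith) (by rw [hq]; linarith) hf hg (by rw [hq, hv]; linarith) κ' h0 h1
    rw [hsum]
    rw [hv, hq] at this
    linarith

theorem nn1 {x : ℝ} (h : 13 / 100 ≤ x) : ∀ y ∈ ({x} : Multiset ℝ), 0 ≤ y := by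
  intro y hy
  rw [Multiset.mem_singleton.1 hy]
  linarith

theorem nn1V {x : ℝ} (h : 13 / 100 ≤ x) {V : Multiset ℝ} (hV : ∀ y ∈ V, 0 ≤ y) :
    ∀ y ∈ ({x} + V : Multiset ℝ), 0 ≤ y := by
  intro y hy
  rcases Multiset.mem_add.1 hy with h' | h'
  · exact nn1 h y h'
  · exact hV y h'

/-- the region `Σ P > 1` for eight lumps -/
def Reg8 (w : Fin 8 → ℝ) : Prop :=
  (w 0 ≤ 1 / 6 ∧ 4 / 27 ≤ w 3) ∨ 2 / 9 ≤ w 0 ∨ (1 / 6 ≤ w 0 ∧ w 0 ≤ 2 / 9 ∧ 4 / 27 ≤ w 2)

/-- **`Σ P > 1` for eight lumps** -/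
theorem reg8_of_sumP {P : ℝ → ℝ} (h1 : ∀ u, u ≤ 4 / 27 → P u ≤ 1 / 9)
    (h2 : ∀ u, u ≤ 1 / 6 → P u ≤ 1 / 7) (h3 : ∀ u, u ≤ 2 / 9 → P u ≤ 1 / 6) {w : Fin 8 → ℝ}
    (hw : Antitone w) (hP : 1 < ∑ j, P (w j)) : Reg8 w := by
  by_contra hc
  unfold Reg8 at hc
  push Not at hc
  obtain ⟨c1, c2, c3⟩ := hc
  rw [Fin.sum_univ_eight] at hP
  have a : ∀ i j : Fin 8, i ≤ j → w j ≤ w i := fun i j h => hw h
  rcases le_or_gt (w 0) (1 / 6) with h | h
  · have k3 := c1 h
    have q : ∀ j : Fin 8, 3 ≤ j → P (w j) ≤ 1 / 9 := fun j hj => h1 _ ((a 3 j hj).trans k3.le)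
    have q' : ∀ j : Fin 8, P (w j) ≤ 1 / 7 := fun j => h2 _ ((a 0 j (Fin.zero_le j)).trans h)
    have := q 3 (by decide)
    have := q 4 (by decide)
    have := q 5 (by decide)
    have := q 6 (by decide)
    have := q 7 (by decide)
    linarith [q' 0, q' 1, q' 2]
  · have k2 := c3 h.le c2.le
    have q : ∀ j : Fin 8, 2 ≤ j → P (w j) ≤ 1 / 9 := fun j hj => h1 _ ((a 2 j hj).trans k2.le)
    have q' : ∀ j : Fin 8, P (w j) ≤ 1 / 6 := fun j => h3 _ ((a 0 j (Fin.zero_le j)).trans c2.le)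
    have := q 2 (by decide)
    have := q 3 (by decide)
    have := q 4 (by decide)
    have := q 5 (by decide)
    have := q 6 (by decide)
    have := q 7 (by decide)
    linarith [q' 0, q' 1]

/-- the multisets of the sides -/
macro "sides" : tactic => `(tactic| (
  simp only [Multiset.insert_eq_cons, Multiset.map_cons, Multiset.map_singleton]
  simp only [← Multiset.singleton_add]
  abel))

theorem exists_min3 (a b c : ℝ) :
    ∃ n : ℝ, n ≤ a ∧ n ≤ b ∧ n ≤ c ∧ (n = a ∨ n = b ∨ n = c) := by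
  rcases le_total a b with h | h
  · rcases le_total a c with h' | h'
    · exact ⟨a, le_rfl, h, h', Or.inl rfl⟩
    · exact ⟨c, h', h'.trans h, le_rfl, Or.inr (Or.inr rfl)⟩
  · rcases le_total b c with h' | h'
    · exact ⟨b, h, le_rfl, h', Or.inr (Or.inl rfl)⟩
    · exact ⟨c, h'.trans h, h', le_rfl, Or.inr (Or.inr rfl)⟩

set_option maxHeartbeats 1000000 in
/-- **eight lumps `≥ 13/100` in `Reg8`**, all other lumps as one block -/
theorem covM_eight (C : ExpC r rc) (R : ExpRules (7 / 8 + d) r s) (Lv : ExpLv (7 / 8 + d) r)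
    (hd : 0 ≤ d) {e₀ t : ℝ} (he : 10 / 9 * d ≤ e₀) (ht : 0 ≤ t) (ht3 : t ≤ 1 / 3) {N : ℕ}
    {u : Fin N → ℝ} (hu : ∀ j, 0 ≤ u j) (hs : ∑ j, u j ≤ 4 / 3) (ι : Fin 8 → Fin N)
    (hι : Function.Injective ι) (hanti : Antitone (u ∘ ι)) (hlo : ∀ i, 13 / 100 ≤ u (ι i))
    (hreg : Reg8 (u ∘ ι)) : CovM rc e₀ t u (fun _ => 1) := by
  obtain ⟨w, hw⟩ : ∃ w : Fin 8 → ℝ, w = fun i => u (ι i) := ⟨_, rfl⟩
  have hreg' : Reg8 w := by rw [hw]; exact hreg
  have hS := sum_rest u ⟨ι, hι⟩
  have hr := rest_nonneg hu ⟨ι, hι⟩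
  have hr0 : 0 ≤ (rest u ⟨ι, hι⟩).sum := Multiset.sum_nonneg hr
  have hwsum : ∑ i, u ((⟨ι, hι⟩ : Fin 8 ↪ Fin N) i) =
      w 0 + w 1 + w 2 + w 3 + w 4 + w 5 + w 6 + w 7 := by
    rw [hw, Fin.sum_univ_eight]
    rfl
  rw [hwsum] at hS
  have k : ∀ i, 13 / 100 ≤ w i := fun i => by rw [hw]; exact hlo i
  have a : ∀ i j : Fin 8, i ≤ j → w j ≤ w i := fun i j h => by rw [hw]; exact hanti h
  have fin : ∀ (B : Finset (Fin 8)) (M₁ M₂ : Multiset (Fin 8)) (L₁ L₂ : ℝ), B.val = M₁ →
      Bᶜ.val = M₂ → 5 / 3 ≤ L₁ + L₂ →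
      (MCol rc e₀ (M₁.map w) L₁ ∧ (M₁.map w).sum ≤ L₁) →
      (MCol rc e₀ (M₂.map w + rest u ⟨ι, hι⟩) L₂ ∧
        (M₂.map w + rest u ⟨ι, hι⟩).sum ≤ L₂) → CovM rc e₀ t u (fun _ => 1) := by
    intro B M₁ M₂ L₁ L₂ e1 e2 hL h1 h2
    rw [← e1, hw] at h1
    rw [← e2, hw] at h2
    exact covM_of_part2 ht ht3 hs ⟨ι, hι⟩ B hL h1.1 h1.2 h2.1 h2.2
  generalize (rest u ⟨ι, hι⟩) = V at hr hr0 hS fin
  obtain ⟨v, hv⟩ : ∃ v, v = V.sum := ⟨_, rfl⟩
  rw [← hv] at hS hr0
  have k0 := k 0
  have k1 := k 1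
  have k2 := k 2
  have k3 := k 3
  have k4 := k 4
  have k5 := k 5
  have k6 := k 6
  have k7 := k 7
  have a1 := a 0 1 (by decide)
  have a2 := a 1 2 (by decide)
  have a3 := a 2 3 (by decide)
  have a4 := a 3 4 (by decide)
  have a5 := a 4 5 (by decide)
  have a6 := a 5 6 (by decide)
  have a7 := a 6 7 (by decide)
  have hs' : v + (w 0 + w 1 + w 2 + w 3 + w 4 + w 5 + w 6 + w 7) ≤ 4 / 3 := hS.trans_le hs
  rcases hreg' with ⟨g0, g3⟩ | g0 | ⟨g0, g0', g2⟩
  · rcases le_or_gt (w 3 + w 4 + w 5 + w 7) (16 / 27) with h1 | h1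
    · -- C5l S6 W3457 | T6 02 ZV X1
      refine fin {3, 4, 5, 6, 7} {3, 4, 5, 6, 7} {0, 1, 2} (5 / 6) (5 / 6) (by decide) (by decide)
        (by norm_num)
        (c5g C R Lv hd he (V := {w 6}) (Q := {w 7}) (b₁ := w 3) (b₂ := w 4) (b₃ := w 5) k5
          (nn1 k6) (nn1 k7) (Multiset.sum_singleton _) (Multiset.sum_singleton _) (by sides)
          (by linarith) (by linarith) (by linarith) (by linarith) (by linarith) (by linarith))
        (t6g C R hd he (Z := V) (X := {w 1}) (y₁ := w 0) (y₂ := w 2) (by linarith) (by linarith)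
          hr (nn1 k1) hv.symm (Multiset.sum_singleton _) (by sides) (by linarith) (by linarith)
          (by linarith) (by linarith) (by linarith) (by linarith))
    · rcases le_or_gt v (w 6) with h2 | h2
      · -- T6 27 Z0 X5 | C5l S1 W346V
        refine fin {0, 2, 5, 7} {0, 2, 5, 7} {1, 3, 4, 6} (5 / 6) (5 / 6) (by decide) (by decide)
          (by norm_num)
          (t6g C R hd he (Z := {w 0}) (X := {w 5}) (y₁ := w 2) (y₂ := w 7) (by linarith)
            (by linarith) (nn1 k0) (nn1 k5) (Multiset.sum_singleton _)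
            (Multiset.sum_singleton _) (by sides) (by linarith) (by linarith)
            (by linarith) (by linarith) (by linarith) (by linarith))
          (c5g C R Lv hd he (V := {w 1}) (Q := V) (b₁ := w 3) (b₂ := w 4) (b₃ := w 6) k6
            (nn1 k1) hr (Multiset.sum_singleton _) hv.symm (by sides)
            (by linarith) (by linarith) (by linarith) (by linarith) (by linarith) (by linarith))
      · -- C5l S2 W3467 | T6 05 Z1 XV
        refine fin {2, 3, 4, 6, 7} {2, 3, 4, 6, 7} {0, 1, 5} (5 / 6) (5 / 6) (by decide)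
          (by decide) (by norm_num)
          (c5g C R Lv hd he (V := {w 2}) (Q := {w 7}) (b₁ := w 3) (b₂ := w 4) (b₃ := w 6) k6
            (nn1 k2) (nn1 k7) (Multiset.sum_singleton _) (Multiset.sum_singleton _) (by sides)
            (by linarith) (by linarith) (by linarith) (by linarith) (by linarith) (by linarith))
          (t6g C R hd he (Z := {w 1}) (X := V) (y₁ := w 0) (y₂ := w 5) (by linarith)
            (by linarith) (nn1 k1) hr (Multiset.sum_singleton _) hv.symm (by sides) (by linarith)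
            (by linarith) (by linarith) (by linarith) (by linarith) (by linarith))
  · rcases le_or_gt v (w 5) with h2 | h2
    · -- T6 02 Z3 X6 | C5l S7 W145V
      refine fin {0, 2, 3, 6} {0, 2, 3, 6} {1, 4, 5, 7} (5 / 6) (5 / 6) (by decide) (by decide)
        (by norm_num)
        (t6g C R hd he (Z := {w 3}) (X := {w 6}) (y₁ := w 0) (y₂ := w 2) (by linarith)
          (by linarith) (nn1 k3) (nn1 k6) (Multiset.sum_singleton _)
          (Multiset.sum_singleton _) (by sides) (by linarith) (by linarith)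
          (by linarith) (by linarith) (by linarith) (by linarith))
        (c5g C R Lv hd he (V := {w 7}) (Q := V) (b₁ := w 1) (b₂ := w 4) (b₃ := w 5) k5
          (nn1 k7) hr (Multiset.sum_singleton _) hv.symm (by sides)
          (by linarith) (by linarith) (by linarith) (by linarith) (by linarith) (by linarith))
    · -- C5l S3 W1467 | T6 02 ZV X5
      refine fin {1, 3, 4, 6, 7} {1, 3, 4, 6, 7} {0, 2, 5} (5 / 6) (5 / 6) (by decide)
        (by decide) (by norm_num)
        (c5g C R Lv hd he (V := {w 3}) (Q := {w 7}) (b₁ := w 1) (b₂ := w 4) (b₃ := w 6) k6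
          (nn1 k3) (nn1 k7) (Multiset.sum_singleton _) (Multiset.sum_singleton _) (by sides)
          (by linarith) (by linarith) (by linarith) (by linarith) (by linarith) (by linarith))
        (t6g C R hd he (Z := V) (X := {w 5}) (y₁ := w 0) (y₂ := w 2) (by linarith)
          (by linarith) hr (nn1 k5) hv.symm (Multiset.sum_singleton _) (by sides) (by linarith)
          (by linarith) (by linarith) (by linarith) (by linarith) (by linarith))
  · rcases le_or_gt v (w 6) with h1 | h1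
    · rcases le_or_gt (w 5) (1 / 6) with h2 | h2
      · -- T6 01 Z2 X5 | C5l S7 W346V
        refine fin {0, 1, 2, 5} {0, 1, 2, 5} {3, 4, 6, 7} (5 / 6) (5 / 6) (by decide) (by decide)
          (by norm_num)
          (t6g C R hd he (Z := {w 2}) (X := {w 5}) (y₁ := w 0) (y₂ := w 1) (by linarith)
            (by linarith) (nn1 k2) (nn1 k5) (Multiset.sum_singleton _)
            (Multiset.sum_singleton _) (by sides) (by linarith) (by linarith)
            (by linarith) (by linarith) (by linarith) (by linarith))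
          (c5g C R Lv hd he (V := {w 7}) (Q := V) (b₁ := w 3) (b₂ := w 4) (b₃ := w 6) k6
            (nn1 k7) hr (Multiset.sum_singleton _) hv.symm (by sides)
            (by linarith) (by linarith) (by linarith) (by linarith) (by linarith) (by linarith))
      · -- T6 25 Z0 X7 | T6 13 Z4V X6
        obtain ⟨n, n1, n2, n3, hn⟩ := exists_min3 (1 - w 7) (1 - 3 / 4 * w 0)
          (7 / 9 + 2 / 9 * (w 2 + w 5))
        refine fin {0, 2, 5, 7} {0, 2, 5, 7} {1, 3, 4, 6} n (5 / 3 - n) (by decide) (by decide)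
          (by linarith)
          (t6g C R hd he (Z := {w 0}) (X := {w 7}) (y₁ := w 2) (y₂ := w 5) (by linarith)
            (by linarith) (nn1 k0) (nn1 k7) (Multiset.sum_singleton _)
            (Multiset.sum_singleton _) (by sides) (by linarith) (by linarith)
            (by linarith) (by linarith) (by linarith) ?_)
          (t6g C R hd he (Z := {w 4} + V) (z := w 4 + v) (X := {w 6}) (y₁ := w 1) (y₂ := w 3)
            (by linarith) (by linarith) (nn1V k4 hr) (nn1 k6)
            (by rw [Multiset.sum_add, Multiset.sum_singleton, hv]) (Multiset.sum_singleton _)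
            (by sides) (by linarith) ?_ ?_ ?_ (by linarith) ?_)
        · rcases hn with h | h | h <;> linarith
        · rcases hn with h | h | h <;> linarith
        · rcases hn with h | h | h <;> linarith
        · rcases hn with h | h | h <;> linarith
        · rcases hn with h | h | h <;> linarith
    · rcases le_or_gt (w 1 + w 3 + w 5 + w 7) (16 / 27) with h2 | h2
      · -- C5l S6 W1357 | T6 02 ZV X4
        refine fin {1, 3, 5, 6, 7} {1, 3, 5, 6, 7} {0, 2, 4} (5 / 6) (5 / 6) (by decide)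
          (by decide) (by norm_num)
          (c5g C R Lv hd he (V := {w 6}) (Q := {w 7}) (b₁ := w 1) (b₂ := w 3) (b₃ := w 5) k5
            (nn1 k6) (nn1 k7) (Multiset.sum_singleton _) (Multiset.sum_singleton _) (by sides)
            (by linarith) (by linarith) (by linarith) (by linarith) (by linarith) (by linarith))
          (t6g C R hd he (Z := V) (X := {w 4}) (y₁ := w 0) (y₂ := w 2) (by linarith)
            (by linarith) hr (nn1 k4) hv.symm (Multiset.sum_singleton _) (by sides) (by linarith)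
            (by linarith) (by linarith) (by linarith) (by linarith) (by linarith))
      · -- T6 02 Z1 X5 | C5l SV W3467
        refine fin {0, 1, 2, 5} {0, 1, 2, 5} {3, 4, 6, 7} (5 / 6) (5 / 6) (by decide) (by decide)
          (by norm_num)
          (t6g C R hd he (Z := {w 1}) (X := {w 5}) (y₁ := w 0) (y₂ := w 2) (by linarith)
            (by linarith) (nn1 k1) (nn1 k5) (Multiset.sum_singleton _)
            (Multiset.sum_singleton _) (by sides) (by linarith) (by linarith)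
            (by linarith) (by linarith) (by linarith) (by linarith))
          (c5g C R Lv hd he (V := V) (Q := {w 7}) (b₁ := w 3) (b₂ := w 4) (b₃ := w 6) k6
            hr (nn1 k7) hv.symm (Multiset.sum_singleton _) (by sides)
            (by linarith) (by linarith) (by linarith) (by linarith) (by linarith) (by linarith))

end Crest.Agent.R017.CovEight301
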