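import Crest.Agent.R017.CovSing_741

/-!
# Row 17, T.2 : the points of a single lump `A ∈ [1/6, 2/9]` (helper645)

* `single3` : `Single (1/6) (2/9) 3`
* `single3P` : `A ∈ [8/43, 1/5]`, `2/(3A)` copies (pure)

Columns: `{A³, yʲ}` (`{A,A}` with `Z = {A}`, `X = {yʲ}`), `{A⁴ | 1 - A}`, and `{A³, y² | 5/6}` (C5,
`3 A + y ≤ 16/27`).  `x = j y` the largest multiple `≤ 1/6`, `D = 2/3 - 3 A`.
-/

set_option autoImplicit false

noncomputable section

namespace Crest.Agent.R017.CovS3_645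

open Crest.Agent.R017.ER911 Crest.Agent.R017.Hull741 Crest.Agent.R017.CovM59
  Crest.Agent.R017.CovGlue741 Crest.Agent.R017.ExpC702 Crest.Agent.R017.CovNear177
  Crest.Agent.R017.Prov71 Crest.Agent.R017.HC777 Crest.Agent.R017.Cov499
  Crest.Agent.R017.CovMap702 Crest.Agent.R017.CovSing741

variable {d e₀ t : ℝ} {r s s₀ rc bc : EF}

/-- a main column from a constructor of `Col2` -/
theorem mcol2 (P : Par d e₀ t) (B : ProvE (7 / 8 + d) r s s₀ rc bc) {y : ℝ} {Y : Multiset ℝ}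
    {j : ℕ} {N : ℝ} (h : Col2 y Y j N) (hy : 0 < y) (hY : ∀ z ∈ Y, 13 / 100 ≤ z) :
    MCol rc e₀ (Y + Multiset.replicate j y) N := by
  intro f g hf hg hN
  have h1 := hcol2 B.rules B.lb B.lv B.rem P.d0.le P.d8.le h hy hY hf hg
    (by
      rw [Multiset.sum_add, Multiset.sum_replicate, nsmul_eq_mul] at hN
      exact hN)
  have h2 := h1.mono P.e2
  refine B.cpl.le 1 _ _ _ _ zero_le_one ⟨?_, hf, hg⟩ fun κ' k0 k1 => h2 κ' k0 k1
  intro x hx
  rcases Multiset.mem_add.1 hx with hx | hx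
  · linarith [hY x hx]
  · rw [(Multiset.mem_replicate.1 hx).2]; exact hy.le

/-- two columns, `μ` = share of the pure one -/
theorem mixS (P : Par d e₀ t) {A y N₁ N₂ μ a : ℝ} {n j n' : ℕ} (hy : 0 < y)
    (h0 : 0 ≤ μ) (h1 : μ ≤ 1)
    (m1 : MCol rc e₀ (Multiset.replicate n A + Multiset.replicate j y) N₁)
    (m2 : MCol rc e₀ (Multiset.replicate n' A) N₂)
    (l1 : n * A + j * y ≤ N₁) (l2 : n' * A ≤ N₂) (ha : a = (1 - μ) * n + μ * n')
    (hm : a * A + (1 - μ) * (j * y) = 2 / 3) (hN : 5 / 6 ≤ (1 - μ) * N₁ + μ * N₂) :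
    PtS rc e₀ t a A y := by
  have ht := P.t0.le
  have ht3 := P.t3
  obtain ⟨K, hK⟩ : ∃ K, K = (1 - μ) * (N₁ - n * A - j * y) + μ * (N₂ - n' * A) := ⟨_, rfl⟩
  have hK1 : 1 / 6 ≤ K := by
    have : K = (1 - μ) * N₁ + μ * N₂ - (a * A + (1 - μ) * (j * y)) := by rw [hK, ha]; ring
    rw [this, hm]
    linarith
  have hK0 : 0 < K := by linarith
  obtain ⟨σ, hσ⟩ : ∃ σ, σ = (1 / 6 - t / 2) / K := ⟨_, rfl⟩
  have hσ0 : 0 ≤ σ := by rw [hσ]; exact div_nonneg (by linarith) hK0.le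
  have hσ1 : σ ≤ 1 := by rw [hσ, div_le_one hK0]; linarith
  have hσK : σ * K = 1 / 6 - t / 2 := by rw [hσ]; exact div_mul_cancel₀ _ hK0.ne'
  have g1 : 0 ≤ N₁ - n * A - j * y := by linarith
  have g2 : 0 ≤ N₂ - n' * A := by linarith
  have c1 : Col rc e₀ ![A, y] ![n, j] 0 (σ * (N₁ - n * A - j * y)) :=
    colT (mul_nonneg hσ0 g1) m1 (by have := mul_le_of_le_one_left g1 hσ1; linarith)
  have c2 : Col rc e₀ ![A, y] ![n', 0] 0 (σ * (N₂ - n' * A)) :=
    colT (mul_nonneg hσ0 g2) (by simpa using m2) (by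
      have := mul_le_of_le_one_left g2 hσ1
      push_cast
      linarith)
  have hjy : 0 ≤ (1 - μ) * (j * y) :=
    mul_nonneg (by linarith) (mul_nonneg (Nat.cast_nonneg j) hy.le)
  refine ⟨a, le_rfl, by linarith, ?_⟩
  refine two c2 c1 h0 h1 (fin2 ?_ ?_) (by ring) ?_
  · simp only [Matrix.cons_val_zero]
    rw [ha]; ring
  · simp only [Matrix.cons_val_one, Matrix.cons_val_zero, Nat.cast_zero, mul_zero, zero_add]
    rw [div_eq_iff hy.ne']
    linarith
  · rw [← hσK, hK]; ring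

theorem allA {A : ℝ} (hA : 13 / 100 ≤ A) (n : ℕ) : ∀ z ∈ Multiset.replicate n A, 13 / 100 ≤ z := by
  intro z hz
  rw [(Multiset.mem_replicate.1 hz).2]
  exact hA

theorem rep3 (A : ℝ) : Multiset.replicate 3 A = ({A, A} + {A} + 0 : Multiset ℝ) := by
  rw [add_zero]; rfl

theorem rep4 (A : ℝ) : Multiset.replicate 4 A = ({A, A} + {A} + {A} : Multiset ℝ) := rfl

/-- `{A³, yʲ}` -/
theorem m3 (P : Par d e₀ t) (B : ProvE (7 / 8 + d) r s s₀ rc bc) {A y N : ℝ} {j : ℕ}
    (hA : 1 / 6 ≤ A) (hA' : A ≤ 2 / 9) (hy : 0 < y) (hx : j * y + N ≤ 1)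
    (hN : N + 3 / 4 * A ≤ 1) (hN2 : N ≤ 7 / 9 + 4 / 9 * A) (hl : 3 * A + j * y ≤ N) :
    MCol rc e₀ (Multiset.replicate 3 A + Multiset.replicate j y) N := by
  refine mcol P B ?_ hy (allA (by linarith) 3)
  have := Col0.t6 (v := y) A A {A} 0 0 j N (by linarith) (by rw [Multiset.sum_zero]; linarith)
    (by rw [Multiset.sum_singleton]; push_cast; linarith) (by linarith)
    (by rw [Multiset.sum_singleton]; push_cast; linarith)
    (by rw [Multiset.sum_zero, Multiset.sum_singleton]; push_cast; linarith)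
  rw [← rep3, zero_add] at this
  exact this

/-- `{A⁴ | 1 - A}` -/
theorem m4 (P : Par d e₀ t) (B : ProvE (7 / 8 + d) r s s₀ rc bc) {A : ℝ}
    (hA : 1 / 6 ≤ A) (hA' : A ≤ 1 / 5) : MCol rc e₀ (Multiset.replicate 4 A) (1 - A) := by
  have h := mcol P B (y := 1) (j := 0) (Y := Multiset.replicate 4 A) (N := 1 - A) (by
    have := Col0.t6 (v := 1) A A {A} {A} 0 0 (1 - A) (by linarith)
      (by rw [Multiset.sum_singleton]; push_cast; linarith)
      (by rw [Multiset.sum_singleton]; push_cast; linarith) (by linarith)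
      (by rw [Multiset.sum_singleton]; push_cast; linarith)
      (by rw [Multiset.sum_singleton]; push_cast; linarith)
    rw [← rep4, zero_add] at this
    exact this) one_pos (allA (by linarith) 4)
  simpa using h

/-- `{A³, y² | 5/6}` (C5) -/
theorem m5 (P : Par d e₀ t) (B : ProvE (7 / 8 + d) r s s₀ rc bc) {A y : ℝ}
    (hA : 1 / 6 ≤ A) (hy : 0 < y) (hAy : 3 * A + y ≤ 16 / 27) :
    MCol rc e₀ (Multiset.replicate 3 A + Multiset.replicate 2 y) (5 / 6) := by
  refine mcol2 P B ?_ hy (allA (by linarith) 3)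
  refine Col2.c5w y {A, A, A, y} _ 2 _ ?_ rfl ⟨A, A, by simp, ?_, by linarith⟩ ?_ (by linarith)
    le_rfl ?_
  · change ({A, A, A} : Multiset ℝ) + {y, y} = {y} + {A, A, A, y}
    simp only [Multiset.insert_eq_cons, ← Multiset.singleton_add]
    abel
  · have e : ({A, A, A, y} : Multiset ℝ).erase A = {A, A, y} := by
      simp [Multiset.insert_eq_cons]
    rw [e]
    simp
  · simp only [Multiset.insert_eq_cons, Multiset.sum_cons, Multiset.sum_singleton]
    linarith
  · simp only [Multiset.insert_eq_cons, Multiset.sum_cons, Multiset.sum_singleton]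
    linarith

/-- the mixture `{A³, yʲ} , {A⁴}`, `x = j y ≤ D` -/
theorem opt1 (P : Par d e₀ t) (B : ProvE (7 / 8 + d) r s s₀ rc bc) {A y : ℝ} {j : ℕ}
    (hA : 1 / 6 ≤ A) (hA' : A ≤ 8 / 43) (hy : 0 < y) (hx : j * y ≤ 2 / 3 - 3 * A)
    (hF : 5 / 54 - 43 / 9 * (A - 1 / 6) ≤ j * y) : PtS rc e₀ t 3 A y := by
  obtain ⟨x, hxd⟩ : ∃ x : ℝ, x = j * y := ⟨_, rfl⟩
  have hx0 : 0 ≤ x := by rw [hxd]; exact mul_nonneg (Nat.cast_nonneg j) hy.le
  rw [← hxd] at hx hF
  rcases eq_or_lt_of_le (show x ≤ A by linarith) with hxA | hxA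
  · -- `x = A = 1/6`
    have hA6 : A = 1 / 6 := by linarith
    have := mixS (μ := 1) (a := 4) P hy zero_le_one le_rfl
      (m3 P B (j := 0) (N := 5 / 6) hA (by linarith) hy (by push_cast; linarith) (by linarith)
        (by linarith) (by push_cast; linarith)) (m4 P B hA (by linarith))
      (by push_cast; linarith) (by push_cast; linarith) (by push_cast; ring)
      (by rw [hA6]; push_cast; ring) (by rw [hA6]; norm_num)
    exact this.mono (by norm_num)
  have hpos : 0 < A - x := by linarith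
  obtain ⟨μ, hμ⟩ : ∃ μ : ℝ, μ = (2 / 3 - 3 * A - x) / (A - x) := ⟨_, rfl⟩
  have hμm : μ * (A - x) = 2 / 3 - 3 * A - x := by rw [hμ]; exact div_mul_cancel₀ _ hpos.ne'
  have h0 : 0 ≤ μ := by rw [hμ]; exact div_nonneg (by linarith) hpos.le
  have h1 : μ ≤ 1 := by rw [hμ, div_le_one hpos]; linarith
  have hmass : (1 - μ) * x + μ * A = 2 / 3 - 3 * A := by linarith
  rcases le_total x (2 / 9 - 4 / 9 * A) with hc | hc
  · have := mixS (μ := μ) (a := (1 - μ) * (3 : ℕ) + μ * (4 : ℕ)) (N₁ := 7 / 9 + 4 / 9 * A)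
      (N₂ := 1 - A) P hy h0 h1
      (m3 P B (j := j) hA (by linarith) hy (by rw [← hxd]; linarith) (by linarith) le_rfl
        (by rw [← hxd]; linarith)) (m4 P B hA (by linarith))
      (by rw [← hxd]; push_cast; linarith) (by push_cast; linarith) rfl
      (by rw [← hxd]; push_cast; linarith) (by
        -- multiply by `A - x`
        have key : 0 ≤ (A - x) * ((1 - μ) * (7 / 9 + 4 / 9 * A) + μ * (1 - A) - 5 / 6) := by
          have e : (A - x) * ((1 - μ) * (7 / 9 + 4 / 9 * A) + μ * (1 - A) - 5 / 6) =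
              (A - x) * (7 / 9 + 4 / 9 * A - 5 / 6) +
                (μ * (A - x)) * (1 - A - (7 / 9 + 4 / 9 * A)) := by ring
          rw [e, hμm]
          have h3 := mul_nonneg (sub_nonneg.2 hA) (sub_nonneg.2 hF)
          nlinarith
        have := nonneg_of_mul_nonneg_right key hpos
        linarith)
    exact this.mono (by push_cast; linarith)
  · have := mixS (μ := μ) (a := (1 - μ) * (3 : ℕ) + μ * (4 : ℕ)) (N₁ := 1 - x)
      (N₂ := 1 - A) P hy h0 h1
      (m3 P B (j := j) hA (by linarith) hy (by rw [← hxd]; linarith) (by linarith) (by linarith)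
        (by rw [← hxd]; linarith)) (m4 P B hA (by linarith))
      (by rw [← hxd]; push_cast; linarith) (by push_cast; linarith) rfl
      (by rw [← hxd]; push_cast; linarith) (by linarith)
    exact this.mono (by push_cast; linarith)

/-- `{A³ | 5/6}` -/
theorem m30 (P : Par d e₀ t) (B : ProvE (7 / 8 + d) r s s₀ rc bc) {A : ℝ}
    (hA : 1 / 6 ≤ A) (hA' : A ≤ 2 / 9) : MCol rc e₀ (Multiset.replicate 3 A) (5 / 6) := by
  have := m3 P B (y := 1) (j := 0) (N := 5 / 6) hA hA' one_pos (by push_cast; linarith)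
    (by linarith) (by linarith) (by push_cast; linarith)
  simpa using this

/-- `{A³, yʲ}`, `D ≤ j y ≤ 1/6` -/
theorem opt0 (P : Par d e₀ t) (B : ProvE (7 / 8 + d) r s s₀ rc bc) {A y : ℝ} {j : ℕ}
    (hA : 1 / 6 ≤ A) (hA' : A ≤ 2 / 9) (hy : 0 < y) (hy1 : y ≤ 13 / 100)
    (hx : 2 / 3 - 3 * A ≤ j * y) (hx1 : j * y ≤ 1 / 6) (hx2 : j * y ≤ 2 / 3 - 3 * A + y) :
    PtS rc e₀ t 3 A y := by
  have := ptS_mix (n := 3) P.t0.le (by linarith [P.t3]) hy hy1 (by linarith) (by push_cast; linarith)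
    (by push_cast; linarith) (by push_cast; linarith) (m30 P B hA hA')
    (m3 P B (j := j) (N := 5 / 6) hA hA' hy (by linarith) (by linarith) (by linarith)
      (by linarith))
  exact_mod_cast this

/-- pure point, `A ∈ [8/43, 1/5]` -/
theorem pure3 (P : Par d e₀ t) (B : ProvE (7 / 8 + d) r s s₀ rc bc) {A : ℝ}
    (hA : 8 / 43 ≤ A) (hA' : A ≤ 1 / 5) {y : ℝ} (hy : 0 < y) :
    PtS rc e₀ t (2 / (3 * A)) A y := by
  have hA0 : 0 < A := by linarith
  obtain ⟨μ, hμ⟩ : ∃ μ : ℝ, μ = 2 / (3 * A) - 3 := ⟨_, rfl⟩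
  have ea : 2 / (3 * A) * A = 2 / 3 := by field_simp
  have hμA : μ * A = 2 / 3 - 3 * A := by rw [hμ, sub_mul, ea]
  have h0 : 0 ≤ μ := by
    rw [hμ, sub_nonneg, le_div_iff₀ (by positivity)]; linarith
  have h1 : μ ≤ 1 := by
    rw [hμ, sub_le_iff_le_add, div_le_iff₀ (by positivity)]; linarith
  exact mixS (μ := μ) (N₁ := 1 - 3 / 4 * A) (N₂ := 1 - A) P hy h0 h1
    (m3 P B (j := 0) (by linarith) (by linarith) hy (by push_cast; linarith) (by linarith)
      (by linarith) (by push_cast; linarith)) (m4 P B (by linarith) hA')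
    (by push_cast; linarith) (by push_cast; linarith) (by rw [hμ]; push_cast; ring)
    (by rw [ea]; push_cast; ring) (by linarith)

/-- **s3** -/
theorem single3 : Single (1 / 6) (2 / 9) 3 := by
  intro d e₀ t P r s s₀ rc bc B A hA hA'
  have ht := P.t0.le
  have ht3 := P.t3
  refine ⟨?_, fun y hy hy1 => ?_⟩
  · exact_mod_cast ptM_one (n := 3) ht (by push_cast; linarith) (by linarith) (m30 P B hA hA')
  rcases le_total (1 / 5) A with h5 | h5
  · obtain ⟨j, hj1, hj2, hj3⟩ := exists_j (D := 2 / 3 - 3 * A) (by linarith) hy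
    refine opt0 P B hA hA' hy hy1 hj1 ?_ (by linarith)
    rcases Nat.lt_or_ge j 2 with h | h
    · have : (j : ℝ) ≤ 1 := by exact_mod_cast (by omega : j ≤ 1)
      have := mul_le_mul_of_nonneg_right this hy.le
      linarith
    · have : (2 : ℝ) ≤ j := by exact_mod_cast h
      have := mul_le_mul_of_nonneg_right this hy.le
      linarith
  rcases le_total (8 / 43) A with h43 | h43
  · refine (pure3 P B h43 h5 hy).mono ?_
    rw [le_div_iff₀ (by linarith)]; linarith
  -- `x` the largest multiple `≤ 1/6`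
  obtain ⟨j, hj⟩ : ∃ j : ℕ, j = ⌊1 / 6 / y⌋₊ := ⟨_, rfl⟩
  have hx1 : (j : ℝ) * y ≤ 1 / 6 := by
    have := Nat.floor_le (div_nonneg (by norm_num : (0 : ℝ) ≤ 1 / 6) hy.le)
    rw [← hj, le_div_iff₀ hy] at this
    exact this
  have hx2 : 1 / 6 < (j + 1) * y := by
    have := Nat.lt_floor_add_one (1 / 6 / y)
    rw [← hj, div_lt_iff₀ hy] at this
    exact this
  rcases le_total (2 / 3 - 3 * A) (j * y) with hD | hD
  · -- a multiple in `[D, 1/6]`
    obtain ⟨i, hi1, hi2, hi3⟩ := exists_j (D := 2 / 3 - 3 * A) (by linarith) hy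
    rcases Nat.lt_or_ge j i with h | h
    · have h' : (j : ℝ) + 1 ≤ i := by exact_mod_cast h
      have := mul_le_mul_of_nonneg_right h' hy.le
      exact opt0 P B hA hA' hy hy1 hD hx1 (by linarith)
    · have h' : (i : ℝ) ≤ j := by exact_mod_cast h
      have := mul_le_mul_of_nonneg_right h' hy.le
      exact opt0 P B hA hA' hy hy1 hi1 (by linarith) (by linarith)
  rcases le_total (5 / 54) (j * y) with hF | hF
  · exact opt1 P B hA h43 hy hD (by linarith)
  · -- `j = 1`, `y > 1/12`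
    have hy12 : 2 / 27 ≤ y := by linarith
    have hj1 : j = 1 := by
      have h2 : j < 2 := by
        by_contra hlt
        have : (2 : ℝ) ≤ j := by exact_mod_cast (by omega : 2 ≤ j)
        have := mul_le_mul_of_nonneg_right this hy.le
        linarith
      have h0 : j ≠ 0 := by
        rintro h0
        rw [h0] at hx2
        push_cast at hx2
        linarith
      omega
    rw [hj1] at hx2 hD hF
    push_cast at hx2 hD hF
    rcases le_total (3 * A + y) (16 / 27) with h | h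
    · have := ptS_mix (n := 3) (j := 2) ht (by linarith) hy hy1 (by linarith)
        (by push_cast; linarith) (by push_cast; linarith) (by push_cast; linarith)
        (m30 P B hA hA') (m5 P B hA hy h)
      exact_mod_cast this
    · refine opt1 P B (j := 1) hA h43 hy (by push_cast; linarith) (by push_cast; linarith)

/-- the pure point with Möbius mass `0` -/
theorem pure3M (P : Par d e₀ t) (B : ProvE (7 / 8 + d) r s s₀ rc bc) {A : ℝ}
    (hA : 8 / 43 ≤ A) (hA' : A ≤ 1 / 5) : PtM rc e₀ t (2 / (3 * A)) A := by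
  have ht := P.t0.le
  have ht3 := P.t3
  have hA0 : 0 < A := by linarith
  obtain ⟨μ, hμ⟩ : ∃ μ : ℝ, μ = 2 / (3 * A) - 3 := ⟨_, rfl⟩
  have ea : 2 / (3 * A) * A = 2 / 3 := by field_simp
  have hμA : μ * A = 2 / 3 - 3 * A := by rw [hμ, sub_mul, ea]
  have h0 : 0 ≤ μ := by
    rw [hμ, sub_nonneg, le_div_iff₀ (by positivity)]; linarith
  have h1 : μ ≤ 1 := by
    rw [hμ, sub_le_iff_le_add, div_le_iff₀ (by positivity)]; linarith
  have hg3 : 0 ≤ 1 - 15 / 4 * A := by linarith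
  have hg4 : 0 ≤ 1 - 5 * A := by linarith
  have hsum : (1 - μ) * (1 - 15 / 4 * A) + μ * (1 - 5 * A) = 1 / 6 := by linarith
  obtain ⟨σ, hσ⟩ : ∃ σ, σ = 6 * (1 / 6 - t / 2) := ⟨_, rfl⟩
  have hσ0 : 0 ≤ σ := by rw [hσ]; linarith
  have hσ1 : σ ≤ 1 := by rw [hσ]; linarith
  have M3 : MCol rc e₀ (Multiset.replicate 3 A) (1 - 3 / 4 * A) := by
    have := m3 P B (y := 1) (j := 0) (N := 1 - 3 / 4 * A) (by linarith : 1 / 6 ≤ A) (by linarith)
      one_pos (by push_cast; linarith) (by linarith) (by linarith) (by push_cast; linarith)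
    simpa using this
  have c3 : Col rc e₀ (fun _ : Fin 1 => A) (fun _ => 3) 0 (σ * (1 - 15 / 4 * A)) :=
    colU le_rfl (mul_nonneg hσ0 hg3) M3 (by
      have := mul_le_of_le_one_left hg3 hσ1
      push_cast
      linarith)
  have c4 : Col rc e₀ (fun _ : Fin 1 => A) (fun _ => 4) 0 (σ * (1 - 5 * A)) :=
    colU le_rfl (mul_nonneg hσ0 hg4) (m4 P B (by linarith) hA') (by
      have := mul_le_of_le_one_left hg4 hσ1
      push_cast
      linarith)
  refine ⟨2 / (3 * A), le_rfl, ea.le, ?_⟩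
  refine two c4 c3 h0 h1 (fun _ => ?_) (by rw [ea]; ring) ?_
  · rw [hμ]; push_cast; ring
  · have : μ * (σ * (1 - 5 * A)) + (1 - μ) * (σ * (1 - 15 / 4 * A)) =
        σ * ((1 - μ) * (1 - 15 / 4 * A) + μ * (1 - 5 * A)) := by ring
    rw [this, hsum, hσ]; ring

/-- pure singles on `[8/43, 1/5]` -/
theorem single3P : CovMap702.SingleP (8 / 43) (1 / 5) := by
  intro d e₀ t P r s s₀ rc bc B A hA hA'
  exact ⟨pure3M P B hA hA', fun y hy _ => pure3 P B hA hA' hy⟩

end Crest.Agent.R017.CovS3_645
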