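import Crest.Agent.R017.CovSing3_741
import Crest.Agent.R017.CovS3_645

/-!
# Row 17, T.2 : the points of a single lump `A ∈ [1/6, 4/21]`, `7/2` copies (helper741)

* `single3a` : `Single (1/6) (4/21) (7/2)`
* `single3b` : `SingleP (4/21) (1/5)`

`A ≥ 8/43` : pure points (`CovS3_645.single3P`).  `A ≤ 8/43`, `c = 4/3 - 7 A` : `1/2 {A⁴ | 1 - A}`
and `1/2` of a mixture of `{A³, yⁱ}`, `{A³, yⁱ⁺¹}` with `y`-mass `c`, or `{A⁴}`, `{A³, y}`.
-/

set_option autoImplicit false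

noncomputable section

namespace Crest.Agent.R017.CovSing4741

open Crest.Agent.R017.ER911 Crest.Agent.R017.Hull741 Crest.Agent.R017.CovM59
  Crest.Agent.R017.CovGlue741 Crest.Agent.R017.ExpC702 Crest.Agent.R017.CovNear177
  Crest.Agent.R017.Prov71 Crest.Agent.R017.HC777 Crest.Agent.R017.Cov499
  Crest.Agent.R017.CovMap702 Crest.Agent.R017.CovSing741 Crest.Agent.R017.CovSing3741
  Crest.Agent.R017.CovS3_645

variable {d e₀ t : ℝ} {r s s₀ rc bc : EF}

/-- three columns -/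
theorem three {N : ℕ} {u : Fin N → ℝ} {n₁ n₂ n₃ : Fin N → ℕ} {M₁ M₂ M₃ G₁ G₂ G₃ μ₁ μ₂ μ₃ : ℝ}
    (c1 : Col rc e₀ u n₁ M₁ G₁) (c2 : Col rc e₀ u n₂ M₂ G₂) (c3 : Col rc e₀ u n₃ M₃ G₃)
    (h1 : 0 ≤ μ₁) (h2 : 0 ≤ μ₂) (h3 : 0 ≤ μ₃) (hs : μ₁ + μ₂ + μ₃ = 1)
    {z : Fin N → ℝ} {M G : ℝ} (hz : ∀ j, z j = μ₁ * n₁ j + μ₂ * n₂ j + μ₃ * n₃ j)
    (hM : M = μ₁ * M₁ + μ₂ * M₂ + μ₃ * M₃) (hG : G = μ₁ * G₁ + μ₂ * G₂ + μ₃ * G₃) :
    ((z, M, G) : Mon N) ∈ Hull (Col rc e₀ u) := by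
  have key := hull_sum_mem (Col rc e₀ u) (Finset.univ : Finset (Fin 3)) ![μ₁, μ₂, μ₃]
    ![pt n₁ M₁ G₁, pt n₂ M₂ G₂, pt n₃ M₃ G₃] (fun q _ => by fin_cases q <;> assumption)
    (by simp [Fin.sum_univ_three, hs]) (fun q _ => by
      fin_cases q
      · exact subset_hull c1
      · exact subset_hull c2
      · exact subset_hull c3)
  have e : ((z, M, G) : Mon N) = ∑ q : Fin 3, (![μ₁, μ₂, μ₃] : Fin 3 → ℝ) q •
      (![pt n₁ M₁ G₁, pt n₂ M₂ G₂, pt n₃ M₃ G₃] : Fin 3 → Mon N) q := by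
    rw [Fin.sum_univ_three]
    refine Prod.ext ?_ (Prod.ext ?_ ?_)
    · funext j
      simp [pt, hz j]
    · simp [pt, hM]
    · simp [pt, hG]
  rw [e]
  exact key

/-- half `{A⁴ | 1 - A}`, half `{A³, yⁱ}`, `{A³, yⁱ⁺¹}` -/
theorem half (P : Par d e₀ t) (B : ProvE (7 / 8 + d) r s s₀ rc bc) {A y θ N₁ N₂ : ℝ} {i : ℕ}
    (hA : 1 / 6 ≤ A) (hA' : A ≤ 8 / 43) (hy : 0 < y) (h0 : 0 ≤ θ) (h1 : θ ≤ 1)
    (hc : (i + θ) * y = 4 / 3 - 7 * A)
    (m1 : MCol rc e₀ (Multiset.replicate 3 A + Multiset.replicate i y) N₁)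
    (m2 : MCol rc e₀ (Multiset.replicate 3 A + Multiset.replicate (i + 1) y) N₂)
    (l1 : 3 * A + i * y ≤ N₁) (l2 : 3 * A + (i + 1) * y ≤ N₂)
    (hN : 2 / 3 + A ≤ (1 - θ) * N₁ + θ * N₂) : PtS rc e₀ t (7 / 2) A y := by
  have ht := P.t0.le
  have ht3 := P.t3
  have g1 : 0 ≤ 1 - A - 4 * A := by linarith
  have g2 : 0 ≤ N₁ - 3 * A - i * y := by linarith
  have g3 : 0 ≤ N₂ - 3 * A - (i + 1) * y := by linarith
  obtain ⟨K, hK⟩ : ∃ K, K = 1 / 2 * (1 - A - 4 * A) + (1 - θ) / 2 * (N₁ - 3 * A - i * y) +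
    θ / 2 * (N₂ - 3 * A - (i + 1) * y) := ⟨_, rfl⟩
  have hK1 : 1 / 6 ≤ K := by
    have e : K = 1 / 2 * (1 - A) + 1 / 2 * ((1 - θ) * N₁ + θ * N₂) - 2 * A - 3 / 2 * A -
        1 / 2 * ((i + θ) * y) := by rw [hK]; ring
    rw [e, hc]
    linarith
  have hK0 : 0 < K := by linarith
  obtain ⟨σ, hσ⟩ : ∃ σ, σ = (1 / 6 - t / 2) / K := ⟨_, rfl⟩
  have hσ0 : 0 ≤ σ := by rw [hσ]; exact div_nonneg (by linarith) hK0.le
  have hσ1 : σ ≤ 1 := by rw [hσ, div_le_one hK0]; linarith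
  have hσK : σ * K = 1 / 6 - t / 2 := by rw [hσ]; exact div_mul_cancel₀ _ hK0.ne'
  have c1 : Col rc e₀ ![A, y] ![4, 0] 0 (σ * (1 - A - 4 * A)) :=
    colT (mul_nonneg hσ0 g1) (by simpa using m4 P B hA (by linarith)) (by
      have := mul_le_of_le_one_left g1 hσ1
      push_cast
      linarith)
  have c2 : Col rc e₀ ![A, y] ![3, i] 0 (σ * (N₁ - 3 * A - i * y)) :=
    colT (mul_nonneg hσ0 g2) m1 (by
      have := mul_le_of_le_one_left g2 hσ1
      push_cast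
      linarith)
  have c3 : Col rc e₀ ![A, y] ![3, i + 1] 0 (σ * (N₂ - 3 * A - (i + 1) * y)) :=
    colT (mul_nonneg hσ0 g3) m2 (by
      have := mul_le_of_le_one_left g3 hσ1
      push_cast
      linarith)
  refine ⟨7 / 2, le_rfl, by linarith, ?_⟩
  refine three c1 c2 c3 (μ₁ := 1 / 2) (μ₂ := (1 - θ) / 2) (μ₃ := θ / 2) (by norm_num)
    (by linarith) (by linarith) (by ring) (fin2 ?_ ?_) (by ring) ?_
  · simp only [Matrix.cons_val_zero]
    push_cast
    ring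
  · simp only [Matrix.cons_val_one, Matrix.cons_val_zero]
    rw [div_eq_iff hy.ne']
    push_cast
    linear_combination -(1 / 2) * hc
  · rw [← hσK, hK]; ring

/-- the mixture `{A³, y}`, `{A⁴}` -/
theorem opt2 (P : Par d e₀ t) (B : ProvE (7 / 8 + d) r s s₀ rc bc) {A y : ℝ}
    (hA : 1 / 6 ≤ A) (hA' : A ≤ 8 / 43) (hy : 0 < y) (hy1 : y ≤ 13 / 100)
    (hc : y ≤ 4 / 3 - 7 * A) (hF : 8 / 9 - 43 / 9 * A ≤ y) : PtS rc e₀ t (7 / 2) A y := by
  have hpos : 0 < A - y := by linarith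
  obtain ⟨μ, hμ⟩ : ∃ μ : ℝ, μ = (2 / 3 - 3 * A - y) / (A - y) := ⟨_, rfl⟩
  have hμm : μ * (A - y) = 2 / 3 - 3 * A - y := by rw [hμ]; exact div_mul_cancel₀ _ hpos.ne'
  have h0 : 1 / 2 ≤ μ := by rw [hμ, le_div_iff₀ hpos]; linarith
  have h1 : μ ≤ 1 := by rw [hμ, div_le_one hpos]; linarith
  have := mixS (μ := μ) (a := (1 - μ) * (3 : ℕ) + μ * (4 : ℕ)) (N₁ := 7 / 9 + 4 / 9 * A)
      (N₂ := 1 - A) P hy (by linarith) h1
      (m3 P B (j := 1) hA (by linarith) hy (by push_cast; linarith) (by linarith) le_rfl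
        (by push_cast; linarith)) (m4 P B hA (by linarith))
      (by push_cast; linarith) (by push_cast; linarith) rfl
      (by push_cast; linear_combination hμm) (by
        -- multiply by `A - y`
        have key : 0 ≤ (A - y) * ((1 - μ) * (7 / 9 + 4 / 9 * A) + μ * (1 - A) - 5 / 6) := by
          have e : (A - y) * ((1 - μ) * (7 / 9 + 4 / 9 * A) + μ * (1 - A) - 5 / 6) =
              4 * ((A - 1 / 6) * (y - (8 / 9 - 43 / 9 * A))) / 4 := by
            linear_combination (1 - A - (7 / 9 + 4 / 9 * A)) * hμm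
          rw [e]
          have h3 := mul_nonneg (sub_nonneg.2 hA) (sub_nonneg.2 hF)
          linarith
        have := nonneg_of_mul_nonneg_right key hpos
        linarith)
  exact this.mono (by push_cast; linarith)

set_option maxHeartbeats 2000000 in
/-- the lumps `A ∈ [1/6, 8/43]` with small pieces -/
theorem ptS3a (P : Par d e₀ t) (B : ProvE (7 / 8 + d) r s s₀ rc bc) {A y : ℝ}
    (hA : 1 / 6 ≤ A) (hA' : A ≤ 8 / 43) (hy : 0 < y) (hy1 : y ≤ 13 / 100) :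
    PtS rc e₀ t (7 / 2) A y := by
  rcases lt_or_ge (4 / 3 - 7 * A) y with hcy | hcy
  · -- `y > c`
    obtain ⟨θ, hθ⟩ : ∃ θ : ℝ, θ = (4 / 3 - 7 * A) / y := ⟨_, rfl⟩
    have hθy : θ * y = 4 / 3 - 7 * A := by rw [hθ]; exact div_mul_cancel₀ _ hy.ne'
    have h0 : 0 ≤ θ := by rw [hθ]; exact div_nonneg (by linarith) hy.le
    have h1 : θ ≤ 1 := by rw [hθ, div_le_one hy]; linarith
    exact half (i := 0) (N₁ := 7 / 9 + 4 / 9 * A) (N₂ := 7 / 9 + 4 / 9 * A) P B hA hA' hy h0 h1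
      (by push_cast; linarith)
      (m3 P B (j := 0) hA (by linarith) hy (by push_cast; linarith) (by linarith) le_rfl
        (by push_cast; linarith))
      (m3 P B (j := 1) hA (by linarith) hy (by push_cast; linarith) (by linarith) le_rfl
        (by push_cast; linarith))
      (by push_cast; linarith) (by push_cast; linarith) (by linarith)
  rcases le_or_gt (8 / 9 - 43 / 9 * A) y with hF | hF
  · exact opt2 P B hA hA' hy hy1 hcy hF
  -- `i = ⌊c / y⌋`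
  obtain ⟨i, hi⟩ : ∃ i : ℕ, i = ⌊(4 / 3 - 7 * A) / y⌋₊ := ⟨_, rfl⟩
  have hi1 : (i : ℝ) * y ≤ 4 / 3 - 7 * A := by
    have := Nat.floor_le (div_nonneg (by linarith : (0 : ℝ) ≤ 4 / 3 - 7 * A) hy.le)
    rw [← hi, le_div_iff₀ hy] at this
    exact this
  have hi2 : 4 / 3 - 7 * A < (i + 1) * y := by
    have := Nat.lt_floor_add_one ((4 / 3 - 7 * A) / y)
    rw [← hi, div_lt_iff₀ hy] at this
    exact this
  have hi0 : 1 ≤ i := by
    rw [hi, Nat.one_le_floor_iff, le_div_iff₀ hy]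
    linarith
  have hi0' : (1 : ℝ) ≤ i := by exact_mod_cast hi0
  obtain ⟨θ, hθ⟩ : ∃ θ : ℝ, θ = (4 / 3 - 7 * A - i * y) / y := ⟨_, rfl⟩
  have hθy : θ * y = 4 / 3 - 7 * A - i * y := by rw [hθ]; exact div_mul_cancel₀ _ hy.ne'
  have h0 : 0 ≤ θ := by rw [hθ]; exact div_nonneg (by linarith) hy.le
  have h1 : θ ≤ 1 := by rw [hθ, div_le_one hy]; linarith
  have hc : (i + θ) * y = 4 / 3 - 7 * A := by linarith
  have hiy : y ≤ i * y := le_mul_of_one_le_left hy.le hi0'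
  -- `(1 + θ) z ≤ 2 c`
  have hz2 : (1 + θ) * ((i + 1) * y) ≤ 2 * (4 / 3 - 7 * A) := by
    have e : 2 * (4 / 3 - 7 * A) - (1 + θ) * ((i + 1) * y) = (1 - θ) * ((i - 1) * y) := by
      linear_combination -2 * hc
    have := mul_nonneg (sub_nonneg.2 h1) (mul_nonneg (sub_nonneg.2 hi0') hy.le)
    linarith
  have M1 : ∀ N : ℝ, i * y + N ≤ 1 → N ≤ 7 / 9 + 4 / 9 * A → 3 * A + i * y ≤ N →
      MCol rc e₀ (Multiset.replicate 3 A + Multiset.replicate i y) N := fun N a1 a2 a3 =>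
    m3 P B hA (by linarith) hy a1 (by linarith) a2 a3
  have M2 : ∀ N : ℝ, (i + 1) * y + N ≤ 1 → N ≤ 7 / 9 + 4 / 9 * A → 3 * A + (i + 1) * y ≤ N →
      MCol rc e₀ (Multiset.replicate 3 A + Multiset.replicate (i + 1) y) N := fun N a1 a2 a3 =>
    m3 P B hA (by linarith) hy (by push_cast; linarith) (by linarith) a2 (by push_cast; linarith)
  obtain ⟨z, hz⟩ : ∃ z : ℝ, z = (i + 1) * y := ⟨_, rfl⟩
  rw [← hz] at hi2 hz2 M2
  have hzi : i * y = z - y := by rw [hz]; ring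
  have hθz : (i + θ) * y = z - (1 - θ) * y := by rw [hz]; ring
  have hzc : z ≤ 4 / 3 - 7 * A + y := by linarith
  rcases le_or_gt z (1 / 6) with h6 | h6
  · rcases le_total z (2 / 9 - 4 / 9 * A) with hx | hx
    · -- (3a)
      exact half (N₁ := 7 / 9 + 4 / 9 * A) (N₂ := 7 / 9 + 4 / 9 * A) P B hA hA' hy h0 h1 hc
        (M1 _ (by linarith) le_rfl (by linarith)) (M2 _ (by linarith) le_rfl (by linarith))
        (by linarith) (by rw [← hz]; linarith) (by linarith)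
    · rcases le_total (i * y) (2 / 9 - 4 / 9 * A) with hx' | hx'
      · -- (3b)
        refine half (N₁ := 7 / 9 + 4 / 9 * A) (N₂ := 1 - z) P B hA hA' hy h0 h1 hc
          (M1 _ (by linarith) le_rfl (by linarith)) (M2 _ (by linarith) (by linarith)
            (by linarith)) (by linarith) (by rw [← hz]; linarith) ?_
        have hz0 : 0 < z := by linarith
        have k1 := mul_nonneg (sub_nonneg.2 hz2) (sub_nonneg.2 hx)
        have k2 : 0 ≤ (2 * (4 / 3 - 7 * A) - z) * (1 - 6 * z) :=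
          mul_nonneg (by
            have := mul_nonneg h0 hz0.le
            linarith) (by linarith)
        have k3 : 0 ≤ (z - (4 / 3 - 7 * A)) * (z / 14 - 1 / 189) :=
          mul_nonneg (by linarith) (by linarith)
        have k4 : 0 ≤ (z - (4 / 3 - 7 * A)) * (4 / 27 - (2 / 9 - 4 / 9 * A)) :=
          mul_nonneg (by linarith) (by linarith)
        have key : 0 ≤ z * ((1 - θ) * (7 / 9 + 4 / 9 * A) + θ * (1 - z) - (2 / 3 + A)) := by
          have e : z * ((1 - θ) * (7 / 9 + 4 / 9 * A) + θ * (1 - z) - (2 / 3 + A)) =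
              (2 * (4 / 3 - 7 * A) - (1 + θ) * z) * (z - (2 / 9 - 4 / 9 * A)) +
              1 / 7 * ((2 * (4 / 3 - 7 * A) - z) * (1 - 6 * z)) +
              2 * ((z - (4 / 3 - 7 * A)) * (z / 14 - 1 / 189)) +
              2 * ((z - (4 / 3 - 7 * A)) * (4 / 27 - (2 / 9 - 4 / 9 * A))) := by ring
          rw [e]
          linarith
        have := (mul_nonneg_iff_of_pos_left hz0).1 key
        linarith
      · -- (3b')
        refine half (N₁ := 1 - i * y) (N₂ := 1 - z) P B hA hA' hy h0 h1 hc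
          (M1 _ (by linarith) (by linarith) (by linarith)) (M2 _ (by linarith) (by linarith)
            (by linarith)) (by linarith) (by rw [← hz]; linarith) ?_
        have e : (1 - θ) * (1 - i * y) + θ * (1 - z) = 1 - (i + θ) * y := by rw [hz]; ring
        rw [e, hc]
        linarith
  · have hm2 : MCol rc e₀ (Multiset.replicate 3 A + Multiset.replicate (i + 1) y) (5 / 6) :=
      mcolC P B hy (by linarith) (by linarith) (by linarith) (by linarith) (by linarith)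
        (by linarith) (by
          rcases le_or_gt 1 (4 * A + 5 * y) with h | h
          · exact Or.inl h
          · exact Or.inr (by linarith)) (by linarith)
    rcases le_total (i * y) (2 / 9 - 4 / 9 * A) with hx' | hx'
    · -- (3c)
      refine half (N₁ := 7 / 9 + 4 / 9 * A) (N₂ := 5 / 6) P B hA hA' hy h0 h1 hc
        (M1 _ (by linarith) le_rfl (by linarith)) hm2 (by linarith) (by rw [← hz]; linarith) ?_
      have k1 : (1 + θ) * (1 / 6) ≤ 2 * (4 / 3 - 7 * A) :=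
        (mul_le_mul_of_nonneg_left h6.le (by linarith)).trans hz2
      have k2 := mul_nonneg (show (0 : ℝ) ≤ 8 * A - 1 by linarith)
        (show (0 : ℝ) ≤ 12 * (4 / 3 - 7 * A) - 1 - θ by linarith)
      have k3 := mul_nonneg (show (0 : ℝ) ≤ A - 1 / 6 by linarith)
        (show (0 : ℝ) ≤ A - 1 / 6 by linarith)
      nlinarith
    · -- (3c')
      refine half (N₁ := 1 - i * y) (N₂ := 5 / 6) P B hA hA' hy h0 h1 hc
        (M1 _ (by linarith) (by linarith) (by linarith)) hm2 (by linarith)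
        (by rw [← hz]; linarith) ?_
      have e : (1 - θ) * (1 - i * y) + θ * (5 / 6) =
          1 - (i + θ) * y + θ * (z - 1 / 6) := by rw [hz]; ring
      rw [e, hc]
      have := mul_nonneg h0 (sub_nonneg.2 h6.le)
      linarith

/-- the lumps `A ∈ [1/6, 8/43]` with Möbius mass -/
theorem ptM3a (P : Par d e₀ t) (B : ProvE (7 / 8 + d) r s s₀ rc bc) {A : ℝ}
    (hA : 1 / 6 ≤ A) (hA' : A ≤ 8 / 43) : PtM rc e₀ t (7 / 2) A := by
  have ht := P.t0.le
  have ht3 := P.t3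
  have g1 : 0 ≤ 1 - A - 4 * A := by linarith
  have g2 : 0 ≤ 7 / 9 + 4 / 9 * A - 3 * A - (4 / 3 - 7 * A) := by linarith
  obtain ⟨K, hK⟩ : ∃ K, K = 1 / 2 * (1 - A - 4 * A) +
    (1 - 1 / 2) * (7 / 9 + 4 / 9 * A - 3 * A - (4 / 3 - 7 * A)) := ⟨_, rfl⟩
  have hK1 : 1 / 6 ≤ K := by rw [hK]; linarith
  have hK0 : 0 < K := by linarith
  obtain ⟨σ, hσ⟩ : ∃ σ, σ = (1 / 6 - t / 2) / K := ⟨_, rfl⟩
  have hσ0 : 0 ≤ σ := by rw [hσ]; exact div_nonneg (by linarith) hK0.le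
  have hσ1 : σ ≤ 1 := by rw [hσ, div_le_one hK0]; linarith
  have hσK : σ * K = 1 / 6 - t / 2 := by rw [hσ]; exact div_mul_cancel₀ _ hK0.ne'
  have M3 : MCol rc e₀ (Multiset.replicate 3 A) (7 / 9 + 4 / 9 * A) := by
    have := m3 P B (y := 1) (j := 0) (N := 7 / 9 + 4 / 9 * A) hA (by linarith)
      one_pos (by push_cast; linarith) (by linarith) (by linarith) (by push_cast; linarith)
    simpa using this
  have c3 : Col rc e₀ (fun _ : Fin 1 => A) (fun _ => 3) (4 / 3 - 7 * A)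
      (σ * (7 / 9 + 4 / 9 * A - 3 * A - (4 / 3 - 7 * A))) :=
    colU (by linarith) (mul_nonneg hσ0 g2) M3 (by
      have := mul_le_of_le_one_left g2 hσ1
      push_cast
      linarith)
  have c4 : Col rc e₀ (fun _ : Fin 1 => A) (fun _ => 4) 0 (σ * (1 - A - 4 * A)) :=
    colU le_rfl (mul_nonneg hσ0 g1) (m4 P B hA (by linarith)) (by
      have := mul_le_of_le_one_left g1 hσ1
      push_cast
      linarith)
  refine ⟨7 / 2, le_rfl, by linarith, ?_⟩
  refine two c4 c3 (μ := 1 / 2) (by norm_num) (by norm_num) (fun _ => ?_) (by ring) ?_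
  · push_cast; ring
  · rw [← hσK, hK]; ring

/-- **s3a** -/
theorem single3a : Single (1 / 6) (4 / 21) (7 / 2) := by
  intro d e₀ t P r s s₀ rc bc B A hA hA'
  rcases le_total (8 / 43) A with h43 | h43
  · have hl : 7 / 2 ≤ 2 / (3 * A) := by
      rw [le_div_iff₀ (by linarith)]; linarith
    exact ⟨(pure3M P B h43 (by linarith)).mono hl, fun y hy _ =>
      (pure3 P B h43 (by linarith) hy).mono hl⟩
  · exact ⟨ptM3a P B hA h43, fun y hy hy1 => ptS3a P B hA h43 hy hy1⟩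

/-- **s3b** -/
theorem single3b : CovMap702.SingleP (4 / 21) (1 / 5) := by
  intro d e₀ t P r s s₀ rc bc B A hA hA'
  exact single3P d e₀ t P r s s₀ rc bc B A (by linarith) hA'

end Crest.Agent.R017.CovSing4741
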