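import Crest.Agent.R017.CovEnd_702
import Crest.Agent.R017.CovSing4_741

/-!
# Row 17, T.2 : the certificate of the absolute boxes from the trees, second weights (helper741)
-/

set_option autoImplicit false

noncomputable section

namespace Crest.Agent.R017.CovEnd2741

open Crest.Agent.R017.ER911 Crest.Agent.R017.CovMap702 Crest.Agent.R017.Prov71
  Crest.Agent.R017.CovM59 Crest.Agent.R017.Cone59

/-- the points of the single lumps, second list -/
theorem sgl2 : Sgl lw2 := sgl_lw2 Sgl1_645.s1 Sgl2_744.s2 CovSing4741.single3a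
  CovSing4741.single3b CovSing3741.single3 CovSing741.single4 CovSing741.single5
  CovSing741.single6

/-- **the certificate of the absolute boxes from the trees for `lw2`** -/
theorem certA_of_trees2 (hT : ∀ k, 3 ≤ k → k ≤ 8 → TreeD lw2 k) {θ : ℝ} (hθ : 7 / 8 < θ)
    (hθ1 : θ < 1) : ∃ μ : ℝ, 0 < μ ∧ μ ≤ 1 / 12 ∧
      ∀ r s s₀ rc bc : EF, ProvE θ r s s₀ rc bc →
        TopC702.BoxAll θ μ (BxE986.AL (9 / 10) 1 w5) bc :=
  certA_of_w sgl2 EyP645.eyP hT hθ hθ1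

/-- the coverage from the trees for `lw2` -/
theorem covAll_of_trees2 (hT : ∀ k, 3 ≤ k → k ≤ 8 → TreeD lw2 k) {θ : ℝ} (hθ : 7 / 8 < θ)
    (hθ1 : θ < 1) : ∃ e₀ t μ : ℝ, 0 ≤ t ∧ t ≤ 1 / 3 ∧ 0 < μ ∧
      2 * e₀ + (2 * θ - 1) * t + μ ≤ b2 θ ∧ BoxAll702.CovAll θ e₀ t := by
  obtain ⟨d, rfl⟩ : ∃ d, θ = 7 / 8 + d := ⟨θ - 7 / 8, by ring⟩
  exact covAll_of_w sgl2 EyP645.eyP hT (by linarith) (by linarith)

/-- a tree for `lw` feeds `lw2` -/
theorem treeD2_of_tree {k : ℕ} (h : Tree k) : TreeD lw2 k :=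
  treeD_of_tree EyP645.eyP (tree2_of_tree h)

theorem treeD2_of_tree2 {k : ℕ} (h : TreeW lw2 k) : TreeD lw2 k :=
  treeD_of_tree EyP645.eyP h

end Crest.Agent.R017.CovEnd2741
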