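import Crest.Agent.R017.CovSing_741
import Crest.Agent.R017.C5_720

/-!
# Row 17, T.2 : the points of a single lump `A ∈ [1/6, 2/9]`, three copies (helper741)

`single3 : Single (1/6) (2/9) 3`
-/

set_option autoImplicit false

noncomputable section

namespace Crest.Agent.R017.CovSing3741

open Crest.Agent.R017.ER911 Crest.Agent.R017.Hull741 Crest.Agent.R017.CovM59
  Crest.Agent.R017.CovGlue741 Crest.Agent.R017.ExpC702 Crest.Agent.R017.CovNear177
  Crest.Agent.R017.Prov71 Crest.Agent.R017.HC777 Crest.Agent.R017.Cov499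
  Crest.Agent.R017.CovMap702 Crest.Agent.R017.CovSing741

variable {d e₀ t : ℝ} {r s s₀ rc bc : EF}

theorem rep_three (A : ℝ) : Multiset.replicate 3 A = {A, A} + {A} := by
  show Multiset.replicate (2 + 1) A = _
  rw [Multiset.replicate_add]
  rfl

/-- `{A, A, A, y^j}` from `C5V`, `V = {y^(j-1)}` -/
theorem mcolC (P : Par d e₀ t) (B : ProvE (7 / 8 + d) r s s₀ rc bc) {A y : ℝ} {i : ℕ}
    (hy : 0 < y) (hyA : y ≤ A) (hi : 6 * (i * y) ≤ 1) (h8 : 1 ≤ 8 * A)
    (hAA : 18 * A + 9 * y ≤ 4) (hBB : 63 * A + 45 * y ≤ 16) (hCC : 27 * A + 12 * y ≤ 6)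
    (hEE : 1 ≤ 4 * A + 5 * y ∨ 9 * A + 6 * y ≤ 2) (hS : 9 * A + 3 * y ≤ 2) :
    MCol rc e₀ (Multiset.replicate 3 A + Multiset.replicate (i + 1) y) (5 / 6) := by
  intro f g hf hg hN
  have hA0 : 0 < A := lt_of_lt_of_le hy hyA
  have e : Multiset.replicate 3 A + Multiset.replicate (i + 1) y =
      Multiset.replicate i y + (y ::ₘ A ::ₘ {A, A}) := by
    rw [rep_three, Multiset.replicate_add, Multiset.replicate_one]
    simp only [Multiset.insert_eq_cons, ← Multiset.singleton_add]
    abel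
  have es : (Multiset.replicate 3 A + Multiset.replicate (i + 1) y).sum =
      i * y + (A + A + A + y) := by
    rw [Multiset.sum_add, Multiset.sum_replicate, Multiset.sum_replicate, nsmul_eq_mul,
      nsmul_eq_mul]
    push_cast
    ring
  have hVs : (Multiset.replicate i y).sum = i * y := by
    rw [Multiset.sum_replicate, nsmul_eq_mul]
  rw [es] at hN
  refine B.cpl.le 1 _ _ _ _ zero_le_one ⟨?_, hf, hg⟩ fun κ' k0 k1 => ?_
  · intro x hx
    rcases Multiset.mem_add.1 hx with hx | hx
    · rw [Multiset.eq_of_mem_replicate hx]; exact hA0.le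
    · rw [Multiset.eq_of_mem_replicate hx]; exact hy.le
  · have h := C5_720.C5V B.rules B.lv P.d0.le (κ := 1) (V := Multiset.replicate i y) (b₁ := A)
      (b₂ := A) (b₃ := A) (b₄ := y) (m := f) (a := g)
      (fun z hz => by rw [Multiset.eq_of_mem_replicate hz]; exact hy.le)
      (by rw [hVs]; exact hi) hy.le hyA le_rfl le_rfl (by linarith) (by linarith) (by linarith)
      (by linarith) (by rcases hEE with h | h
                        · exact Or.inl (by linarith)
                        · exact Or.inr (by linarith)) (by linarith) hf hg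
      (by rw [hVs]; linarith) κ' k0 k1
    have hde := P.de
    have hd := P.d0
    rw [hVs] at h
    rw [e, ← e, es, e]
    linarith

/-- two columns, scaled -/
theorem two_scaled (P : Par d e₀ t) {N : ℕ} {u : Fin N → ℝ} {n₁ n₂ : Fin N → ℕ}
    {G₁ G₂ μ : ℝ} (hG₁ : 0 ≤ G₁) (hG₂ : 0 ≤ G₂)
    (hc1 : ∀ G' : ℝ, 0 ≤ G' → G' ≤ G₁ → Col rc e₀ u n₁ 0 G')
    (hc2 : ∀ G' : ℝ, 0 ≤ G' → G' ≤ G₂ → Col rc e₀ u n₂ 0 G') (h0 : 0 ≤ μ) (h1 : μ ≤ 1)
    (h : 1 / 6 ≤ μ * G₁ + (1 - μ) * G₂) {z : Fin N → ℝ}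
    (hz : ∀ j, z j = μ * n₁ j + (1 - μ) * n₂ j) :
    ((z, 0, 1 / 6 - t / 2) : Mon N) ∈ Hull (Col rc e₀ u) := by
  have ht3 := P.t3
  have ht := P.t0.le
  set K : ℝ := μ * G₁ + (1 - μ) * G₂ with hK
  have hK0 : 0 < K := by linarith
  set σ : ℝ := (1 / 6 - t / 2) / K with hσ
  have hσ0 : 0 ≤ σ := div_nonneg (by linarith) hK0.le
  have hσ1 : σ ≤ 1 := by rw [hσ, div_le_one hK0]; linarith
  have hσK : σ * K = 1 / 6 - t / 2 := div_mul_cancel₀ _ hK0.ne'
  have c1 := hc1 (σ * G₁) (mul_nonneg hσ0 hG₁) (mul_le_of_le_one_left hG₁ hσ1)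
  have c2 := hc2 (σ * G₂) (mul_nonneg hσ0 hG₂) (mul_le_of_le_one_left hG₂ hσ1)
  refine two c1 c2 h0 h1 hz (by ring) ?_
  rw [← hσK, hK]; ring

/-- the case `{A^4}`, `{A^3, y}` -/
theorem ptS4 (P : Par d e₀ t) (B : ProvE (7 / 8 + d) r s s₀ rc bc) {A y : ℝ} (hy : 0 < y)
    (hy1 : y ≤ 13 / 100) (hA : 1 / 6 ≤ A) (hA5 : 5 * A ≤ 1) (hyD : y ≤ 2 / 3 - 3 * A)
    (hy8 : 8 / 9 - 43 / 9 * A ≤ y) : PtS rc e₀ t 3 A y := by
  have hAA : ∀ z ∈ ({A, A} + {A} + {A} : Multiset ℝ), 13 / 100 ≤ z := by
    intro z hz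
    simp only [Multiset.insert_eq_cons, Multiset.mem_add, Multiset.mem_cons,
      Multiset.mem_singleton, or_self] at hz
    rw [hz]
    linarith
  have hAA' : ∀ z ∈ ({A, A} + {A} : Multiset ℝ), 13 / 100 ≤ z := fun z hz =>
    hAA z (Multiset.mem_add.2 (Or.inl hz))
  obtain ⟨N, hN⟩ : ∃ N, N = min (7 / 9 + 4 / 9 * A) (1 - 3 / 4 * A) := ⟨_, rfl⟩
  have hN1 : N ≤ 7 / 9 + 4 / 9 * A := by rw [hN]; exact min_le_left _ _
  have hN2 : N ≤ 1 - 3 / 4 * A := by rw [hN]; exact min_le_right _ _
  have hN4 : 4 ≤ 4 * N + 3 * A + y := by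
    rcases min_choice (7 / 9 + 4 / 9 * A) (1 - 3 / 4 * A) with h | h
    · rw [hN, h]; linarith
    · rw [hN, h]; linarith
  have hN0 : 5 / 6 ≤ N := by
    rw [hN]; exact le_min (by linarith) (by linarith)
  have m4 : MCol rc e₀ (Multiset.replicate 4 A + Multiset.replicate 0 y) (1 - A) := by
    have e : Multiset.replicate 4 A = {A, A} + {A} + {A} := by
      show Multiset.replicate (3 + 1) A = _
      rw [Multiset.replicate_add, rep_three]
      rfl
    rw [e]
    refine mcol P B ?_ hy hAA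
    have := Col0.t6 (v := y) A A {A} {A} 0 0 (1 - A) (by linarith)
      (by rw [Multiset.sum_singleton]; push_cast; linarith)
      (by rw [Multiset.sum_singleton]; push_cast; linarith) (by linarith)
      (by rw [Multiset.sum_singleton]; push_cast; linarith)
      (by rw [Multiset.sum_singleton]; push_cast; linarith)
    simpa using this
  have m3 : MCol rc e₀ (Multiset.replicate 3 A + Multiset.replicate 1 y) N := by
    rw [rep_three]
    refine mcol P B ?_ hy hAA'
    have := Col0.t6 (v := y) A A {A} 0 0 1 N (by linarith)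
      (by rw [Multiset.sum_zero]; push_cast; linarith)
      (by rw [Multiset.sum_singleton]; push_cast; linarith) (by linarith)
      (by rw [Multiset.sum_singleton]; push_cast; linarith)
      (by rw [Multiset.sum_singleton, Multiset.sum_zero]; push_cast; linarith)
    simpa using this
  have hAy : 0 < A - y := by linarith
  obtain ⟨μ, hμ⟩ : ∃ μ, μ = (2 / 3 - 3 * A - y) / (A - y) := ⟨_, rfl⟩
  have hμA : μ * (A - y) = 2 / 3 - 3 * A - y := by rw [hμ]; exact div_mul_cancel₀ _ hAy.ne'
  have hμ0 : 0 ≤ μ := by rw [hμ]; exact div_nonneg (by linarith) hAy.le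
  have hμ1 : μ ≤ 1 := by rw [hμ, div_le_one hAy]; linarith
  have hmass : (3 + μ) * A + (1 - μ) * y = 2 / 3 := by linear_combination hμA
  refine ⟨3 + μ, by linarith, ?_, ?_⟩
  · have := mul_nonneg (sub_nonneg.2 hμ1) hy.le
    linarith
  have e1 : (2 / 3 - (3 + μ) * A) / y = 1 - μ := by
    rw [div_eq_iff hy.ne']
    linear_combination -hmass
  rw [e1]
  refine two_scaled P (n₁ := ![4, 0]) (n₂ := ![3, 1]) (G₁ := 1 - A - 4 * A)
    (G₂ := N - 3 * A - y) (by linarith) (by linarith)
    (fun G' h0 h1 => colT h0 m4 (by push_cast; linarith))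
    (fun G' h0 h1 => colT h0 m3 (by push_cast; linarith)) hμ0 hμ1 ?_ (fin2 ?_ ?_)
  · have hδ : 0 ≤ (A - 1 / 6) * (4 * N + 3 * A + y - 4) := mul_nonneg (by linarith) (by linarith)
    have h1 : 0 ≤ (A - y) * (μ * (1 - A - 4 * A) + (1 - μ) * (N - 3 * A - y) - 1 / 6) := by
      have e2 : (A - y) * (μ * (1 - A - 4 * A) + (1 - μ) * (N - 3 * A - y) - 1 / 6) =
          (A - 1 / 6) * (4 * N + 3 * A + y - 4) := by
        linear_combination (1 - A - 4 * A - (N - 3 * A - y)) * hμA
      rw [e2]; exact hδ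
    have h2 := (mul_nonneg_iff_of_pos_left hAy).1 h1
    linarith
  · simp only [Matrix.cons_val_zero]; push_cast; ring
  · simp only [Matrix.cons_val_one, Matrix.cons_val_zero]; push_cast; ring

/-- **s3** -/
theorem single3 : Single (1 / 6) (2 / 9) 3 := by
  intro d e₀ t P r s s₀ rc bc B A hA hA'
  have ht := P.t0.le
  have ht3 := P.t3
  have hAA' : ∀ z ∈ ({A, A} + {A} : Multiset ℝ), 13 / 100 ≤ z := by
    intro z hz
    simp only [Multiset.insert_eq_cons, Multiset.mem_add, Multiset.mem_cons,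
      Multiset.mem_singleton, or_self] at hz
    rw [hz]
    linarith
  -- `tz` pieces in `Z`, `tx` in `X`
  have col : ∀ (y : ℝ) (tz tx : ℕ), 0 < y → (tx : ℝ) * y ≤ 1 / 6 → A + tz * y ≤ 2 / 9 →
      3 * A + (tz + tx) * y ≤ 5 / 6 →
      MCol rc e₀ (Multiset.replicate 3 A + Multiset.replicate (tz + tx) y) (5 / 6) := by
    intro y tz tx hy hx hz hl
    rw [rep_three]
    refine mcol P B ?_ hy hAA'
    have := Col0.t6 (v := y) A A {A} 0 tz tx (5 / 6) (by linarith)
      (by rw [Multiset.sum_zero]; linarith)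
      (by rw [Multiset.sum_singleton]; linarith) (by linarith)
      (by rw [Multiset.sum_singleton]; linarith)
      (by rw [Multiset.sum_singleton, Multiset.sum_zero]; linarith)
    simpa using this
  have h0 : MCol rc e₀ (Multiset.replicate 3 A) (5 / 6) := by
    have := col 1 0 0 one_pos (by norm_num) (by norm_num; linarith) (by norm_num; linarith)
    simpa using this
  refine ⟨?_, fun y hy hy1 => ?_⟩
  · exact_mod_cast ptM_one (n := 3) ht (by push_cast; linarith) (by linarith) h0
  obtain ⟨j, hj1, hj2, hj3⟩ := exists_j (D := 2 / 3 - 3 * A) (by linarith) hy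
  have mix : MCol rc e₀ (Multiset.replicate 3 A + Multiset.replicate j y) (5 / 6) →
      PtS rc e₀ t 3 A y := fun hj => by
    exact_mod_cast ptS_mix (n := 3) ht (by linarith) hy hy1 (by linarith)
      (by push_cast; linarith) (by push_cast; linarith) (by push_cast; linarith) h0 hj
  rcases le_or_gt ((j : ℝ) * y) (1 / 6) with h6 | h6
  · -- all in `X`
    refine mix ?_
    have := col y 0 j hy h6 (by push_cast; linarith) (by push_cast; linarith)
    simpa using this
  rcases le_or_gt y (1 / 18) with h18 | h18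
  · -- one piece in `Z`
    have hj4 : 4 ≤ j := by
      by_contra hc
      have : (j : ℝ) ≤ 3 := by exact_mod_cast (by omega : j ≤ 3)
      have := mul_le_mul_of_nonneg_right this hy.le
      linarith
    obtain ⟨i, rfl⟩ : ∃ i, j = 1 + i := ⟨j - 1, by omega⟩
    have hi3 : (3 : ℝ) ≤ i := by exact_mod_cast (by omega : 3 ≤ i)
    have h3y := mul_le_mul_of_nonneg_right hi3 hy.le
    push_cast at hj1 hj2 hj3
    refine mix ?_
    exact col y 1 i hy (by linarith) (by push_cast; linarith) (by push_cast; linarith)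
  have hj2' : 2 ≤ j := by
    by_contra hc
    have : (j : ℝ) ≤ 1 := by exact_mod_cast (by omega : j ≤ 1)
    have := mul_le_mul_of_nonneg_right this hy.le
    linarith
  rcases le_or_gt y (1 / 12) with h12 | h12
  · -- `j = 3`
    have hj3' : j = 3 := by
      have h1 : 3 ≤ j := by
        by_contra hc
        have : (j : ℝ) ≤ 2 := by exact_mod_cast (by omega : j ≤ 2)
        have := mul_le_mul_of_nonneg_right this hy.le
        linarith
      have h2 : j ≤ 3 := by
        by_contra hc
        have : (4 : ℝ) ≤ j := by exact_mod_cast (by omega : 4 ≤ j)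
        have := mul_le_mul_of_nonneg_right this hy.le
        linarith
      omega
    subst hj3'
    push_cast at hj1 hj2 hj3
    refine mix ?_
    exact mcolC P B (i := 2) hy (by linarith) (by push_cast; linarith) (by linarith)
      (by linarith) (by linarith) (by linarith) (Or.inr (by linarith)) (by linarith)
  · -- `j = 2`
    have hj2'' : j = 2 := by
      have h2 : j ≤ 2 := by
        by_contra hc
        have : (3 : ℝ) ≤ j := by exact_mod_cast (by omega : 3 ≤ j)
        have := mul_le_mul_of_nonneg_right this hy.le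
        linarith
      omega
    subst hj2''
    push_cast at hj1 hj2 hj3
    rcases le_or_gt y (4 / 9 - 2 * A) with h4 | h4
    · refine mix ?_
      exact mcolC P B (i := 1) hy (by linarith) (by push_cast; linarith) (by linarith)
        (by linarith) (by linarith) (by linarith) (Or.inl (by linarith)) (by linarith)
    · exact ptS4 P B hy hy1 hA (by linarith) (by linarith) (by linarith)

end Crest.Agent.R017.CovSing3741
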