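import Crest.Agent.R017.CovMap_702

/-!
# Row 17, T.2 : the points of a single lump `A ∈ [2/9, 5/6]` (helper741)

* `single4`  : `Single (2/9) (1/3) 2`
* `single5`  : `A ∈ [1/3, 1/2]`, `2/(3A)` copies (pure)
* `single6`  : `Single (1/2) (2/3) 1`
* `single7`  : `A ∈ [2/3, 5/6]`, `2/(3A)` copies (pure)
-/

set_option autoImplicit false

noncomputable section

namespace Crest.Agent.R017.CovSing741

open Crest.Agent.R017.ER911 Crest.Agent.R017.Hull741 Crest.Agent.R017.CovM59
  Crest.Agent.R017.CovGlue741 Crest.Agent.R017.ExpC702 Crest.Agent.R017.CovNear177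
  Crest.Agent.R017.Prov71 Crest.Agent.R017.HC777 Crest.Agent.R017.Cov499
  Crest.Agent.R017.CovMap702

variable {d e₀ t : ℝ} {r s s₀ rc bc : EF}

/-- a main column from a constructor of `Col0`, chunks = single pieces -/
theorem mcol (P : Par d e₀ t) (B : ProvE (7 / 8 + d) r s s₀ rc bc) {y : ℝ} {Y : Multiset ℝ}
    {j : ℕ} {N : ℝ} (h : Col0 y Y j N) (hy : 0 < y) (hY : ∀ z ∈ Y, 13 / 100 ≤ z) :
    MCol rc e₀ (Y + Multiset.replicate j y) N := by
  intro f g hf hg hN
  have h1 := hcol0 B.rules B.lb B.lv B.rem P.d0.le P.d8.le h hY (y := y) (j := 1) (c := j) hy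
    (by simp) (by simp) hf hg (by
      rw [Multiset.sum_add, Multiset.sum_replicate, nsmul_eq_mul] at hN
      exact hN)
  have h2 := h1.mono P.e2
  refine B.cpl.le 1 _ _ _ _ zero_le_one ⟨?_, hf, hg⟩ fun κ' k0 k1 => by
    have := h2 κ' k0 k1
    linarith
  intro x hx
  rcases Multiset.mem_add.1 hx with hx | hx
  · linarith [hY x hx]
  · rw [(Multiset.mem_replicate.1 hx).2]; exact hy.le

/-- a column over `![A, y]` -/
theorem colT {A y : ℝ} {n j : ℕ} {G N : ℝ} (hG : 0 ≤ G)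
    (h : MCol rc e₀ (Multiset.replicate n A + Multiset.replicate j y) N)
    (hl : n * A + j * y + G ≤ N) : Col rc e₀ ![A, y] ![n, j] 0 G := by
  refine ⟨le_rfl, hG, fun f g hf hg h1 _ => ⟨hf, hg, ?_⟩⟩
  have e1 : (∑ i : Fin 2, Multiset.replicate ((![n, j] : Fin 2 → ℕ) i) ((![A, y] : Fin 2 → ℝ) i)) =
      Multiset.replicate n A + Multiset.replicate j y := by
    simp [Fin.sum_univ_two]
  have e2 : ∑ i : Fin 2, ((![n, j] : Fin 2 → ℕ) i : ℝ) * (![A, y] : Fin 2 → ℝ) i =
      n * A + j * y := by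
    simp [Fin.sum_univ_two]
  have e3 : (Multiset.replicate n A + Multiset.replicate j y).sum = n * A + j * y := by
    rw [Multiset.sum_add, Multiset.sum_replicate, Multiset.sum_replicate, nsmul_eq_mul,
      nsmul_eq_mul]
  have h2 := h f g hf hg (by rw [e3]; linarith)
  rw [e3] at h2
  rw [e1, e2]
  exact h2

/-- a column over one lump, with Möbius mass -/
theorem colU {A : ℝ} {n : ℕ} {M G N : ℝ} (hM : 0 ≤ M) (hG : 0 ≤ G)
    (h : MCol rc e₀ (Multiset.replicate n A) N) (hl : n * A + M + G ≤ N) :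
    Col rc e₀ (fun _ : Fin 1 => A) (fun _ => n) M G := by
  refine ⟨hM, hG, fun f g hf hg h1 _ => ⟨hf, hg, ?_⟩⟩
  have e3 : (Multiset.replicate n A).sum = n * A := by
    rw [Multiset.sum_replicate, nsmul_eq_mul]
  have h2 := h f g hf hg (by rw [e3]; linarith)
  rw [e3] at h2
  simpa using h2

/-- void columns -/
theorem voidc (P : Par d e₀ t) (B : ProvE (7 / 8 + d) r s s₀ rc bc) {N : ℕ} {u : Fin N → ℝ}
    (hu : ∀ j, 0 ≤ u j) {G : ℝ} (hG : 0 ≤ G) (hG' : G ≤ 2 / 3) :
    Col rc e₀ u (fun _ => 0) 0 G := by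
  have h1 := P.d0
  have h2 := P.d8
  exact ColG59.col_void (θ := 7 / 8 + d) (by linarith) (by linarith) B.rules B.cpl hu P.e0 le_rfl
    hG (by linarith)

/-- two columns -/
theorem two {N : ℕ} {u : Fin N → ℝ} {n₁ n₂ : Fin N → ℕ} {M₁ M₂ G₁ G₂ μ : ℝ}
    (h1 : Col rc e₀ u n₁ M₁ G₁) (h2 : Col rc e₀ u n₂ M₂ G₂) (h0 : 0 ≤ μ) (h1' : μ ≤ 1)
    {z : Fin N → ℝ} {M G : ℝ} (hz : ∀ j, z j = μ * n₁ j + (1 - μ) * n₂ j)
    (hM : M = μ * M₁ + (1 - μ) * M₂) (hG : G = μ * G₁ + (1 - μ) * G₂) :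
    ((z, M, G) : Mon N) ∈ Hull (Col rc e₀ u) := by
  have key := (convex_hull (Col rc e₀ u)) (subset_hull h1) (subset_hull h2) h0
    (show (0 : ℝ) ≤ 1 - μ by linarith) (by ring)
  convert key using 1
  refine Prod.ext ?_ (Prod.ext ?_ ?_)
  · funext j
    simp [pt, hz j]
  · simp [pt, hM]
  · simp [pt, hG]

theorem one {N : ℕ} {u : Fin N → ℝ} {n : Fin N → ℕ} {M G : ℝ} (h : Col rc e₀ u n M G)
    {z : Fin N → ℝ} (hz : ∀ j, z j = n j) : ((z, M, G) : Mon N) ∈ Hull (Col rc e₀ u) :=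
  two h h (μ := 1) zero_le_one le_rfl (fun j => by rw [hz j]; ring) (by ring) (by ring)

theorem fin2 {P : Fin 2 → Prop} (h0 : P 0) (h1 : P 1) : ∀ j, P j := by
  intro j
  fin_cases j
  · exact h0
  · exact h1

/-- `n` copies of `A` in two main columns with `j` and no copies of `y`, `n A + D = 2/3` -/
theorem ptS_mix (ht : 0 ≤ t) (ht' : 36 * t ≤ 1) {A y : ℝ} {n j : ℕ} (hy : 0 < y)
    (hy1 : y ≤ 13 / 100)
    (hA : 0 ≤ A) (hD : (n : ℝ) * A ≤ 2 / 3)
    (hj1 : (2 / 3 - n * A) ≤ j * y) (hj2 : (n : ℝ) * A + j * y ≤ 2 / 3 + y)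
    (h0 : MCol rc e₀ (Multiset.replicate n A) (5 / 6))
    (hj : MCol rc e₀ (Multiset.replicate n A + Multiset.replicate j y) (5 / 6)) :
    PtS rc e₀ t n A y := by
  refine ⟨n, le_rfl, hD, ?_⟩
  have c0 : Col rc e₀ ![A, y] ![n, 0] 0 (5 / 6 - t / 2 - n * A) :=
    colT (N := 5 / 6) (by linarith) (by simpa using h0) (by push_cast; linarith)
  have cj : Col rc e₀ ![A, y] ![n, j] 0 (5 / 6 - t / 2 - n * A - j * y) :=
    colT (by linarith) hj (by linarith)
  rcases Nat.eq_zero_or_pos j with rfl | hj0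
  · have hz : 2 / 3 - (n : ℝ) * A = 0 := by
      push_cast at hj1
      linarith
    rw [hz, zero_div]
    have e : (5 / 6 - t / 2 - (n : ℝ) * A) = 1 / 6 - t / 2 := by linarith
    rw [e] at c0
    exact one c0 (fin2 (by simp) (by simp))
  · have hjy : 0 < (j : ℝ) * y := mul_pos (by exact_mod_cast hj0) hy
    have hjR : (0 : ℝ) < j := by exact_mod_cast hj0
    refine two cj c0 (μ := (2 / 3 - n * A) / (j * y)) (div_nonneg (by linarith) hjy.le)
      (by rw [div_le_one hjy]; exact hj1) (fin2 ?_ ?_) (by ring) ?_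
    · simp only [Matrix.cons_val_zero]
      ring
    · simp only [Matrix.cons_val_one, Matrix.cons_val_zero, Nat.cast_zero, mul_zero, add_zero]
      field_simp
    · have : (2 / 3 - n * A) / (j * y) * (j * y) = 2 / 3 - n * A := div_mul_cancel₀ _ hjy.ne'
      linear_combination (1 : ℝ) * this

theorem ptM_one {A : ℝ} {n : ℕ} (ht : 0 ≤ t) (hD : (n : ℝ) * A ≤ 2 / 3) (ht3 : t ≤ 1 / 3)
    (h0 : MCol rc e₀ (Multiset.replicate n A) (5 / 6)) : PtM rc e₀ t n A := by
  refine ⟨n, le_rfl, hD, ?_⟩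
  exact one (colU (by linarith) (by linarith) h0 (by linarith)) fun _ => rfl

/-! ### `A ∈ [2/9, 1/3]` -/

/-- the number of pieces -/
theorem exists_j {D y : ℝ} (hD : 0 ≤ D) (hy : 0 < y) :
    ∃ j : ℕ, D ≤ j * y ∧ (j : ℝ) * y ≤ D + y ∧ ((j : ℝ) - 1) * y ≤ D := by
  refine ⟨⌈D / y⌉₊, ?_, ?_, ?_⟩
  · have := Nat.le_ceil (D / y)
    rwa [div_le_iff₀ hy] at this
  · have h := (Nat.ceil_lt_add_one (div_nonneg hD hy.le)).le
    have h2 := mul_le_mul_of_nonneg_right h hy.le
    rw [add_mul, div_mul_cancel₀ _ hy.ne', one_mul] at h2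
    exact h2
  · have h := (Nat.ceil_lt_add_one (div_nonneg hD hy.le)).le
    have h2 := mul_le_mul_of_nonneg_right h hy.le
    rw [add_mul, div_mul_cancel₀ _ hy.ne', one_mul] at h2
    linarith

theorem rep_two (A : ℝ) : Multiset.replicate 2 A = {A, A} := rfl

theorem rep_one (A : ℝ) : Multiset.replicate 1 A = {A} := rfl

/-- the split of the pieces -/
theorem exists_split {D y : ℝ} {j : ℕ} (hD : D ≤ 2 / 9) (hy : 0 < y)
    (hj2 : (j : ℝ) * y ≤ D + y) :
    ∃ tz tx : ℕ, tz + tx = j ∧ (tx : ℝ) * y ≤ 1 / 6 ∧ (tz : ℝ) * y ≤ 2 / 15 + 2 / 5 * D ∨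
      13 / 100 < y ∨ D < 0 := by
  by_cases hy1 : 13 / 100 < y
  · exact ⟨0, 0, Or.inr (Or.inl hy1)⟩
  by_cases hD0 : D < 0
  · exact ⟨0, 0, Or.inr (Or.inr hD0)⟩
  push Not at hy1 hD0
  rcases Nat.eq_zero_or_pos j with rfl | hj
  · exact ⟨0, 0, Or.inl ⟨rfl, by norm_num, by norm_num; linarith⟩⟩
  have hjR : ((j - 1 : ℕ) : ℝ) = (j : ℝ) - 1 := by
    rw [Nat.cast_sub hj]; norm_num
  rcases lt_or_ge (1 / 12) y with h | h
  · refine ⟨j - 1, 1, Or.inl ⟨by omega, by norm_num; linarith, ?_⟩⟩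
    rw [hjR]
    linarith
  · -- `y ≤ 1/12`
    set q : ℕ := ⌊1 / 6 / y⌋₊ with hq
    have hq1 : (q : ℝ) * y ≤ 1 / 6 := by
      have := Nat.floor_le (div_nonneg (by norm_num : (0 : ℝ) ≤ 1 / 6) hy.le)
      rwa [le_div_iff₀ hy] at this
    have hq2 : 1 / 6 - y ≤ (q : ℝ) * y := by
      have h1 := (Nat.lt_floor_add_one (1 / 6 / y)).le
      have h2 := mul_le_mul_of_nonneg_right h1 hy.le
      rw [div_mul_cancel₀ _ hy.ne', add_mul, one_mul] at h2
      linarith
    rcases le_total j q with hjq | hjq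
    · refine ⟨0, j, Or.inl ⟨by omega, ?_, by norm_num; linarith⟩⟩
      have : (j : ℝ) ≤ q := by exact_mod_cast hjq
      exact (mul_le_mul_of_nonneg_right this hy.le).trans hq1
    · refine ⟨j - q, q, Or.inl ⟨by omega, hq1, ?_⟩⟩
      rw [Nat.cast_sub hjq, sub_mul]
      linarith

/-- **s4** -/
theorem single4 : Single (2 / 9) (1 / 3) 2 := by
  intro d e₀ t P r s s₀ rc bc B A hA hA'
  have ht := P.t0.le
  have ht3 := P.t3
  have hAA : ∀ z ∈ ({A, A} : Multiset ℝ), 13 / 100 ≤ z := by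
    intro z hz
    simp only [Multiset.insert_eq_cons, Multiset.mem_cons, Multiset.mem_singleton, or_self] at hz
    rw [hz]
    linarith
  have h0 : MCol rc e₀ (Multiset.replicate 2 A) (5 / 6) := by
    have h := mcol P B (y := 1) (j := 0) (Y := {A, A}) (N := 5 / 6) (by
      have := Col0.t6 (v := 1) A A 0 0 0 0 (5 / 6) (by linarith) (by norm_num) (by norm_num)
        (by linarith) (by norm_num; linarith) (by norm_num; linarith)
      simpa using this) one_pos hAA
    simpa [rep_two] using h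
  refine ⟨?_, fun y hy hy1 => ?_⟩
  · exact_mod_cast ptM_one (n := 2) ht (by push_cast; linarith) (by linarith) h0
  · obtain ⟨j, hj1, hj2, hj3⟩ := exists_j (D := 2 / 3 - 2 * A) (by linarith) hy
    obtain ⟨tz, tx, h | h | h⟩ := exists_split (D := 2 / 3 - 2 * A) (by linarith) hy hj2
    · obtain ⟨hjj, hx, hz⟩ := h
      have hjj' : (tz : ℝ) + tx = j := by exact_mod_cast hjj
      have hj : MCol rc e₀ (Multiset.replicate 2 A + Multiset.replicate j y) (5 / 6) := by
        refine mcol P B (y := y) (j := j) (Y := Multiset.replicate 2 A) (N := 5 / 6) ?_ hy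
          (by rw [rep_two]; exact hAA)
        have hjy : ((tz : ℝ) + tx) * y = j * y := by rw [hjj']
        have := Col0.t6 (v := y) A A 0 0 tz tx (5 / 6) (by linarith)
          (by rw [Multiset.sum_zero]; linarith) (by rw [Multiset.sum_zero]; linarith)
          (by linarith) (by rw [Multiset.sum_zero]; linarith)
          (by rw [Multiset.sum_zero]; linarith)
        rw [hjj] at this
        simpa [rep_two] using this
      exact_mod_cast ptS_mix (n := 2) ht (by linarith) hy hy1 (by linarith)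
        (by push_cast; linarith) (by push_cast; linarith) (by push_cast; linarith) h0 hj
    · linarith
    · linarith

/-- **s6** -/
theorem single6 : Single (1 / 2) (2 / 3) 1 := by
  intro d e₀ t P r s s₀ rc bc B A hA hA'
  have ht := P.t0.le
  have ht3 := P.t3
  have hAA : ∀ z ∈ ({A} : Multiset ℝ), 13 / 100 ≤ z := by
    intro z hz
    rw [Multiset.mem_singleton.1 hz]
    linarith
  have h0 : MCol rc e₀ (Multiset.replicate 1 A) (5 / 6) := by
    have h := mcol P B (y := 1) (j := 0) (Y := {A}) (N := 5 / 6) (by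
      have := Col0.t6s (v := 1) A 0 0 0 0 (5 / 6) (by linarith) (by norm_num) (by norm_num)
        (by linarith) (by norm_num; linarith) (by norm_num; linarith)
      simpa using this) one_pos hAA
    simpa [rep_one] using h
  refine ⟨?_, fun y hy hy1 => ?_⟩
  · exact_mod_cast ptM_one (n := 1) ht (by push_cast; linarith) (by linarith) h0
  · obtain ⟨j, hj1, hj2, hj3⟩ := exists_j (D := 2 / 3 - A) (by linarith) hy
    have hj : MCol rc e₀ (Multiset.replicate 1 A + Multiset.replicate j y) (5 / 6) := by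
      refine mcol P B (y := y) (j := j) (Y := Multiset.replicate 1 A) (N := 5 / 6) ?_ hy
        (by rw [rep_one]; exact hAA)
      rcases Nat.eq_zero_or_pos j with rfl | hj0
      · have := Col0.t6s (v := y) A 0 0 0 0 (5 / 6) (by linarith) (by norm_num) (by norm_num)
          (by linarith) (by norm_num; linarith) (by norm_num; linarith)
        simpa [rep_one] using this
      · obtain ⟨i, rfl⟩ : ∃ i, j = 1 + i := ⟨j - 1, by omega⟩
        push_cast at hj1 hj2 hj3
        have := Col0.t6s (v := y) A 0 0 1 i (5 / 6) (by linarith)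
          (by rw [Multiset.sum_zero]; linarith) (by rw [Multiset.sum_zero]; push_cast; linarith)
          (by linarith) (by rw [Multiset.sum_zero]; push_cast; linarith)
          (by rw [Multiset.sum_zero]; push_cast; linarith)
        simpa [rep_one] using this
    exact_mod_cast ptS_mix (n := 1) ht (by linarith) hy hy1 (by linarith)
      (by push_cast; linarith) (by push_cast; linarith) (by push_cast; linarith) h0 hj

/-! ### pure points -/

/-- scaling a pure column and a void column -/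
theorem ptP (P : Par d e₀ t) (B : ProvE (7 / 8 + d) r s s₀ rc bc) {N : ℕ} {u : Fin N → ℝ}
    (hu : ∀ j, 0 ≤ u j) {n : Fin N → ℕ} {G μ : ℝ}
    (hc : ∀ G' : ℝ, 0 ≤ G' → G' ≤ G → Col rc e₀ u n 0 G') (hG : 0 ≤ G) (h0 : 0 ≤ μ) (h1 : μ ≤ 1)
    (h : 1 / 6 ≤ μ * G + (1 - μ) * (2 / 3)) {z : Fin N → ℝ} (hz : ∀ j, z j = μ * n j) :
    ((z, 0, 1 / 6 - t / 2) : Mon N) ∈ Hull (Col rc e₀ u) := by
  have ht3 := P.t3
  have ht := P.t0.le
  set K : ℝ := μ * G + (1 - μ) * (2 / 3) with hK
  have hK0 : 0 < K := by linarith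
  set σ : ℝ := (1 / 6 - t / 2) / K with hσ
  have hσ0 : 0 ≤ σ := div_nonneg (by linarith) hK0.le
  have hσ1 : σ ≤ 1 := by rw [hσ, div_le_one hK0]; linarith
  have hσK : σ * K = 1 / 6 - t / 2 := div_mul_cancel₀ _ hK0.ne'
  have c1 := hc (σ * G) (mul_nonneg hσ0 hG) (mul_le_of_le_one_left hG hσ1)
  have c2 := voidc P B hu (G := σ * (2 / 3)) (by positivity) (by linarith)
  refine two c1 c2 h0 h1 (fun j => ?_) (by ring) ?_
  · rw [hz j]; simp
  · rw [← hσK, hK]; ring

/-- the points of a lump with `2/(3A)` copies -/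
theorem pureP (P : Par d e₀ t) (B : ProvE (7 / 8 + d) r s s₀ rc bc) {A N μ : ℝ} {n : ℕ}
    (hA : 0 < A) (hμ : μ * (n * A) = 2 / 3) (h0 : 0 ≤ μ) (h1 : μ ≤ 1) (hN : n * A ≤ N)
    (h : 1 / 6 ≤ μ * (N - n * A) + (1 - μ) * (2 / 3))
    (hm : MCol rc e₀ (Multiset.replicate n A) N) :
    PtM rc e₀ t (2 / (3 * A)) A ∧ ∀ y, 0 < y → PtS rc e₀ t (2 / (3 * A)) A y := by
  have ea : 2 / (3 * A) * A = 2 / 3 := by field_simp
  have ez : 2 / (3 * A) = μ * n := by
    have h3 : μ * n * A = 2 / 3 := by rw [← hμ]; ring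
    have : 2 / (3 * A) * A = μ * n * A := by rw [ea, h3]
    exact mul_right_cancel₀ hA.ne' this
  refine ⟨⟨2 / (3 * A), le_rfl, ea.le, ?_⟩, fun y hy => ⟨2 / (3 * A), le_rfl, ea.le, ?_⟩⟩
  · rw [ea, sub_self]
    exact ptP P B (u := fun _ : Fin 1 => A) (fun _ => hA.le) (n := fun _ => n) (G := N - n * A)
      (fun G' hG0 hG1 => colU le_rfl hG0 hm (by linarith)) (by linarith) h0 h1 h fun _ => ez
  · rw [ea, sub_self, zero_div]
    refine ptP P B (u := ![A, y]) (fin2 hA.le hy.le) (n := ![n, 0]) (G := N - n * A)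
      (fun G' hG0 hG1 => colT hG0 (by simpa using hm) (by push_cast; linarith)) (by linarith) h0
      h1 h (fin2 ?_ ?_)
    · simpa using ez
    · simp

/-- pure singles -/
def SingleP (lo hi : ℝ) : Prop := AllB fun _ e₀ t rc => ∀ A : ℝ, lo ≤ A → A ≤ hi →
  PtM rc e₀ t (2 / (3 * A)) A ∧ ∀ y : ℝ, 0 < y → y ≤ 13 / 100 → PtS rc e₀ t (2 / (3 * A)) A y

/-- **s5** -/
theorem single5 : SingleP (1 / 3) (1 / 2) := by
  intro d e₀ t P r s s₀ rc bc B A hA hA'
  have hA0 : 0 < A := by linarith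
  have hAA : ∀ z ∈ ({A, A} : Multiset ℝ), 13 / 100 ≤ z := by
    intro z hz
    simp only [Multiset.insert_eq_cons, Multiset.mem_cons, Multiset.mem_singleton, or_self] at hz
    rw [hz]
    linarith
  have hm : MCol rc e₀ (Multiset.replicate 2 A) (7 / 9 + 4 / 9 * A) := by
    have h := mcol P B (y := 1) (j := 0) (Y := {A, A}) (N := 7 / 9 + 4 / 9 * A) (by
      have := Col0.t6 (v := 1) A A 0 0 0 0 (7 / 9 + 4 / 9 * A) (by linarith)
        (by norm_num; linarith) (by norm_num; linarith)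
        (by linarith) (by norm_num; linarith) (by norm_num; linarith)
      simpa using this) one_pos hAA
    simpa [rep_two] using h
  have hm0 : (0 : ℝ) ≤ 1 / (3 * A) := by positivity
  have e1 : 1 / (3 * A) * A = 1 / 3 := by field_simp
  have hle : 1 / (3 * A) ≤ 1 := by
    rw [div_le_one (by positivity)]
    linarith
  have hge : 2 / 3 ≤ 1 / (3 * A) := by
    rw [le_div_iff₀ (by positivity)]
    linarith
  have := pureP P B (n := 2) (μ := 1 / (3 * A)) (N := 7 / 9 + 4 / 9 * A) hA0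
    (by push_cast; linear_combination 2 * e1) hm0 hle (by push_cast; linarith)
    (by push_cast; linarith) hm
  exact ⟨this.1, fun y hy _ => this.2 y hy⟩

/-- `A ∈ [2/3, 5/6]` -/
theorem single7 : SingleP (2 / 3) (5 / 6) := by
  intro d e₀ t P r s s₀ rc bc B A hA hA'
  have hA0 : 0 < A := by linarith
  have hAA : ∀ z ∈ ({A} : Multiset ℝ), 13 / 100 ≤ z := by
    intro z hz
    rw [Multiset.mem_singleton.1 hz]
    linarith
  have hm : MCol rc e₀ (Multiset.replicate 1 A) (7 / 9 + 2 / 9 * A) := by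
    have h := mcol P B (y := 1) (j := 0) (Y := {A}) (N := 7 / 9 + 2 / 9 * A) (by
      have := Col0.t6s (v := 1) A 0 0 0 0 (7 / 9 + 2 / 9 * A) (by linarith)
        (by norm_num; linarith) (by norm_num; linarith)
        (by linarith) (by norm_num; linarith) (by norm_num; linarith)
      simpa using this) one_pos hAA
    simpa [rep_one] using h
  have hm0 : (0 : ℝ) ≤ 2 / (3 * A) := by positivity
  have e1 : 2 / (3 * A) * A = 2 / 3 := by field_simp
  have hle : 2 / (3 * A) ≤ 1 := by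
    rw [div_le_one (by positivity)]
    linarith
  have hge : 4 / 5 ≤ 2 / (3 * A) := by
    rw [le_div_iff₀ (by positivity)]
    linarith
  have := pureP P B (n := 1) (μ := 2 / (3 * A)) (N := 7 / 9 + 2 / 9 * A) hA0
    (by push_cast; linear_combination e1) hm0 hle (by push_cast; linarith)
    (by push_cast; linarith) hm
  exact ⟨this.1, fun y hy _ => this.2 y hy⟩

end Crest.Agent.R017.CovSing741
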