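import Crest.Agent.R017.CovNine_358

/-!
# Row 17, section D: boxes in which every big lump has its own point (helper177)

* `PtS rc e₀ t l v y` : a point of the hull of the columns with `a ≥ l` copies of `v`, the rest of
  the lump mass `2/3` on the small lump `y`, amplifier `1/6 - t/2`
* `PtM rc e₀ t l v` : the same, the rest Möbius mass
* `near_moeb`, `near_small` : if every big lump `w j` has such a point with `a ≥ l j` and
  `∑ 1/(2 l j) ≤ 1`, the box with the big lumps `w` and one small class is covered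
* `cov_near` : the box theorem
-/

set_option autoImplicit false

noncomputable section

namespace Crest.Agent.R017.CovNear177

open Crest.Agent.R017.ER911 Crest.Agent.R017.Hull741 Crest.Agent.R017.CovM59
  Crest.Agent.R017.CovSmall741 Crest.Agent.R017.Cov499 Crest.Agent.R017.CovGlue741

variable {rc : EF} {e₀ t : ℝ}

/-- `a ≥ l` copies of `v`, the rest of the mass `2/3` copies of `y` -/
def PtS (rc : EF) (e₀ t l v y : ℝ) : Prop :=
  ∃ a : ℝ, l ≤ a ∧ a * v ≤ 2 / 3 ∧
    ((![a, (2 / 3 - a * v) / y], 0, 1 / 6 - t / 2) : Mon 2) ∈ Hull (Col rc e₀ ![v, y])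

/-- `a ≥ l` copies of `v`, the rest of the mass `2/3` Möbius mass -/
def PtM (rc : EF) (e₀ t l v : ℝ) : Prop :=
  ∃ a : ℝ, l ≤ a ∧ a * v ≤ 2 / 3 ∧
    (((fun _ => a), 2 / 3 - a * v, 1 / 6 - t / 2) : Mon 1) ∈ Hull (Col rc e₀ fun _ : Fin 1 => v)

theorem PtS.mono {l l' v y : ℝ} (h : PtS rc e₀ t l v y) (hl : l' ≤ l) : PtS rc e₀ t l' v y := by
  obtain ⟨a, h1, h2, h3⟩ := h
  exact ⟨a, hl.trans h1, h2, h3⟩

theorem PtM.mono {l l' v : ℝ} (h : PtM rc e₀ t l v) (hl : l' ≤ l) : PtM rc e₀ t l' v := by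
  obtain ⟨a, h1, h2, h3⟩ := h
  exact ⟨a, hl.trans h1, h2, h3⟩

/-! ### push-forwards -/

/-- one size -/
theorem push1 {k : ℕ} {w : Fin k → ℝ} (j : Fin k) {x : Fin 1 → ℝ} {M A : ℝ}
    (h : ((x, M, A) : Mon 1) ∈ Hull (Col rc e₀ fun _ : Fin 1 => w j)) :
    (((fun i => if i = j then x 0 else 0), M, A) : Mon k) ∈ Hull (Col rc e₀ w) := by
  have hinj : Function.Injective fun _ : Fin 1 => j := fun a b _ => Subsingleton.elim a b
  have h1 := hull_push (Id := fun _ u => Col rc e₀ u) (col_push rc e₀) (fun _ : Fin 1 => j) w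
    (x := x) (F := M) (A := A) h
  convert h1 using 2
  funext i
  by_cases hi : i = j
  · subst hi
    rw [if_pos rfl]
    exact (pushR_inj hinj x 0).symm
  · rw [if_neg hi]
    exact (pushR_ne x fun i' => fun h => hi h.symm).symm

/-- a big lump and the small lump -/
theorem push2 {k : ℕ} {w : Fin k → ℝ} {y : ℝ} (j : Fin k) {a b M A : ℝ}
    (h : ((![a, b], M, A) : Mon 2) ∈ Hull (Col rc e₀ ![w j, y])) :
    ((Fin.snoc (α := fun _ => ℝ) (fun i => if i = j then a else 0) b, M, A) : Mon (k + 1)) ∈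
      Hull (Col rc e₀ (Fin.snoc (α := fun _ => ℝ) w y)) := by
  have hinj : Function.Injective (![j.castSucc, Fin.last k] : Fin 2 → Fin (k + 1)) := by
    intro p q hpq
    fin_cases p <;> fin_cases q
    · rfl
    · exact absurd hpq (Fin.castSucc_lt_last j).ne
    · exact absurd hpq (Fin.castSucc_lt_last j).ne'
    · rfl
  have hcomp : (![w j, y] : Fin 2 → ℝ) =
      (Fin.snoc (α := fun _ => ℝ) w y) ∘ (![j.castSucc, Fin.last k] : Fin 2 → Fin (k + 1)) := by
    funext p
    fin_cases p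
    · simp
    · simp
  rw [hcomp] at h
  have h1 := hull_push (Id := fun _ u => Col rc e₀ u) (col_push rc e₀)
    (![j.castSucc, Fin.last k] : Fin 2 → Fin (k + 1)) (Fin.snoc (α := fun _ => ℝ) w y) h
  convert h1 using 2
  funext i
  refine Fin.lastCases ?_ (fun i => ?_) i
  · rw [Fin.snoc_last]
    exact (pushR_inj hinj ![a, b] 1).symm
  · rw [Fin.snoc_castSucc]
    by_cases hi : i = j
    · subst hi
      rw [if_pos rfl]
      exact (pushR_inj hinj ![a, b] 0).symm
    · rw [if_neg hi]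
      refine (pushR_ne _ fun p => ?_).symm
      fin_cases p
      · intro h
        exact hi (Fin.castSucc_injective k h).symm
      · exact (Fin.castSucc_lt_last i).ne'

/-! ### the averages -/

theorem wt {k : ℕ} {a l : Fin k → ℝ} (hl : ∀ j, 0 < l j) (hl1 : ∑ j, 1 / (2 * l j) ≤ 1)
    (ha : ∀ j, l j ≤ a j) : 0 ≤ 1 - ∑ j, 1 / (2 * a j) := by
  have : ∑ j, 1 / (2 * a j) ≤ ∑ j, 1 / (2 * l j) :=
    Finset.sum_le_sum fun j _ => one_div_le_one_div_of_le (by linarith [hl j]) (by linarith [ha j])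
  linarith

/-- **Möbius mass as the small class** -/
theorem near_moeb {k : ℕ} {w l : Fin k → ℝ} (hl : ∀ j, 0 < l j) (hl1 : ∑ j, 1 / (2 * l j) ≤ 1)
    (hP : ∀ j, PtM rc e₀ t (l j) (w j))
    (hK0 : Col rc e₀ w (fun _ => 0) (2 / 3) (1 / 6 - t / 2)) :
    (((fun _ => 1 / 2), (4 / 3 - ∑ j, w j) / 2, 1 / 6 - t / 2) : Mon k) ∈
      Hull (Col rc e₀ w) := by
  classical
  choose a ha1 ha2 ha3 using hP
  have ha0 : ∀ j, 0 < a j := fun j => (hl j).trans_le (ha1 j)
  have hW := wt hl hl1 ha1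
  obtain ⟨W, hWd⟩ : ∃ W, W = 1 - ∑ j, 1 / (2 * a j) := ⟨_, rfl⟩
  rw [← hWd] at hW
  have hE : (((fun _ => 0), 2 / 3, 1 / 6 - t / 2) : Mon k) ∈ Hull (Col rc e₀ w) := by
    have h := subset_hull hK0
    unfold pt at h
    simpa using h
  let p : Option (Fin k) → ℝ := fun o => o.elim W fun j => 1 / (2 * a j)
  let z : Option (Fin k) → Mon k := fun o => o.elim ((fun _ => 0), 2 / 3, 1 / 6 - t / 2)
    fun j => ((fun i => if i = j then a j else 0), 2 / 3 - a j * w j, 1 / 6 - t / 2)
  have hp : ∀ o ∈ (Finset.univ : Finset (Option (Fin k))), 0 ≤ p o := by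
    intro o _
    rcases o with _ | j
    · exact hW
    · have := ha0 j
      show 0 ≤ 1 / (2 * a j)
      positivity
  have hp1 : ∑ o, p o = 1 := by
    rw [Fintype.sum_option]
    show W + ∑ j, 1 / (2 * a j) = 1
    rw [hWd]; ring
  have hz : ∀ o ∈ (Finset.univ : Finset (Option (Fin k))), z o ∈ Hull (Col rc e₀ w) := by
    intro o _
    rcases o with _ | j
    · exact hE
    · exact push1 j (ha3 j)
  have hmem := (convex_hull (Col rc e₀ w)).sum_mem hp hp1 hz
  have heq : ∑ o, p o • z o =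
      (((fun _ => 1 / 2), (4 / 3 - ∑ j, w j) / 2, 1 / 6 - t / 2) : Mon k) := by
    rw [Fintype.sum_option]
    have e0 : ∀ j, 1 / (2 * a j) * a j = 1 / 2 := fun j => by
      have := (ha0 j).ne'
      field_simp
    refine Prod.ext ?_ (Prod.ext ?_ ?_)
    · funext i
      simp only [Prod.fst_add, Pi.add_apply, Prod.smul_fst, Pi.smul_apply, Prod.fst_sum,
        Finset.sum_apply, smul_eq_mul]
      show W * 0 + ∑ j, 1 / (2 * a j) * (if i = j then a j else 0) = 1 / 2
      have : ∑ j, 1 / (2 * a j) * (if i = j then a j else 0) =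
          ∑ j, if i = j then (1 / 2 : ℝ) else 0 :=
        Finset.sum_congr rfl fun j _ => by
          split_ifs with h
          · exact e0 j
          · ring
      rw [this, Finset.sum_ite_eq]
      simp
    · simp only [Prod.fst_add, Prod.snd_add, Prod.smul_fst, Prod.smul_snd, Prod.fst_sum,
        Prod.snd_sum, smul_eq_mul]
      show W * (2 / 3) + ∑ j, 1 / (2 * a j) * (2 / 3 - a j * w j) = _
      have : ∑ j, 1 / (2 * a j) * (2 / 3 - a j * w j) =
          (2 / 3) * ∑ j, 1 / (2 * a j) - (∑ j, w j) / 2 := by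
        rw [Finset.mul_sum, Finset.sum_div, ← Finset.sum_sub_distrib]
        exact Finset.sum_congr rfl fun j _ => by
          have := e0 j
          linear_combination (-(w j)) * this
      rw [this, hWd]
      ring
    · simp only [Prod.snd_add, Prod.smul_snd, Prod.snd_sum, smul_eq_mul]
      show W * (1 / 6 - t / 2) + ∑ j, 1 / (2 * a j) * (1 / 6 - t / 2) = _
      rw [← Finset.sum_mul, hWd]
      ring
  rw [heq] at hmem
  exact hmem

/-- **a small lump as the small class** -/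
theorem near_small {k : ℕ} {w l : Fin k → ℝ} {y : ℝ} (hy : 0 < y) (hl : ∀ j, 0 < l j)
    (hl1 : ∑ j, 1 / (2 * l j) ≤ 1) (hP : ∀ j, PtS rc e₀ t (l j) (w j) y)
    (hEy : (((fun _ => 2 / (3 * y)), 0, 1 / 6 - t / 2) : Mon 1) ∈
      Hull (Col rc e₀ fun _ : Fin 1 => y)) :
    ((Fin.snoc (α := fun _ => ℝ) (fun _ => 1 / 2) ((4 / 3 - ∑ j, w j) / (2 * y)), 0,
      1 / 6 - t / 2) : Mon (k + 1)) ∈ Hull (Col rc e₀ (Fin.snoc (α := fun _ => ℝ) w y)) := by
  classical
  choose a ha1 ha2 ha3 using hP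
  have ha0 : ∀ j, 0 < a j := fun j => (hl j).trans_le (ha1 j)
  have hW := wt hl hl1 ha1
  obtain ⟨W, hWd⟩ : ∃ W, W = 1 - ∑ j, 1 / (2 * a j) := ⟨_, rfl⟩
  rw [← hWd] at hW
  have hE : ((Fin.snoc (α := fun _ => ℝ) (fun _ => 0) (2 / (3 * y)), 0, 1 / 6 - t / 2) :
      Mon (k + 1)) ∈ Hull (Col rc e₀ (Fin.snoc (α := fun _ => ℝ) w y)) := by
    have hyl : (fun _ : Fin 1 => y) =
        fun _ : Fin 1 => (Fin.snoc (α := fun _ => ℝ) w y : Fin (k + 1) → ℝ) (Fin.last k) := by
      funext i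
      simp
    rw [hyl] at hEy
    have h := push1 (w := (Fin.snoc (α := fun _ => ℝ) w y : Fin (k + 1) → ℝ)) (Fin.last k) hEy
    convert h using 2
    funext i
    refine Fin.lastCases ?_ (fun i => ?_) i
    · rw [Fin.snoc_last, if_pos rfl]
    · rw [Fin.snoc_castSucc, if_neg (Fin.castSucc_lt_last i).ne]
  let p : Option (Fin k) → ℝ := fun o => o.elim W fun j => 1 / (2 * a j)
  let z : Option (Fin k) → Mon (k + 1) := fun o =>
    o.elim (Fin.snoc (α := fun _ => ℝ) (fun _ => 0) (2 / (3 * y)), 0, 1 / 6 - t / 2)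
    fun j => (Fin.snoc (α := fun _ => ℝ) (fun i => if i = j then a j else 0)
      ((2 / 3 - a j * w j) / y), 0, 1 / 6 - t / 2)
  have hp : ∀ o ∈ (Finset.univ : Finset (Option (Fin k))), 0 ≤ p o := by
    intro o _
    rcases o with _ | j
    · exact hW
    · have := ha0 j
      show 0 ≤ 1 / (2 * a j)
      positivity
  have hp1 : ∑ o, p o = 1 := by
    rw [Fintype.sum_option]
    show W + ∑ j, 1 / (2 * a j) = 1
    rw [hWd]; ring
  have hz : ∀ o ∈ (Finset.univ : Finset (Option (Fin k))),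
      z o ∈ Hull (Col rc e₀ (Fin.snoc (α := fun _ => ℝ) w y)) := by
    intro o _
    rcases o with _ | j
    · exact hE
    · exact push2 j (ha3 j)
  have hmem := (convex_hull (Col rc e₀ (Fin.snoc (α := fun _ => ℝ) w y))).sum_mem hp hp1 hz
  have heq : ∑ o, p o • z o =
      ((Fin.snoc (α := fun _ => ℝ) (fun _ => 1 / 2) ((4 / 3 - ∑ j, w j) / (2 * y)), 0,
        1 / 6 - t / 2) : Mon (k + 1)) := by
    rw [Fintype.sum_option]
    have e0 : ∀ j, 1 / (2 * a j) * a j = 1 / 2 := fun j => by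
      have := (ha0 j).ne'
      field_simp
    refine Prod.ext ?_ (Prod.ext ?_ ?_)
    · funext i
      simp only [Prod.fst_add, Pi.add_apply, Prod.smul_fst, Pi.smul_apply, Prod.fst_sum,
        Finset.sum_apply, smul_eq_mul]
      refine Fin.lastCases ?_ (fun i => ?_) i
      · show W * (Fin.snoc (α := fun _ => ℝ) (fun _ => 0) (2 / (3 * y)) :
            Fin (k + 1) → ℝ) (Fin.last k) + ∑ j, 1 / (2 * a j) *
            (Fin.snoc (α := fun _ => ℝ) (fun i => if i = j then a j else 0)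
              ((2 / 3 - a j * w j) / y) : Fin (k + 1) → ℝ) (Fin.last k) = _
        simp only [Fin.snoc_last]
        have : ∑ j, 1 / (2 * a j) * ((2 / 3 - a j * w j) / y) =
            ((2 / 3) * ∑ j, 1 / (2 * a j) - (∑ j, w j) / 2) / y := by
          rw [Finset.mul_sum, Finset.sum_div, ← Finset.sum_sub_distrib, Finset.sum_div]
          exact Finset.sum_congr rfl fun j _ => by
            have := e0 j
            rw [← mul_div_assoc]
            congr 1
            linear_combination (-(w j)) * this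
        rw [this, hWd]
        field_simp
        ring
      · show W * (Fin.snoc (α := fun _ => ℝ) (fun _ => 0) (2 / (3 * y)) :
            Fin (k + 1) → ℝ) i.castSucc + ∑ j, 1 / (2 * a j) *
            (Fin.snoc (α := fun _ => ℝ) (fun i => if i = j then a j else 0)
              ((2 / 3 - a j * w j) / y) : Fin (k + 1) → ℝ) i.castSucc = _
        simp only [Fin.snoc_castSucc]
        have : ∑ j, 1 / (2 * a j) * (if i = j then a j else 0) =
            ∑ j, if i = j then (1 / 2 : ℝ) else 0 :=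
          Finset.sum_congr rfl fun j _ => by
            split_ifs with h
            · exact e0 j
            · ring
        rw [this, Finset.sum_ite_eq]
        simp
    · simp only [Prod.fst_add, Prod.snd_add, Prod.smul_fst, Prod.smul_snd, Prod.fst_sum,
        Prod.snd_sum, smul_eq_mul]
      show W * 0 + ∑ j, 1 / (2 * a j) * 0 = 0
      simp
    · simp only [Prod.snd_add, Prod.smul_snd, Prod.snd_sum, smul_eq_mul]
      show W * (1 / 6 - t / 2) + ∑ j, 1 / (2 * a j) * (1 / 6 - t / 2) = _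
      rw [← Finset.sum_mul, hWd]
      ring
  rw [heq] at hmem
  exact hmem

/-! ### the box theorem -/

/-- **boxes in which every lump `> y₀` has its own point** (`l j` copies at least) -/
theorem cov_near (hK0 : ∀ (k : ℕ) (w : Fin k → ℝ), (∀ j, 0 ≤ w j) →
      Col rc e₀ w (fun _ => 0) (2 / 3) (1 / 6 - t / 2)) {y₀ : ℝ}
    (hEy : ∀ y, 0 < y → y ≤ y₀ → (((fun _ => 2 / (3 * y)), 0, 1 / 6 - t / 2) : Mon 1) ∈
      Hull (Col rc e₀ fun _ : Fin 1 => y)) {N : ℕ} {u : Fin N → ℝ} (hu : ∀ j, 0 < u j)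
    (hs : ∑ j, u j ≤ 4 / 3) (l : Fin N → ℝ) (hl : ∀ j, 0 < l j)
    (hl1 : ∑ j ∈ Finset.univ.filter (fun j => y₀ < u j), 1 / (2 * l j) ≤ 1)
    (hM : ∀ j, y₀ < u j → PtM rc e₀ t (l j) (u j))
    (hS : ∀ j, y₀ < u j → ∀ y, 0 < y → y ≤ y₀ → PtS rc e₀ t (l j) (u j) y) :
    CovM rc e₀ t u (fun _ => 1) := by
  classical
  unfold CovM
  refine cov_small (Id := fun _ u => Col rc e₀ u) (col_push rc e₀) u (fun _ => 1)
    (fun j => (hu j).le) (fun _ => zero_le_one) (fun j hj => absurd hj (hu j).ne')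
    (by simpa using hs) y₀ (1 / 6 - t / 2) ?_
  intro k ι hι _ hbig
  have hw : ∀ i, y₀ < u (ι i) := fun i => (hbig _).2 ⟨i, rfl⟩
  have hsum : ∑ i, 1 / (2 * l (ι i)) ≤ 1 := by
    have him : Finset.univ.filter (fun j => y₀ < u j) = Finset.univ.image ι := by
      ext j
      simp [hbig]
    rw [him, Finset.sum_image fun a _ b _ h => hι h] at hl1
    exact hl1
  simp only [one_mul]
  constructor
  · exact near_moeb (w := u ∘ ι) (l := l ∘ ι) (fun i => hl _) hsum (fun i => hM _ (hw i))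
      (hK0 k _ fun i => (hu _).le)
  · rintro y hy hy1 -
    exact near_small (w := u ∘ ι) (l := l ∘ ι) hy (fun i => hl _) hsum
      (fun i => hS _ (hw i) y hy hy1) (hEy y hy hy1)

end Crest.Agent.R017.CovNear177
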