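import Crest.Agent.R017.CovTop_741
import Crest.Agent.R017.CovNear_177

/-!
# Row 17, T.2 : boxes with a lump `≥ 2/3` (helper702)

`1/2 {A | 0, 1/6 - t/2}` and `1/2` times the point of the doubled rest (`cov_near`).
-/

set_option autoImplicit false

noncomputable section

namespace Crest.Agent.R017.CovLong702

open Crest.Agent.R017.ER911 Crest.Agent.R017.Hull741 Crest.Agent.R017.CovM59
  Crest.Agent.R017.CovSmall741 Crest.Agent.R017.CovGlue741 Crest.Agent.R017.ColG59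
  Crest.Agent.R017.Nz59 Crest.Agent.R017.Long911 Crest.Agent.R017.ExpC702
  Crest.Agent.R017.CovBig954 Crest.Agent.R017.CovNear177

variable {θ d e₀ t : ℝ} {r s rc : EF}

/-- the side `{y | m, a}`, `1/2 ≤ y`, `m + a ≤ 1/3`, in the complete form -/
theorem long_le2 (R : ExpRules (7 / 8 + d) r s) (hd : 0 ≤ d) {y f g : ℝ} (hy : 1 / 2 ≤ y)
    (hf : 0 ≤ f) (hg : 0 ≤ g) (h : f + g ≤ 1 / 3) : Compl r (2 / 3 * d) {y} f g := by
  intro ρ h0 h1
  have hok : Ok ({y} : Multiset ℝ) f g :=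
    ⟨fun x hx => by rw [Multiset.mem_singleton] at hx; rw [hx]; linarith, hf, hg⟩
  have k1 := R.sup ρ {y} f g ((1 - ρ) * f) ((1 - ρ) * g) h0 hok
    (mul_nonneg (by linarith) hf) (by nlinarith) (mul_nonneg (by linarith) hg) (by nlinarith)
  have e1 : f - (1 - ρ) * f = ρ * f := by ring
  have e2 : g - (1 - ρ) * g = ρ * g := by ring
  rw [e1, e2] at k1
  have hρw : ρ * (f + g) ≤ ρ * (1 / 3) := mul_le_mul_of_nonneg_left h h0
  have hρg : ρ * g ≤ ρ * (1 / 3) := mul_le_mul_of_nonneg_left (by linarith) h0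
  have k2 := side79f (Nz59.rules R) hd (κ := ρ) (y₁ := y) (y₂ := 0) (m := ρ * f) (a := ρ * g) h0
    (by linarith) le_rfl h0 (mul_nonneg h0 hf) (mul_nonneg h0 hg) (by linarith) (by linarith)
    (by linarith)
  have e3 : rz r ρ {y, 0} (ρ * f) (ρ * g) = r ρ {y} (ρ * f) (ρ * g) := by
    show r ρ (nz {y, 0}) _ _ = _
    rw [Multiset.insert_eq_cons, nz_cons (by linarith : y ≠ 0),
      show ({0} : Multiset ℝ) = 0 ::ₘ 0 from rfl, nz_cons_zero, nz_zero]
    rfl
  rw [e3] at k2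
  rw [Multiset.sum_singleton]
  have h2 : 0 ≤ (1 - ρ) * (2 / 3 - 3 / 4 * (f + g)) := mul_nonneg (by linarith) (by linarith)
  have h3 : d * (f + g) ≤ d * (1 / 3) := mul_le_mul_of_nonneg_left h hd
  nlinarith

/-- the Möbius mass of a point of the hull may be decreased -/
theorem hull_drop {N : ℕ} {u : Fin N → ℝ} {z : Fin N → ℝ} {M A M' : ℝ}
    (h : ((z, M, A) : Mon N) ∈ Hull (Col r e₀ u)) (h0 : 0 ≤ M') (h1 : M' ≤ M) :
    ((z, M', A) : Mon N) ∈ Hull (Col r e₀ u) := by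
  rcases (h0.trans h1).eq_or_lt with hM | hM
  · rw [show M' = M by linarith]
    exact h
  obtain ⟨K, p, n, Mq, Aq, hp, hp1, hC, heq⟩ := h
  have e1 : z = fun j => ∑ q, p q * (n q j : ℝ) := congrArg Prod.fst heq
  have e2 : M = ∑ q, p q * Mq q := congrArg (fun z => z.2.1) heq
  have e3 : A = ∑ q, p q * Aq q := congrArg (fun z => z.2.2) heq
  have hl0 : 0 ≤ M' / M := div_nonneg h0 hM.le
  have hl1 : M' / M ≤ 1 := (div_le_one hM).2 h1
  refine ⟨K, p, n, fun q => M' / M * Mq q, Aq, hp, hp1, fun q => ?_, ?_⟩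
  · obtain ⟨c1, c2, c3⟩ := hC q
    have k1 : M' / M * Mq q ≤ Mq q := mul_le_of_le_one_left c1 hl1
    exact ⟨mul_nonneg hl0 c1, c2, fun f g hf hg h1 h2 => c3 f g hf hg (by linarith)
      (by linarith)⟩
  · refine Prod.ext e1 (Prod.ext ?_ e3)
    show M' = ∑ q, p q * (M' / M * Mq q)
    have : ∑ q, p q * (M' / M * Mq q) = M' / M * ∑ q, p q * Mq q := by
      rw [Finset.mul_sum]
      exact Finset.sum_congr rfl fun q _ => by ring
    rw [this, ← e2, div_mul_cancel₀ _ hM.ne']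

/-- **boxes with a lump `≥ 2/3`** -/
theorem covM_long2 (R : ExpRules (7 / 8 + d) r s) (C : ExpC r rc) (hd : 0 ≤ d)
    (he : 2 / 3 * d ≤ e₀) (ht : 0 ≤ t) (ht3 : t ≤ 1 / 3)
    (hK0 : ∀ (k : ℕ) (w : Fin k → ℝ), (∀ j, 0 ≤ w j) →
      Col rc e₀ w (fun _ => 0) (2 / 3) (1 / 6 - t / 2)) {y₀ : ℝ}
    (hEy : ∀ y, 0 < y → y ≤ y₀ → (((fun _ => 2 / (3 * y)), 0, 1 / 6 - t / 2) : Mon 1) ∈
      Hull (Col rc e₀ fun _ : Fin 1 => y)) {N : ℕ} {u : Fin (N + 1) → ℝ} (hu : ∀ j, 0 < u j)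
    (hs : ∑ j, u j ≤ 4 / 3) (j₁ : Fin (N + 1)) (h1 : 2 / 3 ≤ u j₁)
    (l : Fin (N + 1) → ℝ) (hl : ∀ j, 0 < l j)
    (hl1 : ∑ i : Fin N, (if y₀ < u (j₁.succAbove i) then 1 / (2 * l (j₁.succAbove i)) else 0) ≤
      1 / 2)
    (hM : ∀ j, j ≠ j₁ → y₀ < u j → PtM rc e₀ t (l j) (u j))
    (hS : ∀ j, j ≠ j₁ → y₀ < u j → ∀ y, 0 < y → y ≤ y₀ → PtS rc e₀ t (l j) (u j) y) :
    CovM rc e₀ t u (fun _ => 1) := by
  classical
  have hsum : ∑ j, u j = u j₁ + ∑ i, u (j₁.succAbove i) := Fin.sum_univ_succAbove u j₁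
  set ι : Fin (N + N) → Fin (N + 1) := fun i => j₁.succAbove (Fin.append id id i) with hι
  have el : ∀ i : Fin N, ι (Fin.castAdd N i) = j₁.succAbove i := fun i => by
    simp only [hι, Fin.append_left, id]
  have er : ∀ i : Fin N, ι (Fin.natAdd N i) = j₁.succAbove i := fun i => by
    simp only [hι, Fin.append_right, id]
  have hne : ∀ i, ι i ≠ j₁ := fun i => Fin.succAbove_ne _ _
  have hsum2 : ∑ i, (u ∘ ι) i = 2 * ∑ i, u (j₁.succAbove i) := by
    rw [Fin.sum_univ_add]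
    simp only [Function.comp, el, er]
    ring
  have hP : ∑ j ∈ Finset.univ.filter (fun j => y₀ < (u ∘ ι) j), 1 / (2 * (l ∘ ι) j) ≤ 1 := by
    rw [Finset.sum_filter, Fin.sum_univ_add]
    simp only [Function.comp, el, er]
    linarith
  have H := cov_near hK0 hEy (u := u ∘ ι) (fun j => hu _) (by rw [hsum2]; linarith) (l ∘ ι)
    (fun j => hl _) hP (fun j hj => hM _ (hne j) hj) (fun j hj => hS _ (hne j) hj)
  unfold CovM at H
  have H2 := hull_push (Id := fun _ u => Col rc e₀ u) (col_push rc e₀) ι u H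
  have hx : pushR ι (fun _ => (1 : ℝ) / 2) = fun j => if j = j₁ then 0 else 1 := by
    funext j
    by_cases hj : j = j₁
    · rw [if_pos hj, hj]
      exact pushR_ne _ hne
    · rw [if_neg hj]
      obtain ⟨i, rfl⟩ := Fin.exists_succAbove_eq hj
      unfold pushR
      rw [Finset.sum_filter, Fin.sum_univ_add]
      simp only [el, er, Fin.succAbove_right_inj]
      simp
      norm_num
  rw [hx] at H2
  have H3 := hull_drop (M' := 4 / 3 - ∑ j, u j) H2 (by linarith) (by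
    have : ∑ j, 1 * (u ∘ ι) j = ∑ j, (u ∘ ι) j := by simp
    rw [this, hsum2]
    linarith)
  let n1 : Fin (N + 1) → ℕ := fun j => if j = j₁ then 1 else 0
  have c1 : Col rc e₀ u n1 0 (1 / 6 - t / 2) := by
    refine col_of_compl C (fun j => (hu j).le) le_rfl (by linarith) fun f g hf hg k1 _ => ?_
    have e : (∑ j, Multiset.replicate (n1 j) (u j)) = {u j₁} := by
      rw [Finset.sum_eq_single j₁]
      · simp [n1]
      · intro j _ hj
        simp [n1, hj]
      · intro h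
        exact absurd (Finset.mem_univ _) h
    rw [e]
    exact (long_le2 R hd (by linarith) hf hg (by linarith)).mono he
  have key := (convex_hull (Col rc e₀ u)) (subset_hull c1) H3
    (show (0 : ℝ) ≤ 1 / 2 by norm_num) (show (0 : ℝ) ≤ 1 / 2 by norm_num) (by norm_num)
  unfold CovM
  convert key using 1
  refine Prod.ext ?_ (Prod.ext ?_ ?_)
  · funext j
    by_cases hj : j = j₁ <;> simp [pt, n1, hj]
  · simp only [one_mul, pt, Prod.smul_mk, Prod.mk_add_mk, smul_eq_mul]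
    ring
  · simp only [pt, Prod.smul_mk, Prod.mk_add_mk, smul_eq_mul]
    ring

end Crest.Agent.R017.CovLong702
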