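import Crest.Agent.R017.SideD_777

/-!
# Row 17, section D: three big lumps with REM (theorem T3a, helper777; statement after helper126)

Side `{A, B, C | m, a}`, `A + B + 2 C ≤ κ`, `4 C ≤ κ`, total `N` with `6 N ≤ 5 κ`,
`40 N + 9 (C + m + a) ≤ 36 κ`, `5 (A + B) + 9 (m + a) ≤ 5 κ`, `3 (m + 2 a) ≤ 2 κ`.
Levels up to `(N + κ - 3 C)/2` : one lump to the family, then P' with `side79a`; above: granular
mass to the family, then REM with `K = κ` at its top level.
`θ = 7/8 + d`, loss `2 d (C + m + a)`.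
-/

set_option autoImplicit false

noncomputable section

namespace Crest.Agent.R017.SC777

open Crest.Agent.R017.ER911

variable {θ d : ℝ} {r s s₀ : EF}

/-- the columns of `{y₁, y₂ | m, a}` for `ξ = (κ - l')/2` (from the proof of T6) -/
theorem colX_pair (R : ExpRules (7 / 8 + d) r s) (hd : 0 ≤ d) {κ y₁ y₂ m a : ℝ}
    (h1 : 0 ≤ y₁) (h2 : 0 ≤ y₂) (hm : 0 ≤ m) (ha : 0 ≤ a)
    (h59 : 9 * (y₁ + y₂ + m + a) ≤ 5 * κ + 4 * (y₁ + y₂))
    (hA : 3 * (y₁ + y₂ + m + a + a) ≤ 2 * κ + 5 * (y₁ + y₂)) :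
    ColX (7 / 8 + d) r κ ((κ - (y₁ + y₂ + m + a)) / 2) (2 * d * (m + a)) {y₁, y₂} m a := by
  obtain ⟨ξ, hξ⟩ : ∃ ξ, ξ = (κ - (y₁ + y₂ + m + a)) / 2 := ⟨_, rfl⟩
  rw [← hξ]
  refine ⟨?_, ?_⟩
  · intro Y' m' a' i hY' hm0 hm1 ha0 ha1 hi hyi hii
    obtain ⟨c₁, c₂, rfl, hc1, hc1', hc2, hc2'⟩ := hY'.pair
    rw [sum_pair]
    have hi1 : c₁ ≤ i := hyi c₁ (by simp)
    have hi2 : c₂ ≤ i := hyi c₂ (by simp)
    have e3 : 2 * d * (m' + a') ≤ 2 * d * (m + a) :=
      mul_le_mul_of_nonneg_left (by linarith) (by linarith)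
    rcases le_or_gt i (c₁ + c₂) with hks | hks
    · have e1 := sup_all R hi hc1 hc2 hm0 ha0 hi1 hi2
      linarith
    · obtain ⟨e, he⟩ : ∃ e, e = max 0 (max (m' + a' - 7 / 9 * (i - (c₁ + c₂)))
        ((12 * a' + 9 * m' + 4 * (c₁ + c₂) - 8 * i) / 12)) := ⟨_, rfl⟩
      have he0 : 0 ≤ e := by rw [he]; exact le_max_left _ _
      have he1 : m' + a' - 7 / 9 * (i - (c₁ + c₂)) ≤ e := by
        rw [he]; exact (le_max_left _ _).trans (le_max_right _ _)
      have he2 : (12 * a' + 9 * m' + 4 * (c₁ + c₂) - 8 * i) / 12 ≤ e := by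
        rw [he]; exact (le_max_right _ _).trans (le_max_right _ _)
      have e1 := side79a R hd hc1 hc2 hm0 ha0 hks.le he0 he1 (by linarith) hi le_rfl hi1 hi2
      have e4 : 3 / 4 * e ≤ (2 * κ + i) / 3 - ξ - i := by
        have : e ≤ 4 / 3 * ((2 * κ + i) / 3 - ξ - i) := by
          rw [he]
          refine max_le ?_ (max_le ?_ ?_)
          · linarith
          · linarith
          · linarith
        linarith
      linarith
  · intro Y' m' a' hY' hm0 hm1 ha0 ha1 _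
    have hYs := hY'.sum_nonneg
    have e3 : 2 * d * m' ≤ 2 * d * (m + a) :=
      mul_le_mul_of_nonneg_left (by linarith) (by linarith)
    linarith

/-- one lump to the family, then P' : levels `i` with `i + y ≤ (l' + κ)/2` -/
theorem level_lump (R : ExpRules θ r s) {κ y p q m a i F : ℝ} (hκ : 0 ≤ κ) (hy : 0 ≤ y)
    (hp : 0 ≤ p) (hq : 0 ≤ q) (hm : 0 ≤ m) (ha : 0 ≤ a) (hF : 0 ≤ F)
    (C : ColX θ r κ ((κ - (p + q + m + a)) / 2) F {p, q} m a) (hi : 0 ≤ i)
    (hiy : i + y ≤ (p + q + m + a + κ) / 2) :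
    s i (y ::ₘ {p, q}) m a ≤ 4 / 3 * (y + (p + q + m + a)) + (κ + i) / 3 + F := by
  have hok : Ok {p, q} m a := ok_pair hp hq hm ha
  have c0 := R.cauS i y {p, q} m a hi hy hok
  obtain ⟨l, hl⟩ : ∃ l, l = p + q + m + a := ⟨_, rfl⟩
  have hl0 : 0 ≤ l := by linarith
  have hs : ({p, q} : Multiset ℝ).sum = p + q := sum_pair p q
  have c2 := R.poisG ((l + κ) / 2) {p, q} m a ((l + κ) / 2 + l + F) (by linarith) hok
    (by rw [hs]; linarith)
    (fun Z' m' a' j hZ' hm0 hm1 ha0 ha1 hj hyj hjj => by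
      rw [hs] at hjj ⊢
      have := C.col Z' m' a' j hZ' hm0 hm1 ha0 ha1 hj hyj (by linarith)
      linarith)
    (fun Z' m' a' hZ' hm0 hm1 ha0 ha1 hKK => by
      rw [hs] at hKK ⊢
      have := C.cube Z' m' a' hZ' hm0 hm1 ha0 ha1 (by linarith)
      linarith)
    (i + y) (by linarith) (by linarith)
  linarith

/-- **T3a** : three big lumps, REM -/
theorem T3a (R : ExpRules (7 / 8 + d) r s) (Rm : ExpRem (7 / 8 + d) r s s₀) (hd : 0 ≤ d)
    {κ A B C m a : ℝ} (hκ : 0 ≤ κ) (hA : 0 ≤ A) (hB : 0 ≤ B) (hC : 0 ≤ C) (hm : 0 ≤ m)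
    (ha : 0 ≤ a) (hAC : A + C ≤ A + B) (hBC : B + C ≤ A + B) (h4 : 4 * C ≤ κ)
    (h2 : A + B + 2 * C ≤ κ)
    (h56 : 6 * (A + B + C + m + a) ≤ 5 * κ)
    (h36 : 40 * (A + B + C + m + a) + 9 * (C + m + a) ≤ 36 * κ)
    (h59 : 5 * (A + B) + 9 * (m + a) ≤ 5 * κ) (hamp : 3 * (m + 2 * a) ≤ 2 * κ) :
    ∀ κ' : ℝ, 0 ≤ κ' → κ' ≤ κ →
      r κ' {A, B, C} m a + (κ - κ') / 3 ≤
        κ + (A + B + C + m + a) + 2 * d * (C + m + a) := by
  have hsum : ∀ A B C : ℝ, ({A, B, C} : Multiset ℝ).sum = A + B + C := by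
    intro A B C
    simp [add_assoc]
  have hF0 : 0 ≤ 2 * d * (C + m + a) := by positivity
  have hok : ∀ A B C m a : ℝ, 0 ≤ A → 0 ≤ B → 0 ≤ C → 0 ≤ m → 0 ≤ a → Ok {A, B, C} m a := by
    intro A B C m a hA hB hC hm ha
    refine ⟨fun y hy => ?_, hm, ha⟩
    simp only [Multiset.insert_eq_cons, Multiset.mem_cons, Multiset.mem_singleton] at hy
    rcases hy with rfl | rfl | rfl
    · exact hA
    · exact hB
    · exact hC
  refine R.poisC κ {A, B, C} m a (κ + (A + B + C + m + a) + 2 * d * (C + m + a)) hκ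
    (hok _ _ _ _ _ hA hB hC hm ha) (by rw [hsum]; linarith) (by rw [hsum]; linarith) ?_
  intro Y' m' a' i hY' hm0 hm1 ha0 ha1 hi hii
  obtain ⟨A', Z₁, rfl, hA0, hA1, hZ₁⟩ := Sh.of_cons (Y := {B, C}) (y := A) hY'
  obtain ⟨B', C', rfl, hB0, hB1, hC0, hC1⟩ := hZ₁.pair
  have hs3 : (A' ::ₘ ({B', C'} : Multiset ℝ)).sum = A' + B' + C' := hsum A' B' C'
  rw [hs3] at hii ⊢
  rw [hsum]
  have hFm : 2 * d * (m' + a') ≤ 2 * d * (C + m + a) :=
    mul_le_mul_of_nonneg_left (by linarith) (by linarith)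
  -- all levels
  have key : ∀ f : ℝ, 0 ≤ f → f ≤ 2 * (A' + B' + C' + m' + a') - κ →
      s₀ f (A' ::ₘ {B', C'}) m' a' ≤
        4 / 3 * (A' + B' + C' + m' + a') + (κ + f) / 3 + 2 * d * (C + m + a) := by
    intro f hf hft
    have hle := Rm.le f (A' ::ₘ {B', C'}) m' a' hf (hok _ _ _ _ _ hA0 hB0 hC0 hm0 ha0)
    -- levels served by one lump
    have one : ∀ y p q : ℝ, 0 ≤ y → 0 ≤ p → 0 ≤ q → p + q ≤ A + B →
        y + p + q = A' + B' + C' →
        (A' ::ₘ ({B', C'} : Multiset ℝ)) = y ::ₘ {p, q} →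
        f + y ≤ (p + q + m' + a' + κ) / 2 →
        s₀ f (A' ::ₘ {B', C'}) m' a' ≤
          4 / 3 * (A' + B' + C' + m' + a') + (κ + f) / 3 + 2 * d * (C + m + a) := by
      intro y p q hy hp hq hpq hs he hfy
      have hcol := colX_pair R hd (κ := κ) hp hq hm0 ha0 (by linarith)
        (by linarith)
      have := level_lump R hκ hy hp hq hm0 ha0 (by positivity) hcol hf hfy
      rw [he] at hle ⊢
      linarith
    rcases le_or_gt (f + C') ((A' + B' + m' + a' + κ) / 2) with h | hfC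
    · refine one C' A' B' hC0 hA0 hB0 (by linarith) (by ring) ?_ h
      show A' ::ₘ B' ::ₘ {C'} = C' ::ₘ A' ::ₘ {B'}
      rw [Multiset.cons_swap C' A']
      congr 1
      exact Multiset.pair_comm B' C'
    rcases le_or_gt (f + B') ((A' + C' + m' + a' + κ) / 2) with h | hfB
    · refine one B' A' C' hB0 hA0 hC0 (by linarith) (by ring) ?_ h
      exact Multiset.cons_swap _ _ _
    rcases le_or_gt (f + A') ((B' + C' + m' + a' + κ) / 2) with h | hfA
    · exact one A' B' C' hA0 hB0 hC0 (by linarith) (by ring) rfl h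
    -- REM
    obtain ⟨x, hx⟩ : ∃ x, x = (2 * (A' + B' + C' + m' + a') - κ - f) / 3 := ⟨_, rfl⟩
    have hx0 : 0 ≤ x := by linarith
    have hxw : 2 * x ≤ m' + a' := by linarith
    obtain ⟨b, c, hbc, hb0, hbm, hc0, hca⟩ : ∃ b c : ℝ, b + c = x ∧ 0 ≤ b ∧ b ≤ m' ∧ 0 ≤ c ∧
        c ≤ a' := by
      rcases le_total x m' with h | h
      · exact ⟨x, 0, by ring, hx0, h, le_rfl, ha0⟩
      · exact ⟨m', x - m', by ring, hm0, le_rfl, by linarith, by linarith⟩
    obtain ⟨n, hn⟩ : ∃ n, n = A' + B' + C' + (m' - b) + (a' - c) := ⟨_, rfl⟩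
    have hfn : f + (b + c) = 2 * n - κ := by linarith
    have hn34 : 3 * κ ≤ 4 * n := by linarith
    have hcau := Rm.cau f (A' ::ₘ {B', C'}) m' a' b c hf (hok _ _ _ _ _ hA0 hB0 hC0 hm0 ha0)
      hb0 hbm hc0 hca
    have hmax : max 0 ((2 * n - κ + 2 * n - 2 * κ) / 3) = (2 * n - κ + 2 * n - 2 * κ) / 3 :=
      max_eq_right (by linarith)
    have hrem := Rm.rem κ (2 * n - κ) A' B' C' (m' - b) (a' - c) n
      (2 * n + 2 * d * (C + m + a)) (2 * n + 2 * d * (C + m + a)) (by linarith) (by linarith)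
      (by linarith) hn (by linarith) (by linarith) (by linarith) (by linarith) (by linarith)
      (by linarith) (by linarith) (by linarith) (by linarith) (by ring)
      (by linarith) (by linarith)
      (by
        intro z₁ z₂ z₃ m'' a'' j hz1 hz2 hz3 hz12 hz3' hm0' hm1' ha0' ha1' hj1 hj2 hj3 hjj
        rw [hmax]
        have hj : 0 ≤ j := hz1.trans hj1
        have e0 := supV R (κ := j) hj {z₁, z₂} {z₃}
          (ok_pair (m := 0) (a := 0) hz1 hz2 le_rfl le_rfl).1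
          (fun y hy => by rw [Multiset.mem_singleton.1 hy]; exact hz3) hm0' ha0'
        have e00 : ({z₃} + {z₁, z₂} : Multiset ℝ) = {z₁, z₂, z₃} := by
          rw [Multiset.singleton_add]
          show z₃ ::ₘ z₁ ::ₘ {z₂} = z₁ ::ₘ z₂ ::ₘ {z₃}
          rw [Multiset.cons_swap]
          congr 1
          exact Multiset.pair_comm z₃ z₂
        rw [e00, Multiset.sum_singleton] at e0
        have e1 := sup_all R hj hz1 hz2 hm0' ha0' hj1 hj2
        have e3 : 2 * d * (z₃ + (m'' + a'')) ≤ 2 * d * (C + m + a) :=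
          mul_le_mul_of_nonneg_left (by linarith) (by linarith)
        linarith)
      (by
        rw [hmax]
        have e3 : 2 * d * (m' - b) ≤ 2 * d * (C + m + a) :=
          mul_le_mul_of_nonneg_left (by linarith) (by linarith)
        linarith)
      (2 * n - κ) (by linarith) le_rfl
    rw [← hfn] at hrem
    have hm3 : max 0 ((f + (b + c) + κ - 2 * n) / 3) = 0 := max_eq_left (by linarith)
    rw [hm3] at hrem
    have e : ({A', B', C'} : Multiset ℝ) = A' ::ₘ {B', C'} := rfl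
    rw [e] at hrem
    linarith
  have hcube := Rm.cube i (A' ::ₘ {B', C'}) m' a'
    (4 / 3 * (A' + B' + C' + m' + a') + (κ + i) / 3 + 2 * d * (C + m + a)) hi
    (hok _ _ _ _ _ hA0 hB0 hC0 hm0 ha0) (fun u hu hu3 => by
      have := key (i - 3 * u) (by linarith) (by linarith)
      linarith)
  linarith

end Crest.Agent.R017.SC777
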