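import Crest.Agent.R017.SideD_777

/-!
# Row 17, section D: three big lumps, level rule with `CCCC` and `AAB` / `ABB` (theorem V4)

Side `{A, B, C | m, a} · V`, `C ≤ B ≤ A`. Columns at families `i ≤ κ - 3 ξ`: two-factor theorem
for the pair `{A, B}` with the granular mass once or `4/3` times, and Halász–Montgomery (LV') on
`CCCC`, `AAB`, `ABB`. `θ = 7/8 + d`, loss `d κ`. No LB, no REM.
-/

set_option autoImplicit false

noncomputable section

namespace Crest.Agent.R017.V4358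

open Crest.Agent.R017.ER911 Crest.Agent.R017.SC777

variable {θ d : ℝ} {r s : EF}

theorem trip_val (A B C : ℝ) :
    ((Finset.univ : Finset (Fin 3)).val.map ![A, B, C] : Multiset ℝ) = {A, B, C} := by
  rfl

theorem sum_trip (A B C : ℝ) : ({A, B, C} : Multiset ℝ).sum = A + B + C := by
  simp [add_assoc]

/-- the level rule for three lumps: (LV') on a monomial of the lumps, or a second moment of the
pair `{A, B}` with the granular mass once or `4/3` times -/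
theorem lev4 (Lv : ExpLv θ r) {κ A B C m a E : ℝ} (hκ : 0 ≤ κ) (hA : 0 ≤ A) (hAκ : A ≤ κ)
    (hB : 0 ≤ B) (hBκ : B ≤ κ) (hC : 0 ≤ C) (hCκ : C ≤ κ) (hm : 0 ≤ m) (ha : 0 ≤ a)
    (H : ∀ p q u xp xq xu m' a' ω : ℝ, 0 ≤ p → p ≤ A → 0 ≤ q → q ≤ B → 0 ≤ u → u ≤ C →
      0 ≤ m' → m' ≤ m → 0 ≤ a' → a' ≤ a → xp ≤ θ * p → xq ≤ θ * q → xu ≤ θ * u →
      ω ≤ θ * (m' + a') →
      (∃ n₀ n₁ n₂ : ℕ, (2 - θ) * (n₀ * p + n₁ * q + n₂ * u) + (2 * θ - 1) * κ ≤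
          2 * (n₀ * xp + n₁ * xq + n₂ * xu) ∧
        2 * ((n₀ * p + n₁ * q + n₂ * u) - (n₀ * xp + n₁ * xq + n₂ * xu)) +
          2 * (xp + xq + xu + ω) ≤ E) ∨
      r κ {p, q} m' a' + 2 * xu ≤ E ∨
      r κ {p, q} (4 / 3 * m') (4 / 3 * a') + 2 * xu - 2 / 3 * ω ≤ E) :
    r κ {A, B, C} m a ≤ E := by
  rw [← trip_val]
  refine Lv.lev 3 ![A, B, C] κ m a E hκ ?_ hm ha ?_
  · intro j
    fin_cases j
    · exact ⟨hA, hAκ⟩
    · exact ⟨hB, hBκ⟩
    · exact ⟨hC, hCκ⟩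
  · intro y x m' a' ω α hy hm0 hm1 ha0 ha1 hx hω hα
    -- effective granular level
    have gran : ∀ m' ω : ℝ, 0 ≤ m' → ω ≤ θ * m' →
        ω ≤ m' * (ω / m') ∧ m' * (ω / m') ≤ θ * m' := by
      intro m' ω hm' h
      rcases eq_or_ne m' 0 with h0 | h0
      · rw [h0] at h ⊢
        rw [mul_zero] at h
        simpa using h
      · rw [mul_div_cancel₀ _ h0]
        exact ⟨le_rfl, h⟩
    have g1 := gran m' ω hm0 hω
    have g2 := gran a' α ha0 hα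
    have y0 := hy 0
    have y1 := hy 1
    have y2 := hy 2
    have x0 := hx 0
    have x1 := hx 1
    have x2 := hx 2
    have hg : m' * (ω / m') + a' * (α / a') ≤ θ * (m' + a') := by linarith
    have e : (∑ j : Fin 3, Multiset.replicate ((![1, 1, 0] : Fin 3 → ℕ) j) (y j) :
        Multiset ℝ) = {y 0, y 1} := by
      simp [Fin.sum_univ_three, Multiset.singleton_add]
    rcases H (y 0) (y 1) (y 2) (x 0) (x 1) (x 2) m' a' (m' * (ω / m') + a' * (α / a'))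
      y0.1 y0.2 y1.1 y1.2 y2.1 y2.2 hm0 hm1 ha0 ha1 x0 x1 x2 hg with h | h | h
    · obtain ⟨n₀, n₁, n₂, h1, h2⟩ := h
      refine Or.inl ⟨![n₀, n₁, n₂], 0, 0, le_rfl, fun _ => rfl, le_rfl, fun _ => rfl, ?_, ?_⟩
      · refine Or.inr ?_
        simp only [Fin.sum_univ_three, Matrix.cons_val_zero, Matrix.cons_val_one,
          Matrix.cons_val, zero_mul, add_zero]
        linarith
      · simp only [Fin.sum_univ_three, Matrix.cons_val_zero, Matrix.cons_val_one,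
          Matrix.cons_val, zero_mul, add_zero]
        linarith [g1.1, g2.1]
    · refine Or.inr (Or.inl ⟨![1, 1, 0], m', a', hm0, fun h => h, ha0, fun h => h, ?_⟩)
      rw [e]
      simp only [Fin.sum_univ_three, Matrix.cons_val_zero, Matrix.cons_val_one,
        Matrix.cons_val, Nat.cast_zero, Nat.cast_one, zero_mul, one_mul, add_zero]
      linarith [g1.1, g2.1]
    · refine Or.inr (Or.inl ⟨![1, 1, 0], 4 / 3 * m', 4 / 3 * a', by linarith,
        fun h => by rw [h, mul_zero], by linarith, fun h => by rw [h, mul_zero], ?_⟩)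
      rw [e]
      simp only [Fin.sum_univ_three, Matrix.cons_val_zero, Matrix.cons_val_one,
        Matrix.cons_val, Nat.cast_zero, Nat.cast_one, zero_mul, one_mul, add_zero]
      have e1 : 4 / 3 * m' * (ω / m') = 4 / 3 * (m' * (ω / m')) := by ring
      have e2 : 4 / 3 * a' * (α / a') = 4 / 3 * (a' * (α / a')) := by ring
      rw [e1, e2]
      linarith [g1.1, g2.1]

/-- a column with three lumps in the level range -/
theorem col_V4 (R : ExpRules (7 / 8 + d) r s) (Lv : ExpLv (7 / 8 + d) r) (hd : 0 ≤ d)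
    {κ ξ A B C W i A' B' C' m a : ℝ} (hC0 : 0 ≤ C) (hBA : B ≤ A)
    (c1 : 3 * κ + 2 * C ≤ 25 * ξ) (c2 : 48 * C + 2 * A + B ≤ 6 * κ + 30 * ξ)
    (c3 : 12 * W + 7 * (A + B) ≤ 7 * i) (c4 : 16 * W + 4 * (A + B) ≤ 8 * i)
    (c5 : 2 * A + B + 5 * C ≤ 3 / 2 * (κ + ξ)) (c6 : 4 * W ≤ κ) (c7 : 4 * C ≤ κ)
    (hi : 0 ≤ i) (hii : i ≤ κ - 3 * ξ)
    (hA0 : 0 ≤ A') (hA1 : A' ≤ A) (hB0 : 0 ≤ B') (hB1 : B' ≤ B) (hC0' : 0 ≤ C') (hC1 : C' ≤ C)
    (hAi : A' ≤ i) (hBi : B' ≤ i) (hCi : C' ≤ i)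
    (hm : 0 ≤ m) (ha : 0 ≤ a) (hw : m + a ≤ W) :
    r i {A', B', C'} m a ≤ (A' + B' + C' + m + a) + (2 * κ + i) / 3 - ξ + d * κ := by
  refine lev4 Lv hi hA0 hAi hB0 hBi hC0' hCi hm ha ?_
  intro p q u xp xq xu m' a' ω hp hp' hq hq' hu hu' hm0 hm1 ha0 ha1 hxp hxq hxu hω
  have hκ : 0 ≤ κ := by linarith
  -- products with `d`
  have hdu : d * (4 * u) ≤ d * κ := mul_le_mul_of_nonneg_left (by linarith) hd
  have hdu0 : 0 ≤ d * u := mul_nonneg hd hu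
  have hdw : d * (4 * (m' + a')) ≤ d * κ := mul_le_mul_of_nonneg_left (by linarith) hd
  have hdw0 : 0 ≤ d * (m' + a') := mul_nonneg hd (by linarith)
  have hdi : d * i ≤ d * κ := mul_le_mul_of_nonneg_left (by linarith) hd
  have hdi0 : 0 ≤ d * i := mul_nonneg hd hi
  have hdκ : 0 ≤ d * κ := mul_nonneg hd hκ
  have hdp : 0 ≤ d * p := mul_nonneg hd hp
  have hdq : 0 ≤ d * q := mul_nonneg hd hq
  -- the pair is ideal
  have t1 : r i {p, q} m' a' ≤ i + (p + q) + (m' + a') + 2 * d * (m' + a') := by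
    have := side79a R hd (e := 0) (κ := i) hp hq hm0 ha0 (by linarith) le_rfl (by linarith)
      (by linarith) hi le_rfl (by linarith) (by linarith)
    linarith
  have t2 : r i {p, q} (4 / 3 * m') (4 / 3 * a') ≤
      i + (p + q) + 4 / 3 * (m' + a') + 2 * d * (4 / 3 * (m' + a')) := by
    have := side79a R hd (e := 0) (κ := i) hp hq (m := 4 / 3 * m') (a := 4 / 3 * a')
      (by linarith) (by linarith) (by linarith) le_rfl (by linarith)
      (by linarith) hi le_rfl (by linarith) (by linarith)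
    linarith
  by_contra hcon
  push Not at hcon
  obtain ⟨hLV, h1, h2⟩ := hcon
  have l4 := hLV 0 0 4
  have l21 := hLV 2 1 0
  have l12 := hLV 1 2 0
  simp only [Nat.cast_zero, Nat.cast_one, Nat.cast_ofNat, zero_mul, one_mul, zero_add,
    add_zero] at l4 l21 l12
  have k4 := l4 (by linarith)
  rcases le_total (2 * xq - q) (2 * xp - p) with hPQ | hPQ
  · have k21 := l21 (by linarith)
    linarith
  · have k12 := l12 (by linarith)
    linarith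

/-- the columns of `{A, B, C | m, a}` -/
theorem colX_V4 (R : ExpRules (7 / 8 + d) r s) (Lv : ExpLv (7 / 8 + d) r) (hd : 0 ≤ d)
    {κ ξ A B C W m a : ℝ} (hC : 0 ≤ C) (hCB : C ≤ B) (hBA : B ≤ A)
    (hm : 0 ≤ m) (ha : 0 ≤ a) (hW : m + a ≤ W)
    (c1 : 3 * κ + 2 * C ≤ 25 * ξ) (c2 : 48 * C + 2 * A + B ≤ 6 * κ + 30 * ξ)
    (c3 : 12 * W + 7 * (A + B) ≤ 7 * (κ - 3 / 2 * ξ - 9 / 8 * C))
    (c4 : 16 * W + 4 * (A + B) ≤ 8 * (κ - 3 / 2 * ξ - 9 / 8 * C))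
    (c5 : ξ ≤ 3 / 4 * C → 2 * A + B + 5 * C ≤ 3 / 2 * (κ + ξ)) (c6 : 4 * W ≤ κ) (c7 : 4 * C ≤ κ) :
    ColX (7 / 8 + d) r κ ξ (d * κ) {A, B, C} m a := by
  have hA : 0 ≤ A := by linarith
  have hB : 0 ≤ B := by linarith
  have hκ : 0 ≤ κ := by linarith
  have hdW : d * (4 * W) ≤ d * κ := mul_le_mul_of_nonneg_left c6 hd
  have hdC : d * (4 * C) ≤ d * κ := mul_le_mul_of_nonneg_left c7 hd
  have hdκ : 0 ≤ d * κ := mul_nonneg hd hκ
  refine ⟨?_, ?_⟩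
  · intro Y' m' a' i hY' hm0 hm1 ha0 ha1 hi hyi hii
    obtain ⟨A', Z₁, rfl, hA0, hA1, hZ₁⟩ := Sh.of_cons (Y := {B, C}) (y := A) hY'
    obtain ⟨B', C', rfl, hB0, hB1, hC0, hC1⟩ := hZ₁.pair
    have hs3 : (A' ::ₘ ({B', C'} : Multiset ℝ)).sum = A' + B' + C' := sum_trip A' B' C'
    rw [hs3]
    have hiA : A' ≤ i := hyi A' (by simp)
    have hiB : B' ≤ i := hyi B' (by simp)
    have hiC : C' ≤ i := hyi C' (by simp)
    rcases le_total i (κ - 3 / 2 * ξ - 9 / 8 * C) with hi1 | hi1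
    · -- the third lump pointwise
      have hdw : d * (m' + a') ≤ d * W := mul_le_mul_of_nonneg_left (by linarith) hd
      have hdC' : d * C' ≤ d * C := mul_le_mul_of_nonneg_left hC1 hd
      have e0 := supV R (κ := i) hi {A', B'} {C'}
        (ok_pair (m := 0) (a := 0) hA0 hB0 le_rfl le_rfl).1
        (fun y hy => by rw [Multiset.mem_singleton.1 hy]; exact hC0) hm0 ha0
      have e00 : ({C'} + {A', B'} : Multiset ℝ) = A' ::ₘ {B', C'} := by
        rw [Multiset.singleton_add]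
        show C' ::ₘ A' ::ₘ {B'} = A' ::ₘ B' ::ₘ {C'}
        rw [Multiset.cons_swap]
        congr 1
        exact Multiset.pair_comm C' B'
      rw [e00, Multiset.sum_singleton] at e0
      rcases le_or_gt i (A' + B') with hks | hks
      · have e1 := sup_all R hi hA0 hB0 hm0 ha0 hiA hiB
        linarith
      · obtain ⟨e, he⟩ : ∃ e, e = max 0 (max (m' + a' - 7 / 9 * (i - (A' + B')))
          ((12 * a' + 9 * m' + 4 * (A' + B') - 8 * i) / 12)) := ⟨_, rfl⟩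
        have he0 : 0 ≤ e := by rw [he]; exact le_max_left _ _
        have he1 : m' + a' - 7 / 9 * (i - (A' + B')) ≤ e := by
          rw [he]; exact (le_max_left _ _).trans (le_max_right _ _)
        have he2 : (12 * a' + 9 * m' + 4 * (A' + B') - 8 * i) / 12 ≤ e := by
          rw [he]; exact (le_max_right _ _).trans (le_max_right _ _)
        have e1 := side79a R hd hA0 hB0 hm0 ha0 hks.le he0 he1 (by linarith) hi le_rfl hiA hiB
        have e4 : e ≤ 4 / 3 * ((2 * κ + i) / 3 - ξ - i - 3 / 4 * C') := by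
          rw [he]
          refine max_le ?_ (max_le ?_ ?_)
          · linarith
          · linarith
          · linarith
        linarith
    · exact (col_V4 R Lv hd (κ := κ) (ξ := ξ) (A := A) (B := B) (C := C) (W := W) hC hBA c1 c2
        (by linarith) (by linarith) (c5 (by linarith)) c6 c7 hi hii hA0 hA1 hB0 hB1 hC0 hC1 hiA
        hiB hiC hm0 ha0 (by linarith))
  · intro Y' m' a' hY' hm0 hm1 ha0 ha1 h3
    have hYs := hY'.sum_nonneg
    have hdm : d * m' ≤ d * W := mul_le_mul_of_nonneg_left (by linarith) hd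
    linarith

/-- **V4** : side `V + {A, B, C} | m, a`, at most `W` granular mass left in the columns -/
theorem V4 (R : ExpRules (7 / 8 + d) r s) (Lv : ExpLv (7 / 8 + d) r) (hd : 0 ≤ d)
    {κ ξ A B C m a W : ℝ} {V : Multiset ℝ} (hC : 0 ≤ C) (hCB : C ≤ B)
    (hBA : B ≤ A) (hV : ∀ y ∈ V, 0 ≤ y) (hm : 0 ≤ m) (ha : 0 ≤ a) (hW0 : 0 ≤ W)
    (hVξ : V.sum ≤ ξ) (hξW : V.sum + m + a ≤ ξ + W)
    (c0 : 2 * ξ + (A + B + C) + W ≤ κ)
    (c1 : 3 * κ + 2 * C ≤ 25 * ξ) (c2 : 48 * C + 2 * A + B ≤ 6 * κ + 30 * ξ)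
    (c3 : 12 * W + 7 * (A + B) ≤ 7 * (κ - 3 / 2 * ξ - 9 / 8 * C))
    (c4 : 16 * W + 4 * (A + B) ≤ 8 * (κ - 3 / 2 * ξ - 9 / 8 * C))
    (c5 : ξ ≤ 3 / 4 * C → 2 * A + B + 5 * C ≤ 3 / 2 * (κ + ξ)) (c6 : 4 * W ≤ κ) (c7 : 4 * C ≤ κ) :
    ∀ κ' : ℝ, 0 ≤ κ' → κ' ≤ κ →
      r κ' (V + {A, B, C}) m a + (κ - κ') / 3 ≤
        κ + (V.sum + (A + B + C) + m + a) + d * κ := by
  have hκ : 0 ≤ κ := by linarith
  have hV0 : 0 ≤ V.sum := Multiset.sum_nonneg hV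
  obtain ⟨t, ht⟩ : ∃ t, t = min (m + a) (ξ - V.sum) := ⟨_, rfl⟩
  have ht0 : 0 ≤ t := by rw [ht]; exact le_min (by linarith) (by linarith)
  have ht1 : t ≤ m + a := by rw [ht]; exact min_le_left _ _
  have ht2 : t ≤ ξ - V.sum := by rw [ht]; exact min_le_right _ _
  have ht3 : m + a - t ≤ W := by
    rcases le_total (m + a) (ξ - V.sum) with h | h
    · rw [ht, min_eq_left h]; linarith
    · rw [ht, min_eq_right h]; linarith
  obtain ⟨b, hb⟩ : ∃ b, b = min m t := ⟨_, rfl⟩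
  have hb0 : 0 ≤ b := by rw [hb]; exact le_min hm ht0
  have hb1 : b ≤ m := by rw [hb]; exact min_le_left _ _
  have hb2 : b ≤ t := by rw [hb]; exact min_le_right _ _
  have hb3 : t - b ≤ a := by
    rcases le_total m t with h | h
    · rw [hb, min_eq_left h]; linarith
    · rw [hb, min_eq_right h]; linarith
  have hcol := colX_V4 R Lv hd (κ := κ) (ξ := ξ) (m := m - b) (a := a - (t - b)) (W := W) hC
    hCB hBA (by linarith) (by linarith) (by linarith) c1 c2 c3 c4 c5 c6 c7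
  have hZ : ∀ y ∈ ({A, B, C} : Multiset ℝ), 0 ≤ y := by
    intro y hy
    simp only [Multiset.insert_eq_cons, Multiset.mem_cons, Multiset.mem_singleton] at hy
    rcases hy with rfl | rfl | rfl <;> linarith
  have := side_xi R (κ := κ) (ξ := ξ) (m := m - b) (b := b) (a := a - (t - b)) (b' := t - b)
    (F := d * κ) (V := V) (Z := {A, B, C}) hκ hV hZ (by linarith) hb0 (by linarith)
    (by linarith) (mul_nonneg hd hκ) (by linarith)
    (by rw [sum_trip]; have := mul_nonneg hd hκ; linarith) hcol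
  intro κ' h0 h1
  have := this κ' h0 h1
  rw [sum_trip, sub_add_cancel, sub_add_cancel] at this
  linarith

/-- the column `t7c` (family `1`, all fillers): `{y₁, y₂, y₃}` up to `N = 1 - ξ`,
`30 ξ = 48 y₃ + 2 y₁ + y₂ - 6` -/
theorem t7c (R : ExpRules (7 / 8 + d) r s) (Lv : ExpLv (7 / 8 + d) r) (hd : 0 ≤ d)
    {y₁ y₂ y₃ N f g : ℝ} (h3 : 0 ≤ y₃) (h32 : y₃ ≤ y₂) (h21 : y₂ ≤ y₁)
    (n1 : 30 * N + 48 * y₃ + 2 * y₁ + y₂ ≤ 36)
    (n2 : 48 ≤ 228 * y₃ + 10 * y₁ + 5 * y₂)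
    (n3 : 308 ≤ 236 * y₁ + 218 * y₂ + 1029 * y₃)
    (n4 : 38 * y₁ + 19 * y₂ + 52 * y₃ ≤ 24)
    (n5 : 17 * y₁ + 16 * y₂ + 63 * y₃ ≤ 21)
    (hf : 0 ≤ f) (hg : 0 ≤ g) (hN : y₁ + y₂ + y₃ + f + g ≤ N) :
    ∀ k' : ℝ, 0 ≤ k' → k' ≤ 1 →
      r k' {y₁, y₂, y₃} f g + (1 - k') / 3 ≤
        1 + ((({y₁, y₂, y₃} : Multiset ℝ)).sum + f + g) + d := by
  intro k' hk0 hk1
  have := V4 R Lv hd (κ := 1) (ξ := (48 * y₃ + 2 * y₁ + y₂ - 6) / 30) (m := f) (a := g)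
    (W := 1 - (y₁ + y₂ + y₃) - (48 * y₃ + 2 * y₁ + y₂ - 6) / 15) (V := 0) h3 h32 h21
    (by simp) hf hg (by linarith) (by rw [Multiset.sum_zero]; linarith)
    (by rw [Multiset.sum_zero]; linarith) (by linarith)
    (by linarith) (by linarith) (by linarith) (by linarith) (fun _ => by linarith) (by linarith)
    (by linarith) k' hk0 hk1
  rw [zero_add, Multiset.sum_zero] at this
  rw [sum_trip]
  linarith

/-- the column `v4` of `CovDefs_499` (v2), lumps `≥ 13/100` -/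
theorem v4 (R : ExpRules (7 / 8 + d) r s) (Lv : ExpLv (7 / 8 + d) r) (hd : 0 ≤ d)
    (y₁ y₂ y₃ N ξ f g : ℝ) (o1 : y₂ ≤ y₁) (o2 : y₃ ≤ y₂) (h0 : 13 / 100 ≤ y₃)
    (h1 : 2 * ξ + (y₁ + y₂ + y₃) ≤ 1) (h2 : N + ξ ≤ 1)
    (h3 : 48 * y₃ + 2 * y₁ + y₂ ≤ 6 + 30 * ξ) (h4 : 3 + 2 * y₃ ≤ 25 * ξ)
    (h6 : 0 ≤ 1 - 3 / 2 * ξ - 9 / 8 * y₃ - (y₁ + y₂))
    (h7 : 4 / 3 * (N - (y₁ + y₂ + y₃) - ξ) ≤ 7 / 9 * (1 - 3 / 2 * ξ - 9 / 8 * y₃ - (y₁ + y₂)))
    (h8 : 2 * y₁ + y₂ + 2 * y₃ + 9 / 2 * (3 / 4 * y₃ - ξ) ≤ 3 / 2 - 5 / 2 * ξ)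
    (hf : 0 ≤ f) (hg : 0 ≤ g) (hN : y₁ + y₂ + y₃ + f + g ≤ N) :
    ∀ k' : ℝ, 0 ≤ k' → k' ≤ 1 →
      r k' {y₁, y₂, y₃} f g + (1 - k') / 3 ≤
        1 + ((({y₁, y₂, y₃} : Multiset ℝ)).sum + f + g) + 10 / 9 * d := by
  intro k' hk0 hk1
  obtain ⟨W, hW⟩ : ∃ W, W = max 0 (N - (y₁ + y₂ + y₃) - ξ) := ⟨_, rfl⟩
  have hW0 : 0 ≤ W := by rw [hW]; exact le_max_left _ _
  have hW1 : N - (y₁ + y₂ + y₃) - ξ ≤ W := by rw [hW]; exact le_max_right _ _
  have hW2 : 2 * ξ + (y₁ + y₂ + y₃) + W ≤ 1 := by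
    have : W ≤ 1 - 2 * ξ - (y₁ + y₂ + y₃) := by
      rw [hW]; exact max_le (by linarith) (by linarith)
    linarith
  have hW3 : 12 * W + 7 * (y₁ + y₂) ≤ 7 * (1 - 3 / 2 * ξ - 9 / 8 * y₃) := by
    have : W ≤ 7 / 12 * (1 - 3 / 2 * ξ - 9 / 8 * y₃ - (y₁ + y₂)) := by
      rw [hW]; exact max_le (by linarith) (by linarith)
    linarith
  have := V4 R Lv hd (κ := 1) (ξ := ξ) (A := y₁) (B := y₂) (C := y₃) (m := f) (a := g)
    (W := W) (V := 0) (by linarith) o2 o1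
    (by simp) hf hg hW0 (by rw [Multiset.sum_zero]; linarith)
    (by rw [Multiset.sum_zero]; linarith) hW2
    (by linarith) (by linarith) (by linarith) (by linarith) (fun _ => by linarith) (by linarith)
    (by linarith) k' hk0 hk1
  rw [zero_add, Multiset.sum_zero] at this
  rw [sum_trip]
  linarith

end Crest.Agent.R017.V4358
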