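import Crest.Agent.R017.SideV4_358

/-!
# Row 17, section D: three big lumps, level rule with all pair moments (theorems V5, V6, V7)

Side `{A, B, C | m, a}`, `C ≤ B ≤ A`, all granular mass in `X` (`m + a ≤ ξ`). Columns
`{A', B', C'}` at families `i ≤ 1 - 3 ξ`: two-factor theorem for the pairs `{A', C'}`, `{A', B'}`,
`{A', A'}` and Halász–Montgomery on `BBCC`, `BBCCC`, `BBBCC`. `θ = 7/8 + d`, loss `d`.
No LB, no REM.
-/

set_option autoImplicit false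

noncomputable section

namespace Crest.Agent.R017.V5358

open Crest.Agent.R017.ER911 Crest.Agent.R017.SC777 Crest.Agent.R017.V4358

variable {θ d : ℝ} {r s : EF}

/-- the level rule for three lumps without granular mass: Halász–Montgomery on a monomial, or a
second moment of `{A, B}`, `{A, C}` or `{A, A}` -/
theorem lev5 (R : ExpRules θ r s) (Lv : ExpLv θ r) {κ A B C E : ℝ} (hκ : 0 ≤ κ) (hA : 0 ≤ A)
    (hAκ : A ≤ κ) (hB : 0 ≤ B) (hBκ : B ≤ κ) (hC : 0 ≤ C) (hCκ : C ≤ κ)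
    (H : ∀ p q u xp xq xu : ℝ, 0 ≤ p → p ≤ A → 0 ≤ q → q ≤ B → 0 ≤ u → u ≤ C →
      xp ≤ θ * p → xq ≤ θ * q → xu ≤ θ * u →
      E < κ + (p + q) + 2 * xu → E < κ + (p + u) + 2 * xq →
      E < κ + 2 * p - 2 * xp + 2 * xq + 2 * xu →
      ∃ n₀ n₁ n₂ : ℕ, LVok θ κ (n₀ * p + n₁ * q + n₂ * u) (n₀ * xp + n₁ * xq + n₂ * xu) ∧
        2 * ((n₀ * p + n₁ * q + n₂ * u) - (n₀ * xp + n₁ * xq + n₂ * xu)) +
          2 * (xp + xq + xu) ≤ E) :
    r κ {A, B, C} 0 0 ≤ E := by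
  rw [← trip_val]
  refine Lv.lev 3 ![A, B, C] κ 0 0 E hκ ?_ le_rfl le_rfl ?_
  · intro j
    fin_cases j
    · exact ⟨hA, hAκ⟩
    · exact ⟨hB, hBκ⟩
    · exact ⟨hC, hCκ⟩
  · intro y x m' a' ω α hy hm0 hm1 ha0 ha1 hx hω hα
    obtain rfl : m' = 0 := le_antisymm hm1 hm0
    obtain rfl : a' = 0 := le_antisymm ha1 ha0
    rw [mul_zero] at hω hα
    have y0 : 0 ≤ y 0 ∧ y 0 ≤ A := hy 0
    have y1 : 0 ≤ y 1 ∧ y 1 ≤ B := hy 1
    have y2 : 0 ≤ y 2 ∧ y 2 ≤ C := hy 2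
    have x0 := hx 0
    have x1 := hx 1
    have x2 := hx 2
    rcases le_or_gt (κ + (y 0 + y 1) + 2 * x 2) E with c1 | c1
    · refine Or.inr (Or.inl ⟨![1, 1, 0], 0, 0, le_rfl, fun _ => rfl, le_rfl, fun _ => rfl, ?_⟩)
      have e : (∑ j : Fin 3, Multiset.replicate ((![1, 1, 0] : Fin 3 → ℕ) j) (y j) :
          Multiset ℝ) = {y 0, y 1} := by
        simp [Fin.sum_univ_three, Multiset.singleton_add]
      rw [e]
      have := R.tf κ (y 0) (y 1) y0.1 y1.1 (by linarith) (by linarith)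
      simp only [Fin.sum_univ_three, Matrix.cons_val_zero, Matrix.cons_val_one,
        Matrix.cons_val, Nat.cast_zero, Nat.cast_one, zero_mul, one_mul, add_zero]
      linarith
    rcases le_or_gt (κ + (y 0 + y 2) + 2 * x 1) E with c2 | c2
    · refine Or.inr (Or.inl ⟨![1, 0, 1], 0, 0, le_rfl, fun _ => rfl, le_rfl, fun _ => rfl, ?_⟩)
      have e : (∑ j : Fin 3, Multiset.replicate ((![1, 0, 1] : Fin 3 → ℕ) j) (y j) :
          Multiset ℝ) = {y 0, y 2} := by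
        simp [Fin.sum_univ_three, Multiset.singleton_add]
      rw [e]
      have := R.tf κ (y 0) (y 2) y0.1 y2.1 (by linarith) (by linarith)
      simp only [Fin.sum_univ_three, Matrix.cons_val_zero, Matrix.cons_val_one,
        Matrix.cons_val, Nat.cast_zero, Nat.cast_one, zero_mul, one_mul, add_zero]
      linarith
    rcases le_or_gt (κ + 2 * y 0 - 2 * x 0 + 2 * x 1 + 2 * x 2) E with c3 | c3
    · refine Or.inr (Or.inl ⟨![2, 0, 0], 0, 0, le_rfl, fun _ => rfl, le_rfl, fun _ => rfl, ?_⟩)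
      have e : (∑ j : Fin 3, Multiset.replicate ((![2, 0, 0] : Fin 3 → ℕ) j) (y j) :
          Multiset ℝ) = {y 0, y 0} := by
        simp [Fin.sum_univ_three, Multiset.replicate_succ]
      rw [e]
      have := R.tf κ (y 0) (y 0) y0.1 y0.1 (by linarith) (by linarith)
      simp only [Fin.sum_univ_three, Matrix.cons_val_zero, Matrix.cons_val_one,
        Matrix.cons_val, Nat.cast_zero, Nat.cast_ofNat, zero_mul, add_zero]
      linarith
    obtain ⟨n₀, n₁, n₂, h1, h2⟩ := H (y 0) (y 1) (y 2) (x 0) (x 1) (x 2) y0.1 y0.2 y1.1 y1.2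
      y2.1 y2.2 x0 x1 x2 c1 c2 c3
    refine Or.inl ⟨![n₀, n₁, n₂], 0, 0, le_rfl, fun _ => rfl, le_rfl, fun _ => rfl, ?_, ?_⟩
    · simpa only [Fin.sum_univ_three, Matrix.cons_val_zero, Matrix.cons_val_one,
        Matrix.cons_val, zero_mul, add_zero] using h1
    · simp only [Fin.sum_univ_three, Matrix.cons_val_zero, Matrix.cons_val_one,
        Matrix.cons_val, zero_mul, add_zero]
      linarith

/-- the region of the columns -/
def Reg (ξ B C : ℝ) : Prop :=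
  (2 * (B + C) ≤ 1 - ξ ∧ 3 + B + C ≤ 25 * ξ) ∨
  (2 * B + 3 * C ≤ 1 ∧ 6 + 2 * B + 3 * C ≤ 58 * ξ) ∨
  (2 ≤ 15 * ξ ∧ B + C ≤ 3 * ξ ∧ 2 * (B + C) ≤ 1 - ξ)

/-- a column with three lumps -/
theorem col_V5 (R : ExpRules (7 / 8 + d) r s) (Lv : ExpLv (7 / 8 + d) r) (hd : 0 ≤ d)
    {ξ B C i A' B' C' : ℝ} (hR : Reg ξ B C) (hi : 0 ≤ i) (hii : i ≤ 1 - 3 * ξ)
    (hA0 : 0 ≤ A') (hB0 : 0 ≤ B') (hB1 : B' ≤ B) (hC0 : 0 ≤ C') (hC1 : C' ≤ C)
    (hAi : A' ≤ i) (hBi : B' ≤ i) (hCi : C' ≤ i) :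
    r i {A', B', C'} 0 0 ≤ (A' + B' + C') + (2 + i) / 3 - ξ + d := by
  refine lev5 R Lv hi hA0 hAi hB0 hBi hC0 hCi ?_
  intro p q u xp xq xu hp hp' hq hq' hu hu' hxp hxq hxu c1 c2 c3
  have hi1 : i ≤ 1 := by
    rcases hR with h | h | h <;> linarith
  have hdi : d * i ≤ d * 1 := mul_le_mul_of_nonneg_left hi1 hd
  have hdq : 0 ≤ d * q := mul_nonneg hd hq
  have hdu : 0 ≤ d * u := mul_nonneg hd hu
  rcases hR with ⟨h1, h2⟩ | ⟨h1, h2⟩ | ⟨h0, h1, h2⟩
  · refine ⟨0, 2, 2, Or.inr ?_, ?_⟩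
    · simp only [Nat.cast_zero, Nat.cast_ofNat, zero_mul, zero_add]
      linarith
    · simp only [Nat.cast_zero, Nat.cast_ofNat, zero_mul, zero_add]
      linarith
  · refine ⟨0, 2, 3, Or.inr ?_, ?_⟩
    · simp only [Nat.cast_zero, Nat.cast_ofNat, zero_mul, zero_add]
      linarith
    · simp only [Nat.cast_zero, Nat.cast_ofNat, zero_mul, zero_add]
      linarith
  · rcases le_total (2 / 3 * i) (q + u) with hw | hw
    · refine ⟨0, 2, 2, Or.inl ⟨?_, ?_⟩, ?_⟩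
      · simp only [Nat.cast_zero, Nat.cast_ofNat, zero_mul, zero_add]
        linarith
      · simp only [Nat.cast_zero, Nat.cast_ofNat, zero_mul, zero_add]
        linarith
      · simp only [Nat.cast_zero, Nat.cast_ofNat, zero_mul, zero_add]
        linarith
    · rcases le_total u q with hqu | hqu
      · refine ⟨0, 2, 3, Or.inr ?_, ?_⟩
        · simp only [Nat.cast_zero, Nat.cast_ofNat, zero_mul, zero_add]
          linarith
        · simp only [Nat.cast_zero, Nat.cast_ofNat, zero_mul, zero_add]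
          linarith
      · refine ⟨0, 3, 2, Or.inr ?_, ?_⟩
        · simp only [Nat.cast_zero, Nat.cast_ofNat, zero_mul, zero_add]
          linarith
        · simp only [Nat.cast_zero, Nat.cast_ofNat, zero_mul, zero_add]
          linarith

/-- **V5, V6, V7** : side `{A, B, C | m, a}`, `m + a ≤ ξ` -/
theorem v5 (R : ExpRules (7 / 8 + d) r s) (Lv : ExpLv (7 / 8 + d) r) (hd : 0 ≤ d)
    {ξ y₁ y₂ y₃ f g : ℝ} (o1 : y₂ ≤ y₁) (o2 : y₃ ≤ y₂) (h0 : 0 ≤ y₃)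
    (h1 : 2 * ξ + (y₁ + y₂ + y₃) ≤ 1) (hR : Reg ξ y₂ y₃)
    (hf : 0 ≤ f) (hg : 0 ≤ g) (hN : f + g ≤ ξ) :
    ∀ k' : ℝ, 0 ≤ k' → k' ≤ 1 →
      r k' {y₁, y₂, y₃} f g + (1 - k') / 3 ≤
        1 + ((({y₁, y₂, y₃} : Multiset ℝ)).sum + f + g) + d := by
  have hξ : ξ ≤ 1 / 2 := by linarith
  have hcol : ColX (7 / 8 + d) r 1 ξ d {y₁, y₂, y₃} 0 0 := by
    refine ⟨?_, ?_⟩
    · intro Y' m' a' i hY' hm0 hm1 ha0 ha1 hi hyi hii
      obtain rfl : m' = 0 := le_antisymm hm1 hm0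
      obtain rfl : a' = 0 := le_antisymm ha1 ha0
      obtain ⟨A', Z₁, rfl, hA0, hA1, hZ₁⟩ := Sh.of_cons (Y := {y₂, y₃}) (y := y₁) hY'
      obtain ⟨B', C', rfl, hB0, hB1, hC0, hC1⟩ := hZ₁.pair
      have hs3 : (A' ::ₘ ({B', C'} : Multiset ℝ)).sum = A' + B' + C' := sum_trip A' B' C'
      rw [hs3]
      have := col_V5 R Lv hd hR hi hii hA0 hB0 hB1 hC0 hC1 (hyi A' (by simp)) (hyi B' (by simp))
        (hyi C' (by simp))
      have e : (A' ::ₘ ({B', C'} : Multiset ℝ)) = {A', B', C'} := rfl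
      rw [e]
      linarith
    · intro Y' m' a' hY' hm0 hm1 ha0 ha1 h3
      obtain rfl : m' = 0 := le_antisymm hm1 hm0
      obtain rfl : a' = 0 := le_antisymm ha1 ha0
      have hYs := hY'.sum_nonneg
      linarith
  have hZ : ∀ y ∈ ({y₁, y₂, y₃} : Multiset ℝ), 0 ≤ y := by
    intro y hy
    simp only [Multiset.insert_eq_cons, Multiset.mem_cons, Multiset.mem_singleton] at hy
    rcases hy with rfl | rfl | rfl <;> linarith
  intro k' hk0 hk1
  have := side_xi R (κ := 1) (ξ := ξ) (m := 0) (b := f) (a := 0) (b' := g) (F := d) (V := 0)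
    (Z := {y₁, y₂, y₃}) zero_le_one (by simp) hZ le_rfl hf le_rfl hg hd
    (by rw [Multiset.sum_zero]; linarith) (by rw [sum_trip]; linarith) hcol k' hk0 hk1
  rw [zero_add, Multiset.sum_zero, zero_add, zero_add] at this
  linarith

end Crest.Agent.R017.V5358
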