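import Crest.Agent.R017.ExpRules_911

/-!
# Row 17, section D: zero lumps (helper74)

The column theorems are stated for exactly two distinguished lumps `{y₁, y₂}`; the field `zero` is
`r (0 ::ₘ Y) ≤ r Y`, so they say nothing about sides with at most one distinguished lump.
`tz r κ Y m a := r κ (Y without its zero lumps) m a` satisfies the same rules, hence every column
theorem holds for `tz r`; for sides without zero lumps `tz r = r`.
-/

set_option autoImplicit false

noncomputable section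

namespace Crest.Agent.R017.Zero74

open Crest.Agent.R017.ER911

variable {θ : ℝ} {r s s₀ : EF}

open Classical in
/-- the nonzero lumps -/
def nz (Y : Multiset ℝ) : Multiset ℝ := Y.filter (fun y => y ≠ 0)

/-- the functional on the nonzero lumps -/
def tz (r : EF) : EF := fun κ Y m a => r κ (nz Y) m a

theorem nz_zero : nz 0 = 0 := by simp [nz]

theorem nz_cons_zero (Y : Multiset ℝ) : nz (0 ::ₘ Y) = nz Y := by simp [nz]

theorem nz_cons {y : ℝ} (h : y ≠ 0) (Y : Multiset ℝ) : nz (y ::ₘ Y) = y ::ₘ nz Y := by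
  simp [nz, h]

theorem nz_add (Y Z : Multiset ℝ) : nz (Y + Z) = nz Y + nz Z := by
  simp [nz, Multiset.filter_add]

theorem nz_of_pos {Y : Multiset ℝ} (h : ∀ y ∈ Y, y ≠ 0) : nz Y = Y := by
  classical
  simp only [nz]
  exact Multiset.filter_eq_self.2 h

theorem nz_sum (Y : Multiset ℝ) : (nz Y).sum = Y.sum := by
  induction Y using Multiset.induction_on with
  | empty => simp [nz_zero]
  | cons y Y ih =>
    by_cases h : y = 0
    · rw [h, nz_cons_zero, ih]; simp
    · rw [nz_cons h]; simp [ih]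

theorem mem_nz {y : ℝ} {Y : Multiset ℝ} (h : y ∈ nz Y) : y ∈ Y := by
  simp only [nz] at h
  exact Multiset.mem_of_mem_filter h

theorem nz_nz (Y : Multiset ℝ) : nz (nz Y) = nz Y :=
  nz_of_pos fun y hy => by
    simp only [nz] at hy
    exact (Multiset.mem_filter.1 hy).2

theorem nz_ok {Y : Multiset ℝ} {m a : ℝ} (h : Ok Y m a) : Ok (nz Y) m a :=
  ⟨fun y hy => h.1 y (mem_nz hy), h.2.1, h.2.2⟩

theorem ok_cons {Y : Multiset ℝ} {y m a : ℝ} (h : Ok (y ::ₘ Y) m a) : 0 ≤ y ∧ Ok Y m a :=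
  ⟨h.1 y (Multiset.mem_cons_self y Y),
    fun z hz => h.1 z (Multiset.mem_cons_of_mem hz), h.2.1, h.2.2⟩

/-- monotonicity under adding one lump, for an abstract functional: needs congruence in the rest -/
theorem le_nz_aux {r : EF} (hz : ∀ (κ : ℝ) (Y : Multiset ℝ) (m a : ℝ), 0 ≤ κ → Ok Y m a →
    r κ (0 ::ₘ Y) m a ≤ r κ Y m a) {κ m a : ℝ} (hκ : 0 ≤ κ) (Y : Multiset ℝ) :
    ∀ W : Multiset ℝ, Ok (Y + W) m a → r κ (Y + W) m a ≤ r κ (nz Y + W) m a := by
  induction Y using Multiset.induction_on with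
  | empty => intro W _; simp [nz_zero]
  | cons y Y ih =>
    intro W h
    by_cases hy : y = 0
    · subst hy
      rw [nz_cons_zero, Multiset.cons_add]
      rw [Multiset.cons_add] at h
      exact (hz κ (Y + W) m a hκ (ok_cons h).2).trans (ih W (ok_cons h).2)
    · rw [nz_cons hy, Multiset.cons_add, Multiset.cons_add, ← Multiset.add_cons,
        ← Multiset.add_cons]
      refine ih (y ::ₘ W) ?_
      rwa [Multiset.add_cons, ← Multiset.cons_add]

theorem r_le (R : ExpRules θ r s) {κ m a : ℝ} (hκ : 0 ≤ κ) {Y : Multiset ℝ} (h : Ok Y m a) :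
    r κ Y m a ≤ r κ (nz Y) m a := by
  have := le_nz_aux R.zero hκ (m := m) (a := a) Y 0 (by simpa using h)
  simpa using this

theorem s_le (R : ExpRules θ r s) {κ m a : ℝ} (hκ : 0 ≤ κ) {Y : Multiset ℝ} (h : Ok Y m a) :
    s κ Y m a ≤ s κ (nz Y) m a := by
  have := le_nz_aux R.zeroG hκ (m := m) (a := a) Y 0 (by simpa using h)
  simpa using this

/-- a shortening of the nonzero lumps extends -/
theorem sh_ext {Y₀ Y : Multiset ℝ} (h : Sh Y₀ (nz Y)) :
    ∃ Y', Sh Y' Y ∧ nz Y' = nz Y₀ ∧ Y'.sum = Y₀.sum ∧ ∀ y ∈ Y', y ∈ Y₀ ∨ y = 0 := by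
  classical
  obtain ⟨Z, hZ⟩ : ∃ Z, Z = Y.filter (fun y => ¬ y ≠ 0) := ⟨_, rfl⟩
  have hYZ : nz Y + Z = Y := by
    rw [hZ]
    simp only [nz]
    convert Multiset.filter_add_not (fun y : ℝ => y ≠ 0) Y
  have hZ0 : ∀ y ∈ Z, y = 0 := by
    intro y hy
    rw [hZ] at hy
    have := (Multiset.mem_filter.1 hy).2
    push Not at this
    exact this
  have hnzZ : nz Z = 0 := by
    simp only [nz]
    exact Multiset.filter_eq_nil.2 fun y hy => by simpa using hZ0 y hy
  refine ⟨Y₀ + Z, ?_, ?_, ?_, ?_⟩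
  · have h2 : Sh Z Z := Sh.refl fun y hy => (hZ0 y hy).ge
    have := Multiset.Rel.add h h2
    rwa [hYZ] at this
  · rw [nz_add, hnzZ, add_zero]
  · rw [Multiset.sum_add, Multiset.sum_eq_zero hZ0, add_zero]
  · intro y hy
    rcases Multiset.mem_add.1 hy with h1 | h1
    · exact Or.inl h1
    · exact Or.inr (hZ0 y h1)

/-- (TF) for one lump -/
theorem tf1 (R : ExpRules θ r s) {κ y : ℝ} (hy : 0 ≤ y) (hyκ : y ≤ κ) :
    r κ {y} 0 0 ≤ κ + y := by
  have hκ : 0 ≤ κ := hy.trans hyκ
  have short : ∀ z : ℝ, 0 ≤ z → 2 * z ≤ κ → r κ {z} 0 0 ≤ κ + z := by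
    intro z hz hz2
    have := R.hbC κ {z} 0 0 hκ ⟨by simpa using hz, le_rfl, le_rfl⟩
    rw [Multiset.sum_singleton] at this
    refine this.trans (max_le ?_ (max_le ?_ ?_)) <;> linarith
  have h := R.flip κ y 0 0 0 (κ + y) hκ hy ⟨by simp, le_rfl, le_rfl⟩ ?_ ?_
  · simpa using h
  · intro z hz hzy hz2
    have := short z hz hz2
    have e : (z ::ₘ (0 : Multiset ℝ)) = {z} := rfl
    rw [e]; linarith
  · intro z t hzy hzκ hz2 ht ht2
    have := short (κ - t - z) (by linarith) (by linarith)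
    have e : ((κ - t - z) ::ₘ (0 : Multiset ℝ)) = {κ - t - z} := rfl
    rw [e]; linarith

/-- (TF) for no lump -/
theorem tf0 (R : ExpRules θ r s) {κ : ℝ} (hκ : 0 ≤ κ) : r κ 0 0 0 ≤ κ := by
  have := R.hbC κ 0 0 0 hκ ⟨by simp, le_rfl, le_rfl⟩
  simp only [Multiset.sum_zero] at this
  refine this.trans (max_le ?_ (max_le ?_ ?_)) <;> linarith

/-- **the rules for `tz r`, `tz s`** -/
theorem rules (R : ExpRules θ r s) : ExpRules θ (tz r) (tz s) where
  hbC := by
    intro κ Y m a hκ h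
    have := R.hbC κ (nz Y) m a hκ (nz_ok h)
    rwa [nz_sum] at this
  hbG := by
    intro κ Y m a hκ h
    have := R.hbG κ (nz Y) m a hκ (nz_ok h)
    rwa [nz_sum] at this
  tf := by
    intro κ y₁ y₂ h1 h2 h1κ h2κ
    have hκ : 0 ≤ κ := h1.trans h1κ
    have e : ({y₁, y₂} : Multiset ℝ) = y₁ ::ₘ y₂ ::ₘ 0 := rfl
    simp only [tz]
    rw [e]
    by_cases hy1 : y₁ = 0
    · by_cases hy2 : y₂ = 0
      · rw [hy1, hy2, nz_cons_zero, nz_cons_zero, nz_zero]
        have := tf0 R hκ
        linarith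
      · rw [hy1, nz_cons_zero, nz_cons hy2, nz_zero]
        have := tf1 R h2 h2κ
        have e2 : (y₂ ::ₘ (0 : Multiset ℝ)) = {y₂} := rfl
        rw [e2]; linarith
    · by_cases hy2 : y₂ = 0
      · rw [nz_cons hy1, hy2, nz_cons_zero, nz_zero]
        have := tf1 R h1 h1κ
        have e2 : (y₁ ::ₘ (0 : Multiset ℝ)) = {y₁} := rfl
        rw [e2]; linarith
      · rw [nz_cons hy1, nz_cons hy2, nz_zero]
        exact R.tf κ y₁ y₂ h1 h2 h1κ h2κ
  poisC := by
    intro κ Y m a E hκ h hE hE2 H κ' hκ' hκκ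
    simp only [tz]
    refine R.poisC κ (nz Y) m a E hκ (nz_ok h) (by rwa [nz_sum]) (by rwa [nz_sum]) ?_ κ' hκ' hκκ
    intro Y₀ m' a' i hY hm hm' ha ha' hi hi'
    obtain ⟨Y', h1, h2, h3, _⟩ := sh_ext hY
    rw [← h3] at hi'
    have h4 := H Y' m' a' i h1 hm hm' ha ha' hi hi'
    simp only [tz] at h4
    rw [h2, h3] at h4
    have h5 := s_le R hi (hY.ok hm ha)
    rw [nz_sum]
    linarith
  poisG := by
    intro κ Y m a E hκ h hE H1 H2 κ' hκ' hκκ
    simp only [tz]
    refine R.poisG κ (nz Y) m a E hκ (nz_ok h) (by rwa [nz_sum]) ?_ ?_ κ' hκ' hκκ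
    · intro Y₀ m' a' i hY hm hm' ha ha' hi hyi hi'
      obtain ⟨Y', h1, h2, h3, h4⟩ := sh_ext hY
      rw [nz_sum] at hi' ⊢
      have h5 := H1 Y' m' a' i h1 hm hm' ha ha' hi (fun y hy => by
        rcases h4 y hy with h | h
        · exact hyi y h
        · rw [h]; exact hi) hi'
      simp only [tz] at h5
      rw [h2, h3] at h5
      have h6 := r_le R hi (hY.ok hm ha)
      linarith
    · intro Y₀ m' a' hY hm hm' ha ha' hk
      obtain ⟨Y', h1, h2, h3, h4⟩ := sh_ext hY
      rw [nz_sum] at hk ⊢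
      have h5 := H2 Y' m' a' h1 hm hm' ha ha' hk
      rwa [h3] at h5
  cau := by
    intro κ Y m a b c hκ h hb hbm hc hca
    exact R.cau κ (nz Y) m a b c hκ (nz_ok h) hb hbm hc hca
  cauS := by
    intro κ y Y m a hκ hy h
    simp only [tz]
    by_cases h0 : y = 0
    · subst h0
      rw [nz_cons_zero, add_zero, zero_add]
    · rw [nz_cons h0]
      exact R.cauS κ y (nz Y) m a hκ hy (nz_ok h)
  flip := by
    intro κ y Y m a E hκ hy h H1 H2
    by_cases h0 : y = 0
    · subst h0
      exact H1 0 le_rfl le_rfl (by linarith)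
    · simp only [tz]
      rw [nz_cons h0]
      refine R.flip κ y (nz Y) m a E hκ hy (nz_ok h) ?_ ?_
      · intro y' hy' hyy hk
        have h1 := H1 y' hy' hyy hk
        simp only [tz] at h1
        by_cases h2 : y' = 0
        · subst h2
          rw [nz_cons_zero] at h1
          exact (R.zero κ (nz Y) m a hκ (nz_ok h)).trans h1
        · rwa [nz_cons h2] at h1
      · intro y' t hyy hyκ hk ht ht'
        have h1 := H2 y' t hyy hyκ hk ht ht'
        simp only [tz] at h1
        by_cases h2 : κ - t - y' = 0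
        · rw [h2] at h1 ⊢
          rw [nz_cons_zero] at h1
          have := R.zero κ (nz Y) m a hκ (nz_ok h)
          linarith
        · rwa [nz_cons h2] at h1
  sup := by
    intro κ Y m a b c hκ h hb hbm hc hca
    exact R.sup κ (nz Y) m a b c hκ (nz_ok h) hb hbm hc hca
  supS := by
    intro κ y Y m a hκ hy h
    simp only [tz]
    by_cases h0 : y = 0
    · subst h0
      rw [nz_cons_zero]; linarith
    · rw [nz_cons h0]
      exact R.supS κ y (nz Y) m a hκ hy (nz_ok h)
  zero := by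
    intro κ Y m a _ _
    simp only [tz]
    rw [nz_cons_zero]
  zeroG := by
    intro κ Y m a _ _
    simp only [tz]
    rw [nz_cons_zero]

/-- (LB) for `tz r` -/
theorem lb (L : ExpLB θ r) : ExpLB θ (tz r) where
  lb := by
    intro e κ Y m a m₀ a₀ he hκ h hY hm hm' ha ha' h56 h1 h2
    have := L.lb e κ (nz Y) m a m₀ a₀ he hκ (nz_ok h) (fun y hy => hY y (mem_nz hy)) hm hm' ha
      ha' (by rwa [nz_sum]) (by simpa only [tz, nz_sum] using h1)
      (by simpa only [tz, nz_sum] using h2)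
    simpa only [tz, nz_sum] using this

theorem nz_replicate {y : ℝ} (n : ℕ) (h : y ≠ 0) :
    nz (Multiset.replicate n y) = Multiset.replicate n y :=
  nz_of_pos fun z hz => by rw [Multiset.eq_of_mem_replicate hz]; exact h

theorem nz_replicate_zero {y : ℝ} (n : ℕ) (h : y = 0) : nz (Multiset.replicate n y) = 0 := by
  simp only [nz]
  exact Multiset.filter_eq_nil.2 fun z hz => by
    rw [Multiset.eq_of_mem_replicate hz]; simpa using h

theorem nz_finset_sum {ι : Type*} (S : Finset ι) (F : ι → Multiset ℝ) :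
    nz (∑ j ∈ S, F j) = ∑ j ∈ S, nz (F j) := by
  classical
  induction S using Finset.induction_on with
  | empty => simp [nz_zero]
  | insert a S ha ih => rw [Finset.sum_insert ha, Finset.sum_insert ha, nz_add, ih]

theorem map_univ_eq_sum {N : ℕ} (Y : Fin N → ℝ) :
    Finset.univ.val.map Y = ∑ j, ({Y j} : Multiset ℝ) := by
  have h : ∀ S : Finset (Fin N), S.val.map Y = ∑ j ∈ S, ({Y j} : Multiset ℝ) := by
    intro S
    induction S using Finset.induction_on with
    | empty => simp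
    | insert a S ha ih =>
      rw [Finset.sum_insert ha, ← ih, Finset.insert_val_of_notMem ha, Multiset.map_cons]
      rfl
  exact h Finset.univ

/-- sums over the nonzero lumps -/
theorem sum_ne {N N' : ℕ} {Y : Fin N → ℝ} (e : {j : Fin N // Y j ≠ 0} ≃ Fin N') {G : Type*}
    [AddCommMonoid G] (F : Fin N → G) (hF : ∀ j, Y j = 0 → F j = 0) :
    ∑ j, F j = ∑ i : Fin N', F (e.symm i) := by
  classical
  have h1 : ∑ i : Fin N', F (e.symm i) = ∑ j : {j : Fin N // Y j ≠ 0}, F j :=
    Equiv.sum_comp e.symm fun j : {j : Fin N // Y j ≠ 0} => F j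
  rw [h1, ← Finset.sum_subtype (Finset.univ.filter fun j => Y j ≠ 0) (by simp) F]
  symm
  refine Finset.sum_subset (Finset.filter_subset _ _) fun j _ hj => hF j ?_
  by_contra hcon
  exact hj (by simp [hcon])

/-- (Lv) for `tz r` -/
theorem lv (R : ExpRules θ r s) (L : ExpLv θ r) : ExpLv θ (tz r) where
  lev := by
    classical
    intro N Y κ M A E hκ hY hM hA H
    let e := Fintype.equivFin {j : Fin N // Y j ≠ 0}
    have hbox : nz (Finset.univ.val.map Y) =
        Finset.univ.val.map fun i => Y ((e.symm i : {j : Fin N // Y j ≠ 0}) : Fin N) := by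
      rw [map_univ_eq_sum, map_univ_eq_sum, nz_finset_sum]
      rw [sum_ne e (fun j => nz ({Y j} : Multiset ℝ)) fun j hj => by
        have : ({Y j} : Multiset ℝ) = Multiset.replicate 1 (Y j) := by simp
        rw [this]; exact nz_replicate_zero 1 hj]
      refine Finset.sum_congr rfl fun i _ => ?_
      exact nz_of_pos fun z hz => by
        rw [Multiset.mem_singleton.1 hz]; exact (e.symm i).2
    simp only [tz]
    rw [hbox]
    refine L.lev _ _ κ M A E hκ (fun i => hY _) hM hA ?_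
    intro y x m a ω α hy hm hmM ha haA hx hω hα
    -- extension by zero
    obtain ⟨y₁, hy₁⟩ : ∃ y₁ : Fin N → ℝ, y₁ = fun j => if h : Y j ≠ 0 then y (e ⟨j, h⟩) else 0 :=
      ⟨_, rfl⟩
    obtain ⟨x₁, hx₁⟩ : ∃ x₁ : Fin N → ℝ, x₁ = fun j => if h : Y j ≠ 0 then x (e ⟨j, h⟩) else 0 :=
      ⟨_, rfl⟩
    have ey : ∀ i, y₁ ((e.symm i : {j : Fin N // Y j ≠ 0}) : Fin N) = y i := by
      intro i
      rw [hy₁]
      simp only
      rw [dif_pos (e.symm i).2]
      simp
    have ex : ∀ i, x₁ ((e.symm i : {j : Fin N // Y j ≠ 0}) : Fin N) = x i := by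
      intro i
      rw [hx₁]
      simp only
      rw [dif_pos (e.symm i).2]
      simp
    have ey0 : ∀ j, Y j = 0 → y₁ j = 0 := by
      intro j hj
      rw [hy₁]
      simp only
      rw [dif_neg (by simpa using hj)]
    have ex0 : ∀ j, Y j = 0 → x₁ j = 0 := by
      intro j hj
      rw [hx₁]
      simp only
      rw [dif_neg (by simpa using hj)]
    have h1 : ∀ j, 0 ≤ y₁ j ∧ y₁ j ≤ Y j := by
      intro j
      by_cases h : Y j = 0
      · rw [ey0 j h, h]; exact ⟨le_rfl, le_rfl⟩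
      · rw [hy₁]
        simp only
        rw [dif_pos h]
        have := hy (e ⟨j, h⟩)
        simpa using this
    have h2 : ∀ j, x₁ j ≤ θ * y₁ j := by
      intro j
      by_cases h : Y j = 0
      · rw [ey0 j h, ex0 j h]; simp
      · rw [hy₁, hx₁]
        simp only
        rw [dif_pos h, dif_pos h]
        exact hx _
    have hsx : ∑ j, x₁ j = ∑ i, x i := by
      rw [sum_ne e x₁ ex0]
      exact Finset.sum_congr rfl fun i _ => ex i
    have hny : ∀ n : Fin N → ℕ, ∑ j, (n j : ℝ) * y₁ j =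
        ∑ i, (n ((e.symm i : {j : Fin N // Y j ≠ 0}) : Fin N) : ℝ) * y i := by
      intro n
      rw [sum_ne e (fun j => (n j : ℝ) * y₁ j) fun j hj => by rw [ey0 j hj, mul_zero]]
      exact Finset.sum_congr rfl fun i _ => by rw [ey i]
    have hnx : ∀ n : Fin N → ℕ, ∑ j, (n j : ℝ) * x₁ j =
        ∑ i, (n ((e.symm i : {j : Fin N // Y j ≠ 0}) : Fin N) : ℝ) * x i := by
      intro n
      rw [sum_ne e (fun j => (n j : ℝ) * x₁ j) fun j hj => by rw [ex0 j hj, mul_zero]]
      exact Finset.sum_congr rfl fun i _ => by rw [ex i]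
    rcases H y₁ x₁ m a ω α h1 hm hmM ha haA h2 hω hα with
      ⟨n, f, g, hf, hf', hg, hg', c1, c2⟩ | ⟨n, f, g, hf, hf', hg, hg', c1⟩ | c1
    · left
      refine ⟨fun i => n ((e.symm i : {j : Fin N // Y j ≠ 0}) : Fin N), f, g, hf, hf', hg, hg',
        ?_, ?_⟩
      · rw [← hny n, ← hnx n]; exact c1
      · rw [← hny n, ← hnx n, ← hsx]; exact c2
    · right; left
      refine ⟨fun i => n ((e.symm i : {j : Fin N // Y j ≠ 0}) : Fin N), f, g, hf, hf', hg, hg',
        ?_⟩
      rw [← hnx n, ← hsx]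
      refine le_trans ?_ c1
      have h3 := r_le R hκ (Y := ∑ i, Multiset.replicate
        (n ((e.symm i : {j : Fin N // Y j ≠ 0}) : Fin N)) (y i)) (m := f) (a := g)
        ⟨fun z hz => by
          obtain ⟨i, _, hi⟩ := Multiset.mem_sum.1 hz
          rw [Multiset.eq_of_mem_replicate hi]
          exact (hy i).1, hf, hg⟩
      have h4 : nz (∑ i, Multiset.replicate
          (n ((e.symm i : {j : Fin N // Y j ≠ 0}) : Fin N)) (y i)) =
          nz (∑ j, Multiset.replicate (n j) (y₁ j)) := by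
        rw [nz_finset_sum, nz_finset_sum, sum_ne e (fun j => nz (Multiset.replicate (n j) (y₁ j)))
          fun j hj => nz_replicate_zero _ (ey0 j hj)]
        exact Finset.sum_congr rfl fun i _ => by rw [ey i]
      simp only [tz]
      rw [h4] at h3
      linarith
    · right; right
      rw [← hsx]; exact c1

/-- the cube-free families for `tz` -/
theorem s0 (S : ExpS0 s s₀) : ExpS0 (tz s) (tz s₀) where
  le := by
    intro κ Y m a hκ h
    exact S.le κ (nz Y) m a hκ (nz_ok h)
  cube := by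
    intro κ Y m a E hκ h H
    exact S.cube κ (nz Y) m a E hκ (nz_ok h) H
  cau := by
    intro κ Y m a b c hκ h hb hbm hc hca
    exact S.cau κ (nz Y) m a b c hκ (nz_ok h) hb hbm hc hca
  cauS := by
    intro κ y Y m a hκ hy h
    simp only [tz]
    by_cases h0 : y = 0
    · subst h0
      rw [nz_cons_zero, add_zero, zero_add]
    · rw [nz_cons h0]
      exact S.cauS κ y (nz Y) m a hκ hy (nz_ok h)

/-- sides without zero lumps -/
theorem tz_eq {κ m a : ℝ} {Y : Multiset ℝ} (h : ∀ y ∈ Y, y ≠ 0) : tz r κ Y m a = r κ Y m a := by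
  simp only [tz]
  rw [nz_of_pos h]

/-- adding zero lumps does not change `tz r` -/
theorem tz_cons_zero {κ m a : ℝ} {Y : Multiset ℝ} : tz r κ (0 ::ₘ Y) m a = tz r κ Y m a := by
  simp only [tz]
  rw [nz_cons_zero]

theorem tz_add_zero {κ m a : ℝ} {Y : Multiset ℝ} : tz r κ (Y + {0}) m a = tz r κ Y m a := by
  rw [Multiset.add_comm]
  exact tz_cons_zero

end Crest.Agent.R017.Zero74
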