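import Crest.Agent.R017.SideF_777
import Crest.Agent.R017.SideT3_777
import Crest.Agent.R017.T3Fld_986
import Crest.Agent.R017.CovDefs_499
import Crest.Agent.R017.Zero_74
import Crest.Agent.R017.C5_720
import Crest.Agent.R017.SideV4_358
import Crest.Agent.R017.SideV5_358
import Crest.Agent.R017.C5b_720

/-!
# Row 17, hcore: the columns of `CovDefs_499` are ideal (helper777)

`Cpl r e Y f g` : the side `{Y | f, g}` is ideal at family `1` up to `e`, complete form.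
-/

set_option autoImplicit false

noncomputable section

namespace Crest.Agent.R017.HC777

open Crest.Agent.R017.ER911 Crest.Agent.R017.SC777 Crest.Agent.R017.Cov499

variable {θ d : ℝ} {r s s₀ : EF}

/-- complete form of an ideal side, family `1` -/
def Cpl (r : EF) (e : ℝ) (Y : Multiset ℝ) (f g : ℝ) : Prop :=
  ∀ κ' : ℝ, 0 ≤ κ' → κ' ≤ 1 → r κ' Y f g + (1 - κ') / 3 ≤ 1 + (Y.sum + f + g) + e

theorem Cpl.mono {e e' : ℝ} {Y : Multiset ℝ} {f g : ℝ} (h : Cpl r e Y f g) (he : e ≤ e') :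
    Cpl r e' Y f g := fun κ' h0 h1 => (h κ' h0 h1).trans (by linarith)

/-- the loss of all columns, `< (4/3) d` for `0 < d < 1/8` -/
def E0 (d : ℝ) : ℝ := 4 / 3 * d - min (d / 12) ((1 / 4 - 2 * d) * z₀)

theorem E0_lt (hd : 0 < d) (hd8 : d < 1 / 8) : E0 d < 4 / 3 * d := by
  have : 0 < min (d / 12) ((1 / 4 - 2 * d) * z₀) :=
    lt_min (by linarith) (mul_pos (by linarith) (by norm_num [z₀]))
  unfold E0; linarith

theorem le_E0 : 5 / 4 * d ≤ E0 d := by
  have := min_le_left (d / 12) ((1 / 4 - 2 * d) * z₀)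
  unfold E0; linarith

theorem le_E0' : 4 / 3 * d - (1 / 4 - 2 * d) * z₀ ≤ E0 d := by
  have := min_le_right (d / 12) ((1 / 4 - 2 * d) * z₀)
  unfold E0; linarith

/-- **T6 in closed form**: `X` Cauchy lumps, `Z` sup lumps, `{y₁, y₂}`, all fillers -/
theorem cpl_t6 (R : ExpRules (7 / 8 + d) r s) (hd : 0 ≤ d) {y₁ y₂ f g : ℝ} {Z X : Multiset ℝ}
    (h1 : 0 ≤ y₁) (h2 : 0 ≤ y₂) (hZ : ∀ y ∈ Z, 0 ≤ y) (hX : ∀ y ∈ X, 0 ≤ y) (hf : 0 ≤ f)
    (hg : 0 ≤ g)
    (hX1 : (y₁ + y₂ + Z.sum + X.sum + f + g) + X.sum ≤ 1)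
    (hZ1 : (y₁ + y₂ + Z.sum + X.sum + f + g) + 3 / 4 * Z.sum ≤ 1)
    (h79 : (y₁ + y₂ + Z.sum + X.sum + f + g) ≤ 7 / 9 + 2 / 9 * (y₁ + y₂))
    (h52 : y₁ + y₂ + 5 / 2 * Z.sum ≤ 1)
    (hA : 12 * (y₁ + y₂ + Z.sum + X.sum + f + g) ≤ 8 + 8 * (y₁ + y₂) + 3 * Z.sum) :
    Cpl r (10 / 9 * d) (X + (Z + {y₁, y₂})) f g := by
  have hZ0 : 0 ≤ Z.sum := Multiset.sum_nonneg hZ
  have hX0 : 0 ≤ X.sum := Multiset.sum_nonneg hX
  obtain ⟨n, hn⟩ : ∃ n, n = y₁ + y₂ + Z.sum + X.sum + f + g := ⟨_, rfl⟩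
  rw [← hn] at hX1 hZ1 h79 hA
  obtain ⟨x, hx⟩ : ∃ x, x = min (1 - n) (X.sum + f + g) := ⟨_, rfl⟩
  have hx1 : x ≤ 1 - n := by rw [hx]; exact min_le_left _ _
  have hx2 : x ≤ X.sum + f + g := by rw [hx]; exact min_le_right _ _
  have hx0 : X.sum ≤ x := by rw [hx]; exact le_min (by linarith) (by linarith)
  have hx3 : x = 1 - n ∨ x = X.sum + f + g := by
    rw [hx]
    rcases le_total (1 - n) (X.sum + f + g) with h | h
    · left; exact min_eq_left h
    · right; exact min_eq_right h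
  -- amplifier first
  obtain ⟨b, b', hbb, hb0, hbf, hb0', hbg, hbmax⟩ : ∃ b b' : ℝ, b + b' = x - X.sum ∧ 0 ≤ b ∧
      b ≤ f ∧ 0 ≤ b' ∧ b' ≤ g ∧ (b' = g ∨ b = 0) := by
    rcases le_total (x - X.sum) g with h | h
    · exact ⟨0, x - X.sum, by ring, le_rfl, hf, by linarith, h, Or.inr rfl⟩
    · exact ⟨x - X.sum - g, g, by ring, by linarith, by linarith, hg, le_rfl, Or.inl rfl⟩
  have hT := T6 R hd (κ := 1) (y₁ := y₁) (y₂ := y₂) (m := f - b) (b := b) (a := g - b')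
    (b' := b') (V := X) (Z := Z) zero_le_one h1 h2 hX hZ (by linarith) hb0 (by linarith) hb0'
    (by linarith) (by rcases hx3 with h | h <;> linarith)
    (by rcases hx3 with h | h <;> linarith)
    (by rcases hx3 with h | h <;> rcases hbmax with h' | h' <;> linarith)
  intro κ' h0 h1'
  have := hT κ' h0 h1'
  rw [sub_add_cancel, sub_add_cancel] at this
  have hs : (X + (Z + {y₁, y₂})).sum = X.sum + (Z.sum + (y₁ + y₂)) := by
    rw [Multiset.sum_add, Multiset.sum_add, sum_pair]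
  rw [hs]
  have hl : Z.sum + (f - b) + (g - b') ≤ 5 / 9 * (1 - (y₁ + y₂)) := by
    rcases hx3 with h | h <;> linarith
  have h3 : 2 * d * (Z.sum + (f - b) + (g - b')) ≤ 2 * d * (5 / 9) :=
    mul_le_mul_of_nonneg_left (by linarith) (by linarith)
  linarith


/-- **T1 in closed form** -/
theorem cpl_t1 (R : ExpRules (7 / 8 + d) r s) (L : ExpLB (7 / 8 + d) r) (hd : 0 ≤ d)
    (hd8 : d ≤ 1 / 8) {y₁ y₂ f g : ℝ} {V : Multiset ℝ}
    (h1 : 0 ≤ y₁) (h2 : 0 ≤ y₂) (hV : ∀ y ∈ V, 0 ≤ y) (hf : 0 ≤ f)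
    (hg : 0 ≤ g) (hs : 1 / 5 ≤ y₁ + y₂) (hV1 : V.sum ≤ 1 / 6 - z₀)
    (hN : y₁ + y₂ + V.sum + f + g ≤ 5 / 6) :
    Cpl r (E0 d) (V + {y₁, y₂}) f g := by
  have hz₀ : z₀ = 1 / 1000 := rfl
  intro κ' h0 h1'
  have := T1 R L hd hd8 (z := z₀) (by rw [hz₀]; norm_num) (by rw [hz₀]; norm_num) (κ := 1)
    zero_le_one h1 h2 hf hg hV (by linarith) (by linarith) κ' h0 h1'
  have hs' : (V + {y₁, y₂}).sum = V.sum + (y₁ + y₂) := by
    rw [Multiset.sum_add, sum_pair]
  rw [hs']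
  have hV0 : 0 ≤ V.sum := Multiset.sum_nonneg hV
  have hm0 : max 0 (g + V.sum - (1 - (V.sum + y₁ + y₂ + f + g)) + z₀ * 1 - 8 / 3 * (y₁ + y₂)) = 0 := by
    refine max_eq_left ?_
    rw [hz₀]; linarith
  rw [hm0, mul_zero, add_zero] at this
  have e1 : max ((1 / 2 + 3 * z₀) * (4 / 3 * d) * 1)
      ((4 / 3 * d - z₀ * (1 / 4 - 2 * d)) * 1 -
        (1 / 2 + 4 * d) * (5 / 6 * 1 - (V.sum + y₁ + y₂ + f + g))) ≤ E0 d := by
    refine max_le ?_ ?_
    · refine le_trans ?_ le_E0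
      rw [hz₀]; linarith
    · refine le_trans ?_ le_E0'
      have : 0 ≤ (1 / 2 + 4 * d) * (5 / 6 * 1 - (V.sum + y₁ + y₂ + f + g)) :=
        mul_nonneg (by linarith) (by linarith)
      linarith
  linarith

/-- **T3a in closed form**, `C` the smallest lump, `7/50 ≤ C` not needed beyond `1/4 ≤ A + B` -/
theorem cpl_t3a' (R : ExpRules (7 / 8 + d) r s) (Rm : T3F986.T3Fld (7 / 8 + d) r) (hd : 0 ≤ d)
    {A B C f g : ℝ} (hC : 0 ≤ C) (hCA : C ≤ A) (hCB : C ≤ B) (hf : 0 ≤ f)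
    (hg : 0 ≤ g) (hs : 1 / 4 ≤ A + B) (h1 : A + B + 2 * C ≤ 1)
    (h2 : 49 * (A + B + C + f + g) ≤ 36 + 9 * (A + B)) (h56 : 6 * (A + B + C + f + g) ≤ 5)
    (h7 : 80 * (A + B + C + f + g) + 30 * C ≤ 73) (h8 : 36 * (A + B + C + f + g) + 6 * C ≤ 31)
    (h9 : 17 * (A + B + C + f + g) ≤ 13 + 2 * (A + B))
    (h10 : 15 * (A + B + C + f + g) + 3 * C ≤ 13) (h11 : 40 * (A + B + C + f + g) ≤ 33) :
    Cpl r (10 / 9 * d) {A, B, C} f g := by
  have hA : 0 ≤ A := hC.trans hCA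
  have hB : 0 ≤ B := hC.trans hCB
  have hsum : ({A, B, C} : Multiset ℝ).sum = A + B + C := by
    simp [add_assoc]
  rcases le_or_gt (A + B + 5 / 2 * C) 1 with h | h
  · have := cpl_t6 R hd (y₁ := A) (y₂ := B) (f := f) (g := g) (Z := {C}) (X := 0) hA hB
      (fun y hy => by rw [Multiset.mem_singleton.1 hy]; exact hC)
      (fun y hy => absurd hy (Multiset.notMem_zero y)) hf hg
      (by rw [Multiset.sum_zero, Multiset.sum_singleton]; linarith)
      (by rw [Multiset.sum_zero, Multiset.sum_singleton]; linarith)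
      (by rw [Multiset.sum_zero, Multiset.sum_singleton]; linarith)
      (by rw [Multiset.sum_singleton]; linarith)
      (by rw [Multiset.sum_zero, Multiset.sum_singleton]; linarith)
    have e : ((0 : Multiset ℝ) + ({C} + {A, B})) = {A, B, C} := by
      rw [zero_add, Multiset.singleton_add]
      show C ::ₘ A ::ₘ {B} = A ::ₘ B ::ₘ {C}
      rw [Multiset.cons_swap]
      congr 1
      exact Multiset.pair_comm C B
    rwa [e] at this
  · intro κ' h0 h1'
    have := Rm.t3a' (κ := 1) (A := A) (B := B) (C := C) (m := f) (a := g) zero_le_one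
      hC hf hg hCA hCB (by linarith) (by linarith) (by linarith)
      (by linarith) (by linarith) (by linarith) (by linarith) (by linarith) (by linarith)
      (by linarith) (by linarith) κ' h0 h1'
    rw [hsum]
    have h3 : 2 * d * (C + f + g) ≤ 2 * d * (5 / 9) :=
      mul_le_mul_of_nonneg_left (by linarith) (by linarith)
    linarith

/-- **T3L in closed form**, `C` the smallest lump -/
theorem cpl_t3l' (R : ExpRules (7 / 8 + d) r s) (Lv : ExpLv (7 / 8 + d) r) (hd : 0 ≤ d)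
    (hd8 : d ≤ 1 / 8) {A B C f g : ℝ} (hC : 0 ≤ C) (hCA : C ≤ A) (hCB : C ≤ B) (hf : 0 ≤ f)
    (hg : 0 ≤ g) (h1 : 29 * (A + B + C) + 21 / 2 * C ≤ 22) (h2 : 22 * (A + B + C) ≤ 15)
    (h3 : 2 * (A + B + C + f + g) ≤ 1 + (A + B + C))
    (h4 : 3 * (A + B + C + f + g) + 3 / 4 * C ≤ 2 + (A + B + C)) :
    Cpl r (10 / 9 * d) {A, B, C} f g := by
  have hA : 0 ≤ A := hC.trans hCA
  have hB : 0 ≤ B := hC.trans hCB
  have hsum : ({A, B, C} : Multiset ℝ).sum = A + B + C := by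
    simp [add_assoc]
  rcases le_or_gt (A + B + 5 / 2 * C) 1 with h | h
  · have := cpl_t6 R hd (y₁ := A) (y₂ := B) (f := f) (g := g) (Z := {C}) (X := 0) hA hB
      (fun y hy => by rw [Multiset.mem_singleton.1 hy]; exact hC)
      (fun y hy => absurd hy (Multiset.notMem_zero y)) hf hg
      (by rw [Multiset.sum_zero, Multiset.sum_singleton]; linarith)
      (by rw [Multiset.sum_zero, Multiset.sum_singleton]; linarith)
      (by rw [Multiset.sum_zero, Multiset.sum_singleton]; linarith)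
      (by rw [Multiset.sum_singleton]; linarith)
      (by rw [Multiset.sum_zero, Multiset.sum_singleton]; linarith)
    have e : ((0 : Multiset ℝ) + ({C} + {A, B})) = {A, B, C} := by
      rw [zero_add, Multiset.singleton_add]
      show C ::ₘ A ::ₘ {B} = A ::ₘ B ::ₘ {C}
      rw [Multiset.cons_swap]
      congr 1
      exact Multiset.pair_comm C B
    rwa [e] at this
  · obtain ⟨ξ, hξ⟩ : ∃ ξ, ξ = (6 + (A + B + C)) / 42 := ⟨_, rfl⟩
    obtain ⟨x, hx⟩ : ∃ x, x = min ξ (f + g) := ⟨_, rfl⟩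
    have hξ0 : 0 ≤ ξ := by linarith
    have hx1 : x ≤ ξ := by rw [hx]; exact min_le_left _ _
    have hx2 : x ≤ f + g := by rw [hx]; exact min_le_right _ _
    have hx0 : 0 ≤ x := by rw [hx]; exact le_min hξ0 (by linarith)
    have hx3 : x = ξ ∨ x = f + g := by
      rw [hx]
      rcases le_total ξ (f + g) with h | h
      · left; exact min_eq_left h
      · right; exact min_eq_right h
    obtain ⟨b, b', hbb, hb0, hbf, hb0', hbg⟩ : ∃ b b' : ℝ, b + b' = x ∧ 0 ≤ b ∧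
        b ≤ f ∧ 0 ≤ b' ∧ b' ≤ g := by
      rcases le_total x g with h | h
      · exact ⟨0, x, by ring, le_rfl, hf, by linarith, h⟩
      · exact ⟨x - g, g, by ring, by linarith, by linarith, hg, le_rfl⟩
    have hT := T7 R Lv hd hd8 (κ := 1) (A := A) (B := B) (C := C) (m := f - b) (b := b)
      (a := g - b') (b' := b') (ξ := ξ) (V := 0) zero_le_one hC hCA hCB
      (fun y hy => absurd hy (Multiset.notMem_zero y)) (by linarith) hb0 (by linarith) hb0'
      (by rw [Multiset.sum_zero]; linarith) (by rcases hx3 with h | h <;> linarith)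
      (Or.inl ⟨by linarith, by rcases hx3 with h | h <;> linarith⟩)
      (by rcases hx3 with h | h <;> linarith) (by rcases hx3 with h | h <;> linarith)
      (by linarith)
    intro κ' h0 h1'
    have := hT κ' h0 h1'
    rw [sub_add_cancel, sub_add_cancel, zero_add, Multiset.sum_zero] at this
    rw [hsum]
    have h5 : d * (A + B + 2 * ((f - b) + (g - b'))) ≤ d * (10 / 9) :=
      mul_le_mul_of_nonneg_left (by rcases hx3 with h | h <;> linarith) hd
    linarith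


/-- sorting three lumps -/
theorem sort3 (y₁ y₂ y₃ : ℝ) : ∃ A B C : ℝ, ({A, B, C} : Multiset ℝ) = {y₁, y₂, y₃} ∧ C ≤ A ∧
    C ≤ B ∧ A + B + C = y₁ + y₂ + y₃ ∧ C ≤ y₃ := by
  have p13 : ({y₃, y₂, y₁} : Multiset ℝ) = {y₁, y₂, y₃} := by
    show y₃ ::ₘ y₂ ::ₘ {y₁} = y₁ ::ₘ y₂ ::ₘ {y₃}
    have e1 : (y₂ ::ₘ ({y₁} : Multiset ℝ)) = y₁ ::ₘ {y₂} := Multiset.pair_comm y₂ y₁
    have e2 : (y₂ ::ₘ ({y₃} : Multiset ℝ)) = y₃ ::ₘ {y₂} := Multiset.pair_comm y₂ y₃
    rw [e1, e2, Multiset.cons_swap]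
  have p23 : ({y₁, y₃, y₂} : Multiset ℝ) = {y₁, y₂, y₃} := by
    show y₁ ::ₘ y₃ ::ₘ {y₂} = y₁ ::ₘ y₂ ::ₘ {y₃}
    congr 1
    exact Multiset.pair_comm y₃ y₂
  rcases le_total y₁ y₂ with h12 | h12
  · rcases le_total y₁ y₃ with h13 | h13
    · exact ⟨y₃, y₂, y₁, p13, h13, h12, by ring, h13⟩
    · exact ⟨y₁, y₂, y₃, rfl, h13, h13.trans h12, by ring, le_rfl⟩
  · rcases le_total y₂ y₃ with h23 | h23
    · exact ⟨y₁, y₃, y₂, p23, h12, h23, by ring, h23⟩
    · exact ⟨y₁, y₂, y₃, rfl, h23.trans h12, h23, by ring, le_rfl⟩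

theorem sum3 (A B C : ℝ) : ({A, B, C} : Multiset ℝ).sum = A + B + C := by
  simp [add_assoc]

/-- **T3a in closed form** -/
theorem cpl_t3a (R : ExpRules (7 / 8 + d) r s) (Rm : T3F986.T3Fld (7 / 8 + d) r) (hd : 0 ≤ d)
    {y₁ y₂ y₃ f g : ℝ} (k1 : 13 / 100 ≤ y₁) (k2 : 13 / 100 ≤ y₂) (k3 : 13 / 100 ≤ y₃) (hf : 0 ≤ f)
    (hg : 0 ≤ g) (h1 : y₁ + y₂ + 2 * y₃ ≤ 1)
    (h2 : 49 * (y₁ + y₂ + y₃ + f + g) ≤ 36 + 9 * (y₁ + y₂))
    (h56 : 6 * (y₁ + y₂ + y₃ + f + g) ≤ 5) (h7 : 80 * (y₁ + y₂ + y₃ + f + g) + 30 * y₃ ≤ 73)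
    (h8 : 36 * (y₁ + y₂ + y₃ + f + g) + 6 * y₃ ≤ 31)
    (h9 : 17 * (y₁ + y₂ + y₃ + f + g) ≤ 13 + 2 * (y₁ + y₂))
    (h10 : 15 * (y₁ + y₂ + y₃ + f + g) + 3 * y₃ ≤ 13)
    (h11 : 40 * (y₁ + y₂ + y₃ + f + g) ≤ 33) :
    Cpl r (10 / 9 * d) {y₁, y₂, y₃} f g := by
  obtain ⟨A, B, C, he, hCA, hCB, hs, hC3⟩ := sort3 y₁ y₂ y₃
  have hm : ∀ y ∈ ({A, B, C} : Multiset ℝ), 13 / 100 ≤ y := by
    rw [he]
    intro y hy
    simp only [Multiset.insert_eq_cons, Multiset.mem_cons, Multiset.mem_singleton] at hy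
    rcases hy with rfl | rfl | rfl
    · exact k1
    · exact k2
    · exact k3
  have hC := hm C (by simp)
  rw [← he]
  exact cpl_t3a' R Rm hd (by linarith) hCA hCB hf hg (by linarith) (by linarith) (by linarith)
    (by linarith) (by linarith) (by linarith) (by linarith) (by linarith) (by linarith)

/-- **T3L in closed form** -/
theorem cpl_t3l (R : ExpRules (7 / 8 + d) r s) (Lv : ExpLv (7 / 8 + d) r) (hd : 0 ≤ d)
    (hd8 : d ≤ 1 / 8)
    {y₁ y₂ y₃ f g : ℝ} (k1 : 0 ≤ y₁) (k2 : 0 ≤ y₂) (k3 : 0 ≤ y₃) (hf : 0 ≤ f)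
    (hg : 0 ≤ g) (h1 : 29 * (y₁ + y₂ + y₃) + 21 / 2 * y₃ ≤ 22) (h2 : 22 * (y₁ + y₂ + y₃) ≤ 15)
    (h3 : 2 * (y₁ + y₂ + y₃ + f + g) ≤ 1 + (y₁ + y₂ + y₃))
    (h4 : 3 * (y₁ + y₂ + y₃ + f + g) + 3 / 4 * y₃ ≤ 2 + (y₁ + y₂ + y₃)) :
    Cpl r (10 / 9 * d) {y₁, y₂, y₃} f g := by
  obtain ⟨A, B, C, he, hCA, hCB, hs, hC3⟩ := sort3 y₁ y₂ y₃
  have hm : ∀ y ∈ ({A, B, C} : Multiset ℝ), 0 ≤ y := by
    rw [he]
    intro y hy
    simp only [Multiset.insert_eq_cons, Multiset.mem_cons, Multiset.mem_singleton] at hy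
    rcases hy with rfl | rfl | rfl
    · exact k1
    · exact k2
    · exact k3
  have hC := hm C (by simp)
  rw [← he]
  exact cpl_t3l' R Lv hd hd8 hC hCA hCB hf hg (by linarith) (by linarith) (by linarith)
    (by linarith)

/-- **T6 with one big lump in front** (through `tz r`) -/
theorem cpl_t6s (R : ExpRules (7 / 8 + d) r s) (hd : 0 ≤ d) {y₁ f g : ℝ} {Z X : Multiset ℝ}
    (h1 : 0 < y₁) (hZ : ∀ y ∈ Z, 0 < y) (hX : ∀ y ∈ X, 0 < y) (hf : 0 ≤ f)
    (hg : 0 ≤ g)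
    (hX1 : (y₁ + Z.sum + X.sum + f + g) + X.sum ≤ 1)
    (hZ1 : (y₁ + Z.sum + X.sum + f + g) + 3 / 4 * Z.sum ≤ 1)
    (h79 : (y₁ + Z.sum + X.sum + f + g) ≤ 7 / 9 + 2 / 9 * y₁)
    (h52 : y₁ + 5 / 2 * Z.sum ≤ 1)
    (hA : 12 * (y₁ + Z.sum + X.sum + f + g) ≤ 8 + 8 * y₁ + 3 * Z.sum) :
    Cpl r (10 / 9 * d) (X + (Z + {y₁})) f g := by
  have h := cpl_t6 (Zero74.rules R) hd (y₁ := y₁) (y₂ := 0) (f := f) (g := g) (Z := Z) (X := X)
    h1.le le_rfl (fun y hy => (hZ y hy).le) (fun y hy => (hX y hy).le) hf hg (by linarith)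
    (by linarith) (by linarith) (by linarith) (by linarith)
  have hs : (X + (Z + {y₁, 0}) : Multiset ℝ).sum = (X + (Z + {y₁})).sum := by
    rw [Multiset.sum_add, Multiset.sum_add, Multiset.sum_add, Multiset.sum_add, sum_pair,
      Multiset.sum_singleton, add_zero]
  have hnz : Zero74.nz (X + (Z + {y₁, 0})) = X + (Z + {y₁}) := by
    have e : (X + (Z + {y₁, 0}) : Multiset ℝ) = 0 ::ₘ (X + (Z + {y₁})) := by
      have : ({y₁, 0} : Multiset ℝ) = {y₁} + {0} := rfl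
      rw [this, ← Multiset.singleton_add]
      abel
    rw [e, Zero74.nz_cons_zero]
    refine Zero74.nz_of_pos fun y hy => ?_
    rcases Multiset.mem_add.1 hy with h | h
    · exact (hX y h).ne'
    · rcases Multiset.mem_add.1 h with h | h
      · exact (hZ y h).ne'
      · rw [Multiset.mem_singleton.1 h]; exact h1.ne'
  intro κ' h0 h1'
  have := h κ' h0 h1'
  simp only [Zero74.tz] at this
  rw [hnz, hs] at this
  exact this


/-- all copies of a small lump, split among two positions -/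
theorem split_copies {c tz tx j : ℕ} (h : c ≤ (tz + tx) * j) :
    ∃ cz cx : ℕ, cz + cx = c ∧ cz ≤ tz * j ∧ cx ≤ tx * j := by
  refine ⟨min c (tz * j), c - min c (tz * j), ?_, min_le_right _ _, ?_⟩
  · have := min_le_left c (tz * j)
    omega
  · rw [add_mul] at h
    rcases le_total c (tz * j) with h1 | h1
    · rw [min_eq_left h1]; omega
    · rw [min_eq_right h1]; omega

theorem copies_le {c t j : ℕ} {y v : ℝ} (hy : 0 ≤ y) (hj : (j : ℝ) * y ≤ v) (h : c ≤ t * j) :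
    (c : ℝ) * y ≤ t * v := by
  have h1 : (c : ℝ) ≤ (t : ℝ) * j := by exact_mod_cast h
  calc (c : ℝ) * y ≤ ((t : ℝ) * j) * y := mul_le_mul_of_nonneg_right h1 hy
    _ = t * (j * y) := by ring
    _ ≤ t * v := mul_le_mul_of_nonneg_left hj (Nat.cast_nonneg t)

theorem sum_rep (c : ℕ) (y : ℝ) : (Multiset.replicate c y).sum = c * y := by
  rw [Multiset.sum_replicate, nsmul_eq_mul]

theorem rep_pos {c : ℕ} {y : ℝ} (hy : 0 < y) : ∀ z ∈ Multiset.replicate c y, 0 < z := by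
  intro z hz
  rw [Multiset.eq_of_mem_replicate hz]; exact hy

theorem add_pos' {Z W : Multiset ℝ} (hZ : ∀ z ∈ Z, 0 < z) (hW : ∀ z ∈ W, 0 < z) :
    ∀ z ∈ Z + W, 0 < z := by
  intro z hz
  rcases Multiset.mem_add.1 hz with h | h
  · exact hZ z h
  · exact hW z h

/-- 720's C5 -/
theorem cpl_c5 (R : ExpRules (7 / 8 + d) r s) (Lv : ExpLv (7 / 8 + d) r) (hd : 0 ≤ d)
    {a f g : ℝ} {W : Multiset ℝ} (hc : Multiset.card W = 4) (hW : ∀ y ∈ W, 0 ≤ y)
    (h12 : ∃ x y : ℝ, x ∈ W ∧ y ∈ W.erase x ∧ 1 / 4 ≤ x + y) (hS : W.sum ≤ 16 / 27)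
    (ha0 : 0 ≤ a) (ha : a ≤ 1 / 6) (hf : 0 ≤ f) (hg : 0 ≤ g)
    (hN : a + W.sum + f + g ≤ 5 / 6) : Cpl r d ({a} + W) f g := by
  intro κ' h0 h1'
  obtain ⟨x, y, hx, hy, hxy⟩ := h12
  have := C5_720.C5_W R Lv hd (κ := 1) (a₀ := a) (m := f) (a := g) hc hW
    ⟨x, y, hx, hy, by linarith⟩ (by linarith) ha0 (by linarith) hf hg (by linarith) κ' h0 h1'
  rw [Multiset.sum_add, Multiset.sum_singleton]
  linarith

theorem exists_two {W : Multiset ℝ} (hc : Multiset.card W = 4) (hW : ∀ y ∈ W, 13 / 100 ≤ y) :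
    ∃ x y : ℝ, x ∈ W ∧ y ∈ W.erase x ∧ 1 / 4 ≤ x + y := by
  obtain ⟨x, hx⟩ : ∃ x, x ∈ W := Multiset.card_pos_iff_exists_mem.1 (by omega)
  have hc2 : Multiset.card (W.erase x) = 3 := by
    rw [Multiset.card_erase_of_mem hx, hc]
    rfl
  obtain ⟨y, hy⟩ : ∃ y, y ∈ W.erase x := Multiset.card_pos_iff_exists_mem.1 (by omega)
  have h1 := hW x hx
  have h2 := hW y (Multiset.mem_of_mem_erase hy)
  exact ⟨x, y, hx, hy, by linarith⟩

/-- 720's C5V -/
theorem cpl_c5v (R : ExpRules (7 / 8 + d) r s) (Lv : ExpLv (7 / 8 + d) r) (hd : 0 ≤ d)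
    {f g : ℝ} {V W : Multiset ℝ} (hc : Multiset.card W = 4) (hW : ∀ y ∈ W, 0 ≤ y)
    (h12 : ∃ x y : ℝ, x ∈ W ∧ y ∈ W.erase x ∧ 1 / 4 ≤ x + y) (hS : W.sum ≤ 16 / 27)
    (hV0 : ∀ y ∈ V, 0 ≤ y) (hV : V.sum ≤ 1 / 6) (hf : 0 ≤ f) (hg : 0 ≤ g)
    (hN : V.sum + W.sum + f + g ≤ 5 / 6) : Cpl r d (V + W) f g := by
  obtain ⟨b₁, b₂, b₃, b₄, rfl, h43, h32, h21⟩ := C5_720.sorted4 W hc
  have hsum : (b₄ ::ₘ b₃ ::ₘ {b₁, b₂} : Multiset ℝ).sum = b₁ + b₂ + b₃ + b₄ := by
    rw [Multiset.sum_cons, Multiset.sum_cons, sum_pair]; ring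
  have hb4 : 0 ≤ b₄ := hW b₄ (by simp)
  have hp : 1 / 4 ≤ b₁ + b₂ := by
    obtain ⟨x, y, hx, hy, hxy⟩ := h12
    have hx' : x = b₄ ∨ x = b₃ ∨ x = b₁ ∨ x = b₂ := by simpa using hx
    have hy' : y = b₄ ∨ y = b₃ ∨ y = b₁ ∨ y = b₂ := by
      simpa using Multiset.mem_of_mem_erase hy
    have hyb : y ≤ b₁ := by rcases hy' with h | h | h | h <;> rw [h] <;> linarith
    by_cases hxb : x ≤ b₂
    · linarith
    · have hx1 : x = b₁ := by
        rcases hx' with h | h | h | h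
        · exact absurd (by rw [h]; linarith) hxb
        · exact absurd (by rw [h]; linarith) hxb
        · exact h
        · exact absurd (by rw [h]) hxb
      subst hx1
      have e : (b₄ ::ₘ b₃ ::ₘ {x, b₂} : Multiset ℝ) = x ::ₘ b₄ ::ₘ b₃ ::ₘ {b₂} := by
        simp only [Multiset.insert_eq_cons, ← Multiset.singleton_add]
        abel
      rw [e, Multiset.erase_cons_head] at hy
      have : y ≤ b₂ := by
        simp only [Multiset.mem_cons, Multiset.mem_singleton] at hy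
        rcases hy with h | h | h <;> rw [h] <;> linarith
      linarith
  rw [hsum] at hS hN
  intro κ' h0 h1'
  have := C5_720.C5V R Lv hd (κ := 1) (b₁ := b₁) (b₂ := b₂) (b₃ := b₃) (b₄ := b₄) (m := f)
    (a := g) (V := V) hV0 (by linarith) hb4 h43 h32 h21 (by linarith) (by linarith)
    (by linarith) (by linarith)
    (by
      rcases le_total (9 * b₃ + 6 * b₄) 2 with h | h
      · exact Or.inr (by linarith)
      · exact Or.inl (by linarith))
    (by linarith) hf hg (by linarith) κ' h0 h1'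
  rw [Multiset.sum_add, hsum]
  linarith

/-- 720's C5b -/
theorem cpl_c5b (R : ExpRules (7 / 8 + d) r s) (Lv : ExpLv (7 / 8 + d) r) (hd : 0 ≤ d)
    {f g : ℝ} {V W : Multiset ℝ} (hc : Multiset.card W = 4) (hW : ∀ y ∈ W, 0 ≤ y)
    (h12 : ∃ x y : ℝ, x ∈ W ∧ y ∈ W.erase x ∧ 1 / 4 ≤ x + y) (hb : ∀ y ∈ W, y ≤ 4 / 25)
    (hS : W.sum ≤ 3 / 5) (hV0 : ∀ y ∈ V, 0 ≤ y) (hV : V.sum ≤ 3 / 20) (hf : 0 ≤ f) (hg : 0 ≤ g)
    (hN : V.sum + W.sum + f + g ≤ 5 / 6) : Cpl r d (V + W) f g := by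
  intro κ' h0 h1'
  obtain ⟨x, y, hx, hy, hxy⟩ := h12
  have := C5_720.C5b_W R Lv hd (κ := 1) (m := f) (a := g) hV0 (by linarith) hc hW
    (fun y hy => by have := hb y hy; linarith) ⟨x, y, hx, hy, by linarith⟩ (by linarith) hf hg
    (by linarith) κ' h0 h1'
  rw [Multiset.sum_add]
  linarith

/-- **the full T7 in closed form** -/
theorem cpl_t7 (R : ExpRules (7 / 8 + d) r s) (Lv : ExpLv (7 / 8 + d) r) (hd : 0 ≤ d)
    (hd8 : d ≤ 1 / 8) {A B C N ξ f g : ℝ} (hC : 0 ≤ C) (hCA : C ≤ A) (hCB : C ≤ B) (hf : 0 ≤ f)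
    (hg : 0 ≤ g) (hx : N + ξ ≤ 1) (w0 : A + B + C + ξ ≤ N)
    (hc : (6 + (A + B + C) ≤ 42 * ξ ∧
        8 * (A + B + C) + 6 * (N - (A + B + C) - ξ) + 12 * ξ + 3 * C ≤ 8) ∨
      (6 + (B + 2 * C) ≤ 42 * ξ ∧
        (B + 2 * C) + 3 * (A + B + C + (N - (A + B + C) - ξ) + C) + 4 * ξ ≤ 4) ∨
      (2 + C ≤ 14 * ξ ∧ 12 * C + 3 * (A + B + (N - (A + B + C) - ξ)) ≤ 4))
    (e1 : N - (A + B + C) - ξ ≤ 7 / 9 * (1 - 3 / 2 * ξ - 9 / 8 * C - (A + B)))
    (e2 : 12 * (N - (A + B + C) - ξ) + 4 * (A + B) ≤ 8 * (1 - 3 / 2 * ξ - 9 / 8 * C))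
    (e3 : 2 - 6 * ξ ≤ 3 * (A + B)) (hN : A + B + C + f + g ≤ N) :
    Cpl r (5 / 4 * d) {A, B, C} f g := by
  have hA : 0 ≤ A := hC.trans hCA
  have hB : 0 ≤ B := hC.trans hCB
  have hsum : ({A, B, C} : Multiset ℝ).sum = A + B + C := by
    simp [add_assoc]
  have hξ0 : 1 / 7 ≤ ξ := by rcases hc with ⟨hc, _⟩ | ⟨hc, _⟩ | ⟨hc, _⟩ <;> linarith
  obtain ⟨x, hx⟩ : ∃ x, x = min ξ (f + g) := ⟨_, rfl⟩
  have hx1 : x ≤ ξ := by rw [hx]; exact min_le_left _ _
  have hx2 : x ≤ f + g := by rw [hx]; exact min_le_right _ _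
  have hx0 : 0 ≤ x := by rw [hx]; exact le_min (by linarith) (by linarith)
  have hx3 : x = ξ ∨ x = f + g := by
    rw [hx]
    rcases le_total ξ (f + g) with h | h
    · left; exact min_eq_left h
    · right; exact min_eq_right h
  obtain ⟨b, b', hbb, hb0, hbf, hb0', hbg⟩ : ∃ b b' : ℝ, b + b' = x ∧ 0 ≤ b ∧
      b ≤ f ∧ 0 ≤ b' ∧ b' ≤ g := by
    rcases le_total x g with h | h
    · exact ⟨0, x, by ring, le_rfl, hf, by linarith, h⟩
    · exact ⟨x - g, g, by ring, by linarith, by linarith, hg, le_rfl⟩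
  have hw : (f - b) + (g - b') ≤ N - (A + B + C) - ξ := by
    rcases hx3 with h | h <;> linarith
  have hT := T7 R Lv hd hd8 (κ := 1) (A := A) (B := B) (C := C) (m := f - b) (b := b)
    (a := g - b') (b' := b') (ξ := ξ) (V := 0) zero_le_one hC hCA hCB
    (fun y hy => absurd hy (Multiset.notMem_zero y)) (by linarith) hb0 (by linarith) hb0'
    (by rw [Multiset.sum_zero]; linarith) (by linarith)
    (by
      rcases hc with ⟨c1, c2⟩ | ⟨c1, c2⟩ | ⟨c1, c2⟩
      · exact Or.inl ⟨by linarith, by linarith⟩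
      · exact Or.inr (Or.inl ⟨by linarith, by linarith⟩)
      · exact Or.inr (Or.inr ⟨by linarith, by linarith⟩))
    (by linarith) (by linarith) (by linarith)
  intro κ' h0 h1'
  have := hT κ' h0 h1'
  rw [sub_add_cancel, sub_add_cancel, zero_add, Multiset.sum_zero] at this
  rw [hsum]
  have h5 : d * (A + B + 2 * ((f - b) + (g - b'))) ≤ d * (5 / 4) :=
    mul_le_mul_of_nonneg_left (by linarith) hd
  linarith

/-- **the columns `Col0` are ideal**, all contents of the chunks, all fillers -/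
theorem hcol0 (R : ExpRules (7 / 8 + d) r s) (L : ExpLB (7 / 8 + d) r)
    (Lv : ExpLv (7 / 8 + d) r) (Rm : T3F986.T3Fld (7 / 8 + d) r) (hd : 0 ≤ d) (hd8 : d ≤ 1 / 8)
    {v : ℝ} {Y : Multiset ℝ} {t : ℕ} {N : ℝ} (h : Col0 v Y t N)
    (hY : ∀ y ∈ Y, 13 / 100 ≤ y) {y : ℝ} {j c : ℕ} {f g : ℝ} (hy : 0 < y) (hj : (j : ℝ) * y ≤ v)
    (hc : c ≤ t * j) (hf : 0 ≤ f) (hg : 0 ≤ g) (hN : Y.sum + c * y + f + g ≤ N) :
    Cpl r (E0 d) (Y + Multiset.replicate c y) f g := by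
  have hE : 10 / 9 * d ≤ E0 d := le_trans (by linarith) le_E0
  have hE1 : d ≤ E0 d := le_trans (by linarith) le_E0
  cases h with
  | t6 y₁ y₂ Z X tz tx N hs h1 h2 h3 h4 h5 =>
    obtain ⟨cz, cx, rfl, hcz, hcx⟩ := split_copies hc
    have hY1 : 13 / 100 ≤ y₁ := hY y₁ (by simp)
    have hY2 : 13 / 100 ≤ y₂ := hY y₂ (by simp)
    have hYZ : ∀ z ∈ Z, 0 < z := fun z hz =>
      lt_of_lt_of_le (by norm_num) (hY z (Multiset.mem_add.2 (Or.inl (Multiset.mem_add.2
        (Or.inr hz)))))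
    have hYX : ∀ z ∈ X, 0 < z := fun z hz =>
      lt_of_lt_of_le (by norm_num) (hY z (Multiset.mem_add.2 (Or.inr hz)))
    have kz := copies_le hy.le hj hcz
    have kx := copies_le hy.le hj hcx
    have hZp := add_pos' hYZ (rep_pos (c := cz) hy)
    have hXp := add_pos' hYX (rep_pos (c := cx) hy)
    push_cast at hN
    rw [Multiset.sum_add, Multiset.sum_add, sum_pair] at hN
    have := cpl_t6 R hd (y₁ := y₁) (y₂ := y₂) (f := f) (g := g)
      (Z := Z + Multiset.replicate cz y) (X := X + Multiset.replicate cx y) (by linarith)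
      (by linarith) (fun z hz => (hZp z hz).le) (fun z hz => (hXp z hz).le) hf hg
      (by rw [Multiset.sum_add, Multiset.sum_add, sum_rep, sum_rep]; linarith)
      (by rw [Multiset.sum_add, Multiset.sum_add, sum_rep, sum_rep]; linarith)
      (by rw [Multiset.sum_add, Multiset.sum_add, sum_rep, sum_rep]; linarith)
      (by rw [Multiset.sum_add, sum_rep]; linarith)
      (by
        have hz0 : 0 ≤ Z.sum := Multiset.sum_nonneg fun z hz => (hYZ z hz).le
        have hcz0 : 0 ≤ (cz : ℝ) * y := by positivity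
        rw [Multiset.sum_add, Multiset.sum_add, sum_rep, sum_rep]; linarith)
    have e : (X + Multiset.replicate cx y + (Z + Multiset.replicate cz y + {y₁, y₂}) :
        Multiset ℝ) = {y₁, y₂} + Z + X + Multiset.replicate (cz + cx) y := by
      rw [Multiset.replicate_add]; abel
    rw [e] at this
    exact this.mono hE
  | t6s y₁ Z X tz tx N h0 h1 h2 h3 h4 h5 =>
    obtain ⟨cz, cx, rfl, hcz, hcx⟩ := split_copies hc
    have hY1 : 13 / 100 ≤ y₁ := hY y₁ (by simp)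
    have hYZ : ∀ z ∈ Z, 0 < z := fun z hz =>
      lt_of_lt_of_le (by norm_num) (hY z (Multiset.mem_add.2 (Or.inl (Multiset.mem_add.2
        (Or.inr hz)))))
    have hYX : ∀ z ∈ X, 0 < z := fun z hz =>
      lt_of_lt_of_le (by norm_num) (hY z (Multiset.mem_add.2 (Or.inr hz)))
    have kz := copies_le hy.le hj hcz
    have kx := copies_le hy.le hj hcx
    have hZp := add_pos' hYZ (rep_pos (c := cz) hy)
    have hXp := add_pos' hYX (rep_pos (c := cx) hy)
    push_cast at hN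
    rw [Multiset.sum_add, Multiset.sum_add, Multiset.sum_singleton] at hN
    have := cpl_t6s R hd (y₁ := y₁) (f := f) (g := g)
      (Z := Z + Multiset.replicate cz y) (X := X + Multiset.replicate cx y) (by linarith)
      hZp hXp hf hg
      (by rw [Multiset.sum_add, Multiset.sum_add, sum_rep, sum_rep]; linarith)
      (by rw [Multiset.sum_add, Multiset.sum_add, sum_rep, sum_rep]; linarith)
      (by rw [Multiset.sum_add, Multiset.sum_add, sum_rep, sum_rep]; linarith)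
      (by rw [Multiset.sum_add, sum_rep]; linarith)
      (by
        have hz0 : 0 ≤ Z.sum := Multiset.sum_nonneg fun z hz => (hYZ z hz).le
        have hcz0 : 0 ≤ (cz : ℝ) * y := by positivity
        rw [Multiset.sum_add, Multiset.sum_add, sum_rep, sum_rep]; linarith)
    have e : (X + Multiset.replicate cx y + (Z + Multiset.replicate cz y + {y₁}) :
        Multiset ℝ) = {y₁} + Z + X + Multiset.replicate (cz + cx) y := by
      rw [Multiset.replicate_add]; abel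
    rw [e] at this
    exact this.mono hE
  | t1 y₁ y₂ V t N hs h1 hN' h5 =>
    have hY1 : 13 / 100 ≤ y₁ := hY y₁ (by simp)
    have hY2 : 13 / 100 ≤ y₂ := hY y₂ (by simp)
    have hYV : ∀ z ∈ V, 0 < z := fun z hz =>
      lt_of_lt_of_le (by norm_num) (hY z (Multiset.mem_add.2 (Or.inr hz)))
    have kv := copies_le hy.le hj hc
    have hVp := add_pos' hYV (rep_pos (c := c) hy)
    rw [Multiset.sum_add, sum_pair] at hN
    have := cpl_t1 R L hd hd8 (y₁ := y₁) (y₂ := y₂) (f := f) (g := g)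
      (V := V + Multiset.replicate c y) (by linarith) (by linarith)
      (fun z hz => (hVp z hz).le) hf hg hs (by rw [Multiset.sum_add, sum_rep]; linarith)
      (by rw [Multiset.sum_add, sum_rep]; linarith)
    have e : (V + Multiset.replicate c y + {y₁, y₂} : Multiset ℝ) =
        {y₁, y₂} + V + Multiset.replicate c y := by abel
    rwa [e] at this
  | t3a y₁ y₂ y₃ N h1 h2 h6 h7 h8 h9 h10 h11 h5 =>
    have hc0 : c = 0 := by omega
    subst hc0
    rw [sum3] at hN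
    have k1 : 13 / 100 ≤ y₁ := hY y₁ (by simp)
    have k2 : 13 / 100 ≤ y₂ := hY y₂ (by simp)
    have k3 : 13 / 100 ≤ y₃ := hY y₃ (by simp)
    rw [Multiset.replicate_zero, add_zero]
    push_cast at hN
    exact (cpl_t3a R Rm hd k1 k2 k3 hf hg h1 (by linarith) (by linarith) (by linarith)
      (by linarith) (by linarith) (by linarith) (by linarith)).mono hE
  | t3l y₁ y₂ y₃ N h1 h2 h3 h4 h5 =>
    have hc0 : c = 0 := by omega
    subst hc0
    rw [sum3] at hN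
    have k1 : 13 / 100 ≤ y₁ := hY y₁ (by simp)
    have k2 : 13 / 100 ≤ y₂ := hY y₂ (by simp)
    have k3 : 13 / 100 ≤ y₃ := hY y₃ (by simp)
    rw [Multiset.replicate_zero, add_zero]
    push_cast at hN
    exact (cpl_t3l R Lv hd hd8 (by linarith) (by linarith) (by linarith) hf hg h1 h2
      (by linarith) (by linarith)).mono hE
  | v4 y₁ y₂ y₃ N ξ o1 o2 h1 h2 h3 h4 h6 h7 h8 h5 =>
    have hc0 : c = 0 := by omega
    subst hc0
    rw [sum3] at hN
    have k3 : 13 / 100 ≤ y₃ := hY y₃ (by simp)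
    rw [Multiset.replicate_zero, add_zero]
    push_cast at hN
    have : Cpl r (10 / 9 * d) {y₁, y₂, y₃} f g :=
      V4358.v4 R Lv hd y₁ y₂ y₃ N ξ f g o1 o2 k3 h1 h2 h3 h4 h6 h7 h8 hf hg (by linarith)
    exact this.mono hE
  | t7c y₁ y₂ y₃ N h32 h21 n1 n2 n3 n4 n5 h5 =>
    have hc0 : c = 0 := by omega
    subst hc0
    rw [sum3] at hN
    have k3 : 13 / 100 ≤ y₃ := hY y₃ (by simp)
    rw [Multiset.replicate_zero, add_zero]
    push_cast at hN
    have : Cpl r d {y₁, y₂, y₃} f g :=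
      V4358.t7c R Lv hd (by linarith) h32 h21 n1 n2 n3 n4 n5 hf hg (by linarith)
    exact this.mono hE1
  | c5g a W N ha hc4 h1 hN' h5 =>
    have hc0 : c = 0 := by omega
    subst hc0
    rw [Multiset.sum_add, Multiset.sum_singleton] at hN
    have ka : 13 / 100 ≤ a := hY a (by simp)
    have kW : ∀ z ∈ W, 13 / 100 ≤ z := fun z hz => hY z (Multiset.mem_add.2 (Or.inr hz))
    rw [Multiset.replicate_zero, add_zero]
    push_cast at hN
    exact (cpl_c5 R Lv hd hc4 (fun z hz => le_trans (by norm_num) (kW z hz))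
      (exists_two hc4 kW) h1 (by linarith) ha hf hg (by linarith)).mono hE1
  | c5 a b W N ha hW hc4 h1 hN' h5 =>
    have hc0 : c = 0 := by omega
    subst hc0
    rw [Multiset.sum_add, Multiset.sum_singleton] at hN
    have hz₀ : z₀ = 1 / 1000 := rfl
    have ka : 13 / 100 ≤ a := hY a (by simp)
    have kW : ∀ z ∈ W, 13 / 100 ≤ z := fun z hz => hY z (Multiset.mem_add.2 (Or.inr hz))
    rw [Multiset.replicate_zero, add_zero]
    push_cast at hN
    intro κ' h0 h1'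
    have := C5_720.C5_c5 R Lv hd (κ := 1) (a₀ := a) (b := b) (m := f) (a := g) hc4
      (fun z hz => by have := kW z hz; linarith) hW (by linarith) (by linarith)
      (by rw [hz₀] at ha; linarith) hf hg (by linarith) κ' h0 h1'
    rw [Multiset.sum_add, Multiset.sum_singleton]
    linarith
  | c5v V W t N hc4 h12 hS hV hN' h5 =>
    have kv := copies_le hy.le hj hc
    have hYV : ∀ z ∈ V, 0 < z := fun z hz =>
      lt_of_lt_of_le (by norm_num) (hY z (Multiset.mem_add.2 (Or.inl hz)))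
    have hVp := add_pos' hYV (rep_pos (c := c) hy)
    have kW : ∀ z ∈ W, 0 ≤ z := fun z hz =>
      le_trans (by norm_num) (hY z (Multiset.mem_add.2 (Or.inr hz)))
    rw [Multiset.sum_add] at hN
    have := cpl_c5v R Lv hd (V := V + Multiset.replicate c y) hc4 kW h12 hS
      (fun z hz => (hVp z hz).le) (by rw [Multiset.sum_add, sum_rep]; linarith) hf hg
      (by rw [Multiset.sum_add, sum_rep]; linarith)
    have e : (V + Multiset.replicate c y + W : Multiset ℝ) =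
        V + W + Multiset.replicate c y := by abel
    rw [e] at this
    exact this.mono hE1
  | t7 y₁ y₂ y₃ N ξ h31 h32 hx w0 hcc e1 e2 e3 h5 =>
    have hc0 : c = 0 := by omega
    subst hc0
    rw [sum3] at hN
    have k3 : 13 / 100 ≤ y₃ := hY y₃ (by simp)
    rw [Multiset.replicate_zero, add_zero]
    push_cast at hN
    exact (cpl_t7 R Lv hd hd8 (by linarith) h31 h32 hf hg hx w0 hcc e1 e2 e3
      (by linarith)).mono le_E0
  | v5 y₁ y₂ y₃ N ξ o1 o2 h1 hR hN' h5 =>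
    have hc0 : c = 0 := by omega
    subst hc0
    rw [sum3] at hN
    have k3 : 13 / 100 ≤ y₃ := hY y₃ (by simp)
    rw [Multiset.replicate_zero, add_zero]
    push_cast at hN
    have hR' : V5358.Reg ξ y₂ y₃ := by
      unfold V5358.Reg
      rcases hR with ⟨h, h'⟩ | ⟨h, h'⟩ | h
      · exact Or.inl ⟨by linarith, by linarith⟩
      · exact Or.inr (Or.inl ⟨by linarith, by linarith⟩)
      · exact Or.inr (Or.inr h)
    have : Cpl r d {y₁, y₂, y₃} f g :=
      V5358.v5 R Lv hd o1 o2 (by linarith) h1 hR' hf hg (by linarith)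
    exact this.mono hE1
  | c5b V W t N hc4 h12 hb hS hV hN' h5 =>
    have kv := copies_le hy.le hj hc
    have hYV : ∀ z ∈ V, 0 < z := fun z hz =>
      lt_of_lt_of_le (by norm_num) (hY z (Multiset.mem_add.2 (Or.inl hz)))
    have hVp := add_pos' hYV (rep_pos (c := c) hy)
    have kW : ∀ z ∈ W, 0 ≤ z := fun z hz =>
      le_trans (by norm_num) (hY z (Multiset.mem_add.2 (Or.inr hz)))
    rw [Multiset.sum_add] at hN
    have := cpl_c5b R Lv hd (V := V + Multiset.replicate c y) hc4 kW h12 hb hS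
      (fun z hz => (hVp z hz).le) (by rw [Multiset.sum_add, sum_rep]; linarith) hf hg
      (by rw [Multiset.sum_add, sum_rep]; linarith)
    have e : (V + Multiset.replicate c y + W : Multiset ℝ) =
        V + W + Multiset.replicate c y := by abel
    rw [e] at this
    exact this.mono hE1


/-- **the columns `Col2` are ideal** (the chunks are `t` real small lumps of size `v`) -/
theorem hcol2 (R : ExpRules (7 / 8 + d) r s) (L : ExpLB (7 / 8 + d) r)
    (Lv : ExpLv (7 / 8 + d) r) (Rm : T3F986.T3Fld (7 / 8 + d) r) (hd : 0 ≤ d) (hd8 : d ≤ 1 / 8)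
    {v : ℝ} {Y : Multiset ℝ} {t : ℕ} {N : ℝ} (h : Col2 v Y t N) (hv : 0 < v)
    (hY : ∀ y ∈ Y, 13 / 100 ≤ y) {f g : ℝ} (hf : 0 ≤ f) (hg : 0 ≤ g)
    (hN : Y.sum + t * v + f + g ≤ N) :
    Cpl r (E0 d) (Y + Multiset.replicate t v) f g := by
  have hE : 10 / 9 * d ≤ E0 d := le_trans (by linarith) le_E0
  cases h with
  | of0 Y t N h =>
    exact hcol0 R L Lv Rm hd hd8 h hY (y := v) (j := 1) (c := t) hv (by simp) (by simp) hf hg hN
  | t6v y₁ Z X tz tx N h0 h1 h2 h3 h4 h5 =>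
    have hY1 : 13 / 100 ≤ y₁ := hY y₁ (by simp)
    have hYZ : ∀ z ∈ Z, 0 < z := fun z hz =>
      lt_of_lt_of_le (by norm_num) (hY z (Multiset.mem_add.2 (Or.inl (Multiset.mem_add.2
        (Or.inr hz)))))
    have hYX : ∀ z ∈ X, 0 < z := fun z hz =>
      lt_of_lt_of_le (by norm_num) (hY z (Multiset.mem_add.2 (Or.inr hz)))
    have hZp := add_pos' hYZ (rep_pos (c := tz) hv)
    have hXp := add_pos' hYX (rep_pos (c := tx) hv)
    push_cast at hN
    rw [Multiset.sum_add, Multiset.sum_add, Multiset.sum_singleton] at hN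
    have := cpl_t6 R hd (y₁ := y₁) (y₂ := v) (f := f) (g := g)
      (Z := Z + Multiset.replicate tz v) (X := X + Multiset.replicate tx v) (by linarith)
      hv.le (fun z hz => (hZp z hz).le) (fun z hz => (hXp z hz).le) hf hg
      (by rw [Multiset.sum_add, Multiset.sum_add, sum_rep, sum_rep]; linarith)
      (by rw [Multiset.sum_add, Multiset.sum_add, sum_rep, sum_rep]; linarith)
      (by rw [Multiset.sum_add, Multiset.sum_add, sum_rep, sum_rep]; linarith)
      (by rw [Multiset.sum_add, sum_rep]; linarith)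
      (by rw [Multiset.sum_add, Multiset.sum_add, sum_rep, sum_rep]; linarith)
    have e : (X + Multiset.replicate tx v + (Z + Multiset.replicate tz v + {y₁, v}) :
        Multiset ℝ) = {y₁} + Z + X + Multiset.replicate (tz + tx + 1) v := by
      have e1 : ({y₁, v} : Multiset ℝ) = {y₁} + {v} := rfl
      rw [Multiset.replicate_add, Multiset.replicate_add, Multiset.replicate_one, e1]; abel
    rw [e] at this
    exact this.mono hE
  | t1v y₁ V t N hs h1 hN' h5 =>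
    have hY1 : 13 / 100 ≤ y₁ := hY y₁ (by simp)
    have hYV : ∀ z ∈ V, 0 < z := fun z hz =>
      lt_of_lt_of_le (by norm_num) (hY z (Multiset.mem_add.2 (Or.inr hz)))
    have hVp := add_pos' hYV (rep_pos (c := t) hv)
    push_cast at hN
    rw [Multiset.sum_add, Multiset.sum_singleton] at hN
    have := cpl_t1 R L hd hd8 (y₁ := y₁) (y₂ := v) (f := f) (g := g)
      (V := V + Multiset.replicate t v) (by linarith) hv.le
      (fun z hz => (hVp z hz).le) hf hg hs (by rw [Multiset.sum_add, sum_rep]; linarith)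
      (by rw [Multiset.sum_add, sum_rep]; linarith)
    have e : (V + Multiset.replicate t v + {y₁, v} : Multiset ℝ) =
        {y₁} + V + Multiset.replicate (t + 1) v := by
      have e1 : ({y₁, v} : Multiset ℝ) = {y₁} + {v} := rfl
      rw [Multiset.replicate_add, Multiset.replicate_one, e1]; abel
    rwa [e] at this
  | c5w a W Y t N hYW hc4 h12 hS ha hN' h5 =>
    have hE1 : d ≤ E0 d := le_trans (by linarith) le_E0
    have hall : ∀ z ∈ {a} + W, 0 < z := by
      rw [← hYW]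
      intro z hz
      rcases Multiset.mem_add.1 hz with h | h
      · exact lt_of_lt_of_le (by norm_num) (hY z h)
      · rw [Multiset.eq_of_mem_replicate h]; exact hv
    have hsum : Y.sum + t * v = a + W.sum := by
      have := congrArg Multiset.sum hYW
      rwa [Multiset.sum_add, Multiset.sum_add, Multiset.sum_singleton, sum_rep] at this
    rw [hYW]
    exact (cpl_c5 R Lv hd hc4 (fun z hz => (hall z (Multiset.mem_add.2 (Or.inr hz))).le) h12 hS
      (hall a (by simp)).le ha hf hg (by linarith)).mono hE1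
  | c5vw V W Y t N hYW hc4 h12 hS hV hN' h5 =>
    have hE1 : d ≤ E0 d := le_trans (by linarith) le_E0
    have hall : ∀ z ∈ V + W, 0 < z := by
      rw [← hYW]
      intro z hz
      rcases Multiset.mem_add.1 hz with h | h
      · exact lt_of_lt_of_le (by norm_num) (hY z h)
      · rw [Multiset.eq_of_mem_replicate h]; exact hv
    have hsum : Y.sum + t * v = V.sum + W.sum := by
      have := congrArg Multiset.sum hYW
      rwa [Multiset.sum_add, Multiset.sum_add, sum_rep] at this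
    rw [hYW]
    exact (cpl_c5v R Lv hd hc4 (fun z hz => (hall z (Multiset.mem_add.2 (Or.inr hz))).le) h12 hS
      (fun z hz => (hall z (Multiset.mem_add.2 (Or.inl hz))).le) hV hf hg
      (by linarith)).mono hE1
  | c5bw V W Y t N hYW hc4 h12 hb hS hV hN' h5 =>
    have hE1 : d ≤ E0 d := le_trans (by linarith) le_E0
    have hall : ∀ z ∈ V + W, 0 < z := by
      rw [← hYW]
      intro z hz
      rcases Multiset.mem_add.1 hz with h | h
      · exact lt_of_lt_of_le (by norm_num) (hY z h)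
      · rw [Multiset.eq_of_mem_replicate h]; exact hv
    have hsum : Y.sum + t * v = V.sum + W.sum := by
      have := congrArg Multiset.sum hYW
      rwa [Multiset.sum_add, Multiset.sum_add, sum_rep] at this
    rw [hYW]
    exact (cpl_c5b R Lv hd hc4 (fun z hz => (hall z (Multiset.mem_add.2 (Or.inr hz))).le) h12 hb hS
      (fun z hz => (hall z (Multiset.mem_add.2 (Or.inl hz))).le) hV hf hg
      (by linarith)).mono hE1

end Crest.Agent.R017.HC777
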