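import Crest.Agent.R017.CovTop_741
import Crest.Agent.R017.CovNear_177
import Crest.Agent.R017.CovLong_702
import Crest.Agent.R017.HCol_777
import Crest.Agent.R017.BoxAll_702

/-!
# Row 17, T.2 : the map of the coverage (helper702), v4

Boxes `u` (family `1`, `Σ u ≤ 4/3`, no five near-equal lumps), big lumps `> 13/100`:

* some lump `≥ 5/6`                                       : `covM_long` (741)
* at least nine big lumps                                 : `covM_nine` (358)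
* `Σ P(u_j) ≤ 1` over the big lumps, `P(u) = 1/(2 lw u)`  : `cov_near` (177) from the singles
  `P = 1/9` up to `4/27`, `1/7` up to `1/6`, `1/6` up to `2/9`, `1/4` up to `1/3`, `3/4 u` up to
  `1/2`, `1/2` above; with a lump `≥ 2/3`                  : `covM_long2`
* `Single lo hi l` : a lump `A` in `[lo, hi]` has its own points `PtM`, `PtS` with `≥ l` copies
* `EyP`    : the point `E_y`, `0 < y ≤ 13/100`
* `Tree k`, `3 ≤ k ≤ 8` big lumps, `Σ P(u_j) > 1`         : `Good`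

`certA_of_map` : these and `NearAll` give the certificate of the absolute boxes.
-/

set_option autoImplicit false

noncomputable section

namespace Crest.Agent.R017.CovMap702

open Crest.Agent.R017.ER911 Crest.Agent.R017.Hull741 Crest.Agent.R017.CovM59
  Crest.Agent.R017.CovSmall741 Crest.Agent.R017.CovGlue741 Crest.Agent.R017.ExpC702
  Crest.Agent.R017.Prov71 Crest.Agent.R017.Cone59 Crest.Agent.R017.CovBig954
  Crest.Agent.R017.HC777 Crest.Agent.R017.Cov499 Crest.Agent.R017.CovNear177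

/-- **admissible parameters**: `θ = 7/8 + d`, loss `e₀ = 4/3 d - t/2` -/
structure Par (d e₀ t : ℝ) : Prop where
  d0 : 0 < d
  d8 : d < 1 / 8
  t0 : 0 < t
  t1 : 36 * t ≤ 1 - 8 * d
  t2 : 9 * t ≤ 2 * d
  t4 : 120 * t ≤ 1 - 8 * d
  e1 : e₀ = 4 / 3 * d - t / 2
  e2 : E0 d ≤ e₀

theorem Par.t3 {d e₀ t : ℝ} (P : Par d e₀ t) : t ≤ 1 / 36 := by linarith [P.t1, P.d0]

theorem Par.de {d e₀ t : ℝ} (P : Par d e₀ t) : 5 / 4 * d ≤ e₀ := le_E0.trans P.e2

theorem Par.e0 {d e₀ t : ℝ} (P : Par d e₀ t) : 0 ≤ e₀ := by linarith [P.de, P.d0]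

/-- admissible parameters exist -/
theorem exists_par {d : ℝ} (h0 : 0 < d) (h8 : d < 1 / 8) : ∃ e₀ t, Par d e₀ t := by
  have hE := E0_lt h0 h8
  obtain ⟨t, ht⟩ : ∃ t, t = min (4 / 3 * d - E0 d) (min ((1 - 8 * d) / 120) (2 / 9 * d)) :=
    ⟨_, rfl⟩
  have h1 : t ≤ 4 / 3 * d - E0 d := by rw [ht]; exact min_le_left _ _
  have h2 : t ≤ (1 - 8 * d) / 120 := by rw [ht]; exact (min_le_right _ _).trans (min_le_left _ _)
  have h3 : t ≤ 2 / 9 * d := by rw [ht]; exact (min_le_right _ _).trans (min_le_right _ _)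
  have h4 : 0 < t := by
    rw [ht]
    exact lt_min (by linarith) (lt_min (by linarith) (by linarith))
  exact ⟨4 / 3 * d - t / 2, t, h0, h8, h4, by linarith, by linarith, by linarith, rfl,
    by linarith⟩

/-- a property of the coverage, for all admissible parameters and all bundles -/
def AllB (P : ℝ → ℝ → ℝ → EF → Prop) : Prop :=
  ∀ d e₀ t : ℝ, Par d e₀ t → ∀ r s s₀ rc bc : EF, ProvE (7 / 8 + d) r s s₀ rc bc → P d e₀ t rc

/-- copies in the points of the single lumps -/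
def lw (u : ℝ) : ℝ :=
  if u ≤ 4 / 27 then 9 / 2 else if u ≤ 1 / 6 then 7 / 2 else if u ≤ 2 / 9 then 3 else
    if u ≤ 1 / 3 then 2 else if u ≤ 1 / 2 then 2 / (3 * u) else 1

theorem lw_pos (u : ℝ) : 0 < lw u := by
  unfold lw
  split_ifs with h1 h2 h3 h4 h5
  · norm_num
  · norm_num
  · norm_num
  · norm_num
  · have : 0 < u := by linarith [not_le.1 h4]
    positivity
  · norm_num

theorem lw_half {u : ℝ} (h : 1 / 2 < u) : lw u = 1 := by
  unfold lw
  rw [if_neg (by linarith), if_neg (by linarith), if_neg (by linarith), if_neg (by linarith),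
    if_neg (by linarith)]

theorem one_le_lw (u : ℝ) : 1 ≤ lw u := by
  unfold lw
  split_ifs with h1 h2 h3 h4 h5
  · norm_num
  · norm_num
  · norm_num
  · norm_num
  · have : 0 < u := by linarith [not_le.1 h4]
    rw [le_div_iff₀ (by linarith)]
    linarith
  · norm_num

/-- **the single lumps** `A` in `[lo, hi]` : own points with at least `l` copies -/
def Single (lo hi l : ℝ) : Prop := AllB fun _ e₀ t rc => ∀ A : ℝ, lo ≤ A → A ≤ hi →
  PtM rc e₀ t l A ∧ ∀ y : ℝ, 0 < y → y ≤ 13 / 100 → PtS rc e₀ t l A y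

/-- **the single lumps** `A` in `[lo, hi]` with the largest multiplicity `2/(3 A)` -/
def SingleP (lo hi : ℝ) : Prop := AllB fun _ e₀ t rc => ∀ A : ℝ, lo ≤ A → A ≤ hi →
  PtM rc e₀ t (2 / (3 * A)) A ∧ ∀ y : ℝ, 0 < y → y ≤ 13 / 100 → PtS rc e₀ t (2 / (3 * A)) A y

/-- **the trees**: `k` big lumps with `Σ P > 1` -/
def Tree (k : ℕ) : Prop := ∀ w : Fin k → ℝ, Antitone w → (∀ j, 13 / 100 ≤ w j) →
  (∀ j, w j ≤ 5 / 6) → ∑ j, w j ≤ 4 / 3 → NoNE w → 1 < ∑ j, 1 / (2 * lw (w j)) →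
  Good Col0 Col2 (13 / 100) w

/-- **the point `E_y`** -/
def EyP : Prop := AllB fun _ e₀ t rc => ∀ y : ℝ, 0 < y → y ≤ 13 / 100 →
  (((fun _ => 2 / (3 * y)), 0, 1 / 6 - t / 2) : Mon 1) ∈ Hull (Col rc e₀ fun _ : Fin 1 => y)

/-- `CovK` gives the tree -/
theorem tree_of_covK {k : ℕ} (h : CovK k) : Tree k := fun w ha h1 h2 hs hN _ =>
  h w ha h1 (fun j => (h2 j).trans (by norm_num)) hs hN

theorem len0 {v : ℝ} {Y : Multiset ℝ} {T : ℕ} {N : ℝ} (h : Col0 v Y T N) :
    Y.sum + (T : ℝ) * v ≤ N := by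
  cases h with
  | t6 y₁ y₂ Z X tz tx N hs h1 h2 h3 h4 h5 =>
    simp only [Multiset.sum_add, Multiset.insert_eq_cons, Multiset.sum_cons,
      Multiset.sum_singleton]
    push_cast
    linarith
  | t6s y₁ Z X tz tx N h0 h1 h2 h3 h4 h5 =>
    simp only [Multiset.sum_add, Multiset.sum_singleton]
    push_cast
    linarith
  | t1 y₁ y₂ V t N hs h1 hN h5 =>
    simp only [Multiset.sum_add, Multiset.insert_eq_cons, Multiset.sum_cons,
      Multiset.sum_singleton]
    linarith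
  | t3a y₁ y₂ y₃ N h1 h2 h6 h7 h8 h9 h10 h11 h5 =>
    simp only [Multiset.insert_eq_cons, Multiset.sum_cons, Multiset.sum_singleton]
    push_cast
    linarith
  | t3l y₁ y₂ y₃ N h1 h2 h3 h4 h5 =>
    simp only [Multiset.insert_eq_cons, Multiset.sum_cons, Multiset.sum_singleton]
    push_cast
    linarith
  | v4 y₁ y₂ y₃ N ξ o1 o2 h1 h2 h3 h4 h6 h7 h8 h5 =>
    simp only [Multiset.insert_eq_cons, Multiset.sum_cons, Multiset.sum_singleton]
    push_cast
    linarith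
  | t7c y₁ y₂ y₃ N h32 h21 n1 n2 n3 n4 n5 h5 =>
    simp only [Multiset.insert_eq_cons, Multiset.sum_cons, Multiset.sum_singleton]
    push_cast
    linarith
  | c5g a W N ha hc h1 hN h5 =>
    simp only [Multiset.sum_add, Multiset.sum_singleton]
    push_cast
    linarith
  | c5 a b W N ha hW hc h1 hN h5 =>
    simp only [Multiset.sum_add, Multiset.sum_singleton]
    push_cast
    linarith
  | c5v V W t N hc h12 hS hV hN h5 =>
    rw [Multiset.sum_add]
    linarith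
  | t7 y₁ y₂ y₃ N ξ h31 h32 hx w0 hc e1 e2 e3 h5 =>
    simp only [Multiset.insert_eq_cons, Multiset.sum_cons, Multiset.sum_singleton]
    push_cast
    linarith
  | v5 y₁ y₂ y₃ N ξ o1 o2 h1 hR hN h5 =>
    simp only [Multiset.insert_eq_cons, Multiset.sum_cons, Multiset.sum_singleton]
    push_cast
    linarith
  | c5b V W t N hc h12 hb hS hV hN h5 =>
    rw [Multiset.sum_add]
    linarith

theorem len2 {v : ℝ} {Y : Multiset ℝ} {T : ℕ} {N : ℝ} (h : Col2 v Y T N) :
    Y.sum + (T : ℝ) * v ≤ N := by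
  cases h with
  | of0 Y t N h => exact len0 h
  | t6v y₁ Z X tz tx N h0 h1 h2 h3 h4 h5 =>
    simp only [Multiset.sum_add, Multiset.sum_singleton]
    push_cast
    linarith
  | t1v y₁ V t N hs h1 hN h5 =>
    simp only [Multiset.sum_add, Multiset.sum_singleton]
    push_cast
    linarith
  | c5w a W Y t N hY hc h12 hS ha hN h5 =>
    have h := congrArg Multiset.sum hY
    simp only [Multiset.sum_add, Multiset.sum_replicate, nsmul_eq_mul,
      Multiset.sum_singleton] at h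
    linarith
  | c5vw V W Y t N hY hc h12 hS hV hN h5 =>
    have h := congrArg Multiset.sum hY
    simp only [Multiset.sum_add, Multiset.sum_replicate, nsmul_eq_mul] at h
    linarith
  | c5bw V W Y t N hY hc h12 hb hS hV hN h5 =>
    have h := congrArg Multiset.sum hY
    simp only [Multiset.sum_add, Multiset.sum_replicate, nsmul_eq_mul] at h
    linarith

/-- the columns -/
theorem inp {d e₀ t : ℝ} (P : Par d e₀ t) {r s s₀ rc bc : EF}
    (B : ProvE (7 / 8 + d) r s s₀ rc bc) (hE : EyP) : Inp Col0 Col2 (13 / 100) rc e₀ t where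
  len0 _ _ _ _ h := len0 h
  len2 _ _ _ _ h := len2 h
  col0 v Y T N h hv hY y j c hy hj hc := by
    intro f g hf hg hN
    have h1 := hcol0 B.rules B.lb B.lv B.rem P.d0.le P.d8.le h hY hy hj hc hf hg
      (by simpa [Multiset.sum_add] using hN)
    have h2 := h1.mono P.e2
    refine B.cpl.le 1 _ _ _ _ zero_le_one ⟨?_, hf, hg⟩ fun κ' k0 k1 => h2 κ' k0 k1
    intro x hx
    rcases Multiset.mem_add.1 hx with hx | hx
    · linarith [hY x hx]
    · rw [(Multiset.mem_replicate.1 hx).2]; exact hy.le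
  col2 v Y T N h hv hY := by
    intro f g hf hg hN
    have h1 := hcol2 B.rules B.lb B.lv B.rem P.d0.le P.d8.le h hv hY hf hg
      (by simpa [Multiset.sum_add] using hN)
    have h2 := h1.mono P.e2
    refine B.cpl.le 1 _ _ _ _ zero_le_one ⟨?_, hf, hg⟩ fun κ' k0 k1 => h2 κ' k0 k1
    intro x hx
    rcases Multiset.mem_add.1 hx with hx | hx
    · linarith [hY x hx]
    · rw [(Multiset.mem_replicate.1 hx).2]; exact hv.le
  void hu A hA hA3 := by
    have h1 := P.d0
    have h2 := P.d8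
    exact ColG59.col_void (θ := 7 / 8 + d) (by linarith) (by linarith) B.rules B.cpl hu P.e0 le_rfl
      hA (by linarith)
  K0 hu := by
    have h1 := ColG59.col_K0 B.rules B.lb B.cpl P.d0.le P.d8.le P.t0.le
      (by linarith [P.t3]) (by linarith [P.t2, P.d0]) hu
    rw [← P.e1] at h1
    exact h1
  Ey := hE d e₀ t P r s s₀ rc bc B

/-- **the leaves of T.2 at the level of the columns** -/
structure Leaves : Prop where
  ey : EyP
  s1 : Single (13 / 100) (4 / 27) (9 / 2)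
  s2 : Single (4 / 27) (1 / 6) (7 / 2)
  s3 : Single (1 / 6) (2 / 9) 3
  s4 : Single (2 / 9) (1 / 3) 2
  s5 : SingleP (1 / 3) (1 / 2)
  s6 : Single (1 / 2) (2 / 3) 1
  tree : ∀ k, 3 ≤ k → k ≤ 8 → Tree k

theorem Leaves.single (H : Leaves) {d e₀ t : ℝ} (P : Par d e₀ t) {r s s₀ rc bc : EF}
    (B : ProvE (7 / 8 + d) r s s₀ rc bc) {A : ℝ} (h0 : 13 / 100 ≤ A) (h1 : A ≤ 2 / 3) :
    PtM rc e₀ t (lw A) A ∧ ∀ y : ℝ, 0 < y → y ≤ 13 / 100 → PtS rc e₀ t (lw A) A y := by
  unfold lw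
  split_ifs with c1 c2 c3 c4 c5
  · exact H.s1 d e₀ t P _ _ _ _ _ B A h0 c1
  · exact H.s2 d e₀ t P _ _ _ _ _ B A (not_le.1 c1).le c2
  · exact H.s3 d e₀ t P _ _ _ _ _ B A (not_le.1 c2).le c3
  · exact H.s4 d e₀ t P _ _ _ _ _ B A (not_le.1 c3).le c4
  · exact H.s5 d e₀ t P _ _ _ _ _ B A (not_le.1 c4).le c5
  · exact H.s6 d e₀ t P _ _ _ _ _ B A (not_le.1 c5).le h1

/-- at most two lumps: `Σ P ≤ 1` -/
theorem sumP_le_two {k : ℕ} (hk : k ≤ 2) (w : Fin k → ℝ) : ∑ j, 1 / (2 * lw (w j)) ≤ 1 := by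
  have h : ∀ u, 1 / (2 * lw u) ≤ 1 / 2 := by
    intro u
    have h1 := one_le_lw u
    rw [div_le_div_iff₀ (by linarith) (by norm_num)]
    linarith
  calc ∑ j, 1 / (2 * lw (w j)) ≤ ∑ _j : Fin k, (1 / 2 : ℝ) := Finset.sum_le_sum fun j _ => h _
    _ = k * (1 / 2) := by simp
    _ ≤ 2 * (1 / 2) := by
        have : (k : ℝ) ≤ 2 := by exact_mod_cast hk
        linarith
    _ = 1 := by norm_num

/-- a lump `≥ 2/3` and `Σ P ≤ 1` -/
theorem near_long {d e₀ t : ℝ} (P : Par d e₀ t) {r s s₀ rc bc : EF}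
    (B : ProvE (7 / 8 + d) r s s₀ rc bc) (H : Leaves) (I : Inp Col0 Col2 (13 / 100) rc e₀ t)
    {N : ℕ} {u : Fin N → ℝ} (hu : ∀ j, 0 < u j) (hs : ∑ j, u j ≤ 4 / 3) {j₁ : Fin N}
    (hj : 2 / 3 ≤ u j₁)
    (hP : ∑ j ∈ Finset.univ.filter (fun j => 13 / 100 < u j), 1 / (2 * lw (u j)) ≤ 1)
    (ho : ∀ j, j ≠ j₁ → u j ≤ 2 / 3) : CovM rc e₀ t u (fun _ => 1) := by
  cases N with
  | zero => exact j₁.elim0
  | succ N =>
    refine CovLong702.covM_long2 B.rules B.cpl P.d0.le (by linarith [P.de, P.d0]) P.t0.le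
      (by linarith [P.t3]) (fun k w hw => I.K0 hw) I.Ey hu hs j₁ hj (fun j => lw (u j))
      (fun j => lw_pos _) ?_ (fun j h1 h2 => (H.single P B h2.le (ho j h1)).1)
      (fun j h1 h2 => (H.single P B h2.le (ho j h1)).2)
    rw [Finset.sum_filter, Fin.sum_univ_succAbove _ j₁, if_pos (by linarith),
      lw_half (by linarith)] at hP
    linarith

/-- **the coverage for `Σ u ≤ 4/3`** from the leaves -/
theorem coreL_of_map (H : Leaves) {d e₀ t : ℝ} (P : Par d e₀ t) {r s s₀ rc bc : EF}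
    (B : ProvE (7 / 8 + d) r s s₀ rc bc) : CoreL e₀ t rc := by
  have ht3 : t ≤ 1 / 3 := by linarith [P.t3]
  have ht := P.t0.le
  have hde := P.de
  have hd0 := P.d0
  intro N u hu hNE hs
  by_cases hlong : ∃ j₁, 5 / 6 ≤ u j₁
  · obtain ⟨j₁, hj⟩ := hlong
    exact CovTop741.covM_long B.rules B.cpl hd0.le (by linarith) ht ht3 (fun j => (hu j).le) hs hj
  push Not at hlong
  have I := inp P B H.ey
  by_cases hP : ∑ j ∈ Finset.univ.filter (fun j => 13 / 100 < u j), 1 / (2 * lw (u j)) ≤ 1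
  · by_cases h23 : ∃ j₁, 2 / 3 ≤ u j₁
    · obtain ⟨j₁, hj⟩ := h23
      have hothers : ∀ j, j ≠ j₁ → u j ≤ 2 / 3 := by
        intro j hjj
        have h2 := Finset.add_le_sum (s := Finset.univ) (fun i _ => (hu i).le)
          (Finset.mem_univ j) (Finset.mem_univ j₁) hjj
        linarith
      exact near_long P B H I hu hs hj hP hothers
    push Not at h23
    refine cov_near (fun k w hw => ?_) I.Ey hu hs (fun j => lw (u j)) (fun j => lw_pos _) hP
      (fun j hj => (H.single P B hj.le (h23 j).le).1)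
      (fun j hj => (H.single P B hj.le (h23 j).le).2)
    exact I.K0 hw
  -- the number of big lumps
  obtain ⟨k, ι, hι, hanti, hmem⟩ := exists_sorted u (Finset.univ.filter fun j => 13 / 100 < u j)
  have hmem' : ∀ j, 13 / 100 < u j ↔ ∃ i, ι i = j := fun j => by
    rw [← hmem]; simp
  have hw : ∀ i, 13 / 100 < u (ι i) := fun i => (hmem' _).2 ⟨i, rfl⟩
  rcases le_or_gt 9 k with hk | hk
  · refine CovNine358.covM_nine B.cpl B.rules B.lv hd0.le (by linarith) ht ht3
      (fun j => (hu j).le) hs (ι ∘ Fin.castLE hk) (hι.comp (Fin.castLE_injective hk)) ?_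
      fun i => (hw _).le
    intro a b hab
    exact hanti (by exact_mod_cast hab)
  -- the trees
  have himg : ∀ (k' : ℕ) (ι' : Fin k' → Fin N),
      (∀ j, 13 / 100 < u j ↔ ∃ i, ι' i = j) →
      (Finset.univ.filter fun j => 13 / 100 < u j) = Finset.univ.image ι' := by
    classical
    intro k' ι' h
    ext j
    simp [h j]
  have hcard : ∀ (k' : ℕ) (ι' : Fin k' → Fin N), Function.Injective ι' →
      (∀ j, 13 / 100 < u j ↔ ∃ i, ι' i = j) →
      k' = (Finset.univ.filter fun j => 13 / 100 < u j).card := by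
    classical
    intro k' ι' hι' h
    rw [himg k' ι' h, Finset.card_image_of_injective _ hι', Finset.card_univ, Fintype.card_fin]
  refine covM_of_good' I ht ht3 hu hs fun k' ι' hι' hanti' hmem'' => ?_
  have hkk : k' = k := (hcard k' ι' hι' hmem'').trans (hcard k ι hι hmem').symm
  have hw' : ∀ i, 13 / 100 < u (ι' i) := fun i => (hmem'' _).2 ⟨i, rfl⟩
  have hsumP : 1 < ∑ i, 1 / (2 * lw ((u ∘ ι') i)) := by
    rw [not_le, himg k' ι' hmem'', Finset.sum_image fun a _ b _ h => hι' h] at hP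
    exact hP
  have hk3 : 3 ≤ k' := by
    by_contra hc
    exact absurd (sumP_le_two (by omega) (u ∘ ι')) (not_le.2 hsumP)
  refine H.tree k' hk3 (by omega) (u ∘ ι') hanti' (fun i => (hw' i).le) (fun i => (hlong _).le) ?_
    (CovTop741.noNE_of hNE hι' hanti') hsumP
  classical
  have h1 : ∑ i, (u ∘ ι') i = ∑ j ∈ Finset.univ.image ι', u j :=
    (Finset.sum_image fun a _ b _ h => hι' h).symm
  rw [h1]
  exact (Finset.sum_le_sum_of_subset_of_nonneg (Finset.subset_univ _)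
    fun j _ _ => (hu j).le).trans hs

/-- **`CovAll` from the map** -/
theorem covAll_of_map (H : Leaves) {d : ℝ} (hd : 0 < d) (hd8 : d < 1 / 8) :
    ∃ e₀ t μ : ℝ, 0 ≤ t ∧ t ≤ 1 / 3 ∧ 0 < μ ∧
      2 * e₀ + (2 * (7 / 8 + d) - 1) * t + μ ≤ b2 (7 / 8 + d) ∧
      BoxAll702.CovAll (7 / 8 + d) e₀ t := by
  obtain ⟨e₀, t, P⟩ := exists_par hd hd8
  have h1 : 0 < (1 / 4 - 2 * d) * t := mul_pos (by linarith) P.t0
  refine ⟨e₀, t, (1 / 4 - 2 * d) * t, P.t0.le, by linarith [P.t3], h1, ?_,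
    fun r s s₀ rc bc B => coreL_of_map H P B⟩
  rw [P.e1]
  unfold b2
  nlinarith

/-- **the near-equal boxes over short families** -/
def NearAll : Prop := ∀ d : ℝ, 0 < d → d < 1 / 8 → ∃ μ : ℝ, 0 < μ ∧
  ∀ r s s₀ rc bc : EF, ProvE (7 / 8 + d) r s s₀ rc bc → BoxAll702.NearB (7 / 8 + d) μ bc

/-- **the certificate of the absolute boxes** (`Fin4.CertA θ μ`) -/
theorem certA_of_map (H : Leaves) (hNear : NearAll) {θ : ℝ}
    (hθ : 7 / 8 < θ) (hθ1 : θ < 1) : ∃ μ : ℝ, 0 < μ ∧ μ ≤ 1 / 12 ∧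
      ∀ r s s₀ rc bc : EF, ProvE θ r s s₀ rc bc →
        TopC702.BoxAll θ μ (BxE986.AL (9 / 10) 1 w5) bc := by
  obtain ⟨d, rfl⟩ : ∃ d, θ = 7 / 8 + d := ⟨θ - 7 / 8, by ring⟩
  have h0 : 0 < d := by linarith
  have h8 : d < 1 / 8 := by linarith
  obtain ⟨e₀, t, μ, ht, ht3, hμ, he, hc⟩ := covAll_of_map H h0 h8
  obtain ⟨μ₁, hμ₁, hn⟩ := hNear d h0 h8
  exact BoxAll702.certA_of_cov (by linarith) (by linarith) hμ hμ₁ ht ht3 he hc hn

end Crest.Agent.R017.CovMap702
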