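import Crest.Agent.R017.Ey2_645
import Crest.Agent.R017.CovMap_702

/-!
# Row 17, T.2: `CovMap702.EyP` (helper645)
-/

set_option autoImplicit false

noncomputable section

namespace Crest.Agent.R017.EyP645

open Crest.Agent.R017.CovMap702

/-- **the point `E_y`** -/
theorem eyP : EyP := by
  intro d e₀ t P r s s₀ rc bc B y hy hy1
  exact Ey2_645.ey2 (μ := t / 2) B.cpl B.rules B.lv P.d0.le (by linarith [P.t0]) (by linarith [P.t4])
    (by linarith [P.t2]) hy (by linarith) (Or.inl (by linarith)) P.t0.le (by linarith [P.t3])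
    (by rw [P.e1])

end Crest.Agent.R017.EyP645
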