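import Crest.Agent.R017.CovNear_177

/-!
# Row 17, section D: the hand region of the coverage (helper177)

All lumps `≤ 1/6`, and at most seven lumps `> 13/100` or at most three lumps `> 4/27`.
Every lump `> 13/100` has its own point: `≥ 9/2` copies up to `4/27`, `≥ 7/2` copies up to `1/6`.
-/

set_option autoImplicit false

noncomputable section

namespace Crest.Agent.R017.CovNear177

open Crest.Agent.R017.ER911 Crest.Agent.R017.Hull741 Crest.Agent.R017.CovM59
  Crest.Agent.R017.CovSmall741 Crest.Agent.R017.Cov499 Crest.Agent.R017.CovGlue741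

variable {rc : EF} {e₀ t : ℝ}

/-- the point `E_v` -/
def PtE (rc : EF) (e₀ t v : ℝ) : Prop :=
  (((fun _ => 2 / (3 * v)), 0, 1 / 6 - t / 2) : Mon 1) ∈ Hull (Col rc e₀ fun _ : Fin 1 => v)

theorem copies {l v : ℝ} (hv : 0 < v) (h : l * v ≤ 2 / 3) : l ≤ 2 / (3 * v) := by
  rw [le_div_iff₀ (by linarith)]
  linarith

theorem PtE.ptM {l v : ℝ} (h : PtE rc e₀ t v) (hv : 0 < v) (hl : l * v ≤ 2 / 3) :
    PtM rc e₀ t l v := by
  have e : 2 / (3 * v) * v = 2 / 3 := by field_simp
  refine ⟨2 / (3 * v), copies hv hl, e.le, ?_⟩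
  rw [e, sub_self]
  exact h

theorem PtE.ptS {l v y : ℝ} (h : PtE rc e₀ t v) (hv : 0 < v) (hl : l * v ≤ 2 / 3) :
    PtS rc e₀ t l v y := by
  have e : 2 / (3 * v) * v = 2 / 3 := by field_simp
  refine ⟨2 / (3 * v), copies hv hl, e.le, ?_⟩
  rw [e, sub_self, zero_div]
  have h1 := push1 (w := ![v, y]) (0 : Fin 2) (x := fun _ => 2 / (3 * v)) (M := 0)
    (A := 1 / 6 - t / 2) h
  convert h1 using 2
  funext i
  fin_cases i
  · simp
  · simp

/-- **the hand region** -/
theorem cov_hand (hK0 : ∀ (k : ℕ) (w : Fin k → ℝ), (∀ j, 0 ≤ w j) →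
      Col rc e₀ w (fun _ => 0) (2 / 3) (1 / 6 - t / 2))
    (hEy : ∀ y, 0 < y → y ≤ 20 / 151 → PtE rc e₀ t y)
    (hEz : ∀ y, 2 / 15 ≤ y → y ≤ 4 / 27 → PtE rc e₀ t y)
    (hH : ∀ v y, 20 / 151 ≤ v → v ≤ 2 / 15 → 0 < y → y ≤ 13 / 100 → PtS rc e₀ t (9 / 2) v y)
    (hHM : ∀ v, 20 / 151 ≤ v → v ≤ 2 / 15 → PtM rc e₀ t (9 / 2) v)
    (hA : ∀ v y, 4 / 27 ≤ v → v ≤ 1 / 6 → 0 < y → y ≤ 13 / 100 → PtS rc e₀ t (7 / 2) v y)
    (hAM : ∀ v, 4 / 27 ≤ v → v ≤ 1 / 6 → PtM rc e₀ t (7 / 2) v)
    {N : ℕ} {u : Fin N → ℝ}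
    (h9 : ∀ ι : Fin 9 → Fin N, Function.Injective ι → Antitone (u ∘ ι) →
      (∀ i, 13 / 100 ≤ u (ι i)) → CovM rc e₀ t u (fun _ => 1))
    (hu : ∀ j, 0 < u j) (hs : ∑ j, u j ≤ 4 / 3) (h6 : ∀ j, u j ≤ 1 / 6)
    (hk : (Finset.univ.filter fun j => 13 / 100 < u j).card ≤ 7 ∨
      (Finset.univ.filter fun j => 4 / 27 < u j).card ≤ 3) :
    CovM rc e₀ t u (fun _ => 1) := by
  classical
  obtain ⟨B, hB⟩ : ∃ B, B = Finset.univ.filter fun j => 13 / 100 < u j := ⟨_, rfl⟩
  rcases le_or_gt 9 B.card with h | h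
  · -- nine big lumps
    obtain ⟨k, ι, hι, hanti, hmem⟩ := exists_sorted u B
    have hkB : k = B.card := by
      have : B = Finset.univ.image ι := by
        ext j
        simp [hmem j]
      rw [this, Finset.card_image_of_injective _ hι, Finset.card_univ, Fintype.card_fin]
    have hk9 : 9 ≤ k := by omega
    refine h9 (ι ∘ Fin.castLE hk9) (hι.comp (Fin.castLE_injective hk9)) ?_ ?_
    · intro a b hab
      exact hanti (by
        show Fin.castLE hk9 a ≤ Fin.castLE hk9 b
        exact hab)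
    · intro i
      have h1 : ι (Fin.castLE hk9 i) ∈ B := (hmem _).2 ⟨_, rfl⟩
      rw [hB] at h1
      exact (Finset.mem_filter.1 h1).2.le
  · -- at most eight
    let l : Fin N → ℝ := fun j => if u j ≤ 4 / 27 then 9 / 2 else 7 / 2
    have hl : ∀ j, 0 < l j := by
      intro j
      show 0 < (if u j ≤ 4 / 27 then (9 / 2 : ℝ) else 7 / 2)
      split_ifs <;> norm_num
    refine cov_near hK0 (y₀ := 13 / 100) (fun y h0 h1 => hEy y h0 (by linarith)) hu hs l hl
      ?_ ?_ ?_
    · rw [← hB]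
      have e : ∀ j ∈ B, 1 / (2 * l j) = 1 / 9 + 2 / 63 * (if 4 / 27 < u j then (1 : ℝ) else 0) := by
        intro j _
        show 1 / (2 * (if u j ≤ 4 / 27 then (9 / 2 : ℝ) else 7 / 2)) = _
        rcases le_or_gt (u j) (4 / 27) with h1 | h1
        · rw [if_pos h1, if_neg (not_lt.2 h1)]; norm_num
        · rw [if_neg (not_le.2 h1), if_pos h1]; norm_num
      rw [Finset.sum_congr rfl e, Finset.sum_add_distrib, Finset.sum_const, ← Finset.mul_sum,
        Finset.sum_boole, nsmul_eq_mul]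
      have hf : B.filter (fun j => 4 / 27 < u j) = Finset.univ.filter fun j => 4 / 27 < u j := by
        rw [hB]
        ext j
        simp only [Finset.mem_filter, Finset.mem_univ, true_and]
        constructor
        · exact fun h => h.2
        · intro h
          exact ⟨by linarith, h⟩
      have hm1 : (B.filter (fun j => 4 / 27 < u j)).card ≤ B.card := Finset.card_filter_le _ _
      rw [← hB, ← hf] at hk
      have hb8 : (B.card : ℝ) ≤ 8 := by
        have : B.card ≤ 8 := by omega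
        exact_mod_cast this
      have hm1' : ((B.filter (fun j => 4 / 27 < u j)).card : ℝ) ≤ B.card := by exact_mod_cast hm1
      rcases hk with hk | hk
      · have hk' : (B.card : ℝ) ≤ 7 := by exact_mod_cast hk
        linarith
      · have hk' : ((B.filter (fun j => 4 / 27 < u j)).card : ℝ) ≤ 3 := by exact_mod_cast hk
        linarith
    · intro j hj
      show PtM rc e₀ t (if u j ≤ 4 / 27 then 9 / 2 else 7 / 2) (u j)
      rcases le_or_gt (u j) (4 / 27) with h1 | h1
      · rw [if_pos h1]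
        rcases le_total (u j) (20 / 151) with h2 | h2
        · exact (hEy _ (hu j) h2).ptM (hu j) (by linarith)
        rcases le_total (u j) (2 / 15) with h3 | h3
        · exact hHM _ h2 h3
        · exact (hEz _ h3 h1).ptM (hu j) (by linarith)
      · rw [if_neg (not_le.2 h1)]
        exact hAM _ h1.le (h6 j)
    · intro j hj y hy hy1
      show PtS rc e₀ t (if u j ≤ 4 / 27 then 9 / 2 else 7 / 2) (u j) y
      rcases le_or_gt (u j) (4 / 27) with h1 | h1
      · rw [if_pos h1]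
        rcases le_total (u j) (20 / 151) with h2 | h2
        · exact (hEy _ (hu j) h2).ptS (hu j) (by linarith)
        rcases le_total (u j) (2 / 15) with h3 | h3
        · exact hH _ _ h2 h3 hy hy1
        · exact (hEz _ h3 h1).ptS (hu j) (by linarith)
      · rw [if_neg (not_le.2 h1)]
        exact hA _ _ h1.le (h6 j) hy hy1

end Crest.Agent.R017.CovNear177
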