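import Crest.Agent.R017.Five_645
import Crest.Agent.R017.C1w1b_61
import Crest.Agent.R017.C1win_393
import Crest.Agent.R017.C1ch_744

/-!
# Row 17, section D: the points with lumps `v ∈ [20/151, 2/15]` (helper645)

For such a `v` the mixture `2/(3 v) > 5` copies of `v` is not available (393). Instead:

* `holeM` : `(5 copies of v; 2/3 - 5 v; 1/6 - t/2)`
* `hole` : `(a copies of v, (2/3 - a v)/c copies of c; 0; 1/6 - t/2)`, `a ≥ 9/2` (`a = 5` for
  `c ≤ 1/8`, `a = 5 (1 - b)` with a share `b ≤ 3/50` of `{c^6}` for `1/8 ≤ c ≤ 13/100`).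
* `long_five` : `{v^5 | f, g}`, total `≤ 5/6 + v/16`.
-/

set_option autoImplicit false

noncomputable section

namespace Crest.Agent.R017.Hole645

open Crest.Agent.R017.ER911 Crest.Agent.R017.Hull741 Crest.Agent.R017.CovM59
open Crest.Agent.R017.SC777 Crest.Agent.R017.ExpC702 Crest.Agent.R017.ColG59
open Crest.Agent.R017.C1S744 Crest.Agent.R017.Ey645 Crest.Agent.R017.Five645

variable {r s rc : EF} {d μ : ℝ}

/-- lumps of two lengths -/
theorem rep2 (v c : ℝ) (a b : ℕ) :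
    (∑ j : Fin 2, Multiset.replicate ((![a, b] : Fin 2 → ℕ) j) ((![v, c] : Fin 2 → ℝ) j)) =
      Multiset.replicate a v + Multiset.replicate b c := by
  simp [Fin.sum_univ_two]

theorem pos2 {v c : ℝ} (hv : 0 ≤ v) (hc : 0 ≤ c) : ∀ j, 0 ≤ (![v, c] : Fin 2 → ℝ) j := by
  intro j
  fin_cases j
  · exact hv
  · exact hc

/-- a column with lumps of the first length only -/
theorem col2a (C : ExpC r rc) {q : ℕ} {v c h F e₀ A : ℝ} (hv : 0 ≤ v) (hc : 0 ≤ c)
    (H : Sid r 1 q v h F) (hF : F ≤ e₀) (hA : 0 ≤ A) (hAh : A ≤ h) :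
    Col rc e₀ ![v, c] ![q, 0] 0 A := by
  refine col_of_compl C (pos2 hv hc) le_rfl hA fun f g hf hg h1 _ => ?_
  rw [rep2, Multiset.replicate_zero, add_zero]
  intro κ' h0' h1'
  have := H (Multiset.replicate q v) f g (Multiset.card_replicate _ _)
    (fun z hz => by rw [Multiset.eq_of_mem_replicate hz]; exact ⟨hv, le_rfl⟩) hf hg
    (by linarith) κ' h0' h1'
  linarith

/-- a column with lumps of the second length only -/
theorem col2b (C : ExpC r rc) {q : ℕ} {v c h F e₀ A : ℝ} (hv : 0 ≤ v) (hc : 0 ≤ c)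
    (H : Sid r 1 q c h F) (hF : F ≤ e₀) (hA : 0 ≤ A) (hAh : A ≤ h) :
    Col rc e₀ ![v, c] ![0, q] 0 A := by
  refine col_of_compl C (pos2 hv hc) le_rfl hA fun f g hf hg h1 _ => ?_
  rw [rep2, Multiset.replicate_zero, zero_add]
  intro κ' h0' h1'
  have := H (Multiset.replicate q c) f g (Multiset.card_replicate _ _)
    (fun z hz => by rw [Multiset.eq_of_mem_replicate hz]; exact ⟨hc, le_rfl⟩) hf hg
    (by linarith) κ' h0' h1'
  linarith

theorem lossv (hd : 0 ≤ d) (hμ2 : 9 * μ ≤ d) {v e₀ : ℝ} (hv2 : v ≤ 2 / 15)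
    (he : 4 / 3 * d - μ ≤ e₀) : 6 * d * v ≤ e₀ := by
  have : d * v ≤ d * (2 / 15) := mul_le_mul_of_nonneg_left hv2 hd
  linarith

/-- the column `{v^5, c^j | g}` from `five` -/
theorem col5 (C : ExpC r rc) (R : ExpRules (7 / 8 + d) r s) (L : ExpLv (7 / 8 + d) r)
    (hd : 0 ≤ d) (hμ2 : 9 * μ ≤ d) {v c e₀ A : ℝ} {j : ℕ} (hv : 20 / 151 ≤ v) (hv2 : v ≤ 2 / 15)
    (hc : 0 ≤ c) (he : 4 / 3 * d - μ ≤ e₀) (hA : 0 ≤ A) (hAh : j * c + A ≤ 24 / 25 * v) :
    Col rc e₀ ![v, c] ![5, j] 0 A := by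
  have hv0 : 0 < v := by linarith
  refine col_of_compl C (pos2 hv0.le hc) le_rfl hA fun f g hf hg h1 _ => ?_
  rw [rep2]
  intro κ' h0' h1'
  have hsV : (Multiset.replicate j c).sum = j * c := by
    rw [Multiset.sum_replicate, nsmul_eq_mul]
  have hsY : (Multiset.replicate 5 v).sum = 5 * v := by
    rw [Multiset.sum_replicate, nsmul_eq_mul]; norm_num
  have key := five R L hd (κ := 1) (w := v) (ξ := 24 / 25 * v) (b := f) (b' := g) (F := e₀)
    (V := Multiset.replicate j c) (Y := Multiset.replicate 5 v) hv0 (by linarith) (by linarith)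
    (by linarith) (by linarith) (by linarith)
    (fun y hy => by rw [Multiset.eq_of_mem_replicate hy]; exact hc)
    (fun y hy => by rw [Multiset.eq_of_mem_replicate hy]; exact ⟨hv0.le, le_rfl⟩)
    (Multiset.card_replicate _ _) hf hg (by rw [hsV]; linarith) (lossv hd hμ2 hv2 he) κ'
    h0' h1'
  rw [add_comm (Multiset.replicate 5 v), Multiset.sum_add, hsV, hsY]
  rw [hsV, hsY] at key
  linarith

/-- the long five -/
theorem sid5l (R : ExpRules (7 / 8 + d) r s) (L : ExpLv (7 / 8 + d) r) (hd : 0 ≤ d)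
    (hμ2 : 9 * μ ≤ d) {v : ℝ} (hv : 4 / 33 ≤ v) (hv2 : v ≤ 2 / 15) :
    Sid r 1 5 v (5 / 6 - 5 * v + v / 16) (4 / 3 * d - μ) := by
  have := C161.idl5vF R L hd (w := v) (κ := 1) hμ2 (by linarith) (by linarith) (by linarith)
  have e : (5 / 6 * 1 - 5 * v + v / 16 : ℝ) = 5 / 6 - 5 * v + v / 16 := by ring
  rw [e, mul_one] at this
  exact this

/-- `{v^5 | f, g}` of total `≤ 5/6 + v/16` (741's `MCol`) -/
theorem long_five (C : ExpC r rc) (R : ExpRules (7 / 8 + d) r s) (L : ExpLv (7 / 8 + d) r)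
    (hd : 0 ≤ d) (hμ2 : 9 * μ ≤ d) {v e₀ : ℝ} (hv : 4 / 33 ≤ v) (hv2 : v ≤ 2 / 15)
    (he : 4 / 3 * d - μ ≤ e₀) : ∀ f g : ℝ, 0 ≤ f → 0 ≤ g →
      (Multiset.replicate 5 v).sum + f + g ≤ 5 / 6 + v / 16 →
      rc 1 (Multiset.replicate 5 v) f g ≤ 1 + ((Multiset.replicate 5 v).sum + f + g) + e₀ := by
  intro f g hf hg h
  have hv0 : 0 ≤ v := by linarith
  have hsY : (Multiset.replicate 5 v).sum = 5 * v := by
    rw [Multiset.sum_replicate, nsmul_eq_mul]; norm_num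
  refine C.le 1 _ f g _ zero_le_one
    ⟨fun y hy => by rw [Multiset.eq_of_mem_replicate hy]; exact hv0, hf, hg⟩ ?_
  intro κ' h0' h1'
  have := sid5l R L hd hμ2 hv hv2 (Multiset.replicate 5 v) f g (Multiset.card_replicate _ _)
    (fun z hz => by rw [Multiset.eq_of_mem_replicate hz]; exact ⟨hv0, le_rfl⟩) hf hg
    (by rw [hsY] at h; linarith) κ' h0' h1'
  linarith

/-- **five copies of `v` and Möbius mass** -/
theorem holeM (C : ExpC r rc) (R : ExpRules (7 / 8 + d) r s) (L : ExpLv (7 / 8 + d) r)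
    (hd : 0 ≤ d) (hμ2 : 9 * μ ≤ d) {v t e₀ : ℝ} (hv : 20 / 151 ≤ v) (hv2 : v ≤ 2 / 15)
    (ht : 0 ≤ t) (ht3 : t ≤ 1 / 3) (he : 4 / 3 * d - μ ≤ e₀) :
    ((fun _ => 5, 2 / 3 - 5 * v, 1 / 6 - t / 2) : Mon 1) ∈ Hull (Col rc e₀ (fun _ : Fin 1 => v)) := by
  have hv0 : 0 ≤ v := by linarith
  have hcol : Col rc e₀ (fun _ : Fin 1 => v) (fun _ => 5) (2 / 3 - 5 * v) (1 / 6 - t / 2) := by
    refine col_of_compl C (fun _ => hv0) (by linarith) (by linarith) fun f g hf hg h1 _ => ?_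
    intro κ' h0' h1'
    have e : (∑ j : Fin 1, Multiset.replicate ((fun _ : Fin 1 => 5) j) ((fun _ : Fin 1 => v) j)) =
        Multiset.replicate 5 v := by simp
    rw [e]
    have := sid5l R L hd hμ2 (by linarith) hv2 (Multiset.replicate 5 v) f g
      (Multiset.card_replicate _ _)
      (fun z hz => by rw [Multiset.eq_of_mem_replicate hz]; exact ⟨hv0, le_rfl⟩) hf hg
      (by linarith) κ' h0' h1'
    linarith
  have := subset_hull (Id := Col rc e₀ (fun _ : Fin 1 => v)) hcol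
  have e : (pt (fun _ : Fin 1 => 5) (2 / 3 - 5 * v) (1 / 6 - t / 2) : Mon 1) =
      (fun _ => 5, 2 / 3 - 5 * v, 1 / 6 - t / 2) := by
    unfold pt
    refine Prod.ext ?_ rfl
    funext j
    norm_num
  rw [e] at this
  exact this

/-- amplifier shares: scaling of the capacities -/
theorem share {t c : ℝ} (ht : 0 ≤ t) (ht3 : t ≤ 1 / 3) (hc : 1 / 6 ≤ c) :
    ∃ lam : ℝ, 0 ≤ lam ∧ lam ≤ 1 ∧ lam * c = 1 / 6 - t / 2 := by
  have hcpos : 0 < c := by linarith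
  refine ⟨(1 / 6 - t / 2) / c, div_nonneg (by linarith) hcpos.le, ?_, by field_simp⟩
  rw [div_le_one hcpos]; linarith

/-- small `c`: `a = 5` -/
theorem hole_small (C : ExpC r rc) (R : ExpRules (7 / 8 + d) r s) (L : ExpLv (7 / 8 + d) r)
    (hd : 0 ≤ d) (hμ2 : 9 * μ ≤ d) {v c t e₀ : ℝ} (hv : 20 / 151 ≤ v) (hv2 : v ≤ 2 / 15)
    (hc : 0 < c) (hc1 : c ≤ 1 / 8) (ht : 0 ≤ t) (ht3 : t ≤ 1 / 3) (he : 4 / 3 * d - μ ≤ e₀) :
    ((![5, (2 / 3 - 5 * v) / c], 0, 1 / 6 - t / 2) : Mon 2) ∈ Hull (Col rc e₀ ![v, c]) := by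
  have hv0 : 0 ≤ v := by linarith
  -- number of copies of `c`
  obtain ⟨j, hj⟩ : ∃ j : ℕ, j = ⌊24 / 25 * v / c⌋₊ := ⟨_, rfl⟩
  have hx0 : 0 ≤ 24 / 25 * v / c := div_nonneg (by linarith) hc.le
  have hj1 : (j : ℝ) ≤ 24 / 25 * v / c := by rw [hj]; exact Nat.floor_le hx0
  have hj2 : 24 / 25 * v / c < j + 1 := by rw [hj]; exact Nat.lt_floor_add_one _
  have hjc : (j : ℝ) * c ≤ 24 / 25 * v := by
    rw [le_div_iff₀ hc] at hj1; exact hj1
  have hjc2 : 24 / 25 * v < (j + 1) * c := by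
    rw [div_lt_iff₀ hc] at hj2; exact hj2
  have hj0 : (1 : ℝ) ≤ j := by
    have : 0 < j := by
      rcases Nat.eq_zero_or_pos j with h | h
      · rw [h] at hjc2
        push_cast at hjc2
        linarith
      · exact h
    exact_mod_cast this
  have hjc3 : 12 / 25 * v < j * c := by
    have : 1 * c ≤ j * c := mul_le_mul_of_nonneg_right hj0 hc.le
    linarith
  have hjcpos : 0 < j * c := by linarith
  -- the weight
  obtain ⟨ε, hε⟩ : ∃ ε : ℝ, ε = (2 / 3 - 5 * v) / (j * c) := ⟨_, rfl⟩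
  have hεjc : ε * (j * c) = 2 / 3 - 5 * v := by rw [hε]; field_simp
  have hε0 : 0 ≤ ε := by rw [hε]; exact div_nonneg (by linarith) hjcpos.le
  have hε1 : ε ≤ 1 / 14 := by
    rw [hε, div_le_iff₀ hjcpos]; linarith
  have hA5 : 0 ≤ 5 / 6 - 5 * v + v / 16 := by linarith
  have hA6 : 0 ≤ 24 / 25 * v - j * c := by linarith
  obtain ⟨lam, hl0, hl1, hl⟩ := share ht ht3
    (c := (1 - ε) * (5 / 6 - 5 * v + v / 16) + ε * (24 / 25 * v - j * c)) (by
      have h1 : ε * (5 / 6 - 5 * v + v / 16 - 24 / 25 * v) ≤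
          1 / 14 * (5 / 6 - 5 * v + v / 16 - 24 / 25 * v) :=
        mul_le_mul_of_nonneg_right hε1 (by linarith)
      have h2 : (1 - ε) * (5 / 6 - 5 * v + v / 16) + ε * (24 / 25 * v - j * c) =
          (5 / 6 - 5 * v + v / 16) - ε * (5 / 6 - 5 * v + v / 16 - 24 / 25 * v) - ε * (j * c) := by
        ring
      rw [h2, hεjc]
      linarith)
  refine ⟨2, ![1 - ε, ε], ![![5, 0], ![5, j]], ![0, 0],
    ![lam * (5 / 6 - 5 * v + v / 16), lam * (24 / 25 * v - j * c)], ?_, ?_, ?_, ?_⟩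
  · intro q
    fin_cases q
    · show 0 ≤ 1 - ε
      linarith
    · exact hε0
  · simp [Fin.sum_univ_two]
  · intro q
    fin_cases q
    · exact col2a C hv0 hc.le (sid5l R L hd hμ2 (by linarith) hv2) he (mul_nonneg hl0 hA5)
        (mul_le_of_le_one_left hA5 hl1)
    · refine col5 C R L hd hμ2 hv hv2 hc.le he (mul_nonneg hl0 hA6) ?_
      have := mul_le_of_le_one_left hA6 hl1
      show (j : ℝ) * c + lam * (24 / 25 * v - j * c) ≤ 24 / 25 * v
      linarith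
  · refine Prod.ext ?_ (Prod.ext ?_ ?_)
    · funext i
      fin_cases i
      · simp [Fin.sum_univ_two]
        ring
      · simp only [Fin.sum_univ_two, Fin.mk_one, Matrix.cons_val_one, Matrix.cons_val_zero]
        rw [div_eq_iff hc.ne', ← hεjc]
        push_cast
        ring
    · simp [Fin.sum_univ_two]
    · simp only [Fin.sum_univ_two, Matrix.cons_val_zero, Matrix.cons_val_one]
      rw [← hl]; ring

/-- `c` near `v` -/
theorem hole_near (C : ExpC r rc) (R : ExpRules (7 / 8 + d) r s) (L : ExpLv (7 / 8 + d) r)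
    (hd : 0 ≤ d) (hμ2 : 9 * μ ≤ d) {v c t e₀ : ℝ} (hv : 20 / 151 ≤ v) (hv2 : v ≤ 2 / 15)
    (hc : 1 / 8 ≤ c) (hc1 : c ≤ 13 / 100) (ht : 0 ≤ t) (ht3 : t ≤ 1 / 3)
    (he : 4 / 3 * d - μ ≤ e₀) : ∃ a : ℝ, 9 / 2 ≤ a ∧ a * v ≤ 2 / 3 ∧
      ((![a, (2 / 3 - a * v) / c], 0, 1 / 6 - t / 2) : Mon 2) ∈ Hull (Col rc e₀ ![v, c]) := by
  have hv0 : 0 ≤ v := by linarith
  have hc0 : 0 < c := by linarith
  have hD : 0 < 6 * c - 5 * v := by linarith
  obtain ⟨b, hb⟩ : ∃ b : ℝ, b = (2 / 3 - 5 * v) / (6 * c - 5 * v) := ⟨_, rfl⟩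
  have hbc : b * (6 * c - 5 * v) = 2 / 3 - 5 * v := by rw [hb]; field_simp
  have hb0 : 0 ≤ b := by rw [hb]; exact div_nonneg (by linarith) hD.le
  have hb1 : b ≤ 3 / 50 := by
    rw [hb, div_le_iff₀ hD]; linarith
  -- the two sides
  have S5 := sid5l (r := r) (s := s) R L hd hμ2 (v := v) (by linarith) hv2
  have T6 : Sid r 1 6 c (10 / 9 - 25 / 3 * c) (4 / 3 * d - μ) := by
    have hk1 : 61 / 8 ≤ 1 / c := by rw [le_div_iff₀ hc0]; linarith
    have hk2 : 1 / c ≤ 33 / 4 := by rw [div_le_iff₀ hc0]; linarith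
    have hcc : c * (1 / c) = 1 := by field_simp
    have h := C1W393.idl6s (r := r) (s := s) (w := c) (k := 1 / c) (F := 4 / 3 * d - μ) R L hd hc0
      hk1 hk2 (by
        have e1 : c * (2 * d * (3 + 10 / 9 * (1 / c - 15 / 2))) =
            2 * d * (3 * c + 10 / 9 * (c * (1 / c)) - 25 / 3 * c) := by ring
        rw [e1, hcc]
        have : d * (1 / 8) ≤ d * c := mul_le_mul_of_nonneg_left hc hd
        linarith)
    have e2 : c * (10 / 9 * (1 / c - 15 / 2)) = 10 / 9 * (c * (1 / c)) - 25 / 3 * c := by ring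
    rw [e2, hcc, mul_one] at h
    exact h
  have hA5 : 0 ≤ 5 / 6 - 5 * v + v / 16 := by linarith
  have hB6 : 0 ≤ 10 / 9 - 25 / 3 * c := by linarith
  obtain ⟨lam, hL0, hL1, hL⟩ := share ht ht3
    (c := (1 - b) * (5 / 6 - 5 * v + v / 16) + b * (10 / 9 - 25 / 3 * c)) (by
      have h1 : b * (7 / 3 * c - 5 / 18 + v / 16) ≤ 3 / 50 * (7 / 3 * c - 5 / 18 + v / 16) :=
        mul_le_mul_of_nonneg_right hb1 (by linarith)
      have h2 : (1 - b) * (5 / 6 - 5 * v + v / 16) + b * (10 / 9 - 25 / 3 * c) =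
          5 / 6 - 5 * v + v / 16 - b * (6 * c - 5 * v) - b * (7 / 3 * c - 5 / 18 + v / 16) := by
        ring
      rw [h2, hbc]
      linarith)
  have hav : 5 * (1 - b) * v ≤ 2 / 3 := by
    have : 0 ≤ b * v := mul_nonneg hb0 hv0
    linarith
  refine ⟨5 * (1 - b), by linarith, hav, ?_⟩
  refine ⟨2, ![1 - b, b], ![![5, 0], ![0, 6]], ![0, 0],
    ![lam * (5 / 6 - 5 * v + v / 16), lam * (10 / 9 - 25 / 3 * c)], ?_, ?_, ?_, ?_⟩
  · intro q
    fin_cases q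
    · show 0 ≤ 1 - b
      linarith
    · exact hb0
  · simp [Fin.sum_univ_two]
  · intro q
    fin_cases q
    · exact col2a C hv0 hc0.le S5 he (mul_nonneg hL0 hA5) (mul_le_of_le_one_left hA5 hL1)
    · exact col2b C hv0 hc0.le T6 he (mul_nonneg hL0 hB6) (mul_le_of_le_one_left hB6 hL1)
  · refine Prod.ext ?_ (Prod.ext ?_ ?_)
    · funext i
      fin_cases i
      · simp [Fin.sum_univ_two]
        ring
      · simp only [Fin.sum_univ_two, Fin.mk_one, Matrix.cons_val_one, Matrix.cons_val_zero]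
        rw [div_eq_iff hc0.ne']
        push_cast
        linarith
    · simp [Fin.sum_univ_two]
    · simp only [Fin.sum_univ_two, Matrix.cons_val_zero, Matrix.cons_val_one]
      rw [← hL]; ring

/-- **the points `P(v, c)`** (177's form) -/
theorem hole (C : ExpC r rc) (R : ExpRules (7 / 8 + d) r s) (L : ExpLv (7 / 8 + d) r)
    (hd : 0 ≤ d) (hμ2 : 9 * μ ≤ d) {v c t e₀ : ℝ} (hv : 20 / 151 ≤ v) (hv2 : v ≤ 2 / 15)
    (hc : 0 < c) (hc1 : c ≤ 13 / 100) (ht : 0 ≤ t) (ht3 : t ≤ 1 / 3)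
    (he : 4 / 3 * d - μ ≤ e₀) : ∃ a : ℝ, 9 / 2 ≤ a ∧ a * v ≤ 2 / 3 ∧
      ((![a, (2 / 3 - a * v) / c], 0, 1 / 6 - t / 2) : Mon 2) ∈ Hull (Col rc e₀ ![v, c]) := by
  rcases le_total c (1 / 8) with h | h
  · exact ⟨5, by norm_num, by linarith, hole_small C R L hd hμ2 hv hv2 hc h ht ht3 he⟩
  · exact hole_near C R L hd hμ2 hv hv2 h hc1 ht ht3 he

end Crest.Agent.R017.Hole645
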