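import Crest.Agent.R017.Ey2_645
import Crest.Agent.R017.Hole_645
import Crest.Agent.R017.CovLow_177
import Crest.Agent.R017.CovMap_702

/-!
# Row 17, T.2: `CovMap702.Single (13/100) (4/27) (9/2)` (helper645)
-/

set_option autoImplicit false

noncomputable section

namespace Crest.Agent.R017.Sgl1_645

open Crest.Agent.R017.CovMap702 Crest.Agent.R017.CovNear177

/-- **the single lumps in `[13/100, 4/27]`** -/
theorem s1 : Single (13 / 100) (4 / 27) (9 / 2) := by
  intro d e₀ t P r s s₀ rc bc B A hA1 hA2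
  have hA0 : 0 < A := by linarith
  have ht3 : t ≤ 1 / 3 := by linarith [P.t3]
  have he : 4 / 3 * d - t / 2 ≤ e₀ := by rw [P.e1]
  have hμ2 : 9 * (t / 2) ≤ d := by linarith [P.t2]
  have out : A ≤ 20 / 151 ∨ 2 / 15 ≤ A →
      PtM rc e₀ t (9 / 2) A ∧ ∀ y : ℝ, 0 < y → y ≤ 13 / 100 → PtS rc e₀ t (9 / 2) A y := by
    intro h
    have hE : PtE rc e₀ t A := Ey2_645.ey2 (μ := t / 2) B.cpl B.rules B.lv P.d0.le
      (by linarith [P.t0]) (by linarith [P.t4]) hμ2 hA0 hA2 h P.t0.le ht3 he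
    exact ⟨hE.ptM hA0 (by linarith), fun y _ _ => hE.ptS hA0 (by linarith)⟩
  rcases le_total A (20 / 151) with h1 | h1
  · exact out (Or.inl h1)
  rcases le_total (2 / 15) A with h2 | h2
  · exact out (Or.inr h2)
  · refine ⟨⟨5, by norm_num, by linarith, ?_⟩, fun y hy hy1 => ?_⟩
    · exact Hole645.holeM (μ := t / 2) B.cpl B.rules B.lv P.d0.le hμ2 h1 h2 P.t0.le ht3 he
    · exact Hole645.hole (μ := t / 2) B.cpl B.rules B.lv P.d0.le hμ2 h1 h2 hy hy1 P.t0.le ht3 he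

end Crest.Agent.R017.Sgl1_645
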