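import Crest.Agent.R017.CorPt_744
import Crest.Agent.R017.C5Q_720
import Crest.Agent.R017.CovMap_702

/-!
# Row 17, T.2: `CovMap702.Single (4/27) (1/6) (7/2)` (helper744)
-/

set_option autoImplicit false

noncomputable section

namespace Crest.Agent.R017.Sgl2_744

open Crest.Agent.R017.ER911 Crest.Agent.R017.CovMap702 Crest.Agent.R017.CovNear177
  Crest.Agent.R017.CorPt744 Crest.Agent.R017.CovNine358 Crest.Agent.R017.ExpC702

variable {d : ℝ} {r s rc : EF}

/-- 720's (C5Q) for three equal lumps and a multiset -/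
theorem extQ (C : ExpC r rc) (R : ExpRules (7 / 8 + d) r s) (Lv : ExpLv (7 / 8 + d) r)
    (hd : 0 ≤ d) {e₀ : ℝ} (he : d ≤ e₀) : ExtQ rc e₀ := by
  intro A Q hA hA6 hQ hQA h1 h2 h3
  have hA0 : 0 ≤ A := by linarith
  refine mcol_of C (fun y hy => ?_) fun f g hf hg hN => ?_
  · rcases Multiset.mem_add.1 hy with h | h
    · exact nn1 hA0 y h
    · rcases Multiset.mem_add.1 h with h | h
      · exact hQ y h
      · simp only [Multiset.insert_eq_cons, Multiset.mem_cons, Multiset.mem_singleton] at h
        rcases h with rfl | rfl | rfl <;> linarith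
  · have hs : ({A} + (Q + {A, A, A}) : Multiset ℝ).sum = A + (A + A + A + Q.sum) := by
      simp only [Multiset.sum_add, Multiset.sum_singleton, Multiset.insert_eq_cons,
        Multiset.sum_cons]
      ring
    intro κ' h0 h1'
    rw [hs] at hN
    have := C5_720.C5Q R Lv hd (κ := 1) (V := {A}) (Q := Q) (b₁ := A) (b₂ := A) (b₃ := A)
      (m := f) (a := g) (nn1 hA0) (by rw [Multiset.sum_singleton]; linarith) hQ rfl hQA le_rfl
      le_rfl (by linarith) (by linarith) (by linarith) (by linarith)
      (by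
        rcases le_total (9 * A + 6 * Q.sum) (2 * 1) with h | h
        · exact Or.inr h
        · exact Or.inl (by linarith))
      (by linarith) hf hg (by rw [Multiset.sum_singleton]; linarith) κ' h0 h1'
    rw [hs]
    rw [Multiset.sum_singleton] at this
    have e : ({A} + (Q + (A ::ₘ {A, A})) : Multiset ℝ) = {A} + (Q + {A, A, A}) := rfl
    rw [e] at this
    linarith

/-- **the single lumps in `[4/27, 1/6]`** -/
theorem s2 : Single (4 / 27) (1 / 6) (7 / 2) := by
  intro d e₀ t P r s s₀ rc bc B A hA1 hA2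
  have ht3 : t ≤ 1 / 3 := by linarith [P.t3]
  have he := P.de
  have hd := P.d0.le
  refine ⟨(corM B.cpl B.rules hd (by linarith) P.t0.le ht3 hA1 hA2).mono (by norm_num),
    fun y hy hy1 => ?_⟩
  exact corS B.cpl B.rules B.lv hd (by linarith)
    (extQ B.cpl B.rules B.lv hd (by linarith)) P.t0.le ht3 hA1 hA2 hy hy1

end Crest.Agent.R017.Sgl2_744
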