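import Crest.Agent.R017.CovMap2_702
import Crest.Agent.R017.EyP_645
import Crest.Agent.R017.Sgl1_645
import Crest.Agent.R017.Sgl2_744
import Crest.Agent.R017.CovSing_741
import Crest.Agent.R017.CovSing3_741

/-!
# Row 17, T.2 : the certificate of the absolute boxes from the trees (helper702)
-/

set_option autoImplicit false

noncomputable section

namespace Crest.Agent.R017.CovEnd702

open Crest.Agent.R017.ER911 Crest.Agent.R017.CovMap702 Crest.Agent.R017.Prov71
  Crest.Agent.R017.CovM59 Crest.Agent.R017.Cone59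

/-- the points of the single lumps -/
theorem sgl : Sgl lw := sgl_lw Sgl1_645.s1 Sgl2_744.s2 CovSing3741.single3 CovSing741.single4
  CovSing741.single5 CovSing741.single6

/-- the leaves from the trees -/
theorem leaves_of_trees (hT : ∀ k, 3 ≤ k → k ≤ 8 → CovMap702.Tree k) : Leaves where
  ey := EyP645.eyP
  s1 := Sgl1_645.s1
  s2 := Sgl2_744.s2
  s3 := CovSing3741.single3
  s4 := CovSing741.single4
  s5 := CovSing741.single5
  s6 := CovSing741.single6
  tree := hT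

/-- **the certificate of the absolute boxes from the trees** (direct form allowed) -/
theorem certA_of_trees (hT : ∀ k, 3 ≤ k → k ≤ 8 → TreeD lw k) {θ : ℝ} (hθ : 7 / 8 < θ)
    (hθ1 : θ < 1) : ∃ μ : ℝ, 0 < μ ∧ μ ≤ 1 / 12 ∧
      ∀ r s s₀ rc bc : EF, ProvE θ r s s₀ rc bc →
        TopC702.BoxAll θ μ (BxE986.AL (9 / 10) 1 w5) bc :=
  certA_of_w sgl EyP645.eyP hT hθ hθ1

/-- the coverage from the trees -/
theorem covAll_of_trees (hT : ∀ k, 3 ≤ k → k ≤ 8 → TreeD lw k) {θ : ℝ} (hθ : 7 / 8 < θ)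
    (hθ1 : θ < 1) : ∃ e₀ t μ : ℝ, 0 ≤ t ∧ t ≤ 1 / 3 ∧ 0 < μ ∧
      2 * e₀ + (2 * θ - 1) * t + μ ≤ b2 θ ∧ BoxAll702.CovAll θ e₀ t := by
  obtain ⟨d, rfl⟩ : ∃ d, θ = 7 / 8 + d := ⟨θ - 7 / 8, by ring⟩
  exact covAll_of_w sgl EyP645.eyP hT (by linarith) (by linarith)

end Crest.Agent.R017.CovEnd702
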