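import Mathlib

/-!
# Row 17, hcore : integer linear forms and Farkas certificates (helper74)

`Form` = list of integer coefficients in `x 0 = 1, x 1, x 2, …`; `far ctx φ (D, c)` checks that
`D φ - ∑ c_i ctx_i` is a nonnegative constant; `farN ctx c` checks that `∑ c_i ctx_i` is a negative
constant. All checks are evaluated by the kernel.
-/

set_option autoImplicit false

namespace Crest.Agent.R017.CovFar74

/-- a linear form in `x 0, x 1, …` -/
abbrev Form := List Int

/-- evaluation -/
noncomputable def ev : Form → (ℕ → ℝ) → ℝ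
  | [], _ => 0
  | c :: φ, x => (c : ℝ) * x 0 + ev φ (fun n => x (n + 1))

def add : Form → Form → Form
  | [], ψ => ψ
  | a :: φ, [] => a :: φ
  | a :: φ, b :: ψ => (a + b) :: add φ ψ

def smul (c : Int) : Form → Form
  | [] => []
  | a :: φ => (c * a) :: smul c φ

/-- `∑ c_i ctx_i` -/
def comb : List Nat → List Form → Form
  | [], _ => []
  | _ :: _, [] => []
  | 0 :: cs, _ :: ctx => comb cs ctx
  | (c + 1) :: cs, φ :: ctx => add (smul (Int.ofNat (c + 1)) φ) (comb cs ctx)

def allZero : Form → Bool
  | [] => true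
  | a :: φ => (a == 0) && allZero φ

/-- a nonnegative constant -/
def isNN : Form → Bool
  | [] => true
  | c :: φ => (decide (0 ≤ c)) && allZero φ

/-- a negative constant -/
def isNeg : Form → Bool
  | [] => false
  | c :: φ => (decide (c < 0)) && allZero φ

/-- Farkas certificate of `0 ≤ φ` -/
def far (ctx : List Form) (φ : Form) (w : Nat × List Nat) : Bool :=
  (decide (0 < w.1)) && isNN (add (smul (Int.ofNat w.1) φ) (smul (-1) (comb w.2 ctx)))

/-- Farkas certificate of infeasibility -/
def farN (ctx : List Form) (c : List Nat) : Bool := isNeg (comb c ctx)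

@[simp] theorem ev_nil (x : ℕ → ℝ) : ev [] x = 0 := rfl

@[simp] theorem ev_cons (c : Int) (φ : Form) (x : ℕ → ℝ) :
    ev (c :: φ) x = (c : ℝ) * x 0 + ev φ (fun n => x (n + 1)) := rfl

theorem ev_add (φ ψ : Form) (x : ℕ → ℝ) : ev (add φ ψ) x = ev φ x + ev ψ x := by
  induction φ generalizing ψ x with
  | nil => simp [add]
  | cons a φ ih =>
    cases ψ with
    | nil => simp [add]
    | cons b ψ => simp only [add, ev_cons, ih]; push_cast; ring

theorem ev_smul (c : Int) (φ : Form) (x : ℕ → ℝ) : ev (smul c φ) x = c * ev φ x := by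
  induction φ generalizing x with
  | nil => simp [smul]
  | cons a φ ih => simp only [smul, ev_cons, ih]; push_cast; ring

theorem ev_comb_nonneg (c : List Nat) (ctx : List Form) (x : ℕ → ℝ)
    (h : ∀ ψ ∈ ctx, 0 ≤ ev ψ x) : 0 ≤ ev (comb c ctx) x := by
  induction ctx generalizing c with
  | nil => cases c <;> simp [comb]
  | cons φ ctx ih =>
    have h1 : ∀ ψ ∈ ctx, 0 ≤ ev ψ x := fun ψ hψ => h ψ (List.mem_cons_of_mem _ hψ)
    cases c with
    | nil => simp [comb]
    | cons c cs =>
      cases c with
      | zero => simpa [comb] using ih cs h1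
      | succ c =>
        simp only [comb, ev_add, ev_smul]
        have h2 := h φ List.mem_cons_self
        have h3 := ih cs h1
        have h4 : (0 : ℝ) ≤ ((Int.ofNat (c + 1) : Int) : ℝ) := by
          simp only [Int.ofNat_eq_natCast, Int.cast_natCast]
          positivity
        have := mul_nonneg h4 h2
        linarith

theorem ev_allZero {φ : Form} (h : allZero φ = true) (x : ℕ → ℝ) : ev φ x = 0 := by
  induction φ generalizing x with
  | nil => simp
  | cons a φ ih =>
    simp only [allZero, Bool.and_eq_true, beq_iff_eq] at h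
    simp only [ev_cons]
    rw [h.1, ih h.2]
    simp

theorem ev_isNN {φ : Form} (h : isNN φ = true) {x : ℕ → ℝ} (hx : 0 ≤ x 0) : 0 ≤ ev φ x := by
  cases φ with
  | nil => simp
  | cons a φ =>
    simp only [isNN, Bool.and_eq_true, decide_eq_true_eq] at h
    simp only [ev_cons]
    rw [ev_allZero h.2]
    have : (0 : ℝ) ≤ a := by exact_mod_cast h.1
    have := mul_nonneg this hx
    linarith

theorem ev_isNeg {φ : Form} (h : isNeg φ = true) {x : ℕ → ℝ} (hx : 0 < x 0) : ev φ x < 0 := by
  cases φ with
  | nil => simp [isNeg] at h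
  | cons a φ =>
    simp only [isNeg, Bool.and_eq_true, decide_eq_true_eq] at h
    simp only [ev_cons]
    rw [ev_allZero h.2]
    have : (a : ℝ) < 0 := by exact_mod_cast h.1
    have := mul_neg_of_neg_of_pos this hx
    linarith

theorem far_sound {ctx : List Form} {φ : Form} {w : Nat × List Nat} (h : far ctx φ w = true)
    {x : ℕ → ℝ} (hx : 0 ≤ x 0) (hc : ∀ ψ ∈ ctx, 0 ≤ ev ψ x) : 0 ≤ ev φ x := by
  simp only [far, Bool.and_eq_true, decide_eq_true_eq] at h
  have h1 := ev_isNN h.2 hx
  rw [ev_add, ev_smul, ev_smul] at h1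
  have h2 := ev_comb_nonneg w.2 ctx x hc
  have h3 : (0 : ℝ) < ((Int.ofNat w.1 : Int) : ℝ) := by
    simp only [Int.ofNat_eq_natCast, Int.cast_natCast]
    exact_mod_cast h.1
  have h4 : 0 ≤ ((Int.ofNat w.1 : Int) : ℝ) * ev φ x := by
    push_cast at h1 ⊢
    linarith
  exact (mul_nonneg_iff_of_pos_left h3).1 h4

theorem farN_sound {ctx : List Form} {c : List Nat} (h : farN ctx c = true)
    {x : ℕ → ℝ} (hx : 0 < x 0) (hc : ∀ ψ ∈ ctx, 0 ≤ ev ψ x) : False :=
  absurd (ev_comb_nonneg c ctx x hc) (not_le.2 (ev_isNeg h hx))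

/-- the unit form `x i` -/
def e : ℕ → Form
  | 0 => [1]
  | i + 1 => 0 :: e i

theorem ev_e (i : ℕ) (x : ℕ → ℝ) : ev (e i) x = x i := by
  induction i generalizing x with
  | zero => simp [e]
  | succ i ih => simp [e, ih]

/-- the constant form -/
theorem ev_const (c : Int) (x : ℕ → ℝ) : ev [c] x = c * x 0 := by simp

/-- `∑_{i ∈ L} x (i + 1)` -/
def sf : List ℕ → Form
  | [] => []
  | i :: L => add (e (i + 1)) (sf L)

theorem ev_sf (L : List ℕ) (x : ℕ → ℝ) : ev (sf L) x = (L.map fun i => x (i + 1)).sum := by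
  induction L with
  | nil => simp [sf]
  | cons i L ih => simp [sf, ev_add, ev_e, ih]

/-- all forms of a list are certified -/
def fars (ctx : List Form) : List Form → List (Nat × List Nat) → Bool
  | [], _ => true
  | _ :: _, [] => false
  | φ :: Φ, w :: W => far ctx φ w && fars ctx Φ W

theorem fars_sound {ctx : List Form} {Φ : List Form} {W : List (Nat × List Nat)}
    (h : fars ctx Φ W = true) {x : ℕ → ℝ} (hx : 0 ≤ x 0) (hc : ∀ ψ ∈ ctx, 0 ≤ ev ψ x) :
    ∀ φ ∈ Φ, 0 ≤ ev φ x := by
  induction Φ generalizing W with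
  | nil => simp
  | cons φ Φ ih =>
    cases W with
    | nil => simp [fars] at h
    | cons w W =>
      simp only [fars, Bool.and_eq_true] at h
      intro ψ hψ
      rcases List.mem_cons.1 hψ with rfl | hψ
      · exact far_sound h.1 hx hc
      · exact ih h.2 ψ hψ

end Crest.Agent.R017.CovFar74
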