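import Crest.Agent.R017.CovDefs_499

/-!
# Row 17, hcore : coverage for `Σ u > 4/3` (helper770)

Family `1`, `θ = 7/8 + d`. Columns with an explicit loss `F` (besides `(7/6) d`):

* `ColF Y N F` : lumps `Y`, total length `N`, loss `F`
* `CovFk k` : **the statement to be proved for `k = 1 .. 10`** (pure reals): multiplicities
  `E n_j ≤ 1/2`, no exact multiplicities, no `τ`, no small class; `e = min (Σ u - 4/3) (1/6)`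
  (A) `2 E F + (3/2) (5/6 - E N) ≤ e/4`   (the left-over weight is the void column `N = 2/3`)
  (B) `2 E F + (3/4) (4/3 - 2 E |Y|) ≤ e/4`
-/

set_option autoImplicit false

namespace Crest.Agent.R017.CovF770

open Crest.Agent.R017.Cov499

/-- columns with loss `F` -/
inductive ColF : Multiset ℝ → ℝ → ℝ → Prop
  /-- T6 (T6F: `F > 0`), two big lumps in front; `Z`, `X` may be empty -/
  | t6 (y₁ y₂ : ℝ) (Z X : Multiset ℝ) (N F : ℝ) (hF : 0 ≤ F) (hs : 1 / 4 ≤ y₁ + y₂)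
      (h1 : N + X.sum ≤ 1 + F) (h2 : N + 3 / 4 * Z.sum ≤ 1 + F)
      (h3 : N ≤ 7 / 9 + 2 / 9 * (y₁ + y₂)) (h4 : y₁ + y₂ + 5 / 2 * Z.sum ≤ 1)
      (h5 : y₁ + y₂ + Z.sum + X.sum ≤ N) :
      ColF ({y₁, y₂} + Z + X) N F
  /-- one lump -/
  | one (y N : ℝ) (h0 : 4 * N ≤ 8 / 3 + 8 / 3 * y) (h3 : N ≤ 7 / 9 + 2 / 9 * y) (h4 : y ≤ 1)
      (h5 : y ≤ N) : ColF {y} N 0
  /-- three big lumps, RG -/
  | t3a (y₁ y₂ y₃ N : ℝ) (h1 : y₁ + y₂ + 2 * y₃ ≤ 1) (h2 : 49 * N ≤ 36 + 9 * (y₁ + y₂))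
      (h3 : 6 * N ≤ 5) (h5 : y₁ + y₂ + y₃ ≤ N) : ColF {y₁, y₂, y₃} N 0
  /-- three big lumps, levels (V1 with loss), `y₃` the smallest, `ξ` granular mass -/
  | v1 (y₁ y₂ y₃ ξ N F : ℝ) (hF : 0 ≤ F) (h31 : y₃ ≤ y₁) (h32 : y₃ ≤ y₂)
      (h1 : 6 + (y₁ + y₂ + y₃) ≤ 42 * ξ + 24 * F)
      (h2 : 2 * (y₁ + y₂ + y₃) + 3 * ξ + 3 / 4 * y₃ ≤ 2 + 3 * F)
      (h3 : 2 * ξ + (y₁ + y₂ + y₃) ≤ 1) (h4 : N ≤ y₁ + y₂ + y₃ + ξ)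
      (h5 : y₁ + y₂ + y₃ ≤ N) : ColF {y₁, y₂, y₃} N F
  /-- five lumps (720's C5 with loss) -/
  | c5 (a : ℝ) (W : Multiset ℝ) (N F : ℝ) (hF : 0 ≤ F) (ha : a ≤ 1 / 6)
      (hc : Multiset.card W = 4) (h1 : 27 * W.sum ≤ 16 + 72 * F) (hN : N ≤ 5 / 6)
      (h5 : a + W.sum ≤ N) : ColF ({a} + W) N F

/-- room (two-sided, divided by `4`) -/
noncomputable def e4 {k : ℕ} (u : Fin k → ℝ) : ℝ := min ((∑ j, u j) - 4 / 3) (1 / 6) / 4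

/-- coverage of one box with `Σ u ≥ 4/3` -/
def CovF {k : ℕ} (u : Fin k → ℝ) : Prop :=
  ∃ (M : ℕ) (p : Fin M → ℝ) (n : Fin M → Fin k → ℕ) (N F : Fin M → ℝ),
    (∀ q, 0 ≤ p q) ∧ ∑ q, p q ≤ 1 ∧ (∀ j, ∑ q, p q * (n q j : ℝ) ≤ 1 / 2) ∧
    (∀ q, ColF (lum u (n q)) (N q) (F q)) ∧
    2 * ∑ q, p q * F q + 3 / 2 * (5 / 6 - ∑ q, p q * N q - (1 - ∑ q, p q) * (2 / 3)) ≤ e4 u ∧
    2 * ∑ q, p q * F q + 3 / 4 * (4 / 3 - 2 * ∑ q, p q * (lum u (n q)).sum) ≤ e4 u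

/-- **the statement to be proved** for every `k` (`1 ≤ k ≤ 10`) -/
def CovFk (k : ℕ) : Prop :=
  ∀ u : Fin k → ℝ, Antitone u → (∀ j, 7 / 50 ≤ u j) → (∀ j, u j ≤ 1) → 4 / 3 ≤ ∑ j, u j →
    (∀ hk : 0 < k, ∑ j, u j - u ⟨k - 1, by omega⟩ ≤ 4 / 3) → NoNE u → CovF u

end Crest.Agent.R017.CovF770
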