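import Crest.Agent.R017.RGq_777

/-!
# Row 17, RG rule, exceptional class: the exponent side (helper590)

The exceptional class compares the side `Y = {y₁, y₂, y₃ | m, a}` with the replaced side
`Y° = {y₁ + y₂ - d₀, d₀, y₃ | m, a}`.

* `PremRG` : the premises (T'), (J), (T0), (R) of `rg` for the sub-sides of one side
* `ExpRGx` : the fields `bessx`, `rgx` of the exceptional class
* `T3a_core_x`, `T3a_rgx` : T3a from these fields, the same region as for class N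
-/

set_option autoImplicit false

noncomputable section

namespace Crest.Agent.R017.SC777

open Crest.Agent.R017.ER911

variable {d : ℝ} {r s s₀ : EF}

/-- the part of a state which the static lines use -/
structure StW (κ A B C m a K A₁ B₁ C₁ m₁ a₁ n₁ : ℝ) : Prop where
  κK : κ ≤ K
  sub : Sub3 A₁ B₁ C₁ m₁ a₁ A B C m a
  n1 : n₁ = A₁ + B₁ + C₁ + m₁ + a₁
  w1 : m₁ + a₁ ≤ 3 * C₁
  w2 : 3 * (m₁ + a₁) ≤ K
  w3 : 3 * (m₁ + a₁) ≤ n₁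
  w5 : 5 * n₁ + 4 * (m₁ + a₁) ≤ 5 * K

theorem St3.toW {κ A B C m a c μ F : ℝ} (H : T3H d κ A B C m a c μ F)
    {K A₁ B₁ C₁ m₁ a₁ n₁ : ℝ} (hS : St3 κ A B C m a K A₁ B₁ C₁ m₁ a₁ n₁) :
    StW κ A B C m a K A₁ B₁ C₁ m₁ a₁ n₁ := by
  have hS' := hS
  obtain ⟨hκK, hsub, hn1, lA, lB, lC, l34⟩ := hS'
  have q1 := hsub.A1; have q2 := hsub.B1; have q3 := hsub.C1; have q4 := hsub.m1
  have q5 := hsub.a1
  have h56 := H.h56; have h36 := H.h36; have h4 := H.h4; have hc0 := H.c0; have h2 := H.h2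
  have h59 := H.h59
  exact ⟨hκK, hsub, hn1, by linarith, by linarith, by linarith, by linarith⟩

/-- the premises (T'), (J), (T0), (R) of `rg` at family `K`, level `v`, for the sub-sides of
`(Y | m, a)` of total `n`; `e` = the loss of (T0) -/
structure PremRG (c e : ℝ) (s₀ : EF) (Q : ℝ → ℝ → Multiset ℝ → ℝ → ℝ → ℝ → Prop)
    (K v n F : ℝ) (Y : Multiset ℝ) (m a : ℝ) : Prop where
  pT : ∀ (Y' : Multiset ℝ) (m' a' n' v' : ℝ), Sh Y' Y → 0 ≤ m' → m' ≤ m → 0 ≤ a' → a' ≤ a →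
    n' = Y'.sum + m' + a' → c ≤ n - n' → n - n' ≤ 2 * c → 0 ≤ v' → v' ≤ v + (n - n') →
    s₀ v' Y' m' a' ≤ 4 / 3 * n' + (v' + K) / 3 + F
  pJ : ∀ (Y' : Multiset ℝ) (m' a' n' v' w u : ℝ), Sh Y' Y → 0 ≤ m' → m' ≤ m → 0 ≤ a' → a' ≤ a →
    n' = Y'.sum + m' + a' → 2 * c ≤ n - n' → 0 ≤ v' → 0 ≤ w →
    3 * w = (n - n') - (v' - v) → u = (n - n') - w - c →
    s₀ v' Y' m' a' ≤ 4 / 3 * n' + (v' + K) / 3 + max 0 u + F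
  p0 : ∀ (Y' : Multiset ℝ) (m' a' n' v' : ℝ), Sh Y' Y → 0 ≤ m' → m' ≤ m → 0 ≤ a' → a' ≤ a →
    n' = Y'.sum + m' + a' → n - n' ≤ 2 * c → 0 ≤ v' → v' ≤ v + (n - n') →
    s₀ v' Y' m' a' ≤ 4 / 3 * n' + (v' + K) / 3 + e + F
  pR : ∀ (Y' : Multiset ℝ) (m' a' n' v' : ℝ), Sh Y' Y → 0 ≤ m' → m' ≤ m → 0 ≤ a' → a' ≤ a →
    n' = Y'.sum + m' + a' → n - n' ≤ 2 * c → 0 ≤ v' → v' ≤ v + (n - n') →
    Q K v' Y' m' a' (4 / 3 * n' + (v' + K) / 3 + F)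

/-- the fields of the RG recursion of the exceptional class, step length `c`; `d₀` = the short
lump of the replaced side -/
structure ExpRGx (c : ℝ) (r s₀ : EF) (Q : ℝ → ℝ → Multiset ℝ → ℝ → ℝ → ℝ → Prop) : Prop where
  bessx : ∀ (K v y₁ y₂ y₃ m a n d₀ E : ℝ), 0 ≤ y₃ → 0 ≤ m → 0 ≤ a → 0 ≤ d₀ → d₀ ≤ y₁ →
    d₀ ≤ y₂ → n = y₁ + y₂ + y₃ + m + a → 0 ≤ v → 3 * v ≤ 2 * K → n ≤ K →
    (v + n - K) / 3 ≤ d₀ → 2 / 3 * v + 5 / 3 * n - d₀ + c ≤ E → 0 ≤ E →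
    (∀ κ' : ℝ, 0 ≤ κ' → κ' ≤ K →
      r κ' {y₁, y₂, y₃} m a + (K - κ') / 3 + (v + n - 2 * K) / 3 ≤ E) →
    (∀ κ' : ℝ, 0 ≤ κ' → κ' ≤ K →
      r κ' {y₁ + y₂ - d₀, d₀, y₃} m a + (K - κ') / 3 + (v + n - 2 * K) / 3 ≤ E) →
    s₀ v {y₁ + y₂ - d₀, d₀, y₃} m a ≤ E →
    Q K v {y₁, y₂, y₃} m a E → Q K v {y₁ + y₂ - d₀, d₀, y₃} m a E →
    s₀ v {y₁, y₂, y₃} m a ≤ E
  rgx : ∀ (K v y₁ y₂ y₃ m a n d₀ F : ℝ), 0 ≤ y₃ → 0 ≤ m → 0 ≤ a → 0 ≤ d₀ → d₀ + 2 * c ≤ y₁ →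
    d₀ + 2 * c ≤ y₂ → n = y₁ + y₂ + y₃ + m + a → 2 * n ≤ K + v → n ≤ K →
    3 * (v + 2 * c) ≤ 2 * K → 0 < K → 60 * c ≤ K → 3 * K ≤ 4 * n → 0 ≤ F →
    (v + n - K) / 3 ≤ d₀ → 2 / 3 * v + 5 / 3 * n - d₀ + c ≤ 2 * n + F →
    PremRG c (c / 3) s₀ Q K v n F {y₁, y₂, y₃} m a →
    PremRG c 0 s₀ Q K v n F {y₁ + y₂ - d₀, d₀, y₃} m a →
    ∀ v' : ℝ, 0 ≤ v' → v' ≤ v →
      s₀ v' {y₁, y₂, y₃} m a ≤ 2 * n + F + max 0 ((v' + K - 2 * n) / 3)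

/-- the fields of the exceptional class: arbitrarily small step length and margin -/
structure ExpRGFx (θ : ℝ) (r s s₀ : EF) : Prop extends ExpS0 s s₀ where
  rgf : ∀ δ : ℝ, 0 < δ → ∃ c μ : ℝ, 0 < c ∧ 0 ≤ μ ∧ c + μ ≤ δ ∧
    ExpRGx c r s₀ (QL θ r s₀ c μ)

/-- class N is a special case -/
theorem ExpRG.toX {c : ℝ} (hc : 0 ≤ c) {Q : ℝ → ℝ → Multiset ℝ → ℝ → ℝ → ℝ → Prop}
    (G : ExpRG c r s₀ Q) : ExpRGx c r s₀ Q where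
  bessx := by
    intro K v y₁ y₂ y₃ m a n d₀ E h3 hm ha hd h1 h2 hn hv hvK hnK _ _ _ hr _ _ hQ _
    refine G.bess K v {y₁, y₂, y₃} m a n E (ok3 (by linarith) (by linarith) h3 hm ha)
      (by rw [sum3]; exact hn) hv hvK hnK ?_ hQ
    have hK : 0 ≤ K := by linarith
    have := hr K hK le_rfl
    linarith
  rgx := by
    intro K v y₁ y₂ y₃ m a n d₀ F h3 hm ha hd h1 h2 hn h2n hnK hvK _ _ _ hF _ _ hP _
    exact G.rg K v {y₁, y₂, y₃} m a n F (ok3 (by linarith) (by linarith) h3 hm ha)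
      (by rw [sum3]; exact hn) h2n hnK hvK hF hP.pT hP.pJ hP.p0 hP.pR

/-! ### the static lines of `QL` -/

/-- a side `{z₁, z₂, z₃ | m₂, a₂}` with `z₃ ≤ C₁`, `m₂ ≤ m₁`, `a₂ ≤ a₁` and total `n₂ ≤ n₁` -/
structure Sw (z₁ z₂ z₃ m₂ a₂ n₂ C₁ m₁ a₁ n₁ : ℝ) : Prop where
  z1 : 0 ≤ z₁
  z2 : 0 ≤ z₂
  z3 : 0 ≤ z₃
  z3' : z₃ ≤ C₁
  m0 : 0 ≤ m₂
  m1 : m₂ ≤ m₁
  a0 : 0 ≤ a₂
  a1 : a₂ ≤ a₁
  n2 : n₂ = z₁ + z₂ + z₃ + m₂ + a₂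
  n21 : n₂ ≤ n₁

/-- **all lines of `QL` except (D)** -/
theorem QL_static (R : ExpRules (7 / 8 + d) r s) {κ A B C m a c μ F : ℝ}
    (H : T3H d κ A B C m a c (2 * μ) F)
    {K A₁ B₁ C₁ m₁ a₁ n₁ x : ℝ} (hS : StW κ A B C m a K A₁ B₁ C₁ m₁ a₁ n₁)
    (hX : Xp n₁ C₁ (C₁ + m₁ + a₁) (2 * d * (C + m + a)) x)
    {K' v z₁ z₂ z₃ m₂ a₂ n₂ E : ℝ} (hK' : K ≤ K') (hs2 : Sw z₁ z₂ z₃ m₂ a₂ n₂ C₁ m₁ a₁ n₁)
    (hL : LQ K' v n₂ E n₁ C₁ (C₁ + m₁ + a₁) (2 * d * (C + m + a)) x F (2 * μ))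
    (hdd : ∀ A₃ B₃ C₃ m₃ a₃ n₃ : ℝ, Sub3 A₃ B₃ C₃ m₃ a₃ z₁ z₂ z₃ m₂ a₂ →
        n₃ = A₃ + B₃ + C₃ + m₃ + a₃ → c ≤ n₂ - n₃ →
        s₀ (v + 2 * (n₂ - n₃)) {A₃, B₃, C₃} m₃ a₃ ≤ E + (n₂ - n₃)) :
    QL (7 / 8 + d) r s₀ c μ K' v {z₁, z₂, z₃} m₂ a₂ E := by
  obtain ⟨hκK, hsub, hn1, hw1, hw2, hw3, hw5⟩ := hS
  have q1 := hsub.A1; have q2 := hsub.B1; have q3 := hsub.C1; have q4 := hsub.m1
  have q5 := hsub.a1
  have q0 := hsub.A0; have q0' := hsub.B0; have q6 := hsub.C0; have q7 := hsub.m0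
  have q8 := hsub.a0
  have hd := H.d0
  have hd8 := H.d8
  have h56 := H.h56; have hc0 := H.c0; have hF := H.hF
  have hμ0 := H.μ0
  have hK0 : 0 ≤ K := H.κ0.trans hκK
  have hD1 : 2 * d * (C₁ + m₁ + a₁) ≤ 2 * d * (C + m + a) :=
    mul_le_mul_of_nonneg_left (by linarith) (by linarith)
  have hD0 : 0 ≤ 2 * d * (C + m + a) := mul_nonneg (mul_nonneg two_pos.le H.d0) H.g0
  obtain ⟨D, hDd⟩ : ∃ D, D = 2 * d * (C + m + a) := ⟨_, rfl⟩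
  rw [← hDd] at hD0 hF hD1 hX hL
  obtain ⟨x1, x2, x3, x4⟩ := hX
  obtain ⟨v0, v23, l0, l1, l2, l3, l4, l5, l6⟩ := hL
  obtain ⟨p0, p0', p6, p3, p7, p4, p8, p5, hn2, hn21⟩ := hs2
  constructor
  · -- r2
    intro Y' m' a' n n' i hY' hm0 hm1 ha0 ha1 hn hn' hyi hi hii
    obtain ⟨A₃, B₃, C₃, rfl, t0, t1, t2, t3, t4, t5⟩ := sh3 hY'
    rw [sum3] at hn hn'
    obtain ⟨y1, y2, y3⟩ := mem3 hyi
    have e1 := sup3 R hi t0 t2 t4 hm0 ha0 y1 y2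
    have e2 : 2 * d * (C₃ + m' + a') ≤ 2 * d * (C₁ + m₁ + a₁) :=
      mul_le_mul_of_nonneg_left (by linarith) (by linarith)
    rcases max_cases v (2 / 3 * (v + i)) with ⟨hm, _⟩ | ⟨hm, _⟩ <;> rw [hm] <;> linarith
  · -- c2
    intro Y' m' a' n n' i hY' hm0 hm1 ha0 ha1 hn hn' hi hii
    obtain ⟨A₃, B₃, C₃, rfl, t0, t1, t2, t3, t4, t5⟩ := sh3 hY'
    rw [sum3] at hn hn'
    have e2 : 8 * d * m' ≤ 1 * m' := mul_le_mul_of_nonneg_right hd8 hm0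
    rcases max_cases v (2 / 3 * (v + i)) with ⟨hm, _⟩ | ⟨hm, _⟩ <;> rw [hm] <;> linarith
  · -- r3
    intro Y' m' a' n i hY' hm0 hm1 ha0 ha1 hn hyi hi hii
    obtain ⟨A₃, B₃, C₃, rfl, t0, t1, t2, t3, t4, t5⟩ := sh3 hY'
    rw [sum3] at hn
    obtain ⟨y1, y2, y3⟩ := mem3 hyi
    have e1 := sup3 R hi t0 t2 t4 hm0 ha0 y1 y2
    have e2 : 2 * d * (C₃ + m' + a') ≤ 2 * d * (C₁ + m₁ + a₁) :=
      mul_le_mul_of_nonneg_left (by linarith) (by linarith)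
    rcases max_cases 0 ((v + 2 * n - 2 * K') / 3) with ⟨hm, _⟩ | ⟨hm, _⟩ <;> rw [hm] <;> linarith
  · -- c3
    intro m' a' n hm0 hm1 ha0 ha1 hn
    rw [sum3] at hn
    have e2 : 8 * d * m' ≤ 1 * m' := mul_le_mul_of_nonneg_right hd8 hm0
    rcases max_cases 0 ((v + 2 * n - 2 * K') / 3) with ⟨hm, _⟩ | ⟨hm, _⟩ <;> rw [hm] <;> linarith
  · -- r5
    intro Y' m' a' n k hY' hm0 hm1 ha0 ha1 hn hk0 hk
    obtain ⟨A₃, B₃, C₃, rfl, t0, t1, t2, t3, t4, t5⟩ := sh3 hY'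
    rw [sum3] at hn
    obtain ⟨n₃, hn3⟩ : ∃ n₃, n₃ = A₃ + B₃ + C₃ + m' + a' := ⟨_, rfl⟩
    have e1 := char3all R hd hd8 (n := n₃) (G := C₁ + m₁ + a₁) (D := D)
      (x := x + (n₁ - n₃) / 2) t0 t2 t4 hm0 ha0 hn3 (by linarith) hD0 hD1
      (by linarith) (by linarith) (by linarith) (by linarith) (by linarith) hk0
    rcases e1 with e1 | ⟨e0, e1⟩
    · rcases max_cases (k + n₃) (2 / 3 * k + 4 / 3 * n₃ + 2 / 3 * (x + (n₁ - n₃) / 2)) with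
        ⟨hm, _⟩ | ⟨hm, _⟩ <;> rw [hm] at e1 <;> linarith
    · linarith
  · -- dd
    intro Y' m' a' n n' hY' hm0 hm1 ha0 ha1 hn hn' hc
    obtain ⟨A₃, B₃, C₃, rfl, t0, t1, t2, t3, t4, t5⟩ := sh3 hY'
    rw [sum3] at hn hn'
    have := hdd A₃ B₃ C₃ m' a' n' ⟨t0, t1, t2, t3, t4, t5, hm0, hm1, ha0, ha1⟩ hn'
      (by linarith)
    have en : n = n₂ := by linarith
    rw [en]
    exact this

/-! ### sides with a short second lump -/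

/-- the Gauss side of a side with the short lump `z₂` : all levels -/
theorem rep_level (R : ExpRules (7 / 8 + d) r s) (S : ExpS0 s s₀) {κ A B C m a c μ F : ℝ}
    (H : T3H d κ A B C m a c μ F)
    {K A₁ B₁ C₁ m₁ a₁ n₁ : ℝ} (hS : StW κ A B C m a K A₁ B₁ C₁ m₁ a₁ n₁)
    {z₁ z₂ z₃ m₂ a₂ n₂ : ℝ} (hs2 : Sw z₁ z₂ z₃ m₂ a₂ n₂ C₁ m₁ a₁ n₁)
    {f K' : ℝ} (hf : 0 ≤ f) (hK' : K ≤ K') (hfK : 2 * f + 3 * z₂ - n₂ ≤ K') :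
    s₀ f {z₁, z₂, z₃} m₂ a₂ ≤ 4 / 3 * n₂ + (K' + f) / 3 + 2 * d * (C + m + a) := by
  obtain ⟨hκK, hsub, hn1, hw1, hw2, hw3, hw5⟩ := hS
  have q1 := hsub.A1; have q2 := hsub.B1; have q3 := hsub.C1; have q4 := hsub.m1
  have q5 := hsub.a1
  obtain ⟨p0, p0', p6, p3, p7, p4, p8, p5, hn2, hn21⟩ := hs2
  have hd := H.d0
  have hκ0 := H.κ0
  have h36 := H.h36
  have hamp := H.hamp
  have hcol := colX_pair (κ := K') R hd p0 p6 p7 p8 (by linarith) (by linarith)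
  have hok : Ok {z₁, z₂, z₃} m₂ a₂ := ok3 p0 p0' p6 p7 p8
  have hl := level_lump R (by linarith : (0 : ℝ) ≤ K') p0' p0 p6 p7 p8
    (mul_nonneg (mul_nonneg two_pos.le hd) (by linarith)) hcol hf (by linarith)
  have e : ({z₁, z₂, z₃} : Multiset ℝ) = z₂ ::ₘ {z₁, z₃} := Multiset.cons_swap _ _ _
  have h0 := S.le f {z₁, z₂, z₃} m₂ a₂ hf hok
  have hD : 2 * d * (m₂ + a₂) ≤ 2 * d * (C + m + a) :=
    mul_le_mul_of_nonneg_left (by linarith [hsub.C0]) (by linarith)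
  rw [e] at h0 ⊢
  linarith

/-- shortenings -/
theorem Sw.sub {z₁ z₂ z₃ m₂ a₂ n₂ C₁ m₁ a₁ n₁ : ℝ} (h : Sw z₁ z₂ z₃ m₂ a₂ n₂ C₁ m₁ a₁ n₁)
    {x₁ x₂ x₃ m₃ a₃ n₃ : ℝ} (h3 : Sub3 x₁ x₂ x₃ m₃ a₃ z₁ z₂ z₃ m₂ a₂)
    (hn : n₃ = x₁ + x₂ + x₃ + m₃ + a₃) : Sw x₁ x₂ x₃ m₃ a₃ n₃ C₁ m₁ a₁ n₁ := by
  obtain ⟨p0, p0', p6, p3, p7, p4, p8, p5, hn2, hn21⟩ := h
  obtain ⟨t0, t1, t2, t3, t4, t5, t6, t7, t8, t9⟩ := h3
  exact ⟨t0, t2, t4, by linarith, t6, by linarith, t8, by linarith, hn, by linarith⟩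

/-- a sub-side is a side of this kind -/
theorem Sub3.sw {A₂ B₂ C₂ m₂ a₂ n₂ A₁ B₁ C₁ m₁ a₁ n₁ : ℝ}
    (h : Sub3 A₂ B₂ C₂ m₂ a₂ A₁ B₁ C₁ m₁ a₁) (hn : n₂ = A₂ + B₂ + C₂ + m₂ + a₂)
    (hn1 : n₁ = A₁ + B₁ + C₁ + m₁ + a₁) : Sw A₂ B₂ C₂ m₂ a₂ n₂ C₁ m₁ a₁ n₁ := by
  obtain ⟨t0, t1, t2, t3, t4, t5, t6, t7, t8, t9⟩ := h
  exact ⟨t0, t2, t4, t5, t6, t7, t8, t9, hn, by linarith⟩

/-- the replaced side -/
theorem Sub3.rep {A₂ B₂ C₂ m₂ a₂ n₂ A₁ B₁ C₁ m₁ a₁ n₁ d₀ : ℝ}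
    (h : Sub3 A₂ B₂ C₂ m₂ a₂ A₁ B₁ C₁ m₁ a₁) (hn : n₂ = A₂ + B₂ + C₂ + m₂ + a₂)
    (hn1 : n₁ = A₁ + B₁ + C₁ + m₁ + a₁) (h0 : 0 ≤ d₀) (hA : d₀ ≤ A₂) :
    Sw (A₂ + B₂ - d₀) d₀ C₂ m₂ a₂ n₂ C₁ m₁ a₁ n₁ := by
  obtain ⟨t0, t1, t2, t3, t4, t5, t6, t7, t8, t9⟩ := h
  exact ⟨by linarith, h0, t4, t5, t6, t7, t8, t9, by linarith, by linarith⟩

/-- the replaced side is ideal at the family `K'` -/
theorem rep_ideal (R : ExpRules (7 / 8 + d) r s) (S : ExpS0 s s₀) {κ A B C m a c μ F : ℝ}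
    (H : T3H d κ A B C m a c μ F)
    {K A₁ B₁ C₁ m₁ a₁ n₁ : ℝ} (hS : StW κ A B C m a K A₁ B₁ C₁ m₁ a₁ n₁)
    {z₁ z₂ z₃ m₂ a₂ n₂ : ℝ} (hs2 : Sw z₁ z₂ z₃ m₂ a₂ n₂ C₁ m₁ a₁ n₁)
    {K' : ℝ} (hK' : K ≤ K') (hz : n₂ + z₂ ≤ K') :
    ∀ κ' : ℝ, 0 ≤ κ' → κ' ≤ K' →
      r κ' {z₁, z₂, z₃} m₂ a₂ + (K' - κ') / 3 ≤ K' + n₂ + F := by
  have hS' := hS
  obtain ⟨hκK, hsub, hn1, hw1, hw2, hw3, hw5⟩ := hS
  have q1 := hsub.A1; have q2 := hsub.B1; have q3 := hsub.C1; have q4 := hsub.m1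
  have q5 := hsub.a1
  have hs2' := hs2
  obtain ⟨p0, p0', p6, p3, p7, p4, p8, p5, hn2, hn21⟩ := hs2
  have hd := H.d0
  have hκ0 := H.κ0
  have h56 := H.h56
  have hc0 := H.c0
  have hF := H.hF
  have hμ0 := H.μ0
  have hD0 : 0 ≤ 2 * d * (C + m + a) := mul_nonneg (mul_nonneg two_pos.le H.d0) H.g0
  refine R.poisC K' {z₁, z₂, z₃} m₂ a₂ (K' + n₂ + F) (by linarith) (ok3 p0 p0' p6 p7 p8)
    (by rw [sum3]; linarith) (by rw [sum3]; linarith) ?_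
  intro Y'' m'' a'' i hY'' hm0' hm1' ha0' ha1' hi hii
  obtain ⟨x₁, x₂, x₃, rfl, t0, t1, t2, t3, t4, t5⟩ := sh3 hY''
  rw [sum3] at hii ⊢
  rw [sum3]
  obtain ⟨n₃, hn3⟩ : ∃ n₃, n₃ = x₁ + x₂ + x₃ + m'' + a'' := ⟨_, rfl⟩
  have hs3 := hs2'.sub ⟨t0, t1, t2, t3, t4, t5, hm0', hm1', ha0', ha1'⟩ hn3
  have key : ∀ f : ℝ, 0 ≤ f → f ≤ 2 * n₃ - K' →
      s₀ f {x₁, x₂, x₃} m'' a'' ≤ 4 / 3 * n₃ + (K' + f) / 3 + F := fun f hf hft => by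
    have := rep_level R S H hS' hs3 hf hK' (by linarith)
    linarith
  have hcube := S.cube i {x₁, x₂, x₃} m'' a''
    (4 / 3 * n₃ + (K' + i) / 3 + F) hi (ok3 t0 t2 t4 hm0' ha0') (fun u hu hu3 => by
      have := key (i - 3 * u) (by linarith) (by linarith)
      linarith)
  linarith

/-- `Q` for all sub-sides of a state -/
def QSub (Q : ℝ → ℝ → Multiset ℝ → ℝ → ℝ → ℝ → Prop)
    (d _A _B C m a μ F K A₁ B₁ C₁ m₁ a₁ n₁ x : ℝ) : Prop :=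
  ∀ K' v A₂ B₂ C₂ m₂ a₂ n₂ E : ℝ, K ≤ K' → Sub3 A₂ B₂ C₂ m₂ a₂ A₁ B₁ C₁ m₁ a₁ →
    n₂ = A₂ + B₂ + C₂ + m₂ + a₂ →
    LQ K' v n₂ E n₁ C₁ (C₁ + m₁ + a₁) (2 * d * (C + m + a)) x F μ → n₂ + v + F ≤ E →
    Q K' v {A₂, B₂, C₂} m₂ a₂ E

/-- `Q` for all sides with a short second lump -/
def QRep (Q : ℝ → ℝ → Multiset ℝ → ℝ → ℝ → ℝ → Prop)
    (d C m a μ F K C₁ m₁ a₁ n₁ x : ℝ) : Prop :=
  ∀ K' v z₁ z₂ z₃ m₂ a₂ n₂ E : ℝ, K ≤ K' → Sw z₁ z₂ z₃ m₂ a₂ n₂ C₁ m₁ a₁ n₁ →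
    LQ K' v n₂ E n₁ C₁ (C₁ + m₁ + a₁) (2 * d * (C + m + a)) x F μ → n₂ + v + F ≤ E →
    2 * v + 3 * z₂ ≤ n₂ + K' ∨ z₂ = 0 →
    Q K' v {z₁, z₂, z₃} m₂ a₂ E

/-- `Q` for the sub-sides and the replaced sides of every state -/
def QAllx (Q : ℝ → ℝ → Multiset ℝ → ℝ → ℝ → ℝ → Prop) (r : EF)
    (d κ A B C m a c μ F : ℝ) : Prop :=
  ∀ K A₁ B₁ C₁ m₁ a₁ n₁ x : ℝ, StW κ A B C m a K A₁ B₁ C₁ m₁ a₁ n₁ →
    Xp n₁ C₁ (C₁ + m₁ + a₁) (2 * d * (C + m + a)) x →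
    QRep Q d C m a μ F K C₁ m₁ a₁ n₁ x ∧
      (IHyp r c F K A₁ B₁ C₁ m₁ a₁ → QSub Q d A B C m a μ F K A₁ B₁ C₁ m₁ a₁ n₁ x)

/-- the terminal bound for a sub-side -/
theorem bess_sub {Q : ℝ → ℝ → Multiset ℝ → ℝ → ℝ → ℝ → Prop} (R : ExpRules (7 / 8 + d) r s)
    (S : ExpS0 s s₀) {κ A B C m a c μ F : ℝ} (H : T3H d κ A B C m a c μ F)
    (G : ExpRGx c r s₀ Q)
    {K A₁ B₁ C₁ m₁ a₁ n₁ x : ℝ} (hS : StW κ A B C m a K A₁ B₁ C₁ m₁ a₁ n₁)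
    (hR : QRep Q d C m a μ F K C₁ m₁ a₁ n₁ x)
    {K' v A₂ B₂ C₂ m₂ a₂ n₂ E : ℝ} (hK' : K ≤ K') (hs2 : Sub3 A₂ B₂ C₂ m₂ a₂ A₁ B₁ C₁ m₁ a₁)
    (hn2 : n₂ = A₂ + B₂ + C₂ + m₂ + a₂)
    (hL : LQ K' v n₂ E n₁ C₁ (C₁ + m₁ + a₁) (2 * d * (C + m + a)) x F μ)
    (h7 : n₂ + v + F ≤ E) (hcl : Cl3 r K' F A₂ B₂ C₂ m₂ a₂)
    (hQ : Q K' v {A₂, B₂, C₂} m₂ a₂ E) :
    s₀ v {A₂, B₂, C₂} m₂ a₂ ≤ E := by
  have hS' := hS
  obtain ⟨hκK, hsub, hn1, hw1, hw2, hw3, hw5⟩ := hS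
  have q1 := hsub.A1; have q2 := hsub.B1; have q3 := hsub.C1; have q4 := hsub.m1
  have q5 := hsub.a1
  have p1 := hs2.A1; have p2 := hs2.B1; have p3 := hs2.C1; have p4 := hs2.m1
  have p5 := hs2.a1
  have p0 := hs2.A0; have p0' := hs2.B0; have p6 := hs2.C0; have p7 := hs2.m0
  have p8 := hs2.a0
  have hd := H.d0
  have hκ0 := H.κ0
  have h56 := H.h56
  have hc0 := H.c0
  have hF := H.hF
  have hμ0 := H.μ0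
  have hAC := H.AC
  have hBC := H.BC
  have hD0 : 0 ≤ 2 * d * (C + m + a) := mul_nonneg (mul_nonneg two_pos.le H.d0) H.g0
  have hv0 := hL.v0
  have h23 := hL.v23
  have hl0 := hL.l0
  have hst := hs2.trans hsub
  rcases le_or_gt (3 * C₂) (n₂ + K' - 2 * v) with h | hC
  · have := lump3 R S H hst p6 p0 p0' (by linarith) (by ring) (by
      show A₂ ::ₘ B₂ ::ₘ {C₂} = C₂ ::ₘ A₂ ::ₘ {B₂}
      rw [Multiset.cons_swap C₂ A₂]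
      congr 1
      exact Multiset.pair_comm B₂ C₂) (hκK.trans hK') hv0 (by linarith)
    linarith
  rcases le_or_gt (3 * B₂) (n₂ + K' - 2 * v) with h | hB
  · have := lump3 R S H hst p0' p0 p6 (by linarith) (by ring) (Multiset.cons_swap _ _ _)
      (hκK.trans hK') hv0 (by linarith)
    linarith
  rcases le_or_gt (3 * A₂) (n₂ + K' - 2 * v) with h | hA
  · have := lump3 R S H hst p0 p0' p6 (by linarith) (by ring) rfl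
      (hκK.trans hK') hv0 (by linarith)
    linarith
  obtain ⟨d₀, hd0, hd1, hd2⟩ : ∃ d₀, 0 ≤ d₀ ∧ (v + n₂ - K') / 3 ≤ d₀ ∧
      (3 * d₀ = v + n₂ - K' ∨ d₀ = 0) := by
    refine ⟨max 0 ((v + n₂ - K') / 3), le_max_left _ _, le_max_right _ _, ?_⟩
    rcases max_cases 0 ((v + n₂ - K') / 3) with ⟨h, _⟩ | ⟨h, _⟩ <;> rw [h]
    · exact Or.inr rfl
    · left; ring
  have hdA : d₀ ≤ A₂ := by rcases hd2 with h | h <;> linarith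
  have hdB : d₀ ≤ B₂ := by rcases hd2 with h | h <;> linarith
  have hrep := hs2.rep hn2 hn1 hd0 hdA
  have hsl : 2 * v + 3 * d₀ ≤ n₂ + K' ∨ d₀ = 0 := by
    rcases hd2 with h | h
    · left; linarith
    · exact Or.inr h
  have hid := rep_ideal R S H hS' hrep hK' (by rcases hd2 with h | h <;> linarith)
  refine G.bessx K' v A₂ B₂ C₂ m₂ a₂ n₂ d₀ E p6 p7 p8 hd0 hdA hdB hn2 hv0 h23 (by linarith)
    hd1 (by linarith) (by linarith) ?_ ?_ ?_ hQ (hR K' v _ _ _ _ _ n₂ E hK' hrep hL h7 hsl)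
  · intro κ' h0 h1
    have := hcl κ' h0 h1
    linarith
  · intro κ' h0 h1
    have := hid κ' h0 h1
    linarith
  · rcases le_or_gt (2 * v + 3 * d₀ - n₂) K' with h | h
    · have := rep_level R S H hS' hrep hv0 hK' h
      linarith
    · have h0 : d₀ = 0 := by
        rcases hsl with h' | h'
        · linarith
        · exact h'
      have := rep_level R S H hS' hrep (K' := 2 * v + 3 * d₀ - n₂) hv0 (by linarith) le_rfl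
      linarith

/-- the premises for the sub-sides of the side itself -/
theorem prem_self {Q : ℝ → ℝ → Multiset ℝ → ℝ → ℝ → ℝ → Prop} (R : ExpRules (7 / 8 + d) r s)
    (S : ExpS0 s s₀) {κ A B C m a c μ F : ℝ} (H : T3H d κ A B C m a c μ F)
    (G : ExpRGx c r s₀ Q)
    {K A₁ B₁ C₁ m₁ a₁ n₁ x : ℝ} (hS : St3 κ A B C m a K A₁ B₁ C₁ m₁ a₁ n₁)
    (hxl : 80 * n₁ + 40 * x ≤ 73 * K + 120 * (2 * d * (C + m + a)))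
    (hRp : QRep Q d C m a μ F K C₁ m₁ a₁ n₁ x)
    (hQ : QSub Q d A B C m a μ F K A₁ B₁ C₁ m₁ a₁ n₁ x)
    (IH : IHyp r c F K A₁ B₁ C₁ m₁ a₁) :
    PremRG c (c / 3) s₀ Q K (2 * n₁ - K) n₁ F {A₁, B₁, C₁} m₁ a₁ := by
  have hS' := hS
  obtain ⟨hκK, hsub, hn1, lA, lB, lC, l34⟩ := hS
  have q1 := hsub.A1; have q2 := hsub.B1; have q3 := hsub.C1; have q4 := hsub.m1
  have q5 := hsub.a1
  have q0 := hsub.A0; have q0' := hsub.B0; have q6 := hsub.C0; have q7 := hsub.m0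
  have q8 := hsub.a0
  have hD0 : 0 ≤ 2 * d * (C + m + a) := mul_nonneg (mul_nonneg two_pos.le H.d0) H.g0
  have h56 := H.h56; have hc0 := H.c0; have hF := H.hF; have h7 := H.h7; have h36 := H.h36
  have h4 := H.h4; have hcκ := H.cκ; have hμ0 := H.μ0
  have hF0 : 0 ≤ F := by linarith
  have hK0 : 0 ≤ K := H.κ0.trans hκK
  -- `LQ` and the terminal bound
  have hB : ∀ K' v' A₂ B₂ C₂ m₂ a₂ n₂ E : ℝ, K ≤ K' → Sub3 A₂ B₂ C₂ m₂ a₂ A₁ B₁ C₁ m₁ a₁ →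
      n₂ = A₂ + B₂ + C₂ + m₂ + a₂ → n₂ - K' + c ≤ n₁ - K →
      LQ K' v' n₂ E n₁ C₁ (C₁ + m₁ + a₁) (2 * d * (C + m + a)) x F μ → n₂ + v' + F ≤ E →
      s₀ v' {A₂, B₂, C₂} m₂ a₂ ≤ E := by
    intro K' v' A₂ B₂ C₂ m₂ a₂ n₂ E hK' hs2 hn2 hc hL h7'
    have hid := IH K' A₂ B₂ C₂ m₂ a₂ hK' hs2 (by linarith)
    exact bess_sub R S H G (hS'.toW H) hRp hK' hs2 hn2 hL h7' hid
      (hQ K' v' A₂ B₂ C₂ m₂ a₂ n₂ E hK' hs2 hn2 hL h7')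
  obtain ⟨D, hDd⟩ : ∃ D, D = 2 * d * (C + m + a) := ⟨_, rfl⟩
  rw [← hDd] at hD0 hF hxl hB
  constructor
  · intro Y' m' a' n' v' hY' hm0 hm1 ha0 ha1 hn' hc1 hc2 hv0' hv1
    obtain ⟨A₂, B₂, C₂, rfl, hA0, hA1, hB0, hB1, hC0, hC1⟩ := sh3 hY'
    rw [sum3] at hn'
    have hs2 : Sub3 A₂ B₂ C₂ m' a' A₁ B₁ C₁ m₁ a₁ :=
      ⟨hA0, hA1, hB0, hB1, hC0, hC1, hm0, hm1, ha0, ha1⟩
    refine hB K v' A₂ B₂ C₂ m' a' n' _ le_rfl hs2 hn' (by linarith)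
      ⟨hv0', ?_, ?_, ?_, ?_, ?_, ?_, ?_, ?_⟩ ?_ <;> linarith
  · intro Y' m' a' n' v' w u hY' hm0 hm1 ha0 ha1 hn' hc1 hv0' hw hw3 hu1
    obtain ⟨A₂, B₂, C₂, rfl, hA0, hA1, hB0, hB1, hC0, hC1⟩ := sh3 hY'
    rw [sum3] at hn'
    have hs2 : Sub3 A₂ B₂ C₂ m' a' A₁ B₁ C₁ m₁ a₁ :=
      ⟨hA0, hA1, hB0, hB1, hC0, hC1, hm0, hm1, ha0, ha1⟩
    have hu0 := le_max_left 0 u
    have hu2 := le_max_right 0 u
    rcases le_or_gt (3 * v') (2 * K) with h23 | h23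
    · refine hB K v' A₂ B₂ C₂ m' a' n' _ le_rfl hs2 hn' (by linarith)
        ⟨hv0', h23, ?_, ?_, ?_, ?_, ?_, ?_, ?_⟩ ?_ <;> linarith
    · obtain ⟨K', hK'⟩ : ∃ K', 2 * K' = 3 * v' := ⟨3 / 2 * v', by ring⟩
      have hKK' : K ≤ K' := by linarith
      refine hB K' v' A₂ B₂ C₂ m' a' n' _ hKK' hs2 hn' (by linarith)
        ⟨hv0', by linarith, ?_, ?_, ?_, ?_, ?_, ?_, ?_⟩ ?_ <;> linarith
  · intro Y' m' a' n' v' hY' hm0 hm1 ha0 ha1 hn' hc2 hv0' hv1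
    obtain ⟨A₂, B₂, C₂, rfl, hA0, hA1, hB0, hB1, hC0, hC1⟩ := sh3 hY'
    rw [sum3] at hn'
    have hs2 : Sub3 A₂ B₂ C₂ m' a' A₁ B₁ C₁ m₁ a₁ :=
      ⟨hA0, hA1, hB0, hB1, hC0, hC1, hm0, hm1, ha0, ha1⟩
    have hn21 : n' ≤ n₁ := by linarith
    refine hB (K + c) v' A₂ B₂ C₂ m' a' n' _ (by linarith) hs2 hn' (by linarith)
      ⟨hv0', ?_, ?_, ?_, ?_, ?_, ?_, ?_, ?_⟩ ?_ <;> linarith
  · intro Y' m' a' n' v' hY' hm0 hm1 ha0 ha1 hn' hc2 hv0' hv1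
    obtain ⟨A₂, B₂, C₂, rfl, hA0, hA1, hB0, hB1, hC0, hC1⟩ := sh3 hY'
    rw [sum3] at hn'
    have hs2 : Sub3 A₂ B₂ C₂ m' a' A₁ B₁ C₁ m₁ a₁ :=
      ⟨hA0, hA1, hB0, hB1, hC0, hC1, hm0, hm1, ha0, ha1⟩
    have hn21 : n' ≤ n₁ := by linarith
    refine hQ K v' A₂ B₂ C₂ m' a' n' _ le_rfl hs2 hn' ⟨hv0', ?_, ?_, ?_, ?_, ?_, ?_, ?_, ?_⟩ ?_ <;>
      linarith

/-- the premises for the sub-sides of the replaced side -/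
theorem prem_rep {Q : ℝ → ℝ → Multiset ℝ → ℝ → ℝ → ℝ → Prop} (R : ExpRules (7 / 8 + d) r s)
    (S : ExpS0 s s₀) {κ A B C m a c μ F : ℝ} (H : T3H d κ A B C m a c μ F)
    {K A₁ B₁ C₁ m₁ a₁ n₁ x : ℝ} (hS : St3 κ A B C m a K A₁ B₁ C₁ m₁ a₁ n₁)
    (hxl : 80 * n₁ + 40 * x ≤ 73 * K + 120 * (2 * d * (C + m + a)))
    (hRp : QRep Q d C m a μ F K C₁ m₁ a₁ n₁ x) {d₀ : ℝ} (hd0 : 3 * d₀ = 3 * n₁ - 2 * K)
    (hdA : d₀ ≤ A₁) :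
    PremRG c 0 s₀ Q K (2 * n₁ - K) n₁ F {A₁ + B₁ - d₀, d₀, C₁} m₁ a₁ := by
  have hS' := hS
  obtain ⟨hκK, hsub, hn1, lA, lB, lC, l34⟩ := hS
  have q1 := hsub.A1; have q2 := hsub.B1; have q3 := hsub.C1; have q4 := hsub.m1
  have q5 := hsub.a1
  have q0 := hsub.A0; have q0' := hsub.B0; have q6 := hsub.C0; have q7 := hsub.m0
  have q8 := hsub.a0
  have hD0 : 0 ≤ 2 * d * (C + m + a) := mul_nonneg (mul_nonneg two_pos.le H.d0) H.g0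
  have h56 := H.h56; have hc0 := H.c0; have hF := H.hF; have h7 := H.h7; have h36 := H.h36
  have h4 := H.h4; have hcκ := H.cκ; have hμ0 := H.μ0
  have hF0 : 0 ≤ F := by linarith
  have hK0 : 0 ≤ K := H.κ0.trans hκK
  have hdp : 0 ≤ d₀ := by linarith
  have hself : Sub3 A₁ B₁ C₁ m₁ a₁ A₁ B₁ C₁ m₁ a₁ :=
    ⟨q0, le_rfl, q0', le_rfl, q6, le_rfl, q7, le_rfl, q8, le_rfl⟩
  have hrep := hself.rep hn1 hn1 hdp hdA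
  -- levels
  have hlv : ∀ z₁ z₂ z₃ m₂ a₂ n₂ f K' : ℝ, Sub3 z₁ z₂ z₃ m₂ a₂ (A₁ + B₁ - d₀) d₀ C₁ m₁ a₁ →
      n₂ = z₁ + z₂ + z₃ + m₂ + a₂ → 0 ≤ f → K ≤ K' → 2 * f + 3 * d₀ - n₂ ≤ K' →
      s₀ f {z₁, z₂, z₃} m₂ a₂ ≤ 4 / 3 * n₂ + (K' + f) / 3 + 2 * d * (C + m + a) := by
    intro z₁ z₂ z₃ m₂ a₂ n₂ f K' hs hn hf hK' hfK
    have h2 := hs.B1
    exact rep_level R S H (hS'.toW H) (hrep.sub hs hn) hf hK' (by linarith)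
  have hsw : ∀ z₁ z₂ z₃ m₂ a₂ n₂ : ℝ, Sub3 z₁ z₂ z₃ m₂ a₂ (A₁ + B₁ - d₀) d₀ C₁ m₁ a₁ →
      n₂ = z₁ + z₂ + z₃ + m₂ + a₂ → Sw z₁ z₂ z₃ m₂ a₂ n₂ C₁ m₁ a₁ n₁ :=
    fun z₁ z₂ z₃ m₂ a₂ n₂ hs hn => hrep.sub hs hn
  obtain ⟨D, hDd⟩ : ∃ D, D = 2 * d * (C + m + a) := ⟨_, rfl⟩
  rw [← hDd] at hD0 hF hxl hlv
  constructor
  · intro Y' m' a' n' v' hY' hm0 hm1 ha0 ha1 hn' hc1 hc2 hv0' hv1
    obtain ⟨z₁, z₂, z₃, rfl, hA0, hA1, hB0, hB1, hC0, hC1⟩ := sh3 hY'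
    rw [sum3] at hn'
    have := hlv z₁ z₂ z₃ m' a' n' v' K ⟨hA0, hA1, hB0, hB1, hC0, hC1, hm0, hm1, ha0, ha1⟩ hn'
      hv0' le_rfl (by linarith)
    linarith
  · intro Y' m' a' n' v' w u hY' hm0 hm1 ha0 ha1 hn' hc1 hv0' hw hw3 hu1
    obtain ⟨z₁, z₂, z₃, rfl, hA0, hA1, hB0, hB1, hC0, hC1⟩ := sh3 hY'
    rw [sum3] at hn'
    have hu0 := le_max_left 0 u
    have hu2 := le_max_right 0 u
    have := hlv z₁ z₂ z₃ m' a' n' v' (K + 3 * max 0 u)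
      ⟨hA0, hA1, hB0, hB1, hC0, hC1, hm0, hm1, ha0, ha1⟩ hn'
      hv0' (by linarith) (by linarith)
    linarith
  · intro Y' m' a' n' v' hY' hm0 hm1 ha0 ha1 hn' hc2 hv0' hv1
    obtain ⟨z₁, z₂, z₃, rfl, hA0, hA1, hB0, hB1, hC0, hC1⟩ := sh3 hY'
    rw [sum3] at hn'
    have := hlv z₁ z₂ z₃ m' a' n' v' K ⟨hA0, hA1, hB0, hB1, hC0, hC1, hm0, hm1, ha0, ha1⟩ hn'
      hv0' le_rfl (by linarith)
    linarith
  · intro Y' m' a' n' v' hY' hm0 hm1 ha0 ha1 hn' hc2 hv0' hv1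
    obtain ⟨z₁, z₂, z₃, rfl, hA0, hA1, hB0, hB1, hC0, hC1⟩ := sh3 hY'
    rw [sum3] at hn'
    have hs := hsw z₁ z₂ z₃ m' a' n' ⟨hA0, hA1, hB0, hB1, hC0, hC1, hm0, hm1, ha0, ha1⟩ hn'
    have hn21 := hs.n21
    refine hRp K v' z₁ z₂ z₃ m' a' n' _ le_rfl hs ⟨hv0', ?_, ?_, ?_, ?_, ?_, ?_, ?_, ?_⟩ ?_
      (Or.inl (by linarith)) <;> linarith

/-- one application of `rgx` at the own top -/
theorem rg_top_x {Q : ℝ → ℝ → Multiset ℝ → ℝ → ℝ → ℝ → Prop} (R : ExpRules (7 / 8 + d) r s)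
    (S : ExpS0 s s₀) {κ A B C m a c μ F : ℝ} (H : T3H d κ A B C m a c μ F)
    (G : ExpRGx c r s₀ Q) (hQ : QAllx Q r d κ A B C m a c μ F)
    {K A₁ B₁ C₁ m₁ a₁ n₁ : ℝ} (hS : St3 κ A B C m a K A₁ B₁ C₁ m₁ a₁ n₁)
    (IH : IHyp r c F K A₁ B₁ C₁ m₁ a₁) :
    s₀ (2 * n₁ - K) {A₁, B₁, C₁} m₁ a₁ ≤ 2 * n₁ + F := by
  have hS' := hS
  obtain ⟨hκK, hsub, hn1, lA, lB, lC, l34⟩ := hS
  have q1 := hsub.A1; have q2 := hsub.B1; have q3 := hsub.C1; have q4 := hsub.m1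
  have q5 := hsub.a1
  have q0 := hsub.A0; have q0' := hsub.B0; have q6 := hsub.C0; have q7 := hsub.m0
  have q8 := hsub.a0
  have hD0 : 0 ≤ 2 * d * (C + m + a) := mul_nonneg (mul_nonneg two_pos.le H.d0) H.g0
  have h56 := H.h56; have hc0 := H.c0; have hF := H.hF; have h7 := H.h7; have h36 := H.h36
  have h4 := H.h4; have hcκ := H.cκ; have hμ0 := H.μ0
  have hF0 : 0 ≤ F := by linarith
  have hK0 : 0 ≤ K := H.κ0.trans hκK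
  obtain ⟨D, hDd⟩ : ∃ D, D = 2 * d * (C + m + a) := ⟨_, rfl⟩
  obtain ⟨x, hx, hxl⟩ : ∃ x, Xp n₁ C₁ (C₁ + m₁ + a₁) D x ∧ 80 * n₁ + 40 * x ≤
      73 * K + 120 * D := by
    rw [← hDd] at hD0 hF
    refine ⟨max (max (3 / 4 * C₁ + D) (2 / 5 * (C₁ + m₁ + a₁) + 12 / 5 * D))
      (max ((C₁ + m₁ + a₁) - n₁ / 2 + 2 * D) ((C₁ + m₁ + a₁) / 4 + 3 * D)),
      ⟨(le_max_left _ _).trans (le_max_left _ _), (le_max_right _ _).trans (le_max_left _ _),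
        (le_max_left _ _).trans (le_max_right _ _),
        (le_max_right _ _).trans (le_max_right _ _)⟩, ?_⟩
    have : max (max (3 / 4 * C₁ + D) (2 / 5 * (C₁ + m₁ + a₁) + 12 / 5 * D))
      (max ((C₁ + m₁ + a₁) - n₁ / 2 + 2 * D) ((C₁ + m₁ + a₁) / 4 + 3 * D)) ≤
        (73 * K + 120 * D - 80 * n₁) / 40 := by
      refine max_le (max_le ?_ ?_) (max_le ?_ ?_) <;> linarith
    linarith
  rw [hDd] at hx hxl
  obtain ⟨hRp, hSb⟩ := hQ K A₁ B₁ C₁ m₁ a₁ n₁ x (hS'.toW H) hx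
  obtain ⟨d₀, hd0⟩ : ∃ d₀, 3 * d₀ = 3 * n₁ - 2 * K := ⟨(3 * n₁ - 2 * K) / 3, by ring⟩
  have h := G.rgx K (2 * n₁ - K) A₁ B₁ C₁ m₁ a₁ n₁ d₀ F q6 q7 q8 (by linarith) (by linarith)
    (by linarith) hn1 (by linarith) (by linarith) (by linarith) (by linarith) (by linarith)
    (by linarith) hF0 (by linarith) (by linarith)
    (prem_self R S H G hS' hxl hRp (hSb IH) IH)
    (prem_rep R S H hS' hxl hRp hd0 (by linarith))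
    (2 * n₁ - K) (by linarith) le_rfl
  have hm : max 0 ((2 * n₁ - K + K - 2 * n₁) / 3) = 0 := max_eq_left (by linarith)
  rw [hm] at h
  linarith

/-- all levels of the Gauss side -/
theorem key3x {Q : ℝ → ℝ → Multiset ℝ → ℝ → ℝ → ℝ → Prop} (R : ExpRules (7 / 8 + d) r s)
    (S : ExpS0 s s₀)
    {κ A B C m a c μ F : ℝ} (H : T3H d κ A B C m a c μ F) (G : ExpRGx c r s₀ Q)
    (hQ : QAllx Q r d κ A B C m a c μ F)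
    {A' B' C' m' a' : ℝ} (hs : Sub3 A' B' C' m' a' A B C m a)
    {K : ℝ} (hκK : κ ≤ K)
    (IH : 3 * K < 4 * (A' + B' + C' + m' + a') → IHyp r c F K A' B' C' m' a')
    {f : ℝ} (hf : 0 ≤ f) (hft : f ≤ 2 * (A' + B' + C' + m' + a') - K) :
    s₀ f {A', B', C'} m' a' ≤ 4 / 3 * (A' + B' + C' + m' + a') + (K + f) / 3 + F := by
  have hs' := hs
  obtain ⟨hA0, hA1, hB0, hB1, hC0, hC1, hm0, hm1, ha0, ha1⟩ := hs'
  have hAC := H.AC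
  have hBC := H.BC
  have h2 := H.h2
  have h4 := H.h4
  have h56 := H.h56
  have hc0 := H.c0
  rcases le_or_gt (f + C') ((A' + B' + m' + a' + K) / 2) with h | hfC
  · refine lump3 R S H hs hC0 hA0 hB0 (by linarith) (by ring) ?_ hκK hf h
    show A' ::ₘ B' ::ₘ {C'} = C' ::ₘ A' ::ₘ {B'}
    rw [Multiset.cons_swap C' A']
    congr 1
    exact Multiset.pair_comm B' C'
  rcases le_or_gt (f + B') ((A' + C' + m' + a' + K) / 2) with h | hfB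
  · refine lump3 R S H hs hB0 hA0 hC0 (by linarith) (by ring) ?_ hκK hf h
    exact Multiset.cons_swap _ _ _
  rcases le_or_gt (f + A') ((B' + C' + m' + a' + K) / 2) with h | hfA
  · exact lump3 R S H hs hA0 hB0 hC0 (by linarith) (by ring) rfl hκK hf h
  -- REM
  obtain ⟨x, hx⟩ : ∃ x, x = (2 * (A' + B' + C' + m' + a') - K - f) / 3 := ⟨_, rfl⟩
  have hx0 : 0 ≤ x := by linarith
  have hxw : 2 * x ≤ m' + a' := by linarith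
  obtain ⟨b, e, hbc, hb0, hbm, he0, hea⟩ : ∃ b e : ℝ, b + e = x ∧ 0 ≤ b ∧ b ≤ m' ∧ 0 ≤ e ∧
      e ≤ a' := by
    rcases le_total x m' with h | h
    · exact ⟨x, 0, by ring, hx0, h, le_rfl, ha0⟩
    · exact ⟨m', x - m', by ring, hm0, le_rfl, by linarith, by linarith⟩
  obtain ⟨n, hn⟩ : ∃ n, n = A' + B' + C' + (m' - b) + (a' - e) := ⟨_, rfl⟩
  have hfn : f + (b + e) = 2 * n - K := by linarith
  have hS : St3 κ A B C m a K A' B' C' (m' - b) (a' - e) n :=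
    ⟨hκK, ⟨hA0, hA1, hB0, hB1, hC0, hC1, by linarith, by linarith, by linarith, by linarith⟩,
      hn, by linarith, by linarith, by linarith, by linarith⟩
  have hIH := IH (by linarith)
  have htop := rg_top_x R S H G hQ hS (fun K' A₂ B₂ C₂ m₂ a₂ hK' h2' hc2 =>
    hIH K' A₂ B₂ C₂ m₂ a₂ hK' ⟨h2'.A0, h2'.A1, h2'.B0, h2'.B1, h2'.C0, h2'.C1, h2'.m0,
      h2'.m1.trans (by linarith), h2'.a0, h2'.a1.trans (by linarith)⟩ (by linarith))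
  have hcau := S.cau f {A', B', C'} m' a' b e hf hs.ok hb0 hbm he0 hea
  rw [hfn] at hcau
  linarith

/-- the claim from the claims before -/
theorem cl_step_x {Q : ℝ → ℝ → Multiset ℝ → ℝ → ℝ → ℝ → Prop} (R : ExpRules (7 / 8 + d) r s)
    (S : ExpS0 s s₀)
    {κ A B C m a c μ F : ℝ} (H : T3H d κ A B C m a c μ F) (G : ExpRGx c r s₀ Q)
    (hQ : QAllx Q r d κ A B C m a c μ F)
    {A' B' C' m' a' : ℝ} (hs : Sub3 A' B' C' m' a' A B C m a)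
    {K : ℝ} (hκK : κ ≤ K)
    (IH : 3 * K < 4 * (A' + B' + C' + m' + a') → IHyp r c F K A' B' C' m' a') :
    Cl3 r K F A' B' C' m' a' := by
  have hK0 : 0 ≤ K := H.κ0.trans hκK
  have h56 := H.h56
  have hc0 := H.c0
  have hF := H.hF
  have hμ0 := H.μ0
  have hs' := hs
  obtain ⟨hA0, hA1, hB0, hB1, hC0, hC1, hm0, hm1, ha0, ha1⟩ := hs'
  have hD0 : 0 ≤ 2 * d * (C + m + a) := mul_nonneg (mul_nonneg two_pos.le H.d0) H.g0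
  refine R.poisC K {A', B', C'} m' a' (K + (A' + B' + C' + m' + a') + F) hK0 hs.ok
    (by rw [sum3]; linarith) (by rw [sum3]; linarith) ?_
  intro Y'' m'' a'' i hY'' hm0' hm1' ha0' ha1' hi hii
  obtain ⟨A₂, B₂, C₂, rfl, hA0', hA1', hB0', hB1', hC0', hC1'⟩ := sh3 hY''
  rw [sum3] at hii ⊢
  rw [sum3]
  have hs2 : Sub3 A₂ B₂ C₂ m'' a'' A' B' C' m' a' :=
    ⟨hA0', hA1', hB0', hB1', hC0', hC1', hm0', hm1', ha0', ha1'⟩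
  have key : ∀ f : ℝ, 0 ≤ f → f ≤ 2 * (A₂ + B₂ + C₂ + m'' + a'') - K →
      s₀ f {A₂, B₂, C₂} m'' a'' ≤ 4 / 3 * (A₂ + B₂ + C₂ + m'' + a'') + (K + f) / 3 + F :=
    fun f hf hft => key3x R S H G hQ (hs2.trans hs) hκK
      (fun h34 K' A₃ B₃ C₃ m₃ a₃ hK' h3 hc3 =>
        IH (by linarith) K' A₃ B₃ C₃ m₃ a₃ hK' (h3.trans hs2) (by linarith)) hf hft
  have hcube := S.cube i {A₂, B₂, C₂} m'' a''
    (4 / 3 * (A₂ + B₂ + C₂ + m'' + a'') + (K + i) / 3 + F) hi hs2.ok (fun u hu hu3 => by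
      have := key (i - 3 * u) (by linarith) (by linarith)
      linarith)
  linarith

/-- **T3a, core, exceptional class** -/
theorem T3a_core_x {Q : ℝ → ℝ → Multiset ℝ → ℝ → ℝ → ℝ → Prop} (R : ExpRules (7 / 8 + d) r s)
    (S : ExpS0 s s₀)
    {κ A B C m a c μ F : ℝ} (H : T3H d κ A B C m a c μ F) (G : ExpRGx c r s₀ Q)
    (hQ : QAllx Q r d κ A B C m a c μ F)
    (hA : 0 ≤ A) (hB : 0 ≤ B) (hC : 0 ≤ C) (hm : 0 ≤ m) (ha : 0 ≤ a) {K : ℝ} (hκK : κ ≤ K) :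
    Cl3 r K F A B C m a := by
  obtain ⟨N, hN⟩ : ∃ N, N = A + B + C + m + a := ⟨_, rfl⟩
  have hN0 : 0 ≤ N := by linarith
  have main : ∀ k : ℕ, ∀ K A' B' C' m' a' : ℝ, κ ≤ K → Sub3 A' B' C' m' a' A B C m a →
      A' + B' + C' + m' + a' - K ≤ -(2 * N) + k * c → Cl3 r K F A' B' C' m' a' := by
    intro k
    induction k with
    | zero =>
      intro K A' B' C' m' a' hK hs hn
      refine cl_step_x R S H G hQ hs hK fun h34 => ?_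
      exfalso
      have := hs.A0; have := hs.B0; have := hs.C0; have := hs.m0; have := hs.a0
      have := hs.A1; have := hs.B1; have := hs.C1; have := hs.m1; have := hs.a1
      simp only [Nat.cast_zero, zero_mul] at hn
      linarith
    | succ k ih =>
      intro K A' B' C' m' a' hK hs hn
      refine cl_step_x R S H G hQ hs hK fun _ => ?_
      intro K' A₂ B₂ C₂ m₂ a₂ hK' h2 hc2
      refine ih K' A₂ B₂ C₂ m₂ a₂ (hK.trans hK') (h2.trans hs) ?_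
      push_cast at hn
      linarith
  obtain ⟨k, hk⟩ := exists_nat_ge ((3 * N + |K|) / c)
  refine main k K A B C m a hκK ⟨hA, le_rfl, hB, le_rfl, hC, le_rfl, hm, le_rfl, ha, le_rfl⟩ ?_
  rw [div_le_iff₀ H.c0] at hk
  have := neg_abs_le K
  linarith

/-! ### the literal side conditions -/

/-- `QL` for the replaced sides -/
theorem QL_rep (R : ExpRules (7 / 8 + d) r s) (S : ExpS0 s s₀) {κ A B C m a c μ F : ℝ}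
    (H : T3H d κ A B C m a c (2 * μ) F)
    {K A₁ B₁ C₁ m₁ a₁ n₁ x : ℝ} (hS : StW κ A B C m a K A₁ B₁ C₁ m₁ a₁ n₁)
    (hX : Xp n₁ C₁ (C₁ + m₁ + a₁) (2 * d * (C + m + a)) x) :
    QRep (QL (7 / 8 + d) r s₀ c μ) d C m a (2 * μ) F K C₁ m₁ a₁ n₁ x := by
  intro K' v z₁ z₂ z₃ m₂ a₂ n₂ E hK' hs2 hL h7 hz
  refine QL_static R H hS hX hK' hs2 hL ?_
  intro x₁ x₂ x₃ m₃ a₃ n₃ hs3 hn3 hc3
  obtain ⟨b, hb⟩ : ∃ b, b = n₂ - n₃ := ⟨_, rfl⟩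
  rw [← hb]
  have hc0 := H.c0
  have hF := H.hF
  have hμ0 := H.μ0
  have hb0 : 0 ≤ b := by linarith
  have hv0 := hL.v0
  have hl0 := hL.l0
  have hsw := hs2.sub hs3 hn3
  have hx2 := hs3.B1
  have hz0 := hs2.z2
  have hx20 := hs3.B0
  rcases le_or_gt (2 * v + 3 * z₂) (n₂ + K') with h | h
  · have := rep_level R S H hS hsw (f := v + 2 * b) (K' := K' + 5 * b) (by linarith)
      (by linarith) (by linarith)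
    linarith
  · have h0 : z₂ = 0 := by
      rcases hz with h' | h'
      · linarith
      · exact h'
    have := rep_level R S H hS hsw (f := v + 2 * b) (K' := 2 * v - n₂ + 5 * b) (by linarith)
      (by linarith) (by linarith)
    linarith

/-- `QL` for the sub-sides -/
theorem QL_sub (R : ExpRules (7 / 8 + d) r s) (S : ExpS0 s s₀) {κ A B C m a c μ F : ℝ}
    (H : T3H d κ A B C m a c (2 * μ) F) (G : ExpRGx c r s₀ (QL (7 / 8 + d) r s₀ c μ))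
    {K A₁ B₁ C₁ m₁ a₁ n₁ x : ℝ} (hS : StW κ A B C m a K A₁ B₁ C₁ m₁ a₁ n₁)
    (hX : Xp n₁ C₁ (C₁ + m₁ + a₁) (2 * d * (C + m + a)) x)
    (IH : IHyp r c F K A₁ B₁ C₁ m₁ a₁) :
    QSub (QL (7 / 8 + d) r s₀ c μ) d A B C m a (2 * μ) F K A₁ B₁ C₁ m₁ a₁ n₁ x := by
  have hRp := QL_rep R S H hS hX
  have hn1 := hS.n1
  have hc0 := H.c0
  have main : ∀ k : ℕ, ∀ K' v A₂ B₂ C₂ m₂ a₂ n₂ E : ℝ, K ≤ K' →
      Sub3 A₂ B₂ C₂ m₂ a₂ A₁ B₁ C₁ m₁ a₁ → n₂ = A₂ + B₂ + C₂ + m₂ + a₂ → n₂ ≤ k * c →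
      LQ K' v n₂ E n₁ C₁ (C₁ + m₁ + a₁) (2 * d * (C + m + a)) x F (2 * μ) → n₂ + v + F ≤ E →
      QL (7 / 8 + d) r s₀ c μ K' v {A₂, B₂, C₂} m₂ a₂ E := by
    intro k
    induction k with
    | zero =>
      intro K' v A₂ B₂ C₂ m₂ a₂ n₂ E hK' hs2 hn2 hnk hL h7
      refine QL_static R H hS hX hK' (hs2.sw hn2 hn1) hL ?_
      intro A₃ B₃ C₃ m₃ a₃ n₃ hs3 hn3 hc3
      exfalso
      have := hs3.A0; have := hs3.B0; have := hs3.C0; have := hs3.m0; have := hs3.a0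
      simp only [Nat.cast_zero, zero_mul] at hnk
      linarith
    | succ k ih =>
      intro K' v A₂ B₂ C₂ m₂ a₂ n₂ E hK' hs2 hn2 hnk hL h7
      refine QL_static R H hS hX hK' (hs2.sw hn2 hn1) hL ?_
      intro A₃ B₃ C₃ m₃ a₃ n₃ hs3 hn3 hc3
      obtain ⟨b, hb⟩ : ∃ b, b = n₂ - n₃ := ⟨_, rfl⟩
      rw [← hb]
      have hb0 : 0 ≤ b := by linarith
      have hs31 := hs3.trans hs2
      have hLs := hL.step hb0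
      have hn21 := (hs2.sw hn2 hn1).n21
      have e3 : n₂ - b = n₃ := by linarith
      rw [e3] at hLs
      have hcl := IH (K' + 3 * b) A₃ B₃ C₃ m₃ a₃ (by linarith) hs31 (by linarith)
      exact bess_sub R S H G hS hRp (by linarith) hs31 hn3 hLs (by linarith) hcl
        (ih (K' + 3 * b) (v + 2 * b) A₃ B₃ C₃ m₃ a₃ n₃ (E + b) (by linarith) hs31 hn3
          (by push_cast at hnk; linarith) hLs (by linarith))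
  intro K' v A₂ B₂ C₂ m₂ a₂ n₂ E hK' hs2 hn2 hL h7
  obtain ⟨k, hk⟩ := exists_nat_ge (n₂ / c)
  refine main k K' v A₂ B₂ C₂ m₂ a₂ n₂ E hK' hs2 hn2 ?_ hL h7
  rwa [div_le_iff₀ H.c0] at hk

/-- **T3a** from the RG fields of the exceptional class: three big lumps -/
theorem T3a_rgx (R : ExpRules (7 / 8 + d) r s) (Rm : ExpRGFx (7 / 8 + d) r s s₀) (hd : 0 ≤ d)
    (hd8 : 8 * d ≤ 1)
    {κ A B C m a : ℝ} (hκ : 0 ≤ κ) (hA : 0 ≤ A) (hB : 0 ≤ B) (hC : 0 ≤ C) (hm : 0 ≤ m)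
    (ha : 0 ≤ a) (hAC : A + C ≤ A + B) (hBC : B + C ≤ A + B) (h4 : 4 * C ≤ κ)
    (h2 : A + B + 2 * C ≤ κ)
    (h56 : 6 * (A + B + C + m + a) ≤ 5 * κ)
    (h36 : 40 * (A + B + C + m + a) + 9 * (C + m + a) ≤ 36 * κ)
    (h59 : 5 * (A + B) + 9 * (m + a) ≤ 5 * κ) (hamp : 3 * (m + 2 * a) ≤ 2 * κ)
    (h7 : 80 * (A + B + C + m + a) + 30 * C ≤ 73 * κ) :
    ∀ κ' : ℝ, 0 ≤ κ' → κ' ≤ κ →
      r κ' {A, B, C} m a + (κ - κ') / 3 ≤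
        κ + (A + B + C + m + a) + 2 * d * (C + m + a) := by
  intro κ' hκ0 hκ'
  refine le_of_forall_pos_le_add fun ε hε => ?_
  obtain ⟨c, μ, hc, hμ, hcμ, G⟩ := Rm.rgf (ε / 100) (by positivity)
  have H : T3H d (κ + 120 * (ε / 100)) A B C m a c (2 * μ)
      (2 * d * (C + m + a) + 2 * μ + 2 * c) := by
    constructor <;> first | assumption | linarith
  have h := T3a_core_x R Rm.toExpS0 H G
    (fun K A₁ B₁ C₁ m₁ a₁ n₁ x hS hX => ⟨QL_rep R Rm.toExpS0 H hS hX,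
      QL_sub R Rm.toExpS0 H G hS hX⟩) hA hB hC hm ha le_rfl κ' hκ0 (by linarith)
  linarith

end Crest.Agent.R017.SC777
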