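import Crest.Agent.R017.NearA_59
import Crest.Agent.R017.SideT3_777
import Crest.Agent.R017.RGx_590
import Crest.Agent.R017.T3Fld_986

/-!
# Row 17, section D: `H3` from helper777's `T3a` (helper59)

The only place where the near-equal boxes use REM: one call of `T3a` at the family `A + B + 2 C`, with
`m = a = 0` and `A + B ≤ 3 C`; every extra condition of the column `t3a` (`h7` .. `h11`, `h13`, `h14`)
holds there.
-/

set_option autoImplicit false

noncomputable section

namespace Crest.Agent.R017.Near59

open Crest.Agent.R017.ER911 Crest.Agent.R017.SC777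

variable {d : ℝ} {r s s₀ : EF}

theorem h3 (R : ExpRules (7 / 8 + d) r s) (Rm : ExpRem (7 / 8 + d) r s s₀) (hd : 0 ≤ d) :
    H3 d r := by
  intro A B C hC hCA hCB hAB κ' k0 k1
  have h := T3a R Rm hd (κ := A + B + 2 * C) (A := A) (B := B) (C := C) (m := 0) (a := 0)
    (by linarith) (by linarith) (by linarith) hC.le le_rfl le_rfl (by linarith) (by linarith)
    (by linarith) le_rfl (by linarith) (by linarith) (by linarith) (by linarith) κ' k0 k1
  have h1 : 0 ≤ d / 10 * (A + B + 2 * C) := mul_nonneg (by linarith) (by linarith)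
  linarith

/-- the same from the RG fields (`ExpRGFx`, both classes), through helper590's `T3a_rgx` -/
theorem h3x (R : ExpRules (7 / 8 + d) r s) (Rm : ExpRGFx (7 / 8 + d) r s s₀) (hd : 0 ≤ d)
    (hd8 : 8 * d ≤ 1) : H3 d r := by
  intro A B C hC hCA hCB hAB κ' k0 k1
  have h := T3a_rgx R Rm hd hd8 (κ := A + B + 2 * C) (A := A) (B := B) (C := C) (m := 0) (a := 0)
    (by linarith) (by linarith) (by linarith) hC.le le_rfl le_rfl (by linarith) (by linarith)
    (by linarith) le_rfl (by linarith) (by linarith) (by linarith) (by linarith) (by linarith)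
    κ' k0 k1
  have h1 : 0 ≤ d / 10 * (A + B + 2 * C) := mul_nonneg (by linarith) (by linarith)
  linarith

/-- the same from the field of the bundle -/
theorem h3f (Rm : T3F986.T3Fld (7 / 8 + d) r) (hd : 0 ≤ d) : H3 d r := by
  intro A B C hC hCA hCB hAB κ' k0 k1
  have h := Rm.t3a' (κ := A + B + 2 * C) (A := A) (B := B) (C := C) (m := 0) (a := 0)
    (by linarith) hC.le le_rfl le_rfl hCA hCB
    (by linarith) le_rfl (by linarith) (by linarith) (by linarith) (by linarith) (by linarith)
    (by linarith) (by linarith) (by linarith) (by linarith) κ' k0 k1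
  have h1 : 0 ≤ d / 10 * (A + B + 2 * C) := mul_nonneg (by linarith) (by linarith)
  linarith

end Crest.Agent.R017.Near59
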