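import Crest.Agent.R017.NearB_59
import Crest.Agent.R017.Near3_59
import Crest.Agent.R017.BoxAll_702

/-!
# Row 17, section D: near-equal boxes over short families (helper59)

`nearB` : helper702's `NearB` from helper954's `CoreL`.
-/

set_option autoImplicit false

noncomputable section

namespace Crest.Agent.R017.Near59

open Crest.Agent.R017.ER911 Crest.Agent.R017.ExpC702
open Crest.Agent.R017.Cone59 hiding Al
open Crest.Agent.R017.R8C918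
open Crest.Agent.R017.CovBig954 Crest.Agent.R017.Prov71 Crest.Agent.R017.BoxAll702
open Crest.Agent.R017.Scale770 (rs)

variable {θ : ℝ} {r s s₀ rc bx : EF}

lemma exists_fin (W : Multiset ℝ) : ∃ (N : ℕ) (u : Fin N → ℝ), Finset.univ.val.map u = W := by
  refine ⟨W.toList.length, W.toList.get, ?_⟩
  rw [Fin.univ_val_map, List.ofFn_get, Multiset.coe_toList]

/-- every box over a family `κ ≤ 9/10` -/
theorem box_short (hθ : 7 / 8 ≤ θ) (hθ1 : θ ≤ 1) {e₀ t₀ μ : ℝ} (ht0 : 0 ≤ t₀)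
    (ht3 : t₀ ≤ 1 / 3) (hμ : 0 ≤ μ) (he : 2 * e₀ + (2 * θ - 1) * t₀ + μ ≤ b2 θ)
    (H : CovAll θ e₀ t₀) (P : ProvE θ r s s₀ rc bx) {κ m a : ℝ} {W : Multiset ℝ}
    (hW : ∀ y ∈ W, 0 < y) (hm : 0 ≤ m) (ha : 0 ≤ a) (hκ : 0 < κ) (hκ9 : κ ≤ 9 / 10)
    (hq : W.sum + m ≤ 4 / 3) (ha3 : a ≤ 1 / 3) (hqa : W.sum + m - a ≤ 1) :
    bx κ W m a ≤ Tg2 θ κ (W.sum + m) a - κ * min μ ((θ - 7 / 8) / 3) / 2 := by
  obtain ⟨d, rfl⟩ : ∃ d, θ = 7 / 8 + d := ⟨θ - 7 / 8, by ring⟩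
  obtain ⟨N, u₀, hu₀⟩ := exists_fin W
  obtain ⟨σ, hσ⟩ := exists_antitone u₀
  obtain ⟨u, hu⟩ : ∃ u : Fin N → ℝ, u = u₀ ∘ σ := ⟨_, rfl⟩
  have hmap : Finset.univ.val.map u = W := by rw [hu, map_perm, hu₀]
  have hsum : ∑ j, u j = W.sum := by rw [← hmap]; rfl
  rw [← hu] at hσ
  have hupos : ∀ j, 0 < u j := fun j => hW _ (by
    rw [← hmap]; exact Multiset.mem_map_of_mem u (Finset.mem_univ j))
  have hsc : ∑ j, u j / κ = W.sum / κ := by rw [← Finset.sum_div, hsum]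
  have hd : 0 ≤ d := by linarith
  have h := box_small (d := d) hd (by linarith) ht0 ht3 hμ he H (prov_scale hκ P)
    (h3f (prov_scale hκ P).rem hd)
    (u := fun j => u j / κ) (fun i j hij => div_le_div_of_nonneg_right (hσ hij) hκ.le)
    (fun j => div_pos (hupos j) hκ) (m := m / κ) (a := a / κ) (ρ := κ⁻¹) (div_nonneg hm hκ.le)
    (div_nonneg ha hκ.le)
    (by rw [le_inv_comm₀ (by norm_num) hκ]; norm_num; exact hκ9)
    (by
      rw [hsc, ← add_div, ← sub_div, div_le_iff₀ hκ, inv_mul_cancel₀ hκ.ne']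
      exact hqa)
    (by
      rw [hsc, ← add_div, ← add_div, div_le_iff₀ hκ, mul_assoc, inv_mul_cancel₀ hκ.ne']
      linarith)
    (by
      rw [← mul_div_assoc, div_le_iff₀ hκ, inv_mul_cancel₀ hκ.ne']
      linarith)
  rw [← hmap, box_scale bx u hκ]
  rw [hsc] at h
  have e1 : W.sum / κ + m / κ = (W.sum + m) / κ := by rw [add_div]
  have e2 : W.sum / κ + m / κ + a / κ = (W.sum + m + a) / κ := by rw [add_div, add_div]
  rw [e2, e1] at h
  have h2 := mul_le_mul_of_nonneg_left h hκ.le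
  have h3 := Al_target (d := d) (h := κ) (q := W.sum + m) (c := a) hκ
  have e3 : (7 / 8 + d - 7 / 8) / 3 = d / 3 := by ring
  rw [hmap, e3]
  rw [hmap] at *
  have e4 : κ * (1 + ((W.sum + m + a) / κ + (Al d κ⁻¹ ((W.sum + m) / κ) (a / κ) -
      min μ (d / 3))) / 2) = κ * (1 + ((W.sum + m + a) / κ +
      Al d κ⁻¹ ((W.sum + m) / κ) (a / κ)) / 2) - κ * min μ (d / 3) / 2 := by ring
  linarith

/-- **helper702's `NearB`** -/
theorem nearB (hθ : 7 / 8 ≤ θ) (hθ1 : θ ≤ 1) {e₀ t₀ μ : ℝ} (ht0 : 0 ≤ t₀)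
    (ht3 : t₀ ≤ 1 / 3) (hμ : 0 ≤ μ) (he : 2 * e₀ + (2 * θ - 1) * t₀ + μ ≤ b2 θ)
    (H : CovAll θ e₀ t₀) (P : ProvE θ r s s₀ rc bx) :
    NearB θ (min μ ((θ - 7 / 8) / 3) / 20) bx := by
  intro κ m a y₁ y₂ y₃ y₄ y₅ V h21 h32 h43 h54 h5 hV hm ha hκ hκ9 hq ha3 hqa _
  have hsum : (y₁ ::ₘ y₂ ::ₘ y₃ ::ₘ y₄ ::ₘ y₅ ::ₘ V).sum = y₁ + y₂ + y₃ + y₄ + y₅ + V.sum := by
    simp only [Multiset.sum_cons]
    ring
  have h := box_short hθ hθ1 ht0 ht3 hμ he H P (κ := κ) (m := m) (a := a)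
    (W := y₁ ::ₘ y₂ ::ₘ y₃ ::ₘ y₄ ::ₘ y₅ ::ₘ V) (by
      intro y hy
      simp only [Multiset.mem_cons] at hy
      rcases hy with rfl | rfl | rfl | rfl | rfl | hy
      · linarith
      · linarith
      · linarith
      · linarith
      · exact h5
      · exact (hV y hy).1) hm ha (by linarith) hκ9 (by rw [hsum]; exact hq) ha3
    (by rw [hsum]; exact hqa)
  rw [hsum] at h
  have h0 : 0 ≤ min μ ((θ - 7 / 8) / 3) := le_min hμ (by linarith)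
  nlinarith

end Crest.Agent.R017.Near59
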