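import Crest.Agent.R017.CovMap_702
import Crest.Agent.R017.NearC_59

/-!
# Row 17, T.2 : the certificate of the absolute boxes from the leaves (helper702)
-/

set_option autoImplicit false

noncomputable section

namespace Crest.Agent.R017.CovFin702

open Crest.Agent.R017.ER911 Crest.Agent.R017.Cone59 Crest.Agent.R017.CovMap702
  Crest.Agent.R017.ExpC702 Crest.Agent.R017.Prov71 Crest.Agent.R017.CovM59

/-- the near-equal boxes over short families, from the leaves -/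
theorem nearAll (H : Leaves) : NearAll := by
  intro d h0 h8
  obtain ⟨e₀, t, μ, ht, ht3, hμ, he, hc⟩ := covAll_of_map H h0 h8
  exact ⟨_, div_pos (lt_min hμ (by linarith)) (by norm_num), fun r s s₀ rc bc B =>
    Near59.nearB (by linarith) (by linarith) ht ht3 hμ.le he hc B⟩

/-- **the certificate of the absolute boxes from the leaves** -/
theorem certA (H : Leaves) {θ : ℝ} (hθ : 7 / 8 < θ) (hθ1 : θ < 1) :
    ∃ μ : ℝ, 0 < μ ∧ μ ≤ 1 / 12 ∧ ∀ r s s₀ rc bc : EF, ProvE θ r s s₀ rc bc →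
      TopC702.BoxAll θ μ (BxE986.AL (9 / 10) 1 w5) bc :=
  certA_of_map H (nearAll H) hθ hθ1

/-- the coverage from the leaves, `θ` form -/
theorem covAll (H : Leaves) {θ : ℝ} (hθ : 7 / 8 < θ) (hθ1 : θ < 1) :
    ∃ e₀ t μ : ℝ, 0 ≤ t ∧ t ≤ 1 / 3 ∧ 0 < μ ∧ 2 * e₀ + (2 * θ - 1) * t + μ ≤ b2 θ ∧
      BoxAll702.CovAll θ e₀ t := by
  obtain ⟨d, rfl⟩ : ∃ d, θ = 7 / 8 + d := ⟨θ - 7 / 8, by ring⟩
  exact covAll_of_map H (by linarith) (by linarith)

end Crest.Agent.R017.CovFin702
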