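import Crest.Agent.R017.CovSmall_741
import Crest.Agent.R017.CoreM_59
import Crest.Agent.R017.ColG_59
import Crest.Agent.R017.CovDefs_499

/-!
# Row 17, section D: glue of the coverage (helper741)

From the reals-only coverage statements (`Cov0`, `Cov2` of 499) to the master coverage `CovM` of 59.

* `MCol rc e₀ Y N` : all granular contents of `Y` up to total length `N` are ideal
* `Inp C0 C2 rc e₀ t` : what is used about the columns (main columns, void, `K0`, `E_y`)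
* `fill` : convex combinations with scaled amplifier
* `weights` : the arithmetic of the weights (no trimming / trimming)
* `small_core`, `moeb_core` : the two kinds of small classes
* `CG0`, `CG2`, `Good C0 C2 y₀ w` : the coverage of the big lumps `w` (`> y₀`), generic columns
* `covM_of_good` : `Good` for the big lumps of `u` gives `CovM rc e₀ t u 1`, `∑ u ≤ 4/3`
-/

set_option autoImplicit false

noncomputable section

namespace Crest.Agent.R017.CovGlue741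

open Crest.Agent.R017.ER911 Crest.Agent.R017.Hull741 Crest.Agent.R017.CovM59
  Crest.Agent.R017.CovSmall741 Crest.Agent.R017.Cov499

/-! ### 1. General facts -/

theorem col_push (r : EF) (e₀ : ℝ) : PushStable fun _ u => Col r e₀ u := by
  rintro k N ι u n M A ⟨hM, hA, h⟩
  exact ⟨hM, hA, fun f g hf hg h1 h2 => ideal_push r 1 e₀ k N ι u n f g (h f g hf hg h1 h2)⟩

/-- **convex combination with scaled amplifier** -/
theorem fill {N : ℕ} {Id : (Fin N → ℕ) → ℝ → ℝ → Prop} {ι : Type*} [Fintype ι] (p : ι → ℝ)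
    (hp : ∀ q, 0 ≤ p q) (x : ι → Fin N → ℝ) (M G : ι → ℝ) (hG : ∀ q, 0 ≤ G q)
    (hc : ∀ q a, 0 ≤ a → a ≤ G q → ((x q, M q, a) : Mon N) ∈ Hull Id)
    (hv : ∀ a, 0 ≤ a → a ≤ 2 / 3 → (((fun _ => 0), 0, a) : Mon N) ∈ Hull Id)
    {wE w0 : ℝ} (hwE : 0 ≤ wE) (hw0 : 0 ≤ w0) (hw : ∑ q, p q + wE + w0 = 1)
    {xE : Fin N → ℝ} {ME AE : ℝ} (hE : ((xE, ME, AE) : Mon N) ∈ Hull Id)
    {A : ℝ} (hA1 : wE * AE ≤ A) (hA2 : A ≤ ∑ q, p q * G q + wE * AE + 2 / 3 * w0) :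
    ((fun j => ∑ q, p q * x q j + wE * xE j, ∑ q, p q * M q + wE * ME, A) : Mon N) ∈
      Hull Id := by
  classical
  set D := ∑ q, p q * G q + 2 / 3 * w0 with hD
  have hD0 : 0 ≤ D :=
    add_nonneg (Finset.sum_nonneg fun q _ => mul_nonneg (hp q) (hG q)) (by positivity)
  obtain ⟨l, hl0, hl1, hl⟩ : ∃ l : ℝ, 0 ≤ l ∧ l ≤ 1 ∧ l * D = A - wE * AE := by
    rcases hD0.eq_or_lt with h | h
    · exact ⟨0, le_rfl, zero_le_one, by rw [zero_mul]; linarith⟩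
    · exact ⟨(A - wE * AE) / D, div_nonneg (by linarith) h.le, (div_le_one h).2 (by linarith),
        div_mul_cancel₀ _ h.ne'⟩
  let w : Option (Option ι) → ℝ := fun o => o.elim wE fun o => o.elim w0 p
  let z : Option (Option ι) → Mon N := fun o => o.elim (xE, ME, AE) fun o =>
    o.elim ((fun _ => 0), 0, l * (2 / 3)) fun q => (x q, M q, l * G q)
  have hw' : ∀ o ∈ (Finset.univ : Finset (Option (Option ι))), 0 ≤ w o := by
    intro o _
    rcases o with _ | _ | q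
    · exact hwE
    · exact hw0
    · exact hp q
  have hw1 : ∑ o, w o = 1 := by
    rw [Fintype.sum_option, Fintype.sum_option]
    show wE + (w0 + ∑ q, p q) = 1
    linarith
  have hz : ∀ o ∈ (Finset.univ : Finset (Option (Option ι))), z o ∈ Hull Id := by
    intro o _
    rcases o with _ | _ | q
    · exact hE
    · exact hv _ (by positivity) (by nlinarith)
    · exact hc q _ (mul_nonneg hl0 (hG q)) (by nlinarith [hG q])
  have hmem := (convex_hull Id).sum_mem hw' hw1 hz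
  have heq : ∑ o, w o • z o =
      ((fun j => ∑ q, p q * x q j + wE * xE j, ∑ q, p q * M q + wE * ME, A) : Mon N) := by
    rw [Fintype.sum_option, Fintype.sum_option]
    refine Prod.ext ?_ (Prod.ext ?_ ?_)
    · funext j
      simp only [Prod.fst_add, Pi.add_apply, Prod.smul_fst, Pi.smul_apply, Prod.fst_sum,
        Finset.sum_apply, smul_eq_mul]
      show wE * xE j + (w0 * 0 + ∑ q, p q * x q j) = _
      ring
    · simp only [Prod.fst_add, Prod.snd_add, Prod.smul_fst, Prod.smul_snd, Prod.fst_sum,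
        Prod.snd_sum, smul_eq_mul]
      show wE * ME + (w0 * 0 + ∑ q, p q * M q) = _
      ring
    · simp only [Prod.snd_add, Prod.smul_snd, Prod.snd_sum, smul_eq_mul]
      show wE * AE + (w0 * (l * (2 / 3)) + ∑ q, p q * (l * G q)) = A
      have h1 : ∑ q, p q * (l * G q) = l * ∑ q, p q * G q := by
        rw [Finset.mul_sum]
        exact Finset.sum_congr rfl fun q _ => by ring
      rw [h1]
      rw [hD] at hl
      linarith
  rw [heq] at hmem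
  exact hmem

/-- the arithmetic of the weights -/
theorem weights {P B T R SN A t : ℝ} (hR : R = 3 / 4 * B - (P - 3 / 2 * T)) (hR0 : 0 ≤ R)
    (hP : P ≤ 1) (hP0 : 0 ≤ P) (hB : B ≤ 4 / 3)
    (hN : min R (1 - P) / 6 ≤ SN - 5 / 6 * P) (hA : A = 1 / 6 - t / 2) (ht : 0 ≤ t)
    (ht3 : t ≤ 1 / 3) :
    ∃ μ wE w0 : ℝ, 0 ≤ μ ∧ μ ≤ 1 ∧ 0 ≤ wE ∧ 0 ≤ w0 ∧ P + wE + w0 = 1 ∧
      μ * T + 2 / 3 * wE = 2 / 3 - B / 2 ∧ (R ≤ 1 - P → μ = 1) ∧ wE * A ≤ A ∧
      A ≤ (SN - B / 2 - μ * T) + wE * A + 2 / 3 * w0 := by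
  have hA0 : 0 ≤ A := by rw [hA]; linarith
  rcases le_or_gt R (1 - P) with h | h
  · rw [min_eq_left h] at hN
    refine ⟨1, 1 - P - R, R, zero_le_one, le_rfl, by linarith, hR0, by ring, ?_, fun _ => rfl,
      ?_, ?_⟩
    · rw [hR]; ring
    · nlinarith
    · have h1 : 0 ≤ (P + R) * (t / 2) := by positivity
      subst hA
      subst hR
      nlinarith
  · rw [min_eq_right h.le] at hN
    have hT : 0 < T := by linarith
    refine ⟨(2 / 3 - B / 2) / T, 0, 1 - P, div_nonneg (by linarith) hT.le, ?_, le_rfl,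
      by linarith, by ring, ?_, fun h' => absurd h' (not_le.2 h), ?_, ?_⟩
    · rw [div_le_one hT]; linarith
    · rw [div_mul_cancel₀ _ hT.ne']; ring
    · rw [zero_mul]; exact hA0
    · rw [div_mul_cancel₀ _ hT.ne', hA]
      linarith

/-! ### 2. Columns -/

/-- a main column: all granular contents up to total length `N` are ideal -/
def MCol (rc : EF) (e₀ : ℝ) (Y : Multiset ℝ) (N : ℝ) : Prop :=
  ∀ f g : ℝ, 0 ≤ f → 0 ≤ g → Y.sum + f + g ≤ N → rc 1 Y f g ≤ 1 + (Y.sum + f + g) + e₀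

theorem lum_sum {k : ℕ} (u : Fin k → ℝ) (n : Fin k → ℕ) :
    (lum u n).sum = ∑ j, (n j : ℝ) * u j := ColG59.sum_lum u n

/-- a main column with Möbius mass -/
theorem colM {rc : EF} {e₀ : ℝ} {k : ℕ} {w : Fin k → ℝ} {n : Fin k → ℕ} {M G N : ℝ}
    (hM : 0 ≤ M) (hG : 0 ≤ G) (h : MCol rc e₀ (lum w n) N) (hl : (lum w n).sum + M + G ≤ N) :
    Col rc e₀ w n M G := by
  refine ⟨hM, hG, fun f g hf hg h1 _ => ⟨hf, hg, ?_⟩⟩
  have h2 := h f g hf hg (by linarith)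
  rw [lum_sum] at h2
  exact h2

/-- a main column with copies of the small lump `y` -/
theorem colS {rc : EF} {e₀ : ℝ} {k : ℕ} {w : Fin k → ℝ} {y : ℝ} {n : Fin k → ℕ} {c : ℕ}
    {G N : ℝ} (hG : 0 ≤ G) (h : MCol rc e₀ (lum w n + Multiset.replicate c y) N)
    (hl : (lum w n).sum + c * y + G ≤ N) :
    Col rc e₀ (Fin.snoc (α := fun _ => ℝ) w y) (Fin.snoc (α := fun _ => ℕ) n c) 0 G := by
  refine ⟨le_rfl, hG, fun f g hf hg h1 _ => ⟨hf, hg, ?_⟩⟩
  have e1 : (∑ j, Multiset.replicate (Fin.snoc (α := fun _ => ℕ) n c j)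
      (Fin.snoc (α := fun _ => ℝ) w y j)) = lum w n + Multiset.replicate c y := by
    rw [Fin.sum_univ_castSucc]
    simp only [Fin.snoc_castSucc, Fin.snoc_last]
    rfl
  have e2 : (lum w n + Multiset.replicate c y).sum = (lum w n).sum + c * y := by
    rw [Multiset.sum_add, Multiset.sum_replicate, nsmul_eq_mul]
  have h2 := h f g hf hg (by rw [e2]; linarith)
  rw [e1, ← lum_sum]
  have e3 : (lum (Fin.snoc (α := fun _ => ℝ) w y) (Fin.snoc (α := fun _ => ℕ) n c)) =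
      lum w n + Multiset.replicate c y := e1
  rw [e3]
  exact h2

theorem pt_snoc {k : ℕ} (n : Fin k → ℕ) (c : ℕ) (x f g : ℝ) (hx : x = c) :
    pt (Fin.snoc (α := fun _ => ℕ) n c) f g =
      (Fin.snoc (α := fun _ => ℝ) (fun i => (n i : ℝ)) x, f, g) := by
  unfold pt
  refine Prod.ext ?_ rfl
  funext i
  refine Fin.lastCases ?_ (fun i => ?_) i
  · simp [hx]
  · simp

theorem void_mem {rc : EF} {e₀ : ℝ} {k : ℕ} {w : Fin k → ℝ}
    (h : ∀ A, 0 ≤ A → A ≤ 2 / 3 → Col rc e₀ w (fun _ => 0) 0 A) :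
    ∀ a, 0 ≤ a → a ≤ 2 / 3 → (((fun _ => 0), 0, a) : Mon k) ∈ Hull (Col rc e₀ w) := by
  intro a h0 h1
  have h2 := subset_hull (h a h0 h1)
  unfold pt at h2
  simpa using h2

/-! ### 3. Möbius mass as the small class -/

theorem sumN {M : ℕ} (p N : Fin M → ℝ) :
    ∑ q, p q * (N q - 5 / 6) = ∑ q, p q * N q - 5 / 6 * ∑ q, p q := by
  rw [Finset.mul_sum, ← Finset.sum_sub_distrib]
  exact Finset.sum_congr rfl fun q _ => by ring

theorem sumR {k M : ℕ} (u : Fin k → ℝ) (v : ℝ) (p : Fin M → ℝ) (t : Fin M → ℕ) :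
    R₁ u v p t = 3 / 4 * (∑ j, u j) - (∑ q, p q - 3 / 2 * ∑ q, p q * ((t q : ℝ) * v)) := by
  have h : ∑ q, p q * (1 - 3 / 2 * ((t q : ℝ) * v)) =
      ∑ q, p q - 3 / 2 * ∑ q, p q * ((t q : ℝ) * v) := by
    rw [Finset.mul_sum (s := Finset.univ) (a := 3 / 2), ← Finset.sum_sub_distrib]
    exact Finset.sum_congr rfl fun q _ => by ring
  unfold R₁
  rw [h]

theorem sumY {k M : ℕ} (u : Fin k → ℝ) (p : Fin M → ℝ) (n : Fin M → Fin k → ℕ)
    (hn : ∀ j, ∑ q, p q * (n q j : ℝ) = 1 / 2) :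
    ∑ q, p q * (lum u (n q)).sum = (∑ j, u j) / 2 := by
  simp only [lum_sum, Finset.mul_sum]
  rw [Finset.sum_comm, Finset.sum_div]
  refine Finset.sum_congr rfl fun j _ => ?_
  have : ∑ q, p q * ((n q j : ℝ) * u j) = (∑ q, p q * (n q j : ℝ)) * u j := by
    rw [Finset.sum_mul]
    exact Finset.sum_congr rfl fun q _ => by ring
  rw [this, hn]
  ring

/-- the rooms of the columns -/
theorem sumG {k M : ℕ} (u : Fin k → ℝ) (v μ : ℝ) (p : Fin M → ℝ) (n : Fin M → Fin k → ℕ)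
    (t : Fin M → ℕ) (N : Fin M → ℝ) (hn : ∀ j, ∑ q, p q * (n q j : ℝ) = 1 / 2) :
    ∑ q, p q * (N q - (lum u (n q)).sum - μ * ((t q : ℝ) * v)) =
      ∑ q, p q * N q - (∑ j, u j) / 2 - μ * ∑ q, p q * ((t q : ℝ) * v) := by
  rw [← sumY u p n hn, Finset.mul_sum, ← Finset.sum_sub_distrib, ← Finset.sum_sub_distrib]
  exact Finset.sum_congr rfl fun q _ => by ring

/-- **Möbius mass as the small class** -/
theorem moeb_core {rc : EF} {e₀ tt : ℝ} (htt : 0 ≤ tt) (htt3 : tt ≤ 1 / 3) {k : ℕ}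
    {w : Fin k → ℝ} (hB : ∑ j, w j ≤ 4 / 3) {v : ℝ} (hv : 0 ≤ v) {M : ℕ} (p : Fin M → ℝ)
    (n : Fin M → Fin k → ℕ) (t : Fin M → ℕ) (N : Fin M → ℝ) (hp : ∀ q, 0 ≤ p q)
    (hn : ∀ j, ∑ q, p q * (n q j : ℝ) = 1 / 2)
    (hc : ∀ q, MCol rc e₀ (lum w (n q)) (N q))
    (hlen : ∀ q, (lum w (n q)).sum + (t q : ℝ) * v ≤ N q) (hP : ∑ q, p q ≤ 1)
    (hR0 : 0 ≤ R₁ w v p t)
    (hN : min (R₁ w v p t) (1 - ∑ q, p q) / 6 ≤ ∑ q, p q * (N q - 5 / 6))
    (hvoid : ∀ A, 0 ≤ A → A ≤ 2 / 3 → Col rc e₀ w (fun _ => 0) 0 A)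
    (hK0 : Col rc e₀ w (fun _ => 0) (2 / 3) (1 / 6 - tt / 2)) :
    (((fun _ => 1 / 2), (4 / 3 - ∑ j, w j) / 2, 1 / 6 - tt / 2) : Mon k) ∈
      Hull (Col rc e₀ w) := by
  rw [sumN] at hN
  obtain ⟨μ, wE, w0, h1, h2, h3, h4, h5, h6, -, h8, h9⟩ := weights (A := 1 / 6 - tt / 2)
    (sumR w v p t) hR0 hP (Finset.sum_nonneg fun q _ => hp q) hB hN rfl htt htt3
  have hE : (((fun _ => 0), 2 / 3, 1 / 6 - tt / 2) : Mon k) ∈ Hull (Col rc e₀ w) := by
    have h := subset_hull hK0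
    unfold pt at h
    simpa using h
  have htv : ∀ q, 0 ≤ (t q : ℝ) * v := fun q => by positivity
  have hG : ∀ q, 0 ≤ N q - (lum w (n q)).sum - μ * ((t q : ℝ) * v) := fun q => by
    nlinarith [hlen q, htv q, mul_le_mul_of_nonneg_right h2 (htv q)]
  have key := fill (Id := Col rc e₀ w) p hp (fun q j => (n q j : ℝ))
    (fun q => μ * ((t q : ℝ) * v)) (fun q => N q - (lum w (n q)).sum - μ * ((t q : ℝ) * v)) hG
    (fun q a ha ha' => ?_) (void_mem hvoid) h3 h4 h5 hE h8 (by rw [sumG w v μ p n t N hn]; exact h9)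
  · convert key using 2
    · funext j
      rw [hn, mul_zero, add_zero]
    · congr 1
      have : ∑ q, p q * (μ * ((t q : ℝ) * v)) = μ * ∑ q, p q * ((t q : ℝ) * v) := by
        rw [Finset.mul_sum]
        exact Finset.sum_congr rfl fun q _ => by ring
      rw [this]
      linarith
  · have h := subset_hull (colM (M := μ * ((t q : ℝ) * v)) (G := a)
      (mul_nonneg h1 (htv q)) ha (hc q) (by linarith))
    exact h

/-! ### 4. A small lump as the small class -/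

/-- **a small lump as the small class** -/
theorem small_core {rc : EF} {e₀ tt : ℝ} (htt : 0 ≤ tt) (htt3 : tt ≤ 1 / 3) {k : ℕ}
    {w : Fin k → ℝ} (hB : ∑ j, w j ≤ 4 / 3) {y : ℝ} (hy : 0 < y) {j : ℕ} {v : ℝ}
    (hv : (j : ℝ) * y = v) {M : ℕ} (p : Fin M → ℝ)
    (n : Fin M → Fin k → ℕ) (t : Fin M → ℕ) (N : Fin M → ℝ) (hp : ∀ q, 0 ≤ p q)
    (hn : ∀ j, ∑ q, p q * (n q j : ℝ) = 1 / 2)
    (hc : ∀ q, MCol rc e₀ (lum w (n q) + Multiset.replicate (t q * j) y) (N q))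
    (hz : R₁ w v p t ≤ 1 - ∑ q, p q ∨ ∀ q, MCol rc e₀ (lum w (n q)) (N q))
    (hlen : ∀ q, (lum w (n q)).sum + (t q : ℝ) * v ≤ N q) (hP : ∑ q, p q ≤ 1)
    (hR0 : 0 ≤ R₁ w v p t)
    (hN : min (R₁ w v p t) (1 - ∑ q, p q) / 6 ≤ ∑ q, p q * (N q - 5 / 6))
    (hvoid : ∀ A, 0 ≤ A → A ≤ 2 / 3 →
      Col rc e₀ (Fin.snoc (α := fun _ => ℝ) w y) (fun _ => 0) 0 A)
    (hEy : (((fun _ => 2 / (3 * y)), 0, 1 / 6 - tt / 2) : Mon 1) ∈
      Hull (Col rc e₀ fun _ : Fin 1 => y)) :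
    ((Fin.snoc (α := fun _ => ℝ) (fun _ => 1 / 2) ((4 / 3 - ∑ j, w j) / (2 * y)), 0,
      1 / 6 - tt / 2) : Mon (k + 1)) ∈ Hull (Col rc e₀ (Fin.snoc (α := fun _ => ℝ) w y)) := by
  have hv0 : 0 ≤ v := by rw [← hv]; positivity
  rw [sumN] at hN
  obtain ⟨μ, wE, w0, h1, h2, h3, h4, h5, h6, h7, h8, h9⟩ := weights (A := 1 / 6 - tt / 2)
    (sumR w v p t) hR0 hP (Finset.sum_nonneg fun q _ => hp q) hB hN rfl htt htt3
  -- the point `E`
  have hE : ((Fin.snoc (α := fun _ => ℝ) (fun _ => 0) (2 / (3 * y)), 0, 1 / 6 - tt / 2) :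
      Mon (k + 1)) ∈ Hull (Col rc e₀ (Fin.snoc (α := fun _ => ℝ) w y)) := by
    have hcomp : (fun _ : Fin 1 => y) =
        (Fin.snoc (α := fun _ => ℝ) w y) ∘ (fun _ : Fin 1 => Fin.last k) := by
      funext i
      simp
    rw [hcomp] at hEy
    have h := hull_push (Id := fun _ u => Col rc e₀ u) (col_push rc e₀)
      (fun _ : Fin 1 => Fin.last k) (Fin.snoc (α := fun _ => ℝ) w y) hEy
    convert h using 2
    funext i
    refine Fin.lastCases ?_ (fun i => ?_) i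
    · rw [Fin.snoc_last]
      have hinj : Function.Injective fun _ : Fin 1 => Fin.last k := fun a b _ =>
        Subsingleton.elim a b
      have := pushR_inj hinj (fun _ => 2 / (3 * y)) 0
      exact this.symm
    · rw [Fin.snoc_castSucc]
      refine (pushR_ne _ fun i' => ?_).symm
      exact (Fin.castSucc_lt_last i).ne'
  have htv : ∀ q, 0 ≤ (t q : ℝ) * v := fun q => by positivity
  have hG1 : ∀ q, 0 ≤ N q - (lum w (n q)).sum - (t q : ℝ) * v := fun q => by linarith [hlen q]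
  have hG0 : ∀ q, 0 ≤ N q - (lum w (n q)).sum := fun q => by linarith [hlen q, htv q]
  have hG : ∀ q, 0 ≤ N q - (lum w (n q)).sum - μ * ((t q : ℝ) * v) := fun q => by
    nlinarith [hlen q, htv q, mul_le_mul_of_nonneg_right h2 (htv q)]
  have hcol1 : ∀ q a, 0 ≤ a → a ≤ N q - (lum w (n q)).sum - (t q : ℝ) * v →
      ((Fin.snoc (α := fun _ => ℝ) (fun i => (n q i : ℝ)) ((t q : ℝ) * j), 0, a) :
        Mon (k + 1)) ∈ Hull (Col rc e₀ (Fin.snoc (α := fun _ => ℝ) w y)) := by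
    intro q a ha ha'
    have h := subset_hull (colS (G := a) ha (hc q) (by
      push_cast
      rw [mul_assoc, hv]
      linarith))
    rw [pt_snoc (n q) (t q * j) ((t q : ℝ) * j) 0 a (by push_cast; rfl)] at h
    exact h
  have hfam : ∀ q a, 0 ≤ a → a ≤ N q - (lum w (n q)).sum - μ * ((t q : ℝ) * v) →
      ((Fin.snoc (α := fun _ => ℝ) (fun i => (n q i : ℝ)) (μ * ((t q : ℝ) * j)), 0, a) :
        Mon (k + 1)) ∈ Hull (Col rc e₀ (Fin.snoc (α := fun _ => ℝ) w y)) := by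
    intro q a ha ha'
    rcases hz with hz | hz
    · have hμ := h7 hz
      subst hμ
      rw [one_mul]
      exact hcol1 q a ha (by linarith)
    · -- mixture of the column with all copies and the column without copies
      have hcol0 : ∀ b, 0 ≤ b → b ≤ N q - (lum w (n q)).sum →
          ((Fin.snoc (α := fun _ => ℝ) (fun i => (n q i : ℝ)) 0, 0, b) :
            Mon (k + 1)) ∈ Hull (Col rc e₀ (Fin.snoc (α := fun _ => ℝ) w y)) := by
        intro b hb hb'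
        have h0 : MCol rc e₀ (lum w (n q) + Multiset.replicate 0 y) (N q) := by
          rw [Multiset.replicate_zero, add_zero]
          exact hz q
        have h := subset_hull (colS (G := b) hb h0 (by push_cast; linarith))
        rw [pt_snoc (n q) 0 0 0 b (by simp)] at h
        exact h
      obtain ⟨s, hs0, hs1, hs⟩ : ∃ s : ℝ, 0 ≤ s ∧ s ≤ 1 ∧
          s * (N q - (lum w (n q)).sum - μ * ((t q : ℝ) * v)) = a := by
        rcases (hG q).eq_or_lt with h | h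
        · exact ⟨0, le_rfl, zero_le_one, by rw [zero_mul]; linarith⟩
        · exact ⟨a / (N q - (lum w (n q)).sum - μ * ((t q : ℝ) * v)), div_nonneg ha h.le,
            (div_le_one h).2 ha', div_mul_cancel₀ _ h.ne'⟩
      have m1 := hcol1 q (s * (N q - (lum w (n q)).sum - (t q : ℝ) * v))
        (mul_nonneg hs0 (hG1 q)) (by nlinarith [hG1 q])
      have m0 := hcol0 (s * (N q - (lum w (n q)).sum)) (mul_nonneg hs0 (hG0 q))
        (by nlinarith [hG0 q])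
      have hm := (convex_hull _) m1 m0 h1 (show 0 ≤ 1 - μ by linarith) (by ring)
      convert hm using 1
      refine Prod.ext ?_ (Prod.ext ?_ ?_)
      · funext i
        simp only [Prod.fst_add, Pi.add_apply, Prod.smul_fst, Pi.smul_apply, smul_eq_mul]
        refine Fin.lastCases ?_ (fun i => ?_) i
        · simp only [Fin.snoc_last]
          ring
        · simp only [Fin.snoc_castSucc]
          ring
      · simp
      · simp only [Prod.snd_add, Prod.smul_snd, smul_eq_mul]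
        rw [← hs]
        ring
  have key := fill (Id := Col rc e₀ (Fin.snoc (α := fun _ => ℝ) w y)) p hp
    (fun q => Fin.snoc (α := fun _ => ℝ) (fun i => (n q i : ℝ)) (μ * ((t q : ℝ) * j)))
    (fun _ => 0) (fun q => N q - (lum w (n q)).sum - μ * ((t q : ℝ) * v)) hG
    hfam (void_mem hvoid) h3 h4 h5 hE h8 (by rw [sumG w v μ p n t N hn]; exact h9)
  convert key using 2
  · funext i
    refine Fin.lastCases ?_ (fun i => ?_) i
    · simp only [Fin.snoc_last]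
      have e1 : ∑ q, p q * (μ * ((t q : ℝ) * j)) = μ * (∑ q, p q * ((t q : ℝ) * v)) / y := by
        rw [Finset.mul_sum, Finset.sum_div]
        refine Finset.sum_congr rfl fun q _ => ?_
        rw [← hv]
        field_simp
      rw [e1]
      have e2 : (4 / 3 - ∑ j, w j) / (2 * y) = (2 / 3 - (∑ j, w j) / 2) / y := by
        field_simp
        ring
      rw [e2, ← h6]
      generalize ∑ q, p q * ((t q : ℝ) * v) = S
      field_simp
    · simp only [Fin.snoc_castSucc]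
      rw [hn, mul_zero, add_zero]
  · congr 1
    simp

/-! ### 5. The generic coverage -/

/-- coverage, chunk size `v`, trimming allowed (`Cov499.Cov0` for `C0 = Col0`) -/
def CG0 (C0 : ℝ → Multiset ℝ → ℕ → ℝ → Prop) {k : ℕ} (u : Fin k → ℝ) (v : ℝ) : Prop :=
  ∃ (M : ℕ) (p : Fin M → ℝ) (n : Fin M → Fin k → ℕ) (t : Fin M → ℕ) (N : Fin M → ℝ),
    (∀ q, 0 ≤ p q) ∧ (∀ j, ∑ q, p q * (n q j : ℝ) = 1 / 2) ∧
    (∀ q, C0 v (lum u (n q)) (t q) (N q)) ∧ ∑ q, p q ≤ 1 ∧ 0 ≤ R₁ u v p t ∧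
    min (R₁ u v p t) (1 - ∑ q, p q) / 6 ≤ ∑ q, p q * (N q - 5 / 6)

/-- coverage, small lumps of size `v`, no trimming (`Cov499.Cov2` for `C2 = Col2`) -/
def CG2 (C2 : ℝ → Multiset ℝ → ℕ → ℝ → Prop) {k : ℕ} (u : Fin k → ℝ) (v : ℝ) : Prop :=
  ∃ (M : ℕ) (p : Fin M → ℝ) (n : Fin M → Fin k → ℕ) (t : Fin M → ℕ) (N : Fin M → ℝ),
    (∀ q, 0 ≤ p q) ∧ (∀ j, ∑ q, p q * (n q j : ℝ) = 1 / 2) ∧
    (∀ q, C2 v (lum u (n q)) (t q) (N q)) ∧ R₁ u v p t ≤ 1 - ∑ q, p q ∧ 0 ≤ R₁ u v p t ∧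
    R₁ u v p t / 6 ≤ ∑ q, p q * (N q - 5 / 6)

/-- the big lumps `w` are covered with every small class; big lumps are `> y₀` -/
def Good (C0 C2 : ℝ → Multiset ℝ → ℕ → ℝ → Prop) (y₀ : ℝ) {k : ℕ} (w : Fin k → ℝ) : Prop :=
  (∀ v, 7 / 200 ≤ v → v ≤ 7 / 100 → CG0 C0 w v) ∧
  (∀ v, 7 / 100 ≤ v → v ≤ y₀ → (∑ j, w j) + v ≤ 4 / 3 → CG0 C0 w v ∨ CG2 C2 w v)

/-- **inputs of the glue**: the columns -/
structure Inp (C0 C2 : ℝ → Multiset ℝ → ℕ → ℝ → Prop) (y₀ : ℝ) (rc : EF) (e₀ t : ℝ) :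
    Prop where
  len0 : ∀ v Y T N, C0 v Y T N → Y.sum + (T : ℝ) * v ≤ N
  len2 : ∀ v Y T N, C2 v Y T N → Y.sum + (T : ℝ) * v ≤ N
  col0 : ∀ v Y T N, C0 v Y T N → 0 ≤ v → (∀ y ∈ Y, y₀ ≤ y) → ∀ (y : ℝ) (j c : ℕ), 0 < y →
    (j : ℝ) * y ≤ v → c ≤ T * j → MCol rc e₀ (Y + Multiset.replicate c y) N
  col2 : ∀ v Y T N, C2 v Y T N → 0 < v → (∀ y ∈ Y, y₀ ≤ y) →
    MCol rc e₀ (Y + Multiset.replicate T v) N
  void : ∀ {N : ℕ} {u : Fin N → ℝ}, (∀ j, 0 ≤ u j) → ∀ A, 0 ≤ A → A ≤ 2 / 3 →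
    Col rc e₀ u (fun _ => 0) 0 A
  K0 : ∀ {N : ℕ} {u : Fin N → ℝ}, (∀ j, 0 ≤ u j) →
    Col rc e₀ u (fun _ => 0) (2 / 3) (1 / 6 - t / 2)
  Ey : ∀ y, 0 < y → y ≤ y₀ → (((fun _ => 2 / (3 * y)), 0, 1 / 6 - t / 2) : Mon 1) ∈
    Hull (Col rc e₀ fun _ : Fin 1 => y)

variable {C0 C2 : ℝ → Multiset ℝ → ℕ → ℝ → Prop} {y₀ : ℝ} {rc : EF} {e₀ tt : ℝ}

theorem mem_lum {k : ℕ} {w : Fin k → ℝ} {n : Fin k → ℕ} {y : ℝ} (h : y ∈ lum w n) :
    ∃ j, y = w j := by
  obtain ⟨j, _, hj⟩ := Multiset.mem_sum.1 h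
  exact ⟨j, Multiset.eq_of_mem_replicate hj⟩

theorem snoc_nonneg {k : ℕ} {w : Fin k → ℝ} (hw : ∀ j, 0 ≤ w j) {y : ℝ} (hy : 0 ≤ y) (i) :
    0 ≤ Fin.snoc (α := fun _ => ℝ) w y i := by
  refine Fin.lastCases ?_ (fun i => ?_) i
  · rw [Fin.snoc_last]; exact hy
  · rw [Fin.snoc_castSucc]; exact hw i

/-- the Möbius class -/
theorem moeb_of (I : Inp C0 C2 y₀ rc e₀ tt) (htt : 0 ≤ tt) (htt3 : tt ≤ 1 / 3) {k : ℕ}
    {w : Fin k → ℝ} (hw0 : ∀ j, 0 ≤ w j) (hw : ∀ j, y₀ ≤ w j) (hB : ∑ j, w j ≤ 4 / 3) {v : ℝ}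
    (hv : 0 ≤ v) (H : CG0 C0 w v) :
    (((fun _ => 1 / 2), (4 / 3 - ∑ j, w j) / 2, 1 / 6 - tt / 2) : Mon k) ∈
      Hull (Col rc e₀ w) := by
  obtain ⟨M, p, n, t, N, hp, hn, hC, hP, hR0, hN⟩ := H
  refine moeb_core htt htt3 hB hv p n t N hp hn (fun q => ?_) (fun q => I.len0 _ _ _ _ (hC q))
    hP hR0 hN (I.void hw0) (I.K0 hw0)
  have h := I.col0 _ _ _ _ (hC q) hv (fun y hy => by
    obtain ⟨j, rfl⟩ := mem_lum hy
    exact hw j) 1 0 0 one_pos (by simpa using hv) (Nat.zero_le _)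
  rw [Multiset.replicate_zero, add_zero] at h
  exact h

/-- a small lump, chunks of `j` copies -/
theorem small_of (I : Inp C0 C2 y₀ rc e₀ tt) (htt : 0 ≤ tt) (htt3 : tt ≤ 1 / 3) {k : ℕ}
    {w : Fin k → ℝ} (hw0 : ∀ j, 0 ≤ w j) (hw : ∀ j, y₀ ≤ w j) (hB : ∑ j, w j ≤ 4 / 3)
    {y : ℝ} (hy : 0 < y) (hy0 : y ≤ y₀) {j : ℕ} {v : ℝ} (hv : (j : ℝ) * y = v)
    (H : CG0 C0 w v) :
    ((Fin.snoc (α := fun _ => ℝ) (fun _ => 1 / 2) ((4 / 3 - ∑ j, w j) / (2 * y)), 0,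
      1 / 6 - tt / 2) : Mon (k + 1)) ∈ Hull (Col rc e₀ (Fin.snoc (α := fun _ => ℝ) w y)) := by
  have hv0 : 0 ≤ v := by rw [← hv]; positivity
  obtain ⟨M, p, n, t, N, hp, hn, hC, hP, hR0, hN⟩ := H
  have hcol : ∀ q, ∀ c ≤ t q * j, MCol rc e₀ (lum w (n q) + Multiset.replicate c y) (N q) :=
    fun q c hc => I.col0 _ _ _ _ (hC q) hv0 (fun y hy => by
      obtain ⟨j, rfl⟩ := mem_lum hy
      exact hw j) y j c hy hv.le hc
  refine small_core htt htt3 hB hy hv p n t N hp hn (fun q => hcol q _ le_rfl)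
    (Or.inr fun q => ?_) (fun q => I.len0 _ _ _ _ (hC q)) hP hR0 hN
    (I.void (snoc_nonneg hw0 hy.le)) (I.Ey y hy hy0)
  have h := hcol q 0 (Nat.zero_le _)
  rw [Multiset.replicate_zero, add_zero] at h
  exact h

/-- a small lump, no trimming -/
theorem small_of2 (I : Inp C0 C2 y₀ rc e₀ tt) (htt : 0 ≤ tt) (htt3 : tt ≤ 1 / 3) {k : ℕ}
    {w : Fin k → ℝ} (hw0 : ∀ j, 0 ≤ w j) (hw : ∀ j, y₀ ≤ w j) (hB : ∑ j, w j ≤ 4 / 3)
    {y : ℝ} (hy : 0 < y) (hy0 : y ≤ y₀) (H : CG2 C2 w y) :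
    ((Fin.snoc (α := fun _ => ℝ) (fun _ => 1 / 2) ((4 / 3 - ∑ j, w j) / (2 * y)), 0,
      1 / 6 - tt / 2) : Mon (k + 1)) ∈ Hull (Col rc e₀ (Fin.snoc (α := fun _ => ℝ) w y)) := by
  obtain ⟨M, p, n, t, N, hp, hn, hC, hR1, hR0, hN⟩ := H
  have hcol : ∀ q, MCol rc e₀ (lum w (n q) + Multiset.replicate (t q * 1) y) (N q) :=
    fun q => by
      rw [mul_one]
      exact I.col2 _ _ _ _ (hC q) hy (fun y hy => by
        obtain ⟨j, rfl⟩ := mem_lum hy
        exact hw j)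
  refine small_core htt htt3 hB hy (j := 1) (by simp) p n t N hp hn hcol
    (Or.inl hR1) (fun q => I.len2 _ _ _ _ (hC q)) (by linarith) hR0 ?_
    (I.void (snoc_nonneg hw0 hy.le)) (I.Ey y hy hy0)
  rw [min_eq_left hR1]
  exact hN

/-- the number of copies in a chunk -/
theorem exists_chunk {y : ℝ} (hy : 0 < y) (h : y ≤ 7 / 100) :
    ∃ j : ℕ, 7 / 200 ≤ (j : ℝ) * y ∧ (j : ℝ) * y ≤ 7 / 100 := by
  refine ⟨⌊7 / 100 / y⌋₊, ?_, ?_⟩
  · have h1 := Nat.lt_floor_add_one (7 / 100 / y)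
    rw [div_lt_iff₀ hy] at h1
    rcases le_total y (7 / 200) with h2 | h2
    · linarith
    · have h3 : (1 : ℝ) ≤ (⌊7 / 100 / y⌋₊ : ℝ) := by
        have : 1 ≤ ⌊7 / 100 / y⌋₊ := Nat.le_floor (by
          push_cast
          rw [le_div_iff₀ hy]; linarith)
        exact_mod_cast this
      nlinarith
  · have h1 := Nat.floor_le (show 0 ≤ 7 / 100 / y by positivity)
    rwa [le_div_iff₀ hy] at h1

/-- **the master coverage from the coverage of the big lumps** (complete enumeration) -/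
theorem covM_of_good' (I : Inp C0 C2 y₀ rc e₀ tt) (htt : 0 ≤ tt) (htt3 : tt ≤ 1 / 3)
    {N : ℕ} {u : Fin N → ℝ} (hu : ∀ j, 0 < u j) (hs : ∑ j, u j ≤ 4 / 3)
    (hg : ∀ (k : ℕ) (ι : Fin k → Fin N), Function.Injective ι → Antitone (u ∘ ι) →
      (∀ j, y₀ < u j ↔ ∃ i, ι i = j) → Good C0 C2 y₀ (u ∘ ι)) :
    CovM rc e₀ tt u (fun _ => 1) := by
  unfold CovM
  refine cov_small (Id := fun _ u => Col rc e₀ u) (col_push rc e₀) u (fun _ => 1)
    (fun j => (hu j).le) (fun _ => zero_le_one) (fun j hj => absurd hj (hu j).ne')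
    (by simpa using hs) y₀ (1 / 6 - tt / 2) ?_
  intro k ι hι hanti hbig
  have hw : ∀ i, y₀ < u (ι i) := fun i => (hbig _).2 ⟨i, rfl⟩
  obtain ⟨g1, g2⟩ := hg k ι hι hanti hbig
  have hw0 : ∀ i, 0 ≤ (u ∘ ι) i := fun i => (hu _).le
  have hw' : ∀ i, y₀ ≤ (u ∘ ι) i := fun i => (hw i).le
  -- sum over an injective family
  have hsum : ∀ s : Finset (Fin N), (∀ i, ι i ∉ s) → ∑ i, u (ι i) + ∑ j ∈ s, u j ≤ 4 / 3 := by
    classical
    intro s hs'
    have h1 : ∑ i, u (ι i) = ∑ j ∈ Finset.univ.image ι, u j :=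
      (Finset.sum_image fun a _ b _ h => hι h).symm
    have hd : Disjoint (Finset.univ.image ι) s := by
      rw [Finset.disjoint_left]
      intro j hj
      obtain ⟨i, -, rfl⟩ := Finset.mem_image.1 hj
      exact hs' i
    rw [h1, ← Finset.sum_union hd]
    exact (Finset.sum_le_sum_of_subset_of_nonneg (Finset.subset_univ _)
      fun j _ _ => (hu j).le).trans hs
  have hB : ∑ i, (u ∘ ι) i ≤ 4 / 3 := by
    have := hsum ∅ (by simp)
    simpa using this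
  simp only [one_mul]
  constructor
  · exact moeb_of I htt htt3 hw0 hw' hB (by norm_num) (g1 (7 / 100) (by norm_num) le_rfl)
  · rintro y hy hy1 ⟨j, rfl⟩
    rcases le_total (u j) (7 / 100) with h | h
    · obtain ⟨c, hc1, hc2⟩ := exists_chunk hy h
      exact small_of I htt htt3 hw0 hw' hB hy hy1 rfl (g1 _ hc1 hc2)
    · have hj : ∀ i, ι i ∉ ({j} : Finset (Fin N)) := fun i hi => by
        rw [Finset.mem_singleton] at hi
        have := hw i
        rw [hi] at this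
        linarith
      have h3 := hsum {j} hj
      rw [Finset.sum_singleton] at h3
      rcases g2 _ h hy1 h3 with h4 | h4
      · exact small_of I htt htt3 hw0 hw' hB hy hy1 (j := 1) (by simp) h4
      · exact small_of2 I htt htt3 hw0 hw' hB hy hy1 h4

/-- the same, all enumerations -/
theorem covM_of_good (I : Inp C0 C2 y₀ rc e₀ tt) (htt : 0 ≤ tt) (htt3 : tt ≤ 1 / 3)
    {N : ℕ} {u : Fin N → ℝ} (hu : ∀ j, 0 < u j) (hs : ∑ j, u j ≤ 4 / 3)
    (hg : ∀ (k : ℕ) (ι : Fin k → Fin N), Function.Injective ι → Antitone (u ∘ ι) →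
      (∀ i, y₀ < u (ι i)) → Good C0 C2 y₀ (u ∘ ι)) :
    CovM rc e₀ tt u (fun _ => 1) :=
  covM_of_good' I htt htt3 hu hs fun k ι hι ha hb => hg k ι hι ha fun i => (hb _).2 ⟨i, rfl⟩

end Crest.Agent.R017.CovGlue741
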