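import Crest.Agent.R017.CovTop_741
import Crest.Agent.R017.HCol_777
import Crest.Agent.R017.Ey_645

/-!
# Row 17, section D: the inputs of the glue from the bundle (helper741)

* `len_col0`, `len_col2` : the lengths of the columns of `CovDefs_499`
* `inpOf` : `Inp Col0 Col2 (13/100) rc e₀ t` from `ProvE` and the points `E_y`
* `inpOf'` : the same with `E_y` from 645's base windows
* `exists_const` : the constants `e₀, t, μ, μE`
-/

set_option autoImplicit false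

noncomputable section

namespace Crest.Agent.R017.CovInp741

open Crest.Agent.R017.ER911 Crest.Agent.R017.Hull741 Crest.Agent.R017.CovM59
  Crest.Agent.R017.CovGlue741 Crest.Agent.R017.ColG59 Crest.Agent.R017.Cov499
  Crest.Agent.R017.ExpC702 Crest.Agent.R017.Prov71

theorem len_col0 {v : ℝ} {Y : Multiset ℝ} {T : ℕ} {N : ℝ} (h : Col0 v Y T N) :
    Y.sum + (T : ℝ) * v ≤ N := by
  cases h <;>
    simp only [Multiset.sum_add, Multiset.insert_eq_cons, Multiset.sum_cons,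
      Multiset.sum_singleton, Nat.cast_add, Nat.cast_zero, zero_mul, add_zero] <;>
    linarith

theorem len_col2 {v : ℝ} {Y : Multiset ℝ} {T : ℕ} {N : ℝ} (h : Col2 v Y T N) :
    Y.sum + (T : ℝ) * v ≤ N := by
  cases h with
  | of0 Y t N h => exact len_col0 h
  | c5w a W Y t N hY hc h12 hS ha hN h5 =>
    have h1 := congrArg Multiset.sum hY
    rw [Multiset.sum_add, Multiset.sum_add, Multiset.sum_replicate, Multiset.sum_singleton,
      nsmul_eq_mul] at h1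
    linarith
  | c5vw V W Y t N hY hc h12 hS hV hN h5 =>
    have h1 := congrArg Multiset.sum hY
    rw [Multiset.sum_add, Multiset.sum_add, Multiset.sum_replicate, nsmul_eq_mul] at h1
    linarith
  | c5bw V W Y t N hY hc h12 hb hS hV hN h5 =>
    have h1 := congrArg Multiset.sum hY
    rw [Multiset.sum_add, Multiset.sum_add, Multiset.sum_replicate, nsmul_eq_mul] at h1
    linarith
  | _ =>
    simp only [Multiset.sum_add, Multiset.insert_eq_cons, Multiset.sum_cons,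
      Multiset.sum_singleton, Nat.cast_add, Nat.cast_one]
    linarith

/-- from the complete form to a main column -/
theorem mcol_of {r rc : EF} (C : ExpC r rc) {e e₀ N : ℝ} (he : e ≤ e₀) {Y : Multiset ℝ}
    (hY : ∀ y ∈ Y, 0 ≤ y)
    (h : ∀ f g : ℝ, 0 ≤ f → 0 ≤ g → Y.sum + f + g ≤ N → HC777.Cpl r e Y f g) :
    MCol rc e₀ Y N := by
  intro f g hf hg hN
  refine C.le 1 Y f g _ zero_le_one ⟨hY, hf, hg⟩ fun κ' h0 h1 => ?_
  linarith [h f g hf hg hN κ' h0 h1]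

/-- **the inputs of the glue** -/
theorem inpOf {d : ℝ} {r s s₀ rc bc : EF} (P : ProvE (7 / 8 + d) r s s₀ rc bc) (hd : 0 ≤ d)
    (hd8 : d ≤ 1 / 8) {e₀ t : ℝ} (ht : 0 ≤ t) (ht18 : 18 * t ≤ 1) (htd : 5 * t ≤ 2 * d)
    (he1 : HC777.E0 d ≤ e₀) (he2 : 4 / 3 * d - t / 2 ≤ e₀)
    (hEy : ∀ y, 0 < y → y ≤ 13 / 100 →
      (((fun _ => 2 / (3 * y)), 0, 1 / 6 - t / 2) : Mon 1) ∈ Hull (Col rc e₀ fun _ : Fin 1 => y)) :
    Inp Col0 Col2 (13 / 100) rc e₀ t where
  len0 _ _ _ _ h := len_col0 h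
  len2 _ _ _ _ h := len_col2 h
  col0 v Y T N h _ hY y j c hy hj hc := by
    refine mcol_of P.cpl he1 (fun z hz => ?_) fun f g hf hg hN => ?_
    · rcases Multiset.mem_add.1 hz with hz | hz
      · linarith [hY z hz]
      · rw [Multiset.eq_of_mem_replicate hz]; exact hy.le
    · rw [Multiset.sum_add, Multiset.sum_replicate, nsmul_eq_mul] at hN
      exact HC777.hcol0 P.rules P.lb P.lv P.rem hd hd8 h hY hy hj hc hf hg hN
  col2 v Y T N h hv hY := by
    refine mcol_of P.cpl he1 (fun z hz => ?_) fun f g hf hg hN => ?_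
    · rcases Multiset.mem_add.1 hz with hz | hz
      · linarith [hY z hz]
      · rw [Multiset.eq_of_mem_replicate hz]; exact hv.le
    · rw [Multiset.sum_add, Multiset.sum_replicate, nsmul_eq_mul] at hN
      exact HC777.hcol2 P.rules P.lb P.lv P.rem hd hd8 h hv hY hf hg hN
  void hu A hA hA' := by
    have he0 : 0 ≤ e₀ := le_trans (by linarith [HC777.le_E0 (d := d)]) he1
    exact col_void (by linarith) (by linarith) P.rules P.cpl hu he0 le_rfl hA (by linarith)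
  K0 hu := Crest.Agent.R017.ColG59.Col.mono (col_K0 P.rules P.lb P.cpl hd hd8 ht ht18 htd hu) he2
  Ey := hEy

/-- the inputs of the glue, `E_y` from 645's base windows -/
theorem inpOf' {d μ : ℝ} {r s s₀ rc bc : EF} (P : ProvE (7 / 8 + d) r s s₀ rc bc) (hd : 0 ≤ d)
    (hd8 : d ≤ 1 / 8) {e₀ t : ℝ} (ht : 0 ≤ t) (ht18 : 18 * t ≤ 1) (htd : 5 * t ≤ 2 * d)
    (he1 : HC777.E0 d ≤ e₀) (he2 : 4 / 3 * d - t / 2 ≤ e₀) (he3 : 4 / 3 * d - μ ≤ e₀)
    (hμ : 0 ≤ μ) (hμ1 : 72 * μ ≤ 1 - 8 * d) (hμ2 : 9 * μ ≤ d) (I : Ey645.Inp r d μ) :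
    Inp Col0 Col2 (13 / 100) rc e₀ t :=
  inpOf P hd hd8 ht ht18 htd he1 he2 fun _ hy hy1 =>
    Ey645.ey P.cpl P.rules P.lv hd hμ hμ1 hμ2 I hy (by linarith) ht (by linarith) he3

/-- **the constants** -/
theorem exists_const {d : ℝ} (hd : 0 < d) (hd8 : d < 1 / 8) :
    ∃ e₀ t μ μE : ℝ, 0 < μE ∧ 72 * μE ≤ 1 - 8 * d ∧ 9 * μE ≤ d ∧ 0 < t ∧ 18 * t ≤ 1 ∧
      5 * t ≤ 2 * d ∧ t ≤ 1 / 3 ∧ HC777.E0 d ≤ e₀ ∧ 4 / 3 * d - t / 2 ≤ e₀ ∧
      4 / 3 * d - μE ≤ e₀ ∧ 5 / 4 * d ≤ e₀ ∧ 0 < μ ∧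
      2 * e₀ + (2 * (7 / 8 + d) - 1) * t + μ ≤ Cone59.b2 (7 / 8 + d) := by
  set μE : ℝ := min (d / 9) ((1 - 8 * d) / 72) with hμE
  have hμE0 : 0 < μE := lt_min (by positivity) (by linarith)
  have hμE1 : μE ≤ d / 9 := min_le_left _ _
  have hμE2 : μE ≤ (1 - 8 * d) / 72 := min_le_right _ _
  set δ0 : ℝ := min (d / 12) ((1 / 4 - 2 * d) * z₀) with hδ0
  have hz : 0 < z₀ := by norm_num [z₀]
  have hδ00 : 0 < δ0 := lt_min (by positivity) (mul_pos (by linarith) hz)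
  have hδ01 : δ0 ≤ d / 12 := min_le_left _ _
  set δ : ℝ := min δ0 μE with hδ
  have hδpos : 0 < δ := lt_min hδ00 hμE0
  have hδ1 : δ ≤ δ0 := min_le_left _ _
  have hδ2 : δ ≤ μE := min_le_right _ _
  refine ⟨4 / 3 * d - δ, 2 * δ, 2 * δ * (1 / 4 - 2 * d), μE, hμE0, by linarith, by linarith,
    by linarith, by linarith, by linarith, by linarith, ?_, by linarith, by linarith,
    by linarith, mul_pos (by linarith) (by linarith), ?_⟩
  · unfold HC777.E0
    rw [← hδ0]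
    linarith
  · unfold Cone59.b2
    nlinarith

end Crest.Agent.R017.CovInp741
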