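import Crest.Agent.R017.CovLow_177

/-!
# Row 17, section D: averages of single points, with trimming (helper177)

A point `(x, m, G)` of lump mass `L` is on the line if `G ≥ 2/3 - 3/4 L - t/2`; the void
`(0, 0, 2/3)`, the points `E` and the target are on the line. If every big lump `w j` has
* a point with `≥ l j` copies and no small mass (`PtZ`), and
* a point with `≥ l j` copies and lump mass `≥ 2/3` (`PtL`, `PtLM`)
on the line and `∑ 1/(2 l j) ≤ 1`, then the box is covered.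
-/

set_option autoImplicit false

noncomputable section

namespace Crest.Agent.R017.CovLine177

open Crest.Agent.R017.ER911 Crest.Agent.R017.Hull741 Crest.Agent.R017.CovM59
  Crest.Agent.R017.CovSmall741 Crest.Agent.R017.Cov499 Crest.Agent.R017.CovGlue741
  Crest.Agent.R017.CovNear177

variable {rc : EF} {e₀ t : ℝ}

/-- no small mass: `a ≥ l` copies of `v`, on the line -/
def PtZ (rc : EF) (e₀ t l v : ℝ) : Prop :=
  ∃ a G : ℝ, l ≤ a ∧ 2 / 3 - 3 / 4 * (a * v) - t / 2 ≤ G ∧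
    (((fun _ => a), 0, G) : Mon 1) ∈ Hull (Col rc e₀ fun _ : Fin 1 => v)

/-- `a ≥ l` copies of `v`, `c` copies of `y`, lump mass `≥ 2/3`, on the line -/
def PtL (rc : EF) (e₀ t l v y : ℝ) : Prop :=
  ∃ a c G : ℝ, l ≤ a ∧ 0 ≤ c ∧ 2 / 3 ≤ a * v + c * y ∧
    2 / 3 - 3 / 4 * (a * v + c * y) - t / 2 ≤ G ∧
    ((![a, c], 0, G) : Mon 2) ∈ Hull (Col rc e₀ ![v, y])

/-- the same with Möbius mass `m` -/
def PtLM (rc : EF) (e₀ t l v : ℝ) : Prop :=
  ∃ a m G : ℝ, l ≤ a ∧ 0 ≤ m ∧ 2 / 3 ≤ a * v + m ∧ 2 / 3 - 3 / 4 * (a * v + m) - t / 2 ≤ G ∧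
    (((fun _ => a), m, G) : Mon 1) ∈ Hull (Col rc e₀ fun _ : Fin 1 => v)

theorem PtZ.mono {l l' v : ℝ} (h : PtZ rc e₀ t l v) (hl : l' ≤ l) : PtZ rc e₀ t l' v := by
  obtain ⟨a, G, h1, h2⟩ := h
  exact ⟨a, G, hl.trans h1, h2⟩

theorem PtL.mono {l l' v y : ℝ} (h : PtL rc e₀ t l v y) (hl : l' ≤ l) : PtL rc e₀ t l' v y := by
  obtain ⟨a, c, G, h1, h2⟩ := h
  exact ⟨a, c, G, hl.trans h1, h2⟩

theorem PtLM.mono {l l' v : ℝ} (h : PtLM rc e₀ t l v) (hl : l' ≤ l) : PtLM rc e₀ t l' v := by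
  obtain ⟨a, m, G, h1, h2⟩ := h
  exact ⟨a, m, G, hl.trans h1, h2⟩

theorem PtS.ptL {l v y : ℝ} (h : PtS rc e₀ t l v y) (hy : 0 < y) : PtL rc e₀ t l v y := by
  obtain ⟨a, h1, h2, h3⟩ := h
  have e : (2 / 3 - a * v) / y * y = 2 / 3 - a * v := div_mul_cancel₀ _ hy.ne'
  exact ⟨a, (2 / 3 - a * v) / y, 1 / 6 - t / 2, h1, div_nonneg (by linarith) hy.le,
    by rw [e]; linarith, by rw [e]; linarith, h3⟩

theorem PtM.ptLM {l v : ℝ} (h : PtM rc e₀ t l v) : PtLM rc e₀ t l v := by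
  obtain ⟨a, h1, h2, h3⟩ := h
  exact ⟨a, 2 / 3 - a * v, 1 / 6 - t / 2, h1, by linarith, by linarith, by linarith, h3⟩

theorem PtE.ptZ {l v : ℝ} (h : PtE rc e₀ t v) (hv : 0 < v) (hl : l * v ≤ 2 / 3) :
    PtZ rc e₀ t l v := by
  have e : 2 / (3 * v) * v = 2 / 3 := by field_simp
  exact ⟨2 / (3 * v), 1 / 6 - t / 2, copies hv hl, by rw [e]; linarith, h⟩

/-! ### the amplifier may be diminished -/

theorem col_amp {k : ℕ} {w : Fin k → ℝ} {n : Fin k → ℕ} {M A l : ℝ} (h : Col rc e₀ w n M A)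
    (h0 : 0 ≤ l) (h1 : l ≤ 1) : Col rc e₀ w n M (l * A) := by
  obtain ⟨hM, hA, h⟩ := h
  have h2 : l * A ≤ A := by nlinarith
  exact ⟨hM, mul_nonneg h0 hA, fun f g hf hg g1 g2 => h f g hf hg (by linarith) (by linarith)⟩

theorem hull_amp {k : ℕ} {w : Fin k → ℝ} {x : Fin k → ℝ} {m G l : ℝ}
    (h : ((x, m, G) : Mon k) ∈ Hull (Col rc e₀ w)) (h0 : 0 ≤ l) (h1 : l ≤ 1) :
    ((x, m, l * G) : Mon k) ∈ Hull (Col rc e₀ w) := by
  obtain ⟨M, p, n, f, g, hp, hp1, hId, heq⟩ := h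
  refine ⟨M, p, n, f, fun q => l * g q, hp, hp1, fun q => col_amp (hId q) h0 h1, ?_⟩
  have e1 := congrArg Prod.fst heq
  have e2 := congrArg (fun z : Mon k => z.2.1) heq
  have e3 := congrArg (fun z : Mon k => z.2.2) heq
  simp only at e1 e2 e3
  refine Prod.ext e1 (Prod.ext e2 ?_)
  show l * G = ∑ q, p q * (l * g q)
  rw [e3, Finset.mul_sum]
  exact Finset.sum_congr rfl fun q _ => by ring

/-! ### the abstract averages -/

theorem line_core {k : ℕ} {w : Fin k → ℝ} (hB : ∑ j, w j ≤ 4 / 3) {C : Set (Mon k)}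
    (hC : Convex ℝ C) (ht : 0 ≤ t) (ht3 : t ≤ 1 / 3)
    (hamp : ∀ (x : Fin k → ℝ) (m G l : ℝ), ((x, m, G) : Mon k) ∈ C → 0 ≤ l → l ≤ 1 →
      ((x, m, l * G) : Mon k) ∈ C)
    (hvoid : (((fun _ => 0), 0, 2 / 3) : Mon k) ∈ C)
    (hE : (((fun _ => 0), 2 / 3, 1 / 6 - t / 2) : Mon k) ∈ C)
    {l : Fin k → ℝ} (hl : ∀ j, 0 < l j) (hl1 : ∑ j, 1 / (2 * l j) ≤ 1)
    (h0 : ∀ j, ∃ a G : ℝ, l j ≤ a ∧ 2 / 3 - 3 / 4 * (a * w j) - t / 2 ≤ G ∧
      (((fun i => if i = j then a else 0), 0, G) : Mon k) ∈ C)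
    (h1 : ∀ j, ∃ a c G : ℝ, l j ≤ a ∧ 0 ≤ c ∧ 2 / 3 ≤ a * w j + c ∧
      2 / 3 - 3 / 4 * (a * w j + c) - t / 2 ≤ G ∧
      (((fun i => if i = j then a else 0), c, G) : Mon k) ∈ C) :
    (((fun _ => 1 / 2), 2 / 3 - (∑ j, w j) / 2, 1 / 6 - t / 2) : Mon k) ∈ C := by
  classical
  choose a₀ G₀ b1 b2 b3 using h0
  choose a₁ c G₁ d1 d2 d3 d4 d5 using h1
  have ha0 : ∀ j, 0 < a₀ j := fun j => (hl j).trans_le (b1 j)
  have ha1 : ∀ j, 0 < a₁ j := fun j => (hl j).trans_le (d1 j)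
  have hS0 := wt hl hl1 b1
  have hS1 := wt hl hl1 d1
  obtain ⟨s0, hs0⟩ : ∃ s0 : Fin k → ℝ, s0 = fun j => 1 / (2 * a₀ j) := ⟨_, rfl⟩
  obtain ⟨s1, hs1⟩ : ∃ s1 : Fin k → ℝ, s1 = fun j => 1 / (2 * a₁ j) := ⟨_, rfl⟩
  have p0 : ∀ j, 0 ≤ s0 j := fun j => by
    rw [hs0]; have := ha0 j; show 0 ≤ 1 / (2 * a₀ j); positivity
  have p1 : ∀ j, 0 ≤ s1 j := fun j => by
    rw [hs1]; have := ha1 j; show 0 ≤ 1 / (2 * a₁ j); positivity
  have e0 : ∀ j, s0 j * a₀ j = 1 / 2 := fun j => by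
    rw [hs0]; show 1 / (2 * a₀ j) * a₀ j = 1 / 2
    have := (ha0 j).ne'
    field_simp
  have e1 : ∀ j, s1 j * a₁ j = 1 / 2 := fun j => by
    rw [hs1]; show 1 / (2 * a₁ j) * a₁ j = 1 / 2
    have := (ha1 j).ne'
    field_simp
  have hS0' : ∑ j, s0 j ≤ 1 := by rw [hs0]; linarith
  have hS1' : ∑ j, s1 j ≤ 1 := by rw [hs1]; linarith
  -- the four sums
  have hT : 0 ≤ ∑ j, s1 j * c j := Finset.sum_nonneg fun j _ => mul_nonneg (p1 j) (d2 j)
  have hm1 : 2 / 3 * ∑ j, s1 j ≤ (∑ j, w j) / 2 + ∑ j, s1 j * c j := by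
    rw [Finset.mul_sum, Finset.sum_div, ← Finset.sum_add_distrib]
    refine Finset.sum_le_sum fun j _ => ?_
    have := mul_le_mul_of_nonneg_left (d3 j) (p1 j)
    have h := e1 j
    have h' : s1 j * (a₁ j * w j + c j) = w j / 2 + s1 j * c j := by
      linear_combination (w j) * h
    linarith
  have hG1 : (2 / 3 - t / 2) * ∑ j, s1 j - 3 / 4 * ((∑ j, w j) / 2 + ∑ j, s1 j * c j) ≤
      ∑ j, s1 j * G₁ j := by
    rw [Finset.mul_sum, Finset.sum_div, ← Finset.sum_add_distrib, Finset.mul_sum,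
      ← Finset.sum_sub_distrib]
    refine Finset.sum_le_sum fun j _ => ?_
    have := mul_le_mul_of_nonneg_left (d4 j) (p1 j)
    have h := e1 j
    have h' : s1 j * (2 / 3 - 3 / 4 * (a₁ j * w j + c j) - t / 2) =
        (2 / 3 - t / 2) * s1 j - 3 / 4 * (w j / 2 + s1 j * c j) := by
      linear_combination (-(3 / 4) * w j) * h
    linarith
  have hG0 : (2 / 3 - t / 2) * ∑ j, s0 j - 3 / 4 * ((∑ j, w j) / 2) ≤ ∑ j, s0 j * G₀ j := by
    rw [Finset.mul_sum, Finset.sum_div, Finset.mul_sum, ← Finset.sum_sub_distrib]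
    refine Finset.sum_le_sum fun j _ => ?_
    have := mul_le_mul_of_nonneg_left (b2 j) (p0 j)
    have h := e0 j
    have h' : s0 j * (2 / 3 - 3 / 4 * (a₀ j * w j) - t / 2) =
        (2 / 3 - t / 2) * s0 j - 3 / 4 * (w j / 2) := by
      linear_combination (-(3 / 4) * w j) * h
    linarith
  have hA1 : ∀ i, ∑ j, s1 j * (if i = j then a₁ j else 0) = 1 / 2 := fun i => by
    have : ∑ j, s1 j * (if i = j then a₁ j else 0) = ∑ j, if i = j then (1 / 2 : ℝ) else 0 :=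
      Finset.sum_congr rfl fun j _ => by
        split_ifs with h
        · exact e1 j
        · ring
    rw [this, Finset.sum_ite_eq]
    simp
  have hA0 : ∀ i, ∑ j, s0 j * (if i = j then a₀ j else 0) = 1 / 2 := fun i => by
    have : ∑ j, s0 j * (if i = j then a₀ j else 0) = ∑ j, if i = j then (1 / 2 : ℝ) else 0 :=
      Finset.sum_congr rfl fun j _ => by
        split_ifs with h
        · exact e0 j
        · ring
    rw [this, Finset.sum_ite_eq]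
    simp
  -- the parameters
  obtain ⟨θ, wE, w0, q1, q2, q3, q4, q5, q6⟩ : ∃ θ wE w0 : ℝ, 0 ≤ θ ∧ θ ≤ 1 ∧ 0 ≤ wE ∧ 0 ≤ w0 ∧
      wE + (w0 + (θ * ∑ j, s1 j + (1 - θ) * ∑ j, s0 j)) = 1 ∧
      (∑ j, w j) / 2 + θ * ∑ j, s1 j * c j + 2 / 3 * wE = 2 / 3 := by
    rcases le_or_gt ((∑ j, w j) / 2 + ∑ j, s1 j * c j) (2 / 3) with h | h
    · exact ⟨1, 1 - 3 / 2 * ((∑ j, w j) / 2 + ∑ j, s1 j * c j),
        3 / 2 * ((∑ j, w j) / 2 + ∑ j, s1 j * c j) - ∑ j, s1 j, zero_le_one, le_rfl,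
        by linarith, by linarith, by ring, by ring⟩
    · have hT' : 0 < ∑ j, s1 j * c j := by linarith
      obtain ⟨θ, g0, g1, g2⟩ : ∃ θ : ℝ, 0 ≤ θ ∧ θ ≤ 1 ∧
          θ * ∑ j, s1 j * c j = 2 / 3 - (∑ j, w j) / 2 :=
        ⟨(2 / 3 - (∑ j, w j) / 2) / ∑ j, s1 j * c j, div_nonneg (by linarith) hT'.le,
          (div_le_one hT').2 (by linarith), div_mul_cancel₀ _ hT'.ne'⟩
      refine ⟨θ, 0, 1 - (θ * ∑ j, s1 j + (1 - θ) * ∑ j, s0 j), g0, g1, le_rfl, ?_, by ring,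
        by rw [g2]; ring⟩
      have h3 := mul_le_mul_of_nonneg_left hS1' g0
      have h4 := mul_le_mul_of_nonneg_left hS0' (show 0 ≤ 1 - θ by linarith)
      linarith
  -- the combination
  let p : Option (Option (Fin k ⊕ Fin k)) → ℝ := fun o => o.elim wE fun o => o.elim w0
    (Sum.elim (fun j => θ * s1 j) fun j => (1 - θ) * s0 j)
  let z : Option (Option (Fin k ⊕ Fin k)) → Mon k := fun o =>
    o.elim ((fun _ => 0), 2 / 3, 1 / 6 - t / 2) fun o => o.elim ((fun _ => 0), 0, 2 / 3)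
      (Sum.elim (fun j => ((fun i => if i = j then a₁ j else 0), c j, G₁ j))
        fun j => ((fun i => if i = j then a₀ j else 0), 0, G₀ j))
  have hp : ∀ o ∈ (Finset.univ : Finset (Option (Option (Fin k ⊕ Fin k)))), 0 ≤ p o := by
    intro o _
    rcases o with _ | _ | j | j
    · exact q3
    · exact q4
    · exact mul_nonneg q1 (p1 j)
    · exact mul_nonneg (by linarith) (p0 j)
  have hp1 : ∑ o, p o = 1 := by
    rw [Fintype.sum_option, Fintype.sum_option, Fintype.sum_sum_type]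
    show wE + (w0 + (∑ j, θ * s1 j + ∑ j, (1 - θ) * s0 j)) = 1
    rw [← Finset.mul_sum, ← Finset.mul_sum]
    exact q5
  have hz : ∀ o ∈ (Finset.univ : Finset (Option (Option (Fin k ⊕ Fin k)))), z o ∈ C := by
    intro o _
    rcases o with _ | _ | j | j
    · exact hE
    · exact hvoid
    · exact d5 j
    · exact b3 j
  have hmem := hC.sum_mem hp hp1 hz
  obtain ⟨Gt, hGt⟩ : ∃ Gt : ℝ, Gt = wE * (1 / 6 - t / 2) + (w0 * (2 / 3) +
      (θ * ∑ j, s1 j * G₁ j + (1 - θ) * ∑ j, s0 j * G₀ j)) := ⟨_, rfl⟩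
  have heq : ∑ o, p o • z o =
      (((fun _ => 1 / 2), 2 / 3 - (∑ j, w j) / 2, Gt) : Mon k) := by
    rw [Fintype.sum_option, Fintype.sum_option, Fintype.sum_sum_type]
    refine Prod.ext ?_ (Prod.ext ?_ ?_)
    · funext i
      simp only [Prod.fst_add, Pi.add_apply, Prod.smul_fst, Pi.smul_apply, Prod.fst_sum,
        Finset.sum_apply, smul_eq_mul]
      show wE * 0 + (w0 * 0 + (∑ j, θ * s1 j * (if i = j then a₁ j else 0) +
        ∑ j, (1 - θ) * s0 j * (if i = j then a₀ j else 0))) = 1 / 2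
      simp only [mul_assoc]
      rw [← Finset.mul_sum, ← Finset.mul_sum, hA1, hA0]
      ring
    · simp only [Prod.fst_add, Prod.snd_add, Prod.smul_fst, Prod.smul_snd, Prod.fst_sum,
        Prod.snd_sum, smul_eq_mul]
      show wE * (2 / 3) + (w0 * 0 + (∑ j, θ * s1 j * c j + ∑ j, (1 - θ) * s0 j * 0)) = _
      simp only [mul_assoc]
      rw [← Finset.mul_sum, ← Finset.mul_sum]
      simp only [mul_zero, Finset.sum_const_zero]
      linarith
    · simp only [Prod.snd_add, Prod.smul_snd, Prod.snd_sum, smul_eq_mul]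
      show wE * (1 / 6 - t / 2) + (w0 * (2 / 3) + (∑ j, θ * s1 j * G₁ j +
        ∑ j, (1 - θ) * s0 j * G₀ j)) = _
      simp only [mul_assoc]
      rw [← Finset.mul_sum, ← Finset.mul_sum, hGt]
  rw [heq] at hmem
  have hGt1 : 1 / 6 - t / 2 ≤ Gt := by
    have h3 := mul_le_mul_of_nonneg_left hG1 q1
    have h4 := mul_le_mul_of_nonneg_left hG0 (show 0 ≤ 1 - θ by linarith)
    have h5 : 0 ≤ w0 * t := mul_nonneg q4 ht
    rw [hGt]
    generalize ∑ j, s1 j * G₁ j = X1 at *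
    generalize ∑ j, s0 j * G₀ j = X0 at *
    generalize ∑ j, s1 j * c j = T at *
    generalize ∑ j, s1 j = S1 at *
    generalize ∑ j, s0 j = S0 at *
    generalize ∑ j, w j = B at *
    have e5 : w0 = 1 - wE - (θ * S1 + (1 - θ) * S0) := by linarith
    have e6 : θ * T = 2 / 3 - 2 / 3 * wE - B / 2 := by linarith
    have key : wE * (1 / 6 - t / 2) + (w0 * (2 / 3) +
        (θ * ((2 / 3 - t / 2) * S1 - 3 / 4 * (B / 2 + T)) +
          (1 - θ) * ((2 / 3 - t / 2) * S0 - 3 / 4 * (B / 2)))) = 1 / 6 - t / 2 + w0 * t / 2 := by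
      linear_combination (-(3 / 4)) * e6 + (2 / 3 - t / 2) * e5
    linarith
  -- less amplifier
  have hpos : 0 ≤ 1 / 6 - t / 2 := by linarith
  obtain ⟨r, r0, r1, r2⟩ : ∃ r : ℝ, 0 ≤ r ∧ r ≤ 1 ∧ r * Gt = 1 / 6 - t / 2 := by
    rcases (hpos.trans hGt1).eq_or_lt with h | h
    · exact ⟨0, le_rfl, zero_le_one, by rw [zero_mul]; linarith⟩
    · exact ⟨(1 / 6 - t / 2) / Gt, div_nonneg hpos h.le, (div_le_one h).2 hGt1,
        div_mul_cancel₀ _ h.ne'⟩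
  have := hamp _ _ _ r hmem r0 r1
  rwa [r2] at this

/-! ### the two kinds of small classes -/

/-- **Möbius mass as the small class** -/
theorem line_moeb {k : ℕ} {w l : Fin k → ℝ} (hB : ∑ j, w j ≤ 4 / 3) (ht : 0 ≤ t)
    (ht3 : t ≤ 1 / 3) (hl : ∀ j, 0 < l j) (hl1 : ∑ j, 1 / (2 * l j) ≤ 1)
    (hZ : ∀ j, PtZ rc e₀ t (l j) (w j)) (hM : ∀ j, PtLM rc e₀ t (l j) (w j))
    (hvoid : Col rc e₀ w (fun _ => 0) 0 (2 / 3))
    (hK0 : Col rc e₀ w (fun _ => 0) (2 / 3) (1 / 6 - t / 2)) :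
    (((fun _ => 1 / 2), (4 / 3 - ∑ j, w j) / 2, 1 / 6 - t / 2) : Mon k) ∈
      Hull (Col rc e₀ w) := by
  have hE : (((fun _ => 0), 2 / 3, 1 / 6 - t / 2) : Mon k) ∈ Hull (Col rc e₀ w) := by
    have h := subset_hull hK0
    unfold pt at h
    simpa using h
  have hV : (((fun _ => 0), 0, 2 / 3) : Mon k) ∈ Hull (Col rc e₀ w) := by
    have h := subset_hull hvoid
    unfold pt at h
    simpa using h
  have h := line_core hB (convex_hull (Col rc e₀ w)) ht ht3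
    (fun x m G l' h h0 h1 => hull_amp h h0 h1) hV hE hl hl1 (fun j => ?_) (fun j => ?_)
  · have e : 2 / 3 - (∑ j, w j) / 2 = (4 / 3 - ∑ j, w j) / 2 := by ring
    rwa [e] at h
  · obtain ⟨a, G, h1, h2, h3⟩ := hZ j
    exact ⟨a, G, h1, h2, push1 j h3⟩
  · obtain ⟨a, m, G, h1, h2, h3, h4, h5⟩ := hM j
    exact ⟨a, m, G, h1, h2, h3, h4, push1 j h5⟩

/-- the points with the small lump `y` as a convex set -/
theorem convex_small {k : ℕ} (w : Fin k → ℝ) (y : ℝ) :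
    Convex ℝ {z : Mon k | ((Fin.snoc (α := fun _ => ℝ) z.1 (z.2.1 / y), 0, z.2.2) :
      Mon (k + 1)) ∈ Hull (Col rc e₀ (Fin.snoc (α := fun _ => ℝ) w y))} := by
  intro z1 h1 z2 h2 a b ha hb hab
  have h := (convex_hull (Col rc e₀ (Fin.snoc (α := fun _ => ℝ) w y))) h1 h2 ha hb hab
  show ((Fin.snoc (α := fun _ => ℝ) (a • z1 + b • z2).1 ((a • z1 + b • z2).2.1 / y), 0,
    (a • z1 + b • z2).2.2) : Mon (k + 1)) ∈ Hull (Col rc e₀ (Fin.snoc (α := fun _ => ℝ) w y))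
  convert h using 1
  refine Prod.ext ?_ (Prod.ext ?_ ?_)
  · funext i
    simp only [Prod.fst_add, Pi.add_apply, Prod.smul_fst, Pi.smul_apply, smul_eq_mul]
    refine Fin.lastCases ?_ (fun i => ?_) i
    · simp only [Fin.snoc_last, Prod.snd_add, Prod.fst_add, Prod.smul_snd, Prod.smul_fst,
        smul_eq_mul]
      ring
    · simp only [Fin.snoc_castSucc, Pi.add_apply, Pi.smul_apply, smul_eq_mul]
  · simp
  · simp

/-- **a small lump as the small class** -/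
theorem line_small {k : ℕ} {w l : Fin k → ℝ} {y : ℝ} (hy : 0 < y) (hB : ∑ j, w j ≤ 4 / 3)
    (ht : 0 ≤ t) (ht3 : t ≤ 1 / 3) (hl : ∀ j, 0 < l j) (hl1 : ∑ j, 1 / (2 * l j) ≤ 1)
    (hZ : ∀ j, PtZ rc e₀ t (l j) (w j)) (hL : ∀ j, PtL rc e₀ t (l j) (w j) y)
    (hvoid : Col rc e₀ (Fin.snoc (α := fun _ => ℝ) w y) (fun _ => 0) 0 (2 / 3))
    (hEy : (((fun _ => 2 / (3 * y)), 0, 1 / 6 - t / 2) : Mon 1) ∈
      Hull (Col rc e₀ fun _ : Fin 1 => y)) :
    ((Fin.snoc (α := fun _ => ℝ) (fun _ => 1 / 2) ((4 / 3 - ∑ j, w j) / (2 * y)), 0,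
      1 / 6 - t / 2) : Mon (k + 1)) ∈ Hull (Col rc e₀ (Fin.snoc (α := fun _ => ℝ) w y)) := by
  have hE : ((Fin.snoc (α := fun _ => ℝ) (fun _ : Fin k => (0 : ℝ)) (2 / 3 / y), 0,
      1 / 6 - t / 2) : Mon (k + 1)) ∈ Hull (Col rc e₀ (Fin.snoc (α := fun _ => ℝ) w y)) := by
    have hyl : (fun _ : Fin 1 => y) =
        fun _ : Fin 1 => (Fin.snoc (α := fun _ => ℝ) w y : Fin (k + 1) → ℝ) (Fin.last k) := by
      funext i
      simp
    rw [hyl] at hEy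
    have h := push1 (w := (Fin.snoc (α := fun _ => ℝ) w y : Fin (k + 1) → ℝ)) (Fin.last k) hEy
    convert h using 2
    funext i
    refine Fin.lastCases ?_ (fun i => ?_) i
    · rw [Fin.snoc_last, if_pos rfl]
      field_simp
    · rw [Fin.snoc_castSucc, if_neg (Fin.castSucc_lt_last i).ne]
  have hV : ((Fin.snoc (α := fun _ => ℝ) (fun _ : Fin k => (0 : ℝ)) (0 / y), 0, 2 / 3) :
      Mon (k + 1)) ∈ Hull (Col rc e₀ (Fin.snoc (α := fun _ => ℝ) w y)) := by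
    have h := subset_hull hvoid
    unfold pt at h
    convert h using 2
    funext i
    refine Fin.lastCases ?_ (fun i => ?_) i
    · rw [Fin.snoc_last]; simp
    · rw [Fin.snoc_castSucc]; simp
  have h := line_core hB (convex_small (rc := rc) (e₀ := e₀) w y) ht ht3
    (fun x m G l' h h0 h1 => hull_amp (m := 0) h h0 h1) hV hE hl hl1 (fun j => ?_) (fun j => ?_)
  · have e : (2 / 3 - (∑ j, w j) / 2) / y = (4 / 3 - ∑ j, w j) / (2 * y) := by
      field_simp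
      ring
    have h' : ((Fin.snoc (α := fun _ => ℝ) (fun _ : Fin k => (1 / 2 : ℝ))
      ((2 / 3 - (∑ j, w j) / 2) / y), 0, 1 / 6 - t / 2) : Mon (k + 1)) ∈
        Hull (Col rc e₀ (Fin.snoc (α := fun _ => ℝ) w y)) := h
    rwa [e] at h'
  · obtain ⟨a, G, h1, h2, h3⟩ := hZ j
    refine ⟨a, G, h1, h2, ?_⟩
    have hwj : (fun _ : Fin 1 => w j) = fun _ : Fin 1 =>
        (Fin.snoc (α := fun _ => ℝ) w y : Fin (k + 1) → ℝ) j.castSucc := by
      funext i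
      simp
    rw [hwj] at h3
    have h4 := push1 (w := (Fin.snoc (α := fun _ => ℝ) w y : Fin (k + 1) → ℝ)) j.castSucc h3
    show ((Fin.snoc (α := fun _ => ℝ) (fun i => if i = j then a else 0) (0 / y), 0, G) :
      Mon (k + 1)) ∈ Hull (Col rc e₀ (Fin.snoc (α := fun _ => ℝ) w y))
    convert h4 using 2
    funext i
    refine Fin.lastCases ?_ (fun i => ?_) i
    · rw [Fin.snoc_last, if_neg (Fin.castSucc_lt_last j).ne', zero_div]
    · rw [Fin.snoc_castSucc]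
      simp only [Fin.castSucc_inj]
  · obtain ⟨a, c, G, h1, h2, h3, h4, h5⟩ := hL j
    refine ⟨a, c * y, G, h1, mul_nonneg h2 hy.le, h3, h4, ?_⟩
    have h6 := push2 j h5
    rw [← mul_div_cancel_right₀ c hy.ne'] at h6
    exact h6

/-! ### the box theorem -/

/-- **boxes in which every lump `> y₀` has its own points** -/
theorem cov_line (ht : 0 ≤ t) (ht3 : t ≤ 1 / 3)
    (hvoid : ∀ (k : ℕ) (w : Fin k → ℝ), (∀ j, 0 ≤ w j) → Col rc e₀ w (fun _ => 0) 0 (2 / 3))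
    (hK0 : ∀ (k : ℕ) (w : Fin k → ℝ), (∀ j, 0 ≤ w j) →
      Col rc e₀ w (fun _ => 0) (2 / 3) (1 / 6 - t / 2)) {y₀ : ℝ}
    (hEy : ∀ y, 0 < y → y ≤ y₀ → (((fun _ => 2 / (3 * y)), 0, 1 / 6 - t / 2) : Mon 1) ∈
      Hull (Col rc e₀ fun _ : Fin 1 => y)) {N : ℕ} {u : Fin N → ℝ} (hu : ∀ j, 0 < u j)
    (hs : ∑ j, u j ≤ 4 / 3) (l : Fin N → ℝ) (hl : ∀ j, 0 < l j)
    (hl1 : ∑ j ∈ Finset.univ.filter (fun j => y₀ < u j), 1 / (2 * l j) ≤ 1)
    (hZ : ∀ j, y₀ < u j → PtZ rc e₀ t (l j) (u j))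
    (hM : ∀ j, y₀ < u j → PtLM rc e₀ t (l j) (u j))
    (hL : ∀ j, y₀ < u j → ∀ y, 0 < y → y ≤ y₀ → PtL rc e₀ t (l j) (u j) y) :
    CovM rc e₀ t u (fun _ => 1) := by
  classical
  unfold CovM
  refine cov_small (Id := fun _ u => Col rc e₀ u) (col_push rc e₀) u (fun _ => 1)
    (fun j => (hu j).le) (fun _ => zero_le_one) (fun j hj => absurd hj (hu j).ne')
    (by simpa using hs) y₀ (1 / 6 - t / 2) ?_
  intro k ι hι _ hbig
  have hw : ∀ i, y₀ < u (ι i) := fun i => (hbig _).2 ⟨i, rfl⟩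
  have him : Finset.univ.filter (fun j => y₀ < u j) = Finset.univ.image ι := by
    ext j
    simp [hbig]
  have hsum : ∑ i, 1 / (2 * l (ι i)) ≤ 1 := by
    rw [him, Finset.sum_image fun a _ b _ h => hι h] at hl1
    exact hl1
  have hB : ∑ i, u (ι i) ≤ 4 / 3 := by
    have h1 : ∑ i, u (ι i) = ∑ j ∈ Finset.univ.image ι, u j :=
      (Finset.sum_image fun a _ b _ h => hι h).symm
    rw [h1]
    exact (Finset.sum_le_sum_of_subset_of_nonneg (Finset.subset_univ _)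
      fun j _ _ => (hu j).le).trans hs
  simp only [one_mul]
  constructor
  · exact line_moeb (w := u ∘ ι) (l := l ∘ ι) hB ht ht3 (fun i => hl _) hsum
      (fun i => hZ _ (hw i)) (fun i => hM _ (hw i)) (hvoid k _ fun i => (hu _).le)
      (hK0 k _ fun i => (hu _).le)
  · rintro y hy hy1 -
    exact line_small (w := u ∘ ι) (l := l ∘ ι) hy hB ht ht3 (fun i => hl _) hsum
      (fun i => hZ _ (hw i)) (fun i => hL _ (hw i) y hy hy1)
      (hvoid (k + 1) _ (snoc_nonneg (fun i => (hu _).le) hy.le)) (hEy y hy hy1)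

end Crest.Agent.R017.CovLine177
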