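import Crest.Agent.R017.CovM_59

/-!
# Row 17, section D: master coverage, smooth lumps longer than `4/3` (helper59)

For `Σ u > 4/3` there is additional room: the amount `t` of granular mass which may be dropped is
`t₀ + (Σ u - 4/3)/4`.
-/

set_option autoImplicit false

noncomputable section

namespace Crest.Agent.R017.CovM59

open Crest.Agent.R017.ER911 Crest.Agent.R017.Hull741 Crest.Agent.R017.Cone59
open Crest.Agent.R017.BoxCov741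

/-- reduction of the masses for `s ≥ 4/3` -/
theorem red_big {θ s m a t₀ t : ℝ} (hθ : 7 / 8 ≤ θ) (hθ1 : θ ≤ 1) (hs : 4 / 3 ≤ s) (hm : 0 ≤ m)
    (ha : 0 ≤ a) (ht0 : 0 ≤ t₀) (ht : t₀ ≤ t) (ht3 : t ≤ 1 / 3)
    (htd : t ≤ t₀ + 1 / 4 * (s - 4 / 3)) :
    ∃ m' a' : ℝ, 0 ≤ m' ∧ m' ≤ m ∧ 0 ≤ a' ∧ a' ≤ a ∧ m' + a' ≤ 1 / 3 - t ∧
      b2 θ + (2 * θ - 1) * ((s + m + a) - (4 / 3 + m' + a')) ≤
        Al2 θ (s + m + a) a + (2 * θ - 1) * t₀ := by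
  have hb : 0 ≤ b2 θ := by unfold b2; linarith
  have hk : 0 ≤ 1 - 2 / 3 * θ := by linarith
  have hsp : 0 ≤ 2 * θ - 1 := by linarith
  set L := s + m + a with hL
  have r1 := one_le_r2 L a
  have ra := r2_a L a
  have rL := r2_L L a
  have rq := r2_q L a
  have A2 : b2 θ * r2 L a + (L - 2 * a) - 1 ≤ Al2 θ L a :=
    (le_max_left _ _).trans (le_max_right _ _)
  have A3 : (1 - 2 / 3 * θ) * r2 L a - 5 / 3 + (2 * θ - 1) * L ≤ Al2 θ L a :=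
    (le_max_right _ _).trans (le_max_right _ _)
  have b1 : b2 θ ≤ b2 θ * r2 L a := by
    have := mul_le_mul_of_nonneg_left r1 hb
    linarith
  rcases le_total (m + a) (1 / 3 - t) with h | h
  · -- keep everything
    refine ⟨m, a, hm, le_rfl, ha, le_rfl, h, ?_⟩
    have e1 : L - (4 / 3 + m + a) = s - 4 / 3 := by rw [hL]; ring
    rw [e1]
    have e2 : s - 4 / 3 ≤ L - 2 * a - 1 := by rw [hL]; linarith
    have e3 : (2 * θ - 1) * (s - 4 / 3) ≤ 1 * (s - 4 / 3) :=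
      mul_le_mul_of_nonneg_right (by linarith) (by linarith)
    have e4 : 0 ≤ (2 * θ - 1) * t₀ := mul_nonneg hsp ht0
    linarith
  · -- keep `1/3 - t`, amplifier last
    have hr : 3 / 4 * (s - 4 / 3) ≤ r2 L a - 1 := by
      have : 8 / 3 * r2 L a ≥ L + (L - 2 * a) := by linarith
      rw [hL] at this
      linarith
    have hkk : (2 * θ - 1) * (t - t₀) ≤ (1 - 2 / 3 * θ) * (r2 L a - 1) := by
      have h1 : (2 * θ - 1) * (t - t₀) ≤ (2 * θ - 1) * (1 / 4 * (s - 4 / 3)) :=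
        mul_le_mul_of_nonneg_left (by linarith) hsp
      have h2 : (1 - 2 / 3 * θ) * (3 / 4 * (s - 4 / 3)) ≤ (1 - 2 / 3 * θ) * (r2 L a - 1) :=
        mul_le_mul_of_nonneg_left hr hk
      have h3 : 0 ≤ (1 - θ) * (s - 4 / 3) := mul_nonneg (by linarith) (by linarith)
      nlinarith
    have key : ∀ w : ℝ, w = 1 / 3 - t →
        b2 θ + (2 * θ - 1) * (L - (4 / 3 + w)) ≤ Al2 θ L a + (2 * θ - 1) * t₀ := by
      intro w hw
      refine le_trans ?_ (add_le_add_left A3 _)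
      rw [hw]
      have e5 : b2 θ = (1 - 2 / 3 * θ) - 5 / 3 + (2 * θ - 1) * (5 / 3) := by unfold b2; ring
      rw [e5]
      nlinarith
    rcases le_total a (1 / 3 - t) with h' | h'
    · refine ⟨1 / 3 - t - a, a, by linarith, by linarith, ha, le_rfl, by linarith, ?_⟩
      have := key (1 / 3 - t - a + a) (by ring)
      rwa [← add_assoc] at this
    · refine ⟨0, 1 / 3 - t, le_rfl, hm, by linarith, h', by linarith, ?_⟩
      have := key (0 + (1 / 3 - t)) (by ring)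
      rwa [← add_assoc] at this

/-- **master coverage gives the box theorem, `Σ u ≥ 4/3`, with the additional room** -/
theorem cov_box_big {θ : ℝ} (hθ : 7 / 8 ≤ θ) (hθ1 : θ ≤ 1) {r bx : EF} (B : ExpBox θ r bx)
    {N : ℕ} (u : Fin N → ℝ) (hu : ∀ j, 0 ≤ u j) {m a : ℝ} (hm : 0 ≤ m) (ha : 0 ≤ a)
    {e₀ t₀ t μ : ℝ} (ht0 : 0 ≤ t₀) (ht : t₀ ≤ t) (ht3 : t ≤ 1 / 3)
    (htd : t ≤ t₀ + 1 / 4 * ((∑ j, u j) - 4 / 3))
    (he : 2 * e₀ + (2 * θ - 1) * t₀ + μ ≤ b2 θ)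
    (τ : Fin N → ℝ) (hτ : ∀ j, τ j ≤ 1) (hU : 4 / 3 ≤ ∑ j, u j)
    (hs : ∑ j, τ j * u j = 4 / 3) (hcov : CovM r e₀ t u τ) :
    bx 1 (Finset.univ.val.map u) m a ≤
      1 + (((∑ j, u j) + m + a) + (Al2 θ ((∑ j, u j) + m + a) a - μ)) / 2 := by
  obtain ⟨m', a', hm0, hm1, ha0, ha1, hw, hAl⟩ := red_big hθ hθ1 hU hm ha ht0 ht ht3 htd
  have hmem := hull_of_col hcov (f := m' / 2) (g := a' / 2) (by linarith) (by linarith)
    (by rw [hs]; linarith) (by rw [hs]; linarith)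
  have h := outer_le B u 1 m a e₀ zero_le_one hu hm ha τ m' a' hτ hm1 ha1 hmem
  rw [hs] at h
  set L := (∑ j, u j) + m + a
  nlinarith

/-- with `le_target2` -/
theorem cov_target_big {θ : ℝ} (hθ : 7 / 8 ≤ θ) (hθ1 : θ ≤ 1) {r bx : EF} (B : ExpBox θ r bx)
    {N : ℕ} (u : Fin N → ℝ) (hu : ∀ j, 0 ≤ u j) {m a : ℝ} (hm : 0 ≤ m) (ha : 0 ≤ a)
    {e₀ t₀ t μ : ℝ} (ht0 : 0 ≤ t₀) (ht : t₀ ≤ t) (ht3 : t ≤ 1 / 3)
    (htd : t ≤ t₀ + 1 / 4 * ((∑ j, u j) - 4 / 3))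
    (he : 2 * e₀ + (2 * θ - 1) * t₀ + μ ≤ b2 θ)
    (τ : Fin N → ℝ) (hτ : ∀ j, τ j ≤ 1) (hU : 4 / 3 ≤ ∑ j, u j)
    (hs : ∑ j, τ j * u j = 4 / 3) (hcov : CovM r e₀ t u τ) {h q c : ℝ}
    (h0 : 0 < h) (hh : h ≤ 1) (hq : h * ((∑ j, u j) + m + a) = q + c) (hc' : h * a = c)
    (hc : c ≤ 1 / 3) (hfull : q + c ≤ 5 / 3) (hqc : q - c ≤ 1) :
    h * bx 1 (Finset.univ.val.map u) m a + h * μ / 2 ≤ Tg2 θ h q c := by
  have h1 := cov_box_big hθ hθ1 B u hu hm ha ht0 ht ht3 htd he τ hτ hU hs hcov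
  set L := (∑ j, u j) + m + a
  have h2 := le_target2 (e := Al2 θ L a - μ) hθ hθ1 h0 hh hq hc' hc hfull hqc le_rfl
  have h3 := mul_le_mul_of_nonneg_left h1 h0.le
  have h4 : h * (1 + (L + (Al2 θ L a - μ)) / 2) = h + (q + c) / 2 + h * (Al2 θ L a - μ) / 2 := by
    rw [← hq]; ring
  linarith

end Crest.Agent.R017.CovM59
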