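import Crest.Agent.R017.CovMap_702
import Crest.Agent.R017.NearC_59

/-!
# Row 17, T.2 : the second map of the coverage (helper702)

The map of `CovMap_702` for any weights `l` (copies in the points of the single lumps):

* `Sgl l`   : the single lumps have points with `l A` copies
* `TreeW l k`, `TreeD l k` : the boxes with `k` big lumps and `Σ 1/(2 l u) > 1`, as a tree (`Good`)
  or directly (`CovM`)
* `coreL_of_w`, `covAll_of_w`, `certA_of_w`
* `lw2` : `9/2` up to `4/27`, `7/2` up to `4/21`, `2/(3u)` up to `1/5`, `3` up to `2/9`, `2` up to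
  `1/3`, `2/(3u)` up to `1/2`, then `1`; `Leaves2`, `certA2`
-/

set_option autoImplicit false

noncomputable section

namespace Crest.Agent.R017.CovMap702

open Crest.Agent.R017.ER911 Crest.Agent.R017.Hull741 Crest.Agent.R017.CovM59
  Crest.Agent.R017.CovSmall741 Crest.Agent.R017.CovGlue741 Crest.Agent.R017.ExpC702
  Crest.Agent.R017.Prov71 Crest.Agent.R017.Cone59 Crest.Agent.R017.CovBig954
  Crest.Agent.R017.HC777 Crest.Agent.R017.Cov499 Crest.Agent.R017.CovNear177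

/-- the single lumps have points with `l A` copies -/
structure Sgl (l : ℝ → ℝ) : Prop where
  one_le : ∀ u, 1 ≤ l u
  half : ∀ u, 1 / 2 < u → l u = 1
  pt : AllB fun _ e₀ t rc => ∀ A : ℝ, 13 / 100 ≤ A → A ≤ 2 / 3 →
    PtM rc e₀ t (l A) A ∧ ∀ y : ℝ, 0 < y → y ≤ 13 / 100 → PtS rc e₀ t (l A) A y

theorem Sgl.pos {l : ℝ → ℝ} (S : Sgl l) (u : ℝ) : 0 < l u := lt_of_lt_of_le one_pos (S.one_le u)

/-- the trees for the weights `l` -/
def TreeW (l : ℝ → ℝ) (k : ℕ) : Prop := ∀ w : Fin k → ℝ, Antitone w → (∀ j, 13 / 100 ≤ w j) →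
  (∀ j, w j ≤ 5 / 6) → ∑ j, w j ≤ 4 / 3 → NoNE w → 1 < ∑ j, 1 / (2 * l (w j)) →
  Good Col0 Col2 (13 / 100) w

/-- the boxes with `k` big lumps and `Σ P > 1`, directly -/
def TreeD (l : ℝ → ℝ) (k : ℕ) : Prop := AllB fun _ e₀ t rc => ∀ (N : ℕ) (u : Fin N → ℝ),
  (∀ j, 0 < u j) → ∑ j, u j ≤ 4 / 3 → (∀ j, u j < 5 / 6) → NoNE5 u →
  (Finset.univ.filter fun j => 13 / 100 < u j).card = k →
  1 < ∑ j ∈ Finset.univ.filter (fun j => 13 / 100 < u j), 1 / (2 * l (u j)) →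
  CovM rc e₀ t u (fun _ => 1)

/-- a larger region -/
theorem TreeW.mono {l l' : ℝ → ℝ} {k : ℕ} (h : TreeW l k) (hl : ∀ u, 1 ≤ l u)
    (hll : ∀ u, l u ≤ l' u) : TreeW l' k := by
  intro w ha h1 h2 hs hN hP
  refine h w ha h1 h2 hs hN (hP.trans_le (Finset.sum_le_sum fun j _ => ?_))
  have h3 := hl (w j)
  have h4 := hll (w j)
  exact one_div_le_one_div_of_le (by linarith) (by linarith)

/-- the trees give the direct form -/
theorem treeD_of_tree (hE : EyP) {l : ℝ → ℝ} {k : ℕ} (h : TreeW l k) : TreeD l k := by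
  intro d e₀ t P r s s₀ rc bc B N u hu hs hlong hNE hk hP
  have ht3 : t ≤ 1 / 3 := by linarith [P.t3]
  have ht := P.t0.le
  have I := inp P B hE
  have himg : ∀ (k' : ℕ) (ι' : Fin k' → Fin N),
      (∀ j, 13 / 100 < u j ↔ ∃ i, ι' i = j) →
      (Finset.univ.filter fun j => 13 / 100 < u j) = Finset.univ.image ι' := by
    classical
    intro k' ι' h
    ext j
    simp [h j]
  refine covM_of_good' I ht ht3 hu hs fun k' ι' hι' hanti' hmem'' => ?_
  have hw' : ∀ i, 13 / 100 < u (ι' i) := fun i => (hmem'' _).2 ⟨i, rfl⟩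
  have hkk : k' = k := by
    classical
    rw [← hk, himg k' ι' hmem'', Finset.card_image_of_injective _ hι', Finset.card_univ,
      Fintype.card_fin]
  subst hkk
  have hsumP : 1 < ∑ i, 1 / (2 * l ((u ∘ ι') i)) := by
    classical
    rw [himg k' ι' hmem'', Finset.sum_image fun a _ b _ h => hι' h] at hP
    exact hP
  refine h (u ∘ ι') hanti' (fun i => (hw' i).le) (fun i => (hlong _).le) ?_
    (CovTop741.noNE_of hNE hι' hanti') hsumP
  classical
  have h1 : ∑ i, (u ∘ ι') i = ∑ j ∈ Finset.univ.image ι', u j :=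
    (Finset.sum_image fun a _ b _ h => hι' h).symm
  rw [h1]
  exact (Finset.sum_le_sum_of_subset_of_nonneg (Finset.subset_univ _)
    fun j _ _ => (hu j).le).trans hs

/-- a lump `≥ 2/3` and `Σ P ≤ 1` -/
theorem near_long_w {l : ℝ → ℝ} (S : Sgl l) {d e₀ t : ℝ} (P : Par d e₀ t) {r s s₀ rc bc : EF}
    (B : ProvE (7 / 8 + d) r s s₀ rc bc) (I : Inp Col0 Col2 (13 / 100) rc e₀ t)
    {N : ℕ} {u : Fin N → ℝ} (hu : ∀ j, 0 < u j) (hs : ∑ j, u j ≤ 4 / 3) {j₁ : Fin N}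
    (hj : 2 / 3 ≤ u j₁)
    (hP : ∑ j ∈ Finset.univ.filter (fun j => 13 / 100 < u j), 1 / (2 * l (u j)) ≤ 1)
    (ho : ∀ j, j ≠ j₁ → u j ≤ 2 / 3) : CovM rc e₀ t u (fun _ => 1) := by
  cases N with
  | zero => exact j₁.elim0
  | succ N =>
    refine CovLong702.covM_long2 B.rules B.cpl P.d0.le (by linarith [P.de, P.d0]) P.t0.le
      (by linarith [P.t3]) (fun k w hw => I.K0 hw) I.Ey hu hs j₁ hj (fun j => l (u j))
      (fun j => S.pos _) ?_ (fun j h1 h2 => (S.pt _ _ _ P _ _ _ _ _ B _ h2.le (ho j h1)).1)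
      (fun j h1 h2 => (S.pt _ _ _ P _ _ _ _ _ B _ h2.le (ho j h1)).2)
    rw [Finset.sum_filter, Fin.sum_univ_succAbove _ j₁, if_pos (by linarith),
      S.half _ (by linarith)] at hP
    linarith

/-- **the coverage for `Σ u ≤ 4/3`** from the points of the single lumps and the trees -/
theorem coreL_of_w {l : ℝ → ℝ} (S : Sgl l) (hE : EyP) (hT : ∀ k, 3 ≤ k → k ≤ 8 → TreeD l k)
    {d e₀ t : ℝ} (P : Par d e₀ t) {r s s₀ rc bc : EF} (B : ProvE (7 / 8 + d) r s s₀ rc bc) :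
    CoreL e₀ t rc := by
  have ht3 : t ≤ 1 / 3 := by linarith [P.t3]
  have ht := P.t0.le
  have hde := P.de
  have hd0 := P.d0
  intro N u hu hNE hs
  by_cases hlong : ∃ j₁, 5 / 6 ≤ u j₁
  · obtain ⟨j₁, hj⟩ := hlong
    exact CovTop741.covM_long B.rules B.cpl hd0.le (by linarith) ht ht3 (fun j => (hu j).le) hs hj
  push Not at hlong
  have I := inp P B hE
  by_cases hP : ∑ j ∈ Finset.univ.filter (fun j => 13 / 100 < u j), 1 / (2 * l (u j)) ≤ 1
  · by_cases h23 : ∃ j₁, 2 / 3 ≤ u j₁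
    · obtain ⟨j₁, hj⟩ := h23
      have hothers : ∀ j, j ≠ j₁ → u j ≤ 2 / 3 := by
        intro j hjj
        have h2 := Finset.add_le_sum (s := Finset.univ) (fun i _ => (hu i).le)
          (Finset.mem_univ j) (Finset.mem_univ j₁) hjj
        linarith
      exact near_long_w S P B I hu hs hj hP hothers
    push Not at h23
    refine cov_near (fun k w hw => ?_) I.Ey hu hs (fun j => l (u j)) (fun j => S.pos _) hP
      (fun j hj => (S.pt _ _ _ P _ _ _ _ _ B _ hj.le (h23 j).le).1)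
      (fun j hj => (S.pt _ _ _ P _ _ _ _ _ B _ hj.le (h23 j).le).2)
    exact I.K0 hw
  -- the number of big lumps
  obtain ⟨k, ι, hι, hanti, hmem⟩ := exists_sorted u (Finset.univ.filter fun j => 13 / 100 < u j)
  have hmem' : ∀ j, 13 / 100 < u j ↔ ∃ i, ι i = j := fun j => by
    rw [← hmem]; simp
  have hw : ∀ i, 13 / 100 < u (ι i) := fun i => (hmem' _).2 ⟨i, rfl⟩
  rcases le_or_gt 9 k with hk | hk
  · refine CovNine358.covM_nine B.cpl B.rules B.lv hd0.le (by linarith) ht ht3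
      (fun j => (hu j).le) hs (ι ∘ Fin.castLE hk) (hι.comp (Fin.castLE_injective hk)) ?_
      fun i => (hw _).le
    intro a b hab
    exact hanti (by exact_mod_cast hab)
  have himg : (Finset.univ.filter fun j => 13 / 100 < u j) = Finset.univ.image ι := by
    classical
    ext j
    simp [hmem' j]
  have hcard : (Finset.univ.filter fun j => 13 / 100 < u j).card = k := by
    classical
    rw [himg, Finset.card_image_of_injective _ hι, Finset.card_univ, Fintype.card_fin]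
  have hP' := not_le.1 hP
  have hk3 : 3 ≤ k := by
    by_contra hc
    refine absurd ?_ (not_le.2 hP')
    classical
    rw [himg, Finset.sum_image fun a _ b _ h => hι h]
    calc ∑ i, 1 / (2 * l (u (ι i))) ≤ ∑ _i : Fin k, (1 / 2 : ℝ) := by
          refine Finset.sum_le_sum fun j _ => ?_
          have h1 := S.one_le (u (ι j))
          exact one_div_le_one_div_of_le (by norm_num) (by linarith)
      _ = k * (1 / 2) := by simp
      _ ≤ 2 * (1 / 2) := by
          have : (k : ℝ) ≤ 2 := by exact_mod_cast (by omega : k ≤ 2)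
          linarith
      _ = 1 := by norm_num
  exact hT k hk3 (by omega) d e₀ t P r s s₀ rc bc B N u hu hs hlong hNE hcard hP'

/-- **`CovAll`** -/
theorem covAll_of_w {l : ℝ → ℝ} (S : Sgl l) (hE : EyP) (hT : ∀ k, 3 ≤ k → k ≤ 8 → TreeD l k)
    {d : ℝ} (hd : 0 < d) (hd8 : d < 1 / 8) :
    ∃ e₀ t μ : ℝ, 0 ≤ t ∧ t ≤ 1 / 3 ∧ 0 < μ ∧
      2 * e₀ + (2 * (7 / 8 + d) - 1) * t + μ ≤ b2 (7 / 8 + d) ∧
      BoxAll702.CovAll (7 / 8 + d) e₀ t := by
  obtain ⟨e₀, t, P⟩ := exists_par hd hd8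
  have h1 : 0 < (1 / 4 - 2 * d) * t := mul_pos (by linarith) P.t0
  refine ⟨e₀, t, (1 / 4 - 2 * d) * t, P.t0.le, by linarith [P.t3], h1, ?_,
    fun r s s₀ rc bc B => coreL_of_w S hE hT P B⟩
  rw [P.e1]
  unfold b2
  nlinarith

/-- **the certificate of the absolute boxes** -/
theorem certA_of_w {l : ℝ → ℝ} (S : Sgl l) (hE : EyP) (hT : ∀ k, 3 ≤ k → k ≤ 8 → TreeD l k)
    {θ : ℝ} (hθ : 7 / 8 < θ) (hθ1 : θ < 1) : ∃ μ : ℝ, 0 < μ ∧ μ ≤ 1 / 12 ∧
      ∀ r s s₀ rc bc : EF, ProvE θ r s s₀ rc bc →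
        TopC702.BoxAll θ μ (BxE986.AL (9 / 10) 1 w5) bc := by
  obtain ⟨d, rfl⟩ : ∃ d, θ = 7 / 8 + d := ⟨θ - 7 / 8, by ring⟩
  obtain ⟨e₀, t, μ, ht, ht3, hμ, he, hc⟩ := covAll_of_w S hE hT (d := d) (by linarith)
    (by linarith)
  obtain ⟨μ₁, hμ₁, hn⟩ : ∃ μ₁ : ℝ, 0 < μ₁ ∧ ∀ r s s₀ rc bc : EF,
      ProvE (7 / 8 + d) r s s₀ rc bc → BoxAll702.NearB (7 / 8 + d) μ₁ bc :=
    ⟨_, div_pos (lt_min hμ (by linarith)) (by norm_num), fun r s s₀ rc bc B =>
      Near59.nearB (by linarith) (by linarith) ht ht3 hμ.le he hc B⟩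
  exact BoxAll702.certA_of_cov (by linarith) (by linarith) hμ hμ₁ ht ht3 he hc hn

/-! ### the weights `lw2` -/

/-- copies in the points of the single lumps, second list -/
def lw2 (u : ℝ) : ℝ :=
  if u ≤ 4 / 27 then 9 / 2 else if u ≤ 4 / 21 then 7 / 2 else if u ≤ 1 / 5 then 2 / (3 * u) else
    if u ≤ 2 / 9 then 3 else if u ≤ 1 / 3 then 2 else if u ≤ 1 / 2 then 2 / (3 * u) else 1

theorem one_le_lw2 (u : ℝ) : 1 ≤ lw2 u := by
  unfold lw2
  split_ifs with h1 h2 h3 h4 h5 h6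
  · norm_num
  · norm_num
  · have : 0 < u := by linarith [not_le.1 h2]
    rw [le_div_iff₀ (by linarith)]
    linarith
  · norm_num
  · norm_num
  · have : 0 < u := by linarith [not_le.1 h5]
    rw [le_div_iff₀ (by linarith)]
    linarith
  · norm_num

theorem lw2_half (u : ℝ) (h : 1 / 2 < u) : lw2 u = 1 := by
  unfold lw2
  rw [if_neg (by linarith), if_neg (by linarith), if_neg (by linarith), if_neg (by linarith),
    if_neg (by linarith), if_neg (by linarith)]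

theorem lw_le_lw2 (u : ℝ) : lw u ≤ lw2 u := by
  unfold lw lw2
  by_cases h1 : u ≤ 4 / 27
  · rw [if_pos h1, if_pos h1]
  rw [if_neg h1, if_neg h1]
  by_cases h2 : u ≤ 1 / 6
  · rw [if_pos h2, if_pos (show u ≤ 4 / 21 by linarith)]
  rw [if_neg h2]
  have h2' := not_le.1 h2
  by_cases h3 : u ≤ 2 / 9
  · rw [if_pos h3]
    by_cases h4 : u ≤ 4 / 21
    · rw [if_pos h4]; norm_num
    rw [if_neg h4]
    by_cases h5 : u ≤ 1 / 5
    · rw [if_pos h5, le_div_iff₀ (by linarith)]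
      linarith
    · rw [if_neg h5]
      try rw [if_pos h3]
  · have h3' := not_le.1 h3
    rw [if_neg h3, if_neg (show ¬ u ≤ 4 / 21 from not_le.2 (by linarith)),
      if_neg (show ¬ u ≤ 1 / 5 from not_le.2 (by linarith))]

/-- a tree for `lw` is one for `lw2` -/
theorem tree2_of_tree {k : ℕ} (h : Tree k) : TreeW lw2 k :=
  TreeW.mono (l := lw) h one_le_lw lw_le_lw2

/-- the points of the single lumps for `lw` -/
theorem sgl_lw (s1 : Single (13 / 100) (4 / 27) (9 / 2)) (s2 : Single (4 / 27) (1 / 6) (7 / 2))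
    (s3 : Single (1 / 6) (2 / 9) 3) (s4 : Single (2 / 9) (1 / 3) 2) (s5 : SingleP (1 / 3) (1 / 2))
    (s6 : Single (1 / 2) (2 / 3) 1) : Sgl lw where
  one_le := one_le_lw
  half _ h := lw_half h
  pt d e₀ t P r s s₀ rc bc B A h0 h1 := by
    unfold lw
    split_ifs with c1 c2 c3 c4 c5
    · exact s1 d e₀ t P _ _ _ _ _ B A h0 c1
    · exact s2 d e₀ t P _ _ _ _ _ B A (not_le.1 c1).le c2
    · exact s3 d e₀ t P _ _ _ _ _ B A (not_le.1 c2).le c3
    · exact s4 d e₀ t P _ _ _ _ _ B A (not_le.1 c3).le c4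
    · exact s5 d e₀ t P _ _ _ _ _ B A (not_le.1 c4).le c5
    · exact s6 d e₀ t P _ _ _ _ _ B A (not_le.1 c5).le h1

/-- the points of the single lumps for `lw2` -/
theorem sgl_lw2 (s1 : Single (13 / 100) (4 / 27) (9 / 2)) (s2 : Single (4 / 27) (1 / 6) (7 / 2))
    (s3a : Single (1 / 6) (4 / 21) (7 / 2)) (s3b : SingleP (4 / 21) (1 / 5))
    (s3 : Single (1 / 6) (2 / 9) 3) (s4 : Single (2 / 9) (1 / 3) 2) (s5 : SingleP (1 / 3) (1 / 2))
    (s6 : Single (1 / 2) (2 / 3) 1) : Sgl lw2 where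
  one_le := one_le_lw2
  half := lw2_half
  pt d e₀ t P r s s₀ rc bc B A h0 h1 := by
    unfold lw2
    split_ifs with c1 c2 c3 c4 c5 c6
    · exact s1 d e₀ t P _ _ _ _ _ B A h0 c1
    · rcases le_total A (1 / 6) with h | h
      · exact s2 d e₀ t P _ _ _ _ _ B A (not_le.1 c1).le h
      · exact s3a d e₀ t P _ _ _ _ _ B A h c2
    · exact s3b d e₀ t P _ _ _ _ _ B A (not_le.1 c2).le c3
    · exact s3 d e₀ t P _ _ _ _ _ B A (by linarith [not_le.1 c3]) c4
    · exact s4 d e₀ t P _ _ _ _ _ B A (not_le.1 c4).le c5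
    · exact s5 d e₀ t P _ _ _ _ _ B A (not_le.1 c5).le c6
    · exact s6 d e₀ t P _ _ _ _ _ B A (not_le.1 c6).le h1

end Crest.Agent.R017.CovMap702
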