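import Crest.Agent.R017.CovLine_177

/-!
# Row 17, section D: the single points from the columns (helper177)

`I : Inp Col0 Col2 (13/100) rc e₀ t` are the columns.

* `ptZ_all` : every lump `13/100 ≤ A ≤ 5/6` has a point without small mass (`lwL A` copies)
* `ptLM_mid` etc. : the Möbius points
* `ptL_half`, `ptL_long` : the points of the lumps `≥ 1/3`
* `ptL_of_full` : the points from the certificates of one lump (helper90)
-/

set_option autoImplicit false

noncomputable section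

namespace Crest.Agent.R017.CovPt177

open Crest.Agent.R017.ER911 Crest.Agent.R017.Hull741 Crest.Agent.R017.CovM59
  Crest.Agent.R017.CovSmall741 Crest.Agent.R017.Cov499 Crest.Agent.R017.CovGlue741
  Crest.Agent.R017.CovNear177 Crest.Agent.R017.CovLine177

variable {rc : EF} {e₀ t : ℝ}

/-! ### columns with one and two lengths -/

theorem lum1 (A : ℝ) (n : ℕ) :
    lum (fun _ : Fin 1 => A) (fun _ => n) = Multiset.replicate n A := by
  simp [lum]

theorem lum1' {k : Fin 1 → ℕ} (A : ℝ) :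
    lum (fun _ : Fin 1 => A) k = Multiset.replicate (k 0) A := by
  simp [lum]

theorem lum2 (A c : ℝ) (n k : ℕ) :
    lum ![A, c] ![n, k] = Multiset.replicate n A + Multiset.replicate k c := by
  simp [lum, Fin.sum_univ_two]

theorem lum2_sum (A c : ℝ) (n k : ℕ) : (lum ![A, c] ![n, k]).sum = n * A + k * c := by
  rw [lum2, Multiset.sum_add, Multiset.sum_replicate, Multiset.sum_replicate, nsmul_eq_mul,
    nsmul_eq_mul]

/-- a column with one length and Möbius mass -/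
theorem mem1 {A N m G : ℝ} {n : ℕ} (h : MCol rc e₀ (Multiset.replicate n A) N) (hm : 0 ≤ m)
    (hG : 0 ≤ G) (hN : n * A + m + G ≤ N) :
    (((fun _ => (n : ℝ)), m, G) : Mon 1) ∈ Hull (Col rc e₀ fun _ : Fin 1 => A) := by
  rw [← lum1] at h
  have e : (lum (fun _ : Fin 1 => A) (fun _ => n)).sum = n * A := by
    rw [lum1, Multiset.sum_replicate, nsmul_eq_mul]
  exact subset_hull (colM hm hG h (by rw [e]; exact hN))

/-- a column with two lengths -/
theorem mem2 {A y N G : ℝ} {n c : ℕ}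
    (h : MCol rc e₀ (Multiset.replicate n A + Multiset.replicate c y) N)
    (hG : 0 ≤ G) (hN : n * A + c * y + G ≤ N) :
    ((![(n : ℝ), (c : ℝ)], 0, G) : Mon 2) ∈ Hull (Col rc e₀ ![A, y]) := by
  rw [← lum2] at h
  have h1 := subset_hull (colM (w := ![A, y]) (n := ![n, c]) (M := 0) (G := G) le_rfl hG h
    (by rw [lum2_sum]; linarith))
  unfold pt at h1
  convert h1 using 2
  funext i
  fin_cases i <;> simp

theorem ptZ_col {A N l : ℝ} {n : ℕ} (h : MCol rc e₀ (Multiset.replicate n A) N)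
    (hl : l ≤ n) (hN : n * A ≤ N) (hline : 2 / 3 + n * A / 4 ≤ N) (ht : 0 ≤ t) :
    PtZ rc e₀ t l A :=
  ⟨n, N - n * A, hl, by linarith, mem1 h le_rfl (by linarith) (by linarith)⟩

theorem ptLM_col {A N l m : ℝ} {n : ℕ} (h : MCol rc e₀ (Multiset.replicate n A) N)
    (hl : l ≤ n) (hm : 0 ≤ m) (hL : 2 / 3 ≤ n * A + m) (hN : n * A + m ≤ N)
    (hline : 2 / 3 + (n * A + m) / 4 ≤ N) (ht : 0 ≤ t) : PtLM rc e₀ t l A :=
  ⟨n, m, N - (n * A + m), hl, hm, hL, by linarith, mem1 h hm (by linarith) (by linarith)⟩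

theorem ptL_col {A y N l : ℝ} {n c : ℕ}
    (h : MCol rc e₀ (Multiset.replicate n A + Multiset.replicate c y) N)
    (hl : l ≤ n) (hL : 2 / 3 ≤ n * A + c * y) (hN : n * A + c * y ≤ N)
    (hline : 2 / 3 + (n * A + c * y) / 4 ≤ N) (ht : 0 ≤ t) : PtL rc e₀ t l A y :=
  ⟨n, c, N - (n * A + c * y), hl, c.cast_nonneg, hL, by linarith,
    mem2 h (by linarith) (by linarith)⟩

/-! ### from `Col0` -/

/-- the column without small lumps -/
theorem m0 (I : Inp Col0 Col2 (13 / 100) rc e₀ t) {A N v : ℝ} {n T : ℕ} (hA : 13 / 100 ≤ A)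
    (hv : 0 ≤ v) (h : Col0 v (Multiset.replicate n A) T N) :
    MCol rc e₀ (Multiset.replicate n A) N := by
  have h1 := I.col0 _ _ _ _ h hv (fun y hy => by rw [Multiset.eq_of_mem_replicate hy]; exact hA)
    1 0 0 one_pos (by simpa using hv) (Nat.zero_le _)
  rw [Multiset.replicate_zero, add_zero] at h1
  exact h1

/-- the column with all the small lumps -/
theorem m0y (I : Inp Col0 Col2 (13 / 100) rc e₀ t) {A N v y : ℝ} {n T j : ℕ}
    (hA : 13 / 100 ≤ A) (hy : 0 < y) (hj : (j : ℝ) * y = v)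
    (h : Col0 v (Multiset.replicate n A) T N) :
    MCol rc e₀ (Multiset.replicate n A + Multiset.replicate (T * j) y) N :=
  I.col0 _ _ _ _ h (by rw [← hj]; positivity)
    (fun y hy => by rw [Multiset.eq_of_mem_replicate hy]; exact hA) y j _ hy hj.le le_rfl

theorem m2y (I : Inp Col0 Col2 (13 / 100) rc e₀ t) {A N y : ℝ} {n T : ℕ}
    (hA : 13 / 100 ≤ A) (hy : 0 < y) (h : Col2 y (Multiset.replicate n A) T N) :
    MCol rc e₀ (Multiset.replicate n A + Multiset.replicate T y) N :=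
  I.col2 _ _ _ _ h hy (fun y hy => by rw [Multiset.eq_of_mem_replicate hy]; exact hA)

theorem r1 (A : ℝ) : Multiset.replicate 1 A = {A} + 0 + 0 := by simp

theorem r2 (A : ℝ) : Multiset.replicate 2 A = {A, A} + 0 + 0 := by
  rw [show (2 : ℕ) = 1 + 1 from rfl, Multiset.replicate_add, Multiset.replicate_one]
  rfl

theorem r3 (A : ℝ) : Multiset.replicate 3 A = {A, A} + {A} + 0 := by
  rw [show (3 : ℕ) = 2 + 1 from rfl, Multiset.replicate_add, r2, Multiset.replicate_one]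
  simp

theorem r4 (A : ℝ) : Multiset.replicate 4 A = {A, A} + {A} + {A} := by
  rw [show (4 : ℕ) = 3 + 1 from rfl, Multiset.replicate_add, r3, Multiset.replicate_one]
  simp

theorem r5 (A : ℝ) : Multiset.replicate 5 A = {A} + Multiset.replicate 4 A := by
  rw [show (5 : ℕ) = 1 + 4 from rfl, Multiset.replicate_add, Multiset.replicate_one]

/-- one lump -/
theorem c1 {A N : ℝ} (hA : 1 / 4 ≤ A) (hN : N ≤ 2 / 3 + A / 4 ∨ N ≤ 5 / 6)
    (hN1 : N ≤ 8 / 9) (h5 : A ≤ N) (_hA1 : A ≤ 1) : Col0 0 (Multiset.replicate 1 A) 0 N := by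
  rw [r1]
  have h : N ≤ 7 / 9 + 2 / 9 * A := by
    rcases hN with h | h <;> linarith
  refine Col0.t6s A 0 0 0 0 N ?_ ?_ ?_ h ?_ ?_
  · rcases hN with h | h <;> linarith
  · simp; linarith
  · simp; linarith
  · simp; linarith
  · simp; linarith

/-- two lumps -/
theorem c2 {A N : ℝ} (hA : 1 / 5 ≤ A) (hA2 : A ≤ 1 / 2) (hN : N ≤ 7 / 9 + 4 / 9 * A)
    (_hN1 : N ≤ 1) (h5 : 2 * A ≤ N) : Col0 0 (Multiset.replicate 2 A) 0 N := by
  rw [r2]
  refine Col0.t6 A A 0 0 0 0 N (by linarith) ?_ ?_ (by linarith) ?_ ?_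
  · simp; linarith
  · simp; linarith
  · simp; linarith
  · simp; linarith

/-- three lumps -/
theorem c3 {A : ℝ} (hA : 13 / 100 ≤ A) (hA2 : A ≤ 2 / 9) :
    Col0 0 (Multiset.replicate 3 A) 0 (5 / 6) := by
  rw [r3]
  refine Col0.t6 A A {A} 0 0 0 (5 / 6) (by linarith) ?_ ?_ (by linarith) ?_ ?_
  · simp; norm_num
  · simp; linarith
  · simp; linarith
  · simp; linarith

/-- four lumps -/
theorem c4 {A : ℝ} (hA : 13 / 100 ≤ A) (hA2 : A ≤ 1 / 6) :
    Col0 0 (Multiset.replicate 4 A) 0 (5 / 6) := by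
  rw [r4]
  refine Col0.t6 A A {A} {A} 0 0 (5 / 6) (by linarith) ?_ ?_ (by linarith) ?_ ?_
  · simp; linarith
  · simp; linarith
  · simp; linarith
  · simp; linarith

/-- five lumps -/
theorem c5 {A : ℝ} (_hA : 13 / 100 ≤ A) (hA2 : A ≤ 4 / 27) :
    Col0 0 (Multiset.replicate 5 A) 0 (5 / 6) := by
  rw [r5]
  refine Col0.c5 A A (Multiset.replicate 4 A) (5 / 6) ?_ ?_ ?_ ?_ le_rfl ?_
  · unfold z₀; linarith
  · intro y hy; exact (Multiset.eq_of_mem_replicate hy).le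
  · simp
  · simp; linarith
  · simp; linarith

/-! ### points without small mass -/

/-- copies in the points of the single lumps -/
def lwL (u : ℝ) : ℝ :=
  if u ≤ 4 / 27 then 9 / 2 else if u ≤ 1 / 6 then 7 / 2 else if u ≤ 2 / 9 then 3 else
    if u ≤ 1 / 2 then 2 else 1

theorem lwL_pos (u : ℝ) : 0 < lwL u := by
  unfold lwL
  split_ifs <;> norm_num

theorem one_le_lwL (u : ℝ) : 1 ≤ lwL u := by
  unfold lwL
  split_ifs <;> norm_num

/-- **all the lumps have a point without small mass** -/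
theorem ptZ_all (I : Inp Col0 Col2 (13 / 100) rc e₀ t) (ht : 0 ≤ t) {A : ℝ}
    (hA : 13 / 100 ≤ A) (hA2 : A ≤ 5 / 6) : PtZ rc e₀ t (lwL A) A := by
  unfold lwL
  split_ifs with g1 g2 g3 g4
  · -- the mixture of four and five lumps
    have h4 := mem1 (m := 0) (G := 5 / 6 - 4 * A) (m0 I hA le_rfl (c4 hA (by linarith)))
      le_rfl (by linarith) (by push_cast; linarith)
    have h5 := mem1 (m := 0) (G := 5 / 6 - 5 * A) (m0 I hA le_rfl (c5 hA g1))
      le_rfl (by linarith) (by push_cast; linarith)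
    have h := (convex_hull _) h4 h5 (show (0 : ℝ) ≤ 1 / 2 by norm_num)
      (show (0 : ℝ) ≤ 1 / 2 by norm_num) (by norm_num)
    refine ⟨9 / 2, 5 / 6 - 9 / 2 * A, le_rfl, by linarith, ?_⟩
    convert h using 1
    refine Prod.ext ?_ (Prod.ext ?_ ?_)
    · funext i
      simp only [Prod.fst_add, Pi.add_apply, Prod.smul_fst, Pi.smul_apply, smul_eq_mul]
      push_cast
      norm_num
    · simp
    · simp only [Prod.snd_add, Prod.smul_snd, smul_eq_mul]
      ring
  · push Not at g1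
    exact ptZ_col (m0 I hA le_rfl (c4 hA g2)) (by norm_num) (by push_cast; linarith)
      (by push_cast; linarith) ht
  · push Not at g2
    exact ptZ_col (m0 I hA le_rfl (c3 hA g3)) (by norm_num) (by push_cast; linarith)
      (by push_cast; linarith) ht
  · push Not at g3
    rcases le_total (2 * A) (2 / 3 + A / 2) with h | h
    · exact ptZ_col (m0 I hA le_rfl (c2 (N := 2 / 3 + A / 2) (by linarith) g4 (by linarith)
        (by linarith) h)) (by norm_num) (by push_cast; linarith) (by push_cast; linarith) ht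
    · exact ptZ_col (m0 I hA le_rfl (c2 (N := 2 * A) (by linarith) g4 (by linarith)
        (by linarith) le_rfl)) (by norm_num) (by push_cast; linarith) (by push_cast; linarith) ht
  · push Not at g4
    exact ptZ_col (m0 I hA le_rfl (c1 (N := 2 / 3 + A / 4) (by linarith) (Or.inl le_rfl)
      (by linarith) (by linarith) (by linarith))) (by norm_num) (by push_cast; linarith)
      (by push_cast; linarith) ht

/-- lumps in `[1/6, 4/21]` : the mixture of three and four lumps -/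
theorem ptZ_mid (I : Inp Col0 Col2 (13 / 100) rc e₀ t) (ht : 0 ≤ t) {A : ℝ}
    (hA : 1 / 6 ≤ A) (hA2 : A ≤ 4 / 21) : PtZ rc e₀ t (7 / 2) A := by
  obtain ⟨N, hN1, hN2, hN3, hN4⟩ : ∃ N : ℝ, N ≤ 7 / 9 + 4 / 9 * A ∧ N ≤ 1 - 3 / 4 * A ∧
      2 / 3 + 7 / 8 * A ≤ (N + (1 - A)) / 2 ∧ 3 * A ≤ N := by
    rcases le_total (7 / 9 + 4 / 9 * A) (1 - 3 / 4 * A) with h | h
    · exact ⟨7 / 9 + 4 / 9 * A, le_rfl, h, by linarith, by linarith⟩
    · exact ⟨1 - 3 / 4 * A, h, le_rfl, by linarith, by linarith⟩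
  have k3 : Col0 0 (Multiset.replicate 3 A) 0 N := by
    rw [r3]
    refine Col0.t6 A A {A} 0 0 0 N (by linarith) ?_ ?_ (by linarith) ?_ ?_
    · simp; linarith
    · simp; linarith
    · simp; linarith
    · simp; linarith
  have k4 : Col0 0 (Multiset.replicate 4 A) 0 (1 - A) := by
    rw [r4]
    refine Col0.t6 A A {A} {A} 0 0 (1 - A) (by linarith) ?_ ?_ (by linarith) ?_ ?_
    · simp
    · simp; linarith
    · simp; linarith
    · simp; linarith
  have h3 := mem1 (m := 0) (G := N - 3 * A) (m0 I (by linarith) le_rfl k3)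
    le_rfl (by linarith) (by push_cast; linarith)
  have h4 := mem1 (m := 0) (G := 1 - A - 4 * A) (m0 I (by linarith) le_rfl k4)
    le_rfl (by linarith) (by push_cast; linarith)
  have h := (convex_hull _) h3 h4 (show (0 : ℝ) ≤ 1 / 2 by norm_num)
    (show (0 : ℝ) ≤ 1 / 2 by norm_num) (by norm_num)
  refine ⟨7 / 2, (N + (1 - A)) / 2 - 7 / 2 * A, le_rfl, by linarith, ?_⟩
  convert h using 1
  refine Prod.ext ?_ (Prod.ext ?_ ?_)
  · funext i
    simp only [Prod.fst_add, Pi.add_apply, Prod.smul_fst, Pi.smul_apply, smul_eq_mul]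
    push_cast
    norm_num
  · simp
  · simp only [Prod.snd_add, Prod.smul_snd, smul_eq_mul]
    ring

/-! ### Möbius points -/

theorem ptLM_corner (I : Inp Col0 Col2 (13 / 100) rc e₀ t) (ht : 0 ≤ t) {A : ℝ}
    (hA : 13 / 100 ≤ A) (hA2 : A ≤ 1 / 6) : PtLM rc e₀ t 4 A :=
  ptLM_col (m := 2 / 3 - 4 * A) (m0 I hA le_rfl (c4 hA hA2)) (by norm_num) (by linarith)
    (by push_cast; linarith) (by push_cast; linarith) (by push_cast; linarith) ht

theorem ptLM_three (I : Inp Col0 Col2 (13 / 100) rc e₀ t) (ht : 0 ≤ t) {A : ℝ}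
    (hA : 13 / 100 ≤ A) (hA2 : A ≤ 2 / 9) : PtLM rc e₀ t 3 A :=
  ptLM_col (m := 2 / 3 - 3 * A) (m0 I hA le_rfl (c3 hA hA2)) (by norm_num) (by linarith)
    (by push_cast; linarith) (by push_cast; linarith) (by push_cast; linarith) ht

theorem ptLM_two (I : Inp Col0 Col2 (13 / 100) rc e₀ t) (ht : 0 ≤ t) {A : ℝ}
    (hA : 1 / 5 ≤ A) (hA2 : A ≤ 1 / 3) : PtLM rc e₀ t 2 A :=
  ptLM_col (m := 2 / 3 - 2 * A) (m0 I (by linarith) le_rfl (c2 (N := 5 / 6) hA (by linarith)
    (by linarith) (by norm_num) (by linarith))) (by norm_num) (by linarith)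
    (by push_cast; linarith) (by push_cast; linarith) (by push_cast; linarith) ht

/-! ### lumps in `[1/3, 1/2]` -/

theorem half_col (I : Inp Col0 Col2 (13 / 100) rc e₀ t) {A : ℝ} (hA : 1 / 3 ≤ A)
    (hA2 : A ≤ 1 / 2) : ∃ N, MCol rc e₀ (Multiset.replicate 2 A) N ∧ 2 * A ≤ N ∧
      2 / 3 + 2 * A / 4 ≤ N := by
  rcases le_total (2 * A) (2 / 3 + A / 2) with h | h
  · exact ⟨2 / 3 + A / 2, m0 I (by linarith) le_rfl (c2 (by linarith) hA2 (by linarith)
      (by linarith) h), h, by linarith⟩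
  · exact ⟨2 * A, m0 I (by linarith) le_rfl (c2 (by linarith) hA2 (by linarith)
      (by linarith) le_rfl), le_rfl, by linarith⟩

theorem ptLM_half (I : Inp Col0 Col2 (13 / 100) rc e₀ t) (ht : 0 ≤ t) {A : ℝ}
    (hA : 1 / 3 ≤ A) (hA2 : A ≤ 1 / 2) : PtLM rc e₀ t 2 A := by
  obtain ⟨N, h, h1, h2⟩ := half_col I hA hA2
  exact ptLM_col (m := 0) h (by norm_num) le_rfl (by push_cast; linarith)
    (by push_cast; linarith) (by push_cast; linarith) ht

theorem ptL_half (I : Inp Col0 Col2 (13 / 100) rc e₀ t) (ht : 0 ≤ t) {A y : ℝ}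
    (hA : 1 / 3 ≤ A) (hA2 : A ≤ 1 / 2) : PtL rc e₀ t 2 A y := by
  obtain ⟨N, h, h1, h2⟩ := half_col I hA hA2
  have h' : MCol rc e₀ (Multiset.replicate 2 A + Multiset.replicate 0 y) N := by
    rw [Multiset.replicate_zero, add_zero]
    exact h
  exact ptL_col h' (by norm_num) (by push_cast; linarith) (by push_cast; linarith)
    (by push_cast; linarith) ht

/-! ### lumps in `[1/2, 5/6]` -/

theorem ptLM_long (I : Inp Col0 Col2 (13 / 100) rc e₀ t) (ht : 0 ≤ t) {A : ℝ}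
    (hA : 1 / 2 ≤ A) (hA2 : A ≤ 5 / 6) : PtLM rc e₀ t 1 A := by
  rcases le_total A (2 / 3) with h | h
  · exact ptLM_col (m := 2 / 3 - A) (m0 I (by linarith) le_rfl (c1 (N := 5 / 6) (by linarith)
      (Or.inr le_rfl) (by norm_num) hA2 (by linarith))) (by norm_num) (by linarith)
      (by push_cast; linarith) (by push_cast; linarith) (by push_cast; linarith) ht
  · exact ptLM_col (m := 0) (m0 I (by linarith) le_rfl (c1 (N := 2 / 3 + A / 4) (by linarith)
      (Or.inl le_rfl) (by linarith) (by linarith) (by linarith))) (by norm_num) le_rfl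
      (by push_cast; linarith) (by push_cast; linarith) (by push_cast; linarith) ht

/-- the number of chunks -/
theorem chunks {D v : ℝ} (hD : 0 < D) (hv : 0 < v) :
    ∃ T : ℕ, (T : ℝ) * v < D ∧ D ≤ ((T : ℝ) + 1) * v := by
  refine ⟨⌈D / v⌉₊ - 1, ?_, ?_⟩
  · have h1 : 0 < ⌈D / v⌉₊ := Nat.ceil_pos.2 (by positivity)
    have h2 : ⌈D / v⌉₊ - 1 < ⌈D / v⌉₊ := by omega
    have h3 := Nat.lt_ceil.1 h2
    rwa [lt_div_iff₀ hv] at h3
  · have h1 : 0 < ⌈D / v⌉₊ := Nat.ceil_pos.2 (by positivity)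
    have h2 : ((⌈D / v⌉₊ - 1 : ℕ) : ℝ) + 1 = ⌈D / v⌉₊ := by
      have : ⌈D / v⌉₊ - 1 + 1 = ⌈D / v⌉₊ := by omega
      exact_mod_cast this
    rw [h2]
    have h3 := Nat.le_ceil (D / v)
    rwa [div_le_iff₀ hv] at h3

theorem ptL_long (I : Inp Col0 Col2 (13 / 100) rc e₀ t) (ht : 0 ≤ t) {A y : ℝ}
    (hA : 1 / 2 ≤ A) (hA2 : A ≤ 5 / 6) (hy : 0 < y) (hy1 : y ≤ 13 / 100) :
    PtL rc e₀ t 1 A y := by
  rcases le_or_gt (2 / 3) A with h | h
  · have h' : MCol rc e₀ (Multiset.replicate 1 A + Multiset.replicate 0 y) (2 / 3 + A / 4) := by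
      rw [Multiset.replicate_zero, add_zero]
      exact m0 I (by linarith) le_rfl (c1 (N := 2 / 3 + A / 4) (by linarith)
        (Or.inl le_rfl) (by linarith) (by linarith) (by linarith))
    exact ptL_col h' (by norm_num) (by push_cast; linarith) (by push_cast; linarith)
      (by push_cast; linarith) ht
  · obtain ⟨j, hj1, hj2⟩ : ∃ j : ℕ, 0 < (j : ℝ) * y ∧ (j : ℝ) * y ≤ 13 / 100 := by
      exact ⟨1, by simpa using hy, by simpa using hy1⟩
    obtain ⟨v, hv⟩ : ∃ v, v = (j : ℝ) * y := ⟨_, rfl⟩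
    rw [← hv] at hj1 hj2
    obtain ⟨T, h1, h2⟩ := chunks (show 0 < 2 / 3 - A by linarith) hj1
    have hc : Col0 v (Multiset.replicate 1 A) (T + 1) (2 / 3 + (A + ((T : ℝ) + 1) * v) / 4) := by
      rw [r1]
      refine Col0.t6s A 0 0 T 1 _ ?_ ?_ ?_ ?_ ?_ ?_
      · nlinarith
      · simp; nlinarith
      · simp; nlinarith
      · nlinarith
      · simp; nlinarith
      · simp; nlinarith
    have hm := m0y I (by linarith) hy hv.symm hc
    refine ptL_col hm (by norm_num) ?_ ?_ ?_ ht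
    · push_cast
      rw [mul_assoc, ← hv]
      linarith
    · push_cast
      rw [mul_assoc, ← hv]
      nlinarith
    · push_cast
      rw [mul_assoc, ← hv]
      linarith

/-! ### the certificates of one lump -/

/-- **the point from a certificate of one lump** : columns `{A^(n q), y^(c q) | N q}` -/
theorem ptL_of_cols {A y : ℝ} (hA : 0 ≤ A) (hy : 0 < y) {M : ℕ} (p : Fin M → ℝ)
    (n c : Fin M → ℕ) (N : Fin M → ℝ) (hp : ∀ q, 0 ≤ p q) (hn : ∑ q, p q * (n q : ℝ) = 1 / 2)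
    (hc : ∀ q, MCol rc e₀ (Multiset.replicate (n q) A + Multiset.replicate (c q) y) (N q))
    (hlen : ∀ q, (n q : ℝ) * A + (c q : ℝ) * y ≤ N q) {l : ℝ} (hl : 0 < l)
    (hP : 2 * l * ∑ q, p q ≤ 1)
    (hR0 : 0 ≤ 3 / 4 * A - ∑ q, p q + 3 / 2 * ∑ q, p q * ((c q : ℝ) * y))
    (hN : (3 / 4 * A - ∑ q, p q + 3 / 2 * ∑ q, p q * ((c q : ℝ) * y)) / 6 ≤
      ∑ q, p q * (N q - 5 / 6)) (ht : 0 ≤ t) : PtL rc e₀ t l A y := by
  have hP0 : 0 ≤ ∑ q, p q := Finset.sum_nonneg fun q _ => hp q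
  have hPpos : 0 < ∑ q, p q := by
    rcases hP0.eq_or_lt with h | h
    · have h1 : ∀ q, p q = 0 := by
        intro q
        exact (Finset.sum_eq_zero_iff_of_nonneg fun q _ => hp q).1 h.symm q (Finset.mem_univ _)
      simp [h1] at hn
    · exact h
  obtain ⟨P, hPd⟩ : ∃ P, P = ∑ q, p q := ⟨_, rfl⟩
  rw [← hPd] at hPpos hP hR0 hN
  have hmem := (convex_hull (Col rc e₀ ![A, y])).sum_mem (t := Finset.univ)
    (w := fun q => p q / P)
    (z := fun q => ((![(n q : ℝ), (c q : ℝ)], 0, N q - ((n q : ℝ) * A + (c q : ℝ) * y)) : Mon 2))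
    (fun q _ => div_nonneg (hp q) hPpos.le) (by rw [← Finset.sum_div, ← hPd, div_self hPpos.ne'])
    (fun q _ => mem2 (hc q) (by linarith [hlen q]) (by linarith))
  obtain ⟨Tc, hTc⟩ : ∃ Tc, Tc = ∑ q, p q * (c q : ℝ) := ⟨_, rfl⟩
  have hTy : ∑ q, p q * ((c q : ℝ) * y) = Tc * y := by
    rw [hTc, Finset.sum_mul]
    exact Finset.sum_congr rfl fun q _ => by ring
  obtain ⟨SN, hSN⟩ : ∃ SN, SN = ∑ q, p q * N q := ⟨_, rfl⟩
  have hN' : ∑ q, p q * (N q - 5 / 6) = SN - 5 / 6 * P := by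
    rw [sumN, ← hSN, ← hPd]
  rw [hTy] at hR0 hN
  rw [hN'] at hN
  have hTc0 : 0 ≤ Tc := by
    rw [hTc]
    exact Finset.sum_nonneg fun q _ => mul_nonneg (hp q) (Nat.cast_nonneg _)
  have heq : ∑ q, (p q / P) • ((![(n q : ℝ), (c q : ℝ)], 0,
      N q - ((n q : ℝ) * A + (c q : ℝ) * y)) : Mon 2) =
      ((![1 / 2 / P, Tc / P], 0, (SN - (A / 2 + Tc * y)) / P) : Mon 2) := by
    refine Prod.ext ?_ (Prod.ext ?_ ?_)
    · funext i
      simp only [Prod.smul_fst, Pi.smul_apply, Prod.fst_sum, Finset.sum_apply, smul_eq_mul]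
      fin_cases i
      · show ∑ q, p q / P * (n q : ℝ) = 1 / 2 / P
        rw [← hn, Finset.sum_div]
        exact Finset.sum_congr rfl fun q _ => by ring
      · show ∑ q, p q / P * (c q : ℝ) = Tc / P
        rw [hTc, Finset.sum_div]
        exact Finset.sum_congr rfl fun q _ => by ring
    · simp only [Prod.smul_snd, Prod.smul_fst, Prod.fst_sum, Prod.snd_sum, smul_eq_mul]
      simp
    · simp only [Prod.smul_snd, Prod.snd_sum, smul_eq_mul]
      show ∑ q, p q / P * (N q - ((n q : ℝ) * A + (c q : ℝ) * y)) = _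
      have e1 : A / 2 = ∑ q, p q * ((n q : ℝ) * A) := by
        have : ∑ q, p q * ((n q : ℝ) * A) = (∑ q, p q * (n q : ℝ)) * A := by
          rw [Finset.sum_mul]
          exact Finset.sum_congr rfl fun q _ => by ring
        rw [this, hn]; ring
      rw [e1, hSN, ← hTy, ← Finset.sum_add_distrib, ← Finset.sum_sub_distrib, Finset.sum_div]
      exact Finset.sum_congr rfl fun q _ => by ring
  rw [heq] at hmem
  refine ⟨1 / 2 / P, Tc / P, (SN - (A / 2 + Tc * y)) / P, ?_, by positivity, ?_, ?_, hmem⟩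
  · rw [le_div_iff₀ hPpos]
    linarith
  · have : 1 / 2 / P * A + Tc / P * y = (A / 2 + Tc * y) / P := by ring
    rw [this, le_div_iff₀ hPpos]
    linarith
  · have : 1 / 2 / P * A + Tc / P * y = (A / 2 + Tc * y) / P := by ring
    rw [this]
    have h1 : 2 / 3 - 3 / 4 * ((A / 2 + Tc * y) / P) ≤ (SN - (A / 2 + Tc * y)) / P := by
      have e : 2 / 3 - 3 / 4 * ((A / 2 + Tc * y) / P) =
          (2 / 3 * P - 3 / 4 * (A / 2 + Tc * y)) / P := by
        field_simp
      rw [e]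
      exact div_le_div_of_nonneg_right (by linarith) hPpos.le
    linarith

/-- the quantity `R₁` of one lump -/
theorem R1_one {A v : ℝ} {M : ℕ} (p : Fin M → ℝ) (T : Fin M → ℕ) :
    R₁ (fun _ : Fin 1 => A) v p T =
      3 / 4 * A - ∑ q, p q + 3 / 2 * ∑ q, p q * ((T q : ℝ) * v) := by
  rw [sumR]
  simp
  ring

/-- **full certificates of one lump, chunks** (`Col0`) -/
theorem ptL_full0 (I : Inp Col0 Col2 (13 / 100) rc e₀ t) (ht : 0 ≤ t) {A y v : ℝ} {j cap : ℕ}
    (hA : 13 / 100 ≤ A) (hy : 0 < y) (hj : (j : ℝ) * y = v) (hcap : 0 < cap)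
    (H : ∃ (M : ℕ) (p : Fin M → ℝ) (n : Fin M → Fin 1 → ℕ) (T : Fin M → ℕ) (N : Fin M → ℝ),
      (∀ q, 0 ≤ p q) ∧ (∀ i, ∑ q, p q * (n q i : ℝ) = 1 / 2) ∧
      (∀ q, Col0 v (lum (fun _ : Fin 1 => A) (n q)) (T q) (N q)) ∧ (cap : ℝ) * ∑ q, p q ≤ 1 ∧
      0 ≤ R₁ (fun _ : Fin 1 => A) v p T ∧
      R₁ (fun _ : Fin 1 => A) v p T / 6 ≤ ∑ q, p q * (N q - 5 / 6)) :
    PtL rc e₀ t ((cap : ℝ) / 2) A y := by
  obtain ⟨M, p, n, T, N, hp, hn, hC, hcP, hR0, hN⟩ := H
  have hcap' : (0 : ℝ) < cap := by exact_mod_cast hcap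
  have e : ∀ q, ((T q * j : ℕ) : ℝ) * y = (T q : ℝ) * v := fun q => by
    push_cast
    rw [mul_assoc, hj]
  refine ptL_of_cols (by linarith) hy p (fun q => n q 0) (fun q => T q * j) N hp (hn 0)
    (fun q => ?_) (fun q => ?_) (by positivity) (by linarith) ?_ ?_ ht
  · have h := hC q
    rw [lum1'] at h
    exact m0y I hA hy hj h
  · have h := I.len0 _ _ _ _ (hC q)
    rw [lum1', Multiset.sum_replicate, nsmul_eq_mul] at h
    rw [e]
    exact h
  · simp only [e]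
    rwa [R1_one] at hR0
  · simp only [e]
    rwa [R1_one] at hN

/-- **full certificates of one lump, real small lumps** (`Col2`) -/
theorem ptL_full2 (I : Inp Col0 Col2 (13 / 100) rc e₀ t) (ht : 0 ≤ t) {A y : ℝ} {cap : ℕ}
    (hA : 13 / 100 ≤ A) (hy : 0 < y) (hcap : 0 < cap)
    (H : ∃ (M : ℕ) (p : Fin M → ℝ) (n : Fin M → Fin 1 → ℕ) (T : Fin M → ℕ) (N : Fin M → ℝ),
      (∀ q, 0 ≤ p q) ∧ (∀ i, ∑ q, p q * (n q i : ℝ) = 1 / 2) ∧
      (∀ q, Col2 y (lum (fun _ : Fin 1 => A) (n q)) (T q) (N q)) ∧ (cap : ℝ) * ∑ q, p q ≤ 1 ∧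
      0 ≤ R₁ (fun _ : Fin 1 => A) y p T ∧
      R₁ (fun _ : Fin 1 => A) y p T / 6 ≤ ∑ q, p q * (N q - 5 / 6)) :
    PtL rc e₀ t ((cap : ℝ) / 2) A y := by
  obtain ⟨M, p, n, T, N, hp, hn, hC, hcP, hR0, hN⟩ := H
  have hcap' : (0 : ℝ) < cap := by exact_mod_cast hcap
  refine ptL_of_cols (by linarith) hy p (fun q => n q 0) T N hp (hn 0)
    (fun q => ?_) (fun q => ?_) (by positivity) (by linarith) ?_ ?_ ht
  · have h := hC q
    rw [lum1'] at h
    exact m2y I hA hy h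
  · have h := I.len2 _ _ _ _ (hC q)
    rw [lum1', Multiset.sum_replicate, nsmul_eq_mul] at h
    exact h
  · rwa [R1_one] at hR0
  · rwa [R1_one] at hN

end Crest.Agent.R017.CovPt177
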