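import Crest.Agent.R017.CovMap2_702
import Crest.Agent.R017.CovPt_177

/-!
# Row 17, T.2 : the map with the trimmed averages, any weights (helper177, after 702's `CovMap2_702`)

* `SglL l` : every lump `13/100 ≤ A ≤ 5/6` has its three points (`PtZ`, `PtLM`, `PtL`) with `l A`
  copies; the mass may be larger than `2/3`, so `l A = 2` up to `1/2` and `1` up to `5/6`
* `coreL_of_line`, `covAll_of_line`, `certA_of_line` : 702's trees `TreeD l k`
* `lw3` : `9/2` up to `4/27`, `7/2` up to `4/21`, `2/(3u)` up to `1/5`, `3` up to `2/9`, `2` up to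
  `1/2`, then `1`; `sglL_lw3`, `certA3`
-/

set_option autoImplicit false

noncomputable section

namespace Crest.Agent.R017.CovMap702

open Crest.Agent.R017.ER911 Crest.Agent.R017.Hull741 Crest.Agent.R017.CovM59
  Crest.Agent.R017.CovSmall741 Crest.Agent.R017.CovGlue741 Crest.Agent.R017.ExpC702
  Crest.Agent.R017.Prov71 Crest.Agent.R017.Cone59 Crest.Agent.R017.CovBig954
  Crest.Agent.R017.HC777 Crest.Agent.R017.Cov499 Crest.Agent.R017.CovNear177
  Crest.Agent.R017.CovPt177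

/-- **the points on the line** for the weights `l` -/
def SglL (l : ℝ → ℝ) : Prop := AllB fun _ e₀ t rc => ∀ A : ℝ, 13 / 100 ≤ A → A ≤ 5 / 6 →
  CovLine177.PtZ rc e₀ t (l A) A ∧ CovLine177.PtLM rc e₀ t (l A) A ∧
    ∀ y : ℝ, 0 < y → y ≤ 13 / 100 → CovLine177.PtL rc e₀ t (l A) A y

/-- **the coverage for `Σ u ≤ 4/3`** from the points on the line and the trees -/
theorem coreL_of_line {l : ℝ → ℝ} (hl : ∀ u, 0 < l u) (S : SglL l) (hE : EyP)
    (hT : ∀ k, k ≤ 8 → TreeD l k) {d e₀ t : ℝ} (P : Par d e₀ t) {r s s₀ rc bc : EF}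
    (B : ProvE (7 / 8 + d) r s s₀ rc bc) : CoreL e₀ t rc := by
  have ht3 : t ≤ 1 / 3 := by linarith [P.t3]
  have ht := P.t0.le
  have hde := P.de
  have hd0 := P.d0
  intro N u hu hNE hs
  by_cases hlong : ∃ j₁, 5 / 6 ≤ u j₁
  · obtain ⟨j₁, hj⟩ := hlong
    exact CovTop741.covM_long B.rules B.cpl hd0.le (by linarith) ht ht3 (fun j => (hu j).le) hs hj
  push Not at hlong
  have I := inp P B hE
  by_cases hP : ∑ j ∈ Finset.univ.filter (fun j => 13 / 100 < u j), 1 / (2 * l (u j)) ≤ 1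
  · exact CovLine177.cov_line ht ht3
      (fun k w hw => I.void hw (2 / 3) (by norm_num) le_rfl) (fun k w hw => I.K0 hw) I.Ey hu hs
      (fun j => l (u j)) (fun j => hl _) hP
      (fun j hj => (S d e₀ t P _ _ _ _ _ B _ hj.le (hlong j).le).1)
      (fun j hj => (S d e₀ t P _ _ _ _ _ B _ hj.le (hlong j).le).2.1)
      (fun j hj => (S d e₀ t P _ _ _ _ _ B _ hj.le (hlong j).le).2.2)
  -- the number of big lumps
  obtain ⟨k, ι, hι, hanti, hmem⟩ := exists_sorted u (Finset.univ.filter fun j => 13 / 100 < u j)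
  have hmem' : ∀ j, 13 / 100 < u j ↔ ∃ i, ι i = j := fun j => by
    rw [← hmem]; simp
  have hw : ∀ i, 13 / 100 < u (ι i) := fun i => (hmem' _).2 ⟨i, rfl⟩
  rcases le_or_gt 9 k with hk | hk
  · refine CovNine358.covM_nine B.cpl B.rules B.lv hd0.le (by linarith) ht ht3
      (fun j => (hu j).le) hs (ι ∘ Fin.castLE hk) (hι.comp (Fin.castLE_injective hk)) ?_
      fun i => (hw _).le
    intro a b hab
    exact hanti (by exact_mod_cast hab)
  have hcard : (Finset.univ.filter fun j => 13 / 100 < u j).card = k := by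
    classical
    have himg : (Finset.univ.filter fun j => 13 / 100 < u j) = Finset.univ.image ι := by
      ext j
      simp [hmem' j]
    rw [himg, Finset.card_image_of_injective _ hι, Finset.card_univ, Fintype.card_fin]
  exact hT k (by omega) d e₀ t P r s s₀ rc bc B N u hu hs hlong hNE hcard (not_le.1 hP)

/-- **`CovAll`** -/
theorem covAll_of_line {l : ℝ → ℝ} (hl : ∀ u, 0 < l u) (S : SglL l) (hE : EyP)
    (hT : ∀ k, k ≤ 8 → TreeD l k) {d : ℝ} (hd : 0 < d) (hd8 : d < 1 / 8) :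
    ∃ e₀ t μ : ℝ, 0 ≤ t ∧ t ≤ 1 / 3 ∧ 0 < μ ∧
      2 * e₀ + (2 * (7 / 8 + d) - 1) * t + μ ≤ b2 (7 / 8 + d) ∧
      BoxAll702.CovAll (7 / 8 + d) e₀ t := by
  obtain ⟨e₀, t, P⟩ := exists_par hd hd8
  have h1 : 0 < (1 / 4 - 2 * d) * t := mul_pos (by linarith) P.t0
  refine ⟨e₀, t, (1 / 4 - 2 * d) * t, P.t0.le, by linarith [P.t3], h1, ?_,
    fun r s s₀ rc bc B => coreL_of_line hl S hE hT P B⟩
  rw [P.e1]
  unfold b2
  nlinarith

/-- **the certificate of the absolute boxes** -/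
theorem certA_of_line {l : ℝ → ℝ} (hl : ∀ u, 0 < l u) (S : SglL l) (hE : EyP)
    (hT : ∀ k, k ≤ 8 → TreeD l k) {θ : ℝ} (hθ : 7 / 8 < θ) (hθ1 : θ < 1) :
    ∃ μ : ℝ, 0 < μ ∧ μ ≤ 1 / 12 ∧ ∀ r s s₀ rc bc : EF, ProvE θ r s s₀ rc bc →
      TopC702.BoxAll θ μ (BxE986.AL (9 / 10) 1 w5) bc := by
  obtain ⟨d, rfl⟩ : ∃ d, θ = 7 / 8 + d := ⟨θ - 7 / 8, by ring⟩
  obtain ⟨e₀, t, μ, ht, ht3, hμ, he, hc⟩ := covAll_of_line hl S hE hT (d := d) (by linarith)
    (by linarith)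
  obtain ⟨μ₁, hμ₁, hn⟩ : ∃ μ₁ : ℝ, 0 < μ₁ ∧ ∀ r s s₀ rc bc : EF,
      ProvE (7 / 8 + d) r s s₀ rc bc → BoxAll702.NearB (7 / 8 + d) μ₁ bc :=
    ⟨_, div_pos (lt_min hμ (by linarith)) (by norm_num), fun r s s₀ rc bc B =>
      Near59.nearB (by linarith) (by linarith) ht ht3 hμ.le he hc B⟩
  exact BoxAll702.certA_of_cov (by linarith) (by linarith) hμ hμ₁ ht ht3 he hc hn

/-! ### the weights `lw3` -/

/-- copies in the points on the line, third list -/
def lw3 (u : ℝ) : ℝ :=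
  if u ≤ 4 / 27 then 9 / 2 else if u ≤ 4 / 21 then 7 / 2 else if u ≤ 1 / 5 then 2 / (3 * u) else
    if u ≤ 2 / 9 then 3 else if u ≤ 1 / 2 then 2 else 1

theorem one_le_lw3 (u : ℝ) : 1 ≤ lw3 u := by
  unfold lw3
  split_ifs with h1 h2 h3 h4 h5
  · norm_num
  · norm_num
  · have : 0 < u := by linarith [not_le.1 h2]
    rw [le_div_iff₀ (by linarith)]
    linarith
  · norm_num
  · norm_num
  · norm_num

theorem lw2_le_lw3 (u : ℝ) : lw2 u ≤ lw3 u := by
  unfold lw2 lw3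
  by_cases h1 : u ≤ 4 / 27
  · rw [if_pos h1, if_pos h1]
  rw [if_neg h1, if_neg h1]
  by_cases h2 : u ≤ 4 / 21
  · rw [if_pos h2, if_pos h2]
  rw [if_neg h2, if_neg h2]
  by_cases h3 : u ≤ 1 / 5
  · rw [if_pos h3, if_pos h3]
  rw [if_neg h3, if_neg h3]
  by_cases h4 : u ≤ 2 / 9
  · rw [if_pos h4, if_pos h4]
  rw [if_neg h4, if_neg h4]
  by_cases h5 : u ≤ 1 / 3
  · rw [if_pos h5, if_pos (show u ≤ 1 / 2 by linarith)]
  rw [if_neg h5]
  have h5' := not_le.1 h5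
  by_cases h6 : u ≤ 1 / 2
  · rw [if_pos h6, if_pos h6, div_le_iff₀ (by linarith)]
    linarith
  · rw [if_neg h6, if_neg h6]

/-- a tree for `lw2` is one for `lw3` -/
theorem tree3_of_tree2 {k : ℕ} (h : TreeW lw2 k) : TreeW lw3 k :=
  TreeW.mono (l := lw2) h one_le_lw2 lw2_le_lw3

/-- few lumps: `Σ P ≤ 1` -/
theorem treeD3_two {k : ℕ} (hk : k ≤ 2) : TreeD lw3 k := by
  intro d e₀ t P r s s₀ rc bc B N u _ _ _ _ hcard hP
  exfalso
  have h2 : ∑ j ∈ Finset.univ.filter (fun j => 13 / 100 < u j), 1 / (2 * lw3 (u j)) ≤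
      ∑ _j ∈ Finset.univ.filter (fun j => 13 / 100 < u j), (1 / 2 : ℝ) := by
    refine Finset.sum_le_sum fun j _ => ?_
    have h1 := one_le_lw3 (u j)
    exact one_div_le_one_div_of_le (by norm_num) (by linarith)
  rw [Finset.sum_const, hcard, nsmul_eq_mul] at h2
  have : (k : ℝ) ≤ 2 := by exact_mod_cast hk
  linarith

/-- **the points on the line for `lw3`** from 702's points up to `1/3` -/
theorem sglL_lw3 (hE : EyP) (s1 : Single (13 / 100) (4 / 27) (9 / 2))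
    (s2 : Single (4 / 27) (1 / 6) (7 / 2)) (s3a : Single (1 / 6) (4 / 21) (7 / 2))
    (s3b : SingleP (4 / 21) (1 / 5)) (s3 : Single (1 / 6) (2 / 9) 3)
    (s4 : Single (2 / 9) (1 / 3) 2) : SglL lw3 := by
  intro d e₀ t P r s s₀ rc bc B A h0 h1
  have I := inp P B hE
  have ht := P.t0.le
  have hZ := ptZ_all I ht h0 h1
  have conv : ∀ l : ℝ, (PtM rc e₀ t l A ∧ ∀ y : ℝ, 0 < y → y ≤ 13 / 100 → PtS rc e₀ t l A y) →
      CovLine177.PtLM rc e₀ t l A ∧
        ∀ y : ℝ, 0 < y → y ≤ 13 / 100 → CovLine177.PtL rc e₀ t l A y :=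
    fun l h => ⟨CovLine177.PtM.ptLM h.1, fun y y0 y1 => CovLine177.PtS.ptL (h.2 y y0 y1) y0⟩
  unfold lw3
  unfold lwL at hZ
  split_ifs with c1 c2 c3 c4 c5
  · rw [if_pos c1] at hZ
    exact ⟨hZ, conv _ (s1 d e₀ t P _ _ _ _ _ B A h0 c1)⟩
  · rw [if_neg c1] at hZ
    rcases le_total A (1 / 6) with h | h
    · rw [if_pos h] at hZ
      exact ⟨hZ, conv _ (s2 d e₀ t P _ _ _ _ _ B A (not_le.1 c1).le h)⟩
    · exact ⟨ptZ_mid I ht h c2, conv _ (s3a d e₀ t P _ _ _ _ _ B A h c2)⟩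
  · have h := s3b d e₀ t P _ _ _ _ _ B A (not_le.1 c2).le c3
    obtain ⟨a, g1, g2, g3⟩ := h.1
    have hA0 : 0 < A := by linarith
    have e : 2 / (3 * A) * A = 2 / 3 := by field_simp
    have e2 : a * A = 2 / 3 := by
      have := mul_le_mul_of_nonneg_right g1 hA0.le
      rw [e] at this
      linarith
    rw [e2, sub_self] at g3
    exact ⟨⟨a, 1 / 6 - t / 2, g1, by rw [e2]; linarith, g3⟩, conv _ h⟩
  · have c2' := not_le.1 c2
    rw [if_neg c1, if_neg (show ¬ A ≤ 1 / 6 from not_le.2 (by linarith)), if_pos c4] at hZ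
    exact ⟨hZ, conv _ (s3 d e₀ t P _ _ _ _ _ B A (by linarith) c4)⟩
  · have c4' := not_le.1 c4
    rw [if_neg c1, if_neg (show ¬ A ≤ 1 / 6 from not_le.2 (by linarith)), if_neg c4,
      if_pos c5] at hZ
    refine ⟨hZ, ?_⟩
    rcases le_total A (1 / 3) with h | h
    · exact conv _ (s4 d e₀ t P _ _ _ _ _ B A c4'.le h)
    · exact ⟨ptLM_half I ht h c5, fun y _ _ => ptL_half I ht h c5⟩
  · have h := not_le.1 c5
    rw [if_neg c1, if_neg (show ¬ A ≤ 1 / 6 from not_le.2 (by linarith)), if_neg c4,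
      if_neg c5] at hZ
    exact ⟨hZ, ptLM_long I ht h.le h1, fun y y0 y1 => ptL_long I ht h.le h1 y0 y1⟩

/-- **the certificate of the absolute boxes from the trees for `lw3`** -/
theorem certA3 (hE : EyP) (s1 : Single (13 / 100) (4 / 27) (9 / 2))
    (s2 : Single (4 / 27) (1 / 6) (7 / 2)) (s3a : Single (1 / 6) (4 / 21) (7 / 2))
    (s3b : SingleP (4 / 21) (1 / 5)) (s3 : Single (1 / 6) (2 / 9) 3)
    (s4 : Single (2 / 9) (1 / 3) 2) (hT : ∀ k, 3 ≤ k → k ≤ 8 → TreeD lw3 k)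
    {θ : ℝ} (hθ : 7 / 8 < θ) (hθ1 : θ < 1) :
    ∃ μ : ℝ, 0 < μ ∧ μ ≤ 1 / 12 ∧ ∀ r s s₀ rc bc : EF, ProvE θ r s s₀ rc bc →
      TopC702.BoxAll θ μ (BxE986.AL (9 / 10) 1 w5) bc :=
  certA_of_line (fun u => lt_of_lt_of_le one_pos (one_le_lw3 u))
    (sglL_lw3 hE s1 s2 s3a s3b s3 s4) hE (fun k hk => by
      rcases le_or_gt k 2 with h | h
      · exact treeD3_two h
      · exact hT k h hk) hθ hθ1

end Crest.Agent.R017.CovMap702
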