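import Crest.Agent.R017.CovGlue_741
import Crest.Agent.R017.HCol_777

/-!
# Row 17, section D: boxes with nine or ten lumps `≥ 13/100` (helper358)

All the other lumps together have length `S ≤ 4/3 - 117/100 < 1/6`: they are used as one block
(`V` of 720's (C5), `Z` of (T6)). The box is partitioned in two sides of length `5/6`, weights
`1/2`.

* `covM_of_cols` : finitely many columns with exact multiplicities `1/2`
* `covM_of_part` : a partition in two sides of length `5/6`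
* `m5`, `m4V`, `m4T` : five lumps; four lumps and a block
* `covM_nine`, `covM_ten`
-/

set_option autoImplicit false

noncomputable section

namespace Crest.Agent.R017.CovNine358

open Crest.Agent.R017.ER911 Crest.Agent.R017.Hull741 Crest.Agent.R017.CovM59
  Crest.Agent.R017.CovGlue741 Crest.Agent.R017.Cov499 Crest.Agent.R017.HC777
  Crest.Agent.R017.ExpC702

variable {d : ℝ} {r s rc : EF}

/-- **finitely many columns** -/
theorem covM_of_cols {e₀ t : ℝ} (ht : 0 ≤ t) (ht3 : t ≤ 1 / 3) {N M : ℕ} {u : Fin N → ℝ}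
    (hs : ∑ j, u j ≤ 4 / 3) (p : Fin M → ℝ) (hp : ∀ q, 0 ≤ p q) (hp1 : ∑ q, p q = 1)
    (n : Fin M → Fin N → ℕ) (hn : ∀ j, ∑ q, p q * (n q j : ℝ) = 1 / 2) (L : Fin M → ℝ)
    (hc : ∀ q, MCol rc e₀ (lum u (n q)) (L q)) (hlen : ∀ q, (lum u (n q)).sum ≤ L q)
    (hL : 5 / 6 ≤ ∑ q, p q * L q) : CovM rc e₀ t u (fun _ => 1) := by
  have hG : ∀ q, 0 ≤ L q - (lum u (n q)).sum := fun q => sub_nonneg.2 (hlen q)
  have hD : ∑ q, p q * (L q - (lum u (n q)).sum) = ∑ q, p q * L q - (∑ j, u j) / 2 := by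
    rw [← sumY u p n hn, ← Finset.sum_sub_distrib]
    exact Finset.sum_congr rfl fun q _ => by ring
  set D := ∑ q, p q * (L q - (lum u (n q)).sum) with hDdef
  have hM0 : 0 ≤ (4 / 3 - ∑ j, u j) / 2 := by linarith
  have hA0 : 0 ≤ 1 / 6 - t / 2 := by linarith
  obtain ⟨x, y, hx, hy, hxy, hxD, hyD⟩ : ∃ x y : ℝ, 0 ≤ x ∧ 0 ≤ y ∧ x + y ≤ 1 ∧
      x * D = (4 / 3 - ∑ j, u j) / 2 ∧ y * D = 1 / 6 - t / 2 := by
    have h0 : (4 / 3 - ∑ j, u j) / 2 + (1 / 6 - t / 2) ≤ D := by linarith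
    rcases (show 0 ≤ D by linarith).eq_or_lt with h | h
    · exact ⟨0, 0, le_rfl, le_rfl, by norm_num, by rw [zero_mul]; linarith,
        by rw [zero_mul]; linarith⟩
    · refine ⟨(4 / 3 - ∑ j, u j) / 2 / D, (1 / 6 - t / 2) / D, div_nonneg hM0 h.le,
        div_nonneg hA0 h.le, ?_, div_mul_cancel₀ _ h.ne', div_mul_cancel₀ _ h.ne'⟩
      rw [← add_div, div_le_one h]
      exact h0
  refine ⟨M, p, n, fun q => x * (L q - (lum u (n q)).sum),
    fun q => y * (L q - (lum u (n q)).sum), hp, hp1, fun q => ?_, ?_⟩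
  · refine colM (mul_nonneg hx (hG q)) (mul_nonneg hy (hG q)) (hc q) ?_
    have : (x + y) * (L q - (lum u (n q)).sum) ≤ 1 * (L q - (lum u (n q)).sum) :=
      mul_le_mul_of_nonneg_right hxy (hG q)
    linarith
  · refine Prod.ext ?_ (Prod.ext ?_ ?_)
    · funext j
      exact (hn j).symm
    · simp only [one_mul]
      rw [← hxD, hDdef, Finset.mul_sum]
      exact Finset.sum_congr rfl fun q _ => by ring
    · show 1 / 6 - t / 2 = _
      rw [← hyD, hDdef, Finset.mul_sum]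
      exact Finset.sum_congr rfl fun q _ => by ring

/-- the lumps with an index in `Q` -/
theorem lum_ind {N : ℕ} (u : Fin N → ℝ) (Q : Finset (Fin N)) :
    lum u (fun j => if j ∈ Q then 1 else 0) = Q.val.map u := by
  unfold lum
  have h : ∀ j, Multiset.replicate (if j ∈ Q then 1 else 0) (u j) =
      if j ∈ Q then ({u j} : Multiset ℝ) else 0 := by
    intro j
    split_ifs <;> simp
  simp only [h]
  rw [← Finset.sum_filter]
  simp only [Finset.filter_mem_eq_inter, Finset.univ_inter]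
  rw [← Multiset.sum_map_singleton (Q.val.map u), Multiset.map_map]
  rfl

/-- the lumps outside the range of `ι` -/
def rest {k N : ℕ} (u : Fin N → ℝ) (ι : Fin k ↪ Fin N) : Multiset ℝ :=
  (Finset.univ \ Finset.univ.map ι).val.map u

theorem rest_nonneg {k N : ℕ} {u : Fin N → ℝ} (hu : ∀ j, 0 ≤ u j) (ι : Fin k ↪ Fin N) :
    ∀ y ∈ rest u ι, 0 ≤ y := by
  intro y hy
  obtain ⟨j, -, rfl⟩ := Multiset.mem_map.1 hy
  exact hu j

theorem sum_rest {k N : ℕ} (u : Fin N → ℝ) (ι : Fin k ↪ Fin N) :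
    (rest u ι).sum + ∑ i, u (ι i) = ∑ j, u j := by
  have h : (rest u ι).sum = ∑ j ∈ Finset.univ \ Finset.univ.map ι, u j := rfl
  rw [h, ← Finset.sum_sdiff (Finset.subset_univ (Finset.univ.map ι)), Finset.sum_map]

/-- **a partition of the box in two sides of length `5/6`** -/
theorem covM_of_part {e₀ t : ℝ} (ht : 0 ≤ t) (ht3 : t ≤ 1 / 3) {k N : ℕ} {u : Fin N → ℝ}
    (hs : ∑ j, u j ≤ 4 / 3) (ι : Fin k ↪ Fin N) (B : Finset (Fin k))
    (h1 : MCol rc e₀ (B.val.map fun i => u (ι i)) (5 / 6))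
    (l1 : (B.val.map fun i => u (ι i)).sum ≤ 5 / 6)
    (h2 : MCol rc e₀ ((Bᶜ.val.map fun i => u (ι i)) + rest u ι) (5 / 6))
    (l2 : ((Bᶜ.val.map fun i => u (ι i)) + rest u ι).sum ≤ 5 / 6) :
    CovM rc e₀ t u (fun _ => 1) := by
  classical
  have e1 : lum u (fun j => if j ∈ B.map ι then 1 else 0) = B.val.map fun i => u (ι i) := by
    rw [lum_ind, Finset.map_val, Multiset.map_map]
    rfl
  have e2 : lum u (fun j => if j ∈ (B.map ι)ᶜ then 1 else 0) =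
      (Bᶜ.val.map fun i => u (ι i)) + rest u ι := by
    rw [lum_ind]
    have hd : Disjoint (Bᶜ.map ι) (Finset.univ \ Finset.univ.map ι) :=
      Finset.disjoint_of_subset_left (Finset.map_subset_map.2 (Finset.subset_univ _))
        Finset.disjoint_sdiff
    have he : (B.map ι)ᶜ = (Bᶜ.map ι).disjUnion (Finset.univ \ Finset.univ.map ι) hd := by
      ext j
      simp only [Finset.mem_compl, Finset.disjUnion_eq_union, Finset.mem_union, Finset.mem_map,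
        Finset.mem_sdiff, Finset.mem_univ, true_and]
      constructor
      · intro h
        by_cases hj : ∃ i, ι i = j
        · obtain ⟨i, hi⟩ := hj
          exact Or.inl ⟨i, fun hi' => h ⟨i, hi', hi⟩, hi⟩
        · exact Or.inr hj
      · rintro (⟨i, hi, rfl⟩ | h)
        · rintro ⟨i', hi', h'⟩
          exact hi (ι.injective h' ▸ hi')
        · rintro ⟨i', -, h'⟩
          exact h ⟨i', h'⟩
    rw [he, Finset.disjUnion_val, Multiset.map_add, Finset.map_val, Multiset.map_map]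
    rfl
  refine covM_of_cols ht ht3 hs (M := 2) ![1 / 2, 1 / 2] ?_ ?_
    ![fun j => if j ∈ B.map ι then 1 else 0, fun j => if j ∈ (B.map ι)ᶜ then 1 else 0] ?_
    ![5 / 6, 5 / 6] ?_ ?_ ?_
  · intro q
    fin_cases q <;> norm_num
  · simp [Fin.sum_univ_two]
    norm_num
  · intro j
    simp only [Fin.sum_univ_two, Matrix.cons_val_zero, Matrix.cons_val_one, Finset.mem_compl]
    by_cases h : j ∈ B.map ι
    · simp [h]
    · simp [h]
  · intro q
    fin_cases q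
    · show MCol rc e₀ (lum u fun j => if j ∈ B.map ι then 1 else 0) (5 / 6)
      rw [e1]; exact h1
    · show MCol rc e₀ (lum u fun j => if j ∈ (B.map ι)ᶜ then 1 else 0) (5 / 6)
      rw [e2]; exact h2
  · intro q
    fin_cases q
    · show (lum u fun j => if j ∈ B.map ι then 1 else 0).sum ≤ 5 / 6
      rw [e1]; exact l1
    · show (lum u fun j => if j ∈ (B.map ι)ᶜ then 1 else 0).sum ≤ 5 / 6
      rw [e2]; exact l2
  · simp only [Fin.sum_univ_two, Matrix.cons_val_zero, Matrix.cons_val_one]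
    norm_num

/-! ### the columns -/

/-- `MCol` from the complete form -/
theorem mcol_of {e₀ N : ℝ} (C : ExpC r rc) {Y : Multiset ℝ} (hY : ∀ y ∈ Y, 0 ≤ y)
    (h : ∀ f g : ℝ, 0 ≤ f → 0 ≤ g → Y.sum + f + g ≤ N → Cpl r e₀ Y f g) : MCol rc e₀ Y N :=
  fun f g hf hg hN => C.le 1 Y f g _ zero_le_one ⟨hY, hf, hg⟩ (h f g hf hg hN)

/-- **(C5)** : four lumps `W`, `|W| ≤ 16/27`, and any lumps `V` of total `≤ 1/6` -/
theorem m5 (C : ExpC r rc) (R : ExpRules (7 / 8 + d) r s) (Lv : ExpLv (7 / 8 + d) r)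
    (hd : 0 ≤ d) {e₀ : ℝ} (he : d ≤ e₀) {W V : Multiset ℝ} (hc : Multiset.card W = 4)
    (hW : ∀ y ∈ W, 13 / 100 ≤ y) (hS : W.sum ≤ 16 / 27) (hV : ∀ y ∈ V, 0 ≤ y)
    (hV6 : V.sum ≤ 1 / 6) : MCol rc e₀ (W + V) (5 / 6) := by
  obtain ⟨b₁, b₂, b₃, b₄, rfl, h43, h32, h21⟩ := C5_720.sorted4 W hc
  have hsum : (b₄ ::ₘ b₃ ::ₘ {b₁, b₂} : Multiset ℝ).sum = b₁ + b₂ + b₃ + b₄ := by
    rw [Multiset.sum_cons, C5_720.sum_tri]; ring
  have k4 : 13 / 100 ≤ b₄ := hW b₄ (by simp)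
  refine mcol_of C (fun y hy => ?_) fun f g hf hg hN => ?_
  · rcases Multiset.mem_add.1 hy with h | h
    · exact le_trans (by norm_num) (hW y h)
    · exact hV y h
  · rw [Multiset.sum_add, hsum] at hN
    rw [hsum] at hS
    intro κ' h0 h1
    have := C5_720.C5V R Lv hd (κ := 1) (V := V) (m := f) (a := g) hV (by linarith)
      (by linarith) h43 h32 h21 (by linarith) (by linarith) (by linarith) (by linarith)
      (Or.inl (by linarith)) (by linarith) hf hg (by linarith) κ' h0 h1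
    rw [Multiset.sum_add, hsum, add_comm (_ : Multiset ℝ) V]
    linarith

/-- **(T6)** at length `5/6` -/
theorem m6 (C : ExpC r rc) (R : ExpRules (7 / 8 + d) r s)
    (hd : 0 ≤ d) {e₀ : ℝ} (he : 10 / 9 * d ≤ e₀) {y₁ y₂ : ℝ} {Z X : Multiset ℝ} (h1 : 0 ≤ y₁)
    (h2 : 0 ≤ y₂) (hZ : ∀ y ∈ Z, 0 ≤ y) (hX : ∀ y ∈ X, 0 ≤ y) (hs : 1 / 4 ≤ y₁ + y₂)
    (hX6 : X.sum ≤ 1 / 6) (hZ9 : Z.sum ≤ 2 / 9) (h52 : y₁ + y₂ + 5 / 2 * Z.sum ≤ 1) :
    MCol rc e₀ (X + (Z + {y₁, y₂})) (5 / 6) := by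
  have hsum : (X + (Z + {y₁, y₂}) : Multiset ℝ).sum = X.sum + Z.sum + (y₁ + y₂) := by
    rw [Multiset.sum_add, Multiset.sum_add, sum_pair]; ring
  have hZ0 : 0 ≤ Z.sum := Multiset.sum_nonneg hZ
  refine mcol_of C (fun y hy => ?_) fun f g hf hg hN => ?_
  · rcases Multiset.mem_add.1 hy with h | h
    · exact hX y h
    · rcases Multiset.mem_add.1 h with h | h
      · exact hZ y h
      · simp only [Multiset.insert_eq_cons, Multiset.mem_cons, Multiset.mem_singleton] at h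
        rcases h with rfl | rfl <;> assumption
  · rw [hsum] at hN
    exact (cpl_t6 R hd h1 h2 hZ hX hf hg (by linarith) (by linarith) (by linarith) h52
      (by linarith)).mono he

/-- five single lumps -/
theorem m5s (C : ExpC r rc) (R : ExpRules (7 / 8 + d) r s) (Lv : ExpLv (7 / 8 + d) r)
    (hd : 0 ≤ d) {e₀ : ℝ} (he : d ≤ e₀) {a b₁ b₂ b₃ b₄ : ℝ} (ka : 0 ≤ a) (ha : a ≤ 1 / 6)
    (k1 : 13 / 100 ≤ b₁) (k2 : 13 / 100 ≤ b₂) (k3 : 13 / 100 ≤ b₃) (k4 : 13 / 100 ≤ b₄)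
    (hS : b₁ + b₂ + b₃ + b₄ ≤ 16 / 27) {Y : Multiset ℝ} (hY : Y = {b₁, b₂, b₃, b₄} + {a}) :
    MCol rc e₀ Y (5 / 6) ∧ Y.sum ≤ 5 / 6 := by
  subst hY
  have hsum : ({b₁, b₂, b₃, b₄} : Multiset ℝ).sum = b₁ + b₂ + b₃ + b₄ := by
    simp [add_assoc]
  refine ⟨m5 C R Lv hd he rfl ?_ (by rw [hsum]; exact hS) ?_
    (by rw [Multiset.sum_singleton]; exact ha), ?_⟩
  · intro y hy
    simp only [Multiset.insert_eq_cons, Multiset.mem_cons, Multiset.mem_singleton] at hy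
    rcases hy with rfl | rfl | rfl | rfl <;> assumption
  · intro y hy
    rw [Multiset.mem_singleton.1 hy]; exact ka
  · rw [Multiset.sum_add, hsum, Multiset.sum_singleton]
    linarith

/-- four lumps and a block: (C5) or (T6) -/
theorem m4 (C : ExpC r rc) (R : ExpRules (7 / 8 + d) r s) (Lv : ExpLv (7 / 8 + d) r)
    (hd : 0 ≤ d) {e₀ : ℝ} (he : 10 / 9 * d ≤ e₀) {b₁ b₂ b₃ b₄ : ℝ}
    (k1 : 13 / 100 ≤ b₁) (k2 : 13 / 100 ≤ b₂) (k3 : 13 / 100 ≤ b₃) (k4 : 13 / 100 ≤ b₄)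
    {V : Multiset ℝ} (hV : ∀ y ∈ V, 0 ≤ y)
    (h : b₁ + b₂ + b₃ + b₄ ≤ 16 / 27 ∧ V.sum ≤ 1 / 6 ∨
      b₄ ≤ 1 / 6 ∧ b₃ + V.sum ≤ 2 / 9 ∧ b₁ + b₂ + 5 / 2 * (b₃ + V.sum) ≤ 1 ∧
        b₁ + b₂ + b₃ + b₄ + V.sum ≤ 5 / 6)
    {Y : Multiset ℝ} (hY : Y = {b₁, b₂, b₃, b₄} + V) :
    MCol rc e₀ Y (5 / 6) ∧ Y.sum ≤ 5 / 6 := by
  subst hY
  have hsum : ({b₁, b₂, b₃, b₄} : Multiset ℝ).sum = b₁ + b₂ + b₃ + b₄ := by
    simp [add_assoc]
  rcases h with ⟨h1, h2⟩ | ⟨h1, h2, h3, h4⟩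
  · refine ⟨m5 C R Lv hd (by linarith) rfl ?_ (by rw [hsum]; exact h1) hV h2, ?_⟩
    · intro y hy
      simp only [Multiset.insert_eq_cons, Multiset.mem_cons, Multiset.mem_singleton] at hy
      rcases hy with rfl | rfl | rfl | rfl <;> assumption
    · rw [Multiset.sum_add, hsum]
      linarith
  · constructor
    · have e : ({b₁, b₂, b₃, b₄} + V : Multiset ℝ) = {b₄} + (({b₃} + V) + {b₁, b₂}) := by
        simp only [Multiset.insert_eq_cons, ← Multiset.singleton_add]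
        abel
      rw [e]
      refine m6 C R hd he (by linarith) (by linarith) ?_ ?_ (by linarith)
        (by rw [Multiset.sum_singleton]; exact h1)
        (by rw [Multiset.sum_add, Multiset.sum_singleton]; exact h2)
        (by rw [Multiset.sum_add, Multiset.sum_singleton]; exact h3)
      · intro y hy
        rcases Multiset.mem_add.1 hy with h | h
        · rw [Multiset.mem_singleton.1 h]; linarith
        · exact hV y h
      · intro y hy
        rw [Multiset.mem_singleton.1 hy]; linarith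
    · rw [Multiset.sum_add, hsum]
      exact h4

/-- **nine lumps `≥ 13/100`**, all other lumps as one block -/
theorem covM_nine (C : ExpC r rc) (R : ExpRules (7 / 8 + d) r s) (Lv : ExpLv (7 / 8 + d) r)
    (hd : 0 ≤ d) {e₀ t : ℝ} (he : 10 / 9 * d ≤ e₀) (ht : 0 ≤ t) (ht3 : t ≤ 1 / 3) {N : ℕ}
    {u : Fin N → ℝ} (hu : ∀ j, 0 ≤ u j) (hs : ∑ j, u j ≤ 4 / 3) (ι : Fin 9 → Fin N)
    (hι : Function.Injective ι) (hanti : Antitone (u ∘ ι)) (hlo : ∀ i, 13 / 100 ≤ u (ι i)) :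
    CovM rc e₀ t u (fun _ => 1) := by
  obtain ⟨w, hw⟩ : ∃ w : Fin 9 → ℝ, w = fun i => u (ι i) := ⟨_, rfl⟩
  have hS := sum_rest u ⟨ι, hι⟩
  have hr := rest_nonneg hu ⟨ι, hι⟩
  have hr0 : 0 ≤ (rest u ⟨ι, hι⟩).sum := Multiset.sum_nonneg hr
  have hwsum : ∑ i, u ((⟨ι, hι⟩ : Fin 9 ↪ Fin N) i) =
      w 0 + w 1 + w 2 + w 3 + w 4 + w 5 + w 6 + w 7 + w 8 := by
    rw [hw, Fin.sum_univ_castSucc, Fin.sum_univ_eight]
    rfl
  rw [hwsum] at hS
  have k : ∀ i, 13 / 100 ≤ w i := fun i => by rw [hw]; exact hlo i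
  have a : ∀ i j : Fin 9, i ≤ j → w j ≤ w i := fun i j h => by rw [hw]; exact hanti h
  have k0 := k 0
  have k1 := k 1
  have k2 := k 2
  have k3 := k 3
  have k4 := k 4
  have k5 := k 5
  have k6 := k 6
  have k7 := k 7
  have k8 := k 8
  have a1 := a 0 1 (by decide)
  have a2 := a 1 2 (by decide)
  have a3 := a 2 3 (by decide)
  have a4 := a 3 4 (by decide)
  have a5 := a 4 5 (by decide)
  have a6 := a 5 6 (by decide)
  have a7 := a 6 7 (by decide)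
  have a8 := a 7 8 (by decide)
  have he' : d ≤ e₀ := by linarith
  have fin : ∀ (B : Finset (Fin 9)),
      (MCol rc e₀ (B.val.map w) (5 / 6) ∧ (B.val.map w).sum ≤ 5 / 6) →
      (MCol rc e₀ (Bᶜ.val.map w + rest u ⟨ι, hι⟩) (5 / 6) ∧
        (Bᶜ.val.map w + rest u ⟨ι, hι⟩).sum ≤ 5 / 6) → CovM rc e₀ t u (fun _ => 1) := by
    intro B h1 h2
    rw [hw] at h1 h2
    exact covM_of_part ht ht3 hs ⟨ι, hι⟩ B h1.1 h1.2 h2.1 h2.2
  rcases le_or_gt (w 0) (1 / 6) with h0 | h0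
  · refine fin {0, 2, 4, 6, 8} (m5s C R Lv hd he' (a := w 0) (b₁ := w 2) (b₂ := w 4)
      (b₃ := w 6) (b₄ := w 8) (by linarith) h0 k2 k4 k6 k8 (by linarith) ?_)
      (m4 C R Lv hd he (b₁ := w 1) (b₂ := w 3) (b₃ := w 5) (b₄ := w 7) k1 k3 k5 k7 hr ?_ ?_)
    · rw [add_comm]; rfl
    · rcases le_or_gt (w 1 + w 3 + w 5 + w 7) (16 / 27) with h | h
      · exact Or.inl ⟨h, by linarith⟩
      · exact Or.inr ⟨by linarith, by linarith, by linarith, by linarith⟩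
    · rfl
  · rcases le_or_gt (w 1) (1 / 6) with h1 | h1
    · refine fin {1, 2, 4, 6, 8} (m5s C R Lv hd he' (a := w 1) (b₁ := w 2) (b₂ := w 4)
        (b₃ := w 6) (b₄ := w 8) (by linarith) h1 k2 k4 k6 k8 (by linarith) ?_)
        (m4 C R Lv hd he (b₁ := w 0) (b₂ := w 3) (b₃ := w 5) (b₄ := w 7) k0 k3 k5 k7 hr ?_ ?_)
      · rw [add_comm]; rfl
      · rcases le_or_gt (w 0 + w 3 + w 5 + w 7) (16 / 27) with h | h
        · exact Or.inl ⟨h, by linarith⟩
        · exact Or.inr ⟨by linarith, by linarith, by linarith, by linarith⟩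
      · rfl
    · refine fin {2, 4, 6, 7, 8} (m5s C R Lv hd he' (a := w 8) (b₁ := w 2) (b₂ := w 4)
        (b₃ := w 6) (b₄ := w 7) (by linarith) (by linarith) k2 k4 k6 k7 (by linarith) ?_)
        (m4 C R Lv hd he (b₁ := w 0) (b₂ := w 1) (b₃ := w 3) (b₄ := w 5) k0 k1 k3 k5 hr
          (Or.inr ⟨by linarith, by linarith, by linarith, by linarith⟩) ?_)
      · rfl
      · rfl

/-- **ten lumps `≥ 13/100`** -/
theorem covM_ten (C : ExpC r rc) (R : ExpRules (7 / 8 + d) r s) (Lv : ExpLv (7 / 8 + d) r)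
    (hd : 0 ≤ d) {e₀ t : ℝ} (he : 10 / 9 * d ≤ e₀) (ht : 0 ≤ t) (ht3 : t ≤ 1 / 3) {N : ℕ}
    {u : Fin N → ℝ} (hu : ∀ j, 0 ≤ u j) (hs : ∑ j, u j ≤ 4 / 3) (ι : Fin 10 → Fin N)
    (hι : Function.Injective ι) (hanti : Antitone (u ∘ ι)) (hlo : ∀ i, 13 / 100 ≤ u (ι i)) :
    CovM rc e₀ t u (fun _ => 1) :=
  covM_nine C R Lv hd he ht ht3 hu hs (ι ∘ Fin.castSucc)
    (hι.comp (Fin.castSucc_injective 9)) (fun _ _ h => hanti (Fin.castSucc_le_castSucc_iff.2 h))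
    fun _ => hlo _

end Crest.Agent.R017.CovNine358
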