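import Crest.Agent.R017.Hull_741

/-!
# Row 17, section D: averaging over the small classes (helper741, after 59 #18689 (3))

`Id N u n f g` : any family of column predicates stable under push-forward (`PushStable`), e.g.
`Ideal r κ u e₀` (`ideal_push`).

* `small_cover` : the target point is a convex combination of the points in which all small mass
  sits on one small lump size, or is Möbius mass.
* `hull_push` : push-forward of hull points along `ι : Fin k → Fin N`.
* `exists_sorted` : the big lumps in decreasing order.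
* `cov_small` : coverage of the points (sorted big lumps; one virtual small lump `y`) and
  (sorted big lumps; Möbius mass) gives the coverage of the box.
-/

set_option autoImplicit false

noncomputable section

namespace Crest.Agent.R017.CovSmall741

open Crest.Agent.R017.ER911 Crest.Agent.R017.Hull741

/-! ### 1. Averaging -/

open Classical in
/-- **averaging over the small classes** -/
theorem small_cover {N : ℕ} (I : Set (Mon N)) (hI : Convex ℝ I) (Sm : Finset (Fin N))
    (u τ x : Fin N → ℝ) (F A W : ℝ) (hu : ∀ j ∈ Sm, 0 ≤ u j) (hτu : ∀ j ∈ Sm, u j = 0 → τ j = 0)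
    (hτ : ∀ j ∈ Sm, 0 ≤ τ j) (hF : 0 ≤ F) (hW : ∑ j ∈ Sm, τ j * u j + 2 * F = W)
    (hj : ∀ j ∈ Sm, 0 < u j → ((fun i => if i ∈ Sm then (if i = j then W / (2 * u j) else 0)
      else x i, 0, A) : Mon N) ∈ I)
    (h0 : ((fun i => if i ∈ Sm then 0 else x i, W / 2, A) : Mon N) ∈ I) :
    ((fun i => if i ∈ Sm then τ i / 2 else x i, F, A) : Mon N) ∈ I := by
  have hterm : ∀ j ∈ Sm, 0 ≤ τ j * u j := fun j hjm => mul_nonneg (hτ j hjm) (hu j hjm)
  have hsum0 : 0 ≤ ∑ j ∈ Sm, τ j * u j := Finset.sum_nonneg hterm
  have hW0 : 0 ≤ W := by linarith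
  rcases hW0.eq_or_lt with hW' | hW'
  · -- no small mass
    have h1 : ∑ j ∈ Sm, τ j * u j = 0 := by linarith
    have h2 : F = 0 := by linarith
    have h3 : ∀ j ∈ Sm, τ j = 0 := by
      intro j hjm
      have h4 := (Finset.sum_eq_zero_iff_of_nonneg hterm).1 h1 j hjm
      rcases mul_eq_zero.1 h4 with h5 | h5
      · exact h5
      · exact hτu j hjm h5
    have e : ((fun i => if i ∈ Sm then τ i / 2 else x i, F, A) : Mon N) =
        (fun i => if i ∈ Sm then 0 else x i, W / 2, A) := by
      rw [h2, ← hW']
      refine Prod.ext ?_ (Prod.ext (by simp) rfl)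
      funext i
      by_cases hi : i ∈ Sm
      · simp [hi, h3 i hi]
      · simp [hi]
    rw [e]
    exact h0
  · -- weights
    let T : Finset (Option (Fin N)) := insert none (Sm.map Function.Embedding.some)
    have hnone : (none : Option (Fin N)) ∉ Sm.map Function.Embedding.some := by simp
    let w : Option (Fin N) → ℝ := fun o => o.elim (2 * F / W) fun j => τ j * u j / W
    let z : Option (Fin N) → Mon N := fun o => o.elim
      (fun i => if i ∈ Sm then 0 else x i, W / 2, A)
      fun j => if u j = 0 then (fun i => if i ∈ Sm then 0 else x i, W / 2, A)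
        else (fun i => if i ∈ Sm then (if i = j then W / (2 * u j) else 0) else x i, 0, A)
    have hw : ∀ o ∈ T, 0 ≤ w o := by
      intro o ho
      cases o with
      | none => simp only [w, Option.elim]; positivity
      | some j =>
        have hjm : j ∈ Sm := by simpa [T] using ho
        simp only [w, Option.elim]
        exact div_nonneg (hterm j hjm) hW'.le
    have hw1 : ∑ o ∈ T, w o = 1 := by
      rw [Finset.sum_insert hnone, Finset.sum_map]
      simp only [w, Option.elim, Function.Embedding.some_apply, ← Finset.sum_div]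
      rw [← add_div, add_comm, hW, div_self hW'.ne']
    have hz : ∀ o ∈ T, z o ∈ I := by
      intro o ho
      cases o with
      | none => exact h0
      | some j =>
        have hjm : j ∈ Sm := by simpa [T] using ho
        simp only [z, Option.elim]
        split_ifs with h
        · exact h0
        · exact hj j hjm (lt_of_le_of_ne (hu j hjm) (Ne.symm h))
    have hmem := hI.sum_mem hw hw1 hz
    have heq : ∑ o ∈ T, w o • z o =
        ((fun i => if i ∈ Sm then τ i / 2 else x i, F, A) : Mon N) := by
      rw [Finset.sum_insert hnone, Finset.sum_map]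
      simp only [Function.Embedding.some_apply]
      have hterm' : ∀ j ∈ Sm, w (some j) • z (some j) =
          ((fun i => if i ∈ Sm then (if i = j then τ j / 2 else 0) else τ j * u j / W * x i, 0,
            τ j * u j / W * A) : Mon N) := by
        intro j hjm
        simp only [w, z, Option.elim]
        by_cases h : u j = 0
        · rw [if_pos h, h, hτu j hjm h]
          refine Prod.ext ?_ (Prod.ext (by simp) (by simp))
          funext i
          by_cases hi : i ∈ Sm
          · by_cases hij : i = j <;> simp [hi, hij]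
          · simp [hi]
        · rw [if_neg h]
          refine Prod.ext ?_ (Prod.ext (by simp) (by simp))
          funext i
          simp only [Prod.smul_fst, Pi.smul_apply, smul_eq_mul]
          by_cases hi : i ∈ Sm
          · rw [if_pos hi, if_pos hi]
            by_cases hij : i = j
            · rw [if_pos hij, if_pos hij]
              field_simp
            · rw [if_neg hij, if_neg hij, mul_zero]
          · rw [if_neg hi, if_neg hi]
      rw [Finset.sum_congr rfl hterm']
      have hw1' : 2 * F / W + ∑ j ∈ Sm, τ j * u j / W = 1 := by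
        rw [← Finset.sum_div, ← add_div, add_comm, hW, div_self hW'.ne']
      refine Prod.ext ?_ (Prod.ext ?_ ?_)
      · funext i
        simp only [w, z, Option.elim, Prod.fst_add, Prod.smul_fst, Prod.fst_sum, Pi.add_apply,
          Pi.smul_apply, smul_eq_mul, Finset.sum_apply]
        by_cases hi : i ∈ Sm
        · simp [hi]
        · simp only [hi, if_false]
          rw [← Finset.sum_mul, ← add_mul, hw1', one_mul]
      · simp only [w, z, Option.elim, Prod.snd_add, Prod.fst_add, Prod.smul_snd, Prod.smul_fst,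
          Prod.snd_sum, Prod.fst_sum, smul_eq_mul, Finset.sum_const_zero, add_zero]
        field_simp
      · simp only [w, z, Option.elim, Prod.snd_add, Prod.smul_snd, Prod.snd_sum, smul_eq_mul]
        rw [← Finset.sum_mul, ← add_mul, hw1', one_mul]
    rw [heq] at hmem
    exact hmem

/-! ### 2. Push-forward -/

open Classical in
/-- push-forward of multiplicities -/
def push {k N : ℕ} (ι : Fin k → Fin N) (n : Fin k → ℕ) (j : Fin N) : ℕ :=
  ∑ i ∈ Finset.univ.filter (fun i => ι i = j), n i

open Classical in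
/-- push-forward of real multiplicities -/
def pushR {k N : ℕ} (ι : Fin k → Fin N) (n : Fin k → ℝ) (j : Fin N) : ℝ :=
  ∑ i ∈ Finset.univ.filter (fun i => ι i = j), n i

theorem push_cast {k N : ℕ} (ι : Fin k → Fin N) (n : Fin k → ℕ) (j : Fin N) :
    (push ι n j : ℝ) = pushR ι (fun i => (n i : ℝ)) j := by
  unfold push pushR
  push_cast
  rfl

theorem sum_pushR {k N : ℕ} (ι : Fin k → Fin N) (n : Fin k → ℝ) (u : Fin N → ℝ) :
    ∑ j, pushR ι n j * u j = ∑ i, n i * u (ι i) := by
  classical
  unfold pushR
  simp only [Finset.sum_mul]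
  rw [← Finset.sum_fiberwise Finset.univ ι fun i => n i * u (ι i)]
  refine Finset.sum_congr rfl fun j _ => ?_
  refine Finset.sum_congr (by congr) fun i hi => ?_
  rw [(Finset.mem_filter.1 hi).2]

theorem sum_replicate_push {k N : ℕ} (ι : Fin k → Fin N) (n : Fin k → ℕ) (u : Fin N → ℝ) :
    ∑ j, Multiset.replicate (push ι n j) (u j) =
      ∑ i, Multiset.replicate (n i) ((u ∘ ι) i) := by
  classical
  rw [← Finset.sum_fiberwise Finset.univ ι fun i => Multiset.replicate (n i) ((u ∘ ι) i)]
  refine Finset.sum_congr rfl fun j _ => ?_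
  have h1 : ∀ (s : Finset (Fin k)), Multiset.replicate (∑ i ∈ s, n i) (u j) =
      ∑ i ∈ s, Multiset.replicate (n i) (u j) := by
    intro s
    induction s using Finset.induction_on with
    | empty => simp
    | insert a s ha ih =>
      rw [Finset.sum_insert ha, Finset.sum_insert ha, Multiset.replicate_add, ih]
  unfold push
  rw [h1]
  refine Finset.sum_congr (by congr) fun i hi => ?_
  rw [Function.comp_apply, (Finset.mem_filter.1 hi).2]

/-- families of column predicates stable under push-forward -/
def PushStable (Id : ∀ N : ℕ, (Fin N → ℝ) → (Fin N → ℕ) → ℝ → ℝ → Prop) : Prop :=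
  ∀ (k N : ℕ) (ι : Fin k → Fin N) (u : Fin N → ℝ) (n : Fin k → ℕ) (f g : ℝ),
    Id k (u ∘ ι) n f g → Id N u (push ι n) f g

theorem ideal_push (r : EF) (κ e₀ : ℝ) : PushStable fun _ u => Ideal r κ u e₀ := by
  rintro k N ι u n f g ⟨hf, hg, h⟩
  refine ⟨hf, hg, ?_⟩
  rw [sum_replicate_push]
  refine h.trans (le_of_eq ?_)
  have h1 : ∑ j, (push ι n j : ℝ) * u j = ∑ i, (n i : ℝ) * (u ∘ ι) i := by
    simp only [push_cast]
    exact sum_pushR ι (fun i => (n i : ℝ)) u
  rw [h1]

/-- **push-forward of a point of the hull** -/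
theorem hull_push {Id : ∀ N : ℕ, (Fin N → ℝ) → (Fin N → ℕ) → ℝ → ℝ → Prop} (hId : PushStable Id)
    {k N : ℕ} (ι : Fin k → Fin N) (u : Fin N → ℝ) {x : Fin k → ℝ} {F A : ℝ}
    (h : ((x, F, A) : Mon k) ∈ Hull (Id k (u ∘ ι))) :
    ((pushR ι x, F, A) : Mon N) ∈ Hull (Id N u) := by
  obtain ⟨M, p, n, f, g, hp, hp1, hI, heq⟩ := h
  have h1 : x = fun j => ∑ q, p q * (n q j : ℝ) := congrArg Prod.fst heq
  have h2 : F = ∑ q, p q * f q := congrArg (fun z : Mon k => z.2.1) heq
  have h3 : A = ∑ q, p q * g q := congrArg (fun z : Mon k => z.2.2) heq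
  refine ⟨M, p, fun q => push ι (n q), f, g, hp, hp1, fun q => hId _ _ _ _ _ _ _ (hI q), ?_⟩
  refine Prod.ext ?_ (Prod.ext h2 h3)
  funext j
  simp only [push_cast]
  unfold pushR
  rw [h1]
  simp only [Finset.mul_sum]
  rw [Finset.sum_comm]

/-! ### 3. The sorted big lumps -/

/-- the big lumps in decreasing order -/
theorem exists_sorted {N : ℕ} (u : Fin N → ℝ) (B : Finset (Fin N)) :
    ∃ (k : ℕ) (ι : Fin k → Fin N), Function.Injective ι ∧ Antitone (u ∘ ι) ∧
      (∀ j, j ∈ B ↔ ∃ i, ι i = j) := by
  classical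
  let e := B.orderEmbOfFin rfl
  let σ := Tuple.sort fun i => -u (e i)
  refine ⟨B.card, fun i => e (σ i), ?_, ?_, ?_⟩
  · exact e.injective.comp σ.injective
  · intro i i' h
    have h1 := Tuple.monotone_sort (fun i => -u (e i)) h
    simp only [Function.comp_apply] at h1 ⊢
    linarith
  · intro j
    constructor
    · intro hj
      have h1 : j ∈ Set.range e := by
        rw [Finset.range_orderEmbOfFin]
        exact hj
      obtain ⟨i, hi⟩ := h1
      exact ⟨σ.symm i, by simp [hi]⟩
    · rintro ⟨i, rfl⟩
      exact Finset.orderEmbOfFin_mem B rfl _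

open Classical in
theorem pushR_inj {k N : ℕ} {ι : Fin k → Fin N} (hι : Function.Injective ι) (x : Fin k → ℝ)
    (i : Fin k) : pushR ι x (ι i) = x i := by
  unfold pushR
  have : Finset.univ.filter (fun i' => ι i' = ι i) = {i} := by
    ext i'
    simp [hι.eq_iff]
  rw [this, Finset.sum_singleton]

open Classical in
theorem pushR_ne {k N : ℕ} {ι : Fin k → Fin N} (x : Fin k → ℝ) {j : Fin N}
    (h : ∀ i, ι i ≠ j) : pushR ι x j = 0 := by
  unfold pushR
  have : Finset.univ.filter (fun i' => ι i' = j) = ∅ := by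
    ext i'
    simp [h i']
  rw [this, Finset.sum_empty]

/-- **Coverage with one virtual small size.** -/
theorem cov_small {Id : ∀ N : ℕ, (Fin N → ℝ) → (Fin N → ℕ) → ℝ → ℝ → Prop} (hId : PushStable Id)
    {N : ℕ} (u τ : Fin N → ℝ) (hu : ∀ j, 0 ≤ u j) (hτ : ∀ j, 0 ≤ τ j)
    (hτu : ∀ j, u j = 0 → τ j = 0) (hs : ∑ j, τ j * u j ≤ 4 / 3) (y₀ A : ℝ)
    (hcov : ∀ (k : ℕ) (ι : Fin k → Fin N), Function.Injective ι → Antitone (u ∘ ι) →
      (∀ j, y₀ < u j ↔ ∃ i, ι i = j) →
      ((fun i => τ (ι i) / 2, (4 / 3 - ∑ i, τ (ι i) * u (ι i)) / 2, A) : Mon k) ∈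
        Hull (Id k (u ∘ ι)) ∧
      ∀ y, 0 < y → y ≤ y₀ → (∃ j, u j = y) →
        ((Fin.snoc (α := fun _ => ℝ) (fun i => τ (ι i) / 2)
          ((4 / 3 - ∑ i, τ (ι i) * u (ι i)) / (2 * y)), 0, A) : Mon (k + 1)) ∈
          Hull (Id (k + 1) (Fin.snoc (α := fun _ => ℝ) (u ∘ ι) y))) :
    ((fun j => τ j / 2, (4 / 3 - ∑ j, τ j * u j) / 2, A) : Mon N) ∈ Hull (Id N u) := by
  classical
  obtain ⟨k, ι, hι, hanti, hmem⟩ := exists_sorted u (Finset.univ.filter fun j => y₀ < u j)
  have hmem' : ∀ j, y₀ < u j ↔ ∃ i, ι i = j := fun j => by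
    rw [← hmem]; simp
  obtain ⟨h0, h1⟩ := hcov k ι hι hanti hmem'
  set Sm : Finset (Fin N) := Finset.univ.filter fun j => ¬ y₀ < u j with hSm
  set W : ℝ := 4 / 3 - ∑ i, τ (ι i) * u (ι i) with hW
  have hSmj : ∀ j, j ∈ Sm ↔ ¬ y₀ < u j := fun j => by simp [hSm]
  have hbig : ∑ i, τ (ι i) * u (ι i) =
      ∑ j ∈ Finset.univ.filter (fun j => y₀ < u j), τ j * u j := by
    have him : Finset.univ.filter (fun j => y₀ < u j) = Finset.univ.image ι := by
      ext j
      simp [hmem']
    rw [him, Finset.sum_image fun a _ b _ h => hι h]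
  have hsplit := Finset.sum_filter_add_sum_filter_not Finset.univ (fun j => y₀ < u j)
    fun j => τ j * u j
  have hWs : ∑ j ∈ Sm, τ j * u j + 2 * ((4 / 3 - ∑ j, τ j * u j) / 2) = W := by
    rw [hW, hbig, hSm]
    linarith
  have key := small_cover (Hull (Id N u)) (convex_hull _) Sm u τ (fun j => τ j / 2)
    ((4 / 3 - ∑ j, τ j * u j) / 2) A W (fun j _ => hu j) (fun j _ => hτu j) (fun j _ => hτ j)
    (by linarith) hWs ?_ ?_
  · have e : ((fun j => τ j / 2, (4 / 3 - ∑ j, τ j * u j) / 2, A) : Mon N) =
        (fun i => if i ∈ Sm then τ i / 2 else τ i / 2, (4 / 3 - ∑ j, τ j * u j) / 2, A) := by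
      simp
    rw [e]
    exact key
  · intro j hj hj0
    have hy : u j ≤ y₀ := not_lt.1 ((hSmj j).1 hj)
    have h2 := h1 (u j) hj0 hy ⟨j, rfl⟩
    -- push along `snoc ι j`
    have hcomp : Fin.snoc (α := fun _ => ℝ) (u ∘ ι) (u j) =
        u ∘ (Fin.snoc (α := fun _ => Fin N) ι j) := by
      funext i
      refine Fin.lastCases ?_ (fun i => ?_) i
      · simp
      · simp
    rw [hcomp] at h2
    have h3 := hull_push hId _ u h2
    have hinj : Function.Injective (Fin.snoc (α := fun _ => Fin N) ι j) := by
      intro i i'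
      refine Fin.lastCases ?_ (fun i => ?_) i
      · refine Fin.lastCases ?_ (fun i' => ?_) i'
        · simp
        · simp only [Fin.snoc_last, Fin.snoc_castSucc]
          intro h
          exact absurd ((hmem' j).2 ⟨i', h.symm⟩) ((hSmj j).1 hj)
      · refine Fin.lastCases ?_ (fun i' => ?_) i'
        · simp only [Fin.snoc_last, Fin.snoc_castSucc]
          intro h
          exact absurd ((hmem' j).2 ⟨i, h⟩) ((hSmj j).1 hj)
        · simp only [Fin.snoc_castSucc]
          intro h
          rw [hι h]
    have e : pushR (Fin.snoc (α := fun _ => Fin N) ι j)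
        (Fin.snoc (α := fun _ => ℝ) (fun i => τ (ι i) / 2) (W / (2 * u j))) =
        fun i => if i ∈ Sm then (if i = j then W / (2 * u j) else 0) else τ i / 2 := by
      funext i
      by_cases hi : i ∈ Sm
      · rw [if_pos hi]
        by_cases hij : i = j
        · rw [if_pos hij, hij]
          have h4 := pushR_inj hinj
            (Fin.snoc (α := fun _ => ℝ) (fun i => τ (ι i) / 2) (W / (2 * u j))) (Fin.last k)
          simpa using h4
        · rw [if_neg hij]
          refine pushR_ne _ fun i' => ?_
          refine Fin.lastCases ?_ (fun i' => ?_) i'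
          · simp only [Fin.snoc_last]
            exact fun h => hij h.symm
          · simp only [Fin.snoc_castSucc]
            intro h
            exact ((hSmj i).1 hi) ((hmem' i).2 ⟨i', h⟩)
      · rw [if_neg hi]
        have hi' : y₀ < u i := by
          by_contra hcon
          exact hi ((hSmj i).2 hcon)
        obtain ⟨i', rfl⟩ := (hmem' i).1 hi'
        have h4 := pushR_inj hinj
          (Fin.snoc (α := fun _ => ℝ) (fun i => τ (ι i) / 2) (W / (2 * u j))) i'.castSucc
        simpa using h4
    rw [e] at h3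
    exact h3
  · have h3 := hull_push hId ι u h0
    have e : pushR ι (fun i => τ (ι i) / 2) = fun i => if i ∈ Sm then 0 else τ i / 2 := by
      funext i
      by_cases hi : i ∈ Sm
      · rw [if_pos hi]
        exact pushR_ne _ fun i' h => ((hSmj i).1 hi) ((hmem' i).2 ⟨i', h⟩)
      · rw [if_neg hi]
        have hi' : y₀ < u i := by
          by_contra hcon
          exact hi ((hSmj i).2 hcon)
        obtain ⟨i', rfl⟩ := (hmem' i).1 hi'
        exact pushR_inj hι _ i'
    rw [e] at h3
    exact h3

end Crest.Agent.R017.CovSmall741
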