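import Crest.Agent.R017.SideC_777

/-!
# Row 17, section D: long lumps (helper911)

* `flip_ex` : a lump `y₁ ≥ κ/2` is as good as the lump `κ - y₁`
* `side79f` : `{y₁,y₂ | m,a}` with `κ/2 ≤ y₁` is ideal for `m + a ≤ 7/9 (min y₁ κ - y₂)`
* `hb_short` : every side of total length at most `κ/2` is ideal, no loss
-/

set_option autoImplicit false

noncomputable section

namespace Crest.Agent.R017.Long911

open Crest.Agent.R017.ER911 Crest.Agent.R017.SC777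

variable {θ d : ℝ} {r s : EF}

/-- **the functional equation for a long lump**: the excess of the flipped side may grow with
slope `1` beyond the length `κ - y₁` -/
theorem flip_ex (R : ExpRules θ r s) {κ y₁ m a E₀ : ℝ} {Y : Multiset ℝ} (hκ : 0 ≤ κ)
    (hy : κ ≤ 2 * y₁) (hY : Ok Y m a)
    (H : ∀ y : ℝ, 0 ≤ y → 2 * y ≤ κ → r κ (y ::ₘ Y) m a ≤ y + E₀ + max 0 (y + y₁ - κ)) :
    r κ (y₁ ::ₘ Y) m a ≤ y₁ + E₀ := by
  refine R.flip κ y₁ Y m a (y₁ + E₀) hκ (by linarith) hY ?_ ?_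
  · intro y' h0 h1 h2
    have h3 := H y' h0 h2
    have h4 : max 0 (y' + y₁ - κ) ≤ y₁ - y' := max_le (by linarith) (by linarith)
    linarith
  · intro y' t h1 h2 h3 ht ht'
    have h4 := H (κ - t - y') (by linarith) (by linarith)
    have h5 : max 0 (κ - t - y' + y₁ - κ) ≤ y₁ - y' := max_le (by linarith) (by linarith)
    linarith

/-- **`{y₁,y₂ | m,a}` with a long lump** -/
theorem side79f (R : ExpRules (7 / 8 + d) r s) (hd : 0 ≤ d) {κ y₁ y₂ m a : ℝ} (hκ : 0 ≤ κ)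
    (hy : κ ≤ 2 * y₁) (h2 : 0 ≤ y₂) (h2κ : y₂ ≤ κ) (hm : 0 ≤ m) (ha : 0 ≤ a)
    (hw1 : 9 * (m + a) ≤ 7 * (y₁ - y₂)) (hw2 : 9 * (m + a) ≤ 7 * (κ - y₂))
    (hA : 3 * a ≤ κ + 3 * y₂) :
    r κ {y₁, y₂} m a ≤ κ + (y₁ + y₂) + (m + a) + 2 * d * (m + a) := by
  have key := flip_ex R (κ := κ) (y₁ := y₁) (m := m) (a := a) (Y := {y₂})
    (E₀ := κ + y₂ + (m + a) + 2 * d * (m + a)) hκ hy
    ⟨fun y hy => by rw [Multiset.mem_singleton] at hy; rw [hy]; exact h2, hm, ha⟩ ?_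
  · have e : (y₁ ::ₘ {y₂} : Multiset ℝ) = {y₁, y₂} := rfl
    rw [e] at key
    linarith
  intro y hy0 hy1
  have e : (y ::ₘ {y₂} : Multiset ℝ) = {y, y₂} := rfl
  rw [e]
  have hM0 : 0 ≤ max 0 (y + y₁ - κ) := le_max_left _ _
  have hM1 : y + y₁ - κ ≤ max 0 (y + y₁ - κ) := le_max_right _ _
  rcases le_total (y + y₂) κ with hs | hs
  · have h3 := side79a R hd (κ := κ) (y₁ := y) (y₂ := y₂) (m := m) (a := a)
      (e := 4 / 3 * max 0 (y + y₁ - κ)) hy0 h2 hm ha hs (by linarith) (by linarith)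
      (by linarith) (κ' := κ) hκ le_rfl (by linarith) h2κ
    linarith
  · have h3 := sup_all R hκ hy0 h2 hm ha (by linarith) h2κ
    linarith

/-- one long lump -/
theorem side79f' (R : ExpRules (7 / 8 + d) r s) (hd : 0 ≤ d) (P : ExpPad r)
    {κ y m a : ℝ} (hκ : 0 ≤ κ) (hy : κ ≤ 2 * y) (hm : 0 ≤ m) (ha : 0 ≤ a)
    (hw1 : 9 * (m + a) ≤ 7 * y) (hw2 : 9 * (m + a) ≤ 7 * κ) (hA : 3 * a ≤ κ) :
    r κ {y} m a ≤ κ + y + (m + a) + 2 * d * (m + a) := by
  have h1 := P.pair (y := y) hκ (by linarith) hm ha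
  have h2 := side79f R hd (κ := κ) (y₁ := y) (y₂ := 0) (m := m) (a := a) hκ hy le_rfl hκ hm ha
    (by linarith) (by linarith) (by linarith)
  linarith

/-- **short sides**: total length at most `κ/2`, any shape, no loss -/
theorem hb_short (R : ExpRules θ r s) {κ m a : ℝ} {Y : Multiset ℝ} (hκ : 0 ≤ κ) (hY : Ok Y m a)
    (h : 2 * (Y.sum + m + a) ≤ κ) : r κ Y m a ≤ κ + (Y.sum + m + a) := by
  refine (R.hbC κ Y m a hκ hY).trans (max_le le_rfl (max_le ?_ ?_))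
  · have h0 := Multiset.sum_nonneg hY.1
    have h1 := hY.2.1
    have h2 := hY.2.2
    linarith
  · linarith

end Crest.Agent.R017.Long911
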