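import Crest.Agent.R017.CovGlue_741
import Crest.Agent.R017.CovBig_954
import Crest.Agent.R017.Long_911

/-!
# Row 17, section D: top of the coverage, `∑ u ≤ 4/3` (helper741)

* `noNE_of` : `NoNE5 u` gives `Cov499.NoNE` for the sorted big lumps
* `long_le`, `short_le` : complete sides `{y | m, a}`, `5/6 ≤ y`, `m + a ≤ 1/3`, loss `2/3 d`, and
  all sides of total length `≤ 1/2`, no loss
* `covM_long` : boxes with a lump `≥ 5/6`
* `coreL` : `Inp` and the coverage of the big lumps give 954's `CoreL e₀ t rc`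
-/

set_option autoImplicit false

noncomputable section

namespace Crest.Agent.R017.CovTop741

open Crest.Agent.R017.ER911 Crest.Agent.R017.Hull741 Crest.Agent.R017.CovM59
  Crest.Agent.R017.CovSmall741 Crest.Agent.R017.CovGlue741 Crest.Agent.R017.ColG59
  Crest.Agent.R017.Nz59 Crest.Agent.R017.Long911 Crest.Agent.R017.ExpC702
  Crest.Agent.R017.CovBig954

/-! ### 1. No near-equal five lumps -/

theorem w5_mono : Monotone w5 := by
  intro i j h
  fin_cases i <;> fin_cases j <;> simp_all [w5]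

/-- the sorted lumps -/
theorem noNE_of {N : ℕ} {u : Fin N → ℝ} (h : NoNE5 u) {k : ℕ} {ι : Fin k → Fin N}
    (hι : Function.Injective ι) (ha : Antitone (u ∘ ι)) : Cov499.NoNE (u ∘ ι) := by
  intro hk
  obtain ⟨σ, hσ⟩ := h (ι ∘ Fin.castLE hk) (hι.comp (Fin.castLE_injective hk))
  have hanti : Antitone (fun i : Fin 5 => u (ι (Fin.castLE hk i))) := fun i j hij =>
    ha (by exact_mod_cast hij)
  have h1 := (w5_mono.antivary hanti).sum_mul_le_sum_mul_comp_perm (σ := σ)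
  have h2 := h1.trans hσ
  simp only [Fin.sum_univ_five, w5] at h2
  simp only [Matrix.cons_val_zero, Matrix.cons_val_one, zero_mul, Matrix.cons_val, one_mul,
    zero_add] at h2
  exact h2

/-! ### 2. A long lump -/

variable {θ d : ℝ} {r s rc : EF}

/-- the side `{y | m, a}`, `5/6 ≤ y`, `m + a ≤ 1/3`, in the complete form -/
theorem long_le (R : ExpRules (7 / 8 + d) r s) (hd : 0 ≤ d) {y f g : ℝ} (hy : 5 / 6 ≤ y)
    (hf : 0 ≤ f) (hg : 0 ≤ g) (h : f + g ≤ 1 / 3) : Compl r (2 / 3 * d) {y} f g := by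
  intro ρ h0 h1
  have hok : Ok ({y} : Multiset ℝ) f g :=
    ⟨fun x hx => by rw [Multiset.mem_singleton] at hx; rw [hx]; linarith, hf, hg⟩
  have k1 := R.sup ρ {y} f g ((1 - ρ) * f) ((1 - ρ) * g) h0 hok
    (mul_nonneg (by linarith) hf) (by nlinarith) (mul_nonneg (by linarith) hg) (by nlinarith)
  have e1 : f - (1 - ρ) * f = ρ * f := by ring
  have e2 : g - (1 - ρ) * g = ρ * g := by ring
  rw [e1, e2] at k1
  have hρw : ρ * (f + g) ≤ ρ * (1 / 3) := mul_le_mul_of_nonneg_left h h0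
  have hρg : ρ * g ≤ ρ * (1 / 3) := mul_le_mul_of_nonneg_left (by linarith) h0
  have k2 := side79f (Nz59.rules R) hd (κ := ρ) (y₁ := y) (y₂ := 0) (m := ρ * f) (a := ρ * g) h0
    (by linarith) le_rfl h0 (mul_nonneg h0 hf) (mul_nonneg h0 hg) (by linarith) (by linarith)
    (by linarith)
  have e3 : rz r ρ {y, 0} (ρ * f) (ρ * g) = r ρ {y} (ρ * f) (ρ * g) := by
    show r ρ (nz {y, 0}) _ _ = _
    rw [Multiset.insert_eq_cons, nz_cons (by linarith : y ≠ 0),
      show ({0} : Multiset ℝ) = 0 ::ₘ 0 from rfl, nz_cons_zero, nz_zero]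
    rfl
  rw [e3] at k2
  rw [Multiset.sum_singleton]
  have h2 : 0 ≤ (1 - ρ) * (2 / 3 - 3 / 4 * (f + g)) := mul_nonneg (by linarith) (by linarith)
  have h3 : d * (f + g) ≤ d * (1 / 3) := mul_le_mul_of_nonneg_left h hd
  nlinarith

/-- short sides, in the complete form -/
theorem short_le (R : ExpRules θ r s) {Y : Multiset ℝ} {f g : ℝ} (hok : Ok Y f g)
    (h : Y.sum + f + g ≤ 1 / 2) : Compl r 0 Y f g := by
  intro ρ h0 h1
  have h2 := R.hbC ρ Y f g h0 hok
  have hn : 0 ≤ Y.sum := Multiset.sum_nonneg hok.1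
  have hf := hok.2.1
  have hg := hok.2.2
  have h3 : max (ρ + (Y.sum + f + g)) (max (2 * (Y.sum + f + g) + ρ / 3)
      ((Y.sum + f + g) + 2 / 3 * (ρ + (Y.sum + f + g)))) ≤
      1 + (Y.sum + f + g) - (1 - ρ) / 3 := by
    refine max_le (by linarith) (max_le (by linarith) (by linarith))
  linarith

/-- **boxes with a long lump** -/
theorem covM_long (R : ExpRules (7 / 8 + d) r s) (C : ExpC r rc) (hd : 0 ≤ d) {e₀ t : ℝ}
    (he : 2 / 3 * d ≤ e₀) (ht : 0 ≤ t) (ht3 : t ≤ 1 / 3) {N : ℕ} {u : Fin N → ℝ}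
    (hu : ∀ j, 0 ≤ u j) (hs : ∑ j, u j ≤ 4 / 3) {j₁ : Fin N} (h1 : 5 / 6 ≤ u j₁) :
    CovM rc e₀ t u (fun _ => 1) := by
  classical
  have he0 : 0 ≤ e₀ := le_trans (by positivity) he
  set O : ℝ := (∑ j, u j) - u j₁ with hO
  have hO2 : O ≤ 1 / 2 := by linarith
  set m : ℝ := 4 / 3 - ∑ j, u j with hm
  set a : ℝ := 1 / 3 - t with ha
  have hm0 : 0 ≤ m := by linarith
  have ha0 : 0 ≤ a := by linarith
  obtain ⟨l, hl0, hl1, hl2, hl3⟩ : ∃ l : ℝ, 0 ≤ l ∧ l ≤ 1 ∧ l * (m + a) ≤ 1 / 3 ∧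
      (1 - l) * (m + a) ≤ 1 / 2 - O := by
    rcases le_total (m + a) (1 / 3) with h | h
    · exact ⟨1, zero_le_one, le_rfl, by linarith, by linarith⟩
    · have hpos : 0 < m + a := by linarith
      refine ⟨1 / 3 / (m + a), by positivity, by rw [div_le_one hpos]; exact h,
        by rw [div_mul_cancel₀ _ hpos.ne'], ?_⟩
      have : (1 - 1 / 3 / (m + a)) * (m + a) = m + a - 1 / 3 := by
        rw [sub_mul, one_mul, div_mul_cancel₀ _ hpos.ne']
      rw [this]
      linarith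
  let n1 : Fin N → ℕ := fun j => if j = j₁ then 1 else 0
  let n2 : Fin N → ℕ := fun j => if j = j₁ then 0 else 1
  have c1 : Col rc e₀ u n1 (l * m) (l * a) := by
    refine col_of_compl C hu (mul_nonneg hl0 hm0) (mul_nonneg hl0 ha0) fun f g hf hg k1 _ => ?_
    have e : (∑ j, Multiset.replicate (n1 j) (u j)) = {u j₁} := by
      rw [Finset.sum_eq_single j₁]
      · simp [n1]
      · intro j _ hj
        simp [n1, hj]
      · intro h
        exact absurd (Finset.mem_univ _) h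
    rw [e]
    exact (long_le R hd h1 hf hg (by nlinarith)).mono he
  have hn2 : ∑ j, (n2 j : ℝ) * u j = O := by
    have h2 : ∀ j, (n2 j : ℝ) * u j = u j - (if j = j₁ then u j else 0) := by
      intro j
      by_cases hj : j = j₁ <;> simp [n2, hj]
    rw [Finset.sum_congr rfl fun j _ => h2 j, Finset.sum_sub_distrib,
      Finset.sum_ite_eq' Finset.univ j₁]
    simp [hO]
  have c2 : Col rc e₀ u n2 ((1 - l) * m) ((1 - l) * a) := by
    have hl' : 0 ≤ 1 - l := by linarith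
    refine col_of_compl C hu (mul_nonneg hl' hm0) (mul_nonneg hl' ha0) fun f g hf hg k1 _ => ?_
    refine (short_le R (ok_rep n2 hu hf hg) ?_).mono he0
    rw [sum_lum, hn2]
    nlinarith
  have key := (convex_hull (Col rc e₀ u)) (subset_hull c1) (subset_hull c2)
    (show (0 : ℝ) ≤ 1 / 2 by norm_num) (show (0 : ℝ) ≤ 1 / 2 by norm_num) (by norm_num)
  unfold CovM
  convert key using 1
  refine Prod.ext ?_ (Prod.ext ?_ ?_)
  · funext j
    by_cases hj : j = j₁ <;> simp [pt, n1, n2, hj]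
  · simp only [one_mul, pt, Prod.smul_mk, Prod.mk_add_mk, smul_eq_mul, hm]
    ring
  · simp only [pt, Prod.smul_mk, Prod.mk_add_mk, smul_eq_mul, ha]
    ring

/-! ### 3. The top theorem -/

variable {C0 C2 : ℝ → Multiset ℝ → ℕ → ℝ → Prop} {y₀ e₀ t : ℝ}

/-- **coverage of all boxes with `∑ u ≤ 4/3`** -/
theorem coreL (R : ExpRules (7 / 8 + d) r s) (C : ExpC r rc) (hd : 0 ≤ d)
    (he : 2 / 3 * d ≤ e₀) (ht : 0 ≤ t) (ht3 : t ≤ 1 / 3) (I : Inp C0 C2 y₀ rc e₀ t)
    (H : ∀ (k : ℕ) (w : Fin k → ℝ), Antitone w → (∀ j, y₀ < w j) → (∀ j, w j < 5 / 6) →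
      ∑ j, w j ≤ 4 / 3 → Cov499.NoNE w → Good C0 C2 y₀ w) : CoreL e₀ t rc := by
  intro N u hu hNE hs
  by_cases hlong : ∃ j₁, 5 / 6 ≤ u j₁
  · obtain ⟨j₁, hj⟩ := hlong
    exact covM_long R C hd he ht ht3 (fun j => (hu j).le) hs hj
  · push Not at hlong
    refine covM_of_good I ht ht3 hu hs fun k ι hι ha hb => ?_
    refine H k (u ∘ ι) ha hb (fun j => hlong _) ?_ (noNE_of hNE hι ha)
    classical
    have h1 : ∑ i, (u ∘ ι) i = ∑ j ∈ Finset.univ.image ι, u j :=
      (Finset.sum_image fun a _ b _ h => hι h).symm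
    rw [h1]
    exact (Finset.sum_le_sum_of_subset_of_nonneg (Finset.subset_univ _)
      fun j _ _ => (hu j).le).trans hs

/-- the number of big lumps -/
theorem card_le {k : ℕ} {w : Fin k → ℝ} {K : ℕ} (hw : ∀ j, y₀ < w j) (hs : ∑ j, w j ≤ 4 / 3)
    (hK : 4 / 3 ≤ ((K : ℝ) + 1) * y₀) : k ≤ K := by
  by_contra h
  push Not at h
  have hk : (K : ℝ) + 1 ≤ k := by exact_mod_cast h
  have hk0 : 0 < k := by omega
  have h1 : (k : ℝ) * y₀ < ∑ j, w j := by
    have h2 : ∑ _j : Fin k, y₀ < ∑ j, w j :=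
      Finset.sum_lt_sum_of_nonempty ⟨⟨0, hk0⟩, Finset.mem_univ _⟩ fun j _ => hw j
    simpa using h2
  have hy0 : 0 < y₀ := by
    by_contra hneg
    push Not at hneg
    have : ((K : ℝ) + 1) * y₀ ≤ 0 := mul_nonpos_of_nonneg_of_nonpos (by positivity) hneg
    linarith
  nlinarith

end Crest.Agent.R017.CovTop741
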