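import Mathlib
import Crest.Agent.R017.CovDefs_499

/-!
# Coverage : generic columns, trimming of chunks, the facts `Tm` about columns (helper90)
-/

set_option autoImplicit false

namespace Crest.Agent.R017.SX90

open Finset Cov499

/-- column predicates: chunk size, big lumps, number of chunks, total length -/
abbrev CP := ℝ → Multiset ℝ → ℕ → ℝ → Prop

/-- coverage with trimming allowed (`Cov499.Cov0` with an arbitrary column predicate) -/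
def GCov0 (C : CP) {k : ℕ} (u : Fin k → ℝ) (v : ℝ) : Prop :=
  ∃ (M : ℕ) (p : Fin M → ℝ) (n : Fin M → Fin k → ℕ) (t : Fin M → ℕ) (N : Fin M → ℝ),
    (∀ q, 0 ≤ p q) ∧ (∀ j, ∑ q, p q * (n q j : ℝ) = 1 / 2) ∧
    (∀ q, C v (lum u (n q)) (t q) (N q)) ∧ ∑ q, p q ≤ 1 ∧ 0 ≤ R₁ u v p t ∧
    min (R₁ u v p t) (1 - ∑ q, p q) / 6 ≤ ∑ q, p q * (N q - 5 / 6)

/-- coverage without trimming (`Cov499.Cov2` with an arbitrary column predicate) -/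
def GCov2 (C : CP) {k : ℕ} (u : Fin k → ℝ) (v : ℝ) : Prop :=
  ∃ (M : ℕ) (p : Fin M → ℝ) (n : Fin M → Fin k → ℕ) (t : Fin M → ℕ) (N : Fin M → ℝ),
    (∀ q, 0 ≤ p q) ∧ (∀ j, ∑ q, p q * (n q j : ℝ) = 1 / 2) ∧
    (∀ q, C v (lum u (n q)) (t q) (N q)) ∧ R₁ u v p t ≤ 1 - ∑ q, p q ∧ 0 ≤ R₁ u v p t ∧
    R₁ u v p t / 6 ≤ ∑ q, p q * (N q - 5 / 6)

theorem GCov2.to0 {C : CP} {k : ℕ} {u : Fin k → ℝ} {v : ℝ} (h : GCov2 C u v) : GCov0 C u v := by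
  obtain ⟨M, p, n, t, N, h1, h2, h3, h4, h5, h6⟩ := h
  refine ⟨M, p, n, t, N, h1, h2, h3, by linarith, h5, le_trans ?_ h6⟩
  have := min_le_left (R₁ u v p t) (1 - ∑ q, p q)
  linarith

theorem GCov2.mono {C C' : CP} (hC : ∀ {v Y t N}, C v Y t N → C' v Y t N) {k : ℕ}
    {u : Fin k → ℝ} {v : ℝ} (h : GCov2 C u v) : GCov2 C' u v := by
  obtain ⟨M, p, n, t, N, h1, h2, h3, h4⟩ := h
  exact ⟨M, p, n, t, N, h1, h2, fun q => hC (h3 q), h4⟩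

/-- two families (full and reduced) may be mixed -/
theorem mix (C : CP) {k M₁ M₀ : ℕ} (u : Fin k → ℝ) (v : ℝ) (p : Fin M₁ → ℝ)
    (n : Fin M₁ → Fin k → ℕ) (t : Fin M₁ → ℕ) (N : Fin M₁ → ℝ) (p0 : Fin M₀ → ℝ)
    (n0 : Fin M₀ → Fin k → ℕ) (t0 : Fin M₀ → ℕ) (N0 : Fin M₀ → ℝ)
    (hp : ∀ q, 0 ≤ p q) (hp0 : ∀ q, 0 ≤ p0 q)
    (hn : ∀ j, ∑ q, p q * (n q j : ℝ) = 1 / 2) (hn0 : ∀ j, ∑ q, p0 q * (n0 q j : ℝ) = 1 / 2)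
    (hC : ∀ q, C v (lum u (n q)) (t q) (N q)) (hC0 : ∀ q, C v (lum u (n0 q)) (t0 q) (N0 q))
    (hs : ∑ q, p q ≤ 1) (hs0 : ∑ q, p0 q ≤ 1) (hα : 0 ≤ R₁ u v p t)
    (hβ : 0 ≤ ∑ q, p q * (N q - 5 / 6)) (hβ0 : 0 ≤ ∑ q, p0 q * (N0 q - 5 / 6))
    (hγ : R₁ u v p0 t0 / 6 ≤ ∑ q, p0 q * (N0 q - 5 / 6))
    (hδ : R₁ u v p0 t0 ≤ 1 - ∑ q, p0 q) : GCov2 C u v := by
  obtain ⟨θ, h0, h1, hR, hR', hR''⟩ : ∃ θ : ℝ, 0 ≤ θ ∧ θ ≤ 1 ∧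
      0 ≤ θ * R₁ u v p t + (1 - θ) * R₁ u v p0 t0 ∧
      θ * R₁ u v p t + (1 - θ) * R₁ u v p0 t0 ≤ 1 - (θ * ∑ q, p q + (1 - θ) * ∑ q, p0 q) ∧
      (θ * R₁ u v p t + (1 - θ) * R₁ u v p0 t0) / 6
        ≤ θ * ∑ q, p q * (N q - 5 / 6) + (1 - θ) * ∑ q, p0 q * (N0 q - 5 / 6) := by
    by_cases hc : 0 ≤ R₁ u v p0 t0
    · exact ⟨0, le_rfl, zero_le_one, by linarith, by linarith, by linarith⟩
    · push Not at hc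
      have hpos : 0 < R₁ u v p t - R₁ u v p0 t0 := by linarith
      have g0 : 0 ≤ -R₁ u v p0 t0 / (R₁ u v p t - R₁ u v p0 t0) := by
        apply div_nonneg <;> linarith
      have g1 : -R₁ u v p0 t0 / (R₁ u v p t - R₁ u v p0 t0) ≤ 1 := by
        rw [div_le_one hpos]; linarith
      refine ⟨-R₁ u v p0 t0 / (R₁ u v p t - R₁ u v p0 t0), g0, g1, ?_⟩
      have e : -R₁ u v p0 t0 / (R₁ u v p t - R₁ u v p0 t0) * R₁ u v p t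
          + (1 - -R₁ u v p0 t0 / (R₁ u v p t - R₁ u v p0 t0)) * R₁ u v p0 t0 = 0 := by
        field_simp; ring
      rw [e]
      generalize -R₁ u v p0 t0 / (R₁ u v p t - R₁ u v p0 t0) = θ at g0 g1
      refine ⟨le_rfl, by nlinarith, ?_⟩
      have a1 := mul_nonneg g0 hβ
      have a2 := mul_nonneg (sub_nonneg.2 g1) hβ0
      linarith
  have hsum : ∀ (f : Fin M₁ → ℝ) (g : Fin M₀ → ℝ),
      ∑ q, θ * p q * f q + ∑ q, (1 - θ) * p0 q * g q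
      = θ * ∑ q, p q * f q + (1 - θ) * ∑ q, p0 q * g q := by
    intro f g
    rw [Finset.mul_sum, Finset.mul_sum]
    congr 1 <;> exact Finset.sum_congr rfl fun q _ => by ring
  have hsum1 : ∑ q, θ * p q + ∑ q, (1 - θ) * p0 q = θ * ∑ q, p q + (1 - θ) * ∑ q, p0 q := by
    rw [Finset.mul_sum, Finset.mul_sum]
  have hRe : R₁ u v (Fin.append (fun q => θ * p q) (fun q => (1 - θ) * p0 q)) (Fin.append t t0)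
      = θ * R₁ u v p t + (1 - θ) * R₁ u v p0 t0 := by
    unfold R₁
    rw [Fin.sum_univ_add]
    simp only [Fin.append_left, Fin.append_right]
    rw [hsum (fun q => 1 - 3 / 2 * ((t q : ℝ) * v)) (fun q => 1 - 3 / 2 * ((t0 q : ℝ) * v))]
    ring
  refine ⟨M₁ + M₀, Fin.append (fun q => θ * p q) (fun q => (1 - θ) * p0 q), Fin.append n n0,
    Fin.append t t0, Fin.append N N0, ?_, ?_, ?_, ?_, ?_, ?_⟩
  · refine fun q => Fin.addCases (fun i => ?_) (fun i => ?_) q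
    · rw [Fin.append_left]; exact mul_nonneg h0 (hp i)
    · rw [Fin.append_right]; exact mul_nonneg (by linarith) (hp0 i)
  · intro j
    rw [Fin.sum_univ_add]
    simp only [Fin.append_left, Fin.append_right]
    rw [hsum (fun q => (n q j : ℝ)) (fun q => (n0 q j : ℝ)), hn j, hn0 j]
    ring
  · refine fun q => Fin.addCases (fun i => ?_) (fun i => ?_) q
    · simp only [Fin.append_left]; exact hC i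
    · simp only [Fin.append_right]; exact hC0 i
  · rw [hRe, Fin.sum_univ_add]
    simp only [Fin.append_left, Fin.append_right]
    rw [hsum1]; exact hR'
  · rw [hRe]; exact hR
  · rw [hRe, Fin.sum_univ_add]
    simp only [Fin.append_left, Fin.append_right]
    rw [hsum (fun q => N q - 5 / 6) (fun q => N0 q - 5 / 6)]
    exact hR''

/-- raw output of the certificates (`cap * Σ p ≤ 1`; `t0` : chunks after trimming) -/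
def Raw (C : CP) (cap : ℕ) {k : ℕ} (u : Fin k → ℝ) (v : ℝ) : Prop :=
  ∃ (M : ℕ) (p : Fin M → ℝ) (n : Fin M → Fin k → ℕ) (t t0 : Fin M → ℕ) (N : Fin M → ℝ),
    (∀ q, 0 ≤ p q) ∧ (∀ j, ∑ q, p q * (n q j : ℝ) = 1 / 2) ∧
    (∀ q, C v (lum u (n q)) (t q) (N q)) ∧ (∀ q, C v (lum u (n q)) (t0 q) (N q)) ∧
    cap * ∑ q, p q ≤ 1 ∧ 0 ≤ R₁ u v p t ∧ 0 ≤ ∑ q, p q * (N q - 5 / 6) ∧
    R₁ u v p t0 / 6 ≤ ∑ q, p q * (N q - 5 / 6) ∧ R₁ u v p t0 ≤ 1 - ∑ q, p q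

/-- a fractional part of the chunks may be trimmed -/
theorem Raw.trim {C : CP} {k : ℕ} {u : Fin k → ℝ} {v : ℝ} (h : Raw C 1 u v) : GCov2 C u v := by
  obtain ⟨M, p, n, t, t0, N, hp, hn, hC, hC0, hs, hα, hβ, hγ, hδ⟩ := h
  have hs' : ∑ q, p q ≤ 1 := by simpa using hs
  exact mix C u v p n t N p n t0 N hp hp hn hn hC hC0 hs' hs' hα hβ hβ hγ hδ

/-- the facts about columns which the certificates use -/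
structure Tm (C0 C2 : CP) : Prop where
  zero : ∀ {v : ℝ} {Y : Multiset ℝ} {t : ℕ} {N : ℝ}, 0 ≤ v → C0 v Y t N → C0 v Y 0 N
  of0 : ∀ {v : ℝ} {Y : Multiset ℝ} {t : ℕ} {N : ℝ}, C0 v Y t N → C2 v Y t N
  t6 : ∀ (v y₁ y₂ : ℝ) (Z X : Multiset ℝ) (tz tx : ℕ) (N : ℝ), 1 / 4 ≤ y₁ + y₂ →
    N + (X.sum + tx * v) ≤ 1 → N + 3 / 4 * (Z.sum + tz * v) ≤ 1 →
    N ≤ 7 / 9 + 2 / 9 * (y₁ + y₂) → y₁ + y₂ + 5 / 2 * (Z.sum + tz * v) ≤ 1 →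
    y₁ + y₂ + Z.sum + X.sum + (tz + tx) * v ≤ N → C0 v ({y₁, y₂} + Z + X) (tz + tx) N
  t6s : ∀ (v y₁ : ℝ) (Z X : Multiset ℝ) (tz tx : ℕ) (N : ℝ), 4 * N ≤ 8 / 3 + 8 / 3 * y₁ →
    N + (X.sum + tx * v) ≤ 1 → N + 3 / 4 * (Z.sum + tz * v) ≤ 1 →
    N ≤ 7 / 9 + 2 / 9 * y₁ → y₁ + 5 / 2 * (Z.sum + tz * v) ≤ 1 →
    y₁ + Z.sum + X.sum + (tz + tx) * v ≤ N → C0 v ({y₁} + Z + X) (tz + tx) N
  t1 : ∀ (v y₁ y₂ : ℝ) (V : Multiset ℝ) (t : ℕ) (N : ℝ), 1 / 5 ≤ y₁ + y₂ →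
    V.sum + t * v ≤ 1 / 6 - z₀ → N ≤ 5 / 6 → y₁ + y₂ + V.sum + t * v ≤ N →
    C0 v ({y₁, y₂} + V) t N
  t3a : ∀ (v y₁ y₂ y₃ N : ℝ), y₁ + y₂ + 2 * y₃ ≤ 1 → 49 * N ≤ 36 + 9 * (y₁ + y₂) →
    6 * N ≤ 5 → 80 * N + 30 * y₃ ≤ 73 → 36 * N + 6 * y₃ ≤ 31 → 17 * N ≤ 13 + 2 * (y₁ + y₂) →
    15 * N + 3 * y₃ ≤ 13 → 40 * N ≤ 33 → y₁ + y₂ + y₃ ≤ N → C0 v {y₁, y₂, y₃} 0 N
  t3l : ∀ (v y₁ y₂ y₃ N : ℝ), 29 * (y₁ + y₂ + y₃) + 21 / 2 * y₃ ≤ 22 →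
    22 * (y₁ + y₂ + y₃) ≤ 15 → 2 * N ≤ 1 + (y₁ + y₂ + y₃) →
    3 * N + 3 / 4 * y₃ ≤ 2 + (y₁ + y₂ + y₃) → y₁ + y₂ + y₃ ≤ N → C0 v {y₁, y₂, y₃} 0 N
  c5v : ∀ (v : ℝ) (V W : Multiset ℝ) (t : ℕ) (N : ℝ), Multiset.card W = 4 →
    (∃ x y, x ∈ W ∧ y ∈ W.erase x ∧ 1 / 4 ≤ x + y) → W.sum ≤ 16 / 27 →
    V.sum + t * v ≤ 1 / 6 → N ≤ 5 / 6 → V.sum + t * v + W.sum ≤ N → C0 v (V + W) t N
  c5b : ∀ (v : ℝ) (V W : Multiset ℝ) (t : ℕ) (N : ℝ), Multiset.card W = 4 →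
    (∀ y ∈ W, 25 * y ≤ 4) → (∃ x y, x ∈ W ∧ y ∈ W.erase x ∧ 1 / 4 ≤ x + y) → W.sum ≤ 3 / 5 →
    V.sum + t * v ≤ 3 / 20 → N ≤ 5 / 6 → V.sum + t * v + W.sum ≤ N → C0 v (V + W) t N
  t7c : ∀ (v y₁ y₂ y₃ N : ℝ), y₃ ≤ y₂ → y₂ ≤ y₁ → 30 * N + 48 * y₃ + 2 * y₁ + y₂ ≤ 36 →
    48 ≤ 228 * y₃ + 10 * y₁ + 5 * y₂ → 308 ≤ 236 * y₁ + 218 * y₂ + 1029 * y₃ →
    38 * y₁ + 19 * y₂ + 52 * y₃ ≤ 24 → 17 * y₁ + 16 * y₂ + 63 * y₃ ≤ 21 →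
    y₁ + y₂ + y₃ ≤ N → C0 v {y₁, y₂, y₃} 0 N
  t6v : ∀ (v y₁ : ℝ) (Z X : Multiset ℝ) (tz tx : ℕ) (N : ℝ),
    4 * N ≤ 8 / 3 + 8 / 3 * (y₁ + v) + (Z.sum + tz * v) →
    N + (X.sum + tx * v) ≤ 1 → N + 3 / 4 * (Z.sum + tz * v) ≤ 1 →
    N ≤ 7 / 9 + 2 / 9 * (y₁ + v) → y₁ + v + 5 / 2 * (Z.sum + tz * v) ≤ 1 →
    y₁ + Z.sum + X.sum + (tz + tx + 1) * v ≤ N → C2 v ({y₁} + Z + X) (tz + tx + 1) N
  t1v : ∀ (v y₁ : ℝ) (V : Multiset ℝ) (t : ℕ) (N : ℝ), 1 / 5 ≤ y₁ + v →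
    V.sum + t * v ≤ 1 / 6 - z₀ → N ≤ 5 / 6 → y₁ + V.sum + (t + 1) * v ≤ N →
    C2 v ({y₁} + V) (t + 1) N
  c5vw : ∀ (v : ℝ) (V W Y : Multiset ℝ) (t : ℕ) (N : ℝ), Y + Multiset.replicate t v = V + W →
    Multiset.card W = 4 → (∃ x y, x ∈ W ∧ y ∈ W.erase x ∧ 1 / 4 ≤ x + y) → W.sum ≤ 16 / 27 →
    V.sum ≤ 1 / 6 → N ≤ 5 / 6 → V.sum + W.sum ≤ N → C2 v Y t N
  c5bw : ∀ (v : ℝ) (V W Y : Multiset ℝ) (t : ℕ) (N : ℝ), Y + Multiset.replicate t v = V + W →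
    Multiset.card W = 4 → (∀ y ∈ W, 25 * y ≤ 4) →
    (∃ x y, x ∈ W ∧ y ∈ W.erase x ∧ 1 / 4 ≤ x + y) → W.sum ≤ 3 / 5 →
    V.sum ≤ 3 / 20 → N ≤ 5 / 6 → V.sum + W.sum ≤ N → C2 v Y t N

/-! ## multisets of lumps -/

theorem lum_add {k : ℕ} (u : Fin k → ℝ) (n m : Fin k → ℕ) :
    lum u (fun j => n j + m j) = lum u n + lum u m := by
  unfold lum
  rw [← Finset.sum_add_distrib]
  exact Finset.sum_congr rfl fun j _ => Multiset.replicate_add _ _ _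

theorem lum_sum {k : ℕ} (u : Fin k → ℝ) (n : Fin k → ℕ) :
    (lum u n).sum = ∑ j, (n j : ℝ) * u j := by
  unfold lum
  rw [Multiset.sum_sum]
  exact Finset.sum_congr rfl fun j _ => by simp

theorem lum_card {k : ℕ} (u : Fin k → ℝ) (n : Fin k → ℕ) :
    Multiset.card (lum u n) = ∑ j, n j := by
  unfold lum
  rw [Multiset.card_sum]
  exact Finset.sum_congr rfl fun j _ => by simp

end Crest.Agent.R017.SX90
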