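import Crest.Agent.R017.CovChk_74
import Crest.Agent.R017.SimplexB_90

/-!
# Row 17, hcore : certificate checker, leaves with trimming (helper74, after 45 and 90)

Modes 5 (`Cov0`) and 6 (`Cov2`): the chunks of the `Col0` columns may be trimmed.
-/

set_option autoImplicit false

namespace Crest.Agent.R017.CovChk74

open Crest.Agent.R017.Cov499 Crest.Agent.R017.CovFar74

/-- chunks left after trimming -/
def t2 (c : ColD) : ℕ := match c.kind with
  | 6 => c.tt
  | 7 => c.tt
  | 8 => c.tt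
  | _ => 0

theorem t2_zero {c : ColD} (h : c.kind ≤ 5 ∨ 9 ≤ c.kind) : t2 c = 0 := by
  unfold t2
  split <;> first | rfl | omega

theorem t2_tt {c : ColD} (h : ¬ (c.kind ≤ 5 ∨ 9 ≤ c.kind)) : t2 c = c.tt := by
  have hk' : c.kind = 6 ∨ c.kind = 7 ∨ c.kind = 8 := by omega
  rcases hk' with h | h | h <;> simp [t2, h]

/-- `∑ t''_q p_q` -/
def ST2 : List ColD → Form
  | [] => []
  | c :: L => add (smul (Int.ofNat (t2 c)) c.p) (ST2 L)

theorem ST2_eq (x : ℕ → ℝ) (cols : List ColD) :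
    (cols.map fun c => ev c.p x * t2 c).sum = ev (ST2 cols) x := by
  induction cols with
  | nil => simp [ST2]
  | cons c L ih =>
    simp only [List.map_cons, List.sum_cons, ST2, ih, ev_add, ev_smul, Int.ofNat_eq_natCast]
    push_cast
    ring

section sem

variable {k : ℕ} {x : ℕ → ℝ} {ctx : List Form} {P D : ℕ} {cols : List ColD}

/-- value of `4 P R₁(t'')` -/
noncomputable def vR2 (k P : ℕ) (cols : List ColD) (x : ℕ → ℝ) : ℝ :=
  3 * P * ev (sU k) x - 4 * ev (SP cols) x + 6 * (ev (ST2 cols) x * x (k + 1))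

/-- value of `4 P R₁(0)` -/
noncomputable def vR0 (k P : ℕ) (cols : List ColD) (x : ℕ → ℝ) : ℝ :=
  3 * P * ev (sU k) x - 4 * ev (SP cols) x

theorem vR2_eq (hP : 0 < P) :
    4 * (P : ℝ) * R₁ (fun j : Fin k => x (j + 1)) (x (k + 1))
      (fun q : Fin cols.length => ev cols[q].p x / P) (fun q => t2 cols[q])
      = vR2 k P cols x := by
  have hP' : (0 : ℝ) < P := by exact_mod_cast hP
  have e1 : ∑ q : Fin cols.length, ev cols[q].p x / P
      * (1 - 3 / 2 * ((t2 cols[q] : ℝ) * x (k + 1)))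
      = (ev (SP cols) x - 3 / 2 * x (k + 1) * ev (ST2 cols) x) / P := by
    rw [← SP_eq, ← ST2_eq, ← sum_list, ← sum_list, Finset.mul_sum, ← Finset.sum_sub_distrib,
      Finset.sum_div]
    exact Finset.sum_congr rfl fun q _ => by ring
  unfold R₁ vR2
  rw [e1, ev_sU]
  field_simp
  ring

theorem vR0_eq (hP : 0 < P) :
    4 * (P : ℝ) * R₁ (fun j : Fin k => x (j + 1)) (x (k + 1))
      (fun q : Fin cols.length => ev cols[q].p x / P) (fun _ => 0)
      = vR0 k P cols x := by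
  have hP' : (0 : ℝ) < P := by exact_mod_cast hP
  have e1 : ∑ q : Fin cols.length, ev cols[q].p x / P
      * (1 - 3 / 2 * (((0 : ℕ) : ℝ) * x (k + 1)))
      = ev (SP cols) x / P := by
    rw [← SP_eq, ← sum_list, Finset.sum_div]
    exact Finset.sum_congr rfl fun q _ => by simp
  unfold R₁ vR0
  rw [e1, ev_sU]
  field_simp

/-- **trimming, chunks** -/
theorem semT0 (hP : 0 < P) (hD : 0 < D) (hx : x 0 = 1) (hc : ∀ ψ ∈ ctx, 0 ≤ ev ψ x)
    (hs : ∑ j : Fin k, x (j + 1) ≤ 4 / 3) (hv : 0 ≤ x (k + 1))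
    (hM : chkMult P cols k = true) (hC : chkCols k false D ctx cols = true)
    (hS : ev (SP cols) x ≤ P) (hR : 0 ≤ vR k P cols x) (hG : 0 ≤ vG D cols x)
    (hN : D * vR0 k P cols x ≤ 4 * vG D cols x) :
    Cov0 (fun j : Fin k => x (j + 1)) (x (k + 1)) := by
  have hx0 : 0 ≤ x 0 := by rw [hx]; norm_num
  have hP' : (0 : ℝ) < P := by exact_mod_cast hP
  have hD' : (0 : ℝ) < D := by exact_mod_cast hD
  have hDz : (0 : ℤ) < (D : ℤ) := by exact_mod_cast hD
  have hmem : ∀ q : Fin cols.length, cols[q] ∈ cols := fun q => List.getElem_mem _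
  have R1 := vR_eq (k := k) (x := x) (cols := cols) hP
  have R0 := vR0_eq (k := k) (x := x) (cols := cols) hP
  have G1 := vG_eq (x := x) (cols := cols) hP hD
  set R := R₁ (fun j : Fin k => x (j + 1)) (x (k + 1))
      (fun q : Fin cols.length => ev cols[q].p x / P) (fun q => cols[q].tt) with hRdef
  set R' := R₁ (fun j : Fin k => x (j + 1)) (x (k + 1))
      (fun q : Fin cols.length => ev cols[q].p x / P) (fun _ => 0) with hR'def
  set G := ∑ q : Fin cols.length, ev cols[q].p x / P * (NN D cols[q] x - 5 / 6) with hGdef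
  have hfar : ∀ q : Fin cols.length, ∀ φ ∈ cols[q].p :: forms k D cols[q], 0 ≤ ev φ x :=
    fun q => fars_sound (chkCols_mem hC _ (hmem q)).2.2 hx0 hc
  have hcol : ∀ q : Fin cols.length, Col0 (x (k + 1))
      (lum (fun j : Fin k => x (j + 1)) (fun j : Fin k => cols[q].lumps.count (j : ℕ)))
      cols[q].tt (NN D cols[q] x) := fun q => by
    have h1 := chkCols_mem hC _ (hmem q)
    rw [← ml_eq_lum (allLt_iff h1.2.1)]
    exact col0_sound hDz hx h1.1 (kind_le h1.1)
      fun φ hφ => hfar q φ (List.mem_cons_of_mem _ hφ)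
  have hraw : SX90.Raw Col0 1 (fun j : Fin k => x (j + 1)) (x (k + 1)) := by
    refine ⟨cols.length, fun q => ev cols[q].p x / P,
      fun q j => cols[q].lumps.count (j : ℕ), fun q => cols[q].tt, fun _ => 0,
      fun q => NN D cols[q] x, fun q => ?_, fun j => mult_eq hP hx hM j, hcol,
      fun q => (hcol q).zero hv, ?_, ?_, ?_, ?_, ?_⟩
    · have := hfar q _ List.mem_cons_self
      positivity
    · rw [sP_eq, Nat.cast_one, one_mul, div_le_one hP']; exact hS
    · rw [← R1] at hR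
      exact (mul_nonneg_iff_of_pos_left (by positivity)).1 hR
    · rw [← G1] at hG
      exact (mul_nonneg_iff_of_pos_left (by positivity)).1 hG
    · rw [← R0, ← G1] at hN
      have h2 : 0 ≤ (24 * (D : ℝ) * P) * (G - R' / 6) := by
        have : (24 * (D : ℝ) * P) * (G - R' / 6)
          = 4 * (6 * D * P * G) - D * (4 * P * R') := by ring
        rw [this]; linarith
      have := (mul_nonneg_iff_of_pos_left (by positivity)).1 h2
      linarith
    · have h3 : 4 * (P : ℝ) * R' = 3 * P * ∑ j : Fin k, x (j + 1) - 4 * ev (SP cols) x := by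
        rw [R0, vR0, ev_sU]
      rw [sP_eq]
      have h5 : 0 ≤ (4 * (P : ℝ)) * (1 - ev (SP cols) x / P - R') := by
        have : (4 * (P : ℝ)) * (1 - ev (SP cols) x / P - R')
          = 4 * P - 4 * ev (SP cols) x - 4 * P * R' := by
          field_simp
        rw [this, h3]
        have := mul_nonneg hP'.le (sub_nonneg.2 hs)
        linarith
      have := (mul_nonneg_iff_of_pos_left (by positivity)).1 h5
      linarith
  exact hraw.trim.to0

/-- **trimming, small lumps** -/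
theorem semT2 (hP : 0 < P) (hD : 0 < D) (hx : x 0 = 1) (hc : ∀ ψ ∈ ctx, 0 ≤ ev ψ x)
    (hv : 0 ≤ x (k + 1))
    (hM : chkMult P cols k = true) (hC : chkCols k true D ctx cols = true)
    (hS : ev (SP cols) x ≤ P) (hR : 0 ≤ vR k P cols x) (hG : 0 ≤ vG D cols x)
    (hN : D * vR2 k P cols x ≤ 4 * vG D cols x)
    (hT : vR2 k P cols x ≤ 4 * P - 4 * ev (SP cols) x) :
    Cov2 (fun j : Fin k => x (j + 1)) (x (k + 1)) := by
  have hx0 : 0 ≤ x 0 := by rw [hx]; norm_num
  have hP' : (0 : ℝ) < P := by exact_mod_cast hP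
  have hD' : (0 : ℝ) < D := by exact_mod_cast hD
  have hDz : (0 : ℤ) < (D : ℤ) := by exact_mod_cast hD
  have hmem : ∀ q : Fin cols.length, cols[q] ∈ cols := fun q => List.getElem_mem _
  have R1 := vR_eq (k := k) (x := x) (cols := cols) hP
  have R2 := vR2_eq (k := k) (x := x) (cols := cols) hP
  have G1 := vG_eq (x := x) (cols := cols) hP hD
  set R := R₁ (fun j : Fin k => x (j + 1)) (x (k + 1))
      (fun q : Fin cols.length => ev cols[q].p x / P) (fun q => cols[q].tt) with hRdef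
  set R' := R₁ (fun j : Fin k => x (j + 1)) (x (k + 1))
      (fun q : Fin cols.length => ev cols[q].p x / P) (fun q => t2 cols[q]) with hR'def
  set G := ∑ q : Fin cols.length, ev cols[q].p x / P * (NN D cols[q] x - 5 / 6) with hGdef
  have hfar : ∀ q : Fin cols.length, ∀ φ ∈ cols[q].p :: forms k D cols[q], 0 ≤ ev φ x :=
    fun q => fars_sound (chkCols_mem hC _ (hmem q)).2.2 hx0 hc
  have hcol : ∀ q : Fin cols.length, Col2 (x (k + 1))
      (lum (fun j : Fin k => x (j + 1)) (fun j : Fin k => cols[q].lumps.count (j : ℕ)))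
      cols[q].tt (NN D cols[q] x) := fun q => by
    have h1 := chkCols_mem hC _ (hmem q)
    rw [← ml_eq_lum (allLt_iff h1.2.1)]
    exact col2_sound hDz hx h1.1 fun φ hφ => hfar q φ (List.mem_cons_of_mem _ hφ)
  have hcol' : ∀ q : Fin cols.length, Col2 (x (k + 1))
      (lum (fun j : Fin k => x (j + 1)) (fun j : Fin k => cols[q].lumps.count (j : ℕ)))
      (t2 cols[q]) (NN D cols[q] x) := fun q => by
    have h1 := chkCols_mem hC _ (hmem q)
    by_cases hk : cols[q].kind ≤ 5 ∨ 9 ≤ cols[q].kind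
    · have e : t2 cols[q] = 0 := t2_zero hk
      rw [e, ← ml_eq_lum (allLt_iff h1.2.1)]
      exact .of0 _ _ _ ((col0_sound hDz hx h1.1 hk
        fun φ hφ => hfar q φ (List.mem_cons_of_mem _ hφ)).zero hv)
    · have e : t2 cols[q] = cols[q].tt := t2_tt hk
      rw [e]
      exact hcol q
  have hraw : SX90.Raw Col2 1 (fun j : Fin k => x (j + 1)) (x (k + 1)) := by
    refine ⟨cols.length, fun q => ev cols[q].p x / P,
      fun q j => cols[q].lumps.count (j : ℕ), fun q => cols[q].tt, fun q => t2 cols[q],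
      fun q => NN D cols[q] x, fun q => ?_, fun j => mult_eq hP hx hM j, hcol, hcol', ?_, ?_, ?_,
      ?_, ?_⟩
    · have := hfar q _ List.mem_cons_self
      positivity
    · rw [sP_eq, Nat.cast_one, one_mul, div_le_one hP']; exact hS
    · rw [← R1] at hR
      exact (mul_nonneg_iff_of_pos_left (by positivity)).1 hR
    · rw [← G1] at hG
      exact (mul_nonneg_iff_of_pos_left (by positivity)).1 hG
    · rw [← R2, ← G1] at hN
      have h2 : 0 ≤ (24 * (D : ℝ) * P) * (G - R' / 6) := by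
        have : (24 * (D : ℝ) * P) * (G - R' / 6)
          = 4 * (6 * D * P * G) - D * (4 * P * R') := by ring
        rw [this]; linarith
      have := (mul_nonneg_iff_of_pos_left (by positivity)).1 h2
      linarith
    · rw [← R2] at hT
      rw [sP_eq]
      have h5 : 0 ≤ (4 * (P : ℝ)) * (1 - ev (SP cols) x / P - R') := by
        have : (4 * (P : ℝ)) * (1 - ev (SP cols) x / P - R')
          = 4 * P - 4 * ev (SP cols) x - 4 * P * R' := by
          field_simp
        rw [this]; linarith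
      have := (mul_nonneg_iff_of_pos_left (by positivity)).1 h5
      linarith
  exact hraw.trim

end sem

/-- leaf with trimming, constant weights. `mode` 5 (`Cov0`): `wR`: `0 ≤ 4 P R₁` (all chunks);
`wF`: `0 ≤ SN`; `wM`: `0 ≤ 4 SN - D (3 P ∑u - 4 ∑p)`. `mode` 6 (`Cov2`): the same with the chunks
of the kinds 6, 7, 8 in `wM`, and `wT`: `R₁(t'') ≤ 1 - ∑ p`. -/
structure LeafT where
  P : ℕ
  D : ℕ
  mode : ℕ
  cols : List ColD
  wR : Nat × List Nat
  wF : Nat × List Nat
  wM : Nat × List Nat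
  wT : Nat × List Nat

/-- leaf with trimming, affine weights; `wS` (linear): `0 ≤ P - ∑ p` -/
structure LeafTQ where
  P : ℕ
  D : ℕ
  mode : ℕ
  cols : List ColD
  wR : Nat × List (Nat × Nat × Nat)
  wF : Nat × List (Nat × Nat × Nat)
  wM : Nat × List (Nat × Nat × Nat)
  wT : Nat × List (Nat × Nat × Nat)
  wS : Nat × List Nat

/-- `4 P R₁` with `s = ∑ p`, `t = ∑ t p` constant -/
def rfT (k P : ℕ) (s t : Int) : Form :=
  add [-4 * s] (add (smul (3 * Int.ofNat P) (sU k)) (smul (6 * t) (e (k + 1))))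

/-- `4 P R₁`, affine weights -/
def rqT (k P : ℕ) (s t : Form) : QForm :=
  addQ (mul (add (smul (-4) s) (smul (3 * Int.ofNat P) (sU k))) [1])
    (mul (smul 6 t) (e (k + 1)))

def leafTOK (k : ℕ) (m2 : Bool) (ctx : List Form) (L : LeafT) : Bool :=
  Nat.blt 0 L.P && (Nat.blt 0 L.D && (chkMult L.P L.cols k && (allC L.cols &&
  (isC (ST L.cols) && (isC (SP L.cols) && (isC (ST2 L.cols) &&
  (decide (hd (SP L.cols) ≤ Int.ofNat L.P) &&
  (far ctx (rfT k L.P (hd (SP L.cols)) (hd (ST L.cols))) L.wR &&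
  (far ctx (SN L.D L.cols) L.wF &&
  match L.mode with
  | 5 => chkCols k false L.D ctx L.cols &&
      far ctx (add (smul 4 (SN L.D L.cols)) (smul (-Int.ofNat L.D)
        (rfT k L.P (hd (SP L.cols)) 0))) L.wM
  | 6 => m2 && (chkCols k true L.D ctx L.cols &&
      (far ctx (add (smul 4 (SN L.D L.cols)) (smul (-Int.ofNat L.D)
        (rfT k L.P (hd (SP L.cols)) (hd (ST2 L.cols))))) L.wM &&
       far ctx (add [4 * Int.ofNat L.P - 4 * hd (SP L.cols)]
        (smul (-1) (rfT k L.P (hd (SP L.cols)) (hd (ST2 L.cols))))) L.wT))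
  | _ => false)))))))))

def leafTQOK (k : ℕ) (m2 : Bool) (ctx : List Form) (L : LeafTQ) : Bool :=
  Nat.blt 0 L.P && (Nat.blt 0 L.D && (chkMult L.P L.cols k &&
  (far ctx (add [Int.ofNat L.P] (smul (-1) (SP L.cols))) L.wS &&
  (farQ ctx (rqT k L.P (SP L.cols) (ST L.cols)) L.wR &&
  (farQ ctx (SQ L.D L.cols) L.wF &&
  match L.mode with
  | 5 => chkCols k false L.D ctx L.cols &&
      farQ ctx (addQ (smulQ 4 (SQ L.D L.cols)) (smulQ (-Int.ofNat L.D)
        (rqT k L.P (SP L.cols) []))) L.wM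
  | 6 => m2 && (chkCols k true L.D ctx L.cols &&
      (farQ ctx (addQ (smulQ 4 (SQ L.D L.cols)) (smulQ (-Int.ofNat L.D)
        (rqT k L.P (SP L.cols) (ST2 L.cols)))) L.wM &&
       farQ ctx (addQ (mul (smul 4 (add [Int.ofNat L.P] (smul (-1) (SP L.cols)))) [1])
        (smulQ (-1) (rqT k L.P (SP L.cols) (ST2 L.cols)))) L.wT))
  | _ => false)))))

section leaf

variable {k : ℕ} {x : ℕ → ℝ} {m2 : Bool} {ctx : List Form}

theorem ev_rfT (hx : x 0 = 1) (P : ℕ) (s t : Int) :
    ev (rfT k P s t) x = 3 * P * ev (sU k) x - 4 * s + 6 * (t * x (k + 1)) := by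
  unfold rfT
  rw [ev_add, ev_add, ev_smul, ev_smul, ev_e, ev_const, hx]
  simp only [Int.ofNat_eq_natCast]
  push_cast
  ring

theorem evQ_rqT (hx : x 0 = 1) (P : ℕ) (s t : Form) :
    evQ (rqT k P s t) x = 3 * P * ev (sU k) x - 4 * ev s x + 6 * (ev t x * x (k + 1)) := by
  unfold rqT
  rw [evQ_add, evQ_mul, evQ_mul, ev_add, ev_smul, ev_smul, ev_smul, ev_e, ev_const, hx]
  simp only [Int.ofNat_eq_natCast]
  push_cast
  ring

theorem leafT_sound {L : LeafT} (h : leafTOK k m2 ctx L = true) (hx : x 0 = 1)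
    (hs : ∑ j : Fin k, x (j + 1) ≤ 4 / 3) (hv : 0 ≤ x (k + 1))
    (hc : ∀ ψ ∈ ctx, 0 ≤ ev ψ x) :
    Cov0 (fun j : Fin k => x (j + 1)) (x (k + 1)) ∨
      (m2 = true ∧ Cov2 (fun j : Fin k => x (j + 1)) (x (k + 1))) := by
  have hx0 : 0 ≤ x 0 := by rw [hx]; norm_num
  simp only [leafTOK, Bool.and_eq_true, Nat.blt_eq, decide_eq_true_eq] at h
  obtain ⟨hP, hD, hM, hA, hT, hS, hT2, hSP, hR, hF, h⟩ := h
  have S1 : ev (SP L.cols) x = hd (SP L.cols) := ev_isC hS hx
  have T1 : ev (ST L.cols) x = hd (ST L.cols) := ev_isC hT hx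
  have T2 : ev (ST2 L.cols) x = hd (ST2 L.cols) := ev_isC hT2 hx
  have G1 : vG L.D L.cols x = ev (SN L.D L.cols) x := SN_eq hD hx hA
  have fR := far_sound hR hx0 hc
  have fF := far_sound hF hx0 hc
  rw [ev_rfT hx] at fR
  rw [← G1] at fF
  have hSP' : ev (SP L.cols) x ≤ L.P := by
    rw [S1]
    rw [Int.ofNat_eq_natCast] at hSP
    exact_mod_cast hSP
  have hR' : 0 ≤ vR k L.P L.cols x := by
    unfold vR; rw [S1, T1]; exact fR
  split at h
  · simp only [Bool.and_eq_true] at h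
    have f := far_sound h.2 hx0 hc
    rw [ev_add, ev_smul, ev_smul, ev_rfT hx, ← G1] at f
    simp only [Int.ofNat_eq_natCast] at f
    push_cast at f
    refine Or.inl (semT0 hP hD hx hc hs hv hM h.1 hSP' hR' fF ?_)
    unfold vR0
    rw [S1]
    linarith
  · simp only [Bool.and_eq_true] at h
    obtain ⟨hm, hC, h1, h2⟩ := h
    have f1 := far_sound h1 hx0 hc
    have f2 := far_sound h2 hx0 hc
    rw [ev_add, ev_smul, ev_smul, ev_rfT hx, ← G1] at f1
    rw [ev_add, ev_smul, ev_const, hx, ev_rfT hx] at f2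
    simp only [Int.ofNat_eq_natCast] at f1 f2
    push_cast at f1 f2
    refine Or.inr ⟨hm, semT2 hP hD hx hc hv hM hC hSP' hR' fF ?_ ?_⟩
    · unfold vR2
      rw [S1, T2]
      linarith
    · unfold vR2
      rw [S1, T2]
      linarith
  · simp at h

theorem leafTQ_sound {L : LeafTQ} (h : leafTQOK k m2 ctx L = true) (hx : x 0 = 1)
    (hs : ∑ j : Fin k, x (j + 1) ≤ 4 / 3) (hv : 0 ≤ x (k + 1))
    (hc : ∀ ψ ∈ ctx, 0 ≤ ev ψ x) :
    Cov0 (fun j : Fin k => x (j + 1)) (x (k + 1)) ∨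
      (m2 = true ∧ Cov2 (fun j : Fin k => x (j + 1)) (x (k + 1))) := by
  have hx0 : 0 ≤ x 0 := by rw [hx]; norm_num
  simp only [leafTQOK, Bool.and_eq_true, Nat.blt_eq] at h
  obtain ⟨hP, hD, hM, hS, hR, hF, h⟩ := h
  have G1 : vG L.D L.cols x = evQ (SQ L.D L.cols) x := SQ_eq hD hx L.cols
  have fS := far_sound hS hx0 hc
  have fR := farQ_sound hR hx0 hc
  have fF := farQ_sound hF hx0 hc
  rw [ev_add, ev_smul, ev_const, hx] at fS
  rw [evQ_rqT hx] at fR
  rw [← G1] at fF
  simp only [Int.ofNat_eq_natCast] at fS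
  push_cast at fS
  have hSP' : ev (SP L.cols) x ≤ L.P := by linarith
  split at h
  · simp only [Bool.and_eq_true] at h
    have f := farQ_sound h.2 hx0 hc
    rw [evQ_add, evQ_smul, evQ_smul, evQ_rqT hx, ← G1, ev_nil] at f
    simp only [Int.ofNat_eq_natCast] at f
    push_cast at f
    refine Or.inl (semT0 hP hD hx hc hs hv hM h.1 hSP' fR fF ?_)
    unfold vR0
    linarith
  · simp only [Bool.and_eq_true] at h
    obtain ⟨hm, hC, h1, h2⟩ := h
    have f1 := farQ_sound h1 hx0 hc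
    have f2 := farQ_sound h2 hx0 hc
    rw [evQ_add, evQ_smul, evQ_smul, evQ_rqT hx, ← G1] at f1
    rw [evQ_add, evQ_mul, evQ_smul, ev_smul, ev_add, ev_smul, ev_const, ev_const, hx,
      evQ_rqT hx] at f2
    simp only [Int.ofNat_eq_natCast] at f1 f2
    push_cast at f1 f2
    refine Or.inr ⟨hm, semT2 hP hD hx hc hv hM hC hSP' fR fF ?_ ?_⟩
    · unfold vR2
      linarith
    · unfold vR2
      linarith
  · simp at h

end leaf

/-- certificate trees with trimming leaves -/
inductive TreeT where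
  | split (f : Form) (l r : TreeT)
  | inf (c : List Nat)
  | leaf (L : Leaf)
  | leafQ (L : LeafQ)
  | leafT (L : LeafT)
  | leafTQ (L : LeafTQ)

def chkT (k : ℕ) (m2 : Bool) : List Form → TreeT → Bool
  | ctx, .split f l r => chkT k m2 (f :: ctx) l && chkT k m2 (smul (-1) f :: ctx) r
  | ctx, .inf c => farN ctx c
  | ctx, .leaf L => leafOK k m2 ctx L
  | ctx, .leafQ L => leafQOK k m2 ctx L
  | ctx, .leafT L => leafTOK k m2 ctx L
  | ctx, .leafTQ L => leafTQOK k m2 ctx L

/-- the statement certified by a tree -/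
def CertT (k : ℕ) (m2 : Bool) (ctx : List Form) : Prop :=
  ∀ x : ℕ → ℝ, x 0 = 1 → ∑ j : Fin k, x (j + 1) ≤ 4 / 3 → 0 ≤ x (k + 1) →
    (∀ ψ ∈ ctx, 0 ≤ ev ψ x) →
    Cov0 (fun j : Fin k => x (j + 1)) (x (k + 1)) ∨
      (m2 = true ∧ Cov2 (fun j : Fin k => x (j + 1)) (x (k + 1)))

theorem Cert.toT {k : ℕ} {m2 : Bool} {ctx : List Form} (h : Cert k m2 ctx) : CertT k m2 ctx :=
  fun x hx _ _ hc => h x hx hc

theorem CertT.split {k : ℕ} {m2 : Bool} {ctx : List Form} (f : Form)
    (h1 : CertT k m2 (f :: ctx)) (h2 : CertT k m2 (smul (-1) f :: ctx)) : CertT k m2 ctx := by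
  intro x hx hs hv hc
  rcases le_total 0 (ev f x) with h | h
  · refine h1 x hx hs hv fun ψ hψ => ?_
    rcases List.mem_cons.1 hψ with rfl | hψ
    · exact h
    · exact hc ψ hψ
  · refine h2 x hx hs hv fun ψ hψ => ?_
    rcases List.mem_cons.1 hψ with rfl | hψ
    · rw [ev_smul]; push_cast; linarith
    · exact hc ψ hψ

theorem CertT.of_chk {k : ℕ} {m2 : Bool} {ctx : List Form} (T : TreeT)
    (h : chkT k m2 ctx T = true) : CertT k m2 ctx := by
  induction T generalizing ctx with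
  | split f l r ihl ihr =>
    simp only [chkT, Bool.and_eq_true] at h
    exact CertT.split f (ihl h.1) (ihr h.2)
  | inf c =>
    intro x hx _ _ hc
    exact (farN_sound h (by rw [hx]; norm_num) hc).elim
  | leaf L =>
    intro x hx _ _ hc
    exact leaf_sound h hx hc
  | leafQ L =>
    intro x hx _ _ hc
    exact leafQ_sound h hx hc
  | leafT L =>
    intro x hx hs hv hc
    exact leafT_sound h hx hs hv hc
  | leafTQ L =>
    intro x hx hs hv hc
    exact leafTQ_sound h hx hs hv hc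

/-- a certificate, applied to `(u, v)` -/
theorem CertT.apply {k : ℕ} {m2 : Bool} {ctx : List Form} (h : CertT k m2 ctx) (u : Fin k → ℝ)
    (v : ℝ) (hs : ∑ j, u j ≤ 4 / 3) (hv : 0 ≤ v) (hc : ∀ ψ ∈ ctx, 0 ≤ ev ψ (pt u v)) :
    Cov0 u v ∨ (m2 = true ∧ Cov2 u v) := by
  have := h (pt u v) rfl (by rw [eU]; exact hs) (by rw [pt_v]; exact hv) hc
  rwa [pt_u, pt_v] at this

/-- the first region -/
theorem CertT.cov0 {k : ℕ} {ctx : List Form} (h : CertT k false ctx) (u : Fin k → ℝ)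
    (v : ℝ) (hs : ∑ j, u j ≤ 4 / 3) (hv : 0 ≤ v) (hc : ∀ ψ ∈ ctx, 0 ≤ ev ψ (pt u v)) :
    Cov0 u v := by
  rcases h.apply u v hs hv hc with h | ⟨h, _⟩
  · exact h
  · exact absurd h (by simp)

/-- the second region -/
theorem CertT.cov2 {k : ℕ} {ctx : List Form} (h : CertT k true ctx) (u : Fin k → ℝ)
    (v : ℝ) (hs : ∑ j, u j ≤ 4 / 3) (hv : 0 ≤ v) (hc : ∀ ψ ∈ ctx, 0 ≤ ev ψ (pt u v)) :
    Cov0 u v ∨ Cov2 u v := by
  rcases h.apply u v hs hv hc with h | ⟨_, h⟩
  · exact Or.inl h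
  · exact Or.inr h

end Crest.Agent.R017.CovChk74
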