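import Crest.Agent.R017.LBs_180

/-!
# Row 17 (helper180): Cauchy for the cross sum over the kept `k`, two scales

* `CrP_csQ` : `‖CrP w K α (Q : v)‖ ≤ √(SqQ w K Q α) √(GrP w K (Q : v))`
* `c2_of` : the second scale, `e^(h/3) ‖CrP w (K e^(-h)) α (Q : StE)‖` from two numbers
* `mn_of` : `e^(-h/3) ‖pC c3 X2‖ ≤ e^(-h/3) C (1 + log Y) (K/X) EHf`
* `crossQ_of` : **the cross error over `Q` at sequence level, two scales**
-/

set_option autoImplicit false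
set_option linter.unusedVariables false

noncomputable section

open Complex MeasureTheory
open scoped ComplexConjugate Classical

namespace Crest.Agent.R017.NEc180

open Crest.Agent.R012 Crest.Agent.R012.Eis Crest.Agent.R012.MC
open Crest.Agent.R012.LS2 (S mem_S)
open Crest.Agent.R012.Mob705 (kap0 pdiv)
open Crest.Agent.R012.Div277 (tau)
open Crest.Agent.R017.CM106 (CS FS TG)
open Crest.Agent.R017.E1551 (Adm SqP cP XJw)
open Crest.Agent.R017.C70 (JW JC OKJ okJ_JW XJ)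
open Crest.Agent.R017.E2440 (TE StE Jb Qs prs C4 Fh)
open Crest.Agent.R017.X6C180 (n13 n13_nonneg GF)
open Crest.Agent.R017.LB48 (CrP GrP GrP_nonneg)
open Crest.Agent.R017.LBx48 (EHs EHt EHf EHc_nonneg)
open Crest.Agent.R017.EHu320 (EHc)
open Crest.Agent.R017.I1146 (BB X2 X3 c3 c3_nonneg)
open Crest.Agent.R017.DgB829 (HS HS_nonneg HS_le)
open Crest.Agent.R017.WDec180 (WD sc sc_pos E2e cross_ex)
open Crest.Agent.R017.Ex385 (CrQ)
open Crest.Agent.R017.LBX180 (M2s main_le X2_le_s X3_le_s EHc_sc)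
open Crest.Agent.R017.LBu180 (SqQ)
open Crest.Agent.R017.LBW180 (CrP_amQ SqQ_nonneg)

/-- the Bessel form with a parameter -/
theorem besQ {w : ℝ → ℝ} {K : ℝ} (hw : Wgt w) (hw0 : ∀ x, 0 ≤ w x) (hK : 0 < K)
    (α v : Eis → ℂ) (Q : Eis → Prop) (s : ℝ) :
    2 * s * ‖CrP w K α (fun k => if Q k then v k else 0)‖ ≤ SqQ w K Q α +
      s ^ 2 * GrP w K (fun k => if Q k then v k else 0) := by
  have h1 := CrP_amQ hw hw0 hK α (fun k => ((s : ℝ) : ℂ) * v k) Q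
  have e1 : CrP w K α (fun k => if Q k then ((s : ℝ) : ℂ) * v k else 0) =
      ((s : ℝ) : ℂ) * CrP w K α (fun k => if Q k then v k else 0) := by
    unfold LB48.CrP
    rw [← tsum_mul_left]
    refine tsum_congr fun k => ?_
    beta_reduce
    by_cases h1 : IsPrim k
    · rw [if_pos h1, if_pos h1]
      by_cases h2 : Q k
      · rw [if_pos h2, if_pos h2, map_mul, Complex.conj_ofReal]; ring
      · rw [if_neg h2, if_neg h2]; simp
    · rw [if_neg h1, if_neg h1, mul_zero]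
  have e2 : GrP w K (fun k => if Q k then ((s : ℝ) : ℂ) * v k else 0) =
      s ^ 2 * GrP w K (fun k => if Q k then v k else 0) := by
    unfold LB48.GrP
    rw [← tsum_mul_left]
    refine tsum_congr fun k => ?_
    beta_reduce
    by_cases h1 : IsPrim k
    · rw [if_pos h1, if_pos h1]
      by_cases h2 : Q k
      · rw [if_pos h2, if_pos h2, norm_mul, Complex.norm_real, Real.norm_eq_abs, mul_pow, sq_abs]
        ring
      · rw [if_neg h2, if_neg h2]; simp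
    · rw [if_neg h1, if_neg h1, mul_zero]
  rw [e1, e2, norm_mul, Complex.norm_real, Real.norm_eq_abs] at h1
  have h2 := norm_nonneg (CrP w K α (fun k => if Q k then v k else 0))
  have h3 := mul_le_mul_of_nonneg_right (le_abs_self s) h2
  linarith

/-- **Cauchy over the kept `k`** -/
theorem CrP_csQ {w : ℝ → ℝ} {K : ℝ} (hw : Wgt w) (hw0 : ∀ x, 0 ≤ w x) (hK : 0 < K)
    (α v : Eis → ℂ) (Q : Eis → Prop) :
    ‖CrP w K α (fun k => if Q k then v k else 0)‖ ≤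
      Real.sqrt (SqQ w K Q α) * Real.sqrt (GrP w K (fun k => if Q k then v k else 0)) := by
  have hS := SqQ_nonneg hw0 K Q α
  have hG := GrP_nonneg (K := K) hw0 (fun k => if Q k then v k else 0)
  set z := ‖CrP w K α (fun k => if Q k then v k else 0)‖ with hz
  set g := GrP w K (fun k => if Q k then v k else 0) with hg
  set q := SqQ w K Q α with hq
  have h : ∀ s : ℝ, 0 ≤ g * (s * s) + (-(2 * z)) * s + q := by
    intro s
    have := besQ hw hw0 hK α v Q s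
    rw [← hz, ← hg, ← hq] at this
    nlinarith
  have h3 := discrim_le_zero h
  unfold discrim at h3
  have h4 : z ^ 2 ≤ q * g := by nlinarith
  rw [← Real.sqrt_mul hS]
  exact Real.le_sqrt_of_sq_le h4

/-- **the second scale** from a number `S'` for the square and `G'` for the Gram sum -/
theorem c2_of {w : ℝ → ℝ} {K : ℝ} (hw : Wgt w) (hw0 : ∀ x, 0 ≤ w x) (hK : 0 < K)
    (α v : Eis → ℂ) (Q : Eis → Prop) {h S' G' : ℝ} (hS : SqQ w (K * Real.exp (-h)) Q α ≤ S')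
    (hG : GrP w (K * Real.exp (-h)) (fun k => if Q k then v k else 0) ≤ G') :
    Real.exp (h / 3) * ‖CrP w (K * Real.exp (-h)) α (fun k => if Q k then v k else 0)‖ ≤
      Real.exp (h / 3) * (Real.sqrt S' * Real.sqrt G') := by
  have hK' : 0 < K * Real.exp (-h) := by positivity
  refine mul_le_mul_of_nonneg_left ((CrP_csQ hw hw0 hK' α v Q).trans ?_) (Real.exp_pos _).le
  exact mul_le_mul (Real.sqrt_le_sqrt hS) (Real.sqrt_le_sqrt hG) (Real.sqrt_nonneg _)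
    (Real.sqrt_nonneg _)

/-- **the main form with the factor `e^(-h/3)`** -/
theorem mn_of {w : ℝ → ℝ} (hw0 : ∀ x, 0 ≤ w x) {R : ℝ} (hR : 0 ≤ R) {A : ℕ} (hA : 2 ≤ A) :
    ∃ C : ℝ, 0 ≤ C ∧ ∀ (K X Y D Y₀ Z E0 h : ℝ), 0 < K → 0 < X → 1 ≤ Y →
      ∀ α : Eis → ℂ, Adm Y X R α → ∀ om : Eis × Eis → ℂ, (∀ x, ‖om x‖ ≤ 1) →
      Real.exp (-(h / 3)) * ‖((pC * (kap0 * mel w (2 / 3) * K ^ (2 / 3 : ℝ)) : ℝ) : ℂ) *
        X2 Y E0 (JW D Y₀ Z) om α‖ ≤
      C * (1 + Real.log Y) * ((K / X) * (Real.exp (-(h / 3)) * EHf A K X Y Z α)) := by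
  obtain ⟨C₃, hC₃, H₃⟩ := main_le hw0 hR hA
  have hpC := Cst401.pC_pos
  refine ⟨pC * C₃, by positivity, ?_⟩
  intro K X Y D Y₀ Z E0 h hK hX hY α hα om hom
  have hY0 : 0 ≤ Y := by linarith
  have a3 : c3 w K * ‖X2 Y E0 (JW D Y₀ Z) om α‖ ≤ C₃ * (1 + Real.log Y) * (K / X) *
      EHf A K X Y Z α := H₃ K X Y D Y₀ Z hK hX hY α hα ‖X2 Y E0 (JW D Y₀ Z) om α‖
    (X2_le_s hY0 E0 (JW D Y₀ Z) hom α)
  have hc3 : 0 ≤ kap0 * mel w (2 / 3) * K ^ (2 / 3 : ℝ) := c3_nonneg hw0 hK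
  have a4 : ‖((pC * (kap0 * mel w (2 / 3) * K ^ (2 / 3 : ℝ)) : ℝ) : ℂ) *
      X2 Y E0 (JW D Y₀ Z) om α‖ ≤ pC * (C₃ * (1 + Real.log Y) * (K / X) *
        EHf A K X Y Z α) := by
    rw [norm_mul, Complex.norm_real, Real.norm_of_nonneg (mul_nonneg hpC.le hc3), mul_assoc]
    exact mul_le_mul_of_nonneg_left a3 hpC.le
  refine (mul_le_mul_of_nonneg_left a4 (Real.exp_pos _).le).trans (le_of_eq ?_)
  ring

/-- **the cross error over `Q`, two scales**, all parts as numbers -/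
theorem crossQ_of {w : ℝ → ℝ} (hw : Wgt w) (hw0 : ∀ x, 0 ≤ w x) {N : ℕ} {M : ℝ}
    {F : ℕ → ℝ → ℂ} (hD : WD w N M F) {R : ℝ} (hR : 0 ≤ R) {A : ℕ} (hA : 2 ≤ A) :
    ∃ C : ℝ, 0 ≤ C ∧
      ∀ (K X Y D Y₀ Z E0 h : ℝ) (I : ℕ), 0 < K → 0 < X → 1 ≤ Y → 0 < Z →
      0 ≤ h → 0 ≤ D → 0 ≤ E0 → Z < 2 ^ I →
      ∀ α : Eis → ℂ, Adm Y X R α → ∀ om : Eis × Eis → ℂ, (∀ x, ‖om x‖ ≤ 1) →
      ∀ (Q : Eis → Prop) (n₂ et S' G' : ℝ),
      ∑ i ∈ Finset.range N, E2e (GF (Fh (F i) h)) (sc K M i) E0 (S D) Z I (JW D Y₀ Z) om α ≤ n₂ →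
      ∑ i ∈ Finset.range N, ‖CrQ (GF (Fh (F i) h)) (fun k => ¬ Q k) (sc K M i) α
        (StE E0 (JW D Y₀ Z) om α)‖ ≤ et →
      SqQ w (K * Real.exp (-h)) Q α ≤ S' →
      GrP w (K * Real.exp (-h)) (fun k => if Q k then StE E0 (JW D Y₀ Z) om α k else 0) ≤ G' →
      ‖CrP w K α (fun k => if Q k then StE E0 (JW D Y₀ Z) om α k else 0) -
        ((pC * (kap0 * mel w (2 / 3) * K ^ (2 / 3 : ℝ)) : ℝ) : ℂ) *
          X2 Y E0 (JW D Y₀ Z) om α‖ ≤
      n₂ + et + Real.exp (h / 3) * (Real.sqrt S' * Real.sqrt G') +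
        C * (1 + Real.log Y) * ((K / X) * (Real.exp (-(h / 3)) * EHf A K X Y Z α)) := by
  obtain ⟨C, hC, H⟩ := mn_of hw0 hR hA
  refine ⟨C, hC, ?_⟩
  intro K X Y D Y₀ Z E0 h I hK hX hY hZ hh hD0 hE0 hI α hα om hom Q n₂ et S' G' h2 ht hS hG
  have a0 := cross_ex hD hh Q hK hE0 (by linarith : (0:ℝ) ≤ Y) hD0 hZ hI hα.sup om (D := D)
    (Y₀ := Y₀)
  have a1 := c2_of hw hw0 hK α (StE E0 (JW D Y₀ Z) om α) Q hS hG
  have a2 := H K X Y D Y₀ Z E0 h hK hX hY α hα om hom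
  linarith

end Crest.Agent.R017.NEc180
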