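import Crest.Agent.R017.ETd_548
import Crest.Agent.R017.NEc_180

/-!
# Row 17, exceptional class, P1X (helper241): the second scale, sequence level

* `npk_cube`, `npm_cube`, `np2_cube` : `NP2 (m³ x) → NP2 x`
* **`cut_npr`** : a cut frequency with a principal character is bounded by `C E₁³`
* **`crc_le`** : the cross form over the kept `k`, by blocks of the cube-free part
-/

set_option autoImplicit false
set_option linter.unusedVariables false

noncomputable section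

open Complex Finset
open scoped ComplexConjugate Classical

namespace Crest.Agent.R017.CrG241

open Crest.Agent.R012 Crest.Agent.R012.Eis Crest.Agent.R012.Mob705 Crest.Agent.R012.MC
open Crest.Agent.R017.CM106 Crest.Agent.R017.LB48 Crest.Agent.R017.FE47 Crest.Agent.R017.End699
open Crest.Agent.R017.E5Q571 (Cut notcut_le CS_cube)
open Crest.Agent.R017.C70 (CbF)
open Crest.Agent.R017.B770
open Crest.Agent.R017.Sup271 (NPm)
open Crest.Agent.R017.E5B71 (cutE)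
open Crest.Agent.R017.ETq548 (absN_le)

/-! ### cubes and principal characters -/

lemma npk_cube {n : Eis} {φ : Eis → ℂ} {l : ℤ} {m x : Eis} (h : NPk n φ l (m ^ 3 * x)) :
    NPk n φ l x := by
  unfold NPk NP at h ⊢
  rcases h with h | ⟨a, h1, h2, h3⟩
  · exact Or.inl h
  · refine Or.inr ⟨a, h1, ?_, fun h4 => h3 ?_⟩
    · refine h2.of_isCoprime_of_dvd_right ?_
      exact mul_dvd_mul_left _ (mul_dvd_mul_left _ (dvd_mul_left _ _))
    · have hm : IsCoprime m a := by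
        refine (h2.of_isCoprime_of_dvd_right ?_).symm
        exact ((dvd_pow_self m three_ne_zero).mul_right x).mul_left 9 |>.mul_left n
      show φ a * conj (sy (m ^ 3 * x) a) = 1
      rw [Char766.sy_mul_left h1, Char766.sy_cube_left h1 hm, one_mul]
      exact h4

lemma npm_cube {n : Eis} {ψ : Eis → ℂ} {l : ℤ} {m x : Eis} (h : NPm n ψ l (m ^ 3 * x)) :
    NPm n ψ l x := by
  unfold NPm NP at h ⊢
  rcases h with h | ⟨a, h1, h2, h3⟩
  · exact Or.inl h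
  · refine Or.inr ⟨a, h1, ?_, fun h4 => h3 ?_⟩
    · refine h2.of_isCoprime_of_dvd_right ?_
      exact mul_dvd_mul_left _ (mul_dvd_mul_left _ (dvd_mul_left _ _))
    · have hm : IsCoprime m a := by
        refine (h2.of_isCoprime_of_dvd_right ?_).symm
        exact ((dvd_pow_self m three_ne_zero).mul_right x).mul_left 9 |>.mul_left n
      show ψ a * sy (m ^ 3 * x) a = 1
      rw [Char766.sy_mul_left h1, Char766.sy_cube_left h1 hm, one_mul]
      exact h4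

/-- the cube-free part keeps the two characters nonprincipal -/
lemma np2_cube {P : DPar} {s m k : Eis} (h : P.NP2 (s * (m ^ 3 * k))) : P.NP2 (s * k) := by
  have e : s * (m ^ 3 * k) = m ^ 3 * (s * k) := by ring
  rw [e] at h
  exact ⟨npk_cube h.1, npm_cube h.2⟩

/-- `s k = n₀ z³` and `k` cut : bounded -/
lemma cut_form {s n₀ z k : Eis} (hs : s ≠ 0) (hn : n₀ ≠ 0) (hz : z ≠ 0) (hk : IsPrim k)
    (h : s * k = n₀ * z ^ 3) {E1 : ℝ} (hE : 0 ≤ E1) (hc : cutE E1 k) :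
    (nm k : ℝ) ≤ nm n₀ * (nm s : ℝ) ^ 2 * E1 ^ 3 := by
  obtain ⟨c, s', g, hrel, h1, h2⟩ := UniqueFactorizationMonoid.exists_reduced_factors z hz s
  have hg : g ≠ 0 := by
    rintro rfl
    exact hs (by rw [← h2, zero_mul])
  have hs' : s' ≠ 0 := by
    rintro rfl
    exact hs (by rw [← h2, mul_zero])
  have e1 : s' * k = n₀ * g ^ 2 * c ^ 3 := by
    apply mul_left_cancel₀ hg
    calc g * (s' * k) = s * k := by rw [← h2]; ring
      _ = n₀ * z ^ 3 := h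
      _ = g * (n₀ * g ^ 2 * c ^ 3) := by rw [← h1]; ring
  have hdvd : c ^ 3 ∣ k := by
    have h3 : c ^ 3 ∣ s' * k := ⟨n₀ * g ^ 2, by rw [e1]; ring⟩
    exact (hrel.pow_left (m := 3)).dvd_of_dvd_mul_left h3
  have hl : ¬ lam ∣ c := fun hl => hk.not_lam_dvd ((hl.trans (dvd_pow_self c three_ne_zero)).trans
    hdvd)
  obtain ⟨u, hu⟩ := exists_unit_mul_isPrim hl
  have hdvd' : (↑u * c) ^ 3 ∣ k := by
    rw [mul_pow]
    have : IsUnit ((u : Eis) ^ 3) := u.isUnit.pow 3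
    exact (this.mul_left_dvd).2 hdvd
  have h4 := hc _ hu hdvd'
  have hun : nm (u : Eis) = 1 := by
    have h5 : nm ((u : Eis) * ((u⁻¹ : Eisˣ) : Eis)) = 1 := by
      rw [Units.mul_inv, nm_one]
    rw [nm_mul] at h5
    exact Nat.eq_one_of_mul_eq_one_right h5
  have hc1 : (nm c : ℝ) ≤ E1 := by
    rw [nm_mul, hun, one_mul] at h4
    exact h4
  have hgs : (nm g : ℝ) ≤ nm s := by
    exact_mod_cast Div277.nm_le_of_dvd hs ⟨s', h2.symm⟩
  have h6 : (nm s' : ℝ) * nm k = nm n₀ * (nm g : ℝ) ^ 2 * (nm c : ℝ) ^ 3 := by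
    have := congrArg nm e1
    rw [nm_mul, nm_mul, nm_mul, nm_pow, nm_pow] at this
    exact_mod_cast this
  have h7 : (1 : ℝ) ≤ nm s' := by exact_mod_cast nm_pos.2 hs'
  have h8 : (0 : ℝ) ≤ nm k := Nat.cast_nonneg _
  calc (nm k : ℝ) ≤ nm s' * nm k := le_mul_of_one_le_left h8 h7
    _ = nm n₀ * (nm g : ℝ) ^ 2 * (nm c : ℝ) ^ 3 := h6
    _ ≤ nm n₀ * (nm s : ℝ) ^ 2 * E1 ^ 3 := by gcongr

/-- **a cut frequency with a principal character is small** -/
theorem cut_npr {P : DPar} (hP : P.OK) {s : Eis} (hs : s ≠ 0) : ∃ C : ℝ, 1 ≤ C ∧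
    ∀ (E1 : ℝ) (k : Eis), 0 ≤ E1 → IsPrim k → cutE E1 k → ¬ P.NP2 (s * k) →
      (nm k : ℝ) ≤ C * E1 ^ 3 := by
  obtain ⟨n₁, hn₁, h1⟩ := BoxP271.principal_form hP.φ P.l₁
  obtain ⟨n₂, hn₂, h2⟩ := BoxP271.principal_form hP.ψ.conj P.l₂
  have a1 : (1 : ℝ) ≤ nm n₁ := by exact_mod_cast nm_pos.2 hn₁
  have a2 : (1 : ℝ) ≤ nm n₂ := by exact_mod_cast nm_pos.2 hn₂
  have a3 : (1 : ℝ) ≤ nm s := by exact_mod_cast nm_pos.2 hs
  have a4 : (1 : ℝ) ≤ (nm s : ℝ) ^ 2 := one_le_pow₀ a3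
  refine ⟨(nm n₁ + nm n₂) * (nm s : ℝ) ^ 2, one_le_mul_of_one_le_of_one_le (by linarith) a4, ?_⟩
  intro E1 k hE hk hc hn
  have hsk : s * k ≠ 0 := mul_ne_zero hs hk.ne_zero
  have hE3 : 0 ≤ E1 ^ 3 := by positivity
  have key : ∃ n₀, n₀ ≠ 0 ∧ (nm n₀ : ℝ) ≤ nm n₁ + nm n₂ ∧ ∃ z, z ≠ 0 ∧ s * k = n₀ * z ^ 3 := by
    by_cases h3 : NPk P.n P.φ P.l₁ (s * k)
    · have h4 : ¬ NPm P.n P.ψ P.l₂ (s * k) := fun h => hn ⟨h3, h⟩
      obtain ⟨z, hz, h5⟩ := h2 _ hsk (BoxP271.npk_of_npm h4)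
      exact ⟨n₂, hn₂, by linarith, z, hz, h5⟩
    · obtain ⟨z, hz, h5⟩ := h1 _ hsk h3
      exact ⟨n₁, hn₁, by linarith, z, hz, h5⟩
  obtain ⟨n₀, hn₀, hle, z, hz, h5⟩ := key
  refine (cut_form hs hn₀ hz hk h5 hE hc).trans ?_
  gcongr

/-! ### the form -/

/-- **the cross form over the kept `k`, blocks of the cube-free part** -/
theorem crc_le {w : ℝ → ℝ} {bw : ℝ} (hw0 : ∀ x, 0 ≤ w x) (hw1 : ∀ x, w x ≤ 1)
    (hwb : ∀ x, w x ≠ 0 → x ≤ bw) (hbw : 0 ≤ bw) {K : ℝ} (hK : 0 < K) {α : Eis → ℂ}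
    (hα : ∀ m, α m ≠ 0 → IsPrim m) (St : Eis → ℂ) (Q N : Eis → Prop)
    (hQN : ∀ k, IsPrim k → Q k → w (nm k / K) ≠ 0 → N k) {I : ℕ} (hI : bw * K < 2 ^ I)
    {G : ℕ → ℝ} (hG : ∀ i, 0 ≤ G i)
    (H : ∀ (i : ℕ) (m : Eis), i < I → IsPrim m → (nm m : ℝ) ^ 3 * 2 ^ i ≤ bw * K →
      (∑ k ∈ (primBall (2 ^ (i + 1))).filter (fun k => (CbF k ∧ 2 ^ i ≤ nm k) ∧ N (m ^ 3 * k)),
          ‖CS (fun n => α n * prin0 m n) k‖ ^ 2) *
        (∑ k ∈ (primBall (2 ^ (i + 1))).filter (fun k => CbF k ∧ 2 ^ i ≤ nm k),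
          ‖St (m ^ 3 * k)‖ ^ 2) ≤ (G i) ^ 2) :
    ‖CrP w K α (fun k => if Q k then St k else 0)‖ ≤
      ∑ i ∈ range I, 100 * (bw * K / 2 ^ i) ^ ((1 : ℝ) / 3) * G i := by
  have hbK : 0 ≤ bw * K := by positivity
  have h1 : CrP w K α (fun k => if Q k then St k else 0) = ∑ k ∈ primBall ⌊bw * K⌋₊,
      ((w (nm k / K) : ℝ) : ℂ) * (CS α k * conj (if Q k then St k else 0)) := by
    unfold LB48.CrP
    rw [tsum_eq_sum (s := primBall ⌊bw * K⌋₊)]
    · refine sum_congr rfl fun k hk => ?_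
      rw [if_pos (mem_primBall.1 hk).2]
    · intro k hk
      split_ifs with hp
      · by_cases h0 : w (nm k / K) = 0
        · rw [h0, Complex.ofReal_zero, zero_mul]
        · exfalso
          apply hk
          rw [mem_primBall]
          have := hwb _ h0
          rw [div_le_iff₀ hK] at this
          exact ⟨Nat.le_floor this, hp⟩
      · rfl
  rw [h1]
  refine (norm_sum_le _ _).trans ?_
  have h2 : ∀ k ∈ primBall ⌊bw * K⌋₊,
      ‖((w (nm k / K) : ℝ) : ℂ) * (CS α k * conj (if Q k then St k else 0))‖ ≤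
      if N k then ‖CS α k‖ * ‖St k‖ else 0 := by
    intro k hk
    have hp := (mem_primBall.1 hk).2
    have hn0 : 0 ≤ (if N k then ‖CS α k‖ * ‖St k‖ else 0) := by split_ifs <;> positivity
    by_cases h0 : w (nm k / K) = 0
    · rw [h0, Complex.ofReal_zero, zero_mul, norm_zero]
      exact hn0
    by_cases hq : Q k
    · rw [if_pos hq, if_pos (hQN k hp hq h0), norm_mul, norm_mul, RCLike.norm_conj,
        Complex.norm_real, Real.norm_of_nonneg (hw0 _)]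
      exact mul_le_of_le_one_left (by positivity) (hw1 _)
    · rw [if_neg hq, map_zero, mul_zero, mul_zero, norm_zero]
      exact hn0
  refine (sum_le_sum h2).trans ?_
  have h3 : (primBall ⌊bw * K⌋₊).filter (fun k => ¬ Cut 0 k) = primBall ⌊bw * K⌋₊ := by
    refine filter_true_of_mem fun k _ hc => ?_
    have := hc 1 isPrim_one (by rw [one_pow]; exact one_dvd _)
    rw [nm_one, Nat.cast_one] at this
    linarith
  have h4 := absN_le (α := α) hbK hα St N (E1 := 0) le_rfl hI hG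
    (fun i m hi hm _ h5 => H i m hi hm h5)
  rw [h3] at h4
  refine h4.trans (le_of_eq ?_)
  congr 1
  refine filter_true_of_mem fun i _ => ?_
  have h5 : (0 : ℝ) ^ 3 * 2 ^ i = 0 := by ring
  rw [h5]
  exact hbK

end Crest.Agent.R017.CrG241
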