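import Crest.Agent.R017.CrG_241

/-!
# Row 17, exceptional class, P1X (helper241): the second scale, instances

* `sq_prim`, `alX_prim` : the sequences are supported at primary elements
* `etC` : the shift `3/20 l + max 0 (2 LN - l - j log 2)`
* **`crX_of`**, **`crS_of`** : `CrGU` for the difference and for single lists
-/

set_option autoImplicit false
set_option linter.unusedSectionVars false
set_option linter.unusedVariables false

noncomputable section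

open Finset
open scoped ComplexConjugate Classical

namespace Crest.Agent.R017.CrG241

open Crest.Agent.R012 Crest.Agent.R012.Eis Crest.Agent.R012.MC
open Crest.Agent.R017.CM106 (CS FS)
open Crest.Agent.R017.HP842 (sqc alL)
open Crest.Agent.R017.B770
open Crest.Agent.R017.XG702 (Pcs)
open Crest.Agent.R017.Prov71
open Crest.Agent.R017.I1146 (LN)
open Crest.Agent.R017.XT71 (Sys Win mx)
open Crest.Agent.R017.E5B71 Crest.Agent.R017.E5P571 Crest.Agent.R017.E5L770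
open Crest.Agent.R017.ExBox960 Crest.Agent.R017.ExP960
open Crest.Agent.R017.P1l54 (ParOK)
open Crest.Agent.R017.P1X960
open Crest.Agent.R017.P10X764 (nw alX clN nW_hi)
open Crest.Agent.R017.ETd548

lemma sq_prim {P : DPar} {s m : Eis} {h : ℝ → ℝ} {ps : List Pq} {n : Eis}
    (hn : sqc m (alL h (ps.map (Pt P s))) n ≠ 0) : IsPrim n := by
  rw [I1146.alL_tw] at hn
  have h1 : I1146.tw3 s (alL h (ps.map (Pq.pc P))) n ≠ 0 := right_ne_zero_of_mul hn
  unfold I1146.tw3 at h1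
  refine I1146.alL_prim (P := P) (h := h) (ps := ps) fun h0 => h1 ?_
  rw [h0]
  simp

lemma alX_prim {Λ : Type*} {π : Λ → DPar} {h : ℝ → ℝ} {lam : Λ × Eis} {a : BcX} {qs : List Pq}
    {n : Eis} (hn : alX π h lam a qs n ≠ 0) : IsPrim n := by
  by_contra hp
  apply hn
  have e1 : sqc 1 (alL h ((List.ofFn a.2.1 ++ qs).map (Pt (π lam.1) lam.2))) n = 0 := by
    by_contra h1
    exact hp (sq_prim h1)
  have e2 : sqc 1 (alL h ((List.ofFn (rzD a.2.1 (dz a.1)) ++ qs).map (Pt (π lam.1) lam.2))) n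
      = 0 := by
    by_contra h1
    exact hp (sq_prim h1)
  show (oc a.2.1 (a.2.1 0).z (a.2.1 1).z) *
      sqc 1 (alL h ((List.ofFn a.2.1 ++ qs).map (Pt (π lam.1) lam.2))) n +
    (-oc a.2.1 ((a.2.1 0).z - dz a.1) ((a.2.1 1).z + dz a.1)) *
      sqc 1 (alL h ((List.ofFn (rzD a.2.1 (dz a.1)) ++ qs).map (Pt (π lam.1) lam.2))) n = 0
  rw [e1, e2, mul_zero, mul_zero, add_zero]

/-- the shift -/
def etC (a : BcX) (qs : List Pq) (j : ℕ) : ℝ :=
  3 / 20 * a.1.l + max 0 (2 * LN (clN a qs) - a.1.l - Real.log 2 * j)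

lemma etC_lo (a : BcX) (qs : List Pq) (j : ℕ) : 3 / 20 * a.1.l ≤ etC a qs j :=
  le_add_of_nonneg_right (le_max_left _ _)

lemma etC_hi (a : BcX) (qs : List Pq) (j : ℕ) :
    etC a qs j ≤ 3 / 20 * a.1.l + max 0 (2 * LN (clN a qs) - a.1.l) := by
  have h2 : 0 ≤ Real.log 2 * j := mul_nonneg (Real.log_nonneg (by norm_num)) (Nat.cast_nonneg _)
  unfold etC
  have : max 0 (2 * LN (clN a qs) - a.1.l - Real.log 2 * j) ≤
      max 0 (2 * LN (clN a qs) - a.1.l) := max_le_max le_rfl (by linarith)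
  linarith

section
variable {Λ : Type*} {π : Λ → DPar} {h : ℝ → ℝ} {e0 c : ℝ} {et : BcX → List Pq → ℕ → ℝ}
  {β : ℝ} {Par : Set (Fin 3 ⊕ Fin 5 → ℝ)} {L : (IX5 → ℝ) → ℝ → ℝ → ℝ → Prop}
  {L0 : (Fin 3 ⊕ Fin 5 → ℝ) → ℝ}

/-- **the second scale of a difference** -/
theorem crX_of (hP : ∀ lam, (π lam).OK) (hPar : ∀ p ∈ Par, ParOK p)
    (hPn : ∀ p ∈ Par, cN p + cx' p ≤ 21 / 25 * cκ p)
    (het1 : ∀ a qs j, 3 / 20 * a.1.l ≤ et a qs j)
    (het2 : ∀ a qs j, et a qs j ≤ 3 / 20 * a.1.l + max 0 (2 * LN (clN a qs) - a.1.l))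
    {CE : (I8X ⊕ Unit → ℝ) × (Kd → ℝ) → ℝ}
    (hcs : CsGU π (alX π h) (fun lam a qs => okCX (π lam.1) lam.2 a qs ∧ okD a) c β Par L CE)
    (hgk : GkGU (alX π h) (fun lam a qs => okCX (π lam.1) lam.2 a qs ∧ okD a) e0 c β Par L
      (fun q => RoomX L0 q - CE q)) :
    CrGU (alX π h) (fun lam a qs => okCX (π lam.1) lam.2 a qs ∧ okD a) e0 c et β Par L L0 :=
  crG_of hP hPar hPn (fun _ _ _ _ _ hn => alX_prim hn) (fun _ _ _ h => h.1) het1 het2 hcs hgk

/-- **the second scale of a single list** -/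
theorem crS_of (hP : ∀ lam, (π lam).OK) (hPar : ∀ p ∈ Par, ParOK p)
    (hPn : ∀ p ∈ Par, cN p + cx' p ≤ 21 / 25 * cκ p)
    (het1 : ∀ a qs j, 3 / 20 * a.1.l ≤ et a qs j)
    (het2 : ∀ a qs j, et a qs j ≤ 3 / 20 * a.1.l + max 0 (2 * LN (clN a qs) - a.1.l))
    {CE : (I8X ⊕ Unit → ℝ) × (Kd → ℝ) → ℝ}
    (hcs : CsGU π (fun lam a qs => sqc 1 (alL h ((List.ofFn a.2.1 ++ qs).map
      (Pt (π lam.1) lam.2)))) (fun lam a qs => okCX (π lam.1) lam.2 a qs) c β Par L CE)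
    (hgk : GkGU (fun lam a qs => sqc 1 (alL h ((List.ofFn a.2.1 ++ qs).map
      (Pt (π lam.1) lam.2)))) (fun lam a qs => okCX (π lam.1) lam.2 a qs) e0 c β Par L
      (fun q => RoomX L0 q - CE q)) :
    CrGU (fun lam a qs => sqc 1 (alL h ((List.ofFn a.2.1 ++ qs).map (Pt (π lam.1) lam.2))))
      (fun lam a qs => okCX (π lam.1) lam.2 a qs) e0 c et β Par L L0 :=
  crG_of hP hPar hPn (fun _ _ _ _ _ hn => sq_prim hn) (fun _ _ _ h => h) het1 het2 hcs hgk

end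

end Crest.Agent.R017.CrG241
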