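import Crest.Agent.R017.ETd_548

/-!
# Row 17, exceptional class (helper548): `CsGU`, `GkGU` with a free bound of the family

`DomKc k₁` : the families `0 ≤ k ≤ k₁ κ`;  `GkGUc k₁`, `CsGUc k₁`;  `17/20` gives `ETd_548`'s text.
-/

set_option autoImplicit false
set_option linter.unusedSectionVars false
set_option linter.unusedVariables false

noncomputable section

open Finset
open scoped ComplexConjugate Classical

namespace Crest.Agent.R017.ETk548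

open Crest.Agent.R012 Crest.Agent.R012.Eis
open Crest.Agent.R017.B770
open Crest.Agent.R017.XG702 (Pcs)
open Crest.Agent.R017.Prov71
open Crest.Agent.R017.XT71 (Sys Win mx)
open Crest.Agent.R017.E5B71 Crest.Agent.R017.E5P571 Crest.Agent.R017.E5L770
open Crest.Agent.R017.ExBox960 Crest.Agent.R017.ExP960
open Crest.Agent.R017.Sf770
open Crest.Agent.R017.P1e54 Crest.Agent.R017.P1f54 Crest.Agent.R017.P1k54
open Crest.Agent.R017.P1l54 (ParOK)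
open Crest.Agent.R017.P1X960
open Crest.Agent.R017.ETd548

section
variable {Λ : Type*} (k₁ : ℝ) (π : Λ → DPar) (al : Λ × Eis → BcX → List Pq → Eis → ℂ)
  (ok : Λ × Eis → BcX → List Pq → Prop) (e0 c β : ℝ) (Par : Set (Fin 3 ⊕ Fin 5 → ℝ))
  (L : (IX5 → ℝ) → ℝ → ℝ → ℝ → Prop)

/-- the configurations, families `0 ≤ k ≤ k₁ κ` -/
def DomKc : Set ((I8X ⊕ Unit → ℝ) × (Kd → ℝ)) :=
  {q | ((fun i => q.1 (.inl i)), q.2) ∈ Dom8X c β Par L ∧ 0 ≤ q.1 (.inr ()) ∧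
    q.1 (.inr ()) ≤ k₁ * cκ (prX (bp fun i => q.1 (.inl i)))}

/-- **Gram half**, families up to `k₁ κ` -/
def GkGUc (GE : (I8X ⊕ Unit → ℝ) × (Kd → ℝ) → ℝ) : Prop :=
  UB S8Xk Dq (GkG al ok e0 c) (DomKc k₁ c β Par L) ∅ GE

/-- **character half**, families up to `k₁ κ` -/
def CsGUc (CE : (I8X ⊕ Unit → ℝ) × (Kd → ℝ) → ℝ) : Prop :=
  UB S8Xk Dq (CsG π al ok) (DomKc k₁ c β Par L) ∅ CE

end

/-- `UB` on a smaller domain -/
lemma ub_dom {Λ A ι Pc' τ : Type*} [Fintype ι] [Fintype τ] [DecidableEq τ] {S : Sys A ι}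
    {D : Pcs Pc' τ} {Ψ : Λ → A → List Pc' → ℝ} {Dom Dom' : Set ((ι → ℝ) × (τ → ℝ))}
    {al : Set ((ι → ℝ) × ℝ)} {E : (ι → ℝ) × (τ → ℝ) → ℝ} (h : UB S D Ψ Dom al E)
    (hD : Dom' ⊆ Dom) : UB S D Ψ Dom' al E := by
  intro ε hε
  obtain ⟨δ, hδ, h⟩ := h ε hε
  refine ⟨δ, hδ, fun lam N B => ?_⟩
  obtain ⟨δ', hδ', X₀, hX₀, h⟩ := h lam N B
  exact ⟨δ', hδ', X₀, hX₀, fun X hX a ps h1 h2 q hq => h X hX a ps h1 h2 q (hD hq)⟩

section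
variable {Λ : Type*} {k₁ k₂ : ℝ} {π : Λ → DPar} {al : Λ × Eis → BcX → List Pq → Eis → ℂ}
  {ok : Λ × Eis → BcX → List Pq → Prop} {e0 c β : ℝ} {Par : Set (Fin 3 ⊕ Fin 5 → ℝ)}
  {L : (IX5 → ℝ) → ℝ → ℝ → ℝ → Prop}

lemma DomKc_mono (hPar : ∀ p ∈ Par, ParOK p) (h : k₁ ≤ k₂) :
    DomKc k₁ c β Par L ⊆ DomKc k₂ c β Par L := by
  rintro q ⟨h1, h2, h3⟩
  refine ⟨h1, h2, h3.trans (mul_le_mul_of_nonneg_right h ?_)⟩
  have := (hPar _ h1.1.par).κ0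
  linarith

lemma GkGUc.mono (hPar : ∀ p ∈ Par, ParOK p) (h : k₁ ≤ k₂)
    {GE : (I8X ⊕ Unit → ℝ) × (Kd → ℝ) → ℝ} (H : GkGUc k₂ al ok e0 c β Par L GE) :
    GkGUc k₁ al ok e0 c β Par L GE := ub_dom H (DomKc_mono hPar h)

lemma CsGUc.mono (hPar : ∀ p ∈ Par, ParOK p) (h : k₁ ≤ k₂)
    {CE : (I8X ⊕ Unit → ℝ) × (Kd → ℝ) → ℝ} (H : CsGUc k₂ π al ok c β Par L CE) :
    CsGUc k₁ π al ok c β Par L CE := ub_dom H (DomKc_mono hPar h)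

/-- **the text of `ETd_548`** -/
theorem GkGUc.toGkGU (hPar : ∀ p ∈ Par, ParOK p) (h : 17 / 20 ≤ k₁)
    {GE : (I8X ⊕ Unit → ℝ) × (Kd → ℝ) → ℝ} (H : GkGUc k₁ al ok e0 c β Par L GE) :
    GkGU al ok e0 c β Par L GE := H.mono hPar h

/-- **the text of `ETd_548`** -/
theorem CsGUc.toCsGU (hPar : ∀ p ∈ Par, ParOK p) (h : 17 / 20 ≤ k₁)
    {CE : (I8X ⊕ Unit → ℝ) × (Kd → ℝ) → ℝ} (H : CsGUc k₁ π al ok c β Par L CE) :
    CsGU π al ok c β Par L CE := H.mono hPar h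

end

end Crest.Agent.R017.ETk548
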