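import Crest.Agent.R017.CrG_241
import Crest.Agent.R017.ETk_548

/-!
# Row 17, exceptional class, P1X (helper241): the second scale from the block halves, `7/8`

* **`crG8_of`** : `CrGU` from 548's `CsGUc`, `GkGUc` (families `≤ 7/8 κ`), `1/8 l ≤ et`
-/

set_option autoImplicit false
set_option linter.unusedSectionVars false
set_option linter.unusedVariables false

noncomputable section

open Finset
open scoped ComplexConjugate Classical

namespace Crest.Agent.R017.CrG241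

open Crest.Agent.R012 Crest.Agent.R012.Eis Crest.Agent.R012.MC
open Crest.Agent.R017.CM106 (CS FS)
open Crest.Agent.R017.C70 (CbF JW)
open Crest.Agent.R017.B770
open Crest.Agent.R017.FE47 (SM)
open Crest.Agent.R017.XG702 (Pcs)
open Crest.Agent.R017.Prov71
open Crest.Agent.R017.LB48 (CrP)
open Crest.Agent.R017.I1146 (LN)
open Crest.Agent.R017.XT71 (Sys Win mx)
open Crest.Agent.R017.End699 (prin0 NP)
open Crest.Agent.R017.E5B71 Crest.Agent.R017.E5P571 Crest.Agent.R017.E5L770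
open Crest.Agent.R017.ExBox960 Crest.Agent.R017.ExP960
open Crest.Agent.R017.Sf770
open Crest.Agent.R017.P1e54 Crest.Agent.R017.P1f54 Crest.Agent.R017.P1k54
open Crest.Agent.R017.P1l54 (ParOK)
open Crest.Agent.R017.P1X960
open Crest.Agent.R017.P10X764 (nw alX clN nW_hi)
open Crest.Agent.R017.ETd548
open Crest.Agent.R017.ETk548

section
variable {Λ : Type*} {π : Λ → DPar} {al : Λ × Eis → BcX → List Pq → Eis → ℂ}
  {ok : Λ × Eis → BcX → List Pq → Prop} {e0 c : ℝ} {et : BcX → List Pq → ℕ → ℝ}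
  {β : ℝ} {Par : Set (Fin 3 ⊕ Fin 5 → ℝ)} {L : (IX5 → ℝ) → ℝ → ℝ → ℝ → Prop}
  {L0 : (Fin 3 ⊕ Fin 5 → ℝ) → ℝ}

set_option maxHeartbeats 4000000 in
/-- **the second scale** -/
theorem crG8_of (hP : ∀ lam, (π lam).OK) (hPar : ∀ p ∈ Par, ParOK p)
    (hPn : ∀ p ∈ Par, cN p + cx' p ≤ 21 / 25 * cκ p)
    (hal : ∀ lam a qs, ok lam a qs → ∀ n, al lam a qs n ≠ 0 → IsPrim n)
    (hok : ∀ lam a qs, ok lam a qs → okCX (π lam.1) lam.2 a qs)
    (het1 : ∀ a qs j, 1 / 8 * a.1.l ≤ et a qs j)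
    (het2 : ∀ a qs j, 0 ≤ a.1.l →
      et a qs j ≤ 3 / 20 * a.1.l + max 0 (2 * LN (clN a qs) - a.1.l))
    {CE : (I8X ⊕ Unit → ℝ) × (Kd → ℝ) → ℝ} (hcs : CsGUc (7 / 8) π al ok c β Par L CE)
    (hgk : GkGUc (7 / 8) al ok e0 c β Par L (fun q => RoomX L0 q - CE q)) :
    CrGU al ok e0 c et β Par L L0 := by
  intro Rw hRw ε hε
  obtain ⟨ε₁, hε₁, hεε⟩ : ∃ ε₁ : ℝ, 0 < ε₁ ∧ 32 * ε₁ = ε := ⟨ε / 32, by positivity, by ring⟩
  obtain ⟨δ₁, hδ₁, hcs⟩ := hcs ε₁ hε₁
  obtain ⟨δ₂, hδ₂, hgk⟩ := hgk ε₁ hε₁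
  obtain ⟨δ, hδ, hδ1, hδ2, hδε, hδ1'⟩ : ∃ δ : ℝ, 0 < δ ∧ 4 * δ ≤ δ₁ ∧ 4 * δ ≤ δ₂ ∧
      δ ≤ ε₁ ∧ δ ≤ 1 / 2000 := by
    refine ⟨min (min (δ₁ / 4) (δ₂ / 4)) (min ε₁ (1 / 2000)), ?_, ?_, ?_, ?_, ?_⟩
    · exact lt_min (lt_min (by positivity) (by positivity)) (lt_min hε₁ (by norm_num))
    · have := (min_le_left (min (δ₁ / 4) (δ₂ / 4)) (min ε₁ (1 / 2000))).trans (min_le_left _ _)
      linarith
    · have := (min_le_left (min (δ₁ / 4) (δ₂ / 4)) (min ε₁ (1 / 2000))).trans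
        (min_le_right _ _)
      linarith
    · exact (min_le_right _ _).trans (min_le_left _ _)
    · exact (min_le_right _ _).trans (min_le_right _ _)
  refine ⟨δ, hδ, fun lam N B => ?_⟩
  -- no twist
  by_cases hs0 : lam.2 = 0
  · refine ⟨1, one_pos, 2, by norm_num, ?_⟩
    intro X hX a qs _ _ q _ _ _ _ _
    have : ¬ ok lam a qs := fun h => (hok _ _ _ h).2.1.1 hs0
    unfold CrG
    rw [if_neg this]
    positivity
  obtain ⟨Cn, hCn1, hCn⟩ := cut_npr (hP lam.1) hs0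
  set B₂ : ℝ := max B 3 with hB₂
  have hBB : B ≤ B₂ := le_max_left _ _
  have hB3 : 3 ≤ B₂ := le_max_right _ _
  obtain ⟨ρ₁, hρ₁, X₁, hX₁, hcs⟩ := hcs lam N B₂
  obtain ⟨ρ₂, hρ₂, X₂, hX₂, hgk⟩ := hgk lam N B₂
  -- constants
  have hRl := hRw lam.1
  have hlog2 : 0 < Real.log 2 := Real.log_pos (by norm_num)
  set c₁ : ℝ := Real.log 2 + Rw lam.1 with hc₁
  have hc₁0 : 0 ≤ c₁ := by rw [hc₁]; linarith
  have hlCn : 0 ≤ Real.log Cn := Real.log_nonneg hCn1
  set CC : ℝ := 4 * (2 / ε₁) * (4 * (2 / ε₁) * (100 * Real.exp (c₁ + 1))) with hCC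
  have hCC0 : 0 ≤ CC := by positivity
  set Q₀ : ℝ := 2 + 8 * (c₁ + 1) / δ + 2 * (CC + 2) / ε₁ + 2000 * (c₁ + Real.log Cn) with hQ₀
  have hQ1 : 0 ≤ 8 * (c₁ + 1) / δ := by positivity
  have hQ2 : 0 ≤ 2 * (CC + 2) / ε₁ := by positivity
  have hQ3 : 0 ≤ 2000 * (c₁ + Real.log Cn) := by positivity
  refine ⟨min ρ₁ ρ₂, lt_min hρ₁ hρ₂, max (max X₁ X₂) (Real.exp Q₀), ?_, ?_⟩
  · exact lt_of_lt_of_le hX₁ ((le_max_left _ _).trans (le_max_left _ _))
  intro X hX a qs hlen hgl q hq hw hm hg hl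
  have hXa : max X₁ X₂ ≤ X := (le_max_left _ _).trans hX
  have hX1' : X₁ ≤ X := (le_max_left _ _).trans hXa
  have hX2' : X₂ ≤ X := (le_max_right _ _).trans hXa
  have hXQ : Real.exp Q₀ ≤ X := (le_max_right _ _).trans hX
  have hX1 : 1 < X := by linarith
  have hX0 : 0 < X := by linarith
  set Lg := Real.log X with hLg
  have hQL : Q₀ ≤ Lg := by
    have := Real.log_le_log (Real.exp_pos Q₀) hXQ
    rwa [Real.log_exp] at this
  have hL2 : 2 ≤ Lg := by linarith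
  have hL0' : 0 < Lg := by linarith
  have hLδ : c₁ + 1 ≤ δ / 8 * Lg := by
    have h1 : 8 * (c₁ + 1) / δ ≤ Lg := by linarith
    rw [div_le_iff₀ hδ] at h1
    linarith
  have hLC : CC + 2 ≤ ε₁ / 2 * Lg := by
    have h1 : 2 * (CC + 2) / ε₁ ≤ Lg := by linarith
    rw [div_le_iff₀ hε₁] at h1
    linarith
  have hLn : c₁ + Real.log Cn ≤ 1 / 2000 * Lg := by linarith
  have hXe : ∀ e : ℝ, X ^ e = Real.exp (e * Lg) := fun e => by
    rw [Real.rpow_def_of_pos hX0, ← hLg, mul_comm]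
  by_cases hoka : ok lam a qs
  swap
  · unfold CrG
    rw [if_neg hoka]
    positivity
  obtain ⟨hbok, hsm, hlmp, hamq, hb0⟩ := hok lam a qs hoka
  have hlog2' : Real.log 2 ≤ 1 := by
    have := Real.log_two_lt_d9
    linarith
  have hlog2'' : 69 / 100 ≤ Real.log 2 := by
    have := Real.log_two_gt_d9
    linarith
  -- the point
  set p : Fin 3 ⊕ Fin 5 → ℝ := prX (bp q.1) with hp
  have hPp := hPar p hq.1.par
  have hPnp := hPn p hq.1.par
  have hκ0 := hPp.κ0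
  have hκ1 := hPp.κ1
  have hdiv : ∀ {z c : ℝ}, |z / Lg - c| ≤ δ → |z - c * Lg| ≤ δ * Lg := by
    intro z c h1
    have h2 : z - c * Lg = (z / Lg - c) * Lg := by field_simp
    rw [h2, abs_mul, abs_of_pos hL0']
    exact mul_le_mul_of_nonneg_right h1 hL0'.le
  have hev := hw.ev
  have hk : |a.1.l - cκ p * Lg| ≤ δ * Lg := hdiv (hev (.inl (.inl (.inl 0))))
  have hz : |a.1.z - cx' p * Lg| ≤ δ * Lg := hdiv (hev (.inl (.inl (.inl 1))))
  have hu2 : |(a.1.us 2).z - cu p 2 * Lg| ≤ δ * Lg := hdiv (hev (.inl (.inl (.inr 2))))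
  have hu3 : |(a.1.us 3).z - cu p 3 * Lg| ≤ δ * Lg := hdiv (hev (.inl (.inl (.inr 3))))
  have hu4 : |(a.1.us 4).z - cu p 4 * Lg| ≤ δ * Lg := hdiv (hev (.inl (.inl (.inr 4))))
  have hv0 : |(a.2.1 0).z - q.1 (.inr 0) * Lg| ≤ δ * Lg := hdiv (hev (.inr 0))
  have hv1 : |(a.2.1 1).z - q.1 (.inr 1) * Lg| ≤ δ * Lg := hdiv (hev (.inr 1))
  have hv2 : |(a.2.1 2).z - q.1 (.inr 2) * Lg| ≤ δ * Lg := hdiv (hev (.inr 2))
  have hma : |LN qs - q.2 .am * Lg| ≤ δ * Lg := by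
    have h1 := hm .am
    rw [mass_am' hamq] at h1
    exact hdiv h1
  obtain ⟨k1, k2⟩ := abs_le.1 hk
  obtain ⟨z1, z2⟩ := abs_le.1 hz
  obtain ⟨u21, u22⟩ := abs_le.1 hu2
  obtain ⟨u31, u32⟩ := abs_le.1 hu3
  obtain ⟨u41, u42⟩ := abs_le.1 hu4
  have hδL : 0 ≤ δ * Lg := by positivity
  have hδL8 : δ * Lg ≤ 1 / 2000 * Lg := mul_le_mul_of_nonneg_right hδ1' hL0'.le
  have hδεL : δ * Lg ≤ ε₁ * Lg := mul_le_mul_of_nonneg_right hδε hL0'.le
  have hκL1 : cκ p * Lg ≤ 1 * Lg := mul_le_mul_of_nonneg_right hκ1 hL0'.le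
  have hκL0 : 8 / 9 * Lg ≤ cκ p * Lg := mul_le_mul_of_nonneg_right hκ0 hL0'.le
  have hκL00 : 0 ≤ cκ p * Lg := by linarith
  have hl0 : 0 ≤ a.1.l := by linarith
  have hl1 : a.1.l ≤ 2 * Lg := by linarith
  -- the length
  have hnl' : LN (clN a qs) ≤ 21 / 25 * (cκ p * Lg) + 4 * (δ * Lg) := by
    have h1 : LN (clN a qs) = (a.2.1 0).z + (a.2.1 1).z + (a.2.1 2).z + LN qs := LN_clN' a qs
    have h2 : (q.1 (.inr 0) + q.1 (.inr 1) + q.1 (.inr 2) + q.2 .am) * Lg ≤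
        21 / 25 * (cκ p * Lg) := by
      have h3 : q.1 (.inr 0) + q.1 (.inr 1) + q.1 (.inr 2) + q.2 .am ≤ 21 / 25 * cκ p := by
        have s1 := hq.1.s1
        have s2 := hq.1.x1
        have s3 := hq.1.b0
        linarith
      have := mul_le_mul_of_nonneg_right h3 hL0'.le
      linarith
    have e1 := (abs_le.1 hv0).2
    have e2 := (abs_le.1 hv1).2
    have e3 := (abs_le.1 hv2).2
    have e4 := (abs_le.1 hma).2
    rw [h1]
    linarith
  have hetu : ∀ j, et a qs j ≤ 83 / 100 * (cκ p * Lg) + 9 * (δ * Lg) := by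
    intro j
    refine (het2 a qs j hl0).trans ?_
    rcases max_cases 0 (2 * LN (clN a qs) - a.1.l) with ⟨h1, -⟩ | ⟨h1, -⟩ <;> rw [h1] <;> linarith
  -- transfer of the premises
  have hρ1 : min ρ₁ ρ₂ ≤ ρ₁ := min_le_left _ _
  have hρ2 : min ρ₁ ρ₂ ≤ ρ₂ := min_le_right _ _
  have hgood : ∀ ρ, min ρ₁ ρ₂ ≤ ρ → Dq.Good X ρ B₂ qs := by
    intro ρ hρ p' hp'
    obtain ⟨h1, h2, h3⟩ := hg p' hp'
    exact ⟨h1.trans (Real.rpow_le_rpow_of_exponent_le hX1.le hρ),
      h2.trans (Real.rpow_le_rpow_of_exponent_le hX1.le hBB), h3⟩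
  have hglm : ∀ δ', δ ≤ δ' → ∀ p' ∈ qs, Dq.lump p' ∨ Dq.nl X p' ≤ δ' := fun δ' h p' hp' =>
    (hgl p' hp').imp id fun h' => h'.trans h
  have hnl : ∀ p' ∈ qs, Dq.lump p' → False := fun p' hp' hl' =>
    (Set.notMem_empty _) (hl p' hp' hl')
  -- the blocks
  set I : ℕ := ⌊(c₁ + a.1.l) / Real.log 2⌋₊ + 1 with hI
  set EE : ℝ := E8X L0 q with hEE
  set kk : ℕ → ℝ := fun i => min (((i : ℝ) + 1) * Real.log 2 / Lg) (7 / 8 * cκ p) with hkk
  have hkk0 : ∀ i, 0 ≤ kk i := fun i => le_min (by positivity) (by linarith)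
  set G : ℕ → ℝ := fun i => X ^ (EE - (cκ p - kk i) / 3 + ε₁) with hG
  have hG0 : ∀ i, 0 ≤ G i := fun i => by rw [hG]; positivity
  have blk : ∀ (j i : ℕ) (m : Eis), j < nw c a → IsPrim m →
      (nm m : ℝ) ^ 3 * 2 ^ i ≤ Real.exp (c₁ + 7 / 8 * a.1.l) →
      (∑ k ∈ (primBall (2 ^ (i + 1))).filter
          (fun k => (CbF k ∧ 2 ^ i ≤ nm k) ∧ (π lam.1).NP2 (lam.2 * (m ^ 3 * k))),
        ‖CS (fun n => al lam a qs n * prin0 m n) k‖ ^ 2) *
      (∑ k ∈ (primBall (2 ^ (i + 1))).filter (fun k => CbF k ∧ 2 ^ i ≤ nm k),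
        ‖stG al e0 c lam a qs j (m ^ 3 * k)‖ ^ 2) ≤ (G i) ^ 2 := by
    intro j i m hj hmp hmK
    have hnm0 : (0 : ℝ) < nm m := by exact_mod_cast nm_pos.2 hmp.ne_zero
    have hnm1 : (1 : ℝ) ≤ nm m := by exact_mod_cast nm_pos.2 hmp.ne_zero
    have hlm : 0 ≤ Real.log (nm m) := Real.log_nonneg hnm1
    have h3 : 3 * Real.log (nm m) + i * Real.log 2 ≤ c₁ + 7 / 8 * a.1.l := by
      have := Real.log_le_log (by positivity) hmK
      rw [Real.log_mul (by positivity) (by positivity), Real.log_pow, Real.log_pow,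
        Real.log_exp] at this
      push_cast at this
      exact this
    have hi0 : (0 : ℝ) ≤ i * Real.log 2 := by positivity
    have hmX : (nm m : ℝ) ≤ X := by
      rw [← Real.log_le_log_iff hnm0 hX0, ← hLg]
      linarith
    have hiu : ((i : ℝ) + 1) * Real.log 2 ≤ (7 / 8 * cκ p + 2 * δ) * Lg := by
      have : i * Real.log 2 ≤ c₁ + 7 / 8 * a.1.l := by linarith
      linarith
    -- the point of the block
    set q' : (I8X ⊕ Unit → ℝ) × (Kd → ℝ) := (Sum.elim q.1 fun _ => kk i, q.2) with hq'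
    have hq'D : q' ∈ DomKc (7 / 8) c β Par L := ⟨hq, hkk0 i, min_le_right _ _⟩
    have hevk : |((i : ℝ) + 1) * Real.log 2 / Lg - kk i| ≤ 2 * δ := by
      rw [hkk]
      dsimp only
      rw [abs_le]
      have e1 := min_le_left (((i : ℝ) + 1) * Real.log 2 / Lg) (7 / 8 * cκ p)
      have e2 : ((i : ℝ) + 1) * Real.log 2 / Lg ≤ 7 / 8 * cκ p + 2 * δ := by
        rw [div_le_iff₀ hL0']
        exact hiu
      refine ⟨by linarith, ?_⟩
      have e3 : ((i : ℝ) + 1) * Real.log 2 / Lg - 2 * δ ≤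
          min (((i : ℝ) + 1) * Real.log 2 / Lg) (7 / 8 * cκ p) := le_min (by linarith)
            (by linarith)
      linarith
    have hwin : ∀ δ' ρ, 4 * δ ≤ δ' → min ρ₁ ρ₂ ≤ ρ →
        Win S8Xk q'.1 δ' N B₂ ρ X (a, (j, i, m)) := by
      intro δ' ρ hδ' hρ
      have hw' := hw.mono hX1.le (show δ ≤ δ' by linarith) le_rfl hBB hρ
      refine ⟨?_, ?_, Nat.zero_le _, hw'.s₁, ?_⟩
      · rintro (i' | u)
        · exact hw'.ev i'
        · exact hevk.trans (by linarith)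
      · exact hw'.g
      · refine max_le hw'.s₂ (hmX.trans ?_)
        calc X = X ^ (1 : ℝ) := (Real.rpow_one X).symm
          _ ≤ X ^ B₂ := Real.rpow_le_rpow_of_exponent_le hX1.le (by linarith)
    have A1 := hcs X hX1' (a, (j, i, m)) qs hlen (hglm δ₁ (by linarith)) q' hq'D
      (hwin δ₁ ρ₁ hδ1 hρ1) (fun t => (hm t).trans (by linarith)) (hgood ρ₁ hρ1)
      (fun p' hp' hl' => (hnl p' hp' hl').elim)
    have A2 := hgk X hX2' (a, (j, i, m)) qs hlen (hglm δ₂ (by linarith)) q' hq'D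
      (hwin δ₂ ρ₂ hδ2 hρ2) (fun t => (hm t).trans (by linarith)) (hgood ρ₂ hρ2)
      (fun p' hp' hl' => (hnl p' hp' hl').elim)
    unfold ETd548.CsG at A1
    rw [if_pos ⟨hoka, hmp⟩] at A1
    unfold ETd548.GkG at A2
    rw [if_pos ⟨hoka, hmp, hj⟩] at A2
    have A3 : ∑ k ∈ (primBall (2 ^ (i + 1))).filter
          (fun k => (CbF k ∧ 2 ^ i ≤ nm k) ∧ (π lam.1).NP2 (lam.2 * (m ^ 3 * k))),
        ‖CS (fun n => al lam a qs n * prin0 m n) k‖ ^ 2 ≤ X ^ (CE q' + ε₁) := by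
      refine le_trans (sum_le_sum_of_subset_of_nonneg (fun k hk => ?_) fun _ _ _ => by positivity)
        A1
      rw [mem_filter] at hk ⊢
      exact ⟨hk.1, hk.2.1, np2_cube hk.2.2⟩
    refine (mul_le_mul A3 A2 (sum_nonneg fun _ _ => by positivity) (by positivity)).trans
      (le_of_eq ?_)
    rw [hG]
    dsimp only
    rw [← Real.rpow_add hX0, ← Real.rpow_natCast, ← Real.rpow_mul hX0.le]
    congr 1
    have e : RoomX L0 q' = 2 * (EE - (cκ p - kk i) / 3) := rfl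
    rw [e]
    push_cast
    ring
  -- one level
  set U : ℝ := Real.exp (c₁ + 1 + (EE + 2 * ε₁) * Lg) with hU
  have hIb : Real.exp (c₁ + a.1.l) < 2 ^ I := by
    have h1 := Nat.lt_floor_add_one ((c₁ + a.1.l) / Real.log 2)
    rw [div_lt_iff₀ hlog2] at h1
    rw [← Real.lt_log_iff_exp_lt (by positivity), Real.log_pow, hI]
    push_cast
    exact h1
  have hI2 : (I : ℝ) ≤ 4 * Lg := by
    have h1 : (0 : ℝ) ≤ (c₁ + a.1.l) / Real.log 2 := by positivity
    have h2 := Nat.floor_le h1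
    have h3 : (c₁ + a.1.l) / Real.log 2 ≤ 3 * Lg := by
      rw [div_le_iff₀ hlog2]
      have h7 : 3 * Lg * (69 / 100) ≤ 3 * Lg * Real.log 2 :=
        mul_le_mul_of_nonneg_left hlog2'' (by linarith)
      linarith
    rw [hI]
    push_cast
    linarith
  have one : ∀ j < nw c a, Real.exp (et a qs j / 3) *
      ‖CrP (wM (Rw lam.1)) (Real.exp a.1.l * Real.exp (-(et a qs j))) (al lam a qs)
        (fun k => if cutE (Real.exp (a.1.l / 20)) k then stG al e0 c lam a qs j k else 0)‖ ≤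
      4 * Lg * (100 * U) := by
    intro j hj
    set η := et a qs j with hη
    have hη1 : 1 / 8 * a.1.l ≤ η := het1 a qs j
    have hη2 : η ≤ 83 / 100 * (cκ p * Lg) + 9 * (δ * Lg) := hetu j
    have hη0 : 0 ≤ η := by linarith
    set K' : ℝ := Real.exp a.1.l * Real.exp (-η) with hK'
    have hK'e : K' = Real.exp (a.1.l - η) := by rw [hK', ← Real.exp_add]; rfl
    have hK0 : 0 < K' := by positivity
    have hbwe : 2 * Real.exp (Rw lam.1) = Real.exp c₁ := by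
      rw [hc₁, Real.exp_add, Real.exp_log (by norm_num)]
    have hbK : 2 * Real.exp (Rw lam.1) * K' = Real.exp (c₁ + (a.1.l - η)) := by
      rw [hbwe, hK'e, ← Real.exp_add]
    have hbK1 : 2 * Real.exp (Rw lam.1) * K' ≤ Real.exp (c₁ + 7 / 8 * a.1.l) := by
      rw [hbK]
      exact Real.exp_le_exp.2 (by linarith)
    have hbK2 : 2 * Real.exp (Rw lam.1) * K' ≤ Real.exp (c₁ + a.1.l) := by
      rw [hbK]
      exact Real.exp_le_exp.2 (by linarith)
    have key := crc_le (w := wM (Rw lam.1)) (bw := 2 * Real.exp (Rw lam.1)) (wM_nonneg _)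
      (wM_le_one _) (fun x hx => (wM_supp hx).2.le) (by positivity) hK0 (hal lam a qs hoka)
      (stG al e0 c lam a qs j) (fun k => cutE (Real.exp (a.1.l / 20)) k)
      (fun k => (π lam.1).NP2 (lam.2 * k)) (by
        intro k hkp hkc hwk
        by_contra hn
        have h1 := hCn _ k (Real.exp_pos (a.1.l / 20)).le hkp hkc hn
        have h2 := (wM_supp hwk).1
        rw [lt_div_iff₀ hK0] at h2
        have h3 : Real.exp (-(c₁ + (Real.log 2 - Real.log 2)) + (a.1.l - η)) ≤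
            Real.exp (-Rw lam.1) / 2 * K' := by
          have e1 : Real.exp (-Rw lam.1) / 2 = Real.exp (-c₁) := by
            rw [hc₁, neg_add, Real.exp_add, Real.exp_neg (Real.log 2),
              Real.exp_log (by norm_num : (0 : ℝ) < 2)]
            ring
          rw [e1, hK'e, ← Real.exp_add]
          refine le_of_eq ?_
          congr 1
          ring
        have h4 : Cn * Real.exp (a.1.l / 20) ^ 3 = Real.exp (Real.log Cn + 3 / 20 * a.1.l) := by
          rw [Real.exp_add, Real.exp_log (by linarith), ← Real.exp_nat_mul]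
          congr 2
          push_cast
          ring
        have h5 : Real.exp (-(c₁ + (Real.log 2 - Real.log 2)) + (a.1.l - η)) <
            Real.exp (Real.log Cn + 3 / 20 * a.1.l) := by
          rw [← h4]
          exact (h3.trans_lt h2).trans_le h1
        have h6 := Real.exp_lt_exp.1 h5
        linarith) (hbK2.trans_lt hIb) hG0
      (fun i m _ hmp h2 => by
        convert blk j i m hj hmp (h2.trans hbK1))
    have term : ∀ i : ℕ, Real.exp (η / 3) *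
        (100 * (2 * Real.exp (Rw lam.1) * K' / 2 ^ i) ^ ((1 : ℝ) / 3) * G i) ≤ 100 * U := by
      intro i
      have h1 : (2 * Real.exp (Rw lam.1) * K' / 2 ^ i) ^ ((1 : ℝ) / 3) =
          Real.exp ((c₁ + (a.1.l - η) - i * Real.log 2) / 3) := by
        have h2 : 2 * Real.exp (Rw lam.1) * K' / 2 ^ i =
            Real.exp (c₁ + (a.1.l - η) - i * Real.log 2) := by
          rw [Real.exp_sub, mul_comm (i : ℝ), Real.exp_mul (Real.log 2) (i : ℝ),
            Real.exp_log (by norm_num : (0 : ℝ) < 2), Real.rpow_natCast, hbK]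
        rw [h2, ← Real.exp_mul]
        congr 1
        ring
      have h3 : Real.exp ((c₁ + a.1.l - i * Real.log 2) / 3) * G i ≤ U := by
        rw [hG, hU]
        dsimp only
        rw [hXe, ← Real.exp_add]
        refine Real.exp_le_exp.2 ?_
        have h4 : kk i * Lg ≤ ((i : ℝ) + 1) * Real.log 2 := by
          have := mul_le_mul_of_nonneg_right
            (min_le_left (((i : ℝ) + 1) * Real.log 2 / Lg) (7 / 8 * cκ p)) hL0'.le
          rwa [div_mul_cancel₀ _ hL0'.ne'] at this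
        have h5 : (EE - (cκ p - kk i) / 3 + ε₁) * Lg =
            EE * Lg - (cκ p * Lg - kk i * Lg) / 3 + ε₁ * Lg := by ring
        have h6 : (EE + 2 * ε₁) * Lg = EE * Lg + 2 * (ε₁ * Lg) := by ring
        rw [h5, h6]
        linarith
      have e1 : Real.exp (η / 3) * Real.exp ((c₁ + (a.1.l - η) - i * Real.log 2) / 3) =
          Real.exp ((c₁ + a.1.l - i * Real.log 2) / 3) := by
        rw [← Real.exp_add]
        congr 1
        ring
      calc _ = 100 * ((Real.exp (η / 3) *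
            (2 * Real.exp (Rw lam.1) * K' / 2 ^ i) ^ ((1 : ℝ) / 3)) * G i) := by ring
        _ = 100 * (Real.exp ((c₁ + a.1.l - i * Real.log 2) / 3) * G i) := by rw [h1, e1]
        _ ≤ 100 * U := by gcongr
    calc _ ≤ Real.exp (η / 3) * ∑ i ∈ range I,
          100 * (2 * Real.exp (Rw lam.1) * K' / 2 ^ i) ^ ((1 : ℝ) / 3) * G i :=
          mul_le_mul_of_nonneg_left key (Real.exp_pos _).le
      _ = ∑ i ∈ range I, Real.exp (η / 3) *
          (100 * (2 * Real.exp (Rw lam.1) * K' / 2 ^ i) ^ ((1 : ℝ) / 3) * G i) := mul_sum _ _ _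
      _ ≤ ∑ i ∈ range I, 100 * U := sum_le_sum fun i _ => term i
      _ = I * (100 * U) := by rw [sum_const, nsmul_eq_mul, card_range]
      _ ≤ 4 * Lg * (100 * U) := mul_le_mul_of_nonneg_right hI2 (by positivity)
  -- the number of levels
  have hnw : (nw c a : ℝ) ≤ 4 * Lg := by
    have h1 := nW_hi c a
    have h2 : tO a.1.toBd ≤ 17 / 10 * Lg := by
      have hNN : cu p 2 + cu p 3 + cu p 4 ≤ 1 := hPp.N1
      have hxx := hPp.x1
      have e1 : (cu p 2 + cu p 3 + cu p 4) * Lg ≤ 1 * Lg :=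
        mul_le_mul_of_nonneg_right hNN hL0'.le
      have e2 : cx' p * Lg ≤ 1 / 3 * Lg := mul_le_mul_of_nonneg_right hxx hL0'.le
      have e3 : a3 a.1.toBd = (a.1.us 2).z + (a.1.us 3).z + (a.1.us 4).z := rfl
      have e4 : tO a.1.toBd = min (2 * a3 a.1.toBd - a.1.l) (3 / 4 * a3 a.1.toBd) +
        11 / 5 * a.1.z := rfl
      have e5 := min_le_right (2 * a3 a.1.toBd - a.1.l) (3 / 4 * a3 a.1.toBd)
      have e6 : (cu p 2 + cu p 3 + cu p 4) * Lg = cu p 2 * Lg + cu p 3 * Lg + cu p 4 * Lg := by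
        ring
      rw [e4]
      rw [e3] at e5 ⊢
      linarith
    have h3 : max 0 (min (tO a.1.toBd) (tO a.1.toBd + 2 * (c * a.1.l) - 2 * a.2.2)) ≤
        17 / 10 * Lg := max_le (by linarith) ((min_le_left _ _).trans h2)
    have h4 : 69 / 100 * (nw c a : ℝ) ≤ Real.log 2 * nw c a :=
      mul_le_mul_of_nonneg_right hlog2'' (Nat.cast_nonneg _)
    linarith
  unfold CrG
  rw [if_pos hoka]
  have hsum : ∑ j ∈ range (nw c a), Real.exp (et a qs j / 3) *
      ‖CrP (wM (Rw lam.1)) (Real.exp a.1.l * Real.exp (-(et a qs j))) (al lam a qs)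
        (fun k => if cutE (Real.exp (a.1.l / 20)) k then stG al e0 c lam a qs j k else 0)‖ ≤
      4 * Lg * (4 * Lg * (100 * U)) := by
    refine (sum_le_sum fun j hj => one j (mem_range.1 hj)).trans ?_
    rw [sum_const, card_range, nsmul_eq_mul]
    exact mul_le_mul_of_nonneg_right hnw (by positivity)
  refine hsum.trans ?_
  -- numbers
  have hLe : Lg ≤ 2 / ε₁ * Real.exp (ε₁ / 2 * Lg) := by
    have h1 := Real.add_one_le_exp (ε₁ / 2 * Lg)
    have h2 : Lg = 2 / ε₁ * (ε₁ / 2 * Lg) := by field_simp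
    calc Lg = 2 / ε₁ * (ε₁ / 2 * Lg) := h2
      _ ≤ 2 / ε₁ * Real.exp (ε₁ / 2 * Lg) :=
        mul_le_mul_of_nonneg_left (by linarith) (by positivity)
  have hCe : CC ≤ Real.exp (ε₁ / 2 * Lg) := by
    have h1 := Real.add_one_le_exp (ε₁ / 2 * Lg)
    linarith
  have hNP : 4 * Lg * (4 * Lg * (100 * U)) ≤ Real.exp ((EE + 4 * ε₁) * Lg) := by
    have hUU : U = Real.exp (c₁ + 1) * Real.exp ((EE + 2 * ε₁) * Lg) := by
      rw [hU, ← Real.exp_add]
    calc 4 * Lg * (4 * Lg * (100 * U)) ≤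
        4 * (2 / ε₁ * Real.exp (ε₁ / 2 * Lg)) *
          (4 * (2 / ε₁ * Real.exp (ε₁ / 2 * Lg)) * (100 * U)) := by
          have hU0 : 0 ≤ U := by rw [hU]; positivity
          gcongr
      _ = CC * (Real.exp (ε₁ / 2 * Lg) * Real.exp (ε₁ / 2 * Lg)) *
            Real.exp ((EE + 2 * ε₁) * Lg) := by
          rw [hUU, hCC]; ring
      _ ≤ Real.exp (ε₁ / 2 * Lg) * (Real.exp (ε₁ / 2 * Lg) * Real.exp (ε₁ / 2 * Lg)) *
            Real.exp ((EE + 2 * ε₁) * Lg) := by gcongr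
      _ = Real.exp ((EE + 2 * ε₁ + 3 / 2 * ε₁) * Lg) := by
          rw [← Real.exp_add, ← Real.exp_add, ← Real.exp_add]
          congr 1
          ring
      _ ≤ _ := by
          refine Real.exp_le_exp.2 (mul_le_mul_of_nonneg_right (by linarith) hL0'.le)
  have e2 : X ^ (EE + ε) = Real.exp ((EE + 32 * ε₁) * Lg) := by
    rw [hXe, ← hεε]
  rw [e2]
  exact hNP.trans (Real.exp_le_exp.2 (mul_le_mul_of_nonneg_right (by linarith) hL0'.le))

end

end Crest.Agent.R017.CrG241
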