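import Crest.Agent.R017.ETq_548
import Crest.Agent.R017.ET4a_548

/-!
# Row 17, R8 / P1, exceptional class (helper548): the compensated cross tail, principal `k`

* `Ck k₀ k` : `k = k₀ c³`
* **`ck_bd`** : the sum over the `k = k₀ c³` with the compensated weight: no power of `K`
-/

set_option autoImplicit false
set_option linter.unusedVariables false

noncomputable section

open Complex Finset
open scoped ComplexConjugate Classical

namespace Crest.Agent.R017.ETp548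

open Crest.Agent.R012 Crest.Agent.R012.Eis Crest.Agent.R012.Div277
open Crest.Agent.R012.Mob705 (mu)
open Crest.Agent.R012.LS2 (S mem_S)
open Crest.Agent.R017.CM106 (CS FS)
open Crest.Agent.R017.X6C180 (GF)
open Crest.Agent.R017.X6545 (TF Bd)
open Crest.Agent.R017.E2440 (Fh StT TE one_le_nm finite_nm_le norm_mu_le)
open Crest.Agent.R017.Ex385
open Crest.Agent.R017.PrW502 (Cn3 prW_tau)
open Crest.Agent.R017.PX764 (th)

/-- `k = k₀ c³` -/
def Ck (k₀ k : Eis) : Prop := ∃ c : Eis, IsPrim c ∧ k = k₀ * c ^ 3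

lemma CrQ_ck {k₀ : Eis} (hk₀ : IsPrim k₀) (F : ℝ → ℂ) (K : ℝ) (α u : Eis → ℂ) :
    CrQ F (Ck k₀) K α u = ∑' c : Eis, if IsPrim c then
      F ((nm (k₀ * c ^ 3) : ℝ) / K) * (CS α (k₀ * c ^ 3) * conj (u (k₀ * c ^ 3))) else 0 := by
  set g : Eis → ℂ := fun k => if IsPrim k ∧ Ck k₀ k then
    F ((nm k : ℝ) / K) * (CS α k * conj (u k)) else 0 with hg
  have hinj : Function.Injective fun c : {c : Eis // IsPrim c} => k₀ * (c : Eis) ^ 3 := by
    intro a b hab
    exact Subtype.ext (cube_inj' a.2 b.2 (mul_left_cancel₀ hk₀.ne_zero hab))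
  have hsupp : Function.support g ⊆
      Set.range fun c : {c : Eis // IsPrim c} => k₀ * (c : Eis) ^ 3 := by
    intro k hk
    rw [Function.mem_support] at hk
    by_contra hc
    apply hk
    rw [hg]
    dsimp only
    rw [if_neg]
    rintro ⟨-, c, h1, h2⟩
    exact hc ⟨⟨c, h1⟩, h2.symm⟩
  have h1 : CrQ F (Ck k₀) K α u = ∑' k, g k := rfl
  rw [h1, ← hinj.tsum_eq hsupp]
  have h2 : ∀ c : {c : Eis // IsPrim c}, g (k₀ * (c : Eis) ^ 3) =
      (fun c : Eis => F ((nm (k₀ * c ^ 3) : ℝ) / K) *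
        (CS α (k₀ * c ^ 3) * conj (u (k₀ * c ^ 3)))) c := by
    intro c
    simp only [hg]
    rw [if_pos ⟨hk₀.mul (c.2.pow 3), ⟨c, c.2, rfl⟩⟩]
  refine (tsum_congr h2).trans ?_
  refine (tsum_subtype {c : Eis | IsPrim c}
    (fun c : Eis => F ((nm (k₀ * c ^ 3) : ℝ) / K) *
      (CS α (k₀ * c ^ 3) * conj (u (k₀ * c ^ 3))))).trans ?_
  refine tsum_congr fun c => ?_
  rw [Set.indicator_apply]
  rfl

/-- `CS` at `k₀ c³` -/
lemma CS_ck {α : Eis → ℂ} (hα : FS α) (k₀ c : Eis) :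
    CS α (k₀ * c ^ 3) = ∑ n ∈ hα.fin.toFinset, if IsCoprime c n then α n * sy k₀ n else 0 := by
  unfold CM106.CS
  rw [tsum_eq_sum (s := hα.fin.toFinset)]
  · refine Finset.sum_congr rfl fun n hn => ?_
    rw [Set.Finite.mem_toFinset, Function.mem_support] at hn
    have hp := hα.prim n hn
    rw [Char766.sy_mul_left hp]
    split_ifs with h
    · rw [Char766.sy_cube_left hp h, mul_one]
    · rw [Char766.sy_eq_zero hp (fun h' => h ((IsCoprime.pow_left_iff (by norm_num)).mp h')),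
        mul_zero, mul_zero]
  · intro n hn
    rw [Set.Finite.mem_toFinset, Function.mem_support, not_not] at hn
    rw [hn, zero_mul]

/-- the divisors `e` of `k₀ c³` -/
lemma exists_ed {k₀ e : Eis} (he : IsPrim e) (hs : Squarefree e) :
    ∃ e' : Eis, IsPrim e' ∧ ∀ c : Eis, e ∣ k₀ * c ^ 3 ↔ e' ∣ c := by
  obtain ⟨e₀, e', h1, h2, h3, h4, -, h5⟩ := CubL813.exists_split he hs (dvd_mul_left e k₀)
  refine ⟨e', h2, fun c => ⟨fun h => ?_, fun h => ?_⟩⟩
  · have h6 : e' ∣ k₀ * c ^ 3 := (Dvd.intro_left e₀ h3.symm).trans h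
    have h7 : e' ∣ c ^ 3 := h5.dvd_of_dvd_mul_left h6
    have h8 : Squarefree e' := (squarefree_mul_iff.1 (h3 ▸ hs)).2.2
    exact h8.isRadical 3 c h7
  · rw [h3]
    exact mul_dvd_mul h4 (h.trans (dvd_pow_self c (by norm_num)))

/-- the divisor -/
def ed (k₀ e : Eis) : Eis :=
  if h : IsPrim e ∧ Squarefree e then Classical.choose (exists_ed (k₀ := k₀) h.1 h.2) else 1

lemma ed_prim (k₀ e : Eis) : IsPrim (ed k₀ e) := by
  unfold ed
  split_ifs with h
  · exact (Classical.choose_spec (exists_ed (k₀ := k₀) h.1 h.2)).1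
  · exact isPrim_one

lemma ed_dvd {k₀ e : Eis} (h : IsPrim e ∧ Squarefree e) (c : Eis) :
    e ∣ k₀ * c ^ 3 ↔ ed k₀ e ∣ c := by
  unfold ed
  rw [dif_pos h]
  exact (Classical.choose_spec (exists_ed (k₀ := k₀) h.1 h.2)).2 c

/-- `StT` at `k₀ c³` -/
lemma StT_ck {E0 : ℝ} (hE0 : 0 ≤ E0) {J : Finset (Eis × Eis)} (hJ : ∀ x ∈ J, IsPrim x.1)
    (om : Eis × Eis → ℂ) (T : Eis × Eis → Eis → ℂ) (k₀ : Eis) {c : Eis} (hc : IsPrim c) :
    conj (StT E0 J om T (k₀ * c ^ 3)) = ∑ x ∈ J, ∑ e ∈ S E0,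
      if IsCoprime c x.1 ∧ ed k₀ e ∣ c then conj (om x) * (conj (sy k₀ x.1) *
        (th (x.2 * k₀) * ((mu e : ℂ) * conj (T x e)))) else 0 := by
  unfold E2440.StT
  rw [map_sum]
  refine Finset.sum_congr rfl fun x hx => ?_
  have h1 : sy (k₀ * c ^ 3) x.1 = sy k₀ x.1 * if IsCoprime c x.1 then 1 else 0 := by
    rw [Char766.sy_mul_left (hJ x hx)]
    congr 1
    split_ifs with h
    · exact Char766.sy_cube_left (hJ x hx) h
    · exact Char766.sy_eq_zero (hJ x hx)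
        (fun h' => h ((IsCoprime.pow_left_iff (by norm_num)).mp h'))
  rw [h1, show x.2 * (k₀ * c ^ 3) = x.2 * k₀ * c ^ 3 by ring, PX764.th_cube hc, map_mul, map_mul,
    map_mul, map_mul, map_sum, Complex.conj_conj, Finset.sum_filter, Finset.mul_sum,
    Finset.mul_sum]
  refine Finset.sum_congr rfl fun e he => ?_
  have hes := ((mem_S hE0).mp he).2
  have h2 := ed_dvd (k₀ := k₀) ⟨hes.1, hes.2⟩ c
  by_cases h3 : IsCoprime c x.1
  · by_cases h4 : ed k₀ e ∣ c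
    · rw [if_pos h3, if_pos (h2.mpr h4), if_pos ⟨h3, h4⟩, map_one, map_mul, map_intCast]
      ring
    · have h5 : ¬ (IsCoprime c x.1 ∧ ed k₀ e ∣ c) := fun h => h4 h.2
      have h6 : ¬ e ∣ k₀ * c ^ 3 := fun h => h4 (h2.mp h)
      rw [if_neg h5, if_neg h6]
      ring
  · have h5 : ¬ (IsCoprime c x.1 ∧ ed k₀ e ∣ c) := fun h => h3 h.1
    rw [if_neg h5, if_neg h3, map_zero]
    ring

set_option maxHeartbeats 1000000 in
/-- **the `k = k₀ c³`, compensated weight** : no power of `K` -/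
theorem ck_bd : ∃ (N : ℕ) (C : ℝ), 0 ≤ C ∧ ∀ (F : ℝ → ℂ) (Sf : ℝ), TF F → Bd F N Sf →
    ∀ (h K E0 : ℝ), 0 ≤ h → 0 < K → 0 ≤ E0 → ∀ (α : Eis → ℂ) (hα : FS α)
    (J : Finset (Eis × Eis)), (∀ x ∈ J, IsPrim x.1) → ∀ (k₀ : Eis), IsPrim k₀ →
    ∀ (om : Eis × Eis → ℂ) (T : Eis × Eis → Eis → ℂ),
      ‖CrQ (GF (Fh F h)) (Ck k₀) K α (StT E0 J om T)‖ ≤ C * Sf * (1 + Real.exp (h / 3)) *
        ∑ x ∈ J, ‖om x‖ * ‖th (x.2 * k₀)‖ * (∑ e ∈ S E0, ‖T x e‖) *
          ∑ n ∈ hα.fin.toFinset, ‖α n‖ * (tau (n * x.1) : ℝ) := by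
  obtain ⟨N, C, hC, hb⟩ := prW_tau
  refine ⟨N, C, hC, fun F Sf hF hS h K E0 hh hK hE0 α hα J hJ k₀ hk₀ om T => ?_⟩
  set Ts := hα.fin.toFinset with hTs
  have hTp : ∀ n ∈ Ts, IsPrim n := fun n hn => by
    rw [hTs, Set.Finite.mem_toFinset, Function.mem_support] at hn
    exact hα.prim n hn
  have hSf : 0 ≤ Sf := (norm_nonneg _).trans (hS 0 (Nat.zero_le _) 0)
  have hk0n := nm_pos' hk₀.ne_zero
  have hk01 : (1 : ℝ) ≤ nm k₀ := one_le_nm hk₀.ne_zero
  set K₁ : ℝ := K / nm k₀ with hK₁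
  have hK₁0 : 0 < K₁ := by positivity
  -- the coefficient
  set co : Eis × Eis → Eis → Eis → ℂ := fun x e n =>
    (α n * sy k₀ n) * (conj (om x) * (conj (sy k₀ x.1) * (th (x.2 * k₀) *
      ((mu e : ℂ) * conj (T x e))))) with hco
  have hW : ∀ c : Eis, IsPrim c → GF (Fh F h) ((nm (k₀ * c ^ 3) : ℝ) / K) =
      Fh F h (Real.log ((nm c : ℝ) ^ 3 / K₁)) := by
    intro c hc
    have h1 := nm_pos' hc.ne_zero
    unfold X6C180.GF
    rw [nm_mul, nm_pow]
    push_cast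
    rw [if_pos (by positivity), hK₁]
    congr 2
    field_simp
  have hexp : CrQ (GF (Fh F h)) (Ck k₀) K α (StT E0 J om T) = ∑ x ∈ J, ∑ e ∈ S E0, ∑ n ∈ Ts,
      co x e n * ∑' c : Eis, if IsPrim c ∧ IsCoprime c (n * x.1) ∧ ed k₀ e ∣ c then
        Fh F h (Real.log ((nm c : ℝ) ^ 3 / K₁)) else 0 := by
    rw [CrQ_ck hk₀]
    have hfin : ∀ g : Eis → ℂ, (Function.support fun c : Eis => if IsPrim c then
        Fh F h (Real.log ((nm c : ℝ) ^ 3 / K₁)) * g c else 0).Finite := by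
      intro g
      obtain ⟨B, hB⟩ := bdd_Fh hF hh
      refine (finite_nm_le ⌊B * K⌋₊).subset fun c hc => ?_
      rw [Function.mem_support] at hc
      by_cases hp : IsPrim c
      · rw [if_pos hp] at hc
        have h1 : GF (Fh F h) ((nm (k₀ * c ^ 3) : ℝ) / K) ≠ 0 := by
          rw [hW c hp]
          exact left_ne_zero_of_mul hc
        have h2 := hB _ h1
        rw [div_le_iff₀ hK] at h2
        refine Nat.le_floor (le_trans ?_ h2)
        have h3 : 1 ≤ nm c := by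
          have := one_le_nm hp.ne_zero
          exact_mod_cast this
        have h4 : 1 ≤ nm k₀ := by exact_mod_cast hk01
        rw [nm_mul, nm_pow]
        have h5 : nm c ≤ nm c ^ 3 := Nat.le_self_pow (by norm_num) _
        exact_mod_cast h5.trans (Nat.le_mul_of_pos_left _ h4)
      · rw [if_neg hp] at hc
        exact absurd rfl hc
    have hs : ∀ x ∈ J, ∀ e ∈ S E0, ∀ n ∈ Ts, Summable fun c : Eis => co x e n *
        (if IsPrim c ∧ IsCoprime c (n * x.1) ∧ ed k₀ e ∣ c then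
          Fh F h (Real.log ((nm c : ℝ) ^ 3 / K₁)) else 0) := by
      intro x _ e _ n _
      refine summable_of_hasFiniteSupport ((hfin fun _ => 1).subset fun c hc => ?_)
      rw [Function.mem_support] at hc ⊢
      intro h0
      apply hc
      by_cases h1 : IsPrim c ∧ IsCoprime c (n * x.1) ∧ ed k₀ e ∣ c
      · rw [if_pos h1.1, mul_one] at h0
        rw [if_pos h1, h0, mul_zero]
      · rw [if_neg h1, mul_zero]
    have e1 : ∀ c : Eis, (if IsPrim c then GF (Fh F h) ((nm (k₀ * c ^ 3) : ℝ) / K) *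
        (CS α (k₀ * c ^ 3) * conj (StT E0 J om T (k₀ * c ^ 3))) else 0) =
        ∑ x ∈ J, ∑ e ∈ S E0, ∑ n ∈ Ts, co x e n *
          (if IsPrim c ∧ IsCoprime c (n * x.1) ∧ ed k₀ e ∣ c then
            Fh F h (Real.log ((nm c : ℝ) ^ 3 / K₁)) else 0) := by
      intro c
      by_cases hc : IsPrim c
      · rw [if_pos hc, hW c hc, StT_ck hE0 hJ om T k₀ hc, CS_ck hα k₀ c, Finset.mul_sum,
          Finset.mul_sum]
        refine Finset.sum_congr rfl fun x hx => ?_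
        rw [Finset.mul_sum, Finset.mul_sum]
        refine Finset.sum_congr rfl fun e he => ?_
        rw [Finset.sum_mul, Finset.mul_sum]
        refine Finset.sum_congr rfl fun n hn => ?_
        by_cases h1 : IsCoprime c n
        · by_cases h2 : IsCoprime c x.1 ∧ ed k₀ e ∣ c
          · rw [if_pos h1, if_pos h2, if_pos ⟨hc, h1.mul_right h2.1, h2.2⟩]
            simp only [hco]
            ring
          · have h3 : ¬ (IsPrim c ∧ IsCoprime c (n * x.1) ∧ ed k₀ e ∣ c) :=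
              fun h' => h2 ⟨h'.2.1.of_mul_right_right, h'.2.2⟩
            rw [if_neg h2, if_neg h3]
            ring
        · have h3 : ¬ (IsPrim c ∧ IsCoprime c (n * x.1) ∧ ed k₀ e ∣ c) :=
            fun h' => h1 h'.2.1.of_mul_right_left
          rw [if_neg h1, if_neg h3]
          ring
      · rw [if_neg hc]
        symm
        refine Finset.sum_eq_zero fun x _ => Finset.sum_eq_zero fun e _ =>
          Finset.sum_eq_zero fun n _ => ?_
        rw [if_neg (fun h' => hc h'.1), mul_zero]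
    rw [tsum_congr e1, Summable.tsum_finsetSum fun x hx => summable_sum fun e he =>
      summable_sum fun n hn => hs x hx e he n hn]
    refine Finset.sum_congr rfl fun x hx => ?_
    rw [Summable.tsum_finsetSum fun e he => summable_sum fun n hn => hs x hx e he n hn]
    refine Finset.sum_congr rfl fun e he => ?_
    rw [Summable.tsum_finsetSum fun n hn => hs x hx e he n hn]
    refine Finset.sum_congr rfl fun n hn => ?_
    rw [tsum_mul_left]
  have hb1 : ∀ x ∈ J, ∀ e ∈ S E0, ∀ n ∈ Ts,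
      ‖∑' c : Eis, if IsPrim c ∧ IsCoprime c (n * x.1) ∧ ed k₀ e ∣ c then
        Fh F h (Real.log ((nm c : ℝ) ^ 3 / K₁)) else 0‖ ≤
      C * Sf * (1 + Real.exp (h / 3)) * tau (n * x.1) := by
    intro x hx e he n hn
    have hep : IsPrim (ed k₀ e) := ed_prim k₀ e
    have hen := nm_pos' hep.ne_zero
    rw [cnt_dvd (Fh F h) hep hK₁0]
    split_ifs with hcop
    · exact hb F Sf hF hS (n * x.1) (K₁ / (nm (ed k₀ e) : ℝ) ^ 3) h
        (mul_ne_zero (hTp n hn).ne_zero (hJ x hx).ne_zero) (by positivity)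
    · rw [norm_zero]; positivity
  rw [hexp]
  refine (norm_sum_le _ _).trans ?_
  rw [Finset.mul_sum]
  refine Finset.sum_le_sum fun x hx => ?_
  refine (norm_sum_le _ _).trans ?_
  have e2 : C * Sf * (1 + Real.exp (h / 3)) * (‖om x‖ * ‖th (x.2 * k₀)‖ * (∑ e ∈ S E0, ‖T x e‖) *
      ∑ n ∈ Ts, ‖α n‖ * (tau (n * x.1) : ℝ)) = ∑ e ∈ S E0, ∑ n ∈ Ts,
      (‖α n‖ * (‖om x‖ * (‖th (x.2 * k₀)‖ * ‖T x e‖))) *
        (C * Sf * (1 + Real.exp (h / 3)) * tau (n * x.1)) := by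
    set V := ∑ n ∈ Ts, ‖α n‖ * (tau (n * x.1) : ℝ) with hV
    have e3 : ∀ e ∈ S E0, ∑ n ∈ Ts, (‖α n‖ * (‖om x‖ * (‖th (x.2 * k₀)‖ * ‖T x e‖))) *
        (C * Sf * (1 + Real.exp (h / 3)) * tau (n * x.1)) =
        C * Sf * (1 + Real.exp (h / 3)) * (‖om x‖ * ‖th (x.2 * k₀)‖ * V) * ‖T x e‖ := by
      intro e _
      rw [hV, Finset.mul_sum, Finset.mul_sum, Finset.sum_mul]
      exact Finset.sum_congr rfl fun n _ => by ring
    rw [Finset.sum_congr rfl e3, ← Finset.mul_sum]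
    ring
  rw [e2]
  refine Finset.sum_le_sum fun e he => (norm_sum_le _ _).trans (Finset.sum_le_sum fun n hn => ?_)
  rw [norm_mul]
  refine mul_le_mul ?_ (hb1 x hx e he n hn) (norm_nonneg _) (by positivity)
  simp only [hco]
  rw [norm_mul, norm_mul, norm_mul, norm_mul, norm_mul, norm_mul, RCLike.norm_conj,
    RCLike.norm_conj, RCLike.norm_conj]
  have h1 := norm_mu_le e
  have h2 : ‖((mu e : ℤ) : ℂ)‖ * ‖T x e‖ ≤ ‖T x e‖ :=
    mul_le_of_le_one_left (norm_nonneg _) h1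
  have h3 : ‖sy k₀ n‖ ≤ 1 := Char766.norm_sy_le (hTp n hn)
  have h4 : ‖sy k₀ x.1‖ ≤ 1 := Char766.norm_sy_le (hJ x hx)
  calc ‖α n‖ * ‖sy k₀ n‖ * (‖om x‖ * (‖sy k₀ x.1‖ * (‖th (x.2 * k₀)‖ *
        (‖((mu e : ℤ) : ℂ)‖ * ‖T x e‖))))
      ≤ ‖α n‖ * 1 * (‖om x‖ * (1 * (‖th (x.2 * k₀)‖ * ‖T x e‖))) := by gcongr
    _ = _ := by ring

end Crest.Agent.R017.ETp548
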