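import Crest.Agent.R017.P10Xa_764
import Crest.Agent.R017.ETp_548

/-!
# Row 17, exceptional class (helper548): the compensated cross tail in the frame `S8X`

for any family of sequences `al`, admissible data `ok` and configurations `L` :

* `EtG`, `PrG` : the compensated tail, its part in the classes `k₀ c³`, `k₀ ∈ Kf` (level form)
* `GkG`, `CsG` : the Gram sum of one level and the character sum (`NP2`) over the cube-free `k`
  of a block
-/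

set_option autoImplicit false
set_option linter.unusedSectionVars false
set_option linter.unusedVariables false

noncomputable section

open Finset
open scoped ComplexConjugate Classical

namespace Crest.Agent.R017.ETd548

open Crest.Agent.R012 Crest.Agent.R012.Eis Crest.Agent.R012.MC
open Crest.Agent.R017.CM106 (CS FS)
open Crest.Agent.R017.C70 (CbF JW)
open Crest.Agent.R017.B770
open Crest.Agent.R017.FE47 (SM)
open Crest.Agent.R017.XG702 (Pcs)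
open Crest.Agent.R017.Prov71
open Crest.Agent.R017.E2440 (StE Fh)
open Crest.Agent.R017.Ex385 (CrQ)
open Crest.Agent.R017.X6C180 (GF)
open Crest.Agent.R017.X6545 (TF Bd)
open Crest.Agent.R017.WDec180 (WD sc)
open Crest.Agent.R017.I1146 (LN)
open Crest.Agent.R017.XT71 (Sys Win mx)
open Crest.Agent.R017.End699 (prin0)
open Crest.Agent.R017.E5B71 Crest.Agent.R017.E5P571 Crest.Agent.R017.E5L770
open Crest.Agent.R017.ExBox960 Crest.Agent.R017.ExP960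
open Crest.Agent.R017.Sf770
open Crest.Agent.R017.P1e54 Crest.Agent.R017.P1f54 Crest.Agent.R017.P1k54
open Crest.Agent.R017.P1l54 (ParOK)
open Crest.Agent.R017.P1X960
open Crest.Agent.R017.P10X764 (nw alX clN nW_hi)

/-- a child; level `j`, block `i`, cube `m` -/
abbrev BkX := BcX × (ℕ × ℕ × Eis)

/-- exponents: `inr ()` = the family `2^(i+1)` -/
def S8Xk : Sys BkX (I8X ⊕ Unit) where
  ev X a := Sum.elim (S8X.ev X a.1) fun _ => ((a.2.2.1 : ℝ) + 1) * Real.log 2 / Real.log X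
  g _ := 1
  n _ := 0
  s₁ a := S8X.s₁ a.1
  s₂ a := max (S8X.s₂ a.1) (nm a.2.2.2)

/-- the shift of the second scale at the level `j` -/
def etL (a : BcX) (qs : List Pq) (j : ℕ) : ℝ :=
  max 0 (2 * LN (clN a qs) - 17 / 20 * a.1.l - Real.log 2 * j)

section
variable {Λ : Type*} (π : Λ → DPar) (al : Λ × Eis → BcX → List Pq → Eis → ℂ)
  (ok : Λ × Eis → BcX → List Pq → Prop) (e0 c : ℝ) (Kf : Λ × Eis → Finset Eis)

/-- level `j` of the structured function -/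
def stG (lam : Λ × Eis) (a : BcX) (qs : List Pq) (j : ℕ) : Eis → ℂ :=
  StE (Real.exp (e0 * a.1.l)) (JS (nw c a)) (omL j) (al lam a qs)

/-- **compensated tail**, level form -/
def EtG (Nw : Λ → ℕ) (Mw : Λ → ℝ) (Fw : Λ → ℕ → ℝ → ℂ) (lam : Λ × Eis) (a : BcX)
    (qs : List Pq) : ℝ :=
  if ok lam a qs then
    ∑ j ∈ range (nw c a), ∑ i ∈ range (Nw lam.1),
      ‖CrQ (GF (Fh (Fw lam.1 i) (etL a qs j))) (fun k => ¬ cutE (Real.exp (a.1.l / 20)) k)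
        (sc (Real.exp a.1.l) (Mw lam.1) i) (al lam a qs) (stG al e0 c lam a qs j)‖
  else 0

/-- the part of the classes `k₀ c³`, `k₀ ∈ Kf` -/
def PrG (Nw : Λ → ℕ) (Mw : Λ → ℝ) (Fw : Λ → ℕ → ℝ → ℂ) (lam : Λ × Eis) (a : BcX)
    (qs : List Pq) : ℝ :=
  if ok lam a qs then
    ∑ j ∈ range (nw c a), ∑ i ∈ range (Nw lam.1),
      ‖CrQ (GF (Fh (Fw lam.1 i) (etL a qs j)))
        (fun k => ¬ cutE (Real.exp (a.1.l / 20)) k ∧ ∃ k₀ ∈ Kf lam, ETp548.Ck k₀ k)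
        (sc (Real.exp a.1.l) (Mw lam.1) i) (al lam a qs) (stG al e0 c lam a qs j)‖
  else 0

/-- **Gram sum** : level `j`, block `i`, cube `m` -/
def GkG (lam : Λ × Eis) (a : BkX) (qs : List Pq) : ℝ :=
  if ok lam a.1 qs ∧ IsPrim a.2.2.2 ∧ a.2.1 < nw c a.1 then
    ∑ k ∈ (primBall (2 ^ (a.2.2.1 + 1))).filter (fun k => CbF k ∧ 2 ^ a.2.2.1 ≤ nm k),
      ‖stG al e0 c lam a.1 qs a.2.1 (a.2.2.2 ^ 3 * k)‖ ^ 2
  else 0

/-- **character sum** : block `i`, cube `m`; neither character principal at `s k` -/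
def CsG (lam : Λ × Eis) (a : BkX) (qs : List Pq) : ℝ :=
  if ok lam a.1 qs ∧ IsPrim a.2.2.2 then
    ∑ k ∈ (primBall (2 ^ (a.2.2.1 + 1))).filter
        (fun k => (CbF k ∧ 2 ^ a.2.2.1 ≤ nm k) ∧ (π lam.1).NP2 (lam.2 * k)),
      ‖CS (fun n => al lam a.1 qs n * prin0 a.2.2.2 n) k‖ ^ 2
  else 0

variable (β : ℝ) (Par : Set (Fin 3 ⊕ Fin 5 → ℝ)) (L : (IX5 → ℝ) → ℝ → ℝ → ℝ → Prop)
  (L0 : (Fin 3 ⊕ Fin 5 → ℝ) → ℝ)

/-- the configurations, families `0 ≤ k ≤ 17/20 κ` -/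
def DomKX : Set ((I8X ⊕ Unit → ℝ) × (Kd → ℝ)) :=
  {q | ((fun i => q.1 (.inl i)), q.2) ∈ Dom8X c β Par L ∧ 0 ≤ q.1 (.inr ()) ∧
    q.1 (.inr ()) ≤ 17 / 20 * cκ (prX (bp fun i => q.1 (.inl i)))}

/-- the room of the product -/
def RoomX (q : (I8X ⊕ Unit → ℝ) × (Kd → ℝ)) : ℝ :=
  2 * (E8X L0 ((fun i => q.1 (.inl i)), q.2) -
    (cκ (prX (bp fun i => q.1 (.inl i))) - q.1 (.inr ())) / 3)

/-- **Gram half** with the exponent `GE` -/
def GkGU (GE : (I8X ⊕ Unit → ℝ) × (Kd → ℝ) → ℝ) : Prop :=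
  UB S8Xk Dq (GkG al ok e0 c) (DomKX c β Par L) ∅ GE

/-- **character half** with the exponent `CE` -/
def CsGU (CE : (I8X ⊕ Unit → ℝ) × (Kd → ℝ) → ℝ) : Prop :=
  UB S8Xk Dq (CsG π al ok) (DomKX c β Par L) ∅ CE

/-- principal part, all lists -/
def PrGU : Prop :=
  ∀ R : Λ → ℝ, (∀ lam, 0 ≤ R lam) → ∀ (Nw : Λ → ℕ) (Mw : Λ → ℝ) (Fw : Λ → ℕ → ℝ → ℂ),
    (∀ lam, WD (wM (R lam)) (Nw lam) (Mw lam) (Fw lam)) →
    UB S8X Dq (PrG al ok e0 c Kf Nw Mw Fw) (Dom8X c β Par L) ∅ (E8X L0)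

/-- **compensated tail, all lists** -/
def EtGU : Prop :=
  ∀ R : Λ → ℝ, (∀ lam, 0 ≤ R lam) → ∀ (Nw : Λ → ℕ) (Mw : Λ → ℝ) (Fw : Λ → ℕ → ℝ → ℂ),
    (∀ lam, WD (wM (R lam)) (Nw lam) (Mw lam) (Fw lam)) →
    UB S8X Dq (EtG al ok e0 c Nw Mw Fw) (Dom8X c β Par L) ∅ (E8X L0)

end

end Crest.Agent.R017.ETd548
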