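import Crest.Agent.R017.P10Xa_764

/-!
# Row 17, exceptional class, P1X (helper764): `P10X` from the inputs

* `frameX` : the real inequalities of the frame
* **`p10X_of`** : `P10X` from `FBK` (708's `FBg` = flat bundle, kernel `Dk`), `BTl`, `E2XU`, `E3XU`
-/

set_option autoImplicit false
set_option linter.unusedSectionVars false

noncomputable section

open Finset MeasureTheory
open scoped ComplexConjugate Classical

namespace Crest.Agent.R017.P10X764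

open Crest.Agent.R012 Crest.Agent.R012.Eis Crest.Agent.R012.MC Crest.Agent.R012.Gauss880
open Crest.Agent.R012.LS2 (S mem_S)
open Crest.Agent.R012.Weight600 (osc norm_osc osc_add_right)
open Crest.Agent.R017.CM106 (CS FS TG)
open Crest.Agent.R017.C70
open Crest.Agent.R017.HP842 (Pc pc sqc alL)
open Crest.Agent.R017.B770
open Crest.Agent.R017.FE47 (PU cx SM)
open Crest.Agent.R017.Prov71
open Crest.Agent.R017.Leg381 (Pf alF SF LF natl alF_natl)
open Crest.Agent.R017.RG64 (Ht)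
open Crest.Agent.R017.E2440 (StE TE)
open Crest.Agent.R017.LB48 (CrP GrP)
open Crest.Agent.R017.X6C180 (GF)
open Crest.Agent.R017.WDec180 (WD sc)
open Crest.Agent.R017.I1146 hiding cN
open Crest.Agent.R017.I1K764
open Crest.Agent.R017.StD828 (ln)
open Crest.Agent.R017.StE828 (wD oD oD_zero oD_one log_nm_nonneg)
open Crest.Agent.R017.XG702 (Pcs)
open Crest.Agent.R017.XT71 (Sys Win mx)
open Crest.Agent.R017.UM71 Crest.Agent.R017.End699
open Crest.Agent.R017.E5B71 Crest.Agent.R017.E5P571 Crest.Agent.R017.E5L770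
open Crest.Agent.R017.ExBox960 Crest.Agent.R017.ExP960
open Crest.Agent.R017.Sf770
open Crest.Agent.R017.E5LX770 (nB)
open Crest.Agent.R017.P1e54 Crest.Agent.R017.P1f54 Crest.Agent.R017.P1k54
open Crest.Agent.R017.P1l54 (ParOK)
open Crest.Agent.R017.P1X960
open Crest.Agent.R017.Sup271 (NPm)
open Crest.Agent.R017.PX764 (Dk)
open Crest.Agent.R017.TM708 (PD R5)

/-! ### the flat bundle -/

/-- the loss of the family `Kf` (708's `LK`) -/
def LK (Kf : (Fin 5 → ℝ) → ℝ) (b : Fin 5 → ℝ) : ℝ := (Kf b - b 0) / 3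

/-- **the flat bundle for every kernel** : 708's `TK708.FBg (fun lam q l ps => SNK Kn q (π lam) h l ps)`
(`Kf` = family, `Tf` = bound of the levels) -/
def FBK {Λ : Type*} (π : Λ → DPar) (h : ℝ → ℝ) (Kn : Eis → Eis → ℂ) (Kf Tf : (Fin 5 → ℝ) → ℝ)
    (e1 : ℝ) (D5 : Set (Fin 5 → ℝ)) (ℓ : (Fin 5 → ℝ) → ℝ) : Prop :=
  ∀ ε : ℝ, 0 < ε → ∃ τ : ℝ, 0 < τ ∧ ∀ (lam : Λ) (N : ℕ) (B : ℝ), ∃ M₀ : ℕ, ∀ r : ℝ, 0 ≤ r →
    ∃ X₀ : ℝ, 1 < X₀ ∧
      ∀ X : ℝ, X₀ ≤ X → ∀ b ∈ D5, ∀ (q : Eis) (us : Fin 3 → Pq) (gs : List Pq) (κ H : ℝ),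
      PD X τ B H N b q us gs κ → ∀ T : ℝ, T ≤ (Tf b + τ) * Real.log X → ∀ θ : ℝ, 0 ≤ θ →
      T ≤ (Kf b - (b 1 + b 2 + b 3) / 2 - b 4 + 3 * θ + τ) * Real.log X → ∀ M : ℝ, (M₀ : ℝ) ≤ M →
      (b 0 / 2 - 2 * b 4 - τ) * Real.log X ≤ LN ([us 0, us 1, us 2] ++ gs) →
      FlatLK Kn h (π lam) q ([us 0, us 1, us 2] ++ gs) (X ^ B) r M κ T
        (H ^ M₀ * X ^ (LK Kf b + θ + ℓ b + ε)) ∧
      ∀ T₀ E : ℝ, (e1 * b 0 - τ) * Real.log X ≤ E →
        2 * LN ([us 0, us 1, us 2] ++ gs) - κ ≤ T₀ + (3 * LK Kf b + τ) * Real.log X →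
        TailK Kn h (π lam) q ([us 0, us 1, us 2] ++ gs) (X ^ B) r M κ T T₀ E
          (H ^ M₀ * X ^ (LK Kf b + θ + ℓ b + ε))

/-- the family against the levels -/
lemma tK_ok {κ N x tt sv : ℝ} (hx : 0 ≤ x) (h4 : x ≤ 0 ∨ 5 / 2 * N + 4 * x ≤ 2 * κ)
    (htt : tt ≤ min (2 * N - κ) (3 / 4 * N) + 3 * x) (hsv : sv ≤ N + x) :
    tt ≤ max κ (5 / 4 * N) - N / 2 - x ∧
      max tt (2 * sv - κ) ≤ max κ (5 / 4 * N) - N / 2 - x + max 0 (5 / 4 * N - κ) := by
  have h1 := min_le_left (2 * N - κ) (3 / 4 * N)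
  have h2 := min_le_right (2 * N - κ) (3 / 4 * N)
  have e : tt ≤ max κ (5 / 4 * N) - N / 2 - x := by
    rcases h4 with h | h
    · rcases max_cases κ (5 / 4 * N) with ⟨h3, h4⟩ | ⟨h3, h4⟩ <;> rw [h3] <;> linarith
    · have := le_max_left κ (5 / 4 * N)
      linarith
  refine ⟨e, max_le (by have := le_max_left 0 (5 / 4 * N - κ); linarith) ?_⟩
  have h5 := le_max_left 0 (5 / 4 * N - κ)
  have h6 := le_max_right 0 (5 / 4 * N - κ)
  rcases h4 with h | h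
  · rcases max_cases κ (5 / 4 * N) with ⟨h3, h4⟩ | ⟨h3, h4⟩ <;> rw [h3] <;> linarith
  · have := le_max_left κ (5 / 4 * N)
    linarith

/-! ### the range of the main form -/

lemma BB_Y {Y Y' : ℝ} (hS : S Y ⊆ S Y') {U V : Eis → ℂ} (hU : ∀ t ∈ S Y', t ∉ S Y → U t = 0)
    (hV : ∀ t ∈ S Y', t ∉ S Y → V t = 0) : I1146.BB Y U V = I1146.BB Y' U V := by
  unfold I1146.BB
  rw [← Finset.sum_subset hS (f := fun t => ∑ t' ∈ S Y', ((Mob705.mu t : ℂ) * (Mob705.mu t' : ℂ) *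
    (U t * conj (V t'))) * ((nm (DgA829.lc t t') : ℝ) : ℂ)⁻¹)]
  · refine Finset.sum_congr rfl fun t _ => ?_
    refine Finset.sum_subset hS fun t' ht' hn => ?_
    rw [hV t' ht' hn, map_zero, mul_zero, mul_zero, zero_mul]
  · intro t ht hn
    refine Finset.sum_eq_zero fun t' _ => ?_
    rw [hU t ht hn, zero_mul, mul_zero, zero_mul]

lemma X3_Y {Y Y' E0 : ℝ} (hY : 0 ≤ Y) (hYY : Y ≤ Y') {α : Eis → ℂ}
    (hα : ∀ n, α n ≠ 0 → n ∈ S Y) {J : Finset (Eis × Eis)} (hJ : ∀ x ∈ J, IsPrim x.1)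
    (om : Eis × Eis → ℂ) : X3 Y E0 J om α = X3 Y' E0 J om α := by
  unfold X3
  refine Finset.sum_congr rfl fun x hx => ?_
  have hS : S Y ⊆ S Y' := fun t ht => by
    obtain ⟨h1, h2, h3⟩ := (mem_S hY).1 ht
    exact (mem_S (hY.trans hYY)).2 ⟨h1.trans hYY, h2, h3⟩
  have h0 : ∀ t ∈ S Y', t ∉ S Y → trunc E0 (TE α x) t = 0 := by
    intro t ht hn
    unfold trunc
    rw [TE_zero hY hα (hJ x hx) ((mem_S (hY.trans hYY)).1 ht).2.1 hn]
    split_ifs <;> rfl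
  rw [BB_Y hS h0 h0]

lemma X2_Y {Y Y' E0 : ℝ} (hY : 0 ≤ Y) (hYY : Y ≤ Y') {α : Eis → ℂ}
    (hα : ∀ n, α n ≠ 0 → n ∈ S Y) {J : Finset (Eis × Eis)} (hJ : ∀ x ∈ J, IsPrim x.1)
    (om : Eis × Eis → ℂ) : X2 Y E0 J om α = X2 Y' E0 J om α := by
  unfold X2
  refine Finset.sum_congr rfl fun x hx => ?_
  have hS : S Y ⊆ S Y' := fun t ht => by
    obtain ⟨h1, h2, h3⟩ := (mem_S hY).1 ht
    exact (mem_S (hY.trans hYY)).2 ⟨h1.trans hYY, h2, h3⟩
  have h0 : ∀ t ∈ S Y', t ∉ S Y → trunc E0 (TE α x) t = 0 := by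
    intro t ht hn
    unfold trunc
    rw [TE_zero hY hα (hJ x hx) ((mem_S (hY.trans hYY)).1 ht).2.1 hn]
    split_ifs <;> rfl
  have h1 : ∀ t ∈ S Y', t ∉ S Y → TE α x t = 0 := by
    intro t ht hn
    exact TE_zero hY hα (hJ x hx) ((mem_S (hY.trans hYY)).1 ht).2.1 hn
  rw [BB_Y hS h1 h0]

/-! ### bookkeeping -/

lemma mass_am {X : ℝ} {ps : List Pq} (h : ∀ p ∈ ps, p.kd = .am) :
    Dq.mass X ps .am = LN ps / Real.log X := by
  induction ps with
  | nil => simp [Pcs.mass, LN]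
  | cons p ps ih =>
    rw [Pcs.mass_cons, ih fun q hq => h q (List.mem_cons_of_mem _ hq), if_pos]
    · unfold LN Pcs.nl
      rw [List.map_cons, List.sum_cons, add_div]
      rfl
    · rw [Dq_kind, h p List.mem_cons_self]

lemma Ht_pow {H : ℝ} (hH : 1 ≤ H) {ps : List Pq} (h : ∀ p ∈ ps, 1 + |p.t| ≤ H) :
    Ht (natl ps) ≤ H ^ ps.length := by
  induction ps with
  | nil => simp [natl]
  | cons p ps ih =>
    have h1 : Ht (natl (p :: ps)) = (1 + |p.t|) * Ht (natl ps) := rfl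
    rw [h1, List.length_cons, pow_succ, mul_comm (H ^ ps.length)]
    have h2 := RG64.one_le_Ht (natl ps)
    exact mul_le_mul (h p List.mem_cons_self) (ih fun q hq => h q (List.mem_cons_of_mem _ hq))
      (by linarith) (by linarith)

lemma clN_eq (a : BcX) (qs : List Pq) : clN a qs = [a.2.1 0, a.2.1 1, a.2.1 2] ++ qs := by
  unfold clN
  rw [ofFn3]

lemma LN_clN (a : BcX) (qs : List Pq) :
    LN (clN a qs) = (a.2.1 0).z + (a.2.1 1).z + (a.2.1 2).z + LN qs := by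
  rw [clN_eq]
  unfold LN
  simp only [List.cons_append, List.nil_append, List.map_cons, List.sum_cons]
  ring

lemma min_le_add {a b a' b' c : ℝ} (h1 : a ≤ a' + c) (h2 : b ≤ b' + c) :
    min a b ≤ min a' b' + c := by
  rw [← min_add_add_right]
  exact min_le_min h1 h2

/-- the top of the levels, perturbed -/
lemma tO_near {L δ κ N x l z A k3 : ℝ} (hL : 0 < L) (hδ : 0 ≤ δ) (hk0 : 0 ≤ k3) (hk : k3 ≤ 3)
    (hl : |l - κ * L| ≤ δ * L) (hz : |z - x * L| ≤ δ * L) (hA : |A - N * L| ≤ 3 * (δ * L)) :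
    |min (2 * A - l) (3 / 4 * A) + k3 * z - (min (2 * N - κ) (3 / 4 * N) + k3 * x) * L| ≤
      10 * (δ * L) := by
  obtain ⟨l1, l2⟩ := abs_le.1 hl
  obtain ⟨z1, z2⟩ := abs_le.1 hz
  obtain ⟨A1, A2⟩ := abs_le.1 hA
  have hδL : 0 ≤ δ * L := by positivity
  have hmin : min (2 * N - κ) (3 / 4 * N) * L = min (2 * (N * L) - κ * L) (3 / 4 * (N * L)) := by
    rw [min_mul_of_nonneg _ _ hL.le]
    congr 1 <;> ring
  have e1 : (min (2 * N - κ) (3 / 4 * N) + k3 * x) * L =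
      min (2 * (N * L) - κ * L) (3 / 4 * (N * L)) + k3 * (x * L) := by
    rw [add_mul, hmin]; ring
  rw [e1]
  have hmm : min (2 * A - l) (3 / 4 * A) ≤ min (2 * (N * L) - κ * L) (3 / 4 * (N * L)) +
      7 * (δ * L) := min_le_add (by linarith) (by linarith)
  have hmm' : min (2 * (N * L) - κ * L) (3 / 4 * (N * L)) ≤ min (2 * A - l) (3 / 4 * A) +
      7 * (δ * L) := min_le_add (by linarith) (by linarith)
  have h1 : k3 * (z - x * L) ≤ 3 * (δ * L) := by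
    calc k3 * (z - x * L) ≤ k3 * (δ * L) := mul_le_mul_of_nonneg_left z2 hk0
      _ ≤ 3 * (δ * L) := mul_le_mul_of_nonneg_right hk hδL
  have h2 : -(3 * (δ * L)) ≤ k3 * (z - x * L) := by
    have : k3 * (-(δ * L)) ≤ k3 * (z - x * L) := mul_le_mul_of_nonneg_left z1 hk0
    have h3 : k3 * (δ * L) ≤ 3 * (δ * L) := mul_le_mul_of_nonneg_right hk hδL
    linarith
  rw [abs_le]
  constructor <;> linarith

set_option maxHeartbeats 1000000 in
/-- **the real inequalities of the frame** (`tO` = top of the levels of the datum, `tt` = of the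
point) -/
lemma frameX {L δ τ κ N x l n y cs e₁ c b b' sv tO tt : ℝ} (hL : 0 < L) (hδ : 0 ≤ δ)
    (hδτ : δ ≤ τ / 100)
    (hτ : τ ≤ 1 / 8) (he₁ : e₁ = τ / 4) (hcs : Real.log 2 + cs ≤ τ / 8 * L) (hcs0 : 0 ≤ cs)
    (hc : 0 ≤ c) (hc1 : c ≤ 1)
    (hl : |l - κ * L| ≤ δ * L) (ht : |tO - tt * L| ≤ 10 * (δ * L))
    (ht2 : min (2 * N - κ) (3 / 4 * N) + 2 * x ≤ tt) (ht3 : tt ≤ min (2 * N - κ) (3 / 4 * N) + 3 * x)
    (hb : |b' - b * L| ≤ δ * L)
    (hn : n ≤ sv * L + 4 * (δ * L)) (hsv : sv ≤ N + x - b) (hb0 : 0 ≤ b)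
    (hκ : 0 ≤ κ) (hκ1 : κ ≤ 1) (hx : 0 ≤ x)
    (hN0 : κ ≤ 2 * N) (hN : N ≤ 102 / 125 * κ) (hx1 : x ≤ 1 / 36 * κ)
    (hadm : x ≤ 0 ∨ (N + x ≤ 4 / 5 * κ ∧ 2 * N + 5 * x ≤ 59 / 36 * κ))
    (hb1 : 2 * b ≤ tt + 2 * c * κ)
    (hy1 : y ≤ max 0 (min tO (tO + 2 * (c * l) - 2 * b')) + Real.log 2)
    (hy2 : min tO (tO + 2 * (c * l) - 2 * b') ≤ y) :
    max y (e₁ * L + 2 * n - l) + cs ≤
        (max (min tt (tt + 2 * (c * κ) - 2 * b)) (2 * sv - κ) + τ) * L ∧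
      max y (e₁ * L + 2 * n - l) + cs ≤ L ∧
      2 * n - l ≤ (y - Real.log 2) + (max κ (5 / 4 * N) - κ + τ) * L ∧ n ≤ L := by
  obtain ⟨l1, l2⟩ := abs_le.1 hl
  obtain ⟨t1, t2⟩ := abs_le.1 ht
  obtain ⟨b1, b2⟩ := abs_le.1 hb
  have hlog2 : 0 < Real.log 2 := Real.log_pos (by norm_num)
  have hδL : 0 ≤ δ * L := by positivity
  have hδL' : δ * L ≤ τ / 100 * L := mul_le_mul_of_nonneg_right hδτ hL.le
  have hτL : τ * L ≤ 1 / 8 * L := mul_le_mul_of_nonneg_right hτ hL.le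
  have hκL : 0 ≤ κ * L := by positivity
  have hκL1 : κ * L ≤ 1 * L := mul_le_mul_of_nonneg_right hκ1 hL.le
  have hxL : 0 ≤ x * L := by positivity
  have hbL : 0 ≤ b * L := by positivity
  have hNL : N * L ≤ 102 / 125 * (κ * L) := by
    have := mul_le_mul_of_nonneg_right hN hL.le
    linarith
  have hNL0 : κ * L ≤ 2 * (N * L) := by
    have := mul_le_mul_of_nonneg_right hN0 hL.le
    linarith
  have hxL1 : x * L ≤ 1 / 36 * (κ * L) := by
    have := mul_le_mul_of_nonneg_right hx1 hL.le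
    linarith
  have hsvL : sv * L ≤ N * L + x * L - b * L := by
    have := mul_le_mul_of_nonneg_right hsv hL.le
    linarith
  have hadmL : x * L ≤ 0 ∨ (N * L + x * L ≤ 4 / 5 * (κ * L) ∧
      2 * (N * L) + 5 * (x * L) ≤ 59 / 36 * (κ * L)) := by
    rcases hadm with h | ⟨h, h'⟩
    · exact Or.inl (mul_nonpos_of_nonpos_of_nonneg h hL.le)
    · right
      have e1 := mul_le_mul_of_nonneg_right h hL.le
      have e2 := mul_le_mul_of_nonneg_right h' hL.le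
      constructor <;> linarith
  -- the number `2 c κ` and `2 c l`
  have hcl1 : c * l ≤ c * (κ * L) + δ * L := by
    have h1 : c * (l - κ * L) ≤ 1 * (δ * L) :=
      (le_abs_self _).trans (by rw [abs_mul, abs_of_nonneg hc]; gcongr)
    linarith
  have hcl2 : c * (κ * L) - δ * L ≤ c * l := by
    have h1 : c * (κ * L - l) ≤ 1 * (δ * L) :=
      (le_abs_self _).trans (by
        rw [abs_mul, abs_of_nonneg hc, abs_sub_comm]; gcongr)
    linarith
  have hcκ : 0 ≤ c * (κ * L) := by positivity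
  have hmin : min (2 * N - κ) (3 / 4 * N) * L = min (2 * (N * L) - κ * L) (3 / 4 * (N * L)) := by
    rw [min_mul_of_nonneg _ _ hL.le]
    congr 1 <;> ring
  have hT : (max (min tt (tt + 2 * (c * κ) - 2 * b)) (2 * sv - κ) + τ) * L =
      max (min (tt * L) (tt * L + 2 * (c * (κ * L)) -
          2 * (b * L))) (2 * (sv * L) - κ * L) + τ * L := by
    rw [add_mul, max_mul_of_nonneg _ _ hL.le, min_mul_of_nonneg _ _ hL.le]
    congr 2
    · congr 1
      ring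
    · ring
  have hK : (max κ (5 / 4 * N) - κ + τ) * L =
      max (κ * L) (5 / 4 * (N * L)) - κ * L + τ * L := by
    rw [add_mul, sub_mul, max_mul_of_nonneg _ _ hL.le]
    congr 3
    ring
  have hb1L : 2 * (b * L) ≤ tt * L + 2 * (c * (κ * L)) := by
    have := mul_le_mul_of_nonneg_right hb1 hL.le
    linarith
  have ht2L : min (2 * (N * L) - κ * L) (3 / 4 * (N * L)) + 2 * (x * L) ≤ tt * L := by
    have := mul_le_mul_of_nonneg_right ht2 hL.le
    rw [add_mul, hmin] at this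
    linarith
  have ht3L : tt * L ≤ min (2 * (N * L) - κ * L) (3 / 4 * (N * L)) + 3 * (x * L) := by
    have := mul_le_mul_of_nonneg_right ht3 hL.le
    rw [add_mul, hmin] at this
    linarith
  rw [hT, hK]
  subst he₁
  set NL := N * L
  set xL := x * L
  set κL := κ * L
  set δL := δ * L
  set bL := b * L
  set sL := sv * L
  set tL := tt * L
  set cL := c * κL
  set τL := τ * L with hτL'
  have e4 : τ / 4 * L = τL / 4 := by rw [hτL']; ring
  have e8 : τ / 8 * L = τL / 8 := by rw [hτL']; ring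
  have e100 : τ / 100 * L = τL / 100 := by rw [hτL']; ring
  rw [e8] at hcs
  rw [e100] at hδL'
  rw [e4]
  set mN := min (2 * NL - κL) (3 / 4 * NL) with hmN
  have hmin0 : 0 ≤ mN := le_min (by linarith) (by linarith)
  have hmN1 : mN ≤ 2 * NL - κL := min_le_left _ _
  have hmN2 : mN ≤ 3 / 4 * NL := min_le_right _ _
  set tp := min tL (tL + 2 * cL - 2 * bL) with htp
  have htp0 : 0 ≤ tp := le_min (by linarith) (by linarith)
  have htp1 : tp ≤ tL := min_le_left _ _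
  have hy3 : y ≤ tp + 14 * δL + Real.log 2 := by
    refine hy1.trans ?_
    have : max 0 (min tO (tO + 2 * (c * l) - 2 * b')) ≤ tp + 14 * δL := by
      exact max_le (by linarith) (min_le_add (by linarith) (by linarith))
    linarith
  have hy4 : tp - 14 * δL ≤ y := by
    have h1 : tp ≤ min tO (tO + 2 * (c * l) - 2 * b') + 14 * δL :=
      min_le_add (by linarith) (by linarith)
    linarith
  have hTt : max tp (2 * sL - κL) ≤ 23 / 36 * κL := by
    refine max_le ?_ ?_ <;> rcases hadmL with h | ⟨h, h'⟩ <;> linarith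
  have hTa := le_max_left tp (2 * sL - κL)
  have hTb := le_max_right tp (2 * sL - κL)
  have g1 : max y (τL / 4 + 2 * n - l) + cs ≤ max tp (2 * sL - κL) + τL := by
    rcases max_cases y (τL / 4 + 2 * n - l) with ⟨h, -⟩ | ⟨h, -⟩ <;> rw [h] <;> linarith
  refine ⟨g1, g1.trans (by linarith), ?_, ?_⟩
  · have h5 := le_max_left κL (5 / 4 * NL)
    have h6 := le_max_right κL (5 / 4 * NL)
    have h7 : 2 * (NL + xL) - κL ≤ mN + 2 * xL + (max κL (5 / 4 * NL) - κL) := by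
      rcases min_cases (2 * NL - κL) (3 / 4 * NL) with ⟨h, -⟩ | ⟨h, -⟩ <;> rw [hmN, h] <;> linarith
    have h8 : 2 * (NL + xL) - κL - 2 * bL ≤ tp + (max κL (5 / 4 * NL) - κL) := by
      have h9 : 2 * (NL + xL) - κL - 2 * bL - (max κL (5 / 4 * NL) - κL) ≤ tp :=
        le_min (by linarith) (by linarith)
      linarith
    linarith
  · rcases hadmL with h | ⟨h, -⟩ <;> linarith

variable {Λ : Type*}

set_option maxHeartbeats 4000000 in
/-- **`P10X` from the inputs** -/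
theorem p10X_of {π : Λ → DPar} {h : ℝ → ℝ} {c₀ : ℝ} (hpu : PU h c₀) (hP : ∀ lam, (π lam).OK)
    (hex : ∀ lam, ¬ NPm (π lam).n (π lam).ψ (π lam).l₂ 1)
    {Rh : ℝ} (hRh0 : 0 ≤ Rh) (hRh : ∀ u, cx h u ≠ 0 → |u| ≤ Rh) {e0 e1 : ℝ} (he1 : e1 ≤ e0)
    (he0 : 0 ≤ e0) {c β : ℝ} (hc0 : 0 ≤ c) (hc1 : c ≤ 1) {Par : Set (Fin 3 ⊕ Fin 5 → ℝ)}
    {L0 : (Fin 3 ⊕ Fin 5 → ℝ) → ℝ} (hPar : ∀ p ∈ Par, ParOK p)
    (hx4 : ∀ p ∈ Par, cx' p ≤ 0 ∨ 5 / 2 * cN p + 4 * cx' p ≤ 2 * cκ p)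
    {D5 : Set (Fin 5 → ℝ)} {ℓ Kf Tf : (Fin 5 → ℝ) → ℝ}
    (hDN : ∀ p : IX5 → ℝ, prX p ∈ Par → ZR β p → bN p ∈ D5)
    (hDR : ∀ p : IX5 → ℝ, prX p ∈ Par → ZR β p → bR p ∈ D5)
    (hR5 : ∀ p : IX5 → ℝ, prX p ∈ Par → ZR β p → R5 (bN p))
    (hKN : ∀ p : IX5 → ℝ, prX p ∈ Par → ZR β p →
      max (cκ (prX p)) (5 / 4 * cN (prX p)) ≤ Kf (bN p))
    (hKR : ∀ p : IX5 → ℝ, prX p ∈ Par → ZR β p →
      max (cκ (prX p)) (5 / 4 * cN (prX p)) ≤ Kf (bR p))
    (hLN : ∀ p : IX5 → ℝ, prX p ∈ Par → ZR β p →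
      LK Kf (bN p) + max 0 (5 / 4 * cN (prX p) - cκ (prX p)) / 3 + ℓ (bN p) ≤ L0 (prX p))
    (hLR : ∀ p : IX5 → ℝ, prX p ∈ Par → ZR β p →
      LK Kf (bR p) + max 0 (5 / 4 * cN (prX p) - cκ (prX p)) / 3 + ℓ (bR p) ≤ L0 (prX p))
    (hL0 : ∀ p ∈ Par, 0 ≤ L0 p)
    (hfb : FBK π h Dk Kf Tf e1 D5 ℓ)
    (hbt : BTl c β Par L0 Tf)
    (he2 : E2XU π h e0 c Rh β Par L0) (he3 : E3XU π h e0 c Rh β Par L0) :
    P10X π h e0 c β Par L0 := by
  intro R hR
  intro ε hε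
  obtain ⟨τ₁, hτ₁, hfb⟩ := hfb (ε / 16) (by positivity)
  obtain ⟨δ₂, hδ₂, he2⟩ := he2 R hR (ε / 2) (by positivity)
  obtain ⟨δ₃, hδ₃, he3⟩ := he3 R hR (ε / 2) (by positivity)
  obtain ⟨τ, hτ, hττ₁, hτ8, hτε⟩ : ∃ τ : ℝ, 0 < τ ∧ τ ≤ τ₁ ∧ τ ≤ 1 / 8 ∧ τ ≤ ε / 16 :=
    ⟨min τ₁ (min (1 / 8) (ε / 16)), lt_min hτ₁ (lt_min (by norm_num) (by positivity)),
      min_le_left _ _, (min_le_right _ _).trans (min_le_left _ _),
      (min_le_right _ _).trans (min_le_right _ _)⟩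
  have he02 : 0 < 1 + e0 := by linarith
  obtain ⟨δ, hδ, hδ2, hδ3, hδτ, hδε, hδe⟩ : ∃ δ : ℝ, 0 < δ ∧ δ ≤ δ₂ ∧ δ ≤ δ₃ ∧
      δ ≤ τ / 100 ∧ δ ≤ ε / 100 ∧ e0 * δ ≤ τ := by
    refine ⟨min (min δ₂ δ₃) (min (min (τ / 100) (ε / 100)) (τ / (1 + e0))), ?_, ?_, ?_, ?_, ?_, ?_⟩
    · exact lt_min (lt_min hδ₂ hδ₃) (lt_min (lt_min (by positivity) (by positivity))
        (by positivity))
    · exact (min_le_left _ _).trans (min_le_left _ _)
    · exact (min_le_left _ _).trans (min_le_right _ _)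
    · exact (min_le_right _ _).trans ((min_le_left _ _).trans (min_le_left _ _))
    · exact (min_le_right _ _).trans ((min_le_left _ _).trans (min_le_right _ _))
    · have h1 : min (min δ₂ δ₃) (min (min (τ / 100) (ε / 100)) (τ / (1 + e0))) ≤ τ / (1 + e0) :=
        (min_le_right _ _).trans (min_le_right _ _)
      refine (mul_le_mul_of_nonneg_left h1 he0).trans ?_
      rw [mul_div_assoc', div_le_iff₀ he02]
      nlinarith
  refine ⟨δ, hδ, ?_⟩
  rintro ⟨lam, s⟩ N B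
  -- the constants
  by_cases hs0 : s = 0
  · refine ⟨1, one_pos, 2, by norm_num, ?_⟩
    intro X hX a qs _ _ q _ _ _ _ _
    have : ¬ (okCX (π lam) s a qs ∧ okD a) := fun hok => hok.1.2.1.1 hs0
    unfold ErX
    rw [if_neg this]
    positivity
  set B₂ : ℝ := max B 3 with hB₂
  have hBB : B ≤ B₂ := le_max_left _ _
  have hB3 : 3 ≤ B₂ := le_max_right _ _
  have hB0 : 0 < B₂ := by linarith
  obtain ⟨M₁, hfb⟩ := hfb lam N B₂
  set M : ℝ := (M₁ : ℝ) with hM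
  have hM0 : 0 ≤ M := Nat.cast_nonneg M₁
  have hε16 : 0 < ε / 16 := by positivity
  have hsn : (1 : ℝ) ≤ (nm s : ℝ) ^ 2 := one_le_pow₀ (by exact_mod_cast nm_pos.2 hs0)
  obtain ⟨C, r, hC, hr, HI⟩ := I1LEx (wgt_wM (R lam)) (wM_nonneg _) hpu (N + 3) hRh0 hRh
    (ε := ε / 16) (e₁ := τ / 4) (M := M) (B₂ := B₂) (B₃ := B₂) hε16 (by positivity) hM0 hB0
    hsn (Dd := ((ds s).card : ℝ)) (Nat.cast_nonneg _)
  obtain ⟨X₁, hX₁, hfb⟩ := hfb r hr
  obtain ⟨δ₂', hδ₂', X₄, hX₄, he2⟩ := he2 (lam, s) N B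
  obtain ⟨δ₃', hδ₃', X₅, hX₅, he3⟩ := he3 (lam, s) N B
  set m₀ : ℝ := (M₁ : ℝ) + 6 * (N + 3) + 1 with hm₀
  have hm₀1 : 0 < m₀ := by positivity
  obtain ⟨δ', hδ', hd2, hd3, hdM⟩ : ∃ δ' : ℝ, 0 < δ' ∧ δ' ≤ δ₂' ∧ δ' ≤ δ₃' ∧
      δ' ≤ ε / (16 * m₀) := by
    refine ⟨min (min δ₂' δ₃') (ε / (16 * m₀)), ?_, ?_, ?_, ?_⟩
    · exact lt_min (lt_min hδ₂' hδ₃') (by positivity)
    · exact (min_le_left _ _).trans (min_le_left _ _)
    · exact (min_le_left _ _).trans (min_le_right _ _)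
    · exact min_le_right _ _
  have hP0 := Cst401.pC_pos
  set cs : ℝ := Real.log ((nm s : ℝ) ^ 2) with hcs
  have hcs0 : 0 ≤ cs := Real.log_nonneg hsn
  set CC : ℝ := 6 * C + 2 * pC + pC ^ 2 + 1 with hCC
  have hCC1 : 1 ≤ CC := by
    have : 0 ≤ 6 * C + 2 * pC + pC ^ 2 := by positivity
    linarith
  have hlCC : 0 ≤ Real.log CC := Real.log_nonneg hCC1
  have hlog2 : 0 < Real.log 2 := Real.log_pos (by norm_num)
  have hn1 : (1 : ℝ) ≤ nm (π lam).n := by exact_mod_cast nm_pos.2 (hP lam).ψ.q0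
  set Q : ℝ := 2 + (((N + 3 : ℕ) : ℝ) * Rh + 1) + 8 * (Real.log 2 + cs) / τ +
    2 * Real.log CC / ε + Real.log (nm (π lam).n) with hQ
  have hQ1 : 0 ≤ ((N + 3 : ℕ) : ℝ) * Rh + 1 := by positivity
  have hQ2 : 0 ≤ 8 * (Real.log 2 + cs) / τ := by positivity
  have hQ3 : 0 ≤ 2 * Real.log CC / ε := by positivity
  have hQ4 : 0 ≤ Real.log (nm (π lam).n) := Real.log_nonneg hn1
  refine ⟨δ', hδ', max (max X₁ (max X₄ X₅)) (Real.exp Q), ?_, ?_⟩
  · exact lt_of_lt_of_le hX₁ ((le_max_left _ _).trans (le_max_left _ _))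
  intro X hX a qs hlen hgl q hq hw hm hg hl
  have hXa : max X₁ (max X₄ X₅) ≤ X := (le_max_left _ _).trans hX
  have hX1' : X₁ ≤ X := (le_max_left _ _).trans hXa
  have hX4' : X₄ ≤ X := (le_max_left _ _).trans ((le_max_right _ _).trans hXa)
  have hX5' : X₅ ≤ X := (le_max_right _ _).trans ((le_max_right _ _).trans hXa)
  have hXQ : Real.exp Q ≤ X := (le_max_right _ _).trans hX
  have hX1 : 1 < X := by linarith
  have hX0 : 0 < X := by linarith
  set L := Real.log X with hL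
  have hQL : Q ≤ L := by
    have := Real.log_le_log (Real.exp_pos Q) hXQ
    rwa [Real.log_exp] at this
  have hL2 : 2 ≤ L := by linarith
  have hL0' : 0 < L := by linarith
  have hX3 : 3 ≤ X := by
    have h1 : Real.exp 2 ≤ X := (Real.exp_le_exp.2 (by linarith)).trans hXQ
    have h2 := Real.add_one_le_exp 2
    linarith
  have hLN' : ((N + 3 : ℕ) : ℝ) * Rh + 1 ≤ L := by linarith
  have hLτ : Real.log 2 + cs ≤ τ / 8 * L := by
    have h1 : 8 * (Real.log 2 + cs) / τ ≤ L := by linarith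
    rw [div_le_iff₀ hτ] at h1
    linarith
  have hLC : CC ≤ X ^ (ε / 2) := by
    have h1 : 2 * Real.log CC / ε ≤ L := by linarith
    rw [div_le_iff₀ hε] at h1
    rw [Real.rpow_def_of_pos hX0, ← hL]
    rw [← Real.exp_log (show 0 < CC by linarith)]
    exact Real.exp_le_exp.2 (by linarith)
  have hnX : (nm (π lam).n : ℝ) ≤ X ^ B₂ := by
    have h1 : (nm (π lam).n : ℝ) ≤ X := by
      rw [← Real.exp_log (show (0 : ℝ) < nm (π lam).n by linarith), ← Real.exp_log hX0, ← hL]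
      exact Real.exp_le_exp.2 (by linarith)
    refine h1.trans ?_
    calc X = X ^ (1 : ℝ) := (Real.rpow_one X).symm
      _ ≤ X ^ B₂ := Real.rpow_le_rpow_of_exponent_le hX1.le (by linarith)
  -- not admissible
  by_cases hok : okCX (π lam) s a qs ∧ okD a
  swap
  · unfold ErX
    rw [if_neg hok]
    positivity
  obtain ⟨⟨hbok, hsm, hlmp, hamq, hb0⟩, hD0, hD1⟩ := hok
  have hok : okCX (π lam) s a qs ∧ okD a := ⟨⟨hbok, hsm, hlmp, hamq, hb0⟩, hD0, hD1⟩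
  -- the window
  obtain ⟨hq1, hq2, hq3, hq4⟩ := hq
  set p : IX5 → ℝ := bp q.1 with hp
  have hpar : prX p ∈ Par := hq1.par
  have hzr : ZR β p := hq1.zr
  have hPp := hPar _ hpar
  have hbN := hDN p hpar hzr
  have hbR := hDR p hpar hzr
  have hRb := hR5 p hpar hzr
  have hLNp := hLN p hpar hzr
  have hLRp := hLR p hpar hzr
  have hKNp := hKN p hpar hzr
  have hKRp := hKR p hpar hzr
  have hL0p := hL0 _ hpar
  set κ := cκ (prX p) with hκ
  set NN := cN (prX p) with hNN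
  set xx := cx' (prX p) with hxx
  set v₀ := q.1 (.inr 0) with hv₀
  set v₁ := q.1 (.inr 1) with hv₁
  set v₂ := q.1 (.inr 2) with hv₂
  set bb := q.1 (.inr 3) with hbb
  set x' := q.2 .am with hx'
  have hev : ∀ i, |S8X.ev X a i - q.1 i| ≤ δ := hw.ev
  have hdiv : ∀ {z c : ℝ}, |z / L - c| ≤ δ → |z - c * L| ≤ δ * L := by
    intro z c h1
    have h2 : z - c * L = (z / L - c) * L := by field_simp
    rw [h2, abs_mul, abs_of_pos hL0']
    exact mul_le_mul_of_nonneg_right h1 hL0'.le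
  have hk : |a.1.l - κ * L| ≤ δ * L := hdiv (hev (.inl (.inl (.inl 0))))
  have hz : |a.1.z - xx * L| ≤ δ * L := hdiv (hev (.inl (.inl (.inl 1))))
  have hu2 : |(a.1.us 2).z - cu (prX p) 2 * L| ≤ δ * L := hdiv (hev (.inl (.inl (.inr 2))))
  have hu3 : |(a.1.us 3).z - cu (prX p) 3 * L| ≤ δ * L := hdiv (hev (.inl (.inl (.inr 3))))
  have hu4 : |(a.1.us 4).z - cu (prX p) 4 * L| ≤ δ * L := hdiv (hev (.inl (.inl (.inr 4))))
  have hzs : |a.1.zs 2 - p (.inr 1) * L| ≤ δ * L := hdiv (hev (.inl (.inr 1)))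
  have hv0 : |(a.2.1 0).z - v₀ * L| ≤ δ * L := hdiv (hev (.inr 0))
  have hv1 : |(a.2.1 1).z - v₁ * L| ≤ δ * L := hdiv (hev (.inr 1))
  have hv2 : |(a.2.1 2).z - v₂ * L| ≤ δ * L := hdiv (hev (.inr 2))
  have hbw : |a.2.2 - bb * L| ≤ δ * L := hdiv (hev (.inr 3))
  have hma : |LN qs - x' * L| ≤ δ * L := by
    have h1 := hm .am
    rw [mass_am hamq] at h1
    exact hdiv h1
  have hA : |a3 a.1.toBd - NN * L| ≤ 3 * (δ * L) := by
    have e1 : a3 a.1.toBd - NN * L = ((a.1.us 2).z - cu (prX p) 2 * L) +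
        ((a.1.us 3).z - cu (prX p) 3 * L) + ((a.1.us 4).z - cu (prX p) 4 * L) := by
      rw [hNN]; unfold E5L770.a3 cN; ring
    rw [e1]
    refine (abs_add_le _ _).trans ?_
    have := abs_add_le ((a.1.us 2).z - cu (prX p) 2 * L) ((a.1.us 3).z - cu (prX p) 3 * L)
    linarith
  obtain ⟨k1, k2⟩ := abs_le.1 hk
  obtain ⟨z1, z2⟩ := abs_le.1 hz
  obtain ⟨u21, u22⟩ := abs_le.1 hu2
  obtain ⟨zs1, zs2⟩ := abs_le.1 hzs
  obtain ⟨v01, v02⟩ := abs_le.1 hv0
  obtain ⟨v11, v12⟩ := abs_le.1 hv1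
  obtain ⟨v21, v22⟩ := abs_le.1 hv2
  obtain ⟨m1, m2⟩ := abs_le.1 hma
  obtain ⟨A1, A2⟩ := abs_le.1 hA
  have hnat := hq2.1
  have w0 : 0 ≤ v₀ ∧ v₀ ≤ cu (prX p) 2 := ⟨hq1.v0, hnat.1⟩
  have w1 : 0 ≤ v₁ ∧ v₁ ≤ cu (prX p) 3 := ⟨hq1.v1, hnat.2.1⟩
  have w2 : 0 ≤ v₂ ∧ v₂ ≤ cu (prX p) 4 := ⟨hq1.v2, hnat.2.2⟩
  have hs1 : bb ≤ NN - (v₀ + v₁ + v₂) := hq1.s1
  have hx1 : x' ≤ xx := hq1.x1
  have hcN : NN = cu (prX p) 2 + cu (prX p) 3 + cu (prX p) 4 := rfl
  set n := LN (clN a qs) with hn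
  have hnz : n = (a.2.1 0).z + (a.2.1 1).z + (a.2.1 2).z + LN qs := LN_clN a qs
  have hLqs : 0 ≤ LN qs := by
    unfold LN
    refine List.sum_nonneg fun x hx => ?_
    obtain ⟨p', hp', rfl⟩ := List.mem_map.1 hx
    exact (hg p' hp').2.2
  have g0 := (hlmp 0).2
  have g1 := (hlmp 1).2
  have g2 := (hlmp 2).2
  have hδL : 0 ≤ δ * L := by positivity
  have w0L := mul_le_mul_of_nonneg_right w0.2 hL0'.le
  have w1L := mul_le_mul_of_nonneg_right w1.2 hL0'.le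
  have w2L := mul_le_mul_of_nonneg_right w2.2 hL0'.le
  have hx1L := mul_le_mul_of_nonneg_right hx1 hL0'.le
  have hq4L := mul_le_mul_of_nonneg_right hq4 hL0'.le
  have hκp : 0 ≤ κ := by linarith [hPp.κ0]
  have hκpL : 0 ≤ κ * L := by positivity
  set sv : ℝ := v₀ + v₁ + v₂ + x' with hsv
  have hnup : n ≤ sv * L + 4 * (δ * L) := by
    rw [hnz, hsv]
    linarith
  have hnlow : sv * L - 4 * (δ * L) ≤ n := by
    rw [hnz, hsv]
    linarith
  have hnlo : (κ / 2 - 2 * xx) * L - 4 * (δ * L) ≤ n := by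
    rw [hnz]
    linarith
  -- the region
  have e0b : bN p 0 = κ := rfl
  have e1b : bN p 1 = cu (prX p) 2 := rfl
  have e2b : bN p 2 = cu (prX p) 3 := rfl
  have e3b : bN p 3 = cu (prX p) 4 := rfl
  have e4b : bN p 4 = xx := rfl
  have f0b : bR p 0 = κ := rfl
  have f1b : bR p 1 = p (.inr 1) := rfl
  have f2b : bR p 2 = cu (prX p) 2 + cu (prX p) 3 - p (.inr 1) := rfl
  have f3b : bR p 3 = cu (prX p) 4 := rfl
  have f4b : bR p 4 = xx := rfl
  have rN := hRb.hN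
  have rx1 := hRb.x1
  have radm := hRb.adm
  rw [e1b, e2b, e3b, e0b, ← hcN] at rN
  rw [e4b, e0b] at rx1
  rw [e1b, e2b, e3b, e0b, e4b, ← hcN] at radm
  set Yt : ℝ := 2 ^ nw c a with hYt
  have hYt0 : 0 < Yt := by positivity
  set y : ℝ := Real.log Yt with hy
  have hyn : y = Real.log 2 * nw c a := by rw [hy, hYt, Real.log_pow, mul_comm]
  have hy1 : y ≤ max 0 (min (tO a.1.toBd) (tO a.1.toBd + 2 * (c * a.1.l) - 2 * a.2.2)) +
      Real.log 2 := by
    rw [hyn]; exact nW_hi c a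
  have hy2 : min (tO a.1.toBd) (tO a.1.toBd + 2 * (c * a.1.l) - 2 * a.2.2) ≤ y := by
    rw [hyn]; exact nW_lo c a
  have htO : |tO a.1.toBd - top5 (prX p) * L| ≤ 10 * (δ * L) := by
    unfold Sf770.tO E5L770.top5
    exact tO_near hL0' hδ.le (by norm_num) (by norm_num) hk hz hA
  have htt2 : min (2 * NN - κ) (3 / 4 * NN) + 2 * xx ≤ top5 (prX p) := by
    have := hPp.x0
    unfold E5L770.top5
    linarith
  have htt3 : top5 (prX p) ≤ min (2 * NN - κ) (3 / 4 * NN) + 3 * xx := by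
    have := hPp.x0
    unfold E5L770.top5
    linarith
  obtain ⟨F1, F2, F3, F4⟩ := frameX (L := L) (δ := δ) (τ := τ) (κ := κ) (N := NN)
    (x := xx) (l := a.1.l) (tO := tO a.1.toBd) (tt := top5 (prX p)) (n := n) (y := y) (cs := cs)
    (e₁ := τ / 4) (c := c) (b := bb) (b' := a.2.2) (sv := sv) hL0' hδ.le hδτ hτ8 rfl hLτ hcs0
    hc0 hc1 hk htO htt2 htt3 hbw hnup (by rw [hsv]; linarith) hq1.b0 hκp hPp.κ1 hPp.x0
    (by linarith [hPp.N0]) rN rx1 (by rcases radm with h | ⟨h, h', -⟩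
                                      · exact Or.inl h
                                      · exact Or.inr ⟨h, h'⟩) hq1.b1 hy1 hy2
  -- the sets
  set E0 := Real.exp (e0 * a.1.l) with hE0
  set K := Real.exp a.1.l with hK
  set Y' : ℝ := max Yt (X ^ (τ / 4) * Real.exp (2 * n - a.1.l)) with hY'
  have hY'0 : 0 < Y' := hYt0.trans_le (le_max_left _ _)
  have hlX : X ^ (τ / 4) * Real.exp (2 * n - a.1.l) = Real.exp (τ / 4 * L + 2 * n - a.1.l) := by
    rw [Real.rpow_def_of_pos hX0, ← Real.exp_add, ← hL]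
    congr 1
    ring
  have hlY' : Real.log Y' = max y (τ / 4 * L + 2 * n - a.1.l) := by
    rw [hY', hlX]
    have hm : Monotone fun x : ℝ => Real.exp x := Real.exp_monotone
    rw [← Real.exp_log hYt0, ← Real.exp_monotone.map_max, Real.log_exp]
  have hlT : Real.log (Y' * (nm s : ℝ) ^ 2) = max y (τ / 4 * L + 2 * n - a.1.l) + cs := by
    rw [Real.log_mul hY'0.ne' (by positivity), hlY']
  have hL5N : max κ (5 / 4 * NN) - κ ≤ 3 * LK Kf (bN p) := by
    have h1 : 3 * LK Kf (bN p) = Kf (bN p) - κ := by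
      unfold LK
      rw [e0b]
      ring
    linarith
  have hL5R : max κ (5 / 4 * NN) - κ ≤ 3 * LK Kf (bR p) := by
    have h1 : 3 * LK Kf (bR p) = Kf (bR p) - κ := by
      unfold LK
      rw [f0b]
      ring
    linarith
  have F3N : 2 * n - a.1.l ≤ y - Real.log 2 + (3 * LK Kf (bN p) + τ₁) * L := by
    refine F3.trans ?_
    have := mul_le_mul_of_nonneg_right (show max κ (5 / 4 * NN) - κ + τ ≤
      3 * LK Kf (bN p) + τ₁ by linarith) hL0'.le
    linarith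
  have F3R : 2 * n - a.1.l ≤ y - Real.log 2 + (3 * LK Kf (bR p) + τ₁) * L := by
    refine F3.trans ?_
    have := mul_le_mul_of_nonneg_right (show max κ (5 / 4 * NN) - κ + τ ≤
      3 * LK Kf (bR p) + τ₁ by linarith) hL0'.le
    linarith
  -- parent data
  set H : ℝ := X ^ δ' with hH
  have hH1 : 1 ≤ H := Real.one_le_rpow hX1.le hδ'.le
  have hs1' : ∀ i, Dq.s1 (a.2.1 i) ≤ H := by
    intro i
    have h1 : mx Dq.s1 (List.ofFn a.2.1) ≤ X ^ δ' := (le_max_right _ _).trans hw.s₁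
    exact (XT71.le_mx (List.mem_ofFn.2 ⟨i, rfl⟩)).trans h1
  have hs2' : ∀ i, Dq.s2 (a.2.1 i) ≤ X ^ B₂ := by
    intro i
    have h1 : mx Dq.s2 (List.ofFn a.2.1) ≤ X ^ B := (le_max_right _ _).trans hw.s₂
    exact ((XT71.le_mx (List.mem_ofFn.2 ⟨i, rfl⟩)).trans h1).trans
      (Real.rpow_le_rpow_of_exponent_le hX1.le hBB)
  have hgran : ∀ p' ∈ qs, p'.z ≤ δ * L := by
    intro p' hp'
    rcases hgl p' hp' with h1 | h1
    · exact absurd (hl p' hp' h1) (Set.notMem_empty _)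
    · unfold Pcs.nl at h1
      rw [div_le_iff₀ hL0'] at h1
      exact h1
  have hδτL : δ * L ≤ τ / 100 * L := mul_le_mul_of_nonneg_right hδτ hL0'.le
  have hτL : 0 ≤ τ * L := by positivity
  have hττL : τ * L ≤ τ₁ * L := mul_le_mul_of_nonneg_right hττ₁ hL0'.le
  have ham : ∀ p' ∈ qs, p'.kd = .am ∧ 0 ≤ p'.z ∧ p'.z ≤ τ₁ * Real.log X ∧
      (nm p'.d : ℝ) ≤ X ^ B₂ ∧ 1 + |p'.t| ≤ H := by
    intro p' hp'
    obtain ⟨s1', s2', z0'⟩ := hg p' hp'
    refine ⟨hamq p' hp', z0', ?_, s2'.trans (Real.rpow_le_rpow_of_exponent_le hX1.le hBB), s1'⟩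
    rw [← hL]
    have := hgran p' hp'
    linarith
  have hxqs : LN qs ≤ (xx + τ₁) * L := by linarith
  have hkk : |a.1.l - κ * L| ≤ τ₁ * L := hk.trans (by linarith)
  have hPDN : PD X τ₁ B₂ H N (bN p) 1 a.2.1 qs a.1.l := by
    refine ⟨one_ne_zero, ?_, hH1, fun i => (hlmp i).1, fun i => (hlmp i).2, fun i => hs2' i,
      fun i => hs1' i, ?_, ?_, ?_, ham, hlen, hxqs, hkk⟩
    · rw [nm_one, Nat.cast_one]
      exact Real.one_le_rpow hX1.le hB0.le
    · rw [← hL, e1b]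
      linarith
    · rw [← hL, e2b]
      linarith
    · rw [← hL, e3b]
      linarith
  have hPDR : PD X τ₁ B₂ H N (bR p) 1 (rzD a.2.1 (dz a.1)) qs a.1.l := by
    refine ⟨one_ne_zero, ?_, hH1, ?_, ?_, ?_, ?_, ?_, ?_, ?_, ham, hlen, hxqs, hkk⟩
    · rw [nm_one, Nat.cast_one]
      exact Real.one_le_rpow hX1.le hB0.le
    · intro i
      fin_cases i
      · exact (hlmp 0).1
      · exact (hlmp 1).1
      · exact (hlmp 2).1
    · intro i
      fin_cases i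
      · exact hD0
      · exact hD1
      · exact (hlmp 2).2
    · intro i
      fin_cases i
      · exact hs2' 0
      · exact hs2' 1
      · exact hs2' 2
    · intro i
      fin_cases i
      · exact hs1' 0
      · exact hs1' 1
      · exact hs1' 2
    · rw [← hL, f1b]
      show (a.2.1 0).z - dz a.1 ≤ _
      unfold dz
      linarith
    · rw [← hL, f2b]
      show (a.2.1 1).z + dz a.1 ≤ _
      unfold dz
      linarith
    · rw [← hL, f3b]
      show (a.2.1 2).z ≤ _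
      linarith
  have hcl : [a.2.1 0, a.2.1 1, a.2.1 2] ++ qs = clN a qs := (clN_eq a qs).symm
  set p1 := a.2.1 0 with hp1
  set p2 := a.2.1 1 with hp2
  set lr := a.2.1 2 :: qs with hlr
  set dd := p2.z + dz a.1 with hdd
  have hclN : clN a qs = p1 :: p2 :: lr := clN_eq a qs
  have hclR : [(rzD a.2.1 (dz a.1)) 0, (rzD a.2.1 (dz a.1)) 1, (rzD a.2.1 (dz a.1)) 2] ++ qs =
      rl p1 p2 lr dd := by
    rw [← ofFn3]
    exact (rl_eq a.2.1 (dz a.1) qs).symm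
  have hLNr : LN (rl p1 p2 lr dd) = n := by
    rw [LN_rl, ← hclN]
  have hlo : ∀ bq : Fin 5 → ℝ, bq 0 = κ → bq 4 = xx → ∀ lst : List Pq, LN lst = n →
      (bq 0 / 2 - 2 * bq 4 - τ₁) * L ≤ LN lst := by
    intro bq h0 h4 lst hlst
    rw [hlst, h0, h4]
    linarith
  have hbt1 := hbt.bt p v₀ v₁ v₂ bb x' hq1 hq2
  have htN := hbt.tN p v₀ v₁ v₂ bb x' hq1 hq2
  have htR := hbt.tR p v₀ v₁ v₂ bb x' hq1 hq2
  have htpW : tpW c p bb = min (top5 (prX p)) (top5 (prX p) + 2 * (c * κ) - 2 * bb) := rfl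
  rw [← htpW] at F1
  rw [← hκ] at hbt1 htN htR
  rw [← hsv] at hbt1 htN htR
  have hTleN : Real.log (Y' * (nm s : ℝ) ^ 2) ≤ (Tf (bN p) + τ₁) * Real.log X := by
    rw [hlT, ← hL]
    refine F1.trans (mul_le_mul_of_nonneg_right (by linarith) hL0'.le)
  have hTleR : Real.log (Y' * (nm s : ℝ) ^ 2) ≤ (Tf (bR p) + τ₁) * Real.log X := by
    rw [hlT, ← hL]
    refine F1.trans (mul_le_mul_of_nonneg_right (by linarith) hL0'.le)
  set th : ℝ := max 0 (5 / 4 * NN - κ) / 3 with hth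
  have hth0 : 0 ≤ th := by
    have := le_max_left 0 (5 / 4 * NN - κ)
    rw [hth]
    linarith
  have htpt : tpW c p bb ≤ top5 (prX p) := by rw [htpW]; exact min_le_left _ _
  have hsvN : sv ≤ NN + xx := by rw [hsv]; linarith [hq1.b0]
  have hK4 := (tK_ok hPp.x0 (hx4 _ hpar) (htpt.trans htt3) hsvN).2
  have h3th : 3 * th = max 0 (5 / 4 * NN - κ) := by rw [hth]; ring
  have hTKN : Real.log (Y' * (nm s : ℝ) ^ 2) ≤ (Kf (bN p) - (bN p 1 + bN p 2 + bN p 3) / 2 -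
      bN p 4 + 3 * th + τ₁) * Real.log X := by
    rw [hlT, ← hL, e1b, e2b, e3b, e4b, ← hcN, h3th]
    refine F1.trans (mul_le_mul_of_nonneg_right ?_ hL0'.le)
    linarith
  have hTKR : Real.log (Y' * (nm s : ℝ) ^ 2) ≤ (Kf (bR p) - (bR p 1 + bR p 2 + bR p 3) / 2 -
      bR p 4 + 3 * th + τ₁) * Real.log X := by
    rw [hlT, ← hL, f1b, f2b, f3b, f4b, h3th]
    refine F1.trans (mul_le_mul_of_nonneg_right ?_ hL0'.le)
    linarith
  obtain ⟨hFL, hTL⟩ := hfb X hX1' (bN p) hbN 1 a.2.1 qs a.1.l H hPDN _ hTleN th hth0 hTKN M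
    le_rfl (hlo (bN p) e0b e4b _ (by rw [hcl]))
  obtain ⟨hFR, hTR⟩ := hfb X hX1' (bR p) hbR 1 (rzD a.2.1 (dz a.1)) qs a.1.l H hPDR _ hTleR th hth0 hTKR M
    le_rfl (hlo (bR p) f0b f4b _ (by rw [hclR, hLNr]))
  set F : ℝ := H ^ M₁ * X ^ (LK Kf (bN p) + th + ℓ (bN p) + ε / 16) with hF
  set F' : ℝ := H ^ M₁ * X ^ (LK Kf (bR p) + th + ℓ (bR p) + ε / 16) with hF'
  have hF0 : 0 ≤ F := by positivity
  have hF0' : 0 ≤ F' := by positivity
  set T₀ : ℝ := Yt / 2 with hT₀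
  have hT₀0 : 0 < T₀ := by positivity
  have hlT₀ : Real.log T₀ = y - Real.log 2 := by
    rw [hT₀, Real.log_div hYt0.ne' (by norm_num)]
  have hlE : Real.log E0 = e0 * a.1.l := by rw [hE0, Real.log_exp]
  have hEE : (e1 * κ - τ₁) * L ≤ Real.log E0 := by
    rw [hlE]
    have h1 : e1 * κ ≤ e0 * κ := mul_le_mul_of_nonneg_right he1 hκp
    have h2 := mul_le_mul_of_nonneg_right h1 hL0'.le
    have h3 : e0 * (κ * L - δ * L) ≤ e0 * a.1.l :=
      mul_le_mul_of_nonneg_left (by linarith) he0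
    have h4 : e0 * δ * L ≤ τ * L := mul_le_mul_of_nonneg_right hδe hL0'.le
    linarith
  have hTL' := hTL (Real.log T₀) (Real.log E0) (by rw [e0b, ← hL]; exact hEE) (by
      rw [hcl, ← hn, hlT₀, ← hL]
      exact F3N)
  have hTR' := hTR (Real.log T₀) (Real.log E0) (by rw [f0b, ← hL]; exact hEE) (by
      rw [hclR, hLNr, hlT₀, ← hL]
      exact F3R)
  rw [hcl, hclN] at hFL hTL'
  rw [hclR] at hFR hTR'
  -- the inputs
  have hw' : ∀ {δ₀ δ₀' : ℝ}, δ ≤ δ₀ → δ' ≤ δ₀' → Win S8X q.1 δ₀ N B δ₀' X a :=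
    fun h1 h2 => hw.mono hX1.le h1 le_rfl le_rfl h2
  have hgl' : ∀ {δ₀ : ℝ}, δ ≤ δ₀ → ∀ p' ∈ qs, Dq.lump p' ∨ Dq.nl X p' ≤ δ₀ :=
    fun h1 p' hp' => (hgl p' hp').imp id fun h2 => h2.trans h1
  have hm' : ∀ {δ₀ : ℝ}, δ ≤ δ₀ → ∀ t, |Dq.mass X qs t - q.2 t| ≤ δ₀ :=
    fun h1 t => (hm t).trans h1
  have hg' : ∀ {δ₀' : ℝ}, δ' ≤ δ₀' → Dq.Good X δ₀' B qs :=
    fun h1 p' hp' => ⟨(hg p' hp').1.trans (Real.rpow_le_rpow_of_exponent_le hX1.le h1),
      (hg p' hp').2⟩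
  have hqD : q ∈ Dom8X c β Par DifL := ⟨hq1, hq2, hq3, hq4⟩
  set U : ℝ := X ^ (E8X L0 q + ε / 2) with hU
  have hU0 : 0 < U := by positivity
  have hE2 := he2 X hX4' a qs hlen (hgl' hδ2) q hqD (hw' hδ2 hd2) (hm' hδ2) (hg' hd2) hl
  have hE3 := he3 X hX5' a qs hlen (hgl' hδ3) q hqD (hw' hδ3 hd3) (hm' hδ3) (hg' hd3) hl
  unfold E2X at hE2
  unfold E3X at hE3
  rw [if_pos hok] at hE2 hE3
  -- the sequence
  have hdom := dom_xD (hP lam) h hsm a.2.1 (dz a.1) qs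
  have hlen3 : (p1 :: p2 :: lr).length ≤ N + 3 := by
    rw [hlr]
    simp only [List.length_cons]
    omega
  have hcz : ∀ p' ∈ p1 :: p2 :: lr, 0 ≤ p'.z := by
    intro p' hp'
    rw [hlr] at hp'
    simp only [List.mem_cons] at hp'
    rcases hp' with rfl | rfl | rfl | h1
    · exact g0
    · exact g1
    · exact g2
    · exact (hg p' h1).2.2
  have hn0 : 0 ≤ n := by rw [hnz]; positivity
  have hLNn : LN (p1 :: p2 :: lr) = n := by rw [← hclN]
  have hal : alX π h (lam, s) a qs = xD h (π lam) s a.2.1 (dz a.1) qs := rfl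
  have hYc0 : 0 ≤ YcX Rh a qs := (Real.exp_pos _).le
  have hsup : ∀ m, alX π h (lam, s) a qs m ≠ 0 → m ∈ S (YcX Rh a qs) := by
    intro m hm
    have hadm1 := Adm_list (h := h) (N := (clN a qs).length) hRh0 hRh (π lam) 1 (ps := clN a qs)
      le_rfl (Y := YcX Rh a qs) (Real.exp_le_exp.2 (by linarith))
    have hrlen : (rl p1 p2 lr dd).length = (clN a qs).length := by
      rw [hclN]
      unfold rl
      simp
    have hadm2 := Adm_list (h := h) (N := (clN a qs).length) hRh0 hRh (π lam) 1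
      (ps := rl p1 p2 lr dd) hrlen.le (Y := YcX Rh a qs) (Real.exp_le_exp.2 (by
        rw [hLNr]; linarith))
    by_contra hmS
    apply hm
    have h1 := hdom.le m
    have h2 : xN (π lam) h 1 p1 p2 lr dd m = 0 := by
      rw [xN_eq]
      have e1 : sqc 1 (alF 1 1 (π lam) h (natl (p1 :: p2 :: lr))) m = 0 := by
        by_contra h3
        apply hmS
        rw [hclN] at hadm1
        exact hadm1.sup m h3
      have e2 : sqc 1 (alF 1 1 (π lam) h (natl (rl p1 p2 lr dd))) m = 0 := by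
        by_contra h3
        apply hmS
        exact hadm2.sup m h3
      rw [e1, e2]
      simp
    have h3 : xN (π lam) h 1 (a.2.1 0) (a.2.1 1) (a.2.1 2 :: qs) ((a.2.1 1).z + dz a.1) m = 0 := h2
    rw [h3, norm_zero] at h1
    rw [hal]
    exact norm_le_zero_iff.1 (by simpa using h1)
  set Yr : ℝ := Real.exp (n + ((N + 3 : ℕ) : ℝ) * Rh + 1) with hYr
  have hYcYr : YcX Rh a qs ≤ Yr := by
    refine Real.exp_le_exp.2 ?_
    have : ((clN a qs).length : ℝ) * Rh ≤ ((N + 3 : ℕ) : ℝ) * Rh :=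
      mul_le_mul_of_nonneg_right (by rw [hclN]; exact_mod_cast hlen3) hRh0
    linarith
  have hYrX : Yr ≤ X ^ B₂ := by
    rw [Real.rpow_def_of_pos hX0, ← hL]
    refine Real.exp_le_exp.2 ?_
    have : L * 3 ≤ L * B₂ := mul_le_mul_of_nonneg_left hB3 hL0'.le
    linarith
  have hJo : JS (nw c a) = JW (Real.sqrt Yt) (1 / 10) Yt := rfl
  have hprim : ∀ x ∈ JS (nw c a), IsPrim x.1 := fun x hx => (okJ_JW _ _ _).prim x hx
  have hX3eq := X3_Y (E0 := E0) hYc0 hYcYr hsup hprim (omP (nw c a))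
  have hX2eq := X2_Y (E0 := E0) hYc0 hYcYr hsup hprim (omP (nw c a))
  have hom : ∀ x ∈ JS (nw c a), omP (nw c a) x = omW (nw c a) x := fun x hx => (omW_eq hx).symm
  have hX3om := X3_om (Y := Yr) (E0 := E0) hom (alX π h (lam, s) a qs)
  have hX2om := X2_om (Y := Yr) (E0 := E0) hom (alX π h (lam, s) a qs)
  have hstX : ∀ k, stX π h e0 c (lam, s) a qs k = StE E0 (JS (nw c a)) (omW (nw c a))
      (alX π h (lam, s) a qs) k := fun k => StE_om hom _ k
  set D' : ℝ := Real.sqrt Y' with hD'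
  have hYY' : Yt ≤ Y' := le_max_left _ _
  have hDD' : Real.sqrt Yt ≤ D' := Real.sqrt_le_sqrt hYY'
  have hK1 : 1 ≤ K := by
    rw [hK]
    apply Real.one_le_exp
    have h3 : 8 / 9 * L ≤ κ * L := mul_le_mul_of_nonneg_right hPp.κ0 hL0'.le
    have h4 : τ * L ≤ 1 / 8 * L := mul_le_mul_of_nonneg_right hτ8 hL0'.le
    linarith
  have hlK : Real.log K = a.1.l := by rw [hK, Real.log_exp]
  have hnsX : Y' * (nm s : ℝ) ^ 2 ≤ X := by
    rw [← Real.exp_log (show 0 < Y' * (nm s : ℝ) ^ 2 by positivity), ← Real.exp_log hX0, hlT]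
    exact Real.exp_le_exp.2 F2
  have hKY : Real.exp (2 * n) * X ^ (τ / 4) ≤ K * Y' := by
    have h1 : X ^ (τ / 4) * Real.exp (2 * n - a.1.l) ≤ Y' := le_max_right _ _
    have h2 := mul_le_mul_of_nonneg_left h1 (show 0 ≤ K by linarith)
    refine le_trans (le_of_eq ?_) h2
    rw [hK]
    have e : Real.exp (2 * n) = Real.exp a.1.l * Real.exp (2 * n - a.1.l) := by
      rw [← Real.exp_add]; congr 1; ring
    rw [e]
    ring
  have hB21 : (1 : ℝ) ≤ X ^ B₂ := Real.one_le_rpow hX1.le hB0.le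
  set s0 : ℝ := min (min p1.z p2.z) (min (p1.z - dz a.1) (p2.z + dz a.1)) with hs0'
  have ss1 : s0 ≤ p1.z := (min_le_left _ _).trans (min_le_left _ _)
  have ss2 : s0 ≤ p2.z := (min_le_left _ _).trans (min_le_right _ _)
  have ss3 : s0 ≤ p1.z + p2.z - dd := by
    have : s0 ≤ p1.z - dz a.1 := (min_le_right _ _).trans (min_le_left _ _)
    rw [hdd]
    linarith
  have ss4 : s0 ≤ dd := (min_le_right _ _).trans (min_le_right _ _)
  have hd0 : 0 ≤ dd := hD1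
  have hd1 : dd ≤ p1.z + p2.z := by
    have := hD0
    rw [hdd]
    linarith
  have key := HI X hX3 (π lam) (hP lam) (hP lam).ψ hnX (hex lam) 1 one_ne_zero (by
      rw [nm_one, Nat.cast_one]; exact hB21) p1 p2 lr (hlmp 0).1.2 (hlmp 1).1.2 (hlmp 0).1.1
    (hlmp 1).1.1 (hs2' 0) (hs2' 1) hlen3 hcz (by rw [hLNn]; exact F4) dd s0 hd0 hd1 ss1 ss2 ss3 ss4
    K Yr (Real.sqrt Yt) (1 / 10) Yt D' Y' T₀ E0 F F F' F' hK1 (by rw [hLNn]) hYrX
    (Real.sqrt_nonneg _) hYt0 hDD' hYY' (by rw [hD', Real.sq_sqrt hY'0.le]) hnsX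
    (by rw [hLNn]; exact hKY)
    (by norm_num) (Real.exp_pos _) hT₀0 hF0 hF0 hF0' hF0'
    (by rw [hlK]; exact hFL) (by rw [hlK]; exact hTL') (by rw [hlK]; exact hFR)
    (by rw [hlK]; exact hTR') (alX π h (lam, s) a qs) hdom
    (omW (nw c a)) (fun x => (omW_bd _ x).2) (fun x hx => omW_one hx)
    (fun x hx hn' => by rw [omW_eq hx]; exact P10146.omP_out hx hn')
    (fun k => cutE (Real.exp (a.1.l / 20)) k) U U (by
      have h1 : (fun k => if cutE (Real.exp (a.1.l / 20)) k then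
          stX π h e0 c (lam, s) a qs k else 0) = fun k => if cutE (Real.exp (a.1.l / 20)) k then
          StE E0 (JS (nw c a)) (omW (nw c a)) (alX π h (lam, s) a qs) k else 0 := by
        funext k
        rw [hstX k]
      rw [h1, hX2eq, hX2om] at hE2
      exact hE2) (by
      have h1 : (fun k => if cutE (Real.exp (a.1.l / 20)) k then
          stX π h e0 c (lam, s) a qs k else 0) = fun k => if cutE (Real.exp (a.1.l / 20)) k then
          StE E0 (JS (nw c a)) (omW (nw c a)) (alX π h (lam, s) a qs) k else 0 := by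
        funext k
        rw [hstX k]
      have h2 := (le_max_right _ _).trans hE3
      rw [h1, hX3eq, hX3om] at h2
      have h3 := sub_le_iff_le_add.1 h2
      rw [add_comm] at h3
      exact h3)
  have hnle : nw c a ≤ nO a.1.toBd := min_le_left _ _
  have hM2 : ErX π h e0 c R (lam, s) a qs = ∑' k : Eis, (if IsPrim k ∧
      cutE (Real.exp (a.1.l / 20)) k then wM (R lam) (nm k / K) *
        ‖CS (alX π h (lam, s) a qs) k - (pC : ℂ) * StE E0 (JW (Real.sqrt Yt) (1 / 10) Yt)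
          (omW (nw c a)) (alX π h (lam, s) a qs) k‖ ^ 2 else 0) := by
    unfold ErX
    rw [if_pos hok]
    unfold M2
    refine tsum_congr fun k => ?_
    have e1 : StE E0 (JS (nO a.1.toBd)) (omP (nw c a)) (alX π h (lam, s) a qs) k =
        StE E0 (JS (nw c a)) (omW (nw c a)) (alX π h (lam, s) a qs) k :=
      (StE_own hnle E0 _ k).trans (StE_om hom _ k)
    unfold uM P1f54.Er
    split_ifs
    · show _ * ‖CS (alX π h (lam, s) a qs) k - (pC : ℂ) *
        StE E0 (JS (nO a.1.toBd)) (omP (nw c a)) (alX π h (lam, s) a qs) k‖ ^ 2 = _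
      rw [e1]
      rfl
    · rw [zero_mul]
  rw [hM2]
  refine key.trans ?_
  rw [hLNn]
  -- the exponents
  have hE8 : E8X L0 q = κ + sv + L0 (prX p) := by
    have h1 : E8X L0 q = κ + (v₀ + v₁ + v₂) + x' + L0 (prX p) := rfl
    rw [h1, hsv]
    ring
  have hδε' : 10 * (δ * L) ≤ ε / 10 * L := by
    have := mul_le_mul_of_nonneg_right hδε hL0'.le
    linarith
  have hεL : 0 ≤ ε * L := by positivity
  have hKn : K * Real.exp n ≤ Real.exp ((κ + sv) * L + 5 * (δ * L)) := by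
    rw [hK, ← Real.exp_add]
    refine Real.exp_le_exp.2 ?_
    linarith
  have hXexp : ∀ z : ℝ, X ^ z = Real.exp (z * L) := fun z => by
    rw [Real.rpow_def_of_pos hX0, ← hL, mul_comm]
  have hHM : ∀ m : ℕ, (m : ℝ) ≤ m₀ → H ^ m ≤ Real.exp (ε / 16 * L) := by
    intro m hm'
    rw [hH, hXexp, ← Real.exp_nat_mul]
    refine Real.exp_le_exp.2 ?_
    have h1 : δ' * m₀ ≤ ε / 16 := by
      have := mul_le_mul_of_nonneg_right hdM hm₀1.le
      refine this.trans (le_of_eq ?_)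
      field_simp
    have h2 : (m : ℝ) * δ' ≤ ε / 16 := by
      refine le_trans ?_ h1
      rw [mul_comm]
      exact mul_le_mul_of_nonneg_left hm' hδ'.le
    calc (m : ℝ) * (δ' * L) = (m : ℝ) * δ' * L := by ring
      _ ≤ _ := mul_le_mul_of_nonneg_right h2 hL0'.le
  have hM₁m : (M₁ : ℝ) ≤ m₀ := by
    have : (0 : ℝ) ≤ (N : ℝ) := Nat.cast_nonneg _
    linarith
  have hFle : ∀ x : ℝ, x ≤ L0 (prX p) → H ^ M₁ * X ^ (x + ε / 16) ≤
      Real.exp (L0 (prX p) * L + ε / 4 * L) := by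
    intro x hx
    rw [hXexp]
    calc H ^ M₁ * Real.exp ((x + ε / 16) * L) ≤
          Real.exp (ε / 16 * L) * Real.exp ((x + ε / 16) * L) :=
          mul_le_mul_of_nonneg_right (hHM M₁ hM₁m) (Real.exp_pos _).le
      _ = Real.exp (x * L + ε / 8 * L) := by
          rw [← Real.exp_add]; congr 1; ring
      _ ≤ _ := by
          refine Real.exp_le_exp.2 ?_
          have : x * L ≤ L0 (prX p) * L := mul_le_mul_of_nonneg_right hx hL0'.le
          linarith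
  have hFN := hFle (LK Kf (bN p) + th + ℓ (bN p)) hLNp
  have hFR' := hFle (LK Kf (bR p) + th + ℓ (bR p)) hLRp
  have hFB : FbN K n s0 (Y' * (nm s : ℝ) ^ 2) (Ht (natl (p1 :: p2 :: lr))) ≤
      Real.exp (L0 (prX p) * L + ε / 4 * L) := by
    unfold FbN
    have h1 : Ht (natl (p1 :: p2 :: lr)) ≤ H ^ (N + 3) := by
      refine (Ht_pow hH1 ?_).trans (pow_le_pow_right₀ hH1 hlen3)
      intro p' hp'
      rw [hlr] at hp'
      simp only [List.mem_cons] at hp'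
      rcases hp' with rfl | rfl | rfl | h1
      · exact hs1' 0
      · exact hs1' 1
      · exact hs1' 2
      · exact (hg p' h1).1
    have h2 : Ht (natl (p1 :: p2 :: lr)) ^ 6 ≤ Real.exp (ε / 16 * L) := by
      refine (pow_le_pow_left₀ (by linarith [RG64.one_le_Ht (natl (p1 :: p2 :: lr))]) h1 6).trans ?_
      rw [← pow_mul]
      refine hHM _ ?_
      push_cast
      have : (0 : ℝ) ≤ (M₁ : ℝ) := Nat.cast_nonneg _
      rw [hm₀]
      linarith
    have h3 : (Y' * (nm s : ℝ) ^ 2 / K) ^ (1 / 3 : ℝ) =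
        Real.exp ((Real.log (Y' * (nm s : ℝ) ^ 2) - a.1.l) / 3) := by
      have hpos : 0 < Y' * (nm s : ℝ) ^ 2 / K := by positivity
      rw [Real.rpow_def_of_pos hpos, Real.log_div (by positivity) (by positivity), hlK]
      congr 1
      ring
    have h4 : (min (min v₀ v₁) (min (v₀ - (cu (prX p) 2 - p (.inr 1)))
        (v₁ + (cu (prX p) 2 - p (.inr 1))))) * L - 3 * (δ * L) ≤ s0 := by
      rw [sub_le_iff_le_add, hs0', ← min_add_add_right, ← min_add_add_right, ← min_add_add_right,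
        min_mul_of_nonneg _ _ hL0'.le, min_mul_of_nonneg _ _ hL0'.le,
        min_mul_of_nonneg _ _ hL0'.le]
      refine min_le_min (min_le_min (by linarith) (by linarith)) (min_le_min ?_ ?_)
      · unfold dz
        linarith
      · unfold dz
        linarith
    rw [h3]
    calc Ht (natl (p1 :: p2 :: lr)) ^ 6 * Real.exp (n / 3 - s0) *
          Real.exp ((Real.log (Y' * (nm s : ℝ) ^ 2) - a.1.l) / 3) ≤
          Real.exp (ε / 16 * L) * Real.exp (n / 3 - s0) *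
          Real.exp ((Real.log (Y' * (nm s : ℝ) ^ 2) - a.1.l) / 3) := by gcongr
      _ = Real.exp (ε / 16 * L + (n / 3 - s0) +
          (Real.log (Y' * (nm s : ℝ) ^ 2) - a.1.l) / 3) := by
          rw [← Real.exp_add, ← Real.exp_add]
      _ ≤ _ := by
          refine Real.exp_le_exp.2 ?_
          have h5 := mul_le_mul_of_nonneg_right hbt1 hL0'.le
          have h6 := F1
          rw [← hlT] at h6
          have h7 : τ * L ≤ ε / 16 * L := mul_le_mul_of_nonneg_right hτε hL0'.le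
          set mm := min (min v₀ v₁) (min (v₀ - (cu (prX p) 2 - p (.inr 1)))
            (v₁ + (cu (prX p) 2 - p (.inr 1))))
          set MM := max (tpW c p bb) (2 * sv - κ)
          linarith
  have h1F : 1 + F + F + F' + F' +
      FbN K n s0 (Y' * (nm s : ℝ) ^ 2) (Ht (natl (p1 :: p2 :: lr))) ≤
      6 * Real.exp (L0 (prX p) * L + ε / 4 * L) := by
    have : 1 ≤ Real.exp (L0 (prX p) * L + ε / 4 * L) := Real.one_le_exp (by positivity)
    linarith
  have hXe16 : X ^ (ε / 16) = Real.exp (ε / 16 * L) := hXexp _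
  have hUe : U = Real.exp ((κ + sv + L0 (prX p)) * L + ε / 2 * L) := by
    rw [hU, hE8, hXexp]
    congr 1
    ring
  have t1 : C * X ^ (ε / 16) * (K * Real.exp n) * (1 + F + F + F' + F' +
      FbN K n s0 (Y' * (nm s : ℝ) ^ 2) (Ht (natl (p1 :: p2 :: lr)))) ≤ 6 * C * U := by
    rw [hXe16]
    have hFb0 : 0 ≤ FbN K n s0 (Y' * (nm s : ℝ) ^ 2) (Ht (natl (p1 :: p2 :: lr))) :=
      FbN_nonneg (by linarith) (by positivity)
        (by linarith [RG64.one_le_Ht (natl (p1 :: p2 :: lr))]) _ _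
    have hS0 : 0 ≤ 1 + F + F + F' + F' +
        FbN K n s0 (Y' * (nm s : ℝ) ^ 2) (Ht (natl (p1 :: p2 :: lr))) := by linarith
    calc C * Real.exp (ε / 16 * L) * (K * Real.exp n) * (1 + F + F + F' + F' +
          FbN K n s0 (Y' * (nm s : ℝ) ^ 2) (Ht (natl (p1 :: p2 :: lr)))) ≤
          C * Real.exp (ε / 16 * L) * Real.exp ((κ + sv) * L + 5 * (δ * L)) *
            (6 * Real.exp (L0 (prX p) * L + ε / 4 * L)) := by
          gcongr
      _ = 6 * C * (Real.exp (ε / 16 * L) * Real.exp ((κ + sv) * L + 5 * (δ * L)) *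
            Real.exp (L0 (prX p) * L + ε / 4 * L)) := by ring
      _ ≤ 6 * C * U := by
          refine mul_le_mul_of_nonneg_left ?_ (by positivity)
          rw [hUe, ← Real.exp_add, ← Real.exp_add]
          refine Real.exp_le_exp.2 ?_
          linarith
  have hfin : 6 * C * U + 2 * pC * U + pC ^ 2 * U ≤ CC * U := by
    rw [hCC]
    have e1 : (6 * C + 2 * pC + pC ^ 2 + 1) * U = 6 * C * U + 2 * pC * U + pC ^ 2 * U + U := by
      ring
    rw [e1]
    linarith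
  calc _ ≤ 6 * C * U + 2 * pC * U + pC ^ 2 * U :=
        add_le_add (add_le_add t1 le_rfl) le_rfl
    _ ≤ CC * U := hfin
    _ ≤ X ^ (ε / 2) * U := mul_le_mul_of_nonneg_right hLC hU0.le
    _ = X ^ (E8X L0 q + ε) := by
        rw [hU, ← Real.rpow_add hX0]
        congr 1
        ring

end Crest.Agent.R017.P10X764
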