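import Crest.Agent.R017.E2La_764
import Crest.Agent.R017.ETd_548
import Crest.Agent.R017.P10Xb_764

/-!
# Row 17, exceptional class, P1X (helper764): the pieces of the cross error, generic

* `ShX`, `ShS` : T-numbers of a difference, of a single list;  `CBK` : the T-claims
* `JLs` : the sharp window around the smooth level `j`;  `cross_omL` : sum over the levels
* `RpG`, `EtGe`, `CrG`, `MnG` : R-functional, compensated tail, second scale, main term, for any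
  family of sequences `al`, admissible data `ok`, shift `et` (548's `ETd_548`)
-/

set_option autoImplicit false
set_option linter.unusedSectionVars false

noncomputable section

open Finset MeasureTheory
open scoped ComplexConjugate Classical

namespace Crest.Agent.R017.P10X764

open Crest.Agent.R012 Crest.Agent.R012.Eis Crest.Agent.R012.MC Crest.Agent.R012.Gauss880
open Crest.Agent.R012.LS2 (S mem_S)
open Crest.Agent.R012.Weight600 (osc norm_osc osc_add_right)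
open Crest.Agent.R017.CM106 (CS FS TG)
open Crest.Agent.R017.C70
open Crest.Agent.R017.HP842 (Pc pc sqc alL)
open Crest.Agent.R017.B770
open Crest.Agent.R017.FE47 (PU cx SM)
open Crest.Agent.R017.Prov71
open Crest.Agent.R017.Leg381 (Pf alF SF LF natl alF_natl)
open Crest.Agent.R017.RG64 (Ht)
open Crest.Agent.R017.E2440 (StE TE Fh)
open Crest.Agent.R017.Ex385 (CrQ)
open Crest.Agent.R017.LB48 (CrP GrP)
open Crest.Agent.R017.X6C180 (GF)
open Crest.Agent.R017.WDec180 (WD sc)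
open Crest.Agent.R017.I1146 hiding cN
open Crest.Agent.R017.I1K764
open Crest.Agent.R017.StD828 (ln)
open Crest.Agent.R017.StE828 (wD oD oD_zero oD_one log_nm_nonneg)
open Crest.Agent.R017.XG702 (Pcs)
open Crest.Agent.R017.XT71 (Sys Win mx)
open Crest.Agent.R017.UM71 Crest.Agent.R017.End699
open Crest.Agent.R017.E5B71 Crest.Agent.R017.E5P571 Crest.Agent.R017.E5L770
open Crest.Agent.R017.ExBox960 Crest.Agent.R017.ExP960
open Crest.Agent.R017.Sf770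
open Crest.Agent.R017.E5LX770 (nB)
open Crest.Agent.R017.P1e54 Crest.Agent.R017.P1f54 Crest.Agent.R017.P1k54
open Crest.Agent.R017.P1l54 (ParOK)
open Crest.Agent.R017.P1X960
open Crest.Agent.R017.Sup271 (NPm)
open Crest.Agent.R017.PX764 (Dk)
open Crest.Agent.R017.TM708 (PD R5)

/-! ### numbers -/

/-- the T-number of a difference: number `sh` of the lists, bias -/
def shB (s0 p : ℝ) (sh : ℝ → ℝ → ℝ → ℝ) (γ b v : ℝ) : ℝ := max (sh γ b v) (5 / 3 * p + bcx s0 γ b v)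

lemma lipS_shB {s0 p : ℝ} {sh : ℝ → ℝ → ℝ → ℝ} (h : LipS 3 sh) : LipS 3 (shB s0 p sh) := by
  intro γ b v b' v'
  have h0 := h γ b v b' v'
  have h1 := le_abs_self (b - b')
  have h2 := le_abs_self (v - v')
  have h3 := neg_abs_le (b - b')
  have h4 := neg_abs_le (v - v')
  have h5 := abs_nonneg (b - b')
  have h6 := abs_nonneg (v - v')
  unfold shB bcx
  set m := |b - b'| + |v - v'| with hm
  refine max_le ?_ ?_
  · have := le_max_left (sh γ b' v') (5 / 3 * p + (2 / 3 * (v' + b') - 5 / 3 * (γ + b') -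
      max 0 (s0 - (γ + b'))))
    linarith
  · have h7 := le_max_right (sh γ b' v') (5 / 3 * p + (2 / 3 * (v' + b') - 5 / 3 * (γ + b') -
      max 0 (s0 - (γ + b'))))
    have h8 : max 0 (s0 - (γ + b')) ≤ max 0 (s0 - (γ + b)) + |b - b'| := by
      have e1 := le_max_left 0 (s0 - (γ + b))
      have e2 := le_max_right 0 (s0 - (γ + b))
      exact max_le (by linarith) (by linarith)
    linarith

/-- the shortest of the four lengths -/
def s0X (a : BcX) : ℝ :=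
  min (min (a.2.1 0).z (a.2.1 1).z) (min ((a.2.1 0).z - dz a.1) ((a.2.1 1).z + dz a.1))

/-- the family -/
def k5X (a : BcX) : ℝ := max a.1.l (5 / 4 * a3 a.1.toBd)

/-- **the T-numbers of a difference** -/
def ShX (sh : ℝ → ℝ → ℝ → ℝ → ℝ → ℝ → ℝ) (a : BcX) (qs : List Pq) : ℝ → ℝ → ℝ → ℝ :=
  shB (s0X a) (LN (clN a qs)) (sh (k5X a) a.1.z (LN (clN a qs)))

/-- **the T-numbers of a single list** -/
def ShS (sh : ℝ → ℝ → ℝ → ℝ → ℝ → ℝ → ℝ) (a : BcX) (qs : List Pq) : ℝ → ℝ → ℝ → ℝ :=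
  shB 0 (LN (clN a qs)) (sh (k5X a) a.1.z (LN (clN a qs)))

/-- target minus `(2/3) p` -/
def TgX (a : BcX) (qs : List Pq) : ℝ := 4 / 3 * LN (clN a qs) + max 0 (5 / 4 * a3 a.1.toBd - a.1.l)

section
variable {Λ : Type*} (π : Λ → DPar) (h : ℝ → ℝ)

/-- **the T-claims for a kernel** : 708's `CBg (fun lam q l ps => SNK Kn q (π lam) h l ps)` with any
number `sh k5 x p` -/
def CBK (Kn : Eis → Eis → ℂ) (sh : ℝ → ℝ → ℝ → ℝ → ℝ → ℝ → ℝ) (Kf Tf : (Fin 5 → ℝ) → ℝ)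
    (D5 : Set (Fin 5 → ℝ)) (ℓ : (Fin 5 → ℝ) → ℝ) : Prop :=
  ∀ ε : ℝ, 0 < ε → ∃ τ : ℝ, 0 < τ ∧ ∀ (lam : Λ) (N : ℕ) (B : ℝ), ∃ M₀ : ℕ, ∀ r : ℝ, 0 ≤ r →
    ∃ X₀ : ℝ, 1 < X₀ ∧
      ∀ X : ℝ, X₀ ≤ X → ∀ b ∈ D5, ∀ (q : Eis) (us : Fin 3 → Pq) (gs : List Pq) (κ H : ℝ),
      PD X τ B H N b q us gs κ → ∀ T : ℝ, T ≤ (Tf b + τ) * Real.log X →
      T ≤ (Kf b - (b 1 + b 2 + b 3) / 2 - b 4 + τ) * Real.log X → ∀ M : ℝ, (M₀ : ℝ) ≤ M →
      (b 0 / 2 - 2 * b 4 - τ) * Real.log X ≤ LN ([us 0, us 1, us 2] ++ gs) →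
      ∀ E k5 x : ℝ, E ≤ (1 / 20 * b 0 + τ) * Real.log X →
        |k5 - Kf b * Real.log X| ≤ τ * Real.log X → |x - b 4 * Real.log X| ≤ τ * Real.log X →
        CellK Kn h (π lam) q ([us 0, us 1, us 2] ++ gs) (X ^ B) r M T E
          (H ^ M₀ * X ^ (ℓ b + ε)) (sh k5 x (LN ([us 0, us 1, us 2] ++ gs)))

end

/-! ### the frame -/

lemma frameY {L δ τ κ N x l y cs c b b' tO tt : ℝ} (hL : 0 < L) (hδ : 0 ≤ δ)
    (hδτ : δ ≤ τ / 100) (hcs : Real.log 2 + cs ≤ τ / 8 * L)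
    (hc : 0 ≤ c) (hc1 : c ≤ 1)
    (hl : |l - κ * L| ≤ δ * L) (ht : |tO - tt * L| ≤ 10 * (δ * L))
    (ht2 : min (2 * N - κ) (3 / 4 * N) + 2 * x ≤ tt)
    (hb : |b' - b * L| ≤ δ * L) (hx : 0 ≤ x) (hκ : 0 ≤ κ) (hN0 : κ ≤ 2 * N)
    (hb1 : 2 * b ≤ tt + 2 * c * κ)
    (hy1 : y ≤ max 0 (min tO (tO + 2 * (c * l) - 2 * b')) + Real.log 2) :
    y + cs ≤ (min tt (tt + 2 * (c * κ) - 2 * b) + τ) * L := by
  obtain ⟨l1, l2⟩ := abs_le.1 hl
  obtain ⟨t1, t2⟩ := abs_le.1 ht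
  obtain ⟨b1, b2⟩ := abs_le.1 hb
  have hδL : 0 ≤ δ * L := by positivity
  have hδL' : δ * L ≤ τ / 100 * L := mul_le_mul_of_nonneg_right hδτ hL.le
  have hcl1 : c * l ≤ c * (κ * L) + δ * L := by
    have h1 : c * (l - κ * L) ≤ 1 * (δ * L) :=
      (le_abs_self _).trans (by rw [abs_mul, abs_of_nonneg hc]; gcongr)
    linarith
  have hmin0 : 0 ≤ min (2 * N - κ) (3 / 4 * N) := le_min (by linarith) (by linarith)
  have htt0 : 0 ≤ tt := by linarith
  have hT : (min tt (tt + 2 * (c * κ) - 2 * b) + τ) * L =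
      min (tt * L) (tt * L + 2 * (c * (κ * L)) - 2 * (b * L)) + τ * L := by
    rw [add_mul, min_mul_of_nonneg _ _ hL.le]
    congr 2
    ring
  have htL : 0 ≤ tt * L := by positivity
  have hb1L : 2 * (b * L) ≤ tt * L + 2 * (c * (κ * L)) := by
    have := mul_le_mul_of_nonneg_right hb1 hL.le
    linarith
  rw [hT]
  have h1 : max 0 (min tO (tO + 2 * (c * l) - 2 * b')) ≤
      min (tt * L) (tt * L + 2 * (c * (κ * L)) - 2 * (b * L)) + 14 * (δ * L) := by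
    have h2 : 0 ≤ min (tt * L) (tt * L + 2 * (c * (κ * L)) - 2 * (b * L)) :=
      le_min htL (by linarith)
    exact max_le (by linarith) (min_le_add (by linarith) (by linarith))
  linarith

end Crest.Agent.R017.P10X764

namespace Crest.Agent.R017.E2G764

open Crest.Agent.R012 Crest.Agent.R012.Eis Crest.Agent.R012.MC Crest.Agent.R012.Gauss880
open Crest.Agent.R012.LS2 (S mem_S)
open Crest.Agent.R017.CM106 (CS FS TG)
open Crest.Agent.R017.C70
open Crest.Agent.R017.B770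
open Crest.Agent.R017.FE47 (PU cx SM)
open Crest.Agent.R017.Prov71
open Crest.Agent.R017.E2440 (StE TE Fh)
open Crest.Agent.R017.Ex385 (CrQ)
open Crest.Agent.R017.LB48 (CrP GrP)
open Crest.Agent.R017.X6C180 (GF)
open Crest.Agent.R017.WDec180 (WD sc)
open Crest.Agent.R017.I1146 hiding cN
open Crest.Agent.R017.I1K764
open Crest.Agent.R017.StD828 (ln)
open Crest.Agent.R017.XG702 (Pcs)
open Crest.Agent.R017.XT71 (Sys Win mx)
open Crest.Agent.R017.UM71 Crest.Agent.R017.End699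
open Crest.Agent.R017.E5B71 Crest.Agent.R017.E5P571 Crest.Agent.R017.E5L770
open Crest.Agent.R017.ExBox960 Crest.Agent.R017.ExP960
open Crest.Agent.R017.Sf770
open Crest.Agent.R017.P1e54 Crest.Agent.R017.P1f54 Crest.Agent.R017.P1k54
open Crest.Agent.R017.P1X960
open Crest.Agent.R017.P10X764

/-! ### the smooth levels -/

/-- the sharp window around the smooth level `j` -/
def JLs (j : ℕ) : Finset (Eis × Eis) :=
  JW (Real.sqrt (2 ^ (j + 1))) (2 ^ j / 4) (2 ^ (j + 1))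

lemma norm_omL_le (j : ℕ) (x : Eis × Eis) : ‖omL j x‖ ≤ 1 := by
  unfold omL wL
  exact StE828.hD_bd _

lemma JLs_sub {n j : ℕ} (hj : j < n) : JLs j ⊆ JS n := by
  intro x hx
  unfold JLs at hx
  unfold Sf770.JS
  have h2 : (2 : ℝ) ^ (j + 1) ≤ 2 ^ n := pow_le_pow_right₀ (by norm_num) hj
  have h1 : (1 : ℝ) ≤ 2 ^ j := one_le_pow₀ (by norm_num)
  have hx' := JW_mono (Lo := 2 ^ j / 4) h2 hx
  rw [mem_JWs] at hx' ⊢
  obtain ⟨g1, g2, g3, g4, g5, g6⟩ := hx'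
  exact ⟨g1, g2, g3, g4, by linarith, g6⟩

lemma mem_JLs {n j : ℕ} {x : Eis × Eis} (hx : x ∈ JS n) (h0 : omL j x ≠ 0) : x ∈ JLs j := by
  unfold Sf770.JS at hx
  unfold JLs
  rw [mem_JWs] at hx ⊢
  obtain ⟨⟨h1, h2⟩, h3, h4, h5, h6, h7⟩ := hx
  have h8 := omL_supp h0
  obtain ⟨h9, h10⟩ := abs_le.1 h8
  have hpos : (0 : ℝ) < nm (x.2 * x.1 ^ 2) := by linarith
  have hx2 : x.2 ≠ 0 := by
    rintro h0
    rw [h0, zero_mul, nm_zero] at h6
    norm_num at h6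
  have e1 : (nm (x.2 * x.1 ^ 2) : ℝ) = nm x.2 * (nm x.1 : ℝ) ^ 2 := by
    rw [nm_mul, nm_pow]; push_cast; ring
  have g1 : (1 : ℝ) ≤ nm x.1 := by exact_mod_cast nm_pos.2 h1.ne_zero
  have g2 : (1 : ℝ) ≤ nm x.2 := by exact_mod_cast nm_pos.2 hx2
  have hup : (nm (x.2 * x.1 ^ 2) : ℝ) ≤ 2 ^ (j + 1) := by
    rw [← Real.exp_log hpos, ← Real.exp_log (show (0 : ℝ) < 2 ^ (j + 1) by positivity)]
    refine Real.exp_le_exp.2 ?_
    rw [Real.log_pow]
    unfold lv at h10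
    push_cast
    linarith
  have hlo : (2 : ℝ) ^ j / 4 < nm (x.2 * x.1 ^ 2) := by
    rw [← Real.exp_log hpos, ← Real.exp_log (show (0 : ℝ) < 2 ^ j / 4 by positivity)]
    refine Real.exp_lt_exp.2 ?_
    have e4 : Real.log (2 ^ j / 4) = Real.log 2 * j - 2 * Real.log 2 := by
      rw [Real.log_div (by positivity) (by norm_num), Real.log_pow,
        show (4 : ℝ) = 2 ^ 2 by norm_num, Real.log_pow]
      push_cast
      ring
    rw [e4]
    unfold lv at h9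
    have := Real.log_pos (show (1 : ℝ) < 2 by norm_num)
    linarith
  rw [e1] at hup
  refine ⟨⟨h1, ?_⟩, ?_, h4, h5, hlo, by rw [e1]; exact hup⟩
  · apply Real.le_sqrt_of_sq_le
    nlinarith [sq_nonneg (nm x.1 : ℝ)]
  · rw [mem_ball]
    apply Nat.le_floor
    have : (nm x.2 : ℝ) * 1 ≤ nm x.2 * (nm x.1 : ℝ) ^ 2 :=
      mul_le_mul_of_nonneg_left (one_le_pow₀ g1) (by linarith)
    linarith

lemma StE_JLs {n j : ℕ} (hj : j < n) (E0 : ℝ) (α : Eis → ℂ) (k : Eis) :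
    StE E0 (JS n) (omL j) α k = StE E0 (JLs j) (omL j) α k := by
  unfold E2440.StE
  symm
  refine Finset.sum_subset (JLs_sub hj) fun x hx hn => ?_
  have : omL j x = 0 := by
    by_contra h0
    exact hn (mem_JLs hx h0)
  rw [this, zero_mul]

lemma X2_JLs {n j : ℕ} (hj : j < n) (Y E0 : ℝ) (α : Eis → ℂ) :
    X2 Y E0 (JS n) (omL j) α = X2 Y E0 (JLs j) (omL j) α := by
  unfold I1146.X2
  symm
  refine Finset.sum_subset (JLs_sub hj) fun x hx hn => ?_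
  have : omL j x = 0 := by
    by_contra h0
    exact hn (mem_JLs hx h0)
  rw [this, map_zero, zero_mul, zero_mul]

lemma StE_omP (E0 : ℝ) (J : Finset (Eis × Eis)) (α : Eis → ℂ) (n : ℕ) (k : Eis) :
    StE E0 J (omP n) α k = ∑ j ∈ range n, StE E0 J (omL j) α k := by
  unfold E2440.StE omP
  rw [Finset.sum_comm]
  exact Finset.sum_congr rfl fun x _ => Finset.sum_mul _ _ _

lemma X2_omP (Y E0 : ℝ) (J : Finset (Eis × Eis)) (α : Eis → ℂ) (n : ℕ) :
    X2 Y E0 J (omP n) α = ∑ j ∈ range n, X2 Y E0 J (omL j) α := by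
  unfold I1146.X2 omP
  rw [Finset.sum_comm]
  refine Finset.sum_congr rfl fun x _ => ?_
  rw [map_sum, Finset.sum_mul, Finset.sum_mul]

/-- **the cross error is at most the sum of the cross errors of the smooth levels** -/
theorem cross_omL {w : ℝ → ℝ} (hw : Wgt w) {K : ℝ} (hK : 0 < K) (α : Eis → ℂ) (Q : Eis → Prop)
    (Y E0 : ℝ) (J : Finset (Eis × Eis)) (n : ℕ) (m : ℂ) :
    ‖CrP w K α (fun k => if Q k then StE E0 J (omP n) α k else 0) - m * X2 Y E0 J (omP n) α‖ ≤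
      ∑ j ∈ range n, ‖CrP w K α (fun k => if Q k then StE E0 J (omL j) α k else 0) -
        m * X2 Y E0 J (omL j) α‖ := by
  have e1 : (fun k => if Q k then StE E0 J (omP n) α k else 0) =
      fun k => ∑ j ∈ range n, if Q k then StE E0 J (omL j) α k else 0 := by
    funext k
    split_ifs
    · exact StE_omP _ _ _ _ _
    · rw [Finset.sum_const_zero]
  rw [e1, CrP_sum hw hK, X2_omP, Finset.mul_sum, ← Finset.sum_sub_distrib]
  exact norm_sum_le _ _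

/-! ### the pieces -/

section
variable {Λ : Type*} (al : Λ × Eis → BcX → List Pq → Eis → ℂ)
  (ok : Λ × Eis → BcX → List Pq → Prop) (e0 c : ℝ) (et : BcX → List Pq → ℕ → ℝ)

/-- **R-functional** (compensated weight pieces, level by level) -/
def RpG (Sh : BcX → List Pq → ℝ → ℝ → ℝ → ℝ) (Nw : Λ → ℕ) (Mw : Λ → ℝ) (Fw : Λ → ℕ → ℝ → ℂ)
    (lam : Λ × Eis) (a : BcX) (qs : List Pq) : ℝ :=
  if ok lam a qs then
    ∑ j ∈ range (nw c a), ∑ m ∈ range (Nw lam.1),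
      RPb (rhoS (TgX a qs) a.1.l (Sh a qs)) (al lam a qs)
        (sc (Real.exp a.1.l) (Mw lam.1) m) (GF (Fh (Fw lam.1 m) (et a qs j)))
        (S (Real.sqrt (2 ^ (j + 1)))) (j + 2) (Real.exp (e0 * a.1.l)) (2 ^ (j + 1)) (2 ^ j / 4)
  else 0

/-- **compensated tail** (548's `EtG` with a free shift) -/
def EtGe (Nw : Λ → ℕ) (Mw : Λ → ℝ) (Fw : Λ → ℕ → ℝ → ℂ) (lam : Λ × Eis) (a : BcX)
    (qs : List Pq) : ℝ :=
  if ok lam a qs then
    ∑ j ∈ range (nw c a), ∑ i ∈ range (Nw lam.1),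
      ‖CrQ (GF (Fh (Fw lam.1 i) (et a qs j))) (fun k => ¬ cutE (Real.exp (a.1.l / 20)) k)
        (sc (Real.exp a.1.l) (Mw lam.1) i) (al lam a qs) (ETd548.stG al e0 c lam a qs j)‖
  else 0

/-- **the second scale** -/
def CrG (R : Λ → ℝ) (lam : Λ × Eis) (a : BcX) (qs : List Pq) : ℝ :=
  if ok lam a qs then
    ∑ j ∈ range (nw c a), Real.exp (et a qs j / 3) *
      ‖CrP (wM (R lam.1)) (Real.exp a.1.l * Real.exp (-(et a qs j))) (al lam a qs)
        (fun k => if cutE (Real.exp (a.1.l / 20)) k then ETd548.stG al e0 c lam a qs j k else 0)‖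
  else 0

/-- **the main term** -/
def MnG (Rh : ℝ) (R : Λ → ℝ) (lam : Λ × Eis) (a : BcX) (qs : List Pq) : ℝ :=
  if ok lam a qs then
    ∑ j ∈ range (nw c a), Real.exp (-(et a qs j / 3)) *
      ‖((pC * c3 (wM (R lam.1)) (Real.exp a.1.l) : ℝ) : ℂ) *
        X2 (YcX Rh a qs) (Real.exp (e0 * a.1.l)) (JS (nw c a)) (omL j) (al lam a qs)‖
  else 0

variable (β : ℝ) (Par : Set (Fin 3 ⊕ Fin 5 → ℝ)) (L : (IX5 → ℝ) → ℝ → ℝ → ℝ → Prop)
  (L0 : (Fin 3 ⊕ Fin 5 → ℝ) → ℝ)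

/-- R-functional, all lists -/
def RpGU (Sh : BcX → List Pq → ℝ → ℝ → ℝ → ℝ) : Prop :=
  ∀ R : Λ → ℝ, (∀ lam, 0 ≤ R lam) → ∀ (Nw : Λ → ℕ) (Mw : Λ → ℝ) (Fw : Λ → ℕ → ℝ → ℂ),
    (∀ lam, WD (wM (R lam)) (Nw lam) (Mw lam) (Fw lam)) →
    UB S8X Dq (RpG al ok e0 c et Sh Nw Mw Fw) (Dom8X c β Par L) ∅ (E8X L0)

/-- compensated tail, all lists -/
def EtGeU : Prop :=
  ∀ R : Λ → ℝ, (∀ lam, 0 ≤ R lam) → ∀ (Nw : Λ → ℕ) (Mw : Λ → ℝ) (Fw : Λ → ℕ → ℝ → ℂ),
    (∀ lam, WD (wM (R lam)) (Nw lam) (Mw lam) (Fw lam)) →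
    UB S8X Dq (EtGe al ok e0 c et Nw Mw Fw) (Dom8X c β Par L) ∅ (E8X L0)

/-- the second scale, all lists -/
def CrGU : Prop :=
  ∀ R : Λ → ℝ, (∀ lam, 0 ≤ R lam) →
    UB S8X Dq (CrG al ok e0 c et R) (Dom8X c β Par L) ∅ (E8X L0)

/-- the main term, all lists -/
def MnGU (Rh : ℝ) : Prop :=
  ∀ R : Λ → ℝ, (∀ lam, 0 ≤ R lam) →
    UB S8X Dq (MnG al ok e0 c et Rh R) (Dom8X c β Par L) ∅ (E8X L0)

/-- 548's compensated tail -/
lemma etGeU_of (H : ETd548.EtGU al ok e0 c β Par L L0) :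
    EtGeU al ok e0 c ETd548.etL β Par L L0 := H

end

end Crest.Agent.R017.E2G764
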