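import Crest.Agent.R017.E2G_764

/-!
# Row 17, exceptional class, P1X (helper764): `E2XU` from the pieces

* `okX` : admissible data
* **`e2X_of`** : `E2XU` from `CBK`, `RpGU`, `EtGeU`, `CrGU`, `MnGU`
-/

set_option autoImplicit false
set_option linter.unusedSectionVars false

noncomputable section

open Finset MeasureTheory
open scoped ComplexConjugate Classical

namespace Crest.Agent.R017.P10X764

open Crest.Agent.R012 Crest.Agent.R012.Eis Crest.Agent.R012.MC Crest.Agent.R012.Gauss880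
open Crest.Agent.R012.LS2 (S mem_S)
open Crest.Agent.R012.Weight600 (osc norm_osc osc_add_right)
open Crest.Agent.R017.CM106 (CS FS TG)
open Crest.Agent.R017.C70
open Crest.Agent.R017.HP842 (Pc pc sqc alL)
open Crest.Agent.R017.B770
open Crest.Agent.R017.FE47 (PU cx SM)
open Crest.Agent.R017.Prov71
open Crest.Agent.R017.Leg381 (Pf alF SF LF natl alF_natl)
open Crest.Agent.R017.RG64 (Ht)
open Crest.Agent.R017.E2440 (StE TE Fh)
open Crest.Agent.R017.Ex385 (CrQ)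
open Crest.Agent.R017.LB48 (CrP GrP)
open Crest.Agent.R017.X6C180 (GF)
open Crest.Agent.R017.WDec180 (WD sc)
open Crest.Agent.R017.I1146 hiding cN
open Crest.Agent.R017.I1K764
open Crest.Agent.R017.StD828 (ln)
open Crest.Agent.R017.StE828 (wD oD oD_zero oD_one log_nm_nonneg)
open Crest.Agent.R017.XG702 (Pcs)
open Crest.Agent.R017.XT71 (Sys Win mx)
open Crest.Agent.R017.UM71 Crest.Agent.R017.End699
open Crest.Agent.R017.E5B71 Crest.Agent.R017.E5P571 Crest.Agent.R017.E5L770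
open Crest.Agent.R017.ExBox960 Crest.Agent.R017.ExP960
open Crest.Agent.R017.Sf770
open Crest.Agent.R017.E5LX770 (nB)
open Crest.Agent.R017.P1e54 Crest.Agent.R017.P1f54 Crest.Agent.R017.P1k54
open Crest.Agent.R017.P1l54 (ParOK)
open Crest.Agent.R017.P1X960
open Crest.Agent.R017.Sup271 (NPm)
open Crest.Agent.R017.PX764 (Dk)
open Crest.Agent.R017.TM708 (PD R5)


open Crest.Agent.R017.E2G764

/-- admissible data of a difference -/
def okX {Λ : Type*} (π : Λ → DPar) (lam : Λ × Eis) (a : BcX) (qs : List Pq) : Prop :=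
  okCX (π lam.1) lam.2 a qs ∧ okD a

variable {Λ : Type*}

set_option maxHeartbeats 4000000 in
/-- **`E2XU` from the pieces** -/
theorem e2X_of {π : Λ → DPar} {h : ℝ → ℝ} {c₀ : ℝ} (hpu : PU h c₀) (hP : ∀ lam, (π lam).OK)
    (hex : ∀ lam, ¬ NPm (π lam).n (π lam).ψ (π lam).l₂ 1)
    {Rh : ℝ} (hRh0 : 0 ≤ Rh) (hRh : ∀ u, cx h u ≠ 0 → |u| ≤ Rh) {e0 : ℝ}
    (he0 : 0 ≤ e0) (he0' : e0 ≤ 1 / 20) {c β : ℝ} (hc0 : 0 ≤ c) (hc1 : c ≤ 1)
    {et : BcX → List Pq → ℕ → ℝ} (het0 : ∀ a qs j, 0 ≤ et a qs j)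
    {Par : Set (Fin 3 ⊕ Fin 5 → ℝ)}
    {L0 : (Fin 3 ⊕ Fin 5 → ℝ) → ℝ} (hPar : ∀ p ∈ Par, ParOK p)
    (hx4 : ∀ p ∈ Par, cx' p ≤ 0 ∨ 5 / 2 * cN p + 4 * cx' p ≤ 2 * cκ p)
    {D5 : Set (Fin 5 → ℝ)} {ℓ Kf Tf : (Fin 5 → ℝ) → ℝ} {sh : ℝ → ℝ → ℝ → ℝ → ℝ → ℝ → ℝ}
    (hLip : ∀ k5 x p, LipS 3 (sh k5 x p))
    (hDN : ∀ p : IX5 → ℝ, prX p ∈ Par → ZR β p → bN p ∈ D5)
    (hDR : ∀ p : IX5 → ℝ, prX p ∈ Par → ZR β p → bR p ∈ D5)
    (hR5 : ∀ p : IX5 → ℝ, prX p ∈ Par → ZR β p → R5 (bN p))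
    (hKN : ∀ p : IX5 → ℝ, prX p ∈ Par → ZR β p →
      Kf (bN p) = max (cκ (prX p)) (5 / 4 * cN (prX p)))
    (hKR : ∀ p : IX5 → ℝ, prX p ∈ Par → ZR β p →
      Kf (bR p) = max (cκ (prX p)) (5 / 4 * cN (prX p)))
    (hL0 : ∀ p : IX5 → ℝ, prX p ∈ Par → ZR β p →
      max 0 (5 / 4 * cN (prX p) - cκ (prX p)) ≤ L0 (prX p))
    (hLN : ∀ p : IX5 → ℝ, prX p ∈ Par → ZR β p →
      max 0 (5 / 4 * cN (prX p) - cκ (prX p)) + ℓ (bN p) ≤ L0 (prX p))
    (hLR : ∀ p : IX5 → ℝ, prX p ∈ Par → ZR β p →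
      max 0 (5 / 4 * cN (prX p) - cκ (prX p)) + ℓ (bR p) ≤ L0 (prX p))
    (hTN : ∀ (p : IX5 → ℝ) (v₀ v₁ v₂ b x' : ℝ), ChC c β Par p v₀ v₁ v₂ b x' →
      DifL p v₀ v₁ v₂ → tpW c p b ≤ Tf (bN p))
    (hTR : ∀ (p : IX5 → ℝ) (v₀ v₁ v₂ b x' : ℝ), ChC c β Par p v₀ v₁ v₂ b x' →
      DifL p v₀ v₁ v₂ → tpW c p b ≤ Tf (bR p))
    (hcb : CBK π h Dk sh Kf Tf D5 ℓ) 
    (hrp : RpGU (alX π h) (okX π) e0 c et β Par DifL L0 (ShX sh))
    (het : EtGeU (alX π h) (okX π) e0 c et β Par DifL L0)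
    (hcr : CrGU (alX π h) (okX π) e0 c et β Par DifL L0)
    (hmn : MnGU (alX π h) (okX π) e0 c et β Par DifL L0 Rh) :
    E2XU π h e0 c Rh β Par L0 := by
  intro R hR
  choose Nw Mw Fw hWD using fun lam => WDec180.exists_WD (wgt_wM (R lam))
  intro ε hε
  obtain ⟨τ₁, hτ₁, hcb⟩ := hcb (ε / 16) (by positivity)
  obtain ⟨δ₁, hδ₁, hrp⟩ := hrp R hR Nw Mw Fw hWD (ε / 2) (by positivity)
  obtain ⟨δ₂', hδ₂', het⟩ := het R hR Nw Mw Fw hWD (ε / 2) (by positivity)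
  obtain ⟨δ₃', hδ₃', hcr⟩ := hcr R hR (ε / 2) (by positivity)
  obtain ⟨δ₄', hδ₄', hmn⟩ := hmn R hR (ε / 2) (by positivity)
  obtain ⟨δ₂, hδ₂, hδ₂₁, hδ₂₂⟩ : ∃ δ : ℝ, 0 < δ ∧ δ ≤ δ₁ ∧ δ ≤ δ₂' :=
    ⟨min δ₁ δ₂', lt_min hδ₁ hδ₂', min_le_left _ _, min_le_right _ _⟩
  obtain ⟨δ₃, hδ₃, hδ₃₁, hδ₃₂⟩ : ∃ δ : ℝ, 0 < δ ∧ δ ≤ δ₃' ∧ δ ≤ δ₄' :=
    ⟨min δ₃' δ₄', lt_min hδ₃' hδ₄', min_le_left _ _, min_le_right _ _⟩
  obtain ⟨τ, hτ, hττ₁, hτ8, hτε⟩ : ∃ τ : ℝ, 0 < τ ∧ τ ≤ τ₁ ∧ τ ≤ 1 / 8 ∧ τ ≤ ε / 16 :=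
    ⟨min τ₁ (min (1 / 8) (ε / 16)), lt_min hτ₁ (lt_min (by norm_num) (by positivity)),
      min_le_left _ _, (min_le_right _ _).trans (min_le_left _ _),
      (min_le_right _ _).trans (min_le_right _ _)⟩
  have he02 : 0 < 1 + e0 := by linarith
  obtain ⟨δ, hδ, hδ2, hδ3, hδτ, hδε, hδe⟩ : ∃ δ : ℝ, 0 < δ ∧ δ ≤ δ₂ ∧ δ ≤ δ₃ ∧
      δ ≤ τ / 100 ∧ δ ≤ ε / 100 ∧ e0 * δ ≤ τ := by
    refine ⟨min (min δ₂ δ₃) (min (min (τ / 100) (ε / 100)) (τ / (1 + e0))), ?_, ?_, ?_, ?_, ?_, ?_⟩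
    · exact lt_min (lt_min hδ₂ hδ₃) (lt_min (lt_min (by positivity) (by positivity))
        (by positivity))
    · exact (min_le_left _ _).trans (min_le_left _ _)
    · exact (min_le_left _ _).trans (min_le_right _ _)
    · exact (min_le_right _ _).trans ((min_le_left _ _).trans (min_le_left _ _))
    · exact (min_le_right _ _).trans ((min_le_left _ _).trans (min_le_right _ _))
    · have h1 : min (min δ₂ δ₃) (min (min (τ / 100) (ε / 100)) (τ / (1 + e0))) ≤ τ / (1 + e0) :=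
        (min_le_right _ _).trans (min_le_right _ _)
      refine (mul_le_mul_of_nonneg_left h1 he0).trans ?_
      rw [mul_div_assoc', div_le_iff₀ he02]
      nlinarith
  refine ⟨δ, hδ, ?_⟩
  rintro ⟨lam, s⟩ N B
  -- the constants
  by_cases hs0 : s = 0
  · refine ⟨1, one_pos, 2, by norm_num, ?_⟩
    intro X hX a qs _ _ q _ _ _ _ _
    have : ¬ (okCX (π lam) s a qs ∧ okD a) := fun hok => hok.1.2.1.1 hs0
    unfold E2X
    rw [if_neg this]
    positivity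
  set B₂ : ℝ := max B 3 with hB₂
  have hBB : B ≤ B₂ := le_max_left _ _
  have hB3 : 3 ≤ B₂ := le_max_right _ _
  have hB0 : 0 < B₂ := by linarith
  obtain ⟨M₁, hcb⟩ := hcb lam N B₂
  set M : ℝ := (M₁ : ℝ) with hM
  have hM0 : 0 ≤ M := Nat.cast_nonneg M₁
  have hε16 : 0 < ε / 16 := by positivity
  have hsn : (1 : ℝ) ≤ (nm s : ℝ) ^ 2 := one_le_pow₀ (by exact_mod_cast nm_pos.2 hs0)
  obtain ⟨C₁, hC₁, HL⟩ := PInv255.one_add_log_pow_le 1 (ε / 16) hε16
  obtain ⟨C, r, hC, hr, HI⟩ := crossXb (hWD lam) hpu (N + 3) hRh0 hRh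
    (ε := ε / 16) (M := M) (B₂ := B₂) hε16 hM0 hB0
    hsn (Dd := ((ds s).card : ℝ)) (Nat.cast_nonneg _) (L := 3) (by norm_num)
  have hBp : (1 : ℝ) ≤ 2 * (B₂ + 1) := by linarith
  obtain ⟨C₀, hC₀, HP⟩ := pbh_xN hpu (N + 1) (B := 2 * (B₂ + 1)) hBp (ε := ε / 16) hε16
  obtain ⟨X₁, hX₁, hcb⟩ := hcb r hr
  obtain ⟨ζ₁, hζ₁, X₄, hX₄, hrp⟩ := hrp (lam, s) N B
  obtain ⟨ζ₂, hζ₂, X₅, hX₅, het⟩ := het (lam, s) N B
  obtain ⟨ζ₃, hζ₃, X₆, hX₆, hcr⟩ := hcr (lam, s) N B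
  obtain ⟨ζ₄, hζ₄, X₇, hX₇, hmn⟩ := hmn (lam, s) N B
  set m₀ : ℝ := (M₁ : ℝ) + 6 * (N + 3) + 1 with hm₀
  have hm₀1 : 0 < m₀ := by positivity
  obtain ⟨δ', hδ', hd1, hd2, hd3, hd4, hdM⟩ : ∃ δ' : ℝ, 0 < δ' ∧ δ' ≤ ζ₁ ∧ δ' ≤ ζ₂ ∧ δ' ≤ ζ₃ ∧
      δ' ≤ ζ₄ ∧ δ' ≤ ε / (16 * m₀) := by
    refine ⟨min (min (min ζ₁ ζ₂) (min ζ₃ ζ₄)) (ε / (16 * m₀)), ?_, ?_, ?_, ?_, ?_, ?_⟩
    · exact lt_min (lt_min (lt_min hζ₁ hζ₂) (lt_min hζ₃ hζ₄)) (by positivity)
    · exact (min_le_left _ _).trans ((min_le_left _ _).trans (min_le_left _ _))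
    · exact (min_le_left _ _).trans ((min_le_left _ _).trans (min_le_right _ _))
    · exact (min_le_left _ _).trans ((min_le_right _ _).trans (min_le_left _ _))
    · exact (min_le_left _ _).trans ((min_le_right _ _).trans (min_le_right _ _))
    · exact min_le_right _ _
  have hP0 := Cst401.pC_pos
  set cs : ℝ := Real.log ((nm s : ℝ) ^ 2) with hcs
  have hcs0 : 0 ≤ cs := Real.log_nonneg hsn
  set CC : ℝ := 6 * C₁ * C * C₀ + 5 with hCC
  have hCC1 : 1 ≤ CC := by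
    have : 0 ≤ 6 * C₁ * C * C₀ := by positivity
    linarith
  have hlCC : 0 ≤ Real.log CC := Real.log_nonneg hCC1
  have hlog2 : 0 < Real.log 2 := Real.log_pos (by norm_num)
  have hn1 : (1 : ℝ) ≤ nm (π lam).n := by exact_mod_cast nm_pos.2 (hP lam).ψ.q0
  set Q : ℝ := 2 + (((N + 3 : ℕ) : ℝ) * Rh + 1) + 8 * (Real.log 2 + cs) / τ +
    2 * Real.log CC / ε + Real.log (nm (π lam).n) with hQ
  have hQ1 : 0 ≤ ((N + 3 : ℕ) : ℝ) * Rh + 1 := by positivity
  have hQ2 : 0 ≤ 8 * (Real.log 2 + cs) / τ := by positivity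
  have hQ3 : 0 ≤ 2 * Real.log CC / ε := by positivity
  have hQ4 : 0 ≤ Real.log (nm (π lam).n) := Real.log_nonneg hn1
  refine ⟨δ', hδ', max (max X₁ (max (max X₄ X₅) (max X₆ X₇))) (Real.exp Q), ?_, ?_⟩
  · exact lt_of_lt_of_le hX₁ ((le_max_left _ _).trans (le_max_left _ _))
  intro X hX a qs hlen hgl q hq hw hm hg hl
  have hXa : max X₁ (max (max X₄ X₅) (max X₆ X₇)) ≤ X := (le_max_left _ _).trans hX
  have hX1' : X₁ ≤ X := (le_max_left _ _).trans hXa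
  have hXb : max (max X₄ X₅) (max X₆ X₇) ≤ X := (le_max_right _ _).trans hXa
  have hX4' : X₄ ≤ X := (le_max_left _ _).trans ((le_max_left _ _).trans hXb)
  have hX5' : X₅ ≤ X := (le_max_right _ _).trans ((le_max_left _ _).trans hXb)
  have hX6' : X₆ ≤ X := (le_max_left _ _).trans ((le_max_right _ _).trans hXb)
  have hX7' : X₇ ≤ X := (le_max_right _ _).trans ((le_max_right _ _).trans hXb)
  have hXQ : Real.exp Q ≤ X := (le_max_right _ _).trans hX
  have hX1 : 1 < X := by linarith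
  have hX0 : 0 < X := by linarith
  set L := Real.log X with hL
  have hQL : Q ≤ L := by
    have := Real.log_le_log (Real.exp_pos Q) hXQ
    rwa [Real.log_exp] at this
  have hL2 : 2 ≤ L := by linarith
  have hL0' : 0 < L := by linarith
  have hX3 : 3 ≤ X := by
    have h1 : Real.exp 2 ≤ X := (Real.exp_le_exp.2 (by linarith)).trans hXQ
    have h2 := Real.add_one_le_exp 2
    linarith
  have hLN' : ((N + 3 : ℕ) : ℝ) * Rh + 1 ≤ L := by linarith
  have hLτ : Real.log 2 + cs ≤ τ / 8 * L := by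
    have h1 : 8 * (Real.log 2 + cs) / τ ≤ L := by linarith
    rw [div_le_iff₀ hτ] at h1
    linarith
  have hLC : CC ≤ X ^ (ε / 2) := by
    have h1 : 2 * Real.log CC / ε ≤ L := by linarith
    rw [div_le_iff₀ hε] at h1
    rw [Real.rpow_def_of_pos hX0, ← hL]
    rw [← Real.exp_log (show 0 < CC by linarith)]
    exact Real.exp_le_exp.2 (by linarith)
  have hnX : (nm (π lam).n : ℝ) ≤ X ^ B₂ := by
    have h1 : (nm (π lam).n : ℝ) ≤ X := by
      rw [← Real.exp_log (show (0 : ℝ) < nm (π lam).n by linarith), ← Real.exp_log hX0, ← hL]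
      exact Real.exp_le_exp.2 (by linarith)
    refine h1.trans ?_
    calc X = X ^ (1 : ℝ) := (Real.rpow_one X).symm
      _ ≤ X ^ B₂ := Real.rpow_le_rpow_of_exponent_le hX1.le (by linarith)
  -- not admissible
  by_cases hok : okCX (π lam) s a qs ∧ okD a
  swap
  · unfold E2X
    rw [if_neg hok]
    positivity
  obtain ⟨⟨hbok, hsm, hlmp, hamq, hb0⟩, hD0, hD1⟩ := hok
  have hok : okCX (π lam) s a qs ∧ okD a := ⟨⟨hbok, hsm, hlmp, hamq, hb0⟩, hD0, hD1⟩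
  -- the window
  obtain ⟨hq1, hq2, hq3, hq4⟩ := hq
  set p : IX5 → ℝ := bp q.1 with hp
  have hpar : prX p ∈ Par := hq1.par
  have hzr : ZR β p := hq1.zr
  have hPp := hPar _ hpar
  have hbN := hDN p hpar hzr
  have hbR := hDR p hpar hzr
  have hRb := hR5 p hpar hzr
  have hLNp := hLN p hpar hzr
  have hLRp := hLR p hpar hzr
  have hKNp := hKN p hpar hzr
  have hKRp := hKR p hpar hzr
  have hL0p := hL0 p hpar hzr
  set κ := cκ (prX p) with hκ
  set NN := cN (prX p) with hNN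
  set xx := cx' (prX p) with hxx
  set v₀ := q.1 (.inr 0) with hv₀
  set v₁ := q.1 (.inr 1) with hv₁
  set v₂ := q.1 (.inr 2) with hv₂
  set bb := q.1 (.inr 3) with hbb
  set x' := q.2 .am with hx'
  have hev : ∀ i, |S8X.ev X a i - q.1 i| ≤ δ := hw.ev
  have hdiv : ∀ {z c : ℝ}, |z / L - c| ≤ δ → |z - c * L| ≤ δ * L := by
    intro z c h1
    have h2 : z - c * L = (z / L - c) * L := by field_simp
    rw [h2, abs_mul, abs_of_pos hL0']
    exact mul_le_mul_of_nonneg_right h1 hL0'.le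
  have hk : |a.1.l - κ * L| ≤ δ * L := hdiv (hev (.inl (.inl (.inl 0))))
  have hz : |a.1.z - xx * L| ≤ δ * L := hdiv (hev (.inl (.inl (.inl 1))))
  have hu2 : |(a.1.us 2).z - cu (prX p) 2 * L| ≤ δ * L := hdiv (hev (.inl (.inl (.inr 2))))
  have hu3 : |(a.1.us 3).z - cu (prX p) 3 * L| ≤ δ * L := hdiv (hev (.inl (.inl (.inr 3))))
  have hu4 : |(a.1.us 4).z - cu (prX p) 4 * L| ≤ δ * L := hdiv (hev (.inl (.inl (.inr 4))))
  have hzs : |a.1.zs 2 - p (.inr 1) * L| ≤ δ * L := hdiv (hev (.inl (.inr 1)))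
  have hv0 : |(a.2.1 0).z - v₀ * L| ≤ δ * L := hdiv (hev (.inr 0))
  have hv1 : |(a.2.1 1).z - v₁ * L| ≤ δ * L := hdiv (hev (.inr 1))
  have hv2 : |(a.2.1 2).z - v₂ * L| ≤ δ * L := hdiv (hev (.inr 2))
  have hbw : |a.2.2 - bb * L| ≤ δ * L := hdiv (hev (.inr 3))
  have hma : |LN qs - x' * L| ≤ δ * L := by
    have h1 := hm .am
    rw [mass_am hamq] at h1
    exact hdiv h1
  have hA : |a3 a.1.toBd - NN * L| ≤ 3 * (δ * L) := by
    have e1 : a3 a.1.toBd - NN * L = ((a.1.us 2).z - cu (prX p) 2 * L) +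
        ((a.1.us 3).z - cu (prX p) 3 * L) + ((a.1.us 4).z - cu (prX p) 4 * L) := by
      rw [hNN]; unfold E5L770.a3 cN; ring
    rw [e1]
    refine (abs_add_le _ _).trans ?_
    have := abs_add_le ((a.1.us 2).z - cu (prX p) 2 * L) ((a.1.us 3).z - cu (prX p) 3 * L)
    linarith
  obtain ⟨k1, k2⟩ := abs_le.1 hk
  obtain ⟨z1, z2⟩ := abs_le.1 hz
  obtain ⟨u21, u22⟩ := abs_le.1 hu2
  obtain ⟨zs1, zs2⟩ := abs_le.1 hzs
  obtain ⟨v01, v02⟩ := abs_le.1 hv0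
  obtain ⟨v11, v12⟩ := abs_le.1 hv1
  obtain ⟨v21, v22⟩ := abs_le.1 hv2
  obtain ⟨m1, m2⟩ := abs_le.1 hma
  obtain ⟨A1, A2⟩ := abs_le.1 hA
  have hnat := hq2.1
  have w0 : 0 ≤ v₀ ∧ v₀ ≤ cu (prX p) 2 := ⟨hq1.v0, hnat.1⟩
  have w1 : 0 ≤ v₁ ∧ v₁ ≤ cu (prX p) 3 := ⟨hq1.v1, hnat.2.1⟩
  have w2 : 0 ≤ v₂ ∧ v₂ ≤ cu (prX p) 4 := ⟨hq1.v2, hnat.2.2⟩
  have hs1 : bb ≤ NN - (v₀ + v₁ + v₂) := hq1.s1
  have hx1 : x' ≤ xx := hq1.x1
  have hcN : NN = cu (prX p) 2 + cu (prX p) 3 + cu (prX p) 4 := rfl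
  set n := LN (clN a qs) with hn
  have hnz : n = (a.2.1 0).z + (a.2.1 1).z + (a.2.1 2).z + LN qs := LN_clN a qs
  have hLqs : 0 ≤ LN qs := by
    unfold LN
    refine List.sum_nonneg fun x hx => ?_
    obtain ⟨p', hp', rfl⟩ := List.mem_map.1 hx
    exact (hg p' hp').2.2
  have g0 := (hlmp 0).2
  have g1 := (hlmp 1).2
  have g2 := (hlmp 2).2
  have hδL : 0 ≤ δ * L := by positivity
  have w0L := mul_le_mul_of_nonneg_right w0.2 hL0'.le
  have w1L := mul_le_mul_of_nonneg_right w1.2 hL0'.le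
  have w2L := mul_le_mul_of_nonneg_right w2.2 hL0'.le
  have hx1L := mul_le_mul_of_nonneg_right hx1 hL0'.le
  have hq4L := mul_le_mul_of_nonneg_right hq4 hL0'.le
  have hκp : 0 ≤ κ := by linarith [hPp.κ0]
  have hκpL : 0 ≤ κ * L := by positivity
  set sv : ℝ := v₀ + v₁ + v₂ + x' with hsv
  have hnup : n ≤ sv * L + 4 * (δ * L) := by
    rw [hnz, hsv]
    linarith
  have hnlow : sv * L - 4 * (δ * L) ≤ n := by
    rw [hnz, hsv]
    linarith
  have hnlo : (κ / 2 - 2 * xx) * L - 4 * (δ * L) ≤ n := by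
    rw [hnz]
    linarith
  -- the region
  have e0b : bN p 0 = κ := rfl
  have e1b : bN p 1 = cu (prX p) 2 := rfl
  have e2b : bN p 2 = cu (prX p) 3 := rfl
  have e3b : bN p 3 = cu (prX p) 4 := rfl
  have e4b : bN p 4 = xx := rfl
  have f0b : bR p 0 = κ := rfl
  have f1b : bR p 1 = p (.inr 1) := rfl
  have f2b : bR p 2 = cu (prX p) 2 + cu (prX p) 3 - p (.inr 1) := rfl
  have f3b : bR p 3 = cu (prX p) 4 := rfl
  have f4b : bR p 4 = xx := rfl
  have rN := hRb.hN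
  have rx1 := hRb.x1
  have radm := hRb.adm
  rw [e1b, e2b, e3b, e0b, ← hcN] at rN
  rw [e4b, e0b] at rx1
  rw [e1b, e2b, e3b, e0b, e4b, ← hcN] at radm
  set Yt : ℝ := 2 ^ nw c a with hYt
  have hYt0 : 0 < Yt := by positivity
  set y : ℝ := Real.log Yt with hy
  have hyn : y = Real.log 2 * nw c a := by rw [hy, hYt, Real.log_pow, mul_comm]
  have hy1 : y ≤ max 0 (min (tO a.1.toBd) (tO a.1.toBd + 2 * (c * a.1.l) - 2 * a.2.2)) +
      Real.log 2 := by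
    rw [hyn]; exact nW_hi c a
  have hy2 : min (tO a.1.toBd) (tO a.1.toBd + 2 * (c * a.1.l) - 2 * a.2.2) ≤ y := by
    rw [hyn]; exact nW_lo c a
  have htO : |tO a.1.toBd - top5 (prX p) * L| ≤ 10 * (δ * L) := by
    unfold Sf770.tO E5L770.top5
    exact tO_near hL0' hδ.le (by norm_num) (by norm_num) hk hz hA
  have htt2 : min (2 * NN - κ) (3 / 4 * NN) + 2 * xx ≤ top5 (prX p) := by
    have := hPp.x0
    unfold E5L770.top5
    linarith
  have htt3 : top5 (prX p) ≤ min (2 * NN - κ) (3 / 4 * NN) + 3 * xx := by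
    have := hPp.x0
    unfold E5L770.top5
    linarith
  obtain ⟨F1, F2, F3, F4⟩ := frameX (L := L) (δ := δ) (τ := τ) (κ := κ) (N := NN)
    (x := xx) (l := a.1.l) (tO := tO a.1.toBd) (tt := top5 (prX p)) (n := n) (y := y) (cs := cs)
    (e₁ := τ / 4) (c := c) (b := bb) (b' := a.2.2) (sv := sv) hL0' hδ.le hδτ hτ8 rfl hLτ hcs0
    hc0 hc1 hk htO htt2 htt3 hbw hnup (by rw [hsv]; linarith) hq1.b0 hκp hPp.κ1 hPp.x0
    (by linarith [hPp.N0]) rN rx1 (by rcases radm with h | ⟨h, h', -⟩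
                                      · exact Or.inl h
                                      · exact Or.inr ⟨h, h'⟩) hq1.b1 hy1 hy2
  have F5 := frameY (L := L) (δ := δ) (τ := τ) (κ := κ) (N := NN)
    (x := xx) (l := a.1.l) (tO := tO a.1.toBd) (tt := top5 (prX p)) (y := y) (cs := cs)
    (c := c) (b := bb) (b' := a.2.2) hL0' hδ.le hδτ hLτ
    hc0 hc1 hk htO htt2 hbw hPp.x0 hκp (by linarith [hPp.N0]) hq1.b1 hy1
  -- the sets
  set E0 := Real.exp (e0 * a.1.l) with hE0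
  set K := Real.exp a.1.l with hK
  have hlT : Real.log (Yt * (nm s : ℝ) ^ 2) = y + cs := by
    rw [Real.log_mul hYt0.ne' (by positivity)]
  -- parent data
  set H : ℝ := X ^ δ' with hH
  have hH1 : 1 ≤ H := Real.one_le_rpow hX1.le hδ'.le
  have hs1' : ∀ i, Dq.s1 (a.2.1 i) ≤ H := by
    intro i
    have h1 : mx Dq.s1 (List.ofFn a.2.1) ≤ X ^ δ' := (le_max_right _ _).trans hw.s₁
    exact (XT71.le_mx (List.mem_ofFn.2 ⟨i, rfl⟩)).trans h1
  have hs2' : ∀ i, Dq.s2 (a.2.1 i) ≤ X ^ B₂ := by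
    intro i
    have h1 : mx Dq.s2 (List.ofFn a.2.1) ≤ X ^ B := (le_max_right _ _).trans hw.s₂
    exact ((XT71.le_mx (List.mem_ofFn.2 ⟨i, rfl⟩)).trans h1).trans
      (Real.rpow_le_rpow_of_exponent_le hX1.le hBB)
  have hgran : ∀ p' ∈ qs, p'.z ≤ δ * L := by
    intro p' hp'
    rcases hgl p' hp' with h1 | h1
    · exact absurd (hl p' hp' h1) (Set.notMem_empty _)
    · unfold Pcs.nl at h1
      rw [div_le_iff₀ hL0'] at h1
      exact h1
  have hδτL : δ * L ≤ τ / 100 * L := mul_le_mul_of_nonneg_right hδτ hL0'.le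
  have hτL : 0 ≤ τ * L := by positivity
  have hττL : τ * L ≤ τ₁ * L := mul_le_mul_of_nonneg_right hττ₁ hL0'.le
  have ham : ∀ p' ∈ qs, p'.kd = .am ∧ 0 ≤ p'.z ∧ p'.z ≤ τ₁ * Real.log X ∧
      (nm p'.d : ℝ) ≤ X ^ B₂ ∧ 1 + |p'.t| ≤ H := by
    intro p' hp'
    obtain ⟨s1', s2', z0'⟩ := hg p' hp'
    refine ⟨hamq p' hp', z0', ?_, s2'.trans (Real.rpow_le_rpow_of_exponent_le hX1.le hBB), s1'⟩
    rw [← hL]
    have := hgran p' hp'
    linarith
  have hxqs : LN qs ≤ (xx + τ₁) * L := by linarith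
  have hkk : |a.1.l - κ * L| ≤ τ₁ * L := hk.trans (by linarith)
  have hPDN : PD X τ₁ B₂ H N (bN p) 1 a.2.1 qs a.1.l := by
    refine ⟨one_ne_zero, ?_, hH1, fun i => (hlmp i).1, fun i => (hlmp i).2, fun i => hs2' i,
      fun i => hs1' i, ?_, ?_, ?_, ham, hlen, hxqs, hkk⟩
    · rw [nm_one, Nat.cast_one]
      exact Real.one_le_rpow hX1.le hB0.le
    · rw [← hL, e1b]
      linarith
    · rw [← hL, e2b]
      linarith
    · rw [← hL, e3b]
      linarith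
  have hPDR : PD X τ₁ B₂ H N (bR p) 1 (rzD a.2.1 (dz a.1)) qs a.1.l := by
    refine ⟨one_ne_zero, ?_, hH1, ?_, ?_, ?_, ?_, ?_, ?_, ?_, ham, hlen, hxqs, hkk⟩
    · rw [nm_one, Nat.cast_one]
      exact Real.one_le_rpow hX1.le hB0.le
    · intro i
      fin_cases i
      · exact (hlmp 0).1
      · exact (hlmp 1).1
      · exact (hlmp 2).1
    · intro i
      fin_cases i
      · exact hD0
      · exact hD1
      · exact (hlmp 2).2
    · intro i
      fin_cases i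
      · exact hs2' 0
      · exact hs2' 1
      · exact hs2' 2
    · intro i
      fin_cases i
      · exact hs1' 0
      · exact hs1' 1
      · exact hs1' 2
    · rw [← hL, f1b]
      show (a.2.1 0).z - dz a.1 ≤ _
      unfold dz
      linarith
    · rw [← hL, f2b]
      show (a.2.1 1).z + dz a.1 ≤ _
      unfold dz
      linarith
    · rw [← hL, f3b]
      show (a.2.1 2).z ≤ _
      linarith
  have hcl : [a.2.1 0, a.2.1 1, a.2.1 2] ++ qs = clN a qs := (clN_eq a qs).symm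
  set p1 := a.2.1 0 with hp1
  set p2 := a.2.1 1 with hp2
  set lr := a.2.1 2 :: qs with hlr
  set dd := p2.z + dz a.1 with hdd
  have hclN : clN a qs = p1 :: p2 :: lr := clN_eq a qs
  have hclR : [(rzD a.2.1 (dz a.1)) 0, (rzD a.2.1 (dz a.1)) 1, (rzD a.2.1 (dz a.1)) 2] ++ qs =
      rl p1 p2 lr dd := by
    rw [← ofFn3]
    exact (rl_eq a.2.1 (dz a.1) qs).symm
  have hLNr : LN (rl p1 p2 lr dd) = n := by
    rw [LN_rl, ← hclN]
  have hlo : ∀ bq : Fin 5 → ℝ, bq 0 = κ → bq 4 = xx → ∀ lst : List Pq, LN lst = n →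
      (bq 0 / 2 - 2 * bq 4 - τ₁) * L ≤ LN lst := by
    intro bq h0 h4 lst hlst
    rw [hlst, h0, h4]
    linarith
  have htN := hTN p v₀ v₁ v₂ bb x' hq1 hq2
  have htR := hTR p v₀ v₁ v₂ bb x' hq1 hq2
  have htpW : tpW c p bb = min (top5 (prX p)) (top5 (prX p) + 2 * (c * κ) - 2 * bb) := rfl
  rw [← htpW] at F1 F5
  have hTleN : Real.log (Yt * (nm s : ℝ) ^ 2) ≤ (Tf (bN p) + τ₁) * Real.log X := by
    rw [hlT, ← hL]
    refine F5.trans (mul_le_mul_of_nonneg_right (by linarith) hL0'.le)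
  have hTleR : Real.log (Yt * (nm s : ℝ) ^ 2) ≤ (Tf (bR p) + τ₁) * Real.log X := by
    rw [hlT, ← hL]
    refine F5.trans (mul_le_mul_of_nonneg_right (by linarith) hL0'.le)
  have hlE : Real.log E0 = e0 * a.1.l := by rw [hE0, Real.log_exp]
  have hEE : Real.log E0 ≤ (1 / 20 * κ + τ₁) * L := by
    rw [hlE]
    have h3 : e0 * a.1.l ≤ e0 * (κ * L + δ * L) :=
      mul_le_mul_of_nonneg_left (by linarith) he0
    have h4 : e0 * (κ * L + δ * L) ≤ 1 / 20 * (κ * L + δ * L) :=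
      mul_le_mul_of_nonneg_right he0' (by positivity)
    linarith
  have hk5 : |k5X a - max κ (5 / 4 * NN) * L| ≤ τ₁ * L := by
    unfold k5X
    rw [max_mul_of_nonneg _ _ hL0'.le]
    refine (abs_max_sub_max_le_max _ _ _ _).trans (max_le ?_ ?_)
    · linarith
    · have e : 5 / 4 * a3 a.1.toBd - 5 / 4 * NN * L = 5 / 4 * (a3 a.1.toBd - NN * L) := by ring
      rw [e, abs_mul, abs_of_pos (by norm_num : (0 : ℝ) < 5 / 4)]
      linarith
  have hxw : |a.1.z - xx * L| ≤ τ₁ * L := by linarith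
  have htpt : tpW c p bb ≤ top5 (prX p) := by rw [htpW]; exact min_le_left _ _
  have hK4 := (tK_ok (sv := NN + xx) hPp.x0 (hx4 _ hpar) (htpt.trans htt3) le_rfl).1
  have hTKN : Real.log (Yt * (nm s : ℝ) ^ 2) ≤ (Kf (bN p) - (bN p 1 + bN p 2 + bN p 3) / 2 -
      bN p 4 + τ₁) * Real.log X := by
    rw [hlT, ← hL, e1b, e2b, e3b, e4b, ← hcN, hKNp]
    refine F5.trans (mul_le_mul_of_nonneg_right ?_ hL0'.le)
    linarith
  have hTKR : Real.log (Yt * (nm s : ℝ) ^ 2) ≤ (Kf (bR p) - (bR p 1 + bR p 2 + bR p 3) / 2 -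
      bR p 4 + τ₁) * Real.log X := by
    rw [hlT, ← hL, f1b, f2b, f3b, f4b, hKRp]
    refine F5.trans (mul_le_mul_of_nonneg_right ?_ hL0'.le)
    linarith
  have hFL := hcb X hX1' (bN p) hbN 1 a.2.1 qs a.1.l H hPDN _ hTleN hTKN M
    le_rfl (hlo (bN p) e0b e4b _ (by rw [hcl])) (Real.log E0) (k5X a) a.1.z
    (by rw [e0b]; exact hEE) (by rw [hKNp]; exact hk5) (by rw [e4b]; exact hxw)
  have hFR := hcb X hX1' (bR p) hbR 1 (rzD a.2.1 (dz a.1)) qs a.1.l H hPDR _ hTleR hTKR M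
    le_rfl (hlo (bR p) f0b f4b _ (by rw [hclR, hLNr])) (Real.log E0) (k5X a) a.1.z
    (by rw [f0b]; exact hEE) (by rw [hKRp]; exact hk5) (by rw [f4b]; exact hxw)
  set F : ℝ := H ^ M₁ * X ^ (ℓ (bN p) + ε / 16) with hF
  set F' : ℝ := H ^ M₁ * X ^ (ℓ (bR p) + ε / 16) with hF'
  have hF0 : 0 ≤ F := by positivity
  have hF0' : 0 ≤ F' := by positivity
  rw [hcl, hclN] at hFL
  rw [hclR, hLNr] at hFR
  have hLNn : LN (p1 :: p2 :: lr) = n := by rw [← hclN]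
  rw [hLNn] at hFL
  set Sh : ℝ → ℝ → ℝ → ℝ := ShX sh a qs with hSh
  have hShd : Sh = shB (s0X a) n (sh (k5X a) a.1.z n) := rfl
  have hSle : ∀ γ b v, sh (k5X a) a.1.z n γ b v ≤ Sh γ b v := fun γ b v => le_max_left _ _
  have hCL := hFL.monoS hF0 hSle
  have hCR := hFR.monoS hF0' hSle
  -- the inputs
  have hw' : ∀ {δ₀ δ₀' : ℝ}, δ ≤ δ₀ → δ' ≤ δ₀' → Win S8X q.1 δ₀ N B δ₀' X a :=
    fun h1 h2 => hw.mono hX1.le h1 le_rfl le_rfl h2
  have hgl' : ∀ {δ₀ : ℝ}, δ ≤ δ₀ → ∀ p' ∈ qs, Dq.lump p' ∨ Dq.nl X p' ≤ δ₀ :=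
    fun h1 p' hp' => (hgl p' hp').imp id fun h2 => h2.trans h1
  have hm' : ∀ {δ₀ : ℝ}, δ ≤ δ₀ → ∀ t, |Dq.mass X qs t - q.2 t| ≤ δ₀ :=
    fun h1 t => (hm t).trans h1
  have hg' : ∀ {δ₀' : ℝ}, δ' ≤ δ₀' → Dq.Good X δ₀' B qs :=
    fun h1 p' hp' => ⟨(hg p' hp').1.trans (Real.rpow_le_rpow_of_exponent_le hX1.le h1),
      (hg p' hp').2⟩
  have hqD : q ∈ Dom8X c β Par DifL := ⟨hq1, hq2, hq3, hq4⟩
  set U : ℝ := X ^ (E8X L0 q + ε / 2) with hU
  have hU0 : 0 < U := by positivity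
  have g₁ : δ ≤ δ₁ := hδ2.trans hδ₂₁
  have g₂ : δ ≤ δ₂' := hδ2.trans hδ₂₂
  have g₃ : δ ≤ δ₃' := hδ3.trans hδ₃₁
  have g₄ : δ ≤ δ₄' := hδ3.trans hδ₃₂
  have hRp := hrp X hX4' a qs hlen (hgl' g₁) q hqD (hw' g₁ hd1) (hm' g₁) (hg' hd1) hl
  have hEt := het X hX5' a qs hlen (hgl' g₂) q hqD (hw' g₂ hd2) (hm' g₂) (hg' hd2) hl
  have hCr := hcr X hX6' a qs hlen (hgl' g₃) q hqD (hw' g₃ hd3) (hm' g₃) (hg' hd3) hl
  have hMn := hmn X hX7' a qs hlen (hgl' g₄) q hqD (hw' g₄ hd4) (hm' g₄) (hg' hd4) hl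
  have hok' : okX π (lam, s) a qs := hok
  unfold RpG at hRp
  unfold EtGe at hEt
  unfold CrG at hCr
  unfold MnG at hMn
  rw [if_pos hok'] at hRp hEt hCr hMn
  -- the sequence
  have hdom := dom_xD (hP lam) h hsm a.2.1 (dz a.1) qs
  have hlen3 : (p1 :: p2 :: lr).length ≤ N + 3 := by
    rw [hlr]
    simp only [List.length_cons]
    omega
  have hcz : ∀ p' ∈ p1 :: p2 :: lr, 0 ≤ p'.z := by
    intro p' hp'
    rw [hlr] at hp'
    simp only [List.mem_cons] at hp'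
    rcases hp' with rfl | rfl | rfl | h1
    · exact g0
    · exact g1
    · exact g2
    · exact (hg p' h1).2.2
  have hn0 : 0 ≤ n := by rw [hnz]; positivity
  have hal : alX π h (lam, s) a qs = xD h (π lam) s a.2.1 (dz a.1) qs := rfl
  have hYc0 : 0 ≤ YcX Rh a qs := (Real.exp_pos _).le
  have hsup : ∀ m, alX π h (lam, s) a qs m ≠ 0 → m ∈ S (YcX Rh a qs) := by
    intro m hm
    have hadm1 := Adm_list (h := h) (N := (clN a qs).length) hRh0 hRh (π lam) 1 (ps := clN a qs)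
      le_rfl (Y := YcX Rh a qs) (Real.exp_le_exp.2 (by linarith))
    have hrlen : (rl p1 p2 lr dd).length = (clN a qs).length := by
      rw [hclN]
      unfold rl
      simp
    have hadm2 := Adm_list (h := h) (N := (clN a qs).length) hRh0 hRh (π lam) 1
      (ps := rl p1 p2 lr dd) hrlen.le (Y := YcX Rh a qs) (Real.exp_le_exp.2 (by
        rw [hLNr]; linarith))
    by_contra hmS
    apply hm
    have h1 := hdom.le m
    have h2 : xN (π lam) h 1 p1 p2 lr dd m = 0 := by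
      rw [xN_eq]
      have e1 : sqc 1 (alF 1 1 (π lam) h (natl (p1 :: p2 :: lr))) m = 0 := by
        by_contra h3
        apply hmS
        rw [hclN] at hadm1
        exact hadm1.sup m h3
      have e2 : sqc 1 (alF 1 1 (π lam) h (natl (rl p1 p2 lr dd))) m = 0 := by
        by_contra h3
        apply hmS
        exact hadm2.sup m h3
      rw [e1, e2]
      simp
    have h3 : xN (π lam) h 1 (a.2.1 0) (a.2.1 1) (a.2.1 2 :: qs) ((a.2.1 1).z + dz a.1) m = 0 := h2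
    rw [h3, norm_zero] at h1
    rw [hal]
    exact norm_le_zero_iff.1 (by simpa using h1)
  set Yr : ℝ := Real.exp (n + ((N + 3 : ℕ) : ℝ) * Rh + 1) with hYr
  have hYcYr : YcX Rh a qs ≤ Yr := by
    refine Real.exp_le_exp.2 ?_
    have : ((clN a qs).length : ℝ) * Rh ≤ ((N + 3 : ℕ) : ℝ) * Rh :=
      mul_le_mul_of_nonneg_right (by rw [hclN]; exact_mod_cast hlen3) hRh0
    linarith
  have hYrX : Yr ≤ X ^ B₂ := by
    rw [Real.rpow_def_of_pos hX0, ← hL]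
    refine Real.exp_le_exp.2 ?_
    have : L * 3 ≤ L * B₂ := mul_le_mul_of_nonneg_left hB3 hL0'.le
    linarith
  have hprim : ∀ x ∈ JS (nw c a), IsPrim x.1 := fun x hx => (okJ_JW _ _ _).prim x hx
  have hX2eq := X2_Y (E0 := E0) hYc0 hYcYr hsup hprim (omP (nw c a))
  have hX2i : ∀ i : ℕ, X2 (YcX Rh a qs) E0 (JS (nw c a)) (omL i) (alX π h (lam, s) a qs) =
      X2 Yr E0 (JS (nw c a)) (omL i) (alX π h (lam, s) a qs) := fun i =>
    X2_Y (E0 := E0) hYc0 hYcYr hsup hprim (omL i)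
  have hK1 : 1 ≤ K := by
    rw [hK]
    apply Real.one_le_exp
    have h3 : 8 / 9 * L ≤ κ * L := mul_le_mul_of_nonneg_right hPp.κ0 hL0'.le
    have h4 : τ * L ≤ 1 / 8 * L := mul_le_mul_of_nonneg_right hτ8 hL0'.le
    linarith
  have hlK : Real.log K = a.1.l := by rw [hK, Real.log_exp]
  have hl0 : 0 ≤ a.1.l := by
    have h3 : 8 / 9 * L ≤ κ * L := mul_le_mul_of_nonneg_right hPp.κ0 hL0'.le
    have h4 : τ * L ≤ 1 / 8 * L := mul_le_mul_of_nonneg_right hτ8 hL0'.le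
    linarith
  have hnsX : Yt * (nm s : ℝ) ^ 2 ≤ X := by
    rw [← Real.exp_log (show 0 < Yt * (nm s : ℝ) ^ 2 by positivity), ← Real.exp_log hX0, hlT]
    refine Real.exp_le_exp.2 ?_
    have h1 := le_max_left y (τ / 4 * L + 2 * n - a.1.l)
    linarith
  have hB21 : (1 : ℝ) ≤ X ^ B₂ := Real.one_le_rpow hX1.le hB0.le
  set s0 : ℝ := s0X a with hs0'
  have ss1 : s0 ≤ p1.z := (min_le_left _ _).trans (min_le_left _ _)
  have ss2 : s0 ≤ p2.z := (min_le_left _ _).trans (min_le_right _ _)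
  have ss3 : s0 ≤ p1.z + p2.z - dd := by
    have : s0 ≤ p1.z - dz a.1 := (min_le_right _ _).trans (min_le_left _ _)
    rw [hdd]
    linarith
  have ss4 : s0 ≤ dd := (min_le_right _ _).trans (min_le_right _ _)
  have hd0 : 0 ≤ dd := hD1
  have hd1' : dd ≤ p1.z + p2.z := by
    have := hD0
    rw [hdd]
    linarith
  have hXB3 : X ^ B₂ ≤ X ^ (2 * (B₂ + 1)) := Real.rpow_le_rpow_of_exponent_le hX1.le (by linarith)
  have hlrlen : lr.length ≤ N + 1 := by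
    simp only [List.length_cons] at hlen3
    omega
  set Htt : ℝ := Ht (natl (p1 :: p2 :: lr)) with hHtt
  have hHt1 : 1 ≤ Htt := RG64.one_le_Ht _
  set Eb : ℝ := C₀ * X ^ (ε / 16) * Htt ^ 6 * Real.exp (5 / 3 * LN (p1 :: p2 :: lr)) with hEb
  have hEb0 : 0 ≤ Eb := by positivity
  have hPB := HP X hX3 (π lam) (hP lam) (hP lam).ψ (hnX.trans hXB3) (hex lam) 1 one_ne_zero (by
      rw [nm_one, Nat.cast_one]; exact hB21.trans hXB3) p1 p2 lr (hlmp 0).1.2 (hlmp 1).1.2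
    (hlmp 0).1.1 (hlmp 1).1.1 ((hs2' 0).trans hXB3) ((hs2' 1).trans hXB3) hlrlen hcz
    (by rw [hLNn]; exact F4) dd s0 ss1 ss2 ss3 ss4 (max (((N + 3 : ℕ) : ℝ) * M) 12)
    (le_max_right _ _) ((X ^ (B₂ + 1)) ^ 2) (by
      rw [← Real.rpow_natCast, ← Real.rpow_mul hX0.le]
      refine Real.rpow_le_rpow_of_exponent_le hX1.le (le_of_eq ?_)
      push_cast; ring)
  rw [← hEb] at hPB
  set Fb : ℝ := C₀ * X ^ (ε / 16) * Htt ^ 6 with hFb
  have hFb0 : 0 ≤ Fb := by positivity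
  have hbias : ∀ γ b v : ℝ, 0 ≤ γ → 0 ≤ b → b ≤ Real.log E0 + 1 → 0 ≤ v →
      v ≤ Real.log (Yt * (nm s : ℝ) ^ 2) - 2 * γ →
      Eb * Real.exp (bcx s0 γ b v) ≤ Fb * Real.exp (Sh γ b v) := by
    intro γ b v _ _ _ _ _
    have e1 : Eb * Real.exp (bcx s0 γ b v) = Fb * Real.exp (5 / 3 * n + bcx s0 γ b v) := by
      rw [hEb, hFb, hLNn, Real.exp_add]
      ring
    rw [e1]
    refine mul_le_mul_of_nonneg_left (Real.exp_le_exp.2 ?_) hFb0
    exact le_max_right _ _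
  have hrlen : (rl p1 p2 lr dd).length ≤ N + 3 := by
    unfold rl
    simpa using hlen3
  have hzz : ∀ p' ∈ p1 :: p2 :: lr, 0 ≤ p'.z ∧ p'.z ≤ Real.log X := by
    intro p' hp'
    refine ⟨hcz p' hp', ?_⟩
    have h1 : p'.z ≤ LN (p1 :: p2 :: lr) := by
      unfold LN
      refine List.single_le_sum ?_ _ (List.mem_map.2 ⟨p', hp', rfl⟩)
      intro x hx
      obtain ⟨p'', hp'', rfl⟩ := List.mem_map.1 hx
      exact hcz p'' hp''
    rw [hLNn] at h1
    exact h1.trans F4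
  have hzr' : ∀ p' ∈ rl p1 p2 lr dd, 0 ≤ p'.z ∧ p'.z ≤ Real.log X := by
    have hnn : ∀ p' ∈ rl p1 p2 lr dd, 0 ≤ p'.z := by
      intro p' hp'
      unfold rl at hp'
      rcases List.mem_cons.1 hp' with rfl | hp'
      · show 0 ≤ p1.z + p2.z - dd
        linarith
      rcases List.mem_cons.1 hp' with rfl | hp'
      · exact hd0
      · exact hcz p' (List.mem_cons_of_mem _ (List.mem_cons_of_mem _ hp'))
    intro p' hp'
    refine ⟨hnn p' hp', ?_⟩
    have h1 : p'.z ≤ LN (rl p1 p2 lr dd) := by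
      unfold LN
      refine List.single_le_sum ?_ _ (List.mem_map.2 ⟨p', hp', rfl⟩)
      intro x hx
      obtain ⟨p'', hp'', rfl⟩ := List.mem_map.1 hx
      exact hnn p'' hp''
    rw [hLNr] at h1
    exact h1.trans F4
  set al := alX π h (lam, s) a qs with hald
  have hlev : ∀ j ∈ range (nw c a),
      ‖CrP (wM (R lam)) K al
        (fun k => if cutE (Real.exp (a.1.l / 20)) k then
          StE E0 (JS (nw c a)) (omL j) al k else 0) -
      ((pC * c3 (wM (R lam)) K : ℝ) : ℂ) * X2 Yr E0 (JS (nw c a)) (omL j) al‖ ≤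
      C * X ^ (ε / 16) * (K / Real.exp n) * ((F + F' + Fb) * Real.exp (TgX a qs + 2 / 3 * n)) +
      ∑ m ∈ range (Nw lam), RPb (rhoS (TgX a qs) a.1.l Sh) al (sc K (Mw lam) m)
        (GF (Fh (Fw lam m) (et a qs j))) (S (Real.sqrt (2 ^ (j + 1)))) (j + 2) E0 (2 ^ (j + 1))
        (2 ^ j / 4) +
      ∑ m ∈ range (Nw lam), ‖CrQ (GF (Fh (Fw lam m) (et a qs j)))
        (fun k => ¬ cutE (Real.exp (a.1.l / 20)) k) (sc K (Mw lam) m) al
        (ETd548.stG (alX π h) e0 c (lam, s) a qs j)‖ +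
      Real.exp (et a qs j / 3) * ‖CrP (wM (R lam)) (K * Real.exp (-(et a qs j))) al
        (fun k => if cutE (Real.exp (a.1.l / 20)) k then
          ETd548.stG (alX π h) e0 c (lam, s) a qs j k else 0)‖ +
      Real.exp (-(et a qs j / 3)) * ‖((pC * c3 (wM (R lam)) K : ℝ) : ℂ) *
        X2 (YcX Rh a qs) E0 (JS (nw c a)) (omL j) al‖ := by
    intro j hj
    have hjn : j < nw c a := mem_range.1 hj
    have h2i : (2 : ℝ) ^ (j + 1) ≤ Yt := pow_le_pow_right₀ (by norm_num) hjn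
    have h2p : (0 : ℝ) < 2 ^ (j + 1) := by positivity
    have hs2 : (0 : ℝ) < (nm s : ℝ) ^ 2 := by positivity
    have hmul := mul_le_mul_of_nonneg_right h2i hs2.le
    have hlogi : Real.log ((2 : ℝ) ^ (j + 1) * (nm s : ℝ) ^ 2) ≤ Real.log (Yt * (nm s : ℝ) ^ 2) :=
      Real.log_le_log (by positivity) hmul
    have key := HI X hX3 (π lam) (hP lam) 1 (p1 :: p2 :: lr) (rl p1 p2 lr dd) hlen3 hrlen hzz hzr'
      (LN_rl _ _ _ _) (zN p1 p2 dd) (norm_zN _ _ _).le (xN (π lam) h 1 p1 p2 lr dd)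
      (xN_eq (π lam) h 1 p1 p2 lr dd) K Yr (Real.sqrt (2 ^ (j + 1))) (2 ^ j / 4) (2 ^ (j + 1)) E0
      (TgX a qs) F F' Eb s0 Fb (et a qs j) Sh (j + 2) hK1 (by rw [hLNn]) hYrX (Real.sqrt_nonneg _)
      h2p (hmul.trans hnsX) (Real.exp_pos _)
      (by rw [pow_succ (2 : ℝ) (j + 1)]; linarith) (het0 _ _ _) hF0 hF0'
      hEb0 hFb0 (lipS_shB (hLip _ _ _)) (hCL.monoT hlogi) (hCR.monoT hlogi) hPB
      (fun γ b v h1 h2 h3 h4 h5 => hbias γ b v h1 h2 h3 h4 (h5.trans (by linarith)))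
      al hdom (omL j) (norm_omL_le j)
      (fun k => cutE (Real.exp (a.1.l / 20)) k)
    rw [hlK, hLNn] at key
    have hst : (fun k => StE E0 (JLs j) (omL j) al k) =
        ETd548.stG (alX π h) e0 c (lam, s) a qs j := by
      funext k
      exact (StE_JLs hjn E0 al k).symm
    have hst' : StE E0 (JLs j) (omL j) al = ETd548.stG (alX π h) e0 c (lam, s) a qs j := hst
    rw [hX2i j]
    have e1 : (fun k => if cutE (Real.exp (a.1.l / 20)) k then
        StE E0 (JS (nw c a)) (omL j) al k else 0) = fun k =>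
        if cutE (Real.exp (a.1.l / 20)) k then StE E0 (JLs j) (omL j) al k else 0 := by
      funext k
      rw [StE_JLs hjn]
    rw [e1, X2_JLs hjn]
    unfold JLs at *
    rw [← hst']
    exact key
  have hE2 : E2X π h e0 c Rh R (lam, s) a qs =
      ‖CrP (wM (R lam)) K al
        (fun k => if cutE (Real.exp (a.1.l / 20)) k then
          StE E0 (JW (Real.sqrt Yt) (1 / 10) Yt) (omP (nw c a)) al k else 0) -
      ((pC * c3 (wM (R lam)) K : ℝ) : ℂ) * X2 Yr E0 (JW (Real.sqrt Yt) (1 / 10) Yt)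
        (omP (nw c a)) al‖ := by
    unfold E2X
    rw [if_pos hok]
    show ‖_ - _ * X2 (YcX Rh a qs) E0 (JS (nw c a)) (omP (nw c a)) al‖ = _
    rw [hX2eq]
    rfl
  rw [hE2]
  refine (cross_omL (wgt_wM (R lam)) (by linarith) al (fun k => cutE (Real.exp (a.1.l / 20)) k) Yr
    E0 _ (nw c a) ((pC * c3 (wM (R lam)) K : ℝ) : ℂ)).trans ?_
  refine (Finset.sum_le_sum hlev).trans ?_
  rw [Finset.sum_add_distrib, Finset.sum_add_distrib, Finset.sum_add_distrib,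
    Finset.sum_add_distrib, Finset.sum_const, Finset.card_range, nsmul_eq_mul]
  have hnw : ((nw c a : ℕ) : ℝ) ≤ 2 * (C₁ * X ^ (ε / 16)) := by
    have h1 : (nw c a : ℝ) * Real.log 2 ≤ L := by
      have h2 : Yt ≤ X := le_trans (le_mul_of_one_le_right hYt0.le hsn) hnsX
      have h3 := Real.log_le_log hYt0 h2
      rw [hYt, Real.log_pow] at h3
      exact h3
    have h4 : (1 : ℝ) / 2 ≤ Real.log 2 := by linarith [Real.log_two_gt_d9]
    have h5 : (nw c a : ℝ) * (1 / 2) ≤ nw c a * Real.log 2 :=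
      mul_le_mul_of_nonneg_left h4 (Nat.cast_nonneg _)
    have h6 := HL X hX1.le
    rw [pow_one, ← hL] at h6
    linarith
  -- the exponents
  have hE8 : E8X L0 q = κ + sv + L0 (prX p) := by
    have h1 : E8X L0 q = κ + (v₀ + v₁ + v₂) + x' + L0 (prX p) := rfl
    rw [h1, hsv]
    ring
  have hδε' : 10 * (δ * L) ≤ ε / 10 * L := by
    have := mul_le_mul_of_nonneg_right hδε hL0'.le
    linarith
  have hεL : 0 ≤ ε * L := by positivity
  have hKn : K * Real.exp n ≤ Real.exp ((κ + sv) * L + 5 * (δ * L)) := by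
    rw [hK, ← Real.exp_add]
    refine Real.exp_le_exp.2 ?_
    linarith
  have hXexp : ∀ z : ℝ, X ^ z = Real.exp (z * L) := fun z => by
    rw [Real.rpow_def_of_pos hX0, ← hL, mul_comm]
  have hHM : ∀ m : ℕ, (m : ℝ) ≤ m₀ → H ^ m ≤ Real.exp (ε / 16 * L) := by
    intro m hm'
    rw [hH, hXexp, ← Real.exp_nat_mul]
    refine Real.exp_le_exp.2 ?_
    have h1 : δ' * m₀ ≤ ε / 16 := by
      have := mul_le_mul_of_nonneg_right hdM hm₀1.le
      refine this.trans (le_of_eq ?_)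
      field_simp
    have h2 : (m : ℝ) * δ' ≤ ε / 16 := by
      refine le_trans ?_ h1
      rw [mul_comm]
      exact mul_le_mul_of_nonneg_left hm' hδ'.le
    calc (m : ℝ) * (δ' * L) = (m : ℝ) * δ' * L := by ring
      _ ≤ _ := mul_le_mul_of_nonneg_right h2 hL0'.le
  have hM₁m : (M₁ : ℝ) ≤ m₀ := by
    have : (0 : ℝ) ≤ (N : ℝ) := Nat.cast_nonneg _
    linarith
  set ex := max 0 (5 / 4 * NN - κ) with hex'
  have hex5 : max 0 (5 / 4 * a3 a.1.toBd - a.1.l) ≤ ex * L + 5 * (δ * L) := by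
    rw [hex', max_mul_of_nonneg _ _ hL0'.le, zero_mul]
    have h1 := le_max_left 0 ((5 / 4 * NN - κ) * L)
    have h2 := le_max_right 0 ((5 / 4 * NN - κ) * L)
    exact max_le (by linarith) (by linarith)
  have hXe1 : 1 ≤ X ^ (ε / 16) := Real.one_le_rpow hX1.le (by positivity)
  have hFle : ∀ x : ℝ, ex + x ≤ L0 (prX p) → H ^ M₁ * X ^ (x + ε / 16) * Real.exp (ex * L) ≤
      C₀ * Real.exp (L0 (prX p) * L + ε / 8 * L) := by
    intro x hx
    rw [hXexp]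
    calc H ^ M₁ * Real.exp ((x + ε / 16) * L) * Real.exp (ex * L) ≤
          Real.exp (ε / 16 * L) * Real.exp ((x + ε / 16) * L) * Real.exp (ex * L) := by
          have := hHM M₁ hM₁m
          gcongr
      _ = 1 * Real.exp ((ex + x) * L + ε / 8 * L) := by
          rw [← Real.exp_add, ← Real.exp_add, one_mul]; congr 1; ring
      _ ≤ C₀ * Real.exp (L0 (prX p) * L + ε / 8 * L) := by
          have h3 : (ex + x) * L ≤ L0 (prX p) * L := mul_le_mul_of_nonneg_right hx hL0'.le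
          have h4 : Real.exp ((ex + x) * L + ε / 8 * L) ≤
              Real.exp (L0 (prX p) * L + ε / 8 * L) := Real.exp_le_exp.2 (by linarith)
          exact mul_le_mul hC₀ h4 (Real.exp_pos _).le (by linarith)
  have hFN := hFle (ℓ (bN p)) hLNp
  have hFR' := hFle (ℓ (bR p)) hLRp
  have hFB : Fb * Real.exp (ex * L) ≤ C₀ * Real.exp (L0 (prX p) * L + ε / 8 * L) := by
    have h1 : Htt ≤ H ^ (N + 3) := by
      refine (Ht_pow hH1 ?_).trans (pow_le_pow_right₀ hH1 hlen3)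
      intro p' hp'
      rw [hlr] at hp'
      simp only [List.mem_cons] at hp'
      rcases hp' with rfl | rfl | rfl | h1
      · exact hs1' 0
      · exact hs1' 1
      · exact hs1' 2
      · exact (hg p' h1).1
    have h2 : Htt ^ 6 ≤ Real.exp (ε / 16 * L) := by
      refine (pow_le_pow_left₀ (by linarith) h1 6).trans ?_
      rw [← pow_mul]
      refine hHM _ ?_
      push_cast
      have : (0 : ℝ) ≤ (M₁ : ℝ) := Nat.cast_nonneg _
      rw [hm₀]
      linarith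
    rw [hFb, hXexp]
    calc C₀ * Real.exp (ε / 16 * L) * Htt ^ 6 * Real.exp (ex * L) ≤
          C₀ * Real.exp (ε / 16 * L) * Real.exp (ε / 16 * L) * Real.exp (ex * L) := by gcongr
      _ = C₀ * Real.exp (ex * L + ε / 8 * L) := by
          rw [mul_assoc, mul_assoc, ← Real.exp_add, ← Real.exp_add]; congr 2; ring
      _ ≤ _ := by
          refine mul_le_mul_of_nonneg_left (Real.exp_le_exp.2 ?_) (by linarith)
          have : ex * L ≤ L0 (prX p) * L := mul_le_mul_of_nonneg_right hL0p hL0'.le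
          linarith
  have hXe16 : X ^ (ε / 16) = Real.exp (ε / 16 * L) := hXexp _
  have hUe : U = Real.exp ((κ + sv + L0 (prX p)) * L + ε / 2 * L) := by
    rw [hU, hE8, hXexp]
    congr 1
    ring
  have hTgX : TgX a qs = 4 / 3 * n + max 0 (5 / 4 * a3 a.1.toBd - a.1.l) := rfl
  set ea := max 0 (5 / 4 * a3 a.1.toBd - a.1.l) with hea
  have hXe16' : 0 ≤ C₁ * X ^ (ε / 16) := by positivity
  have t1 : ((nw c a : ℕ) : ℝ) * (C * X ^ (ε / 16) * (K / Real.exp n) *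
      ((F + F' + Fb) * Real.exp (TgX a qs + 2 / 3 * n))) ≤ 6 * C₁ * C * C₀ * U := by
    refine (mul_le_mul_of_nonneg_right hnw (by positivity)).trans ?_
    rw [hTgX]
    have e1 : K / Real.exp n * ((F + F' + Fb) * Real.exp (4 / 3 * n + ea + 2 / 3 * n)) =
        K * Real.exp n * ((F + F' + Fb) * Real.exp ea) := by
      have e2 : Real.exp (4 / 3 * n + ea + 2 / 3 * n) =
          Real.exp n * Real.exp n * Real.exp ea := by
        rw [← Real.exp_add, ← Real.exp_add]; congr 1; ring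
      rw [e2]
      have := (Real.exp_pos n).ne'
      field_simp
    have e3 : Real.exp ea ≤ Real.exp (ex * L) * Real.exp (5 * (δ * L)) := by
      rw [← Real.exp_add]
      exact Real.exp_le_exp.2 hex5
    have e4 : C * X ^ (ε / 16) * (K / Real.exp n) *
          ((F + F' + Fb) * Real.exp (4 / 3 * n + ea + 2 / 3 * n)) ≤
        3 * C * C₀ * (Real.exp (ε / 16 * L) * Real.exp ((κ + sv) * L + 5 * (δ * L)) *
            Real.exp (5 * (δ * L)) * Real.exp (L0 (prX p) * L + ε / 8 * L)) := by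
      calc C * X ^ (ε / 16) * (K / Real.exp n) *
            ((F + F' + Fb) * Real.exp (4 / 3 * n + ea + 2 / 3 * n)) =
            C * X ^ (ε / 16) * (K / Real.exp n *
            ((F + F' + Fb) * Real.exp (4 / 3 * n + ea + 2 / 3 * n))) := by ring
        _ = C * X ^ (ε / 16) * (K * Real.exp n * ((F + F' + Fb) * Real.exp ea)) := by rw [e1]
        _ ≤ C * X ^ (ε / 16) * (Real.exp ((κ + sv) * L + 5 * (δ * L)) *
              ((F + F' + Fb) * (Real.exp (ex * L) * Real.exp (5 * (δ * L))))) := by gcongr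
        _ = C * X ^ (ε / 16) * (Real.exp ((κ + sv) * L + 5 * (δ * L)) * Real.exp (5 * (δ * L)) *
              (F * Real.exp (ex * L) + F' * Real.exp (ex * L) + Fb * Real.exp (ex * L))) := by ring
        _ ≤ C * X ^ (ε / 16) * (Real.exp ((κ + sv) * L + 5 * (δ * L)) * Real.exp (5 * (δ * L)) *
              (C₀ * Real.exp (L0 (prX p) * L + ε / 8 * L) +
                C₀ * Real.exp (L0 (prX p) * L + ε / 8 * L) +
                C₀ * Real.exp (L0 (prX p) * L + ε / 8 * L))) := by gcongr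
        _ = _ := by rw [hXe16]; ring
    refine (mul_le_mul_of_nonneg_left e4 (by positivity)).trans ?_
    calc 2 * (C₁ * X ^ (ε / 16)) * (3 * C * C₀ * (Real.exp (ε / 16 * L) *
            Real.exp ((κ + sv) * L + 5 * (δ * L)) *
            Real.exp (5 * (δ * L)) * Real.exp (L0 (prX p) * L + ε / 8 * L))) =
          6 * C₁ * C * C₀ * (Real.exp (ε / 16 * L) * (Real.exp (ε / 16 * L) *
            Real.exp ((κ + sv) * L + 5 * (δ * L)) *
            Real.exp (5 * (δ * L)) * Real.exp (L0 (prX p) * L + ε / 8 * L))) := by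
          rw [hXe16]; ring
      _ ≤ 6 * C₁ * C * C₀ * U := by
          refine mul_le_mul_of_nonneg_left ?_ (by positivity)
          rw [hUe, ← Real.exp_add, ← Real.exp_add, ← Real.exp_add, ← Real.exp_add]
          refine Real.exp_le_exp.2 ?_
          linarith
  have hfin : 6 * C₁ * C * C₀ * U + U + U + U + U ≤ CC * U := by
    rw [hCC]
    have e1 : (6 * C₁ * C * C₀ + 5) * U = 6 * C₁ * C * C₀ * U + U + U + U + U + U := by ring
    rw [e1]
    linarith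
  calc _ ≤ 6 * C₁ * C * C₀ * U + U + U + U + U :=
        add_le_add (add_le_add (add_le_add (add_le_add t1 hRp) hEt) hCr) hMn
    _ ≤ CC * U := hfin
    _ ≤ X ^ (ε / 2) * U := mul_le_mul_of_nonneg_right hLC hU0.le
    _ = X ^ (E8X L0 q + ε) := by
        rw [hU, ← Real.rpow_add hX0]
        congr 1
        ring

end Crest.Agent.R017.P10X764
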