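import Crest.Agent.R017.CrI_241
import Crest.Agent.R017.CrH_241
import Crest.Agent.R017.E2Xb_764
import Crest.Agent.R017.E2Sb_764

/-!
# Row 17, exceptional class, P1X (helper241): the second scale, instances, `1/8`

* `etC8` : the shift `1/8 l⁺ + max 0 (2 LN - l - j log 2)`;  `etC8_lo`, `etC8_hi`, `etC8_nonneg`,
  `etC8_mn`
* **`crX8_of`**, **`crS8_of`** : 764's `CrGU` for the difference and for single lists
-/

set_option autoImplicit false
set_option linter.unusedSectionVars false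
set_option linter.unusedVariables false

noncomputable section

open Finset
open scoped ComplexConjugate Classical

namespace Crest.Agent.R017.CrG241

open Crest.Agent.R012 Crest.Agent.R012.Eis Crest.Agent.R012.MC
open Crest.Agent.R017.CM106 (CS FS)
open Crest.Agent.R017.HP842 (sqc alL)
open Crest.Agent.R017.B770
open Crest.Agent.R017.XG702 (Pcs)
open Crest.Agent.R017.Prov71
open Crest.Agent.R017.I1146 (LN)
open Crest.Agent.R017.XT71 (Sys Win mx)
open Crest.Agent.R017.E5B71 Crest.Agent.R017.E5P571 Crest.Agent.R017.E5L770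
open Crest.Agent.R017.ExBox960 Crest.Agent.R017.ExP960
open Crest.Agent.R017.P1l54 (ParOK)
open Crest.Agent.R017.P1X960
open Crest.Agent.R017.P10X764 (nw alX alS clN nW_hi okX okS)
open Crest.Agent.R017.ETd548
open Crest.Agent.R017.ETk548

/-- **the shift** -/
def etC8 (a : BcX) (qs : List Pq) (j : ℕ) : ℝ :=
  1 / 8 * max 0 a.1.l + max 0 (2 * LN (clN a qs) - a.1.l - Real.log 2 * j)

lemma etC8_lo (a : BcX) (qs : List Pq) (j : ℕ) : 1 / 8 * a.1.l ≤ etC8 a qs j := by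
  have h1 := le_max_right 0 a.1.l
  have h2 := le_max_left 0 (2 * LN (clN a qs) - a.1.l - Real.log 2 * j)
  unfold etC8
  linarith

lemma etC8_nonneg (a : BcX) (qs : List Pq) (j : ℕ) : 0 ≤ etC8 a qs j :=
  add_nonneg (mul_nonneg (by norm_num) (le_max_left _ _)) (le_max_left _ _)

lemma etC8_eq {a : BcX} (ha : 0 ≤ a.1.l) (qs : List Pq) (j : ℕ) :
    etC8 a qs j = 1 / 8 * a.1.l + max 0 (2 * LN (clN a qs) - a.1.l - Real.log 2 * j) := by
  unfold etC8
  rw [max_eq_right ha]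

/-- the shift is below 548's bound -/
lemma etC8_hi' (a : BcX) (qs : List Pq) (j : ℕ) (ha : 0 ≤ a.1.l) :
    etC8 a qs j ≤ 3 / 20 * a.1.l + max 0 (2 * LN (clN a qs) - a.1.l - Real.log 2 * j) := by
  rw [etC8_eq ha]
  linarith

lemma etC8_hi (a : BcX) (qs : List Pq) (j : ℕ) (ha : 0 ≤ a.1.l) :
    etC8 a qs j ≤ 3 / 20 * a.1.l + max 0 (2 * LN (clN a qs) - a.1.l) := by
  have h2 : 0 ≤ Real.log 2 * j := mul_nonneg (Real.log_nonneg (by norm_num)) (Nat.cast_nonneg _)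
  have h4 := etC8_hi' a qs j ha
  have : max 0 (2 * LN (clN a qs) - a.1.l - Real.log 2 * j) ≤
      max 0 (2 * LN (clN a qs) - a.1.l) := max_le_max le_rfl (by linarith)
  linarith

/-- the shift is above 385's bound -/
lemma etC8_mn (a : BcX) (qs : List Pq) (j : ℕ) :
    2 * LN (clN a qs) - a.1.l - Real.log 2 * j ≤ etC8 a qs j := by
  have h3 : 0 ≤ max 0 a.1.l := le_max_left _ _
  have h4 := le_max_right 0 (2 * LN (clN a qs) - a.1.l - Real.log 2 * j)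
  unfold etC8
  linarith

section
variable {Λ : Type*} {π : Λ → DPar} {h : ℝ → ℝ} {e0 c : ℝ} {et : BcX → List Pq → ℕ → ℝ}
  {β : ℝ} {Par : Set (Fin 3 ⊕ Fin 5 → ℝ)} {L : (IX5 → ℝ) → ℝ → ℝ → ℝ → Prop}
  {L0 : (Fin 3 ⊕ Fin 5 → ℝ) → ℝ}

/-- **the second scale of a difference** (764's text) -/
theorem crX8_of (hP : ∀ lam, (π lam).OK) (hPar : ∀ p ∈ Par, ParOK p)
    (hPn : ∀ p ∈ Par, cN p + cx' p ≤ 21 / 25 * cκ p)
    (het1 : ∀ a qs j, 1 / 8 * a.1.l ≤ et a qs j)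
    (het2 : ∀ a qs j, 0 ≤ a.1.l →
      et a qs j ≤ 3 / 20 * a.1.l + max 0 (2 * LN (clN a qs) - a.1.l))
    {CE : (I8X ⊕ Unit → ℝ) × (Kd → ℝ) → ℝ}
    (hcs : CsGUc (7 / 8) π (alX π h) (okX π) c β Par L CE)
    (hgk : GkGUc (7 / 8) (alX π h) (okX π) e0 c β Par L (fun q => RoomX L0 q - CE q)) :
    E2G764.CrGU (alX π h) (okX π) e0 c et β Par L L0 :=
  crG8_of hP hPar hPn (fun _ _ _ _ _ hn => alX_prim hn) (fun _ _ _ h => h.1) het1 het2 hcs hgk

/-- **the second scale of a single list** (764's text) -/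
theorem crS8_of (hP : ∀ lam, (π lam).OK) (hPar : ∀ p ∈ Par, ParOK p)
    (hPn : ∀ p ∈ Par, cN p + cx' p ≤ 21 / 25 * cκ p)
    (het1 : ∀ a qs j, 1 / 8 * a.1.l ≤ et a qs j)
    (het2 : ∀ a qs j, 0 ≤ a.1.l →
      et a qs j ≤ 3 / 20 * a.1.l + max 0 (2 * LN (clN a qs) - a.1.l))
    {CE : (I8X ⊕ Unit → ℝ) × (Kd → ℝ) → ℝ}
    (hcs : CsGUc (7 / 8) π (alS π h) (okS π) c β Par L CE)
    (hgk : GkGUc (7 / 8) (alS π h) (okS π) e0 c β Par L (fun q => RoomX L0 q - CE q)) :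
    E2G764.CrGU (alS π h) (okS π) e0 c et β Par L L0 :=
  crG8_of hP hPar hPn (fun _ _ _ _ _ hn => sq_prim hn) (fun _ _ _ h => h) het1 het2 hcs hgk

/-- **the second scale of a difference**, shift `etC8` -/
theorem crX8 (hP : ∀ lam, (π lam).OK) (hPar : ∀ p ∈ Par, ParOK p)
    (hPn : ∀ p ∈ Par, cN p + cx' p ≤ 21 / 25 * cκ p)
    {CE : (I8X ⊕ Unit → ℝ) × (Kd → ℝ) → ℝ}
    (hcs : CsGUc (7 / 8) π (alX π h) (okX π) c β Par L CE)
    (hgk : GkGUc (7 / 8) (alX π h) (okX π) e0 c β Par L (fun q => RoomX L0 q - CE q)) :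
    E2G764.CrGU (alX π h) (okX π) e0 c etC8 β Par L L0 :=
  crX8_of hP hPar hPn etC8_lo etC8_hi hcs hgk

/-- **the second scale of a single list**, shift `etC8` -/
theorem crS8 (hP : ∀ lam, (π lam).OK) (hPar : ∀ p ∈ Par, ParOK p)
    (hPn : ∀ p ∈ Par, cN p + cx' p ≤ 21 / 25 * cκ p)
    {CE : (I8X ⊕ Unit → ℝ) × (Kd → ℝ) → ℝ}
    (hcs : CsGUc (7 / 8) π (alS π h) (okS π) c β Par L CE)
    (hgk : GkGUc (7 / 8) (alS π h) (okS π) e0 c β Par L (fun q => RoomX L0 q - CE q)) :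
    E2G764.CrGU (alS π h) (okS π) e0 c etC8 β Par L L0 :=
  crS8_of hP hPar hPn etC8_lo etC8_hi hcs hgk

end

end Crest.Agent.R017.CrG241
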