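import Crest.Agent.R017.GrB_829
import Mathlib.MeasureTheory.Integral.IntegralEqImproper

/-!
# Row 17, R8 (E3, item (b)): the diagonal sums with a smooth weight (helper829)

* `layer` : `Σ_k g k φ(ν k) = - ∫ (Σ_{ν k ≤ t} g k) φ'(t) dt`
* `smooth_of_sharp` : a bound of `Σ_{ν k ≤ t} g k - M t^(2/3)` on the support of `φ` gives the
  smooth sum with main term `(2/3) M ∫ t^(-1/3) φ`
* `GD_bound` : **`Σ'_k [k primary, (k,b)=1] φ(N k/X) |th(j k)|²`
  `= κ₀ PE(b) N(j)^(-1/3) X^(2/3) ∫ t^(-1/3) φ + O(..)`**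
-/

set_option autoImplicit false

noncomputable section

open Finset MeasureTheory
open scoped ComplexConjugate

namespace Crest.Agent.R017.GrC829

open Crest.Agent.R012 Crest.Agent.R012.Eis Crest.Agent.R012.Tau85 Crest.Agent.R012.T3_85
open Crest.Agent.R012.Mob705 Crest.Agent.R012.Div277 Crest.Agent.R012.Gauss880
open Crest.Agent.R017.PX764 Crest.Agent.R017.P3all283 Crest.Agent.R017.C70
open Crest.Agent.R017.GrB829

/-- `φ` is `C¹`, supported in `[a₀, b₀] ⊂ (0, ∞)`, `|φ'| ≤ D` -/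
structure Wt (φ : ℝ → ℂ) (a₀ b₀ D : ℝ) : Prop where
  pos : 0 < a₀
  le : a₀ ≤ b₀
  smooth : ContDiff ℝ 1 φ
  supp : ∀ t, t ∉ Set.Icc a₀ b₀ → φ t = 0
  bd : ∀ t, ‖deriv φ t‖ ≤ D

variable {φ : ℝ → ℂ} {a₀ b₀ D : ℝ}

lemma Wt.D_nonneg (h : Wt φ a₀ b₀ D) : 0 ≤ D := (norm_nonneg _).trans (h.bd 0)

lemma Wt.cs (h : Wt φ a₀ b₀ D) : HasCompactSupport φ :=
  HasCompactSupport.intro isCompact_Icc (fun t ht => h.supp t ht)

lemma Wt.cont_deriv (h : Wt φ a₀ b₀ D) : Continuous (deriv φ) :=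
  h.smooth.continuous_deriv le_rfl

lemma Wt.supp_deriv (h : Wt φ a₀ b₀ D) {t : ℝ} (ht : t ∉ Set.Icc a₀ b₀) : deriv φ t = 0 := by
  have h1 : φ =ᶠ[nhds t] fun _ => 0 := by
    filter_upwards [isClosed_Icc.isOpen_compl.mem_nhds ht] with s hs
    exact h.supp s hs
  rw [h1.deriv_eq, deriv_const]

lemma Wt.integrable_deriv (h : Wt φ a₀ b₀ D) : Integrable (deriv φ) :=
  h.cont_deriv.integrable_of_hasCompactSupport
    (HasCompactSupport.intro isCompact_Icc (fun _ ht => h.supp_deriv ht))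

lemma Wt.left (h : Wt φ a₀ b₀ D) : φ a₀ = 0 := by
  have h1 : Filter.Tendsto φ (nhdsWithin a₀ (Set.Iio a₀)) (nhds (φ a₀)) :=
    h.smooth.continuous.continuousAt.tendsto.mono_left nhdsWithin_le_nhds
  have h2 : Filter.Tendsto φ (nhdsWithin a₀ (Set.Iio a₀)) (nhds 0) := by
    refine tendsto_const_nhds.congr' ?_
    filter_upwards [self_mem_nhdsWithin] with s hs
    exact (h.supp s (fun hh => absurd hh.1 (not_le.2 hs))).symm
  exact tendsto_nhds_unique h1 h2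

lemma Wt.right (h : Wt φ a₀ b₀ D) : φ b₀ = 0 := by
  have h1 : Filter.Tendsto φ (nhdsWithin b₀ (Set.Ioi b₀)) (nhds (φ b₀)) :=
    h.smooth.continuous.continuousAt.tendsto.mono_left nhdsWithin_le_nhds
  have h2 : Filter.Tendsto φ (nhdsWithin b₀ (Set.Ioi b₀)) (nhds 0) := by
    refine tendsto_const_nhds.congr' ?_
    filter_upwards [self_mem_nhdsWithin] with s hs
    exact (h.supp s (fun hh => absurd hh.2 (not_le.2 hs))).symm
  exact tendsto_nhds_unique h1 h2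

lemma Wt.eq_integral (h : Wt φ a₀ b₀ D) (ν : ℝ) :
    φ ν = -∫ t, (Set.Ici ν).indicator (deriv φ) t := by
  rw [integral_indicator measurableSet_Ici, integral_Ici_eq_integral_Ioi,
    h.cs.integral_Ioi_deriv_eq h.smooth ν, neg_neg]

open Classical in
/-- **the layer formula** -/
theorem layer (h : Wt φ a₀ b₀ D) {ι : Type*} (T : Finset ι) (ν : ι → ℝ) (g : ι → ℂ) :
    ∑ k ∈ T, g k * φ (ν k) =
      -∫ t in a₀..b₀, (∑ k ∈ T, if ν k ≤ t then g k else 0) * deriv φ t := by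
  have h1 : ∀ k ∈ T, Integrable (fun t => g k * (Set.Ici (ν k)).indicator (deriv φ) t) :=
    fun k _ => (h.integrable_deriv.indicator measurableSet_Ici).const_mul _
  have h2 : ∀ t, (∑ k ∈ T, g k * (Set.Ici (ν k)).indicator (deriv φ) t) =
      (∑ k ∈ T, if ν k ≤ t then g k else 0) * deriv φ t := by
    intro t
    rw [Finset.sum_mul]
    refine Finset.sum_congr rfl fun k _ => ?_
    by_cases hk : ν k ≤ t
    · rw [if_pos hk, Set.indicator_of_mem (Set.mem_Ici.2 hk)]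
    · rw [if_neg hk, Set.indicator_of_notMem (fun hh => hk (Set.mem_Ici.1 hh))]; ring
  have h3 : ∀ t, t ∉ Set.Icc a₀ b₀ →
      (∑ k ∈ T, if ν k ≤ t then g k else 0) * deriv φ t = 0 := fun t ht => by
    rw [h.supp_deriv ht, mul_zero]
  calc ∑ k ∈ T, g k * φ (ν k)
      = -∑ k ∈ T, ∫ t, g k * (Set.Ici (ν k)).indicator (deriv φ) t := by
        rw [← Finset.sum_neg_distrib]
        refine Finset.sum_congr rfl fun k _ => ?_
        rw [h.eq_integral (ν k), integral_const_mul]; ring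
    _ = -∫ t, (∑ k ∈ T, if ν k ≤ t then g k else 0) * deriv φ t := by
        rw [← integral_finsetSum T h1]
        simp only [h2]
    _ = _ := by
        rw [intervalIntegral.integral_of_le h.le, ← integral_Icc_eq_integral_Ioc,
          setIntegral_eq_integral_of_forall_compl_eq_zero h3]

lemma Wt.main_int (h : Wt φ a₀ b₀ D) :
    -∫ t in a₀..b₀, ((t ^ (2 / 3 : ℝ) : ℝ) : ℂ) * deriv φ t =
      2 / 3 * ∫ t in Set.Ioi (0 : ℝ), ((t ^ (-(1 : ℝ) / 3) : ℝ) : ℂ) * φ t := by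
  have hpos : ∀ t ∈ Set.uIcc a₀ b₀, 0 < t := fun t ht => by
    rw [Set.uIcc_of_le h.le] at ht
    exact h.pos.trans_le ht.1
  have hu : ∀ t ∈ Set.uIcc a₀ b₀, HasDerivAt (fun t : ℝ => ((t ^ (2 / 3 : ℝ) : ℝ) : ℂ))
      ((2 / 3 * t ^ (-(1 : ℝ) / 3) : ℝ) : ℂ) t := by
    intro t ht
    have h1 := Real.hasDerivAt_rpow_const (x := t) (p := 2 / 3) (Or.inl (hpos t ht).ne')
    have h2 : (2 / 3 : ℝ) - 1 = -(1 : ℝ) / 3 := by norm_num
    rw [h2] at h1
    exact h1.ofReal_comp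
  have hv : ∀ t ∈ Set.uIcc a₀ b₀, HasDerivAt φ (deriv φ t) t := fun t _ =>
    (h.smooth.differentiable (by norm_num) t).hasDerivAt
  have hu' : IntervalIntegrable (fun t : ℝ => ((2 / 3 * t ^ (-(1 : ℝ) / 3) : ℝ) : ℂ))
      volume a₀ b₀ := by
    apply ContinuousOn.intervalIntegrable
    intro t ht
    refine ContinuousAt.continuousWithinAt ?_
    refine Complex.continuous_ofReal.continuousAt.comp ?_
    exact continuousAt_const.mul (Real.continuousAt_rpow_const _ _ (Or.inl (hpos t ht).ne'))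
  have hv' : IntervalIntegrable (deriv φ) volume a₀ b₀ := h.cont_deriv.intervalIntegrable _ _
  have h1 := intervalIntegral.integral_deriv_mul_eq_sub hu hv hu' hv'
  rw [h.left, h.right, mul_zero, mul_zero, sub_zero] at h1
  have hc1 : IntervalIntegrable (fun t : ℝ => ((2 / 3 * t ^ (-(1 : ℝ) / 3) : ℝ) : ℂ) * φ t)
      volume a₀ b₀ := hu'.mul_continuousOn h.smooth.continuous.continuousOn
  have hc2 : IntervalIntegrable (fun t : ℝ => ((t ^ (2 / 3 : ℝ) : ℝ) : ℂ) * deriv φ t)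
      volume a₀ b₀ := by
    apply hv'.continuousOn_mul
    intro t ht
    refine ContinuousAt.continuousWithinAt ?_
    refine Complex.continuous_ofReal.continuousAt.comp ?_
    exact Real.continuousAt_rpow_const _ _ (Or.inl (hpos t ht).ne')
  rw [intervalIntegral.integral_add hc1 hc2] at h1
  have h2 : ∫ t in a₀..b₀, ((2 / 3 * t ^ (-(1 : ℝ) / 3) : ℝ) : ℂ) * φ t =
      2 / 3 * ∫ t in Set.Ioi (0 : ℝ), ((t ^ (-(1 : ℝ) / 3) : ℝ) : ℂ) * φ t := by
    have e1 : ∀ t : ℝ, ((2 / 3 * t ^ (-(1 : ℝ) / 3) : ℝ) : ℂ) * φ t =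
        2 / 3 * (((t ^ (-(1 : ℝ) / 3) : ℝ) : ℂ) * φ t) := fun t => by push_cast; ring
    simp only [e1]
    rw [intervalIntegral.integral_const_mul, intervalIntegral.integral_of_le h.le,
      ← integral_Icc_eq_integral_Ioc]
    congr 1
    have h3 : ∀ t, t ∉ Set.Icc a₀ b₀ → ((t ^ (-(1 : ℝ) / 3) : ℝ) : ℂ) * φ t = 0 := fun t ht => by
      rw [h.supp t ht, mul_zero]
    have h4 : ∀ t, t ∉ Set.Ioi (0 : ℝ) → ((t ^ (-(1 : ℝ) / 3) : ℝ) : ℂ) * φ t = 0 := by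
      intro t ht
      apply h3
      intro hh
      exact ht (h.pos.trans_le hh.1)
    rw [setIntegral_eq_integral_of_forall_compl_eq_zero h3,
      setIntegral_eq_integral_of_forall_compl_eq_zero h4]
  rw [← h2, eq_neg_of_add_eq_zero_left h1]

open Classical in
/-- **smooth sums from sharp sums** -/
theorem smooth_of_sharp (h : Wt φ a₀ b₀ D) {ι : Type*} (T : Finset ι) (ν : ι → ℝ) (g : ι → ℝ)
    {M E : ℝ} (hE : ∀ t ∈ Set.Icc a₀ b₀,
      |(∑ k ∈ T, if ν k ≤ t then g k else 0) - M * t ^ (2 / 3 : ℝ)| ≤ E) :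
    ‖∑ k ∈ T, ((g k : ℝ) : ℂ) * φ (ν k) -
      ((2 / 3 * M : ℝ) : ℂ) * ∫ t in Set.Ioi (0 : ℝ), ((t ^ (-(1 : ℝ) / 3) : ℝ) : ℂ) * φ t‖ ≤
      (b₀ - a₀) * D * E := by
  have hpos : ∀ t ∈ Set.uIcc a₀ b₀, 0 < t := fun t ht => by
    rw [Set.uIcc_of_le h.le] at ht
    exact h.pos.trans_le ht.1
  have e1 : ((2 / 3 * M : ℝ) : ℂ) * ∫ t in Set.Ioi (0 : ℝ), ((t ^ (-(1 : ℝ) / 3) : ℝ) : ℂ) * φ t =
      -∫ t in a₀..b₀, ((M * t ^ (2 / 3 : ℝ) : ℝ) : ℂ) * deriv φ t := by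
    have h1 := h.main_int
    have h2 : ∀ t : ℝ, ((M * t ^ (2 / 3 : ℝ) : ℝ) : ℂ) * deriv φ t =
        (M : ℂ) * (((t ^ (2 / 3 : ℝ) : ℝ) : ℂ) * deriv φ t) := fun t => by push_cast; ring
    simp only [h2]
    rw [intervalIntegral.integral_const_mul, ← mul_neg, h1]
    push_cast
    ring
  have hi1 : IntervalIntegrable (fun t : ℝ => ((M * t ^ (2 / 3 : ℝ) : ℝ) : ℂ) * deriv φ t)
      volume a₀ b₀ := by
    apply (h.cont_deriv.intervalIntegrable a₀ b₀).continuousOn_mul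
    intro t ht
    refine ContinuousAt.continuousWithinAt ?_
    refine Complex.continuous_ofReal.continuousAt.comp ?_
    exact continuousAt_const.mul (Real.continuousAt_rpow_const _ _ (Or.inl (hpos t ht).ne'))
  have hi2 : IntervalIntegrable
      (fun t : ℝ => (∑ k ∈ T, if ν k ≤ t then ((g k : ℝ) : ℂ) else 0) * deriv φ t)
      volume a₀ b₀ := by
    have h2 : (fun t : ℝ => (∑ k ∈ T, if ν k ≤ t then ((g k : ℝ) : ℂ) else 0) * deriv φ t) =
        fun t => ∑ k ∈ T, ((g k : ℝ) : ℂ) * (Set.Ici (ν k)).indicator (deriv φ) t := by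
      funext t
      rw [Finset.sum_mul]
      refine Finset.sum_congr rfl fun k _ => ?_
      by_cases hk : ν k ≤ t
      · rw [if_pos hk, Set.indicator_of_mem (Set.mem_Ici.2 hk)]
      · rw [if_neg hk, Set.indicator_of_notMem (fun hh => hk (Set.mem_Ici.1 hh))]; ring
    rw [h2]
    refine Integrable.intervalIntegrable ?_
    exact integrable_finset_sum _ fun k _ =>
      (h.integrable_deriv.indicator measurableSet_Ici).const_mul _
  rw [layer h T ν (fun k => ((g k : ℝ) : ℂ)), e1, neg_sub_neg, ← intervalIntegral.integral_sub hi1 hi2]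
  have hb := intervalIntegral.norm_integral_le_of_norm_le_const (a := a₀) (b := b₀) (C := E * D)
    (f := fun t => ((M * t ^ (2 / 3 : ℝ) : ℝ) : ℂ) * deriv φ t -
      (∑ k ∈ T, if ν k ≤ t then ((g k : ℝ) : ℂ) else 0) * deriv φ t) ?_
  · rw [abs_of_nonneg (sub_nonneg.2 h.le)] at hb
    calc _ ≤ E * D * (b₀ - a₀) := hb
      _ = _ := by ring
  · intro t ht
    rw [Set.uIoc_of_le h.le] at ht
    have ht' : t ∈ Set.Icc a₀ b₀ := ⟨ht.1.le, ht.2⟩
    have h1 := hE t ht'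
    have e2 : (∑ k ∈ T, if ν k ≤ t then ((g k : ℝ) : ℂ) else 0) =
        (((∑ k ∈ T, if ν k ≤ t then g k else 0) : ℝ) : ℂ) := by
      push_cast
      refine Finset.sum_congr rfl fun k _ => ?_
      split_ifs <;> simp
    rw [e2, ← sub_mul, norm_mul, ← Complex.ofReal_sub, Complex.norm_real, Real.norm_eq_abs,
      abs_sub_comm]
    have := h.bd t
    have hE0 : 0 ≤ E := (abs_nonneg _).trans h1
    gcongr

open Classical in
/-- the smooth diagonal sum -/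
def GD (φ : ℝ → ℂ) (X : ℝ) (j b : Eis) : ℂ :=
  ∑' k : Eis, if IsPrim k ∧ IsCoprime k b then
    φ ((nm k : ℝ) / X) * ((‖th (j * k)‖ ^ 2 : ℝ) : ℂ) else 0

open Classical in
lemma GD_eq (h : Wt φ a₀ b₀ D) {X : ℝ} (hX : 0 < X) (j b : Eis) :
    GD φ X j b = ∑ k ∈ cop b (b₀ * X), ((‖th (j * k)‖ ^ 2 : ℝ) : ℂ) * φ ((nm k : ℝ) / X) := by
  unfold GD
  rw [tsum_eq_sum (s := cop b (b₀ * X))]
  · refine Finset.sum_congr rfl fun k hk => ?_
    rw [mem_cop] at hk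
    rw [if_pos ⟨hk.1.2, hk.2⟩, mul_comm]
  · intro k hk
    split_ifs with hc
    · have h1 : b₀ * X < nm k := by
        by_contra hh
        exact hk (mem_cop.2 ⟨⟨not_lt.1 hh, hc.1⟩, hc.2⟩)
      rw [h.supp, zero_mul]
      rintro ⟨_, h2⟩
      rw [div_le_iff₀ hX] at h2
      linarith
    · rfl

open Classical in
lemma layer_FJ {X t : ℝ} (hX : 0 < X) (ht : t ≤ b₀) (j b : Eis) :
    (∑ k ∈ cop b (b₀ * X), if (nm k : ℝ) / X ≤ t then ‖th (j * k)‖ ^ 2 else 0) =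
      FJ j b (t * X) := by
  unfold FJ
  rw [← Finset.sum_filter]
  refine Finset.sum_congr ?_ fun _ _ => rfl
  ext k
  rw [mem_filter, mem_cop, mem_cop, div_le_iff₀ hX]
  constructor
  · rintro ⟨⟨⟨_, h1⟩, h2⟩, h3⟩
    exact ⟨⟨h3, h1⟩, h2⟩
  · rintro ⟨⟨h3, h1⟩, h2⟩
    refine ⟨⟨⟨h3.trans ?_, h1⟩, h2⟩, h3⟩
    exact mul_le_mul_of_nonneg_right ht hX.le

/-- **E3 (b): the diagonal sum with a smooth weight** -/
theorem GD_bound (h : Wt φ a₀ b₀ D) {X : ℝ} (hX : 0 < X) {j b : Eis} (hj : JC j) (hb : b ≠ 0)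
    (hjb : IsCoprime j b) :
    ‖GD φ X j b - ((kap0 * PE b * (nm j : ℝ) ^ (-(1 : ℝ) / 3) * X ^ (2 / 3 : ℝ) : ℝ) : ℂ) *
      ∫ t in Set.Ioi (0 : ℝ), ((t ^ (-(1 : ℝ) / 3) : ℝ) : ℂ) * φ t‖ ≤
      (b₀ - a₀) * D * (10000000 * sig b * (tau j : ℝ) ^ 2 * n6 j * (b₀ * X) ^ (1 / 3 : ℝ) *
        EL (b₀ * X)) := by
  classical
  have hb0 : 0 < b₀ := h.pos.trans_le h.le
  have hj0 : j ≠ 0 := by
    obtain ⟨c, hc, j', hp, -, rfl⟩ := hj
    exact mul_ne_zero (GrB829.IsC.ne_zero hc) hp.ne_zero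
  have hn := n6_pos hj0
  have hs := sig_pos b
  have h1 := smooth_of_sharp h (cop b (b₀ * X)) (fun k => (nm k : ℝ) / X)
    (fun k => ‖th (j * k)‖ ^ 2)
    (M := 3 / 2 * (kap0 * PE b) * (nm j : ℝ) ^ (-(1 : ℝ) / 3) * X ^ (2 / 3 : ℝ))
    (E := 10000000 * sig b * (tau j : ℝ) ^ 2 * n6 j * (b₀ * X) ^ (1 / 3 : ℝ) * EL (b₀ * X)) ?_
  · rw [GD_eq h hX]
    convert h1 using 4
    congr 1
    ring
  · intro t ht
    have ht0 : 0 ≤ t := h.pos.le.trans ht.1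
    rw [layer_FJ hX ht.2]
    have h2 := FJ_bound hj hb hjb (y := t * X) (mul_nonneg ht0 hX.le)
    rw [Real.mul_rpow ht0 hX.le] at h2
    have h3 : t * X ≤ b₀ * X := mul_le_mul_of_nonneg_right ht.2 hX.le
    have hE := EL_mono h3
    have hE0 := GrB829.EL_nonneg (t * X)
    have h4 : (t * X) ^ (1 / 3 : ℝ) ≤ (b₀ * X) ^ (1 / 3 : ℝ) :=
      Real.rpow_le_rpow (mul_nonneg ht0 hX.le) h3 (by norm_num)
    calc _ = |FJ j b (t * X) - 3 / 2 * (kap0 * PE b) * (nm j : ℝ) ^ (-(1 : ℝ) / 3) *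
          (t ^ (2 / 3 : ℝ) * X ^ (2 / 3 : ℝ))| := by congr 2; ring
      _ ≤ _ := h2
      _ ≤ _ := by gcongr

end Crest.Agent.R017.GrC829
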