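import Crest.Agent.R017.X6C5_180

/-!
# Row 17, exceptional class, X6 (C), part 6 (helper180): the functional equation `PP_eq`
-/

set_option autoImplicit false
set_option linter.unusedVariables false

noncomputable section

open Complex MeasureTheory Set Filter Topology
open scoped ComplexConjugate ContDiff

namespace Crest.Agent.R017.X6C180

open Crest.Agent.R012 Crest.Agent.R012.Eis Crest.Agent.R012.Sym645
open Crest.Agent.R012.Parseval499 (frq s3 toC_s3_ne)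
open Crest.Agent.R017.FE47 (SM BM)
open Crest.Agent.R017.Xi590 Crest.Agent.R017.Xn590
open Crest.Agent.R017.F1
open Crest.Agent.R017.PX764

/-- the constant of the main term : `pC · 2π/(9√3)` -/
def cM : ℝ := pC * (2 * Real.pi / (9 * Real.sqrt 3))

lemma kP_cD : kP * cD * (Xn960.gamN 3 * (Real.pi / 3)) = cM := by
  unfold kP cD M49.Dsf cM
  have h1 := zeta2_pos.ne'
  have h2 := (Xn960.gamN_pos 3 (by norm_num)).ne'
  have h3 := Real.pi_pos.ne'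
  field_simp

lemma mB_rV1 {F : ℝ → ℂ} (hF : M49.Wt F) :
    mB (rV (V1 F)) = ((Xn960.gamN 3 * (Real.pi / 3) : ℝ) : ℂ) * mellin F ((2 / 3 : ℝ) : ℂ) := by
  rw [mB_rV (wt_V1 hF), mellin_V1]

lemma mB_fA {F : ℝ → ℂ} (hF : M49.Wt F) {A : ℝ} (hA : 0 < A) :
    mB (fA F A) = ((A ^ (2 / 3 : ℝ) : ℝ) : ℂ) * mB (rV (V1 F)) := by
  unfold fA
  rw [mB_const_mul, mB_dl _ (sqrtA_ne hA), ← mul_assoc, ← Complex.ofReal_mul]
  congr 2
  have hw : ‖((Real.sqrt A : ℝ) : ℂ)‖ = Real.sqrt A := by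
    rw [Complex.norm_real, Real.norm_of_nonneg (Real.sqrt_nonneg _)]
  have h1 : ‖nrt 3 ((Real.sqrt A : ℝ) : ℂ)‖ ^ 3 = Real.sqrt A := by rw [norm_nrt3, hw]
  have h2 : ‖nrt 3 ((Real.sqrt A : ℝ) : ℂ)‖ = A ^ (1 / 6 : ℝ) := by
    have h3 : ‖nrt 3 ((Real.sqrt A : ℝ) : ℂ)‖ ^ 3 = (A ^ (1 / 6 : ℝ)) ^ 3 := by
      rw [h1, Real.sqrt_eq_rpow, ← Real.rpow_natCast, ← Real.rpow_mul hA.le]
      norm_num
    exact (pow_left_inj₀ (norm_nonneg _) (by positivity) (by norm_num)).mp h3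
  rw [h2, ← Real.rpow_natCast, ← Real.rpow_mul hA.le, ← Real.rpow_add hA]
  norm_num

lemma Wf_fA {F : ℝ → ℂ} {A : ℝ} (hA : 0 < A) (y : ℂ) :
    Wf (fA F A) y = ((A ^ (1 / 3 : ℝ) : ℝ) : ℂ) * WF F (y / ((Real.sqrt A : ℝ) : ℂ)) := by
  unfold fA
  rw [Wf_const_mul, Wf_dl _ (sqrtA_ne hA), ← mul_assoc, ← Complex.ofReal_mul]
  have hw : ‖((Real.sqrt A : ℝ) : ℂ)‖ ^ 2 = A := by
    rw [Complex.norm_real, Real.norm_of_nonneg (Real.sqrt_nonneg _), Real.sq_sqrt hA.le]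
  rw [hw]
  have : A ^ (-(2 / 3) : ℝ) * A = A ^ (1 / 3 : ℝ) := by
    nth_rewrite 2 [← Real.rpow_one A]
    rw [← Real.rpow_add hA]
    norm_num
  rw [this]
  rfl

lemma Dl_mul {σ u : Eis} (hσ : Sg σ) (hu : IsPrim u) : Dl (σ * u) = Dl σ := by
  ext δ
  rw [mem_Dl (mul_ne_zero hσ.ne_zero hu.ne_zero), mem_Dl hσ.ne_zero]
  constructor
  · rintro ⟨h1, h2, h3⟩
    refine ⟨h1, h2, ?_⟩
    have hcop : IsCoprime δ u := SM3_coprime h1 hu
    rw [← mul_assoc] at h3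
    exact hcop.dvd_of_dvd_mul_right h3
  · rintro ⟨h1, h2, h3⟩
    exact ⟨h1, h2, by rw [← mul_assoc]; exact h3.mul_right u⟩

lemma eC_frq_mul {u : Eis} (hu : IsPrim u) (σ : Eis) :
    eC (frq 3 (σ * u)) = eC (frq 3 σ) ∧ eC (-frq 3 (σ * u)) = eC (-frq 3 σ) := by
  obtain ⟨y, hy⟩ := hu
  have hu' : u = 1 + 3 * y := by linear_combination hy
  have hs := toC_s3_ne
  have e1 : frq 3 (σ * u) = frq 3 σ + toC (σ * y) / toC s3 := by
    rw [frq_eq, frq_eq, hu']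
    simp only [map_mul, map_add, map_one, toC_three']
    field_simp
  have e2 : -frq 3 (σ * u) = -frq 3 σ + toC (-(σ * y)) / toC s3 := by
    rw [e1, map_neg]; ring
  constructor
  · rw [e1, R012.eC_add, Parseval499.eC_toC_div_s3, mul_one]
  · rw [e2, R012.eC_add, Parseval499.eC_toC_div_s3, mul_one]

lemma th_su {s u : Eis} (hs : s ∈ SM 3) (hu : IsPrim u) (hsq : Squarefree u) :
    th (s * u) = conj (Gh s u) * (n6 u : ℂ) * th s :=
  th_mul hu hsq (SM3_coprime hs hu)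

lemma norm_th_su {s u : Eis} (hs : s ∈ SM 3) (hu : IsPrim u) (hsq : Squarefree u) :
    th (s * u) * conj (th (s * u)) = ((‖th s‖ ^ 2 * n13 u : ℝ) : ℂ) := by
  rw [th_su hs hu hsq, Complex.mul_conj, Complex.normSq_eq_norm_sq, norm_mul, norm_mul,
    RCLike.norm_conj, norm_Gh_one hu hsq (SM3_coprime hs hu), Complex.norm_real,
    Real.norm_of_nonneg (n6_pos hu.ne_zero).le, one_mul, mul_pow]
  congr 1
  have hN : (0 : ℝ) < nm u := by exact_mod_cast nm_pos.2 hu.ne_zero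
  have : n6 u ^ 2 = n13 u := by
    unfold n6 n13
    rw [← Real.rpow_natCast, ← Real.rpow_mul hN.le]
    norm_num
  rw [this]; ring

/-- the coefficients -/
def cc (σ δ : Eis) : ℂ := Lam δ σ * (th σ / th (δ * σ)) * (((nm δ : ℝ)⁻¹ : ℝ) : ℂ)

lemma cc_mul {σ δ u : Eis} (hσ : Sg σ) (hδ : δ ∈ Dl σ) (hu : IsPrim u) (hsq : Squarefree u) :
    th (σ * u) * (Lam δ (σ * u) * (((nm δ : ℝ)⁻¹ : ℝ) : ℂ)) = cc σ δ * th (δ * σ * u) := by
  have hd := (mem_Dl hσ.ne_zero).mp hδ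
  have hδσ : δ * σ ∈ SM 3 := by
    refine ⟨mul_ne_zero hd.1.1 hσ.ne_zero, fun p hp h => ?_⟩
    rcases hp.dvd_or_dvd h with h | h
    · exact hd.1.2 p hp h
    · exact hσ.SM.2 p hp h
  unfold cc
  rw [Lam_mul_prim hd.2.1 hd.1 hu, th_su hσ.SM hu hsq, th_su hδσ hu hsq]
  by_cases hL : Lam δ σ = 0
  · rw [hL]; ring
  · have hth := Dl_cases hσ hδ hL
    have hG : conj (Gh (δ * σ) u) = conj (Gh σ u) * sy δ u := by
      unfold Gh
      rw [sy_mul_left (prim_nm_mod hu)]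
      simp only [map_mul, Complex.conj_conj]
      ring
    rw [hG]
    field_simp

/-- the dual side. -/
def DualS (σ u : Eis) (F : ℝ → ℂ) (A : ℝ) : ℂ :=
  (2 / 3 : ℂ) * DD (σ * u) (fun x => WF F (toC (σ * u) / x / ((Real.sqrt A : ℝ) : ℂ))) +
    (eC (frq 3 σ) + eC (-frq 3 σ)) *
      DD (σ * u) (fun x => gg (WF F) (toC (σ * u) / x / ((Real.sqrt A : ℝ) : ℂ))) +
    ∑ δ ∈ Dl σ, cc σ δ *
      DD (δ * σ * u) (fun x => gg (WF F) (toC (σ * u) / toC δ / x / ((Real.sqrt A : ℝ) : ℂ)))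

lemma gg_dil' (φ : ℂ → ℂ) (a b : ℂ) : gg (fun y => a * φ (y / b)) = fun y => a * gg φ (y / b) := by
  funext y
  unfold gg
  simp only
  rw [show y / (3 * toC s3) / b = y / b / (3 * toC s3) by ring]
  ring

lemma th_Du {F : ℝ → ℂ} {σ u : Eis} (hσ : Sg σ) (hu : IsPrim u) (hsq : Squarefree u)
    {A : ℝ} (hA : 0 < A) :
    th (σ * u) * Du (σ * u) (Wf (fA F A)) = ((A ^ (1 / 3 : ℝ) : ℝ) : ℂ) * DualS σ u F A := by
  have hw : NSq (σ * u) := NSq_of hσ.SM hsq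
  set a : ℂ := ((A ^ (1 / 3 : ℝ) : ℝ) : ℂ) with ha
  set q : ℂ := ((Real.sqrt A : ℝ) : ℂ) with hq
  have e0 : Wf (fA F A) = fun y => a * WF F (y / q) := funext fun y => Wf_fA hA y
  rw [e0, Du_const_mul]
  have e1 : th (σ * u) * (a * Du (σ * u) (fun y => WF F (y / q))) =
      a * (th (σ * u) * Du (σ * u) (fun y => WF F (y / q))) := by ring
  rw [e1]
  congr 1
  unfold Du DualS
  have hgg : gg (fun y => WF F (y / q)) = fun y => gg (WF F) (y / q) := by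
    have := gg_dil' (WF F) 1 q
    simpa using this
  rw [hgg, (eC_frq_mul hu σ).1, (eC_frq_mul hu σ).2, Dl_mul hσ hu, mul_add, mul_add,
    Finset.mul_sum]
  congr 1
  · congr 1
    · rw [mul_left_comm, th_Cg_rc hw]
    · rw [mul_left_comm, th_Cg_rc hw]
  · refine Finset.sum_congr rfl fun δ hδ => ?_
    have hd := (mem_Dl hσ.ne_zero).mp hδ
    have hδσ : δ * σ ∈ SM 3 := by
      refine ⟨mul_ne_zero hd.1.1 hσ.ne_zero, fun p hp h => ?_⟩
      rcases hp.dvd_or_dvd h with h | h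
      · exact hd.1.2 p hp h
      · exact hσ.SM.2 p hp h
    have hw' : NSq (δ * σ * u) := NSq_of hδσ hsq
    rw [← mul_assoc, cc_mul hσ hδ hu hsq, mul_assoc, ← mul_assoc δ σ u, th_Cg_rc hw']

/-- **(C2) the functional equation of the theta sums.** -/
theorem PP_eq {F : ℝ → ℂ} (hF : M49.Wt F) {σ u : Eis} (hσ : Sg σ) (hu : IsPrim u)
    (hsq : Squarefree u) {A : ℝ} (hA : 0 < A) :
    PP σ u F A = ((cM * ‖th σ‖ ^ 2 * n13 u * A ^ (2 / 3 : ℝ) : ℝ) : ℂ) *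
      mellin F ((2 / 3 : ℝ) : ℂ) + ((A ^ (1 / 3 : ℝ) : ℝ) : ℂ) * DualS σ u F A := by
  have hw : NSq (σ * u) := NSq_of hσ.SM hsq
  have hne : σ * u ≠ 0 := mul_ne_zero hσ.ne_zero hu.ne_zero
  rw [PP_eq_Cg hF hw hA, starR rho_MS (ev_fA hF hA) hne, mul_add, th_Du hσ hu hsq hA, mB_fA hF hA,
    mB_rV1 hF]
  congr 1
  have h1 : rho (σ * u) = (cD : ℂ) * th (σ * u) := by
    unfold th
    have := cD_ne
    field_simp
  have h2 := norm_th_su hσ.SM hu hsq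
  rw [h1, map_mul, Complex.conj_ofReal]
  have h3 : (kP * cD * (Xn960.gamN 3 * (Real.pi / 3)) : ℝ) = cM := kP_cD
  have h3' : (kP : ℂ) * (cD : ℂ) * ((Xn960.gamN 3 * (Real.pi / 3) : ℝ) : ℂ) = (cM : ℂ) := by
    rw [← h3]; push_cast; ring
  have e : ((cM * ‖th σ‖ ^ 2 * n13 u * A ^ (2 / 3 : ℝ) : ℝ) : ℂ) =
      (cM : ℂ) * ((‖th σ‖ ^ 2 * n13 u : ℝ) : ℂ) * ((A ^ (2 / 3 : ℝ) : ℝ) : ℂ) := by
    push_cast; ring
  rw [e, ← h2, ← h3']
  ring

end Crest.Agent.R017.X6C180
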