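import Crest.Agent.R017.E1f_551
import Crest.Agent.R017.X6C6_180
import Crest.Agent.R017.GrC_829
import Crest.Agent.R012.TateS_413
import Crest.Agent.R012.Gam_413

/-!
# Row 17, C70: the constants of the exact square, `c₁ c₃ = |c₂|²` (helper579)

* `c₁ = 2 cP w` (E1, helper551 / helper829), `c₂ = cM · mellin w (2/3)` (E2, helper440),
  `c₃ = κ₀ ∫ t^(-1/3) w` (E3, helper829).
* `two_cP` : `2 cP w = pC² κ₀ mel w (2/3)`
-/

set_option autoImplicit false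

noncomputable section

open MeasureTheory Set Complex
open scoped ComplexConjugate

namespace Crest.Agent.R017.Cst579

open Crest.Agent.R012 Crest.Agent.R012.Eis Crest.Agent.R012.MC

/-- **the constant of E1** -/
theorem two_cP {w : ℝ → ℝ} (hw : Wgt w) :
    2 * E1551.cP w = pC ^ 2 * Mob705.kap0 * mel w (2 / 3) := by
  have hI := TateC413.Iw_eq hw
  have hG := Gam413.gamma_third
  have hG2 : 0 < Real.Gamma (2 / 3) := Real.Gamma_pos_of_pos (by norm_num)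
  have hpi := Real.pi_pos
  have hG1 : Real.Gamma (1 / 3) = 2 * Real.pi / Real.sqrt 3 / Real.Gamma (2 / 3) := by
    rw [eq_div_iff hG2.ne', hG]
  have e1 : ((2 * Real.pi) ^ ((2 : ℝ) / 3)) ^ 2 =
      2 ^ ((4 : ℝ) / 3) * (Real.pi ^ ((1 : ℝ) / 3) * Real.pi) := by
    rw [← Real.rpow_natCast, ← Real.rpow_mul (by positivity), Real.mul_rpow (by norm_num) hpi.le]
    have a1 : (2 : ℝ) / 3 * ((2 : ℕ) : ℝ) = 4 / 3 := by norm_num
    rw [a1]
    congr 1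
    rw [← Real.rpow_add_one hpi.ne']
    norm_num
  have e2 : (2 : ℝ) ^ (-((5 : ℝ) / 3)) = 2 ^ ((4 : ℝ) / 3) / 8 := by
    have : (-((5 : ℝ) / 3)) = 4 / 3 - (3 : ℕ) := by norm_num
    rw [this, Real.rpow_sub_natCast (by norm_num)]
    norm_num
  have hs : Real.sqrt 3 ^ 2 = 3 := Real.sq_sqrt (by norm_num)
  have hs0 : 0 < Real.sqrt 3 := by positivity
  unfold E1551.cP E1551.mc pC Mob705.kap0
  rw [hI, hG1, e2, div_pow, e1]
  field_simp
  ring_nf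
  try rw [hs]
  try ring

/-- **`c₁ c₃ = c₂²`** -/
theorem cst_real {w : ℝ → ℝ} (hw : Wgt w) :
    2 * E1551.cP w * (Mob705.kap0 * mel w (2 / 3)) = (X6C180.cM * mel w (2 / 3)) ^ 2 := by
  rw [two_cP hw]
  have : X6C180.cM = pC * Mob705.kap0 := rfl
  rw [this]
  ring

/-! ### the literal forms of E2 and E3 -/

lemma mellin_cast (w : ℝ → ℝ) (s : ℝ) :
    mellin (fun x => ((w x : ℝ) : ℂ)) ((s : ℝ) : ℂ) = ((mel w s : ℝ) : ℂ) := by
  unfold mellin mel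
  rw [← integral_complex_ofReal]
  refine setIntegral_congr_fun measurableSet_Ioi fun t ht => ?_
  have ht0 : (0 : ℝ) < t := ht
  simp only [smul_eq_mul]
  rw [show ((s : ℂ) - 1) = ((s - 1 : ℝ) : ℂ) by push_cast; ring, ← Complex.ofReal_cpow ht0.le]
  push_cast
  ring

lemma int_cast (w : ℝ → ℝ) :
    ∫ t in Set.Ioi (0 : ℝ), ((t ^ (-(1 : ℝ) / 3) : ℝ) : ℂ) * ((w t : ℝ) : ℂ) =
      ((mel w (2 / 3) : ℝ) : ℂ) := by
  unfold mel
  rw [← integral_complex_ofReal]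
  refine setIntegral_congr_fun measurableSet_Ioi fun t _ => ?_
  rw [show ((2 : ℝ) / 3 - 1) = -(1 : ℝ) / 3 by norm_num]
  push_cast
  ring

/-- **`c₁ c₃ = |c₂|²`, literally** : `c₁ = 2 cP w` (E1, `main_E1`), `c₃ = κ₀ ∫ t^(-1/3) w` (E3,
`GD_bound`), `c₂ = cM · mellin w (2/3)` (E2, `PF_main`). -/
theorem cst {w : ℝ → ℝ} (hw : Wgt w) :
    ((2 * E1551.cP w : ℝ) : ℂ) * (((Mob705.kap0 : ℝ) : ℂ) *
        ∫ t in Set.Ioi (0 : ℝ), ((t ^ (-(1 : ℝ) / 3) : ℝ) : ℂ) * ((w t : ℝ) : ℂ)) =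
      (((X6C180.cM : ℝ) : ℂ) * mellin (fun x => ((w x : ℝ) : ℂ)) ((2 / 3 : ℝ) : ℂ)) *
        conj (((X6C180.cM : ℝ) : ℂ) * mellin (fun x => ((w x : ℝ) : ℂ)) ((2 / 3 : ℝ) : ℂ)) := by
  rw [int_cast, mellin_cast, map_mul, Complex.conj_ofReal, Complex.conj_ofReal]
  have h := cst_real hw
  have h' : ((2 * E1551.cP w * (Mob705.kap0 * mel w (2 / 3)) : ℝ) : ℂ) =
      (((X6C180.cM * mel w (2 / 3)) ^ 2 : ℝ) : ℂ) := by rw [h]
  push_cast at h' ⊢
  rw [h']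
  ring

/-- the optimal multiple of the structured function : `c₂ / c₃ = pC` -/
theorem ratio : X6C180.cM = pC * Mob705.kap0 := rfl

end Crest.Agent.R017.Cst579
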