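import Crest.Agent.R017.E1f_551
import Crest.Agent.R017.X6C6_180
import Crest.Agent.R012.TateS_413
import Crest.Agent.R012.Rho_777
import Crest.Agent.R012.Dens_705

/-!
# Row 17, block C70 (R8): the constants of the three main terms (helper401)

For `w` in `MC.Wgt`, `m = mel w (2/3) = ∫ w(x) x^(-1/3) dx`, `κ₀ = 2π/(9√3)`:
* E1: `2 cP w = pC² κ₀ m`
* E2: `cM * mellin w (2/3) = pC κ₀ m`
* E3: `κ₀ ∫ t^(-1/3) w = κ₀ m`

so `c₁ c₃ = c₂²` and the structured function carries the factor `c₂ / c₃ = pC`.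
-/

set_option autoImplicit false

noncomputable section

open MeasureTheory Complex Set

namespace Crest.Agent.R017.Cst401

open Crest.Agent.R012 Crest.Agent.R012.Eis Crest.Agent.R012.MC
open Crest.Agent.R012.Mob705 (kap0)

/-- the density constant -/
lemma kap0_eq : kap0 = Dc * Rho777.Zk := by
  have h := Rho777.Zk_pos
  rw [Rho777.Dc_eq]
  unfold kap0
  field_simp

lemma kap0_pos : 0 < kap0 := by
  unfold kap0
  have := Real.pi_pos
  positivity

lemma pC_pos : 0 < pC := by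
  unfold pC
  have := Real.pi_pos
  have h2 : 0 < Real.Gamma (2 / 3) := Real.Gamma_pos_of_pos (by norm_num)
  positivity

/-- `cM = pC κ₀` -/
lemma cM_eq : X6C180.cM = pC * kap0 := rfl

/-- **E1 constant** -/
theorem two_cP {w : ℝ → ℝ} (hw : Wgt w) :
    2 * E1551.cP w = pC ^ 2 * kap0 * mel w (2 / 3) := by
  have h1 := TateC413.Iw_eq hw
  have h2 := Rho777.gamma_comp
  have hZ := Rho777.Zk_pos
  have hD : Dc ≠ 0 := by
    rw [Rho777.Dc_eq]
    have := Real.pi_pos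
    positivity
  have h3 : Real.sqrt 3 * Real.sqrt 3 = 3 := Real.mul_self_sqrt (by norm_num)
  have h30 : 0 < Real.sqrt 3 := by positivity
  have h4 : 2 * E1551.cP w = 8 * Real.pi / 81 * Iw w := by
    unfold E1551.cP E1551.mc
    have h5 : 3 * Real.sqrt 3 * (9 * Real.sqrt 3) = 81 := by nlinarith
    have h6 : 4 * Real.pi / (3 * Real.sqrt 3) * Iw w / (9 * Real.sqrt 3) =
        4 * Real.pi * Iw w / (3 * Real.sqrt 3 * (9 * Real.sqrt 3)) := by
      field_simp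
    rw [h6, h5]
    ring
  rw [h4, kap0_eq]
  apply mul_left_cancel₀ hD
  have e1 : (-(5 : ℝ) / 3) = -((5 : ℝ) / 3) := by ring
  rw [e1] at h2
  calc Dc * (8 * Real.pi / 81 * Iw w)
      = (8 * Real.pi / 81 * Dc * (Real.pi ^ (1 / 3 : ℝ) * 2 ^ (-((5 : ℝ) / 3)) *
          Real.Gamma (1 / 3) / Real.Gamma (2 / 3))) * mel w (2 / 3) := by
        rw [h1]; ring
    _ = (pC * Dc) ^ 2 * Rho777.Zk * mel w (2 / 3) := by rw [h2]
    _ = _ := by ring

/-- **E2 constant**: the Mellin transform of the complexified weight -/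
theorem mellin_eq (w : ℝ → ℝ) :
    mellin (fun x => (w x : ℂ)) ((2 / 3 : ℝ) : ℂ) = ((mel w (2 / 3) : ℝ) : ℂ) := by
  unfold mellin mel
  rw [← integral_complex_ofReal]
  refine setIntegral_congr_fun measurableSet_Ioi fun t ht => ?_
  have ht' : (0 : ℝ) < t := ht
  simp only [smul_eq_mul]
  push_cast
  rw [mul_comm]
  congr 1
  rw [Complex.ofReal_cpow ht'.le]
  push_cast
  rfl

/-- **E3 constant** -/
theorem int_eq (w : ℝ → ℝ) :
    ∫ t in Set.Ioi (0 : ℝ), ((t ^ (-(1 : ℝ) / 3) : ℝ) : ℂ) * (w t : ℂ) =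
      ((mel w (2 / 3) : ℝ) : ℂ) := by
  unfold mel
  rw [← integral_complex_ofReal]
  refine setIntegral_congr_fun measurableSet_Ioi fun t ht => ?_
  rw [← Complex.ofReal_mul]
  congr 1
  rw [mul_comm]
  norm_num

/-- **the three constants fit**: `c₁ c₃ = c₂²` (real form) -/
theorem cst_sq {w : ℝ → ℝ} (hw : Wgt w) :
    (2 * E1551.cP w) * (kap0 * mel w (2 / 3)) = (X6C180.cM * mel w (2 / 3)) ^ 2 := by
  rw [two_cP hw, cM_eq]; ring

/-- with `m = mel w (2/3)`, `c₁ = 2 cP w`, `c₂ = cM m`, `c₃ = κ₀ m`, `c = pC`: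
`c₁ - 2 c c₂ + c² c₃ = 0` -/
theorem cst_cancel {w : ℝ → ℝ} (hw : Wgt w) :
    2 * E1551.cP w - 2 * pC * (X6C180.cM * mel w (2 / 3)) + pC ^ 2 * (kap0 * mel w (2 / 3)) = 0 := by
  rw [two_cP hw, cM_eq]; ring

/-- `c₁ = c c₂ = c² c₃` -/
theorem cst_eq₂ {w : ℝ → ℝ} (hw : Wgt w) :
    2 * E1551.cP w = pC * (X6C180.cM * mel w (2 / 3)) := by
  rw [two_cP hw, cM_eq]; ring

theorem cst_eq₃ {w : ℝ → ℝ} (hw : Wgt w) :
    2 * E1551.cP w = pC ^ 2 * (kap0 * mel w (2 / 3)) := by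
  rw [two_cP hw]; ring

lemma mel_nonneg {w : ℝ → ℝ} (h : ∀ x, 0 ≤ w x) : 0 ≤ mel w (2 / 3) := by
  unfold mel
  refine setIntegral_nonneg measurableSet_Ioi fun t ht => ?_
  exact mul_nonneg (h t) (Real.rpow_nonneg (le_of_lt ht) _)

end Crest.Agent.R017.Cst401
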