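import Crest.Agent.R017.LBE_180

/-!
# Row 17, C.REMg, the tail of (LB): the near-top sum (helper994), 404 #25307, 813 #25325 (3)

* `CrQ_le_sqrt` : Cauchy for the cross sum over a set of `k`
* `XT_le` : the truncated main form as a `T`-moment
* `gr_near` : the Gram form at the families `K / L`, upper bound, arbitrary `om`
* `nt_sum` : the sum over `l` and over the splittings of `rad l`
-/

set_option autoImplicit false

noncomputable section

open Complex MeasureTheory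
open scoped ComplexConjugate Classical

namespace Crest.Agent.R017.CubN994

open Crest.Agent.R012 Crest.Agent.R012.Eis Crest.Agent.R012.MC
open Crest.Agent.R012.LS2 (S mem_S)
open Crest.Agent.R012.Mob705 (pdiv kap0)
open Crest.Agent.R012.Div277 (tau)
open Crest.Agent.R017.PX764 (Gh n6)
open Crest.Agent.R017.X6C180 (n13)
open Crest.Agent.R017.CM106 (CS TG FS)
open Crest.Agent.R017.E1551 hiding tau Dg
open Crest.Agent.R017.C70 (JW JC OKJ okJ_JW)
open Crest.Agent.R017.E2440 (TE Jb Qs prs C4 StE)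
open Crest.Agent.R017.EHu320 (EHc)
open Crest.Agent.R017.LB48 (CrP GrP)
open Crest.Agent.R017.I1146 (c3 c3_nonneg)
open Crest.Agent.R017.E3M829 (Cut Tal TC_Tal Sg gram_fin TF XT)
open Crest.Agent.R017.E3A164 (SteT Ys Fy)
open Crest.Agent.R017.DgB829 (HS HS_nonneg HS_le)
open Crest.Agent.R017.Ex385 (CrQ)
open Crest.Agent.R017.LBx48 (EHs TF_le EHc_le_s)
open Crest.Agent.R017.LBu180 (SqQ SqQ_le GrP_le gram_num)

/-! ### Cauchy -/

/-- the three sums over a finite set -/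
lemma tsum_fin {W : ℝ → ℝ} {B : ℝ} (hWb : ∀ x, W x ≠ 0 → x ≤ B) {K : ℝ} (hK : 0 < K)
    {k : Eis} (hk : IsPrim k) (hn : k ∉ primBall ⌊B * K⌋₊) : W ((nm k : ℝ) / K) = 0 := by
  by_contra h
  apply hn
  rw [mem_primBall]
  refine ⟨?_, hk⟩
  have h1 := hWb _ h
  rw [div_le_iff₀ hK] at h1
  exact Nat.le_floor h1

/-- **Cauchy for the cross sum** -/
theorem CrQ_le_sqrt {F : ℝ → ℂ} {W : ℝ → ℝ} (hW0 : ∀ x, 0 ≤ W x) (hFW : ∀ x, ‖F x‖ ≤ W x)
    {B : ℝ} (hWb : ∀ x, W x ≠ 0 → x ≤ B) {K : ℝ} (hK : 0 < K) (Q : Eis → Prop)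
    (α u : Eis → ℂ) :
    ‖CrQ F Q K α u‖ ≤ √(SqQ W K Q α) * √(GrP W K (fun k => if Q k then u k else 0)) := by
  set T := primBall ⌊B * K⌋₊ with hT
  have hz : ∀ k : Eis, IsPrim k → k ∉ T → W ((nm k : ℝ) / K) = 0 :=
    fun k hk hn => tsum_fin hWb hK hk hn
  have e1 : CrQ F Q K α u = ∑ k ∈ T, if Q k then F ((nm k : ℝ) / K) * (CS α k * conj (u k))
      else 0 := by
    unfold Ex385.CrQ
    rw [tsum_eq_sum (s := T)]
    · refine Finset.sum_congr rfl fun k hk => ?_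
      have hp := (mem_primBall.1 hk).2
      by_cases hQ : Q k
      · rw [if_pos ⟨hp, hQ⟩, if_pos hQ]
      · rw [if_neg (fun h => hQ h.2), if_neg hQ]
    · intro k hk
      by_cases h : IsPrim k ∧ Q k
      · rw [if_pos h]
        have h1 := hFW ((nm k : ℝ) / K)
        rw [hz k h.1 hk] at h1
        rw [norm_le_zero_iff.1 h1, zero_mul]
      · rw [if_neg h]
  have e2 : SqQ W K Q α = ∑ k ∈ T, W ((nm k : ℝ) / K) * (if Q k then ‖CS α k‖ else 0) ^ 2 := by
    unfold LBu180.SqQ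
    rw [tsum_eq_sum (s := T)]
    · refine Finset.sum_congr rfl fun k hk => ?_
      by_cases hQ : Q k
      · rw [if_pos ⟨(mem_primBall.1 hk).2, hQ⟩, if_pos hQ]
      · rw [if_neg (fun h => hQ h.2), if_neg hQ]
        ring
    · intro k hk
      split_ifs with h
      · rw [hz k h.1 hk, zero_mul]
      · rfl
  have e3 : GrP W K (fun k => if Q k then u k else 0) =
      ∑ k ∈ T, W ((nm k : ℝ) / K) * ‖(if Q k then u k else 0 : ℂ)‖ ^ 2 := by
    unfold LB48.GrP
    rw [tsum_eq_sum (s := T)]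
    · exact Finset.sum_congr rfl fun k hk => if_pos (mem_primBall.1 hk).2
    · intro k hk
      by_cases h : IsPrim k
      · rw [if_pos h, hz k h hk, zero_mul]
      · rw [if_neg h]
  rw [e1, e2, e3]
  have h2 := Real.sum_mul_le_sqrt_mul_sqrt T
    (fun k => √(W ((nm k : ℝ) / K)) * (if Q k then ‖CS α k‖ else 0))
    (fun k => √(W ((nm k : ℝ) / K)) * ‖(if Q k then u k else 0 : ℂ)‖)
  have e4 : ∀ (g : Eis → ℝ), ∑ k ∈ T, (√(W ((nm k : ℝ) / K)) * g k) ^ 2 =
      ∑ k ∈ T, W ((nm k : ℝ) / K) * g k ^ 2 := by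
    intro g
    refine Finset.sum_congr rfl fun k _ => ?_
    rw [mul_pow, Real.sq_sqrt (hW0 _)]
  rw [e4, e4] at h2
  refine le_trans ?_ h2
  refine (norm_sum_le _ _).trans (Finset.sum_le_sum fun k _ => ?_)
  have e5 : √(W ((nm k : ℝ) / K)) * (if Q k then ‖CS α k‖ else 0) * (√(W ((nm k : ℝ) / K)) *
      ‖(if Q k then u k else 0 : ℂ)‖) = W ((nm k : ℝ) / K) * ((if Q k then ‖CS α k‖ else 0) *
      ‖(if Q k then u k else 0 : ℂ)‖) := by
    have := Real.mul_self_sqrt (hW0 ((nm k : ℝ) / K))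
    calc _ = (√(W ((nm k : ℝ) / K)) * √(W ((nm k : ℝ) / K))) * ((if Q k then ‖CS α k‖ else 0) *
      ‖(if Q k then u k else 0 : ℂ)‖) := by ring
      _ = _ := by rw [this]
  rw [e5]
  by_cases hQ : Q k
  · rw [if_pos hQ, if_pos hQ, if_pos hQ, norm_mul, norm_mul, Complex.norm_conj]
    exact mul_le_mul_of_nonneg_right (hFW _) (by positivity)
  · rw [if_neg hQ, if_neg hQ, if_neg hQ]
    simp

/-- monotonicity of the Gram sum in the cut -/
lemma GrP_mono {W : ℝ → ℝ} (hW0 : ∀ x, 0 ≤ W x) {B : ℝ} (hWb : ∀ x, W x ≠ 0 → x ≤ B)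
    {K : ℝ} (hK : 0 < K) {Q Q' : Eis → Prop}
    (h : ∀ k, IsPrim k → W ((nm k : ℝ) / K) ≠ 0 → Q k → Q' k) (u : Eis → ℂ) :
    GrP W K (fun k => if Q k then u k else 0) ≤ GrP W K (fun k => if Q' k then u k else 0) := by
  set T := primBall ⌊B * K⌋₊ with hT
  have hz : ∀ k : Eis, IsPrim k → k ∉ T → W ((nm k : ℝ) / K) = 0 :=
    fun k hk hn => tsum_fin hWb hK hk hn
  have e3 : ∀ Q : Eis → Prop, GrP W K (fun k => if Q k then u k else 0) =
      ∑ k ∈ T, W ((nm k : ℝ) / K) * ‖(if Q k then u k else 0 : ℂ)‖ ^ 2 := by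
    intro Q
    unfold LB48.GrP
    rw [tsum_eq_sum (s := T)]
    · exact Finset.sum_congr rfl fun k hk => if_pos (mem_primBall.1 hk).2
    · intro k hk
      by_cases h : IsPrim k
      · rw [if_pos h, hz k h hk, zero_mul]
      · rw [if_neg h]
  rw [e3, e3]
  refine Finset.sum_le_sum fun k hk => ?_
  by_cases h0 : W ((nm k : ℝ) / K) = 0
  · rw [h0, zero_mul, zero_mul]
  · refine mul_le_mul_of_nonneg_left ?_ (hW0 _)
    by_cases h1 : Q k
    · rw [if_pos h1, if_pos (h k (mem_primBall.1 hk).2 h0 h1)]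
    · rw [if_neg h1]
      rw [norm_zero, zero_pow two_ne_zero]
      positivity

end Crest.Agent.R017.CubN994
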