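import Crest.Agent.R017.CubN_994
import Crest.Agent.R017.CubP_813

/-!
# Row 17, the near-top part of the tail of (LB), part a (helper994)

* `nt_count` : the count of `(g, a, e₀, m)`
* `nt_abs` : the near-top sum `∑ mu g NTs g` from `SqP` and `GrP` at the families `K / nm (g e₀ m)^3`
-/

set_option autoImplicit false

noncomputable section

open Complex MeasureTheory
open scoped ComplexConjugate Classical

namespace Crest.Agent.R017.CubN994

open Crest.Agent.R012 Crest.Agent.R012.Eis Crest.Agent.R012.MC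
open Crest.Agent.R012.LS2 (S mem_S)
open Crest.Agent.R012.Mob705 (pdiv kap0 mu abs_muE sum_dvs_muE_one)
open Crest.Agent.R012.Div277 (tau dvs mem_dvs)
open Crest.Agent.R017.PX764 (Gh n6)
open Crest.Agent.R017.CM106 (CS TG FS)
open Crest.Agent.R017.E1551 hiding tau Dg
open Crest.Agent.R017.C70 (JW JC OKJ okJ_JW CbF)
open Crest.Agent.R017.E2440 (TE StE StT)
open Crest.Agent.R017.LB48 (CrP GrP)
open Crest.Agent.R017.Ex385 (CrQ)
open Crest.Agent.R017.LBu180 (SqQ SqQ_le GrP_le gram_num)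
open Crest.Agent.R017.CubP813 (alr omb Te NTs)

lemma sum_pb {ε : ℝ} (hε : 0 < ε) : ∃ C : ℝ, 1 ≤ C ∧ ∀ P : ℝ, 1 ≤ P → ∀ s : Finset Eis,
    (∀ x ∈ s, IsPrim x ∧ (nm x : ℝ) ≤ P) → ∑ x ∈ s, (1 : ℝ) / nm x ≤ C * P ^ ε := by
  refine ⟨100 * (1 + 1 / ε), ?_, fun P hP s hs => ?_⟩
  · have : 0 < 1 / ε := by positivity
    linarith
  have h0 : s ⊆ primBall ⌊P⌋₊ := by
    intro x hx
    rw [mem_primBall]
    exact ⟨Nat.le_floor (hs x hx).2, (hs x hx).1⟩
  refine (Finset.sum_le_sum_of_subset_of_nonneg h0 fun _ _ _ => by positivity).trans ?_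
  have h1 := Div277.sum_inv_primBall_le ⌊P⌋₊
  have hf : (1 : ℝ) ≤ ⌊P⌋₊ := by
    have := Nat.le_floor (n := 1) (by simpa using hP)
    exact_mod_cast this
  have h2 : Real.log ⌊P⌋₊ ≤ Real.log P :=
    Real.log_le_log (by linarith) (Nat.floor_le (by linarith))
  have h3 := E3M829.log_Z hε hP
  nlinarith

lemma nm_one_le {x : Eis} (h : IsPrim x) : (1 : ℝ) ≤ nm x := by
  exact_mod_cast nm_pos.mpr h.ne_zero

/-- **the count** -/
theorem nt_count {ε : ℝ} (hε : 0 < ε) {σ : ℝ} (hσ : 0 ≤ σ) : ∃ C : ℝ, 0 ≤ C ∧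
    ∀ P L2 : ℝ, 1 ≤ P → 1 ≤ L2 → ∀ G E M : Finset Eis,
    (∀ g ∈ G, IsPrim g ∧ (nm g : ℝ) ≤ P ∧ L2 < nm g) → (∀ e ∈ E, IsPrim e ∧ (nm e : ℝ) ≤ P) →
    (∀ m ∈ M, IsPrim m ∧ (nm m : ℝ) ≤ P) →
    ∑ g ∈ G, ∑ _a ∈ dvs g, ∑ e ∈ E, ∑ m ∈ M, (nm (g * e * m) : ℝ) ^ (-(1 + σ)) ≤
      C * P ^ ε * L2 ^ (-σ) := by
  obtain ⟨C₁, hC₁, H₁⟩ := sum_pb (by positivity : 0 < ε / 4)
  obtain ⟨C₂, hC₂, H₂⟩ := E3M829.tau_Z (by positivity : 0 < ε / 4)
  refine ⟨C₂ * C₁ ^ 3, by positivity, ?_⟩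
  intro P L2 hP hL2 G E M hG hE hM
  have hp : P ^ ε = P ^ (ε / 4) * P ^ (ε / 4) * P ^ (ε / 4) * P ^ (ε / 4) := by
    rw [← Real.rpow_add (by linarith), ← Real.rpow_add (by linarith),
      ← Real.rpow_add (by linarith)]
    congr 1; ring
  set z := P ^ (ε / 4) with hz
  have hz0 : 0 ≤ z := by positivity
  have hterm : ∀ g ∈ G, ∀ e ∈ E, ∀ m ∈ M, (nm (g * e * m) : ℝ) ^ (-(1 + σ)) ≤
      L2 ^ (-σ) * (1 / nm g * (1 / nm e * (1 / nm m))) := by
    intro g hg e he m hm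
    have n1 := nm_one_le (hG g hg).1
    have n2 := nm_one_le (hE e he).1
    have n3 := nm_one_le (hM m hm).1
    have e1 : (nm (g * e * m) : ℝ) = nm g * nm e * nm m := by
      rw [nm_mul, nm_mul]; push_cast; ring
    have n4 : L2 ≤ (nm (g * e * m) : ℝ) := by
      rw [e1]
      have h1 : (nm g : ℝ) ≤ nm g * nm e := le_mul_of_one_le_right (by linarith) n2
      have h2 : (nm g : ℝ) * nm e ≤ nm g * nm e * nm m :=
        le_mul_of_one_le_right (by positivity) n3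
      have := (hG g hg).2.2
      linarith
    have n5 : (0 : ℝ) < nm (g * e * m) := by linarith
    have e2 : (nm (g * e * m) : ℝ) ^ (-(1 + σ)) =
        (nm (g * e * m) : ℝ) ^ (-σ) * (nm (g * e * m) : ℝ)⁻¹ := by
      rw [neg_add, add_comm, Real.rpow_add n5, Real.rpow_neg_one]
    rw [e2]
    have h3 : (nm (g * e * m) : ℝ) ^ (-σ) ≤ L2 ^ (-σ) :=
      Real.rpow_le_rpow_of_nonpos (by linarith) n4 (by linarith)
    have e3 : (nm (g * e * m) : ℝ)⁻¹ = 1 / nm g * (1 / nm e * (1 / nm m)) := by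
      rw [e1]; field_simp
    rw [e3]
    exact mul_le_mul_of_nonneg_right h3 (by positivity)
  have hE' := H₁ P hP E hE
  have hM' := H₁ P hP M hM
  have hG' := H₁ P hP G (fun g hg => ⟨(hG g hg).1, (hG g hg).2.1⟩)
  have hL0 : 0 ≤ L2 ^ (-σ) := by positivity
  have sE0 : 0 ≤ ∑ e ∈ E, (1 : ℝ) / nm e := Finset.sum_nonneg fun _ _ => by positivity
  have sM0 : 0 ≤ ∑ m ∈ M, (1 : ℝ) / nm m := Finset.sum_nonneg fun _ _ => by positivity
  have sG0 : 0 ≤ ∑ g ∈ G, (1 : ℝ) / nm g := Finset.sum_nonneg fun _ _ => by positivity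
  calc ∑ g ∈ G, ∑ _a ∈ dvs g, ∑ e ∈ E, ∑ m ∈ M, (nm (g * e * m) : ℝ) ^ (-(1 + σ))
      ≤ ∑ g ∈ G, ∑ _a ∈ dvs g, ∑ e ∈ E, ∑ m ∈ M,
        L2 ^ (-σ) * (1 / nm g * (1 / nm e * (1 / nm m))) :=
        Finset.sum_le_sum fun g hg => Finset.sum_le_sum fun a _ => Finset.sum_le_sum fun e he =>
          Finset.sum_le_sum fun m hm => hterm g hg e he m hm
    _ = ∑ g ∈ G, (tau g : ℝ) * (L2 ^ (-σ) * (1 / nm g * ((∑ e ∈ E, (1 : ℝ) / nm e) *
          ∑ m ∈ M, (1 : ℝ) / nm m))) := by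
        refine Finset.sum_congr rfl fun g _ => ?_
        rw [Finset.sum_const, nsmul_eq_mul]
        congr 1
        simp only [← Finset.mul_sum, ← Finset.sum_mul]
    _ ≤ ∑ g ∈ G, (C₂ * z) * (L2 ^ (-σ) * (1 / nm g * ((C₁ * z) * (C₁ * z)))) := by
        refine Finset.sum_le_sum fun g hg => ?_
        have h1 := H₂ P hP g (hG g hg).2.1
        have h2 : (∑ e ∈ E, (1 : ℝ) / nm e) * ∑ m ∈ M, (1 : ℝ) / nm m ≤ (C₁ * z) * (C₁ * z) :=
          mul_le_mul hE' hM' sM0 (by positivity)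
        gcongr
    _ = (C₂ * z) * (L2 ^ (-σ) * ((∑ g ∈ G, (1 : ℝ) / nm g) * ((C₁ * z) * (C₁ * z)))) := by
        rw [Finset.sum_mul, Finset.mul_sum, Finset.mul_sum]
    _ ≤ (C₂ * z) * (L2 ^ (-σ) * ((C₁ * z) * ((C₁ * z) * (C₁ * z)))) := by gcongr
    _ = C₂ * C₁ ^ 3 * (z * z * z * z) * L2 ^ (-σ) := by ring
    _ = _ := by rw [hp]

/-- the cross sum vanishes beyond the range -/
lemma CrQ_zero {U : ℝ → ℂ} {b0 : ℝ} (hU : ∀ x, U x ≠ 0 → x ≤ b0) {K : ℝ} (hK : 0 < K)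
    (hb : b0 * K < 1) (Q : Eis → Prop) (α u : Eis → ℂ) : CrQ U Q K α u = 0 := by
  unfold Ex385.CrQ
  refine (tsum_congr fun k => ?_).trans tsum_zero
  by_cases h : IsPrim k ∧ Q k
  · rw [if_pos h]
    have h1 : U ((nm k : ℝ) / K) = 0 := by
      by_contra h0
      have h2 := hU _ h0
      rw [div_le_iff₀ hK] at h2
      have := nm_one_le h.1
      linarith
    rw [h1, zero_mul]
  · rw [if_neg h]

set_option maxHeartbeats 1000000 in
/-- **the near-top sum, abstract** -/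
theorem nt_abs {ε : ℝ} (hε : 0 < ε) {σ s₁ s₂ : ℝ} (hσ : 0 ≤ σ) (hss : s₁ + s₂ = 1 + σ) :
    ∃ C : ℝ, 0 ≤ C ∧
    ∀ (W : ℝ → ℝ) (U : ℝ → ℂ) (SU b0 : ℝ), (∀ x, 0 ≤ W x) → 0 ≤ SU →
    (∀ x, ‖U x‖ ≤ SU * W x) → (∀ x, W x ≠ 0 → x ≤ b0) →
    ∀ (P K E0 L L2 D A B : ℝ), 1 ≤ P → 0 < K → b0 * K ≤ P → 0 ≤ L → L ≤ P → 0 ≤ E0 → E0 ≤ P →
    1 ≤ L2 → 0 ≤ A → 0 ≤ B →
    ∀ (Pk : Eis → Prop) (α : Eis → ℂ) (J : Finset (Eis × Eis)),
    (∀ x ∈ J, IsPrim x.1 ∧ (nm x.1 : ℝ) ≤ D) → ∀ (om : Eis × Eis → ℂ)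
      (T : Eis × Eis → Eis → ℂ),
    (∀ g ∈ S L, L2 < nm g → ∀ a ∈ dvs g, (nm (g / a) : ℝ) ≤ D → ∀ e ∈ S E0, ∀ m, IsPrim m →
      (nm (g * e * m) : ℝ) ^ 3 ≤ b0 * K →
      SqQ W (K / (nm (g * e * m) : ℝ) ^ 3) (fun k => CbF k ∧ Pk k ∧ IsCoprime e k)
        (alr α a (g / a * e)) ≤ A * (nm (g * e * m) : ℝ) ^ (-(2 * s₁))) →
    (∀ g ∈ S L, L2 < nm g → ∀ a ∈ dvs g, (nm (g / a) : ℝ) ≤ D → ∀ e ∈ S E0, ∀ m, IsPrim m →
      (nm (g * e * m) : ℝ) ^ 3 ≤ b0 * K →
      GrP W (K / (nm (g * e * m) : ℝ) ^ 3) (fun k => if CbF k ∧ Pk k ∧ IsCoprime e k then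
        StT E0 J (omb om (g / a)) (Te E0 e T) k else 0) ≤
        B * (nm (g * e * m) : ℝ) ^ (-(2 * s₂))) →
    ‖∑ g ∈ (S L).filter (fun g => L2 < (nm g : ℝ)), (mu g : ℂ) * NTs U Pk K E0 α J om T g‖ ≤
      C * P ^ ε * SU * √(A * B) * L2 ^ (-σ) := by
  obtain ⟨C, hC, H⟩ := nt_count hε hσ
  refine ⟨C, hC, ?_⟩
  intro W U SU b0 hW0 hSU hU hWb P K E0 L L2 D A B hP hK hbK hL hLP hE0 hE0P hL2 hA hB Pk α J
    hJD om T hS hG
  have hUb : ∀ x, U x ≠ 0 → x ≤ b0 := by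
    intro x hx
    apply hWb
    intro h0
    apply hx
    have := hU x
    rw [h0, mul_zero] at this
    exact norm_le_zero_iff.1 this
  set G := (S L).filter (fun g => L2 < (nm g : ℝ)) with hGd
  set M := primBall ⌊P⌋₊ with hMd
  -- the bound of one term
  have hone : ∀ g ∈ G, ∀ a ∈ dvs g, ∀ e ∈ S E0, ∀ m, IsPrim m →
      ‖CrQ U (fun k => CbF k ∧ Pk k ∧ IsCoprime e k) (K / (nm (g * e * m) : ℝ) ^ 3)
        (alr α a (g / a * e)) (StT E0 J (omb om (g / a)) (Te E0 e T))‖ ≤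
      if m ∈ M then SU * √(A * B) * (nm (g * e * m) : ℝ) ^ (-(1 + σ)) else 0 := by
    intro g hg a ha e he m hm
    obtain ⟨hg1, hg2⟩ := Finset.mem_filter.1 hg
    have pg := ((mem_S hL).1 hg1).2.1
    have pe := ((mem_S hE0).1 he).2.1
    have n1 := nm_one_le pg
    have n2 := nm_one_le pe
    have n3 := nm_one_le hm
    have e1 : (nm (g * e * m) : ℝ) = nm g * nm e * nm m := by
      rw [nm_mul, nm_mul]; push_cast; ring
    have h1 : (1 : ℝ) ≤ nm g * nm e := by nlinarith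
    have n4 : (nm m : ℝ) ≤ nm (g * e * m) := by
      rw [e1]; exact le_mul_of_one_le_left (by linarith) h1
    have n5 : (0 : ℝ) < nm (g * e * m) := by linarith
    have hK' : 0 < K / (nm (g * e * m) : ℝ) ^ 3 := by positivity
    have hrhs : 0 ≤ (if m ∈ M then SU * √(A * B) * (nm (g * e * m) : ℝ) ^ (-(1 + σ)) else 0) := by
      split_ifs
      · have q4 : 0 ≤ (nm (g * e * m) : ℝ) ^ (-(1 + σ)) := by positivity
        have q5 := Real.sqrt_nonneg (A * B)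
        positivity
      · exact le_rfl
    by_cases hD : (nm (g / a) : ℝ) ≤ D
    swap
    · have h0 : StT E0 J (omb om (g / a)) (Te E0 e T) = fun _ => 0 := by
        funext k
        unfold E2440.StT
        refine Finset.sum_eq_zero fun x hx => ?_
        have h1 : omb om (g / a) x = 0 := by
          unfold omb
          rw [if_neg]
          intro hd
          apply hD
          have h2 := hJD x hx
          have h3 : (nm (g / a) : ℝ) ≤ nm x.1 := by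
            exact_mod_cast Div277.nm_le_of_dvd h2.1.ne_zero hd
          linarith
        rw [h1, zero_mul]
      have h1 : CrQ U (fun k => CbF k ∧ Pk k ∧ IsCoprime e k) (K / (nm (g * e * m) : ℝ) ^ 3)
        (alr α a (g / a * e)) (StT E0 J (omb om (g / a)) (Te E0 e T)) = 0 := by
        rw [h0]
        unfold Ex385.CrQ
        refine (tsum_congr fun k => ?_).trans tsum_zero
        split_ifs <;> simp
      rw [h1, norm_zero]
      exact hrhs
    by_cases hc : (nm (g * e * m) : ℝ) ^ 3 ≤ b0 * K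
    · have hmM : m ∈ M := by
        rw [hMd, mem_primBall]
        refine ⟨Nat.le_floor ?_, hm⟩
        have h2 : (nm (g * e * m) : ℝ) ≤ (nm (g * e * m) : ℝ) ^ 3 := by
          have : (1 : ℝ) ≤ nm (g * e * m) := by linarith
          nlinarith [mul_self_nonneg ((nm (g * e * m) : ℝ) - 1), this]
        linarith
      rw [if_pos hmM]
      have c0 := CrQ_le_sqrt (F := fun x => U x) (W := fun x => SU * W x)
        (fun x => mul_nonneg hSU (hW0 x)) hU (B := b0)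
        (fun x hx => hWb x (right_ne_zero_of_mul hx)) hK'
        (fun k => CbF k ∧ Pk k ∧ IsCoprime e k) (alr α a (g / a * e))
        (StT E0 J (omb om (g / a)) (Te E0 e T))
      have s1 : SqQ (fun x => SU * W x) (K / (nm (g * e * m) : ℝ) ^ 3)
          (fun k => CbF k ∧ Pk k ∧ IsCoprime e k) (alr α a (g / a * e)) =
          SU * SqQ W (K / (nm (g * e * m) : ℝ) ^ 3)
          (fun k => CbF k ∧ Pk k ∧ IsCoprime e k) (alr α a (g / a * e)) := by
        unfold LBu180.SqQ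
        rw [← tsum_mul_left]
        refine tsum_congr fun k => ?_
        split_ifs <;> ring
      have s2 : ∀ v : Eis → ℂ, GrP (fun x => SU * W x) (K / (nm (g * e * m) : ℝ) ^ 3) v =
          SU * GrP W (K / (nm (g * e * m) : ℝ) ^ 3) v := by
        intro v
        unfold LB48.GrP
        rw [← tsum_mul_left]
        refine tsum_congr fun k => ?_
        split_ifs <;> ring
      rw [s1, s2] at c0
      refine c0.trans ?_
      have a1 := hS g hg1 hg2 a ha hD e he m hm hc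
      have a2 : GrP W (K / (nm (g * e * m) : ℝ) ^ 3) (fun k =>
          @ite ℂ (CbF k ∧ Pk k ∧ IsCoprime e k) (Classical.propDecidable _)
            (StT E0 J (omb om (g / a)) (Te E0 e T) k) 0) ≤
          B * (nm (g * e * m) : ℝ) ^ (-(2 * s₂)) := by
        convert hG g hg1 hg2 a ha hD e he m hm hc
      have a3 := mul_le_mul_of_nonneg_left a1 hSU
      have a4 := mul_le_mul_of_nonneg_left a2 hSU
      refine (mul_le_mul (Real.sqrt_le_sqrt a3) (Real.sqrt_le_sqrt a4) (Real.sqrt_nonneg _)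
        (Real.sqrt_nonneg _)).trans (le_of_eq ?_)
      set y := (nm (g * e * m) : ℝ) with hy
      have q1 : ∀ s : ℝ, y ^ (-(2 * s)) = (y ^ (-s)) ^ 2 := by
        intro s
        rw [← Real.rpow_natCast, ← Real.rpow_mul n5.le]
        congr 1; push_cast; ring
      have q3 : y ^ (-(1 + σ)) = y ^ (-s₁) * y ^ (-s₂) := by
        rw [← hss, neg_add, Real.rpow_add n5]
      have q4 : 0 ≤ y ^ (-s₁) := by positivity
      have q5 : 0 ≤ y ^ (-s₂) := by positivity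
      rw [← Real.sqrt_mul (by positivity)]
      have q6 : SU * (A * y ^ (-(2 * s₁))) * (SU * (B * y ^ (-(2 * s₂)))) =
          (A * B) * (SU * (y ^ (-s₁) * y ^ (-s₂))) ^ 2 := by
        rw [q1, q1]; ring
      rw [q6, Real.sqrt_mul (by positivity), Real.sqrt_sq (by positivity), q3]
      ring
    · have h0 : CrQ U (fun k => CbF k ∧ Pk k ∧ IsCoprime e k) (K / (nm (g * e * m) : ℝ) ^ 3)
          (alr α a (g / a * e)) (StT E0 J (omb om (g / a)) (Te E0 e T)) = 0 := by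
        refine CrQ_zero hUb hK' ?_ _ _ _
        rw [mul_div_assoc', div_lt_one (by positivity)]
        exact not_le.1 hc
      rw [h0, norm_zero]
      exact hrhs
  have hmu : ∀ n : Eis, ‖(mu n : ℂ)‖ ≤ 1 := by
    intro n
    rw [Complex.norm_intCast]
    have : |mu n| ≤ 1 := by rw [abs_muE]; split_ifs <;> norm_num
    exact_mod_cast this
  have hNT : ∀ g ∈ G, ‖NTs U Pk K E0 α J om T g‖ ≤ ∑ _a ∈ dvs g, ∑ e ∈ S E0, ∑ m ∈ M,
      SU * √(A * B) * (nm (g * e * m) : ℝ) ^ (-(1 + σ)) := by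
    intro g hg
    unfold NTs
    refine (norm_sum_le _ _).trans (Finset.sum_le_sum fun a ha => ?_)
    refine (norm_sum_le _ _).trans (Finset.sum_le_sum fun e he => ?_)
    rw [norm_mul]
    refine (mul_le_of_le_one_left (norm_nonneg _) (hmu e)).trans ?_
    have hts : (∑' m : Eis, if IsPrim m then
        CrQ U (fun k => CbF k ∧ Pk k ∧ IsCoprime e k) (K / (nm (g * e * m) : ℝ) ^ 3)
          (alr α a (g / a * e)) (StT E0 J (omb om (g / a)) (Te E0 e T)) else 0) =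
        ∑ m ∈ M, CrQ U (fun k => CbF k ∧ Pk k ∧ IsCoprime e k) (K / (nm (g * e * m) : ℝ) ^ 3)
          (alr α a (g / a * e)) (StT E0 J (omb om (g / a)) (Te E0 e T)) := by
      rw [tsum_eq_sum (s := M)]
      · exact Finset.sum_congr rfl fun m hm => if_pos (mem_primBall.1 hm).2
      · intro m hm
        split_ifs with hp
        · have := hone g hg a ha e he m hp
          rw [if_neg hm] at this
          exact norm_le_zero_iff.1 this
        · rfl
    rw [hts]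
    refine (norm_sum_le _ _).trans (Finset.sum_le_sum fun m hm => ?_)
    have := hone g hg a ha e he m (mem_primBall.1 hm).2
    rw [if_pos hm] at this
    exact this
  have hcount := H P L2 hP hL2 G (S E0) M (fun g hg => by
      obtain ⟨h1, h2⟩ := Finset.mem_filter.1 hg
      have h3 := (mem_S hL).1 h1
      exact ⟨h3.2.1, h3.1.trans hLP, h2⟩) (fun e he => by
      have h3 := (mem_S hE0).1 he
      exact ⟨h3.2.1, h3.1.trans hE0P⟩) (fun m hm => by
      obtain ⟨h1, h2⟩ := mem_primBall.1 hm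
      exact ⟨h2, (Nat.cast_le.2 h1).trans (Nat.floor_le (by linarith))⟩)
  refine (norm_sum_le _ _).trans ?_
  calc ∑ g ∈ G, ‖(mu g : ℂ) * NTs U Pk K E0 α J om T g‖
      ≤ ∑ g ∈ G, ∑ _a ∈ dvs g, ∑ e ∈ S E0, ∑ m ∈ M,
        SU * √(A * B) * (nm (g * e * m) : ℝ) ^ (-(1 + σ)) := by
        refine Finset.sum_le_sum fun g hg => ?_
        rw [norm_mul]
        exact (mul_le_of_le_one_left (norm_nonneg _) (hmu g)).trans (hNT g hg)
    _ = SU * √(A * B) * ∑ g ∈ G, ∑ _a ∈ dvs g, ∑ e ∈ S E0, ∑ m ∈ M,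
        (nm (g * e * m) : ℝ) ^ (-(1 + σ)) := by
        simp only [Finset.mul_sum]
    _ ≤ SU * √(A * B) * (C * P ^ ε * L2 ^ (-σ)) := by
        have := Real.sqrt_nonneg (A * B)
        gcongr
    _ = _ := by ring

end Crest.Agent.R017.CubN994
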