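import Crest.Agent.R017.CubNa_994

/-!
# Row 17, the near-top part of the tail of (LB), part b (helper994): the Gram input

* `gr_near` : the cut Gram sum at the family `K ρ`, `ρ ≤ 1`, arbitrary `om`, by `EHf`, `EHs`
-/

set_option autoImplicit false

noncomputable section

open Complex MeasureTheory
open scoped ComplexConjugate Classical

namespace Crest.Agent.R017.CubN994

open Crest.Agent.R012 Crest.Agent.R012.Eis Crest.Agent.R012.MC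
open Crest.Agent.R012.LS2 (S mem_S)
open Crest.Agent.R012.Mob705 (pdiv kap0 mu)
open Crest.Agent.R012.Div277 (tau dvs mem_dvs)
open Crest.Agent.R017.CM106 (CS TG FS)
open Crest.Agent.R017.E1551 hiding tau Dg
open Crest.Agent.R017.C70 (JW JC OKJ okJ_JW CbF)
open Crest.Agent.R017.E2440 (TE StE StT)
open Crest.Agent.R017.EHu320 (EHc)
open Crest.Agent.R017.LB48 (CrP GrP)
open Crest.Agent.R017.I1146 (c3 c3_nonneg)
open Crest.Agent.R017.E3M829 (Cut Tal TC_Tal Sg gram_fin TF XT)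
open Crest.Agent.R017.E3A164 (SteT Ys Fy)
open Crest.Agent.R017.DgB829 (HS HS_nonneg HS_le)
open Crest.Agent.R017.LBx48 (EHs EHc_nonneg)
open Crest.Agent.R017.LBX180 (EHf EHc_sc M2s M2s_le M2s_nonneg X3_le_s)
open Crest.Agent.R017.LBu180 (SqQ SqQ_le GrP_le gram_num)

/-- scaling of one functional -/
lemma EH_rho (c : ℕ → ℝ) (Q : Eis → Prop) {A K X Y Z ρ : ℝ} (hK : 0 ≤ K) (hX : 0 < X)
    (hρ : 0 < ρ) (α : Eis → ℂ) :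
    K * ρ / X * EHc c Q A (K * ρ) X Y Z α = ρ ^ (2 / 3 : ℝ) * (K / X * EHc c Q A K X Y Z α) := by
  rw [EHc_sc hρ.le c Q hK]
  have e1 : ρ * ρ ^ (-(1 / 3) : ℝ) = ρ ^ (2 / 3 : ℝ) := by
    conv_lhs => rw [← Real.rpow_one ρ, ← Real.rpow_mul hρ.le, one_mul, ← Real.rpow_add hρ]
    norm_num
  rw [← e1]
  ring

set_option maxHeartbeats 1000000 in
/-- **the cut Gram sum at the family `K ρ`** -/
theorem gr_near {w : ℝ → ℝ} (hw : Wgt w) (hw0 : ∀ x, 0 ≤ w x) {R : ℝ} (hR : 0 ≤ R) {A : ℕ}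
    (hA : 2 ≤ A) {ε : ℝ} (hε : 0 < ε) : ∃ C : ℝ, 0 ≤ C ∧
    ∀ (P K X Y D Y₀ Z E0 E1 B ρ : ℝ), 1 ≤ P → 0 < K → K ≤ P → 0 < X → 1 ≤ Y → Y ≤ P →
    0 ≤ D → D ≤ P → 0 < Z → Z ≤ P → 0 ≤ E0 → E0 ≤ Y → 1 ≤ B → 0 < ρ → ρ ≤ 1 →
    Z ≤ (K * ρ) ^ 2 →
    ∀ α : Eis → ℂ, Adm Y X R α → ∀ om : Eis × Eis → ℂ, (∀ x, ‖om x‖ ≤ 1) →
    ∀ Q : Eis → Prop, (∀ k, IsPrim k → w (nm k / (K * ρ)) ≠ 0 → Q k → Cut E1 k) → ∀ OFF : ℝ,
    Sg w (K * ρ) B Z E1 (fun q t k₁ => ‖∑ y ∈ Ys (JW D Y₀ Z) E0 Z,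
        Fy (JW D Y₀ Z) om (Tal α) q t k₁ y‖ ^ 2) ≤
      Sg w (K * ρ) B Z E1 (fun q t k₁ => E3M829.Dg (JW D Y₀ Z) om (Tal α) E0 Z q t k₁) + OFF →
    GrP w (K * ρ) (fun k => if Q k then StE E0 (JW D Y₀ Z) om α k else 0) ≤
      C * P ^ ε * ρ ^ (2 / 3 : ℝ) * (K / X * (EHf A K X Y Z α + EHs A K X Y Z E0 α)) + OFF := by
  obtain ⟨C₁, hC₁, H₁⟩ := gram_num hw hw0 hR hA hε
  obtain ⟨C₂, hC₂, H₂⟩ := M2s_le R hR A hA
  obtain ⟨C₅, hC₅, H₅⟩ := PInv255.one_add_log_pow_le 1 ε hε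
  have hC50 : 0 ≤ C₅ := zero_le_one.trans hC₅
  refine ⟨|c3 w 1| * (200 * C₅ * C₂) + 2 * C₁, by positivity, ?_⟩
  intro P K X Y D Y₀ Z E0 E1 B ρ hP1 hK hKP hX hY hYP hD hDP hZ hZP hE0 hE0Y hB hρ hρ1 hZK α hα om
    hom Q hQ OFF hoff
  have hKρ : 0 < K * ρ := by positivity
  have hKρP : K * ρ ≤ P := (mul_le_of_le_one_right hK.le hρ1).trans hKP
  have hY0 : 0 ≤ Y := by linarith
  have hPe : 1 ≤ P ^ ε := Real.one_le_rpow hP1 hε.le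
  have a1 := H₁ P (K * ρ) X Y D Y₀ Z E0 E1 B hP1 hKρ hKρP hX hY hYP hD hDP hZ hZP hE0 hE0Y hB α hα
    om hom Q hQ OFF hoff
  -- the main form
  have b1 := X3_le_s hY0 E0 (JW D Y₀ Z) hom α
  have b2 := H₂ Y X (K * ρ) D Y₀ Z hY hX hKρ α hα
  have b3 : K * ρ / X * EHf A (K * ρ) X Y Z α = ρ ^ (2 / 3 : ℝ) * (K / X * EHf A K X Y Z α) :=
    EH_rho _ _ hK.le hX hρ α
  have b4 : K * ρ / X * EHs A (K * ρ) X Y Z E0 α =
      ρ ^ (2 / 3 : ℝ) * (K / X * EHs A K X Y Z E0 α) := EH_rho _ _ hK.le hX hρ α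
  have f0 : 0 ≤ EHf A K X Y Z α := EHc_nonneg (fun n => by positivity) _ hK.le hX.le α
  have s0 : 0 ≤ EHs A K X Y Z E0 α := EHc_nonneg (fun n => Nat.cast_nonneg n) _ hK.le hX.le α
  have hKX : 0 ≤ K / X := by positivity
  have hr : 0 ≤ ρ ^ (2 / 3 : ℝ) := by positivity
  have hH : HS Y ≤ 200 * C₅ * P ^ ε := by
    refine (HS_le hY).trans ?_
    have h6 := H₅ P hP1
    rw [pow_one] at h6
    have h7 : Real.log Y ≤ Real.log P := Real.log_le_log (by linarith) hYP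
    nlinarith
  have hM0 := M2s_nonneg Y (JW D Y₀ Z) α
  have e3 : c3 w (K * ρ) = c3 w 1 * (K * ρ) ^ (2 / 3 : ℝ) := by
    unfold I1146.c3
    rw [Real.one_rpow]; ring
  have a2 : c3 w (K * ρ) * (I1146.X3 Y E0 (JW D Y₀ Z) om α).re ≤
      |c3 w 1| * (200 * C₅ * C₂) * P ^ ε * (ρ ^ (2 / 3 : ℝ) * (K / X * EHf A K X Y Z α)) := by
    have q1 : (I1146.X3 Y E0 (JW D Y₀ Z) om α).re ≤ HS Y * M2s Y (JW D Y₀ Z) α :=
      (Complex.re_le_norm _).trans b1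
    have q2 : 0 ≤ c3 w (K * ρ) := c3_nonneg hw0 hKρ
    have q3 : (K * ρ) ^ (2 / 3 : ℝ) * M2s Y (JW D Y₀ Z) α ≤
        C₂ * (ρ ^ (2 / 3 : ℝ) * (K / X * EHf A K X Y Z α)) := by
      rw [← b3]
      refine b2.trans (le_of_eq ?_)
      ring
    calc c3 w (K * ρ) * (I1146.X3 Y E0 (JW D Y₀ Z) om α).re ≤
          c3 w (K * ρ) * (HS Y * M2s Y (JW D Y₀ Z) α) := mul_le_mul_of_nonneg_left q1 q2
      _ = c3 w 1 * (HS Y * ((K * ρ) ^ (2 / 3 : ℝ) * M2s Y (JW D Y₀ Z) α)) := by rw [e3]; ring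
      _ ≤ |c3 w 1| * (HS Y * ((K * ρ) ^ (2 / 3 : ℝ) * M2s Y (JW D Y₀ Z) α)) := by
          have := le_abs_self (c3 w 1)
          have h9 : 0 ≤ HS Y * ((K * ρ) ^ (2 / 3 : ℝ) * M2s Y (JW D Y₀ Z) α) :=
            mul_nonneg (HS_nonneg Y) (by positivity)
          exact mul_le_mul_of_nonneg_right this h9
      _ ≤ |c3 w 1| * ((200 * C₅ * P ^ ε) *
            (C₂ * (ρ ^ (2 / 3 : ℝ) * (K / X * EHf A K X Y Z α)))) := by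
          have h9 : 0 ≤ (K * ρ) ^ (2 / 3 : ℝ) * M2s Y (JW D Y₀ Z) α := by positivity
          have := HS_nonneg Y
          gcongr
      _ = _ := by ring
  have a3 : C₁ * P ^ ε * ((Z / (K * ρ) ^ 2) ^ (1 / 6 : ℝ) + B⁻¹) *
      (K * ρ / X * EHs A (K * ρ) X Y Z E0 α) ≤
      2 * C₁ * P ^ ε * (ρ ^ (2 / 3 : ℝ) * (K / X * EHs A K X Y Z E0 α)) := by
    rw [b4]
    have q1 : (Z / (K * ρ) ^ 2) ^ (1 / 6 : ℝ) ≤ 1 := by
      refine Real.rpow_le_one (by positivity) ?_ (by norm_num)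
      rw [div_le_one (by positivity)]
      exact hZK
    have q2 : B⁻¹ ≤ 1 := inv_le_one_of_one_le₀ hB
    have q3 : 0 ≤ ρ ^ (2 / 3 : ℝ) * (K / X * EHs A K X Y Z E0 α) := by positivity
    calc C₁ * P ^ ε * ((Z / (K * ρ) ^ 2) ^ (1 / 6 : ℝ) + B⁻¹) *
          (ρ ^ (2 / 3 : ℝ) * (K / X * EHs A K X Y Z E0 α)) ≤
          C₁ * P ^ ε * (1 + 1) * (ρ ^ (2 / 3 : ℝ) * (K / X * EHs A K X Y Z E0 α)) := by gcongr
      _ = _ := by ring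
  have f1 : 0 ≤ ρ ^ (2 / 3 : ℝ) * (K / X * EHf A K X Y Z α) := by positivity
  have f2 : 0 ≤ ρ ^ (2 / 3 : ℝ) * (K / X * EHs A K X Y Z E0 α) := by positivity
  have f3 : 0 ≤ |c3 w 1| * (200 * C₅ * C₂) * P ^ ε := by positivity
  have f4 : 0 ≤ 2 * C₁ * P ^ ε := by positivity
  have g1 := mul_nonneg f3 f2
  have g2 := mul_nonneg f4 f1
  have g3 : (|c3 w 1| * (200 * C₅ * C₂) + 2 * C₁) * P ^ ε * ρ ^ (2 / 3 : ℝ) *
      (K / X * (EHf A K X Y Z α + EHs A K X Y Z E0 α)) =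
      |c3 w 1| * (200 * C₅ * C₂) * P ^ ε * (ρ ^ (2 / 3 : ℝ) * (K / X * EHf A K X Y Z α)) +
      |c3 w 1| * (200 * C₅ * C₂) * P ^ ε * (ρ ^ (2 / 3 : ℝ) * (K / X * EHs A K X Y Z E0 α)) +
      2 * C₁ * P ^ ε * (ρ ^ (2 / 3 : ℝ) * (K / X * EHf A K X Y Z α)) +
      2 * C₁ * P ^ ε * (ρ ^ (2 / 3 : ℝ) * (K / X * EHs A K X Y Z E0 α)) := by ring
  rw [g3]
  linarith

end Crest.Agent.R017.CubN994
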