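import Crest.Agent.R017.CubNb_994

/-!
# Row 17, the near-top part of the tail of (LB), part c (helper994): the shifted coefficients

* `StT_Te` : `mu e₀ StT (Te E0 e₀ A) k = ∑_{d ∣ e₀} mu (e₀/d) StT A (d³ k)` for `(k, e₀) = 1`
* `gr_te` : the Gram sum of the shifted coefficients through the original ones
-/

set_option autoImplicit false

noncomputable section

open Complex MeasureTheory
open scoped ComplexConjugate Classical

namespace Crest.Agent.R017.CubN994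

open Crest.Agent.R012 Crest.Agent.R012.Eis Crest.Agent.R012.MC
open Crest.Agent.R012.LS2 (S mem_S)
open Crest.Agent.R012.Mob705 (pdiv kap0 mu abs_muE sum_dvs_muE_one)
open Crest.Agent.R012.Div277 (tau dvs mem_dvs)
open Crest.Agent.R017.CM106 Crest.Agent.R017.FE47 Crest.Agent.R017.End699
open Crest.Agent.R017.C70 (JW JC OKJ okJ_JW CbF)
open Crest.Agent.R017.E2440 (TE StE StT TOK tok_TE)
open Crest.Agent.R017.LB48 (CrP GrP)
open Crest.Agent.R017.E3M829 (Cut)
open Crest.Agent.R017.E5Q571 (dvd_of_cube_dvd)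
open Crest.Agent.R017.CubL813 (TT StE_cubeT mul_div_mem prim_div)
open Crest.Agent.R017.CubP813 (alr omb Te NTs)

/-- the inner Moebius identity: `∑_{d ∣ n} mu (n/d) ∑_{e₁ ∣ d} F e₁ = F n` -/
lemma inv_dvs {n : Eis} (hn : IsPrim n) (F : Eis → ℂ) :
    ∑ d ∈ dvs n, (mu (n / d) : ℂ) * ∑ e₁ ∈ dvs d, F e₁ = F n := by
  have hn0 := hn.ne_zero
  -- reorganise over (e₁, u) with e₁ ∣ n, u ∣ n / e₁, d = e₁ u
  have e1 : ∑ d ∈ dvs n, (mu (n / d) : ℂ) * ∑ e₁ ∈ dvs d, F e₁ =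
      ∑ e₁ ∈ dvs n, F e₁ * ∑ v ∈ dvs (n / e₁), ((mu v : ℤ) : ℂ) := by
    simp_rw [Finset.mul_sum]
    rw [Finset.sum_sigma', Finset.sum_sigma']
    refine Finset.sum_bij' (fun p _ => ⟨p.2, n / p.1⟩) (fun p _ => ⟨n / p.2, p.1⟩) ?_ ?_ ?_ ?_ ?_
    · rintro ⟨d, e₁⟩ h
      rw [Finset.mem_sigma] at h
      obtain ⟨h1, h2⟩ := h
      obtain ⟨hd, hdn⟩ := (mem_dvs hn0).1 h1
      obtain ⟨he, hed⟩ := (mem_dvs hd.ne_zero).1 h2
      have h3 : e₁ ∈ dvs n := (mem_dvs hn0).2 ⟨he, hed.trans hdn⟩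
      have h4 := mul_div_mem h1
      have h5 := mul_div_mem h3
      have h6 : IsPrim (n / d) := prim_div hn h1
      have h7 : IsPrim (n / e₁) := prim_div hn h3
      rw [Finset.mem_sigma]
      refine ⟨h3, (mem_dvs h7.ne_zero).2 ⟨h6, ?_⟩⟩
      obtain ⟨c, hc⟩ := hed
      refine ⟨c, mul_left_cancel₀ he.ne_zero ?_⟩
      simp only
      rw [h5, ← h4]
      nth_rewrite 1 [hc]
      rw [h4]
      ring
    · rintro ⟨e₁, v⟩ h
      rw [Finset.mem_sigma] at h
      obtain ⟨h1, h2⟩ := h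
      obtain ⟨he, hen⟩ := (mem_dvs hn0).1 h1
      have h7 : IsPrim (n / e₁) := prim_div hn h1
      obtain ⟨hv, hve⟩ := (mem_dvs h7.ne_zero).1 h2
      have h5 := mul_div_mem h1
      have h8 : v ∣ n := by
        rw [← h5]; exact Dvd.dvd.mul_left hve _
      have h9 : v ∈ dvs n := (mem_dvs hn0).2 ⟨hv, h8⟩
      have h10 : IsPrim (n / v) := prim_div hn h9
      have h11 := mul_div_mem h9
      rw [Finset.mem_sigma]
      refine ⟨(mem_dvs hn0).2 ⟨h10, ⟨v, by rw [mul_comm]; exact h11.symm⟩⟩,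
        (mem_dvs h10.ne_zero).2 ⟨he, ?_⟩⟩
      obtain ⟨c, hc⟩ := hve
      refine ⟨c, mul_left_cancel₀ hv.ne_zero ?_⟩
      simp only
      rw [h11, ← h5, hc]
      ring
    · rintro ⟨d, e₁⟩ h
      rw [Finset.mem_sigma] at h
      have h1 := h.1
      have h4 := mul_div_mem h1
      have h6 : IsPrim (n / d) := prim_div hn h1
      have hd0 := ((mem_dvs hn0).1 h1).1.ne_zero
      have : n / (n / d) = d := by
        have h9 : n / d ∈ dvs n := (mem_dvs hn0).2 ⟨h6, ⟨d, by rw [mul_comm]; exact h4.symm⟩⟩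
        have h11 := mul_div_mem h9
        apply mul_left_cancel₀ h6.ne_zero
        rw [h11, mul_comm]
        exact h4.symm
      simp only [this]
    · rintro ⟨e₁, v⟩ h
      rw [Finset.mem_sigma] at h
      obtain ⟨h1, h2⟩ := h
      have h7 : IsPrim (n / e₁) := prim_div hn h1
      obtain ⟨hv, hve⟩ := (mem_dvs h7.ne_zero).1 h2
      have h5 := mul_div_mem h1
      have h8 : v ∣ n := by
        rw [← h5]; exact Dvd.dvd.mul_left hve _
      have h9 : v ∈ dvs n := (mem_dvs hn0).2 ⟨hv, h8⟩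
      have h10 : IsPrim (n / v) := prim_div hn h9
      have h11 := mul_div_mem h9
      have : n / (n / v) = v := by
        have h12 : n / v ∈ dvs n := (mem_dvs hn0).2 ⟨h10, ⟨v, by rw [mul_comm]; exact h11.symm⟩⟩
        have h13 := mul_div_mem h12
        apply mul_left_cancel₀ h10.ne_zero
        rw [h13, mul_comm]
        exact h11.symm
      simp only [this]
    · rintro ⟨d, e₁⟩ _
      simp only
      ring
  rw [e1]
  have e2 : ∀ e₁ ∈ dvs n, F e₁ * ∑ v ∈ dvs (n / e₁), ((mu v : ℤ) : ℂ) =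
      if e₁ = n then F n else 0 := by
    intro e₁ he₁
    have h7 : IsPrim (n / e₁) := prim_div hn he₁
    have h5 := mul_div_mem he₁
    have h3 := sum_dvs_muE_one h7
    have h4 : ∑ v ∈ dvs (n / e₁), ((mu v : ℤ) : ℂ) = ((∑ v ∈ dvs (n / e₁), muE v : ℤ) : ℂ) := by
      push_cast
      rfl
    rw [h4, h3]
    by_cases h : e₁ = n
    · subst h
      rw [if_pos rfl, if_pos (EuclideanDomain.div_self hn0)]
      simp
    · rw [if_neg h, if_neg]
      · simp
      · intro h9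
        rw [h9, mul_one] at h5
        exact h h5
  rw [Finset.sum_congr rfl e2, Finset.sum_ite_eq' (dvs n) n (fun _ => F n), if_pos]
  exact (mem_dvs hn0).2 ⟨hn, dvd_rfl⟩

/-- the summand -/
def Fx (E0 : ℝ) (A : Eis × Eis → Eis → ℂ) (x : Eis × Eis) (e e₁ : Eis) : ℂ :=
  if (nm (e₁ * e) : ℝ) ≤ E0 then (mu e₁ : ℂ) * A x (e₁ * e) else 0

lemma prin0_of {a b : Eis} (h : IsCoprime b a) : prin0 a b = 1 := by
  unfold prin0
  rw [if_pos h]

/-- **the shifted coefficients** -/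
theorem StT_Te {E0 : ℝ} (hE0 : 0 ≤ E0) {J : Finset (Eis × Eis)} (hJ : OKJ J)
    (om : Eis × Eis → ℂ) {A : Eis × Eis → Eis → ℂ} (hA : TOK A) {e₀ : Eis} (he : IsPrim e₀)
    {k : Eis} (hc : IsCoprime k e₀) :
    (mu e₀ : ℂ) * StT E0 J om (Te E0 e₀ A) k = ∑ d ∈ dvs e₀, (mu (e₀ / d) : ℂ) *
      StT E0 J (fun x => om x * prin0 e₀ x.1) A (d ^ 3 * k) := by
  have hL : StT E0 J om (Te E0 e₀ A) k =
      StT E0 J (fun x => om x * prin0 e₀ x.1) (Te E0 e₀ A) k := by
    unfold E2440.StT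
    refine Finset.sum_congr rfl fun x _ => ?_
    by_cases h : IsCoprime x.1 e₀
    · simp only [prin0_of h, mul_one]
    · have h0 : ∀ e, Te E0 e₀ A x e = 0 := by
        intro e
        unfold Te
        split_ifs with h1
        · by_contra h2
          exact h (hA x (e₀ * e) h2).2.2.of_mul_left_left.symm
        · rfl
      have h1 : ∑ e ∈ (S E0).filter (fun e => e ∣ k), (mu e : ℂ) * Te E0 e₀ A x e = 0 :=
        Finset.sum_eq_zero fun e _ => by rw [h0, mul_zero]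
      rw [h1]
      ring
  rw [hL]
  set om' : Eis × Eis → ℂ := fun x => om x * prin0 e₀ x.1 with hom'
  have hR : ∀ d ∈ dvs e₀, StT E0 J om' A (d ^ 3 * k) = ∑ x ∈ J, om' x *
      (sy k x.1 * conj (PX764.th (x.2 * k)) * ∑ e ∈ (S E0).filter (fun e => e ∣ k),
        (mu e : ℂ) * ∑ e₁ ∈ dvs d, Fx E0 A x e e₁) := by
    intro d hd
    obtain ⟨pd, hde⟩ := (mem_dvs he.ne_zero).1 hd
    rw [StE_cubeT pd k hE0 hJ]
    unfold E2440.StT
    refine Finset.sum_congr rfl fun x _ => ?_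
    have hp : om' x * prin0 d x.1 = om' x := by
      simp only [hom']
      by_cases h : IsCoprime x.1 e₀
      · rw [prin0_of h, prin0_of (h.of_isCoprime_of_dvd_right hde)]
        ring
      · have : prin0 e₀ x.1 = 0 := by
          unfold prin0
          rw [if_neg h]
        rw [this]
        ring
    beta_reduce
    rw [hp]
    congr 2
    refine Finset.sum_congr rfl fun e hek => ?_
    congr 1
    unfold CubL813.TT Fx
    have h1 : IsCoprime e d :=
      (hc.of_isCoprime_of_dvd_left (Finset.mem_filter.1 hek).2).of_isCoprime_of_dvd_right hde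
    rw [prin0_of h1, one_mul, Finset.sum_filter]
  rw [Finset.sum_congr rfl fun d hd => by rw [hR d hd]]
  have e1 : ∑ d ∈ dvs e₀, (mu (e₀ / d) : ℂ) * ∑ x ∈ J, om' x *
      (sy k x.1 * conj (PX764.th (x.2 * k)) * ∑ e ∈ (S E0).filter (fun e => e ∣ k),
        (mu e : ℂ) * ∑ e₁ ∈ dvs d, Fx E0 A x e e₁) =
      ∑ x ∈ J, om' x * (sy k x.1 * conj (PX764.th (x.2 * k)) *
        ∑ e ∈ (S E0).filter (fun e => e ∣ k), (mu e : ℂ) *
          ∑ d ∈ dvs e₀, (mu (e₀ / d) : ℂ) * ∑ e₁ ∈ dvs d, Fx E0 A x e e₁) := by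
    simp only [Finset.mul_sum]
    rw [Finset.sum_comm]
    refine Finset.sum_congr rfl fun x _ => ?_
    rw [Finset.sum_comm]
    refine Finset.sum_congr rfl fun e _ => Finset.sum_congr rfl fun d _ =>
      Finset.sum_congr rfl fun e₁ _ => ?_
    ring
  rw [e1]
  unfold E2440.StT
  rw [Finset.mul_sum]
  refine Finset.sum_congr rfl fun x _ => ?_
  rw [show ∀ a b c d : ℂ, a * (b * (c * d)) = b * (c * (a * d)) by intros; ring]
  congr 2
  rw [Finset.mul_sum]
  refine Finset.sum_congr rfl fun e _ => ?_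
  rw [inv_dvs he (Fx E0 A x e)]
  unfold Te Fx
  split_ifs <;> ring

set_option maxHeartbeats 1000000 in
/-- **the Gram sum of the shifted coefficients** -/
theorem gr_te {W : ℝ → ℝ} (hW0 : ∀ x, 0 ≤ W x) {b0 : ℝ} (hWb : ∀ x, W x ≠ 0 → x ≤ b0) {K : ℝ}
    (hK : 0 < K) {E0 E1 : ℝ} (hE0 : 0 ≤ E0) (hE1 : E0 ≤ E1) {J : Finset (Eis × Eis)} (hJ : OKJ J)
    (om : Eis × Eis → ℂ) {A : Eis × Eis → Eis → ℂ} (hA : TOK A) {e₀ : Eis} (he : e₀ ∈ S E0)
    (Pk : Eis → Prop) :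
    GrP W K (fun k => if CbF k ∧ Pk k ∧ IsCoprime e₀ k then StT E0 J om (Te E0 e₀ A) k else 0) ≤
      tau e₀ * ∑ d ∈ dvs e₀, GrP W (K * (nm d : ℝ) ^ 3) (fun k => if Cut E1 k then
        StT E0 J (fun x => om x * prin0 e₀ x.1) A k else 0) := by
  obtain ⟨hen, pe, se⟩ := (mem_S hE0).1 he
  set om' : Eis × Eis → ℂ := fun x => om x * prin0 e₀ x.1 with hom'
  set T := primBall ⌊b0 * K⌋₊ with hT
  have hz : ∀ k : Eis, IsPrim k → k ∉ T → W ((nm k : ℝ) / K) = 0 :=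
    fun k hk hn => tsum_fin hWb hK hk hn
  have e3 : GrP W K (fun k => if CbF k ∧ Pk k ∧ IsCoprime e₀ k then
      StT E0 J om (Te E0 e₀ A) k else 0) = ∑ k ∈ T, W ((nm k : ℝ) / K) *
        ‖(if CbF k ∧ Pk k ∧ IsCoprime e₀ k then StT E0 J om (Te E0 e₀ A) k else 0 : ℂ)‖ ^ 2 := by
    unfold LB48.GrP
    rw [tsum_eq_sum (s := T)]
    · exact Finset.sum_congr rfl fun k hk => if_pos (mem_primBall.1 hk).2
    · intro k hk
      by_cases h : IsPrim k
      · rw [if_pos h, hz k h hk, zero_mul]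
      · rw [if_neg h]
  rw [e3]
  have hmu1 : ‖(mu e₀ : ℂ)‖ = 1 := by
    rw [Complex.norm_intCast]
    have : |mu e₀| = 1 := by
      rw [abs_muE, if_pos se]
    exact_mod_cast this
  have hmule : ∀ n : Eis, ‖(mu n : ℂ)‖ ≤ 1 := by
    intro n
    rw [Complex.norm_intCast]
    have : |mu n| ≤ 1 := by rw [abs_muE]; split_ifs <;> norm_num
    exact_mod_cast this
  -- pointwise
  have hpt : ∀ k ∈ T, W ((nm k : ℝ) / K) *
      ‖(if CbF k ∧ Pk k ∧ IsCoprime e₀ k then StT E0 J om (Te E0 e₀ A) k else 0 : ℂ)‖ ^ 2 ≤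
      tau e₀ * ∑ d ∈ dvs e₀, W ((nm (d ^ 3 * k) : ℝ) / (K * (nm d : ℝ) ^ 3)) *
        ‖(if Cut E1 (d ^ 3 * k) then StT E0 J om' A (d ^ 3 * k) else 0 : ℂ)‖ ^ 2 := by
    intro k hk
    have pk := (mem_primBall.1 hk).2
    have hr : 0 ≤ (tau e₀ : ℝ) * ∑ d ∈ dvs e₀, W ((nm (d ^ 3 * k) : ℝ) / (K * (nm d : ℝ) ^ 3)) *
        ‖(if Cut E1 (d ^ 3 * k) then StT E0 J om' A (d ^ 3 * k) else 0 : ℂ)‖ ^ 2 :=
      mul_nonneg (Nat.cast_nonneg _) (Finset.sum_nonneg fun d _ =>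
        mul_nonneg (hW0 _) (by positivity))
    by_cases h : CbF k ∧ Pk k ∧ IsCoprime e₀ k
    swap
    · rw [if_neg h, norm_zero]
      simpa using hr
    rw [if_pos h]
    have h1 := StT_Te hE0 hJ om hA pe h.2.2.symm
    have h2 : ‖StT E0 J om (Te E0 e₀ A) k‖ ≤ ∑ d ∈ dvs e₀, ‖StT E0 J om' A (d ^ 3 * k)‖ := by
      calc ‖StT E0 J om (Te E0 e₀ A) k‖ = ‖(mu e₀ : ℂ) * StT E0 J om (Te E0 e₀ A) k‖ := by
            rw [norm_mul, hmu1, one_mul]
        _ ≤ _ := by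
            rw [h1]
            refine (norm_sum_le _ _).trans (Finset.sum_le_sum fun d _ => ?_)
            rw [norm_mul]
            exact mul_le_of_le_one_left (norm_nonneg _) (hmule _)
    have h3 : ‖StT E0 J om (Te E0 e₀ A) k‖ ^ 2 ≤
        tau e₀ * ∑ d ∈ dvs e₀, ‖StT E0 J om' A (d ^ 3 * k)‖ ^ 2 := by
      refine (pow_le_pow_left₀ (norm_nonneg _) h2 2).trans ?_
      exact sq_sum_le_card_mul_sum_sq
    refine (mul_le_mul_of_nonneg_left h3 (hW0 _)).trans (le_of_eq ?_)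
    rw [← mul_assoc, mul_comm (W _), mul_assoc, Finset.mul_sum]
    congr 1
    refine Finset.sum_congr rfl fun d hd => ?_
    obtain ⟨pd, hde⟩ := (mem_dvs pe.ne_zero).1 hd
    have nd : (0 : ℝ) < nm d := by exact_mod_cast nm_pos.2 pd.ne_zero
    have hcut : Cut E1 (d ^ 3 * k) := by
      intro f hf hfk
      have h4 : f ∣ d := dvd_of_cube_dvd pk pd hf h.1 (by rw [mul_comm]; exact hfk)
      have h5 : (nm f : ℝ) ≤ nm d := by exact_mod_cast Div277.nm_le_of_dvd pd.ne_zero h4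
      have h6 : (nm d : ℝ) ≤ nm e₀ := by exact_mod_cast Div277.nm_le_of_dvd pe.ne_zero hde
      linarith
    rw [if_pos hcut]
    congr 2
    rw [nm_mul, nm_pow]
    push_cast
    field_simp
  refine (Finset.sum_le_sum hpt).trans ?_
  rw [← Finset.mul_sum, Finset.sum_comm]
  refine mul_le_mul_of_nonneg_left (Finset.sum_le_sum fun d hd => ?_) (Nat.cast_nonneg _)
  obtain ⟨pd, hde⟩ := (mem_dvs pe.ne_zero).1 hd
  have nd : (0 : ℝ) < nm d := by exact_mod_cast nm_pos.2 pd.ne_zero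
  have hK' : 0 < K * (nm d : ℝ) ^ 3 := by positivity
  -- injection k ↦ d³ k
  set f : Eis → ℝ := fun k => if IsPrim k then W ((nm k : ℝ) / (K * (nm d : ℝ) ^ 3)) *
    ‖(if Cut E1 k then StT E0 J om' A k else 0 : ℂ)‖ ^ 2 else 0 with hf
  have hf0 : ∀ k, 0 ≤ f k := by
    intro k
    simp only [hf]
    split_ifs
    · exact mul_nonneg (hW0 _) (by positivity)
    · exact mul_nonneg (hW0 _) (by positivity)
    · exact le_rfl
  have hs : Summable f := by
    refine summable_of_hasFiniteSupport ((primBall ⌊b0 * (K * (nm d : ℝ) ^ 3)⌋₊).finite_toSet.subset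
      fun k hk => ?_)
    rw [Function.mem_support] at hk
    by_contra hn
    apply hk
    simp only [hf]
    by_cases h : IsPrim k
    · rw [if_pos h, tsum_fin hWb hK' h (by simpa using hn), zero_mul]
    · rw [if_neg h]
  have hinj : Set.InjOn (fun k : Eis => d ^ 3 * k) (T : Set Eis) := fun a _ b _ hab =>
    mul_left_cancel₀ (pow_ne_zero 3 pd.ne_zero) hab
  have pd3 : IsPrim (d ^ 3) := by
    rw [pow_succ, pow_two]; exact (pd.mul pd).mul pd
  calc ∑ k ∈ T, W ((nm (d ^ 3 * k) : ℝ) / (K * (nm d : ℝ) ^ 3)) *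
        ‖(if Cut E1 (d ^ 3 * k) then StT E0 J om' A (d ^ 3 * k) else 0 : ℂ)‖ ^ 2
      = ∑ k ∈ T, f (d ^ 3 * k) := by
        refine Finset.sum_congr rfl fun k hk => ?_
        simp only [hf]
        rw [if_pos (pd3.mul (mem_primBall.1 hk).2)]
    _ = ∑ k ∈ T.image (fun k => d ^ 3 * k), f k := by
        rw [Finset.sum_image hinj]
    _ ≤ ∑' k, f k := hs.sum_le_tsum _ fun k _ => hf0 k
    _ = _ := rfl

end Crest.Agent.R017.CubN994
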