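import Crest.Agent.R017.CubNe_994

/-!
# Row 17, the near-top part of the tail of (LB), part d (helper994): the theorem

* `nt_num` : the near-top sum, any weight `U`, from `SqQ` and from the Gram sum at the top family
* `NTs_split` : `NTs (GF (Fh F h)) = NTs (GF F) - e^(h/3) NTs (GF F) (K e^(-h))`
* `nt_h` : the same for the compensated weight
* `gr_ro` : the Gram input from the off-diagonal bound (Ro)
* `nt_ro` : `nt_h` with the Gram input replaced by (Ro) at `K` and `K e^(-h)`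
-/

set_option autoImplicit false

noncomputable section

open Complex MeasureTheory
open scoped ComplexConjugate Classical

namespace Crest.Agent.R017.CubN994

open Crest.Agent.R012 Crest.Agent.R012.Eis Crest.Agent.R012.MC
open Crest.Agent.R012.LS2 (S mem_S)
open Crest.Agent.R012.Mob705 (pdiv kap0 mu)
open Crest.Agent.R012.Div277 (tau dvs mem_dvs)
open Crest.Agent.R017.CM106 (CS TG FS)
open Crest.Agent.R017.End699 (prin0)
open Crest.Agent.R017.X6545 (TF)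
open Crest.Agent.R017.X6C180 (GF)
open Crest.Agent.R017.E1551 hiding tau Dg
open Crest.Agent.R017.C70 (JW JC OKJ okJ_JW CbF)
open Crest.Agent.R017.E2440 (TE StE StT TOK tok_TE Fh)
open Crest.Agent.R017.LB48 (CrP GrP)
open Crest.Agent.R017.E3M829 (Cut Tal Sg)
open Crest.Agent.R017.E3A164 (Ys Fy)
open Crest.Agent.R017.LBx48 (EHs EHc_nonneg)
open Crest.Agent.R017.LBX180 (EHf)
open Crest.Agent.R017.LBu180 (SqQ)
open Crest.Agent.R017.Ex385 (CrQ CrQ_split)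
open Crest.Agent.R017.CubL813 (prim_div)
open Crest.Agent.R017.CubP813 (alr omb Te NTs)

/-- the model on the multiples of `b`, prime to `e` -/
def omT (om : Eis × Eis → ℂ) (b e : Eis) : Eis × Eis → ℂ := fun x => omb om b x * prin0 e x.1

lemma norm_omT_le {om : Eis × Eis → ℂ} (hom : ∀ x, ‖om x‖ ≤ 1) (b e : Eis) (x : Eis × Eis) :
    ‖omT om b e x‖ ≤ 1 := by
  have h1 : ‖omb om b x‖ ≤ 1 := (CubP813.norm_omb_le om b x).trans (hom x)
  have h2 : ‖prin0 e x.1‖ ≤ 1 := by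
    unfold prin0
    split_ifs <;> simp
  unfold omT
  rw [norm_mul]
  exact mul_le_one₀ h1 (norm_nonneg _) h2

lemma GrP_zero {W : ℝ → ℝ} {b0 : ℝ} (hWb : ∀ x, W x ≠ 0 → x ≤ b0) {K : ℝ} (hK : 0 < K)
    {v : Eis → ℂ} (h : ∀ k, IsPrim k → (nm k : ℝ) ≤ b0 * K → v k = 0) : GrP W K v = 0 := by
  unfold LB48.GrP
  refine (tsum_congr fun k => ?_).trans tsum_zero
  by_cases hk : IsPrim k
  · rw [if_pos hk]
    by_cases hw : W ((nm k : ℝ) / K) = 0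
    · rw [hw, zero_mul]
    · have h1 := hWb _ hw
      rw [div_le_iff₀ hK] at h1
      rw [h k hk h1, norm_zero]
      ring
  · rw [if_neg hk]

lemma SqQ_zero {W : ℝ → ℝ} {b0 : ℝ} (hWb : ∀ x, W x ≠ 0 → x ≤ b0) {K : ℝ} (hK : 0 < K)
    {Q : Eis → Prop} (h : ∀ k, IsPrim k → (nm k : ℝ) ≤ b0 * K → ¬ Q k) (α : Eis → ℂ) :
    SqQ W K Q α = 0 := by
  unfold LBu180.SqQ
  refine (tsum_congr fun k => ?_).trans tsum_zero
  by_cases hk : IsPrim k ∧ Q k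
  · rw [if_pos hk]
    by_cases hw : W ((nm k : ℝ) / K) = 0
    · rw [hw, zero_mul]
    · have h1 := hWb _ hw
      rw [div_le_iff₀ hK] at h1
      exact absurd hk.2 (h k hk.1 h1)
  · rw [if_neg hk]

set_option maxHeartbeats 1000000 in
/-- **the near-top sum by numbers** -/
theorem nt_num {ε : ℝ} (hε : 0 < ε) : ∃ C κ : ℝ, 0 ≤ C ∧ 1 ≤ κ ∧
    ∀ (w w' : ℝ → ℝ) (b0 b1 : ℝ), (∀ x, 0 ≤ w x) → (∀ x, 0 ≤ w' x) → (∀ x, w x ≠ 0 → x ≤ b0) →
    (∀ x, w' x ≠ 0 → x ≤ b1) → (∀ x y, 1 ≤ y → y ≤ 2 → w x ≤ w' (x * y)) →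
    ∀ (U : ℝ → ℂ) (SU : ℝ), 0 ≤ SU → (∀ x, ‖U x‖ ≤ SU * w x) →
    ∀ (P K D E0 E1 L L2 Tm K2 As Bg : ℝ), 1 ≤ P → 0 < K → b0 * K ≤ P → b1 * K ≤ P → 0 ≤ E0 →
    E0 ≤ P → 0 ≤ L → L ≤ P → κ ≤ L2 → E0 ≤ L2 → D ≤ L2 → 1 ≤ Tm → Tm ≤ P →
    b0 * K ≤ K2 * Tm ^ 3 → 2 * E0 * Tm ≤ E1 → 0 ≤ As → 0 ≤ Bg →
    ∀ Pk : Eis → Prop, (∀ k, Pk k → K2 ≤ (nm k : ℝ)) →
    ∀ (α : Eis → ℂ) (J : Finset (Eis × Eis)), OKJ J → (∀ x ∈ J, (nm x.1 : ℝ) ≤ D) →
    ∀ (om : Eis × Eis → ℂ) (A : Eis × Eis → Eis → ℂ), TOK A →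
    (∀ g ∈ S L, L2 < nm g → ∀ a ∈ dvs g, (nm (g / a) : ℝ) ≤ D → ∀ e ∈ S E0, ∀ m, IsPrim m →
      (nm (g * e * m) : ℝ) ≤ Tm →
      SqQ w (K / (nm (g * e * m) : ℝ) ^ 3) (fun k => CbF k ∧ Pk k ∧ IsCoprime e k)
        (alr α a (g / a * e)) ≤ As * (nm (g * e * m) : ℝ)⁻¹) →
    (∀ b e : Eis, IsPrim b → IsPrim e →
      GrP w' K (fun k => if Cut E1 k then StT E0 J (omT om b e) A k else 0) ≤ Bg) →
    ‖∑ g ∈ (S L).filter (fun g => L2 < (nm g : ℝ)), (mu g : ℂ) * NTs U Pk K E0 α J om A g‖ ≤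
      C * P ^ ε * SU * √(As * (E0 * Bg)) := by
  have hε2 : 0 < ε / 2 := by positivity
  have hε4 : 0 < ε / 4 := by positivity
  obtain ⟨C₁, hC₁, H₁⟩ := nt_abs (s₁ := 1 / 2) (s₂ := 1 / 2) hε2 le_rfl (by norm_num)
  obtain ⟨C₂, κ, hC₂, hκ, H₂⟩ := gr_emb hε4
  obtain ⟨C₃, hC₃, H₃⟩ := E3M829.tau_Z hε4
  refine ⟨C₁ * (C₃ * (C₂ + 1)), κ, by positivity, hκ, ?_⟩
  intro w w' b0 b1 hw0 hw0' hwb hwb' hww U SU hSU hU P K D E0 E1 L L2 Tm K2 As Bg hP1 hK hbK hbK'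
    hE0 hE0P hL hLP hκL hE0L hDL hTm hTmP hK2 hE1 hAs hBg Pk hPk α J hJ hJD om A hA hS hG
  set z := P ^ (ε / 4) with hz
  have hz1 : 1 ≤ z := Real.one_le_rpow hP1 hε4.le
  have hz0 : 0 ≤ z := by linarith
  have hL21 : 1 ≤ L2 := hκ.trans hκL
  set N := E0 * Bg with hN
  have hN0 : 0 ≤ N := by positivity
  have hrp : ∀ y : ℝ, y ^ (-(2 * (1 / 2 : ℝ))) = y⁻¹ := by
    intro y
    rw [show (-(2 * (1 / 2 : ℝ))) = -1 by norm_num, Real.rpow_neg_one]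
  -- beyond `Tm` nothing
  have hnone : ∀ y : ℝ, Tm < y → ∀ (e k : Eis), IsPrim k → (nm k : ℝ) ≤ b0 * (K / y ^ 3) →
      ¬ (CbF k ∧ Pk k ∧ IsCoprime e k) := by
    intro y hy e k hk h1 h2
    have h3 := hPk k h2.2.1
    have h4 := nm_one_le hk
    have hy0 : 0 < y := by linarith
    have hT0 : 0 < Tm := by linarith
    have h5 : Tm ^ 3 < y ^ 3 := pow_lt_pow_left₀ hy hT0.le (by norm_num)
    have h6 : K2 * y ^ 3 ≤ b0 * K := by
      have : K2 ≤ b0 * (K / y ^ 3) := h3.trans h1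
      rw [mul_div_assoc'] at this
      exact (le_div_iff₀ (by positivity)).1 this
    have h7 : 0 < b0 * K := by
      have : 0 < b0 * (K / y ^ 3) := by linarith
      rw [mul_div_assoc'] at this
      exact (div_pos_iff_of_pos_right (by positivity)).1 this
    have h8 : 0 < K2 := by
      have : 0 < K2 * Tm ^ 3 := by linarith
      exact (pos_iff_pos_of_mul_pos this).2 (by positivity)
    have h9 : K2 * Tm ^ 3 < K2 * y ^ 3 := mul_lt_mul_of_pos_left h5 h8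
    linarith
  have main := H₁ w U SU b0 hw0 hSU hU hwb P K E0 L L2 D As ((C₃ * z) ^ 2 * ((C₂ + 1) * z * N))
    hP1 hK hbK hL hLP hE0 hE0P hL21 hAs (by positivity) Pk α J
    (fun x hx => ⟨hJ.prim x hx, hJD x hx⟩) om A ?_ ?_
  · refine main.trans ?_
    have q1 : As * ((C₃ * z) ^ 2 * ((C₂ + 1) * z * N)) ≤ (C₃ * (C₂ + 1) * z ^ 2) ^ 2 * (As * N) := by
      have a1 : (C₂ + 1) * z ≤ ((C₂ + 1) * z) ^ 2 := by
        have : 1 ≤ (C₂ + 1) * z := by nlinarith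
        nlinarith
      have a2 : 0 ≤ As * N := mul_nonneg hAs hN0
      have a3 : 0 ≤ (C₃ * z) ^ 2 := by positivity
      calc As * ((C₃ * z) ^ 2 * ((C₂ + 1) * z * N)) = (C₃ * z) ^ 2 * ((C₂ + 1) * z) * (As * N) := by
            ring
        _ ≤ (C₃ * z) ^ 2 * ((C₂ + 1) * z) ^ 2 * (As * N) :=
            mul_le_mul_of_nonneg_right (mul_le_mul_of_nonneg_left a1 a3) a2
        _ = _ := by ring
    have q2 : √(As * ((C₃ * z) ^ 2 * ((C₂ + 1) * z * N))) ≤ C₃ * (C₂ + 1) * z ^ 2 * √(As * N) := by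
      refine (Real.sqrt_le_sqrt q1).trans (le_of_eq ?_)
      rw [Real.sqrt_mul (by positivity), Real.sqrt_sq (by positivity)]
    have q3 : P ^ (ε / 2) = z ^ 2 := by
      rw [hz, ← Real.rpow_natCast, ← Real.rpow_mul (by linarith)]
      congr 1; push_cast; ring
    have q4 : P ^ ε = z ^ 4 := by
      rw [hz, ← Real.rpow_natCast, ← Real.rpow_mul (by linarith)]
      congr 1; push_cast; ring
    rw [neg_zero, Real.rpow_zero, mul_one]
    calc C₁ * P ^ (ε / 2) * SU * √(As * ((C₃ * z) ^ 2 * ((C₂ + 1) * z * N))) ≤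
          C₁ * P ^ (ε / 2) * SU * (C₃ * (C₂ + 1) * z ^ 2 * √(As * N)) := by
          have : 0 ≤ C₁ * P ^ (ε / 2) * SU := by positivity
          gcongr
      _ = _ := by rw [q3, q4]; ring
  · -- SqQ
    intro g hg hg2 a ha hgD e he m hm hc
    rw [hrp]
    by_cases hT : (nm (g * e * m) : ℝ) ≤ Tm
    · exact hS g hg hg2 a ha hgD e he m hm hT
    · rw [not_le] at hT
      have n5 : (0 : ℝ) < nm (g * e * m) := by linarith
      rw [SqQ_zero hwb (by positivity) (fun k hk h => hnone _ hT e k hk h)]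
      positivity
  · -- GrP
    intro g hg hg2 a ha hgD e he m hm hc
    rw [hrp]
    obtain ⟨-, pg, sg⟩ := (mem_S hL).1 hg
    obtain ⟨nE, pe, se⟩ := (mem_S hE0).1 he
    have pb : IsPrim (g / a) := prim_div pg ha
    have n1 := nm_one_le pg
    have n2 := nm_one_le pe
    have n3 := nm_one_le hm
    have e1 : (nm (g * e * m) : ℝ) = nm g * nm e * nm m := by
      rw [nm_mul, nm_mul]; push_cast; ring
    by_cases hT : (nm (g * e * m) : ℝ) ≤ Tm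
    swap
    · rw [not_le] at hT
      have n5 : (0 : ℝ) < nm (g * e * m) := by linarith
      rw [GrP_zero hwb (by positivity) (fun k hk h => if_neg (hnone _ hT e k hk h))]
      positivity
    have hge : (nm g : ℝ) * nm e ≤ nm (g * e * m) := by
      rw [e1]
      exact le_mul_of_one_le_right (by positivity) n3
    have n4 : (nm g : ℝ) ≤ nm (g * e * m) :=
      (le_mul_of_one_le_right (by linarith) n2).trans hge
    set y := (nm (g * e * m) : ℝ) with hy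
    have y1 : 1 ≤ y := n1.trans n4
    have y0 : 0 < y := by linarith
    have hK' : 0 < K / y ^ 3 := by positivity
    have b1' := gr_te hw0 hwb hK' hE0 le_rfl hJ (omb om (g / a)) hA he Pk
    refine b1'.trans ?_
    have htau : (tau e : ℝ) ≤ C₃ * z := H₃ P hP1 e (nE.trans hE0P)
    -- one d
    have hd : ∀ d ∈ dvs e, GrP w (K / y ^ 3 * (nm d : ℝ) ^ 3) (fun k => if Cut E0 k then
        StT E0 J (fun x => omb om (g / a) x * prin0 e x.1) A k else 0) ≤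
        (C₂ + 1) * z * N * y⁻¹ := by
      intro d hd
      obtain ⟨pd, hde⟩ := (mem_dvs pe.ne_zero).1 hd
      have nd := nm_one_le pd
      have nd0 : (0 : ℝ) < nm d := by linarith
      have nde : (nm d : ℝ) ≤ nm e := by exact_mod_cast Div277.nm_le_of_dvd pe.ne_zero hde
      set r := y / (nm d : ℝ) with hr
      have hr0 : 0 < r := by positivity
      have hrg : (nm g : ℝ) ≤ r := by
        rw [hr, le_div_iff₀ nd0]
        calc (nm g : ℝ) * nm d ≤ nm g * nm e := mul_le_mul_of_nonneg_left nde (by linarith)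
          _ ≤ y := hge
      have hrL : L2 ≤ r := hg2.le.trans hrg
      have hry : r ≤ y := div_le_self y0.le nd
      have hrT : r ≤ Tm := hry.trans hT
      have e2 : K / y ^ 3 * (nm d : ℝ) ^ 3 = K / r ^ 3 := by
        rw [hr]; field_simp
      have hE1r : 2 * E0 * r ≤ E1 := (mul_le_mul_of_nonneg_left hrT (by positivity)).trans hE1
      have c1 := H₂ w w' b0 b1 hw0 hw0' hwb hwb' hww P K E0 D r hP1 hK hbK' hE0 (hκL.trans hrL)
        (hrT.trans hTmP) (hE0L.trans hrL) (hDL.trans hrL) J hJ hJD (omT om (g / a) e) A E1 hE1r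
      have c2 := hG (g / a) e pb pe
      rw [e2]
      refine c1.trans ?_
      have k1 : r⁻¹ ≤ E0 * y⁻¹ := by
        rw [hr, inv_div, div_eq_mul_inv]
        exact mul_le_mul_of_nonneg_right (nde.trans nE) (by positivity)
      have k2 : 0 ≤ r⁻¹ := by positivity
      calc C₂ * P ^ (ε / 4) * r⁻¹ * GrP w' K (fun k => if Cut E1 k then
            StT E0 J (omT om (g / a) e) A k else 0) ≤ C₂ * z * r⁻¹ * Bg :=
            mul_le_mul_of_nonneg_left c2 (by positivity)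
        _ ≤ C₂ * z * (E0 * y⁻¹) * Bg := by gcongr
        _ ≤ (C₂ + 1) * z * (E0 * y⁻¹) * Bg := by
            have : 0 ≤ z * (E0 * y⁻¹) * Bg := by positivity
            nlinarith
        _ = _ := by rw [hN]; ring
    have hcard : ∑ d ∈ dvs e, GrP w (K / y ^ 3 * (nm d : ℝ) ^ 3) (fun k => if Cut E0 k then
        StT E0 J (fun x => omb om (g / a) x * prin0 e x.1) A k else 0) ≤
        tau e * ((C₂ + 1) * z * N * y⁻¹) := by
      refine (Finset.sum_le_sum hd).trans (le_of_eq ?_)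
      rw [Finset.sum_const, nsmul_eq_mul]
      rfl
    have ht0 : (0 : ℝ) ≤ tau e := Nat.cast_nonneg _
    have hq : 0 ≤ (C₂ + 1) * z * N * y⁻¹ := by positivity
    calc (tau e : ℝ) * ∑ d ∈ dvs e, GrP w (K / y ^ 3 * (nm d : ℝ) ^ 3) (fun k =>
          if Cut E0 k then StT E0 J (fun x => omb om (g / a) x * prin0 e x.1) A k
          else 0) ≤ tau e * (tau e * ((C₂ + 1) * z * N * y⁻¹)) :=
          mul_le_mul_of_nonneg_left hcard ht0
      _ ≤ (C₃ * z) * ((C₃ * z) * ((C₂ + 1) * z * N * y⁻¹)) := by gcongr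
      _ = _ := by ring

/-! ### the compensated weight -/

lemma TF_top {F : ℝ → ℂ} (hF : TF F) : ∀ x, GF F x ≠ 0 → x ≤ Real.exp 2 := by
  intro x hx
  unfold X6C180.GF at hx
  split_ifs at hx with h
  · have h1 : |Real.log x| ≤ 2 := by
      by_contra hc
      exact hx (hF.supp _ (not_le.mp hc))
    rw [← Real.log_le_iff_le_exp h]
    exact (le_abs_self _).trans h1
  · exact absurd rfl hx

/-- one family of the `m`-sum is finite -/
lemma sum_m {U : ℝ → ℂ} {b0 : ℝ} (hU : ∀ x, U x ≠ 0 → x ≤ b0) {K : ℝ} (hK : 0 < K) {g e₀ : Eis}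
    (hg : IsPrim g) (he : IsPrim e₀) (Q : Eis → Prop) (α u : Eis → ℂ) :
    Summable fun m : Eis => if IsPrim m then
      CrQ U Q (K / (nm (g * e₀ * m) : ℝ) ^ 3) α u else 0 := by
  refine summable_of_hasFiniteSupport ((primBall ⌊b0 * K⌋₊).finite_toSet.subset fun m hm => ?_)
  rw [Function.mem_support] at hm
  by_cases hp : IsPrim m
  · rw [if_pos hp] at hm
    have n1 := nm_one_le hg
    have n2 := nm_one_le he
    have n3 := nm_one_le hp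
    have e1 : (nm (g * e₀ * m) : ℝ) = nm g * nm e₀ * nm m := by
      rw [nm_mul, nm_mul]; push_cast; ring
    have n4 : (nm m : ℝ) ≤ nm (g * e₀ * m) := by
      rw [e1]
      calc (nm m : ℝ) = 1 * 1 * nm m := by ring
        _ ≤ nm g * nm e₀ * nm m := by gcongr
    have n5 : (0 : ℝ) < nm (g * e₀ * m) := by linarith
    have h1 : ¬ b0 * (K / (nm (g * e₀ * m) : ℝ) ^ 3) < 1 := fun h =>
      hm (CrQ_zero hU (by positivity) h _ _ _)
    rw [not_lt, mul_div_assoc', one_le_div (by positivity)] at h1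
    have h2 : (nm (g * e₀ * m) : ℝ) ≤ (nm (g * e₀ * m) : ℝ) ^ 3 := by
      have : (1 : ℝ) ≤ nm (g * e₀ * m) := by linarith
      nlinarith [mul_self_nonneg ((nm (g * e₀ * m) : ℝ) - 1), this]
    simp only [Finset.mem_coe, mem_primBall]
    exact ⟨Nat.le_floor (by linarith), hp⟩
  · rw [if_neg hp] at hm
    exact absurd rfl hm

/-- **the second scale of `NTs`** -/
theorem NTs_split {F : ℝ → ℂ} (hF : TF F) {h : ℝ} (hh : 0 ≤ h) (Pk : Eis → Prop) {K : ℝ}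
    (hK : 0 < K) {E0 : ℝ} (hE0 : 0 ≤ E0) (α : Eis → ℂ) (J : Finset (Eis × Eis))
    (om : Eis × Eis → ℂ) (T : Eis × Eis → Eis → ℂ) {g : Eis} (hg : IsPrim g) :
    NTs (GF (Fh F h)) Pk K E0 α J om T g = NTs (GF F) Pk K E0 α J om T g -
      ((Real.exp (h / 3) : ℝ) : ℂ) * NTs (GF F) Pk (K * Real.exp (-h)) E0 α J om T g := by
  have hE := Real.exp_pos (-h)
  have hK' : 0 < K * Real.exp (-h) := by positivity
  unfold CubP813.NTs
  rw [Finset.mul_sum, ← Finset.sum_sub_distrib]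
  refine Finset.sum_congr rfl fun a _ => ?_
  rw [Finset.mul_sum, ← Finset.sum_sub_distrib]
  refine Finset.sum_congr rfl fun e₀ he₀ => ?_
  have pe := ((mem_S hE0).1 he₀).2.1
  have s1 := sum_m (TF_top hF) hK hg pe (fun k => CbF k ∧ Pk k ∧ IsCoprime e₀ k)
    (alr α a (g / a * e₀)) (StT E0 J (omb om (g / a)) (Te E0 e₀ T))
  have s2 := sum_m (TF_top hF) hK' hg pe (fun k => CbF k ∧ Pk k ∧ IsCoprime e₀ k)
    (alr α a (g / a * e₀)) (StT E0 J (omb om (g / a)) (Te E0 e₀ T))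
  rw [mul_left_comm, ← mul_sub]
  congr 1
  rw [← tsum_mul_left, ← s1.tsum_sub (s2.mul_left _)]
  refine tsum_congr fun m => ?_
  by_cases hm : IsPrim m
  · rw [if_pos hm, if_pos hm, if_pos hm]
    have n5 : (0 : ℝ) < nm (g * e₀ * m) := by
      exact_mod_cast nm_pos.2 ((hg.mul pe).mul hm).ne_zero
    have hc := CrQ_split hF hh (fun k => CbF k ∧ Pk k ∧ IsCoprime e₀ k)
      (K := K / (nm (g * e₀ * m) : ℝ) ^ 3) (by positivity)
      (alr α a (g / a * e₀)) (StT E0 J (omb om (g / a)) (Te E0 e₀ T))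
    have e1 : K / (nm (g * e₀ * m) : ℝ) ^ 3 * Real.exp (-h) =
        K * Real.exp (-h) / (nm (g * e₀ * m) : ℝ) ^ 3 := by ring
    rw [e1] at hc
    rw [hc]
    ring
  · rw [if_neg hm, if_neg hm, if_neg hm]
    simp

set_option maxHeartbeats 1000000 in
/-- **the near-top sum by numbers, compensated weight** -/
theorem nt_h {ε : ℝ} (hε : 0 < ε) : ∃ C κ : ℝ, 0 ≤ C ∧ 1 ≤ κ ∧
    ∀ (w w' : ℝ → ℝ) (b0 b1 : ℝ), (∀ x, 0 ≤ w x) → (∀ x, 0 ≤ w' x) → (∀ x, w x ≠ 0 → x ≤ b0) →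
    (∀ x, w' x ≠ 0 → x ≤ b1) → (∀ x y, 1 ≤ y → y ≤ 2 → w x ≤ w' (x * y)) →
    ∀ (F : ℝ → ℂ) (SU : ℝ), TF F → 0 ≤ SU → (∀ x, ‖GF F x‖ ≤ SU * w x) →
    ∀ (P K D E0 E1 L L2 Tm K2 As Bg h : ℝ), 1 ≤ P → 0 < K → b0 * K ≤ P → b1 * K ≤ P → 0 ≤ E0 →
    E0 ≤ P → 0 ≤ L → L ≤ P → κ ≤ L2 → E0 ≤ L2 → D ≤ L2 → 1 ≤ Tm → Tm ≤ P → 0 ≤ K2 →
    b0 * K ≤ K2 * Tm ^ 3 → 2 * E0 * Tm ≤ E1 → 0 ≤ As → 0 ≤ Bg → 0 ≤ h →
    ∀ Pk : Eis → Prop, (∀ k, Pk k → K2 ≤ (nm k : ℝ)) →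
    ∀ (α : Eis → ℂ) (J : Finset (Eis × Eis)), OKJ J → (∀ x ∈ J, (nm x.1 : ℝ) ≤ D) →
    ∀ (om : Eis × Eis → ℂ) (A : Eis × Eis → Eis → ℂ), TOK A →
    (∀ s : ℝ, (s = 0 ∨ s = h) →
      ∀ g ∈ S L, L2 < nm g → ∀ a ∈ dvs g, (nm (g / a) : ℝ) ≤ D → ∀ e ∈ S E0, ∀ m, IsPrim m →
      (nm (g * e * m) : ℝ) ≤ Tm →
      SqQ w (K * Real.exp (-s) / (nm (g * e * m) : ℝ) ^ 3)
        (fun k => CbF k ∧ Pk k ∧ IsCoprime e k)
        (alr α a (g / a * e)) ≤ As * Real.exp (-(s / 3)) * (nm (g * e * m) : ℝ)⁻¹) →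
    (∀ s : ℝ, (s = 0 ∨ s = h) → ∀ b e : Eis, IsPrim b → IsPrim e →
      GrP w' (K * Real.exp (-s)) (fun k => if Cut E1 k then StT E0 J (omT om b e) A k else 0) ≤
        Bg * Real.exp (-(s / 3))) →
    ‖∑ g ∈ (S L).filter (fun g => L2 < (nm g : ℝ)), (mu g : ℂ) *
        NTs (GF (Fh F h)) Pk K E0 α J om A g‖ ≤ C * P ^ ε * SU * √(As * (E0 * Bg)) := by
  obtain ⟨C, κ, hC, hκ, H⟩ := nt_num hε
  refine ⟨2 * C, κ, by positivity, hκ, ?_⟩
  intro w w' b0 b1 hw0 hw0' hwb hwb' hww F SU hF hSU hU P K D E0 E1 L L2 Tm K2 As Bg h hP1 hK hbK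
    hbK' hE0 hE0P hL hLP hκL hE0L hDL hTm hTmP hK20 hK2 hE1 hAs hBg hh Pk hPk α J hJ hJD om A hA
    hS hG
  have hE := Real.exp_pos (-h)
  have hE3 := Real.exp_pos (-(h / 3))
  have hEle : Real.exp (-h) ≤ 1 := Real.exp_le_one_iff.2 (by linarith)
  have hK' : 0 < K * Real.exp (-h) := by positivity
  have hK'K : K * Real.exp (-h) ≤ K := mul_le_of_le_one_right hK.le hEle
  have hb : ∀ b R : ℝ, 0 ≤ R → b * K ≤ R → b * (K * Real.exp (-h)) ≤ R := by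
    intro b R hR hbR
    by_cases hb : 0 ≤ b
    · exact (mul_le_mul_of_nonneg_left hK'K hb).trans hbR
    · have : b * (K * Real.exp (-h)) ≤ 0 := mul_nonpos_of_nonpos_of_nonneg (not_le.1 hb).le hK'.le
      linarith
  have a1 := H w w' b0 b1 hw0 hw0' hwb hwb' hww (GF F) SU hSU hU P K D E0 E1 L L2 Tm K2 As Bg hP1
    hK hbK hbK' hE0 hE0P hL hLP hκL hE0L hDL hTm hTmP hK2 hE1 hAs hBg Pk hPk α J hJ hJD om A hA
    (fun g hg hg2 a ha hgD e he m hm hT => by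
      have := hS 0 (Or.inl rfl) g hg hg2 a ha hgD e he m hm hT
      simpa using this)
    (fun b e hb he => by
      have := hG 0 (Or.inl rfl) b e hb he
      simpa using this)
  have a2 := H w w' b0 b1 hw0 hw0' hwb hwb' hww (GF F) SU hSU hU P (K * Real.exp (-h)) D E0 E1 L
    L2 Tm K2 (As * Real.exp (-(h / 3))) (Bg * Real.exp (-(h / 3))) hP1
    hK' (hb b0 P (by linarith) hbK) (hb b1 P (by linarith) hbK') hE0 hE0P hL hLP hκL hE0L hDL hTm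
    hTmP (hb b0 _ (by positivity) hK2) hE1 (by positivity) (by positivity) Pk hPk α J hJ hJD om A
    hA (hS h (Or.inr rfl)) (hG h (Or.inr rfl))
  -- the split
  have hsplit : ∑ g ∈ (S L).filter (fun g => L2 < (nm g : ℝ)), (mu g : ℂ) *
        NTs (GF (Fh F h)) Pk K E0 α J om A g =
      ∑ g ∈ (S L).filter (fun g => L2 < (nm g : ℝ)), (mu g : ℂ) *
        NTs (GF F) Pk K E0 α J om A g -
      ((Real.exp (h / 3) : ℝ) : ℂ) * ∑ g ∈ (S L).filter (fun g => L2 < (nm g : ℝ)), (mu g : ℂ) *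
        NTs (GF F) Pk (K * Real.exp (-h)) E0 α J om A g := by
    rw [Finset.mul_sum, ← Finset.sum_sub_distrib]
    refine Finset.sum_congr rfl fun g hg => ?_
    rw [NTs_split hF hh Pk hK hE0 α _ om A ((mem_S hL).1 (Finset.mem_filter.1 hg).1).2.1]
    ring
  rw [hsplit]
  refine (norm_sub_le _ _).trans ?_
  rw [norm_mul, Complex.norm_real, Real.norm_of_nonneg (Real.exp_pos _).le]
  have c2 : Real.exp (h / 3) * √(As * Real.exp (-(h / 3)) * (E0 * (Bg * Real.exp (-(h / 3))))) =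
      √(As * (E0 * Bg)) := by
    have e2 : Real.exp (h / 3) * Real.exp (-(h / 3)) = 1 := by
      rw [← Real.exp_add]; simp
    have e3 : As * Real.exp (-(h / 3)) * (E0 * (Bg * Real.exp (-(h / 3)))) =
        (Real.exp (-(h / 3))) ^ 2 * (As * (E0 * Bg)) := by ring
    rw [e3, Real.sqrt_mul (by positivity), Real.sqrt_sq (Real.exp_pos _).le, ← mul_assoc, e2,
      one_mul]
  have a2' := mul_le_mul_of_nonneg_left a2 (Real.exp_pos (h / 3)).le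
  calc _ ≤ C * P ^ ε * SU * √(As * (E0 * Bg)) + Real.exp (h / 3) * (C * P ^ ε * SU *
          √(As * Real.exp (-(h / 3)) * (E0 * (Bg * Real.exp (-(h / 3)))))) := add_le_add a1 a2'
    _ = C * P ^ ε * SU * √(As * (E0 * Bg)) + C * P ^ ε * SU * (Real.exp (h / 3) *
          √(As * Real.exp (-(h / 3)) * (E0 * (Bg * Real.exp (-(h / 3)))))) := by ring
    _ = _ := by rw [c2]; ring

/-! ### the Gram input from (Ro) -/

set_option maxHeartbeats 1000000 in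
/-- **the Gram input from (Ro)** -/
theorem gr_ro {w : ℝ → ℝ} (hw : Wgt w) (hw0 : ∀ x, 0 ≤ w x) {R : ℝ} (hR : 0 ≤ R) {A : ℕ}
    (hA : 2 ≤ A) {ε : ℝ} (hε : 0 < ε) : ∃ C : ℝ, 0 ≤ C ∧
    ∀ (P K X Y D Y₀ Z E0 E1 B s : ℝ), 1 ≤ P → 0 < K → K ≤ P → 0 < X → 1 ≤ Y → Y ≤ P →
    0 ≤ D → D ≤ P → 0 < Z → Z ≤ P → 0 ≤ E0 → E0 ≤ Y → 1 ≤ B → 0 ≤ s →
    Z ≤ (K * Real.exp (-s)) ^ 2 →
    ∀ α : Eis → ℂ, Adm Y X R α → ∀ om : Eis × Eis → ℂ, (∀ x, ‖om x‖ ≤ 1) → ∀ OFF : ℝ,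
    Sg w (K * Real.exp (-s)) B Z E1 (fun q t k₁ => ‖∑ y ∈ Ys (JW D Y₀ Z) E0 Z,
        Fy (JW D Y₀ Z) om (Tal α) q t k₁ y‖ ^ 2) ≤
      Sg w (K * Real.exp (-s)) B Z E1
        (fun q t k₁ => E3M829.Dg (JW D Y₀ Z) om (Tal α) E0 Z q t k₁) +
        OFF * Real.exp (-(s / 3)) →
    GrP w (K * Real.exp (-s)) (fun k => if Cut E1 k then StT E0 (JW D Y₀ Z) om (TE α) k else 0) ≤
      (C * P ^ ε * (K / X * (EHf A K X Y Z α + EHs A K X Y Z E0 α)) + OFF) *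
        Real.exp (-(s / 3)) := by
  obtain ⟨C, hC, H⟩ := gr_near hw hw0 hR hA hε
  refine ⟨C, hC, ?_⟩
  intro P K X Y D Y₀ Z E0 E1 B s hP1 hK hKP hX hY hYP hD hDP hZ hZP hE0 hE0Y hB hs hZK α hα om hom
    OFF hoff
  have h1 := H P K X Y D Y₀ Z E0 E1 B (Real.exp (-s)) hP1 hK hKP hX hY hYP hD hDP hZ hZP hE0 hE0Y
    hB (Real.exp_pos _) (Real.exp_le_one_iff.2 (by linarith)) hZK α hα om hom (fun k => Cut E1 k)
    (fun k _ _ h => h) (OFF * Real.exp (-(s / 3))) hoff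
  have e1 : (fun k => if Cut E1 k then StT E0 (JW D Y₀ Z) om (TE α) k else 0) =
      (fun k => if Cut E1 k then StE E0 (JW D Y₀ Z) om α k else 0) := rfl
  rw [e1]
  refine h1.trans ?_
  have f0 : 0 ≤ EHf A K X Y Z α := EHc_nonneg (fun n => by positivity) _ hK.le hX.le α
  have s0 : 0 ≤ EHs A K X Y Z E0 α := EHc_nonneg (fun n => Nat.cast_nonneg n) _ hK.le hX.le α
  have e2 : (Real.exp (-s)) ^ (2 / 3 : ℝ) ≤ Real.exp (-(s / 3)) := by
    rw [← Real.exp_mul]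
    exact Real.exp_le_exp.2 (by linarith)
  have hM : 0 ≤ K / X * (EHf A K X Y Z α + EHs A K X Y Z E0 α) := by positivity
  calc C * P ^ ε * (Real.exp (-s)) ^ (2 / 3 : ℝ) *
        (K / X * (EHf A K X Y Z α + EHs A K X Y Z E0 α)) + OFF * Real.exp (-(s / 3)) ≤
        C * P ^ ε * Real.exp (-(s / 3)) * (K / X * (EHf A K X Y Z α + EHs A K X Y Z E0 α)) +
        OFF * Real.exp (-(s / 3)) := by gcongr
    _ = _ := by ring

set_option maxHeartbeats 1000000 in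
/-- **the near-top sum by numbers, compensated weight, the Gram input by (Ro) at `K`, `K e^(-h)`** -/
theorem nt_ro {w' : ℝ → ℝ} (hw' : Wgt w') (hw0' : ∀ x, 0 ≤ w' x) {b1 : ℝ}
    (hwb' : ∀ x, w' x ≠ 0 → x ≤ b1) {R : ℝ} (hR : 0 ≤ R) {Aw : ℕ}
    (hAw : 2 ≤ Aw) {ε : ℝ} (hε : 0 < ε) : ∃ C κ : ℝ, 0 ≤ C ∧ 1 ≤ κ ∧
    ∀ (w : ℝ → ℝ) (b0 : ℝ), (∀ x, 0 ≤ w x) → (∀ x, w x ≠ 0 → x ≤ b0) →
    (∀ x y, 1 ≤ y → y ≤ 2 → w x ≤ w' (x * y)) →
    ∀ (F : ℝ → ℂ) (SU : ℝ), TF F → 0 ≤ SU → (∀ x, ‖GF F x‖ ≤ SU * w x) →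
    ∀ (P K X Y D Y₀ Z E0 E1 B L L2 Tm K2 As OFF h : ℝ), 1 ≤ P → 0 < K → K ≤ P → b0 * K ≤ P →
    b1 * K ≤ P → 0 < X → 1 ≤ Y → Y ≤ P → 0 ≤ D → D ≤ P → 0 < Z → Z ≤ P → 0 ≤ E0 → E0 ≤ Y →
    1 ≤ B → 0 ≤ L → L ≤ P → κ ≤ L2 → E0 ≤ L2 → D ≤ L2 → 1 ≤ Tm → Tm ≤ P → 0 ≤ K2 →
    b0 * K ≤ K2 * Tm ^ 3 → 2 * E0 * Tm ≤ E1 → 0 ≤ As → 0 ≤ OFF → 0 ≤ h →
    Z ≤ (K * Real.exp (-h)) ^ 2 →
    ∀ Pk : Eis → Prop, (∀ k, Pk k → K2 ≤ (nm k : ℝ)) →
    ∀ α : Eis → ℂ, Adm Y X R α → ∀ om : Eis × Eis → ℂ, (∀ x, ‖om x‖ ≤ 1) →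
    (∀ s : ℝ, (s = 0 ∨ s = h) →
      ∀ g ∈ S L, L2 < nm g → ∀ a ∈ dvs g, (nm (g / a) : ℝ) ≤ D → ∀ e ∈ S E0, ∀ m, IsPrim m →
      (nm (g * e * m) : ℝ) ≤ Tm →
      SqQ w (K * Real.exp (-s) / (nm (g * e * m) : ℝ) ^ 3)
        (fun k => CbF k ∧ Pk k ∧ IsCoprime e k)
        (alr α a (g / a * e)) ≤ As * Real.exp (-(s / 3)) * (nm (g * e * m) : ℝ)⁻¹) →
    (∀ s : ℝ, (s = 0 ∨ s = h) → ∀ b e : Eis, IsPrim b → IsPrim e →
      Sg w' (K * Real.exp (-s)) B Z E1 (fun q t k₁ => ‖∑ y ∈ Ys (JW D Y₀ Z) E0 Z,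
        Fy (JW D Y₀ Z) (omT om b e) (Tal α) q t k₁ y‖ ^ 2) ≤
      Sg w' (K * Real.exp (-s)) B Z E1
        (fun q t k₁ => E3M829.Dg (JW D Y₀ Z) (omT om b e) (Tal α) E0 Z q t k₁) +
        OFF * Real.exp (-(s / 3))) →
    ‖∑ g ∈ (S L).filter (fun g => L2 < (nm g : ℝ)), (mu g : ℂ) *
        NTs (GF (Fh F h)) Pk K E0 α (JW D Y₀ Z) om (TE α) g‖ ≤
      C * P ^ ε * SU * √(As * (E0 * (K / X * (EHf Aw K X Y Z α + EHs Aw K X Y Z E0 α) + OFF))) := by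
  have hε2 : 0 < ε / 2 := by positivity
  obtain ⟨C₁, κ, hC₁, hκ, H₁⟩ := nt_h hε2
  obtain ⟨C₂, hC₂, H₂⟩ := gr_ro hw' hw0' hR hAw hε2
  refine ⟨C₁ * (C₂ + 1), κ, by positivity, hκ, ?_⟩
  intro w b0 hw0 hwb hww F SU hF hSU hU P K X Y D Y₀ Z E0 E1 B L L2 Tm K2 As OFF h hP1 hK hKP hbK
    hbK' hX hY hYP hD hDP hZ hZP hE0 hE0Y hB hL hLP hκL hE0L hDL hTm hTmP hK20 hK2 hE1 hAs hOFF hh
    hZK Pk hPk α hα om hom hS hRo
  have hY0 : 0 ≤ Y := by linarith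
  have hE0P : E0 ≤ P := hE0Y.trans hYP
  obtain ⟨I, hI⟩ := pow_unbounded_of_one_lt Z (by norm_num : (1 : ℝ) < 2)
  have hJok : OKJ (JW D Y₀ Z) := okJ_JW D Y₀ Z
  have hJD : ∀ x ∈ JW D Y₀ Z, (nm x.1 : ℝ) ≤ D := fun x hx =>
    ((mem_S hD).1 (I1146.JW_mem (Y₀ := Y₀) hD hZ hI x hx).1).1
  have hTOK : TOK (TE α) := tok_TE fun n hn => ((mem_S hY0).1 (hα.sup n hn)).2.2
  set M := K / X * (EHf Aw K X Y Z α + EHs Aw K X Y Z E0 α) with hM
  have f0 : 0 ≤ EHf Aw K X Y Z α := EHc_nonneg (fun n => by positivity) _ hK.le hX.le α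
  have s0 : 0 ≤ EHs Aw K X Y Z E0 α := EHc_nonneg (fun n => Nat.cast_nonneg n) _ hK.le hX.le α
  have hM0 : 0 ≤ M := by positivity
  have hPe : 1 ≤ P ^ (ε / 2) := Real.one_le_rpow hP1 hε2.le
  have hPe0 : 0 ≤ P ^ (ε / 2) := by linarith
  have main := H₁ w w' b0 b1 hw0 hw0' hwb hwb' hww F SU hF hSU hU P K D E0 E1 L L2 Tm K2 As
    (C₂ * P ^ (ε / 2) * M + OFF) h hP1 hK hbK hbK' hE0 hE0P hL hLP hκL hE0L hDL hTm hTmP hK20 hK2
    hE1 hAs (by positivity) hh Pk hPk α (JW D Y₀ Z) hJok hJD om (TE α) hTOK hS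
    (fun s hs b e hb he => by
      have hs0 : 0 ≤ s := by
        rcases hs with rfl | rfl
        · exact le_rfl
        · exact hh
      have hsh : Real.exp (-h) ≤ Real.exp (-s) := by
        refine Real.exp_le_exp.2 ?_
        rcases hs with rfl | rfl
        · linarith
        · exact le_rfl
      refine H₂ P K X Y D Y₀ Z E0 E1 B s hP1 hK hKP hX hY hYP hD hDP hZ hZP hE0 hE0Y hB hs0 ?_ α hα
        (omT om b e) (norm_omT_le hom _ _) OFF (hRo s hs b e hb he)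
      refine hZK.trans (pow_le_pow_left₀ (mul_pos hK (Real.exp_pos _)).le ?_ 2)
      exact mul_le_mul_of_nonneg_left hsh hK.le)
  refine main.trans ?_
  have q1 : As * (E0 * (C₂ * P ^ (ε / 2) * M + OFF)) ≤
      ((C₂ + 1) * P ^ (ε / 2)) ^ 2 * (As * (E0 * (M + OFF))) := by
    have a1 : C₂ * P ^ (ε / 2) * M + OFF ≤ (C₂ + 1) * P ^ (ε / 2) * (M + OFF) := by
      have k1 : 0 ≤ P ^ (ε / 2) * M := by positivity
      have k2 : 0 ≤ C₂ * P ^ (ε / 2) * OFF := by positivity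
      have k3 : OFF ≤ P ^ (ε / 2) * OFF := le_mul_of_one_le_left hOFF hPe
      nlinarith
    have a2 : 1 ≤ (C₂ + 1) * P ^ (ε / 2) := by nlinarith
    have a3 : (C₂ + 1) * P ^ (ε / 2) ≤ ((C₂ + 1) * P ^ (ε / 2)) ^ 2 := by nlinarith
    have a4 : 0 ≤ M + OFF := by positivity
    calc As * (E0 * (C₂ * P ^ (ε / 2) * M + OFF)) ≤
          As * (E0 * (((C₂ + 1) * P ^ (ε / 2)) ^ 2 * (M + OFF))) := by
          refine mul_le_mul_of_nonneg_left (mul_le_mul_of_nonneg_left ?_ hE0) hAs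
          exact a1.trans (mul_le_mul_of_nonneg_right a3 a4)
      _ = _ := by ring
  have q2 : √(As * (E0 * (C₂ * P ^ (ε / 2) * M + OFF))) ≤
      (C₂ + 1) * P ^ (ε / 2) * √(As * (E0 * (M + OFF))) := by
    refine (Real.sqrt_le_sqrt q1).trans (le_of_eq ?_)
    rw [Real.sqrt_mul (by positivity), Real.sqrt_sq (by positivity)]
  have hPP : P ^ (ε / 2) * P ^ (ε / 2) = P ^ ε := by
    rw [← Real.rpow_add (by linarith)]; congr 1; ring
  calc C₁ * P ^ (ε / 2) * SU * √(As * (E0 * (C₂ * P ^ (ε / 2) * M + OFF))) ≤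
        C₁ * P ^ (ε / 2) * SU * ((C₂ + 1) * P ^ (ε / 2) * √(As * (E0 * (M + OFF)))) :=
        mul_le_mul_of_nonneg_left q2 (by positivity)
    _ = C₁ * (C₂ + 1) * (P ^ (ε / 2) * P ^ (ε / 2)) * SU * √(As * (E0 * (M + OFF))) := by ring
    _ = _ := by rw [hPP]

end Crest.Agent.R017.CubN994
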