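import Crest.Agent.R012.FinMain_713
import Crest.Agent.R012.PLog_255

/-!
# Row 17, (PLOW) part 1 (helper271): primary primes in multiplicatively short ranges
-/

set_option autoImplicit false

noncomputable section

open Filter Topology

namespace Crest.Agent.R017.PLow271

open Crest.Agent.R012 Crest.Agent.R012.Eis Crest.Agent.R012.PSer47

/-- `θ(t; 3, 1)` -/
def th (t : ℝ) : ℝ := ∑ p ∈ (Finset.Icc 1 ⌊t⌋₊).filter
      (fun p : ℕ => p.Prime ∧ (p : ZMod 3) = ((1 : ℕ) : ZMod 3)), Real.log (p : ℝ)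

lemma th_lim : Tendsto (fun t : ℝ => th t / t) atTop (𝓝 (1 / 2)) := by
  have h1 := Crest.Agent.Lib.PNT.theta_residueClass (q := 3) (a := ((1 : ℕ) : ZMod 3))
    (by simp)
  have ht : (3 : ℕ).totient = 2 := by decide
  rw [ht] at h1
  norm_num at h1 ⊢
  simpa [th] using h1

lemma th_exp_lim (a : ℝ) : Tendsto (fun κ : ℝ => th (Real.exp (κ + a)) / Real.exp κ) atTop
    (𝓝 (Real.exp a / 2)) := by
  have h1 : Tendsto (fun κ : ℝ => Real.exp (κ + a)) atTop atTop :=
    Real.tendsto_exp_atTop.comp (tendsto_atTop_add_const_right _ _ tendsto_id)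
  have h2 := (th_lim.comp h1).const_mul (Real.exp a)
  rw [show Real.exp a * (1 / 2) = Real.exp a / 2 by ring] at h2
  refine h2.congr fun κ => ?_
  simp only [Function.comp_apply]
  rw [Real.exp_add]
  have := (Real.exp_pos κ).ne'
  have := (Real.exp_pos a).ne'
  field_simp

open Classical in
/-- primary primes of norm in `(e^{κ+a}, e^{κ+b}]` -/
def shortP (a b κ : ℝ) : Finset Eis :=
  (PLog255.primes ⌊Real.exp (κ + b)⌋₊).filter (fun p => Real.exp (κ + a) < nm p)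

lemma mem_shortP {a b κ : ℝ} {p : Eis} : p ∈ shortP a b κ ↔
    (Prime p ∧ IsPrim p) ∧ Real.exp (κ + a) < nm p ∧ (nm p : ℝ) ≤ Real.exp (κ + b) := by
  simp only [shortP, Finset.mem_filter, PLog255.mem_primes]
  rw [Nat.le_floor_iff (Real.exp_pos _).le]
  tauto

theorem th_diff_le {a b κ : ℝ} (hab : a ≤ b) (hb : 0 ≤ κ + b) :
    th (Real.exp (κ + b)) - th (Real.exp (κ + a)) ≤ (κ + b) * (shortP a b κ).card := by
  classical
  set A : Finset ℕ := (Finset.Icc 1 ⌊Real.exp (κ + a)⌋₊).filter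
      (fun p : ℕ => p.Prime ∧ (p : ZMod 3) = ((1 : ℕ) : ZMod 3)) with hA
  set B : Finset ℕ := (Finset.Icc 1 ⌊Real.exp (κ + b)⌋₊).filter
      (fun p : ℕ => p.Prime ∧ (p : ZMod 3) = ((1 : ℕ) : ZMod 3)) with hB
  have hAB : A ⊆ B := by
    intro p hp
    rw [hA, Finset.mem_filter, Finset.mem_Icc] at hp
    rw [hB, Finset.mem_filter, Finset.mem_Icc]
    refine ⟨⟨hp.1.1, hp.1.2.trans (Nat.floor_le_floor ?_)⟩, hp.2⟩
    exact Real.exp_le_exp.mpr (by linarith)
  have e1 : th (Real.exp (κ + b)) - th (Real.exp (κ + a)) = ∑ p ∈ B \ A, Real.log (p : ℝ) := by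
    unfold th
    rw [← Finset.sum_sdiff hAB]
    ring
  rw [e1]
  -- each such prime is split
  have hmem : ∀ p ∈ B \ A, p.Prime ∧ p % 3 = 1 ∧ Real.exp (κ + a) < p ∧
      (p : ℝ) ≤ Real.exp (κ + b) := by
    intro p hp
    rw [Finset.mem_sdiff, hB, hA, Finset.mem_filter, Finset.mem_filter, Finset.mem_Icc,
      Finset.mem_Icc] at hp
    obtain ⟨⟨⟨h1, h2⟩, h3, h4⟩, h5⟩ := hp
    have h6 : p % 3 = 1 := by
      have := (ZMod.natCast_eq_natCast_iff' p 1 3).mp h4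
      simpa using this
    refine ⟨h3, h6, ?_, (Nat.le_floor_iff (Real.exp_pos _).le).mp h2⟩
    by_contra hle
    push Not at hle
    exact h5 ⟨⟨h1, Nat.le_floor hle⟩, h3, h4⟩
  have hex : ∀ p : ℕ, ∃ π : Eis, (p.Prime ∧ p % 3 = 1) → Fin713.Split p π := by
    intro p
    by_cases h : p.Prime ∧ p % 3 = 1
    · obtain ⟨π, hπ⟩ := Fin713.exists_split h.1 h.2
      exact ⟨π, fun _ => hπ⟩
    · exact ⟨0, fun h' => absurd h' h⟩
  choose f hf using hex
  have hcard : (B \ A).card ≤ (shortP a b κ).card := by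
    apply Finset.card_le_card_of_injOn f
    · intro p hp
      obtain ⟨h1, h2, h3, h4⟩ := hmem p hp
      have h5 := hf p ⟨h1, h2⟩
      rw [Finset.mem_coe, mem_shortP]
      refine ⟨⟨h5.prime, h5.prim⟩, ?_, ?_⟩
      · rw [h5.hn]; exact h3
      · rw [h5.hn]; exact h4
    · intro p hp q hq hpq
      obtain ⟨h1, h2, _, _⟩ := hmem p hp
      obtain ⟨h3, h4, _, _⟩ := hmem q hq
      rw [← (hf p ⟨h1, h2⟩).hn, ← (hf q ⟨h3, h4⟩).hn, hpq]
  calc ∑ p ∈ B \ A, Real.log (p : ℝ) ≤ ∑ _p ∈ B \ A, (κ + b) := by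
        refine Finset.sum_le_sum fun p hp => ?_
        obtain ⟨h1, _, _, h4⟩ := hmem p hp
        rw [← Real.log_exp (κ + b)]
        exact Real.log_le_log (by exact_mod_cast h1.pos) h4
    _ = (κ + b) * (B \ A).card := by rw [Finset.sum_const, nsmul_eq_mul]; ring
    _ ≤ (κ + b) * (shortP a b κ).card := by
        gcongr

/-- **primary primes in `(e^{κ+a}, e^{κ+b}]`**: at least `c e^κ / κ` of them -/
theorem card_shortP {a b : ℝ} (hab : a < b) : ∃ c : ℝ, 0 < c ∧ ∃ κ₀ : ℝ, 1 ≤ κ₀ ∧ ∀ κ : ℝ, κ₀ ≤ κ →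
    c * (Real.exp κ / κ) ≤ (shortP a b κ).card := by
  set D : ℝ := (Real.exp b - Real.exp a) / 2 with hD
  have hD0 : 0 < D := by
    have := Real.exp_lt_exp.mpr hab
    rw [hD]; linarith
  have h1 := (th_exp_lim b).sub (th_exp_lim a)
  rw [show Real.exp b / 2 - Real.exp a / 2 = D by rw [hD]; ring] at h1
  have h2 : ∀ᶠ κ in atTop, D / 2 < th (Real.exp (κ + b)) / Real.exp κ -
      th (Real.exp (κ + a)) / Real.exp κ := h1.eventually_const_lt (by linarith)
  obtain ⟨κ₁, hκ₁⟩ := eventually_atTop.mp h2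
  refine ⟨D / 4, by positivity, max (max 1 κ₁) |b|, (le_max_left _ _).trans (le_max_left _ _),
    fun κ hκ => ?_⟩
  have hκ1 : 1 ≤ κ := ((le_max_left _ _).trans (le_max_left _ _)).trans hκ
  have hκ2 : κ₁ ≤ κ := ((le_max_right _ _).trans (le_max_left _ _)).trans hκ
  have hκ3 : |b| ≤ κ := (le_max_right _ _).trans hκ
  have hb1 := (abs_le.mp hκ3)
  have h3 := hκ₁ κ hκ2
  rw [← sub_div, lt_div_iff₀ (Real.exp_pos _)] at h3
  have h4 := th_diff_le hab.le (κ := κ) (by linarith)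
  have h5 : (κ + b) * ((shortP a b κ).card : ℝ) ≤ 2 * κ * (shortP a b κ).card := by
    gcongr
    linarith
  rw [← mul_div_assoc, div_le_iff₀ (by linarith)]
  nlinarith

end Crest.Agent.R017.PLow271
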