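import Crest.Agent.R017.CubNc_994
import Crest.Agent.R017.PLow1_271

/-!
# Row 17, the near-top part of the tail of (LB), part e (helper994): the Gram sum below the top

* `StT_prime` : `StT (c³ k) = StT k` for a prime `c` above `E0` and `D`
* `gr_emb` : the Gram sum at the family `K / C³` by the Gram sum at `K`
-/

set_option autoImplicit false

noncomputable section

open Complex MeasureTheory
open scoped ComplexConjugate Classical

namespace Crest.Agent.R017.CubN994

open Crest.Agent.R012 Crest.Agent.R012.Eis Crest.Agent.R012.MC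
open Crest.Agent.R012.LS2 (S mem_S)
open Crest.Agent.R012.Mob705 (pdiv kap0 mu mu_one isPrim_eq_one_of_isUnit)
open Crest.Agent.R012.Div277 (tau dvs mem_dvs)
open Crest.Agent.R017.CM106 Crest.Agent.R017.FE47 Crest.Agent.R017.End699
open Crest.Agent.R017.C70 (JW JC OKJ okJ_JW CbF)
open Crest.Agent.R017.E2440 (TE StE StT TOK tok_TE)
open Crest.Agent.R017.LB48 (CrP GrP)
open Crest.Agent.R017.E3M829 (Cut)
open Crest.Agent.R017.CubL813 (TT StE_cubeT mul_div_mem prim_div)
open Crest.Agent.R017.PLow271 (shortP mem_shortP card_shortP)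

lemma cop_of_nm {c x : Eis} (hc : Prime c) (hx : x ≠ 0) (h : (nm x : ℝ) < nm c) :
    IsCoprime c x := by
  rw [hc.irreducible.coprime_iff_not_dvd]
  intro hd
  have h1 : (nm c : ℝ) ≤ nm x := by exact_mod_cast Div277.nm_le_of_dvd hx hd
  linarith

/-- **primes above `E0` and `D` are invisible** -/
theorem StT_prime {E0 D : ℝ} (hE0 : 0 ≤ E0) {J : Finset (Eis × Eis)} (hJ : OKJ J)
    (hJD : ∀ x ∈ J, (nm x.1 : ℝ) ≤ D) (om : Eis × Eis → ℂ) (A : Eis × Eis → Eis → ℂ) {c : Eis}
    (hc : IsPrim c) (hcp : Prime c) (h1 : E0 < nm c) (h2 : D < nm c) (k : Eis) :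
    StT E0 J om A (c ^ 3 * k) = StT E0 J om A k := by
  rw [StE_cubeT hc k hE0 hJ]
  unfold E2440.StT
  refine Finset.sum_congr rfl fun x hx => ?_
  have hx1 : IsPrim x.1 := hJ.prim x hx
  have hcx : IsCoprime c x.1 := cop_of_nm hcp hx1.ne_zero ((hJD x hx).trans_lt h2)
  beta_reduce
  rw [prin0_of hcx.symm, mul_one]
  congr 2
  refine Finset.sum_congr rfl fun e he => ?_
  congr 1
  obtain ⟨he1, he2⟩ := Finset.mem_filter.1 he
  obtain ⟨n1, pe, se⟩ := (mem_S hE0).1 he1
  have hce : IsCoprime c e := cop_of_nm hcp pe.ne_zero (n1.trans_lt h1)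
  unfold CubL813.TT
  rw [prin0_of hce.symm, one_mul]
  have hset : (dvs c).filter (fun e₀ => (nm (e₀ * e) : ℝ) ≤ E0) = {1} := by
    ext e₀
    rw [Finset.mem_filter, Finset.mem_singleton, mem_dvs hc.ne_zero]
    constructor
    · rintro ⟨⟨p0, hd⟩, hn⟩
      rcases (hcp.irreducible.dvd_iff).1 hd with hu | ha
      · exact isPrim_eq_one_of_isUnit p0 hu
      · exfalso
        have h3 : e₀ = c := by
          have := p0.eq_of_associated hc ha.symm
          exact this
        rw [h3, nm_mul] at hn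
        push_cast at hn
        have h4 := nm_one_le pe
        have h5 := nm_one_le hc
        nlinarith
    · rintro rfl
      refine ⟨⟨isPrim_one, one_dvd _⟩, ?_⟩
      rw [one_mul]
      exact n1
  rw [hset, Finset.sum_singleton, one_mul, mu_one]
  simp

lemma exp_35 : Real.exp (3 / 5) ≤ 2 := by
  have h := Real.log_two_gt_d9
  rw [← Real.le_log_iff_exp_le (by norm_num)]
  linarith

set_option maxHeartbeats 1000000 in
/-- **the Gram sum at the family `K / C³` by the Gram sum at `K`** -/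
theorem gr_emb {ε : ℝ} (hε : 0 < ε) : ∃ C κ : ℝ, 0 ≤ C ∧ 1 ≤ κ ∧
    ∀ (w w' : ℝ → ℝ) (b0 b1 : ℝ), (∀ x, 0 ≤ w x) → (∀ x, 0 ≤ w' x) → (∀ x, w x ≠ 0 → x ≤ b0) →
    (∀ x, w' x ≠ 0 → x ≤ b1) → (∀ x y, 1 ≤ y → y ≤ 2 → w x ≤ w' (x * y)) →
    ∀ P K E0 D C₀ : ℝ, 1 ≤ P → 0 < K → b1 * K ≤ P → 0 ≤ E0 → κ ≤ C₀ → C₀ ≤ P → E0 ≤ C₀ →
    D ≤ C₀ → ∀ J : Finset (Eis × Eis), OKJ J → (∀ x ∈ J, (nm x.1 : ℝ) ≤ D) →
    ∀ (om : Eis × Eis → ℂ) (A : Eis × Eis → Eis → ℂ) (E1 : ℝ), 2 * E0 * C₀ ≤ E1 →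
    GrP w (K / C₀ ^ 3) (fun k => if Cut E0 k then StT E0 J om A k else 0) ≤
      C * P ^ ε * C₀⁻¹ * GrP w' K (fun k => if Cut E1 k then StT E0 J om A k else 0) := by
  obtain ⟨c₁, hc₁, κ₀, hκ₀, H₁⟩ := card_shortP (a := 0) (b := 1 / 5) (by norm_num)
  obtain ⟨C₂, hC₂, H₂⟩ := E3M829.tau_Z (by positivity : 0 < ε / 2)
  refine ⟨(1 + 1 / (ε / 2)) * c₁⁻¹ * C₂, Real.exp κ₀, by positivity,
    Real.one_le_exp (by linarith), ?_⟩
  intro w w' b0 b1 hw0 hw0' hwb hwb' hww P K E0 D C₀ hP hK hbK hE0 hκ hCP hE0C hDC J hJ hJD om A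
    E1 hE1
  have hC0 : 1 ≤ C₀ := (Real.one_le_exp (by linarith : (0 : ℝ) ≤ κ₀)).trans hκ
  have hC00 : 0 < C₀ := by linarith
  have hlog : κ₀ ≤ Real.log C₀ := (Real.le_log_iff_exp_le hC00).2 hκ
  have hlog0 : 0 < Real.log C₀ := by linarith
  set PP := shortP 0 (1 / 5) (Real.log C₀) with hPP
  have hcard : c₁ * (C₀ / Real.log C₀) ≤ (PP.card : ℝ) := by
    have := H₁ (Real.log C₀) hlog
    rwa [Real.exp_log hC00] at this
  have hmem : ∀ c ∈ PP, Prime c ∧ IsPrim c ∧ C₀ < nm c ∧ (nm c : ℝ) ≤ C₀ * Real.exp (1 / 5) := by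
    intro c hc
    obtain ⟨⟨h1, h2⟩, h3, h4⟩ := mem_shortP.1 hc
    rw [add_zero, Real.exp_log hC00] at h3
    rw [Real.exp_add, Real.exp_log hC00] at h4
    exact ⟨h1, h2, h3, h4⟩
  set u : Eis → ℂ := fun k => StT E0 J om A k with hu
  set T := primBall ⌊b0 * (K / C₀ ^ 3)⌋₊ with hT
  set T' := primBall ⌊b1 * K⌋₊ with hT'
  have hK3 : 0 < K / C₀ ^ 3 := by positivity
  have e1 : GrP w (K / C₀ ^ 3) (fun k => if Cut E0 k then u k else 0) =
      ∑ k ∈ T, w ((nm k : ℝ) / (K / C₀ ^ 3)) * ‖(if Cut E0 k then u k else 0 : ℂ)‖ ^ 2 := by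
    unfold LB48.GrP
    rw [tsum_eq_sum (s := T)]
    · exact Finset.sum_congr rfl fun k hk => if_pos (mem_primBall.1 hk).2
    · intro k hk
      by_cases h : IsPrim k
      · rw [if_pos h, tsum_fin hwb hK3 h hk, zero_mul]
      · rw [if_neg h]
  set f : Eis → ℝ := fun k => if IsPrim k then w' ((nm k : ℝ) / K) *
    ‖(if Cut E1 k then u k else 0 : ℂ)‖ ^ 2 else 0 with hf
  have hf0 : ∀ k, 0 ≤ f k := by
    intro k
    simp only [hf]
    by_cases h : IsPrim k
    · rw [if_pos h]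
      exact mul_nonneg (hw0' _) (by positivity)
    · rw [if_neg h]
  have e2 : GrP w' K (fun k => if Cut E1 k then u k else 0) = ∑ k ∈ T', f k := by
    unfold LB48.GrP
    rw [tsum_eq_sum (s := T')]
    intro k hk
    by_cases h : IsPrim k
    · rw [if_pos h, tsum_fin hwb' hK h hk, zero_mul]
    · rw [if_neg h]
  have hfT : ∀ k, f k ≠ 0 → k ∈ T' := by
    intro k hk
    by_contra hn
    apply hk
    simp only [hf]
    by_cases h : IsPrim k
    · rw [if_pos h, tsum_fin hwb' hK h hn, zero_mul]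
    · rw [if_neg h]
  set G := GrP w (K / C₀ ^ 3) (fun k => if Cut E0 k then u k else 0) with hG
  -- one prime
  have hone : ∀ c ∈ PP, G ≤ ∑ k ∈ T', if c ∣ k then f k else 0 := by
    intro c hc
    obtain ⟨h1, h2, h3, h4⟩ := hmem c hc
    have nc : (0 : ℝ) < nm c := by linarith
    have pc3 : IsPrim (c ^ 3) := by
      rw [pow_succ, pow_two]; exact (h2.mul h2).mul h2
    have s1 : G ≤ ∑ k ∈ T, f (c ^ 3 * k) := by
      rw [e1]
      refine Finset.sum_le_sum fun k hk => ?_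
      have pk := (mem_primBall.1 hk).2
      simp only [hf]
      rw [if_pos (pc3.mul pk)]
      by_cases hcut : Cut E0 k
      · have hcut' : Cut E1 (c ^ 3 * k) := by
          intro g pg hgk
          have hb : (nm c : ℝ) ≤ 2 * C₀ := by
            have : Real.exp (1 / 5) ≤ 2 := (Real.exp_le_exp.2 (by norm_num)).trans exp_35
            nlinarith
          by_cases hcg : c ∣ g
          · obtain ⟨g', rfl⟩ := hcg
            have pg' : IsPrim g' := IsPrim.of_mul_left pg h2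
            have hgk' : g' ^ 3 ∣ k := by
              rw [mul_pow] at hgk
              exact (mul_dvd_mul_iff_left (pow_ne_zero 3 h2.ne_zero)).1 hgk
            have h6 := hcut g' pg' hgk'
            have h7 : (0 : ℝ) ≤ nm g' := Nat.cast_nonneg _
            rw [nm_mul]
            push_cast
            calc (nm c : ℝ) * nm g' ≤ (2 * C₀) * E0 := mul_le_mul hb h6 h7 (by linarith)
              _ = 2 * E0 * C₀ := by ring
              _ ≤ E1 := hE1
          · have hco : IsCoprime (g ^ 3) (c ^ 3) :=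
              ((h1.irreducible.coprime_iff_not_dvd).2 hcg).symm.pow
            have hgk' : g ^ 3 ∣ k := hco.dvd_of_dvd_mul_left hgk
            have h6 := hcut g pg hgk'
            nlinarith
        rw [if_pos hcut, if_pos hcut']
        have hst : u (c ^ 3 * k) = u k :=
          StT_prime hE0 hJ hJD om A h2 h1 (by linarith) (by linarith) k
        rw [hst]
        refine mul_le_mul_of_nonneg_right ?_ (by positivity)
        have e3 : (nm (c ^ 3 * k) : ℝ) / K = (nm k : ℝ) / (K / C₀ ^ 3) * ((nm c : ℝ) / C₀) ^ 3 := by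
          rw [nm_mul, nm_pow]
          push_cast
          field_simp
        rw [e3]
        refine hww _ _ ?_ ?_
        · exact one_le_pow₀ ((one_le_div hC00).2 h3.le)
        · have h6 : (nm c : ℝ) / C₀ ≤ Real.exp (1 / 5) := by
            rw [div_le_iff₀ hC00]
            linarith
          calc ((nm c : ℝ) / C₀) ^ 3 ≤ Real.exp (1 / 5) ^ 3 := pow_le_pow_left₀ (by positivity) h6 3
            _ = Real.exp (3 / 5) := by
                rw [← Real.exp_nat_mul]; norm_num
            _ ≤ 2 := exp_35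
      · rw [if_neg hcut, norm_zero]
        have : 0 ≤ w' ((nm (c ^ 3 * k) : ℝ) / K) *
            ‖(if Cut E1 (c ^ 3 * k) then u (c ^ 3 * k) else 0 : ℂ)‖ ^ 2 :=
          mul_nonneg (hw0' _) (by positivity)
        simpa using this
    have hinj : Set.InjOn (fun k : Eis => c ^ 3 * k) (T : Set Eis) := fun a _ b _ hab =>
      mul_left_cancel₀ (pow_ne_zero 3 h2.ne_zero) hab
    set g : Eis → ℝ := fun k => if c ∣ k then f k else 0 with hg
    have hg0 : ∀ k, 0 ≤ g k := by
      intro k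
      simp only [hg]
      split_ifs
      · exact hf0 k
      · exact le_rfl
    have s2 : ∑ k ∈ T, f (c ^ 3 * k) = ∑ k ∈ T.image (fun k => c ^ 3 * k), g k := by
      rw [Finset.sum_image hinj]
      refine Finset.sum_congr rfl fun k _ => ?_
      simp only [hg]
      rw [if_pos ((dvd_pow_self c (by norm_num)).mul_right k)]
    have s3 : ∑ k ∈ T.image (fun k => c ^ 3 * k), g k =
        ∑ k ∈ (T.image (fun k => c ^ 3 * k)).filter (fun k => k ∈ T'), g k := by
      rw [Finset.sum_filter_of_ne]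
      intro k _ hk
      apply hfT
      intro h0
      apply hk
      simp only [hg, h0]
      split_ifs <;> rfl
    refine s1.trans ?_
    rw [s2, s3]
    exact Finset.sum_le_sum_of_subset_of_nonneg
      (fun k hk => (Finset.mem_filter.1 hk).2) fun k _ _ => hg0 k
  -- all primes
  have hall : (PP.card : ℝ) * G ≤ (C₂ * P ^ (ε / 2)) * ∑ k ∈ T', f k := by
    calc (PP.card : ℝ) * G = ∑ c ∈ PP, G := by rw [Finset.sum_const, nsmul_eq_mul]
      _ ≤ ∑ c ∈ PP, ∑ k ∈ T', (if c ∣ k then f k else 0) := Finset.sum_le_sum hone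
      _ = ∑ k ∈ T', ∑ c ∈ PP, (if c ∣ k then f k else 0) := Finset.sum_comm
      _ ≤ ∑ k ∈ T', (C₂ * P ^ (ε / 2)) * f k := by
          refine Finset.sum_le_sum fun k hk => ?_
          obtain ⟨hk1, pk⟩ := mem_primBall.1 hk
          have hkP : (nm k : ℝ) ≤ P := by
            by_cases hb : 0 ≤ b1 * K
            · exact ((Nat.cast_le.2 hk1).trans (Nat.floor_le hb)).trans hbK
            · have : ⌊b1 * K⌋₊ = 0 := Nat.floor_of_nonpos (not_le.1 hb).le
              rw [this] at hk1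
              have : (nm k : ℝ) ≤ 0 := by exact_mod_cast hk1
              linarith
          have h1 : ∑ c ∈ PP, (if c ∣ k then f k else 0) =
              ((PP.filter (fun c => c ∣ k)).card : ℝ) * f k := by
            rw [← Finset.sum_filter, Finset.sum_const, nsmul_eq_mul]
          rw [h1]
          refine mul_le_mul_of_nonneg_right ?_ (hf0 k)
          have h2 : ((PP.filter (fun c => c ∣ k)).card : ℝ) ≤ tau k := by
            have : (PP.filter (fun c => c ∣ k)) ⊆ dvs k := by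
              intro c hc
              obtain ⟨h3, h4⟩ := Finset.mem_filter.1 hc
              exact (mem_dvs pk.ne_zero).2 ⟨(hmem c h3).2.1, h4⟩
            exact_mod_cast Finset.card_le_card this
          exact h2.trans (H₂ P hP k hkP)
      _ = _ := by rw [Finset.mul_sum]
  have hG0 : 0 ≤ G := by
    rw [e1]
    exact Finset.sum_nonneg fun k _ => mul_nonneg (hw0 _) (by positivity)
  have hs0 : 0 ≤ ∑ k ∈ T', f k := Finset.sum_nonneg fun k _ => hf0 k
  rw [e2]
  have h1 : c₁ * (C₀ / Real.log C₀) * G ≤ (C₂ * P ^ (ε / 2)) * ∑ k ∈ T', f k :=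
    (mul_le_mul_of_nonneg_right hcard hG0).trans hall
  have h2 : Real.log C₀ ≤ (1 + 1 / (ε / 2)) * P ^ (ε / 2) := by
    have h3 := E3M829.log_Z (by positivity : 0 < ε / 2) hP
    have h4 : Real.log C₀ ≤ Real.log P := Real.log_le_log hC00 hCP
    linarith
  have h5 : G ≤ (Real.log C₀ * c₁⁻¹ * C₀⁻¹) * ((C₂ * P ^ (ε / 2)) * ∑ k ∈ T', f k) := by
    calc G = (Real.log C₀ * c₁⁻¹ * C₀⁻¹) * (c₁ * (C₀ / Real.log C₀) * G) := by
          field_simp
      _ ≤ _ := mul_le_mul_of_nonneg_left h1 (by positivity)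
  have hPP2 : P ^ (ε / 2) * P ^ (ε / 2) = P ^ ε := by
    rw [← Real.rpow_add (by linarith)]; congr 1; ring
  refine h5.trans ?_
  calc (Real.log C₀ * c₁⁻¹ * C₀⁻¹) * ((C₂ * P ^ (ε / 2)) * ∑ k ∈ T', f k) ≤
        (((1 + 1 / (ε / 2)) * P ^ (ε / 2)) * c₁⁻¹ * C₀⁻¹) *
          ((C₂ * P ^ (ε / 2)) * ∑ k ∈ T', f k) := by
        have : 0 ≤ (C₂ * P ^ (ε / 2)) * ∑ k ∈ T', f k := by positivity
        gcongr
    _ = (1 + 1 / (ε / 2)) * c₁⁻¹ * C₂ * (P ^ (ε / 2) * P ^ (ε / 2)) * C₀⁻¹ * ∑ k ∈ T', f k := by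
        ring
    _ = _ := by rw [hPP2]

end Crest.Agent.R017.CubN994
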