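import Crest.Agent.R017.CubNd_994
import Crest.Agent.R017.Et_813

/-!
# Row 17, the near-top part of the tail of (LB), part f (helper994): the sum over the pieces

* `ntn_le` : the number `NTn` of helper813 from `SqQ` (cube-free form) and from the Gram sums at
  `K` and `K e^(-h)`
-/

set_option autoImplicit false

noncomputable section

open Complex MeasureTheory
open scoped ComplexConjugate Classical

namespace Crest.Agent.R017.CubN994

open Crest.Agent.R012 Crest.Agent.R012.Eis Crest.Agent.R012.MC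
open Crest.Agent.R012.LS2 (S mem_S)
open Crest.Agent.R012.Mob705 (mu)
open Crest.Agent.R012.Div277 (tau dvs mem_dvs)
open Crest.Agent.R017.X6545 (TF Bd)
open Crest.Agent.R017.X6W180 (tf1_tf)
open Crest.Agent.R017.X6C180 (GF)
open Crest.Agent.R017.E1551 hiding tau Dg
open Crest.Agent.R017.C70 (JW JC OKJ okJ_JW CbF)
open Crest.Agent.R017.E2440 (TE StE StT TOK tok_TE Fh)
open Crest.Agent.R017.LB48 (CrP GrP)
open Crest.Agent.R017.E3M829 (Cut)
open Crest.Agent.R017.LBu180 (SqQ)
open Crest.Agent.R017.WDec180 (WD sc sc_pos)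
open Crest.Agent.R017.CubL813 (prim_div mul_div_mem)
open Crest.Agent.R017.CubP813 (alr omb omc Te NTs Qc)
open Crest.Agent.R017.Et404 (sc_le)
open Crest.Agent.R017.Et813 (NTn)

lemma omT_eq (om : Eis × Eis → ℂ) (b e : Eis) : omT om b e = omc (omb om b) e := by
  funext x
  unfold omT CubP813.omc
  by_cases h : IsCoprime x.1 e
  · rw [if_pos h, prin0_of h, mul_one]
  · rw [if_neg h]
    have : End699.prin0 e x.1 = 0 := by
      unfold End699.prin0
      rw [if_neg h]
    rw [this, mul_zero]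

/-- the rough weight of one piece -/
def wI (x : ℝ) : ℝ := if Real.exp (-2) ≤ x ∧ x ≤ Real.exp 2 then 1 else 0

lemma wI_nonneg (x : ℝ) : 0 ≤ wI x := by
  unfold wI
  split_ifs <;> norm_num

lemma wI_ne {x : ℝ} (h : wI x ≠ 0) : Real.exp (-2) ≤ x ∧ x ≤ Real.exp 2 := by
  unfold wI at h
  split_ifs at h with h1
  · exact h1
  · exact absurd rfl h

lemma GF_le_wI {F : ℝ → ℂ} (hF : TF F) {S₀ : ℝ} (hS : Bd F 0 S₀) (x : ℝ) :
    ‖GF F x‖ ≤ S₀ * wI x := by
  have hS0 : 0 ≤ S₀ := (norm_nonneg _).trans (hS 0 le_rfl 0)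
  unfold X6C180.GF
  split_ifs with h
  · by_cases h2 : |Real.log x| ≤ 2
    · have h3 : wI x = 1 := by
        unfold wI
        rw [if_pos]
        obtain ⟨h4, h5⟩ := abs_le.1 h2
        exact ⟨(Real.le_log_iff_exp_le h).1 h4, (Real.log_le_iff_le_exp h).1 h5⟩
      rw [h3, mul_one]
      have := hS 0 le_rfl (Real.log x)
      rwa [iteratedDeriv_zero] at this
    · rw [hF.supp _ (not_le.mp h2), norm_zero]
      exact mul_nonneg hS0 (wI_nonneg x)
  · rw [norm_zero]
    exact mul_nonneg hS0 (wI_nonneg x)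

lemma SqQ_dom {w W : ℝ → ℝ} {b0 b1 : ℝ} (hw0 : ∀ x, 0 ≤ w x) (hW0 : ∀ x, 0 ≤ W x)
    (hwb : ∀ x, w x ≠ 0 → x ≤ b0) (hWb : ∀ x, W x ≠ 0 → x ≤ b1) {K K' : ℝ} (hK : 0 < K)
    (hK' : 0 < K') (h : ∀ x, w (x / K) ≤ W (x / K')) {Q Q' : Eis → Prop} (hQ : ∀ k, Q k → Q' k)
    (α : Eis → ℂ) : SqQ w K Q α ≤ SqQ W K' Q' α := by
  set T := primBall ⌊b0 * K⌋₊ ∪ primBall ⌊b1 * K'⌋₊ with hT
  have hz : ∀ k : Eis, IsPrim k → k ∉ T → w ((nm k : ℝ) / K) = 0 := by
    intro k hk hn
    exact tsum_fin hwb hK hk fun h => hn (Finset.mem_union_left _ h)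
  have hz' : ∀ k : Eis, IsPrim k → k ∉ T → W ((nm k : ℝ) / K') = 0 := by
    intro k hk hn
    exact tsum_fin hWb hK' hk fun h => hn (Finset.mem_union_right _ h)
  unfold LBu180.SqQ
  rw [tsum_eq_sum (s := T), tsum_eq_sum (s := T)]
  · refine Finset.sum_le_sum fun k _ => ?_
    by_cases h1 : IsPrim k ∧ Q k
    · rw [if_pos h1, if_pos ⟨h1.1, hQ k h1.2⟩]
      exact mul_le_mul_of_nonneg_right (h _) (by positivity)
    · rw [if_neg h1]
      split_ifs
      · exact mul_nonneg (hW0 _) (by positivity)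
      · exact le_rfl
  · intro k hk
    split_ifs with h1
    · rw [hz' k h1.1 hk, zero_mul]
    · rfl
  · intro k hk
    split_ifs with h1
    · rw [hz k h1.1 hk, zero_mul]
    · rfl

set_option maxHeartbeats 1000000 in
/-- **the near-top number** -/
theorem ntn_le {w₀ : ℝ → ℝ} {N : ℕ} {M : ℝ} {F : ℕ → ℝ → ℂ} (hD : WD w₀ N M F)
    {W : ℝ → ℝ} (hW0 : ∀ x, 0 ≤ W x) {b1 : ℝ} (hWb : ∀ x, W x ≠ 0 → x ≤ b1)
    (hW1 : ∀ x, Real.exp (-(2 + M)) ≤ x → x ≤ Real.exp (4 + N) → 1 ≤ W x) {ε : ℝ} (hε : 0 < ε) :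
    ∃ C κ : ℝ, 0 ≤ C ∧ 1 ≤ κ ∧
    ∀ (P K D E0 E1 L L2 Tm K₁ K₂ A' Bg Bg' h : ℝ), 1 ≤ P → 0 < K → Real.exp (2 + N) * K ≤ P →
    b1 * K ≤ P → 0 ≤ E0 → E0 ≤ P → 0 ≤ L → L ≤ P → κ ≤ L2 → E0 ≤ L2 → 1 ≤ D → D ≤ L2 → 1 ≤ Tm →
    Tm ≤ P → 0 ≤ K₂ → Real.exp (2 + N) * K ≤ K₂ * Tm ^ 3 → 2 * E0 * Tm ≤ E1 → 0 ≤ A' → 0 ≤ Bg →
    0 ≤ Bg' → 0 ≤ h →
    ∀ (α : Eis → ℂ) (J : Finset (Eis × Eis)), OKJ J → (∀ x ∈ J, (nm x.1 : ℝ) ≤ D) →
    ∀ om : Eis × Eis → ℂ, (∀ n, α n ≠ 0 → Squarefree n) →
    (∀ K' : ℝ, K * Real.exp (-h) / Tm ^ 3 ≤ K' → K' ≤ K → ∀ a b : Eis, IsPrim a → Squarefree a →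
      IsPrim b → L2 / D ≤ nm a → (nm a : ℝ) ≤ L → (nm b : ℝ) ≤ D * E0 →
      SqQ W K' (fun k => CbF k ∧ K₂ ≤ (nm k : ℝ)) (alr α a b) ≤
        (K' / K) ^ (1 / 3 : ℝ) * ((nm a : ℝ)⁻¹ * A')) →
    (∀ b e : Eis, IsPrim b → IsPrim e →
      GrP W K (fun k => if Cut E1 k then StE E0 J (omc (omb om b) e) α k else 0) ≤ Bg) →
    (∀ b e : Eis, IsPrim b → IsPrim e →
      GrP W (K * Real.exp (-h)) (fun k => if Cut E1 k then StE E0 J (omc (omb om b) e) α k
        else 0) ≤ Bg') →
    NTn N F h M K E0 L L2 K₁ K₂ α J om ≤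
      C * P ^ ε * √((D / L2 * A') * (E0 * (Bg + Real.exp (h / 3) * Bg'))) := by
  obtain ⟨C, κ, hC, hκ, H⟩ := nt_h hε
  obtain ⟨S₀, hS0, hBd⟩ := hD.bd 0
  refine ⟨N * (C * S₀), κ, by positivity, hκ, ?_⟩
  intro P K D E0 E1 L L2 Tm K₁ K₂ A' Bg Bg' h hP1 hK hKP hbK hE0 hE0P hL hLP hκL hE0L hD1 hDL hTm
    hTmP hK20 hK2 hE1 hA' hBg hBg' hh α J hJ hJD om hsq hS hG hG'
  have hTOK : TOK (TE α) := tok_TE hsq
  have hL20 : 0 < L2 := by linarith
  have hD0 : 0 < D := by linarith
  have hone : ∀ i ∈ Finset.range N, ‖∑ g ∈ (S L).filter (fun g => L2 < (nm g : ℝ)), (mu g : ℂ) *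
      NTs (GF (Fh (F i) h)) (fun k => ¬ Qc K₁ k ∧ ¬ (nm k : ℝ) < K₂) (sc K M i) E0 α J om
        (TE α) g‖ ≤ C * P ^ ε * S₀ *
        √((D / L2 * A') * (E0 * (Bg + Real.exp (h / 3) * Bg'))) := by
    intro i hi
    have hFi := tf1_tf (hD.tf i)
    have hM0 := hD.M0
    have hsc := sc_pos hK M i
    have hiN : (i : ℝ) ≤ N := by exact_mod_cast (Finset.mem_range.1 hi).le
    have hi0 : (0 : ℝ) ≤ i := Nat.cast_nonneg i
    have hsle : sc K M i ≤ Real.exp N * K := sc_le hK hM0 hi
    have hee := Real.exp_pos ((i : ℝ) - M)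
    have hscd : sc K M i = K * Real.exp (i - M) := rfl
    have hb : Real.exp 2 * sc K M i ≤ Real.exp (2 + N) * K := by
      rw [Real.exp_add, mul_assoc]
      gcongr
    -- the weight at the scale of the piece
    set w' : ℝ → ℝ := fun x => W (x * Real.exp (i - M)) with hw'
    have hw'b : ∀ x, w' x ≠ 0 → x ≤ b1 * Real.exp (-(i - M)) := by
      intro x hx
      have h1 := hWb _ hx
      rw [Real.exp_neg, ← div_eq_mul_inv, le_div_iff₀ hee]
      exact h1
    have hwle : ∀ x, wI x ≤ W (x * Real.exp (i - M)) := by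
      intro x
      by_cases h0 : wI x = 0
      · rw [h0]; exact hW0 _
      · obtain ⟨h1, h2⟩ := wI_ne h0
        have h3 : wI x = 1 := by
          unfold wI
          rw [if_pos ⟨h1, h2⟩]
        rw [h3]
        refine hW1 _ ?_ ?_
        · calc Real.exp (-(2 + M)) = Real.exp (-2) * Real.exp (-M) := by
                rw [← Real.exp_add]; congr 1; ring
            _ ≤ x * Real.exp (i - M) := mul_le_mul h1 (Real.exp_le_exp.2 (by linarith))
                (Real.exp_pos _).le ((Real.exp_pos _).le.trans h1)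
        · calc x * Real.exp (i - M) ≤ Real.exp 2 * Real.exp N := mul_le_mul h2
                (Real.exp_le_exp.2 (by linarith)) (Real.exp_pos _).le (Real.exp_pos _).le
            _ = Real.exp (2 + N) := by rw [← Real.exp_add]
            _ ≤ Real.exp (4 + N) := Real.exp_le_exp.2 (by linarith)
    have hww : ∀ x y, 1 ≤ y → y ≤ 2 → wI x ≤ w' (x * y) := by
      intro x y hy1 hy2
      simp only [hw']
      by_cases h0 : wI x = 0
      · rw [h0]; exact hW0 _
      · obtain ⟨h1, h2⟩ := wI_ne h0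
        have h3 : wI x = 1 := by
          unfold wI
          rw [if_pos ⟨h1, h2⟩]
        have hx0 : 0 ≤ x := (Real.exp_pos _).le.trans h1
        rw [h3]
        refine hW1 _ ?_ ?_
        · calc Real.exp (-(2 + M)) = Real.exp (-2) * 1 * Real.exp (-M) := by
                rw [mul_one, ← Real.exp_add]; congr 1; ring
            _ ≤ x * y * Real.exp (i - M) := mul_le_mul
                (mul_le_mul h1 hy1 (by norm_num) hx0) (Real.exp_le_exp.2 (by linarith))
                (Real.exp_pos _).le (mul_nonneg hx0 (by linarith))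
        · have h2e : (2 : ℝ) ≤ Real.exp 2 := by
            have := Real.add_one_le_exp (2 : ℝ)
            linarith
          calc x * y * Real.exp (i - M) ≤ Real.exp 2 * Real.exp 2 * Real.exp N := mul_le_mul
                (mul_le_mul h2 (hy2.trans h2e) (by linarith) (Real.exp_pos _).le)
                (Real.exp_le_exp.2 (by linarith)) (Real.exp_pos _).le (by positivity)
            _ = Real.exp (4 + N) := by
                rw [← Real.exp_add, ← Real.exp_add]; congr 1; ring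
    -- the Gram sums
    have hGr : ∀ (K₀ : ℝ), 0 < K₀ → ∀ v : Eis → ℂ, GrP w' (K₀ * Real.exp (i - M)) v = GrP W K₀ v := by
      intro K₀ hK₀ v
      unfold LB48.GrP
      refine tsum_congr fun k => ?_
      have : (nm k : ℝ) / (K₀ * Real.exp (i - M)) * Real.exp (i - M) = (nm k : ℝ) / K₀ := by
        field_simp
      simp only [hw', this]
    have hBd0 : Bd (F i) 0 S₀ := hBd i (Finset.mem_range.1 hi)
    refine H wI w' (Real.exp 2) (b1 * Real.exp (-(i - M))) wI_nonneg (fun x => hW0 _)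
      (fun x hx => (wI_ne hx).2) hw'b hww (F i) S₀ hFi hS0 (GF_le_wI hFi hBd0) P (sc K M i) D E0 E1
      L L2 Tm K₂ (D / L2 * A') (Bg + Real.exp (h / 3) * Bg') h hP1 hsc (hb.trans hKP) ?_ hE0 hE0P
      hL hLP hκL hE0L hDL hTm hTmP hK20 (hb.trans hK2) hE1 (by positivity) (by positivity) hh
      (fun k => ¬ Qc K₁ k ∧ ¬ (nm k : ℝ) < K₂) (fun k hk => not_lt.1 hk.2) α J hJ hJD om (TE α)
      hTOK ?_ ?_
    · have : b1 * Real.exp (-(i - M)) * sc K M i = b1 * K := by
        rw [hscd, Real.exp_neg]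
        field_simp
      rw [this]
      exact hbK
    · -- SqQ
      intro s hs g hg hg2 a ha hgD e he m hm hT
      have hs0 : 0 ≤ s := by
        rcases hs with rfl | rfl
        · exact le_rfl
        · exact hh
      have hsh : s ≤ h := by
        rcases hs with rfl | rfl
        · exact hh
        · exact le_rfl
      obtain ⟨nL, pg, sg⟩ := (mem_S hL).1 hg
      obtain ⟨nE, pe, se⟩ := (mem_S hE0).1 he
      obtain ⟨pa, hag⟩ := (mem_dvs pg.ne_zero).1 ha
      have pb : IsPrim (g / a) := prim_div pg ha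
      have n1 := nm_one_le pg
      have n2 := nm_one_le pe
      have n3 := nm_one_le hm
      have na := nm_one_le pa
      have nb := nm_one_le pb
      have hy0 : (0 : ℝ) < nm (g * e * m) := by
        exact_mod_cast nm_pos.2 ((pg.mul pe).mul hm).ne_zero
      have hy1 := nm_one_le ((pg.mul pe).mul hm)
      have e1 : (nm a : ℝ) * nm (g / a) = nm g := by
        have := mul_div_mem ha
        rw [← this, nm_mul]
        push_cast
        rw [this]
      have haL : L2 / D ≤ nm a := by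
        rw [div_le_iff₀ hD0]
        calc L2 ≤ nm g := hg2.le
          _ = nm a * nm (g / a) := e1.symm
          _ ≤ nm a * D := mul_le_mul_of_nonneg_left hgD (by linarith)
      have haL' : (nm a : ℝ) ≤ L := by
        have : (nm a : ℝ) ≤ nm g := by
          rw [← e1]; exact le_mul_of_one_le_right (by linarith) nb
        linarith
      have hbD : (nm (g / a * e) : ℝ) ≤ D * E0 := by
        rw [nm_mul]
        push_cast
        exact mul_le_mul hgD nE (by linarith) hD0.le
      set y := (nm (g * e * m) : ℝ) with hy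
      set K' := K * Real.exp (-s) / y ^ 3 with hK'
      have hK'0 : 0 < K' := by
        have := Real.exp_pos (-s)
        positivity
      have hK'1 : K * Real.exp (-h) / Tm ^ 3 ≤ K' := by
        have h1 : Real.exp (-h) ≤ Real.exp (-s) := Real.exp_le_exp.2 (by linarith)
        have h2 : y ^ 3 ≤ Tm ^ 3 := pow_le_pow_left₀ hy0.le hT 3
        have h3 := Real.exp_pos (-s)
        rw [hK']
        gcongr
      have hK'2 : K' ≤ K := by
        rw [hK', div_le_iff₀ (by positivity)]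
        have h1 : Real.exp (-s) ≤ 1 := Real.exp_le_one_iff.2 (by linarith)
        have h2 : 1 ≤ y ^ 3 := one_le_pow₀ hy1
        exact mul_le_mul_of_nonneg_left (h1.trans h2) hK.le
      have hS1 := hS K' hK'1 hK'2 a (g / a * e) pa (sg.squarefree_of_dvd hag) (pb.mul pe) haL haL'
        hbD
      have hdom : SqQ wI (sc K M i * Real.exp (-s) / y ^ 3)
          (fun k => CbF k ∧ (¬ Qc K₁ k ∧ ¬ (nm k : ℝ) < K₂) ∧ IsCoprime e k)
          (alr α a (g / a * e)) ≤ SqQ W K' (fun k => CbF k ∧ K₂ ≤ (nm k : ℝ))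
            (alr α a (g / a * e)) := by
        have h3 := Real.exp_pos (-s)
        refine SqQ_dom wI_nonneg hW0 (fun x hx => (wI_ne hx).2) hWb (by positivity) hK'0 ?_
          (fun k hk => ⟨hk.1, not_lt.1 hk.2.1.2⟩) _
        intro x
        have h4 := hwle (x / (sc K M i * Real.exp (-s) / y ^ 3))
        have h5 : x / (sc K M i * Real.exp (-s) / y ^ 3) * Real.exp (i - M) = x / K' := by
          rw [hK', hscd]
          field_simp
        rwa [h5] at h4
      refine hdom.trans (hS1.trans ?_)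
      have e3 : (K' / K) ^ (1 / 3 : ℝ) = Real.exp (-(s / 3)) * y⁻¹ := by
        have h4 : K' / K = (Real.exp (-(s / 3)) * y⁻¹) ^ 3 := by
          rw [hK', mul_pow, ← Real.exp_nat_mul]
          have : ((3 : ℕ) : ℝ) * -(s / 3) = -s := by push_cast; ring
          rw [this]
          field_simp
        have h5 : 0 ≤ Real.exp (-(s / 3)) * y⁻¹ := mul_nonneg (Real.exp_pos _).le (by positivity)
        rw [h4, ← Real.rpow_natCast, ← Real.rpow_mul h5]
        norm_num
      rw [e3]
      have h6 : (nm a : ℝ)⁻¹ ≤ D / L2 := by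
        rw [inv_le_comm₀ (by linarith) (by positivity), inv_div]
        exact haL
      have h7 := Real.exp_pos (-(s / 3))
      calc Real.exp (-(s / 3)) * y⁻¹ * ((nm a : ℝ)⁻¹ * A') ≤
            Real.exp (-(s / 3)) * y⁻¹ * (D / L2 * A') := by gcongr
        _ = _ := by ring
    · -- Gram
      intro s hs b e hb' he
      have e1 : sc K M i * Real.exp (-s) = K * Real.exp (-s) * Real.exp (i - M) := by
        rw [hscd]; ring
      rw [e1, hGr _ (mul_pos hK (Real.exp_pos _)), omT_eq]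
      have e2 : (fun k => if Cut E1 k then StT E0 J (omc (omb om b) e) (TE α) k else 0) =
          (fun k => if Cut E1 k then StE E0 J (omc (omb om b) e) α k else 0) := rfl
      rw [e2]
      rcases hs with rfl | rfl
      · have h1 := hG b e hb' he
        have h2 : 0 ≤ Real.exp (h / 3) * Bg' := mul_nonneg (Real.exp_pos _).le hBg'
        simp only [neg_zero, Real.exp_zero, mul_one, zero_div]
        linarith
      · have h1 := hG' b e hb' he
        have h3 : Real.exp (s / 3) * Real.exp (-(s / 3)) = 1 := by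
          rw [← Real.exp_add]; simp
        have h4 : 0 ≤ Bg * Real.exp (-(s / 3)) := mul_nonneg hBg (Real.exp_pos _).le
        calc _ ≤ Bg' := h1
          _ = (Real.exp (s / 3) * Real.exp (-(s / 3))) * Bg' := by rw [h3, one_mul]
          _ ≤ Bg * Real.exp (-(s / 3)) + (Real.exp (s / 3) * Real.exp (-(s / 3))) * Bg' := by
              linarith
          _ = _ := by ring
  unfold Et813.NTn
  refine (Finset.sum_le_sum hone).trans (le_of_eq ?_)
  rw [Finset.sum_const, Finset.card_range, nsmul_eq_mul]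
  ring

end Crest.Agent.R017.CubN994
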