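import Crest.Agent.R017.CubP_813

/-!
# Row 17, the tail of LB by the complete `c`-sum, part 2 (helper813)

* `VV_split` : the identity for one pair `(n, x)`
-/

set_option autoImplicit false
set_option linter.unusedVariables false

noncomputable section

open Complex
open scoped ComplexConjugate

namespace Crest.Agent.R017.CubP813

open Crest.Agent.R012 Crest.Agent.R012.Eis Crest.Agent.R012.Mob705
open Crest.Agent.R012.Div277 (tau dvs mem_dvs isPrim_of_mem_dvs dvs_zero one_le_tau)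
open Crest.Agent.R012.LS2 (S mem_S)
open Crest.Agent.R017.CM106 Crest.Agent.R017.FE47 Crest.Agent.R017.End699
open Crest.Agent.R017.C70 (CbF OKJ JC)
open Crest.Agent.R017.E2440 (TE StE StT TOK tok_TE)
open Crest.Agent.R017.E5Q571 (Cut dvd_of_cube_dvd sqf_dvd_cube CS_cube)
open Crest.Agent.R017.Ex385 (CrQ)
open Crest.Agent.R017.PX764 (th)
open Crest.Agent.R017.CubL813

open Classical in
/-- the kernel of the pair `(n, x)` -/
def Wk (E0 : ℝ) (T : Eis × Eis → Eis → ℂ) (n : Eis) (x : Eis × Eis) (k : Eis) : ℂ :=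
  sy k n * conj (sy k x.1 * conj (th (x.2 * k)) *
    ∑ e ∈ (S E0).filter (fun e => e ∣ k), (mu e : ℂ) * T x e)

open Classical in
/-- the sum of the pair `(n, x)` -/
def VV (U : ℝ → ℂ) (P : Eis → Prop) (K : ℝ) (X : ℕ) (E0 : ℝ) (T : Eis × Eis → Eis → ℂ) (n : Eis)
    (x : Eis × Eis) : ℂ :=
  ∑ k ∈ (primBall X).filter P, U ((nm k : ℝ) / K) * Wk E0 T n x k

/-- `X` bounds the support -/
def BX (U : ℝ → ℂ) (K : ℝ) (X : ℕ) : Prop := ∀ k : Eis, k ≠ 0 → U ((nm k : ℝ) / K) ≠ 0 → nm k ≤ X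

lemma bx_of {U : ℝ → ℂ} {b0 : ℝ} (hU : ∀ t, U t ≠ 0 → t ≤ b0) {K : ℝ} (hK : 0 < K) {X : ℕ}
    (hX : b0 * K ≤ X) {r : ℝ} (hr : 1 ≤ r) : BX U (K / r) X := by
  intro k hk h
  have h1 := hU _ h
  have hn : (0 : ℝ) < nm k := by exact_mod_cast nm_pos.2 hk
  have hr0 : 0 < r := by linarith
  rw [div_le_iff₀ (by positivity)] at h1
  have hb : 0 < b0 := by
    by_contra hb
    have : b0 * (K / r) ≤ 0 := mul_nonpos_of_nonpos_of_nonneg (not_lt.1 hb) (by positivity)
    linarith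
  have h2 : K / r ≤ K := div_le_self hK.le hr
  have h3 : (nm k : ℝ) ≤ X := h1.trans ((mul_le_mul_of_nonneg_left h2 hb.le).trans hX)
  exact_mod_cast h3

lemma one_le_nm3 {t : Eis} (ht : IsPrim t) : (1 : ℝ) ≤ (nm t : ℝ) ^ 3 := by
  have h : (1 : ℝ) ≤ nm t := by exact_mod_cast nm_pos.2 ht.ne_zero
  exact one_le_pow₀ h

/-- dilation of the argument -/
lemma arg_dil {K : ℝ} (t k : Eis) : (nm (t ^ 3 * k) : ℝ) / K = (nm k : ℝ) / (K / (nm t : ℝ) ^ 3) := by
  rw [nm_mul, nm_pow]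
  push_cast
  by_cases h : (nm t : ℝ) = 0
  · rw [h]; simp
  · by_cases hK : K = 0
    · rw [hK]; simp
    · field_simp

/-! ### bilinearity -/

open Classical in
lemma CrQ_fin {U : ℝ → ℂ} {P : Eis → Prop} {K : ℝ} {X : ℕ} (hX : BX U K X) (α u : Eis → ℂ) :
    CrQ U P K α u = ∑ k ∈ (primBall X).filter P, U ((nm k : ℝ) / K) * (CS α k * conj (u k)) := by
  unfold Ex385.CrQ
  rw [tsum_eq_sum (s := (primBall X).filter P)]
  · refine Finset.sum_congr rfl fun k hk => ?_
    rw [Finset.mem_filter, mem_primBall] at hk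
    rw [if_pos ⟨hk.1.2, hk.2⟩]
  · intro k hk
    split_ifs with h
    · rw [Finset.mem_filter, mem_primBall] at hk
      by_contra h0
      exact hk ⟨⟨hX k h.1.ne_zero (left_ne_zero_of_mul h0), h.1⟩, h.2⟩
    · rfl

lemma CS_fin {α : Eis → ℂ} {s : Finset Eis} (hs : ∀ n, α n ≠ 0 → n ∈ s) (k : Eis) :
    CS α k = ∑ n ∈ s, α n * sy k n := by
  unfold CM106.CS
  refine tsum_eq_sum fun n hn => ?_
  have : α n = 0 := by
    by_contra h
    exact hn (hs n h)
  rw [this, zero_mul]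

/-- **bilinearity** -/
theorem CrQ_lin {U : ℝ → ℂ} {P : Eis → Prop} {K : ℝ} {X : ℕ} (hX : BX U K X) {α : Eis → ℂ}
    {s : Finset Eis} (hs : ∀ n, α n ≠ 0 → n ∈ s) (E0 : ℝ) (J : Finset (Eis × Eis))
    (om : Eis × Eis → ℂ) (T : Eis × Eis → Eis → ℂ) :
    CrQ U P K α (StT E0 J om T) =
      ∑ n ∈ s, ∑ x ∈ J, α n * conj (om x) * VV U P K X E0 T n x := by
  classical
  rw [CrQ_fin hX]
  unfold VV
  have e1 : ∀ k ∈ (primBall X).filter P,
      U ((nm k : ℝ) / K) * (CS α k * conj (StT E0 J om T k)) =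
      ∑ n ∈ s, ∑ x ∈ J, α n * conj (om x) * (U ((nm k : ℝ) / K) * Wk E0 T n x k) := by
    intro k _
    rw [CS_fin hs]
    unfold E2440.StT Wk
    rw [map_sum, Finset.sum_mul, Finset.mul_sum]
    refine Finset.sum_congr rfl fun n _ => ?_
    rw [Finset.mul_sum, Finset.mul_sum]
    refine Finset.sum_congr rfl fun x _ => ?_
    rw [map_mul]
    ring
  rw [Finset.sum_congr rfl e1, Finset.sum_comm]
  refine Finset.sum_congr rfl fun n _ => ?_
  rw [Finset.sum_comm]
  refine Finset.sum_congr rfl fun x _ => ?_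
  rw [Finset.mul_sum]

/-! ### cubes -/

open Classical in
/-- the sum over `e ∣ t`, `(e, n) = 1` -/
def EE (E0 : ℝ) (T : Eis × Eis → Eis → ℂ) (n : Eis) (x : Eis × Eis) (t : Eis) : ℂ :=
  ∑ e ∈ S E0, if e ∣ t ∧ IsCoprime e n then (mu e : ℂ) * T x e else 0

/-- the part without `e` -/
def Dk (n : Eis) (x : Eis × Eis) (k : Eis) : ℂ := sy k n * conj (sy k x.1 * conj (th (x.2 * k)))

open Classical in
lemma Wk_cube {E0 : ℝ} {T : Eis × Eis → Eis → ℂ} {n : Eis} {x : Eis × Eis} (hn : IsPrim n)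
    (hx : IsPrim x.1) {c k : Eis} (hc : IsPrim c) (hk : IsPrim k) :
    Wk E0 T n x (c ^ 3 * k) =
      Dk n x k * (if IsCoprime c (n * x.1) then conj (EE E0 T n x (c * k)) else 0) := by
  unfold Wk Dk
  rw [mul_comm (c ^ 3) k, Lbc298.sy_mul_cube' hn, Lbc298.sy_mul_cube' hx, ← mul_assoc x.2 k,
    PX764.th_cube_all hc.ne_zero, mul_comm k (c ^ 3)]
  unfold prin0
  by_cases h1 : IsCoprime n c
  · by_cases h2 : IsCoprime x.1 c
    · rw [if_pos h1, if_pos h2, if_pos (IsCoprime.mul_right h1.symm h2.symm)]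
      by_cases h3 : IsCoprime k n
      · have h4 : ∑ e ∈ (S E0).filter (fun e => e ∣ c ^ 3 * k), (mu e : ℂ) * T x e =
            EE E0 T n x (c * k) := by
          unfold EE
          rw [Finset.sum_filter]
          refine Finset.sum_congr rfl fun e he => ?_
          have hs : Squarefree e := by
            unfold LS2.S at he
            exact (Finset.mem_filter.1 he).2
          have h5 : (e ∣ c ^ 3 * k) ↔ (e ∣ c * k ∧ IsCoprime e n) := by
            rw [sqf_dvd_cube hs]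
            constructor
            · intro h
              exact ⟨h, (IsCoprime.mul_left h1.symm h3).of_isCoprime_of_dvd_left h⟩
            · exact fun h => h.1
          simp only [h5]
        rw [h4]
        simp only [map_mul, map_one]
        ring
      · rw [Char766.sy_eq_zero hn h3]
        simp
    · rw [if_neg h2, if_neg fun h => h2 (IsCoprime.mul_right_iff.1 h).2.symm]
      simp
  · rw [if_neg h1, if_neg fun h => h1 (IsCoprime.mul_right_iff.1 h).1.symm]
    simp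

open Classical in
lemma Wk_one {E0 : ℝ} {T : Eis × Eis → Eis → ℂ} {n : Eis} {x : Eis × Eis} (hn : IsPrim n)
    (hx : IsPrim x.1) {k : Eis} (hk : IsPrim k) :
    Wk E0 T n x k = Dk n x k * conj (EE E0 T n x k) := by
  have h := Wk_cube (E0 := E0) (T := T) hn hx isPrim_one hk
  rw [one_pow, one_mul, if_pos isCoprime_one_left] at h
  exact h

open Classical in
/-- `k = c³ k₁` -/
lemma sum_k1c {P : Eis → Prop} (hP : ∀ k c, IsPrim k → IsPrim c → (P (c ^ 3 * k) ↔ P k))
    {F : Eis → ℂ} {X : ℕ} (hF : ∀ k, k ≠ 0 → F k ≠ 0 → nm k ≤ X) :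
    ∑ k ∈ (primBall X).filter P, F k =
      ∑ k ∈ (primBall X).filter (fun k => CbF k ∧ P k), ∑ c ∈ primBall X, F (c ^ 3 * k) := by
  have e1 : ∀ k ∈ (primBall X).filter (fun k => CbF k ∧ P k), ∑ c ∈ primBall X, F (c ^ 3 * k) =
      ∑ c ∈ primBall X, if nm (c ^ 3 * k) ≤ X then F (c ^ 3 * k) else 0 := by
    intro k hk
    rw [Finset.mem_filter, mem_primBall] at hk
    refine Finset.sum_congr rfl fun c hc => ?_
    split_ifs with h
    · rfl
    · by_contra h0
      exact h (hF _ (mul_ne_zero (pow_ne_zero _ (mem_primBall.1 hc).2.ne_zero)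
        hk.1.2.ne_zero) h0)
  rw [Finset.sum_congr rfl e1, ← Finset.sum_product', ← Finset.sum_filter]
  symm
  refine Finset.sum_bij (fun p _ => p.2 ^ 3 * p.1) ?_ ?_ ?_ ?_
  · rintro ⟨k, c⟩ h
    rw [Finset.mem_filter, Finset.mem_product, Finset.mem_filter, mem_primBall, mem_primBall] at h
    rw [Finset.mem_filter, mem_primBall]
    exact ⟨⟨h.2, (h.1.2.2.pow 3).mul h.1.1.1.2⟩, (hP _ _ h.1.1.1.2 h.1.2.2).2 h.1.1.2.2⟩
  · rintro ⟨k, c⟩ h ⟨k', c'⟩ h' he
    rw [Finset.mem_filter, Finset.mem_product, Finset.mem_filter, mem_primBall, mem_primBall]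
      at h h'
    simp only at he
    obtain ⟨e1, e2⟩ := cf_uniq h.1.1.1.2 h.1.2.2 h.1.1.2.1 h'.1.1.1.2 h'.1.2.2 h'.1.1.2.1
      (by rw [mul_comm, he, mul_comm])
    simp only at e1 e2
    rw [e1, e2]
  · intro k hk
    rw [Finset.mem_filter, mem_primBall] at hk
    obtain ⟨j, c, hj, hc, hf, rfl⟩ := E5b54.exists_cf_prim hk.1.2
    refine ⟨(j, c), ?_, by simp only; ring⟩
    rw [Finset.mem_filter, Finset.mem_product, Finset.mem_filter, mem_primBall, mem_primBall]
    have h1 := hk.1.1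
    have hjj : nm j ≤ X := le_trans (Div277.nm_le_of_dvd hk.1.2.ne_zero (dvd_mul_right _ _)) h1
    have hcc : nm c ≤ X := le_trans (Div277.nm_le_of_dvd hk.1.2.ne_zero
      ((dvd_pow_self c (by norm_num)).mul_left j)) h1
    refine ⟨⟨⟨⟨hjj, hj⟩, hf, ?_⟩, hcc, hc⟩, ?_⟩
    · rw [← hP j c hj hc, mul_comm]
      exact hk.2
    · simp only
      rw [mul_comm]
      exact h1
  · rintro ⟨k, c⟩ _
    rfl

/-- `EE` does not see the smooth part -/
lemma EE_sm {E0 : ℝ} {T : Eis × Eis → Eis → ℂ} (hT : TOK T) {n : Eis} {x : Eis × Eis} {l : Eis}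
    (hl : IsPrim l) (h : rl l ∣ n * x.1) (t : Eis) : EE E0 T n x (l * t) = EE E0 T n x t := by
  classical
  unfold EE
  refine Finset.sum_congr rfl fun e _ => ?_
  by_cases hT0 : T x e = 0
  · simp [hT0]
  have h1 := (hT x e hT0).2.2
  have h2 : (e ∣ l * t ∧ IsCoprime e n) ↔ (e ∣ t ∧ IsCoprime e n) := by
    constructor
    · rintro ⟨h3, h4⟩
      have h5 : IsCoprime l e := by
        rw [isCoprime_iff_pp hl]
        intro p hp hpl hpe
        have h6 := (rl_dvd_iff hl.ne_zero).1 h p hp hpl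
        exact hp.prime.not_isUnit ((IsCoprime.mul_right h4 h1).isUnit_of_dvd' hpe h6)
      exact ⟨h5.symm.dvd_of_dvd_mul_left h3, h4⟩
    · rintro ⟨h3, h4⟩
      exact ⟨h3.mul_left l, h4⟩
  simp only [h2]

/-- `g` squarefree, `g ∣ N`: also `rl g ∣ N` -/
lemma rl_of_dvd {g N : Eis} (h : g ∣ N) : rl g ∣ N := (rl_dvd g).trans h

open Classical in
/-- splitting of `e ∣ m k`, `e = e₀ e₁`, `e₀ ∣ m`, `(e₀, k) = 1`, `e₁ ∣ k` -/
lemma EE_mul {E0 : ℝ} (hE0 : 0 ≤ E0) (T : Eis × Eis → Eis → ℂ) (n : Eis) (x : Eis × Eis)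
    {m k : Eis} (hk : IsPrim k) :
    EE E0 T n x (m * k) = ∑ e₀ ∈ S E0, if e₀ ∣ m ∧ IsCoprime e₀ k ∧ IsCoprime n e₀ then
      (mu e₀ : ℂ) * EE E0 (Te E0 e₀ T) n x k else 0 := by
  have h1 := sum_dvd_mul hE0 hk m (fun t => if IsCoprime t n then T x t else 0)
  have h2 : EE E0 T n x (m * k) = ∑ t ∈ (S E0).filter (fun t => t ∣ k * m),
      (mu t : ℂ) * (if IsCoprime t n then T x t else 0) := by
    unfold EE
    rw [Finset.sum_filter, mul_comm m k]
    refine Finset.sum_congr rfl fun t _ => ?_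
    by_cases h3 : t ∣ k * m
    · by_cases h4 : IsCoprime t n
      · rw [if_pos ⟨h3, h4⟩, if_pos h3, if_pos h4]
      · rw [if_neg fun h => h4 h.2, if_pos h3, if_neg h4, mul_zero]
    · rw [if_neg fun h => h3 h.1, if_neg h3]
  rw [h2, h1, Finset.sum_filter]
  refine Finset.sum_congr rfl fun e he => ?_
  obtain ⟨-, hep, hes⟩ := (mem_S hE0).1 he
  by_cases h3 : e ∣ m
  · unfold prin0
    by_cases h4 : IsCoprime e k
    · by_cases h5 : IsCoprime n e
      · rw [if_pos h3, if_pos h4, if_pos ⟨h3, h4, h5⟩, one_mul]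
        congr 1
        unfold EE Te
        set A := (dvs k).filter (fun e₁ => Squarefree e₁ ∧ (nm (e₁ * e) : ℝ) ≤ E0 ∧
          IsCoprime e₁ n) with hA
        have e1 : ∑ e₁ ∈ (dvs k).filter (fun e₁ => (nm (e₁ * e) : ℝ) ≤ E0),
            (mu e₁ : ℂ) * (if IsCoprime (e₁ * e) n then T x (e₁ * e) else 0) =
            ∑ e₁ ∈ A, (mu e₁ : ℂ) * T x (e * e₁) := by
          rw [hA, Finset.sum_filter, Finset.sum_filter]
          refine Finset.sum_congr rfl fun e₁ _ => ?_
          by_cases h6 : Squarefree e₁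
          · by_cases h7 : (nm (e₁ * e) : ℝ) ≤ E0
            · by_cases h8 : IsCoprime e₁ n
              · rw [if_pos h7, if_pos (IsCoprime.mul_left h8 h5.symm), if_pos ⟨h6, h7, h8⟩,
                  mul_comm e₁ e]
              · rw [if_pos h7, if_neg fun h => h8 (IsCoprime.mul_left_iff.1 h).1,
                  if_neg fun h => h8 h.2.2, mul_zero]
            · have h9 : ¬ (Squarefree e₁ ∧ (nm (e₁ * e) : ℝ) ≤ E0 ∧ IsCoprime e₁ n) :=
                fun h => h7 h.2.1
              rw [if_neg h7, if_neg h9]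
          · have h9 : ¬ (Squarefree e₁ ∧ (nm (e₁ * e) : ℝ) ≤ E0 ∧ IsCoprime e₁ n) :=
              fun h => h6 h.1
            rw [mu_of_not_squarefree h6, if_neg h9]
            simp
        have e2 : ∑ e₁ ∈ S E0, (if e₁ ∣ k ∧ IsCoprime e₁ n then
            (mu e₁ : ℂ) * (if (nm (e * e₁) : ℝ) ≤ E0 then T x (e * e₁) else 0) else 0) =
            ∑ e₁ ∈ A, (mu e₁ : ℂ) * T x (e * e₁) := by
          rw [← Finset.sum_filter]
          symm
          have hsub : A ⊆ (S E0).filter (fun e₁ => e₁ ∣ k ∧ IsCoprime e₁ n) := by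
            intro e₁ h
            rw [hA, Finset.mem_filter, mem_dvs hk.ne_zero] at h
            rw [Finset.mem_filter, mem_S hE0]
            refine ⟨⟨le_trans ?_ h.2.2.1, h.1.1, h.2.1⟩, h.1.2, h.2.2.2⟩
            rw [nm_mul]
            exact_mod_cast Nat.le_mul_of_pos_right _ (nm_pos.2 hep.ne_zero)
          rw [← Finset.sum_subset hsub]
          · refine Finset.sum_congr rfl fun e₁ h => ?_
            rw [hA, Finset.mem_filter] at h
            rw [if_pos (by rw [mul_comm e e₁]; exact h.2.2.1)]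
          · intro e₁ h h'
            rw [Finset.mem_filter, mem_S hE0] at h
            rw [hA, Finset.mem_filter, mem_dvs hk.ne_zero] at h'
            rw [if_neg, mul_zero]
            intro h7
            exact h' ⟨⟨h.1.2.1, h.2.1⟩, h.1.2.2, by rwa [mul_comm e₁ e], h.2.2⟩
        rw [e1, e2]
      · have h9 : ¬ (e ∣ m ∧ IsCoprime e k ∧ IsCoprime n e) := fun h => h5 h.2.2
        rw [if_pos h3, if_neg h9]
        have : ∀ e₁ ∈ (dvs k).filter (fun e₁ => (nm (e₁ * e) : ℝ) ≤ E0),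
            (mu e₁ : ℂ) * (if IsCoprime (e₁ * e) n then T x (e₁ * e) else 0) = 0 := by
          intro e₁ _
          rw [if_neg fun h => h5 (IsCoprime.mul_left_iff.1 h).2.symm, mul_zero]
        rw [Finset.sum_eq_zero this]
        simp
    · have h9 : ¬ (e ∣ m ∧ IsCoprime e k ∧ IsCoprime n e) := fun h => h4 h.2.1
      rw [if_pos h3, if_neg h4, if_neg h9]
      simp
  · have h9 : ¬ (e ∣ m ∧ IsCoprime e k ∧ IsCoprime n e) := fun h => h3 h.1
    rw [if_neg h3, if_neg h9]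

/-! ### one pair `(n, x)` -/

section
variable {U : ℝ → ℂ} {b0 : ℝ} {P : Eis → Prop} {K E0 L : ℝ} {X : ℕ} {T : Eis × Eis → Eis → ℂ}
  {n : Eis} {x : Eis × Eis}

open Classical in
/-- the double sum over `k₁, c` -/
lemma VV_eq (hX : BX U K X) (hP : ∀ k c, IsPrim k → IsPrim c → (P (c ^ 3 * k) ↔ P k))
    (hn : IsPrim n) (hx : IsPrim x.1) :
    VV U P K X E0 T n x = ∑ k ∈ (primBall X).filter (fun k => CbF k ∧ P k), Dk n x k *
      ∑ c ∈ primBall X, (if IsCoprime c (n * x.1) then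
        U ((nm (c ^ 3 * k) : ℝ) / K) * conj (EE E0 T n x (c * k)) else 0) := by
  unfold VV
  rw [sum_k1c hP (F := fun k => U ((nm k : ℝ) / K) * Wk E0 T n x k) (X := X)
    fun k hk h => hX k hk (left_ne_zero_of_mul h)]
  refine Finset.sum_congr rfl fun k hk => ?_
  rw [Finset.mem_filter, mem_primBall] at hk
  rw [Finset.mul_sum]
  refine Finset.sum_congr rfl fun c hc => ?_
  rw [Wk_cube hn hx (mem_primBall.1 hc).2 hk.1.2]
  split_ifs <;> ring

open Classical in
/-- the `m`-sum through `e₀` -/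
lemma m_sum (hE0 : 0 ≤ E0) {K' : ℝ} {g k : Eis} (hg : IsPrim g) (hk : IsPrim k)
    (hX : ∀ t : Eis, t ≠ 0 → U ((nm (t ^ 3 * k) : ℝ) / K) ≠ 0 → nm t ≤ X) :
    ∑ m ∈ primBall X, U ((nm ((g * m) ^ 3 * k) : ℝ) / K) * conj (EE E0 T n x (m * k)) =
      ∑ e₀ ∈ S E0, if IsCoprime n e₀ then (mu e₀ : ℂ) * ∑ m ∈ primBall X,
        (if IsCoprime e₀ k then U ((nm ((g * e₀ * m) ^ 3 * k) : ℝ) / K) *
          conj (EE E0 (Te E0 e₀ T) n x k) else 0) else 0 := by
  have e1 : ∀ m ∈ primBall X, U ((nm ((g * m) ^ 3 * k) : ℝ) / K) * conj (EE E0 T n x (m * k)) =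
      ∑ e₀ ∈ S E0, if IsCoprime n e₀ then (mu e₀ : ℂ) * (if IsCoprime e₀ k then
        conj (EE E0 (Te E0 e₀ T) n x k) * (if e₀ ∣ m then U ((nm ((g * m) ^ 3 * k) : ℝ) / K)
          else 0) else 0) else 0 := by
    intro m hm
    rw [EE_mul hE0 T n x hk, map_sum, Finset.mul_sum]
    refine Finset.sum_congr rfl fun e₀ _ => ?_
    by_cases h1 : IsCoprime n e₀
    · by_cases h2 : IsCoprime e₀ k
      · by_cases h3 : e₀ ∣ m
        · rw [if_pos ⟨h3, h2, h1⟩, if_pos h1, if_pos h2, if_pos h3, map_mul, map_intCast]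
          ring
        · have h9 : ¬ (e₀ ∣ m ∧ IsCoprime e₀ k ∧ IsCoprime n e₀) := fun h => h3 h.1
          rw [if_neg h9, if_pos h1, if_pos h2, if_neg h3]
          simp
      · have h9 : ¬ (e₀ ∣ m ∧ IsCoprime e₀ k ∧ IsCoprime n e₀) := fun h => h2 h.2.1
        rw [if_neg h9, if_pos h1, if_neg h2]
        simp
    · have h9 : ¬ (e₀ ∣ m ∧ IsCoprime e₀ k ∧ IsCoprime n e₀) := fun h => h1 h.2.2
      rw [if_neg h9, if_neg h1]
      simp
  rw [Finset.sum_congr rfl e1, Finset.sum_comm]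
  refine Finset.sum_congr rfl fun e₀ he₀ => ?_
  have he := ((mem_S hE0).1 he₀).2.1
  by_cases h1 : IsCoprime n e₀
  · simp only [if_pos h1]
    rw [← Finset.mul_sum]
    congr 1
    by_cases h2 : IsCoprime e₀ k
    · simp only [if_pos h2]
      rw [← Finset.mul_sum, sum_dil (f := fun m => U ((nm ((g * m) ^ 3 * k) : ℝ) / K)) (X := X)
        (fun m hm => ?_) he, Finset.mul_sum]
      · refine Finset.sum_congr rfl fun m _ => ?_
        rw [← mul_assoc g e₀ m]
        ring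
      · by_cases hm0 : m = 0
        · rw [hm0, nm_zero]
          exact Nat.zero_le _
        · have h3 := hX (g * m) (mul_ne_zero hg.ne_zero hm0) hm
          refine le_trans ?_ h3
          rw [nm_mul]
          exact Nat.le_mul_of_pos_left _ (nm_pos.2 hg.ne_zero)
    · simp only [if_neg h2]
  · simp only [if_neg h1]
    simp

open Classical in
lemma VV_cop (T' : Eis × Eis → Eis → ℂ) (hn : IsPrim n) (hx : IsPrim x.1) (e₀ t : Eis) :
    VV U (fun k => CbF k ∧ P k ∧ IsCoprime e₀ k) (K / (nm t : ℝ) ^ 3) X E0 T' n x =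
      ∑ k ∈ (primBall X).filter (fun k => CbF k ∧ P k), Dk n x k *
        (if IsCoprime e₀ k then U ((nm (t ^ 3 * k) : ℝ) / K) * conj (EE E0 T' n x k) else 0) := by
  unfold VV
  rw [Finset.sum_filter, Finset.sum_filter]
  refine Finset.sum_congr rfl fun k hk => ?_
  have hkp := (mem_primBall.1 hk).2
  by_cases h1 : CbF k ∧ P k
  · by_cases h2 : IsCoprime e₀ k
    · rw [if_pos ⟨h1.1, h1.2, h2⟩, if_pos h1, if_pos h2, arg_dil, Wk_one hn hx hkp]
      ring
    · have h9 : ¬ (CbF k ∧ P k ∧ IsCoprime e₀ k) := fun h => h2 h.2.2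
      rw [if_neg h9, if_pos h1, if_neg h2, mul_zero]
  · have h9 : ¬ (CbF k ∧ P k ∧ IsCoprime e₀ k) := fun h => h1 ⟨h.1, h.2.1⟩
    rw [if_neg h9, if_neg h1]

open Classical in
/-- **the identity for one pair `(n, x)`** -/
theorem VV_split (hX : ∀ r : ℝ, 1 ≤ r → BX U (K / r) X) (hE0 : 0 ≤ E0) (hL : 0 ≤ L)
    (hP : ∀ k c, IsPrim k → IsPrim c → (P (c ^ 3 * k) ↔ P k)) (hT : TOK T)
    (hn : IsPrim n) (hx : IsPrim x.1) :
    VV U P K X E0 T n x =
      ∑ g ∈ S L, (if g ∣ n * x.1 then (mu g : ℂ) * ∑ e₀ ∈ S E0, (if IsCoprime n e₀ then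
        (mu e₀ : ℂ) * ∑ m ∈ primBall X, VV U (fun k => CbF k ∧ P k ∧ IsCoprime e₀ k)
          (K / (nm (g * e₀ * m) : ℝ) ^ 3) X E0 (Te E0 e₀ T) n x else 0) else 0) +
      ∑ l ∈ (primBall X).filter (fun l => L < (nm l : ℝ)), (if rl l ∣ n * x.1 then
        (lamL L l : ℂ) * VV U P (K / (nm l : ℝ) ^ 3) X E0 T n x else 0) := by
  have hX1 : BX U K X := by
    have := hX 1 le_rfl
    rwa [div_one] at this
  have hN : n * x.1 ≠ 0 := mul_ne_zero hn.ne_zero hx.ne_zero
  have hXc : ∀ k : Eis, IsPrim k → ∀ t : Eis, t ≠ 0 → U ((nm (t ^ 3 * k) : ℝ) / K) ≠ 0 →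
      nm t ≤ X := by
    intro k hk t ht h
    have h1 := hX1 (t ^ 3 * k) (mul_ne_zero (pow_ne_zero _ ht) hk.ne_zero) h
    refine le_trans ?_ h1
    rw [nm_mul, nm_pow]
    calc nm t ≤ nm t ^ 3 := Nat.le_self_pow (by norm_num) _
      _ ≤ nm t ^ 3 * nm k := Nat.le_mul_of_pos_right _ (nm_pos.2 hk.ne_zero)
  rw [VV_eq hX1 hP hn hx]
  set B := (primBall X).filter (fun k => CbF k ∧ P k) with hB
  have e1 : ∀ k ∈ B, Dk n x k * ∑ c ∈ primBall X, (if IsCoprime c (n * x.1) then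
        U ((nm (c ^ 3 * k) : ℝ) / K) * conj (EE E0 T n x (c * k)) else 0) =
      ∑ g ∈ S L, (if g ∣ n * x.1 then (mu g : ℂ) * ∑ e₀ ∈ S E0, (if IsCoprime n e₀ then
        (mu e₀ : ℂ) * ∑ m ∈ primBall X, Dk n x k * (if IsCoprime e₀ k then
          U ((nm ((g * e₀ * m) ^ 3 * k) : ℝ) / K) * conj (EE E0 (Te E0 e₀ T) n x k) else 0)
            else 0) else 0) +
      ∑ l ∈ (primBall X).filter (fun l => L < (nm l : ℝ)), (if rl l ∣ n * x.1 then
        (lamL L l : ℂ) * (Dk n x k * ∑ c ∈ primBall X, (if IsCoprime c (n * x.1) then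
          U ((nm (c ^ 3 * k) : ℝ) / (K / (nm l : ℝ) ^ 3)) * conj (EE E0 T n x (c * k)) else 0))
            else 0) := by
    intro k hk
    rw [hB, Finset.mem_filter, mem_primBall] at hk
    have hkp := hk.1.2
    have h1 := mob (f := fun c => U ((nm (c ^ 3 * k) : ℝ) / K) * conj (EE E0 T n x (c * k)))
      (X := X) (fun c hc => by
        by_cases hc0 : c = 0
        · rw [hc0, nm_zero]; exact Nat.zero_le _
        · exact hXc k hkp c hc0 (left_ne_zero_of_mul hc)) hN hL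
    rw [h1, mul_add, Finset.mul_sum, Finset.mul_sum]
    congr 1
    · refine Finset.sum_congr rfl fun g hg => ?_
      have hgp := ((mem_S hL).1 hg).2.1
      by_cases h2 : g ∣ n * x.1
      · rw [if_pos h2, if_pos h2]
        have h3 : ∀ m ∈ primBall X, U ((nm ((g * m) ^ 3 * k) : ℝ) / K) *
            conj (EE E0 T n x (g * m * k)) =
            U ((nm ((g * m) ^ 3 * k) : ℝ) / K) * conj (EE E0 T n x (m * k)) := by
          intro m _
          rw [mul_assoc g m k, EE_sm hT hgp (rl_of_dvd h2)]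
        rw [Finset.sum_congr rfl h3, m_sum hE0 (K' := K) hgp hkp (hXc k hkp), mul_left_comm,
          Finset.mul_sum]
        congr 1
        refine Finset.sum_congr rfl fun e₀ _ => ?_
        by_cases h4 : IsCoprime n e₀
        · rw [if_pos h4, if_pos h4, mul_left_comm, Finset.mul_sum]
        · rw [if_neg h4, if_neg h4, mul_zero]
      · rw [if_neg h2, if_neg h2, mul_zero]
    · refine Finset.sum_congr rfl fun l hl => ?_
      rw [Finset.mem_filter, mem_primBall] at hl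
      by_cases h2 : rl l ∣ n * x.1
      · rw [if_pos h2, if_pos h2, mul_left_comm]
        congr 2
        refine Finset.sum_congr rfl fun c _ => ?_
        split_ifs
        · rw [mul_assoc l c k, EE_sm hT hl.1.2 h2, ← arg_dil,
            show (l * c) ^ 3 * k = l ^ 3 * (c ^ 3 * k) by ring]
        · rfl
      · rw [if_neg h2, if_neg h2, mul_zero]
  rw [Finset.sum_congr rfl e1, Finset.sum_add_distrib]
  congr 1
  · rw [Finset.sum_comm]
    refine Finset.sum_congr rfl fun g _ => ?_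
    by_cases h2 : g ∣ n * x.1
    · simp only [if_pos h2]
      rw [← Finset.mul_sum, Finset.sum_comm]
      congr 1
      refine Finset.sum_congr rfl fun e₀ _ => ?_
      by_cases h3 : IsCoprime n e₀
      · simp only [if_pos h3]
        rw [← Finset.mul_sum, Finset.sum_comm]
        congr 1
        refine Finset.sum_congr rfl fun m _ => ?_
        rw [VV_cop (Te E0 e₀ T) hn hx]
      · simp only [if_neg h3]
        simp
    · simp only [if_neg h2]
      simp
  · rw [Finset.sum_comm]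
    refine Finset.sum_congr rfl fun l hl => ?_
    rw [Finset.mem_filter, mem_primBall] at hl
    by_cases h2 : rl l ∣ n * x.1
    · simp only [if_pos h2]
      rw [← Finset.mul_sum, VV_eq (hX _ (one_le_nm3 hl.1.2)) hP hn hx]
    · simp only [if_neg h2]
      simp

end

end Crest.Agent.R017.CubP813
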