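import Crest.Agent.R017.CubR_813

/-!
# Row 17, the tail of LB by the complete `c`-sum, part 3 (helper813)

* **`cub_split`** : the exact identity
-/

set_option autoImplicit false
set_option linter.unusedVariables false

noncomputable section

open Complex
open scoped ComplexConjugate

namespace Crest.Agent.R017.CubP813

open Crest.Agent.R012 Crest.Agent.R012.Eis Crest.Agent.R012.Mob705
open Crest.Agent.R012.Div277 (tau dvs mem_dvs isPrim_of_mem_dvs dvs_zero one_le_tau)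
open Crest.Agent.R012.LS2 (S mem_S)
open Crest.Agent.R017.CM106 Crest.Agent.R017.FE47 Crest.Agent.R017.End699
open Crest.Agent.R017.C70 (CbF OKJ JC)
open Crest.Agent.R017.E2440 (TE StE StT TOK tok_TE)
open Crest.Agent.R017.E5Q571 (Cut dvd_of_cube_dvd sqf_dvd_cube CS_cube)
open Crest.Agent.R017.Ex385 (CrQ)
open Crest.Agent.R017.PX764 (th)
open Crest.Agent.R017.CubL813

open Classical in
/-- the splittings `g = a b` with `a ∣ n`, `(n, b) = 1`, `b ∣ δ` -/
lemma sum_ab {g n : Eis} (hg : IsPrim g) (hs : Squarefree g) (hn : IsPrim n) (δ : Eis) :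
    ∑ a ∈ dvs g, (if (a ∣ n ∧ IsCoprime n (g / a)) ∧ g / a ∣ δ then (1 : ℂ) else 0) =
      if g ∣ n * δ then 1 else 0 := by
  have hmul : ∀ a ∈ dvs g, a * (g / a) = g := fun a ha => mul_div_mem ha
  by_cases h : g ∣ n * δ
  · rw [if_pos h]
    obtain ⟨a, b, ha, hb, hab, han, hbδ, hbn⟩ := exists_split hg hs h
    have hag : a ∈ dvs g := (mem_dvs hg.ne_zero).2 ⟨ha, ⟨b, hab⟩⟩
    have hgb : g / a = b := by
      have := hmul a hag
      rw [hab] at this
      exact mul_left_cancel₀ ha.ne_zero (by rw [hab]; exact this)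
    rw [Finset.sum_eq_single a]
    · rw [if_pos]
      rw [hgb]
      exact ⟨⟨han, hbn.symm⟩, hbδ⟩
    · intro a' ha' hne
      rw [if_neg]
      rintro ⟨⟨h1, h2⟩, h3⟩
      apply hne
      have ha'p := ((mem_dvs hg.ne_zero).1 ha').1
      exact (split_unique ha'p ha ((hmul a' ha').trans hab) h1 han h2.symm hbn).1
    · intro h'
      exact absurd hag h'
  · rw [if_neg h]
    refine Finset.sum_eq_zero fun a ha => ?_
    rw [if_neg]
    rintro ⟨⟨h1, h2⟩, h3⟩
    apply h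
    rw [← hmul a ha]
    exact mul_dvd_mul h1 h3

lemma sum3 {ι κ ν : Type*} (A : Finset ι) (B : Finset κ) (C : Finset ν) (f : ι → κ → ν → ℂ) :
    ∑ a ∈ A, ∑ b ∈ B, ∑ c ∈ C, f a b c = ∑ b ∈ B, ∑ c ∈ C, ∑ a ∈ A, f a b c := by
  rw [Finset.sum_comm]
  exact Finset.sum_congr rfl fun b _ => Finset.sum_comm

section
variable {U : ℝ → ℂ} {b0 : ℝ} {P : Eis → Prop} {K E0 L : ℝ} {X : ℕ} {α : Eis → ℂ}
  {J : Finset (Eis × Eis)} {om : Eis × Eis → ℂ} {T : Eis × Eis → Eis → ℂ} {s : Finset Eis}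

/-- far terms vanish -/
lemma CrQ_zero {Q : Eis → Prop} (hX : BX U K X) {u α : Eis → ℂ} {t : Eis} (ht : ¬ nm t ≤ X) :
    CrQ U Q (K / (nm t : ℝ) ^ 3) α u = 0 := by
  classical
  unfold Ex385.CrQ
  have h : ∀ k : Eis, (if IsPrim k ∧ Q k then
      U ((nm k : ℝ) / (K / (nm t : ℝ) ^ 3)) * (CS α k * conj (u k)) else 0) = 0 := by
    intro k
    split_ifs with h
    · rw [← arg_dil]
      have ht0 : t ≠ 0 := by
        rintro rfl
        rw [nm_zero] at ht
        omega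
      have : U ((nm (t ^ 3 * k) : ℝ) / K) = 0 := by
        by_contra h0
        have h1 := hX (t ^ 3 * k) (mul_ne_zero (pow_ne_zero _ ht0) h.1.ne_zero) h0
        apply ht
        refine le_trans ?_ h1
        rw [nm_mul, nm_pow]
        calc nm t ≤ nm t ^ 3 := Nat.le_self_pow (by norm_num) _
          _ ≤ nm t ^ 3 * nm k := Nat.le_mul_of_pos_right _ (nm_pos.2 h.1.ne_zero)
      rw [this, zero_mul]
    · rfl
  rw [tsum_congr h, tsum_zero]

open Classical in
/-- the complete `m`-sum is finite -/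
lemma tsum_m {Q : Eis → Prop} (hX : BX U K X) {u α : Eis → ℂ} {r : Eis} (hr : IsPrim r) :
    (∑' m : Eis, if IsPrim m then CrQ U Q (K / (nm (r * m) : ℝ) ^ 3) α u else 0) =
      ∑ m ∈ primBall X, CrQ U Q (K / (nm (r * m) : ℝ) ^ 3) α u := by
  rw [tsum_eq_sum (s := primBall X)]
  · refine Finset.sum_congr rfl fun m hm => ?_
    rw [if_pos (mem_primBall.1 hm).2]
  · intro m hm
    split_ifs with h
    · refine CrQ_zero hX fun h1 => hm (mem_primBall.2 ⟨le_trans ?_ h1, h⟩)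
      rw [nm_mul]
      exact Nat.le_mul_of_pos_left _ (nm_pos.2 hr.ne_zero)
    · rfl

open Classical in
/-- the `g`-term is bilinear -/
theorem NTs_lin (hX : ∀ r : ℝ, 1 ≤ r → BX U (K / r) X) (hE0 : 0 ≤ E0)
    (hs : ∀ n, α n ≠ 0 → n ∈ s) (hα : ∀ n, α n ≠ 0 → IsPrim n) {g : Eis} (hg : IsPrim g)
    (hgs : Squarefree g) :
    NTs U P K E0 α J om T g = ∑ n ∈ s, ∑ x ∈ J, α n * conj (om x) *
      (if g ∣ n * x.1 then ∑ e₀ ∈ S E0, (if IsCoprime n e₀ then (mu e₀ : ℂ) *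
        ∑ m ∈ primBall X, VV U (fun k => CbF k ∧ P k ∧ IsCoprime e₀ k)
          (K / (nm (g * e₀ * m) : ℝ) ^ 3) X E0 (Te E0 e₀ T) n x else 0) else 0) := by
  have hX1 : BX U K X := by
    have := hX 1 le_rfl
    rwa [div_one] at this
  unfold NTs
  -- expand
  have e1 : ∀ a ∈ dvs g, ∑ e₀ ∈ S E0, (mu e₀ : ℂ) * (∑' m : Eis, if IsPrim m then
      CrQ U (fun k => CbF k ∧ P k ∧ IsCoprime e₀ k) (K / (nm (g * e₀ * m) : ℝ) ^ 3)
      (alr α a (g / a * e₀)) (StT E0 J (omb om (g / a)) (Te E0 e₀ T)) else 0) =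
      ∑ n ∈ s, ∑ x ∈ J, ∑ e₀ ∈ S E0, (alr α a (g / a * e₀) n * conj (omb om (g / a) x)) *
        ((mu e₀ : ℂ) * ∑ m ∈ primBall X, VV U (fun k => CbF k ∧ P k ∧ IsCoprime e₀ k)
          (K / (nm (g * e₀ * m) : ℝ) ^ 3) X E0 (Te E0 e₀ T) n x) := by
    intro a _
    rw [← sum3]
    refine Finset.sum_congr rfl fun e₀ he₀ => ?_
    have hep := ((mem_S hE0).1 he₀).2.1
    rw [tsum_m hX1 (hg.mul hep)]
    have e2 : ∀ m ∈ primBall X, CrQ U (fun k => CbF k ∧ P k ∧ IsCoprime e₀ k)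
        (K / (nm (g * e₀ * m) : ℝ) ^ 3) (alr α a (g / a * e₀))
        (StT E0 J (omb om (g / a)) (Te E0 e₀ T)) =
        ∑ n ∈ s, ∑ x ∈ J, alr α a (g / a * e₀) n * conj (omb om (g / a) x) *
          VV U (fun k => CbF k ∧ P k ∧ IsCoprime e₀ k) (K / (nm (g * e₀ * m) : ℝ) ^ 3) X E0
            (Te E0 e₀ T) n x := by
      intro m hm
      exact CrQ_lin (hX _ (one_le_nm3 ((hg.mul hep).mul (mem_primBall.1 hm).2)))
        (fun n hn => hs n (alr_ne hn).1) E0 J _ _
    rw [Finset.sum_congr rfl e2, sum3, Finset.mul_sum]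
    refine Finset.sum_congr rfl fun n _ => ?_
    rw [Finset.mul_sum]
    refine Finset.sum_congr rfl fun x _ => ?_
    rw [← Finset.mul_sum]
    ring
  rw [Finset.sum_congr rfl e1, sum3]
  refine Finset.sum_congr rfl fun n _ => Finset.sum_congr rfl fun x _ => ?_
  rw [Finset.sum_comm]
  by_cases hn0 : α n = 0
  · rw [hn0]
    refine (Finset.sum_eq_zero fun e₀ _ => Finset.sum_eq_zero fun a _ => ?_).trans (by ring)
    have : alr α a (g / a * e₀) n = 0 := by
      by_contra h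
      exact (alr_ne h).1 hn0
    rw [this]; ring
  have hn := hα n hn0
  have e3 : ∀ e₀ ∈ S E0, ∑ a ∈ dvs g, alr α a (g / a * e₀) n * conj (omb om (g / a) x) *
      ((mu e₀ : ℂ) * ∑ m ∈ primBall X, VV U (fun k => CbF k ∧ P k ∧ IsCoprime e₀ k)
          (K / (nm (g * e₀ * m) : ℝ) ^ 3) X E0 (Te E0 e₀ T) n x) =
      α n * conj (om x) * (if g ∣ n * x.1 then (if IsCoprime n e₀ then (mu e₀ : ℂ) *
        ∑ m ∈ primBall X, VV U (fun k => CbF k ∧ P k ∧ IsCoprime e₀ k)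
          (K / (nm (g * e₀ * m) : ℝ) ^ 3) X E0 (Te E0 e₀ T) n x else 0) else 0) := by
    intro e₀ _
    set V := (mu e₀ : ℂ) * ∑ m ∈ primBall X, VV U (fun k => CbF k ∧ P k ∧ IsCoprime e₀ k)
          (K / (nm (g * e₀ * m) : ℝ) ^ 3) X E0 (Te E0 e₀ T) n x with hV
    have e4 : ∀ a ∈ dvs g, alr α a (g / a * e₀) n * conj (omb om (g / a) x) * V =
        (if IsCoprime n e₀ then α n * conj (om x) * V else 0) *
          (if (a ∣ n ∧ IsCoprime n (g / a)) ∧ g / a ∣ x.1 then (1 : ℂ) else 0) := by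
      intro a _
      unfold alr omb
      by_cases h1 : a ∣ n
      · by_cases h2 : IsCoprime n (g / a)
        · by_cases h3 : IsCoprime n e₀
          · by_cases h4 : g / a ∣ x.1
            · rw [if_pos ⟨h1, h2.mul_right h3⟩, if_pos h4, if_pos h3, if_pos ⟨⟨h1, h2⟩, h4⟩]
              ring
            · rw [if_neg h4, if_neg (fun h : (a ∣ n ∧ IsCoprime n (g / a)) ∧ g / a ∣ x.1 =>
                h4 h.2)]
              simp
          · rw [if_neg (fun h : a ∣ n ∧ IsCoprime n (g / a * e₀) => h3 h.2.of_mul_right_right),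
              if_neg h3]
            ring
        · rw [if_neg (fun h : a ∣ n ∧ IsCoprime n (g / a * e₀) => h2 h.2.of_mul_right_left),
            if_neg (fun h : (a ∣ n ∧ IsCoprime n (g / a)) ∧ g / a ∣ x.1 => h2 h.1.2)]
          ring
      · rw [if_neg (fun h : a ∣ n ∧ IsCoprime n (g / a * e₀) => h1 h.1),
          if_neg (fun h : (a ∣ n ∧ IsCoprime n (g / a)) ∧ g / a ∣ x.1 => h1 h.1.1)]
        ring
    rw [Finset.sum_congr rfl e4, ← Finset.mul_sum, sum_ab hg hgs hn]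
    by_cases h5 : g ∣ n * x.1
    · by_cases h6 : IsCoprime n e₀
      · rw [if_pos h5, if_pos h5, if_pos h6, if_pos h6, mul_one]
      · rw [if_pos h5, if_pos h5, if_neg h6, if_neg h6]; ring
    · rw [if_neg h5, if_neg h5]; ring
  rw [Finset.sum_congr rfl e3, ← Finset.mul_sum]
  congr 1
  by_cases h5 : g ∣ n * x.1
  · simp only [if_pos h5]
  · simp only [if_neg h5]
    simp

open Classical in
/-- the `l`-term is bilinear -/
theorem LTs_lin {l : Eis} (hX : BX U (K / (nm l : ℝ) ^ 3) X)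
    (hs : ∀ n, α n ≠ 0 → n ∈ s) (hα : ∀ n, α n ≠ 0 → IsPrim n) :
    LTs U P K E0 α J om T l = ∑ n ∈ s, ∑ x ∈ J, α n * conj (om x) *
      (if rl l ∣ n * x.1 then VV U P (K / (nm l : ℝ) ^ 3) X E0 T n x else 0) := by
  unfold LTs
  have e1 : ∀ a ∈ dvs (rl l), CrQ U P (K / (nm l : ℝ) ^ 3) (alr α a (rl l / a))
      (StT E0 J (omb om (rl l / a)) T) =
      ∑ n ∈ s, ∑ x ∈ J, alr α a (rl l / a) n * conj (omb om (rl l / a) x) *
        VV U P (K / (nm l : ℝ) ^ 3) X E0 T n x := fun a _ =>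
    CrQ_lin hX (fun n hn => hs n (alr_ne hn).1) E0 J _ _
  rw [Finset.sum_congr rfl e1, sum3]
  refine Finset.sum_congr rfl fun n _ => Finset.sum_congr rfl fun x _ => ?_
  by_cases hn0 : α n = 0
  · rw [hn0]
    refine (Finset.sum_eq_zero fun a _ => ?_).trans (by ring)
    have : alr α a (rl l / a) n = 0 := by
      by_contra h
      exact (alr_ne h).1 hn0
    rw [this]; ring
  have hn := hα n hn0
  set V := VV U P (K / (nm l : ℝ) ^ 3) X E0 T n x with hV
  have e4 : ∀ a ∈ dvs (rl l), alr α a (rl l / a) n * conj (omb om (rl l / a) x) * V =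
      (α n * conj (om x) * V) *
        (if (a ∣ n ∧ IsCoprime n (rl l / a)) ∧ rl l / a ∣ x.1 then (1 : ℂ) else 0) := by
    intro a _
    unfold alr omb
    by_cases h1 : a ∣ n ∧ IsCoprime n (rl l / a)
    · by_cases h4 : rl l / a ∣ x.1
      · rw [if_pos h1, if_pos h4, if_pos ⟨h1, h4⟩, mul_one]
      · rw [if_neg h4, if_neg (fun h : (a ∣ n ∧ IsCoprime n (rl l / a)) ∧ rl l / a ∣ x.1 =>
          h4 h.2)]
        simp
    · rw [if_neg h1, if_neg (fun h : (a ∣ n ∧ IsCoprime n (rl l / a)) ∧ rl l / a ∣ x.1 =>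
        h1 h.1)]
      ring
  rw [Finset.sum_congr rfl e4, ← Finset.mul_sum, sum_ab (rl_prim l) (rl_sqf l) hn]
  split_ifs <;> ring

open Classical in
/-- **THE IDENTITY** : the complete `c`-sum -/
theorem cub_split (hU : ∀ t, U t ≠ 0 → t ≤ b0) (hK : 0 < K) (hE0 : 0 ≤ E0) (hL : 0 ≤ L)
    (hα : FS α) (hJ : OKJ J) (om : Eis × Eis → ℂ) (hT : TOK T)
    (hP : ∀ k c, IsPrim k → IsPrim c → (P (c ^ 3 * k) ↔ P k)) (hX : b0 * K ≤ X) :
    CrQ U P K α (StT E0 J om T) =
      ∑ g ∈ S L, (mu g : ℂ) * NTs U P K E0 α J om T g +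
      ∑ l ∈ (primBall X).filter (fun l => L < (nm l : ℝ)),
        (lamL L l : ℂ) * LTs U P K E0 α J om T l := by
  set s := hα.fin.toFinset with hsd
  have hs : ∀ n, α n ≠ 0 → n ∈ s := fun n hn => by rw [hsd, Set.Finite.mem_toFinset]; exact hn
  have hX' : ∀ r : ℝ, 1 ≤ r → BX U (K / r) X := fun r hr => bx_of hU hK hX hr
  have hX1 : BX U K X := by
    have := hX' 1 le_rfl
    rwa [div_one] at this
  rw [CrQ_lin hX1 hs]
  have e1 : ∀ n ∈ s, ∀ x ∈ J, α n * conj (om x) * VV U P K X E0 T n x =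
      ∑ g ∈ S L, (mu g : ℂ) * (α n * conj (om x) *
        (if g ∣ n * x.1 then ∑ e₀ ∈ S E0, (if IsCoprime n e₀ then (mu e₀ : ℂ) *
          ∑ m ∈ primBall X, VV U (fun k => CbF k ∧ P k ∧ IsCoprime e₀ k)
            (K / (nm (g * e₀ * m) : ℝ) ^ 3) X E0 (Te E0 e₀ T) n x else 0) else 0)) +
      ∑ l ∈ (primBall X).filter (fun l => L < (nm l : ℝ)), (lamL L l : ℂ) *
        (α n * conj (om x) * (if rl l ∣ n * x.1 then
          VV U P (K / (nm l : ℝ) ^ 3) X E0 T n x else 0)) := by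
    intro n hn x hx
    by_cases hn0 : α n = 0
    · rw [hn0]
      simp
    rw [VV_split hX' hE0 hL hP hT (hα.prim n hn0) (hJ.prim x hx), mul_add, Finset.mul_sum,
      Finset.mul_sum]
    congr 1
    · refine Finset.sum_congr rfl fun g _ => ?_
      split_ifs
      · ring
      · ring
    · refine Finset.sum_congr rfl fun l _ => ?_
      split_ifs
      · ring
      · ring
  rw [Finset.sum_congr rfl fun n hn => Finset.sum_congr rfl fun x hx => e1 n hn x hx]
  have e2 : ∀ g ∈ S L, (mu g : ℂ) * NTs U P K E0 α J om T g = ∑ n ∈ s, ∑ x ∈ J, (mu g : ℂ) *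
      (α n * conj (om x) *
        (if g ∣ n * x.1 then ∑ e₀ ∈ S E0, (if IsCoprime n e₀ then (mu e₀ : ℂ) *
          ∑ m ∈ primBall X, VV U (fun k => CbF k ∧ P k ∧ IsCoprime e₀ k)
            (K / (nm (g * e₀ * m) : ℝ) ^ 3) X E0 (Te E0 e₀ T) n x else 0) else 0)) := by
    intro g hg
    obtain ⟨-, hgp, hgs⟩ := (mem_S hL).1 hg
    rw [NTs_lin hX' hE0 hs hα.prim hgp hgs, Finset.mul_sum]
    exact Finset.sum_congr rfl fun n _ => by rw [Finset.mul_sum]
  have e3 : ∀ l ∈ (primBall X).filter (fun l => L < (nm l : ℝ)),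
      (lamL L l : ℂ) * LTs U P K E0 α J om T l = ∑ n ∈ s, ∑ x ∈ J, (lamL L l : ℂ) *
        (α n * conj (om x) * (if rl l ∣ n * x.1 then
          VV U P (K / (nm l : ℝ) ^ 3) X E0 T n x else 0)) := by
    intro l hl
    have hlp := (mem_primBall.1 (Finset.mem_filter.1 hl).1).2
    rw [LTs_lin (hX' _ (one_le_nm3 hlp)) hs hα.prim, Finset.mul_sum]
    exact Finset.sum_congr rfl fun n _ => by rw [Finset.mul_sum]
  rw [Finset.sum_congr rfl e2, Finset.sum_congr rfl e3, sum3 (S L) s J,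
    sum3 ((primBall X).filter (fun l => L < (nm l : ℝ))) s J, ← Finset.sum_add_distrib]
  refine Finset.sum_congr rfl fun n _ => ?_
  rw [← Finset.sum_add_distrib]

end

end Crest.Agent.R017.CubP813
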