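import Crest.Agent.R017.E3Mh_829

/-!
# Row 17, block C70, leaf E3 (helper829): the errors of the diagonal as `T`-moments

* `TF s J om E0 T = Σ_x ‖om x‖² N(x₂)^(-1/3) Σ_{e ∈ S E0} N(e)^s ‖T x₁ e x₂‖²`
* `ET_le`, `MB_le`, **`gram_fin`**
-/

set_option autoImplicit false

noncomputable section

open scoped ComplexConjugate
open Finset MeasureTheory

namespace Crest.Agent.R017.E3M829

open Crest.Agent.R012 Crest.Agent.R012.Eis Crest.Agent.R012.T3_85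
open Crest.Agent.R012.LS2 (S mem_S)
open Crest.Agent.R012.Mob705 (mu IsPP pdiv mem_pdiv cop mem_cop pb mem_pb kap0 kap0_pos PE PE_pos
  PE_le_one sig sig_pos sig_le_tau)
open Crest.Agent.R012.Div277 (tau)
open Crest.Agent.R017.E1551 (nmpos)
open Crest.Agent.R017.PX764 Crest.Agent.R017.C70 Crest.Agent.R017.GrB829
open Crest.Agent.R017.GrD829 Crest.Agent.R017.E3s164 Crest.Agent.R017.E3A164
open Crest.Agent.R017.GrC829 (Wt)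
open Crest.Agent.R017.DgB829

/-- the `T`-moment with the weight `N(e)^s` -/
def TF (s : ℝ) (J : Finset (Eis × Eis)) (om : Eis × Eis → ℂ) (E0 : ℝ)
    (T : Eis → Eis → Eis → ℂ) : ℝ :=
  ∑ x ∈ J, ‖om x‖ ^ 2 * ((nm x.2 : ℝ) ^ (-(1 : ℝ) / 3) *
    ∑ e ∈ S E0, (nm e : ℝ) ^ s * ‖T x.1 e x.2‖ ^ 2)

lemma TF_nonneg (s : ℝ) (J : Finset (Eis × Eis)) (om : Eis × Eis → ℂ) (E0 : ℝ)
    (T : Eis → Eis → Eis → ℂ) : 0 ≤ TF s J om E0 T := by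
  unfold TF; positivity

/-- the divisor bound in a range -/
lemma tau_Z {ε : ℝ} (hε : 0 < ε) : ∃ C : ℝ, 1 ≤ C ∧ ∀ (Z : ℝ), 1 ≤ Z → ∀ n : Eis,
    (nm n : ℝ) ≤ Z → (tau n : ℝ) ≤ C * Z ^ ε := by
  obtain ⟨C, hC, h⟩ := Div277.tau_le_rpow hε
  refine ⟨C, hC, fun Z hZ n hn => ?_⟩
  by_cases h0 : n = 0
  · rw [h0, Div277.tau_zero]
    have : 0 ≤ Z ^ ε := by positivity
    simp only [Nat.cast_zero]
    positivity
  · refine (h n h0).trans (mul_le_mul_of_nonneg_left ?_ (by linarith))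
    exact Real.rpow_le_rpow (Nat.cast_nonneg _) hn hε.le

lemma log_Z {ε : ℝ} (hε : 0 < ε) {Z : ℝ} (hZ : 1 ≤ Z) : 1 + Real.log Z ≤ (1 + 1 / ε) * Z ^ ε := by
  have h1 := Real.log_le_rpow_div (by linarith : (0 : ℝ) ≤ Z) hε
  have h2 : 1 ≤ Z ^ ε := Real.one_le_rpow hZ hε.le
  have e : Z ^ ε / ε = (1 / ε) * Z ^ ε := by ring
  rw [e] at h1
  linarith

/-- the logarithm of a multiple -/
lemma log_bZ {ε b : ℝ} (hε : 0 < ε) (hb : 0 ≤ b) {Z : ℝ} (hZ : 1 ≤ Z) :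
    1 + Real.log (1 + b * Z) ≤ (1 + Real.log (1 + b)) * ((1 + 1 / ε) * Z ^ ε) := by
  have h0 : 0 ≤ Real.log (1 + b) := Real.log_nonneg (by linarith)
  have h1 : Real.log (1 + b * Z) ≤ Real.log (1 + b) + Real.log Z := by
    rw [← Real.log_mul (by linarith) (by linarith)]
    exact Real.log_le_log (by positivity) (by nlinarith)
  have h2 := log_Z hε hZ
  have h3 : 0 ≤ Real.log Z := Real.log_nonneg hZ
  nlinarith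

lemma EL_Z {ε b : ℝ} (hε : 0 < ε) (hb : 0 ≤ b) {Z K : ℝ} (hZ : 1 ≤ Z) (hKZ : K ≤ Z) :
    EL (b * K) ≤ (1 + Real.log (1 + (1 + b))) * ((1 + 1 / ε) * Z ^ ε) := by
  refine le_trans ?_ (log_bZ hε (by linarith : (0 : ℝ) ≤ 1 + b) hZ)
  unfold EL
  have h1 : Real.sqrt (b * K) ≤ (1 + b) * Z := by
    have h2 : b * K ≤ ((1 + b) * Z) ^ 2 := by
      have h3 : b * K ≤ b * Z := mul_le_mul_of_nonneg_left hKZ hb
      have h4 : b * Z ≤ (1 + b) * Z := mul_le_mul_of_nonneg_right (by linarith) (by linarith)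
      have h5 : 1 ≤ (1 + b) * Z := by nlinarith
      nlinarith
    calc Real.sqrt (b * K) ≤ Real.sqrt (((1 + b) * Z) ^ 2) := Real.sqrt_le_sqrt h2
      _ = _ := Real.sqrt_sq (by positivity)
  have h6 : Real.log (1 + Real.sqrt (b * K)) ≤ Real.log (1 + (1 + b) * Z) :=
    Real.log_le_log (by positivity) (by linarith)
  linarith

/-- Cauchy for the error sum -/
lemma Eu_le (E0 : ℝ) (U : Eis → ℂ) {τ : ℝ} (hτ0 : 0 ≤ τ)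
    (hτ : ∀ t ∈ S E0, (tau t : ℝ) ≤ τ) :
    Eu E0 U ≤ (τ ^ 4 * HS E0) * ∑ t ∈ S E0, (nm t : ℝ) ^ (1 / 2 : ℝ) * ‖U t‖ ^ 2 := by
  have h1 := Finset.sum_mul_sq_le_sq_mul_sq (S E0)
    (fun t => (tau t : ℝ) ^ 2 * (nm t : ℝ) ^ (-(1 : ℝ) / 2))
    (fun t => (nm t : ℝ) ^ ((1 : ℝ) / 4) * ‖U t‖)
  have hpos : ∀ t ∈ S E0, (0 : ℝ) < nm t := fun t ht => nmpos (S_pr ht).1.ne_zero
  have e1 : ∑ t ∈ S E0, (tau t : ℝ) ^ 2 * (nm t : ℝ) ^ (-(1 : ℝ) / 2) *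
      ((nm t : ℝ) ^ ((1 : ℝ) / 4) * ‖U t‖) =
      ∑ t ∈ S E0, (tau t : ℝ) ^ 2 * (nm t : ℝ) ^ (-(1 : ℝ) / 4) * ‖U t‖ := by
    refine sum_congr rfl fun t ht => ?_
    have e2 : (nm t : ℝ) ^ (-(1 : ℝ) / 2) * (nm t : ℝ) ^ ((1 : ℝ) / 4) =
        (nm t : ℝ) ^ (-(1 : ℝ) / 4) := by
      rw [← Real.rpow_add (hpos t ht)]; norm_num
    calc _ = (tau t : ℝ) ^ 2 * ((nm t : ℝ) ^ (-(1 : ℝ) / 2) * (nm t : ℝ) ^ ((1 : ℝ) / 4)) *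
          ‖U t‖ := by ring
      _ = _ := by rw [e2]
  have e3 : ∑ t ∈ S E0, ((tau t : ℝ) ^ 2 * (nm t : ℝ) ^ (-(1 : ℝ) / 2)) ^ 2 ≤ τ ^ 4 * HS E0 := by
    unfold HS
    rw [mul_sum]
    refine sum_le_sum fun t ht => ?_
    have e4 : ((nm t : ℝ) ^ (-(1 : ℝ) / 2)) ^ 2 = 1 / nm t := by
      rw [← Real.rpow_natCast, ← Real.rpow_mul (hpos t ht).le, one_div, ← Real.rpow_neg_one]
      norm_num
    rw [mul_pow, e4, ← pow_mul]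
    exact mul_le_mul_of_nonneg_right (pow_le_pow_left₀ (Nat.cast_nonneg _) (hτ t ht) 4)
      (by have := hpos t ht; positivity)
  have e5 : ∑ t ∈ S E0, ((nm t : ℝ) ^ ((1 : ℝ) / 4) * ‖U t‖) ^ 2 =
      ∑ t ∈ S E0, (nm t : ℝ) ^ (1 / 2 : ℝ) * ‖U t‖ ^ 2 := by
    refine sum_congr rfl fun t ht => ?_
    have e6 : ((nm t : ℝ) ^ ((1 : ℝ) / 4)) ^ 2 = (nm t : ℝ) ^ (1 / 2 : ℝ) := by
      rw [← Real.rpow_natCast, ← Real.rpow_mul (hpos t ht).le]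
      norm_num
    rw [mul_pow, e6]
  rw [e1, e5] at h1
  unfold Eu
  refine h1.trans (mul_le_mul_of_nonneg_right e3 (by positivity))

lemma HS_Z {ε : ℝ} (hε : 0 < ε) {Z E0 : ℝ} (hZ : 1 ≤ Z) (hE : E0 ≤ Z) :
    HS E0 ≤ 200 * ((1 + 1 / ε) * Z ^ ε) := by
  have h0 : 0 ≤ 200 * ((1 + 1 / ε) * Z ^ ε) := by positivity
  by_cases h1 : 1 ≤ E0
  · refine (HS_le h1).trans ?_
    have h2 := log_Z hε hZ
    have h3 : Real.log E0 ≤ Real.log Z := Real.log_le_log (by linarith) hE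
    linarith
  · push Not at h1
    have h2 : HS E0 = 0 := by
      unfold HS
      refine sum_eq_zero fun t ht => ?_
      exfalso
      have h3 := S_pr ht
      have h4 : (1 : ℝ) ≤ nm t := one_le h3.1
      by_cases h5 : 0 ≤ E0
      · have := ((mem_S h5).1 ht).1
        linarith
      · have h6 : t ∈ primBall ⌊E0⌋₊ := by
          classical
          unfold LS2.S at ht
          exact (mem_filter.mp ht).1
        rw [mem_primBall, Nat.floor_of_nonpos (by linarith)] at h6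
        have : nm t = 0 := Nat.le_zero.mp h6.1
        rw [this] at h4
        norm_num at h4
    rw [h2]
    exact h0

lemma mem_S_le {E0 Z : ℝ} (hZ : 1 ≤ Z) (hE : E0 ≤ Z) {t : Eis} (ht : t ∈ S E0) :
    (nm t : ℝ) ≤ Z := by
  classical
  have h1 : t ∈ primBall ⌊E0⌋₊ := by
    unfold LS2.S at ht
    exact (mem_filter.mp ht).1
  rw [mem_primBall] at h1
  by_cases h5 : 0 ≤ E0
  · have : (nm t : ℝ) ≤ ⌊E0⌋₊ := by exact_mod_cast h1.1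
    exact (this.trans (Nat.floor_le h5)).trans hE
  · rw [Nat.floor_of_nonpos (by linarith)] at h1
    have : nm t = 0 := Nat.le_zero.mp h1.1
    rw [this]
    simp only [Nat.cast_zero]
    linarith

/-- **the error `ET`** -/
theorem ET_le {w : ℝ → ℝ} {a₀ b₀ D : ℝ} (h : Wt (fun t => (w t : ℂ)) a₀ b₀ D) {ε : ℝ}
    (hε : 0 < ε) : ∃ C : ℝ, 0 ≤ C ∧ ∀ (K Z R E0 : ℝ), 0 < K → 1 ≤ Z → K ≤ Z → E0 ≤ Z →
      R ≤ Z → ∀ (J : Finset (Eis × Eis)), OKJ J → (∀ x ∈ J, (nm x.1 : ℝ) ≤ Z) →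
      (∀ x ∈ J, (nm x.2 : ℝ) ≤ R) → ∀ (om : Eis × Eis → ℂ) (T : Eis → Eis → Eis → ℂ),
      ET a₀ b₀ D K J om E0 T ≤
        C * Z ^ ε * ((R / K ^ 2) ^ (1 / 6 : ℝ) * K ^ (2 / 3 : ℝ)) * TF (1 / 2) J om E0 T := by
  have hε' : 0 < ε / 9 := by positivity
  obtain ⟨Cτ, hCτ, hτ⟩ := tau_Z hε'
  have hb0 : 0 < b₀ := h.pos.trans_le h.le
  have hba : 0 ≤ b₀ - a₀ := by have := h.le; linarith
  have hD := h.D_nonneg
  set c1 : ℝ := (1 + Real.log (1 + (1 + b₀))) * (1 + 1 / (ε / 9)) with hc1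
  have hc10 : 0 ≤ c1 := by
    have : 0 ≤ Real.log (1 + (1 + b₀)) := Real.log_nonneg (by linarith)
    rw [hc1]; positivity
  set c2 : ℝ := 200 * (1 + 1 / (ε / 9)) with hc2
  set C0 : ℝ := (b₀ - a₀) * D * (10000000 * Cτ * Cτ ^ 2 * b₀ ^ (1 / 3 : ℝ) * c1) *
    (Cτ ^ 4 * c2) with hC0
  refine ⟨C0, by rw [hC0]; positivity, ?_⟩
  intro K Z R E0 hK hZ hKZ hEZ hRZ J hJ hJ1 hJ2 om T
  have hZ0 : 0 < Z := by linarith
  set z := Z ^ (ε / 9) with hz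
  have hz0 : 0 < z := Real.rpow_pos_of_pos hZ0 _
  have hz9 : z ^ 9 = Z ^ ε := by
    rw [hz, ← Real.rpow_natCast, ← Real.rpow_mul hZ0.le]
    congr 1
    push_cast
    ring
  unfold ET TF
  rw [mul_sum]
  refine sum_le_sum fun x hx => ?_
  have hδ := hJ.prim x hx
  have hj0 := GrE579.JC.ne_zero (hJ.jc x hx)
  have nj := nmpos hj0
  have hR0 : 0 < R := nj.trans_le (hJ2 x hx)
  -- the coefficient
  have h1 : Ec a₀ b₀ D K x.2 x.1 ≤ (b₀ - a₀) * D * (10000000 * Cτ * Cτ ^ 2 * b₀ ^ (1 / 3 : ℝ) *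
      c1) * z ^ 4 * ((R / K ^ 2) ^ (1 / 6 : ℝ) * K ^ (2 / 3 : ℝ) *
        (nm x.2 : ℝ) ^ (-(1 : ℝ) / 3)) := by
    have t1 : sig x.1 ≤ Cτ * z :=
      (sig_le_tau hδ.ne_zero).trans (hτ Z hZ _ (hJ1 x hx))
    have t2 : (tau x.2 : ℝ) ≤ Cτ * z := hτ Z hZ _ ((hJ2 x hx).trans hRZ)
    have t3 : EL (b₀ * K) ≤ c1 * z := by
      have := EL_Z hε' hb0.le hZ hKZ
      rw [hc1, hz]
      linarith
    have t3' := GrB829.EL_nonneg (b₀ * K)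
    have t4 : n6 x.2 * (b₀ * K) ^ (1 / 3 : ℝ) ≤ b₀ ^ (1 / 3 : ℝ) *
        ((R / K ^ 2) ^ (1 / 6 : ℝ) * K ^ (2 / 3 : ℝ) * (nm x.2 : ℝ) ^ (-(1 : ℝ) / 3)) := by
      have e1 : n6 x.2 * (b₀ * K) ^ (1 / 3 : ℝ) = b₀ ^ (1 / 3 : ℝ) *
          (((nm x.2 : ℝ) / K ^ 2) ^ (1 / 6 : ℝ) * K ^ (2 / 3 : ℝ) *
            (nm x.2 : ℝ) ^ (-(1 : ℝ) / 3)) := by
        rw [Real.mul_rpow hb0.le hK.le, Real.div_rpow nj.le (by positivity)]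
        unfold PX764.n6
        have e2 : (K ^ 2 : ℝ) ^ (1 / 6 : ℝ) = K ^ (1 / 3 : ℝ) := by
          rw [← Real.rpow_natCast, ← Real.rpow_mul hK.le]; norm_num
        have e3 : K ^ (2 / 3 : ℝ) = K ^ (1 / 3 : ℝ) * K ^ (1 / 3 : ℝ) := by
          rw [← Real.rpow_add hK]; norm_num
        have e4 : (nm x.2 : ℝ) ^ (1 / 6 : ℝ) * (nm x.2 : ℝ) ^ (-(1 : ℝ) / 3) =
            (nm x.2 : ℝ) ^ (-(1 : ℝ) / 6) := by
          rw [← Real.rpow_add nj]; norm_num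
        have e5 : (0 : ℝ) < K ^ (1 / 3 : ℝ) := by positivity
        rw [e2, e3, ← e4]
        field_simp
      rw [e1]
      have e6 : ((nm x.2 : ℝ) / K ^ 2) ^ (1 / 6 : ℝ) ≤ (R / K ^ 2) ^ (1 / 6 : ℝ) := by
        have := hJ2 x hx
        gcongr
      gcongr
    have hn6 := n6_pos hj0
    have hs0 := sig_pos x.1
    unfold Ec
    calc (b₀ - a₀) * D * (10000000 * sig x.1 * (tau x.2 : ℝ) ^ 2 * n6 x.2 *
          (b₀ * K) ^ (1 / 3 : ℝ) * EL (b₀ * K))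
        = (b₀ - a₀) * D * (10000000 * sig x.1 * (tau x.2 : ℝ) ^ 2 *
          (n6 x.2 * (b₀ * K) ^ (1 / 3 : ℝ)) * EL (b₀ * K)) := by ring
      _ ≤ (b₀ - a₀) * D * (10000000 * (Cτ * z) * (Cτ * z) ^ 2 *
          (b₀ ^ (1 / 3 : ℝ) * ((R / K ^ 2) ^ (1 / 6 : ℝ) * K ^ (2 / 3 : ℝ) *
            (nm x.2 : ℝ) ^ (-(1 : ℝ) / 3))) * (c1 * z)) := by
          gcongr
      _ = _ := by ring
  have h2 : Eu E0 (fun t => T x.1 t x.2) ≤ (Cτ ^ 4 * c2) * z ^ 5 *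
      ∑ e ∈ S E0, (nm e : ℝ) ^ (1 / 2 : ℝ) * ‖T x.1 e x.2‖ ^ 2 := by
    have h3 := Eu_le E0 (fun t => T x.1 t x.2) (τ := Cτ * z) (by positivity)
      (fun t ht => hτ Z hZ t (mem_S_le hZ hEZ ht))
    refine h3.trans (mul_le_mul_of_nonneg_right ?_ (by positivity))
    have h4 := HS_Z hε' hZ hEZ
    rw [← hz] at h4
    calc (Cτ * z) ^ 4 * HS E0 ≤ (Cτ * z) ^ 4 * (200 * ((1 + 1 / (ε / 9)) * z)) := by gcongr
      _ = _ := by rw [hc2]; ring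
  have hE1 : 0 ≤ Eu E0 (fun t => T x.1 t x.2) := by unfold Eu; positivity
  calc ‖om x‖ ^ 2 * (Ec a₀ b₀ D K x.2 x.1 * Eu E0 (fun t => T x.1 t x.2))
      ≤ ‖om x‖ ^ 2 * (((b₀ - a₀) * D * (10000000 * Cτ * Cτ ^ 2 * b₀ ^ (1 / 3 : ℝ) *
      c1) * z ^ 4 * ((R / K ^ 2) ^ (1 / 6 : ℝ) * K ^ (2 / 3 : ℝ) *
        (nm x.2 : ℝ) ^ (-(1 : ℝ) / 3))) * ((Cτ ^ 4 * c2) * z ^ 5 *
      ∑ e ∈ S E0, (nm e : ℝ) ^ (1 / 2 : ℝ) * ‖T x.1 e x.2‖ ^ 2)) := by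
        refine mul_le_mul_of_nonneg_left ?_ (by positivity)
        exact mul_le_mul h1 h2 hE1 (by positivity)
    _ = _ := by rw [← hz9, hC0]; ring

/-- **the mass `MB`** -/
theorem MB_le {W b₀ : ℝ} (hW : 0 ≤ W) (hb : 0 ≤ b₀) {ε : ℝ} (hε : 0 < ε) :
    ∃ C : ℝ, 0 ≤ C ∧ ∀ (K Z E0 : ℝ), 0 < K → 1 ≤ Z → K ≤ Z → E0 ≤ Z →
      ∃ τ : ℝ, 0 ≤ τ ∧ (∀ m : Eis, (nm m : ℝ) ≤ b₀ * K → (tau m : ℝ) ≤ τ) ∧
      ∀ (B : ℝ) (J : Finset (Eis × Eis)), 0 < B → ∀ (om : Eis × Eis → ℂ)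
      (T : Eis → Eis → Eis → ℂ),
      MB W b₀ K B τ J om E0 T ≤
        C * Z ^ ε * (B⁻¹ * K ^ (2 / 3 : ℝ)) * TF (-1) J om E0 T := by
  have hε' : 0 < ε / 8 := by positivity
  obtain ⟨Cτ, hCτ, hτ⟩ := tau_Z hε'
  set c1 : ℝ := (1 + Real.log (1 + b₀)) * (1 + 1 / (ε / 8)) with hc1
  have hlb : 0 ≤ Real.log (1 + b₀) := Real.log_nonneg (by linarith)
  have hc10 : 0 ≤ c1 := by rw [hc1]; positivity
  set cτ : ℝ := Cτ * (1 + b₀) ^ (ε / 8) with hcτ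
  have hcτ0 : 0 ≤ cτ := by rw [hcτ]; positivity
  set C0 : ℝ := 450 * W * cτ ^ 3 * b₀ ^ (2 / 3 : ℝ) * (100 * c1) ^ 3 * Cτ ^ 2 with hC0
  refine ⟨C0, by rw [hC0]; positivity, ?_⟩
  intro K Z E0 hK hZ hKZ hEZ
  have hZ0 : 0 < Z := by linarith
  set z := Z ^ (ε / 8) with hz
  have hz0 : 0 < z := Real.rpow_pos_of_pos hZ0 _
  have hz8 : z ^ 8 = Z ^ ε := by
    rw [hz, ← Real.rpow_natCast, ← Real.rpow_mul hZ0.le]
    congr 1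
    push_cast
    ring
  refine ⟨cτ * z, by positivity, fun m hm => ?_, ?_⟩
  · have h1 : (nm m : ℝ) ≤ (1 + b₀) * Z := by
      have : b₀ * K ≤ b₀ * Z := mul_le_mul_of_nonneg_left hKZ hb
      nlinarith
    have h2 := hτ ((1 + b₀) * Z) (by nlinarith) m h1
    rw [Real.mul_rpow (by linarith) hZ0.le, ← hz] at h2
    rw [hcτ]
    linarith
  · intro B J hB om T
    have hB1 : 0 < B⁻¹ := inv_pos.mpr hB
    have hHp : Hp (b₀ * K) ≤ 100 * c1 * z := by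
      refine (Hp_mono (mul_le_mul_of_nonneg_left hKZ hb)).trans ?_
      refine (Hp_le (by positivity)).trans ?_
      have := log_bZ hε' hb hZ
      rw [hc1, hz]
      linarith
    have hHp0 := Hp_nonneg (b₀ * K)
    have hMF : ∑ x ∈ J, MF om T E0 x ≤ Cτ ^ 2 * z ^ 2 * TF (-1) J om E0 T := by
      unfold TF
      rw [mul_sum]
      refine sum_le_sum fun x _ => ?_
      unfold MF
      have h3 : ∑ e ∈ S E0, (tau e : ℝ) ^ 2 / nm e * ‖T x.1 e x.2‖ ^ 2 ≤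
          Cτ ^ 2 * z ^ 2 * ∑ e ∈ S E0, (nm e : ℝ) ^ (-1 : ℝ) * ‖T x.1 e x.2‖ ^ 2 := by
        rw [mul_sum]
        refine sum_le_sum fun e he => ?_
        have h4 : (tau e : ℝ) ^ 2 ≤ (Cτ * z) ^ 2 :=
          pow_le_pow_left₀ (Nat.cast_nonneg _) (hτ Z hZ e (mem_S_le hZ hEZ he)) 2
        rw [Real.rpow_neg_one, div_eq_mul_inv]
        calc (tau e : ℝ) ^ 2 * (nm e : ℝ)⁻¹ * ‖T x.1 e x.2‖ ^ 2
            ≤ (Cτ * z) ^ 2 * (nm e : ℝ)⁻¹ * ‖T x.1 e x.2‖ ^ 2 := by gcongr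
          _ = _ := by ring
      calc ‖om x‖ ^ 2 * (nm x.2 : ℝ) ^ (-(1 : ℝ) / 3) *
            ∑ e ∈ S E0, (tau e : ℝ) ^ 2 / nm e * ‖T x.1 e x.2‖ ^ 2
          ≤ ‖om x‖ ^ 2 * (nm x.2 : ℝ) ^ (-(1 : ℝ) / 3) *
            (Cτ ^ 2 * z ^ 2 * ∑ e ∈ S E0, (nm e : ℝ) ^ (-1 : ℝ) * ‖T x.1 e x.2‖ ^ 2) :=
            mul_le_mul_of_nonneg_left h3 (by positivity)
        _ = _ := by ring
    have hTF := TF_nonneg (-1) J om E0 T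
    have hMF0 : 0 ≤ ∑ x ∈ J, MF om T E0 x := sum_nonneg fun x _ => MF_nonneg om T E0 x
    unfold MB
    rw [Real.mul_rpow hb hK.le]
    calc 450 * W * (cτ * z) ^ 3 * (b₀ ^ (2 / 3 : ℝ) * K ^ (2 / 3 : ℝ)) * B⁻¹ *
          Hp (b₀ * K) ^ 3 * ∑ x ∈ J, MF om T E0 x
        ≤ 450 * W * (cτ * z) ^ 3 * (b₀ ^ (2 / 3 : ℝ) * K ^ (2 / 3 : ℝ)) * B⁻¹ *
          (100 * c1 * z) ^ 3 * (Cτ ^ 2 * z ^ 2 * TF (-1) J om E0 T) := by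
          gcongr
      _ = _ := by rw [← hz8, hC0]; ring

open Classical in
/-- **the cut Gram form, errors as `T`-moments** -/
theorem gram_fin {w : ℝ → ℝ} (hw : MC.Wgt w) (hw0 : ∀ x, 0 ≤ w x) {ε : ℝ} (hε : 0 < ε) :
    ∃ C : ℝ, 0 ≤ C ∧ ∀ (K Z R E0 E1 B : ℝ), 0 < K → 1 ≤ Z → K ≤ Z → 0 ≤ E0 → E0 ≤ Z →
      R ≤ Z → 1 ≤ B → ∀ (J : Finset (Eis × Eis)), OKJ J → (∀ x ∈ J, (nm x.1 : ℝ) ≤ Z) →
      (∀ x ∈ J, (nm x.2 : ℝ) ≤ R) → ∀ (om : Eis × Eis → ℂ) (T : Eis → Eis → Eis → ℂ), TC T →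
      ∀ OFF : ℝ, Sg w K B R E1 (fun q t k₁ => ‖∑ y ∈ Ys J E0 R, Fy J om T q t k₁ y‖ ^ 2) ≤
        Sg w K B R E1 (fun q t k₁ => Dg J om T E0 R q t k₁) + OFF →
      (∑' k : Eis, if IsPrim k ∧ Cut E1 k then
        w ((nm k : ℝ) / K) * ‖SteT J om E0 T k‖ ^ 2 else 0) ≤
      kap0 * K ^ (2 / 3 : ℝ) * Iw w * XT J om E0 T + C * Z ^ ε * K ^ (2 / 3 : ℝ) *
        ((R / K ^ 2) ^ (1 / 6 : ℝ) * TF (1 / 2) J om E0 T + B⁻¹ * TF (-1) J om E0 T) + OFF := by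
  obtain ⟨a₀, b₁, D, h⟩ := exists_Wt hw
  obtain ⟨W, b₂, hb2, hw2⟩ := exists_W0 hw hw0
  -- a common right end point
  have hw1 : W0 w W b₁ := ⟨hw0, hw2.le, fun x hx => by
    have h1 := h.supp x (fun h' => absurd h'.2 (not_le.mpr hx))
    exact_mod_cast h1⟩
  have hb1 : 0 ≤ b₁ := h.pos.le.trans h.le
  obtain ⟨C1, hC1, h1⟩ := ET_le h hε
  obtain ⟨C2, hC2, h2⟩ := MB_le hw1.nonneg hb1 hε
  refine ⟨C1 + C2, by positivity, ?_⟩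
  intro K Z R E0 E1 B hK hZ hKZ hE hEZ hRZ hB J hJ hJ1 hJ2 om T hT OFF hoff
  obtain ⟨τ, hτ0, hτ, h3⟩ := h2 K Z E0 hK hZ hKZ hEZ
  have h4 := gram_T (om := om) h hw1 hK hB hJ hE hT hJ2 E1 hτ0 hτ hoff
  have h5 := h1 K Z R E0 hK hZ hKZ hEZ hRZ J hJ hJ1 hJ2 om T
  have h6 := h3 B J (by linarith) om T
  have hZ0 : (0 : ℝ) < Z := by linarith
  have t1 := TF_nonneg (1 / 2) J om E0 T
  have t2 := TF_nonneg (-1) J om E0 T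
  have hR : J.Nonempty → 0 ≤ R := fun ⟨x, hx⟩ => (Nat.cast_nonneg _).trans (hJ2 x hx)
  have hB1 : 0 < B⁻¹ := inv_pos.mpr (by linarith)
  have h7 : 0 ≤ C2 * Z ^ ε * K ^ (2 / 3 : ℝ) * ((R / K ^ 2) ^ (1 / 6 : ℝ) *
      TF (1 / 2) J om E0 T) := by
    rcases J.eq_empty_or_nonempty with hJe | hJn
    · have : TF (1 / 2) J om E0 T = 0 := by rw [hJe]; unfold TF; simp
      rw [this]; simp
    · have := hR hJn
      positivity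
  have h8 : 0 ≤ C1 * Z ^ ε * K ^ (2 / 3 : ℝ) * (B⁻¹ * TF (-1) J om E0 T) := by positivity
  have h9 : (C1 + C2) * Z ^ ε * K ^ (2 / 3 : ℝ) *
        ((R / K ^ 2) ^ (1 / 6 : ℝ) * TF (1 / 2) J om E0 T + B⁻¹ * TF (-1) J om E0 T) =
      C1 * Z ^ ε * ((R / K ^ 2) ^ (1 / 6 : ℝ) * K ^ (2 / 3 : ℝ)) * TF (1 / 2) J om E0 T +
      C2 * Z ^ ε * (B⁻¹ * K ^ (2 / 3 : ℝ)) * TF (-1) J om E0 T +
      C2 * Z ^ ε * K ^ (2 / 3 : ℝ) * ((R / K ^ 2) ^ (1 / 6 : ℝ) * TF (1 / 2) J om E0 T) +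
      C1 * Z ^ ε * K ^ (2 / 3 : ℝ) * (B⁻¹ * TF (-1) J om E0 T) := by ring
  rw [h9]
  linarith

end Crest.Agent.R017.E3M829
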