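import Crest.Agent.R017.GrB_829

/-!
# Row 17, R8 (E3, item (c0)): classification of the principal pairs (helper829)

`(δ, j)`, `(δ', j')` as in `JW`, `(j, δ) = (j', δ') = 1`, `k` primary prime to `δ δ'`,
`th(j k) ≠ 0`, `th(j' k) ≠ 0`. If all `ord_p (j' δ (j δ')²)`, `p ∤ 3`, are divisible by `3` then
`j₀ = j₀'`, `δ = δ'` (`j = c j₀`, `j' = c' j₀'`) : `classify`; `classify_pair` is the form for pairs.
-/

set_option autoImplicit false

noncomputable section

open Finset
open scoped ComplexConjugate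

namespace Crest.Agent.R017.GrD829

open Crest.Agent.R012 Crest.Agent.R012.Eis Crest.Agent.R012.Mob705 Crest.Agent.R012.Gauss880
open Crest.Agent.R017.PX764 Crest.Agent.R017.C70 Crest.Agent.R017.GrB829

lemma fm {p a : Eis} (hp : Prime p) (ha : a ≠ 0) : FiniteMultiplicity p a :=
  FiniteMultiplicity.of_prime_left hp ha

lemma le_mult {p a : Eis} (hp : Prime p) (ha : a ≠ 0) {n : ℕ} (h : p ^ n ∣ a) :
    n ≤ multiplicity p a := ((fm hp ha).pow_dvd_iff_le_multiplicity).1 h

lemma pow_dvd_of_le {p a : Eis} (hp : Prime p) (ha : a ≠ 0) {n : ℕ} (h : n ≤ multiplicity p a) :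
    p ^ n ∣ a := ((fm hp ha).pow_dvd_iff_le_multiplicity).2 h

/-- divisibility of primary elements by comparison of the multiplicities -/
lemma dvd_of_mult {a b : Eis} (ha : IsPrim a) (hb : IsPrim b)
    (h : ∀ p, IsPP p → multiplicity p a ≤ multiplicity p b) : a ∣ b := by
  rw [UniqueFactorizationMonoid.dvd_iff_emultiplicity_le ha.ne_zero]
  intro q hq
  by_cases hd : q ∣ a
  · have hql : ¬ lam ∣ q := fun h => ha.not_lam_dvd (h.trans hd)
    have hass := prim_associated q
    have hp : IsPP (prim q) := ⟨prim_isPrim hql, hass.prime_iff.mp hq⟩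
    rw [← emultiplicity_eq_of_associated_left (c := a) hass, ← emultiplicity_eq_of_associated_left (c := b) hass,
      (fm hp.2 ha.ne_zero).emultiplicity_eq_multiplicity,
      (fm hp.2 hb.ne_zero).emultiplicity_eq_multiplicity]
    exact_mod_cast h _ hp
  · rw [emultiplicity_eq_zero.2 hd]
    exact bot_le

lemma eq_of_mult {a b : Eis} (ha : IsPrim a) (hb : IsPrim b)
    (h : ∀ p, IsPP p → multiplicity p a = multiplicity p b) : a = b :=
  ha.eq_of_associated hb (associated_of_dvd_dvd (dvd_of_mult ha hb fun p hp => (h p hp).le)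
    (dvd_of_mult hb ha fun p hp => (h p hp).ge))

lemma mult_le_two {p j : Eis} (hp : IsPP p) (hj : IsPrim j) (h : CbF j) : multiplicity p j ≤ 2 := by
  by_contra hh
  exact h p hp.2 (pow_dvd_of_le hp.2 hj.ne_zero (by omega))

lemma mult_le_one {p j : Eis} (hp : IsPP p) (hj : IsPrim j) (h : Squarefree j) :
    multiplicity p j ≤ 1 := by
  by_contra hh
  have : p ^ 2 ∣ j := pow_dvd_of_le hp.2 hj.ne_zero (by omega)
  rw [pow_two] at this
  exact hp.2.not_isUnit (h p this)

lemma mult_zero_iff {p j : Eis} : multiplicity p j = 0 ↔ ¬ p ∣ j := multiplicity_eq_zero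

/-- `th (c j k) = 0` if `p² ∥ j` and `p ∤ k` -/
lemma th_zero {c j k p : Eis} (hc : IsC c) (hp : IsPP p) (hj : IsPrim j)
    (h : multiplicity p j = 2) (hk : ¬ p ∣ k) : th (c * j * k) = 0 := by
  obtain ⟨r, hr⟩ := pow_dvd_of_le hp.2 hj.ne_zero (le_of_eq h.symm)
  have hpr : ¬ p ∣ r := by
    rintro ⟨s, rfl⟩
    have : 3 ≤ multiplicity p j := le_mult hp.2 hj.ne_zero ⟨s, by rw [hr]; ring⟩
    omega
  have hpc : ¬ p ∣ c := fun h =>
    hp.2.not_isUnit ((hc.lamish.isCoprime hp.1).isUnit_of_dvd' h dvd_rfl)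
  rw [show c * j * k = (c * r * k) * p ^ 2 by rw [hr]; ring]
  refine th_two hp.2 hp.1 ?_
  intro h
  rcases hp.2.dvd_or_dvd h with h | h
  · exact (hp.2.dvd_or_dvd h).elim hpc hpr
  · exact hk h

/-- one half of the classification at a prime -/
lemma local_half {δ δ' j j' c' k p : Eis} (hp : IsPP p) (hδ : IsPrim δ) (hδ' : IsPrim δ')
    (hs : Squarefree δ) (hj : IsPrim j) (hj' : IsPrim j')
    (hc' : IsC c') (hcf' : CbF j') (h1 : IsCoprime j δ)
    (hkδ : IsCoprime k δ) (ht' : th (c' * j' * k) ≠ 0)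
    (hmod : 3 ∣ (multiplicity p j' + multiplicity p δ) + 2 * (multiplicity p j + multiplicity p δ'))
    (h : multiplicity p δ = 1) : multiplicity p δ' ≠ 0 := by
  intro h0
  have hpδ : p ∣ δ := by
    have := pow_dvd_of_le hp.2 hδ.ne_zero h.ge
    simpa using this
  have hpj : ¬ p ∣ j := fun hh => hp.2.not_isUnit (h1.isUnit_of_dvd' hh hpδ)
  have hpk : ¬ p ∣ k := fun hh => hp.2.not_isUnit (hkδ.isUnit_of_dvd' hh hpδ)
  have e1 : multiplicity p j = 0 := mult_zero_iff.2 hpj
  have e2 := mult_le_two hp hj' hcf'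
  rw [h0, h, e1] at hmod
  have e3 : multiplicity p j' = 2 := by omega
  exact ht' (th_zero hc' hp hj' e3 hpk)

/-- **the classification** -/
theorem classify {δ δ' j j' c c' k : Eis} (hδ : IsPrim δ) (hδ' : IsPrim δ')
    (hs : Squarefree δ) (hs' : Squarefree δ') (hj : IsPrim j) (hj' : IsPrim j')
    (hcf : CbF j) (hcf' : CbF j') (hc : IsC c) (hc' : IsC c')
    (h1 : IsCoprime j δ) (h1' : IsCoprime j' δ')
    (hkδ : IsCoprime k δ) (hkδ' : IsCoprime k δ')
    (ht : th (c * j * k) ≠ 0) (ht' : th (c' * j' * k) ≠ 0)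
    (hmod : ∀ p, IsPP p → 3 ∣ (multiplicity p j' + multiplicity p δ) +
      2 * (multiplicity p j + multiplicity p δ')) : δ = δ' ∧ j = j' := by
  have key : ∀ p, IsPP p → multiplicity p δ = multiplicity p δ' ∧
      multiplicity p j = multiplicity p j' := by
    intro p hp
    have b1 := mult_le_one hp hδ hs
    have b2 := mult_le_one hp hδ' hs'
    have b3 := mult_le_two hp hj hcf
    have b4 := mult_le_two hp hj' hcf'
    have hm := hmod p hp
    have c1 : multiplicity p δ = 1 → multiplicity p δ' ≠ 0 :=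
      local_half hp hδ hδ' hs hj hj' hc' hcf' h1 hkδ ht' hm
    have c2 : multiplicity p δ' = 1 → multiplicity p δ ≠ 0 :=
      local_half hp hδ' hδ hs' hj' hj hc hcf h1' hkδ' ht (by omega)
    have e1 : multiplicity p δ = multiplicity p δ' := by omega
    refine ⟨e1, ?_⟩
    omega
  exact ⟨eq_of_mult hδ hδ' fun p hp => (key p hp).1, eq_of_mult hj hj' fun p hp => (key p hp).2⟩

/-- the frequency `a = j' δ (j δ')²` of the character of the pair of pairs -/
def fr (x x' : Eis × Eis) : Eis := x'.2 * x.1 * (x.2 * x'.1) ^ 2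

lemma not_dvd_c {c p : Eis} (hc : IsC c) (hp : IsPP p) : ¬ p ∣ c := fun h =>
  hp.2.not_isUnit ((hc.lamish.isCoprime hp.1).isUnit_of_dvd' h dvd_rfl)

lemma mult_mul {p a b : Eis} (hp : Prime p) (ha : a ≠ 0) (hb : b ≠ 0) :
    multiplicity p (a * b) = multiplicity p a + multiplicity p b :=
  multiplicity_mul hp (fm hp (mul_ne_zero ha hb))

lemma mult_c_mul {c p j : Eis} (hc : IsC c) (hp : IsPP p) (hj : j ≠ 0) :
    multiplicity p (c * j) = multiplicity p j := by
  rw [mult_mul hp.2 hc.ne_zero hj, mult_zero_iff.2 (not_dvd_c hc hp), zero_add]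

/-- **the form for pairs of an admissible set** : two different pairs with a non-zero term either
have a non-principal character (some `p ∤ 3` with `3 ∤ ord_p(fr x x')`) or differ in the constant
`c` only. -/
theorem classify_pair {J : Finset (Eis × Eis)} (hJ : OKJ J) {x x' : Eis × Eis} (hx : x ∈ J)
    (hx' : x' ∈ J) (hne : x ≠ x') {k : Eis}
    (h1 : IsCoprime x.2 x.1) (h1' : IsCoprime x'.2 x'.1)
    (hkδ : IsCoprime k x.1) (hkδ' : IsCoprime k x'.1)
    (ht : th (x.2 * k) ≠ 0) (ht' : th (x'.2 * k) ≠ 0) :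
    (∃ p, IsPP p ∧ ¬ 3 ∣ multiplicity p (fr x x')) ∨
      (x.1 = x'.1 ∧ ∃ c c' j : Eis, IsC c ∧ IsC c' ∧ c ≠ c' ∧ IsPrim j ∧ CbF j ∧ x.2 = c * j ∧
        x'.2 = c' * j) := by
  obtain ⟨c, hc, j, hj, hcf, hxj⟩ := hJ.jc x hx
  obtain ⟨c', hc', j', hj', hcf', hxj'⟩ := hJ.jc x' hx'
  by_cases hall : ∃ p, IsPP p ∧ ¬ 3 ∣ multiplicity p (fr x x')
  · exact Or.inl hall
  right
  push Not at hall
  have hcC : IsC c := hc
  have hcC' : IsC c' := hc'
  have hδ := hJ.prim x hx
  have hδ' := hJ.prim x' hx'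
  have key := classify (k := k) hδ hδ' (hJ.sqf x hx) (hJ.sqf x' hx') hj hj' hcf hcf' hcC hcC'
    (by rw [hxj] at h1; exact h1.of_mul_left_right)
    (by rw [hxj'] at h1'; exact h1'.of_mul_left_right) hkδ hkδ'
    (by rw [← hxj]; exact ht) (by rw [← hxj']; exact ht') (by
      intro p hp
      have h2 := hall p hp
      unfold fr at h2
      have n1 : x.2 ≠ 0 := by rw [hxj]; exact mul_ne_zero hcC.ne_zero hj.ne_zero
      have n2 : x'.2 ≠ 0 := by rw [hxj']; exact mul_ne_zero hcC'.ne_zero hj'.ne_zero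
      have n3 := hδ.ne_zero
      have n4 := hδ'.ne_zero
      rw [mult_mul hp.2 (mul_ne_zero n2 n3) (pow_ne_zero _ (mul_ne_zero n1 n4)),
        mult_mul hp.2 n2 n3, (fm hp.2 (mul_ne_zero n1 n4)).multiplicity_pow hp.2,
        mult_mul hp.2 n1 n4, hxj, hxj', mult_c_mul hcC hp hj.ne_zero,
        mult_c_mul hcC' hp hj'.ne_zero] at h2
      exact h2)
  refine ⟨key.1, c, c', j, hcC, hcC', ?_, hj, hcf, hxj, ?_⟩
  · rintro rfl
    apply hne
    refine Prod.ext key.1 ?_
    rw [hxj, hxj', key.2]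
  · rw [hxj', key.2]

end Crest.Agent.R017.GrD829
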