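import Crest.Agent.R017.LVdefs_404
import Crest.Agent.R017.CM1_106
import Crest.Agent.R017.EndE3_699
import Crest.Agent.R012.LS2Elt_381
import Crest.Agent.R012.Char_766

/-!
# Row 17, (LB): classes of cubic characters (helper298)

For `k ≠ 0` a fixed cubic decomposition `k = w^i lam^j k1 k2² m³` (`dc k`), the index
`dq k : Ix` of its character, the blocks `Bk K i j m`.

* `sy_class`  : `sy k n = sy (w^i lam^j) n * prin0 m n * ch (dq k) n` for primary `n`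
* `adm_dq`, `dq_inj` : the block `Bk K i j m` embeds into `Adm (K / nm m ^ 3)`
* `lv_block`  : large values on a block, from `LVProp`
* `blk_le`    : sum over a block ≤ sum over `bl (K / nm m ^ 3)` with `prin0 m` inserted
* `sum_blocks`, `sum_blocks_le` : the whole family from the blocks
-/

set_option autoImplicit false

noncomputable section

open Complex Finset
open scoped ComplexConjugate

namespace Crest.Agent.R017.Lbc298

open Crest.Agent.R012 Crest.Agent.R012.Eis Crest.Agent.R012.LS2 Crest.Agent.R012.Char766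
open Crest.Agent.R012.Mob705 (pp mem_pp)
open Crest.Agent.R017.CM106 Crest.Agent.R017.LV404
open Crest.Agent.R017.End699 (prin0)

/-- a cubic decomposition -/
structure Dc where
  i : ℕ
  j : ℕ
  k1 : Eis
  k2 : Eis
  m : Eis

lemma exists_Dc (h : Eis) : ∃ d : Dc, h ≠ 0 → IsCubDec h d.i d.j d.k1 d.k2 d.m := by
  by_cases hh : h = 0
  · exact ⟨⟨0, 0, 1, 1, 1⟩, fun h1 => absurd hh h1⟩
  · obtain ⟨i, j, k1, k2, m, hd⟩ := exists_isCubDec hh
    exact ⟨⟨i, j, k1, k2, m⟩, fun _ => hd⟩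

/-- the chosen cubic decomposition -/
def dc (h : Eis) : Dc := (exists_Dc h).choose

lemma dc_spec {h : Eis} (hh : h ≠ 0) :
    IsCubDec h (dc h).i (dc h).j (dc h).k1 (dc h).k2 (dc h).m := (exists_Dc h).choose_spec hh

/-- the index of the character of `h` -/
def dq (h : Eis) : Ix := (pp (dc h).k1, pp (dc h).k2)

/-- the part of `h` without its cube -/
def red (h : Eis) : Eis := w ^ (dc h).i * lam ^ (dc h).j * (dc h).k1 * (dc h).k2 ^ 2

lemma red_mul {h : Eis} (hh : h ≠ 0) : h = red h * (dc h).m ^ 3 := (dc_spec hh).eq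

lemma red_ne_zero {h : Eis} (hh : h ≠ 0) : red h ≠ 0 := by
  intro h0
  have h1 := red_mul hh
  rw [h0, zero_mul] at h1
  exact hh h1

lemma m_ne_zero {h : Eis} (hh : h ≠ 0) : (dc h).m ≠ 0 := (dc_spec hh).ne

lemma pr_dq1 {h : Eis} (hh : h ≠ 0) : pr (dq h).1 = (dc h).k1 :=
  pr_pp' (dc_spec hh).prim1 (dc_spec hh).sqf1

lemma pr_dq2 {h : Eis} (hh : h ≠ 0) : pr (dq h).2 = (dc h).k2 :=
  pr_pp' (dc_spec hh).prim2 (dc_spec hh).sqf2

/-- multiplying the numerator by a cube -/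
lemma sy_mul_cube' {x m n : Eis} (hn : IsPrim n) : sy (x * m ^ 3) n = prin0 m n * sy x n := by
  unfold prin0
  rw [sy_mul_left hn]
  by_cases h : IsCoprime n m
  · rw [if_pos h, sy_cube_left hn h.symm, mul_one, one_mul]
  · have h1 : ¬ IsCoprime (m ^ 3) n := fun h2 => h ((IsCoprime.pow_left_iff (by norm_num)).mp h2).symm
    rw [if_neg h, sy_eq_zero hn h1, mul_zero, zero_mul]

lemma sy_recip {a b : Eis} (ha : IsPrim a) (hb : IsPrim b) : sy a b = sy b a :=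
  Gauss880.syG.recip a b ha hb

lemma sy_class {h n : Eis} (hh : h ≠ 0) (hn : IsPrim n) :
    sy h n = sy (w ^ (dc h).i * lam ^ (dc h).j) n * prin0 (dc h).m n * ch (dq h) n := by
  have hd := dc_spec hh
  conv_lhs => rw [hd.eq]
  rw [sy_mul_cube' hn]
  unfold ch
  rw [pr_dq1 hh, pr_dq2 hh, sy_mul_left hn, sy_mul_left hn, sy_pow_left hn,
    ← conj_sy hn, sy_recip hd.prim1 hn, sy_recip hd.prim2 hn]
  ring

open Classical in
/-- the block of a class -/
def Bk (K : ℝ) (i j : ℕ) (m : Eis) : Finset Eis :=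
  (bl K).filter (fun k => (dc k).i = i ∧ (dc k).j = j ∧ (dc k).m = m)

lemma mem_Bk {K : ℝ} (hK : 0 ≤ K) {i j : ℕ} {m k : Eis} :
    k ∈ Bk K i j m ↔ (k ≠ 0 ∧ (nm k : ℝ) ≤ K) ∧ (dc k).i = i ∧ (dc k).j = j ∧ (dc k).m = m := by
  classical
  unfold Bk
  rw [Finset.mem_filter, mem_bl hK]

lemma nm_red {h : Eis} (hh : h ≠ 0) : (nm (red h) : ℝ) * (nm (dc h).m : ℝ) ^ 3 = nm h := by
  conv_rhs => rw [red_mul hh]
  rw [nm_mul, nm_pow]
  push_cast
  ring

lemma nm_pos' {m : Eis} (hm : m ≠ 0) : (0 : ℝ) < nm m := by exact_mod_cast nm_pos.2 hm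

lemma one_le_nm'' {m : Eis} (hm : m ≠ 0) : (1 : ℝ) ≤ nm m := by
  exact_mod_cast Nat.one_le_iff_ne_zero.mpr (nm_pos.2 hm).ne'

lemma nm_red_le {K : ℝ} {h : Eis} (hh : h ≠ 0) (hK : (nm h : ℝ) ≤ K) :
    (nm (red h) : ℝ) ≤ K / (nm (dc h).m : ℝ) ^ 3 := by
  have h1 := nm_pos' (m_ne_zero hh)
  rw [le_div_iff₀ (by positivity), nm_red hh]
  exact hK

lemma nm_pr_dq {h : Eis} (hh : h ≠ 0) :
    (nm (pr (dq h).U) : ℝ) ≤ nm (red h) := by
  classical
  have hd := dc_spec hh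
  have hdisj : Disjoint (dq h).1 (dq h).2 := by
    rw [Finset.disjoint_left]
    intro p hp1 hp2
    have h1 := (mem_pp hd.prim1.ne_zero).mp hp1
    have h2 := (mem_pp hd.prim2.ne_zero).mp hp2
    exact h1.1.2.not_isUnit (hd.cop.isUnit_of_dvd' h1.2 h2.2)
  have e1 : pr (dq h).U = (dc h).k1 * (dc h).k2 := by
    unfold Ix.U
    have : pr ((dq h).1 ∪ (dq h).2) = pr (dq h).1 * pr (dq h).2 := by
      unfold pr
      exact Finset.prod_union hdisj
    have h3 : pr ((dq h).1 ∪ (dq h).2) = (dc h).k1 * (dc h).k2 := by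
      rw [this, pr_dq1 hh, pr_dq2 hh]
    convert h3
  rw [e1]
  unfold red
  simp only [nm_mul, nm_pow, nm_w, nm_lam, one_pow, one_mul]
  push_cast
  have h1 := one_le_nm'' hd.prim1.ne_zero
  have h2 := one_le_nm'' hd.prim2.ne_zero
  have h3 : (1 : ℝ) ≤ (3 : ℝ) ^ (dc h).j := one_le_pow₀ (by norm_num)
  calc (nm (dc h).k1 : ℝ) * nm (dc h).k2
      = 1 * nm (dc h).k1 * (1 * nm (dc h).k2) := by ring
    _ ≤ 1 * nm (dc h).k1 * (nm (dc h).k2 * nm (dc h).k2) := by gcongr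
    _ ≤ 3 ^ (dc h).j * nm (dc h).k1 * (nm (dc h).k2 * nm (dc h).k2) := by gcongr
    _ = _ := by ring

lemma adm_dq {K : ℝ} {h : Eis} (hh : h ≠ 0) (hK : (nm h : ℝ) ≤ K) :
    Adm (K / (nm (dc h).m : ℝ) ^ 3) (dq h) := by
  classical
  have hd := dc_spec hh
  refine ⟨?_, ?_, (nm_pr_dq hh).trans (nm_red_le hh hK)⟩
  · intro p hp
    unfold Ix.U at hp
    have hp' : p ∈ (dq h).1 ∨ p ∈ (dq h).2 := by
      have := Finset.mem_union.mp (by convert hp)
      exact this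
    rcases hp' with hp | hp
    · exact isPS_pp _ p hp
    · exact isPS_pp _ p hp
  · rw [Finset.disjoint_left]
    intro p hp1 hp2
    have h1 := (mem_pp hd.prim1.ne_zero).mp hp1
    have h2 := (mem_pp hd.prim2.ne_zero).mp hp2
    exact h1.1.2.not_isUnit (hd.cop.isUnit_of_dvd' h1.2 h2.2)

lemma dq_inj {a b : Eis} (ha : a ≠ 0) (hb : b ≠ 0) (hi : (dc a).i = (dc b).i)
    (hj : (dc a).j = (dc b).j) (hm : (dc a).m = (dc b).m) (hq : dq a = dq b) : a = b := by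
  have h1 : (dc a).k1 = (dc b).k1 := by rw [← pr_dq1 ha, ← pr_dq1 hb, hq]
  have h2 : (dc a).k2 = (dc b).k2 := by rw [← pr_dq2 ha, ← pr_dq2 hb, hq]
  rw [(dc_spec ha).eq, (dc_spec hb).eq, hi, hj, hm, h1, h2]

lemma red_inj {a b : Eis} (ha : a ≠ 0) (hb : b ≠ 0) (hm : (dc a).m = (dc b).m)
    (hr : red a = red b) : a = b := by
  rw [red_mul ha, red_mul hb, hm, hr]

/-- sum over a block ≤ sum over the shorter family -/
theorem blk_le {K : ℝ} (hK : 0 ≤ K) (i j : ℕ) (m : Eis) {F : Eis → ℝ} (hF : ∀ x, 0 ≤ F x) :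
    ∑ k ∈ Bk K i j m, F (red k) ≤ ∑ k ∈ bl (K / (nm m : ℝ) ^ 3), F k := by
  classical
  have hinj : Set.InjOn red (Bk K i j m : Set Eis) := by
    intro a ha b hb hab
    rw [Finset.mem_coe, mem_Bk hK] at ha hb
    exact red_inj ha.1.1 hb.1.1 (ha.2.2.2.trans hb.2.2.2.symm) hab
  rw [← Finset.sum_image (f := F) hinj]
  refine Finset.sum_le_sum_of_subset_of_nonneg ?_ fun x _ _ => hF x
  intro x hx
  rw [Finset.mem_image] at hx
  obtain ⟨k, hk, rfl⟩ := hx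
  rw [mem_Bk hK] at hk
  have h1 := nm_red_le hk.1.1 hk.1.2
  rw [hk.2.2.2] at h1
  rw [mem_bl (by positivity)]
  exact ⟨red_ne_zero hk.1.1, h1⟩

/-- the character sum only sees `red k`, with the coprimality to `m` -/
lemma CS_red {α : Eis → ℂ} (h : FS α) {k : Eis} (hk : k ≠ 0) :
    CS α k = CS (fun n => α n * prin0 (dc k).m n) (red k) := by
  unfold CS
  refine tsum_congr fun n => ?_
  by_cases h0 : α n = 0
  · simp only [h0, zero_mul]
  · have hn := h.prim n h0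
    conv_lhs => rw [red_mul hk]
    rw [sy_mul_cube' hn]
    ring

/-- the coefficients of the class -/
def cc (α : Eis → ℂ) (i j : ℕ) (m n : Eis) : ℂ := α n * (sy (w ^ i * lam ^ j) n * prin0 m n)

lemma CS_class {α : Eis → ℂ} (h : FS α) {k : Eis} (hk : k ≠ 0) :
    CS α k = ∑' n : Eis, cc α (dc k).i (dc k).j (dc k).m n * ch (dq k) n := by
  unfold CS
  refine tsum_congr fun n => ?_
  unfold cc
  by_cases h0 : α n = 0
  · rw [h0]; simp
  · rw [sy_class hk (h.prim n h0)]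
    ring

lemma norm_prin0_le (m n : Eis) : ‖prin0 m n‖ ≤ 1 := by
  unfold prin0
  split_ifs <;> simp

lemma norm_cc_le {α : Eis → ℂ} (h : FS α) (i j : ℕ) (m n : Eis) : ‖cc α i j m n‖ ≤ ‖α n‖ := by
  unfold cc
  by_cases h0 : α n = 0
  · rw [h0]; simp
  · rw [norm_mul, norm_mul]
    have h1 : ‖sy (w ^ i * lam ^ j) n‖ ≤ 1 := norm_sy_le' (h.prim n h0)
    have h2 := norm_prin0_le m n
    calc ‖α n‖ * (‖sy (w ^ i * lam ^ j) n‖ * ‖prin0 m n‖) ≤ ‖α n‖ * (1 * 1) := by gcongr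
      _ = ‖α n‖ := by ring

lemma FS.cc {α : Eis → ℂ} (h : FS α) (i j : ℕ) (m : Eis) : FS (cc α i j m) where
  fin := by
    refine h.fin.subset fun n hn h0 => hn ?_
    have h0' : α n = 0 := h0
    unfold Lbc298.cc
    rw [h0', zero_mul]
  prim := fun n hn => h.prim n fun h0 => hn (by unfold Lbc298.cc; rw [h0, zero_mul])

lemma FS.summable_sq {α : Eis → ℂ} (h : FS α) : Summable (fun n => ‖α n‖ ^ 2) := by
  refine summable_of_hasFiniteSupport (h.fin.subset fun n hn h0 => hn ?_)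
  have h0' : α n = 0 := h0
  simp [h0']

lemma tsum_cc_le {α : Eis → ℂ} (h : FS α) (i j : ℕ) (m : Eis) :
    ∑' n, ‖cc α i j m n‖ ^ 2 ≤ ∑' n, ‖α n‖ ^ 2 :=
  (FS.summable_sq (FS.cc h i j m)).tsum_le_tsum
    (fun n => pow_le_pow_left₀ (norm_nonneg _) (norm_cc_le h i j m n) 2) (FS.summable_sq h)

/-- **(LV) on a block** -/
theorem lv_block (H : LVProp) {δ ε : ℝ} (hδ : 0 < δ) (hε : 0 < ε) :
    ∃ C : ℝ, 0 < C ∧ ∀ (K : ℝ) (i j : ℕ) (m : Eis) (Z : ℝ), 0 ≤ K → m ≠ 0 →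
      1 ≤ K / (nm m : ℝ) ^ 3 → (K / (nm m : ℝ) ^ 3) ^ (4 / 3 + δ) ≤ Z →
      Z ≤ (K / (nm m : ℝ) ^ 3) ^ (2 : ℝ) → ∀ T : Finset Eis, T ⊆ Bk K i j m →
      ∀ α : Eis → ℂ, FS α → (∀ n, α n ≠ 0 → (nm n : ℝ) ≤ Z) → ∀ V : ℝ,
      C * (K / (nm m : ℝ) ^ 3) ^ ε * Z ^ ((2 : ℝ) / 3) * (∑' n : Eis, ‖α n‖ ^ 2) ≤ V →
      (∀ k ∈ T, V ≤ ‖CS α k‖ ^ 2) →
      (T.card : ℝ) * V ≤ C * (K / (nm m : ℝ) ^ 3) ^ ε * Z * ∑' n : Eis, ‖α n‖ ^ 2 := by
  classical
  obtain ⟨C, hC, hLV⟩ := H δ hδ ε hε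
  refine ⟨C, hC, ?_⟩
  intro K i j m Z hK hm hK1 hZ1 hZ2 T hT α hα hsupp V hV hTV
  set K' := K / (nm m : ℝ) ^ 3 with hK'
  have hZ0 : 0 < Z := lt_of_lt_of_le (Real.rpow_pos_of_pos (by linarith) _) hZ1
  have hT' : ∀ k ∈ T, (k ≠ 0 ∧ (nm k : ℝ) ≤ K) ∧ (dc k).i = i ∧ (dc k).j = j ∧ (dc k).m = m :=
    fun k hk => (mem_Bk hK).mp (hT hk)
  have hinj : Set.InjOn dq (T : Set Eis) := by
    intro a ha b hb hab
    have h1 := hT' a (Finset.mem_coe.mp ha)
    have h2 := hT' b (Finset.mem_coe.mp hb)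
    exact dq_inj h1.1.1 h2.1.1 (h1.2.1.trans h2.2.1.symm) (h1.2.2.1.trans h2.2.2.1.symm)
      (h1.2.2.2.trans h2.2.2.2.symm) hab
  have hcard : (T.image dq).card = T.card := Finset.card_image_of_injOn hinj
  have hG := tsum_cc_le hα i j m
  have hpow : 0 ≤ C * K' ^ ε := by positivity
  have h := hLV K' Z hK1 hZ1 hZ2 (T.image dq) ?_ (cc α i j m) ?_ V ?_ ?_
  · rw [hcard] at h
    refine h.trans ?_
    exact mul_le_mul_of_nonneg_left hG (by positivity)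
  · intro q hq
    rw [Finset.mem_image] at hq
    obtain ⟨k, hk, rfl⟩ := hq
    have h1 := hT' k hk
    have h2 := adm_dq h1.1.1 h1.1.2
    rw [h1.2.2.2] at h2
    exact h2
  · intro n hn
    by_contra h0
    have h1 : α n ≠ 0 := fun h2 => h0 (by unfold cc; rw [h2, zero_mul])
    exact absurd (hsupp n h1) (not_le.mpr hn)
  · exact (mul_le_mul_of_nonneg_left hG (by positivity)).trans hV
  · intro q hq
    rw [Finset.mem_image] at hq
    obtain ⟨k, hk, rfl⟩ := hq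
    have h1 := hT' k hk
    have h2 := CS_class hα h1.1.1
    rw [h1.2.1, h1.2.2.1, h1.2.2.2] at h2
    rw [← h2]
    exact hTV k hk

/-- splitting a family into the blocks -/
theorem sum_blocks {K : ℝ} (hK : 0 ≤ K) (F : Eis → ℝ) :
    ∑ k ∈ bl K, F k = ∑ i ∈ range 3, ∑ j ∈ range 3, ∑ m ∈ bl (K ^ ((1 : ℝ) / 3)),
      ∑ k ∈ Bk K i j m, F k := by
  classical
  have h1 : ∀ k ∈ bl K, (dc k).i ∈ range 3 := fun k hk =>
    Finset.mem_range.mpr (dc_spec ((mem_bl hK).mp hk).1).hi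
  rw [← Finset.sum_fiberwise_of_maps_to h1]
  refine Finset.sum_congr rfl fun i _ => ?_
  have h2 : ∀ k ∈ (bl K).filter (fun k => (dc k).i = i), (dc k).j ∈ range 3 := fun k hk =>
    Finset.mem_range.mpr (dc_spec ((mem_bl hK).mp (Finset.mem_filter.mp hk).1).1).hj
  rw [← Finset.sum_fiberwise_of_maps_to h2]
  refine Finset.sum_congr rfl fun j _ => ?_
  have h3 : ∀ k ∈ ((bl K).filter (fun k => (dc k).i = i)).filter (fun k => (dc k).j = j),
      (dc k).m ∈ bl (K ^ ((1 : ℝ) / 3)) := by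
    intro k hk
    have hk1 := (mem_bl hK).mp (Finset.mem_filter.mp (Finset.mem_filter.mp hk).1).1
    rw [mem_bl (by positivity)]
    refine ⟨m_ne_zero hk1.1, ?_⟩
    have h4 := nm_red hk1.1
    have h5 := one_le_nm'' (red_ne_zero hk1.1)
    have h6 : (nm (dc k).m : ℝ) ^ 3 ≤ K := by
      calc (nm (dc k).m : ℝ) ^ 3 = 1 * (nm (dc k).m : ℝ) ^ 3 := (one_mul _).symm
        _ ≤ nm (red k) * (nm (dc k).m : ℝ) ^ 3 := by gcongr
        _ = nm k := h4
        _ ≤ K := hk1.2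
    calc (nm (dc k).m : ℝ) = ((nm (dc k).m : ℝ) ^ 3) ^ ((1 : ℝ) / 3) := by
          rw [← Real.rpow_natCast, ← Real.rpow_mul (by positivity)]
          norm_num
      _ ≤ K ^ ((1 : ℝ) / 3) := Real.rpow_le_rpow (by positivity) h6 (by norm_num)
  rw [← Finset.sum_fiberwise_of_maps_to h3]
  refine Finset.sum_congr rfl fun m _ => ?_
  refine Finset.sum_congr ?_ fun _ _ => rfl
  ext k
  simp only [Finset.mem_filter, Bk]
  tauto

lemma bl_sum_inv_le {X : ℝ} (hX : 1 ≤ X) :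
    ∑ m ∈ bl X, 1 / (nm m : ℝ) ≤ 100 * (1 + Real.log X) := by
  have h := Div277.sum_inv_nz_le ⌊X⌋₊
  have h1 : bl X = Div277.nz ⌊X⌋₊ := rfl
  rw [h1]
  refine h.trans ?_
  have h2 : Real.log (⌊X⌋₊ : ℝ) ≤ Real.log X := by
    have h3 : (0 : ℝ) < ⌊X⌋₊ := by exact_mod_cast Nat.floor_pos.mpr hX
    exact Real.log_le_log h3 (Nat.floor_le (by linarith))
  linarith

/-- the whole family from the blocks -/
theorem sum_blocks_le {K B : ℝ} (hK : 1 ≤ K) (hB : 0 ≤ B) (F : Eis → ℝ)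
    (h : ∀ i < 3, ∀ j < 3, ∀ m : Eis, m ≠ 0 → 1 ≤ K / (nm m : ℝ) ^ 3 →
      ∑ k ∈ Bk K i j m, F k ≤ B / nm m) :
    ∑ k ∈ bl K, F k ≤ 900 * (1 + Real.log K) * B := by
  have hK0 : 0 ≤ K := by linarith
  rw [sum_blocks hK0]
  have h0 : ∀ i ∈ range 3, ∀ j ∈ range 3, ∑ m ∈ bl (K ^ ((1 : ℝ) / 3)), ∑ k ∈ Bk K i j m, F k ≤
      100 * (1 + Real.log K) * B := by
    intro i hi j hj
    rw [Finset.mem_range] at hi hj
    have hX : 1 ≤ K ^ ((1 : ℝ) / 3) := Real.one_le_rpow hK (by norm_num)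
    calc ∑ m ∈ bl (K ^ ((1 : ℝ) / 3)), ∑ k ∈ Bk K i j m, F k
        ≤ ∑ m ∈ bl (K ^ ((1 : ℝ) / 3)), B * (1 / nm m) := by
          refine Finset.sum_le_sum fun m hm => ?_
          rw [mem_bl (by positivity)] at hm
          have h1 := nm_pos' hm.1
          have h2 : (nm m : ℝ) ^ 3 ≤ K := by
            calc (nm m : ℝ) ^ 3 ≤ (K ^ ((1 : ℝ) / 3)) ^ 3 := by gcongr; exact hm.2
              _ = K := by
                rw [← Real.rpow_natCast, ← Real.rpow_mul hK0]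
                norm_num
          rw [mul_one_div]
          exact h i hi j hj m hm.1 (by rw [le_div_iff₀ (by positivity)]; linarith)
      _ = B * ∑ m ∈ bl (K ^ ((1 : ℝ) / 3)), 1 / (nm m : ℝ) := by rw [← Finset.mul_sum]
      _ ≤ B * (100 * (1 + Real.log (K ^ ((1 : ℝ) / 3)))) :=
          mul_le_mul_of_nonneg_left (bl_sum_inv_le hX) hB
      _ ≤ B * (100 * (1 + Real.log K)) := by
          have h3 : Real.log (K ^ ((1 : ℝ) / 3)) ≤ Real.log K := by
            rw [Real.log_rpow (by linarith)]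
            have := Real.log_nonneg hK
            linarith
          gcongr
      _ = _ := by ring
  calc ∑ i ∈ range 3, ∑ j ∈ range 3, ∑ m ∈ bl (K ^ ((1 : ℝ) / 3)), ∑ k ∈ Bk K i j m, F k
      ≤ ∑ i ∈ range 3, ∑ j ∈ range 3, 100 * (1 + Real.log K) * B :=
        Finset.sum_le_sum fun i hi => Finset.sum_le_sum fun j hj => h0 i hi j hj
    _ = 900 * (1 + Real.log K) * B := by
        simp only [Finset.sum_const, Finset.card_range, nsmul_eq_mul]
        push_cast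
        ring

/-- powers of the reduced conductor bound -/
lemma pow_red_le {K a : ℝ} (hK : 1 ≤ K) {m : Eis} (hm : m ≠ 0) (h1 : 1 ≤ K / (nm m : ℝ) ^ 3) :
    (K / (nm m : ℝ) ^ 3) ^ a ≤ K ^ max a (1 / 3) / nm m := by
  have hn := nm_pos' hm
  have hn1 := one_le_nm'' hm
  set b := max a (1 / 3) with hb
  have hb3 : 1 / 3 ≤ b := le_max_right _ _
  calc (K / (nm m : ℝ) ^ 3) ^ a ≤ (K / (nm m : ℝ) ^ 3) ^ b :=
        Real.rpow_le_rpow_of_exponent_le h1 (le_max_left _ _)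
    _ = K ^ b / ((nm m : ℝ) ^ 3) ^ b := Real.div_rpow (by linarith) (by positivity) _
    _ ≤ K ^ b / nm m := by
        have h2 : (nm m : ℝ) ≤ ((nm m : ℝ) ^ 3) ^ b := by
          calc (nm m : ℝ) = ((nm m : ℝ) ^ 3) ^ ((1 : ℝ) / 3) := by
                rw [← Real.rpow_natCast, ← Real.rpow_mul hn.le]
                norm_num
            _ ≤ ((nm m : ℝ) ^ 3) ^ b :=
                Real.rpow_le_rpow_of_exponent_le (one_le_pow₀ hn1) hb3
        have h3 : 0 < K ^ b := Real.rpow_pos_of_pos (by linarith) _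
        gcongr

end Crest.Agent.R017.Lbc298
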