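import Crest.Agent.R017.E5P_571
import Crest.Agent.R017.E5b_54
import Crest.Agent.R017.E2m_440
import Crest.Agent.R017.LBc_298
import Crest.Agent.R017.HP6_842
import Crest.Agent.R017.GrD_829

/-!
# Row 17, R8: large cubes, cube formulas, levels (helper571)

* `Cut E1 k` : no primary `e`, `nm e > E1`, with `e³ ∣ k`
* `notcut_le` : a sum over the `k` which are not cut is at most the sum over `e³ k₁`, `nm e > E1`,
  `k₁` cube-free
* `CS_cube`, `PC_cube`, `StE_cube` : the values at `e³ k₁`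
* `MS_sum` : linearity; `MS_cut` : absolute bound of one term, cut and not cut
-/

set_option autoImplicit false

noncomputable section

open Complex Finset
open scoped ComplexConjugate

namespace Crest.Agent.R017.E5Q571

open Crest.Agent.R012 Crest.Agent.R012.Eis Crest.Agent.R012.Mob705
open Crest.Agent.R012.LS2 (S mem_S)
open Crest.Agent.R017.CM106 Crest.Agent.R017.FE47 Crest.Agent.R017.End699
open Crest.Agent.R017.Sx545 (Sm)
open Crest.Agent.R017.HP842 (Pc pc pc_cop)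
open Crest.Agent.R017.E5T54
open Crest.Agent.R017.E5P571
open Crest.Agent.R017.C70 (CbF OKJ JC)
open Crest.Agent.R017.GrD829
open Crest.Agent.R017.E2440 (TE StE)
open Crest.Agent.R017.PX764 (th)
open Crest.Agent.R012.Div277 (dvs tau mem_dvs)

/-- no large cube divides `k` -/
def Cut (E1 : ℝ) (k : Eis) : Prop := ∀ e : Eis, IsPrim e → e ^ 3 ∣ k → (nm e : ℝ) ≤ E1

/-- if `k = j e³` with `j` cube-free, every cube divisor divides `e` -/
lemma dvd_of_cube_dvd {j e f : Eis} (hj : IsPrim j) (he : IsPrim e) (hf : IsPrim f) (hcf : CbF j)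
    (h : f ^ 3 ∣ j * e ^ 3) : f ∣ e := by
  refine dvd_of_mult hf he fun p hp => ?_
  have h1 := mult_le_two hp hj hcf
  have h2 : 3 * multiplicity p f ≤ multiplicity p (j * e ^ 3) := by
    refine le_mult hp.2 (mul_ne_zero hj.ne_zero (pow_ne_zero _ he.ne_zero)) ?_
    rw [mul_comm 3, pow_mul]
    exact (pow_dvd_pow_of_dvd (pow_multiplicity_dvd p f) 3).trans h
  rw [mult_mul hp.2 hj.ne_zero (pow_ne_zero _ he.ne_zero),
    (fm hp.2 he.ne_zero).multiplicity_pow hp.2] at h2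
  omega

open Classical in
/-- **the sum over the `k` which are not cut** -/
theorem notcut_le (n : Eis) {Kx E1 : ℝ} (hK : 0 ≤ Kx) {F : Eis → ℝ} (hF : ∀ k, 0 ≤ F k) :
    ∑ k ∈ (PB n ⌊Kx⌋₊).filter (fun k => ¬ Cut E1 k), F k ≤
      ∑ e ∈ (PB n ⌊Kx⌋₊).filter (fun e => E1 < (nm e : ℝ) ∧ (nm e : ℝ) ^ 3 ≤ Kx),
        ∑ k₁ ∈ (PB n ⌊Kx / (nm e : ℝ) ^ 3⌋₊).filter CbF, F (e ^ 3 * k₁) := by
  rw [Finset.sum_sigma']
  set T := ((PB n ⌊Kx⌋₊).filter (fun e => E1 < (nm e : ℝ) ∧ (nm e : ℝ) ^ 3 ≤ Kx)).sigma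
    (fun e => (PB n ⌊Kx / (nm e : ℝ) ^ 3⌋₊).filter CbF) with hT
  have h1 : (PB n ⌊Kx⌋₊).filter (fun k => ¬ Cut E1 k) ⊆ T.image fun x => x.1 ^ 3 * x.2 := by
    intro k hk
    rw [mem_filter, mem_PB] at hk
    obtain ⟨⟨hkX, hkp, hkn⟩, hc⟩ := hk
    unfold Cut at hc
    push Not at hc
    obtain ⟨f, hf, hfk, hfE⟩ := hc
    obtain ⟨j, e, hj, he, hcf, hke⟩ := E5b54.exists_cf_prim hkp
    have hfe : f ∣ e := dvd_of_cube_dvd hj he hf hcf (hke ▸ hfk)
    have hnf : (nm f : ℝ) ≤ nm e := by exact_mod_cast Div277.nm_le_of_dvd he.ne_zero hfe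
    have hn : (nm k : ℝ) = (nm e : ℝ) ^ 3 * nm j := by
      rw [hke, nm_mul, nm_pow]; push_cast; ring
    have he1 : (1 : ℝ) ≤ nm e := by exact_mod_cast nm_pos.2 he.ne_zero
    have hj1 : (1 : ℝ) ≤ nm j := by exact_mod_cast nm_pos.2 hj.ne_zero
    have hkK : (nm k : ℝ) ≤ Kx := (Nat.cast_le.2 hkX).trans (Nat.floor_le hK)
    have he3 : (nm e : ℝ) ^ 3 ≤ Kx := by
      have : (nm e : ℝ) ^ 3 ≤ nm k := by
        rw [hn]; exact le_mul_of_one_le_right (by positivity) hj1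
      linarith
    rw [mem_image]
    refine ⟨⟨e, j⟩, ?_, by rw [hke]; ring⟩
    rw [hT, mem_sigma, mem_filter, mem_PB, mem_filter, mem_PB]
    have hdn : ∀ x : Eis, x ∣ k → IsCoprime x n := fun x hx =>
      hkn.of_isCoprime_of_dvd_left hx
    refine ⟨⟨⟨Nat.le_floor ?_, he, hdn e ⟨j * e ^ 2, by rw [hke]; ring⟩⟩, by linarith, he3⟩,
      ⟨Nat.le_floor ?_, hj, hdn j ⟨e ^ 3, hke⟩⟩, hcf⟩
    · have : (nm e : ℝ) ≤ (nm e : ℝ) ^ 3 := le_self_pow₀ he1 (by norm_num)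
      linarith
    · rw [le_div_iff₀ (by positivity)]
      simp only
      linarith
  refine (sum_le_sum_of_subset_of_nonneg h1 fun _ _ _ => hF _).trans ?_
  exact sum_image_le_of_nonneg fun _ _ => hF _

/-! ### values at `e³ k₁` -/

/-- `CS` at `e³ k₁` -/
lemma CS_cube {α : Eis → ℂ} (hα : ∀ m, α m ≠ 0 → IsPrim m) (e k₁ : Eis) :
    CS α (e ^ 3 * k₁) = CS (fun m => α m * prin0 e m) k₁ := by
  unfold CS
  refine tsum_congr fun m => ?_
  by_cases h : α m = 0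
  · simp [h]
  · rw [mul_comm (e ^ 3) k₁, Lbc298.sy_mul_cube' (hα m h)]
    ring

lemma pc_prim (h : ℝ → ℝ) (p : Pc) (m : Eis) (hm : pc h p m ≠ 0) : IsPrim m := by
  by_contra hc
  exact hm (by unfold HP842.pc; rw [if_neg hc])

/-- typed pieces at `e³ k₁` -/
lemma PC_cube (h : ℝ → ℝ) (ps : List Pc) (e k₁ : Eis) :
    PC h ps (e ^ 3 * k₁) = PC h (ps.map fun p => p.cop e) k₁ := by
  unfold PC
  rw [List.map_map]
  congr 1
  refine List.map_congr_left fun p _ => ?_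
  rw [CS_cube (pc_prim h p)]
  simp only [Function.comp]
  congr 1
  funext m
  rw [HP842.pc_cop]

/-- `sy` at a cube, squarefree divisors of `e³ k₁` -/
lemma sqf_dvd_cube {t e k : Eis} (ht : Squarefree t) : t ∣ e ^ 3 * k ↔ t ∣ e * k := by
  constructor
  · intro h
    have h1 : t ∣ (e * k) ^ 3 := h.trans ⟨k ^ 2, by ring⟩
    exact (ht.dvd_pow_iff_dvd (by norm_num)).1 h1
  · intro h
    exact h.trans ⟨e ^ 2, by ring⟩

open Classical in
/-- **the structured function at `e³ k₁`** -/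
theorem StE_cube {e : Eis} (he : e ≠ 0) (k₁ : Eis) (E0 : ℝ) {J : Finset (Eis × Eis)} (hJ : OKJ J)
    (om : Eis × Eis → ℂ) (α : Eis → ℂ) :
    StE E0 J om α (e ^ 3 * k₁) = ∑ x ∈ J, (om x * prin0 e x.1) *
      (sy k₁ x.1 * conj (th (x.2 * k₁)) *
        ∑ t ∈ (S E0).filter (fun t => t ∣ e * k₁), (mu t : ℂ) * TE α x t) := by
  unfold E2440.StE
  refine sum_congr rfl fun x hx => ?_
  rw [mul_comm (e ^ 3) k₁, Lbc298.sy_mul_cube' (hJ.prim x hx), ← mul_assoc x.2 k₁,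
    PX764.th_cube_all he]
  have h1 : (S E0).filter (fun t => t ∣ k₁ * e ^ 3) = (S E0).filter (fun t => t ∣ e * k₁) := by
    refine filter_congr fun t ht => ?_
    have hs : Squarefree t := by
      unfold S at ht
      exact (mem_filter.1 ht).2
    rw [mul_comm k₁, sqf_dvd_cube hs]
  rw [h1]
  ring

/-! ### linearity and levels -/

section

variable {n e : Eis} {W : Eis → ℂ} {X : ℕ}

lemma MS_zero (s : Eis) : MS n W e (fun _ => 0) s = 0 := by
  unfold E5P571.MS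
  simp

lemma MS_sum {ι : Type*} (hW : ∀ k, W k ≠ 0 → nm k ≤ X) (T : Finset ι) (F : ι → Eis → ℂ)
    (s : Eis) : MS n W e (fun k => ∑ i ∈ T, F i k) s = ∑ i ∈ T, MS n W e (F i) s := by
  classical
  induction T using Finset.induction_on with
  | empty => simp only [sum_empty, MS_zero]
  | insert i T hi ih =>
    simp only [sum_insert hi]
    rw [MS_add hW, ih]

lemma norm_MS_sum_le {ι : Type*} (hW : ∀ k, W k ≠ 0 → nm k ≤ X) (T : Finset ι)
    (F : ι → Eis → ℂ) (s : Eis) :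
    ‖MS n W e (fun k => ∑ i ∈ T, F i k) s‖ ≤ ∑ i ∈ T, ‖MS n W e (F i) s‖ := by
  rw [MS_sum hW]
  exact norm_sum_le _ _

lemma MS_const (c : ℂ) (F : Eis → ℂ) (s : Eis) :
    MS n W e (fun k => c * F k) s = c * MS n W e F s := by
  classical
  unfold E5P571.MS
  rw [← tsum_mul_left]
  refine tsum_congr fun k => ?_
  split_ifs
  · ring
  · ring

open Classical in
lemma AS_cut (F : Eis → ℂ) (cut : Eis → Prop) (s : Eis) :
    AS n X F s = ∑ k ∈ (PB n X).filter (fun k => cut k ∧ s ∣ k), ‖F k‖ +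
      ∑ k ∈ (PB n X).filter (fun k => ¬ cut k ∧ s ∣ k), ‖F k‖ := by
  unfold AS
  rw [← sum_filter_add_sum_filter_not _ cut]
  congr 1
  · refine sum_congr ?_ fun _ _ => rfl
    ext k
    simp only [mem_filter, PB]
    tauto
  · refine sum_congr ?_ fun _ _ => rfl
    ext k
    simp only [mem_filter, PB]
    tauto

open Classical in
/-- **absolute bound of one term**: Cauchy on the cut `k`, plain sum on the others -/
theorem MS_abs (hW : ∀ k, W k ≠ 0 → nm k ≤ X) (hW1 : ∀ k, ‖W k‖ ≤ 1) (Sv B : Eis → ℂ)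
    (cut : Eis → Prop) (s : Eis) :
    ‖MS n W e (fun k => Sv k * B k) s‖ ≤
      Real.sqrt (∑ k ∈ (PB n X).filter (fun k => cut k ∧ s ∣ k), ‖Sv k‖ ^ 2) *
        Real.sqrt (∑ k ∈ (PB n X).filter (fun k => cut k ∧ s ∣ k), ‖B k‖ ^ 2) +
      ∑ k ∈ (PB n X).filter (fun k => ¬ cut k ∧ s ∣ k), ‖Sv k‖ * ‖B k‖ := by
  have h1 := norm_MS_le (n := n) (e := e) hW hW1 (fun k => Sv k * B k) s
  rw [one_mul, AS_cut (cut := cut)] at h1
  refine h1.trans (add_le_add ?_ ?_)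
  · refine le_trans (le_of_eq ?_) (Real.sum_mul_le_sqrt_mul_sqrt _ (fun k => ‖Sv k‖)
      (fun k => ‖B k‖))
    exact sum_congr rfl fun k _ => norm_mul _ _
  · exact le_of_eq (sum_congr rfl fun k _ => norm_mul _ _)

end

end Crest.Agent.R017.E5Q571
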