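import Crest.Agent.R017.ET4a_548
import Crest.Agent.R017.E5Q_571
import Crest.Agent.R017.E3Mj_829

/-!
# Row 17, R8 (E3) (helper290): the cubes between two cuts

* `wgt_bd` : the bounds of a weight
* `cut_sum` : the `k` with cube part in `(E1', E1]` as `m³ k₁`, `k₁` cube-free
* `cut_gen` : the sum over `m` of the Gram sums at `m³ k₁`
-/

set_option autoImplicit false
set_option linter.unusedVariables false

noncomputable section

open Finset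
open scoped Classical ComplexConjugate ContDiff

namespace Crest.Agent.R017.CutM290

open Crest.Agent.R012 Crest.Agent.R012.Eis Crest.Agent.R012.Div277
open Crest.Agent.R012.MC (Wgt)
open Crest.Agent.R012.LS2 (S mem_S)
open Crest.Agent.R012.Mob705 (pb mem_pb card_pb_le)
open Crest.Agent.R017.C70 (CbF)
open Crest.Agent.R017.E1551 (nmpos)
open Crest.Agent.R017.E3M829 (Cut Hp Hp_nonneg Hp_le sum_inv_mult log_Z)

/-- the bounds of a weight -/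
lemma wgt_bd {w : ℝ → ℝ} (hw : Wgt w) : ∃ c1 c2 Wb : ℝ, 0 < c1 ∧ c1 ≤ 1 ∧ 1 ≤ c2 ∧ 1 ≤ Wb ∧
    (∀ x, w x ≠ 0 → c1 ≤ x ∧ x ≤ c2) ∧ ∀ x, w x ≤ Wb := by
  obtain ⟨M, hM, hMw⟩ := hw.bounded
  have hb : ∀ x, w x ≤ max M 1 := fun x => ((le_abs_self _).trans (hMw x)).trans (le_max_left _ _)
  by_cases hne : (tsupport w).Nonempty
  · obtain ⟨a, ha, ha'⟩ := hw.cpt.isCompact.exists_isLeast hne
    obtain ⟨b, hb1, hb'⟩ := hw.cpt.isCompact.exists_isGreatest hne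
    have ha0 : 0 < a := hw.pos ha
    refine ⟨min a 1, max b 1, max M 1, lt_min ha0 one_pos, min_le_right _ _, le_max_right _ _,
      le_max_right _ _, fun x hx => ?_, hb⟩
    have h1 : x ∈ tsupport w := subset_tsupport _ (Function.mem_support.mpr hx)
    exact ⟨(min_le_left _ _).trans (ha' h1), (hb' h1).trans (le_max_left _ _)⟩
  · refine ⟨1, 1, max M 1, one_pos, le_rfl, le_rfl, le_max_right _ _, fun x hx => ?_, hb⟩
    exact absurd ⟨x, subset_tsupport _ (Function.mem_support.mpr hx)⟩ hne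

/-- the cube-free `k` of size `K` -/
def KKc (ρ K : ℝ) : Finset Eis := (pb K).filter fun k => CbF k ∧ ρ * K ≤ nm k

lemma mem_KKc {ρ K : ℝ} {k : Eis} :
    k ∈ KKc ρ K ↔ ((nm k : ℝ) ≤ K ∧ IsPrim k) ∧ CbF k ∧ ρ * K ≤ nm k := by
  unfold KKc
  rw [mem_filter, mem_pb]

lemma KKc_spec {ρ K : ℝ} : ∀ k ∈ KKc ρ K, IsPrim k ∧ CbF k ∧ ρ * K ≤ nm k ∧ (nm k : ℝ) ≤ K :=
  fun k hk => by
    have h := mem_KKc.mp hk
    exact ⟨h.1.2, h.2.1, h.2.2, h.1.1⟩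

/-- **the cubes between two cuts** -/
theorem cut_sum {w : ℝ → ℝ} (hw0 : ∀ x, 0 ≤ w x) {c1 c2 Wb : ℝ} (hc2 : 0 < c2)
    (hws : ∀ x, w x ≠ 0 → c1 ≤ x ∧ x ≤ c2) (hwb : ∀ x, w x ≤ Wb) {K E1 E1' : ℝ} (hK : 0 < K)
    {F : Eis → ℝ} (hF : ∀ k, 0 ≤ F k) :
    (∑' k : Eis, if IsPrim k ∧ Cut E1 k ∧ ¬ Cut E1' k then w ((nm k : ℝ) / K) * F k else 0) ≤
      Wb * ∑ m ∈ (pb E1).filter (fun m => E1' < (nm m : ℝ)),
        ∑ k₁ ∈ KKc (c1 / c2) (K * (c2 / (nm m : ℝ) ^ 3)), F (m ^ 3 * k₁) := by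
  have hWb : 0 ≤ Wb := (hw0 0).trans (hwb 0)
  have hz : ∀ k, k ∉ pb (c2 * K) →
      (if IsPrim k ∧ Cut E1 k ∧ ¬ Cut E1' k then w ((nm k : ℝ) / K) * F k else 0) = 0 := by
    intro k hk
    split_ifs with h1
    · by_cases h2 : w ((nm k : ℝ) / K) = 0
      · rw [h2, zero_mul]
      · exfalso
        apply hk
        have h3 := (hws _ h2).2
        rw [div_le_iff₀ hK] at h3
        exact mem_pb.mpr ⟨h3, h1.1⟩
    · rfl
  rw [tsum_eq_sum (s := pb (c2 * K)) hz]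
  -- the finite set
  set P : Eis → Prop := fun k => Cut E1 k ∧ ¬ Cut E1' k ∧ c1 * K ≤ nm k with hP
  have s1 : ∑ k ∈ pb (c2 * K), (if IsPrim k ∧ Cut E1 k ∧ ¬ Cut E1' k then
      w ((nm k : ℝ) / K) * F k else 0) ≤ Wb * ∑ k ∈ (pb (c2 * K)).filter P, F k := by
    rw [mul_sum, sum_filter]
    refine sum_le_sum fun k hk => ?_
    by_cases h1 : IsPrim k ∧ Cut E1 k ∧ ¬ Cut E1' k
    · rw [if_pos h1]
      by_cases h2 : w ((nm k : ℝ) / K) = 0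
      · rw [h2, zero_mul]
        split_ifs
        · exact mul_nonneg hWb (hF k)
        · exact le_rfl
      · have h3 := (hws _ h2).1
        rw [le_div_iff₀ hK] at h3
        rw [if_pos ⟨h1.2.1, h1.2.2, h3⟩]
        exact mul_le_mul_of_nonneg_right (hwb _) (hF k)
    · rw [if_neg h1]
      split_ifs
      · exact mul_nonneg hWb (hF k)
      · exact le_rfl
  refine s1.trans (mul_le_mul_of_nonneg_left ?_ hWb)
  rw [Finset.sum_sigma']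
  set T := ((pb E1).filter (fun m => E1' < (nm m : ℝ))).sigma
    (fun m => KKc (c1 / c2) (K * (c2 / (nm m : ℝ) ^ 3))) with hT
  have h1 : (pb (c2 * K)).filter P ⊆ T.image fun x => x.1 ^ 3 * x.2 := by
    intro k hk
    rw [mem_filter, mem_pb] at hk
    obtain ⟨⟨hkX, hkp⟩, hc, hnc, hlo⟩ := hk
    have hnc' := hnc
    unfold E3M829.Cut at hnc
    push Not at hnc
    obtain ⟨f, hf, hfk, hfE⟩ := hnc
    obtain ⟨j, e, hj, he, hcf, hke⟩ := E5b54.exists_cf_prim hkp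
    have hfe : f ∣ e := E5Q571.dvd_of_cube_dvd hj he hf hcf (hke ▸ hfk)
    have hnf : (nm f : ℝ) ≤ nm e := by exact_mod_cast Div277.nm_le_of_dvd he.ne_zero hfe
    have hn : (nm k : ℝ) = (nm e : ℝ) ^ 3 * nm j := by
      rw [hke, nm_mul, nm_pow]; push_cast; ring
    have he0 : (0 : ℝ) < (nm e : ℝ) ^ 3 := pow_pos (nmpos he.ne_zero) 3
    rw [mem_image]
    refine ⟨⟨e, j⟩, ?_, by rw [hke]; ring⟩
    rw [hT, mem_sigma, mem_filter, mem_pb, mem_KKc]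
    refine ⟨⟨⟨hc e he ⟨j, by rw [hke]; ring⟩, he⟩, lt_of_lt_of_le hfE hnf⟩, ⟨?_, hj⟩, hcf, ?_⟩
    · show (nm j : ℝ) ≤ K * (c2 / (nm e : ℝ) ^ 3)
      rw [← mul_div_assoc, le_div_iff₀ he0]
      linarith
    · show c1 / c2 * (K * (c2 / (nm e : ℝ) ^ 3)) ≤ nm j
      have e1 : c1 / c2 * (K * (c2 / (nm e : ℝ) ^ 3)) = c1 * K / (nm e : ℝ) ^ 3 := by
        field_simp
      rw [e1, div_le_iff₀ he0]
      linarith
  refine (sum_le_sum_of_subset_of_nonneg h1 fun _ _ _ => hF _).trans ?_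
  exact sum_image_le_of_nonneg fun _ _ => hF _

/-! ### the sums over `m` -/

/-- the gcd against the divisors -/
lemma gcd_le {f m : Eis} (hf : IsPrim f) :
    (nm (EuclideanDomain.gcd f m) : ℝ) ≤ ∑ g ∈ dvs f, if g ∣ m then (nm g : ℝ) else 0 := by
  have h1 : EuclideanDomain.gcd f m ∣ f := EuclideanDomain.gcd_dvd_left _ _
  have h2 : EuclideanDomain.gcd f m ∣ m := EuclideanDomain.gcd_dvd_right _ _
  have hl : ¬ lam ∣ EuclideanDomain.gcd f m := fun h => hf.not_lam_dvd (h.trans h1)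
  obtain ⟨y, hy, ha⟩ := exists_isPrim_associated hl
  have hyf : y ∣ f := ha.dvd'.trans h1
  have hym : y ∣ m := ha.dvd'.trans h2
  have hmem : y ∈ dvs f := (mem_dvs hf.ne_zero).mpr ⟨hy, hyf⟩
  have h3 : (nm (EuclideanDomain.gcd f m) : ℝ) = if y ∣ m then (nm y : ℝ) else 0 := by
    rw [if_pos hym, nm_eq_of_associated ha]
  rw [h3]
  exact single_le_sum (f := fun g => if g ∣ m then (nm g : ℝ) else 0)
    (fun g _ => by split_ifs <;> positivity) hmem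

/-- the sum of the gcd's -/
lemma sum_gcd {f : Eis} (hf : IsPrim f) {Y : ℝ} (hY : 0 ≤ Y) :
    ∑ m ∈ pb Y, (nm (EuclideanDomain.gcd f m) : ℝ) * (1 / nm m) ≤ tau f * Hp Y := by
  calc ∑ m ∈ pb Y, (nm (EuclideanDomain.gcd f m) : ℝ) * (1 / nm m)
      ≤ ∑ m ∈ pb Y, (∑ g ∈ dvs f, if g ∣ m then (nm g : ℝ) else 0) * (1 / nm m) :=
        sum_le_sum fun m _ => mul_le_mul_of_nonneg_right (gcd_le hf) (by positivity)
    _ = ∑ g ∈ dvs f, (nm g : ℝ) * ∑ m ∈ pb Y, (if g ∣ m then (1 : ℝ) / nm m else 0) := by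
        simp only [sum_mul, mul_sum]
        rw [sum_comm]
        refine sum_congr rfl fun g _ => sum_congr rfl fun m _ => ?_
        split_ifs
        · rfl
        · simp
    _ ≤ ∑ g ∈ dvs f, Hp Y := by
        refine sum_le_sum fun g hg => ?_
        have hgp := ((mem_dvs hf.ne_zero).mp hg).1
        have hg0 := nmpos hgp.ne_zero
        have h1 := mul_le_mul_of_nonneg_left (sum_inv_mult hY hgp) hg0.le
        refine h1.trans (le_of_eq ?_)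
        field_simp
    _ = tau f * Hp Y := by
        rw [sum_const, nsmul_eq_mul]
        rfl

/-- `Hp E ≤ C Z^ε` -/
lemma Hp_Z {ε : ℝ} (hε : 0 < ε) {E Z : ℝ} (hE : 1 ≤ E) (hEZ : E ≤ Z) :
    Hp E ≤ 200 * (1 + 1 / ε) * Z ^ ε := by
  have hZ : 1 ≤ Z := hE.trans hEZ
  have h1 := Hp_le (Y := E) (by linarith)
  have h2 : Real.log (1 + E) ≤ 1 + Real.log Z := by
    have h3 : Real.log (1 + E) ≤ Real.log (2 * Z) := Real.log_le_log (by linarith) (by linarith)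
    rw [Real.log_mul (by norm_num) (by linarith)] at h3
    have h4 : Real.log 2 ≤ 1 := by
      have := Real.log_two_lt_d9
      linarith
    linarith
  have h3 := log_Z hε hZ
  have h4 : 0 ≤ Real.log Z := Real.log_nonneg hZ
  linarith

set_option maxHeartbeats 1000000 in
/-- **the sum over `m` of the Gram sums at `m³ k₁`** -/
theorem cut_gen {w : ℝ → ℝ} (hw : Wgt w) (hw0 : ∀ x, 0 ≤ w x) {ε : ℝ} (hε : 0 < ε) :
    ∃ c1 c2 : ℝ, 0 < c1 ∧ c1 ≤ c2 ∧ 1 ≤ c2 ∧ ∃ Cc : ℝ, 1 ≤ Cc ∧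
    ∀ (C Z K R E0 E1 E1' : ℝ), 0 ≤ C → 1 ≤ Z → 0 < K → 0 ≤ R → 0 ≤ E0 → E0 ≤ Z → 0 < E1' →
      1 ≤ E1 → E1 ≤ Z →
    ∀ (F : Eis → ℝ), (∀ k, 0 ≤ F k) → ∀ (Xf : Eis → ℝ), (∀ f, 0 ≤ Xf f) → ∀ Lt : ℝ, 0 ≤ Lt →
      ∀ Fs : Finset Eis, (∀ f ∈ Fs, f ∈ S E0) →
      (∀ m ∈ pb E1, ∑ k ∈ KKc (c1 / c2) (K * (c2 / (nm m : ℝ) ^ 3)), F (m ^ 3 * k) ≤
        C * ((K * (c2 / (nm m : ℝ) ^ 3)) ^ (2 / 3 : ℝ) * ∑ f ∈ Fs,
          (((nm (EuclideanDomain.gcd f m) : ℝ) / nm f +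
            (R / (K * (c2 / (nm m : ℝ) ^ 3)) ^ 2) ^ (1 / 6 : ℝ) * (nm f : ℝ) ^ (1 / 2 : ℝ) +
            R / (K * (c2 / (nm m : ℝ) ^ 3))) * Xf f) +
          (c2 / (nm m : ℝ) ^ 3) ^ (1 / 3 : ℝ) * Lt)) →
      (∑' k : Eis, if IsPrim k ∧ Cut E1 k ∧ ¬ Cut E1' k then
        w ((nm k : ℝ) / K) * F k else 0) ≤
      Cc * C * Z ^ ε * (K ^ (2 / 3 : ℝ) * ∑ f ∈ Fs, ((E1'⁻¹ * (nm f : ℝ)⁻¹ +
        (R / K ^ 2) ^ (1 / 6 : ℝ) * (nm f : ℝ) ^ (1 / 2 : ℝ) + E1 ^ 2 * R / K) * Xf f) + Lt) := by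
  obtain ⟨c1, c2, Wb, hc1, hc11, hc2, hWb, hws, hwb⟩ := wgt_bd hw
  have hε2 : 0 < ε / 2 := by positivity
  obtain ⟨Ct, hCt, htau⟩ := tau_le_rpow hε2
  have hc20 : 0 < c2 := by linarith
  obtain ⟨Ch, hChd⟩ : ∃ Ch, Ch = 200 * (1 + 1 / (ε / 2)) := ⟨_, rfl⟩
  have hCh : 1 ≤ Ch := by
    have : 0 ≤ 1 / (ε / 2) := by positivity
    rw [hChd]; linarith
  refine ⟨c1, c2, hc1, hc11.trans hc2, hc2, Wb * (c2 * (Ct * Ch) * 100), ?_, ?_⟩
  · have h1 : 1 ≤ Ct * Ch := one_le_mul_of_one_le_of_one_le hCt hCh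
    have h2 : 1 ≤ c2 * (Ct * Ch) := one_le_mul_of_one_le_of_one_le hc2 h1
    exact one_le_mul_of_one_le_of_one_le hWb (by linarith)
  intro C Z K R E0 E1 E1' hC hZ hK hR hE0 hE0Z hE1' hE1 hE1Z F hF Xf hXf Lt hLt Fs hFs hm
  have hZ0 : (0 : ℝ) < Z := by linarith
  have hz1 : 1 ≤ Z ^ (ε / 2) := Real.one_le_rpow hZ hε2.le
  have hz0 : 0 < Z ^ (ε / 2) := by linarith
  have hze : Z ^ (ε / 2) * Z ^ (ε / 2) = Z ^ ε := by
    rw [← Real.rpow_add hZ0]; congr 1; ring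
  have hH : Hp E1 ≤ Ch * Z ^ (ε / 2) := by rw [hChd]; exact Hp_Z hε2 hE1 hE1Z
  have hH0 := Hp_nonneg E1
  -- one `m`
  obtain ⟨a, had⟩ : ∃ a : ℝ, a = (R / K ^ 2) ^ (1 / 6 : ℝ) := ⟨_, rfl⟩
  have ha0 : 0 ≤ a := by rw [had]; positivity
  have hone : ∀ m ∈ (pb E1).filter (fun m => E1' < (nm m : ℝ)),
      ∑ k ∈ KKc (c1 / c2) (K * (c2 / (nm m : ℝ) ^ 3)), F (m ^ 3 * k) ≤
      C * (c2 * (K ^ (2 / 3 : ℝ) * ∑ f ∈ Fs,
        ((E1'⁻¹ * (nm f : ℝ)⁻¹ * ((nm (EuclideanDomain.gcd f m) : ℝ) * (1 / nm m)) +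
          (1 / nm m) * (a * (nm f : ℝ) ^ (1 / 2 : ℝ)) + nm m * (R / K)) * Xf f) +
          (1 / nm m) * Lt)) := by
    intro m hmm
    obtain ⟨hm1, hm2⟩ := mem_filter.mp hmm
    obtain ⟨hm3, hmp⟩ := mem_pb.mp hm1
    have n0 := nmpos hmp.ne_zero
    have n1 : (1 : ℝ) ≤ nm m := by exact_mod_cast nm_pos.mpr hmp.ne_zero
    obtain ⟨x, hx⟩ : ∃ x : ℝ, x = nm m := ⟨_, rfl⟩
    have key := hm m hm1
    rw [← hx] at key n0 n1 hm2 hm3 ⊢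
    refine key.trans (mul_le_mul_of_nonneg_left ?_ hC)
    have hs : 0 < c2 / x ^ 3 := by positivity
    have hs3 : (c2 / x ^ 3) ^ (1 / 3 : ℝ) ≤ c2 * (1 / x) := by
      rw [Real.div_rpow hc20.le (by positivity), ← Real.rpow_natCast, ← Real.rpow_mul n0.le]
      norm_num
      rw [div_eq_mul_inv]
      refine mul_le_mul_of_nonneg_right ?_ (by positivity)
      calc c2 ^ (1 / 3 : ℝ) ≤ c2 ^ (1 : ℝ) := Real.rpow_le_rpow_of_exponent_le hc2 (by norm_num)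
        _ = c2 := Real.rpow_one _
    have k23 : (K * (c2 / x ^ 3)) ^ (2 / 3 : ℝ) ≤ K ^ (2 / 3 : ℝ) * (c2 * (1 / x) ^ 2) := by
      rw [Real.mul_rpow hK.le hs.le]
      refine mul_le_mul_of_nonneg_left ?_ (by positivity)
      rw [Real.div_rpow hc20.le (by positivity), ← Real.rpow_natCast x 3, ← Real.rpow_mul n0.le]
      have e1 : x ^ (((3 : ℕ) : ℝ) * (2 / 3)) = x ^ 2 := by
        rw [← Real.rpow_natCast x 2]; norm_num
      rw [e1, div_eq_mul_inv, one_div, inv_pow]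
      refine mul_le_mul_of_nonneg_right ?_ (by positivity)
      calc c2 ^ (2 / 3 : ℝ) ≤ c2 ^ (1 : ℝ) := Real.rpow_le_rpow_of_exponent_le hc2 (by norm_num)
        _ = c2 := Real.rpow_one _
    have k13 : (K * (c2 / x ^ 3)) ^ (2 / 3 : ℝ) * (R / (K * (c2 / x ^ 3)) ^ 2) ^ (1 / 6 : ℝ) ≤
        K ^ (2 / 3 : ℝ) * (c2 * ((1 / x) * a)) := by
      have e1 : (R / (K * (c2 / x ^ 3)) ^ 2) ^ (1 / 6 : ℝ) =
          a * ((c2 / x ^ 3) ^ (1 / 3 : ℝ))⁻¹ := by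
        rw [had, mul_pow, ← div_div, Real.div_rpow (by positivity) (by positivity),
          div_eq_mul_inv]
        congr 2
        rw [← Real.rpow_natCast (c2 / x ^ 3) 2, ← Real.rpow_mul hs.le]
        norm_num
      have e2 : (K * (c2 / x ^ 3)) ^ (2 / 3 : ℝ) =
          K ^ (2 / 3 : ℝ) * ((c2 / x ^ 3) ^ (1 / 3 : ℝ) * (c2 / x ^ 3) ^ (1 / 3 : ℝ)) := by
        rw [Real.mul_rpow hK.le hs.le, ← Real.rpow_add hs]
        norm_num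
      have p3 : 0 < (c2 / x ^ 3) ^ (1 / 3 : ℝ) := by positivity
      rw [e1, e2]
      have e3 : K ^ (2 / 3 : ℝ) * ((c2 / x ^ 3) ^ (1 / 3 : ℝ) * (c2 / x ^ 3) ^ (1 / 3 : ℝ)) *
          (a * ((c2 / x ^ 3) ^ (1 / 3 : ℝ))⁻¹) =
          K ^ (2 / 3 : ℝ) * ((c2 / x ^ 3) ^ (1 / 3 : ℝ) * a) := by
        field_simp
      rw [e3]
      refine mul_le_mul_of_nonneg_left ?_ (by positivity)
      calc (c2 / x ^ 3) ^ (1 / 3 : ℝ) * a ≤ c2 * (1 / x) * a :=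
            mul_le_mul_of_nonneg_right hs3 ha0
        _ = c2 * ((1 / x) * a) := by ring
    have kR : (K * (c2 / x ^ 3)) ^ (2 / 3 : ℝ) * (R / (K * (c2 / x ^ 3))) ≤
        K ^ (2 / 3 : ℝ) * (c2 * (x * (R / K))) := by
      have e1 : (K * (c2 / x ^ 3)) ^ (2 / 3 : ℝ) * (R / (K * (c2 / x ^ 3))) ≤
          K ^ (2 / 3 : ℝ) * (c2 * (1 / x) ^ 2) * (R / (K * (c2 / x ^ 3))) :=
        mul_le_mul_of_nonneg_right k23 (by positivity)
      refine e1.trans ?_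
      have e2 : K ^ (2 / 3 : ℝ) * (c2 * (1 / x) ^ 2) * (R / (K * (c2 / x ^ 3))) =
          K ^ (2 / 3 : ℝ) * (x * (R / K)) := by
        field_simp
      rw [e2]
      refine mul_le_mul_of_nonneg_left ?_ (by positivity)
      exact le_mul_of_one_le_left (by positivity) hc2
    have e0 : C * 0 ≤ C * 0 := le_rfl
    have hsum : (K * (c2 / x ^ 3)) ^ (2 / 3 : ℝ) * ∑ f ∈ Fs,
          (((nm (EuclideanDomain.gcd f m) : ℝ) / nm f +
            (R / (K * (c2 / x ^ 3)) ^ 2) ^ (1 / 6 : ℝ) * (nm f : ℝ) ^ (1 / 2 : ℝ) +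
            R / (K * (c2 / x ^ 3))) * Xf f) ≤
        c2 * (K ^ (2 / 3 : ℝ) * ∑ f ∈ Fs,
        ((E1'⁻¹ * (nm f : ℝ)⁻¹ * ((nm (EuclideanDomain.gcd f m) : ℝ) * (1 / x)) +
          (1 / x) * (a * (nm f : ℝ) ^ (1 / 2 : ℝ)) + x * (R / K)) * Xf f)) := by
      rw [mul_sum, mul_sum, mul_sum]
      refine sum_le_sum fun f hf => ?_
      have hf0 : (0 : ℝ) ≤ nm f := Nat.cast_nonneg _
      have hx2 : (1 / x) ^ 2 ≤ E1'⁻¹ * (1 / x) := by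
        rw [pow_two, one_div]
        exact mul_le_mul_of_nonneg_right (inv_anti₀ hE1' hm2.le) (by positivity)
      have t1 : (K * (c2 / x ^ 3)) ^ (2 / 3 : ℝ) * ((nm (EuclideanDomain.gcd f m) : ℝ) / nm f) ≤
          c2 * K ^ (2 / 3 : ℝ) * (E1'⁻¹ * (nm f : ℝ)⁻¹ *
            ((nm (EuclideanDomain.gcd f m) : ℝ) * (1 / x))) := by
        calc (K * (c2 / x ^ 3)) ^ (2 / 3 : ℝ) * ((nm (EuclideanDomain.gcd f m) : ℝ) / nm f)
            ≤ (K ^ (2 / 3 : ℝ) * (c2 * (1 / x) ^ 2)) *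
              ((nm (EuclideanDomain.gcd f m) : ℝ) / nm f) :=
              mul_le_mul_of_nonneg_right k23 (by positivity)
          _ ≤ (K ^ (2 / 3 : ℝ) * (c2 * (E1'⁻¹ * (1 / x)))) *
              ((nm (EuclideanDomain.gcd f m) : ℝ) / nm f) := by gcongr
          _ = _ := by rw [div_eq_mul_inv]; ring
      have t2 : (K * (c2 / x ^ 3)) ^ (2 / 3 : ℝ) *
          ((R / (K * (c2 / x ^ 3)) ^ 2) ^ (1 / 6 : ℝ) * (nm f : ℝ) ^ (1 / 2 : ℝ)) ≤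
          c2 * K ^ (2 / 3 : ℝ) * ((1 / x) * (a * (nm f : ℝ) ^ (1 / 2 : ℝ))) := by
        have := mul_le_mul_of_nonneg_right k13
          (by positivity : (0 : ℝ) ≤ (nm f : ℝ) ^ (1 / 2 : ℝ))
        refine le_trans (le_of_eq ?_) (this.trans (le_of_eq ?_)) <;> ring
      have t4 := add_le_add (add_le_add t1 t2) kR
      have t5 := mul_le_mul_of_nonneg_right t4 (hXf f)
      refine le_trans (le_of_eq ?_) (t5.trans (le_of_eq ?_)) <;> ring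
    have hl : (c2 / x ^ 3) ^ (1 / 3 : ℝ) * Lt ≤ c2 * ((1 / x) * Lt) := by
      calc (c2 / x ^ 3) ^ (1 / 3 : ℝ) * Lt ≤ c2 * (1 / x) * Lt :=
            mul_le_mul_of_nonneg_right hs3 hLt
        _ = _ := by ring
    calc _ ≤ c2 * (K ^ (2 / 3 : ℝ) * ∑ f ∈ Fs,
        ((E1'⁻¹ * (nm f : ℝ)⁻¹ * ((nm (EuclideanDomain.gcd f m) : ℝ) * (1 / x)) +
          (1 / x) * (a * (nm f : ℝ) ^ (1 / 2 : ℝ)) + x * (R / K)) * Xf f)) +
          c2 * ((1 / x) * Lt) := add_le_add hsum hl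
      _ = _ := by ring
  -- the sum over `m`
  have hsub : (pb E1).filter (fun m => E1' < (nm m : ℝ)) ⊆ pb E1 := filter_subset _ _
  refine (cut_sum hw0 hc20 hws hwb hK hF).trans ?_
  have hall : ∑ m ∈ (pb E1).filter (fun m => E1' < (nm m : ℝ)),
        ∑ k₁ ∈ KKc (c1 / c2) (K * (c2 / (nm m : ℝ) ^ 3)), F (m ^ 3 * k₁) ≤
      ∑ m ∈ pb E1, C * (c2 * (K ^ (2 / 3 : ℝ) * ∑ f ∈ Fs,
        ((E1'⁻¹ * (nm f : ℝ)⁻¹ * ((nm (EuclideanDomain.gcd f m) : ℝ) * (1 / nm m)) +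
          (1 / nm m) * (a * (nm f : ℝ) ^ (1 / 2 : ℝ)) + nm m * (R / K)) * Xf f) +
          (1 / nm m) * Lt)) := by
    refine (sum_le_sum hone).trans (sum_le_sum_of_subset_of_nonneg hsub fun m _ _ => ?_)
    have : 0 ≤ ∑ f ∈ Fs,
        ((E1'⁻¹ * (nm f : ℝ)⁻¹ * ((nm (EuclideanDomain.gcd f m) : ℝ) * (1 / nm m)) +
          (1 / nm m) * (a * (nm f : ℝ) ^ (1 / 2 : ℝ)) + nm m * (R / K)) * Xf f) :=
      sum_nonneg fun f _ => mul_nonneg (by positivity) (hXf f)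
    positivity
  have hsw : ∑ m ∈ pb E1, C * (c2 * (K ^ (2 / 3 : ℝ) * ∑ f ∈ Fs,
        ((E1'⁻¹ * (nm f : ℝ)⁻¹ * ((nm (EuclideanDomain.gcd f m) : ℝ) * (1 / nm m)) +
          (1 / nm m) * (a * (nm f : ℝ) ^ (1 / 2 : ℝ)) + nm m * (R / K)) * Xf f) +
          (1 / nm m) * Lt)) =
      C * (c2 * (K ^ (2 / 3 : ℝ) * ∑ f ∈ Fs,
        ((E1'⁻¹ * (nm f : ℝ)⁻¹ * (∑ m ∈ pb E1, (nm (EuclideanDomain.gcd f m) : ℝ) * (1 / nm m)) +
          Hp E1 * (a * (nm f : ℝ) ^ (1 / 2 : ℝ)) + (∑ m ∈ pb E1, (nm m : ℝ)) * (R / K)) * Xf f) +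
          Hp E1 * Lt)) := by
    unfold E3M829.Hp
    simp only [mul_sum, sum_mul, mul_add, add_mul, sum_add_distrib]
    congr 1
    rw [sum_comm]
    congr 1
    · congr 1
      rw [sum_comm]
    · rw [sum_comm]
  have hmm : ∑ m ∈ pb E1, (nm m : ℝ) ≤ 100 * E1 ^ 2 := by
    calc ∑ m ∈ pb E1, (nm m : ℝ) ≤ ∑ m ∈ pb E1, E1 := sum_le_sum fun m hm => (mem_pb.mp hm).1
      _ = (pb E1).card * E1 := by rw [sum_const, nsmul_eq_mul]
      _ ≤ 100 * E1 * E1 := mul_le_mul_of_nonneg_right (card_pb_le E1 (by linarith)) (by linarith)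
      _ = _ := by ring
  have hfin : K ^ (2 / 3 : ℝ) * ∑ f ∈ Fs,
        ((E1'⁻¹ * (nm f : ℝ)⁻¹ * (∑ m ∈ pb E1, (nm (EuclideanDomain.gcd f m) : ℝ) * (1 / nm m)) +
          Hp E1 * (a * (nm f : ℝ) ^ (1 / 2 : ℝ)) + (∑ m ∈ pb E1, (nm m : ℝ)) * (R / K)) * Xf f) +
          Hp E1 * Lt ≤
      (Ct * Ch * 100 * Z ^ ε) * (K ^ (2 / 3 : ℝ) * ∑ f ∈ Fs, ((E1'⁻¹ * (nm f : ℝ)⁻¹ +
        a * (nm f : ℝ) ^ (1 / 2 : ℝ) + E1 ^ 2 * R / K) * Xf f) + Lt) := by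
    have q1 : Hp E1 ≤ Ct * Ch * 100 * Z ^ ε := by
      refine hH.trans ?_
      rw [← hze]
      have w1 : Ch * Z ^ (ε / 2) ≤ (Ch * Z ^ (ε / 2)) * (Ct * 100 * Z ^ (ε / 2)) := by
        refine le_mul_of_one_le_right (by positivity) ?_
        exact one_le_mul_of_one_le_of_one_le (by linarith) hz1
      refine w1.trans (le_of_eq ?_)
      ring
    have q2 : (100 : ℝ) ≤ Ct * Ch * 100 * Z ^ ε := by
      rw [← hze]
      have w1 : 1 ≤ Ct * Ch := one_le_mul_of_one_le_of_one_le hCt hCh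
      have w2 : 1 ≤ Z ^ (ε / 2) * Z ^ (ε / 2) := one_le_mul_of_one_le_of_one_le hz1 hz1
      have w3 : 1 ≤ Ct * Ch * (Z ^ (ε / 2) * Z ^ (ε / 2)) := one_le_mul_of_one_le_of_one_le w1 w2
      linarith
    rw [mul_add]
    refine add_le_add ?_ (mul_le_mul_of_nonneg_right q1 hLt)
    rw [mul_left_comm]
    refine mul_le_mul_of_nonneg_left ?_ (by positivity)
    rw [mul_sum]
    refine sum_le_sum fun f hf => ?_
    obtain ⟨hf1, hf2, hf3⟩ := (mem_S hE0).mp (hFs f hf)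
    have g1 := sum_gcd (f := f) hf2 (Y := E1) (by linarith)
    have g2 : (tau f : ℝ) * Hp E1 ≤ Ct * Ch * 100 * Z ^ ε := by
      have g3 : (tau f : ℝ) ≤ Ct * Z ^ (ε / 2) := (htau f hf2.ne_zero).trans
        (mul_le_mul_of_nonneg_left (Real.rpow_le_rpow (Nat.cast_nonneg _) (hf1.trans hE0Z)
          hε2.le) (by linarith))
      calc (tau f : ℝ) * Hp E1 ≤ (Ct * Z ^ (ε / 2)) * (Ch * Z ^ (ε / 2)) :=
            mul_le_mul g3 hH hH0 (by positivity)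
        _ = Ct * Ch * (Z ^ (ε / 2) * Z ^ (ε / 2)) := by ring
        _ ≤ Ct * Ch * 100 * Z ^ ε := by
            rw [hze]
            have : 0 ≤ Ct * Ch * Z ^ ε := by positivity
            linarith
    have r1 : E1'⁻¹ * (nm f : ℝ)⁻¹ *
        (∑ m ∈ pb E1, (nm (EuclideanDomain.gcd f m) : ℝ) * (1 / nm m)) ≤
        (Ct * Ch * 100 * Z ^ ε) * (E1'⁻¹ * (nm f : ℝ)⁻¹) := by
      rw [mul_comm (Ct * Ch * 100 * Z ^ ε)]
      exact mul_le_mul_of_nonneg_left (g1.trans g2) (by positivity)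
    have r2 : Hp E1 * (a * (nm f : ℝ) ^ (1 / 2 : ℝ)) ≤
        (Ct * Ch * 100 * Z ^ ε) * (a * (nm f : ℝ) ^ (1 / 2 : ℝ)) :=
      mul_le_mul_of_nonneg_right q1 (by positivity)
    have r3 : (∑ m ∈ pb E1, (nm m : ℝ)) * (R / K) ≤
        (Ct * Ch * 100 * Z ^ ε) * (E1 ^ 2 * R / K) := by
      calc (∑ m ∈ pb E1, (nm m : ℝ)) * (R / K) ≤ 100 * E1 ^ 2 * (R / K) :=
            mul_le_mul_of_nonneg_right hmm (by positivity)
        _ = 100 * (E1 ^ 2 * R / K) := by ring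
        _ ≤ _ := mul_le_mul_of_nonneg_right q2 (by positivity)
    have r4 := mul_le_mul_of_nonneg_right (add_le_add (add_le_add r1 r2) r3) (hXf f)
    refine r4.trans (le_of_eq ?_)
    ring
  calc Wb * ∑ m ∈ (pb E1).filter (fun m => E1' < (nm m : ℝ)),
        ∑ k₁ ∈ KKc (c1 / c2) (K * (c2 / (nm m : ℝ) ^ 3)), F (m ^ 3 * k₁)
      ≤ Wb * (C * (c2 * ((Ct * Ch * 100 * Z ^ ε) * (K ^ (2 / 3 : ℝ) * ∑ f ∈ Fs,
        ((E1'⁻¹ * (nm f : ℝ)⁻¹ + a * (nm f : ℝ) ^ (1 / 2 : ℝ) + E1 ^ 2 * R / K) * Xf f) +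
          Lt)))) := by
        refine mul_le_mul_of_nonneg_left (hall.trans ?_) (by linarith)
        rw [hsw]
        exact mul_le_mul_of_nonneg_left (mul_le_mul_of_nonneg_left hfin hc20.le) hC
    _ = _ := by rw [had]; ring

end Crest.Agent.R017.CutM290
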