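import Crest.Agent.R017.CutM_290
import Crest.Agent.R017.ET4ax_290
import Crest.Agent.R017.RnS_579
import Crest.Agent.R017.Z1F_579

/-!
# Row 17, R8 (E3), class E (helper290): the second moment of the structured function over the cut, from
`ET4ax290.ET4ayQ`

* `CutXQ` : cube parts in `(E1', E1]`, range `Q` of `f`; `CutXQ0` : all cube parts `≤ E1`
* `CutXE` : `StE`, cube parts in `(E1', E1]`
-/

set_option autoImplicit false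
set_option linter.unusedVariables false

noncomputable section

open Finset
open scoped Classical ComplexConjugate ContDiff

namespace Crest.Agent.R017.CutX290

open Crest.Agent.R012 Crest.Agent.R012.Eis Crest.Agent.R012.Div277
open Crest.Agent.R012.MC (Wgt)
open Crest.Agent.R012.LS2 (S mem_S bl)
open Crest.Agent.R012.Mob705 (pb mem_pb)
open Crest.Agent.R012.Weight600 (pw)
open Crest.Agent.R017.C70 (JC OKJ JW okJ_JW CbF)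
open Crest.Agent.R017.CM106 (CS FS)
open Crest.Agent.R017.HB645 (hh)
open Crest.Agent.R017.E1551 (nmpos)
open Crest.Agent.R017.E3M829 (TC Tal Cut)
open Crest.Agent.R017.E3F548
open Crest.Agent.R017.E3Z548
open Crest.Agent.R017.E3Kc548 Crest.Agent.R017.E3Ke548
open Crest.Agent.R017.Mode405 (Slp)
open Crest.Agent.R017.E3Sz579 (Ld Md Ld_nonneg Md_nonneg)
open Crest.Agent.R017.E2440 (TE StE StT)
open Crest.Agent.R017.PX764 (n6)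
open Crest.Agent.R017.R3571 (RMm)
open Crest.Agent.R017.RnS579
open Crest.Agent.R017.E3Hi290 (RN2XF RN2XF_nonneg)
open Crest.Agent.R017.E3Sx744 (Mxd Mxd_nonneg)
open Crest.Agent.R017.PoHx72 (Cls)
open Crest.Agent.R017.ROX744 (PrU)
open Crest.Agent.R017.CutM290

set_option maxHeartbeats 1000000 in
/-- **the second moment over the cut, cube parts in `(E1', E1]`** -/
theorem CutXQ {w : ℝ → ℝ} (hw : Wgt w) (hw0 : ∀ x, 0 ≤ w x) {R0 : ℝ} (hR0 : 0 ≤ R0) (a A₁ : ℕ)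
    (hA₁ : 1 < A₁) {ε : ℝ} (hε : 0 < ε) (hε1 : ε ≤ 1) :
    ∃ (A : ℕ) (c C c2 : ℝ), 1 ≤ c ∧ 1 ≤ C ∧ 1 ≤ c2 ∧
    ∀ (Om : ℝ → ℂ) (Mb : ℝ), 0 ≤ Mb → ContDiff ℝ ∞ Om →
      (∀ n ≤ A + 2, ∀ x, ‖iteratedDeriv n Om x‖ ≤ Mb) →
    ∀ (τ : ℝ) (κ : ℂ), ‖κ‖ ≤ 1 → ∀ (Z : ℝ), 1 ≤ Z → ∀ (D Y₀ Y₁ : ℝ)
      (om : Eis × Eis → ℂ) (α : Eis → ℂ) (Q : Eis → Prop) (E0 R E1 E1' K X : ℝ)
      (H : ℕ → Eis → Eis → ℝ) (u : Eis) (W0 : ℕ → Bool → Eis → Eis → ℝ → ℝ),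
      u ≠ 0 → (∀ n, α n ≠ 0 → IsCoprime u n) →
      FS α → (∀ n, α n ≠ 0 → Squarefree n) →
      (∀ n, α n ≠ 0 → |Real.log (nm n) - Real.log X| ≤ R0) →
      0 < E1' → 1 ≤ E1 → E1 ≤ Z → 0 ≤ D → 0 ≤ Y₁ →
      (∀ x ∈ JW D Y₀ Y₁, om x = κ * (Om (Real.log (nm (x.2 * x.1 ^ 2))) * pw τ (nm x.2))) →
      (∀ i ∈ LI Y₀ Y₁, ∀ n : ℕ, 0 < n → hh (Real.log n - i) ≠ 0 → Om (Real.log n) ≠ 0 →
        Y₀ < n ∧ (n : ℝ) ≤ Y₁) →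
      0 < K → c2 * K ≤ Z → 0 ≤ R → R ≤ Z → 0 ≤ E0 → E0 ≤ Z → Y₁ ≤ Z →
      (∀ x ∈ JW D Y₀ Y₁, (nm x.1 : ℝ) ≤ Z) → (∀ x ∈ JW D Y₀ Y₁, (nm x.2 : ℝ) ≤ R) →
      0 < X → X ≤ Z ^ 5 → (∀ i d f, 0 < H i d f) → (∀ i ∈ LI Y₀ Y₁, c * Real.exp i ≤ Z ^ 5) →
      (∀ i ∈ LI Y₀ Y₁, ∀ d ∈ S (Z ^ 5), ∀ f ∈ (S E0).filter Q,
        c * (H i d f * Real.exp i ^ 2) ≤ K * X) →
      (∀ i jj d f, Slp a (W0 i jj d f)) →
      (∀ i ∈ LI Y₀ Y₁, ∀ jj, ∀ d ∈ (JW D Y₀ Y₁).image Prod.fst, ∀ f ∈ (S E0).filter Q, ∀ γ π,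
        IsPrim γ → IsPrim π → (nm π : ℝ) ≤ c * Z ^ 300 → ∀ P : ℝ, 0 < P →
        (nm γ : ℝ) * n6 γ ^ 2 * ∑ r ∈ (bl P).filter (Cls (PrU u) jj),
          RMm A₁ (fun n => α (d * n)) f γ π r ≤ W0 i jj d f P) →
      (∑' k : Eis, if IsPrim k ∧ Cut E1 k ∧ ¬ Cut E1' k then w ((nm k : ℝ) / K) *
        ‖StT E0 (JW D Y₀ Y₁) om (fun x e => if Q e then TE α x e else 0) k‖ ^ 2 else 0) ≤
      C * Z ^ ε * (K ^ (2 / 3 : ℝ) * ∑ f ∈ (S E0).filter Q, ((E1'⁻¹ * (nm f : ℝ)⁻¹ +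
        (R / K ^ 2) ^ (1 / 6 : ℝ) * (nm f : ℝ) ^ (1 / 2 : ℝ) + E1 ^ 2 * R / K) *
          XE (JW D Y₀ Y₁) om (Tal α) f) +
      Mb ^ 2 * (1 + |τ|) ^ A * ∑ f ∈ (S E0).filter Q, ∑ i ∈ LI Y₀ Y₁,
        ∑ d ∈ (JW D Y₀ Y₁).image Prod.fst,
        (nm f : ℝ)⁻¹ * LVn (fun d _ n => α (d * n)) {d} {f} c (Z ^ 5) K (H i d f) (Real.exp i)
          (Real.exp i) E1 1 1 (RN2XF c K (Real.exp i) X (H i) (W0 i) d f)) := by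
  have hε2 : 0 < ε / 2 := by positivity
  obtain ⟨c1, c2, hc1, hc12, hc2, Cc, hCc, hgen⟩ := cut_gen hw hw0 hε2
  have hc20 : 0 < c2 := by linarith
  obtain ⟨A, c, C1, hc, hC1, h⟩ := ET4ax290.ET4ayQ (ρ := c1 / c2) (by positivity)
    ((div_le_one hc20).mpr hc12) hR0 a A₁ hA₁ hε2 (by linarith)
  refine ⟨A, c, Cc * C1, c2, hc, one_le_mul_of_one_le_of_one_le hCc hC1, hc2, ?_⟩
  intro Om Mb hMb hOm hOb τ κ hκ Z hZ D Y₀ Y₁ om α Q E0 R E1 E1' K X H u W0 hu huc hα hsq hwin hE1'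
    hE1 hE1Z hD hY hom hwn hK hKZ hR0' hRZ hE0 hE0Z hYZ hJ1 hJ2 hX hXZ hH hcV hKX hS hRH
  have hZ0 : (0 : ℝ) < Z := by linarith
  obtain ⟨M, hMd⟩ : ∃ M, M = Mb ^ 2 * (1 + |τ|) ^ A := ⟨_, rfl⟩
  have hM : 0 ≤ M := by rw [hMd]; positivity
  obtain ⟨L, hL⟩ : ∃ L : ℝ, L = ∑ f ∈ (S E0).filter Q, ∑ i ∈ LI Y₀ Y₁,
        ∑ d ∈ (JW D Y₀ Y₁).image Prod.fst,
        (nm f : ℝ)⁻¹ * LVn (fun d _ n => α (d * n)) {d} {f} c (Z ^ 5) K (H i d f) (Real.exp i)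
          (Real.exp i) E1 1 1 (RN2XF c K (Real.exp i) X (H i) (W0 i) d f) := ⟨_, rfl⟩
  have hR2 : ∀ (i : ℕ) (d f : Eis), 0 ≤ RN2XF c K (Real.exp i) X (H i) (W0 i) d f :=
      fun i d f => by
    have hh := hH i d f
    have he3 := Real.exp_pos (i : ℝ)
    have hI : 0 < c * (X * Real.exp i * H i d f / K) := by positivity
    exact RN2XF_nonneg (Ld_nonneg hK hh d) (Md_nonneg (by linarith) hK he3 hh hX d)
      (Mxd_nonneg (by linarith) hK he3 hh hX d) (by positivity)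
      (fun jj => (hS i jj d f).nonneg _ hI)
  have hL0 : 0 ≤ L := by
    rw [hL]
    exact sum_nonneg fun f _ => sum_nonneg fun i _ => sum_nonneg fun d _ =>
      mul_nonneg (by positivity) (LVn_nonneg hK.le (hH i d f).le (Real.exp_pos _).le
        (Real.exp_pos _).le (by linarith) zero_le_one (hR2 i d f))
  have hE10 : 0 ≤ E1 := by linarith
  have key := hgen (C1 * Z ^ (ε / 2)) Z K R E0 E1 E1' (by positivity) hZ hK hR0' hE0 hE0Z hE1' hE1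
    hE1Z (fun k => ‖StT E0 (JW D Y₀ Y₁) om (fun x e => if Q e then TE α x e else 0) k‖ ^ 2)
    (fun k => by positivity) (fun f => XE (JW D Y₀ Y₁) om (Tal α) f)
    (fun f => XE_nonneg _ _ _ _) (M * L) (mul_nonneg hM hL0) ((S E0).filter Q)
    (fun f hf => (mem_filter.mp hf).1) (by
      intro m hm
      obtain ⟨hm1, hmp⟩ := mem_pb.mp hm
      have n0 := nmpos hmp.ne_zero
      have n1 : (1 : ℝ) ≤ nm m := by exact_mod_cast nm_pos.mpr hmp.ne_zero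
      obtain ⟨cr, hcr⟩ : ∃ cr : ℝ, cr = c2 ^ (1 / 3 : ℝ) := ⟨_, rfl⟩
      have hcr1 : 1 ≤ cr := by rw [hcr]; exact Real.one_le_rpow hc2 (by norm_num)
      have hcr0 : 0 < cr := by linarith
      have hcr3 : cr ^ 3 = c2 := by
        rw [hcr, ← Real.rpow_natCast, ← Real.rpow_mul hc20.le]
        norm_num
      obtain ⟨μ, hμ⟩ : ∃ μ : ℝ, μ = nm m / cr := ⟨_, rfl⟩
      have hμ0 : 0 < μ := by rw [hμ]; positivity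
      have hμE : μ ≤ E1 := by
        rw [hμ]
        exact (div_le_self n0.le hcr1).trans hm1
      have hs : K * (c2 / (nm m : ℝ) ^ 3) = K / μ ^ 3 := by
        rw [hμ, div_pow, hcr3]
        field_simp
      have hs3 : (c2 / (nm m : ℝ) ^ 3) ^ (1 / 3 : ℝ) = μ⁻¹ := by
        have e1 : c2 / (nm m : ℝ) ^ 3 = (μ⁻¹) ^ (3 : ℝ) := by
          rw [hμ, inv_div, ← hcr3, show (3 : ℝ) = ((3 : ℕ) : ℝ) by norm_num, Real.rpow_natCast,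
            div_pow]
        rw [e1, ← Real.rpow_mul (by positivity)]
        norm_num
      have hμ3 : 0 < μ ^ 3 := by positivity
      rw [hs, hs3]
      have hK' : 0 < K / μ ^ 3 := by positivity
      have hKK' : K / μ ^ 3 ≤ Z := by
        rw [← hs]
        refine le_trans ?_ hKZ
        rw [mul_comm c2]
        refine mul_le_mul_of_nonneg_left ?_ hK.le
        exact div_le_self hc20.le (one_le_pow₀ n1)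
      have k := h Om Mb hMb hOm hOb τ κ hκ Z hZ D Y₀ Y₁ om α Q E0 R (K / μ ^ 3) X m
        (KKc (c1 / c2) (K / μ ^ 3)) (fun i d f => H i d f / μ ^ 3) u W0 hu huc hα hsq hwin hmp
        (hm1.trans hE1Z) hD hY hom hwn hK' hKK' KKc_spec hR0' hRZ hE0 hE0Z hYZ hJ1 hJ2 hX hXZ
        (fun i d f => div_pos (hH i d f) hμ3) hcV
        (fun i hi d hd f hf => KX_div hμ0 (hKX i hi d hd f hf)) hS hRH
      refine k.trans (mul_le_mul_of_nonneg_left (add_le_add le_rfl ?_) (by positivity))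
      rw [← hMd]
      have e1 : ∑ f ∈ (S E0).filter Q, ∑ i ∈ LI Y₀ Y₁, ∑ d ∈ (JW D Y₀ Y₁).image Prod.fst,
          (nm f : ℝ)⁻¹ * LVn (fun d _ n => α (d * n)) {d} {f} c (Z ^ 5) (K / μ ^ 3)
            (H i d f / μ ^ 3) (Real.exp i) (Real.exp i) 1 1 1
            (RN2XF c (K / μ ^ 3) (Real.exp i) X (fun d f => H i d f / μ ^ 3) (W0 i) d f) ≤
          μ⁻¹ * L := by
        rw [hL, mul_sum]
        refine sum_le_sum fun f _ => ?_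
        rw [mul_sum]
        refine sum_le_sum fun i _ => ?_
        rw [mul_sum]
        refine sum_le_sum fun d _ => ?_
        have he3 := Real.exp_pos (i : ℝ)
        rw [RN2XF_div hμ0, LVn_div hK (hH i d f) he3 he3 hμ0, mul_one]
        have t1 := Z1F579.LVn_mono (af := fun d _ n => α (d * n)) (Ds := {d}) (EE := {f}) (c := c)
          (Y := Z ^ 5) (K := K) (H := H i d f) (V := Real.exp i) (V' := Real.exp i)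
          (V₂ := Real.exp i) (E1 := μ) (E1' := E1) (B := 1) (B' := 1) (G1 := 1)
          (RN := RN2XF c K (Real.exp i) X (H i) (W0 i) d f) hK (hH i d f) he3 he3 le_rfl hμ0.le
          hE10 zero_le_one (by gcongr) (by gcongr)
        have t2 := mul_le_mul_of_nonneg_left t1
          (by positivity : (0 : ℝ) ≤ μ⁻¹ * (nm f : ℝ)⁻¹)
        refine le_trans (le_of_eq ?_) (t2.trans (le_of_eq ?_)) <;> ring
      calc M * _ ≤ M * (μ⁻¹ * L) := mul_le_mul_of_nonneg_left e1 hM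
        _ = μ⁻¹ * (M * L) := by ring)
  refine key.trans (le_of_eq ?_)
  have hze : (Z ^ (ε / 2)) * Z ^ (ε / 2) = Z ^ ε := by
    rw [← Real.rpow_add hZ0]; congr 1; ring
  rw [← hze, hL, hMd]
  ring

lemma not_cut_half {k : Eis} : ¬ Cut (1 / 2) k := by
  intro h
  have h1 := h 1 isPrim_one ⟨k, by ring⟩
  rw [nm_one] at h1
  norm_num at h1

/-- **the second moment over the cut, all cube parts `≤ E1`** -/
theorem CutXQ0 {w : ℝ → ℝ} (hw : Wgt w) (hw0 : ∀ x, 0 ≤ w x) {R0 : ℝ} (hR0 : 0 ≤ R0) (a A₁ : ℕ)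
    (hA₁ : 1 < A₁) {ε : ℝ} (hε : 0 < ε) (hε1 : ε ≤ 1) :
    ∃ (A : ℕ) (c C c2 : ℝ), 1 ≤ c ∧ 1 ≤ C ∧ 1 ≤ c2 ∧
    ∀ (Om : ℝ → ℂ) (Mb : ℝ), 0 ≤ Mb → ContDiff ℝ ∞ Om →
      (∀ n ≤ A + 2, ∀ x, ‖iteratedDeriv n Om x‖ ≤ Mb) →
    ∀ (τ : ℝ) (κ : ℂ), ‖κ‖ ≤ 1 → ∀ (Z : ℝ), 1 ≤ Z → ∀ (D Y₀ Y₁ : ℝ)
      (om : Eis × Eis → ℂ) (α : Eis → ℂ) (Q : Eis → Prop) (E0 R E1 K X : ℝ)
      (H : ℕ → Eis → Eis → ℝ) (u : Eis) (W0 : ℕ → Bool → Eis → Eis → ℝ → ℝ),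
      u ≠ 0 → (∀ n, α n ≠ 0 → IsCoprime u n) →
      FS α → (∀ n, α n ≠ 0 → Squarefree n) →
      (∀ n, α n ≠ 0 → |Real.log (nm n) - Real.log X| ≤ R0) →
      1 ≤ E1 → E1 ≤ Z → 0 ≤ D → 0 ≤ Y₁ →
      (∀ x ∈ JW D Y₀ Y₁, om x = κ * (Om (Real.log (nm (x.2 * x.1 ^ 2))) * pw τ (nm x.2))) →
      (∀ i ∈ LI Y₀ Y₁, ∀ n : ℕ, 0 < n → hh (Real.log n - i) ≠ 0 → Om (Real.log n) ≠ 0 →
        Y₀ < n ∧ (n : ℝ) ≤ Y₁) →
      0 < K → c2 * K ≤ Z → 0 ≤ R → R ≤ Z → 0 ≤ E0 → E0 ≤ Z → Y₁ ≤ Z →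
      (∀ x ∈ JW D Y₀ Y₁, (nm x.1 : ℝ) ≤ Z) → (∀ x ∈ JW D Y₀ Y₁, (nm x.2 : ℝ) ≤ R) →
      0 < X → X ≤ Z ^ 5 → (∀ i d f, 0 < H i d f) → (∀ i ∈ LI Y₀ Y₁, c * Real.exp i ≤ Z ^ 5) →
      (∀ i ∈ LI Y₀ Y₁, ∀ d ∈ S (Z ^ 5), ∀ f ∈ (S E0).filter Q,
        c * (H i d f * Real.exp i ^ 2) ≤ K * X) →
      (∀ i jj d f, Slp a (W0 i jj d f)) →
      (∀ i ∈ LI Y₀ Y₁, ∀ jj, ∀ d ∈ (JW D Y₀ Y₁).image Prod.fst, ∀ f ∈ (S E0).filter Q, ∀ γ π,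
        IsPrim γ → IsPrim π → (nm π : ℝ) ≤ c * Z ^ 300 → ∀ P : ℝ, 0 < P →
        (nm γ : ℝ) * n6 γ ^ 2 * ∑ r ∈ (bl P).filter (Cls (PrU u) jj),
          RMm A₁ (fun n => α (d * n)) f γ π r ≤ W0 i jj d f P) →
      (∑' k : Eis, if IsPrim k ∧ Cut E1 k then w ((nm k : ℝ) / K) *
        ‖StT E0 (JW D Y₀ Y₁) om (fun x e => if Q e then TE α x e else 0) k‖ ^ 2 else 0) ≤
      C * Z ^ ε * (K ^ (2 / 3 : ℝ) * ∑ f ∈ (S E0).filter Q, (((nm f : ℝ)⁻¹ +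
        (R / K ^ 2) ^ (1 / 6 : ℝ) * (nm f : ℝ) ^ (1 / 2 : ℝ) + E1 ^ 2 * R / K) *
          XE (JW D Y₀ Y₁) om (Tal α) f) +
      Mb ^ 2 * (1 + |τ|) ^ A * ∑ f ∈ (S E0).filter Q, ∑ i ∈ LI Y₀ Y₁,
        ∑ d ∈ (JW D Y₀ Y₁).image Prod.fst,
        (nm f : ℝ)⁻¹ * LVn (fun d _ n => α (d * n)) {d} {f} c (Z ^ 5) K (H i d f) (Real.exp i)
          (Real.exp i) E1 1 1 (RN2XF c K (Real.exp i) X (H i) (W0 i) d f)) := by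
  obtain ⟨A, c, C, c2, hc, hC, hc2, h⟩ := CutXQ hw hw0 hR0 a A₁ hA₁ hε hε1
  refine ⟨A, c, 2 * C, c2, hc, by linarith, hc2, ?_⟩
  intro Om Mb hMb hOm hOb τ κ hκ Z hZ D Y₀ Y₁ om α Q E0 R E1 K X H u W0 hu huc hα hsq hwin
    hE1 hE1Z hD hY hom hwn hK hKZ hR0' hRZ hE0 hE0Z hYZ hJ1 hJ2 hX hXZ hH hcV hKX hS hRH
  have hZ0 : (0 : ℝ) < Z := by linarith
  have k := h Om Mb hMb hOm hOb τ κ hκ Z hZ D Y₀ Y₁ om α Q E0 R E1 (1 / 2) K X H u W0 hu huc hα hsq hwin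
    (by norm_num) hE1 hE1Z hD hY hom hwn hK hKZ hR0' hRZ hE0 hE0Z hYZ hJ1 hJ2 hX hXZ hH hcV hKX hS
    hRH
  simp only [not_cut_half, not_false_eq_true, and_true] at k
  refine k.trans ?_
  rw [show 2 * C * Z ^ ε = C * Z ^ ε * 2 by ring, mul_assoc (C * Z ^ ε)]
  refine mul_le_mul_of_nonneg_left ?_ (by positivity)
  have hM : 0 ≤ Mb ^ 2 * (1 + |τ|) ^ A * ∑ f ∈ (S E0).filter Q, ∑ i ∈ LI Y₀ Y₁,
        ∑ d ∈ (JW D Y₀ Y₁).image Prod.fst,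
        (nm f : ℝ)⁻¹ * LVn (fun d _ n => α (d * n)) {d} {f} c (Z ^ 5) K (H i d f) (Real.exp i)
          (Real.exp i) E1 1 1 (RN2XF c K (Real.exp i) X (H i) (W0 i) d f) := by
    refine mul_nonneg (by positivity) (sum_nonneg fun f _ => sum_nonneg fun i _ =>
      sum_nonneg fun d _ => mul_nonneg (by positivity) (LVn_nonneg hK.le (hH i d f).le
        (Real.exp_pos _).le (Real.exp_pos _).le (by linarith) zero_le_one ?_))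
    have hh := hH i d f
    have he3 := Real.exp_pos (i : ℝ)
    have hI : 0 < c * (X * Real.exp i * H i d f / K) := by positivity
    exact RN2XF_nonneg (Ld_nonneg hK hh d) (Md_nonneg (by linarith) hK he3 hh hX d)
      (Mxd_nonneg (by linarith) hK he3 hh hX d) (by positivity)
      (fun jj => (hS i jj d f).nonneg _ hI)
  rw [mul_add]
  refine add_le_add ?_ (by linarith)
  rw [mul_left_comm]
  refine mul_le_mul_of_nonneg_left ?_ (by positivity)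
  rw [mul_sum]
  refine sum_le_sum fun f _ => ?_
  rw [← mul_assoc]
  refine mul_le_mul_of_nonneg_right ?_ (XE_nonneg _ _ _ _)
  have h1 : 0 ≤ (R / K ^ 2) ^ (1 / 6 : ℝ) * (nm f : ℝ) ^ (1 / 2 : ℝ) := by positivity
  have h2 : 0 ≤ E1 ^ 2 * R / K := by positivity
  have h3 : ((1 : ℝ) / 2)⁻¹ = 2 := by norm_num
  rw [h3]
  linarith

/-- **`StE`, cube parts in `(E1', E1]`** -/
theorem CutXE {w : ℝ → ℝ} (hw : Wgt w) (hw0 : ∀ x, 0 ≤ w x) {R0 : ℝ} (hR0 : 0 ≤ R0) (a A₁ : ℕ)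
    (hA₁ : 1 < A₁) {ε : ℝ} (hε : 0 < ε) (hε1 : ε ≤ 1) :
    ∃ (A : ℕ) (c C c2 : ℝ), 1 ≤ c ∧ 1 ≤ C ∧ 1 ≤ c2 ∧
    ∀ (Om : ℝ → ℂ) (Mb : ℝ), 0 ≤ Mb → ContDiff ℝ ∞ Om →
      (∀ n ≤ A + 2, ∀ x, ‖iteratedDeriv n Om x‖ ≤ Mb) →
    ∀ (τ : ℝ) (κ : ℂ), ‖κ‖ ≤ 1 → ∀ (Z : ℝ), 1 ≤ Z → ∀ (D Y₀ Y₁ : ℝ)
      (om : Eis × Eis → ℂ) (α : Eis → ℂ) (E0 R E1 E1' K X : ℝ)
      (H : ℕ → Eis → Eis → ℝ) (u : Eis) (W0 : ℕ → Bool → Eis → Eis → ℝ → ℝ),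
      u ≠ 0 → (∀ n, α n ≠ 0 → IsCoprime u n) →
      FS α → (∀ n, α n ≠ 0 → Squarefree n) →
      (∀ n, α n ≠ 0 → |Real.log (nm n) - Real.log X| ≤ R0) →
      0 < E1' → 1 ≤ E1 → E1 ≤ Z → 0 ≤ D → 0 ≤ Y₁ →
      (∀ x ∈ JW D Y₀ Y₁, om x = κ * (Om (Real.log (nm (x.2 * x.1 ^ 2))) * pw τ (nm x.2))) →
      (∀ i ∈ LI Y₀ Y₁, ∀ n : ℕ, 0 < n → hh (Real.log n - i) ≠ 0 → Om (Real.log n) ≠ 0 →
        Y₀ < n ∧ (n : ℝ) ≤ Y₁) →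
      0 < K → c2 * K ≤ Z → 0 ≤ R → R ≤ Z → 0 ≤ E0 → E0 ≤ Z → Y₁ ≤ Z →
      (∀ x ∈ JW D Y₀ Y₁, (nm x.1 : ℝ) ≤ Z) → (∀ x ∈ JW D Y₀ Y₁, (nm x.2 : ℝ) ≤ R) →
      0 < X → X ≤ Z ^ 5 → (∀ i d f, 0 < H i d f) → (∀ i ∈ LI Y₀ Y₁, c * Real.exp i ≤ Z ^ 5) →
      (∀ i ∈ LI Y₀ Y₁, ∀ d ∈ S (Z ^ 5), ∀ f ∈ S E0,
        c * (H i d f * Real.exp i ^ 2) ≤ K * X) →
      (∀ i jj d f, Slp a (W0 i jj d f)) →
      (∀ i ∈ LI Y₀ Y₁, ∀ jj, ∀ d ∈ (JW D Y₀ Y₁).image Prod.fst, ∀ f ∈ S E0, ∀ γ π,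
        IsPrim γ → IsPrim π → (nm π : ℝ) ≤ c * Z ^ 300 → ∀ P : ℝ, 0 < P →
        (nm γ : ℝ) * n6 γ ^ 2 * ∑ r ∈ (bl P).filter (Cls (PrU u) jj),
          RMm A₁ (fun n => α (d * n)) f γ π r ≤ W0 i jj d f P) →
      (∑' k : Eis, if IsPrim k ∧ Cut E1 k ∧ ¬ Cut E1' k then w ((nm k : ℝ) / K) *
        ‖StE E0 (JW D Y₀ Y₁) om α k‖ ^ 2 else 0) ≤
      C * Z ^ ε * (K ^ (2 / 3 : ℝ) * ∑ f ∈ S E0, ((E1'⁻¹ * (nm f : ℝ)⁻¹ +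
        (R / K ^ 2) ^ (1 / 6 : ℝ) * (nm f : ℝ) ^ (1 / 2 : ℝ) + E1 ^ 2 * R / K) *
          XE (JW D Y₀ Y₁) om (Tal α) f) +
      Mb ^ 2 * (1 + |τ|) ^ A * ∑ f ∈ S E0, ∑ i ∈ LI Y₀ Y₁,
        ∑ d ∈ (JW D Y₀ Y₁).image Prod.fst,
        (nm f : ℝ)⁻¹ * LVn (fun d _ n => α (d * n)) {d} {f} c (Z ^ 5) K (H i d f) (Real.exp i)
          (Real.exp i) E1 1 1 (RN2XF c K (Real.exp i) X (H i) (W0 i) d f)) := by
  obtain ⟨A, c, C, c2, hc, hC, hc2, h⟩ := CutXQ hw hw0 hR0 a A₁ hA₁ hε hε1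
  refine ⟨A, c, C, c2, hc, hC, hc2, ?_⟩
  intro Om Mb hMb hOm hOb τ κ hκ Z hZ D Y₀ Y₁ om α E0 R E1 E1' K X H u W0 hu huc hα hsq hwin hE1'
    hE1 hE1Z hD hY hom hwn hK hKZ hR0' hRZ hE0 hE0Z hYZ hJ1 hJ2 hX hXZ hH hcV hKX hS hRH
  have k := h Om Mb hMb hOm hOb τ κ hκ Z hZ D Y₀ Y₁ om α (fun _ => True) E0 R E1 E1' K X H u W0 hu huc
    hα hsq hwin hE1' hE1 hE1Z hD hY hom hwn hK hKZ hR0' hRZ hE0 hE0Z hYZ hJ1 hJ2 hX hXZ hH hcV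
    (fun i hi d hd f hf => hKX i hi d hd f (by rwa [ET4a548.filt_true] at hf)) hS
    (fun i hi jj d hd f hf => hRH i hi jj d hd f (by rwa [ET4a548.filt_true] at hf))
  simp only [ET4a548.filt_true, if_true] at k
  exact k

end Crest.Agent.R017.CutX290
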