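import Crest.Agent.R017.XF1_71

/-!
# Row 17, D.FIN: from local exponents to the box inequality, abstract half (helper702)

* `cpt` : compactness for a local property
* `ExB` : robust exponent with two sizes of the auxiliary data (`s₁ ≤ X^δ`, `s₂ ≤ X^B` for every `B`)
* `near_of_slack` : constraints satisfied up to `ρ`
* `glob` : local exponents on a compact set => one inequality for all data, all `X ≥ 1`
* `ExB.cauchy` : Cauchy-Schwarz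
-/

set_option autoImplicit false

noncomputable section

open Set Filter Topology

namespace Crest.Agent.R017.DFin702

open Crest.Agent.R017.XF71

variable {A ι κ : Type*}

/-- compactness for a local property -/
theorem cpt [Fintype ι] {S : Set (ι → ℝ)} (hS : IsCompact S) (Φ : ℝ → ℝ → (ι → ℝ) → Prop)
    (hmono : ∀ δ δ' X q, 1 ≤ X → δ' ≤ δ → Φ δ X q → Φ δ' X q)
    (loc : ∀ p ∈ S, ∃ δ : ℝ, 0 < δ ∧ ∃ X₀ : ℝ, 1 < X₀ ∧ ∀ X : ℝ, X₀ ≤ X → ∀ q, Nr δ q p → Φ δ X q) :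
    ∃ δ : ℝ, 0 < δ ∧ ∃ X₀ : ℝ, 1 < X₀ ∧ ∀ X : ℝ, X₀ ≤ X → ∀ q, (∃ p ∈ S, Nr δ q p) → Φ δ X q := by
  classical
  choose! δ hδ X₀ hX₀ K using loc
  obtain ⟨T, hTS, hT⟩ := hS.elim_nhds_subcover (fun p => Metric.ball p (δ p / 2))
    (fun p hp => Metric.ball_mem_nhds p (by linarith [hδ p hp]))
  by_cases hne : T.Nonempty
  · set d := T.inf' hne (fun p => δ p / 2) with hd
    have hdpos : 0 < d := by
      rw [hd, Finset.lt_inf'_iff]; intro p hp; linarith [hδ p (hTS p hp)]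
    set Y := T.sup' hne X₀ with hY
    obtain ⟨p0, hp0⟩ := hne
    have hY1 : 1 < Y := lt_of_lt_of_le (hX₀ p0 (hTS p0 hp0)) (Finset.le_sup' X₀ hp0)
    refine ⟨d, hdpos, Y, hY1, ?_⟩
    intro X hX q ⟨p, hp, hn⟩
    have hpT := hT hp
    rw [Set.mem_iUnion₂] at hpT
    obtain ⟨p1, hp1, hb⟩ := hpT
    have hX1 : (1:ℝ) ≤ X := by linarith
    have hd1 : d ≤ δ p1 / 2 := Finset.inf'_le _ hp1
    have hpos1 := hδ p1 (hTS p1 hp1)
    have hn1 : Nr (δ p1) q p1 := by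
      intro i
      have hb' : |p i - p1 i| ≤ δ p1 / 2 := by
        have := (dist_le_pi_dist p p1 i).trans (Metric.mem_ball.1 hb).le
        rwa [Real.dist_eq] at this
      have := abs_sub_le (q i) (p i) (p1 i)
      linarith [hn i]
    exact hmono _ _ _ _ hX1 (by linarith)
      (K p1 (hTS p1 hp1) X ((Finset.le_sup' X₀ hp1).trans hX) q hn1)
  · rw [Finset.not_nonempty_iff_eq_empty] at hne
    refine ⟨1, one_pos, 2, by norm_num, ?_⟩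
    intro X hX q ⟨p, hp, hn⟩
    have := hT hp
    simp [hne] at this

/-- robust upper exponent, two sizes of the auxiliary data -/
def ExB (s₁ s₂ : A → ℝ) (Ψ : A → (ι → ℝ) → ℝ) (p : ι → ℝ) (e : ℝ) : Prop :=
  ∀ ε B : ℝ, 0 < ε → ∃ δ : ℝ, 0 < δ ∧ ∃ X₀ : ℝ, 1 < X₀ ∧ ∀ X : ℝ, X₀ ≤ X → ∀ a : A,
    s₁ a ≤ X ^ δ → s₂ a ≤ X ^ B → ∀ q : ι → ℝ, NN q → Nr δ q p → Ψ a (pw X q) ≤ X ^ (e + ε)

/-- one-size exponents whose size dominates -/
theorem ExB.of_ex {s₁ s₂ : A → ℝ} {Ψ : A → (ι → ℝ) → ℝ} {p : ι → ℝ} {e : ℝ}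
    (h : Ex s₁ Ψ p e) : ExB s₁ s₂ Ψ p e := by
  intro ε B hε
  obtain ⟨δ, hδ, X₀, hX₀, H⟩ := h ε hε
  exact ⟨δ, hδ, X₀, hX₀, fun X hX a h1 _ q hq hn => H X hX a h1 q hq hn⟩

theorem ExB.mono {s₁ s₂ : A → ℝ} {Ψ : A → (ι → ℝ) → ℝ} {p : ι → ℝ} {e e' : ℝ}
    (h : ExB s₁ s₂ Ψ p e) (he : e ≤ e') : ExB s₁ s₂ Ψ p e' := by
  intro ε B hε
  obtain ⟨δ, hδ, X₀, hX₀, H⟩ := h ε B hε
  refine ⟨δ, hδ, X₀, hX₀, fun X hX a h1 h2 q hq hn => (H X hX a h1 h2 q hq hn).trans ?_⟩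
  exact Real.rpow_le_rpow_of_exponent_le (by linarith) (by linarith)

/-- **Cauchy-Schwarz** for exponents -/
theorem ExB.cauchy {s₁ s₂ : A → ℝ} {Ψ Φ₁ Φ₂ : A → (ι → ℝ) → ℝ} {p : ι → ℝ} {e₁ e₂ : ℝ}
    (h1 : ExB s₁ s₂ Φ₁ p e₁) (h2 : ExB s₁ s₂ Φ₂ p e₂)
    (H : ∀ a L, Ψ a L ≤ Real.sqrt (Φ₁ a L) * Real.sqrt (Φ₂ a L)) :
    ExB s₁ s₂ Ψ p ((e₁ + e₂) / 2) := by
  intro ε B hε
  obtain ⟨δ, hδ, X₀, hX₀, K1⟩ := h1 ε B hε
  obtain ⟨δ', hδ', X₁, hX₁, K2⟩ := h2 ε B hε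
  refine ⟨min δ δ', lt_min hδ hδ', max X₀ X₁, lt_of_lt_of_le hX₀ (le_max_left _ _), ?_⟩
  intro X hX a ha hb q hq hn
  have hX0 : X₀ ≤ X := (le_max_left _ _).trans hX
  have hX1 : X₁ ≤ X := (le_max_right _ _).trans hX
  have hone : (1 : ℝ) ≤ X := by linarith
  have hpos : (0 : ℝ) < X := by linarith
  have g1 := K1 X hX0 a (ha.trans (Real.rpow_le_rpow_of_exponent_le hone (min_le_left _ _))) hb q hq
    (hn.mono (min_le_left _ _))
  have g2 := K2 X hX1 a (ha.trans (Real.rpow_le_rpow_of_exponent_le hone (min_le_right _ _))) hb q hq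
    (hn.mono (min_le_right _ _))
  refine (H a (pw X q)).trans ?_
  have r1 : Real.sqrt (Φ₁ a (pw X q)) ≤ X ^ ((e₁ + ε) / 2) := by
    refine (Real.sqrt_le_sqrt g1).trans (le_of_eq ?_)
    rw [Real.sqrt_eq_rpow, ← Real.rpow_mul hpos.le]; congr 1; ring
  have r2 : Real.sqrt (Φ₂ a (pw X q)) ≤ X ^ ((e₂ + ε) / 2) := by
    refine (Real.sqrt_le_sqrt g2).trans (le_of_eq ?_)
    rw [Real.sqrt_eq_rpow, ← Real.rpow_mul hpos.le]; congr 1; ring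
  calc Real.sqrt (Φ₁ a (pw X q)) * Real.sqrt (Φ₂ a (pw X q))
      ≤ X ^ ((e₁ + ε) / 2) * X ^ ((e₂ + ε) / 2) :=
        mul_le_mul r1 r2 (Real.sqrt_nonneg _) (Real.rpow_nonneg hpos.le _)
    _ = X ^ ((e₁ + e₂) / 2 + ε) := by rw [← Real.rpow_add hpos]; congr 1; ring

/-- uniformity of `ExB` on a compact set -/
theorem ExB.unif [Fintype ι] {s₁ s₂ : A → ℝ} {Ψ : A → (ι → ℝ) → ℝ} {S : Set (ι → ℝ)}
    (hS : IsCompact S) {T : (ι → ℝ) → ℝ} (hT : Continuous T)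
    (H : ∀ p ∈ S, ExB s₁ s₂ Ψ p (T p)) {ε : ℝ} (hε : 0 < ε) (B : ℝ) :
    ∃ δ : ℝ, 0 < δ ∧ ∃ X₀ : ℝ, 1 < X₀ ∧ ∀ X : ℝ, X₀ ≤ X → ∀ q : ι → ℝ, (∃ p ∈ S, Nr δ q p) →
      NN q → ∀ a : A, s₁ a ≤ X ^ δ → s₂ a ≤ X ^ B → Ψ a (pw X q) ≤ X ^ (T q + ε) := by
  refine cpt hS (fun δ X q => NN q → ∀ a : A, s₁ a ≤ X ^ δ → s₂ a ≤ X ^ B →
    Ψ a (pw X q) ≤ X ^ (T q + ε)) ?_ ?_
  · intro δ δ' X q hX hd h hq a h1 h2
    exact h hq a (h1.trans (Real.rpow_le_rpow_of_exponent_le hX hd)) h2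
  · intro p hp
    obtain ⟨δ, hδ, X₀, hX₀, H1⟩ := H p hp (ε / 2) B (by linarith)
    have hc := Metric.continuousAt_iff.1 (hT.continuousAt (x := p)) (ε / 2) (by linarith)
    obtain ⟨η, hη, H2⟩ := hc
    refine ⟨min δ (η / 2), lt_min hδ (by linarith), X₀, hX₀, ?_⟩
    intro X hX q hn hq a h1 h2
    have hX1 : (1:ℝ) ≤ X := by linarith
    have g := H1 X hX a (h1.trans (Real.rpow_le_rpow_of_exponent_le hX1 (min_le_left _ _))) h2 q hq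
      (hn.mono (min_le_left _ _))
    have hd : dist q p < η := by
      refine lt_of_le_of_lt ((dist_pi_le_iff (by linarith : (0:ℝ) ≤ η / 2)).2 fun i => ?_)
        (by linarith : η / 2 < η)
      rw [Real.dist_eq]; exact (hn i).trans (min_le_right _ _)
    have h3 := H2 hd
    rw [Real.dist_eq] at h3
    have h4 : T p ≤ T q + ε / 2 := by linarith [(abs_lt.1 h3).1]
    exact g.trans (Real.rpow_le_rpow_of_exponent_le hX1 (by linarith))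

/-- constraints satisfied up to `ρ` -/
theorem near_of_slack [Fintype ι] {D : Set (ι → ℝ)} (hD : IsCompact D) {f : (ι → ℝ) → ℝ}
    (hf : Continuous f) {δ : ℝ} (hδ : 0 < δ) :
    ∃ ρ : ℝ, 0 < ρ ∧ ∀ q ∈ D, f q ≤ ρ → ∃ p ∈ {p | p ∈ D ∧ f p ≤ 0}, Nr δ q p := by
  classical
  set U : Set (ι → ℝ) := {q | ∃ p ∈ {p | p ∈ D ∧ f p ≤ 0}, dist q p < δ} with hU
  have hUo : IsOpen U := by
    have : U = ⋃ p ∈ {p | p ∈ D ∧ f p ≤ 0}, Metric.ball p δ := by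
      ext q; simp [hU, Metric.mem_ball]
    rw [this]
    exact isOpen_biUnion fun p _ => Metric.isOpen_ball
  have hC : IsCompact (D \ U) := hD.diff hUo
  have key : ∀ q ∈ D, q ∈ U → ∃ p ∈ {p | p ∈ D ∧ f p ≤ 0}, Nr δ q p := by
    rintro q _ ⟨p, hp, hd⟩
    refine ⟨p, hp, fun i => ?_⟩
    have := (dist_le_pi_dist q p i).trans hd.le
    rwa [Real.dist_eq] at this
  rcases (D \ U).eq_empty_or_nonempty with he | hne
  · refine ⟨1, one_pos, fun q hq _ => key q hq ?_⟩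
    by_contra hcon
    have : q ∈ D \ U := ⟨hq, hcon⟩
    rw [he] at this
    exact this
  · obtain ⟨m, hm, hmin⟩ := hC.exists_isMinOn hne hf.continuousOn
    have hpos : 0 < f m := by
      by_contra hcon
      exact hm.2 ⟨m, ⟨hm.1, not_lt.mp hcon⟩, by simpa using hδ⟩
    refine ⟨f m / 2, by linarith, fun q hq hq' => key q hq ?_⟩
    by_contra hcon
    have : f m ≤ f q := hmin ⟨hq, hcon⟩
    linarith

/-- **local exponents => one inequality.** `D` = the range of the exponent vectors, `f ≤ 0` the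
constraints (satisfied up to `C₁ / log X`). -/
theorem glob [Fintype ι] {s₁ s₂ : A → ℝ} (h1 : ∀ a, 1 ≤ s₁ a) (h2 : ∀ a, 1 ≤ s₂ a)
    {Ψ : A → (ι → ℝ) → ℝ} {D : Set (ι → ℝ)} (hD : IsCompact D) {f T : (ι → ℝ) → ℝ}
    (hf : Continuous f) (hT : Continuous T)
    (H : ∀ p ∈ D, f p ≤ 0 → ExB s₁ s₂ Ψ p (T p)) {C₀ B₀ : ℝ} (hC₀ : 0 ≤ C₀) (hB₀ : 0 ≤ B₀)
    (triv : ∀ X : ℝ, 1 ≤ X → ∀ a, ∀ q ∈ D, Ψ a (pw X q) ≤ C₀ * X ^ B₀)
    {ε : ℝ} (hε : 0 < ε) (C₁ : ℝ) :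
    ∃ C E : ℝ, 0 ≤ C ∧ 0 ≤ E ∧ ∀ X : ℝ, 1 ≤ X → ∀ a : A, ∀ q ∈ D, NN q →
      f q * Real.log X ≤ C₁ → Ψ a (pw X q) ≤ C * (s₂ a * X) ^ ε * s₁ a ^ E * X ^ T q := by
  classical
  -- bound of `|T|` on `D`
  obtain ⟨M, hM⟩ : ∃ M : ℝ, ∀ q ∈ D, |T q| ≤ M := by
    obtain ⟨M, hM⟩ := hD.exists_bound_of_continuousOn hT.continuousOn
    exact ⟨M, fun q hq => by simpa using hM q hq⟩
  rcases D.eq_empty_or_nonempty with he | hne
  · exact ⟨0, 0, le_rfl, le_rfl, fun X _ a q hq => by rw [he] at hq; exact hq.elim⟩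
  obtain ⟨q₀, hq₀⟩ := hne
  have hM0 : 0 ≤ M := (abs_nonneg _).trans (hM q₀ hq₀)
  have hDc : IsCompact {p | p ∈ D ∧ f p ≤ 0} :=
    hD.inter_right (isClosed_le hf continuous_const)
  obtain ⟨δ, hδ, X₀, hX₀, hun⟩ := ExB.unif hDc hT (s₁ := s₁) (s₂ := s₂) (Ψ := Ψ)
    (fun p hp => H p hp.1 hp.2) hε ((B₀ + M) / ε)
  obtain ⟨ρ, hρ, hnear⟩ := near_of_slack hD hf hδ
  -- threshold
  set X₂ : ℝ := max X₀ (Real.exp (|C₁| / ρ)) with hX₂
  have hX₂1 : 1 < X₂ := lt_of_lt_of_le hX₀ (le_max_left _ _)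
  set C : ℝ := 1 + C₀ + C₀ * X₂ ^ (B₀ + M) with hC
  have hXX : 0 < X₂ ^ (B₀ + M) := Real.rpow_pos_of_pos (by linarith) _
  have hCnn : 0 ≤ C := by positivity
  refine ⟨C, (B₀ + M) / δ, hCnn, by positivity, ?_⟩
  intro X hX a q hq hqn hfq
  have hXp : 0 < X := by linarith
  have hs1 := h1 a
  have hs2 := h2 a
  have hTq := abs_le.1 (hM q hq)
  have e1 : 1 ≤ (s₂ a * X) ^ ε := Real.one_le_rpow (by nlinarith) hε.le
  have e2 : 1 ≤ s₁ a ^ ((B₀ + M) / δ) := Real.one_le_rpow hs1 (by positivity)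
  have e3 : 0 < X ^ T q := Real.rpow_pos_of_pos hXp _
  have hlow : X ^ (-M) ≤ X ^ T q := Real.rpow_le_rpow_of_exponent_le hX (by linarith)
  have htr := triv X hX a q hq
  have hXB : C₀ * X ^ B₀ = C₀ * X ^ (B₀ + M) * X ^ (-M) := by
    rw [mul_assoc, ← Real.rpow_add hXp]; congr 2; ring
  -- the trivial regimes
  have gen : ∀ R : ℝ, X ^ (B₀ + M) ≤ R → C₀ * X ^ B₀ ≤ C₀ * R * X ^ T q := by
    intro R hR
    rw [hXB]
    have hR0 : 0 ≤ R := (Real.rpow_nonneg hXp.le _).trans hR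
    calc C₀ * X ^ (B₀ + M) * X ^ (-M) ≤ C₀ * R * X ^ (-M) :=
          mul_le_mul_of_nonneg_right (mul_le_mul_of_nonneg_left hR hC₀)
            (Real.rpow_nonneg hXp.le _)
      _ ≤ C₀ * R * X ^ T q := mul_le_mul_of_nonneg_left hlow (by positivity)
  by_cases hXs : X < X₂
  · have hR : X ^ (B₀ + M) ≤ X₂ ^ (B₀ + M) :=
      Real.rpow_le_rpow hXp.le hXs.le (by positivity)
    refine htr.trans ((gen _ hR).trans ?_)
    have h3 : C₀ * X₂ ^ (B₀ + M) ≤ C := by rw [hC]; linarith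
    calc C₀ * X₂ ^ (B₀ + M) * X ^ T q ≤ C * X ^ T q := mul_le_mul_of_nonneg_right h3 e3.le
      _ ≤ C * (s₂ a * X) ^ ε * s₁ a ^ ((B₀ + M) / δ) * X ^ T q := by
          refine mul_le_mul_of_nonneg_right ?_ e3.le
          calc C = C * 1 * 1 := by ring
            _ ≤ _ := by gcongr
  push Not at hXs
  by_cases hb1 : X ^ δ < s₁ a
  · have hR : X ^ (B₀ + M) ≤ s₁ a ^ ((B₀ + M) / δ) := by
      have h3 := Real.rpow_le_rpow (Real.rpow_nonneg hXp.le _) hb1.le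
        (by positivity : 0 ≤ (B₀ + M) / δ)
      rwa [← Real.rpow_mul hXp.le, mul_div_cancel₀ _ hδ.ne'] at h3
    refine htr.trans ((gen _ hR).trans ?_)
    refine mul_le_mul_of_nonneg_right ?_ e3.le
    have h3 : C₀ ≤ C := by rw [hC]; nlinarith [mul_nonneg hC₀ hXX.le]
    calc C₀ * s₁ a ^ ((B₀ + M) / δ) ≤ C * 1 * s₁ a ^ ((B₀ + M) / δ) := by
          rw [mul_one]; exact mul_le_mul_of_nonneg_right h3 (by linarith)
      _ ≤ _ := by gcongr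
  push Not at hb1
  by_cases hb2 : X ^ ((B₀ + M) / ε) < s₂ a
  · have hR : X ^ (B₀ + M) ≤ (s₂ a * X) ^ ε := by
      have h3 := Real.rpow_le_rpow (Real.rpow_nonneg hXp.le _) hb2.le hε.le
      rw [← Real.rpow_mul hXp.le, div_mul_cancel₀ _ hε.ne'] at h3
      exact h3.trans (Real.rpow_le_rpow (by linarith) (by nlinarith) hε.le)
    refine htr.trans ((gen _ hR).trans ?_)
    refine mul_le_mul_of_nonneg_right ?_ e3.le
    have h3 : C₀ ≤ C := by rw [hC]; nlinarith [mul_nonneg hC₀ hXX.le]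
    calc C₀ * (s₂ a * X) ^ ε ≤ C * (s₂ a * X) ^ ε * 1 := by
          rw [mul_one]; exact mul_le_mul_of_nonneg_right h3 (by linarith)
      _ ≤ _ := by gcongr
  push Not at hb2
  -- the main regime
  have hX0' : X₀ ≤ X := (le_max_left _ _).trans hXs
  have hlog : |C₁| / ρ ≤ Real.log X := by
    rw [Real.le_log_iff_exp_le hXp]; exact (le_max_right _ _).trans hXs
  have hfρ : f q ≤ ρ := by
    have hl : 0 < Real.log X := Real.log_pos (lt_of_lt_of_le hX₂1 hXs)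
    by_contra hcon
    push Not at hcon
    have h3 : ρ * Real.log X < f q * Real.log X := mul_lt_mul_of_pos_right hcon hl
    have h4 : |C₁| ≤ ρ * Real.log X := by
      rw [div_le_iff₀ hρ] at hlog; linarith
    linarith [le_abs_self C₁]
  obtain ⟨p, hp, hn⟩ := hnear q hq hfρ
  have hmain := hun X hX0' q ⟨p, hp, hn⟩ hqn a hb1 hb2
  rw [Real.rpow_add hXp] at hmain
  have hXε : X ^ ε ≤ (s₂ a * X) ^ ε := Real.rpow_le_rpow hXp.le (by nlinarith) hε.le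
  have hC1 : 1 ≤ C := by rw [hC]; nlinarith [mul_nonneg hC₀ hXX.le]
  calc Ψ a (pw X q) ≤ X ^ T q * X ^ ε := hmain
    _ ≤ X ^ T q * (s₂ a * X) ^ ε := mul_le_mul_of_nonneg_left hXε e3.le
    _ = 1 * (s₂ a * X) ^ ε * 1 * X ^ T q := by ring
    _ ≤ C * (s₂ a * X) ^ ε * s₁ a ^ ((B₀ + M) / δ) * X ^ T q := by gcongr

end Crest.Agent.R017.DFin702
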