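import Mathlib

/-!
# Selection of sub-products of a side

A side = a list of indivisible pieces (lumps) of lengths `>= 0` plus granular mass `c >= 0`.
Real-number lemmas: which total lengths are available as sub-products.
-/

namespace Crest.Agent.R017.DSel301

open List

/-- Greedy choice from below: a prefix `S` of `L` with `sum S <= x` and, unless `S = L`,
`x < sum S + w`. -/
theorem greedy_prefix {w x : ℝ} : ∀ (L : List ℝ), (∀ a ∈ L, 0 ≤ a ∧ a ≤ w) → 0 ≤ x →
    ∃ S R : List ℝ, L = S ++ R ∧ S.sum ≤ x ∧ (R = [] ∨ x < S.sum + w)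
  | [], _, hx => ⟨[], [], rfl, by simpa using hx, Or.inl rfl⟩
  | a :: L, h, hx => by
    by_cases hax : a ≤ x
    · obtain ⟨S, R, hL, hS, hR⟩ := greedy_prefix (x := x - a) L
        (fun b hb => h b (mem_cons_of_mem _ hb)) (by linarith)
      refine ⟨a :: S, R, by rw [hL]; rfl, by simp only [sum_cons]; linarith, ?_⟩
      rcases hR with hR | hR
      · exact Or.inl hR
      · right; simp only [sum_cons]; linarith
    · refine ⟨[], a :: L, rfl, by simpa using hx, Or.inr ?_⟩
      have := (h a mem_cons_self).2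
      simp only [sum_nil, zero_add]; linarith

/-- With granular mass `c >= w` every length `0 <= x <= sum L + c` is available exactly:
`x = sum S + t`, `0 <= t <= c`, `S` a prefix of `L`. -/
theorem exact_of_gran {w x c : ℝ} (L : List ℝ) (h : ∀ a ∈ L, 0 ≤ a ∧ a ≤ w)
    (hx : 0 ≤ x) (hc : w ≤ c) (hxc : x ≤ L.sum + c) :
    ∃ S R : List ℝ, ∃ t : ℝ, L = S ++ R ∧ 0 ≤ t ∧ t ≤ c ∧ S.sum + t = x := by
  obtain ⟨S, R, hL, hS, hR⟩ := greedy_prefix L h hx
  refine ⟨S, R, x - S.sum, hL, by linarith, ?_, by ring⟩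
  rcases hR with hR | hR
  · rw [hR, append_nil] at hL; rw [← hL]; linarith
  · linarith

/-- A window `[A, B]` with `B - A + c >= w`: some length in the window is available. -/
theorem window {w A B c : ℝ} (L : List ℝ) (h : ∀ a ∈ L, 0 ≤ a ∧ a ≤ w)
    (hA : 0 ≤ B) (hAB : A ≤ B) (hc0 : 0 ≤ c) (hw : w ≤ B - A + c) (hS : A ≤ L.sum + c) :
    ∃ S R : List ℝ, ∃ t : ℝ, L = S ++ R ∧ 0 ≤ t ∧ t ≤ c ∧ A ≤ S.sum + t ∧ S.sum + t ≤ B := by
  obtain ⟨S, R, hL, hSB, hR⟩ := greedy_prefix L h hA
  by_cases hcase : A ≤ S.sum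
  · exact ⟨S, R, 0, hL, le_rfl, hc0, by linarith, by linarith⟩
  · push Not at hcase
    refine ⟨S, R, A - S.sum, hL, by linarith, ?_, by linarith, by linarith⟩
    rcases hR with hR | hR
    · rw [hR, append_nil] at hL; rw [← hL]; linarith
    · linarith

/-- Choice from above: a prefix with `x <= sum S < x + w` (`x <= sum L`). -/
theorem greedy_above {w x : ℝ} (L : List ℝ) (h : ∀ a ∈ L, 0 ≤ a ∧ a ≤ w) (hw : 0 ≤ w)
    (hx : 0 ≤ x) (hxL : x ≤ L.sum) :
    ∃ S R : List ℝ, L = S ++ R ∧ x ≤ S.sum ∧ S.sum ≤ x + w := by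
  obtain ⟨S, R, hL, hS, hR⟩ := greedy_prefix L h hx
  rcases R with _ | ⟨b, R⟩
  · rw [append_nil] at hL
    exact ⟨L, [], by simp, hxL, by rw [hL]; linarith⟩
  · rcases hR with hR | hR
    · exact absurd hR (by simp)
    · by_cases hxs : x ≤ S.sum
      · exact ⟨S, b :: R, hL, hxs, by linarith⟩
      · -- take elements of R one by one until the sum passes x
        push Not at hxs
        clear hR
        -- induction on R
        have key : ∀ (R : List ℝ) (S : List ℝ), (∀ a ∈ R, 0 ≤ a ∧ a ≤ w) → S.sum < x →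
            x ≤ (S ++ R).sum →
            ∃ S' R' : List ℝ, S ++ R = S' ++ R' ∧ x ≤ S'.sum ∧ S'.sum ≤ x + w := by
          intro R
          induction R with
          | nil =>
            intro S _ h1 h2
            rw [append_nil] at h2; linarith
          | cons a R ih =>
            intro S hR h1 h2
            by_cases h3 : x ≤ S.sum + a
            · refine ⟨S ++ [a], R, by simp, by simpa using h3, ?_⟩
              have := (hR a mem_cons_self).2
              simp only [sum_append, sum_cons, sum_nil, add_zero]; linarith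
            · push Not at h3
              obtain ⟨S', R', h4, h5, h6⟩ := ih (S ++ [a])
                (fun b hb => hR b (mem_cons_of_mem _ hb)) (by simpa using h3)
                (by rw [append_assoc]; simpa using h2)
              exact ⟨S', R', by rw [← h4]; simp, h5, h6⟩
        rw [hL] at hxL
        obtain ⟨S', R', h4, h5, h6⟩ := key (b :: R) S
          (fun a ha => h a (by rw [hL]; exact mem_append_right _ ha)) hxs hxL
        exact ⟨S', R', by rw [hL, h4], h5, h6⟩

end Crest.Agent.R017.DSel301
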