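import Mathlib

/-!
# Windows for the amplifier move (rule C) at g = 1/3, theta = 7/8 + d

Units K = 1.  A side of total length `n <= 5/6` (all shortenings included), dual family `j <= 2n - 1`.
After (P) one needs `T(j;n) <= (4n+1+j)/3 + lam`, `lam = (4/3) d`.
Rule C moves a factor of length `x` out: `T(j;n) <= x + T(j+x; n-x)`; then (P'):
`T(J;n') <= max (J + n') (J - n' + R_all(2n'-J; n'))`, `R_all(m;.) = max_q R(q;.) + (m-q)/3`.
The B-line `R(q;n'') <= (7/4+2d) n'' + (1/3-(8/3)d) q` is available for `q <= (3/4) n''`.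
All statements are pure real inequalities (linear, except for products `d * (..)`).
-/

namespace Crest.Agent.R017.DWin301

/-- lower end of the window for the length `x` of the part moved by rule C. -/
noncomputable def lo (n j : ℝ) : ℝ := (5 * n - 4 * j) / 9
/-- upper end of the window. -/
noncomputable def hi (n j : ℝ) : ℝ := (n + 1 - 2 * j) / 3

theorem hi_sub_lo (n j : ℝ) : hi n j - lo n j = (2 / 9) * (3 / 2 - n - j) := by
  unfold hi lo; ring

theorem lo_le_hi {n j : ℝ} (hn : n ≤ 5 / 6) (hj : j ≤ 2 * n - 1) : lo n j ≤ hi n j := by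
  unfold hi lo; linarith

/-- the window is positive: `lo >= 0`. -/
theorem lo_nonneg {n j : ℝ} (hn : n ≤ 5 / 6) (hj : j ≤ 2 * n - 1) : 0 ≤ lo n j := by
  unfold lo; linarith

/-- `lo` is at most `1/6 + (4/9) (2n-1-j)` when `n = 5/6`; in general `lo <= (5/9) n`. -/
theorem hi_le {n j : ℝ} (hj : 0 ≤ j) (hn : n ≤ 5 / 6) : hi n j ≤ 11 / 18 := by
  unfold hi; linarith

theorem lo_top (n : ℝ) : lo n (2 * n - 1) = (4 - 3 * n) / 9 := by unfold lo; ring
theorem hi_top (n : ℝ) : hi n (2 * n - 1) = 1 - n := by unfold hi; ring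

/-- DIAGONAL of (P') after C: `x + (j+x) + (n-x) <= (4n+1+j)/3`, with room `hi - x`. -/
theorem diag {n j x e : ℝ} (hx : x ≤ hi n j - e) :
    x + ((j + x) + (n - x)) ≤ (4 * n + 1 + j) / 3 - e := by
  unfold hi at hx; linarith

/-- DIAGONAL with a gcd term in (P'): the side is shortened from `n-x` to `n2`, cost `n-x-n2`. -/
theorem diag_short {n j x n2 e : ℝ} (hx : x ≤ hi n j - e) :
    x + ((n - x - n2) + ((j + x) + n2)) ≤ (4 * n + 1 + j) / 3 - e := by
  unfold hi at hx; linarith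

/-- The dual family `m = 2(n-x) - (j+x)` is in the range `m <= (3/4)(n-x)` of the B-line. -/
theorem ratio {n j x : ℝ} (hx : lo n j ≤ x) :
    2 * (n - x) - (j + x) ≤ (3 / 4) * (n - x) := by
  unfold lo at hx; linarith

/-- The same for a shortened side `n2 <= n - x` (same family `j + x`). -/
theorem ratio_short {n j x n2 : ℝ} (hx : lo n j ≤ x) (h2 : n2 ≤ n - x) :
    2 * n2 - (j + x) ≤ (3 / 4) * n2 := by
  unfold lo at hx; linarith

/-- mass on which SUP is used is at most 2/3. -/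
theorem mass {n j x : ℝ} (hn : n ≤ 5 / 6) (hj : j ≤ 2 * n - 1) (hx : lo n j ≤ x) :
    n - x ≤ 2 / 3 := by
  unfold lo at hx; linarith

/-- MAIN STEP (no gcd term): with the B-line, the off-diagonal part of C + (P') is
`<= (4n+1+j)/3 + (4/3) d`, with margin `(8/3) d q + (1/12) (3 - 2n - 2j)`. -/
theorem main {n j x q d : ℝ} (hd : 0 ≤ d) (hn : n ≤ 5 / 6) (hj : j ≤ 2 * n - 1)
    (hx1 : lo n j ≤ x) (hx2 : x ≤ hi n j) :
    x + ((j + x) - (n - x) + ((7 / 4 + 2 * d) * (n - x) + (1 / 3 - (8 / 3) * d) * q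
        + (2 * (n - x) - (j + x) - q) / 3))
      ≤ (4 * n + 1 + j) / 3 + (4 / 3) * d - (8 / 3) * d * q - (3 - 2 * n - 2 * j) / 12 := by
  have hm : n - x ≤ 2 / 3 := mass hn hj hx1
  have h1 : 0 ≤ d * (2 / 3 - (n - x)) := mul_nonneg hd (by linarith)
  unfold hi at hx2
  nlinarith [h1, hx2]

/-- MAIN STEP with a gcd term in (P'): shortened side `n2`, cost `n - x - n2`; any `n2 <= n - x`. -/
theorem main_short {n j x q d n2 : ℝ} (hd : 0 ≤ d) (hn : n ≤ 5 / 6) (hj : j ≤ 2 * n - 1)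
    (hx1 : lo n j ≤ x) (hx2 : x ≤ hi n j) (h2 : n2 ≤ n - x) :
    x + ((n - x - n2) + ((j + x) - n2 + ((7 / 4 + 2 * d) * n2 + (1 / 3 - (8 / 3) * d) * q
        + (2 * n2 - (j + x) - q) / 3)))
      ≤ (4 * n + 1 + j) / 3 + (4 / 3) * d - (8 / 3) * d * q - (3 - 2 * n - 2 * j) / 12 := by
  have h := main (q := q) hd hn hj hx1 hx2
  have h3 : 0 ≤ (5 / 12 + 2 * d) * (n - x - n2) :=
    mul_nonneg (by linarith) (by linarith)
  nlinarith [h, h3]

/-- With a killer (`q >= u` on every surviving family) the margin is at least `(8/3) d u`. -/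
theorem main_kill {n j x q d n2 u : ℝ} (hd : 0 ≤ d) (hn : n ≤ 5 / 6) (hj : j ≤ 2 * n - 1)
    (hx1 : lo n j ≤ x) (hx2 : x ≤ hi n j) (h2 : n2 ≤ n - x) (hq : u ≤ q) :
    x + ((n - x - n2) + ((j + x) - n2 + ((7 / 4 + 2 * d) * n2 + (1 / 3 - (8 / 3) * d) * q
        + (2 * n2 - (j + x) - q) / 3)))
      ≤ (4 * n + 1 + j) / 3 + (4 / 3) * d - (8 / 3) * d * u := by
  have h := main_short (q := q) hd hn hj hx1 hx2 h2
  have h4 : 0 ≤ d * (q - u) := mul_nonneg hd (by linarith)
  nlinarith [h, h4]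

end Crest.Agent.R017.DWin301
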