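import Crest.Agent.R017.Dual2A_813

/-!
# Row 17: the two-parameter dual inequality, part B (splitting the square)

`lin2 X Y w n = ∑ q ∈ S Y, ∑ h ∈ S X, w h q sy n h conj (sy n q)`.

* `dual2_identity`: `∑' n, exp (-nm n / Z) ‖lin2 w n‖²` as a sum over
  `(a, b, c, u, v)`, `q = b c u`, `q' = a c v`, of bilinear forms.
* `dual2_ineq`: the dual inequality with exact dual forms.
-/

set_option autoImplicit false

noncomputable section

open MeasureTheory Finset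
open scoped ComplexConjugate

namespace Crest.Agent.R017.Dual2813

open Crest.Agent.R012
open Eis LS2 Mob705 CR2 MelSep811
open Gauss880 (syG)

/-- two-parameter linear form -/
def lin2 (X Y : ℝ) (w : Eis → Eis → ℂ) (n : Eis) : ℂ :=
  ∑ q ∈ S Y, ∑ h ∈ S X, w h q * sy n h * conj (sy n q)

/-- support condition -/
def Supp (X Y : ℝ) (w : Eis → Eis → ℂ) : Prop :=
  ∀ h q, w h q ≠ 0 → h ∈ S X ∧ q ∈ S Y ∧ IsCoprime h q

open Classical in
/-- the coefficients at fixed `a`, `q`, `q'` -/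
def al (w : Eis → Eis → ℂ) (X : ℝ) (a q q' m : Eis) : ℂ :=
  if m ∈ S X ∧ IsCoprime m q' then w (a * m) q else 0

lemma al_supp (w : Eis → Eis → ℂ) (X : ℝ) (a q q' m : Eis) (hm : m ∉ S X) :
    al w X a q q' m = 0 := by
  unfold al; rw [if_neg (fun h => hm h.1)]

lemma al_ne {w : Eis → Eis → ℂ} {X : ℝ} {a q q' m : Eis} (h : al w X a q q' m ≠ 0) :
    m ∈ S X ∧ IsCoprime m q' ∧ w (a * m) q ≠ 0 := by
  unfold al at h
  split_ifs at h with h1
  · exact ⟨h1.1, h1.2, h⟩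
  · exact absurd rfl h

open Classical in
lemma sum_pdiv_S {Y : ℝ} (hY : 0 ≤ Y) (F : Eis → Eis → ℂ) :
    ∑ q ∈ S Y, ∑ b ∈ pdiv q, F q b =
      ∑ b ∈ S Y, ∑ x ∈ S Y, (if b * x ∈ S Y then F (b * x) b else 0) := by
  have e1 : ∀ q ∈ S Y, ∑ b ∈ pdiv q, F q b = ∑ b ∈ S Y, (if b ∣ q then F q b else 0) := by
    intro q hq
    have hq' := (mem_S hY).1 hq
    rw [← Finset.sum_filter]
    apply Finset.sum_congr _ (fun _ _ => rfl)
    ext b
    rw [mem_pdiv hq'.2.1.ne_zero, Finset.mem_filter]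
    constructor
    · rintro ⟨h1, h2⟩
      exact ⟨S_of_dvd hY hq h1 h2, h2⟩
    · rintro ⟨h1, h2⟩
      exact ⟨((mem_S hY).1 h1).2.1, h2⟩
  rw [Finset.sum_congr rfl e1, Finset.sum_comm]
  refine Finset.sum_congr rfl fun b hb => ?_
  have hb' := (mem_S hY).1 hb
  have e2 := sum_mult hY hb'.2.1 (fun q => if q ∈ S Y then F q b else 0)
    (fun k hk => by rw [if_neg hk])
  rw [← e2]
  refine Finset.sum_congr rfl fun q hq => ?_
  rw [if_pos hq]

open Classical in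
/-- splitting `h` over its gcd with `q'` -/
lemma lin_split {X Y : ℝ} (hX : 0 ≤ X) (hY : 0 ≤ Y) {w : Eis → Eis → ℂ} (hw : Supp X Y w)
    {q q' : Eis} (hq' : q' ∈ S Y) (n : Eis) :
    ∑ h ∈ S X, w h q * sy n h =
      ∑ a ∈ pdiv q', sy n a * lin X (al w X a q q') n := by
  have hq2 := (mem_S hY).1 hq'
  unfold lin
  simp_rw [Finset.mul_sum]
  -- right side as a sum over a filtered product
  have e1 : ∑ a ∈ pdiv q', ∑ m ∈ S X, sy n a * (al w X a q q' m * sy n m) =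
      ∑ p ∈ ((pdiv q') ×ˢ (S X)).filter (fun p => IsCoprime p.2 q' ∧ p.1 * p.2 ∈ S X),
        w (p.1 * p.2) q * sy n (p.1 * p.2) := by
    rw [Finset.sum_filter, Finset.sum_product]
    refine Finset.sum_congr rfl fun a ha => Finset.sum_congr rfl fun m hm => ?_
    have ha' := (mem_pdiv hq2.2.1.ne_zero).1 ha
    have hm' := (mem_S hX).1 hm
    unfold al
    by_cases h1 : IsCoprime m q'
    · rw [if_pos ⟨hm, h1⟩]
      by_cases h2 : a * m ∈ S X
      · rw [if_pos ⟨h1, h2⟩, syG.mul_right _ _ _ ha'.1 hm'.2.1]; ring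
      · rw [if_neg (fun h => h2 h.2)]
        have : w (a * m) q = 0 := by
          by_contra hc
          exact h2 (hw _ _ hc).1
        rw [this]; ring
    · rw [if_neg (fun h => h1 h.2), if_neg (fun h => h1 h.1)]; ring
  rw [e1]
  symm
  refine Finset.sum_bij (fun p _ => p.1 * p.2) ?_ ?_ ?_ ?_
  · intro p hp
    rw [Finset.mem_filter] at hp
    exact hp.2.2
  · rintro ⟨a, m⟩ hp ⟨a', m'⟩ hp' he
    rw [Finset.mem_filter, Finset.mem_product] at hp hp'
    simp only at hp hp' he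
    have ha := (mem_pdiv hq2.2.1.ne_zero).1 hp.1.1
    have ha' := (mem_pdiv hq2.2.1.ne_zero).1 hp'.1.1
    obtain ⟨y, hy⟩ := ha.2
    obtain ⟨y', hy'⟩ := ha'.2
    have c1 : IsCoprime m y := hp.2.1.of_isCoprime_of_dvd_right ⟨a, by rw [hy]; ring⟩
    have c2 : IsCoprime m' y' := hp'.2.1.of_isCoprime_of_dvd_right ⟨a', by rw [hy']; ring⟩
    obtain ⟨r1, r2, -⟩ := Tau671.gcd_split_unique ha.1 ha'.1 he (hy ▸ hy') c1 c2
    exact Prod.ext r1 r2
  · intro h hh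
    have hh' := (mem_S hX).1 hh
    obtain ⟨e, k1, k2, he, hk1, hk2, hb1, hb2, hc, c1, -⟩ :=
      Tau671.exists_gcd_split hh'.2.1 hq2.2.1 hh'.2.2 hq2.2.2
    refine ⟨(e, k1), ?_, hb1.symm⟩
    rw [Finset.mem_filter, Finset.mem_product]
    refine ⟨⟨(mem_pdiv hq2.2.1.ne_zero).2 ⟨he, ⟨k2, hb2⟩⟩, ?_⟩, ?_, ?_⟩
    · exact S_of_dvd hX hh hk1 ⟨e, by rw [hb1]; ring⟩
    · simp only
      rw [hb2]
      exact (c1.symm).mul_right hc
    · simp only
      rw [← hb1]; exact hh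
  · rintro ⟨a, m⟩ _
    rfl

open Classical in
/-- the twist at `q = b c u`, `q' = a c v` -/
lemma twist_eq {a b c u v n : Eis} (ha : IsPrim a) (hb : IsPrim b) (hc : IsPrim c) (hu : IsPrim u)
    (hv : IsPrim v) :
    conj (sy n (b * (c * u))) * sy n (a * (c * v)) * (sy n a * conj (sy n b)) =
      tws c (b * v) (a * u) n := by
  unfold tws
  rw [syG.mul_right _ _ _ hb (hc.mul hu), syG.mul_right _ _ _ hc hu,
    syG.mul_right _ _ _ ha (hc.mul hv), syG.mul_right _ _ _ hc hv,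
    syG.mul_right _ _ _ hb hv, syG.mul_right _ _ _ ha hu]
  have e1 := sy_mul_conj_ite Sym645.syFacts hc n
  have e2 := Gauss880.sy_sq_eq_conj (x := n) syG ha
  have e3 := Gauss880.sy_sq_eq_conj (x := n) syG hb
  have e4 : conj (sy n b) ^ 2 = sy n b := by rw [← map_pow, e3, Complex.conj_conj]
  rw [← e1]
  simp only [map_mul]
  linear_combination (sy n c * conj (sy n c) * sy n v * conj (sy n u)) *
    (sy n a ^ 2 * e4 + sy n b * e2)

/-- the bilinear form attached to `(a, b, c, u, v)` -/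
def TT (w : Eis → Eis → ℂ) (X Z : ℝ) (a b c u v : Eis) : ℂ :=
  ∑' n : Eis, ((Real.exp (-(nm n : ℝ) / Z) : ℝ) : ℂ) *
    (tws c (b * v) (a * u) n *
      (lin X (al w X a (b * (c * u)) (a * (c * v))) n *
        conj (lin X (al w X b (a * (c * v)) (b * (c * u))) n)))

lemma norm_lin_le {X : ℝ} (hX : 0 ≤ X) (α : Eis → ℂ) (n : Eis) :
    ‖lin X α n‖ ≤ ∑ m ∈ S X, ‖α m‖ := by
  unfold lin
  refine (norm_sum_le _ _).trans (Finset.sum_le_sum fun m hm => ?_)
  rw [norm_mul]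
  exact mul_le_of_le_one_right (norm_nonneg _) (Tau671.norm_sy_le ((mem_S hX).1 hm).2.1)

lemma tsum_five (s : Finset Eis) (g : Eis → Eis → Eis → Eis → Eis → Eis → ℂ)
    (h : ∀ a ∈ s, ∀ b ∈ s, ∀ c ∈ s, ∀ u ∈ s, ∀ v ∈ s, Summable fun n : Eis => g a b c u v n) :
    ∑' n : Eis, ∑ a ∈ s, ∑ b ∈ s, ∑ c ∈ s, ∑ u ∈ s, ∑ v ∈ s, g a b c u v n =
      ∑ a ∈ s, ∑ b ∈ s, ∑ c ∈ s, ∑ u ∈ s, ∑ v ∈ s, ∑' n : Eis, g a b c u v n := by
  have h4 : ∀ a ∈ s, ∀ b ∈ s, ∀ c ∈ s, ∀ u ∈ s,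
      HasSum (fun n : Eis => ∑ v ∈ s, g a b c u v n) (∑ v ∈ s, ∑' n : Eis, g a b c u v n) :=
    fun a ha b hb c hc u hu => hasSum_sum fun v hv => (h a ha b hb c hc u hu v hv).hasSum
  have h3 : ∀ a ∈ s, ∀ b ∈ s, ∀ c ∈ s,
      HasSum (fun n : Eis => ∑ u ∈ s, ∑ v ∈ s, g a b c u v n)
        (∑ u ∈ s, ∑ v ∈ s, ∑' n : Eis, g a b c u v n) :=
    fun a ha b hb c hc => hasSum_sum fun u hu => h4 a ha b hb c hc u hu
  have h2 : ∀ a ∈ s, ∀ b ∈ s,
      HasSum (fun n : Eis => ∑ c ∈ s, ∑ u ∈ s, ∑ v ∈ s, g a b c u v n)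
        (∑ c ∈ s, ∑ u ∈ s, ∑ v ∈ s, ∑' n : Eis, g a b c u v n) :=
    fun a ha b hb => hasSum_sum fun c hc => h3 a ha b hb c hc
  have h1 : ∀ a ∈ s,
      HasSum (fun n : Eis => ∑ b ∈ s, ∑ c ∈ s, ∑ u ∈ s, ∑ v ∈ s, g a b c u v n)
        (∑ b ∈ s, ∑ c ∈ s, ∑ u ∈ s, ∑ v ∈ s, ∑' n : Eis, g a b c u v n) :=
    fun a ha => hasSum_sum fun b hb => h2 a ha b hb
  exact (hasSum_sum fun a ha => h1 a ha).tsum_eq

open Classical in
set_option maxHeartbeats 1000000 in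
/-- **splitting the square** -/
theorem dual2_split {X Y Z : ℝ} (hX : 0 ≤ X) (hY : 0 ≤ Y) (hZ : 0 < Z) {w : Eis → Eis → ℂ}
    (hw : Supp X Y w) :
    ∑' n : Eis, ((Real.exp (-(nm n : ℝ) / Z) : ℝ) : ℂ) * ((‖lin2 X Y w n‖ ^ 2 : ℝ) : ℂ) =
      ∑ a ∈ S Y, ∑ b ∈ S Y, ∑ c ∈ S Y, ∑ u ∈ S Y, ∑ v ∈ S Y,
        (if b * (c * u) ∈ S Y ∧ a * (c * v) ∈ S Y ∧ IsCoprime u v then
          TT w X Z a b c u v else 0) := by
  -- the function of `(q, q', a, b)`
  set F : Eis → Eis → Eis → Eis → Eis → ℂ := fun n q q' a b =>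
    conj (sy n q) * sy n q' * (sy n a * conj (sy n b)) *
      (lin X (al w X a q q') n * conj (lin X (al w X b q' q) n)) with hF
  have e1 : ∀ n : Eis, ((‖lin2 X Y w n‖ ^ 2 : ℝ) : ℂ) =
      ∑ q ∈ S Y, ∑ b ∈ pdiv q, ∑ q' ∈ S Y, ∑ a ∈ pdiv q', F n q q' a b := by
    intro n
    have h0 : ((‖lin2 X Y w n‖ ^ 2 : ℝ) : ℂ) = lin2 X Y w n * conj (lin2 X Y w n) := by
      rw [Complex.mul_conj, Complex.normSq_eq_norm_sq]
    have h1 : lin2 X Y w n = ∑ q ∈ S Y, conj (sy n q) * ∑ h ∈ S X, w h q * sy n h := by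
      unfold lin2
      refine Finset.sum_congr rfl fun q _ => ?_
      rw [Finset.mul_sum]
      exact Finset.sum_congr rfl fun h _ => by ring
    rw [h0, h1, map_sum, Finset.sum_mul_sum]
    refine Finset.sum_congr rfl fun q hq => ?_
    have h2 : ∀ q' ∈ S Y, conj (sy n q) * (∑ h ∈ S X, w h q * sy n h) *
        conj (conj (sy n q') * ∑ h ∈ S X, w h q' * sy n h) =
        ∑ b ∈ pdiv q, ∑ a ∈ pdiv q', F n q q' a b := by
      intro q' hq'
      rw [lin_split hX hY hw hq' n, map_mul, Complex.conj_conj,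
        lin_split (q := q') hX hY hw hq n, map_sum, Finset.mul_sum, Finset.mul_sum,
        Finset.sum_mul_sum, Finset.sum_comm]
      refine Finset.sum_congr rfl fun b _ => Finset.sum_congr rfl fun a _ => ?_
      rw [hF]
      simp only [map_mul]
      ring
    rw [Finset.sum_congr rfl h2, Finset.sum_comm]
  -- reindex
  have e2 : ∀ n : Eis, ∑ q ∈ S Y, ∑ b ∈ pdiv q, ∑ q' ∈ S Y, ∑ a ∈ pdiv q', F n q q' a b =
      ∑ a ∈ S Y, ∑ b ∈ S Y, ∑ c ∈ S Y, ∑ u ∈ S Y, ∑ v ∈ S Y,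
        (if b * (c * u) ∈ S Y ∧ a * (c * v) ∈ S Y ∧ IsCoprime u v then
          F n (b * (c * u)) (a * (c * v)) a b else 0) := by
    intro n
    rw [sum_pdiv_S hY (fun q b => ∑ q' ∈ S Y, ∑ a ∈ pdiv q', F n q q' a b)]
    have h1 : ∀ b ∈ S Y, ∀ x ∈ S Y, (if b * x ∈ S Y then
        ∑ q' ∈ S Y, ∑ a ∈ pdiv q', F n (b * x) q' a b else 0) =
        ∑ a ∈ S Y, ∑ y ∈ S Y, (if b * x ∈ S Y ∧ a * y ∈ S Y then
          F n (b * x) (a * y) a b else 0) := by
      intro b _ x _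
      rw [sum_pdiv_S hY (fun q' a => F n (b * x) q' a b)]
      split_ifs with h
      · refine Finset.sum_congr rfl fun a _ => Finset.sum_congr rfl fun y _ => ?_
        by_cases h2 : a * y ∈ S Y
        · rw [if_pos h2, if_pos ⟨h, h2⟩]
        · rw [if_neg h2, if_neg (fun h3 => h2 h3.2)]
      · symm
        apply Finset.sum_eq_zero
        intro a _
        apply Finset.sum_eq_zero
        intro y _
        rw [if_neg (fun h3 => h h3.1)]
    rw [Finset.sum_congr rfl fun b hb => Finset.sum_congr rfl fun x hx => h1 b hb x hx]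
    rw [Finset.sum_congr rfl fun b _ => Finset.sum_comm]
    rw [Finset.sum_comm]
    refine Finset.sum_congr rfl fun a ha => Finset.sum_congr rfl fun b hb => ?_
    have ha' := (mem_S hY).1 ha
    have hb' := (mem_S hY).1 hb
    rw [Tau671.sum_pairs_gcd (S := S Y) (D := S Y) (fun b hb => ((mem_S hY).1 hb).2)
      (fun d hd => ((mem_S hY).1 hd).2.1) (fun b hb d hd hdb => S_of_dvd hY hb hd hdb)
      (fun x y => if b * x ∈ S Y ∧ a * y ∈ S Y then F n (b * x) (a * y) a b else 0)]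
    refine Finset.sum_congr rfl fun c hc => Finset.sum_congr rfl fun u hu =>
      Finset.sum_congr rfl fun v hv => ?_
    have hc' := (mem_S hY).1 hc
    have hu' := (mem_S hY).1 hu
    have hv' := (mem_S hY).1 hv
    by_cases h2 : b * (c * u) ∈ S Y ∧ a * (c * v) ∈ S Y ∧ IsCoprime u v
    · have h3 : c * u ∈ S Y := S_of_dvd hY h2.1 (hc'.2.1.mul hu'.2.1) (dvd_mul_left _ _)
      have h4 : c * v ∈ S Y := S_of_dvd hY h2.2.1 (hc'.2.1.mul hv'.2.1) (dvd_mul_left _ _)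
      rw [if_pos h2, if_pos ⟨h3, h4, h2.2.2⟩, if_pos ⟨h2.1, h2.2.1⟩]
    · rw [if_neg h2]
      split_ifs with h5 h6
      · exact absurd ⟨h6.1, h6.2, h5.2.2⟩ h2
      · rfl
      · rfl
  -- bounds for summability
  set Wn : ℝ := ∑ q ∈ S Y, ∑ h ∈ S X, ‖w h q‖ with hWn
  have hal : ∀ a q q' : Eis, IsPrim a → q ∈ S Y → ∑ m ∈ S X, ‖al w X a q q' m‖ ≤ Wn := by
    intro a q q' ha hq
    have h1 : ∑ m ∈ S X, ‖al w X a q q' m‖ ≤ ∑ h ∈ S X, ‖w h q‖ := by
      calc ∑ m ∈ S X, ‖al w X a q q' m‖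
          ≤ ∑ m ∈ (S X).filter (fun m => a * m ∈ S X), ‖w (a * m) q‖ := by
            rw [Finset.sum_filter]
            refine Finset.sum_le_sum fun m _ => ?_
            unfold al
            by_cases h2 : a * m ∈ S X
            · rw [if_pos h2]; split_ifs
              · exact le_rfl
              · rw [norm_zero]; exact norm_nonneg _
            · rw [if_neg h2]
              have : w (a * m) q = 0 := by
                by_contra hc
                exact h2 (hw _ _ hc).1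
              rw [this]; split_ifs <;> simp
        _ = ∑ h ∈ ((S X).filter (fun m => a * m ∈ S X)).image (fun m => a * m), ‖w h q‖ := by
            rw [Finset.sum_image]
            intro x _ y _ hxy
            exact mul_left_cancel₀ ha.ne_zero hxy
        _ ≤ _ := by
            refine Finset.sum_le_sum_of_subset_of_nonneg ?_ (fun _ _ _ => norm_nonneg _)
            intro h hh
            rw [Finset.mem_image] at hh
            obtain ⟨m, hm, rfl⟩ := hh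
            exact (Finset.mem_filter.1 hm).2
    refine h1.trans ?_
    rw [hWn]
    exact Finset.single_le_sum (f := fun q => ∑ h ∈ S X, ‖w h q‖)
      (fun q _ => Finset.sum_nonneg fun _ _ => norm_nonneg _) hq
  have hW0 : 0 ≤ Wn := Finset.sum_nonneg fun _ _ => Finset.sum_nonneg fun _ _ => norm_nonneg _
  have hsm : ∀ a ∈ S Y, ∀ b ∈ S Y, ∀ c ∈ S Y, ∀ u ∈ S Y, ∀ v ∈ S Y, Summable fun n : Eis =>
      (if b * (c * u) ∈ S Y ∧ a * (c * v) ∈ S Y ∧ IsCoprime u v then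
        ((Real.exp (-(nm n : ℝ) / Z) : ℝ) : ℂ) * F n (b * (c * u)) (a * (c * v)) a b else 0) := by
    intro a ha b hb c hc u hu v hv
    have ha' := (mem_S hY).1 ha
    have hb' := (mem_S hY).1 hb
    by_cases h : b * (c * u) ∈ S Y ∧ a * (c * v) ∈ S Y ∧ IsCoprime u v
    swap
    · simp_rw [if_neg h]; exact summable_zero
    simp_rw [if_pos h]
    refine summable_tw hZ _ (M := Wn * Wn) (fun n => ?_)
    rw [hF]
    simp only
    have p1 := ((mem_S hY).1 h.1).2.1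
    have p2 := ((mem_S hY).1 h.2.1).2.1
    rw [norm_mul, norm_mul, norm_mul, norm_mul, norm_mul, RCLike.norm_conj, RCLike.norm_conj,
      RCLike.norm_conj]
    have b1 := Tau671.norm_sy_le p1 (x := n)
    have b2 := Tau671.norm_sy_le p2 (x := n)
    have b3 := Tau671.norm_sy_le ha'.2.1 (x := n)
    have b4 := Tau671.norm_sy_le hb'.2.1 (x := n)
    have b5 := (norm_lin_le hX (al w X a (b * (c * u)) (a * (c * v))) n).trans
      (hal a _ _ ha'.2.1 h.1)
    have b6 := (norm_lin_le hX (al w X b (a * (c * v)) (b * (c * u))) n).trans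
      (hal b _ _ hb'.2.1 h.2.1)
    calc _ ≤ 1 * 1 * (1 * 1) * (Wn * Wn) := by gcongr
      _ = _ := by ring
  have e3 : ∀ n : Eis, ((Real.exp (-(nm n : ℝ) / Z) : ℝ) : ℂ) * ((‖lin2 X Y w n‖ ^ 2 : ℝ) : ℂ) =
      ∑ a ∈ S Y, ∑ b ∈ S Y, ∑ c ∈ S Y, ∑ u ∈ S Y, ∑ v ∈ S Y,
        (if b * (c * u) ∈ S Y ∧ a * (c * v) ∈ S Y ∧ IsCoprime u v then
          ((Real.exp (-(nm n : ℝ) / Z) : ℝ) : ℂ) * F n (b * (c * u)) (a * (c * v)) a b else 0) := by
    intro n
    rw [e1, e2]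
    simp_rw [Finset.mul_sum, mul_ite, mul_zero]
  simp_rw [e3]
  rw [tsum_five (S Y) (fun a b c u v n =>
      (if b * (c * u) ∈ S Y ∧ a * (c * v) ∈ S Y ∧ IsCoprime u v then
        ((Real.exp (-(nm n : ℝ) / Z) : ℝ) : ℂ) * F n (b * (c * u)) (a * (c * v)) a b else 0)) hsm]
  refine Finset.sum_congr rfl fun a ha => Finset.sum_congr rfl fun b hb =>
    Finset.sum_congr rfl fun c hc => Finset.sum_congr rfl fun u hu =>
    Finset.sum_congr rfl fun v hv => ?_
  by_cases h : b * (c * u) ∈ S Y ∧ a * (c * v) ∈ S Y ∧ IsCoprime u v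
  swap
  · simp_rw [if_neg h]; exact tsum_zero
  simp_rw [if_pos h]
  unfold TT
  apply tsum_congr
  intro n
  rw [← twist_eq ((mem_S hY).1 ha).2.1 ((mem_S hY).1 hb).2.1 ((mem_S hY).1 hc).2.1
    ((mem_S hY).1 hu).2.1 ((mem_S hY).1 hv).2.1]

end Crest.Agent.R017.Dual2813
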