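import Crest.Agent.R017.DgA_829
import Crest.Agent.R017.Dual2B_813

/-!
# Row 17, block C70, leaf E3 (helper829): the exact diagonal, part B

`a` any function, `TT Y a t = Σ_{m ∈ S Y, t ∣ m} a m`,
`DT E₀ Y a k = Σ_{t ∈ S E₀, t ∣ k} μ(t) TT Y a t` (the truncated Möbius form of
`Σ_{m ∈ S Y, (m,k) = 1} a m`).

* `DT_full` : `E₀ = Y` is the full sum
* `diag_expand` : the smooth mean square of `th(jk) DT k` through 579's sums over `lcm ∣ k`
-/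

set_option autoImplicit false

noncomputable section

open scoped Classical ComplexConjugate
open MeasureTheory

namespace Crest.Agent.R017.DgB829

open Crest.Agent.R012 Crest.Agent.R012.Eis
open Crest.Agent.R012.LS2 (S mem_S)
open Crest.Agent.R012.Mob705 (mu pdiv mem_pdiv abs_mu_le_one mu_of_not_squarefree mu_one
  sum_mu_coprime PE cop mem_cop)
open Crest.Agent.R012.Div277 (tau)
open Crest.Agent.R017.E1551 (nmpos)
open Crest.Agent.R017.PX764 (th n6)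
open Crest.Agent.R017.GrC829 (Wt)
open Crest.Agent.R017.GrE579 (GDE)
open Crest.Agent.R017.DgA829

/-- the sum over the multiples of `t` -/
def TT (Y : ℝ) (a : Eis → ℂ) (t : Eis) : ℂ := ∑ m ∈ S Y, if t ∣ m then a m else 0

/-- the truncated Moebius sum -/
def DT (E₀ Y : ℝ) (a : Eis → ℂ) (k : Eis) : ℂ :=
  ∑ t ∈ S E₀, if t ∣ k then (mu t : ℂ) * TT Y a t else 0

variable {φ : ℝ → ℂ} {a₀ b₀ D : ℝ}

lemma GDE_fin (h : Wt φ a₀ b₀ D) {X : ℝ} (hX : 0 < X) (j b E : Eis) :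
    GDE φ X j b E = ∑ k ∈ cop b (b₀ * X), if E ∣ k then
      φ ((nm k : ℝ) / X) * ((‖th (j * k)‖ ^ 2 : ℝ) : ℂ) else 0 := by
  unfold GDE
  rw [tsum_eq_sum (s := cop b (b₀ * X))]
  · refine Finset.sum_congr rfl fun k hk => ?_
    rw [mem_cop] at hk
    by_cases hE : E ∣ k
    · rw [if_pos ⟨hk.1.2, hk.2, hE⟩, if_pos hE]
    · rw [if_neg (fun h => hE h.2.2), if_neg hE]
  · intro k hk
    split_ifs with hc
    · have h1 : b₀ * X < nm k := by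
        by_contra hh
        exact hk (mem_cop.2 ⟨⟨not_lt.1 hh, hc.1⟩, hc.2.1⟩)
      rw [h.supp, zero_mul]
      rintro ⟨_, h2⟩
      rw [div_le_iff₀ hX] at h2
      linarith
    · rfl

/-- the smooth mean square of `th (j k) DT k` -/
def MS (φ : ℝ → ℂ) (X : ℝ) (j b : Eis) (F : Eis → ℂ) : ℂ :=
  ∑' k : Eis, if IsPrim k ∧ IsCoprime k b then
    φ ((nm k : ℝ) / X) * ((‖th (j * k)‖ ^ 2 * ‖F k‖ ^ 2 : ℝ) : ℂ) else 0

lemma MS_fin (h : Wt φ a₀ b₀ D) {X : ℝ} (hX : 0 < X) (j b : Eis) (F : Eis → ℂ) :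
    MS φ X j b F = ∑ k ∈ cop b (b₀ * X),
      φ ((nm k : ℝ) / X) * ((‖th (j * k)‖ ^ 2 * ‖F k‖ ^ 2 : ℝ) : ℂ) := by
  unfold MS
  rw [tsum_eq_sum (s := cop b (b₀ * X))]
  · refine Finset.sum_congr rfl fun k hk => ?_
    rw [mem_cop] at hk
    rw [if_pos ⟨hk.1.2, hk.2⟩]
  · intro k hk
    split_ifs with hc
    · have h1 : b₀ * X < nm k := by
        by_contra hh
        exact hk (mem_cop.2 ⟨⟨not_lt.1 hh, hc.1⟩, hc.2⟩)
      rw [h.supp, zero_mul]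
      rintro ⟨_, h2⟩
      rw [div_le_iff₀ hX] at h2
      linarith
    · rfl

/-- **the expansion of the diagonal** -/
theorem diag_expand (h : Wt φ a₀ b₀ D) {X : ℝ} (hX : 0 < X) (j b : Eis) {E₀ : ℝ} (hE : 0 ≤ E₀)
    (Y : ℝ) (a : Eis → ℂ) :
    MS φ X j b (DT E₀ Y a) = ∑ t ∈ S E₀, ∑ t' ∈ S E₀,
      ((mu t : ℂ) * (mu t' : ℂ) * (TT Y a t * conj (TT Y a t'))) * GDE φ X j b (lc t t') := by
  rw [MS_fin h hX]
  simp_rw [GDE_fin h hX, Finset.mul_sum]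
  rw [Finset.sum_congr rfl (fun t _ => Finset.sum_comm), Finset.sum_comm]
  refine Finset.sum_congr rfl fun k _ => ?_
  have e1 : ((‖DT E₀ Y a k‖ ^ 2 : ℝ) : ℂ) = DT E₀ Y a k * conj (DT E₀ Y a k) := by
    rw [Complex.mul_conj, Complex.normSq_eq_norm_sq]
  have e2 : ((‖th (j * k)‖ ^ 2 * ‖DT E₀ Y a k‖ ^ 2 : ℝ) : ℂ) =
      ((‖th (j * k)‖ ^ 2 : ℝ) : ℂ) * ((‖DT E₀ Y a k‖ ^ 2 : ℝ) : ℂ) := by push_cast; ring
  rw [e2, e1]
  unfold DT
  rw [map_sum, Finset.sum_mul_sum, Finset.mul_sum, Finset.mul_sum]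
  refine Finset.sum_congr rfl fun t ht => ?_
  rw [Finset.mul_sum, Finset.mul_sum]
  refine Finset.sum_congr rfl fun t' ht' => ?_
  have hl := lc_dvd ((mem_S hE).1 ht).2.1 ((mem_S hE).1 ht').2.1 k
  by_cases h1 : t ∣ k
  · by_cases h2 : t' ∣ k
    · rw [if_pos h1, if_pos h2, if_pos (hl.mpr ⟨h1, h2⟩), map_mul]
      have e3 : conj (mu t' : ℂ) = (mu t' : ℂ) := by
        rw [← Complex.ofReal_intCast, Complex.conj_ofReal]
      rw [e3]
      ring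
    · rw [if_neg h2, if_neg (fun hh => h2 (hl.mp hh).2)]
      simp
  · rw [if_neg h1, if_neg (fun hh => h1 (hl.mp hh).1)]
    simp

lemma sum_dvd_pdiv {Y : ℝ} (hY : 0 ≤ Y) {m : Eis} (hm : m ∈ S Y) (F : Eis → ℂ) :
    ∑ t ∈ S Y, (if t ∣ m then F t else 0) = ∑ t ∈ pdiv m, F t := by
  have hm' := (mem_S hY).1 hm
  rw [← Finset.sum_filter]
  refine Finset.sum_congr ?_ fun _ _ => rfl
  ext D
  rw [Finset.mem_filter, mem_pdiv hm'.2.1.ne_zero]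
  constructor
  · rintro ⟨h1, h2⟩
    exact ⟨((mem_S hY).1 h1).2.1, h2⟩
  · rintro ⟨h1, h2⟩
    exact ⟨Dual2813.S_of_dvd hY hm h1 h2, h2⟩

/-- **the full double sum** -/
theorem full_sum {Y : ℝ} (hY : 0 ≤ Y) (a : Eis → ℂ) :
    ∑ t ∈ S Y, ∑ t' ∈ S Y, ((mu t : ℂ) * (mu t' : ℂ) * (TT Y a t * conj (TT Y a t'))) *
      ((nm (lc t t') : ℝ) : ℂ)⁻¹ =
    ∑ m₁ ∈ S Y, ∑ m₂ ∈ S Y, ((PE (m₁ * m₂) : ℝ) : ℂ) * (a m₁ * conj (a m₂)) := by
  have e1 : ∀ t ∈ S Y, ∀ t' ∈ S Y, ((mu t : ℂ) * (mu t' : ℂ) * (TT Y a t * conj (TT Y a t'))) *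
      ((nm (lc t t') : ℝ) : ℂ)⁻¹ = ∑ m₁ ∈ S Y, ∑ m₂ ∈ S Y, (if t ∣ m₁ then (if t' ∣ m₂ then
        (((mu t : ℝ) * (mu t' : ℝ) / nm (lc t t') : ℝ) : ℂ) * (a m₁ * conj (a m₂)) else 0)
          else 0) := by
    intro t ht t' ht'
    unfold TT
    rw [map_sum, Finset.sum_mul_sum, Finset.mul_sum, Finset.sum_mul]
    refine Finset.sum_congr rfl fun m₁ _ => ?_
    rw [Finset.mul_sum, Finset.sum_mul]
    refine Finset.sum_congr rfl fun m₂ _ => ?_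
    by_cases h1 : t ∣ m₁
    · by_cases h2 : t' ∣ m₂
      · rw [if_pos h1, if_pos h2, if_pos h1, if_pos h2]
        push_cast
        ring
      · rw [if_neg h2, if_pos h1, if_neg h2]; simp
    · rw [if_neg h1, if_neg h1]; simp
  rw [Finset.sum_congr rfl fun t ht => Finset.sum_congr rfl fun t' ht' => e1 t ht t' ht']
  have e2 : ∑ t ∈ S Y, ∑ t' ∈ S Y, ∑ m₁ ∈ S Y, ∑ m₂ ∈ S Y, (if t ∣ m₁ then (if t' ∣ m₂ then
        (((mu t : ℝ) * (mu t' : ℝ) / nm (lc t t') : ℝ) : ℂ) * (a m₁ * conj (a m₂)) else 0)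
          else 0) =
      ∑ m₁ ∈ S Y, ∑ m₂ ∈ S Y, ∑ t ∈ S Y, ∑ t' ∈ S Y, (if t ∣ m₁ then (if t' ∣ m₂ then
        (((mu t : ℝ) * (mu t' : ℝ) / nm (lc t t') : ℝ) : ℂ) * (a m₁ * conj (a m₂)) else 0)
          else 0) := by
    calc _ = ∑ t ∈ S Y, ∑ m₁ ∈ S Y, ∑ t' ∈ S Y, ∑ m₂ ∈ S Y, (if t ∣ m₁ then (if t' ∣ m₂ then
        (((mu t : ℝ) * (mu t' : ℝ) / nm (lc t t') : ℝ) : ℂ) * (a m₁ * conj (a m₂)) else 0)
          else 0) := Finset.sum_congr rfl fun t _ => Finset.sum_comm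
      _ = ∑ m₁ ∈ S Y, ∑ t ∈ S Y, ∑ t' ∈ S Y, ∑ m₂ ∈ S Y, (if t ∣ m₁ then (if t' ∣ m₂ then
        (((mu t : ℝ) * (mu t' : ℝ) / nm (lc t t') : ℝ) : ℂ) * (a m₁ * conj (a m₂)) else 0)
          else 0) := Finset.sum_comm
      _ = ∑ m₁ ∈ S Y, ∑ t ∈ S Y, ∑ m₂ ∈ S Y, ∑ t' ∈ S Y, (if t ∣ m₁ then (if t' ∣ m₂ then
        (((mu t : ℝ) * (mu t' : ℝ) / nm (lc t t') : ℝ) : ℂ) * (a m₁ * conj (a m₂)) else 0)
          else 0) := Finset.sum_congr rfl fun m₁ _ => Finset.sum_congr rfl fun t _ =>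
            Finset.sum_comm
      _ = _ := Finset.sum_congr rfl fun m₁ _ => Finset.sum_comm
  rw [e2]
  refine Finset.sum_congr rfl fun m₁ h₁ => Finset.sum_congr rfl fun m₂ h₂ => ?_
  have h₁' := (mem_S hY).1 h₁
  have h₂' := (mem_S hY).1 h₂
  have e3 : ∀ t ∈ S Y, ∑ t' ∈ S Y, (if t ∣ m₁ then (if t' ∣ m₂ then
        (((mu t : ℝ) * (mu t' : ℝ) / nm (lc t t') : ℝ) : ℂ) * (a m₁ * conj (a m₂)) else 0)
          else 0) = if t ∣ m₁ then ∑ t' ∈ pdiv m₂,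
            (((mu t : ℝ) * (mu t' : ℝ) / nm (lc t t') : ℝ) : ℂ) * (a m₁ * conj (a m₂)) else 0 := by
    intro t _
    by_cases h1 : t ∣ m₁
    · simp only [if_pos h1]
      exact sum_dvd_pdiv hY h₂ _
    · simp only [if_neg h1, Finset.sum_const_zero]
  rw [Finset.sum_congr rfl e3, sum_dvd_pdiv hY h₁]
  simp_rw [← Finset.sum_mul]
  congr 1
  rw [← PE_lcm h₁'.2.1 h₂'.2.1 h₁'.2.2 h₂'.2.2]
  push_cast
  rfl

/-- without truncation `DT` is the coprime sum -/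
theorem DT_full {Y : ℝ} (hY : 0 ≤ Y) (a : Eis → ℂ) {k : Eis} (hk : IsPrim k) :
    DT Y Y a k = ∑ m ∈ S Y, if IsCoprime k m then a m else 0 := by
  unfold DT TT
  have e1 : ∀ t ∈ S Y, (if t ∣ k then (mu t : ℂ) * ∑ m ∈ S Y, (if t ∣ m then a m else 0) else 0) =
      ∑ m ∈ S Y, (if t ∣ m then (if t ∣ k then (mu t : ℂ) else 0) else 0) * a m := by
    intro t _
    by_cases h1 : t ∣ k
    · simp only [if_pos h1]
      rw [Finset.mul_sum]
      refine Finset.sum_congr rfl fun m _ => ?_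
      split_ifs <;> simp
    · simp [if_neg h1]
  rw [Finset.sum_congr rfl e1, Finset.sum_comm]
  refine Finset.sum_congr rfl fun m hm => ?_
  have hm' := (mem_S hY).1 hm
  rw [← Finset.sum_mul, sum_dvd_pdiv hY hm]
  have h2 := sum_mu_coprime hk hm'.2.1.ne_zero
  have h3 := congrArg (fun z : ℤ => (z : ℂ)) h2
  beta_reduce at h3
  push_cast at h3
  rw [h3]
  split_ifs <;> simp

/-! ### the bilinear form with `1/N(lcm)` -/

/-- the harmonic sum -/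
def HS (Y : ℝ) : ℝ := ∑ t ∈ S Y, (1 : ℝ) / nm t

lemma HS_nonneg (Y : ℝ) : 0 ≤ HS Y := Finset.sum_nonneg fun _ _ => by positivity

lemma HS_le {Y : ℝ} (hY : 1 ≤ Y) : HS Y ≤ 200 * (1 + Real.log Y) := E1551.sum_inv_S hY

lemma HS_mult {Y : ℝ} (hY : 0 ≤ Y) {e : Eis} (he : IsPrim e) :
    ∑ t ∈ S Y, (if e ∣ t then (1 : ℝ) / nm t else 0) ≤ (1 / nm e) * HS Y := by
  rw [← Finset.sum_filter]
  have h1 : ∑ t ∈ (S Y).filter (fun t => e ∣ t), (1 : ℝ) / nm t =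
      ∑ j ∈ (S Y).filter (fun j => e * j ∈ S Y), (1 : ℝ) / nm (e * j) := by
    symm
    refine Finset.sum_bij (fun j _ => e * j) ?_ ?_ ?_ ?_
    · intro j hj
      rw [Finset.mem_filter] at hj ⊢
      exact ⟨hj.2, dvd_mul_right _ _⟩
    · intro a _ b _ hab
      exact mul_left_cancel₀ he.ne_zero hab
    · intro k hk
      rw [Finset.mem_filter] at hk
      obtain ⟨j, hj⟩ := hk.2
      have hk' := (mem_S hY).1 hk.1
      refine ⟨j, ?_, hj.symm⟩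
      rw [Finset.mem_filter, ← hj]
      refine ⟨?_, hk.1⟩
      exact Dual2813.S_of_dvd hY hk.1 (IsPrim.of_mul_left (hj ▸ hk'.2.1) he)
        ⟨e, by rw [hj]; ring⟩
    · intro _ _; rfl
  rw [h1]
  unfold HS
  rw [Finset.mul_sum]
  calc ∑ j ∈ (S Y).filter (fun j => e * j ∈ S Y), (1 : ℝ) / nm (e * j)
      ≤ ∑ j ∈ S Y, (1 : ℝ) / nm (e * j) :=
        Finset.sum_le_sum_of_subset_of_nonneg (Finset.filter_subset _ _)
          fun _ _ _ => by positivity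
    _ ≤ _ := Finset.sum_le_sum fun j _ => le_of_eq (by rw [nm_mul]; push_cast; field_simp)

lemma sum_tau {Y : ℝ} (hY : 0 ≤ Y) {t : Eis} (ht : t ∈ S Y) (c : ℝ) :
    ∑ e ∈ S Y, (if e ∣ t then c else 0) = tau t * c := by
  have ht' := (mem_S hY).1 ht
  rw [← Finset.sum_filter, Finset.sum_const, nsmul_eq_mul]
  congr 2
  unfold tau
  congr 1
  ext d
  rw [Finset.mem_filter, Div277.mem_dvs ht'.2.1.ne_zero]
  constructor
  · rintro ⟨h1, h2⟩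
    exact ⟨((mem_S hY).1 h1).2.1, h2⟩
  · rintro ⟨h1, h2⟩
    exact ⟨Dual2813.S_of_dvd hY ht h1 h2, h2⟩

lemma sq_mult {Y : ℝ} (hY : 0 ≤ Y) (u : Eis → ℝ) {e : Eis} (he : IsPrim e) :
    (nm e : ℝ) * (∑ t ∈ S Y, (if e ∣ t then u t / nm t else 0)) ^ 2 ≤
      HS Y * ∑ t ∈ S Y, (if e ∣ t then u t ^ 2 / nm t else 0) := by
  have h1 := Finset.sum_mul_sq_le_sq_mul_sq (S Y)
    (fun t => if e ∣ t then Real.sqrt (1 / nm t) else 0)
    (fun t => if e ∣ t then Real.sqrt (1 / nm t) * u t else 0)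
  have e1 : ∑ t ∈ S Y, (if e ∣ t then Real.sqrt (1 / nm t) else 0) *
      (if e ∣ t then Real.sqrt (1 / nm t) * u t else 0) =
      ∑ t ∈ S Y, (if e ∣ t then u t / nm t else 0) := by
    refine Finset.sum_congr rfl fun t _ => ?_
    split_ifs
    · rw [← mul_assoc, Real.mul_self_sqrt (by positivity)]; ring
    · simp
  have e2 : ∑ t ∈ S Y, (if e ∣ t then Real.sqrt (1 / nm t) else 0) ^ 2 =
      ∑ t ∈ S Y, (if e ∣ t then (1 : ℝ) / nm t else 0) := by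
    refine Finset.sum_congr rfl fun t _ => ?_
    split_ifs
    · rw [Real.sq_sqrt (by positivity)]
    · simp
  have e3 : ∑ t ∈ S Y, (if e ∣ t then Real.sqrt (1 / nm t) * u t else 0) ^ 2 =
      ∑ t ∈ S Y, (if e ∣ t then u t ^ 2 / nm t else 0) := by
    refine Finset.sum_congr rfl fun t _ => ?_
    split_ifs
    · rw [mul_pow, Real.sq_sqrt (by positivity)]; ring
    · simp
  rw [e1, e2, e3] at h1
  have h2 := HS_mult hY he
  have h3 : 0 ≤ ∑ t ∈ S Y, (if e ∣ t then u t ^ 2 / nm t else 0) :=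
    Finset.sum_nonneg fun t _ => by split_ifs <;> positivity
  have hn := nmpos he.ne_zero
  calc (nm e : ℝ) * (∑ t ∈ S Y, (if e ∣ t then u t / nm t else 0)) ^ 2
      ≤ (nm e : ℝ) * ((∑ t ∈ S Y, (if e ∣ t then (1 : ℝ) / nm t else 0)) *
          ∑ t ∈ S Y, (if e ∣ t then u t ^ 2 / nm t else 0)) :=
        mul_le_mul_of_nonneg_left h1 hn.le
    _ ≤ (nm e : ℝ) * (((1 / nm e) * HS Y) *
          ∑ t ∈ S Y, (if e ∣ t then u t ^ 2 / nm t else 0)) := by gcongr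
    _ = _ := by field_simp

lemma sum_sq_mult {Y : ℝ} (hY : 0 ≤ Y) (u : Eis → ℝ) :
    ∑ e ∈ S Y, (nm e : ℝ) * (∑ t ∈ S Y, (if e ∣ t then u t / nm t else 0)) ^ 2 ≤
      HS Y * ∑ t ∈ S Y, (tau t : ℝ) / nm t * u t ^ 2 := by
  calc _ ≤ ∑ e ∈ S Y, HS Y * ∑ t ∈ S Y, (if e ∣ t then u t ^ 2 / nm t else 0) :=
        Finset.sum_le_sum fun e he => sq_mult hY u ((mem_S hY).1 he).2.1
    _ = HS Y * ∑ t ∈ S Y, ∑ e ∈ S Y, (if e ∣ t then u t ^ 2 / nm t else 0) := by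
        rw [← Finset.mul_sum, Finset.sum_comm]
    _ = _ := by
        congr 1
        refine Finset.sum_congr rfl fun t ht => ?_
        rw [sum_tau hY ht]
        ring

/-- **the bilinear form** -/
theorem lcm_bilinear {Y : ℝ} (hY : 0 ≤ Y) (u v : Eis → ℝ) (hu : ∀ t, 0 ≤ u t)
    (hv : ∀ t, 0 ≤ v t) {lam : ℝ} (hl : 0 < lam) :
    ∑ t ∈ S Y, ∑ t' ∈ S Y, u t * v t' / nm (lc t t') ≤
      HS Y * (lam / 2 * ∑ t ∈ S Y, (tau t : ℝ) / nm t * u t ^ 2 +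
        lam⁻¹ / 2 * ∑ t ∈ S Y, (tau t : ℝ) / nm t * v t ^ 2) := by
  have h1 : ∀ t ∈ S Y, ∀ t' ∈ S Y, u t * v t' / nm (lc t t') ≤
      ∑ e ∈ S Y, (nm e : ℝ) * ((if e ∣ t then u t / nm t else 0) *
        (if e ∣ t' then v t' / nm t' else 0)) := by
    intro t ht t' ht'
    have p1 := (mem_S hY).1 ht
    have p2 := (mem_S hY).1 ht'
    obtain ⟨g, hg, hg1, hg2, -, hg3, -⟩ := nm_lc p1.2.1 p2.2.1 p1.2.2 p2.2.2
    have hgS : g ∈ S Y := Dual2813.S_of_dvd hY ht hg hg1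
    have n1 := nmpos p1.2.1.ne_zero
    have n2 := nmpos p2.2.1.ne_zero
    have n3 := nmpos hg.ne_zero
    have n4 := nmpos (lc_prim p1.2.1 p2.2.1).ne_zero
    refine le_trans (le_of_eq ?_) (Finset.single_le_sum (f := fun e => (nm e : ℝ) *
      ((if e ∣ t then u t / nm t else 0) * (if e ∣ t' then v t' / nm t' else 0)))
      (fun e _ => ?_) hgS)
    · beta_reduce
      rw [if_pos hg1, if_pos hg2, div_mul_div_comm, ← hg3]
      field_simp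
    · have := hu t
      have := hv t'
      split_ifs <;> positivity
  calc _ ≤ ∑ t ∈ S Y, ∑ t' ∈ S Y, ∑ e ∈ S Y, (nm e : ℝ) * ((if e ∣ t then u t / nm t else 0) *
        (if e ∣ t' then v t' / nm t' else 0)) :=
        Finset.sum_le_sum fun t ht => Finset.sum_le_sum fun t' ht' => h1 t ht t' ht'
    _ = ∑ e ∈ S Y, (nm e : ℝ) * ((∑ t ∈ S Y, (if e ∣ t then u t / nm t else 0)) *
        ∑ t' ∈ S Y, (if e ∣ t' then v t' / nm t' else 0)) := by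
        rw [Finset.sum_congr rfl fun t _ => Finset.sum_comm, Finset.sum_comm]
        refine Finset.sum_congr rfl fun e _ => ?_
        rw [Finset.sum_mul_sum, Finset.mul_sum]
        refine Finset.sum_congr rfl fun t _ => ?_
        rw [Finset.mul_sum]
    _ ≤ ∑ e ∈ S Y, (lam / 2 * ((nm e : ℝ) * (∑ t ∈ S Y, (if e ∣ t then u t / nm t else 0)) ^ 2) +
        lam⁻¹ / 2 * ((nm e : ℝ) *
          (∑ t' ∈ S Y, (if e ∣ t' then v t' / nm t' else 0)) ^ 2)) := by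
        refine Finset.sum_le_sum fun e _ => ?_
        set A := ∑ t ∈ S Y, (if e ∣ t then u t / nm t else 0)
        set B := ∑ t' ∈ S Y, (if e ∣ t' then v t' / nm t' else 0)
        have h2 : A * B ≤ lam / 2 * A ^ 2 + lam⁻¹ / 2 * B ^ 2 := by
          have h3 : 0 ≤ lam⁻¹ / 2 * (lam * A - B) ^ 2 := by positivity
          have h4 : lam⁻¹ / 2 * (lam * A - B) ^ 2 =
              lam / 2 * A ^ 2 + lam⁻¹ / 2 * B ^ 2 - A * B := by
            field_simp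
            ring
          linarith
        have h5 : (0 : ℝ) ≤ nm e := Nat.cast_nonneg _
        calc (nm e : ℝ) * (A * B) ≤ nm e * (lam / 2 * A ^ 2 + lam⁻¹ / 2 * B ^ 2) :=
              mul_le_mul_of_nonneg_left h2 h5
          _ = _ := by ring
    _ = lam / 2 * (∑ e ∈ S Y, (nm e : ℝ) *
          (∑ t ∈ S Y, (if e ∣ t then u t / nm t else 0)) ^ 2) +
        lam⁻¹ / 2 * ∑ e ∈ S Y, (nm e : ℝ) *
          (∑ t' ∈ S Y, (if e ∣ t' then v t' / nm t' else 0)) ^ 2 := by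
        rw [Finset.sum_add_distrib, Finset.mul_sum, Finset.mul_sum]
    _ ≤ lam / 2 * (HS Y * ∑ t ∈ S Y, (tau t : ℝ) / nm t * u t ^ 2) +
        lam⁻¹ / 2 * (HS Y * ∑ t ∈ S Y, (tau t : ℝ) / nm t * v t ^ 2) := by
        have h6 := sum_sq_mult hY u
        have h7 := sum_sq_mult hY v
        gcongr
    _ = _ := by ring

end Crest.Agent.R017.DgB829
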