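import Crest.Agent.R017.DgB_829

/-!
# Row 17, block C70, leaf E3 (helper829): the exact diagonal, part C

* `tail` : the pairs `(t, t') ∈ (S Y)²` not both in `S E₀`
* **`diag_main`** : the smooth mean square of `th(jk) DT(k)` with the exact main term
  `Σ_{m₁,m₂} PE(m₁ m₂) a(m₁) conj (a(m₂))`
-/

set_option autoImplicit false

noncomputable section

open scoped Classical ComplexConjugate
open MeasureTheory

namespace Crest.Agent.R017.DgB829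

open Crest.Agent.R012 Crest.Agent.R012.Eis Crest.Agent.R012.T3_85
open Crest.Agent.R012.LS2 (S mem_S)
open Crest.Agent.R012.Mob705 (mu pdiv mem_pdiv abs_mu_le_one mu_of_not_squarefree mu_one
  sum_mu_coprime PE PE_pos sig sig_pos cop mem_cop kap0 kap0_pos)
open Crest.Agent.R012.Div277 (tau)
open Crest.Agent.R012.Gauss880
open Crest.Agent.R017.E1551 (nmpos)
open Crest.Agent.R017.PX764 (th n6 n6_mul n6_pos)
open Crest.Agent.R017.P3all283 Crest.Agent.R017.C70 Crest.Agent.R017.GrB829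
open Crest.Agent.R017.GrC829 (Wt)
open Crest.Agent.R017.GrE579 (GDE GDE_cop cbF_of_sqf JC.ne_zero)
open Crest.Agent.R017.DgA829

/-- the part of `u` outside `S E₀` -/
def out (E₀ : ℝ) (u : Eis → ℝ) (t : Eis) : ℝ := if t ∈ S E₀ then 0 else u t

lemma out_nonneg {E₀ : ℝ} {u : Eis → ℝ} (hu : ∀ t, 0 ≤ u t) (t : Eis) : 0 ≤ out E₀ u t := by
  unfold out; split_ifs; exacts [le_rfl, hu t]

lemma S_mono {E₀ Y : ℝ} (hE : 0 ≤ E₀) (hEY : E₀ ≤ Y) : S E₀ ⊆ S Y := fun t ht => by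
  have h := (mem_S hE).1 ht
  exact (mem_S (hE.trans hEY)).2 ⟨h.1.trans hEY, h.2⟩

lemma sum_in {E₀ Y : ℝ} (hE : 0 ≤ E₀) (hEY : E₀ ≤ Y) (F : Eis → Eis → ℂ) :
    ∑ t ∈ S E₀, ∑ t' ∈ S E₀, F t t' =
      ∑ t ∈ S Y, ∑ t' ∈ S Y, if t ∈ S E₀ ∧ t' ∈ S E₀ then F t t' else 0 := by
  have hs := S_mono hE hEY
  have h1 : ∀ G : Eis → ℂ, ∑ t ∈ S E₀, G t = ∑ t ∈ S Y, if t ∈ S E₀ then G t else 0 := by
    intro G
    rw [← Finset.sum_filter, Finset.filter_mem_eq_inter, Finset.inter_eq_right.mpr hs]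
  rw [h1]
  refine Finset.sum_congr rfl fun t _ => ?_
  by_cases h2 : t ∈ S E₀
  · rw [if_pos h2, h1]
    refine Finset.sum_congr rfl fun t' _ => ?_
    by_cases h3 : t' ∈ S E₀
    · rw [if_pos h3, if_pos ⟨h2, h3⟩]
    · rw [if_neg h3, if_neg (fun h => h3 h.2)]
  · rw [if_neg h2]
    symm
    exact Finset.sum_eq_zero fun t' _ => if_neg (fun h => h2 h.1)

lemma norm_mu_le (t : Eis) : ‖(mu t : ℂ)‖ ≤ 1 := by
  rw [Complex.norm_intCast]
  exact_mod_cast abs_mu_le_one t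

/-- **the tail** -/
theorem tail {E₀ Y : ℝ} (hE : 0 ≤ E₀) (hEY : E₀ ≤ Y) (T : Eis → ℂ) {lam : ℝ} (hl : 0 < lam) :
    ‖∑ t ∈ S E₀, ∑ t' ∈ S E₀, ((mu t : ℂ) * (mu t' : ℂ) * (T t * conj (T t'))) *
        ((nm (lc t t') : ℝ) : ℂ)⁻¹ -
      ∑ t ∈ S Y, ∑ t' ∈ S Y, ((mu t : ℂ) * (mu t' : ℂ) * (T t * conj (T t'))) *
        ((nm (lc t t') : ℝ) : ℂ)⁻¹‖ ≤
      HS Y * (lam * ∑ t ∈ S Y, (tau t : ℝ) / nm t * out E₀ (fun t => ‖T t‖) t ^ 2 +
        lam⁻¹ * ∑ t ∈ S Y, (tau t : ℝ) / nm t * ‖T t‖ ^ 2) := by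
  have hY : 0 ≤ Y := hE.trans hEY
  rw [sum_in hE hEY, ← Finset.sum_sub_distrib]
  have hu : ∀ t, 0 ≤ ‖T t‖ := fun t => norm_nonneg _
  have ho := out_nonneg (E₀ := E₀) hu
  calc _ ≤ ∑ t ∈ S Y, ∑ t' ∈ S Y,
        (out E₀ (fun t => ‖T t‖) t * ‖T t'‖ / nm (lc t t') +
          out E₀ (fun t => ‖T t‖) t' * ‖T t‖ / nm (lc t' t)) := by
        refine (norm_sum_le _ _).trans (Finset.sum_le_sum fun t ht => ?_)
        rw [← Finset.sum_sub_distrib]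
        refine (norm_sum_le _ _).trans (Finset.sum_le_sum fun t' ht' => ?_)
        have p1 := ((mem_S hY).1 ht).2.1
        have p2 := ((mem_S hY).1 ht').2.1
        have h1 : ‖((mu t : ℂ) * (mu t' : ℂ) * (T t * conj (T t'))) *
            ((nm (lc t t') : ℝ) : ℂ)⁻¹‖ ≤ ‖T t‖ * ‖T t'‖ / nm (lc t t') := by
          rw [norm_mul, norm_mul, norm_mul, norm_mul, RCLike.norm_conj, norm_inv,
            Complex.norm_real, Real.norm_of_nonneg (Nat.cast_nonneg _), div_eq_mul_inv]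
          refine mul_le_mul_of_nonneg_right ?_ (by positivity)
          calc ‖(mu t : ℂ)‖ * ‖(mu t' : ℂ)‖ * (‖T t‖ * ‖T t'‖)
              ≤ 1 * 1 * (‖T t‖ * ‖T t'‖) := by
                have := norm_mu_le t
                have := norm_mu_le t'
                gcongr
            _ = _ := by ring
        rw [lc_comm p2 p1]
        by_cases h2 : t ∈ S E₀
        · by_cases h3 : t' ∈ S E₀
          · rw [if_pos ⟨h2, h3⟩, sub_self, norm_zero]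
            have := ho t
            have := ho t'
            positivity
          · rw [if_neg (fun h => h3 h.2), zero_sub, norm_neg]
            refine h1.trans ?_
            have e1 : out E₀ (fun t => ‖T t‖) t' = ‖T t'‖ := if_neg h3
            rw [e1]
            have := ho t
            have e2 : ‖T t‖ * ‖T t'‖ / nm (lc t t') = ‖T t'‖ * ‖T t‖ / nm (lc t t') := by ring
            rw [e2]
            have : 0 ≤ out E₀ (fun t => ‖T t‖) t * ‖T t'‖ / nm (lc t t') := by positivity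
            linarith
        · rw [if_neg (fun h => h2 h.1), zero_sub, norm_neg]
          refine h1.trans ?_
          have e1 : out E₀ (fun t => ‖T t‖) t = ‖T t‖ := if_neg h2
          rw [e1]
          have := ho t'
          have : 0 ≤ out E₀ (fun t => ‖T t‖) t' * ‖T t‖ / nm (lc t t') := by positivity
          linarith
    _ = 2 * ∑ t ∈ S Y, ∑ t' ∈ S Y, out E₀ (fun t => ‖T t‖) t * ‖T t'‖ / nm (lc t t') := by
        simp_rw [Finset.sum_add_distrib]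
        rw [Finset.sum_comm (f := fun t t' => out E₀ (fun t => ‖T t‖) t' * ‖T t‖ /
          (nm (lc t' t) : ℝ))]
        ring
    _ ≤ 2 * (HS Y * (lam / 2 * ∑ t ∈ S Y, (tau t : ℝ) / nm t *
          out E₀ (fun t => ‖T t‖) t ^ 2 +
        lam⁻¹ / 2 * ∑ t ∈ S Y, (tau t : ℝ) / nm t * ‖T t‖ ^ 2)) :=
        mul_le_mul_of_nonneg_left (lcm_bilinear hY _ _ ho hu hl) (by norm_num)
    _ = _ := by ring

variable {φ : ℝ → ℂ} {a₀ b₀ D : ℝ}

/-- the constant of the error term -/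
def Ec (a₀ b₀ D X : ℝ) (j b : Eis) : ℝ :=
  (b₀ - a₀) * D * (10000000 * sig b * (tau j : ℝ) ^ 2 * n6 j * (b₀ * X) ^ (1 / 3 : ℝ) *
    EL (b₀ * X))

lemma Ec_nonneg (h : Wt φ a₀ b₀ D) {X : ℝ} (hX : 0 < X) {j b : Eis} (hj : j ≠ 0) :
    0 ≤ Ec a₀ b₀ D X j b := by
  have h1 := h.D_nonneg
  have h2 := h.le
  have h3 := sig_pos b
  have h4 := n6_pos hj
  have h5 := GrB829.EL_nonneg (b₀ * X)
  have h6 : 0 ≤ b₀ * X := by have := h.pos; nlinarith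
  have h7 : 0 ≤ b₀ - a₀ := by linarith
  unfold Ec
  positivity

/-- the error of one pair -/
lemma err_le (h : Wt φ a₀ b₀ D) {X : ℝ} (hX : 0 < X) {j b : Eis} (hj : JC j)
    {t t' : Eis} (ht : IsPrim t) (ht' : IsPrim t') (hs : Squarefree t) (hs' : Squarefree t') :
    (b₀ - a₀) * D * (10000000 * sig b * (tau (j * lc t t') : ℝ) ^ 2 * n6 (j * lc t t') *
        (b₀ * (X / nm (lc t t'))) ^ (1 / 3 : ℝ) * EL (b₀ * (X / nm (lc t t')))) ≤
      Ec a₀ b₀ D X j b * (((tau t : ℝ) ^ 2 * (nm t : ℝ) ^ (-(1 : ℝ) / 4)) *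
        ((tau t' : ℝ) ^ 2 * (nm t' : ℝ) ^ (-(1 : ℝ) / 4))) := by
  have hj0 := JC.ne_zero hj
  have hl := lc_prim ht ht'
  have hD := h.D_nonneg
  have hb0 : 0 < b₀ := h.pos.trans_le h.le
  have hba : 0 ≤ b₀ - a₀ := by have := h.le; linarith
  have hsb := sig_pos b
  have nl := nmpos hl.ne_zero
  have nt := nmpos ht.ne_zero
  have nt' := nmpos ht'.ne_zero
  have n1 : (1 : ℝ) ≤ nm (lc t t') := by exact_mod_cast nm_pos.2 hl.ne_zero
  -- tau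
  have h1 : (tau (j * lc t t') : ℝ) ≤ tau j * (tau t * tau t') := by
    have e1 : lc t t' ∣ t * t' := (lc_dvd ht ht' _).mpr ⟨dvd_mul_right _ _, dvd_mul_left _ _⟩
    have e2 := Div277.tau_mul_le j (lc t t')
    have e3 := Div277.tau_le_of_dvd (mul_ne_zero ht.ne_zero ht'.ne_zero) e1
    have e4 := Div277.tau_mul_le t t'
    have e5 : tau (j * lc t t') ≤ tau j * (tau t * tau t') :=
      e2.trans (Nat.mul_le_mul_left _ (e3.trans e4))
    exact_mod_cast e5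
  -- EL
  have h2 : b₀ * (X / nm (lc t t')) ≤ b₀ * X :=
    mul_le_mul_of_nonneg_left (div_le_self hX.le n1) hb0.le
  have h3 := EL_mono h2
  have h3' := GrB829.EL_nonneg (b₀ * (X / nm (lc t t')))
  -- powers
  have h4 : n6 (j * lc t t') * (b₀ * (X / nm (lc t t'))) ^ (1 / 3 : ℝ) =
      n6 j * (b₀ * X) ^ (1 / 3 : ℝ) * (nm (lc t t') : ℝ) ^ (-(1 : ℝ) / 2) := by
    rw [n6_mul, ← mul_div_assoc, Real.div_rpow (by positivity) nl.le]
    have e1 : n6 (lc t t') / (nm (lc t t') : ℝ) ^ (1 / 3 : ℝ) =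
        (nm (lc t t') : ℝ) ^ (-(1 : ℝ) / 2) := by
      unfold PX764.n6
      rw [← Real.rpow_sub nl]
      norm_num
    rw [← e1]
    ring
  have h5 : (nm (lc t t') : ℝ) ^ (-(1 : ℝ) / 2) ≤
      (nm t : ℝ) ^ (-(1 : ℝ) / 4) * (nm t' : ℝ) ^ (-(1 : ℝ) / 4) := by
    have d1 : (nm t : ℝ) ≤ nm (lc t t') := by
      exact_mod_cast Div277.nm_le_of_dvd hl.ne_zero ((lc_dvd ht ht' _).mp dvd_rfl).1
    have d2 : (nm t' : ℝ) ≤ nm (lc t t') := by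
      exact_mod_cast Div277.nm_le_of_dvd hl.ne_zero ((lc_dvd ht ht' _).mp dvd_rfl).2
    have e1 : (nm (lc t t') : ℝ) ^ (-(1 : ℝ) / 2) =
        (nm (lc t t') : ℝ) ^ (-(1 : ℝ) / 4) * (nm (lc t t') : ℝ) ^ (-(1 : ℝ) / 4) := by
      rw [← Real.rpow_add nl]; norm_num
    rw [e1]
    exact mul_le_mul (Real.rpow_le_rpow_of_nonpos nt d1 (by norm_num))
      (Real.rpow_le_rpow_of_nonpos nt' d2 (by norm_num)) (by positivity) (by positivity)
  have hn6 := n6_pos hj0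
  calc (b₀ - a₀) * D * (10000000 * sig b * (tau (j * lc t t') : ℝ) ^ 2 * n6 (j * lc t t') *
        (b₀ * (X / nm (lc t t'))) ^ (1 / 3 : ℝ) * EL (b₀ * (X / nm (lc t t'))))
      = (b₀ - a₀) * D * (10000000 * sig b * (tau (j * lc t t') : ℝ) ^ 2 *
        (n6 (j * lc t t') * (b₀ * (X / nm (lc t t'))) ^ (1 / 3 : ℝ)) *
          EL (b₀ * (X / nm (lc t t')))) := by ring
    _ ≤ (b₀ - a₀) * D * (10000000 * sig b * (tau j * (tau t * tau t')) ^ 2 *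
        (n6 j * (b₀ * X) ^ (1 / 3 : ℝ) *
          ((nm t : ℝ) ^ (-(1 : ℝ) / 4) * (nm t' : ℝ) ^ (-(1 : ℝ) / 4))) *
          EL (b₀ * X)) := by
        rw [h4]
        gcongr
    _ = _ := by
        unfold Ec
        ring

/-- **the exact diagonal** -/
theorem diag_main (h : Wt φ a₀ b₀ D) {X : ℝ} (hX : 0 < X) {j b : Eis} (hj : JC j)
    (hb : b ≠ 0) (hjb : IsCoprime j b) {E₀ Y : ℝ} (hE : 0 ≤ E₀) (hEY : E₀ ≤ Y) (a : Eis → ℂ)
    (ha : ∀ m, a m ≠ 0 → IsCoprime m b ∧ IsCoprime j m) {lam : ℝ} (hl : 0 < lam) :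
    ‖MS φ X j b (DT E₀ Y a) -
      (((kap0 * PE b * (nm j : ℝ) ^ (-(1 : ℝ) / 3) * X ^ (2 / 3 : ℝ) : ℝ) : ℂ) *
      ∫ t in Set.Ioi (0 : ℝ), ((t ^ (-(1 : ℝ) / 3) : ℝ) : ℂ) * φ t) *
        ∑ m₁ ∈ S Y, ∑ m₂ ∈ S Y, ((PE (m₁ * m₂) : ℝ) : ℂ) * (a m₁ * conj (a m₂))‖ ≤
      Ec a₀ b₀ D X j b * (∑ t ∈ S E₀, (tau t : ℝ) ^ 2 * (nm t : ℝ) ^ (-(1 : ℝ) / 4) *
        ‖TT Y a t‖) ^ 2 +
      (kap0 * PE b * (nm j : ℝ) ^ (-(1 : ℝ) / 3) * X ^ (2 / 3 : ℝ)) *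
        ‖∫ t in Set.Ioi (0 : ℝ), ((t ^ (-(1 : ℝ) / 3) : ℝ) : ℂ) * φ t‖ *
        (HS Y * (lam * ∑ t ∈ S Y, (tau t : ℝ) / nm t * out E₀ (fun t => ‖TT Y a t‖) t ^ 2 +
          lam⁻¹ * ∑ t ∈ S Y, (tau t : ℝ) / nm t * ‖TT Y a t‖ ^ 2)) := by
  have hY : 0 ≤ Y := hE.trans hEY
  have hj0 := JC.ne_zero hj
  set I := ∫ t in Set.Ioi (0 : ℝ), ((t ^ (-(1 : ℝ) / 3) : ℝ) : ℂ) * φ t with hI
  set c : ℝ := kap0 * PE b * (nm j : ℝ) ^ (-(1 : ℝ) / 3) * X ^ (2 / 3 : ℝ) with hc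
  have hPE := PE_pos b
  have hk0 := kap0_pos
  have hc0 : 0 ≤ c := by rw [hc]; positivity
  -- the pairs
  have h1 : ∀ t ∈ S E₀, ∀ t' ∈ S E₀,
      ‖((mu t : ℂ) * (mu t' : ℂ) * (TT Y a t * conj (TT Y a t'))) * GDE φ X j b (lc t t') -
        ((c : ℂ) * I) * (((mu t : ℂ) * (mu t' : ℂ) * (TT Y a t * conj (TT Y a t'))) *
          ((nm (lc t t') : ℝ) : ℂ)⁻¹)‖ ≤
      Ec a₀ b₀ D X j b * (((tau t : ℝ) ^ 2 * (nm t : ℝ) ^ (-(1 : ℝ) / 4) * ‖TT Y a t‖) *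
        ((tau t' : ℝ) ^ 2 * (nm t' : ℝ) ^ (-(1 : ℝ) / 4) * ‖TT Y a t'‖)) := by
    intro t ht t' ht'
    have p1 := (mem_S hE).1 ht
    have p2 := (mem_S hE).1 ht'
    have hEc := Ec_nonneg h hX (b := b) hj0
    have hcop : ∀ s : Eis, TT Y a s ≠ 0 → IsCoprime s b ∧ IsCoprime j s := by
      intro s hs
      obtain ⟨m, hm, hne⟩ := Finset.exists_ne_zero_of_sum_ne_zero hs
      by_cases h2 : s ∣ m
      · rw [if_pos h2] at hne
        obtain ⟨h3, h4⟩ := ha m hne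
        exact ⟨h3.of_isCoprime_of_dvd_left h2, h4.of_isCoprime_of_dvd_right h2⟩
      · rw [if_neg h2] at hne
        exact absurd rfl hne
    by_cases z1 : TT Y a t = 0
    · rw [z1]; simp
    by_cases z2 : TT Y a t' = 0
    · rw [z2]; simp
    obtain ⟨c1, c2⟩ := hcop t z1
    obtain ⟨c3, c4⟩ := hcop t' z2
    have hl' := lc_prim p1.2.1 p2.2.1
    have hd : lc t t' ∣ t * t' :=
      (lc_dvd p1.2.1 p2.2.1 _).mpr ⟨dvd_mul_right _ _, dvd_mul_left _ _⟩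
    obtain ⟨g, -, -, -, -, -, hsq⟩ := nm_lc p1.2.1 p2.2.1 p1.2.2 p2.2.2
    have h2 := GDE_cop h hX hj hb hjb hl' ((c1.mul_left c3).of_isCoprime_of_dvd_left hd)
      (cbF_of_sqf hsq) ((c2.mul_right c4).of_isCoprime_of_dvd_right hd)
    have h3 := h2.trans (err_le h hX (b := b) hj p1.2.1 p2.2.1 p1.2.2 p2.2.2)
    have e1 : ((mu t : ℂ) * (mu t' : ℂ) * (TT Y a t * conj (TT Y a t'))) *
        GDE φ X j b (lc t t') -
        ((c : ℂ) * I) * (((mu t : ℂ) * (mu t' : ℂ) * (TT Y a t * conj (TT Y a t'))) *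
          ((nm (lc t t') : ℝ) : ℂ)⁻¹) =
        ((mu t : ℂ) * (mu t' : ℂ) * (TT Y a t * conj (TT Y a t'))) * (GDE φ X j b (lc t t') -
          ((kap0 * PE b * (nm j : ℝ) ^ (-(1 : ℝ) / 3) * (1 / (nm (lc t t') : ℝ)) *
            X ^ (2 / 3 : ℝ) : ℝ) : ℂ) * I) := by
      rw [hc]
      push_cast
      ring
    rw [e1, norm_mul]
    have h4 : ‖(mu t : ℂ) * (mu t' : ℂ) * (TT Y a t * conj (TT Y a t'))‖ ≤
        ‖TT Y a t‖ * ‖TT Y a t'‖ := by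
      rw [norm_mul, norm_mul, norm_mul, RCLike.norm_conj]
      calc ‖(mu t : ℂ)‖ * ‖(mu t' : ℂ)‖ * (‖TT Y a t‖ * ‖TT Y a t'‖)
          ≤ 1 * 1 * (‖TT Y a t‖ * ‖TT Y a t'‖) := by
            have := norm_mu_le t
            have := norm_mu_le t'
            gcongr
        _ = _ := by ring
    calc _ ≤ (‖TT Y a t‖ * ‖TT Y a t'‖) * (Ec a₀ b₀ D X j b *
          (((tau t : ℝ) ^ 2 * (nm t : ℝ) ^ (-(1 : ℝ) / 4)) *
            ((tau t' : ℝ) ^ 2 * (nm t' : ℝ) ^ (-(1 : ℝ) / 4)))) :=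
          mul_le_mul h4 h3 (norm_nonneg _) (by positivity)
      _ = _ := by ring
  -- the truncated double sum
  set A := ∑ t ∈ S E₀, ∑ t' ∈ S E₀, ((mu t : ℂ) * (mu t' : ℂ) *
    (TT Y a t * conj (TT Y a t'))) * ((nm (lc t t') : ℝ) : ℂ)⁻¹ with hA
  set B := ∑ m₁ ∈ S Y, ∑ m₂ ∈ S Y, ((PE (m₁ * m₂) : ℝ) : ℂ) * (a m₁ * conj (a m₂)) with hB
  have h5 : ‖MS φ X j b (DT E₀ Y a) - ((c : ℂ) * I) * A‖ ≤
      Ec a₀ b₀ D X j b * (∑ t ∈ S E₀, (tau t : ℝ) ^ 2 * (nm t : ℝ) ^ (-(1 : ℝ) / 4) *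
        ‖TT Y a t‖) ^ 2 := by
    rw [diag_expand h hX j b hE Y a, hA, Finset.mul_sum, ← Finset.sum_sub_distrib, sq,
      Finset.sum_mul_sum, Finset.mul_sum]
    refine (norm_sum_le _ _).trans (Finset.sum_le_sum fun t ht => ?_)
    rw [Finset.mul_sum, ← Finset.sum_sub_distrib, Finset.mul_sum]
    exact (norm_sum_le _ _).trans (Finset.sum_le_sum fun t' ht' => h1 t ht t' ht')
  have h6 := tail hE hEY (TT Y a) hl
  rw [full_sum hY a] at h6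
  have e2 : MS φ X j b (DT E₀ Y a) - ((c : ℂ) * I) * B =
      (MS φ X j b (DT E₀ Y a) - ((c : ℂ) * I) * A) + ((c : ℂ) * I) * (A - B) := by ring
  rw [e2]
  refine (norm_add_le _ _).trans (add_le_add h5 ?_)
  rw [norm_mul, norm_mul, Complex.norm_real, Real.norm_of_nonneg hc0]
  exact mul_le_mul_of_nonneg_left h6 (by positivity)

end Crest.Agent.R017.DgB829
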