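import Crest.Agent.R017.RstX2_290

/-!
# Row 17, REST, class E (helper290): the real lines of the difference, flat number, longer lump

`ZR` gives `Z ≤ β = 17/100` and `κ ≥ 28/31`: `Z ≤ 1883/10000 k`. The flat lines with this bound.
-/

set_option autoImplicit false
set_option linter.unusedVariables false

noncomputable section

namespace Crest.Agent.R017.RstX290

open Crest.Agent.R017.RnP571 (Dh)
open Crest.Agent.R017.RstQ702 (LR XS K0 tS tS_cases K0_le loss_le)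

/-- **the diagonal, flat number** -/
theorem mF_le3 {k y₃ y₄ u x D t p v m δ b l n T Z : ℝ} (H : Ef k y₃ y₄ u x D t p v m)
    (δ0 : 0 ≤ δ) (b0 : 0 ≤ b) (hl : l ≤ v - 2 * δ + b + t) (hn : n ≤ p - δ - b + t)
    (hZ : Z ≤ 1883 / 10000 * k + t)
    (hT : T ≤ l + n + Z ∨ T ≤ 5 / 3 * n + l / 3) :
    2 / 3 * k - v / 3 + T + 2 * δ - p / 3 ≤ k + p + LR (y₃ + y₄ + u) k D x + 10 * t := by
  obtain ⟨⟨k0, u4, y43, u0, y3, N1, near, x0, adm, d0, d1⟩, t0, t1, m0, p1, p2, p3, v1, v2, v3, v4⟩ := H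
  have hL1 := le_max_left 0 (5 / 4 * (y₃ + y₄ + u) - k)
  have hL2 := le_max_right 0 (5 / 4 * (y₃ + y₄ + u) - k)
  unfold LR
  generalize max 0 (5 / 4 * (y₃ + y₄ + u) - k) = L at *
  rcases hT with hT | hT <;>
  rcases adm with ⟨a0, rfl | a1⟩ | ⟨a1, a2, a3⟩ <;> linarith

/-- **(T1), flat number** -/
theorem tF_le3 {k y₃ y₄ u x D t p v m δ b l n T Z h : ℝ} (H : Ef k y₃ y₄ u x D t p v m)
    (hh : Hc k v p δ (XS (y₃ + y₄ + u) k x) t h)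
    (δ0 : 0 ≤ δ) (b0 : 0 ≤ b) (l0 : 0 ≤ l - b) (hl : l ≤ v - 2 * δ + b + t)
    (hn0 : 0 ≤ n) (hn : n ≤ p - δ - b + t) (hZ : Z ≤ 1883 / 10000 * k + t)
    (hT : T ≤ l + n + Z ∨ T ≤ 5 / 3 * n + l / 3) :
    2 / 3 * k - (h + v) / 3 + T + 2 * δ +
      (v - 2 * δ - (l - b)) / 3 - p / 3 ≤ k + p + LR (y₃ + y₄ + u) k D x + 10 * t := by
  obtain ⟨h1, h2⟩ := hh
  obtain ⟨⟨k0, u4, y43, u0, y3, N1, near, x0, adm, d0, d1⟩, t0, t1, m0, p1, p2, p3, v1, v2, v3,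
    v4⟩ := H
  have hL1 := le_max_left 0 (5 / 4 * (y₃ + y₄ + u) - k)
  have hL2 := le_max_right 0 (5 / 4 * (y₃ + y₄ + u) - k)
  unfold LR
  unfold XS at *
  generalize max 0 (5 / 4 * (y₃ + y₄ + u) - k) = L at *
  rcases hT with hT | hT <;> rcases h2 with ⟨h2, h3⟩ | ⟨h2, h3⟩ <;>
  rcases adm with ⟨a0, rfl | a1⟩ | ⟨a1, a2, a3⟩ <;> linarith

/-- **LS, flat number** -/
theorem sF_le3 {k y₃ y₄ u x D t p v m δ b l n T Z : ℝ} (H : Ef k y₃ y₄ u x D t p v m)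
    (δ0 : 0 ≤ δ) (b0 : 0 ≤ b) (hl : l ≤ v - 2 * δ + b + t) (hn : n ≤ p - δ - b + t)
    (hZ : Z ≤ 1883 / 10000 * k + t) (hT : T ≤ l + n + Z ∨ T ≤ 5 / 3 * n + l / 3) :
    2 / 3 * v + k / 20 + T + 2 * δ - p / 3 ≤ k + p + LR (y₃ + y₄ + u) k D x + 10 * t := by
  obtain ⟨⟨k0, u4, y43, u0, y3, N1, near, x0, adm, d0, d1⟩, t0, t1, m0, p1, p2, p3, v1, v2, v3,
    v4⟩ := H
  have hL1 := le_max_left 0 (5 / 4 * (y₃ + y₄ + u) - k)
  have hL2 := le_max_right 0 (5 / 4 * (y₃ + y₄ + u) - k)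
  unfold LR
  generalize max 0 (5 / 4 * (y₃ + y₄ + u) - k) = L at *
  rcases hT with hT | hT <;>
  rcases adm with ⟨a0, rfl | a1⟩ | ⟨a1, a2, a3⟩ <;> linarith

/-- **L, flat number** -/
theorem lF_le3 {k y₃ y₄ u x D t p v m δ b l n T Z : ℝ} (H : Ef k y₃ y₄ u x D t p v m)
    (δ0 : 0 ≤ δ) (b0 : 0 ≤ b) (hl : l ≤ v - 2 * δ + b + t) (hn : n ≤ p - δ - b + t)
    (hZ : Z ≤ 1883 / 10000 * k + t) (hT : T ≤ l + n + Z ∨ T ≤ 5 / 3 * n + l / 3) :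
    -(k / 3) + 2 / 3 * v + k / 10 + T + 2 * δ - p / 3 ≤
      k + p + LR (y₃ + y₄ + u) k D x + 10 * t := by
  have h := sF_le3 H δ0 b0 hl hn hZ hT
  have := H.hD.k0
  linarith

end Crest.Agent.R017.RstX290
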