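import Crest.Agent.R017.RSTa_405
import Crest.Agent.R017.RstX3_290

/-!
# Row 17, REST, class E (helper290): the real line of the diagonal of a difference

* `shN` : the three numbers of a block (own, flat, bias)
* **`lineH`** : the diagonal line with `shN`
* `LR_smul`
-/

set_option autoImplicit false
set_option linter.unusedVariables false

noncomputable section

namespace Crest.Agent.R017.DgHX290

open Crest.Agent.R017.RnP571 (Dh)
open Crest.Agent.R017.RstQ702 (LR)
open Crest.Agent.R017.RstX290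
open Crest.Agent.R017.RST405 (Fr)
open Crest.Agent.R017.OwA90 (Gt)

/-- the number of a block of a difference: own number of the natural list (longest lump `z`), flat
number of the replaced list (shortest lump `Z`), bias (shortest length `s0`) -/
def shN (d p z Z s0 γ b v : ℝ) : ℝ :=
  max (max (Gt d (v + min b (p - γ)) (max 0 (p - γ - b)) z)
    (max ((v + min b (p - γ)) + max 0 (p - γ - b) + min Z (max 0 (p - γ - b) / 3))
      (5 / 3 * max 0 (p - γ - b) + (v + min b (p - γ)) / 3)))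
    (5 / 3 * p + (2 / 3 * (v + b) - 5 / 3 * (γ + b) - max 0 (s0 - (γ + b))))

/-- **the diagonal** -/
theorem lineH {k y₃ y₄ u x D t p v m γ d b v' z Z s0 : ℝ} (H : Ef k y₃ y₄ u x D t p v m)
    (hd : d = D / k) (γ0 : 0 ≤ γ) (b0 : 0 ≤ b) (v0 : 0 ≤ v') (hv : v' ≤ v - 2 * γ + t)
    (hz : z ≤ y₃ + t) (hZ : Z ≤ 1883 / 10000 * k + t) (hs : 17 / 100 * k - m - t ≤ s0)
    (hR : min (2 * (y₃ + y₄ + u) - k) (3 / 4 * (y₃ + y₄ + u)) + 9 / 4 * x - v ≤ 4 * b + t) :
    2 / 3 * k - v / 3 + shN d p z Z s0 γ b v' + 2 * γ - p / 3 ≤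
      k + p + LR (y₃ + y₄ + u) k D x + 10 * t := by
  have hF : Fr k y₃ y₄ u x D t p v γ d :=
    ⟨H.hD, H.t0, H.t1, H.p3, by have := H.p1; have := H.m0; linarith, H.v1, H.v2, γ0,
      by linarith, hd⟩
  obtain ⟨B, hB, B0, Bb, n0, hn⟩ := hF.blk b0
  have h1 := hF.lineM b0 v0 hv hz (Or.inl hR)
  unfold RST405.Sh at h1
  have t0 := H.t0
  have h2 : 2 / 3 * k - v / 3 + (max ((v' + min b (p - γ)) + max 0 (p - γ - b) +
      min Z (max 0 (p - γ - b) / 3)) (5 / 3 * max 0 (p - γ - b) + (v' + min b (p - γ)) / 3)) +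
      2 * γ - p / 3 ≤ k + p + LR (y₃ + y₄ + u) k D x + 10 * t := by
    refine mF_le3 (b := B) (l := v' + B) (n := p - γ - B) (Z := Z) H γ0 B0 (by linarith)
      (by linarith) hZ ?_
    rw [← hB, hn]
    rcases max_choice ((v' + B) + (p - γ - B) + min Z ((p - γ - B) / 3))
      (5 / 3 * (p - γ - B) + (v' + B) / 3) with h | h
    · left
      rw [h]
      have := min_le_left Z ((p - γ - B) / 3)
      linarith
    · right
      rw [h]
  have h3 : 2 / 3 * k - v / 3 + (5 / 3 * p + (2 / 3 * (v' + b) - 5 / 3 * (γ + b) -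
      max 0 (s0 - (γ + b)))) + 2 * γ - p / 3 ≤ k + p + LR (y₃ + y₄ + u) k D x + 10 * t := by
    have e1 := le_max_left 0 (s0 - (γ + b))
    have e2 := le_max_right 0 (s0 - (γ + b))
    refine mB_le (b := b) (l := v' + b) (s0 := s0) H γ0 b0 (by linarith) hs ?_ ?_
    · linarith
    · linarith
  unfold shN
  rcases max_choice (max (Gt d (v' + min b (p - γ)) (max 0 (p - γ - b)) z)
    (max ((v' + min b (p - γ)) + max 0 (p - γ - b) + min Z (max 0 (p - γ - b) / 3))
      (5 / 3 * max 0 (p - γ - b) + (v' + min b (p - γ)) / 3)))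
    (5 / 3 * p + (2 / 3 * (v' + b) - 5 / 3 * (γ + b) - max 0 (s0 - (γ + b)))) with h | h
  · rw [h]
    rcases max_choice (Gt d (v' + min b (p - γ)) (max 0 (p - γ - b)) z)
      (max ((v' + min b (p - γ)) + max 0 (p - γ - b) + min Z (max 0 (p - γ - b) / 3))
      (5 / 3 * max 0 (p - γ - b) + (v' + min b (p - γ)) / 3)) with h' | h'
    · rw [h']; exact h1
    · rw [h']; exact h2
  · rw [h]; exact h3

lemma LR_smul {N k D x L : ℝ} (hL : 0 ≤ L) : LR (N * L) (k * L) (D * L) (x * L) = LR N k D x * L := by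
  unfold LR
  have h : max 0 (5 / 4 * (N * L) - k * L) = max 0 (5 / 4 * N - k) * L := by
    rw [max_mul_of_nonneg _ _ hL, zero_mul]
    congr 1
    ring
  rw [h]
  ring

end Crest.Agent.R017.DgHX290
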