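import Crest.Agent.R017.DgHA_290

/-!
# Row 17, REST, class E (helper290): the real lines of the T-numbers of a difference

* `hc_near`, `hc_far` : the two ranges of `H`
* **`lineT_H`**, **`lineS_H`** : the T-line and the LS-line with `shN`
-/

set_option autoImplicit false
set_option linter.unusedVariables false

noncomputable section

namespace Crest.Agent.R017.DgHX290

open Crest.Agent.R017.RnP571 (Dh)
open Crest.Agent.R017.RstQ702 (LR XS tS)
open Crest.Agent.R017.RstX290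
open Crest.Agent.R017.RST405 (Fr Gt_le)
open Crest.Agent.R017.OwA90 (Gt)

/-- the near range -/
lemma hc_near {k y₃ y₄ u x D t p v m γ s h : ℝ} (H : Ef k y₃ y₄ u x D t p v m) (γ1 : γ ≤ k / 6 + t)
    (h1 : k / 64 - t ≤ h) (h2 : 4 / 3 * (p - γ) - k + s - t ≤ h) : Hc k v p γ s t h := by
  refine ⟨?_, Or.inl ⟨h1, h2⟩⟩
  obtain ⟨⟨k0, u4, y43, u0, y3, N1, near, x0, adm, d0, d1⟩, t0, t1, m0, p1, p2, p3, v1, v2, v3,
    v4⟩ := H
  rcases adm with ⟨a0, rfl | a1⟩ | ⟨a1, a2, a3⟩ <;> linarith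

/-- the far range -/
lemma hc_far {k y₃ y₄ u x D t p v m γ h : ℝ} (H : Ef k y₃ y₄ u x D t p v m) (γ1 : k / 6 - t ≤ γ)
    (h1 : k + γ - 2 * v - t ≤ h) : Hc k v p γ (XS (y₃ + y₄ + u) k x) t h := by
  refine ⟨?_, Or.inr ⟨γ1, h1⟩⟩
  obtain ⟨⟨k0, u4, y43, u0, y3, N1, near, x0, adm, d0, d1⟩, t0, t1, m0, p1, p2, p3, v1, v2, v3,
    v4⟩ := H
  have hL1 := le_max_left 0 (5 / 4 * (y₃ + y₄ + u) - k)
  unfold XS
  generalize max 0 (5 / 4 * (y₃ + y₄ + u) - k) = L at *
  rcases adm with ⟨a0, rfl | a1⟩ | ⟨a1, a2, a3⟩ <;> linarith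

lemma shN_le {d p z Z s0 γ b v A : ℝ}
    (h1 : Gt d (v + min b (p - γ)) (max 0 (p - γ - b)) z ≤ A)
    (h2 : (v + min b (p - γ)) + max 0 (p - γ - b) + Z ≤ A ∨
      (v + min b (p - γ)) + max 0 (p - γ - b) + min Z (max 0 (p - γ - b) / 3) ≤ A)
    (h3 : 5 / 3 * max 0 (p - γ - b) + (v + min b (p - γ)) / 3 ≤ A)
    (h4 : 5 / 3 * p + (2 / 3 * (v + b) - 5 / 3 * (γ + b) - max 0 (s0 - (γ + b))) ≤ A) :
    shN d p z Z s0 γ b v ≤ A := by
  unfold shN
  refine max_le (max_le h1 (max_le ?_ h3)) h4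
  rcases h2 with h2 | h2
  · have := min_le_left Z (max 0 (p - γ - b) / 3)
    linarith
  · exact h2

/-- **the T-line** -/
theorem lineT_H {k y₃ y₄ u x D t p v m γ d b w z Z s0 h : ℝ} (H : Ef k y₃ y₄ u x D t p v m)
    (hd : d = D / k) (hh : Hc k v p γ (XS (y₃ + y₄ + u) k x) t h) (γ0 : 0 ≤ γ) (b0 : 0 ≤ b)
    (w0 : 0 ≤ w) (hw : w ≤ v - 2 * γ + t) (hz : z ≤ y₃ + t) (hZ : Z ≤ 1883 / 10000 * k + t)
    (hs : 17 / 100 * k - m - t ≤ s0) :
    2 / 3 * k - h / 3 + shN d p z Z s0 γ b w + 4 / 3 * γ - w / 3 - p / 3 ≤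
      k + p + LR (y₃ + y₄ + u) k D x + 10 * t := by
  have hF : Fr k y₃ y₄ u x D t p v γ d :=
    ⟨H.hD, H.t0, H.t1, H.p3, by have := H.p1; have := H.m0; linarith, H.v1, H.v2, γ0,
      by linarith, hd⟩
  obtain ⟨B, hB, B0, Bb, n0, hn⟩ := hF.blk b0
  have t0 := H.t0
  have hl := hF.loss (n := p - γ - B) (by linarith)
  have hg := Gt_le (d := d) (l := w + B) (n := p - γ - B) (z := z) (by rw [← hn]; exact n0) hF.d0
  have key : shN d p z Z s0 γ b w ≤ k + p + LR (y₃ + y₄ + u) k D x + 10 * t -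
      (2 / 3 * k - h / 3 + 4 / 3 * γ - w / 3 - p / 3) := by
    refine shN_le ?_ (Or.inl ?_) ?_ ?_
    · rw [← hB, hn]
      rcases hg with hg | hg
      · -- flat term `l + n` with the loss
        obtain ⟨w1, w2, w3, w4⟩ := hF.v_le
        obtain ⟨h1, h2⟩ := hh
        obtain ⟨⟨k0, u4, y43, u0, y3, N1, near, x0, adm, d0, d1⟩, t0, t1, m0, p1, p2, p3, v1, v2,
          v3, v4⟩ := H
        have hL1 := le_max_left 0 (5 / 4 * (y₃ + y₄ + u) - k)
        unfold LR
        unfold XS at *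
        generalize max 0 (5 / 4 * (y₃ + y₄ + u) - k) = L at *
        generalize Gt d (w + B) (p - γ - B) z = G at *
        generalize 2 / 3 * d * (p - γ - B) = W at *
        rcases h2 with ⟨h2, h3⟩ | ⟨h2, h3⟩ <;>
          rcases adm with ⟨a0, rfl | a1⟩ | ⟨a1, a2, a3⟩ <;> linarith
      · have h1 := tN_le (b := B) (l := w + B) (n := p - γ - B) (z := z) H hh γ0 B0 (by linarith)
          (by linarith) (by rw [← hn]; exact n0) (by linarith) hz
        rw [← hd] at h1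
        linarith
    · rw [← hB, hn]
      have h1 := tF_le3 (b := B) (l := w + B) (n := p - γ - B) (Z := Z) H hh γ0 B0 (by linarith)
        (by linarith) (by rw [← hn]; exact n0) (by linarith) hZ (Or.inl le_rfl)
      linarith
    · rw [← hB, hn]
      have h1 := tF_le3 (b := B) (l := w + B) (n := p - γ - B) (Z := Z) H hh γ0 B0 (by linarith)
        (by linarith) (by rw [← hn]; exact n0) (by linarith) hZ (Or.inr le_rfl)
      linarith
    · have e1 := le_max_left 0 (s0 - (γ + b))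
      have e2 := le_max_right 0 (s0 - (γ + b))
      have h1 := tB_le (b := b) (l := w + b) (s0 := s0)
        (T := 5 / 3 * p + (2 / 3 * (w + b) - 5 / 3 * (γ + b) - max 0 (s0 - (γ + b)))) H hh γ0 b0
        (by linarith) (by linarith) hs (by linarith) (by linarith)
      linarith
  linarith

/-- **the LS-line** -/
theorem lineS_H {k y₃ y₄ u x D t p v m γ d b w z Z s0 : ℝ} (H : Ef k y₃ y₄ u x D t p v m)
    (hd : d = D / k) (γ0 : 0 ≤ γ) (b0 : 0 ≤ b)
    (w0 : 0 ≤ w) (hw : w ≤ v - 2 * γ + t) (hz : z ≤ y₃ + t) (hZ : Z ≤ 1883 / 10000 * k + t)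
    (hs : 17 / 100 * k - m - t ≤ s0) :
    2 / 3 * v + k / 20 + shN d p z Z s0 γ b w + 2 * γ - p / 3 ≤
      k + p + LR (y₃ + y₄ + u) k D x + 10 * t := by
  have hF : Fr k y₃ y₄ u x D t p v γ d :=
    ⟨H.hD, H.t0, H.t1, H.p3, by have := H.p1; have := H.m0; linarith, H.v1, H.v2, γ0,
      by linarith, hd⟩
  obtain ⟨B, hB, B0, Bb, n0, hn⟩ := hF.blk b0
  have t0 := H.t0
  have h0 := hF.lineS b0 w0 hw hz
  unfold RST405.Sh at h0
  have key : shN d p z Z s0 γ b w ≤ k + p + LR (y₃ + y₄ + u) k D x + 10 * t -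
      (2 / 3 * v + k / 20 + 2 * γ - p / 3) := by
    refine shN_le ?_ (Or.inl ?_) ?_ ?_
    · linarith
    · rw [← hB, hn]
      have h1 := sF_le3 (b := B) (l := w + B) (n := p - γ - B) (Z := Z) H γ0 B0
        (by linarith) (by linarith) hZ (Or.inl le_rfl)
      linarith
    · rw [← hB, hn]
      have h1 := sF_le3 (b := B) (l := w + B) (n := p - γ - B) (Z := Z) H γ0 B0
        (by linarith) (by linarith) hZ (Or.inr le_rfl)
      linarith
    · have e1 := le_max_left 0 (s0 - (γ + b))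
      have e2 := le_max_right 0 (s0 - (γ + b))
      have h1 := sB_le (b := b) (l := w + b) (s0 := s0)
        (T := 5 / 3 * p + (2 / 3 * (w + b) - 5 / 3 * (γ + b) - max 0 (s0 - (γ + b)))) H γ0 b0
        (by linarith) hs (by linarith) (by linarith)
      linarith
  linarith

end Crest.Agent.R017.DgHX290
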