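import Crest.Agent.R017.Hi4_54

/-!
# Row 17, exceptional class, REST of StrUX (helper50), part 1: texts and the child

The `e`-range `(e1, e0]` of the structured function of the double difference, one level.

* `SfDX` : `SfEV` at `e0` minus `SfEV` at `e1`
* `HndX`, **`HNDX`** : the plain second moment of one level of one difference, `e`-range
* **`HiDX`** : the plain second moment of one level of `SfDX`
* `dif_pt`, `dif_childD` : one powerful tuple by the child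
-/

set_option autoImplicit false

noncomputable section

open Finset
open scoped ComplexConjugate

namespace Crest.Agent.R017.HiD50

open Crest.Agent.R012 Crest.Agent.R012.Eis
open Crest.Agent.R012.Mob705 hiding pb mem_pb
open Crest.Agent.R012.LS2 (S mem_S)
open Crest.Agent.R012.Weight600 (osc osc_add_right norm_osc)
open Crest.Agent.R017.CM106 Crest.Agent.R017.C70
open Crest.Agent.R017.FE47 (PU cx SM)
open Crest.Agent.R017.StD828 (ln Tm)
open Crest.Agent.R017.E2440 (TE StE)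
open Crest.Agent.R017.E5k54 (PT alb)
open Crest.Agent.R017.SSb54 (SST SSb PTb mem_PTb PTb_sub)
open Crest.Agent.R017.P1e54 Crest.Agent.R017.P1f54 Crest.Agent.R017.P1h54
open Crest.Agent.R017.P1i54 Crest.Agent.R017.P1k54
open Crest.Agent.R017.P1l54 hiding nO
open Crest.Agent.R017.HP842 (Pc pc al alL cv Tu mem_Tu sqc Th)
open Crest.Agent.R017.B770 Crest.Agent.R017.Prov71
open Crest.Agent.R017.XG702 (Pcs)
open Crest.Agent.R017.XT71 (Sys Win mx mx_le le_mx)
open Crest.Agent.R017.UM71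
open Crest.Agent.R017.E5P571 (PB mem_PB PC)
open Crest.Agent.R017.E5B71 Crest.Agent.R017.E5L770
open Crest.Agent.R017.ExBox960 Crest.Agent.R017.ExP960
open Crest.Agent.R017.Sf770
open Crest.Agent.R017.E5LX770 (SfEV SfEOV bfE atEV)
open Crest.Agent.R017.P1X960
open Crest.Agent.R017.Rough381 (sh)
open Crest.Agent.R017.Hi454

/-! ### the texts -/

section
variable {Λ : Type*} (π : Λ → DPar) (h : ℝ → ℝ) (e1 e0 : ℝ)

/-- **the part with `e > e1`** of the structured function of the double difference, one level -/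
def SfDX (r : ℝ) (Bf : ℝ → ℝ → ℝ → ℝ) (Jf : ℝ → ℝ → ℝ → Finset (Eis × Eis)) (i : ℕ) :
    SFX Λ := fun lam t l ps Z Z' z k =>
  SfEV π h e0 r Bf Jf i lam t l ps Z Z' z k - SfEV π h e1 r Bf Jf i lam t l ps Z Z' z k

open Classical in
/-- **the plain second moment of one level** (`a.2`) **of one difference**, `e`-range
`(e1 κ, e0 κ]`, gated: `a.2 < nO` -/
def HndX (R : Λ → ℝ) (lam : Λ × Eis) (a : BcX × ℕ) (_ : List Pq) : ℝ :=
  if okCX (π lam.1) lam.2 a.1 [] ∧ okD a.1 ∧ a.2 < nO a.1.1.toBd then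
    M2 (uM (R lam.1) (Real.exp a.1.1.l) (Real.exp (a.1.1.l / 20))) (fun k =>
      StE (Real.exp (e0 * a.1.1.l)) (JS (nO a.1.1.toBd)) (omL a.2)
        (xD h (π lam.1) lam.2 a.1.2.1 (dz a.1.1) []) k -
      StE (Real.exp (e1 * a.1.1.l)) (JS (nO a.1.1.toBd)) (omL a.2)
        (xD h (π lam.1) lam.2 a.1.2.1 (dz a.1.1) []) k)
  else 0

/-- **HNDX** : the plain second moment of one level of one difference, `e`-range -/
def HNDX (c β : ℝ) (Par : Set (Fin 3 ⊕ Fin 5 → ℝ)) (lo hi LH : (Fin 3 ⊕ Fin 5 → ℝ) → ℝ) : Prop :=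
  ∀ R : Λ → ℝ, (∀ lam, 0 ≤ R lam) → UB (lev (Real.log 2) S8X) Dq (HndX π h e1 e0 R)
    (DomHX c β Par lo hi) ∅ (EHX LH)

open Classical in
/-- **HiDX** : all levels between `lo` and `hi` (gated) -/
def HiDX (r c β : ℝ) (Par : Set (Fin 3 ⊕ Fin 5 → ℝ)) (lo hi LH : (Fin 3 ⊕ Fin 5 → ℝ) → ℝ)
    (al : Set ((Option IX5 → ℝ) × ℝ)) : Prop :=
  ∀ R : Λ → ℝ, (∀ lam, 0 ≤ R lam) → UB (lev (Real.log 2) S5X) Dq
    (fun lam (a : BdX × ℕ) _ => if a.2 < nL a.1.l (a3 a.1.toBd) a.1.z then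
      HiFX π (SfDX π h e1 e0 r (bfE c a.2) (fun l N z => JS (nL l N z)) a.2) R lam a.1 else 0)
    {q | (fun p : IX5 → ℝ => prX p ∈ Par ∧ ZR β p ∧ lo (prX p) ≤ q.1 none ∧
      q.1 none ≤ hi (prX p)) fun i => q.1 (some i)} al
    (fun q => (fun p : IX5 → ℝ => cκ (prX p) + cN (prX p) + LH (prX p)) fun i => q.1 (some i))

end

/-! ### the child -/

section
variable {P : DPar} {t₀ : Eis} {a : BdX} {β : Fin 3 → Eis}

/-- **one powerful tuple by the child**, pointwise: one factor for all `E0` -/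
theorem dif_pt {h : ℝ → ℝ} {R : ℝ} (hR : ∀ u, cx h u ≠ 0 → |u| ≤ R) (hP : P.OK) (ha : a.ok)
    (hβ : ∀ i, IsPrim (β i)) {J : Finset (Eis × Eis)} (hJ : ∀ x ∈ J, x.1 ≠ 0)
    (om : Eis × Eis → ℂ) : ∃ z : ℂ, ‖z‖ ≤ 1 ∧ ∀ (E0 : ℝ) (k : Eis),
      ph a * StE E0 J om (alb (fun j => pc h (Pt P t₀ (u3 a j))) β) k -
        ph' a * StE E0 J om (alb (fun j => pc h (Pt P t₀ (u3' a j))) β) k =
      z * StE E0 J om (xD h P t₀ (vX a hβ) (dz a) []) k := by
  classical
  have hs := fun j => Pt_OK hP t₀ (u3 a j)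
  have hs' := fun j => Pt_OK hP t₀ (u3' a j)
  have hA : FS (sqc 1 (al h (ch1 (fun j => Pt P t₀ (u3 a j)) β (fun _ => 1) 1))) :=
    FS_sqc_al hR (ch1_OK hs hβ (x := fun _ => 1) (fun _ => isPrim_one) 1) 1
  have hB : FS (sqc 1 (al h (ch1 (fun j => Pt P t₀ (u3' a j)) β (fun _ => 1) 1))) :=
    FS_sqc_al hR (ch1_OK hs' hβ (x := fun _ => 1) (fun _ => isPrim_one) 1) 1
  have hk := norm_k1_le hs hβ (x := fun _ => 1) (fun _ => isPrim_one) 1
  have hw : ‖wX a β‖ = 1 := norm_wX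
  have hw0 : wX a β ≠ 0 := by
    intro h0
    rw [h0, norm_zero] at hw
    exact one_ne_zero hw.symm
  refine ⟨k1 (fun j => Pt P t₀ (u3 a j)) β (fun _ => 1) 1 / wX a β, ?_, fun E0 k => ?_⟩
  · rw [norm_div, hw, div_one]
    exact hk
  rw [xD_child ha hβ, alb_eq hs hβ, alb_eq hs' hβ, k1_rep]
  set A := sqc 1 (al h (ch1 (fun j => Pt P t₀ (u3 a j)) β (fun _ => 1) 1)) with hAd
  set B := sqc 1 (al h (ch1 (fun j => Pt P t₀ (u3' a j)) β (fun _ => 1) 1)) with hBd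
  set κ := k1 (fun j => Pt P t₀ (u3 a j)) β (fun _ => 1) 1 with hκ
  have e1 : ∀ F : Eis → ℂ, FS F → StE E0 J om (κ • F) k = κ * StE E0 J om F k := by
    intro F hF
    have h1 := StE_cmb hF hF κ 0 E0 hJ om k
    rw [zero_mul, add_zero] at h1
    rw [← h1]
    congr 1
    unfold cmb
    rw [zero_smul, add_zero]
  rw [e1 A hA, e1 B hB, StE_cmb hA hB _ _ E0 hJ om k]
  field_simp
  ring

/-- **one powerful tuple by the child**, `e`-range -/
theorem dif_childD {h : ℝ → ℝ} {R : ℝ} (hR : ∀ u, cx h u ≠ 0 → |u| ≤ R) (hP : P.OK) (ha : a.ok)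
    (hβ : ∀ i, IsPrim (β i)) {u : Eis → ℝ} (h0 : ∀ k, 0 ≤ u k)
    (hu : (Function.support u).Finite) {J : Finset (Eis × Eis)}
    (hJ : ∀ x ∈ J, x.1 ≠ 0) (E0 E1 : ℝ) (om : Eis × Eis → ℂ) :
    M2 u (fun k =>
      (ph a * StE E0 J om (alb (fun j => pc h (Pt P t₀ (u3 a j))) β) k -
        ph' a * StE E0 J om (alb (fun j => pc h (Pt P t₀ (u3' a j))) β) k) -
      (ph a * StE E1 J om (alb (fun j => pc h (Pt P t₀ (u3 a j))) β) k -
        ph' a * StE E1 J om (alb (fun j => pc h (Pt P t₀ (u3' a j))) β) k)) ≤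
      M2 u (fun k => StE E0 J om (xD h P t₀ (vX a hβ) (dz a) []) k -
        StE E1 J om (xD h P t₀ (vX a hβ) (dz a) []) k) := by
  obtain ⟨z, hz, key⟩ := dif_pt (t₀ := t₀) hR hP ha hβ hJ om
  refine M2_mono h0 hu fun k => ?_
  rw [key E0 k, key E1 k, ← mul_sub, norm_mul]
  exact mul_le_of_le_one_left (norm_nonneg _) hz

end

end Crest.Agent.R017.HiD50
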