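import Crest.Agent.R017.HX1_72
import Crest.Agent.R017.HiDXa_50

/-!
# Row 17, exceptional class, REST of StrUX (helper72), part 2: `HNDX` from the numbers

* `UBc` : `UB` with a constant
* `TnHX`, `RnHX`, `DgHX` : T-numbers, R-numbers, diagonal
* `alL_supp`, `xD_supp` : supports
* **`hndx_of`** : `HNDX` from them
-/

set_option autoImplicit false

noncomputable section

open Finset
open scoped Classical ComplexConjugate ContDiff

namespace Crest.Agent.R017.HX72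

open Crest.Agent.R012 Crest.Agent.R012.Eis Crest.Agent.R012.Div277
open Crest.Agent.R012.MC (Wgt)
open Crest.Agent.R012.LS2 (S mem_S bl)
open Crest.Agent.R012.Weight600 (pw)
open Crest.Agent.R017.CM106 (CS FS)
open Crest.Agent.R017.C70 (JC OKJ JW okJ_JW CbF)
open Crest.Agent.R017.HP842 (Pc pc sqc alL cvL Th alL_cons)
open Crest.Agent.R017.B770
open Crest.Agent.R017.FE47 (PU cx SM)
open Crest.Agent.R017.Prov71
open Crest.Agent.R017.E2440 (StE TE StT)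
open Crest.Agent.R017.E3M829 (TC Tal Cut)
open Crest.Agent.R017.E3F548
open Crest.Agent.R017.E3Z548
open Crest.Agent.R017.E3Kc548 Crest.Agent.R017.E3Ke548
open Crest.Agent.R017.Mode405 (Slp)
open Crest.Agent.R017.E3Hi290 (RN2XF RN2XF_nonneg)
open Crest.Agent.R017.PoHx72 (Cls)
open Crest.Agent.R017.ROX744 (PrU)
open Crest.Agent.R017.PX764 (th Gh n6)
open Crest.Agent.R017.R3571 (RMm)
open Crest.Agent.R017.HSep813 (gw)
open Crest.Agent.R017.TP320 (conv mul_div_of_mem)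
open Crest.Agent.R017.XG702 (Pcs)
open Crest.Agent.R017.XT71 (Sys Win mx)
open Crest.Agent.R017.UM71
open Crest.Agent.R017.E5B71 Crest.Agent.R017.E5P571 Crest.Agent.R017.E5L770
open Crest.Agent.R017.ExBox960 Crest.Agent.R017.ExP960
open Crest.Agent.R017.Sf770
open Crest.Agent.R017.P1e54 Crest.Agent.R017.P1f54 Crest.Agent.R017.P1k54
open Crest.Agent.R017.P1l54 (ParOK)
open Crest.Agent.R017.P1X960
open Crest.Agent.R017.Hi454 (DomHX EHX)
open Crest.Agent.R017.HiD50 (HndX HNDX)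

/-- `UB` with a constant `cc ≥ 1` -/
def UBc {Λ A ι Pc' τ : Type*} [DecidableEq τ] (S : Sys A ι) (D : Pcs Pc' τ)
    (Ψ : ℝ → Λ → A → List Pc' → ℝ) (Dom : Set ((ι → ℝ) × (τ → ℝ))) (al : Set ((ι → ℝ) × ℝ))
    (E : (ι → ℝ) × (τ → ℝ) → ℝ) : Prop :=
  ∀ ε : ℝ, 0 < ε → ∃ δ : ℝ, 0 < δ ∧ ∀ (lam : Λ) (N : ℕ) (B : ℝ), ∀ cc : ℝ, 1 ≤ cc →
    ∃ δ' : ℝ, 0 < δ' ∧ ∃ X₀ : ℝ, 1 < X₀ ∧ ∀ X : ℝ, X₀ ≤ X → ∀ (a : A) (ps : List Pc'),
      ps.length ≤ N → (∀ p ∈ ps, D.lump p ∨ D.nl X p ≤ δ) → ∀ q ∈ Dom, Win S q.1 δ N B δ' X a →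
      (∀ t, |D.mass X ps t - q.2 t| ≤ δ) → D.Good X δ' B ps →
      (∀ p ∈ ps, D.lump p → (S.ev X a, D.nl X p) ∈ al) → Ψ cc lam a ps ≤ X ^ (E q + ε)

/-- the exponent of `H` for `δ ≤ k/6` (= `RstX290.hX`) -/
def hXx (k p δ s : ℝ) : ℝ := max (k / 64) (4 / 3 * (p - δ) - k + s)

section
variable {Λ : Type*} (π : Λ → DPar) (h : ℝ → ℝ)

/-- admissible data of one level -/
def okH (lam : Λ × Eis) (a : BcX × ℕ) : Prop :=
  okCX (π lam.1) lam.2 a.1 [] ∧ okD a.1 ∧ a.2 < nO a.1.1.toBd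

/-- the sequence -/
def alH (lam : Λ × Eis) (a : BcX × ℕ) : Eis → ℂ := xD h (π lam.1) lam.2 a.1.2.1 (dz a.1.1) []

/-- its length (= `LN (clN a.1 [])`) -/
def pfH (a : BcX × ℕ) : ℝ := ((List.ofFn a.1.2.1 ++ []).map fun p : Pq => p.z).sum

/-- `H` (290's choice): `exp (hX ..)` for `nm d ≤ K^(1/6)`, else `K nm d / (e cc V²)` -/
def HhX (cc : ℝ) (a : BcX × ℕ) (i : ℕ) (d : Eis) : ℝ :=
  if Real.log (nm d) ≤ a.1.1.l / 6 then
    Real.exp (hXx a.1.1.l (pfH a) (Real.log (nm d))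
      (9 / 4 * a.1.1.z - 3 * max 0 (5 / 4 * a3 a.1.1.toBd - a.1.1.l)))
  else Real.exp (a.1.1.l + Real.log (nm d) - 2 * i - (Real.log cc + 1))

lemma HhX_pos {cc : ℝ} (a : BcX × ℕ) (i : ℕ) (d : Eis) : 0 < HhX cc a i d := by
  unfold HhX
  split_ifs <;> exact Real.exp_pos _

/-- the range of the levels -/
def LIH (a : BcX × ℕ) : Finset ℕ := LI (2 ^ a.2 / 4) (2 ^ a.2 * 2)

/-- the square parts -/
def DsH (a : BcX × ℕ) : Finset Eis := (J2 (nO a.1.1.toBd) a.2).image Prod.fst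

/-- the `e`-range -/
def EEH (e1 e0 : ℝ) (a : BcX × ℕ) : Finset Eis :=
  (S (Real.exp (e0 * a.1.1.l))).filter (QE (Real.exp (e1 * a.1.1.l)))

/-- size of everything -/
def ZH (a : BcX × ℕ) : ℝ := Real.exp (3 * a.1.1.l)

/-- the T-part of one level -/
def TpH (e1 e0 : ℝ) (cc : ℝ) (lam : Λ × Eis) (a : BcX × ℕ) (_ : List Pq) : ℝ :=
  if okH π lam a then ∑ f ∈ EEH e1 e0 a, ∑ i ∈ LIH a, ∑ d ∈ DsH a,
    (nm f : ℝ)⁻¹ * LVn (fun d _ n => alH π h lam a (d * n)) {d} {f} cc (ZH a ^ 5)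
      (Real.exp a.1.1.l) (HhX cc a i d) (Real.exp i) (Real.exp i) (Real.exp (a.1.1.l / 20)) 1 1 0
  else 0

/-- the diagonal of one level -/
def DpH (e1 e0 : ℝ) (lam : Λ × Eis) (a : BcX × ℕ) (_ : List Pq) : ℝ :=
  if okH π lam a then DgS (nO a.1.1.toBd) a.2 (alH π h lam a) (Real.exp (e0 * a.1.1.l))
    (Real.exp (e1 * a.1.1.l)) (Real.exp (a.1.1.l / 20)) (Real.exp a.1.1.l) else 0

variable (e1 e0 c β : ℝ) (Par : Set (Fin 3 ⊕ Fin 5 → ℝ)) (lo hi LH : (Fin 3 ⊕ Fin 5 → ℝ) → ℝ)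

/-- **T-numbers** -/
def TnHX : Prop := UBc (lev (Real.log 2) S8X) Dq (TpH π h e1 e0) (DomHX c β Par lo hi) ∅ (EHX LH)

/-- **diagonal** -/
def DgHX : Prop := UB (lev (Real.log 2) S8X) Dq (DpH π h e1 e0) (DomHX c β Par lo hi) ∅ (EHX LH)

/-- **R-numbers** -/
def RnHX : Prop :=
  ∀ ε : ℝ, 0 < ε → ∃ δ : ℝ, 0 < δ ∧ ∀ (lam : Λ × Eis) (N : ℕ) (B : ℝ), ∃ a₁ A₀ : ℕ,
    ∀ A₁ : ℕ, A₀ ≤ A₁ → ∀ cc : ℝ, 1 ≤ cc →
    ∃ δ' : ℝ, 0 < δ' ∧ ∃ X₀ : ℝ, 1 < X₀ ∧ ∀ X : ℝ, X₀ ≤ X → ∀ (a : BcX × ℕ) (ps : List Pq),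
      ps.length ≤ N → (∀ p ∈ ps, Dq.lump p ∨ Dq.nl X p ≤ δ) → ∀ q ∈ DomHX c β Par lo hi,
      Win (lev (Real.log 2) S8X) q.1 δ N B δ' X a →
      (∀ t, |Dq.mass X ps t - q.2 t| ≤ δ) → Dq.Good X δ' B ps →
      (∀ p ∈ ps, Dq.lump p → ((lev (Real.log 2) S8X).ev X a, Dq.nl X p) ∈
        (∅ : Set ((Option I8X → ℝ) × ℝ))) → okH π lam a →
      (∀ i ∈ LIH a, ∀ d ∈ DsH a,
        cc * (HhX cc a i d * Real.exp i ^ 2) ≤ Real.exp a.1.1.l * Real.exp (pfH a)) ∧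
      ∃ (u : Eis) (W0 : ℕ → Bool → Eis → Eis → ℝ → ℝ), u ≠ 0 ∧
        (∀ n, alH π h lam a n ≠ 0 → IsCoprime u n) ∧ (∀ i jj d f, Slp a₁ (W0 i jj d f)) ∧
        (∀ i ∈ LIH a, ∀ jj, ∀ d ∈ DsH a, ∀ f ∈ EEH e1 e0 a, ∀ γ π',
          IsPrim γ → IsPrim π' → (nm π' : ℝ) ≤ cc * ZH a ^ 300 → ∀ P : ℝ, 0 < P →
          (nm γ : ℝ) * n6 γ ^ 2 * ∑ r ∈ (bl P).filter (Cls (PrU u) jj),
            RMm A₁ (fun n => alH π h lam a (d * n)) f γ π' r ≤ W0 i jj d f P) ∧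
        ∑ f ∈ EEH e1 e0 a, ∑ i ∈ LIH a, ∑ d ∈ DsH a, (nm f : ℝ)⁻¹ *
          (FH (Real.exp a.1.1.l) (HhX cc a i d) (Real.exp i) *
            RN2XF cc (Real.exp a.1.1.l) (Real.exp i) (Real.exp (pfH a)) (fun d _ => HhX cc a i d)
              (W0 i) d f) ≤
          X ^ (EHX LH q + ε)

end

/-! ### supports -/

lemma alL_supp {h : ℝ → ℝ} {R : ℝ} (hR : ∀ u, cx h u ≠ 0 → |u| ≤ R) (ps : List Pc) {n : Eis}
    (hn : alL h ps n ≠ 0) :
    IsPrim n ∧ |Real.log (nm n) - (ps.map fun p : Pc => Real.log p.Y).sum| ≤ ps.length * R := by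
  induction ps generalizing n with
  | nil =>
    have h1 : n = 1 := by
      by_contra h0
      exact hn (HP842.dl_ne h0)
    subst h1
    refine ⟨isPrim_one, ?_⟩
    rw [nm_one]
    simp
  | cons p ps ih =>
    have e : alL h (p :: ps) n = ∑ d ∈ dvs n, pc h p d * alL h ps (n / d) := rfl
    rw [e] at hn
    obtain ⟨d, hd, h1⟩ := Finset.exists_ne_zero_of_sum_ne_zero hn
    have h2' : pc h p d ≠ 0 := left_ne_zero_of_mul h1
    obtain ⟨h2, h3⟩ : IsPrim d ∧ |Real.log (nm d) - Real.log p.Y| ≤ R := by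
      unfold HP842.pc at h2'
      split_ifs at h2' with hp
      · refine ⟨hp, ?_⟩
        have h2 : gw h p.Y p.t d ≠ 0 := right_ne_zero_of_mul h2'
        unfold gw at h2
        exact hR _ (right_ne_zero_of_mul h2)
      · exact absurd rfl h2'
    obtain ⟨h4, h5⟩ := ih (right_ne_zero_of_mul h1)
    have h6 := mul_div_of_mem hd
    have hd0 : (nm d : ℝ) ≠ 0 := by
      have := nm_pos.2 h2.ne_zero
      exact_mod_cast this.ne'
    have hq0 : (nm (n / d) : ℝ) ≠ 0 := by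
      have := nm_pos.2 h4.ne_zero
      exact_mod_cast this.ne'
    constructor
    · rw [← h6]; exact h2.mul h4
    · have h7 : Real.log (nm n) = Real.log (nm d) + Real.log (nm (n / d)) := by
        conv_lhs => rw [← h6, nm_mul]
        push_cast
        exact Real.log_mul hd0 hq0
      rw [h7, List.map_cons, List.sum_cons, List.length_cons]
      push_cast
      have h8 : Real.log (nm d) + Real.log (nm (n / d)) -
          (Real.log p.Y + (ps.map fun p : Pc => Real.log p.Y).sum) =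
          (Real.log (nm d) - Real.log p.Y) +
            (Real.log (nm (n / d)) - (ps.map fun p : Pc => Real.log p.Y).sum) := by ring
      rw [h8]
      refine (abs_add_le _ _).trans ?_
      linarith

lemma sqc1_supp {h : ℝ → ℝ} {R : ℝ} (hR : ∀ u, cx h u ≠ 0 → |u| ≤ R) (P : DPar) (t : Eis)
    (vs : Fin 3 → Pq) {n : Eis} (hn : sqc 1 (alL h ((List.ofFn vs ++ []).map (Pt P t))) n ≠ 0) :
    Squarefree n ∧ |Real.log (nm n) - ((vs 0).z + (vs 1).z + (vs 2).z)| ≤ 3 * R := by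
  have h1 : Th 1 n ≠ 0 := left_ne_zero_of_mul hn
  unfold Th at h1
  split_ifs at h1 with h2
  · refine ⟨h2.1, ?_⟩
    obtain ⟨-, h4⟩ := alL_supp hR _ (right_ne_zero_of_mul hn)
    have e1 : (((List.ofFn vs ++ []).map (Pt P t)).map fun p : Pc => Real.log p.Y).sum =
        (vs 0).z + (vs 1).z + (vs 2).z := by
      have e2 : ∀ p : Pq, Real.log (Pt P t p).Y = p.z := fun p => by
        show Real.log (p.pc P).Y = p.z
        rw [Pq.pc_Y, Real.log_exp]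
      simp only [List.append_nil, List.ofFn_succ, List.ofFn_zero, List.map_cons, List.map_nil,
        List.sum_cons, List.sum_nil, e2]
      show (vs 0).z + ((vs 1).z + ((vs 2).z + 0)) = _
      ring
    have e3 : (((List.ofFn vs ++ []).map (Pt P t)).length : ℝ) = 3 := by
      simp
    rw [e1, e3] at h4
    exact h4
  · exact absurd rfl h1

lemma pfH_eq (a : BcX × ℕ) : pfH a = (a.1.2.1 0).z + (a.1.2.1 1).z + (a.1.2.1 2).z := by
  unfold pfH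
  simp only [List.append_nil, List.ofFn_succ, List.ofFn_zero, List.map_cons, List.map_nil,
    List.sum_cons, List.sum_nil]
  show (a.1.2.1 0).z + ((a.1.2.1 1).z + ((a.1.2.1 2).z + 0)) = _
  ring

lemma xD_supp {h : ℝ → ℝ} {R : ℝ} (hR : ∀ u, cx h u ≠ 0 → |u| ≤ R) (P : DPar) (t : Eis)
    (vs : Fin 3 → Pq) (D : ℝ) {n : Eis} (hn : xD h P t vs D [] n ≠ 0) :
    Squarefree n ∧ |Real.log (nm n) - ((vs 0).z + (vs 1).z + (vs 2).z)| ≤ 3 * R := by
  have k1 := fun hh => sqc1_supp (h := h) hR P t vs (n := n) hh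
  have k2 := fun hh => sqc1_supp (h := h) hR P t (rzD vs D) (n := n) hh
  have e0 : xD h P t vs D [] n = oc vs (vs 0).z (vs 1).z *
      sqc 1 (alL h ((List.ofFn vs ++ []).map (Pt P t))) n +
        -oc vs ((vs 0).z - D) ((vs 1).z + D) *
          sqc 1 (alL h ((List.ofFn (rzD vs D) ++ []).map (Pt P t))) n := rfl
  rw [e0] at hn
  generalize sqc 1 (alL h ((List.ofFn vs ++ []).map (Pt P t))) n = F at *
  generalize sqc 1 (alL h ((List.ofFn (rzD vs D) ++ []).map (Pt P t))) n = G at *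
  by_cases h1 : F = 0
  · have h2 : G ≠ 0 := by
      intro h2
      apply hn
      rw [h1, h2]
      ring
    obtain ⟨h3, h4⟩ := k2 h2
    refine ⟨h3, ?_⟩
    have e1 : (rzD vs D 0).z = (vs 0).z - D := rfl
    have e2 : (rzD vs D 1).z = (vs 1).z + D := rfl
    have e3 : (rzD vs D 2).z = (vs 2).z := rfl
    rw [e1, e2, e3] at h4
    rwa [show (vs 0).z - D + ((vs 1).z + D) + (vs 2).z = (vs 0).z + (vs 1).z + (vs 2).z by
      ring] at h4
  · exact k1 h1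

end Crest.Agent.R017.HX72
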