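import Crest.Agent.R017.XEw_405
import Crest.Agent.R017.TNj_90

/-!
# Row 17, REST (helper290, after helper405's `XEw_405`): the diagonal of the `e`-blocks

* **`XEwJ`** : `Σ_{E1 < N f} XE(f) ≤ C X^ε F e^(-n/3) e^m` for a sequence with joint numbers (helper90's
  `JBc`), the real line only for the blocks `b ≥ log E1`
-/

set_option autoImplicit false

noncomputable section

open Finset MeasureTheory
open scoped ComplexConjugate Classical

namespace Crest.Agent.R017.XEwJ290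

open Crest.Agent.R012 Crest.Agent.R012.Eis Crest.Agent.R012.MC
open Crest.Agent.R012.LS2 (S mem_S)
open Crest.Agent.R017.CM106 (CS FS TG)
open Crest.Agent.R017.C70
open Crest.Agent.R017.HP842 (Pc pc sqc alL)
open Crest.Agent.R017.B770
open Crest.Agent.R017.FE47 (PU cx)
open Crest.Agent.R017.Prov71
open Crest.Agent.R017.Leg381 (Pf alF SF LF natl alF_natl)
open Crest.Agent.R017.I1146 (ChN LN cN SN Dom cN_nonneg CellS LipS numS)
open Crest.Agent.R017.E1551 hiding tau Dg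
open Crest.Agent.R017.E3D579 (TE0)
open Crest.Agent.R017.E3T829 (cg)
open Crest.Agent.R017.OT551
open Crest.Agent.R017.E3N146 (CF_of_JC)
open Crest.Agent.R017.E3F548 (XE)
open Crest.Agent.R017.E3M829 (Tal)
open Crest.Agent.R017.XEw405 (norm_Tal_le)
open Crest.Agent.R017.TNj90 (JBc)

set_option maxHeartbeats 1600000 in
/-- **the diagonal, blocks above `E1`** -/
theorem XEwJ {R : ℝ} (hR : 0 ≤ R) {ε J₀ B₂ : ℝ} (hε : 0 < ε) (hJ₀ : 0 ≤ J₀) (hB₂ : 0 < B₂) :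
    ∃ C : ℝ, 0 ≤ C ∧ ∀ X : ℝ, 3 ≤ X →
      ∀ (n Y W F : ℝ) (Sh : ℝ → ℝ → ℝ → ℝ), 1 ≤ Y → Y ≤ X ^ B₂ → W ≤ X ^ B₂ → 0 ≤ F →
      ∀ al : Eis → ℂ, JBc Y W F J₀ Sh al →
      Adm Y (Real.exp n) R al → ∀ (E1 V₀ m : ℝ) (EE : Finset Eis)
        (J : Finset (Eis × Eis)) (om : Eis × Eis → ℂ), OKJ J → 0 ≤ E1 → 0 < V₀ →
      (∀ x, ‖om x‖ ≤ 1) →
      (∀ x ∈ J, om x ≠ 0 → V₀ ≤ nm (x.2 * x.1 ^ 2) ∧ (nm (x.2 * x.1 ^ 2) : ℝ) ≤ W) →
      (∀ e ∈ EE, IsPrim e ∧ Squarefree e ∧ E1 < nm e) →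
      (∀ d, IsPrim d → ∀ b v : ℝ, 0 ≤ b → Real.log E1 ≤ b → 0 ≤ v →
        v ≤ Real.log W - 2 * Real.log (nm d) →
        -(Real.log V₀ / 3) + Sh (Real.log (nm d)) b v + 2 * Real.log (nm d) ≤ m) →
      ∑ f ∈ EE, XE J om (Tal al) f ≤
        C * X ^ ε * F * Real.exp (-(n / 3)) * Real.exp m := by
  set a₁ : ℝ := B₂ + 1 with ha₁
  have ha₁0 : 0 < a₁ := by positivity
  set ε' : ℝ := ε / (2 * a₁) with hε'
  have hε'0 : 0 < ε' := by positivity
  have hε2 : 0 < ε / 2 := by positivity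
  set A : ℕ := ⌈J₀⌉₊ + 2 with hA
  have hA2 : 2 ≤ A := by omega
  have hJA : J₀ + 1 < A := by
    have h1 := Nat.le_ceil J₀
    rw [hA]
    push_cast
    linarith
  obtain ⟨C₁, hC₁, H₁⟩ := T1_sum R hR A hA2 (J := J₀) hJA hJ₀
  obtain ⟨C₂, hC₂, H₂⟩ := logs hε'0
  refine ⟨C₁ * 100 * C₂, by positivity, ?_⟩
  intro X hX n Y W F Sh hY1 hYu hWX hF al hjbc hadm E1 V₀ m EE J om
    hJ hE1 hV₀ hom1 hlev hEE hm
  have hX1 : (1 : ℝ) ≤ X := by linarith
  have hX0 : 0 < X := by linarith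
  have hY0 : 0 < Y := by linarith
  set Pb : ℝ := X ^ a₁ with hPb
  have hPb1 : 1 ≤ Pb := Real.one_le_rpow hX1 ha₁0.le
  have hYPb : Y ≤ Pb := hYu.trans (Real.rpow_le_rpow_of_exponent_le hX1 (by rw [ha₁]; linarith))
  have hPe : Pb ^ ε' = X ^ (ε / 2) := by
    rw [hPb, ← Real.rpow_mul hX0.le]
    congr 1
    rw [hε']
    field_simp
  have hXe : 1 ≤ X ^ (ε / 2) := Real.one_le_rpow hX1 hε2.le
  have hXe2 : X ^ (ε / 2) ≤ X ^ ε := Real.rpow_le_rpow_of_exponent_le hX1 (by linarith)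
  have hWPb : W ≤ Pb :=
    hWX.trans (Real.rpow_le_rpow_of_exponent_le hX1 (by rw [ha₁]; linarith))
  set Mn : ℝ := F * Real.exp m with hMn
  have hMn0 : 0 ≤ Mn := by positivity
  have hexn : Real.exp n ^ (-(1 / 3) : ℝ) = Real.exp (-(n / 3)) := by
    rw [← Real.exp_mul]; congr 1; ring
  have hlP := Real.log_nonneg hPb1
  have hlY := Real.log_nonneg hY1
  have hlYP : Real.log Y ≤ Real.log Pb := Real.log_le_log hY0 hYPb
  -- the joint numbers of `al`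
  have hjb : ∀ d ∈ S Y, ∀ B V, 1 ≤ B → B ≤ Y → E1 < B → 1 ≤ V → V ≤ W / (nm d : ℝ) ^ 2 →
      ∀ t : ℝ, (V₀ / (nm d : ℝ) ^ 2) ^ (-(1 / 3) : ℝ) * JB Y al (fun _ => True) d B V t ≤
        (Mn * (nm d : ℝ) ^ (-(4 / 3) : ℝ)) * (1 + |t|) ^ J₀ := by
    intro d hd B V hB1 hB2 hBE hV1 hV2 t
    obtain ⟨h2, h1, -⟩ := (mem_S hY0.le).1 hd
    have hdn : (0 : ℝ) < nm d := by exact_mod_cast nm_pos.2 h1.ne_zero
    have hV0 : 0 < V := by linarith
    have hB0 : 0 < B := by linarith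
    have hVd : V * (nm d : ℝ) ^ 2 ≤ W := (le_div_iff₀ (by positivity)).mp hV2
    have hVT0 : Real.log V + 2 * Real.log (nm d) ≤ Real.log W := by
      have h3 := Real.log_le_log (by positivity) hVd
      rw [Real.log_mul hV0.ne' (by positivity), Real.log_pow] at h3
      push_cast at h3
      exact h3
    have h6 := hjbc d hd B V hB1 hB2 hV1 hV2 t
    have hlE : Real.log E1 ≤ Real.log B := by
      rcases hE1.eq_or_lt with h0 | h0
      · rw [← h0, Real.log_zero]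
        exact Real.log_nonneg hB1
      · exact Real.log_le_log h0 hBE.le
    have h8 := hm d h1 (Real.log B) (Real.log V) (Real.log_nonneg hB1) hlE
      (Real.log_nonneg hV1) (by linarith)
    have h9 : (V₀ / (nm d : ℝ) ^ 2) ^ (-(1 / 3) : ℝ) *
        Real.exp (Sh (Real.log (nm d)) (Real.log B) (Real.log V)) ≤
        Real.exp m * (nm d : ℝ) ^ (-(4 / 3) : ℝ) := by
      rw [Real.rpow_def_of_pos (by positivity), Real.rpow_def_of_pos hdn, ← Real.exp_add,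
        ← Real.exp_add, Real.log_div hV₀.ne' (by positivity), Real.log_pow]
      refine Real.exp_le_exp.2 ?_
      push_cast
      linarith
    have h10 : 0 ≤ (V₀ / (nm d : ℝ) ^ 2) ^ (-(1 / 3) : ℝ) := by positivity
    calc (V₀ / (nm d : ℝ) ^ 2) ^ (-(1 / 3) : ℝ) * JB Y al (fun _ => True) d B V t ≤
          (V₀ / (nm d : ℝ) ^ 2) ^ (-(1 / 3) : ℝ) *
          (F * Real.exp (Sh (Real.log (nm d)) (Real.log B) (Real.log V)) * (1 + |t|) ^ J₀) :=
          mul_le_mul_of_nonneg_left h6 h10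
      _ = F * ((V₀ / (nm d : ℝ) ^ 2) ^ (-(1 / 3) : ℝ) *
            Real.exp (Sh (Real.log (nm d)) (Real.log B) (Real.log V))) * (1 + |t|) ^ J₀ := by ring
      _ ≤ F * (Real.exp m * (nm d : ℝ) ^ (-(4 / 3) : ℝ)) * (1 + |t|) ^ J₀ :=
          mul_le_mul_of_nonneg_right (mul_le_mul_of_nonneg_left h9 hF) (by positivity)
      _ = _ := by rw [hMn]; ring
  -- one `d`
  set J' := J.filter fun x => om x ≠ 0 with hJ'
  set Ds := J'.image Prod.fst with hDs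
  have hDsp : ∀ d ∈ Ds, IsPrim d := by
    intro d hd
    obtain ⟨x, hx, rfl⟩ := mem_image.1 hd
    exact hJ.prim x (mem_filter.1 hx).1
  set ω : Eis → Eis → Eis → ℝ := fun d u κ =>
    if E1 < (nm u : ℝ) ∧ V₀ ≤ (nm κ : ℝ) * (nm d : ℝ) ^ 2 then (nm κ : ℝ) ^ (-(1 / 3) : ℝ) else 0
    with hω
  have hω0 : ∀ d u κ, 0 ≤ ω d u κ := fun d u κ => by
    simp only [hω]; split_ifs; exacts [by positivity, le_rfl]
  have h1 : ∑ f ∈ EE, XE J om (Tal al) f ≤ ∑ d ∈ Ds, ∑ κ ∈ BF (W / (nm d : ℝ) ^ 2),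
      ∑ u ∈ EE, ω d u κ * ‖T1 al d κ u‖ ^ 2 := by
    unfold E3F548.XE
    rw [sum_comm]
    have e1 : ∑ x ∈ J, ∑ f ∈ EE, ‖om x‖ ^ 2 * ((nm x.2 : ℝ) ^ (-(1 : ℝ) / 3) *
          ‖Tal al x.1 f x.2‖ ^ 2) ≤
        ∑ x ∈ J', ∑ u ∈ EE, ω x.1 u x.2 * ‖T1 al x.1 x.2 u‖ ^ 2 := by
      have e2 : ∑ x ∈ J, ∑ f ∈ EE, ‖om x‖ ^ 2 * ((nm x.2 : ℝ) ^ (-(1 : ℝ) / 3) *
          ‖Tal al x.1 f x.2‖ ^ 2) = ∑ x ∈ J', ∑ f ∈ EE, ‖om x‖ ^ 2 *
            ((nm x.2 : ℝ) ^ (-(1 : ℝ) / 3) * ‖Tal al x.1 f x.2‖ ^ 2) := by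
        symm
        refine sum_filter_of_ne fun x hx hne h0 => hne ?_
        rw [h0]
        simp
      rw [e2]
      refine sum_le_sum fun x hx => sum_le_sum fun u hu => ?_
      obtain ⟨hxJ, hx0⟩ := mem_filter.1 hx
      obtain ⟨hl1, hl2⟩ := hlev x hxJ hx0
      have e3 : ω x.1 u x.2 = (nm x.2 : ℝ) ^ (-(1 / 3) : ℝ) := by
        simp only [hω]
        refine if_pos ⟨(hEE u hu).2.2, ?_⟩
        rw [nm_mul, nm_pow] at hl1
        push_cast at hl1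
        exact hl1
      rw [e3, show (-(1 : ℝ) / 3) = (-(1 / 3) : ℝ) by norm_num]
      have e4 : ‖om x‖ ^ 2 ≤ 1 := pow_le_one₀ (norm_nonneg _) (hom1 x)
      have e5 := pow_le_pow_left₀ (norm_nonneg _) (norm_Tal_le al x.1 u x.2) 2
      calc ‖om x‖ ^ 2 * ((nm x.2 : ℝ) ^ (-(1 / 3) : ℝ) * ‖Tal al x.1 u x.2‖ ^ 2) ≤
            1 * ((nm x.2 : ℝ) ^ (-(1 / 3) : ℝ) * ‖T1 al x.1 x.2 u‖ ^ 2) :=
            mul_le_mul e4 (mul_le_mul_of_nonneg_left e5 (by positivity)) (by positivity)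
              zero_le_one
        _ = _ := one_mul _
    refine e1.trans ?_
    have hsub : J' ⊆ (Ds.sigma (fun d => BF (W / (nm d : ℝ) ^ 2))).map
        (Equiv.sigmaEquivProd Eis Eis).toEmbedding := by
      intro x hx
      obtain ⟨hxJ, hx0⟩ := mem_filter.1 hx
      obtain ⟨hl1, hl2⟩ := hlev x hxJ hx0
      rw [mem_map]
      refine ⟨⟨x.1, x.2⟩, mem_sigma.2 ⟨mem_image_of_mem _ hx, ?_⟩, rfl⟩
      refine mem_BF.2 ⟨CF_of_JC (hJ.jc x hxJ), ?_⟩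
      have hdn : (0 : ℝ) < nm x.1 := by exact_mod_cast nm_pos.2 (hJ.prim x hxJ).ne_zero
      rw [le_div_iff₀ (by positivity)]
      rw [nm_mul, nm_pow] at hl2
      push_cast at hl2
      exact hl2
    refine (sum_le_sum_of_subset_of_nonneg hsub fun x _ _ => sum_nonneg fun u _ =>
      mul_nonneg (hω0 _ _ _) (by positivity)).trans (le_of_eq ?_)
    rw [sum_map, sum_sigma]
    rfl
  have h2 : ∀ d ∈ Ds, ∑ κ ∈ BF (W / (nm d : ℝ) ^ 2), ∑ u ∈ EE, ω d u κ * ‖T1 al d κ u‖ ^ 2 ≤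
      if d ∈ S Y then 1 / (nm d : ℝ) * (C₁ * Real.exp (-(n / 3)) * Mn *
        ((1 + 2 * Real.log Pb) * (1 + 2 * Real.log Pb))) else 0 := by
    intro d hd
    have hdp := hDsp d hd
    have hdn : (0 : ℝ) < nm d := by exact_mod_cast nm_pos.2 hdp.ne_zero
    have hd1 : (1 : ℝ) ≤ nm d := by exact_mod_cast nm_pos.2 hdp.ne_zero
    by_cases hS : d ∈ S Y
    swap
    · rw [if_neg hS]
      refine le_of_eq (sum_eq_zero fun κ _ => sum_eq_zero fun u _ => ?_)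
      rw [T1_zero_d hY0.le hadm.sup hdp hS]; simp
    rw [if_pos hS]
    have a4 : ∑ κ ∈ BF (W / (nm d : ℝ) ^ 2), ∑ u ∈ EE, ω d u κ * ‖T1 al d κ u‖ ^ 2 ≤
        ∑ κ ∈ BF (W / (nm d : ℝ) ^ 2), ∑ u ∈ S Y, ω d u κ * ‖T1 al d κ u‖ ^ 2 := by
      refine sum_le_sum fun κ _ => ?_
      have hz' : ∑ u ∈ EE, ω d u κ * ‖T1 al d κ u‖ ^ 2 =
          ∑ u ∈ EE.filter (fun u => u ∈ S Y), ω d u κ * ‖T1 al d κ u‖ ^ 2 := by
        symm
        refine sum_subset (filter_subset _ _) fun u hu hn' => ?_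
        have h5 : u ∉ S Y := fun h => hn' (mem_filter.mpr ⟨hu, h⟩)
        rw [T1_zero_e hY0.le hadm.sup hdp κ (hEE u hu).1 h5]
        simp
      rw [hz']
      exact sum_le_sum_of_subset_of_nonneg
        (fun u hu => (mem_filter.mp hu).2) fun u _ _ => mul_nonneg (hω0 _ _ _) (by positivity)
    have a5 := H₁ Y (Real.exp n) (W / (nm d : ℝ) ^ 2) (Mn * (nm d : ℝ) ^ (-(4 / 3) : ℝ)) hY1
      (Real.exp_pos n) (by positivity) al hadm d hdp (ω d) (hω0 d)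
      (fun B V => if E1 < B then (V₀ / (nm d : ℝ) ^ 2) ^ (-(1 / 3) : ℝ) else 0)
      (fun B V hB hV => by
        show 0 ≤ if E1 < B then (V₀ / (nm d : ℝ) ^ 2) ^ (-(1 / 3) : ℝ) else 0
        split_ifs; exacts [by positivity, le_rfl])
      (fun U κ B V hU hκ h3 h4 h5 h6 => by
        show ω d U κ ≤ if E1 < B then (V₀ / (nm d : ℝ) ^ 2) ^ (-(1 / 3) : ℝ) else 0
        simp only [hω]
        by_cases hc : E1 < (nm U : ℝ) ∧ V₀ ≤ (nm κ : ℝ) * (nm d : ℝ) ^ 2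
        · rw [if_pos hc, if_pos (hc.1.trans_le h3)]
          refine Real.rpow_le_rpow_of_nonpos (by positivity) ?_ (by norm_num)
          rw [div_le_iff₀ (by positivity)]
          exact hc.2
        · rw [if_neg hc]
          split_ifs; exacts [by positivity, le_rfl])
      (fun B V hB1 hB2 hV1 hV2 t => by
        show (if E1 < B then (V₀ / (nm d : ℝ) ^ 2) ^ (-(1 / 3) : ℝ) else 0) * _ ≤ _
        by_cases hc : E1 < B
        · rw [if_pos hc]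
          exact hjb d hS B V hB1 hB2 hc hV1 hV2 t
        · rw [if_neg hc, zero_mul]
          positivity)
    have a6 : Real.log (max 1 (W / (nm d : ℝ) ^ 2)) ≤ Real.log Pb := by
      refine Real.log_le_log (lt_of_lt_of_le one_pos (le_max_left _ _)) (max_le hPb1 ?_)
      rw [div_le_iff₀ (by positivity)]
      exact hWPb.trans (le_mul_of_one_le_right (by linarith) (one_le_pow₀ hd1))
    have a7 := Real.log_nonneg (le_max_left 1 (W / (nm d : ℝ) ^ 2))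
    have a8 : (Real.exp n / nm d) ^ (-(1 / 3) : ℝ) * (nm d : ℝ) ^ (-(4 / 3) : ℝ) =
        1 / nm d * Real.exp (-(n / 3)) := by
      rw [Real.div_rpow (Real.exp_pos _).le hdn.le, hexn, Real.rpow_neg hdn.le, div_inv_eq_mul,
        mul_assoc, ← Real.rpow_add hdn]
      norm_num
      rw [Real.rpow_neg_one]
      ring
    refine (a4.trans a5).trans ?_
    calc C₁ * (Real.exp n / nm d) ^ (-(1 / 3) : ℝ) * ((1 + 2 * Real.log Y) *
          (1 + 2 * Real.log (max 1 (W / (nm d : ℝ) ^ 2))) *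
          (Mn * (nm d : ℝ) ^ (-(4 / 3) : ℝ))) ≤
          C₁ * (Real.exp n / nm d) ^ (-(1 / 3) : ℝ) * ((1 + 2 * Real.log Pb) *
          (1 + 2 * Real.log Pb) * (Mn * (nm d : ℝ) ^ (-(4 / 3) : ℝ))) := by
          gcongr
      _ = ((Real.exp n / nm d) ^ (-(1 / 3) : ℝ) * (nm d : ℝ) ^ (-(4 / 3) : ℝ)) *
          (C₁ * Mn * ((1 + 2 * Real.log Pb) * (1 + 2 * Real.log Pb))) := by ring
      _ = _ := by
          rw [a8]; ring
  refine h1.trans ((sum_le_sum h2).trans ?_)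
  rw [← sum_filter, ← sum_mul]
  have hs : ∑ δ ∈ Ds.filter (fun d => d ∈ S Y), 1 / (nm δ : ℝ) ≤ 100 * (1 + Real.log Pb) :=
    (sum_le_sum_of_subset_of_nonneg (fun d hd => (mem_filter.mp hd).2)
      fun _ _ _ => by positivity).trans ((sum_inv_S551 hY1).trans (by linarith))
  have h9 := H₂ Pb hPb1
  calc (∑ δ ∈ Ds.filter (fun d => d ∈ S Y), 1 / (nm δ : ℝ)) *
        (C₁ * Real.exp (-(n / 3)) * Mn * ((1 + 2 * Real.log Pb) * (1 + 2 * Real.log Pb))) ≤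
        (100 * (1 + Real.log Pb)) *
        (C₁ * Real.exp (-(n / 3)) * Mn * ((1 + 2 * Real.log Pb) * (1 + 2 * Real.log Pb))) := by
        gcongr
    _ = C₁ * 100 * Real.exp (-(n / 3)) * Mn *
        ((1 + Real.log Pb) * ((1 + 2 * Real.log Pb) * (1 + 2 * Real.log Pb))) := by ring
    _ ≤ C₁ * 100 * Real.exp (-(n / 3)) * Mn * (C₂ * Pb ^ ε') := by gcongr
    _ = C₁ * 100 * C₂ * X ^ (ε / 2) * F *
        Real.exp (-(n / 3)) * Real.exp m := by rw [hPe, hMn]; ring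
    _ ≤ _ := by gcongr

end Crest.Agent.R017.XEwJ290
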