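import Crest.Agent.R017.TnHh_50
import Crest.Agent.R017.HX2_72
import Crest.Agent.R017.DgHA_290
import Crest.Agent.R017.XEwJ_290

/-!
# Row 17, exceptional class, REST of StrUX (helper290): the diagonal of one level of one difference

* **`dgHX`** : helper72's `DgHX` from helper50's frame `tnh_frameO`
-/

set_option autoImplicit false

noncomputable section

open Finset
open scoped Classical

namespace Crest.Agent.R017.DgHX290

open Crest.Agent.R012 Crest.Agent.R012.Eis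
open Crest.Agent.R012.LS2 (S mem_S)
open Crest.Agent.R017.C70 (JC OKJ JW okJ_JW)
open Crest.Agent.R017.B770
open Crest.Agent.R017.FE47 (PU cx SM)
open Crest.Agent.R017.Prov71
open Crest.Agent.R017.XG702 (Pcs)
open Crest.Agent.R017.XT71 (Sys Win mx)
open Crest.Agent.R017.E1551 (Adm)
open Crest.Agent.R017.E3M829 (Tal)
open Crest.Agent.R017.E3F548 (XE XE_nonneg)
open Crest.Agent.R017.I1146 (LN)
open Crest.Agent.R017.E5B71 Crest.Agent.R017.E5L770
open Crest.Agent.R017.P1l54 (ParOK)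
open Crest.Agent.R017.ExBox960 Crest.Agent.R017.ExP960
open Crest.Agent.R017.P1X960
open Crest.Agent.R017.Hi454 (DomHX EHX)
open Crest.Agent.R017.P10X764
open Crest.Agent.R017.Sup271 (NPm)
open Crest.Agent.R017.PX764 (Dk)
open Crest.Agent.R017.TM708 (PD R5)
open Crest.Agent.R017.XS0298 (S0K)
open Crest.Agent.R017.TK708 (AllT)
open Crest.Agent.R017.ER911
open Crest.Agent.R017.OwA90 (Gt)
open Crest.Agent.R017.CGt48
open Crest.Agent.R017.S8X50
open Crest.Agent.R017.TnHf50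
open Crest.Agent.R017.HX72
open Crest.Agent.R017.Sf770 (nO)
open Crest.Agent.R017.RnP571 (Dh)
open Crest.Agent.R017.RstQ702 (LR)
open Crest.Agent.R017.RstX290 (Ef)
open Crest.Agent.R017.RST405 (Dh_smul Fr)
open Crest.Agent.R017.XEwJ290 (XEwJ)

variable {Λ : Type*}

lemma ShH_eq (d : ℝ) (a : BcX) (γ b v : ℝ) : ShH d a γ b v =
    shN d (LN (clN a [])) (zNa a) (zRa a) (s0X a) γ b v := rfl

lemma norm_omL (i : ℕ) (x : Eis × Eis) : ‖omL i x‖ ≤ 1 := by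
  unfold E5L770.omL E5L770.wL FE47.hD
  rw [Complex.norm_real, Real.norm_eq_abs, abs_le]
  have h1 := HBI146.cutR_nonneg (Real.exp (lv x - Real.log 2 * i))
  have h2 := HBI146.cutR_le_one (Real.exp (lv x - Real.log 2 * i))
  have h3 := HBI146.cutR_nonneg (2 * Real.exp (lv x - Real.log 2 * i))
  have h4 := HBI146.cutR_le_one (2 * Real.exp (lv x - Real.log 2 * i))
  constructor <;> linarith

/-- the coefficients are at most one -/
lemma DgS_le {n j : ℕ} {α : Eis → ℂ} {E0 E1 Ec K : ℝ} (hK : 0 < K) (hE0 : 0 ≤ E0)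
    (h2 : (2 ^ j * 2 / K ^ 2) ^ (1 / 6 : ℝ) * E0 ^ (1 / 2 : ℝ) ≤ 1)
    (h3 : Ec ^ 2 * (2 ^ j * 2) / K ≤ 1) :
    DgS n j α E0 E1 Ec K ≤ K ^ (2 / 3 : ℝ) *
      (3 * ∑ f ∈ (S E0).filter (QE E1), XE (J2 n j) (omL j) (Tal α) f) := by
  unfold DgS
  refine mul_le_mul_of_nonneg_left ?_ (by positivity)
  rw [mul_sum]
  refine sum_le_sum fun f hf => ?_
  have h0 := XE_nonneg (J2 n j) (omL j) (Tal α) f
  have hf' := (mem_filter.1 hf).1
  rw [mem_S hE0] at hf'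
  have hf1 : (1 : ℝ) ≤ nm f := by exact_mod_cast nm_pos.2 hf'.2.1.ne_zero
  have h4 : (nm f : ℝ)⁻¹ ≤ 1 := inv_le_one_of_one_le₀ hf1
  have h5 : (2 ^ j * 2 / K ^ 2) ^ (1 / 6 : ℝ) * (nm f : ℝ) ^ (1 / 2 : ℝ) ≤ 1 := by
    refine le_trans ?_ h2
    have := hf'.1
    gcongr
  exact mul_le_mul_of_nonneg_right (by linarith) h0

/-- the two coefficients -/
lemma coefs {j : ℕ} {l e0 : ℝ} (h1 : (Real.log (2 ^ j * 2) - 2 * l) / 6 + e0 * l / 2 ≤ 0)
    (h2 : l / 10 + Real.log (2 ^ j * 2) - l ≤ 0) :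
    (2 ^ j * 2 / Real.exp l ^ 2) ^ (1 / 6 : ℝ) * Real.exp (e0 * l) ^ (1 / 2 : ℝ) ≤ 1 ∧
      Real.exp (l / 20) ^ 2 * (2 ^ j * 2) / Real.exp l ≤ 1 := by
  have hW : (0 : ℝ) < 2 ^ j * 2 := by positivity
  set W : ℝ := 2 ^ j * 2 with hWd
  have e1 : W = Real.exp (Real.log W) := (Real.exp_log hW).symm
  have e2 : Real.exp l ^ 2 = Real.exp (2 * l) := by
    rw [← Real.exp_nat_mul]; norm_num
  have e3 : Real.exp (l / 20) ^ 2 = Real.exp (l / 10) := by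
    rw [← Real.exp_nat_mul]; congr 1; push_cast; ring
  constructor
  · have e4 : W / Real.exp l ^ 2 = Real.exp (Real.log W - 2 * l) := by
      rw [e2, Real.exp_sub, ← e1]
    rw [e4, ← Real.exp_mul, ← Real.exp_mul, ← Real.exp_add]
    exact Real.exp_le_one_iff.2 (by linarith)
  · have e4 : Real.exp (l / 20) ^ 2 * W / Real.exp l = Real.exp (l / 10 + Real.log W - l) := by
      rw [e3, Real.exp_sub, Real.exp_add, ← e1]
    rw [e4]
    exact Real.exp_le_one_iff.2 (by linarith)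

/-- the frame of the real lines at the parameters -/
lemma ef_par {κ y₃ y₄ u x d δ L n sv bb lev v : ℝ} (hD : Dh κ y₃ y₄ u x (d * κ)) (hL : 0 < L)
    (hδ : δ ≤ 1 / 1000000) (hδL : 1 ≤ δ * L) (hκ0 : 8 / 9 ≤ κ)
    (hb : 0 ≤ bb) (hsv : sv = y₃ + y₄ + u - bb) (hn : |n - sv * L| ≤ 4 * (δ * L))
    (hlow : (κ / 2 - 2 * x) * L - 4 * (δ * L) ≤ n)
    (hlev : lev ≤ min (2 * (y₃ + y₄ + u) - κ) (3 / 4 * (y₃ + y₄ + u)) + 11 / 5 * x)
    (hlev2 : lev + 2 * bb ≤ min (2 * (y₃ + y₄ + u) - κ) (3 / 4 * (y₃ + y₄ + u)) + 11 / 5 * x +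
      d * κ / 2) (hv : v ≤ lev * L + δ * L + 1) :
    Ef (κ * L) (y₃ * L) (y₄ * L) (u * L) (x * L) (d * κ * L) (20 * (δ * L)) n v (bb * L) := by
  obtain ⟨n1, n2⟩ := abs_le.1 hn
  have m1 := min_le_left (2 * (y₃ + y₄ + u) - κ) (3 / 4 * (y₃ + y₄ + u))
  have m2 := min_le_right (2 * (y₃ + y₄ + u) - κ) (3 / 4 * (y₃ + y₄ + u))
  have hx0 := hD.x0
  have esv : sv * L = y₃ * L + y₄ * L + u * L - bb * L := by rw [hsv]; ring
  have a1 : lev * L ≤ (2 * (y₃ + y₄ + u) - κ + 11 / 5 * x) * L :=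
    mul_le_mul_of_nonneg_right (by linarith) hL.le
  have a2 : lev * L ≤ (3 / 4 * (y₃ + y₄ + u) + 11 / 5 * x) * L :=
    mul_le_mul_of_nonneg_right (by linarith) hL.le
  have a3 : lev * L ≤ (2 * (y₃ + y₄ + u) - κ + 11 / 5 * x + d * κ / 2 - 2 * bb) * L :=
    mul_le_mul_of_nonneg_right (by linarith) hL.le
  have a4 : lev * L ≤ (3 / 4 * (y₃ + y₄ + u) + 11 / 5 * x + d * κ / 2 - 2 * bb) * L :=
    mul_le_mul_of_nonneg_right (by linarith) hL.le
  have a5 : 0 ≤ x * L := by positivity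
  have a6 : δ * L ≤ 1 / 1000000 * L := mul_le_mul_of_nonneg_right hδ hL.le
  have a7 : 8 / 9 * L ≤ κ * L := mul_le_mul_of_nonneg_right hκ0 hL.le
  refine ⟨Dh_smul hD hL, by positivity, by linarith, by positivity, by linarith, by linarith,
    by linarith, by linarith, by linarith, by linarith, by linarith⟩

set_option maxHeartbeats 2000000 in
/-- **the diagonal of one level of one difference** -/
theorem dgHX {π : Λ → DPar} {h : ℝ → ℝ} {c₀ : ℝ} (hpu : PU h c₀) (hP : ∀ lam, (π lam).OK)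
    (hex : ∀ lam, ¬ NPm (π lam).n (π lam).ψ (π lam).l₂ 1)
    {Rh : ℝ} (hRh0 : 0 ≤ Rh) (hRh : ∀ u, cx h u ≠ 0 → |u| ≤ Rh) {c β : ℝ}
    {Par : Set (Fin 3 ⊕ Fin 5 → ℝ)} (hPar : ∀ p ∈ Par, ParOK p)
    {lo hi LH : (Fin 3 ⊕ Fin 5 → ℝ) → ℝ}
    (hR5 : ∀ p : IX5 → ℝ, prX p ∈ Par → ZR β p → R5 (bN p))
    {d : ℝ} (hd : 0 ≤ d) (hdd : d ≤ 1)
    (hown : ∀ v z₁ z₂ z₃ : ℝ, 0 ≤ v → 0 ≤ z₁ → 0 ≤ z₂ → 0 ≤ z₃ →
      ex Dq (fun lam => S0K Dk (π lam) h) v {z₁, z₂, z₃} 0 0 ≤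
        Gt d v (z₁ + z₂ + z₃) (max z₁ (max z₂ z₃)))
    (hall : AllT d (ex Dq fun lam => S0K Dk (π lam) h))
    {e1 e0 : ℝ} (he1 : 0 ≤ e1) (he10 : e1 ≤ e0) (he0 : e0 ≤ 1 / 64)
    (hDh : ∀ p ∈ Par, Dh (cκ p) (cu p 2) (cu p 3) (cu p 4) (cx' p) (d * cκ p))
    (hcD : ∀ p ∈ Par, 4 * (c * cκ p) ≤ d * cκ p) (hβ : 17 / 100 ≤ β)
    (hZu : ∀ p : IX5 → ℝ, prX p ∈ Par → ZR β p → p (.inr 1) ≤ 1883 / 10000 * cκ (prX p))
    (hlo : ∀ p ∈ Par, min (2 * cN p - cκ p) (3 / 4 * cN p) + 9 / 4 * cx' p ≤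
      lo p + 4 * (e1 * cκ p))
    (hhi : ∀ p ∈ Par, hi p ≤ top5 p)
    (hLH : ∀ p ∈ Par, LR (cN p) (cκ p) (d * cκ p) (cx' p) ≤ LH p) :
    DgHX π h e1 e0 c β Par lo hi LH := by
  intro ε hε
  obtain ⟨τ, hτ, hτε, δ₀, hδ₀, HF⟩ := tnh_frameO (c := c) (β := β) (lo := lo) (hi := hi) hpu hP hex
    hRh0 hRh hPar hR5 hd hdd hown hall (ε := ε / 16) (by positivity)
  obtain ⟨δ, hδ, hδδ, hδε, hδ1⟩ : ∃ δ : ℝ, 0 < δ ∧ δ ≤ δ₀ ∧ δ ≤ ε / 1000 ∧ δ ≤ 1 / 1000000 :=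
    ⟨min δ₀ (min (ε / 1000) (1 / 1000000)), lt_min hδ₀ (lt_min (by positivity) (by norm_num)),
      min_le_left _ _, (min_le_right _ _).trans (min_le_left _ _),
      (min_le_right _ _).trans (min_le_right _ _)⟩
  refine ⟨δ, hδ, fun lam N B => ?_⟩
  obtain ⟨J₀, hJ₀, δ₁, hδ₁, X₁, hX₁, HF⟩ := HF lam N B
  obtain ⟨C, hC, HX⟩ := XEwJ (R := 6 * Rh) (by positivity) (ε := ε / 16) (J₀ := J₀) (B₂ := 3)
    (by positivity) hJ₀ (by norm_num)
  set Q : ℝ := 3 * Rh + 1 / δ + 16 * Real.log (6 * C + 1) / ε + 2 with hQ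
  refine ⟨δ₁, hδ₁, max X₁ (Real.exp Q), by
    have := le_max_left X₁ (Real.exp Q); linarith, ?_⟩
  rintro X hX ⟨a, j⟩ ps - - q hq hw - - -
  have hX1' : X₁ ≤ X := (le_max_left _ _).trans hX
  have hXQ : Real.exp Q ≤ X := (le_max_right _ _).trans hX
  have hX3 : 3 ≤ X := hX₁.trans hX1'
  have hX0 : 0 < X := by linarith
  have hX1 : 1 < X := by linarith
  set L := Real.log X with hL
  have hQL : Q ≤ L := by
    have := Real.log_le_log (Real.exp_pos Q) hXQ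
    rwa [Real.log_exp] at this
  have hlC : 0 ≤ Real.log (6 * C + 1) := Real.log_nonneg (by linarith)
  have hq1 : 0 ≤ 1 / δ := by positivity
  have hq2 : 0 ≤ 16 * Real.log (6 * C + 1) / ε := by positivity
  have hL2 : 2 ≤ L := by linarith
  have hL0 : 0 < L := by linarith
  have hδL : 1 ≤ δ * L := by
    have h1 : 1 / δ ≤ L := by linarith
    rw [div_le_iff₀ hδ] at h1
    linarith
  have hCX : 6 * C + 1 ≤ X ^ (ε / 16) := by
    have h1 : 16 * Real.log (6 * C + 1) / ε ≤ L := by linarith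
    rw [div_le_iff₀ hε] at h1
    rw [Real.rpow_def_of_pos hX0, ← hL, ← Real.exp_log (show 0 < 6 * C + 1 by linarith)]
    exact Real.exp_le_exp.2 (by linarith)
  show DpH π h e1 e0 lam (a, j) ps ≤ X ^ (EHX LH q + ε)
  unfold DpH
  by_cases hok : okH π lam (a, j)
  swap
  · rw [if_neg hok]; positivity
  rw [if_pos hok]
  obtain ⟨hok1, hok2, hlt⟩ := hok
  obtain ⟨hpar, hzr, hF, hlv, -, -, hadm, hjbc⟩ :=
    HF X hX1' δ hδ.le hδδ δ₁ hδ₁.le le_rfl (a, j) q hq hw ⟨hok1, hok2⟩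
  dsimp only at hok1 hok2 hlt hF hlv hadm hjbc ⊢
  obtain ⟨hc1, hc2, hc3, hc4, hc5, hc6, hc7, hc8⟩ := hq
  have hev : ∀ i, |S8X.ev X a i - q.1 (some i)| ≤ δ := fun i => hw.ev (some i)
  have hdiv : ∀ {z c : ℝ}, |z / L - c| ≤ δ → |z - c * L| ≤ δ * L := by
    intro z c h1
    have h2 : z - c * L = (z / L - c) * L := by field_simp
    rw [h2, abs_mul, abs_of_pos hL0]
    exact mul_le_mul_of_nonneg_right h1 hL0.le
  have hv0 : |(a.2.1 0).z - q.1 (some (.inr 0)) * L| ≤ δ * L := hdiv (hev (.inr 0))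
  have hv1 : |(a.2.1 1).z - q.1 (some (.inr 1)) * L| ≤ δ * L := hdiv (hev (.inr 1))
  have hv2 : |(a.2.1 2).z - q.1 (some (.inr 2)) * L| ≤ δ * L := hdiv (hev (.inr 2))
  obtain ⟨v01, v02⟩ := abs_le.1 hv0
  obtain ⟨v11, v12⟩ := abs_le.1 hv1
  obtain ⟨v21, v22⟩ := abs_le.1 hv2
  obtain ⟨l1, l2⟩ := abs_le.1 hlv
  obtain ⟨k1, k2⟩ := abs_le.1 hF.hκ
  obtain ⟨d1, d2⟩ := abs_le.1 hF.hd
  obtain ⟨n1, n2⟩ := abs_le.1 hF.hn
  have hPp := hPar _ hpar
  have hD := hDh _ hpar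
  have hcDp := hcD _ hpar
  have hZ1 := hZu _ hpar hzr
  have hZ2 : β * cκ (prX (bq q)) ≤ bq q (.inr 1) := (hzr 1).1
  have hLHp := hLH _ hpar
  have hlop := hlo _ hpar
  have hhip := hhi _ hpar
  have hκ0 := hPp.κ0
  have hκ1 := hPp.κ1
  have hb0 : 0 ≤ q.1 (some (.inr 3)) := hc1.b0
  have hbeq : q.1 (some (.inr 3)) = cN (prX (bq q)) - svq q := hc3
  have hc6' : lo (prX (bq q)) ≤ q.1 none := hc6
  have hc7' : q.1 none ≤ hi (prX (bq q)) := hc7
  have hc8' : q.1 none + 2 * q.1 (some (.inr 3)) ≤ top5 (prX (bq q)) +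
    2 * c * cκ (prX (bq q)) := hc8
  have hN0 : q.1 (some (.inr 0)) ≤ cu (prX (bq q)) 2 := hc2.1.1
  have hN1 : q.1 (some (.inr 1)) ≤ cu (prX (bq q)) 3 := hc2.1.2.1
  have hN2 : q.1 (some (.inr 2)) ≤ cu (prX (bq q)) 4 := hc2.1.2.2
  have hEH : EHX LH q = cκ (prX (bq q)) + svq q + LH (prX (bq q)) := rfl
  have hsv : svq q = q.1 (some (.inr 0)) + q.1 (some (.inr 1)) + q.1 (some (.inr 2)) := rfl
  have hcN : cN (prX (bq q)) = cu (prX (bq q)) 2 + cu (prX (bq q)) 3 + cu (prX (bq q)) 4 := rfl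
  have ht5 : top5 (prX (bq q)) = min (2 * cN (prX (bq q)) - cκ (prX (bq q)))
    (3 / 4 * cN (prX (bq q))) + 11 / 5 * cx' (prX (bq q)) := rfl
  have hlowF := hF.lo
  have hz1 : zNa a = max (a.2.1 0).z (max (a.2.1 1).z (a.2.1 2).z) := rfl
  have hz2 : zRa a = min ((a.2.1 0).z - dz a.1) (min ((a.2.1 1).z + dz a.1) (a.2.1 2).z) := rfl
  have hz3 : s0X a = min (min (a.2.1 0).z (a.2.1 1).z)
    (min ((a.2.1 0).z - dz a.1) ((a.2.1 1).z + dz a.1)) := rfl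
  rw [hcN] at hbeq ht5 hlop hLHp
  generalize bq q (.inr 1) = Z at *
  generalize cκ (prX (bq q)) = κ at *
  generalize cu (prX (bq q)) 2 = y₃ at *
  generalize cu (prX (bq q)) 3 = y₄ at *
  generalize cu (prX (bq q)) 4 = u at *
  generalize cx' (prX (bq q)) = x at *
  generalize q.1 (some (.inr 0)) = q0 at *
  generalize q.1 (some (.inr 1)) = q1' at *
  generalize q.1 (some (.inr 2)) = q2' at *
  generalize q.1 (some (.inr 3)) = bb at *
  generalize q.1 none = lev at *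
  set n := LN (clN a []) with hnd
  set l := a.1.l with hld
  set v : ℝ := Real.log (2 ^ j * 2) with hvd
  have hvj : v = Real.log 2 * j + Real.log 2 := by
    rw [hvd, Real.log_mul (by positivity) (by norm_num), Real.log_pow]; ring
  have hl2 : Real.log 2 ≤ 1 := by have := Real.log_two_lt_d9; linarith
  have hl20 : 0 ≤ Real.log 2 := Real.log_nonneg (by norm_num)
  have hvn : 0 ≤ v := by rw [hvj]; positivity
  have hl4 : Real.log (2 ^ j / 4) = v - 3 * Real.log 2 := by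
    rw [Real.log_div (by positivity) (by norm_num), Real.log_pow, hvj,
      show (4 : ℝ) = 2 * 2 by norm_num, Real.log_mul (by norm_num) (by norm_num)]
    ring
  have hEf : Ef (κ * L) (y₃ * L) (y₄ * L) (u * L) (x * L) (d * κ * L) (20 * (δ * L)) n v
      (bb * L) := by
    refine ef_par (sv := svq q) (lev := lev) hD hL0 hδ1 hδL hκ0 hb0 (by linarith)
      (abs_le.2 ⟨n1, n2⟩) hlowF ?_ ?_ ?_
    · rw [← ht5]; linarith
    · linarith
    · linarith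
  have hκp : 0 < κ := by linarith
  have hκL : 0 < κ * L := by positivity
  have hdk : d = d * κ * L / (κ * L) := by field_simp
  have hFr : Fr (κ * L) (y₃ * L) (y₄ * L) (u * L) (x * L) (d * κ * L) (20 * (δ * L)) n v 0 d :=
    ⟨hEf.hD, hEf.t0, hEf.t1, hEf.p3, by have := hEf.p1; have := hEf.m0; linarith, hEf.v1, hEf.v2,
      le_rfl, by have := hEf.t0; linarith, hdk⟩
  obtain ⟨w1, -, -, w4⟩ := hFr.v_le
  have q0L : q0 * L ≤ y₃ * L := mul_le_mul_of_nonneg_right hN0 hL0.le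
  have q1L : q1' * L ≤ y₄ * L := mul_le_mul_of_nonneg_right hN1 hL0.le
  have q2L : q2' * L ≤ u * L := mul_le_mul_of_nonneg_right hN2 hL0.le
  have y43L : y₄ * L ≤ y₃ * L := hEf.hD.y43
  have u4L : u * L ≤ y₄ * L := hEf.hD.u4
  have u0L : 11 / 50 * (κ * L) ≤ u * L := hEf.hD.u0
  have ZL : Z * L ≤ 1883 / 10000 * κ * L := mul_le_mul_of_nonneg_right hZ1 hL0.le
  have ZL' : 17 / 100 * κ * L ≤ Z * L := mul_le_mul_of_nonneg_right
    ((mul_le_mul_of_nonneg_right hβ hκp.le).trans hZ2) hL0.le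
  have e1q : (y₃ - bb) * L ≤ q0 * L := mul_le_mul_of_nonneg_right (by linarith) hL0.le
  have e2q : (y₄ - bb) * L ≤ q1' * L := mul_le_mul_of_nonneg_right (by linarith) hL0.le
  have hδL0 : 0 ≤ δ * L := by linarith
  have hz : zNa a ≤ y₃ * L + 20 * (δ * L) := by
    rw [hz1]
    refine max_le (by linarith) (max_le (by linarith) (by linarith))
  have hZ : zRa a ≤ 1883 / 10000 * (κ * L) + 20 * (δ * L) := by
    rw [hz2]
    refine (min_le_left _ _).trans ?_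
    linarith
  have hs : 17 / 100 * (κ * L) - bb * L - 20 * (δ * L) ≤ s0X a := by
    rw [hz3]
    refine le_min (le_min ?_ ?_) (le_min ?_ ?_) <;> linarith
  have hmin : min (2 * (y₃ * L + y₄ * L + u * L) - κ * L) (3 / 4 * (y₃ * L + y₄ * L + u * L)) =
      min (2 * (y₃ + y₄ + u) - κ) (3 / 4 * (y₃ + y₄ + u)) * L := by
    rw [min_mul_of_nonneg _ _ hL0.le]
    congr 1 <;> ring
  have hLRs : LR (y₃ * L + y₄ * L + u * L) (κ * L) (d * κ * L) (x * L) =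
      LR (y₃ + y₄ + u) κ (d * κ) x * L := by
    rw [← LR_smul hL0.le]
    congr 1
    ring
  have loL := mul_le_mul_of_nonneg_right hlop hL0.le
  have levL : lo (prX (bq q)) * L ≤ lev * L := mul_le_mul_of_nonneg_right hc6' hL0.le
  have hLHL := mul_le_mul_of_nonneg_right hLHp hL0.le
  set M : ℝ := κ * L + n + LR (y₃ * L + y₄ * L + u * L) (κ * L) (d * κ * L) (x * L) +
    10 * (20 * (δ * L)) - 2 / 3 * (κ * L) + n / 3 + Real.log 2 with hM
  have hline : ∀ g, IsPrim g → ∀ b v' : ℝ, 0 ≤ b → Real.log (Real.exp (e1 * l)) ≤ b → 0 ≤ v' →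
      v' ≤ v - 2 * Real.log (nm g) →
      -(Real.log (2 ^ j / 4) / 3) + ShH d a (Real.log (nm g)) b v' + 2 * Real.log (nm g) ≤ M := by
    intro g hg b v' hb hb1 hv' hv'2
    rw [Real.log_exp] at hb1
    have hγ : 0 ≤ Real.log (nm g) := Real.log_nonneg (by exact_mod_cast nm_pos.2 hg.ne_zero)
    have hk3 : e1 * (κ * L) ≤ e1 * (l + δ * L) := mul_le_mul_of_nonneg_left (by linarith) he1
    have hk4 : e1 * (δ * L) ≤ 1 / 64 * (δ * L) :=
      mul_le_mul_of_nonneg_right (he10.trans he0) hδL0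
    have hR : min (2 * (y₃ * L + y₄ * L + u * L) - κ * L) (3 / 4 * (y₃ * L + y₄ * L + u * L)) +
        9 / 4 * (x * L) - v ≤ 4 * b + 20 * (δ * L) := by
      rw [hmin]
      linarith
    have h1 := lineH (z := zNa a) (Z := zRa a) (s0 := s0X a) (γ := Real.log (nm g)) (b := b)
      (v' := v') hEf hdk hγ hb hv' (by linarith) hz hZ hs hR
    rw [ShH_eq, hl4]
    linarith
  -- sizes
  have hXe : ∀ r : ℝ, X ^ r = Real.exp (L * r) := fun r => by rw [Real.rpow_def_of_pos hX0]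
  have κL1 : κ * L ≤ L := by nlinarith
  have κL8 : 8 / 9 * L ≤ κ * L := mul_le_mul_of_nonneg_right hκ0 hL0.le
  have δL1 : δ * L ≤ 1 / 1000000 * L := mul_le_mul_of_nonneg_right hδ1 hL0.le
  have hW0 : (0 : ℝ) < 2 ^ j * 2 := by positivity
  have hv9 : v ≤ 9 / 10 * L := by linarith
  have hWX : (2 : ℝ) ^ j * 2 ≤ X ^ (3 : ℝ) := by
    rw [hXe, ← Real.exp_log hW0]
    exact Real.exp_le_exp.2 (by rw [← hvd]; linarith)
  have hYn : Real.exp (n + 3 * Rh) ≤ X ^ (3 : ℝ) := by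
    rw [hXe]
    refine Real.exp_le_exp.2 ?_
    have g1 := hEf.p1
    have g2 := hEf.m0
    have g3 := hEf.hD.N1
    linarith
  have hY1 : (1 : ℝ) ≤ X ^ (3 : ℝ) := Real.one_le_rpow hX1.le (by norm_num)
  have hlp : 0 ≤ l := by linarith
  have e0l : e0 * l ≤ 1 / 64 * l := mul_le_mul_of_nonneg_right he0 hlp
  obtain ⟨c1, c2⟩ := coefs (j := j) (l := l) (e0 := e0) (by linarith) (by linarith)
  have key := HX X hX3 n (X ^ (3 : ℝ)) (2 ^ j * 2) (X ^ (ε / 16)) (ShH d a) hY1 le_rfl hWX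
    (by positivity) (xD h (π lam.1) lam.2 a.2.1 (dz a.1) []) (hjbc _ hY1 le_rfl _ hW0 hv9)
    (hadm _ hYn) (Real.exp (e1 * l)) (2 ^ j / 4) M
    ((S (Real.exp (e0 * l))).filter (QE (Real.exp (e1 * l)))) (J2 (nO a.1.toBd) j) (omL j)
    (okJ_JW _ _ _) (Real.exp_pos _).le (by positivity) (norm_omL j)
    (fun x hx h0 => ⟨(omL_win (ln_ne' hx) h0).1.le, (omL_win (ln_ne' hx) h0).2⟩)
    (fun e he => by
      have h1 := mem_filter.1 he
      have h2 := (mem_S (Real.exp_pos _).le).1 h1.1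
      exact ⟨h2.2.1, h2.2.2, h1.2⟩) hline
  set E' : ℝ := 2 / 3 * l + (-(n / 3)) + M - Real.log 2 with hE'
  have hprod : Real.exp l ^ (2 / 3 : ℝ) * (Real.exp (-(n / 3)) * Real.exp M) =
      2 * Real.exp E' := by
    rw [← Real.exp_mul, ← Real.exp_add, ← Real.exp_add]
    rw [show l * (2 / 3) + (-(n / 3) + M) = Real.log 2 + E' by rw [hE']; ring, Real.exp_add,
      Real.exp_log (by norm_num)]
  have hδεL : δ * L ≤ ε / 1000 * L := mul_le_mul_of_nonneg_right hδε hL0.le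
  have hEe : E' ≤ L * (EHX LH q + ε / 2) := by
    rw [hE', hM, hEH, hLRs]
    have : L * (κ + svq q + LH (prX (bq q)) + ε / 2) = κ * L + svq q * L +
      LH (prX (bq q)) * L + ε / 2 * L := by ring
    rw [this]
    linarith
  calc DgS (nO a.1.toBd) j (alH π h lam (a, j)) (Real.exp (e0 * l)) (Real.exp (e1 * l))
        (Real.exp (l / 20)) (Real.exp l)
      ≤ Real.exp l ^ (2 / 3 : ℝ) * (3 * ∑ f ∈ (S (Real.exp (e0 * l))).filter
          (QE (Real.exp (e1 * l))), XE (J2 (nO a.1.toBd) j) (omL j)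
            (Tal (alH π h lam (a, j))) f) := DgS_le (Real.exp_pos _) (Real.exp_pos _).le c1 c2
    _ ≤ Real.exp l ^ (2 / 3 : ℝ) * (3 * (C * X ^ (ε / 16) * X ^ (ε / 16) *
          Real.exp (-(n / 3)) * Real.exp M)) := by
        have h0 : (0 : ℝ) ≤ Real.exp l ^ (2 / 3 : ℝ) := by positivity
        exact mul_le_mul_of_nonneg_left (mul_le_mul_of_nonneg_left key (by norm_num)) h0
    _ = 3 * C * X ^ (ε / 16) * X ^ (ε / 16) *
          (Real.exp l ^ (2 / 3 : ℝ) * (Real.exp (-(n / 3)) * Real.exp M)) := by ring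
    _ = 6 * C * X ^ (ε / 16) * X ^ (ε / 16) * Real.exp E' := by rw [hprod]; ring
    _ ≤ X ^ (ε / 16) * X ^ (ε / 16) * X ^ (ε / 16) * X ^ (EHX LH q + ε / 2) := by
        have g1 : 6 * C ≤ X ^ (ε / 16) := by linarith
        have g2 : Real.exp E' ≤ X ^ (EHX LH q + ε / 2) := by
          rw [hXe]; exact Real.exp_le_exp.2 hEe
        gcongr
    _ ≤ X ^ (EHX LH q + ε) := by
        rw [← Real.rpow_add hX0, ← Real.rpow_add hX0, ← Real.rpow_add hX0]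
        exact Real.rpow_le_rpow_of_exponent_le hX1.le (by linarith)

end Crest.Agent.R017.DgHX290
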