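import Crest.Agent.R012.DualTail_811
import Crest.Agent.R012.DualGcd_671

/-!
# Row 17: the two-parameter dual inequality, part A (exact bilinear identity)

* `Phi`        : the dual of `n ↦ sy n B conj (sy n A)` (Gaussian weight, all numerators)
* `pair_cop`   : the pair sum with a coprimality condition
* `sum_pairs_S`: pairs `(m₁, m₂)` of squarefree elements as `(d, f, k₁, k₂)`
* `bil_identity`: the bilinear dual identity with a fixed twist `sy n B₀ conj (sy n A₀)`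
-/

set_option autoImplicit false

noncomputable section

open MeasureTheory Finset
open scoped ComplexConjugate

namespace Crest.Agent.R017.Dual2813

open Crest.Agent.R012
open Eis LS2 Mob705 CR2 MelSep811
open Gauss880 (syG)
open Poisson381 (gau norm_gau summable_gau_one summable_gau)

/-- the frequency `l` term -/
def phl (Z : ℝ) (e l B A : Eis) : ℂ :=
  Ue e l B * conj (Ue e l A) *
    ((Real.exp (-(4 * Real.pi ^ 2 * Z * nm l) / (3 * nm e * nm B * nm A)) : ℝ) : ℂ)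

/-- the dual of a pair of characters -/
def Phi (Z : ℝ) (e B A : Eis) : ℂ :=
  ((2 * Real.pi * Z / (Real.sqrt 3 * nm e) : ℝ) : ℂ) * ∑' l : Eis, phl Z e l B A

open Classical in
lemma pdiv_indicator {c : Eis} (hc : IsPrim c) (sc : Squarefree c) (n : Eis) :
    (if IsCoprime n c then (1 : ℂ) else 0) =
      ∑ e ∈ pdiv c, (mu e : ℂ) * (if e ∣ n then 1 else 0) := by
  have h1 := (isPS_pp c).indicator n
  have h2 : pr (pp c) = c := pr_pp' hc sc
  rw [h2] at h1
  rw [sum_pdiv_mu hc.ne_zero (fun e => if e ∣ n then (1 : ℂ) else 0), h1]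
  rfl

lemma norm_phl_le {Z : ℝ} {e l B A : Eis} (hB : IsPrim B) (hA : IsPrim A) :
    ‖phl Z e l B A‖ ≤ Real.exp (-(4 * Real.pi ^ 2 * Z * nm l) / (3 * nm e * nm B * nm A)) := by
  unfold phl
  rw [norm_mul, norm_mul, RCLike.norm_conj, Complex.norm_real,
    Real.norm_of_nonneg (Real.exp_pos _).le]
  have b1 := norm_Ue_le_one syG hB e l
  have b2 := norm_Ue_le_one syG hA e l
  exact mul_le_of_le_one_left (Real.exp_pos _).le (mul_le_one₀ b1 (norm_nonneg _) b2)

lemma summable_phl {Z : ℝ} (hZ : 0 < Z) {e B A : Eis} (he : e ≠ 0) (hB : IsPrim B)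
    (hA : IsPrim A) : Summable fun l : Eis => phl Z e l B A := by
  have n1 : 0 < (nm B : ℝ) := by exact_mod_cast nm_pos.2 hB.ne_zero
  have n2 : 0 < (nm A : ℝ) := by exact_mod_cast nm_pos.2 hA.ne_zero
  have n3 : 0 < (nm e : ℝ) := by exact_mod_cast nm_pos.2 he
  have hpi := Real.pi_pos
  refine Summable.of_norm_bounded (summable_exp_nm
    (a := 4 * Real.pi ^ 2 * Z / (3 * nm e * nm B * nm A)) (by positivity)) (fun l => ?_)
  refine (norm_phl_le hB hA).trans (le_of_eq ?_)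
  congr 1
  ring

open Classical in
/-- **the pair sum with a coprimality condition** -/
theorem pair_cop {Z : ℝ} (hZ : 0 < Z) {c B A : Eis} (hc : IsPrim c) (sc : Squarefree c)
    (hB : IsPrim B) (sB : Squarefree B) (hA : IsPrim A) (sA : Squarefree A)
    (hcop : IsCoprime B A) :
    ∑' n : Eis, ((Real.exp (-(nm n : ℝ) / Z) : ℝ) : ℂ) *
        ((if IsCoprime n c then (1 : ℂ) else 0) * (sy n B * conj (sy n A))) =
      ∑ e ∈ pdiv c, (mu e : ℂ) * Phi Z e B A := by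
  set t : ℝ := 1 / (Real.pi * Z) with ht
  have hpi := Real.pi_pos
  have htpos : 0 < t := by rw [ht]; positivity
  have n1 : 0 < (nm B : ℝ) := by exact_mod_cast nm_pos.2 hB.ne_zero
  have n2 : 0 < (nm A : ℝ) := by exact_mod_cast nm_pos.2 hA.ne_zero
  have hg : ∀ n : Eis, ((Real.exp (-(nm n : ℝ) / Z) : ℝ) : ℂ) = gau t (toC n) := by
    intro n
    rw [gau_eq_exp]
    congr 2
    rw [ht]; field_simp
  have e1 : ∀ n : Eis, ((Real.exp (-(nm n : ℝ) / Z) : ℝ) : ℂ) *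
        ((if IsCoprime n c then (1 : ℂ) else 0) * (sy n B * conj (sy n A))) =
      ∑ e ∈ pdiv c, (mu e : ℂ) * ((if e ∣ n then (1 : ℂ) else 0) *
        ((sy n B * conj (sy n A)) * gau t (toC n))) := by
    intro n
    rw [pdiv_indicator hc sc n, hg, Finset.sum_mul, Finset.mul_sum]
    refine Finset.sum_congr rfl fun e _ => by ring
  simp_rw [e1]
  have hsum : ∀ e ∈ pdiv c, Summable fun n : Eis => (mu e : ℂ) *
      ((if e ∣ n then (1 : ℂ) else 0) * ((sy n B * conj (sy n A)) * gau t (toC n))) := by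
    intro e _
    refine Summable.mul_left _ ?_
    refine Summable.of_norm_bounded (summable_gau_one htpos).norm (fun m => ?_)
    rw [norm_mul, norm_mul]
    have b1 : ‖(if e ∣ m then (1 : ℂ) else 0)‖ ≤ 1 := by split_ifs <;> simp
    have b2 := sy_bdd Sym645.syFacts hB hA m
    calc _ ≤ 1 * (1 * ‖gau t (toC m)‖) := by gcongr
      _ = _ := by ring
  rw [Summable.tsum_finsetSum hsum]
  refine Finset.sum_congr rfl fun e he => ?_
  have he' := (mem_pdiv hc.ne_zero).1 he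
  have n3 : 0 < (nm e : ℝ) := by exact_mod_cast nm_pos.2 he'.1.ne_zero
  rw [tsum_mul_left]
  congr 1
  have h := (pair_dvd Sym645.syFacts syG htpos hB hA sB sA hcop he'.1.ne_zero).tsum_eq
  rw [← h, tsum_mul_left]
  unfold Phi
  have e5 : (2 / Real.sqrt 3 * (t * nm e)⁻¹ : ℝ) = 2 * Real.pi * Z / (Real.sqrt 3 * nm e) := by
    rw [ht]
    have h3 : 0 < Real.sqrt 3 := Real.sqrt_pos.2 (by norm_num)
    field_simp
  rw [e5]
  congr 1
  apply tsum_congr
  intro l
  unfold phl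
  rw [Ue_eq syG hB, Ue_eq syG hA, gau_eq_exp]
  have e6 : -(Real.pi * (4 / (3 * (t * nm e * (nm B * nm A)))) * nm l) =
      -(4 * Real.pi ^ 2 * Z * nm l) / (3 * nm e * nm B * nm A) := by
    rw [ht]; field_simp
  rw [e6]
  ring

lemma S_of_dvd {X : ℝ} (hX : 0 ≤ X) {k h : Eis} (hh : h ∈ S X) (hk : IsPrim k) (hd : k ∣ h) :
    k ∈ S X := by
  rw [mem_S hX] at hh ⊢
  refine ⟨le_trans ?_ hh.1, hk, hh.2.2.squarefree_of_dvd hd⟩
  exact_mod_cast Div277.nm_le_of_dvd hh.2.1.ne_zero hd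

open Classical in
lemma sum_mult {X : ℝ} (hX : 0 ≤ X) {f : Eis} (hf : IsPrim f) (g : Eis → ℂ)
    (hg : ∀ k, k ∉ S X → g k = 0) :
    ∑ k ∈ S X, (if f ∣ k then g k else 0) = ∑ j ∈ S X, g (f * j) := by
  rw [← Finset.sum_filter]
  have h1 : ∑ j ∈ S X, g (f * j) = ∑ j ∈ (S X).filter (fun j => f * j ∈ S X), g (f * j) := by
    symm
    apply Finset.sum_filter_of_ne
    intro j _ hne
    by_contra hc
    exact hne (hg _ hc)
  rw [h1]
  symm
  refine Finset.sum_bij (fun j _ => f * j) ?_ ?_ ?_ ?_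
  · intro j hj
    rw [Finset.mem_filter] at hj ⊢
    exact ⟨hj.2, dvd_mul_right _ _⟩
  · intro a _ b _ hab
    exact mul_left_cancel₀ hf.ne_zero hab
  · intro k hk
    rw [Finset.mem_filter] at hk
    obtain ⟨j, hj⟩ := hk.2
    have hk' := (mem_S hX).1 hk.1
    refine ⟨j, ?_, hj.symm⟩
    rw [Finset.mem_filter, ← hj]
    refine ⟨?_, hk.1⟩
    exact S_of_dvd hX hk.1 (IsPrim.of_mul_left (hj ▸ hk'.2.1) hf) ⟨f, by rw [hj]; ring⟩
  · intro j _
    rfl

open Classical in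
lemma coprime_indicator {X : ℝ} (hX : 0 ≤ X) {k1 k2 : Eis} (h1 : k1 ∈ S X) (h2 : k2 ∈ S X) :
    (if IsCoprime k1 k2 then (1 : ℂ) else 0) =
      ∑ f ∈ S X, (mu f : ℂ) * (if f ∣ k1 then (if f ∣ k2 then 1 else 0) else 0) := by
  have h1' := (mem_S hX).1 h1
  have h2' := (mem_S hX).1 h2
  have h := sum_mu_coprime h2'.2.1 h1'.2.1.ne_zero
  have h3 := congrArg (fun z : ℤ => (z : ℂ)) h
  beta_reduce at h3
  push_cast at h3
  have h4 : (if IsCoprime k1 k2 then (1 : ℂ) else 0) = (if IsCoprime k2 k1 then (1 : ℂ) else 0) := by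
    simp only [isCoprime_comm]
  rw [h4, ← h3]
  have hsub : pdiv k1 ⊆ S X := fun f hf => by
    have hf' := (mem_pdiv h1'.2.1.ne_zero).1 hf
    exact S_of_dvd hX h1 hf'.1 hf'.2
  rw [← Finset.sum_subset hsub]
  · refine Finset.sum_congr rfl fun f hf => ?_
    have hf' := (mem_pdiv h1'.2.1.ne_zero).1 hf
    rw [if_pos hf'.2]
    split_ifs <;> simp
  · intro f hf hn
    have hfS := (mem_S hX).1 hf
    rw [if_neg, mul_zero]
    intro hd
    exact hn ((mem_pdiv h1'.2.1.ne_zero).2 ⟨hfS.2.1, hd⟩)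

open Classical in
/-- **pairs of squarefree elements** split over gcd and Moebius -/
theorem sum_pairs_S {X : ℝ} (hX : 0 ≤ X) (α β : Eis → ℂ) (hα : ∀ k, k ∉ S X → α k = 0)
    (hβ : ∀ k, k ∉ S X → β k = 0) (K : Eis → Eis → ℂ) (Ψ : Eis → Eis → Eis → ℂ)
    (hK : ∀ d k1 k2 : Eis, α (d * k1) ≠ 0 → β (d * k2) ≠ 0 → IsCoprime k1 k2 → IsPrim d →
      IsPrim k1 → IsPrim k2 → K (d * k1) (d * k2) = Ψ d k1 k2) :
    ∑ m1 ∈ S X, ∑ m2 ∈ S X, α m1 * conj (β m2) * K m1 m2 =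
      ∑ d ∈ S X, ∑ f ∈ S X, (mu f : ℂ) * ∑ k1 ∈ S X, ∑ k2 ∈ S X,
        α (d * f * k1) * conj (β (d * f * k2)) * Ψ d (f * k1) (f * k2) := by
  rw [Tau671.sum_pairs_gcd (S := S X) (D := S X) (fun b hb => ((mem_S hX).1 hb).2)
    (fun d hd => ((mem_S hX).1 hd).2.1) (fun b hb d hd hdb => S_of_dvd hX hb hd hdb)
    (fun m1 m2 => α m1 * conj (β m2) * K m1 m2)]
  refine Finset.sum_congr rfl fun d hd => ?_
  have hd' := (mem_S hX).1 hd
  have hdiv : ∀ k, d * k ∈ S X → k ∈ S X := by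
    intro k hk
    have hk' := (mem_S hX).1 hk
    exact S_of_dvd hX hk (IsPrim.of_mul_left hk'.2.1 hd'.2.1) (dvd_mul_left _ _)
  -- each term
  have e1 : ∀ k1 ∈ S X, ∀ k2 ∈ S X,
      (if d * k1 ∈ S X ∧ d * k2 ∈ S X ∧ IsCoprime k1 k2 then
        α (d * k1) * conj (β (d * k2)) * K (d * k1) (d * k2) else 0) =
      ∑ f ∈ S X, (mu f : ℂ) * (if f ∣ k1 then (if f ∣ k2 then
        α (d * k1) * conj (β (d * k2)) * Ψ d k1 k2 else 0) else 0) := by
    intro k1 h1 k2 h2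
    have h1' := (mem_S hX).1 h1
    have h2' := (mem_S hX).1 h2
    have e2 : ∑ f ∈ S X, (mu f : ℂ) * (if f ∣ k1 then (if f ∣ k2 then
        α (d * k1) * conj (β (d * k2)) * Ψ d k1 k2 else 0) else 0) =
        (if IsCoprime k1 k2 then (1 : ℂ) else 0) *
          (α (d * k1) * conj (β (d * k2)) * Ψ d k1 k2) := by
      rw [coprime_indicator hX h1 h2, Finset.sum_mul]
      refine Finset.sum_congr rfl fun f _ => ?_
      split_ifs <;> ring
    rw [e2]
    by_cases a1 : α (d * k1) = 0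
    · rw [a1]; simp
    by_cases a2 : β (d * k2) = 0
    · rw [a2]; simp
    have m1 : d * k1 ∈ S X := by by_contra hc; exact a1 (hα _ hc)
    have m2 : d * k2 ∈ S X := by by_contra hc; exact a2 (hβ _ hc)
    by_cases hc : IsCoprime k1 k2
    · rw [if_pos ⟨m1, m2, hc⟩, if_pos hc, one_mul, hK d k1 k2 a1 a2 hc hd'.2.1 h1'.2.1 h2'.2.1]
    · rw [if_neg (fun h => hc h.2.2), if_neg hc, zero_mul]
  rw [Finset.sum_congr rfl fun k1 h1 => Finset.sum_congr rfl fun k2 h2 => e1 k1 h1 k2 h2]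
  rw [Finset.sum_congr rfl fun k1 _ => Finset.sum_comm]
  rw [Finset.sum_comm]
  refine Finset.sum_congr rfl fun f hf => ?_
  have hf' := (mem_S hX).1 hf
  have e3 : ∀ k1 ∈ S X, ∑ k2 ∈ S X, (mu f : ℂ) * (if f ∣ k1 then (if f ∣ k2 then
        α (d * k1) * conj (β (d * k2)) * Ψ d k1 k2 else 0) else 0) =
      (mu f : ℂ) * (if f ∣ k1 then ∑ k2 ∈ S X,
        (if f ∣ k2 then α (d * k1) * conj (β (d * k2)) * Ψ d k1 k2 else 0) else 0) := by
    intro k1 _
    rw [← Finset.mul_sum]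
    congr 1
    split_ifs with h
    · rfl
    · simp
  rw [Finset.sum_congr rfl e3, ← Finset.mul_sum]
  congr 1
  rw [sum_mult hX hf'.2.1 (fun k1 => ∑ k2 ∈ S X,
        (if f ∣ k2 then α (d * k1) * conj (β (d * k2)) * Ψ d k1 k2 else 0))]
  swap
  · intro k hk
    apply Finset.sum_eq_zero
    intro k2 _
    have : α (d * k) = 0 := hα _ (fun h => hk (hdiv k h))
    rw [this]
    simp
  refine Finset.sum_congr rfl fun k1 _ => ?_
  rw [sum_mult hX hf'.2.1 (fun k2 => α (d * (f * k1)) * conj (β (d * k2)) * Ψ d (f * k1) k2)]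
  · refine Finset.sum_congr rfl fun k2 _ => ?_
    rw [mul_assoc d f k1, mul_assoc d f k2]
  · intro k hk
    have : β (d * k) = 0 := hβ _ (fun h => hk (hdiv k h))
    rw [this]
    simp

/-- linear form -/
def lin (X : ℝ) (α : Eis → ℂ) (n : Eis) : ℂ := ∑ m ∈ S X, α m * sy n m

/-- bilinear dual form -/
def qb (α β : Eis → ℂ) (X Z : ℝ) (B A d e f l : Eis) : ℂ :=
  ∑ k1 ∈ S X, ∑ k2 ∈ S X, α (d * f * k1) * conj (β (d * f * k2)) *
    phl Z e l (B * (f * k1)) (A * (f * k2))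

open Classical in
lemma summable_tw {Z : ℝ} (hZ : 0 < Z) (g : Eis → ℂ) {M : ℝ} (hg : ∀ n, ‖g n‖ ≤ M) :
    Summable fun n : Eis => ((Real.exp (-(nm n : ℝ) / Z) : ℝ) : ℂ) * g n := by
  refine Summable.of_norm_bounded ((summable_exp_nm (a := 1 / Z) (by positivity)).mul_right M)
    (fun n => ?_)
  rw [norm_mul, Complex.norm_real, Real.norm_of_nonneg (Real.exp_pos _).le]
  have e1 : -(nm n : ℝ) / Z = -(1 / Z * nm n) := by ring
  rw [e1]
  exact mul_le_mul_of_nonneg_left (hg n) (Real.exp_pos _).le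

open Classical in
/-- the twist -/
def tws (c B A n : Eis) : ℂ := (if IsCoprime n c then (1 : ℂ) else 0) * (sy n B * conj (sy n A))

lemma norm_tws_le {c B A : Eis} (hB : IsPrim B) (hA : IsPrim A) (n : Eis) :
    ‖tws c B A n‖ ≤ 1 := by
  classical
  unfold tws
  rw [norm_mul]
  have b1 : ‖(if IsCoprime n c then (1 : ℂ) else 0)‖ ≤ 1 := by split_ifs <;> simp
  have b2 := sy_bdd Sym645.syFacts hB hA n
  exact mul_le_one₀ b1 (norm_nonneg _) b2

lemma tws_mul {c B A d k1 k2 n : Eis} (hc : IsPrim c) (hB : IsPrim B) (hA : IsPrim A)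
    (hd : IsPrim d) (h1 : IsPrim k1) (h2 : IsPrim k2) :
    tws c B A n * (sy n (d * k1) * conj (sy n (d * k2))) =
      tws (c * d) (B * k1) (A * k2) n := by
  classical
  unfold tws
  rw [syG.mul_right _ _ _ hd h1, syG.mul_right _ _ _ hd h2, syG.mul_right _ _ _ hB h1,
    syG.mul_right _ _ _ hA h2]
  have e1 := sy_mul_conj_ite Sym645.syFacts hd n
  have e2 : (if IsCoprime n (c * d) then (1 : ℂ) else 0) =
      (if IsCoprime n c then (1 : ℂ) else 0) * (if IsCoprime n d then 1 else 0) := by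
    by_cases a1 : IsCoprime n c
    · by_cases a2 : IsCoprime n d
      · rw [if_pos a1, if_pos a2, if_pos (a1.mul_right a2), one_mul]
      · rw [if_pos a1, if_neg a2, if_neg (fun h => a2 h.of_mul_right_right), mul_zero]
    · rw [if_neg a1, if_neg (fun h => a1 h.of_mul_right_left), zero_mul]
  rw [e2, ← e1]
  simp only [map_mul]
  ring

open Classical in
/-- **the bilinear dual identity with a fixed twist** -/
theorem bil_identity {X Z : ℝ} (hX : 0 ≤ X) (hZ : 0 < Z) {c B A : Eis} (hc : IsPrim c)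
    (sc : Squarefree c) (hB : IsPrim B) (sB : Squarefree B) (hA : IsPrim A) (sA : Squarefree A)
    (hBA : IsCoprime B A) (α β : Eis → ℂ) (hα : ∀ k, k ∉ S X → α k = 0)
    (hβ : ∀ k, k ∉ S X → β k = 0)
    (cα : ∀ k, α k ≠ 0 → IsCoprime k c ∧ IsCoprime k B ∧ IsCoprime k A)
    (cβ : ∀ k, β k ≠ 0 → IsCoprime k c ∧ IsCoprime k B ∧ IsCoprime k A) :
    ∑' n : Eis, ((Real.exp (-(nm n : ℝ) / Z) : ℝ) : ℂ) *
        (tws c B A n * (lin X α n * conj (lin X β n))) =
      ∑ d ∈ S X, ∑ e ∈ pdiv (c * d), ∑ f ∈ S X, (mu e : ℂ) * (mu f : ℂ) *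
        ((2 * Real.pi * Z / (Real.sqrt 3 * nm e) : ℝ) : ℂ) *
          ∑' l : Eis, qb α β X Z B A d e f l := by
  set K : Eis → Eis → ℂ := fun m1 m2 => ∑' n : Eis, ((Real.exp (-(nm n : ℝ) / Z) : ℝ) : ℂ) *
        (tws c B A n * (sy n m1 * conj (sy n m2))) with hK
  set Ψ : Eis → Eis → Eis → ℂ := fun d k1 k2 =>
    ∑ e ∈ pdiv (c * d), (mu e : ℂ) * Phi Z e (B * k1) (A * k2) with hΨ
  have hbd : ∀ m1 ∈ S X, ∀ m2 ∈ S X, ∀ n,
      ‖tws c B A n * (sy n m1 * conj (sy n m2))‖ ≤ 1 := by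
    intro m1 h1 m2 h2 n
    rw [norm_mul]
    exact mul_le_one₀ (norm_tws_le hB hA n) (norm_nonneg _)
      (sy_bdd Sym645.syFacts ((mem_S hX).1 h1).2.1 ((mem_S hX).1 h2).2.1 n)
  -- step 1: expand
  have s1 : ∑' n : Eis, ((Real.exp (-(nm n : ℝ) / Z) : ℝ) : ℂ) *
        (tws c B A n * (lin X α n * conj (lin X β n))) =
      ∑ m1 ∈ S X, ∑ m2 ∈ S X, α m1 * conj (β m2) * K m1 m2 := by
    have e1 : ∀ n : Eis, ((Real.exp (-(nm n : ℝ) / Z) : ℝ) : ℂ) *
        (tws c B A n * (lin X α n * conj (lin X β n))) =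
        ∑ m1 ∈ S X, ∑ m2 ∈ S X, α m1 * conj (β m2) *
          (((Real.exp (-(nm n : ℝ) / Z) : ℝ) : ℂ) *
            (tws c B A n * (sy n m1 * conj (sy n m2)))) := by
      intro n
      unfold lin
      rw [map_sum, Finset.sum_mul_sum, Finset.mul_sum, Finset.mul_sum]
      refine Finset.sum_congr rfl fun m1 _ => ?_
      rw [Finset.mul_sum, Finset.mul_sum]
      refine Finset.sum_congr rfl fun m2 _ => ?_
      rw [map_mul]; ring
    simp_rw [e1]
    have hs : ∀ m1 ∈ S X, ∀ m2 ∈ S X, Summable fun n : Eis => α m1 * conj (β m2) *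
          (((Real.exp (-(nm n : ℝ) / Z) : ℝ) : ℂ) *
            (tws c B A n * (sy n m1 * conj (sy n m2)))) := fun m1 h1 m2 h2 =>
      (summable_tw hZ _ (hbd m1 h1 m2 h2)).mul_left _
    rw [Summable.tsum_finsetSum (fun m1 h1 => summable_sum fun m2 h2 => hs m1 h1 m2 h2)]
    refine Finset.sum_congr rfl fun m1 h1 => ?_
    rw [Summable.tsum_finsetSum (fun m2 h2 => hs m1 h1 m2 h2)]
    refine Finset.sum_congr rfl fun m2 h2 => ?_
    rw [tsum_mul_left]
  -- step 2: gcd structure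
  have s2 : ∑ m1 ∈ S X, ∑ m2 ∈ S X, α m1 * conj (β m2) * K m1 m2 =
      ∑ d ∈ S X, ∑ f ∈ S X, (mu f : ℂ) * ∑ k1 ∈ S X, ∑ k2 ∈ S X,
        α (d * f * k1) * conj (β (d * f * k2)) * Ψ d (f * k1) (f * k2) := by
    apply sum_pairs_S hX α β hα hβ
    intro d k1 k2 a1 a2 hcop hd h1 h2
    have m1 : d * k1 ∈ S X := by by_contra h; exact a1 (hα _ h)
    have m2 : d * k2 ∈ S X := by by_contra h; exact a2 (hβ _ h)
    have q1 := (mem_S hX).1 m1
    have q2 := (mem_S hX).1 m2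
    have c1 := cα _ a1
    have c2 := cβ _ a2
    have r1 := squarefree_mul_iff.1 q1.2.2
    have r2 := squarefree_mul_iff.1 q2.2.2
    have g1 : IsCoprime B k1 := (c1.2.1.of_mul_left_right).symm
    have g2 : IsCoprime A k2 := (c2.2.2.of_mul_left_right).symm
    have g3 : IsCoprime B k2 := (c2.2.1.of_mul_left_right).symm
    have g4 : IsCoprime A k1 := (c1.2.2.of_mul_left_right).symm
    have g5 : IsCoprime c d := (c1.1.of_mul_left_left).symm
    have sBk : Squarefree (B * k1) := squarefree_mul_iff.2 ⟨g1.isRelPrime, sB, r1.2.2⟩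
    have sAk : Squarefree (A * k2) := squarefree_mul_iff.2 ⟨g2.isRelPrime, sA, r2.2.2⟩
    have scd : Squarefree (c * d) := squarefree_mul_iff.2 ⟨g5.isRelPrime, sc, r1.2.1⟩
    have hco : IsCoprime (B * k1) (A * k2) :=
      (hBA.mul_right g3).mul_left ((g4.symm).mul_right hcop)
    rw [hK, hΨ]
    simp only
    rw [← pair_cop hZ (hc.mul hd) scd (hB.mul h1) sBk (hA.mul h2) sAk hco]
    apply tsum_congr
    intro n
    rw [tws_mul hc hB hA hd h1 h2]
    rfl
  rw [s1, s2]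
  refine Finset.sum_congr rfl fun d hd => ?_
  have hd' := (mem_S hX).1 hd
  rw [Finset.sum_comm]
  refine Finset.sum_congr rfl fun f hf => ?_
  have hf' := (mem_S hX).1 hf
  rw [hΨ]
  simp only
  have e3 : ∀ k1 ∈ S X, ∀ k2 ∈ S X, α (d * f * k1) * conj (β (d * f * k2)) *
      ∑ e ∈ pdiv (c * d), (mu e : ℂ) * Phi Z e (B * (f * k1)) (A * (f * k2)) =
      ∑ e ∈ pdiv (c * d), α (d * f * k1) * conj (β (d * f * k2)) *
        ((mu e : ℂ) * Phi Z e (B * (f * k1)) (A * (f * k2))) := fun k1 _ k2 _ => by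
    rw [Finset.mul_sum]
  rw [Finset.sum_congr rfl fun k1 h1 => Finset.sum_congr rfl fun k2 h2 => e3 k1 h1 k2 h2]
  rw [Finset.sum_congr rfl fun k1 _ => Finset.sum_comm]
  rw [Finset.sum_comm, Finset.mul_sum]
  refine Finset.sum_congr rfl fun e he => ?_
  have hcd0 : c * d ≠ 0 := mul_ne_zero hc.ne_zero hd'.2.1.ne_zero
  have he' := (mem_pdiv hcd0).1 he
  have hsm : ∀ k1 ∈ S X, ∀ k2 ∈ S X, Summable fun l : Eis =>
      α (d * f * k1) * conj (β (d * f * k2)) * phl Z e l (B * (f * k1)) (A * (f * k2)) := by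
    intro k1 h1 k2 h2
    have h1' := (mem_S hX).1 h1
    have h2' := (mem_S hX).1 h2
    exact (summable_phl hZ he'.1.ne_zero (hB.mul (hf'.2.1.mul h1'.2.1))
      (hA.mul (hf'.2.1.mul h2'.2.1))).mul_left _
  have e4 : ∑' l : Eis, qb α β X Z B A d e f l = ∑ k1 ∈ S X, ∑ k2 ∈ S X,
      α (d * f * k1) * conj (β (d * f * k2)) *
        ∑' l : Eis, phl Z e l (B * (f * k1)) (A * (f * k2)) := by
    unfold qb
    rw [Summable.tsum_finsetSum (fun k1 h1 => summable_sum fun k2 h2 => hsm k1 h1 k2 h2)]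
    refine Finset.sum_congr rfl fun k1 h1 => ?_
    rw [Summable.tsum_finsetSum (fun k2 h2 => hsm k1 h1 k2 h2)]
    refine Finset.sum_congr rfl fun k2 h2 => ?_
    rw [tsum_mul_left]
  rw [e4, Finset.mul_sum, Finset.mul_sum]
  refine Finset.sum_congr rfl fun k1 _ => ?_
  rw [Finset.mul_sum, Finset.mul_sum]
  refine Finset.sum_congr rfl fun k2 _ => ?_
  unfold Phi
  ring

end Crest.Agent.R017.Dual2813
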