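import Crest.Agent.R017.Dual2B_813

/-!
# Row 17: the two-parameter dual inequality, part C (zero frequency)

* `TT_identity` : the bilinear forms in dual variables
* `qb_zero`     : the zero frequency
* `dual2_exact` : the dual inequality with the exact dual forms
-/

set_option autoImplicit false

noncomputable section

open MeasureTheory Finset
open scoped ComplexConjugate

namespace Crest.Agent.R017.Dual2813

open Crest.Agent.R012
open Eis LS2 Mob705 CR2 MelSep811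
open Gauss880 (syG)

/-- the dual form of `(a, b, c, u, v)` -/
def Q5 (w : Eis → Eis → ℂ) (X Z : ℝ) (a b c u v d e f l : Eis) : ℂ :=
  qb (al w X a (b * (c * u)) (a * (c * v))) (al w X b (a * (c * v)) (b * (c * u)))
    X Z (b * v) (a * u) d e f l

lemma tsum_lin_zero {X Z : ℝ} (c B A : Eis) (α β : Eis → ℂ) (h : (∀ m, α m = 0) ∨ ∀ m, β m = 0) :
    ∑' n : Eis, ((Real.exp (-(nm n : ℝ) / Z) : ℝ) : ℂ) *
        (tws c B A n * (lin X α n * conj (lin X β n))) = 0 := by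
  have h1 : ∀ n, lin X α n * conj (lin X β n) = 0 := by
    intro n
    unfold lin
    rcases h with h | h
    · simp [h]
    · simp [h]
  simp [h1]

lemma qb_zero_of {X Z : ℝ} (B A d e f l : Eis) (α β : Eis → ℂ)
    (h : (∀ m, α m = 0) ∨ ∀ m, β m = 0) : qb α β X Z B A d e f l = 0 := by
  unfold qb
  rcases h with h | h
  · simp [h]
  · simp [h]

open Classical in
theorem TT_identity {X Y Z : ℝ} (hX : 0 ≤ X) (hY : 0 ≤ Y) (hZ : 0 < Z) {w : Eis → Eis → ℂ}
    (hw : Supp X Y w) {a b c u v : Eis} (ha : a ∈ S Y) (hb : b ∈ S Y) (hc : c ∈ S Y)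
    (hu : u ∈ S Y) (hv : v ∈ S Y) (h1 : b * (c * u) ∈ S Y) (h2 : a * (c * v) ∈ S Y)
    (huv : IsCoprime u v) :
    TT w X Z a b c u v =
      ∑ d ∈ S X, ∑ e ∈ pdiv (c * d), ∑ f ∈ S X, (mu e : ℂ) * (mu f : ℂ) *
        ((2 * Real.pi * Z / (Real.sqrt 3 * nm e) : ℝ) : ℂ) *
          ∑' l : Eis, Q5 w X Z a b c u v d e f l := by
  set α := al w X a (b * (c * u)) (a * (c * v)) with hα
  set β := al w X b (a * (c * v)) (b * (c * u)) with hβ
  by_cases hz : (∀ m, α m = 0) ∨ ∀ m, β m = 0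
  · have e1 : TT w X Z a b c u v = 0 := tsum_lin_zero _ _ _ _ _ hz
    have e2 : ∀ d e f l, Q5 w X Z a b c u v d e f l = 0 := fun d e f l =>
      qb_zero_of _ _ _ _ _ _ _ _ hz
    rw [e1]
    simp [e2]
  push Not at hz
  obtain ⟨⟨m0, hm0⟩, ⟨m1, hm1⟩⟩ := hz
  have ha' := (mem_S hY).1 ha
  have hb' := (mem_S hY).1 hb
  have hc' := (mem_S hY).1 hc
  have hu' := (mem_S hY).1 hu
  have hv' := (mem_S hY).1 hv
  have g0 := al_ne hm0
  have g1 := al_ne hm1
  have w0 := (hw _ _ g0.2.2).2.2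
  have w1 := (hw _ _ g1.2.2).2.2
  have a_bcu : IsCoprime a (b * (c * u)) := w0.of_mul_left_left
  have b_acv : IsCoprime b (a * (c * v)) := w1.of_mul_left_left
  have ab : IsCoprime a b := a_bcu.of_mul_right_left
  have ac : IsCoprime a c := a_bcu.of_mul_right_right.of_mul_right_left
  have au : IsCoprime a u := a_bcu.of_mul_right_right.of_mul_right_right
  have bv : IsCoprime b v := b_acv.of_mul_right_right.of_mul_right_right
  have q1 := squarefree_mul_iff.1 ((mem_S hY).1 h1).2.2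
  have q2 := squarefree_mul_iff.1 ((mem_S hY).1 h2).2.2
  have bcu : IsCoprime b (c * u) := q1.1.isCoprime
  have acv : IsCoprime a (c * v) := q2.1.isCoprime
  have bu : IsCoprime b u := bcu.of_mul_right_right
  have av : IsCoprime a v := acv.of_mul_right_right
  have sB : Squarefree (b * v) := squarefree_mul_iff.2 ⟨bv.isRelPrime, hb'.2.2, hv'.2.2⟩
  have sA : Squarefree (a * u) := squarefree_mul_iff.2 ⟨au.isRelPrime, ha'.2.2, hu'.2.2⟩
  have hBA : IsCoprime (b * v) (a * u) :=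
    ((ab.symm).mul_right bu).mul_left ((av.symm).mul_right huv.symm)
  have cop : ∀ k : Eis, IsCoprime k (b * (c * u)) → IsCoprime k (a * (c * v)) →
      IsCoprime k c ∧ IsCoprime k (b * v) ∧ IsCoprime k (a * u) := by
    intro k k1 k2
    exact ⟨k1.of_mul_right_right.of_mul_right_left,
      k1.of_mul_right_left.mul_right k2.of_mul_right_right.of_mul_right_right,
      k2.of_mul_right_left.mul_right k1.of_mul_right_right.of_mul_right_right⟩
  unfold TT
  rw [← hα, ← hβ]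
  have := bil_identity hX hZ hc'.2.1 hc'.2.2 (hb'.2.1.mul hv'.2.1) sB (ha'.2.1.mul hu'.2.1) sA hBA
    α β (al_supp w X _ _ _) (al_supp w X _ _ _) (fun k hk => ?_) (fun k hk => ?_)
  · rw [this]
    rfl
  · have g := al_ne hk
    exact cop k (hw _ _ g.2.2).2.2.of_mul_left_right g.2.1
  · have g := al_ne hk
    exact cop k g.2.1 (hw _ _ g.2.2).2.2.of_mul_left_right

open Classical in
/-- the zero frequency -/
lemma qb_zero {X Z : ℝ} (hX : 1 ≤ X) {α β : Eis → ℂ} {B A d e f : Eis} (hB : IsPrim B)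
    (hA : IsPrim A) (hf : f ∈ S X) :
    qb α β X Z B A d e f 0 = if B = 1 ∧ A = 1 ∧ f = 1 then α d * conj (β d) else 0 := by
  have hX0 : 0 ≤ X := by linarith
  have hf' := (mem_S hX0).1 hf
  have h0 : nm (0 : Eis) = 0 := nm_eq_zero.2 rfl
  have hU : ∀ B' : Eis, IsPrim B' → ∀ k ∈ S X, Ue e 0 (B' * (f * k)) ≠ 0 →
      B' = 1 ∧ f = 1 ∧ k = 1 := by
    intro B' hB' k hk hne
    have hk' := (mem_S hX0).1 hk
    have h1 : B' * (f * k) = 1 := by
      by_contra hc
      exact hne (Ue_zero syG (hB'.mul (hf'.2.1.mul hk'.2.1)) hc e)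
    have hu : IsUnit B' := IsUnit.of_mul_eq_one _ h1
    have h2 := isPrim_eq_one_of_isUnit hB' hu
    rw [h2, one_mul] at h1
    have hu2 : IsUnit f := IsUnit.of_mul_eq_one _ h1
    have h3 := isPrim_eq_one_of_isUnit hf'.2.1 hu2
    rw [h3, one_mul] at h1
    exact ⟨h2, h3, h1⟩
  by_cases h : B = 1 ∧ A = 1 ∧ f = 1
  · rw [if_pos h]
    obtain ⟨h1, h2, h3⟩ := h
    unfold qb
    rw [Finset.sum_eq_single_of_mem 1 (one_mem_S hX)]
    · rw [Finset.sum_eq_single_of_mem 1 (one_mem_S hX)]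
      · unfold phl
        rw [h1, h2, h3, h0]
        simp only [mul_one]
        have : Ue e 0 1 * conj (Ue e 0 1) = 1 := by
          rw [Complex.mul_conj, Complex.normSq_eq_norm_sq, norm_Ue_one syG]; simp
        rw [this]
        simp
      · intro k hk hk1
        unfold phl
        have : Ue e 0 (A * (f * k)) = 0 := by
          by_contra hc
          exact hk1 (hU A hA k hk hc).2.2
        rw [this]; simp
    · intro k hk hk1
      apply Finset.sum_eq_zero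
      intro k2 _
      unfold phl
      have : Ue e 0 (B * (f * k)) = 0 := by
        by_contra hc
        exact hk1 (hU B hB k hk hc).2.2
      rw [this]; simp
  · rw [if_neg h]
    unfold qb
    apply Finset.sum_eq_zero
    intro k1 hk1
    apply Finset.sum_eq_zero
    intro k2 hk2
    unfold phl
    by_cases g1 : Ue e 0 (B * (f * k1)) = 0
    · rw [g1]; simp
    by_cases g2 : Ue e 0 (A * (f * k2)) = 0
    · rw [g2]; simp
    exact absurd ⟨(hU B hB k1 hk1 g1).1, (hU A hA k2 hk2 g2).1, (hU B hB k1 hk1 g1).2.1⟩ h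

lemma summable_qb {X Z : ℝ} (hX : 0 ≤ X) (hZ : 0 < Z) (α β : Eis → ℂ) {B A d e f : Eis}
    (hB : IsPrim B) (hA : IsPrim A) (he : e ≠ 0) (hf : f ∈ S X) :
    Summable fun l : Eis => qb α β X Z B A d e f l := by
  unfold qb
  have hf' := (mem_S hX).1 hf
  refine summable_sum fun k1 h1 => summable_sum fun k2 h2 => ?_
  have h1' := (mem_S hX).1 h1
  have h2' := (mem_S hX).1 h2
  exact (summable_phl hZ he (hB.mul (hf'.2.1.mul h1'.2.1))
      (hA.mul (hf'.2.1.mul h2'.2.1))).mul_left _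

open Classical in
/-- the nonzero frequencies -/
def N5 (w : Eis → Eis → ℂ) (X Z : ℝ) (a b c u v d e f : Eis) : ℂ :=
  ∑' l : Eis, if l = 0 then 0 else Q5 w X Z a b c u v d e f l

open Classical in
/-- one term -/
lemma norm_TT_le {X Y Z : ℝ} (hX : 1 ≤ X) (hY : 1 ≤ Y) (hZ : 0 < Z) {w : Eis → Eis → ℂ}
    (hw : Supp X Y w) {a b c u v : Eis} (ha : a ∈ S Y) (hb : b ∈ S Y) (hc : c ∈ S Y)
    (hu : u ∈ S Y) (hv : v ∈ S Y) (h1 : b * (c * u) ∈ S Y) (h2 : a * (c * v) ∈ S Y)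
    (huv : IsCoprime u v) :
    ‖TT w X Z a b c u v‖ ≤
      (if a = 1 ∧ b = 1 ∧ u = 1 ∧ v = 1 then
        2 * Real.pi * Z / Real.sqrt 3 * ∑ d ∈ S X, ‖w d c‖ ^ 2 else 0) +
      ∑ d ∈ S X, ∑ e ∈ (S (X * Y)).filter (· ∣ c * d), ∑ f ∈ S X,
        2 * Real.pi * Z / (Real.sqrt 3 * nm e) * ‖N5 w X Z a b c u v d e f‖ := by
  have hX0 : 0 ≤ X := by linarith
  have hY0 : 0 ≤ Y := by linarith
  have hs3 : 0 < Real.sqrt 3 := Real.sqrt_pos.2 (by norm_num)
  have hpi := Real.pi_pos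
  have ha' := (mem_S hY0).1 ha
  have hb' := (mem_S hY0).1 hb
  have hc' := (mem_S hY0).1 hc
  have hu' := (mem_S hY0).1 hu
  have hv' := (mem_S hY0).1 hv
  have hB := hb'.2.1.mul hv'.2.1
  have hA := ha'.2.1.mul hu'.2.1
  set α := al w X a (b * (c * u)) (a * (c * v)) with hα
  set β := al w X b (a * (c * v)) (b * (c * u)) with hβ
  have hsplit : ∀ d ∈ S X, ∀ e ∈ pdiv (c * d), ∀ f ∈ S X,
      ∑' l : Eis, Q5 w X Z a b c u v d e f l =
      (if b * v = 1 ∧ a * u = 1 ∧ f = 1 then α d * conj (β d) else 0) +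
        N5 w X Z a b c u v d e f := by
    intro d hd e he f hf
    have hd' := (mem_S hX0).1 hd
    have he' := (mem_pdiv (mul_ne_zero hc'.2.1.ne_zero hd'.2.1.ne_zero)).1 he
    have hs := summable_qb (Z := Z) hX0 hZ α β (d := d) hB hA he'.1.ne_zero hf
    have hs' : Summable fun l : Eis => Q5 w X Z a b c u v d e f l := hs
    rw [hs'.tsum_eq_add_tsum_ite 0]
    unfold N5
    have h0 : Q5 w X Z a b c u v d e f 0 = qb α β X Z (b * v) (a * u) d e f 0 := rfl
    rw [h0, qb_zero hX hB hA hf]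
  rw [TT_identity hX0 hY0 hZ hw ha hb hc hu hv h1 h2 huv]
  rw [Finset.sum_congr rfl fun d hd => Finset.sum_congr rfl fun e he =>
    Finset.sum_congr rfl fun f hf => by rw [hsplit d hd e he f hf, mul_add]]
  simp_rw [Finset.sum_add_distrib]
  refine (norm_add_le _ _).trans (add_le_add ?_ ?_)
  · -- zero frequency
    by_cases hBA : b * v = 1 ∧ a * u = 1
    · have hbv : b = 1 ∧ v = 1 := by
        have h3 := isPrim_eq_one_of_isUnit hb'.2.1 (IsUnit.of_mul_eq_one _ hBA.1)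
        exact ⟨h3, by rw [h3, one_mul] at hBA; exact hBA.1⟩
      have hau : a = 1 ∧ u = 1 := by
        have h3 := isPrim_eq_one_of_isUnit ha'.2.1 (IsUnit.of_mul_eq_one _ hBA.2)
        exact ⟨h3, by rw [h3, one_mul] at hBA; exact hBA.2⟩
      rw [if_pos ⟨hau.1, hbv.1, hau.2, hbv.2⟩]
      have e1 : ∀ d ∈ S X, ∑ e ∈ pdiv (c * d), ∑ f ∈ S X, (mu e : ℂ) * (mu f : ℂ) *
          ((2 * Real.pi * Z / (Real.sqrt 3 * nm e) : ℝ) : ℂ) *
          (if b * v = 1 ∧ a * u = 1 ∧ f = 1 then α d * conj (β d) else 0) =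
          ((2 * Real.pi * Z / Real.sqrt 3 *
            ∑ e ∈ pdiv (c * d), (mu e : ℝ) * (1 / (nm e : ℝ)) : ℝ) : ℂ) *
            (α d * conj (β d)) := by
        intro d hd
        have hd' := (mem_S hX0).1 hd
        rw [Finset.mul_sum]
        push_cast
        rw [Finset.sum_mul]
        refine Finset.sum_congr rfl fun e he => ?_
        have he' := (mem_pdiv (mul_ne_zero hc'.2.1.ne_zero hd'.2.1.ne_zero)).1 he
        rw [Finset.sum_eq_single_of_mem 1 (one_mem_S hX)]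
        · rw [if_pos ⟨hBA.1, hBA.2, rfl⟩, mu_one]
          have hn : (nm e : ℂ) ≠ 0 := by exact_mod_cast (nm_pos.2 he'.1.ne_zero).ne'
          have hs3' : ((Real.sqrt 3 : ℝ) : ℂ) ≠ 0 := by exact_mod_cast hs3.ne'
          push_cast
          field_simp
        · intro f _ hf1
          rw [if_neg (fun h => hf1 h.2.2), mul_zero]
      rw [Finset.sum_congr rfl e1, Finset.mul_sum]
      refine (norm_sum_le _ _).trans (Finset.sum_le_sum fun d hd => ?_)
      have hd' := (mem_S hX0).1 hd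
      have hbd := sum_mu_div_bounds (c * d) (mul_ne_zero hc'.2.1.ne_zero hd'.2.1.ne_zero)
      rw [norm_mul, norm_mul, RCLike.norm_conj, Complex.norm_real, Real.norm_of_nonneg
        (mul_nonneg (by positivity) hbd.1)]
      have hαd : ‖α d‖ ≤ ‖w d c‖ := by
        rw [hα]; unfold al
        rw [hau.1, hbv.1, hau.2, hbv.2]
        simp only [one_mul, mul_one]
        split_ifs
        · exact le_rfl
        · rw [norm_zero]; exact norm_nonneg _
      have hβd : ‖β d‖ ≤ ‖w d c‖ := by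
        rw [hβ]; unfold al
        rw [hau.1, hbv.1, hau.2, hbv.2]
        simp only [one_mul, mul_one]
        split_ifs
        · exact le_rfl
        · rw [norm_zero]; exact norm_nonneg _
      calc _ ≤ 2 * Real.pi * Z / Real.sqrt 3 * 1 * (‖w d c‖ * ‖w d c‖) := by
            gcongr
            exact hbd.2
        _ = _ := by ring
    · have e1 : ∑ d ∈ S X, ∑ e ∈ pdiv (c * d), ∑ f ∈ S X, (mu e : ℂ) * (mu f : ℂ) *
          ((2 * Real.pi * Z / (Real.sqrt 3 * nm e) : ℝ) : ℂ) *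
          (if b * v = 1 ∧ a * u = 1 ∧ f = 1 then α d * conj (β d) else 0) = 0 := by
        apply Finset.sum_eq_zero
        intro d _
        apply Finset.sum_eq_zero
        intro e _
        apply Finset.sum_eq_zero
        intro f _
        rw [if_neg (fun h => hBA ⟨h.1, h.2.1⟩), mul_zero]
      rw [e1, norm_zero]
      split_ifs <;> positivity
  · -- nonzero frequencies
    refine (norm_sum_le _ _).trans (Finset.sum_le_sum fun d hd => ?_)
    have hd' := (mem_S hX0).1 hd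
    have hcd : c * d ≠ 0 := mul_ne_zero hc'.2.1.ne_zero hd'.2.1.ne_zero
    have e2 : ∀ e ∈ pdiv (c * d), e ∉ (S (X * Y)).filter (· ∣ c * d) → mu e = 0 := by
      intro e he hne
      have he' := (mem_pdiv hcd).1 he
      apply mu_of_not_squarefree
      intro hsq
      apply hne
      rw [Finset.mem_filter, mem_S (by positivity)]
      refine ⟨⟨?_, he'.1, hsq⟩, he'.2⟩
      have h3 : (nm e : ℝ) ≤ nm (c * d) := by exact_mod_cast Div277.nm_le_of_dvd hcd he'.2
      rw [nm_mul] at h3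
      push_cast at h3
      have h4 := mul_le_mul hc'.1 hd'.1 (by positivity) (by positivity)
      linarith [mul_comm X Y]
    have e3 : ∑ e ∈ pdiv (c * d), ∑ f ∈ S X, (mu e : ℂ) * (mu f : ℂ) *
        ((2 * Real.pi * Z / (Real.sqrt 3 * nm e) : ℝ) : ℂ) * N5 w X Z a b c u v d e f =
        ∑ e ∈ (S (X * Y)).filter (· ∣ c * d), ∑ f ∈ S X, (mu e : ℂ) * (mu f : ℂ) *
        ((2 * Real.pi * Z / (Real.sqrt 3 * nm e) : ℝ) : ℂ) * N5 w X Z a b c u v d e f := by
      symm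
      apply Finset.sum_subset_zero_on_sdiff
      · intro e he
        rw [Finset.mem_filter, mem_S (by positivity)] at he
        exact (mem_pdiv hcd).2 ⟨he.1.2.1, he.2⟩
      · intro e he
        rw [Finset.mem_sdiff] at he
        apply Finset.sum_eq_zero
        intro f _
        rw [e2 e he.1 he.2]; simp
      · intro e _
        rfl
    rw [e3]
    refine (norm_sum_le _ _).trans (Finset.sum_le_sum fun e he => ?_)
    refine (norm_sum_le _ _).trans (Finset.sum_le_sum fun f hf => ?_)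
    rw [norm_mul, norm_mul, norm_mul, Complex.norm_real]
    have m1 : ‖((mu e : ℤ) : ℂ)‖ ≤ 1 := by
      rw [Complex.norm_intCast]; exact_mod_cast abs_mu_le_one e
    have m2 : ‖((mu f : ℤ) : ℂ)‖ ≤ 1 := by
      rw [Complex.norm_intCast]; exact_mod_cast abs_mu_le_one f
    have m3 : ‖((mu e : ℤ) : ℂ)‖ * ‖((mu f : ℤ) : ℂ)‖ ≤ 1 := mul_le_one₀ m1 (norm_nonneg _) m2
    have hpos : 0 ≤ 2 * Real.pi * Z / (Real.sqrt 3 * nm e) := by positivity
    rw [Real.norm_of_nonneg hpos]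
    calc _ ≤ 1 * (2 * Real.pi * Z / (Real.sqrt 3 * nm e)) * ‖N5 w X Z a b c u v d e f‖ := by
          gcongr
      _ = _ := by ring

lemma summable_lhs2 {X Y Z : ℝ} (hX : 0 ≤ X) (hY : 0 ≤ Y) (hZ : 0 < Z) (w : Eis → Eis → ℂ) :
    Summable fun n : Eis => Real.exp (-(nm n : ℝ) / Z) * ‖lin2 X Y w n‖ ^ 2 := by
  have h1 := (summable_exp_nm (a := 1 / Z) (by positivity)).mul_right
    ((∑ q ∈ S Y, ∑ h ∈ S X, ‖w h q‖) ^ 2)
  refine Summable.of_nonneg_of_le (fun n => by positivity) (fun n => ?_) h1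
  have e1 : -(nm n : ℝ) / Z = -(1 / Z * nm n) := by ring
  rw [e1]
  refine mul_le_mul_of_nonneg_left ?_ (Real.exp_pos _).le
  apply pow_le_pow_left₀ (norm_nonneg _)
  unfold lin2
  refine (norm_sum_le _ _).trans (Finset.sum_le_sum fun q hq => ?_)
  refine (norm_sum_le _ _).trans (Finset.sum_le_sum fun h hh => ?_)
  rw [norm_mul, norm_mul, RCLike.norm_conj]
  have b1 := Tau671.norm_sy_le ((mem_S hX).1 hh).2.1 (x := n)
  have b2 := Tau671.norm_sy_le ((mem_S hY).1 hq).2.1 (x := n)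
  calc _ ≤ ‖w h q‖ * 1 * 1 := by gcongr
    _ = _ := by ring

open Classical in
/-- **the dual inequality with exact dual forms** -/
theorem dual2_exact {X Y Z : ℝ} (hX : 1 ≤ X) (hY : 1 ≤ Y) (hZ : 0 < Z) {w : Eis → Eis → ℂ}
    (hw : Supp X Y w) :
    ∑' n : Eis, Real.exp (-(nm n : ℝ) / Z) * ‖lin2 X Y w n‖ ^ 2 ≤
      2 * Real.pi * Z / Real.sqrt 3 * ∑ q ∈ S Y, ∑ h ∈ S X, ‖w h q‖ ^ 2 +
      ∑ a ∈ S Y, ∑ b ∈ S Y, ∑ c ∈ S Y, ∑ u ∈ S Y, ∑ v ∈ S Y,
        (if b * (c * u) ∈ S Y ∧ a * (c * v) ∈ S Y ∧ IsCoprime u v then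
          ∑ d ∈ S X, ∑ e ∈ (S (X * Y)).filter (· ∣ c * d), ∑ f ∈ S X,
            2 * Real.pi * Z / (Real.sqrt 3 * nm e) * ‖N5 w X Z a b c u v d e f‖ else 0) := by
  have hX0 : 0 ≤ X := by linarith
  have hY0 : 0 ≤ Y := by linarith
  have hpi := Real.pi_pos
  have hL : ((∑' n : Eis, Real.exp (-(nm n : ℝ) / Z) * ‖lin2 X Y w n‖ ^ 2 : ℝ) : ℂ) =
      ∑' n : Eis, ((Real.exp (-(nm n : ℝ) / Z) : ℝ) : ℂ) * ((‖lin2 X Y w n‖ ^ 2 : ℝ) : ℂ) := by
    rw [Complex.ofReal_tsum]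
    apply tsum_congr
    intro n
    push_cast
    rfl
  have h0 : 0 ≤ ∑' n : Eis, Real.exp (-(nm n : ℝ) / Z) * ‖lin2 X Y w n‖ ^ 2 :=
    tsum_nonneg fun n => by positivity
  have h1 : ∑' n : Eis, Real.exp (-(nm n : ℝ) / Z) * ‖lin2 X Y w n‖ ^ 2 =
      ‖((∑' n : Eis, Real.exp (-(nm n : ℝ) / Z) * ‖lin2 X Y w n‖ ^ 2 : ℝ) : ℂ)‖ := by
    rw [Complex.norm_real, Real.norm_of_nonneg h0]
  rw [h1, hL, dual2_split hX0 hY0 hZ hw]
  set Zr : ℝ := 2 * Real.pi * Z / Real.sqrt 3 with hZr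
  set M : Eis → Eis → Eis → Eis → Eis → ℝ := fun a b c u v =>
    ∑ d ∈ S X, ∑ e ∈ (S (X * Y)).filter (· ∣ c * d), ∑ f ∈ S X,
            2 * Real.pi * Z / (Real.sqrt 3 * nm e) * ‖N5 w X Z a b c u v d e f‖ with hM
  have key : ∀ a ∈ S Y, ∀ b ∈ S Y, ∀ c ∈ S Y, ∀ u ∈ S Y, ∀ v ∈ S Y,
      ‖(if b * (c * u) ∈ S Y ∧ a * (c * v) ∈ S Y ∧ IsCoprime u v then
          TT w X Z a b c u v else 0)‖ ≤
      (if a = 1 ∧ b = 1 ∧ u = 1 ∧ v = 1 then Zr * ∑ d ∈ S X, ‖w d c‖ ^ 2 else 0) +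
      (if b * (c * u) ∈ S Y ∧ a * (c * v) ∈ S Y ∧ IsCoprime u v then M a b c u v else 0) := by
    intro a ha b hb c hc u hu v hv
    by_cases h : b * (c * u) ∈ S Y ∧ a * (c * v) ∈ S Y ∧ IsCoprime u v
    · rw [if_pos h, if_pos h]
      exact norm_TT_le hX hY hZ hw ha hb hc hu hv h.1 h.2.1 h.2.2
    · rw [if_neg h, if_neg h, norm_zero, add_zero]
      split_ifs <;> positivity
  have hsum : ‖∑ a ∈ S Y, ∑ b ∈ S Y, ∑ c ∈ S Y, ∑ u ∈ S Y, ∑ v ∈ S Y,
        (if b * (c * u) ∈ S Y ∧ a * (c * v) ∈ S Y ∧ IsCoprime u v then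
          TT w X Z a b c u v else 0)‖ ≤ ∑ a ∈ S Y, ∑ b ∈ S Y, ∑ c ∈ S Y, ∑ u ∈ S Y, ∑ v ∈ S Y,
      ((if a = 1 ∧ b = 1 ∧ u = 1 ∧ v = 1 then Zr * ∑ d ∈ S X, ‖w d c‖ ^ 2 else 0) +
      (if b * (c * u) ∈ S Y ∧ a * (c * v) ∈ S Y ∧ IsCoprime u v then M a b c u v else 0)) := by
    refine (norm_sum_le _ _).trans (Finset.sum_le_sum fun a ha => ?_)
    refine (norm_sum_le _ _).trans (Finset.sum_le_sum fun b hb => ?_)
    refine (norm_sum_le _ _).trans (Finset.sum_le_sum fun c hc => ?_)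
    refine (norm_sum_le _ _).trans (Finset.sum_le_sum fun u hu => ?_)
    refine (norm_sum_le _ _).trans (Finset.sum_le_sum fun v hv => ?_)
    exact key a ha b hb c hc u hu v hv
  refine hsum.trans (le_of_eq ?_)
  simp_rw [Finset.sum_add_distrib]
  congr 1
  have h1S := one_mem_S hY
  rw [Finset.sum_eq_single_of_mem 1 h1S, Finset.sum_eq_single_of_mem 1 h1S, Finset.mul_sum]
  · refine Finset.sum_congr rfl fun c _ => ?_
    rw [Finset.sum_eq_single_of_mem 1 h1S, Finset.sum_eq_single_of_mem 1 h1S, if_pos ⟨rfl, rfl, rfl, rfl⟩]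
    · intro v _ hv1
      rw [if_neg (fun h => hv1 h.2.2.2)]
    · intro u _ hu1
      apply Finset.sum_eq_zero
      intro v _
      rw [if_neg (fun h => hu1 h.2.2.1)]
  · intro b _ hb1
    apply Finset.sum_eq_zero
    intro c _
    apply Finset.sum_eq_zero
    intro u _
    apply Finset.sum_eq_zero
    intro v _
    rw [if_neg (fun h => hb1 h.2.1)]
  · intro a _ ha1
    apply Finset.sum_eq_zero
    intro b _
    apply Finset.sum_eq_zero
    intro c _
    apply Finset.sum_eq_zero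
    intro u _
    apply Finset.sum_eq_zero
    intro v _
    rw [if_neg (fun h => ha1 h.1)]

end Crest.Agent.R017.Dual2813
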