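import Crest.Agent.R017.Dual2C_813

/-!
# Row 17: the two-parameter dual inequality, part D (Mellin separation, small frequencies)
-/

set_option autoImplicit false

noncomputable section

open MeasureTheory Finset
open scoped ComplexConjugate

namespace Crest.Agent.R017.Dual2813

open Crest.Agent.R012
open Eis LS2 Mob705 CR2 MelSep811 DualIneq811
open Gauss880 (syG)

lemma dp_add_mul (K : Finset Eis) (β1 β2 : Eis → ℂ) (c s : ℂ) :
    dp K (fun k => β1 k + c * β2 k) s = dp K β1 s + c * dp K β2 s := by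
  unfold dp
  rw [Finset.mul_sum, ← Finset.sum_add_distrib]
  exact Finset.sum_congr rfl fun k _ => by ring

/-- the separated form -/
def msf (K : Finset Eis) (β1 β2 : Eis → ℂ) (y : ℝ) : ℂ :=
  ∑ k1 ∈ K, ∑ k2 ∈ K, (β1 k1 * (nm k1 : ℂ) ^ (-(1 / 2) : ℂ)) *
        conj (β2 k2 * (nm k2 : ℂ) ^ (-(1 / 2) : ℂ)) *
        ((Real.exp (-(y / ((nm k1 : ℝ) * (nm k2 : ℝ)))) : ℝ) : ℂ)

lemma msf_expand (K : Finset Eis) (β1 β2 : Eis → ℂ) (y : ℝ) (c : ℂ) :
    msf K (fun k => β1 k + c * β2 k) (fun k => β1 k + c * β2 k) y =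
      msf K β1 β1 y + c * conj c * msf K β2 β2 y + conj c * msf K β1 β2 y +
        c * msf K β2 β1 y := by
  unfold msf
  simp only [Finset.mul_sum, ← Finset.sum_add_distrib]
  refine Finset.sum_congr rfl fun k1 _ => Finset.sum_congr rfl fun k2 _ => ?_
  simp only [map_mul, map_add]
  ring

lemma msf_polar (K : Finset Eis) (β1 β2 : Eis → ℂ) (y : ℝ) :
    4 * msf K β1 β2 y = msf K (fun k => β1 k + 1 * β2 k) (fun k => β1 k + 1 * β2 k) y -
      msf K (fun k => β1 k + (-1) * β2 k) (fun k => β1 k + (-1) * β2 k) y +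
      Complex.I * msf K (fun k => β1 k + Complex.I * β2 k) (fun k => β1 k + Complex.I * β2 k) y -
      Complex.I * msf K (fun k => β1 k + (-Complex.I) * β2 k)
        (fun k => β1 k + (-Complex.I) * β2 k) y := by
  rw [msf_expand, msf_expand, msf_expand, msf_expand]
  simp only [map_one, map_neg, Complex.conj_I]
  have hI := Complex.I_mul_I
  linear_combination (2 * msf K β1 β2 y - 2 * msf K β2 β1 y) * hI

/-- the integral -/
def II (K : Finset Eis) (β : Eis → ℂ) (σ : ℝ) : ℝ :=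
  ∫ t : ℝ, (1 + t ^ 2)⁻¹ * ‖dp K β (σ + t * Complex.I)‖ ^ 2

lemma par_law (x y : ℂ) : ‖x + 1 * y‖ ^ 2 + ‖x + (-1) * y‖ ^ 2 + ‖x + Complex.I * y‖ ^ 2 +
    ‖x + (-Complex.I) * y‖ ^ 2 = 4 * (‖x‖ ^ 2 + ‖y‖ ^ 2) := by
  have h1 := parallelogram_law_with_norm ℝ x y
  have h2 := parallelogram_law_with_norm ℝ x (Complex.I * y)
  have h3 : ‖Complex.I * y‖ = ‖y‖ := by rw [norm_mul, Complex.norm_I, one_mul]
  rw [h3] at h2
  have e1 : x + 1 * y = x + y := by ring
  have e2 : x + (-1) * y = x - y := by ring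
  have e3 : x + (-Complex.I) * y = x - Complex.I * y := by ring
  rw [e1, e2, e3]
  nlinarith

theorem mellin_bil (K : Finset Eis) (β1 β2 : Eis → ℂ) (hK : ∀ k ∈ K, k ≠ 0) {σ y : ℝ}
    (hσ : 0 < σ) (hσ1 : σ ≤ 1) (hy : 0 < y) :
    ‖msf K β1 β2 y‖ ≤ csig σ * y ^ (-σ) * (II K β1 σ + II K β2 σ) := by
  have hc := csig_pos hσ
  have hyp : 0 < y ^ (-σ) := Real.rpow_pos_of_pos hy _
  have hq : ∀ c : ℂ, ‖msf K (fun k => β1 k + c * β2 k) (fun k => β1 k + c * β2 k) y‖ ≤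
      csig σ * y ^ (-σ) * II K (fun k => β1 k + c * β2 k) σ := fun c =>
    mellin_sep K _ hK hσ hσ1 hy
  have hint : ∀ β : Eis → ℂ, Integrable (fun t : ℝ => (1 + t ^ 2)⁻¹ *
      ‖dp K β (σ + t * Complex.I)‖ ^ 2) := fun β => integrable_dp_sq K β hK σ
  have hsum : II K (fun k => β1 k + 1 * β2 k) σ + II K (fun k => β1 k + (-1) * β2 k) σ +
      II K (fun k => β1 k + Complex.I * β2 k) σ + II K (fun k => β1 k + (-Complex.I) * β2 k) σ =
      4 * (II K β1 σ + II K β2 σ) := by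
    set G : ℂ → ℝ → ℝ := fun c t => (1 + t ^ 2)⁻¹ *
      ‖dp K (fun k => β1 k + c * β2 k) (σ + t * Complex.I)‖ ^ 2 with hG
    have hGi : ∀ c, Integrable (G c) := fun c => hint _
    have h12 : Integrable (fun t => G 1 t + G (-1) t) := (hGi 1).add (hGi (-1))
    have h123 : Integrable (fun t => G 1 t + G (-1) t + G Complex.I t) := h12.add (hGi Complex.I)
    have e1 : ∫ t, (G 1 t + G (-1) t + G Complex.I t + G (-Complex.I) t) =
        (∫ t, G 1 t) + (∫ t, G (-1) t) + (∫ t, G Complex.I t) + ∫ t, G (-Complex.I) t := by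
      rw [integral_add h123 (hGi _), integral_add h12 (hGi _), integral_add (hGi _) (hGi _)]
    have e2 : ∫ t : ℝ, 4 * ((1 + t ^ 2)⁻¹ * ‖dp K β1 (σ + t * Complex.I)‖ ^ 2 +
        (1 + t ^ 2)⁻¹ * ‖dp K β2 (σ + t * Complex.I)‖ ^ 2) = 4 * (II K β1 σ + II K β2 σ) := by
      rw [integral_const_mul, integral_add (hint _) (hint _)]
      rfl
    have e3 : II K (fun k => β1 k + 1 * β2 k) σ + II K (fun k => β1 k + (-1) * β2 k) σ +
      II K (fun k => β1 k + Complex.I * β2 k) σ + II K (fun k => β1 k + (-Complex.I) * β2 k) σ =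
      (∫ t, G 1 t) + (∫ t, G (-1) t) + (∫ t, G Complex.I t) + ∫ t, G (-Complex.I) t := rfl
    rw [e3, ← e1, ← e2]
    congr 1
    funext t
    simp only [hG]
    rw [dp_add_mul, dp_add_mul, dp_add_mul, dp_add_mul]
    have := par_law (dp K β1 (σ + t * Complex.I)) (dp K β2 (σ + t * Complex.I))
    linear_combination (1 + t ^ 2)⁻¹ * this
  have h4 : ‖4 * msf K β1 β2 y‖ ≤ csig σ * y ^ (-σ) * (4 * (II K β1 σ + II K β2 σ)) := by
    rw [msf_polar, ← hsum]
    refine (norm_sub_le _ _).trans ?_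
    refine (add_le_add ((norm_add_le _ _).trans (add_le_add (norm_sub_le _ _) le_rfl))
      le_rfl).trans ?_
    rw [norm_mul, norm_mul, Complex.norm_I, one_mul, one_mul]
    have a1 := hq 1
    have a2 := hq (-1)
    have a3 := hq Complex.I
    have a4 := hq (-Complex.I)
    linarith
  rw [norm_mul] at h4
  have e4 : ‖(4 : ℂ)‖ = 4 := by simp
  rw [e4] at h4
  linarith

/-- the coefficients of the dual sum -/
def bet2 (α : Eis → ℂ) (d f e l B k : Eis) : ℂ :=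
  α (d * f * k) * (sy (e * sq3) k * conj (sy (B * f * l) k) * G k)

/-- the Mellin variable -/
def yy5 (Z : ℝ) (B A e f l : Eis) : ℝ :=
  4 * Real.pi ^ 2 * Z * nm l / (3 * nm e * nm (B * f) * nm (A * f))

lemma qb_eq {X Z : ℝ} (hX : 0 ≤ X) (α β : Eis → ℂ) {B A d e f l : Eis} (hB : IsPrim B)
    (hA : IsPrim A) (he : e ≠ 0) (hf : f ∈ S X) :
    qb α β X Z B A d e f l = Ue e l (B * f) * conj (Ue e l (A * f)) *
      msf (S X) (bet2 α d f e l B) (bet2 β d f e l A) (yy5 Z B A e f l) := by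
  have hf' := (mem_S hX).1 hf
  unfold qb msf
  rw [Finset.mul_sum]
  refine Finset.sum_congr rfl fun k1 h1 => ?_
  rw [Finset.mul_sum]
  refine Finset.sum_congr rfl fun k2 h2 => ?_
  have hk1 := (mem_S hX).1 h1
  have hk2 := (mem_S hX).1 h2
  unfold phl
  rw [← mul_assoc B f k1, ← mul_assoc A f k2, Ue_mul e l (hB.mul hf'.2.1) hk1.2.1,
    Ue_mul e l (hA.mul hf'.2.1) hk2.2.1]
  have e1 : (-(4 * Real.pi ^ 2 * Z * nm l) / (3 * nm e * nm (B * f * k1) * nm (A * f * k2)) : ℝ) =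
      -(yy5 Z B A e f l / ((nm k1 : ℝ) * (nm k2 : ℝ))) := by
    unfold yy5
    have n0 : (nm e : ℝ) ≠ 0 := by exact_mod_cast (nm_pos.2 he).ne'
    have n1 : (nm (B * f) : ℝ) ≠ 0 := by exact_mod_cast (nm_pos.2 (hB.mul hf'.2.1).ne_zero).ne'
    have n2 : (nm (A * f) : ℝ) ≠ 0 := by exact_mod_cast (nm_pos.2 (hA.mul hf'.2.1).ne_zero).ne'
    have n3 : (nm k1 : ℝ) ≠ 0 := by exact_mod_cast (nm_pos.2 hk1.2.1.ne_zero).ne'
    have n4 : (nm k2 : ℝ) ≠ 0 := by exact_mod_cast (nm_pos.2 hk2.2.1.ne_zero).ne'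
    rw [nm_mul (B * f) k1, nm_mul (A * f) k2]
    push_cast
    field_simp
  rw [e1]
  unfold bet2
  simp only [map_mul]
  ring

/-- the two-parameter dual sum -/
def dsum2 (w : Eis → Eis → ℂ) (X : ℝ) (a b c u v d e f l : Eis) (s : ℂ) : ℂ :=
  ∑ k ∈ S X, w (a * (d * f * k)) (b * (c * u)) *
    (sy (e * sq3) k * conj (sy (b * v * f * l) k) * G k) * (nm k : ℂ) ^ (s - 1 / 2)

open Classical in
lemma dp_al {X Y : ℝ} (hX : 0 ≤ X) {w : Eis → Eis → ℂ} (hw : Supp X Y w) {a b c u v d f : Eis}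
    (ha : IsPrim a) (e l : Eis) (s : ℂ) :
    dp (S X) (bet2 (al w X a (b * (c * u)) (a * (c * v))) d f e l (b * v)) s =
      if IsCoprime (d * f) (a * (c * v)) then dsum2 w X a b c u v d e f l s else 0 := by
  by_cases h : IsCoprime (d * f) (a * (c * v))
  · rw [if_pos h]
    unfold dp dsum2
    refine Finset.sum_congr rfl fun k hk => ?_
    have hk' := (mem_S hX).1 hk
    congr 1
    unfold bet2 al
    by_cases h1 : d * f * k ∈ S X ∧ IsCoprime (d * f * k) (a * (c * v))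
    · rw [if_pos h1]
    · rw [if_neg h1, zero_mul]
      symm
      by_contra hne
      have hne1 := left_ne_zero_of_mul hne
      have hne2 := right_ne_zero_of_mul hne
      have hne3 : sy (b * v * f * l) k ≠ 0 := by
        intro h0
        apply hne2
        rw [h0]; simp
      have g := hw _ _ hne1
      have g1 := (mem_S hX).1 g.1
      have hp : IsPrim (d * f * k) := IsPrim.of_mul_left g1.2.1 ha
      have hcv : IsCoprime (b * v * f * l) k := by
        by_contra hc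
        exact hne3 (Tau671.sy_eq_zero hk'.2.1 hc)
      have hv : IsCoprime k v := hcv.of_mul_left_left.of_mul_left_left.of_mul_left_right.symm
      have hc : IsCoprime k c := (g.2.2.of_mul_left_right.of_mul_left_right).of_mul_right_right.of_mul_right_left
      have hka : IsCoprime k a :=
        ((squarefree_mul_iff.1 g1.2.2).1.isCoprime.of_mul_right_right).symm
      exact h1 ⟨S_of_dvd hX g.1 hp (dvd_mul_left _ _), h.mul_left (hka.mul_right (hc.mul_right hv))⟩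
  · rw [if_neg h]
    unfold dp
    apply Finset.sum_eq_zero
    intro k _
    unfold bet2 al
    rw [if_neg (fun h1 => h h1.2.of_mul_left_left)]
    simp

/-- the integral of the dual sum -/
def I5 (w : Eis → Eis → ℂ) (X σ : ℝ) (a b c u v d e f l : Eis) : ℝ :=
  ∫ t : ℝ, (1 + t ^ 2)⁻¹ * ‖dsum2 w X a b c u v d e f l (σ + t * Complex.I)‖ ^ 2

lemma dsum2_eq_dp (w : Eis → Eis → ℂ) (X : ℝ) (a b c u v d e f l : Eis) (s : ℂ) :
    dsum2 w X a b c u v d e f l s = dp (S X) (fun k => w (a * (d * f * k)) (b * (c * u)) *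
      (sy (e * sq3) k * conj (sy (b * v * f * l) k) * G k)) s := rfl

lemma integrable_dsum2 {X : ℝ} (hX : 0 ≤ X) (w : Eis → Eis → ℂ) (a b c u v d e f l : Eis)
    (σ : ℝ) : Integrable (fun t : ℝ => (1 + t ^ 2)⁻¹ *
      ‖dsum2 w X a b c u v d e f l (σ + t * Complex.I)‖ ^ 2) := by
  simp only [dsum2_eq_dp]
  exact integrable_dp_sq (S X) _ (fun k hk => ((mem_S hX).1 hk).2.1.ne_zero) σ

lemma I5_nonneg (w : Eis → Eis → ℂ) (X σ : ℝ) (a b c u v d e f l : Eis) :
    0 ≤ I5 w X σ a b c u v d e f l := integral_nonneg fun t => by positivity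

lemma II_le_I5 {X Y : ℝ} (hX : 0 ≤ X) {w : Eis → Eis → ℂ} (hw : Supp X Y w)
    {a b c u v d f : Eis} (ha : IsPrim a) (e l : Eis) (σ : ℝ) :
    II (S X) (bet2 (al w X a (b * (c * u)) (a * (c * v))) d f e l (b * v)) σ ≤
      I5 w X σ a b c u v d e f l := by
  unfold II
  by_cases h : IsCoprime (d * f) (a * (c * v))
  · refine le_of_eq ?_
    unfold I5
    congr 1
    funext t
    rw [dp_al hX hw ha e l, if_pos h]
  · refine le_trans (le_of_eq ?_) (I5_nonneg w X σ a b c u v d e f l)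
    have : ∀ t : ℝ, (1 + t ^ 2)⁻¹ * ‖dp (S X) (bet2 (al w X a (b * (c * u)) (a * (c * v))) d f e l
        (b * v)) (σ + t * Complex.I)‖ ^ 2 = 0 := by
      intro t
      rw [dp_al hX hw ha e l, if_neg h]; simp
    simp_rw [this]
    simp

/-- the small frequencies -/
lemma norm_Q5_le {X Y Z σ : ℝ} (hX : 0 ≤ X) (hZ : 0 < Z) (hσ : 0 < σ) (hσ1 : σ ≤ 1)
    {w : Eis → Eis → ℂ} (hw : Supp X Y w) {a b c u v d e f l : Eis} (ha : IsPrim a)
    (hb : IsPrim b) (hu : IsPrim u) (hv : IsPrim v) (he : e ≠ 0) (hf : f ∈ S X) (hl : l ≠ 0) :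
    ‖Q5 w X Z a b c u v d e f l‖ ≤ csig σ * ((nm f : ℝ)⁻¹ *
      ((nm (b * v) : ℝ) * nm (a * u)) ^ (-(1 / 2) : ℝ) *
      (nm e * (nm f : ℝ) ^ 2 * (nm (b * v) * nm (a * u)) / Z) ^ σ) *
      ((nm l : ℝ) ^ (-σ) * (I5 w X σ a b c u v d e f l + I5 w X σ b a c v u d e f l)) := by
  have hf' := (mem_S hX).1 hf
  have hB := hb.mul hv
  have hA := ha.mul hu
  have ne : (0 : ℝ) < nm e := by exact_mod_cast nm_pos.2 he
  have nf : (0 : ℝ) < nm f := by exact_mod_cast nm_pos.2 hf'.2.1.ne_zero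
  have nl : (0 : ℝ) < nm l := by exact_mod_cast nm_pos.2 hl
  have nB : (0 : ℝ) < nm (b * v) := by exact_mod_cast nm_pos.2 hB.ne_zero
  have nA : (0 : ℝ) < nm (a * u) := by exact_mod_cast nm_pos.2 hA.ne_zero
  have nBf : (nm (b * v * f) : ℝ) = nm (b * v) * nm f := by rw [nm_mul (b * v) f]; push_cast; rfl
  have nAf : (nm (a * u * f) : ℝ) = nm (a * u) * nm f := by rw [nm_mul (a * u) f]; push_cast; rfl
  have hy : 0 < yy5 Z (b * v) (a * u) e f l := by
    unfold yy5; rw [nBf, nAf]; positivity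
  unfold Q5
  rw [qb_eq hX _ _ hB hA he hf, norm_mul, norm_mul, RCLike.norm_conj]
  have h1 := mellin_bil (S X)
    (bet2 (al w X a (b * (c * u)) (a * (c * v))) d f e l (b * v))
    (bet2 (al w X b (a * (c * v)) (b * (c * u))) d f e l (a * u))
    (fun k hk => ((mem_S hX).1 hk).2.1.ne_zero) hσ hσ1 hy
  have i1 := II_le_I5 hX hw (a := a) (b := b) (c := c) (u := u) (v := v) (d := d) (f := f) ha e l σ
  have i2 := II_le_I5 hX hw (a := b) (b := a) (c := c) (u := v) (v := u) (d := d) (f := f) hb e l σ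
  have u1 := norm_Ue_le syG (hB.mul hf'.2.1) e l
  have u2 := norm_Ue_le syG (hA.mul hf'.2.1) e l
  have h2 : yy5 Z (b * v) (a * u) e f l ^ (-σ) ≤
      (nm e * (nm f : ℝ) ^ 2 * (nm (b * v) * nm (a * u)) / Z) ^ σ * (nm l : ℝ) ^ (-σ) := by
    have e1 : yy5 Z (b * v) (a * u) e f l = (4 * Real.pi ^ 2 / 3) *
        ((nm e * (nm f : ℝ) ^ 2 * (nm (b * v) * nm (a * u)) / Z)⁻¹ * nm l) := by
      unfold yy5; rw [nBf, nAf]; field_simp
    rw [e1, Real.mul_rpow (by positivity) (by positivity),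
      Real.mul_rpow (by positivity) (by positivity), Real.inv_rpow (by positivity),
      Real.rpow_neg (by positivity) σ, Real.rpow_neg (x := nm e * (nm f : ℝ) ^ 2 *
        (nm (b * v) * nm (a * u)) / Z) (by positivity), inv_inv]
    have h3 : (4 * Real.pi ^ 2 / 3) ^ σ ≥ 1 := by
      apply Real.one_le_rpow _ hσ.le
      have := Real.pi_gt_three
      nlinarith
    have h4 : ((4 * Real.pi ^ 2 / 3) ^ σ)⁻¹ ≤ 1 := inv_le_one_of_one_le₀ h3
    calc ((4 * Real.pi ^ 2 / 3) ^ σ)⁻¹ *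
        ((nm e * (nm f : ℝ) ^ 2 * (nm (b * v) * nm (a * u)) / Z) ^ σ * (nm l : ℝ) ^ (-σ))
        ≤ 1 * ((nm e * (nm f : ℝ) ^ 2 * (nm (b * v) * nm (a * u)) / Z) ^ σ *
          (nm l : ℝ) ^ (-σ)) := by gcongr
      _ = _ := one_mul _
  have h5 : ‖Ue e l (b * v * f)‖ * ‖Ue e l (a * u * f)‖ ≤
      (nm f : ℝ)⁻¹ * ((nm (b * v) : ℝ) * nm (a * u)) ^ (-(1 / 2) : ℝ) := by
    refine (mul_le_mul u1 u2 (norm_nonneg _) (by positivity)).trans (le_of_eq ?_)
    rw [nBf, nAf, Real.mul_rpow nB.le nf.le, Real.mul_rpow nA.le nf.le,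
      Real.mul_rpow nB.le nA.le]
    have e2 : (nm f : ℝ) ^ (-(1 / 2) : ℝ) * (nm f : ℝ) ^ (-(1 / 2) : ℝ) = (nm f : ℝ)⁻¹ := by
      rw [← Real.rpow_add nf, ← Real.rpow_neg_one]
      norm_num
    rw [← e2]
    ring
  have hc := csig_pos hσ
  have i3 := I5_nonneg w X σ a b c u v d e f l
  have i4 := I5_nonneg w X σ b a c v u d e f l
  calc ‖Ue e l (b * v * f)‖ * ‖Ue e l (a * u * f)‖ * _
      ≤ ((nm f : ℝ)⁻¹ * ((nm (b * v) : ℝ) * nm (a * u)) ^ (-(1 / 2) : ℝ)) *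
        (csig σ * yy5 Z (b * v) (a * u) e f l ^ (-σ) *
          (I5 w X σ a b c u v d e f l + I5 w X σ b a c v u d e f l)) := by
        refine mul_le_mul h5 (h1.trans ?_) (norm_nonneg _) (by positivity)
        gcongr
    _ ≤ ((nm f : ℝ)⁻¹ * ((nm (b * v) : ℝ) * nm (a * u)) ^ (-(1 / 2) : ℝ)) *
        (csig σ * ((nm e * (nm f : ℝ) ^ 2 * (nm (b * v) * nm (a * u)) / Z) ^ σ *
          (nm l : ℝ) ^ (-σ)) *
          (I5 w X σ a b c u v d e f l + I5 w X σ b a c v u d e f l)) := by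
        gcongr
    _ = _ := by ring

end Crest.Agent.R017.Dual2813
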