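import Crest.Agent.R017.Dual2D_813

/-!
# Row 17: the two-parameter dual inequality, part E (tail and final form)

`dual2`: for `w` supported on coprime pairs `(h, q)`, `h ∈ S X`, `q ∈ S Y`,
`∑' n, exp (-nm n / Z) ‖∑ w h q sy n h conj (sy n q)‖² ≤ C Z ∑ ‖w‖² + C Qd2 w`.
-/

set_option autoImplicit false

noncomputable section

open MeasureTheory Finset
open scoped ComplexConjugate

namespace Crest.Agent.R017.Dual2813

open Crest.Agent.R012
open Eis LS2 Mob705 CR2 MelSep811 DualIneq811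
open Gauss880 (syG)

/-- length of the dual sum -/
def L5 (X Y Z ε : ℝ) (a b c d e : Eis) : ℝ :=
  (X * Y * Z) ^ ε * (1 + nm e * (X * Y) ^ 2 / (((nm a : ℝ) * nm b) * ((nm c : ℝ) * nm d) ^ 2 * Z))

lemma L5_swap (X Y Z ε : ℝ) (a b c d e : Eis) : L5 X Y Z ε a b c d e = L5 X Y Z ε b a c d e := by
  unfold L5
  rw [mul_comm (nm a : ℝ) (nm b : ℝ)]

/-- total mass -/
def W2 (X Y : ℝ) (w : Eis → Eis → ℂ) : ℝ := ∑ q ∈ S Y, ∑ h ∈ S X, ‖w h q‖ ^ 2

lemma W2_nonneg (X Y : ℝ) (w : Eis → Eis → ℂ) : 0 ≤ W2 X Y w :=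
  Finset.sum_nonneg fun _ _ => Finset.sum_nonneg fun _ _ => by positivity

lemma sum_al_le {X Y : ℝ} (hX : 1 ≤ X) {w : Eis → Eis → ℂ} (hw : Supp X Y w)
    {a q q' d f : Eis} (ha : IsPrim a) (hd : IsPrim d) (hf : IsPrim f) (hq : q ∈ S Y) :
    (∑ k ∈ S X, ‖al w X a q q' (d * f * k)‖) ^ 2 ≤ 16 * X * W2 X Y w := by
  classical
  have h1 := sq_sum_le_card_mul_sum_sq (s := S X)
    (f := fun k => ‖al w X a q q' (d * f * k)‖)
  have h2 := GLS106.card_S_le hX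
  have h3 : ∑ k ∈ S X, ‖al w X a q q' (d * f * k)‖ ^ 2 ≤ ∑ h ∈ S X, ‖w h q‖ ^ 2 := by
    calc ∑ k ∈ S X, ‖al w X a q q' (d * f * k)‖ ^ 2
        ≤ ∑ k ∈ (S X).filter (fun k => a * (d * f * k) ∈ S X), ‖w (a * (d * f * k)) q‖ ^ 2 := by
          rw [Finset.sum_filter]
          refine Finset.sum_le_sum fun k _ => ?_
          unfold al
          by_cases g : a * (d * f * k) ∈ S X
          · rw [if_pos g]; split_ifs
            · exact le_rfl
            · rw [norm_zero, zero_pow two_ne_zero]; positivity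
          · rw [if_neg g]
            have : w (a * (d * f * k)) q = 0 := by
              by_contra hc
              exact g (hw _ _ hc).1
            rw [this]; split_ifs <;> simp
      _ = ∑ h ∈ ((S X).filter (fun k => a * (d * f * k) ∈ S X)).image
            (fun k => a * (d * f * k)), ‖w h q‖ ^ 2 := by
          rw [Finset.sum_image]
          intro x _ y _ hxy
          exact mul_left_cancel₀ (mul_ne_zero hd.ne_zero hf.ne_zero)
            (mul_left_cancel₀ ha.ne_zero hxy)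
      _ ≤ _ := by
          refine Finset.sum_le_sum_of_subset_of_nonneg ?_ (fun _ _ _ => by positivity)
          intro h hh
          rw [Finset.mem_image] at hh
          obtain ⟨k, hk, rfl⟩ := hh
          exact (Finset.mem_filter.1 hk).2
  have h4 : ∑ h ∈ S X, ‖w h q‖ ^ 2 ≤ W2 X Y w :=
    Finset.single_le_sum (f := fun q => ∑ h ∈ S X, ‖w h q‖ ^ 2)
      (fun q _ => Finset.sum_nonneg fun _ _ => by positivity) hq
  have h5 : 0 ≤ ∑ k ∈ S X, ‖al w X a q q' (d * f * k)‖ ^ 2 :=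
    Finset.sum_nonneg fun _ _ => by positivity
  calc _ ≤ ((S X).card : ℝ) * ∑ k ∈ S X, ‖al w X a q q' (d * f * k)‖ ^ 2 := h1
    _ ≤ (16 * X) * W2 X Y w := by
      have := h3.trans h4
      gcongr

/-- pointwise tail bound -/
lemma norm_Q5_tail {X Y Z ε : ℝ} (hX : 1 ≤ X) (hY : 1 ≤ Y) (hZ : 1 ≤ Z) (hε : 0 < ε)
    {w : Eis → Eis → ℂ} (hw : Supp X Y w) {a b c u v d e f l : Eis} (ha : a ∈ S Y)
    (hb : b ∈ S Y) (hc : c ∈ S Y) (hu : u ∈ S Y) (hv : v ∈ S Y) (h1 : b * (c * u) ∈ S Y)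
    (h2 : a * (c * v) ∈ S Y) (hd : d ∈ S X) (he : e ≠ 0) (hf : f ∈ S X)
    (hl : L5 X Y Z ε a b c d e ≤ nm l) :
    ‖Q5 w X Z a b c u v d e f l‖ ≤ (16 * X * W2 X Y w) * Real.exp (-(X * Y * Z) ^ ε) *
      Real.exp (-(1 / L5 X Y Z ε a b c d e * nm l)) := by
  have hX0 : (0 : ℝ) ≤ X := by linarith
  have hY0 : (0 : ℝ) ≤ Y := by linarith
  have ha' := (mem_S hY0).1 ha
  have hb' := (mem_S hY0).1 hb
  have hc' := (mem_S hY0).1 hc
  have hu' := (mem_S hY0).1 hu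
  have hv' := (mem_S hY0).1 hv
  have hd' := (mem_S hX0).1 hd
  have hf' := (mem_S hX0).1 hf
  have hB := hb'.2.1.mul hv'.2.1
  have hA := ha'.2.1.mul hu'.2.1
  have one_le : ∀ x : Eis, IsPrim x → (1 : ℝ) ≤ nm x := fun x hx => by
    exact_mod_cast nm_pos.2 hx.ne_zero
  set α := al w X a (b * (c * u)) (a * (c * v)) with hα
  set β := al w X b (a * (c * v)) (b * (c * u)) with hβ
  set T : ℝ := Real.exp (-(X * Y * Z) ^ ε) * Real.exp (-(1 / L5 X Y Z ε a b c d e * nm l)) with hT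
  have hT0 : 0 ≤ T := by rw [hT]; positivity
  have key : ‖Q5 w X Z a b c u v d e f l‖ ≤ ∑ k1 ∈ S X, ∑ k2 ∈ S X,
      ‖α (d * f * k1)‖ * ‖β (d * f * k2)‖ * T := by
    unfold Q5 qb
    refine (norm_sum_le _ _).trans (Finset.sum_le_sum fun k1 hk1 => ?_)
    refine (norm_sum_le _ _).trans (Finset.sum_le_sum fun k2 hk2 => ?_)
    have hk1' := (mem_S hX0).1 hk1
    have hk2' := (mem_S hX0).1 hk2
    rw [norm_mul, norm_mul, RCLike.norm_conj]
    by_cases g1 : α (d * f * k1) = 0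
    · rw [← hα, ← hβ, g1]; simp
    by_cases g2 : β (d * f * k2) = 0
    · rw [← hα, ← hβ, g2]; simp
    have w1 := hw _ _ (al_ne g1).2.2
    have w2 := hw _ _ (al_ne g2).2.2
    have s1 := ((mem_S hX0).1 w1.1).1
    have s2 := ((mem_S hX0).1 w2.1).1
    have s3 := ((mem_S hY0).1 h1).1
    have s4 := ((mem_S hY0).1 h2).1
    rw [mul_assoc d f k1, nm_mul, nm_mul] at s1
    rw [mul_assoc d f k2, nm_mul, nm_mul] at s2
    rw [nm_mul, nm_mul] at s3 s4
    push_cast at s1 s2 s3 s4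
    have na := one_le a ha'.2.1
    have nb := one_le b hb'.2.1
    have nc := one_le c hc'.2.1
    have nu := one_le u hu'.2.1
    have nv := one_le v hv'.2.1
    have nd := one_le d hd'.2.1
    have n1 := one_le _ (hf'.2.1.mul hk1'.2.1)
    have n2 := one_le _ (hf'.2.1.mul hk2'.2.1)
    have nep : (1 : ℝ) ≤ nm e := by exact_mod_cast nm_pos.2 he
    refine mul_le_mul_of_nonneg_left ?_ (by positivity)
    refine (norm_phl_le (hB.mul (hf'.2.1.mul hk1'.2.1)) (hA.mul (hf'.2.1.mul hk2'.2.1))).trans ?_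
    rw [hT, ← Real.exp_add]
    apply Real.exp_le_exp.2
    set m : ℝ := (nm (b * v * (f * k1)) : ℝ) * nm (a * u * (f * k2)) with hm
    have hm' : m = (nm b * nm v * nm (f * k1)) * (nm a * nm u * nm (f * k2)) := by
      rw [hm, nm_mul (b * v), nm_mul b v, nm_mul (a * u), nm_mul a u]; push_cast; ring
    have hm1 : 1 ≤ m := by
      rw [hm]
      exact one_le_mul_of_one_le_of_one_le (one_le _ (hB.mul (hf'.2.1.mul hk1'.2.1)))
        (one_le _ (hA.mul (hf'.2.1.mul hk2'.2.1)))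
    have hm0 : 0 ≤ m := by linarith
    set g : ℝ := ((nm a : ℝ) * nm b) * ((nm c : ℝ) * nm d) ^ 2 with hg
    have hg1 : 1 ≤ g := by
      rw [hg]
      have e1 : 1 ≤ (nm a : ℝ) * nm b := one_le_mul_of_one_le_of_one_le na nb
      have e2 : 1 ≤ (nm c : ℝ) * nm d := one_le_mul_of_one_le_of_one_le nc nd
      have e3 : 1 ≤ ((nm c : ℝ) * nm d) ^ 2 := by nlinarith
      exact one_le_mul_of_one_le_of_one_le e1 e3
    have hg0 : 0 ≤ g := by linarith
    have hgm : g * m ≤ (X * Y) ^ 2 := by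
      have e1 : g * m = ((nm a * (nm d * nm (f * k1))) * (nm b * (nm d * nm (f * k2)))) *
          ((nm b * (nm c * nm u)) * (nm a * (nm c * nm v))) := by
        rw [hg, hm']; ring
      rw [e1]
      have e2 : (nm a * (nm d * nm (f * k1)) : ℝ) * (nm b * (nm d * nm (f * k2))) ≤ X * X :=
        mul_le_mul s1 s2 (by positivity) hX0
      have e3 : (nm b * (nm c * nm u) : ℝ) * (nm a * (nm c * nm v)) ≤ Y * Y :=
        mul_le_mul s3 s4 (by positivity) hY0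
      calc _ ≤ (X * X) * (Y * Y) := mul_le_mul e2 e3 (by positivity) (by positivity)
        _ = _ := by ring
    have hsg : Real.sqrt g ^ 2 = g := Real.sq_sqrt hg0
    have hsm : Real.sqrt m * Real.sqrt m = m := Real.mul_self_sqrt hm0
    have hle : Real.sqrt g * Real.sqrt m ≤ X * Y := by
      rw [← Real.sqrt_mul hg0]
      exact Real.sqrt_le_iff.2 ⟨by positivity, hgm⟩
    have hexp := expo_le (X := X * Y) (Z := Z) (ε := ε) (nd := Real.sqrt g) (ne := nm e)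
      (n1 := Real.sqrt m) (n2 := Real.sqrt m) (nl := nm l) (L := L5 X Y Z ε a b c d e)
      (P := (X * Y * Z) ^ ε) (one_le_mul_of_one_le_of_one_le hX hY) hZ hε rfl
      (by rw [hsg, hg]; rfl) (Real.one_le_sqrt.2 hg1) nep (Real.one_le_sqrt.2 hm1)
      (Real.one_le_sqrt.2 hm1) hle hle hl
    have e5 : (3 * (nm e : ℝ) * Real.sqrt m * Real.sqrt m) =
        3 * nm e * nm (b * v * (f * k1)) * nm (a * u * (f * k2)) := by
      rw [mul_assoc, hsm, hm]; ring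
    rw [e5] at hexp
    exact hexp
  refine key.trans ?_
  have e1 : ∑ k1 ∈ S X, ∑ k2 ∈ S X, ‖α (d * f * k1)‖ * ‖β (d * f * k2)‖ * T =
      (∑ k ∈ S X, ‖α (d * f * k)‖) * (∑ k ∈ S X, ‖β (d * f * k)‖) * T := by
    rw [Finset.sum_mul_sum, Finset.sum_mul]
    refine Finset.sum_congr rfl fun k1 _ => ?_
    rw [Finset.sum_mul]
  rw [e1, mul_assoc (16 * X * W2 X Y w), ← hT]
  refine mul_le_mul_of_nonneg_right ?_ hT0
  have a1 := sum_al_le hX hw (q' := a * (c * v)) ha'.2.1 hd'.2.1 hf'.2.1 h1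
  have a2 := sum_al_le hX hw (q' := b * (c * u)) hb'.2.1 hd'.2.1 hf'.2.1 h2
  rw [← hα] at a1
  rw [← hβ] at a2
  have p1 : 0 ≤ ∑ k ∈ S X, ‖α (d * f * k)‖ := Finset.sum_nonneg fun _ _ => norm_nonneg _
  have p2 : 0 ≤ ∑ k ∈ S X, ‖β (d * f * k)‖ := Finset.sum_nonneg fun _ _ => norm_nonneg _
  nlinarith [sq_nonneg ((∑ k ∈ S X, ‖α (d * f * k)‖) - ∑ k ∈ S X, ‖β (d * f * k)‖)]

open Classical in
lemma tail5 {X Y Z ε : ℝ} (hX : 1 ≤ X) (hY : 1 ≤ Y) (hZ : 1 ≤ Z) (hε : 0 < ε)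
    {w : Eis → Eis → ℂ} (hw : Supp X Y w) {a b c u v d e f : Eis} (ha : a ∈ S Y)
    (hb : b ∈ S Y) (hc : c ∈ S Y) (hu : u ∈ S Y) (hv : v ∈ S Y) (h1 : b * (c * u) ∈ S Y)
    (h2 : a * (c * v) ∈ S Y) (hd : d ∈ S X) (he : e ≠ 0) (hf : f ∈ S X) :
    ‖N5 w X Z a b c u v d e f‖ ≤
      (∑ l ∈ bl (L5 X Y Z ε a b c d e), ‖Q5 w X Z a b c u v d e f l‖) +
      (16 * X * W2 X Y w) * Real.exp (-(X * Y * Z) ^ ε) * (101 * L5 X Y Z ε a b c d e) := by
  have hX0 : (0 : ℝ) ≤ X := by linarith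
  have hY0 : (0 : ℝ) ≤ Y := by linarith
  have hZ0 : (0 : ℝ) < Z := by linarith
  have hXY : 1 ≤ X * Y := one_le_mul_of_one_le_of_one_le hX hY
  have hXYZ : 1 ≤ X * Y * Z := one_le_mul_of_one_le_of_one_le hXY hZ
  have hP1 : 1 ≤ (X * Y * Z) ^ ε := Real.one_le_rpow hXYZ hε.le
  have hL1 : 1 ≤ L5 X Y Z ε a b c d e := by
    unfold L5
    have : 0 ≤ nm e * (X * Y) ^ 2 / (((nm a : ℝ) * nm b) * ((nm c : ℝ) * nm d) ^ 2 * Z) := by
      positivity
    exact one_le_mul_of_one_le_of_one_le hP1 (by linarith)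
  have hL : 0 ≤ L5 X Y Z ε a b c d e := by linarith
  set L := L5 X Y Z ε a b c d e with hLd
  have hB := ((mem_S hY0).1 hb).2.1.mul ((mem_S hY0).1 hv).2.1
  have hA := ((mem_S hY0).1 ha).2.1.mul ((mem_S hY0).1 hu).2.1
  have hsum : Summable fun l : Eis => Q5 w X Z a b c u v d e f l :=
    summable_qb hX0 hZ0 _ _ hB hA he hf
  have e1 : ∀ l : Eis, (if l = 0 then 0 else Q5 w X Z a b c u v d e f l) =
      (if l ∈ bl L then Q5 w X Z a b c u v d e f l else 0) +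
      (if l = 0 ∨ (nm l : ℝ) ≤ L then 0 else Q5 w X Z a b c u v d e f l) := by
    intro l
    by_cases h0 : l = 0
    · rw [if_pos h0, if_pos (Or.inl h0), if_neg, add_zero]
      intro h; exact ((mem_bl hL).1 h).1 h0
    · rw [if_neg h0]
      by_cases h1 : (nm l : ℝ) ≤ L
      · rw [if_pos (Or.inr h1), if_pos ((mem_bl hL).2 ⟨h0, h1⟩), add_zero]
      · rw [if_neg (fun h => h1 ((mem_bl hL).1 h).2), zero_add,
          if_neg (fun h => h.elim h0 h1)]
  have s1 : Summable (fun l : Eis => if l ∈ bl L then Q5 w X Z a b c u v d e f l else 0) :=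
    summable_of_ne_finset_zero (s := bl L) (fun l hl => if_neg hl)
  have s2 : Summable (fun l : Eis => if l = 0 ∨ (nm l : ℝ) ≤ L then 0 else
      Q5 w X Z a b c u v d e f l) := by
    refine Summable.of_norm_bounded hsum.norm (fun l => ?_)
    split_ifs
    · rw [norm_zero]; exact norm_nonneg _
    · exact le_rfl
  unfold N5
  rw [tsum_congr e1, s1.tsum_add s2]
  refine (norm_add_le _ _).trans (add_le_add ?_ ?_)
  · have e2 : ∑' l : Eis, (if l ∈ bl L then Q5 w X Z a b c u v d e f l else 0) =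
        ∑ l ∈ bl L, Q5 w X Z a b c u v d e f l := by
      rw [tsum_eq_sum (s := bl L) (fun l hl => if_neg hl)]
      exact Finset.sum_congr rfl fun l hl => if_pos hl
    rw [e2]
    exact norm_sum_le _ _
  · have hc1 : 0 < 1 / L := by positivity
    have hs := Edge79.summable_exp hc1
    set A := (16 * X * W2 X Y w) * Real.exp (-(X * Y * Z) ^ ε) with hA'
    have hA0 : 0 ≤ A := by
      have := W2_nonneg X Y w
      positivity
    have h1 : ∀ l : Eis, ‖(if l = 0 ∨ (nm l : ℝ) ≤ L then 0 else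
        Q5 w X Z a b c u v d e f l)‖ ≤ A * Real.exp (-(1 / L * nm l)) := by
      intro l
      split_ifs with h
      · rw [norm_zero]; positivity
      · push Not at h
        exact norm_Q5_tail hX hY hZ hε hw ha hb hc hu hv ‹_› h2 hd he hf h.2.le
    have h2 := tsum_of_norm_bounded (hs.mul_left A).hasSum h1
    refine h2.trans ?_
    rw [tsum_mul_left]
    refine mul_le_mul_of_nonneg_left ?_ hA0
    refine (Edge79.tsum_exp_le hc1).trans ?_
    have : 100 / (1 / L) = 100 * L := by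
      field_simp
    rw [this]; linarith

open Classical in
/-- the weight -/
def Wt5 (Z σ : ℝ) (a b u v e f : Eis) : ℝ :=
  Z / (nm e * nm f) * ((nm (b * v) : ℝ) * nm (a * u)) ^ (-(1 / 2) : ℝ) *
    (nm e * (nm f : ℝ) ^ 2 * (nm (b * v) * nm (a * u)) / Z) ^ σ

lemma Wt5_nonneg {Z : ℝ} (hZ : 0 ≤ Z) (σ : ℝ) (a b u v e f : Eis) :
    0 ≤ Wt5 Z σ a b u v e f := by
  unfold Wt5; positivity

lemma Wt5_swap (Z σ : ℝ) (a b u v e f : Eis) : Wt5 Z σ a b u v e f = Wt5 Z σ b a v u e f := by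
  unfold Wt5
  rw [mul_comm (nm (b * v) : ℝ) (nm (a * u) : ℝ)]

open Classical in
/-- one configuration of the dual form -/
def J5 (X Y Z σ ε : ℝ) (w : Eis → Eis → ℂ) (a b c u v : Eis) : ℝ :=
  ∑ d ∈ S X, ∑ e ∈ (S (X * Y)).filter (· ∣ c * d), ∑ f ∈ S X, Wt5 Z σ a b u v e f *
    ∑ l ∈ bl (L5 X Y Z ε a b c d e), (nm l : ℝ) ^ (-σ) * I5 w X σ a b c u v d e f l

open Classical in
/-- the swapped configuration -/
def J5' (X Y Z σ ε : ℝ) (w : Eis → Eis → ℂ) (a b c u v : Eis) : ℝ :=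
  ∑ d ∈ S X, ∑ e ∈ (S (X * Y)).filter (· ∣ c * d), ∑ f ∈ S X, Wt5 Z σ a b u v e f *
    ∑ l ∈ bl (L5 X Y Z ε a b c d e), (nm l : ℝ) ^ (-σ) * I5 w X σ b a c v u d e f l

lemma J5'_eq (X Y Z σ ε : ℝ) (w : Eis → Eis → ℂ) (a b c u v : Eis) :
    J5' X Y Z σ ε w a b c u v = J5 X Y Z σ ε w b a c v u := by
  unfold J5' J5
  refine Finset.sum_congr rfl fun d _ => Finset.sum_congr rfl fun e _ =>
    Finset.sum_congr rfl fun f _ => ?_
  rw [Wt5_swap, L5_swap]

open Classical in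
/-- **the dual form** -/
def Qd2 (X Y Z σ ε : ℝ) (w : Eis → Eis → ℂ) : ℝ :=
  ∑ a ∈ S Y, ∑ b ∈ S Y, ∑ c ∈ S Y, ∑ u ∈ S Y, ∑ v ∈ S Y,
    if b * (c * u) ∈ S Y ∧ a * (c * v) ∈ S Y ∧ IsCoprime u v then J5 X Y Z σ ε w a b c u v else 0

open Classical in
lemma Qd2_swap (X Y Z σ ε : ℝ) (w : Eis → Eis → ℂ) :
    (∑ a ∈ S Y, ∑ b ∈ S Y, ∑ c ∈ S Y, ∑ u ∈ S Y, ∑ v ∈ S Y,
      if b * (c * u) ∈ S Y ∧ a * (c * v) ∈ S Y ∧ IsCoprime u v then
        J5' X Y Z σ ε w a b c u v else 0) = Qd2 X Y Z σ ε w := by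
  unfold Qd2
  rw [Finset.sum_comm]
  refine Finset.sum_congr rfl fun b _ => Finset.sum_congr rfl fun a _ =>
    Finset.sum_congr rfl fun c _ => ?_
  rw [Finset.sum_comm]
  refine Finset.sum_congr rfl fun v _ => Finset.sum_congr rfl fun u _ => ?_
  rw [J5'_eq]
  have : (b * (c * u) ∈ S Y ∧ a * (c * v) ∈ S Y ∧ IsCoprime u v) ↔
      (a * (c * v) ∈ S Y ∧ b * (c * u) ∈ S Y ∧ IsCoprime v u) := by
    rw [isCoprime_comm (x := u)]; tauto
  simp only [this]

end Crest.Agent.R017.Dual2813
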