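import Crest.Agent.R017.Dual2E_813

/-!
# Row 17: the two-parameter dual inequality, final form
-/

set_option autoImplicit false

noncomputable section

open MeasureTheory Finset
open scoped ComplexConjugate

namespace Crest.Agent.R017.Dual2813

open Crest.Agent.R012
open Eis LS2 Mob705 CR2 MelSep811 DualIneq811
open Gauss880 (syG)

/-- the tail constant of one term -/
def Tm (X Y Z ε W : ℝ) : ℝ := 2 * Real.pi / Real.sqrt 3 * Z *
  (16 * X * W * Real.exp (-(X * Y * Z) ^ ε) * (101 * (2 * (X * Y * Z) ^ ε * (X * Y) ^ 3)))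

open Classical in
set_option maxHeartbeats 1000000 in
lemma one_term {X Y Z σ ε : ℝ} (hX : 1 ≤ X) (hY : 1 ≤ Y) (hZ : 1 ≤ Z) (hσ : 0 < σ) (hσ1 : σ ≤ 1)
    (hε : 0 < ε) {w : Eis → Eis → ℂ} (hw : Supp X Y w) {a b c u v d e f : Eis} (ha : a ∈ S Y)
    (hb : b ∈ S Y) (hc : c ∈ S Y) (hu : u ∈ S Y) (hv : v ∈ S Y) (h1 : b * (c * u) ∈ S Y)
    (h2 : a * (c * v) ∈ S Y) (hd : d ∈ S X) (he : e ∈ S (X * Y)) (hf : f ∈ S X) :
    2 * Real.pi * Z / (Real.sqrt 3 * nm e) * ‖N5 w X Z a b c u v d e f‖ ≤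
      2 * Real.pi / Real.sqrt 3 * csig σ *
        (Wt5 Z σ a b u v e f * (∑ l ∈ bl (L5 X Y Z ε a b c d e), (nm l : ℝ) ^ (-σ) *
            I5 w X σ a b c u v d e f l) +
          Wt5 Z σ a b u v e f * (∑ l ∈ bl (L5 X Y Z ε a b c d e), (nm l : ℝ) ^ (-σ) *
            I5 w X σ b a c v u d e f l)) + Tm X Y Z ε (W2 X Y w) := by
  have hX0 : (0 : ℝ) ≤ X := by linarith
  have hY0 : (0 : ℝ) ≤ Y := by linarith
  have hZ0 : (0 : ℝ) < Z := by linarith
  have hXY : 1 ≤ X * Y := one_le_mul_of_one_le_of_one_le hX hY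
  have hXYZ : 1 ≤ X * Y * Z := one_le_mul_of_one_le_of_one_le hXY hZ
  have h3 : 0 < Real.sqrt 3 := by positivity
  have hπ := Real.pi_pos
  have hcs := csig_pos hσ
  have he' := (mem_S (by positivity)).1 he
  have hf' := (mem_S hX0).1 hf
  have he0 : e ≠ 0 := he'.2.1.ne_zero
  have one_le : ∀ x : Eis, IsPrim x → (1 : ℝ) ≤ nm x := fun x hx => by
    exact_mod_cast nm_pos.2 hx.ne_zero
  have nep := one_le e he'.2.1
  have nfp := one_le f hf'.2.1
  set P := (X * Y * Z) ^ ε with hP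
  have hP1 : 1 ≤ P := Real.one_le_rpow hXYZ hε.le
  set L := L5 X Y Z ε a b c d e with hL
  have hL0 : 0 ≤ L := by rw [hL]; unfold L5; positivity
  have hW := W2_nonneg X Y w
  have ht := tail5 hX hY hZ hε hw ha hb hc hu hv h1 h2 hd he0 hf
  rw [← hL, ← hP] at ht
  -- the small frequencies
  have hq : ∀ l ∈ bl L, 2 * Real.pi * Z / (Real.sqrt 3 * nm e) * ‖Q5 w X Z a b c u v d e f l‖ ≤
      2 * Real.pi / Real.sqrt 3 * csig σ * (Wt5 Z σ a b u v e f * ((nm l : ℝ) ^ (-σ) *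
        (I5 w X σ a b c u v d e f l + I5 w X σ b a c v u d e f l))) := by
    intro l hl
    have hl' := (mem_bl hL0).1 hl
    have g := norm_Q5_le (c := c) (d := d) hX0 hZ0 hσ hσ1 hw ((mem_S hY0).1 ha).2.1
      ((mem_S hY0).1 hb).2.1 ((mem_S hY0).1 hu).2.1 ((mem_S hY0).1 hv).2.1 he0 hf hl'.1
    refine (mul_le_mul_of_nonneg_left g (by positivity)).trans (le_of_eq ?_)
    unfold Wt5
    field_simp
  have hsum : 2 * Real.pi * Z / (Real.sqrt 3 * nm e) *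
      (∑ l ∈ bl L, ‖Q5 w X Z a b c u v d e f l‖) ≤
      2 * Real.pi / Real.sqrt 3 * csig σ *
        (Wt5 Z σ a b u v e f * (∑ l ∈ bl L, (nm l : ℝ) ^ (-σ) * I5 w X σ a b c u v d e f l) +
          Wt5 Z σ a b u v e f * (∑ l ∈ bl L, (nm l : ℝ) ^ (-σ) *
            I5 w X σ b a c v u d e f l)) := by
    rw [Finset.mul_sum]
    refine (Finset.sum_le_sum hq).trans (le_of_eq ?_)
    rw [← mul_add, ← Finset.sum_add_distrib, Finset.mul_sum, Finset.mul_sum]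
    refine Finset.sum_congr rfl fun l _ => by ring
  -- the tail
  have htail : 2 * Real.pi * Z / (Real.sqrt 3 * nm e) *
      ((16 * X * W2 X Y w) * Real.exp (-P) * (101 * L)) ≤ Tm X Y Z ε (W2 X Y w) := by
    have hLle : L ≤ 2 * P * (X * Y) ^ 3 := by
      rw [hL]; unfold L5; rw [← hP]
      have na := one_le a ((mem_S hY0).1 ha).2.1
      have nb := one_le b ((mem_S hY0).1 hb).2.1
      have nc := one_le c ((mem_S hY0).1 hc).2.1
      have nd := one_le d ((mem_S hX0).1 hd).2.1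
      have e1 : 1 ≤ (nm a : ℝ) * nm b := one_le_mul_of_one_le_of_one_le na nb
      have e2 : 1 ≤ (nm c : ℝ) * nm d := one_le_mul_of_one_le_of_one_le nc nd
      have e3 : 1 ≤ ((nm c : ℝ) * nm d) ^ 2 := by nlinarith
      have e4 : 1 ≤ ((nm a : ℝ) * nm b) * ((nm c : ℝ) * nm d) ^ 2 * Z :=
        one_le_mul_of_one_le_of_one_le (one_le_mul_of_one_le_of_one_le e1 e3) hZ
      have e5 : nm e * (X * Y) ^ 2 / (((nm a : ℝ) * nm b) * ((nm c : ℝ) * nm d) ^ 2 * Z) ≤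
          (X * Y) ^ 3 := by
        refine (div_le_self (by positivity) e4).trans ?_
        have : (nm e : ℝ) * (X * Y) ^ 2 ≤ (X * Y) * (X * Y) ^ 2 := by
          have := he'.1
          gcongr
        calc _ ≤ (X * Y) * (X * Y) ^ 2 := this
          _ = _ := by ring
      have e6 : 1 ≤ (X * Y) ^ 3 := one_le_pow₀ hXY
      have hP0 : 0 ≤ P := by linarith
      calc P * (1 + nm e * (X * Y) ^ 2 / (((nm a : ℝ) * nm b) * ((nm c : ℝ) * nm d) ^ 2 * Z))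
          ≤ P * ((X * Y) ^ 3 + (X * Y) ^ 3) :=
            mul_le_mul_of_nonneg_left (add_le_add e6 e5) hP0
        _ = _ := by ring
    have h4 : 2 * Real.pi * Z / (Real.sqrt 3 * nm e) ≤ 2 * Real.pi / Real.sqrt 3 * Z := by
      have : 2 * Real.pi * Z / (Real.sqrt 3 * nm e) = 2 * Real.pi / Real.sqrt 3 * Z / nm e := by
        field_simp
      rw [this]
      exact div_le_self (by positivity) nep
    unfold Tm
    rw [← hP]
    gcongr
  calc _ ≤ 2 * Real.pi * Z / (Real.sqrt 3 * nm e) *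
        ((∑ l ∈ bl L, ‖Q5 w X Z a b c u v d e f l‖) +
          (16 * X * W2 X Y w) * Real.exp (-P) * (101 * L)) := by gcongr
    _ = 2 * Real.pi * Z / (Real.sqrt 3 * nm e) * (∑ l ∈ bl L, ‖Q5 w X Z a b c u v d e f l‖) +
        2 * Real.pi * Z / (Real.sqrt 3 * nm e) *
          ((16 * X * W2 X Y w) * Real.exp (-P) * (101 * L)) := by ring
    _ ≤ _ := add_le_add hsum htail

open Classical in
/-- one configuration -/
lemma one_conf {X Y Z σ ε : ℝ} (hX : 1 ≤ X) (hY : 1 ≤ Y) (hZ : 1 ≤ Z) (hσ : 0 < σ) (hσ1 : σ ≤ 1)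
    (hε : 0 < ε) {w : Eis → Eis → ℂ} (hw : Supp X Y w) {a b c u v : Eis} (ha : a ∈ S Y)
    (hb : b ∈ S Y) (hc : c ∈ S Y) (hu : u ∈ S Y) (hv : v ∈ S Y) (h1 : b * (c * u) ∈ S Y)
    (h2 : a * (c * v) ∈ S Y) :
    ∑ d ∈ S X, ∑ e ∈ (S (X * Y)).filter (· ∣ c * d), ∑ f ∈ S X,
        2 * Real.pi * Z / (Real.sqrt 3 * nm e) * ‖N5 w X Z a b c u v d e f‖ ≤
      2 * Real.pi / Real.sqrt 3 * csig σ *
        (J5 X Y Z σ ε w a b c u v + J5' X Y Z σ ε w a b c u v) +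
      (16 * X) * ((16 * (X * Y)) * ((16 * X) * Tm X Y Z ε (W2 X Y w))) := by
  have hX0 : (0 : ℝ) ≤ X := by linarith
  have hY0 : (0 : ℝ) ≤ Y := by linarith
  have hXY : 1 ≤ X * Y := one_le_mul_of_one_le_of_one_le hX hY
  have hW := W2_nonneg X Y w
  have hTm : 0 ≤ Tm X Y Z ε (W2 X Y w) := by
    unfold Tm
    have := Real.pi_pos
    positivity
  set K1 := 2 * Real.pi / Real.sqrt 3 * csig σ with hK1
  set T := Tm X Y Z ε (W2 X Y w) with hT
  have cX := GLS106.card_S_le hX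
  have cXY := GLS106.card_S_le hXY
  have e1 : ∀ d ∈ S X, ∀ e ∈ (S (X * Y)).filter (· ∣ c * d), ∀ f ∈ S X,
      2 * Real.pi * Z / (Real.sqrt 3 * nm e) * ‖N5 w X Z a b c u v d e f‖ ≤
      K1 * (Wt5 Z σ a b u v e f * (∑ l ∈ bl (L5 X Y Z ε a b c d e), (nm l : ℝ) ^ (-σ) *
            I5 w X σ a b c u v d e f l) +
          Wt5 Z σ a b u v e f * (∑ l ∈ bl (L5 X Y Z ε a b c d e), (nm l : ℝ) ^ (-σ) *
            I5 w X σ b a c v u d e f l)) + T := fun d hd e he f hf =>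
    one_term hX hY hZ hσ hσ1 hε hw ha hb hc hu hv h1 h2 hd (Finset.mem_filter.1 he).1 hf
  refine (Finset.sum_le_sum fun d hd => Finset.sum_le_sum fun e he =>
    Finset.sum_le_sum fun f hf => e1 d hd e he f hf).trans ?_
  simp_rw [Finset.sum_add_distrib, ← Finset.mul_sum, Finset.sum_add_distrib]
  refine add_le_add (le_of_eq ?_) ?_
  · rfl
  · have s1 : ∑ _f ∈ S X, T ≤ 16 * X * T := by
      rw [Finset.sum_const, nsmul_eq_mul]
      exact mul_le_mul_of_nonneg_right cX hTm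
    have s2 : ∀ d : Eis, ∑ _e ∈ (S (X * Y)).filter (· ∣ c * d), ∑ _f ∈ S X, T ≤
        16 * (X * Y) * (16 * X * T) := by
      intro d
      refine (Finset.sum_le_sum fun e _ => s1).trans ?_
      rw [Finset.sum_const, nsmul_eq_mul]
      refine mul_le_mul_of_nonneg_right (le_trans ?_ cXY) (by positivity)
      exact_mod_cast Finset.card_le_card (Finset.filter_subset _ _)
    refine (Finset.sum_le_sum fun d _ => s2 d).trans ?_
    rw [Finset.sum_const, nsmul_eq_mul]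
    exact mul_le_mul_of_nonneg_right cX (by positivity)

lemma final_arith {K0 C1 cs Z W Q : ℝ} (h1 : 0 ≤ K0) (h2 : 0 ≤ C1) (h3 : 0 ≤ cs) (h4 : 0 ≤ Z)
    (h5 : 0 ≤ W) (h6 : 0 ≤ Q) :
    K0 * Z * W + (K0 * cs * Q + K0 * cs * Q + C1 * Z * W) ≤
      (K0 + C1 + K0 * cs * 2) * Z * W + (K0 + C1 + K0 * cs * 2) * Q := by
  have f1 : 0 ≤ K0 * cs * 2 * (Z * W) := by positivity
  have f2 : 0 ≤ (K0 + C1) * Q := by positivity
  have e1 : K0 * Z * W + (K0 * cs * Q + K0 * cs * Q + C1 * Z * W) =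
    (K0 + C1) * (Z * W) + K0 * cs * 2 * Q := by ring
  have e2 : (K0 + C1 + K0 * cs * 2) * Z * W + (K0 + C1 + K0 * cs * 2) * Q =
    ((K0 + C1) * (Z * W) + K0 * cs * 2 * Q) +
      (K0 * cs * 2 * (Z * W) + (K0 + C1) * Q) := by ring
  rw [e1, e2]
  exact le_add_of_nonneg_right (add_nonneg f1 f2)

open Classical in
set_option maxHeartbeats 1000000 in
/-- **The two-parameter dual inequality.** -/
theorem dual2 {σ ε : ℝ} (hσ : 0 < σ) (hσ1 : σ ≤ 1) (hε : 0 < ε) :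
    ∃ C : ℝ, 0 < C ∧ ∀ X Y Z : ℝ, 1 ≤ X → 1 ≤ Y → 1 ≤ Z → ∀ w : Eis → Eis → ℂ, Supp X Y w →
      ∑' n : Eis, Real.exp (-(nm n : ℝ) / Z) * ‖lin2 X Y w n‖ ^ 2 ≤
        C * Z * W2 X Y w + C * Qd2 X Y Z σ ε w := by
  set m : ℕ := ⌈9 / ε⌉₊ with hm
  have h3 : 0 < Real.sqrt 3 := by positivity
  have hπ := Real.pi_pos
  have hcs := csig_pos hσ
  set K0 : ℝ := 2 * Real.pi / Real.sqrt 3 with hK0
  have hK0p : 0 < K0 := by rw [hK0]; positivity
  set C1 : ℝ := K0 * 16 ^ 9 * 202 * ((m + 1).factorial : ℝ) with hC1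
  have hC1p : 0 < C1 := by rw [hC1]; positivity
  refine ⟨K0 + C1 + K0 * csig σ * 2, by positivity, ?_⟩
  intro X Y Z hX hY hZ w hw
  have hX0 : (0 : ℝ) ≤ X := by linarith
  have hY0 : (0 : ℝ) ≤ Y := by linarith
  have hZ0 : (0 : ℝ) < Z := by linarith
  have hXY : 1 ≤ X * Y := one_le_mul_of_one_le_of_one_le hX hY
  have hXYZ : 1 ≤ X * Y * Z := one_le_mul_of_one_le_of_one_le hXY hZ
  have hW := W2_nonneg X Y w
  set W := W2 X Y w with hWd
  set P := (X * Y * Z) ^ ε with hP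
  have hP1 : 1 ≤ P := Real.one_le_rpow hXYZ hε.le
  have cY := GLS106.card_S_le hY
  set T := Tm X Y Z ε W with hT
  have hT0 : 0 ≤ T := by rw [hT]; unfold Tm; positivity
  set T1 := (16 * X) * ((16 * (X * Y)) * ((16 * X) * T)) with hT1
  have hT10 : 0 ≤ T1 := by rw [hT1]; positivity
  have hQ0 : ∀ a b c u v : Eis, 0 ≤ J5 X Y Z σ ε w a b c u v := by
    intro a b c u v
    unfold J5
    refine Finset.sum_nonneg fun d _ => Finset.sum_nonneg fun e _ => Finset.sum_nonneg fun f _ => ?_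
    refine mul_nonneg (Wt5_nonneg hZ0.le _ _ _ _ _ _ _) (Finset.sum_nonneg fun l _ => ?_)
    exact mul_nonneg (by positivity) (I5_nonneg _ _ _ _ _ _ _ _ _ _ _ _)
  have hQd0 : 0 ≤ Qd2 X Y Z σ ε w := by
    unfold Qd2
    refine Finset.sum_nonneg fun a _ => Finset.sum_nonneg fun b _ => Finset.sum_nonneg fun c _ =>
      Finset.sum_nonneg fun u _ => Finset.sum_nonneg fun v _ => ?_
    split_ifs
    · exact hQ0 a b c u v
    · exact le_rfl
  have h1 := dual2_exact hX hY hZ0 hw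
  -- each configuration
  have hconf : ∀ a ∈ S Y, ∀ b ∈ S Y, ∀ c ∈ S Y, ∀ u ∈ S Y, ∀ v ∈ S Y,
      (if b * (c * u) ∈ S Y ∧ a * (c * v) ∈ S Y ∧ IsCoprime u v then
          ∑ d ∈ S X, ∑ e ∈ (S (X * Y)).filter (· ∣ c * d), ∑ f ∈ S X,
            2 * Real.pi * Z / (Real.sqrt 3 * nm e) * ‖N5 w X Z a b c u v d e f‖ else 0) ≤
      (K0 * csig σ * (if b * (c * u) ∈ S Y ∧ a * (c * v) ∈ S Y ∧ IsCoprime u v then
          J5 X Y Z σ ε w a b c u v else 0) +
        K0 * csig σ * (if b * (c * u) ∈ S Y ∧ a * (c * v) ∈ S Y ∧ IsCoprime u v then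
          J5' X Y Z σ ε w a b c u v else 0)) + T1 := by
    intro a ha b hb c hc u hu v hv
    by_cases h : b * (c * u) ∈ S Y ∧ a * (c * v) ∈ S Y ∧ IsCoprime u v
    · rw [if_pos h, if_pos h, if_pos h]
      refine (one_conf hX hY hZ hσ hσ1 hε hw ha hb hc hu hv h.1 h.2.1).trans (le_of_eq ?_)
      rw [hT1, hT, hWd, hK0]
      ring
    · rw [if_neg h, if_neg h, if_neg h]
      linarith
  have hsum := Finset.sum_le_sum fun a ha => Finset.sum_le_sum fun b hb =>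
    Finset.sum_le_sum fun c hc => Finset.sum_le_sum fun u hu =>
      Finset.sum_le_sum fun v hv => hconf a ha b hb c hc u hu v hv
  have hR : ∑ a ∈ S Y, ∑ b ∈ S Y, ∑ c ∈ S Y, ∑ u ∈ S Y, ∑ v ∈ S Y,
      ((K0 * csig σ * (if b * (c * u) ∈ S Y ∧ a * (c * v) ∈ S Y ∧ IsCoprime u v then
          J5 X Y Z σ ε w a b c u v else 0) +
        K0 * csig σ * (if b * (c * u) ∈ S Y ∧ a * (c * v) ∈ S Y ∧ IsCoprime u v then
          J5' X Y Z σ ε w a b c u v else 0)) + T1) =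
      K0 * csig σ * Qd2 X Y Z σ ε w + K0 * csig σ * Qd2 X Y Z σ ε w +
        ∑ _a ∈ S Y, ∑ _b ∈ S Y, ∑ _c ∈ S Y, ∑ _u ∈ S Y, ∑ _v ∈ S Y, T1 := by
    simp_rw [Finset.sum_add_distrib, ← Finset.mul_sum]
    rw [Qd2_swap]
    rfl
  have hT5 : ∑ _a ∈ S Y, ∑ _b ∈ S Y, ∑ _c ∈ S Y, ∑ _u ∈ S Y, ∑ _v ∈ S Y, T1 ≤
      (16 * Y) ^ 5 * T1 := by
    simp only [Finset.sum_const, nsmul_eq_mul]
    have hc0 : (0 : ℝ) ≤ (S Y).card := by positivity
    calc ((S Y).card : ℝ) * ((S Y).card * ((S Y).card * ((S Y).card * ((S Y).card * T1))))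
        ≤ (16 * Y) * ((16 * Y) * ((16 * Y) * ((16 * Y) * ((16 * Y) * T1)))) := by gcongr
      _ = _ := by ring
  have key : (X * Y) ^ 9 * P * Real.exp (-P) ≤ ((m + 1).factorial : ℝ) := by
    have h1 : (X * Y) ^ 9 ≤ P ^ m := by
      have e1 : X * Y ≤ X * Y * Z := by nlinarith
      calc (X * Y) ^ 9 ≤ (X * Y * Z) ^ 9 := by gcongr
        _ = (X * Y * Z) ^ (9 : ℝ) := by norm_cast
        _ ≤ (X * Y * Z) ^ (ε * m) := by
          apply Real.rpow_le_rpow_of_exponent_le hXYZ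
          have : 9 / ε ≤ m := Nat.le_ceil _
          rw [div_le_iff₀ hε] at this
          linarith
        _ = P ^ m := by rw [hP, Real.rpow_mul (by linarith), Real.rpow_natCast]
    calc (X * Y) ^ 9 * P * Real.exp (-P) ≤ P ^ m * P * Real.exp (-P) := by gcongr
      _ = P ^ (m + 1) * Real.exp (-P) := by ring
      _ ≤ _ := pow_mul_exp_le (by linarith) _
  have hTT : (16 * Y) ^ 5 * T1 ≤ C1 * Z * W := by
    have e1 : (16 * Y) ^ 5 * T1 = K0 * 16 ^ 9 * 202 * (X ^ 7 * Y ^ 9 * P * Real.exp (-P)) * Z * W := by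
      rw [hT1, hT]; unfold Tm; rw [← hP, ← hK0]; ring
    have e2 : X ^ 7 * Y ^ 9 * P * Real.exp (-P) ≤ (X * Y) ^ 9 * P * Real.exp (-P) := by
      have : X ^ 7 * Y ^ 9 ≤ (X * Y) ^ 9 := by
        rw [mul_pow]
        gcongr
        norm_num
      have hP0 : 0 ≤ P := by linarith
      gcongr
    rw [e1, hC1]
    have e3 := e2.trans key
    have hK1 : 0 ≤ K0 * 16 ^ 9 * 202 := by positivity
    have e4 : K0 * 16 ^ 9 * 202 * (X ^ 7 * Y ^ 9 * P * Real.exp (-P)) ≤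
        K0 * 16 ^ 9 * 202 * ((m + 1).factorial : ℝ) := mul_le_mul_of_nonneg_left e3 hK1
    have e5 := mul_le_mul_of_nonneg_right e4 hZ0.le
    exact mul_le_mul_of_nonneg_right e5 hW
  have hmain : 2 * Real.pi * Z / Real.sqrt 3 * ∑ q ∈ S Y, ∑ h ∈ S X, ‖w h q‖ ^ 2 = K0 * Z * W := by
    rw [hK0, hWd]; unfold W2; ring
  rw [hmain] at h1
  rw [hR] at hsum
  have h2 := h1.trans (add_le_add le_rfl (hsum.trans (add_le_add le_rfl (hT5.trans hTT))))
  exact h2.trans (final_arith hK0p.le hC1p.le hcs.le hZ0.le hW hQd0)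

end Crest.Agent.R017.Dual2813
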