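import Crest.Agent.R017.RemA_381
import Crest.Agent.R012.LS2Main_381

/-!
# Row 17 (section C): structured removal (702's C3 / 325's CLS), from `CR2.DualIneq`

`rem_dual`: for `x h = ∑ n ∈ T, c n * conj (sy n h)`:
`∑ h ∈ S X, ‖x h‖² ≤ C Z ∑ n ∈ T, exp (nm n / Z) ‖c n‖² + Z⁻¹ Qd X Z σ ε x`.
-/

set_option autoImplicit false

noncomputable section

open MeasureTheory Finset
open scoped ComplexConjugate

namespace Crest.Agent.R017.Rem381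

open Crest.Agent.R012
open Eis LS2 Mob705 CR2 MelSep811

open Classical in
/-- restriction to `S X` -/
def rs (X : ℝ) (w : Eis → ℂ) (h : Eis) : ℂ := if h ∈ S X then w h else 0

lemma rs_supp {X : ℝ} {w : Eis → ℂ} (h : Eis) (hh : rs X w h ≠ 0) : h ∈ S X := by
  by_contra h1
  exact hh (by unfold rs; rw [if_neg h1])

lemma rs_eq {X : ℝ} {w : Eis → ℂ} {h : Eis} (hh : h ∈ S X) : rs X w h = w h := by
  unfold rs; rw [if_pos hh]

open Classical in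
/-- the dual form -/
def Qd (X Z σ ε : ℝ) (w : Eis → ℂ) : ℝ :=
  ∑ d ∈ S X, ∑ e ∈ (S X).filter (· ∣ d), ∑ f ∈ S X,
    Z / (nm e * nm f) * (nm e * (nm f : ℝ) ^ 2 / Z) ^ σ *
      ∫ t : ℝ, (1 + t ^ 2)⁻¹ * ∑ l ∈ bl (Lde X Z ε d e),
        (nm l : ℝ) ^ (-σ) * ‖dsum (rs X w) X d e f l (σ + t * Complex.I)‖ ^ 2

open Classical in
/-- the coefficients of the linear form -/
def Lc (X : ℝ) (d e f l : Eis) (s : ℂ) (a : Eis) : ℂ :=
  ∑ k ∈ (S X).filter (fun k => d * f * k = a),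
    (sy (e * sq3) k * conj (sy (f * l) k) * G k) * (nm k : ℂ) ^ (s - 1 / 2)

lemma dsum_rs (X : ℝ) (w : Eis → ℂ) (d e f l : Eis) (s : ℂ) :
    dsum (rs X w) X d e f l s = ∑ a ∈ S X, w a * Lc X d e f l s a := by
  classical
  unfold dsum Lc
  simp_rw [Finset.mul_sum, Finset.sum_filter]
  rw [Finset.sum_comm]
  refine Finset.sum_congr rfl fun k _ => ?_
  by_cases h : d * f * k ∈ S X
  · rw [Finset.sum_ite_eq, if_pos h, rs_eq h]
    ring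
  · rw [Finset.sum_ite_eq, if_neg h]
    unfold rs
    rw [if_neg h]
    ring

lemma continuous_Lc {X : ℝ} (hX : 0 ≤ X) (d e f l a : Eis) (σ : ℝ) :
    Continuous fun t : ℝ => Lc X d e f l (σ + t * Complex.I) a := by
  classical
  unfold Lc
  refine continuous_finsetSum _ fun k hk => ?_
  have hk1 := (mem_S hX).1 (Finset.mem_filter.1 hk).1
  have h0 : (nm k : ℂ) ≠ 0 := by exact_mod_cast (nm_pos.2 hk1.2.1.ne_zero).ne'
  refine Continuous.mul continuous_const ?_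
  refine Continuous.const_cpow (by fun_prop) (Or.inl h0)

lemma norm_Lc_le {X : ℝ} (hX : 0 ≤ X) (d e f l a : Eis) (σ : ℝ) :
    ∃ B : ℝ, ∀ t : ℝ, ‖Lc X d e f l (σ + t * Complex.I) a‖ ≤ B := by
  classical
  refine ⟨∑ k ∈ (S X).filter (fun k => d * f * k = a),
    ‖sy (e * sq3) k * conj (sy (f * l) k) * G k‖ * (nm k : ℝ) ^ (σ - 1 / 2), fun t => ?_⟩
  unfold Lc
  refine (norm_sum_le _ _).trans (Finset.sum_le_sum fun k hk => ?_)
  have hk1 := (mem_S hX).1 (Finset.mem_filter.1 hk).1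
  have h0 : (0 : ℝ) < nm k := by exact_mod_cast nm_pos.2 hk1.2.1.ne_zero
  rw [norm_mul]
  have h1 : ‖(nm k : ℂ) ^ ((σ : ℂ) + t * Complex.I - 1 / 2)‖ = (nm k : ℝ) ^ (σ - 1 / 2) := by
    have h2 : (nm k : ℂ) = ((nm k : ℝ) : ℂ) := by push_cast; rfl
    rw [h2, Complex.norm_cpow_eq_rpow_re_of_pos h0]
    congr 1
    simp
  rw [h1]

lemma integrable_prod {X : ℝ} (hX : 0 ≤ X) (d e f l a b : Eis) (σ : ℝ) :
    Integrable fun t : ℝ => (((1 + t ^ 2)⁻¹ : ℝ) : ℂ) *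
      (conj (Lc X d e f l (σ + t * Complex.I) a) * Lc X d e f l (σ + t * Complex.I) b) := by
  obtain ⟨A, hA⟩ := norm_Lc_le hX d e f l a σ
  obtain ⟨B, hB⟩ := norm_Lc_le hX d e f l b σ
  have h1 : Integrable fun t : ℝ => (((1 + t ^ 2)⁻¹ : ℝ) : ℂ) := integrable_inv_one_add_sq.ofReal
  refine h1.mul_bdd (c := A * B) ?_ (Filter.Eventually.of_forall fun t => ?_)
  · exact ((Complex.continuous_conj.comp (continuous_Lc hX d e f l a σ)).mul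
      (continuous_Lc hX d e f l b σ)).aestronglyMeasurable
  · rw [norm_mul, RCLike.norm_conj]
    have h0 : 0 ≤ A := (norm_nonneg _).trans (hA 0)
    gcongr
    · exact hA t
    · exact hB t

lemma pf_Qd {X Z σ ε : ℝ} (hX : 0 ≤ X) (hZ : 0 < Z) : PF (S X) (Qd X Z σ ε) := by
  classical
  have key : ∀ d e f l : Eis, PF (S X) (fun w => ∫ t : ℝ, (1 + t ^ 2)⁻¹ *
      ‖∑ a ∈ S X, w a * Lc X d e f l (σ + t * Complex.I) a‖ ^ 2) := fun d e f l =>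
    PF.integral_norm_sq (S X) (L := fun t a => Lc X d e f l (σ + t * Complex.I) a)
      (ρ := fun t => (1 + t ^ 2)⁻¹) (fun t => by positivity)
      (fun a _ b _ => integrable_prod hX d e f l a b σ)
  have h1 : PF (S X) (fun w => ∑ d ∈ S X, ∑ e ∈ (S X).filter (· ∣ d), ∑ f ∈ S X,
      Z / (nm e * nm f) * (nm e * (nm f : ℝ) ^ 2 / Z) ^ σ *
        ∑ l ∈ bl (Lde X Z ε d e), (nm l : ℝ) ^ (-σ) * ∫ t : ℝ, (1 + t ^ 2)⁻¹ *
          ‖∑ a ∈ S X, w a * Lc X d e f l (σ + t * Complex.I) a‖ ^ 2) := by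
    refine PF.sum _ fun d _ => PF.sum _ fun e _ => PF.sum _ fun f _ => ?_
    refine PF.smul ?_ (by positivity)
    refine PF.sum _ fun l _ => ?_
    exact (key d e f l).smul (by positivity)
  refine h1.congr fun w => ?_
  unfold Qd
  refine Finset.sum_congr rfl fun d _ => Finset.sum_congr rfl fun e _ =>
    Finset.sum_congr rfl fun f _ => ?_
  congr 1
  have h2 : ∀ t : ℝ, (1 + t ^ 2)⁻¹ * ∑ l ∈ bl (Lde X Z ε d e),
      (nm l : ℝ) ^ (-σ) * ‖dsum (rs X w) X d e f l (σ + t * Complex.I)‖ ^ 2 =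
      ∑ l ∈ bl (Lde X Z ε d e), (nm l : ℝ) ^ (-σ) *
        ((1 + t ^ 2)⁻¹ * ‖dsum (rs X w) X d e f l (σ + t * Complex.I)‖ ^ 2) := by
    intro t
    rw [Finset.mul_sum]
    exact Finset.sum_congr rfl fun l _ => by ring
  simp_rw [h2]
  rw [integral_finsetSum _ fun l _ =>
    (DualIneq811.integrable_dsum hX (rs X w) d e f l σ).const_mul _]
  refine Finset.sum_congr rfl fun l _ => ?_
  rw [integral_const_mul]
  simp_rw [dsum_rs]

/-- **Structured removal**: the second moment of `x h = ∑ c n conj (sy n h)` over squarefree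
primary `h` of norm `≤ X`, in terms of its correlations with the dual vectors. -/
theorem rem_dual {σ ε : ℝ} (hσ : 0 < σ) (hσ1 : σ ≤ 1 / 2) (hε : 0 < ε) :
    ∃ C : ℝ, 0 < C ∧ ∀ X Z : ℝ, 1 ≤ X → 1 ≤ Z → ∀ (T : Finset Eis) (c : Eis → ℂ),
      ∑ h ∈ S X, ‖∑ n ∈ T, c n * conj (sy n h)‖ ^ 2 ≤
        C * Z * ∑ n ∈ T, Real.exp (nm n / Z) * ‖c n‖ ^ 2 +
        Z⁻¹ * Qd X Z σ ε (fun h => ∑ n ∈ T, c n * conj (sy n h)) := by
  classical
  obtain ⟨C, hC, hD⟩ := dualIneq σ ε hσ hσ1 hε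
  refine ⟨C, hC, fun X Z hX hZ T c => ?_⟩
  have hX0 : 0 ≤ X := by linarith
  have hZ0 : 0 < Z := by linarith
  refine rem_pf ((pf_Qd (σ := σ) (ε := ε) hX0 hZ0).smul (r := Z⁻¹) (by positivity)) _
    (A := C * Z * ∑ n ∈ T, Real.exp (nm n / Z) * ‖c n‖ ^ 2)
    (mul_nonneg (by positivity) (Finset.sum_nonneg fun n _ => by positivity)) fun w => ?_
  have hsum := summable_lhs Sym645.syFacts hX0 hZ0 (rs X w)
  have h1 := hD X Z hX hZ (rs X w) rs_supp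
  have h2 : ∀ n, ∑ h ∈ S X, rs X w h * sy n h = ∑ h ∈ S X, w h * sy n h := fun n =>
    Finset.sum_congr rfl fun h hh => by rw [rs_eq hh]
  have h3 : ∑ h ∈ S X, ‖rs X w h‖ ^ 2 = ∑ h ∈ S X, ‖w h‖ ^ 2 :=
    Finset.sum_congr rfl fun h hh => by rw [rs_eq hh]
  simp only [h2] at h1 hsum
  rw [h3] at h1
  have h4 : ∑ n ∈ T, Real.exp (-(nm n : ℝ) / Z) * ‖∑ h ∈ S X, w h * sy n h‖ ^ 2 ≤
      C * Z * (∑ h ∈ S X, ‖w h‖ ^ 2 + Z⁻¹ * Qd X Z σ ε w) := by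
    refine (hsum.sum_le_tsum T fun n _ => by positivity).trans (h1.trans (le_of_eq ?_))
    have e0 : C * Z * ∑ h ∈ S X, ‖w h‖ ^ 2 + C * Qd X Z σ ε w =
        C * Z * (∑ h ∈ S X, ‖w h‖ ^ 2 + Z⁻¹ * Qd X Z σ ε w) := by
      generalize Qd X Z σ ε w = B
      field_simp
    rw [← e0]
    rfl
  have h5 : ∑ a ∈ S X, conj (w a) * ∑ n ∈ T, c n * conj (sy n a) =
      ∑ n ∈ T, c n * conj (∑ a ∈ S X, w a * sy n a) := by
    simp_rw [map_sum, map_mul, Finset.mul_sum]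
    rw [Finset.sum_comm]
    refine Finset.sum_congr rfl fun n _ => Finset.sum_congr rfl fun a _ => ?_
    ring
  rw [h5]
  have h6 : ‖∑ n ∈ T, c n * conj (∑ a ∈ S X, w a * sy n a)‖ ≤
      ∑ n ∈ T, (Real.exp (nm n / (2 * Z)) * ‖c n‖) *
        (Real.exp (-(nm n : ℝ) / (2 * Z)) * ‖∑ a ∈ S X, w a * sy n a‖) := by
    refine (norm_sum_le _ _).trans (le_of_eq (Finset.sum_congr rfl fun n _ => ?_))
    rw [norm_mul, RCLike.norm_conj]
    have h7 : Real.exp ((nm n : ℝ) / (2 * Z)) * Real.exp (-(nm n : ℝ) / (2 * Z)) = 1 := by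
      rw [← Real.exp_add]
      have : (nm n : ℝ) / (2 * Z) + -(nm n : ℝ) / (2 * Z) = 0 := by ring
      rw [this, Real.exp_zero]
    calc ‖c n‖ * ‖∑ a ∈ S X, w a * sy n a‖
        = (Real.exp ((nm n : ℝ) / (2 * Z)) * Real.exp (-(nm n : ℝ) / (2 * Z))) *
          (‖c n‖ * ‖∑ a ∈ S X, w a * sy n a‖) := by rw [h7, one_mul]
      _ = _ := by ring
  have h8 : (∑ n ∈ T, (Real.exp (nm n / (2 * Z)) * ‖c n‖) *
        (Real.exp (-(nm n : ℝ) / (2 * Z)) * ‖∑ a ∈ S X, w a * sy n a‖)) ^ 2 ≤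
      (∑ n ∈ T, (Real.exp (nm n / (2 * Z)) * ‖c n‖) ^ 2) *
        ∑ n ∈ T, (Real.exp (-(nm n : ℝ) / (2 * Z)) * ‖∑ a ∈ S X, w a * sy n a‖) ^ 2 :=
    Finset.sum_mul_sq_le_sq_mul_sq _ _ _
  have e1 : ∀ n : Eis, (Real.exp (nm n / (2 * Z)) * ‖c n‖) ^ 2 =
      Real.exp (nm n / Z) * ‖c n‖ ^ 2 := fun n => by
    rw [mul_pow, ← Real.exp_nat_mul]
    congr 2
    push_cast
    field_simp
  have e2 : ∀ n : Eis, (Real.exp (-(nm n : ℝ) / (2 * Z)) * ‖∑ a ∈ S X, w a * sy n a‖) ^ 2 =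
      Real.exp (-(nm n : ℝ) / Z) * ‖∑ a ∈ S X, w a * sy n a‖ ^ 2 := fun n => by
    rw [mul_pow, ← Real.exp_nat_mul]
    congr 2
    push_cast
    field_simp
  simp_rw [e1, e2] at h8
  calc ‖∑ n ∈ T, c n * conj (∑ a ∈ S X, w a * sy n a)‖ ^ 2
      ≤ (∑ n ∈ T, (Real.exp (nm n / (2 * Z)) * ‖c n‖) *
        (Real.exp (-(nm n : ℝ) / (2 * Z)) * ‖∑ a ∈ S X, w a * sy n a‖)) ^ 2 := by gcongr
    _ ≤ _ := h8
    _ ≤ (∑ n ∈ T, Real.exp (nm n / Z) * ‖c n‖ ^ 2) *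
        (C * Z * (∑ h ∈ S X, ‖w h‖ ^ 2 + Z⁻¹ * Qd X Z σ ε w)) := by
        gcongr
    _ = _ := by ring

end Crest.Agent.R017.Rem381
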