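import Crest.Agent.R017.Dual2F_813
import Crest.Agent.R017.Rem_381

/-!
# Row 17: structured removal for the two-parameter family `χ_h conj χ_q`

`rem_dual2`: for `x (h, q) = ∑ n ∈ T, c n * (conj (sy n h) * sy n q)`, `h ∈ S X`, `q ∈ S Y` coprime,
`∑ ‖x‖² ≤ C Z ∑ n ∈ T, exp (nm n / Z) ‖c n‖² + Z⁻¹ Qd2 X Y Z σ ε x`.
-/

set_option autoImplicit false

noncomputable section

open MeasureTheory Finset
open scoped ComplexConjugate

namespace Crest.Agent.R017.Dual2813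

open Crest.Agent.R012
open Eis LS2 Mob705 CR2 MelSep811 DualIneq811
open Gauss880 (syG)
open Rem381 (PF rem_pf)

open Classical in
/-- coprime pairs -/
def PP2 (X Y : ℝ) : Finset (Eis × Eis) :=
  ((S X) ×ˢ (S Y)).filter (fun p => IsCoprime p.1 p.2)

lemma mem_PP2 {X Y : ℝ} {p : Eis × Eis} :
    p ∈ PP2 X Y ↔ p.1 ∈ S X ∧ p.2 ∈ S Y ∧ IsCoprime p.1 p.2 := by
  classical
  unfold PP2
  rw [Finset.mem_filter, Finset.mem_product, and_assoc]

open Classical in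
/-- restriction to coprime pairs -/
def rs2 (X Y : ℝ) (w : Eis × Eis → ℂ) (h q : Eis) : ℂ := if (h, q) ∈ PP2 X Y then w (h, q) else 0

lemma rs2_supp (X Y : ℝ) (w : Eis × Eis → ℂ) : Supp X Y (rs2 X Y w) := by
  intro h q hne
  by_contra hc
  apply hne
  unfold rs2
  rw [if_neg]
  intro h1
  exact hc (mem_PP2.1 h1)

open Classical in
lemma lin2_rs2 (X Y : ℝ) (w : Eis × Eis → ℂ) (n : Eis) :
    lin2 X Y (rs2 X Y w) n = ∑ p ∈ PP2 X Y, w p * (sy n p.1 * conj (sy n p.2)) := by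
  unfold lin2 PP2
  rw [Finset.sum_filter, Finset.sum_product, Finset.sum_comm]
  refine Finset.sum_congr rfl fun h hh => Finset.sum_congr rfl fun q hq => ?_
  unfold rs2
  by_cases hc : IsCoprime h q
  · rw [if_pos hc, if_pos (mem_PP2.2 ⟨hh, hq, hc⟩)]; ring
  · rw [if_neg hc, if_neg (fun h1 => hc (mem_PP2.1 h1).2.2)]; ring

open Classical in
lemma W2_rs2 (X Y : ℝ) (w : Eis × Eis → ℂ) :
    W2 X Y (rs2 X Y w) = ∑ p ∈ PP2 X Y, ‖w p‖ ^ 2 := by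
  unfold W2 PP2
  rw [Finset.sum_filter, Finset.sum_product, Finset.sum_comm]
  refine Finset.sum_congr rfl fun h hh => Finset.sum_congr rfl fun q hq => ?_
  unfold rs2
  by_cases hc : IsCoprime h q
  · rw [if_pos hc, if_pos (mem_PP2.2 ⟨hh, hq, hc⟩)]
  · rw [if_neg hc, if_neg (fun h1 => hc (mem_PP2.1 h1).2.2)]; simp

open Classical in
/-- the coefficients of the linear form -/
def Lc2 (X : ℝ) (a b c u v d e f l : Eis) (s : ℂ) (p : Eis × Eis) : ℂ :=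
  ∑ k ∈ (S X).filter (fun k => (a * (d * f * k), b * (c * u)) = p),
    (sy (e * sq3) k * conj (sy (b * v * f * l) k) * G k) * (nm k : ℂ) ^ (s - 1 / 2)

lemma dsum2_rs2 (X Y : ℝ) (w : Eis × Eis → ℂ) (a b c u v d e f l : Eis) (s : ℂ) :
    dsum2 (rs2 X Y w) X a b c u v d e f l s =
      ∑ p ∈ PP2 X Y, w p * Lc2 X a b c u v d e f l s p := by
  classical
  unfold dsum2 Lc2
  simp_rw [Finset.mul_sum, Finset.sum_filter]
  rw [Finset.sum_comm]
  refine Finset.sum_congr rfl fun k _ => ?_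
  unfold rs2
  by_cases h : (a * (d * f * k), b * (c * u)) ∈ PP2 X Y
  · rw [Finset.sum_ite_eq, if_pos h, if_pos h]
    ring
  · rw [Finset.sum_ite_eq, if_neg h, if_neg h]
    ring

lemma continuous_Lc2 {X : ℝ} (hX : 0 ≤ X) (a b c u v d e f l : Eis) (p : Eis × Eis) (σ : ℝ) :
    Continuous fun t : ℝ => Lc2 X a b c u v d e f l (σ + t * Complex.I) p := by
  classical
  unfold Lc2
  refine continuous_finsetSum _ fun k hk => ?_
  have hk1 := (mem_S hX).1 (Finset.mem_filter.1 hk).1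
  have h0 : (nm k : ℂ) ≠ 0 := by exact_mod_cast (nm_pos.2 hk1.2.1.ne_zero).ne'
  refine Continuous.mul continuous_const ?_
  refine Continuous.const_cpow (by fun_prop) (Or.inl h0)

lemma norm_Lc2_le {X : ℝ} (hX : 0 ≤ X) (a b c u v d e f l : Eis) (p : Eis × Eis) (σ : ℝ) :
    ∃ B : ℝ, ∀ t : ℝ, ‖Lc2 X a b c u v d e f l (σ + t * Complex.I) p‖ ≤ B := by
  classical
  refine ⟨∑ k ∈ (S X).filter (fun k => (a * (d * f * k), b * (c * u)) = p),
    ‖sy (e * sq3) k * conj (sy (b * v * f * l) k) * G k‖ * (nm k : ℝ) ^ (σ - 1 / 2), fun t => ?_⟩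
  unfold Lc2
  refine (norm_sum_le _ _).trans (Finset.sum_le_sum fun k hk => ?_)
  have hk1 := (mem_S hX).1 (Finset.mem_filter.1 hk).1
  have h0 : (0 : ℝ) < nm k := by exact_mod_cast nm_pos.2 hk1.2.1.ne_zero
  rw [norm_mul]
  have h1 : ‖(nm k : ℂ) ^ ((σ : ℂ) + t * Complex.I - 1 / 2)‖ = (nm k : ℝ) ^ (σ - 1 / 2) := by
    have h2 : (nm k : ℂ) = ((nm k : ℝ) : ℂ) := by push_cast; rfl
    rw [h2, Complex.norm_cpow_eq_rpow_re_of_pos h0]
    congr 1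
    simp
  rw [h1]

lemma integrable_prod2 {X : ℝ} (hX : 0 ≤ X) (a b c u v d e f l : Eis) (p q : Eis × Eis) (σ : ℝ) :
    Integrable fun t : ℝ => (((1 + t ^ 2)⁻¹ : ℝ) : ℂ) *
      (conj (Lc2 X a b c u v d e f l (σ + t * Complex.I) p) *
        Lc2 X a b c u v d e f l (σ + t * Complex.I) q) := by
  obtain ⟨A, hA⟩ := norm_Lc2_le hX a b c u v d e f l p σ
  obtain ⟨B, hB⟩ := norm_Lc2_le hX a b c u v d e f l q σ
  have h1 : Integrable fun t : ℝ => (((1 + t ^ 2)⁻¹ : ℝ) : ℂ) := integrable_inv_one_add_sq.ofReal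
  refine h1.mul_bdd (c := A * B) ?_ (Filter.Eventually.of_forall fun t => ?_)
  · exact ((Complex.continuous_conj.comp (continuous_Lc2 hX a b c u v d e f l p σ)).mul
      (continuous_Lc2 hX a b c u v d e f l q σ)).aestronglyMeasurable
  · rw [norm_mul, RCLike.norm_conj]
    have h0 : 0 ≤ A := (norm_nonneg _).trans (hA 0)
    gcongr
    · exact hA t
    · exact hB t

lemma pf_Qd2 {X Y Z σ ε : ℝ} (hX : 0 ≤ X) (hZ : 0 < Z) :
    PF (PP2 X Y) (fun w => Qd2 X Y Z σ ε (rs2 X Y w)) := by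
  classical
  have key : ∀ a b c u v d e f l : Eis, PF (PP2 X Y) (fun w =>
      I5 (rs2 X Y w) X σ a b c u v d e f l) := by
    intro a b c u v d e f l
    refine (PF.integral_norm_sq (PP2 X Y) (L := fun t p =>
      Lc2 X a b c u v d e f l (σ + t * Complex.I) p) (ρ := fun t => (1 + t ^ 2)⁻¹)
      (fun t => by positivity)
      (fun p _ q _ => integrable_prod2 hX a b c u v d e f l p q σ)).congr fun w => ?_
    unfold I5
    simp_rw [dsum2_rs2]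
  have h5 : ∀ a b c u v : Eis, PF (PP2 X Y) (fun w => J5 X Y Z σ ε (rs2 X Y w) a b c u v) := by
    intro a b c u v
    unfold J5
    refine PF.sum _ fun d _ => PF.sum _ fun e _ => PF.sum _ fun f _ => ?_
    refine PF.smul ?_ (Wt5_nonneg hZ.le _ _ _ _ _ _ _)
    exact PF.sum _ fun l _ => (key a b c u v d e f l).smul (by positivity)
  unfold Qd2
  refine PF.sum _ fun a _ => PF.sum _ fun b _ => PF.sum _ fun c _ => PF.sum _ fun u _ =>
    PF.sum _ fun v _ => ?_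
  by_cases h : b * (c * u) ∈ S Y ∧ a * (c * v) ∈ S Y ∧ IsCoprime u v
  · exact (h5 a b c u v).congr fun w => by rw [if_pos h]
  · exact (PF.zero _).congr fun w => by rw [if_neg h]

/-- **Structured removal, two-parameter family.** -/
theorem rem_dual2 {σ ε : ℝ} (hσ : 0 < σ) (hσ1 : σ ≤ 1) (hε : 0 < ε) :
    ∃ C : ℝ, 0 < C ∧ ∀ X Y Z : ℝ, 1 ≤ X → 1 ≤ Y → 1 ≤ Z → ∀ (T : Finset Eis) (c : Eis → ℂ),
      ∑ p ∈ PP2 X Y, ‖∑ n ∈ T, c n * (conj (sy n p.1) * sy n p.2)‖ ^ 2 ≤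
        C * Z * ∑ n ∈ T, Real.exp (nm n / Z) * ‖c n‖ ^ 2 +
        Z⁻¹ * Qd2 X Y Z σ ε (rs2 X Y (fun p => ∑ n ∈ T, c n * (conj (sy n p.1) * sy n p.2))) := by
  classical
  obtain ⟨C, hC, hD⟩ := dual2 hσ hσ1 hε
  refine ⟨C, hC, fun X Y Z hX hY hZ T c => ?_⟩
  have hX0 : 0 ≤ X := by linarith
  have hY0 : 0 ≤ Y := by linarith
  have hZ0 : 0 < Z := by linarith
  refine rem_pf (Q := fun w => Z⁻¹ * Qd2 X Y Z σ ε (rs2 X Y w))
    ((pf_Qd2 (Y := Y) (σ := σ) (ε := ε) hX0 hZ0).smul (r := Z⁻¹) (by positivity))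
    (fun p : Eis × Eis => ∑ n ∈ T, c n * (conj (sy n p.1) * sy n p.2))
    (A := C * Z * ∑ n ∈ T, Real.exp (nm n / Z) * ‖c n‖ ^ 2)
    (mul_nonneg (by positivity) (Finset.sum_nonneg fun n _ => by positivity)) fun w => ?_
  have hsum := summable_lhs2 hX0 hY0 hZ0 (rs2 X Y w)
  have h1 := hD X Y Z hX hY hZ (rs2 X Y w) (rs2_supp X Y w)
  simp only [lin2_rs2] at h1 hsum
  rw [W2_rs2] at h1
  have h4 : ∑ n ∈ T, Real.exp (-(nm n : ℝ) / Z) *
      ‖∑ p ∈ PP2 X Y, w p * (sy n p.1 * conj (sy n p.2))‖ ^ 2 ≤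
      C * Z * (∑ p ∈ PP2 X Y, ‖w p‖ ^ 2 + Z⁻¹ * Qd2 X Y Z σ ε (rs2 X Y w)) := by
    refine (hsum.sum_le_tsum T fun n _ => by positivity).trans (h1.trans (le_of_eq ?_))
    generalize Qd2 X Y Z σ ε (rs2 X Y w) = B
    field_simp
  have h5 : ∑ p ∈ PP2 X Y, conj (w p) * ∑ n ∈ T, c n * (conj (sy n p.1) * sy n p.2) =
      ∑ n ∈ T, c n * conj (∑ p ∈ PP2 X Y, w p * (sy n p.1 * conj (sy n p.2))) := by
    simp_rw [map_sum, map_mul, Complex.conj_conj, Finset.mul_sum]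
    rw [Finset.sum_comm]
    refine Finset.sum_congr rfl fun n _ => Finset.sum_congr rfl fun a _ => ?_
    ring
  rw [h5]
  set F : Eis → ℂ := fun n => ∑ p ∈ PP2 X Y, w p * (sy n p.1 * conj (sy n p.2)) with hF
  have h6 : ‖∑ n ∈ T, c n * conj (F n)‖ ≤
      ∑ n ∈ T, (Real.exp (nm n / (2 * Z)) * ‖c n‖) *
        (Real.exp (-(nm n : ℝ) / (2 * Z)) * ‖F n‖) := by
    refine (norm_sum_le _ _).trans (le_of_eq (Finset.sum_congr rfl fun n _ => ?_))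
    rw [norm_mul, RCLike.norm_conj]
    have h7 : Real.exp ((nm n : ℝ) / (2 * Z)) * Real.exp (-(nm n : ℝ) / (2 * Z)) = 1 := by
      rw [← Real.exp_add]
      have : (nm n : ℝ) / (2 * Z) + -(nm n : ℝ) / (2 * Z) = 0 := by ring
      rw [this, Real.exp_zero]
    calc ‖c n‖ * ‖F n‖
        = (Real.exp ((nm n : ℝ) / (2 * Z)) * Real.exp (-(nm n : ℝ) / (2 * Z))) *
          (‖c n‖ * ‖F n‖) := by rw [h7, one_mul]
      _ = _ := by ring
  have h8 : (∑ n ∈ T, (Real.exp (nm n / (2 * Z)) * ‖c n‖) *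
        (Real.exp (-(nm n : ℝ) / (2 * Z)) * ‖F n‖)) ^ 2 ≤
      (∑ n ∈ T, (Real.exp (nm n / (2 * Z)) * ‖c n‖) ^ 2) *
        ∑ n ∈ T, (Real.exp (-(nm n : ℝ) / (2 * Z)) * ‖F n‖) ^ 2 :=
    Finset.sum_mul_sq_le_sq_mul_sq _ _ _
  have e1 : ∀ n : Eis, (Real.exp (nm n / (2 * Z)) * ‖c n‖) ^ 2 =
      Real.exp (nm n / Z) * ‖c n‖ ^ 2 := fun n => by
    rw [mul_pow, ← Real.exp_nat_mul]
    congr 2
    push_cast
    field_simp
  have e2 : ∀ n : Eis, (Real.exp (-(nm n : ℝ) / (2 * Z)) * ‖F n‖) ^ 2 =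
      Real.exp (-(nm n : ℝ) / Z) * ‖F n‖ ^ 2 := fun n => by
    rw [mul_pow, ← Real.exp_nat_mul]
    congr 2
    push_cast
    field_simp
  simp_rw [e1, e2] at h8
  calc ‖∑ n ∈ T, c n * conj (F n)‖ ^ 2
      ≤ (∑ n ∈ T, (Real.exp (nm n / (2 * Z)) * ‖c n‖) *
        (Real.exp (-(nm n : ℝ) / (2 * Z)) * ‖F n‖)) ^ 2 := by gcongr
    _ ≤ _ := h8
    _ ≤ (∑ n ∈ T, Real.exp (nm n / Z) * ‖c n‖ ^ 2) *
        (C * Z * (∑ p ∈ PP2 X Y, ‖w p‖ ^ 2 + Z⁻¹ * Qd2 X Y Z σ ε (rs2 X Y w))) := by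
        gcongr
    _ = _ := by ring

end Crest.Agent.R017.Dual2813
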