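import Crest.Agent.R017.E1z_551

/-!
# Row 17, block C70 (exact square), leaf E1, part za (helper551): `EP_le2`, `E1posW2`
-/

set_option autoImplicit false

noncomputable section

open Complex MeasureTheory
open scoped ComplexConjugate Classical

namespace Crest.Agent.R017.E1551

open Crest.Agent.R012 Crest.Agent.R012.Eis Crest.Agent.R012.MC
open Crest.Agent.R012.LS2 (S mem_S)
open Crest.Agent.R012.Mob705 (pdiv PE)
open Crest.Agent.R012.Weight600 (pw)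
open Crest.Agent.R017.CM106 (CS TG)
open Crest.Agent.R017.Dual2813 (S_of_dvd)
open Crest.Agent.R017.SqLoc829 (JE JE_cf mem_JE gd gd_prim gd_dvd_left gd_dvd_right)
open Crest.Agent.R017.C70 (JW XJ)

/-- the triples `(g, δ, L)` -/
def Q3 (Y : ℝ) : Finset (Eis × Eis × Eis) :=
  (S Y ×ˢ (S Y ×ˢ S Y)).filter (fun q => ¬ (q.1 * q.2.1 = 1 ∧ q.2.2 = 1))

lemma sum_regroup {Y : ℝ} {a : Eis → Eis → ℝ} {b c : Eis → Eis → Eis → ℝ}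
    (hb : ∀ g δ L, 0 ≤ b g δ L) (hc : ∀ g δ L, 0 ≤ c g δ L)
    (hac : ∀ g δ L, a (g * δ) L ≤ c g δ L) :
    ∑ p ∈ (S Y ×ˢ S Y).erase (1, 1), a p.1 p.2 * (∑ g ∈ S Y, ∑ δ ∈ S Y,
      if g * δ = p.1 then b g δ p.2 else 0) ≤
      ∑ q ∈ Q3 Y, c q.1 q.2.1 q.2.2 * b q.1 q.2.1 q.2.2 := by
  set R := (((S Y ×ˢ S Y).erase (1, 1)) ×ˢ (S Y ×ˢ S Y)).filter
    (fun r : (Eis × Eis) × (Eis × Eis) => r.2.1 * r.2.2 = r.1.1) with hR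
  have e1 : ∑ p ∈ (S Y ×ˢ S Y).erase (1, 1), a p.1 p.2 * (∑ g ∈ S Y, ∑ δ ∈ S Y,
      if g * δ = p.1 then b g δ p.2 else 0) = ∑ r ∈ R, a r.1.1 r.1.2 * b r.2.1 r.2.2 r.1.2 := by
    conv_rhs => rw [hR, Finset.sum_filter, Finset.sum_product]
    refine Finset.sum_congr rfl fun p _ => ?_
    rw [Finset.sum_product, Finset.mul_sum]
    refine Finset.sum_congr rfl fun g _ => ?_
    rw [Finset.mul_sum]
    refine Finset.sum_congr rfl fun δ _ => ?_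
    split_ifs <;> simp
  rw [e1]
  set ψ : (Eis × Eis) × (Eis × Eis) → Eis × Eis × Eis := fun r => (r.2.1, r.2.2, r.1.2) with hψ
  have h1 : ∀ r ∈ R, a r.1.1 r.1.2 * b r.2.1 r.2.2 r.1.2 ≤
      c (ψ r).1 (ψ r).2.1 (ψ r).2.2 * b (ψ r).1 (ψ r).2.1 (ψ r).2.2 := by
    intro r hr
    have hr2 := (Finset.mem_filter.mp hr).2
    show a r.1.1 r.1.2 * b r.2.1 r.2.2 r.1.2 ≤ c r.2.1 r.2.2 r.1.2 * b r.2.1 r.2.2 r.1.2
    rw [← hr2]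
    exact mul_le_mul_of_nonneg_right (hac _ _ _) (hb _ _ _)
  refine (Finset.sum_le_sum h1).trans ?_
  have hinj : Set.InjOn ψ (R : Set ((Eis × Eis) × (Eis × Eis))) := by
    intro r hr r' hr' h
    have hr2 := (Finset.mem_filter.mp hr).2
    have hr2' := (Finset.mem_filter.mp hr').2
    have k1 : r.2.1 = r'.2.1 := (congrArg Prod.fst h : (ψ r).1 = (ψ r').1)
    have k2 : (ψ r).2 = (ψ r').2 := congrArg Prod.snd h
    have k3 : r.2.2 = r'.2.2 := (congrArg Prod.fst k2 : (ψ r).2.1 = (ψ r').2.1)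
    have k4 : r.1.2 = r'.1.2 := (congrArg Prod.snd k2 : (ψ r).2.2 = (ψ r').2.2)
    refine Prod.ext (Prod.ext ?_ k4) (Prod.ext k1 k3)
    rw [← hr2, ← hr2', k1, k3]
  rw [← Finset.sum_image (f := fun q : Eis × Eis × Eis =>
    c q.1 q.2.1 q.2.2 * b q.1 q.2.1 q.2.2) (g := ψ) hinj]
  refine Finset.sum_le_sum_of_subset_of_nonneg ?_ fun q _ _ => mul_nonneg (hc _ _ _) (hb _ _ _)
  intro q hq
  obtain ⟨r, hr, rfl⟩ := Finset.mem_image.mp hq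
  obtain ⟨hr1, hr2⟩ := Finset.mem_filter.mp hr
  have hr3 := Finset.mem_product.mp hr1
  have hr4 := Finset.mem_product.mp hr3.2
  have hr5 := Finset.mem_erase.mp hr3.1
  have hr6 := Finset.mem_product.mp hr5.2
  refine Finset.mem_filter.mpr ⟨Finset.mem_product.mpr ⟨hr4.1,
    Finset.mem_product.mpr ⟨hr4.2, hr6.2⟩⟩, fun h => hr5.1 ?_⟩
  have h2 : r.2.1 * r.2.2 = 1 := h.1
  have h3 : r.1.2 = 1 := h.2
  rw [hr2] at h2
  exact Prod.ext h2 h3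

/-- the errors of all `(δ, G) ≠ (1, 1)` -/
def EG (A K X Y Y₀ Y₁ : ℝ) (α : Eis → ℂ) : ℝ :=
  ∑ p ∈ (S Y ×ˢ S Y).erase (1, 1), (nm p.1 * Div277.tau p.1 * (Div277.tau p.2 : ℝ) ^ 4) *
    (WJ A K X Y₁ α p.1 p.2 + LJ A K X Y₀ α p.1 p.2)

/-- the counting constant -/
def Ct (Y : ℝ) : ℝ := (∑ d ∈ S Y, (nm d : ℝ) ^ 4 * Div277.tau d) *
  (∑ L ∈ S Y, (Div277.tau L : ℝ) ^ 2)

lemma Ct_nonneg (Y : ℝ) : 0 ≤ Ct Y := by unfold Ct; positivity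

lemma Wf_one (A : ℝ) (α : Eis → ℂ) (κ : Eis) : Wf A α 1 κ 1 = Wb A α κ := by
  unfold Wf Wb Vt
  simp only [one_mul, mul_one]

lemma Et_nonneg {A B K X Y Y₁ : ℝ} (hK : 0 ≤ K) (hX : 0 ≤ X) (hY₁ : 0 ≤ Y₁) (α : Eis → ℂ) :
    0 ≤ Et A B K X Y Y₁ α := by
  unfold Et
  have := Cz_nonneg A
  positivity

/-- **`EP`, regrouped** -/
theorem EP_le2 {A B K X Y D Y₀ Y₁ δ : ℝ} (hA : 1 < A) (hB : 1 ≤ B) (hK : 0 < K) (hX : 0 < X)
    (hY : 1 ≤ Y) (hY₁ : 0 < Y₁) (hD : (0 ≤ D ∧ Y₁ ≤ D ^ 2) ∨ Y ≤ D) (hδ : 0 < δ)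
    {α : Eis → ℂ} (hα : ∀ n, α n ≠ 0 → n ∈ S Y) :
    EP A B K X Y δ α (JE D Y₀ Y₁) ≤
      δ * (∑ κ ∈ JE D Y₀ Y₁ 1, min 1 (lm K X 1 κ) * Wb A α κ + Lo A K X Y₀ α +
        Et A B K X Y Y₁ α) +
      δ⁻¹ * (EG A K X Y Y₀ Y₁ α + Ct Y * Et A B K X Y Y₁ α) := by
  have hY0 : 0 ≤ Y := by linarith
  have h1S := one_mem_S hY
  have hE : 0 ≤ Et A B K X Y Y₁ α := Et_nonneg hK.le hX.le hY₁.le α
  set J := JE D Y₀ Y₁ with hJ
  set E := Et A B K X Y Y₁ α with hEdef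
  set M : Eis → Eis → ℝ := fun a b => WJ A K X Y₁ α a b + LJ A K X Y₀ α a b with hM
  have hM0 : ∀ a b, 0 ≤ M a b := fun a b =>
    add_nonneg (WJ_nonneg hK.le hX.le α a b) (LJ_nonneg hK.le hX.le α a b)
  have hW : ∀ d ∈ S Y, ∀ L ∈ S Y, nm d * WS A B K X α (J d) d L ≤
      (∑ g ∈ S Y, ∑ e ∈ S Y, if g * e = d then nm e * M e (g * L) else 0) +
        (nm d : ℝ) ^ 4 * E := by
    intro d hd L hL
    have hLp := ((mem_S hY0).1 hL).2.1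
    have a1 := fin_JE (A := A) (D := D) (Y₀ := Y₀) (Y₁ := Y₁) hK hX hY0 (α := α) (L := L) hd
    have a2 := tail_JE2 (Y₀ := Y₀) hA hB hK hX hY0 hY₁ hD hα hd hLp
    have e1 : (∑ g ∈ S Y, ∑ e ∈ S Y, if g * e = d then nm e * M e (g * L) else 0) =
        (∑ g ∈ S Y, ∑ e ∈ S Y, if g * e = d then nm e * WJ A K X Y₁ α e (g * L) else 0) +
        (∑ g ∈ S Y, ∑ e ∈ S Y, if g * e = d then nm e * LJ A K X Y₀ α e (g * L) else 0) := by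
      rw [← Finset.sum_add_distrib]
      refine Finset.sum_congr rfl fun g _ => ?_
      rw [← Finset.sum_add_distrib]
      refine Finset.sum_congr rfl fun e _ => ?_
      split_ifs
      · simp only [hM]; ring
      · ring
    rw [e1]
    unfold WS
    rw [mul_add]
    linarith
  unfold EP
  refine add_le_add ?_ ?_
  · refine mul_le_mul_of_nonneg_left ?_ hδ.le
    have t1 := tail_one (A := A) (B := B) (Y₀ := Y₀) hA hB hK hX hY hY₁ hD hα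
    unfold WS
    have e1 : ∑ κ ∈ J 1, min (nm (1 : Eis) : ℝ) (lm K X 1 κ) * Wf A α 1 κ 1 =
        ∑ κ ∈ J 1, min 1 (lm K X 1 κ) * Wb A α κ := by
      refine Finset.sum_congr rfl fun κ _ => ?_
      rw [nm_one, Wf_one]; push_cast; rfl
    rw [e1]
    linarith
  · refine mul_le_mul_of_nonneg_left ?_ (inv_pos.mpr hδ).le
    set G' : Eis × Eis → ℝ := fun p => (Div277.tau p.1 * (Div277.tau p.2 : ℝ) ^ 2) *
      (nm p.1 * WS A B K X α (J p.1) p.1 p.2) with hG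
    have htau1 := tau_one551
    have e1 : ∑ L ∈ (S Y).erase 1, (Div277.tau L : ℝ) ^ 2 * WS A B K X α (J 1) 1 L +
        ∑ d ∈ (S Y).erase 1, (nm d * Div277.tau d *
          ∑ L ∈ S Y, (Div277.tau L : ℝ) ^ 2 * WS A B K X α (J d) d L) =
        ∑ p ∈ (S Y ×ˢ S Y).erase (1, 1), G' p := by
      have e2 := Finset.add_sum_erase (S Y ×ˢ S Y) G' (Finset.mem_product.mpr ⟨h1S, h1S⟩ :
        ((1, 1) : Eis × Eis) ∈ S Y ×ˢ S Y)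
      have e3 : ∑ p ∈ S Y ×ˢ S Y, G' p = ∑ d ∈ S Y, (nm d * Div277.tau d *
          ∑ L ∈ S Y, (Div277.tau L : ℝ) ^ 2 * WS A B K X α (J d) d L) := by
        rw [Finset.sum_product]
        refine Finset.sum_congr rfl fun d _ => ?_
        rw [Finset.mul_sum]
        refine Finset.sum_congr rfl fun L _ => ?_
        simp only [hG]; ring
      have e4 := Finset.add_sum_erase (S Y) (fun d => (nm d * Div277.tau d *
          ∑ L ∈ S Y, (Div277.tau L : ℝ) ^ 2 * WS A B K X α (J d) d L)) h1S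
      have e5 := Finset.add_sum_erase (S Y) (fun L =>
        (Div277.tau L : ℝ) ^ 2 * WS A B K X α (J 1) 1 L) h1S
      have e6 : G' (1, 1) = (Div277.tau (1 : Eis) : ℝ) ^ 2 * WS A B K X α (J 1) 1 1 := by
        simp only [hG]
        rw [nm_one, htau1]; push_cast; ring
      have e7 : ((nm (1 : Eis) : ℝ) * Div277.tau 1 *
          ∑ L ∈ S Y, (Div277.tau L : ℝ) ^ 2 * WS A B K X α (J 1) 1 L) =
          ∑ L ∈ S Y, (Div277.tau L : ℝ) ^ 2 * WS A B K X α (J 1) 1 L := by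
        rw [nm_one, htau1]; push_cast; ring
      linarith
    rw [e1]
    have h2 : ∀ p ∈ (S Y ×ˢ S Y).erase (1, 1), G' p ≤
        (Div277.tau p.1 * (Div277.tau p.2 : ℝ) ^ 2) *
          (∑ g ∈ S Y, ∑ e ∈ S Y, if g * e = p.1 then nm e * M e (g * p.2) else 0) +
        ((nm p.1 : ℝ) ^ 4 * Div277.tau p.1) * (Div277.tau p.2 : ℝ) ^ 2 * E := by
      intro p hp
      have hp2 := Finset.mem_product.mp (Finset.mem_of_mem_erase hp)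
      have h3 := hW p.1 hp2.1 p.2 hp2.2
      have h4 : (0 : ℝ) ≤ Div277.tau p.1 * (Div277.tau p.2 : ℝ) ^ 2 := by positivity
      have h5 := mul_le_mul_of_nonneg_left h3 h4
      simp only [hG]
      refine h5.trans (le_of_eq ?_)
      ring
    refine (Finset.sum_le_sum h2).trans ?_
    rw [Finset.sum_add_distrib]
    refine add_le_add ?_ ?_
    · have h3 := sum_regroup (Y := Y) (a := fun d L => (Div277.tau d : ℝ) *
          (Div277.tau L : ℝ) ^ 2) (b := fun g e L => nm e * M e (g * L))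
        (c := fun g e L => (Div277.tau g : ℝ) * Div277.tau e * (Div277.tau L : ℝ) ^ 2)
        (fun g e L => mul_nonneg (Nat.cast_nonneg _) (hM0 _ _)) (fun g e L => by positivity)
        (fun g e L => by
          have : (Div277.tau (g * e) : ℝ) ≤ Div277.tau g * Div277.tau e := by
            exact_mod_cast Div277.tau_mul_le g e
          exact mul_le_mul_of_nonneg_right this (by positivity))
      refine h3.trans ?_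
      exact sum_triple_le hY0 hα hM0 (fun a b h => by
        simp only [hM]
        rw [WJ_zero h, LJ_zero h, add_zero])
    · unfold Ct
      refine (Finset.sum_le_sum_of_subset_of_nonneg (Finset.erase_subset _ _)
        (fun p _ _ => by positivity)).trans (le_of_eq ?_)
      rw [Finset.sum_product, Finset.sum_mul_sum, Finset.sum_mul]
      refine Finset.sum_congr rfl fun d _ => ?_
      rw [Finset.sum_mul]

/-- **E1, positive form, in the window, errors regrouped.** -/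
theorem E1posJ2 : ∃ c : ℝ, 0 < c ∧ ∀ del : ℝ, 0 < del → ∃ w : ℝ → ℝ, Wgt w ∧ (∀ x, 0 ≤ w x) ∧
    ∀ A B : ℝ, 1 < A → 1 ≤ B → ∃ C : ℝ, 0 ≤ C ∧
    ∀ K X Y η D Y₀ Y₁ : ℝ, 0 < K → 0 < X → 1 ≤ Y → 0 < η → η ≤ 1 → 0 < Y₁ →
      ((0 ≤ D ∧ Y₁ ≤ D ^ 2) ∨ Y ≤ D) → ∀ α : Eis → ℂ, Adm Y X η α → ∀ δ : ℝ, 0 < δ → δ ≤ 1 →
      c * (K / X) * ∑ κ ∈ (JE D Y₀ Y₁ 1).filter (fun κ => (3 : ℤ) ∣ κ.im),
          min 1 (lm K X 1 κ) * ‖TG α κ‖ ^ 2 ≤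
        Dg w K Y α + 2 * cP w * K ^ (2 / 3 : ℝ) * (XJ (JW D Y₀ Y₁) α).re - SqP w K α +
        del * (K / X) * ∑ κ ∈ (JE D Y₀ Y₁ 1).filter (fun κ => ¬ (3 : ℤ) ∣ κ.im),
          min 1 (lm K X 1 κ) * ‖TG α κ‖ ^ 2 +
        C * (K / X) * (η * (∑ κ ∈ JE D Y₀ Y₁ 1, min 1 (lm K X 1 κ) *
            ∫ t, jb A t * ‖Vt α κ (t / η)‖ ^ 2) + Lo A K X Y₀ α) +
        C * (1 + Real.log Y) * (K / X) * (δ * (∑ κ ∈ JE D Y₀ Y₁ 1, min 1 (lm K X 1 κ) *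
            Wb A α κ + Lo A K X Y₀ α) +
          δ⁻¹ * EG A K X Y Y₀ Y₁ α + δ⁻¹ * (2 + Ct Y) * Et A B K X Y Y₁ α) := by
  obtain ⟨c, hc, h⟩ := E1pos
  refine ⟨c, hc, fun del hdel => ?_⟩
  obtain ⟨w, hw, hw0, h1⟩ := h del hdel
  refine ⟨w, hw, hw0, fun A B hA hB => ?_⟩
  obtain ⟨C, hC, h2⟩ := h1 A B hA hB
  refine ⟨C, hC, fun K X Y η D Y₀ Y₁ hK hX hY hη hη1 hY₁ hD α hα δ hδ hδ1 => ?_⟩
  have hY0 : 0 ≤ Y := by linarith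
  have hlog := Real.log_nonneg hY
  have h3 := h2 K X Y η hK hX hY hη hη1 α hα (JE D Y₀ Y₁) (fun d κ hκ => JE_cf κ hκ) δ hδ hδ1
  have h4 := EP_le2 (A := A) (B := B) (Y₀ := Y₀) hA hB hK hX hY hY₁ hD hδ hα.sup
  have h5 := tail_one (A := A) (B := B) (Y₀ := Y₀) hA hB hK hX hY hY₁ hD hα.sup
  have e1 : (Mn w K Y α (JE D Y₀ Y₁)).re =
      2 * cP w * K ^ (2 / 3 : ℝ) * (XJ (JW D Y₀ Y₁) α).re := by
    rw [Mn_JE hY0 hα.sup, Complex.re_ofReal_mul]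
  rw [e1] at h3
  have hE : 0 ≤ Et A B K X Y Y₁ α := Et_nonneg hK.le hX.le hY₁.le α
  have hδi : 1 ≤ δ⁻¹ := (one_le_inv₀ hδ).mpr hδ1
  have hCt0 := Ct_nonneg Y
  set I1 := ∑ κ ∈ JE D Y₀ Y₁ 1, min 1 (lm K X 1 κ) * ∫ t, jb A t * ‖Vt α κ (t / η)‖ ^ 2
  set Tl := ∑' κ : Eis, if CF κ ∧ κ ∉ JE D Y₀ Y₁ 1 then tl B K X 1 κ * Wf A α 1 κ 1 else 0
  set M1 := ∑ κ ∈ JE D Y₀ Y₁ 1, min 1 (lm K X 1 κ) * Wb A α κ
  set Mg := EG A K X Y Y₀ Y₁ α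
  set E := Et A B K X Y Y₁ α
  set L0 := Lo A K X Y₀ α
  generalize Ct Y = Cc at *
  clear_value I1 Tl M1 Mg E L0
  have hP : 0 ≤ C * (K / X) := by positivity
  have hP2 : 0 ≤ C * (1 + Real.log Y) * (K / X) := by positivity
  have h6 : C * (K / X) * (η * I1 + Tl) ≤ C * (K / X) * (η * I1 + L0) +
      C * (1 + Real.log Y) * (K / X) * (δ⁻¹ * E) := by
    have h7 : C * (K / X) * (η * I1 + Tl) ≤ C * (K / X) * (η * I1 + (L0 + E)) :=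
      mul_le_mul_of_nonneg_left (by linarith) hP
    have h8 : C * (K / X) * E ≤ C * (1 + Real.log Y) * (K / X) * (δ⁻¹ * E) := by
      have h9 : C * (K / X) * E ≤ C * (K / X) * (δ⁻¹ * E) :=
        mul_le_mul_of_nonneg_left (le_mul_of_one_le_left hE hδi) hP
      refine h9.trans ?_
      refine mul_le_mul_of_nonneg_right ?_ (by positivity)
      refine mul_le_mul_of_nonneg_right ?_ (by positivity)
      nlinarith
    calc C * (K / X) * (η * I1 + Tl) ≤ C * (K / X) * (η * I1 + (L0 + E)) := h7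
      _ = C * (K / X) * (η * I1 + L0) + C * (K / X) * E := by ring
      _ ≤ _ := by linarith
  have h10 := mul_le_mul_of_nonneg_left h4 hP2
  have h11 : δ * E ≤ δ⁻¹ * E := mul_le_mul_of_nonneg_right (by linarith) hE
  have h12 : C * (1 + Real.log Y) * (K / X) * (δ * (M1 + L0 + E) + δ⁻¹ * (Mg + Cc * E)) ≤
      C * (1 + Real.log Y) * (K / X) * (δ * (M1 + L0) + δ⁻¹ * Mg + δ⁻¹ * (1 + Cc) * E) := by
    refine mul_le_mul_of_nonneg_left ?_ hP2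
    calc δ * (M1 + L0 + E) + δ⁻¹ * (Mg + Cc * E) =
          δ * (M1 + L0) + δ⁻¹ * Mg + δ⁻¹ * Cc * E + δ * E := by ring
      _ ≤ δ * (M1 + L0) + δ⁻¹ * Mg + δ⁻¹ * Cc * E + δ⁻¹ * E := by linarith
      _ = _ := by ring
  have e2 : C * (1 + Real.log Y) * (K / X) * (δ * (M1 + L0) + δ⁻¹ * Mg + δ⁻¹ * (2 + Cc) * E) =
      C * (1 + Real.log Y) * (K / X) * (δ * (M1 + L0) + δ⁻¹ * Mg + δ⁻¹ * (1 + Cc) * E) +
      C * (1 + Real.log Y) * (K / X) * (δ⁻¹ * E) := by ring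
  rw [e2]
  linarith

lemma EG_mono {A K X Y Y₀ Y₁ Y₁' : ℝ} (hK : 0 ≤ K) (hX : 0 ≤ X) (h : Y₁ ≤ Y₁') (α : Eis → ℂ) :
    EG A K X Y Y₀ Y₁ α ≤ EG A K X Y Y₀ Y₁' α := by
  unfold EG
  refine Finset.sum_le_sum fun p _ => mul_le_mul_of_nonneg_left ?_ (by positivity)
  have := WJ_mono (A := A) hK hX h α p.1 p.2
  linarith

/-- **E1, positive form, smooth upper edge, errors regrouped.** -/
theorem E1posW2 : ∃ c : ℝ, 0 < c ∧ ∀ del : ℝ, 0 < del → ∃ w : ℝ → ℝ, Wgt w ∧ (∀ x, 0 ≤ w x) ∧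
    ∀ A B : ℝ, 1 < A → 1 ≤ B → ∃ C : ℝ, 0 ≤ C ∧
    ∀ (K X Y η D Y₀ : ℝ) (N₀ N₁ : ℕ) (ρ : ℕ → ℝ), 0 < K → 0 < X → 1 ≤ Y → 0 < η → η ≤ 1 →
      1 ≤ D → 1 ≤ N₀ → N₀ ≤ N₁ → ((N₁ : ℝ) ≤ D ^ 2 ∨ Y ≤ D) → Antitone ρ →
      (∀ n ≤ N₀, ρ n = 1) → (∀ n, N₁ < n → ρ n = 0) →
      ∀ α : Eis → ℂ, Adm Y X η α → ∀ δ : ℝ, 0 < δ → δ ≤ 1 →
      c * (K / X) * ∑ κ ∈ (Wn Y₀ N₁).filter (fun κ => (3 : ℤ) ∣ κ.im),
          ρ (nm κ) * (min 1 (lm K X 1 κ) * ‖TG α κ‖ ^ 2) ≤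
        Dg w K Y α + 2 * cP w * K ^ (2 / 3 : ℝ) * (XJw ρ (JW D Y₀ N₁) α).re - SqP w K α +
        del * (K / X) * ∑ κ ∈ (Wn Y₀ N₁).filter (fun κ => ¬ (3 : ℤ) ∣ κ.im),
          ρ (nm κ) * (min 1 (lm K X 1 κ) * ‖TG α κ‖ ^ 2) +
        C * (K / X) * (η * (∑ κ ∈ Wn Y₀ N₁, ρ (nm κ) * (min 1 (lm K X 1 κ) *
            ∫ t, jb A t * ‖Vt α κ (t / η)‖ ^ 2)) + Lo A K X Y₀ α) +
        C * (1 + Real.log Y) * (K / X) * (δ * (∑ κ ∈ Wn Y₀ N₁, ρ (nm κ) *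
            (min 1 (lm K X 1 κ) * Wb A α κ) + Lo A K X Y₀ α) +
          δ⁻¹ * EG A K X Y Y₀ N₁ α + δ⁻¹ * (2 + Ct Y) * Et A B K X Y N₀ α) := by
  obtain ⟨c, hc, h⟩ := E1posJ2
  refine ⟨c, hc, fun del hdel => ?_⟩
  obtain ⟨w, hw, hw0, h1⟩ := h del hdel
  refine ⟨w, hw, hw0, fun A B hA hB => ?_⟩
  obtain ⟨C, hC, h2⟩ := h1 A B hA hB
  refine ⟨C, hC, fun K X Y η D Y₀ N₀ N₁ ρ hK hX hY hη hη1 hD1 hN₀ h01 hD hanti hρ1 hρ0 α hα δ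
    hδ hδ1 => ?_⟩
  have hlog := Real.log_nonneg hY
  have hD0 : (0 : ℝ) ≤ D := by linarith
  have hCt0 := Ct_nonneg Y
  set E2 : ℝ := δ * Lo A K X Y₀ α + δ⁻¹ * EG A K X Y Y₀ N₁ α +
    δ⁻¹ * (2 + Ct Y) * Et A B K X Y N₀ α with hE2
  have hP : 0 ≤ C * (K / X) := by positivity
  have hP2 : 0 ≤ C * (1 + Real.log Y) * (K / X) := by positivity
  have key : ∀ N ∈ Finset.Ico N₀ (N₁ + 1),
      (ρ N - ρ (N + 1)) * (c * (K / X) * ∑ κ ∈ ((Wn Y₀ N₁).filter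
        (fun κ => (3 : ℤ) ∣ κ.im)).filter (fun κ => nm κ ≤ N),
          min 1 (lm K X 1 κ) * ‖TG α κ‖ ^ 2) ≤
      (ρ N - ρ (N + 1)) * (Dg w K Y α + 2 * cP w * K ^ (2 / 3 : ℝ) * (XJ (JW D Y₀ N) α).re -
        SqP w K α +
        del * (K / X) * ∑ κ ∈ ((Wn Y₀ N₁).filter (fun κ => ¬ (3 : ℤ) ∣ κ.im)).filter
          (fun κ => nm κ ≤ N), min 1 (lm K X 1 κ) * ‖TG α κ‖ ^ 2 +
        C * (K / X) * (η * (∑ κ ∈ (Wn Y₀ N₁).filter (fun κ => nm κ ≤ N), (min 1 (lm K X 1 κ) *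
            ∫ t, jb A t * ‖Vt α κ (t / η)‖ ^ 2)) + Lo A K X Y₀ α) +
        C * (1 + Real.log Y) * (K / X) * (δ * (∑ κ ∈ (Wn Y₀ N₁).filter (fun κ => nm κ ≤ N),
          (min 1 (lm K X 1 κ) * Wb A α κ)) + E2)) := by
    intro N hN
    obtain ⟨hN1, hN2⟩ := Finset.mem_Ico.mp hN
    have hN2' : N ≤ N₁ := Nat.lt_succ_iff.mp hN2
    have hNr : (N : ℝ) ≤ N₁ := by exact_mod_cast hN2'
    have hNr0 : ((N₀ : ℕ) : ℝ) ≤ N := by exact_mod_cast hN1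
    have hN₀' : (1 : ℝ) ≤ N₀ := by exact_mod_cast hN₀
    have hNpos : (0 : ℝ) < N := by linarith
    have hp : 0 ≤ ρ N - ρ (N + 1) := sub_nonneg.mpr (hanti (Nat.le_succ N))
    refine mul_le_mul_of_nonneg_left ?_ hp
    have hD' : (0 ≤ D ∧ (N : ℝ) ≤ D ^ 2) ∨ Y ≤ D := by
      rcases hD with h | h
      · exact Or.inl ⟨hD0, hNr.trans h⟩
      · exact Or.inr h
    have h3 := h2 K X Y η D Y₀ N hK hX hY hη hη1 hNpos hD' α hα δ hδ hδ1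
    rw [JE_one_filter hD1 hNr, JE_one_filter hD1 hNr, JE_one_filter' hD1 hNr] at h3
    refine h3.trans (add_le_add le_rfl (mul_le_mul_of_nonneg_left ?_ hP2))
    rw [hE2]
    have hδi : 0 ≤ δ⁻¹ := (inv_pos.mpr hδ).le
    have a1 : δ⁻¹ * EG A K X Y Y₀ N α ≤ δ⁻¹ * EG A K X Y Y₀ N₁ α :=
      mul_le_mul_of_nonneg_left (EG_mono hK.le hX.le hNr α) hδi
    have a2 : δ⁻¹ * (2 + Ct Y) * Et A B K X Y N α ≤ δ⁻¹ * (2 + Ct Y) * Et A B K X Y N₀ α :=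
      mul_le_mul_of_nonneg_left (Et_anti hB hK hX.le (by linarith) hNr0 α) (by positivity)
    linarith
  have hsum := Finset.sum_le_sum key
  have l1 := layer_one h01 hρ1 hρ0
  have eL : ∑ N ∈ Finset.Ico N₀ (N₁ + 1), (ρ N - ρ (N + 1)) * (c * (K / X) *
      ∑ κ ∈ ((Wn Y₀ N₁).filter (fun κ => (3 : ℤ) ∣ κ.im)).filter (fun κ => nm κ ≤ N),
        min 1 (lm K X 1 κ) * ‖TG α κ‖ ^ 2) =
      c * (K / X) * ∑ κ ∈ (Wn Y₀ N₁).filter (fun κ => (3 : ℤ) ∣ κ.im),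
          ρ (nm κ) * (min 1 (lm K X 1 κ) * ‖TG α κ‖ ^ 2) := by
    rw [← layer_sum h01 hρ1 hρ0, Finset.mul_sum]
    exact Finset.sum_congr rfl fun N _ => by ring
  have eB : ∑ N ∈ Finset.Ico N₀ (N₁ + 1), (ρ N - ρ (N + 1)) * (del * (K / X) *
      ∑ κ ∈ ((Wn Y₀ N₁).filter (fun κ => ¬ (3 : ℤ) ∣ κ.im)).filter (fun κ => nm κ ≤ N),
        min 1 (lm K X 1 κ) * ‖TG α κ‖ ^ 2) =
      del * (K / X) * ∑ κ ∈ (Wn Y₀ N₁).filter (fun κ => ¬ (3 : ℤ) ∣ κ.im),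
          ρ (nm κ) * (min 1 (lm K X 1 κ) * ‖TG α κ‖ ^ 2) := by
    rw [← layer_sum h01 hρ1 hρ0, Finset.mul_sum]
    exact Finset.sum_congr rfl fun N _ => by ring
  have eI : ∑ N ∈ Finset.Ico N₀ (N₁ + 1), (ρ N - ρ (N + 1)) *
      ∑ κ ∈ (Wn Y₀ N₁).filter (fun κ => nm κ ≤ N), (min 1 (lm K X 1 κ) *
            ∫ t, jb A t * ‖Vt α κ (t / η)‖ ^ 2) =
      ∑ κ ∈ Wn Y₀ N₁, ρ (nm κ) * (min 1 (lm K X 1 κ) *
            ∫ t, jb A t * ‖Vt α κ (t / η)‖ ^ 2) := layer_sum h01 hρ1 hρ0 _ _ _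
  have eW : ∑ N ∈ Finset.Ico N₀ (N₁ + 1), (ρ N - ρ (N + 1)) *
      ∑ κ ∈ (Wn Y₀ N₁).filter (fun κ => nm κ ≤ N), (min 1 (lm K X 1 κ) * Wb A α κ) =
      ∑ κ ∈ Wn Y₀ N₁, ρ (nm κ) * (min 1 (lm K X 1 κ) * Wb A α κ) :=
    layer_sum h01 hρ1 hρ0 _ _ _
  have eX := XJw_layer h01 hρ1 hρ0 D Y₀ α
  rw [eL] at hsum
  refine hsum.trans (le_of_eq ?_)
  rw [← eB, ← eI, ← eX, ← eW]
  have e9 : ∀ N : ℕ, (ρ N - ρ (N + 1)) * (Dg w K Y α + 2 * cP w * K ^ (2 / 3 : ℝ) *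
        (XJ (JW D Y₀ N) α).re - SqP w K α +
        del * (K / X) * ∑ κ ∈ ((Wn Y₀ N₁).filter (fun κ => ¬ (3 : ℤ) ∣ κ.im)).filter
          (fun κ => nm κ ≤ N), min 1 (lm K X 1 κ) * ‖TG α κ‖ ^ 2 +
        C * (K / X) * (η * (∑ κ ∈ (Wn Y₀ N₁).filter (fun κ => nm κ ≤ N), (min 1 (lm K X 1 κ) *
            ∫ t, jb A t * ‖Vt α κ (t / η)‖ ^ 2)) + Lo A K X Y₀ α) +
        C * (1 + Real.log Y) * (K / X) * (δ * (∑ κ ∈ (Wn Y₀ N₁).filter (fun κ => nm κ ≤ N),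
          (min 1 (lm K X 1 κ) * Wb A α κ)) + E2)) =
      (ρ N - ρ (N + 1)) * (Dg w K Y α - SqP w K α + C * (K / X) * Lo A K X Y₀ α +
        C * (1 + Real.log Y) * (K / X) * E2) +
      2 * cP w * K ^ (2 / 3 : ℝ) * ((ρ N - ρ (N + 1)) * (XJ (JW D Y₀ N) α).re) +
      (ρ N - ρ (N + 1)) * (del * (K / X) * ∑ κ ∈ ((Wn Y₀ N₁).filter
        (fun κ => ¬ (3 : ℤ) ∣ κ.im)).filter (fun κ => nm κ ≤ N),
          min 1 (lm K X 1 κ) * ‖TG α κ‖ ^ 2) +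
      C * (K / X) * η * ((ρ N - ρ (N + 1)) * ∑ κ ∈ (Wn Y₀ N₁).filter (fun κ => nm κ ≤ N),
        (min 1 (lm K X 1 κ) * ∫ t, jb A t * ‖Vt α κ (t / η)‖ ^ 2)) +
      C * (1 + Real.log Y) * (K / X) * δ * ((ρ N - ρ (N + 1)) *
        ∑ κ ∈ (Wn Y₀ N₁).filter (fun κ => nm κ ≤ N), (min 1 (lm K X 1 κ) * Wb A α κ)) :=
    fun N => by ring
  rw [Finset.sum_congr rfl fun N _ => e9 N, Finset.sum_add_distrib, Finset.sum_add_distrib,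
    Finset.sum_add_distrib, Finset.sum_add_distrib, ← Finset.sum_mul, l1, one_mul,
    ← Finset.mul_sum, ← Finset.mul_sum, ← Finset.mul_sum, hE2]
  ring

end Crest.Agent.R017.E1551
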