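import Crest.Agent.R017.RGwD_813
import Crest.Agent.R017.E1za_551

/-!
# Row 17, C.REMg (RG by positivity), from the E1 inequality to the sequence itself, part E
(helper813): the final inequality `rg_absorb`
-/

set_option autoImplicit false

noncomputable section

open Complex MeasureTheory Filter Topology
open scoped ComplexConjugate Classical

namespace Crest.Agent.R017.RGw813

open Crest.Agent.R012 Crest.Agent.R012.Eis Crest.Agent.R012.MC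
open Crest.Agent.R012.LS2 (S mem_S)
open Crest.Agent.R012.Weight600 (osc pw)
open Crest.Agent.R017.CM106 (CS TG FS)
open Crest.Agent.R017.C70 (JW)
open Crest.Agent.R017.E1551
open Crest.Agent.R017.Win813

/-! ### the error functional -/

/-- the pairs `(δ, G) ≠ (1, 1)` -/
def PP (Y : ℝ) : Finset (Eis × Eis) := (S Y ×ˢ S Y).erase (1, 1)

/-- coefficients of the pairs -/
def cp (p : Eis × Eis) : ℝ := nm p.1 * Div277.tau p.1 * (Div277.tau p.2 : ℝ) ^ 4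

lemma cp_nonneg (p : Eis × Eis) : 0 ≤ cp p := by unfold cp; positivity

/-- index set of the errors -/
def XE (Y Z : ℝ) : Finset (Σ _ : Eis × Eis, Eis) := (PP Y).sigma fun p => BF (Z / (nm p.1) ^ 2)

/-- weights of the first kind -/
def WE (K X : ℝ) (x : Σ _ : Eis × Eis, Eis) : ℝ := cp x.1 * min (nm x.1.2 : ℝ) (lm K X x.1.1 x.2)

/-- weights of the second kind -/
def LE (K X : ℝ) (x : Σ _ : Eis × Eis, Eis) : ℝ := cp x.1 * lm K X x.1.1 x.2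

/-- the subsequences -/
def gE (x : Σ _ : Eis × Eis, Eis) : Eis := x.1.1 * x.1.2

/-- the classes -/
def lE (x : Σ _ : Eis × Eis, Eis) : Eis := x.2 * x.1.2

lemma WE_nonneg {K X : ℝ} (hK : 0 ≤ K) (hX : 0 ≤ X) (x : Σ _ : Eis × Eis, Eis) :
    0 ≤ WE K X x := mul_nonneg (cp_nonneg _) (le_min (Nat.cast_nonneg _) (lm_nonneg hK hX _ _))

lemma LE_nonneg {K X : ℝ} (hK : 0 ≤ K) (hX : 0 ≤ X) (x : Σ _ : Eis × Eis, Eis) :
    0 ≤ LE K X x := mul_nonneg (cp_nonneg _) (lm_nonneg hK hX _ _)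

lemma mem_PP {Y : ℝ} (hY : 0 ≤ Y) {p : Eis × Eis} (hp : p ∈ PP Y) : IsPrim p.1 ∧ IsPrim p.2 := by
  unfold PP at hp
  have h := Finset.mem_product.1 (Finset.mem_of_mem_erase hp)
  exact ⟨((mem_S hY).1 h.1).2.1, ((mem_S hY).1 h.2).2.1⟩

lemma gE_ne {Y Z : ℝ} (hY : 0 ≤ Y) {x : Σ _ : Eis × Eis, Eis} (hx : x ∈ XE Y Z) : gE x ≠ 0 := by
  have h := mem_PP hY (Finset.mem_sigma.1 hx).1
  exact mul_ne_zero h.1.ne_zero h.2.ne_zero

/-- the pointwise errors -/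
def EGp (K X Y Z₀ Z₁ : ℝ) (α : Eis → ℂ) (t : ℝ) : ℝ :=
  ∑ p ∈ PP Y, (nm p.1 * Div277.tau p.1 * (Div277.tau p.2 : ℝ) ^ 4) *
    ((∑ j ∈ BF (Z₁ / (nm p.1) ^ 2), min (nm p.2 : ℝ) (lm K X p.1 j) *
        ‖TG (fun m => α (p.1 * p.2 * m) * pw t (nm m)) (j * p.2)‖ ^ 2) +
      ∑ j ∈ BF (Z₀ / (nm p.1) ^ 2), lm K X p.1 j *
        ‖TG (fun m => α (p.1 * p.2 * m) * pw t (nm m)) (j * p.2)‖ ^ 2)

lemma PG_WE (K X Y Z : ℝ) (α : Eis → ℂ) (t : ℝ) : PG (XE Y Z) (WE K X) gE lE α t =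
    ∑ p ∈ PP Y, cp p * ∑ j ∈ BF (Z / (nm p.1) ^ 2), min (nm p.2 : ℝ) (lm K X p.1 j) *
      tgf α (p.1 * p.2) (j * p.2) t := by
  unfold PG XE
  rw [Finset.sum_sigma]
  refine Finset.sum_congr rfl fun p _ => ?_
  rw [Finset.mul_sum]
  refine Finset.sum_congr rfl fun j _ => ?_
  unfold WE gE lE
  ring

lemma PG_LE (K X Y Z : ℝ) (α : Eis → ℂ) (t : ℝ) : PG (XE Y Z) (LE K X) gE lE α t =
    ∑ p ∈ PP Y, cp p * ∑ j ∈ BF (Z / (nm p.1) ^ 2), lm K X p.1 j *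
      tgf α (p.1 * p.2) (j * p.2) t := by
  unfold PG XE
  rw [Finset.sum_sigma]
  refine Finset.sum_congr rfl fun p _ => ?_
  rw [Finset.mul_sum]
  refine Finset.sum_congr rfl fun j _ => ?_
  unfold LE gE lE
  ring

lemma EGp_eq (K X Y Z₀ Z₁ : ℝ) (α : Eis → ℂ) (t : ℝ) : EGp K X Y Z₀ Z₁ α t =
    PG (XE Y Z₁) (WE K X) gE lE α t + PG (XE Y Z₀) (LE K X) gE lE α t := by
  rw [PG_WE, PG_LE, ← Finset.sum_add_distrib]
  unfold EGp
  refine Finset.sum_congr rfl fun p _ => ?_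
  rw [mul_add]
  rfl

/-- `EG` in the general form -/
lemma EG_eq (A K X Y Y₀ Y₁ : ℝ) (α : Eis → ℂ) : EG A K X Y Y₀ Y₁ α =
    ∑ x ∈ XE Y Y₁, WE K X x * (∫ u, jb A u * tgf α (gE x) (lE x) u) +
    ∑ x ∈ XE Y Y₀, LE K X x * (∫ u, jb A u * tgf α (gE x) (lE x) u) := by
  unfold EG XE
  rw [Finset.sum_sigma, Finset.sum_sigma, ← Finset.sum_add_distrib]
  refine Finset.sum_congr rfl fun p _ => ?_
  rw [mul_add]
  congr 1
  · unfold WJ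
    rw [Finset.mul_sum]
    refine Finset.sum_congr rfl fun j _ => ?_
    rw [Wf_eq]
    unfold WE cp gE lE
    ring
  · unfold LJ
    rw [Finset.mul_sum]
    refine Finset.sum_congr rfl fun j _ => ?_
    rw [Wf_eq]
    unfold LE cp gE lE
    ring

/-! ### the twists -/

lemma PG_tw_W {K X X' Y Z r : ℝ} (hK : 0 < K) (hX : 0 < X) (hX' : 0 < X') (hY : 0 ≤ Y)
    (hr : 1 ≤ r) (hXX : X' ≤ r * X) {α : Eis → ℂ} (h : FS α) {a b : ℕ} (hb : b < 3) (t : ℝ) :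
    PG (XE Y Z) (WE K X') gE lE (tw2 a b α) t ≤
      3 * r * PG (XE Y (9 * Z)) (WE K X) gE lE α t := by
  rw [PG_WE, PG_WE, Finset.mul_sum]
  refine Finset.sum_le_sum fun p hp => ?_
  have hpp := mem_PP hY hp
  have h1 := tw_tgf h (a := a) hb (Z := Z / (nm p.1) ^ 2) (M := 3)
    (W := fun j => min (nm p.2 : ℝ) (lm K X' p.1 j)) (by norm_num)
    (fun j => le_min (Nat.cast_nonneg _) (lm_nonneg hK.le hX'.le _ _))
    (fun j j' hj hj' hjj => min_scale (by norm_num) (Nat.cast_nonneg _)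
      (lm_nine hK hX' hpp.1.ne_zero hj hj' hjj)) (hpp.1.mul hpp.2) p.2 t
  rw [← mul_div_assoc] at h1
  have h2 : ∑ j ∈ BF (9 * Z / (nm p.1) ^ 2), min (nm p.2 : ℝ) (lm K X' p.1 j) *
      tgf α (p.1 * p.2) (j * p.2) t ≤ r * ∑ j ∈ BF (9 * Z / (nm p.1) ^ 2),
      min (nm p.2 : ℝ) (lm K X p.1 j) * tgf α (p.1 * p.2) (j * p.2) t := by
    rw [Finset.mul_sum]
    refine Finset.sum_le_sum fun j _ => ?_
    rw [← mul_assoc]
    exact mul_le_mul_of_nonneg_right (min_scale hr (Nat.cast_nonneg _)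
      (lm_scale hK hX hX' hr hXX)) (tgf_nonneg _ _ _ _)
  calc cp p * ∑ j ∈ BF (Z / (nm p.1) ^ 2), min (nm p.2 : ℝ) (lm K X' p.1 j) *
        tgf (tw2 a b α) (p.1 * p.2) (j * p.2) t ≤
      cp p * (3 * (r * ∑ j ∈ BF (9 * Z / (nm p.1) ^ 2),
        min (nm p.2 : ℝ) (lm K X p.1 j) * tgf α (p.1 * p.2) (j * p.2) t)) :=
        mul_le_mul_of_nonneg_left (h1.trans (mul_le_mul_of_nonneg_left h2 (by norm_num)))
          (cp_nonneg p)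
    _ = _ := by ring

lemma PG_tw_L {K X X' Y Z r : ℝ} (hK : 0 < K) (hX : 0 < X) (hX' : 0 < X') (hY : 0 ≤ Y)
    (hr : 1 ≤ r) (hXX : X' ≤ r * X) {α : Eis → ℂ} (h : FS α) {a b : ℕ} (hb : b < 3) (t : ℝ) :
    PG (XE Y Z) (LE K X') gE lE (tw2 a b α) t ≤
      3 * r * PG (XE Y (9 * Z)) (LE K X) gE lE α t := by
  rw [PG_LE, PG_LE, Finset.mul_sum]
  refine Finset.sum_le_sum fun p hp => ?_
  have hpp := mem_PP hY hp
  have h1 := tw_tgf h (a := a) hb (Z := Z / (nm p.1) ^ 2) (M := 3)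
    (W := fun j => lm K X' p.1 j) (by norm_num)
    (fun j => lm_nonneg hK.le hX'.le _ _)
    (fun j j' hj hj' hjj => lm_nine hK hX' hpp.1.ne_zero hj hj' hjj) (hpp.1.mul hpp.2) p.2 t
  rw [← mul_div_assoc] at h1
  have h2 : ∑ j ∈ BF (9 * Z / (nm p.1) ^ 2), lm K X' p.1 j *
      tgf α (p.1 * p.2) (j * p.2) t ≤ r * ∑ j ∈ BF (9 * Z / (nm p.1) ^ 2),
      lm K X p.1 j * tgf α (p.1 * p.2) (j * p.2) t := by
    rw [Finset.mul_sum]
    refine Finset.sum_le_sum fun j _ => ?_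
    rw [← mul_assoc]
    exact mul_le_mul_of_nonneg_right (lm_scale hK hX hX' hr hXX) (tgf_nonneg _ _ _ _)
  calc cp p * ∑ j ∈ BF (Z / (nm p.1) ^ 2), lm K X' p.1 j *
        tgf (tw2 a b α) (p.1 * p.2) (j * p.2) t ≤
      cp p * (3 * (r * ∑ j ∈ BF (9 * Z / (nm p.1) ^ 2),
        lm K X p.1 j * tgf α (p.1 * p.2) (j * p.2) t)) :=
        mul_le_mul_of_nonneg_left (h1.trans (mul_le_mul_of_nonneg_left h2 (by norm_num)))
          (cp_nonneg p)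
    _ = _ := by ring

/-- the low classes -/
lemma PT_tw {K X X' Z r : ℝ} (hK : 0 < K) (hX : 0 < X) (hX' : 0 < X')
    (hr : 1 ≤ r) (hXX : X' ≤ r * X) {α : Eis → ℂ} (h : FS α) {a b : ℕ} (hb : b < 3) (t : ℝ) :
    PT (lm K X' 1) (BF Z) (tw2 a b α) 1 t ≤
      3 * r * ∑ j ∈ BF (9 * Z), lm K X 1 j * ‖TG (fun m => α m * pw t (nm m)) j‖ ^ 2 := by
  have h1 := tw_tgf h (a := a) hb (Z := Z) (M := 3)
    (W := fun j => lm K X' 1 j) (by norm_num)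
    (fun j => lm_nonneg hK.le hX'.le _ _)
    (fun j j' hj hj' hjj => lm_nine hK hX' one_ne_zero hj hj' hjj) isPrim_one 1 t
  simp only [mul_one] at h1
  unfold PT
  refine h1.trans ?_
  rw [mul_assoc]
  refine mul_le_mul_of_nonneg_left ?_ (by norm_num)
  rw [Finset.mul_sum]
  refine Finset.sum_le_sum fun j _ => ?_
  rw [← mul_assoc, tgf_one]
  exact mul_le_mul_of_nonneg_right (lm_scale hK hX hX' hr hXX) (by positivity)

/-! ### the far tail -/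

lemma Et_bt {A B K X X' Y r Cs : ℝ} {N₀ : ℝ} (hB : 1 ≤ B) (hK : 0 < K) (hX' : 0 < X')
    (hN : 0 < N₀) (hXX : X' ≤ r * X) {α : Eis → ℂ} (h : FS α)
    {φ : ℝ → ℝ} (hφ : ∀ u, |φ u| ≤ Cs) (p : ℕ × ℕ) (t : ℝ) :
    Et A B K X' Y N₀ (fun n => bt φ α p n * pw t (nm n)) ≤
      Cs ^ 2 * Et A B K (r * X) Y N₀ α := by
  have hb : ∀ n, ‖bt φ α p n * pw t (nm n)‖ ≤ Cs * ‖α n‖ := by
    intro n
    rw [norm_mul, Weight600.norm_pw, mul_one]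
    unfold bt
    rw [norm_tw2 (FS_wn h)]
    unfold wn
    rw [norm_mul, mul_comm]
    refine mul_le_mul_of_nonneg_right ?_ (norm_nonneg _)
    rw [Complex.norm_real, Real.norm_eq_abs]
    exact hφ _
  have hs : ∑ n ∈ S Y, ‖bt φ α p n * pw t (nm n)‖ ≤ Cs * ∑ n ∈ S Y, ‖α n‖ := by
    rw [Finset.mul_sum]
    exact Finset.sum_le_sum fun n _ => hb n
  have hs2 : (∑ n ∈ S Y, ‖bt φ α p n * pw t (nm n)‖) ^ 2 ≤ Cs ^ 2 * (∑ n ∈ S Y, ‖α n‖) ^ 2 := by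
    rw [← mul_pow]
    exact pow_le_pow_left₀ (Finset.sum_nonneg fun _ _ => norm_nonneg _) hs 2
  have hrX : 0 < r * X := hX'.trans_le hXX
  have hx : X' ^ (2 / 3 : ℝ) ≤ (r * X) ^ (2 / 3 : ℝ) :=
    Real.rpow_le_rpow hX'.le hXX (by norm_num)
  unfold Et
  have h0 := Cz_nonneg A
  have e1 : (3 * (X' ^ (2 / 3 : ℝ) * (K * N₀) ^ (-(1 / 3) : ℝ))) ^ (3 * (B - 1)) ≤
      (3 * ((r * X) ^ (2 / 3 : ℝ) * (K * N₀) ^ (-(1 / 3) : ℝ))) ^ (3 * (B - 1)) := by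
    apply Real.rpow_le_rpow (by positivity)
    · gcongr
    · nlinarith
  have e2 : (3 * (X' ^ (2 / 3 : ℝ) * K ^ (-(1 / 3) : ℝ))) ^ 4 ≤
      (3 * ((r * X) ^ (2 / 3 : ℝ) * K ^ (-(1 / 3) : ℝ))) ^ 4 := by
    gcongr
  calc Cz A * (3 * (X' ^ (2 / 3 : ℝ) * (K * N₀) ^ (-(1 / 3) : ℝ))) ^ (3 * (B - 1)) *
        ((3 * (X' ^ (2 / 3 : ℝ) * K ^ (-(1 / 3) : ℝ))) ^ 4 *
          (∑ n ∈ S Y, ‖bt φ α p n * pw t (nm n)‖) ^ 2) ≤
      Cz A * (3 * ((r * X) ^ (2 / 3 : ℝ) * (K * N₀) ^ (-(1 / 3) : ℝ))) ^ (3 * (B - 1)) *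
        ((3 * ((r * X) ^ (2 / 3 : ℝ) * K ^ (-(1 / 3) : ℝ))) ^ 4 *
          (Cs ^ 2 * (∑ n ∈ S Y, ‖α n‖) ^ 2)) := by
        gcongr
    _ = _ := by ring

end Crest.Agent.R017.RGw813
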