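import Crest.Agent.R017.RGwH_813
import Crest.Agent.R012.GLS_106

/-!
# Row 17, C.REMg (RG by positivity), part J (helper813): the functional `EH` under twisted windows,
the far tails

* `EH`, `EH_bt` : transfer of `EH` to the twisted windows
* `Et_small` : the far tails are bounded
-/

set_option autoImplicit false

noncomputable section

open Complex MeasureTheory Filter Topology
open scoped ComplexConjugate Classical

namespace Crest.Agent.R017.RGw813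

open Crest.Agent.R012 Crest.Agent.R012.Eis Crest.Agent.R012.MC
open Crest.Agent.R012.LS2 (S mem_S)
open Crest.Agent.R012.Weight600 (osc pw)
open Crest.Agent.R017.CM106 (CS TG FS)
open Crest.Agent.R017.C70 (JW)
open Crest.Agent.R017.E1551
open Crest.Agent.R017.Win813

/-! ### the functional `EH` -/

/-- 48's functional for the `T`-parts of the lower bound: all pairs, no minimum -/
def EH (A K X Y Z : ℝ) (β : Eis → ℂ) : ℝ :=
  ∑ δ ∈ S Y, ∑ e ∈ S Y, ((nm δ : ℝ) * Div277.tau δ * (Div277.tau e : ℝ) ^ 4) *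
    (nm e * ∑ j ∈ BF (Z / (nm δ : ℝ) ^ 2), lm K X δ j * Wf A β δ j e)

/-- index set -/
def XH (Y Z : ℝ) : Finset (Σ _ : Eis × Eis, Eis) :=
  (S Y ×ˢ S Y).sigma fun p => BF (Z / (nm p.1 : ℝ) ^ 2)

/-- weights -/
def WH (K X : ℝ) (x : Σ _ : Eis × Eis, Eis) : ℝ := cp x.1 * (nm x.1.2 * lm K X x.1.1 x.2)

lemma WH_nonneg {K X : ℝ} (hK : 0 ≤ K) (hX : 0 ≤ X) (x : Σ _ : Eis × Eis, Eis) :
    0 ≤ WH K X x :=
  mul_nonneg (cp_nonneg _) (mul_nonneg (Nat.cast_nonneg _) (lm_nonneg hK hX _ _))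

lemma gE_neH {Y Z : ℝ} (hY : 0 ≤ Y) {x : Σ _ : Eis × Eis, Eis} (hx : x ∈ XH Y Z) :
    gE x ≠ 0 := by
  have h := Finset.mem_product.1 (Finset.mem_sigma.1 hx).1
  exact mul_ne_zero ((mem_S hY).1 h.1).2.1.ne_zero ((mem_S hY).1 h.2).2.1.ne_zero

lemma PG_WH (K X Y Z : ℝ) (α : Eis → ℂ) (t : ℝ) : PG (XH Y Z) (WH K X) gE lE α t =
    ∑ p ∈ S Y ×ˢ S Y, (cp p * nm p.2) * ∑ j ∈ BF (Z / (nm p.1) ^ 2), lm K X p.1 j *
      tgf α (p.1 * p.2) (j * p.2) t := by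
  unfold PG XH
  rw [Finset.sum_sigma]
  refine Finset.sum_congr rfl fun p _ => ?_
  rw [Finset.mul_sum]
  refine Finset.sum_congr rfl fun j _ => ?_
  unfold WH gE lE
  ring

lemma EH_eq (A : ℕ) (K X Y Z : ℝ) (α : Eis → ℂ) (t : ℝ) :
    EH A K X Y Z (fun n => α n * pw t (nm n)) = MG A (XH Y Z) (WH K X) gE lE α t := by
  unfold EH MG XH
  rw [Finset.sum_sigma, Finset.sum_product]
  refine Finset.sum_congr rfl fun δ _ => Finset.sum_congr rfl fun e _ => ?_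
  simp only
  rw [← mul_assoc, Finset.mul_sum]
  refine Finset.sum_congr rfl fun j _ => ?_
  rw [Wf_eq]
  unfold WH cp gE lE
  ring

lemma PG_tw_H {K X X' Y Z r : ℝ} (hK : 0 < K) (hX : 0 < X) (hX' : 0 < X') (hY : 0 ≤ Y)
    (hr : 1 ≤ r) (hXX : X' ≤ r * X) {α : Eis → ℂ} (h : FS α) {a b : ℕ} (hb : b < 3) (t : ℝ) :
    PG (XH Y Z) (WH K X') gE lE (tw2 a b α) t ≤
      3 * r * PG (XH Y (9 * Z)) (WH K X) gE lE α t := by
  rw [PG_WH, PG_WH, Finset.mul_sum]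
  refine Finset.sum_le_sum fun p hp => ?_
  have hp' := Finset.mem_product.1 hp
  have hpp : IsPrim p.1 ∧ IsPrim p.2 := ⟨((mem_S hY).1 hp'.1).2.1, ((mem_S hY).1 hp'.2).2.1⟩
  have h1 := tw_tgf h (a := a) hb (Z := Z / (nm p.1) ^ 2) (M := 3)
    (W := fun j => lm K X' p.1 j) (by norm_num)
    (fun j => lm_nonneg hK.le hX'.le _ _)
    (fun j j' hj hj' hjj => lm_nine hK hX' hpp.1.ne_zero hj hj' hjj) (hpp.1.mul hpp.2) p.2 t
  rw [← mul_div_assoc] at h1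
  have h2 : ∑ j ∈ BF (9 * Z / (nm p.1) ^ 2), lm K X' p.1 j *
      tgf α (p.1 * p.2) (j * p.2) t ≤ r * ∑ j ∈ BF (9 * Z / (nm p.1) ^ 2),
      lm K X p.1 j * tgf α (p.1 * p.2) (j * p.2) t := by
    rw [Finset.mul_sum]
    refine Finset.sum_le_sum fun j _ => ?_
    rw [← mul_assoc]
    exact mul_le_mul_of_nonneg_right (lm_scale hK hX hX' hr hXX) (tgf_nonneg _ _ _ _)
  have hc : 0 ≤ cp p * nm p.2 := mul_nonneg (cp_nonneg p) (Nat.cast_nonneg _)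
  calc (cp p * nm p.2) * ∑ j ∈ BF (Z / (nm p.1) ^ 2), lm K X' p.1 j *
        tgf (tw2 a b α) (p.1 * p.2) (j * p.2) t ≤
      (cp p * nm p.2) * (3 * (r * ∑ j ∈ BF (9 * Z / (nm p.1) ^ 2),
        lm K X p.1 j * tgf α (p.1 * p.2) (j * p.2) t)) :=
        mul_le_mul_of_nonneg_left (h1.trans (mul_le_mul_of_nonneg_left h2 (by norm_num))) hc
    _ = _ := by ring

/-- **transfer of `EH`**: twisted windows `bt φ α p` at scale `X'` and height `t`, from the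
sequence itself at scale `X` -/
theorem EH_bt {C η K X X' Y Z r M : ℝ} {A B J : ℕ} (hC : 0 ≤ C) (hη : 0 < η) (hη1 : η ≤ 1)
    (hBJ : J + 2 ≤ B) (hA : 2 ≤ A) {φ : ℝ → ℝ} (hφ : WK C η B φ) (hK : 0 < K) (hX : 0 < X)
    (hX' : 0 < X') (hY : 0 ≤ Y) (hr : 1 ≤ r) (hXX : X' ≤ r * X) (hM0 : 0 ≤ M)
    {α : Eis → ℂ} (hα : ∀ n, α n ≠ 0 → n ∈ S Y)
    (hM : ∀ t : ℝ, EH A K X Y (9 * Z) (fun n => α n * pw t (nm n)) ≤ M * (1 + |t|) ^ J)
    {p : ℕ × ℕ} (hp : p ∈ T9) (t : ℝ) :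
    EH A K X' Y Z (fun n => bt φ α p n * pw t (nm n)) ≤
      3 * r * (C ^ 2 * iA B * iA 2) * (η⁻¹) ^ J * M * (1 + |t|) ^ J := by
  have hF := FS_of_S hY hα
  rw [EH_eq]
  refine (MG_bt (X := XH Y Z) (W := WH K X') (g := gE) (l := lE) hC hη hη1 hBJ hA hφ hF
    (fun x hx => gE_neH hY hx) (fun x _ => WH_nonneg hK.le hX'.le x)
    (M := 3 * r * M) (by positivity) p (fun t => ?_) t).trans (le_of_eq (by ring))
  refine (MG_le hA (FS_tw2 hF p.1 p.2) hF (fun x hx => gE_neH hY hx)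
    (fun x hx => gE_neH hY hx) (fun x _ => WH_nonneg hK.le hX'.le x)
    (fun x _ => WH_nonneg hK.le hX.le x)
    (PG_tw_H hK hX hX' hY hr hXX hF (mem_T9.1 hp).2) t).trans ?_
  rw [mul_assoc (3 * r), ← EH_eq]
  exact mul_le_mul_of_nonneg_left (hM t) (by positivity)

/-! ### the far tails -/

lemma tau_le_nm' (g : Eis) : (Div277.tau g : ℝ) ≤ 100 * nm g := by
  unfold Div277.tau Div277.dvs
  refine le_trans ?_ (Lat277.card_primBall_le (nm g))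
  exact_mod_cast Finset.card_le_card (Finset.filter_subset _ _)

lemma Ct_le {Y : ℝ} (hY : 1 ≤ Y) : Ct Y ≤ 256 * 10 ^ 6 * Y ^ 9 := by
  have hY0 : 0 ≤ Y := by linarith
  have hc := GLS106.card_S_le hY
  have h1 : ∑ d ∈ S Y, (nm d : ℝ) ^ 4 * Div277.tau d ≤ 1600 * Y ^ 6 := by
    calc ∑ d ∈ S Y, (nm d : ℝ) ^ 4 * Div277.tau d ≤ ∑ _d ∈ S Y, Y ^ 4 * (100 * Y) := by
          refine Finset.sum_le_sum fun d hd => ?_
          have h2 := ((mem_S hY0).1 hd).1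
          have h3 := tau_le_nm' d
          have h4 : (Div277.tau d : ℝ) ≤ 100 * Y := h3.trans (by linarith)
          gcongr
      _ = (S Y).card * (Y ^ 4 * (100 * Y)) := by rw [Finset.sum_const, nsmul_eq_mul]
      _ ≤ (16 * Y) * (Y ^ 4 * (100 * Y)) := by gcongr
      _ = _ := by ring
  have h2 : ∑ L ∈ S Y, (Div277.tau L : ℝ) ^ 2 ≤ 160000 * Y ^ 3 := by
    calc ∑ L ∈ S Y, (Div277.tau L : ℝ) ^ 2 ≤ ∑ _L ∈ S Y, (100 * Y) ^ 2 := by
          refine Finset.sum_le_sum fun d hd => ?_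
          have h2 := ((mem_S hY0).1 hd).1
          have h3 := tau_le_nm' d
          have h4 : (Div277.tau d : ℝ) ≤ 100 * Y := h3.trans (by linarith)
          gcongr
      _ = (S Y).card * (100 * Y) ^ 2 := by rw [Finset.sum_const, nsmul_eq_mul]
      _ ≤ (16 * Y) * (100 * Y) ^ 2 := by gcongr
      _ = _ := by ring
  unfold Ct
  calc (∑ d ∈ S Y, (nm d : ℝ) ^ 4 * Div277.tau d) * (∑ L ∈ S Y, (Div277.tau L : ℝ) ^ 2) ≤
        (1600 * Y ^ 6) * (160000 * Y ^ 3) := by gcongr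
    _ = _ := by ring

/-- **the far tails are bounded** as soon as `K N₀ ≥ X² Y^{e₃}` and the order `B` is large -/
theorem Et_small (A : ℝ) {a e₃ r : ℝ} (he₃ : 0 < e₃) (ha : 0 ≤ a) (hr : 1 ≤ r) :
    ∃ B C : ℝ, 1 ≤ B ∧ 0 ≤ C ∧ ∀ (K X Y N₀ : ℝ) (α : Eis → ℂ), 1 ≤ Y → 0 < X → X ≤ Y ^ a →
      Y ^ (-a) ≤ K → 0 < N₀ → X ^ 2 * Y ^ e₃ ≤ K * N₀ → ∑ n ∈ S Y, ‖α n‖ ≤ Y ^ a →
      (2 + Ct Y) * Et A B K (r * X) Y N₀ α ≤ C := by
  set B : ℝ := 1 + (9 + 6 * a) / e₃ with hB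
  have hB1 : 1 ≤ B := by rw [hB]; have : 0 ≤ (9 + 6 * a) / e₃ := by positivity
                         linarith
  have hBe : e₃ * (B - 1) = 9 + 6 * a := by rw [hB]; field_simp; ring
  have hCz := Cz_nonneg A
  have hr0 : 0 ≤ r := by linarith
  refine ⟨B, (2 + 256 * 10 ^ 6) * (Cz A * (3 * r) ^ (3 * (B - 1)) * (3 * r) ^ 4), hB1,
    by positivity, ?_⟩
  intro K X Y N₀ α hY hX hXa hKa hN hKN hα
  have hY0 : 0 < Y := by linarith
  have hK : 0 < K := lt_of_lt_of_le (by positivity) hKa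
  have hCt := Ct_le hY
  have hCt0 := Ct_nonneg Y
  have hY9 : 1 ≤ Y ^ 9 := one_le_pow₀ hY
  -- the first factor
  have f1 : 3 * ((r * X) ^ (2 / 3 : ℝ) * (K * N₀) ^ (-(1 / 3) : ℝ)) ≤
      (3 * r) * Y ^ (-(e₃ / 3)) := by
    have g1 : (K * N₀) ^ (-(1 / 3) : ℝ) ≤ (X ^ 2 * Y ^ e₃) ^ (-(1 / 3) : ℝ) :=
      Real.rpow_le_rpow_of_nonpos (by positivity) hKN (by norm_num)
    have g2 : (X ^ 2 * Y ^ e₃) ^ (-(1 / 3) : ℝ) = X ^ (-(2 / 3) : ℝ) * Y ^ (-(e₃ / 3)) := by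
      rw [Real.mul_rpow (by positivity) (by positivity), ← Real.rpow_natCast X 2,
        ← Real.rpow_mul hX.le, ← Real.rpow_mul hY0.le]
      congr 2
      · push_cast; ring
      · ring
    have g3 : (r * X) ^ (2 / 3 : ℝ) ≤ r * X ^ (2 / 3 : ℝ) := by
      rw [Real.mul_rpow hr0 hX.le]
      refine mul_le_mul_of_nonneg_right ?_ (by positivity)
      calc r ^ (2 / 3 : ℝ) ≤ r ^ (1 : ℝ) :=
            Real.rpow_le_rpow_of_exponent_le hr (by norm_num)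
        _ = r := Real.rpow_one r
    calc 3 * ((r * X) ^ (2 / 3 : ℝ) * (K * N₀) ^ (-(1 / 3) : ℝ)) ≤
          3 * ((r * X ^ (2 / 3 : ℝ)) * (X ^ (-(2 / 3) : ℝ) * Y ^ (-(e₃ / 3)))) := by
          rw [g2] at g1
          gcongr
      _ = (3 * r) * (X ^ (2 / 3 : ℝ) * X ^ (-(2 / 3) : ℝ)) * Y ^ (-(e₃ / 3)) := by ring
      _ = _ := by
          rw [← Real.rpow_add hX]
          norm_num
  have f1' : (3 * ((r * X) ^ (2 / 3 : ℝ) * (K * N₀) ^ (-(1 / 3) : ℝ))) ^ (3 * (B - 1)) ≤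
      (3 * r) ^ (3 * (B - 1)) * Y ^ (-(9 + 6 * a)) := by
    have g1 := Real.rpow_le_rpow (by positivity) f1 (by nlinarith : 0 ≤ 3 * (B - 1))
    refine g1.trans (le_of_eq ?_)
    rw [Real.mul_rpow (by positivity) (by positivity), ← Real.rpow_mul hY0.le]
    congr 2
    rw [← hBe]; ring
  have f2 : 3 * ((r * X) ^ (2 / 3 : ℝ) * K ^ (-(1 / 3) : ℝ)) ≤ (3 * r) * Y ^ a := by
    have g1 : K ^ (-(1 / 3) : ℝ) ≤ (Y ^ (-a)) ^ (-(1 / 3) : ℝ) :=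
      Real.rpow_le_rpow_of_nonpos (by positivity) hKa (by norm_num)
    have g2 : (Y ^ (-a)) ^ (-(1 / 3) : ℝ) = Y ^ (a / 3) := by
      rw [← Real.rpow_mul hY0.le]; congr 1; ring
    have g3 : (r * X) ^ (2 / 3 : ℝ) ≤ r * Y ^ (2 * a / 3) := by
      rw [Real.mul_rpow hr0 hX.le]
      refine mul_le_mul ?_ ?_ (by positivity) hr0
      · calc r ^ (2 / 3 : ℝ) ≤ r ^ (1 : ℝ) :=
              Real.rpow_le_rpow_of_exponent_le hr (by norm_num)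
          _ = r := Real.rpow_one r
      · calc X ^ (2 / 3 : ℝ) ≤ (Y ^ a) ^ (2 / 3 : ℝ) :=
              Real.rpow_le_rpow hX.le hXa (by norm_num)
          _ = _ := by rw [← Real.rpow_mul hY0.le]; congr 1; ring
    calc 3 * ((r * X) ^ (2 / 3 : ℝ) * K ^ (-(1 / 3) : ℝ)) ≤
          3 * ((r * Y ^ (2 * a / 3)) * Y ^ (a / 3)) := by
          rw [g2] at g1
          gcongr
      _ = (3 * r) * (Y ^ (2 * a / 3) * Y ^ (a / 3)) := by ring
      _ = _ := by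
          rw [← Real.rpow_add hY0]
          congr 2
          ring
  have f3 : (∑ n ∈ S Y, ‖α n‖) ^ 2 ≤ (Y ^ a) ^ 2 :=
    pow_le_pow_left₀ (Finset.sum_nonneg fun _ _ => norm_nonneg _) hα 2
  have f4 : (3 * ((r * X) ^ (2 / 3 : ℝ) * K ^ (-(1 / 3) : ℝ))) ^ 4 ≤ ((3 * r) * Y ^ a) ^ 4 :=
    pow_le_pow_left₀ (by positivity) f2 4
  have f5 : 2 + Ct Y ≤ (2 + 256 * 10 ^ 6) * Y ^ 9 := by linarith
  unfold Et
  calc (2 + Ct Y) * (Cz A * (3 * ((r * X) ^ (2 / 3 : ℝ) * (K * N₀) ^ (-(1 / 3) : ℝ))) ^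
        (3 * (B - 1)) * ((3 * ((r * X) ^ (2 / 3 : ℝ) * K ^ (-(1 / 3) : ℝ))) ^ 4 *
          (∑ n ∈ S Y, ‖α n‖) ^ 2)) ≤
      ((2 + 256 * 10 ^ 6) * Y ^ 9) * (Cz A * ((3 * r) ^ (3 * (B - 1)) * Y ^ (-(9 + 6 * a))) *
        (((3 * r) * Y ^ a) ^ 4 * (Y ^ a) ^ 2)) := by
        gcongr
    _ = (2 + 256 * 10 ^ 6) * (Cz A * (3 * r) ^ (3 * (B - 1)) * (3 * r) ^ 4) *
        (Y ^ 9 * (Y ^ a) ^ 6 * Y ^ (-(9 + 6 * a))) := by ring
    _ = _ := by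
        have g1 : Y ^ 9 * (Y ^ a) ^ 6 * Y ^ (-(9 + 6 * a)) = 1 := by
          rw [← Real.rpow_natCast Y 9, ← Real.rpow_natCast (Y ^ a) 6, ← Real.rpow_mul hY0.le,
            ← Real.rpow_add hY0, ← Real.rpow_add hY0]
          rw [show ((9 : ℕ) : ℝ) + a * ((6 : ℕ) : ℝ) + -(9 + 6 * a) = 0 by push_cast; ring,
            Real.rpow_zero]
        rw [g1, mul_one]

end Crest.Agent.R017.RGw813
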