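import Crest.Agent.R017.LBT_381
import Crest.Agent.R017.RGwE_813
import Crest.Agent.R017.RGwJ_813

/-!
# Row 17, C.REMg, (LB), the second scale under windows (helper381)

* `lbt_one`  : `EHc 1` (weight `1`, all `e`) at `bt φ α p · pw t` from (SA0), (L+)
* `lbt_all4` : the four functionals with the factor `K / X`
* `Et_be`    : the far tail at `bt φ α p · pw t`
-/

set_option autoImplicit false

noncomputable section

open Complex MeasureTheory Filter Topology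
open scoped ComplexConjugate Classical

namespace Crest.Agent.R017.LBT381

open Crest.Agent.R012 Crest.Agent.R012.Eis Crest.Agent.R012.MC
open Crest.Agent.R012.LS2 (S mem_S)
open Crest.Agent.R012.Weight600 (osc pw)
open Crest.Agent.R017.CM106 (CS TG FS)
open Crest.Agent.R017.E1551 hiding tau Dg
open Crest.Agent.R017.Rough381 (VF)
open Crest.Agent.R017.Win813
open Crest.Agent.R017.RGw813 (EP EP_bt T9 bt Et_bt Et_small)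
open Crest.Agent.R017.EHu320 (EHc)
open Crest.Agent.R017.LBx48 (EHs EHf EHt EHc_nonneg)
open Crest.Agent.R017.EHv83 (EHv EHv_num0 EHc_le_EHv)

/-- weight `1`, untwisted -/
theorem eh10 {A J ε : ℝ} (hA : J + 1 < A) (hJ : 0 ≤ J) (hε : 0 < ε) : ∃ C : ℝ, 0 ≤ C ∧
    ∀ (P K X Y Z G₀ Ma Ml : ℝ) (α : Eis → ℂ), 1 ≤ P → 0 < K → 0 < X → 1 ≤ Y → Y ≤ P →
      0 ≤ Z → Z ≤ P → 0 ≤ Ma → 0 ≤ Ml → (∀ n, α n ≠ 0 → n ∈ S Y) →
      (∀ g ∈ S Y, (nm g : ℝ) ≤ G₀ → ∀ V, 1 ≤ V → V ≤ Z * nm g → ∀ t,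
        VF V (tws (sg α g) t) ≤ Ma / (nm g : ℝ) ^ 2 *
          (V * K / (X / nm g) ^ 2) ^ (1 / 3 : ℝ) * (1 + |t|) ^ J) →
      (∀ h ∈ S Y, ∀ B V, 1 ≤ B → B ≤ Y → 1 ≤ V → V ≤ Z / (nm h : ℝ) ^ 2 → ∀ t,
        JB Y α (fun U => G₀ < nm (h * U)) h B V t ≤
          Ml / (nm h : ℝ) ^ 2 * yv K X h V * (1 + |t|) ^ J) →
      ∀ (Q : Eis → Prop) (t : ℝ), EHc (fun _ => (1 : ℝ)) Q A K X Y Z
        (fun n => α n * pw t (nm n)) ≤ C * P ^ ε * ((Ma + Ml) * (1 + |t|) ^ J) := by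
  obtain ⟨C, hC, H⟩ := EHv_num0 hA hJ hε
  refine ⟨C, hC, fun P K X Y Z G₀ Ma Ml α hP hK hX hY hYP hZ hZP hMa hMl hα hSA hL Q t => ?_⟩
  have key := H P K X Y Z G₀ Ma Ml 1 α hP hK hX hY hYP hZ hZP hMa hMl zero_le_one hα
    (fun _ _ => 1) (fun _ _ => 1) (fun _ _ => zero_le_one)
    (fun x u V hx hu _ => by rw [mul_one]; exact hx)
    (fun u V hu _ _ _ => le_rfl) hSA hL t
  rw [one_mul] at key
  exact (EHc_le_EHv hK.le hX.le (fun e _ V => zero_le_one) (fun e _ _ V => le_rfl) _).trans key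

/-- **weight `1` under windows** -/
theorem lbt_one {J Aw A : ℕ} (hA : J + 2 ≤ A) (hJA : J + 2 ≤ Aw) {R Cw ε : ℝ} (hR : 0 ≤ R)
    (hCw : 0 ≤ Cw) (hε : 0 < ε) : ∃ C : ℝ, 0 ≤ C ∧
    ∀ (P K X X' Y η Z G₀ Ma Ml : ℝ) (α : Eis → ℂ), 1 ≤ P → 0 < K → 0 < X → 0 < X' →
      |Real.log X' - Real.log X| ≤ R + 1 → 1 ≤ Y → Y ≤ P → 0 ≤ Z → 9 * Z ≤ P → 0 < η → η ≤ 1 →
      0 ≤ Ma → 0 ≤ Ml → (∀ n, α n ≠ 0 → n ∈ S Y) →
      (∀ g ∈ S Y, (nm g : ℝ) ≤ G₀ → ∀ V : ℝ, 1 ≤ V → V ≤ 9 * Z * nm g → ∀ t : ℝ,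
        VF V (tws (sg α g) t) ≤ Ma / (nm g : ℝ) ^ 2 *
          (V * K / (X / nm g) ^ 2) ^ (1 / 3 : ℝ) * (1 + |t|) ^ J) →
      (∀ h ∈ S Y, ∀ B V : ℝ, 1 ≤ B → B ≤ Y → 1 ≤ V → V ≤ 9 * Z / (nm h : ℝ) ^ 2 → ∀ t : ℝ,
        E1551.JB Y α (fun U => G₀ < nm (h * U)) h B V t ≤
          Ml / (nm h : ℝ) ^ 2 * yv K X h V * (1 + |t|) ^ J) →
      ∀ p ∈ T9, ∀ φ : ℝ → ℝ, WK Cw η Aw φ → ∀ (Q : Eis → Prop) (t : ℝ),
        EHc (fun _ => (1 : ℝ)) Q A K X' Y Z (fun n => bt φ α p n * pw t (nm n)) ≤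
          C * (η⁻¹) ^ J * P ^ ε * (Ma + Ml) * (1 + |t|) ^ J := by
  have hA' : ((J : ℕ) : ℝ) + 1 < A := by
    have : ((J + 2 : ℕ) : ℝ) ≤ A := by exact_mod_cast hA
    push_cast at this
    linarith
  obtain ⟨C₁, hC₁, H₁⟩ := eh10 (A := (A : ℝ)) (J := ((J : ℕ) : ℝ)) hA' (Nat.cast_nonneg J) hε
  have hi1 := iA_nonneg Aw
  have hi2 := iA_nonneg 2
  set r := Real.exp (R + 1) with hr
  have hr1 : 1 ≤ r := Real.one_le_exp (by linarith)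
  set c₀ := 3 * r * (Cw ^ 2 * iA Aw * iA 2) with hc₀
  have hc₀0 : 0 ≤ c₀ := by positivity
  refine ⟨c₀ * C₁, by positivity, ?_⟩
  intro P K X X' Y η Z G₀ Ma Ml α hP hK hX hX' hXX hY hYP hZ hZP hη hη1 hMa hMl hα hSA hL
    p hp φ hφ Q t
  have hY0 : 0 ≤ Y := by linarith
  have hP0 : 0 < P := by linarith
  have hXr : X' ≤ r * X := by
    have h1 : Real.log X' ≤ Real.log X + (R + 1) := by linarith [(abs_le.mp hXX).2]
    calc X' = Real.exp (Real.log X') := (Real.exp_log hX').symm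
      _ ≤ Real.exp (Real.log X + (R + 1)) := Real.exp_le_exp.mpr h1
      _ = r * X := by rw [Real.exp_add, Real.exp_log hX, mul_comm]
  have hJr : ∀ x : ℝ, x ^ ((J : ℕ) : ℝ) = x ^ J := fun x => Real.rpow_natCast x J
  have hSA' : ∀ g ∈ S Y, (nm g : ℝ) ≤ G₀ → ∀ V : ℝ, 1 ≤ V → V ≤ 9 * Z * nm g → ∀ t : ℝ,
      VF V (tws (sg α g) t) ≤ Ma / (nm g : ℝ) ^ 2 *
        (V * K / (X / nm g) ^ 2) ^ (1 / 3 : ℝ) * (1 + |t|) ^ ((J : ℕ) : ℝ) :=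
    fun g hg hgG V h1 h2 t => by rw [hJr]; exact hSA g hg hgG V h1 h2 t
  have hL' : ∀ h ∈ S Y, ∀ B V : ℝ, 1 ≤ B → B ≤ Y → 1 ≤ V → V ≤ 9 * Z / (nm h : ℝ) ^ 2 →
      ∀ t : ℝ, E1551.JB Y α (fun U => G₀ < nm (h * U)) h B V t ≤
        Ml / (nm h : ℝ) ^ 2 * yv K X h V * (1 + |t|) ^ ((J : ℕ) : ℝ) :=
    fun h hh B V h1 h2 h3 h4 t => by rw [hJr]; exact hL h hh B V h1 h2 h3 h4 t
  have h9Z : 0 ≤ 9 * Z := by linarith
  have k₁ := H₁ P K X Y (9 * Z) G₀ Ma Ml α hP hK hX hY hYP h9Z hZP hMa hMl hα hSA' hL' Q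
  have hA2 : 2 ≤ A := by omega
  have hM0 : 0 ≤ Ma + Ml := by linarith
  have hPe : 0 ≤ P ^ ε := by positivity
  have h1 := EHc_bt (A := A) (B := Aw) (J := J) (M := C₁ * P ^ ε * (Ma + Ml)) hCw hη hη1 hJA hA2 hφ hK
    hX hX' hY0 hr1 hXr (by positivity) hα (c := fun _ => (1 : ℝ)) (fun _ => zero_le_one) (Q := Q)
    (fun t => by
      have := k₁ t
      rw [hJr] at this
      linarith) hp t
  refine h1.trans (le_of_eq ?_)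
  rw [hc₀]
  ring

/-- **the T-side of (LB) under windows, four functionals** -/
theorem lbt_all4 {J Aw A : ℕ} (hA : J + 2 ≤ A) (hJA : J + 2 ≤ Aw) {R Cw ε : ℝ} (hR : 0 ≤ R)
    (hCw : 0 ≤ Cw) (hε : 0 < ε) : ∃ C : ℝ, 0 ≤ C ∧
    ∀ (P K X X' Y η Z G₀ Ma Ml E₀ a₁ a₂ a₃ a₄ : ℝ) (α : Eis → ℂ), 1 ≤ P → 0 < K → 0 < X →
      0 < X' → |Real.log X' - Real.log X| ≤ R + 1 → 1 ≤ Y → Y ≤ P → 0 ≤ Z → 9 * Z ≤ P → 0 < η →
      η ≤ 1 → 0 ≤ Ma → 0 ≤ Ml → 0 < E₀ → 0 ≤ a₁ → 0 ≤ a₂ → 0 ≤ a₃ → 0 ≤ a₄ →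
      (∀ n, α n ≠ 0 → n ∈ S Y) →
      (∀ g ∈ S Y, (nm g : ℝ) ≤ G₀ → ∀ V : ℝ, 1 ≤ V → V ≤ 9 * Z * nm g → ∀ t : ℝ,
        VF V (tws (sg α g) t) ≤ Ma / (nm g : ℝ) ^ 2 *
          (V * K / (X / nm g) ^ 2) ^ (1 / 3 : ℝ) * (1 + |t|) ^ J) →
      (∀ h ∈ S Y, ∀ B V : ℝ, 1 ≤ B → B ≤ Y → 1 ≤ V → V ≤ 9 * Z / (nm h : ℝ) ^ 2 → ∀ t : ℝ,
        E1551.JB Y α (fun U => G₀ < nm (h * U)) h B V t ≤
          Ml / (nm h : ℝ) ^ 2 * yv K X h V * (1 + |t|) ^ J) →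
      ∀ p ∈ T9, ∀ φ : ℝ → ℝ, WK Cw η Aw φ → ∀ t : ℝ,
        (K / X') * (a₁ * EHs A K X' Y Z E₀ (fun n => bt φ α p n * pw t (nm n)) +
          a₂ * EHf A K X' Y Z (fun n => bt φ α p n * pw t (nm n)) +
          a₃ * EHt A K X' Y Z E₀ (fun n => bt φ α p n * pw t (nm n)) +
          a₄ * EHc (fun _ => (1 : ℝ)) (fun _ => True) A K X' Y Z
            (fun n => bt φ α p n * pw t (nm n))) ≤
        (K / X) * (C * (η⁻¹) ^ J * P ^ ε * ((a₁ * E₀ + a₂ + a₃ * E₀⁻¹ + a₄) * (Ma + Ml)) *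
          (1 + |t|) ^ J) := by
  obtain ⟨C₀, hC₀, H₀⟩ := lbt_all hA hJA hR hCw hε
  obtain ⟨C₁, hC₁, H₁⟩ := lbt_one hA hJA hR hCw hε
  set r := Real.exp (R + 1) with hr
  refine ⟨C₀ + r * C₁, by positivity, ?_⟩
  intro P K X X' Y η Z G₀ Ma Ml E₀ a₁ a₂ a₃ a₄ α hP hK hX hX' hXX hY hYP hZ hZP hη hη1 hMa hMl hE
    ha₁ ha₂ ha₃ ha₄ hα hSA hL p hp φ hφ t
  have b₀ := H₀ P K X X' Y η Z G₀ Ma Ml E₀ a₁ a₂ a₃ α hP hK hX hX' hXX hY hYP hZ hZP hη hη1 hMa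
    hMl hE ha₁ ha₂ ha₃ hα hSA hL p hp φ hφ t
  have b₁ := H₁ P K X X' Y η Z G₀ Ma Ml α hP hK hX hX' hXX hY hYP hZ hZP hη hη1 hMa
    hMl hα hSA hL p hp φ hφ (fun _ => True) t
  have hP0 : 0 < P := by linarith
  have hXr : X ≤ r * X' := by
    have h1 : Real.log X ≤ Real.log X' + (R + 1) := by linarith [(abs_le.mp hXX).1]
    calc X = Real.exp (Real.log X) := (Real.exp_log hX).symm
      _ ≤ Real.exp (Real.log X' + (R + 1)) := Real.exp_le_exp.mpr h1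
      _ = r * X' := by rw [Real.exp_add, Real.exp_log hX', mul_comm]
  have hKX : K / X' ≤ r * (K / X) := by
    rw [← mul_div_assoc, div_le_div_iff₀ hX' hX]
    nlinarith [mul_le_mul_of_nonneg_left hXr hK.le]
  have hM0 : 0 ≤ Ma + Ml := by linarith
  set W : ℝ := (η⁻¹) ^ J * P ^ ε * (Ma + Ml) * (1 + |t|) ^ J with hW
  have hW0 : 0 ≤ W := by rw [hW]; positivity
  have hKX0 : 0 ≤ K / X' := by positivity
  have hKX1 : 0 ≤ K / X := by positivity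
  have hE0 : 0 ≤ E₀⁻¹ := by positivity
  have hr0 : 0 ≤ r := by positivity
  have c₁ : (K / X') * (a₄ * EHc (fun _ => (1 : ℝ)) (fun _ => True) A K X' Y Z
      (fun n => bt φ α p n * pw t (nm n))) ≤ (K / X) * (r * C₁ * (a₄ * W)) := by
    calc (K / X') * (a₄ * EHc (fun _ => (1 : ℝ)) (fun _ => True) A K X' Y Z
          (fun n => bt φ α p n * pw t (nm n))) ≤ (K / X') * (a₄ * (C₁ * W)) := by
          refine mul_le_mul_of_nonneg_left (mul_le_mul_of_nonneg_left (b₁.trans (le_of_eq ?_)) ha₄)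
            hKX0
          rw [hW]; ring
      _ ≤ (r * (K / X)) * (a₄ * (C₁ * W)) := mul_le_mul_of_nonneg_right hKX (by positivity)
      _ = _ := by ring
  have c₀ : (K / X) * (C₀ * (η⁻¹) ^ J * P ^ ε * ((a₁ * E₀ + a₂ + a₃ * E₀⁻¹) * (Ma + Ml)) *
      (1 + |t|) ^ J) = (K / X) * (C₀ * ((a₁ * E₀ + a₂ + a₃ * E₀⁻¹) * W)) := by rw [hW]; ring
  rw [c₀] at b₀
  have e₁ : (K / X') * (a₁ * EHs A K X' Y Z E₀ (fun n => bt φ α p n * pw t (nm n)) +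
      a₂ * EHf A K X' Y Z (fun n => bt φ α p n * pw t (nm n)) +
      a₃ * EHt A K X' Y Z E₀ (fun n => bt φ α p n * pw t (nm n)) +
      a₄ * EHc (fun _ => (1 : ℝ)) (fun _ => True) A K X' Y Z
        (fun n => bt φ α p n * pw t (nm n))) =
      (K / X') * (a₁ * EHs A K X' Y Z E₀ (fun n => bt φ α p n * pw t (nm n)) +
        a₂ * EHf A K X' Y Z (fun n => bt φ α p n * pw t (nm n)) +
        a₃ * EHt A K X' Y Z E₀ (fun n => bt φ α p n * pw t (nm n))) +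
      (K / X') * (a₄ * EHc (fun _ => (1 : ℝ)) (fun _ => True) A K X' Y Z
        (fun n => bt φ α p n * pw t (nm n))) := by ring
  rw [e₁]
  refine (add_le_add b₀ c₁).trans ?_
  rw [← mul_add]
  have e₂ : C₀ * ((a₁ * E₀ + a₂ + a₃ * E₀⁻¹) * W) + r * C₁ * (a₄ * W) ≤
      (C₀ + r * C₁) * ((a₁ * E₀ + a₂ + a₃ * E₀⁻¹ + a₄) * W) := by
    have f₁ : 0 ≤ C₀ * (a₄ * W) := by positivity
    have f₂ : 0 ≤ r * C₁ * ((a₁ * E₀ + a₂ + a₃ * E₀⁻¹) * W) := by positivity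
    nlinarith
  refine (mul_le_mul_of_nonneg_left e₂ hKX1).trans (le_of_eq ?_)
  rw [hW]
  ring

/-- **the far tail at the twisted windows** (`K` is the scale actually used) -/
theorem Et_be (A : ℝ) {a e₃ R Cw : ℝ} {Aw : ℕ} (he₃ : 0 < e₃) (ha : 0 ≤ a) (hR : 0 ≤ R)
    (hAw : 2 ≤ Aw) : ∃ B C : ℝ, 1 ≤ B ∧ 0 ≤ C ∧
    ∀ (K X X' Y N η : ℝ) (α : Eis → ℂ), 1 ≤ Y → 0 < X → X ≤ Y ^ a → Y ^ (-a) ≤ K → 0 < N →
      X ^ 2 * Y ^ e₃ ≤ K * N → ∑ n ∈ S Y, ‖α n‖ ≤ Y ^ a → FS α → 0 < X' →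
      |Real.log X' - Real.log X| ≤ R + 1 → 0 < η → ∀ φ : ℝ → ℝ, WK Cw η Aw φ →
      ∀ (p : ℕ × ℕ) (t : ℝ),
        (1 + Ct Y) * Et A B K X' Y N (fun n => bt φ α p n * pw t (nm n)) ≤ C := by
  obtain ⟨B, C, hB, hC, h2⟩ := Et_small A (r := Real.exp (R + 1)) he₃ ha
    (Real.one_le_exp (by linarith))
  refine ⟨B, (Cw * iA Aw) ^ 2 * C, hB, by positivity, ?_⟩
  intro K X X' Y N η α hY hX hXa hK hN hKN hαa hF hX' hXX hη φ hφ p t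
  have hY0 : 0 < Y := by linarith
  have hK0 : 0 < K := lt_of_lt_of_le (by positivity) hK
  have hXr : X' ≤ Real.exp (R + 1) * X := by
    have h1 : Real.log X' ≤ Real.log X + (R + 1) := by linarith [(abs_le.mp hXX).2]
    calc X' = Real.exp (Real.log X') := (Real.exp_log hX').symm
      _ ≤ Real.exp (Real.log X + (R + 1)) := Real.exp_le_exp.mpr h1
      _ = Real.exp (R + 1) * X := by rw [Real.exp_add, Real.exp_log hX, mul_comm]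
  have b3 := Et_bt (A := A) (N₀ := N) (Y := Y) hB hK0 hX' hN hXr hF
    (fun u => hφ.le hη hAw u) p t
  have b4 := h2 K X Y N α hY hX hXa hK hN hKN hαa
  have hCt := Ct_nonneg Y
  have hEt := Et_nonneg (A := A) (B := B) (Y := Y) (Y₁ := N) hK0.le
    (show 0 ≤ Real.exp (R + 1) * X by positivity) hN.le α
  calc (1 + Ct Y) * Et A B K X' Y N (fun n => bt φ α p n * pw t (nm n)) ≤
        (1 + Ct Y) * ((Cw * iA Aw) ^ 2 * Et A B K (Real.exp (R + 1) * X) Y N α) :=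
          mul_le_mul_of_nonneg_left b3 (by positivity)
    _ ≤ (2 + Ct Y) * ((Cw * iA Aw) ^ 2 * Et A B K (Real.exp (R + 1) * X) Y N α) :=
          mul_le_mul_of_nonneg_right (by linarith) (by positivity)
    _ = (Cw * iA Aw) ^ 2 * ((2 + Ct Y) * Et A B K (Real.exp (R + 1) * X) Y N α) := by ring
    _ ≤ _ := mul_le_mul_of_nonneg_left b4 (by positivity)

end Crest.Agent.R017.LBT381
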