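import Crest.Agent.R012.DualGcd_671
import Crest.Agent.R012.DualSum_671
import Crest.Agent.R012.CubeA_777

/-!
# Row 17, block C70 (exact square), leaf E1, part a (helper551): the exact pair formula

`pairE` : for `n₁ = d m₁`, `n₂ = d m₂` squarefree primary, `(m₁, m₂) = 1`, and a radial weight
`w(N(k)/K)`, the sum over primary `k` of `(k/n₁) conj (k/n₂)` as a dual sum with Moebius `e ∣ d`.
-/

set_option autoImplicit false

noncomputable section

open Complex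
open scoped ComplexConjugate

namespace Crest.Agent.R017.E1551

open Crest.Agent.R012 Crest.Agent.R012.Eis Crest.Agent.R012.Tau671 Crest.Agent.R012.MC
open Crest.Agent.R012.Mob705 (mu pdiv mem_pdiv sum_mu_coprime)
open Gauss880 (syG)
open Po581 (fC)

lemma nmpos {c : Eis} (h : c ≠ 0) : (0 : ℝ) < nm c := by exact_mod_cast nm_pos.mpr h

/-- the pair character at the frequency `g` -/
def Vp (g m₁ m₂ : Eis) : ℂ := conj (sy g m₁) * sy g m₂

lemma norm_Vp_le {g m₁ m₂ : Eis} (h₁ : IsPrim m₁) (h₂ : IsPrim m₂) : ‖Vp g m₁ m₂‖ ≤ 1 := by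
  unfold Vp
  rw [norm_mul, RCLike.norm_conj]
  exact mul_le_one₀ (norm_sy_le h₁) (norm_nonneg _) (norm_sy_le h₂)

lemma Vp_mul {g h m₁ m₂ : Eis} (h₁ : IsPrim m₁) (h₂ : IsPrim m₂) :
    Vp (g * h) m₁ m₂ = Vp g m₁ m₂ * Vp h m₁ m₂ := by
  unfold Vp
  rw [syG.mul_left _ _ _ h₁, syG.mul_left _ _ _ h₂, map_mul]; ring

open Classical in
lemma Vp_cube {c m₁ m₂ : Eis} (h₁ : IsPrim m₁) (h₂ : IsPrim m₂) :
    Vp (c ^ 3) m₁ m₂ = if IsCoprime c (m₁ * m₂) then 1 else 0 := by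
  unfold Vp
  by_cases h : IsCoprime c (m₁ * m₂)
  · rw [if_pos h, sy_cube h₁ (h.of_isCoprime_of_dvd_right (dvd_mul_right _ _)),
      sy_cube h₂ (h.of_isCoprime_of_dvd_right (dvd_mul_left _ _))]
    simp
  · rw [if_neg h]
    by_cases h' : IsCoprime c m₁
    · have h'' : ¬ IsCoprime c m₂ := fun h2 => h (h'.mul_right h2)
      have : ¬ IsCoprime (c ^ 3) m₂ := fun h3 => h'' (IsCoprime.of_isCoprime_of_dvd_left h3
        (dvd_pow_self _ (by norm_num)))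
      rw [sy_eq_zero h₂ this, mul_zero]
    · have : ¬ IsCoprime (c ^ 3) m₁ := fun h3 => h' (IsCoprime.of_isCoprime_of_dvd_left h3
        (dvd_pow_self _ (by norm_num)))
      rw [sy_eq_zero h₁ this, map_zero, zero_mul]

/-- the argument of the transformed weight -/
def arg (K : ℝ) (h q : Eis) : ℝ := Real.sqrt K * ‖toC h‖ / (3 * Real.sqrt 3 * ‖toC q‖)

lemma arg_nonneg (K : ℝ) (h q : Eis) : 0 ≤ arg K h q := by unfold arg; positivity

lemma norm_toC_sq3 : ‖toC sq3‖ = Real.sqrt 3 := by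
  rw [toC_sq3_eq]; exact Po581.norm_iS3

lemma fC_w {w : ℝ → ℝ} {K : ℝ} (hK : 0 < K) (h q₁ q₂ e : Eis) :
    fC (fw (fun x => w (x / K))) (toC h / (3 * toC sq3 * (toC q₁ * toC q₂) * toC e)) =
      ((K * Wt w (arg K h (q₁ * q₂ * e)) : ℝ) : ℂ) := by
  rw [fC_scale w hK]
  congr 3
  unfold arg
  rw [norm_div, norm_mul, norm_mul, norm_mul, norm_mul, norm_toC_sq3, map_mul, map_mul, norm_mul,
    norm_mul]
  have : ‖(3 : ℂ)‖ = 3 := by simp
  rw [this]
  ring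

open Classical in
/-- **Exact Poisson formula for a pair.** -/
theorem pairE {w : ℝ → ℝ} (hw : Wgt w) {K : ℝ} (hK : 0 < K) {d m₁ m₂ : Eis} (hd : IsPrim d)
    (h₁ : IsPrim m₁) (h₂ : IsPrim m₂) (hs₁ : Squarefree m₁) (hs₂ : Squarefree m₂)
    (hc : IsCoprime m₁ m₂) :
    ∑' k : Eis, (if IsPrim k then sy k (d * m₁) * conj (sy k (d * m₂)) else 0) *
        ((w (nm k / K) : ℝ) : ℂ) =
      ((2 * K / (9 * Real.sqrt 3 * Real.sqrt (nm m₁ * nm m₂)) : ℝ) : ℂ) * (G m₁ * conj (G m₂)) *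
        ∑ e ∈ pdiv d, (mu e : ℂ) * (nm e : ℂ)⁻¹ *
          ∑' h : Eis, ph h * Vp (h * e ^ 2) m₁ m₂ *
            ((Wt w (arg K h (m₁ * m₂ * e)) : ℝ) : ℂ) := by
  have hPF : PF (fw (fun x => w (x / K))) := by
    have := PF.of_schwartz (fS (hw.scale hK))
    rwa [fS_coe] at this
  have key := dual3 hPF hd.ne_zero h₁ h₂ hc
  have e1 : ∀ k : Eis, (if IsPrim k then sy k (d * m₁) * conj (sy k (d * m₂)) else 0) *
        ((w (nm k / K) : ℝ) : ℂ) =
      (if IsPrim k ∧ IsCoprime k d then sy k m₁ * conj (sy k m₂) else 0) *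
        fw (fun x => w (x / K)) (toC k) := by
    intro k
    have e2 : fw (fun x => w (x / K)) (toC k) = ((w (nm k / K) : ℝ) : ℂ) := by
      unfold fw; rw [norm_toC_sq]
    rw [e2]
    congr 1
    by_cases hk : IsPrim k
    · rw [if_pos hk, syG.mul_right _ _ _ hd h₁, syG.mul_right _ _ _ hd h₂, map_mul]
      by_cases hcd : IsCoprime k d
      · rw [if_pos ⟨hk, hcd⟩]
        have := sy_mul_star hd hcd
        linear_combination (sy k m₁ * conj (sy k m₂)) * this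
      · rw [if_neg (fun h => hcd h.2), sy_eq_zero hd hcd]; ring
    · rw [if_neg hk, if_neg (fun h => hk h.1)]
  simp_rw [e1]
  rw [key]
  have hn1 := nmpos h₁.ne_zero
  have hn2 := nmpos h₂.ne_zero
  have hq : Real.sqrt (nm m₁ * nm m₂) = Real.sqrt (nm m₁) * Real.sqrt (nm m₂) :=
    Real.sqrt_mul (Nat.cast_nonneg _) _
  have s1 : Real.sqrt (nm m₁) ≠ 0 := (Real.sqrt_pos.mpr hn1).ne'
  have s2 : Real.sqrt (nm m₂) ≠ 0 := (Real.sqrt_pos.mpr hn2).ne'
  have e3 : ∀ e ∈ pdiv d, (mu e : ℂ) * (nm e : ℂ)⁻¹ * (sy e m₁ * (starRingEnd ℂ) (sy e m₂)) *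
          ∑' h : Eis, ph h * (gs h m₁ * (starRingEnd ℂ) (gs h m₂)) *
            fC (fw (fun x => w (x / K))) (toC h / (3 * toC sq3 * (toC m₁ * toC m₂) * toC e)) =
      (((K * Real.sqrt (nm m₁ * nm m₂) : ℝ) : ℂ) * (G m₁ * conj (G m₂))) *
        ((mu e : ℂ) * (nm e : ℂ)⁻¹ *
          ∑' h : Eis, ph h * Vp (h * e ^ 2) m₁ m₂ *
            ((Wt w (arg K h (m₁ * m₂ * e)) : ℝ) : ℂ)) := by
    intro e he
    have hep : IsPrim e := ((mem_pdiv hd.ne_zero).mp he).1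
    have e4 : ∀ h : Eis, ph h * (gs h m₁ * (starRingEnd ℂ) (gs h m₂)) *
            fC (fw (fun x => w (x / K))) (toC h / (3 * toC sq3 * (toC m₁ * toC m₂) * toC e)) =
        (((K * Real.sqrt (nm m₁ * nm m₂) : ℝ) : ℂ) * (G m₁ * conj (G m₂))) *
        (ph h * Vp h m₁ m₂ * ((Wt w (arg K h (m₁ * m₂ * e)) : ℝ) : ℂ)) := by
      intro h
      rw [fC_w hK, Gauss880.gs_eq_G syG h₁ hs₁, Gauss880.gs_eq_G syG h₂ hs₂, hq]
      unfold Vp
      simp only [map_mul, Complex.conj_conj, Complex.conj_ofReal]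
      push_cast
      ring
    simp_rw [e4]
    rw [tsum_mul_left]
    have e5 : ∀ h : Eis, ph h * Vp (h * e ^ 2) m₁ m₂ *
            ((Wt w (arg K h (m₁ * m₂ * e)) : ℝ) : ℂ) = (sy e m₁ * conj (sy e m₂)) *
          (ph h * Vp h m₁ m₂ * ((Wt w (arg K h (m₁ * m₂ * e)) : ℝ) : ℂ)) := by
      intro h
      rw [Vp_mul h₁ h₂]
      have e6 : Vp (e ^ 2) m₁ m₂ = sy e m₁ * conj (sy e m₂) := by
        unfold Vp
        rw [sy_pow h₁, sy_pow h₂, ← star_sy h₁, Complex.conj_conj, ← star_sy h₂]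
      rw [e6]; ring
    simp_rw [e5]
    rw [tsum_mul_left]
    ring
  rw [Finset.sum_congr rfl e3, ← Finset.mul_sum, ← mul_assoc, ← mul_assoc]
  congr 1
  have hsq3 : Real.sqrt 3 ≠ 0 := by positivity
  have e7 : (2 / (9 * Real.sqrt 3 * (nm m₁ * nm m₂)) : ℝ) * (K * Real.sqrt (nm m₁ * nm m₂)) =
      2 * K / (9 * Real.sqrt 3 * Real.sqrt (nm m₁ * nm m₂)) := by
    rw [hq]
    have f1 : (nm m₁ : ℝ) = Real.sqrt (nm m₁) * Real.sqrt (nm m₁) :=
      (Real.mul_self_sqrt (Nat.cast_nonneg _)).symm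
    have f2 : (nm m₂ : ℝ) = Real.sqrt (nm m₂) * Real.sqrt (nm m₂) :=
      (Real.mul_self_sqrt (Nat.cast_nonneg _)).symm
    rw [f1, f2]
    simp only [Real.sqrt_mul_self (Real.sqrt_nonneg _)]
    field_simp
  rw [← e7]
  push_cast
  ring

end Crest.Agent.R017.E1551
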