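import Crest.Agent.R017.E1b_551

/-!
# Row 17, block C70 (exact square), leaf E1, part d (helper551): shift of the cube-free classes

For `e` squarefree primary the map `κ ↦ κ e₁ / e₂²` (`e = e₁ e₂`, `p ∣ e₂ ↔ p² ∣ κ`) is a bijection
of the cube-free elements; `h = τ_e(κ) c³` gives `h e² = κ (e₁ c)³`.
-/

set_option autoImplicit false

noncomputable section

open Complex
open scoped ComplexConjugate Classical

namespace Crest.Agent.R017.E1551

open Crest.Agent.R012 Crest.Agent.R012.Eis Crest.Agent.R012.Tau671 Crest.Agent.R012.MC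
open Crest.Agent.R012.Mob705 (mu pdiv mem_pdiv pp mem_pp PPSet ppSet_pp IsPP PE prod_pp)
open Gauss880 (syG)

/-- primes of `e` with `p² ∤ κ` -/
def s1 (κ e : Eis) : Finset Eis := (pp e).filter (fun p => ¬ p ^ 2 ∣ κ)
/-- primes of `e` with `p² ∣ κ` -/
def s2 (κ e : Eis) : Finset Eis := (pp e).filter (fun p => p ^ 2 ∣ κ)
/-- `∏_{p ∣ e, p² ∤ κ} p` -/
def g1 (κ e : Eis) : Eis := ∏ p ∈ s1 κ e, p
/-- `∏_{p ∣ e, p² ∣ κ} p` -/
def g2 (κ e : Eis) : Eis := ∏ p ∈ s2 κ e, p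

lemma pps1 (κ e : Eis) : PPSet (s1 κ e) := (ppSet_pp e).subset (Finset.filter_subset _ _)
lemma pps2 (κ e : Eis) : PPSet (s2 κ e) := (ppSet_pp e).subset (Finset.filter_subset _ _)
lemma g1_prim (κ e : Eis) : IsPrim (g1 κ e) := (pps1 κ e).isPrim_prod
lemma g2_prim (κ e : Eis) : IsPrim (g2 κ e) := (pps2 κ e).isPrim_prod

lemma g1_mul_g2 {κ e : Eis} (he : IsPrim e) (hs : Squarefree e) : g1 κ e * g2 κ e = e := by
  unfold g1 g2 s1 s2
  rw [mul_comm, Finset.prod_filter_mul_prod_filter_not]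
  exact prod_pp he hs

lemma g2_dvd (κ e : Eis) : g2 κ e ^ 2 ∣ κ := by
  rw [g2, (pps2 κ e).prod_pow_dvd]
  intro p hp
  exact (Finset.mem_filter.mp hp).2

/-- the shifted class -/
def tau (κ e : Eis) : Eis := (κ / g2 κ e ^ 2) * g1 κ e

lemma div_of_eq {a b x : Eis} (hb : b ≠ 0) (h : a = b * x) : a / b = x := by
  subst h; exact mul_div_cancel_left₀ x hb

lemma div_mul_g2 (κ e : Eis) : (κ / g2 κ e ^ 2) * g2 κ e ^ 2 = κ := by
  obtain ⟨x, hx⟩ := g2_dvd κ e
  have h0 : g2 κ e ^ 2 ≠ 0 := pow_ne_zero 2 (g2_prim κ e).ne_zero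
  rw [div_of_eq h0 hx, mul_comm]
  exact hx.symm

lemma tau_mul {κ e : Eis} (he : IsPrim e) (hs : Squarefree e) :
    tau κ e * e ^ 2 = κ * g1 κ e ^ 3 := by
  have h1 := div_mul_g2 κ e
  have h2 := g1_mul_g2 (κ := κ) he hs
  calc tau κ e * e ^ 2 = ((κ / g2 κ e ^ 2) * g1 κ e) * (g1 κ e * g2 κ e) ^ 2 := by rw [h2]; rfl
    _ = ((κ / g2 κ e ^ 2) * g2 κ e ^ 2) * g1 κ e ^ 3 := by ring
    _ = κ * g1 κ e ^ 3 := by rw [h1]

lemma ipp_of_assoc {q : Eis} (hq : Prime q) {p : Eis} (hp : IsPP p) (h : q ∣ p) : Associated q p :=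
  hq.associated_of_dvd hp.prime h

lemma cop_pow {q x y : Eis} (hq : Prime q) (h : ¬ q ∣ y) (n : ℕ) (hd : q ^ n ∣ x * y) :
    q ^ n ∣ x := by
  have hc : IsCoprime q y := (hq.irreducible.coprime_iff_not_dvd).mpr h
  exact (hc.pow_left).dvd_of_dvd_mul_right hd

/-- which primes divide `tau` -/
lemma dvd_tau {κ e p : Eis} (hκ : CF κ) (hp : p ∈ pp e) : p ∣ tau κ e ↔ ¬ p ^ 2 ∣ κ := by
  have hpp := Mob705.isPP_of_mem_pp hp
  constructor
  · intro h h2
    -- p ∣ g2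
    have hm : p ∈ s2 κ e := Finset.mem_filter.mpr ⟨hp, h2⟩
    have hn : p ∉ s1 κ e := fun h3 => (Finset.mem_filter.mp h3).2 h2
    have h3 : ¬ p ∣ g1 κ e := fun h4 => hn (((pps1 κ e).dvd_prod hpp).mp h4)
    have h4 : p ∣ κ / g2 κ e ^ 2 := (hpp.prime.dvd_or_dvd h).resolve_right h3
    have h5 : p ∣ g2 κ e := ((pps2 κ e).dvd_prod hpp).mpr hm
    apply hκ.2 p hpp.prime
    rw [← div_mul_g2 κ e]
    have : p ^ 3 = p * p ^ 2 := by ring
    rw [this]
    exact mul_dvd_mul h4 (pow_dvd_pow_of_dvd h5 2)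
  · intro h
    have hm : p ∈ s1 κ e := Finset.mem_filter.mpr ⟨hp, h⟩
    exact (((pps1 κ e).dvd_prod hpp).mpr hm).mul_left _

lemma cf_tau {κ e : Eis} (hκ : CF κ) : CF (tau κ e) := by
  refine ⟨?_, ?_⟩
  · intro h0
    rcases mul_eq_zero.mp h0 with h | h
    · apply hκ.1
      rw [← div_mul_g2 κ e, h, zero_mul]
    · exact (g1_prim κ e).ne_zero h
  · intro q hq hd
    by_cases h : q ∣ g1 κ e
    · obtain ⟨p, hp, hqp⟩ := (Prime.dvd_finsetProd_iff hq _).mp h
      have hpp := (pps1 κ e) p hp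
      have hass := ipp_of_assoc hq hpp hqp
      have hd' : p ^ 3 ∣ tau κ e := (hass.pow_pow (n := 3)).symm.dvd.trans hd
      -- g1 = p * rest, p ∤ rest
      have e1 : g1 κ e = p * ∏ x ∈ (s1 κ e).erase p, x := (Finset.mul_prod_erase _ _ hp).symm
      have hr : ¬ p ∣ ∏ x ∈ (s1 κ e).erase p, x := by
        intro h4
        have := (((pps1 κ e).subset (Finset.erase_subset _ _)).dvd_prod hpp).mp h4
        simp at this
      have e2 : p ^ 3 ∣ p * ((κ / g2 κ e ^ 2) * ∏ x ∈ (s1 κ e).erase p, x) := by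
        have : tau κ e = p * ((κ / g2 κ e ^ 2) * ∏ x ∈ (s1 κ e).erase p, x) := by
          unfold tau; rw [e1]; ring
        rwa [this] at hd'
      have e3 : p ^ 2 ∣ (κ / g2 κ e ^ 2) * ∏ x ∈ (s1 κ e).erase p, x := by
        rw [show p ^ 3 = p * p ^ 2 by ring] at e2
        exact (mul_dvd_mul_iff_left hpp.ne_zero).mp e2
      have e4 := cop_pow hpp.prime hr 2 e3
      apply (Finset.mem_filter.mp hp).2
      rw [← div_mul_g2 κ e]
      exact e4.mul_right _
    · have := cop_pow hq h 3 hd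
      apply hκ.2 q hq
      rw [← div_mul_g2 κ e]
      exact this.mul_right _

lemma s1_eq {κ e : Eis} (hκ : CF κ) : s1 κ e = (pp e).filter (fun p => p ∣ tau κ e) := by
  unfold s1
  exact Finset.filter_congr fun p hp => (dvd_tau hκ hp).symm

lemma s2_eq {κ e : Eis} (hκ : CF κ) : s2 κ e = (pp e).filter (fun p => ¬ p ∣ tau κ e) := by
  unfold s2
  refine Finset.filter_congr fun p hp => ?_
  rw [dvd_tau hκ hp, not_not]

/-- the inverse shift -/
def tinv (h e : Eis) : Eis :=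
  (h / ∏ p ∈ (pp e).filter (fun p => p ∣ h), p) * (∏ p ∈ (pp e).filter (fun p => ¬ p ∣ h), p) ^ 2

lemma tinv_tau {κ e : Eis} (hκ : CF κ) : tinv (tau κ e) e = κ := by
  unfold tinv
  rw [← s1_eq hκ, ← s2_eq hκ]
  have e1 : tau κ e / ∏ p ∈ s1 κ e, p = κ / g2 κ e ^ 2 := by
    have : tau κ e = (κ / g2 κ e ^ 2) * ∏ p ∈ s1 κ e, p := rfl
    rw [this]
    exact mul_div_cancel_right₀ _ (g1_prim κ e).ne_zero
  rw [e1]
  exact div_mul_g2 κ e

lemma tinv_spec {h e : Eis} (hh : CF h) : CF (tinv h e) ∧ tau (tinv h e) e = h := by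
  set S := (pp e).filter (fun p => p ∣ h) with hS
  set T := (pp e).filter (fun p => ¬ p ∣ h) with hT
  have pS : PPSet S := (ppSet_pp e).subset (Finset.filter_subset _ _)
  have pT : PPSet T := (ppSet_pp e).subset (Finset.filter_subset _ _)
  have hdS : (∏ p ∈ S, p) ∣ h := pS.prod_dvd.mpr fun p hp => (Finset.mem_filter.mp hp).2
  obtain ⟨x, hx⟩ := hdS
  have e0 : h / ∏ p ∈ S, p = x := div_of_eq pS.prod_ne_zero hx
  have eT : tinv h e = x * (∏ p ∈ T, p) ^ 2 := by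
    unfold tinv; rw [← hS, ← hT, e0]
  have hx0 : x ≠ 0 := fun h0 => hh.1 (by rw [hx, h0, mul_zero])
  have hxp : ∀ p ∈ S, ¬ p ^ 2 ∣ x := by
    intro p hp hd
    apply hh.2 p (pS p hp).prime
    rw [hx]
    have : p ^ 3 = p * p ^ 2 := by ring
    rw [this]
    exact mul_dvd_mul (Finset.dvd_prod_of_mem (fun x => x) hp) hd
  have hxT : ∀ p ∈ T, ¬ p ∣ x := by
    intro p hp hd
    apply (Finset.mem_filter.mp hp).2
    rw [hx]; exact hd.mul_left _
  have hcf : CF (tinv h e) := by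
    rw [eT]
    refine ⟨mul_ne_zero hx0 (pow_ne_zero 2 pT.prod_ne_zero), ?_⟩
    intro q hq hd
    by_cases hqT : q ∣ ∏ p ∈ T, p
    · obtain ⟨p, hp, hqp⟩ := (Prime.dvd_finsetProd_iff hq _).mp hqT
      have hpp := pT p hp
      have hass := ipp_of_assoc hq hpp hqp
      have hd' : p ^ 3 ∣ x * (∏ p ∈ T, p) ^ 2 := (hass.pow_pow (n := 3)).symm.dvd.trans hd
      have e1 : ∏ x ∈ T, x = p * ∏ x ∈ T.erase p, x := (Finset.mul_prod_erase _ _ hp).symm
      have hr : ¬ p ∣ ∏ x ∈ T.erase p, x := by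
        intro h4
        have := ((pT.subset (Finset.erase_subset _ _)).dvd_prod hpp).mp h4
        simp at this
      have e2 : p ^ 2 * p ∣ p ^ 2 * (x * (∏ x ∈ T.erase p, x) ^ 2) := by
        have e3 : x * (∏ p ∈ T, p) ^ 2 = p ^ 2 * (x * (∏ x ∈ T.erase p, x) ^ 2) := by
          rw [e1]; ring
        rw [e3] at hd'
        rwa [show p ^ 2 * p = p ^ 3 by ring]
      have e4 := (mul_dvd_mul_iff_left (pow_ne_zero 2 hpp.ne_zero)).mp e2
      rcases hpp.prime.dvd_or_dvd e4 with h5 | h5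
      · exact hxT p hp h5
      · exact hr (hpp.prime.dvd_of_dvd_pow h5)
    · have hq2 : ¬ q ∣ (∏ p ∈ T, p) ^ 2 := fun h4 => hqT (hq.dvd_of_dvd_pow h4)
      have := cop_pow hq hq2 3 hd
      apply hh.2 q hq
      rw [hx]; exact this.mul_left _
  refine ⟨hcf, ?_⟩
  have k1 : s1 (tinv h e) e = S := by
    unfold s1
    rw [hS]
    refine Finset.filter_congr fun p hp => ?_
    have hpp := Mob705.isPP_of_mem_pp hp
    rw [eT]
    constructor
    · intro h1
      by_contra h2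
      apply h1
      have hpT : p ∈ T := Finset.mem_filter.mpr ⟨hp, h2⟩
      exact (pow_dvd_pow_of_dvd (Finset.dvd_prod_of_mem (fun x => x) hpT) 2).mul_left _
    · intro h1 h2
      have hpS : p ∈ S := Finset.mem_filter.mpr ⟨hp, h1⟩
      have hpT : ¬ p ∣ (∏ p ∈ T, p) ^ 2 := by
        intro h4
        have := (pT.dvd_prod hpp).mp (hpp.prime.dvd_of_dvd_pow h4)
        exact (Finset.mem_filter.mp this).2 h1
      exact hxp p hpS (cop_pow hpp.prime hpT 2 h2)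
  have k2 : s2 (tinv h e) e = T := by
    have h1 : s2 (tinv h e) e = (pp e) \ s1 (tinv h e) e := by
      unfold s1 s2
      ext p
      simp only [Finset.mem_filter, Finset.mem_sdiff, not_and, not_not]
      constructor
      · rintro ⟨a, b⟩; exact ⟨a, fun _ => b⟩
      · rintro ⟨a, b⟩; exact ⟨a, b a⟩
    rw [h1, k1, hS, hT]
    ext p
    simp only [Finset.mem_filter, Finset.mem_sdiff, not_and]
    constructor
    · rintro ⟨a, b⟩; exact ⟨a, b a⟩
    · rintro ⟨a, b⟩; exact ⟨a, fun _ => b⟩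
  unfold tau g1 g2
  rw [k1, k2, eT, mul_div_cancel_right₀ _ (pow_ne_zero 2 pT.prod_ne_zero), hx, mul_comm]

/-- sums over cube-free elements are invariant under the shift -/
theorem tsum_tau (e : Eis) (F : Eis → ℂ) :
    ∑' κ : Eis, (if CF κ then F (tau κ e) else 0) = ∑' κ : Eis, if CF κ then F κ else 0 := by
  let φ : {κ : Eis // CF κ} ≃ {κ : Eis // CF κ} :=
    ⟨fun κ => ⟨tau κ e, cf_tau κ.2⟩, fun κ => ⟨tinv κ e, (tinv_spec κ.2).1⟩,
      fun κ => Subtype.ext (tinv_tau κ.2), fun κ => Subtype.ext (tinv_spec κ.2).2⟩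
  have h1 : ∀ F : Eis → ℂ, ∑' κ : Eis, (if CF κ then F κ else 0) =
      ∑' κ : {κ : Eis // CF κ}, F κ := by
    intro F
    have h9 := tsum_subtype ({κ : Eis | CF κ}) F
    refine Eq.symm (Eq.trans ?_ (h9.trans (tsum_congr fun p => ?_)))
    · rfl
    · simp only [Set.indicator_apply, Set.mem_ofPred_eq]
  rw [h1 F, h1 (fun κ => F (tau κ e))]
  exact φ.tsum_eq (fun κ : {κ : Eis // CF κ} => F κ)

end Crest.Agent.R017.E1551
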