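import Crest.Agent.R012.CubeA_777

/-!
# Row 17, block C70, leaf E1: cube sums (definitions, helper551)
-/

set_option autoImplicit false

noncomputable section

open Complex
open scoped Classical

namespace Crest.Agent.R017.E1551

open Crest.Agent.R012 Crest.Agent.R012.Eis Crest.Agent.R012.MC

/-- log-derivative: `d/dx Wt w (e^{x/2}) = Wt (Dw w) (e^{x/2})` -/
def Dw (w : ℝ → ℝ) (x : ℝ) : ℝ := -(w x + x * deriv w x)

/-- full cube sum at `N(y) = e^x` -/
def Sc (w : ℝ → ℝ) (x : ℝ) : ℝ :=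
  ∑' c : Eis, if c = 0 then 0 else Wt w (Real.exp (x / 2) * ‖toC c‖ ^ 3)

/-- the constant of the main term -/
def mc (w : ℝ → ℝ) : ℝ := 4 * Real.pi / (3 * Real.sqrt 3) * Iw w

/-- cube sum minus its main term -/
def Tc (w : ℝ → ℝ) (x : ℝ) : ℝ := Sc w x - mc w * Real.exp (-x / 3)

end Crest.Agent.R017.E1551
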