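import Crest.Agent.R017.E1d_551
import Crest.Agent.R017.E1defs_551
import Crest.Agent.R012.Cube_777

/-!
# Row 17, block C70 (exact square), leaf E1, part e (helper551): the dual sum by cube classes

`pair_class` : for `e` squarefree primary, prime to `q = m₁ m₂`,
`∑_h ph h · V(h e²) · Wt(arg h) = V(0) Wt 0 + (1/6) ∑_{κ cube-free} V(κ) Hc(κ, x, q)`.
-/

set_option autoImplicit false

noncomputable section

open Complex
open scoped ComplexConjugate Classical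

namespace Crest.Agent.R017.E1551

open Crest.Agent.R012 Crest.Agent.R012.Eis Crest.Agent.R012.Tau671 Crest.Agent.R012.MC
open Crest.Agent.R012.Mob705 (mu pdiv mem_pdiv pp mem_pp PPSet ppSet_pp IsPP PE prod_pp)
open Crest.Agent.R012.Cube777 (f3 tsum_cop summable_if tsum_mult)
open Crest.Agent.R012.LatSum413 (lsum)
open Gauss880 (syG)

/-! ### phases -/

lemma ph_of_three_dvd {h : Eis} (h3 : (3 : Eis) ∣ h) : ph h = 1 := by
  apply ph_eq_one
  obtain ⟨t, rfl⟩ := h3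
  rw [im_mul']
  simp

lemma ph_mul_prim {a : Eis} (ha : IsPrim a) (h : Eis) : ph (h * a) = ph h := by
  have e : h * a = h + h * (a - 1) := by ring
  rw [e, ph_add, ph_of_three_dvd (Dvd.dvd.mul_left ha h), mul_one]

lemma cube_im (c : Eis) : (c ^ 3).im = 3 * (c.re * c.im * (c.re - c.im)) := by
  rw [pow_succ, pow_two]
  simp only [im_mul', re_mul']
  ring

lemma cube_re (c : Eis) : (c ^ 3).re = c.re ^ 3 - 3 * c.re * c.im ^ 2 + c.im ^ 3 := by
  rw [pow_succ, pow_two]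
  simp only [im_mul', re_mul']
  ring

lemma ph_good {κ : Eis} (h : (3 : ℤ) ∣ κ.im) (c : Eis) : ph (κ * c ^ 3) = 1 := by
  apply ph_eq_one
  rw [im_mul', cube_im]
  obtain ⟨t, ht⟩ := h
  rw [ht]
  exact ⟨κ.re * (c.re * c.im * (c.re - c.im)) + t * (c ^ 3).re -
    t * (3 * (c.re * c.im * (c.re - c.im))), by ring⟩

lemma ph_lam (κ : Eis) {c : Eis} (h : lam ∣ c) : ph (κ * c ^ 3) = 1 := by
  apply ph_of_three_dvd
  obtain ⟨t, rfl⟩ := h
  have h2 : (3 : Eis) ∣ lam ^ 2 := three_dvd_lam_sq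
  refine h2.trans ⟨κ * lam * t ^ 3, by ring⟩

lemma re_ph_bad {κ c : Eis} (h : ¬ (3 : ℤ) ∣ κ.im) (hc : ¬ lam ∣ c) :
    (ph (κ * c ^ 3)).re = -(1 / 2) := by
  have h1 : ¬ (3 : ℤ) ∣ (κ * c ^ 3).im := by
    rw [im_mul', cube_im, cube_re]
    rw [lam_dvd_iff] at hc
    intro hd
    have h5 : (3 : ℤ) ∣ κ.im * (c.re + c.im) := by
      have e : κ.im * (c.re + c.im) = (κ.re * (3 * (c.re * c.im * (c.re - c.im))) +
          κ.im * (c.re ^ 3 - 3 * c.re * c.im ^ 2 + c.im ^ 3) -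
          κ.im * (3 * (c.re * c.im * (c.re - c.im)))) +
          (κ.im * ((c.re - c.re ^ 3) + (c.im - c.im ^ 3)) + 3 * (κ.im * (c.re * c.im ^ 2) +
            κ.im * (c.re * c.im * (c.re - c.im)) - κ.re * (c.re * c.im * (c.re - c.im)))) := by
        ring
      rw [e]
      refine dvd_add hd (dvd_add (Dvd.dvd.mul_left ?_ _) (dvd_mul_right _ _))
      have k : ∀ x : ℤ, (3 : ℤ) ∣ x - x ^ 3 := by
        intro x
        have hx : x % 3 = 0 ∨ x % 3 = 1 ∨ x % 3 = 2 := by omega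
        apply Int.dvd_of_emod_eq_zero
        rcases hx with hx | hx | hx <;> simp [Int.sub_emod, pow_succ, Int.mul_emod, hx]
      exact dvd_add (k _) (k _)
    rcases Int.prime_three.dvd_or_dvd h5 with h6 | h6
    · exact h h6
    · exact hc h6
  rw [ph_eq]
  set n := (κ * c ^ 3).im with hn
  have hmod : n % 3 = 1 ∨ n % 3 = 2 := by omega
  have h3 : Real.cos (2 * Real.pi / 3) = -(1 / 2) := by
    rw [show 2 * Real.pi / 3 = Real.pi - Real.pi / 3 by ring, Real.cos_pi_sub, Real.cos_pi_div_three]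
  have e1 : (Complex.exp (2 * Real.pi * Complex.I * ((n : ℂ) / 3))).re =
      Real.cos (2 * Real.pi * n / 3) := by
    have : 2 * Real.pi * Complex.I * ((n : ℂ) / 3) = ((2 * Real.pi * n / 3 : ℝ) : ℂ) * Complex.I := by
      push_cast; ring
    rw [this, Complex.exp_ofReal_mul_I_re]
  rw [e1]
  rcases hmod with hm | hm
  · obtain ⟨k, hk⟩ : ∃ k : ℤ, n = 3 * k + 1 := ⟨n / 3, by omega⟩
    rw [hk]
    have : 2 * Real.pi * ((3 * k + 1 : ℤ) : ℝ) / 3 = 2 * Real.pi / 3 + k * (2 * Real.pi) := by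
      push_cast; ring
    rw [this, Real.cos_add_int_mul_two_pi, h3]
  · obtain ⟨k, hk⟩ : ∃ k : ℤ, n = 3 * k - 1 := ⟨n / 3 + 1, by omega⟩
    rw [hk]
    have : 2 * Real.pi * ((3 * k - 1 : ℤ) : ℝ) / 3 = -(2 * Real.pi / 3) + k * (2 * Real.pi) := by
      push_cast; ring
    rw [this, Real.cos_add_int_mul_two_pi, Real.cos_neg, h3]

/-! ### cube sums -/

/-- cube sum with coprimality -/
def Cc (w : ℝ → ℝ) (x : ℝ) (q : Eis) : ℝ :=
  ∑' c : Eis, if c ≠ 0 ∧ IsCoprime c q then Wt w (Real.exp (x / 2) * ‖toC c‖ ^ 3) else 0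

/-- cube sum for the class `κ` -/
def Hc (w : ℝ → ℝ) (κ : Eis) (x : ℝ) (q : Eis) : ℝ :=
  if (3 : ℤ) ∣ κ.im then Cc w x q else 3 / 2 * Cc w (x + 3 * Real.log 3) q - 1 / 2 * Cc w x q

/-- the scale -/
def tx (x : ℝ) : ℂ := ((Real.exp (x / 6) : ℝ) : ℂ)

lemma tx_ne (x : ℝ) : tx x ≠ 0 := by
  unfold tx; exact_mod_cast (Real.exp_pos _).ne'

lemma norm_tx (x : ℝ) : ‖tx x‖ = Real.exp (x / 6) := by
  unfold tx; rw [Complex.norm_real, Real.norm_of_nonneg (Real.exp_pos _).le]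

lemma f3_tx (w : ℝ → ℝ) (x : ℝ) (c : Eis) :
    f3 w (tx x * toC c) = Wt w (Real.exp (x / 2) * ‖toC c‖ ^ 3) := by
  unfold f3
  rw [norm_mul, norm_tx, mul_pow, ← Real.exp_nat_mul]
  congr 3
  push_cast; ring

lemma Sc_eq (w : ℝ → ℝ) (x : ℝ) : Sc w x = lsum (f3 w) (tx x) := by
  unfold Sc lsum
  refine tsum_congr fun c => ?_
  split_ifs
  · rfl
  · rw [f3_tx]

lemma lsum_norm (w : ℝ → ℝ) {s t : ℂ} (h : ‖s‖ = ‖t‖) : lsum (f3 w) s = lsum (f3 w) t := by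
  unfold lsum
  refine tsum_congr fun c => ?_
  split_ifs
  · rfl
  · unfold f3; rw [norm_mul, norm_mul, h]

lemma lsum_tx (w : ℝ → ℝ) (x : ℝ) {d : Eis} (hd : d ≠ 0) :
    lsum (f3 w) (tx x * toC d) = Sc w (x + 3 * Real.log (nm d)) := by
  rw [Sc_eq]
  apply lsum_norm
  rw [norm_mul, norm_tx, norm_tx, norm_toC, Real.sqrt_eq_rpow, Real.rpow_def_of_pos (nmpos hd),
    ← Real.exp_add]
  congr 1; ring

theorem Cc_eq {w : ℝ → ℝ} (hw : Wgt w) (x : ℝ) {q : Eis} (hq : IsPrim q) :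
    Cc w x q = ∑ D ∈ pdiv q, (mu D : ℝ) * Sc w (x + 3 * Real.log (nm D)) := by
  have h := tsum_cop hw hq (tx_ne x)
  have e1 : Cc w x q = ∑' m : Eis, (if m ≠ 0 ∧ IsCoprime m q then f3 w (tx x * toC m) else 0) := by
    unfold Cc
    refine tsum_congr fun c => ?_
    rw [f3_tx]
  rw [e1]
  refine h.trans (Finset.sum_congr rfl fun D hD => ?_)
  rw [lsum_tx w x ((mem_pdiv hq.ne_zero).mp hD).1.ne_zero]

lemma summable_Cc {w : ℝ → ℝ} (hw : Wgt w) (x : ℝ) (P : Eis → Prop) :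
    Summable fun c : Eis => if c ≠ 0 ∧ P c then Wt w (Real.exp (x / 2) * ‖toC c‖ ^ 3) else 0 := by
  have h := summable_if hw (tx_ne x) P
  refine h.congr fun c => ?_
  rw [f3_tx]

/-- multiples of `λ` -/
lemma Cc_lam {w : ℝ → ℝ} (x : ℝ) {q : Eis} (hq : IsPrim q) :
    ∑' c : Eis, (if c ≠ 0 ∧ (IsCoprime c q ∧ lam ∣ c) then
      Wt w (Real.exp (x / 2) * ‖toC c‖ ^ 3) else 0) = Cc w (x + 3 * Real.log 3) q := by
  have hinj : Function.Injective (fun m : Eis => lam * m) := mul_right_injective₀ lam_ne_zero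
  unfold Cc
  rw [← hinj.tsum_eq]
  · refine tsum_congr fun m => ?_
    have e1 : (lam * m ≠ 0 ∧ (IsCoprime (lam * m) q ∧ lam ∣ lam * m)) ↔
        (m ≠ 0 ∧ IsCoprime m q) := by
      constructor
      · rintro ⟨h1, h2, -⟩
        exact ⟨right_ne_zero_of_mul h1, h2.of_isCoprime_of_dvd_left (dvd_mul_left _ _)⟩
      · rintro ⟨h1, h2⟩
        exact ⟨mul_ne_zero lam_ne_zero h1, hq.isCoprime_lam.symm.mul_left h2, dvd_mul_right _ _⟩
    simp only [e1]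
    split_ifs
    · congr 1
      rw [map_mul, norm_mul, mul_pow, norm_toC lam, nm_lam]
      have e2 : Real.sqrt ((3 : ℕ) : ℝ) ^ 3 = Real.exp (3 * Real.log 3 / 2) := by
        rw [Real.sqrt_eq_rpow, ← Real.rpow_natCast, ← Real.rpow_mul (by positivity),
          Real.rpow_def_of_pos (by norm_num)]
        congr 1
        push_cast; ring
      rw [e2, ← mul_assoc, ← Real.exp_add]
      congr 2; ring
    · rfl
  · intro b hb
    rw [Function.mem_support] at hb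
    split_ifs at hb with h
    · obtain ⟨h1, -, c, rfl⟩ := h
      exact ⟨c, rfl⟩
    · exact absurd rfl hb

/-- the sum over `c` with the phase -/
theorem tsum_ph {w : ℝ → ℝ} (hw : Wgt w) (κ : Eis) (x : ℝ) {q : Eis} (hq : IsPrim q) :
    ∑' c : Eis, (if c ≠ 0 ∧ IsCoprime c q then
      ph (κ * c ^ 3) * ((Wt w (Real.exp (x / 2) * ‖toC c‖ ^ 3) : ℝ) : ℂ) else 0) =
      ((Hc w κ x q : ℝ) : ℂ) := by
  set F : Eis → ℝ := fun c => if c ≠ 0 ∧ IsCoprime c q then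
    Wt w (Real.exp (x / 2) * ‖toC c‖ ^ 3) else 0 with hF
  have hsF : Summable F := summable_Cc hw x _
  have hFn : ∀ c, F (-c) = F c := by
    intro c
    have h1 : (-c ≠ 0 ∧ IsCoprime (-c) q) ↔ (c ≠ 0 ∧ IsCoprime c q) := by
      rw [neg_ne_zero, IsCoprime.neg_left_iff]
    simp only [hF, map_neg, norm_neg, h1]
  have e1 : ∀ c : Eis, (if c ≠ 0 ∧ IsCoprime c q then
      ph (κ * c ^ 3) * ((Wt w (Real.exp (x / 2) * ‖toC c‖ ^ 3) : ℝ) : ℂ) else 0) =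
      ph (κ * c ^ 3) * ((F c : ℝ) : ℂ) := by
    intro c
    simp only [hF]
    split_ifs <;> simp
  simp_rw [e1]
  have hs1 : Summable fun c : Eis => ph (κ * c ^ 3) * ((F c : ℝ) : ℂ) := by
    refine Summable.of_norm_bounded hsF.norm fun c => ?_
    rw [norm_mul, norm_ph, one_mul, Complex.norm_real]
  have hsum2 : ∑' c : Eis, ph (κ * c ^ 3) * ((F c : ℝ) : ℂ) =
      ∑' c : Eis, conj (ph (κ * c ^ 3)) * ((F c : ℝ) : ℂ) := by
    rw [← (Equiv.neg Eis).tsum_eq]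
    refine tsum_congr fun c => ?_
    have : κ * ((Equiv.neg Eis) c) ^ 3 = -(κ * c ^ 3) := by simp [Equiv.neg_apply]; ring
    rw [this, ph_neg, Equiv.neg_apply, hFn]
  have hs2 : Summable fun c : Eis => conj (ph (κ * c ^ 3)) * ((F c : ℝ) : ℂ) := by
    refine Summable.of_norm_bounded hsF.norm fun c => ?_
    rw [norm_mul, RCLike.norm_conj, norm_ph, one_mul, Complex.norm_real]
  have h3 : ∑' c : Eis, ph (κ * c ^ 3) * ((F c : ℝ) : ℂ) =
      ∑' c : Eis, (((ph (κ * c ^ 3)).re * F c : ℝ) : ℂ) := by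
    have h4 : (2 : ℂ) * ∑' c : Eis, ph (κ * c ^ 3) * ((F c : ℝ) : ℂ) =
        2 * ∑' c : Eis, (((ph (κ * c ^ 3)).re * F c : ℝ) : ℂ) := by
      rw [two_mul]
      nth_rewrite 2 [hsum2]
      rw [← hs1.tsum_add hs2, ← tsum_mul_left]
      refine tsum_congr fun c => ?_
      have := Complex.add_conj (ph (κ * c ^ 3))
      push_cast at this ⊢
      linear_combination ((F c : ℝ) : ℂ) * this
    exact mul_left_cancel₀ two_ne_zero h4
  rw [h3, ← Complex.ofReal_tsum]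
  congr 1
  unfold Hc
  by_cases hg : (3 : ℤ) ∣ κ.im
  · rw [if_pos hg]
    refine tsum_congr fun c => ?_
    rw [ph_good hg, Complex.one_re, one_mul]
  · rw [if_neg hg, ← Cc_lam x hq]
    unfold Cc
    rw [← tsum_mul_left, ← tsum_mul_left, ← Summable.tsum_sub]
    · refine tsum_congr fun c => ?_
      simp only [hF]
      by_cases h1 : c ≠ 0 ∧ IsCoprime c q
      · rw [if_pos h1]
        by_cases h2 : lam ∣ c
        · rw [if_pos ⟨h1.1, h1.2, h2⟩, ph_lam κ h2, Complex.one_re]; ring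
        · rw [if_neg (fun h => h2 h.2.2), re_ph_bad hg h2]; ring
      · rw [if_neg h1, if_neg (fun h => h1 ⟨h.1, h.2.1⟩)]; ring
    · have h8 := (summable_Cc hw x (fun c => IsCoprime c q ∧ lam ∣ c)).mul_left (3 / 2 : ℝ)
      refine h8.congr fun c => ?_
      congr 1
      split_ifs <;> rfl
    · exact (summable_Cc hw x (fun c => IsCoprime c q)).mul_left _

/-! ### the dual sum -/

/-- `log (K N(κ) / (27 N(q) N(g)³))` -/
def xx (K : ℝ) (κ q g : Eis) : ℝ := Real.log (K * nm κ / (27 * nm q * (nm g : ℝ) ^ 3))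

lemma exp_xx {K : ℝ} (hK : 0 < K) {κ q g : Eis} (hκ : κ ≠ 0) (hq : q ≠ 0) (hg : g ≠ 0) :
    Real.exp (xx K κ q g / 2) = arg K κ (q * g ^ 3) := by
  have h1 := nmpos hκ
  have h2 := nmpos hq
  have h3 := nmpos hg
  have e0 : Real.exp (xx K κ q g / 2) = Real.sqrt (K * nm κ / (27 * nm q * (nm g : ℝ) ^ 3)) := by
    unfold xx
    rw [Real.sqrt_eq_rpow, Real.rpow_def_of_pos (by positivity)]
    congr 1; ring
  rw [e0]
  unfold arg
  have e1 : ‖toC (q * g ^ 3)‖ = Real.sqrt (nm q * (nm g : ℝ) ^ 3) := by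
    rw [norm_toC, nm_mul, nm_pow]; push_cast; rfl
  rw [e1, norm_toC, Real.sqrt_div (by positivity), Real.sqrt_mul hK.le]
  congr 1
  have e2 : (27 : ℝ) * nm q * (nm g : ℝ) ^ 3 = (3 * Real.sqrt 3) ^ 2 * (nm q * (nm g : ℝ) ^ 3) := by
    rw [mul_pow, Real.sq_sqrt (by norm_num)]; ring
  rw [e2, Real.sqrt_mul (by positivity), Real.sqrt_sq (by positivity)]

lemma summable_X {w : ℝ → ℝ} (hw : Wgt w) {K : ℝ} (hK : 0 < K) {m₁ m₂ e : Eis} (h₁ : IsPrim m₁)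
    (h₂ : IsPrim m₂) (he : e ≠ 0) :
    Summable fun h : Eis => ph h * Vp (h * e ^ 2) m₁ m₂ *
      ((Wt w (arg K h (m₁ * m₂ * e)) : ℝ) : ℂ) := by
  obtain ⟨C, hC0, hC⟩ := Wt_decay hw 3
  set a : ℝ := Real.sqrt K / (3 * Real.sqrt 3 * ‖toC (m₁ * m₂ * e)‖) with ha
  have hq0 : m₁ * m₂ * e ≠ 0 := mul_ne_zero (mul_ne_zero h₁.ne_zero h₂.ne_zero) he
  have hqn : 0 < ‖toC (m₁ * m₂ * e)‖ := norm_pos_iff.mpr (by simpa using hq0)
  have ha0 : 0 < a := by
    have := Real.sqrt_pos.mpr hK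
    positivity
  set b : ℝ := min a 1 with hb
  have hb0 : 0 < b := lt_min ha0 one_pos
  have hs := Po581.summable_eis_pow3
  refine Summable.of_norm_bounded (hs.mul_left (C / b ^ 3)) fun h => ?_
  rw [norm_mul, norm_mul, norm_ph, one_mul, Complex.norm_real]
  have e1 : arg K h (m₁ * m₂ * e) = a * ‖toC h‖ := by
    unfold arg; rw [ha]; field_simp
  have h1 := hC (arg K h (m₁ * m₂ * e)) (arg_nonneg _ _ _)
  have h2 : b * (1 + ‖toC h‖) ≤ 1 + arg K h (m₁ * m₂ * e) := by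
    rw [e1, mul_add, mul_one]
    exact add_le_add (min_le_right _ _) (mul_le_mul_of_nonneg_right (min_le_left _ _)
      (norm_nonneg _))
  calc ‖Vp (h * e ^ 2) m₁ m₂‖ * ‖Wt w (arg K h (m₁ * m₂ * e))‖
      ≤ 1 * (C / (1 + arg K h (m₁ * m₂ * e)) ^ 3) :=
        mul_le_mul (norm_Vp_le h₁ h₂) h1 (norm_nonneg _) zero_le_one
    _ ≤ 1 * (C / (b * (1 + ‖toC h‖)) ^ 3) := by
        gcongr
    _ = C / b ^ 3 * (1 / (1 + ‖toC h‖) ^ 3) := by
        rw [mul_pow]; field_simp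

/-- one class of the dual sum -/
lemma class_term {w : ℝ → ℝ} (hw : Wgt w) {K : ℝ} (hK : 0 < K) {m₁ m₂ e : Eis}
    (h₁ : IsPrim m₁) (h₂ : IsPrim m₂) (he : IsPrim e) (hes : Squarefree e)
    (hc : IsCoprime e (m₁ * m₂)) {κ : Eis} (hκ : CF κ) :
    ∑' c : Eis, (if c = 0 then 0 else ph (tau κ e * c ^ 3) *
        Vp (tau κ e * c ^ 3 * e ^ 2) m₁ m₂ *
          ((Wt w (arg K (tau κ e * c ^ 3) (m₁ * m₂ * e)) : ℝ) : ℂ)) =
      Vp κ m₁ m₂ * ((Hc w κ (xx K κ (m₁ * m₂) (g2 κ e)) (m₁ * m₂) : ℝ) : ℂ) := by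
  have hq : IsPrim (m₁ * m₂) := h₁.mul h₂
  have h7 := tsum_ph hw κ (xx K κ (m₁ * m₂) (g2 κ e)) hq
  rw [← h7, ← tsum_mul_left]
  refine tsum_congr fun c => ?_
  by_cases hc0 : c = 0
  · simp [hc0]
  rw [if_neg hc0]
  have k1 : tau κ e * c ^ 3 * e ^ 2 = κ * (g1 κ e * c) ^ 3 := by
    have := tau_mul (κ := κ) he hes
    calc tau κ e * c ^ 3 * e ^ 2 = (tau κ e * e ^ 2) * c ^ 3 := by ring
      _ = κ * g1 κ e ^ 3 * c ^ 3 := by rw [this]
      _ = _ := by ring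
  have k2 : ph (tau κ e * c ^ 3) = ph (κ * c ^ 3) := by
    rw [← ph_mul_prim (he.pow 2) (tau κ e * c ^ 3), k1]
    have : κ * (g1 κ e * c) ^ 3 = (κ * c ^ 3) * g1 κ e ^ 3 := by ring
    rw [this, ph_mul_prim ((g1_prim κ e).pow 3)]
  have k3 : Vp (tau κ e * c ^ 3 * e ^ 2) m₁ m₂ =
      if IsCoprime c (m₁ * m₂) then Vp κ m₁ m₂ else 0 := by
    rw [k1, Vp_mul h₁ h₂, Vp_cube h₁ h₂]
    have hg1 : IsCoprime (g1 κ e) (m₁ * m₂) := by
      refine hc.of_isCoprime_of_dvd_left ?_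
      exact ⟨g2 κ e, (g1_mul_g2 he hes).symm⟩
    have : IsCoprime (g1 κ e * c) (m₁ * m₂) ↔ IsCoprime c (m₁ * m₂) :=
      ⟨fun h => h.of_isCoprime_of_dvd_left (dvd_mul_left _ _), fun h => hg1.mul_left h⟩
    simp only [this]
    split_ifs <;> ring
  have k4 : arg K (tau κ e * c ^ 3) (m₁ * m₂ * e) =
      Real.exp (xx K κ (m₁ * m₂) (g2 κ e) / 2) * ‖toC c‖ ^ 3 := by
    rw [exp_xx hK hκ.1 hq.ne_zero (g2_prim κ e).ne_zero]
    have hE : 0 < ‖toC e‖ := norm_pos_iff.mpr (by simpa using he.ne_zero)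
    have hG : 0 < ‖toC (g2 κ e)‖ := norm_pos_iff.mpr (by simpa using (g2_prim κ e).ne_zero)
    have hQ : 0 < ‖toC (m₁ * m₂)‖ := norm_pos_iff.mpr (by simpa using hq.ne_zero)
    have n1 : ‖toC (tau κ e)‖ * ‖toC e‖ ^ 2 = ‖toC κ‖ * ‖toC (g1 κ e)‖ ^ 3 := by
      rw [← norm_pow, ← norm_mul, ← map_pow, ← map_mul, tau_mul he hes, map_mul, norm_mul,
        map_pow, norm_pow]
    have n2 : ‖toC e‖ = ‖toC (g1 κ e)‖ * ‖toC (g2 κ e)‖ := by
      rw [← norm_mul, ← map_mul, g1_mul_g2 he hes]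
    unfold arg
    rw [map_mul toC (tau κ e), norm_mul, map_pow, norm_pow, map_mul toC (m₁ * m₂) e, norm_mul,
      map_mul toC (m₁ * m₂) (g2 κ e ^ 3), norm_mul, map_pow, norm_pow]
    have n3 : ‖toC (tau κ e)‖ * ‖toC (g2 κ e)‖ ^ 3 = ‖toC κ‖ * ‖toC e‖ := by
      have h9 : ‖toC (tau κ e)‖ * ‖toC (g2 κ e)‖ ^ 3 * ‖toC e‖ ^ 2 =
          ‖toC κ‖ * ‖toC e‖ * ‖toC e‖ ^ 2 := by
        calc ‖toC (tau κ e)‖ * ‖toC (g2 κ e)‖ ^ 3 * ‖toC e‖ ^ 2
            = (‖toC (tau κ e)‖ * ‖toC e‖ ^ 2) * ‖toC (g2 κ e)‖ ^ 3 := by ring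
          _ = ‖toC κ‖ * (‖toC (g1 κ e)‖ * ‖toC (g2 κ e)‖) ^ 3 := by rw [n1]; ring
          _ = _ := by rw [← n2]; ring
      exact mul_right_cancel₀ (by positivity) h9
    rw [div_mul_eq_mul_div, div_eq_div_iff (by positivity) (by positivity)]
    linear_combination (Real.sqrt K * ‖toC c‖ ^ 3 * (3 * Real.sqrt 3 * ‖toC (m₁ * m₂)‖)) * n3
  rw [k2, k3, k4]
  by_cases h9 : IsCoprime c (m₁ * m₂)
  · rw [if_pos h9, if_pos ⟨hc0, h9⟩]; ring
  · rw [if_neg h9, if_neg (fun h => h9 h.2)]; ring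

lemma summable_tau (e : Eis) {F : Eis → ℂ} (hF : Summable fun κ : Eis => if CF κ then F κ else 0) :
    Summable fun κ : Eis => if CF κ then F (tau κ e) else 0 := by
  let φ : {κ : Eis // CF κ} ≃ {κ : Eis // CF κ} :=
    ⟨fun κ => ⟨tau κ e, cf_tau κ.2⟩, fun κ => ⟨tinv κ e, (tinv_spec κ.2).1⟩,
      fun κ => Subtype.ext (tinv_tau κ.2), fun κ => Subtype.ext (tinv_spec κ.2).2⟩
  have h1 : ∀ F : Eis → ℂ, (Summable fun κ : Eis => if CF κ then F κ else 0) ↔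
      Summable fun κ : {κ : Eis // CF κ} => F κ := by
    intro F
    have h9 := summable_subtype_iff_indicator (s := {κ : Eis | CF κ}) (f := F)
    constructor
    · intro h
      refine h9.mpr (h.congr fun κ => ?_)
      simp only [Set.indicator_apply, Set.mem_ofPred_eq]
    · intro h
      refine (h9.mp h).congr fun κ => ?_
      simp only [Set.indicator_apply, Set.mem_ofPred_eq]
  rw [h1 (fun κ => F (tau κ e))]
  exact (φ.summable_iff (f := fun κ : {κ : Eis // CF κ} => F κ)).mpr ((h1 F).mp hF)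

/-- summability over the classes -/
theorem summable_class {w : ℝ → ℝ} (hw : Wgt w) {K : ℝ} (hK : 0 < K) {m₁ m₂ e : Eis}
    (h₁ : IsPrim m₁) (h₂ : IsPrim m₂) (he : IsPrim e) (hes : Squarefree e)
    (hc : IsCoprime e (m₁ * m₂)) :
    Summable fun κ : Eis => if CF κ then
      Vp κ m₁ m₂ * ((Hc w κ (xx K κ (m₁ * m₂) (g2 κ e)) (m₁ * m₂) : ℝ) : ℂ) else 0 := by
  set X : Eis → ℂ := fun h => ph h * Vp (h * e ^ 2) m₁ m₂ *
    ((Wt w (arg K h (m₁ * m₂ * e)) : ℝ) : ℂ) with hX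
  have hs : Summable X := summable_X hw hK h₁ h₂ he.ne_zero
  have h1 := (summable_cf hs).prod
  have h2 : Summable fun κ : Eis => if CF κ then
      ∑' c : Eis, (if c = 0 then 0 else X (κ * c ^ 3)) else 0 := by
    refine h1.congr fun κ => ?_
    by_cases h : CF κ
    · rw [if_pos h]
      refine tsum_congr fun c => ?_
      by_cases hc : c = 0
      · simp [hc]
      · simp [h, hc]
    · rw [if_neg h]
      simp [h]
  have h3 := summable_tau e h2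
  refine h3.congr fun κ => ?_
  by_cases hκ : CF κ
  · rw [if_pos hκ, if_pos hκ]
    exact class_term hw hK h₁ h₂ he hes hc hκ
  · rw [if_neg hκ, if_neg hκ]

/-- **The dual sum by cube classes.** -/
theorem pair_class {w : ℝ → ℝ} (hw : Wgt w) {K : ℝ} (hK : 0 < K) {m₁ m₂ e : Eis}
    (h₁ : IsPrim m₁) (h₂ : IsPrim m₂) (he : IsPrim e) (hes : Squarefree e)
    (hc : IsCoprime e (m₁ * m₂)) :
    ∑' h : Eis, ph h * Vp (h * e ^ 2) m₁ m₂ * ((Wt w (arg K h (m₁ * m₂ * e)) : ℝ) : ℂ) =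
      Vp 0 m₁ m₂ * ((Wt w 0 : ℝ) : ℂ) + (1 / 6 : ℂ) *
        ∑' κ : Eis, if CF κ then
          Vp κ m₁ m₂ * ((Hc w κ (xx K κ (m₁ * m₂) (g2 κ e)) (m₁ * m₂) : ℝ) : ℂ) else 0 := by
  set X : Eis → ℂ := fun h => ph h * Vp (h * e ^ 2) m₁ m₂ *
    ((Wt w (arg K h (m₁ * m₂ * e)) : ℝ) : ℂ) with hX
  have hs : Summable X := summable_X hw hK h₁ h₂ he.ne_zero
  rw [hs.tsum_eq_add_tsum_ite 0]
  have e0 : X 0 = Vp 0 m₁ m₂ * ((Wt w 0 : ℝ) : ℂ) := by
    simp only [hX]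
    rw [zero_mul]
    have : ph 0 = 1 := ph_of_three_dvd (dvd_zero _)
    rw [this, one_mul]
    unfold arg
    simp
  rw [e0]
  congr 1
  rw [tsum_cubefree hs]
  congr 1
  rw [← tsum_tau e (fun κ => ∑' c : Eis, (if c = 0 then 0 else X (κ * c ^ 3)))]
  refine tsum_congr fun κ => ?_
  by_cases hκ : CF κ
  · rw [if_pos hκ, if_pos hκ]
    exact class_term hw hK h₁ h₂ he hes hc hκ
  · rw [if_neg hκ, if_neg hκ]

end Crest.Agent.R017.E1551
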