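import Crest.Agent.R017.PX3_764
import Crest.Agent.R017.E1f_551
import Crest.Agent.R012.Weight_600

/-!
# Row 17, block C70 (exact square), leaf E1, part g (helper551): the bilinear form of one class

`norm_BT_le` : for a function `T` with a separating kernel, the sum over coprime pairs
`(k₁, k₂)` with the arithmetic weight `HT T` is bounded by mean squares of the linear sums
`∑_{L ∣ k}`.
-/

set_option autoImplicit false

noncomputable section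

open Complex MeasureTheory
open scoped ComplexConjugate Classical

namespace Crest.Agent.R017.E1551

open Crest.Agent.R012 Crest.Agent.R012.Eis Crest.Agent.R012.MC
open Crest.Agent.R012.LS2 (S mem_S)
open Crest.Agent.R012.Mob705 (mu pdiv mem_pdiv mu_mul abs_mu_le_one)
open Crest.Agent.R012.Tau671 (norm_sy_le)
open Crest.Agent.R012.Weight600 (osc norm_osc osc_add_right osc_neg_left continuous_osc_left pw)
open Crest.Agent.R017.PX764 (cpS cpS_congr)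
open Crest.Agent.R017.Dual2813 (S_of_dvd coprime_indicator)

/-! ### the arithmetic function `HT` -/

/-- `∑_{D ∣ q} μ(D) T(x + 3 log N D)` -/
def HT (T : ℝ → ℝ) (x : ℝ) (q : Eis) : ℝ :=
  ∑ D ∈ pdiv q, (mu D : ℝ) * T (x + 3 * Real.log (nm D))

lemma sum_pdiv_mul' {A : Type*} [AddCommMonoid A] {b c : Eis} (hb : b ≠ 0) (hc : c ≠ 0)
    (h : IsCoprime b c) (F : Eis → A) :
    ∑ e ∈ pdiv (b * c), F e = ∑ e₁ ∈ pdiv b, ∑ e₂ ∈ pdiv c, F (e₁ * e₂) := by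
  rw [← Finset.sum_product']
  symm
  refine Finset.sum_nbij (fun p => p.1 * p.2) ?_ ?_ ?_ (fun _ _ => rfl)
  · intro p hp
    rw [Finset.mem_product, mem_pdiv hb, mem_pdiv hc] at hp
    rw [mem_pdiv (mul_ne_zero hb hc)]
    exact ⟨hp.1.1.mul hp.2.1, mul_dvd_mul hp.1.2 hp.2.2⟩
  · intro p hp p' hp' heq
    rw [Finset.mem_coe, Finset.mem_product, mem_pdiv hb, mem_pdiv hc] at hp hp'
    simp only at heq
    have c1 : IsCoprime p.1 p'.2 :=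
      (h.of_isCoprime_of_dvd_left hp.1.2).of_isCoprime_of_dvd_right hp'.2.2
    have c2 : IsCoprime p'.1 p.2 :=
      (h.of_isCoprime_of_dvd_left hp'.1.2).of_isCoprime_of_dvd_right hp.2.2
    have d1 : p.1 ∣ p'.1 := c1.dvd_of_dvd_mul_right (heq ▸ dvd_mul_right _ _)
    have d2 : p'.1 ∣ p.1 := c2.dvd_of_dvd_mul_right (heq ▸ dvd_mul_right _ _)
    have e1 : p.1 = p'.1 := hp.1.1.eq_of_associated hp'.1.1 (associated_of_dvd_dvd d1 d2)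
    have e2 : p.2 = p'.2 := by
      rw [e1] at heq
      exact mul_left_cancel₀ hp'.1.1.ne_zero heq
    exact Prod.ext e1 e2
  · intro d hd
    rw [Finset.mem_coe, mem_pdiv (mul_ne_zero hb hc)] at hd
    obtain ⟨x, y, hx, hy, hxb, hyc, rfl⟩ := Div277.exists_prim_factor hd.1 hd.2
    exact ⟨(x, y), by
      rw [Finset.mem_coe, Finset.mem_product, mem_pdiv hb, mem_pdiv hc]
      exact ⟨⟨hx, hxb⟩, ⟨hy, hyc⟩⟩, rfl⟩

lemma sum_pdiv_S {Y : ℝ} (hY : 0 ≤ Y) {k : Eis} (hk : k ∈ S Y) (F : Eis → ℝ) :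
    ∑ D ∈ pdiv k, F D = ∑ D ∈ S Y, if D ∣ k then F D else 0 := by
  have hk' := (mem_S hY).1 hk
  rw [← Finset.sum_filter]
  refine Finset.sum_congr ?_ fun _ _ => rfl
  ext D
  rw [Finset.mem_filter, mem_pdiv hk'.2.1.ne_zero]
  constructor
  · rintro ⟨h1, h2⟩
    exact ⟨S_of_dvd hY hk h1 h2, h2⟩
  · rintro ⟨h1, h2⟩
    exact ⟨((mem_S hY).1 h1).2.1, h2⟩

lemma HT_mul {Y : ℝ} (hY : 0 ≤ Y) (T : ℝ → ℝ) (x : ℝ) {k₁ k₂ : Eis} (h₁ : k₁ ∈ S Y)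
    (h₂ : k₂ ∈ S Y) (hc : IsCoprime k₁ k₂) :
    HT T x (k₁ * k₂) = ∑ D₁ ∈ S Y, ∑ D₂ ∈ S Y, if D₁ ∣ k₁ ∧ D₂ ∣ k₂ then
      (mu D₁ : ℝ) * (mu D₂ : ℝ) * T (x + 3 * Real.log (nm D₁) + 3 * Real.log (nm D₂)) else 0 := by
  have h₁' := (mem_S hY).1 h₁
  have h₂' := (mem_S hY).1 h₂
  unfold HT
  rw [sum_pdiv_mul' h₁'.2.1.ne_zero h₂'.2.1.ne_zero hc, sum_pdiv_S hY h₁]
  refine Finset.sum_congr rfl fun D₁ hD₁ => ?_
  by_cases hd : D₁ ∣ k₁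
  · rw [if_pos hd, sum_pdiv_S hY h₂]
    refine Finset.sum_congr rfl fun D₂ hD₂ => ?_
    by_cases hd2 : D₂ ∣ k₂
    · rw [if_pos hd2, if_pos ⟨hd, hd2⟩]
      have p1 := ((mem_S hY).1 hD₁).2.1.ne_zero
      have p2 := ((mem_S hY).1 hD₂).2.1.ne_zero
      have hc' : IsCoprime D₁ D₂ :=
        (hc.of_isCoprime_of_dvd_left hd).of_isCoprime_of_dvd_right hd2
      rw [mu_mul p1 p2 hc', nm_mul]
      push_cast
      rw [Real.log_mul (nmpos p1).ne' (nmpos p2).ne']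
      congr 2
      ring
    · rw [if_neg hd2, if_neg (fun h => hd2 h.2)]
  · rw [if_neg hd]
    symm
    apply Finset.sum_eq_zero
    intro D₂ _
    rw [if_neg (fun h => hd h.1)]

/-! ### Moebius -/

lemma cpS_moebius' {Y : ℝ} (hY : 0 ≤ Y) (α β : Eis → ℂ) (d : Eis) (Ψ : Eis → Eis → ℂ) :
    cpS Y α β d Ψ = ∑ f ∈ S Y, (mu f : ℂ) * ∑ k₁ ∈ S Y, ∑ k₂ ∈ S Y,
      if f ∣ k₁ ∧ f ∣ k₂ then α (d * k₁) * conj (β (d * k₂)) * Ψ k₁ k₂ else 0 := by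
  unfold cpS
  have e1 : ∀ k1 ∈ S Y, ∀ k2 ∈ S Y,
      (if IsCoprime k1 k2 then α (d * k1) * conj (β (d * k2)) * Ψ k1 k2 else 0) =
      ∑ f ∈ S Y, (mu f : ℂ) * (if f ∣ k1 ∧ f ∣ k2 then
        α (d * k1) * conj (β (d * k2)) * Ψ k1 k2 else 0) := by
    intro k1 h1 k2 h2
    have e2 : ∑ f ∈ S Y, (mu f : ℂ) * (if f ∣ k1 ∧ f ∣ k2 then
        α (d * k1) * conj (β (d * k2)) * Ψ k1 k2 else 0) =
        (if IsCoprime k1 k2 then (1 : ℂ) else 0) *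
          (α (d * k1) * conj (β (d * k2)) * Ψ k1 k2) := by
      rw [coprime_indicator hY h1 h2, Finset.sum_mul]
      refine Finset.sum_congr rfl fun f _ => ?_
      by_cases a : f ∣ k1
      · by_cases b : f ∣ k2
        · rw [if_pos ⟨a, b⟩, if_pos a, if_pos b]; ring
        · rw [if_neg (fun h => b h.2), if_pos a, if_neg b]; ring
      · rw [if_neg (fun h => a h.1), if_neg a]; ring
    rw [e2]
    split_ifs <;> ring
  rw [Finset.sum_congr rfl fun k1 h1 => Finset.sum_congr rfl fun k2 h2 => e1 k1 h1 k2 h2]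
  rw [Finset.sum_congr rfl fun k1 _ => Finset.sum_comm]
  rw [Finset.sum_comm]
  refine Finset.sum_congr rfl fun f hf => ?_
  rw [Finset.mul_sum]
  refine Finset.sum_congr rfl fun k1 _ => ?_
  rw [Finset.mul_sum]

/-! ### the bilinear form -/

/-- the coefficient -/
def cc (α : Eis → ℂ) (d κ k : Eis) : ℂ := α (d * k) * (G k * conj (sy κ k))

/-- the bilinear form of the class `κ` -/
def BT (Y : ℝ) (α : Eis → ℂ) (d κ : Eis) (T : ℝ → ℝ) (x : ℝ) : ℂ :=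
  cpS Y α α d fun k₁ k₂ =>
    (((Real.sqrt (nm k₁ * nm k₂))⁻¹ : ℝ) : ℂ) * (G k₁ * conj (G k₂)) * (Vp κ k₁ k₂ *
      ((HT T (x - Real.log (nm k₁) - Real.log (nm k₂)) (k₁ * k₂) : ℝ) : ℂ))

/-- the sum with fixed divisors -/
def Qf (Y : ℝ) (α : Eis → ℂ) (d κ : Eis) (T : ℝ → ℝ) (x : ℝ) (f D₁ D₂ : Eis) : ℂ :=
  ∑ k₁ ∈ S Y, ∑ k₂ ∈ S Y, if (f ∣ k₁ ∧ D₁ ∣ k₁) ∧ (f ∣ k₂ ∧ D₂ ∣ k₂) then
    (((Real.sqrt (nm k₁ * nm k₂))⁻¹ : ℝ) : ℂ) * (cc α d κ k₁ * conj (cc α d κ k₂)) *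
      ((T (x + 3 * Real.log (nm D₁) + 3 * Real.log (nm D₂) - Real.log (nm k₁) -
        Real.log (nm k₂)) : ℝ) : ℂ) else 0

theorem BT_eq {Y : ℝ} (hY : 0 ≤ Y) (α : Eis → ℂ) (d κ : Eis) (T : ℝ → ℝ) (x : ℝ) :
    BT Y α d κ T x = ∑ f ∈ S Y, ∑ D₁ ∈ S Y, ∑ D₂ ∈ S Y,
      (mu f : ℂ) * ((mu D₁ : ℂ) * (mu D₂ : ℂ)) * Qf Y α d κ T x f D₁ D₂ := by
  unfold BT
  rw [cpS_congr (Ψ' := fun k₁ k₂ => (((Real.sqrt (nm k₁ * nm k₂))⁻¹ : ℝ) : ℂ) *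
    (G k₁ * conj (G k₂)) * (Vp κ k₁ k₂ * ((∑ D₁ ∈ S Y, ∑ D₂ ∈ S Y, if D₁ ∣ k₁ ∧ D₂ ∣ k₂ then
      (mu D₁ : ℝ) * (mu D₂ : ℝ) * T (x - Real.log (nm k₁) - Real.log (nm k₂) +
        3 * Real.log (nm D₁) + 3 * Real.log (nm D₂)) else 0 : ℝ) : ℂ)))]
  swap
  · intro k₁ k₂ h₁ h₂ hc _ _
    beta_reduce
    rw [HT_mul hY T _ h₁ h₂ hc]
  rw [cpS_moebius' hY]
  refine Finset.sum_congr rfl fun f _ => ?_
  unfold Qf
  have e1 : ∀ k₁ k₂ : Eis, (if f ∣ k₁ ∧ f ∣ k₂ then α (d * k₁) * conj (α (d * k₂)) *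
      ((((Real.sqrt (nm k₁ * nm k₂))⁻¹ : ℝ) : ℂ) *
      (G k₁ * conj (G k₂)) * (Vp κ k₁ k₂ * ((∑ D₁ ∈ S Y, ∑ D₂ ∈ S Y, if D₁ ∣ k₁ ∧ D₂ ∣ k₂ then
      (mu D₁ : ℝ) * (mu D₂ : ℝ) * T (x - Real.log (nm k₁) - Real.log (nm k₂) +
        3 * Real.log (nm D₁) + 3 * Real.log (nm D₂)) else 0 : ℝ) : ℂ))) else 0) =
      ∑ D₁ ∈ S Y, ∑ D₂ ∈ S Y, ((mu D₁ : ℂ) * (mu D₂ : ℂ)) *
        (if (f ∣ k₁ ∧ D₁ ∣ k₁) ∧ (f ∣ k₂ ∧ D₂ ∣ k₂) then
        (((Real.sqrt (nm k₁ * nm k₂))⁻¹ : ℝ) : ℂ) * (cc α d κ k₁ * conj (cc α d κ k₂)) *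
        ((T (x + 3 * Real.log (nm D₁) + 3 * Real.log (nm D₂) - Real.log (nm k₁) -
        Real.log (nm k₂)) : ℝ) : ℂ) else 0) := by
    intro k₁ k₂
    by_cases hf : f ∣ k₁ ∧ f ∣ k₂
    · rw [if_pos hf]
      push_cast
      rw [Finset.mul_sum, Finset.mul_sum, Finset.mul_sum]
      refine Finset.sum_congr rfl fun D₁ _ => ?_
      rw [Finset.mul_sum, Finset.mul_sum, Finset.mul_sum]
      refine Finset.sum_congr rfl fun D₂ _ => ?_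
      by_cases h : D₁ ∣ k₁ ∧ D₂ ∣ k₂
      · rw [if_pos h, if_pos ⟨⟨hf.1, h.1⟩, ⟨hf.2, h.2⟩⟩]
        have e2 : x - Real.log (nm k₁) - Real.log (nm k₂) + 3 * Real.log (nm D₁) +
            3 * Real.log (nm D₂) = x + 3 * Real.log (nm D₁) + 3 * Real.log (nm D₂) -
              Real.log (nm k₁) - Real.log (nm k₂) := by ring
        rw [e2]
        unfold cc Vp
        push_cast
        simp only [map_mul, Complex.conj_conj]
        ring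
      · rw [if_neg h, if_neg (fun h' => h ⟨h'.1.2, h'.2.2⟩)]
        simp
    · rw [if_neg hf]
      symm
      apply Finset.sum_eq_zero
      intro D₁ _
      apply Finset.sum_eq_zero
      intro D₂ _
      rw [if_neg (fun h' => hf ⟨h'.1.1, h'.2.1⟩), mul_zero]
  simp_rw [e1]
  rw [Finset.sum_congr rfl fun k₁ _ => Finset.sum_comm, Finset.sum_comm, Finset.mul_sum]
  refine Finset.sum_congr rfl fun D₁ _ => ?_
  rw [Finset.sum_congr rfl fun k₁ _ => Finset.sum_comm, Finset.sum_comm, Finset.mul_sum]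
  refine Finset.sum_congr rfl fun D₂ _ => ?_
  rw [Finset.mul_sum, Finset.mul_sum]
  refine Finset.sum_congr rfl fun k₁ _ => ?_
  rw [Finset.mul_sum, Finset.mul_sum]
  refine Finset.sum_congr rfl fun k₂ _ => ?_
  ring

end Crest.Agent.R017.E1551
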