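import Crest.Agent.R017.E1g_551
import Crest.Agent.R017.CM1_106

/-!
# Row 17, block C70 (exact square), leaf E1, part h (helper551): bound of the bilinear form

`norm_BT_le`.
-/

set_option autoImplicit false

noncomputable section

open Complex MeasureTheory
open scoped ComplexConjugate Classical

namespace Crest.Agent.R017.E1551

open Crest.Agent.R012 Crest.Agent.R012.Eis Crest.Agent.R012.MC
open Crest.Agent.R012.LS2 (S mem_S)
open Crest.Agent.R012.Mob705 (mu pdiv mem_pdiv mu_mul abs_mu_le_one)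
open Crest.Agent.R012.Tau671 (norm_sy_le)
open Crest.Agent.R012.Weight600 (osc norm_osc osc_add_right osc_neg_left continuous_osc_left pw
  osc_sub_right)
open Crest.Agent.R017.PX764 (cpS cpS_congr)
open Crest.Agent.R017.Dual2813 (S_of_dvd coprime_indicator sum_mult)
open Crest.Agent.R017.CM106 (TG TG_term norm_Gsy_le)

/-! ### the decay weight -/

/-- `(1+|t|)^(-A)` -/
def jb (A t : ℝ) : ℝ := (1 + |t|) ^ (-A)

lemma jb_pos (A t : ℝ) : 0 < jb A t := by unfold jb; positivity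

lemma jb_neg (A t : ℝ) : jb A (-t) = jb A t := by unfold jb; rw [abs_neg]

lemma continuous_jb (A : ℝ) : Continuous (jb A) := by
  unfold jb
  refine Continuous.rpow_const (by fun_prop) fun t => Or.inl ?_
  positivity

lemma integrable_jb {A : ℝ} (hA : 1 < A) : Integrable (jb A) := by
  have h := integrable_one_add_norm (E := ℝ) (μ := volume) (r := A) (by simpa using hA)
  refine h.congr (Filter.Eventually.of_forall fun t => ?_)
  simp only [jb, Real.norm_eq_abs]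

lemma integrable_jb_mul {A : ℝ} (hA : 1 < A) {f : ℝ → ℝ} (hf : Continuous f) {B : ℝ}
    (hB : ∀ t, |f t| ≤ B) : Integrable fun t => jb A t * f t := by
  refine ((integrable_jb hA).mul_const B).mono' ((continuous_jb A).mul hf).aestronglyMeasurable ?_
  refine Filter.Eventually.of_forall fun t => ?_
  rw [Real.norm_eq_abs, abs_mul, abs_of_pos (jb_pos A t)]
  exact mul_le_mul_of_nonneg_left (hB t) (jb_pos A t).le

/-- separating kernels for `T` -/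
structure KerH (T : ℝ → ℝ) (R A : ℝ) (M : ℝ → ℝ) : Prop where
  ker : ∀ z : ℝ, ∃ k : ℝ → ℂ, Continuous k ∧ Integrable k ∧
    (∀ t, ‖k t‖ ≤ M (Real.exp (-z / 3)) * jb A t) ∧
    ∀ u, |u| ≤ R → ((T (z - u) * Real.exp (-u / 2) : ℝ) : ℂ) = ∫ t, k t * osc t u

/-! ### the linear sums -/

/-- linear sums -/
def Uf (Y : ℝ) (α : Eis → ℂ) (d κ : Eis) (X' : ℝ) (f D : Eis) (t : ℝ) : ℂ :=
  ∑ k ∈ S Y, if f ∣ k ∧ D ∣ k then cc α d κ k * osc t (Real.log (nm k) - X') else 0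

lemma continuous_Uf (Y : ℝ) (α : Eis → ℂ) (d κ : Eis) (X' : ℝ) (f D : Eis) :
    Continuous (Uf Y α d κ X' f D) := by
  unfold Uf
  refine continuous_finsetSum _ fun k _ => ?_
  split_ifs
  · exact continuous_const.mul (continuous_osc_left _)
  · exact continuous_const

lemma norm_Uf_le (Y : ℝ) (α : Eis → ℂ) (d κ : Eis) (X' : ℝ) (f D : Eis) (t : ℝ) :
    ‖Uf Y α d κ X' f D t‖ ≤ ∑ k ∈ S Y, ‖cc α d κ k‖ := by
  unfold Uf
  refine (norm_sum_le _ _).trans (Finset.sum_le_sum fun k _ => ?_)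
  split_ifs
  · rw [norm_mul, norm_osc, mul_one]
  · rw [norm_zero]; exact norm_nonneg _

/-- mean square -/
def Ef (A Y : ℝ) (α : Eis → ℂ) (d κ : Eis) (X' : ℝ) (f D : Eis) : ℝ :=
  ∫ t, jb A t * ‖Uf Y α d κ X' f D t‖ ^ 2

lemma integrable_Ef {A : ℝ} (hA : 1 < A) (Y : ℝ) (α : Eis → ℂ) (d κ : Eis) (X' : ℝ) (f D : Eis) :
    Integrable fun t => jb A t * ‖Uf Y α d κ X' f D t‖ ^ 2 := by
  refine integrable_jb_mul hA (by have := continuous_Uf Y α d κ X' f D; fun_prop)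
    (B := (∑ k ∈ S Y, ‖cc α d κ k‖) ^ 2) fun t => ?_
  rw [abs_of_nonneg (by positivity)]
  exact pow_le_pow_left₀ (norm_nonneg _) (norm_Uf_le Y α d κ X' f D t) 2

lemma integrable_Ef' {A : ℝ} (hA : 1 < A) (Y : ℝ) (α : Eis → ℂ) (d κ : Eis) (X' : ℝ)
    (f D : Eis) : Integrable fun t => jb A t * ‖Uf Y α d κ X' f D (-t)‖ ^ 2 := by
  have h := (integrable_Ef hA Y α d κ X' f D).comp_neg
  refine h.congr (Filter.Eventually.of_forall fun t => ?_)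
  simp only [jb_neg]

lemma Ef_neg (A Y : ℝ) (α : Eis → ℂ) (d κ : Eis) (X' : ℝ) (f D : Eis) :
    ∫ t, jb A t * ‖Uf Y α d κ X' f D (-t)‖ ^ 2 = Ef A Y α d κ X' f D := by
  unfold Ef
  rw [← integral_neg_eq_self (μ := volume) (fun t => jb A t * ‖Uf Y α d κ X' f D t‖ ^ 2)]
  refine integral_congr_ae (Filter.Eventually.of_forall fun t => ?_)
  simp only [jb_neg]

lemma Ef_nonneg (A Y : ℝ) (α : Eis → ℂ) (d κ : Eis) (X' : ℝ) (f D : Eis) :
    0 ≤ Ef A Y α d κ X' f D := by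
  unfold Ef
  exact integral_nonneg fun t => mul_nonneg (jb_pos A t).le (by positivity)

/-- support condition: `α (d k) ≠ 0` implies `|log N(k) - X'| ≤ R/2` -/
def SupC (Y R : ℝ) (α : Eis → ℂ) (d : Eis) (X' : ℝ) : Prop :=
  ∀ k ∈ S Y, α (d * k) ≠ 0 → |Real.log (nm k) - X'| ≤ R / 2

/-- one pair -/
lemma pair_eq {T : ℝ → ℝ} {R : ℝ} {Y : ℝ} (hY : 0 ≤ Y) {α : Eis → ℂ} {d κ : Eis} {X' x : ℝ}
    (hs : SupC Y R α d X') {D₁ D₂ k₁ k₂ : Eis} (h₁ : k₁ ∈ S Y) (h₂ : k₂ ∈ S Y) {k : ℝ → ℂ}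
    (hk : ∀ u, |u| ≤ R → ((T (x + 3 * Real.log (nm D₁) + 3 * Real.log (nm D₂) - 2 * X' - u) *
      Real.exp (-u / 2) : ℝ) : ℂ) = ∫ t, k t * osc t u) :
    (((Real.sqrt (nm k₁ * nm k₂))⁻¹ : ℝ) : ℂ) * (cc α d κ k₁ * conj (cc α d κ k₂)) *
      ((T (x + 3 * Real.log (nm D₁) + 3 * Real.log (nm D₂) - Real.log (nm k₁) -
        Real.log (nm k₂)) : ℝ) : ℂ) =
    ((Real.exp (-X') : ℝ) : ℂ) * ∫ t, k t * ((cc α d κ k₁ * osc t (Real.log (nm k₁) - X')) *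
      conj (cc α d κ k₂ * osc (-t) (Real.log (nm k₂) - X'))) := by
  by_cases a1 : α (d * k₁) = 0
  · have : cc α d κ k₁ = 0 := by unfold cc; rw [a1, zero_mul]
    simp [this]
  by_cases a2 : α (d * k₂) = 0
  · have : cc α d κ k₂ = 0 := by unfold cc; rw [a2, zero_mul]
    simp [this]
  have n1 := nmpos ((mem_S hY).1 h₁).2.1.ne_zero
  have n2 := nmpos ((mem_S hY).1 h₂).2.1.ne_zero
  set u1 := Real.log (nm k₁) - X' with hu1
  set u2 := Real.log (nm k₂) - X' with hu2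
  have b1 := hs k₁ h₁ a1
  have b2 := hs k₂ h₂ a2
  have hu : |u1 + u2| ≤ R := (abs_add_le _ _).trans (by linarith)
  have h3 := hk (u1 + u2) hu
  have e1 : ∀ t, k t * ((cc α d κ k₁ * osc t u1) * conj (cc α d κ k₂ * osc (-t) u2)) =
      (cc α d κ k₁ * conj (cc α d κ k₂)) * (k t * osc t (u1 + u2)) := by
    intro t
    rw [map_mul, osc_neg_left, Complex.conj_conj, osc_add_right]
    ring
  simp_rw [e1]
  rw [integral_const_mul, ← h3]
  have e2 : (Real.sqrt (nm k₁ * nm k₂))⁻¹ = Real.exp (-X') * Real.exp (-(u1 + u2) / 2) := by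
    rw [Real.sqrt_eq_rpow, ← Real.rpow_neg (by positivity), Real.rpow_def_of_pos (by positivity),
      Real.log_mul n1.ne' n2.ne', ← Real.exp_add]
    congr 1
    rw [hu1, hu2]; ring
  rw [e2]
  have e3 : x + 3 * Real.log (nm D₁) + 3 * Real.log (nm D₂) - Real.log (nm k₁) -
        Real.log (nm k₂) = x + 3 * Real.log (nm D₁) + 3 * Real.log (nm D₂) - 2 * X' -
          (u1 + u2) := by
    rw [hu1, hu2]; ring
  rw [e3]
  push_cast
  ring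

/-- the form with fixed divisors is an integral of products of linear sums -/
lemma Qf_eq {T : ℝ → ℝ} {R : ℝ} {Y : ℝ} (hY : 0 ≤ Y) {α : Eis → ℂ} {d κ : Eis} {X' x : ℝ}
    (hs : SupC Y R α d X') (f D₁ D₂ : Eis) {k : ℝ → ℂ} (hki : Integrable k)
    (hk : ∀ u, |u| ≤ R → ((T (x + 3 * Real.log (nm D₁) + 3 * Real.log (nm D₂) - 2 * X' - u) *
      Real.exp (-u / 2) : ℝ) : ℂ) = ∫ t, k t * osc t u) :
    Qf Y α d κ T x f D₁ D₂ = ((Real.exp (-X') : ℝ) : ℂ) *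
      ∫ t, k t * (Uf Y α d κ X' f D₁ t * conj (Uf Y α d κ X' f D₂ (-t))) := by
  set A1 : Eis → ℝ → ℂ := fun k₁ t => if f ∣ k₁ ∧ D₁ ∣ k₁ then
    cc α d κ k₁ * osc t (Real.log (nm k₁) - X') else 0 with hA1
  set A2 : Eis → ℝ → ℂ := fun k₂ t => if f ∣ k₂ ∧ D₂ ∣ k₂ then
    cc α d κ k₂ * osc t (Real.log (nm k₂) - X') else 0 with hA2
  have c1 : ∀ k₁, Continuous (A1 k₁) := by
    intro k₁
    simp only [hA1]
    split_ifs
    · exact continuous_const.mul (continuous_osc_left _)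
    · exact continuous_const
  have c2 : ∀ k₂, Continuous (A2 k₂) := by
    intro k₂
    simp only [hA2]
    split_ifs
    · exact continuous_const.mul (continuous_osc_left _)
    · exact continuous_const
  have n1 : ∀ k₁ t, ‖A1 k₁ t‖ ≤ ‖cc α d κ k₁‖ := by
    intro k₁ t
    simp only [hA1]
    split_ifs
    · rw [norm_mul, norm_osc, mul_one]
    · rw [norm_zero]; exact norm_nonneg _
  have n2 : ∀ k₂ t, ‖A2 k₂ t‖ ≤ ‖cc α d κ k₂‖ := by
    intro k₂ t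
    simp only [hA2]
    split_ifs
    · rw [norm_mul, norm_osc, mul_one]
    · rw [norm_zero]; exact norm_nonneg _
  have hint : ∀ k₁ k₂, Integrable fun t => k t * (A1 k₁ t * conj (A2 k₂ (-t))) := by
    intro k₁ k₂
    have hc : Continuous fun t => A1 k₁ t * conj (A2 k₂ (-t)) :=
      (c1 k₁).mul (Complex.continuous_conj.comp ((c2 k₂).comp continuous_neg))
    refine hki.mul_bdd (c := ‖cc α d κ k₁‖ * ‖cc α d κ k₂‖) hc.aestronglyMeasurable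
      (Filter.Eventually.of_forall fun t => ?_)
    rw [norm_mul, RCLike.norm_conj]
    exact mul_le_mul (n1 _ _) (n2 _ _) (norm_nonneg _) (norm_nonneg _)
  have e1 : ∀ t, k t * (Uf Y α d κ X' f D₁ t * conj (Uf Y α d κ X' f D₂ (-t))) =
      ∑ k₁ ∈ S Y, ∑ k₂ ∈ S Y, k t * (A1 k₁ t * conj (A2 k₂ (-t))) := by
    intro t
    unfold Uf
    rw [map_sum, Finset.sum_mul_sum, Finset.mul_sum]
    refine Finset.sum_congr rfl fun k₁ _ => ?_
    rw [Finset.mul_sum]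
  simp_rw [e1]
  rw [integral_finsetSum _ fun k₁ _ => integrable_finsetSum _ fun k₂ _ => hint k₁ k₂,
    Finset.mul_sum]
  unfold Qf
  refine Finset.sum_congr rfl fun k₁ h₁ => ?_
  rw [integral_finsetSum _ fun k₂ _ => hint k₁ k₂, Finset.mul_sum]
  refine Finset.sum_congr rfl fun k₂ h₂ => ?_
  by_cases hc : (f ∣ k₁ ∧ D₁ ∣ k₁) ∧ (f ∣ k₂ ∧ D₂ ∣ k₂)
  · rw [if_pos hc, pair_eq hY hs h₁ h₂ hk]
    simp only [hA1, hA2, if_pos hc.1, if_pos hc.2]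
  · rw [if_neg hc]
    have : ∀ t, k t * (A1 k₁ t * conj (A2 k₂ (-t))) = 0 := by
      intro t
      simp only [hA1, hA2]
      by_cases h3 : f ∣ k₁ ∧ D₁ ∣ k₁
      · rw [if_neg (fun h4 : f ∣ k₂ ∧ D₂ ∣ k₂ => hc ⟨h3, h4⟩)]; simp
      · rw [if_neg h3]; simp
    simp_rw [this]
    simp

lemma norm_Qf_le {T M : ℝ → ℝ} {R A : ℝ} (hA : 1 < A) (hT : KerH T R A M)
    (hM : ∀ s, 0 < s → 0 ≤ M s) {Y : ℝ} (hY : 0 ≤ Y)
    {α : Eis → ℂ} {d κ : Eis} {X' x : ℝ} (hs : SupC Y R α d X') {f D₁ D₂ : Eis}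
    (h₁ : D₁ ≠ 0) (h₂ : D₂ ≠ 0) {ρ : ℝ} (hρ : 0 < ρ) :
    ‖Qf Y α d κ T x f D₁ D₂‖ ≤ Real.exp (-X') *
      (M (Real.exp (-(x - 2 * X') / 3) / (nm D₁ * nm D₂)) * (1 / 2) *
        (ρ * Ef A Y α d κ X' f D₁ + ρ⁻¹ * Ef A Y α d κ X' f D₂)) := by
  obtain ⟨k, hk1, hk2, hk3, hk4⟩ := hT.ker (x + 3 * Real.log (nm D₁) + 3 * Real.log (nm D₂) - 2 * X')
  rw [Qf_eq hY hs f D₁ D₂ hk2 hk4, norm_mul, Complex.norm_real, Real.norm_of_nonneg
    (Real.exp_pos _).le]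
  refine mul_le_mul_of_nonneg_left ?_ (Real.exp_pos _).le
  have e0 : Real.exp (-(x + 3 * Real.log (nm D₁) + 3 * Real.log (nm D₂) - 2 * X') / 3) =
      Real.exp (-(x - 2 * X') / 3) / (nm D₁ * nm D₂) := by
    have : -(x + 3 * Real.log (nm D₁) + 3 * Real.log (nm D₂) - 2 * X') / 3 =
      -(x - 2 * X') / 3 - (Real.log (nm D₁) + Real.log (nm D₂)) := by ring
    rw [this, Real.exp_sub, Real.exp_add, Real.exp_log (nmpos h₁), Real.exp_log (nmpos h₂)]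
  rw [e0] at hk3
  set M0 := M (Real.exp (-(x - 2 * X') / 3) / (nm D₁ * nm D₂)) with hM0
  have hM0' : 0 ≤ M0 := hM _ (div_pos (Real.exp_pos _) (mul_pos (nmpos h₁) (nmpos h₂)))
  have hi1 := integrable_Ef hA Y α d κ X' f D₁
  have hi2 := integrable_Ef' hA Y α d κ X' f D₂
  have hg : Integrable fun t => M0 * (1 / 2) *
      (ρ * (jb A t * ‖Uf Y α d κ X' f D₁ t‖ ^ 2) +
        ρ⁻¹ * (jb A t * ‖Uf Y α d κ X' f D₂ (-t)‖ ^ 2)) :=
    ((hi1.const_mul ρ).add (hi2.const_mul ρ⁻¹)).const_mul _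
  refine (norm_integral_le_of_norm_le hg (Filter.Eventually.of_forall fun t => ?_)).trans ?_
  · rw [norm_mul, norm_mul, RCLike.norm_conj]
    set a := ‖Uf Y α d κ X' f D₁ t‖
    set b := ‖Uf Y α d κ X' f D₂ (-t)‖
    have ha : 0 ≤ a := norm_nonneg _
    have hb : 0 ≤ b := norm_nonneg _
    have hab : a * b ≤ 1 / 2 * (ρ * a ^ 2 + ρ⁻¹ * b ^ 2) := by
      have h6 : 0 ≤ ρ * (a - ρ⁻¹ * b) ^ 2 := by positivity
      have h8 : ρ * ρ⁻¹ = 1 := mul_inv_cancel₀ hρ.ne'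
      have h7 : ρ * (a - ρ⁻¹ * b) ^ 2 = ρ * a ^ 2 - 2 * (a * b) + ρ⁻¹ * b ^ 2 := by
        linear_combination (-2 * (a * b) + ρ⁻¹ * b ^ 2) * h8
      linarith
    calc ‖k t‖ * (a * b) ≤ (M0 * jb A t) * (1 / 2 * (ρ * a ^ 2 + ρ⁻¹ * b ^ 2)) :=
          mul_le_mul (hk3 t) hab (by positivity) (mul_nonneg hM0' (jb_pos A t).le)
      _ = _ := by ring
  · rw [integral_const_mul, integral_add (hi1.const_mul ρ) (hi2.const_mul ρ⁻¹),
      integral_const_mul, integral_const_mul, Ef_neg]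
    exact le_of_eq rfl

/-! ### regrouping -/

/-- the mean square of the linear sum over multiples of `L` -/
def Wf (A : ℝ) (α : Eis → ℂ) (d κ L : Eis) : ℝ :=
  ∫ t, jb A t * ‖TG (fun m => α (d * (L * m)) * pw t (nm m)) (κ * L)‖ ^ 2

lemma Wf_nonneg (A : ℝ) (α : Eis → ℂ) (d κ L : Eis) : 0 ≤ Wf A α d κ L :=
  integral_nonneg fun t => mul_nonneg (jb_pos A t).le (by positivity)

lemma tg_fin {Y : ℝ} {α : Eis → ℂ} (hα : ∀ n, α n ≠ 0 → n ∈ S Y)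
    {d L : Eis} (hY : 0 ≤ Y) (hd : IsPrim d) (hL : IsPrim L) (t : ℝ) (l : Eis) :
    TG (fun m => α (d * (L * m)) * pw t (nm m)) l =
      ∑ m ∈ S Y, α (d * (L * m)) * pw t (nm m) * (G m * conj (sy l m)) := by
  unfold TG
  refine tsum_eq_sum fun m hm => ?_
  have : α (d * (L * m)) = 0 := by
    by_contra h
    have h1 := hα _ h
    have h2 := (mem_S hY).1 h1
    exact hm (S_of_dvd hY h1 (IsPrim.of_mul_left (IsPrim.of_mul_left h2.2.1 hd) hL)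
      ((dvd_mul_left m L).trans (dvd_mul_left _ d)))
  show α (d * (L * m)) * pw t (nm m) * (G m * conj (sy l m)) = 0
  rw [this]; simp

lemma continuous_pw' (x : ℝ) : Continuous fun t => pw t x := Weight600.continuous_pw_left x

lemma integrable_Wf {A : ℝ} (hA : 1 < A) {Y : ℝ} (hY : 0 ≤ Y) {α : Eis → ℂ}
    (hα : ∀ n, α n ≠ 0 → n ∈ S Y) {d L : Eis} (hd : IsPrim d) (hL : IsPrim L) (κ : Eis) :
    Integrable fun t => jb A t * ‖TG (fun m => α (d * (L * m)) * pw t (nm m)) (κ * L)‖ ^ 2 := by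
  have hc : Continuous fun t => TG (fun m => α (d * (L * m)) * pw t (nm m)) (κ * L) := by
    have : (fun t => TG (fun m => α (d * (L * m)) * pw t (nm m)) (κ * L)) = fun t =>
        ∑ m ∈ S Y, α (d * (L * m)) * pw t (nm m) * (G m * conj (sy (κ * L) m)) := by
      funext t; exact tg_fin hα hY hd hL t _
    rw [this]
    refine continuous_finsetSum _ fun m _ => ?_
    exact (continuous_const.mul (continuous_pw' _)).mul continuous_const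
  refine integrable_jb_mul hA (by fun_prop)
    (B := (∑ m ∈ S Y, ‖α (d * (L * m))‖) ^ 2) fun t => ?_
  rw [abs_of_nonneg (by positivity)]
  refine pow_le_pow_left₀ (norm_nonneg _) ?_ 2
  rw [tg_fin hα hY hd hL t]
  refine (norm_sum_le _ _).trans (Finset.sum_le_sum fun m hm => ?_)
  rw [norm_mul, norm_mul, Weight600.norm_pw, mul_one]
  exact mul_le_of_le_one_right (norm_nonneg _) (norm_Gsy_le ((mem_S hY).1 hm).2.1)

/-- the trivial bound -/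
lemma Wf_le {A : ℝ} (hA : 1 < A) {Y : ℝ} (hY : 0 ≤ Y) {α : Eis → ℂ}
    (hα : ∀ n, α n ≠ 0 → n ∈ S Y) {d L : Eis} (hd : IsPrim d) (hL : IsPrim L) (κ : Eis) :
    Wf A α d κ L ≤ (∫ t, jb A t) * (∑ m ∈ S Y, ‖α (d * (L * m))‖) ^ 2 := by
  unfold Wf
  rw [← integral_mul_const]
  refine integral_mono (integrable_Wf hA hY hα hd hL κ) ((integrable_jb hA).mul_const _)
    fun t => ?_
  refine mul_le_mul_of_nonneg_left ?_ (jb_pos A t).le
  refine pow_le_pow_left₀ (norm_nonneg _) ?_ 2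
  rw [tg_fin hα hY hd hL t]
  refine (norm_sum_le _ _).trans (Finset.sum_le_sum fun m hm => ?_)
  rw [norm_mul, norm_mul, Weight600.norm_pw, mul_one]
  exact mul_le_of_le_one_right (norm_nonneg _) (norm_Gsy_le ((mem_S hY).1 hm).2.1)

lemma exists_lcm {f D : Eis} (hf : IsPrim f) (hD : IsPrim D) :
    ∃ L, IsPrim L ∧ ∀ k, L ∣ k ↔ f ∣ k ∧ D ∣ k := by
  have h1 : ¬ lam ∣ EuclideanDomain.lcm f D := by
    intro h
    have h2 : EuclideanDomain.lcm f D ∣ f * D :=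
      EuclideanDomain.lcm_dvd (dvd_mul_right _ _) (dvd_mul_left _ _)
    exact Div277.not_lam_dvd_of_dvd_isPrim (hf.mul hD) (h.trans h2) dvd_rfl
  obtain ⟨L, hL, ha⟩ := exists_isPrim_associated h1
  refine ⟨L, hL, fun k => ?_⟩
  rw [← ha.dvd_iff_dvd_left, EuclideanDomain.lcm_dvd_iff]

lemma Ef_le {A : ℝ} (hA : 1 < A) {Y : ℝ} (hY : 0 ≤ Y) {α : Eis → ℂ}
    (hα : ∀ n, α n ≠ 0 → n ∈ S Y) {d κ f D L : Eis} (hd : IsPrim d) (hL : IsPrim L)
    (hLk : ∀ k, L ∣ k ↔ f ∣ k ∧ D ∣ k) (X' : ℝ) :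
    Ef A Y α d κ X' f D ≤ Wf A α d κ L := by
  unfold Ef Wf
  refine integral_mono (integrable_Ef hA Y α d κ X' f D) (integrable_Wf hA hY hα hd hL κ)
    fun t => ?_
  refine mul_le_mul_of_nonneg_left ?_ (jb_pos A t).le
  refine pow_le_pow_left₀ (norm_nonneg _) ?_ 2
  have hz : ∀ k, k ∉ S Y → α (d * k) = 0 := by
    intro k hk
    by_contra h
    have h1 := hα _ h
    have h2 := (mem_S hY).1 h1
    exact hk (S_of_dvd hY h1 (IsPrim.of_mul_left h2.2.1 hd) (dvd_mul_left _ d))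
  have e1 : Uf Y α d κ X' f D t = ∑ m ∈ S Y, cc α d κ (L * m) *
      osc t (Real.log (nm (L * m)) - X') := by
    unfold Uf
    rw [← sum_mult hY hL (fun k => cc α d κ k * osc t (Real.log (nm k) - X'))]
    · refine Finset.sum_congr rfl fun k _ => ?_
      simp only [hLk]
    · intro k hk
      unfold cc
      rw [hz k hk]; simp
  have e2 : Uf Y α d κ X' f D t = (G L * conj (sy κ L)) * osc t (Real.log (nm L) - X') *
      TG (fun m => α (d * (L * m)) * pw t (nm m)) (κ * L) := by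
    rw [e1, tg_fin hα hY hd hL, Finset.mul_sum]
    refine Finset.sum_congr rfl fun m hm => ?_
    have hm' := ((mem_S hY).1 hm).2.1
    unfold cc
    rw [TG_term hL hm', nm_mul]
    push_cast
    rw [Real.log_mul (nmpos hL.ne_zero).ne' (nmpos hm'.ne_zero).ne']
    have : Real.log (nm L) + Real.log (nm m) - X' = (Real.log (nm L) - X') + Real.log (nm m) := by
      ring
    rw [this, osc_add_right]
    unfold pw
    ring
  rw [e2, norm_mul, norm_mul, norm_osc, mul_one]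
  calc ‖G L * conj (sy κ L)‖ * ‖TG (fun m => α (d * (L * m)) * pw t (nm m)) (κ * L)‖
      ≤ 1 * _ := mul_le_mul_of_nonneg_right (norm_Gsy_le hL) (norm_nonneg _)
    _ = _ := one_mul _

lemma Ef_zero {A : ℝ} {Y : ℝ} {α : Eis → ℂ} {d κ f D : Eis}
    (h : ∀ k ∈ S Y, ¬ (f ∣ k ∧ D ∣ k)) (X' : ℝ) : Ef A Y α d κ X' f D = 0 := by
  unfold Ef
  have : ∀ t, Uf Y α d κ X' f D t = 0 := by
    intro t
    unfold Uf
    exact Finset.sum_eq_zero fun k hk => if_neg (h k hk)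
  simp_rw [this]
  simp

/-- regrouping of the divisors -/
theorem regroup {A : ℝ} (hA : 1 < A) {Y : ℝ} (hY : 0 ≤ Y) {α : Eis → ℂ}
    (hα : ∀ n, α n ≠ 0 → n ∈ S Y) {d κ : Eis} (hd : IsPrim d) (X' : ℝ) {Ω : ℝ → ℝ}
    (hΩ0 : ∀ y, 1 ≤ y → 0 ≤ Ω y) (hΩ : ∀ y y', 1 ≤ y → y ≤ y' → Ω y ≤ Ω y') :
    ∑ f ∈ S Y, ∑ D ∈ S Y, Ω (nm D) * Ef A Y α d κ X' f D ≤
      ∑ L ∈ S Y, (Div277.tau L : ℝ) ^ 2 * (Ω (nm L) * Wf A α d κ L) := by
  have one_le : ∀ {z : Eis}, IsPrim z → (1 : ℝ) ≤ nm z := fun hz => by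
    exact_mod_cast nm_pos.mpr hz.ne_zero
  have hW : ∀ L ∈ S Y, 0 ≤ Ω (nm L) * Wf A α d κ L := fun L hL =>
    mul_nonneg (hΩ0 _ (one_le ((mem_S hY).1 hL).2.1)) (Wf_nonneg _ _ _ _ _)
  have h1 : ∀ f ∈ S Y, ∀ D ∈ S Y, Ω (nm D) * Ef A Y α d κ X' f D ≤
      ∑ L ∈ S Y, if f ∣ L ∧ D ∣ L then Ω (nm L) * Wf A α d κ L else 0 := by
    intro f hf D hD
    have hnn : 0 ≤ ∑ L ∈ S Y, if f ∣ L ∧ D ∣ L then Ω (nm L) * Wf A α d κ L else 0 :=
      Finset.sum_nonneg fun L hL => by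
        split_ifs
        · exact hW L hL
        · exact le_rfl
    obtain ⟨L, hL, hLk⟩ := exists_lcm ((mem_S hY).1 hf).2.1 ((mem_S hY).1 hD).2.1
    by_cases hex : ∃ k ∈ S Y, f ∣ k ∧ D ∣ k
    · obtain ⟨k, hk, hfk⟩ := hex
      have hLS : L ∈ S Y := S_of_dvd hY hk hL ((hLk k).2 hfk)
      have hfL := (hLk L).1 dvd_rfl
      refine le_trans ?_ (Finset.single_le_sum (f := fun L => if f ∣ L ∧ D ∣ L then
        Ω (nm L) * Wf A α d κ L else 0) (fun L' hL' => by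
          show 0 ≤ if f ∣ L' ∧ D ∣ L' then Ω (nm L') * Wf A α d κ L' else 0
          split_ifs
          · exact hW L' hL'
          · exact le_rfl) hLS)
      show _ ≤ if f ∣ L ∧ D ∣ L then Ω (nm L) * Wf A α d κ L else 0
      rw [if_pos hfL]
      have hD1 := one_le ((mem_S hY).1 hD).2.1
      have hDL : (nm D : ℝ) ≤ nm L := by exact_mod_cast Div277.nm_le_of_dvd hL.ne_zero hfL.2
      exact mul_le_mul (hΩ _ _ hD1 hDL) (Ef_le hA hY hα hd hL hLk X') (Ef_nonneg _ _ _ _ _ _ _ _)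
        (hΩ0 _ (one_le hL))
    · rw [Ef_zero (fun k hk h => hex ⟨k, hk, h⟩), mul_zero]
      exact hnn
  calc ∑ f ∈ S Y, ∑ D ∈ S Y, Ω (nm D) * Ef A Y α d κ X' f D
      ≤ ∑ f ∈ S Y, ∑ D ∈ S Y, ∑ L ∈ S Y, if f ∣ L ∧ D ∣ L then Ω (nm L) * Wf A α d κ L else 0 :=
        Finset.sum_le_sum fun f hf => Finset.sum_le_sum fun D hD => h1 f hf D hD
    _ = ∑ L ∈ S Y, ∑ f ∈ S Y, ∑ D ∈ S Y, if f ∣ L ∧ D ∣ L then Ω (nm L) * Wf A α d κ L else 0 := by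
        rw [Finset.sum_congr rfl fun f _ => Finset.sum_comm, Finset.sum_comm]
    _ = ∑ L ∈ S Y, (Div277.tau L : ℝ) ^ 2 * (Ω (nm L) * Wf A α d κ L) := by
        refine Finset.sum_congr rfl fun L hL => ?_
        have e1 : ∀ f ∈ S Y, ∀ D ∈ S Y, (if f ∣ L ∧ D ∣ L then Ω (nm L) * Wf A α d κ L else 0) =
            (if f ∣ L then (1 : ℝ) else 0) * ((if D ∣ L then (1 : ℝ) else 0) *
              (Ω (nm L) * Wf A α d κ L)) := by
          intro f _ D _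
          by_cases a : f ∣ L
          · by_cases b : D ∣ L
            · rw [if_pos ⟨a, b⟩, if_pos a, if_pos b]; ring
            · rw [if_neg (fun h => b h.2), if_pos a, if_neg b]; ring
          · rw [if_neg (fun h => a h.1), if_neg a]; ring
        rw [Finset.sum_congr rfl fun f hf => Finset.sum_congr rfl fun D hD => e1 f hf D hD]
        have e2 : ∑ D ∈ S Y, (if D ∣ L then (1 : ℝ) else 0) = Div277.tau L := by
          rw [← sum_pdiv_S hY hL (fun _ => (1 : ℝ))]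
          rw [Finset.sum_const, nsmul_eq_mul, mul_one]
          rfl
        simp_rw [← Finset.mul_sum, ← Finset.sum_mul]
        rw [e2]
        ring

/-! ### the bound of the bilinear form -/

lemma nm_ge_one {z : Eis} (h : z ≠ 0) : (1 : ℝ) ≤ nm z := by exact_mod_cast nm_pos.mpr h

lemma sum_inv_S551 {Y : ℝ} (hY : 1 ≤ Y) : ∑ D ∈ S Y, (1 / (nm D : ℝ)) ≤ 100 * (1 + Real.log Y) := by
  refine (Finset.sum_le_sum_of_subset_of_nonneg (t := primBall ⌊Y⌋₊) (Finset.filter_subset _ _)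
    fun _ _ _ => by positivity).trans ((Div277.sum_inv_primBall_le _).trans ?_)
  refine mul_le_mul_of_nonneg_left ?_ (by norm_num)
  have h1 : (1 : ℝ) ≤ ⌊Y⌋₊ := by exact_mod_cast Nat.le_floor (by simpa using hY)
  have := Real.log_le_log (by linarith) (Nat.floor_le (by linarith : (0:ℝ) ≤ Y))
  linarith

/-- **The bilinear form of one class.** -/
theorem norm_BT_le {T M : ℝ → ℝ} {R A : ℝ} (hA : 1 < A) (hT : KerH T R A M)
    (hM : ∀ s, 0 < s → 0 ≤ M s) {ρ Ω : ℝ → ℝ → ℝ}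
    (hρ0 : ∀ y n, 1 ≤ y → 1 ≤ n → 0 < ρ y n) (hρ : ∀ y n, 1 ≤ y → 1 ≤ n → ρ y n * ρ n y = 1)
    (hΩ0 : ∀ y l, 1 ≤ y → 0 < l → 0 ≤ Ω y l)
    (hΩm : ∀ y y' l, 1 ≤ y → y ≤ y' → 0 < l → Ω y l ≤ Ω y' l)
    (hΩ : ∀ l y n, 0 < l → 1 ≤ y → 1 ≤ n → M (l / (y * n)) * ρ y n ≤ Ω y l / n)
    {Y : ℝ} (hY : 1 ≤ Y) {α : Eis → ℂ} (hα : ∀ n, α n ≠ 0 → n ∈ S Y) {d κ : Eis} (hd : IsPrim d)
    {X' x : ℝ} (hs : SupC Y R α d X') :
    ‖BT Y α d κ T x‖ ≤ Real.exp (-X') * (100 * (1 + Real.log Y)) *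
      ∑ L ∈ S Y, (Div277.tau L : ℝ) ^ 2 *
        (Ω (nm L) (Real.exp (-(x - 2 * X') / 3)) * Wf A α d κ L) := by
  have hY0 : 0 ≤ Y := by linarith
  set l := Real.exp (-(x - 2 * X') / 3) with hl
  have hl0 : 0 < l := Real.exp_pos _
  rw [BT_eq hY0]
  have pr : ∀ {z : Eis}, z ∈ S Y → (1 : ℝ) ≤ nm z := fun hz =>
    nm_ge_one ((mem_S hY0).1 hz).2.1.ne_zero
  have h1 : ∀ f ∈ S Y, ∀ D₁ ∈ S Y, ∀ D₂ ∈ S Y,
      ‖(mu f : ℂ) * ((mu D₁ : ℂ) * (mu D₂ : ℂ)) * Qf Y α d κ T x f D₁ D₂‖ ≤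
        Real.exp (-X') * (1 / 2 * (Ω (nm D₁) l * Ef A Y α d κ X' f D₁ * (1 / nm D₂) +
          Ω (nm D₂) l * Ef A Y α d κ X' f D₂ * (1 / nm D₁))) := by
    intro f hf D₁ h₁ D₂ h₂
    have hmu : ∀ z : Eis, ‖(mu z : ℂ)‖ ≤ 1 := by
      intro z
      have := abs_mu_le_one z
      rw [Complex.norm_intCast]
      exact_mod_cast this
    have hm : ‖(mu f : ℂ) * ((mu D₁ : ℂ) * (mu D₂ : ℂ))‖ ≤ 1 := by
      rw [norm_mul, norm_mul]
      exact mul_le_one₀ (hmu _) (by positivity) (mul_le_one₀ (hmu _) (norm_nonneg _) (hmu _))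
    rw [norm_mul]
    refine (mul_le_of_le_one_left (norm_nonneg _) hm).trans ?_
    have y1 := pr h₁
    have y2 := pr h₂
    refine (norm_Qf_le hA hT hM hY0 hs (nm_pos.mp (by exact_mod_cast (by linarith : (0:ℝ) < nm D₁)))
      (nm_pos.mp (by exact_mod_cast (by linarith : (0:ℝ) < nm D₂)))
      (hρ0 (nm D₁) (nm D₂) y1 y2)).trans ?_
    refine mul_le_mul_of_nonneg_left ?_ (Real.exp_pos _).le
    have hinv : (ρ (nm D₁) (nm D₂))⁻¹ = ρ (nm D₂) (nm D₁) :=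
      inv_eq_of_mul_eq_one_right (hρ _ _ y1 y2)
    rw [hinv, ← hl]
    have a1 := hΩ l (nm D₁) (nm D₂) hl0 y1 y2
    have a2 := hΩ l (nm D₂) (nm D₁) hl0 y2 y1
    rw [mul_comm (nm D₂ : ℝ) (nm D₁ : ℝ)] at a2
    have E1 := Ef_nonneg A Y α d κ X' f D₁
    have E2 := Ef_nonneg A Y α d κ X' f D₂
    have b1 := mul_le_mul_of_nonneg_right a1 E1
    have b2 := mul_le_mul_of_nonneg_right a2 E2
    calc _ = 1 / 2 * (M (l / (nm D₁ * nm D₂)) * ρ (nm D₁) (nm D₂) * Ef A Y α d κ X' f D₁ +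
          M (l / (nm D₁ * nm D₂)) * ρ (nm D₂) (nm D₁) * Ef A Y α d κ X' f D₂) := by ring
      _ ≤ 1 / 2 * (Ω (nm D₁) l / nm D₂ * Ef A Y α d κ X' f D₁ +
          Ω (nm D₂) l / nm D₁ * Ef A Y α d κ X' f D₂) := by linarith
      _ = _ := by ring
  refine (norm_sum_le _ _).trans ((Finset.sum_le_sum fun f hf => (norm_sum_le _ _).trans
    (Finset.sum_le_sum fun D₁ h₁ => (norm_sum_le _ _).trans (Finset.sum_le_sum fun D₂ h₂ =>
      h1 f hf D₁ h₁ D₂ h₂))).trans ?_)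
  have h3 := regroup hA hY0 hα (κ := κ) hd X' (Ω := fun y => Ω y l)
    (fun y hy => hΩ0 y l hy hl0) (fun y y' hy hyy => hΩm y y' l hy hyy hl0)
  have h4 := sum_inv_S551 hY
  set Z : ℝ := ∑ D ∈ S Y, (1 / (nm D : ℝ)) with hZ
  have hZ0 : 0 ≤ Z := Finset.sum_nonneg fun _ _ => by positivity
  have e1 : ∑ f ∈ S Y, ∑ D₁ ∈ S Y, ∑ D₂ ∈ S Y,
      Real.exp (-X') * (1 / 2 * (Ω (nm D₁) l * Ef A Y α d κ X' f D₁ * (1 / nm D₂) +
          Ω (nm D₂) l * Ef A Y α d κ X' f D₂ * (1 / nm D₁))) =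
      Real.exp (-X') * (Z * ∑ f ∈ S Y, ∑ D ∈ S Y, Ω (nm D) l * Ef A Y α d κ X' f D) := by
    rw [Finset.mul_sum, Finset.mul_sum]
    refine Finset.sum_congr rfl fun f _ => ?_
    have e2 : ∑ D₁ ∈ S Y, ∑ D₂ ∈ S Y, Ω (nm D₁) l * Ef A Y α d κ X' f D₁ * (1 / (nm D₂ : ℝ)) =
        Z * ∑ D ∈ S Y, Ω (nm D) l * Ef A Y α d κ X' f D := by
      rw [mul_comm, Finset.sum_mul]
      refine Finset.sum_congr rfl fun D₁ _ => ?_
      rw [hZ, Finset.mul_sum]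
    have e3 : ∑ D₁ ∈ S Y, ∑ D₂ ∈ S Y, Ω (nm D₂) l * Ef A Y α d κ X' f D₂ * (1 / (nm D₁ : ℝ)) =
        Z * ∑ D ∈ S Y, Ω (nm D) l * Ef A Y α d κ X' f D := by
      rw [Finset.sum_comm]; exact e2
    have e4 : ∀ D₁ D₂ : Eis, Real.exp (-X') * (1 / 2 * (Ω (nm D₁) l * Ef A Y α d κ X' f D₁ *
        (1 / nm D₂) + Ω (nm D₂) l * Ef A Y α d κ X' f D₂ * (1 / nm D₁))) =
        Real.exp (-X') * (1 / 2) * (Ω (nm D₁) l * Ef A Y α d κ X' f D₁ * (1 / nm D₂)) +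
        Real.exp (-X') * (1 / 2) * (Ω (nm D₂) l * Ef A Y α d κ X' f D₂ * (1 / nm D₁)) := by
      intro D₁ D₂; ring
    simp_rw [e4, Finset.sum_add_distrib, ← Finset.mul_sum]
    simp_rw [← Finset.mul_sum] at e2 e3
    rw [e2, e3]
    ring
  rw [e1, mul_assoc]
  refine mul_le_mul_of_nonneg_left ?_ (Real.exp_pos _).le
  refine mul_le_mul h4 h3 ?_ (hZ0.trans h4)
  refine Finset.sum_nonneg fun f hf => Finset.sum_nonneg fun D hD => ?_
  exact mul_nonneg (hΩ0 _ _ (pr hD) hl0) (Ef_nonneg _ _ _ _ _ _ _ _)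

/-! ### the refined bound: the term `f = D₁ = D₂ = 1` is kept -/

/-- regrouping with a small factor at `L = 1` -/
theorem regroup' {A : ℝ} (hA : 1 < A) {Y : ℝ} (hY : 1 ≤ Y) {α : Eis → ℂ}
    (hα : ∀ n, α n ≠ 0 → n ∈ S Y) {d κ : Eis} (hd : IsPrim d) (X' : ℝ) {Ω : ℝ → ℝ}
    (hΩ0 : ∀ y, 1 ≤ y → 0 ≤ Ω y) (hΩ : ∀ y y', 1 ≤ y → y ≤ y' → Ω y ≤ Ω y')
    {δ : ℝ} (hδ : 0 < δ) :
    ∑ f ∈ S Y, ∑ D ∈ S Y, (if f = 1 ∧ D = 1 then δ else δ⁻¹) *
        (Ω (nm D) * Ef A Y α d κ X' f D) ≤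
      δ * (Ω 1 * Wf A α d κ 1) + δ⁻¹ * ∑ L ∈ (S Y).erase 1,
        (Div277.tau L : ℝ) ^ 2 * (Ω (nm L) * Wf A α d κ L) := by
  have hY0 : 0 ≤ Y := by linarith
  have hδi : 0 < δ⁻¹ := inv_pos.mpr hδ
  have p1 : IsPrim (1 : Eis) := isPrim_one
  have h1S : (1 : Eis) ∈ S Y := (mem_S hY0).2 ⟨by rw [nm_one]; exact_mod_cast hY, p1,
    squarefree_one⟩
  have hW : ∀ L ∈ S Y, 0 ≤ Ω (nm L) * Wf A α d κ L := fun L hL =>
    mul_nonneg (hΩ0 _ (nm_ge_one ((mem_S hY0).1 hL).2.1.ne_zero)) (Wf_nonneg _ _ _ _ _)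
  have prdvd : ∀ {f : Eis}, IsPrim f → f ∣ 1 → f = 1 := fun hf h =>
    hf.eq_of_associated p1 (associated_one_iff_isUnit.mpr (isUnit_of_dvd_one h))
  have h1 : ∀ f ∈ S Y, ∀ D ∈ S Y, (if f = 1 ∧ D = 1 then δ else δ⁻¹) *
      (Ω (nm D) * Ef A Y α d κ X' f D) ≤
      (if f = 1 then (if D = 1 then δ * (Ω 1 * Wf A α d κ 1) else 0) else 0) +
      δ⁻¹ * ∑ L ∈ (S Y).erase 1, if f ∣ L ∧ D ∣ L then Ω (nm L) * Wf A α d κ L else 0 := by
    intro f hf D hD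
    have hnn : 0 ≤ ∑ L ∈ (S Y).erase 1, if f ∣ L ∧ D ∣ L then Ω (nm L) * Wf A α d κ L else 0 :=
      Finset.sum_nonneg fun L hL => by
        split_ifs
        · exact hW L (Finset.mem_of_mem_erase hL)
        · exact le_rfl
    have hf' := ((mem_S hY0).1 hf).2.1
    have hD' := ((mem_S hY0).1 hD).2.1
    by_cases h11 : f = 1 ∧ D = 1
    · rw [if_pos h11, if_pos h11.1, if_pos h11.2]
      have e1 : Ω (nm D) * Ef A Y α d κ X' f D ≤ Ω 1 * Wf A α d κ 1 := by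
        rw [h11.1, h11.2, nm_one]
        push_cast
        refine mul_le_mul_of_nonneg_left (Ef_le hA hY0 hα hd p1 (fun k => ?_) X')
          (hΩ0 1 le_rfl)
        simp
      have := mul_le_mul_of_nonneg_left e1 hδ.le
      have h9 := mul_nonneg hδi.le hnn
      linarith
    · rw [if_neg h11]
      have e0 : (0 : ℝ) ≤ (if f = 1 then (if D = 1 then δ * (Ω 1 * Wf A α d κ 1) else 0) else 0) := by
        split_ifs
        · have := hW 1 h1S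
          rw [nm_one] at this
          push_cast at this
          positivity
        · exact le_rfl
        · exact le_rfl
      refine le_trans ?_ (le_add_of_nonneg_left e0)
      refine mul_le_mul_of_nonneg_left ?_ hδi.le
      obtain ⟨L, hL, hLk⟩ := exists_lcm hf' hD'
      by_cases hex : ∃ k ∈ S Y, f ∣ k ∧ D ∣ k
      · obtain ⟨k, hk, hfk⟩ := hex
        have hLS : L ∈ S Y := S_of_dvd hY0 hk hL ((hLk k).2 hfk)
        have hfL := (hLk L).1 dvd_rfl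
        have hL1 : L ≠ 1 := by
          intro h
          rw [h] at hfL
          exact h11 ⟨prdvd hf' hfL.1, prdvd hD' hfL.2⟩
        refine le_trans ?_ (Finset.single_le_sum (f := fun L => if f ∣ L ∧ D ∣ L then
          Ω (nm L) * Wf A α d κ L else 0) (fun L' hL' => by
            show 0 ≤ if f ∣ L' ∧ D ∣ L' then Ω (nm L') * Wf A α d κ L' else 0
            split_ifs
            · exact hW L' (Finset.mem_of_mem_erase hL')
            · exact le_rfl) (Finset.mem_erase.mpr ⟨hL1, hLS⟩))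
        show _ ≤ if f ∣ L ∧ D ∣ L then Ω (nm L) * Wf A α d κ L else 0
        rw [if_pos hfL]
        have hDL : (nm D : ℝ) ≤ nm L := by exact_mod_cast Div277.nm_le_of_dvd hL.ne_zero hfL.2
        exact mul_le_mul (hΩ _ _ (nm_ge_one hD'.ne_zero) hDL) (Ef_le hA hY0 hα hd hL hLk X')
          (Ef_nonneg _ _ _ _ _ _ _ _) (hΩ0 _ (nm_ge_one hL.ne_zero))
      · rw [Ef_zero (fun k hk h => hex ⟨k, hk, h⟩), mul_zero]
        exact hnn
  refine (Finset.sum_le_sum fun f hf => Finset.sum_le_sum fun D hD => h1 f hf D hD).trans ?_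
  simp_rw [Finset.sum_add_distrib, ← Finset.mul_sum]
  have e3 : ∑ f ∈ S Y, ∑ D ∈ S Y, (if f = 1 then (if D = 1 then δ * (Ω 1 * Wf A α d κ 1) else 0)
      else 0) = δ * (Ω 1 * Wf A α d κ 1) := by
    rw [Finset.sum_eq_single_of_mem 1 h1S (fun f _ hf => by simp [hf])]
    simp only [if_true]
    rw [Finset.sum_eq_single_of_mem 1 h1S (fun D _ hD => by simp [hD])]
    simp
  rw [e3]
  refine add_le_add le_rfl (mul_le_mul_of_nonneg_left (le_of_eq ?_) hδi.le)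
  rw [Finset.sum_congr rfl fun f _ => Finset.sum_comm, Finset.sum_comm]
  refine Finset.sum_congr rfl fun L hL' => ?_
  have hL := Finset.mem_of_mem_erase hL'
  have e1 : ∀ f ∈ S Y, ∀ D ∈ S Y, (if f ∣ L ∧ D ∣ L then Ω (nm L) * Wf A α d κ L else 0) =
      (if f ∣ L then (1 : ℝ) else 0) * ((if D ∣ L then (1 : ℝ) else 0) *
        (Ω (nm L) * Wf A α d κ L)) := by
    intro f _ D _
    by_cases a : f ∣ L
    · by_cases b : D ∣ L
      · rw [if_pos ⟨a, b⟩, if_pos a, if_pos b]; ring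
      · rw [if_neg (fun h => b h.2), if_pos a, if_neg b]; ring
    · rw [if_neg (fun h => a h.1), if_neg a]; ring
  rw [Finset.sum_congr rfl fun f hf => Finset.sum_congr rfl fun D hD => e1 f hf D hD]
  have e2 : ∑ D ∈ S Y, (if D ∣ L then (1 : ℝ) else 0) = Div277.tau L := by
    rw [← sum_pdiv_S hY0 hL (fun _ => (1 : ℝ))]
    rw [Finset.sum_const, nsmul_eq_mul, mul_one]
    rfl
  simp_rw [← Finset.mul_sum, ← Finset.sum_mul]
  rw [e2]
  ring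

/-- **The bilinear form of one class minus the exact quadratic form.** -/
theorem norm_BT_sub_le {T M : ℝ → ℝ} {R A : ℝ} (hA : 1 < A) (hT : KerH T R A M)
    (hM : ∀ s, 0 < s → 0 ≤ M s) {ρ Ω : ℝ → ℝ → ℝ}
    (hρ0 : ∀ y n, 1 ≤ y → 1 ≤ n → 0 < ρ y n) (hρ : ∀ y n, 1 ≤ y → 1 ≤ n → ρ y n * ρ n y = 1)
    (hΩ0 : ∀ y l, 1 ≤ y → 0 < l → 0 ≤ Ω y l)
    (hΩm : ∀ y y' l, 1 ≤ y → y ≤ y' → 0 < l → Ω y l ≤ Ω y' l)
    (hΩ : ∀ l y n, 0 < l → 1 ≤ y → 1 ≤ n → M (l / (y * n)) * ρ y n ≤ Ω y l / n)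
    {Y : ℝ} (hY : 1 ≤ Y) {α : Eis → ℂ} (hα : ∀ n, α n ≠ 0 → n ∈ S Y) {d κ : Eis} (hd : IsPrim d)
    {X' x : ℝ} (hs : SupC Y R α d X') {δ : ℝ} (hδ : 0 < δ) (hδ1 : δ ≤ 1) :
    ‖BT Y α d κ T x - Qf Y α d κ T x 1 1 1‖ ≤ Real.exp (-X') * (100 * (1 + Real.log Y)) *
      (δ * (Ω 1 (Real.exp (-(x - 2 * X') / 3)) * Wf A α d κ 1) +
        δ⁻¹ * ∑ L ∈ (S Y).erase 1, (Div277.tau L : ℝ) ^ 2 *
        (Ω (nm L) (Real.exp (-(x - 2 * X') / 3)) * Wf A α d κ L)) := by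
  have hY0 : 0 ≤ Y := by linarith
  have hδi : 0 < δ⁻¹ := inv_pos.mpr hδ
  have hδi1 : 1 ≤ δ⁻¹ := (one_le_inv₀ hδ).mpr hδ1
  set l := Real.exp (-(x - 2 * X') / 3) with hl
  have hl0 : 0 < l := Real.exp_pos _
  have p1 : IsPrim (1 : Eis) := isPrim_one
  have h1S : (1 : Eis) ∈ S Y := (mem_S hY0).2 ⟨by rw [nm_one]; exact_mod_cast hY, p1,
    squarefree_one⟩
  have pr : ∀ {z : Eis}, z ∈ S Y → (1 : ℝ) ≤ nm z := fun hz =>
    nm_ge_one ((mem_S hY0).1 hz).2.1.ne_zero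
  set θ : Eis → Eis → ℝ := fun f D => if f = 1 ∧ D = 1 then δ else δ⁻¹ with hθ
  have hθ0 : ∀ f D, 0 < θ f D := fun f D => by simp only [hθ]; split_ifs <;> assumption
  set Z2 : Eis → Eis → Eis → ℝ := fun f D₁ D₂ => Real.exp (-X') * (1 / 2 *
    (θ f D₁ * (Ω (nm D₁) l * Ef A Y α d κ X' f D₁) * (1 / nm D₂) +
      θ f D₂ * (Ω (nm D₂) l * Ef A Y α d κ X' f D₂) * (1 / nm D₁))) with hZ2
  have hΩE : ∀ f, ∀ D ∈ S Y, 0 ≤ Ω (nm D) l * Ef A Y α d κ X' f D := fun f D hD =>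
    mul_nonneg (hΩ0 _ _ (pr hD) hl0) (Ef_nonneg _ _ _ _ _ _ _ _)
  have hZ20 : ∀ f, ∀ D₁ ∈ S Y, ∀ D₂ ∈ S Y, 0 ≤ Z2 f D₁ D₂ := by
    intro f D₁ h₁ D₂ h₂
    have a1 := hΩE f D₁ h₁
    have a2 := hΩE f D₂ h₂
    have a3 := (hθ0 f D₁).le
    have a4 := (hθ0 f D₂).le
    simp only [hZ2]
    positivity
  have h1 : ∀ f ∈ S Y, ∀ D₁ ∈ S Y, ∀ D₂ ∈ S Y, ¬ (f = 1 ∧ D₁ = 1 ∧ D₂ = 1) →
      ‖(mu f : ℂ) * ((mu D₁ : ℂ) * (mu D₂ : ℂ)) * Qf Y α d κ T x f D₁ D₂‖ ≤ Z2 f D₁ D₂ := by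
    intro f hf D₁ h₁ D₂ h₂ hne
    have hmu : ∀ z : Eis, ‖(mu z : ℂ)‖ ≤ 1 := by
      intro z
      have := abs_mu_le_one z
      rw [Complex.norm_intCast]
      exact_mod_cast this
    have hm : ‖(mu f : ℂ) * ((mu D₁ : ℂ) * (mu D₂ : ℂ))‖ ≤ 1 := by
      rw [norm_mul, norm_mul]
      exact mul_le_one₀ (hmu _) (by positivity) (mul_le_one₀ (hmu _) (norm_nonneg _) (hmu _))
    rw [norm_mul]
    refine (mul_le_of_le_one_left (norm_nonneg _) hm).trans ?_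
    have y1 := pr h₁
    have y2 := pr h₂
    -- the balancing factor
    obtain ⟨c, hc0, hc1, hc2⟩ : ∃ c : ℝ, 0 < c ∧ c ≤ θ f D₁ ∧ c⁻¹ ≤ θ f D₂ := by
      by_cases a : f = 1 ∧ D₁ = 1
      · have b : ¬ (f = 1 ∧ D₂ = 1) := fun h => hne ⟨a.1, a.2, h.2⟩
        refine ⟨δ, hδ, ?_, ?_⟩
        · simp only [hθ, if_pos a]; exact le_rfl
        · simp only [hθ, if_neg b]; exact le_rfl
      · by_cases b : f = 1 ∧ D₂ = 1
        · refine ⟨δ⁻¹, hδi, ?_, ?_⟩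
          · simp only [hθ, if_neg a]; exact le_rfl
          · simp only [hθ, if_pos b, inv_inv]; exact le_rfl
        · refine ⟨1, one_pos, ?_, ?_⟩
          · simp only [hθ, if_neg a]; exact hδi1
          · simp only [hθ, if_neg b, inv_one]; exact hδi1
    have hρ1 := hρ0 (nm D₁) (nm D₂) y1 y2
    refine (norm_Qf_le hA hT hM hY0 hs (nm_pos.mp (by exact_mod_cast (by linarith : (0:ℝ) < nm D₁)))
      (nm_pos.mp (by exact_mod_cast (by linarith : (0:ℝ) < nm D₂)))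
      (mul_pos hc0 hρ1)).trans ?_
    refine mul_le_mul_of_nonneg_left ?_ (Real.exp_pos _).le
    have hinv : (ρ (nm D₁) (nm D₂))⁻¹ = ρ (nm D₂) (nm D₁) :=
      inv_eq_of_mul_eq_one_right (hρ _ _ y1 y2)
    rw [mul_inv, hinv, ← hl]
    have a1 := hΩ l (nm D₁) (nm D₂) hl0 y1 y2
    have a2 := hΩ l (nm D₂) (nm D₁) hl0 y2 y1
    rw [mul_comm (nm D₂ : ℝ) (nm D₁ : ℝ)] at a2
    have E1 := Ef_nonneg A Y α d κ X' f D₁
    have E2 := Ef_nonneg A Y α d κ X' f D₂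
    have b1 := mul_le_mul_of_nonneg_right a1 E1
    have b2 := mul_le_mul_of_nonneg_right a2 E2
    have b1' := mul_le_mul hc1 b1 (mul_nonneg (mul_nonneg (hM _ (by positivity)) hρ1.le) E1)
      (hθ0 f D₁).le
    have b2' := mul_le_mul hc2 b2 (mul_nonneg (mul_nonneg (hM _ (by positivity))
      (hρ0 _ _ y2 y1).le) E2) (hθ0 f D₂).le
    calc _ = 1 / 2 * (c * (M (l / (nm D₁ * nm D₂)) * ρ (nm D₁) (nm D₂) * Ef A Y α d κ X' f D₁) +
          c⁻¹ * (M (l / (nm D₁ * nm D₂)) * ρ (nm D₂) (nm D₁) * Ef A Y α d κ X' f D₂)) := by ring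
      _ ≤ 1 / 2 * (θ f D₁ * (Ω (nm D₁) l / nm D₂ * Ef A Y α d κ X' f D₁) +
          θ f D₂ * (Ω (nm D₂) l / nm D₁ * Ef A Y α d κ X' f D₂)) := by linarith
      _ = _ := by ring
  -- the difference as a sum over the other triples
  have hdiff : BT Y α d κ T x - Qf Y α d κ T x 1 1 1 = ∑ f ∈ S Y, ∑ D₁ ∈ S Y, ∑ D₂ ∈ S Y,
      if f = 1 ∧ D₁ = 1 ∧ D₂ = 1 then 0 else
        (mu f : ℂ) * ((mu D₁ : ℂ) * (mu D₂ : ℂ)) * Qf Y α d κ T x f D₁ D₂ := by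
    have h5 : ∀ f D₁ D₂ : Eis, (if f = 1 ∧ D₁ = 1 ∧ D₂ = 1 then (0 : ℂ) else
        (mu f : ℂ) * ((mu D₁ : ℂ) * (mu D₂ : ℂ)) * Qf Y α d κ T x f D₁ D₂) =
        (mu f : ℂ) * ((mu D₁ : ℂ) * (mu D₂ : ℂ)) * Qf Y α d κ T x f D₁ D₂ -
        (if f = 1 then (if D₁ = 1 then (if D₂ = 1 then Qf Y α d κ T x 1 1 1 else 0) else 0)
          else 0) := by
      intro f D₁ D₂
      by_cases a : f = 1
      · by_cases b : D₁ = 1
        · by_cases c : D₂ = 1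
          · rw [if_pos ⟨a, b, c⟩, if_pos a, if_pos b, if_pos c, a, b, c, Mob705.mu_one]
            simp
          · rw [if_neg (fun h => c h.2.2), if_pos a, if_pos b, if_neg c, sub_zero]
        · rw [if_neg (fun h => b h.2.1), if_pos a, if_neg b, sub_zero]
      · rw [if_neg (fun h => a h.1), if_neg a, sub_zero]
    simp_rw [h5, Finset.sum_sub_distrib]
    rw [BT_eq hY0]
    congr 1
    rw [Finset.sum_eq_single_of_mem 1 h1S (fun f _ hf => by simp [hf])]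
    simp only [if_true]
    rw [Finset.sum_eq_single_of_mem 1 h1S (fun D _ hD => by simp [hD])]
    simp only [if_true]
    rw [Finset.sum_eq_single_of_mem 1 h1S (fun D _ hD => by simp [hD])]
    simp
  rw [hdiff]
  have h1' : ∀ f ∈ S Y, ∀ D₁ ∈ S Y, ∀ D₂ ∈ S Y,
      ‖(if f = 1 ∧ D₁ = 1 ∧ D₂ = 1 then 0 else
        (mu f : ℂ) * ((mu D₁ : ℂ) * (mu D₂ : ℂ)) * Qf Y α d κ T x f D₁ D₂)‖ ≤ Z2 f D₁ D₂ := by
    intro f hf D₁ h₁ D₂ h₂
    by_cases a : f = 1 ∧ D₁ = 1 ∧ D₂ = 1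
    · rw [if_pos a, norm_zero]; exact hZ20 f D₁ h₁ D₂ h₂
    · rw [if_neg a]; exact h1 f hf D₁ h₁ D₂ h₂ a
  refine (norm_sum_le _ _).trans ((Finset.sum_le_sum fun f hf => (norm_sum_le _ _).trans
    (Finset.sum_le_sum fun D₁ h₁ => (norm_sum_le _ _).trans (Finset.sum_le_sum fun D₂ h₂ =>
      h1' f hf D₁ h₁ D₂ h₂))).trans ?_)
  have h3 := regroup' hA hY hα (κ := κ) hd X' (Ω := fun y => Ω y l)
    (fun y hy => hΩ0 y l hy hl0) (fun y y' hy hyy => hΩm y y' l hy hyy hl0) hδ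
  have h4 := sum_inv_S551 hY
  set Z : ℝ := ∑ D ∈ S Y, (1 / (nm D : ℝ)) with hZ
  have hZ0 : 0 ≤ Z := Finset.sum_nonneg fun _ _ => by positivity
  have e1 : ∑ f ∈ S Y, ∑ D₁ ∈ S Y, ∑ D₂ ∈ S Y, Z2 f D₁ D₂ =
      Real.exp (-X') * (Z * ∑ f ∈ S Y, ∑ D ∈ S Y, θ f D * (Ω (nm D) l * Ef A Y α d κ X' f D)) := by
    rw [Finset.mul_sum, Finset.mul_sum]
    refine Finset.sum_congr rfl fun f _ => ?_
    have e2 : ∑ D₁ ∈ S Y, ∑ D₂ ∈ S Y, θ f D₁ * (Ω (nm D₁) l * Ef A Y α d κ X' f D₁) *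
        (1 / (nm D₂ : ℝ)) = Z * ∑ D ∈ S Y, θ f D * (Ω (nm D) l * Ef A Y α d κ X' f D) := by
      rw [mul_comm, Finset.sum_mul]
      refine Finset.sum_congr rfl fun D₁ _ => ?_
      rw [hZ, Finset.mul_sum]
    have e3 : ∑ D₁ ∈ S Y, ∑ D₂ ∈ S Y, θ f D₂ * (Ω (nm D₂) l * Ef A Y α d κ X' f D₂) *
        (1 / (nm D₁ : ℝ)) = Z * ∑ D ∈ S Y, θ f D * (Ω (nm D) l * Ef A Y α d κ X' f D) := by
      rw [Finset.sum_comm]; exact e2
    have e4 : ∀ D₁ D₂ : Eis, Z2 f D₁ D₂ =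
        Real.exp (-X') * (1 / 2) * (θ f D₁ * (Ω (nm D₁) l * Ef A Y α d κ X' f D₁) * (1 / nm D₂)) +
        Real.exp (-X') * (1 / 2) * (θ f D₂ * (Ω (nm D₂) l * Ef A Y α d κ X' f D₂) * (1 / nm D₁)) := by
      intro D₁ D₂
      simp only [hZ2]; ring
    simp_rw [e4, Finset.sum_add_distrib, ← Finset.mul_sum]
    simp_rw [← Finset.mul_sum] at e2 e3
    rw [e2, e3]
    ring
  rw [e1, mul_assoc]
  refine mul_le_mul_of_nonneg_left ?_ (Real.exp_pos _).le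
  refine mul_le_mul h4 h3 ?_ (hZ0.trans h4)
  refine Finset.sum_nonneg fun f hf => Finset.sum_nonneg fun D hD => ?_
  exact mul_nonneg (hθ0 f D).le (hΩE f D hD)

end Crest.Agent.R017.E1551
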