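import Crest.Agent.R017.E1i_551

/-!
# Row 17, block C70 (exact square), leaf E1, part j (helper551): the blocks with the kernels of
`Tk`, `Sk`

`norm_RemD_le`, `E1_final`.
-/

set_option autoImplicit false

noncomputable section

open Complex MeasureTheory
open scoped ComplexConjugate Classical

namespace Crest.Agent.R017.E1551

open Crest.Agent.R012 Crest.Agent.R012.Eis Crest.Agent.R012.MC
open Crest.Agent.R012.LS2 (S mem_S)
open Crest.Agent.R012.Mob705 (mu pdiv mem_pdiv mu_mul abs_mu_le_one PE pp)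
open Crest.Agent.R012.Weight600 (osc pw)
open Crest.Agent.R017.PX764 (cpS)
open Crest.Agent.R017.CM106 (CS TG)

/-! ### the size parameter -/

/-- `λ = 3 (X/N d)^{2/3} (K N κ)^{-1/3}` -/
def lm (K X : ℝ) (d κ : Eis) : ℝ :=
  3 * ((X / nm d) ^ (2 / 3 : ℝ) * (K * nm κ) ^ (-(1 / 3) : ℝ))

lemma lm_nonneg {K X : ℝ} (hK : 0 ≤ K) (hX : 0 ≤ X) (d κ : Eis) : 0 ≤ lm K X d κ := by
  unfold lm; positivity

lemma lm_pos {K X : ℝ} (hK : 0 < K) (hX : 0 < X) {d κ : Eis} (hd : d ≠ 0) (hκ : κ ≠ 0) :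
    0 < lm K X d κ := by
  have := nmpos hd
  have := nmpos hκ
  unfold lm; positivity

lemma exp_lm {K X : ℝ} (hK : 0 < K) (hX : 0 < X) {d κ g : Eis} (hd : d ≠ 0) (hκ : κ ≠ 0)
    (hg : g ≠ 0) :
    Real.exp (-(xk K κ g - 2 * Real.log (X / nm d)) / 3) = nm g * lm K X d κ := by
  have h1 := nmpos hκ
  have h2 := nmpos hd
  have h3 := nmpos hg
  have hXd : 0 < X / nm d := by positivity
  have e1 : Real.exp (-(xk K κ g - 2 * Real.log (X / nm d)) / 3) =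
      (K * nm κ / (27 * (nm g : ℝ) ^ 3)) ^ (-(1 / 3) : ℝ) * (X / nm d) ^ (2 / 3 : ℝ) := by
    unfold xk
    rw [Real.rpow_def_of_pos (by positivity), Real.rpow_def_of_pos hXd, ← Real.exp_add]
    congr 1; ring
  have e0 : (27 * (nm g : ℝ) ^ 3) ^ (-(1 / 3) : ℝ) =
      (27 : ℝ) ^ (-(1 / 3) : ℝ) * ((nm g : ℝ) ^ 3) ^ (-(1 / 3) : ℝ) :=
    Real.mul_rpow (by norm_num) (by positivity)
  rw [e1, Real.div_rpow (by positivity) (by positivity), e0]
  have e2 : (27 : ℝ) ^ (-(1 / 3) : ℝ) = 1 / 3 := by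
    rw [show (27 : ℝ) = 3 ^ (3 : ℝ) by norm_num, ← Real.rpow_mul (by norm_num)]
    norm_num
  have e3 : ((nm g : ℝ) ^ 3) ^ (-(1 / 3) : ℝ) = (nm g : ℝ)⁻¹ := by
    rw [← Real.rpow_natCast, ← Real.rpow_mul h3.le]
    norm_num
    rw [Real.rpow_neg_one]
  rw [e2, e3]
  unfold lm
  field_simp

lemma exp_neg_log {X : ℝ} (hX : 0 < X) {d : Eis} (hd : d ≠ 0) :
    Real.exp (-Real.log (X / nm d)) = nm d / X := by
  have h2 := nmpos hd
  rw [Real.exp_neg, Real.exp_log (by positivity)]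
  field_simp

/-! ### kernels -/

lemma kerH_Tk {w : ℝ → ℝ} (hw : Wgt w) {R : ℝ} (hR : 0 ≤ R) (A : ℝ) : ∃ C : ℝ, 0 ≤ C ∧
    ∀ κ : Eis, KerH (Tk w κ) R A (fun s => C * min 1 s) := by
  obtain ⟨C, hC, h⟩ := Tk_kernel hw hR A
  refine ⟨C, hC, fun κ => ⟨fun z => ?_⟩⟩
  obtain ⟨k, h1, h2, h3, h4⟩ := h κ z
  exact ⟨k, h1, h2, h3, h4⟩

/-- `s (1 + s⁻³)^{-B}` -/
def OS (B s : ℝ) : ℝ := s * (1 + (s ^ 3)⁻¹) ^ (-B)

lemma OS_nonneg {B s : ℝ} (hs : 0 ≤ s) : 0 ≤ OS B s := by unfold OS; positivity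

lemma kerH_Sk {w : ℝ → ℝ} (hw : Wgt w) {R : ℝ} (hR : 0 ≤ R) (A B : ℝ) : ∃ C : ℝ, 0 ≤ C ∧
    ∀ κ : Eis, KerH (Sk w κ) R A (fun s => C * OS B s) := by
  obtain ⟨C, hC, h⟩ := Sk_kernel hw hR A B
  refine ⟨C, hC, fun κ => ⟨fun z => ?_⟩⟩
  obtain ⟨k, h1, h2, h3, h4⟩ := h κ z
  refine ⟨k, h1, h2, fun t => ?_, h4⟩
  have e : Real.exp z = ((Real.exp (-z / 3)) ^ 3)⁻¹ := by
    rw [← Real.exp_nat_mul, ← Real.exp_neg]
    congr 1; push_cast; ring
  have h5 := h3 t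
  rw [e] at h5
  exact h5

lemma omT {C : ℝ} (hC : 0 ≤ C) (l y n : ℝ) (hl : 0 < l) (hy : 1 ≤ y) (hn : 1 ≤ n) :
    C * min 1 (l / (y * n)) * (y / n) ≤ C * min y l / n := by
  have h1 : min 1 (l / (y * n)) * y ≤ min y l := by
    apply le_min
    · calc min 1 (l / (y * n)) * y ≤ 1 * y :=
            mul_le_mul_of_nonneg_right (min_le_left _ _) (by linarith)
        _ = y := one_mul y
    · calc min 1 (l / (y * n)) * y ≤ (l / (y * n)) * y :=
            mul_le_mul_of_nonneg_right (min_le_right _ _) (by linarith)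
        _ = l / n := by field_simp
        _ ≤ l := div_le_self hl.le hn
  calc C * min 1 (l / (y * n)) * (y / n) = C * (min 1 (l / (y * n)) * y) / n := by ring
    _ ≤ C * min y l / n := by gcongr

lemma omS {C : ℝ} (hC : 0 ≤ C) {B : ℝ} (hB : 0 ≤ B) (l y n : ℝ) (hl : 0 < l) (hy : 1 ≤ y)
    (hn : 1 ≤ n) : C * OS B (l / (y * n)) * 1 ≤ C * OS B l / n := by
  have hyn : 1 ≤ y * n := one_le_mul_of_one_le_of_one_le hy hn
  have h0 : 0 < l / (y * n) := by positivity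
  have h1 : l / (y * n) ≤ l / n := by
    apply div_le_div_of_nonneg_left hl.le (by linarith)
    exact le_mul_of_one_le_left (by linarith) hy
  have h2 : l / (y * n) ≤ l := div_le_self hl.le hyn
  have h3 : (1 + ((l / (y * n)) ^ 3)⁻¹) ^ (-B) ≤ (1 + (l ^ 3)⁻¹) ^ (-B) := by
    apply Real.rpow_le_rpow_of_nonpos (by positivity)
    · have : (l ^ 3)⁻¹ ≤ ((l / (y * n)) ^ 3)⁻¹ := by
        apply inv_anti₀ (by positivity)
        exact pow_le_pow_left₀ h0.le h2 3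
      linarith
    · linarith
  unfold OS
  calc C * (l / (y * n) * (1 + ((l / (y * n)) ^ 3)⁻¹) ^ (-B)) * 1
      ≤ C * (l / n * (1 + (l ^ 3)⁻¹) ^ (-B)) := by
        rw [mul_one]
        refine mul_le_mul_of_nonneg_left (mul_le_mul h1 h3 (by positivity) (by positivity)) hC
    _ = _ := by ring

/-- the block bound for `Tk` -/
theorem norm_BT_Tk {w : ℝ → ℝ} (hw : Wgt w) {R : ℝ} (hR : 0 ≤ R) {A : ℝ} (hA : 1 < A) :
    ∃ C : ℝ, 0 ≤ C ∧ ∀ (κ : Eis) (Y : ℝ), 1 ≤ Y → ∀ α : Eis → ℂ, (∀ n, α n ≠ 0 → n ∈ S Y) →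
      ∀ d : Eis, IsPrim d → ∀ X' x : ℝ, SupC Y R α d X' →
      ‖BT Y α d κ (Tk w κ) x‖ ≤ C * (Real.exp (-X') * (1 + Real.log Y)) *
        ∑ L ∈ S Y, (Div277.tau L : ℝ) ^ 2 *
          (min (nm L : ℝ) (Real.exp (-(x - 2 * X') / 3)) * Wf A α d κ L) := by
  obtain ⟨C, hC, hk⟩ := kerH_Tk hw hR A
  refine ⟨100 * C, by positivity, fun κ Y hY α hα d hd X' x hs => ?_⟩
  have h := norm_BT_le hA (hk κ) (ρ := fun y n => y / n) (Ω := fun y l => C * min y l)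
    (fun s hs => mul_nonneg hC (le_min zero_le_one hs.le))
    (fun y n hy hn => by positivity)
    (fun y n hy hn => by
      have : y ≠ 0 := by linarith
      have : n ≠ 0 := by linarith
      field_simp)
    (fun y l hy hl => mul_nonneg hC (le_min (by linarith) hl.le))
    (fun y y' l hy hyy hl => mul_le_mul_of_nonneg_left (min_le_min hyy le_rfl) hC)
    (fun l y n hl hy hn => omT hC l y n hl hy hn) hY hα (κ := κ) hd hs (x := x)
  refine h.trans (le_of_eq ?_)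
  rw [Finset.mul_sum, Finset.mul_sum]
  refine Finset.sum_congr rfl fun L _ => ?_
  ring

/-- the block bound for `Sk` -/
theorem norm_BT_Sk {w : ℝ → ℝ} (hw : Wgt w) {R : ℝ} (hR : 0 ≤ R) {A B : ℝ} (hA : 1 < A)
    (hB : 0 ≤ B) :
    ∃ C : ℝ, 0 ≤ C ∧ ∀ (κ : Eis) (Y : ℝ), 1 ≤ Y → ∀ α : Eis → ℂ, (∀ n, α n ≠ 0 → n ∈ S Y) →
      ∀ d : Eis, IsPrim d → ∀ X' x : ℝ, SupC Y R α d X' →
      ‖BT Y α d κ (Sk w κ) x‖ ≤ C * (Real.exp (-X') * (1 + Real.log Y)) *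
        ∑ L ∈ S Y, (Div277.tau L : ℝ) ^ 2 *
          (OS B (Real.exp (-(x - 2 * X') / 3)) * Wf A α d κ L) := by
  obtain ⟨C, hC, hk⟩ := kerH_Sk hw hR A B
  refine ⟨100 * C, by positivity, fun κ Y hY α hα d hd X' x hs => ?_⟩
  have h := norm_BT_le hA (hk κ) (ρ := fun _ _ => 1) (Ω := fun _ l => C * OS B l)
    (fun s hs => mul_nonneg hC (OS_nonneg hs.le))
    (fun y n hy hn => one_pos)
    (fun y n hy hn => one_mul 1)
    (fun y l hy hl => mul_nonneg hC (OS_nonneg hl.le))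
    (fun y y' l hy hyy hl => le_rfl)
    (fun l y n hl hy hn => omS hC hB l y n hl hy hn) hY hα (κ := κ) hd hs (x := x)
  refine h.trans (le_of_eq ?_)
  rw [Finset.mul_sum, Finset.mul_sum]
  refine Finset.sum_congr rfl fun L _ => ?_
  ring

/-- signed block bound for `Tk` -/
theorem norm_BT_sub_Tk {w : ℝ → ℝ} (hw : Wgt w) {R : ℝ} (hR : 0 ≤ R) {A : ℝ} (hA : 1 < A) :
    ∃ C : ℝ, 0 ≤ C ∧ ∀ (κ : Eis) (Y : ℝ), 1 ≤ Y → ∀ α : Eis → ℂ, (∀ n, α n ≠ 0 → n ∈ S Y) →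
      ∀ d : Eis, IsPrim d → ∀ X' x : ℝ, SupC Y R α d X' → ∀ δ : ℝ, 0 < δ → δ ≤ 1 →
      ‖BT Y α d κ (Tk w κ) x - Qf Y α d κ (Tk w κ) x 1 1 1‖ ≤
        C * (Real.exp (-X') * (1 + Real.log Y)) *
        (δ * (min 1 (Real.exp (-(x - 2 * X') / 3)) * Wf A α d κ 1) +
          δ⁻¹ * ∑ L ∈ (S Y).erase 1, (Div277.tau L : ℝ) ^ 2 *
          (min (nm L : ℝ) (Real.exp (-(x - 2 * X') / 3)) * Wf A α d κ L)) := by
  obtain ⟨C, hC, hk⟩ := kerH_Tk hw hR A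
  refine ⟨100 * C, by positivity, fun κ Y hY α hα d hd X' x hs δ hδ hδ1 => ?_⟩
  have h := norm_BT_sub_le hA (hk κ) (ρ := fun y n => y / n) (Ω := fun y l => C * min y l)
    (fun s hs => mul_nonneg hC (le_min zero_le_one hs.le))
    (fun y n hy hn => by positivity)
    (fun y n hy hn => by
      have : y ≠ 0 := by linarith
      have : n ≠ 0 := by linarith
      field_simp)
    (fun y l hy hl => mul_nonneg hC (le_min (by linarith) hl.le))
    (fun y y' l hy hyy hl => mul_le_mul_of_nonneg_left (min_le_min hyy le_rfl) hC)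
    (fun l y n hl hy hn => omT hC l y n hl hy hn) hY hα (κ := κ) hd hs (x := x) hδ hδ1
  refine h.trans (le_of_eq ?_)
  have e1 : ∑ L ∈ (S Y).erase 1, (Div277.tau L : ℝ) ^ 2 *
      (C * min (nm L : ℝ) (Real.exp (-(x - 2 * X') / 3)) * Wf A α d κ L) =
      C * ∑ L ∈ (S Y).erase 1, (Div277.tau L : ℝ) ^ 2 *
      (min (nm L : ℝ) (Real.exp (-(x - 2 * X') / 3)) * Wf A α d κ L) := by
    rw [Finset.mul_sum]
    exact Finset.sum_congr rfl fun L _ => by ring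
  rw [e1]
  ring

/-- signed block bound for `Sk` -/
theorem norm_BT_sub_Sk {w : ℝ → ℝ} (hw : Wgt w) {R : ℝ} (hR : 0 ≤ R) {A B : ℝ} (hA : 1 < A)
    (hB : 0 ≤ B) :
    ∃ C : ℝ, 0 ≤ C ∧ ∀ (κ : Eis) (Y : ℝ), 1 ≤ Y → ∀ α : Eis → ℂ, (∀ n, α n ≠ 0 → n ∈ S Y) →
      ∀ d : Eis, IsPrim d → ∀ X' x : ℝ, SupC Y R α d X' → ∀ δ : ℝ, 0 < δ → δ ≤ 1 →
      ‖BT Y α d κ (Sk w κ) x - Qf Y α d κ (Sk w κ) x 1 1 1‖ ≤
        C * (Real.exp (-X') * (1 + Real.log Y)) *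
        (δ * (OS B (Real.exp (-(x - 2 * X') / 3)) * Wf A α d κ 1) +
          δ⁻¹ * ∑ L ∈ (S Y).erase 1, (Div277.tau L : ℝ) ^ 2 *
          (OS B (Real.exp (-(x - 2 * X') / 3)) * Wf A α d κ L)) := by
  obtain ⟨C, hC, hk⟩ := kerH_Sk hw hR A B
  refine ⟨100 * C, by positivity, fun κ Y hY α hα d hd X' x hs δ hδ hδ1 => ?_⟩
  have h := norm_BT_sub_le hA (hk κ) (ρ := fun _ _ => 1) (Ω := fun _ l => C * OS B l)
    (fun s hs => mul_nonneg hC (OS_nonneg hs.le))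
    (fun y n hy hn => one_pos)
    (fun y n hy hn => one_mul 1)
    (fun y l hy hl => mul_nonneg hC (OS_nonneg hl.le))
    (fun y y' l hy hyy hl => le_rfl)
    (fun l y n hl hy hn => omS hC hB l y n hl hy hn) hY hα (κ := κ) hd hs (x := x) hδ hδ1
  refine h.trans (le_of_eq ?_)
  have e1 : ∑ L ∈ (S Y).erase 1, (Div277.tau L : ℝ) ^ 2 *
      (C * OS B (Real.exp (-(x - 2 * X') / 3)) * Wf A α d κ L) =
      C * ∑ L ∈ (S Y).erase 1, (Div277.tau L : ℝ) ^ 2 *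
      (OS B (Real.exp (-(x - 2 * X') / 3)) * Wf A α d κ L) := by
    rw [Finset.mul_sum]
    exact Finset.sum_congr rfl fun L _ => by ring
  rw [e1]
  ring

/-! ### weights of the classes -/

/-- weight of a class outside `J` -/
def tl (B K X : ℝ) (d κ : Eis) : ℝ :=
  lm K X d κ * (1 + ((nm (g2 κ d) * lm K X d κ) ^ 3)⁻¹) ^ (-B)

lemma tl_nonneg {B K X : ℝ} (hK : 0 ≤ K) (hX : 0 ≤ X) (d κ : Eis) : 0 ≤ tl B K X d κ := by
  have := lm_nonneg hK hX d κ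
  unfold tl; positivity

lemma nm_g2_le {κ e : Eis} (he : IsPrim e) (hs : Squarefree e) : (nm (g2 κ e) : ℝ) ≤ nm e := by
  have h := g1_mul_g2 (κ := κ) he hs
  exact_mod_cast Div277.nm_le_of_dvd he.ne_zero (Dvd.intro_left _ h)

lemma g2_dvd_g2 (κ : Eis) {e d : Eis} (hd : d ≠ 0) (hed : e ∣ d) : g2 κ e ∣ g2 κ d := by
  unfold g2 s2
  apply Finset.prod_dvd_prod_of_subset
  intro p hp
  rw [Finset.mem_filter] at hp ⊢
  refine ⟨?_, hp.2⟩
  have h1 := hp.1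
  have he0 : e ≠ 0 := ne_zero_of_dvd_ne_zero hd hed
  rw [Mob705.mem_pp he0] at h1
  rw [Mob705.mem_pp hd]
  exact ⟨h1.1, h1.2.trans hed⟩

lemma le_T {y l g : ℝ} (hl : 0 ≤ l) (hg : 1 ≤ g) (hy : 0 ≤ y) : min y (g * l) ≤ g * min y l := by
  rcases le_total y l with h | h
  · rw [min_eq_left h]
    exact (min_le_left _ _).trans (le_mul_of_one_le_left hy hg)
  · rw [min_eq_right h]
    exact min_le_right _ _

lemma le_S {B K X : ℝ} (hB : 0 ≤ B) (hK : 0 < K) (hX : 0 < X) {d κ e : Eis} (hd : d ≠ 0)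
    (hκ : κ ≠ 0) (hed : e ∣ d) :
    OS B (nm (g2 κ e) * lm K X d κ) ≤ nm (g2 κ e) * tl B K X d κ := by
  have h0 := lm_pos hK hX hd hκ
  have g0 := nmpos (g2_prim κ e).ne_zero
  have g1' := nmpos (g2_prim κ d).ne_zero
  have hg : (nm (g2 κ e) : ℝ) ≤ nm (g2 κ d) := by
    exact_mod_cast Div277.nm_le_of_dvd (g2_prim κ d).ne_zero (g2_dvd_g2 κ hd hed)
  unfold OS tl
  rw [mul_assoc]
  refine mul_le_mul_of_nonneg_left (mul_le_mul_of_nonneg_left ?_ h0.le) g0.le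
  apply Real.rpow_le_rpow_of_nonpos (by positivity)
  · have : ((nm (g2 κ d) * lm K X d κ) ^ 3)⁻¹ ≤ ((nm (g2 κ e) * lm K X d κ) ^ 3)⁻¹ := by
      apply inv_anti₀ (by positivity)
      refine pow_le_pow_left₀ (by positivity) (mul_le_mul_of_nonneg_right hg h0.le) 3
    linarith
  · linarith

/-- the crude bound for `OS` -/
lemma OS_le {B s : ℝ} (hB : 0 ≤ B) (hs : 0 < s) : OS B s ≤ s ^ (1 + 3 * B) := by
  unfold OS
  have h1 : (1 + (s ^ 3)⁻¹) ^ (-B) ≤ ((s ^ 3)⁻¹) ^ (-B) := by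
    apply Real.rpow_le_rpow_of_nonpos (by positivity) (by linarith) (by linarith)
  have h2 : ((s ^ 3)⁻¹) ^ (-B) = s ^ (3 * B) := by
    rw [← Real.rpow_natCast, ← Real.rpow_neg hs.le, ← Real.rpow_mul hs.le]
    congr 1; push_cast; ring
  rw [Real.rpow_add hs, Real.rpow_one]
  exact mul_le_mul_of_nonneg_left (h1.trans h2.le) hs.le

lemma lm_eq {K X : ℝ} (hK : 0 < K) (d κ : Eis) :
    lm K X d κ = (3 * ((X / nm d) ^ (2 / 3 : ℝ) * K ^ (-(1 / 3) : ℝ))) *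
      (nm κ : ℝ) ^ (-(1 / 3) : ℝ) := by
  unfold lm
  rw [Real.mul_rpow hK.le (Nat.cast_nonneg _)]
  ring

/-- summability of the weights outside `J` -/
lemma summable_w {B K X : ℝ} (hB : 1 ≤ B) (hK : 0 < K) (hX : 0 < X) {d e : Eis} (hd : IsPrim d)
    (he : IsPrim e) (hs : Squarefree e) (P : Eis → Prop) (hP : ∀ κ, P κ → κ ≠ 0)
    {f : Eis → ℝ} {F : ℝ} (hf0 : ∀ κ, 0 ≤ f κ) (hf : ∀ κ, f κ ≤ F) :
    Summable fun κ : Eis => if P κ then OS B (nm (g2 κ e) * lm K X d κ) * f κ else 0 := by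
  set c : ℝ := (nm e : ℝ) * (3 * ((X / nm d) ^ (2 / 3 : ℝ) * K ^ (-(1 / 3) : ℝ))) with hc
  have hd0 := nmpos hd.ne_zero
  have he0 := nmpos he.ne_zero
  have hc0 : 0 < c := by rw [hc]; positivity
  have hs1 : Summable fun κ : Eis => c ^ (1 + 3 * B) * F * (nm κ : ℝ) ^ (-((1 + 3 * B) / 3)) :=
    (summable_inv_nm (by linarith)).mul_left _
  have hF : 0 ≤ F := (hf0 0).trans (hf 0)
  refine Summable.of_nonneg_of_le (fun κ => ?_) (fun κ => ?_) hs1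
  · split_ifs
    · have := lm_nonneg hK.le hX.le d κ
      exact mul_nonneg (OS_nonneg (by positivity)) (hf0 κ)
    · exact le_rfl
  · split_ifs with h
    · have hκ := nmpos (hP κ h)
      have h0 := lm_pos hK hX hd.ne_zero (hP κ h)
      have g0 := nmpos (g2_prim κ e).ne_zero
      have e1 : (nm (g2 κ e) : ℝ) * lm K X d κ ≤ c * (nm κ : ℝ) ^ (-(1 / 3) : ℝ) := by
        rw [lm_eq hK, hc, ← mul_assoc]
        refine mul_le_mul_of_nonneg_right ?_ (by positivity)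
        exact mul_le_mul_of_nonneg_right (nm_g2_le he hs) (by positivity)
      have e2 : OS B (nm (g2 κ e) * lm K X d κ) ≤
          c ^ (1 + 3 * B) * (nm κ : ℝ) ^ (-((1 + 3 * B) / 3)) := by
        refine (OS_le (by linarith) (by positivity)).trans ?_
        refine (Real.rpow_le_rpow (by positivity) e1 (by linarith)).trans (le_of_eq ?_)
        rw [Real.mul_rpow hc0.le (by positivity), ← Real.rpow_mul hκ.le]
        congr 2; ring
      calc OS B (nm (g2 κ e) * lm K X d κ) * f κ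
          ≤ (c ^ (1 + 3 * B) * (nm κ : ℝ) ^ (-((1 + 3 * B) / 3))) * F :=
            mul_le_mul e2 (hf κ) (hf0 κ) (by positivity)
        _ = _ := by ring
    · positivity

lemma Wf_bdd {A : ℝ} (hA : 1 < A) {Y : ℝ} (hY : 0 ≤ Y) {α : Eis → ℂ}
    (hα : ∀ n, α n ≠ 0 → n ∈ S Y) {d L : Eis} (hd : IsPrim d) (hL : IsPrim L) :
    ∃ F : ℝ, ∀ κ, Wf A α d κ L ≤ F :=
  ⟨_, fun κ => Wf_le hA hY hα hd hL κ⟩

/-- summability of the final tail weights -/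
theorem summable_tl {A B K X : ℝ} (hA : 1 < A) (hB : 1 ≤ B) (hK : 0 < K) (hX : 0 < X) {Y : ℝ}
    (hY : 0 ≤ Y) {α : Eis → ℂ} (hα : ∀ n, α n ≠ 0 → n ∈ S Y) {d L : Eis} (hd : IsPrim d)
    (hds : Squarefree d) (hL : IsPrim L) (P : Eis → Prop) (hP : ∀ κ, P κ → κ ≠ 0) :
    Summable fun κ : Eis => if P κ then tl B K X d κ * Wf A α d κ L else 0 := by
  obtain ⟨F, hF⟩ := Wf_bdd hA hY hα hd hL
  have h := summable_w hB hK hX hd hd hds P hP (f := fun κ => Wf A α d κ L)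
    (fun κ => Wf_nonneg _ _ _ _ _) hF
  refine Summable.of_nonneg_of_le (fun κ => ?_) (fun κ => ?_) h
  · split_ifs
    · exact mul_nonneg (tl_nonneg hK.le hX.le _ _) (Wf_nonneg _ _ _ _ _)
    · exact le_rfl
  · split_ifs with hp
    · refine mul_le_mul_of_nonneg_right ?_ (Wf_nonneg _ _ _ _ _)
      have h0 := lm_pos hK hX hd.ne_zero (hP κ hp)
      have g1' := nm_ge_one (g2_prim κ d).ne_zero
      unfold tl OS
      rw [mul_assoc]
      exact le_mul_of_one_le_left (by positivity) g1'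
    · exact le_rfl

end Crest.Agent.R017.E1551
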