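import Crest.Agent.R017.E1j_551

/-!
# Row 17, block C70 (exact square), leaf E1, part l (helper551): final inequalities

* `norm_RemD_le` : one block
* `E1_final` : the unsigned inequality
* `E1_signed` : the exact quadratic form of `d = L = 1` is kept
-/

set_option autoImplicit false

noncomputable section

open Complex MeasureTheory
open scoped ComplexConjugate Classical

namespace Crest.Agent.R017.E1551

open Crest.Agent.R012 Crest.Agent.R012.Eis Crest.Agent.R012.MC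
open Crest.Agent.R012.LS2 (S mem_S)
open Crest.Agent.R012.Mob705 (mu pdiv mem_pdiv mu_mul abs_mu_le_one PE pp)
open Crest.Agent.R017.PX764 (cpS)
open Crest.Agent.R017.CM106 (CS TG)

/-- admissible sequence at scale `X`: support in `S Y` and `|log N(n) - log X| ≤ R/2` -/
structure Adm (Y X R : ℝ) (α : Eis → ℂ) : Prop where
  sup : ∀ n, α n ≠ 0 → n ∈ S Y
  win : ∀ n, α n ≠ 0 → |Real.log (nm n) - Real.log X| ≤ R / 2

lemma Adm.supC {Y X R : ℝ} {α : Eis → ℂ} (h : Adm Y X R α) (hY : 0 ≤ Y) (hX : 0 < X) {d : Eis}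
    (hd : IsPrim d) : SupC Y R α d (Real.log (X / nm d)) := by
  intro k hk hne
  have h1 := h.win _ hne
  have hk' := nmpos ((mem_S hY).1 hk).2.1.ne_zero
  have hd' := nmpos hd.ne_zero
  rw [nm_mul] at h1
  push_cast at h1
  rw [Real.log_mul hd'.ne' hk'.ne'] at h1
  rw [Real.log_div hX.ne' hd'.ne']
  have e : Real.log (nm k) - (Real.log X - Real.log (nm d)) =
      Real.log (nm d) + Real.log (nm k) - Real.log X := by ring
  rw [e]; exact h1

/-- the class sum of the weights at `(d, L)` -/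
def WS (A B K X : ℝ) (α : Eis → ℂ) (J : Finset Eis) (d L : Eis) : ℝ :=
  ∑ κ ∈ J, min (nm L : ℝ) (lm K X d κ) * Wf A α d κ L +
    ∑' κ : Eis, if CF κ ∧ κ ∉ J then tl B K X d κ * Wf A α d κ L else 0

lemma WS_nonneg {A B K X : ℝ} (hK : 0 ≤ K) (hX : 0 ≤ X) (α : Eis → ℂ) (J : Finset Eis)
    (d L : Eis) : 0 ≤ WS A B K X α J d L := by
  unfold WS
  refine add_nonneg (Finset.sum_nonneg fun κ _ => mul_nonneg (le_min (Nat.cast_nonneg _)
    (lm_nonneg hK hX _ _)) (Wf_nonneg _ _ _ _ _)) (tsum_nonneg fun κ => ?_)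
  split_ifs
  · exact mul_nonneg (tl_nonneg hK hX _ _) (Wf_nonneg _ _ _ _ _)
  · exact le_rfl

/-- bound of the tail of one `e` -/
lemma tail_le {A B C₂ K X P0 Y : ℝ} (hA : 1 < A) (hB : 1 ≤ B) (hC₂ : 0 ≤ C₂)
    (hK : 0 < K) (hX : 0 < X) (hP0 : 0 ≤ P0) (hY : 0 ≤ Y) {α : Eis → ℂ}
    (hα : ∀ n, α n ≠ 0 → n ∈ S Y) {d e : Eis} (hd : IsPrim d) (hds : Squarefree d)
    (he : IsPrim e) (hed : e ∣ d) (J : Finset Eis) (c : Eis → ℝ) (hc : ∀ L ∈ S Y, 0 ≤ c L)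
    {F : Eis → ℂ}
    (hF : ∀ κ, CF κ ∧ κ ∉ J → ‖F κ‖ ≤ C₂ * P0 * ∑ L ∈ S Y, c L *
      (OS B (nm (g2 κ e) * lm K X d κ) * Wf A α d κ L)) :
    Summable (fun κ : Eis => if CF κ ∧ κ ∉ J then F κ else 0) ∧
    ‖∑' κ : Eis, if CF κ ∧ κ ∉ J then F κ else 0‖ ≤ nm e * (C₂ * P0 * ∑ L ∈ S Y, c L *
      ∑' κ : Eis, if CF κ ∧ κ ∉ J then tl B K X d κ * Wf A α d κ L else 0) := by
  have he0 := nmpos he.ne_zero
  have hs : ∀ L ∈ S Y, Summable fun κ : Eis =>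
      if CF κ ∧ κ ∉ J then tl B K X d κ * Wf A α d κ L else 0 := fun L hL => by
    refine (summable_tl hA hB hK hX hY hα hd hds ((mem_S hY).1 hL).2.1 (fun κ => CF κ ∧ κ ∉ J)
      (fun κ h => h.1.1)).congr fun κ => ?_
    by_cases h : CF κ ∧ κ ∉ J
    · rw [if_pos h, if_pos h]
    · rw [if_neg h, if_neg h]
  have hs2 : Summable fun κ : Eis => nm e * (C₂ * P0 * ∑ L ∈ S Y, c L *
      if CF κ ∧ κ ∉ J then tl B K X d κ * Wf A α d κ L else 0) :=
    ((summable_sum fun L hL => (hs L hL).mul_left (c L)).mul_left _).mul_left _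
  have hb : ∀ κ : Eis, ‖(if CF κ ∧ κ ∉ J then F κ else 0)‖ ≤ nm e * (C₂ * P0 * ∑ L ∈ S Y, c L *
      if CF κ ∧ κ ∉ J then tl B K X d κ * Wf A α d κ L else 0) := by
    intro κ
    by_cases h : CF κ ∧ κ ∉ J
    · simp only [if_pos h]
      refine (hF κ h).trans ?_
      have : ∑ L ∈ S Y, c L * (OS B (nm (g2 κ e) * lm K X d κ) * Wf A α d κ L) ≤
          nm e * ∑ L ∈ S Y, c L * (tl B K X d κ * Wf A α d κ L) := by
        rw [Finset.mul_sum]
        refine Finset.sum_le_sum fun L hL => ?_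
        have h1 := le_S (B := B) (by linarith) hK hX hd.ne_zero h.1.1 hed
        have h2 : (nm (g2 κ e) : ℝ) * tl B K X d κ ≤ nm e * tl B K X d κ :=
          mul_le_mul_of_nonneg_right (nm_g2_le he (hds.squarefree_of_dvd hed))
            (tl_nonneg hK.le hX.le _ _)
        have h3 := mul_le_mul_of_nonneg_left (mul_le_mul_of_nonneg_right (h1.trans h2)
          (Wf_nonneg A α d κ L)) (hc L hL)
        calc _ ≤ _ := h3
          _ = _ := by ring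
      calc C₂ * P0 * ∑ L ∈ S Y, c L * (OS B (nm (g2 κ e) * lm K X d κ) * Wf A α d κ L)
          ≤ C₂ * P0 * (nm e * ∑ L ∈ S Y, c L * (tl B K X d κ * Wf A α d κ L)) :=
            mul_le_mul_of_nonneg_left this (by positivity)
        _ = _ := by ring
    · simp only [if_neg h]
      simp
  refine ⟨Summable.of_norm_bounded hs2 hb, ?_⟩
  refine (tsum_of_norm_bounded hs2.hasSum hb).trans (le_of_eq ?_)
  rw [tsum_mul_left, tsum_mul_left, Summable.tsum_finsetSum (fun L hL => (hs L hL).mul_left (c L))]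
  congr 2
  refine Finset.sum_congr rfl fun L _ => ?_
  rw [tsum_mul_left]

/-- bound of the finite part of one `e` -/
lemma fin_le {A C₁ K X P0 Y : ℝ} (hC₁ : 0 ≤ C₁)
    (hK : 0 < K) (hX : 0 < X) (hP0 : 0 ≤ P0) {α : Eis → ℂ}
    {d e : Eis} (hds : Squarefree d)
    (he : IsPrim e) (hed : e ∣ d) (J : Finset Eis) (c : Eis → ℝ) (hc : ∀ L ∈ S Y, 0 ≤ c L)
    {F : Eis → ℂ}
    (hF : ∀ κ ∈ J, ‖F κ‖ ≤ C₁ * P0 * ∑ L ∈ S Y, c L *
      (min (nm L : ℝ) (nm (g2 κ e) * lm K X d κ) * Wf A α d κ L)) :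
    ‖∑ κ ∈ J, F κ‖ ≤ nm e * (C₁ * P0 * ∑ L ∈ S Y, c L *
      ∑ κ ∈ J, min (nm L : ℝ) (lm K X d κ) * Wf A α d κ L) := by
  have he0 := nmpos he.ne_zero
  refine (norm_sum_le _ _).trans ((Finset.sum_le_sum fun κ hκ => hF κ hκ).trans ?_)
  have : ∀ κ ∈ J, C₁ * P0 * ∑ L ∈ S Y, c L *
      (min (nm L : ℝ) (nm (g2 κ e) * lm K X d κ) * Wf A α d κ L) ≤
      nm e * (C₁ * P0 * ∑ L ∈ S Y, c L * (min (nm L : ℝ) (lm K X d κ) * Wf A α d κ L)) := by
    intro κ hκ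
    have h5 : ∑ L ∈ S Y, c L * (min (nm L : ℝ) (nm (g2 κ e) * lm K X d κ) * Wf A α d κ L) ≤
        nm e * ∑ L ∈ S Y, c L * (min (nm L : ℝ) (lm K X d κ) * Wf A α d κ L) := by
      rw [Finset.mul_sum]
      refine Finset.sum_le_sum fun L hL => ?_
      have h0 := lm_nonneg hK.le hX.le d κ
      have h1 := le_T (y := (nm L : ℝ)) h0 (nm_ge_one (g2_prim κ e).ne_zero) (Nat.cast_nonneg _)
      have h2 : (nm (g2 κ e) : ℝ) * min (nm L : ℝ) (lm K X d κ) ≤ nm e * min (nm L : ℝ) (lm K X d κ) :=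
        mul_le_mul_of_nonneg_right (nm_g2_le he (hds.squarefree_of_dvd hed))
          (le_min (Nat.cast_nonneg _) h0)
      have h3 := mul_le_mul_of_nonneg_left (mul_le_mul_of_nonneg_right (h1.trans h2)
        (Wf_nonneg A α d κ L)) (hc L hL)
      calc _ ≤ _ := h3
        _ = _ := by ring
    calc _ ≤ C₁ * P0 * (nm e * ∑ L ∈ S Y, c L * (min (nm L : ℝ) (lm K X d κ) * Wf A α d κ L)) :=
          mul_le_mul_of_nonneg_left h5 (by positivity)
      _ = _ := by ring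
  refine (Finset.sum_le_sum this).trans (le_of_eq ?_)
  rw [← Finset.mul_sum, ← Finset.mul_sum, Finset.sum_comm]
  congr 2
  refine Finset.sum_congr rfl fun L _ => ?_
  rw [Finset.mul_sum]

/-- **One block.** -/
theorem norm_RemD_le {w : ℝ → ℝ} (hw : Wgt w) {R : ℝ} (hR : 0 ≤ R) {A B : ℝ} (hA : 1 < A)
    (hB : 1 ≤ B) : ∃ C : ℝ, 0 ≤ C ∧ ∀ K X Y : ℝ, 0 < K → 0 < X → 1 ≤ Y → ∀ α : Eis → ℂ,
      Adm Y X R α → ∀ d ∈ S Y, ∀ J : Finset Eis, (∀ κ ∈ J, CF κ) →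
      ‖RemD w K Y α J d‖ ≤ C * (1 + Real.log Y) * (nm d / X * Div277.tau d *
        ∑ L ∈ S Y, (Div277.tau L : ℝ) ^ 2 * WS A B K X α J d L) := by
  obtain ⟨C₁, hC₁, h1⟩ := norm_BT_Tk hw hR hA
  obtain ⟨C₂, hC₂, h2⟩ := norm_BT_Sk hw hR (B := B) hA (by linarith)
  refine ⟨C₁ + C₂, by positivity, fun K X Y hK hX hY α hα d hdS J hJ => ?_⟩
  have hY0 : 0 ≤ Y := by linarith
  have hd' := (mem_S hY0).1 hdS
  have hd := hd'.2.1
  have hs := hα.supC hY0 hX hd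
  have hlogY := Real.log_nonneg hY
  set P0 : ℝ := Real.exp (-Real.log (X / nm d)) * (1 + Real.log Y) with hP0
  have hP00 : 0 ≤ P0 := by rw [hP0]; positivity
  set c : Eis → ℝ := fun L => (Div277.tau L : ℝ) ^ 2 with hc
  have hc0 : ∀ L ∈ S Y, 0 ≤ c L := fun L _ => by simp only [hc]; positivity
  unfold RemD
  refine (norm_sum_le _ _).trans ?_
  have key : ∀ e ∈ pdiv d, ‖(mu e : ℂ) * (nm e : ℂ)⁻¹ *
      (∑ κ ∈ J, BT Y α d κ (Tk w κ) (xk K κ (g2 κ e)) +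
        ∑' κ : Eis, if CF κ ∧ κ ∉ J then BT Y α d κ (Sk w κ) (xk K κ (g2 κ e)) else 0)‖ ≤
      (C₁ + C₂) * P0 * ∑ L ∈ S Y, c L * WS A B K X α J d L := by
    intro e he
    obtain ⟨hep, hed⟩ := (mem_pdiv hd.ne_zero).mp he
    have he0 := nmpos hep.ne_zero
    by_cases hJ0 : True
    · have hmu : ‖(mu e : ℂ)‖ ≤ 1 := by
        have := abs_mu_le_one e
        rw [Complex.norm_intCast]
        exact_mod_cast this
      have t2 := (tail_le (B := B) (F := fun κ => BT Y α d κ (Sk w κ) (xk K κ (g2 κ e)))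
        hA hB hC₂ hK hX hP00 hY0
        hα.sup hd hd'.2.2 hep hed J c hc0 (fun κ hκ => by
          have := h2 κ Y hY α hα.sup d hd _ (xk K κ (g2 κ e)) hs
          rwa [exp_lm hK hX hd.ne_zero hκ.1.1 (g2_prim κ e).ne_zero] at this)).2
      have t1 : ‖∑ κ ∈ J, BT Y α d κ (Tk w κ) (xk K κ (g2 κ e))‖ ≤
          nm e * (C₁ * P0 * ∑ L ∈ S Y, c L *
          ∑ κ ∈ J, min (nm L : ℝ) (lm K X d κ) * Wf A α d κ L) := by
        refine fin_le (Y := Y) hC₁ hK hX hP00 hd'.2.2 hep hed J c hc0 (fun κ hκ => ?_)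
        have := h1 κ Y hY α hα.sup d hd _ (xk K κ (g2 κ e)) hs
        rwa [exp_lm hK hX hd.ne_zero (hJ κ hκ).1 (g2_prim κ e).ne_zero] at this
      rw [norm_mul, norm_mul, norm_inv, Complex.norm_natCast]
      have hWS : ∑ L ∈ S Y, c L * WS A B K X α J d L =
          ∑ L ∈ S Y, c L * ∑ κ ∈ J, min (nm L : ℝ) (lm K X d κ) * Wf A α d κ L +
          ∑ L ∈ S Y, c L * ∑' κ : Eis, (if CF κ ∧ κ ∉ J then tl B K X d κ * Wf A α d κ L else 0) := by
        rw [← Finset.sum_add_distrib]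
        refine Finset.sum_congr rfl fun L _ => ?_
        unfold WS; ring
      set S1 := ∑ L ∈ S Y, c L * ∑ κ ∈ J, min (nm L : ℝ) (lm K X d κ) * Wf A α d κ L
      set S2 := ∑ L ∈ S Y, c L * ∑' κ : Eis,
        (if CF κ ∧ κ ∉ J then tl B K X d κ * Wf A α d κ L else 0)
      have hS1 : 0 ≤ S1 := Finset.sum_nonneg fun L hL => mul_nonneg (hc0 L hL)
        (Finset.sum_nonneg fun κ _ => mul_nonneg (le_min (Nat.cast_nonneg _)
          (lm_nonneg hK.le hX.le _ _)) (Wf_nonneg _ _ _ _ _))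
      have hS2 : 0 ≤ S2 := Finset.sum_nonneg fun L hL => mul_nonneg (hc0 L hL)
        (tsum_nonneg fun κ => by
          split_ifs
          · exact mul_nonneg (tl_nonneg hK.le hX.le _ _) (Wf_nonneg _ _ _ _ _)
          · exact le_rfl)
      calc ‖(mu e : ℂ)‖ * (nm e : ℝ)⁻¹ * ‖_‖
          ≤ 1 * (nm e : ℝ)⁻¹ * (nm e * (C₁ * P0 * S1) + nm e * (C₂ * P0 * S2)) := by
            refine mul_le_mul (mul_le_mul_of_nonneg_right hmu (by positivity))
              ((norm_add_le _ _).trans (add_le_add t1 t2)) (norm_nonneg _) (by positivity)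
        _ = C₁ * P0 * S1 + C₂ * P0 * S2 := by field_simp
        _ ≤ (C₁ + C₂) * P0 * (S1 + S2) := by
            have a1 : 0 ≤ C₁ * P0 * S2 := by positivity
            have a2 : 0 ≤ C₂ * P0 * S1 := by positivity
            linarith
        _ = _ := by rw [hWS]
    · exact absurd trivial hJ0
  refine (Finset.sum_le_sum key).trans (le_of_eq ?_)
  have e9 : ((pdiv d).card : ℝ) = Div277.tau d := rfl
  rw [Finset.sum_const, nsmul_eq_mul, hP0, exp_neg_log hX hd.ne_zero, e9]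
  ring

/-- the diagonal of `E1` -/
def Dg (w : ℝ → ℝ) (K Y : ℝ) (α : Eis → ℂ) : ℝ :=
  2 * K / (9 * Real.sqrt 3) * Wt w 0 * ∑ d ∈ S Y, PE d * ‖α d‖ ^ 2

/-- the main form of `E1` -/
def Mn (w : ℝ → ℝ) (K Y : ℝ) (α : Eis → ℂ) (J : Eis → Finset Eis) : ℂ :=
  ((cP w * K ^ (2 / 3 : ℝ) : ℝ) : ℂ) * ∑ d ∈ S Y, cpS Y α α d (fun k₁ k₂ => Mp (J d) d k₁ k₂)

/-- **E1, unsigned.** -/
theorem E1_final {w : ℝ → ℝ} (hw : Wgt w) {R : ℝ} (hR : 0 ≤ R) {A B : ℝ} (hA : 1 < A)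
    (hB : 1 ≤ B) : ∃ C : ℝ, 0 ≤ C ∧ ∀ K X Y : ℝ, 0 < K → 0 < X → 1 ≤ Y → ∀ α : Eis → ℂ,
      Adm Y X R α → ∀ J : Eis → Finset Eis, (∀ d, ∀ κ ∈ J d, CF κ) →
      ‖((SqP w K α : ℝ) : ℂ) - ((Dg w K Y α : ℝ) : ℂ) - Mn w K Y α J‖ ≤
        C * (1 + Real.log Y) * (K / X) * ∑ d ∈ S Y, (nm d * Div277.tau d *
          ∑ L ∈ S Y, (Div277.tau L : ℝ) ^ 2 * WS A B K X α (J d) d L) := by
  obtain ⟨C, hC, h⟩ := norm_RemD_le hw hR hA hB
  refine ⟨C, hC, fun K X Y hK hX hY α hα J hJ => ?_⟩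
  have hlogY := Real.log_nonneg hY
  have h0 := E1_exact hw hK hY hα.sup J hJ
  have e1 : ((SqP w K α : ℝ) : ℂ) - ((Dg w K Y α : ℝ) : ℂ) - Mn w K Y α J =
      ((2 * K / (54 * Real.sqrt 3) : ℝ) : ℂ) * ∑ d ∈ S Y, RemD w K Y α (J d) d := by
    rw [h0]; unfold Dg Mn; ring
  rw [e1, norm_mul, Complex.norm_real, Real.norm_of_nonneg (by positivity)]
  have hs3 : 1 ≤ Real.sqrt 3 := Real.one_le_sqrt.mpr (by norm_num)
  have e2 : 2 * K / (54 * Real.sqrt 3) ≤ K := by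
    rw [div_le_iff₀ (by positivity)]
    nlinarith
  have hsum : ‖∑ d ∈ S Y, RemD w K Y α (J d) d‖ ≤ ∑ d ∈ S Y, C * (1 + Real.log Y) *
      (nm d / X * Div277.tau d * ∑ L ∈ S Y, (Div277.tau L : ℝ) ^ 2 * WS A B K X α (J d) d L) :=
    (norm_sum_le _ _).trans (Finset.sum_le_sum fun d hd => h K X Y hK hX hY α hα d hd (J d) (hJ d))
  refine (mul_le_mul e2 hsum (norm_nonneg _) hK.le).trans (le_of_eq ?_)
  rw [Finset.mul_sum, Finset.mul_sum]
  refine Finset.sum_congr rfl fun d _ => ?_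
  ring

end Crest.Agent.R017.E1551
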