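import Crest.Agent.R017.E1l_551

/-!
# Row 17, block C70 (exact square), leaf E1, part m (helper551): the signed inequality

`E1_signed` : the exact quadratic forms of `d = L = 1` are kept, everything else is an error.
-/

set_option autoImplicit false

noncomputable section

open Complex MeasureTheory
open scoped ComplexConjugate Classical

namespace Crest.Agent.R017.E1551

open Crest.Agent.R012 Crest.Agent.R012.Eis Crest.Agent.R012.MC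
open Crest.Agent.R012.LS2 (S mem_S)
open Crest.Agent.R012.Mob705 (mu pdiv mem_pdiv mu_mul abs_mu_le_one PE pp)
open Crest.Agent.R017.PX764 (cpS)
open Crest.Agent.R017.CM106 (CS TG)

/-- the exact quadratic form of `d = L = 1` -/
def QD (w : ℝ → ℝ) (K Y : ℝ) (α : Eis → ℂ) (J : Finset Eis) : ℂ :=
  ∑ κ ∈ J, Qf Y α 1 κ (Tk w κ) (xk K κ 1) 1 1 1 +
    ∑' κ : Eis, if CF κ ∧ κ ∉ J then Qf Y α 1 κ (Sk w κ) (xk K κ 1) 1 1 1 else 0

lemma g2_one (κ : Eis) : g2 κ 1 = 1 := by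
  have h := g2_prod (κ := κ) (S := ∅) (by intro x hx; simp at hx)
  simpa using h

lemma pdiv_one : pdiv (1 : Eis) = {1} := by
  ext x
  rw [mem_pdiv one_ne_zero, Finset.mem_singleton]
  constructor
  · rintro ⟨h1, h2⟩
    exact h1.eq_of_associated isPrim_one (associated_one_iff_isUnit.mpr (isUnit_of_dvd_one h2))
  · rintro rfl
    exact ⟨isPrim_one, dvd_rfl⟩

lemma RemD_one (w : ℝ → ℝ) (K Y : ℝ) (α : Eis → ℂ) (J : Finset Eis) :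
    RemD w K Y α J 1 = ∑ κ ∈ J, BT Y α 1 κ (Tk w κ) (xk K κ 1) +
      ∑' κ : Eis, if CF κ ∧ κ ∉ J then BT Y α 1 κ (Sk w κ) (xk K κ 1) else 0 := by
  unfold RemD
  rw [pdiv_one, Finset.sum_singleton, Mob705.mu_one, nm_one]
  simp only [g2_one]
  simp

lemma one_mem_S {Y : ℝ} (hY : 1 ≤ Y) : (1 : Eis) ∈ S Y :=
  (mem_S (by linarith)).2 ⟨by rw [nm_one]; exact_mod_cast hY, isPrim_one, squarefree_one⟩

lemma exp_lm_one {K X : ℝ} (hK : 0 < K) (hX : 0 < X) {κ : Eis} (hκ : κ ≠ 0) :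
    Real.exp (-(xk K κ 1 - 2 * Real.log (X / nm 1)) / 3) = lm K X 1 κ := by
  rw [exp_lm hK hX one_ne_zero hκ one_ne_zero, nm_one]
  push_cast
  rw [one_mul]

/-- the weights `c(L)` -/
def cL (δ : ℝ) (L : Eis) : ℝ := if L = 1 then δ else δ⁻¹ * (Div277.tau L : ℝ) ^ 2

lemma cL_nonneg {δ : ℝ} (hδ : 0 < δ) (L : Eis) : 0 ≤ cL δ L := by
  unfold cL; split_ifs <;> positivity

lemma sum_cL {δ : ℝ} {Y : ℝ} (hY : 1 ≤ Y) (f : Eis → ℝ) :
    ∑ L ∈ S Y, cL δ L * f L = δ * f 1 + δ⁻¹ * ∑ L ∈ (S Y).erase 1, (Div277.tau L : ℝ) ^ 2 * f L := by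
  rw [← Finset.add_sum_erase _ _ (one_mem_S hY), Finset.mul_sum]
  have e1 : cL δ 1 = δ := by unfold cL; rw [if_pos rfl]
  rw [e1]
  congr 1
  refine Finset.sum_congr rfl fun L hL => ?_
  unfold cL
  rw [if_neg (Finset.ne_of_mem_erase hL)]
  ring

lemma arith_m {C₁ C₂ P U1 U2 U3 δi : ℝ} (h1 : 0 ≤ C₁) (h2 : 0 ≤ C₂) (hP : 0 ≤ P) (n1 : 0 ≤ U1)
    (n2 : 0 ≤ U2) (n3 : 0 ≤ U3) (hδi : 1 ≤ δi) :
    C₁ * P * (U1 + δi * U2) + C₂ * P * U3 ≤ (C₁ + C₂) * P * (U1 + δi * (U2 + U3)) := by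
  have b1 : U3 ≤ δi * U3 := le_mul_of_one_le_left n3 hδi
  have b2 : 0 ≤ δi * U2 := by positivity
  have c1 : C₁ * P * (U1 + δi * U2) ≤ C₁ * P * (U1 + δi * (U2 + U3)) := by
    refine mul_le_mul_of_nonneg_left ?_ (by positivity)
    nlinarith
  have c2 : C₂ * P * U3 ≤ C₂ * P * (U1 + δi * (U2 + U3)) := by
    refine mul_le_mul_of_nonneg_left ?_ (by positivity)
    nlinarith
  linarith

/-- **The block `d = 1`, signed.** -/
theorem norm_RemD_sub_le {w : ℝ → ℝ} (hw : Wgt w) {R : ℝ} (hR : 0 ≤ R) {A B : ℝ} (hA : 1 < A)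
    (hB : 1 ≤ B) : ∃ C : ℝ, 0 ≤ C ∧ ∀ K X Y : ℝ, 0 < K → 0 < X → 1 ≤ Y → ∀ α : Eis → ℂ,
      Adm Y X R α → ∀ J : Finset Eis, (∀ κ ∈ J, CF κ) → ∀ δ : ℝ, 0 < δ → δ ≤ 1 →
      Summable (fun κ : Eis => if CF κ ∧ κ ∉ J then
        Qf Y α 1 κ (Sk w κ) (xk K κ 1) 1 1 1 else 0) ∧
      ‖RemD w K Y α J 1 - QD w K Y α J‖ ≤ C * (1 + Real.log Y) * (1 / X *
        (δ * WS A B K X α J 1 1 + δ⁻¹ * ∑ L ∈ (S Y).erase 1,
          (Div277.tau L : ℝ) ^ 2 * WS A B K X α J 1 L)) := by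
  obtain ⟨C₀, hC₀, h0⟩ := norm_BT_Sk hw hR (B := B) hA (by linarith)
  obtain ⟨C₁, hC₁, h1⟩ := norm_BT_sub_Tk hw hR hA
  obtain ⟨C₂, hC₂, h2⟩ := norm_BT_sub_Sk hw hR (B := B) hA (by linarith)
  refine ⟨C₁ + C₂, by positivity, fun K X Y hK hX hY α hα J hJ δ hδ hδ1 => ?_⟩
  have hY0 : 0 ≤ Y := by linarith
  have hs := hα.supC hY0 hX isPrim_one
  have hlogY := Real.log_nonneg hY
  set P0 : ℝ := Real.exp (-Real.log (X / nm 1)) * (1 + Real.log Y) with hP0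
  have hP00 : 0 ≤ P0 := by rw [hP0]; positivity
  -- summability of the bilinear forms
  have s1 := (tail_le (B := B) (F := fun κ => BT Y α 1 κ (Sk w κ) (xk K κ 1))
    hA hB hC₀ hK hX hP00 hY0 hα.sup isPrim_one squarefree_one isPrim_one dvd_rfl J
    (fun L => (Div277.tau L : ℝ) ^ 2) (fun L _ => by positivity) (fun κ hκ => by
      have := h0 κ Y hY α hα.sup 1 isPrim_one _ (xk K κ 1) hs
      rw [exp_lm_one hK hX hκ.1.1] at this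
      rw [g2_one, nm_one]
      push_cast
      rw [one_mul]
      exact this)).1
  have hdiff : ∀ κ, CF κ ∧ κ ∉ J → ‖BT Y α 1 κ (Sk w κ) (xk K κ 1) -
      Qf Y α 1 κ (Sk w κ) (xk K κ 1) 1 1 1‖ ≤ C₂ * P0 * ∑ L ∈ S Y, cL δ L *
        (OS B (nm (g2 κ 1) * lm K X 1 κ) * Wf A α 1 κ L) := by
    intro κ hκ
    have := h2 κ Y hY α hα.sup 1 isPrim_one _ (xk K κ 1) hs δ hδ hδ1
    rw [exp_lm_one hK hX hκ.1.1] at this
    rw [g2_one, nm_one, sum_cL hY]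
    push_cast
    rw [one_mul]
    exact this
  have t2 := tail_le (B := B) (F := fun κ => BT Y α 1 κ (Sk w κ) (xk K κ 1) -
      Qf Y α 1 κ (Sk w κ) (xk K κ 1) 1 1 1)
    hA hB hC₂ hK hX hP00 hY0 hα.sup isPrim_one squarefree_one isPrim_one dvd_rfl J
    (cL δ) (fun L _ => cL_nonneg hδ L) hdiff
  have s3 : Summable (fun κ : Eis => if CF κ ∧ κ ∉ J then
      Qf Y α 1 κ (Sk w κ) (xk K κ 1) 1 1 1 else 0) := by
    refine (s1.sub t2.1).congr fun κ => ?_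
    by_cases h : CF κ ∧ κ ∉ J
    · simp only [if_pos h]; ring
    · simp only [if_neg h]; ring
  refine ⟨s3, ?_⟩
  have t1 : ‖∑ κ ∈ J, (BT Y α 1 κ (Tk w κ) (xk K κ 1) -
      Qf Y α 1 κ (Tk w κ) (xk K κ 1) 1 1 1)‖ ≤ nm 1 * (C₁ * P0 * ∑ L ∈ S Y, cL δ L *
          ∑ κ ∈ J, min (nm L : ℝ) (lm K X 1 κ) * Wf A α 1 κ L) := by
    refine fin_le (Y := Y) hC₁ hK hX hP00 squarefree_one isPrim_one dvd_rfl J (cL δ)
      (fun L _ => cL_nonneg hδ L) (fun κ hκ => ?_)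
    have := h1 κ Y hY α hα.sup 1 isPrim_one _ (xk K κ 1) hs δ hδ hδ1
    rw [exp_lm_one hK hX (hJ κ hκ).1] at this
    rw [g2_one, nm_one, sum_cL hY, nm_one]
    push_cast
    rw [one_mul]
    exact this
  have e1 : RemD w K Y α J 1 - QD w K Y α J = ∑ κ ∈ J, (BT Y α 1 κ (Tk w κ) (xk K κ 1) -
      Qf Y α 1 κ (Tk w κ) (xk K κ 1) 1 1 1) + ∑' κ : Eis, if CF κ ∧ κ ∉ J then
        (BT Y α 1 κ (Sk w κ) (xk K κ 1) - Qf Y α 1 κ (Sk w κ) (xk K κ 1) 1 1 1) else 0 := by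
    rw [RemD_one]
    unfold QD
    have e2 : ∑' κ : Eis, (if CF κ ∧ κ ∉ J then
        (BT Y α 1 κ (Sk w κ) (xk K κ 1) - Qf Y α 1 κ (Sk w κ) (xk K κ 1) 1 1 1) else 0) =
        ∑' κ : Eis, (if CF κ ∧ κ ∉ J then BT Y α 1 κ (Sk w κ) (xk K κ 1) else 0) -
        ∑' κ : Eis, (if CF κ ∧ κ ∉ J then Qf Y α 1 κ (Sk w κ) (xk K κ 1) 1 1 1 else 0) := by
      rw [← Summable.tsum_sub s1 s3]
      refine tsum_congr fun κ => ?_
      by_cases h : CF κ ∧ κ ∉ J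
      · simp only [if_pos h]
      · simp only [if_neg h]; ring
    rw [e2, Finset.sum_sub_distrib]
    ring
  rw [e1]
  refine (norm_add_le _ _).trans ((add_le_add t1 t2.2).trans ?_)
  have hWS : ∑ L ∈ S Y, cL δ L * WS A B K X α J 1 L =
      ∑ L ∈ S Y, cL δ L * ∑ κ ∈ J, min (nm L : ℝ) (lm K X 1 κ) * Wf A α 1 κ L +
      ∑ L ∈ S Y, cL δ L * ∑' κ : Eis, (if CF κ ∧ κ ∉ J then tl B K X 1 κ * Wf A α 1 κ L else 0) := by
    rw [← Finset.sum_add_distrib]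
    refine Finset.sum_congr rfl fun L _ => ?_
    unfold WS; ring
  rw [← sum_cL hY, hWS]
  set S1 := ∑ L ∈ S Y, cL δ L * ∑ κ ∈ J, min (nm L : ℝ) (lm K X 1 κ) * Wf A α 1 κ L
  set S2 := ∑ L ∈ S Y, cL δ L * ∑' κ : Eis,
    (if CF κ ∧ κ ∉ J then tl B K X 1 κ * Wf A α 1 κ L else 0)
  have hS1 : 0 ≤ S1 := Finset.sum_nonneg fun L hL => mul_nonneg (cL_nonneg hδ L)
    (Finset.sum_nonneg fun κ _ => mul_nonneg (le_min (Nat.cast_nonneg _)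
      (lm_nonneg hK.le hX.le _ _)) (Wf_nonneg _ _ _ _ _))
  have hS2 : 0 ≤ S2 := Finset.sum_nonneg fun L hL => mul_nonneg (cL_nonneg hδ L)
    (tsum_nonneg fun κ => by
      split_ifs
      · exact mul_nonneg (tl_nonneg hK.le hX.le _ _) (Wf_nonneg _ _ _ _ _)
      · exact le_rfl)
  have hP1 : P0 = 1 / X * (1 + Real.log Y) := by
    rw [hP0, exp_neg_log hX one_ne_zero, nm_one]
    push_cast
    ring
  have a1 : 0 ≤ C₁ * P0 * S2 := by positivity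
  have a2 : 0 ≤ C₂ * P0 * S1 := by positivity
  calc (nm 1 : ℝ) * (C₁ * P0 * S1) + nm 1 * (C₂ * P0 * S2) = C₁ * P0 * S1 + C₂ * P0 * S2 := by
        rw [nm_one]; push_cast; ring
    _ ≤ (C₁ + C₂) * P0 * (S1 + S2) := by linarith
    _ = _ := by rw [hP1]; ring

/-- **E1, signed.** -/
theorem E1_signed {w : ℝ → ℝ} (hw : Wgt w) {R : ℝ} (hR : 0 ≤ R) {A B : ℝ} (hA : 1 < A)
    (hB : 1 ≤ B) : ∃ C : ℝ, 0 ≤ C ∧ ∀ K X Y : ℝ, 0 < K → 0 < X → 1 ≤ Y → ∀ α : Eis → ℂ,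
      Adm Y X R α → ∀ J : Eis → Finset Eis, (∀ d, ∀ κ ∈ J d, CF κ) → ∀ δ : ℝ, 0 < δ → δ ≤ 1 →
      ‖((SqP w K α : ℝ) : ℂ) - ((Dg w K Y α : ℝ) : ℂ) - Mn w K Y α J -
        ((2 * K / (54 * Real.sqrt 3) : ℝ) : ℂ) * QD w K Y α (J 1)‖ ≤
        C * (1 + Real.log Y) * (K / X) * (δ * WS A B K X α (J 1) 1 1 +
          δ⁻¹ * (∑ L ∈ (S Y).erase 1, (Div277.tau L : ℝ) ^ 2 * WS A B K X α (J 1) 1 L +
            ∑ d ∈ (S Y).erase 1, (nm d * Div277.tau d *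
              ∑ L ∈ S Y, (Div277.tau L : ℝ) ^ 2 * WS A B K X α (J d) d L))) := by
  obtain ⟨C₁, hC₁, h1⟩ := norm_RemD_sub_le hw hR hA hB
  obtain ⟨C₂, hC₂, h2⟩ := norm_RemD_le hw hR hA hB
  refine ⟨C₁ + C₂, by positivity, fun K X Y hK hX hY α hα J hJ δ hδ hδ1 => ?_⟩
  have hlogY := Real.log_nonneg hY
  have h0 := E1_exact hw hK hY hα.sup J hJ
  have e1 : ((SqP w K α : ℝ) : ℂ) - ((Dg w K Y α : ℝ) : ℂ) - Mn w K Y α J -
      ((2 * K / (54 * Real.sqrt 3) : ℝ) : ℂ) * QD w K Y α (J 1) =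
      ((2 * K / (54 * Real.sqrt 3) : ℝ) : ℂ) * ((RemD w K Y α (J 1) 1 - QD w K Y α (J 1)) +
        ∑ d ∈ (S Y).erase 1, RemD w K Y α (J d) d) := by
    have e2 := Finset.add_sum_erase (S Y) (fun d => RemD w K Y α (J d) d) (one_mem_S hY)
    rw [h0, ← e2]; unfold Dg Mn; ring
  rw [e1, norm_mul, Complex.norm_real, Real.norm_of_nonneg (by positivity)]
  have hs3 : 1 ≤ Real.sqrt 3 := Real.one_le_sqrt.mpr (by norm_num)
  have e2 : 2 * K / (54 * Real.sqrt 3) ≤ K := by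
    rw [div_le_iff₀ (by positivity)]
    nlinarith
  have a1 := (h1 K X Y hK hX hY α hα (J 1) (hJ 1) δ hδ hδ1).2
  have a2 : ‖∑ d ∈ (S Y).erase 1, RemD w K Y α (J d) d‖ ≤ C₂ * (1 + Real.log Y) * (1 / X) *
      ∑ d ∈ (S Y).erase 1, (nm d * Div277.tau d *
        ∑ L ∈ S Y, (Div277.tau L : ℝ) ^ 2 * WS A B K X α (J d) d L) := by
    refine (norm_sum_le _ _).trans ((Finset.sum_le_sum fun d hd =>
      h2 K X Y hK hX hY α hα d (Finset.mem_of_mem_erase hd) (J d) (hJ d)).trans (le_of_eq ?_))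
    rw [Finset.mul_sum]
    exact Finset.sum_congr rfl fun d _ => by ring
  set U1 := δ * WS A B K X α (J 1) 1 1 with hU1
  set U2 := ∑ L ∈ (S Y).erase 1, (Div277.tau L : ℝ) ^ 2 * WS A B K X α (J 1) 1 L with hU2
  set U3 := ∑ d ∈ (S Y).erase 1, (nm d * Div277.tau d *
        ∑ L ∈ S Y, (Div277.tau L : ℝ) ^ 2 * WS A B K X α (J d) d L) with hU3
  have hδi : 1 ≤ δ⁻¹ := (one_le_inv₀ hδ).mpr hδ1
  have n1 : 0 ≤ U1 := mul_nonneg hδ.le (WS_nonneg hK.le hX.le _ _ _ _)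
  have n2 : 0 ≤ U2 := Finset.sum_nonneg fun L _ => mul_nonneg (by positivity)
    (WS_nonneg hK.le hX.le _ _ _ _)
  have n3 : 0 ≤ U3 := Finset.sum_nonneg fun d _ => mul_nonneg (by positivity)
    (Finset.sum_nonneg fun L _ => mul_nonneg (by positivity) (WS_nonneg hK.le hX.le _ _ _ _))
  clear_value U1 U2 U3
  have a3 : ‖(RemD w K Y α (J 1) 1 - QD w K Y α (J 1)) + ∑ d ∈ (S Y).erase 1, RemD w K Y α (J d) d‖ ≤
      (C₁ + C₂) * ((1 + Real.log Y) * (1 / X)) * (U1 + δ⁻¹ * (U2 + U3)) := by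
    refine (norm_add_le _ _).trans ((add_le_add a1 a2).trans ?_)
    have := arith_m hC₁ hC₂ (P := (1 + Real.log Y) * (1 / X)) (by positivity) n1 n2 n3 hδi
    calc _ = C₁ * ((1 + Real.log Y) * (1 / X)) * (U1 + δ⁻¹ * U2) +
          C₂ * ((1 + Real.log Y) * (1 / X)) * U3 := by ring
      _ ≤ _ := this
  refine (mul_le_mul e2 a3 (norm_nonneg _) hK.le).trans (le_of_eq ?_)
  ring

end Crest.Agent.R017.E1551
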