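import Crest.Agent.R017.E1m_551

/-!
# Row 17, block C70 (exact square), leaf E1, part n (helper551): short windows

`Qf_win` : if `|log N(n) - log X| ≤ η/2` on the support, the exact quadratic form of one class is
`X⁻¹ T(x₀) ‖TG α κ‖²` up to `O(η)` times mean squares of `TG (α n^{it/η}) κ`.
-/

set_option autoImplicit false

noncomputable section

open Complex MeasureTheory
open scoped ComplexConjugate Classical ContDiff

namespace Crest.Agent.R017.E1551

open Crest.Agent.R012 Crest.Agent.R012.Eis Crest.Agent.R012.MC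
open Crest.Agent.R012.LS2 (S mem_S)
open Crest.Agent.R012.Weight600 (osc norm_osc osc_add_right osc_neg_left continuous_osc_left pw)
open Crest.Agent.R017.CM106 (CS TG norm_Gsy_le)

/-! ### derivatives -/

/-- derivative bounds for `u ↦ T w (x₀ - u) e^{-u/2}` -/
theorem gen_deriv {T : (ℝ → ℝ) → ℝ → ℝ}
    (hT : ∀ w, Wgt w → ∀ x, HasDerivAt (T w) (T (Dw w) x) x) {b : ℝ → ℝ} (hb0 : ∀ x, 0 ≤ b x)
    (hb : ∀ w, Wgt w → ∃ C : ℝ, 0 ≤ C ∧ ∀ x, |T w x| ≤ C * b x) {R : ℝ} (hR : 0 ≤ R) {Cb : ℝ}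
    (hCb : 0 ≤ Cb) (hsh : ∀ x0 u, |u| ≤ R + 1 → b (x0 - u) ≤ Cb * b x0) {w : ℝ → ℝ} (hw : Wgt w)
    (A : ℕ) : ∃ C : ℝ, 0 ≤ C ∧ ∀ x0 : ℝ,
      ContDiff ℝ ∞ (fun u : ℝ => ((T w (x0 - u) * Real.exp (-u / 2) : ℝ) : ℂ)) ∧
      ∀ n ≤ A, ∀ u, |u| ≤ R + 1 →
        ‖iteratedDeriv n (fun u : ℝ => ((T w (x0 - u) * Real.exp (-u / 2) : ℝ) : ℂ)) u‖ ≤
          C * b x0 := by
  obtain ⟨C, hC, hbn⟩ := E1c146.uniform_const (w := w)
    (P := fun w C => ∀ x, |T w x| ≤ C * b x)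
    (fun w C C' hle hP x => (hP x).trans (mul_le_mul_of_nonneg_right hle (hb0 x)))
    (fun n => hb _ (E1c146.wgt_Dwn hw n)) A
  refine ⟨2 ^ A * (C * Cb) * Real.exp ((R + 1) / 2), by positivity, fun x0 => ?_⟩
  set f : ℕ → ℝ → ℂ := fun n u => (((-1) ^ n * T (E1c146.Dw^[n] w) (x0 - u) : ℝ) : ℂ) with hf
  set g : ℕ → ℝ → ℂ := fun n u => (((-(1 / 2)) ^ n * Real.exp (-u / 2) : ℝ) : ℂ) with hg
  have hfd : ∀ n u, HasDerivAt (f n) (f (n + 1) u) u := fun n u =>
    E1c146.hasDerivAt_refl (T := T) hT hw x0 n u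
  have hgd : ∀ n u, HasDerivAt (g n) (g (n + 1) u) u := fun n u => exp_half_seq n u
  have hfc := E1c146.contDiff_seq hfd
  have hgc := E1c146.contDiff_seq hgd
  have hF : (fun u : ℝ => ((T w (x0 - u) * Real.exp (-u / 2) : ℝ) : ℂ)) =
      fun u => f 0 u * g 0 u := by
    funext u
    simp only [hf, hg]
    push_cast
    simp
  rw [hF]
  refine ⟨hfc.mul hgc, fun n hn u hu => ?_⟩
  rw [← norm_iteratedFDeriv_eq_norm_iteratedDeriv]
  refine (norm_iteratedFDeriv_mul_le (N := ∞) hfc hgc u (by exact_mod_cast le_top)).trans ?_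
  have h1 : ∀ i ∈ Finset.range (n + 1), (n.choose i : ℝ) * ‖iteratedFDeriv ℝ i (f 0) u‖ *
      ‖iteratedFDeriv ℝ (n - i) (g 0) u‖ ≤
      (n.choose i : ℝ) * ((C * Cb * b x0) * Real.exp ((R + 1) / 2)) := by
    intro i hi
    have hi' : i ≤ A := by
      have := Finset.mem_range.mp hi; omega
    rw [norm_iteratedFDeriv_eq_norm_iteratedDeriv, norm_iteratedFDeriv_eq_norm_iteratedDeriv,
      E1c146.iteratedDeriv_seq hfd, E1c146.iteratedDeriv_seq hgd, mul_assoc]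
    refine mul_le_mul_of_nonneg_left ?_ (Nat.cast_nonneg _)
    have e1 : ‖f i u‖ ≤ C * Cb * b x0 := by
      simp only [hf]
      rw [Complex.norm_real, Real.norm_eq_abs, abs_mul, abs_pow, abs_neg, abs_one, one_pow,
        one_mul]
      refine (hbn i hi' _).trans ?_
      rw [mul_assoc]
      exact mul_le_mul_of_nonneg_left (hsh x0 u hu) hC
    have e2 : ‖g (n - i) u‖ ≤ Real.exp ((R + 1) / 2) := by
      simp only [hg]
      rw [Complex.norm_real, Real.norm_eq_abs, abs_mul, abs_pow, abs_neg,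
        abs_of_pos (Real.exp_pos _)]
      have e3 : |(1 / 2 : ℝ)| ^ (n - i) ≤ 1 := by
        apply pow_le_one₀ (abs_nonneg _)
        rw [abs_of_pos (by norm_num)]; norm_num
      have e4 : Real.exp (-u / 2) ≤ Real.exp ((R + 1) / 2) := by
        apply Real.exp_le_exp.mpr
        linarith [(abs_le.mp hu).1]
      calc |(1 / 2 : ℝ)| ^ (n - i) * Real.exp (-u / 2) ≤ 1 * Real.exp ((R + 1) / 2) :=
            mul_le_mul e3 e4 (Real.exp_pos _).le zero_le_one
        _ = _ := one_mul _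
    exact mul_le_mul e1 e2 (norm_nonneg _)
      (mul_nonneg (mul_nonneg hC hCb) (hb0 x0))
  refine (Finset.sum_le_sum h1).trans ?_
  rw [← Finset.sum_mul]
  have h2 : ∑ i ∈ Finset.range (n + 1), (n.choose i : ℝ) = 2 ^ n := by
    exact_mod_cast Nat.sum_range_choose n
  rw [h2]
  have h3 : (2 : ℝ) ^ n ≤ 2 ^ A := pow_le_pow_right₀ (by norm_num) hn
  have h4 : 0 ≤ (C * Cb * b x0) * Real.exp ((R + 1) / 2) :=
    mul_nonneg (mul_nonneg (mul_nonneg hC hCb) (hb0 x0)) (Real.exp_pos _).le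
  calc (2 : ℝ) ^ n * ((C * Cb * b x0) * Real.exp ((R + 1) / 2)) ≤
      2 ^ A * ((C * Cb * b x0) * Real.exp ((R + 1) / 2)) := mul_le_mul_of_nonneg_right h3 h4
    _ = _ := by ring

/-- window kernel -/
theorem win_kernel {T : (ℝ → ℝ) → ℝ → ℝ}
    (hT : ∀ w, Wgt w → ∀ x, HasDerivAt (T w) (T (Dw w) x) x) {b : ℝ → ℝ} (hb0 : ∀ x, 0 ≤ b x)
    (hb : ∀ w, Wgt w → ∃ C : ℝ, 0 ≤ C ∧ ∀ x, |T w x| ≤ C * b x) {Cb : ℝ}
    (hCb : 0 ≤ Cb) (hsh : ∀ x0 u, |u| ≤ 1 + 1 → b (x0 - u) ≤ Cb * b x0) {w : ℝ → ℝ} (hw : Wgt w)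
    (A : ℕ) : ∃ C : ℝ, 0 ≤ C ∧ ∀ x0 η : ℝ, 0 < η → η ≤ 1 → ∃ k : ℝ → ℂ, Continuous k ∧
      Integrable k ∧ (∀ t, ‖k t‖ * (1 + |t|) ^ A ≤ C * (η * b x0)) ∧
      ∀ v, |v| ≤ 1 → ((T w (x0 - η * v) * Real.exp (-(η * v) / 2) - T w x0 : ℝ) : ℂ) =
        ∫ t, k t * osc t v := by
  obtain ⟨D, hD, hker⟩ := E1c146.kernel_of_bounds 1 zero_le_one A
  obtain ⟨C, hC, hder⟩ := gen_deriv hT hb0 hb (R := 1) zero_le_one hCb hsh hw (A + 1)
  refine ⟨D * (2 * C), by positivity, fun x0 η hη hη1 => ?_⟩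
  obtain ⟨hsm, hbd⟩ := hder x0
  set F : ℝ → ℂ := fun u : ℝ => ((T w (x0 - u) * Real.exp (-u / 2) : ℝ) : ℂ) with hF
  have hFd : ∀ n, Differentiable ℝ (iteratedDeriv n F) := fun n =>
    hsm.differentiable_iteratedDeriv n (by exact_mod_cast WithTop.coe_lt_top _)
  have hFn : ∀ n u, HasDerivAt (iteratedDeriv n F) (iteratedDeriv (n + 1) F u) u := by
    intro n u
    rw [iteratedDeriv_succ]
    exact (hFd n u).hasDerivAt
  have hM0 : 0 ≤ C * b x0 := mul_nonneg hC (hb0 x0)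
  set g : ℕ → ℝ → ℂ := fun n v => if n = 0 then F (η * v) - F 0 else
    ((η ^ n : ℝ) : ℂ) * iteratedDeriv n F (η * v) with hg
  have hscale : ∀ n v, HasDerivAt (fun v : ℝ => iteratedDeriv n F (η * v))
      ((η : ℂ) * iteratedDeriv (n + 1) F (η * v)) v := by
    intro n v
    have h1 : HasDerivAt (fun v : ℝ => η * v) η v := by
      simpa using (hasDerivAt_id v).const_mul η
    have h2 := (hFn n (η * v)).scomp v h1
    convert! h2 using 1
  have hgd : ∀ n v, HasDerivAt (g n) (g (n + 1) v) v := by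
    intro n v
    rcases Nat.eq_zero_or_pos n with rfl | hn
    · have h1 := (hscale 0 v).sub_const (F 0)
      simp only [hg, if_true, Nat.succ_ne_zero, if_false]
      rw [show (0 : ℕ) + 1 = 1 by rfl] at h1 ⊢
      simp only [iteratedDeriv_zero] at h1
      convert! h1 using 1
      simp
    · have h1 := (hscale n v).const_mul ((η ^ n : ℝ) : ℂ)
      have hn0 : n ≠ 0 := by omega
      simp only [hg, if_neg hn0, Nat.succ_ne_zero, if_false]
      convert! h1 using 1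
      push_cast
      ring
  have hgb : ∀ n ≤ A, ∀ v, |v| ≤ 1 + 1 → ‖g n v‖ ≤ η * (2 * (C * b x0)) := by
    intro n hn v hv
    have hηv : |η * v| ≤ 1 + 1 := by
      rw [abs_mul, abs_of_pos hη]
      calc η * |v| ≤ 1 * (1 + 1) := mul_le_mul hη1 hv (abs_nonneg _) zero_le_one
        _ = _ := one_mul _
    rcases Nat.eq_zero_or_pos n with rfl | hn1
    · simp only [hg, if_true]
      have hmv := (convex_Icc (-(1 + 1) : ℝ) (1 + 1)).norm_image_sub_le_of_norm_hasDerivWithin_le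
        (f := F) (f' := fun u => iteratedDeriv 1 F u) (C := C * b x0) (x := 0) (y := η * v)
        (fun u _ => by
          have := hFn 0 u
          simp only [iteratedDeriv_zero] at this
          exact this.hasDerivWithinAt)
        (fun u hu => hbd 1 (by omega) u (abs_le.mpr hu)) (by constructor <;> norm_num)
        (abs_le.mp hηv)
      refine hmv.trans ?_
      rw [sub_zero, Real.norm_eq_abs, abs_mul, abs_of_pos hη]
      calc C * b x0 * (η * |v|) ≤ C * b x0 * (η * (1 + 1)) := by gcongr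
        _ = _ := by ring
    · have hn0 : n ≠ 0 := by omega
      simp only [hg, if_neg hn0]
      rw [norm_mul, Complex.norm_real, Real.norm_of_nonneg (by positivity)]
      have h1 := hbd n (by omega) (η * v) hηv
      have h2 : η ^ n ≤ η := by
        calc η ^ n ≤ η ^ 1 := pow_le_pow_of_le_one hη.le hη1 hn1
          _ = η := pow_one η
      calc η ^ n * ‖iteratedDeriv n F (η * v)‖ ≤ η * (C * b x0) :=
            mul_le_mul h2 h1 (norm_nonneg _) hη.le
        _ ≤ η * (2 * (C * b x0)) := by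
            refine mul_le_mul_of_nonneg_left ?_ hη.le
            linarith
  obtain ⟨k, h1, h2, h3, h4⟩ := hker g (η * (2 * (C * b x0))) (by positivity) hgd hgb
  refine ⟨k, h1, h2, fun t => (h3 t).trans (le_of_eq (by ring)), fun v hv => ?_⟩
  rw [← h4 v hv]
  simp only [hg, if_true, hF]
  push_cast
  simp

/-- window kernels of `T` -/
structure WinH (T : ℝ → ℝ) (A : ℝ) (M : ℝ → ℝ) : Prop where
  ker : ∀ z η : ℝ, 0 < η → η ≤ 1 → ∃ k : ℝ → ℂ, Continuous k ∧ Integrable k ∧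
    (∀ t, ‖k t‖ ≤ η * M (Real.exp (-z / 3)) * jb A t) ∧
    ∀ v, |v| ≤ 1 → ((T (z - η * v) * Real.exp (-(η * v) / 2) - T z : ℝ) : ℂ) = ∫ t, k t * osc t v

lemma winH_of {T : (ℝ → ℝ) → ℝ → ℝ}
    (hT : ∀ w, Wgt w → ∀ x, HasDerivAt (T w) (T (Dw w) x) x) {b : ℝ → ℝ} (hb0 : ∀ x, 0 ≤ b x)
    (hb : ∀ w, Wgt w → ∃ C : ℝ, 0 ≤ C ∧ ∀ x, |T w x| ≤ C * b x)
    (hanti : ∀ x y, x ≤ y → b y ≤ b x) {Cb : ℝ}
    (hCb : 0 ≤ Cb) (hsh : ∀ x0 u, |u| ≤ 1 + 1 → b (x0 - u) ≤ Cb * b x0) {w : ℝ → ℝ} (hw : Wgt w)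
    (A : ℝ) {m : ℝ → ℝ} (hm : ∀ z, b z = m (Real.exp (-z / 3))) : ∃ C : ℝ, 0 ≤ C ∧ ∀ κ : Eis,
      WinH (fun x => if (3 : ℤ) ∣ κ.im then T w x else
        3 / 2 * T w (x + 3 * Real.log 3) - 1 / 2 * T w x) A (fun s => C * m s) := by
  obtain ⟨C1, hC1, h1⟩ := win_kernel hT hb0 hb hCb hsh hw ⌈A⌉₊
  obtain ⟨C2, hC2, h2⟩ := win_kernel
    (T := fun w x => 3 / 2 * T w (x + 3 * Real.log 3) - 1 / 2 * T w x)
    (fun w hw x => shift_deriv hT hw x) hb0 (fun w hw => two_case hb0 hanti hb w hw) hCb hsh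
    hw ⌈A⌉₊
  refine ⟨max C1 C2, le_max_of_le_left hC1, fun κ => ⟨fun z η hη hη1 => ?_⟩⟩
  have hbz : 0 ≤ b z := hb0 z
  by_cases h3 : (3 : ℤ) ∣ κ.im
  · obtain ⟨k, a1, a2, a3, a4⟩ := h1 z η hη hη1
    refine ⟨k, a1, a2, fun t => ?_, fun v hv => ?_⟩
    · have := E1c146.le_rpow_of_nat (A := A) (mul_nonneg hC1 (by positivity)) t (a3 t)
      refine this.trans ?_
      unfold jb
      refine mul_le_mul_of_nonneg_right ?_ (by positivity)
      rw [← hm]
      calc C1 * (η * b z) ≤ max C1 C2 * (η * b z) :=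
            mul_le_mul_of_nonneg_right (le_max_left _ _) (by positivity)
        _ = _ := by ring
    · simp only [if_pos h3]; exact a4 v hv
  · obtain ⟨k, a1, a2, a3, a4⟩ := h2 z η hη hη1
    refine ⟨k, a1, a2, fun t => ?_, fun v hv => ?_⟩
    · have := E1c146.le_rpow_of_nat (A := A) (mul_nonneg hC2 (by positivity)) t (a3 t)
      refine this.trans ?_
      unfold jb
      refine mul_le_mul_of_nonneg_right ?_ (by positivity)
      rw [← hm]
      calc C2 * (η * b z) ≤ max C1 C2 * (η * b z) :=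
            mul_le_mul_of_nonneg_right (le_max_right _ _) (by positivity)
        _ = _ := by ring
    · simp only [if_neg h3]; exact a4 v hv

lemma winH_Tk {w : ℝ → ℝ} (hw : Wgt w) (A : ℝ) : ∃ C : ℝ, 0 ≤ C ∧
    ∀ κ : Eis, WinH (Tk w κ) A (fun s => C * min 1 s) :=
  winH_of (T := Tc) (fun w hw x => hasDerivAt_Tc hw x)
    (fun x => le_min zero_le_one (Real.exp_pos _).le)
    (fun w hw => Tc_bound hw)
    (fun x y h => min_le_min le_rfl (Real.exp_le_exp.mpr (by linarith)))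
    (Real.exp_pos ((1 + 1) / 3)).le (fun x0 u hu => min_shift hu) hw A (fun z => rfl)

lemma winH_Sk {w : ℝ → ℝ} (hw : Wgt w) (A : ℝ) (B : ℕ) : ∃ C : ℝ, 0 ≤ C ∧
    ∀ κ : Eis, WinH (Sk w κ) A (fun s => C * OS B s) := by
  refine winH_of (T := Sc) (b := bS B) (fun w hw x => hasDerivAt_Sc hw x) (bS_nonneg B)
    (fun w hw => by
      obtain ⟨C, hC, h⟩ := Sc_bound hw B
      exact ⟨C, hC, fun x => (h x).trans (le_of_eq (by unfold bS; ring))⟩)
    (fun x y h => bS_anti B h)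
    (by positivity) (fun x0 u hu => bS_shift B hu) hw A (fun z => ?_)
  unfold bS OS
  have e : Real.exp z = ((Real.exp (-z / 3)) ^ 3)⁻¹ := by
    rw [← Real.exp_nat_mul, ← Real.exp_neg]
    congr 1; push_cast; ring
  have he := Real.exp_pos (-z / 3)
  rw [div_eq_mul_inv, e, Real.rpow_neg (by positivity), Real.rpow_natCast]

/-! ### the quadratic form -/

/-- the twisted Gauss-side sum -/
def Vt (α : Eis → ℂ) (κ : Eis) (s : ℝ) : ℂ := TG (fun m => α m * pw s (nm m)) κ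

lemma Vt_fin {Y : ℝ} {α : Eis → ℂ} (hα : ∀ n, α n ≠ 0 → n ∈ S Y) (κ : Eis) (s : ℝ) :
    Vt α κ s = ∑ k ∈ S Y, α k * pw s (nm k) * (G k * conj (sy κ k)) := by
  unfold Vt TG
  refine tsum_eq_sum fun m hm => ?_
  have : α m = 0 := by
    by_contra h; exact hm (hα m h)
  show α m * pw s (nm m) * (G m * conj (sy κ m)) = 0
  rw [this]; simp

lemma Vt_zero {α : Eis → ℂ} (κ : Eis) : Vt α κ 0 = TG α κ := by
  unfold Vt
  congr 1
  funext m
  rw [Weight600.pw_zero_left, mul_one]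

lemma continuous_Vt {Y : ℝ} {α : Eis → ℂ} (hα : ∀ n, α n ≠ 0 → n ∈ S Y) (κ : Eis) :
    Continuous fun s => Vt α κ s := by
  have : (fun s => Vt α κ s) = fun s => ∑ k ∈ S Y, α k * pw s (nm k) * (G k * conj (sy κ k)) := by
    funext s; exact Vt_fin hα κ s
  rw [this]
  refine continuous_finsetSum _ fun m _ => ?_
  exact (continuous_const.mul (continuous_pw' _)).mul continuous_const

lemma norm_Vt_le {Y : ℝ} (hY : 0 ≤ Y) {α : Eis → ℂ} (hα : ∀ n, α n ≠ 0 → n ∈ S Y) (κ : Eis)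
    (s : ℝ) : ‖Vt α κ s‖ ≤ ∑ k ∈ S Y, ‖α k‖ := by
  rw [Vt_fin hα]
  refine (norm_sum_le _ _).trans (Finset.sum_le_sum fun m hm => ?_)
  rw [norm_mul, norm_mul, Weight600.norm_pw, mul_one]
  exact mul_le_of_le_one_right (norm_nonneg _) (norm_Gsy_le ((mem_S hY).1 hm).2.1)

lemma integrable_Vt {A : ℝ} (hA : 1 < A) {Y : ℝ} (hY : 0 ≤ Y) {α : Eis → ℂ}
    (hα : ∀ n, α n ≠ 0 → n ∈ S Y) (κ : Eis) (η : ℝ) :
    Integrable fun t => jb A t * ‖Vt α κ (t / η)‖ ^ 2 := by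
  refine integrable_jb_mul hA ?_ (B := (∑ k ∈ S Y, ‖α k‖) ^ 2) fun t => ?_
  · have h1 : Continuous fun t : ℝ => Vt α κ (t / η) :=
      (continuous_Vt hα κ).comp (continuous_id.div_const η)
    fun_prop
  · rw [abs_of_nonneg (by positivity)]
    exact pow_le_pow_left₀ (norm_nonneg _) (norm_Vt_le hY hα κ _) 2

/-- **The exact quadratic form of one class in a short window.** -/
theorem Qf_win {T M : ℝ → ℝ} {A : ℝ} (hA : 1 < A) (hT : WinH T A M) (hM : ∀ s, 0 < s → 0 ≤ M s)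
    {Y : ℝ} (hY : 0 ≤ Y) {α : Eis → ℂ} (hα : ∀ n, α n ≠ 0 → n ∈ S Y) {X η : ℝ} (hX : 0 < X)
    (hη : 0 < η) (hη1 : η ≤ 1)
    (hwin : ∀ n, α n ≠ 0 → |Real.log (nm n) - Real.log X| ≤ η / 2) (κ : Eis) (x : ℝ) :
    ‖Qf Y α 1 κ T x 1 1 1 - ((1 / X * (T (x - 2 * Real.log X) * ‖TG α κ‖ ^ 2) : ℝ) : ℂ)‖ ≤
      1 / X * (η * M (Real.exp (-(x - 2 * Real.log X) / 3)) *
        ∫ t, jb A t * ‖Vt α κ (t / η)‖ ^ 2) := by
  set z := x - 2 * Real.log X with hz
  obtain ⟨k, hk1, hk2, hk3, hk4⟩ := hT.ker z η hη hη1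
  set c : Eis → ℂ := fun m => α m * (G m * conj (sy κ m)) with hc
  set v : Eis → ℝ := fun m => (Real.log (nm m) - Real.log X) / η with hv
  set U : ℝ → ℂ := fun t => ∑ m ∈ S Y, c m * osc t (v m) with hU
  -- the kernel integrals
  have hcont : ∀ m, Continuous fun t => c m * osc t (v m) := fun m =>
    continuous_const.mul (continuous_osc_left _)
  have hbd : ∀ m t, ‖c m * osc t (v m)‖ ≤ ‖c m‖ := fun m t => by
    rw [norm_mul, norm_osc, mul_one]
  have hint : ∀ m₁ m₂, Integrable fun t => k t * ((c m₁ * osc t (v m₁)) *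
      conj (c m₂ * osc (-t) (v m₂))) := by
    intro m₁ m₂
    have hcc : Continuous fun t => (c m₁ * osc t (v m₁)) * conj (c m₂ * osc (-t) (v m₂)) :=
      (hcont m₁).mul (Complex.continuous_conj.comp ((hcont m₂).comp continuous_neg))
    refine hk2.mul_bdd (c := ‖c m₁‖ * ‖c m₂‖) hcc.aestronglyMeasurable
      (Filter.Eventually.of_forall fun t => ?_)
    rw [norm_mul, RCLike.norm_conj]
    exact mul_le_mul (hbd _ _) (hbd _ _) (norm_nonneg _) (norm_nonneg _)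
  have hpair : ∀ m₁ ∈ S Y, ∀ m₂ ∈ S Y,
      (((Real.sqrt (nm m₁ * nm m₂))⁻¹ : ℝ) : ℂ) * (c m₁ * conj (c m₂)) *
        ((T (x - Real.log (nm m₁) - Real.log (nm m₂)) : ℝ) : ℂ) =
      ((1 / X : ℝ) : ℂ) * (((T z : ℝ) : ℂ) * (c m₁ * conj (c m₂)) +
        ∫ t, k t * ((c m₁ * osc t (v m₁)) * conj (c m₂ * osc (-t) (v m₂)))) := by
    intro m₁ h₁ m₂ h₂
    by_cases a1 : α m₁ = 0
    · have : c m₁ = 0 := by simp only [hc, a1, zero_mul]
      simp [this]
    by_cases a2 : α m₂ = 0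
    · have : c m₂ = 0 := by simp only [hc, a2, zero_mul]
      simp [this]
    have n1 := nmpos ((mem_S hY).1 h₁).2.1.ne_zero
    have n2 := nmpos ((mem_S hY).1 h₂).2.1.ne_zero
    have b1 := hwin m₁ a1
    have b2 := hwin m₂ a2
    have hv12 : |v m₁ + v m₂| ≤ 1 := by
      have e : v m₁ + v m₂ = ((Real.log (nm m₁) - Real.log X) +
          (Real.log (nm m₂) - Real.log X)) / η := by simp only [hv]; ring
      rw [e, abs_div, abs_of_pos hη, div_le_one hη]
      exact (abs_add_le _ _).trans (by linarith)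
    have h3 := hk4 (v m₁ + v m₂) hv12
    have e1 : ∀ t, k t * ((c m₁ * osc t (v m₁)) * conj (c m₂ * osc (-t) (v m₂))) =
        (c m₁ * conj (c m₂)) * (k t * osc t (v m₁ + v m₂)) := by
      intro t
      rw [map_mul, osc_neg_left, Complex.conj_conj, osc_add_right]
      ring
    simp_rw [e1]
    rw [integral_const_mul, ← h3]
    have hηv : η * (v m₁ + v m₂) = Real.log (nm m₁) + Real.log (nm m₂) - 2 * Real.log X := by
      simp only [hv]; field_simp; ring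
    have e2 : (Real.sqrt (nm m₁ * nm m₂))⁻¹ = 1 / X * Real.exp (-(η * (v m₁ + v m₂)) / 2) := by
      have eX : 1 / X = Real.exp (-Real.log X) := by
        rw [Real.exp_neg, Real.exp_log hX, one_div]
      rw [Real.sqrt_eq_rpow, ← Real.rpow_neg (by positivity), Real.rpow_def_of_pos (by positivity),
        Real.log_mul n1.ne' n2.ne', hηv, eX, ← Real.exp_add]
      congr 1
      ring
    have e3 : x - Real.log (nm m₁) - Real.log (nm m₂) = z - η * (v m₁ + v m₂) := by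
      rw [hηv, hz]; ring
    rw [e2, e3]
    push_cast
    ring
  have hQ : Qf Y α 1 κ T x 1 1 1 = ((1 / X : ℝ) : ℂ) * (((T z : ℝ) : ℂ) *
      ((∑ m ∈ S Y, c m) * conj (∑ m ∈ S Y, c m)) + ∫ t, k t * (U t * conj (U (-t)))) := by
    have e1 : ∀ t, k t * (U t * conj (U (-t))) = ∑ m₁ ∈ S Y, ∑ m₂ ∈ S Y,
        k t * ((c m₁ * osc t (v m₁)) * conj (c m₂ * osc (-t) (v m₂))) := by
      intro t
      simp only [hU]
      rw [map_sum, Finset.sum_mul_sum, Finset.mul_sum]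
      refine Finset.sum_congr rfl fun m₁ _ => ?_
      rw [Finset.mul_sum]
    simp_rw [e1]
    rw [integral_finsetSum _ fun m₁ _ => integrable_finsetSum _ fun m₂ _ => hint m₁ m₂, map_sum,
      Finset.sum_mul_sum, Finset.mul_sum, ← Finset.sum_add_distrib, Finset.mul_sum]
    unfold Qf
    refine Finset.sum_congr rfl fun m₁ h₁ => ?_
    rw [integral_finsetSum _ fun m₂ _ => hint m₁ m₂, Finset.mul_sum, ← Finset.sum_add_distrib,
      Finset.mul_sum]
    refine Finset.sum_congr rfl fun m₂ h₂ => ?_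
    rw [if_pos ⟨⟨one_dvd _, one_dvd _⟩, ⟨one_dvd _, one_dvd _⟩⟩, ← hpair m₁ h₁ m₂ h₂]
    have ecc : ∀ m, cc α 1 κ m = c m := fun m => by unfold cc; rw [one_mul]
    rw [ecc, ecc, nm_one]
    simp
  have hTG : ∑ m ∈ S Y, c m = TG α κ := by
    rw [← Vt_zero, Vt_fin hα]
    refine Finset.sum_congr rfl fun m _ => ?_
    rw [Weight600.pw_zero_left, mul_one]
  have hUV : ∀ t, ‖U t‖ = ‖Vt α κ (t / η)‖ := by
    intro t
    have e1 : U t = osc (t / η) (-Real.log X) * Vt α κ (t / η) := by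
      rw [Vt_fin hα, Finset.mul_sum]
      simp only [hU]
      refine Finset.sum_congr rfl fun m _ => ?_
      have e2 : osc t (v m) = osc (t / η) (-Real.log X) * pw (t / η) (nm m) := by
        unfold pw
        rw [← osc_add_right]
        unfold osc
        congr 2
        simp only [hv]
        push_cast
        ring
      rw [e2]
      simp only [hc]
      ring
    rw [e1, norm_mul, norm_osc, one_mul]
  rw [hQ, hTG]
  have e5 : ((1 / X : ℝ) : ℂ) * (((T z : ℝ) : ℂ) * (TG α κ * conj (TG α κ)) +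
      ∫ t, k t * (U t * conj (U (-t)))) - ((1 / X * (T z * ‖TG α κ‖ ^ 2) : ℝ) : ℂ) =
      ((1 / X : ℝ) : ℂ) * ∫ t, k t * (U t * conj (U (-t))) := by
    have : TG α κ * conj (TG α κ) = ((‖TG α κ‖ ^ 2 : ℝ) : ℂ) := by
      rw [Complex.mul_conj, Complex.normSq_eq_norm_sq]
    rw [this]
    push_cast
    ring
  rw [e5, norm_mul, Complex.norm_real, Real.norm_of_nonneg (by positivity)]
  refine mul_le_mul_of_nonneg_left ?_ (by positivity)
  set M0 := M (Real.exp (-z / 3)) with hM0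
  have hM0' : 0 ≤ M0 := hM _ (Real.exp_pos _)
  have hi1 := integrable_Vt hA hY hα κ η
  have hi2 : Integrable fun t => jb A t * ‖Vt α κ (-t / η)‖ ^ 2 := by
    have h := hi1.comp_neg
    refine h.congr (Filter.Eventually.of_forall fun t => ?_)
    simp only [jb_neg]
  have hneg : ∫ t, jb A t * ‖Vt α κ (-t / η)‖ ^ 2 = ∫ t, jb A t * ‖Vt α κ (t / η)‖ ^ 2 := by
    rw [← integral_neg_eq_self (μ := volume) (fun t => jb A t * ‖Vt α κ (t / η)‖ ^ 2)]
    refine integral_congr_ae (Filter.Eventually.of_forall fun t => ?_)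
    simp only [jb_neg]
  have hg : Integrable fun t => η * M0 * (1 / 2) *
      (jb A t * ‖Vt α κ (t / η)‖ ^ 2 + jb A t * ‖Vt α κ (-t / η)‖ ^ 2) :=
    (hi1.add hi2).const_mul _
  refine (norm_integral_le_of_norm_le hg (Filter.Eventually.of_forall fun t => ?_)).trans ?_
  · rw [norm_mul, norm_mul, RCLike.norm_conj, hUV, hUV]
    set a := ‖Vt α κ (t / η)‖
    set b := ‖Vt α κ (-t / η)‖
    have ha : 0 ≤ a := norm_nonneg _
    have hb : 0 ≤ b := norm_nonneg _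
    have hab : a * b ≤ 1 / 2 * (a ^ 2 + b ^ 2) := by nlinarith [sq_nonneg (a - b)]
    calc ‖k t‖ * (a * b) ≤ (η * M0 * jb A t) * (1 / 2 * (a ^ 2 + b ^ 2)) :=
          mul_le_mul (hk3 t) hab (by positivity)
            (mul_nonneg (mul_nonneg hη.le hM0') (jb_pos A t).le)
      _ = _ := by ring
  · rw [integral_const_mul, integral_add hi1 hi2, hneg]
    exact le_of_eq (by ring)

end Crest.Agent.R017.E1551
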