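import Crest.Agent.R017.E1p_551
import Crest.Agent.R017.SqLoc2_829

/-!
# Row 17, block C70 (exact square), leaf E1, part o (helper551): the main form is `XJ`

* `Mn_JE` : `Mn w K Y α (JE D Y₀ Y₁) = 2 cP w K^{2/3} XJ (JW D Y₀ Y₁) α`
* `mem_JE_one` : the classes of `J 1`
-/

set_option autoImplicit false

noncomputable section

open Complex MeasureTheory
open scoped ComplexConjugate Classical

namespace Crest.Agent.R017.E1551

open Crest.Agent.R012 Crest.Agent.R012.Eis Crest.Agent.R012.MC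
open Crest.Agent.R012.LS2 (S mem_S)
open Crest.Agent.R017.PX764 (cpS)
open Crest.Agent.R017.Dual2813 (S_of_dvd)
open Crest.Agent.R017.SqLoc829 (FQ JE JE_cf mem_JE main_E1 gd)
open Crest.Agent.R017.C70 (JW XJ)

lemma fq_S {Y : ℝ} (hY : 0 ≤ Y) {α : Eis → ℂ} (hα : ∀ n, α n ≠ 0 → n ∈ S Y) : FQ α (S Y) where
  prim := fun m hm => ((mem_S hY).1 (hα m hm)).2.1
  sqf := fun m hm => ((mem_S hY).1 (hα m hm)).2.2
  D_prim := fun d hd => ((mem_S hY).1 hd).2.1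
  dvd_mem := fun m hm d hd hdm => S_of_dvd hY (hα m hm) hd hdm

/-- **the main form of E1** -/
theorem Mn_JE {w : ℝ → ℝ} {K Y : ℝ} (hY : 0 ≤ Y) {α : Eis → ℂ} (hα : ∀ n, α n ≠ 0 → n ∈ S Y)
    (D Y₀ Y₁ : ℝ) : Mn w K Y α (JE D Y₀ Y₁) =
      ((2 * cP w * K ^ (2 / 3 : ℝ) : ℝ) : ℂ) * XJ (JW D Y₀ Y₁) α := by
  have h := main_E1 (fq_S hY hα) D Y₀ Y₁
  unfold Mn cpS
  rw [h]
  push_cast
  ring

lemma gd_one (κ : Eis) : gd κ 1 = 1 := by
  have h := SqLoc829.gd_dvd_right κ 1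
  exact (SqLoc829.gd_prim κ 1).eq_of_associated isPrim_one
    (associated_one_iff_isUnit.mpr (isUnit_of_dvd_one h))

lemma mem_JE_one {D Y₀ Y₁ : ℝ} (hD : 1 ≤ D) (κ : Eis) :
    κ ∈ JE D Y₀ Y₁ 1 ↔ CF κ ∧ Y₀ < nm κ ∧ (nm κ : ℝ) ≤ Y₁ := by
  rw [mem_JE isPrim_one, gd_one]
  have e1 : κ / (1 : Eis) = κ := by
    have := SqLoc829.mul_div_self (a := (1 : Eis)) (b := κ) one_ne_zero
    rwa [one_mul] at this
  have e2 : (1 : Eis) / 1 = 1 := by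
    have := SqLoc829.mul_div_self (a := (1 : Eis)) (b := 1) one_ne_zero
    rwa [one_mul] at this
  rw [e1, e2, one_pow, mul_one, nm_one]
  constructor
  · rintro ⟨h1, -, h2, h3⟩; exact ⟨h1, h2, h3⟩
  · rintro ⟨h1, h2, h3⟩
    exact ⟨h1, Nat.le_floor (by exact_mod_cast hD), h2, h3⟩

end Crest.Agent.R017.E1551
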