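import Crest.Agent.R017.E1m_551
import Crest.Agent.R017.E1n_551

/-!
# Row 17, block C70 (exact square), leaf E1, part p (helper551): the positive form of E1

`E1pos_of` : for a weight `w` whose cube-sum kernels have a sign, the moments
`∑_{κ ∈ J 1, good} min(1, lm) ‖TG α κ‖²` are bounded by `Dg + Re Mn - SqP` and errors.
-/

set_option autoImplicit false

noncomputable section

open Complex MeasureTheory
open scoped ComplexConjugate Classical

namespace Crest.Agent.R017.E1551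

open Crest.Agent.R012 Crest.Agent.R012.Eis Crest.Agent.R012.MC
open Crest.Agent.R012.LS2 (S mem_S)
open Crest.Agent.R012.Mob705 (mu pdiv mem_pdiv mu_mul abs_mu_le_one PE pp)
open Crest.Agent.R012.Weight600 (osc pw)
open Crest.Agent.R017.PX764 (cpS)
open Crest.Agent.R017.CM106 (CS TG)

/-- the error weights of `E1_signed` -/
def EP (A B K X Y δ : ℝ) (α : Eis → ℂ) (J : Eis → Finset Eis) : ℝ :=
  δ * WS A B K X α (J 1) 1 1 +
    δ⁻¹ * (∑ L ∈ (S Y).erase 1, (Div277.tau L : ℝ) ^ 2 * WS A B K X α (J 1) 1 L +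
      ∑ d ∈ (S Y).erase 1, (nm d * Div277.tau d *
        ∑ L ∈ S Y, (Div277.tau L : ℝ) ^ 2 * WS A B K X α (J d) d L))

lemma Adm.mono {Y X R R' : ℝ} {α : Eis → ℂ} (h : Adm Y X R α) (hR : R ≤ R') : Adm Y X R' α :=
  ⟨h.sup, fun n hn => (h.win n hn).trans (by linarith)⟩

lemma tl_one {B K X : ℝ} {κ : Eis} : tl B K X 1 κ = OS B (lm K X 1 κ) := by
  unfold tl OS
  rw [g2_one, nm_one]
  push_cast
  rw [one_mul]

/-- one class of the tail of `QD` -/
lemma norm_Qf_Sk {w : ℝ → ℝ} (hw : Wgt w) {R : ℝ} (hR : 0 ≤ R) {A B : ℝ} (hA : 1 < A) :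
    ∃ C : ℝ, 0 ≤ C ∧ ∀ K X Y : ℝ, 0 < K → 0 < X → 1 ≤ Y → ∀ α : Eis → ℂ, Adm Y X R α →
      ∀ κ : Eis, κ ≠ 0 →
      ‖Qf Y α 1 κ (Sk w κ) (xk K κ 1) 1 1 1‖ ≤ C * (1 / X) * (tl B K X 1 κ * Wf A α 1 κ 1) := by
  obtain ⟨C, hC, hk⟩ := kerH_Sk hw hR A B
  refine ⟨C, hC, fun K X Y hK hX hY α hα κ hκ => ?_⟩
  have hY0 : 0 ≤ Y := by linarith
  have hs := hα.supC hY0 hX isPrim_one
  have h1 := norm_Qf_le hA (hk κ) (fun s hs => mul_nonneg hC (OS_nonneg hs.le)) hY0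
    (κ := κ) (x := xk K κ 1) hs (f := 1) (D₁ := 1) (D₂ := 1) one_ne_zero one_ne_zero one_pos
  have h2 := Ef_le hA hY0 hα.sup (d := 1) (κ := κ) (f := 1) (D := 1) (L := 1) isPrim_one
    isPrim_one (fun k => by simp) (Real.log (X / nm 1))
  rw [exp_lm_one hK hX hκ] at h1
  have e1 : Real.exp (-Real.log (X / nm 1)) = 1 / X := by
    rw [exp_neg_log hX one_ne_zero, nm_one]; push_cast; ring
  rw [e1] at h1
  rw [tl_one]
  have h3 : lm K X 1 κ / ((nm (1 : Eis) : ℝ) * nm (1 : Eis)) = lm K X 1 κ := by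
    rw [nm_one]; push_cast; ring
  rw [h3] at h1
  have h0 := OS_nonneg (B := B) (lm_nonneg hK.le hX.le 1 κ)
  refine h1.trans ?_
  have hW := Wf_nonneg A α 1 κ 1
  calc 1 / X * (C * OS B (lm K X 1 κ) * (1 / 2) * (1 * Ef A Y α 1 κ (Real.log (X / nm 1)) 1 1 +
        1⁻¹ * Ef A Y α 1 κ (Real.log (X / nm 1)) 1 1))
      = 1 / X * (C * OS B (lm K X 1 κ) * Ef A Y α 1 κ (Real.log (X / nm 1)) 1 1) := by
        rw [inv_one]; ring
    _ ≤ 1 / X * (C * OS B (lm K X 1 κ) * Wf A α 1 κ 1) := by gcongr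
    _ = _ := by ring

/-- **E1, positive form.** -/
theorem E1pos_of {w : ℝ → ℝ} (hw : Wgt w) {c del : ℝ}
    (hg : ∀ x, Tc w x ≤ -c * min 1 (Real.exp (-x / 3)))
    (hb : ∀ x, 3 / 2 * Tc w (x + 3 * Real.log 3) - 1 / 2 * Tc w x ≤
      del * min 1 (Real.exp (-x / 3))) {A B : ℝ} (hA : 1 < A) (hB : 1 ≤ B) :
    ∃ C : ℝ, 0 ≤ C ∧ ∀ K X Y η : ℝ, 0 < K → 0 < X → 1 ≤ Y → 0 < η → η ≤ 1 → ∀ α : Eis → ℂ,
      Adm Y X η α → ∀ J : Eis → Finset Eis, (∀ d, ∀ κ ∈ J d, CF κ) → ∀ δ : ℝ, 0 < δ → δ ≤ 1 →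
      c / (27 * Real.sqrt 3) * (K / X) * ∑ κ ∈ (J 1).filter (fun κ => (3 : ℤ) ∣ κ.im),
          min 1 (lm K X 1 κ) * ‖TG α κ‖ ^ 2 ≤
        Dg w K Y α + (Mn w K Y α J).re - SqP w K α +
        del / (27 * Real.sqrt 3) * (K / X) * ∑ κ ∈ (J 1).filter (fun κ => ¬ (3 : ℤ) ∣ κ.im),
          min 1 (lm K X 1 κ) * ‖TG α κ‖ ^ 2 +
        C * (K / X) * (η * (∑ κ ∈ J 1, min 1 (lm K X 1 κ) *
            ∫ t, jb A t * ‖Vt α κ (t / η)‖ ^ 2) +
          ∑' κ : Eis, if CF κ ∧ κ ∉ J 1 then tl B K X 1 κ * Wf A α 1 κ 1 else 0) +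
        C * (1 + Real.log Y) * (K / X) * EP A B K X Y δ α J := by
  obtain ⟨C₁, hC₁, h1⟩ := E1_signed hw (R := 1) (by norm_num) hA hB
  obtain ⟨C₂, hC₂, h2⟩ := norm_Qf_Sk hw (R := 1) (by norm_num) (B := B) hA
  obtain ⟨C₃, hC₃, h3⟩ := winH_Tk hw A
  obtain ⟨C₄, hC₄, h4⟩ := norm_RemD_sub_le hw (R := 1) (by norm_num) hA hB
  refine ⟨C₁ + C₂ + C₃, by positivity, fun K X Y η hK hX hY hη hη1 α hα J hJ δ hδ hδ1 => ?_⟩
  have hα1 : Adm Y X 1 α := hα.mono hη1
  have hY0 : 0 ≤ Y := by linarith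
  have hlogY := Real.log_nonneg hY
  have a1 := h1 K X Y hK hX hY α hα1 J hJ δ hδ hδ1
  set QA : ℝ := 2 * K / (54 * Real.sqrt 3) with hQA
  have hs3 : 1 ≤ Real.sqrt 3 := Real.one_le_sqrt.mpr (by norm_num)
  have hQA0 : 0 ≤ QA := by rw [hQA]; positivity
  have hQA1 : QA ≤ K := by
    rw [hQA, div_le_iff₀ (by positivity)]
    nlinarith
  -- real part of `E1_signed`
  have a2 : -(C₁ * (1 + Real.log Y) * (K / X) * EP A B K X Y δ α J) ≤
      Dg w K Y α + (Mn w K Y α J).re + QA * (QD w K Y α (J 1)).re - SqP w K α := by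
    have := (Complex.abs_re_le_norm _).trans a1
    rw [abs_le] at this
    have h5 := this.2
    rw [Complex.sub_re, Complex.sub_re, Complex.sub_re, Complex.ofReal_re, Complex.ofReal_re,
      Complex.re_ofReal_mul] at h5
    unfold EP
    linarith
  -- the quadratic form
  set Sum1 : ℝ := ∑ κ ∈ J 1, min 1 (lm K X 1 κ) * ∫ t, jb A t * ‖Vt α κ (t / η)‖ ^ 2 with hS1
  set Tl : ℝ := ∑' κ : Eis, if CF κ ∧ κ ∉ J 1 then tl B K X 1 κ * Wf A α 1 κ 1 else 0 with hTl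
  set G1 : ℝ := ∑ κ ∈ (J 1).filter (fun κ => (3 : ℤ) ∣ κ.im),
    min 1 (lm K X 1 κ) * ‖TG α κ‖ ^ 2 with hG1
  set G2 : ℝ := ∑ κ ∈ (J 1).filter (fun κ => ¬ (3 : ℤ) ∣ κ.im),
    min 1 (lm K X 1 κ) * ‖TG α κ‖ ^ 2 with hG2
  have hTl0 : 0 ≤ Tl := tsum_nonneg fun κ => by
    split_ifs
    · exact mul_nonneg (tl_nonneg hK.le hX.le _ _) (Wf_nonneg _ _ _ _ _)
    · exact le_rfl
  have hS10 : 0 ≤ Sum1 := Finset.sum_nonneg fun κ _ => mul_nonneg (le_min zero_le_one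
    (lm_nonneg hK.le hX.le _ _)) (integral_nonneg fun t => mul_nonneg (jb_pos A t).le (by positivity))
  have a3 : (QD w K Y α (J 1)).re ≤ 1 / X * (-c * G1 + del * G2 + C₃ * (η * Sum1)) +
      C₂ * (1 / X) * Tl := by
    unfold QD
    rw [Complex.add_re]
    refine add_le_add ?_ ?_
    · rw [Complex.re_sum]
      have b1 : ∀ κ ∈ J 1, (Qf Y α 1 κ (Tk w κ) (xk K κ 1) 1 1 1).re ≤
          1 / X * ((if (3 : ℤ) ∣ κ.im then -c * (min 1 (lm K X 1 κ) * ‖TG α κ‖ ^ 2) else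
            del * (min 1 (lm K X 1 κ) * ‖TG α κ‖ ^ 2)) +
            C₃ * (η * (min 1 (lm K X 1 κ) * ∫ t, jb A t * ‖Vt α κ (t / η)‖ ^ 2))) := by
        intro κ hκ
        have hκ0 := (hJ 1 κ hκ).1
        have b2 := Qf_win hA (h3 κ) (fun s hs => mul_nonneg hC₃ (le_min zero_le_one hs.le)) hY0
          hα.sup hX hη hη1 hα.win κ (xk K κ 1)
        have e1 : Real.exp (-(xk K κ 1 - 2 * Real.log X) / 3) = lm K X 1 κ := by
          have := exp_lm_one hK hX hκ0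
          rw [nm_one] at this
          simpa using this
        rw [e1] at b2
        have b3 := (Complex.re_le_norm _).trans b2
        rw [Complex.sub_re, Complex.ofReal_re] at b3
        have b4 : Tk w κ (xk K κ 1 - 2 * Real.log X) * ‖TG α κ‖ ^ 2 ≤
            (if (3 : ℤ) ∣ κ.im then -c * (min 1 (lm K X 1 κ) * ‖TG α κ‖ ^ 2) else
            del * (min 1 (lm K X 1 κ) * ‖TG α κ‖ ^ 2)) := by
          have hn : 0 ≤ ‖TG α κ‖ ^ 2 := by positivity
          unfold Tk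
          by_cases h3 : (3 : ℤ) ∣ κ.im
          · simp only [if_pos h3]
            have := mul_le_mul_of_nonneg_right (hg (xk K κ 1 - 2 * Real.log X)) hn
            rw [e1] at this
            linarith
          · simp only [if_neg h3]
            have := mul_le_mul_of_nonneg_right (hb (xk K κ 1 - 2 * Real.log X)) hn
            rw [e1] at this
            linarith
        have b5 := mul_le_mul_of_nonneg_left b4 (show 0 ≤ 1 / X by positivity)
        rw [mul_add]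
        refine (sub_le_iff_le_add.mp b3).trans ?_
        rw [add_comm]
        refine add_le_add b5 (le_of_eq ?_)
        ring
      refine (Finset.sum_le_sum b1).trans (le_of_eq ?_)
      rw [← Finset.mul_sum, Finset.sum_add_distrib, Finset.sum_ite, ← Finset.mul_sum,
        ← Finset.mul_sum, ← Finset.mul_sum, ← Finset.mul_sum]
    · refine (Complex.re_le_norm _).trans ?_
      have hsum : Summable fun κ : Eis => C₂ * (1 / X) *
          (if CF κ ∧ κ ∉ J 1 then tl B K X 1 κ * Wf A α 1 κ 1 else 0) := by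
        refine ((summable_tl hA hB hK hX hY0 hα.sup isPrim_one squarefree_one isPrim_one
          (fun κ => CF κ ∧ κ ∉ J 1) (fun κ h => h.1.1)).congr fun κ => ?_).mul_left _
        by_cases h : CF κ ∧ κ ∉ J 1
        · rw [if_pos h, if_pos h]
        · rw [if_neg h, if_neg h]
      have := tsum_of_norm_bounded hsum.hasSum (f := fun κ : Eis => if CF κ ∧ κ ∉ J 1 then
        Qf Y α 1 κ (Sk w κ) (xk K κ 1) 1 1 1 else 0) (fun κ => by
          by_cases h : CF κ ∧ κ ∉ J 1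
          · simp only [if_pos h]
            exact h2 K X Y hK hX hY α hα1 κ h.1.1
          · simp only [if_neg h]
            simp)
      rw [tsum_mul_left] at this
      exact this
  have hEP : 0 ≤ EP A B K X Y δ α J := by
    unfold EP
    refine add_nonneg (mul_nonneg hδ.le (WS_nonneg hK.le hX.le _ _ _ _))
      (mul_nonneg (inv_pos.mpr hδ).le (add_nonneg ?_ ?_))
    · exact Finset.sum_nonneg fun L _ => mul_nonneg (by positivity)
        (WS_nonneg hK.le hX.le _ _ _ _)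
    · exact Finset.sum_nonneg fun d _ => mul_nonneg (by positivity)
        (Finset.sum_nonneg fun L _ => mul_nonneg (by positivity) (WS_nonneg hK.le hX.le _ _ _ _))
  clear_value Sum1 Tl G1 G2
  generalize EP A B K X Y δ α J = E at *
  have a4 := mul_le_mul_of_nonneg_left a3 hQA0
  have hKX : QA * (1 / X) = 1 / (27 * Real.sqrt 3) * (K / X) := by
    rw [hQA]; field_simp; ring
  have hKX1 : QA * (1 / X) ≤ K / X := by
    calc QA * (1 / X) ≤ K * (1 / X) := by gcongr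
      _ = _ := by ring
  have e6 : QA * (1 / X * (-c * G1 + del * G2 + C₃ * (η * Sum1)) + C₂ * (1 / X) * Tl) =
      -(c / (27 * Real.sqrt 3) * (K / X) * G1) + del / (27 * Real.sqrt 3) * (K / X) * G2 +
      (QA * (1 / X)) * (C₃ * (η * Sum1)) + (QA * (1 / X)) * (C₂ * Tl) := by
    have : QA * (1 / X * (-c * G1 + del * G2 + C₃ * (η * Sum1)) + C₂ * (1 / X) * Tl) =
      (QA * (1 / X)) * (-c * G1 + del * G2) + (QA * (1 / X)) * (C₃ * (η * Sum1)) +
        (QA * (1 / X)) * (C₂ * Tl) := by ring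
    rw [this]
    congr 2
    rw [hKX]
    ring
  rw [e6] at a4
  have b6 : (QA * (1 / X)) * (C₃ * (η * Sum1)) ≤ (C₁ + C₂ + C₃) * (K / X) * (η * Sum1) := by
    calc (QA * (1 / X)) * (C₃ * (η * Sum1)) ≤ (K / X) * (C₃ * (η * Sum1)) := by gcongr
      _ = C₃ * ((K / X) * (η * Sum1)) := by ring
      _ ≤ (C₁ + C₂ + C₃) * ((K / X) * (η * Sum1)) := by
          refine mul_le_mul_of_nonneg_right (by linarith) (by positivity)
      _ = _ := by ring
  have b7 : (QA * (1 / X)) * (C₂ * Tl) ≤ (C₁ + C₂ + C₃) * (K / X) * Tl := by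
    calc (QA * (1 / X)) * (C₂ * Tl) ≤ (K / X) * (C₂ * Tl) := by gcongr
      _ = C₂ * ((K / X) * Tl) := by ring
      _ ≤ (C₁ + C₂ + C₃) * ((K / X) * Tl) := by
          refine mul_le_mul_of_nonneg_right (by linarith) (by positivity)
      _ = _ := by ring
  have b8 : C₁ * (1 + Real.log Y) * (K / X) * E ≤
      (C₁ + C₂ + C₃) * (1 + Real.log Y) * (K / X) * E := by
    gcongr
    linarith
  have b9 : (C₁ + C₂ + C₃) * (K / X) * (η * Sum1 + Tl) =
      (C₁ + C₂ + C₃) * (K / X) * (η * Sum1) + (C₁ + C₂ + C₃) * (K / X) * Tl := by ring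
  rw [b9]
  linarith

end Crest.Agent.R017.E1551
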