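import Crest.Agent.R017.E1o_551

/-!
# Row 17, block C70 (exact square), leaf E1, part q (helper551): the errors in terms of the
moments of the sub-sequences

* `Wb A β r` : `∫ (1+|t|)^{-A} |TG (β n^{it}) r|² dt`, `FW` : weighted moment
* `Wf_eq_Wb` : the class `κ` at `L` is the class `tau κ L` of `m ↦ α(dLm)`
* `sum_in_le`, `WS_le` : the bound of `WS` by moments of the sub-sequence
-/

set_option autoImplicit false

noncomputable section

open Complex MeasureTheory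
open scoped ComplexConjugate Classical

namespace Crest.Agent.R017.E1551

open Crest.Agent.R012 Crest.Agent.R012.Eis Crest.Agent.R012.MC
open Crest.Agent.R012.LS2 (S mem_S)
open Crest.Agent.R012.Mob705 (mu pdiv mem_pdiv pp mem_pp PE)
open Crest.Agent.R012.Weight600 (osc pw)
open Crest.Agent.R012.Char766 (sy_mul_left sy_cube_left)
open Crest.Agent.R017.Dual2813 (S_of_dvd)
open Crest.Agent.R017.CM106 (CS TG)

/-- the sub-sequence `m ↦ α (g m)` -/
def sg (α : Eis → ℂ) (g : Eis) : Eis → ℂ := fun m => α (g * m)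

/-- mean square of the twisted Gauss-side sum -/
def Wb (A : ℝ) (β : Eis → ℂ) (r : Eis) : ℝ := ∫ t, jb A t * ‖Vt β r t‖ ^ 2

lemma Wb_nonneg (A : ℝ) (β : Eis → ℂ) (r : Eis) : 0 ≤ Wb A β r :=
  integral_nonneg fun t => mul_nonneg (jb_pos A t).le (by positivity)

/-- weighted moment over the classes in `J'` -/
def FW (A K X' : ℝ) (J' : Finset Eis) (β : Eis → ℂ) : ℝ :=
  ∑ r ∈ J', min 1 (lm K X' 1 r) * Wb A β r

lemma FW_nonneg {A K X' : ℝ} (hK : 0 ≤ K) (hX : 0 ≤ X') (J' : Finset Eis) (β : Eis → ℂ) :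
    0 ≤ FW A K X' J' β :=
  Finset.sum_nonneg fun r _ => mul_nonneg (le_min zero_le_one (lm_nonneg hK hX _ _))
    (Wb_nonneg _ _ _)

lemma FW_mono {A K X' : ℝ} (hK : 0 ≤ K) (hX : 0 ≤ X') {J' J'' : Finset Eis} (h : J' ⊆ J'')
    (β : Eis → ℂ) : FW A K X' J' β ≤ FW A K X' J'' β :=
  Finset.sum_le_sum_of_subset_of_nonneg h fun r _ _ =>
    mul_nonneg (le_min zero_le_one (lm_nonneg hK hX _ _)) (Wb_nonneg _ _ _)

/-- `κ L = tau κ L · g2³` -/
lemma mul_eq_tau {κ L : Eis} (hL : IsPrim L) (hs : Squarefree L) :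
    κ * L = tau κ L * g2 κ L ^ 3 := by
  have h1 := div_mul_g2 κ L
  have h2 := g1_mul_g2 (κ := κ) hL hs
  calc κ * L = ((κ / g2 κ L ^ 2) * g2 κ L ^ 2) * (g1 κ L * g2 κ L) := by rw [h1, h2]
    _ = ((κ / g2 κ L ^ 2) * g1 κ L) * g2 κ L ^ 3 := by ring
    _ = _ := rfl

lemma g2_dvd_self {κ L : Eis} (hL : IsPrim L) (hs : Squarefree L) : g2 κ L ∣ L :=
  Dvd.intro_left _ (g1_mul_g2 (κ := κ) hL hs)

lemma g1_dvd_self {κ L : Eis} (hL : IsPrim L) (hs : Squarefree L) : g1 κ L ∣ L :=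
  Dvd.intro _ (g1_mul_g2 (κ := κ) hL hs)

lemma sy_tau {κ L m : Eis} (hL : IsPrim L) (hs : Squarefree L) (hm : IsPrim m)
    (hc : IsCoprime L m) : sy (κ * L) m = sy (tau κ L) m := by
  rw [mul_eq_tau hL hs, sy_mul_left hm,
    sy_cube_left hm (hc.of_isCoprime_of_dvd_left (g2_dvd_self hL hs)), mul_one]

/-- **the class `κ` at `L`** -/
theorem Wf_eq_Wb {A : ℝ} {Y : ℝ} (hY : 0 ≤ Y) {α : Eis → ℂ} (hα : ∀ n, α n ≠ 0 → n ∈ S Y)
    {d L : Eis} (hd : IsPrim d) (hL : IsPrim L) (hs : Squarefree L) (κ : Eis) :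
    Wf A α d κ L = Wb A (sg α (d * L)) (tau κ L) := by
  unfold Wf Wb
  congr 1
  funext t
  congr 3
  unfold Vt TG
  refine tsum_congr fun m => ?_
  show α (d * (L * m)) * pw t (nm m) * (G m * conj (sy (κ * L) m)) =
    α (d * L * m) * pw t (nm m) * (G m * conj (sy (tau κ L) m))
  rw [mul_assoc d L m]
  by_cases h : α (d * (L * m)) = 0
  · rw [h]; simp
  · have h1 := (mem_S hY).1 (hα _ h)
    have hsq := h1.2.2
    rw [show d * (L * m) = L * m * d by ring] at hsq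
    have hLm := hsq.squarefree_of_dvd (Dvd.intro _ rfl : L * m ∣ L * m * d)
    have hcop : IsCoprime L m := (squarefree_mul_iff.mp hLm).1.isCoprime
    have hm : IsPrim m := IsPrim.of_mul_left (IsPrim.of_mul_left h1.2.1 hd) hL
    rw [sy_tau hL hs hm hcop]

lemma nm_tau {κ L : Eis} (hL : IsPrim L) (hs : Squarefree L) :
    (nm κ : ℝ) * nm (g1 κ L) = nm (tau κ L) * (nm (g2 κ L) : ℝ) ^ 2 := by
  have h1 := congrArg nm (mul_eq_tau (κ := κ) hL hs)
  have h2 := congrArg nm (g1_mul_g2 (κ := κ) hL hs)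
  rw [nm_mul, nm_mul, nm_pow] at h1
  rw [nm_mul] at h2
  rw [← h2] at h1
  have h3 : ((nm κ * (nm (g1 κ L) * nm (g2 κ L)) : ℕ) : ℝ) =
      ((nm (tau κ L) * nm (g2 κ L) ^ 3 : ℕ) : ℝ) := by exact_mod_cast h1
  push_cast at h3
  have hb := nmpos (g2_prim κ L).ne_zero
  apply mul_right_cancel₀ hb.ne'
  linear_combination h3

/-- scaling of the size parameter -/
theorem lm_tau {K X : ℝ} (hK : 0 < K) (hX : 0 < X) {d κ L : Eis} (hd : d ≠ 0) (hκ : κ ≠ 0)
    (hL : IsPrim L) (hs : Squarefree L) :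
    lm K X d κ = nm (g1 κ L) * lm K (X / nm (d * L)) 1 (tau κ L) := by
  have h1 := nm_tau (κ := κ) hL hs
  have h2 : (nm (g1 κ L) : ℝ) * nm (g2 κ L) = nm L := by
    rw [← Nat.cast_mul, ← nm_mul, g1_mul_g2 hL hs]
  have ha := nmpos (g1_prim κ L).ne_zero
  have hb := nmpos (g2_prim κ L).ne_zero
  have hκ' := nmpos hκ
  have hd' := nmpos hd
  have hT : (0 : ℝ) < nm (tau κ L) := by
    have : (0 : ℝ) < nm (tau κ L) * (nm (g2 κ L) : ℝ) ^ 2 := by rw [← h1]; positivity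
    exact pos_of_mul_pos_left this (by positivity)
  unfold lm
  rw [nm_mul, nm_one]
  push_cast
  rw [← h2, div_one]
  generalize (nm (g1 κ L) : ℝ) = a at *
  generalize (nm (g2 κ L) : ℝ) = b at *
  generalize (nm (tau κ L) : ℝ) = T at *
  generalize (nm κ : ℝ) = k at *
  generalize (nm d : ℝ) = D at *
  have hk : k = T * b ^ 2 / a := by field_simp; linarith
  have e1 : Real.log (K * k) = Real.log (K * T) + 2 * Real.log b - Real.log a := by
    rw [hk, Real.log_mul hK.ne' (by positivity), Real.log_div (by positivity) ha.ne',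
      Real.log_mul hT.ne' (by positivity), Real.log_pow, Real.log_mul hK.ne' hT.ne']
    push_cast; ring
  have e2 : Real.log (X / (D * (a * b))) = Real.log (X / D) - Real.log a - Real.log b := by
    rw [Real.log_div hX.ne' (by positivity), Real.log_mul hd'.ne' (by positivity),
      Real.log_mul ha.ne' hb.ne', Real.log_div hX.ne' hd'.ne']
    ring
  rw [Real.rpow_def_of_pos (show 0 < X / D by positivity),
    Real.rpow_def_of_pos (show 0 < K * k by positivity),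
    Real.rpow_def_of_pos (show 0 < X / (D * (a * b)) by positivity),
    Real.rpow_def_of_pos (show 0 < K * T by positivity), e1, e2]
  have e3 : a = Real.exp (Real.log a) := (Real.exp_log ha).symm
  have e4 : Real.exp (Real.log (X / D) * (2 / 3)) *
      Real.exp ((Real.log (K * T) + 2 * Real.log b - Real.log a) * (-(1 / 3))) =
      Real.exp (Real.log a) * (Real.exp ((Real.log (X / D) - Real.log a - Real.log b) * (2 / 3)) *
        Real.exp (Real.log (K * T) * (-(1 / 3)))) := by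
    rw [← Real.exp_add, ← Real.exp_add, ← Real.exp_add]
    congr 1; ring
  rw [e4, ← e3]
  ring

/-! ### the finite part -/

lemma sum_tau_le {L : Eis} {J J' : Finset Eis} (hJ : ∀ κ ∈ J, CF κ)
    (him : ∀ κ ∈ J, tau κ L ∈ J') {f : Eis → ℝ} {F : Eis → ℝ} (hF : ∀ r, 0 ≤ F r)
    (h : ∀ κ ∈ J, f κ ≤ F (tau κ L)) : ∑ κ ∈ J, f κ ≤ ∑ r ∈ J', F r := by
  refine (Finset.sum_le_sum h).trans ?_
  have hinj : Set.InjOn (fun κ => tau κ L) (J : Set Eis) := by
    intro κ hκ κ' hκ' he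
    have := congrArg (fun x => tinv x L) he
    simp only at this
    rwa [tinv_tau (hJ κ hκ), tinv_tau (hJ κ' hκ')] at this
  rw [← Finset.sum_image (f := F) (g := fun κ => tau κ L) hinj]
  refine Finset.sum_le_sum_of_subset_of_nonneg ?_ fun r _ _ => hF r
  intro r hr
  obtain ⟨κ, hκ, rfl⟩ := Finset.mem_image.mp hr
  exact him κ hκ

/-- **the finite part of `WS`** -/
theorem sum_in_le {A K X Y : ℝ} (hK : 0 < K) (hX : 0 < X) (hY : 0 ≤ Y) {α : Eis → ℂ}
    (hα : ∀ n, α n ≠ 0 → n ∈ S Y) {d L : Eis} (hd : IsPrim d) (hL : IsPrim L)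
    (hs : Squarefree L) {J J' : Finset Eis} (hJ : ∀ κ ∈ J, CF κ) (him : ∀ κ ∈ J, tau κ L ∈ J') :
    ∑ κ ∈ J, min (nm L : ℝ) (lm K X d κ) * Wf A α d κ L ≤
      nm L * FW A K (X / nm (d * L)) J' (sg α (d * L)) := by
  have hL1 := nm_ge_one hL.ne_zero
  unfold FW
  rw [Finset.mul_sum]
  have hX' : 0 ≤ X / nm (d * L) := by positivity
  refine sum_tau_le (F := fun r => (nm L : ℝ) * (min 1 (lm K (X / nm (d * L)) 1 r) *
    Wb A (sg α (d * L)) r)) hJ him (fun r => mul_nonneg (Nat.cast_nonneg _)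
      (mul_nonneg (le_min zero_le_one (lm_nonneg hK.le hX' _ _)) (Wb_nonneg _ _ _)))
    fun κ hκ => ?_
  have hκ0 := (hJ κ hκ).1
  show min (nm L : ℝ) (lm K X d κ) * Wf A α d κ L ≤
    (nm L : ℝ) * (min 1 (lm K (X / nm (d * L)) 1 (tau κ L)) * Wb A (sg α (d * L)) (tau κ L))
  rw [Wf_eq_Wb hY hα hd hL hs, lm_tau hK hX hd.ne_zero hκ0 hL hs, ← mul_assoc]
  refine mul_le_mul_of_nonneg_right ?_ (Wb_nonneg _ _ _)
  set l := lm K (X / nm (d * L)) 1 (tau κ L) with hl
  have hl0 : 0 ≤ l := lm_nonneg hK.le hX' _ _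
  have h1 : (nm (g1 κ L) : ℝ) ≤ nm L := by
    exact_mod_cast Div277.nm_le_of_dvd hL.ne_zero (g1_dvd_self hL hs)
  calc min (nm L : ℝ) (nm (g1 κ L) * l) ≤ min ((nm L : ℝ) * 1) (nm L * l) := by
        refine min_le_min (by rw [mul_one]) (mul_le_mul_of_nonneg_right h1 hl0)
    _ = nm L * min 1 l := by
        rw [mul_min_of_nonneg _ _ (by linarith : (0:ℝ) ≤ nm L)]

end Crest.Agent.R017.E1551
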