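import Crest.Agent.R017.SgnU4_92
import Crest.Agent.R017.E1cc_146

/-!
# Row 17, (Sgn'): mixtures of dilates

`mixR` : `∫_{-N}^{N} V(s) Tc φ (x + s) ds` is approximated by `Tc w x`, `w ∈ Wgt`
(a finite positive combination of dilates of `φ`), with error `ε min(1, e^{-x/3})`.
`mixG` : the same for the Gaussian `gg` in place of `φ`.
-/

set_option autoImplicit false

noncomputable section

open MeasureTheory Complex Set Filter Topology
open scoped ContDiff SchwartzMap FourierTransform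

namespace Crest.Agent.R017.SgnU92

open Crest.Agent.R012 Crest.Agent.R012.Eis Crest.Agent.R012.MC Crest.Agent.R012.LatSum413
open Crest.Agent.R012.Cube777
open Crest.Agent.R017.E1551 (Sc mc Tc)

/-! ### algebra -/

lemma Wt_smul (a : ℝ) (w : ℝ → ℝ) (t : ℝ) : Wt (fun x => a * w x) t = a * Wt w t := by
  unfold Wt
  have e : (∫ z : ℂ, ((a * w (‖z‖ ^ 2) : ℝ) : ℂ) * eC (z * (t : ℂ))) =
      (a : ℂ) * ∫ z : ℂ, ((w (‖z‖ ^ 2) : ℝ) : ℂ) * eC (z * (t : ℂ)) := by
    rw [← integral_const_mul]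
    congr 1
    funext z
    push_cast; ring
  rw [e, Complex.re_ofReal_mul]

lemma Tc_smul (a : ℝ) (w : ℝ → ℝ) (x : ℝ) : Tc (fun x => a * w x) x = a * Tc w x := by
  have h1 : Sc (fun x => a * w x) x = a * Sc w x := by
    unfold Sc
    rw [← tsum_mul_left]
    refine tsum_congr fun c => ?_
    by_cases hc : c = 0
    · simp [hc]
    · rw [if_neg hc, if_neg hc, Wt_smul]
  have h2 : Iw (fun x => a * w x) = a * Iw w := by
    unfold Iw
    rw [← integral_const_mul]
    congr 1
    funext u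
    rw [Wt_smul]; ring
  unfold Tc mc
  rw [h1, h2]; ring

lemma Tc_add_wgt {u v : ℝ → ℝ} (hu : Wgt u) (hv : Wgt v) (h : Wgt (fun x => u x + v x)) (x : ℝ) :
    Tc (fun x => u x + v x) x = Tc u x + Tc v x := by
  refine Tc_add (f := fS hu) (g := fS hv) (h := fS h) (fun _ => rfl) (fun _ => rfl)
    (fun _ => rfl) ?_ x
  ext z
  have h1 : (fS hu + fS hv : 𝓢(ℂ, ℂ)) z = fS hu z + fS hv z := rfl
  rw [h1, fS_coe, fS_coe, fS_coe]
  unfold fw
  push_cast; ring

lemma Wgt_add {u v : ℝ → ℝ} (hu : Wgt u) (hv : Wgt v) : Wgt (fun x => u x + v x) := by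
  refine ⟨hu.smooth.add hv.smooth, hu.cpt.add hv.cpt, ?_⟩
  have h := tsupport_add u v
  exact h.trans (union_subset hu.pos hv.pos)

lemma Wgt_zero : Wgt (fun _ : ℝ => (0 : ℝ)) := by
  refine ⟨contDiff_const, HasCompactSupport.zero, ?_⟩
  intro x hx
  have : tsupport (fun _ : ℝ => (0 : ℝ)) = ∅ := by
    rw [tsupport_eq_empty_iff]; rfl
  rw [this] at hx
  exact hx.elim

lemma Tc_zero (x : ℝ) : Tc (fun _ => 0) x = 0 := by
  have := Tc_smul 0 (fun _ => 0) x
  simpa using this

lemma Wgt_dil {φ : ℝ → ℝ} (hφ : Wgt φ) {l : ℝ} (hl : 0 < l) (a : ℝ) :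
    Wgt (fun x => a * φ (l * x)) := by
  obtain ⟨c1, c2, h1, h12, h⟩ := hφ.exists_bounds
  have hsupp : Function.support (fun x => a * φ (l * x)) ⊆ Icc (c1 / l) (c2 / l) := by
    intro x hx
    have hx' : φ (l * x) ≠ 0 := by
      intro h0; apply hx; simp [h0]
    obtain ⟨h3, h4⟩ := h _ hx'
    exact ⟨by rw [div_le_iff₀ hl]; linarith, by rw [le_div_iff₀ hl]; linarith⟩
  refine ⟨contDiff_const.mul (hφ.smooth.comp (contDiff_const.mul contDiff_id)),
    HasCompactSupport.of_support_subset_isCompact isCompact_Icc hsupp, ?_⟩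
  refine (closure_minimal hsupp isClosed_Icc).trans ?_
  intro x hx
  exact lt_of_lt_of_le (by positivity) hx.1

lemma Wgt_sum {ι : Type*} (S : Finset ι) (a l : ι → ℝ) (hl : ∀ i ∈ S, 0 < l i) {φ : ℝ → ℝ}
    (hφ : Wgt φ) : Wgt (fun x => ∑ i ∈ S, a i * φ (l i * x)) ∧
    ∀ x, Tc (fun x => ∑ i ∈ S, a i * φ (l i * x)) x =
      ∑ i ∈ S, a i * ((l i)⁻¹ * Tc φ (x - Real.log (l i))) := by
  classical
  induction S using Finset.induction_on with
  | empty =>
    simp only [Finset.sum_empty]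
    exact ⟨Wgt_zero, Tc_zero⟩
  | insert i S hi ih =>
    obtain ⟨h1, h2⟩ := ih (fun j hj => hl j (Finset.mem_insert_of_mem hj))
    have hli := hl i (Finset.mem_insert_self i S)
    have h3 := Wgt_dil hφ hli (a i)
    have e : (fun x => ∑ j ∈ insert i S, a j * φ (l j * x)) =
        fun x => a i * φ (l i * x) + ∑ j ∈ S, a j * φ (l j * x) := by
      funext x; rw [Finset.sum_insert hi]
    rw [e]
    have h4 := Wgt_add h3 h1
    refine ⟨h4, fun x => ?_⟩
    rw [Tc_add_wgt h3 h1 h4 x, h2 x, Finset.sum_insert hi,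
      Tc_smul (a i) (fun x => φ (l i * x)), Tc_dil φ hli]

/-! ### equicontinuity -/

/-- `m(x) = min(1, e^{-x/3})` -/
def mn (x : ℝ) : ℝ := min 1 (Real.exp (-x / 3))

lemma mn_nonneg (x : ℝ) : 0 ≤ mn x := le_min zero_le_one (Real.exp_pos _).le

lemma mn_shift {N s : ℝ} (hs : |s| ≤ N) (x : ℝ) : mn (x + s) ≤ Real.exp (N / 3) * mn x := by
  have hN : 0 ≤ N := (abs_nonneg s).trans hs
  unfold mn
  rw [mul_min_of_nonneg _ _ (Real.exp_pos _).le]
  refine le_min ((min_le_left _ _).trans ?_) ((min_le_right _ _).trans ?_)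
  · rw [mul_one]; exact Real.one_le_exp (by positivity)
  · rw [← Real.exp_add]
    apply Real.exp_le_exp.mpr
    linarith [(abs_le.mp hs).1]

lemma Tc_lip {φ : ℝ → ℝ} (hφ : Wgt φ) (N : ℝ) : ∃ C : ℝ, 0 ≤ C ∧ ∀ x s s' : ℝ, |s| ≤ N →
    |s'| ≤ N → |Tc φ (x + s) - Tc φ (x + s')| ≤ C * |s - s'| * mn x := by
  obtain ⟨C, hC, hb⟩ := E1551.Tc_bound (E1551.wgt_Dw hφ)
  refine ⟨C * Real.exp (N / 3), by positivity, fun x s s' hs hs' => ?_⟩
  have key := Convex.norm_image_sub_le_of_norm_hasDerivWithin_le (f := fun t => Tc φ (x + t))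
    (f' := fun t => Tc (E1551.Dw φ) (x + t)) (s := Icc (-N) N) (x := s') (y := s)
    (C := C * Real.exp (N / 3) * mn x)
    (fun t _ => ((E1551.hasDerivAt_Tc hφ (x + t)).comp_const_add x t).hasDerivWithinAt)
    (fun t ht => by
      rw [Real.norm_eq_abs]
      refine (hb (x + t)).trans ?_
      have h1 := mn_shift (abs_le.mpr ⟨ht.1, ht.2⟩) x
      calc C * min 1 (Real.exp (-(x + t) / 3)) ≤ C * (Real.exp (N / 3) * mn x) :=
            mul_le_mul_of_nonneg_left h1 hC
        _ = _ := by ring) (convex_Icc _ _)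
    (abs_le.mp hs') (abs_le.mp hs)
  rw [Real.norm_eq_abs, Real.norm_eq_abs] at key
  calc _ ≤ _ := key
    _ = _ := by ring

lemma Tc_cont {φ : ℝ → ℝ} (hφ : Wgt φ) : Continuous (Tc φ) :=
  continuous_iff_continuousAt.mpr fun x => (E1551.hasDerivAt_Tc hφ x).continuousAt

/-- **mixtures of dilates of a weight** -/
theorem mixR {φ : ℝ → ℝ} (hφ : Wgt φ) {V : ℝ → ℝ} (hV : Continuous V) {N : ℝ} (hN : 0 ≤ N)
    {ε : ℝ} (hε : 0 < ε) : ∃ w : ℝ → ℝ, Wgt w ∧
      ((∀ x, 0 ≤ φ x) → (∀ s, 0 ≤ V s) → ∀ x, 0 ≤ w x) ∧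
      ∀ x, |Tc w x - ∫ s in (-N)..N, V s * Tc φ (x + s)| ≤ ε * mn x := by
  obtain ⟨C0, hC0, hb0⟩ := E1551.Tc_bound hφ
  obtain ⟨C1, hC1, hb1⟩ := Tc_lip hφ N
  obtain ⟨M, hM⟩ := isCompact_Icc.exists_bound_of_continuousOn
    (f := V) (s := Icc (-N) N) hV.continuousOn
  set M' : ℝ := |M| + 1 with hM'
  have hM'0 : 0 < M' := by positivity
  have hVM : ∀ s, |s| ≤ N → |V s| ≤ M' := fun s hs => by
    have := hM s (abs_le.mp hs)
    rw [Real.norm_eq_abs] at this
    linarith [le_abs_self M]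
  -- the tolerance
  set η : ℝ := ε / (2 * N + 1) with hη
  have hη0 : 0 < η := by positivity
  -- uniform continuity of V
  have hUC := isCompact_Icc.uniformContinuousOn_of_continuous
    (f := V) (s := Icc (-N) N) hV.continuousOn
  rw [Metric.uniformContinuousOn_iff] at hUC
  set om : ℝ := η / 2 / (C0 * Real.exp (N / 3) + 1) with hom
  have hom0 : 0 < om := by positivity
  obtain ⟨δ, hδ, hUCδ⟩ := hUC om hom0
  set δ' : ℝ := min δ (η / 2 / (M' * C1 + 1)) with hδ'
  have hδ'0 : 0 < δ' := lt_min hδ (by positivity)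
  obtain ⟨n, hn⟩ := exists_nat_gt (2 * N / δ')
  have hn0 : 0 < n := by
    have : (0 : ℝ) < n := lt_of_le_of_lt (by positivity) hn
    exact_mod_cast this
  have hnR : (0 : ℝ) < n := by exact_mod_cast hn0
  set Δ : ℝ := 2 * N / n with hΔ
  have hΔ0 : 0 ≤ Δ := by positivity
  have hΔδ : Δ < δ' := by
    rw [hΔ, div_lt_iff₀ hnR]
    rw [div_lt_iff₀ hδ'0] at hn
    linarith
  set p : ℕ → ℝ := fun j => -N + j * Δ with hp
  have hp0 : p 0 = -N := by simp [hp]
  have hpn : p n = N := by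
    simp only [hp, hΔ]
    field_simp; ring
  have hpm : ∀ j ≤ n, |p j| ≤ N := by
    intro j hj
    have hj' : (j : ℝ) ≤ n := by exact_mod_cast hj
    have h1 : (j : ℝ) * Δ ≤ 2 * N := by
      calc (j : ℝ) * Δ ≤ n * Δ := by gcongr
        _ = 2 * N := by rw [hΔ]; field_simp
    have h2 : 0 ≤ (j : ℝ) * Δ := by positivity
    rw [abs_le]
    constructor <;> simp only [hp] <;> linarith
  have hps : ∀ j, p (j + 1) = p j + Δ := by
    intro j; simp only [hp]; push_cast; ring
  -- the weight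
  obtain ⟨hw1, hw2⟩ := Wgt_sum (Finset.range n) (fun j => Δ * V (p j) * Real.exp (-p j))
    (fun j => Real.exp (-p j)) (fun _ _ => Real.exp_pos _) hφ
  refine ⟨_, hw1, fun h0 hV0 x => Finset.sum_nonneg fun j _ =>
    mul_nonneg (mul_nonneg (mul_nonneg hΔ0 (hV0 _)) (Real.exp_pos _).le) (h0 _), fun x => ?_⟩
  rw [hw2 x]
  have hcont : Continuous (fun s => V s * Tc φ (x + s)) :=
    hV.mul ((Tc_cont hφ).comp (continuous_const.add continuous_id))
  have hint := intervalIntegral.sum_integral_adjacent_intervals (μ := volume)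
    (f := fun s => V s * Tc φ (x + s)) (a := p) (n := n)
    (fun k _ => hcont.intervalIntegrable _ _)
  rw [hp0, hpn] at hint
  rw [← hint, ← Finset.sum_sub_distrib]
  have hterm : ∀ j ∈ Finset.range n, |Δ * V (p j) * Real.exp (-p j) *
      ((Real.exp (-p j))⁻¹ * Tc φ (x - Real.log (Real.exp (-p j)))) -
      ∫ s in (p j)..(p (j + 1)), V s * Tc φ (x + s)| ≤ Δ * (η * mn x) := by
    intro j hj
    have hjn : j < n := Finset.mem_range.mp hj
    have e1 : Δ * V (p j) * Real.exp (-p j) *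
        ((Real.exp (-p j))⁻¹ * Tc φ (x - Real.log (Real.exp (-p j)))) =
        ∫ s in (p j)..(p (j + 1)), V (p j) * Tc φ (x + p j) := by
      rw [intervalIntegral.integral_const, hps, Real.log_exp, smul_eq_mul]
      have : Real.exp (-p j) ≠ 0 := (Real.exp_pos _).ne'
      field_simp
      ring_nf
    rw [e1, ← intervalIntegral.integral_sub (by simp) (hcont.intervalIntegrable _ _)]
    have h3 := intervalIntegral.norm_integral_le_of_norm_le_const (a := p j) (b := p (j + 1))
      (f := fun s => V (p j) * Tc φ (x + p j) - V s * Tc φ (x + s)) (C := η * mn x) (by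
      intro s hs
      rw [hps, uIoc_of_le (by linarith)] at hs
      have hs1 : |s| ≤ N := by
        have h4 := hpm j hjn.le
        have h5 := hpm (j + 1) hjn
        rw [hps] at h5
        rw [abs_le] at h4 h5 ⊢
        exact ⟨by linarith [hs.1, h4.1], by linarith [hs.2, h5.2]⟩
      have hpj := hpm j hjn.le
      have hd : |p j - s| ≤ Δ := by
        rw [abs_le]; constructor <;> linarith [hs.1, hs.2]
      have h4 := hb1 x (p j) s hpj hs1
      have h5 : |V (p j) - V s| ≤ om := by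
        have := hUCδ (p j) (abs_le.mp hpj) s (abs_le.mp hs1) (by
          rw [Real.dist_eq]
          exact lt_of_le_of_lt hd (lt_of_lt_of_le hΔδ (min_le_left _ _)))
        rw [Real.dist_eq] at this
        exact this.le
      have h6 : |Tc φ (x + s)| ≤ C0 * (Real.exp (N / 3) * mn x) :=
        (hb0 (x + s)).trans (mul_le_mul_of_nonneg_left (mn_shift hs1 x) hC0)
      have h7 := hVM (p j) hpj
      have hm := mn_nonneg x
      rw [Real.norm_eq_abs]
      have e : V (p j) * Tc φ (x + p j) - V s * Tc φ (x + s) =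
          V (p j) * (Tc φ (x + p j) - Tc φ (x + s)) + (V (p j) - V s) * Tc φ (x + s) := by ring
      rw [e]
      refine (abs_add_le _ _).trans ?_
      rw [abs_mul, abs_mul]
      have hΔ2 : |p j - s| ≤ η / 2 / (M' * C1 + 1) :=
        hd.trans (hΔδ.le.trans (min_le_right _ _))
      have g1 : |V (p j)| * |Tc φ (x + p j) - Tc φ (x + s)| ≤ η / 2 * mn x := by
        calc _ ≤ M' * (C1 * |p j - s| * mn x) := mul_le_mul h7 h4 (abs_nonneg _) hM'0.le
          _ ≤ M' * (C1 * (η / 2 / (M' * C1 + 1)) * mn x) := by gcongr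
          _ = (M' * C1 / (M' * C1 + 1)) * (η / 2 * mn x) := by ring
          _ ≤ 1 * (η / 2 * mn x) := by
              refine mul_le_mul_of_nonneg_right ?_ (by positivity)
              rw [div_le_one (by positivity)]; linarith
          _ = _ := one_mul _
      have g2 : |V (p j) - V s| * |Tc φ (x + s)| ≤ η / 2 * mn x := by
        calc _ ≤ om * (C0 * (Real.exp (N / 3) * mn x)) :=
              mul_le_mul h5 h6 (abs_nonneg _) hom0.le
          _ = (C0 * Real.exp (N / 3) / (C0 * Real.exp (N / 3) + 1)) * (η / 2 * mn x) := by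
              rw [hom]; ring
          _ ≤ 1 * (η / 2 * mn x) := by
              refine mul_le_mul_of_nonneg_right ?_ (by positivity)
              rw [div_le_one (by positivity)]; linarith
          _ = _ := one_mul _
      linarith)
    rw [Real.norm_eq_abs] at h3
    refine h3.trans (le_of_eq ?_)
    rw [hps, add_sub_cancel_left, abs_of_nonneg hΔ0]; ring
  refine (Finset.abs_sum_le_sum_abs _ _).trans ((Finset.sum_le_sum hterm).trans ?_)
  rw [Finset.sum_const, Finset.card_range, nsmul_eq_mul]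
  have hm := mn_nonneg x
  calc (n : ℝ) * (Δ * (η * mn x)) = (2 * N) * (η * mn x) := by
        rw [hΔ]; field_simp
    _ ≤ (2 * N + 1) * (η * mn x) := by
        refine mul_le_mul_of_nonneg_right (by linarith) (by positivity)
    _ = ε * mn x := by rw [hη]; field_simp

lemma Tc_gg_cont : Continuous (Tc gg) := by
  obtain ⟨A, hA, h⟩ := approx_wN
  have hu : TendstoUniformly (fun (n : ℕ) x => Tc (wN ((n : ℝ) + 2)) x) (Tc gg) atTop := by
    rw [Metric.tendstoUniformly_iff]
    intro ε hε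
    obtain ⟨n0, hn0⟩ := exists_nat_gt (A / ε)
    filter_upwards [eventually_ge_atTop n0] with n hn x
    rw [Real.dist_eq, abs_sub_comm]
    have h1 : (2 : ℝ) ≤ (n : ℝ) + 2 := by
      have : (0 : ℝ) ≤ n := by positivity
      linarith
    have h2 : (0 : ℝ) < (n : ℝ) + 2 := by positivity
    have h3 : A / ε < (n : ℝ) + 2 := by
      have : (n0 : ℝ) ≤ n := by exact_mod_cast hn
      linarith
    refine lt_of_le_of_lt (h _ h1 x) ?_
    calc A / ((n : ℝ) + 2) * min 1 (Real.exp (-x / 3)) ≤ A / ((n : ℝ) + 2) * 1 :=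
          mul_le_mul_of_nonneg_left (min_le_left _ _) (by positivity)
      _ = A / ((n : ℝ) + 2) := mul_one _
      _ < ε := by
          rw [div_lt_iff₀ h2]
          rw [div_lt_iff₀ hε] at h3
          linarith
  exact hu.continuous (Frequently.of_forall fun n => Tc_cont (Wgt_wN (by
    have : (0 : ℝ) ≤ n := by positivity
    linarith)))

/-- **Gaussian mixtures.** -/
theorem mixG {V : ℝ → ℝ} (hV : Continuous V) (hV0 : ∀ s, 0 ≤ V s) {N : ℝ} (hN : 0 ≤ N)
    {ε : ℝ} (hε : 0 < ε) : ∃ w : ℝ → ℝ, Wgt w ∧ (∀ x, 0 ≤ w x) ∧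
      ∀ x, |Tc w x - ∫ s in (-N)..N, V s * Tc gg (x + s)| ≤ ε * mn x := by
  obtain ⟨M, hM⟩ := isCompact_Icc.exists_bound_of_continuousOn
    (f := V) (s := Icc (-N) N) hV.continuousOn
  set M' : ℝ := |M| + 1 with hM'
  have hM'0 : 0 < M' := by positivity
  set ε' : ℝ := ε / 2 / (2 * N * M' * Real.exp (N / 3) + 1) with hε'
  have hε'0 : 0 < ε' := by positivity
  obtain ⟨u, hu, hu0, -, hua⟩ := approx hε'0
  obtain ⟨w, hw, hw0, hwa⟩ := mixR hu hV hN (half_pos hε)
  refine ⟨w, hw, hw0 hu0 hV0, fun x => ?_⟩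
  have hm := mn_nonneg x
  have i1 : IntervalIntegrable (fun s => V s * Tc u (x + s)) volume (-N) N :=
    (hV.mul ((Tc_cont hu).comp (continuous_const.add continuous_id))).intervalIntegrable _ _
  have i2 : IntervalIntegrable (fun s => V s * Tc gg (x + s)) volume (-N) N :=
    (hV.mul (Tc_gg_cont.comp (continuous_const.add continuous_id))).intervalIntegrable _ _
  have h1 : |(∫ s in (-N)..N, V s * Tc u (x + s)) - ∫ s in (-N)..N, V s * Tc gg (x + s)| ≤
      ε / 2 * mn x := by
    rw [← intervalIntegral.integral_sub i1 i2]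
    have h3 := intervalIntegral.norm_integral_le_of_norm_le_const (a := -N) (b := N)
      (f := fun s => V s * Tc u (x + s) - V s * Tc gg (x + s))
      (C := M' * (ε' * (Real.exp (N / 3) * mn x))) (by
      intro s hs
      rw [uIoc_of_le (by linarith)] at hs
      have hs1 : |s| ≤ N := abs_le.mpr ⟨hs.1.le, hs.2⟩
      have h4 : |V s| ≤ M' := by
        have := hM s (abs_le.mp hs1)
        rw [Real.norm_eq_abs] at this
        linarith [le_abs_self M]
      rw [← mul_sub, norm_mul, Real.norm_eq_abs, Real.norm_eq_abs]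
      refine mul_le_mul h4 ((hua (x + s)).trans ?_) (abs_nonneg _) hM'0.le
      exact mul_le_mul_of_nonneg_left (mn_shift hs1 x) hε'0.le)
    rw [Real.norm_eq_abs] at h3
    refine h3.trans ?_
    have e2 : |N - -N| = 2 * N := by rw [abs_of_nonneg (by linarith)]; ring
    rw [e2]
    have e3 : M' * (ε' * (Real.exp (N / 3) * mn x)) * (2 * N) =
        (2 * N * M' * Real.exp (N / 3) / (2 * N * M' * Real.exp (N / 3) + 1)) *
          (ε / 2 * mn x) := by rw [hε']; ring
    rw [e3]
    calc _ ≤ 1 * (ε / 2 * mn x) := by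
          refine mul_le_mul_of_nonneg_right ?_ (by positivity)
          rw [div_le_one (by positivity)]; linarith
      _ = _ := one_mul _
  have h2 := hwa x
  have e : Tc w x - ∫ s in (-N)..N, V s * Tc gg (x + s) =
      (Tc w x - ∫ s in (-N)..N, V s * Tc u (x + s)) +
      ((∫ s in (-N)..N, V s * Tc u (x + s)) - ∫ s in (-N)..N, V s * Tc gg (x + s)) := by ring
  rw [e]
  refine (abs_add_le _ _).trans ((add_le_add h2 h1).trans (le_of_eq (by ring)))

end Crest.Agent.R017.SgnU92
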