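import Crest.Agent.R017.SgB_404
import Crest.Agent.R017.SgnM_92

/-!
# Row 17, **the sign lemma** (helper404; mixtures of Gaussians and passage to `Wgt` by helper92)

`sgn` : there is `c > 0` such that for every `del > 0` there is a nonnegative weight `w ∈ Wgt` with
`Tc w x ≤ -c min(1, e^{-x/3})` and
`3/2 Tc w (x + 3 log 3) - 1/2 Tc w x ≤ del min(1, e^{-x/3})` for all `x`.
-/

set_option autoImplicit false

noncomputable section

open MeasureTheory Complex Set Filter Topology

namespace Crest.Agent.R017.SgM404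

open Crest.Agent.R012 Crest.Agent.R012.Eis Crest.Agent.R012.MC
open Crest.Agent.R017.E1551 (Sc mc Tc)
open Crest.Agent.R017.SgnU92 (gg mn mn_nonneg)

/-- `exp (-e^{-σ/3}) - exp (-2 e^{-σ/3})` -/
def V0 (σ : ℝ) : ℝ := Real.exp (-Real.exp (-(σ / 3))) - Real.exp (-(2 * Real.exp (-(σ / 3))))

lemma V0_cont : Continuous V0 := by unfold V0; fun_prop

lemma V0_nonneg (σ : ℝ) : 0 ≤ V0 σ := by
  unfold V0
  have h := Real.exp_pos (-(σ / 3))
  have : Real.exp (-(2 * Real.exp (-(σ / 3)))) ≤ Real.exp (-Real.exp (-(σ / 3))) :=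
    Real.exp_le_exp.mpr (by linarith)
  linarith

lemma exp_diff_le (q : ℝ) : Real.exp (-q) - Real.exp (-(2 * q)) ≤ q * Real.exp (-q) := by
  have e : Real.exp (-(2 * q)) = Real.exp (-q) * Real.exp (-q) := by
    rw [← Real.exp_add]; congr 1; ring
  have h1 := Real.add_one_le_exp (-q)
  have h2 := Real.exp_pos (-q)
  rw [e]
  nlinarith

lemma V0_le1 (σ : ℝ) : V0 σ ≤ Real.exp (-(σ / 3)) := by
  have h := Real.exp_pos (-(σ / 3))
  have h1 := exp_diff_le (Real.exp (-(σ / 3)))
  have h2 : Real.exp (-Real.exp (-(σ / 3))) ≤ 1 := Real.exp_le_one_iff.mpr (by linarith)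
  unfold V0
  nlinarith

lemma V0_le2 (σ : ℝ) : V0 σ ≤ 2 * Real.exp (2 / 3 * σ) := by
  have h := Real.exp_pos (-(σ / 3))
  have h1 := Poisson381.sq_mul_exp_neg_le h.le
  have h2 := Real.exp_pos (-(2 * Real.exp (-(σ / 3))))
  have e : Real.exp (-(σ / 3)) ^ 2 * Real.exp (2 / 3 * σ) = 1 := by
    rw [← Real.exp_nat_mul, ← Real.exp_add, ← Real.exp_zero]
    congr 1
    push_cast
    ring
  have h3 : Real.exp (-Real.exp (-(σ / 3))) ≤ 2 * Real.exp (2 / 3 * σ) := by
    have h4 := mul_le_mul_of_nonneg_right h1 (Real.exp_pos (2 / 3 * σ)).le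
    calc Real.exp (-Real.exp (-(σ / 3))) =
        (Real.exp (-(σ / 3)) ^ 2 * Real.exp (2 / 3 * σ)) * Real.exp (-Real.exp (-(σ / 3))) := by
          rw [e, one_mul]
      _ = Real.exp (-(σ / 3)) ^ 2 * Real.exp (-Real.exp (-(σ / 3))) * Real.exp (2 / 3 * σ) := by
          ring
      _ ≤ _ := h4
  unfold V0
  linarith

lemma V0_exp_int {a : ℝ} (ha0 : 0 ≤ a) (ha1 : a < 2 / 3) :
    Integrable (fun σ => V0 σ * Real.exp (-(a * σ))) := by
  have hm : AEStronglyMeasurable (fun σ => V0 σ * Real.exp (-(a * σ))) :=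
    (V0_cont.mul (by fun_prop)).aestronglyMeasurable
  have hnn : ∀ σ, 0 ≤ V0 σ * Real.exp (-(a * σ)) := fun σ =>
    mul_nonneg (V0_nonneg σ) (Real.exp_pos _).le
  rw [← integrableOn_univ, ← Iic_union_Ioi (a := (0 : ℝ))]
  refine IntegrableOn.union ?_ ?_
  · have h := (integrableOn_exp_mul_Iic (a := 2 / 3 - a) (by linarith) 0).const_mul 2
    refine Integrable.mono' h hm.restrict (Eventually.of_forall fun σ => ?_)
    rw [Real.norm_of_nonneg (hnn σ)]
    have h1 := mul_le_mul_of_nonneg_right (V0_le2 σ) (Real.exp_pos (-(a * σ))).le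
    refine h1.trans (le_of_eq ?_)
    rw [mul_assoc, ← Real.exp_add]
    congr 2
    ring
  · have h := (integrableOn_exp_mul_Ioi (a := -(1 / 3 + a)) (by linarith) 0)
    refine Integrable.mono' h hm.restrict (Eventually.of_forall fun σ => ?_)
    rw [Real.norm_of_nonneg (hnn σ)]
    have h1 := mul_le_mul_of_nonneg_right (V0_le1 σ) (Real.exp_pos (-(a * σ))).le
    refine h1.trans (le_of_eq ?_)
    rw [← Real.exp_add]
    congr 1
    ring

lemma V0_int : Integrable V0 := by
  have h := V0_exp_int (a := 0) le_rfl (by norm_num)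
  simpa using h

/-- the mixture of `exp (-α³ e^σ)` -/
lemma V0_EE {α : ℝ} (hα : 0 < α) :
    ∫ σ : ℝ, V0 σ * Real.exp (-(α ^ 3 * Real.exp σ)) = EE α := by
  rw [← EE_eq hα]
  have h := integral_image_eq_integral_abs_deriv_smul (s := univ)
    (f := fun σ : ℝ => Real.exp (-(σ / 3))) (f' := fun σ : ℝ => Real.exp (-(σ / 3)) * (-(1 / 3)))
    MeasurableSet.univ
    (fun x _ => by
      have h1 : HasDerivAt (fun σ : ℝ => -(σ / 3)) (-(1 / 3)) x :=
        ((hasDerivAt_id x).div_const 3).neg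
      exact h1.exp.hasDerivWithinAt)
    (fun x _ y _ hxy => by
      have := Real.exp_injective hxy
      linarith)
    (fun q : ℝ => 3 * (Real.exp (-q) - Real.exp (-(2 * q))) * Real.exp (-(α ^ 3 * q⁻¹ ^ 3)) / q)
  have hi : (fun σ : ℝ => Real.exp (-(σ / 3))) '' univ = Ioi 0 := by
    ext y
    constructor
    · rintro ⟨σ, -, rfl⟩
      exact Real.exp_pos _
    · intro hy
      refine ⟨-(3 * Real.log y), trivial, ?_⟩
      have : -(-(3 * Real.log y) / 3) = Real.log y := by ring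
      simp only [this]
      exact Real.exp_log hy
  rw [hi] at h
  rw [h, Measure.restrict_univ]
  congr 1
  funext σ
  have hq := Real.exp_pos (-(σ / 3))
  have e : (Real.exp (-(σ / 3)))⁻¹ ^ 3 = Real.exp σ := by
    rw [← Real.exp_neg, neg_neg, ← Real.exp_nat_mul]
    congr 1
    push_cast
    ring
  rw [e, mul_neg, abs_neg, abs_of_pos (by positivity), smul_eq_mul]
  unfold V0
  field_simp

open Classical in
/-- the Gaussian cube sum -/
def G0 (x : ℝ) : ℝ := ∑' c : Eis, if c = 0 then 0 else Real.exp (-(Real.exp x * (nm c : ℝ) ^ 3))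

lemma mix_sum (x : ℝ) : ∫ σ : ℝ, V0 σ * G0 (x + σ) =
    kap * MM / Real.exp (x / 3) - DD (Real.exp (x / 3)) := by
  classical
  have hs := Real.exp_pos (x / 3)
  have hE := hasSum_EE hs
  have hterm : ∀ c : Eis, (∫ σ : ℝ, if c = 0 then 0 else
      V0 σ * Real.exp (-(Real.exp (x + σ) * (nm c : ℝ) ^ 3))) =
      if c = 0 then 0 else EE (Real.exp (x / 3) * nm c) := by
    intro c
    by_cases hc : c = 0
    · simp [hc]
    · simp only [hc, if_false]
      have hn : (0 : ℝ) < nm c := by exact_mod_cast nm_pos.mpr hc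
      rw [← V0_EE (α := Real.exp (x / 3) * nm c) (by positivity)]
      congr 1
      funext σ
      congr 3
      rw [mul_pow, ← Real.exp_nat_mul, Real.exp_add]
      have : ((3 : ℕ) : ℝ) * (x / 3) = x := by push_cast; ring
      rw [this]; ring
  have h := hasSum_integral_of_summable_integral_norm (μ := (volume : Measure ℝ))
    (F := fun (c : Eis) (σ : ℝ) => if c = 0 then 0 else
      V0 σ * Real.exp (-(Real.exp (x + σ) * (nm c : ℝ) ^ 3)))
    (fun c => by
      by_cases hc : c = 0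
      · simp [hc]
      · simp only [hc, if_false]
        refine Integrable.mono' V0_int ?_ (Eventually.of_forall fun σ => ?_)
        · exact (V0_cont.mul (by fun_prop)).aestronglyMeasurable
        · rw [Real.norm_of_nonneg (mul_nonneg (V0_nonneg σ) (Real.exp_pos _).le)]
          refine mul_le_of_le_one_right (V0_nonneg σ) (Real.exp_le_one_iff.mpr ?_)
          have : 0 ≤ Real.exp (x + σ) * (nm c : ℝ) ^ 3 := by positivity
          linarith)
    (by
      refine hE.summable.congr fun c => ?_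
      rw [← hterm c]
      congr 1
      funext σ
      by_cases hc : c = 0
      · simp [hc]
      · simp only [hc, if_false]
        rw [Real.norm_of_nonneg (mul_nonneg (V0_nonneg σ) (Real.exp_pos _).le)])
  simp_rw [hterm] at h
  rw [← h.unique hE]
  congr 1
  funext σ
  unfold G0
  rw [← tsum_mul_left]
  refine tsum_congr fun c => ?_
  split_ifs
  · simp
  · rfl

lemma gg_bound : ∃ C : ℝ, 0 ≤ C ∧ ∀ x, |Tc gg x| ≤ C * mn x := by
  obtain ⟨s, C, hC, h⟩ := SgnU92.Tc_bound
  exact ⟨C * (s.sup (schwartzSeminormFamily ℂ ℂ ℂ)) SgnU92.GS,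
    mul_nonneg hC (apply_nonneg _ _), fun x => h _ _ SgnU92.RS_GS x⟩

lemma gg_eq (x : ℝ) : 4 * Real.pi * Tc gg x =
    G0 x - 2 * Real.pi * Real.Gamma (4 / 3) / Real.sqrt 3 * Real.exp (-x / 3) := by
  rw [SgnU92.Tc_gg]
  unfold G0
  have := Real.pi_pos
  field_simp

/-- the full mixture -/
def AA (x : ℝ) : ℝ := ∫ σ : ℝ, 4 * Real.pi * V0 σ * Tc gg (x + σ)

lemma AA_int (x : ℝ) : Integrable (fun σ : ℝ => 4 * Real.pi * V0 σ * Tc gg (x + σ)) := by
  obtain ⟨C, hC, h⟩ := gg_bound
  refine Integrable.mono' (V0_int.const_mul (4 * Real.pi * C)) ?_ (Eventually.of_forall fun σ => ?_)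
  · have h1 : Continuous (fun σ : ℝ => Tc gg (x + σ)) :=
      SgnU92.Tc_gg_cont.comp (continuous_const.add continuous_id)
    exact ((continuous_const.mul V0_cont).mul h1).aestronglyMeasurable
  · have hπ := Real.pi_pos
    have hV := V0_nonneg σ
    rw [norm_mul, Real.norm_of_nonneg (by positivity), Real.norm_eq_abs]
    have h2 : |Tc gg (x + σ)| ≤ C := by
      refine (h _).trans ?_
      have : mn (x + σ) ≤ 1 := min_le_left _ _
      nlinarith
    calc 4 * Real.pi * V0 σ * |Tc gg (x + σ)| ≤ 4 * Real.pi * V0 σ * C := by gcongr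
      _ = _ := by ring

lemma AA_eq' (x : ℝ) : AA x = (kap * MM - 2 * Real.pi * Real.Gamma (4 / 3) / Real.sqrt 3 *
    ∫ σ : ℝ, V0 σ * Real.exp (-(1 / 3 * σ))) * Real.exp (-x / 3) - DD (Real.exp (x / 3)) := by
  set K := 2 * Real.pi * Real.Gamma (4 / 3) / Real.sqrt 3 with hK
  have hI := V0_exp_int (a := 1 / 3) (by norm_num) (by norm_num)
  have h1 : ∫ σ : ℝ, V0 σ * G0 (x + σ) =
      ∫ σ : ℝ, (4 * Real.pi * V0 σ * Tc gg (x + σ) +
        K * Real.exp (-x / 3) * (V0 σ * Real.exp (-(1 / 3 * σ)))) := by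
    congr 1
    funext σ
    have h2 := gg_eq (x + σ)
    rw [← hK] at h2
    have h3 : G0 (x + σ) = 4 * Real.pi * Tc gg (x + σ) + K * Real.exp (-(x + σ) / 3) := by linarith
    have h4 : Real.exp (-(x + σ) / 3) = Real.exp (-x / 3) * Real.exp (-(1 / 3 * σ)) := by
      rw [← Real.exp_add]; congr 1; ring
    rw [h3, h4]; ring
  rw [integral_add (AA_int x) (hI.const_mul _), integral_const_mul] at h1
  have h5 := mix_sum x
  rw [h1] at h5
  have e : Real.exp (-x / 3) = (Real.exp (x / 3))⁻¹ := by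
    rw [← Real.exp_neg]; congr 1; ring
  unfold AA
  have h6 : kap * MM / Real.exp (x / 3) = kap * MM * Real.exp (-x / 3) := by
    rw [e, div_eq_mul_inv]
  rw [h6] at h5
  linarith

lemma const_zero {k C : ℝ} (h : ∀ x : ℝ, |k * Real.exp (-x / 3)| ≤ C) : k = 0 := by
  by_contra hk
  have hk0 : 0 < |k| := abs_pos.mpr hk
  have hC : 0 ≤ C := (abs_nonneg _).trans (h 0)
  have h1 := h (-(3 * Real.log ((C + 1) / |k|)))
  have e : -(-(3 * Real.log ((C + 1) / |k|))) / 3 = Real.log ((C + 1) / |k|) := by ring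
  rw [e, Real.exp_log (by positivity), abs_mul, abs_of_pos (a := (C + 1) / |k|) (by positivity),
    mul_div_cancel₀ _ hk0.ne'] at h1
  linarith

lemma AA_eq (x : ℝ) : AA x = -DD (Real.exp (x / 3)) := by
  obtain ⟨C, hC, h⟩ := gg_bound
  set k := kap * MM - 2 * Real.pi * Real.Gamma (4 / 3) / Real.sqrt 3 *
    ∫ σ : ℝ, V0 σ * Real.exp (-(1 / 3 * σ)) with hk
  have hb : ∀ x : ℝ, |k * Real.exp (-x / 3)| ≤
      (∫ σ : ℝ, 4 * Real.pi * C * V0 σ) + ∫ y in Ioi (0 : ℝ), rho y := by
    intro x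
    have h1 := AA_eq' x
    rw [← hk] at h1
    have h2 : k * Real.exp (-x / 3) = AA x + DD (Real.exp (x / 3)) := by linarith
    rw [h2]
    refine (abs_add_le _ _).trans (add_le_add ?_ ?_)
    · unfold AA
      rw [← Real.norm_eq_abs]
      refine (norm_integral_le_integral_norm _).trans ?_
      refine integral_mono (AA_int x).norm (V0_int.const_mul _) fun σ => ?_
      have hπ := Real.pi_pos
      have hV := V0_nonneg σ
      simp only
      rw [norm_mul, Real.norm_of_nonneg (by positivity), Real.norm_eq_abs]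
      have h2 : |Tc gg (x + σ)| ≤ C := by
        refine (h _).trans ?_
        have : mn (x + σ) ≤ 1 := min_le_left _ _
        nlinarith
      calc 4 * Real.pi * V0 σ * |Tc gg (x + σ)| ≤ 4 * Real.pi * V0 σ * C := by gcongr
        _ = _ := by ring
    · have hs := Real.exp_pos (x / 3)
      rw [abs_of_nonneg (DD_nonneg hs)]
      exact DD_le hs
  have hk0 := const_zero hb
  have h1 := AA_eq' x
  rw [← hk, hk0] at h1
  linarith

lemma AA_le (x : ℝ) : AA x ≤ -(cD * mn x) := by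
  rw [AA_eq]
  have h := DD_ge (Real.exp_pos (x / 3))
  have e : (Real.exp (x / 3))⁻¹ = Real.exp (-x / 3) := by
    rw [← Real.exp_neg]; congr 1; ring
  rw [e] at h
  unfold mn
  linarith

lemma AA_bad (x : ℝ) : 3 / 2 * AA (x + 3 * Real.log 3) - 1 / 2 * AA x ≤ 0 := by
  rw [AA_eq, AA_eq]
  have e : Real.exp ((x + 3 * Real.log 3) / 3) = 3 * Real.exp (x / 3) := by
    have : (x + 3 * Real.log 3) / 3 = Real.log 3 + x / 3 := by ring
    rw [this, Real.exp_add, Real.exp_log (by norm_num)]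
  rw [e]
  have := DD_bad (Real.exp_pos (x / 3))
  linarith

/-! ### truncation -/

/-- majorant -/
def HH (σ : ℝ) : ℝ := 4 * Real.pi * V0 σ * max 1 (Real.exp (-(1 / 3 * σ)))

lemma HH_nonneg (σ : ℝ) : 0 ≤ HH σ := by
  have hπ := Real.pi_pos
  have hV := V0_nonneg σ
  have : 0 ≤ max 1 (Real.exp (-(1 / 3 * σ))) := by positivity
  unfold HH
  positivity

lemma HH_int : Integrable HH := by
  have h1 := V0_int.const_mul (4 * Real.pi)
  have h2 := (V0_exp_int (a := 1 / 3) (by norm_num) (by norm_num)).const_mul (4 * Real.pi)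
  refine Integrable.mono' (h1.add h2) ?_ (Eventually.of_forall fun σ => ?_)
  · unfold HH
    exact ((continuous_const.mul V0_cont).mul (by fun_prop)).aestronglyMeasurable
  · rw [Real.norm_of_nonneg (HH_nonneg σ)]
    have hπ := Real.pi_pos
    have hV := V0_nonneg σ
    have he := Real.exp_pos (-(1 / 3 * σ))
    have h3 : max 1 (Real.exp (-(1 / 3 * σ))) ≤ 1 + Real.exp (-(1 / 3 * σ)) :=
      max_le (by linarith) (by linarith)
    unfold HH
    simp only [Pi.add_apply]
    have h4 := mul_le_mul_of_nonneg_left h3 (by positivity : 0 ≤ 4 * Real.pi * V0 σ)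
    linarith

lemma mn_max (x σ : ℝ) : mn (x + σ) ≤ mn x * max 1 (Real.exp (-(1 / 3 * σ))) := by
  have h1 : 1 ≤ max 1 (Real.exp (-(1 / 3 * σ))) := le_max_left _ _
  have h2 : Real.exp (-(1 / 3 * σ)) ≤ max 1 (Real.exp (-(1 / 3 * σ))) := le_max_right _ _
  unfold mn
  rw [min_mul_of_nonneg _ _ (by linarith)]
  refine le_min ?_ ?_
  · exact (min_le_left _ _).trans (by linarith)
  · refine (min_le_right _ _).trans ?_
    have e : Real.exp (-(x + σ) / 3) = Real.exp (-x / 3) * Real.exp (-(1 / 3 * σ)) := by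
      rw [← Real.exp_add]; congr 1; ring
    rw [e]
    exact mul_le_mul_of_nonneg_left h2 (Real.exp_pos _).le

lemma trunc {C : ℝ} (hC : 0 ≤ C) (h : ∀ x, |Tc gg x| ≤ C * mn x) {N : ℝ} (hN : 0 ≤ N) (x : ℝ) :
    |(∫ σ in (-N)..N, 4 * Real.pi * V0 σ * Tc gg (x + σ)) - AA x| ≤
      C * ((∫ σ, HH σ) - ∫ σ in (-N)..N, HH σ) * mn x := by
  have hNN : -N ≤ N := by linarith
  rw [intervalIntegral.integral_of_le hNN, intervalIntegral.integral_of_le hNN]
  have h1 := integral_add_compl (measurableSet_Ioc (a := -N) (b := N)) (AA_int x)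
  have h2 := integral_add_compl (measurableSet_Ioc (a := -N) (b := N)) HH_int
  have e1 : (∫ σ in Ioc (-N) N, 4 * Real.pi * V0 σ * Tc gg (x + σ)) - AA x =
      -∫ σ in (Ioc (-N) N)ᶜ, 4 * Real.pi * V0 σ * Tc gg (x + σ) := by
    unfold AA
    linarith
  have e2 : (∫ σ, HH σ) - ∫ σ in Ioc (-N) N, HH σ = ∫ σ in (Ioc (-N) N)ᶜ, HH σ := by linarith
  rw [e1, e2, abs_neg, ← Real.norm_eq_abs]
  refine (norm_integral_le_integral_norm _).trans ?_
  rw [mul_assoc, mul_comm (∫ σ in (Ioc (-N) N)ᶜ, HH σ), ← mul_assoc, ← integral_const_mul]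
  refine integral_mono (AA_int x).norm.integrableOn (HH_int.const_mul _).integrableOn fun σ => ?_
  have hπ := Real.pi_pos
  have hV := V0_nonneg σ
  simp only
  rw [norm_mul, Real.norm_of_nonneg (by positivity), Real.norm_eq_abs]
  have h3 := (h (x + σ)).trans (mul_le_mul_of_nonneg_left (mn_max x σ) hC)
  unfold HH
  calc 4 * Real.pi * V0 σ * |Tc gg (x + σ)| ≤
      4 * Real.pi * V0 σ * (C * (mn x * max 1 (Real.exp (-(1 / 3 * σ))))) := by gcongr
    _ = _ := by ring

/-- **the sign lemma** -/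
theorem sgn : ∃ c : ℝ, 0 < c ∧ ∀ del : ℝ, 0 < del → ∃ w : ℝ → ℝ, Wgt w ∧ (∀ x, 0 ≤ w x) ∧
    (∀ x, Tc w x ≤ -c * min 1 (Real.exp (-x / 3))) ∧
    ∀ x, 3 / 2 * Tc w (x + 3 * Real.log 3) - 1 / 2 * Tc w x ≤
      del * min 1 (Real.exp (-x / 3)) := by
  have hcD := cD_pos
  refine ⟨cD / 2, by positivity, fun del hdel => ?_⟩
  obtain ⟨C, hC, h⟩ := gg_bound
  set ε := min del cD / 4 with hε
  have hε0 : 0 < ε := by positivity
  have hε1 : 4 * ε ≤ del := by rw [hε]; linarith [min_le_left del cD]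
  have hε2 : 4 * ε ≤ cD := by rw [hε]; linarith [min_le_right del cD]
  -- choice of N
  have ht := intervalIntegral_tendsto_integral HH_int tendsto_neg_atTop_atBot
    (tendsto_id (α := ℝ) (x := atTop))
  have ht2 : Tendsto (fun N : ℝ => C * ((∫ σ, HH σ) - ∫ σ in (-N)..N, HH σ)) atTop (𝓝 0) := by
    have := (tendsto_const_nhds (x := ∫ σ, HH σ)).sub ht
    rw [sub_self] at this
    simpa using this.const_mul C
  obtain ⟨N, hN1, hN2⟩ := ((ht2.eventually (gt_mem_nhds hε0)).and (eventually_ge_atTop 0)).exists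
  obtain ⟨w, hw, hw0, hwa⟩ := SgnU92.mixG (V := fun s => 4 * Real.pi * V0 s)
    (continuous_const.mul V0_cont) (fun s => by
      have hπ := Real.pi_pos
      have hV := V0_nonneg s
      positivity) hN2 hε0
  have key : ∀ x, |Tc w x - AA x| ≤ 2 * ε * mn x := by
    intro x
    have h1 := hwa x
    have h2 := trunc hC h hN2 x
    have h3 : C * ((∫ σ, HH σ) - ∫ σ in (-N)..N, HH σ) * mn x ≤ ε * mn x :=
      mul_le_mul_of_nonneg_right hN1.le (mn_nonneg x)
    have e : Tc w x - AA x = (Tc w x - ∫ s in (-N)..N, 4 * Real.pi * V0 s * Tc gg (x + s)) +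
        ((∫ s in (-N)..N, 4 * Real.pi * V0 s * Tc gg (x + s)) - AA x) := by ring
    rw [e]
    refine (abs_add_le _ _).trans ?_
    linarith
  refine ⟨w, hw, hw0, fun x => ?_, fun x => ?_⟩
  · have h1 := abs_le.mp (key x)
    have h2 := AA_le x
    have h3 := mn_nonneg x
    change Tc w x ≤ -(cD / 2) * mn x
    nlinarith [mul_le_mul_of_nonneg_right hε2 h3]
  · have h1 := abs_le.mp (key x)
    have h2 := abs_le.mp (key (x + 3 * Real.log 3))
    have h3 := mn_nonneg x
    have h4 := AA_bad x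
    have h5 : mn (x + 3 * Real.log 3) ≤ mn x := by
      unfold mn
      refine min_le_min le_rfl (Real.exp_le_exp.mpr ?_)
      have : 0 < Real.log 3 := Real.log_pos (by norm_num)
      linarith
    change 3 / 2 * Tc w (x + 3 * Real.log 3) - 1 / 2 * Tc w x ≤ del * mn x
    have h6 : ε * mn (x + 3 * Real.log 3) ≤ ε * mn x := mul_le_mul_of_nonneg_left h5 hε0.le
    nlinarith [mul_le_mul_of_nonneg_right hε1 h3]

end Crest.Agent.R017.SgM404
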