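import Crest.Agent.R017.E1p_551
import Crest.Agent.R017.SgM_404

/-!
# Row 17, block C70 (exact square), leaf E1, part s (helper551): `E1pos` with the weight chosen
(404's sign lemma)
-/

set_option autoImplicit false

noncomputable section

open Complex MeasureTheory
open scoped ComplexConjugate Classical

namespace Crest.Agent.R017.E1551

open Crest.Agent.R012 Crest.Agent.R012.Eis Crest.Agent.R012.MC
open Crest.Agent.R012.LS2 (S mem_S)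
open Crest.Agent.R017.CM106 (CS TG)

/-- **E1, positive form, weight chosen**: `c` does not depend on `del`. -/
theorem E1pos : ∃ c : ℝ, 0 < c ∧ ∀ del : ℝ, 0 < del → ∃ w : ℝ → ℝ, Wgt w ∧ (∀ x, 0 ≤ w x) ∧
    ∀ A B : ℝ, 1 < A → 1 ≤ B → ∃ C : ℝ, 0 ≤ C ∧
    ∀ K X Y η : ℝ, 0 < K → 0 < X → 1 ≤ Y → 0 < η → η ≤ 1 → ∀ α : Eis → ℂ,
      Adm Y X η α → ∀ J : Eis → Finset Eis, (∀ d, ∀ κ ∈ J d, CF κ) → ∀ δ : ℝ, 0 < δ → δ ≤ 1 →
      c * (K / X) * ∑ κ ∈ (J 1).filter (fun κ => (3 : ℤ) ∣ κ.im),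
          min 1 (lm K X 1 κ) * ‖TG α κ‖ ^ 2 ≤
        Dg w K Y α + (Mn w K Y α J).re - SqP w K α +
        del * (K / X) * ∑ κ ∈ (J 1).filter (fun κ => ¬ (3 : ℤ) ∣ κ.im),
          min 1 (lm K X 1 κ) * ‖TG α κ‖ ^ 2 +
        C * (K / X) * (η * (∑ κ ∈ J 1, min 1 (lm K X 1 κ) *
            ∫ t, jb A t * ‖Vt α κ (t / η)‖ ^ 2) +
          ∑' κ : Eis, if CF κ ∧ κ ∉ J 1 then tl B K X 1 κ * Wf A α 1 κ 1 else 0) +
        C * (1 + Real.log Y) * (K / X) * EP A B K X Y δ α J := by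
  obtain ⟨c, hc, h⟩ := SgM404.sgn
  have hs3 : 0 < 27 * Real.sqrt 3 := by positivity
  refine ⟨c / (27 * Real.sqrt 3), by positivity, fun del hdel => ?_⟩
  obtain ⟨w, hw, hw0, hg, hb⟩ := h (del * (27 * Real.sqrt 3)) (by positivity)
  refine ⟨w, hw, hw0, fun A B hA hB => ?_⟩
  obtain ⟨C, hC, h1⟩ := E1pos_of hw hg hb hA hB
  refine ⟨C, hC, fun K X Y η hK hX hY hη hη1 α hα J hJ δ hδ hδ1 => ?_⟩
  have h2 := h1 K X Y η hK hX hY hη hη1 α hα J hJ δ hδ hδ1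
  rwa [mul_div_cancel_right₀ _ hs3.ne'] at h2

end Crest.Agent.R017.E1551
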