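import Crest.Agent.R017.E1q_551

/-!
# Row 17, block C70 (exact square), leaf E1, part t (helper551): tails for the window `JE`

`WS_le` : `WS` for `J = JE D Y₀ Y₁` by the moments of the sub-sequence; `EP_le`.
-/

set_option autoImplicit false

noncomputable section

open Complex MeasureTheory
open scoped ComplexConjugate Classical

namespace Crest.Agent.R017.E1551

open Crest.Agent.R012 Crest.Agent.R012.Eis Crest.Agent.R012.MC
open Crest.Agent.R012.LS2 (S mem_S)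
open Crest.Agent.R012.Mob705 (mu pdiv mem_pdiv pp mem_pp PE)
open Crest.Agent.R017.Dual2813 (S_of_dvd)
open Crest.Agent.R017.SqLoc829 (FQ JE JE_cf mem_JE gd gd_prim gd_dvd_left gd_dvd_right)
open Crest.Agent.R017.CM106 (CS TG)

/-- the cube-free elements up to `Z` -/
def BF (Z : ℝ) : Finset Eis := (ball ⌊Z⌋₊).filter CF

lemma mem_BF {Z : ℝ} {r : Eis} : r ∈ BF Z ↔ CF r ∧ (nm r : ℝ) ≤ Z := by
  unfold BF
  rw [Finset.mem_filter, mem_ball]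
  constructor
  · rintro ⟨h1, h2⟩
    exact ⟨h2, (Nat.le_floor_iff' (nm_pos.mpr h2.1).ne').mp h1⟩
  · rintro ⟨h1, h2⟩
    exact ⟨Nat.le_floor h2, h1⟩

lemma BF_mono {Z Z' : ℝ} (h : Z ≤ Z') : BF Z ⊆ BF Z' := fun r hr => by
  rw [mem_BF] at hr ⊢
  exact ⟨hr.1, hr.2.trans h⟩

/-- decomposition along `gd` -/
lemma gd_dec {κ d : Eis} (hκ : κ ≠ 0) (hd : IsPrim d) : ∃ j δ : Eis, j ≠ 0 ∧ δ ≠ 0 ∧
    κ / gd κ d = j ∧ d / gd κ d = δ ∧ (nm κ : ℝ) = nm (gd κ d) * nm j ∧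
    (nm d : ℝ) = nm (gd κ d) * nm δ := by
  obtain ⟨j, hj⟩ := gd_dvd_left κ d
  obtain ⟨δ, hδ⟩ := gd_dvd_right κ d
  have hg := (gd_prim κ d)
  refine ⟨j, δ, ?_, ?_, div_of_eq hg.ne_zero hj, div_of_eq hg.ne_zero hδ, ?_, ?_⟩
  · rintro rfl; rw [mul_zero] at hj; exact hκ hj
  · rintro rfl; rw [mul_zero] at hδ; exact hd.ne_zero hδ
  · have := congrArg nm hj
    rw [nm_mul] at this
    exact_mod_cast this
  · have := congrArg nm hδ
    rw [nm_mul] at this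
    exact_mod_cast this

lemma nm_low {κ d : Eis} (hκ : κ ≠ 0) (hd : IsPrim d) {Z : ℝ}
    (h : (nm (κ / gd κ d * (d / gd κ d) ^ 2) : ℝ) ≤ Z) : (nm κ : ℝ) ≤ Z * nm d := by
  obtain ⟨j, δ, hj, hδ, e1, e2, e3, e4⟩ := gd_dec hκ hd
  rw [e1, e2, nm_mul, nm_pow] at h
  push_cast at h
  have h1 := nm_ge_one hδ
  have h2 : (0 : ℝ) ≤ nm j := Nat.cast_nonneg _
  have h3 : (0 : ℝ) ≤ nm (gd κ d) := Nat.cast_nonneg _
  rw [e3, e4]
  have h4 : (nm j : ℝ) ≤ Z * nm δ := by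
    calc (nm j : ℝ) = nm j * 1 := (mul_one _).symm
      _ ≤ nm j * (nm δ : ℝ) ^ 2 := mul_le_mul_of_nonneg_left (one_le_pow₀ h1) h2
      _ ≤ Z := h
      _ = Z * 1 := (mul_one _).symm
      _ ≤ Z * nm δ := mul_le_mul_of_nonneg_left h1 (le_trans (by positivity) h)
  calc (nm (gd κ d) : ℝ) * nm j ≤ nm (gd κ d) * (Z * nm δ) := mul_le_mul_of_nonneg_left h4 h3
    _ = _ := by ring

lemma g2_dvd_gd (κ d : Eis) : g2 κ d ∣ gd κ d := by
  unfold g2 s2 gd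
  apply Finset.prod_dvd_prod_of_subset
  intro p hp
  rw [Finset.mem_filter] at hp ⊢
  exact ⟨hp.1, (dvd_pow_self p two_ne_zero).trans hp.2⟩

/-- above the window the size parameter is small -/
lemma lm_high {K X Y₁ : ℝ} (hK : 0 < K) (hX : 0 < X) (hY₁ : 0 < Y₁) {κ d : Eis} (hκ : κ ≠ 0)
    (hd : IsPrim d) (h : Y₁ < nm (κ / gd κ d * (d / gd κ d) ^ 2)) :
    (nm (g2 κ d) : ℝ) * lm K X d κ ≤ 3 * (X ^ (2 / 3 : ℝ) * (K * Y₁) ^ (-(1 / 3) : ℝ)) := by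
  obtain ⟨j, δ, hj, hδ, e1, e2, e3, e4⟩ := gd_dec hκ hd
  rw [e1, e2, nm_mul, nm_pow] at h
  push_cast at h
  have hg := nmpos (gd_prim κ d).ne_zero
  have hj' := nmpos hj
  have hδ' := nmpos hδ
  have hg2 : (nm (g2 κ d) : ℝ) ≤ nm (gd κ d) := by
    exact_mod_cast Div277.nm_le_of_dvd (gd_prim κ d).ne_zero (g2_dvd_gd κ d)
  have h0 := lm_nonneg hK.le hX.le d κ
  refine (mul_le_mul_of_nonneg_right hg2 h0).trans ?_
  unfold lm
  rw [e3, e4]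
  generalize (nm (gd κ d) : ℝ) = a at *
  generalize (nm j : ℝ) = u at *
  generalize (nm δ : ℝ) = v at *
  have e5 : a * (3 * ((X / (a * v)) ^ (2 / 3 : ℝ) * (K * (a * u)) ^ (-(1 / 3) : ℝ))) =
      3 * (X ^ (2 / 3 : ℝ) * (K * (u * v ^ 2)) ^ (-(1 / 3) : ℝ)) := by
    rw [Real.rpow_def_of_pos (show 0 < X / (a * v) by positivity),
      Real.rpow_def_of_pos (show 0 < K * (a * u) by positivity),
      Real.rpow_def_of_pos hX,
      Real.rpow_def_of_pos (show 0 < K * (u * v ^ 2) by positivity)]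
    have l1 : Real.log (X / (a * v)) = Real.log X - Real.log a - Real.log v := by
      rw [Real.log_div hX.ne' (by positivity), Real.log_mul hg.ne' hδ'.ne']; ring
    have l2 : Real.log (K * (a * u)) = Real.log K + Real.log a + Real.log u := by
      rw [Real.log_mul hK.ne' (by positivity), Real.log_mul hg.ne' hj'.ne']; ring
    have l3 : Real.log (K * (u * v ^ 2)) = Real.log K + Real.log u + 2 * Real.log v := by
      rw [Real.log_mul hK.ne' (by positivity), Real.log_mul hj'.ne' (by positivity), Real.log_pow]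
      push_cast; ring
    rw [l1, l2, l3]
    have e6 : a = Real.exp (Real.log a) := (Real.exp_log hg).symm
    have e7 : Real.exp (Real.log a) * (Real.exp ((Real.log X - Real.log a - Real.log v) * (2 / 3)) *
        Real.exp ((Real.log K + Real.log a + Real.log u) * (-(1 / 3)))) =
        Real.exp (Real.log X * (2 / 3)) *
          Real.exp ((Real.log K + Real.log u + 2 * Real.log v) * (-(1 / 3))) := by
      rw [← Real.exp_add, ← Real.exp_add, ← Real.exp_add]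
      congr 1; ring
    rw [← e7, ← e6]
    ring
  rw [e5]
  have h6 : (K * (u * v ^ 2)) ^ (-(1 / 3) : ℝ) ≤ (K * Y₁) ^ (-(1 / 3) : ℝ) := by
    apply Real.rpow_le_rpow_of_nonpos (by positivity)
    · exact mul_le_mul_of_nonneg_left h.le hK.le
    · norm_num
  gcongr

/-- outside of the window -/
lemma JE_out {D Y₀ Y₁ Y : ℝ} (hD : (0 ≤ D ∧ Y₁ ≤ D ^ 2) ∨ Y ≤ D) {d : Eis} (hd : IsPrim d)
    (hdY : (nm d : ℝ) ≤ Y) {κ : Eis} (hκ : CF κ) (h : κ ∉ JE D Y₀ Y₁ d) :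
    (nm (κ / gd κ d * (d / gd κ d) ^ 2) : ℝ) ≤ Y₀ ∨
      Y₁ < nm (κ / gd κ d * (d / gd κ d) ^ 2) := by
  rw [mem_JE hd] at h
  by_contra hc
  push Not at hc
  apply h
  refine ⟨hκ, ?_, hc.1, hc.2⟩
  obtain ⟨j, δ, hj, hδ, e1, e2, e3, e4⟩ := gd_dec hκ.1 hd
  have h2 := hc.2
  rw [e1, e2, nm_mul, nm_pow] at h2
  push_cast at h2
  rw [e2]
  apply Nat.le_floor
  rcases hD with ⟨hD0, hD⟩ | hD
  · have h3 := nm_ge_one hj
    have h4 : (nm δ : ℝ) ^ 2 ≤ D ^ 2 := by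
      calc (nm δ : ℝ) ^ 2 = 1 * (nm δ : ℝ) ^ 2 := (one_mul _).symm
        _ ≤ nm j * (nm δ : ℝ) ^ 2 := mul_le_mul_of_nonneg_right h3 (by positivity)
        _ ≤ Y₁ := h2
        _ ≤ D ^ 2 := hD
    exact (pow_le_pow_iff_left₀ (Nat.cast_nonneg _) hD0 two_ne_zero).mp h4
  · have h3 := nm_ge_one (gd_prim κ d).ne_zero
    calc (nm δ : ℝ) = 1 * nm δ := (one_mul _).symm
      _ ≤ nm (gd κ d) * nm δ := mul_le_mul_of_nonneg_right h3 (Nat.cast_nonneg _)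
      _ = nm d := e4.symm
      _ ≤ D := hdY.trans hD

lemma tl_le {B K X ρ : ℝ} (hB : 1 ≤ B) (hK : 0 < K) (hX : 0 < X) {d κ : Eis} (hd : IsPrim d)
    (hds : Squarefree d) (hκ : κ ≠ 0) (hρ : (nm (g2 κ d) : ℝ) * lm K X d κ ≤ ρ) :
    tl B K X d κ ≤ ρ ^ (3 * (B - 1)) * ((nm d : ℝ) ^ 3 *
      (3 * (X ^ (2 / 3 : ℝ) * K ^ (-(1 / 3) : ℝ))) ^ 4) * (nm κ : ℝ) ^ (-(4 / 3) : ℝ) := by
  have hκ' := nmpos hκ
  have hd1 := nm_ge_one hd.ne_zero
  have hl := lm_pos hK hX hd.ne_zero hκ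
  have hg := nmpos (g2_prim κ d).ne_zero
  set x := (nm (g2 κ d) : ℝ) * lm K X d κ with hx
  have hx0 : 0 < x := by positivity
  have h1 : (1 + (x ^ 3)⁻¹) ^ (-B) ≤ ρ ^ (3 * (B - 1)) * x ^ 3 := by
    calc (1 + (x ^ 3)⁻¹) ^ (-B) ≤ ((x ^ 3)⁻¹) ^ (-B) := by
          apply Real.rpow_le_rpow_of_nonpos (by positivity) (by linarith) (by linarith)
      _ = x ^ (3 * (B - 1)) * x ^ 3 := by
          rw [← Real.rpow_natCast x 3, ← Real.rpow_neg hx0.le, ← Real.rpow_mul hx0.le,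
            ← Real.rpow_add hx0]
          congr 1; push_cast; ring
      _ ≤ ρ ^ (3 * (B - 1)) * x ^ 3 := by
          refine mul_le_mul_of_nonneg_right ?_ (by positivity)
          exact Real.rpow_le_rpow hx0.le hρ (by nlinarith)
  have h2 : x ≤ nm d * lm K X d κ :=
    mul_le_mul_of_nonneg_right (nm_g2_le hd hds) hl.le
  have hρ0 : 0 ≤ ρ := hx0.le.trans hρ
  have h3 : lm K X d κ ≤ (3 * (X ^ (2 / 3 : ℝ) * K ^ (-(1 / 3) : ℝ))) *
      (nm κ : ℝ) ^ (-(1 / 3) : ℝ) := by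
    rw [lm_eq hK]
    have : (X / nm d) ^ (2 / 3 : ℝ) ≤ X ^ (2 / 3 : ℝ) :=
      Real.rpow_le_rpow (by positivity) (div_le_self hX.le hd1) (by norm_num)
    gcongr
  set c1 := 3 * (X ^ (2 / 3 : ℝ) * K ^ (-(1 / 3) : ℝ)) with hc1
  have hc10 : 0 < c1 := by rw [hc1]; positivity
  have h4 : lm K X d κ ^ 4 ≤ c1 ^ 4 * (nm κ : ℝ) ^ (-(4 / 3) : ℝ) := by
    calc lm K X d κ ^ 4 ≤ (c1 * (nm κ : ℝ) ^ (-(1 / 3) : ℝ)) ^ 4 :=
          pow_le_pow_left₀ hl.le h3 4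
      _ = _ := by
          rw [mul_pow]
          congr 1
          rw [← Real.rpow_natCast, ← Real.rpow_mul hκ'.le]
          norm_num
  have hρB : 0 ≤ ρ ^ (3 * (B - 1)) := Real.rpow_nonneg hρ0 _
  unfold tl
  rw [← hx]
  calc lm K X d κ * (1 + (x ^ 3)⁻¹) ^ (-B)
      ≤ lm K X d κ * (ρ ^ (3 * (B - 1)) * x ^ 3) := mul_le_mul_of_nonneg_left h1 hl.le
    _ ≤ lm K X d κ * (ρ ^ (3 * (B - 1)) * (nm d * lm K X d κ) ^ 3) := by
        gcongr
    _ = ρ ^ (3 * (B - 1)) * ((nm d : ℝ) ^ 3 * lm K X d κ ^ 4) := by ring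
    _ ≤ ρ ^ (3 * (B - 1)) * ((nm d : ℝ) ^ 3 * (c1 ^ 4 * (nm κ : ℝ) ^ (-(4 / 3) : ℝ))) := by
        gcongr
    _ = _ := by ring

lemma tl_le_lm {B K X : ℝ} (hB : 0 ≤ B) (hK : 0 < K) (hX : 0 < X) {d κ : Eis} :
    tl B K X d κ ≤ lm K X d κ := by
  have hl := lm_nonneg hK.le hX.le d κ
  unfold tl
  refine mul_le_of_le_one_right hl ?_
  apply Real.rpow_le_one_of_one_le_of_nonpos
  · have : 0 ≤ ((nm (g2 κ d) * lm K X d κ) ^ 3)⁻¹ := by positivity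
    linarith
  · linarith

/-- sums of a sub-sequence -/
lemma sum_sub_le {Y : ℝ} {α : Eis → ℂ} (hα : ∀ n, α n ≠ 0 → n ∈ S Y) {g : Eis} (hg : g ≠ 0) :
    ∑ m ∈ S Y, ‖α (g * m)‖ ≤ ∑ n ∈ S Y, ‖α n‖ := by
  have h1 : ∑ m ∈ S Y, ‖α (g * m)‖ = ∑ m ∈ (S Y).filter (fun m => α (g * m) ≠ 0), ‖α (g * m)‖ := by
    rw [Finset.sum_filter]
    refine Finset.sum_congr rfl fun m _ => ?_
    split_ifs with h
    · rfl
    · push Not at h
      rw [h, norm_zero]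
  rw [h1, ← Finset.sum_image (f := fun n => ‖α n‖) (g := fun m => g * m)
    (fun x _ y _ h => mul_left_cancel₀ hg h)]
  refine Finset.sum_le_sum_of_subset_of_nonneg ?_ fun _ _ _ => norm_nonneg _
  intro n hn
  obtain ⟨m, hm, rfl⟩ := Finset.mem_image.mp hn
  exact hα _ (Finset.mem_filter.mp hm).2

/-- the low part of a sub-sequence -/
def Lo (A K X' Z : ℝ) (β : Eis → ℂ) : ℝ := ∑ r ∈ BF Z, lm K X' 1 r * Wb A β r

lemma Lo_nonneg {A K X' : ℝ} (hK : 0 ≤ K) (hX : 0 ≤ X') (Z : ℝ) (β : Eis → ℂ) :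
    0 ≤ Lo A K X' Z β :=
  Finset.sum_nonneg fun _ _ => mul_nonneg (lm_nonneg hK hX _ _) (Wb_nonneg _ _ _)

/-- the constant of the tails -/
def Cz (A : ℝ) : ℝ := (∑' κ : Eis, (nm κ : ℝ) ^ (-(4 / 3) : ℝ)) * ∫ t, jb A t

lemma Cz_nonneg (A : ℝ) : 0 ≤ Cz A :=
  mul_nonneg (tsum_nonneg fun _ => by positivity) (integral_nonneg fun t => (jb_pos A t).le)

/-- the error of the far tails -/
def Et (A B K X Y Y₁ : ℝ) (α : Eis → ℂ) : ℝ :=
  Cz A * (3 * (X ^ (2 / 3 : ℝ) * (K * Y₁) ^ (-(1 / 3) : ℝ))) ^ (3 * (B - 1)) *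
    ((3 * (X ^ (2 / 3 : ℝ) * K ^ (-(1 / 3) : ℝ))) ^ 4 * (∑ n ∈ S Y, ‖α n‖) ^ 2)

/-- **the tail** -/
theorem tail_JE {A B K X Y D Y₀ Y₁ : ℝ} (hA : 1 < A) (hB : 1 ≤ B) (hK : 0 < K) (hX : 0 < X)
    (hY : 0 ≤ Y) (hY₁ : 0 < Y₁) (hD : (0 ≤ D ∧ Y₁ ≤ D ^ 2) ∨ Y ≤ D)
    {α : Eis → ℂ} (hα : ∀ n, α n ≠ 0 → n ∈ S Y) {d L : Eis} (hd : d ∈ S Y) (hL : IsPrim L)
    (hs : Squarefree L) :
    (∑' κ : Eis, if CF κ ∧ κ ∉ JE D Y₀ Y₁ d then tl B K X d κ * Wf A α d κ L else 0) ≤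
      nm L * Lo A K (X / nm (d * L)) (Y₀ * nm (d * L)) (sg α (d * L)) +
        (nm d : ℝ) ^ 3 * Et A B K X Y Y₁ α := by
  have hd' := (mem_S hY).1 hd
  have hdp := hd'.2.1
  set ρ := 3 * (X ^ (2 / 3 : ℝ) * (K * Y₁) ^ (-(1 / 3) : ℝ)) with hρ
  set c1 := 3 * (X ^ (2 / 3 : ℝ) * K ^ (-(1 / 3) : ℝ)) with hc1
  have hρ0 : 0 ≤ ρ := by rw [hρ]; positivity
  set F0 : ℝ := (∫ t, jb A t) * (∑ n ∈ S Y, ‖α n‖) ^ 2 with hF0
  have hjb : 0 ≤ ∫ t, jb A t := integral_nonneg fun t => (jb_pos A t).le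
  have hF00 : 0 ≤ F0 := mul_nonneg hjb (by positivity)
  have hWf : ∀ κ, Wf A α d κ L ≤ F0 := by
    intro κ
    refine (Wf_le hA hY hα hdp hL κ).trans ?_
    refine mul_le_mul_of_nonneg_left ?_ hjb
    refine pow_le_pow_left₀ (Finset.sum_nonneg fun _ _ => norm_nonneg _) ?_ 2
    have := sum_sub_le hα (mul_ne_zero hdp.ne_zero hL.ne_zero)
    simpa only [mul_assoc] using this
  have hρB : 0 ≤ ρ ^ (3 * (B - 1)) := Real.rpow_nonneg hρ0 _
  set H : Eis → ℝ := fun κ => (ρ ^ (3 * (B - 1)) * ((nm d : ℝ) ^ 3 * c1 ^ 4) * F0) *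
    (nm κ : ℝ) ^ (-(4 / 3) : ℝ) with hH
  have hsH : Summable H := (summable_inv_nm (by norm_num : (1 : ℝ) < 4 / 3)).mul_left _
  set f1 : Eis → ℝ := fun κ => if κ ∈ BF (Y₀ * nm d) then lm K X d κ * Wf A α d κ L else 0 with hf1
  have hs1 : Summable f1 := summable_of_hasFiniteSupport ((BF (Y₀ * nm d)).finite_toSet.subset
    fun κ hκ => by
      by_contra h
      apply hκ
      have h' : κ ∉ BF (Y₀ * nm d) := fun h3 => h (Finset.mem_coe.mpr h3)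
      simp only [hf1, if_neg h'])
  have hf10 : ∀ κ, 0 ≤ f1 κ := fun κ => by
    simp only [hf1]
    split_ifs
    · exact mul_nonneg (lm_nonneg hK.le hX.le _ _) (Wf_nonneg _ _ _ _ _)
    · exact le_rfl
  have hH0 : ∀ κ, 0 ≤ H κ := fun κ => by simp only [hH]; positivity
  have hle : ∀ κ : Eis, (if CF κ ∧ κ ∉ JE D Y₀ Y₁ d then tl B K X d κ * Wf A α d κ L else 0) ≤
      f1 κ + H κ := by
    intro κ
    by_cases h : CF κ ∧ κ ∉ JE D Y₀ Y₁ d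
    · rw [if_pos h]
      have hW := Wf_nonneg A α d κ L
      rcases JE_out hD hdp hd'.1 h.1 h.2 with h1 | h1
      · have h2 : κ ∈ BF (Y₀ * nm d) := mem_BF.mpr ⟨h.1, nm_low h.1.1 hdp h1⟩
        have h3 : tl B K X d κ * Wf A α d κ L ≤ f1 κ := by
          simp only [hf1, if_pos h2]
          exact mul_le_mul_of_nonneg_right (tl_le_lm (by linarith) hK hX) hW
        linarith [hH0 κ]
      · have h2 := tl_le hB hK hX hdp hd'.2.2 h.1.1 (lm_high hK hX hY₁ h.1.1 hdp h1)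
        have h3 : tl B K X d κ * Wf A α d κ L ≤ H κ := by
          calc tl B K X d κ * Wf A α d κ L
              ≤ (ρ ^ (3 * (B - 1)) * ((nm d : ℝ) ^ 3 * c1 ^ 4) * (nm κ : ℝ) ^ (-(4 / 3) : ℝ)) *
                F0 := mul_le_mul h2 (hWf κ) hW (by positivity)
            _ = _ := by simp only [hH]; ring
        linarith [hf10 κ]
    · rw [if_neg h]
      exact add_nonneg (hf10 κ) (hH0 κ)
  have hsum : Summable fun κ : Eis =>
      if CF κ ∧ κ ∉ JE D Y₀ Y₁ d then tl B K X d κ * Wf A α d κ L else 0 :=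
    Summable.of_nonneg_of_le (fun κ => by
      split_ifs
      · exact mul_nonneg (tl_nonneg hK.le hX.le _ _) (Wf_nonneg _ _ _ _ _)
      · exact le_rfl) hle (hs1.add hsH)
  refine (hsum.tsum_le_tsum hle (hs1.add hsH)).trans ?_
  rw [hs1.tsum_add hsH]
  refine add_le_add ?_ (le_of_eq ?_)
  · have e1 : ∑' κ, f1 κ = ∑ κ ∈ BF (Y₀ * nm d), lm K X d κ * Wf A α d κ L := by
      rw [tsum_eq_sum (s := BF (Y₀ * nm d)) fun κ hκ => by simp only [hf1, if_neg hκ]]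
      exact Finset.sum_congr rfl fun κ hκ => by simp only [hf1, if_pos hκ]
    rw [e1]
    unfold Lo
    rw [Finset.mul_sum]
    have hX' : 0 ≤ X / nm (d * L) := by positivity
    refine sum_tau_le (L := L) (F := fun r => (nm L : ℝ) * (lm K (X / nm (d * L)) 1 r *
      Wb A (sg α (d * L)) r)) (fun κ hκ => (mem_BF.mp hκ).1) (fun κ hκ => ?_)
      (fun r => mul_nonneg (Nat.cast_nonneg _)
        (mul_nonneg (lm_nonneg hK.le hX' _ _) (Wb_nonneg _ _ _))) fun κ hκ => ?_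
    · obtain ⟨h1, h2⟩ := mem_BF.mp hκ
      refine mem_BF.mpr ⟨cf_tau h1, ?_⟩
      have e2 := nm_tau (κ := κ) hL hs
      have hb := nm_ge_one (g2_prim κ L).ne_zero
      have ha : (nm (g1 κ L) : ℝ) ≤ nm L := by
        exact_mod_cast Div277.nm_le_of_dvd hL.ne_zero (g1_dvd_self hL hs)
      have h3 : (nm (tau κ L) : ℝ) ≤ nm κ * nm (g1 κ L) := by
        rw [e2]
        exact le_mul_of_one_le_right (Nat.cast_nonneg _) (one_le_pow₀ hb)
      rw [nm_mul]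
      push_cast
      calc (nm (tau κ L) : ℝ) ≤ nm κ * nm (g1 κ L) := h3
        _ ≤ (Y₀ * nm d) * nm L := by
            refine mul_le_mul h2 ha (Nat.cast_nonneg _) ((Nat.cast_nonneg _).trans h2)
        _ = _ := by ring
    · have h1 := (mem_BF.mp hκ).1
      show lm K X d κ * Wf A α d κ L ≤
        (nm L : ℝ) * (lm K (X / nm (d * L)) 1 (tau κ L) * Wb A (sg α (d * L)) (tau κ L))
      rw [Wf_eq_Wb hY hα hdp hL hs, lm_tau hK hX hdp.ne_zero h1.1 hL hs, mul_assoc]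
      refine mul_le_mul_of_nonneg_right ?_ (mul_nonneg (lm_nonneg hK.le hX' _ _)
        (Wb_nonneg _ _ _))
      exact_mod_cast Div277.nm_le_of_dvd hL.ne_zero (g1_dvd_self hL hs)
  · simp only [hH]
    rw [tsum_mul_left]
    unfold Et Cz
    rw [← hρ, ← hc1, hF0]
    ring

end Crest.Agent.R017.E1551
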