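import Crest.Agent.R017.E1t_551

/-!
# Row 17, block C70 (exact square), leaf E1, part u (helper551): the error `EP` by the moments of
the sub-sequences

`WS_le`, `EP_le`.
-/

set_option autoImplicit false

noncomputable section

open Complex MeasureTheory
open scoped ComplexConjugate Classical

namespace Crest.Agent.R017.E1551

open Crest.Agent.R012 Crest.Agent.R012.Eis Crest.Agent.R012.MC
open Crest.Agent.R012.LS2 (S mem_S)
open Crest.Agent.R012.Mob705 (mu pdiv mem_pdiv pp mem_pp PE)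
open Crest.Agent.R017.Dual2813 (S_of_dvd)
open Crest.Agent.R017.SqLoc829 (FQ JE JE_cf mem_JE gd gd_prim gd_dvd_left gd_dvd_right)
open Crest.Agent.R017.CM106 (CS TG)

/-- the moment of the sub-sequence `m ↦ α (g m)` at its own scale `X / N g`, same `K` -/
def Mo (A K X Y₀ Y₁ : ℝ) (α : Eis → ℂ) (g : Eis) : ℝ :=
  FW A K (X / nm g) (BF (Y₁ * nm g)) (sg α g) + Lo A K (X / nm g) (Y₀ * nm g) (sg α g)

lemma Mo_nonneg {A K X Y₀ Y₁ : ℝ} (hK : 0 ≤ K) (hX : 0 ≤ X) (α : Eis → ℂ) (g : Eis) :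
    0 ≤ Mo A K X Y₀ Y₁ α g :=
  add_nonneg (FW_nonneg hK (by positivity) _ _) (Lo_nonneg hK (by positivity) _ _)

lemma Wb_zero {A : ℝ} {β : Eis → ℂ} (h : ∀ m, β m = 0) (r : Eis) : Wb A β r = 0 := by
  unfold Wb Vt TG
  have : ∀ t, (∑' m : Eis, (fun m => β m * Weight600.pw t (nm m)) m *
      (G m * conj (sy r m))) = 0 := by
    intro t
    simp [h]
  simp only at this
  simp [h]

lemma Mo_zero {A K X Y₀ Y₁ : ℝ} {α : Eis → ℂ} {g : Eis} (h : ∀ m, α (g * m) = 0) :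
    Mo A K X Y₀ Y₁ α g = 0 := by
  unfold Mo FW Lo
  simp only [Wb_zero (β := sg α g) h, mul_zero, Finset.sum_const_zero, add_zero]

/-- **`WS` in the window `JE`** -/
theorem WS_le {A B K X Y D Y₀ Y₁ : ℝ} (hA : 1 < A) (hB : 1 ≤ B) (hK : 0 < K) (hX : 0 < X)
    (hY : 0 ≤ Y) (hY₁ : 0 < Y₁) (hD : (0 ≤ D ∧ Y₁ ≤ D ^ 2) ∨ Y ≤ D)
    {α : Eis → ℂ} (hα : ∀ n, α n ≠ 0 → n ∈ S Y) {d L : Eis} (hd : d ∈ S Y) (hL : IsPrim L)
    (hs : Squarefree L) :
    WS A B K X α (JE D Y₀ Y₁ d) d L ≤ nm L * Mo A K X Y₀ Y₁ α (d * L) +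
      (nm d : ℝ) ^ 3 * Et A B K X Y Y₁ α := by
  have hdp := ((mem_S hY).1 hd).2.1
  have h1 := tail_JE (Y₀ := Y₀) hA hB hK hX hY hY₁ hD hα hd hL hs
  have h2 := sum_in_le (A := A) hK hX hY hα hdp hL hs (J := JE D Y₀ Y₁ d)
    (J' := BF (Y₁ * nm (d * L))) JE_cf (fun κ hκ => by
      have h3 := (mem_JE hdp κ).mp hκ
      have h4 := nm_low h3.1.1 hdp h3.2.2.2
      refine mem_BF.mpr ⟨cf_tau h3.1, ?_⟩
      have e2 := nm_tau (κ := κ) hL hs
      have hb := nm_ge_one (g2_prim κ L).ne_zero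
      have ha : (nm (g1 κ L) : ℝ) ≤ nm L := by
        exact_mod_cast Div277.nm_le_of_dvd hL.ne_zero (g1_dvd_self hL hs)
      have h5 : (nm (tau κ L) : ℝ) ≤ nm κ * nm (g1 κ L) := by
        rw [e2]
        exact le_mul_of_one_le_right (Nat.cast_nonneg _) (one_le_pow₀ hb)
      rw [nm_mul]
      push_cast
      calc (nm (tau κ L) : ℝ) ≤ nm κ * nm (g1 κ L) := h5
        _ ≤ (Y₁ * nm d) * nm L :=
            mul_le_mul h4 ha (Nat.cast_nonneg _) ((Nat.cast_nonneg _).trans h4)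
        _ = _ := by ring)
  unfold WS Mo
  rw [mul_add]
  linarith

/-- the tail of `E1pos` -/
theorem tail_one {A B K X Y D Y₀ Y₁ : ℝ} (hA : 1 < A) (hB : 1 ≤ B) (hK : 0 < K) (hX : 0 < X)
    (hY : 1 ≤ Y) (hY₁ : 0 < Y₁) (hD : (0 ≤ D ∧ Y₁ ≤ D ^ 2) ∨ Y ≤ D)
    {α : Eis → ℂ} (hα : ∀ n, α n ≠ 0 → n ∈ S Y) :
    (∑' κ : Eis, if CF κ ∧ κ ∉ JE D Y₀ Y₁ 1 then tl B K X 1 κ * Wf A α 1 κ 1 else 0) ≤
      Lo A K X Y₀ α + Et A B K X Y Y₁ α := by
  have h := tail_JE (Y₀ := Y₀) hA hB hK hX (by linarith) hY₁ hD hα (one_mem_S hY) isPrim_one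
    squarefree_one
  have e1 : sg α (1 * 1) = α := by
    funext m; unfold sg; rw [one_mul, one_mul]
  rw [e1, one_mul, nm_one] at h
  simpa using h

lemma isPrim_mul_eq_one {d L : Eis} (hd : IsPrim d) (hL : IsPrim L) (h : d * L = 1) :
    d = 1 ∧ L = 1 := by
  have h1 : IsUnit d := IsUnit.of_mul_eq_one _ h
  have h2 : IsUnit L := IsUnit.of_mul_eq_one d (by rw [mul_comm]; exact h)
  exact ⟨hd.eq_of_associated isPrim_one (associated_one_iff_isUnit.mpr h1),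
    hL.eq_of_associated isPrim_one (associated_one_iff_isUnit.mpr h2)⟩

/-- the double sum over `(d, L)` -/
lemma sum_dL_le {Y : ℝ} (hY : 0 ≤ Y) {α : Eis → ℂ} (hα : ∀ n, α n ≠ 0 → n ∈ S Y)
    {M : Eis → ℝ} (hM : ∀ g, 0 ≤ M g) (hM0 : ∀ g, (∀ m, α (g * m) = 0) → M g = 0) :
    ∑ p ∈ (S Y ×ˢ S Y).erase (1, 1), (nm p.1 * nm p.2 * Div277.tau p.1 *
      (Div277.tau p.2 : ℝ) ^ 2) * M (p.1 * p.2) ≤
      ∑ g ∈ (S Y).erase 1, nm g * (Div277.tau g : ℝ) ^ 4 * M g := by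
  set P := ((S Y ×ˢ S Y).erase (1, 1)).filter (fun p => p.1 * p.2 ∈ (S Y).erase 1) with hP
  set F : Eis × Eis → ℝ := fun p => (nm p.1 * nm p.2 * Div277.tau p.1 *
      (Div277.tau p.2 : ℝ) ^ 2) * M (p.1 * p.2) with hF
  have e1 : ∑ p ∈ (S Y ×ˢ S Y).erase (1, 1), F p = ∑ p ∈ P, F p := by
    rw [hP, Finset.sum_filter]
    refine Finset.sum_congr rfl fun p hp => ?_
    split_ifs with h
    · rfl
    · have hp1 := Finset.mem_erase.mp hp
      have hp2 := Finset.mem_product.mp hp1.2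
      have d1 := (mem_S hY).1 hp2.1
      have d2 := (mem_S hY).1 hp2.2
      have hz : ∀ m, α (p.1 * p.2 * m) = 0 := by
        intro m
        by_contra h1
        apply h
        have h2 := hα _ h1
        have h3 := S_of_dvd hY h2 (d1.2.1.mul d2.2.1) (dvd_mul_right _ _)
        refine Finset.mem_erase.mpr ⟨fun h4 => hp1.1 ?_, h3⟩
        obtain ⟨h5, h6⟩ := isPrim_mul_eq_one d1.2.1 d2.2.1 h4
        exact Prod.ext h5 h6
      simp only [hF]
      rw [hM0 _ hz, mul_zero]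
  rw [e1, ← Finset.sum_fiberwise_of_maps_to (s := P) (t := (S Y).erase 1)
    (g := fun p => p.1 * p.2) (fun p hp => (Finset.mem_filter.mp hp).2)]
  refine Finset.sum_le_sum fun g hg => ?_
  have hgS := (mem_S hY).1 (Finset.mem_of_mem_erase hg)
  have hg0 : g ≠ 0 := hgS.2.1.ne_zero
  have hterm : ∀ p ∈ P.filter (fun p => p.1 * p.2 = g), F p ≤
      nm g * (Div277.tau g : ℝ) ^ 3 * M g := by
    intro p hp
    obtain ⟨hp1, hp2⟩ := Finset.mem_filter.mp hp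
    have t1 : (Div277.tau p.1 : ℝ) ≤ Div277.tau g := by
      exact_mod_cast Div277.tau_le_of_dvd hg0 (Dvd.intro _ hp2)
    have t2 : (Div277.tau p.2 : ℝ) ≤ Div277.tau g := by
      exact_mod_cast Div277.tau_le_of_dvd hg0 (Dvd.intro_left _ hp2)
    have e2 : (nm p.1 : ℝ) * nm p.2 = nm g := by
      rw [← Nat.cast_mul, ← nm_mul, hp2]
    have t3 : (0 : ℝ) ≤ Div277.tau p.1 := Nat.cast_nonneg _
    have t4 : (0 : ℝ) ≤ Div277.tau p.2 := Nat.cast_nonneg _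
    have t5 : (Div277.tau p.1 : ℝ) * (Div277.tau p.2 : ℝ) ^ 2 ≤ (Div277.tau g : ℝ) ^ 3 := by
      calc (Div277.tau p.1 : ℝ) * (Div277.tau p.2 : ℝ) ^ 2
          ≤ (Div277.tau g : ℝ) * (Div277.tau g : ℝ) ^ 2 := by gcongr
        _ = _ := by ring
    simp only [hF]
    rw [hp2]
    calc (nm p.1 * nm p.2 * Div277.tau p.1 * (Div277.tau p.2 : ℝ) ^ 2) * M g
        = nm g * ((Div277.tau p.1 : ℝ) * (Div277.tau p.2 : ℝ) ^ 2) * M g := by
          rw [← e2]; ring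
      _ ≤ nm g * (Div277.tau g : ℝ) ^ 3 * M g := by
          refine mul_le_mul_of_nonneg_right ?_ (hM g)
          exact mul_le_mul_of_nonneg_left t5 (Nat.cast_nonneg _)
  have hcard : ((P.filter (fun p => p.1 * p.2 = g)).card : ℝ) ≤ Div277.tau g := by
    have h1 : (P.filter (fun p => p.1 * p.2 = g)).card ≤ (Div277.dvs g).card := by
      refine Finset.card_le_card_of_injOn (fun p => p.1) (fun p hp => ?_) ?_
      · obtain ⟨hp1, hp2⟩ := Finset.mem_filter.mp hp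
        have hp3 := (Finset.mem_filter.mp hp1).1
        have hp4 := Finset.mem_product.mp (Finset.mem_of_mem_erase hp3)
        exact (Div277.mem_dvs hg0).mpr ⟨((mem_S hY).1 hp4.1).2.1, Dvd.intro _ hp2⟩
      · intro p hp q hq h
        have hp2 := (Finset.mem_filter.mp hp).2
        have hq2 := (Finset.mem_filter.mp hq).2
        simp only at h
        have h0 : p.1 ≠ 0 := by
          intro h3; rw [h3, zero_mul] at hp2; exact hg0 hp2.symm
        refine Prod.ext h ?_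
        rw [← h] at hq2
        exact mul_left_cancel₀ h0 (hp2.trans hq2.symm)
    exact_mod_cast h1
  calc ∑ p ∈ P.filter (fun p => p.1 * p.2 = g), F p
      ≤ ∑ _p ∈ P.filter (fun p => p.1 * p.2 = g), nm g * (Div277.tau g : ℝ) ^ 3 * M g :=
        Finset.sum_le_sum hterm
    _ = (P.filter (fun p => p.1 * p.2 = g)).card * (nm g * (Div277.tau g : ℝ) ^ 3 * M g) := by
        rw [Finset.sum_const, nsmul_eq_mul]
    _ ≤ Div277.tau g * (nm g * (Div277.tau g : ℝ) ^ 3 * M g) := by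
        refine mul_le_mul_of_nonneg_right hcard ?_
        exact mul_nonneg (by positivity) (hM g)
    _ = _ := by ring

/-- **`EP` by the moments of the sub-sequences** -/
theorem EP_le {A B K X Y D Y₀ Y₁ δ : ℝ} (hA : 1 < A) (hB : 1 ≤ B) (hK : 0 < K) (hX : 0 < X)
    (hY : 1 ≤ Y) (hY₁ : 0 < Y₁) (hD : (0 ≤ D ∧ Y₁ ≤ D ^ 2) ∨ Y ≤ D) (hδ : 0 < δ)
    {α : Eis → ℂ} (hα : ∀ n, α n ≠ 0 → n ∈ S Y) :
    EP A B K X Y δ α (JE D Y₀ Y₁) ≤ δ * (Mo A K X Y₀ Y₁ α 1 + Et A B K X Y Y₁ α) +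
      δ⁻¹ * (∑ g ∈ (S Y).erase 1, nm g * (Div277.tau g : ℝ) ^ 4 * Mo A K X Y₀ Y₁ α g +
        (∑ d ∈ S Y, (nm d : ℝ) ^ 4 * Div277.tau d) * (∑ L ∈ S Y, (Div277.tau L : ℝ) ^ 2) *
          Et A B K X Y Y₁ α) := by
  have hY0 : 0 ≤ Y := by linarith
  have h1S := one_mem_S hY
  have hE : 0 ≤ Et A B K X Y Y₁ α := by
    unfold Et
    have := Cz_nonneg A
    positivity
  set J := JE D Y₀ Y₁ with hJ
  set E := Et A B K X Y Y₁ α with hEdef
  set M := Mo A K X Y₀ Y₁ α with hM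
  have hM0 : ∀ g, 0 ≤ M g := fun g => Mo_nonneg hK.le hX.le α g
  have hW : ∀ d ∈ S Y, ∀ L ∈ S Y, WS A B K X α (J d) d L ≤ nm L * M (d * L) + (nm d : ℝ) ^ 3 * E :=
    fun d hd L hL => WS_le hA hB hK hX hY0 hY₁ hD hα hd ((mem_S hY0).1 hL).2.1
      ((mem_S hY0).1 hL).2.2
  unfold EP
  refine add_le_add ?_ ?_
  · refine mul_le_mul_of_nonneg_left ?_ hδ.le
    have := hW 1 h1S 1 h1S
    rw [nm_one, one_mul] at this
    simpa using this
  · refine mul_le_mul_of_nonneg_left ?_ (inv_pos.mpr hδ).le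
    -- the left side as a sum over pairs
    set G' : Eis × Eis → ℝ := fun p => nm p.1 * Div277.tau p.1 * ((Div277.tau p.2 : ℝ) ^ 2 *
      WS A B K X α (J p.1) p.1 p.2) with hG
    have htau1 : (Div277.tau (1 : Eis) : ℝ) = 1 := by
      have : Div277.tau (1 : Eis) = 1 := by
        have h9 : ((pdiv (1 : Eis)).card : ℕ) = Div277.tau 1 := rfl
        rw [← h9, pdiv_one, Finset.card_singleton]
      rw [this]; norm_num
    have e1 : ∑ L ∈ (S Y).erase 1, (Div277.tau L : ℝ) ^ 2 * WS A B K X α (J 1) 1 L +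
        ∑ d ∈ (S Y).erase 1, (nm d * Div277.tau d *
          ∑ L ∈ S Y, (Div277.tau L : ℝ) ^ 2 * WS A B K X α (J d) d L) =
        ∑ p ∈ (S Y ×ˢ S Y).erase (1, 1), G' p := by
      have e2 := Finset.add_sum_erase (S Y ×ˢ S Y) G' (Finset.mem_product.mpr ⟨h1S, h1S⟩ :
        ((1, 1) : Eis × Eis) ∈ S Y ×ˢ S Y)
      have e3 : ∑ p ∈ S Y ×ˢ S Y, G' p = ∑ d ∈ S Y, (nm d * Div277.tau d *
          ∑ L ∈ S Y, (Div277.tau L : ℝ) ^ 2 * WS A B K X α (J d) d L) := by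
        rw [Finset.sum_product]
        refine Finset.sum_congr rfl fun d _ => ?_
        rw [Finset.mul_sum]
      have e4 := Finset.add_sum_erase (S Y) (fun d => (nm d * Div277.tau d *
          ∑ L ∈ S Y, (Div277.tau L : ℝ) ^ 2 * WS A B K X α (J d) d L)) h1S
      have e5 := Finset.add_sum_erase (S Y) (fun L =>
        (Div277.tau L : ℝ) ^ 2 * WS A B K X α (J 1) 1 L) h1S
      have e6 : G' (1, 1) = (Div277.tau (1 : Eis) : ℝ) ^ 2 * WS A B K X α (J 1) 1 1 := by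
        simp only [hG]
        rw [nm_one, htau1]; push_cast; ring
      have e7 : ((nm (1 : Eis) : ℝ) * Div277.tau 1 *
          ∑ L ∈ S Y, (Div277.tau L : ℝ) ^ 2 * WS A B K X α (J 1) 1 L) =
          ∑ L ∈ S Y, (Div277.tau L : ℝ) ^ 2 * WS A B K X α (J 1) 1 L := by
        rw [nm_one, htau1]; push_cast; ring
      linarith
    rw [e1]
    have h2 : ∀ p ∈ (S Y ×ˢ S Y).erase (1, 1), G' p ≤ (nm p.1 * nm p.2 * Div277.tau p.1 *
        (Div277.tau p.2 : ℝ) ^ 2) * M (p.1 * p.2) +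
        ((nm p.1 : ℝ) ^ 4 * Div277.tau p.1) * (Div277.tau p.2 : ℝ) ^ 2 * E := by
      intro p hp
      have hp2 := Finset.mem_product.mp (Finset.mem_of_mem_erase hp)
      have h3 := hW p.1 hp2.1 p.2 hp2.2
      have h4 : (0 : ℝ) ≤ nm p.1 * Div277.tau p.1 * (Div277.tau p.2 : ℝ) ^ 2 := by positivity
      have h5 := mul_le_mul_of_nonneg_left h3 h4
      simp only [hG]
      calc _ = nm p.1 * Div277.tau p.1 * (Div277.tau p.2 : ℝ) ^ 2 *
            WS A B K X α (J p.1) p.1 p.2 := by ring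
        _ ≤ _ := h5
        _ = _ := by ring
    refine (Finset.sum_le_sum h2).trans ?_
    rw [Finset.sum_add_distrib]
    refine add_le_add (sum_dL_le hY0 hα hM0 (fun g hg => Mo_zero hg)) ?_
    refine (Finset.sum_le_sum_of_subset_of_nonneg (Finset.erase_subset _ _)
      (fun p _ _ => by positivity)).trans (le_of_eq ?_)
    rw [Finset.sum_product, Finset.sum_mul_sum, Finset.sum_mul]
    refine Finset.sum_congr rfl fun d _ => ?_
    rw [Finset.sum_mul]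

end Crest.Agent.R017.E1551
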