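import Crest.Agent.R017.E1s_551
import Crest.Agent.R017.E1u_551

/-!
# Row 17, block C70 (exact square), leaf E1, part v (helper551): `E1pos` in the window `JE`, all
errors expressed by the moments `Mo` of the sub-sequences
-/

set_option autoImplicit false

noncomputable section

open Complex MeasureTheory
open scoped ComplexConjugate Classical

namespace Crest.Agent.R017.E1551

open Crest.Agent.R012 Crest.Agent.R012.Eis Crest.Agent.R012.MC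
open Crest.Agent.R012.LS2 (S mem_S)
open Crest.Agent.R017.CM106 (CS TG)
open Crest.Agent.R017.SqLoc829 (JE JE_cf)
open Crest.Agent.R017.C70 (JW XJ)

lemma JE_one_eq {D Y₀ Y₁ : ℝ} (hD : 1 ≤ D) :
    JE D Y₀ Y₁ 1 = (BF Y₁).filter (fun κ => Y₀ < nm κ) := by
  ext κ
  rw [mem_JE_one hD, Finset.mem_filter, mem_BF]
  tauto

/-- **E1, positive form, in the window.** -/
theorem E1posJ : ∃ c : ℝ, 0 < c ∧ ∀ del : ℝ, 0 < del → ∃ w : ℝ → ℝ, Wgt w ∧ (∀ x, 0 ≤ w x) ∧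
    ∀ A B : ℝ, 1 < A → 1 ≤ B → ∃ C : ℝ, 0 ≤ C ∧
    ∀ K X Y η D Y₀ Y₁ : ℝ, 0 < K → 0 < X → 1 ≤ Y → 0 < η → η ≤ 1 → 0 < Y₁ →
      ((0 ≤ D ∧ Y₁ ≤ D ^ 2) ∨ Y ≤ D) → ∀ α : Eis → ℂ, Adm Y X η α → ∀ δ : ℝ, 0 < δ → δ ≤ 1 →
      c * (K / X) * ∑ κ ∈ (JE D Y₀ Y₁ 1).filter (fun κ => (3 : ℤ) ∣ κ.im),
          min 1 (lm K X 1 κ) * ‖TG α κ‖ ^ 2 ≤
        Dg w K Y α + 2 * cP w * K ^ (2 / 3 : ℝ) * (XJ (JW D Y₀ Y₁) α).re - SqP w K α +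
        del * (K / X) * ∑ κ ∈ (JE D Y₀ Y₁ 1).filter (fun κ => ¬ (3 : ℤ) ∣ κ.im),
          min 1 (lm K X 1 κ) * ‖TG α κ‖ ^ 2 +
        C * (K / X) * (η * (∑ κ ∈ JE D Y₀ Y₁ 1, min 1 (lm K X 1 κ) *
            ∫ t, jb A t * ‖Vt α κ (t / η)‖ ^ 2) + Lo A K X Y₀ α) +
        C * (1 + Real.log Y) * (K / X) * (δ * Mo A K X Y₀ Y₁ α 1 +
          δ⁻¹ * (∑ g ∈ (S Y).erase 1, nm g * (Div277.tau g : ℝ) ^ 4 * Mo A K X Y₀ Y₁ α g) +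
          δ⁻¹ * (2 + (∑ d ∈ S Y, (nm d : ℝ) ^ 4 * Div277.tau d) *
            (∑ L ∈ S Y, (Div277.tau L : ℝ) ^ 2)) * Et A B K X Y Y₁ α) := by
  obtain ⟨c, hc, h⟩ := E1pos
  refine ⟨c, hc, fun del hdel => ?_⟩
  obtain ⟨w, hw, hw0, h1⟩ := h del hdel
  refine ⟨w, hw, hw0, fun A B hA hB => ?_⟩
  obtain ⟨C, hC, h2⟩ := h1 A B hA hB
  refine ⟨C, hC, fun K X Y η D Y₀ Y₁ hK hX hY hη hη1 hY₁ hD α hα δ hδ hδ1 => ?_⟩
  have hY0 : 0 ≤ Y := by linarith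
  have hlog := Real.log_nonneg hY
  have h3 := h2 K X Y η hK hX hY hη hη1 α hα (JE D Y₀ Y₁) (fun d κ hκ => JE_cf κ hκ) δ hδ hδ1
  have h4 := EP_le (A := A) (B := B) (Y₀ := Y₀) hA hB hK hX hY hY₁ hD hδ hα.sup
  have h5 := tail_one (A := A) (B := B) (Y₀ := Y₀) hA hB hK hX hY hY₁ hD hα.sup
  have e1 : (Mn w K Y α (JE D Y₀ Y₁)).re =
      2 * cP w * K ^ (2 / 3 : ℝ) * (XJ (JW D Y₀ Y₁) α).re := by
    rw [Mn_JE hY0 hα.sup, Complex.re_ofReal_mul]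
  rw [e1] at h3
  have hE : 0 ≤ Et A B K X Y Y₁ α := by
    unfold Et
    have := Cz_nonneg A
    positivity
  have hδi : 1 ≤ δ⁻¹ := (one_le_inv₀ hδ).mpr hδ1
  set I1 := ∑ κ ∈ JE D Y₀ Y₁ 1, min 1 (lm K X 1 κ) * ∫ t, jb A t * ‖Vt α κ (t / η)‖ ^ 2
  set Tl := ∑' κ : Eis, if CF κ ∧ κ ∉ JE D Y₀ Y₁ 1 then tl B K X 1 κ * Wf A α 1 κ 1 else 0
  set M1 := Mo A K X Y₀ Y₁ α 1
  set Mg := ∑ g ∈ (S Y).erase 1, nm g * (Div277.tau g : ℝ) ^ 4 * Mo A K X Y₀ Y₁ α g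
  set Ct := (∑ d ∈ S Y, (nm d : ℝ) ^ 4 * Div277.tau d) * (∑ L ∈ S Y, (Div277.tau L : ℝ) ^ 2)
    with hCt
  have hCt0 : 0 ≤ Ct := by rw [hCt]; positivity
  set E := Et A B K X Y Y₁ α
  clear_value I1 Tl M1 Mg Ct E
  have hP : 0 ≤ C * (K / X) := by positivity
  have hP2 : 0 ≤ C * (1 + Real.log Y) * (K / X) := by positivity
  have h6 : C * (K / X) * (η * I1 + Tl) ≤ C * (K / X) * (η * I1 + Lo A K X Y₀ α) +
      C * (1 + Real.log Y) * (K / X) * (δ⁻¹ * E) := by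
    have h7 : C * (K / X) * (η * I1 + Tl) ≤ C * (K / X) * (η * I1 + (Lo A K X Y₀ α + E)) :=
      mul_le_mul_of_nonneg_left (by linarith) hP
    have h8 : C * (K / X) * E ≤ C * (1 + Real.log Y) * (K / X) * (δ⁻¹ * E) := by
      have h9 : C * (K / X) * E ≤ C * (K / X) * (δ⁻¹ * E) :=
        mul_le_mul_of_nonneg_left (le_mul_of_one_le_left hE hδi) hP
      refine h9.trans ?_
      refine mul_le_mul_of_nonneg_right ?_ (by positivity)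
      refine mul_le_mul_of_nonneg_right ?_ (by positivity)
      nlinarith
    calc C * (K / X) * (η * I1 + Tl) ≤ C * (K / X) * (η * I1 + (Lo A K X Y₀ α + E)) := h7
      _ = C * (K / X) * (η * I1 + Lo A K X Y₀ α) + C * (K / X) * E := by ring
      _ ≤ _ := by linarith
  have h10 := mul_le_mul_of_nonneg_left h4 hP2
  have h11 : δ * E ≤ δ⁻¹ * E := mul_le_mul_of_nonneg_right (by linarith) hE
  have h12 : C * (1 + Real.log Y) * (K / X) * (δ * (M1 + E) + δ⁻¹ * (Mg + Ct * E)) ≤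
      C * (1 + Real.log Y) * (K / X) * (δ * M1 + δ⁻¹ * Mg + δ⁻¹ * (1 + Ct) * E) := by
    refine mul_le_mul_of_nonneg_left ?_ hP2
    calc δ * (M1 + E) + δ⁻¹ * (Mg + Ct * E) = δ * M1 + δ⁻¹ * Mg + δ⁻¹ * Ct * E + δ * E := by ring
      _ ≤ δ * M1 + δ⁻¹ * Mg + δ⁻¹ * Ct * E + δ⁻¹ * E := by linarith
      _ = _ := by ring
  have e2 : C * (1 + Real.log Y) * (K / X) * (δ * M1 + δ⁻¹ * Mg + δ⁻¹ * (2 + Ct) * E) =
      C * (1 + Real.log Y) * (K / X) * (δ * M1 + δ⁻¹ * Mg + δ⁻¹ * (1 + Ct) * E) +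
      C * (1 + Real.log Y) * (K / X) * (δ⁻¹ * E) := by ring
  rw [e2]
  linarith

end Crest.Agent.R017.E1551
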