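import Crest.Agent.R017.E1v_551

/-!
# Row 17, block C70 (exact square), leaf E1, part x (helper551): the unsigned E1 in the window
`JE`, errors by the moments `Mo` of the sub-sequences
-/

set_option autoImplicit false

noncomputable section

open Complex MeasureTheory
open scoped ComplexConjugate Classical

namespace Crest.Agent.R017.E1551

open Crest.Agent.R012 Crest.Agent.R012.Eis Crest.Agent.R012.MC
open Crest.Agent.R012.LS2 (S mem_S)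
open Crest.Agent.R012.Mob705 (pdiv)
open Crest.Agent.R017.CM106 (CS TG)
open Crest.Agent.R017.SqLoc829 (JE JE_cf)
open Crest.Agent.R017.C70 (JW XJ)

lemma tau_one551 : (Div277.tau (1 : Eis) : ℝ) = 1 := by
  have : Div277.tau (1 : Eis) = 1 := by
    have h9 : ((pdiv (1 : Eis)).card : ℕ) = Div277.tau 1 := rfl
    rw [← h9, pdiv_one, Finset.card_singleton]
  rw [this]; norm_num

/-- **E1, unsigned, in the window.** -/
theorem E1_finalJ {w : ℝ → ℝ} (hw : Wgt w) {R : ℝ} (hR : 0 ≤ R) {A B : ℝ} (hA : 1 < A)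
    (hB : 1 ≤ B) : ∃ C : ℝ, 0 ≤ C ∧ ∀ K X Y D Y₀ Y₁ : ℝ, 0 < K → 0 < X → 1 ≤ Y → 0 < Y₁ →
      ((0 ≤ D ∧ Y₁ ≤ D ^ 2) ∨ Y ≤ D) → ∀ α : Eis → ℂ, Adm Y X R α →
      ‖((SqP w K α : ℝ) : ℂ) - ((Dg w K Y α : ℝ) : ℂ) -
        ((2 * cP w * K ^ (2 / 3 : ℝ) : ℝ) : ℂ) * XJ (JW D Y₀ Y₁) α‖ ≤
        C * (1 + Real.log Y) * (K / X) *
          (∑ g ∈ S Y, nm g * (Div277.tau g : ℝ) ^ 4 * Mo A K X Y₀ Y₁ α g +
          (∑ d ∈ S Y, (nm d : ℝ) ^ 4 * Div277.tau d) * (∑ L ∈ S Y, (Div277.tau L : ℝ) ^ 2) *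
            Et A B K X Y Y₁ α) := by
  obtain ⟨C, hC, h1⟩ := E1_final hw hR hA hB
  refine ⟨C, hC, fun K X Y D Y₀ Y₁ hK hX hY hY₁ hD α hα => ?_⟩
  have hY0 : 0 ≤ Y := by linarith
  have hlog := Real.log_nonneg hY
  have h2 := h1 K X Y hK hX hY α hα (JE D Y₀ Y₁) (fun d κ hκ => JE_cf κ hκ)
  rw [Mn_JE hY0 hα.sup] at h2
  refine h2.trans (mul_le_mul_of_nonneg_left ?_ (by positivity))
  have h1S := one_mem_S hY
  set J := JE D Y₀ Y₁ with hJ
  set E := Et A B K X Y Y₁ α with hEdef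
  set M := Mo A K X Y₀ Y₁ α with hM
  have hM0 : ∀ g, 0 ≤ M g := fun g => Mo_nonneg hK.le hX.le α g
  have hE : 0 ≤ E := by
    rw [hEdef]; unfold Et
    have := Cz_nonneg A
    positivity
  have hW : ∀ d ∈ S Y, ∀ L ∈ S Y, WS A B K X α (J d) d L ≤ nm L * M (d * L) + (nm d : ℝ) ^ 3 * E :=
    fun d hd L hL => WS_le hA hB hK hX hY0 hY₁ hD hα.sup hd ((mem_S hY0).1 hL).2.1
      ((mem_S hY0).1 hL).2.2
  have e3 : ∑ d ∈ S Y, (nm d * Div277.tau d *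
      ∑ L ∈ S Y, (Div277.tau L : ℝ) ^ 2 * WS A B K X α (J d) d L) =
      ∑ p ∈ S Y ×ˢ S Y, nm p.1 * Div277.tau p.1 * ((Div277.tau p.2 : ℝ) ^ 2 *
      WS A B K X α (J p.1) p.1 p.2) := by
    rw [Finset.sum_product]
    refine Finset.sum_congr rfl fun d _ => ?_
    rw [Finset.mul_sum]
  rw [e3]
  have h4 : ∀ p ∈ S Y ×ˢ S Y, nm p.1 * Div277.tau p.1 * ((Div277.tau p.2 : ℝ) ^ 2 *
      WS A B K X α (J p.1) p.1 p.2) ≤ (nm p.1 * nm p.2 * Div277.tau p.1 *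
        (Div277.tau p.2 : ℝ) ^ 2) * M (p.1 * p.2) +
        ((nm p.1 : ℝ) ^ 4 * Div277.tau p.1) * (Div277.tau p.2 : ℝ) ^ 2 * E := by
    intro p hp
    have hp2 := Finset.mem_product.mp hp
    have h3 := hW p.1 hp2.1 p.2 hp2.2
    have h4 : (0 : ℝ) ≤ nm p.1 * Div277.tau p.1 * (Div277.tau p.2 : ℝ) ^ 2 := by positivity
    have h5 := mul_le_mul_of_nonneg_left h3 h4
    calc _ = nm p.1 * Div277.tau p.1 * (Div277.tau p.2 : ℝ) ^ 2 *
          WS A B K X α (J p.1) p.1 p.2 := by ring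
      _ ≤ _ := h5
      _ = _ := by ring
  refine (Finset.sum_le_sum h4).trans ?_
  rw [Finset.sum_add_distrib]
  refine add_le_add ?_ (le_of_eq ?_)
  · rw [← Finset.add_sum_erase (S Y ×ˢ S Y) _ (Finset.mem_product.mpr ⟨h1S, h1S⟩ :
        ((1, 1) : Eis × Eis) ∈ S Y ×ˢ S Y), ← Finset.add_sum_erase (S Y) _ h1S]
    refine add_le_add (le_of_eq ?_) (sum_dL_le hY0 hα.sup hM0 (fun g hg => Mo_zero hg))
    simp only [nm_one, tau_one551, one_mul]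
    push_cast
    ring
  · rw [Finset.sum_product, Finset.sum_mul_sum, Finset.sum_mul]
    refine Finset.sum_congr rfl fun d _ => ?_
    rw [Finset.sum_mul]

end Crest.Agent.R017.E1551
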